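import Claimed.Agent.R289.Tr.AccW
import Claimed.Agent.R289.Pl.Geo
import Claimed.Agent.R289.Arm.Strand
import Claimed.Agent.R289.Del.Bulk

/-!
# Row 289 (S0537, Cardy for Poisson-Voronoi), unit TR, TR38 = "MOUTH ACCESSIBLE", Tr/AccWM : (W1) ON A GEOMETRIC TRIANGULATED PLANE, WITH DARTS AND STRANDS      (owner helper206; prefix `pvaw_`, defs `pvaw*`, `Pvaw*`)

`Tr/AccW.lean` proves (W1) of `origin/helper211:notes/R289/W2_211.md` v2 for triples of sites.      Here: the same for `T : PvMap V D`, `pos : V → ℂ`, `G : PlGeo T pos` (`Pl/Geo`, 172), faces = darts up to `T.SF`, `K = T.real pos A`.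
* sec. 0  `pvawT T pos d` (the triple of a dart), `PvawDs T d d'` (one step of a wall: `opp (nxt d)` or `opp (nxt (nxt d))`), dictionary `pvaw_T_F`, `pvaw_T_Fo`, `pvaw_real_K`, `pvaw_ds_step`, `pvaw_ds_strand`
* sec. 1  incidence: `pvaw_geo_mid_face`, `pvaw_geo_rot` (`PvawRot` of the triples ⟹ `T.SF`)
* sec. 2  the polygon `pvawP T pos a n = pvawW (fun i => pvawT T pos (a i)) n` of a sequence of darts: `pvaw_geo_W_sub`, **`pvaw_geo_W_disj`**
* sec. 3  `pvaw_round'` (several triples of the family may name the face `ψ`), **`pvaw_geo_W1`**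
* sec. 4  strands `a i = pvasIt T s d i` (`Arm/Strand`, 158): **`pvaw_strand_W1`**;   `K`: `pvaw_geo_K_compact`, `pvaw_geo_K_conn`
* sec. 5  AT THE MODEL: `pvaw_geo_del : DelGood Y → PlGeo (delbPl Y).toMap Subtype.val` (`= pvxT ω`, `pvxPos ω` of `Defs/TrModel`)
-/

set_option autoImplicit false

namespace Claimed.Agent.R289

open Set Metric

variable {V D : Type} {T : PvMap V D} {pos : V → ℂ}

/-! ## 0. dictionary -/

/-- the triple of a dart -/
def pvawT (T : PvMap V D) (pos : V → ℂ) (d : D) : ℂ × ℂ × ℂ := (pos (T.src d), pos (T.tgt d), pos (T.apex d))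

/-- one step of a wall -/
def PvawDs (T : PvMap V D) (d d' : D) : Prop := d' = T.opp (T.nxt d) ∨ d' = T.opp (T.nxt (T.nxt d))

/-- the polygon of a sequence of darts -/
def pvawP (T : PvMap V D) (pos : V → ℂ) (a : ℕ → D) (n : ℕ) : Set ℂ := pvawW (fun i => pvawT T pos (a i)) n

theorem pvaw_m_eqns_cite : True := by
  have := @pvawT.eq_1; have := @PvawDs.eq_1; have := @pvawP.eq_1
  trivial

theorem pvaw_T_F (T : PvMap V D) (pos : V → ℂ) (d : D) : pvawF (pvawT T pos d) = T.tri pos d := rfl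

theorem pvaw_T_Fo (T : PvMap V D) (pos : V → ℂ) (d : D) : pvawFo (pvawT T pos d) = T.trio pos d := rfl

theorem pvaw_real_K (T : PvMap V D) (pos : V → ℂ) (A : Set D) : pvawK (pvawT T pos '' A) = T.real pos A := by
  ext x
  rw [pvaw_K_mem]
  constructor
  · rintro ⟨f, ⟨d, hd, rfl⟩, hx⟩
    exact ⟨d, hd, hx⟩
  · rintro ⟨d, hd, hx⟩
    exact ⟨_, ⟨d, hd, rfl⟩, hx⟩

theorem pvaw_ds_step {d d' : D} (h : PvawDs T d d') : PvawStep (pvawT T pos d) (pvawT T pos d') := by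
  rcases h with rfl | rfl
  · right
    refine ⟨?_, ?_⟩
    · show pos (T.src (T.opp (T.nxt d))) = pos (T.apex d)
      rw [T.src_opp', T.tgt_nxt]
    · show pos (T.tgt (T.opp (T.nxt d))) = pos (T.tgt d)
      rw [T.tgt_opp, T.src_nxt]
  · left
    refine ⟨?_, ?_⟩
    · show pos (T.src (T.opp (T.nxt (T.nxt d)))) = pos (T.src d)
      rw [T.src_opp', T.tgt_nxt2]
    · show pos (T.tgt (T.opp (T.nxt (T.nxt d)))) = pos (T.apex d)
      rw [T.tgt_opp, T.src_nxt2]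

/-- a strand steps like a wall -/
theorem pvaw_ds_strand (T : PvMap V D) (s : V → Bool) (d : D) (i : ℕ) : PvawDs T (pvasIt T s d i) (pvasIt T s d (i + 1)) := by
  rw [pvas_it_succ]
  unfold pvasStep
  split_ifs
  · exact Or.inl rfl
  · exact Or.inr rfl

/-! ## 1. incidence -/

theorem pvaw_sf_nxt {d e : D} (h : T.SF (T.nxt d) e) : T.SF d e := by
  rcases h with h | h | h
  · exact Or.inr (Or.inl h)
  · exact Or.inr (Or.inr h)
  · rw [T.nxt3] at h
    exact Or.inl h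

theorem pvaw_mid_sego (T : PvMap V D) (pos : V → ℂ) (d : D) : pvawM (pvawT T pos d) ∈ T.sego pos d := by
  refine ⟨1 / 2, 1 / 2, by norm_num, by norm_num, by norm_num, ?_⟩
  show (1 / 2 : ℝ) • pos (T.src d) + (1 / 2 : ℝ) • pos (T.tgt d) = (pos (T.src d) + pos (T.tgt d)) / 2
  simp only [Complex.real_smul]
  push_cast
  ring

/-- the faces which contain the midpoint of the crossed edge -/
theorem pvaw_geo_mid_face (G : PlGeo T pos) {d d' e : D} (h : PvawDs T d d') (hm : pvawM (pvawT T pos d') ∈ T.tri pos e) : T.SF d e ∨ T.SF d' e := by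
  rcases G.inc_edge d' e _ (pvaw_mid_sego T pos d') hm with h1 | h1
  · exact Or.inr h1
  · left
    rcases h with rfl | rfl
    · rw [T.opp_opp] at h1
      exact pvaw_sf_nxt h1
    · rw [T.opp_opp] at h1
      exact pvaw_sf_nxt (pvaw_sf_nxt h1)

theorem pvaw_geo_bary (G : PlGeo T pos) (d : D) : pvawB (pvawT T pos d) ∈ T.trio pos d := dela_bar_mem (G.orient d)

theorem pvaw_geo_mid (G : PlGeo T pos) (d : D) : pvawM (pvawT T pos d) ∈ T.tri pos d := pvaw_mid_mem (G.orient d)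

/-- the midpoint of the next dart lies in the closed face -/
theorem pvaw_geo_step_mid (G : PlGeo T pos) {d d' : D} (h : PvawDs T d d') : pvawM (pvawT T pos d') ∈ T.tri pos d := by
  have h1 : pvawM (pvawT T pos d') ∈ T.seg pos (T.opp d') := by
    rw [plg_seg_opp]
    exact plg_sego_sub_seg T pos d' (pvaw_mid_sego T pos d')
  have h2 := plg_seg_sub_tri G (T.opp d') h1
  rcases h with rfl | rfl
  · rwa [T.opp_opp, plg_tri_nxt] at h2
  · rwa [T.opp_opp, plg_tri_nxt, plg_tri_nxt] at h2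

/-- triples which are rotations of each other belong to the same face -/
theorem pvaw_geo_rot (G : PlGeo T pos) {d e : D} (h : PvawRot (pvawT T pos d) (pvawT T pos e)) : T.SF d e := by
  refine G.inc_int d e _ (pvaw_geo_bary G d) ?_
  have hb := plg_trio_sub_tri T pos d (pvaw_geo_bary G d)
  have e1 : T.tri pos e = T.tri pos d := by
    unfold PvMap.tri
    rcases h with ⟨h1, h2, h3⟩ | ⟨h1, h2, h3⟩ | ⟨h1, h2, h3⟩
    · have h1 : pos (T.src e) = pos (T.src d) := h1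
      have h2 : pos (T.tgt e) = pos (T.tgt d) := h2
      have h3 : pos (T.apex e) = pos (T.apex d) := h3
      rw [h1, h2, h3]
    · have h1 : pos (T.src e) = pos (T.tgt d) := h1
      have h2 : pos (T.tgt e) = pos (T.apex d) := h2
      have h3 : pos (T.apex e) = pos (T.src d) := h3
      rw [h1, h2, h3, dela_cyc]
    · have h1 : pos (T.src e) = pos (T.apex d) := h1
      have h2 : pos (T.tgt e) = pos (T.src d) := h2
      have h3 : pos (T.apex e) = pos (T.tgt d) := h3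
      rw [h1, h2, h3, dela_cyc, dela_cyc]
  rw [e1]
  exact hb

/-! ## 2. the polygon of a sequence of darts -/

theorem pvaw_geo_link_sub (G : PlGeo T pos) {d d' : D} (h : PvawDs T d d') :
    segment ℝ (pvawB (pvawT T pos d)) (pvawM (pvawT T pos d')) ∪ segment ℝ (pvawM (pvawT T pos d')) (pvawB (pvawT T pos d')) ⊆ T.tri pos d ∪ T.tri pos d' := by
  refine union_subset_union ?_ ?_
  · exact (dela_convex _ _ _).segment_subset (plg_trio_sub_tri T pos d (pvaw_geo_bary G d)) (pvaw_geo_step_mid G h)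
  · exact (dela_convex _ _ _).segment_subset (pvaw_geo_mid G d') (plg_trio_sub_tri T pos d' (pvaw_geo_bary G d'))

theorem pvaw_geo_link_disj (G : PlGeo T pos) {d d' e : D} (h : PvawDs T d d') (n1 : ¬ T.SF d e) (n2 : ¬ T.SF d' e) :
    Disjoint (segment ℝ (pvawB (pvawT T pos d)) (pvawM (pvawT T pos d')) ∪ segment ℝ (pvawM (pvawT T pos d')) (pvawB (pvawT T pos d'))) (T.tri pos e) := by
  rw [Set.disjoint_left]
  rintro x (hx | hx) hxe
  · rcases pvaw_seg_open (pvaw_geo_bary G d) (pvaw_geo_step_mid G h) hx with h1 | h1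
    · exact n1 (G.inc_int d e x h1 hxe)
    · rw [h1] at hxe
      rcases pvaw_geo_mid_face G h hxe with r | r
      · exact n1 r
      · exact n2 r
  · rw [segment_symm] at hx
    rcases pvaw_seg_open (pvaw_geo_bary G d') (pvaw_geo_mid G d') hx with h1 | h1
    · exact n2 (G.inc_int d' e x h1 hxe)
    · rw [h1] at hxe
      rcases pvaw_geo_mid_face G h hxe with r | r
      · exact n1 r
      · exact n2 r

theorem pvaw_P_compact (T : PvMap V D) (pos : V → ℂ) (a : ℕ → D) (n : ℕ) : IsCompact (pvawP T pos a n) := pvaw_W_compact _ n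

theorem pvaw_P_conn (T : PvMap V D) (pos : V → ℂ) (a : ℕ → D) (n : ℕ) : IsConnected (pvawP T pos a n) := pvaw_W_conn _ n

theorem pvaw_P_first (T : PvMap V D) (pos : V → ℂ) (a : ℕ → D) (n : ℕ) : pvawB (pvawT T pos (a 0)) ∈ pvawP T pos a n := pvaw_W_first _ n

theorem pvaw_P_last (T : PvMap V D) (pos : V → ℂ) (a : ℕ → D) (n : ℕ) : pvawB (pvawT T pos (a n)) ∈ pvawP T pos a n := pvaw_W_last _ n

theorem pvaw_P_mono (T : PvMap V D) (pos : V → ℂ) (a : ℕ → D) {m n : ℕ} (h : m ≤ n) : pvawP T pos a m ⊆ pvawP T pos a n := pvaw_W_mono _ h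

/-- a point of the polygon lies in a face of the sequence: the TIME of the passage -/
theorem pvaw_geo_W_sub (G : PlGeo T pos) {n : ℕ} {a : ℕ → D} (h : ∀ i, i < n → PvawDs T (a i) (a (i + 1))) {x : ℂ} (hx : x ∈ pvawP T pos a n) :
    ∃ i, i ≤ n ∧ x ∈ T.tri pos (a i) := by
  induction n with
  | zero =>
    have : x = pvawB (pvawT T pos (a 0)) := hx
    rw [this]
    exact ⟨0, le_rfl, plg_trio_sub_tri T pos _ (pvaw_geo_bary G (a 0))⟩
  | succ n ih =>
    rcases hx with hx | hx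
    · obtain ⟨i, hi, h2⟩ := ih (fun i hi => h i (by omega)) hx
      exact ⟨i, by omega, h2⟩
    · rcases pvaw_geo_link_sub G (h n (Nat.lt_succ_self n)) hx with h2 | h2
      · exact ⟨n, Nat.le_succ n, h2⟩
      · exact ⟨n + 1, le_rfl, h2⟩

/-- **(W1a)** the polygon misses every closed face which is not a face of the sequence -/
theorem pvaw_geo_W_disj (G : PlGeo T pos) {n : ℕ} {a : ℕ → D} (h : ∀ i, i < n → PvawDs T (a i) (a (i + 1))) {e : D} (hoff : ∀ i, i ≤ n → ¬ T.SF (a i) e) :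
    Disjoint (pvawP T pos a n) (T.tri pos e) := by
  induction n with
  | zero =>
    rw [Set.disjoint_left]
    intro x hx hxe
    have : x = pvawB (pvawT T pos (a 0)) := hx
    rw [this] at hxe
    exact hoff 0 le_rfl (G.inc_int _ _ _ (pvaw_geo_bary G (a 0)) hxe)
  | succ n ih =>
    refine Disjoint.union_left (ih (fun i hi => h i (by omega)) fun i hi => hoff i (by omega)) ?_
    exact pvaw_geo_link_disj G (h n (Nat.lt_succ_self n)) (hoff n (Nat.le_succ n)) (hoff (n + 1) le_rfl)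

theorem pvaw_geo_W_disj_real (G : PlGeo T pos) {n : ℕ} {a : ℕ → D} (h : ∀ i, i < n → PvawDs T (a i) (a (i + 1))) {A : Set D}
    (hoff : ∀ e ∈ A, ∀ i, i ≤ n → ¬ T.SF (a i) e) : Disjoint (pvawP T pos a n) (T.real pos A) := by
  rw [Set.disjoint_left]
  rintro x hx ⟨e, he, hxe⟩
  exact Set.disjoint_left.1 (pvaw_geo_W_disj G h (hoff e he)) hx hxe

/-! ## 3. round a vertex, (W1) -/

/-- `pvaw_round` when several triples of the family may name the face `ψ` -/
theorem pvaw_round' {Kf : Set (ℂ × ℂ × ℂ)} (hfin : Kf.Finite) {ψ : ℂ × ℂ × ℂ} (hpos : 0 < vorDet ψ.1 ψ.2.1 ψ.2.2)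
    (hone : ∀ f ∈ Kf, ψ.2.2 ∈ pvawF f → pvawF f = pvawF ψ) {z₁ z₂ : ℂ}
    (h₁ : ∀ s : ℝ, 0 < s → s ≤ 1 → (1 - s) • ψ.2.2 + s • z₁ ∉ pvawK Kf) (h₂ : ∀ s : ℝ, 0 < s → s ≤ 1 → (1 - s) • ψ.2.2 + s • z₂ ∉ pvawK Kf)
    {ρ : ℝ} (hρ : 0 < ρ) :
    ∃ W : Set ℂ, IsCompact W ∧ IsConnected W ∧ Disjoint W (pvawK Kf) ∧ z₁ ∈ W ∧ z₂ ∈ W ∧ W ⊆ segment ℝ z₁ ψ.2.2 ∪ segment ℝ z₂ ψ.2.2 ∪ ball ψ.2.2 ρ := by
  by_cases hex : ∃ f ∈ Kf, pvawF f = pvawF ψ
  · obtain ⟨f₀, hf₀, e₀⟩ := hex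
    have hK : pvawK ({f | f ∈ Kf ∧ pvawF f ≠ pvawF ψ} ∪ {ψ}) = pvawK Kf := by
      ext x
      rw [pvaw_K_mem, pvaw_K_mem]
      constructor
      · rintro ⟨f, (⟨hf, -⟩ | hf), hx⟩
        · exact ⟨f, hf, hx⟩
        · have : f = ψ := hf
          rw [this, ← e₀] at hx
          exact ⟨f₀, hf₀, hx⟩
      · rintro ⟨f, hf, hx⟩
        by_cases e : pvawF f = pvawF ψ
        · exact ⟨ψ, Or.inr rfl, e ▸ hx⟩
        · exact ⟨f, Or.inl ⟨hf, e⟩, hx⟩
    have hfin' : ({f | f ∈ Kf ∧ pvawF f ≠ pvawF ψ} ∪ {ψ}).Finite := (hfin.subset fun f hf => hf.1).union (finite_singleton ψ)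
    have hone' : ∀ f ∈ ({f | f ∈ Kf ∧ pvawF f ≠ pvawF ψ} ∪ {ψ} : Set (ℂ × ℂ × ℂ)), ψ.2.2 ∈ pvawF f → f = ψ := by
      rintro f (⟨hf, hne⟩ | hf) hv
      · exact absurd (hone f hf hv) hne
      · exact hf
    have := pvaw_round hfin' hpos hone' (z₁ := z₁) (z₂ := z₂) (by rw [hK]; exact h₁) (by rw [hK]; exact h₂) hρ
    rwa [hK] at this
  · exact pvaw_round hfin hpos (fun f hf hv => absurd ⟨f, hf, hone f hf hv⟩ hex) h₁ h₂ hρ

/-- the apex of a dart is a vertex of the next face -/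
theorem pvaw_geo_apex_mem (G : PlGeo T pos) {d d' : D} (h : PvawDs T d d') : pos (T.apex d) ∈ T.tri pos d' := by
  rcases h with rfl | rfl
  · have := plg_src_mem_tri G (T.opp (T.nxt d))
    rwa [T.src_opp', T.tgt_nxt] at this
  · have := plg_tgt_mem_tri G (T.opp (T.nxt (T.nxt d)))
    rwa [T.tgt_opp, T.src_nxt2] at this

/-- **(W1) ON A GEOMETRIC TRIANGULATED PLANE.**   `a 0` = the last position of the stub (face `φ_{β-1}`, apex `v` = the outer end of the tip position), `a 1, …, a (n + 1)` = the continuation: no face of `A`;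
`v` lies in no face of `A` but the face of `a 0`; the half open segment `(v, z]` misses `K = T.real pos A`. -/
theorem pvaw_geo_W1 (G : PlGeo T pos) {n : ℕ} {a : ℕ → D} (hc : ∀ i, i < n + 1 → PvawDs T (a i) (a (i + 1))) {A : Set D} (hfin : A.Finite)
    (hoff : ∀ e ∈ A, ∀ i, 1 ≤ i → i ≤ n + 1 → ¬ T.SF (a i) e) (hone : ∀ e ∈ A, pos (T.apex (a 0)) ∈ T.tri pos e → T.SF (a 0) e) {z : ℂ}
    (hz : ∀ s : ℝ, 0 < s → s ≤ 1 → (1 - s) • pos (T.apex (a 0)) + s • z ∉ T.real pos A) {ρ : ℝ} (hρ : 0 < ρ) :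
    ∃ W : Set ℂ, IsCompact W ∧ IsConnected W ∧ Disjoint W (T.real pos A) ∧ z ∈ W ∧ pvawB (pvawT T pos (a (n + 1))) ∈ W ∧
      (∃ η : ℝ, 0 < η ∧ ∀ p ∈ W, ∀ q ∈ T.real pos A, η ≤ ‖p - q‖) ∧
      ∀ x ∈ W, x ∈ segment ℝ z (pos (T.apex (a 0))) ∨ x ∈ ball (pos (T.apex (a 0))) ρ ∨ ∃ i, 1 ≤ i ∧ i ≤ n + 1 ∧ x ∈ T.tri pos (a i) := by
  have hs : PvawDs T (a 0) (a 1) := hc 0 (by omega)
  have hv1 : pos (T.apex (a 0)) ∈ T.tri pos (a 1) := pvaw_geo_apex_mem G hs
  have hfin' : (pvawT T pos '' A).Finite := hfin.image _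
  have hz₂ : ∀ s : ℝ, 0 < s → s ≤ 1 → (1 - s) • pos (T.apex (a 0)) + s • pvawB (pvawT T pos (a 1)) ∉ T.real pos A := by
    rintro s s0 s1 ⟨e, he, hx⟩
    exact hoff e he 1 le_rfl (by omega) (G.inc_int _ _ _ (pvaw_comb_open (pvaw_geo_bary G (a 1)) hv1 s0 s1) hx)
  have hone' : ∀ f ∈ pvawT T pos '' A, (pvawT T pos (a 0)).2.2 ∈ pvawF f → pvawF f = pvawF (pvawT T pos (a 0)) := by
    rintro f ⟨e, he, rfl⟩ hv
    exact plg_tri_sf (hone e he hv)
  obtain ⟨W₀, c0, k0, d0, m1, m2, sub0⟩ := pvaw_round' hfin' (ψ := pvawT T pos (a 0)) (G.orient (a 0)) hone' (z₁ := z) (z₂ := pvawB (pvawT T pos (a 1)))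
    (by rw [pvaw_real_K]; exact hz) (by rw [pvaw_real_K]; exact hz₂) hρ
  rw [pvaw_real_K] at d0
  have hc' : ∀ i, i < n → PvawDs T (a (i + 1)) (a (i + 1 + 1)) := fun i hi => hc (i + 1) (by omega)
  have d1 : Disjoint (pvawP T pos (fun i => a (i + 1)) n) (T.real pos A) := pvaw_geo_W_disj_real G hc' fun e he i hi => hoff e he (i + 1) (by omega) (by omega)
  have hcomp : IsCompact (W₀ ∪ pvawP T pos (fun i => a (i + 1)) n) := c0.union (pvaw_P_compact _ _ _ n)
  have hdis : Disjoint (W₀ ∪ pvawP T pos (fun i => a (i + 1)) n) (T.real pos A) := d0.union_left d1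
  have hcl : IsClosed (T.real pos A) := by
    rw [← pvaw_real_K]
    exact pvaw_K_closed hfin'
  refine ⟨W₀ ∪ pvawP T pos (fun i => a (i + 1)) n, hcomp, ?_, hdis, Or.inl m1, Or.inr (pvaw_P_last T pos (fun i => a (i + 1)) n), pvaw_gap hcomp hcl hdis, ?_⟩
  · exact k0.union ⟨pvawB (pvawT T pos (a 1)), m2, pvaw_P_first T pos (fun i => a (i + 1)) n⟩ (pvaw_P_conn _ _ _ n)
  · rintro x (hx | hx)
    · rcases sub0 hx with (h | h) | h
      · exact Or.inl h
      · exact Or.inr (Or.inr ⟨1, le_rfl, by omega, (dela_convex _ _ _).segment_subset (plg_trio_sub_tri T pos _ (pvaw_geo_bary G (a 1))) hv1 h⟩)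
      · exact Or.inr (Or.inl h)
    · obtain ⟨i, hi, hxi⟩ := pvaw_geo_W_sub G hc' hx
      exact Or.inr (Or.inr ⟨i + 1, by omega, by omega, hxi⟩)

/-! ## 4. strands, the obstacle -/

/-- **(W1) FOR A STRAND** `a i = pvasIt T s d i` -/
theorem pvaw_strand_W1 (G : PlGeo T pos) (s : V → Bool) (d : D) (n : ℕ) {A : Set D} (hfin : A.Finite)
    (hoff : ∀ e ∈ A, ∀ i, 1 ≤ i → i ≤ n + 1 → ¬ T.SF (pvasIt T s d i) e) (hone : ∀ e ∈ A, pos (T.apex d) ∈ T.tri pos e → T.SF d e) {z : ℂ}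
    (hz : ∀ r : ℝ, 0 < r → r ≤ 1 → (1 - r) • pos (T.apex d) + r • z ∉ T.real pos A) {ρ : ℝ} (hρ : 0 < ρ) :
    ∃ W : Set ℂ, IsCompact W ∧ IsConnected W ∧ Disjoint W (T.real pos A) ∧ z ∈ W ∧ pvawB (pvawT T pos (pvasIt T s d (n + 1))) ∈ W ∧
      (∃ η : ℝ, 0 < η ∧ ∀ p ∈ W, ∀ q ∈ T.real pos A, η ≤ ‖p - q‖) ∧
      ∀ x ∈ W, x ∈ segment ℝ z (pos (T.apex d)) ∨ x ∈ ball (pos (T.apex d)) ρ ∨ ∃ i, 1 ≤ i ∧ i ≤ n + 1 ∧ x ∈ T.tri pos (pvasIt T s d i) :=
  pvaw_geo_W1 G (a := pvasIt T s d) (fun i _ => pvaw_ds_strand T s d i) hfin hoff hone hz hρ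

/-- the hypothesis `hone` from the vertices: `v` is a vertex of no face of `A` but the face of `d` -/
theorem pvaw_geo_hone (G : PlGeo T pos) {A : Set D} {d : D} (h : ∀ e ∈ A, (T.apex d = T.src e ∨ T.apex d = T.tgt e ∨ T.apex d = T.apex e) → T.SF d e) :
    ∀ e ∈ A, pos (T.apex d) ∈ T.tri pos e → T.SF d e := fun e he hv => h e he (G.inc_vert _ _ hv)

theorem pvaw_geo_K_compact (G : PlGeo T pos) {A : Set D} (hfin : A.Finite) : IsCompact (T.real pos A) := by
  rw [← pvaw_real_K]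
  refine pvaw_K_compact (hfin.image _) ?_
  rintro f ⟨e, -, rfl⟩
  exact G.orient e

theorem pvaw_geo_real_eq (T : PvMap V D) (pos : V → ℂ) (A : Set D) : T.real pos A = ⋃ d ∈ A, T.tri pos d := by
  ext x
  simp only [mem_iUnion, exists_prop]
  rfl

/-- faces chained through common points have a connected union -/
theorem pvaw_geo_K_conn {A : Set D} (hl : ∀ d ∈ A, ∀ e ∈ A, Relation.ReflTransGen (fun d e => (T.tri pos d ∩ T.tri pos e).Nonempty ∧ d ∈ A) d e) :
    IsPreconnected (T.real pos A) := by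
  rw [pvaw_geo_real_eq]
  exact IsPreconnected.biUnion_of_reflTransGen (fun _ _ => (dela_convex _ _ _).isPreconnected) hl

/-- consecutive faces of a wall meet -/
theorem pvaw_geo_meet (G : PlGeo T pos) {d d' : D} (h : PvawDs T d d') : (T.tri pos d ∩ T.tri pos d').Nonempty :=
  ⟨_, pvaw_geo_step_mid G h, pvaw_geo_mid G d'⟩

/-- two faces with a common vertex meet -/
theorem pvaw_geo_meet_vert (G : PlGeo T pos) {d e : D} {v : V} (hd : v = T.src d ∨ v = T.tgt d ∨ v = T.apex d) (he : v = T.src e ∨ v = T.tgt e ∨ v = T.apex e) :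
    (T.tri pos d ∩ T.tri pos e).Nonempty := by
  refine ⟨pos v, ?_, ?_⟩
  · rcases hd with rfl | rfl | rfl
    · exact plg_src_mem_tri G d
    · exact plg_tgt_mem_tri G d
    · exact plg_apex_mem_tri G d
  · rcases he with rfl | rfl | rfl
    · exact plg_src_mem_tri G e
    · exact plg_tgt_mem_tri G e
    · exact plg_apex_mem_tri G e

/-- a face lies within the diameter bound of each of its vertices -/
theorem pvaw_geo_near (G : PlGeo T pos) {d : D} {μ : ℝ} (h1 : ‖pos (T.src d) - pos (T.tgt d)‖ ≤ μ) (h2 : ‖pos (T.tgt d) - pos (T.apex d)‖ ≤ μ)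
    (h3 : ‖pos (T.apex d) - pos (T.src d)‖ ≤ μ) {x y : ℂ} (hx : x ∈ T.tri pos d) (hy : y ∈ T.tri pos d) : ‖x - y‖ ≤ μ :=
  dela_dist_le_side (G.orient d) h1 h2 h3 hx hy

/-! ## 5. at the model -/

/-- the total Delaunay plane of 219 (`pvxT ω = (delbPl (pvxY ω)).toMap`, `pvxPos ω = Subtype.val`) is a geometric triangulated plane -/
theorem pvaw_geo_del {Y : Set ℂ} (h : DelGood Y) : PlGeo (delbPl Y).toMap Subtype.val := by
  rw [delb_pl_eq h]
  exact plg_del h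

end Claimed.Agent.R289
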