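import Claimed.Agent.R289.S2.Gate
import Claimed.Agent.R289.S6b.Det

/-!
# Row 289 (S0537, Cardy for Poisson-Voronoi), wall block WB6 / TR16, file Tr/Di : GATES, PASSAGES, `Δ`, TRAP      (owner helper212; prefix `pvdi_`, `Pvdi`, `pvdi`)

TeX: `05-pins.tex`, subsection "Three gates and local inverse-diameter tests" (l.62-105), Definition "qualified pin" (i);  blueprint: TR16 = (P1), (P2) of `origin/helper7:notes/R289/LM_7.md` sec. 3.
The DETERMINISTIC IMPLICATION "three clean trial annuli at a centre near a rim  ⟹  three two-site gates, the ordered central arc `Δ`, the TRAP" in the form consumed by `PvbIsPin` (`S6b/Det.lean`).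

MODEL FREE: `T : PvMap V D` with `T.IsSph`, a colouring `s`, positions `pos : V → ℂ` (= the encoding D.5 of LM_7: non physical vertices are placed far away).   No Poisson structure, no Delaunay property: only
`PvdiMesh T pos z ρ μ` (edges with an end in `clB(z,ρ)` have length `≤ μ`) and finiteness of the faces which meet a ball.

* sec. 1  `pvdiB T pos z ρ` = the faces with a vertex in `clB(z,ρ)`; it is a face set; interior / exterior vertices; `pvdi_B_sep`.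
* sec. 2  `PvdiClean` (at most two disjoint crossings of colour `c` of the trial annulus);  **`pvdi_gate`** : clean ⟹ a gate `PvgGate` of helper190 (Lemma 2.8).   `PvgGate.recolor` : stability under `c → !c` off `X`.
* sec. 3  `PvdiPass T G X γ i₀ lo hi` (the passage of a simple cycle through a gate);  **`pvdi_pass`** : existence;  `PvdiPass.unique`;  `PvdiPass.nest` (order of the passages through nested gates).
* sec. 4  **`pvdi_trap`** (geometric form of `Δ`),  **`pvdi_isPin`** (`PvbIsPin`).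
* sec. 5  trial radii `pvdiA M i`, `pvdiO M i`, triples of trials `PvdiTri n`, the menu numbers `pvdiMenu`, the flag `PvdiF1`;  **`pvdi_main`** : unflagged centre ⟹ three nested gates with ordered passages + `PvbIsPin`.
-/

set_option autoImplicit false

namespace Claimed.Agent.R289

open Relation

/-! ## 1. The faces which meet a ball -/

section ball

variable {V D : Type} (T : PvMap V D) (pos : V → ℂ)

/-- the faces with a vertex in the closed ball `clB(z,ρ)` (darts stand for their faces) -/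
def pvdiB (z : ℂ) (ρ : ℝ) : Set D := {d | ‖pos (T.src d) - z‖ ≤ ρ ∨ ‖pos (T.tgt d) - z‖ ≤ ρ ∨ ‖pos (T.apex d) - z‖ ≤ ρ}

/-- the edges with an end in `clB(z,ρ)` have length `≤ μ` -/
def PvdiMesh (z : ℂ) (ρ μ : ℝ) : Prop := ∀ u v, T.Adj u v → ‖pos u - z‖ ≤ ρ → ‖pos v - pos u‖ ≤ μ

/-- the trial annulus `clB(z,b) \ clB(z,a)` is CLEAN for the colour `c`: it has no three pairwise disjoint crossings of colour `c` -/
def PvdiClean (s : V → Bool) (c : Bool) (z : ℂ) (a b : ℝ) : Prop :=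
  ¬ ∃ F : Fin 3 → List V, (∀ i, PvgCross T s c (pvdiB T pos z a) (pvdiB T pos z b) (F i)) ∧ ∀ i j, i ≠ j → ∀ v ∈ F i, v ∉ F j

theorem pvdi_eqns_cite : True := by
  have := @pvdiB.eq_1; have := @PvdiMesh.eq_1; have := @PvdiClean.eq_1
  trivial

variable {T pos}

theorem pvdi_mem_B {z : ℂ} {ρ : ℝ} {d : D} :
    d ∈ pvdiB T pos z ρ ↔ ‖pos (T.src d) - z‖ ≤ ρ ∨ ‖pos (T.tgt d) - z‖ ≤ ρ ∨ ‖pos (T.apex d) - z‖ ≤ ρ := Iff.rfl

theorem pvdi_B_face (z : ℂ) (ρ : ℝ) : T.FaceSet (pvdiB T pos z ρ) := by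
  intro d
  rw [pvdi_mem_B, pvdi_mem_B, T.src_nxt, T.tgt_nxt, T.apex_nxt]
  tauto

theorem pvdi_B_mono (z : ℂ) {ρ ρ' : ℝ} (h : ρ ≤ ρ') : pvdiB T pos z ρ ⊆ pvdiB T pos z ρ' := by
  intro d hd
  rw [pvdi_mem_B] at hd ⊢
  rcases hd with h1 | h1 | h1
  · exact Or.inl (h1.trans h)
  · exact Or.inr (Or.inl (h1.trans h))
  · exact Or.inr (Or.inr (h1.trans h))

theorem PvdiMesh.mono {z : ℂ} {ρ ρ' μ : ℝ} (hm : PvdiMesh T pos z ρ' μ) (h : ρ ≤ ρ') : PvdiMesh T pos z ρ μ :=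
  fun u v huv hu => hm u v huv (hu.trans h)

theorem PvdiMesh.step {z : ℂ} {ρ μ : ℝ} (hm : PvdiMesh T pos z ρ μ) {u v : V} (huv : T.Adj u v) (hu : ‖pos u - z‖ ≤ ρ) : ‖pos v - z‖ ≤ ρ + μ := by
  have h1 := hm u v huv hu
  calc ‖pos v - z‖ = ‖(pos u - z) + (pos v - pos u)‖ := by ring_nf
    _ ≤ ‖pos u - z‖ + ‖pos v - pos u‖ := norm_add_le _ _
    _ ≤ ρ + μ := add_le_add hu h1

/-- the source of a dart of a face which meets the ball is `μ`-close to the ball -/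
theorem pvdi_src_le {z : ℂ} {ρ μ : ℝ} (hμ : 0 ≤ μ) (hm : PvdiMesh T pos z ρ μ) {d : D} (hd : d ∈ pvdiB T pos z ρ) : ‖pos (T.src d) - z‖ ≤ ρ + μ := by
  rcases pvdi_mem_B.1 hd with h1 | h1 | h1
  · linarith
  · exact hm.step (T.adj_symm ⟨d, rfl, rfl⟩) h1
  · exact hm.step ⟨T.nxt (T.nxt d), rfl, T.tgt_nxt2 d⟩ h1

theorem pvdi_VOf_le {z : ℂ} {ρ μ : ℝ} (hμ : 0 ≤ μ) (hm : PvdiMesh T pos z ρ μ) {v : V} (hv : v ∈ T.VOf (pvdiB T pos z ρ)) : ‖pos v - z‖ ≤ ρ + μ := by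
  obtain ⟨d, hd, rfl⟩ := hv
  exact pvdi_src_le hμ hm hd

/-- the faces next to a face which meets `clB(z,ρ)` meet `clB(z,ρ+μ)` -/
theorem pvdi_B_sep {z : ℂ} {ρ ρ' μ : ℝ} (hμ : 0 ≤ μ) (hm : PvdiMesh T pos z ρ μ) (h : ρ + μ ≤ ρ') {d : D} (hd : d ∈ pvdiB T pos z ρ) :
    T.opp d ∈ pvdiB T pos z ρ' := by
  rw [pvdi_mem_B, T.tgt_opp]
  exact Or.inr (Or.inl ((pvdi_src_le hμ hm hd).trans h))

/-- a vertex of the ball is interior to the face set -/
theorem pvdi_int_of_le {z : ℂ} {ρ : ℝ} {v : V} (h : ‖pos v - z‖ ≤ ρ) : v ∈ T.Int (pvdiB T pos z ρ) := by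
  intro d hd
  rw [pvdi_mem_B, hd]
  exact Or.inl h

/-- a vertex which is far from the ball is interior to the complement -/
theorem pvdi_int_compl {z : ℂ} {ρ μ : ℝ} (hμ : 0 ≤ μ) (hm : PvdiMesh T pos z ρ μ) {v : V} (h : ρ + μ < ‖pos v - z‖) : v ∈ T.Int (pvdiB T pos z ρ)ᶜ := by
  intro d hd hmem
  have := pvdi_src_le hμ hm hmem
  rw [hd] at this
  linarith

theorem pvdi_int_mono {A B : Set D} (h : A ⊆ B) : T.Int A ⊆ T.Int B := fun _ hv d hd => h (hv d hd)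

theorem pvdi_VOf_mono {A B : Set D} (h : A ⊆ B) : T.VOf A ⊆ T.VOf B := fun _ ⟨d, hd, e⟩ => ⟨d, h hd, e⟩

/-- no edge joins an interior vertex of the complement to an interior vertex -/
theorem pvdi_adj_int {G : Set D} (hG : T.FaceSet G) {u v : V} (huv : T.Adj u v) (hu : u ∈ T.Int Gᶜ) (hv : v ∈ T.Int G) : False := by
  obtain ⟨d, rfl, rfl⟩ := huv
  exact hu d rfl ((hG d).1 (hv (T.nxt d) rfl))

theorem pvdi_VOf_of_not {G : Set D} {v : V} (h : v ∉ T.Int Gᶜ) : v ∈ T.VOf G := by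
  by_contra hn
  exact h fun d hd hdG => hn ⟨d, hdG, hd⟩

end ball

/-! ## 2. Clean trial annuli carry gates -/

section gate

variable {V D : Type} {T : PvMap V D} {pos : V → ℂ} {s : V → Bool} {c : Bool}

/-- **clean ⟹ gate** (Lemma 2.8 in the face set form of helper190) -/
theorem pvdi_gate {z : ℂ} {a b μ : ℝ} (hμ : 0 ≤ μ) (hm : PvdiMesh T pos z a μ) (hab : a + μ ≤ b) (hfin : (pvdiB T pos z b).Finite)
    (hcl : PvdiClean T pos s c z a b) : ∃ G X, PvgGate T s c (pvdiB T pos z a) (pvdiB T pos z b) G X := by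
  rcases pvg_gate s c (pvdi_B_face z a) (pvdi_B_face z b) (pvdi_B_mono z (by linarith)) (fun d hd => pvdi_B_sep hμ hm hab hd)
    (hfin.subset Set.sdiff_subset) with h | h
  · exact absurd h hcl
  · exact h

/-- **stability**: a gate survives every recolouring `c → !c` off its exceptional sites -/
theorem PvgGate.recolor {I O G : Set D} {X : Finset V} (hg : PvgGate T s c I O G X) {s' : V → Bool} (h1 : ∀ v, s' v = c → s v = c) (h2 : ∀ v ∈ X, s' v = c) :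
    PvgGate T s' c I O G X :=
  ⟨hg.face, hg.inner, hg.outer, hg.card, h2, fun v hv => (hg.other v hv).imp (fun h h' => h (h1 v h')) id⟩

/-- a gate for smaller inner / larger outer face sets -/
theorem PvgGate.widen {I O G I' O' : Set D} {X : Finset V} (hg : PvgGate T s c I O G X) (hI : I' ⊆ I) (hO : O ⊆ O') : PvgGate T s c I' O' G X :=
  ⟨hg.face, hI.trans hg.inner, hg.outer.trans hO, hg.card, hg.col, hg.other⟩

end gate

/-! ## 3. The passage of a simple cycle through a gate -/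

section pass

variable {V D : Type} {T : PvMap V D}

/-- **passage**: the cycle `γ`, cut at the index `0`, is outside the gate before `lo` and after `hi`, inside between them, and `γ lo`, `γ hi` are the two exceptional sites -/
structure PvdiPass (T : PvMap V D) (G : Set D) (X : Finset V) (γ : T.Cyc) (i₀ lo hi : ℕ) : Prop where
  lo_pos : 0 < lo
  lo_lt : lo < i₀
  lt_hi : i₀ < hi
  hi_lt : hi < γ.n
  lo_X : T.src (γ.e lo) ∈ X
  hi_X : T.src (γ.e hi) ∈ X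
  X_sub : ∀ x ∈ X, x = T.src (γ.e lo) ∨ x = T.src (γ.e hi)
  before : ∀ k, k < lo → T.src (γ.e k) ∈ T.Int Gᶜ
  after : ∀ k, hi < k → k ≤ γ.n → T.src (γ.e k) ∈ T.Int Gᶜ
  mid : ∀ k, lo < k → k < hi → T.src (γ.e k) ∈ T.Int G
  lo_V : T.src (γ.e lo) ∈ T.VOf G
  hi_V : T.src (γ.e hi) ∈ T.VOf G
  lo_not : T.src (γ.e lo) ∉ T.Int G ∧ T.src (γ.e lo) ∉ T.Int Gᶜ
  hi_not : T.src (γ.e hi) ∉ T.Int G ∧ T.src (γ.e hi) ∉ T.Int Gᶜ

theorem pvdi_int_disj {A : Set D} {γ : T.Cyc} {k : ℕ} (h : T.src (γ.e k) ∈ T.Int A) : T.src (γ.e k) ∉ T.Int Aᶜ := pvg_int_disj h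

theorem pvdi_int_disj' {A : Set D} {γ : T.Cyc} {k : ℕ} (h : T.src (γ.e k) ∈ T.Int Aᶜ) : T.src (γ.e k) ∉ T.Int A := fun h' => pvg_int_disj h' h

/-- **existence of the passage** -/
theorem pvdi_pass (hT : T.IsSph) {s : V → Bool} {c : Bool} {I O G : Set D} {X : Finset V} (hg : PvgGate T s c I O G X) (γ : T.Cyc)
    (hγ : ∀ k, s (T.src (γ.e k)) = c) {i₀ : ℕ} (hi₀ : i₀ < γ.n) (h0 : T.src (γ.e 0) ∈ T.Int Gᶜ) (hi : T.src (γ.e i₀) ∈ T.Int G) :
    ∃ lo hi, PvdiPass T G X γ i₀ lo hi := by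
  classical
  have hn : T.src (γ.e γ.n) ∈ T.Int Gᶜ := by
    have := γ.per 0
    rw [Nat.zero_add] at this
    rw [this]; exact h0
  obtain ⟨lo, -, l2, l3, l4⟩ := pvb_first (p := fun k => T.src (γ.e k) ∉ T.Int Gᶜ) (Nat.zero_le i₀) (pvdi_int_disj hi)
  obtain ⟨hh, r1, r2, r3, r4⟩ := pvb_last (p := fun k => T.src (γ.e k) ∉ T.Int Gᶜ) hi₀.le (pvdi_int_disj hi)
  have l4' : ∀ k, k < lo → T.src (γ.e k) ∈ T.Int Gᶜ := fun k hk => not_not.1 (l4 k (Nat.zero_le k) hk)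
  have r4' : ∀ k, hh < k → k ≤ γ.n → T.src (γ.e k) ∈ T.Int Gᶜ := fun k hk hk' => not_not.1 (r4 k hk hk')
  have lpos : 0 < lo := by
    rcases Nat.eq_zero_or_pos lo with h | h
    · rw [h] at l3; exact absurd h0 l3
    · exact h
  have rlt : hh < γ.n := by
    rcases Nat.lt_or_ge hh γ.n with h | h
    · exact h
    · have : hh = γ.n := le_antisymm r2 h
      rw [this] at r3; exact absurd hn r3
  obtain ⟨lp, rfl⟩ : ∃ lp, lo = lp + 1 := ⟨lo - 1, by omega⟩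
  have lprev := l4' lp (Nat.lt_succ_self lp)
  have rnext := r4' (hh + 1) (Nat.lt_succ_self hh) rlt
  have lX : T.src (γ.e (lp + 1)) ∈ X := by
    by_contra hX
    exact l3 (hg.step_out hT lprev (pvg_cyc_adj γ lp) (hγ _) hX)
  have rX : T.src (γ.e hh) ∈ X := by
    by_contra hX
    exact r3 (hg.step_out hT rnext (T.adj_symm (pvg_cyc_adj γ hh)) (hγ _) hX)
  have lnot : T.src (γ.e (lp + 1)) ∉ T.Int G := fun h => pvdi_adj_int hg.face (pvg_cyc_adj γ lp) lprev h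
  have rnot : T.src (γ.e hh) ∉ T.Int G := fun h => pvdi_adj_int hg.face (T.adj_symm (pvg_cyc_adj γ hh)) rnext h
  have llt : lp + 1 < i₀ := by
    rcases Nat.lt_or_ge (lp + 1) i₀ with h | h
    · exact h
    · have : lp + 1 = i₀ := le_antisymm l2 h
      rw [this] at lnot; exact absurd hi lnot
  have rgt : i₀ < hh := by
    rcases Nat.lt_or_ge i₀ hh with h | h
    · exact h
    · have : hh = i₀ := le_antisymm h r1
      rw [this] at rnot; exact absurd hi rnot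
  have hne : T.src (γ.e (lp + 1)) ≠ T.src (γ.e hh) := fun h => by
    have := γ.inj (lp + 1) hh (by omega) rlt h
    omega
  have hXsub : ∀ x ∈ X, x = T.src (γ.e (lp + 1)) ∨ x = T.src (γ.e hh) := by
    have hsub : ({T.src (γ.e (lp + 1)), T.src (γ.e hh)} : Finset V) ⊆ X := by
      intro x hx
      rcases Finset.mem_insert.1 hx with rfl | hx
      · exact lX
      · rw [Finset.mem_singleton.1 hx]; exact rX
    have hcard : ({T.src (γ.e (lp + 1)), T.src (γ.e hh)} : Finset V).card = 2 := Finset.card_pair hne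
    have heq := Finset.eq_of_subset_of_card_le hsub (by rw [hcard]; exact hg.card)
    intro x hx
    rw [← heq] at hx
    rcases Finset.mem_insert.1 hx with h | h
    · exact Or.inl h
    · exact Or.inr (Finset.mem_singleton.1 h)
  have hoff : ∀ k, lp + 1 < k → k < hh → T.src (γ.e k) ∉ X := by
    intro k h1 h2 hX
    rcases hXsub _ hX with h | h
    · have := γ.inj k (lp + 1) (by omega) (by omega) h
      omega
    · have := γ.inj k hh (by omega) rlt h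
      omega
  have hfw : ∀ m, i₀ + m < hh → T.src (γ.e (i₀ + m)) ∈ T.Int G := by
    intro m
    induction m with
    | zero => intro _; exact hi
    | succ m ih =>
      intro hm
      exact hg.step_in hT (ih (by omega)) (pvg_cyc_adj γ (i₀ + m)) (hγ _) (hoff _ (by omega) hm)
  have hbw : ∀ m, lp + 1 + m < i₀ → T.src (γ.e (i₀ - m)) ∈ T.Int G := by
    intro m
    induction m with
    | zero => intro _; exact hi
    | succ m ih =>
      intro hm
      have h1 := ih (by omega)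
      have e1 : i₀ - m = (i₀ - (m + 1)) + 1 := by omega
      rw [e1] at h1
      exact hg.step_in hT h1 (T.adj_symm (pvg_cyc_adj γ (i₀ - (m + 1)))) (hγ _) (hoff _ (by omega) (by omega))
  refine ⟨lp + 1, hh, ⟨lpos, llt, rgt, rlt, lX, rX, hXsub, l4', r4', ?_, pvdi_VOf_of_not l3, pvdi_VOf_of_not r3, ⟨lnot, l3⟩, ⟨rnot, r3⟩⟩⟩
  intro k h1 h2
  rcases Nat.le_total i₀ k with h | h
  · obtain ⟨m, rfl⟩ : ∃ m, k = i₀ + m := ⟨k - i₀, by omega⟩
    exact hfw m h2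
  · obtain ⟨m, rfl, hm⟩ : ∃ m, k = i₀ - m ∧ m ≤ i₀ := ⟨i₀ - k, by omega, by omega⟩
    exact hbw m (by omega)

variable {G : Set D} {X : Finset V} {γ : T.Cyc} {i₀ lo hi : ℕ}

/-- all vertices of the closed inner arc are vertices of faces of the gate -/
theorem PvdiPass.mem_VOf (h : PvdiPass T G X γ i₀ lo hi) {k : ℕ} (h1 : lo ≤ k) (h2 : k ≤ hi) : T.src (γ.e k) ∈ T.VOf G := by
  rcases Nat.eq_or_lt_of_le h1 with rfl | h1
  · exact h.lo_V
  rcases Nat.eq_or_lt_of_le h2 with rfl | h2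
  · exact h.hi_V
  exact ⟨γ.e k, h.mid k h1 h2 _ rfl, rfl⟩

/-- an interior vertex of the gate on the cycle lies on the open inner arc -/
theorem PvdiPass.idx_of_int (h : PvdiPass T G X γ i₀ lo hi) {k : ℕ} (hk : k ≤ γ.n) (hG : T.src (γ.e k) ∈ T.Int G) : lo < k ∧ k < hi := by
  constructor
  · by_contra hn
    rcases Nat.eq_or_lt_of_le (not_lt.1 hn) with rfl | h1
    · exact h.lo_not.1 hG
    · exact pvdi_int_disj hG (h.before k h1)
  · by_contra hn
    rcases Nat.eq_or_lt_of_le (not_lt.1 hn) with rfl | h1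
    · exact h.hi_not.1 hG
    · exact pvdi_int_disj hG (h.after k h1 hk)

/-- the passage is unique -/
theorem PvdiPass.unique {i₁ lo' hi' : ℕ} (h : PvdiPass T G X γ i₀ lo hi) (h' : PvdiPass T G X γ i₁ lo' hi') : lo = lo' ∧ hi = hi' := by
  have key : ∀ {i₀ lo hi i₁ lo' hi' : ℕ}, PvdiPass T G X γ i₀ lo hi → PvdiPass T G X γ i₁ lo' hi' → lo ≤ lo' ∧ hi' ≤ hi := by
    intro i₀ lo hi i₁ lo' hi' h h'
    constructor
    · by_contra hn
      exact h'.lo_not.2 (h.before lo' (not_le.1 hn))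
    · by_contra hn
      exact h'.hi_not.2 (h.after hi' (not_le.1 hn) h'.hi_lt.le)
  exact ⟨le_antisymm (key h h').1 (key h' h).1, le_antisymm (key h' h).2 (key h h').2⟩

/-- **order of the passages through nested gates** -/
theorem PvdiPass.nest {G' : Set D} {X' : Finset V} {i₁ lo' hi' : ℕ} (h : PvdiPass T G X γ i₀ lo hi) (h' : PvdiPass T G' X' γ i₁ lo' hi')
    (hGG : T.VOf G ⊆ T.Int G') : lo' < lo ∧ hi < hi' :=
  ⟨(h'.idx_of_int (h.lo_lt.trans (h.lt_hi.trans h.hi_lt)).le (hGG h.lo_V)).1, (h'.idx_of_int h.hi_lt.le (hGG h.hi_V)).2⟩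

/-- the two exceptional sites are different -/
theorem PvdiPass.ne (h : PvdiPass T G X γ i₀ lo hi) : T.src (γ.e lo) ≠ T.src (γ.e hi) := fun e => by
  have := γ.inj lo hi (h.lo_lt.trans (h.lt_hi.trans h.hi_lt)) h.hi_lt e
  have h1 := h.lo_lt
  have h2 := h.lt_hi
  omega

/-- the cycle meets the exceptional sites only at `lo` and `hi` -/
theorem PvdiPass.idx_of_X (h : PvdiPass T G X γ i₀ lo hi) {k : ℕ} (hk : k < γ.n) (hX : T.src (γ.e k) ∈ X) : k = lo ∨ k = hi := by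
  rcases h.X_sub _ hX with e | e
  · exact Or.inl (γ.inj k lo hk (h.lo_lt.trans (h.lt_hi.trans h.hi_lt)) e)
  · exact Or.inr (γ.inj k hi hk h.hi_lt e)

end pass

/-! ## 4. The arc `Δ`, the TRAP -/

section trap

variable {V D : Type} {T : PvMap V D} {pos : V → ℂ} {s : V → Bool} {c : Bool}

/-- **`Δ`**: a simple cycle of colour `c` with a vertex in `clB(z,a)`, cut at a vertex outside `clB(z,b+μ)`, passes a gate of the annulus: all its visits to `clB(z,a)` lie on the open inner arc,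
the closed inner arc lies in `clB(z,b+μ)` -/
theorem pvdi_trap (hT : T.IsSph) {z : ℂ} {a b μ : ℝ} (hμ : 0 ≤ μ) (hm : PvdiMesh T pos z b μ) {G : Set D} {X : Finset V}
    (hg : PvgGate T s c (pvdiB T pos z a) (pvdiB T pos z b) G X) (γ : T.Cyc) (hγ : ∀ k, s (T.src (γ.e k)) = c) {i₀ : ℕ} (hi₀ : i₀ < γ.n)
    (hnear : ‖pos (T.src (γ.e i₀)) - z‖ ≤ a) (hfar : b + μ < ‖pos (T.src (γ.e 0)) - z‖) :
    ∃ lo hi, PvdiPass T G X γ i₀ lo hi ∧ (∀ k ≤ γ.n, ‖pos (T.src (γ.e k)) - z‖ ≤ a → lo < k ∧ k < hi) ∧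
      ∀ k, lo ≤ k → k ≤ hi → ‖pos (T.src (γ.e k)) - z‖ ≤ b + μ := by
  have h0 : T.src (γ.e 0) ∈ T.Int Gᶜ := pvdi_int_mono (Set.compl_subset_compl.2 hg.outer) (pvdi_int_compl hμ hm hfar)
  have hi : T.src (γ.e i₀) ∈ T.Int G := pvdi_int_mono hg.inner (pvdi_int_of_le hnear)
  obtain ⟨lo, hh, hp⟩ := pvdi_pass hT hg γ hγ hi₀ h0 hi
  refine ⟨lo, hh, hp, fun k hk hka => hp.idx_of_int hk (pvdi_int_mono hg.inner (pvdi_int_of_le hka)), fun k h1 h2 => ?_⟩
  exact pvdi_VOf_le hμ hm (pvdi_VOf_mono hg.outer (hp.mem_VOf h1 h2))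

/-- **TRAP** in the form of `PvbIsPin` -/
theorem pvdi_isPin (hT : T.IsSph) {τ : Type} (𝔐 : PvbMenu τ) {h : ℝ} {z : ℂ} {a b μ : ℝ} (hμ : 0 ≤ μ) (hm : PvdiMesh T pos z b μ) {G : Set D} {X : Finset V}
    (hg : PvgGate T s c (pvdiB T pos z a) (pvdiB T pos z b) G X) (γ : T.Cyc) (hγ : ∀ k, s (T.src (γ.e k)) = c) {i₀ : ℕ} (hi₀ : i₀ < γ.n)
    (hfar : b + μ < ‖pos (T.src (γ.e 0)) - z‖) (P : PvbRim) (hlen : P.len = γ.n) (hv : ∀ k, P.v k = pos (T.src (γ.e k))) (t : τ)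
    (hnear : ‖P.v i₀ - z‖ ≤ h) (hha : h ≤ a) (ha : 𝔐.a3 t * h ≤ a) (hb : b + μ ≤ 𝔐.L * h) : PvbIsPin 𝔐 h P ⟨i₀, z, t⟩ := by
  obtain ⟨lo, hh, hp, h1, h2⟩ := pvdi_trap hT hμ hm hg γ hγ hi₀ (by rw [← hv]; exact hnear.trans hha) hfar
  refine ⟨by rw [hlen]; exact hi₀, hnear, lo, hh, hp.lo_lt.le, hp.lt_hi.le, by rw [hlen]; exact hp.hi_lt.le, ?_, ?_⟩
  · intro i hi hlt
    have := h1 i (by rw [← hlen]; exact hi) (by rw [← hv]; exact (hlt.le.trans ha))
    exact ⟨this.1.le, this.2.le⟩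
  · intro i i' a1 a2 a3 a4
    have e1 := h2 i a1 a2
    have e2 := h2 i' a3 a4
    rw [← hv] at e1 e2
    calc ‖P.v i - P.v i'‖ = ‖(P.v i - z) - (P.v i' - z)‖ := by ring_nf
      _ ≤ ‖P.v i - z‖ + ‖P.v i' - z‖ := norm_sub_le _ _
      _ ≤ 2 * 𝔐.L * h := by linarith

end trap

/-! ## 5. Trial annuli, the flag `F1`, three nested gates at an unflagged centre -/

section trials

/-- inner radius of the `i`-th trial annulus in units of `h`: `A_0 = 30`, `A_{i+1} = 10^4 M A_i` -/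
noncomputable def pvdiA (M : ℝ) (i : ℕ) : ℝ := 30 * (10 ^ 4 * M) ^ i

/-- outer radius of the `i`-th trial annulus in units of `h`: `B_i = M A_i` -/
noncomputable def pvdiO (M : ℝ) (i : ℕ) : ℝ := M * pvdiA M i

/-- increasing triples of trial indices `< n` -/
def PvdiTri (n : ℕ) : Type := {p : Fin n × Fin n × Fin n // p.1 < p.2.1 ∧ p.2.1 < p.2.2}

instance pvdiTriFintype (n : ℕ) : Fintype (PvdiTri n) := by unfold PvdiTri; infer_instance

/-- the three indices -/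
def PvdiTri.idx {n : ℕ} (t : PvdiTri n) : Fin 3 → ℕ := ![(t.1.1 : ℕ), (t.1.2.1 : ℕ), (t.1.2.2 : ℕ)]

theorem pvdi_eqns_cite5 : True := by
  have := @pvdiA.eq_1; have := @pvdiO.eq_1; have := @PvdiTri.eq_1; have := @PvdiTri.idx.eq_1
  trivial

theorem PvdiTri.lt01 {n : ℕ} (t : PvdiTri n) : t.idx 0 < t.idx 1 := t.2.1
theorem PvdiTri.lt12 {n : ℕ} (t : PvdiTri n) : t.idx 1 < t.idx 2 := t.2.2
theorem PvdiTri.lt_n {n : ℕ} (t : PvdiTri n) : t.idx 2 < n := t.1.2.2.2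

theorem PvdiTri.idx_lt {n : ℕ} (t : PvdiTri n) (k : Fin 3) : t.idx k < n := by
  have h0 := t.lt01
  have h1 := t.lt12
  have h2 := t.lt_n
  fin_cases k
  · show t.idx 0 < n; omega
  · show t.idx 1 < n; omega
  · exact h2

/-- a triple from three indices -/
def PvdiTri.mk' {n : ℕ} (i j k : ℕ) (hij : i < j) (hjk : j < k) (hk : k < n) : PvdiTri n :=
  ⟨(⟨i, by omega⟩, ⟨j, by omega⟩, ⟨k, hk⟩), hij, hjk⟩

variable {M : ℝ}

theorem pvdi_base (hM : 1 ≤ M) : 1 ≤ 10 ^ 4 * M := by nlinarith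

theorem pvdi_A_ge (hM : 1 ≤ M) (i : ℕ) : 30 ≤ pvdiA M i := by
  unfold pvdiA
  have := one_le_pow₀ (pvdi_base hM) (n := i)
  linarith

theorem pvdi_A_succ (i : ℕ) : pvdiA M (i + 1) = 10 ^ 4 * pvdiO M i := by
  unfold pvdiO pvdiA
  rw [pow_succ]; ring

theorem pvdi_A_mono (hM : 1 ≤ M) {i j : ℕ} (h : i ≤ j) : pvdiA M i ≤ pvdiA M j := by
  unfold pvdiA
  have := pow_le_pow_right₀ (pvdi_base hM) h
  linarith

theorem pvdi_O_ge (hM : 1 ≤ M) (i : ℕ) : pvdiA M i ≤ pvdiO M i := by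
  unfold pvdiO
  have := pvdi_A_ge hM i
  nlinarith

theorem pvdi_O_mono (hM : 1 ≤ M) {i j : ℕ} (h : i ≤ j) : pvdiO M i ≤ pvdiO M j := by
  unfold pvdiO
  exact mul_le_mul_of_nonneg_left (pvdi_A_mono hM h) (by linarith)

/-- separation of successive trials -/
theorem pvdi_O_lt_A (hM : 1 ≤ M) {i j : ℕ} (h : i < j) : 10 ^ 4 * pvdiO M i ≤ pvdiA M j := by
  rw [← pvdi_A_succ]
  exact pvdi_A_mono hM h

/-- the numbers of the menu which `S6b` uses, for the triples of trials: `m = 100 B_{i₁}`, `b₂ = B_{i₂} + 1`, `a₃ = A_{i₃}`, `L = B_n` -/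
noncomputable def pvdiMenu (M : ℝ) (n : ℕ) (hM : 1 ≤ M) : PvbMenu (PvdiTri n) where
  mc t := 100 * pvdiO M (t.idx 0)
  b2 t := pvdiO M (t.idx 1) + 1
  a3 t := pvdiA M (t.idx 2)
  L := pvdiO M n
  mc_gt t := by
    have h1 := pvdi_A_ge hM (t.idx 0)
    have h2 := pvdi_O_ge hM (t.idx 0)
    linarith
  mc_lt t := by
    have h1 := pvdi_O_lt_A hM t.lt01
    have h2 := pvdi_O_ge hM (t.idx 1)
    have h3 := pvdi_A_ge hM (t.idx 0)
    have h4 := pvdi_O_ge hM (t.idx 0)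
    linarith
  a3_gt t := by
    have h1 := pvdi_O_lt_A hM t.lt12
    have h3 := pvdi_A_ge hM (t.idx 1)
    have h4 := pvdi_O_ge hM (t.idx 1)
    linarith
  a3_le t := (pvdi_A_mono hM t.lt_n.le).trans (pvdi_O_ge hM n)

theorem pvdi_eqns_cite6 : True := by
  have := @pvdiMenu.eq_1; have := @PvdiTri.mk'.eq_1
  trivial

variable {V D : Type} (T : PvMap V D) (pos : V → ℂ) (s : V → Bool) (c : Bool)

/-- the `i`-th trial at the centre `z`, scale `h`, is clean for the colour `c` -/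
def PvdiCl (z : ℂ) (h M : ℝ) (i : ℕ) : Prop := PvdiClean T pos s c z (pvdiA M i * h) (pvdiO M i * h)

/-- **the flag `F1`**: fewer than three of the `n` trials are clean -/
def PvdiF1 (z : ℂ) (h M : ℝ) (n : ℕ) : Prop := ¬ ∃ t : PvdiTri n, ∀ k, PvdiCl T pos s c z h M (t.idx k)

theorem pvdi_eqns_cite7 : True := by
  have := @PvdiCl.eq_1; have := @PvdiF1.eq_1
  trivial

variable {T pos s c}

/-- what the three gates at a pin are: gates in the three trial annuli, passages in the right order, visits and diameters -/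
structure PvdiGates (T : PvMap V D) (pos : V → ℂ) (s : V → Bool) (c : Bool) (z : ℂ) (h M μ : ℝ) (γ : T.Cyc) (i₀ : ℕ) (idx : Fin 3 → ℕ)
    (G : Fin 3 → Set D) (X : Fin 3 → Finset V) (lo hi : Fin 3 → ℕ) : Prop where
  gate : ∀ k, PvgGate T s c (pvdiB T pos z (pvdiA M (idx k) * h)) (pvdiB T pos z (pvdiO M (idx k) * h)) (G k) (X k)
  pass : ∀ k, PvdiPass T (G k) (X k) γ i₀ (lo k) (hi k)
  visit : ∀ k, ∀ j ≤ γ.n, ‖pos (T.src (γ.e j)) - z‖ ≤ pvdiA M (idx k) * h → lo k < j ∧ j < hi k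
  diam : ∀ k j, lo k ≤ j → j ≤ hi k → ‖pos (T.src (γ.e j)) - z‖ ≤ pvdiO M (idx k) * h + μ
  nest01 : T.VOf (G 0) ⊆ T.Int (G 1)
  nest12 : T.VOf (G 1) ⊆ T.Int (G 2)
  lo21 : lo 2 < lo 1
  lo10 : lo 1 < lo 0
  hi01 : hi 0 < hi 1
  hi12 : hi 1 < hi 2

/-- the gates survive every recolouring `c → !c` off the six exceptional sites (in particular: off the cycle) -/
theorem PvdiGates.recolor {z : ℂ} {h M μ : ℝ} {γ : T.Cyc} {i₀ : ℕ} {idx : Fin 3 → ℕ} {G : Fin 3 → Set D} {X : Fin 3 → Finset V} {lo hi : Fin 3 → ℕ}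
    (H : PvdiGates T pos s c z h M μ γ i₀ idx G X lo hi) {s' : V → Bool} (h1 : ∀ v, s' v = c → s v = c) (h2 : ∀ k, s' (T.src (γ.e k)) = c) :
    PvdiGates T pos s' c z h M μ γ i₀ idx G X lo hi :=
  ⟨fun k => (H.gate k).recolor h1 fun v hv => by
      rcases (H.pass k).X_sub v hv with rfl | rfl <;> exact h2 _,
    H.pass, H.visit, H.diam, H.nest01, H.nest12, H.lo21, H.lo10, H.hi01, H.hi12⟩

/-- **DETERMINISTIC IMPLICATION, part (i)**: at a centre which is not flagged by `F1`, a simple cycle of colour `c` with a vertex within `h` of the centre, cut at a vertex beyond the trials,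
passes three nested two-site gates in order; the third one gives the TRAP -/
theorem pvdi_main (hT : T.IsSph) {h μ : ℝ} {n : ℕ} (hM : 2 ≤ M) (hh : 0 < h) (hμ : 0 ≤ μ) (hμh : μ ≤ h) {z : ℂ}
    (hm : PvdiMesh T pos z (pvdiO M n * h) μ) (hfin : (pvdiB T pos z (pvdiO M n * h)).Finite) (hF : ¬ PvdiF1 T pos s c z h M n)
    (γ : T.Cyc) (hγ : ∀ k, s (T.src (γ.e k)) = c) {i₀ : ℕ} (hi₀ : i₀ < γ.n) (hnear : ‖pos (T.src (γ.e i₀)) - z‖ ≤ h)
    (hfar : pvdiO M n * h < ‖pos (T.src (γ.e 0)) - z‖) :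
    ∃ (t : PvdiTri n) (G : Fin 3 → Set D) (X : Fin 3 → Finset V) (lo hi : Fin 3 → ℕ), PvdiGates T pos s c z h M μ γ i₀ t.idx G X lo hi ∧
      ∀ P : PvbRim, P.len = γ.n → (∀ k, P.v k = pos (T.src (γ.e k))) → PvbIsPin (pvdiMenu M n (by linarith)) h P ⟨i₀, z, t⟩ := by
  have hM1 : (1 : ℝ) ≤ M := by linarith
  obtain ⟨t, ht⟩ := not_not.1 hF
  -- numerics
  have hA : ∀ i, 30 * h ≤ pvdiA M i * h := fun i => mul_le_mul_of_nonneg_right (pvdi_A_ge hM1 i) hh.le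
  have hAO : ∀ i, pvdiA M i * h + μ ≤ pvdiO M i * h := by
    intro i
    have h1 := hA i
    have : pvdiO M i * h = M * (pvdiA M i * h) := by unfold pvdiO; ring
    rw [this]
    nlinarith
  have hOn : ∀ i, i < n → pvdiO M i * h + μ ≤ pvdiO M n * h := by
    intro i hi
    have h1 := pvdi_O_lt_A hM1 hi
    have h2 := pvdi_O_ge hM1 n
    have h3 := pvdi_A_ge hM1 i
    have h4 := pvdi_O_ge hM1 i
    have h5 : pvdiO M i + 1 ≤ pvdiO M n := by linarith
    nlinarith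
  have hOA : ∀ i j, i < j → pvdiO M i * h + μ ≤ pvdiA M j * h := by
    intro i j hij
    have h1 := pvdi_O_lt_A hM1 hij
    have h3 := pvdi_A_ge hM1 i
    have h4 := pvdi_O_ge hM1 i
    have h5 : pvdiO M i + 1 ≤ pvdiA M j := by linarith
    nlinarith
  have hmO : ∀ k, PvdiMesh T pos z (pvdiO M (t.idx k) * h) μ := fun k => hm.mono (by linarith [hOn _ (t.idx_lt k)])
  have hmA : ∀ k, PvdiMesh T pos z (pvdiA M (t.idx k) * h) μ := fun k => (hmO k).mono (by linarith [hAO (t.idx k)])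
  have hgate : ∀ k, ∃ G X, PvgGate T s c (pvdiB T pos z (pvdiA M (t.idx k) * h)) (pvdiB T pos z (pvdiO M (t.idx k) * h)) G X := fun k =>
    pvdi_gate hμ (hmA k) (hAO _) (hfin.subset (pvdi_B_mono z (by linarith [hOn _ (t.idx_lt k)]))) (ht k)
  choose G X hg using hgate
  have htrap := fun k => pvdi_trap hT hμ (hmO k) (hg k) γ hγ hi₀ (hnear.trans (by linarith [hA (t.idx k)])) (lt_of_le_of_lt (hOn _ (t.idx_lt k)) hfar)
  choose lo hi hp hvis hdiam using htrap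
  have hnest : ∀ k k' : Fin 3, t.idx k < t.idx k' → T.VOf (G k) ⊆ T.Int (G k') := by
    intro k k' hkk v hv
    exact pvdi_int_mono (hg k').inner (pvdi_int_of_le ((pvdi_VOf_le hμ (hmO k) (pvdi_VOf_mono (hg k).outer hv)).trans (hOA _ _ hkk)))
  have n01 := (hp 0).nest (hp 1) (hnest 0 1 t.lt01)
  have n12 := (hp 1).nest (hp 2) (hnest 1 2 t.lt12)
  refine ⟨t, G, X, lo, hi, ⟨hg, hp, hvis, hdiam, hnest 0 1 t.lt01, hnest 1 2 t.lt12, n12.1, n01.1, n01.2, n12.2⟩, ?_⟩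
  intro P hlen hv
  exact pvdi_isPin hT (pvdiMenu M n hM1) hμ (hmO 2) (hg 2) γ hγ hi₀ (lt_of_le_of_lt (hOn _ (t.idx_lt 2)) hfar) P hlen hv t (by rw [hv]; exact hnear)
    (by linarith [hA (t.idx 2)]) le_rfl (hOn _ (t.idx_lt 2))

end trials

/-! ## 6. Any number of gates in FIXED nested annuli      (A6 of helper281, ruling C1 of helper273: radii `a₁<b₁<…<a_g<b_g` are fixed numbers of the type) -/

section fixed

variable {V D : Type} {T : PvMap V D} {pos : V → ℂ} {s : V → Bool} {c : Bool}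

/-- `g` gates at the centre `z` in the annuli `[a k, b k]`, passed in order by the cycle `γ` (cut at the index `0`) round its vertex number `i₀` -/
structure PvdiGs (T : PvMap V D) (pos : V → ℂ) (s : V → Bool) (c : Bool) (z : ℂ) (μ : ℝ) (γ : T.Cyc) (i₀ : ℕ) {g : ℕ} (a b : Fin g → ℝ)
    (G : Fin g → Set D) (X : Fin g → Finset V) (lo hi : Fin g → ℕ) : Prop where
  gate : ∀ k, PvgGate T s c (pvdiB T pos z (a k)) (pvdiB T pos z (b k)) (G k) (X k)
  pass : ∀ k, PvdiPass T (G k) (X k) γ i₀ (lo k) (hi k)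
  visit : ∀ k, ∀ j ≤ γ.n, ‖pos (T.src (γ.e j)) - z‖ ≤ a k → lo k < j ∧ j < hi k
  diam : ∀ k j, lo k ≤ j → j ≤ hi k → ‖pos (T.src (γ.e j)) - z‖ ≤ b k + μ
  nest : ∀ k k', k < k' → T.VOf (G k) ⊆ T.Int (G k')
  order : ∀ k k', k < k' → lo k' < lo k ∧ hi k < hi k'

/-- **gates in fixed nested annuli are passed in order** -/
theorem pvdi_gates (hT : T.IsSph) {z : ℂ} {μ : ℝ} (hμ : 0 ≤ μ) {g : ℕ} {a b : Fin g → ℝ} (hm : ∀ k, PvdiMesh T pos z (b k) μ)
    (hord : ∀ k k', k < k' → b k + μ ≤ a k') {G : Fin g → Set D} {X : Fin g → Finset V}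
    (hg : ∀ k, PvgGate T s c (pvdiB T pos z (a k)) (pvdiB T pos z (b k)) (G k) (X k)) (γ : T.Cyc) (hγ : ∀ k, s (T.src (γ.e k)) = c) {i₀ : ℕ} (hi₀ : i₀ < γ.n)
    (hnear : ∀ k, ‖pos (T.src (γ.e i₀)) - z‖ ≤ a k) (hfar : ∀ k, b k + μ < ‖pos (T.src (γ.e 0)) - z‖) :
    ∃ lo hi : Fin g → ℕ, PvdiGs T pos s c z μ γ i₀ a b G X lo hi := by
  have htrap := fun k => pvdi_trap hT hμ (hm k) (hg k) γ hγ hi₀ (hnear k) (hfar k)
  choose lo hi hp hvis hdiam using htrap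
  have hnest : ∀ k k' : Fin g, k < k' → T.VOf (G k) ⊆ T.Int (G k') := by
    intro k k' hkk v hv
    exact pvdi_int_mono (hg k').inner (pvdi_int_of_le ((pvdi_VOf_le hμ (hm k) (pvdi_VOf_mono (hg k).outer hv)).trans (hord _ _ hkk)))
  exact ⟨lo, hi, hg, hp, hvis, hdiam, hnest, fun k k' hkk => (hp k).nest (hp k') (hnest k k' hkk)⟩

/-- clean annuli give the gates -/
theorem pvdi_gates_of_clean (hT : T.IsSph) {z : ℂ} {μ : ℝ} (hμ : 0 ≤ μ) {g : ℕ} {a b : Fin g → ℝ} (hm : ∀ k, PvdiMesh T pos z (b k) μ) (hab : ∀ k, a k + μ ≤ b k)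
    (hord : ∀ k k', k < k' → b k + μ ≤ a k') (hfin : ∀ k, (pvdiB T pos z (b k)).Finite) (hcl : ∀ k, PvdiClean T pos s c z (a k) (b k))
    (γ : T.Cyc) (hγ : ∀ k, s (T.src (γ.e k)) = c) {i₀ : ℕ} (hi₀ : i₀ < γ.n)
    (hnear : ∀ k, ‖pos (T.src (γ.e i₀)) - z‖ ≤ a k) (hfar : ∀ k, b k + μ < ‖pos (T.src (γ.e 0)) - z‖) :
    ∃ (G : Fin g → Set D) (X : Fin g → Finset V) (lo hi : Fin g → ℕ), PvdiGs T pos s c z μ γ i₀ a b G X lo hi := by
  have h1 := fun k => pvdi_gate hμ ((hm k).mono (by linarith [hab k])) (hab k) (hfin k) (hcl k)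
  choose G X hg using h1
  obtain ⟨lo, hi, h⟩ := pvdi_gates hT hμ hm hord hg γ hγ hi₀ hnear hfar
  exact ⟨G, X, lo, hi, h⟩

variable {z : ℂ} {μ : ℝ} {γ : T.Cyc} {i₀ g : ℕ} {a b : Fin g → ℝ} {G : Fin g → Set D} {X : Fin g → Finset V} {lo hi : Fin g → ℕ}

/-- stability under `c → !c` off the cycle -/
theorem PvdiGs.recolor (H : PvdiGs T pos s c z μ γ i₀ a b G X lo hi) {s' : V → Bool} (h1 : ∀ v, s' v = c → s v = c) (h2 : ∀ k, s' (T.src (γ.e k)) = c) :
    PvdiGs T pos s' c z μ γ i₀ a b G X lo hi :=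
  ⟨fun k => (H.gate k).recolor h1 fun v hv => by
      rcases (H.pass k).X_sub v hv with rfl | rfl <;> exact h2 _,
    H.pass, H.visit, H.diam, H.nest, H.order⟩

/-- the TRAP from the gate number `k` -/
theorem PvdiGs.isPin (H : PvdiGs T pos s c z μ γ i₀ a b G X lo hi) {τ : Type} (𝔐 : PvbMenu τ) {h : ℝ} (k : Fin g) (P : PvbRim) (hlen : P.len = γ.n)
    (hv : ∀ j, P.v j = pos (T.src (γ.e j))) (t : τ) (hnear : ‖P.v i₀ - z‖ ≤ h) (ha : 𝔐.a3 t * h ≤ a k) (hb : b k + μ ≤ 𝔐.L * h) : PvbIsPin 𝔐 h P ⟨i₀, z, t⟩ := by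
  have hp := H.pass k
  refine ⟨by rw [hlen]; exact hp.lt_hi.trans hp.hi_lt, hnear, lo k, hi k, hp.lo_lt.le, hp.lt_hi.le, by rw [hlen]; exact hp.hi_lt.le, ?_, ?_⟩
  · intro i hi' hlt
    have := H.visit k i (by rw [← hlen]; exact hi') (by rw [← hv]; exact (hlt.le.trans ha))
    exact ⟨this.1.le, this.2.le⟩
  · intro i i' a1 a2 a3 a4
    have e1 := H.diam k i a1 a2
    have e2 := H.diam k i' a3 a4
    rw [← hv] at e1 e2
    calc ‖P.v i - P.v i'‖ = ‖(P.v i - z) - (P.v i' - z)‖ := by ring_nf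
      _ ≤ ‖P.v i - z‖ + ‖P.v i' - z‖ := norm_sub_le _ _
      _ ≤ 2 * 𝔐.L * h := by linarith

/-- between the passages of two successive gates the cycle stays in the closed annulus between them: outside `clB(z, a k)`, inside `clB(z, b k' + μ)` -/
theorem PvdiGs.between (H : PvdiGs T pos s c z μ γ i₀ a b G X lo hi) {k k' : Fin g} (_hkk : k < k') {j : ℕ} (h1 : (lo k' ≤ j ∧ j ≤ lo k) ∨ (hi k ≤ j ∧ j ≤ hi k')) :
    a k < ‖pos (T.src (γ.e j)) - z‖ ∧ ‖pos (T.src (γ.e j)) - z‖ ≤ b k' + μ := by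
  have hp := H.pass k
  have hp' := H.pass k'
  have hjn : j ≤ γ.n := by
    rcases h1 with h | h
    · exact (h.2.trans (hp.lo_lt.trans (hp.lt_hi.trans hp.hi_lt)).le)
    · exact h.2.trans hp'.hi_lt.le
  constructor
  · by_contra hn
    have := H.visit k j hjn (not_lt.1 hn)
    rcases h1 with h | h <;> omega
  · refine H.diam k' j ?_ ?_
    · rcases h1 with h | h
      · exact h.1
      · exact (hp'.lo_lt.trans (hp.lt_hi)).le.trans h.1
    · rcases h1 with h | h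
      · exact h.2.trans (hp.lo_lt.trans hp'.lt_hi).le
      · exact h.2

end fixed

end Claimed.Agent.R289
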