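import Claimed.Agent.R289.Tr.GateFr
import Claimed.Agent.R289.Tr.Di

/-!
# Row 289 (S0537, Cardy for Poisson-Voronoi), unit TR, file Tr/GateFs : FROM THE GATES OF A6 (FACE-SET FORM) TO THE GATE OF RECORD, ALONG A WALK      (owner helper190; prefix `pvgfs_`, record `PvgfsWalk`)

THE SEAM.   The exit of A6 (`exit_pins_a6`, `PvxpGate` of helper12, `Exit/Pins.lean`) gives `PvgGate` of `S2/Gate` = a FACE SET `G` between the faces which meet `clB(z,r₁)` and those which meet `clB(z,r₂)`, with at most two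
black boundary vertices;   the rim which passes is a rim of a COMPLETION: in the plane map it is only a black simple WALK `f 0 … f N` (cut far away), not a `T.Cyc`.
The kit of helper150 (`Tr/GateMin`, `Tr/GateFr`) has the lattice in face-set + arc form (`PvgnG`, `PvgnArc`, `pvgn_min_arc`), but its exits `pvgn_gate`, `pvgy_m_gate` ask a black `T.Cyc`, and `pvgy_pass`, `pvgy_gate_of_nr` ask a circuit.
This file closes the gap, with no new vocabulary but the record of the hypotheses on the walk.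

* sec. 1  `PvgfsWalk T s I O f N i₀`  (black simple walk, both ends strictly outside `O`, `f i₀` strictly inside `I`);   `pvgfs_arcs` : its two `PvgnArc` + `PvgnDis`
* sec. 2  **`pvgfs_pass`**   face-set form of `pvgy_pass`;   `pvgfs_bb_adj`;   **`pvgfs_G`** : `PvgGate` + walk + mesh + no near return of the walk ⟹ `PvgnG`      (cure of the misfit of helper150 in face-set form)
* sec. 3  **`pvgfs_gate`**   ARC FORM of `pvgn_gate`: frame + one face-set gate + walk ⟹ `g : T.Gate s` with `g.c.Left = pvgnHull T s I O o` (THE RULE), entry and exit in the direction of the walk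
* sec. 4  AT THE MODEL `(delbPl Y).toMap` (= `pvxT ω`): `pvgfs_m_inner`, `pvgfs_m_outer`, `pvgfs_m_ann`, **`pvgfs_m_gate`**
-/

set_option autoImplicit false

namespace Claimed.Agent.R289

open Set Relation

/-! ## 1. the walk and its two arcs -/

section walk

variable {V D : Type} {T : PvMap V D} {s : V → Bool} {I O : Set D}

/-- **a black simple walk which passes through the annulus `O \ I`**: both ends strictly outside `O`, the vertex number `i₀` strictly inside `I`      (a rim cut at a far vertex: `f 0 = f N` is allowed) -/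
structure PvgfsWalk (T : PvMap V D) (s : V → Bool) (I O : Set D) (f : ℕ → V) (N i₀ : ℕ) : Prop where
  adj : ∀ k, k < N → T.Adj (f k) (f (k + 1))
  black : ∀ k, k ≤ N → s (f k) = true
  inj : ∀ k l, k < N → l < N → f k = f l → k = l
  st : f 0 ∈ T.Int Oᶜ
  en : f N ∈ T.Int Oᶜ
  le : i₀ ≤ N
  mid : f i₀ ∈ T.Int I

theorem PvgfsWalk.mono {f : ℕ → V} {N i₀ : ℕ} {I' O' : Set D} (h : PvgfsWalk T s I O f N i₀) (hI : I ⊆ I') (hO : O' ⊆ O) : PvgfsWalk T s I' O' f N i₀ :=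
  ⟨h.adj, h.black, h.inj, pvgn_int_mono (compl_subset_compl.2 hO) h.st, pvgn_int_mono (compl_subset_compl.2 hO) h.en, h.le, pvgn_int_mono hI h.mid⟩

/-- a vertex of the walk has a neighbour as soon as the walk has a step -/
theorem PvgfsWalk.nbr {f : ℕ → V} {N i₀ : ℕ} (h : PvgfsWalk T s I O f N i₀) (hN : 0 < N) {k : ℕ} (hk : k ≤ N) : ∃ w, T.Adj (f k) w := by
  rcases Nat.lt_or_ge k N with h1 | h1
  · exact ⟨_, h.adj k h1⟩
  · have e : k = N - 1 + 1 := by omega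
    exact ⟨f (N - 1), by rw [e]; exact T.adj_symm (h.adj (N - 1) (by omega))⟩

theorem PvgfsWalk.pos (hIO : I ⊆ O) {f : ℕ → V} {N i₀ : ℕ} (h : PvgfsWalk T s I O f N i₀) (hN : 0 < N) : 0 < i₀ ∧ i₀ < N := by
  have hmid : f i₀ ∈ T.Int O := pvgn_int_mono hIO h.mid
  obtain ⟨w, hw⟩ := h.nbr hN h.le
  have hno := pvgn_int_disj hw hmid
  constructor
  · rcases Nat.eq_zero_or_pos i₀ with e | e
    · rw [e] at hno; exact absurd h.st hno
    · exact e
  · rcases Nat.lt_or_ge i₀ N with e | e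
    · exact e
    · have : i₀ = N := le_antisymm h.le e
      rw [this] at hno; exact absurd h.en hno

/-- **the two arcs of the walk**: backwards from `f i₀` to `f 0`, forwards from `f i₀` to the first vertex strictly outside `O` -/
theorem pvgfs_arcs (hIO : I ⊆ O) {f : ℕ → V} {N i₀ : ℕ} (h : PvgfsWalk T s I O f N i₀) (hN : 0 < N) :
    ∃ M, i₀ < M ∧ M ≤ N ∧ PvgnArc T s I O (fun k => f (i₀ - k)) i₀ ∧ PvgnArc T s I O (fun k => f (i₀ + k)) (M - i₀) ∧
      PvgnDis (fun k => f (i₀ - k)) i₀ (fun k => f (i₀ + k)) (M - i₀) := by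
  classical
  obtain ⟨h0, h1⟩ := h.pos hIO hN
  have hex : ∃ j, i₀ ≤ j ∧ f j ∈ T.Int Oᶜ := ⟨N, h.le, h.en⟩
  set M := Nat.find hex with hM
  obtain ⟨hM1, hM2⟩ : i₀ ≤ M ∧ f M ∈ T.Int Oᶜ := Nat.find_spec hex
  have hMN : M ≤ N := Nat.find_min' hex ⟨h.le, h.en⟩
  have hmin : ∀ j, i₀ ≤ j → j < M → f j ∉ T.Int Oᶜ := fun j hj hjM hf => Nat.find_min hex hjM ⟨hj, hf⟩
  have hmid : f i₀ ∈ T.Int O := pvgn_int_mono hIO h.mid
  obtain ⟨w, hw⟩ := h.nbr hN h.le
  have hiM : i₀ < M := by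
    rcases Nat.lt_or_ge i₀ M with e | e
    · exact e
    · have : M = i₀ := le_antisymm e hM1
      rw [this] at hM2
      exact absurd hM2 (pvgn_int_disj hw hmid)
  refine ⟨M, hiM, hMN, ?_, ?_, ?_⟩
  · refine ⟨h0, fun k hk => ?_, fun k hk => h.black _ (by omega), fun k l hk hl e => ?_, by simpa using h.mid, by simpa using h.st⟩
    · have := h.adj (i₀ - (k + 1)) (by omega)
      rw [show i₀ - (k + 1) + 1 = i₀ - k by omega] at this
      exact T.adj_symm this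
    · have := h.inj (i₀ - k) (i₀ - l) (by omega) (by omega) e
      omega
  · refine ⟨by omega, fun k hk => ?_, fun k hk => h.black _ (by omega), fun k l hk hl e => ?_, by simpa using h.mid, ?_⟩
    · have := h.adj (i₀ + k) (by omega)
      rwa [show i₀ + k + 1 = i₀ + (k + 1) by omega] at this
    · have key : ∀ a b, a ≤ M - i₀ → b ≤ M - i₀ → a < b → f (i₀ + a) = f (i₀ + b) → False := by
        intro a b ha hb hab e'
        rcases Nat.lt_or_ge (i₀ + b) N with hbN | hbN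
        · have := h.inj (i₀ + a) (i₀ + b) (by omega) hbN e'
          omega
        · have hbM : i₀ + b = M := by omega
          rw [hbM] at e'
          exact hmin (i₀ + a) (by omega) (by omega) (e' ▸ hM2)
      rcases Nat.lt_trichotomy k l with hkl | hkl | hkl
      · exact absurd e fun e' => key k l hk hl hkl e'
      · exact hkl
      · exact absurd e fun e' => key l k hl hk hkl e'.symm
    · show f (i₀ + (M - i₀)) ∈ T.Int Oᶜ
      rw [show i₀ + (M - i₀) = M by omega]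
      exact hM2
  · intro k l k0 k1 l0 l1 e
    have := h.inj (i₀ - k) (i₀ + l) (by omega) (by omega) e
    omega

end walk

/-! ## 2. passage through a face set;  `PvgGate` ⟹ `PvgnG` -/

section pass

variable {V D : Type} {T : PvMap V D} {s : V → Bool} {I O : Set D}

/-- **passage of the walk through a face set with at most two black boundary vertices** (face-set form of `pvgy_pass`) -/
theorem pvgfs_pass (hT : T.IsSph) {G : Set D} (hG : T.FaceSet G) (hIG : I ⊆ G) (hGO : G ⊆ O) (h2 : (pvgnX T s G).encard ≤ 2) {f : ℕ → V} {N i₀ : ℕ}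
    (h : PvgfsWalk T s I O f N i₀) (hN : 0 < N) :
    ∃ k k', 0 < k ∧ k < i₀ ∧ i₀ < k' ∧ k' < N ∧ f k ≠ f k' ∧ pvgnX T s G = {f k, f k'} := by
  obtain ⟨h0, h1⟩ := h.pos (hIG.trans hGO) hN
  have hst : f 0 ∈ T.Int Gᶜ := pvgn_int_mono (compl_subset_compl.2 hGO) h.st
  have hen : f N ∈ T.Int Gᶜ := pvgn_int_mono (compl_subset_compl.2 hGO) h.en
  have hmid : f i₀ ∈ T.Int G := pvgn_int_mono hIG h.mid
  obtain ⟨k, k0, k1, hk⟩ := pvgy_hit hT hG.compl h0 (fun j _ hj => h.adj j (by omega)) hst (by rw [compl_compl]; exact hmid)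
  obtain ⟨k', l0, l1, hk'⟩ := pvgy_hit hT hG h1 (fun j _ hj => h.adj j hj) hmid hen
  rw [pvgn_bdV_compl] at hk
  have hne : f k ≠ f k' := fun e => by have := h.inj k k' (by omega) l1 e; omega
  refine ⟨k, k', k0, k1, l0, l1, hne, ?_⟩
  refine (Set.Finite.eq_of_subset_of_encard_le (s := {f k, f k'}) (Set.toFinite _) ?_ ?_).symm
  · rintro v (rfl | rfl)
    · exact ⟨hk, h.black k (by omega)⟩
    · exact ⟨hk', h.black k' l1.le⟩
  · rw [Set.encard_pair hne]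
    exact h2

/-- a black-black boundary edge joins the two places of passage -/
theorem pvgfs_bb_adj {G : Set D} {x y : V} (hX : pvgnX T s G = {x, y}) {d : D} (hd : T.Bd G d) (h1 : s (T.src d) = true) (h2 : s (T.tgt d) = true) : T.Adj x y := by
  have e1 : T.src d ∈ pvgnX T s G := ⟨pvg_bdV_src hd, h1⟩
  have e2 : T.tgt d ∈ pvgnX T s G := ⟨pvg_bdV_tgt hd, h2⟩
  rw [hX] at e1 e2
  have hne := T.tgt_ne_src d
  rcases e1 with e1 | e1 <;> rcases e2 with e2 | e2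
  · exact absurd (e2.trans e1.symm) hne
  · exact ⟨d, e1, e2⟩
  · exact T.adj_symm ⟨d, e1, e2⟩
  · exact absurd (e2.trans e1.symm) hne

/-- the black boundary vertices of a gate of `S2/Gate` -/
theorem pvgfs_two {I' O' G : Set D} {X : Finset V} (hg : PvgGate T s true I' O' G X) : (pvgnX T s G).encard ≤ 2 := by
  have hsub : pvgnX T s G ⊆ (X : Set V) := by
    rintro v ⟨hv, hb⟩
    rcases hg.other v hv with h | h
    · exact absurd hb h
    · exact h
  calc (pvgnX T s G).encard ≤ (X : Set V).encard := Set.encard_le_encard hsub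
    _ = (X.card : ℕ∞) := Set.encard_coe_eq_coe_finsetCard X
    _ ≤ 2 := by exact_mod_cast hg.card

/-- **`PvgGate` + NO NEAR RETURN ⟹ FACE-SET GATE OF RECORD**.      `G` a gate of A6 between `I'` and `O'`;   its boundary vertices are at distance `≥ A` from `z`, the edges at them have length `≤ μ`;
the walk visits strictly inside a vertex at distance `≤ ρ` from `z` and has no near return `(μ, A - ρ)` (hypothesis of `pvgy_gate_of_nr`; producer `pvgy_nr_of_rim`). -/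
theorem pvgfs_G (hT : T.IsSph) {I' O' G : Set D} {X : Finset V} (hg : PvgGate T s true I' O' G X) (hI : I ⊆ I') (hO : O' ⊆ O) {f : ℕ → V} {N i₀ : ℕ}
    (h : PvgfsWalk T s I O f N i₀) (hN : 0 < N) (pos : V → ℂ) {z : ℂ} {A ρ μ : ℝ} (hann : ∀ v ∈ T.BdV G, A ≤ ‖pos v - z‖) (hpz : ‖pos (f i₀) - z‖ ≤ ρ)
    (hmesh : ∀ u v, T.Adj u v → u ∈ T.BdV G → ‖pos v - pos u‖ ≤ μ)
    (hNR : ¬ ∃ k i k', k < i ∧ i < k' ∧ k' ≤ N ∧ ‖pos (f k') - pos (f k)‖ ≤ μ ∧ A - ρ ≤ ‖pos (f i) - pos (f k)‖) :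
    PvgnG T s I O G := by
  have h2 := pvgfs_two hg
  refine ⟨hg.face, hI.trans hg.inner, hg.outer.trans hO, h2, fun d hd hbb => ?_⟩
  obtain ⟨k, k', k0, k1, l0, l1, hne, hX⟩ := pvgfs_pass hT hg.face (hI.trans hg.inner) (hg.outer.trans hO) h2 h hN
  have hk : f k ∈ T.BdV G := by
    have : f k ∈ pvgnX T s G := by rw [hX]; exact Or.inl rfl
    exact this.1
  have hfar : A - ρ ≤ ‖pos (f i₀) - pos (f k)‖ := by
    have e1 := hann _ hk
    have e2 : ‖pos (f k) - z‖ ≤ ‖pos (f i₀) - pos (f k)‖ + ‖pos (f i₀) - z‖ := by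
      have := norm_sub_le (pos (f i₀) - z) (pos (f i₀) - pos (f k))
      rw [sub_sub_sub_cancel_left] at this
      linarith
    linarith
  exact hNR ⟨k, i₀, k', k1, l0, l1.le, hmesh _ _ (pvgfs_bb_adj hX hd hbb.1 hbb.2) hk, hfar⟩

end pass

/-! ## 3. the gate of record along a walk -/

section gate

variable {V D : Type} {T : PvMap V D} {s : V → Bool} {I O : Set D} {o : D}

/-- **ARC FORM OF `pvgn_gate`**: the filled minimal gate is the inside of a `T.Gate s` whose entry and exit are the two places of passage of the walk, in the direction of the walk -/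
theorem pvgfs_gate (hT : T.IsSph) (hS : T.Simple) (hF : PvgnFr T I O o) (hne : ∃ G, PvgnG T s I O G) {f : ℕ → V} {N i₀ : ℕ} (h : PvgfsWalk T s I O f N i₀) (hN : 0 < N) :
    ∃ (g : T.Gate s) (k k' : ℕ), g.c.Left = pvgnHull T s I O o ∧ I ⊆ g.c.Left ∧ g.c.Left ⊆ O ∧ (∀ i, g.c.e i ∈ pvgnMin T s I O ∧ T.opp (g.c.e i) ∉ pvgnMin T s I O) ∧
      0 < k ∧ k < i₀ ∧ i₀ < k' ∧ k' < N ∧ g.vm = f k ∧ g.vp = f k' := by
  obtain ⟨M, hiM, hMN, a1, a2, a3⟩ := pvgfs_arcs hF.sub h hN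
  have hmin := pvgn_min_arc hT hne a1 a2 a3
  obtain ⟨c, hL, hG, hc⟩ := pvgn_hull_cyc hT hS hF hmin
  obtain ⟨k, l, k0, k1, l0, l1, hX⟩ := pvgn_X_eq hT hG a1 a2 a3
  obtain ⟨g, g1, -, g3, g4, g5⟩ := pvgn_gate_of_cyc hT c (a3 k l k0 k1 l0 l1) hX hG.nobb
  refine ⟨g, i₀ - k, i₀ + l, g1.trans hL, g1 ▸ hG.inner, g1 ▸ hG.outer, fun i => ?_, by omega, by omega, by omega, by omega, g4, g5⟩
  obtain ⟨j, hj⟩ : g.c.e i ∈ c.darts := g3 ▸ ⟨i, rfl⟩
  rw [← hj]
  exact hc j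

end gate

/-! ## 4. at the model -/

section model

variable {Y : Set ℂ} {z : ℂ} {ra rb r₁ r₂ μ : ℝ}

/-- the faces with a vertex in the open ball of radius `ra ≤ r₁` meet `clB(z,r₁)` -/
theorem pvgfs_m_inner (hra : ra ≤ r₁) :
    (delbPl Y).toMap.Star {v : Y | ‖(v : ℂ) - z‖ < ra} ⊆ pvdiB (delbPl Y).toMap Subtype.val z r₁ := by
  rintro d (h | h | h)
  · exact Or.inl (le_of_lt (lt_of_lt_of_le h hra))
  · exact Or.inr (Or.inl (le_of_lt (lt_of_lt_of_le h hra)))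
  · exact Or.inr (Or.inr (le_of_lt (lt_of_lt_of_le h hra)))

/-- the faces which meet `clB(z,r₂)` have no vertex beyond `rb`, if the edges at the sites of `clB(z,r₂)` stay inside `B(z,rb)` -/
theorem pvgfs_m_outer (hr : r₂ < rb) (hsep : ∀ u v : Y, (delbPl Y).toMap.Adj u v → ‖(u : ℂ) - z‖ ≤ r₂ → ‖(v : ℂ) - z‖ < rb) :
    pvdiB (delbPl Y).toMap Subtype.val z r₂ ⊆ ((delbPl Y).toMap.Star {v : Y | rb ≤ ‖(v : ℂ) - z‖})ᶜ := by
  set T := (delbPl Y).toMap with hT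
  have key : ∀ d : (delbPl Y).Dart, ∀ u : Y, ‖(u : ℂ) - z‖ ≤ r₂ → (u = T.src d ∨ T.Adj u (T.src d)) → (u = T.tgt d ∨ T.Adj u (T.tgt d)) → (u = T.apex d ∨ T.Adj u (T.apex d)) →
      d ∉ T.Star {v : Y | rb ≤ ‖(v : ℂ) - z‖} := by
    intro d u hu h1 h2 h3
    have hlt : ∀ w : Y, (u = w ∨ T.Adj u w) → ‖(w : ℂ) - z‖ < rb := by
      rintro w (rfl | hw)
      · exact lt_of_le_of_lt hu hr
      · exact hsep u w hw hu
    rintro (h | h | h)
    · exact absurd (hlt _ h1) (not_lt.2 h)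
    · exact absurd (hlt _ h2) (not_lt.2 h)
    · exact absurd (hlt _ h3) (not_lt.2 h)
  rintro d (h | h | h)
  · exact key d _ h (Or.inl rfl) (Or.inr ⟨d, rfl, rfl⟩) (Or.inr (T.adj_symm (pl_adj_apex_src d)))
  · exact key d _ h (Or.inr (T.adj_symm ⟨d, rfl, rfl⟩)) (Or.inl rfl) (Or.inr (T.adj_symm (pl_adj_apex_tgt d)))
  · exact key d _ h (Or.inr (pl_adj_apex_src d)) (Or.inr (pl_adj_apex_tgt d)) (Or.inl rfl)

/-- the boundary vertices of a face set between `pvdiB z r₁` and `pvdiB z r₂` lie beyond `r₁`, and within `rb` -/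
theorem pvgfs_m_ann {G : Set (delbPl Y).Dart} (hI : pvdiB (delbPl Y).toMap Subtype.val z r₁ ⊆ G)
    (hO : G ⊆ ((delbPl Y).toMap.Star {v : Y | rb ≤ ‖(v : ℂ) - z‖})ᶜ) {v : Y} (hv : v ∈ (delbPl Y).toMap.BdV G) : r₁ < ‖(v : ℂ) - z‖ ∧ ‖(v : ℂ) - z‖ < rb := by
  obtain ⟨d, rfl, hd⟩ := hv
  set T := (delbPl Y).toMap with hT
  by_cases h1 : d ∈ G
  · have h2 : T.opp d ∉ G := fun h2 => hd ⟨fun _ => h2, fun _ => h1⟩
    constructor
    · by_contra hle
      refine h2 (hI (Or.inr (Or.inl ?_)))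
      rw [T.tgt_opp]
      exact not_lt.1 hle
    · by_contra hge
      exact hO h1 (Or.inl (not_lt.1 hge))
  · have h2 : T.opp d ∈ G := by
      by_contra h2
      exact hd ⟨fun h => absurd h h1, fun h => absurd h h2⟩
    constructor
    · by_contra hle
      exact h1 (hI (Or.inl (not_lt.1 hle)))
    · by_contra hge
      refine hO h2 (Or.inr (Or.inl ?_))
      show rb ≤ ‖((T.tgt (T.opp d) : Y) : ℂ) - z‖
      rw [T.tgt_opp]
      exact not_lt.1 hge

/-- **FROM A GATE OF A6 TO THE GATE OF RECORD, AT THE MODEL** `(delbPl Y).toMap = pvxT ω` (`Y := pvxY ω`, `s := pvxCol ω c`).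
`G` = a gate of A6 between `pvdiB z r₁` and `pvdiB z r₂` (`PvxpGate`);   `ra ≤ r₁`, the edges at the sites of `B(z, rb)` have length `≤ μ`, `r₂ + μ < rb`;
`f 0 … f N` = the rim, cut far away, as a black simple walk of the plane map: ends beyond `rb`, `f i₀` within `ρ < ra` of `z`;   no near return `(μ, r₁ - ρ)` of the walk.
THEN the rule `pvgnHull` is the inside of a gate, between the two balls, innermost, passed by the walk from `g.vm = f k` to `g.vp = f k'`, `k < i₀ < k'`. -/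
theorem pvgfs_m_gate (h : DelGood Y) {s : Y → Bool} {G : Set (delbPl Y).Dart} {X : Finset Y}
    (hg : PvgGate (delbPl Y).toMap s true (pvdiB (delbPl Y).toMap Subtype.val z r₁) (pvdiB (delbPl Y).toMap Subtype.val z r₂) G X)
    (hra : ra ≤ r₁) (hr12 : r₁ ≤ r₂) (hμ : r₂ + μ < rb) (hμ0 : 0 ≤ μ)
    (hmesh : ∀ u v : Y, (delbPl Y).toMap.Adj u v → ‖(u : ℂ) - z‖ < rb → ‖(v : ℂ) - (u : ℂ)‖ ≤ μ)
    {o : (delbPl Y).Dart} (ho : rb ≤ ‖((delbPl Y).toMap.src o : ℂ) - z‖)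
    {f : ℕ → Y} {N i₀ : ℕ} (hN : 0 < N) (hadj : ∀ k, k < N → (delbPl Y).toMap.Adj (f k) (f (k + 1))) (hb : ∀ k, k ≤ N → s (f k) = true)
    (hinj : ∀ k l, k < N → l < N → f k = f l → k = l) (h0 : rb ≤ ‖(f 0 : ℂ) - z‖) (hNf : rb ≤ ‖(f N : ℂ) - z‖) (hi : i₀ ≤ N) {ρ : ℝ} (hpz : ‖(f i₀ : ℂ) - z‖ ≤ ρ) (hρ : ρ < ra)
    (hNR : ¬ ∃ k i k', k < i ∧ i < k' ∧ k' ≤ N ∧ ‖(f k' : ℂ) - (f k : ℂ)‖ ≤ μ ∧ r₁ - ρ ≤ ‖(f i : ℂ) - (f k : ℂ)‖) :
    ∃ (g : (delbPl Y).toMap.Gate s) (k k' : ℕ),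
      g.c.Left = pvgnHull (delbPl Y).toMap s ((delbPl Y).toMap.Star {v : Y | ‖(v : ℂ) - z‖ < ra}) ((delbPl Y).toMap.Star {v : Y | rb ≤ ‖(v : ℂ) - z‖})ᶜ o ∧
      {v : Y | ‖(v : ℂ) - z‖ < ra} ⊆ (delbPl Y).toMap.Int g.c.Left ∧ {v : Y | rb ≤ ‖(v : ℂ) - z‖} ⊆ (delbPl Y).toMap.Int g.c.Right ∧
      (∀ g' : (delbPl Y).toMap.Gate s, {v : Y | ‖(v : ℂ) - z‖ < ra} ⊆ (delbPl Y).toMap.Int g'.c.Left → {v : Y | rb ≤ ‖(v : ℂ) - z‖} ⊆ (delbPl Y).toMap.Int g'.c.Right →
        g.c.Left ⊆ g'.c.Left) ∧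
      0 < k ∧ k < i₀ ∧ i₀ < k' ∧ k' < N ∧ g.vm = f k ∧ g.vp = f k' := by
  have hT := delb_plane_isSph h
  set T := (delbPl Y).toMap with hTdef
  have hstep : ∀ u v : Y, T.Adj u v → ‖(u : ℂ) - z‖ ≤ r₂ → ‖(v : ℂ) - z‖ < rb := by
    intro u v huv hu
    have e1 := hmesh u v huv (by linarith)
    have e2 : ‖(v : ℂ) - z‖ ≤ ‖(v : ℂ) - (u : ℂ)‖ + ‖(u : ℂ) - z‖ := by
      have := norm_add_le ((v : ℂ) - (u : ℂ)) ((u : ℂ) - z)
      rwa [sub_add_sub_cancel] at this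
    linarith
  have hsep : ∀ u v : Y, T.Adj u v → ‖(u : ℂ) - z‖ < ra → ‖(v : ℂ) - z‖ < rb := fun u v huv hu => hstep u v huv (by linarith)
  have hab : ra ≤ rb := by linarith
  obtain ⟨w, d₀, hd₀, -⟩ : ∃ w, T.Adj (f i₀) w := by
    rcases Nat.lt_or_ge i₀ N with h1 | h1
    · exact ⟨_, hadj i₀ h1⟩
    · have e : i₀ = N - 1 + 1 := by omega
      exact ⟨f (N - 1), by rw [e]; exact T.adj_symm (hadj (N - 1) (by omega))⟩
  have hF := pvgy_m_frame h hab hsep (d₀ := d₀) (by rw [← hTdef, hd₀]; exact lt_of_le_of_lt hpz hρ) ho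
  have hI := pvgfs_m_inner (Y := Y) (z := z) hra
  have hO := pvgfs_m_outer (Y := Y) (z := z) (r₂ := r₂) (rb := rb) (by linarith) hstep
  have hW : PvgfsWalk T s (T.Star {v : Y | ‖(v : ℂ) - z‖ < ra}) (T.Star {v : Y | rb ≤ ‖(v : ℂ) - z‖})ᶜ f N i₀ := by
    refine ⟨hadj, hb, hinj, ?_, ?_, hi, ?_⟩
    · rw [compl_compl]; intro d hd; exact Or.inl (by rw [hd]; exact h0)
    · rw [compl_compl]; intro d hd; exact Or.inl (by rw [hd]; exact hNf)
    · intro d hd; exact Or.inl (by rw [hd]; exact lt_of_le_of_lt hpz hρ)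
  have hG : PvgnG T s (T.Star {v : Y | ‖(v : ℂ) - z‖ < ra}) (T.Star {v : Y | rb ≤ ‖(v : ℂ) - z‖})ᶜ G :=
    pvgfs_G hT hg hI hO hW hN Subtype.val (z := z) (A := r₁) (ρ := ρ) (μ := μ) (fun v hv => (pvgfs_m_ann hg.inner (hg.outer.trans hO) hv).1.le) hpz
      (fun u v huv hu => hmesh u v huv (pvgfs_m_ann hg.inner (hg.outer.trans hO) hu).2) hNR
  obtain ⟨g, k, k', g1, g2, g3, -, k0, k1, l0, l1, g4, g5⟩ := pvgfs_gate hT (pvgy_m_simple Y) hF ⟨G, hG⟩ hW hN
  obtain ⟨e1, e2⟩ := (pvgy_between hT g.c _ _).1 ⟨g2, g3⟩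
  refine ⟨g, k, k', g1, e1, e2, fun g' q1 q2 => ?_, k0, k1, l0, l1, g4, g5⟩
  obtain ⟨q3, q4⟩ := (pvgy_between hT g'.c _ _).2 ⟨q1, q2⟩
  rw [g1]
  exact pvgn_innermost hT hF g' q3 q4

end model

end Claimed.Agent.R289
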