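import Claimed.Agent.R289.Pl.Path
import Claimed.Agent.R289.Arm.Strand

/-!
# Row 289 (S0537, Cardy for Poisson-Voronoi), box TR, file Tr/LaneDet : D6 = EXIST FOR LANES (deterministic)      (owner helper70; post of 295, head 194; prefix `pvld_`, defs `pvld… / Pvld…`)

Source: `origin/helper6:notes/R289/W2c_6.md` D2 (TRAP), D5 (SIDE + REGION), D6 (the same for lanes) = (H3) / T7 of `origin/helper208:notes/R289/W1_208.md`.
Vocabulary: `PvMap`, `IsSph`, `Cyc`, `Join`, `DJoin`, `VOf` of `Pl/Defs`; `Pth`, `glue` of `Pl/Path`; strands `pvasBW`, `pvasIt`, `pvasFc`, `pvasLayB/W` of `Arm/Strand` (`true` = BLACK).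
A POSITION `a` of a strand = a dart with black source and white target; the strand has just entered the face of `a` (black on its left, white on its right).

SETTING.  `a₀`, `a₁` two positions (`a₀ = a_1^+(s)` or the tip of an exit stub, `a₁ = a_1^-(t)` or the tip of an entrance stub), `K` a FINITE set of sites (the sites of the corridor `K_e`, both ends of `a₀`, `a₁` included).
* BLACK LANE   `T.Join univ {v ∈ K | black} (src a₀) (src a₁)`      (any black connection inside `K`: bank . landing . lane . landing . bank; it need not be simple)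
* WHITE LANE   `T.Join univ {v ∈ K | white} (tgt a₀) (tgt a₁)`
* CO-CONNECTED `∀ u v ∉ K, T.Join univ Kᶜ u v`                      (`K_e` simply connected polyomino + `Vor/Chain`: the sites off `K` are Delaunay connected off `K`)
* OUT          `∃ f, src f ∉ K ∧ T.DJoin (pvldBar T s K a₀ a₁) (opp a₀) f` : from the face BEHIND `a₀` one reaches a face with a vertex off `K` without crossing a monochromatic edge of `K` nor the edges of `a₀`, `a₁`.
               This replaces every chirality / geometric argument (D5(a)).   `pvld_out_back`: the strand which ARRIVES at `a₀` (inner strand, stub) is such a dual path;   `pvld_out_apex`, `pvld_out_rot`: one-face and rotation forms.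

RESULT  **`pvld_exist`** : `PvldRun T s K a₀ a₁` = the strand from `a₀` reaches `a₁` (first visit at time `N ≥ 1`) and ALL the faces it crosses have their three vertices in `K`.
Then: `pvld_run_lay` (banks in `K`), `pvld_run_hit` (`N` = hitting time), **`pvld_run_congr`** (LOCALITY: the run, its time and all its positions are functions of the colours in `K`), `pvld_run_unique`.

sec.1 paths (`pvldCons`)      sec.2 TRAP on a cycle with two bichromatic edges (`pvld_trap`)      sec.3 REGION (`pvld_region`, `pvld_finite`)      sec.4 the cycle of two lanes (`pvld_cyc`)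
sec.5 EXIST (`pvld_exist`)      sec.6 how to get OUT      sec.7 consequences of a run
-/

set_option autoImplicit false

namespace Claimed.Agent.R289

open Relation

variable {V D : Type}

/-! ## 0. definitions -/

/-- the BAR of a lane experiment: the edges between two sites of `K` which are monochromatic or carry `a₀` or `a₁` (a set of darts closed under `opp`) -/
def pvldBar (T : PvMap V D) (s : V → Bool) (K : Set V) (a₀ a₁ : D) : Set D :=
  {d | T.src d ∈ K ∧ T.tgt d ∈ K ∧ (¬ T.Occ s d ∨ d = a₀ ∨ d = T.opp a₀ ∨ d = a₁ ∨ d = T.opp a₁)}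

/-- **RUN**: the strand from `a₀` reaches `a₁`, for the first time after `N ≥ 1` steps, and all the faces it crosses have their vertices in `K` -/
def PvldRun (T : PvMap V D) (s : V → Bool) (K : Set V) (a₀ a₁ : D) : Prop :=
  ∃ N, 1 ≤ N ∧ pvasIt T s a₀ N = a₁ ∧ (∀ i, i < N → pvasIt T s a₀ i ≠ a₁) ∧ T.VOf (pvasFc T s a₀ N) ⊆ K

/-- the sites of `K` of colour `β` -/
def pvldCol (s : V → Bool) (K : Set V) (β : Bool) : Set V := {v | v ∈ K ∧ s v = β}

variable {T : PvMap V D}

/-- one more dart at the beginning of a path -/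
def pvldCons (p : T.Pth) (d : D) (ht : T.tgt d = p.v 0) (hn : T.src d ∉ p.verts) : T.Pth where
  n := p.n + 1
  v k := if k = 0 then T.src d else p.v (k - 1)
  e k := if k = 0 then d else p.e (k - 1)
  src_e k hk := by
    by_cases h : k = 0
    · rw [if_pos h, if_pos h]
    · rw [if_neg h, if_neg h, p.src_e _ (by omega)]
  tgt_e k hk := by
    by_cases h : k = 0
    · subst h
      rw [if_pos rfl, if_neg (by omega), ht]
    · rw [if_neg h, if_neg (by omega), p.tgt_e _ (by omega)]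
      congr 1
      omega
  inj k l hk hl h := by
    by_cases h1 : k = 0 <;> by_cases h2 : l = 0
    · omega
    · rw [if_pos h1, if_neg h2] at h
      exact absurd ⟨l - 1, by omega, h.symm⟩ hn
    · rw [if_neg h1, if_pos h2] at h
      exact absurd ⟨k - 1, by omega, h⟩ hn
    · rw [if_neg h1, if_neg h2] at h
      have := p.inj _ _ (by omega) (by omega) h
      omega

theorem pvld_eqns_cite : True := by
  have := @pvldBar.eq_1; have := @PvldRun.eq_1; have := @pvldCol.eq_1; have := @pvldCons.eq_1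
  trivial

variable {s : V → Bool} {K : Set V} {a₀ a₁ : D}

/-! ## 1. paths -/

theorem pvld_cons_verts (p : T.Pth) (d : D) (ht : T.tgt d = p.v 0) (hn : T.src d ∉ p.verts) : (pvldCons p d ht hn).verts = {T.src d} ∪ p.verts := by
  ext x
  constructor
  · rintro ⟨k, hk, rfl⟩
    by_cases h : k = 0
    · left
      show (if k = 0 then T.src d else p.v (k - 1)) = T.src d
      rw [if_pos h]
    · right
      refine ⟨k - 1, ?_, ?_⟩
      · have : k ≤ p.n + 1 := hk
        omega
      · show p.v (k - 1) = (if k = 0 then T.src d else p.v (k - 1))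
        rw [if_neg h]
  · rintro (h | ⟨k, hk, rfl⟩)
    · refine ⟨0, Nat.zero_le _, ?_⟩
      rw [Set.mem_singleton_iff.1 h]
      rfl
    · refine ⟨k + 1, Nat.succ_le_succ hk, ?_⟩
      show (if k + 1 = 0 then T.src d else p.v (k + 1 - 1)) = p.v k
      rw [if_neg (by omega), Nat.add_sub_cancel]

theorem pvld_cons_darts (p : T.Pth) (d : D) (ht : T.tgt d = p.v 0) (hn : T.src d ∉ p.verts) : (pvldCons p d ht hn).darts = {d} ∪ p.darts := by
  ext x
  constructor
  · rintro ⟨k, hk, rfl⟩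
    by_cases h : k = 0
    · left
      show (if k = 0 then d else p.e (k - 1)) = d
      rw [if_pos h]
    · right
      refine ⟨k - 1, ?_, ?_⟩
      · have : k < p.n + 1 := hk
        omega
      · show p.e (k - 1) = (if k = 0 then d else p.e (k - 1))
        rw [if_neg h]
  · rintro (h | ⟨k, hk, rfl⟩)
    · refine ⟨0, Nat.succ_pos _, ?_⟩
      rw [Set.mem_singleton_iff.1 h]
      rfl
    · refine ⟨k + 1, Nat.succ_lt_succ hk, ?_⟩
      show (if k + 1 = 0 then d else p.e (k + 1 - 1)) = p.e k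
      rw [if_neg (by omega), Nat.add_sub_cancel]

theorem pvld_snoc_verts (p : T.Pth) (d : D) (hs : T.src d = p.v p.n) (hn : T.tgt d ∉ p.verts) : (p.snoc d hs hn).verts = p.verts ∪ {T.tgt d} := by
  ext x
  constructor
  · rintro ⟨k, hk, rfl⟩
    by_cases h : k ≤ p.n
    · left
      refine ⟨k, h, ?_⟩
      show p.v k = (if k ≤ p.n then p.v k else T.tgt d)
      rw [if_pos h]
    · right
      show (if k ≤ p.n then p.v k else T.tgt d) = T.tgt d
      rw [if_neg h]
  · rintro (⟨k, hk, rfl⟩ | h)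
    · refine ⟨k, Nat.le_succ_of_le hk, ?_⟩
      show (if k ≤ p.n then p.v k else T.tgt d) = p.v k
      rw [if_pos hk]
    · refine ⟨p.n + 1, le_rfl, ?_⟩
      rw [Set.mem_singleton_iff.1 h]
      show (if p.n + 1 ≤ p.n then p.v (p.n + 1) else T.tgt d) = T.tgt d
      rw [if_neg (by omega)]

theorem pvld_snoc_darts (p : T.Pth) (d : D) (hs : T.src d = p.v p.n) (hn : T.tgt d ∉ p.verts) : (p.snoc d hs hn).darts = p.darts ∪ {d} := by
  ext x
  constructor
  · rintro ⟨k, hk, rfl⟩
    by_cases h : k < p.n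
    · left
      refine ⟨k, h, ?_⟩
      show p.e k = (if k < p.n then p.e k else d)
      rw [if_pos h]
    · right
      show (if k < p.n then p.e k else d) = d
      rw [if_neg h]
  · rintro (⟨k, hk, rfl⟩ | h)
    · refine ⟨k, Nat.lt_succ_of_lt hk, ?_⟩
      show (if k < p.n then p.e k else d) = p.e k
      rw [if_pos hk]
    · refine ⟨p.n, Nat.lt_succ_self _, ?_⟩
      rw [Set.mem_singleton_iff.1 h]
      show (if p.n < p.n then p.e p.n else d) = d
      rw [if_neg (by omega)]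

/-- both ends of a dart of a path are vertices of the path -/
theorem pvld_pth_ends (p : T.Pth) {d : D} (hd : d ∈ p.darts) : T.src d ∈ p.verts ∧ T.tgt d ∈ p.verts := by
  obtain ⟨i, hi, rfl⟩ := hd
  exact ⟨⟨i, hi.le, (p.src_e i hi).symm⟩, ⟨i + 1, hi, (p.tgt_e i hi).symm⟩⟩

theorem pvld_bar_opp {d : D} : T.opp d ∈ pvldBar T s K a₀ a₁ ↔ d ∈ pvldBar T s K a₀ a₁ := by
  have key : ∀ d, d ∈ pvldBar T s K a₀ a₁ → T.opp d ∈ pvldBar T s K a₀ a₁ := by
    rintro d ⟨h1, h2, h3⟩
    refine ⟨by rw [T.src_opp']; exact h2, by rw [T.tgt_opp]; exact h1, ?_⟩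
    rcases h3 with h | h | h | h | h
    · left
      intro ho
      apply h
      unfold PvMap.Occ at ho ⊢
      rw [T.src_opp', T.tgt_opp] at ho
      exact fun e => ho e.symm
    · right; right; left; rw [h]
    · right; left; rw [h, T.opp_opp]
    · right; right; right; right; rw [h]
    · right; right; right; left; rw [h, T.opp_opp]
  constructor
  · intro h
    have := key _ h
    rwa [T.opp_opp] at this
  · exact key d

/-! ## 2. TRAP: a cycle with exactly two bichromatic edges      (D2 of W2c_6, T7 / (H3) of W1_208) -/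

/-- the bichromatic boundary edges of the disc of a cycle `black, white … white, black … black` -/
theorem pvld_bdOcc (hT : T.IsSph) (c : T.Cyc) {m : ℕ} (hm : 0 < m) (hmn : m < c.n) (hw : ∀ k, 1 ≤ k → k ≤ m → s (T.src (c.e k)) = false)
    (hb : ∀ k, m < k → k ≤ c.n → s (T.src (c.e k)) = true) : pvasBdOcc T c.Left s = {c.e 0, c.e m} := by
  obtain ⟨hR, hL, hRo, hbd⟩ := pl_jordan hT c
  have hn := pl_cyc_pos c
  have hnotL : ∀ i, T.opp (c.e i) ∉ c.Left := fun i h => by
    have h' := hRo i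
    rw [hR] at h'
    exact h' h
  have hb0 : s (T.src (c.e 0)) = true := by
    have h1 := hb c.n hmn le_rfl
    have h2 := c.per 0
    rw [Nat.zero_add] at h2
    rwa [h2] at h1
  ext d
  constructor
  · rintro ⟨h1, h2, h3⟩
    have hB : T.Bd c.Left d := fun h => h2 (h.1 h1)
    rcases (hbd d).1 hB with ⟨j, rfl⟩ | ⟨j, hj⟩
    · have hjn : j % c.n < c.n := Nat.mod_lt _ hn
      have he : c.e j = c.e (j % c.n) := (pl_cyc_mod c j).symm
      rw [he] at h3 ⊢
      generalize j % c.n = j' at hjn h3 ⊢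
      unfold PvMap.Occ at h3
      rw [c.chain] at h3
      by_cases e0 : j' = 0
      · left; rw [e0]
      by_cases em : j' = m
      · right; rw [em]; rfl
      exfalso
      rcases Nat.lt_or_ge j' m with hlt | hge
      · exact h3 (by rw [hw j' (by omega) hlt.le, hw (j' + 1) (by omega) (by omega)])
      · exact h3 (by rw [hb j' (by omega) hjn.le, hb (j' + 1) (by omega) (by omega)])
    · exfalso
      apply h2
      rw [← hj]
      exact hL j
  · rintro (rfl | h)
    · refine ⟨hL 0, hnotL 0, ?_⟩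
      unfold PvMap.Occ
      rw [c.chain, hb0, hw (0 + 1) (by omega) (by omega)]
      exact Bool.noConfusion
    · rw [Set.mem_singleton_iff.1 h]
      refine ⟨hL m, hnotL m, ?_⟩
      unfold PvMap.Occ
      rw [c.chain, hw m hm le_rfl, hb (m + 1) (by omega) (by omega)]
      exact Bool.noConfusion

/-- **TRAP.**  `c` = the dart `e 0` (black → white), white vertices number `1..m`, the dart `e m` (white → black), black vertices number `m+1..n`.  The strand which enters the disc through `e 0` stays in it until it leaves it through `e m`. -/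
theorem pvld_trap (hT : T.IsSph) (c : T.Cyc) (hfin : c.Left.Finite) {m : ℕ} (hm : 0 < m) (hmn : m < c.n) (hw : ∀ k, 1 ≤ k → k ≤ m → s (T.src (c.e k)) = false)
    (hb : ∀ k, m < k → k ≤ c.n → s (T.src (c.e k)) = true) :
    ∃ N, 1 ≤ N ∧ (∀ i, i < N → pvasIt T s (c.e 0) i ∈ c.Left) ∧ pvasIt T s (c.e 0) N = T.opp (c.e m) := by
  have hb0 : s (T.src (c.e 0)) = true := by
    have h1 := hb c.n hmn le_rfl
    have h2 := c.per 0
    rw [Nat.zero_add] at h2
    rwa [h2] at h1
  have hbw : pvasBW T s (c.e 0) := ⟨hb0, by rw [c.chain]; exact hw (0 + 1) (by omega) (by omega)⟩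
  exact pvas_two_strand (pl_left_face c) hfin (pvld_bdOcc hT c hm hmn hw hb) hbw

/-! ## 3. REGION      (D5(b) of W2c_6) -/

/-- **REGION.**  The cycle runs in `K`, the sites off `K` are connected off `K`, and one of them is a vertex of a face on the right of the cycle: then the closed disc on the left lies in `K`. -/
theorem pvld_region (hT : T.IsSph) (c : T.Cyc) (hcK : c.verts ⊆ K) (hco : ∀ u v, u ∉ K → v ∉ K → T.Join Set.univ Kᶜ u v) {f : D} (hf : f ∈ c.Right) (hfK : T.src f ∉ K) :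
    T.VOf c.Left ⊆ K := by
  intro v hv
  by_contra hvK
  rw [pl_VOf_left hT c] at hv
  rcases hv with hv | hv
  · exact hvK (hcK hv)
  · obtain ⟨-, hj⟩ := hco v (T.src f) hvK hfK
    have hj' : ReflTransGen (fun u w => T.Adj u w ∧ w ∉ c.verts) v (T.src f) := by
      refine ReflTransGen.mono (fun u w huw => ?_) _ _ hj
      obtain ⟨⟨d, -, h1, h2⟩, hw⟩ := huw
      exact ⟨⟨d, h1, h2⟩, fun h => hw (hcK h)⟩
    have hf' := pl_jordan_sep hT c hv hj' f rfl
    rw [(pl_jordan hT c).1] at hf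
    exact hf hf'

/-- a face set all of whose vertices lie in a finite set is finite -/
theorem pvld_finite (hT : T.IsSph) {A : Set D} (hK : K.Finite) (h : T.VOf A ⊆ K) : A.Finite := by
  have h1 : A ⊆ ⋃ v ∈ K, {d | T.src d = v} := by
    intro d hd
    simp only [Set.mem_iUnion]
    exact ⟨T.src d, h ⟨d, hd, rfl⟩, rfl⟩
  exact (hK.biUnion fun v _ => pl_deg_finite hT v).subset h1

/-! ## 4. the cycle of two lanes -/

/-- **the cycle of two lanes**: `a₀`, a simple white path, `opp a₁`, a simple black path back -/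
theorem pvld_cyc (h0 : pvasBW T s a₀) (h1 : pvasBW T s a₁) (hne : T.src a₀ ≠ T.src a₁)
    (hB : T.Join Set.univ (pvldCol s K true) (T.src a₀) (T.src a₁)) (hW : T.Join Set.univ (pvldCol s K false) (T.tgt a₀) (T.tgt a₁)) :
    ∃ (c : T.Cyc) (m : ℕ), 0 < m ∧ m < c.n ∧ c.e 0 = a₀ ∧ c.e m = T.opp a₁ ∧ (∀ k, 1 ≤ k → k ≤ m → s (T.src (c.e k)) = false) ∧
      (∀ k, m < k → k ≤ c.n → s (T.src (c.e k)) = true) ∧ c.verts ⊆ K ∧ c.darts ⊆ pvldBar T s K a₀ a₁ := by
  haveI : Nonempty D := ⟨a₀⟩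
  obtain ⟨w, hw0, hwn, hwX, -⟩ := pl_pth_of_join hW
  obtain ⟨b, hb0, hbn, hbX, -⟩ := pl_pth_of_join hB
  have hwc : ∀ x ∈ w.verts, x ∈ K ∧ s x = false := fun x hx => hwX hx
  have hbc : ∀ x ∈ b.verts, x ∈ K ∧ s x = true := fun x hx => hbX hx
  have hbv : ∀ k, k ≤ b.n → b.v k ∈ K ∧ s (b.v k) = true := fun k hk => hbc _ ⟨k, hk, rfl⟩
  have hwv : ∀ k, k ≤ w.n → w.v k ∈ K ∧ s (w.v k) = false := fun k hk => hwc _ ⟨k, hk, rfl⟩
  have hK0 : T.src a₀ ∈ K := by rw [← hb0]; exact (hbv 0 (Nat.zero_le _)).1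
  have hK1 : T.src a₁ ∈ K := by rw [← hbn]; exact (hbv _ le_rfl).1
  have hK0' : T.tgt a₀ ∈ K := by rw [← hw0]; exact (hwv 0 (Nat.zero_le _)).1
  have hK1' : T.tgt a₁ ∈ K := by rw [← hwn]; exact (hwv _ le_rfl).1
  have hbpos : 0 < b.n := by
    by_contra h
    have h' : b.n = 0 := by omega
    apply hne
    rw [← hb0, ← hbn, h']
  have hs1 : T.src (T.opp a₁) = w.v w.n := by rw [T.src_opp', hwn]
  have hn1 : T.tgt (T.opp a₁) ∉ w.verts := by
    rw [T.tgt_opp]
    intro h
    have h' := (hwc _ h).2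
    rw [h1.1] at h'
    exact Bool.noConfusion h'
  have ht2 : T.tgt a₀ = (w.snoc (T.opp a₁) hs1 hn1).v 0 := by
    show T.tgt a₀ = (if 0 ≤ w.n then w.v 0 else T.tgt (T.opp a₁))
    rw [if_pos (Nat.zero_le _), hw0]
  have hn2 : T.src a₀ ∉ (w.snoc (T.opp a₁) hs1 hn1).verts := by
    rw [pvld_snoc_verts]
    rintro (h | h)
    · have h' := (hwc _ h).2
      rw [h0.1] at h'
      exact Bool.noConfusion h'
    · rw [Set.mem_singleton_iff, T.tgt_opp] at h
      exact hne h
  obtain ⟨P, hP⟩ : ∃ P : T.Pth, P = pvldCons (w.snoc (T.opp a₁) hs1 hn1) a₀ ht2 hn2 := ⟨_, rfl⟩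
  have hPn : P.n = w.n + 2 := by rw [hP]; rfl
  have hPv0 : P.v 0 = T.src a₀ := by rw [hP]; rfl
  have hPvw : ∀ k, 1 ≤ k → k ≤ w.n + 1 → P.v k = w.v (k - 1) := by
    intro k hk1 hk2
    rw [hP]
    show (if k = 0 then T.src a₀ else (if k - 1 ≤ w.n then w.v (k - 1) else T.tgt (T.opp a₁))) = w.v (k - 1)
    rw [if_neg (by omega), if_pos (by omega)]
  have hPvn : P.v (w.n + 2) = T.src a₁ := by
    rw [hP]
    show (if w.n + 2 = 0 then T.src a₀ else (if w.n + 2 - 1 ≤ w.n then w.v (w.n + 2 - 1) else T.tgt (T.opp a₁))) = T.src a₁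
    rw [if_neg (by omega), if_neg (by omega), T.tgt_opp]
  have hPe0 : P.e 0 = a₀ := by rw [hP]; rfl
  have hPem : P.e (w.n + 1) = T.opp a₁ := by
    rw [hP]
    show (if w.n + 1 = 0 then a₀ else (if w.n + 1 - 1 < w.n then w.e (w.n + 1 - 1) else T.opp a₁)) = T.opp a₁
    rw [if_neg (by omega), if_neg (by omega)]
  have hPverts : P.verts = {T.src a₀} ∪ (w.verts ∪ {T.src a₁}) := by
    rw [hP, pvld_cons_verts, pvld_snoc_verts, T.tgt_opp]
  have hPdarts : P.darts = {a₀} ∪ (w.darts ∪ {T.opp a₁}) := by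
    rw [hP, pvld_cons_darts, pvld_snoc_darts]
  have hrv : ∀ k, b.rev.v k = b.v (b.n - k) := fun k => rfl
  have hrn : b.rev.n = b.n := rfl
  have hG : P.Glue b.rev := by
    refine ⟨?_, ?_, ?_, ?_⟩
    · rw [hPn, hPvn, hrv, Nat.sub_zero, hbn]
    · rw [hrn, hrv, Nat.sub_self, hb0, hPv0]
    · rw [hPn, hrn]; omega
    · intro i j hi hj hij
      rw [hPn] at hi
      rw [hrn] at hj
      rw [hrv] at hij
      by_cases e0 : i = 0
      · right
        subst e0
        rw [hPv0, ← hb0] at hij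
        have := b.inj _ _ (Nat.zero_le _) (by omega) hij
        exact ⟨rfl, by rw [hrn]; omega⟩
      by_cases e1 : i = w.n + 2
      · left
        subst e1
        rw [hPvn, ← hbn] at hij
        have := b.inj _ _ le_rfl (by omega) hij
        exact ⟨hPn.symm, by omega⟩
      exfalso
      rw [hPvw i (by omega) (by omega)] at hij
      have h1' := (hwv (i - 1) (by omega)).2
      rw [hij, (hbv _ (by omega)).2] at h1'
      exact Bool.noConfusion h1'
  refine ⟨P.glue b.rev hG, w.n + 1, by omega, ?_, ?_, ?_, ?_, ?_, ?_, ?_⟩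
  · rw [pl_pth_glue_n, hPn]; omega
  · rw [pl_pth_glue_e1 P b.rev hG (by omega), hPe0]
  · rw [pl_pth_glue_e1 P b.rev hG (by omega), hPem]
  · intro k hk1 hk2
    rw [pl_pth_glue_src1 P b.rev hG (by omega), hPvw k hk1 hk2]
    exact (hwv _ (by omega)).2
  · intro k hk1 hk2
    rw [pl_pth_glue_n, hPn, hrn] at hk2
    obtain ⟨l, rfl⟩ : ∃ l, k = P.n + l := ⟨k - P.n, by omega⟩
    rw [pl_pth_glue_src2 P b.rev hG (by rw [hrn]; omega), hrv]
    exact (hbv _ (by omega)).2
  · rw [pl_pth_glue_verts, hPverts, pl_pth_rev_verts]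
    rintro x ((h | h | h) | h)
    · rw [Set.mem_singleton_iff.1 h]; exact hK0
    · exact (hwc x h).1
    · rw [Set.mem_singleton_iff.1 h]; exact hK1
    · exact (hbc x h).1
  · rw [pl_pth_glue_darts, hPdarts]
    rintro d ((h | h | h) | h)
    · rw [Set.mem_singleton_iff.1 h]
      exact ⟨hK0, hK0', Or.inr (Or.inl rfl)⟩
    · obtain ⟨e1, e2⟩ := pvld_pth_ends w h
      refine ⟨(hwc _ e1).1, (hwc _ e2).1, Or.inl fun ho => ho ?_⟩
      rw [(hwc _ e1).2, (hwc _ e2).2]
    · rw [Set.mem_singleton_iff.1 h]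
      exact ⟨by rw [T.src_opp']; exact hK1', by rw [T.tgt_opp]; exact hK1, Or.inr (Or.inr (Or.inr (Or.inr rfl)))⟩
    · obtain ⟨e1, e2⟩ := pvld_pth_ends b.rev h
      rw [pl_pth_rev_verts] at e1 e2
      refine ⟨(hbc _ e1).1, (hbc _ e2).1, Or.inl fun ho => ho ?_⟩
      rw [(hbc _ e1).2, (hbc _ e2).2]

/-! ## 5. EXIST      (D6 of W2c_6) -/

/-- **D6, EXIST FOR LANES.** -/
theorem pvld_exist (hT : T.IsSph) (hK : K.Finite) (h0 : pvasBW T s a₀) (h1 : pvasBW T s a₁) (hne : T.src a₀ ≠ T.src a₁)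
    (hB : T.Join Set.univ (pvldCol s K true) (T.src a₀) (T.src a₁)) (hW : T.Join Set.univ (pvldCol s K false) (T.tgt a₀) (T.tgt a₁))
    (hco : ∀ u v, u ∉ K → v ∉ K → T.Join Set.univ Kᶜ u v) (hout : ∃ f, T.src f ∉ K ∧ T.DJoin (pvldBar T s K a₀ a₁) (T.opp a₀) f) :
    PvldRun T s K a₀ a₁ := by
  obtain ⟨c, m, hm, hmn, e0, em, hw, hb, hcK, hcB⟩ := pvld_cyc h0 h1 hne hB hW
  obtain ⟨f, hfK, hf⟩ := hout
  have hfR : f ∈ c.Right := by
    show T.DJoin c.darts (T.opp (c.e 0)) f
    rw [e0]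
    exact T.djoin_mono hcB hf
  have hreg := pvld_region hT c hcK hco hfR hfK
  have hfin : c.Left.Finite := pvld_finite hT hK hreg
  obtain ⟨N, hN1, hNin, hNe⟩ := pvld_trap hT c hfin hm hmn hw hb
  rw [e0] at hNin hNe
  rw [em, T.opp_opp] at hNe
  refine ⟨N, hN1, hNe, fun i hi h => ?_, ?_⟩
  · have h2 := hNin i hi
    rw [h] at h2
    have h3 := (pl_jordan hT c).2.2.1 m
    rw [em, T.opp_opp, (pl_jordan hT c).1] at h3
    exact h3 h2
  · rintro v ⟨d, hd, rfl⟩
    exact hreg ⟨d, pvas_fc_sub (pl_left_face c) hNin hd, rfl⟩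

/-! ## 6. how to get OUT -/

/-- one face: the third vertex of the face behind `a₀` is off `K` -/
theorem pvld_out_apex (h : T.apex (T.opp a₀) ∉ K) : ∃ f, T.src f ∉ K ∧ T.DJoin (pvldBar T s K a₀ a₁) (T.opp a₀) f :=
  ⟨T.nxt (T.nxt (T.opp a₀)), h, T.djoin_sf (T.sf_nxt2 _)⟩

/-- **the strand which arrives at `a₀`** is a dual path off the bar -/
theorem pvld_out_back (h1 : pvasBW T s a₁) {f : D} (hf : pvasBW T s f) {j : ℕ} (hj : pvasIt T s f j = a₀) (hne : ∀ i, i < j → pvasIt T s f i ≠ a₀ ∧ pvasIt T s f i ≠ a₁) (hj1 : 1 ≤ j) :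
    T.DJoin (pvldBar T s K a₀ a₁) (T.opp a₀) f := by
  have h0 : pvasBW T s a₀ := hj ▸ pvas_it_bw hf j
  have key : ∀ i, i + 1 ≤ j → T.DJoin (pvldBar T s K a₀ a₁) f (T.opp (pvasIt T s f (i + 1))) := by
    intro i
    induction i with
    | zero =>
      intro _
      have := pvas_step_sf (T := T) s f
      exact T.djoin_sf this
    | succ i ih =>
      intro hi
      have h2 := ih (by omega)
      have hbw : pvasBW T s (pvasIt T s f (i + 1)) := pvas_it_bw hf _
      have hn := hne (i + 1) (by omega)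
      have hnot : pvasIt T s f (i + 1) ∉ pvldBar T s K a₀ a₁ := by
        rintro ⟨_, _, h3 | h3 | h3 | h3 | h3⟩
        · apply h3
          show s _ ≠ s _
          rw [hbw.1, hbw.2]
          simp
        · exact hn.1 h3
        · have h4 := hbw.1
          rw [h3, T.src_opp', h0.2] at h4
          simp at h4
        · exact hn.2 h3
        · have h4 := hbw.1
          rw [h3, T.src_opp', h1.2] at h4
          simp at h4
      have hstep : T.DStep (pvldBar T s K a₀ a₁) (T.opp (pvasIt T s f (i + 1))) (pvasIt T s f (i + 1)) := by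
        refine Or.inr ⟨(T.opp_opp _).symm, ?_⟩
        rintro (h3 | h3)
        · exact hnot (pvld_bar_opp.1 h3)
        · rw [T.opp_opp] at h3
          exact hnot h3
      refine (h2.tail hstep).trans ?_
      have := pvas_step_sf (T := T) s (pvasIt T s f (i + 1))
      rw [← pvas_it_succ] at this
      exact T.djoin_sf this
  have h5 := key (j - 1) (by omega)
  rw [Nat.sub_add_cancel hj1, hj] at h5
  exact T.djoin_symm h5

/-- the same with a vertex off `K` on one of the faces crossed before `a₀` -/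
theorem pvld_out_strand (h1 : pvasBW T s a₁) {f : D} (hf : pvasBW T s f) {j : ℕ} (hj : pvasIt T s f j = a₀) (hne : ∀ i, i < j → pvasIt T s f i ≠ a₀ ∧ pvasIt T s f i ≠ a₁)
    (hv : ¬ T.VOf (pvasFc T s f j) ⊆ K) : ∃ f', T.src f' ∉ K ∧ T.DJoin (pvldBar T s K a₀ a₁) (T.opp a₀) f' := by
  obtain ⟨v, ⟨d, ⟨i, hi, hsf⟩, rfl⟩, hvK⟩ := Set.not_subset.1 hv
  refine ⟨d, hvK, ?_⟩
  have h2 : T.DJoin (pvldBar T s K a₀ a₁) (T.opp a₀) (pvasIt T s f i) := by
    refine pvld_out_back (j := j - i) h1 (pvas_it_bw hf i) ?_ ?_ (by omega)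
    · rw [← pvas_it_add, Nat.add_sub_cancel' hi.le, hj]
    · intro k hk
      rw [← pvas_it_add]
      exact hne _ (by omega)
  exact h2.trans (T.djoin_sf hsf)

/-- rotation form (D5(a)): turning NEGATIVELY from `a₀` round its source one meets darts with white heads, then a dart `d` with its head off `K` -/
theorem pvld_out_rot (h0 : pvasBW T s a₀) (h1 : pvasBW T s a₁) {d : D} {j : ℕ} (hj : T.rot^[j] d = a₀) (hj1 : 1 ≤ j) (hw : ∀ k, 1 ≤ k → k < j → s (T.tgt (T.rot^[k] d)) = false ∧ T.rot^[k] d ≠ a₀ ∧ T.rot^[k] d ≠ a₁)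
    (hd : T.tgt d ∉ K) : ∃ f, T.src f ∉ K ∧ T.DJoin (pvldBar T s K a₀ a₁) (T.opp a₀) f := by
  have hsrc : ∀ k, s (T.src (T.rot^[k] d)) = true := by
    intro k
    rw [T.src_rot_iter, ← T.src_rot_iter j d, hj]
    exact h0.1
  have hopp : ∀ k, T.SF (T.rot^[k] d) (T.opp (T.rot^[k + 1] d)) := by
    intro k
    rw [Function.iterate_succ_apply']
    unfold PvMap.rot
    rw [T.opp_opp]
    exact T.sf_nxt2 _
  have hbar : ∀ k, 1 ≤ k → k < j → ¬ T.Edg (pvldBar T s K a₀ a₁) (T.rot^[k] d) := by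
    intro k hk1 hkj
    obtain ⟨w1, w2, w3⟩ := hw k hk1 hkj
    have hnot : T.rot^[k] d ∉ pvldBar T s K a₀ a₁ := by
      rintro ⟨-, -, h | h | h | h | h⟩
      · apply h
        unfold PvMap.Occ
        rw [hsrc k, w1]
        exact Bool.true_eq_false_eq_False
      · exact w2 h
      · have := hsrc k
        rw [h, T.src_opp', h0.2] at this
        exact Bool.false_ne_true this
      · exact w3 h
      · have := hsrc k
        rw [h, T.src_opp', h1.2] at this
        exact Bool.false_ne_true this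
    rintro (h | h)
    · exact hnot h
    · exact hnot (pvld_bar_opp.1 h)
  have key : ∀ i, i < j → T.DJoin (pvldBar T s K a₀ a₁) (T.opp a₀) (T.rot^[j - 1 - i] d) := by
    intro i
    induction i with
    | zero =>
      intro _
      have := hopp (j - 1)
      rw [Nat.sub_add_cancel hj1, hj] at this
      exact T.djoin_sf (T.sf_symm this)
    | succ i ih =>
      intro hi
      have h1' := ih (by omega)
      have e : j - 1 - i = (j - 1 - (i + 1)) + 1 := by omega
      have hstep : T.DStep (pvldBar T s K a₀ a₁) (T.rot^[j - 1 - i] d) (T.opp (T.rot^[j - 1 - i] d)) :=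
        Or.inr ⟨rfl, hbar _ (by omega) (by omega)⟩
      have h2 := hopp (j - 1 - (i + 1))
      rw [← e] at h2
      exact (h1'.tail hstep).trans (T.djoin_sf (T.sf_symm h2))
  refine ⟨T.nxt d, by rw [T.src_nxt]; exact hd, ?_⟩
  have := key (j - 1) (by omega)
  rw [Nat.sub_self] at this
  exact this.tail (Or.inl rfl)

/-! ## 7. consequences of a run -/

/-- the time of a run is the hitting time of `a₁` -/
theorem pvld_run_hit (h : PvldRun T s K a₀ a₁) :
    1 ≤ pvasHit T s a₀ {a₁} ∧ pvasIt T s a₀ (pvasHit T s a₀ {a₁}) = a₁ ∧ T.VOf (pvasFc T s a₀ (pvasHit T s a₀ {a₁})) ⊆ K := by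
  obtain ⟨N, hN, h1, h2, h3⟩ := h
  have e : pvasHit T s a₀ {a₁} = N := pvas_hit_eq (Z := {a₁}) h1 h2
  rw [e]
  exact ⟨hN, h1, h3⟩

/-- the banks of a run lie in `K` -/
theorem pvld_run_lay (h : PvldRun T s K a₀ a₁) :
    pvasLayB T s a₀ (pvasHit T s a₀ {a₁}) ⊆ K ∧ pvasLayW T s a₀ (pvasHit T s a₀ {a₁}) ⊆ K := by
  obtain ⟨h1, -, h3⟩ := pvld_run_hit h
  rw [pvas_fc_verts s a₀ h1] at h3
  exact ⟨Set.subset_union_left.trans h3, Set.subset_union_right.trans h3⟩

/-- **LOCALITY**: a run, its time and its positions only read the colours in `K` -/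
theorem pvld_run_congr {s' : V → Bool} (hs : ∀ v ∈ K, s' v = s v) (h : PvldRun T s K a₀ a₁) :
    PvldRun T s' K a₀ a₁ ∧ pvasHit T s' a₀ {a₁} = pvasHit T s a₀ {a₁} ∧ ∀ i, i ≤ pvasHit T s a₀ {a₁} → pvasIt T s' a₀ i = pvasIt T s a₀ i := by
  obtain ⟨l1, l2⟩ := pvld_run_lay h
  obtain ⟨h1, h2, h3⟩ := pvld_run_hit h
  have hit : ∀ i, i ≤ pvasHit T s a₀ {a₁} → pvasIt T s' a₀ i = pvasIt T s a₀ i :=
    pvas_it_congr fun v hv => hs v (hv.elim (fun h => l1 h) (fun h => l2 h))
  have hmin : ∀ i, i < pvasHit T s a₀ {a₁} → pvasIt T s' a₀ i ≠ a₁ := by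
    intro i hi
    rw [hit i hi.le]
    exact pvas_hit_min (Z := {a₁}) hi
  have hlast : pvasIt T s' a₀ (pvasHit T s a₀ {a₁}) = a₁ := by rw [hit _ le_rfl, h2]
  have hfc : pvasFc T s' a₀ (pvasHit T s a₀ {a₁}) = pvasFc T s a₀ (pvasHit T s a₀ {a₁}) := by
    ext f
    constructor
    · rintro ⟨i, hi, hf⟩
      exact ⟨i, hi, by rwa [hit i hi.le] at hf⟩
    · rintro ⟨i, hi, hf⟩
      exact ⟨i, hi, by rwa [hit i hi.le]⟩
  exact ⟨⟨_, h1, hlast, hmin, by rw [hfc]; exact h3⟩, pvas_hit_eq (Z := {a₁}) hlast hmin, hit⟩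

/-- monotone in the region -/
theorem pvld_run_mono {K' : Set V} (hKK : K ⊆ K') (h : PvldRun T s K a₀ a₁) : PvldRun T s K' a₀ a₁ := by
  obtain ⟨N, hN, h1, h2, h3⟩ := h
  exact ⟨N, hN, h1, h2, h3.trans hKK⟩

/-- two consecutive runs: `a₀ → a₁` in `K`, `a₁ → a₂` in `K'` give the positions of the strand from `a₀` up to `a₂` -/
theorem pvld_run_trans {K' : Set V} {a₂ : D} (h : PvldRun T s K a₀ a₁) (h' : PvldRun T s K' a₁ a₂) :
    pvasIt T s a₀ (pvasHit T s a₀ {a₁} + pvasHit T s a₁ {a₂}) = a₂ ∧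
      T.VOf (pvasFc T s a₀ (pvasHit T s a₀ {a₁} + pvasHit T s a₁ {a₂})) ⊆ K ∪ K' := by
  obtain ⟨-, h2, h3⟩ := pvld_run_hit h
  obtain ⟨-, k2, k3⟩ := pvld_run_hit h'
  refine ⟨by rw [pvas_it_add, h2, k2], ?_⟩
  rintro v ⟨f, ⟨i, hi, hf⟩, rfl⟩
  rcases Nat.lt_or_ge i (pvasHit T s a₀ {a₁}) with hlt | hge
  · exact Or.inl (h3 ⟨f, ⟨i, hlt, hf⟩, rfl⟩)
  · obtain ⟨i', rfl⟩ : ∃ i', i = pvasHit T s a₀ {a₁} + i' := ⟨i - pvasHit T s a₀ {a₁}, by omega⟩
    rw [pvas_it_add, h2] at hf
    exact Or.inr (k3 ⟨f, ⟨i', by omega, hf⟩, rfl⟩)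

end Claimed.Agent.R289
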