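-- KEEP
import Claimed.Agent.R289.Pl.Jordan
import Claimed.Agent.R289.Arm.Strand
import Claimed.Agent.R289.S2.Gate

/-!
# Row 289 (S0537, Cardy for Poisson-Voronoi), unit TR, chapter B, file Tr/GateB : DEF B0 (GATE) and TR10 = SC3 of helper118      (owner helper260; prefix `pvtg_`, record `PvMap.Gate`)

Blueprint: `origin/helper295:notes/R289/TR_295.md` (DEF B0, TR10), `origin/helper118:notes/R289/W1_118.md` (SC3), `origin/helper6:notes/R289/W2c_6.md` sec. 1 (gate darts `a^±`).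
Vocabulary: `Pl/Defs`, `Pl/Jordan` (57, 209), strands `pvasStep pvasIt pvasIn pvasOut pvasExit` of `Arm/Strand` (158; `pvasStep` = the wall step `ws` of 118 on darts black → white), `PvgGate`, `pvg_pass_ord` of `S2/Gate` (190).

**GATE** `g : T.Gate s`: a simple primal circuit `g.c` (its inside `g.c.Left` on the LEFT) with exactly two black vertices, number `0` (`g.vm` = `g⁻`, entry) and number `g.m` (`g.vp` = `g⁺`, exit),
at least one white vertex on each of the two arcs.
* `g.R` = the open arc from `g⁻` to `g⁺` in the positive sense = the white arc on the RIGHT of a passage `g⁻ → g⁺` through the inside;   `g.L` = the other open arc.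
* the four occupied edges, as positions of strands with the black bank on their left:
  `g.aIn  = g⁻ → first vertex of R` (entrance; `a⁻` of 6),      `g.aOut = g⁺ → last vertex of R` (exit; `a⁺` of 6),
  `g.bIn  = g⁺ → first vertex of L` (entrance),                  `g.bOut = g⁻ → last vertex of L` (exit).
* `g.Thru` : the strand which enters at `aIn` leaves at `aOut` (INNER STRAND);  `g.len` its length,  `g.bank`, `g.wbank` its black and white banks.

TR10:  `pvtg_occ`, `pvtg_bdOcc`, `pvtg_bdOcc_card` (exactly 4 occupied edges);  `pvtg_in_iff`, `pvtg_out_iff`, `pvtg_exit` (pairing of entrances and exits);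
`pvtg_sep_in`, `pvtg_sep_out` (a black path off `g^±` stays on its side);  `pvtg_meet` (black vertices of the closed inside and of the closed outside meet only in `g^±`);
`pvtg_bank_sub`, `pvtg_thru_join`, `pvtg_thru_wjoin` (banks of the inner strand);  `PvMap.Gate.tr`, `pvtg_tr_*` (LOCALITY: everything is a function of the colours of the closed inside);
`pvtg_pass` (a black simple circuit which visits both sides passes once through `g⁻`, once through `g⁺`: inner arc + outer arc).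
-/

set_option autoImplicit false

namespace Claimed.Agent.R289

open Relation

variable {V D : Type} {T : PvMap V D}

/-- **DEF B0**: a gate of the colouring `s` (black = `true`) -/
structure PvMap.Gate (T : PvMap V D) (s : V → Bool) where
  /-- the circuit, inside on the left -/
  c : T.Cyc
  /-- the index of the exit vertex -/
  m : ℕ
  hm : 2 ≤ m
  hmn : m + 2 ≤ c.n
  col : ∀ i, i < c.n → (s (T.src (c.e i)) = true ↔ i = 0 ∨ i = m)

namespace PvMap.Gate

variable {s : V → Bool} (g : T.Gate s)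

/-- `g⁻` -/
def vm : V := T.src (g.c.e 0)
/-- `g⁺` -/
def vp : V := T.src (g.c.e g.m)
/-- entrance beside `g⁻`, on the right arc -/
def aIn : D := g.c.e 0
/-- exit beside `g⁺`, on the right arc -/
def aOut : D := T.opp (g.c.e (g.m - 1))
/-- entrance beside `g⁺`, on the left arc -/
def bIn : D := g.c.e g.m
/-- exit beside `g⁻`, on the left arc -/
def bOut : D := T.opp (g.c.e (g.c.n - 1))
/-- the open right arc -/
def R : Set V := {v | ∃ k, 0 < k ∧ k < g.m ∧ T.src (g.c.e k) = v}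
/-- the open left arc -/
def L : Set V := {v | ∃ k, g.m < k ∧ k < g.c.n ∧ T.src (g.c.e k) = v}
/-- the strand which enters at `aIn` leaves at `aOut` -/
def Thru : Prop := pvasExit T g.c.Left s g.aIn = g.aOut
/-- length of the strand which enters at `aIn` -/
noncomputable def len : ℕ := pvasHit T s g.aIn g.c.Leftᶜ
/-- its black bank -/
def bank : Set V := pvasLayB T s g.aIn g.len
/-- its white bank -/
def wbank : Set V := pvasLayW T s g.aIn g.len

end PvMap.Gate

theorem pvtg_eqns_cite : True := by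
  have := @PvMap.Gate.vm.eq_1; have := @PvMap.Gate.vp.eq_1; have := @PvMap.Gate.aIn.eq_1; have := @PvMap.Gate.aOut.eq_1
  have := @PvMap.Gate.bIn.eq_1; have := @PvMap.Gate.bOut.eq_1; have := @PvMap.Gate.R.eq_1; have := @PvMap.Gate.L.eq_1
  have := @PvMap.Gate.Thru.eq_1; have := @PvMap.Gate.len.eq_1; have := @PvMap.Gate.bank.eq_1; have := @PvMap.Gate.wbank.eq_1
  trivial

variable {s : V → Bool}

/-! ## 1. Colours on the circuit -/

theorem pvtg_col (g : T.Gate s) (i : ℕ) : s (T.src (g.c.e i)) = true ↔ i % g.c.n = 0 ∨ i % g.c.n = g.m := by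
  rw [← pl_cyc_mod g.c i]
  exact g.col _ (Nat.mod_lt _ (pl_cyc_pos g.c))

theorem pvtg_vm (g : T.Gate s) : s g.vm = true := (g.col 0 (pl_cyc_pos g.c)).2 (Or.inl rfl)

theorem pvtg_vp (g : T.Gate s) : s g.vp = true := (g.col g.m (by have := g.hmn; omega)).2 (Or.inr rfl)

theorem pvtg_ne (g : T.Gate s) : g.vm ≠ g.vp := fun h => by
  have h1 := g.c.inj 0 g.m (pl_cyc_pos g.c) (by have := g.hmn; omega) h
  have := g.hm
  omega

theorem pvtg_white (g : T.Gate s) {k : ℕ} (hk : k < g.c.n) (h0 : k ≠ 0) (hm : k ≠ g.m) : s (T.src (g.c.e k)) = false := by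
  rw [← Bool.not_eq_true, g.col k hk]
  omega

theorem pvtg_R_white (g : T.Gate s) {v : V} (hv : v ∈ g.R) : s v = false := by
  obtain ⟨k, h1, h2, rfl⟩ := hv
  exact pvtg_white g (by have := g.hmn; omega) (by omega) (by omega)

theorem pvtg_L_white (g : T.Gate s) {v : V} (hv : v ∈ g.L) : s v = false := by
  obtain ⟨k, h1, h2, rfl⟩ := hv
  exact pvtg_white g h2 (by omega) (by omega)

theorem pvtg_verts (g : T.Gate s) (v : V) : v ∈ g.c.verts ↔ v = g.vm ∨ v = g.vp ∨ v ∈ g.R ∨ v ∈ g.L := by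
  constructor
  · rintro ⟨i, rfl⟩
    rw [← pl_cyc_mod g.c i]
    have hlt := Nat.mod_lt i (pl_cyc_pos g.c)
    generalize i % g.c.n = k at hlt
    by_cases h0 : k = 0
    · left; rw [h0]; rfl
    by_cases hm : k = g.m
    · right; left; rw [hm]; rfl
    by_cases hlt2 : k < g.m
    · right; right; left; exact ⟨k, by omega, hlt2, rfl⟩
    · right; right; right; exact ⟨k, by omega, hlt, rfl⟩
  · rintro (rfl | rfl | ⟨k, -, -, rfl⟩ | ⟨k, -, -, rfl⟩)
    exacts [⟨0, rfl⟩, ⟨g.m, rfl⟩, ⟨k, rfl⟩, ⟨k, rfl⟩]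

theorem pvtg_black (g : T.Gate s) {v : V} (hv : v ∈ g.c.verts) (hb : s v = true) : v = g.vm ∨ v = g.vp := by
  rcases (pvtg_verts g v).1 hv with h | h | h | h
  · exact Or.inl h
  · exact Or.inr h
  · rw [pvtg_R_white g h] at hb; exact absurd hb (by simp)
  · rw [pvtg_L_white g h] at hb; exact absurd hb (by simp)

/-! ## 2. The four darts -/

theorem pvtg_aIn_src (g : T.Gate s) : T.src g.aIn = g.vm := rfl
theorem pvtg_aIn_tgt (g : T.Gate s) : T.tgt g.aIn = T.src (g.c.e 1) := g.c.chain 0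
theorem pvtg_bIn_src (g : T.Gate s) : T.src g.bIn = g.vp := rfl
theorem pvtg_bIn_tgt (g : T.Gate s) : T.tgt g.bIn = T.src (g.c.e (g.m + 1)) := g.c.chain g.m
theorem pvtg_aOut_src (g : T.Gate s) : T.src g.aOut = g.vp := by
  unfold PvMap.Gate.aOut PvMap.Gate.vp
  rw [T.src_opp', g.c.chain, show g.m - 1 + 1 = g.m by have := g.hm; omega]
theorem pvtg_aOut_tgt (g : T.Gate s) : T.tgt g.aOut = T.src (g.c.e (g.m - 1)) := T.tgt_opp _
theorem pvtg_bOut_src (g : T.Gate s) : T.src g.bOut = g.vm := by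
  unfold PvMap.Gate.bOut PvMap.Gate.vm
  rw [T.src_opp', g.c.chain, show g.c.n - 1 + 1 = 0 + g.c.n by have := g.hmn; omega, g.c.per]
theorem pvtg_bOut_tgt (g : T.Gate s) : T.tgt g.bOut = T.src (g.c.e (g.c.n - 1)) := T.tgt_opp _

theorem pvtg_aIn_tgt_R (g : T.Gate s) : T.tgt g.aIn ∈ g.R := ⟨1, by omega, by have := g.hm; omega, (pvtg_aIn_tgt g).symm⟩
theorem pvtg_aOut_tgt_R (g : T.Gate s) : T.tgt g.aOut ∈ g.R := ⟨g.m - 1, by have := g.hm; omega, by have := g.hm; omega, (pvtg_aOut_tgt g).symm⟩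
theorem pvtg_bIn_tgt_L (g : T.Gate s) : T.tgt g.bIn ∈ g.L := ⟨g.m + 1, by omega, by have := g.hmn; omega, (pvtg_bIn_tgt g).symm⟩
theorem pvtg_bOut_tgt_L (g : T.Gate s) : T.tgt g.bOut ∈ g.L := ⟨g.c.n - 1, by have := g.hmn; omega, by have := g.hmn; omega, (pvtg_bOut_tgt g).symm⟩

theorem pvtg_aIn_bw (g : T.Gate s) : pvasBW T s g.aIn := ⟨pvtg_vm g, pvtg_R_white g (pvtg_aIn_tgt_R g)⟩
theorem pvtg_bIn_bw (g : T.Gate s) : pvasBW T s g.bIn := ⟨pvtg_vp g, pvtg_L_white g (pvtg_bIn_tgt_L g)⟩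
theorem pvtg_aOut_bw (g : T.Gate s) : pvasBW T s g.aOut := ⟨by rw [pvtg_aOut_src]; exact pvtg_vp g, pvtg_R_white g (pvtg_aOut_tgt_R g)⟩
theorem pvtg_bOut_bw (g : T.Gate s) : pvasBW T s g.bOut := ⟨by rw [pvtg_bOut_src]; exact pvtg_vm g, pvtg_L_white g (pvtg_bOut_tgt_L g)⟩

theorem pvtg_aIn_ne_bIn (g : T.Gate s) : g.aIn ≠ g.bIn := fun h => pvtg_ne g (congrArg T.src h)
theorem pvtg_aOut_ne_bOut (g : T.Gate s) : g.aOut ≠ g.bOut := fun h => pvtg_ne g (by rw [← pvtg_bOut_src, ← pvtg_aOut_src, h])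

/-- **exactly four occupied edges**, index form -/
theorem pvtg_occ (g : T.Gate s) {i : ℕ} (hi : i < g.c.n) : T.Occ s (g.c.e i) ↔ i = 0 ∨ i + 1 = g.m ∨ i = g.m ∨ i + 1 = g.c.n := by
  unfold PvMap.Occ
  rw [Ne, Bool.eq_iff_iff, g.c.chain, g.col i hi, pvtg_col]
  have h1 := g.hm
  have h2 := g.hmn
  by_cases h : i + 1 = g.c.n
  · have h3 : (i + 1) % g.c.n = 0 := by rw [h, Nat.mod_self]
    rw [h3]; omega
  · have h3 : (i + 1) % g.c.n = i + 1 := Nat.mod_eq_of_lt (by omega)
    rw [h3]; omega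

/-! ## 3. Entrances and exits of the strands -/

/-- the entrances of the inside -/
theorem pvtg_in_iff (hT : T.IsSph) (g : T.Gate s) (d : D) : pvasIn T g.c.Left s d ↔ d = g.aIn ∨ d = g.bIn := by
  obtain ⟨hR, hL, hO, hbd⟩ := pl_jordan hT g.c
  constructor
  · rintro ⟨h1, h2, h3⟩
    have hB : T.Bd g.c.Left d := fun h => h2 (h.1 h1)
    rcases (hbd d).1 hB with ⟨i, rfl⟩ | ⟨i, hi⟩
    · rcases (pvtg_col g i).1 h3.1 with h | h
      · left; exact pl_cyc_eq_of_mod g.c (by rw [h, Nat.zero_mod])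
      · right; exact pl_cyc_eq_of_mod g.c (by rw [h, Nat.mod_eq_of_lt (by have := g.hmn; omega)])
    · exact absurd (hi ▸ hL i) h2
  · rintro (rfl | rfl)
    · exact ⟨hL 0, by have h := hO 0; rw [hR] at h; exact h, pvtg_aIn_bw g⟩
    · exact ⟨hL g.m, by have h := hO g.m; rw [hR] at h; exact h, pvtg_bIn_bw g⟩

/-- the exits of the inside -/
theorem pvtg_out_iff (hT : T.IsSph) (g : T.Gate s) (d : D) : pvasOut T g.c.Left s d ↔ d = g.aOut ∨ d = g.bOut := by
  obtain ⟨hR, hL, hO, hbd⟩ := pl_jordan hT g.c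
  have h1m := g.hm
  have h2m := g.hmn
  constructor
  · rintro ⟨h1, h2, h3⟩
    have hB : T.Bd g.c.Left d := fun h => h1 (h.2 h2)
    rcases (hbd d).1 hB with ⟨i, rfl⟩ | ⟨i, hi⟩
    · exact absurd (hL i) h1
    · have hlt := Nat.mod_lt i (pl_cyc_pos g.c)
      rw [← pl_cyc_mod g.c i] at hi
      generalize i % g.c.n = k at hlt hi
      have hd : d = T.opp (g.c.e k) := by rw [hi, T.opp_opp]
      subst hd
      have hs : s (T.src (g.c.e (k + 1))) = true := by rw [← g.c.chain, ← T.src_opp']; exact h3.1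
      have hk : k + 1 = g.m ∨ k + 1 = g.c.n := by
        by_cases h : k + 1 = g.c.n
        · exact Or.inr h
        · have h4 := (g.col (k + 1) (by omega)).1 hs
          omega
      rcases hk with hk | hk
      · left
        unfold PvMap.Gate.aOut
        rw [show g.m - 1 = k by omega]
      · right
        unfold PvMap.Gate.bOut
        rw [show g.c.n - 1 = k by omega]
  · rintro (rfl | rfl)
    · refine ⟨by have h := hO (g.m - 1); rw [hR] at h; exact h, ?_, pvtg_aOut_bw g⟩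
      unfold PvMap.Gate.aOut; rw [T.opp_opp]; exact hL _
    · refine ⟨by have h := hO (g.c.n - 1); rw [hR] at h; exact h, ?_, pvtg_bOut_bw g⟩
      unfold PvMap.Gate.bOut; rw [T.opp_opp]; exact hL _

/-- **exactly four occupied dual edges cross the gate** -/
theorem pvtg_bdOcc (hT : T.IsSph) (g : T.Gate s) : pvasBdOcc T g.c.Left s = {g.aIn, T.opp g.aOut, g.bIn, T.opp g.bOut} := by
  obtain ⟨hR, hL, hO, hbd⟩ := pl_jordan hT g.c
  have h1m := g.hm
  have h2m := g.hmn
  have hno : ∀ i, T.opp (g.c.e i) ∉ g.c.Left := fun i => by have h := hO i; rw [hR] at h; exact h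
  ext d
  simp only [pvasBdOcc, Set.mem_ofPred_eq, Set.mem_insert_iff, Set.mem_singleton_iff, PvMap.Gate.aIn, PvMap.Gate.aOut, PvMap.Gate.bIn,
    PvMap.Gate.bOut, T.opp_opp]
  constructor
  · rintro ⟨h1, h2, h3⟩
    have hB : T.Bd g.c.Left d := fun h => h2 (h.1 h1)
    rcases (hbd d).1 hB with ⟨i, rfl⟩ | ⟨i, hi⟩
    · have hlt := Nat.mod_lt i (pl_cyc_pos g.c)
      rw [← pl_cyc_mod g.c i] at h3 ⊢
      generalize i % g.c.n = k at hlt h3
      rcases (pvtg_occ g hlt).1 h3 with h | h | h | h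
      · left; rw [h]
      · right; left; rw [show g.m - 1 = k by omega]
      · right; right; left; rw [h]
      · right; right; right; rw [show g.c.n - 1 = k by omega]
    · exact absurd (hi ▸ hL i) h2
  · rintro (rfl | rfl | rfl | rfl)
    · exact ⟨hL _, hno _, (pvtg_occ g (by omega)).2 (by omega)⟩
    · exact ⟨hL _, hno _, (pvtg_occ g (by omega)).2 (by omega)⟩
    · exact ⟨hL _, hno _, (pvtg_occ g (by omega)).2 (by omega)⟩
    · exact ⟨hL _, hno _, (pvtg_occ g (by omega)).2 (by omega)⟩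

theorem pvtg_bdOcc_card (hT : T.IsSph) (g : T.Gate s) : (pvasBdOcc T g.c.Left s).ncard = 4 := by
  have h1m := g.hm
  have h2m := g.hmn
  have hne : ∀ {i j : ℕ}, i < g.c.n → j < g.c.n → i ≠ j → g.c.e i ≠ g.c.e j :=
    fun hi hj h e => h (g.c.inj _ _ hi hj (congrArg T.src e))
  rw [pvtg_bdOcc hT g]
  simp only [PvMap.Gate.aIn, PvMap.Gate.aOut, PvMap.Gate.bIn, PvMap.Gate.bOut, T.opp_opp]
  rw [Set.ncard_insert_of_notMem, Set.ncard_insert_of_notMem, Set.ncard_pair]
  · exact hne (by omega) (by omega) (by omega)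
  · simp only [Set.mem_insert_iff, Set.mem_singleton_iff, not_or]
    exact ⟨hne (by omega) (by omega) (by omega), hne (by omega) (by omega) (by omega)⟩
  · simp only [Set.mem_insert_iff, Set.mem_singleton_iff, not_or]
    exact ⟨hne (by omega) (by omega) (by omega), hne (by omega) (by omega) (by omega), hne (by omega) (by omega) (by omega)⟩

/-- **pairing**: a strand which enters beside `g⁻` leaves beside `g⁺` or beside `g⁻`, and the other strand takes the other exit -/
theorem pvtg_exit (hT : T.IsSph) (g : T.Gate s) (hfin : g.c.Left.Finite) :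
    (pvasExit T g.c.Left s g.aIn = g.aOut ∧ pvasExit T g.c.Left s g.bIn = g.bOut) ∨
    (pvasExit T g.c.Left s g.aIn = g.bOut ∧ pvasExit T g.c.Left s g.bIn = g.aOut) := by
  have hbij := pvas_exit_bij (pl_left_face g.c) hfin s
  have ha : pvasIn T g.c.Left s g.aIn := (pvtg_in_iff hT g _).2 (Or.inl rfl)
  have hb : pvasIn T g.c.Left s g.bIn := (pvtg_in_iff hT g _).2 (Or.inr rfl)
  have ea := (pvtg_out_iff hT g _).1 (hbij.mapsTo ha)
  have eb := (pvtg_out_iff hT g _).1 (hbij.mapsTo hb)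
  have hne : pvasExit T g.c.Left s g.aIn ≠ pvasExit T g.c.Left s g.bIn := fun h => pvtg_aIn_ne_bIn g (hbij.injOn ha hb h)
  rcases ea with ea | ea <;> rcases eb with eb | eb
  · exact absurd (ea.trans eb.symm) hne
  · exact Or.inl ⟨ea, eb⟩
  · exact Or.inr ⟨ea, eb⟩
  · exact absurd (ea.trans eb.symm) hne

/-- the inner strand: positions before `len` are inside, the position number `len` is the exit -/
theorem pvtg_len (hT : T.IsSph) (g : T.Gate s) (hfin : g.c.Left.Finite) :
    1 ≤ g.len ∧ (∀ i, i < g.len → pvasIt T s g.aIn i ∈ g.c.Left) ∧ pvasIt T s g.aIn g.len = pvasExit T g.c.Left s g.aIn := by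
  have h := pvas_exit_spec (pl_left_face g.c) hfin ((pvtg_in_iff hT g _).2 (Or.inl rfl))
  exact ⟨h.1, h.2.1, rfl⟩

/-! ## 4. Separation -/

/-- a black path which avoids `g^±` and starts strictly inside stays strictly inside -/
theorem pvtg_sep_in (hT : T.IsSph) (g : T.Gate s) {X : Set V} (hX : ∀ v ∈ X, s v = true) (h1 : g.vm ∉ X) (h2 : g.vp ∉ X) {a b : V}
    (ha : a ∈ T.Int g.c.Left) (hab : ReflTransGen (fun u v => T.Adj u v ∧ v ∈ X) a b) : b ∈ T.Int g.c.Left := by
  refine pl_int_sep hT (pl_left_face g.c) (X := X) (fun v hv d hd hB => ?_) ha hab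
  have h3 : v ∈ g.c.verts := hd ▸ pl_cyc_edg_src g.c (pl_left_bd_sub g.c hB)
  rcases pvtg_black g h3 (hX v hv) with h | h
  · exact h1 (h ▸ hv)
  · exact h2 (h ▸ hv)

/-- a black path which avoids `g^±` and starts strictly outside stays strictly outside -/
theorem pvtg_sep_out (hT : T.IsSph) (g : T.Gate s) {X : Set V} (hX : ∀ v ∈ X, s v = true) (h1 : g.vm ∉ X) (h2 : g.vp ∉ X) {a b : V}
    (ha : a ∈ T.Int g.c.Right) (hab : ReflTransGen (fun u v => T.Adj u v ∧ v ∈ X) a b) : b ∈ T.Int g.c.Right := by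
  refine pl_int_sep hT (pl_right_face g.c) (X := X) (fun v hv d hd hB => ?_) ha hab
  have h3 : v ∈ g.c.verts := hd ▸ pl_cyc_edg_src g.c (pl_right_bd_sub g.c hB)
  rcases pvtg_black g h3 (hX v hv) with h | h
  · exact h1 (h ▸ hv)
  · exact h2 (h ▸ hv)

/-- black vertices of the closed inside and of the closed outside meet only in `g^±` -/
theorem pvtg_meet (hT : T.IsSph) (g : T.Gate s) {v : V} (h1 : v ∈ T.VOf g.c.Left) (h2 : v ∈ T.VOf g.c.Right) (hb : s v = true) : v = g.vm ∨ v = g.vp := by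
  obtain ⟨hR, -, -, -⟩ := pl_jordan hT g.c
  rw [pl_VOf_left hT g.c] at h1
  rcases h1 with h1 | h1
  · exact pvtg_black g h1 hb
  · obtain ⟨d, hd, rfl⟩ := h2
    rw [hR] at hd
    exact absurd (h1 d rfl) hd

/-! ## 5. Banks of the inner strand -/

theorem pvtg_join_mono {A B : Set D} (hAB : A ⊆ B) {X : Set V} {a b : V} (h : T.Join A X a b) : T.Join B X a b :=
  ⟨h.1, ReflTransGen.mono (fun _ _ huv => ⟨by
    obtain ⟨d, hd, h1, h2⟩ := huv.1
    exact ⟨d, hd.imp (fun h => hAB h) (fun h => hAB h), h1, h2⟩, huv.2⟩) a b h.2⟩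

theorem pvtg_bank_sub (hT : T.IsSph) (g : T.Gate s) (hfin : g.c.Left.Finite) {v : V} (hv : v ∈ g.bank) : v ∈ T.VOf g.c.Left ∧ s v = true := by
  have hin : pvasIn T g.c.Left s g.aIn := (pvtg_in_iff hT g _).2 (Or.inl rfl)
  exact ⟨pvas_lay_sub (pl_left_face g.c) hfin hin (Or.inl hv), pvas_layB_black (pvtg_aIn_bw g) hv⟩

theorem pvtg_wbank_sub (hT : T.IsSph) (g : T.Gate s) (hfin : g.c.Left.Finite) {v : V} (hv : v ∈ g.wbank) : v ∈ T.VOf g.c.Left ∧ s v = false := by
  have hin : pvasIn T g.c.Left s g.aIn := (pvtg_in_iff hT g _).2 (Or.inl rfl)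
  exact ⟨pvas_lay_sub (pl_left_face g.c) hfin hin (Or.inr hv), pvas_layW_white (pvtg_aIn_bw g) hv⟩

/-- on `Thru` the black bank joins `g⁻` to `g⁺` inside -/
theorem pvtg_thru_join (hT : T.IsSph) (g : T.Gate s) (hfin : g.c.Left.Finite) (h : g.Thru) : T.Join g.c.Left g.bank g.vm g.vp := by
  obtain ⟨-, h2, h3⟩ := pvtg_len hT g hfin
  have hj := pvas_layB_join (T := T) s g.aIn (le_refl g.len)
  rw [h3, show pvasExit T g.c.Left s g.aIn = g.aOut from h, pvtg_aOut_src] at hj
  exact pvtg_join_mono (pvas_fc_sub (pl_left_face g.c) h2) hj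

/-- on `Thru` the white bank joins the two ends of the right arc inside -/
theorem pvtg_thru_wjoin (hT : T.IsSph) (g : T.Gate s) (hfin : g.c.Left.Finite) (h : g.Thru) : T.Join g.c.Left g.wbank (T.tgt g.aIn) (T.tgt g.aOut) := by
  obtain ⟨-, h2, h3⟩ := pvtg_len hT g hfin
  have hj := pvas_layW_join (T := T) s g.aIn (le_refl g.len)
  rw [h3, show pvasExit T g.c.Left s g.aIn = g.aOut from h] at hj
  exact pvtg_join_mono (pvas_fc_sub (pl_left_face g.c) h2) hj

/-! ## 6. Locality -/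

/-- transport of a gate to a colouring which agrees on the circuit -/
def PvMap.Gate.tr (g : T.Gate s) (s' : V → Bool) (h : ∀ v ∈ g.c.verts, s' v = s v) : T.Gate s' where
  c := g.c
  m := g.m
  hm := g.hm
  hmn := g.hmn
  col i hi := by rw [h _ ⟨i, rfl⟩]; exact g.col i hi

theorem pvtg_tr_eqns_cite : True := by
  have := @PvMap.Gate.tr.eq_1
  trivial

/-- **LOCALITY**: the inner strand is a function of the colours of the closed inside -/
theorem pvtg_tr (hT : T.IsSph) (g : T.Gate s) (hfin : g.c.Left.Finite) (s' : V → Bool) (h : ∀ v ∈ T.VOf g.c.Left, s' v = s v)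
    (h' : ∀ v ∈ g.c.verts, s' v = s v) :
    (g.tr s' h').len = g.len ∧ ((g.tr s' h').Thru ↔ g.Thru) ∧ (g.tr s' h').bank = g.bank ∧ (g.tr s' h').wbank = g.wbank ∧
      ∀ i, i ≤ g.len → pvasIt T s' g.aIn i = pvasIt T s g.aIn i := by
  have hin : pvasIn T g.c.Left s g.aIn := (pvtg_in_iff hT g _).2 (Or.inl rfl)
  obtain ⟨-, e1, e2, e3⟩ := pvas_exit_congr (pl_left_face g.c) hfin h hin
  have hlen : (g.tr s' h').len = g.len := e1
  refine ⟨hlen, ?_, ?_, ?_, e3⟩
  · show pvasExit T g.c.Left s' g.aIn = g.aOut ↔ pvasExit T g.c.Left s g.aIn = g.aOut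
    rw [e2]
  · show pvasLayB T s' g.aIn (g.tr s' h').len = pvasLayB T s g.aIn g.len
    rw [hlen]
    ext v
    constructor
    · rintro ⟨i, hi, rfl⟩
      exact ⟨i, hi, by rw [e3 i hi]⟩
    · rintro ⟨i, hi, rfl⟩
      exact ⟨i, hi, by rw [e3 i hi]⟩
  · show pvasLayW T s' g.aIn (g.tr s' h').len = pvasLayW T s g.aIn g.len
    rw [hlen]
    ext v
    constructor
    · rintro ⟨i, hi, rfl⟩
      exact ⟨i, hi, by rw [e3 i hi]⟩
    · rintro ⟨i, hi, rfl⟩
      exact ⟨i, hi, by rw [e3 i hi]⟩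

/-! ## 7. Passage of a black circuit -/

/-- the gate as a `PvgGate` of helper190 -/
theorem pvtg_pvg [DecidableEq V] (g : T.Gate s) : PvgGate T s true g.c.Left g.c.Left g.c.Left {g.vm, g.vp} := by
  refine ⟨pl_left_face g.c, subset_rfl, subset_rfl, Finset.card_le_two, fun v hv => ?_, fun v hv => ?_⟩
  · rcases Finset.mem_insert.1 hv with rfl | hv
    · exact pvtg_vm g
    · rw [Finset.mem_singleton.1 hv]; exact pvtg_vp g
  · obtain ⟨d, rfl, hB⟩ := hv
    by_cases hb : s (T.src d) = true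
    · right
      rcases pvtg_black g (pl_cyc_edg_src g.c (pl_left_bd_sub g.c hB)) hb with h | h
      · rw [h]; exact Finset.mem_insert_self _ _
      · rw [h]; exact Finset.mem_insert_of_mem (Finset.mem_singleton_self _)
    · exact Or.inl hb

/-- **a black simple circuit which visits both sides** passes once through each of `g^±`: an inner arc and an outer arc -/
theorem pvtg_pass (hT : T.IsSph) (g : T.Gate s) (γ : T.Cyc) (hγ : ∀ k, s (T.src (γ.e k)) = true) {u w : V} (hu : u ∈ γ.verts) (hw : w ∈ γ.verts)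
    (hi : u ∈ T.Int g.c.Left) (hj : w ∈ T.Int g.c.Right) :
    ∃ p q, p < q ∧ q < p + γ.n ∧
      ((T.src (γ.e p) = g.vm ∧ T.src (γ.e q) = g.vp) ∨ (T.src (γ.e p) = g.vp ∧ T.src (γ.e q) = g.vm)) ∧
      (∀ k, p < k → k < q → T.src (γ.e k) ∈ T.Int g.c.Left) ∧ ∀ k, q < k → k < p + γ.n → T.src (γ.e k) ∈ T.Int g.c.Right := by
  classical
  obtain ⟨hR, -, -, -⟩ := pl_jordan hT g.c
  rw [hR] at hj ⊢
  obtain ⟨p, q, h1, h2, h3, h4, h5, -, h7, h8⟩ := pvg_pass hT (pvtg_pvg g) γ (by rintro v ⟨k, rfl⟩; exact hγ k) hu hw hi hj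
  refine ⟨p, q, h1, h2, ?_, h7, h8⟩
  have e3 : T.src (γ.e p) = g.vm ∨ T.src (γ.e p) = g.vp := by simpa using h3
  have e4 : T.src (γ.e q) = g.vm ∨ T.src (γ.e q) = g.vp := by simpa using h4
  rcases e3 with e3 | e3 <;> rcases e4 with e4 | e4
  · exact absurd (e3.trans e4.symm) h5
  · exact Or.inl ⟨e3, e4⟩
  · exact Or.inr ⟨e3, e4⟩
  · exact absurd (e3.trans e4.symm) h5

end Claimed.Agent.R289
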