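-- KEEP
import Claimed.Agent.R289.Pl.Wall
import Claimed.Agent.R289.Pl.Path
import Claimed.Agent.R289.Defs.Bulk

/-!
# Row 289 (S0537), box TR (transport), file Tr/Close : ONE WALL, RECOGNITION OF RIMS, FACED PATHS      (owner helper202; post T2 of 234, with 64 and 118; prefix `pvt_c`)

The deterministic layer of N1 (closing an arc of a rim by a forced corridor), on `Pl/Jordan`, `Pl/Wall`, `Pl/Path`.

* sec.1  **ONE WALL** `pvt_c_onewall`: two occupied darts whose sources are `Mono`-joined and whose heads are `Mono`-joined lie in one wall.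
* sec.2  **RECOGNITION** `pvt_c_recog` (converse of `pl_rim`; no time order, no "no right bypass"): a monochromatic simple cycle `c` all of whose RIGHT apexes `apex (opp (c.e i))` have the other colour and are
         pairwise `Mono`-joined is a rim: the label of the tag `opp (c.e 0)` is `{opp (c.e i)}`;   `pvt_c_lsum`: `T.lsum s w (opp (c.e 0)) = ∑ i < n, w (opp (c.e i))`.
* sec.3  **FACED PATHS**: `p.GFaced s ρ` (`p` has the colour opposite to `ρ`, every right apex is `Mono`-joined to the anchor `ρ`), `p.Faced s R ρ` (the right faces lie in the face region `R`, the apexes are joined to `ρ` INSIDE `R`);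
         `Faced → GFaced`, monotone in `R`, stable under recolouring towards the colour of the anchor off the path.
* sec.4  **UNIQUENESS** `pvt_c_unique`: two `GFaced` paths with the same ends and the same anchor coincide (Jordan for the cycle between the first divergence and the next common vertex).
* sec.5  **CLOSING** `pvt_c_close`: two `GFaced` paths glued to a cycle form a rim; the label sum is the sum of the two path sums `p.psum w`.   `Pth.app` (concatenation), `pvt_c_app_*`.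
* sec.6  **STRIP** `pvt_c_strip`: an arc whose right apexes are `Mono`-joined, in an ORIGINAL colouring, to a vertex off the open strip is `Faced` in the strip for every colouring obtained by recolouring towards white, once the rest of the boundary of the strip is white.
-/

set_option autoImplicit false

namespace Claimed.Agent.R289

open Relation

variable {V D : Type} {T : PvMap V D}

/-! ## 1. One wall -/

/-- **ONE WALL**: two occupied darts whose sources are `Mono`-joined and whose heads are `Mono`-joined lie in one wall -/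
theorem pvt_c_onewall (hT : T.IsSph) (s : V → Bool) {d d' : D} (hd : T.Occ s d) (h1 : T.Mono s (T.src d) (T.src d'))
    (h2 : T.Mono s (T.tgt d) (T.tgt d')) : T.Wall s d d' := by
  obtain ⟨τ, hτ⟩ := pl_w_pot hT s d
  have h0 : T.Occ τ d := (hτ d).2 ⟨hd, ReflTransGen.refl⟩
  have e1 := pl_w_mono_side hτ h1
  have e2 := pl_w_mono_side hτ h2
  have h3 : T.Occ τ d' := by
    unfold PvMap.Occ at h0 ⊢
    rw [← e1, ← e2]
    exact h0
  exact ((hτ d').1 h3).2

theorem pvt_c_mono_col {s : V → Bool} {a b : V} (h : T.Mono s a b) : s a = s b := by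
  induction h with
  | refl => rfl
  | tail _ hbc ih => exact ih.trans hbc.2

theorem pvt_c_mono_symm {s : V → Bool} {a b : V} (h : T.Mono s a b) : T.Mono s b a := by
  induction h with
  | refl => exact ReflTransGen.refl
  | tail _ hbc ih => exact ReflTransGen.head ⟨T.adj_symm hbc.1, hbc.2.symm⟩ ih

/-! ## 2. Recognition of rims -/

section recog

variable (s : V → Bool) (c : T.Cyc)

/-- the vertices of a monochromatic cycle are `Mono`-joined -/
theorem pvt_c_cyc_mono (hm : ∀ i, s (T.src (c.e i)) = s (T.src (c.e 0))) (i : ℕ) : T.Mono s (T.src (c.e 0)) (T.src (c.e i)) := by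
  induction i with
  | zero => exact ReflTransGen.refl
  | succ i ih => exact ReflTransGen.tail ih ⟨⟨c.e i, rfl, c.chain i⟩, (hm i).trans (hm (i + 1)).symm⟩

theorem pvt_c_cyc_tag (hm : ∀ i, s (T.src (c.e i)) = s (T.src (c.e 0))) (hf : ∀ i, s (T.apex (T.opp (c.e i))) ≠ s (T.src (c.e 0))) (i : ℕ) :
    T.Tag s (T.opp (c.e i)) := by
  refine ⟨?_, ?_⟩
  · rw [T.src_opp', T.tgt_opp, c.chain, hm (i + 1), hm i]
  · rw [T.src_opp', c.chain, hm]
    exact hf i

/-- an occupied dart is not an edge of a monochromatic cycle -/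
theorem pvt_c_occ_not_edg (hm : ∀ i, s (T.src (c.e i)) = s (T.src (c.e 0))) {a : D} (ha : T.Occ s a) : ¬ T.Edg c.darts a := by
  have key : ∀ j, ¬ T.Occ s (c.e j) := by
    intro j h
    unfold PvMap.Occ at h
    rw [c.chain, hm j, hm (j + 1)] at h
    exact h rfl
  rintro (⟨j, rfl⟩ | ⟨j, hj⟩)
  · exact key j ha
  · exact key j (by rw [hj]; exact T.occ_opp ha)

/-- all the right faces lie in one wall -/
theorem pvt_c_cyc_wall (hT : T.IsSph) (hm : ∀ i, s (T.src (c.e i)) = s (T.src (c.e 0))) (hf : ∀ i, s (T.apex (T.opp (c.e i))) ≠ s (T.src (c.e 0)))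
    (hw : ∀ i, T.Mono s (T.apex (T.opp (c.e 0))) (T.apex (T.opp (c.e i)))) (i : ℕ) : T.Wall s (T.opp (c.e 0)) (T.opp (c.e i)) := by
  have hocc : T.Occ s (T.nxt (T.opp (c.e 0))) := by
    unfold PvMap.Occ
    rw [T.src_nxt, T.tgt_nxt, T.tgt_opp]
    exact (hf 0).symm
  have h1 : T.Wall s (T.nxt (T.opp (c.e 0))) (T.nxt (T.opp (c.e i))) := by
    refine pvt_c_onewall hT s hocc ?_ ?_
    · rw [T.src_nxt, T.src_nxt, T.tgt_opp, T.tgt_opp]
      exact pvt_c_cyc_mono s c hm i
    · rw [T.tgt_nxt, T.tgt_nxt]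
      exact hw i
  exact PvMap.Wall.trans T (PvMap.Wall.of_SF T s (T.sf_nxt _)) (PvMap.Wall.trans T h1 (PvMap.Wall.of_SF T s (T.sf_symm (T.sf_nxt _))))

/-- the wall of the right faces stays on the right of the cycle -/
theorem pvt_c_wall_right (hT : T.IsSph) (hm : ∀ i, s (T.src (c.e i)) = s (T.src (c.e 0))) {a : D} (h : T.Wall s (T.opp (c.e 0)) a) : a ∈ c.Right := by
  obtain ⟨hR, -, hO, -⟩ := pl_jordan hT c
  induction h with
  | refl => exact hO 0
  | tail _ hbc ih =>
    rcases hbc with h1 | ⟨h1, rfl⟩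
    · exact ((pl_right_face c).sf T h1).2 ih
    · rcases pl_edge_side hT c (pvt_c_occ_not_edg s c hm h1) with h2 | h2
      · rw [hR] at ih
        exact absurd h2.1 ih
      · exact h2.2

/-- **RECOGNITION**: a monochromatic simple cycle all of whose right apexes have the other colour and are `Mono`-joined is a rim -/
theorem pvt_c_recog (hT : T.IsSph) (hm : ∀ i, s (T.src (c.e i)) = s (T.src (c.e 0))) (hf : ∀ i, s (T.apex (T.opp (c.e i))) ≠ s (T.src (c.e 0)))
    (hw : ∀ i, T.Mono s (T.apex (T.opp (c.e 0))) (T.apex (T.opp (c.e i)))) (d' : D) :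
    T.SameLab s (T.opp (c.e 0)) d' ↔ ∃ i, d' = T.opp (c.e i) := by
  obtain ⟨hR, hL, hO, -⟩ := pl_jordan hT c
  have hwall := pvt_c_cyc_wall s c hT hm hf hw
  have htag := pvt_c_cyc_tag s c hm hf
  constructor
  · rintro ⟨-, -, h3, h4⟩
    have key : ∀ e, T.InComp s (T.opp (c.e 0)) e → e ∈ c.Left ∨ ∃ i, e = T.opp (c.e i) := by
      intro e he
      unfold PvMap.InComp at he
      induction he with
      | refl => exact Or.inr ⟨0, rfl⟩
      | @tail a b _ hab ih =>
        rcases hab with rfl | ⟨h1, h2⟩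
        · rcases ih with ha | ⟨i, rfl⟩
          · by_cases hE : T.Edg c.darts a
            · rcases hE with ⟨j, rfl⟩ | ⟨j, hj⟩
              · exact Or.inr ⟨j, rfl⟩
              · have : a = T.opp (c.e j) := by rw [hj, T.opp_opp]
                have h5 := hO j
                rw [← this, hR] at h5
                exact absurd ha h5
            · rcases pl_edge_side hT c hE with h5 | h5
              · exact Or.inl h5.2
              · rw [hR] at h5
                exact absurd ha h5.1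
          · rw [T.opp_opp]
            exact Or.inl (hL i)
        · rcases ih with ha | ⟨i, rfl⟩
          · exact Or.inl (((pl_left_face c).sf T h1).2 ha)
          · exact absurd (hwall i) h2
    rcases key d' h4 with h5 | h5
    · have h6 := pvt_c_wall_right s c hT hm h3
      rw [hR] at h6
      exact absurd h5 h6
    · exact h5
  · rintro ⟨i, rfl⟩
    refine ⟨htag 0, htag i, hwall i, ?_⟩
    have hoff : ∀ a, a ∈ c.Left → ¬ T.Wall s (T.opp (c.e 0)) a := by
      intro a ha hW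
      have h6 := pvt_c_wall_right s c hT hm hW
      rw [hR] at h6
      exact h6 ha
    have key : ∀ a, T.DJoin c.darts (c.e 0) a → ReflTransGen (T.CStep s (T.opp (c.e 0))) (c.e 0) a := by
      intro a ha
      induction ha with
      | refl => exact ReflTransGen.refl
      | @tail a b hpre hab ih =>
        rcases hab with rfl | ⟨rfl, -⟩
        · exact ReflTransGen.tail ih (Or.inr ⟨T.sf_nxt a, hoff a hpre⟩)
        · exact ReflTransGen.tail ih (Or.inl rfl)
    unfold PvMap.InComp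
    refine ReflTransGen.head (Or.inl rfl) ?_
    rw [T.opp_opp]
    exact ReflTransGen.tail (key _ (hL i)) (Or.inl rfl)

/-- the label sum of a recognised rim -/
theorem pvt_c_lsum (hT : T.IsSph) (hm : ∀ i, s (T.src (c.e i)) = s (T.src (c.e 0))) (hf : ∀ i, s (T.apex (T.opp (c.e i))) ≠ s (T.src (c.e 0)))
    (hw : ∀ i, T.Mono s (T.apex (T.opp (c.e 0))) (T.apex (T.opp (c.e i)))) (w : D → ℂ) :
    T.lsum s w (T.opp (c.e 0)) = ∑ i ∈ Finset.range c.n, w (T.opp (c.e i)) := by
  classical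
  unfold PvMap.lsum
  have hset : {d' | T.SameLab s (T.opp (c.e 0)) d'} = ((Finset.range c.n).image fun i => T.opp (c.e i) : Finset D) := by
    ext d'
    simp only [Set.mem_ofPred_eq, Finset.coe_image, Finset.coe_range, Set.mem_image, Set.mem_Iio]
    rw [pvt_c_recog s c hT hm hf hw]
    constructor
    · rintro ⟨i, rfl⟩
      exact ⟨i % c.n, Nat.mod_lt _ (pl_cyc_pos c), by rw [pl_cyc_mod]⟩
    · rintro ⟨i, -, rfl⟩
      exact ⟨i, rfl⟩
  have h1 : ∑ᶠ (d' : D) (_ : T.SameLab s (T.opp (c.e 0)) d'), w d' = ∑ᶠ d' ∈ {d' | T.SameLab s (T.opp (c.e 0)) d'}, w d' := rfl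
  rw [h1, hset, finsum_mem_coe_finset, Finset.sum_image]
  intro i hi j hj hij
  have h2 : c.e i = c.e j := T.opp_injective hij
  exact c.inj i j (Finset.mem_range.1 hi) (Finset.mem_range.1 hj) (by rw [h2])

end recog

/-! ## 3. Faced paths -/

/-- the sum of a dart function over the right faces (= the tags) of a path -/
def PvMap.Pth.psum (p : T.Pth) (w : D → ℂ) : ℂ := ∑ i ∈ Finset.range p.n, w (T.opp (p.e i))

/-- GLOBALLY faced path with anchor `ρ`: the path has the colour opposite to `ρ`, every right apex is `Mono`-joined to `ρ` -/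
def PvMap.Pth.GFaced (p : T.Pth) (s : V → Bool) (ρ : V) : Prop :=
  (∀ i, i ≤ p.n → s (p.v i) ≠ s ρ) ∧ ∀ i, i < p.n → T.Mono s (T.apex (T.opp (p.e i))) ρ

/-- FACED path in the face region `R` with anchor `ρ`: the right faces lie in `R`, every right apex is joined to `ρ` inside `R` by vertices of the colour of `ρ` -/
def PvMap.Pth.Faced (p : T.Pth) (s : V → Bool) (R : Set D) (ρ : V) : Prop :=
  (∀ i, i ≤ p.n → s (p.v i) ≠ s ρ) ∧ ∀ i, i < p.n → T.opp (p.e i) ∈ R ∧ T.Join R {v | s v = s ρ} (T.apex (T.opp (p.e i))) ρ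

theorem pvt_c_eqns_cite : True := by
  have := @PvMap.Pth.psum.eq_1; have := @PvMap.Pth.GFaced.eq_1; have := @PvMap.Pth.Faced.eq_1
  trivial

theorem pvt_c_join_trans {A : Set D} {X : Set V} {a b c : V} (h : T.Join A X a b) (h' : T.Join A X b c) : T.Join A X a c :=
  ⟨h.1, h.2.trans h'.2⟩

theorem pvt_c_join_mono_set {A A' : Set D} {X X' : Set V} (hA : A ⊆ A') (hX : X ⊆ X') {a b : V} (h : T.Join A X a b) : T.Join A' X' a b := by
  refine ⟨hX h.1, ReflTransGen.mono ?_ a b h.2⟩
  rintro u v ⟨⟨d, hd, h1, h2⟩, hv⟩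
  exact ⟨⟨d, hd.imp (fun h => hA h) (fun h => hA h), h1, h2⟩, hX hv⟩

/-- a join by vertices of one colour is a `Mono` connection -/
theorem pvt_c_join_mono {s : V → Bool} {A : Set D} {r : Bool} {a b : V} (h : T.Join A {v | s v = r} a b) : T.Mono s a b := by
  obtain ⟨ha, hab⟩ := h
  have key : T.Mono s a b ∧ s b = r := by
    induction hab with
    | refl => exact ⟨ReflTransGen.refl, ha⟩
    | tail _ hbc ih =>
      obtain ⟨⟨d, -, h1, h2⟩, hv⟩ := hbc
      exact ⟨ReflTransGen.tail ih.1 ⟨⟨d, h1, h2⟩, ih.2.trans (Eq.symm hv)⟩, hv⟩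
  exact key.1

theorem PvMap.Pth.Faced.gfaced {p : T.Pth} {s : V → Bool} {R : Set D} {ρ : V} (h : p.Faced s R ρ) : p.GFaced s ρ :=
  ⟨h.1, fun i hi => pvt_c_join_mono (h.2 i hi).2⟩

theorem PvMap.Pth.Faced.mono {p : T.Pth} {s : V → Bool} {R R' : Set D} {ρ : V} (h : p.Faced s R ρ) (hR : R ⊆ R') : p.Faced s R' ρ :=
  ⟨h.1, fun i hi => ⟨hR (h.2 i hi).1, pvt_c_join_mono_set hR subset_rfl (h.2 i hi).2⟩⟩

/-- change of the anchor -/
theorem PvMap.Pth.GFaced.anchor {p : T.Pth} {s : V → Bool} {ρ ρ' : V} (h : p.GFaced s ρ) (hρ : T.Mono s ρ ρ') : p.GFaced s ρ' :=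
  ⟨fun i hi => by rw [← pvt_c_mono_col hρ]; exact h.1 i hi, fun i hi => (h.2 i hi).trans hρ⟩

theorem PvMap.Pth.Faced.anchor {p : T.Pth} {s : V → Bool} {R : Set D} {ρ ρ' : V} (h : p.Faced s R ρ) (hρ : T.Join R {v | s v = s ρ} ρ ρ') : p.Faced s R ρ' := by
  have e : s ρ = s ρ' := pvt_c_mono_col (pvt_c_join_mono hρ)
  refine ⟨fun i hi => by rw [← e]; exact h.1 i hi, fun i hi => ⟨(h.2 i hi).1, ?_⟩⟩
  rw [← e]
  exact pvt_c_join_trans (h.2 i hi).2 hρ

/-- **recolouring towards the colour of the anchor, off the path, keeps facedness** -/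
theorem PvMap.Pth.Faced.recolour {p : T.Pth} {s s' : V → Bool} {R : Set D} {ρ : V} (h : p.Faced s R ρ) (hw : ∀ v, s v = s ρ → s' v = s ρ)
    (hp : ∀ i, i ≤ p.n → s' (p.v i) = s (p.v i)) : p.Faced s' R ρ := by
  have e : s' ρ = s ρ := hw ρ rfl
  refine ⟨fun i hi => by rw [hp i hi, e]; exact h.1 i hi, fun i hi => ⟨(h.2 i hi).1, ?_⟩⟩
  rw [e]
  exact pvt_c_join_mono_set subset_rfl (fun v hv => hw v hv) (h.2 i hi).2

/-- **locality**: facedness in `R` reads the colours of the path, of the anchor and of the vertices of the faces of `R` only -/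
theorem PvMap.Pth.Faced.congr {p : T.Pth} {s s' : V → Bool} {R : Set D} {ρ : V} (hR : T.FaceSet R) (h : p.Faced s R ρ) (hρ : s' ρ = s ρ)
    (hV : ∀ v ∈ T.VOf R, s' v = s v) (hp : ∀ i, i ≤ p.n → s' (p.v i) = s (p.v i)) : p.Faced s' R ρ := by
  refine ⟨fun i hi => by rw [hp i hi, hρ]; exact h.1 i hi, fun i hi => ⟨(h.2 i hi).1, ?_⟩⟩
  obtain ⟨h1, h2, h3⟩ := h.2 i hi
  have hap : T.apex (T.opp (p.e i)) ∈ T.VOf R := ⟨_, (hR.nxt2 T _).2 h1, rfl⟩
  rw [hρ]
  refine ⟨by show s' _ = s ρ; rw [hV _ hap]; exact h2, ReflTransGen.mono ?_ _ _ h3⟩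
  rintro u v ⟨⟨d, hd, e1, e2⟩, hv⟩
  refine ⟨⟨d, hd, e1, e2⟩, ?_⟩
  have hvR : v ∈ T.VOf R := by
    rcases hd with hd | hd
    · exact ⟨T.nxt d, (hR d).2 hd, e2⟩
    · exact ⟨T.opp d, hd, by rw [T.src_opp', e2]⟩
  show s' v = s ρ
  rw [hV v hvR]
  exact hv

theorem pvt_c_bool {a b r : Bool} (ha : a ≠ r) (hb : b ≠ r) : a = b := by
  cases a <;> cases b <;> cases r <;> simp_all

/-- arcs of a rim are globally faced (anchor = any right apex).   Hypotheses = the output of `pl_rim`. -/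
theorem pvt_c_rim_gfaced (s : V → Bool) (c : T.Cyc) (htag : ∀ i, T.Tag s (T.opp (c.e i))) (hwall : ∀ i, T.Wall s (T.opp (c.e 0)) (T.opp (c.e i))) (i m : ℕ) :
    (c.pth i m).GFaced s (T.apex (T.opp (c.e 0))) := by
  have hcol : ∀ j, s (T.src (c.e j)) ≠ s (T.apex (T.opp (c.e j))) := by
    intro j
    have h := (htag j).2
    rw [(htag j).1, T.tgt_opp] at h
    exact h.symm
  have hmono : ∀ j, s (T.src (c.e j)) = s (T.src (c.e 0)) := by
    intro j
    induction j with
    | zero => rfl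
    | succ j ih =>
      have h := (htag j).1
      rw [T.src_opp', T.tgt_opp, c.chain] at h
      exact h.trans ih
  have hap : ∀ j, T.Mono s (T.apex (T.opp (c.e j))) (T.apex (T.opp (c.e 0))) := by
    intro j
    have hW : T.Wall s (T.nxt (T.nxt (T.opp (c.e j)))) (T.nxt (T.nxt (T.opp (c.e 0)))) :=
      PvMap.Wall.trans T (PvMap.Wall.of_SF T s (T.sf_symm (T.sf_nxt2 _)))
        (PvMap.Wall.trans T (PvMap.Wall.symm T (hwall j)) (PvMap.Wall.of_SF T s (T.sf_nxt2 _)))
    refine pl_w_bank hW ?_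
    rw [T.src_nxt2, T.src_nxt2]
    refine pvt_c_bool (r := s (T.src (c.e 0))) ?_ (hcol 0).symm
    rw [← hmono j]
    exact (hcol j).symm
  refine ⟨fun k _ => ?_, fun k _ => hap (i + k)⟩
  show s (T.src (c.e (i + k))) ≠ _
  rw [← pvt_c_mono_col (hap (i + k))]
  exact hcol _

/-! ## 4. Uniqueness of the faced path -/

/-- a vertex of a face on the left of a cycle which is not a vertex of the cycle lies strictly on the left -/
theorem pvt_c_int_of_left (hT : T.IsSph) (c : T.Cyc) {d : D} (hd : d ∈ c.Left) (hv : T.src d ∉ c.verts) : T.src d ∈ T.Int c.Left := by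
  have h : T.src d ∈ T.VOf c.Left := ⟨d, hd, rfl⟩
  rw [pl_VOf_left hT c] at h
  exact h.resolve_left hv

theorem pvt_c_int_of_right (hT : T.IsSph) (c : T.Cyc) {d : D} (hd : d ∈ c.Right) (hv : T.src d ∉ c.verts) : T.src d ∈ T.Int c.Right := by
  rcases pl_jordan_vert hT c (T.src d) with h | h | h
  · exact absurd h hv
  · have h1 := h d rfl
    rw [(pl_jordan hT c).1] at hd
    exact absurd h1 hd
  · exact h

/-- a cycle of one colour separates the other colour: a right apex and a left apex of the other colour are not `Mono`-joined -/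
theorem pvt_c_sep (hT : T.IsSph) (s : V → Bool) (c : T.Cyc) {r : Bool} (hc : ∀ i, s (T.src (c.e i)) ≠ r) {a b : D} (ha : a ∈ c.Left) (hb : b ∈ c.Right)
    (har : s (T.src a) = r) (h : T.Mono s (T.src a) (T.src b)) : False := by
  have hoff : ∀ v, s v = r → v ∉ c.verts := by
    rintro v hv ⟨i, rfl⟩
    exact hc i hv
  have h1 := pvt_c_int_of_left hT c ha (hoff _ har)
  have h2 := pvt_c_int_of_right hT c hb (hoff _ ((pvt_c_mono_col h).symm.trans har))
  have h3 : ReflTransGen (fun u v => T.Adj u v ∧ v ∉ c.verts) (T.src a) (T.src b) := by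
    have key : ∀ y, T.Mono s (T.src a) y → ReflTransGen (fun u v => T.Adj u v ∧ v ∉ c.verts) (T.src a) y ∧ s y = r := by
      intro y hy
      induction hy with
      | refl => exact ⟨ReflTransGen.refl, har⟩
      | tail _ hbc ih =>
        have e := hbc.2.symm.trans ih.2
        exact ⟨ReflTransGen.tail ih.1 ⟨hbc.1, hoff _ e⟩, e⟩
    exact (key _ h).1
  exact Set.disjoint_left.1 (pl_jordan_vert_disj hT c).2.2 (pl_jordan_sep hT c h1 h3) h2

theorem pvt_c_seg_n (p : T.Pth) (i : ℕ) {j : ℕ} (hj : j ≤ p.n) : (p.seg i j).n = j - i := by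
  show min j p.n - i = j - i
  rw [Nat.min_eq_left hj]

/-- the colour of a glued cycle -/
theorem pvt_c_glue_col (s : V → Bool) {r : Bool} (p q : T.Pth) (h : p.Glue q) (hp : ∀ i, i ≤ p.n → s (p.v i) ≠ r) (hq : ∀ i, i ≤ q.n → s (q.v i) ≠ r) (i : ℕ) :
    s (T.src ((p.glue q h).e i)) ≠ r := by
  have h1 : T.src ((p.glue q h).e i) ∈ (p.glue q h).verts := ⟨i, rfl⟩
  rw [pl_pth_glue_verts] at h1
  rcases h1 with ⟨k, hk, e⟩ | ⟨k, hk, e⟩
  · rw [← e]; exact hp k hk
  · rw [← e]; exact hq k hk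

/-- the divergence step: two faced paths which leave a common vertex by different darts and meet again -/
theorem pvt_c_diverge (hT : T.IsSph) (hS : T.Simple) (s : V → Bool) (ρ : V) (p p' : T.Pth) (hp : p.GFaced s ρ) (hp' : p'.GFaced s ρ)
    (h1 : p.v p.n = p'.v p'.n) {k : ℕ} (hk : k < p.n) (hk' : k < p'.n) (hv : p.v k = p'.v k) (hne : p.e k ≠ p'.e k) : False := by
  classical
  have hex : ∃ j, k < j ∧ j ≤ p.n ∧ ∃ l, k < l ∧ l ≤ p'.n ∧ p'.v l = p.v j := ⟨p.n, hk, le_rfl, p'.n, hk', le_rfl, h1.symm⟩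
  obtain ⟨hkj, hj, l, hkl, hl, hjl⟩ := Nat.find_spec hex
  have hmin : ∀ i, k < i → i ≤ p.n → (∃ l, k < l ∧ l ≤ p'.n ∧ p'.v l = p.v i) → Nat.find hex ≤ i :=
    fun i h1 h2 h3 => Nat.find_min' hex ⟨h1, h2, h3⟩
  generalize Nat.find hex = j at hkj hj hjl hmin
  obtain ⟨q, hq⟩ : ∃ q : T.Pth, q = p.seg k j := ⟨_, rfl⟩
  obtain ⟨q', hq'⟩ : ∃ q' : T.Pth, q' = (p'.seg k l).rev := ⟨_, rfl⟩
  have qn : q.n = j - k := by rw [hq]; exact pvt_c_seg_n p k hj
  have qn' : q'.n = l - k := by rw [hq']; exact pvt_c_seg_n p' k hl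
  have qv : ∀ i, q.v i = p.v (k + i) := fun i => by rw [hq]; rfl
  have qe : ∀ i, q.e i = p.e (k + i) := fun i => by rw [hq]; rfl
  have qv' : ∀ i, q'.v i = p'.v (k + (l - k - i)) := fun i => by
    rw [hq']
    show p'.v (k + ((p'.seg k l).n - i)) = _
    rw [pvt_c_seg_n p' k hl]
  have qe' : ∀ i, q'.e i = T.opp (p'.e (k + (l - k - 1 - i))) := fun i => by
    rw [hq']
    show T.opp (p'.e (k + ((p'.seg k l).n - 1 - i))) = _
    rw [pvt_c_seg_n p' k hl]
  have hG : q.Glue q' := by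
    refine ⟨?_, ?_, ?_, ?_⟩
    · rw [qv, qv', qn, show k + (j - k) = j by omega, show k + (l - k - 0) = l by omega, hjl]
    · rw [qv, qv', qn', show k + (l - k - (l - k)) = k by omega, Nat.add_zero, hv]
    · rw [qn, qn']
      by_contra hlt
      have e1 : j = k + 1 := by omega
      have e2 : l = k + 1 := by omega
      subst e1 e2
      refine hne (hS _ _ ?_ ?_)
      · rw [p.src_e k hk, p'.src_e k hk', hv]
      · rw [p.tgt_e k hk, p'.tgt_e k hk', hjl]
    · intro i i' hi hi' e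
      rw [qv, qv'] at e
      rw [qn] at hi ⊢
      rw [qn'] at hi' ⊢
      by_cases hc : i' = l - k
      · right
        refine ⟨?_, hc⟩
        subst hc
        rw [Nat.sub_self, Nat.add_zero, ← hv] at e
        have := p.inj _ _ (by omega) (by omega) e
        omega
      · left
        have hi0 : i ≠ 0 := by
          rintro rfl
          rw [Nat.add_zero, hv] at e
          have := p'.inj _ _ (by omega) (by omega) e
          omega
        have h5 := hmin (k + i) (by omega) (by omega) ⟨k + (l - k - i'), by omega, by omega, e.symm⟩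
        have hij : k + i = j := by omega
        rw [hij, ← hjl] at e
        have := p'.inj _ _ (by omega) (by omega) e
        omega
  obtain ⟨hR, hL, hO, -⟩ := pl_jordan hT (q.glue q' hG)
  have e0 : (q.glue q' hG).e 0 = p.e k := by
    rw [pl_pth_glue_e1 q q' hG (by omega), qe, Nat.add_zero]
  have e1 : (q.glue q' hG).e (q.n + (l - k - 1)) = T.opp (p'.e k) := by
    rw [pl_pth_glue_e2 q q' hG (by omega), qe']
    congr 2
    omega
  have hb : T.nxt (T.nxt (T.opp (p.e k))) ∈ (q.glue q' hG).Right := by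
    rw [(pl_right_face _).nxt2 T, ← e0]
    exact hO 0
  have ha : T.nxt (T.nxt (T.opp (p'.e k))) ∈ (q.glue q' hG).Left := by
    rw [(pl_left_face _).nxt2 T, ← e1]
    exact hL _
  refine pvt_c_sep hT s (q.glue q' hG) (r := s ρ) (pvt_c_glue_col s q q' hG ?_ ?_) ha hb ?_ ?_
  · intro i hi
    rw [qv]
    exact hp.1 _ (by omega)
  · intro i hi
    rw [qv']
    exact hp'.1 _ (by omega)
  · rw [T.src_nxt2]
    exact pvt_c_mono_col (hp'.2 k hk')
  · rw [T.src_nxt2, T.src_nxt2]
    exact (hp'.2 k hk').trans (pvt_c_mono_symm (hp.2 k hk))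

/-- **UNIQUENESS**: two globally faced paths with the same ends and the same anchor coincide -/
theorem pvt_c_unique (hT : T.IsSph) (hS : T.Simple) (s : V → Bool) (ρ : V) (p p' : T.Pth) (hp : p.GFaced s ρ) (hp' : p'.GFaced s ρ)
    (h0 : p.v 0 = p'.v 0) (h1 : p.v p.n = p'.v p'.n) : p.n = p'.n ∧ ∀ i, i < p.n → p.e i = p'.e i := by
  have key : ∀ k, k ≤ p.n → k ≤ p'.n ∧ p.v k = p'.v k ∧ ∀ i, i < k → p.e i = p'.e i := by
    intro k
    induction k with
    | zero => exact fun _ => ⟨Nat.zero_le _, h0, fun i hi => absurd hi (Nat.not_lt_zero i)⟩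
    | succ k ih =>
      intro hk
      obtain ⟨h2, h3, h4⟩ := ih (by omega)
      have hk' : k < p'.n := by
        rcases Nat.lt_or_ge k p'.n with h | h
        · exact h
        · have e : k = p'.n := by omega
          have e2 : p.v k = p.v p.n := by rw [h3, h1, ← e]
          have := p.inj _ _ (by omega) le_rfl e2
          omega
      have he : p.e k = p'.e k := by
        by_contra hne
        exact pvt_c_diverge hT hS s ρ p p' hp hp' h1 (by omega) hk' h3 hne
      refine ⟨hk', ?_, ?_⟩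
      · rw [← p.tgt_e k (by omega), ← p'.tgt_e k hk', he]
      · intro i hi
        rcases Nat.lt_or_ge i k with h | h
        · exact h4 i h
        · have : i = k := by omega
          rw [this, he]
  obtain ⟨h2, h3, h4⟩ := key p.n le_rfl
  refine ⟨?_, h4⟩
  have e : p'.v p.n = p'.v p'.n := by rw [← h3, h1]
  exact p'.inj _ _ h2 le_rfl e

theorem pvt_c_unique_psum (hT : T.IsSph) (hS : T.Simple) (s : V → Bool) (ρ : V) (p p' : T.Pth) (hp : p.GFaced s ρ) (hp' : p'.GFaced s ρ)
    (h0 : p.v 0 = p'.v 0) (h1 : p.v p.n = p'.v p'.n) (w : D → ℂ) : p.psum w = p'.psum w := by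
  obtain ⟨hn, he⟩ := pvt_c_unique hT hS s ρ p p' hp hp' h0 h1
  unfold PvMap.Pth.psum
  rw [← hn]
  exact Finset.sum_congr rfl fun i hi => by rw [he i (Finset.mem_range.1 hi)]

/-! ## 5. Closing -/

/-- every dart of a glued cycle is a dart of one of the two paths -/
theorem pvt_c_glue_cases (p q : T.Pth) (h : p.Glue q) (i : ℕ) :
    (∃ k, k < p.n ∧ (p.glue q h).e i = p.e k) ∨ ∃ k, k < q.n ∧ (p.glue q h).e i = q.e k := by
  have h1 : (p.glue q h).e i ∈ (p.glue q h).darts := ⟨i, rfl⟩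
  rw [pl_pth_glue_darts] at h1
  rcases h1 with ⟨k, hk, e⟩ | ⟨k, hk, e⟩
  · exact Or.inl ⟨k, hk, e.symm⟩
  · exact Or.inr ⟨k, hk, e.symm⟩

/-- **CLOSING**: two globally faced paths with the same anchor which are glued to a cycle form a rim: the label of the tag `opp (p.e 0)` is the set of the right darts, its label sum is the sum of the two path sums -/
theorem pvt_c_close (hT : T.IsSph) (s : V → Bool) (ρ : V) (p q : T.Pth) (h : p.Glue q) (hp : p.GFaced s ρ) (hq : q.GFaced s ρ) :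
    T.Tag s (T.opp (p.e 0)) ∧ (∀ d', T.SameLab s (T.opp (p.e 0)) d' ↔ (∃ i, i < p.n ∧ d' = T.opp (p.e i)) ∨ ∃ i, i < q.n ∧ d' = T.opp (q.e i)) ∧
      ∀ w : D → ℂ, T.lsum s w (T.opp (p.e 0)) = p.psum w + q.psum w := by
  obtain ⟨hpn, hqn⟩ := pl_pth_glue_pos h
  have e0 : (p.glue q h).e 0 = p.e 0 := pl_pth_glue_e1 p q h hpn
  have hcol := pvt_c_glue_col s p q h hp.1 hq.1
  have hm : ∀ i, s (T.src ((p.glue q h).e i)) = s (T.src ((p.glue q h).e 0)) := fun i => pvt_c_bool (hcol i) (hcol 0)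
  have hap : ∀ i, T.Mono s (T.apex (T.opp ((p.glue q h).e i))) ρ := by
    intro i
    rcases pvt_c_glue_cases p q h i with ⟨k, hk, e⟩ | ⟨k, hk, e⟩
    · rw [e]; exact hp.2 k hk
    · rw [e]; exact hq.2 k hk
  have hf : ∀ i, s (T.apex (T.opp ((p.glue q h).e i))) ≠ s (T.src ((p.glue q h).e 0)) := by
    intro i
    rw [pvt_c_mono_col (hap i)]
    exact (hcol 0).symm
  have hw : ∀ i, T.Mono s (T.apex (T.opp ((p.glue q h).e 0))) (T.apex (T.opp ((p.glue q h).e i))) :=
    fun i => (hap 0).trans (pvt_c_mono_symm (hap i))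
  refine ⟨?_, ?_, ?_⟩
  · rw [← e0]
    exact pvt_c_cyc_tag s _ hm hf 0
  · intro d'
    rw [← e0, pvt_c_recog s _ hT hm hf hw]
    constructor
    · rintro ⟨i, rfl⟩
      rcases pvt_c_glue_cases p q h i with ⟨k, hk, e⟩ | ⟨k, hk, e⟩
      · exact Or.inl ⟨k, hk, by rw [e]⟩
      · exact Or.inr ⟨k, hk, by rw [e]⟩
    · rintro (⟨k, hk, rfl⟩ | ⟨k, hk, rfl⟩)
      · exact ⟨k, by rw [pl_pth_glue_e1 p q h hk]⟩
      · exact ⟨p.n + k, by rw [pl_pth_glue_e2 p q h hk]⟩
  · intro w
    rw [← e0, pvt_c_lsum s _ hT hm hf hw, pl_pth_glue_n, Finset.sum_range_add]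
    unfold PvMap.Pth.psum
    congr 1
    · exact Finset.sum_congr rfl fun i hi => by rw [pl_pth_glue_e1 p q h (Finset.mem_range.1 hi)]
    · exact Finset.sum_congr rfl fun i hi => by rw [pl_pth_glue_e2 p q h (Finset.mem_range.1 hi)]

/-- two paths which can be concatenated -/
structure PvMap.Pth.App (p q : T.Pth) : Prop where
  h1 : p.v p.n = q.v 0
  hd : ∀ i j, i ≤ p.n → j ≤ q.n → p.v i = q.v j → i = p.n ∧ j = 0

/-- concatenation -/
def PvMap.Pth.app (p q : T.Pth) (h : p.App q) : T.Pth where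
  n := p.n + q.n
  v k := if k ≤ p.n then p.v k else q.v (k - p.n)
  e k := if k < p.n then p.e k else q.e (k - p.n)
  src_e k hk := by
    by_cases h1 : k < p.n
    · rw [if_pos h1, if_pos h1.le, p.src_e k h1]
    · rw [if_neg h1, q.src_e _ (by omega)]
      by_cases h2 : k ≤ p.n
      · have : k = p.n := by omega
        subst this
        rw [if_pos le_rfl, Nat.sub_self, h.h1]
      · rw [if_neg h2]
  tgt_e k hk := by
    by_cases h1 : k < p.n
    · rw [if_pos h1, if_pos (by omega), p.tgt_e k h1]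
    · rw [if_neg h1, if_neg (by omega), q.tgt_e _ (by omega)]
      congr 1
      omega
  inj k l hk hl e := by
    by_cases h1 : k ≤ p.n <;> by_cases h2 : l ≤ p.n
    · rw [if_pos h1, if_pos h2] at e
      exact p.inj k l h1 h2 e
    · rw [if_pos h1, if_neg h2] at e
      have := h.hd _ _ h1 (by omega) e
      omega
    · rw [if_neg h1, if_pos h2] at e
      have := h.hd _ _ h2 (by omega) e.symm
      omega
    · rw [if_neg h1, if_neg h2] at e
      have := q.inj _ _ (by omega) (by omega) e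
      omega

theorem pvt_c_app_eqns_cite : True := by
  have := @PvMap.Pth.app.eq_1
  trivial

theorem pvt_c_app_n (p q : T.Pth) (h : p.App q) : (p.app q h).n = p.n + q.n := rfl
theorem pvt_c_app_v1 (p q : T.Pth) (h : p.App q) {k : ℕ} (hk : k ≤ p.n) : (p.app q h).v k = p.v k := if_pos hk
theorem pvt_c_app_v0 (p q : T.Pth) (h : p.App q) : (p.app q h).v 0 = p.v 0 := pvt_c_app_v1 p q h (Nat.zero_le _)
theorem pvt_c_app_v2 (p q : T.Pth) (h : p.App q) (k : ℕ) : (p.app q h).v (p.n + k) = q.v k := by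
  show (if p.n + k ≤ p.n then p.v (p.n + k) else q.v (p.n + k - p.n)) = q.v k
  by_cases hk : k = 0
  · subst hk
    rw [if_pos (by omega), Nat.add_zero, h.h1]
  · rw [if_neg (by omega), Nat.add_sub_cancel_left]
theorem pvt_c_app_vn (p q : T.Pth) (h : p.App q) : (p.app q h).v (p.app q h).n = q.v q.n := pvt_c_app_v2 p q h q.n
theorem pvt_c_app_e1 (p q : T.Pth) (h : p.App q) {k : ℕ} (hk : k < p.n) : (p.app q h).e k = p.e k := if_pos hk
theorem pvt_c_app_e2 (p q : T.Pth) (h : p.App q) (k : ℕ) : (p.app q h).e (p.n + k) = q.e k := by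
  show (if p.n + k < p.n then p.e (p.n + k) else q.e (p.n + k - p.n)) = q.e k
  rw [if_neg (by omega), Nat.add_sub_cancel_left]

theorem pvt_c_app_verts (p q : T.Pth) (h : p.App q) : (p.app q h).verts = p.verts ∪ q.verts := by
  ext x
  constructor
  · rintro ⟨k, hk, rfl⟩
    rcases Nat.lt_or_ge p.n k with h1 | h1
    · obtain ⟨m, rfl⟩ := Nat.exists_eq_add_of_le h1.le
      rw [pvt_c_app_v2]
      exact Or.inr ⟨m, by rw [pvt_c_app_n] at hk; omega, rfl⟩
    · rw [pvt_c_app_v1 p q h h1]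
      exact Or.inl ⟨k, h1, rfl⟩
  · rintro (⟨k, hk, rfl⟩ | ⟨k, hk, rfl⟩)
    · exact ⟨k, by rw [pvt_c_app_n]; omega, pvt_c_app_v1 p q h hk⟩
    · exact ⟨p.n + k, by rw [pvt_c_app_n]; omega, pvt_c_app_v2 p q h k⟩

theorem pvt_c_app_psum (p q : T.Pth) (h : p.App q) (w : D → ℂ) : (p.app q h).psum w = p.psum w + q.psum w := by
  unfold PvMap.Pth.psum
  rw [pvt_c_app_n, Finset.sum_range_add]
  congr 1
  · exact Finset.sum_congr rfl fun i hi => by rw [pvt_c_app_e1 p q h (Finset.mem_range.1 hi)]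
  · exact Finset.sum_congr rfl fun i _ => by rw [pvt_c_app_e2 p q h i]

theorem pvt_c_app_gfaced {s : V → Bool} {ρ : V} (p q : T.Pth) (h : p.App q) (hp : p.GFaced s ρ) (hq : q.GFaced s ρ) : (p.app q h).GFaced s ρ := by
  refine ⟨fun k hk => ?_, fun k hk => ?_⟩
  · rcases Nat.lt_or_ge p.n k with h1 | h1
    · obtain ⟨m, rfl⟩ := Nat.exists_eq_add_of_le h1.le
      rw [pvt_c_app_v2]
      exact hq.1 m (by rw [pvt_c_app_n] at hk; omega)
    · rw [pvt_c_app_v1 p q h h1]
      exact hp.1 k h1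
  · rcases Nat.lt_or_ge k p.n with h1 | h1
    · rw [pvt_c_app_e1 p q h h1]
      exact hp.2 k h1
    · obtain ⟨m, rfl⟩ := Nat.exists_eq_add_of_le h1
      rw [pvt_c_app_e2]
      exact hq.2 m (by rw [pvt_c_app_n] at hk; omega)

theorem pvt_c_app_faced {s : V → Bool} {R : Set D} {ρ : V} (p q : T.Pth) (h : p.App q) (hp : p.Faced s R ρ) (hq : q.Faced s R ρ) : (p.app q h).Faced s R ρ := by
  refine ⟨(pvt_c_app_gfaced p q h hp.gfaced hq.gfaced).1, fun k hk => ?_⟩
  rcases Nat.lt_or_ge k p.n with h1 | h1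
  · rw [pvt_c_app_e1 p q h h1]
    exact hp.2 k h1
  · obtain ⟨m, rfl⟩ := Nat.exists_eq_add_of_le h1
    rw [pvt_c_app_e2]
    exact hq.2 m (by rw [pvt_c_app_n] at hk; omega)

/-! ## 6. The strip -/

/-- **STRIP**.   `p` = an arc (black), `q` = the rest of the boundary of the strip on the right of `p` (from the first to the last vertex of `p`), `Z = p.rev.glue q`, strip `= Z.Left`.
`s` = the ORIGINAL colouring, in which the right apexes of `p` are `Mono`-joined to a vertex `ρ₀` which does not lie in the open strip;  `s'` = a colouring obtained from `s` by recolouring towards the colour of `ρ₀` off `p`,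
for which the inner vertices of `q` (gate arcs + lane) have the colour of `ρ₀`.      Then `p` is faced IN THE STRIP for `s'`, with any inner vertex `ρ` of `q` as anchor. -/
theorem pvt_c_strip (hT : T.IsSph) (s s' : V → Bool) (p q : T.Pth) (h : p.rev.Glue q) (ρ ρ₀ : V) (hρ : ρ ∈ q.inner) (hw : ∀ v, s v = s ρ₀ → s' v = s ρ₀)
    (hp : ∀ i, i ≤ p.n → s (p.v i) ≠ s ρ₀) (hp' : ∀ i, i ≤ p.n → s' (p.v i) ≠ s ρ₀) (hq : ∀ x ∈ q.inner, s' x = s ρ₀)
    (hρ₀ : ρ₀ ∉ T.Int (p.rev.glue q h).Left) (hap : ∀ i, i < p.n → T.Mono s (T.apex (T.opp (p.e i))) ρ₀) :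
    p.Faced s' (p.rev.glue q h).Left ρ := by
  obtain ⟨Z, hZ⟩ : ∃ Z, Z = p.rev.glue q h := ⟨_, rfl⟩
  rw [← hZ] at hρ₀ ⊢
  obtain ⟨-, hL, -, -⟩ := pl_jordan hT Z
  have e : s' ρ = s ρ₀ := hq ρ hρ
  have hverts : Z.verts = p.verts ∪ q.verts := by rw [hZ, pl_pth_glue_verts, pl_pth_rev_verts]
  -- a vertex of `Z` of the colour of `ρ₀` is an inner vertex of `q`
  have hin : ∀ w, w ∈ Z.verts → s w = s ρ₀ → w ∈ q.inner := by
    intro w hw' hc
    rw [hverts] at hw'
    have hnp : w ∉ p.verts := by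
      rintro ⟨k, hk, rfl⟩
      exact hp k hk hc
    rcases hw' with h1 | h1
    · exact absurd h1 hnp
    · rw [pl_pth_verts_eq] at h1
      rcases h1 with (h1 | h1) | h1
      · exact absurd ⟨0, Nat.zero_le _, by rw [h1, ← h.h1]; show p.v 0 = p.v (p.n - p.n); rw [Nat.sub_self]⟩ hnp
      · exact absurd ⟨p.n, le_rfl, by rw [Set.mem_singleton_iff.1 h1, h.h2]; rfl⟩ hnp
      · exact h1
  have hqL : ∀ k, k < q.n → q.e k ∈ Z.Left := by
    intro k hk
    have := hL (p.rev.n + k)
    rwa [hZ, pl_pth_glue_e2 p.rev q h hk, ← hZ] at this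
  have hpL : ∀ i, i < p.n → T.opp (p.e i) ∈ Z.Left := by
    intro i hi
    have := hL (p.n - 1 - i)
    rw [hZ, pl_pth_glue_e1 p.rev q h (show p.n - 1 - i < p.n by omega), ← hZ] at this
    have e2 : p.n - 1 - (p.n - 1 - i) = i := by omega
    have e3 : p.rev.e (p.n - 1 - i) = T.opp (p.e i) := by
      show T.opp (p.e (p.n - 1 - (p.n - 1 - i))) = _
      rw [e2]
    rwa [e3] at this
  -- (A) the inner vertices of `q` are joined along `q`
  have hA : ∀ z ∈ q.inner, T.Join Z.Left {v | s' v = s ρ₀} z ρ := by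
    rintro z ⟨a, ha0, ha1, rfl⟩
    obtain ⟨b, hb0, hb1, rfl⟩ := hρ
    have hn : (q.seg 1 (q.n - 1)).n = q.n - 2 := by
      show min (q.n - 1) q.n - 1 = q.n - 2
      omega
    have h1 : (q.seg 1 (q.n - 1)).In Z.Left := by
      intro k hk
      exact Or.inl (hqL _ (by rw [hn] at hk; omega))
    have h2 : (q.seg 1 (q.n - 1)).verts ⊆ {v | s' v = s ρ₀} := by
      rintro x ⟨k, hk, rfl⟩
      exact hq _ ⟨1 + k, by omega, by rw [hn] at hk; omega, rfl⟩
    have := pl_pth_join (q.seg 1 (q.n - 1)) h1 h2 (i := a - 1) (j := b - 1) (by rw [hn]; omega) (by rw [hn]; omega)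
    have ea : (q.seg 1 (q.n - 1)).v (a - 1) = q.v a := by
      show q.v (1 + (a - 1)) = q.v a
      congr 1; omega
    have eb : (q.seg 1 (q.n - 1)).v (b - 1) = q.v b := by
      show q.v (1 + (b - 1)) = q.v b
      congr 1; omega
    rwa [ea, eb] at this
  refine ⟨fun i hi => by rw [e]; exact hp' i hi, fun i hi => ⟨hpL i hi, ?_⟩⟩
  rw [e]
  obtain ⟨y, hy⟩ : ∃ y, y = T.apex (T.opp (p.e i)) := ⟨_, rfl⟩
  rw [← hy]
  have hyV : y ∈ T.VOf Z.Left := ⟨_, ((pl_left_face Z).nxt2 T _).2 (hpL i hi), hy.symm⟩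
  have hmono : T.Mono s y ρ₀ := hy ▸ hap i hi
  have hys : s y = s ρ₀ := pvt_c_mono_col hmono
  have key : ∀ u, T.Mono s y u → s u = s ρ₀ ∧ ((T.Join Z.Left {v | s' v = s ρ₀} y u ∧ u ∈ T.Int Z.Left) ∨ ∃ z ∈ q.inner, T.Join Z.Left {v | s' v = s ρ₀} y z) := by
    intro u hu
    induction hu with
    | refl =>
      refine ⟨hys, ?_⟩
      have hj : T.Join Z.Left {v | s' v = s ρ₀} y y := ⟨hw y hys, ReflTransGen.refl⟩
      rw [pl_VOf_left hT] at hyV
      rcases hyV with h1 | h1
      · exact Or.inr ⟨y, hin y h1 hys, hj⟩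
      · exact Or.inl ⟨hj, h1⟩
    | @tail u w _ huw ih =>
      obtain ⟨⟨d, hd1, hd2⟩, hc⟩ := huw
      have hws : s w = s ρ₀ := hc ▸ ih.1
      refine ⟨hws, ?_⟩
      rcases ih.2 with ⟨hj, hi'⟩ | h1
      · obtain ⟨g1, -, g3⟩ := pl_int_edge hT Z (d := d) (hd1 ▸ hi')
        have hj' : T.Join Z.Left {v | s' v = s ρ₀} y w := ⟨hj.1, ReflTransGen.tail hj.2 ⟨⟨d, Or.inl g1, hd1, hd2⟩, hw w hws⟩⟩
        rw [hd2, pl_VOf_left hT] at g3
        rcases g3 with h1 | h1
        · exact Or.inr ⟨w, hin w h1 hws, hj'⟩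
        · exact Or.inl ⟨hj', h1⟩
      · exact Or.inr h1
  rcases (key ρ₀ hmono).2 with ⟨-, h1⟩ | ⟨z, hz, hj⟩
  · exact absurd h1 hρ₀
  · exact pvt_c_join_trans hj (hA z hz)

end Claimed.Agent.R289
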