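import Claimed.Agent.R289.Tr.Strand
import Claimed.Agent.R289.Tr.Close

/-!
# Row 289 (S0537, Cardy for Poisson-Voronoi), box TR, block T2, file Tr/StrandF : FROM STRANDS TO FACED PATHS (EXISTENCE)      (owner helper64; prefix `pvt_sf_`, defs `pvtPth`, `pvtArc`)

Bridge between the strand calculus (`Tr/Strand`: `pvtBank`, `pvtLE`) and the faced paths of helper202 (`Tr/Close`: `Pth.Faced`, `Pth.GFaced`, `pvt_c_unique`, `pvt_c_close`).

* `pvtPth T l u v h d₀`     the simple path `l : List D` (`h : pvtS T l u v`) as a `T.Pth`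
* `pvtArc T s a m`          THE ARC OF A STRAND: the loop erasure of the bank walk of the strand `a, …, a_m`, as a `T.Pth` from `src a` to `src a_m`
* `pvt_sf_arc_faced`        **EXISTENCE**: `pvtArc T s a m` is `Faced` in the faces crossed by the strand, with anchor `tgt a`; its vertices lie in the black layer
* `pvt_sf_arc_psum`         `psum` = sum over the list;   `pvt_sf_arc_congr_*` LOCALITY
* `pvt_sf_cell`             **CELL** (TRAP + EXIST): a finite face set with exactly two bichromatic boundary edges contains a `Faced` black path between their black ends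
* `pvt_sf_rim`              ACTUAL ARCS: between two rim times `pvtArc` is the arc `c.pth i (j - i)` of the rim
* `pvt_sf_orbit`, `pvt_sf_first`, `pvt_sf_rim_ex`      a finite wall is ONE orbit of the wall step: the strand from a rim time reaches every other rim time, in less than a period
* `pvt_sf_nt`               NT: two visits of one vertex do not separate two bank darts with the same label
* `pvt_sf_tag_not`, `pvt_sf_wall_not`, `pvt_sf_lab_not`      exchange of the colours (white banks: apply everything to `pvasNot s`)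
-/

set_option autoImplicit false
set_option linter.unusedSectionVars false
set_option linter.unusedVariables false

namespace Claimed.Agent.R289

open Relation

variable {V D : Type}

/-! ## 0. a simple list path as a `Pth` -/

theorem pvt_sf_getD_src {T : PvMap V D} {l : List D} {u v : V} (h : pvtW T l u v) (d₀ : D) {i : ℕ} (hi : i < l.length) :
    T.src (l.getD i d₀) = (u :: l.map T.tgt).getD i u := by
  rw [← pvt_s_w_src h, List.getD_eq_getElem _ _ hi, List.getD_eq_getElem _ _ (by simp; omega), List.getElem_append_left (by simpa using hi), List.getElem_map]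

theorem pvt_sf_getD_tgt {T : PvMap V D} (l : List D) (u : V) (d₀ : D) {i : ℕ} (hi : i < l.length) :
    T.tgt (l.getD i d₀) = (u :: l.map T.tgt).getD (i + 1) u := by
  rw [List.getD_cons_succ, List.getD_eq_getElem _ _ hi, List.getD_eq_getElem _ _ (by simpa using hi), List.getElem_map]

/-- the simple path `l` as a `Pth` (`d₀` = junk value) -/
def pvtPth (T : PvMap V D) (l : List D) (u v : V) (h : pvtS T l u v) (d₀ : D) : T.Pth where
  n := l.length
  v k := (u :: l.map T.tgt).getD k u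
  e k := l.getD k d₀
  src_e i hi := pvt_sf_getD_src h.1 d₀ hi
  tgt_e i hi := pvt_sf_getD_tgt l u d₀ hi
  inj i j hi hj hij := by
    have hi' : i < (u :: l.map T.tgt).length := by simp; omega
    have hj' : j < (u :: l.map T.tgt).length := by simp; omega
    rw [List.getD_eq_getElem _ _ hi', List.getD_eq_getElem _ _ hj'] at hij
    exact (h.2.getElem_inj_iff).1 hij

/-- the arc of a strand -/
def pvtArc [DecidableEq V] (T : PvMap V D) (s : V → Bool) (a : D) (m : ℕ) : T.Pth :=
  pvtPth T (pvtLE T (pvtBank T s a m)) (T.src a) (T.src (pvasIt T s a m)) (pvt_s_le_path (pvt_s_bank_walk a m)) a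

theorem pvt_sf_eqns_cite : True := by
  have := @pvtPth.eq_1; have := @pvtArc.eq_1
  trivial

variable {T : PvMap V D} {s : V → Bool}

theorem pvt_sf_pth_n {l : List D} {u v : V} (h : pvtS T l u v) (d₀ : D) : (pvtPth T l u v h d₀).n = l.length := rfl

theorem pvt_sf_pth_e {l : List D} {u v : V} (h : pvtS T l u v) (d₀ : D) (k : ℕ) : (pvtPth T l u v h d₀).e k = l.getD k d₀ := rfl

theorem pvt_sf_pth_e_mem {l : List D} {u v : V} (h : pvtS T l u v) (d₀ : D) {k : ℕ} (hk : k < l.length) : (pvtPth T l u v h d₀).e k ∈ l := by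
  rw [pvt_sf_pth_e, List.getD_eq_getElem _ _ hk]
  exact List.getElem_mem _

theorem pvt_sf_pth_v0 {l : List D} {u v : V} (h : pvtS T l u v) (d₀ : D) : (pvtPth T l u v h d₀).v 0 = u := rfl

theorem pvt_sf_pth_vn {l : List D} {u v : V} (h : pvtS T l u v) (d₀ : D) : (pvtPth T l u v h d₀).v (pvtPth T l u v h d₀).n = v := by
  show (u :: l.map T.tgt).getD l.length u = v
  rw [← pvt_s_w_src h.1, List.getD_eq_getElem _ _ (by simp), List.getElem_append_right (by simp)]
  simp

theorem pvt_sf_pth_v_mem {l : List D} {u v : V} (h : pvtS T l u v) (d₀ : D) {k : ℕ} (hk : k ≤ l.length) : (pvtPth T l u v h d₀).v k ∈ u :: l.map T.tgt := by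
  show (u :: l.map T.tgt).getD k u ∈ _
  rw [List.getD_eq_getElem _ _ (by simp; omega)]
  exact List.getElem_mem _

theorem pvt_sf_sum_getD {M : Type*} [AddCommMonoid M] (g : D → M) (l : List D) (d₀ : D) : ∑ i ∈ Finset.range l.length, g (l.getD i d₀) = (l.map g).sum := by
  induction l with
  | nil => simp
  | cons e l ih =>
    rw [List.length_cons, Finset.sum_range_succ', List.map_cons, List.sum_cons, add_comm]
    congr 1

theorem pvt_sf_pth_psum {l : List D} {u v : V} (h : pvtS T l u v) (d₀ : D) (w : D → ℂ) : (pvtPth T l u v h d₀).psum w = (l.map (fun f => w (T.opp f))).sum :=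
  pvt_sf_sum_getD (fun f => w (T.opp f)) l d₀

/-! ## 1. the arc of a strand is faced -/

theorem pvt_sf_edgeIn_symm {A : Set D} {a b : V} (h : T.EdgeIn A a b) : T.EdgeIn A b a := by
  obtain ⟨d, hd, h1, h2⟩ := h
  exact ⟨T.opp d, by rw [T.opp_opp]; exact hd.symm, by rw [T.src_opp', h2], by rw [T.tgt_opp, h1]⟩

theorem pvt_sf_join_symm {A : Set D} {X : Set V} {a b : V} (h : T.Join A X a b) : T.Join A X b a := by
  obtain ⟨ha, h⟩ := h
  induction h with
  | refl => exact ⟨ha, ReflTransGen.refl⟩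
  | @tail x y _ hxy ih => exact ⟨hxy.2, ReflTransGen.head ⟨pvt_sf_edgeIn_symm hxy.1, ih.1⟩ ih.2⟩

section Arc

variable [DecidableEq V]

theorem pvt_sf_arc_n (s : V → Bool) (a : D) (m : ℕ) : (pvtArc T s a m).n = (pvtLE T (pvtBank T s a m)).length := rfl

theorem pvt_sf_arc_e (s : V → Bool) (a : D) (m k : ℕ) : (pvtArc T s a m).e k = (pvtLE T (pvtBank T s a m)).getD k a := rfl

theorem pvt_sf_arc_v0 (s : V → Bool) (a : D) (m : ℕ) : (pvtArc T s a m).v 0 = T.src a := rfl

theorem pvt_sf_arc_vn (s : V → Bool) (a : D) (m : ℕ) : (pvtArc T s a m).v (pvtArc T s a m).n = T.src (pvasIt T s a m) := pvt_sf_pth_vn _ _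

/-- the darts of the arc are bank darts of the strand, at increasing times -/
theorem pvt_sf_arc_e_mem (s : V → Bool) (a : D) (m : ℕ) {k : ℕ} (hk : k < (pvtArc T s a m).n) : (pvtArc T s a m).e k ∈ pvtBank T s a m :=
  (pvt_s_le_sub (T := T) (pvtBank T s a m)).subset (pvt_sf_pth_e_mem _ _ hk)

/-- the vertices of the arc lie in the black layer of the strand -/
theorem pvt_sf_arc_verts (s : V → Bool) (a : D) (m : ℕ) : (pvtArc T s a m).verts ⊆ pvasLayB T s a m := by
  rintro x ⟨k, hk, rfl⟩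
  have h1 := pvt_sf_pth_v_mem (pvt_s_le_path (pvt_s_bank_walk (T := T) (s := s) a m)) a hk
  rcases List.mem_cons.1 h1 with h1 | h1
  · exact ⟨0, Nat.zero_le _, h1.symm⟩
  · obtain ⟨f, hf, hfx⟩ := List.mem_map.1 h1
    have h2 := pvt_s_bank_tgt ((pvt_s_le_sub (T := T) (pvtBank T s a m)).subset hf)
    rw [hfx] at h2
    exact h2

/-- **EXISTENCE**: the arc of a strand is faced in the faces crossed by the strand, with anchor the white end of the first position -/
theorem pvt_sf_arc_faced {a : D} (ha : pvasBW T s a) (m : ℕ) : (pvtArc T s a m).Faced s (pvasFc T s a m) (T.tgt a) := by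
  constructor
  · intro i hi
    rw [pvas_layB_black ha (pvt_sf_arc_verts s a m ⟨i, hi, rfl⟩), ha.2]
    exact Bool.false_ne_true.symm
  · intro i hi
    obtain ⟨k, hk, -, h2⟩ := pvt_s_bank_mem.1 (pvt_sf_arc_e_mem s a m hi)
    rw [h2, pvt_s_opp_rot, T.apex_nxt2]
    refine ⟨⟨k, hk, T.sf_nxt2 _⟩, pvt_sf_join_symm ?_⟩
    refine pvt_c_join_mono_set (le_refl _) ?_ (pvas_layW_join s a hk.le)
    intro v hv
    show s v = s (T.tgt a)
    rw [pvas_layW_white ha hv, ha.2]

theorem pvt_sf_arc_psum (s : V → Bool) (a : D) (m : ℕ) (w : D → ℂ) :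
    (pvtArc T s a m).psum w = ((pvtLE T (pvtBank T s a m)).map (fun f => w (T.opp f))).sum := pvt_sf_pth_psum _ _ w

/-- **LOCALITY**: the arc of a strand is a function of the colours of the two layers of the strand -/
theorem pvt_sf_arc_congr {s s' : V → Bool} {a : D} {m : ℕ} (h : ∀ v, v ∈ pvasLayB T s a m ∨ v ∈ pvasLayW T s a m → s' v = s v) :
    pvtArc T s' a m = pvtArc T s a m := by
  have h1 := pvt_s_bank_congr h
  have h2 := pvas_it_congr h m le_rfl
  unfold pvtArc
  simp only [h1, h2]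

/-- **CELL** (TRAP + EXIST): a finite face set with exactly two bichromatic boundary edges contains a faced black path between their black ends; their white ends are joined in white -/
theorem pvt_sf_cell {A : Set D} (hA : T.FaceSet A) (hfin : A.Finite) {e₁ e₂ : D} (h : pvasBdOcc T A s = {e₁, e₂}) (hb : pvasBW T s e₁) :
    ∃ m, 1 ≤ m ∧ (∀ i, i < m → pvasIt T s e₁ i ∈ A) ∧ pvasIt T s e₁ m = T.opp e₂ ∧ (pvtArc T s e₁ m).v 0 = T.src e₁ ∧
      (pvtArc T s e₁ m).v (pvtArc T s e₁ m).n = T.tgt e₂ ∧ (pvtArc T s e₁ m).Faced s A (T.tgt e₁) ∧ (pvtArc T s e₁ m).verts ⊆ T.VOf A ∧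
      T.Join A {v | s v = false} (T.tgt e₁) (T.src e₂) := by
  obtain ⟨m, hm1, hm2, hm3⟩ := pvas_two_strand hA hfin h hb
  have hsub := pvas_fc_sub hA hm2
  refine ⟨m, hm1, hm2, hm3, rfl, ?_, (pvt_sf_arc_faced hb m).mono hsub, ?_, ?_⟩
  · rw [pvt_sf_arc_vn, hm3, T.src_opp']
  · intro x hx
    have h1 : x ∈ pvasLayB T s e₁ m ∪ pvasLayW T s e₁ m := Or.inl (pvt_sf_arc_verts s e₁ m hx)
    rw [← pvas_fc_verts s e₁ hm1] at h1
    obtain ⟨f, hf, rfl⟩ := h1
    exact ⟨f, hsub hf, rfl⟩
  · have h1 := pvas_layW_join (T := T) s e₁ (le_refl m)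
    rw [hm3, T.tgt_opp] at h1
    exact pvt_c_join_mono_set hsub (fun v hv => pvas_layW_white hb hv) h1

/-- **ACTUAL ARCS**: between two rim times the arc of the strand is the arc of the rim -/
theorem pvt_sf_rim (hT : T.IsSph) (hS : T.Simple) (c : T.Cyc) (hc : ∀ i, T.Tag s (T.opp (c.e i)))
    (hw : ∀ i, T.Wall s (T.opp (c.e 0)) (T.opp (c.e i))) (hb : ∀ i, s (T.src (c.e i)) = true) {i j m : ℕ} (hij : i < j) (hj : j < i + c.n)
    (hm : pvasIt T s (T.rotInv (c.e i)) m = T.rotInv (c.e j))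
    (hmin : ∀ k, 0 < k → k ≤ m → pvasIt T s (T.rotInv (c.e i)) k ≠ T.rotInv (c.e i)) :
    (pvtArc T s (T.rotInv (c.e i)) m).n = j - i ∧ (∀ k, k < j - i → (pvtArc T s (T.rotInv (c.e i)) m).e k = c.e (i + k)) ∧
      ∀ w : D → ℂ, (pvtArc T s (T.rotInv (c.e i)) m).psum w = ∑ k ∈ Finset.range (j - i), w (T.opp (c.e (i + k))) := by
  have h := pvt_s_arc hT hS c hc hw hb hij hj hm hmin
  have hn : (pvtArc T s (T.rotInv (c.e i)) m).n = j - i := by rw [pvt_sf_arc_n, h]; simp
  have he : ∀ k, k < j - i → (pvtArc T s (T.rotInv (c.e i)) m).e k = c.e (i + k) := by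
    intro k hk
    rw [pvt_sf_arc_e, h, List.getD_eq_getElem _ _ (by simpa using hk), List.getElem_map, List.getElem_range']
    simp
  refine ⟨hn, he, fun w => ?_⟩
  unfold PvMap.Pth.psum
  rw [hn]
  exact Finset.sum_congr rfl fun k hk => by rw [he k (Finset.mem_range.1 hk)]

end Arc

/-! ## 2. a finite wall is one orbit -/

theorem pvt_sf_wnx {b : D} (hb : pvasBW T s b) : T.wnx s (T.opp b) = T.opp (pvasStep T s b) := by
  unfold PvMap.wnx
  rw [T.opp_opp]
  rcases pvas_step_cases s b with ⟨h, e⟩ | ⟨h, e⟩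
  · rw [if_pos, e, T.opp_opp]
    unfold PvMap.Occ
    rw [T.src_nxt, T.tgt_nxt, hb.2, h]
    exact Bool.false_ne_true
  · rw [if_neg, e, T.opp_opp]
    unfold PvMap.Occ
    rw [T.src_nxt, T.tgt_nxt, hb.2, h]
    exact fun h => h rfl

/-- two positions in one finite wall: the strand from the first one reaches the second one -/
theorem pvt_sf_orbit {a a' : D} (ha : pvasBW T s a) (ha' : pvasBW T s a') (hw : T.Wall s a a') (hfin : {d | T.Wall s a d}.Finite) :
    ∃ m, pvasIt T s a m = a' := by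
  have he : T.Occ s (T.opp (pvasStep T s a)) := pl_ra_occ_opp (pvas_bw_occ (pvas_step_bw ha))
  have hae : T.Wall s a (T.opp (pvasStep T s a)) := pl_ra_wall_sf s (pvas_step_sf s a)
  have hfin' : {d | T.Wall s (T.opp (pvasStep T s a)) d}.Finite := hfin.subset fun d hd => pl_ra_wall_trans hae hd
  obtain ⟨w, h0, h1, -, -, h4⟩ := pl_w_circuit s he hfin'
  have hwe : ∀ i, w.e i = T.opp (pvasIt T s a (i + 1)) := by
    intro i
    induction i with
    | zero => rw [h0]; rfl
    | succ i ih => rw [h1, ih, pvt_sf_wnx (pvas_it_bw ha _), ← pvas_it_succ]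
  obtain ⟨i, hi⟩ := (h4 a').1 (pl_ra_wall_trans (pl_ra_wall_symm hae) hw)
  rw [hwe, pvas_it_succ] at hi
  have h5 : T.SF (pvasIt T s a i) a' := T.sf_trans (pvas_step_sf s _) hi
  exact ⟨i, (pvas_bw_face (pvas_it_bw ha i) ha' h5).symm⟩

/-- the first time at which a position is reached comes before the first return -/
theorem pvt_sf_first {a a' : D} (h : ∃ m, pvasIt T s a m = a') : ∃ m, pvasIt T s a m = a' ∧ ∀ k, 0 < k → k ≤ m → pvasIt T s a k ≠ a := by
  classical
  obtain ⟨M, hM, hmin⟩ : ∃ M, pvasIt T s a M = a' ∧ ∀ j, j < M → pvasIt T s a j ≠ a' := ⟨Nat.find h, Nat.find_spec h, fun j hj => Nat.find_min h hj⟩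
  refine ⟨M, hM, ?_⟩
  intro k hk0 hk hka
  obtain ⟨r, rfl⟩ := Nat.exists_eq_add_of_le hk
  rw [pvas_it_add, hka] at hM
  exact hmin r (by omega) hM

/-- the strand from the tag triangle of a dart of a black rim of a finite wall reaches the tag triangle of every other dart of the rim, before its first return -/
theorem pvt_sf_rim_ex (c : T.Cyc) (hc : ∀ i, T.Tag s (T.opp (c.e i))) (hw : ∀ i, T.Wall s (T.opp (c.e 0)) (T.opp (c.e i))) (hb : ∀ i, s (T.src (c.e i)) = true)
    (hfin : {d | T.Wall s (T.opp (c.e 0)) d}.Finite) (i j : ℕ) :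
    ∃ m, pvasIt T s (T.rotInv (c.e i)) m = T.rotInv (c.e j) ∧ ∀ k, 0 < k → k ≤ m → pvasIt T s (T.rotInv (c.e i)) k ≠ T.rotInv (c.e i) := by
  have h1 : ∀ t, T.Wall s (T.opp (c.e 0)) (T.rotInv (c.e t)) := fun t => pl_ra_wall_trans (hw t) (pl_ra_wall_sf s (T.sf_nxt _))
  apply pvt_sf_first
  refine pvt_sf_orbit (pvt_s_rim_bw (hc i) (hb i)) (pvt_s_rim_bw (hc j) (hb j)) (pl_ra_wall_trans (pl_ra_wall_symm (h1 i)) (h1 j)) ?_
  exact hfin.subset fun d hd => pl_ra_wall_trans (h1 i) hd

/-! ## 3. NT -/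

/-- **NT**: the strand visits one vertex at the times `k < k'`; a bank dart at a time in `[k, k')` and a bank dart at a time outside `[k, k')` do not have the same label -/
theorem pvt_sf_nt (hT : T.IsSph) (hS : T.Simple) {a : D} (ha : pvasBW T s a) {n : ℕ} (hinj : ∀ i j, i < n → j < n → pvasIt T s a i = pvasIt T s a j → i = j)
    {k k' : ℕ} (hk : k ≤ k') (hk' : k' ≤ n) (hv : T.src (pvasIt T s a k') = T.src (pvasIt T s a k)) {p p' : ℕ} (hp1 : k ≤ p) (hp2 : p < k') (hp' : p' < n)
    (hbp : s (T.apex (pvasIt T s a p)) = true) (hlab : T.SameLab s (T.opp (T.rot (pvasIt T s a p))) (T.opp (T.rot (pvasIt T s a p')))) : k ≤ p' ∧ p' < k' := by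
  obtain ⟨r, rfl⟩ := Nat.exists_eq_add_of_le hk
  obtain ⟨q, rfl⟩ := Nat.exists_eq_add_of_le hp1
  rw [pvas_it_add] at hv
  have hf : T.rot (pvasIt T s a (k + q)) ∈ pvtBank T s (pvasIt T s a k) r :=
    pvt_s_bank_mem.2 ⟨q, by omega, by rw [← pvas_it_add]; exact hbp, by rw [← pvas_it_add]⟩
  have h1 := pvt_s_sat hT hS (pvas_it_bw ha k) hv hf hlab
  rw [T.opp_opp] at h1
  obtain ⟨q', hq', -, h2⟩ := pvt_s_bank_mem.1 h1
  rw [← pvas_it_add] at h2
  have h3 := hinj _ _ hp' (by omega) (pvt_s_rot_inj h2)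
  omega

/-! ## 4. exchange of the colours -/

theorem pvt_sf_tag_not {d : D} : T.Tag (pvasNot s) d ↔ T.Tag s d := by
  unfold PvMap.Tag pvasNot
  simp

theorem pvt_sf_wall_not : T.Wall (pvasNot s) = T.Wall s := by
  funext d d'
  unfold PvMap.Wall
  simp only [pvas_occ_not]

theorem pvt_sf_lab_not {d d' : D} : T.SameLab (pvasNot s) d d' ↔ T.SameLab s d d' := by
  unfold PvMap.SameLab PvMap.InComp PvMap.CStep
  rw [pvt_sf_wall_not, pvt_sf_tag_not, pvt_sf_tag_not]

end Claimed.Agent.R289
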