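import Claimed.Agent.R289.Tr.PinLocB
import Claimed.Agent.R289.Tr.LaneDet
import Claimed.Agent.R289.Tr.GateB
import Claimed.Agent.R289.Tr.StrandF

/-!
# Row 289 (S0537), THE WALL, cell kit instance (Part 2 of `Tr/Plug` of 34), file Tr/PlugLoc : THE PREDICATES OF THE CELL KIT ON A MARKED COLOURED MAP AND THEIR LOCALITY      (owner helper173, second of 34; prefix `pvzl_`, `Pvzl`, `pvzl`)      0 sorry

WHY.  `PvpgGlob.Ok` (34) owes [MEAS] `mC mA mX` and [LOC] `lC lA lX` for the CONCRETE plug `C`, link `A τ`, mass `XQ τ`.   Tool on main: `pvpl_main` / `pvplb_main` of 238 (`Tr/PinLoc`, `Tr/PinLocB`): a predicate `Φ : PvplPred κ` on marked coloured maps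
`(V D T mk s)` which is `Φ.Local K` (invariant under `PvplIso`) has ONE representing event `B`: measurable, `ReadsSet (E ×ˢ univ)` POINTWISE, `= Φ` on the plane map on the mesh event.   Fields: the same for a MARKED DART (107 `Tr/PinLocF`, 247 `Tr/MeasG`).
So all that is owed = the predicates + ONE twin lemma each.      Positions are read ONLY through the marks `mk : V → κ` (RULING 13 (2)).      No `IsSph` in the twin lemmas (`Local` knows `Simple` only).
* sec. 1  twins over a `PvplIso`: `pvzl_rk_symm _ex _dom _mark _col _opp`, **`pvzl_run`** (a run of 70 with its time and all its positions), `pvzl_run'` (`PvldRun`), **`pvzl_gate`**, `pvzl_gate_darts` (`PvMap.Gate` of 260, `aIn aOut bIn bOut`)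
* sec. 2  `PvzlIn T mk KI KO c` (circuit between two marked discs), **`PvzlLeast`** (LEAST gate = innermost gate of 150 as a PREDICATE: no far face, no choice), `PvzlPg κ` (marks of a plug `KI KO Km Kp KT`), `PvzlThru .. g N` (through strand: inside the gate, in the tube),
          **`PvzlGt T mk s p g`** = `g` IS THE GATE OF RECORD OF THE PLUG `p`;   `pvzlKS`, **`PvzlRun T mk s KE g g' N`** (run of a link: corridor `KE`, closed outside of both gates);   `.run .hit .len` (`PvldRun`, `pvasHit`, `g.Thru`, `g.len` of 260);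
          twins `PvzlIn.twin PvzlLeast.twin pvzl_int_left PvzlThru.twin PvzlGt.twin PvzlRun.twin` (record `PvzlTw`)
* sec. 3  arcs of 64: `pvzl_aft`, **`pvzl_le`** (loop erasure commutes with a `PvLoc`), `pvzl_bank`;   `PvzlArc T s a N d` (`d` = a tag of `pvtArc T s a N`: the summands of `.psum`)
* sec. 3b THE PREDICATES  **`pvzlC p`** (plug), **`pvzlA p p' KE`** (link) `: PvplPred κ`,  **`pvzl_C_local`**, **`pvzl_A_local`**;   marked darts `PvzlTi .. p d` (tag of the inner arc), `PvzlTr .. p p' KE d` (tag of the run), **`pvzl_Ti_twin`**, **`pvzl_Tr_twin`**, `pvzl_arc_fc`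
* sec. 4  **`PvzlGt.unique`**, `.unique_darts` (`IsSph`, `Km`, `Kp` disjoint): THE gate is the same object for the arriving and the leaving link ((i) of 244)
-/

set_option autoImplicit false
set_option linter.unusedSectionVars false

namespace Claimed.Agent.R289

open Set Relation

/-! ## 1. twins over a `PvplIso` (238): darts, runs, gates -/

section twin

variable {κ : Type} {V D V' D' : Type} {T : PvMap V D} {mk : V → κ} {s : V → Bool} {T' : PvMap V' D'} {mk' : V' → κ} {s' : V' → Bool} {K : Set κ} {R : V → V' → Prop}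

/-- the symmetric dart correspondence -/
theorem pvzl_rk_symm (h : PvplIso T mk s T' mk' s' K R) {d : D} {d' : D'} (hd : pvplRK T mk T' K R d d') : pvplRK T' mk' T K (fun u' u => R u u') d' d := by
  refine ⟨hd.1, ?_⟩
  rcases hd.2 with h1 | h1 | h1
  · exact Or.inl (by show mk' (T'.src d') ∈ K; rw [h.mark _ _ hd.1.1]; exact h1)
  · exact Or.inr (Or.inl (by show mk' (T'.tgt d') ∈ K; rw [h.mark _ _ hd.1.2.1]; exact h1))
  · exact Or.inr (Or.inr (by show mk' (T'.apex d') ∈ K; rw [h.mark _ _ hd.1.2.2]; exact h1))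

/-- a dart whose face has a vertex marked in `K` has a twin -/
theorem pvzl_rk_ex (h : PvplIso T mk s T' mk' s' K R) {d : D} (hd : d ∈ pvplB T fun v => mk v ∈ K) : ∃ d', pvplRK T mk T' K R d d' := by
  obtain ⟨d', hd'⟩ := h.ex_B (P := fun k => k ∈ K) (fun _ hk => hk) hd
  exact ⟨d', hd', hd⟩

theorem pvzl_rk_dom (h : PvplIso T mk s T' mk' s' K R) : plDom (pvplRK T mk T' K R) = pvplB T fun v => mk v ∈ K :=
  Subset.antisymm (fun _ ⟨_, hd⟩ => hd.2) fun _ hd => pvzl_rk_ex h hd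

/-- marks along the dart correspondence -/
theorem pvzl_rk_mark (h : PvplIso T mk s T' mk' s' K R) {d : D} {d' : D'} (hd : pvplRK T mk T' K R d d') :
    mk' (T'.src d') = mk (T.src d) ∧ mk' (T'.tgt d') = mk (T.tgt d) ∧ mk' (T'.apex d') = mk (T.apex d) :=
  ⟨h.mark _ _ hd.1.1, h.mark _ _ hd.1.2.1, h.mark _ _ hd.1.2.2⟩

theorem pvzl_rk_col (h : PvplIso T mk s T' mk' s' K R) {d : D} {d' : D'} (hd : pvplRK T mk T' K R d d') :
    s' (T'.src d') = s (T.src d) ∧ s' (T'.tgt d') = s (T.tgt d) ∧ s' (T'.apex d') = s (T.apex d) :=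
  ⟨h.col _ _ hd.1.1, h.col _ _ hd.1.2.1, h.col _ _ hd.1.2.2⟩

/-- the opposite darts correspond as soon as one end of the edge is marked in `K` -/
theorem pvzl_rk_opp (h : PvplIso T mk s T' mk' s' K R) (hS : T.Simple) (hS' : T'.Simple) {d : D} {d' : D'} (hd : pvplRK T mk T' K R d d')
    (hK : mk (T.src d) ∈ K ∨ mk (T.tgt d) ∈ K) : pvplRK T mk T' K R (T.opp d) (T'.opp d') :=
  pvloc_opp (h.toLoc hS hS') hd (hK.imp h.full h.full)

/-- **TWIN RUN**: a run (70) through a set `KS` of sites marked in `K` is carried over, with its time and all its positions -/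
theorem pvzl_run (h : PvplIso T mk s T' mk' s' K R) (hS : T.Simple) (hS' : T'.Simple) {KS : Set V} {KS' : Set V'} (hsub : ∀ v ∈ KS, mk v ∈ K)
    (htr : ∀ v v', R v v' → v ∈ KS → v' ∈ KS') {a₀ a₁ : D} {a₀' a₁' : D'}
    (r0 : pvplRK T mk T' K R a₀ a₀') (r1 : pvplRK T mk T' K R a₁ a₁') {N : ℕ} (hN : 1 ≤ N) (hit : pvasIt T s a₀ N = a₁) (hmin : ∀ i, i < N → pvasIt T s a₀ i ≠ a₁)
    (hK : T.VOf (pvasFc T s a₀ N) ⊆ KS) :
    (∀ i, i ≤ N → pvplRK T mk T' K R (pvasIt T s a₀ i) (pvasIt T' s' a₀' i)) ∧ pvasIt T' s' a₀' N = a₁' ∧ (∀ i, i < N → pvasIt T' s' a₀' i ≠ a₁') ∧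
      T'.VOf (pvasFc T' s' a₀' N) ⊆ KS' := by
  have L := h.toLoc hS hS'
  rw [pvas_fc_verts s a₀ hN] at hK
  have hrel : ∀ i, i ≤ N → pvplRK T mk T' K R (pvasIt T s a₀ i) (pvasIt T' s' a₀' i) := by
    refine pvloc_it L h.loc_col r0 fun j hj => ?_
    rw [pvzl_rk_dom h]
    exact Or.inl (hsub _ (hK (Or.inl ⟨j, hj, rfl⟩)))
  refine ⟨hrel, ?_, fun i hi e => ?_, ?_⟩
  · have := hrel N le_rfl
    rw [hit] at this
    exact L.iso.fn this r1
  · have := hrel i hi.le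
    rw [e] at this
    exact hmin i hi (L.iso.inj this r1)
  · rw [pvas_fc_verts s' a₀' hN]
    rintro v (⟨i, hi, rfl⟩ | ⟨i, hi, rfl⟩)
    · exact htr _ _ (hrel i hi).1.1 (hK (Or.inl ⟨i, hi, rfl⟩))
    · exact htr _ _ (hrel i hi).1.2.1 (hK (Or.inr ⟨i, hi, rfl⟩))

/-- `PvldRun` is carried over -/
theorem pvzl_run' (h : PvplIso T mk s T' mk' s' K R) (hS : T.Simple) (hS' : T'.Simple) {KS : Set V} {KS' : Set V'} (hsub : ∀ v ∈ KS, mk v ∈ K)
    (htr : ∀ v v', R v v' → v ∈ KS → v' ∈ KS') {a₀ a₁ : D} {a₀' a₁' : D'}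
    (r0 : pvplRK T mk T' K R a₀ a₀') (r1 : pvplRK T mk T' K R a₁ a₁') (hr : PvldRun T s KS a₀ a₁) : PvldRun T' s' KS' a₀' a₁' := by
  obtain ⟨N, hN, hit, hmin, hK⟩ := hr
  obtain ⟨-, h2, h3, h4⟩ := pvzl_run h hS hS' hsub htr r0 r1 hN hit hmin hK
  exact ⟨N, hN, h2, h3, h4⟩

/-- sets of sites defined by marks correspond -/
theorem pvzl_tr_mark (h : PvplIso T mk s T' mk' s' K R) (KK : Set κ) : ∀ v v', R v v' → v ∈ {v | mk v ∈ KK} → v' ∈ {v' | mk' v' ∈ KK} := by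
  intro v v' hv hm
  show mk' v' ∈ KK
  rw [h.mark _ _ hv]
  exact hm

/-- **TWIN GATE**: a gate (260) whose circuit runs through sites marked in `K` has a twin: same length, same exit index, corresponding darts -/
theorem pvzl_gate (h : PvplIso T mk s T' mk' s' K R) (hS : T.Simple) (hS' : T'.Simple) (g : T.Gate s) (hg : ∀ k, mk (T.src (g.c.e k)) ∈ K) :
    ∃ g' : T'.Gate s', g'.m = g.m ∧ PvLocCyc (pvplRK T mk T' K R) g.c g'.c := by
  have L := h.toLoc hS hS'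
  obtain ⟨c', hc'⟩ := pvloc_cyc_exists L g.c fun k => by rw [pvzl_rk_dom h]; exact Or.inl (hg k)
  refine ⟨⟨c', g.m, g.hm, by rw [hc'.n_eq]; exact g.hmn, fun i hi => ?_⟩, rfl, hc'⟩
  rw [(pvzl_rk_col h (hc'.e_rel i)).1]
  exact g.col i (by rw [← hc'.n_eq]; exact hi)

/-- the four occupied edges of twin gates correspond -/
theorem pvzl_gate_darts (h : PvplIso T mk s T' mk' s' K R) (hS : T.Simple) (hS' : T'.Simple) {g : T.Gate s} {g' : T'.Gate s'} (hg : ∀ k, mk (T.src (g.c.e k)) ∈ K)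
    (hm : g'.m = g.m) (P : PvLocCyc (pvplRK T mk T' K R) g.c g'.c) :
    pvplRK T mk T' K R g.aIn g'.aIn ∧ pvplRK T mk T' K R g.aOut g'.aOut ∧ pvplRK T mk T' K R g.bIn g'.bIn ∧ pvplRK T mk T' K R g.bOut g'.bOut := by
  refine ⟨P.e_rel 0, ?_, ?_, ?_⟩
  · show pvplRK T mk T' K R (T.opp (g.c.e (g.m - 1))) (T'.opp (g'.c.e (g'.m - 1)))
    rw [hm]
    exact pvzl_rk_opp h hS hS' (P.e_rel _) (Or.inl (hg _))
  · show pvplRK T mk T' K R (g.c.e g.m) (g'.c.e g'.m)
    rw [hm]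
    exact P.e_rel _
  · show pvplRK T mk T' K R (T.opp (g.c.e (g.c.n - 1))) (T'.opp (g'.c.e (g'.c.n - 1)))
    rw [P.n_eq]
    exact pvzl_rk_opp h hS hS' (P.e_rel _) (Or.inl (hg _))

/-- a twin pair read backwards -/
theorem pvzl_cyc_symm (h : PvplIso T mk s T' mk' s' K R) {c : T.Cyc} {c' : T'.Cyc} (P : PvLocCyc (pvplRK T mk T' K R) c c') :
    PvLocCyc (pvplRK T' mk' T K fun u' u => R u u') c' c := ⟨P.n_eq.symm, fun k => pvzl_rk_symm h (P.e_rel k)⟩

end twin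

/-! ## 2. the gate of record of a plug, in marks -/

section gate

variable {κ : Type} {V D V' D' : Type}

/-- **the circuit `c` lies between the discs marked `KI` and `KO`**: every face with a vertex marked `KI` is inside, the vertices of the circuit and of the inside faces are marked `KO` -/
structure PvzlIn (T : PvMap V D) (mk : V → κ) (KI KO : Set κ) (c : T.Cyc) : Prop where
  inner : (pvplB T fun v => mk v ∈ KI) ⊆ c.Left
  outer : ∀ d ∈ c.Left, mk (T.src d) ∈ KO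
  rim : ∀ k, mk (T.src (c.e k)) ∈ KO

/-- **LEAST GATE** between the two discs (innermost gate of 150, `pvgn_gate` + `pvgn_innermost`, as a PREDICATE: no far face, no choice) -/
structure PvzlLeast (T : PvMap V D) (mk : V → κ) (s : V → Bool) (KI KO : Set κ) (g : T.Gate s) : Prop where
  reg : PvzlIn T mk KI KO g.c
  least : ∀ g₂ : T.Gate s, PvzlIn T mk KI KO g₂.c → g.c.Left ⊆ g₂.c.Left

/-- the marks of a plug: inner disc, outer disc, entrance side, exit side, tube of the through strand -/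
structure PvzlPg (κ : Type) where
  KI : Set κ
  KO : Set κ
  Km : Set κ
  Kp : Set κ
  KT : Set κ

/-- **THROUGH STRAND**: the strand which enters at `aIn` stays inside the gate until it leaves at `aOut` (after `N` steps), all the faces it crosses have their vertices marked `KT` -/
def PvzlThru (T : PvMap V D) (mk : V → κ) (s : V → Bool) (KT : Set κ) (g : T.Gate s) (N : ℕ) : Prop :=
  1 ≤ N ∧ pvasIt T s g.aIn N = g.aOut ∧ (∀ i, i < N → pvasIt T s g.aIn i ≠ g.aOut) ∧ (∀ i, i < N → pvasIt T s g.aIn i ∈ g.c.Left) ∧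
    T.VOf (pvasFc T s g.aIn N) ⊆ {v | mk v ∈ KT}

/-- **`g` IS THE GATE OF RECORD OF THE PLUG `p`**: least gate between the discs, `g⁻` on the entrance side, `g⁺` on the exit side, through strand in the tube -/
structure PvzlGt (T : PvMap V D) (mk : V → κ) (s : V → Bool) (p : PvzlPg κ) (g : T.Gate s) : Prop where
  least : PvzlLeast T mk s p.KI p.KO g
  vm : mk g.vm ∈ p.Km
  vp : mk g.vp ∈ p.Kp
  thru : ∃ N, PvzlThru T mk s p.KT g N

/-- the sites allowed to a link from `g` to `g'`: marked `KE`, on the closed outside of both gates -/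
def pvzlKS (T : PvMap V D) (mk : V → κ) {s : V → Bool} (KE : Set κ) (g g' : T.Gate s) : Set V := {v | mk v ∈ KE ∧ v ∉ T.Int g.c.Left ∧ v ∉ T.Int g'.c.Left}

/-- **RUN OF A LINK** of `N` steps from the exit of `g` to the entrance of `g'` -/
def PvzlRun (T : PvMap V D) (mk : V → κ) (s : V → Bool) (KE : Set κ) (g g' : T.Gate s) (N : ℕ) : Prop :=
  1 ≤ N ∧ pvasIt T s g.aOut N = g'.aIn ∧ (∀ i, i < N → pvasIt T s g.aOut i ≠ g'.aIn) ∧ T.VOf (pvasFc T s g.aOut N) ⊆ pvzlKS T mk KE g g'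

theorem pvzl_eqns_cite0 : True := by
  have := @PvzlThru.eq_1; have := @pvzlKS.eq_1; have := @PvzlRun.eq_1
  trivial

variable {T : PvMap V D} {mk : V → κ} {s : V → Bool} {T' : PvMap V' D'} {mk' : V' → κ} {s' : V' → Bool} {K : Set κ} {R : V → V' → Prop} {KI KO : Set κ}

theorem PvzlThru.run {KT : Set κ} {g : T.Gate s} {N : ℕ} (h : PvzlThru T mk s KT g N) : PvldRun T s {v | mk v ∈ KT} g.aIn g.aOut := ⟨N, h.1, h.2.1, h.2.2.1, h.2.2.2.2⟩

theorem PvzlRun.run {KE : Set κ} {g g' : T.Gate s} {N : ℕ} (h : PvzlRun T mk s KE g g' N) : PvldRun T s (pvzlKS T mk KE g g') g.aOut g'.aIn := ⟨N, h.1, h.2.1, h.2.2.1, h.2.2.2⟩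

/-- the number of steps is the hitting time -/
theorem PvzlThru.hit {KT : Set κ} {g : T.Gate s} {N : ℕ} (h : PvzlThru T mk s KT g N) : pvasHit T s g.aIn {g.aOut} = N := pvas_hit_eq h.2.1 h.2.2.1

theorem PvzlRun.hit {KE : Set κ} {g g' : T.Gate s} {N : ℕ} (h : PvzlRun T mk s KE g g' N) : pvasHit T s g.aOut {g'.aIn} = N := pvas_hit_eq h.2.1 h.2.2.1

/-- the through strand in the vocabulary of 260: `g.Thru`, `g.len = N` -/
theorem PvzlThru.len (hT : T.IsSph) {KT : Set κ} {g : T.Gate s} {N : ℕ} (h : PvzlThru T mk s KT g N) : g.len = N ∧ g.Thru := by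
  have hout : g.aOut ∈ g.c.Leftᶜ := by
    obtain ⟨hR, -, h2, -⟩ := pl_jordan hT g.c
    rw [← hR]
    exact h2 _
  have e : pvasHit T s g.aIn g.c.Leftᶜ = N := pvas_hit_eq (by rw [h.2.1]; exact hout) fun i hi hn => hn (h.2.2.2.1 i hi)
  refine ⟨e, ?_⟩
  show pvasIt T s g.aIn (pvasHit T s g.aIn g.c.Leftᶜ) = g.aOut
  rw [e]
  exact h.2.1

theorem PvzlIn.dom (h : PvplIso T mk s T' mk' s' K R) (hO : KO ⊆ K) {c : T.Cyc} (hc : PvzlIn T mk KI KO c) : c.Left ⊆ plDom (pvplRK T mk T' K R) := by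
  rw [pvzl_rk_dom h]
  exact fun d hd => Or.inl (hO (hc.outer d hd))

/-- the region condition is carried over to the twin circuit -/
theorem PvzlIn.twin (h : PvplIso T mk s T' mk' s' K R) (hS : T.Simple) (hS' : T'.Simple) (hI : KI ⊆ K) (hO : KO ⊆ K) {c : T.Cyc} {c' : T'.Cyc}
    (P : PvLocCyc (pvplRK T mk T' K R) c c') (hc : PvzlIn T mk KI KO c) : PvzlIn T' mk' KI KO c' := by
  have L := h.toLoc hS hS'
  have hL := hc.dom h hO
  refine ⟨fun d' hd' => ?_, fun d' hd' => ?_, fun k => ?_⟩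
  · obtain ⟨d, hd⟩ := pvzl_rk_ex h.symm (pvpl_B_mono T' (fun _ hv => hI hv) hd')
    have hd2 := pvzl_rk_symm h.symm hd
    have hm := pvzl_rk_mark h hd2
    refine (pvloc_left L P hL hd2).1 (hc.inner ?_)
    rcases hd' with h1 | h1 | h1
    · exact Or.inl (by show mk (T.src d) ∈ KI; rw [← hm.1]; exact h1)
    · exact Or.inr (Or.inl (by show mk (T.tgt d) ∈ KI; rw [← hm.2.1]; exact h1))
    · exact Or.inr (Or.inr (by show mk (T.apex d) ∈ KI; rw [← hm.2.2]; exact h1))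
  · obtain ⟨d, h1, h2⟩ := pvloc_left_bwd L P hL hd'
    rw [(pvzl_rk_mark h h1).1]
    exact hc.outer d h2
  · rw [(pvzl_rk_mark h (P.e_rel k)).1]
    exact hc.rim k

/-- the least gate is carried over to the twin gate -/
theorem PvzlLeast.twin (h : PvplIso T mk s T' mk' s' K R) (hS : T.Simple) (hS' : T'.Simple) (hI : KI ⊆ K) (hO : KO ⊆ K) {g : T.Gate s} {g' : T'.Gate s'}
    (P : PvLocCyc (pvplRK T mk T' K R) g.c g'.c) (hg : PvzlLeast T mk s KI KO g) : PvzlLeast T' mk' s' KI KO g' := by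
  have L := h.toLoc hS hS'
  refine ⟨hg.reg.twin h hS hS' hI hO P, fun g₂' h₂' d' hd' => ?_⟩
  obtain ⟨g₂, -, P₂⟩ := pvzl_gate h.symm hS' hS g₂' fun k => hO (h₂'.rim k)
  have P₂' : PvLocCyc (pvplRK T mk T' K R) g₂.c g₂'.c := pvzl_cyc_symm h.symm P₂
  have h₂ : PvzlIn T mk KI KO g₂.c := h₂'.twin h.symm hS' hS hI hO P₂
  obtain ⟨d, h1, h2⟩ := pvloc_left_bwd L P (hg.reg.dom h hO) hd'
  exact (pvloc_left L P₂' (h₂.dom h hO) h1).1 (hg.least g₂ h₂ h2)

/-- the open inside of a circuit is carried over at the sites marked in `K` -/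
theorem pvzl_int_left (h : PvplIso T mk s T' mk' s' K R) (hS : T.Simple) (hS' : T'.Simple) {c : T.Cyc} {c' : T'.Cyc} (P : PvLocCyc (pvplRK T mk T' K R) c c')
    (hL : c.Left ⊆ plDom (pvplRK T mk T' K R)) {v : V} {v' : V'} (hv : R v v') (hK : mk v ∈ K) : v ∈ T.Int c.Left ↔ v' ∈ T'.Int c'.Left := by
  have L := h.toLoc hS hS'
  constructor
  · intro hi d' hd'
    obtain ⟨d, hd⟩ := h.ex' d' (by rw [hd', h.mark _ _ hv]; exact hK)
    have e : T.src d = v := h.inj _ _ _ hd.1 (hd' ▸ hv)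
    exact (pvloc_left L P hL (⟨hd, Or.inl (by show mk (T.src d) ∈ K; rw [e]; exact hK)⟩ : pvplRK T mk T' K R d d')).1 (hi d e)
  · intro hi d hd
    obtain ⟨d', hd'⟩ := h.ex d (by rw [hd]; exact hK)
    have e : T'.src d' = v' := h.fn _ _ _ hd'.1 (hd ▸ hv)
    exact (pvloc_left L P hL (⟨hd', Or.inl (by show mk (T.src d) ∈ K; rw [hd]; exact hK)⟩ : pvplRK T mk T' K R d d')).2 (hi d' e)

/-- **TWIN of a gate of record** -/
structure PvzlTw (T : PvMap V D) (mk : V → κ) (T' : PvMap V' D') (K : Set κ) (R : V → V' → Prop) {s : V → Bool} {s' : V' → Bool} (g : T.Gate s) (g' : T'.Gate s') : Prop where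
  m_eq : g'.m = g.m
  cyc : PvLocCyc (pvplRK T mk T' K R) g.c g'.c
  dom : g.c.Left ⊆ plDom (pvplRK T mk T' K R)
  aIn : pvplRK T mk T' K R g.aIn g'.aIn
  aOut : pvplRK T mk T' K R g.aOut g'.aOut

/-- the through strand is carried over, with its time -/
theorem PvzlThru.twin (h : PvplIso T mk s T' mk' s' K R) (hS : T.Simple) (hS' : T'.Simple) {KT : Set κ} (hT : KT ⊆ K) {g : T.Gate s} {g' : T'.Gate s'}
    (W : PvzlTw T mk T' K R g g') {N : ℕ} (hN : PvzlThru T mk s KT g N) :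
    PvzlThru T' mk' s' KT g' N ∧ ∀ i, i ≤ N → pvplRK T mk T' K R (pvasIt T s g.aIn i) (pvasIt T' s' g'.aIn i) := by
  obtain ⟨h1, h2, h3, h4⟩ := pvzl_run h hS hS' (KS := {v | mk v ∈ KT}) (fun _ hv => hT hv) (pvzl_tr_mark h KT) W.aIn W.aOut hN.1 hN.2.1 hN.2.2.1 hN.2.2.2.2
  exact ⟨⟨hN.1, h2, h3, fun i hi => (pvloc_left (h.toLoc hS hS') W.cyc W.dom (h1 i hi.le)).1 (hN.2.2.2.1 i hi), h4⟩, h1⟩

/-- **the gate of record is carried over** -/
theorem PvzlGt.twin (h : PvplIso T mk s T' mk' s' K R) (hS : T.Simple) (hS' : T'.Simple) {p : PvzlPg κ} (hI : p.KI ⊆ K) (hO : p.KO ⊆ K) (hT : p.KT ⊆ K) {g : T.Gate s}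
    (hg : PvzlGt T mk s p g) : ∃ g' : T'.Gate s', PvzlGt T' mk' s' p g' ∧ PvzlTw T mk T' K R g g' := by
  have hr : ∀ k, mk (T.src (g.c.e k)) ∈ K := fun k => hO (hg.least.reg.rim k)
  obtain ⟨g', hm, P⟩ := pvzl_gate h hS hS' g hr
  obtain ⟨d1, d2, -, -⟩ := pvzl_gate_darts h hS hS' hr hm P
  have W : PvzlTw T mk T' K R g g' := ⟨hm, P, hg.least.reg.dom h hO, d1, d2⟩
  obtain ⟨N, hN⟩ := hg.thru
  refine ⟨g', ⟨hg.least.twin h hS hS' hI hO P, ?_, ?_, N, (hN.twin h hS hS' hT W).1⟩, W⟩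
  · show mk' (T'.src (g'.c.e 0)) ∈ p.Km
    rw [(pvzl_rk_mark h (P.e_rel 0)).1]
    exact hg.vm
  · show mk' (T'.src (g'.c.e g'.m)) ∈ p.Kp
    rw [hm, (pvzl_rk_mark h (P.e_rel g.m)).1]
    exact hg.vp

/-- the run of a link is carried over, with its time -/
theorem PvzlRun.twin (h : PvplIso T mk s T' mk' s' K R) (hS : T.Simple) (hS' : T'.Simple) {KE : Set κ} (hE : KE ⊆ K) {g g₁ : T.Gate s} {g' g₁' : T'.Gate s'}
    (W : PvzlTw T mk T' K R g g') (W₁ : PvzlTw T mk T' K R g₁ g₁') {N : ℕ} (hN : PvzlRun T mk s KE g g₁ N) :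
    PvzlRun T' mk' s' KE g' g₁' N ∧ ∀ i, i ≤ N → pvplRK T mk T' K R (pvasIt T s g.aOut i) (pvasIt T' s' g'.aOut i) := by
  have htr : ∀ v v', R v v' → v ∈ pvzlKS T mk KE g g₁ → v' ∈ pvzlKS T' mk' KE g' g₁' := by
    rintro v v' hv ⟨m1, m2, m3⟩
    refine ⟨by rw [h.mark _ _ hv]; exact m1, fun hi => m2 ?_, fun hi => m3 ?_⟩
    · exact (pvzl_int_left h hS hS' W.cyc W.dom hv (hE m1)).2 hi
    · exact (pvzl_int_left h hS hS' W₁.cyc W₁.dom hv (hE m1)).2 hi
  obtain ⟨h1, h2, h3, h4⟩ := pvzl_run h hS hS' (fun _ hv => hE hv.1) htr W.aOut W₁.aIn hN.1 hN.2.1 hN.2.2.1 hN.2.2.2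
  exact ⟨⟨hN.1, h2, h3, h4⟩, h1⟩

end gate

/-! ## 3. the arc of a piece of strand (64): bank walk, loop erasure -/

section arc

variable {V D V' D' : Type} {T : PvMap V D} {T' : PvMap V' D'} {Rk : D → D' → Prop} {s : V → Bool} {s' : V' → Bool}

theorem pvzl_forall₂_ex {l : List D} {l' : List D'} (hl : List.Forall₂ Rk l l') {q : D → Prop} {q' : D' → Prop} (hq : ∀ f f', Rk f f' → (q f ↔ q' f')) :
    (∃ f ∈ l, q f) ↔ ∃ f' ∈ l', q' f' := by
  induction hl with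
  | nil => simp
  | @cons a b l l' hab _ ih =>
    simp only [List.mem_cons, exists_eq_or_imp]
    rw [hq a b hab, ih]

theorem pvzl_aft [DecidableEq V] [DecidableEq V'] {x : V} {x' : V'} (hx : ∀ f f', Rk f f' → (T.tgt f = x ↔ T'.tgt f' = x')) {l : List D} {l' : List D'}
    (hl : List.Forall₂ Rk l l') : List.Forall₂ Rk (pvtAft T x l) (pvtAft T' x' l') := by
  induction hl with
  | nil => exact List.Forall₂.nil
  | @cons a b l l' hab hl ih =>
    simp only [pvtAft]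
    by_cases h : T.tgt a = x
    · rw [if_pos h, if_pos ((hx a b hab).1 h)]
      exact hl
    · rw [if_neg h, if_neg fun h' => h ((hx a b hab).2 h')]
      exact ih

/-- **loop erasure commutes with a local isomorphism** -/
theorem pvzl_le [DecidableEq V] [DecidableEq V'] (L : PvLoc T T' Rk) {l : List D} {l' : List D'} (hl : List.Forall₂ Rk l l') : List.Forall₂ Rk (pvtLE T l) (pvtLE T' l') := by
  induction hl with
  | nil => exact List.Forall₂.nil
  | @cons a b l l' hab _ ih =>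
    have hx : ∀ f f', Rk f f' → (T.tgt f = T.src a ↔ T'.tgt f' = T'.src b) := fun f f' hf =>
      ⟨fun e => L.vfn (L.iso.nxt hf) hab e, fun e => L.vinj (L.iso.nxt hf) hab e⟩
    have hmem : T.src a ∈ (pvtLE T l).map T.tgt ↔ T'.src b ∈ (pvtLE T' l').map T'.tgt := by
      simp only [List.mem_map]
      exact pvzl_forall₂_ex ih hx
    by_cases h : T.src a ∈ (pvtLE T l).map T.tgt
    · rw [pvt_s_le_cons_pos h, pvt_s_le_cons_pos (hmem.1 h)]
      exact pvzl_aft hx ih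
    · rw [pvt_s_le_cons_neg h, pvt_s_le_cons_neg fun h' => h (hmem.2 h')]
      exact List.Forall₂.cons hab ih

/-- the bank walk of a strand which stays at full vertices is carried over -/
theorem pvzl_bank (L : PvLoc T T' Rk) (hs : ∀ d d', Rk d d' → s (T.src d) = s' (T'.src d')) (N : ℕ) : ∀ {a : D} {a' : D'},
    (∀ i, i ≤ N → Rk (pvasIt T s a i) (pvasIt T' s' a' i)) → (∀ i, i < N → T.src (pvasIt T s a i) ∈ T.Int (plDom Rk)) →
    List.Forall₂ Rk (pvtBank T s a N) (pvtBank T' s' a' N) := by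
  induction N with
  | zero => intro a a' _ _; rw [pvt_s_bank_zero, pvt_s_bank_zero]; exact List.Forall₂.nil
  | succ N ih =>
    intro a a' hr hf
    have h0 : Rk a a' := hr 0 (Nat.zero_le _)
    have h3 : s (T.apex a) = s' (T'.apex a') := hs _ _ (L.iso.nxt (L.iso.nxt h0))
    have ih' := ih (a := pvasStep T s a) (a' := pvasStep T' s' a') (fun i hi => by
      have := hr (i + 1) (by omega)
      rwa [pvas_it_succ', pvas_it_succ'] at this) (fun i hi => by
      have := hf (i + 1) (by omega)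
      rwa [pvas_it_succ'] at this)
    by_cases hc : s (T.apex a) = true
    · rw [pvt_s_bank_succ_black N hc, pvt_s_bank_succ_black N (h3 ▸ hc)]
      exact List.Forall₂.cons (pvloc_rot L h0 (hf 0 (Nat.succ_pos _))) ih'
    · rw [pvt_s_bank_succ_white N hc, pvt_s_bank_succ_white N (h3 ▸ hc)]
      exact ih'

open Classical in
/-- **`d` IS A TAG OF THE ARC** of the piece of strand `(a, N)`: the opposite of a dart of the loop erasure of the bank walk (`(pvtArc T s a N).psum w = ∑ w d` over these `d`) -/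
def PvzlArc (T : PvMap V D) (s : V → Bool) (a : D) (N : ℕ) (d : D) : Prop := ∃ f ∈ pvtLE T (pvtBank T s a N), d = T.opp f

theorem pvzl_eqns_cite3 : True := by
  have := @PvzlArc.eq_1
  trivial

theorem pvzl_arc_iff [inst : DecidableEq V] (a : D) (N : ℕ) (d : D) : PvzlArc T s a N d ↔ ∃ f ∈ pvtLE T (pvtBank T s a N), d = T.opp f := by
  unfold PvzlArc
  rw [Subsingleton.elim inst fun a b => Classical.propDecidable (a = b)]

end arc

/-! ## 3b. the predicates of the kit and their locality -/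

section pred

variable {κ : Type} {V D V' D' : Type}

/-- **PLUG**: the gate of record exists -/
def pvzlC (p : PvzlPg κ) : PvplPred κ := fun _ _ T mk s => ∃ g : T.Gate s, PvzlGt T mk s p g

/-- **LINK** from the plug `p` to the plug `p'` in the corridor marked `KE`: the strand which leaves THE gate of `p` at `aOut` runs to the entrance `aIn` of THE gate of `p'`, outside both gates -/
def pvzlA (p p' : PvzlPg κ) (KE : Set κ) : PvplPred κ := fun _ _ T mk s =>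
  ∃ (g g' : T.Gate s) (N : ℕ), PvzlGt T mk s p g ∧ PvzlGt T mk s p' g' ∧ PvzlRun T mk s KE g g' N

/-- **`d` IS A TAG OF THE INNER ARC** of THE gate of the plug `p` -/
def PvzlTi (T : PvMap V D) (mk : V → κ) (s : V → Bool) (p : PvzlPg κ) (d : D) : Prop :=
  ∃ (g : T.Gate s) (N : ℕ), PvzlGt T mk s p g ∧ PvzlThru T mk s p.KT g N ∧ PvzlArc T s g.aIn N d

/-- **`d` IS A TAG OF THE RUN** of the link from `p` to `p'` -/
def PvzlTr (T : PvMap V D) (mk : V → κ) (s : V → Bool) (p p' : PvzlPg κ) (KE : Set κ) (d : D) : Prop :=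
  ∃ (g g' : T.Gate s) (N : ℕ), PvzlGt T mk s p g ∧ PvzlGt T mk s p' g' ∧ PvzlRun T mk s KE g g' N ∧ PvzlArc T s g.aOut N d

/-- the marks of the plug lie in `K` -/
def PvzlPg.Sub (p : PvzlPg κ) (K : Set κ) : Prop := p.KI ⊆ K ∧ p.KO ⊆ K ∧ p.KT ⊆ K

theorem pvzl_eqns_cite : True := by
  have := @pvzlC.eq_1; have := @pvzlA.eq_1; have := @PvzlTi.eq_1; have := @PvzlTr.eq_1; have := @PvzlPg.Sub.eq_1
  trivial

variable {T : PvMap V D} {mk : V → κ} {s : V → Bool} {T' : PvMap V' D'} {mk' : V' → κ} {s' : V' → Bool} {K : Set κ} {R : V → V' → Prop}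

theorem pvzl_C_twin (h : PvplIso T mk s T' mk' s' K R) (hS : T.Simple) (hS' : T'.Simple) {p : PvzlPg κ} (hp : p.Sub K) (hC : pvzlC p V D T mk s) : pvzlC p V' D' T' mk' s' := by
  obtain ⟨g, hg⟩ := hC
  obtain ⟨g', hg', -⟩ := hg.twin h hS hS' hp.1 hp.2.1 hp.2.2
  exact ⟨g', hg'⟩

/-- **[LOC] + [MEAS] of the plug**: the predicate is read at the vertices marked in `K` -/
theorem pvzl_C_local {p : PvzlPg κ} {K : Set κ} (hp : p.Sub K) : (pvzlC p).Local K :=
  fun _ _ _ _ _ _ _ _ _ _ _ hS hS' h => ⟨pvzl_C_twin h hS hS' hp, pvzl_C_twin h.symm hS' hS hp⟩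

theorem pvzl_A_twin (h : PvplIso T mk s T' mk' s' K R) (hS : T.Simple) (hS' : T'.Simple) {p p' : PvzlPg κ} {KE : Set κ} (hp : p.Sub K) (hp' : p'.Sub K) (hE : KE ⊆ K)
    (hA : pvzlA p p' KE V D T mk s) : pvzlA p p' KE V' D' T' mk' s' := by
  obtain ⟨g, g₁, N, hg, hg₁, hr⟩ := hA
  obtain ⟨g', hg', W⟩ := hg.twin h hS hS' hp.1 hp.2.1 hp.2.2
  obtain ⟨g₁', hg₁', W₁⟩ := hg₁.twin h hS hS' hp'.1 hp'.2.1 hp'.2.2
  exact ⟨g', g₁', N, hg', hg₁', (hr.twin h hS hS' hE W W₁).1⟩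

/-- **[LOC] + [MEAS] of the link** -/
theorem pvzl_A_local {p p' : PvzlPg κ} {KE K : Set κ} (hp : p.Sub K) (hp' : p'.Sub K) (hE : KE ⊆ K) : (pvzlA p p' KE).Local K :=
  fun _ _ _ _ _ _ _ _ _ _ _ hS hS' h => ⟨pvzl_A_twin h hS hS' hp hp' hE, pvzl_A_twin h.symm hS' hS hp hp' hE⟩

theorem pvzl_forall₂_mem {Rk : D → D' → Prop} {l : List D} {l' : List D'} (hl : List.Forall₂ Rk l l') {f : D} (hf : f ∈ l) : ∃ f' ∈ l', Rk f f' := by
  induction hl with
  | nil => exact absurd hf (List.not_mem_nil)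
  | @cons a b l l' hab _ ih =>
    rcases List.mem_cons.1 hf with rfl | hf
    · exact ⟨b, List.mem_cons_self, hab⟩
    · obtain ⟨f', h1, h2⟩ := ih hf
      exact ⟨f', List.mem_cons_of_mem _ h1, h2⟩

/-- the tags of the arc of a piece of strand are carried over -/
theorem pvzl_arc_twin (h : PvplIso T mk s T' mk' s' K R) (hS : T.Simple) (hS' : T'.Simple) {a : D} {a' : D'} {N : ℕ}
    (hr : ∀ i, i ≤ N → pvplRK T mk T' K R (pvasIt T s a i) (pvasIt T' s' a' i)) (hK : ∀ i, i ≤ N → mk (T.src (pvasIt T s a i)) ∈ K)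
    {d : D} {d' : D'} (hd : PvplRD T T' R d d') (ha : PvzlArc T s a N d) : PvzlArc T' s' a' N d' := by
  classical
  have L := h.toLoc hS hS'
  obtain ⟨f, hf, rfl⟩ := (pvzl_arc_iff a N d).1 ha
  have hb := pvzl_le L (pvzl_bank L h.loc_col N hr fun i hi => h.full (hK i hi.le))
  obtain ⟨f', hf', hff⟩ := pvzl_forall₂_mem hb hf
  obtain ⟨i, hi, e⟩ := pvt_s_bank_src ((pvt_s_le_sub _).subset hf)
  have ho := pvzl_rk_opp h hS hS' hff (Or.inl (by rw [← e]; exact hK i hi))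
  exact (pvzl_arc_iff a' N d').2 ⟨f', hf', h.rd_fn hS' hd ho.1⟩

theorem pvzl_lay_mark {KS : Set V} {a : D} {N : ℕ} (hN : 1 ≤ N) (hK : T.VOf (pvasFc T s a N) ⊆ KS) (i : ℕ) (hi : i ≤ N) : T.src (pvasIt T s a i) ∈ KS := by
  rw [pvas_fc_verts s a hN] at hK
  exact hK (Or.inl ⟨i, hi, rfl⟩)

/-- **[LOC] + [MEAS] of the mass, inner arcs** -/
theorem pvzl_Ti_twin (h : PvplIso T mk s T' mk' s' K R) (hS : T.Simple) (hS' : T'.Simple) {p : PvzlPg κ} (hp : p.Sub K)
    {d : D} {d' : D'} (hd : PvplRD T T' R d d') (hT : PvzlTi T mk s p d) : PvzlTi T' mk' s' p d' := by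
  obtain ⟨g, N, hg, hN, ha⟩ := hT
  obtain ⟨g', hg', W⟩ := hg.twin h hS hS' hp.1 hp.2.1 hp.2.2
  obtain ⟨hN', hr⟩ := hN.twin h hS hS' hp.2.2 W
  exact ⟨g', N, hg', hN', pvzl_arc_twin h hS hS' hr (fun i hi => hp.2.2 (pvzl_lay_mark hN.1 hN.2.2.2.2 i hi)) hd ha⟩

/-- **[LOC] + [MEAS] of the mass, run** -/
theorem pvzl_Tr_twin (h : PvplIso T mk s T' mk' s' K R) (hS : T.Simple) (hS' : T'.Simple) {p p' : PvzlPg κ} {KE : Set κ} (hp : p.Sub K) (hp' : p'.Sub K) (hE : KE ⊆ K)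
    {d : D} {d' : D'} (hd : PvplRD T T' R d d') (hT : PvzlTr T mk s p p' KE d) : PvzlTr T' mk' s' p p' KE d' := by
  obtain ⟨g, g₁, N, hg, hg₁, hN, ha⟩ := hT
  obtain ⟨g', hg', W⟩ := hg.twin h hS hS' hp.1 hp.2.1 hp.2.2
  obtain ⟨g₁', hg₁', W₁⟩ := hg₁.twin h hS hS' hp'.1 hp'.2.1 hp'.2.2
  obtain ⟨hN', hr⟩ := hN.twin h hS hS' hE W W₁
  exact ⟨g', g₁', N, hg', hg₁', hN', pvzl_arc_twin h hS hS' hr (fun i hi => hE (pvzl_lay_mark hN.1 hN.2.2.2 i hi).1) hd ha⟩

/-- a tag of an arc lies in a face crossed by the piece of strand -/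
theorem pvzl_arc_fc {a : D} {N : ℕ} {d : D} (ha : PvzlArc T s a N d) : d ∈ pvasFc T s a N := by
  classical
  obtain ⟨f, hf, rfl⟩ := (pvzl_arc_iff a N d).1 ha
  obtain ⟨i, hi, -, e⟩ := pvt_s_bank_mem.1 ((pvt_s_le_sub _).subset hf)
  refine ⟨i, hi, Or.inr (Or.inr ?_)⟩
  rw [e]
  exact T.opp_opp _

end pred

/-! ## 4. THE gate of record is unique (the runs of two consecutive links meet at the same darts) -/

section uniq

variable {κ : Type} {V D : Type} {T : PvMap V D} {mk : V → κ} {s : V → Bool}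

theorem pvzl_darts_iff (hT : T.IsSph) (c : T.Cyc) (d : D) : d ∈ c.darts ↔ d ∈ c.Left ∧ T.opp d ∉ c.Left := by
  obtain ⟨hR, h1, h2, -⟩ := pl_jordan hT c
  constructor
  · rintro ⟨i, rfl⟩
    refine ⟨h1 i, fun h => ?_⟩
    have := h2 i
    rw [hR] at this
    exact this h
  · rintro ⟨h3, h4⟩
    exact pl_rc_dart hT h3 h4

/-- two circuits with the same inside and the same first vertex are the same sequence of darts -/
theorem pvzl_cyc_unique (hT : T.IsSph) {c c₂ : T.Cyc} (hL : c.Left = c₂.Left) (h0 : T.src (c.e 0) = T.src (c₂.e 0)) : (∀ k, c.e k = c₂.e k) ∧ c.n = c₂.n := by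
  have hd : ∀ d, d ∈ c.darts ↔ d ∈ c₂.darts := fun d => by rw [pvzl_darts_iff hT, pvzl_darts_iff hT, hL]
  have he : ∀ k, c.e k = c₂.e k := by
    intro k
    induction k with
    | zero =>
      obtain ⟨j, hj⟩ := (hd (c.e 0)).1 ⟨0, rfl⟩
      rw [← hj]
      exact pl_cyc_eq_of_src c₂ (by rw [hj]; exact h0)
    | succ k ih =>
      obtain ⟨j, hj⟩ := (hd (c.e (k + 1))).1 ⟨k + 1, rfl⟩
      rw [← hj]
      refine pl_cyc_eq_of_src c₂ ?_
      rw [hj, ← c.chain, ih, c₂.chain]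
  refine ⟨he, ?_⟩
  have key : ∀ {a b : T.Cyc}, (∀ k, a.e k = b.e k) → b.n ∣ a.n := by
    intro a b hab
    have h1 : b.e (0 + a.n) = b.e 0 := by rw [← hab, ← hab, a.per]
    have h2 := pl_cyc_src_inj b (congrArg T.src h1)
    rw [Nat.zero_add, Nat.zero_mod] at h2
    exact Nat.dvd_of_mod_eq_zero h2
  exact Nat.dvd_antisymm (key fun k => (he k).symm) (key he)

/-- **UNIQUENESS OF THE GATE OF RECORD** -/
theorem PvzlGt.unique (hT : T.IsSph) {p : PvzlPg κ} (hdis : Disjoint p.Km p.Kp) {g g₂ : T.Gate s} (h : PvzlGt T mk s p g) (h₂ : PvzlGt T mk s p g₂) :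
    (∀ k, g.c.e k = g₂.c.e k) ∧ g.c.n = g₂.c.n ∧ g.m = g₂.m := by
  have hL : g.c.Left = g₂.c.Left := Subset.antisymm (h.least.least g₂ h₂.least.reg) (h₂.least.least g h.least.reg)
  have hd : ∀ d, d ∈ g.c.darts ↔ d ∈ g₂.c.darts := fun d => by rw [pvzl_darts_iff hT, pvzl_darts_iff hT, hL]
  have h0 : T.src (g.c.e 0) = T.src (g₂.c.e 0) := by
    obtain ⟨j, hj⟩ := (hd (g.c.e 0)).1 ⟨0, rfl⟩
    have hj' : g₂.c.e (j % g₂.c.n) = g.c.e 0 := by rw [pl_cyc_mod]; exact hj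
    have hb : s (T.src (g₂.c.e (j % g₂.c.n))) = true := by
      rw [hj']
      exact (g.col 0 (pl_cyc_pos g.c)).2 (Or.inl rfl)
    rcases (g₂.col _ (Nat.mod_lt _ (pl_cyc_pos g₂.c))).1 hb with e | e
    · rw [← hj', e]
    · exfalso
      rw [e] at hj'
      have h1 : mk (T.src (g.c.e 0)) ∈ p.Kp := by rw [← hj']; exact h₂.vp
      exact Set.disjoint_left.1 hdis h.vm h1
  obtain ⟨he, hn⟩ := pvzl_cyc_unique hT hL h0
  refine ⟨he, hn, ?_⟩
  have hb : s (T.src (g₂.c.e g.m)) = true := by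
    rw [← he]
    exact (g.col g.m (by have := g.hmn; omega)).2 (Or.inr rfl)
  rcases (g₂.col g.m (by have := g.hmn; omega)).1 hb with e | e
  · have := g.hm
    omega
  · exact e

/-- the four occupied edges of THE gate -/
theorem PvzlGt.unique_darts (hT : T.IsSph) {p : PvzlPg κ} (hdis : Disjoint p.Km p.Kp) {g g₂ : T.Gate s} (h : PvzlGt T mk s p g) (h₂ : PvzlGt T mk s p g₂) :
    g.aIn = g₂.aIn ∧ g.aOut = g₂.aOut ∧ g.bIn = g₂.bIn ∧ g.bOut = g₂.bOut := by
  obtain ⟨he, hn, hm⟩ := h.unique hT hdis h₂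
  refine ⟨he 0, ?_, ?_, ?_⟩
  · show T.opp (g.c.e (g.m - 1)) = T.opp (g₂.c.e (g₂.m - 1))
    rw [he, hm]
  · show g.c.e g.m = g₂.c.e g₂.m
    rw [he, hm]
  · show T.opp (g.c.e (g.c.n - 1)) = T.opp (g₂.c.e (g₂.c.n - 1))
    rw [he, hn]

end uniq

end Claimed.Agent.R289
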