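import Claimed.Agent.R289.Tr.GateN
import Claimed.Agent.R289.Tr.GateFs
import Claimed.Agent.R289.Tr.PlugLoc
import Claimed.Agent.R289.Tr.LaneDet

/-!
# Row 289 (S0537, Cardy for Poisson-Voronoi), THE WALL, [ADM] block D, file Tr/AdmMin : FROM AN EXPLICIT GATE TO THE GATE OF RECORD      (helper259; prefix `pvzt_`)      0 sorry

Target: `exit_pvkd_adm` of `Tr/PlugK` (34).   The gate of record `PvzlGt` (173) is the LEAST gate of the annulus; rope A (127, 140) builds an EXPLICIT gate `g₀`.   This file transfers everything from `g₀` to the least gate `g`.   MODEL FREE: no positions, no `PlGeo`, no orientation argument for `g`.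
* sec. 1  `pvzt_le_dart`     the position of a strand at the last visit of a vertex of the loop erasure of its black bank is `nxt (opp (y.e k))`
* sec. 2  `pvzt_nested`      (variant of `pl_cc_nested`: common far face),  **`pvzt_L_off`** : the left arc of the inner gate is not on the right of the inner path of the outer gate,  `pvzt_wbank_right`
* sec. 3  **`pvzt_sub`**     SUB-STRAND (hypotheses of `pvgz_nest_aux` of 260): `g.Thru`, `g.aIn = It g₀.aIn τ`, `τ + g.len ≤ g₀.len`, and the strand of `g₀` is in `g.c.Left` exactly at the times `τ ≤ t < τ + g.len`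
* sec. 4  `pvzt_lane_pth`, **`pvzt_hull`** : West lane + passage of `g₀` + East lane = `PvgfsWalk` (190) ⟹ the gate of the hull (150) has its black vertices on the passage
* sec. 5  `pvzt_chain`, `pvzt_chain_back` (a chain in `BW ∪ BE` keeps its side),  `pvztFoot` (`= pvkdFoot`, by `rfl`)
* sec. 6  **`pvzt_record`** = BLOCK D: `g₀` between the discs + `g₀.Thru` + banks of `g₀` marked `KT` and in `BW | KI | BE` + four half lanes from the feet of `g₀`   ⟹   `∃ g, PvzlGt T mk s p g` + four half lanes from the feet of `g`.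
-/

set_option autoImplicit false

namespace Claimed.Agent.R289

open Relation Set

variable {V D : Type} {T : PvMap V D} {s : V → Bool}

/-! ## 1. the strand of a gate and its inner path -/

/-- the position of the strand at the last visit of the vertex number `k` of the loop erasure of its black bank -/
theorem pvzt_le_dart (hS : T.Simple) {a : D} {n : ℕ} {y : T.Pth} (h : PvwLE T (fun i => T.src (pvasIt T s a i)) n y) {k : ℕ} (hk : k < y.n) :
    ∃ t, t < n ∧ pvasIt T s a t = T.nxt (T.opp (y.e k)) := by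
  obtain ⟨j, -, hjn, h1, h2⟩ := h
  obtain ⟨a1, a2', -⟩ := h1 k hk.le
  have a2 : y.v k = T.src (pvasIt T s a (j k)) := a2'
  have a4 : y.v (k + 1) = T.src (pvasIt T s a (j k + 1)) := h2 k hk
  have hne : y.v (k + 1) ≠ y.v k := fun e => by
    have := y.inj _ _ (by omega) (by omega) e
    omega
  have hlt : j k < n := by
    rcases Nat.lt_or_ge (j k) n with h | h
    · exact h
    · exfalso
      have e : j k = n := le_antisymm a1 h
      have b2 : y.v y.n = T.src (pvasIt T s a (j y.n)) := (h1 y.n le_rfl).2.1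
      rw [hjn] at b2
      rw [e] at a2
      have := y.inj _ _ hk.le le_rfl (a2.trans b2.symm)
      omega
  refine ⟨j k, hlt, ?_⟩
  have e1 : T.src (pvasIt T s a (j k)) = y.v k := a2.symm
  have e2 : T.src (pvasStep T s (pvasIt T s a (j k))) = y.v (k + 1) := by rw [a4, pvas_it_succ]
  rcases pvas_step_ends s (pvasIt T s a (j k)) with ⟨-, e, -⟩ | ⟨-, e, -⟩
  · have e3 : T.nxt (T.nxt (pvasIt T s a (j k))) = T.opp (y.e k) := by
      apply hS
      · rw [T.src_nxt2, ← e, e2, T.src_opp', y.tgt_e k hk]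
      · rw [T.tgt_nxt2, e1, T.tgt_opp, y.src_e k hk]
    rw [← e3, T.nxt3]
  · exact absurd (e2.symm.trans (e.trans e1)) hne

/-! ## 2. nested gates: the left arc of the inner gate is not on the right of the inner path of the outer gate -/

/-- a cycle drawn in the closed disc of `c`, with a common outer face, has its left side inside `c.Left`      (variant of `pl_cc_nested`) -/
theorem pvzt_nested (hT : T.IsSph) (c c' : T.Cyc) (h : ∀ i, c'.e i ∈ c.Left ∨ T.opp (c'.e i) ∈ c.Left) {o : D} (ho : o ∈ c.Right) (ho' : o ∈ c'.Right) :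
    c'.Left ⊆ c.Left := by
  obtain ⟨hR, -, -, -⟩ := pl_jordan hT c
  obtain ⟨hR', -, -, -⟩ := pl_jordan hT c'
  have key : ∀ d, d ∈ c.Right → T.DJoin c'.darts (T.opp (c.e 0)) d := by
    intro d hd
    induction hd with
    | refl => exact ReflTransGen.refl
    | @tail b _ hab hstep ih =>
      rcases hstep with rfl | ⟨rfl, hne⟩
      · exact ReflTransGen.tail ih (Or.inl rfl)
      · refine ReflTransGen.tail ih (Or.inr ⟨rfl, ?_⟩)
        intro hE
        have hb : b ∈ c.Right := hab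
        have hb' : T.opp b ∈ c.Right := ReflTransGen.tail hab (Or.inr ⟨rfl, hne⟩)
        rw [hR] at hb hb'
        rcases hE with ⟨m, rfl⟩ | ⟨m, hm⟩
        · rcases h m with h1 | h1
          · exact hb h1
          · exact hb' h1
        · rcases h m with h1 | h1
          · rw [hm] at h1; exact hb' h1
          · rw [hm, T.opp_opp] at h1; exact hb h1
  have h2 : c.Right ⊆ c'.Right := by
    intro d hd
    have h4 : T.DJoin c'.darts (T.opp (c'.e 0)) o := ho'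
    exact (h4.trans (T.djoin_symm (key o ho))).trans (key d hd)
  intro d hd
  by_contra hn
  have h5 : d ∈ c.Right := by rw [hR]; exact hn
  have h6 := h2 h5
  rw [hR'] at h6
  exact h6 hd

/-- **the first vertex of the left arc of the inner gate is not on the right of the inner path of the outer gate** -/
theorem pvzt_L_off (hT : T.IsSph) (g g₀ : T.Gate s) (hL : g.c.Left ⊆ g₀.c.Left) {o : D} (ho : o ∉ g₀.c.Left) {p : T.Pth} (hp : g₀.IsInn p) {i j : ℕ} (hij : i + 1 < j)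
    (hj : j ≤ p.n) (h0 : p.v i = g.vm) (h1 : p.v j = g.vp) (hin : ∀ m, i < m → m < j → p.v m ∈ T.Int g.c.Left) :
    T.tgt g.bIn ∉ T.VOf (g₀.c.cutR (pvgz_psg_cut g₀ hp.1)).Left := by
  intro hb
  obtain ⟨hinn, hlad⟩ := pvgz_nest_aux hT g g₀ hL hp hij hj h0 h1 hin
  have hc := pvgz_psg_cut g₀ hp.1
  have hanc : T.tgt g₀.aIn ∈ T.VOf (g₀.c.cutR (pvgz_psg_cut g₀ hp.1)).Left := by
    refine ⟨(g₀.c.cutR (pvgz_psg_cut g₀ hp.1)).e 1, (pl_jordan hT _).2.1 1, ?_⟩
    rw [(pl_cc_cutR_e (pvgz_psg_cut g₀ hp.1)).2.1 1 (by have := g₀.hm; omega), pvtg_aIn_tgt]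
  have hR : ∀ r ∈ g.R, r ∈ T.VOf (g₀.c.cutR (pvgz_psg_cut g₀ hp.1)).Left := fun r hr =>
    pvgz_stay hT g₀ hp.1 (X := {v | s v = false}) (fun _ hv => hv) hanc (pl_hx_join_symm (hlad r hr _ (pvtg_aIn_tgt_R g₀)))
  have hLL : ∀ l ∈ g.L, l ∈ T.VOf (g₀.c.cutR (pvgz_psg_cut g₀ hp.1)).Left := fun l hl => by
    have h1 : T.Join g.swap.c.Left {x | s x = false} (T.tgt g.bIn) l :=
      pvgz_rib hT g.swap (by rw [pvgz_swap_R]; exact pvtg_bIn_tgt_L g) (by rw [pvgz_swap_R]; exact hl)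
    rw [pvgz_swap_left hT] at h1
    exact pvgz_stay hT g₀ hp.1 (X := {v | s v = false}) (fun _ hv => hv) hb (pvtg_join_mono hL h1)
  have hW : ∀ w ∈ g.c.verts, s w = false → w ∈ T.VOf (g₀.c.cutR (pvgz_psg_cut g₀ hp.1)).Left := by
    intro w hw hs
    rcases (pvtg_verts g w).1 hw with rfl | rfl | h | h
    · rw [pvtg_vm g] at hs; exact absurd hs (by simp)
    · rw [pvtg_vp g] at hs; exact absurd hs (by simp)
    · exact hR w h
    · exact hLL w h
  have hd : ∀ k, g.c.e k ∈ (g₀.c.cutR (pvgz_psg_cut g₀ hp.1)).Left := by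
    intro k
    have hk : g.c.e k ∈ g₀.c.Left := hL ((pl_jordan hT g.c).2.1 k)
    rw [← (pl_cc_left hT (pvgz_psg_cut g₀ hp.1)).1] at hk
    rcases hk with hk | hk
    · exfalso
      have hbad : ∀ w ∈ g.c.verts, s w = false → w ∉ T.VOf (g₀.c.cutL (pvgz_psg_cut g₀ hp.1)).Left := by
        intro w hw hs hwL
        have h2 : w ∈ p.verts := by
          rw [← pl_cc_VOf_inter hT (pvgz_psg_cut g₀ hp.1)]
          exact ⟨hwL, hW w hw hs⟩
        obtain ⟨m, hm, rfl⟩ := h2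
        rw [hp.1.bl m hm] at hs
        exact absurd hs (by simp)
      have hnobb := (pvgn_of_gate (I := g.c.Left) (O := g.c.Left) hT g le_rfl le_rfl).nobb (g.c.e k) (((pl_jordan hT g.c).2.2.2 _).2 (Or.inl ⟨k, rfl⟩))
      by_cases hs : s (T.src (g.c.e k)) = true
      · have ht : s (T.tgt (g.c.e k)) = false := by
          cases h : s (T.tgt (g.c.e k))
          · rfl
          · exact absurd ⟨hs, h⟩ hnobb
        refine hbad _ ⟨k + 1, (g.c.chain k).symm⟩ ht ⟨T.nxt (g.c.e k), ((pl_left_face _) _).2 hk, T.src_nxt _⟩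
      · exact hbad _ ⟨k, rfl⟩ (by simpa using hs) ⟨g.c.e k, hk, rfl⟩
    · exact hk
  have hsub : g.c.Left ⊆ (g₀.c.cutR (pvgz_psg_cut g₀ hp.1)).Left := by
    refine pvzt_nested hT _ g.c (fun k => Or.inl (hd k)) (o := o) ?_ ?_
    · rw [(pl_jordan hT _).1]
      exact fun h => ho ((pl_cc_sub hT (pvgz_psg_cut g₀ hp.1)).2.1 h)
    · rw [(pl_jordan hT _).1]
      exact fun h => ho (hL h)
  have hn : (p.seg i j).n = j - i := by
    show min j p.n - i = j - i
    rw [Nat.min_eq_left hj]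
  have e1 : p.e i ∈ g.c.Left := (hinn.1.ins 0 (by rw [hn]; omega)).1
  have e2 : p.e i ∈ (g₀.c.cutL (pvgz_psg_cut g₀ hp.1)).Left := (pl_cc_side hT (pvgz_psg_cut g₀ hp.1) (k := i) (by omega)).1
  exact Set.disjoint_left.1 (pl_cc_left hT (pvgz_psg_cut g₀ hp.1)).2 e2 (hsub e1)

/-- the white bank of the inner strand lies on the right of the inner path -/
theorem pvzt_wbank_right (hT : T.IsSph) (g₀ : T.Gate s) (hfin : g₀.c.Left.Finite) {p : T.Pth} (hp : g₀.Psg p) {u : ℕ} (hu : u ≤ g₀.len) :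
    T.tgt (pvasIt T s g₀.aIn u) ∈ T.VOf (g₀.c.cutR (pvgz_psg_cut g₀ hp)).Left := by
  have hanc : T.tgt g₀.aIn ∈ T.VOf (g₀.c.cutR (pvgz_psg_cut g₀ hp)).Left := by
    refine ⟨(g₀.c.cutR (pvgz_psg_cut g₀ hp)).e 1, (pl_jordan hT _).2.1 1, ?_⟩
    rw [(pl_cc_cutR_e (pvgz_psg_cut g₀ hp)).2.1 1 (by have := g₀.hm; omega), pvtg_aIn_tgt]
  obtain ⟨-, m2, -⟩ := pvtg_len hT g₀ hfin
  have hj := pvtg_join_mono (pvas_fc_sub (pl_left_face g₀.c) m2) (pvas_layW_join (T := T) s g₀.aIn hu)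
  exact pvgz_stay hT g₀ hp (fun v hv => pvas_layW_white (pvtg_aIn_bw g₀) hv) hanc hj

/-! ## 3. the strand of the inner gate is a piece of the strand of the outer gate, its only visit to the inner gate -/

/-- **SUB-STRAND** -/
theorem pvzt_sub (hT : T.IsSph) (hS : T.Simple) (g g₀ : T.Gate s) (hL : g.c.Left ⊆ g₀.c.Left) (hfin : g₀.c.Left.Finite) {o : D} (ho : o ∉ g₀.c.Left) {p : T.Pth} (hp : g₀.IsInn p)
    {i j : ℕ} (hij : i + 1 < j) (hj : j ≤ p.n) (h0 : p.v i = g.vm) (h1 : p.v j = g.vp) (hin : ∀ m, i < m → m < j → p.v m ∈ T.Int g.c.Left) :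
    g.Thru ∧ ∃ τ, τ + g.len ≤ g₀.len ∧ (∀ t, pvasIt T s g.aIn t = pvasIt T s g₀.aIn (τ + t)) ∧
      ∀ t, t ≤ g₀.len → pvasIt T s g₀.aIn t ∈ g.c.Left → τ ≤ t ∧ t < τ + g.len := by
  have hfin' : g.c.Left.Finite := hfin.subset hL
  obtain ⟨hinn, -⟩ := pvgz_nest_aux hT g g₀ hL hp hij hj h0 h1 hin
  have hthru : g.Thru := pvgz_thru_of_psg hT g hfin' hinn.1
  have hn : (p.seg i j).n = j - i := by
    show min j p.n - i = j - i
    rw [Nat.min_eq_left hj]
  obtain ⟨t0, ht0, e0⟩ := pvzt_le_dart hS (pvgz_inn_le hT hS g₀ hfin hp) (k := i) (by omega)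
  obtain ⟨t1, ht1, e1⟩ := pvzt_le_dart hS (pvgz_inn_le hT hS g hfin' hinn) (k := 0) (by rw [hn]; omega)
  have e1' : pvasIt T s g.aIn t1 = pvasIt T s g₀.aIn t0 := by rw [e1, e0]; rfl
  obtain ⟨l1, l2, l3⟩ := pvtg_len hT g hfin'
  obtain ⟨m1, m2, m3⟩ := pvtg_len hT g₀ hfin
  have bw := pvtg_aIn_bw g
  have bw0 := pvtg_aIn_bw g₀
  have hin0 : pvasIn T g₀.c.Left s g₀.aIn := (pvtg_in_iff hT g₀ _).2 (Or.inl rfl)
  have hing : pvasIn T g.c.Left s g.aIn := (pvtg_in_iff hT g _).2 (Or.inl rfl)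
  have hout0 : pvasIt T s g₀.aIn g₀.len ∉ g₀.c.Left := by rw [m3]; exact (pvas_exit_spec (pl_left_face g₀.c) hfin hin0).2.2.1
  have houtg : pvasIt T s g.aIn g.len ∉ g.c.Left := by rw [l3]; exact (pvas_exit_spec (pl_left_face g.c) hfin' hing).2.2.1
  have hle : t1 ≤ t0 := by
    by_contra hlt
    have e2 : pvasIt T s (pvasIt T s g.aIn (t1 - t0)) t0 = pvasIt T s g₀.aIn t0 := by
      rw [← pvas_it_add, show t1 - t0 + t0 = t1 by omega, e1']
    have e3 := pvas_it_cancel (pvas_it_bw bw _) bw0 t0 e2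
    have := pvas_in_first (pl_left_face g₀.c) hin0 e3 (fun k hk => hL (l2 k (by omega)))
    omega
  have eτ : pvasIt T s g₀.aIn (t0 - t1) = g.aIn := by
    have e2 : pvasIt T s (pvasIt T s g₀.aIn (t0 - t1)) t1 = pvasIt T s g.aIn t1 := by
      rw [← pvas_it_add, show t0 - t1 + t1 = t0 by omega, e1']
    exact pvas_it_cancel (pvas_it_bw bw0 _) bw t1 e2
  have hall : ∀ t, pvasIt T s g.aIn t = pvasIt T s g₀.aIn (t0 - t1 + t) := fun t => by rw [pvas_it_add, eτ]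
  have hlen : t0 - t1 + g.len ≤ g₀.len := by
    by_contra hlt
    apply hout0
    have := hall (g₀.len - (t0 - t1))
    rw [show t0 - t1 + (g₀.len - (t0 - t1)) = g₀.len by omega] at this
    rw [← this]
    exact hL (l2 _ (by omega))
  refine ⟨hthru, t0 - t1, hlen, hall, fun t ht hmem => ?_⟩
  obtain ⟨u, hu0, hu1, hu2⟩ := pvgz_last_before (fun m => 1 ≤ m ∧ pvasIt T s g₀.aIn (m - 1) ∈ g.c.Left) (t + 1) (by simp) ⟨by omega, hmem⟩
  have hrun : ∀ v, u ≤ v → v ≤ t → pvasIt T s g₀.aIn v ∈ g.c.Left := fun v h1 h2 => (hu2 (v + 1) (by omega) (by omega)).2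
  have hinu : pvasIn T g.c.Left s (pvasIt T s g₀.aIn u) := by
    refine ⟨hrun u le_rfl (by omega), ?_, pvas_it_bw bw0 u⟩
    rcases Nat.eq_zero_or_pos u with rfl | hpos
    · exact fun h => hin0.2.1 (hL h)
    · obtain ⟨w, rfl⟩ : ∃ w, u = w + 1 := ⟨u - 1, by omega⟩
      rw [pvas_it_succ, pvas_step_opp_mem (pl_left_face g.c)]
      exact fun h => hu1 ⟨by omega, h⟩
  have hult : u < g₀.len := by
    rcases Nat.lt_or_ge u g₀.len with h | h
    · exact h
    · have : u = g₀.len := by omega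
      exact absurd (hL (this ▸ hinu.1)) hout0
  rcases (pvtg_in_iff hT g _).1 hinu with e | e
  · have hu : u = t0 - t1 := pvgz_strand_inj hT g₀ hfin u (t0 - t1) hult (by omega) (e.trans eτ.symm)
    refine ⟨by omega, ?_⟩
    by_contra hge
    apply houtg
    rw [hall]
    exact hrun _ (by omega) (by omega)
  · exfalso
    apply pvzt_L_off hT g g₀ hL ho hp hij hj h0 h1 hin
    rw [← e]
    exact pvzt_wbank_right hT g₀ hfin hp.1 hult.le

/-! ## 4. the black walk through the explicit gate, the gate of the hull -/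

theorem pvzt_VOf_not_right (hT : T.IsSph) (c : T.Cyc) {v : V} (h : v ∈ T.VOf c.Left) : v ∉ T.Int c.Right := by
  obtain ⟨d, hd, rfl⟩ := h
  intro h'
  have := h' d rfl
  rw [(pl_jordan hT c).1] at this
  exact this hd

/-- a black lane from a black vertex of a gate to a vertex strictly outside contains a simple path which is strictly outside but for its first vertex -/
theorem pvzt_lane_pth (hT : T.IsSph) (g₀ : T.Gate s) {X : Set V} (hX : ∀ v ∈ X, s v = true) {a b v : V} (hab : (a = g₀.vm ∧ b = g₀.vp) ∨ (a = g₀.vp ∧ b = g₀.vm)) (hb : b ∉ X)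
    (hv : v ∈ T.Int g₀.c.Right) (h : T.Join univ X a v) :
    ∃ q : T.Pth, q.v 0 = a ∧ q.v q.n = v ∧ q.verts ⊆ X ∧ 0 < q.n ∧ ∀ k, 0 < k → k ≤ q.n → q.v k ∈ T.Int g₀.c.Right := by
  have : Nonempty D := ⟨g₀.c.e 0⟩
  obtain ⟨q, q0, q1, qX, -⟩ := pl_pth_of_join h
  have haL : a ∈ T.VOf g₀.c.Left := by
    rcases hab with ⟨rfl, -⟩ | ⟨rfl, -⟩
    · exact ⟨g₀.c.e 0, (pl_jordan hT g₀.c).2.1 0, rfl⟩
    · exact ⟨g₀.c.e g₀.m, (pl_jordan hT g₀.c).2.1 _, rfl⟩
  have hpos : 0 < q.n := by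
    rcases Nat.eq_zero_or_pos q.n with h0 | h0
    · rw [h0, q0] at q1
      exact absurd (q1 ▸ hv) (pvzt_VOf_not_right hT g₀.c haL)
    · exact h0
  refine ⟨q, q0, q1, qX, hpos, ?_⟩
  set X' : Set V := {x | ∃ k, 0 < k ∧ k ≤ q.n ∧ q.v k = x} with hX'
  have ha' : a ∉ X' := by
    rintro ⟨k, k0, k1, e⟩
    have := q.inj _ _ k1 (Nat.zero_le _) (e.trans q0.symm)
    omega
  have hb' : b ∉ X' := by
    rintro ⟨k, -, k1, e⟩
    exact hb (e ▸ qX ⟨k, k1, rfl⟩)
  have hm' : g₀.vm ∉ X' ∧ g₀.vp ∉ X' := by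
    rcases hab with ⟨rfl, rfl⟩ | ⟨rfl, rfl⟩
    · exact ⟨ha', hb'⟩
    · exact ⟨hb', ha'⟩
  have hwalk : ∀ m k, k + m = q.n → 0 < k → ReflTransGen (fun u v => T.Adj u v ∧ v ∈ X') (q.v q.n) (q.v k) := by
    intro m
    induction m with
    | zero =>
      intro k hk _
      have : k = q.n := by omega
      rw [this]
    | succ m ih =>
      intro k hk k0
      refine (ih (k + 1) (by omega) (by omega)).tail ⟨T.adj_symm ⟨q.e k, q.src_e k (by omega), q.tgt_e k (by omega)⟩, k, k0, by omega, rfl⟩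
  intro k k0 k1
  exact pvtg_sep_out hT g₀ (X := X') (by rintro x ⟨l, -, l1, rfl⟩; exact hX _ (qX ⟨l, l1, rfl⟩)) hm'.1 hm'.2 (q1 ▸ hv) (hwalk (q.n - k) k (by omega) k0)

/-- **THE GATE OF THE HULL**: West lane + a passage of the explicit gate + East lane = a black walk through the annulus; the gate of the hull has its two black vertices on the passage -/
theorem pvzt_hull (hT : T.IsSph) (hS : T.Simple) {I O : Set D} {o : D} (hF : PvgnFr T I O o) (g₀ : T.Gate s) (h1 : I ⊆ g₀.c.Left) (h2 : g₀.c.Left ⊆ O) {p qW qE : T.Pth} (hp : g₀.Psg p)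
    (W0 : qW.v 0 = g₀.vm) (Wb : ∀ k, k ≤ qW.n → s (qW.v k) = true) (Wo : ∀ k, 0 < k → k ≤ qW.n → qW.v k ∈ T.Int g₀.c.Right) (Wf : qW.v qW.n ∈ T.Int Oᶜ) (Wp : 0 < qW.n)
    (E0 : qE.v 0 = g₀.vp) (Eb : ∀ k, k ≤ qE.n → s (qE.v k) = true) (Eo : ∀ k, 0 < k → k ≤ qE.n → qE.v k ∈ T.Int g₀.c.Right) (Ef : qE.v qE.n ∈ T.Int Oᶜ)
    (hWE : ∀ k l, 0 < k → k ≤ qW.n → 0 < l → l ≤ qE.n → qW.v k ≠ qE.v l) {m : ℕ} (hm : m ≤ p.n) (hmid : p.v m ∈ T.Int I) :
    ∃ (g : T.Gate s) (i j : ℕ), g.c.Left = pvgnHull T s I O o ∧ I ⊆ g.c.Left ∧ g.c.Left ⊆ O ∧ g.c.Left ⊆ g₀.c.Left ∧ i < m ∧ m < j ∧ j ≤ p.n ∧ p.v i = g.vm ∧ p.v j = g.vp ∧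
      ∀ t, i < t → t < j → p.v t ∈ T.Int g.c.Left := by
  have hpL : ∀ k, k ≤ p.n → p.v k ∈ T.VOf g₀.c.Left := fun k hk => pvgz_psg_mem hT g₀ hp hk
  have A1 : qW.rev.App p := by
    refine ⟨?_, ?_⟩
    · show qW.v (qW.n - qW.n) = p.v 0
      rw [Nat.sub_self, W0, hp.h0]
    · intro a b ha hb e
      have ha' : a ≤ qW.n := ha
      have e' : qW.v (qW.n - a) = p.v b := e
      by_cases h : a = qW.n
      · refine ⟨h, ?_⟩
        rw [h, Nat.sub_self, W0, ← hp.h0] at e'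
        exact (p.inj _ _ (Nat.zero_le _) hb e').symm
      · exact absurd (e' ▸ Wo (qW.n - a) (by omega) (by omega)) (pvzt_VOf_not_right hT g₀.c (hpL b hb))
  have n1 : (qW.rev.app p A1).n = qW.n + p.n := rfl
  have v1 : ∀ k, k ≤ qW.n → (qW.rev.app p A1).v k = qW.v (qW.n - k) := fun k hk => pvt_c_app_v1 _ _ A1 hk
  have v2 : ∀ k, (qW.rev.app p A1).v (qW.n + k) = p.v k := fun k => pvt_c_app_v2 _ _ A1 k
  have A2 : (qW.rev.app p A1).App qE := by
    refine ⟨?_, ?_⟩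
    · rw [pvt_c_app_vn, hp.h1, E0]
    · intro a b ha hb e
      rw [n1] at ha
      rcases Nat.eq_zero_or_pos b with rfl | hb0
      · refine ⟨?_, rfl⟩
        have e2 : (qW.rev.app p A1).v a = (qW.rev.app p A1).v (qW.rev.app p A1).n := by rw [e, pvt_c_app_vn, hp.h1, E0]
        exact (qW.rev.app p A1).inj _ _ (by rw [n1]; exact ha) le_rfl e2
      · exfalso
        rcases Nat.lt_or_ge a qW.n with h | h
        · rw [v1 a h.le] at e
          exact hWE _ _ (by omega) (by omega) hb0 hb e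
        · obtain ⟨k, rfl⟩ := Nat.exists_eq_add_of_le h
          rw [v2] at e
          exact pvzt_VOf_not_right hT g₀.c (hpL k (by omega)) (e ▸ Eo b hb0 hb)
  set P := (qW.rev.app p A1).app qE A2 with hP
  have Pn : P.n = qW.n + p.n + qE.n := rfl
  have PvW : ∀ k, k ≤ qW.n → P.v k = qW.v (qW.n - k) := fun k hk => by
    rw [hP, pvt_c_app_v1 _ _ A2 (by rw [n1]; omega), v1 k hk]
  have Pvp : ∀ k, k ≤ p.n → P.v (qW.n + k) = p.v k := fun k hk => by
    rw [hP, pvt_c_app_v1 _ _ A2 (by rw [n1]; omega), v2 k]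
  have PvE : ∀ k, P.v (qW.n + p.n + k) = qE.v k := fun k => pvt_c_app_v2 _ _ A2 k
  have hbl : ∀ k, k ≤ P.n → s (P.v k) = true := by
    intro k hk
    rcases Nat.lt_or_ge k qW.n with h | h
    · rw [PvW k h.le]; exact Wb _ (by omega)
    · obtain ⟨l, rfl⟩ := Nat.exists_eq_add_of_le h
      rcases Nat.lt_or_ge l p.n with h' | h'
      · rw [Pvp l h'.le]; exact hp.bl l h'.le
      · obtain ⟨r, rfl⟩ := Nat.exists_eq_add_of_le h'
        rw [← Nat.add_assoc, PvE]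
        exact Eb r (by omega)
  have hW : PvgfsWalk T s I O P.v P.n (qW.n + m) :=
    { adj := fun k hk => ⟨P.e k, P.src_e k hk, P.tgt_e k hk⟩
      black := hbl
      inj := fun k l hk hl e => P.inj k l hk.le hl.le e
      st := by rw [PvW 0 (Nat.zero_le _), Nat.sub_zero]; exact Wf
      en := by rw [Pn, PvE]; exact Ef
      le := by omega
      mid := by rw [Pvp m hm]; exact hmid }
  obtain ⟨g, k, k', gL, gI, gO, -, k0, k1, k2, k3, gm, gp⟩ := pvgfs_gate hT hS hF ⟨g₀.c.Left, pvgn_of_gate hT g₀ h1 h2⟩ hW (by omega)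
  have hsub : g.c.Left ⊆ g₀.c.Left := gL ▸ pvgn_innermost hT hF g₀ h1 h2
  have hkW : qW.n ≤ k := by
    by_contra h
    have h3 : P.v k ∈ T.Int g₀.c.Right := by rw [PvW k (by omega)]; exact Wo _ (by omega) (by omega)
    exact pvzt_VOf_not_right hT g₀.c (pvgn_VOf_mono hsub (pvgz_vm_mem hT g)) (gm ▸ h3)
  have hkE : k' ≤ qW.n + p.n := by
    by_contra h
    obtain ⟨l, rfl⟩ := Nat.exists_eq_add_of_le (show qW.n + p.n ≤ k' by omega)
    have h3 : P.v (qW.n + p.n + l) ∈ T.Int g₀.c.Right := by rw [PvE]; exact Eo _ (by omega) (by omega)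
    have h4 : g.vp ∈ T.VOf g.c.Left := ⟨g.c.e g.m, (pl_jordan hT g.c).2.1 _, rfl⟩
    exact pvzt_VOf_not_right hT g₀.c (pvgn_VOf_mono hsub h4) (gp ▸ h3)
  have hnb : ∀ u, k < u → u < k' → P.v u ∉ T.BdV g.c.Left := by
    intro u h1 h2 hb
    rw [pvgn_bdV_left hT] at hb
    rcases pvtg_black g hb (hbl u (by omega)) with e | e
    · have := P.inj u k (by omega) (by omega) (e.trans gm)
      omega
    · have := P.inj u k' (by omega) (by omega) (e.trans gp)
      omega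
  have hi0 : P.v (qW.n + m) ∈ T.Int g.c.Left := pvgn_int_mono gI hW.mid
  refine ⟨g, k - qW.n, k' - qW.n, gL, gI, gO, hsub, by omega, by omega, by omega, ?_, ?_, fun t ht1 ht2 => ?_⟩
  · rw [← Pvp (k - qW.n) (by omega), show qW.n + (k - qW.n) = k by omega, gm]
  · rw [← Pvp (k' - qW.n) (by omega), show qW.n + (k' - qW.n) = k' by omega, gp]
  · rw [← Pvp t (by omega)]
    rcases Nat.le_total (qW.n + m) (qW.n + t) with h | h
    · exact pvgn_walk hT (pl_left_face g.c) (f := P.v) hi0 _ h (fun u _ hu => hW.adj u (by omega)) (fun u hu hu' => hnb u (by omega) (by omega))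
    · exact pvgn_walk_back hT (pl_left_face g.c) (f := P.v) hi0 (qW.n + m - (qW.n + t)) _ (by omega) (fun u _ hu => hW.adj u (by omega))
        (fun u hu hu' => hnb u (by omega) (by omega))

/-! ## 5. sides -/

/-- a chain in `A ∪ B` which starts in `A` stays in `A` -/
theorem pvzt_chain {A B : Set V} (hAB : ∀ u ∈ A, ∀ v ∈ B, u ≠ v ∧ ¬ T.Adj u v) {x : ℕ → V} {a : ℕ} (ha : x a ∈ A) :
    ∀ b, a ≤ b → (∀ t, a ≤ t → t < b → x (t + 1) = x t ∨ T.Adj (x t) (x (t + 1))) → (∀ t, a ≤ t → t ≤ b → x t ∈ A ∨ x t ∈ B) → x b ∈ A := by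
  intro b hab
  induction b, hab using Nat.le_induction with
  | base => intro _ _; exact ha
  | succ b hb ih =>
    intro h1 h2
    have h3 := ih (fun t ht ht' => h1 t ht (by omega)) (fun t ht ht' => h2 t ht (by omega))
    rcases h2 (b + 1) (by omega) le_rfl with h | h
    · exact h
    · rcases h1 b hb (by omega) with e | e
      · exact absurd e.symm (hAB _ h3 _ h).1
      · exact absurd e (hAB _ h3 _ h).2

/-- a chain in `A ∪ B` which ends in `B` stays in `B` -/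
theorem pvzt_chain_back {A B : Set V} (hAB : ∀ u ∈ A, ∀ v ∈ B, u ≠ v ∧ ¬ T.Adj u v) {x : ℕ → V} {b : ℕ} (hb : x b ∈ B) :
    ∀ m a, a + m = b → (∀ t, a ≤ t → t < b → x (t + 1) = x t ∨ T.Adj (x t) (x (t + 1))) → (∀ t, a ≤ t → t ≤ b → x t ∈ A ∨ x t ∈ B) → x a ∈ B := by
  intro m
  induction m with
  | zero =>
    intro a h _ _
    have : a = b := by omega
    rw [this]; exact hb
  | succ m ih =>
    intro a h h1 h2
    have h3 := ih (a + 1) (by omega) (fun t ht ht' => h1 t (by omega) ht') (fun t ht ht' => h2 t (by omega) ht')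
    rcases h2 a le_rfl (by omega) with h4 | h4
    · rcases h1 a le_rfl (by omega) with e | e
      · exact absurd e.symm (hAB _ h4 _ h3).1
      · exact absurd e (hAB _ h4 _ h3).2
    · exact h4

theorem pvzt_off_int {A : Set D} (hA : T.FaceSet A) {d : D} (h : d ∉ A) : T.src d ∉ T.Int A ∧ T.tgt d ∉ T.Int A := by
  refine ⟨fun h' => h (h' d rfl), fun h' => h ?_⟩
  have := (pvgn_int_opp hA (d := T.opp d) (by rw [T.src_opp']; exact h')).2
  rwa [T.opp_opp] at this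

/-- the foot of the half lane `(σ, β)` on a gate      (`= pvkdFoot` of `Tr/PlugK`, by `rfl`) -/
def pvztFoot (g : T.Gate s) (σ β : Bool) : V := if σ then (if β then g.vp else T.tgt g.aOut) else (if β then g.vm else T.tgt g.aIn)

theorem pvzt_eqns_cite : True := by
  have := @pvztFoot.eq_1
  trivial

/-! ## 6. BLOCK D -/

/-- **[ADM] BLOCK D: FROM AN EXPLICIT GATE TO THE GATE OF RECORD.**      `g₀` = an explicit gate between the two discs, with its through strand; the two banks of the strand are marked `KT` and lie in `BW` (West), in the inner disc, or in `BE` (East);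
`BW` and `BE` are neither adjacent nor overlapping; the four feet of `g₀` carry the four half lanes.      Then the LEAST gate is a gate of record (`PvzlGt`) and its four feet carry the four half lanes. -/
theorem pvzt_record {κ : Type} {mk : V → κ} {p : PvzlPg κ} (hT : T.IsSph) (hS : T.Simple) {I O : Set D} {o : D} (hF : PvgnFr T I O o)
    (hI : I = pvplB T fun v => mk v ∈ p.KI) (hO : ∀ d, d ∈ O ↔ mk (T.src d) ∈ p.KO ∧ mk (T.tgt d) ∈ p.KO ∧ mk (T.apex d) ∈ p.KO)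
    (g₀ : T.Gate s) (h₀ : PvzlIn T mk p.KI p.KO g₀.c) (hthru : g₀.Thru) {BW BE : Set V} (hWE : ∀ u ∈ BW, ∀ v ∈ BE, u ≠ v ∧ ¬ T.Adj u v)
    (hbox : ∀ v, v ∈ g₀.bank ∨ v ∈ g₀.wbank → mk v ∈ p.KT ∧ (v ∈ BW ∨ mk v ∈ p.KI ∨ v ∈ BE))
    (hvm : g₀.vm ∈ BW) (hfm : T.tgt g₀.aIn ∈ BW) (hvp : g₀.vp ∈ BE) (hfp : T.tgt g₀.aOut ∈ BE) {Ln Dr : Bool → Bool → Set κ}
    (hBW : ∀ v ∈ BW, mk v ∈ p.Km ∧ ∀ β, mk v ∈ Ln false β) (hBE : ∀ v ∈ BE, mk v ∈ p.Kp ∧ ∀ β, mk v ∈ Ln true β)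
    (hdis : Disjoint (Ln false true) (Ln true true)) (hfar : ∀ σ, Disjoint (Dr σ true) p.KO)
    (hlane : ∀ σ β, ∃ v, mk v ∈ Dr σ β ∧ T.Join univ (pvldCol s {u | mk u ∈ Ln σ β} β) (pvztFoot g₀ σ β) v) :
    ∃ g : T.Gate s, PvzlGt T mk s p g ∧ ∀ σ β, ∃ v, mk v ∈ Dr σ β ∧ T.Join univ (pvldCol s {u | mk u ∈ Ln σ β} β) (pvztFoot g σ β) v := by
  -- frames
  have hsubI : I ⊆ g₀.c.Left := hI ▸ h₀.inner
  have hInO : ∀ c : T.Cyc, (∀ d ∈ c.Left, mk (T.src d) ∈ p.KO) → c.Left ⊆ O := by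
    intro c hc d hd
    rw [hO]
    refine ⟨hc d hd, ?_, ?_⟩
    · rw [← T.src_nxt]; exact hc _ ((pl_left_face c d).2 hd)
    · rw [← T.src_nxt2]; exact hc _ ((pl_left_face c _).2 ((pl_left_face c d).2 hd))
  have hsubO : g₀.c.Left ⊆ O := hInO g₀.c h₀.outer
  have hfin : g₀.c.Left.Finite := hF.fin.subset hsubO
  have ho : o ∉ g₀.c.Left := fun h => hF.far (hsubO h)
  have hKI : ∀ v, mk v ∈ p.KI → v ∈ T.Int I := by
    intro v hv d hd
    rw [hI]
    exact Or.inl (by rw [hd]; exact hv)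
  have hKO : ∀ v, mk v ∉ p.KO → v ∈ T.Int Oᶜ := by
    intro v hv d hd hdO
    exact hv (hd ▸ ((hO d).1 hdO).1)
  have hOR : T.Int Oᶜ ⊆ T.Int g₀.c.Right := by
    refine pvgn_int_mono ?_
    rw [(pl_jordan hT g₀.c).1]
    exact compl_subset_compl.2 hsubO
  -- the inner path of `g₀`
  obtain ⟨p0, hp0, -, hp0b⟩ := pvgz_inn_exists hT g₀ hfin hthru
  obtain ⟨m, hm, hmid⟩ : ∃ m, m ≤ p0.n ∧ mk (p0.v m) ∈ p.KI := by
    by_contra hno
    have h1 : p0.v p0.n ∈ BW := pvzt_chain hWE (x := p0.v) (a := 0) (by rw [hp0.1.h0]; exact hvm) p0.n (Nat.zero_le _)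
      (fun t _ ht => Or.inr ⟨p0.e t, p0.src_e t ht, p0.tgt_e t ht⟩)
      (fun t _ ht => by
        rcases (hbox _ (Or.inl (hp0b ⟨t, ht, rfl⟩))).2 with h | h | h
        · exact Or.inl h
        · exact absurd ⟨t, ht, h⟩ hno
        · exact Or.inr h)
    rw [hp0.1.h1] at h1
    exact (hWE _ h1 _ hvp).1 rfl
  -- the two black lanes
  obtain ⟨tW, tW1, jW⟩ := hlane false true
  obtain ⟨tE, tE1, jE⟩ := hlane true true
  have jW' : T.Join univ (pvldCol s {u | mk u ∈ Ln false true} true) g₀.vm tW := jW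
  have jE' : T.Join univ (pvldCol s {u | mk u ∈ Ln true true} true) g₀.vp tE := jE
  have hxW : g₀.vp ∉ pvldCol s {u | mk u ∈ Ln false true} true := fun h => disjoint_left.1 hdis h.1 ((hBE _ hvp).2 true)
  have hxE : g₀.vm ∉ pvldCol s {u | mk u ∈ Ln true true} true := fun h => disjoint_left.1 hdis ((hBW _ hvm).2 true) h.1
  have fW : tW ∈ T.Int Oᶜ := hKO _ (disjoint_left.1 (hfar false) tW1)
  have fE : tE ∈ T.Int Oᶜ := hKO _ (disjoint_left.1 (hfar true) tE1)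
  obtain ⟨qW, W0, W1, WX, Wp, Wo⟩ := pvzt_lane_pth hT g₀ (fun v hv => hv.2) (Or.inl ⟨rfl, rfl⟩) hxW (hOR fW) jW'
  obtain ⟨qE, E0, E1, EX, -, Eo⟩ := pvzt_lane_pth hT g₀ (fun v hv => hv.2) (Or.inr ⟨rfl, rfl⟩) hxE (hOR fE) jE'
  -- the gate of the hull
  obtain ⟨g, i, j, gL, gI, gO, gsub, hi, hj, hjn, gvm, gvp, gint⟩ := pvzt_hull hT hS hF g₀ hsubI hsubO hp0.1 W0 (fun k hk => (WX ⟨k, hk, rfl⟩).2) Wo (W1 ▸ fW) Wp
    E0 (fun k hk => (EX ⟨k, hk, rfl⟩).2) Eo (E1 ▸ fE) (fun k l _ hk _ hl e => disjoint_left.1 hdis (WX ⟨k, hk, rfl⟩).1 (e ▸ (EX ⟨l, hl, rfl⟩).1)) hm (hKI _ hmid)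
  obtain ⟨gthru, τ, hτ, hall, honly⟩ := pvzt_sub hT hS g g₀ gsub hfin ho hp0 (by omega) hjn gvm gvp gint
  have hfin' : g.c.Left.Finite := hfin.subset gsub
  obtain ⟨l1, l2, l3⟩ := pvtg_len hT g hfin'
  obtain ⟨-, -, m3⟩ := pvtg_len hT g₀ hfin
  have bw0 := pvtg_aIn_bw g₀
  have eIn : pvasIt T s g₀.aIn τ = g.aIn := (hall 0).symm
  have eOut : pvasIt T s g₀.aIn (τ + g.len) = g.aOut := by rw [← hall, l3]; exact gthru
  have eOut0 : pvasIt T s g₀.aIn g₀.len = g₀.aOut := by rw [m3]; exact hthru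
  have hnotKI : ∀ v, v ∉ T.Int g.c.Left → mk v ∉ p.KI := fun v hv h => hv (pvgn_int_mono gI (hKI v h))
  have hoff : ∀ t, t ≤ g₀.len → (t ≤ τ ∨ τ + g.len ≤ t) → mk (T.src (pvasIt T s g₀.aIn t)) ∉ p.KI ∧ mk (T.tgt (pvasIt T s g₀.aIn t)) ∉ p.KI := by
    intro t ht hcase
    by_cases e : t = τ
    · rw [e, eIn]
      refine ⟨hnotKI _ (pvgz_verts_not_int hT g.c 0), hnotKI _ ?_⟩
      rw [pvtg_aIn_tgt]
      exact pvgz_verts_not_int hT g.c 1
    · have hn : pvasIt T s g₀.aIn t ∉ g.c.Left := fun h => by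
        have := honly t ht h
        omega
      exact ⟨hnotKI _ (pvzt_off_int (pl_left_face g.c) hn).1, hnotKI _ (pvzt_off_int (pl_left_face g.c) hn).2⟩
  have stepB : ∀ t, T.src (pvasIt T s g₀.aIn (t + 1)) = T.src (pvasIt T s g₀.aIn t) ∨ T.Adj (T.src (pvasIt T s g₀.aIn t)) (T.src (pvasIt T s g₀.aIn (t + 1))) := fun t =>
    (pvas_layB_step s g₀.aIn t).imp id fun ⟨d, _, h1, h2⟩ => ⟨d, h1, h2⟩
  have stepW : ∀ t, T.tgt (pvasIt T s g₀.aIn (t + 1)) = T.tgt (pvasIt T s g₀.aIn t) ∨ T.Adj (T.tgt (pvasIt T s g₀.aIn t)) (T.tgt (pvasIt T s g₀.aIn (t + 1))) := fun t =>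
    (pvas_layW_step s g₀.aIn t).imp id fun ⟨d, _, h1, h2⟩ => ⟨d, h1, h2⟩
  have altB : ∀ t, t ≤ g₀.len → (t ≤ τ ∨ τ + g.len ≤ t) → T.src (pvasIt T s g₀.aIn t) ∈ BW ∨ T.src (pvasIt T s g₀.aIn t) ∈ BE := by
    intro t ht hc
    rcases (hbox _ (Or.inl ⟨t, ht, rfl⟩)).2 with h | h | h
    · exact Or.inl h
    · exact absurd h (hoff t ht hc).1
    · exact Or.inr h
  have altW : ∀ t, t ≤ g₀.len → (t ≤ τ ∨ τ + g.len ≤ t) → T.tgt (pvasIt T s g₀.aIn t) ∈ BW ∨ T.tgt (pvasIt T s g₀.aIn t) ∈ BE := by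
    intro t ht hc
    rcases (hbox _ (Or.inr ⟨t, ht, rfl⟩)).2 with h | h | h
    · exact Or.inl h
    · exact absurd h (hoff t ht hc).2
    · exact Or.inr h
  have sideW : ∀ t, t ≤ τ → T.src (pvasIt T s g₀.aIn t) ∈ BW ∧ T.tgt (pvasIt T s g₀.aIn t) ∈ BW := fun t ht =>
    ⟨pvzt_chain hWE (x := fun t => T.src (pvasIt T s g₀.aIn t)) (a := 0) hvm t (Nat.zero_le _) (fun u _ _ => stepB u) (fun u _ hu => altB u (by omega) (Or.inl (by omega))),
      pvzt_chain hWE (x := fun t => T.tgt (pvasIt T s g₀.aIn t)) (a := 0) hfm t (Nat.zero_le _) (fun u _ _ => stepW u) (fun u _ hu => altW u (by omega) (Or.inl (by omega)))⟩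
  have sideE : ∀ t, τ + g.len ≤ t → t ≤ g₀.len → T.src (pvasIt T s g₀.aIn t) ∈ BE ∧ T.tgt (pvasIt T s g₀.aIn t) ∈ BE := fun t ht ht' =>
    ⟨pvzt_chain_back hWE (x := fun t => T.src (pvasIt T s g₀.aIn t)) (b := g₀.len) (by show T.src (pvasIt T s g₀.aIn g₀.len) ∈ BE; rw [eOut0, pvtg_aOut_src]; exact hvp)
        (g₀.len - t) t (by omega) (fun u _ _ => stepB u) (fun u hu hu' => altB u hu' (Or.inr (by omega))),
      pvzt_chain_back hWE (x := fun t => T.tgt (pvasIt T s g₀.aIn t)) (b := g₀.len) (by show T.tgt (pvasIt T s g₀.aIn g₀.len) ∈ BE; rw [eOut0]; exact hfp)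
        (g₀.len - t) t (by omega) (fun u _ _ => stepW u) (fun u hu hu' => altW u hu' (Or.inr (by omega)))⟩
  -- the gate of record
  have hleast : PvzlLeast T mk s p.KI p.KO g :=
    ⟨⟨hI ▸ gI, fun d hd => ((hO d).1 (gO hd)).1, fun k => ((hO _).1 (gO ((pl_jordan hT g.c).2.1 k))).1⟩,
      fun g₂ h₂ => by rw [gL]; exact pvgn_innermost hT hF g₂ (hI ▸ h₂.inner) (hInO g₂.c h₂.outer)⟩
  have hgvm : g.vm ∈ BW := by
    have := (sideW τ le_rfl).1
    rwa [eIn] at this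
  have hgvp : g.vp ∈ BE := by
    have := (sideE (τ + g.len) le_rfl hτ).1
    rwa [eOut, pvtg_aOut_src] at this
  have hthr : PvzlThru T mk s p.KT g g.len := by
    refine ⟨l1, by rw [l3]; exact gthru, fun k hk e => ?_, l2, ?_⟩
    · exact ((pvtg_out_iff hT g _).2 (Or.inl rfl)).1 (e ▸ l2 k hk)
    · rw [pvas_fc_verts s g.aIn l1]
      rintro v (⟨k, hk, rfl⟩ | ⟨k, hk, rfl⟩)
      · show mk _ ∈ p.KT
        rw [hall k]
        exact (hbox _ (Or.inl ⟨τ + k, by omega, rfl⟩)).1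
      · show mk _ ∈ p.KT
        rw [hall k]
        exact (hbox _ (Or.inr ⟨τ + k, by omega, rfl⟩)).1
  refine ⟨g, ⟨hleast, (hBW _ hgvm).1, (hBE _ hgvp).1, ⟨g.len, hthr⟩⟩, fun σ β => ?_⟩
  obtain ⟨v, hv, hjn'⟩ := hlane σ β
  refine ⟨v, hv, pl_hx_join_trans ?_ hjn'⟩
  have eE : pvasIt T s g.aOut (g₀.len - (τ + g.len)) = g₀.aOut := by
    rw [← eOut, ← pvas_it_add, show τ + g.len + (g₀.len - (τ + g.len)) = g₀.len by omega, eOut0]
  have eEi : ∀ k, pvasIt T s g.aOut k = pvasIt T s g₀.aIn (τ + g.len + k) := fun k => by rw [pvas_it_add, eOut]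
  cases σ <;> cases β
  · -- West, white
    show T.Join univ _ (T.tgt g.aIn) (T.tgt g₀.aIn)
    have h1 := pvas_layW_join (T := T) s g₀.aIn (le_refl τ)
    rw [eIn] at h1
    refine pl_hx_join_symm (pvt_c_join_mono_set (subset_univ _) ?_ h1)
    rintro x ⟨k, hk, rfl⟩
    exact ⟨(hBW _ (sideW k hk).2).2 false, (pvas_it_bw bw0 k).2⟩
  · -- West, black
    show T.Join univ _ g.vm g₀.vm
    have h1 := pvas_layB_join (T := T) s g₀.aIn (le_refl τ)
    rw [eIn] at h1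
    refine pl_hx_join_symm (pvt_c_join_mono_set (subset_univ _) ?_ h1)
    rintro x ⟨k, hk, rfl⟩
    exact ⟨(hBW _ (sideW k hk).1).2 true, (pvas_it_bw bw0 k).1⟩
  · -- East, white
    show T.Join univ _ (T.tgt g.aOut) (T.tgt g₀.aOut)
    have h1 := pvas_layW_join (T := T) s g.aOut (le_refl (g₀.len - (τ + g.len)))
    rw [eE] at h1
    refine pvt_c_join_mono_set (subset_univ _) ?_ h1
    rintro x ⟨k, hk, rfl⟩
    rw [eEi]
    exact ⟨(hBE _ (sideE _ (by omega) (by omega)).2).2 false, (pvas_it_bw bw0 _).2⟩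
  · -- East, black
    show T.Join univ _ g.vp g₀.vp
    have h1 := pvas_layB_join (T := T) s g.aOut (le_refl (g₀.len - (τ + g.len)))
    rw [eE, pvtg_aOut_src, pvtg_aOut_src] at h1
    refine pvt_c_join_mono_set (subset_univ _) ?_ h1
    rintro x ⟨k, hk, rfl⟩
    rw [eEi]
    exact ⟨(hBE _ (sideE _ (by omega) (by omega)).1).2 true, (pvas_it_bw bw0 _).1⟩

end Claimed.Agent.R289
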