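import Claimed.Agent.R289.Pl.Quad
import Claimed.Agent.R289.Tr.GateB
import Claimed.Agent.R289.Pl.Geo
import Claimed.Agent.R289.Pl.Path
import Claimed.Agent.R289.Pl.Bond

/-!
# Row 289 (S0537, Cardy for Poisson-Voronoi), THE WALL, file Tr/AdmDet : THE DETERMINISTIC HALF OF THE ADMISSION      (helper140; prefix `pvaq_`, `Pvaq`)

Text: `origin/helper140:notes/R289/ADM_140.md` sec. 3 (D1-D7).   Consumer: `Tr/Adm.lean` of 127 (probability: cylinder sum + fresh copy), `Tr/Plug.lean` of 47 (the event `E*` on the Delaunay map).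
ADMISSION = `ν(G00 ∩ L⁺ ∩ L⁻) ≥ c*` for the ARTIFICIAL plugs (small plug, reference type `τ₀`), both roads (TR22 = TR37 = P18 = E25).
THE CONSTRUCTION.   Per gate and per side ONE SHORT quadrilateral `Q` across the tube (sides: `S1` towards the centre, `S2` bottom, `S3` away from the centre, `S4` top; for the left quadrilateral `S1` is away from the centre).
EXPLORED SET `Q.Exp s = Sea ∪ Low` of `Pl/Quad.lean` (15): white clusters of the bottom side + the black vertices next to them: a STOPPING SET (`pvaq_exp_loc`).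
A path which is monochromatic for a colouring that agrees with the true one OFF the explored set, followed from the top side, LANDS on `Low` (`pvaq_land`); all landing vertices of one quadrilateral are joined inside `Low` (`pvaq_land_join`: the black line needs no order);
the landing vertex `u` of a WHITE path has a neighbour in the sea which is joined INSIDE `Q` to every white 1-3 crossing contained in the sea (`pvaq_down`: the lower arc is local: no WANDER, no MICRO-TARGET).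
Two pinches + an upper white arch (unexplored) + a lower white arch (explored or outside) = a GATE with exactly two black vertices (`pvaq_gate_of_join`, `pvaq_gate`);  a black join inside gives `Thru` (`pvaq_thru`);
ORIENTATION (sec. 3; geometric, `PlGeo` of 172; also a proof of M11 = P11' of road P and of `c.Left.Finite` for the cells of T7).   RAY CASTING: `pvaqW z p q = ±1` if the edge `p → q` crosses the vertical line through `z` BELOW `z` eastwards / westwards (half open convention: NO general position).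
`pvaq_w_tri`: the three edges of a positively oriented triangle add up to `0` or `1`, and `1` only if `z` is in the closed triangle.   DISCRETE STOKES (`pvaq_wind`): for a cycle with FINITE left side the sum over the cycle is the number of faces on the left with sum `1`: it is `≥ 0`, and `≥ 1` only if `z ∈ real c.Left`.
`pvaq_w_path`: along a path all of whose straddling edges pass below `z` the sum TELESCOPES: `[end east] - [start east]`.   So (`pvaq_orient`) a cycle = lower arc from west to east (below `z`) + upper arc (never below `z`) has sum `+1`: its LEFT side is the finite one and contains `z`.   No Jordan curve theorem, no order of the crossings along the ray.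
-/

set_option autoImplicit false

namespace Claimed.Agent.R289

open Relation

variable {V D : Type} {T : PvMap V D}

/-! ## 0. vocabulary -/

/-- the black vertices -/
def pvaqBk (s : V → Bool) : Set V := {v | s v = true}
/-- the white vertices -/
def pvaqWh (s : V → Bool) : Set V := {v | s v = false}
/-- the sea of a quadrilateral: the white clusters of its bottom side -/
def PvMap.Quad.SeaC (Q : T.Quad) (s : V → Bool) : Set V := Q.Sea (pvaqBk s)
/-- the black vertices on the bottom side or next to the sea: they carry the lowest black crossing -/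
def PvMap.Quad.LowC (Q : T.Quad) (s : V → Bool) : Set V := Q.Low (pvaqBk s)
/-- the explored set -/
def PvMap.Quad.Exp (Q : T.Quad) (s : V → Bool) : Set V := Q.SeaC s ∪ Q.LowC s

/-- **a landing**: `P` = unexplored vertices of colour `κ`, which join the vertex `b` of the top side to the vertex `u` of `Low` -/
structure PvaqLand (Q : T.Quad) (s : V → Bool) (κ : Bool) (b u : V) (P : Set V) : Prop where
  b4 : b ∈ Q.S4
  low : u ∈ Q.LowC s
  join : T.Join Q.c.Left (P ∪ {u}) b u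
  off : Disjoint P (Q.Exp s)
  col : ∀ v ∈ P, s v = κ

theorem pvaq_eqns_cite : True := by
  have := @pvaqBk.eq_1; have := @pvaqWh.eq_1; have := @PvMap.Quad.SeaC.eq_1; have := @PvMap.Quad.LowC.eq_1; have := @PvMap.Quad.Exp.eq_1
  trivial

theorem pvaq_wh_eq (s : V → Bool) : pvaqWh s = (pvaqBk s)ᶜ := by
  ext v
  simp [pvaqWh, pvaqBk]

theorem pvaq_sea_white (Q : T.Quad) (s : V → Bool) {v : V} (h : v ∈ Q.SeaC s) : s v = false := by
  have := pl_qd_sea_sub Q (pvaqBk s) h
  simpa [pvaqBk] using this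

theorem pvaq_low_black (Q : T.Quad) (s : V → Bool) {v : V} (h : v ∈ Q.LowC s) : s v = true := pl_qd_low_sub Q (pvaqBk s) h

/-- the landing path meets `Low` only at the landing vertex -/
theorem PvaqLand.only {Q : T.Quad} {s : V → Bool} {κ : Bool} {b u : V} {P : Set V} (h : PvaqLand Q s κ b u P) : ∀ w ∈ P ∪ {u}, w ∈ Q.Low (pvaqBk s) → w = u := by
  rintro w (hw | hw) hL
  · exact absurd (Or.inr hL) (Set.disjoint_left.1 h.off hw)
  · exact hw

/-! ## 1. one quadrilateral -/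

/-- **D0 (CYLINDER)**: the explored set is a stopping set -/
theorem pvaq_exp_loc (Q : T.Quad) {s s' : V → Bool} (h : ∀ v ∈ Q.Exp s, s' v = s v) : Q.SeaC s' = Q.SeaC s ∧ Q.LowC s' = Q.LowC s ∧ Q.Exp s' = Q.Exp s := by
  have h1 := pl_qd_low_loc Q (X := pvaqBk s) (X' := pvaqBk s') fun v hv => by
    show s v = true ↔ s' v = true
    rw [h v hv]
  exact ⟨h1.1, h1.2, by unfold PvMap.Quad.Exp PvMap.Quad.SeaC PvMap.Quad.LowC; rw [h1.1, h1.2]⟩

/-- a white vertex joined in white to the bottom side is in the sea -/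
theorem pvaq_sea_of_join (Q : T.Quad) (s : V → Bool) {a v : V} (ha : a ∈ Q.S2) (h : T.Join Q.c.Left (pvaqWh s) a v) : v ∈ Q.SeaC s :=
  ⟨a, ha, by rw [← pvaq_wh_eq]; exact h⟩

/-- the sea is closed under white joins of the closed disc -/
theorem pvaq_sea_join (Q : T.Quad) (s : V → Bool) {u v : V} (hu : u ∈ Q.SeaC s) (h : T.Join Q.c.Left (pvaqWh s) u v) : v ∈ Q.SeaC s := by
  obtain ⟨a, ha, hau⟩ := hu
  exact ⟨a, ha, pl_hx_join_trans hau (by rw [← pvaq_wh_eq]; exact h)⟩

/-- a white join which starts in the sea is a join inside the sea -/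
theorem pvaq_join_sea (Q : T.Quad) (s : V → Bool) {u v : V} (hu : u ∈ Q.SeaC s) (h : T.Join Q.c.Left (pvaqWh s) u v) : T.Join Q.c.Left (Q.SeaC s) u v := by
  have h1 := pl_qd_join_clu h
  exact pl_hx_join_mono Set.Subset.rfl (fun w hw => pvaq_sea_join Q s hu hw) h1

/-- **D2 (LAND)**.   `s'` agrees with the true colouring off the explored set; a path of colour `κ` for `s'` from the top side to the bottom side lands on `Low`; before that it is unexplored and truly of colour `κ` -/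
theorem pvaq_land (hT : T.IsSph) (Q : T.Quad) (hfin : Q.c.Left.Finite) {s s' : V → Bool} (hX : Q.Cr13 (pvaqBk s)) (hs : ∀ v, v ∉ Q.Exp s → s' v = s v)
    {κ : Bool} {P' : Set V} (hP' : ∀ v ∈ P', s' v = κ) {b z : V} (hb : b ∈ Q.S4) (hz : z ∈ Q.S2) (h : T.Join Q.c.Left P' b z) :
    ∃ u ∈ P', ∃ P ⊆ P', PvaqLand Q s κ b u P := by
  obtain ⟨v, hvL, hvP, hbv, -⟩ := pl_qd_low_glue hT Q hfin hX hb (pl_qd_S2_expl Q _ hz) h
  refine ⟨v, hvP, P' \ Q.Exp s, Set.sdiff_subset, hb, hvL, hbv, Set.disjoint_sdiff_left, fun w hw => ?_⟩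
  rw [← hs w hw.2]
  exact hP' w hw.1

/-- **D5 (ONE BLACK LINE)**: two landing vertices of the same quadrilateral (whatever the colours of the landing paths) are joined inside `Low` -/
theorem pvaq_land_join (hT : T.IsSph) (Q : T.Quad) (hfin : Q.c.Left.Finite) {s : V → Bool} (hX : Q.Cr13 (pvaqBk s)) {κ κ' : Bool} {b u b' u' : V} {P P' : Set V}
    (h : PvaqLand Q s κ b u P) (h' : PvaqLand Q s κ' b' u' P') : T.Join Q.c.Left (Q.LowC s) u u' := by
  obtain ⟨a, ha, a', ha', haa⟩ := pl_qd_low hT Q hfin hX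
  have h1 : u ∈ T.Clu Q.c.Left (Q.Low (pvaqBk s)) a :=
    pl_qd_low_hit hT Q ⟨a, ha, a', ha', pl_qd_join_clu haa⟩ (pl_qd_clu_sub _ _ _) h.low h.b4 (pl_hx_join_symm h.join) h.only
  have h2 : u' ∈ T.Clu Q.c.Left (Q.Low (pvaqBk s)) a :=
    pl_qd_low_hit hT Q ⟨a, ha, a', ha', pl_qd_join_clu haa⟩ (pl_qd_clu_sub _ _ _) h'.low h'.b4 (pl_hx_join_symm h'.join) h'.only
  exact pl_hx_join_trans (pl_hx_join_symm h1) h2

/-- a landing vertex is joined inside `Low` to the sides 1 and 3 -/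
theorem pvaq_land_sides (hT : T.IsSph) (Q : T.Quad) (hfin : Q.c.Left.Finite) {s : V → Bool} (hX : Q.Cr13 (pvaqBk s)) {κ : Bool} {b u : V} {P : Set V}
    (h : PvaqLand Q s κ b u P) : ∃ a ∈ Q.S1, ∃ a' ∈ Q.S3, T.Join Q.c.Left (Q.LowC s) a u ∧ T.Join Q.c.Left (Q.LowC s) u a' :=
  pl_qd_low_join hT Q hfin hX h.low h.b4 (pl_hx_join_symm h.join) h.only

/-- **D3 (DOWN, LOCAL)**: `Y` = a white 1-3 crossing contained in the sea.   The landing vertex has a neighbour in the sea which is joined to `Y` inside the sea of `Q` -/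
theorem pvaq_down (hT : T.IsSph) (Q : T.Quad) {s : V → Bool} {κ : Bool} {b u : V} {P Y : Set V} (h : PvaqLand Q s κ b u P) (hY : Q.Cr13 Y) (hYs : Y ⊆ Q.SeaC s) :
    ∃ w ∈ Q.SeaC s, T.EdgeIn Q.c.Left w u ∧ ∃ y ∈ Y, T.Join Q.c.Left (Q.SeaC s) w y := by
  have hYP : ∀ y ∈ Y, y ∉ P ∪ {u} := by
    rintro y hy (hP | hP)
    · exact Set.disjoint_left.1 h.off hP (Or.inl (hYs hy))
    · have h1 : y ∈ Q.Sea (pvaqBk s) := hYs hy
      have h2 : y ∈ Q.Low (pvaqBk s) := by rw [Set.mem_singleton_iff.1 hP]; exact h.low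
      exact Set.disjoint_left.1 (pl_qd_sea_low_disj Q _) h1 h2
  rcases h.low.2 with h2 | ⟨w, hw, hwu⟩
  · obtain ⟨y, hy, hy'⟩ := pl_qd_excl hT Q hY ⟨u, h2, b, h.b4, pl_hx_join_symm h.join⟩
    exact absurd hy' (hYP y hy)
  · obtain ⟨a, ha, haw⟩ := hw
    have e1 : T.Join Q.c.Left (T.Clu Q.c.Left (pvaqBk s)ᶜ a ∪ (P ∪ {u})) a w :=
      pl_hx_join_mono Set.Subset.rfl Set.subset_union_left (pl_qd_join_clu haw)
    have e2 : T.Join Q.c.Left (T.Clu Q.c.Left (pvaqBk s)ᶜ a ∪ (P ∪ {u})) a u := pl_hx_join_tail e1 hwu (Or.inr (Or.inr rfl))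
    have e3 : T.Join Q.c.Left (T.Clu Q.c.Left (pvaqBk s)ᶜ a ∪ (P ∪ {u})) a b :=
      pl_hx_join_trans e2 (pl_hx_join_mono Set.Subset.rfl Set.subset_union_right (pl_hx_join_symm h.join))
    obtain ⟨y, hy, hy'⟩ := pl_qd_excl hT Q hY ⟨a, ha, b, h.b4, e3⟩
    rcases hy' with hy' | hy'
    · have hwS : w ∈ Q.SeaC s := ⟨a, ha, haw⟩
      have h3 : T.Join Q.c.Left (pvaqWh s) w y := by
        rw [pvaq_wh_eq]
        exact pl_hx_join_trans (pl_hx_join_symm haw) hy'
      exact ⟨w, hwS, hwu, y, hy, pvaq_join_sea Q s hwS h3⟩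
    · exact absurd hy' (hYP y hy)

/-- producer of the hypothesis of `pvaq_down`: a white 1-3 crossing which meets a white path coming from the bottom side lies in the sea -/
theorem pvaq_cross_sea (Q : T.Quad) {s : V → Bool} {a a' c y : V} (ha : a ∈ Q.S1) (ha' : a' ∈ Q.S3) (haa : T.Join Q.c.Left (pvaqWh s) a a') (hc : c ∈ Q.S2)
    (hcy : T.Join Q.c.Left (pvaqWh s) c y) (hya : T.Join Q.c.Left (pvaqWh s) y a) :
    ∃ Y, Q.Cr13 Y ∧ Y ⊆ Q.SeaC s ∧ y ∈ Y ∧ ∀ v ∈ Y, T.Join Q.c.Left (Q.SeaC s) y v := by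
  have hyS : y ∈ Q.SeaC s := pvaq_sea_of_join Q s hc hcy
  refine ⟨T.Clu Q.c.Left (pvaqWh s) a, ⟨a, ha, a', ha', pl_qd_join_clu haa⟩, fun v hv => ?_, pl_hx_join_symm hya, fun v hv => ?_⟩
  · exact pvaq_sea_join Q s hyS (pl_hx_join_trans hya hv)
  · exact pvaq_join_sea Q s hyS (pl_hx_join_trans hya hv)

/-! ## 2. the gate -/

/-- **D4 (GATE), combinatorial core**: two black vertices, not adjacent, joined through two disjoint sets of white vertices -/
theorem pvaq_gate_of_join [Nonempty D] {s : V → Bool} {um up : V} (hm : s um = true) (hp : s up = true) (hne : um ≠ up) (hna : ¬ T.Adj um up) {A : Set D} {R L : Set V}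
    (hR : ∀ v ∈ R, s v = false) (hL : ∀ v ∈ L, s v = false) (hd : Disjoint R L)
    (h1 : T.Join A (R ∪ {um, up}) um up) (h2 : T.Join A (L ∪ {um, up}) up um) :
    ∃ g : T.Gate s, g.vm = um ∧ g.vp = up ∧ g.R ⊆ R ∧ g.L ⊆ L ∧ ∀ i, g.c.e i ∈ A ∨ T.opp (g.c.e i) ∈ A := by
  obtain ⟨p, p0, p1, pX, pA⟩ := pl_pth_of_join h1
  obtain ⟨q, q0, q1, qX, qA⟩ := pl_pth_of_join h2
  have pin : ∀ k, 0 < k → k < p.n → p.v k ∈ R := by
    intro k hk0 hk1
    rcases pX ⟨k, hk1.le, rfl⟩ with h | h | h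
    · exact h
    · have := p.inj k 0 hk1.le (Nat.zero_le _) (h.trans p0.symm)
      omega
    · have := p.inj k p.n hk1.le le_rfl ((Set.mem_singleton_iff.1 h).trans p1.symm)
      omega
  have qin : ∀ k, 0 < k → k < q.n → q.v k ∈ L := by
    intro k hk0 hk1
    rcases qX ⟨k, hk1.le, rfl⟩ with h | h | h
    · exact h
    · have := q.inj k q.n hk1.le le_rfl (h.trans q1.symm)
      omega
    · have := q.inj k 0 hk1.le (Nat.zero_le _) ((Set.mem_singleton_iff.1 h).trans q0.symm)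
      omega
  have pn : 2 ≤ p.n := by
    by_contra hlt
    have h01 : p.n = 0 ∨ p.n = 1 := by omega
    rcases h01 with h0 | h0
    · apply hne
      rw [← p0, ← p1, h0]
    · apply hna
      refine ⟨p.e 0, by rw [p.src_e 0 (by omega), p0], ?_⟩
      rw [p.tgt_e 0 (by omega), show 0 + 1 = p.n by omega, p1]
  have qn : 2 ≤ q.n := by
    by_contra hlt
    have h01 : q.n = 0 ∨ q.n = 1 := by omega
    rcases h01 with h0 | h0
    · apply hne
      rw [← q0, ← q1, h0]
    · apply hna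
      refine ⟨T.opp (q.e 0), ?_, ?_⟩
      · rw [T.src_opp', q.tgt_e 0 (by omega), show 0 + 1 = q.n by omega, q1]
      · rw [T.tgt_opp, q.src_e 0 (by omega), q0]
  have hG : p.Glue q := by
    refine ⟨p1.trans q0.symm, q1.trans p0.symm, by omega, fun i j hi hj hij => ?_⟩
    by_cases i0 : i = 0
    · right
      refine ⟨i0, q.inj j q.n hj le_rfl ?_⟩
      rw [← hij, i0, p0, q1]
    by_cases i1 : i = p.n
    · left
      refine ⟨i1, q.inj j 0 hj (Nat.zero_le _) ?_⟩
      rw [← hij, i1, p1, q0]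
    exfalso
    have hiR := pin i (by omega) (by omega)
    have hw := hR _ hiR
    by_cases j0 : j = 0
    · rw [hij, j0, q0, hp] at hw
      exact Bool.noConfusion hw
    by_cases j1 : j = q.n
    · rw [hij, j1, q1, hm] at hw
      exact Bool.noConfusion hw
    exact Set.disjoint_left.1 hd hiR (hij ▸ qin j (by omega) (by omega))
  have hcol : ∀ i, i < (p.glue q hG).n → (s (T.src ((p.glue q hG).e i)) = true ↔ i = 0 ∨ i = p.n) := by
    intro i hi
    have hi' : i < p.n + q.n := hi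
    rcases Nat.lt_or_ge p.n i with h | h
    · obtain ⟨k, rfl⟩ := Nat.exists_eq_add_of_le h.le
      rw [pl_pth_glue_src2 p q hG (by omega), hL _ (qin k (by omega) (by omega))]
      constructor
      · intro h'
        exact Bool.noConfusion h'
      · intro h'
        omega
    · rw [pl_pth_glue_src1 p q hG h]
      by_cases i0 : i = 0
      · rw [i0, p0, hm]
        simp
      by_cases i1 : i = p.n
      · rw [i1, p1, hp]
        simp
      rw [hR _ (pin i (by omega) (by omega))]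
      constructor
      · intro h'
        exact Bool.noConfusion h'
      · intro h'
        omega
  refine ⟨⟨p.glue q hG, p.n, pn, (by show p.n + 2 ≤ p.n + q.n; omega), hcol⟩, ?_, ?_, ?_, ?_, fun i => ?_⟩
  · show T.src ((p.glue q hG).e 0) = um
    rw [pl_pth_glue_src1 p q hG (Nat.zero_le _), p0]
  · show T.src ((p.glue q hG).e p.n) = up
    rw [pl_pth_glue_src1 p q hG le_rfl, p1]
  · rintro v ⟨k, hk0, hk1, rfl⟩
    have hk1' : k < p.n := hk1
    show T.src ((p.glue q hG).e k) ∈ R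
    rw [pl_pth_glue_src1 p q hG hk1'.le]
    exact pin k hk0 hk1'
  · rintro v ⟨k, hk0, hk1, rfl⟩
    have hk0' : p.n < k := hk0
    have hk1' : k < p.n + q.n := hk1
    show T.src ((p.glue q hG).e k) ∈ L
    obtain ⟨j, rfl⟩ := Nat.exists_eq_add_of_le hk0'.le
    rw [pl_pth_glue_src2 p q hG (by omega)]
    exact qin j (by omega) (by omega)
  · show (p.glue q hG).e i ∈ A ∨ T.opp ((p.glue q hG).e i) ∈ A
    have hmem : (p.glue q hG).e i ∈ (p.glue q hG).darts := ⟨i, rfl⟩
    rw [pl_pth_glue_darts] at hmem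
    rcases hmem with ⟨k, hk, e⟩ | ⟨k, hk, e⟩
    · rw [← e]
      exact pA k hk
    · rw [← e]
      exact qA k hk

/-- **D6 (THRU)**: a black join of the two gate vertices in the closed inside forces the pairing `aIn → aOut` -/
theorem pvaq_thru (hT : T.IsSph) {s : V → Bool} (g : T.Gate s) (hfin : g.c.Left.Finite) (h : T.Join g.c.Left (pvaqBk s) g.vm g.vp) : g.Thru := by
  rcases pvtg_exit hT g hfin with ⟨h1, -⟩ | ⟨h1, -⟩
  · exact h1
  · exfalso
    obtain ⟨-, h2, h3⟩ := pvtg_len hT g hfin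
    have hj := pvas_layW_join (T := T) s g.aIn (le_refl g.len)
    rw [h3, h1] at hj
    have hj' : T.Join g.c.Left g.wbank (T.tgt g.aIn) (T.tgt g.bOut) := pvtg_join_mono (pvas_fc_sub (pl_left_face g.c) h2) hj
    have hm := g.hm
    have hmn := g.hmn
    let Q : T.Quad := ⟨g.c, 0, 0, g.m, g.m, le_rfl, Nat.zero_le _, le_rfl, by omega⟩
    have c13 : Q.Cr13 (pvaqBk s) := ⟨g.vm, ⟨0, le_rfl, le_rfl, rfl⟩, g.vp, ⟨g.m, le_rfl, le_rfl, rfl⟩, h⟩
    have c24 : Q.Cr24 g.wbank :=
      ⟨T.tgt g.aIn, ⟨1, Nat.zero_le _, (by show 1 ≤ g.m; omega), (pvtg_aIn_tgt g).symm⟩, T.tgt g.bOut,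
        ⟨g.c.n - 1, (by show g.m ≤ g.c.n - 1; omega), (by show g.c.n - 1 ≤ 0 + g.c.n; omega), (pvtg_bOut_tgt g).symm⟩, hj'⟩
    obtain ⟨v, hv1, hv2⟩ := pl_qd_excl hT Q c13 c24
    have hw := (pvtg_wbank_sub hT g hfin hv2).2
    rw [show s v = true from hv1] at hw
    exact Bool.noConfusion hw

/-- the data of ONE gate: right quadrilateral `Qp`, left quadrilateral `Qm`, two white landings, the upper arch, the two white crossings in the seas, the lower arch -/
structure PvaqGate (T : PvMap V D) (s : V → Bool) (A : Set D) (Qp Qm : T.Quad) (up um : V) (U Lw : Set V) : Prop where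
  subp : Qp.c.Left ⊆ A
  subm : Qm.c.Left ⊆ A
  /-- the two landings -/
  landp : ∃ b P, PvaqLand Qp s false b up P ∧ P ⊆ U ∧ ∃ b' P', PvaqLand Qm s false b' um P' ∧ P' ⊆ U ∧ T.Join A (U ∪ {um, up}) b b'
  /-- the upper arc is white and unexplored -/
  U_wh : ∀ v ∈ U, s v = false
  U_offp : Disjoint U (Qp.Exp s)
  U_offm : Disjoint U (Qm.Exp s)
  /-- the lower arch: white, disjoint from the upper arc, it joins a white 1-3 crossing in the sea of `Qp` to one in the sea of `Qm` -/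
  Lw_wh : ∀ v ∈ Lw, s v = false
  disj : Disjoint U Lw
  low : ∃ Yp Ym, Qp.Cr13 Yp ∧ Yp ⊆ Qp.SeaC s ∧ Qm.Cr13 Ym ∧ Ym ⊆ Qm.SeaC s ∧ ∀ y ∈ Yp, ∀ y' ∈ Ym, T.Join A (Lw ∪ Qp.SeaC s ∪ Qm.SeaC s) y y'
  ne : um ≠ up
  nadj : ¬ T.Adj um up

/-- **D4 (GATE)** -/
theorem pvaq_gate [Nonempty D] (hT : T.IsSph) {s : V → Bool} {A : Set D} {Qp Qm : T.Quad} {up um : V} {U Lw : Set V} (h : PvaqGate T s A Qp Qm up um U Lw) :
    ∃ g : T.Gate s, g.vm = um ∧ g.vp = up ∧ g.R ⊆ Lw ∪ Qp.SeaC s ∪ Qm.SeaC s ∧ g.L ⊆ U ∧ ∀ i, g.c.e i ∈ A ∨ T.opp (g.c.e i) ∈ A := by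
  obtain ⟨b, P, hp, hPU, b', P', hm, hPU', hbb⟩ := h.landp
  obtain ⟨Yp, Ym, hYp, hYps, hYm, hYms, hlow⟩ := h.low
  obtain ⟨w, hw, hwu, y, hy, hwy⟩ := pvaq_down hT Qp hp hYp hYps
  obtain ⟨w', hw', hwu', y', hy', hwy'⟩ := pvaq_down hT Qm hm hYm hYms
  have emono : ∀ {B : Set D} {a c : V}, B ⊆ A → T.EdgeIn B a c → T.EdgeIn A a c := by
    rintro B a c hB ⟨d, hd, e1, e2⟩
    exact ⟨d, hd.imp (fun h => hB h) (fun h => hB h), e1, e2⟩
  refine pvaq_gate_of_join (pvaq_low_black Qm s hm.low) (pvaq_low_black Qp s hp.low) h.ne h.nadj (A := A) (R := Lw ∪ Qp.SeaC s ∪ Qm.SeaC s) (L := U) ?_ h.U_wh ?_ ?_ ?_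
  · rintro v ((hv | hv) | hv)
    · exact h.Lw_wh v hv
    · exact pvaq_sea_white Qp s hv
    · exact pvaq_sea_white Qm s hv
  · rw [Set.disjoint_left]
    rintro v ((hv | hv) | hv) hU
    · exact Set.disjoint_left.1 h.disj hU hv
    · exact Set.disjoint_left.1 h.U_offp hU (Or.inl hv)
    · exact Set.disjoint_left.1 h.U_offm hU (Or.inl hv)
  · have j0 : T.Join A (Lw ∪ Qp.SeaC s ∪ Qm.SeaC s ∪ {um, up}) um um := pl_hx_join_refl (Or.inr (Or.inl rfl))
    have j1 : T.Join A (Lw ∪ Qp.SeaC s ∪ Qm.SeaC s ∪ {um, up}) um w' := pl_hx_join_tail j0 (emono h.subm (pl_hx_edgeIn_symm hwu')) (Or.inl (Or.inr hw'))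
    have j2 : T.Join A (Lw ∪ Qp.SeaC s ∪ Qm.SeaC s ∪ {um, up}) w' y' := pl_hx_join_mono h.subm (fun v hv => Or.inl (Or.inr hv)) hwy'
    have j3 : T.Join A (Lw ∪ Qp.SeaC s ∪ Qm.SeaC s ∪ {um, up}) y y' := pl_hx_join_mono Set.Subset.rfl Set.subset_union_left (hlow y hy y' hy')
    have j4 : T.Join A (Lw ∪ Qp.SeaC s ∪ Qm.SeaC s ∪ {um, up}) w y := pl_hx_join_mono h.subp (fun v hv => Or.inl (Or.inl (Or.inr hv))) hwy
    exact pl_hx_join_tail (pl_hx_join_trans (pl_hx_join_trans (pl_hx_join_trans j1 j2) (pl_hx_join_symm j3)) (pl_hx_join_symm j4)) (emono h.subp hwu) (Or.inr (Or.inr rfl))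
  · have j1 : T.Join A (U ∪ {um, up}) b up := pl_hx_join_mono h.subp (by
      rintro v (hv | hv)
      · exact Or.inl (hPU hv)
      · exact Or.inr (Or.inr hv)) hp.join
    have j2 : T.Join A (U ∪ {um, up}) b' um := pl_hx_join_mono h.subm (by
      rintro v (hv | hv)
      · exact Or.inl (hPU' hv)
      · exact Or.inr (Or.inl hv)) hm.join
    exact pl_hx_join_trans (pl_hx_join_trans (pl_hx_join_symm j1) hbb) j2

/-! ## 3. orientation by ray casting -/

/-- the ray casting weight of the directed edge `p → q` for the downward vertical ray from `z`: `+1` eastwards, `-1` westwards, `0` if the edge does not pass below `z` (half open convention `re ≤ z.re < re`) -/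
noncomputable def pvaqW (z p q : ℂ) : ℤ := by
  classical
  exact if p.re ≤ z.re ∧ z.re < q.re ∧ 0 < vorDet p q z then 1 else if q.re ≤ z.re ∧ z.re < p.re ∧ vorDet p q z < 0 then -1 else 0

/-- the sum of the weights along the first `n` darts of a sequence of darts -/
noncomputable def pvaqSum (T : PvMap V D) (pos : V → ℂ) (z : ℂ) (e : ℕ → D) (n : ℕ) : ℤ := ∑ i ∈ Finset.range n, pvaqW z (pos (T.src (e i))) (pos (T.tgt (e i)))

theorem pvaq_eqns_cite2 : True := by
  have := @pvaqW.eq_1; have := @pvaqSum.eq_1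
  trivial

theorem pvaq_det_swap (p q z : ℂ) : vorDet q p z = - vorDet p q z := by unfold vorDet; ring

theorem pvaq_w_E {z p q : ℂ} (h1 : p.re ≤ z.re) (h2 : z.re < q.re) : pvaqW z p q = if 0 < vorDet p q z then 1 else 0 := by
  unfold pvaqW
  by_cases h : 0 < vorDet p q z
  · rw [if_pos ⟨h1, h2, h⟩, if_pos h]
  · rw [if_neg (fun hh => h hh.2.2), if_neg (fun hh => absurd hh.1 (not_le.2 h2)), if_neg h]

theorem pvaq_w_Wt {z p q : ℂ} (h1 : q.re ≤ z.re) (h2 : z.re < p.re) : pvaqW z p q = if vorDet p q z < 0 then -1 else 0 := by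
  unfold pvaqW
  rw [if_neg (fun hh => absurd hh.1 (not_le.2 h2))]
  by_cases h : vorDet p q z < 0
  · rw [if_pos ⟨h1, h2, h⟩, if_pos h]
  · rw [if_neg (fun hh => h hh.2.2), if_neg h]

theorem pvaq_w_LL {z p q : ℂ} (h1 : p.re ≤ z.re) (h2 : q.re ≤ z.re) : pvaqW z p q = 0 := by
  unfold pvaqW
  rw [if_neg (fun hh => absurd hh.2.1 (not_lt.2 h2)), if_neg (fun hh => absurd hh.2.1 (not_lt.2 h1))]

theorem pvaq_w_RR {z p q : ℂ} (h1 : z.re < p.re) (h2 : z.re < q.re) : pvaqW z p q = 0 := by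
  unfold pvaqW
  rw [if_neg (fun hh => absurd hh.1 (not_le.2 h1)), if_neg (fun hh => absurd hh.1 (not_le.2 h2))]

theorem pvaq_w_anti (z p q : ℂ) : pvaqW z q p = - pvaqW z p q := by
  rcases le_or_gt p.re z.re with hp | hp <;> rcases le_or_gt q.re z.re with hq | hq
  · rw [pvaq_w_LL hq hp, pvaq_w_LL hp hq, neg_zero]
  · rw [pvaq_w_Wt hp hq, pvaq_w_E hp hq, pvaq_det_swap p q z]
    by_cases h : 0 < vorDet p q z
    · rw [if_pos (by linarith), if_pos h]
    · rw [if_neg (by linarith), if_neg h, neg_zero]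
  · rw [pvaq_w_E hq hp, pvaq_w_Wt hq hp, pvaq_det_swap p q z]
    by_cases h : vorDet p q z < 0
    · rw [if_pos (by linarith), if_pos h, neg_neg]
    · rw [if_neg (by linarith), if_neg h, neg_zero]
  · rw [pvaq_w_RR hq hp, pvaq_w_RR hp hq, neg_zero]

theorem pvaq_det_sum (a b c z : ℂ) : vorDet b c z + vorDet c a z + vorDet a b z = vorDet a b c := by unfold vorDet; ring
theorem pvaq_det_bary (a b c z : ℂ) : vorDet b c z * a.re + vorDet c a z * b.re + vorDet a b z * c.re = z.re * vorDet a b c := by unfold vorDet; ring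
theorem pvaq_det_cyc (a b c : ℂ) : vorDet b c a = vorDet a b c := by unfold vorDet; ring

/-- two vertices west, one east -/
theorem pvaq_w_tri_LLR {a b c : ℂ} (h : 0 < vorDet a b c) (z : ℂ) (ha : a.re ≤ z.re) (hb : b.re ≤ z.re) (hc : z.re < c.re) :
    (pvaqW z a b + pvaqW z b c + pvaqW z c a = 0 ∨ pvaqW z a b + pvaqW z b c + pvaqW z c a = 1) ∧ (pvaqW z a b + pvaqW z b c + pvaqW z c a = 1 → z ∈ delT a b c) := by
  have hs := pvaq_det_sum a b c z
  have hy := pvaq_det_bary a b c z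
  rw [pvaq_w_LL ha hb, pvaq_w_E hb hc, pvaq_w_Wt ha hc]
  set α := vorDet b c z
  set β := vorDet c a z
  set γ := vorDet a b z
  set Δ := vorDet a b c
  by_cases h1 : 0 < α <;> by_cases h2 : β < 0
  · rw [if_pos h1, if_pos h2]; exact ⟨Or.inl (by norm_num), fun h => absurd h (by norm_num)⟩
  · rw [if_pos h1, if_neg h2]
    refine ⟨Or.inr (by norm_num), fun _ => ⟨?_, h1.le, not_lt.1 h2⟩⟩
    by_contra hγ
    have hγ' : γ < 0 := not_le.1 hγ
    have e1 : α * a.re ≤ α * z.re := mul_le_mul_of_nonneg_left ha h1.le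
    have e2 : β * b.re ≤ β * z.re := mul_le_mul_of_nonneg_left hb (not_lt.1 h2)
    have e3 : γ * c.re < γ * z.re := mul_lt_mul_of_neg_left hc hγ'
    have e4 : z.re * Δ = α * z.re + β * z.re + γ * z.re := by rw [← hs]; ring
    linarith
  · exfalso
    have hγ' : 0 < γ := by linarith
    have e1 : α * z.re ≤ α * a.re := mul_le_mul_of_nonpos_left ha (not_lt.1 h1)
    have e2 : β * z.re ≤ β * b.re := mul_le_mul_of_nonpos_left hb h2.le
    have e3 : γ * z.re < γ * c.re := mul_lt_mul_of_pos_left hc hγ'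
    have e4 : z.re * Δ = α * z.re + β * z.re + γ * z.re := by rw [← hs]; ring
    linarith
  · rw [if_neg h1, if_neg h2]; exact ⟨Or.inl (by norm_num), fun h => absurd h (by norm_num)⟩

/-- two vertices east, one west -/
theorem pvaq_w_tri_RRL {a b c : ℂ} (h : 0 < vorDet a b c) (z : ℂ) (ha : z.re < a.re) (hb : z.re < b.re) (hc : c.re ≤ z.re) :
    (pvaqW z a b + pvaqW z b c + pvaqW z c a = 0 ∨ pvaqW z a b + pvaqW z b c + pvaqW z c a = 1) ∧ (pvaqW z a b + pvaqW z b c + pvaqW z c a = 1 → z ∈ delT a b c) := by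
  have hs := pvaq_det_sum a b c z
  have hy := pvaq_det_bary a b c z
  rw [pvaq_w_RR ha hb, pvaq_w_Wt hc hb, pvaq_w_E hc ha]
  set α := vorDet b c z
  set β := vorDet c a z
  set γ := vorDet a b z
  set Δ := vorDet a b c
  have e4 : z.re * Δ = α * z.re + β * z.re + γ * z.re := by rw [← hs]; ring
  by_cases h1 : α < 0 <;> by_cases h2 : 0 < β
  · rw [if_pos h1, if_pos h2]; exact ⟨Or.inl (by norm_num), fun h => absurd h (by norm_num)⟩
  · exfalso
    have hγ' : 0 < γ := by linarith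
    have e1 : α * a.re < α * z.re := mul_lt_mul_of_neg_left ha h1
    have e2 : β * b.re ≤ β * z.re := mul_le_mul_of_nonpos_left hb.le (not_lt.1 h2)
    have e3 : γ * c.re ≤ γ * z.re := mul_le_mul_of_nonneg_left hc hγ'.le
    linarith
  · rw [if_neg h1, if_pos h2]
    refine ⟨Or.inr (by norm_num), fun _ => ⟨?_, not_lt.1 h1, h2.le⟩⟩
    by_contra hγ
    have hγ' : γ < 0 := not_le.1 hγ
    have e1 : α * z.re ≤ α * a.re := mul_le_mul_of_nonneg_left ha.le (not_lt.1 h1)
    have e2 : β * z.re < β * b.re := mul_lt_mul_of_pos_left hb h2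
    have e3 : γ * z.re ≤ γ * c.re := mul_le_mul_of_nonpos_left hc hγ'.le
    linarith
  · rw [if_neg h1, if_neg h2]; exact ⟨Or.inl (by norm_num), fun h => absurd h (by norm_num)⟩

theorem pvaq_delT_cyc {a b c z : ℂ} (h : z ∈ delT b c a) : z ∈ delT a b c := ⟨h.2.2, h.1, h.2.1⟩

/-- **the triangle**: winding number of a positively oriented triangle by ray casting -/
theorem pvaq_w_tri {a b c : ℂ} (h : 0 < vorDet a b c) (z : ℂ) :
    (pvaqW z a b + pvaqW z b c + pvaqW z c a = 0 ∨ pvaqW z a b + pvaqW z b c + pvaqW z c a = 1) ∧ (pvaqW z a b + pvaqW z b c + pvaqW z c a = 1 → z ∈ delT a b c) := by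
  have h' : 0 < vorDet b c a := by rw [pvaq_det_cyc]; exact h
  have h'' : 0 < vorDet c a b := by rw [pvaq_det_cyc]; exact h'
  have r1 : pvaqW z a b + pvaqW z b c + pvaqW z c a = pvaqW z b c + pvaqW z c a + pvaqW z a b := by ring
  have r2 : pvaqW z a b + pvaqW z b c + pvaqW z c a = pvaqW z c a + pvaqW z a b + pvaqW z b c := by ring
  rcases le_or_gt a.re z.re with ha | ha <;> rcases le_or_gt b.re z.re with hb | hb <;> rcases le_or_gt c.re z.re with hc | hc
  · rw [pvaq_w_LL ha hb, pvaq_w_LL hb hc, pvaq_w_LL hc ha]; exact ⟨Or.inl (by norm_num), fun h => absurd h (by norm_num)⟩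
  · exact pvaq_w_tri_LLR h z ha hb hc
  · -- a L, b R, c L : rotate to (c, a, b)
    have := pvaq_w_tri_LLR h'' z hc ha hb
    rw [r2]
    exact ⟨this.1, fun e => pvaq_delT_cyc (pvaq_delT_cyc (this.2 e))⟩
  · -- a L, b R, c R : rotate to (b, c, a)
    have := pvaq_w_tri_RRL h' z hb hc ha
    rw [r1]
    exact ⟨this.1, fun e => pvaq_delT_cyc (this.2 e)⟩
  · -- a R, b L, c L : rotate to (b, c, a)
    have := pvaq_w_tri_LLR h' z hb hc ha
    rw [r1]
    exact ⟨this.1, fun e => pvaq_delT_cyc (this.2 e)⟩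
  · -- a R, b L, c R : rotate to (c, a, b)
    have := pvaq_w_tri_RRL h'' z hc ha hb
    rw [r2]
    exact ⟨this.1, fun e => pvaq_delT_cyc (pvaq_delT_cyc (this.2 e))⟩
  · exact pvaq_w_tri_RRL h z ha hb hc
  · rw [pvaq_w_RR ha hb, pvaq_w_RR hb hc, pvaq_w_RR hc ha]; exact ⟨Or.inl (by norm_num), fun h => absurd h (by norm_num)⟩


theorem pvaq_w_low {z p q : ℂ} (h1 : p.re ≤ z.re ∧ z.re < q.re → 0 < vorDet p q z) (h2 : q.re ≤ z.re ∧ z.re < p.re → vorDet p q z < 0) :
    pvaqW z p q = (if z.re < q.re then 1 else 0) - (if z.re < p.re then 1 else 0) := by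
  rcases le_or_gt p.re z.re with hp | hp <;> rcases le_or_gt q.re z.re with hq | hq
  · rw [pvaq_w_LL hp hq, if_neg (not_lt.2 hq), if_neg (not_lt.2 hp)]; norm_num
  · rw [pvaq_w_E hp hq, if_pos (h1 ⟨hp, hq⟩), if_pos hq, if_neg (not_lt.2 hp)]; norm_num
  · rw [pvaq_w_Wt hq hp, if_pos (h2 ⟨hq, hp⟩), if_neg (not_lt.2 hq), if_pos hp]; norm_num
  · rw [pvaq_w_RR hp hq, if_pos hq, if_pos hp]; norm_num

theorem pvaq_w_up {z p q : ℂ} (h1 : p.re ≤ z.re ∧ z.re < q.re → vorDet p q z ≤ 0) (h2 : q.re ≤ z.re ∧ z.re < p.re → 0 ≤ vorDet p q z) : pvaqW z p q = 0 := by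
  rcases le_or_gt p.re z.re with hp | hp <;> rcases le_or_gt q.re z.re with hq | hq
  · exact pvaq_w_LL hp hq
  · rw [pvaq_w_E hp hq, if_neg (not_lt.2 (h1 ⟨hp, hq⟩))]
  · rw [pvaq_w_Wt hq hp, if_neg (not_lt.2 (h2 ⟨hq, hp⟩))]
  · exact pvaq_w_RR hp hq

/-- telescoping along a sequence of points -/
theorem pvaq_seq_low (x : ℕ → ℂ) (z : ℂ) : ∀ k : ℕ,
    (∀ i, i < k → ((x i).re ≤ z.re ∧ z.re < (x (i + 1)).re → 0 < vorDet (x i) (x (i + 1)) z) ∧ ((x (i + 1)).re ≤ z.re ∧ z.re < (x i).re → vorDet (x i) (x (i + 1)) z < 0)) →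
    ∑ i ∈ Finset.range k, pvaqW z (x i) (x (i + 1)) = (if z.re < (x k).re then 1 else 0) - (if z.re < (x 0).re then 1 else 0) := by
  intro k
  induction k with
  | zero => intro _; simp
  | succ k ih =>
    intro h
    rw [Finset.sum_range_succ, ih (fun i hi => h i (Nat.lt_succ_of_lt hi)), pvaq_w_low (h k (Nat.lt_succ_self k)).1 (h k (Nat.lt_succ_self k)).2]
    ring

theorem pvaq_sum_congr (pos : V → ℂ) (z : ℂ) (e : ℕ → D) (n : ℕ) (x : ℕ → ℂ) (h1 : ∀ i, i < n → pos (T.src (e i)) = x i) (h2 : ∀ i, i < n → pos (T.tgt (e i)) = x (i + 1)) :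
    pvaqSum T pos z e n = ∑ i ∈ Finset.range n, pvaqW z (x i) (x (i + 1)) := by
  unfold pvaqSum
  refine Finset.sum_congr rfl fun i hi => ?_
  rw [h1 i (Finset.mem_range.1 hi), h2 i (Finset.mem_range.1 hi)]

/-- **TELESCOPING**: a path all of whose straddling edges pass below `z` -/
theorem pvaq_w_path {pos : V → ℂ} (p : T.Pth) (z : ℂ)
    (hlow : ∀ i, i < p.n → ((pos (p.v i)).re ≤ z.re ∧ z.re < (pos (p.v (i + 1))).re → 0 < vorDet (pos (p.v i)) (pos (p.v (i + 1))) z) ∧
      ((pos (p.v (i + 1))).re ≤ z.re ∧ z.re < (pos (p.v i)).re → vorDet (pos (p.v i)) (pos (p.v (i + 1))) z < 0)) :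
    pvaqSum T pos z p.e p.n = (if z.re < (pos (p.v p.n)).re then 1 else 0) - (if z.re < (pos (p.v 0)).re then 1 else 0) := by
  rw [pvaq_sum_congr pos z p.e p.n (fun i => pos (p.v i)) (fun i hi => by rw [p.src_e i hi]) (fun i hi => by rw [p.tgt_e i hi])]
  exact pvaq_seq_low (fun i => pos (p.v i)) z p.n hlow

/-- a path none of whose straddling edges passes below `z` -/
theorem pvaq_w_path_zero {pos : V → ℂ} (p : T.Pth) (z : ℂ)
    (hup : ∀ i, i < p.n → ((pos (p.v i)).re ≤ z.re ∧ z.re < (pos (p.v (i + 1))).re → vorDet (pos (p.v i)) (pos (p.v (i + 1))) z ≤ 0) ∧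
      ((pos (p.v (i + 1))).re ≤ z.re ∧ z.re < (pos (p.v i)).re → 0 ≤ vorDet (pos (p.v i)) (pos (p.v (i + 1))) z)) :
    pvaqSum T pos z p.e p.n = 0 := by
  unfold pvaqSum
  refine Finset.sum_eq_zero fun i hi => ?_
  have hi' := Finset.mem_range.1 hi
  rw [p.src_e i hi', p.tgt_e i hi']
  exact pvaq_w_up (hup i hi').1 (hup i hi').2

/-- the weight of a dart -/
noncomputable def pvaqD (T : PvMap V D) (pos : V → ℂ) (z : ℂ) (d : D) : ℤ := pvaqW z (pos (T.src d)) (pos (T.tgt d))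

theorem pvaq_d_opp (pos : V → ℂ) (z : ℂ) (d : D) : pvaqD T pos z (T.opp d) = - pvaqD T pos z d := by
  unfold pvaqD
  rw [T.src_opp', T.tgt_opp, pvaq_w_anti]

/-- **DISCRETE STOKES**: the sum over a cycle with finite left side -/
theorem pvaq_wind (hT : T.IsSph) {pos : V → ℂ} (G : PlGeo T pos) (c : T.Cyc) (hfin : c.Left.Finite) (z : ℂ) :
    0 ≤ pvaqSum T pos z c.e c.n ∧ (1 ≤ pvaqSum T pos z c.e c.n → z ∈ T.real pos c.Left) := by
  classical
  set F := hfin.toFinset with hF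
  have hmem : ∀ d, d ∈ F ↔ d ∈ c.Left := fun d => by rw [hF, Set.Finite.mem_toFinset]
  have hface := pl_left_face c
  set w := pvaqD T pos z with hw
  -- (1) interior edges cancel
  have s1 : ∑ d ∈ F.filter (fun d => T.opp d ∈ F), w d = 0 := by
    refine Finset.sum_involution (fun d _ => T.opp d) ?_ ?_ ?_ ?_
    · intro d _
      rw [hw, pvaq_d_opp]; ring
    · intro d _ _
      exact T.opp_ne_self d
    · intro d hd
      rw [Finset.mem_filter] at hd ⊢
      exact ⟨hd.2, by rw [T.opp_opp]; exact hd.1⟩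
    · intro d _
      exact T.opp_opp d
  -- (2) the boundary darts are the darts of the cycle
  have s2 : ∑ d ∈ F.filter (fun d => ¬ T.opp d ∈ F), w d = pvaqSum T pos z c.e c.n := by
    have himg : F.filter (fun d => ¬ T.opp d ∈ F) = (Finset.range c.n).image c.e := by
      ext d
      rw [Finset.mem_filter, hmem, hmem, ← pl_cyc_darts_iff hT c d, pl_cyc_darts_eq, Finset.mem_image]
      constructor
      · rintro ⟨i, hi, rfl⟩; exact ⟨i, Finset.mem_range.2 hi, rfl⟩
      · rintro ⟨i, hi, rfl⟩; exact ⟨i, Finset.mem_range.1 hi, rfl⟩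
    rw [himg, Finset.sum_image]
    · rfl
    · intro i hi j hj hij
      exact c.inj i j (Finset.mem_range.1 (Finset.mem_coe.1 hi)) (Finset.mem_range.1 (Finset.mem_coe.1 hj)) (by rw [hij])
  have s3 : ∑ d ∈ F, w d = pvaqSum T pos z c.e c.n := by
    rw [← Finset.sum_filter_add_sum_filter_not F (fun d => T.opp d ∈ F), s1, s2, zero_add]
  -- (3) sum over the faces
  have hn : ∀ f : D → ℤ, ∑ d ∈ F, f (T.nxt d) = ∑ d ∈ F, f d := by
    intro f
    refine Finset.sum_bij' (fun d _ => T.nxt d) (fun d _ => T.nxt (T.nxt d)) ?_ ?_ ?_ ?_ ?_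
    · intro d hd; rw [hmem] at hd ⊢; exact (hface d).2 hd
    · intro d hd; rw [hmem] at hd ⊢; exact (hface _).2 ((hface d).2 hd)
    · intro d _; exact T.nxt3 d
    · intro d _; exact T.nxt3 d
    · intro d _; rfl
  set t : D → ℤ := fun d => w d + w (T.nxt d) + w (T.nxt (T.nxt d)) with ht
  have s4 : ∑ d ∈ F, t d = 3 * pvaqSum T pos z c.e c.n := by
    rw [ht, Finset.sum_add_distrib, Finset.sum_add_distrib, hn w, hn (fun d => w (T.nxt d)), hn w, s3]; ring
  have htri : ∀ d, (t d = 0 ∨ t d = 1) ∧ (t d = 1 → z ∈ T.tri pos d) := by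
    intro d
    have h := pvaq_w_tri (G.orient d) z
    have e : t d = pvaqW z (pos (T.src d)) (pos (T.tgt d)) + pvaqW z (pos (T.tgt d)) (pos (T.apex d)) + pvaqW z (pos (T.apex d)) (pos (T.src d)) := by
      show pvaqD T pos z d + pvaqD T pos z (T.nxt d) + pvaqD T pos z (T.nxt (T.nxt d)) = _
      unfold pvaqD
      rw [T.tgt_nxt2]
      rfl
    rw [e]
    exact h
  have hnn : 0 ≤ ∑ d ∈ F, t d := Finset.sum_nonneg fun d _ => by rcases (htri d).1 with h | h <;> rw [h] <;> norm_num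
  refine ⟨by omega, fun h1 => ?_⟩
  have hpos : 0 < ∑ d ∈ F, t d := by omega
  obtain ⟨d, hd, hd0⟩ := Finset.exists_lt_of_sum_lt (s := F) (f := fun _ => (0 : ℤ)) (g := t) (by simpa using hpos)
  have hd1 : t d = 1 := by
    rcases (htri d).1 with h | h
    · rw [h] at hd0; exact absurd hd0 (lt_irrefl _)
    · exact h
  exact ⟨d, (hmem d).1 hd, (htri d).2 hd1⟩


theorem pvaq_eqns_cite3 : True := by
  have := @pvaqD.eq_1
  trivial

/-- the sum over the reversed cycle -/
theorem pvaq_sum_rev {pos : V → ℂ} (z : ℂ) (c c' : T.Cyc) (hn : c'.n = c.n) (he : ∀ i, i < c.n → c'.e i = T.opp (c.e (c.n - 1 - i))) :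
    pvaqSum T pos z c'.e c'.n = - pvaqSum T pos z c.e c.n := by
  have e1 : pvaqSum T pos z c'.e c'.n = ∑ i ∈ Finset.range c.n, - pvaqD T pos z (c.e (c.n - 1 - i)) := by
    unfold pvaqSum
    rw [hn]
    refine Finset.sum_congr rfl fun i hi => ?_
    rw [he i (Finset.mem_range.1 hi)]
    exact pvaq_d_opp pos z _
  rw [e1, Finset.sum_neg_distrib, Finset.sum_range_reflect (fun i => pvaqD T pos z (c.e i)) c.n]
  rfl

/-- **ORIENTATION**: the ray casting sum is `+1`: the LEFT side is the finite one, and `z` lies in it -/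
theorem pvaq_orient (hT : T.IsSph) {pos : V → ℂ} (G : PlGeo T pos) (c : T.Cyc) (z : ℂ) (h1 : pvaqSum T pos z c.e c.n = 1) :
    c.Left.Finite ∧ z ∈ T.real pos c.Left := by
  have key : c.Left.Finite := by
    rcases pl_jordan_finite hT c with h | h
    · exact h
    · exfalso
      obtain ⟨c', hn, he, -, hL, -⟩ := pl_cyc_rev hT c
      have hw := (pvaq_wind hT G c' (by rw [hL]; exact h) z).1
      rw [pvaq_sum_rev z c c' hn he, h1] at hw
      omega
  exact ⟨key, (pvaq_wind hT G c key z).2 (by rw [h1])⟩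

/-- **ORIENTATION OF A GATE**: the right arc runs from west to east below `z`, the left arc never passes below `z` -/
theorem pvaq_gate_orient (hT : T.IsSph) {pos : V → ℂ} (G : PlGeo T pos) {s : V → Bool} (g : T.Gate s) (z : ℂ)
    (hm : (pos g.vm).re ≤ z.re) (hp : z.re < (pos g.vp).re)
    (hR : ∀ i, i < g.m → ((pos (T.src (g.c.e i))).re ≤ z.re ∧ z.re < (pos (T.src (g.c.e (i + 1)))).re → 0 < vorDet (pos (T.src (g.c.e i))) (pos (T.src (g.c.e (i + 1)))) z) ∧
      ((pos (T.src (g.c.e (i + 1)))).re ≤ z.re ∧ z.re < (pos (T.src (g.c.e i))).re → vorDet (pos (T.src (g.c.e i))) (pos (T.src (g.c.e (i + 1)))) z < 0))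
    (hL : ∀ i, g.m ≤ i → i < g.c.n → ((pos (T.src (g.c.e i))).re ≤ z.re ∧ z.re < (pos (T.src (g.c.e (i + 1)))).re → vorDet (pos (T.src (g.c.e i))) (pos (T.src (g.c.e (i + 1)))) z ≤ 0) ∧
      ((pos (T.src (g.c.e (i + 1)))).re ≤ z.re ∧ z.re < (pos (T.src (g.c.e i))).re → 0 ≤ vorDet (pos (T.src (g.c.e i))) (pos (T.src (g.c.e (i + 1)))) z)) :
    g.c.Left.Finite ∧ z ∈ T.real pos g.c.Left := by
  refine pvaq_orient hT G g.c z ?_
  rw [pvaq_sum_congr pos z g.c.e g.c.n (fun i => pos (T.src (g.c.e i))) (fun _ _ => rfl) (fun i _ => by rw [g.c.chain i])]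
  have hmn : g.m ≤ g.c.n := by have := g.hmn; omega
  rw [Finset.range_eq_Ico, ← Finset.sum_Ico_consecutive _ (Nat.zero_le g.m) hmn, ← Finset.range_eq_Ico,
    pvaq_seq_low (fun i => pos (T.src (g.c.e i))) z g.m hR]
  have h0 : ∑ i ∈ Finset.Ico g.m g.c.n, pvaqW z (pos (T.src (g.c.e i))) (pos (T.src (g.c.e (i + 1)))) = 0 := by
    refine Finset.sum_eq_zero fun i hi => ?_
    rw [Finset.mem_Ico] at hi
    exact pvaq_w_up (hL i hi.1 hi.2).1 (hL i hi.1 hi.2).2
  rw [h0]
  have e1 : z.re < (pos (T.src (g.c.e g.m))).re := hp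
  have e2 : ¬ z.re < (pos (T.src (g.c.e 0))).re := not_lt.2 hm
  rw [if_pos e1, if_neg e2]
  norm_num

end Claimed.Agent.R289
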