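-- KEEP
import Claimed.Agent.R289.Pl.Path
import Claimed.Agent.R289.Pl.Rim
import Claimed.Agent.R289.Pl.Wall
import Claimed.Agent.R289.Tr.Close

/-!
# Row 289 (S0537), WALL, file Tr/Arc : ARC CANDIDATES, FACED PATHS, the events `B_g`, `N_g`, and TR11 (ACT), TR13 (SHIELD)      (author helper6; prefix `pvta_`)

Note of record: `origin/helper6:notes/R289/W2c_6.md` (N1'' = first moment over arcs + Harris), v2 = FACED form (with C2/C3 of helper202, `Tr/Close.lean`).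
Colours: `true` = colour of the path ("black"), `false` = the opposing colour ("white").

* `Pth.rap k`      right apex of the `k`-th dart of a path (third vertex of the face on its RIGHT).
* `pvtaB g s`      `B_g`: all the vertices of `g` are black.
* `pvtaN g s U 𝔄`  `N_g`: every right apex of `g` is joined to `𝔄` by a white path inside `U \ g`.      INCREASING in white, does not read the colours of `g`.
* `pvta_cut`, `pvta_act`   TR11: the arcs of an actual rim satisfy `N_g` for `𝔄 = {one more right apex of the rim} ∪ Λ`, `Λ` = boundary layer of `U`.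
* `pvta_shield`    TR13a: `Z = g ∪ q`, `q` white, ending at the right apex of the last dart of the complementary black path `R`; then a white path from a right apex of `g` to a vertex that is joined to `R` off `Z` meets `q`.
-/

set_option autoImplicit false

namespace Claimed.Agent.R289

open Relation

variable {V D : Type} {T : PvMap V D}

/-- right apex of the `k`-th dart of a path -/
def PvMap.Pth.rap (p : T.Pth) (k : ℕ) : V := T.apex (T.opp (p.e k))

/-- `B_g` -/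
def pvtaB (g : T.Pth) (s : V → Bool) : Prop := ∀ i, i ≤ g.n → s (g.v i) = true

/-- `N_g^{U,𝔄}` -/
def pvtaN (g : T.Pth) (s : V → Bool) (U 𝔄 : Set V) : Prop :=
  ∀ k, k < g.n → ∃ a ∈ 𝔄, T.Join Set.univ {v | v ∈ U ∧ v ∉ g.verts ∧ s v = false} (g.rap k) a

theorem pvta_eqns_cite : True := by
  have := @PvMap.Pth.rap.eq_1; have := @pvtaB.eq_1; have := @pvtaN.eq_1
  trivial

/-- `N_g` does not read the colours of `g` -/
theorem pvta_N_congr (g : T.Pth) {s s' : V → Bool} (U 𝔄 : Set V) (h : ∀ v, v ∉ g.verts → s v = s' v) : pvtaN g s U 𝔄 ↔ pvtaN g s' U 𝔄 := by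
  have e : {v | v ∈ U ∧ v ∉ g.verts ∧ s v = false} = {v | v ∈ U ∧ v ∉ g.verts ∧ s' v = false} := by
    ext v
    constructor
    · rintro ⟨h1, h2, h3⟩
      exact ⟨h1, h2, by rw [← h v h2]; exact h3⟩
    · rintro ⟨h1, h2, h3⟩
      exact ⟨h1, h2, by rw [h v h2]; exact h3⟩
  unfold pvtaN
  rw [e]

/-- `Join` is increasing in the set of allowed vertices -/
theorem pvta_join_mono {A : Set D} {X Y : Set V} (h : X ⊆ Y) {a b : V} (hj : T.Join A X a b) : T.Join A Y a b :=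
  ⟨h hj.1, ReflTransGen.mono (fun _ _ huv => ⟨huv.1, h huv.2⟩) _ _ hj.2⟩

/-- `N_g` is increasing in white -/
theorem pvta_N_mono (g : T.Pth) {s s' : V → Bool} (U 𝔄 : Set V) (h : ∀ v, s v = false → s' v = false) (hN : pvtaN g s U 𝔄) : pvtaN g s' U 𝔄 := by
  intro k hk
  obtain ⟨a, ha, hj⟩ := hN k hk
  refine ⟨a, ha, pvta_join_mono ?_ hj⟩
  rintro v ⟨h1, h2, h3⟩
  exact ⟨h1, h2, h v h3⟩

/-- **CUT**: a monochromatic path that starts in `U` reaches its end inside `U` or meets the boundary layer `Λ` -/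
theorem pvta_cut {s : V → Bool} {x a₀ : V} (h : T.Mono s x a₀) (U Λ : Set V) (hx : x ∈ U) (hΛ : ∀ u, u ∈ U → u ∉ Λ → ∀ w, T.Adj u w → w ∈ U) :
    ∃ a, (a = a₀ ∨ a ∈ Λ) ∧ T.Join Set.univ {v | v ∈ U ∧ s v = s x} x a := by
  have key : s a₀ = s x ∧ ∃ a, (a = a₀ ∨ a ∈ Λ) ∧ T.Join Set.univ {v | v ∈ U ∧ s v = s x} x a := by
    induction h with
    | refl => exact ⟨rfl, x, Or.inl rfl, ⟨hx, rfl⟩, ReflTransGen.refl⟩
    | @tail b c _ hbc ih =>
      obtain ⟨hsb, a, ha, hj⟩ := ih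
      have hsc : s c = s x := by rw [← hbc.2, hsb]
      refine ⟨hsc, ?_⟩
      rcases ha with rfl | ha
      · by_cases haΛ : a ∈ Λ
        · exact ⟨a, Or.inr haΛ, hj⟩
        · have haU : a ∈ U := by
            rcases ReflTransGen.cases_tail hj.2 with h0 | ⟨_, _, h1⟩
            · rw [h0]; exact hx
            · exact h1.2.1
          have hcU : c ∈ U := hΛ a haU haΛ c hbc.1
          obtain ⟨d, hd1, hd2⟩ := hbc.1
          exact ⟨c, Or.inl rfl, hj.1, hj.2.tail ⟨⟨d, Or.inl (Set.mem_univ _), hd1, hd2⟩, hcU, hsc⟩⟩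
      · exact ⟨a, Or.inr ha, hj⟩
  exact key.2

/-- **TR11 (ACT)**: `c` a black rim, `g` = its arc `x_i … x_(i+m)`, `j` any index (in the application: the dart which enters `x_i`) -/
theorem pvta_act (hT : T.IsSph) {c : T.Cyc} {s : V → Bool} (h : c.IsRim s) (hb : s (T.src (c.e 0)) = true) (i m j : ℕ) (hm : m < c.n) (U Λ : Set V)
    (hU : ∀ k, k < m → T.apex (T.opp (c.e (i + k))) ∈ U) (hΛ : ∀ u, u ∈ U → u ∉ Λ → ∀ w, T.Adj u w → w ∈ U) :
    pvtaB (c.pth i m) s ∧ pvtaN (c.pth i m) s U ({T.apex (T.opp (c.e j))} ∪ Λ) := by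
  have hB : ∀ k, s (T.src (c.e k)) = true := fun k => (pl_rim_col h k 0).trans hb
  refine ⟨fun k _ => hB (i + k), fun k hk => ?_⟩
  have hk' : k < m := lt_of_lt_of_le hk (min_le_left _ _)
  have hsx : s (T.apex (T.opp (c.e (i + k)))) = false := by
    have h1 := pl_rim_facing_col h (i + k)
    rw [hB] at h1
    simpa using h1
  obtain ⟨a, ha, hj⟩ := pvta_cut (pl_rim_facing hT h (i + k) j) U Λ (hU k hk') hΛ
  refine ⟨a, ha.imp (fun e => e) id, pvta_join_mono ?_ hj⟩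
  rintro v ⟨hv1, hv2⟩
  refine ⟨hv1, ?_, hv2.trans hsx⟩
  rintro ⟨l, -, rfl⟩
  have h1 : s (T.src (c.e (i + l))) = false := hv2.trans hsx
  rw [hB] at h1
  exact Bool.noConfusion h1

/-- the inner vertices of `R` are off the cycle `Z = g ∪ q` -/
theorem pvta_inner_off (g q R : T.Pth) (hgq : g.Glue q) (hgR : g.Glue R)
    (hRq : ∀ i j, 0 < i → i < R.n → j ≤ q.n → R.v i ≠ q.v j) {i : ℕ} (h0 : 0 < i) (hi : i < R.n) : R.v i ∉ (g.glue q hgq).verts := by
  rw [pl_pth_glue_verts]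
  rintro (⟨l, hl, hv⟩ | ⟨l, hl, hv⟩)
  · rcases hgR.hd l i hl hi.le hv with h1 | h1 <;> omega
  · exact hRq i l h0 hi hl hv.symm

/-- **TR13a (SIDE)**: the inner vertices of `R` lie strictly on the left of `Z = g ∪ q` -/
theorem pvta_side (hT : T.IsSph) (hS : T.Simple) (g q R : T.Pth) (hgq : g.Glue q) (hgR : g.Glue R) (hR2 : 2 ≤ R.n) (hq2 : 2 ≤ q.n)
    (hRq : ∀ i j, 0 < i → i < R.n → j ≤ q.n → R.v i ≠ q.v j) (hanc : q.v (q.n - 1) = R.rap (R.n - 1)) :
    ∀ i, 0 < i → i < R.n → R.v i ∈ T.Int (g.glue q hgq).Left := by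
  obtain ⟨-, hL, -, -⟩ := pl_jordan hT (g.glue q hgq)
  have hF := pl_left_face (g.glue q hgq)
  have hoff := fun {i : ℕ} (h0 : 0 < i) (hi : i < R.n) => pvta_inner_off g q R hgq hgR hRq h0 hi
  -- the last dart of `q` is a side of the face on the right of the last dart of `R`
  have e1 : q.e (q.n - 1) = T.nxt (T.nxt (T.opp (R.e (R.n - 1)))) := by
    apply hS
    · rw [q.src_e _ (by omega), hanc, T.src_nxt2]
      rfl
    · rw [q.tgt_e _ (by omega), T.tgt_nxt2, T.src_opp', R.tgt_e _ (by omega), show q.n - 1 + 1 = q.n by omega, show R.n - 1 + 1 = R.n by omega,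
        hgq.h2, hgR.h2]
  have e2 : T.nxt (T.nxt (T.opp (R.e (R.n - 1)))) ∈ (g.glue q hgq).Left := by
    rw [← e1, ← pl_pth_glue_e2 g q hgq (show q.n - 1 < q.n by omega)]
    exact hL _
  have e3 : T.nxt (T.opp (R.e (R.n - 1))) ∈ (g.glue q hgq).Left := (hF _).1 e2
  have e4 : T.src (T.nxt (T.opp (R.e (R.n - 1)))) = R.v (R.n - 1) := by
    rw [T.src_nxt, T.tgt_opp, R.src_e _ (by omega)]
  have hy : R.v (R.n - 1) ∈ T.Int (g.glue q hgq).Left := by
    have h1 : R.v (R.n - 1) ∈ T.VOf (g.glue q hgq).Left := ⟨_, e3, e4⟩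
    rw [pl_VOf_left hT] at h1
    exact h1.resolve_left (hoff (by omega) (by omega))
  have key : ∀ t, t + 1 < R.n → R.v (R.n - 1 - t) ∈ T.Int (g.glue q hgq).Left := by
    intro t
    induction t with
    | zero => intro _; exact hy
    | succ t ih =>
      intro ht
      refine pl_jordan_sep hT _ (ih (by omega)) (ReflTransGen.single ⟨?_, hoff (by omega) (by omega)⟩)
      refine ⟨T.opp (R.e (R.n - 1 - (t + 1))), ?_, ?_⟩
      · rw [T.src_opp', R.tgt_e _ (by omega)]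
        congr 1
        omega
      · rw [T.tgt_opp, R.src_e _ (by omega)]
  intro i h0 hi
  have := key (R.n - 1 - i) (by omega)
  rwa [show R.n - 1 - (R.n - 1 - i) = i by omega] at this

/-- a white vertex of `Z = g ∪ q` is an inner vertex of `q` -/
theorem pvta_white_on {s : V → Bool} (g q : T.Pth) (hgq : g.Glue q) (hg : pvtaB g s) {v : V} (hv : v ∈ (g.glue q hgq).verts) (hs : s v = false) :
    ∃ j, 0 < j ∧ j < q.n ∧ v = q.v j := by
  have hblack : ∀ l, l ≤ g.n → v ≠ g.v l := by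
    rintro l hl rfl
    rw [hg l hl] at hs
    exact Bool.noConfusion hs
  rw [pl_pth_glue_verts] at hv
  rcases hv with ⟨l, hl, rfl⟩ | ⟨l, hl, rfl⟩
  · exact absurd rfl (hblack l hl)
  · refine ⟨l, ?_, ?_, rfl⟩
    · rcases Nat.eq_zero_or_pos l with rfl | h
      · exact absurd hgq.h1.symm (hblack _ le_rfl)
      · exact h
    · rcases Nat.lt_or_ge l q.n with h | h
      · exact h
      · have : l = q.n := le_antisymm hl h
        subst this
        exact absurd hgq.h2 (hblack _ (Nat.zero_le _))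

/-- **TR13a (SHIELD)** -/
theorem pvta_shield (hT : T.IsSph) (hS : T.Simple) {s : V → Bool} (g q R : T.Pth) (hgq : g.Glue q) (hgR : g.Glue R) (hR2 : 2 ≤ R.n) (hq2 : 2 ≤ q.n)
    (hg : pvtaB g s) (hq : ∀ i, 0 < i → i < q.n → s (q.v i) = false)
    (hRq : ∀ i j, 0 < i → i < R.n → j ≤ q.n → R.v i ≠ q.v j) (hanc : q.v (q.n - 1) = R.rap (R.n - 1))
    {k : ℕ} (hk : k < g.n) {a : V} (ha : ∃ i, 0 < i ∧ i < R.n ∧ ReflTransGen (fun u v => T.Adj u v ∧ v ∉ (g.glue q hgq).verts) (R.v i) a)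
    (hj : T.Join Set.univ {v | s v = false} (g.rap k) a) :
    ∃ j, 0 < j ∧ j < q.n ∧ T.Mono s (g.rap k) (q.v j) := by
  obtain ⟨hRL, -, hO, -⟩ := pl_jordan hT (g.glue q hgq)
  obtain ⟨-, -, hdis⟩ := pl_jordan_vert_disj hT (g.glue q hgq)
  have haL : a ∈ T.Int (g.glue q hgq).Left := by
    obtain ⟨i, h0, hi, hp⟩ := ha
    exact pl_jordan_sep hT _ (pvta_side hT hS g q R hgq hgR hR2 hq2 hRq hanc i h0 hi) hp
  have hoffR : ∀ c, c ∉ (g.glue q hgq).verts → ∀ d, T.src d = c → ¬ T.Bd (g.glue q hgq).Right d :=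
    fun c hc d hd hb => pl_cyc_off _ (hd ▸ hc) (pl_right_bd_sub _ hb)
  have hx0 : s (g.rap k) = false := hj.1
  have key : ∀ b, ReflTransGen (fun u v => T.EdgeIn Set.univ u v ∧ v ∈ {v | s v = false}) (g.rap k) b →
      (∃ j, 0 < j ∧ j < q.n ∧ T.Mono s (g.rap k) (q.v j)) ∨ (T.Mono s (g.rap k) b ∧ s b = false ∧ b ∈ T.Int (g.glue q hgq).Right) := by
    intro b hb
    induction hb with
    | refl =>
      rcases pl_jordan_vert hT (g.glue q hgq) (g.rap k) with h1 | h1 | h1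
      · obtain ⟨j, j0, j1, e⟩ := pvta_white_on g q hgq hg h1 hx0
        exact Or.inl ⟨j, j0, j1, e ▸ ReflTransGen.refl⟩
      · exfalso
        have h2 : T.opp (g.e k) ∈ (g.glue q hgq).Right := by
          rw [← pl_pth_glue_e1 g q hgq hk]
          exact hO k
        have h3 : T.nxt (T.nxt (T.opp (g.e k))) ∈ (g.glue q hgq).Right := ((pl_right_face _).nxt2 T _).2 h2
        have h4 := h1 (T.nxt (T.nxt (T.opp (g.e k)))) rfl
        rw [hRL] at h3
        exact h3 h4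
      · exact Or.inr ⟨ReflTransGen.refl, hx0, h1⟩
    | @tail b c _ hbc ih =>
      rcases ih with ih | ⟨m1, m2, m3⟩
      · exact Or.inl ih
      · obtain ⟨⟨d, -, hd1, hd2⟩, hc⟩ := hbc
        have hc' : s c = false := hc
        have hadj : T.Adj b c := ⟨d, hd1, hd2⟩
        have hm : T.Mono s (g.rap k) c := m1.tail ⟨hadj, m2.trans hc'.symm⟩
        by_cases hcZ : c ∈ (g.glue q hgq).verts
        · obtain ⟨j, j0, j1, e⟩ := pvta_white_on g q hgq hg hcZ hc'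
          exact Or.inl ⟨j, j0, j1, e ▸ hm⟩
        · exact Or.inr ⟨hm, hc', pl_int_adj hT (pl_right_face _) m3 hadj (hoffR c hcZ)⟩
  rcases key a hj.2 with h1 | ⟨-, -, h1⟩
  · exact h1
  · exact absurd h1 (Set.disjoint_left.1 hdis haL)

/-! ## ASSEMBLY (helper32): `B_g`, `N_g`, `W`, REGION ⟹ `GFaced`;  TR13 (CLOSE), TR12 (UNIQ), TR14 (MASK) on `Tr/Close.lean` of helper202 -/

theorem pvta_adj_fwd (p : T.Pth) {k : ℕ} (hk : k < p.n) : T.Adj (p.v k) (p.v (k + 1)) := ⟨p.e k, p.src_e k hk, p.tgt_e k hk⟩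

/-- `N_g` reads the colours of `U \ g` only -/
theorem pvta_N_local (g : T.Pth) {s s' : V → Bool} (U 𝔄 : Set V) (h : ∀ v, v ∈ U → v ∉ g.verts → s v = s' v) : pvtaN g s U 𝔄 ↔ pvtaN g s' U 𝔄 := by
  have e : {v | v ∈ U ∧ v ∉ g.verts ∧ s v = false} = {v | v ∈ U ∧ v ∉ g.verts ∧ s' v = false} := by
    ext v
    constructor
    · rintro ⟨h1, h2, h3⟩
      exact ⟨h1, h2, by rw [← h v h1 h2]; exact h3⟩
    · rintro ⟨h1, h2, h3⟩
      exact ⟨h1, h2, by rw [h v h1 h2]; exact h3⟩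
  unfold pvtaN
  rw [e]

/-- `N_g` is increasing in `U` and in the set of anchors -/
theorem pvta_N_mono_U (g : T.Pth) {s : V → Bool} {U U' 𝔄 𝔄' : Set V} (hU : U ⊆ U') (h𝔄 : 𝔄 ⊆ 𝔄') (hN : pvtaN g s U 𝔄) : pvtaN g s U' 𝔄' := by
  intro k hk
  obtain ⟨a, ha, hj⟩ := hN k hk
  refine ⟨a, h𝔄 ha, pvt_c_join_mono_set (le_refl _) ?_ hj⟩
  rintro v ⟨h1, h2, h3⟩
  exact ⟨hU h1, h2, h3⟩

/-- the inner vertices of a white path lie in one cluster -/
theorem pvta_inner_mono {s : V → Bool} (q : T.Pth) (hq : ∀ i, 0 < i → i < q.n → s (q.v i) = false) {j : ℕ} (hj : 0 < j) (m : ℕ) (hm : j + m < q.n) :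
    T.Mono s (q.v j) (q.v (j + m)) := by
  induction m with
  | zero => exact ReflTransGen.refl
  | succ m ih =>
    refine (ih (by omega)).tail ⟨pvta_adj_fwd q (by omega), ?_⟩
    rw [hq _ (by omega) (by omega)]
    exact (hq (j + m + 1) (by omega) hm).symm

/-- **`B_g`, `N_g`, `W`, REGION ⟹ `g` is globally faced** with anchor `ρ = q.v (q.n - 1)` (= `a⁺(s)`, the right apex of the last dart of `R`) -/
theorem pvta_gfaced (hT : T.IsSph) (hS : T.Simple) {s : V → Bool} (g q R : T.Pth) (hgq : g.Glue q) (hgR : g.Glue R) (hR2 : 2 ≤ R.n) (hq2 : 2 ≤ q.n)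
    (hg : pvtaB g s) (hq : ∀ i, 0 < i → i < q.n → s (q.v i) = false)
    (hRq : ∀ i j, 0 < i → i < R.n → j ≤ q.n → R.v i ≠ q.v j) (hanc : q.v (q.n - 1) = R.rap (R.n - 1)) {U Λ : Set V}
    (hN : pvtaN g s U ({q.v (q.n - 1)} ∪ Λ))
    (hreg : ∀ a ∈ Λ, ∃ i, 0 < i ∧ i < R.n ∧ ReflTransGen (fun u v => T.Adj u v ∧ v ∉ (g.glue q hgq).verts) (R.v i) a) :
    g.GFaced s (q.v (q.n - 1)) := by
  have hρ : s (q.v (q.n - 1)) = false := hq _ (by omega) (by omega)
  refine ⟨fun i hi => ?_, fun k hk => ?_⟩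
  · rw [hg i hi, hρ]
    exact Bool.noConfusion
  · obtain ⟨a, ha, hj⟩ := hN k hk
    have hj' : T.Join Set.univ {v | s v = false} (g.rap k) a := pvt_c_join_mono_set (le_refl _) (fun v hv => hv.2.2) hj
    rcases ha with ha | ha
    · rw [Set.mem_singleton_iff] at ha
      rw [← ha]
      exact pvt_c_join_mono hj'
    · obtain ⟨j, h0, h1, h2⟩ := pvta_shield hT hS g q R hgq hgR hR2 hq2 hg hq hRq hanc hk (hreg a ha) hj'
      have h3 := pvta_inner_mono q hq h0 (q.n - 1 - j) (by omega)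
      rw [show j + (q.n - 1 - j) = q.n - 1 by omega] at h3
      exact h2.trans h3

/-- **TR13 (CLOSE)**: `P' = g ∪ R` carries one label; its tags are the right triangles of `g` and of `R`; the sum over the label splits -/
theorem pvta_close (hT : T.IsSph) (hS : T.Simple) {s : V → Bool} (g q R : T.Pth) (hgq : g.Glue q) (hgR : g.Glue R) (hR2 : 2 ≤ R.n) (hq2 : 2 ≤ q.n)
    (hg : pvtaB g s) (hq : ∀ i, 0 < i → i < q.n → s (q.v i) = false)
    (hRq : ∀ i j, 0 < i → i < R.n → j ≤ q.n → R.v i ≠ q.v j) (hRf : R.GFaced s (q.v (q.n - 1))) (hanc : q.v (q.n - 1) = R.rap (R.n - 1)) {U Λ : Set V}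
    (hN : pvtaN g s U ({q.v (q.n - 1)} ∪ Λ))
    (hreg : ∀ a ∈ Λ, ∃ i, 0 < i ∧ i < R.n ∧ ReflTransGen (fun u v => T.Adj u v ∧ v ∉ (g.glue q hgq).verts) (R.v i) a) :
    T.Tag s (T.opp (g.e 0)) ∧ (∀ d', T.SameLab s (T.opp (g.e 0)) d' ↔ (∃ i, i < g.n ∧ d' = T.opp (g.e i)) ∨ ∃ i, i < R.n ∧ d' = T.opp (R.e i)) ∧
      ∀ w : D → ℂ, T.lsum s w (T.opp (g.e 0)) = g.psum w + R.psum w :=
  pvt_c_close hT s _ g R hgR (pvta_gfaced hT hS g q R hgq hgR hR2 hq2 hg hq hRq hanc hN hreg) hRf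

/-- **TR12 (UNIQ)**: two candidates with the same ends which close up with the same `q`, `R` are equal -/
theorem pvta_uniq (hT : T.IsSph) (hS : T.Simple) {s : V → Bool} (g g' q R : T.Pth) (hgq : g.Glue q) (hgR : g.Glue R) (hgq' : g'.Glue q) (hgR' : g'.Glue R)
    (hR2 : 2 ≤ R.n) (hq2 : 2 ≤ q.n) (hg : pvtaB g s) (hg' : pvtaB g' s) (hq : ∀ i, 0 < i → i < q.n → s (q.v i) = false)
    (hRq : ∀ i j, 0 < i → i < R.n → j ≤ q.n → R.v i ≠ q.v j) (hanc : q.v (q.n - 1) = R.rap (R.n - 1)) {U Λ : Set V}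
    (hN : pvtaN g s U ({q.v (q.n - 1)} ∪ Λ)) (hN' : pvtaN g' s U ({q.v (q.n - 1)} ∪ Λ))
    (hreg : ∀ a ∈ Λ, ∃ i, 0 < i ∧ i < R.n ∧ ReflTransGen (fun u v => T.Adj u v ∧ v ∉ (g.glue q hgq).verts) (R.v i) a)
    (hreg' : ∀ a ∈ Λ, ∃ i, 0 < i ∧ i < R.n ∧ ReflTransGen (fun u v => T.Adj u v ∧ v ∉ (g'.glue q hgq').verts) (R.v i) a) :
    g.n = g'.n ∧ ∀ i, i < g.n → g.e i = g'.e i :=
  pvt_c_unique hT hS s _ g g' (pvta_gfaced hT hS g q R hgq hgR hR2 hq2 hg hq hRq hanc hN hreg)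
    (pvta_gfaced hT hS g' q R hgq' hgR' hR2 hq2 hg' hq hRq hanc hN' hreg') (hgq.h2.symm.trans hgq'.h2) (hgq.h1.trans hgq'.h1.symm)

/-- **TR14 (MASK)**: a mask which vanishes on the right triangles of `R` sees `g` only -/
theorem pvta_mask {s : V → Bool} (g R : T.Pth) (w χ : D → ℂ) (h : T.lsum s (fun d => χ d * w d) (T.opp (g.e 0)) = g.psum (fun d => χ d * w d) + R.psum (fun d => χ d * w d))
    (hχ : ∀ i, i < R.n → χ (T.opp (R.e i)) = 0) : T.lsum s (fun d => χ d * w d) (T.opp (g.e 0)) = g.psum (fun d => χ d * w d) := by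
  rw [h]
  have : R.psum (fun d => χ d * w d) = 0 := by
    unfold PvMap.Pth.psum
    refine Finset.sum_eq_zero fun i hi => ?_
    show χ (T.opp (R.e i)) * w (T.opp (R.e i)) = 0
    rw [hχ i (Finset.mem_range.1 hi), zero_mul]
  rw [this, add_zero]

end Claimed.Agent.R289
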