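-- KEEP
import Claimed.Agent.R289.Pl.Bond

/-!
# Row 289 (S0537, Cardy for Poisson-Voronoi), unit TR, file Tr/GateL : T3b = O2 of W1_208 : LATTICE OF GATES, MINIMAL GATE      (owner helper118; prefix `pvtl_`)

Blueprint: `origin/helper118:notes/R289/W1_118.md` Part III;  consumer: `origin/helper208:notes/R289/W1_208.md` sec. 1 (GATE, CORE, STATE), (C1), (C2).

WARNING.  Without a black path which crosses the whole annulus the two-site circuits are NOT a lattice (two disjoint dead-end black segments through the centre).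
So "the innermost gate" is replaced by "a MINIMAL gate" (`PvtlMin`: read from the colours of the closed inside, `pvtl_min_congr`), which is UNIQUE as soon as a black simple circuit `P`
visits the inner ball and the outside of the annulus (`pvtl_min_unique`), and then lies inside every gate (`pvtl_min_le`).

* `pvtlI c c' b0`   the dual component of `b0` off the two circuits
* `pvtl_meet_cyc`   it is the left side of a circuit `c''` all of whose darts are darts of `c` or of `c'`     (`pl_bond'`)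
* `PvtlTwo s c`     exactly two black vertices, not joined by an edge of `c`
* `pvtl_meet`       the meet of two two-site circuits crossed by `P` is a two-site circuit
-/

set_option autoImplicit false

namespace Claimed.Agent.R289

open Relation

variable {V D : Type} {T : PvMap V D}

/-- the dual component of `b0` off the two circuits -/
def pvtlI (c c' : T.Cyc) (b0 : D) : Set D := {d | T.DJoin (c.darts ∪ c'.darts) b0 d}

/-! ## 1. Dual connectivity: three general facts -/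

theorem pvtl_djoin_edg {Z Z' : Set D} (h : ∀ d, T.Edg Z' d → T.Edg Z d) {a b : D} (hab : T.DJoin Z a b) : T.DJoin Z' a b := by
  refine ReflTransGen.mono (fun x y hxy => ?_) a b hab
  rcases hxy with h1 | ⟨h1, h2⟩
  · exact Or.inl h1
  · exact Or.inr ⟨h1, fun h3 => h2 (h _ h3)⟩

/-- a dual path which never meets `I` does not cross the boundary of `I` -/
theorem pvtl_djoin_off {Z I : Set D} {a b : D} (h : T.DJoin Z a b) (hA : ∀ x, T.DJoin Z a x → x ∉ I) : T.DJoin {d | T.Bd I d} a b := by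
  induction h with
  | refl => exact ReflTransGen.refl
  | @tail x y hax hxy ih =>
    refine ih.tail ?_
    rcases hxy with h1 | ⟨h1, h2⟩
    · exact Or.inl h1
    · refine Or.inr ⟨h1, ?_⟩
      have hx : x ∉ I := hA x hax
      have hy : T.opp x ∉ I := h1 ▸ hA y (hax.tail (Or.inr ⟨h1, h2⟩))
      rintro (h3 | h3)
      · exact h3 ⟨fun h => absurd h hx, fun h => absurd h hy⟩
      · exact (T.bd_opp.1 h3) ⟨fun h => absurd h hx, fun h => absurd h hy⟩

/-- a dual path which leaves a face set crosses its boundary -/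
theorem pvtl_exit {J : Set D} (hJ : T.FaceSet J) {a b : D} (h : T.DJoin ∅ a b) (ha : a ∈ J) (hb : b ∉ J) : ∃ x ∈ J, T.opp x ∉ J := by
  by_contra hcon
  have hcon' : ∀ x ∈ J, T.opp x ∈ J := fun x hx => by
    by_contra h'
    exact hcon ⟨x, hx, h'⟩
  have key : ∀ y, T.DJoin ∅ a y → y ∈ J := by
    intro y hy
    induction hy with
    | refl => exact ha
    | @tail x y _ hxy ih =>
      rcases hxy with h1 | ⟨h1, _⟩
      · rw [h1]; exact (hJ x).2 ih
      · rw [h1]; exact hcon' x ih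
  exact hb (key b h)

/-! ## 2. The component `I` -/

section meet

variable (c c' : T.Cyc) (b0 : D)

theorem pvtl_I_face : T.FaceSet (pvtlI c c' b0) := pl_djoin_face _ _

theorem pvtl_I_self : b0 ∈ pvtlI c c' b0 := ReflTransGen.refl

theorem pvtl_edg_union (d : D) : T.Edg (c.darts ∪ c'.darts) d ↔ T.Edg c.darts d ∨ T.Edg c'.darts d := by
  unfold PvMap.Edg
  simp only [Set.mem_union]
  tauto

theorem pvtl_I_sub_left (h0 : b0 ∈ c.Left) : pvtlI c c' b0 ⊆ c.Left := fun d hd =>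
  (pl_side_dual (pl_left_face c) (fun x hx => (pvtl_edg_union c c' x).2 (Or.inl (pl_left_bd_sub c hx))) hd).1 h0

theorem pvtl_I_sub_left' (h0 : b0 ∈ c'.Left) : pvtlI c c' b0 ⊆ c'.Left := fun d hd =>
  (pl_side_dual (pl_left_face c') (fun x hx => (pvtl_edg_union c c' x).2 (Or.inr (pl_left_bd_sub c' hx))) hd).1 h0

theorem pvtl_I_bd {d : D} (h : T.Bd (pvtlI c c' b0) d) : T.Edg (c.darts ∪ c'.darts) d := by
  by_contra hn
  apply h
  constructor
  · intro hd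
    exact ReflTransGen.tail hd (Or.inr ⟨rfl, hn⟩)
  · intro hd
    have : T.DStep (c.darts ∪ c'.darts) (T.opp d) d := Or.inr ⟨(T.opp_opp d).symm, fun h' => hn (T.edg_opp.1 h')⟩
    exact ReflTransGen.tail hd this

theorem pvtl_I_bd_finite : {d | T.Bd (pvtlI c c' b0) d}.Finite := by
  have h1 : (c.darts ∪ c'.darts).Finite := (pl_cyc_darts_finite c).union (pl_cyc_darts_finite c')
  refine (h1.union (h1.image T.opp)).subset ?_
  intro d hd
  rcases pvtl_I_bd c c' b0 hd with h | h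
  · exact Or.inl h
  · exact Or.inr ⟨T.opp d, h, T.opp_opp d⟩

theorem pvtl_I_conn {a b : D} (ha : a ∈ pvtlI c c' b0) (hb : b ∈ pvtlI c c' b0) : T.DJoin {d | T.Bd (pvtlI c c' b0) d} a b := by
  have h1 : T.DJoin (c.darts ∪ c'.darts) a b := (T.djoin_symm ha).trans hb
  refine pvtl_djoin_edg (fun d hd => ?_) h1
  rcases hd with h | h
  · exact pvtl_I_bd c c' b0 h
  · exact T.edg_opp.1 (pvtl_I_bd c c' b0 h)

theorem pvtl_not_bd {I : Set D} {x : D} (hx : x ∉ I) (hy : T.opp x ∉ I) : ¬ T.Edg {d | T.Bd I d} x := by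
  rintro (h3 | h3)
  · exact h3 ⟨fun h => absurd h hx, fun h => absurd h hy⟩
  · exact (T.bd_opp.1 h3) ⟨fun h => absurd h hx, fun h => absurd h hy⟩

theorem pvtl_right_join (hT : T.IsSph) {I : Set D} (c : T.Cyc) (hI : I ⊆ c.Left) {f o : D} (hf : f ∈ c.Right) (ho : o ∈ c.Right) : T.DJoin {d | T.Bd I d} f o := by
  have h1 : T.DJoin c.darts f o := (T.djoin_symm hf).trans ho
  refine pvtl_djoin_off h1 (fun x hx hxI => ?_)
  have h2 : x ∈ c.Right := ReflTransGen.trans hf hx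
  rw [(pl_jordan hT c).1] at h2
  exact h2 (hI hxI)

theorem pvtl_I_coconn (hT : T.IsSph) (h0 : b0 ∈ c.Left) (h0' : b0 ∈ c'.Left) {o : D} (ho : o ∈ c.Right) (ho' : o ∈ c'.Right) {f : D} (hf : f ∉ pvtlI c c' b0) :
    T.DJoin {d | T.Bd (pvtlI c c' b0) d} f o := by
  have hI := pvtl_I_sub_left c c' b0 h0
  have hI' := pvtl_I_sub_left' c c' b0 h0'
  by_cases h1 : f ∈ c.Left
  swap
  · exact pvtl_right_join hT c hI (by rw [(pl_jordan hT c).1]; exact h1) ho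
  by_cases h2 : f ∈ c'.Left
  swap
  · exact pvtl_right_join hT c' hI' (by rw [(pl_jordan hT c').1]; exact h2) ho'
  have hJL : ∀ y, T.DJoin (c.darts ∪ c'.darts) f y → y ∈ c.Left := fun y hy => pvtl_I_sub_left c c' f h1 hy
  have hJL' : ∀ y, T.DJoin (c.darts ∪ c'.darts) f y → y ∈ c'.Left := fun y hy => pvtl_I_sub_left' c c' f h2 hy
  have hJI : ∀ y, T.DJoin (c.darts ∪ c'.darts) f y → y ∉ pvtlI c c' b0 := fun y hy hyI => hf (ReflTransGen.trans hyI (T.djoin_symm hy))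
  have hoJ : o ∉ pvtlI c c' f := fun h => by
    have := hJL o h
    rw [(pl_jordan hT c).1] at ho
    exact ho this
  obtain ⟨x, hx, hx'⟩ := pvtl_exit (pvtl_I_face c c' f) (pl_dual_conn hT f o) (pvtl_I_self c c' f) hoJ
  have hE : T.Edg (c.darts ∪ c'.darts) x := by
    by_contra hn
    exact hx' (ReflTransGen.tail hx (Or.inr ⟨rfl, hn⟩))
  have hfx : T.DJoin {d | T.Bd (pvtlI c c' b0) d} f x := pvtl_djoin_off hx hJI
  rcases (pvtl_edg_union c c' x).1 hE with hE | hE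
  · have hb := ((pl_jordan hT c).2.2.2 x).2 hE
    have hox : T.opp x ∉ c.Left := fun h => hb ⟨fun _ => h, fun _ => hJL x hx⟩
    have hstep : T.DStep {d | T.Bd (pvtlI c c' b0) d} x (T.opp x) := Or.inr ⟨rfl, pvtl_not_bd (hJI x hx) (fun h => hox (hI h))⟩
    exact (hfx.tail hstep).trans (pvtl_right_join hT c hI (by rw [(pl_jordan hT c).1]; exact hox) ho)
  · have hb := ((pl_jordan hT c').2.2.2 x).2 hE
    have hox : T.opp x ∉ c'.Left := fun h => hb ⟨fun _ => h, fun _ => hJL' x hx⟩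
    have hstep : T.DStep {d | T.Bd (pvtlI c c' b0) d} x (T.opp x) := Or.inr ⟨rfl, pvtl_not_bd (hJI x hx) (fun h => hox (hI' h))⟩
    exact (hfx.tail hstep).trans (pvtl_right_join hT c' hI' (by rw [(pl_jordan hT c').1]; exact hox) ho')

/-- **the meet of two circuits** round `b0` -/
theorem pvtl_meet_cyc (hT : T.IsSph) (hS : T.Simple) (h0 : b0 ∈ c.Left) (h0' : b0 ∈ c'.Left) {o : D} (ho : o ∈ c.Right) (ho' : o ∈ c'.Right) :
    ∃ c'' : T.Cyc, c''.Left = pvtlI c c' b0 ∧ c''.Right = (pvtlI c c' b0)ᶜ ∧ ∀ i, c''.e i ∈ c.darts ∨ c''.e i ∈ c'.darts := by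
  have hI := pvtl_I_sub_left c c' b0 h0
  have hI' := pvtl_I_sub_left' c c' b0 h0'
  have hoI : o ∉ pvtlI c c' b0 := fun h => by
    have := hI h
    rw [(pl_jordan hT c).1] at ho
    exact ho this
  obtain ⟨c'', hd, hL, hR⟩ := pl_bond' hT hS (pvtl_I_face c c' b0) (pvtl_I_bd_finite c c' b0) ⟨b0, pvtl_I_self c c' b0⟩ ⟨o, hoI⟩
    (fun a ha b hb => pvtl_I_conn c c' b0 ha hb)
    (fun a ha b hb => (pvtl_I_coconn c c' b0 hT h0 h0' ho ho' ha).trans (T.djoin_symm (pvtl_I_coconn c c' b0 hT h0 h0' ho ho' hb)))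
  refine ⟨c'', hL, hR, fun i => ?_⟩
  have hi : c''.e i ∈ c''.darts := ⟨i, rfl⟩
  rw [hd] at hi
  obtain ⟨h1, h2⟩ := hi
  have hE := pvtl_I_bd c c' b0 (d := c''.e i) (fun h => h2 (h.1 h1))
  rcases (pvtl_edg_union c c' _).1 hE with (h | h) | (h | h)
  · exact Or.inl h
  · exact absurd (hI h1) (by have := ((pl_cyc_darts_iff hT c _).1 h).2; rwa [T.opp_opp] at this)
  · exact Or.inr h
  · exact absurd (hI' h1) (by have := ((pl_cyc_darts_iff hT c' _).1 h).2; rwa [T.opp_opp] at this)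

end meet

/-! ## 3. A simple circuit `P` which crosses a circuit `c` -/

theorem pvtl_mod_window {n a b : ℕ} (h : a % n = b % n) (h1 : a ≤ b) (h2 : b < a + n) : a = b := by
  have h3 : (b - a) % n = 0 := Nat.sub_mod_eq_zero_of_mod_eq h.symm
  have h4 : b - a < n := by omega
  rw [Nat.mod_eq_of_lt h4] at h3
  omega

theorem pvtl_adj (P : T.Cyc) (k : ℕ) : T.Adj (T.src (P.e k)) (T.src (P.e (k + 1))) := ⟨P.e k, rfl, P.chain k⟩

theorem pvtl_src_window (P : T.Cyc) {i a b : ℕ} (h : T.src (P.e a) = T.src (P.e b)) (ha : i < a) (ha' : a < i + P.n) (hb : i < b) (hb' : b < i + P.n) : a = b := by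
  have h1 := pl_cyc_src_inj P h
  rcases le_total a b with h2 | h2
  · exact pvtl_mod_window h1 h2 (by omega)
  · exact (pvtl_mod_window h1.symm h2 (by omega)).symm

theorem pvtl_walk_fwd (hT : T.IsSph) {A : Set D} (hA : T.FaceSet A) (c P : T.Cyc) (hbd : ∀ d, T.Bd A d → T.Edg c.darts d) {a : ℕ} (ha : T.src (P.e a) ∈ T.Int A) :
    ∀ b, a ≤ b → (∀ k, a < k → k ≤ b → T.src (P.e k) ∉ c.verts) → T.src (P.e b) ∈ T.Int A := by
  intro b hab
  induction b, hab using Nat.le_induction with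
  | base => intro _; exact ha
  | succ b hab ih =>
    intro h
    refine pl_int_adj hT hA (ih (fun k h1 h2 => h k h1 (by omega))) (pvtl_adj P b) (fun d hd hb => ?_)
    exact h (b + 1) (by omega) le_rfl (hd ▸ pl_cyc_edg_src c (hbd d hb))

theorem pvtl_walk_bwd (hT : T.IsSph) {A : Set D} (hA : T.FaceSet A) (c P : T.Cyc) (hbd : ∀ d, T.Bd A d → T.Edg c.darts d) {b : ℕ} (hb : T.src (P.e b) ∈ T.Int A) :
    ∀ m, m ≤ b → (∀ k, b - m ≤ k → k < b → T.src (P.e k) ∉ c.verts) → T.src (P.e (b - m)) ∈ T.Int A := by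
  intro m
  induction m with
  | zero => intro _ _; exact hb
  | succ m ih =>
    intro hm h
    have h1 := ih (by omega) (fun k h1 h2 => h k (by omega) h2)
    have h2 : T.Adj (T.src (P.e (b - m))) (T.src (P.e (b - (m + 1)))) := by
      have := pvtl_adj P (b - (m + 1))
      rw [show b - (m + 1) + 1 = b - m by omega] at this
      exact T.adj_symm this
    refine pl_int_adj hT hA h1 h2 (fun d hd hb' => ?_)
    exact h (b - (m + 1)) le_rfl (by omega) (hd ▸ pl_cyc_edg_src c (hbd d hb'))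

/-- the crossing data: `P` visits the strict inside of `c` at time `i` and the strict outside at time `j` -/
structure PvtlX (c P : T.Cyc) (i j : ℕ) : Prop where
  ij : i < j
  ji : j < i + P.n
  hi : T.src (P.e i) ∈ T.Int c.Left
  hj : T.src (P.e j) ∈ T.Int c.Right

theorem pvtl_hit1 (hT : T.IsSph) {c P : T.Cyc} {i j : ℕ} (h : PvtlX c P i j) : ∃ k, i < k ∧ k < j ∧ T.src (P.e k) ∈ c.verts := by
  by_contra hcon
  have hd := pl_jordan_vert_disj hT c
  have h1 := pvtl_walk_fwd hT (pl_left_face c) c P (fun d => pl_left_bd_sub c) h.hi j h.ij.le (fun k h1 h2 hk => by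
    rcases Nat.lt_or_ge k j with h3 | h3
    · exact hcon ⟨k, h1, h3, hk⟩
    · have : k = j := by omega
      subst this
      exact Set.disjoint_left.1 hd.2.1 hk h.hj)
  exact Set.disjoint_left.1 hd.2.2 h1 h.hj

theorem pvtl_hit2 (hT : T.IsSph) {c P : T.Cyc} {i j : ℕ} (h : PvtlX c P i j) : ∃ k, j < k ∧ k < i + P.n ∧ T.src (P.e k) ∈ c.verts := by
  by_contra hcon
  have hd := pl_jordan_vert_disj hT c
  have hi' : T.src (P.e (i + P.n)) ∈ T.Int c.Left := by rw [P.per]; exact h.hi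
  have h1 := pvtl_walk_fwd hT (pl_right_face c) c P (fun d => pl_right_bd_sub c) h.hj (i + P.n) h.ji.le (fun k h1 h2 hk => by
    rcases Nat.lt_or_ge k (i + P.n) with h3 | h3
    · exact hcon ⟨k, h1, h3, hk⟩
    · have : k = i + P.n := by omega
      subst this
      exact Set.disjoint_left.1 hd.1 hk hi')
  exact Set.disjoint_left.1 hd.2.2 hi' h1

/-- exactly two black vertices, not joined by an edge of the circuit -/
structure PvtlTwo (T : PvMap V D) (s : V → Bool) (c : T.Cyc) : Prop where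
  two : ∃ a b, a ≠ b ∧ a ∈ c.verts ∧ b ∈ c.verts ∧ s a = true ∧ s b = true ∧ ∀ v ∈ c.verts, s v = true → v = a ∨ v = b
  nadj : ∀ i, s (T.src (c.e i)) = true → s (T.tgt (c.e i)) = false

/-- **passage of a black circuit through a two-site circuit** -/
theorem pvtl_pass (hT : T.IsSph) {s : V → Bool} {c P : T.Cyc} {i j : ℕ} (h : PvtlX c P i j) (h2 : PvtlTwo T s c) (hP : ∀ k, s (T.src (P.e k)) = true) :
    ∃ k₁ k₂, i < k₁ ∧ k₁ < j ∧ j < k₂ ∧ k₂ < i + P.n ∧ T.src (P.e k₁) ∈ c.verts ∧ T.src (P.e k₂) ∈ c.verts ∧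
      (∀ v ∈ c.verts, s v = true → v = T.src (P.e k₁) ∨ v = T.src (P.e k₂)) ∧
      (∀ k, k₁ < k → k < k₂ → T.src (P.e k) ∈ T.Int c.Right) := by
  obtain ⟨k₁, a1, a2, a3⟩ := pvtl_hit1 hT h
  obtain ⟨k₂, b1, b2, b3⟩ := pvtl_hit2 hT h
  obtain ⟨a, b, hab, ha, hb, sa, sb, honly⟩ := h2.two
  have hne : T.src (P.e k₁) ≠ T.src (P.e k₂) := fun he => by
    have := pvtl_src_window P he a1 (by omega) (by omega) b2
    omega
  have honly' : ∀ v ∈ c.verts, s v = true → v = T.src (P.e k₁) ∨ v = T.src (P.e k₂) := by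
    intro v hv sv
    rcases honly _ a3 (hP k₁) with e1 | e1 <;> rcases honly _ b3 (hP k₂) with e2 | e2 <;> rcases honly v hv sv with e3 | e3
    · exact Or.inl (e3.trans e1.symm)
    · exact absurd (e1.trans e2.symm) hne
    · exact Or.inl (e3.trans e1.symm)
    · exact Or.inr (e3.trans e2.symm)
    · exact Or.inr (e3.trans e2.symm)
    · exact Or.inl (e3.trans e1.symm)
    · exact absurd (e1.trans e2.symm) hne
    · exact Or.inl (e3.trans e1.symm)
  have hun : ∀ k, i < k → k < i + P.n → T.src (P.e k) ∈ c.verts → k = k₁ ∨ k = k₂ := by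
    intro k h1 h2 hk
    rcases honly' _ hk (hP k) with e | e
    · exact Or.inl (pvtl_src_window P e h1 h2 a1 (by omega))
    · exact Or.inr (pvtl_src_window P e h1 h2 (by omega) b2)
  refine ⟨k₁, k₂, a1, a2, b1, b2, a3, b3, honly', fun k h1 h2 => ?_⟩
  rcases le_total k j with h3 | h3
  · have := pvtl_walk_bwd hT (pl_right_face c) c P (fun d => pl_right_bd_sub c) h.hj (j - k) (by omega) (fun m m1 m2 hm => by
      rcases hun m (by omega) (by omega) hm with e | e <;> omega)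
    rwa [show j - (j - k) = k by omega] at this
  · exact pvtl_walk_fwd hT (pl_right_face c) c P (fun d => pl_right_bd_sub c) h.hj k h3 (fun m m1 m2 hm => by
      rcases hun m (by omega) (by omega) hm with e | e <;> omega)

/-! ## 4. The meet of two two-site circuits -/

theorem pvtl_verts_VOf (hT : T.IsSph) (c : T.Cyc) : c.verts ⊆ T.VOf c.Left := by
  rw [pl_VOf_left hT c]; exact Set.subset_union_left

theorem pvtl_VOf_mono {A B : Set D} (h : A ⊆ B) : T.VOf A ⊆ T.VOf B := fun _ ⟨d, hd, e⟩ => ⟨d, h hd, e⟩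

theorem pvtl_int_mono {A B : Set D} (h : A ⊆ B) : T.Int A ⊆ T.Int B := fun _ hv d hd => h (hv d hd)

theorem pvtl_not_right (hT : T.IsSph) (c : T.Cyc) {v : V} (hv : v ∈ T.VOf c.Left) : v ∉ T.Int c.Right := by
  have hd := pl_jordan_vert_disj hT c
  rw [pl_VOf_left hT c] at hv
  rcases hv with h | h
  · exact Set.disjoint_left.1 hd.2.1 h
  · exact Set.disjoint_left.1 hd.2.2 h

/-- **T3b (1)**: the meet of two two-site circuits which are crossed by the same black simple circuit is a two-site circuit -/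
theorem pvtl_meet (hT : T.IsSph) (hS : T.Simple) {s : V → Bool} {c c' P : T.Cyc} {b0 : D} {i j : ℕ} (h2 : PvtlTwo T s c) (h2' : PvtlTwo T s c') (hP : ∀ k, s (T.src (P.e k)) = true)
    (h0 : b0 ∈ c.Left) (h0' : b0 ∈ c'.Left) (ij : i < j) (ji : j < i + P.n) (hi : T.src (P.e i) ∈ T.Int (pvtlI c c' b0))
    (hj : T.src (P.e j) ∈ T.Int c.Right) (hj' : T.src (P.e j) ∈ T.Int c'.Right) :
    ∃ c'' : T.Cyc, c''.Left = pvtlI c c' b0 ∧ (∀ k, c''.e k ∈ c.darts ∨ c''.e k ∈ c'.darts) ∧ PvtlTwo T s c'' ∧ PvtlX c'' P i j := by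
  have hI := pvtl_I_sub_left c c' b0 h0
  have hI' := pvtl_I_sub_left' c c' b0 h0'
  obtain ⟨o, ho⟩ := pl_cyc_dart_at hT c (T.src (P.e j))
  obtain ⟨c'', hL, hR, hdar⟩ := pvtl_meet_cyc c c' b0 hT hS h0 h0' (hj o ho) (hj' o ho)
  have hX : PvtlX c P i j := ⟨ij, ji, pvtl_int_mono hI hi, hj⟩
  have hX' : PvtlX c' P i j := ⟨ij, ji, pvtl_int_mono hI' hi, hj'⟩
  have hX'' : PvtlX c'' P i j := ⟨ij, ji, hL ▸ hi, by
    rw [hR]
    refine pvtl_int_mono (fun d hd hdI => ?_) hj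
    rw [(pl_jordan hT c).1] at hd
    exact hd (hI hdI)⟩
  obtain ⟨k₁, k₂, a1, a2, a3, a4, -, -, aonly, aR⟩ := pvtl_pass hT hX h2 hP
  obtain ⟨l₁, l₂, b1, b2, b3, b4, -, -, bonly, bR⟩ := pvtl_pass hT hX' h2' hP
  obtain ⟨m₁, c1, c2, c3⟩ := pvtl_hit1 hT hX''
  obtain ⟨m₂, d1, d2, d3⟩ := pvtl_hit2 hT hX''
  have hv'' : c''.verts ⊆ c.verts ∪ c'.verts := by
    rintro v ⟨k, rfl⟩
    rcases hdar k with ⟨l, hl⟩ | ⟨l, hl⟩
    · exact Or.inl ⟨l, by rw [hl]⟩
    · exact Or.inr ⟨l, by rw [hl]⟩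
  have hVO : c''.verts ⊆ T.VOf c.Left := (pvtl_verts_VOf hT c'').trans (pvtl_VOf_mono (hL ▸ hI))
  have hVO' : c''.verts ⊆ T.VOf c'.Left := (pvtl_verts_VOf hT c'').trans (pvtl_VOf_mono (hL ▸ hI'))
  -- every black vertex of `c''` is `P k` for a constrained `k`
  have key : ∀ v ∈ c''.verts, s v = true → ∃ k, v = T.src (P.e k) ∧ (k = k₁ ∨ k = k₂ ∨ k = l₁ ∨ k = l₂) ∧ ¬ (k₁ < k ∧ k < k₂) ∧ ¬ (l₁ < k ∧ k < l₂) := by
    intro v hv sv
    have hex : ∃ k, v = T.src (P.e k) ∧ (k = k₁ ∨ k = k₂ ∨ k = l₁ ∨ k = l₂) := by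
      rcases hv'' hv with h | h
      · rcases aonly v h sv with e | e
        · exact ⟨k₁, e, Or.inl rfl⟩
        · exact ⟨k₂, e, Or.inr (Or.inl rfl)⟩
      · rcases bonly v h sv with e | e
        · exact ⟨l₁, e, Or.inr (Or.inr (Or.inl rfl))⟩
        · exact ⟨l₂, e, Or.inr (Or.inr (Or.inr rfl))⟩
    obtain ⟨k, e, hk⟩ := hex
    refine ⟨k, e, hk, fun h => ?_, fun h => ?_⟩
    · exact pvtl_not_right hT c (hVO hv) (e ▸ aR k h.1 h.2)
    · exact pvtl_not_right hT c' (hVO' hv) (e ▸ bR k h.1 h.2)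
  obtain ⟨n₁, e1, f1, g1, g1'⟩ := key _ c3 (hP m₁)
  obtain ⟨n₂, e2, f2, g2, g2'⟩ := key _ d3 (hP m₂)
  have hn1 : m₁ = n₁ := pvtl_src_window P e1 c1 (by omega) (by omega) (by omega)
  have hn2 : m₂ = n₂ := pvtl_src_window P e2 (by omega) d2 (by omega) (by omega)
  subst hn1 hn2
  refine ⟨c'', hL, hdar, ⟨⟨T.src (P.e m₁), T.src (P.e m₂), fun he => ?_, c3, d3, hP _, hP _, fun v hv sv => ?_⟩, fun k hk => ?_⟩, hX''⟩
  · have := pvtl_src_window P he c1 (by omega) (by omega) d2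
    omega
  · obtain ⟨k, e, f, g, g'⟩ := key v hv sv
    have : k = m₁ ∨ k = m₂ := by omega
    rcases this with rfl | rfl
    · exact Or.inl e
    · exact Or.inr e
  · rcases hdar k with ⟨l, hl⟩ | ⟨l, hl⟩
    · rw [← hl] at hk ⊢; exact h2.nadj l hk
    · rw [← hl] at hk ⊢; exact h2'.nadj l hk

/-! ## 5. Admissible circuits, minimal gates -/

/-- admissible circuit: vertices in the annulus `𝒜`, round the face set `B0`, two-site -/
structure PvtlAdm (T : PvMap V D) (s : V → Bool) (𝒜 : Set V) (B0 : Set D) (c : T.Cyc) : Prop where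
  ann : c.verts ⊆ 𝒜
  rnd : B0 ⊆ c.Left
  two : PvtlTwo T s c

/-- **minimal gate**: no admissible circuit strictly inside -/
def PvtlMin (T : PvMap V D) (s : V → Bool) (𝒜 : Set V) (B0 : Set D) (c : T.Cyc) : Prop :=
  PvtlAdm T s 𝒜 B0 c ∧ ∀ c' : T.Cyc, PvtlAdm T s 𝒜 B0 c' → c'.Left ⊆ c.Left → c'.Left = c.Left

theorem pvtl_eqns_cite : True := by
  have := @pvtlI.eq_1; have := @PvtlMin.eq_1
  trivial

theorem pvtl_tgt_verts (c : T.Cyc) (i : ℕ) : T.tgt (c.e i) ∈ c.verts := ⟨i + 1, (c.chain i).symm⟩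

theorem pvtl_two_congr {s s' : V → Bool} {c : T.Cyc} (h : ∀ v ∈ c.verts, s v = s' v) (h2 : PvtlTwo T s c) : PvtlTwo T s' c := by
  obtain ⟨a, b, hab, ha, hb, sa, sb, honly⟩ := h2.two
  refine ⟨⟨a, b, hab, ha, hb, (h a ha) ▸ sa, (h b hb) ▸ sb, fun v hv sv => honly v hv ((h v hv).trans sv)⟩, fun i hi => ?_⟩
  rw [← h _ (pvtl_tgt_verts c i)]
  exact h2.nadj i ((h _ ⟨i, rfl⟩).trans hi)

theorem pvtl_adm_congr {s s' : V → Bool} {𝒜 : Set V} {B0 : Set D} {c : T.Cyc} (h : ∀ v ∈ c.verts, s v = s' v) (hc : PvtlAdm T s 𝒜 B0 c) : PvtlAdm T s' 𝒜 B0 c :=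
  ⟨hc.ann, hc.rnd, pvtl_two_congr h hc.two⟩

/-- **LOCALITY**: "`c` is a minimal gate" reads the colours of the closed inside of `c` only -/
theorem pvtl_min_congr (hT : T.IsSph) {s s' : V → Bool} {𝒜 : Set V} {B0 : Set D} {c : T.Cyc} (h : ∀ v ∈ T.VOf c.Left, s v = s' v) (hc : PvtlMin T s 𝒜 B0 c) : PvtlMin T s' 𝒜 B0 c := by
  refine ⟨pvtl_adm_congr (fun v hv => h v (pvtl_verts_VOf hT c hv)) hc.1, fun c' hc' hsub => hc.2 c' ?_ hsub⟩
  exact pvtl_adm_congr (fun v hv => (h v ((pl_nested_vert hT c c' hsub).1 (pvtl_verts_VOf hT c' hv))).symm) hc'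

theorem pvtl_min_iff (hT : T.IsSph) {s s' : V → Bool} {𝒜 : Set V} {B0 : Set D} {c : T.Cyc} (h : ∀ v ∈ T.VOf c.Left, s v = s' v) : PvtlMin T s 𝒜 B0 c ↔ PvtlMin T s' 𝒜 B0 c :=
  ⟨pvtl_min_congr hT h, pvtl_min_congr hT (fun v hv => (h v hv).symm)⟩

/-- the hypotheses on the inner face set and on the black circuit which are common to the next statements -/
structure PvtlP (T : PvMap V D) (s : V → Bool) (𝒜 : Set V) (B0 : Set D) (P : T.Cyc) (i j : ℕ) : Prop where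
  conn : ∀ a ∈ B0, ∀ b ∈ B0, T.DJoin {d | T.src d ∈ 𝒜} a b
  black : ∀ k, s (T.src (P.e k)) = true
  ij : i < j
  ji : j < i + P.n
  hi : T.src (P.e i) ∈ T.Int B0
  hj : ∀ c : T.Cyc, c.verts ⊆ 𝒜 → B0 ⊆ c.Left → T.src (P.e j) ∈ T.Int c.Right

theorem pvtl_B0_sub {𝒜 : Set V} {B0 : Set D} (hconn : ∀ a ∈ B0, ∀ b ∈ B0, T.DJoin {d | T.src d ∈ 𝒜} a b) {c c' : T.Cyc} (hc : c.verts ⊆ 𝒜) (hc' : c'.verts ⊆ 𝒜) {b0 : D} (hb : b0 ∈ B0) :
    B0 ⊆ pvtlI c c' b0 := by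
  intro d hd
  refine T.djoin_mono ?_ (hconn b0 hb d hd)
  rintro x (⟨k, rfl⟩ | ⟨k, rfl⟩)
  · exact hc ⟨k, rfl⟩
  · exact hc' ⟨k, rfl⟩

/-- **T3b (1)** for admissible circuits -/
theorem pvtl_adm_meet (hT : T.IsSph) (hS : T.Simple) {s : V → Bool} {𝒜 : Set V} {B0 : Set D} {P : T.Cyc} {i j : ℕ} (hP : PvtlP T s 𝒜 B0 P i j) {c c' : T.Cyc}
    (hc : PvtlAdm T s 𝒜 B0 c) (hc' : PvtlAdm T s 𝒜 B0 c') :
    ∃ c'' : T.Cyc, PvtlAdm T s 𝒜 B0 c'' ∧ c''.Left ⊆ c.Left ∧ c''.Left ⊆ c'.Left ∧ ∀ k, c''.e k ∈ c.darts ∨ c''.e k ∈ c'.darts := by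
  obtain ⟨b0, hb⟩ := pl_cyc_dart_at hT c (T.src (P.e i))
  have hb0 : b0 ∈ B0 := hP.hi b0 hb
  have hsub := pvtl_B0_sub hP.conn hc.ann hc'.ann hb0
  obtain ⟨c'', hL, hdar, h2, -⟩ := pvtl_meet hT hS hc.two hc'.two hP.black (hc.rnd hb0) (hc'.rnd hb0) hP.ij hP.ji (pvtl_int_mono hsub hP.hi)
    (hP.hj c hc.ann hc.rnd) (hP.hj c' hc'.ann hc'.rnd)
  refine ⟨c'', ⟨?_, hL ▸ hsub, h2⟩, hL ▸ pvtl_I_sub_left c c' b0 (hc.rnd hb0), hL ▸ pvtl_I_sub_left' c c' b0 (hc'.rnd hb0), hdar⟩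
  rintro v ⟨k, rfl⟩
  rcases hdar k with ⟨l, hl⟩ | ⟨l, hl⟩
  · rw [← hl]; exact hc.ann ⟨l, rfl⟩
  · rw [← hl]; exact hc'.ann ⟨l, rfl⟩

/-- **T3b (2)**: the minimal gate lies inside every gate -/
theorem pvtl_min_le (hT : T.IsSph) (hS : T.Simple) {s : V → Bool} {𝒜 : Set V} {B0 : Set D} {P : T.Cyc} {i j : ℕ} (hP : PvtlP T s 𝒜 B0 P i j) {c₀ c : T.Cyc}
    (h₀ : PvtlMin T s 𝒜 B0 c₀) (hc : PvtlAdm T s 𝒜 B0 c) : c₀.Left ⊆ c.Left := by
  obtain ⟨c'', h1, h2, h3, -⟩ := pvtl_adm_meet hT hS hP h₀.1 hc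
  rw [← h₀.2 c'' h1 h2]
  exact h3

theorem pvtl_darts_of_left (hT : T.IsSph) {c c' : T.Cyc} (h : c.Left = c'.Left) : c.darts = c'.darts := by
  ext d
  rw [pl_cyc_darts_iff hT c, pl_cyc_darts_iff hT c', h]

/-- **T3b (2)**: the minimal gate is unique -/
theorem pvtl_min_unique (hT : T.IsSph) (hS : T.Simple) {s : V → Bool} {𝒜 : Set V} {B0 : Set D} {P : T.Cyc} {i j : ℕ} (hP : PvtlP T s 𝒜 B0 P i j) {c₀ c₁ : T.Cyc}
    (h₀ : PvtlMin T s 𝒜 B0 c₀) (h₁ : PvtlMin T s 𝒜 B0 c₁) : c₀.Left = c₁.Left ∧ c₀.darts = c₁.darts ∧ c₀.verts = c₁.verts := by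
  have hL : c₀.Left = c₁.Left := Set.Subset.antisymm (pvtl_min_le hT hS hP h₀ h₁.1) (pvtl_min_le hT hS hP h₁ h₀.1)
  have hd := pvtl_darts_of_left hT hL
  refine ⟨hL, hd, ?_⟩
  ext v
  constructor
  · rintro ⟨k, rfl⟩
    obtain ⟨l, hl⟩ : c₀.e k ∈ c₁.darts := hd ▸ ⟨k, rfl⟩
    exact ⟨l, by rw [hl]⟩
  · rintro ⟨k, rfl⟩
    obtain ⟨l, hl⟩ : c₁.e k ∈ c₀.darts := hd ▸ ⟨k, rfl⟩
    exact ⟨l, by rw [hl]⟩

/-- existence of a minimal gate inside a gate with finite inside -/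
theorem pvtl_min_exists {s : V → Bool} {𝒜 : Set V} {B0 : Set D} : ∀ (n : ℕ) (c : T.Cyc), PvtlAdm T s 𝒜 B0 c → c.Left.Finite → c.Left.ncard ≤ n →
    ∃ c₀ : T.Cyc, PvtlMin T s 𝒜 B0 c₀ ∧ c₀.Left ⊆ c.Left := by
  intro n
  induction n with
  | zero =>
    intro c hc hfin hn
    refine ⟨c, ⟨hc, fun c' _ hsub => ?_⟩, le_rfl⟩
    have : c.Left = ∅ := (Set.ncard_eq_zero hfin).1 (by omega)
    rw [this] at hsub ⊢
    exact Set.subset_empty_iff.1 hsub
  | succ n ih =>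
    intro c hc hfin hn
    by_cases hmin : ∀ c' : T.Cyc, PvtlAdm T s 𝒜 B0 c' → c'.Left ⊆ c.Left → c'.Left = c.Left
    · exact ⟨c, ⟨hc, hmin⟩, le_rfl⟩
    · simp only [not_forall] at hmin
      obtain ⟨c', hc', hsub, hne⟩ := hmin
      have hlt : c'.Left.ncard < c.Left.ncard := Set.ncard_lt_ncard (lt_of_le_of_ne hsub hne) hfin
      obtain ⟨c₀, h1, h2⟩ := ih c' hc' (hfin.subset hsub) (by omega)
      exact ⟨c₀, h1, h2.trans hsub⟩

/-- **T3b**: with a crossing black circuit and one gate with finite inside there is exactly one minimal gate (as a face set / set of darts) -/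
theorem pvtl_min_exists_unique (hT : T.IsSph) (hS : T.Simple) {s : V → Bool} {𝒜 : Set V} {B0 : Set D} {P : T.Cyc} {i j : ℕ} (hP : PvtlP T s 𝒜 B0 P i j) {c : T.Cyc}
    (hc : PvtlAdm T s 𝒜 B0 c) (hfin : c.Left.Finite) :
    ∃ c₀ : T.Cyc, PvtlMin T s 𝒜 B0 c₀ ∧ (∀ c' : T.Cyc, PvtlAdm T s 𝒜 B0 c' → c₀.Left ⊆ c'.Left) ∧ ∀ c₁ : T.Cyc, PvtlMin T s 𝒜 B0 c₁ → c₁.darts = c₀.darts := by
  obtain ⟨c₀, h1, -⟩ := pvtl_min_exists _ c hc hfin le_rfl
  exact ⟨c₀, h1, fun c' hc' => pvtl_min_le hT hS hP h1 hc', fun c₁ h => (pvtl_min_unique hT hS hP h h1).2.1⟩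

/-- the black vertices of the minimal gate lie on `P`, one on each of the two arcs of `P` between the inner visit `i` and the outer visit `j` -/
theorem pvtl_adm_pass (hT : T.IsSph) {s : V → Bool} {𝒜 : Set V} {B0 : Set D} {P : T.Cyc} {i j : ℕ} (hP : PvtlP T s 𝒜 B0 P i j) {c : T.Cyc} (hc : PvtlAdm T s 𝒜 B0 c) :
    ∃ k₁ k₂, i < k₁ ∧ k₁ < j ∧ j < k₂ ∧ k₂ < i + P.n ∧ T.src (P.e k₁) ∈ c.verts ∧ T.src (P.e k₂) ∈ c.verts ∧
      (∀ v ∈ c.verts, s v = true → v = T.src (P.e k₁) ∨ v = T.src (P.e k₂)) ∧ (∀ k, k₁ < k → k < k₂ → T.src (P.e k) ∈ T.Int c.Right) :=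
  pvtl_pass hT ⟨hP.ij, hP.ji, pvtl_int_mono hc.rnd hP.hi, hP.hj c hc.ann hc.rnd⟩ hc.two hP.black

end Claimed.Agent.R289
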