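import Claimed.Agent.R289.Pl.Bond
import Claimed.Agent.R289.Tr.GateB
import Claimed.Agent.R289.Tr.GateL

/-!
# Row 289 (S0537, Cardy for Poisson-Voronoi), unit TR, file Tr/GateMin : THE INNERMOST GATE      (owner helper150; prefix `pvgn_`, records `PvgnG`, `PvgnArc`, `PvgnThru`)

Blueprint: `origin/helper208:notes/R289/W1_208.md` sec. 1 (GATE, "the gates form a lattice => INNERMOST gate; `{S = S0}` is read from the colours in the closed inside of `S0`"), T3 and OPEN POINT O2 of sec. 8;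
also the "fixed selection rule" of the gates in RULING C1 of helper273.      DESIGN INDEPENDENT: only `Pl/*`, `PvMap.BdV` of `S2/Gate` (190), `PvMap.Gate` of `Tr/GateB` (260).

`I ⊆ O` = two face sets (the faces which meet the inner ball, the faces of the outer disc).      Black = `true`.
* `pvgnX T s G`          the black vertices of the boundary of the face set `G`
* `PvgnG T s I O G`      FACE-SET GATE: `I ⊆ G ⊆ O`, at most two black boundary vertices, no boundary edge with two black ends      (`pvgn_of_gate`: the inside of a `T.Gate s` is one)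
* `pvgnMin T s I O`      the intersection of all face-set gates
* `PvgnThru T s I O γ`   the black simple cycle `γ` visits the interior of `I` and the interior of `Oᶜ` (a rim which passes through the pin)
RESULTS      (frame `PvgnFr T I O o`: `I` dual connected, `O` finite and co-connected, `o ∉ O` a far face)
* sec. 2  **`pvgn_min`**        LATTICE: if a black cycle passes through, the intersection of all the gates is a gate      (no submodularity, no Menger: the two arcs of the cycle order the exceptional vertices)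
* sec. 3  `pvgn_min_conn`       the minimal gate is dual connected
* sec. 4  `pvgnHull T s I O o`  THE RULE: the filled minimal gate, a face set defined for EVERY colouring, no choice;      **`pvgn_gate`**: it is the inside of a `g : T.Gate s`;
          **`pvgn_innermost`**: `pvgnHull ⊆ g'.c.Left` for every gate `g'` between `I` and `O`;   `pvgn_gate_of_cyc` (two-site circuit => `T.Gate s` with prescribed entry and exit), `pvgn_gate_swap`, `pvgn_of_gate`
* sec. 5  **`pvgn_min_congr`, `pvgn_hull_congr`**  FIXED RULE: function of the colours of `T.VOf O` (CORE = all the colours of the deterministic disc);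
          **`pvgn_local`, `pvgn_local_thru`, `pvgn_gate_local`**  LOCALITY: function of the colours of its own vertices;   `pvgn_min_eq` (the disc `O` may be replaced by any gate)
Circuit form of the same lattice (predicate `PvtlMin`, unique given the cycle): `Tr/GateL` of helper118.
-/

set_option autoImplicit false
set_option linter.unusedSectionVars false

namespace Claimed.Agent.R289

open Relation

variable {V D : Type} {T : PvMap V D}

/-! ## 0. definitions -/

/-- the black vertices of the boundary of a face set -/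
def pvgnX (T : PvMap V D) (s : V → Bool) (G : Set D) : Set V := {v | v ∈ T.BdV G ∧ s v = true}

/-- **face-set gate** between `I` and `O` -/
structure PvgnG (T : PvMap V D) (s : V → Bool) (I O G : Set D) : Prop where
  face : T.FaceSet G
  inner : I ⊆ G
  outer : G ⊆ O
  two : (pvgnX T s G).encard ≤ 2
  nobb : ∀ d, T.Bd G d → ¬ (s (T.src d) = true ∧ s (T.tgt d) = true)

/-- the intersection of all the face-set gates -/
def pvgnMin (T : PvMap V D) (s : V → Bool) (I O : Set D) : Set D := {d | ∀ G, PvgnG T s I O G → d ∈ G}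

/-- a black simple path from the interior of `I` to the interior of `Oᶜ` -/
structure PvgnArc (T : PvMap V D) (s : V → Bool) (I O : Set D) (f : ℕ → V) (N : ℕ) : Prop where
  pos : 0 < N
  adj : ∀ k, k < N → T.Adj (f k) (f (k + 1))
  black : ∀ k, k ≤ N → s (f k) = true
  inj : ∀ k l, k ≤ N → l ≤ N → f k = f l → k = l
  st : f 0 ∈ T.Int I
  en : f N ∈ T.Int Oᶜ

/-- the two arcs have disjoint interiors -/
def PvgnDis (f₁ : ℕ → V) (N₁ : ℕ) (f₂ : ℕ → V) (N₂ : ℕ) : Prop := ∀ k l, 0 < k → k < N₁ → 0 < l → l < N₂ → f₁ k ≠ f₂ l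

/-- the black simple cycle `γ` passes through the annulus `O \ I` -/
structure PvgnThru (T : PvMap V D) (s : V → Bool) (I O : Set D) (γ : T.Cyc) : Prop where
  black : ∀ k, s (T.src (γ.e k)) = true
  inn : ∃ i, T.src (γ.e i) ∈ T.Int I
  out : ∃ j, T.src (γ.e j) ∈ T.Int Oᶜ

theorem pvgn_eqns_cite : True := by
  have := @pvgnX.eq_1; have := @pvgnMin.eq_1; have := @PvgnDis.eq_1
  trivial

/-! ## 1. face sets, interiors, walks -/

theorem pvgn_int_mono {A B : Set D} (h : A ⊆ B) : T.Int A ⊆ T.Int B := fun _ hv d hd => h (hv d hd)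

theorem pvgn_bdV_compl (A : Set D) : T.BdV Aᶜ = T.BdV A := by
  ext v
  simp only [PvMap.BdV, Set.mem_ofPred_eq, T.bd_compl]

/-- both faces of an edge at an interior vertex are in the set -/
theorem pvgn_int_opp {A : Set D} (hA : T.FaceSet A) {d : D} (h : T.src d ∈ T.Int A) : d ∈ A ∧ T.opp d ∈ A :=
  ⟨h d rfl, (hA (T.opp d)).1 (h _ (by rw [T.src_nxt, T.tgt_opp]))⟩

theorem pvgn_int_not_bdV {A : Set D} (hA : T.FaceSet A) {v : V} (h : v ∈ T.Int A) : v ∉ T.BdV A := by
  rintro ⟨d, rfl, hB⟩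
  obtain ⟨h1, h2⟩ := pvgn_int_opp hA h
  exact hB ⟨fun _ => h2, fun _ => h1⟩

theorem pvgn_int_not_bdV' {A : Set D} (hA : T.FaceSet A) {v : V} (h : v ∈ T.Int Aᶜ) : v ∉ T.BdV A := by
  rw [← pvgn_bdV_compl]
  exact pvgn_int_not_bdV hA.compl h

/-- a boundary vertex of a smaller face set is not strictly outside the larger one -/
theorem pvgn_bdV_not_out {A B : Set D} (hB : T.FaceSet B) (hAB : A ⊆ B) {v : V} (h : v ∈ T.BdV A) : v ∉ T.Int Bᶜ := by
  obtain ⟨d, rfl, hd⟩ := h
  intro hv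
  obtain ⟨h1, h2⟩ := pvgn_int_opp hB.compl hv
  exact hd ⟨fun h => absurd (hAB h) h1, fun h => absurd (hAB h) h2⟩

theorem pvgn_bdV_VOf {A : Set D} (hA : T.FaceSet A) {v : V} (h : v ∈ T.BdV A) : v ∈ T.VOf A := by
  obtain ⟨d, rfl, hd⟩ := h
  by_cases h1 : d ∈ A
  · exact ⟨d, h1, rfl⟩
  · have h2 : T.opp d ∈ A := by
      by_contra h2
      exact hd ⟨fun h => absurd h h1, fun h => absurd h h2⟩
    exact ⟨T.nxt (T.opp d), (hA _).2 h2, by rw [T.src_nxt, T.tgt_opp]⟩

/-- forward walk off the boundary -/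
theorem pvgn_walk (hT : T.IsSph) {A : Set D} (hA : T.FaceSet A) {f : ℕ → V} {a : ℕ} (ha : f a ∈ T.Int A) :
    ∀ b, a ≤ b → (∀ k, a ≤ k → k < b → T.Adj (f k) (f (k + 1))) → (∀ k, a < k → k ≤ b → f k ∉ T.BdV A) → f b ∈ T.Int A := by
  intro b hab
  induction b, hab using Nat.le_induction with
  | base => intro _ _; exact ha
  | succ b hb ih =>
    intro h1 h2
    have h3 := ih (fun k hk hk' => h1 k hk (by omega)) (fun k hk hk' => h2 k hk (by omega))
    exact pl_int_adj hT hA h3 (h1 b hb (by omega)) fun d hd hB => h2 (b + 1) (by omega) le_rfl ⟨d, hd, hB⟩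

/-- backward walk off the boundary -/
theorem pvgn_walk_back (hT : T.IsSph) {A : Set D} (hA : T.FaceSet A) {f : ℕ → V} {b : ℕ} (hb : f b ∈ T.Int A) :
    ∀ m a, a + m = b → (∀ k, a ≤ k → k < b → T.Adj (f k) (f (k + 1))) → (∀ k, a ≤ k → k < b → f k ∉ T.BdV A) → f a ∈ T.Int A := by
  intro m
  induction m with
  | zero =>
    intro a hab _ _
    have : a = b := by omega
    rw [this]; exact hb
  | succ m ih =>
    intro a hab h1 h2
    have h3 := ih (a + 1) (by omega) (fun k hk hk' => h1 k (by omega) hk') (fun k hk hk' => h2 k (by omega) hk')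
    exact pl_int_adj hT hA h3 (T.adj_symm (h1 a le_rfl (by omega))) fun d hd hB => h2 a le_rfl (by omega) ⟨d, hd, hB⟩

theorem pvgn_int_disj {A : Set D} {v w : V} (hvw : T.Adj v w) (h : v ∈ T.Int A) : v ∉ T.Int Aᶜ := by
  obtain ⟨d, rfl, -⟩ := hvw
  exact pvg_int_disj h

/-! ## 2. the lattice property -/

section lattice

variable {s : V → Bool} {I O : Set D}

theorem pvgn_X_black {G : Set D} {v : V} (h : v ∈ pvgnX T s G) : s v = true := h.2

theorem pvgn_not_bdV {G : Set D} {v : V} (hb : s v = true) (h : v ∉ pvgnX T s G) : v ∉ T.BdV G := fun h' => h ⟨h', hb⟩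

/-- an arc meets the exceptional set of every gate, strictly between its ends -/
theorem pvgn_arc_hit (hT : T.IsSph) {G : Set D} (hG : PvgnG T s I O G) {f : ℕ → V} {N : ℕ} (hf : PvgnArc T s I O f N) :
    ∃ k, 0 < k ∧ k < N ∧ f k ∈ pvgnX T s G := by
  by_contra hno
  push Not at hno
  have hen : f N ∈ T.Int Gᶜ := pvgn_int_mono (Set.compl_subset_compl.2 hG.outer) hf.en
  have hst : f 0 ∈ T.Int G := pvgn_int_mono hG.inner hf.st
  have hN : 0 < N := hf.pos
  have h1 : f N ∈ T.Int G := by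
    refine pvgn_walk hT hG.face hst N (Nat.zero_le _) (fun k _ hk => hf.adj k hk) fun k hk hk' => ?_
    rcases Nat.lt_or_ge k N with h | h
    · exact pvgn_not_bdV (hf.black k hk') (hno k hk h)
    · have : k = N := by omega
      rw [this]
      exact pvgn_int_not_bdV' hG.face hen
  have h2 : T.Adj (f N) (f (N - 1)) := by
    have := hf.adj (N - 1) (by omega)
    rw [show N - 1 + 1 = N by omega] at this
    exact T.adj_symm this
  exact pvgn_int_disj h2 h1 hen

theorem PvgnDis.symm {f₁ f₂ : ℕ → V} {N₁ N₂ : ℕ} (h : PvgnDis f₁ N₁ f₂ N₂) : PvgnDis f₂ N₂ f₁ N₁ :=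
  fun k l h1 h2 h3 h4 e => h l k h3 h4 h1 h2 e.symm

/-- the exceptional set of a gate = one inner vertex of each arc -/
theorem pvgn_X_eq (hT : T.IsSph) {G : Set D} (hG : PvgnG T s I O G) {f₁ f₂ : ℕ → V} {N₁ N₂ : ℕ} (hf₁ : PvgnArc T s I O f₁ N₁)
    (hf₂ : PvgnArc T s I O f₂ N₂) (hd : PvgnDis f₁ N₁ f₂ N₂) :
    ∃ k l, 0 < k ∧ k < N₁ ∧ 0 < l ∧ l < N₂ ∧ pvgnX T s G = {f₁ k, f₂ l} := by
  obtain ⟨k, k0, k1, hk⟩ := pvgn_arc_hit hT hG hf₁
  obtain ⟨l, l0, l1, hl⟩ := pvgn_arc_hit hT hG hf₂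
  refine ⟨k, l, k0, k1, l0, l1, ?_⟩
  refine (Set.Finite.eq_of_subset_of_encard_le (s := {f₁ k, f₂ l}) (Set.toFinite _) ?_ ?_).symm
  · intro v hv
    rcases hv with rfl | rfl
    · exact hk
    · exact hl
  · rw [Set.encard_pair (hd k l k0 k1 l0 l1)]
    exact hG.two

/-- after its exceptional vertex an arc is strictly outside the gate -/
theorem pvgn_arc_after (hT : T.IsSph) {G : Set D} (hG : PvgnG T s I O G) {f₁ f₂ : ℕ → V} {N₁ N₂ : ℕ} (hf₁ : PvgnArc T s I O f₁ N₁)
    (hf₂ : PvgnArc T s I O f₂ N₂) (hd : PvgnDis f₁ N₁ f₂ N₂) {k k' : ℕ} (hX : f₁ k ∈ pvgnX T s G) (h1 : k < k') (h2 : k' ≤ N₁) :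
    f₁ k' ∈ T.Int Gᶜ := by
  obtain ⟨q, l, q0, q1, l0, l1, hXe⟩ := pvgn_X_eq hT hG hf₁ hf₂ hd
  have hen : f₁ N₁ ∈ T.Int Gᶜ := pvgn_int_mono (Set.compl_subset_compl.2 hG.outer) hf₁.en
  have hst : f₁ 0 ∈ T.Int G := pvgn_int_mono hG.inner hf₁.st
  have hk0 : 0 < k := by
    rcases Nat.eq_zero_or_pos k with h | h
    · rw [h] at hX
      exact absurd hX.1 (pvgn_int_not_bdV hG.face hst)
    · exact h
  have hkq : k = q := by
    have h3 := hX
    rw [hXe] at h3
    rcases h3 with h3 | h3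
    · exact hf₁.inj k q (by omega) (by omega) h3
    · exact absurd h3 (hd k l hk0 (by omega) l0 l1)
  refine pvgn_walk_back hT hG.face.compl hen (N₁ - k') k' (by omega) (fun j _ hj => hf₁.adj j hj) fun j hj hj' => ?_
  rw [pvgn_bdV_compl]
  refine pvgn_not_bdV (hf₁.black j (by omega)) fun h3 => ?_
  rw [hXe] at h3
  rcases h3 with h3 | h3
  · have := hf₁.inj j q (by omega) (by omega) h3
    omega
  · exact hd j l (by omega) hj' l0 l1 h3

theorem pvgn_min_face : T.FaceSet (pvgnMin T s I O) :=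
  fun d => ⟨fun h G hG => (hG.face d).1 (h G hG), fun h G hG => (hG.face d).2 (h G hG)⟩

theorem pvgn_min_sub {G : Set D} (hG : PvgnG T s I O G) : pvgnMin T s I O ⊆ G := fun _ h => h G hG

theorem pvgn_min_inner : I ⊆ pvgnMin T s I O := fun _ h _ hG => hG.inner h

/-- a boundary edge of the intersection is a boundary edge of one of the gates -/
theorem pvgn_min_bd {d : D} (h : T.Bd (pvgnMin T s I O) d) : ∃ G, PvgnG T s I O G ∧ T.Bd G d := by
  by_cases h1 : d ∈ pvgnMin T s I O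
  · have h2 : T.opp d ∉ pvgnMin T s I O := fun h2 => h ⟨fun _ => h2, fun _ => h1⟩
    unfold pvgnMin at h2
    simp only [Set.mem_ofPred_eq, not_forall] at h2
    obtain ⟨G, hG, h3⟩ := h2
    exact ⟨G, hG, fun h4 => h3 (h4.1 (h1 G hG))⟩
  · have h2 : T.opp d ∈ pvgnMin T s I O := by
      by_contra h2
      exact h ⟨fun h3 => absurd h3 h1, fun h3 => absurd h3 h2⟩
    unfold pvgnMin at h1
    simp only [Set.mem_ofPred_eq, not_forall] at h1
    obtain ⟨G, hG, h3⟩ := h1
    exact ⟨G, hG, fun h4 => h3 (h4.2 (h2 G hG))⟩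

theorem pvgn_min_X {v : V} (h : v ∈ pvgnX T s (pvgnMin T s I O)) : ∃ G, PvgnG T s I O G ∧ v ∈ pvgnX T s G := by
  obtain ⟨⟨d, rfl, hd⟩, hb⟩ := h
  obtain ⟨G, hG, h1⟩ := pvgn_min_bd hd
  exact ⟨G, hG, ⟨d, rfl, h1⟩, hb⟩

/-- at most one exceptional vertex of the intersection on each arc -/
theorem pvgn_min_one (hT : T.IsSph) {f₁ f₂ : ℕ → V} {N₁ N₂ : ℕ} (hf₁ : PvgnArc T s I O f₁ N₁) (hf₂ : PvgnArc T s I O f₂ N₂)
    (hd : PvgnDis f₁ N₁ f₂ N₂) {k k' : ℕ} (hk' : k' ≤ N₁) (h : f₁ k ∈ pvgnX T s (pvgnMin T s I O))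
    (h' : f₁ k' ∈ pvgnX T s (pvgnMin T s I O)) : ¬ k < k' := by
  intro hlt
  obtain ⟨G, hG, hX⟩ := pvgn_min_X h
  exact pvgn_bdV_not_out hG.face (pvgn_min_sub hG) h'.1 (pvgn_arc_after hT hG hf₁ hf₂ hd hX hlt hk')

/-- **LATTICE**, arc form: the intersection of all the gates is a gate -/
theorem pvgn_min_arc (hT : T.IsSph) (hne : ∃ G, PvgnG T s I O G) {f₁ f₂ : ℕ → V} {N₁ N₂ : ℕ} (hf₁ : PvgnArc T s I O f₁ N₁)
    (hf₂ : PvgnArc T s I O f₂ N₂) (hd : PvgnDis f₁ N₁ f₂ N₂) : PvgnG T s I O (pvgnMin T s I O) := by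
  obtain ⟨G₀, hG₀⟩ := hne
  refine ⟨pvgn_min_face, pvgn_min_inner, (pvgn_min_sub hG₀).trans hG₀.outer, ?_, ?_⟩
  · set X := pvgnX T s (pvgnMin T s I O) with hX
    have hsub : X ⊆ {v | v ∈ X ∧ ∃ k, k ≤ N₁ ∧ f₁ k = v} ∪ {v | v ∈ X ∧ ∃ k, k ≤ N₂ ∧ f₂ k = v} := by
      intro v hv
      obtain ⟨G, hG, hvG⟩ := pvgn_min_X hv
      obtain ⟨k, l, k0, k1, l0, l1, hXe⟩ := pvgn_X_eq hT hG hf₁ hf₂ hd
      rw [hXe] at hvG
      rcases hvG with rfl | rfl
      · exact Or.inl ⟨hv, k, k1.le, rfl⟩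
      · exact Or.inr ⟨hv, l, l1.le, rfl⟩
    have h1 : {v | v ∈ X ∧ ∃ k, k ≤ N₁ ∧ f₁ k = v}.encard ≤ 1 := by
      rw [Set.encard_le_one_iff]
      rintro a b ⟨ha, k, hk, rfl⟩ ⟨hb, k', hk', rfl⟩
      have e1 := pvgn_min_one hT hf₁ hf₂ hd hk' ha hb
      have e2 := pvgn_min_one hT hf₁ hf₂ hd hk hb ha
      rw [show k = k' by omega]
    have h2 : {v | v ∈ X ∧ ∃ k, k ≤ N₂ ∧ f₂ k = v}.encard ≤ 1 := by
      rw [Set.encard_le_one_iff]
      rintro a b ⟨ha, k, hk, rfl⟩ ⟨hb, k', hk', rfl⟩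
      have e1 := pvgn_min_one hT hf₂ hf₁ hd.symm hk' ha hb
      have e2 := pvgn_min_one hT hf₂ hf₁ hd.symm hk hb ha
      rw [show k = k' by omega]
    calc X.encard ≤ _ := Set.encard_le_encard hsub
      _ ≤ _ := Set.encard_union_le _ _
      _ ≤ 1 + 1 := add_le_add h1 h2
      _ = 2 := one_add_one_eq_two
  · intro d hd'
    obtain ⟨G, hG, h1⟩ := pvgn_min_bd hd'
    exact hG.nobb d h1

/-- the two arcs of a cycle which passes through -/
theorem pvgn_thru_arcs (hIO : I ⊆ O) {γ : T.Cyc} (h : PvgnThru T s I O γ) :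
    ∃ (f₁ : ℕ → V) (N₁ : ℕ) (f₂ : ℕ → V) (N₂ : ℕ), PvgnArc T s I O f₁ N₁ ∧ PvgnArc T s I O f₂ N₂ ∧ PvgnDis f₁ N₁ f₂ N₂ := by
  obtain ⟨i0, hi0⟩ := h.inn
  obtain ⟨j, hj⟩ := h.out
  set c : T.Cyc := γ.shift i0 with hc
  have hn : 0 < c.n := pl_cyc_pos c
  have hbl : ∀ k, s (T.src (c.e k)) = true := fun k => h.black (k + i0)
  have h0 : T.src (c.e 0) ∈ T.Int I := by
    show T.src (γ.e (0 + i0)) ∈ T.Int I
    rwa [Nat.zero_add]
  obtain ⟨j', hj'⟩ : ∃ j', c.e j' = γ.e j := by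
    have : γ.e j ∈ c.darts := by rw [hc, pl_cyc_shift_darts]; exact ⟨j, rfl⟩
    exact this
  set j0 := j' % c.n with hj0
  have hj0n : j0 < c.n := Nat.mod_lt _ hn
  have hJ : T.src (c.e j0) ∈ T.Int Oᶜ := by rw [hj0, pl_cyc_mod, hj']; exact hj
  have hj00 : 0 < j0 := by
    rcases Nat.eq_zero_or_pos j0 with h1 | h1
    · rw [h1] at hJ
      exact absurd hJ (pvg_int_disj (pvgn_int_mono hIO h0))
    · exact h1
  refine ⟨fun k => T.src (c.e k), j0, fun k => T.src (c.e (c.n - k)), c.n - j0, ?_, ?_, ?_⟩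
  · exact ⟨hj00, fun k _ => pvg_cyc_adj c k, fun k _ => hbl k, fun k l hk hl e => c.inj k l (by omega) (by omega) e, h0, hJ⟩
  · refine ⟨by omega, fun k hk => ?_, fun k _ => hbl _, fun k l hk hl e => ?_, ?_, ?_⟩
    · have := pvg_cyc_adj c (c.n - (k + 1))
      rw [show c.n - (k + 1) + 1 = c.n - k by omega] at this
      exact T.adj_symm this
    · by_contra hne
      rcases Nat.lt_or_gt_of_ne hne with h1 | h1
      · exact pvg_cyc_ne c (k := c.n - l) (l := c.n - k) (by omega) (by omega) e.symm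
      · exact pvg_cyc_ne c (k := c.n - k) (l := c.n - l) (by omega) (by omega) e
    · show T.src (c.e (c.n - 0)) ∈ T.Int I
      have := c.per 0
      rw [Nat.zero_add] at this
      rw [Nat.sub_zero, this]
      exact h0
    · show T.src (c.e (c.n - (c.n - j0))) ∈ T.Int Oᶜ
      rw [show c.n - (c.n - j0) = j0 by omega]
      exact hJ
  · intro k l k0 k1 l0 l1
    exact pvg_cyc_ne c (by omega) (by omega)

/-- **LATTICE**: if a black simple cycle passes through, the intersection of all the gates is a gate -/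
theorem pvgn_min (hT : T.IsSph) (hIO : I ⊆ O) (hne : ∃ G, PvgnG T s I O G) {γ : T.Cyc} (h : PvgnThru T s I O γ) :
    PvgnG T s I O (pvgnMin T s I O) := by
  obtain ⟨f₁, N₁, f₂, N₂, h1, h2, h3⟩ := pvgn_thru_arcs hIO h
  exact pvgn_min_arc hT hne h1 h2 h3

end lattice

/-! ## 3. the minimal gate is dual connected -/

section conn

variable {s : V → Bool} {I O : Set D}

/-- a dual path inside a face set, off its boundary, is a dual path off the boundary of every larger set -/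
theorem pvgn_djoin_sub {A G : Set D} (hA : T.FaceSet A) (hAG : A ⊆ G) {a b : D} (ha : a ∈ A) (h : T.DJoin {d | T.Bd A d} a b) :
    T.DJoin {d | T.Bd G d} a b ∧ b ∈ A := by
  induction h with
  | refl => exact ⟨ReflTransGen.refl, ha⟩
  | @tail x y _ hxy ih =>
    obtain ⟨h1, hx⟩ := ih
    rcases hxy with rfl | ⟨rfl, h2⟩
    · exact ⟨h1.tail (Or.inl rfl), (hA x).2 hx⟩
    · have hy : T.opp x ∈ A := by
        by_contra hy
        exact h2 (Or.inl fun h3 => hy (h3.1 hx))
      refine ⟨h1.tail (Or.inr ⟨rfl, ?_⟩), hy⟩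
      rintro (h3 | h3)
      · exact h3 ⟨fun _ => hAG hy, fun _ => hAG hx⟩
      · exact (T.bd_opp.1 h3) ⟨fun _ => hAG hy, fun _ => hAG hx⟩

/-- the boundary of a dual component off the boundary of `G` is part of the boundary of `G` -/
theorem pvgn_comp_bd {G : Set D} {a d : D} (h : T.Bd {x | T.DJoin {e | T.Bd G e} a x} d) : T.Bd G d := by
  by_contra hn
  have hE : ¬ T.Edg {e | T.Bd G e} d := by
    rintro (h1 | h1)
    · exact hn h1
    · exact hn (T.bd_opp.1 h1)
  have hE' : ¬ T.Edg {e | T.Bd G e} (T.opp d) := fun h1 => hE (T.edg_opp.1 h1)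
  refine h ⟨fun h1 => ReflTransGen.tail h1 (Or.inr ⟨rfl, hE⟩), fun h1 => ?_⟩
  have h2 : T.DJoin {e | T.Bd G e} a (T.opp (T.opp d)) := ReflTransGen.tail h1 (Or.inr ⟨rfl, hE'⟩)
  rwa [T.opp_opp] at h2

/-- a face set between `I` and `O` whose boundary is part of the boundary of a gate is a gate -/
theorem PvgnG.of_bd {G C : Set D} (hG : PvgnG T s I O G) (hC : T.FaceSet C) (h1 : I ⊆ C) (h2 : C ⊆ O) (hbd : ∀ d, T.Bd C d → T.Bd G d) :
    PvgnG T s I O C := by
  refine ⟨hC, h1, h2, (Set.encard_le_encard fun v hv => ?_).trans hG.two, fun d hd => hG.nobb d (hbd d hd)⟩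
  obtain ⟨⟨d, e, hd⟩, hb⟩ := hv
  exact ⟨⟨d, e, hbd d hd⟩, hb⟩

/-- the minimal gate is dual connected off its boundary -/
theorem pvgn_min_conn (hmin : PvgnG T s I O (pvgnMin T s I O)) (hI : T.FaceSet I) {a0 : D} (ha0 : a0 ∈ I)
    (hconn : ∀ b ∈ I, T.DJoin {d | T.Bd I d} a0 b) :
    ∀ a ∈ pvgnMin T s I O, ∀ b ∈ pvgnMin T s I O, T.DJoin {d | T.Bd (pvgnMin T s I O) d} a b := by
  have hCG : {x | T.DJoin {e | T.Bd (pvgnMin T s I O) e} a0 x} ⊆ pvgnMin T s I O := fun x hx =>
    (pl_side_dual hmin.face (fun d hd => Or.inl hd) hx).1 (hmin.inner ha0)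
  have hgate : PvgnG T s I O {x | T.DJoin {e | T.Bd (pvgnMin T s I O) e} a0 x} :=
    hmin.of_bd (pl_djoin_face _ _) (fun b hb => (pvgn_djoin_sub hI hmin.inner ha0 (hconn b hb)).1) (hCG.trans hmin.outer) fun d hd => pvgn_comp_bd hd
  have hGC := pvgn_min_sub hgate
  intro a ha b hb
  exact (T.djoin_symm (hGC ha)).trans (hGC hb)

end conn

/-! ## 4. the filled minimal gate is the innermost gate -/

/-- the frame: inner face set `I` (dual connected), outer face set `O` (finite, co-connected), far face `o` -/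
structure PvgnFr (T : PvMap V D) (I O : Set D) (o : D) : Prop where
  faceI : T.FaceSet I
  faceO : T.FaceSet O
  sub : I ⊆ O
  ne : I.Nonempty
  connI : ∀ a ∈ I, ∀ b ∈ I, T.DJoin {d | T.Bd I d} a b
  fin : O.Finite
  far : o ∉ O
  connO : ∀ b, b ∉ O → T.DJoin {d | T.Bd O d} o b

/-- **the filled minimal gate**: the faces which are not joined to the far face `o` off the boundary of the minimal gate -/
def pvgnHull (T : PvMap V D) (s : V → Bool) (I O : Set D) (o : D) : Set D := {d | ¬ T.DJoin {e | T.Bd (pvgnMin T s I O) e} o d}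

theorem pvgn_hull_eqns_cite : True := by
  have := @pvgnHull.eq_1
  trivial

section hull

variable {s : V → Bool} {I O : Set D} {o : D}

theorem pvgn_bdV_left (hT : T.IsSph) (c : T.Cyc) : T.BdV c.Left = c.verts := by
  ext v
  constructor
  · rintro ⟨d, rfl, hd⟩
    exact pl_cyc_edg_src c (((pl_jordan hT c).2.2.2 d).1 hd)
  · rintro ⟨i, rfl⟩
    exact ⟨c.e i, rfl, ((pl_jordan hT c).2.2.2 _).2 (Or.inl ⟨i, rfl⟩)⟩

theorem pvgn_bd_finite {G : Set D} (hfin : O.Finite) (hG : G ⊆ O) : {d | T.Bd G d}.Finite := by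
  refine (hfin.union (hfin.preimage (T.opp_injective.injOn))).subset fun d hd => ?_
  by_cases h1 : d ∈ G
  · exact Or.inl (hG h1)
  · refine Or.inr (hG ?_)
    by_contra h2
    exact hd ⟨fun h => absurd h h1, fun h => absurd h h2⟩

/-- everything outside `O` is joined to `o` off the boundary of any `G ⊆ O` -/
theorem pvgn_far_join (hF : PvgnFr T I O o) {G : Set D} (hG : G ⊆ O) {b : D} (hb : b ∉ O) : T.DJoin {d | T.Bd G d} o b := by
  have h1 : T.DJoin {d | T.Bd Oᶜ d} o b := by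
    have : {d | T.Bd Oᶜ d} = {d | T.Bd O d} := by ext d; exact T.bd_compl
    rw [this]
    exact hF.connO b hb
  have h2 := (pvgn_djoin_sub hF.faceO.compl (Set.compl_subset_compl.2 hG) hF.far h1).1
  have : {d | T.Bd Gᶜ d} = {d | T.Bd G d} := by ext d; exact T.bd_compl
  rwa [this] at h2

/-- the filled minimal gate is the inside of a simple circuit, and a face-set gate -/
theorem pvgn_hull_cyc (hT : T.IsSph) (hS : T.Simple) (hF : PvgnFr T I O o) (hmin : PvgnG T s I O (pvgnMin T s I O)) :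
    ∃ c : T.Cyc, c.Left = pvgnHull T s I O o ∧ PvgnG T s I O c.Left ∧ ∀ i, c.e i ∈ pvgnMin T s I O ∧ T.opp (c.e i) ∉ pvgnMin T s I O := by
  obtain ⟨a0, ha0⟩ := hF.ne
  obtain ⟨c, h1, h2, h3⟩ := pl_hull_at hT hS hmin.face (pvgn_bd_finite hF.fin hmin.outer) ⟨a0, hmin.inner ha0⟩
    (pvgn_min_conn hmin hF.faceI ha0 (hF.connI a0 ha0)) (o := o) (fun h => hF.far (hmin.outer h))
  have hJ := pl_jordan hT c
  have hL : c.Left = pvgnHull T s I O o := by
    have : c.Left = c.Rightᶜ := by rw [hJ.1, compl_compl]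
    rw [this, h2]
    rfl
  refine ⟨c, hL, hmin.of_bd (pl_left_face c) (hmin.inner.trans h1) ?_ ?_, h3⟩
  · intro d hd
    by_contra hdO
    have : d ∈ c.Right := by rw [h2]; exact pvgn_far_join hF hmin.outer hdO
    rw [hJ.1] at this
    exact this hd
  · intro d hd
    rcases (hJ.2.2.2 d).1 hd with ⟨i, rfl⟩ | ⟨i, hi⟩
    · exact fun h => (h3 i).2 (h.1 (h3 i).1)
    · have := h3 i
      rw [hi, T.opp_opp] at this
      exact fun h => this.2 (h.2 this.1)

/-- a simple circuit with exactly two black vertices `x`, `y`, not joined by an edge of the circuit, is a gate with entry `x` and exit `y` -/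
theorem pvgn_gate_of_cyc (hT : T.IsSph) (c : T.Cyc) {x y : V} (hxy : x ≠ y) (hX : pvgnX T s c.Left = {x, y})
    (hnobb : ∀ d, T.Bd c.Left d → ¬ (s (T.src d) = true ∧ s (T.tgt d) = true)) :
    ∃ g : T.Gate s, g.c.Left = c.Left ∧ g.c.Right = c.Right ∧ g.c.darts = c.darts ∧ g.vm = x ∧ g.vp = y := by
  have hx : x ∈ pvgnX T s c.Left := by rw [hX]; exact Or.inl rfl
  have hy : y ∈ pvgnX T s c.Left := by rw [hX]; exact Or.inr rfl
  obtain ⟨i0, hi0⟩ : x ∈ c.verts := by rw [← pvgn_bdV_left hT c]; exact hx.1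
  set c' : T.Cyc := c.shift i0 with hc'
  have hn : 0 < c'.n := pl_cyc_pos c'
  have hsh := pl_shift_left hT c i0
  have hdar : c'.darts = c.darts := pl_cyc_shift_darts c i0
  have h0 : T.src (c'.e 0) = x := by
    show T.src (c.e (0 + i0)) = x
    rwa [Nat.zero_add]
  obtain ⟨j, hj⟩ : y ∈ c.verts := by rw [← pvgn_bdV_left hT c]; exact hy.1
  obtain ⟨j', hj'⟩ : c.e j ∈ c'.darts := by rw [hdar]; exact ⟨j, rfl⟩
  set m := j' % c'.n with hm
  have hmn : m < c'.n := Nat.mod_lt _ hn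
  have hmy : T.src (c'.e m) = y := by rw [hm, pl_cyc_mod, hj', hj]
  have hbd : ∀ i, T.Bd c.Left (c'.e i) := fun i => ((pl_jordan hT c).2.2.2 _).2 (Or.inl (hdar ▸ ⟨i, rfl⟩))
  have hm0 : m ≠ 0 := by
    intro h
    rw [h, h0] at hmy
    exact hxy hmy
  have hm1 : m ≠ 1 := by
    intro h
    refine hnobb _ (hbd 0) ⟨by rw [h0]; exact hx.2, ?_⟩
    rw [c'.chain 0, Nat.zero_add, ← h, hmy]
    exact hy.2
  have hm2 : m + 1 ≠ c'.n := by
    intro h
    refine hnobb _ (hbd m) ⟨by rw [hmy]; exact hy.2, ?_⟩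
    have h1 := c'.per 0
    rw [Nat.zero_add] at h1
    rw [c'.chain m, h, h1, h0]
    exact hx.2
  refine ⟨⟨c', m, by omega, by omega, fun i hi => ⟨fun hb => ?_, ?_⟩⟩, hsh.1, hsh.2, hdar, h0, hmy⟩
  · have h1 : T.src (c'.e i) ∈ pvgnX T s c.Left := ⟨⟨_, rfl, hbd i⟩, hb⟩
    rw [hX] at h1
    rcases h1 with h1 | h1
    · exact Or.inl (c'.inj i 0 hi hn (h1.trans h0.symm))
    · exact Or.inr (c'.inj i m hi hmn (h1.trans hmy.symm))
  · rintro (rfl | rfl)
    · rw [h0]; exact hx.2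
    · rw [hmy]; exact hy.2

/-- the inside of a gate between `I` and `O` is a face-set gate -/
theorem pvgn_of_gate (hT : T.IsSph) (g : T.Gate s) (h1 : I ⊆ g.c.Left) (h2 : g.c.Left ⊆ O) : PvgnG T s I O g.c.Left := by
  refine ⟨pl_left_face _, h1, h2, ?_, ?_⟩
  · refine (Set.encard_le_encard (t := {g.vm, g.vp}) fun v hv => ?_).trans (Set.encard_pair (pvtg_ne g)).le
    have : v ∈ g.c.verts := by rw [← pvgn_bdV_left hT g.c]; exact hv.1
    exact pvtg_black g this hv.2
  · have key : ∀ i, ¬ (s (T.src (g.c.e i)) = true ∧ s (T.src (g.c.e (i + 1))) = true) := by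
      rintro i ⟨e1, e2⟩
      rw [pvtg_col] at e1 e2
      have := g.hm
      have := g.hmn
      rcases pl_succ_mod i (pl_cyc_pos g.c) with ⟨e3, e4⟩ | ⟨e3, e4⟩ <;> omega
    intro d hd
    rcases ((pl_jordan hT g.c).2.2.2 d).1 hd with ⟨i, rfl⟩ | ⟨i, hi⟩
    · rw [g.c.chain i]
      exact key i
    · have e1 : T.src d = T.src (g.c.e (i + 1)) := by rw [← g.c.chain i, hi, T.tgt_opp]
      have e2 : T.tgt d = T.src (g.c.e i) := by rw [hi, T.src_opp']
      rw [e1, e2]
      exact fun h => key i h.symm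

/-- **INNERMOST GATE, existence**: if a black simple cycle passes through and there is a gate, the filled minimal gate is the inside of a gate -/
theorem pvgn_gate (hT : T.IsSph) (hS : T.Simple) (hF : PvgnFr T I O o) (hne : ∃ G, PvgnG T s I O G) {γ : T.Cyc} (h : PvgnThru T s I O γ) :
    ∃ g : T.Gate s, g.c.Left = pvgnHull T s I O o ∧ I ⊆ g.c.Left ∧ g.c.Left ⊆ O ∧ ∀ i, g.c.e i ∈ pvgnMin T s I O ∧ T.opp (g.c.e i) ∉ pvgnMin T s I O := by
  obtain ⟨f₁, N₁, f₂, N₂, a1, a2, a3⟩ := pvgn_thru_arcs hF.sub h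
  have hmin := pvgn_min_arc hT hne a1 a2 a3
  obtain ⟨c, hL, hG, hc⟩ := pvgn_hull_cyc hT hS hF hmin
  obtain ⟨k, l, k0, k1, l0, l1, hX⟩ := pvgn_X_eq hT hG a1 a2 a3
  obtain ⟨g, g1, -, g3, -, -⟩ := pvgn_gate_of_cyc hT c (a3 k l k0 k1 l0 l1) hX hG.nobb
  refine ⟨g, g1.trans hL, g1 ▸ hG.inner, g1 ▸ hG.outer, fun i => ?_⟩
  obtain ⟨j, hj⟩ : g.c.e i ∈ c.darts := g3 ▸ ⟨i, rfl⟩
  rw [← hj]
  exact hc j

/-- exchange of entry and exit -/
theorem pvgn_gate_swap (hT : T.IsSph) (g : T.Gate s) :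
    ∃ g' : T.Gate s, g'.c.Left = g.c.Left ∧ g'.c.Right = g.c.Right ∧ g'.c.darts = g.c.darts ∧ g'.vm = g.vp ∧ g'.vp = g.vm := by
  have hG := pvgn_of_gate (I := g.c.Left) (O := g.c.Left) hT g le_rfl le_rfl
  refine pvgn_gate_of_cyc hT g.c (pvtg_ne g).symm ?_ hG.nobb
  ext v
  constructor
  · intro hv
    have : v ∈ g.c.verts := by rw [← pvgn_bdV_left hT g.c]; exact hv.1
    exact (pvtg_black g this hv.2).symm
  · rintro (rfl | rfl)
    · exact ⟨by rw [pvgn_bdV_left hT g.c]; exact ⟨g.m, rfl⟩, pvtg_vp g⟩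
    · exact ⟨by rw [pvgn_bdV_left hT g.c]; exact ⟨0, rfl⟩, pvtg_vm g⟩

/-- **INNERMOST**: the filled minimal gate lies inside every gate between `I` and `O` -/
theorem pvgn_innermost (hT : T.IsSph) (hF : PvgnFr T I O o) (g' : T.Gate s) (h1 : I ⊆ g'.c.Left) (h2 : g'.c.Left ⊆ O) :
    pvgnHull T s I O o ⊆ g'.c.Left := by
  intro d hd
  by_contra hdL
  have hJ := (pl_jordan hT g'.c).1
  have ho : o ∈ g'.c.Right := by rw [hJ]; exact fun h => hF.far (h2 h)
  have hd' : d ∈ g'.c.Right := by rw [hJ]; exact hdL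
  exact hd (pvtl_right_join hT g'.c (pvgn_min_sub (pvgn_of_gate hT g' h1 h2)) ho hd')

end hull

/-! ## 5. locality -/

section loc

variable {s s' : V → Bool} {I O : Set D} {o : D}

theorem pvgn_VOf_mono {A B : Set D} (h : A ⊆ B) : T.VOf A ⊆ T.VOf B := fun _ ⟨d, hd, e⟩ => ⟨d, h hd, e⟩

/-- "`G` is a gate" reads the colours of the vertices of `G` only -/
theorem PvgnG.congr {G : Set D} (hG : PvgnG T s I O G) (h : ∀ v ∈ T.VOf G, s' v = s v) : PvgnG T s' I O G := by
  refine ⟨hG.face, hG.inner, hG.outer, (Set.encard_le_encard fun v hv => ?_).trans hG.two, fun d hd => ?_⟩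
  · exact ⟨hv.1, (h v (pvgn_bdV_VOf hG.face hv.1)).symm.trans hv.2⟩
  · rw [h _ (pvgn_bdV_VOf hG.face (pvg_bdV_src hd)), h _ (pvgn_bdV_VOf hG.face (pvg_bdV_tgt hd))]
    exact hG.nobb d hd

/-- **FIXED RULE**: the minimal gate is a function of the colours of the outer disc -/
theorem pvgn_min_congr (h : ∀ v ∈ T.VOf O, s' v = s v) : pvgnMin T s' I O = pvgnMin T s I O := by
  ext d
  exact ⟨fun hd G hG => hd G (hG.congr fun v hv => h v (pvgn_VOf_mono hG.outer hv)),
    fun hd G hG => hd G (hG.congr fun v hv => (h v (pvgn_VOf_mono hG.outer hv)).symm)⟩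

theorem pvgn_hull_congr (h : ∀ v ∈ T.VOf O, s' v = s v) : pvgnHull T s' I O o = pvgnHull T s I O o := by
  unfold pvgnHull
  rw [pvgn_min_congr h]

/-- the outer disc may be replaced by any gate -/
theorem pvgn_min_eq (hmin : PvgnG T s I O (pvgnMin T s I O)) {G₀ : Set D} (hG₀ : PvgnG T s I O G₀) : pvgnMin T s I G₀ = pvgnMin T s I O := by
  refine Set.Subset.antisymm (fun d hd => hd _ ⟨hmin.face, hmin.inner, pvgn_min_sub hG₀, hmin.two, hmin.nobb⟩) fun d hd G hG => ?_
  exact hd G ⟨hG.face, hG.inner, hG.outer.trans hG₀.outer, hG.two, hG.nobb⟩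

/-- **LOCALITY**: the minimal gate is a function of the colours of its own vertices (among the colourings for which the gates form a lattice) -/
theorem pvgn_local (hmin : PvgnG T s I O (pvgnMin T s I O)) (hmin' : PvgnG T s' I O (pvgnMin T s' I O))
    (h : ∀ v ∈ T.VOf (pvgnMin T s I O), s' v = s v) : pvgnMin T s' I O = pvgnMin T s I O := by
  have h1 : pvgnMin T s' I O ⊆ pvgnMin T s I O := pvgn_min_sub (hmin.congr h)
  exact Set.Subset.antisymm h1 (pvgn_min_sub (hmin'.congr fun v hv => (h v (pvgn_VOf_mono h1 hv)).symm))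

/-- **LOCALITY**, cycle form: `s'` agrees with `s` on the vertices of the minimal gate of `s`, a black cycle passes through for both -/
theorem pvgn_local_thru (hT : T.IsSph) (hIO : I ⊆ O) (hne : ∃ G, PvgnG T s I O G) {γ γ' : T.Cyc} (hγ : PvgnThru T s I O γ) (hγ' : PvgnThru T s' I O γ')
    (h : ∀ v ∈ T.VOf (pvgnMin T s I O), s' v = s v) : pvgnMin T s' I O = pvgnMin T s I O ∧ pvgnHull T s' I O o = pvgnHull T s I O o := by
  have hmin := pvgn_min hT hIO hne hγ
  have h1 := pvgn_local hmin (pvgn_min hT hIO ⟨_, hmin.congr h⟩ hγ') h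
  refine ⟨h1, ?_⟩
  unfold pvgnHull
  rw [h1]

/-- the innermost gate of `s`, transported to a colouring which agrees with `s` on its closed inside, is the innermost gate of that colouring -/
theorem pvgn_gate_local (hT : T.IsSph) (hIO : I ⊆ O) {γ γ' : T.Cyc} (hγ : PvgnThru T s I O γ) (hγ' : PvgnThru T s' I O γ') (g : T.Gate s)
    (hg : g.c.Left = pvgnHull T s I O o) (h1 : I ⊆ g.c.Left) (h2 : g.c.Left ⊆ O) (h : ∀ v ∈ T.VOf g.c.Left, s' v = s v) (h' : ∀ v ∈ g.c.verts, s' v = s v) :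
    (g.tr s' h').c.Left = pvgnHull T s' I O o := by
  have hG := pvgn_of_gate hT g h1 h2
  have := (pvgn_local_thru (o := o) hT hIO ⟨_, hG⟩ hγ hγ' fun v hv => h v (pvgn_VOf_mono (pvgn_min_sub hG) hv)).2
  rw [this]
  exact hg

end loc

/-! ## 6. THE RULE WITHOUT A FAR FACE      (ruling 15 (1) of helper234, T5 (i) of helper24: `PvwSt.Inmost` of `Tr/Defs` v3 is `S.Left = pvgnRule ..`: the gate of a state is a FUNCTION of the colouring) -/

/-- **THE RULE**: the faces which are joined to NO face outside `O` off the boundary of the minimal gate.      No choice, no far face in the data. -/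
def pvgnRule (T : PvMap V D) (s : V → Bool) (I O : Set D) : Set D := {d | ∀ o, o ∉ O → d ∈ pvgnHull T s I O o}

theorem pvgn_rule_eqns_cite : True := by
  have := @pvgnRule.eq_1
  trivial

section rule

variable {s s' : V → Bool} {I O : Set D} {o : D}

/-- all the faces outside `O` are joined off the boundary of the minimal gate (also when there is no gate at all) -/
theorem pvgn_far_min (hF : PvgnFr T I O o) {b : D} (hb : b ∉ O) : T.DJoin {d | T.Bd (pvgnMin T s I O) d} o b := by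
  by_cases hne : ∃ G, PvgnG T s I O G
  · obtain ⟨G, hG⟩ := hne
    exact pvgn_far_join hF ((pvgn_min_sub hG).trans hG.outer) hb
  · refine T.djoin_mono (fun d (hd : T.Bd (pvgnMin T s I O) d) => ?_) (hF.connO b hb)
    exact absurd ⟨fun _ G hG => absurd ⟨G, hG⟩ hne, fun _ G hG => absurd ⟨G, hG⟩ hne⟩ hd

/-- in a frame the rule is the hull seen from any far face -/
theorem pvgn_rule_eq (hF : PvgnFr T I O o) : pvgnRule T s I O = pvgnHull T s I O o := by
  ext d
  refine ⟨fun h => h o hF.far, fun h o' ho' h' => h ?_⟩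
  exact ReflTransGen.trans (pvgn_far_min hF ho') h'

/-- **FIXED RULE**: function of the colours of the outer disc -/
theorem pvgn_rule_congr (h : ∀ v ∈ T.VOf O, s' v = s v) : pvgnRule T s' I O = pvgnRule T s I O := by
  unfold pvgnRule
  simp only [pvgn_hull_congr h]

/-- the rule is a face set -/
theorem pvgn_rule_face : T.FaceSet (pvgnRule T s I O) := by
  intro d
  have key : ∀ o, (T.nxt d ∈ pvgnHull T s I O o ↔ d ∈ pvgnHull T s I O o) := fun o => (PvMap.FaceSet.compl T (pl_djoin_face _ o)) d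
  exact ⟨fun h o ho => (key o).1 (h o ho), fun h o ho => (key o).2 (h o ho)⟩

/-- the rule stays inside `O` -/
theorem pvgn_rule_sub : pvgnRule T s I O ⊆ O := by
  intro d hd
  by_contra h
  exact hd d h ReflTransGen.refl

/-- the vertices of the rule are vertices of `O` -/
theorem pvgn_rule_VOf : T.VOf (pvgnRule T s I O) ⊆ T.VOf O := pvgn_VOf_mono pvgn_rule_sub

/-- the rule contains the minimal gate as soon as there is a gate -/
theorem pvgn_min_sub_rule (hne : ∃ G, PvgnG T s I O G) : pvgnMin T s I O ⊆ pvgnRule T s I O := by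
  obtain ⟨G, hG⟩ := hne
  intro d hd o ho hj
  have hM : pvgnMin T s I O ⊆ O := (pvgn_min_sub hG).trans hG.outer
  have h1 := (pvgn_djoin_sub (pvgn_min_face (s := s) (I := I) (O := O)) (le_refl _) hd (T.djoin_symm hj)).2
  exact ho (hM h1)

/-- the rule contains `I` as soon as there is a gate -/
theorem pvgn_inner_sub_rule (hne : ∃ G, PvgnG T s I O G) : I ⊆ pvgnRule T s I O := fun _ h => pvgn_min_sub_rule hne (pvgn_min_inner h)

/-- **INNERMOST**: the rule is inside every gate between `I` and `O` -/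
theorem pvgn_rule_innermost (hT : T.IsSph) (hF : PvgnFr T I O o) (g' : T.Gate s) (h1 : I ⊆ g'.c.Left) (h2 : g'.c.Left ⊆ O) : pvgnRule T s I O ⊆ g'.c.Left := by
  rw [pvgn_rule_eq hF]
  exact pvgn_innermost hT hF g' h1 h2

/-- **EXISTENCE** along a black cycle: the rule is the inside of a gate -/
theorem pvgn_rule_gate (hT : T.IsSph) (hS : T.Simple) (hF : PvgnFr T I O o) (hne : ∃ G, PvgnG T s I O G) {γ : T.Cyc} (h : PvgnThru T s I O γ) :
    ∃ g : T.Gate s, g.c.Left = pvgnRule T s I O := by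
  obtain ⟨g, hg, -⟩ := pvgn_gate hT hS hF hne h
  exact ⟨g, by rw [hg, pvgn_rule_eq hF]⟩

end rule

end Claimed.Agent.R289
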