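import Claimed.Agent.R289.Pl.Path
import Claimed.Agent.R289.Pl.Rim
import Claimed.Agent.R289.Arm.Strand
import Claimed.Agent.R289.S1.Defs
import Claimed.Agent.R289.Tr.Arc
import Claimed.Agent.R289.Tr.GateMin

/-!
# Row 289 (S0537), THE WALL, file Tr/Defs : THE DEFINITIONS OF RECORD = sec. 1-2 of `origin/helper208:notes/R289/W1_208.md` v2      (holder helper216; sec. 1a helper150, sec. 1b helper25; rulings 6, 8 of helper234; prefix `pvw`, `Pvw`)

**v3 (helper25, pen; RULING T5 of 24, 10:16Z) = v2 + FOUR ITEMS, THEN FROZEN.**  (i) ruling 15 (1) of 234, text of 150: `ins := VOf S.Left` (closed inside of the gate), `core := dsc` = ALL the sites of the open disc `B(z, b h)` (data field, `Gate.dsc_eq`), `Inmost := (S.Left = pvgnRule ..)`: the gate is a FUNCTION of the colours of the core;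
(ii) V1 of 145 (+ 160: `NU` through `Yr0`, `YC0`, blind to the lanes by construction): `PvwPat.Ycol`, `PvwDat.NU`, `Lam` and `NB` on `NU`, `Ok.off_y` in `NU`, `Wf.col` (v2 = the case `Ycol = ∅`; `NBsec` stays `Ycol`-free);   (iii) 83: `far_p far_m` and the mouths of `PinOut PinIn` with radius `2 ρ h`;
(iv) ruling 13 (2) of 234: every metric clause of `GoodOut GoodIn Good At PinOut PinIn` is centred at the GRID centres `τ.cp h z`, `τ.cm h z` of the tip cells, prescribed by the type (`PvwTy.yp ym`); new clauses `tip_p tip_m`; `PvwPat.ys yt` removed; `Ok.tip_s tip_t` test the black end of the tip dart.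
+ ruling 16 (1a) of 234 (63): the new positions of `SYn` lie over `Yin`, `Ok.core_off`.

v2 (helper25, 10:05Z; = sec. 8 of `W1_208_v3.md` + referees 145 122 37 78 + 227 (7)): `Inmost` = MINIMAL (3, 150, 25, 37 F1: read from the core `VOf S.Left`, which STAYS: item (4) of sec. 8 not taken);  `Stub` = first position whose FACE is not in the box (all frozen sites of a stub in the box, TIP APEX fresh by construction);  `Good` = radii of R-A, SITES, split `GoodOut` / `GoodIn`,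
stubs do not return into the gate;  `At` split `AtOut` / `AtIn` (R-B: a datum freezes `Σ_out(t)`, `Σ_in(s)` only);  G2 (end points of `g₀`);  D13 of v3.1 = G1(b) of 78: `Yraw`, `YCL` = the sites over `Yin` joined to a tip apex;  `NB` = faced form;  `SYn` = first hit;  outer actual gates in `Actual`;  no corner clause;  `pvwRad` from `b2`.

DETERMINISTIC: `T : PvMap V D` (`Pl/Defs`), positions `pos : V → ℂ`, colourings `s σ : V → Bool`, `true` = BLACK.      NO probability in this file.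
VOCABULARY USED: circuits `T.Cyc` ORIENTED SO THAT `c.Left` = THE INSIDE; simple vertex paths `T.Pth` (`Pl/Path`); rims `PvMap.Cyc.IsRim` (`Pl/Rim`); strands `pvasBW pvasStep pvasBack pvasIt` (`Arm/Strand`, 158); fields `bary side qpart` (`S1/Defs`).
ORIENTATION.  A strand position is a dart `black → white`; the strand has just entered the face on the LEFT of the dart: black on its left hand, white on its right hand.  A black rim runs in the direction of the strand on its right.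
   The rim passes the gate `S` (counterclockwise) from `g⁻` to `g⁺`;   counterclockwise order on `S`:  `g⁺`, left white arc, `g⁻`, `w'`, … RIGHT white arc `ρ` …, `w`, `g⁺`.
   ENTRY gate edge `dm = (g⁻ → w')` is a dart OF `S` (face inside);      EXIT gate edge `dp = (g⁺ → w)` is the OPPOSITE of a dart of `S` (face outside).

* sec. 0  numbers `PvwNum`, types `PvwTy`, boxes, loop erasure `PvwLE`, masses `pvwMass`
* sec. 1  `PvwSt T` = the DATA of a state (gate, gate edges, inner arc, marked vertex, the two stubs as lists of positions: NO colours);  frozen sets `core bkP whP bkM whM fzOut fzIn fz`;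
          `PvwSt.Gate` (GATE + inner strand + inner arc), `PvwSt.Inmost` (INNERMOST = minimal), `PvwSt.StubP / StubM / Stub` (EXIT / ENTRANCE STUBS = explorations to the first exit of the box), tip apexes `ap am`, `PvwSt.GoodOut / GoodIn / Good` (GOOD LEVEL),
          `PvwSt.AtOut / AtIn / At` (= the half states / the state of the colouring), `PvwSt.PinOut / PinIn / PinOf` (PIN of a rim).      KIT (congruences, uniqueness, existence): `Tr/StKit` (25)
* sec. 2  `PvwPat` (PATTERN: regions),  `pvwComp`,  `PvwDat T` (DATUM `(Σ_in(s), Σ_out(t), g₀)` + prescribed colours),  `fzY`, `fz`, `Cyl`, `X`, `Yraw`, `YCL`, `XCL`, `Lam`, `anc`, `NB` (faced form), `WO`, `SY`, `Y`, `Actual`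
EVERY "read from" IS A CONGRUENCE: `PvwAgree F σ σ'`.      The theorems (C1) (C2) (C3), N1' live in `Tr/Close`, `Tr/Force`, `Tr/N1p` (194, 202, 193, 159): NOT here.
-/

set_option autoImplicit false

namespace Claimed.Agent.R289

open Set

variable {V D : Type}

/-! ## 0. numbers, boxes, loop erasure, masses -/

/-- the fixed numbers of the wall, in units of `h`: cut-off radius `m = 101`, mouth radius `ρ`, spacing of the levels = calm radius `ρ₁` (`ρ'` of R-A), protection radius `ρ₂` (`ϱ` of R-A) (`ρ ≪ ρ₁ ≪ ρ₂ ≪ 1`), number of levels `K` -/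
structure PvwNum where
  m : ℝ
  rho : ℝ
  rho1 : ℝ
  rho2 : ℝ
  /-- mesh `ρ''` of the masks (D10 of v3) -/
  rho3 : ℝ
  K : ℕ

/-- type of a pin: gate annulus `[a h, b h]` (`a₁, b₁` of v3), annulus `[a2 h, b2 h]` of the OUTER ACTUAL gate (D3 of v3, ruling 9bis: not frozen, not in the state), level `k ≤ K`,
ORIENTATION bit `o` (122 (D1): a circuit with two black sites has TWO inner strands, in opposite directions: `o` says which of the two black sites is `g⁻`),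
centres `yp`, `ym` of the TIP CELLS, in units of `h`, relative to the centre of the pin (ruling 13 (2) of 234: every clause of a state tests ONE vertex against a fixed set: the centres of all balls are prescribed by the type) -/
structure PvwTy where
  a : ℝ
  b : ℝ
  a2 : ℝ
  b2 : ℝ
  k : ℕ
  o : Bool
  yp : ℂ
  ym : ℂ

/-- the type of the outer gate -/
def PvwTy.outer (τ : PvwTy) (o : Bool) : PvwTy := { τ with a := τ.a2, b := τ.b2, o := o }
/-- the centre `y⁺` of the tip cell of `x⁺` -/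
def PvwTy.cp (τ : PvwTy) (h : ℝ) (z : ℂ) : ℂ := z + (h : ℂ) * τ.yp
/-- the centre `y⁻` of the tip cell of `x⁻` -/
def PvwTy.cm (τ : PvwTy) (h : ℝ) (z : ℂ) : ℂ := z + (h : ℂ) * τ.ym

/-- half side of the box `B_k`, `r_k = (2 b₂ + k ρ₁) h` -/
def pvwRad (N : PvwNum) (h : ℝ) (τ : PvwTy) (k : ℕ) : ℝ := (2 * τ.b2 + k * N.rho1) * h

/-- the INNER face set of the frame of the gate annulus (150, `Tr/GateFr`): the faces with a vertex in the open ball `B(z, r)` -/
def pvwI (T : PvMap V D) (pos : V → ℂ) (z : ℂ) (r : ℝ) : Set D := T.Star {v | ‖pos v - z‖ < r}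
/-- the OUTER DISC of the frame: the faces with their three vertices in the open ball `B(z, r)` -/
def pvwO (T : PvMap V D) (pos : V → ℂ) (z : ℂ) (r : ℝ) : Set D := (T.Star {v | r ≤ ‖pos v - z‖})ᶜ

/-- the closed square of centre `z`, half side `r` -/
def pvwSq (z : ℂ) (r : ℝ) : Set ℂ := {w | |(w - z).re| ≤ r ∧ |(w - z).im| ≤ r}

/-- the two colourings agree on `F` -/
def PvwAgree (F : Set V) (σ σ' : V → Bool) : Prop := ∀ v ∈ F, σ v = σ' v

/-- `y` is the LOOP ERASURE (last-exit decomposition) of the walk `b 0, …, b n` -/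
def PvwLE (T : PvMap V D) (b : ℕ → V) (n : ℕ) (y : T.Pth) : Prop :=
  ∃ j : ℕ → ℕ, y.v 0 = b 0 ∧ j y.n = n ∧ (∀ k, k ≤ y.n → j k ≤ n ∧ y.v k = b (j k) ∧ ∀ i, j k < i → i ≤ n → b i ≠ b (j k)) ∧ ∀ k, k < y.n → y.v (k + 1) = b (j k + 1)

open Classical in
/-- mass of the edges number `i ≤ k < j` of the path `p` whose RIGHT triangle (the tag `opp (p.e k)`) has its barycentre in `K`;      `w = T.qpart pos` for `Q`, `w = T.side pos` for `V` -/
noncomputable def pvwMass (T : PvMap V D) (pos : V → ℂ) (w : D → ℂ) (K : Set ℂ) (p : T.Pth) (i j : ℕ) : ℂ :=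
  ∑ k ∈ Finset.Ico i j, if T.bary pos (T.opp (p.e k)) ∈ K then w (T.opp (p.e k)) else 0

/-! ## 1. the state of a pin -/

/-- **the DATA of a state** (no colours): the gate, the two gate edges, the inner rim arc with its marked vertex, the positions of the two stubs -/
structure PvwSt (T : PvMap V D) where
  /-- the sites of the CORE = the sites of the DETERMINISTIC disc `B(z, b h)` (D2 of v3, ruling 15 (1)) -/
  dsc : Set V
  /-- the gate, `S.Left` = its inside -/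
  S : T.Cyc
  /-- exit gate edge, the position `g⁺ → w` -/
  dp : D
  /-- entry gate edge, the position `g⁻ → w'` -/
  dm : D
  /-- the inner rim arc `g⁻ → g⁺` -/
  inn : T.Pth
  /-- index on `inn` of the marked vertex `p` -/
  ip : ℕ
  /-- number of steps of the exit stub `Σ⁺` -/
  np : ℕ
  /-- positions `0..np` of the exit stub -/
  ep : ℕ → D
  /-- number of steps of the entrance stub `Σ⁻` -/
  nm : ℕ
  /-- positions `0..nm` of the entrance stub, BACKWARDS from `dm` -/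
  em : ℕ → D

namespace PvwSt

variable {T : PvMap V D} (𝔖 : PvwSt T)

/-- `g⁺` -/
def gp : V := T.src 𝔖.dp
/-- `g⁻` -/
def gm : V := T.src 𝔖.dm
/-- the sites of the closed inside of the gate -/
def ins : Set V := T.VOf 𝔖.S.Left
/-- the sites of the CORE: ALL the sites of the disc `B(z, b h)` (`Gate.dsc_eq`), not only the closed inside of the gate (ruling 15 (1) of 234: the gate is a FIXED RULE of the colours of the disc) -/
def core : Set V := 𝔖.dsc
/-- black bank of the exit stub -/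
def bkP : Set V := {v | ∃ i, i ≤ 𝔖.np ∧ T.src (𝔖.ep i) = v}
/-- white bank of the exit stub -/
def whP : Set V := {v | ∃ i, i ≤ 𝔖.np ∧ T.tgt (𝔖.ep i) = v}
/-- black bank of the entrance stub -/
def bkM : Set V := {v | ∃ i, i ≤ 𝔖.nm ∧ T.src (𝔖.em i) = v}
/-- white bank of the entrance stub -/
def whM : Set V := {v | ∃ i, i ≤ 𝔖.nm ∧ T.tgt (𝔖.em i) = v}
/-- the sites frozen by `Σ_out = (core, Σ⁺)` -/
def fzOut : Set V := 𝔖.core ∪ 𝔖.bkP ∪ 𝔖.whP
/-- the sites frozen by `Σ_in = (core, Σ⁻)` -/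
def fzIn : Set V := 𝔖.core ∪ 𝔖.bkM ∪ 𝔖.whM
/-- the sites frozen by the state -/
def fz : Set V := 𝔖.fzOut ∪ 𝔖.fzIn
/-- midpoint of the edge of a position -/
noncomputable def mid (_𝔖 : PvwSt T) (pos : V → ℂ) (d : D) : ℂ := (pos (T.src d) + pos (T.tgt d)) / 2
/-- the TIP `x⁺` -/
noncomputable def xp (pos : V → ℂ) : ℂ := 𝔖.mid pos (𝔖.ep 𝔖.np)
/-- the TIP `x⁻` -/
noncomputable def xm (pos : V → ℂ) : ℂ := 𝔖.mid pos (𝔖.em 𝔖.nm)
/-- the TIP APEX of `Σ⁺`: the third vertex of the face in front of the last position = the first site outside the box; NOT frozen -/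
def ap : V := T.apex (𝔖.ep 𝔖.np)
/-- the TIP APEX of `Σ⁻`: the third vertex of the face behind the last position -/
def am : V := T.apex (T.opp (𝔖.em 𝔖.nm))

/-- **GATE** of centre `z`, type `τ`, for the colouring `s` (with its gate edges, inner strand, inner rim arc, marked vertex) -/
structure Gate (pos : V → ℂ) (h : ℝ) (z : ℂ) (τ : PvwTy) (s : V → Bool) : Prop where
  fin : 𝔖.S.Left.Finite
  /-- the core = the sites of the open disc `B(z, b h)` -/
  dsc_eq : 𝔖.dsc = {v | ‖pos v - z‖ < τ.b * h}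
  core_fin : 𝔖.core.Finite
  /-- in the annulus -/
  ann : ∀ v ∈ 𝔖.S.verts, τ.a * h ≤ ‖pos v - z‖ ∧ ‖pos v - z‖ < τ.b * h
  /-- round `B(z, a h)` -/
  round : ∀ v, ‖pos v - z‖ < τ.a * h → v ∈ 𝔖.ins
  /-- nothing beyond `B(z, b h)` is inside -/
  inside : ∀ v ∈ 𝔖.ins, ‖pos v - z‖ < τ.b * h
  dp_on : T.opp 𝔖.dp ∈ 𝔖.S.darts
  dm_on : 𝔖.dm ∈ 𝔖.S.darts
  bw_p : pvasBW T s 𝔖.dp
  bw_m : pvasBW T s 𝔖.dm
  ne : 𝔖.gp ≠ 𝔖.gm
  /-- the ORIENTATION bit: `o = true` iff `g⁻` comes before `g⁺` in the lexicographic order of the plane -/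
  ori : τ.o = true ↔ ((pos 𝔖.gm).re < (pos 𝔖.gp).re ∨ ((pos 𝔖.gm).re = (pos 𝔖.gp).re ∧ (pos 𝔖.gm).im < (pos 𝔖.gp).im))
  /-- exactly two black sites -/
  two : ∀ v ∈ 𝔖.S.verts, s v = true → v = 𝔖.gp ∨ v = 𝔖.gm
  /-- the left arc has a white site -/
  left : ∀ d ∈ 𝔖.S.darts, T.src d = 𝔖.gp → s (T.tgt d) = false
  /-- the inner strand runs from the entry gate edge to the exit gate edge; the inner rim arc is the loop erasure of its black bank -/
  strand : ∃ n, pvasIt T s 𝔖.dm n = 𝔖.dp ∧ (∀ i, i < n → pvasIt T s 𝔖.dm i ∈ 𝔖.S.Left) ∧ PvwLE T (fun i => T.src (pvasIt T s 𝔖.dm i)) n 𝔖.inn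
  /-- the marked vertex = the FIRST vertex of the inner arc within `h` of the centre -/
  ip_le : 𝔖.ip ≤ 𝔖.inn.n
  ip_near : ‖pos (𝔖.inn.v 𝔖.ip) - z‖ ≤ h
  ip_first : ∀ i, i < 𝔖.ip → h < ‖pos (𝔖.inn.v i) - z‖

/-- **INNERMOST** gate = THE FIXED RULE of 150 (`Tr/GateMin`; ruling 15 (1) of 234): the inside of the gate is `pvgnRule` = the filled minimal face-set gate `pvgnHull` of the frame `(pvwI, pvwO)` (intersection over all far faces `o`: no far face in the data).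
A FUNCTION of the colours of the core (`pvgn_rule_congr`, `pvwk_inmost_congr`): UNIQUE by `rfl` (`pvwk_inmost_unique`);  existence: `pvgn_gate`, `pvgy_m_gate` (a black circuit through the annulus + one gate);  at actual pins it is the minimal gate (`pvgn_innermost`). -/
def Inmost (pos : V → ℂ) (h : ℝ) (z : ℂ) (τ : PvwTy) (s : V → Bool) : Prop :=
  𝔖.S.Left = pvgnRule T s (pvwI T pos z (τ.a * h)) (pvwO T pos z (τ.b * h))

/-- **EXIT STUB**: the strand explored forwards from `dp` until its first exit from `B` = the first position whose FACE (in front of it) is not in `B`.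
All the frozen sites (the two ends of the positions `0..np`) lie in `B`; the tip apex `ap` is the first site outside. -/
structure StubP (pos : V → ℂ) (B : Set ℂ) (s : V → Bool) : Prop where
  ep_it : ∀ i, i ≤ 𝔖.np → 𝔖.ep i = pvasIt T s 𝔖.dp i
  ep_in : ∀ i, i ≤ 𝔖.np → pos (T.src (𝔖.ep i)) ∈ B ∧ pos (T.tgt (𝔖.ep i)) ∈ B
  ep_ax : ∀ i, i < 𝔖.np → pos (T.apex (𝔖.ep i)) ∈ B
  ep_out : pos 𝔖.ap ∉ B

/-- **ENTRANCE STUB**: the same backwards from `dm` (the face BEHIND the position `d` is the face of `opp d`) -/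
structure StubM (pos : V → ℂ) (B : Set ℂ) (s : V → Bool) : Prop where
  em_it : ∀ i, i ≤ 𝔖.nm → 𝔖.em i = (pvasBack T s)^[i] 𝔖.dm
  em_in : ∀ i, i ≤ 𝔖.nm → pos (T.src (𝔖.em i)) ∈ B ∧ pos (T.tgt (𝔖.em i)) ∈ B
  em_ax : ∀ i, i < 𝔖.nm → pos (T.apex (T.opp (𝔖.em i))) ∈ B
  em_out : pos 𝔖.am ∉ B

/-- **STUBS** -/
def Stub (pos : V → ℂ) (B : Set ℂ) (s : V → Bool) : Prop := 𝔖.StubP pos B s ∧ 𝔖.StubM pos B s

/-- **GOOD LEVEL, exit half** (D9 of v3, HALF state; no colour: read from the data of `Σ_out`).      `y` = the centre `y⁺` of the tip cell, PRESCRIBED BY THE TYPE (ruling 13 (2)): every clause tests one vertex against a fixed ball. -/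
structure GoodOut (pos : V → ℂ) (N : PvwNum) (h : ℝ) (y : ℂ) : Prop where
  /-- the two ends of the tip dart lie within `ρ h / 4` of `y⁺` -/
  tip_p : ‖pos (T.src (𝔖.ep 𝔖.np)) - y‖ ≤ N.rho * h / 4 ∧ ‖pos (T.tgt (𝔖.ep 𝔖.np)) - y‖ ≤ N.rho * h / 4
  /-- (g1) CALM (E11): every visit of a SITE of `Σ⁺` to `B(y⁺, ρ₁ h / 2)` happens after the last entrance into `B(y⁺, ρ₂ h)`;   `F` := the positions `i₀..np`.      (Radii of v2, centre `y⁺`.) -/
  late_p : ∃ i₀, i₀ ≤ 𝔖.np ∧ (∀ i, i₀ ≤ i → i ≤ 𝔖.np → ‖pos (T.src (𝔖.ep i)) - y‖ < N.rho2 * h ∧ ‖pos (T.tgt (𝔖.ep i)) - y‖ < N.rho2 * h) ∧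
    ∀ i, i < i₀ → N.rho1 * h / 2 < ‖pos (T.src (𝔖.ep i)) - y‖ ∧ N.rho1 * h / 2 < ‖pos (T.tgt (𝔖.ep i)) - y‖
  /-- the stub does not return into the gate (78 T8 (5), 145 M4) -/
  off_p : ∀ i, i ≤ 𝔖.np → 𝔖.ep i ∉ 𝔖.S.Left

/-- **GOOD LEVEL, entrance half**;  `y` = the centre `y⁻` -/
structure GoodIn (pos : V → ℂ) (N : PvwNum) (h : ℝ) (y : ℂ) : Prop where
  tip_m : ‖pos (T.src (𝔖.em 𝔖.nm)) - y‖ ≤ N.rho * h / 4 ∧ ‖pos (T.tgt (𝔖.em 𝔖.nm)) - y‖ ≤ N.rho * h / 4
  late_m : ∃ i₀, i₀ ≤ 𝔖.nm ∧ (∀ i, i₀ ≤ i → i ≤ 𝔖.nm → ‖pos (T.src (𝔖.em i)) - y‖ < N.rho2 * h ∧ ‖pos (T.tgt (𝔖.em i)) - y‖ < N.rho2 * h) ∧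
    ∀ i, i < i₀ → N.rho1 * h / 2 < ‖pos (T.src (𝔖.em i)) - y‖ ∧ N.rho1 * h / 2 < ‖pos (T.tgt (𝔖.em i)) - y‖
  off_m : ∀ i, i ≤ 𝔖.nm → T.opp (𝔖.em i) ∉ 𝔖.S.Left

/-- **GOOD LEVEL, FULL state** (D9 of v3): (g1) for both stubs + (g3) `Σ_in` (core and banks of `Σ⁻`) misses `closedBall y⁺ (2 ρ h)`, `Σ_out` misses `closedBall y⁻ (2 ρ h)` (radius `2 ρ h`: 83, T5 (iii): the two mouths of ONE state are separated).
((g2) SEP of the masks, (g4) of 37: `Defs/TrModel`.)      NO corner clause (v3 D5). -/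
structure Good (pos : V → ℂ) (N : PvwNum) (h : ℝ) (yp ym : ℂ) : Prop where
  out : 𝔖.GoodOut pos N h yp
  inn : 𝔖.GoodIn pos N h ym
  far_p : ∀ v ∈ 𝔖.fzIn, 2 * N.rho * h < ‖pos v - yp‖
  far_m : ∀ v ∈ 𝔖.fzOut, 2 * N.rho * h < ‖pos v - ym‖

/-- **`Σ_out = (core, Σ⁺)` IS THE EXIT HALF STATE OF THE COLOURING `s`**, at a good level.      Read from `fzOut` (`pvwk_atOut_congr`). -/
structure AtOut (pos : V → ℂ) (N : PvwNum) (h : ℝ) (z : ℂ) (τ : PvwTy) (s : V → Bool) : Prop where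
  gate : 𝔖.Gate pos h z τ s
  inmost : 𝔖.Inmost pos h z τ s
  stub : 𝔖.StubP pos (pvwSq z (pvwRad N h τ τ.k)) s
  good : 𝔖.GoodOut pos N h (τ.cp h z)
  lev : τ.k ≤ N.K

/-- **`Σ_in = (core, Σ⁻)` IS THE ENTRANCE HALF STATE OF THE COLOURING `s`**.      Read from `fzIn`. -/
structure AtIn (pos : V → ℂ) (N : PvwNum) (h : ℝ) (z : ℂ) (τ : PvwTy) (s : V → Bool) : Prop where
  gate : 𝔖.Gate pos h z τ s
  inmost : 𝔖.Inmost pos h z τ s
  stub : 𝔖.StubM pos (pvwSq z (pvwRad N h τ τ.k)) s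
  good : 𝔖.GoodIn pos N h (τ.cm h z)
  lev : τ.k ≤ N.K

/-- **`Σ` IS THE (FULL) STATE `Σ(z, τ)` OF THE COLOURING `s`**, at a good level -/
structure At (pos : V → ℂ) (N : PvwNum) (h : ℝ) (z : ℂ) (τ : PvwTy) (s : V → Bool) : Prop where
  out : 𝔖.AtOut pos N h z τ s
  inn : 𝔖.AtIn pos N h z τ s
  far_p : ∀ v ∈ 𝔖.fzIn, 2 * N.rho * h < ‖pos v - τ.cp h z‖
  far_m : ∀ v ∈ 𝔖.fzOut, 2 * N.rho * h < ‖pos v - τ.cm h z‖

/-- **PIN of the rim `c`, exit half** (`j` = the place of `g⁻` on `c`, `BK` = the largest box `B_K`): `c` runs through the gate along the inner arc;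
`c` minus its arc inside `B_K` AFTER the gate does not meet the mouth `closedBall y⁺ (2 ρ h)`, `y` = the centre `y⁺` of the tip cell.      (So an arc `g₀` of `c` which ENDS at `g⁻` avoids the mouth of `x⁺`.) -/
structure PinOut (pos : V → ℂ) (N : PvwNum) (h : ℝ) (y : ℂ) (BK : Set ℂ) (c : T.Cyc) (j : ℕ) : Prop where
  run : ∀ i, i < 𝔖.inn.n → c.e (j + i) = 𝔖.inn.e i
  mouth_p : ∃ B, 𝔖.inn.n + B < c.n ∧ (∀ i, i ≤ B → pos (T.src (c.e (j + 𝔖.inn.n + i))) ∈ BK) ∧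
    ∀ i, 𝔖.inn.n + B < i → i ≤ c.n → 2 * N.rho * h < ‖pos (T.src (c.e (j + i))) - y‖

/-- **PIN of the rim `c`, entrance half**: `c` minus its arc inside `B_K` BEFORE the gate does not meet the mouth `closedBall y⁻ (2 ρ h)`.      (So an arc which STARTS at `g⁺` avoids the mouth of `x⁻`.) -/
structure PinIn (pos : V → ℂ) (N : PvwNum) (h : ℝ) (y : ℂ) (BK : Set ℂ) (c : T.Cyc) (j : ℕ) : Prop where
  run : ∀ i, i < 𝔖.inn.n → c.e (j + i) = 𝔖.inn.e i
  mouth_m : ∃ A, 𝔖.inn.n + A < c.n ∧ (∀ i, i ≤ A → pos (T.src (c.e (j + c.n - i))) ∈ BK) ∧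
    ∀ i, 𝔖.inn.n ≤ i → i + A < c.n → 2 * N.rho * h < ‖pos (T.src (c.e (j + i))) - y‖

/-- **PIN of the rim `c`** -/
def PinOf (pos : V → ℂ) (N : PvwNum) (h : ℝ) (yp ym : ℂ) (BK : Set ℂ) (c : T.Cyc) (j : ℕ) : Prop := 𝔖.PinOut pos N h yp BK c j ∧ 𝔖.PinIn pos N h ym BK c j

end PvwSt

/-! ## 2. patterns, data, cylinders, the events of N1' -/

/-- **PATTERN** `π = (z_s, τ_s, z_t, τ_t, tip cells, c)`, as REGIONS of the plane (the polyomino structure of the corridor `c` = `Tr/Poly`, `Tr/Band`: predicate of the RING block) -/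
structure PvwPat where
  zs : ℂ
  ts : PvwTy
  zt : ℂ
  tt : PvwTy
  /-- cell of the tip `x⁻(s)` -/
  cs : Set ℂ
  /-- cell of the tip `x⁺(t)` -/
  ct : Set ℂ
  /-- inner lanes of `c` + the two inner mouths `closedBall (tt.cp h zt) (ρ h / 2)`, `closedBall (ts.cm h zs) (ρ h / 2)` (DETERMINISTIC: D13 of v3.1) -/
  Yin : Set ℂ
  /-- the inner LANES of `c` with their COLLAR, up to the near half of the outer lane; NOT the two balls (V1 of 145 = D17 of v3.1: `NB` does not read the sites over `Ycol`) -/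
  Ycol : Set ℂ
  /-- the FAR half of the outer white lane of `c` with its two landing zones in `A(y; ρ h / 2, ρ h)` -/
  Yout : Set ℂ
  /-- `YREG⁺` = the cells of `c` + the two mouths, with their collar -/
  Yreg : Set ℂ

/-- the regions of a pattern fit together -/
structure PvwPat.Wf (π : PvwPat) : Prop where
  disj : Disjoint π.Yin π.Yout
  col : Disjoint π.Ycol π.Yout
  in_sub : π.Yin ⊆ π.Yreg
  out_sub : π.Yout ⊆ π.Yreg

/-- the sites joined to `a` by a path inside `X` -/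
def pvwComp (T : PvMap V D) (X : Set V) (a : V) : Set V := {v | ∃ q : T.Pth, q.v 0 = a ∧ q.v q.n = v ∧ ∀ x ∈ q.verts, x ∈ X}

/-- **DATUM** `D = (Σ_out(t), Σ_in(s), g₀)` (R-B) with the prescribed colours `col` (only the values on `t.fzOut ∪ s.fzIn` matter).      The arc runs from the pin `s` to the pin `t`.
Of the record `s` only the gate data and the ENTRANCE stub are used, of the record `t` only the gate data and the EXIT stub. -/
structure PvwDat (T : PvMap V D) where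
  s : PvwSt T
  t : PvwSt T
  g : T.Pth
  col : V → Bool

namespace PvwDat

variable {T : PvMap V D} (𝔇 : PvwDat T)

/-- the third vertices of the right triangles of the edges of `g₀` -/
def apx : Set V := {v | ∃ i, i < 𝔇.g.n ∧ T.apex (T.opp (𝔇.g.e i)) = v}
/-- the sites frozen by `D_Y = (Σ_out(t), Σ_in(s))` -/
def fzY : Set V := 𝔇.t.fzOut ∪ 𝔇.s.fzIn
/-- the frozen sites of the datum (R-B: `Σ⁻(t)`, `Σ⁺(s)` are NOT frozen, they overlap `g₀`) -/
def fz : Set V := 𝔇.fzY ∪ 𝔇.g.verts ∪ 𝔇.apx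

/-- the sites over `Yin`, fresh for `D_Y`.      A function of `(D_Y, π)` (M2 of 145). -/
def Yraw (pos : V → ℂ) (π : PvwPat) : Set V := {v | v ∉ 𝔇.fzY ∧ pos v ∈ π.Yin}
/-- **`YCL`** (D13 of v3.1 = G1(b) of 78): the sites of `Yraw` joined to a TIP APEX (of `Σ⁺(t)` or of `Σ⁻(s)`) inside `Yraw`.      No colour; a function of `(D_Y, π)`.
The other fresh sites over `Yin` (pockets behind the stubs) go to `XCL`: `NB` reads them. -/
def YCL (pos : V → ℂ) (π : PvwPat) : Set V := pvwComp T (𝔇.Yraw pos π) 𝔇.t.ap ∪ pvwComp T (𝔇.Yraw pos π) 𝔇.s.am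
/-- `Yraw` off the collared lanes -/
def Yr0 (pos : V → ℂ) (π : PvwPat) : Set V := {v | v ∈ 𝔇.Yraw pos π ∧ pos v ∉ π.Ycol}
/-- the class `YCL` off the collared lanes, READ OFF THE LANES (160): joined inside `Yr0` to a tip apex or to a site which touches a site over `Ycol`.      `YCL \ Ycol ⊆ YC0` (`pvwk_comp_yc0`);  `= YCL` if `Ycol = ∅` -/
def YC0 (pos : V → ℂ) (π : PvwPat) : Set V := {v | ∃ a, (a = 𝔇.t.ap ∨ a = 𝔇.s.am ∨ ∃ w, pos w ∈ π.Ycol ∧ T.Adj a w) ∧ v ∈ pvwComp T (𝔇.Yr0 pos π) a}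
/-- **`NU`** (V1 of 145, in the form of 160: blind to the configuration over the lanes BY CONSTRUCTION): the sites which `NB` may read: off `YC0`, not over the collared lanes `Ycol`.      API: `pvwk_nu_ycl` (`NU ⊆ YCLᶜ`), `pvwk_nu_col` -/
def NU (pos : V → ℂ) (π : PvwPat) : Set V := {v | v ∉ 𝔇.YC0 pos π ∧ pos v ∉ π.Ycol}
/-- **`XCL`**: ALL the other fresh sites -/
def XCL (pos : V → ℂ) (π : PvwPat) : Set V := {v | v ∉ 𝔇.fz ∧ v ∉ 𝔇.YCL pos π}

/-- the datum is well formed for the pattern `π` -/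
structure Ok (pos : V → ℂ) (N : PvwNum) (h : ℝ) (π : PvwPat) : Prop where
  st_s : 𝔇.s.AtIn pos N h π.zs π.ts 𝔇.col
  st_t : 𝔇.t.AtOut pos N h π.zt π.tt 𝔇.col
  /-- the BLACK end of the tip dart lies in the tip cell (one-vertex test: ruling 13 (2)) -/
  tip_s : pos (T.src (𝔇.s.em 𝔇.s.nm)) ∈ π.cs
  tip_t : pos (T.src (𝔇.t.ep 𝔇.t.np)) ∈ π.ct
  g0 : 𝔇.g.v 0 = 𝔇.s.gp
  g1 : 𝔇.g.v 𝔇.g.n = 𝔇.t.gm
  pos_n : 0 < 𝔇.g.n
  /-- outside the two gates -/
  out : ∀ v ∈ 𝔇.g.inner, v ∉ 𝔇.s.ins ∧ v ∉ 𝔇.t.ins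
  /-- avoiding `YREG⁺` -/
  off : ∀ v ∈ 𝔇.g.verts, pos v ∉ π.Yreg
  /-- vertex-disjoint from the banks of `Σ⁺(t)`, `Σ⁻(s)`, END POINTS INCLUDED (G2 of 78) -/
  disj : ∀ v ∈ 𝔇.g.verts, v ∉ 𝔇.t.bkP ∧ v ∉ 𝔇.t.whP ∧ v ∉ 𝔇.s.bkM ∧ v ∉ 𝔇.s.whM
  /-- `g₀` and its right apexes are off `YCL` and off the collared lanes (M2, V1 of 145) -/
  off_y : ∀ v ∈ 𝔇.g.verts ∪ 𝔇.apx, v ∈ 𝔇.NU pos π
  /-- the two tip apexes are fresh for `D_Y` (for the own half state: `pvwk_atOut_ap`, `pvwk_atIn_am`) -/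
  tip_f : 𝔇.t.ap ∉ 𝔇.fzY ∧ 𝔇.s.am ∉ 𝔇.fzY
  /-- the prescriptions do not contradict each other -/
  cons_b : ∀ v ∈ 𝔇.g.verts, v ∈ 𝔇.fzY → 𝔇.col v = true
  cons_w : ∀ v ∈ 𝔇.apx, v ∈ 𝔇.fzY → 𝔇.col v = false
  cons_a : ∀ v ∈ 𝔇.apx, v ∉ 𝔇.g.verts
  /-- the two cores are not over `Yin` (63; ruling 16 (1a) of 234) -/
  core_off : ∀ v ∈ 𝔇.s.core ∪ 𝔇.t.core, pos v ∉ π.Yin

/-- **`Cyl(D)`**: the states as prescribed, `g₀` black, the third vertices of its right triangles white -/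
def Cyl : Set (V → Bool) := {σ | PvwAgree 𝔇.fzY σ 𝔇.col ∧ (∀ v ∈ 𝔇.g.verts, σ v = true) ∧ ∀ v ∈ 𝔇.apx, σ v = false}

/-- the complement of the two cut-off balls -/
def offCut (N : PvwNum) (h : ℝ) (π : PvwPat) : Set ℂ := (Metric.closedBall π.zs (N.m * h) ∪ Metric.closedBall π.zt (N.m * h))ᶜ

/-- **`X(D) = I_X(s → t)`** read on (core `s`, `g₀`, core `t`): the whole mass of the inner arc of `s` in its cut-off ball + the mass outside the two cut-off balls of the arc `p_s → g⁺(s) → g⁻(t) → p_t` -/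
noncomputable def X (pos : V → ℂ) (w : D → ℂ) (N : PvwNum) (h : ℝ) (π : PvwPat) : ℂ :=
  pvwMass T pos w (Metric.closedBall π.zs (N.m * h)) 𝔇.s.inn 0 𝔇.s.inn.n + pvwMass T pos w (offCut N h π) 𝔇.s.inn 𝔇.s.ip 𝔇.s.inn.n +
    pvwMass T pos w (offCut N h π) 𝔇.g 0 𝔇.g.n + pvwMass T pos w (offCut N h π) 𝔇.t.inn 0 𝔇.t.ip

/-- the dart of `inner(s) . g₀ . inner(t)` which arrives at the vertex number `i` of `g₀` -/
def prv (i : ℕ) : D := if i = 0 then 𝔇.s.inn.e (𝔇.s.inn.n - 1) else 𝔇.g.e (i - 1)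
/-- the dart of `inner(s) . g₀ . inner(t)` which leaves the vertex number `i` of `g₀` -/
def nx (i : ℕ) : D := if i = 𝔇.g.n then 𝔇.t.inn.e 0 else 𝔇.g.e i

/-- the dart `d` leaves the vertex number `i` of `g₀` into the RIGHT side: it is met strictly before `nx i` when one turns counterclockwise from `opp (prv i)` -/
def RSec (i : ℕ) (d : D) : Prop := ∃ k, 0 < k ∧ d = T.rot^[k] (T.opp (𝔇.prv i)) ∧ ∀ j, 0 < j → j ≤ k → T.rot^[j] (T.opp (𝔇.prv i)) ≠ 𝔇.nx i

/-- the SECTOR form of `NB(D)` (v0; NOT of record): no black path through sites off `YCL` which leaves `g₀` into its right side and comes back to `g₀` at another vertex -/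
def NBsec (pos : V → ℂ) (π : PvwPat) (σ : V → Bool) : Prop :=
  ¬ ∃ (i j : ℕ) (q : T.Pth), i ≤ 𝔇.g.n ∧ j ≤ 𝔇.g.n ∧ i ≠ j ∧ 0 < q.n ∧ q.v 0 = 𝔇.g.v i ∧ q.v q.n = 𝔇.g.v j ∧ 𝔇.RSec i (q.e 0) ∧
    ∀ x ∈ q.inner, σ x = true ∧ x ∉ 𝔇.g.verts ∧ x ∉ 𝔇.YCL pos π

/-- the boundary layer of `NU`: the sites of `NU` with a neighbour off `NU` -/
def Lam (pos : V → ℂ) (π : PvwPat) : Set V := {u | u ∈ 𝔇.NU pos π ∧ ∃ w, w ∉ 𝔇.NU pos π ∧ T.Adj u w}
/-- the ANCHOR: the right apex of the last dart of `inner(s)` (frozen, white) -/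
def anc : V := T.apex (T.opp (𝔇.s.inn.e (𝔇.s.inn.n - 1)))

/-- **`NB(D)`**, THE FACED FORM OF 6 (form of record: ruling 2 of 194; 227 item (7)): every right apex of `g₀` is joined by a white path in `NU`, off `g₀`, to the anchor or to a site of the boundary layer of `NU`.
GLOBAL, DECREASING in black (`pvta_N_mono`), reads `NU \ g₀` only (`pvta_N_congr`).      (C1) = `pvta_act`.      (v2 = the case `Ycol = ∅`.) -/
def NB (pos : V → ℂ) (π : PvwPat) (σ : V → Bool) : Prop := pvtaN 𝔇.g σ (𝔇.NU pos π) ({𝔇.anc} ∪ 𝔇.Lam pos π)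

/-- **`WO(D)`**: a white path in the outer lane of `c` from the white bank of `Σ⁺(t)` to the white bank of `Σ⁻(s)`.      DECREASING in black, read on `XCL`. -/
def WO (pos : V → ℂ) (π : PvwPat) (σ : V → Bool) : Prop :=
  ∃ q : T.Pth, q.v 0 ∈ 𝔇.t.whP ∧ q.v q.n ∈ 𝔇.s.whM ∧ ∀ x ∈ q.inner, σ x = false ∧ pos x ∈ π.Yout ∧ x ∈ 𝔇.XCL pos π

/-- the strand continued from the tip `x⁺(t)` reaches the tip `x⁻(s)`: it arrives at the entry gate edge of `s` for the FIRST time after `n` steps (counted from the exit gate edge of `t`; so `n` is unique: M1 of 145);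
the sites of the new positions are `YCL` sites or frozen sites of `D_Y`, and they lie over `Yin` (D18 of v3.1; 63, ruling 16 (1a) of 234) -/
def SYn (pos : V → ℂ) (π : PvwPat) (σ : V → Bool) (n : ℕ) : Prop :=
  𝔇.t.np + 𝔇.s.nm ≤ n ∧ pvasIt T σ 𝔇.t.dp n = 𝔇.s.dm ∧ (∀ i, i < n → pvasIt T σ 𝔇.t.dp i ≠ 𝔇.s.dm) ∧
    ∀ i, 𝔇.t.np < i → i + 𝔇.s.nm < n → T.src (pvasIt T σ 𝔇.t.dp i) ∈ 𝔇.YCL pos π ∪ 𝔇.fzY ∧ T.tgt (pvasIt T σ 𝔇.t.dp i) ∈ 𝔇.YCL pos π ∪ 𝔇.fzY ∧
      pos (T.src (pvasIt T σ 𝔇.t.dp i)) ∈ π.Yin ∧ pos (T.tgt (pvasIt T σ 𝔇.t.dp i)) ∈ π.Yin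

/-- **`SY(D_Y)`**.      Read on `YCL` and `D_Y`. -/
def SY (pos : V → ℂ) (π : PvwPat) (σ : V → Bool) : Prop := ∃ n, 𝔇.SYn pos π σ n

/-- `y` is the rim arc `g⁺(t) → g⁻(s)` = LE(black bank walk of `Σ⁺(t)` . new strand . `Σ⁻(s)`) -/
def YArc (pos : V → ℂ) (π : PvwPat) (σ : V → Bool) (y : T.Pth) : Prop :=
  ∃ n, 𝔇.SYn pos π σ n ∧ PvwLE T (fun i => T.src (pvasIt T σ 𝔇.t.dp i)) n y

/-- `I_X(t → s)` read on the two cores and the arc `y` -/
noncomputable def Yof (pos : V → ℂ) (w : D → ℂ) (N : PvwNum) (h : ℝ) (π : PvwPat) (y : T.Pth) : ℂ :=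
  pvwMass T pos w (Metric.closedBall π.zt (N.m * h)) 𝔇.t.inn 0 𝔇.t.inn.n + pvwMass T pos w (offCut N h π) 𝔇.t.inn 𝔇.t.ip 𝔇.t.inn.n +
    pvwMass T pos w (offCut N h π) y 0 y.n + pvwMass T pos w (offCut N h π) 𝔇.s.inn 0 𝔇.s.ip

open Classical in
/-- **`Y(D_Y, YCL)`** (`0` off `SY`) -/
noncomputable def Y (pos : V → ℂ) (w : D → ℂ) (N : PvwNum) (h : ℝ) (π : PvwPat) (σ : V → Bool) : ℂ :=
  if hy : ∃ y, 𝔇.YArc pos π σ y then 𝔇.Yof pos w N h π hy.choose else 0

/-- **`D` IS ACTUAL** for the colouring `σ` and the rim `c`: `σ ∈ Cyl(D)`, both states are pins of `c`, and `g₀` is the arc `g⁺(s) → g⁻(t)` of `c` (`j` = the place of `g⁻(s)` on `c`) -/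
structure Actual (pos : V → ℂ) (N : PvwNum) (h : ℝ) (π : PvwPat) (σ : V → Bool) (c : T.Cyc) (j : ℕ) : Prop where
  cyl : σ ∈ 𝔇.Cyl
  rim : c.IsRim σ
  black : σ (T.src (c.e 0)) = true
  pin_s : 𝔇.s.PinIn pos N h (π.ts.cm h π.zs) (pvwSq π.zs (pvwRad N h π.ts N.K)) c j
  arc : ∀ i, i < 𝔇.g.n → c.e (j + 𝔇.s.inn.n + i) = 𝔇.g.e i
  pin_t : 𝔇.t.PinOut pos N h (π.tt.cp h π.zt) (pvwSq π.zt (pvwRad N h π.tt N.K)) c (j + 𝔇.s.inn.n + 𝔇.g.n)
  /-- the OUTER ACTUAL GATES `S₂` (D3 of v3, ruling 9bis): properties of the actual colouring, used in COVER and TRAP only -/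
  out_s : ∃ (𝔖₂ : PvwSt T) (o : Bool), 𝔖₂.Gate pos h π.zs (π.ts.outer o) σ
  out_t : ∃ (𝔖₂ : PvwSt T) (o : Bool), 𝔖₂.Gate pos h π.zt (π.tt.outer o) σ

end PvwDat

theorem pvw_defs_eqns_cite : True := by
  have := @pvwRad.eq_1; have := @pvwSq.eq_1; have := @PvwAgree.eq_1; have := @PvwLE.eq_1; have := @pvwMass.eq_1
  have := @PvwSt.gp.eq_1; have := @PvwSt.gm.eq_1; have := @PvwSt.core.eq_1; have := @PvwSt.bkP.eq_1; have := @PvwSt.whP.eq_1; have := @PvwSt.bkM.eq_1; have := @PvwSt.whM.eq_1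
  have := @PvwSt.fzOut.eq_1; have := @PvwSt.fzIn.eq_1; have := @PvwSt.fz.eq_1; have := @PvwSt.mid.eq_1; have := @PvwSt.xp.eq_1; have := @PvwSt.xm.eq_1; have := @PvwSt.Inmost.eq_1
  have := @PvwSt.ap.eq_1; have := @PvwSt.am.eq_1; have := @PvwSt.Stub.eq_1; have := @PvwSt.PinOf.eq_1; have := @PvwTy.outer.eq_1; have := @PvwTy.cp.eq_1; have := @PvwTy.cm.eq_1; have := @pvwI.eq_1; have := @pvwO.eq_1; have := @PvwSt.ins.eq_1; have := @PvwDat.NU.eq_1; have := @PvwDat.Yr0.eq_1; have := @PvwDat.YC0.eq_1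
  have := @pvwComp.eq_1; have := @PvwDat.Yraw.eq_1
  have := @PvwDat.apx.eq_1; have := @PvwDat.fz.eq_1; have := @PvwDat.fzY.eq_1; have := @PvwDat.Cyl.eq_1; have := @PvwDat.offCut.eq_1; have := @PvwDat.X.eq_1
  have := @PvwDat.YCL.eq_1; have := @PvwDat.XCL.eq_1; have := @PvwDat.prv.eq_1; have := @PvwDat.nx.eq_1; have := @PvwDat.RSec.eq_1; have := @PvwDat.NB.eq_1; have := @PvwDat.NBsec.eq_1; have := @PvwDat.Lam.eq_1; have := @PvwDat.anc.eq_1; have := @PvwDat.WO.eq_1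
  have := @PvwDat.SYn.eq_1; have := @PvwDat.SY.eq_1; have := @PvwDat.YArc.eq_1; have := @PvwDat.Yof.eq_1; have := @PvwDat.Y.eq_1
  trivial

end Claimed.Agent.R289
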