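-- KEEP
import Claimed.Agent.R289.Pl.Bond
import Claimed.Agent.R289.Pl.Rim
import Claimed.Agent.R289.Tr.GateB

/-!
# Row 289 (S0537, Cardy for Poisson-Voronoi), unit TR, chapter B, file Tr/GateLat : THE LATTICE OF GATES, INNERMOST GATE      (owner helper3; prefix `pvlt_`, records `PvltG`, `PvltMin`)

Blueprint: `origin/helper208:notes/R289/W1_208.md` sec.1 (GATE, "innermost"), sec.2 (C2) (injectivity of `D ↦ P'`), sec.8 O2.

MATHEMATICS.  "Gates with a through path form a lattice" is FALSE (four dead-end black arms N, S, E, W issued from the core; `S₁` through the tips of N, S and round the tips of E, W; `S₂` with the roles exchanged: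
the inner envelope carries 4 black sites, the outer one 0).  What is true:
* two circuits `c₁ c₂` round a common face `d₀`, with a common outer face `d₁`, have an INNER ENVELOPE `E` (`E.Left` = the dual component of `d₀` off the edges of `c₁ ∪ c₂`) and an OUTER ENVELOPE `E'`
  (`E'.Right` = the dual component of `d₁`); both are simple circuits (`pl_bond'`), their darts are darts of `c₁` or `c₂`      (`pvlt_env_in`, `pvlt_env_out`);
* a vertex on both envelopes is on both circuits (`pvlt_env_verts`), hence SUBMODULARITY `#(E ∩ B) + #(E' ∩ B) ≤ #(c₁ ∩ B) + #(c₂ ∩ B)` for every vertex set `B`      (`pvlt_submod`);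
* a circuit which separates two vertices of a simple circuit `P` meets `P` in at least two vertices      (`pvlt_two`);
* so the gates PASSED BY ONE BLACK CIRCUIT are closed under inner envelopes      (`pvlt_meet`).

`PvltG T s K N O c`   : `c` is a circuit round the core `K`, with `O` outside, vertices in `N` (the annulus), at most two black vertices, no black-black edge.
`PvltMin T s K N O c` : `c` is such a circuit and no other one has its inside strictly inside `c.Left`.      LOCAL: `pvlt_min_congr` (a function of the colours of the closed inside `T.VOf c.Left`).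
`pvlt_min_exists`, `pvlt_min_le` (a minimal gate is THE innermost one as soon as a black circuit runs from `K` to `O`), `pvlt_min_unique`, `pvlt_min_darts`.
`pvlt_gate`, `pvlt_G_gate` : conversion to the record `PvMap.Gate` of `Tr/GateB` (260), with either order of the two black vertices.

`K` is only asked to be connected off `N` (`PvltOff`); positions never enter.
-/

set_option autoImplicit false

namespace Claimed.Agent.R289

open Relation

variable {V D : Type} {T : PvMap V D}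

/-! ## 1. Dual components -/

/-- monotonicity of `DJoin`, in edge form -/
theorem pvlt_djoin_mono {Z Z' : Set D} (h : ∀ d, T.Edg Z' d → T.Edg Z d) {a b : D} (hab : T.DJoin Z a b) : T.DJoin Z' a b := by
  refine ReflTransGen.mono (fun x y hxy => ?_) a b hab
  rcases hxy with h1 | ⟨h1, h2⟩
  · exact Or.inl h1
  · exact Or.inr ⟨h1, fun h3 => h2 (h _ h3)⟩

/-- the boundary edges of a dual component are edges of `Z` -/
theorem pvlt_comp_bd (Z : Set D) (a : D) {d : D} (h : T.Bd {x | T.DJoin Z a x} d) : T.Edg Z d := by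
  by_contra hn
  apply h
  constructor
  · intro h1
    exact ReflTransGen.tail h1 (Or.inr ⟨rfl, hn⟩)
  · intro h1
    have h2 : T.DJoin Z a (T.opp (T.opp d)) := ReflTransGen.tail h1 (Or.inr ⟨rfl, fun h3 => hn (T.edg_opp.1 h3)⟩)
    rwa [T.opp_opp] at h2

/-- the set of darts of the edges of a finite set is finite -/
theorem pvlt_edg_finite {Z : Set D} (hZ : Z.Finite) : {d | T.Edg Z d}.Finite := by
  have h : {d | T.Edg Z d} ⊆ Z ∪ T.opp '' Z := by
    intro d hd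
    rcases hd with h1 | h1
    · exact Or.inl h1
    · exact Or.inr ⟨T.opp d, h1, T.opp_opp d⟩
  exact (hZ.union (hZ.image _)).subset h

/-- **the component of `d₀` off the boundaries of two face sets with connected complements**: it lies in both, it is connected, its complement is connected -/
theorem pvlt_comp_conn (hT : T.IsSph) {X₁ X₂ Z : Set D} (h1 : T.FaceSet X₁) (h2 : T.FaceSet X₂)
    (hZ : ∀ d, T.Edg Z d → T.Bd X₁ d ∨ T.Bd X₂ d) (hZ1 : ∀ d, T.Bd X₁ d → T.Edg Z d) (hZ2 : ∀ d, T.Bd X₂ d → T.Edg Z d)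
    (hc1 : T.DConn X₁ᶜ) (hc2 : T.DConn X₂ᶜ) {d₀ d₁ : D} (h01 : d₀ ∈ X₁) (h02 : d₀ ∈ X₂) (h11 : d₁ ∉ X₁) (h12 : d₁ ∉ X₂) :
    {d | T.DJoin Z d₀ d} ⊆ X₁ ∩ X₂ ∧
      (∀ a ∈ {d | T.DJoin Z d₀ d}, ∀ b ∈ {d | T.DJoin Z d₀ d}, T.DJoin {d | T.Bd {d | T.DJoin Z d₀ d} d} a b) ∧
      ∀ a ∉ {d | T.DJoin Z d₀ d}, ∀ b ∉ {d | T.DJoin Z d₀ d}, T.DJoin {d | T.Bd {d | T.DJoin Z d₀ d} d} a b := by
  set A : Set D := {d | T.DJoin Z d₀ d} with hA
  have hsub : A ⊆ X₁ ∩ X₂ := fun d hd => ⟨(pl_side_dual h1 hZ1 hd).1 h01, (pl_side_dual h2 hZ2 hd).1 h02⟩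
  have hmono : ∀ d, T.Edg {x | T.Bd A x} d → T.Edg Z d := fun d hd => pvlt_comp_bd Z d₀ (pl_edg_bd.1 hd)
  have hbdA : ∀ d, T.Bd A d → d ∈ A ∨ T.opp d ∈ A := by
    intro d hd
    by_contra hn
    rw [not_or] at hn
    exact hd ⟨fun h => absurd h hn.1, fun h => absurd h hn.2⟩
  -- outside `X₁` or outside `X₂`
  have out1 : ∀ a, a ∉ X₁ → T.DJoin {x | T.Bd A x} a d₁ := by
    intro a ha
    have h3 := (pl_djoin_in h1.compl (hc1 a ha d₁ h11) ha).2
    refine pvlt_djoin_mono (fun d hd => ?_) h3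
    rw [compl_compl]
    rcases hbdA d (pl_edg_bd.1 hd) with h4 | h4
    · exact Or.inl (hsub h4).1
    · exact Or.inr (hsub h4).1
  have out2 : ∀ a, a ∉ X₂ → T.DJoin {x | T.Bd A x} a d₁ := by
    intro a ha
    have h3 := (pl_djoin_in h2.compl (hc2 a ha d₁ h12) ha).2
    refine pvlt_djoin_mono (fun d hd => ?_) h3
    rw [compl_compl]
    rcases hbdA d (pl_edg_bd.1 hd) with h4 | h4
    · exact Or.inl (hsub h4).2
    · exact Or.inr (hsub h4).2
  have key : ∀ a, a ∉ A → T.DJoin {x | T.Bd A x} a d₁ := by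
    intro a ha
    by_cases ha1 : a ∈ X₁
    swap
    · exact out1 a ha1
    by_cases ha2 : a ∈ X₂
    swap
    · exact out2 a ha2
    set C : Set D := {d | T.DJoin Z a d} with hC
    have hCf : T.FaceSet C := pl_djoin_face Z a
    have hCsub : C ⊆ X₁ ∩ X₂ := fun d hd => ⟨(pl_side_dual h1 hZ1 hd).1 ha1, (pl_side_dual h2 hZ2 hd).1 ha2⟩
    have hCA : ∀ d ∈ C, d ∉ A := fun d hd hdA => ha (ReflTransGen.trans hdA (T.djoin_symm hd))
    have hex : ∃ e, T.Bd C e := by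
      by_contra hno
      rcases pl_empty_bd hT hCf (fun d hd => hno ⟨d, hd⟩) with h | h
      · have : a ∈ C := ReflTransGen.refl
        rw [h] at this
        exact this
      · have : d₁ ∈ C := by rw [h]; exact Set.mem_univ _
        exact h11 (hCsub this).1
    obtain ⟨e, he1, he2, he3⟩ : ∃ e, e ∈ C ∧ T.opp e ∉ C ∧ T.Bd C e := by
      obtain ⟨e, he⟩ := hex
      by_cases h : e ∈ C
      · exact ⟨e, h, fun h' => he ⟨fun _ => h', fun _ => h⟩, he⟩
      · have h' : T.opp e ∈ C := by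
          by_contra h'
          exact he ⟨fun x => absurd x h, fun x => absurd x h'⟩
        exact ⟨T.opp e, h', by rw [T.opp_opp]; exact h, T.bd_opp.2 he⟩
    have hae : T.DJoin {x | T.Bd A x} a e := pvlt_djoin_mono hmono he1
    have hnb : ∀ (hx : T.opp e ∉ A), ¬ T.Edg {x | T.Bd A x} e := by
      intro hx hh
      rcases hbdA e (pl_edg_bd.1 hh) with h4 | h4
      · exact hCA e he1 h4
      · exact hx h4
    rcases hZ e (pvlt_comp_bd Z a he3) with hb | hb
    · have ho : T.opp e ∉ X₁ := fun h => hb ⟨fun _ => h, fun _ => (hCsub he1).1⟩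
      have hx : T.opp e ∉ A := fun h => ho (hsub h).1
      exact (ReflTransGen.tail hae (Or.inr ⟨rfl, hnb hx⟩)).trans (out1 _ ho)
    · have ho : T.opp e ∉ X₂ := fun h => hb ⟨fun _ => h, fun _ => (hCsub he1).2⟩
      have hx : T.opp e ∉ A := fun h => ho (hsub h).2
      exact (ReflTransGen.tail hae (Or.inr ⟨rfl, hnb hx⟩)).trans (out2 _ ho)
  refine ⟨hsub, fun a ha b hb => ?_, fun a ha b hb => (key a ha).trans (T.djoin_symm (key b hb))⟩
  exact pvlt_djoin_mono hmono (ReflTransGen.trans (T.djoin_symm ha) hb)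

/-- the right side of a circuit is dual connected -/
theorem pvlt_right_dconn (hT : T.IsSph) (c : T.Cyc) : T.DConn c.Right := by
  obtain ⟨c', -, -, -, h, -⟩ := pl_cyc_rev hT c
  rw [← h]
  exact pl_left_dconn hT c'

theorem pvlt_edg_union_iff (hT : T.IsSph) (c₁ c₂ : T.Cyc) (d : D) : T.Edg (c₁.darts ∪ c₂.darts) d ↔ T.Bd c₁.Left d ∨ T.Bd c₂.Left d := by
  rw [(pl_jordan hT c₁).2.2.2, (pl_jordan hT c₂).2.2.2]
  unfold PvMap.Edg
  simp only [Set.mem_union]
  tauto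

/-! ## 2. The two envelopes -/

/-- **INNER ENVELOPE** of two circuits round the face of `d₀`, with the face of `d₁` outside both -/
theorem pvlt_env_in (hT : T.IsSph) (hS : T.Simple) (c₁ c₂ : T.Cyc) {d₀ d₁ : D} (h01 : d₀ ∈ c₁.Left) (h02 : d₀ ∈ c₂.Left) (h11 : d₁ ∈ c₁.Right) (h12 : d₁ ∈ c₂.Right) :
    ∃ E : T.Cyc, E.Left = {d | T.DJoin (c₁.darts ∪ c₂.darts) d₀ d} ∧ E.Left ⊆ c₁.Left ∩ c₂.Left ∧ E.darts ⊆ c₁.darts ∪ c₂.darts := by
  obtain ⟨j1, -, -, -⟩ := pl_jordan hT c₁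
  obtain ⟨k1, -, -, -⟩ := pl_jordan hT c₂
  have hd1 : d₁ ∉ c₁.Left := by rw [j1] at h11; exact h11
  have hd2 : d₁ ∉ c₂.Left := by rw [k1] at h12; exact h12
  obtain ⟨hsub, hc, hc'⟩ := pvlt_comp_conn hT (Z := c₁.darts ∪ c₂.darts) (pl_left_face c₁) (pl_left_face c₂)
    (fun d hd => (pvlt_edg_union_iff hT c₁ c₂ d).1 hd) (fun d hd => (pvlt_edg_union_iff hT c₁ c₂ d).2 (Or.inl hd))
    (fun d hd => (pvlt_edg_union_iff hT c₁ c₂ d).2 (Or.inr hd)) (by rw [← j1]; exact pvlt_right_dconn hT c₁) (by rw [← k1]; exact pvlt_right_dconn hT c₂)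
    h01 h02 hd1 hd2
  have hfin : {d | T.Bd {d | T.DJoin (c₁.darts ∪ c₂.darts) d₀ d} d}.Finite :=
    (pvlt_edg_finite ((pl_cyc_darts_finite c₁).union (pl_cyc_darts_finite c₂))).subset fun d hd => pvlt_comp_bd _ d₀ hd
  obtain ⟨E, e1, e2, -⟩ := pl_bond' hT hS (pl_djoin_face (c₁.darts ∪ c₂.darts) d₀) hfin ⟨d₀, ReflTransGen.refl⟩ ⟨d₁, fun h => hd1 (hsub h).1⟩ hc hc'
  refine ⟨E, e2, by rw [e2]; exact hsub, ?_⟩
  intro e he
  rw [e1] at he
  have hb : T.Bd {d | T.DJoin (c₁.darts ∪ c₂.darts) d₀ d} e := fun h => he.2 (h.1 he.1)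
  rcases pvlt_comp_bd _ d₀ hb with h | h
  · exact h
  · exfalso
    rcases h with h | h
    · have h3 := ((pl_cyc_darts_iff hT c₁ _).1 h).2
      rw [T.opp_opp] at h3
      exact h3 (hsub he.1).1
    · have h3 := ((pl_cyc_darts_iff hT c₂ _).1 h).2
      rw [T.opp_opp] at h3
      exact h3 (hsub he.1).2

/-- **OUTER ENVELOPE** -/
theorem pvlt_env_out (hT : T.IsSph) (hS : T.Simple) (c₁ c₂ : T.Cyc) {d₀ d₁ : D} (h01 : d₀ ∈ c₁.Left) (h02 : d₀ ∈ c₂.Left) (h11 : d₁ ∈ c₁.Right) (h12 : d₁ ∈ c₂.Right) :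
    ∃ E : T.Cyc, E.Right = {d | T.DJoin (c₁.darts ∪ c₂.darts) d₁ d} ∧ E.Right ⊆ c₁.Right ∩ c₂.Right ∧ E.darts ⊆ c₁.darts ∪ c₂.darts := by
  obtain ⟨j1, -, -, -⟩ := pl_jordan hT c₁
  obtain ⟨k1, -, -, -⟩ := pl_jordan hT c₂
  have hd1 : d₀ ∉ c₁.Right := by rw [j1]; exact fun h => h h01
  have hd2 : d₀ ∉ c₂.Right := by rw [k1]; exact fun h => h h02
  have b1 : ∀ d, T.Bd c₁.Right d ↔ T.Bd c₁.Left d := fun d => by rw [j1]; exact T.bd_compl
  have b2 : ∀ d, T.Bd c₂.Right d ↔ T.Bd c₂.Left d := fun d => by rw [k1]; exact T.bd_compl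
  obtain ⟨hsub, hc, hc'⟩ := pvlt_comp_conn hT (Z := c₁.darts ∪ c₂.darts) (pl_right_face c₁) (pl_right_face c₂)
    (fun d hd => by rw [b1, b2]; exact (pvlt_edg_union_iff hT c₁ c₂ d).1 hd) (fun d hd => (pvlt_edg_union_iff hT c₁ c₂ d).2 (Or.inl ((b1 d).1 hd)))
    (fun d hd => (pvlt_edg_union_iff hT c₁ c₂ d).2 (Or.inr ((b2 d).1 hd))) (by rw [j1, compl_compl]; exact pl_left_dconn hT c₁) (by rw [k1, compl_compl]; exact pl_left_dconn hT c₂)
    h11 h12 hd1 hd2
  set A : Set D := {d | T.DJoin (c₁.darts ∪ c₂.darts) d₁ d} with hA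
  have hbd : {d | T.Bd Aᶜ d} = {d | T.Bd A d} := by
    ext d; exact T.bd_compl
  have hfin : {d | T.Bd Aᶜ d}.Finite := by
    rw [hbd]
    exact (pvlt_edg_finite ((pl_cyc_darts_finite c₁).union (pl_cyc_darts_finite c₂))).subset fun d hd => pvlt_comp_bd _ d₁ hd
  obtain ⟨E, e1, -, e3⟩ := pl_bond' hT hS (pl_djoin_face (c₁.darts ∪ c₂.darts) d₁).compl hfin ⟨d₀, fun h => hd1 (hsub h).1⟩ ⟨d₁, fun h => h ReflTransGen.refl⟩
    (fun a ha b hb => by rw [hbd]; exact hc' a ha b hb) (fun a ha b hb => by rw [hbd]; exact hc a (not_not.1 ha) b (not_not.1 hb))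
  rw [compl_compl] at e3
  refine ⟨E, e3, by rw [e3]; exact hsub, ?_⟩
  intro e he
  rw [e1] at he
  have he2 : T.opp e ∈ A := not_not.1 he.2
  have hb : T.Bd A e := fun h => he.1 (h.2 he2)
  rcases pvlt_comp_bd _ d₁ hb with h | h
  · exact h
  · exfalso
    rcases h with h | h
    · have h3 := ((pl_cyc_darts_iff hT c₁ _).1 h).1
      have h4 := (hsub he2).1
      rw [j1] at h4
      exact h4 h3
    · have h3 := ((pl_cyc_darts_iff hT c₂ _).1 h).1
      have h4 := (hsub he2).2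
      rw [k1] at h4
      exact h4 h3

/-- a vertex of a circuit carries a dart of the left side and a dart of the right side -/
theorem pvlt_vert_darts (hT : T.IsSph) (c : T.Cyc) {v : V} (hv : v ∈ c.verts) : (∃ d ∈ c.Left, T.src d = v) ∧ ∃ d ∈ c.Right, T.src d = v := by
  obtain ⟨i, rfl⟩ := hv
  obtain ⟨-, h1, h2, -⟩ := pl_jordan hT c
  refine ⟨⟨c.e i, h1 i, rfl⟩, ⟨T.opp (c.e (i + c.n - 1)), h2 _, ?_⟩⟩
  have hn := pl_cyc_pos c
  rw [T.src_opp', c.chain, show i + c.n - 1 + 1 = i + c.n by omega, c.per]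

/-- a vertex which carries darts of both sides is on the circuit -/
theorem pvlt_vert_of_darts (hT : T.IsSph) (c : T.Cyc) {v : V} {d d' : D} (hd : d ∈ c.Left) (hd' : d' ∈ c.Right) (h : T.src d = v) (h' : T.src d' = v) : v ∈ c.verts := by
  obtain ⟨j1, -, -, -⟩ := pl_jordan hT c
  rcases pl_jordan_vert hT c v with h1 | h1 | h1
  · exact h1
  · rw [j1] at hd'
    exact absurd (h1 d' h') hd'
  · have := h1 d h
    rw [j1] at this
    exact absurd hd this

theorem pvlt_verts_of_darts {c : T.Cyc} {Z : Set D} (h : c.darts ⊆ Z) {v : V} (hv : v ∈ c.verts) : ∃ d ∈ Z, T.src d = v := by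
  obtain ⟨i, rfl⟩ := hv
  exact ⟨c.e i, h ⟨i, rfl⟩, rfl⟩

theorem pvlt_verts_union {c c₁ c₂ : T.Cyc} (h : c.darts ⊆ c₁.darts ∪ c₂.darts) : c.verts ⊆ c₁.verts ∪ c₂.verts := by
  intro v hv
  obtain ⟨d, hd, rfl⟩ := pvlt_verts_of_darts h hv
  rcases hd with ⟨i, rfl⟩ | ⟨i, rfl⟩
  · exact Or.inl ⟨i, rfl⟩
  · exact Or.inr ⟨i, rfl⟩

/-- a vertex on both envelopes is on both circuits -/
theorem pvlt_env_verts (hT : T.IsSph) {c₁ c₂ E E' : T.Cyc} (hE : E.Left ⊆ c₁.Left ∩ c₂.Left) (hE' : E'.Right ⊆ c₁.Right ∩ c₂.Right) {v : V} (hv : v ∈ E.verts) (hv' : v ∈ E'.verts) :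
    v ∈ c₁.verts ∧ v ∈ c₂.verts := by
  obtain ⟨d, hd, h⟩ := (pvlt_vert_darts hT E hv).1
  obtain ⟨d', hd', h'⟩ := (pvlt_vert_darts hT E' hv').2
  exact ⟨pvlt_vert_of_darts hT c₁ (hE hd).1 (hE' hd').1 h h', pvlt_vert_of_darts hT c₂ (hE hd).2 (hE' hd').2 h h'⟩

theorem pvlt_verts_finite (c : T.Cyc) : c.verts.Finite := by
  have h : c.verts ⊆ T.src '' c.darts := by
    rintro v ⟨i, rfl⟩
    exact ⟨c.e i, ⟨i, rfl⟩, rfl⟩
  exact ((pl_cyc_darts_finite c).image _).subset h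

/-- **SUBMODULARITY** of the number of vertices of a given kind -/
theorem pvlt_submod (hT : T.IsSph) {c₁ c₂ E E' : T.Cyc} (hE : E.Left ⊆ c₁.Left ∩ c₂.Left) (hE' : E'.Right ⊆ c₁.Right ∩ c₂.Right)
    (hEd : E.darts ⊆ c₁.darts ∪ c₂.darts) (hEd' : E'.darts ⊆ c₁.darts ∪ c₂.darts) (B : Set V) :
    (E.verts ∩ B).ncard + (E'.verts ∩ B).ncard ≤ (c₁.verts ∩ B).ncard + (c₂.verts ∩ B).ncard := by
  have f1 : (c₁.verts ∩ B).Finite := (pvlt_verts_finite c₁).inter_of_left B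
  have f2 : (c₂.verts ∩ B).Finite := (pvlt_verts_finite c₂).inter_of_left B
  have g1 : (E.verts ∩ B).Finite := (pvlt_verts_finite E).inter_of_left B
  have g2 : (E'.verts ∩ B).Finite := (pvlt_verts_finite E').inter_of_left B
  rw [← Set.ncard_union_add_ncard_inter _ _ g1 g2, ← Set.ncard_union_add_ncard_inter _ _ f1 f2]
  refine Nat.add_le_add (Set.ncard_le_ncard ?_ (f1.union f2)) (Set.ncard_le_ncard ?_ (f1.inter_of_left _))
  · rintro v (⟨h1, h2⟩ | ⟨h1, h2⟩)
    · exact (pvlt_verts_union hEd h1).imp (fun h => ⟨h, h2⟩) fun h => ⟨h, h2⟩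
    · exact (pvlt_verts_union hEd' h1).imp (fun h => ⟨h, h2⟩) fun h => ⟨h, h2⟩
  · rintro v ⟨⟨h1, h2⟩, ⟨h3, -⟩⟩
    obtain ⟨h4, h5⟩ := pvlt_env_verts hT hE hE' h1 h3
    exact ⟨⟨h4, h2⟩, ⟨h5, h2⟩⟩

/-! ## 3. A circuit which separates two vertices of a simple circuit meets it twice -/

/-- a walk along `P` which starts inside `c` and avoids the vertices of `c` stays inside -/
theorem pvlt_walk_in (hT : T.IsSph) (c P : T.Cyc) (i m : ℕ) (hi : T.src (P.e i) ∈ T.Int c.Left) (h : ∀ k, i < k → k ≤ i + m → T.src (P.e k) ∉ c.verts) :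
    T.src (P.e (i + m)) ∈ T.Int c.Left := by
  induction m with
  | zero => exact hi
  | succ m ih =>
    have ih' := ih fun k h1 h2 => h k h1 (by omega)
    exact pl_jordan_sep hT c ih' (ReflTransGen.single ⟨pvg_cyc_adj P (i + m), h (i + m + 1) (by omega) (by omega)⟩)

/-- first form: from the inside to a vertex which is not inside -/
theorem pvlt_hit (hT : T.IsSph) (c P : T.Cyc) {i j : ℕ} (hij : i ≤ j) (hi : T.src (P.e i) ∈ T.Int c.Left) (hj : T.src (P.e j) ∉ T.Int c.Left) :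
    ∃ k, i < k ∧ k ≤ j ∧ T.src (P.e k) ∈ c.verts := by
  by_contra hno
  apply hj
  have := pvlt_walk_in hT c P i (j - i) hi (fun k h1 h2 h3 => hno ⟨k, h1, by omega, h3⟩)
  rwa [show i + (j - i) = j by omega] at this

theorem pvlt_int_disj (hT : T.IsSph) (c : T.Cyc) {v : V} (h : v ∈ T.Int c.Left) (h' : v ∈ T.Int c.Right) : False :=
  Set.disjoint_left.1 (pl_jordan_vert_disj hT c).2.2 h h'

/-- ordered form -/
theorem pvlt_two_ord (hT : T.IsSph) (c P : T.Cyc) {i j : ℕ} (hij : i < j) (hji : j < i + P.n) (hi : T.src (P.e i) ∈ T.Int c.Left) (hj : T.src (P.e j) ∈ T.Int c.Right) :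
    ∃ k l, i < k ∧ k < j ∧ j < l ∧ l < i + P.n ∧ T.src (P.e k) ∈ c.verts ∧ T.src (P.e l) ∈ c.verts := by
  obtain ⟨c', -, -, hv, hL, -⟩ := pl_cyc_rev hT c
  have hjv : T.src (P.e j) ∉ c.verts := fun h => Set.disjoint_left.1 (pl_jordan_vert_disj hT c).2.1 h hj
  have hiv : T.src (P.e i) ∉ c.verts := fun h => Set.disjoint_left.1 (pl_jordan_vert_disj hT c).1 h hi
  obtain ⟨k, k1, k2, k3⟩ := pvlt_hit hT c P hij.le hi (fun h => pvlt_int_disj hT c h hj)
  obtain ⟨l, l1, l2, l3⟩ := pvlt_hit hT c' P hji.le (by rw [hL]; exact hj) (by rw [hL, P.per]; exact fun h => pvlt_int_disj hT c hi h)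
  rw [hv] at l3
  have hk : k ≠ j := fun h => hjv (h ▸ k3)
  have hl : l ≠ i + P.n := fun h => hiv (by rw [h, P.per] at l3; exact l3)
  exact ⟨k, l, k1, by omega, l1, by omega, k3, l3⟩

/-- **two crossings** -/
theorem pvlt_two (hT : T.IsSph) (c P : T.Cyc) {p u : V} (hp : p ∈ P.verts) (hu : u ∈ P.verts) (hpc : p ∈ T.Int c.Left) (huc : u ∈ T.Int c.Right) :
    2 ≤ (c.verts ∩ P.verts).ncard := by
  obtain ⟨i, rfl⟩ := hp
  obtain ⟨j, rfl⟩ := hu
  have hn := pl_cyc_pos P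
  rw [← pl_cyc_mod P i] at hpc
  rw [← pl_cyc_mod P j] at huc
  have hi := Nat.mod_lt i hn
  have hj := Nat.mod_lt j hn
  generalize i % P.n = i at hpc hi
  generalize j % P.n = j at huc hj
  have main : ∀ j', i < j' → j' < i + P.n → T.src (P.e j') ∈ T.Int c.Right → 2 ≤ (c.verts ∩ P.verts).ncard := by
    intro j' h1 h2 h3
    obtain ⟨k, l, k1, k2, l1, l2, k3, l3⟩ := pvlt_two_ord hT c P h1 h2 hpc h3
    have hne : T.src (P.e k) ≠ T.src (P.e l) := pvg_cyc_ne P (by omega) (by omega)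
    rw [← Set.ncard_pair hne]
    refine Set.ncard_le_ncard ?_ ((pvlt_verts_finite c).inter_of_left _)
    rintro v (rfl | rfl)
    · exact ⟨k3, ⟨k, rfl⟩⟩
    · exact ⟨l3, ⟨l, rfl⟩⟩
  rcases lt_trichotomy i j with h | h | h
  · exact main j h (by omega) huc
  · subst h
    exact (pvlt_int_disj hT c hpc huc).elim
  · exact main (j + P.n) (by omega) (by omega) (by rw [P.per]; exact huc)

/-! ## 4. Gates round a core: the family, meets -/

/-- `K` is connected off `N` -/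
def PvltOff (T : PvMap V D) (K N : Set V) : Prop := ∀ x ∈ K, ∀ y ∈ K, ReflTransGen (fun a b => T.Adj a b ∧ b ∉ N) x y

/-- circuits round the core `K`, with `O` outside, vertices in `N`, at most two black vertices, no black-black edge -/
structure PvltG (T : PvMap V D) (s : V → Bool) (K N O : Set V) (c : T.Cyc) : Prop where
  core : K ⊆ T.Int c.Left
  out : O ⊆ T.Int c.Right
  ann : c.verts ⊆ N
  two : (c.verts ∩ {v | s v = true}).ncard ≤ 2
  nadj : ∀ d ∈ c.darts, ¬ (s (T.src d) = true ∧ s (T.tgt d) = true)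

/-- inner-minimal gates -/
def PvltMin (T : PvMap V D) (s : V → Bool) (K N O : Set V) (c : T.Cyc) : Prop :=
  PvltG T s K N O c ∧ ∀ c' : T.Cyc, PvltG T s K N O c' → c'.Left ⊆ c.Left → c'.Left = c.Left

theorem pvlt_eqns_cite : True := by
  have := @PvltOff.eq_1; have := @PvltMin.eq_1
  trivial

variable {s : V → Bool} {K N O : Set V}

theorem pvlt_int_mono {A B : Set D} (h : A ⊆ B) : T.Int A ⊆ T.Int B := fun _ hv d hd => h (hv d hd)

theorem pvlt_right_anti (hT : T.IsSph) {c c' : T.Cyc} (h : c.Left ⊆ c'.Left) : c'.Right ⊆ c.Right := by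
  rw [(pl_jordan hT c).1, (pl_jordan hT c').1]
  exact Set.compl_subset_compl.2 h

theorem pvlt_left_anti (hT : T.IsSph) {c c' : T.Cyc} (h : c.Right ⊆ c'.Right) : c'.Left ⊆ c.Left := by
  rw [(pl_jordan hT c).1, (pl_jordan hT c').1] at h
  exact Set.compl_subset_compl.1 h

/-- a vertex off the circuit with one dart inside is interior -/
theorem pvlt_int_of_dart (hT : T.IsSph) (c : T.Cyc) {d : D} (hd : d ∈ c.Left) (hv : T.src d ∉ c.verts) : T.src d ∈ T.Int c.Left := by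
  rcases pl_jordan_vert hT c (T.src d) with h | h | h
  · exact absurd h hv
  · exact h
  · have := h d rfl
    rw [(pl_jordan hT c).1] at this
    exact absurd hd this

theorem pvlt_int_of_dart' (hT : T.IsSph) (c : T.Cyc) {d : D} (hd : d ∈ c.Right) (hv : T.src d ∉ c.verts) : T.src d ∈ T.Int c.Right := by
  rcases pl_jordan_vert hT c (T.src d) with h | h | h
  · exact absurd h hv
  · rw [(pl_jordan hT c).1] at hd
    exact absurd (h d rfl) hd
  · exact h

/-- **MEET**: the gates passed by one black circuit are closed under inner envelopes -/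
theorem pvlt_meet (hT : T.IsSph) (hS : T.Simple) (hK : PvltOff T K N) {c₁ c₂ : T.Cyc} (h1 : PvltG T s K N O c₁) (h2 : PvltG T s K N O c₂)
    (P : T.Cyc) (hP : ∀ v ∈ P.verts, s v = true) {p u : V} (hp : p ∈ P.verts) (hpK : p ∈ K) (hu : u ∈ P.verts) (huO : u ∈ O) :
    ∃ E : T.Cyc, PvltG T s K N O E ∧ E.Left ⊆ c₁.Left ∩ c₂.Left ∧ E.darts ⊆ c₁.darts ∪ c₂.darts := by
  obtain ⟨i, hi⟩ := hp
  obtain ⟨j, hj⟩ := hu
  have p1 := h1.core hpK
  have p2 := h2.core hpK
  have u1 := h1.out huO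
  have u2 := h2.out huO
  obtain ⟨E, e1, e2, e3⟩ := pvlt_env_in hT hS c₁ c₂ (p1 _ hi) (p2 _ hi) (u1 _ hj) (u2 _ hj)
  obtain ⟨E', f1, f2, f3⟩ := pvlt_env_out hT hS c₁ c₂ (p1 _ hi) (p2 _ hi) (u1 _ hj) (u2 _ hj)
  have e0 : P.e i ∈ E.Left := by rw [e1]; exact ReflTransGen.refl
  have f0 : P.e j ∈ E'.Right := by rw [f1]; exact ReflTransGen.refl
  have hEv := pvlt_verts_union e3
  have hEv' := pvlt_verts_union f3
  have hEN : E.verts ⊆ N := fun v hv => (hEv hv).elim (fun h => h1.ann h) fun h => h2.ann h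
  have hpE : p ∉ E.verts := fun h => (hEv h).elim (fun h => Set.disjoint_left.1 (pl_jordan_vert_disj hT c₁).1 h p1) fun h => Set.disjoint_left.1 (pl_jordan_vert_disj hT c₂).1 h p2
  have huE' : u ∉ E'.verts := fun h => (hEv' h).elim (fun h => Set.disjoint_left.1 (pl_jordan_vert_disj hT c₁).2.1 h u1) fun h => Set.disjoint_left.1 (pl_jordan_vert_disj hT c₂).2.1 h u2
  have hpI : p ∈ T.Int E.Left := by
    have := pvlt_int_of_dart hT E e0 (by rw [hi]; exact hpE)
    rwa [hi] at this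
  have huI : u ∈ T.Int E'.Right := by
    have := pvlt_int_of_dart' hT E' f0 (by rw [hj]; exact huE')
    rwa [hj] at this
  have hpI' : p ∈ T.Int E'.Left := pvlt_int_mono (pvlt_left_anti hT (f2.trans Set.inter_subset_left)) p1
  have two' : 2 ≤ (E'.verts ∩ {v | s v = true}).ncard :=
    (pvlt_two hT E' P ⟨i, hi⟩ ⟨j, hj⟩ hpI' huI).trans
      (Set.ncard_le_ncard (fun v hv => ⟨hv.1, hP v hv.2⟩) ((pvlt_verts_finite E').inter_of_left _))
  have hsm := pvlt_submod hT e2 f2 e3 f3 {v | s v = true}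
  refine ⟨E, ⟨fun y hy => ?_, fun y hy => ?_, hEN, ?_, fun d hd => ?_⟩, e2, e3⟩
  · refine pl_jordan_sep hT E hpI (ReflTransGen.mono (fun a b hab => ⟨hab.1, fun h => hab.2 (hEN h)⟩) _ _ (hK p hpK y hy))
  · exact pvlt_int_mono (pvlt_right_anti hT (e2.trans Set.inter_subset_left)) (h1.out hy)
  · have := h1.two
    have := h2.two
    omega
  · exact (e3 hd).elim (fun h => h1.nadj d h) fun h => h2.nadj d h

/-! ## 5. Minimal gates: existence, uniqueness, locality -/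

/-- **EXISTENCE** of an inner-minimal gate inside a gate with finite inside -/
theorem pvlt_min_exists {c₀ : T.Cyc} (h0 : PvltG T s K N O c₀) (hfin : c₀.Left.Finite) : ∃ c : T.Cyc, PvltMin T s K N O c ∧ c.Left ⊆ c₀.Left := by
  classical
  have hex : ∃ n, ∃ c : T.Cyc, PvltG T s K N O c ∧ c.Left ⊆ c₀.Left ∧ c.Left.ncard = n := ⟨_, c₀, h0, subset_rfl, rfl⟩
  obtain ⟨c, hc1, hc2, hc3⟩ := Nat.find_spec hex
  refine ⟨c, ⟨hc1, fun c' h1 h2 => ?_⟩, hc2⟩
  have hmin : Nat.find hex ≤ c'.Left.ncard := Nat.find_min' hex ⟨c', h1, h2.trans hc2, rfl⟩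
  exact Set.eq_of_subset_of_ncard_le h2 (by rw [hc3]; exact hmin) (hfin.subset hc2)

/-- **INNERMOST**: an inner-minimal gate lies inside every gate, as soon as a black circuit runs from the core to the outside -/
theorem pvlt_min_le (hT : T.IsSph) (hS : T.Simple) (hK : PvltOff T K N) {c c' : T.Cyc} (h : PvltMin T s K N O c) (h' : PvltG T s K N O c')
    (P : T.Cyc) (hP : ∀ v ∈ P.verts, s v = true) {p u : V} (hp : p ∈ P.verts) (hpK : p ∈ K) (hu : u ∈ P.verts) (huO : u ∈ O) : c.Left ⊆ c'.Left := by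
  obtain ⟨E, e1, e2, -⟩ := pvlt_meet hT hS hK h.1 h' P hP hp hpK hu huO
  rw [← h.2 E e1 (e2.trans Set.inter_subset_left)]
  exact e2.trans Set.inter_subset_right

/-- **UNIQUENESS** -/
theorem pvlt_min_unique (hT : T.IsSph) (hS : T.Simple) (hK : PvltOff T K N) {c c' : T.Cyc} (h : PvltMin T s K N O c) (h' : PvltMin T s K N O c')
    (P : T.Cyc) (hP : ∀ v ∈ P.verts, s v = true) {p u : V} (hp : p ∈ P.verts) (hpK : p ∈ K) (hu : u ∈ P.verts) (huO : u ∈ O) : c.Left = c'.Left :=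
  Set.Subset.antisymm (pvlt_min_le hT hS hK h h'.1 P hP hp hpK hu huO) (pvlt_min_le hT hS hK h' h.1 P hP hp hpK hu huO)

/-- circuits with the same inside have the same darts, the same vertices, the same outside -/
theorem pvlt_left_ext (hT : T.IsSph) {c c' : T.Cyc} (h : c.Left = c'.Left) : c.darts = c'.darts ∧ c.verts = c'.verts ∧ c.Right = c'.Right := by
  have hd : c.darts = c'.darts := by
    ext d
    rw [pl_cyc_darts_iff hT c, pl_cyc_darts_iff hT c', h]
  refine ⟨hd, ?_, by rw [(pl_jordan hT c).1, (pl_jordan hT c').1, h]⟩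
  ext v
  constructor
  · rintro ⟨i, rfl⟩
    obtain ⟨j, hj⟩ : c.e i ∈ c'.darts := hd ▸ ⟨i, rfl⟩
    exact ⟨j, by rw [hj]⟩
  · rintro ⟨i, rfl⟩
    obtain ⟨j, hj⟩ : c'.e i ∈ c.darts := hd ▸ ⟨i, rfl⟩
    exact ⟨j, by rw [hj]⟩

theorem pvlt_min_darts (hT : T.IsSph) (hS : T.Simple) (hK : PvltOff T K N) {c c' : T.Cyc} (h : PvltMin T s K N O c) (h' : PvltMin T s K N O c')
    (P : T.Cyc) (hP : ∀ v ∈ P.verts, s v = true) {p u : V} (hp : p ∈ P.verts) (hpK : p ∈ K) (hu : u ∈ P.verts) (huO : u ∈ O) :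
    c.darts = c'.darts ∧ c.verts = c'.verts ∧ c.Right = c'.Right :=
  pvlt_left_ext hT (pvlt_min_unique hT hS hK h h' P hP hp hpK hu huO)

theorem pvlt_tgt_mem (c : T.Cyc) {d : D} (hd : d ∈ c.darts) : T.src d ∈ c.verts ∧ T.tgt d ∈ c.verts := by
  obtain ⟨i, rfl⟩ := hd
  exact ⟨⟨i, rfl⟩, ⟨i + 1, (c.chain i).symm⟩⟩

/-- the family only reads the colours on the circuit -/
theorem pvlt_G_congr {s' : V → Bool} {c : T.Cyc} (hs : ∀ v ∈ c.verts, s' v = s v) (h : PvltG T s K N O c) : PvltG T s' K N O c := by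
  refine ⟨h.core, h.out, h.ann, ?_, fun d hd => ?_⟩
  · have : c.verts ∩ {v | s' v = true} = c.verts ∩ {v | s v = true} := by
      ext v
      constructor
      · rintro ⟨h1, h2⟩
        exact ⟨h1, (hs v h1).symm.trans h2⟩
      · rintro ⟨h1, h2⟩
        exact ⟨h1, (hs v h1).trans h2⟩
    rw [this]
    exact h.two
  · rw [hs _ (pvlt_tgt_mem c hd).1, hs _ (pvlt_tgt_mem c hd).2]
    exact h.nadj d hd

theorem pvlt_verts_VOf (hT : T.IsSph) (c : T.Cyc) : c.verts ⊆ T.VOf c.Left := by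
  rw [pl_VOf_left hT c]
  exact Set.subset_union_left

theorem pvlt_VOf_mono {A B : Set D} (h : A ⊆ B) : T.VOf A ⊆ T.VOf B := fun _ ⟨d, hd, hv⟩ => ⟨d, h hd, hv⟩

/-- **LOCALITY**: inner minimality is read from the colours of the closed inside -/
theorem pvlt_min_congr (hT : T.IsSph) {s' : V → Bool} {c : T.Cyc} (hs : ∀ v ∈ T.VOf c.Left, s' v = s v) (h : PvltMin T s K N O c) : PvltMin T s' K N O c := by
  refine ⟨pvlt_G_congr (fun v hv => hs v (pvlt_verts_VOf hT c hv)) h.1, fun c' h1 h2 => h.2 c' ?_ h2⟩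
  exact pvlt_G_congr (fun v hv => (hs v (pvlt_VOf_mono h2 (pvlt_verts_VOf hT c' hv))).symm) h1

theorem pvlt_min_congr_iff (hT : T.IsSph) {s' : V → Bool} {c : T.Cyc} (hs : ∀ v ∈ T.VOf c.Left, s' v = s v) : PvltMin T s' K N O c ↔ PvltMin T s K N O c :=
  ⟨pvlt_min_congr hT fun v hv => (hs v hv).symm, pvlt_min_congr hT hs⟩

/-! ## 6. Invariance under re-indexing, the record `PvMap.Gate` of 260 -/

theorem pvlt_G_of_left (hT : T.IsSph) {c c' : T.Cyc} (h : c.Left = c'.Left) (hc : PvltG T s K N O c) : PvltG T s K N O c' := by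
  obtain ⟨h1, h2, h3⟩ := pvlt_left_ext hT h
  exact ⟨h ▸ hc.core, h3 ▸ hc.out, h2 ▸ hc.ann, h2 ▸ hc.two, h1 ▸ hc.nadj⟩

theorem pvlt_min_of_left (hT : T.IsSph) {c c' : T.Cyc} (h : c.Left = c'.Left) (hc : PvltMin T s K N O c) : PvltMin T s K N O c' :=
  ⟨pvlt_G_of_left hT h hc.1, fun c'' h1 h2 => by rw [← h] at h2 ⊢; exact hc.2 c'' h1 h2⟩

/-- a gate passed by a black circuit has exactly two black vertices, both on the circuit -/
theorem pvlt_G_two (hT : T.IsSph) {c : T.Cyc} (h : PvltG T s K N O c)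
    (P : T.Cyc) (hP : ∀ v ∈ P.verts, s v = true) {p u : V} (hp : p ∈ P.verts) (hpK : p ∈ K) (hu : u ∈ P.verts) (huO : u ∈ O) :
    ∃ x y, x ≠ y ∧ x ∈ P.verts ∧ y ∈ P.verts ∧ c.verts ∩ {v | s v = true} = {x, y} := by
  have h2 := pvlt_two hT c P hp hu (h.core hpK) (h.out huO)
  have hfin : (c.verts ∩ {v | s v = true}).Finite := (pvlt_verts_finite c).inter_of_left _
  have hsub : c.verts ∩ P.verts ⊆ c.verts ∩ {v | s v = true} := fun v hv => ⟨hv.1, hP v hv.2⟩
  have heq : c.verts ∩ P.verts = c.verts ∩ {v | s v = true} := Set.eq_of_subset_of_ncard_le hsub (h.two.trans h2) hfin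
  have hc2 : (c.verts ∩ {v | s v = true}).ncard = 2 := le_antisymm h.two (heq ▸ h2)
  obtain ⟨x, y, hxy, hS⟩ := Set.ncard_eq_two.1 hc2
  have hx : x ∈ c.verts ∩ P.verts := by rw [heq, hS]; exact Or.inl rfl
  have hy : y ∈ c.verts ∩ P.verts := by rw [heq, hS]; exact Or.inr rfl
  exact ⟨x, y, hxy, hx.2, hy.2, hS⟩

/-- **a circuit with exactly two black vertices `x`, `y`, not adjacent on it, is a `PvMap.Gate`** with entry `x` and exit `y` -/
theorem pvlt_gate (hT : T.IsSph) (c : T.Cyc) {x y : V} (hxy : x ≠ y) (hb : c.verts ∩ {v | s v = true} = {x, y})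
    (nadj : ∀ d ∈ c.darts, ¬ (s (T.src d) = true ∧ s (T.tgt d) = true)) :
    ∃ g : T.Gate s, g.c.Left = c.Left ∧ g.c.Right = c.Right ∧ g.c.darts = c.darts ∧ g.c.verts = c.verts ∧ g.vm = x ∧ g.vp = y := by
  have hx : x ∈ c.verts ∩ {v | s v = true} := by rw [hb]; exact Or.inl rfl
  have hy : y ∈ c.verts ∩ {v | s v = true} := by rw [hb]; exact Or.inr rfl
  obtain ⟨i, hi⟩ := hx.1
  obtain ⟨j, hj⟩ := hy.1
  have hsx : s x = true := hx.2
  have hsy : s y = true := hy.2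
  set c' : T.Cyc := c.shift i with hc'
  have hn : c'.n = c.n := rfl
  have hpos := pl_cyc_pos c'
  have hd : c'.darts = c.darts := pl_cyc_shift_darts c i
  have h0 : T.src (c'.e 0) = x := by
    show T.src (c.e (0 + i)) = x
    rw [Nat.zero_add]; exact hi
  obtain ⟨j', hj'⟩ : c.e j ∈ c'.darts := by rw [hd]; exact ⟨j, rfl⟩
  set m := j' % c'.n with hm
  have hmn : m < c'.n := Nat.mod_lt _ hpos
  have hmy : T.src (c'.e m) = y := by rw [hm, pl_cyc_mod c' j', hj', hj]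
  have hm0 : m ≠ 0 := fun h => hxy (by rw [← h0, ← hmy, h])
  have hm1 : m ≠ 1 := fun h => nadj (c'.e 0) (hd ▸ ⟨0, rfl⟩) ⟨by rw [h0]; exact hsx, by rw [c'.chain, Nat.zero_add, ← h, hmy]; exact hsy⟩
  have hm2 : m + 1 ≠ c'.n := fun h => nadj (c'.e m) (hd ▸ ⟨m, rfl⟩) ⟨by rw [hmy]; exact hsy, by
    rw [c'.chain, h, ← Nat.zero_add c'.n, c'.per, h0]; exact hsx⟩
  have hv : ∀ k, T.src (c'.e k) ∈ c.verts := fun k => ⟨k + i, rfl⟩
  refine ⟨⟨c', m, by omega, by omega, fun k hk => ⟨fun h => ?_, fun h => ?_⟩⟩, (pl_shift_left hT c i).1, (pl_shift_left hT c i).2, hd, ?_, h0, hmy⟩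
  · have h1 : T.src (c'.e k) ∈ c.verts ∩ {v | s v = true} := ⟨hv k, h⟩
    rw [hb] at h1
    rcases h1 with h1 | h1
    · exact Or.inl (c'.inj k 0 hk hpos (h1.trans h0.symm))
    · exact Or.inr (c'.inj k m hk hmn (h1.trans hmy.symm))
  · rcases h with rfl | rfl
    · rw [h0]; exact hsx
    · rw [hmy]; exact hsy
  · exact (pvlt_left_ext hT (pl_shift_left hT c i).1).2.1

/-- conversely a `PvMap.Gate` round `K` belongs to the family -/
theorem pvlt_G_of_gate (g : T.Gate s) (core : K ⊆ T.Int g.c.Left) (out : O ⊆ T.Int g.c.Right) (ann : g.c.verts ⊆ N) : PvltG T s K N O g.c := by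
  refine ⟨core, out, ann, ?_, ?_⟩
  · have hsub : g.c.verts ∩ {v | s v = true} ⊆ {g.vm, g.vp} := fun v hv => pvtg_black g hv.1 hv.2
    exact (Set.ncard_le_ncard hsub (Set.toFinite _)).trans (Set.ncard_insert_le _ _ |>.trans (by rw [Set.ncard_singleton]))
  · rintro d ⟨i, rfl⟩ ⟨h1, h2⟩
    rw [g.c.chain] at h2
    rw [pvtg_col] at h1 h2
    have hpos := pl_cyc_pos g.c
    have a1 := g.hm
    have a2 := g.hmn
    have hi := Nat.mod_lt i hpos
    have hs : (i + 1) % g.c.n = (i % g.c.n + 1) % g.c.n := by rw [Nat.add_mod, Nat.mod_eq_of_lt (show 1 < g.c.n by omega)]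
    rw [hs] at h2
    generalize i % g.c.n = k at h1 h2 hi
    rcases h1 with rfl | rfl
    · rw [Nat.mod_eq_of_lt (by omega)] at h2
      omega
    · rw [Nat.mod_eq_of_lt (by omega)] at h2
      omega

/-- **THE INNERMOST GATE** of a black circuit which runs from the core to the outside through some gate with finite inside: a `PvMap.Gate`, inner-minimal (a LOCAL property: `pvlt_min_congr`), inside every gate of the family,
its two black vertices on the circuit -/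
theorem pvlt_innermost (hT : T.IsSph) (hS : T.Simple) (hK : PvltOff T K N) {c₀ : T.Cyc} (h0 : PvltG T s K N O c₀) (hfin : c₀.Left.Finite)
    (P : T.Cyc) (hP : ∀ v ∈ P.verts, s v = true) {p u : V} (hp : p ∈ P.verts) (hpK : p ∈ K) (hu : u ∈ P.verts) (huO : u ∈ O) :
    ∃ g : T.Gate s, PvltMin T s K N O g.c ∧ g.c.Left ⊆ c₀.Left ∧ g.vm ∈ P.verts ∧ g.vp ∈ P.verts ∧ ∀ c', PvltG T s K N O c' → g.c.Left ⊆ c'.Left := by
  obtain ⟨c, hc, hc0⟩ := pvlt_min_exists h0 hfin
  obtain ⟨x, y, hxy, hx, hy, hb⟩ := pvlt_G_two hT hc.1 P hP hp hpK hu huO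
  obtain ⟨g, g1, -, -, -, g5, g6⟩ := pvlt_gate hT c hxy hb hc.1.nadj
  have hmin := pvlt_min_of_left hT g1.symm hc
  exact ⟨g, hmin, g1 ▸ hc0, g5 ▸ hx, g6 ▸ hy, fun c' h' => pvlt_min_le hT hS hK hmin h' P hP hp hpK hu huO⟩

end Claimed.Agent.R289
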