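import Claimed.Agent.R289.Tr.Geo
import Claimed.Agent.R289.Pl.Rim
import Claimed.Agent.R289.Del.Bulk
import Claimed.Agent.R289.S6b.Det
import Claimed.Agent.R289.Tr.GateLat
import Claimed.Agent.R289.Tr.GateMin

/-!
# Row 289 (S0537, Cardy for Poisson-Voronoi), unit TR, file Tr/GateFr : THE GEOMETRIC FRAME OF THE GATES IN THE DELAUNAY MAP      (owner helper150; prefix `pvgy_`)

The three lattices of gates on main (`Tr/GateLat` of helper3, `Tr/GateL` of helper118, `Tr/GateMin` of helper150) are model free; each asks ONE geometric hypothesis on the inner ball (and mine one on the outer disc).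
This file discharges them in the plane Delaunay map `delMap h`, WITHOUT any mesh hypothesis:
* sec. 1  **`pvgy_disc`**, `pvgy_disc_open`   DISC LEMMA (greedy routing): the sites of a ball are Delaunay-connected inside the ball      (cells which meet the segment `[p, z]` belong to sites not farther from `z` than `p`)
* sec. 2  **`pvgy_codisc`**                   CO-DISC LEMMA: the sites outside an open ball are Delaunay-connected outside the ball      (outward rays + a large circle which misses the finitely many bounded cells of the sites of the ball)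
* sec. 3  map forms: `pvgy_map_disc`, `pvgy_map_codisc`, **`pvgy_off`** (`PvltOff (delMap h) K N` of helper3, `K` = the sites of the open ball, `N` any set off the ball)
* sec. 4  **`pvgy_frame`** : `PvgnFr T (T.Star A) (T.Star B)ᶜ o` for any `PvMap` (`A`, `B` connected vertex sets, no face touches both);   **`pvgy_del_frame`** : the instance `A` = sites of `B(z, ra)`, `B` = sites off `B(z, rb)`;
          `pvgy_between` (`I ⊆ c.Left ⊆ O` iff `A ⊆ Int c.Left`, `B ⊆ Int c.Right`), `pvgy_of_lt` (`PvltG` of helper3 => `PvgnG`), **`pvgy_del_gate`** (innermost gate = the rule `pvgnHull`, in `delMap h`), `pvgy_del_congr` (the rule reads the sites of `B(z, rb)`)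
* sec. 5  MISFIT A6 → GATE OF RECORD: `pvgy_pass` (a cut rim passes a circuit with at most two black sites at exactly two places), `pvgy_bb_adj`, **`pvgy_gate_of_nr`** (mesh + no near return at the scale of the mesh ⟹ white sites on both arcs ⟹ `T.Gate s`, entry / exit in the direction of the rim), `pvgy_nr_of_rim` (from `PvbNearRet` of an encoded rim)
* sec. 6  AT THE MODEL `(delbPl Y).toMap` (= `pvxT ω`, `Y := pvxY ω`): `pvgy_m_disc(_le)`, `pvgy_m_codisc`, **`pvgy_m_off`**, `pvgy_m_frame`, **`pvgy_m_gate`**, `pvgy_m_congr`, `pvgy_m_simple`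
-/

set_option autoImplicit false

namespace Claimed.Agent.R289

open Set Metric Relation

variable {Y : Set ℂ} {z a b : ℂ} {r : ℝ}

/-! ## 1. the disc lemma -/

/-- a site whose cell meets the segment `[p, z]` is not farther from `z` than the site `p` -/
theorem pvgy_seg_le {p v x : ℂ} (hp : p ∈ Y) (hx : x ∈ vorCell Y v) (hxS : x ∈ segment ℝ p z) : ‖v - z‖ ≤ ‖p - z‖ := by
  have h1 : ‖x - v‖ ≤ ‖x - p‖ := hx p hp
  have h2 : dist p x + dist x z = dist p z := dist_add_dist_of_mem_segment hxS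
  have h3 : dist v z ≤ dist v x + dist x z := dist_triangle _ _ _
  rw [dist_eq_norm, dist_eq_norm, dist_eq_norm, norm_sub_rev p x] at h2
  rw [dist_eq_norm, dist_eq_norm, dist_eq_norm, norm_sub_rev v x] at h3
  linarith

/-- **DISC LEMMA**: the sites of a closed ball are Delaunay-connected inside the ball -/
theorem pvgy_disc (lf : VorLF Y) (ha : a ∈ Y) (har : ‖a - z‖ ≤ r) (hb : b ∈ Y) (hbr : ‖b - z‖ ≤ r) : PvgeCh Y (Y ∩ closedBall z r) a b := by
  have hS : IsPreconnected (segment ℝ a z ∪ segment ℝ b z) :=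
    IsPreconnected.union z (right_mem_segment ℝ a z) (right_mem_segment ℝ b z) (convex_segment a z).isPreconnected (convex_segment b z).isPreconnected
  refine (pvge_conn lf hS (pvge_site_meet ha (Or.inl (left_mem_segment ℝ a z))) (pvge_site_meet hb (Or.inr (left_mem_segment ℝ b z)))).mono ?_
  rintro v ⟨hvY, x, hx, hxS | hxS⟩
  · exact ⟨hvY, by rw [mem_closedBall, dist_eq_norm]; exact (pvgy_seg_le ha hx hxS).trans har⟩
  · exact ⟨hvY, by rw [mem_closedBall, dist_eq_norm]; exact (pvgy_seg_le hb hx hxS).trans hbr⟩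

theorem pvgy_disc_open (lf : VorLF Y) (ha : a ∈ Y) (har : ‖a - z‖ < r) (hb : b ∈ Y) (hbr : ‖b - z‖ < r) : PvgeCh Y (Y ∩ ball z r) a b :=
  (pvgy_disc lf ha (le_max_left _ _) hb (le_max_right _ _)).mono fun _ hv => ⟨hv.1, closedBall_subset_ball (max_lt har hbr) hv.2⟩

/-! ## 2. the co-disc lemma -/

/-- a site whose cell meets the outward ray from the site `p` is not closer to `z` than `p` -/
theorem pvgy_ray_ge {p v x : ℂ} {t : ℝ} (ht : 0 ≤ t) (hp : p ∈ Y) (hx : x ∈ vorCell Y v) (hxS : x = p + (t : ℂ) * (p - z)) : ‖p - z‖ ≤ ‖v - z‖ := by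
  have h1 : ‖x - v‖ ≤ ‖x - p‖ := hx p hp
  have h2 : ‖x - p‖ = t * ‖p - z‖ := by
    rw [hxS, add_sub_cancel_left, norm_mul, Complex.norm_real, Real.norm_of_nonneg ht]
  have h3 : ‖x - z‖ = (1 + t) * ‖p - z‖ := by
    have : x - z = ((1 + t : ℝ) : ℂ) * (p - z) := by rw [hxS]; push_cast; ring
    rw [this, norm_mul, Complex.norm_real, Real.norm_of_nonneg (by linarith)]
  have h4 : ‖x - z‖ ≤ ‖x - v‖ + ‖v - z‖ := by
    have := norm_add_le (x - v) (v - z)
    rwa [sub_add_sub_cancel] at this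
  nlinarith

/-- the outward segment from `p` to the circle of radius `R` -/
theorem pvgy_ray_seg {p x : ℂ} {R : ℝ} (hp : p ≠ z) (hR : ‖p - z‖ ≤ R) (hx : x ∈ segment ℝ p (z + ((R / ‖p - z‖ : ℝ) : ℂ) * (p - z))) :
    ∃ t : ℝ, 0 ≤ t ∧ x = p + (t : ℂ) * (p - z) := by
  have hpos : 0 < ‖p - z‖ := norm_pos_iff.2 (sub_ne_zero.2 hp)
  obtain ⟨α, β, hα, hβ, hαβ, rfl⟩ := hx
  refine ⟨β * (R / ‖p - z‖ - 1), mul_nonneg hβ (by rw [sub_nonneg, le_div_iff₀ hpos]; linarith), ?_⟩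
  have : (α : ℂ) = 1 - β := by
    have h1 : α = 1 - β := by linarith
    rw [h1]; push_cast; ring
  simp only [Complex.real_smul]
  rw [this]
  push_cast
  ring

theorem pvgy_ray_end {p : ℂ} {R : ℝ} (hp : p ≠ z) (hR : 0 ≤ R) : z + ((R / ‖p - z‖ : ℝ) : ℂ) * (p - z) ∈ sphere z R := by
  have hpos : 0 < ‖p - z‖ := norm_pos_iff.2 (sub_ne_zero.2 hp)
  rw [mem_sphere, dist_eq_norm, add_sub_cancel_left, norm_mul, Complex.norm_real, Real.norm_of_nonneg (div_nonneg hR hpos.le), div_mul_cancel₀ _ hpos.ne']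

theorem pvgy_ball_finite (lf : VorLF Y) (z : ℂ) (r : ℝ) : (Y ∩ closedBall z r).Finite := by
  refine (lf (‖z‖ + r)).subset fun v hv => ⟨hv.1, ?_⟩
  have h1 := hv.2
  rw [mem_closedBall, dist_eq_norm] at h1
  rw [mem_closedBall, dist_zero_right]
  have := norm_add_le (v - z) z
  rw [sub_add_cancel] at this
  linarith

/-- **CO-DISC LEMMA**: the sites outside an open ball are Delaunay-connected outside the ball -/
theorem pvgy_codisc (lf : VorLF Y) (hbd : ∀ v : ℂ, Bornology.IsBounded (vorCell Y v)) (ha : a ∈ Y) (har : r ≤ ‖a - z‖) (hb : b ∈ Y) (hbr : r ≤ ‖b - z‖) :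
    PvgeCh Y (Y \ ball z r) a b := by
  rcases le_or_gt r 0 with hr | hr
  · refine (pvge_conn lf isPreconnected_univ (pvge_site_meet ha (mem_univ _)) (pvge_site_meet hb (mem_univ _))).mono fun v hv => ⟨hv.1, ?_⟩
    rw [ball_eq_empty.2 hr]
    exact notMem_empty v
  have haz : a ≠ z := fun h => by rw [h, sub_self, norm_zero] at har; linarith
  have hbz : b ≠ z := fun h => by rw [h, sub_self, norm_zero] at hbr; linarith
  have hU : Bornology.IsBounded (⋃ v ∈ Y ∩ closedBall z r, vorCell Y v) :=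
    (Bornology.isBounded_biUnion (pvgy_ball_finite lf z r)).2 fun v _ => hbd v
  obtain ⟨R₀, hR₀⟩ := hU.subset_closedBall z
  set R : ℝ := max (R₀ + 1) (max ‖a - z‖ ‖b - z‖) with hRdef
  have hR1 : R₀ < R := lt_of_lt_of_le (by linarith) (le_max_left _ _)
  have hRa : ‖a - z‖ ≤ R := (le_max_left _ _).trans (le_max_right _ _)
  have hRb : ‖b - z‖ ≤ R := (le_max_right _ _).trans (le_max_right _ _)
  have hR0 : 0 ≤ R := (norm_nonneg _).trans hRa
  set a' : ℂ := z + ((R / ‖a - z‖ : ℝ) : ℂ) * (a - z) with ha'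
  set b' : ℂ := z + ((R / ‖b - z‖ : ℝ) : ℂ) * (b - z) with hb'
  have hsph : IsPreconnected (sphere z R) := isPreconnected_sphere (by rw [Complex.rank_real_complex]; norm_num) z R
  have hS1 : IsPreconnected (segment ℝ a a' ∪ sphere z R) :=
    IsPreconnected.union a' (right_mem_segment ℝ a a') (pvgy_ray_end haz hR0) (convex_segment a a').isPreconnected hsph
  have hS : IsPreconnected ((segment ℝ a a' ∪ sphere z R) ∪ segment ℝ b b') :=
    IsPreconnected.union b' (Or.inr (pvgy_ray_end hbz hR0)) (right_mem_segment ℝ b b') hS1 (convex_segment b b').isPreconnected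
  refine (pvge_conn lf hS (pvge_site_meet ha (Or.inl (Or.inl (left_mem_segment ℝ a a')))) (pvge_site_meet hb (Or.inr (left_mem_segment ℝ b b')))).mono ?_
  rintro v ⟨hvY, x, hx, (hxS | hxS) | hxS⟩
  · obtain ⟨t, ht, hxt⟩ := pvgy_ray_seg haz hRa hxS
    refine ⟨hvY, fun hv => ?_⟩
    rw [mem_ball, dist_eq_norm] at hv
    linarith [pvgy_ray_ge ht ha hx hxt]
  · refine ⟨hvY, fun hv => ?_⟩
    have h1 : x ∈ closedBall z R₀ := hR₀ (mem_biUnion (⟨hvY, ball_subset_closedBall hv⟩ : v ∈ Y ∩ closedBall z r) hx)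
    rw [mem_closedBall] at h1
    rw [mem_sphere] at hxS
    linarith
  · obtain ⟨t, ht, hxt⟩ := pvgy_ray_seg hbz hRb hxS
    refine ⟨hvY, fun hv => ?_⟩
    rw [mem_ball, dist_eq_norm] at hv
    linarith [pvgy_ray_ge ht hb hx hxt]

/-! ## 3. map forms -/

theorem pvgy_map_disc (h : DelGood Y) {u v : Y} (hu : ‖(u : ℂ) - z‖ < r) (hv : ‖(v : ℂ) - z‖ < r) :
    ReflTransGen (fun x y : Y => (delMap h).Adj x y ∧ ‖(y : ℂ) - z‖ < r) u v :=
  ReflTransGen.mono (fun _ _ hxy => ⟨hxy.1, by have := hxy.2.2; rwa [mem_ball, dist_eq_norm] at this⟩) _ _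
    (pvge_map_chain' h (pvgy_disc_open h.lf u.2 hu v.2 hv))

theorem pvgy_map_disc_le (h : DelGood Y) {u v : Y} (hu : ‖(u : ℂ) - z‖ ≤ r) (hv : ‖(v : ℂ) - z‖ ≤ r) :
    ReflTransGen (fun x y : Y => (delMap h).Adj x y ∧ ‖(y : ℂ) - z‖ ≤ r) u v :=
  ReflTransGen.mono (fun _ _ hxy => ⟨hxy.1, by have := hxy.2.2; rwa [mem_closedBall, dist_eq_norm] at this⟩) _ _
    (pvge_map_chain' h (pvgy_disc h.lf u.2 hu v.2 hv))

theorem pvgy_map_codisc (h : DelGood Y) {u v : Y} (hu : r ≤ ‖(u : ℂ) - z‖) (hv : r ≤ ‖(v : ℂ) - z‖) :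
    ReflTransGen (fun x y : Y => (delMap h).Adj x y ∧ r ≤ ‖(y : ℂ) - z‖) u v :=
  ReflTransGen.mono (fun _ _ hxy => ⟨hxy.1, by have := hxy.2.2; rwa [mem_ball, dist_eq_norm, not_lt] at this⟩) _ _
    (pvge_map_chain' h (pvgy_codisc h.lf h.bdd u.2 hu v.2 hv))

/-- the hypothesis `PvltOff` of `pvlt_innermost`, `pvlt_min_le`, `pvlt_min_unique` (helper3): the sites of the open ball are connected off every set which misses the ball -/
theorem pvgy_off (h : DelGood Y) {N : Set Y} (hN : ∀ v ∈ N, r ≤ ‖(v : ℂ) - z‖) : PvltOff (delMap h) {v : Y | ‖(v : ℂ) - z‖ < r} N :=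
  fun _ hx _ hy => ReflTransGen.mono (fun _ b hab => ⟨hab.1, fun hb => absurd hab.2 (not_lt.2 (hN b hb))⟩) _ _ (pvgy_map_disc h hx hy)

/-! ## 4. the frame -/

section frame

variable {V D : Type} {T : PvMap V D}

theorem pvgy_star_sub {G : Set D} (hG : T.FaceSet G) (A : Set V) : T.Star A ⊆ G ↔ A ⊆ T.Int G := by
  constructor
  · intro h v hv d hd
    exact h (Or.inl (hd ▸ hv))
  · rintro h d (hd | hd | hd)
    · exact h hd d rfl
    · exact (hG d).1 (h hd (T.nxt d) rfl)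
    · exact (hG d).1 ((hG _).1 (h hd (T.nxt (T.nxt d)) rfl))

/-- a circuit lies between the two stars iff `A` is strictly inside and `B` strictly outside -/
theorem pvgy_between (hT : T.IsSph) (c : T.Cyc) (A B : Set V) :
    (T.Star A ⊆ c.Left ∧ c.Left ⊆ (T.Star B)ᶜ) ↔ (A ⊆ T.Int c.Left ∧ B ⊆ T.Int c.Right) := by
  rw [pvgy_star_sub (pl_left_face c), ← pvgy_star_sub (pl_right_face c) B, (pl_jordan hT c).1, subset_compl_comm]

/-- **the frame of two connected vertex sets** -/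
theorem pvgy_frame (hT : T.IsSph) {A B : Set V} (hA : ∀ a ∈ A, ∀ b ∈ A, ReflTransGen (fun u v => T.Adj u v ∧ v ∈ A) a b)
    (hB : ∀ a ∈ B, ∀ b ∈ B, ReflTransGen (fun u v => T.Adj u v ∧ v ∈ B) a b) (hne : (T.Star A).Nonempty) (hdis : Disjoint (T.Star A) (T.Star B))
    (hfin : (T.Star B)ᶜ.Finite) {o : D} (ho : o ∈ T.Star B) : PvgnFr T (T.Star A) (T.Star B)ᶜ o where
  faceI := pl_star_face A
  faceO := (pl_star_face B).compl
  sub := fun _ hd hd' => disjoint_left.1 hdis hd hd'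
  ne := hne
  connI := pl_star_conn hT hA
  fin := hfin
  far := fun h => h ho
  connO := fun b hb => by
    have : {d | T.Bd (T.Star B)ᶜ d} = {d | T.Bd (T.Star B) d} := by ext d; exact T.bd_compl
    rw [this]
    exact pl_star_conn hT hB o ho b (not_not.1 hb)

/-- no face touches both sets as soon as no vertex is in both and no edge joins them -/
theorem pvgy_star_disj {A B : Set V} (h0 : Disjoint A B) (h1 : ∀ u v, T.Adj u v → u ∈ A → v ∉ B) : Disjoint (T.Star A) (T.Star B) := by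
  rw [disjoint_left]
  intro d hA hB
  obtain ⟨x, hx, hxA⟩ : ∃ x, (x = T.src d ∨ x = T.tgt d ∨ x = T.apex d) ∧ x ∈ A := by
    rcases hA with h | h | h
    exacts [⟨_, Or.inl rfl, h⟩, ⟨_, Or.inr (Or.inl rfl), h⟩, ⟨_, Or.inr (Or.inr rfl), h⟩]
  obtain ⟨y, hy, hyB⟩ : ∃ y, (y = T.src d ∨ y = T.tgt d ∨ y = T.apex d) ∧ y ∈ B := by
    rcases hB with h | h | h
    exacts [⟨_, Or.inl rfl, h⟩, ⟨_, Or.inr (Or.inl rfl), h⟩, ⟨_, Or.inr (Or.inr rfl), h⟩]
  have hne : x ≠ y := fun e => disjoint_left.1 h0 hxA (e ▸ hyB)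
  obtain ⟨e, e1, e2, -⟩ := pl_face_adj hx hy hne
  exact h1 x y ⟨e, e1, e2⟩ hxA hyB

/-- the circuit gates of helper3 are face-set gates of the frame -/
theorem pvgy_of_lt (hT : T.IsSph) {s : V → Bool} {K N O : Set V} {c : T.Cyc} (h : PvltG T s K N O c) : PvgnG T s (T.Star K) (T.Star O)ᶜ c.Left := by
  obtain ⟨h1, h2⟩ := (pvgy_between hT c K O).2 ⟨h.core, h.out⟩
  have hfin : c.verts.Finite := by
    have : c.verts = T.src '' c.darts := by
      ext v
      constructor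
      · rintro ⟨i, rfl⟩; exact ⟨_, ⟨i, rfl⟩, rfl⟩
      · rintro ⟨_, ⟨i, rfl⟩, rfl⟩; exact ⟨i, rfl⟩
    rw [this]
    exact (pl_cyc_darts_finite c).image _
  refine ⟨pl_left_face c, h1, h2, ?_, ?_⟩
  · have hX : pvgnX T s c.Left = c.verts ∩ {v | s v = true} := by
      unfold pvgnX
      rw [pvgn_bdV_left hT c]
      rfl
    rw [hX, ← (hfin.inter_of_left _).cast_ncard_eq]
    exact_mod_cast h.two
  · intro d hd
    rcases ((pl_jordan hT c).2.2.2 d).1 hd with hd' | hd'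
    · exact h.nadj d hd'
    · have := h.nadj _ hd'
      rw [T.src_opp', T.tgt_opp] at this
      exact fun e => this e.symm

end frame

/-- **the frame of the annulus `ra ≤ |v - z| < rb` in the plane Delaunay map**;   `hsep`: no edge jumps over the annulus -/
theorem pvgy_del_frame (h : DelGood Y) {ra rb : ℝ} (hab : ra ≤ rb) (hsep : ∀ u v : Y, (delMap h).Adj u v → ‖(u : ℂ) - z‖ < ra → ‖(v : ℂ) - z‖ < rb)
    {d₀ o : DelDart h} (hd₀ : ‖((delMap h).src d₀ : ℂ) - z‖ < ra) (ho : rb ≤ ‖((delMap h).src o : ℂ) - z‖) :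
    PvgnFr (delMap h) ((delMap h).Star {v : Y | ‖(v : ℂ) - z‖ < ra}) ((delMap h).Star {v : Y | rb ≤ ‖(v : ℂ) - z‖})ᶜ o := by
  refine pvgy_frame (dls_isSph h) (fun _ hu _ hv => pvgy_map_disc h hu hv) (fun _ hu _ hv => pvgy_map_codisc h hu hv) ⟨d₀, Or.inl hd₀⟩ ?_ ?_ (Or.inl ho)
  · refine pvgy_star_disj (disjoint_left.2 fun v (h1 : ‖(v : ℂ) - z‖ < ra) (h2 : rb ≤ ‖(v : ℂ) - z‖) => ?_) fun u v huv hu hv => ?_
    · linarith
    · exact absurd (hsep u v huv hu) (not_lt.2 hv)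
  · have hfin : {v : Y | ‖(v : ℂ) - z‖ < rb}.Finite := by
      refine ((pvgy_ball_finite h.lf z rb).preimage Subtype.val_injective.injOn).subset fun v (hv : ‖(v : ℂ) - z‖ < rb) => ⟨v.2, ?_⟩
      rw [mem_closedBall, dist_eq_norm]
      exact hv.le
    refine (pl_star_finite (dls_isSph h) hfin).subset fun d hd => Or.inl ?_
    by_contra hn
    have h1 : rb ≤ ‖((delMap h).src d : ℂ) - z‖ := not_lt.1 hn
    exact hd (Or.inl h1)

/-- a black cycle through a vertex of `A` and a vertex of `B` passes through the frame of the two stars -/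
theorem pvgy_thru {V D : Type} {T : PvMap V D} {s : V → Bool} {A B : Set V} {γ : T.Cyc} (hb : ∀ k, s (T.src (γ.e k)) = true) {i j : ℕ}
    (hi : T.src (γ.e i) ∈ A) (hj : T.src (γ.e j) ∈ B) : PvgnThru T s (T.Star A) (T.Star B)ᶜ γ :=
  ⟨hb, ⟨i, (pvgy_star_sub (pl_star_face A) A).1 le_rfl hi⟩, ⟨j, by rw [compl_compl]; exact (pvgy_star_sub (pl_star_face B) B).1 le_rfl hj⟩⟩

/-- **THE INNERMOST GATE IN THE PLANE DELAUNAY MAP**: one gate `g₀` round `B(z, ra)` inside `B(z, rb)`, a black cycle from `B(z, ra)` to the outside of `B(z, rb)`: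
the RULE `pvgnHull` is the inside of a gate, which lies inside every such gate;   the rule reads the colours of the sites of `B(z, rb)` only -/
theorem pvgy_del_gate (h : DelGood Y) {ra rb : ℝ} (hab : ra ≤ rb) (hsep : ∀ u v : Y, (delMap h).Adj u v → ‖(u : ℂ) - z‖ < ra → ‖(v : ℂ) - z‖ < rb)
    {o : DelDart h} (ho : rb ≤ ‖((delMap h).src o : ℂ) - z‖) {s : Y → Bool} (g₀ : (delMap h).Gate s)
    (h1 : {v : Y | ‖(v : ℂ) - z‖ < ra} ⊆ (delMap h).Int g₀.c.Left) (h2 : {v : Y | rb ≤ ‖(v : ℂ) - z‖} ⊆ (delMap h).Int g₀.c.Right)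
    {γ : (delMap h).Cyc} (hb : ∀ k, s ((delMap h).src (γ.e k)) = true) {i j : ℕ} (hi : ‖((delMap h).src (γ.e i) : ℂ) - z‖ < ra)
    (hj : rb ≤ ‖((delMap h).src (γ.e j) : ℂ) - z‖) :
    ∃ g : (delMap h).Gate s,
      g.c.Left = pvgnHull (delMap h) s ((delMap h).Star {v : Y | ‖(v : ℂ) - z‖ < ra}) ((delMap h).Star {v : Y | rb ≤ ‖(v : ℂ) - z‖})ᶜ o ∧
      {v : Y | ‖(v : ℂ) - z‖ < ra} ⊆ (delMap h).Int g.c.Left ∧ {v : Y | rb ≤ ‖(v : ℂ) - z‖} ⊆ (delMap h).Int g.c.Right ∧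
      ∀ g' : (delMap h).Gate s, {v : Y | ‖(v : ℂ) - z‖ < ra} ⊆ (delMap h).Int g'.c.Left → {v : Y | rb ≤ ‖(v : ℂ) - z‖} ⊆ (delMap h).Int g'.c.Right →
        g.c.Left ⊆ g'.c.Left := by
  have hT := dls_isSph h
  have hF := pvgy_del_frame h hab hsep (d₀ := γ.e i) hi ho
  obtain ⟨e1, e2⟩ := (pvgy_between hT g₀.c _ _).2 ⟨h1, h2⟩
  obtain ⟨g, g1, g2, g3, -⟩ := pvgn_gate hT (dls_simple h) hF ⟨_, pvgn_of_gate hT g₀ e1 e2⟩ (pvgy_thru hb (A := {v : Y | ‖(v : ℂ) - z‖ < ra}) hi hj)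
  obtain ⟨g4, g5⟩ := (pvgy_between hT g.c _ _).1 ⟨g2, g3⟩
  refine ⟨g, g1, g4, g5, fun g' k1 k2 => ?_⟩
  obtain ⟨k3, k4⟩ := (pvgy_between hT g'.c _ _).2 ⟨k1, k2⟩
  rw [g1]
  exact pvgn_innermost hT hF g' k3 k4

/-- the vertices of the outer disc of the frame are the sites of the open ball `B(z, rb)`: the rule is read from their colours -/
theorem pvgy_del_congr (h : DelGood Y) {ra rb : ℝ} {o : DelDart h} {s s' : Y → Bool} (hs : ∀ v : Y, ‖(v : ℂ) - z‖ < rb → s' v = s v) :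
    pvgnHull (delMap h) s' ((delMap h).Star {v : Y | ‖(v : ℂ) - z‖ < ra}) ((delMap h).Star {v : Y | rb ≤ ‖(v : ℂ) - z‖})ᶜ o =
      pvgnHull (delMap h) s ((delMap h).Star {v : Y | ‖(v : ℂ) - z‖ < ra}) ((delMap h).Star {v : Y | rb ≤ ‖(v : ℂ) - z‖})ᶜ o := by
  refine pvgn_hull_congr fun v hv => hs v ?_
  obtain ⟨d, hd, rfl⟩ := hv
  by_contra hn
  have h1 : rb ≤ ‖((delMap h).src d : ℂ) - z‖ := not_lt.1 hn
  exact hd (Or.inl h1)

/-! ## 5. the two black sites of a circuit passed by a rim are not adjacent, unless the rim has a near return at the scale of the mesh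

The exits of A6 (`pvagd_gate`, `pl_gate`, `PvgGate`) give circuits with AT MOST TWO black sites; the gate of record (`T.Gate`, `PvwSt.Gate.left`, `PvltG.nadj`) asks a white site on both arcs.
This is NOT automatic (one black edge between the descent and the ascent of the rim, on its left).      The rim is given as a walk `f 0, …, f N` cut at a far vertex. -/

section nadj

variable {V D : Type} {T : PvMap V D} {s : V → Bool}

/-- a walk from the interior of a face set to the interior of its complement meets the boundary strictly in between -/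
theorem pvgy_hit (hT : T.IsSph) {A : Set D} (hA : T.FaceSet A) {f : ℕ → V} {a b : ℕ} (hab : a < b) (hadj : ∀ k, a ≤ k → k < b → T.Adj (f k) (f (k + 1)))
    (ha : f a ∈ T.Int A) (hb : f b ∈ T.Int Aᶜ) : ∃ k, a < k ∧ k < b ∧ f k ∈ T.BdV A := by
  by_contra hno
  push Not at hno
  have h1 : f b ∈ T.Int A := by
    refine pvgn_walk hT hA ha b hab.le hadj fun k hk hk' => ?_
    rcases Nat.lt_or_ge k b with h | h
    · exact hno k hk h
    · have : k = b := by omega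
      rw [this]
      exact pvgn_int_not_bdV' hA hb
  have h2 : T.Adj (f b) (f (b - 1)) := by
    have := hadj (b - 1) (by omega) (by omega)
    rw [show b - 1 + 1 = b by omega] at this
    exact T.adj_symm this
  exact pvgn_int_disj h2 h1 hb

/-- **passage of a cut rim through a circuit with at most two black sites** -/
theorem pvgy_pass (hT : T.IsSph) (c : T.Cyc) (h2 : (c.verts ∩ {v | s v = true}).ncard ≤ 2) {f : ℕ → V} {N i₀ : ℕ} (hadj : ∀ k, k < N → T.Adj (f k) (f (k + 1)))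
    (hb : ∀ k, k ≤ N → s (f k) = true) (hinj : ∀ k l, k < N → l < N → f k = f l → k = l) (h0 : f 0 ∈ T.Int c.Right) (hN : f N ∈ T.Int c.Right)
    (hi : i₀ ≤ N) (hp : f i₀ ∈ T.Int c.Left) :
    ∃ k k', 0 < k ∧ k < i₀ ∧ i₀ < k' ∧ k' < N ∧ f k ∈ c.verts ∧ f k' ∈ c.verts ∧ f k ≠ f k' ∧ pvgnX T s c.Left = {f k, f k'} := by
  have hJ := (pl_jordan hT c).1
  have hdis : ∀ v, v ∈ T.Int c.Left → v ∈ T.Int c.Right → False := fun v h1 h3 => disjoint_left.1 (pl_jordan_vert_disj hT c).2.2 h1 h3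
  have hi0 : 0 < i₀ := by
    rcases Nat.eq_zero_or_pos i₀ with h | h
    · rw [h] at hp; exact absurd h0 fun h3 => hdis _ hp h3
    · exact h
  have hiN : i₀ < N := by
    rcases Nat.lt_or_ge i₀ N with h | h
    · exact h
    · have : i₀ = N := by omega
      rw [this] at hp; exact absurd hN fun h3 => hdis _ hp h3
  obtain ⟨k, k0, k1, hk⟩ := pvgy_hit hT (pl_right_face c) hi0 (fun j _ hj => hadj j (by omega)) h0 (by rw [hJ, compl_compl]; exact hp)
  obtain ⟨k', l0, l1, hk'⟩ := pvgy_hit hT (pl_left_face c) hiN (fun j _ hj => hadj j hj) hp (by rw [← hJ]; exact hN)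
  rw [hJ, pvgn_bdV_compl, pvgn_bdV_left hT c] at hk
  rw [pvgn_bdV_left hT c] at hk'
  have hne : f k ≠ f k' := fun e => by have := hinj k k' (by omega) l1 e; omega
  refine ⟨k, k', k0, k1, l0, l1, hk, hk', hne, ?_⟩
  have hfin : c.verts.Finite := by
    have : c.verts = T.src '' c.darts := by
      ext v
      constructor
      · rintro ⟨i, rfl⟩; exact ⟨_, ⟨i, rfl⟩, rfl⟩
      · rintro ⟨_, ⟨i, rfl⟩, rfl⟩; exact ⟨i, rfl⟩
    rw [this]
    exact (pl_cyc_darts_finite c).image _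
  have hX : pvgnX T s c.Left = c.verts ∩ {v | s v = true} := by
    unfold pvgnX
    rw [pvgn_bdV_left hT c]
    rfl
  rw [hX]
  refine (Set.eq_of_subset_of_ncard_le ?_ ?_ (hfin.inter_of_left _)).symm
  · rintro v (rfl | rfl)
    · exact ⟨hk, hb k (by omega)⟩
    · exact ⟨hk', hb k' l1.le⟩
  · rw [Set.ncard_pair hne]
    exact h2

/-- a black-black dart of the circuit joins the two places of passage -/
theorem pvgy_bb_adj (c : T.Cyc) {x y : V} (hX : pvgnX T s c.Left = {x, y}) {d : D} (hd : T.Bd c.Left d) (h1 : s (T.src d) = true) (h2 : s (T.tgt d) = true) :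
    T.Adj x y := by
  have e1 : T.src d ∈ pvgnX T s c.Left := ⟨pvg_bdV_src hd, h1⟩
  have e2 : T.tgt d ∈ pvgnX T s c.Left := ⟨pvg_bdV_tgt hd, h2⟩
  rw [hX] at e1 e2
  have hne := T.tgt_ne_src d
  rcases e1 with e1 | e1 <;> rcases e2 with e2 | e2
  · exact absurd (e2.trans e1.symm) hne
  · exact ⟨d, e1, e2⟩
  · exact T.adj_symm ⟨d, e1, e2⟩
  · exact absurd (e2.trans e1.symm) hne

/-- **NO NEAR RETURN ⟹ GATE OF RECORD**: a circuit `c` with at most two black sites, all at distance `≥ A` from `z`; a black simple walk `f 0 … f N` with both ends strictly outside which visits, strictly inside, a vertex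
at distance `≤ ρ` from `z`; the edges at the vertices of `c` have length `≤ μ`; no near return `(μ, A - ρ)` of the walk.      Then `c` carries a gate with entry and exit in the direction of the walk. -/
theorem pvgy_gate_of_nr (hT : T.IsSph) (c : T.Cyc) (h2 : (c.verts ∩ {v | s v = true}).ncard ≤ 2) {f : ℕ → V} {N i₀ : ℕ} (hadj : ∀ k, k < N → T.Adj (f k) (f (k + 1)))
    (hb : ∀ k, k ≤ N → s (f k) = true) (hinj : ∀ k l, k < N → l < N → f k = f l → k = l) (h0 : f 0 ∈ T.Int c.Right) (hN : f N ∈ T.Int c.Right)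
    (hi : i₀ ≤ N) (hp : f i₀ ∈ T.Int c.Left) (pos : V → ℂ) {z : ℂ} {A ρ μ : ℝ} (hann : ∀ v ∈ c.verts, A ≤ ‖pos v - z‖) (hpz : ‖pos (f i₀) - z‖ ≤ ρ)
    (hmesh : ∀ u v, T.Adj u v → u ∈ c.verts → ‖pos v - pos u‖ ≤ μ)
    (hNR : ¬ ∃ k i k', k < i ∧ i < k' ∧ k' ≤ N ∧ ‖pos (f k') - pos (f k)‖ ≤ μ ∧ A - ρ ≤ ‖pos (f i) - pos (f k)‖) :
    ∃ (g : T.Gate s) (k k' : ℕ), g.c.Left = c.Left ∧ g.c.Right = c.Right ∧ g.c.darts = c.darts ∧ 0 < k ∧ k < i₀ ∧ i₀ < k' ∧ k' < N ∧ g.vm = f k ∧ g.vp = f k' := by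
  obtain ⟨k, k', k0, k1, l0, l1, hk, hk', hne, hX⟩ := pvgy_pass hT c h2 hadj hb hinj h0 hN hi hp
  have hfar : A - ρ ≤ ‖pos (f i₀) - pos (f k)‖ := by
    have e1 := hann _ hk
    have e2 : ‖pos (f k) - z‖ ≤ ‖pos (f i₀) - pos (f k)‖ + ‖pos (f i₀) - z‖ := by
      have := norm_sub_le (pos (f i₀) - z) (pos (f i₀) - pos (f k))
      rw [sub_sub_sub_cancel_left] at this
      linarith
    linarith
  obtain ⟨g, g1, g2, g3, g4, g5⟩ := pvgn_gate_of_cyc hT c hne hX fun d hd hbb =>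
    hNR ⟨k, i₀, k', k1, l0, l1.le, hmesh _ _ (pvgy_bb_adj c hX hd hbb.1 hbb.2) hk, hfar⟩
  exact ⟨g, k, k', g1, g2, g3, k0, k1, l0, l1, g4, g5⟩

end nadj

/-- the hypothesis `hNR` of `pvgy_gate_of_nr` from the near returns of record of an encoded rim -/
theorem pvgy_nr_of_rim {V : Type} (P : PvbRim) {f : ℕ → V} {pos : V → ℂ} (hv : ∀ k, k ≤ P.len → P.v k = pos (f k)) {μ S A ρ : ℝ} (hμ : 0 ≤ μ) (hS : S < A - ρ)
    (h : ∀ k, k ≤ P.len → ¬ PvbNearRet P (P.v k) μ S) :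
    ¬ ∃ k i k', k < i ∧ i < k' ∧ k' ≤ P.len ∧ ‖pos (f k') - pos (f k)‖ ≤ μ ∧ A - ρ ≤ ‖pos (f i) - pos (f k)‖ := by
  rintro ⟨k, i, k', h1, h2, h3, h4, h5⟩
  refine h k (by omega) ⟨k, i, k', h1, h2, h3, by rw [sub_self, norm_zero]; exact hμ, ?_, ?_⟩
  · rw [hv k' h3, hv k (by omega)]; exact h4
  · rw [hv i (by omega), hv k (by omega)]; exact lt_of_lt_of_le hS h5

/-! ## 6. AT THE MODEL: the TOTAL plane map `(delbPl Y).toMap`      (`pvxT ω` of `Defs/TrModel` is `(delbPl (pvxY ω)).toMap`, `pvxPos ω = Subtype.val`: the statements below apply verbatim with `Y := pvxY ω`) -/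

section model

variable {ra rb : ℝ}

theorem pvgy_m_simple (Y : Set ℂ) : (delbPl Y).toMap.Simple := (delbPl Y).toMap_simple

theorem pvgy_m_disc (h : DelGood Y) {u v : Y} (hu : ‖(u : ℂ) - z‖ < r) (hv : ‖(v : ℂ) - z‖ < r) :
    ReflTransGen (fun x y : Y => (delbPl Y).toMap.Adj x y ∧ ‖(y : ℂ) - z‖ < r) u v := by
  rw [delb_pl_eq h]; exact pvgy_map_disc h hu hv

theorem pvgy_m_disc_le (h : DelGood Y) {u v : Y} (hu : ‖(u : ℂ) - z‖ ≤ r) (hv : ‖(v : ℂ) - z‖ ≤ r) :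
    ReflTransGen (fun x y : Y => (delbPl Y).toMap.Adj x y ∧ ‖(y : ℂ) - z‖ ≤ r) u v := by
  rw [delb_pl_eq h]; exact pvgy_map_disc_le h hu hv

theorem pvgy_m_codisc (h : DelGood Y) {u v : Y} (hu : r ≤ ‖(u : ℂ) - z‖) (hv : r ≤ ‖(v : ℂ) - z‖) :
    ReflTransGen (fun x y : Y => (delbPl Y).toMap.Adj x y ∧ r ≤ ‖(y : ℂ) - z‖) u v := by
  rw [delb_pl_eq h]; exact pvgy_map_codisc h hu hv

/-- `PvltOff` at the model -/
theorem pvgy_m_off (h : DelGood Y) {N : Set Y} (hN : ∀ v ∈ N, r ≤ ‖(v : ℂ) - z‖) : PvltOff (delbPl Y).toMap {v : Y | ‖(v : ℂ) - z‖ < r} N :=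
  fun _ hx _ hy => ReflTransGen.mono (fun _ b hab => ⟨hab.1, fun hb => absurd hab.2 (not_lt.2 (hN b hb))⟩) _ _ (pvgy_m_disc h hx hy)

/-- the frame at the model -/
theorem pvgy_m_frame (h : DelGood Y) (hab : ra ≤ rb) (hsep : ∀ u v : Y, (delbPl Y).toMap.Adj u v → ‖(u : ℂ) - z‖ < ra → ‖(v : ℂ) - z‖ < rb)
    {d₀ o : (delbPl Y).Dart} (hd₀ : ‖((delbPl Y).toMap.src d₀ : ℂ) - z‖ < ra) (ho : rb ≤ ‖((delbPl Y).toMap.src o : ℂ) - z‖) :
    PvgnFr (delbPl Y).toMap ((delbPl Y).toMap.Star {v : Y | ‖(v : ℂ) - z‖ < ra}) ((delbPl Y).toMap.Star {v : Y | rb ≤ ‖(v : ℂ) - z‖})ᶜ o := by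
  have hT := delb_plane_isSph h
  refine pvgy_frame hT (fun _ hu _ hv => pvgy_m_disc h hu hv) (fun _ hu _ hv => pvgy_m_codisc h hu hv) ⟨d₀, Or.inl hd₀⟩ ?_ ?_ (Or.inl ho)
  · refine pvgy_star_disj (disjoint_left.2 fun v (h1 : ‖(v : ℂ) - z‖ < ra) (h2 : rb ≤ ‖(v : ℂ) - z‖) => ?_) fun u v huv hu hv => ?_
    · linarith
    · exact absurd (hsep u v huv hu) (not_lt.2 hv)
  · have hfin : {v : Y | ‖(v : ℂ) - z‖ < rb}.Finite := by
      refine ((pvgy_ball_finite h.lf z rb).preimage Subtype.val_injective.injOn).subset fun v (hv : ‖(v : ℂ) - z‖ < rb) => ⟨v.2, ?_⟩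
      rw [mem_closedBall, dist_eq_norm]
      exact hv.le
    refine (pl_star_finite hT hfin).subset fun d hd => Or.inl ?_
    by_contra hn
    have h1 : rb ≤ ‖((delbPl Y).toMap.src d : ℂ) - z‖ := not_lt.1 hn
    exact hd (Or.inl h1)

/-- **the innermost gate at the model** -/
theorem pvgy_m_gate (h : DelGood Y) (hab : ra ≤ rb) (hsep : ∀ u v : Y, (delbPl Y).toMap.Adj u v → ‖(u : ℂ) - z‖ < ra → ‖(v : ℂ) - z‖ < rb)
    {o : (delbPl Y).Dart} (ho : rb ≤ ‖((delbPl Y).toMap.src o : ℂ) - z‖) {s : Y → Bool} (g₀ : (delbPl Y).toMap.Gate s)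
    (h1 : {v : Y | ‖(v : ℂ) - z‖ < ra} ⊆ (delbPl Y).toMap.Int g₀.c.Left) (h2 : {v : Y | rb ≤ ‖(v : ℂ) - z‖} ⊆ (delbPl Y).toMap.Int g₀.c.Right)
    {γ : (delbPl Y).toMap.Cyc} (hb : ∀ k, s ((delbPl Y).toMap.src (γ.e k)) = true) {i j : ℕ} (hi : ‖((delbPl Y).toMap.src (γ.e i) : ℂ) - z‖ < ra)
    (hj : rb ≤ ‖((delbPl Y).toMap.src (γ.e j) : ℂ) - z‖) :
    ∃ g : (delbPl Y).toMap.Gate s,
      g.c.Left = pvgnHull (delbPl Y).toMap s ((delbPl Y).toMap.Star {v : Y | ‖(v : ℂ) - z‖ < ra}) ((delbPl Y).toMap.Star {v : Y | rb ≤ ‖(v : ℂ) - z‖})ᶜ o ∧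
      {v : Y | ‖(v : ℂ) - z‖ < ra} ⊆ (delbPl Y).toMap.Int g.c.Left ∧ {v : Y | rb ≤ ‖(v : ℂ) - z‖} ⊆ (delbPl Y).toMap.Int g.c.Right ∧
      ∀ g' : (delbPl Y).toMap.Gate s, {v : Y | ‖(v : ℂ) - z‖ < ra} ⊆ (delbPl Y).toMap.Int g'.c.Left → {v : Y | rb ≤ ‖(v : ℂ) - z‖} ⊆ (delbPl Y).toMap.Int g'.c.Right →
        g.c.Left ⊆ g'.c.Left := by
  have hT := delb_plane_isSph h
  have hF := pvgy_m_frame h hab hsep (d₀ := γ.e i) hi ho
  obtain ⟨e1, e2⟩ := (pvgy_between hT g₀.c _ _).2 ⟨h1, h2⟩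
  obtain ⟨g, g1, g2, g3, -⟩ := pvgn_gate hT (pvgy_m_simple Y) hF ⟨_, pvgn_of_gate hT g₀ e1 e2⟩ (pvgy_thru hb (A := {v : Y | ‖(v : ℂ) - z‖ < ra}) hi hj)
  obtain ⟨g4, g5⟩ := (pvgy_between hT g.c _ _).1 ⟨g2, g3⟩
  refine ⟨g, g1, g4, g5, fun g' k1 k2 => ?_⟩
  obtain ⟨k3, k4⟩ := (pvgy_between hT g'.c _ _).2 ⟨k1, k2⟩
  rw [g1]
  exact pvgn_innermost hT hF g' k3 k4

/-- the rule at the model reads the colours of the sites of `B(z, rb)` only (no hypothesis on `Y`) -/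
theorem pvgy_m_congr {o : (delbPl Y).Dart} {s s' : Y → Bool} (hs : ∀ v : Y, ‖(v : ℂ) - z‖ < rb → s' v = s v) :
    pvgnHull (delbPl Y).toMap s' ((delbPl Y).toMap.Star {v : Y | ‖(v : ℂ) - z‖ < ra}) ((delbPl Y).toMap.Star {v : Y | rb ≤ ‖(v : ℂ) - z‖})ᶜ o =
      pvgnHull (delbPl Y).toMap s ((delbPl Y).toMap.Star {v : Y | ‖(v : ℂ) - z‖ < ra}) ((delbPl Y).toMap.Star {v : Y | rb ≤ ‖(v : ℂ) - z‖})ᶜ o := by
  refine pvgn_hull_congr fun v hv => hs v ?_
  obtain ⟨d, hd, rfl⟩ := hv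
  by_contra hn
  have h1 : rb ≤ ‖((delbPl Y).toMap.src d : ℂ) - z‖ := not_lt.1 hn
  exact hd (Or.inl h1)

end model

end Claimed.Agent.R289
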