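import Claimed.Agent.R289.Pl.Jordan
import Claimed.Agent.R289.Pl.RimA
import Claimed.Agent.R289.Arm.Strand

/-!
# Row 289 (S0537, Cardy for Poisson-Voronoi), box TR, block T2, file Tr/Strand : STRAND CALCULUS (W1c)      (owner helper64; science helper118; prefix `pvt_s_`, defs `pvt…`)

`T : PvMap V D` sphere / plane (`IsSph`, `Simple`), `s : V → Bool` colouring, `true` = BLACK.   Wall step `ws` of the note W1_118 = `pvasStep` of `Arm/Strand` (positions = black-white darts, black bank on the left).

* `pvtW T l u v`        the list of darts `l` is a walk from `u` to `v`;       `pvtS T l u v` = simple path (all vertices distinct)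
* `pvtBk T s d₀ f`      `f` is a BANK DART of the wall of `d₀`: `opp f` is a tag (its triangle lies on the right of `f`) in a face of that wall
* `pvtLE T l`           LOOP ERASURE of a walk (structural recursion; every erased loop is a SIMPLE circuit)
* `pvtBank T s a n`     the BANK WALK of the strand `a, pvasStep a, …` (`n` steps): the darts `rot a_k` at the bank times `s (apex a_k) = true`

main statements
* `pvt_s_recog`, `pvt_s_recog_list`   RECOGNITION (SC2, no time order needed): a simple circuit of bank darts of one wall is a full label class.  Proof = `pl_jordan`.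
* `pvt_s_le_path`, `pvt_s_le_sub`, `pvt_s_keep`   loop erasure: simple path, sublist, a dart whose label class is not inside the walk is never erased
* `pvt_s_sat`           SATURATION / NON-CROSSING (SC1 (c), NT): a closed piece of the bank walk is a union of full label classes
* `pvt_s_close`, `pvt_s_close_sum`   CLOSING (CL): two strands whose banks meet at the two junctions only: `LE W₁ ++ LE W₂` is a full label class, `Q = J (LE W₁) + J (LE W₂)`
* `pvt_s_arc`           ACTUAL ARCS (SC1 (a)(d), CL-act): between two rim times the loop erasure of the bank walk is the arc of the rim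
* `pvt_s_bank_congr`    LOCALITY      (exchange of the colours, white banks: `pvt_sf_lab_not` in `Tr/StrandF`)
* `pvt_s_kept`, `pvt_s_le_iff`   CANONICAL FORM of the loop erasure of a walk of distinct bank darts: `g ∈ pvtLE T l ↔ g ∈ l` and the label class of `g` is not inside `l`
-/

set_option autoImplicit false
set_option linter.unusedSectionVars false
set_option linter.unusedVariables false

namespace Claimed.Agent.R289

open Relation

variable {V D : Type}

/-! ## 0. definitions -/

/-- the list of darts `l` is a walk from `u` to `v` -/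
def pvtW (T : PvMap V D) : List D → V → V → Prop
  | [], u, v => u = v
  | e :: l, u, v => T.src e = u ∧ pvtW T l (T.tgt e) v

/-- simple path: a walk with distinct vertices -/
def pvtS (T : PvMap V D) (l : List D) (u v : V) : Prop := pvtW T l u v ∧ (u :: l.map T.tgt).Nodup

/-- bank dart of the wall of `d₀` -/
def pvtBk (T : PvMap V D) (s : V → Bool) (d₀ f : D) : Prop := T.Tag s (T.opp f) ∧ T.Wall s d₀ (T.opp f)

/-- the part of the path after its first dart with target `x` -/
def pvtAft [DecidableEq V] (T : PvMap V D) (x : V) : List D → List D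
  | [] => []
  | f :: p => if T.tgt f = x then p else pvtAft T x p

/-- loop erasure -/
def pvtLE [DecidableEq V] (T : PvMap V D) : List D → List D
  | [] => []
  | e :: l => if T.src e ∈ (pvtLE T l).map T.tgt then pvtAft T (T.src e) (pvtLE T l) else e :: pvtLE T l

/-- the bank walk of the strand from `a`, `n` steps -/
def pvtBank (T : PvMap V D) (s : V → Bool) : D → ℕ → List D
  | _, 0 => []
  | a, n + 1 => if s (T.apex a) = true then T.rot a :: pvtBank T s (pvasStep T s a) n else pvtBank T s (pvasStep T s a) n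

theorem pvt_s_eqns_cite : True := by
  have := @pvtW.eq_1; have := @pvtS.eq_1; have := @pvtBk.eq_1; have := @pvtAft.eq_1; have := @pvtLE.eq_1; have := @pvtBank.eq_1
  trivial

variable {T : PvMap V D} {s : V → Bool}

/-! ## 1. recognition for a cycle -/

/-- a wall does not cross a monochromatic cycle -/
theorem pvt_s_wall_djoin (c : T.Cyc) (hc : ∀ i, ¬ T.Occ s (c.e i)) {x y : D} (h : T.Wall s x y) : T.DJoin c.darts x y := by
  induction h with
  | refl => exact ReflTransGen.refl
  | @tail a b _ hstep ih =>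
    rcases hstep with hsf | ⟨ho, rfl⟩
    · exact ReflTransGen.trans ih (T.djoin_sf hsf)
    · refine ReflTransGen.tail ih (Or.inr ⟨rfl, ?_⟩)
      rintro (⟨i, hi⟩ | ⟨i, hi⟩)
      · exact hc i (by rw [hi]; exact ho)
      · exact hc i (by rw [hi]; exact pl_ra_occ_opp ho)

theorem pvt_s_tag_not_occ {f : D} (h : T.Tag s (T.opp f)) : ¬ T.Occ s f := by
  intro ho
  have h1 := h.1
  rw [T.src_opp', T.tgt_opp] at h1
  exact ho h1.symm

/-- **RECOGNITION**: a simple cycle of bank darts of one wall is a full label class -/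
theorem pvt_s_recog (hT : T.IsSph) (c : T.Cyc) (hc : ∀ i, T.Tag s (T.opp (c.e i)))
    (hw : ∀ i, T.Wall s (T.opp (c.e 0)) (T.opp (c.e i))) (d' : D) :
    T.SameLab s (T.opp (c.e 0)) d' ↔ ∃ i, d' = T.opp (c.e i) := by
  obtain ⟨hR, hL, hRo, hB⟩ := pl_jordan hT c
  have hno : ∀ i, ¬ T.Occ s (c.e i) := fun i => pvt_s_tag_not_occ (hc i)
  have hWL : ∀ x, T.Wall s (T.opp (c.e 0)) x → x ∉ c.Left := by
    intro x hx h
    have h1 : x ∈ c.Right := pvt_s_wall_djoin c hno hx
    rw [hR] at h1
    exact h1 h
  constructor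
  · rintro ⟨-, -, h3, h4⟩
    have inv : ∀ e, T.InComp s (T.opp (c.e 0)) e → e ∈ c.Left ∨ ∃ i, e = T.opp (c.e i) := by
      intro e he
      induction he with
      | refl => exact Or.inr ⟨0, rfl⟩
      | @tail a b _ hstep ih =>
        rcases hstep with rfl | ⟨hsf, hnw⟩
        · rcases ih with hl | ⟨i, rfl⟩
          · by_cases hE : T.Edg c.darts a
            · rcases hE with ⟨i, hi⟩ | ⟨i, hi⟩
              · exact Or.inr ⟨i, by rw [hi]⟩
              · exfalso
                have h1 : a ∈ c.Right := by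
                  have := hRo i
                  rwa [hi, T.opp_opp] at this
                rw [hR] at h1
                exact h1 hl
            · left
              have h1 : ¬ T.Bd c.Left a := fun h => hE ((hB a).1 h)
              unfold PvMap.Bd at h1
              exact (not_not.1 h1).1 hl
          · left
            rw [T.opp_opp]
            exact hL i
        · rcases ih with hl | ⟨i, rfl⟩
          · left
            exact ((pl_left_face c).sf T hsf).2 hl
          · exact absurd (hw i) hnw
    rcases inv d' h4 with hl | h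
    · exact absurd hl (hWL _ h3)
    · exact h
  · rintro ⟨i, rfl⟩
    refine ⟨hc 0, hc i, hw i, ?_⟩
    have h1 : ∀ x, T.DJoin c.darts (c.e 0) x → T.InComp s (T.opp (c.e 0)) x := by
      intro x hx
      induction hx with
      | refl => exact ReflTransGen.single (Or.inl (T.opp_opp _).symm)
      | @tail a b hab hstep ih =>
        rcases hstep with rfl | ⟨rfl, -⟩
        · exact ReflTransGen.tail ih (Or.inr ⟨T.sf_nxt a, fun h => hWL a h hab⟩)
        · exact ReflTransGen.tail ih (Or.inl rfl)
    exact ReflTransGen.tail (h1 _ (hL i)) (Or.inl rfl)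

/-- the same with any base dart -/
theorem pvt_s_recog' (hT : T.IsSph) (c : T.Cyc) (hc : ∀ i, T.Tag s (T.opp (c.e i)))
    (hw : ∀ i, T.Wall s (T.opp (c.e 0)) (T.opp (c.e i))) (j : ℕ) (d' : D) :
    T.SameLab s (T.opp (c.e j)) d' ↔ ∃ i, d' = T.opp (c.e i) := by
  have h0 : T.SameLab s (T.opp (c.e 0)) (T.opp (c.e j)) := (pvt_s_recog hT c hc hw _).2 ⟨j, rfl⟩
  rw [← pvt_s_recog hT c hc hw d']
  exact ⟨fun h => pl_ra_lab_trans h0 h, fun h => pl_ra_lab_trans (pl_ra_lab_symm h0) h⟩

/-! ## 2. walks -/

theorem pvt_s_w_nil {u v : V} : pvtW T [] u v ↔ u = v := Iff.rfl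

theorem pvt_s_w_cons {e : D} {l : List D} {u v : V} : pvtW T (e :: l) u v ↔ T.src e = u ∧ pvtW T l (T.tgt e) v := Iff.rfl

theorem pvt_s_w_append {l₁ l₂ : List D} {u v : V} : pvtW T (l₁ ++ l₂) u v ↔ ∃ w, pvtW T l₁ u w ∧ pvtW T l₂ w v := by
  induction l₁ generalizing u with
  | nil =>
    constructor
    · intro h
      exact ⟨u, rfl, h⟩
    · rintro ⟨w, rfl, h⟩
      exact h
  | cons e l ih =>
    rw [List.cons_append, pvt_s_w_cons, ih]
    constructor
    · rintro ⟨h1, w, h2, h3⟩
      exact ⟨w, ⟨h1, h2⟩, h3⟩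
    · rintro ⟨w, ⟨h1, h2⟩, h3⟩
      exact ⟨h1, w, h2, h3⟩

/-- the end of a walk is determined -/
theorem pvt_s_w_end {l : List D} {u v v' : V} (h : pvtW T l u v) (h' : pvtW T l u v') : v = v' := by
  induction l generalizing u with
  | nil => exact h.symm.trans h'
  | cons e l ih => exact ih h.2 h'.2

/-- sources and targets of a walk -/
theorem pvt_s_w_src {l : List D} {u v : V} (h : pvtW T l u v) : l.map T.src ++ [v] = u :: l.map T.tgt := by
  induction l generalizing u with
  | nil => rw [pvt_s_w_nil] at h; simp [h]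
  | cons e l ih =>
    rw [List.map_cons, List.map_cons, List.cons_append, ih h.2, h.1]

theorem pvt_s_w_end_mem {l : List D} {u v : V} (h : pvtW T l u v) : v ∈ u :: l.map T.tgt := by
  rw [← pvt_s_w_src h]
  simp

/-- a simple closed path is empty -/
theorem pvt_s_s_closed {l : List D} {u : V} (h : pvtS T l u u) : l = [] := by
  cases l with
  | nil => rfl
  | cons e l =>
    exfalso
    have h1 := pvt_s_w_end_mem h.1.2
    have h2 := h.2
    rw [List.map_cons] at h2
    exact (List.nodup_cons.1 h2).1 h1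

/-- the sources of a closed walk are a permutation of its targets -/
theorem pvt_s_w_perm {l : List D} {u : V} (h : pvtW T l u u) : (l.map T.src).Perm (l.map T.tgt) := by
  have h1 := pvt_s_w_src h
  have h2 : (u :: l.map T.src).Perm (l.map T.src ++ [u]) := (List.perm_append_singleton u _).symm
  rw [h1] at h2
  exact (List.perm_cons u).1 h2

theorem pvt_s_w_getD {l : List D} {u v : V} (h : pvtW T l u v) (a₀ : D) {i : ℕ} (hi : i + 1 < l.length) :
    T.tgt (l.getD i a₀) = T.src (l.getD (i + 1) a₀) := by
  induction l generalizing u i with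
  | nil => simp at hi
  | cons e l ih =>
    cases i with
    | zero =>
      cases l with
      | nil => simp at hi
      | cons e' l' => simpa using h.2.1.symm
    | succ i =>
      simp only [List.getD_cons_succ]
      exact ih h.2 (by simpa using hi)

theorem pvt_s_w_getD_zero {l : List D} {u v : V} (h : pvtW T l u v) (a₀ : D) (hl : 0 < l.length) : T.src (l.getD 0 a₀) = u := by
  cases l with
  | nil => simp at hl
  | cons e l => simpa using h.1

theorem pvt_s_w_getD_last {l : List D} {u v : V} (h : pvtW T l u v) (a₀ : D) {i : ℕ} (hl : i + 1 = l.length) : T.tgt (l.getD i a₀) = v := by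
  induction l generalizing u i with
  | nil => simp at hl
  | cons e l ih =>
    cases i with
    | zero =>
      cases l with
      | nil => simpa using pvt_s_w_nil.1 h.2
      | cons e' l' => simp at hl
    | succ i =>
      simp only [List.getD_cons_succ]
      exact ih h.2 (by simpa using hl)

/-- a simple circuit with at least three darts is a `Cyc` -/
theorem pvt_s_cyc {l : List D} {u : V} (hw : pvtW T l u u) (hn : (l.map T.src).Nodup) (h3 : 3 ≤ l.length) :
    ∃ c : T.Cyc, ∀ f, f ∈ l ↔ ∃ i, f = c.e i := by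
  obtain ⟨a₀, ha₀⟩ : ∃ a₀, a₀ ∈ l := List.exists_mem_of_length_pos (by omega)
  have hpos : 0 < l.length := by omega
  have hlt : ∀ i, i % l.length < l.length := fun i => Nat.mod_lt _ hpos
  refine ⟨⟨l.length, fun i => l.getD (i % l.length) a₀, h3, fun i => by simp, ?_, ?_⟩, ?_⟩
  · intro i
    show T.tgt (l.getD (i % l.length) a₀) = T.src (l.getD ((i + 1) % l.length) a₀)
    by_cases h : i % l.length + 1 < l.length
    · have h1 : (i + 1) % l.length = i % l.length + 1 := by
        rw [← Nat.mod_add_mod, Nat.mod_eq_of_lt h]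
      rw [h1]
      exact pvt_s_w_getD hw a₀ h
    · have h0 : i % l.length + 1 = l.length := by have := hlt i; omega
      have h1 : (i + 1) % l.length = 0 := by
        rw [← Nat.mod_add_mod, h0, Nat.mod_self]
      rw [h1, pvt_s_w_getD_zero hw a₀ hpos]
      exact pvt_s_w_getD_last hw a₀ h0
  · intro i j hi hj h
    have h' : T.src (l.getD (i % l.length) a₀) = T.src (l.getD (j % l.length) a₀) := h
    rw [Nat.mod_eq_of_lt hi, Nat.mod_eq_of_lt hj, List.getD_eq_getElem _ _ hi, List.getD_eq_getElem _ _ hj] at h'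
    have hi' : i < (l.map T.src).length := by simpa using hi
    have hj' : j < (l.map T.src).length := by simpa using hj
    have h2 : (l.map T.src)[i] = (l.map T.src)[j] := by simpa using h'
    exact (hn.getElem_inj_iff).1 h2
  · intro f
    show f ∈ l ↔ ∃ i, f = l.getD (i % l.length) a₀
    constructor
    · intro hf
      obtain ⟨i, hi, rfl⟩ := List.mem_iff_getElem.1 hf
      exact ⟨i, by rw [Nat.mod_eq_of_lt hi, List.getD_eq_getElem _ _ hi]⟩
    · rintro ⟨i, rfl⟩
      rw [List.getD_eq_getElem _ _ (hlt i)]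
      exact List.getElem_mem _

/-! ## 3. recognition for a list -/

theorem pvt_s_recog_pair (hS : T.Simple) {d₀ e e' : D} {u : V} (hw : pvtW T [e, e'] u u) (hb : ∀ f ∈ [e, e'], pvtBk T s d₀ f) (d' : D) :
    T.SameLab s (T.opp e) d' ↔ T.opp d' ∈ [e, e'] := by
  obtain ⟨h1, h2, h3⟩ := hw
  have h3' : T.tgt e' = u := h3
  have he' : e' = T.opp e := hS _ _ (by rw [h2, T.src_opp']) (by rw [h3', T.tgt_opp, h1])
  subst he'
  have hd := (hb e (by simp)).1
  have hC : T.Wall s (T.opp e) (T.opp (T.opp e)) := pl_ra_wall_trans (pl_ra_wall_symm (hb e (by simp)).2) (hb (T.opp e) (by simp)).2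
  rw [pl_ra_isolated hd hC d']
  simp only [List.mem_cons, List.not_mem_nil, or_false]
  constructor
  · rintro (rfl | rfl)
    · left; rw [T.opp_opp]
    · right; rw [T.opp_opp]
  · rintro (h | h)
    · left; rw [← h, T.opp_opp]
    · right; rw [← h, T.opp_opp]

/-- **RECOGNITION** for lists: a simple circuit of bank darts of one wall is a full label class (two darts = isolated open edge) -/
theorem pvt_s_recog_list (hT : T.IsSph) (hS : T.Simple) {d₀ : D} {l : List D} {u : V} (hw : pvtW T l u u) (hn : (l.map T.tgt).Nodup)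
    (hb : ∀ f ∈ l, pvtBk T s d₀ f) {g : D} (hg : g ∈ l) (d' : D) : T.SameLab s (T.opp g) d' ↔ T.opp d' ∈ l := by
  by_cases h3 : 3 ≤ l.length
  · obtain ⟨c, hcl⟩ := pvt_s_cyc hw ((pvt_s_w_perm hw).nodup_iff.2 hn) h3
    have hc : ∀ i, T.Tag s (T.opp (c.e i)) := fun i => (hb _ ((hcl _).2 ⟨i, rfl⟩)).1
    have hw' : ∀ i, T.Wall s (T.opp (c.e 0)) (T.opp (c.e i)) := fun i =>
      pl_ra_wall_trans (pl_ra_wall_symm (hb _ ((hcl _).2 ⟨0, rfl⟩)).2) (hb _ ((hcl _).2 ⟨i, rfl⟩)).2
    obtain ⟨j, rfl⟩ := (hcl g).1 hg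
    rw [pvt_s_recog' hT c hc hw' j d', hcl]
    constructor
    · rintro ⟨i, rfl⟩
      exact ⟨i, T.opp_opp _⟩
    · rintro ⟨i, hi⟩
      exact ⟨i, by rw [← hi, T.opp_opp]⟩
  · match l, hw, hb, hg, h3 with
    | [], _, _, hg, _ => simp at hg
    | [e], hw, _, _, _ =>
      exfalso
      have h2 : T.tgt e = u := hw.2
      exact T.tgt_ne_src e (h2.trans hw.1.symm)
    | [e, e'], hw, hb, hg, _ =>
      rcases List.mem_cons.1 hg with rfl | hg
      · exact pvt_s_recog_pair hS hw hb d'
      · rw [List.mem_singleton] at hg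
        subst hg
        have hw2 : pvtW T [g, e] (T.tgt e) (T.tgt e) := by
          obtain ⟨h1, h2, h3⟩ := hw
          have h3' : T.tgt g = u := h3
          exact ⟨h2, by rw [h3', h1], rfl⟩
        rw [pvt_s_recog_pair hS hw2 (fun f hf => hb f (by simp at hf ⊢; tauto)) d']
        simp only [List.mem_cons, List.not_mem_nil, or_false]
        tauto
    | _ :: _ :: _ :: _, _, _, _, h3 => simp at h3

/-! ## 4. loop erasure -/

section LE

variable [DecidableEq V]

theorem pvt_s_le_cons_pos {e : D} {l : List D} (h : T.src e ∈ (pvtLE T l).map T.tgt) : pvtLE T (e :: l) = pvtAft T (T.src e) (pvtLE T l) := by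
  simp only [pvtLE, if_pos h]

theorem pvt_s_le_cons_neg {e : D} {l : List D} (h : T.src e ∉ (pvtLE T l).map T.tgt) : pvtLE T (e :: l) = e :: pvtLE T l := by
  simp only [pvtLE, if_neg h]

theorem pvt_s_aft_split {x : V} {p : List D} (h : x ∈ p.map T.tgt) : ∃ p₁ f, p = p₁ ++ f :: pvtAft T x p ∧ T.tgt f = x := by
  induction p with
  | nil => simp at h
  | cons g p ih =>
    by_cases hg : T.tgt g = x
    · exact ⟨[], g, by simp [pvtAft, hg], hg⟩
    · have h' : x ∈ p.map T.tgt := by
        rw [List.map_cons, List.mem_cons] at h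
        rcases h with h | h
        · exact absurd h.symm hg
        · exact h
      obtain ⟨p₁, f, h1, h2⟩ := ih h'
      refine ⟨g :: p₁, f, ?_, h2⟩
      simp only [pvtAft, if_neg hg, List.cons_append]
      exact congrArg _ h1

theorem pvt_s_aft_suffix (x : V) (p : List D) : pvtAft T x p <:+ p := by
  induction p with
  | nil => exact List.suffix_refl _
  | cons g p ih =>
    by_cases hg : T.tgt g = x
    · simp only [pvtAft, if_pos hg]
      exact List.suffix_cons g p
    · simp only [pvtAft, if_neg hg]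
      exact ih.trans (List.suffix_cons g p)

/-- the loop erasure is a sublist: it keeps the (time) order -/
theorem pvt_s_le_sub (l : List D) : (pvtLE T l).Sublist l := by
  induction l with
  | nil => exact List.Sublist.refl _
  | cons e l ih =>
    by_cases hx : T.src e ∈ (pvtLE T l).map T.tgt
    · rw [pvt_s_le_cons_pos hx]
      exact ((pvt_s_aft_suffix _ _).sublist.trans ih).cons e
    · rw [pvt_s_le_cons_neg hx]
      exact ih.cons_cons e

/-- the loop erasure is a simple path with the same ends -/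
theorem pvt_s_le_path {l : List D} {u v : V} (h : pvtW T l u v) : pvtS T (pvtLE T l) u v := by
  induction l generalizing u with
  | nil => exact ⟨h, by simp [pvtLE]⟩
  | cons e l ih =>
    obtain ⟨h1, h2⟩ := h
    have ih' := ih h2
    by_cases hx : T.src e ∈ (pvtLE T l).map T.tgt
    · rw [pvt_s_le_cons_pos hx]
      obtain ⟨p₁, f, hp, hf⟩ := pvt_s_aft_split hx
      generalize pvtAft T (T.src e) (pvtLE T l) = q at hp ⊢
      generalize pvtLE T l = p at hp ih'
      subst hp
      obtain ⟨hw, hn⟩ := ih'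
      obtain ⟨w, -, -, hq⟩ := pvt_s_w_append.1 hw
      rw [hf, h1] at hq
      refine ⟨hq, ?_⟩
      rw [← h1, ← hf]
      have h3 : (T.tgt f :: q.map T.tgt).Sublist (T.tgt e :: (p₁ ++ f :: q).map T.tgt) := by
        rw [List.map_append, List.map_cons]
        exact (List.sublist_append_right _ _).cons _
      exact hn.sublist h3
    · rw [pvt_s_le_cons_neg hx]
      refine ⟨⟨h1, ih'.1⟩, ?_⟩
      rw [List.map_cons, List.nodup_cons]
      refine ⟨?_, ih'.2⟩
      rw [← h1, List.mem_cons]
      rintro (h | h)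
      · exact T.tgt_ne_src e h.symm
      · exact hx h

/-- **KEEP**: a bank dart whose label class is not inside the walk is never erased -/
theorem pvt_s_keep (hT : T.IsSph) (hS : T.Simple) {d₀ : D} {l : List D} {u v : V} (hw : pvtW T l u v) (hb : ∀ f ∈ l, pvtBk T s d₀ f)
    {g : D} (hg : g ∈ l) {d' : D} (hl : T.SameLab s (T.opp g) d') (hd' : T.opp d' ∉ l) : g ∈ pvtLE T l := by
  induction l generalizing u with
  | nil => simp at hg
  | cons e l ih =>
    obtain ⟨h1, h2⟩ := hw
    have hbl : ∀ f ∈ l, pvtBk T s d₀ f := fun f hf => hb f (List.mem_cons_of_mem _ hf)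
    have hd'l : T.opp d' ∉ l := fun h => hd' (List.mem_cons_of_mem _ h)
    have hP := pvt_s_le_path h2
    have hsub := (pvt_s_le_sub (T := T) l).subset
    have ih' := fun hgl => ih h2 hbl hgl hd'l
    by_cases hx : T.src e ∈ (pvtLE T l).map T.tgt
    · rw [pvt_s_le_cons_pos hx]
      obtain ⟨p₁, f, hp, hf⟩ := pvt_s_aft_split hx
      generalize pvtAft T (T.src e) (pvtLE T l) = q at hp ⊢
      generalize pvtLE T l = p at hp hP hsub ih'
      subst hp
      obtain ⟨hw, hn⟩ := hP
      obtain ⟨w, hw1, hw2, -⟩ := pvt_s_w_append.1 hw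
      have hC : pvtW T (e :: (p₁ ++ [f])) (T.src e) (T.src e) :=
        ⟨rfl, pvt_s_w_append.2 ⟨w, hw1, hw2, hf⟩⟩
      have hCn : ((e :: (p₁ ++ [f])).map T.tgt).Nodup := by
        refine hn.sublist ?_
        rw [List.map_cons]
        refine List.Sublist.cons_cons _ (List.Sublist.map _ ?_)
        exact List.Sublist.append (List.Sublist.refl _) (List.Sublist.cons_cons _ (List.nil_sublist _))
      have hCsub : ∀ x ∈ e :: (p₁ ++ [f]), x ∈ e :: l := by
        intro x hx
        rcases List.mem_cons.1 hx with rfl | hx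
        · exact List.mem_cons_self
        · refine List.mem_cons_of_mem _ (hsub ?_)
          rcases List.mem_append.1 hx with hx | hx
          · exact List.mem_append_left _ hx
          · rw [List.mem_singleton] at hx
            subst hx
            exact List.mem_append_right _ List.mem_cons_self
      have hgC : g ∉ e :: (p₁ ++ [f]) := fun hgC =>
        hd' (hCsub _ ((pvt_s_recog_list hT hS hC hCn (fun x hx => hb x (hCsub x hx)) hgC d').1 hl))
      have hgl : g ∈ l := by
        rcases List.mem_cons.1 hg with rfl | h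
        · exact absurd List.mem_cons_self hgC
        · exact h
      rcases List.mem_append.1 (ih' hgl) with h | h
      · exact absurd (List.mem_cons_of_mem _ (List.mem_append_left _ h)) hgC
      · rcases List.mem_cons.1 h with rfl | h
        · exact absurd (List.mem_cons_of_mem _ (List.mem_append_right _ List.mem_cons_self)) hgC
        · exact h
    · rw [pvt_s_le_cons_neg hx]
      rcases List.mem_cons.1 hg with rfl | h
      · exact List.mem_cons_self
      · exact List.mem_cons_of_mem _ (ih' h)

/-- **SATURATION** for lists: a closed walk of bank darts of one wall is a union of full label classes -/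
theorem pvt_s_sat_list (hT : T.IsSph) (hS : T.Simple) {d₀ : D} {l : List D} {u : V} (hw : pvtW T l u u) (hb : ∀ f ∈ l, pvtBk T s d₀ f)
    {g : D} (hg : g ∈ l) {d' : D} (hl : T.SameLab s (T.opp g) d') : T.opp d' ∈ l := by
  by_contra hd'
  have h1 := pvt_s_keep hT hS hw hb hg hl hd'
  rw [pvt_s_s_closed (pvt_s_le_path hw)] at h1
  simp at h1

end LE

/-! ## 5. the bank walk of a strand -/

theorem pvt_s_bank_zero (a : D) : pvtBank T s a 0 = [] := by simp only [pvtBank]

theorem pvt_s_bank_succ_black {a : D} (n : ℕ) (h : s (T.apex a) = true) : pvtBank T s a (n + 1) = T.rot a :: pvtBank T s (pvasStep T s a) n := by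
  simp only [pvtBank, if_pos h]

theorem pvt_s_bank_succ_white {a : D} (n : ℕ) (h : ¬ s (T.apex a) = true) : pvtBank T s a (n + 1) = pvtBank T s (pvasStep T s a) n := by
  simp only [pvtBank, if_neg h]

/-- the bank darts are the darts `rot a_k` at the bank times -/
theorem pvt_s_bank_mem {a : D} {n : ℕ} {f : D} :
    f ∈ pvtBank T s a n ↔ ∃ k, k < n ∧ s (T.apex (pvasIt T s a k)) = true ∧ f = T.rot (pvasIt T s a k) := by
  induction n generalizing a with
  | zero => simp [pvt_s_bank_zero]
  | succ n ih =>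
    have key : (∃ k, k < n ∧ s (T.apex (pvasIt T s (pvasStep T s a) k)) = true ∧ f = T.rot (pvasIt T s (pvasStep T s a) k)) ↔
        ∃ k, 0 < k ∧ k < n + 1 ∧ s (T.apex (pvasIt T s a k)) = true ∧ f = T.rot (pvasIt T s a k) := by
      constructor
      · rintro ⟨k, hk, h1, h2⟩
        exact ⟨k + 1, by omega, by omega, by rw [pvas_it_succ']; exact h1, by rw [pvas_it_succ']; exact h2⟩
      · rintro ⟨k, hk0, hk, h1, h2⟩
        obtain ⟨k, rfl⟩ : ∃ k', k = k' + 1 := ⟨k - 1, by omega⟩
        exact ⟨k, by omega, by rw [← pvas_it_succ']; exact h1, by rw [← pvas_it_succ']; exact h2⟩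
    by_cases h : s (T.apex a) = true
    · rw [pvt_s_bank_succ_black n h, List.mem_cons, ih, key]
      constructor
      · rintro (rfl | ⟨k, -, hk, h1, h2⟩)
        · exact ⟨0, by omega, h, rfl⟩
        · exact ⟨k, hk, h1, h2⟩
      · rintro ⟨k, hk, h1, h2⟩
        rcases Nat.eq_zero_or_pos k with rfl | hk0
        · exact Or.inl h2
        · exact Or.inr ⟨k, hk0, hk, h1, h2⟩
    · rw [pvt_s_bank_succ_white n h, ih, key]
      constructor
      · rintro ⟨k, -, hk, h1, h2⟩
        exact ⟨k, hk, h1, h2⟩
      · rintro ⟨k, hk, h1, h2⟩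
        rcases Nat.eq_zero_or_pos k with rfl | hk0
        · exact absurd h1 h
        · exact ⟨k, hk0, hk, h1, h2⟩

/-- composition of strands -/
theorem pvt_s_bank_add (a : D) (m n : ℕ) : pvtBank T s a (m + n) = pvtBank T s a m ++ pvtBank T s (pvasIt T s a m) n := by
  induction m generalizing a with
  | zero => simp [pvt_s_bank_zero, pvas_it_zero]
  | succ m ih =>
    have h1 : m + 1 + n = (m + n) + 1 := by omega
    rw [h1, pvas_it_succ']
    by_cases h : s (T.apex a) = true
    · rw [pvt_s_bank_succ_black _ h, pvt_s_bank_succ_black _ h, ih, List.cons_append]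
    · rw [pvt_s_bank_succ_white _ h, pvt_s_bank_succ_white _ h, ih]

/-- the bank darts form a walk -/
theorem pvt_s_bank_walk (a : D) (n : ℕ) : pvtW T (pvtBank T s a n) (T.src a) (T.src (pvasIt T s a n)) := by
  induction n generalizing a with
  | zero => rw [pvt_s_bank_zero]; exact rfl
  | succ n ih =>
    rw [pvas_it_succ']
    rcases pvas_step_ends s a with ⟨h, e, -⟩ | ⟨h, e, -⟩
    · rw [pvt_s_bank_succ_black _ h]
      refine ⟨T.src_rot a, ?_⟩
      rw [T.tgt_rot, ← e]
      exact ih _
    · rw [pvt_s_bank_succ_white _ (by rw [h]; exact Bool.false_ne_true), ← e]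
      exact ih _

theorem pvt_s_step_wall {a : D} (ha : pvasBW T s a) : T.Wall s a (pvasStep T s a) := by
  have h1 : T.SF a (T.opp (pvasStep T s a)) := pvas_step_sf s a
  have h2 : T.Occ s (T.opp (pvasStep T s a)) := pl_ra_occ_opp (pvas_bw_occ (pvas_step_bw ha))
  have h3 : T.Wall s a (T.opp (T.opp (pvasStep T s a))) := ReflTransGen.tail (pl_ra_wall_sf s h1) (Or.inr ⟨h2, rfl⟩)
  rwa [T.opp_opp] at h3

theorem pvt_s_it_wall {a : D} (ha : pvasBW T s a) (n : ℕ) : T.Wall s a (pvasIt T s a n) := by
  induction n with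
  | zero => exact pl_ra_wall_refl s a
  | succ n ih =>
    rw [pvas_it_succ]
    exact pl_ra_wall_trans ih (pvt_s_step_wall (pvas_it_bw ha n))

theorem pvt_s_opp_rot (b : D) : T.opp (T.rot b) = T.nxt (T.nxt b) := by
  unfold PvMap.rot
  rw [T.opp_opp]

/-- the darts of the bank walk are bank darts of the wall of the strand -/
theorem pvt_s_bank_bk {a : D} (ha : pvasBW T s a) {n : ℕ} {f : D} (hf : f ∈ pvtBank T s a n) : pvtBk T s a f := by
  obtain ⟨k, -, h1, rfl⟩ := pvt_s_bank_mem.1 hf
  have hk := pvas_it_bw ha k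
  have hwk := pvt_s_it_wall ha k
  generalize pvasIt T s a k = b at h1 hk hwk
  unfold pvtBk
  rw [pvt_s_opp_rot]
  refine ⟨⟨?_, ?_⟩, pl_ra_wall_nxt2.2 hwk⟩
  · rw [T.src_nxt2, T.tgt_nxt2, h1, hk.1]
  · rw [T.apex_nxt2, T.src_nxt2, h1, hk.2]
    exact Bool.false_ne_true

theorem pvt_s_rot_inj : Function.Injective T.rot := fun a b h => by
  have := congrArg T.rotInv h
  rwa [T.rotInv_rot, T.rotInv_rot] at this

theorem pvt_s_bank_nodup {a : D} {n : ℕ} (hinj : ∀ i j, i < n → j < n → pvasIt T s a i = pvasIt T s a j → i = j) : (pvtBank T s a n).Nodup := by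
  induction n generalizing a with
  | zero => simp [pvt_s_bank_zero]
  | succ n ih =>
    have hinj' : ∀ i j, i < n → j < n → pvasIt T s (pvasStep T s a) i = pvasIt T s (pvasStep T s a) j → i = j := by
      intro i j hi hj h
      rw [← pvas_it_succ', ← pvas_it_succ'] at h
      have := hinj (i + 1) (j + 1) (by omega) (by omega) h
      omega
    by_cases h : s (T.apex a) = true
    · rw [pvt_s_bank_succ_black _ h, List.nodup_cons]
      refine ⟨?_, ih hinj'⟩
      intro hm
      obtain ⟨k, hk, -, h2⟩ := pvt_s_bank_mem.1 hm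
      have h3 := pvt_s_rot_inj h2
      rw [← pvas_it_succ'] at h3
      have := hinj 0 (k + 1) (by omega) (by omega) h3
      omega
    · rw [pvt_s_bank_succ_white _ h]
      exact ih hinj'

theorem pvt_s_bank_src {a : D} {n : ℕ} {f : D} (hf : f ∈ pvtBank T s a n) : T.src f ∈ pvasLayB T s a n := by
  obtain ⟨k, hk, -, rfl⟩ := pvt_s_bank_mem.1 hf
  exact ⟨k, hk.le, (T.src_rot _).symm⟩

theorem pvt_s_bank_tgt {a : D} {n : ℕ} {f : D} (hf : f ∈ pvtBank T s a n) : T.tgt f ∈ pvasLayB T s a n := by
  obtain ⟨k, hk, h1, rfl⟩ := pvt_s_bank_mem.1 hf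
  refine ⟨k + 1, hk, ?_⟩
  rw [pvas_it_succ, T.tgt_rot]
  rcases pvas_step_ends s (pvasIt T s a k) with ⟨-, e, -⟩ | ⟨h, -, -⟩
  · exact e
  · rw [h1] at h
    exact absurd h.symm Bool.false_ne_true

/-- **LOCALITY**: the bank walk is a function of the colours of the two layers of the strand -/
theorem pvt_s_bank_congr {s s' : V → Bool} {a : D} {n : ℕ} (h : ∀ v, v ∈ pvasLayB T s a n ∨ v ∈ pvasLayW T s a n → s' v = s v) :
    pvtBank T s' a n = pvtBank T s a n := by
  induction n generalizing a with
  | zero => rw [pvt_s_bank_zero, pvt_s_bank_zero]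
  | succ n ih =>
    have h1 : s' (T.apex a) = s (T.apex a) := by
      apply h
      rcases pvas_step_ends s a with ⟨_, e, _⟩ | ⟨_, _, e⟩
      · exact Or.inl ⟨1, by omega, e⟩
      · exact Or.inr ⟨1, by omega, e⟩
    have h2 : pvasStep T s' a = pvasStep T s a := by
      unfold pvasStep
      rw [h1]
    have h3 : pvtBank T s' (pvasStep T s a) n = pvtBank T s (pvasStep T s a) n := by
      apply ih
      rintro v (⟨i, hi, hv⟩ | ⟨i, hi, hv⟩)
      · exact h v (Or.inl ⟨i + 1, by omega, by rw [pvas_it_succ']; exact hv⟩)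
      · exact h v (Or.inr ⟨i + 1, by omega, by rw [pvas_it_succ']; exact hv⟩)
    by_cases hb : s (T.apex a) = true
    · rw [pvt_s_bank_succ_black _ hb, pvt_s_bank_succ_black _ (h1.trans hb), h2, h3]
    · rw [pvt_s_bank_succ_white _ hb, pvt_s_bank_succ_white _ (by rw [h1]; exact hb), h2, h3]

/-! ## 6. saturation and closing -/

/-- **SATURATION / NON-CROSSING** (SC1 (c), NT): if the bank walk of a strand comes back to its first vertex, its darts are a union of full label classes -/
theorem pvt_s_sat (hT : T.IsSph) (hS : T.Simple) {a : D} (ha : pvasBW T s a) {m : ℕ} (hcl : T.src (pvasIt T s a m) = T.src a)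
    {f : D} (hf : f ∈ pvtBank T s a m) {d' : D} (h : T.SameLab s (T.opp f) d') : T.opp d' ∈ pvtBank T s a m := by
  classical
  have hw := pvt_s_bank_walk (T := T) (s := s) a m
  rw [hcl] at hw
  exact pvt_s_sat_list hT hS hw (fun g hg => pvt_s_bank_bk ha hg) hf h

/-- two simple paths which meet at their ends only form a simple circuit -/
theorem pvt_s_join {p₁ p₂ : List D} {u w : V} (h1 : pvtS T p₁ u w) (h2 : pvtS T p₂ w u)
    (hd : ∀ v, v ∈ p₁.map T.tgt → v ∈ p₂.map T.tgt → v = u ∨ v = w) : pvtW T (p₁ ++ p₂) u u ∧ ((p₁ ++ p₂).map T.tgt).Nodup := by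
  refine ⟨pvt_s_w_append.2 ⟨w, h1.1, h2.1⟩, ?_⟩
  rw [List.map_append, List.nodup_append]
  refine ⟨(List.nodup_cons.1 h1.2).2, (List.nodup_cons.1 h2.2).2, ?_⟩
  intro x hx y hy hxy
  subst hxy
  rcases hd x hx hy with rfl | rfl
  · exact (List.nodup_cons.1 h1.2).1 hx
  · exact (List.nodup_cons.1 h2.2).1 hy

/-- sum over a label class which is listed -/
theorem pvt_s_class_sum {M : Type*} [AddCommMonoid M] (F : D → M) {P : D → Prop} {l : List D} (hn : l.Nodup) (h : ∀ d', P d' ↔ T.opp d' ∈ l) :
    ∑ᶠ d' ∈ {d' | P d'}, F d' = (l.map (fun f => F (T.opp f))).sum := by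
  classical
  have h1 : {d' | P d'} = ↑((l.map T.opp).toFinset) := by
    ext d'
    simp only [Set.mem_ofPred_eq, List.coe_toFinset, List.mem_map]
    rw [h]
    constructor
    · intro hd
      exact ⟨_, hd, T.opp_opp _⟩
    · rintro ⟨f, hf, rfl⟩
      rwa [T.opp_opp]
  rw [h1, finsum_mem_coe_finset, List.sum_toFinset _ (hn.map T.opp_injective), List.map_map]
  rfl

section Close

variable [DecidableEq V]

/-- **CLOSING** (CL): the bank walk of a strand comes back to its first vertex after `m + n` steps, and the banks of the first `m` and of the last `n` steps meet at the two junctions only.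
Then `LE W₁ ++ LE W₂` is a full label class. -/
theorem pvt_s_close (hT : T.IsSph) (hS : T.Simple) {a : D} (ha : pvasBW T s a) {m n : ℕ} (hper : T.src (pvasIt T s a (m + n)) = T.src a)
    (hd : ∀ v, v ∈ pvasLayB T s a m → v ∈ pvasLayB T s (pvasIt T s a m) n → v = T.src a ∨ v = T.src (pvasIt T s a m)) :
    (pvtLE T (pvtBank T s a m) ++ pvtLE T (pvtBank T s (pvasIt T s a m) n)).Nodup ∧
    ∀ g ∈ pvtLE T (pvtBank T s a m) ++ pvtLE T (pvtBank T s (pvasIt T s a m) n), ∀ d',
      T.SameLab s (T.opp g) d' ↔ T.opp d' ∈ pvtLE T (pvtBank T s a m) ++ pvtLE T (pvtBank T s (pvasIt T s a m) n) := by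
  have hw1 := pvt_s_bank_walk (T := T) (s := s) a m
  have hw2 := pvt_s_bank_walk (T := T) (s := s) (pvasIt T s a m) n
  rw [← pvas_it_add, hper] at hw2
  have hs1 := (pvt_s_le_sub (T := T) (pvtBank T s a m)).subset
  have hs2 := (pvt_s_le_sub (T := T) (pvtBank T s (pvasIt T s a m) n)).subset
  obtain ⟨hC, hCn⟩ := pvt_s_join (pvt_s_le_path hw1) (pvt_s_le_path hw2) (by
    intro v hv1 hv2
    obtain ⟨f1, hf1, rfl⟩ := List.mem_map.1 hv1
    obtain ⟨f2, hf2, hf⟩ := List.mem_map.1 hv2
    exact hd _ (pvt_s_bank_tgt (hs1 hf1)) (by rw [← hf]; exact pvt_s_bank_tgt (hs2 hf2)))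
  refine ⟨List.Nodup.of_map _ hCn, fun g hg d' => pvt_s_recog_list hT hS (d₀ := a) hC hCn ?_ hg d'⟩
  intro f hf
  rcases List.mem_append.1 hf with hf | hf
  · exact pvt_s_bank_bk ha (hs1 hf)
  · have h1 := pvt_s_bank_bk (pvas_it_bw ha m) (hs2 hf)
    exact ⟨h1.1, pl_ra_wall_trans (pvt_s_it_wall ha m) h1.2⟩

/-- **CLOSING**, sums: `Q_{P'} = J (LE W₁) + J (LE W₂)` -/
theorem pvt_s_close_sum (hT : T.IsSph) (hS : T.Simple) {a : D} (ha : pvasBW T s a) {m n : ℕ} (hper : T.src (pvasIt T s a (m + n)) = T.src a)
    (hd : ∀ v, v ∈ pvasLayB T s a m → v ∈ pvasLayB T s (pvasIt T s a m) n → v = T.src a ∨ v = T.src (pvasIt T s a m))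
    {M : Type*} [AddCommMonoid M] (F : D → M) {g : D} (hg : g ∈ pvtLE T (pvtBank T s a m) ++ pvtLE T (pvtBank T s (pvasIt T s a m) n)) :
    ∑ᶠ d' ∈ {d' | T.SameLab s (T.opp g) d'}, F d' =
      ((pvtLE T (pvtBank T s a m)).map (fun f => F (T.opp f))).sum + ((pvtLE T (pvtBank T s (pvasIt T s a m) n)).map (fun f => F (T.opp f))).sum := by
  obtain ⟨h1, h2⟩ := pvt_s_close hT hS ha hper hd
  rw [pvt_s_class_sum F h1 (h2 g hg), List.map_append, List.sum_append]

end Close

/-! ## 7. actual arcs -/

theorem pvt_s_cyc_ne (c : T.Cyc) {k t : ℕ} (h1 : k < t) (h2 : t < k + c.n) : c.e t ≠ c.e k := by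
  intro h
  have h3 : k % c.n = t % c.n := (pl_cyc_src_inj c (congrArg T.src h)).symm
  have h4 : c.n ∣ t - k := (Nat.modEq_iff_dvd' h1.le).1 h3
  have h5 := Nat.le_of_dvd (by omega) h4
  omega

/-- an arc of a cycle is a walk -/
theorem pvt_s_cyc_walk (c : T.Cyc) (k r : ℕ) : pvtW T ((List.range' k r).map c.e) (T.src (c.e k)) (T.src (c.e (k + r))) := by
  induction r generalizing k with
  | zero => exact rfl
  | succ r ih =>
    rw [List.range'_succ, List.map_cons]
    refine ⟨rfl, ?_⟩
    rw [c.chain]
    have := ih (k + 1)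
    rwa [show k + 1 + r = k + (r + 1) by omega] at this

/-- a simple path which contains an arc of a cycle joining its two ends is this arc -/
theorem pvt_s_chainpath (c : T.Cyc) (r : ℕ) (hr : r ≤ c.n) (k : ℕ) (q : List D) (hq : pvtS T q (T.src (c.e k)) (T.src (c.e (k + r))))
    (hm : ∀ t, k ≤ t → t < k + r → c.e t ∈ q) : q = (List.range' k r).map c.e := by
  induction r generalizing k q with
  | zero => rw [pvt_s_s_closed hq]; rfl
  | succ r ih =>
    have hk := hm k le_rfl (by omega)
    cases q with
    | nil => simp at hk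
    | cons f q =>
      obtain ⟨⟨h1, h2⟩, h3⟩ := hq
      rw [List.map_cons] at h3
      have hf : f = c.e k := by
        rcases List.mem_cons.1 hk with h | h
        · exact h.symm
        · exfalso
          have h4 : T.src (c.e k) ∈ q.map T.src ++ [T.src (c.e (k + (r + 1)))] := List.mem_append_left _ (List.mem_map_of_mem h)
          rw [pvt_s_w_src h2] at h4
          exact (List.nodup_cons.1 h3).1 h4
      subst hf
      rw [List.range'_succ, List.map_cons]
      congr 1
      apply ih (by omega) (k + 1) q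
      · rw [← c.chain, show k + 1 + r = k + (r + 1) by omega]
        exact ⟨h2, (List.nodup_cons.1 h3).2⟩
      · intro t ht1 ht2
        rcases List.mem_cons.1 (hm t (by omega) (by omega)) with h | h
        · exact absurd h (pvt_s_cyc_ne c (by omega) (by omega))
        · exact h

/-- the position of the strand in the tag triangle of a black bank dart -/
theorem pvt_s_rim_bw {f : D} (hc : T.Tag s (T.opp f)) (hb : s (T.src f) = true) : pvasBW T s (T.rotInv f) := by
  obtain ⟨h1, h2⟩ := hc
  rw [T.src_opp', T.tgt_opp] at h1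
  rw [T.src_opp', h1, hb] at h2
  refine ⟨by rw [T.src_rotInv]; exact hb, ?_⟩
  unfold PvMap.rotInv
  rw [T.tgt_nxt]
  simpa using h2

section Arc

variable [DecidableEq V]

/-- **ACTUAL ARCS** (SC1 (a)(d), CL-act): `c` a black rim (a simple cycle of bank darts of one wall); the strand goes from the tag triangle of `c.e i` to the tag triangle of `c.e j` in less than a period.
Then the loop erasure of its bank walk is the arc `c.e i, …, c.e (j - 1)`. -/
theorem pvt_s_arc (hT : T.IsSph) (hS : T.Simple) (c : T.Cyc) (hc : ∀ i, T.Tag s (T.opp (c.e i)))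
    (hw : ∀ i, T.Wall s (T.opp (c.e 0)) (T.opp (c.e i))) (hb : ∀ i, s (T.src (c.e i)) = true) {i j m : ℕ} (hij : i < j) (hj : j < i + c.n)
    (hm : pvasIt T s (T.rotInv (c.e i)) m = T.rotInv (c.e j))
    (hmin : ∀ k, 0 < k → k ≤ m → pvasIt T s (T.rotInv (c.e i)) k ≠ T.rotInv (c.e i)) :
    pvtLE T (pvtBank T s (T.rotInv (c.e i)) m) = (List.range' i (j - i)).map c.e := by
  have ha : pvasBW T s (T.rotInv (c.e i)) := pvt_s_rim_bw (hc i) (hb i)
  have hn := pl_cyc_pos c
  -- the darts of the cycle are bank darts of the wall of the strand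
  have hbc : ∀ t, pvtBk T s (T.rotInv (c.e i)) (c.e t) := by
    intro t
    refine ⟨hc t, ?_⟩
    have h1 : T.Wall s (T.rotInv (c.e i)) (T.opp (c.e i)) := pl_ra_wall_symm (pl_ra_wall_sf s (T.sf_nxt _))
    exact pl_ra_wall_trans h1 (pl_ra_wall_trans (pl_ra_wall_symm (hw i)) (hw t))
  have hlab : ∀ t t', T.SameLab s (T.opp (c.e t)) (T.opp (c.e t')) := fun t t' => (pvt_s_recog' hT c hc hw t _).2 ⟨t', rfl⟩
  have hwl := pvt_s_bank_walk (T := T) (s := s) (T.rotInv (c.e i)) m
  rw [hm, T.src_rotInv, T.src_rotInv] at hwl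
  have hbl : ∀ f ∈ pvtBank T s (T.rotInv (c.e i)) m, pvtBk T s (T.rotInv (c.e i)) f := fun f hf => pvt_s_bank_bk ha hf
  generalize hl : pvtBank T s (T.rotInv (c.e i)) m = l at hwl hbl
  -- `c.e j` is not in the walk
  have hjl : c.e j ∉ l := by
    intro h
    rw [← hl] at h
    obtain ⟨k, hk, -, h2⟩ := pvt_s_bank_mem.1 h
    have h3 : pvasIt T s (T.rotInv (c.e i)) k = pvasIt T s (T.rotInv (c.e i)) m := by
      rw [hm, h2, T.rotInv_rot]
    exact hmin (m - k) (by omega) (by omega) (pvas_it_return ha hk.le h3)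
  -- the complementary arc without its last dart
  have hwr := pvt_s_cyc_walk c j (i + c.n - 1 - j)
  rw [show j + (i + c.n - 1 - j) = i + c.n - 1 by omega] at hwr
  have hwL : pvtW T (l ++ (List.range' j (i + c.n - 1 - j)).map c.e) (T.src (c.e i)) (T.src (c.e (i + c.n - 1))) := pvt_s_w_append.2 ⟨_, hwl, hwr⟩
  have hP := pvt_s_le_path hwL
  have hsub := (pvt_s_le_sub (T := T) (l ++ (List.range' j (i + c.n - 1 - j)).map c.e)).subset
  generalize pvtLE T (l ++ (List.range' j (i + c.n - 1 - j)).map c.e) = p at hP hsub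
  have hlast : T.tgt (c.e (i + c.n - 1)) = T.src (c.e i) := by
    rw [c.chain, show i + c.n - 1 + 1 = i + c.n by omega, c.per]
  have hC : pvtW T (p ++ [c.e (i + c.n - 1)]) (T.src (c.e i)) (T.src (c.e i)) := pvt_s_w_append.2 ⟨_, hP.1, rfl, hlast⟩
  have hCn : ((p ++ [c.e (i + c.n - 1)]).map T.tgt).Nodup := by
    rw [List.map_append, List.map_singleton, hlast]
    exact (List.perm_append_singleton _ _).nodup_iff.2 hP.2
  have hbC : ∀ f ∈ p ++ [c.e (i + c.n - 1)], pvtBk T s (T.rotInv (c.e i)) f := by
    intro f hf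
    rcases List.mem_append.1 hf with hf | hf
    · rcases List.mem_append.1 (hsub hf) with hf | hf
      · exact hbl f hf
      · obtain ⟨t, -, rfl⟩ := List.mem_map.1 hf
        exact hbc t
    · rw [List.mem_singleton] at hf
      subst hf
      exact hbc _
  have hrec := pvt_s_recog_list hT hS hC hCn hbC (g := c.e (i + c.n - 1)) (by simp)
  -- the arc lies in the walk
  have harc : ∀ k, i ≤ k → k < j → c.e k ∈ l := by
    intro k hk1 hk2
    have h1 := (hrec _).1 (hlab (i + c.n - 1) k)
    rw [T.opp_opp] at h1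
    rcases List.mem_append.1 h1 with h1 | h1
    · rcases List.mem_append.1 (hsub h1) with h1 | h1
      · exact h1
      · obtain ⟨t, ht, h2⟩ := List.mem_map.1 h1
        rw [List.mem_range'_1] at ht
        exact absurd h2 (pvt_s_cyc_ne c (by omega) (by omega))
    · rw [List.mem_singleton] at h1
      exact absurd h1.symm (pvt_s_cyc_ne c (by omega) (by omega))
  apply pvt_s_chainpath c (j - i) (by omega) i
  · rw [show i + (j - i) = j by omega]
    exact pvt_s_le_path hwl
  · intro t ht1 ht2
    refine pvt_s_keep hT hS hwl hbl (harc t ht1 (by omega)) (hlab t j) ?_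
    rw [T.opp_opp]
    exact hjl

end Arc

/-! ## 8. canonical form of the loop erasure -/

/-- every bank dart has a predecessor in its label class -/
theorem pvt_s_pred (hT : T.IsSph) {e : D} (hd : T.Tag s (T.opp e)) : ∃ e', T.SameLab s (T.opp e) (T.opp e') ∧ T.tgt e' = T.src e := by
  by_cases hC : T.Wall s (T.opp e) (T.opp (T.opp e))
  · exact ⟨T.opp e, (pl_ra_isolated hd hC _).2 (Or.inr rfl), T.tgt_opp e⟩
  · have hA := pl_ra_A_face (T := T) s (T.opp e)
    have h0 : e ∈ plRaA T s (T.opp e) ∧ T.opp e ∉ plRaA T s (T.opp e) := (pl_ra_A_lab_iff hd hC e).2 (pl_ra_lab_refl hd)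
    obtain ⟨e'', h1, h2, h3⟩ := pl_ra_succ_ex hT hA.compl (e := T.opp e) h0.2 (by rw [T.opp_opp]; exact fun h => h h0.1)
    refine ⟨T.opp e'', (pl_ra_A_lab_iff hd hC (T.opp e'')).1 ⟨not_not.1 h2, by rw [T.opp_opp]; exact h1⟩, ?_⟩
    rw [T.tgt_opp, h3, T.tgt_opp]

section Canon

variable [DecidableEq V]

/-- **KEPT**: the label class of a dart which survives the loop erasure is not inside the walk -/
theorem pvt_s_kept (hT : T.IsSph) (hS : T.Simple) {d₀ : D} {l : List D} {u v : V} (hw : pvtW T l u v) (hb : ∀ f ∈ l, pvtBk T s d₀ f) (hn : l.Nodup)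
    {g : D} (hg : g ∈ pvtLE T l) : ∃ d', T.SameLab s (T.opp g) d' ∧ T.opp d' ∉ l := by
  induction l generalizing u g with
  | nil => simp [pvtLE] at hg
  | cons e l ih =>
    obtain ⟨h1, h2⟩ := hw
    have hbl : ∀ f ∈ l, pvtBk T s d₀ f := fun f hf => hb f (List.mem_cons_of_mem _ hf)
    obtain ⟨hel, hnl⟩ := List.nodup_cons.1 hn
    have hsub := (pvt_s_le_sub (T := T) l).subset
    have hPn := (pvt_s_le_sub (T := T) l).nodup hnl
    have hP := pvt_s_le_path h2
    have ih' := fun {g : D} (hg : g ∈ pvtLE T l) => ih h2 hbl hnl hg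
    have hkeep := fun {g d' : D} (hg : g ∈ l) (hl : T.SameLab s (T.opp g) d') (hd' : T.opp d' ∉ l) => pvt_s_keep hT hS h2 hbl hg hl hd'
    by_cases hx : T.src e ∈ (pvtLE T l).map T.tgt
    · rw [pvt_s_le_cons_pos hx] at hg
      obtain ⟨p₁, f, hp, hf⟩ := pvt_s_aft_split hx
      generalize pvtAft T (T.src e) (pvtLE T l) = q at hp hg
      generalize pvtLE T l = p at hp hP hsub hPn ih'
      subst hp
      have hgp : g ∈ p₁ ++ f :: q := List.mem_append_right _ (List.mem_cons_of_mem _ hg)
      obtain ⟨d', hd1, hd2⟩ := ih' hgp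
      refine ⟨d', hd1, ?_⟩
      intro hmem
      rcases List.mem_cons.1 hmem with hmem | hmem
      · obtain ⟨hw', hn'⟩ := hP
        obtain ⟨w, hw1, hw2, -⟩ := pvt_s_w_append.1 hw'
        have hC : pvtW T (e :: (p₁ ++ [f])) (T.src e) (T.src e) := ⟨rfl, pvt_s_w_append.2 ⟨w, hw1, hw2, hf⟩⟩
        have hCn : ((e :: (p₁ ++ [f])).map T.tgt).Nodup := by
          refine hn'.sublist ?_
          rw [List.map_cons]
          refine List.Sublist.cons_cons _ (List.Sublist.map _ ?_)
          exact List.Sublist.append (List.Sublist.refl _) (List.Sublist.cons_cons _ (List.nil_sublist _))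
        have hCsub : ∀ x ∈ e :: (p₁ ++ [f]), x ∈ e :: l := by
          intro x hx
          rcases List.mem_cons.1 hx with rfl | hx
          · exact List.mem_cons_self
          · refine List.mem_cons_of_mem _ (hsub ?_)
            rcases List.mem_append.1 hx with hx | hx
            · exact List.mem_append_left _ hx
            · rw [List.mem_singleton] at hx
              subst hx
              exact List.mem_append_right _ List.mem_cons_self
        have hlab : T.SameLab s (T.opp e) (T.opp g) := by
          have h3 : d' = T.opp e := by rw [← hmem, T.opp_opp]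
          rw [h3] at hd1
          exact pl_ra_lab_symm hd1
        have hgC := (pvt_s_recog_list hT hS hC hCn (fun x hx => hb x (hCsub x hx)) List.mem_cons_self _).1 hlab
        rw [T.opp_opp] at hgC
        rcases List.mem_cons.1 hgC with rfl | hgC
        · exact hel (hsub hgp)
        · have hdis := (List.nodup_append.1 hPn).2.2
          have hfq := (List.nodup_cons.1 (List.nodup_append.1 hPn).2.1).1
          rcases List.mem_append.1 hgC with hgC | hgC
          · exact hdis g hgC g (List.mem_cons_of_mem _ hg) rfl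
          · rw [List.mem_singleton] at hgC
            subst hgC
            exact hfq hg
      · exact hd2 hmem
    · rw [pvt_s_le_cons_neg hx] at hg
      by_contra hcon
      push Not at hcon
      have hge : T.SameLab s (T.opp g) (T.opp e) := by
        rcases List.mem_cons.1 hg with rfl | hg
        · exact pl_ra_lab_refl (hb _ List.mem_cons_self).1
        · obtain ⟨d', hd1, hd2⟩ := ih' hg
          rcases List.mem_cons.1 (hcon d' hd1) with h | h
          · have h3 : d' = T.opp e := by rw [← h, T.opp_opp]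
            rwa [h3] at hd1
          · exact absurd h hd2
      obtain ⟨e', he1, he2⟩ := pvt_s_pred hT (hb e List.mem_cons_self).1
      have h3 := hcon _ (pl_ra_lab_trans hge he1)
      rw [T.opp_opp] at h3
      have he'l : e' ∈ l := by
        rcases List.mem_cons.1 h3 with rfl | h
        · exact absurd he2 (T.tgt_ne_src _)
        · exact h
      have h4 : e' ∈ pvtLE T l := hkeep he'l (pl_ra_lab_symm he1) (by rw [T.opp_opp]; exact hel)
      exact hx (by rw [← he2]; exact List.mem_map_of_mem h4)

/-- **CANONICAL FORM**: the loop erasure of a walk of distinct bank darts of one wall consists of the darts whose label class is not inside the walk -/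
theorem pvt_s_le_iff (hT : T.IsSph) (hS : T.Simple) {d₀ : D} {l : List D} {u v : V} (hw : pvtW T l u v) (hb : ∀ f ∈ l, pvtBk T s d₀ f) (hn : l.Nodup) (g : D) :
    g ∈ pvtLE T l ↔ g ∈ l ∧ ∃ d', T.SameLab s (T.opp g) d' ∧ T.opp d' ∉ l :=
  ⟨fun hg => ⟨(pvt_s_le_sub (T := T) l).subset hg, pvt_s_kept hT hS hw hb hn hg⟩, fun ⟨hg, d', h1, h2⟩ => pvt_s_keep hT hS hw hb hg h1 h2⟩

end Canon

end Claimed.Agent.R289
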