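-- KEEP
import Claimed.Agent.R289.Tr.Close
import Claimed.Agent.R289.Tr.Strand
import Claimed.Agent.R289.Tr.Defs
import Claimed.Agent.R289.Pl.Rim

/-!
# Row 289 (S0537, Cardy for Poisson-Voronoi), TR-blueprint chapter B, TR11-TR14, file Tr/OneWall : ASSEMBLY = ONE WALL, PIECES, RINGS      (head helper194; prefix `pvow_`, defs `pvow…`, `Pth.OnWall`, `Pth.lst`)

ROUTE OF RECORD of TR11-TR14 (ruling 2 of 194): FACED / ONE WALL.   Everything hard is in `Tr/Strand` (64: `pvt_s_recog`, `pvt_s_recog_list`, `pvt_s_class_sum`, `pvt_s_bank_bk`) and `Tr/Close` (202: `pvt_c_onewall`, `GFaced`, `psum`).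
This file is the CONSUMER FORM: all kinds of arcs enter ONE closing theorem.

* `p.OnWall s d₀`     PIECE: every right triangle `opp (p.e k)` of the path `p` is a tag in a face of the wall of `d₀`   (`pvtBk` of `Tr/Strand`)
* `p.lst`             the darts of `p` as a list;      `pvowChain T L u v`: the paths of the list `L` follow each other from `u` to `v`;      `pvowDarts L` all their darts
* sec.1  BRIDGES      `pvow_gfaced_onwall` (faced arcs), `pvow_bank_onwall`, `pvow_le_onwall` (loop erasure of the bank of a strand, list form and `PvwLE` form of `Tr/Defs`), `pvow_rim_onwall` (TR11: arcs of a rim), `pvow_onwall_trans`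
* sec.2  lists        `pvow_lst_walk`, `pvow_lst_sum`, `pvow_chain_walk`, `pvow_nodup`
* sec.3  **RING** = TR13 `pvow_ring`: a closed chain of pieces of ONE wall with pairwise distinct vertices is a full label class and `T.lsum s w` of it is the sum of the `psum w` of the pieces, for EVERY `w : D → ℂ`
         (masks live in `w`: TR14 = `pvow_ring_mask`);      TR12 = `pvow_ring_inj`: the label determines the darts
* sec.4  `pvow_isRim`: a cycle of tags of one wall is a rim in the sense of `Pl/Rim` (no finiteness hypothesis);      `pvow_ring_cyc`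
-/

set_option autoImplicit false

namespace Claimed.Agent.R289

open Relation

variable {V D : Type} {T : PvMap V D}

/-! ## 0. Definitions -/

/-- PIECE: every right triangle of `p` is a tag in a face of the wall of `d₀` -/
def PvMap.Pth.OnWall (p : T.Pth) (s : V → Bool) (d₀ : D) : Prop := ∀ k, k < p.n → pvtBk T s d₀ (p.e k)

/-- the darts of a path, as a list -/
def PvMap.Pth.lst (p : T.Pth) : List D := (List.range' 0 p.n).map p.e

/-- the paths of the list follow each other, from `u` to `v` -/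
def pvowChain (T : PvMap V D) : List T.Pth → V → V → Prop
  | [], u, v => u = v
  | p :: L, u, v => p.v 0 = u ∧ pvowChain T L (p.v p.n) v

/-- all the darts of a list of paths -/
def pvowDarts (L : List T.Pth) : List D := L.flatMap PvMap.Pth.lst

theorem pvow_eqns_cite : True := by
  have := @PvMap.Pth.OnWall.eq_1; have := @PvMap.Pth.lst.eq_1; have := @pvowChain.eq_1; have := @pvowDarts.eq_1
  trivial

/-! ## 1. Bridges: what is a piece -/

theorem pvow_onwall_trans {p : T.Pth} {s : V → Bool} {d₀ d₁ : D} (h : p.OnWall s d₀) (hw : T.Wall s d₁ d₀) : p.OnWall s d₁ :=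
  fun k hk => ⟨(h k hk).1, pl_ra_wall_trans hw (h k hk).2⟩

/-- the vertices of a monochromatic path are `Mono`-joined -/
theorem pvow_pth_mono {p : T.Pth} {s : V → Bool} (hc : ∀ i, i ≤ p.n → s (p.v i) = s (p.v 0)) (k : ℕ) (hk : k ≤ p.n) : T.Mono s (p.v 0) (p.v k) := by
  induction k with
  | zero => exact ReflTransGen.refl
  | succ k ih =>
    refine ReflTransGen.tail (ih (by omega)) ⟨⟨p.e k, p.src_e k (by omega), p.tgt_e k (by omega)⟩, ?_⟩
    rw [hc k (by omega), hc (k + 1) hk]

/-- **FACED ARCS ARE PIECES**: `d₀` = any occupied dart whose source is `Mono`-joined to the path and whose head is `Mono`-joined to the anchor -/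
theorem pvow_gfaced_onwall (hT : T.IsSph) {s : V → Bool} {p : T.Pth} {ρ : V} (hp : p.GFaced s ρ) {d₀ : D} (hd : T.Occ s d₀)
    (h1 : T.Mono s (T.src d₀) (p.v 0)) (h2 : T.Mono s (T.tgt d₀) ρ) : p.OnWall s d₀ := by
  have hc : ∀ i, i ≤ p.n → s (p.v i) = s (p.v 0) := fun i hi => pvt_c_bool (hp.1 i hi) (hp.1 0 (Nat.zero_le _))
  intro k hk
  have e1 : T.src (T.opp (p.e k)) = p.v (k + 1) := by rw [T.src_opp', p.tgt_e k hk]
  have e2 : T.tgt (T.opp (p.e k)) = p.v k := by rw [T.tgt_opp, p.src_e k hk]
  have hz : s (T.apex (T.opp (p.e k))) = s ρ := pvt_c_mono_col (hp.2 k hk)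
  refine ⟨⟨by rw [e1, e2, hc (k + 1) (by omega), hc k (by omega)], by rw [hz, e1]; exact (hp.1 _ (by omega)).symm⟩, ?_⟩
  have hW : T.Wall s d₀ (T.rot (T.opp (p.e k))) := by
    refine pvt_c_onewall hT s hd ?_ ?_
    · rw [T.src_rot, e1]
      exact h1.trans (pvow_pth_mono hc (k + 1) (by omega))
    · rw [T.tgt_rot]
      exact h2.trans (pvt_c_mono_symm (hp.2 k hk))
  have hocc : T.Occ s (T.rot (T.opp (p.e k))) := by
    unfold PvMap.Occ
    rw [T.src_rot, T.tgt_rot, hz, e1]
    exact hp.1 _ (by omega)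
  have h3 : T.Wall s (T.rot (T.opp (p.e k))) (T.nxt (T.nxt (T.opp (p.e k)))) :=
    ReflTransGen.single (Or.inr ⟨hocc, by unfold PvMap.rot; rw [T.opp_opp]⟩)
  exact pl_ra_wall_trans hW (pl_ra_wall_trans h3 (pl_ra_wall_sf s (T.sf_symm (T.sf_nxt2 _))))

/-- a path made of bank darts of a strand is a piece of the wall of the strand -/
theorem pvow_bank_onwall {s : V → Bool} {a : D} (ha : pvasBW T s a) {n : ℕ} {p : T.Pth} (h : ∀ k, k < p.n → p.e k ∈ pvtBank T s a n) : p.OnWall s a :=
  fun k hk => pvt_s_bank_bk ha (h k hk)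

/-- **THE LOOP ERASURE OF THE BANK OF A STRAND IS A PIECE** (`PvwLE` form of `Tr/Defs`) -/
theorem pvow_le_onwall (hS : T.Simple) {s : V → Bool} {a : D} (ha : pvasBW T s a) {n : ℕ} {p : T.Pth}
    (h : PvwLE T (fun i => T.src (pvasIt T s a i)) n p) : p.OnWall s a := by
  obtain ⟨j, -, hjn, hj, hj'⟩ := h
  refine pvow_bank_onwall ha (n := n) fun k hk => ?_
  obtain ⟨h1, h2, h3⟩ := hj k hk.le
  have h4 := hj' k hk
  simp only at h2 h4 h3
  have hlt : j k < n := by
    rcases Nat.lt_or_ge (j k) n with h | h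
    · exact h
    · exfalso
      have e : j k = j p.n := by omega
      have e2 : p.v k = p.v p.n := by rw [h2, (hj p.n le_rfl).2.1, e]
      have := p.inj _ _ hk.le le_rfl e2
      omega
  have hne : p.v (k + 1) ≠ p.v k := fun e => by
    have := p.inj _ _ (by omega) hk.le e
    omega
  rcases pvas_step_ends s (pvasIt T s a (j k)) with ⟨hb, e1, -⟩ | ⟨-, e1, -⟩
  · have e5 : p.e k = T.rot (pvasIt T s a (j k)) := by
      refine hS _ _ ?_ ?_
      · rw [p.src_e k hk, T.src_rot, h2]
      · rw [p.tgt_e k hk, T.tgt_rot, h4, pvas_it_succ, e1]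
    rw [e5]
    exact pvt_s_bank_mem.2 ⟨j k, hlt, hb, rfl⟩
  · exfalso
    apply hne
    rw [h4, h2, pvas_it_succ, e1]

/-- **TR11 (ACT), one wall form**: the arcs of a rim are pieces of its wall -/
theorem pvow_rim_onwall {c : T.Cyc} {s : V → Bool} (h : c.IsRim s) (i m : ℕ) : (c.pth i m).OnWall s (T.opp (c.e 0)) :=
  fun k _ => ⟨pl_rim_tag h (i + k), (pl_rim_lab h (i + k)).2.2.1⟩

/-! ## 2. Lists -/

theorem pvow_range_walk (p : T.Pth) (r a : ℕ) (h : a + r ≤ p.n) : pvtW T ((List.range' a r).map p.e) (p.v a) (p.v (a + r)) := by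
  induction r generalizing a with
  | zero => exact rfl
  | succ r ih =>
    rw [List.range'_succ, List.map_cons]
    refine ⟨p.src_e a (by omega), ?_⟩
    rw [p.tgt_e a (by omega)]
    have := ih (a + 1) (by omega)
    rwa [show a + 1 + r = a + (r + 1) by omega] at this

theorem pvow_lst_walk (p : T.Pth) : pvtW T p.lst (p.v 0) (p.v p.n) := by
  have := pvow_range_walk p p.n 0 (by omega)
  rwa [Nat.zero_add] at this

theorem pvow_mem_lst {p : T.Pth} {f : D} : f ∈ p.lst ↔ ∃ k, k < p.n ∧ p.e k = f := by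
  unfold PvMap.Pth.lst
  simp only [List.mem_map, List.mem_range'_1, Nat.zero_le, Nat.zero_add, true_and]

theorem pvow_lst_length (p : T.Pth) : p.lst.length = p.n := by
  unfold PvMap.Pth.lst
  simp

theorem pvow_range_sum {M : Type*} [AddCommMonoid M] (F : ℕ → M) (n : ℕ) : ((List.range' 0 n).map F).sum = ∑ k ∈ Finset.range n, F k := by
  induction n with
  | zero => simp
  | succ n ih =>
    rw [List.range'_concat, List.map_append, List.sum_append, ih, Finset.sum_range_succ]
    simp

theorem pvow_lst_sum (p : T.Pth) (w : D → ℂ) : (p.lst.map fun f => w (T.opp f)).sum = p.psum w := by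
  unfold PvMap.Pth.lst PvMap.Pth.psum
  rw [List.map_map]
  exact pvow_range_sum _ _

theorem pvow_mem_darts {L : List T.Pth} {f : D} : f ∈ pvowDarts L ↔ ∃ p ∈ L, ∃ k, k < p.n ∧ p.e k = f := by
  unfold pvowDarts
  simp only [List.mem_flatMap, pvow_mem_lst]

theorem pvow_darts_cons (p : T.Pth) (L : List T.Pth) : pvowDarts (p :: L) = p.lst ++ pvowDarts L := by
  unfold pvowDarts
  rw [List.flatMap_cons]

theorem pvow_chain_walk {L : List T.Pth} {u v : V} (h : pvowChain T L u v) : pvtW T (pvowDarts L) u v := by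
  induction L generalizing u with
  | nil => exact h
  | cons p L ih =>
    obtain ⟨h1, h2⟩ := h
    rw [pvow_darts_cons]
    exact pvt_s_w_append.2 ⟨p.v p.n, h1 ▸ pvow_lst_walk p, ih h2⟩

theorem pvow_darts_sum (L : List T.Pth) (w : D → ℂ) : ((pvowDarts L).map fun f => w (T.opp f)).sum = (L.map fun p => p.psum w).sum := by
  induction L with
  | nil => rfl
  | cons p L ih => rw [pvow_darts_cons, List.map_append, List.sum_append, pvow_lst_sum, ih, List.map_cons, List.sum_cons]

theorem pvow_lst_tgt_nodup (p : T.Pth) : (p.lst.map T.tgt).Nodup := by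
  unfold PvMap.Pth.lst
  rw [List.map_map]
  refine (List.nodup_range' (s := 0) (n := p.n) (step := 1) (by omega)).map_on ?_
  intro a ha b hb hab
  rw [List.mem_range'_1] at ha hb
  simp only [Function.comp] at hab
  rw [p.tgt_e a (by omega), p.tgt_e b (by omega)] at hab
  have := p.inj _ _ (by omega) (by omega) hab
  omega

/-- how to get the hypothesis `hn` of `pvow_ring`: the heads of the darts of two different pieces are different -/
theorem pvow_nodup {L : List T.Pth} (h : L.Pairwise fun p q => ∀ k l, k < p.n → l < q.n → p.v (k + 1) ≠ q.v (l + 1)) : ((pvowDarts L).map T.tgt).Nodup := by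
  induction L with
  | nil => exact List.nodup_nil
  | cons p L ih =>
    rw [List.pairwise_cons] at h
    rw [pvow_darts_cons, List.map_append, List.nodup_append]
    refine ⟨pvow_lst_tgt_nodup p, ih h.2, ?_⟩
    intro x hx y hy hxy
    obtain ⟨f, hf, rfl⟩ := List.mem_map.1 hx
    obtain ⟨f', hf', rfl⟩ := List.mem_map.1 hy
    obtain ⟨k, hk, rfl⟩ := pvow_mem_lst.1 hf
    obtain ⟨q, hq, l, hl, rfl⟩ := pvow_mem_darts.1 hf'
    rw [p.tgt_e k hk, q.tgt_e l hl] at hxy
    exact h.1 q hq k l hk hl hxy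

/-! ## 3. RING = TR13 (CLOSE), TR14 (MASK), TR12 (UNIQ) -/

/-- **TR13 (CLOSE), consumer form**: a closed chain of pieces of ONE wall with pairwise distinct vertices is a full label class, and its label sum is the sum of the sums of the pieces -/
theorem pvow_ring (hT : T.IsSph) (hS : T.Simple) {s : V → Bool} {d₀ : D} {L : List T.Pth} {u : V} (hc : pvowChain T L u u)
    (hn : ((pvowDarts L).map T.tgt).Nodup) (hw : ∀ p ∈ L, p.OnWall s d₀) {g : D} (hg : g ∈ pvowDarts L) :
    T.Tag s (T.opp g) ∧ (∀ d', T.SameLab s (T.opp g) d' ↔ T.opp d' ∈ pvowDarts L) ∧ ∀ w : D → ℂ, T.lsum s w (T.opp g) = (L.map fun p => p.psum w).sum := by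
  have hb : ∀ f ∈ pvowDarts L, pvtBk T s d₀ f := by
    intro f hf
    obtain ⟨p, hp, k, hk, rfl⟩ := pvow_mem_darts.1 hf
    exact hw p hp k hk
  have hlab := pvt_s_recog_list hT hS (pvow_chain_walk hc) hn hb hg
  refine ⟨(hb g hg).1, hlab, fun w => ?_⟩
  unfold PvMap.lsum
  have h1 : ∑ᶠ (d' : D) (_ : T.SameLab s (T.opp g) d'), w d' = ∑ᶠ d' ∈ {d' | T.SameLab s (T.opp g) d'}, w d' := rfl
  rw [h1, pvt_s_class_sum w (List.Nodup.of_map _ hn) hlab, pvow_darts_sum]

/-- **TR14 (MASK)**: a mask `χ` which vanishes on the right triangles of the pieces which do not satisfy `P` sees the other pieces only -/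
theorem pvow_ring_mask (hT : T.IsSph) (hS : T.Simple) {s : V → Bool} {d₀ : D} {L : List T.Pth} {u : V} (hc : pvowChain T L u u)
    (hn : ((pvowDarts L).map T.tgt).Nodup) (hw : ∀ p ∈ L, p.OnWall s d₀) {g : D} (hg : g ∈ pvowDarts L) (w χ : D → ℂ) (P : T.Pth → Prop) [DecidablePred P]
    (hχ : ∀ p ∈ L, ¬ P p → ∀ k, k < p.n → χ (T.opp (p.e k)) = 0) :
    T.lsum s (fun d => χ d * w d) (T.opp g) = ((L.filter P).map fun p => p.psum fun d => χ d * w d).sum := by
  rw [(pvow_ring hT hS hc hn hw hg).2.2]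
  clear hc hn hw hg
  induction L with
  | nil => rfl
  | cons p L ih =>
    rw [List.map_cons, List.sum_cons, ih fun q hq => hχ q (List.mem_cons_of_mem _ hq)]
    by_cases hp : P p
    · rw [List.filter_cons_of_pos (by simpa using hp), List.map_cons, List.sum_cons]
    · rw [List.filter_cons_of_neg (by simpa using hp)]
      have : (p.psum fun d => χ d * w d) = 0 := by
        unfold PvMap.Pth.psum
        exact Finset.sum_eq_zero fun k hk => by
          show χ (T.opp (p.e k)) * w (T.opp (p.e k)) = 0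
          rw [hχ p (List.mem_cons_self) hp k (Finset.mem_range.1 hk), zero_mul]
      rw [this, zero_add]

/-- **TR12 (UNIQ)**: two rings of one colouring with a common dart have the same darts -/
theorem pvow_ring_inj (hT : T.IsSph) (hS : T.Simple) {s : V → Bool} {d₀ d₁ : D} {L L' : List T.Pth} {u u' : V} (hc : pvowChain T L u u) (hc' : pvowChain T L' u' u')
    (hn : ((pvowDarts L).map T.tgt).Nodup) (hn' : ((pvowDarts L').map T.tgt).Nodup) (hw : ∀ p ∈ L, p.OnWall s d₀) (hw' : ∀ p ∈ L', p.OnWall s d₁)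
    {g : D} (hg : g ∈ pvowDarts L) (hg' : g ∈ pvowDarts L') (f : D) : f ∈ pvowDarts L ↔ f ∈ pvowDarts L' := by
  have h1 := (pvow_ring hT hS hc hn hw hg).2.1 (T.opp f)
  have h2 := (pvow_ring hT hS hc' hn' hw' hg').2.1 (T.opp f)
  rw [T.opp_opp] at h1 h2
  exact h1.symm.trans h2

/-! ## 4. Rims in the sense of `Pl/Rim` -/

/-- a cycle of tags of one wall is a rim (no finiteness hypothesis) -/
theorem pvow_isRim (hT : T.IsSph) {s : V → Bool} (c : T.Cyc) (hc : ∀ i, T.Tag s (T.opp (c.e i))) (hw : ∀ i, T.Wall s (T.opp (c.e 0)) (T.opp (c.e i))) : c.IsRim s := by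
  obtain ⟨hR, hL, hRo, hB⟩ := pl_jordan hT c
  have hno : ∀ i, ¬ T.Occ s (c.e i) := fun i => pvt_s_tag_not_occ (hc i)
  have hWL : ∀ x, T.Wall s (T.opp (c.e 0)) x → x ∉ c.Left := by
    intro x hx h
    have h1 : x ∈ c.Right := pvt_s_wall_djoin c hno hx
    rw [hR] at h1
    exact h1 h
  refine ⟨hc 0, ?_, pvt_s_recog hT c hc hw⟩
  ext e
  constructor
  · intro he
    refine ⟨?_, fun h => hWL e h he⟩
    have h1 : ∀ x, T.DJoin c.darts (c.e 0) x → T.InComp s (T.opp (c.e 0)) x := by
      intro x hx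
      induction hx with
      | refl => exact ReflTransGen.single (Or.inl (T.opp_opp _).symm)
      | @tail a b hab hstep ih =>
        rcases hstep with rfl | ⟨rfl, -⟩
        · exact ReflTransGen.tail ih (Or.inr ⟨T.sf_nxt a, fun h => hWL a h hab⟩)
        · exact ReflTransGen.tail ih (Or.inl rfl)
    exact h1 e he
  · rintro ⟨h4, hnw⟩
    have inv : ∀ e, T.InComp s (T.opp (c.e 0)) e → e ∈ c.Left ∨ ∃ i, e = T.opp (c.e i) := by
      intro e he
      induction he with
      | refl => exact Or.inr ⟨0, rfl⟩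
      | @tail a b _ hstep ih =>
        rcases hstep with rfl | ⟨hsf, hnw⟩
        · rcases ih with hl | ⟨i, rfl⟩
          · by_cases hE : T.Edg c.darts a
            · rcases hE with ⟨i, hi⟩ | ⟨i, hi⟩
              · exact Or.inr ⟨i, by rw [hi]⟩
              · exfalso
                have h1 : a ∈ c.Right := by
                  have := hRo i
                  rwa [hi, T.opp_opp] at this
                rw [hR] at h1
                exact h1 hl
            · left
              have h1 : ¬ T.Bd c.Left a := fun h => hE ((hB a).1 h)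
              unfold PvMap.Bd at h1
              exact (not_not.1 h1).1 hl
          · left
            rw [T.opp_opp]
            exact hL i
        · rcases ih with hl | ⟨i, rfl⟩
          · left
            exact ((pl_left_face c).sf T hsf).2 hl
          · exact absurd (hw i) hnw
    rcases inv e h4 with hl | ⟨i, rfl⟩
    · exact hl
    · exact absurd (hw i) hnw

/-- the ring as a rim `c : T.Cyc` -/
theorem pvow_ring_cyc (hT : T.IsSph) {s : V → Bool} {d₀ : D} {L : List T.Pth} {u : V} (hc : pvowChain T L u u)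
    (hn : ((pvowDarts L).map T.tgt).Nodup) (hw : ∀ p ∈ L, p.OnWall s d₀) (h3 : 3 ≤ (pvowDarts L).length) :
    ∃ c : T.Cyc, (∀ f, f ∈ pvowDarts L ↔ ∃ i, f = c.e i) ∧ c.IsRim s := by
  have hW := pvow_chain_walk hc
  obtain ⟨c, hcl⟩ := pvt_s_cyc hW ((pvt_s_w_perm hW).nodup_iff.2 hn) h3
  have hb : ∀ i, pvtBk T s d₀ (c.e i) := by
    intro i
    obtain ⟨p, hp, k, hk, e⟩ := pvow_mem_darts.1 ((hcl _).2 ⟨i, rfl⟩)
    rw [← e]
    exact hw p hp k hk
  exact ⟨c, hcl, pvow_isRim hT c (fun i => (hb i).1) fun i => pl_ra_wall_trans (pl_ra_wall_symm (hb 0).2) (hb i).2⟩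

end Claimed.Agent.R289
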