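import Claimed.Agent.R289.Tr.StrandF
import Claimed.Agent.R289.Tr.Defs

/-!
# Row 289 (S0537, Cardy for Poisson-Voronoi), box TR, block T2, file Tr/StrandD : BRIDGE FROM THE STRAND CALCULUS TO THE DEFINITIONS OF RECORD (`Tr/Defs`)      (owner helper64; prefix `pvt_sd_`)

`PvwLE T b n y` (helper216) = last-exit decomposition of the vertex walk `b 0, …, b n` (loops erased from the START);      `pvtLE` (`Tr/Strand`) erases from the END.
For general walks the two differ.  For the black bank of a strand shorter than a period they agree: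

* `pvt_sd_unique`      (B1) `PvwLE T b n` determines the path: `n`, the vertices, the darts (`Simple`)
* `pvt_sd_last`        after the time of a dart of `pvtArc T s a n` the strand never comes back to its source      (canonical form `pvt_s_kept` + saturation `pvt_s_sat`)
* `pvt_sd_le`          (B2) `PvwLE T (fun i => src (pvasIt T s a i)) n (pvtArc T s a n)`
* `pvt_sd_eq`          so every `y` with `PvwLE …  n y` has the length, the vertices, the darts of `pvtArc T s a n`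
* `pvt_sd_time`, `pvt_sd_mem`, `pvt_sd_bk` (PIECE of helper194), `pvt_sd_verts`, `pvt_sd_faced`, `pvt_sd_gfaced`      (no planarity, no injectivity: only `Simple`);   `pvt_sd_psum`, `pvt_sd_mass_congr`
* `pvt_sd_le_congr`, `pvt_sd_congr`       LOCALITY of `PvwLE`, in general and along a strand
* `pvt_sd_rim`         ACTUAL ARCS: `PvwLE` between two rim times is the arc of the rim
* `pvt_sd_close`       CLOSING in the names of record: `T.lsum s w (opp (y₁.e 0)) = y₁.psum w + y₂.psum w`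
* `pvt_sd_inj`         a strand which does not come back to its first position is injective
-/

set_option autoImplicit false
set_option linter.unusedSectionVars false
set_option linter.unusedVariables false

namespace Claimed.Agent.R289

open Relation

variable {V D : Type} {T : PvMap V D} {s : V → Bool}

/-! ## 1. `PvwLE` determines the path -/

/-- two last visits of one vertex are equal -/
theorem pvt_sd_last_unique {b : ℕ → V} {n i j : ℕ} (hi : i ≤ n) (hj : j ≤ n) (hij : b i = b j) (h1 : ∀ k, i < k → k ≤ n → b k ≠ b i) (h2 : ∀ k, j < k → k ≤ n → b k ≠ b j) :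
    i = j := by
  rcases lt_trichotomy i j with h | h | h
  · exact absurd hij.symm (h1 j h hj)
  · exact h
  · exact absurd hij (h2 i h hi)

/-- **(B1)** the last-exit decomposition is unique -/
theorem pvt_sd_unique (hS : T.Simple) {b : ℕ → V} {n : ℕ} {y y' : T.Pth} (h : PvwLE T b n y) (h' : PvwLE T b n y') :
    y.n = y'.n ∧ (∀ k, k ≤ y.n → y.v k = y'.v k) ∧ ∀ k, k < y.n → y.e k = y'.e k := by
  obtain ⟨j, h0, hn, h1, h2⟩ := h
  obtain ⟨j', h0', hn', h1', h2'⟩ := h'
  have key : ∀ k, k ≤ y.n → k ≤ y'.n → y.v k = y'.v k ∧ j k = j' k := by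
    intro k
    induction k with
    | zero =>
      intro hk hk'
      have hv : y.v 0 = y'.v 0 := h0.trans h0'.symm
      obtain ⟨a1, a2, a3⟩ := h1 0 hk
      obtain ⟨b1, b2, b3⟩ := h1' 0 hk'
      exact ⟨hv, pvt_sd_last_unique a1 b1 (by rw [← a2, ← b2, hv]) a3 b3⟩
    | succ k ih =>
      intro hk hk'
      obtain ⟨-, ihj⟩ := ih (by omega) (by omega)
      have hv : y.v (k + 1) = y'.v (k + 1) := by rw [h2 k (by omega), h2' k (by omega), ihj]
      obtain ⟨a1, a2, a3⟩ := h1 (k + 1) hk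
      obtain ⟨b1, b2, b3⟩ := h1' (k + 1) hk'
      exact ⟨hv, pvt_sd_last_unique a1 b1 (by rw [← a2, ← b2, hv]) a3 b3⟩
  have hnn : y.n = y'.n := by
    rcases le_total y.n y'.n with hle | hle
    · obtain ⟨hv, -⟩ := key y.n le_rfl hle
      have e1 : y.v y.n = b n := by rw [(h1 y.n le_rfl).2.1, hn]
      have e2 : y'.v y'.n = b n := by rw [(h1' y'.n le_rfl).2.1, hn']
      exact y'.inj _ _ hle le_rfl (by rw [← hv, e1, e2])
    · obtain ⟨hv, -⟩ := key y'.n hle le_rfl
      have e1 : y.v y.n = b n := by rw [(h1 y.n le_rfl).2.1, hn]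
      have e2 : y'.v y'.n = b n := by rw [(h1' y'.n le_rfl).2.1, hn']
      exact (y.inj _ _ hle le_rfl (by rw [hv, e1, e2])).symm
  refine ⟨hnn, fun k hk => (key k hk (by omega)).1, fun k hk => ?_⟩
  apply hS
  · rw [y.src_e k hk, y'.src_e k (by omega)]
    exact (key k hk.le (by omega)).1
  · rw [y.tgt_e k hk, y'.tgt_e k (by omega)]
    exact (key (k + 1) hk (by omega)).1

/-! ## 2. the arc of a strand is the last-exit decomposition of its black bank -/

/-- a strand which does not come back to its first position is injective -/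
theorem pvt_sd_inj {a : D} (ha : pvasBW T s a) {n : ℕ} (hmin : ∀ k, 0 < k → k < n → pvasIt T s a k ≠ a) :
    ∀ i j, i < n → j < n → pvasIt T s a i = pvasIt T s a j → i = j := by
  intro i j hi hj h
  rcases lt_trichotomy i j with hlt | heq | hlt
  · exact absurd (pvas_it_return ha hlt.le h) (hmin _ (by omega) (by omega))
  · exact heq
  · exact absurd (pvas_it_return ha hlt.le h.symm) (hmin _ (by omega) (by omega))

theorem pvt_sd_bank_sub (a : D) {t r n : ℕ} (h : t + r ≤ n) : ∀ f ∈ pvtBank T s (pvasIt T s a t) r, f ∈ pvtBank T s a n := by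
  intro f hf
  obtain ⟨k, hk, h1, h2⟩ := pvt_s_bank_mem.1 hf
  rw [← pvas_it_add] at h1 h2
  exact pvt_s_bank_mem.2 ⟨t + k, by omega, h1, h2⟩

section LE

variable [DecidableEq V]

/-- after the time of a dart of the arc the strand never comes back to its source -/
theorem pvt_sd_last (hT : T.IsSph) (hS : T.Simple) {a : D} (ha : pvasBW T s a) {n : ℕ} (hinj : ∀ i j, i < n → j < n → pvasIt T s a i = pvasIt T s a j → i = j)
    {t : ℕ} (ht : t < n) (hbt : s (T.apex (pvasIt T s a t)) = true) (hf : T.rot (pvasIt T s a t) ∈ pvtLE T (pvtBank T s a n)) {i : ℕ} (hti : t < i) (hi : i ≤ n) :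
    T.src (pvasIt T s a i) ≠ T.src (pvasIt T s a t) := by
  intro hv
  obtain ⟨d', hd1, hd2⟩ := pvt_s_kept hT hS (pvt_s_bank_walk a n) (fun g hg => pvt_s_bank_bk ha hg) (pvt_s_bank_nodup hinj) hf
  obtain ⟨r, rfl⟩ := Nat.exists_eq_add_of_le hti.le
  rw [pvas_it_add] at hv
  have h1 : T.rot (pvasIt T s a t) ∈ pvtBank T s (pvasIt T s a t) r := pvt_s_bank_mem.2 ⟨0, by omega, hbt, rfl⟩
  exact hd2 (pvt_sd_bank_sub a hi _ (pvt_s_sat hT hS (pvas_it_bw ha t) hv h1 hd1))

/-- **(B2)** the arc of a strand shorter than a period is the last-exit decomposition of its black bank -/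
theorem pvt_sd_le (hT : T.IsSph) (hS : T.Simple) {a : D} (ha : pvasBW T s a) {n : ℕ} (hinj : ∀ i j, i < n → j < n → pvasIt T s a i = pvasIt T s a j → i = j) :
    PvwLE T (fun i => T.src (pvasIt T s a i)) n (pvtArc T s a n) := by
  have H : ∀ k, ∃ t, (k < (pvtArc T s a n).n → t < n ∧ s (T.apex (pvasIt T s a t)) = true ∧ (pvtArc T s a n).e k = T.rot (pvasIt T s a t)) ∧
      (¬ k < (pvtArc T s a n).n → t = n) := by
    intro k
    by_cases hk : k < (pvtArc T s a n).n
    · obtain ⟨t, h1, h2, h3⟩ := pvt_s_bank_mem.1 (pvt_sf_arc_e_mem s a n hk)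
      exact ⟨t, fun _ => ⟨h1, h2, h3⟩, fun h => absurd hk h⟩
    · exact ⟨n, fun h => absurd h hk, fun _ => rfl⟩
  choose j hj using H
  refine ⟨j, rfl, (hj _).2 (lt_irrefl _), ?_, ?_⟩
  · intro k hk
    rcases Nat.lt_or_ge k (pvtArc T s a n).n with hlt | hge
    · obtain ⟨h1, h2, h3⟩ := (hj k).1 hlt
      refine ⟨h1.le, ?_, ?_⟩
      · rw [← (pvtArc T s a n).src_e k hlt, h3, T.src_rot]
      · intro i hi1 hi2
        refine pvt_sd_last hT hS ha hinj h1 h2 ?_ hi1 hi2
        rw [← h3]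
        exact pvt_sf_pth_e_mem _ _ hlt
    · have hkn : k = (pvtArc T s a n).n := le_antisymm hk hge
      have hjk : j k = n := (hj k).2 (by omega)
      refine ⟨hjk.le, ?_, ?_⟩
      · rw [hjk, hkn]
        exact pvt_sf_arc_vn s a n
      · intro i hi1 hi2
        omega
  · intro k hk
    obtain ⟨h1, h2, h3⟩ := (hj k).1 hk
    rw [← (pvtArc T s a n).tgt_e k hk, h3, T.tgt_rot]
    show T.apex (pvasIt T s a (j k)) = T.src (pvasIt T s a (j k + 1))
    rw [pvas_it_succ]
    rcases pvas_step_ends s (pvasIt T s a (j k)) with ⟨-, e, -⟩ | ⟨h, -, -⟩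
    · exact e.symm
    · rw [h2] at h
      exact absurd h.symm Bool.false_ne_true

/-- every last-exit decomposition of the black bank of a strand is the arc of the strand -/
theorem pvt_sd_eq (hT : T.IsSph) (hS : T.Simple) {a : D} (ha : pvasBW T s a) {n : ℕ} (hinj : ∀ i j, i < n → j < n → pvasIt T s a i = pvasIt T s a j → i = j)
    {y : T.Pth} (hy : PvwLE T (fun i => T.src (pvasIt T s a i)) n y) :
    y.n = (pvtArc T s a n).n ∧ (∀ k, k ≤ y.n → y.v k = (pvtArc T s a n).v k) ∧ ∀ k, k < y.n → y.e k = (pvtArc T s a n).e k :=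
  pvt_sd_unique hS hy (pvt_sd_le hT hS ha hinj)

end LE

/-! ## 3. what the consumers read off -/

theorem pvt_sd_idx_lt {b : ℕ → V} {n : ℕ} {y : T.Pth} {j : ℕ → ℕ} (hn : j y.n = n) (h1 : ∀ k, k ≤ y.n → j k ≤ n ∧ y.v k = b (j k) ∧ ∀ i, j k < i → i ≤ n → b i ≠ b (j k))
    {k : ℕ} (hk : k < y.n) : j k < n := by
  rcases Nat.lt_or_ge (j k) n with h | h
  · exact h
  · exfalso
    have e : j k = n := le_antisymm (h1 k hk.le).1 h
    have e1 : y.v k = y.v y.n := by rw [(h1 k hk.le).2.1, (h1 y.n le_rfl).2.1, e, hn]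
    have := y.inj _ _ hk.le le_rfl e1
    omega

/-- the darts of a last-exit decomposition of the black bank of a strand are bank darts `rot a_t` -/
theorem pvt_sd_time (hS : T.Simple) {a : D} {n : ℕ} {y : T.Pth} (hy : PvwLE T (fun i => T.src (pvasIt T s a i)) n y) {k : ℕ} (hk : k < y.n) :
    ∃ t, t < n ∧ s (T.apex (pvasIt T s a t)) = true ∧ y.e k = T.rot (pvasIt T s a t) := by
  obtain ⟨j, h0, hn, h1, h2⟩ := hy
  have hlt := pvt_sd_idx_lt (b := fun i => T.src (pvasIt T s a i)) hn h1 hk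
  have e1 : y.v k = T.src (pvasIt T s a (j k)) := (h1 k hk.le).2.1
  have e2 : y.v (k + 1) = T.src (pvasIt T s a (j k + 1)) := h2 k hk
  rw [pvas_it_succ] at e2
  rcases pvas_step_ends s (pvasIt T s a (j k)) with ⟨h, e, -⟩ | ⟨-, e, -⟩
  · refine ⟨j k, hlt, h, hS _ _ ?_ ?_⟩
    · rw [y.src_e k hk, e1, T.src_rot]
    · rw [y.tgt_e k hk, e2, e, T.tgt_rot]
  · exfalso
    have := y.inj (k + 1) k hk hk.le (by rw [e1, e2, e])
    omega

theorem pvt_sd_mem (hS : T.Simple) {a : D} {n : ℕ} {y : T.Pth} (hy : PvwLE T (fun i => T.src (pvasIt T s a i)) n y) {k : ℕ} (hk : k < y.n) :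
    y.e k ∈ pvtBank T s a n := pvt_s_bank_mem.2 (pvt_sd_time hS hy hk)

/-- PIECE: the right triangles are tags on the wall of the strand -/
theorem pvt_sd_bk (hS : T.Simple) {a : D} (ha : pvasBW T s a) {n : ℕ} {y : T.Pth} (hy : PvwLE T (fun i => T.src (pvasIt T s a i)) n y) {k : ℕ} (hk : k < y.n) :
    pvtBk T s a (y.e k) := pvt_s_bank_bk ha (pvt_sd_mem hS hy hk)

theorem pvt_sd_verts {a : D} {n : ℕ} {y : T.Pth} (hy : PvwLE T (fun i => T.src (pvasIt T s a i)) n y) : y.verts ⊆ pvasLayB T s a n := by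
  obtain ⟨j, h0, hn, h1, h2⟩ := hy
  rintro x ⟨k, hk, rfl⟩
  exact ⟨j k, (h1 k hk).1, (h1 k hk).2.1.symm⟩

theorem pvt_sd_v0 {a : D} {n : ℕ} {y : T.Pth} (hy : PvwLE T (fun i => T.src (pvasIt T s a i)) n y) : y.v 0 = T.src a := hy.choose_spec.1

theorem pvt_sd_vn {a : D} {n : ℕ} {y : T.Pth} (hy : PvwLE T (fun i => T.src (pvasIt T s a i)) n y) : y.v y.n = T.src (pvasIt T s a n) := by
  obtain ⟨j, h0, hn, h1, h2⟩ := hy
  rw [(h1 y.n le_rfl).2.1, hn]

/-- the last-exit decomposition of the black bank of a strand is faced in the faces crossed by the strand -/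
theorem pvt_sd_faced (hS : T.Simple) {a : D} (ha : pvasBW T s a) {n : ℕ} {y : T.Pth} (hy : PvwLE T (fun i => T.src (pvasIt T s a i)) n y) :
    y.Faced s (pvasFc T s a n) (T.tgt a) := by
  constructor
  · intro i hi
    rw [pvas_layB_black ha (pvt_sd_verts hy ⟨i, hi, rfl⟩), ha.2]
    exact Bool.false_ne_true.symm
  · intro i hi
    obtain ⟨k, hk, -, h2⟩ := pvt_sd_time hS hy hi
    rw [h2, pvt_s_opp_rot, T.apex_nxt2]
    refine ⟨⟨k, hk, T.sf_nxt2 _⟩, pvt_sf_join_symm ?_⟩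
    refine pvt_c_join_mono_set (le_refl _) ?_ (pvas_layW_join s a hk.le)
    intro v hv
    show s v = s (T.tgt a)
    rw [pvas_layW_white ha hv, ha.2]

theorem pvt_sd_gfaced (hS : T.Simple) {a : D} (ha : pvasBW T s a) {n : ℕ} {y : T.Pth} (hy : PvwLE T (fun i => T.src (pvasIt T s a i)) n y) : y.GFaced s (T.tgt a) :=
  (pvt_sd_faced hS ha hy).gfaced

/-- `psum` only reads the darts -/
theorem pvt_sd_psum_congr {y y' : T.Pth} (hn : y.n = y'.n) (he : ∀ k, k < y.n → y.e k = y'.e k) (w : D → ℂ) : y.psum w = y'.psum w := by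
  unfold PvMap.Pth.psum
  rw [← hn]
  exact Finset.sum_congr rfl fun k hk => by rw [he k (Finset.mem_range.1 hk)]

/-- `pvwMass` only reads the darts -/
theorem pvt_sd_mass_congr {y y' : T.Pth} (he : ∀ k, k < y.n → y.e k = y'.e k) (pos : V → ℂ) (w : D → ℂ) (K : Set ℂ) (i : ℕ) {j : ℕ} (hj : j ≤ y.n) :
    pvwMass T pos w K y i j = pvwMass T pos w K y' i j := by
  unfold pvwMass
  exact Finset.sum_congr rfl fun k hk => by rw [he k (by have := (Finset.mem_Ico.1 hk).2; omega)]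

theorem pvt_sd_psum [DecidableEq V] (hT : T.IsSph) (hS : T.Simple) {a : D} (ha : pvasBW T s a) {n : ℕ}
    (hinj : ∀ i j, i < n → j < n → pvasIt T s a i = pvasIt T s a j → i = j) {y : T.Pth} (hy : PvwLE T (fun i => T.src (pvasIt T s a i)) n y) (w : D → ℂ) :
    y.psum w = ((pvtLE T (pvtBank T s a n)).map (fun f => w (T.opp f))).sum := by
  obtain ⟨h1, -, h3⟩ := pvt_sd_eq hT hS ha hinj hy
  rw [pvt_sd_psum_congr h1 h3 w, pvt_sf_arc_psum]

/-! ## 4. locality -/

theorem pvt_sd_le_congr' {b b' : ℕ → V} {n : ℕ} (h : ∀ i, i ≤ n → b i = b' i) {y : T.Pth} (hy : PvwLE T b n y) : PvwLE T b' n y := by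
  obtain ⟨j, h0, hn, h1, h2⟩ := hy
  refine ⟨j, by rw [h0, h 0 (Nat.zero_le _)], hn, fun k hk => ?_, fun k hk => ?_⟩
  · obtain ⟨a1, a2, a3⟩ := h1 k hk
    refine ⟨a1, by rw [a2, h _ a1], fun i hi1 hi2 => ?_⟩
    rw [← h i hi2, ← h _ a1]
    exact a3 i hi1 hi2
  · rw [h2 k hk, h _ (pvt_sd_idx_lt hn h1 hk)]

/-- `PvwLE T b n` only reads `b 0, …, b n` -/
theorem pvt_sd_le_congr {b b' : ℕ → V} {n : ℕ} (h : ∀ i, i ≤ n → b i = b' i) (y : T.Pth) : PvwLE T b n y ↔ PvwLE T b' n y :=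
  ⟨pvt_sd_le_congr' h, pvt_sd_le_congr' fun i hi => (h i hi).symm⟩

/-- **LOCALITY**: along a strand `PvwLE` reads the colours of the two layers only -/
theorem pvt_sd_congr {s s' : V → Bool} {a : D} {n : ℕ} (h : ∀ v, v ∈ pvasLayB T s a n ∨ v ∈ pvasLayW T s a n → s' v = s v) (y : T.Pth) :
    PvwLE T (fun i => T.src (pvasIt T s' a i)) n y ↔ PvwLE T (fun i => T.src (pvasIt T s a i)) n y :=
  pvt_sd_le_congr (fun i hi => by rw [pvas_it_congr h i hi]) y

/-! ## 5. actual arcs, closing -/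

/-- **ACTUAL ARCS**: the last-exit decomposition between two rim times is the arc of the rim -/
theorem pvt_sd_rim (hT : T.IsSph) (hS : T.Simple) (c : T.Cyc) (hc : ∀ i, T.Tag s (T.opp (c.e i)))
    (hw : ∀ i, T.Wall s (T.opp (c.e 0)) (T.opp (c.e i))) (hb : ∀ i, s (T.src (c.e i)) = true) {i j m : ℕ} (hij : i < j) (hj : j < i + c.n)
    (hm : pvasIt T s (T.rotInv (c.e i)) m = T.rotInv (c.e j))
    (hmin : ∀ k, 0 < k → k ≤ m → pvasIt T s (T.rotInv (c.e i)) k ≠ T.rotInv (c.e i))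
    {y : T.Pth} (hy : PvwLE T (fun k => T.src (pvasIt T s (T.rotInv (c.e i)) k)) m y) : y.n = j - i ∧ ∀ k, k < j - i → y.e k = c.e (i + k) := by
  classical
  have ha : pvasBW T s (T.rotInv (c.e i)) := pvt_s_rim_bw (hc i) (hb i)
  obtain ⟨h1, -, h3⟩ := pvt_sd_eq hT hS ha (pvt_sd_inj ha fun k hk0 hk => hmin k hk0 hk.le) hy
  obtain ⟨g1, g2, -⟩ := pvt_sf_rim hT hS c hc hw hb hij hj hm hmin
  exact ⟨h1.trans g1, fun k hk => by rw [h3 k (by omega), g2 k hk]⟩

/-- and the arc of the rim IS a last-exit decomposition -/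
theorem pvt_sd_rim_le (hT : T.IsSph) (hS : T.Simple) (c : T.Cyc) (hc : ∀ i, T.Tag s (T.opp (c.e i)))
    (hw : ∀ i, T.Wall s (T.opp (c.e 0)) (T.opp (c.e i))) (hb : ∀ i, s (T.src (c.e i)) = true) {i j m : ℕ} (hij : i < j) (hj : j < i + c.n)
    (hm : pvasIt T s (T.rotInv (c.e i)) m = T.rotInv (c.e j))
    (hmin : ∀ k, 0 < k → k ≤ m → pvasIt T s (T.rotInv (c.e i)) k ≠ T.rotInv (c.e i)) :
    ∃ y : T.Pth, PvwLE T (fun k => T.src (pvasIt T s (T.rotInv (c.e i)) k)) m y ∧ y.n = j - i ∧ ∀ k, k < j - i → y.e k = c.e (i + k) := by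
  classical
  have ha : pvasBW T s (T.rotInv (c.e i)) := pvt_s_rim_bw (hc i) (hb i)
  have hy := pvt_sd_le hT hS ha (pvt_sd_inj ha fun k hk0 hk => hmin k hk0 hk.le)
  exact ⟨_, hy, pvt_sd_rim hT hS c hc hw hb hij hj hm hmin hy⟩

/-- **CLOSING** in the names of record -/
theorem pvt_sd_close (hT : T.IsSph) (hS : T.Simple) {a : D} (ha : pvasBW T s a) {m n : ℕ} (hper : T.src (pvasIt T s a (m + n)) = T.src a)
    (hd : ∀ v, v ∈ pvasLayB T s a m → v ∈ pvasLayB T s (pvasIt T s a m) n → v = T.src a ∨ v = T.src (pvasIt T s a m))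
    (hinj : ∀ i j, i < m + n → j < m + n → pvasIt T s a i = pvasIt T s a j → i = j)
    {y₁ y₂ : T.Pth} (hy₁ : PvwLE T (fun i => T.src (pvasIt T s a i)) m y₁) (hy₂ : PvwLE T (fun i => T.src (pvasIt T s (pvasIt T s a m) i)) n y₂)
    (h0 : 0 < y₁.n) (w : D → ℂ) :
    T.lsum s w (T.opp (y₁.e 0)) = y₁.psum w + y₂.psum w ∧
      ∀ d', T.SameLab s (T.opp (y₁.e 0)) d' ↔ (∃ k, k < y₁.n ∧ d' = T.opp (y₁.e k)) ∨ ∃ k, k < y₂.n ∧ d' = T.opp (y₂.e k) := by
  classical
  have hi1 : ∀ i j, i < m → j < m → pvasIt T s a i = pvasIt T s a j → i = j := fun i j hi hj h => hinj i j (by omega) (by omega) h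
  have hi2 : ∀ i j, i < n → j < n → pvasIt T s (pvasIt T s a m) i = pvasIt T s (pvasIt T s a m) j → i = j := by
    intro i j hi hj h
    rw [← pvas_it_add, ← pvas_it_add] at h
    have := hinj _ _ (by omega) (by omega) h
    omega
  have hb2 := pvas_it_bw ha m
  obtain ⟨a1, -, a3⟩ := pvt_sd_eq hT hS ha hi1 hy₁
  obtain ⟨b1, -, b3⟩ := pvt_sd_eq hT hS hb2 hi2 hy₂
  have hg : y₁.e 0 ∈ pvtLE T (pvtBank T s a m) ++ pvtLE T (pvtBank T s (pvasIt T s a m) n) := by
    rw [a3 0 h0]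
    exact List.mem_append_left _ (pvt_sf_pth_e_mem _ _ (by rw [a1] at h0; exact h0))
  refine ⟨?_, fun d' => ?_⟩
  · rw [pvt_sd_psum hT hS ha hi1 hy₁, pvt_sd_psum hT hS hb2 hi2 hy₂, ← pvt_s_close_sum hT hS ha hper hd w hg]
    rfl
  · rw [(pvt_s_close hT hS ha hper hd).2 _ hg d', List.mem_append]
    have key : ∀ (b : D) (r : ℕ) (y : T.Pth), y.n = (pvtArc T s b r).n → (∀ k, k < y.n → y.e k = (pvtArc T s b r).e k) →
        (T.opp d' ∈ pvtLE T (pvtBank T s b r) ↔ ∃ k, k < y.n ∧ d' = T.opp (y.e k)) := by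
      intro b r y e1 e3
      constructor
      · intro h
        obtain ⟨k, hk, hk'⟩ := List.mem_iff_getElem.1 h
        refine ⟨k, by rw [e1]; exact hk, ?_⟩
        rw [e3 k (by rw [e1]; exact hk), pvt_sf_arc_e, List.getD_eq_getElem _ _ hk, hk', T.opp_opp]
      · rintro ⟨k, hk, rfl⟩
        rw [T.opp_opp, e3 k hk]
        exact pvt_sf_pth_e_mem _ _ (by rw [e1] at hk; exact hk)
    rw [key a m y₁ a1 a3, key _ n y₂ b1 b3]

end Claimed.Agent.R289
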