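-- KEEP
import Claimed.Agent.R289.Arm.Strand
import Claimed.Agent.R289.Pl.Path
import Claimed.Agent.R289.Tr.Close
import Claimed.Agent.R289.Tr.Strand
import Claimed.Agent.R289.Tr.LaneDet
import Claimed.Agent.R289.Tr.Defs

/-!
# Row 289 (S0537), box TR (transport), file Tr/Sweep : D2 TRAP + D3 SWEEP      (owner helper225; TR11-TR14, head 194, author 6 `W2c_6.md` sec.3; prefix `pvsw_`, defs `pvsw…` / `Pvsw…`)

CELL: a simple cycle `Z` whose vertices number `0..n` are BLACK (the arc `β`, darts `Z.e k`, `k < n`) and whose other vertices (at least one) are WHITE, with `Z.Right ∩ (wall of the entrance)` finite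
(v2 09:45Z: WEAKER than `Z.Right.Finite`, so that the cell may be the UNBOUNDED side in the plane: `pvsw_fin_of_right`, `pvsw_fin_of_wall`, `pvsw_fin_of_circuit`).
The strand convention of `Arm/Strand` (black on the left of the strand) makes `A = Z.Right` the side which is swept: the strand enters `A` at `pvswIn Z = opp (Z.e (Z.n - 1))` (from `β_0` to the last white vertex)
and leaves it at `Z.e n` (from `β_n` to the first white vertex).

* sec.1  colours round the cell, the two bichromatic boundary edges `pvsw_bdOcc`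
* sec.2  **D2 TRAP** `pvsw_trap`: the strand of `pvswIn Z` stays in `Z.Right` and leaves it at `Z.e n`;   `pvsw_trap_lay`: its layers are vertices of `Z.Right`
* sec.3  NO BYPASS in intrinsic form `PvswNB` (no chord of `β` in the cell, no black excursion off `Z` inside the cell between two DISTINCT vertices of `β`), BEADS `PvswAt s Z k u`, the step lemma `pvsw_step`
* sec.4  **D3 SWEEP** `pvsw_sweep`: the strand is at the position `nxt (opp (Z.e k))` (= it crosses the face on the right of the `k`-th dart of `β` from `β_k` to `β_(k+1)`) at times `τ 0 < τ 1 < …`, and between these times its black bank stays in the bead of `β_k`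
* sec.5  consequences for CLOSE (202): the right apexes of `β` are white and joined inside the cell to the white arc: `pvsw_faced_cyc`, `pvsw_faced` (`p.Faced s (p.glue q h).Right ρ`), `pvsw_gfaced`
* sec.6  how to get `PvswNB`: from the absence of black excursions in a vertex region `U ⊇ VOf Z.Right` (`pvsw_nb_of_region`), monotonicity / locality for Harris (`pvsw_nb_anti`, `pvsw_nb_congr`)
* sec.7  **EXISTENCE** (L9 of 194, D6 of 6; NO hypothesis on bypasses): `pvsw_exist`, `pvsw_exist_glue`: two lanes (any black path `p`, a path `q` back with white inner vertices) ⇒ a black path `g` with the ends of `p`, in the closed cell, `g.Faced s (p.glue q hg).Right ρ`, `g.Glue q`;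
         `pvswBank` = bank darts of a strand, `pvsw_bank_walk`, `pvsw_bank_dart` (every bank dart is faced), `pvsw_pth_of_walk` (a walk on a set of darts contains a simple path on these darts)
* sec.8  **PIECE form** (ruling 2 of 194; `pvtBk` of `Tr/Strand`): `pvsw_piece` (NB + TRAP ⇒ every `opp (Z.e k)` is a tag on the wall of `pvswIn Z`), `pvsw_wall_out`, `pvsw_exist_full`;
         NO PLANARITY: `pvsw_strand_faced` (any strand `x … pvasIt x N` ⇒ black simple path of bank darts `src x → src (pvasIt x N)`, `Faced` in every region containing the crossed faces, anchor `tgt x`, PIECE of the wall of `x`), `pvsw_run_faced` (the same for `PvldRun` of 70)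
* sec.9  adapters: `pvsw_in_glue`, `pvsw_out_glue`, `pvsw_sp_rot` (a spoke = a dart strictly between `opp (Z.e i)` and `Z.e (i+1)` in the positive rotation)
* sec.10 **ADAPTER in the names of `Tr/Defs`** (road E, (C2), the `g₀` part): `pvsw_d_nb` (`PvwDat.NB` + SIDE at the two ends + REGION ⇒ `PvswNB` in the cell `𝔇.g.glue q`), `pvsw_d_rsec_mid/_zero/_last` (spokes ⇒ `PvwDat.RSec`),
         **`pvsw_d_piece`**: every right triangle of `g₀` is a tag on the wall of `dp(s)`, `dm(t)` lies on that wall, `g₀` is faced in the cell;   `pvsw_pth_from` (simple path with a prescribed first dart)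
-/

set_option autoImplicit false
set_option linter.unusedSectionVars false
set_option linter.unusedVariables false

namespace Claimed.Agent.R289

open Relation

variable {V D : Type} {T : PvMap V D}

/-! ## 0. definitions -/

/-- the position at which the strand enters the cell -/
def pvswIn (Z : T.Cyc) : D := T.opp (Z.e (Z.n - 1))

/-- CELL: the vertices number `0..n` of the cycle are black, the others (at least one) are white; FINITENESS: the part of the wall of the entrance which lies on the right of the cycle is finite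
(`pvsw_fin_of_right`: `Z.Right` finite;   `pvsw_fin_of_wall`: the wall finite;   `pvsw_fin_of_per`: the strand of the entrance is periodic;   `pvsw_fin_of_circuit`: a monochromatic circuit with a finite inside round the entrance) -/
structure PvswTrap (s : V → Bool) (Z : T.Cyc) (n : ℕ) : Prop where
  lt : n + 1 < Z.n
  bl : ∀ k, k ≤ n → s (T.src (Z.e k)) = true
  wh : ∀ k, n < k → k < Z.n → s (T.src (Z.e k)) = false
  fin : (Z.Right ∩ {d | T.Wall s (pvswIn Z) d}).Finite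

/-- black connection off the cycle (the starting point is not tested) -/
def pvswBJ (s : V → Bool) (Z : T.Cyc) : V → V → Prop := ReflTransGen (fun u v => T.Adj u v ∧ s v = true ∧ v ∉ Z.verts)

/-- SPOKE: a dart at the `k`-th vertex, strictly inside the cell, with a black head -/
def PvswSp (s : V → Bool) (Z : T.Cyc) (k : ℕ) (d : D) : Prop := T.src d = T.src (Z.e k) ∧ d ∈ Z.Right ∧ T.opp d ∈ Z.Right ∧ s (T.tgt d) = true

/-- NO BYPASS inside the cell: a spoke at `β_k` is not a chord, and the black cluster (off `Z`) of its head touches no `β_l`, `l ≠ k` -/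
def PvswNB (s : V → Bool) (Z : T.Cyc) (n : ℕ) : Prop :=
  ∀ k, k ≤ n → ∀ d, PvswSp s Z k d → T.tgt d ∉ Z.verts ∧ ∀ v, pvswBJ s Z (T.tgt d) v → ∀ l, l ≤ n → T.Adj v (T.src (Z.e l)) → l = k

/-- BEAD of `β_k`: the vertex `β_k` and the black clusters (off `Z`) hanging at `β_k` inside the cell -/
def PvswAt (s : V → Bool) (Z : T.Cyc) (k : ℕ) (u : V) : Prop := u = T.src (Z.e k) ∨ ∃ d, PvswSp s Z k d ∧ pvswBJ s Z (T.tgt d) u

theorem pvsw_eqns_cite : True := by
  have := @pvswIn.eq_1; have := @pvswBJ.eq_1; have := @PvswSp.eq_1; have := @PvswNB.eq_1; have := @PvswAt.eq_1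
  trivial

variable {s : V → Bool} {Z : T.Cyc} {n : ℕ}

/-! ## 1. finiteness, colours round the cell -/

theorem pvsw_fin_of_right (s : V → Bool) (h : Z.Right.Finite) : (Z.Right ∩ {d | T.Wall s (pvswIn Z) d}).Finite := h.subset Set.inter_subset_left

theorem pvsw_fin_of_wall (h : {d | T.Wall s (pvswIn Z) d}.Finite) : (Z.Right ∩ {d | T.Wall s (pvswIn Z) d}).Finite := h.subset Set.inter_subset_right

/-- the occupied darts of the face of a position: the position itself and the edge crossed by the next step -/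
theorem pvsw_face_occ {x d : D} (hx : pvasBW T s x) (hf : T.SF x d) (ho : T.Occ s d) : d = x ∨ d = T.opp (pvasStep T s x) := by
  rcases hf with rfl | rfl | rfl
  · exact Or.inl rfl
  · rcases pvas_step_cases s x with ⟨-, e⟩ | ⟨ha, -⟩
    · right; rw [e, T.opp_opp]
    · exact absurd (by rw [T.src_nxt, T.tgt_nxt, hx.2, ha]) ho
  · rcases pvas_step_cases s x with ⟨ha, -⟩ | ⟨-, e⟩
    · exact absurd (by rw [T.src_nxt2, T.tgt_nxt2, hx.1, ha]) ho
    · right; rw [e, T.opp_opp]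

/-- **a periodic strand has a finite wall**: the wall consists of the faces of the positions of one period -/
theorem pvsw_wall_sub_per {a : D} (ha : pvasBW T s a) {P : ℕ} (hP : 1 ≤ P) (hper : pvasIt T s a P = a) {d : D} (h : T.Wall s a d) :
    ∃ i, i < P ∧ T.SF (pvasIt T s a i) d := by
  induction h with
  | refl => exact ⟨0, by omega, T.sf_refl _⟩
  | @tail b c _ hstep ih =>
    obtain ⟨i, hi, hsf⟩ := ih
    rcases hstep with h1 | ⟨ho, rfl⟩
    · exact ⟨i, hi, T.sf_trans hsf h1⟩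
    · rcases pvsw_face_occ (pvas_it_bw ha i) hsf ho with rfl | rfl
      · obtain ⟨j, hj, e⟩ : ∃ j, j < P ∧ pvasIt T s a (j + 1) = pvasIt T s a i := by
          rcases Nat.eq_zero_or_pos i with rfl | hi0
          · exact ⟨P - 1, by omega, by rw [show P - 1 + 1 = P by omega, hper]; rfl⟩
          · exact ⟨i - 1, by omega, by rw [show i - 1 + 1 = i by omega]⟩
        refine ⟨j, hj, ?_⟩
        rw [← e, pvas_it_succ]
        exact pvas_step_sf s _
      · rw [T.opp_opp, ← pvas_it_succ]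
        rcases Nat.lt_or_ge (i + 1) P with hlt | hge
        · exact ⟨i + 1, hlt, T.sf_refl _⟩
        · exact ⟨0, by omega, by rw [show i + 1 = P by omega, hper]; exact T.sf_refl _⟩

theorem pvsw_wall_of_per {a : D} (ha : pvasBW T s a) {P : ℕ} (hP : 1 ≤ P) (hper : pvasIt T s a P = a) : {d | T.Wall s a d}.Finite :=
  (pvas_fc_finite s a P).subset fun _ hd => pvsw_wall_sub_per ha hP hper hd

theorem pvsw_fin_of_per (ha : pvasBW T s (pvswIn Z)) {P : ℕ} (hP : 1 ≤ P) (hper : pvasIt T s (pvswIn Z) P = pvswIn Z) : (Z.Right ∩ {d | T.Wall s (pvswIn Z) d}).Finite :=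
  pvsw_fin_of_wall (pvsw_wall_of_per ha hP hper)

/-- a wall stays inside a monochromatic circuit -/
theorem pvsw_wall_in_circuit (C : T.Cyc) (hC : ∀ i, ¬ T.Occ s (C.e i)) {a d : D} (ha : a ∈ C.Left) (h : T.Wall s a d) : d ∈ C.Left :=
  ReflTransGen.trans ha (pvt_s_wall_djoin C hC h)

theorem pvsw_fin_of_circuit (C : T.Cyc) (hC : ∀ i, ¬ T.Occ s (C.e i)) (hfin : C.Left.Finite) (ha : pvswIn Z ∈ C.Left) : (Z.Right ∩ {d | T.Wall s (pvswIn Z) d}).Finite :=
  pvsw_fin_of_wall (hfin.subset fun _ hd => pvsw_wall_in_circuit C hC ha hd)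

theorem pvsw_col_true (h : PvswTrap s Z n) {i : ℕ} (hi : i % Z.n ≤ n) : s (T.src (Z.e i)) = true := by
  rw [← pl_cyc_mod Z i]; exact h.bl _ hi

theorem pvsw_col_false (h : PvswTrap s Z n) {i : ℕ} (hi : n < i % Z.n) : s (T.src (Z.e i)) = false := by
  rw [← pl_cyc_mod Z i]; exact h.wh _ hi (Nat.mod_lt _ (pl_cyc_pos Z))

/-- a black vertex of the cell is one of the `β_k` -/
theorem pvsw_black_idx (h : PvswTrap s Z n) {v : V} (hv : v ∈ Z.verts) (hb : s v = true) : ∃ k, k ≤ n ∧ v = T.src (Z.e k) := by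
  obtain ⟨i, rfl⟩ := hv
  refine ⟨i % Z.n, ?_, by rw [pl_cyc_mod]⟩
  by_contra hc
  rw [pvsw_col_false h (not_le.1 hc)] at hb
  exact Bool.false_ne_true hb

theorem pvsw_idx_inj (h : PvswTrap s Z n) {k l : ℕ} (hk : k ≤ n) (hl : l ≤ n) (e : T.src (Z.e k) = T.src (Z.e l)) : k = l :=
  Z.inj k l (by have := h.lt; omega) (by have := h.lt; omega) e

theorem pvsw_in_src (Z : T.Cyc) : T.src (pvswIn Z) = T.src (Z.e 0) := by
  have hn := pl_cyc_pos Z
  unfold pvswIn
  rw [T.src_opp', Z.chain, show Z.n - 1 + 1 = 0 + Z.n by omega, Z.per]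

theorem pvsw_in_tgt (Z : T.Cyc) : T.tgt (pvswIn Z) = T.src (Z.e (Z.n - 1)) := by
  unfold pvswIn; rw [T.tgt_opp]

theorem pvsw_in_bw (h : PvswTrap s Z n) : pvasBW T s (pvswIn Z) := by
  have := h.lt
  exact ⟨by rw [pvsw_in_src]; exact h.bl 0 (Nat.zero_le _), by rw [pvsw_in_tgt]; exact h.wh _ (by omega) (by omega)⟩

theorem pvsw_out_bw (h : PvswTrap s Z n) : pvasBW T s (Z.e n) :=
  ⟨h.bl n le_rfl, by rw [Z.chain]; exact h.wh _ (by omega) h.lt⟩

/-- the two bichromatic boundary edges of the cell -/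
theorem pvsw_bdOcc (hT : T.IsSph) (h : PvswTrap s Z n) : pvasBdOcc T Z.Right s = {pvswIn Z, T.opp (Z.e n)} := by
  obtain ⟨hR, hL, hO, hbd⟩ := pl_jordan hT Z
  have hlt := h.lt
  ext d
  constructor
  · rintro ⟨h1, h2, h3⟩
    have h1' : d ∉ Z.Left := by rw [hR] at h1; exact h1
    have h2' : T.opp d ∈ Z.Left := by rw [hR] at h2; exact not_not.1 h2
    have hb : T.Bd Z.Left d := fun hc => h1' (hc.2 h2')
    rcases (hbd d).1 hb with ⟨i, rfl⟩ | ⟨i, hi⟩
    · exact absurd (hL i) h1'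
    · have hd : d = T.opp (Z.e (i % Z.n)) := by rw [pl_cyc_mod, hi, T.opp_opp]
      have hj : i % Z.n < Z.n := Nat.mod_lt _ (pl_cyc_pos Z)
      generalize i % Z.n = j at hd hj
      subst hd
      unfold PvMap.Occ at h3
      rw [T.src_opp', T.tgt_opp, Z.chain] at h3
      rcases lt_trichotomy j n with hjn | hjn | hjn
      · exact absurd ((h.bl (j + 1) (by omega)).trans (h.bl j (by omega)).symm) h3
      · subst hjn; exact Or.inr rfl
      · by_cases hj' : j + 1 < Z.n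
        · exact absurd ((h.wh (j + 1) (by omega) hj').trans (h.wh j hjn hj).symm) h3
        · have : j = Z.n - 1 := by omega
          subst this; exact Or.inl rfl
  · rintro (rfl | rfl)
    · refine ⟨hO _, ?_, pvas_bw_occ (pvsw_in_bw h)⟩
      unfold pvswIn; rw [T.opp_opp, hR]; exact fun hc => hc (hL _)
    · refine ⟨hO _, ?_, ?_⟩
      · rw [T.opp_opp, hR]; exact fun hc => hc (hL _)
      · exact pvas_occ_iff.2 (Or.inr (by rw [T.opp_opp]; exact pvsw_out_bw h))

/-! ## 2. D2: the trap -/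

/-- **D2 (TRAP)**: the strand which enters the cell at `pvswIn Z` stays in the cell and leaves it at `Z.e n` -/
theorem pvsw_trap (hT : T.IsSph) (h : PvswTrap s Z n) :
    ∃ N, 1 ≤ N ∧ (∀ i, i < N → pvasIt T s (pvswIn Z) i ∈ Z.Right) ∧ pvasIt T s (pvswIn Z) N = Z.e n := by
  obtain ⟨hR, hL, hO, -⟩ := pl_jordan hT Z
  have hA : T.FaceSet (Z.Right ∩ {d | T.Wall s (pvswIn Z) d}) := fun d => and_congr (pl_right_face Z d) pl_ra_wall_nxt
  have hin : pvasIn T (Z.Right ∩ {d | T.Wall s (pvswIn Z) d}) s (pvswIn Z) := by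
    refine ⟨⟨hO _, pl_ra_wall_refl s _⟩, fun hc => ?_, pvsw_in_bw h⟩
    have h1 := hc.1
    unfold pvswIn at h1
    rw [T.opp_opp, hR] at h1
    exact h1 (hL _)
  obtain ⟨h1, h2, h3, h4, h5⟩ := pvas_exit_spec hA h.fin hin
  refine ⟨_, h1, fun i hi => (h2 i hi).1, ?_⟩
  have hx : pvasExit T (Z.Right ∩ {d | T.Wall s (pvswIn Z) d}) s (pvswIn Z) = pvasIt T s (pvswIn Z) (pvasHit T s (pvswIn Z) (Z.Right ∩ {d | T.Wall s (pvswIn Z) d})ᶜ) := rfl
  rw [← hx]
  generalize pvasExit T (Z.Right ∩ {d | T.Wall s (pvswIn Z) d}) s (pvswIn Z) = x at h3 h4 h5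
  have hxw : T.Wall s (pvswIn Z) x := by
    have h6 : T.Wall s (pvswIn Z) (T.opp (T.opp x)) := ReflTransGen.tail h4.2 (Or.inr ⟨pl_ra_occ_opp (pvas_bw_occ h5), rfl⟩)
    rwa [T.opp_opp] at h6
  have hxR : x ∉ Z.Right := fun hc => h3 ⟨hc, hxw⟩
  have hmem : T.opp x ∈ pvasBdOcc T Z.Right s := ⟨h4.1, by rw [T.opp_opp]; exact hxR, pl_ra_occ_opp (pvas_bw_occ h5)⟩
  rw [pvsw_bdOcc hT h] at hmem
  rcases hmem with e | e
  · exact absurd (by rw [e]; exact pvsw_in_bw h) (pvas_bw_not_opp h5)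
  · exact T.opp_injective e

/-- the layers of the trapped strand are vertices of faces of the cell -/
theorem pvsw_trap_lay (hT : T.IsSph) (h : PvswTrap s Z n) {N : ℕ} (hN : ∀ i, i < N → pvasIt T s (pvswIn Z) i ∈ Z.Right) (hout : pvasIt T s (pvswIn Z) N = Z.e n) :
    pvasLayB T s (pvswIn Z) N ∪ pvasLayW T s (pvswIn Z) N ⊆ T.VOf Z.Right := by
  obtain ⟨hR, hL, hO, hbd⟩ := pl_jordan hT Z
  have hF := pl_right_face Z
  have hlast : T.src (Z.e n) ∈ T.VOf Z.Right ∧ T.tgt (Z.e n) ∈ T.VOf Z.Right :=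
    ⟨⟨T.nxt (T.opp (Z.e n)), (hF _).2 (hO n), by rw [T.src_nxt, T.tgt_opp]⟩, ⟨T.opp (Z.e n), hO n, T.src_opp' _⟩⟩
  rintro v (⟨i, hi, rfl⟩ | ⟨i, hi, rfl⟩)
  · rcases Nat.lt_or_ge i N with hlt | hge
    · exact ⟨_, hN i hlt, rfl⟩
    · rw [show i = N by omega, hout]; exact hlast.1
  · rcases Nat.lt_or_ge i N with hlt | hge
    · exact ⟨_, (hF _).2 (hN i hlt), rfl⟩
    · rw [show i = N by omega, hout]; exact hlast.2

/-! ## 3. beads and the step lemma -/

theorem pvsw_bj_off {u v : V} (hu : u ∉ Z.verts) (h : pvswBJ s Z u v) : v ∉ Z.verts := by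
  rcases ReflTransGen.cases_tail h with e | ⟨w, -, -, -, hv⟩
  · rw [e]; exact hu
  · exact hv

theorem pvsw_bj_black {u v : V} (hu : s u = true) (h : pvswBJ s Z u v) : s v = true := by
  rcases ReflTransGen.cases_tail h with e | ⟨w, -, -, hv, -⟩
  · rw [e]; exact hu
  · exact hv

theorem pvsw_bj_symm {u v : V} (hu : s u = true) (hu' : u ∉ Z.verts) (h : pvswBJ s Z u v) : pvswBJ s Z v u := by
  induction h with
  | refl => exact ReflTransGen.refl
  | @tail b c hab hbc ih =>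
    exact ReflTransGen.head ⟨T.adj_symm hbc.1, pvsw_bj_black hu hab, pvsw_bj_off hu' hab⟩ ih

/-- a vertex of a bead is `β_k` or lies off the cycle -/
theorem pvsw_at_off (hnb : PvswNB s Z n) {k : ℕ} (hk : k ≤ n) {u : V} (h : PvswAt s Z k u) : u = T.src (Z.e k) ∨ u ∉ Z.verts := by
  rcases h with e | ⟨d, hd, hj⟩
  · exact Or.inl e
  · exact Or.inr (pvsw_bj_off (hnb k hk d hd).1 hj)

theorem pvsw_at_verts (hnb : PvswNB s Z n) {k : ℕ} (hk : k ≤ n) {u : V} (h : PvswAt s Z k u) (hu : u ∈ Z.verts) : u = T.src (Z.e k) :=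
  (pvsw_at_off hnb hk h).resolve_right fun hc => hc hu

theorem pvsw_at_black (h : PvswTrap s Z n) {k : ℕ} (hk : k ≤ n) {u : V} (hat : PvswAt s Z k u) : s u = true := by
  rcases hat with e | ⟨d, hd, hj⟩
  · rw [e]; exact h.bl k hk
  · exact pvsw_bj_black hd.2.2.2 hj

/-- **the step lemma**: the black end of the strand stays in the bead of `β_k`, unless the strand crosses the face on the right of the dart `Z.e k` -/
theorem pvsw_step (hT : T.IsSph) (h : PvswTrap s Z n) (hnb : PvswNB s Z n) {a : D} (ha : a ∈ Z.Right) {k : ℕ} (hk : k ≤ n) (hat : PvswAt s Z k (T.src a)) :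
    PvswAt s Z k (T.src (pvasStep T s a)) ∨ (k < n ∧ a = T.nxt (T.opp (Z.e k)) ∧ T.src (pvasStep T s a) = T.src (Z.e (k + 1))) := by
  obtain ⟨hR, hL, hO, hbd⟩ := pl_jordan hT Z
  rcases pvas_step_ends s a with ⟨hap, e1, -⟩ | ⟨hap, e1, -⟩
  swap
  · left; rw [e1]; exact hat
  rw [e1]
  have hb_src : T.src (T.rot a) = T.src a := T.src_rot a
  have hb_tgt : T.tgt (T.rot a) = T.apex a := T.tgt_rot a
  have hb_opp : T.opp (T.rot a) = T.nxt (T.nxt a) := by unfold PvMap.rot; rw [T.opp_opp]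
  have hb_oppR : T.opp (T.rot a) ∈ Z.Right := by rw [hb_opp]; exact ((pl_right_face Z).nxt2 T a).2 ha
  rcases hat with hsrc | ⟨d, hd, hj⟩
  · by_cases hE : T.Edg Z.darts (T.rot a)
    · right
      have hn := pl_cyc_pos Z
      have hidx : Z.e (k + Z.n - 1 + 1) = Z.e k := by rw [show k + Z.n - 1 + 1 = k + Z.n by omega, Z.per]
      rcases pl_cyc_at Z (k + Z.n - 1) (d := T.rot a) (by rw [hidx, hb_src, hsrc]) hE with e | e
      · rw [hidx] at e
        have hk' : k < n := by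
          by_contra hc
          have hkn : k = n := by omega
          subst hkn
          have h2 := (pvsw_out_bw h).2
          rw [← e, hb_tgt, hap] at h2
          exact Bool.false_ne_true h2.symm
        refine ⟨hk', ?_, ?_⟩
        · rw [← e, hb_opp, T.nxt3]
        · rw [← hb_tgt, e, Z.chain]
      · exfalso
        rw [e, T.opp_opp, hR] at hb_oppR
        exact hb_oppR (hL _)
    · left
      rcases pl_edge_side hT Z hE with ⟨-, h2⟩ | ⟨h1, h2⟩
      · rw [hR] at hb_oppR; exact absurd h2 hb_oppR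
      · exact Or.inr ⟨T.rot a, ⟨by rw [hb_src, hsrc], h1, h2, by rw [hb_tgt]; exact hap⟩, by rw [hb_tgt]; exact ReflTransGen.refl⟩
  · left
    have hadj : T.Adj (T.src a) (T.apex a) := ⟨T.rot a, hb_src, hb_tgt⟩
    by_cases hv : T.apex a ∈ Z.verts
    · obtain ⟨l, hl, e⟩ := pvsw_black_idx h hv hap
      have hlk := (hnb k hk d hd).2 _ hj l hl (by rw [← e]; exact hadj)
      subst hlk
      exact Or.inl e
    · exact Or.inr ⟨d, hd, ReflTransGen.tail hj ⟨hadj, hap, hv⟩⟩

/-! ## 4. D3: the sweep -/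

/-- **D3 (SWEEP)**.   Under NO BYPASS the trapped strand crosses the faces on the right of the darts `Z.e 0, …, Z.e (n-1)` of `β` in this order (time `τ k` = position `nxt (opp (Z.e k)) : β_k → apex`),
and at every time `j` with `τ (k-1) < j ≤ τ k` its black end lies in the bead of `β_k`. -/
theorem pvsw_sweep (hT : T.IsSph) (h : PvswTrap s Z n) (hnb : PvswNB s Z n) {N : ℕ} (hN : ∀ i, i < N → pvasIt T s (pvswIn Z) i ∈ Z.Right)
    (hout : pvasIt T s (pvswIn Z) N = Z.e n) :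
    ∃ τ : ℕ → ℕ, (∀ k, k < n → τ k < N ∧ pvasIt T s (pvswIn Z) (τ k) = T.nxt (T.opp (Z.e k))) ∧ (∀ k l, k < l → l < n → τ k < τ l) ∧
      ∀ j, j ≤ N → ∃ k, k ≤ n ∧ PvswAt s Z k (T.src (pvasIt T s (pvswIn Z) j)) ∧ (∀ i, i < k → τ i < j) ∧ ∀ i, k ≤ i → i < n → j ≤ τ i := by
  have key : ∀ j, j ≤ N → ∃ (τ : ℕ → ℕ) (k : ℕ), k ≤ n ∧ PvswAt s Z k (T.src (pvasIt T s (pvswIn Z) j)) ∧
      (∀ i, i < k → τ i < j ∧ pvasIt T s (pvswIn Z) (τ i) = T.nxt (T.opp (Z.e i))) ∧ (∀ i l, i < l → l < k → τ i < τ l) ∧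
      ∀ j', j' ≤ j → ∃ k', k' ≤ k ∧ PvswAt s Z k' (T.src (pvasIt T s (pvswIn Z) j')) ∧ (∀ i, i < k' → τ i < j') ∧ ∀ i, k' ≤ i → i < k → j' ≤ τ i := by
    intro j
    induction j with
    | zero =>
      intro _
      have h0 : PvswAt s Z 0 (T.src (pvasIt T s (pvswIn Z) 0)) := Or.inl (by rw [pvas_it_zero, pvsw_in_src])
      refine ⟨fun _ => 0, 0, Nat.zero_le _, h0, fun i hi => absurd hi (Nat.not_lt_zero _), fun i l _ hl => absurd hl (Nat.not_lt_zero _), ?_⟩
      intro j' hj'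
      obtain rfl : j' = 0 := by omega
      exact ⟨0, le_rfl, h0, fun i hi => absurd hi (Nat.not_lt_zero _), fun i _ hi => absurd hi (Nat.not_lt_zero _)⟩
    | succ j ih =>
      intro hj
      obtain ⟨τ, k, hk, hat, h1, h2, h3⟩ := ih (by omega)
      rcases pvsw_step hT h hnb (hN j (by omega)) hk hat with hs | ⟨hkn, ha, hs⟩
      · rw [← pvas_it_succ] at hs
        refine ⟨τ, k, hk, hs, fun i hi => ⟨by have := (h1 i hi).1; omega, (h1 i hi).2⟩, h2, ?_⟩
        intro j' hj'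
        rcases Nat.lt_or_ge j j' with hlt | hge
        · obtain rfl : j' = j + 1 := by omega
          exact ⟨k, le_rfl, hs, fun i hi => by have := (h1 i hi).1; omega, fun i hi hi' => by omega⟩
        · exact h3 j' hge
      · rw [← pvas_it_succ] at hs
        have hτ : ∀ i, i < k → (fun i => if i = k then j else τ i) i = τ i := fun i hi => if_neg (by omega)
        have hτk : (fun i => if i = k then j else τ i) k = j := if_pos rfl
        refine ⟨fun i => if i = k then j else τ i, k + 1, hkn, Or.inl hs, ?_, ?_, ?_⟩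
        · intro i hi
          rcases Nat.lt_or_ge i k with hlt | hge
          · rw [hτ i hlt]; exact ⟨by have := (h1 i hlt).1; omega, (h1 i hlt).2⟩
          · obtain rfl : i = k := by omega
            rw [hτk]; exact ⟨by omega, ha⟩
        · intro i l hil hl
          rw [hτ i (by omega)]
          rcases Nat.lt_or_ge l k with hlt | hge
          · rw [hτ l hlt]; exact h2 i l hil hlt
          · obtain rfl : l = k := by omega
            rw [hτk]; exact (h1 i hil).1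
        · intro j' hj'
          rcases Nat.lt_or_ge j j' with hlt | hge
          · obtain rfl : j' = j + 1 := by omega
            refine ⟨k + 1, le_rfl, Or.inl hs, ?_, fun i hi hi' => by omega⟩
            intro i hi
            rcases Nat.lt_or_ge i k with hlt' | hge'
            · rw [hτ i hlt']; have := (h1 i hlt').1; omega
            · obtain rfl : i = k := by omega
              rw [hτk]; omega
          · obtain ⟨k', hk', hat', h4, h5⟩ := h3 j' hge
            refine ⟨k', by omega, hat', fun i hi => by rw [hτ i (by omega)]; exact h4 i hi, ?_⟩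
            intro i hi hi'
            rcases Nat.lt_or_ge i k with hlt' | hge'
            · rw [hτ i hlt']; exact h5 i hi hlt'
            · obtain rfl : i = k := by omega
              rw [hτk]; exact hge
  obtain ⟨τ, k, hk, hat, h1, h2, h3⟩ := key N le_rfl
  have hkn : k = n := by
    rw [hout] at hat
    exact (pvsw_idx_inj h le_rfl hk (pvsw_at_verts hnb hk hat ⟨n, rfl⟩)).symm
  subst hkn
  exact ⟨τ, h1, h2, h3⟩

/-! ## 5. consequences for CLOSE: the arc `β` is faced in the cell -/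

/-- the right apexes of `β` are white and joined, inside the cell and by white vertices, to the last white vertex of the cell -/
theorem pvsw_faced_cyc (hT : T.IsSph) (h : PvswTrap s Z n) (hnb : PvswNB s Z n) {k : ℕ} (hk : k < n) :
    s (T.apex (T.opp (Z.e k))) = false ∧ T.opp (Z.e k) ∈ Z.Right ∧ T.Join Z.Right {v | s v = false} (T.apex (T.opp (Z.e k))) (T.src (Z.e (Z.n - 1))) := by
  obtain ⟨N, hN1, hN, hout⟩ := pvsw_trap hT h
  obtain ⟨τ, h1, -, -⟩ := pvsw_sweep hT h hnb hN hout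
  obtain ⟨hlt, e⟩ := h1 k hk
  have hbw := pvas_it_bw (pvsw_in_bw h) (τ k)
  have htgt : T.tgt (pvasIt T s (pvswIn Z) (τ k)) = T.apex (T.opp (Z.e k)) := by rw [e, T.tgt_nxt]
  refine ⟨by rw [← htgt]; exact hbw.2, (pl_jordan hT Z).2.2.1 k, ?_⟩
  have hj := pvas_layW_join (T := T) s (pvswIn Z) (i := τ k) (n := N) hlt.le
  rw [htgt, pvsw_in_tgt] at hj
  exact pl_hx_join_symm (pl_hx_join_mono (pvas_fc_sub (pl_right_face Z) hN) (fun v hv => pvas_layW_white (pvsw_in_bw h) hv) hj)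

/-- the white arc of the cell is a white join inside the cell -/
theorem pvsw_white_join (hT : T.IsSph) (h : PvswTrap s Z n) {i j : ℕ} (hi : n < i) (hij : i ≤ j) (hj : j < Z.n) :
    T.Join Z.Right {v | s v = false} (T.src (Z.e i)) (T.src (Z.e j)) := by
  refine ⟨h.wh i hi (by omega), ?_⟩
  induction j, hij using Nat.le_induction with
  | base => exact ReflTransGen.refl
  | succ j hij ih =>
    exact ReflTransGen.tail (ih (by omega)) ⟨⟨Z.e j, Or.inr ((pl_jordan hT Z).2.2.1 j), rfl, Z.chain j⟩, h.wh (j + 1) (by omega) hj⟩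

/-- the same with any white vertex of the cell as anchor -/
theorem pvsw_faced_cyc' (hT : T.IsSph) (h : PvswTrap s Z n) (hnb : PvswNB s Z n) {k : ℕ} (hk : k < n) {i : ℕ} (hi : n < i) (hi' : i < Z.n) :
    T.Join Z.Right {v | s v = false} (T.apex (T.opp (Z.e k))) (T.src (Z.e i)) :=
  pl_hx_join_trans (pvsw_faced_cyc hT h hnb hk).2.2 (pl_hx_join_symm (pvsw_white_join hT h hi (by omega) (by have := pl_cyc_pos Z; omega)))

/-- a black path and a path with white inner vertices which are glued to a cycle form a cell -/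
theorem pvsw_trap_glue (p q : T.Pth) (hg : p.Glue q) (hp : ∀ i, i ≤ p.n → s (p.v i) = true) (hq : ∀ x ∈ q.inner, s x = false) (hq2 : 2 ≤ q.n)
    (hfin : ((p.glue q hg).Right ∩ {d | T.Wall s (pvswIn (p.glue q hg)) d}).Finite) : PvswTrap s (p.glue q hg) p.n where
  lt := by rw [pl_pth_glue_n]; omega
  bl := fun k hk => by rw [pl_pth_glue_src1 p q hg hk]; exact hp k hk
  wh := fun k hk hk' => by
    rw [pl_pth_glue_n] at hk'
    obtain ⟨j, rfl⟩ := Nat.exists_eq_add_of_le hk.le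
    rw [pl_pth_glue_src2 p q hg (by omega)]
    exact hq _ ⟨j, by omega, by omega, rfl⟩
  fin := hfin

/-- **NO BYPASS ⇒ FACED** (vocabulary of `Tr/Close`): `p` black, the inner vertices of `q` white, `p.glue q` a cell without bypass.   Then `p` is faced in the cell, with any inner vertex of `q` as anchor. -/
theorem pvsw_faced (hT : T.IsSph) (p q : T.Pth) (hg : p.Glue q) (hp : ∀ i, i ≤ p.n → s (p.v i) = true) (hq : ∀ x ∈ q.inner, s x = false)
    (hfin : ((p.glue q hg).Right ∩ {d | T.Wall s (pvswIn (p.glue q hg)) d}).Finite) (hnb : PvswNB s (p.glue q hg) p.n) {ρ : V} (hρ : ρ ∈ q.inner) : p.Faced s (p.glue q hg).Right ρ := by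
  obtain ⟨j, hj0, hjn, rfl⟩ := hρ
  have hw : s (q.v j) = false := hq _ ⟨j, hj0, hjn, rfl⟩
  have h := pvsw_trap_glue p q hg hp hq (by omega) hfin
  refine ⟨fun i hi => by rw [hp i hi, hw]; exact fun hc => Bool.false_ne_true hc.symm, fun i hi => ?_⟩
  have h1 := pvsw_faced_cyc hT h hnb hi
  have h2 := pvsw_faced_cyc' hT h hnb hi (i := p.n + j) (by omega) (by rw [pl_pth_glue_n]; omega)
  rw [pl_pth_glue_e1 p q hg hi] at h1 h2
  rw [pl_pth_glue_src2 p q hg hjn.le] at h2
  rw [hw]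
  exact ⟨h1.2.1, h2⟩

theorem pvsw_gfaced (hT : T.IsSph) (p q : T.Pth) (hg : p.Glue q) (hp : ∀ i, i ≤ p.n → s (p.v i) = true) (hq : ∀ x ∈ q.inner, s x = false)
    (hfin : ((p.glue q hg).Right ∩ {d | T.Wall s (pvswIn (p.glue q hg)) d}).Finite) (hnb : PvswNB s (p.glue q hg) p.n) {ρ : V} (hρ : ρ ∈ q.inner) : p.GFaced s ρ :=
  (pvsw_faced hT p q hg hp hq hfin hnb hρ).gfaced

/-! ## 6. how to get NO BYPASS; monotonicity and locality -/

theorem pvsw_sp_head (hT : T.IsSph) {k : ℕ} {d : D} (hd : PvswSp s Z k d) : T.tgt d ∈ Z.verts ∨ T.tgt d ∈ T.Int Z.Right := by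
  by_cases hv : T.tgt d ∈ Z.verts
  · exact Or.inl hv
  · have h1 := pvt_c_int_of_right hT Z (d := T.opp d) hd.2.2.1 (by rw [T.src_opp']; exact hv)
    rw [T.src_opp'] at h1
    exact Or.inr h1

theorem pvsw_bj_int (hT : T.IsSph) {u v : V} (hu : u ∈ T.Int Z.Right) (h : pvswBJ s Z u v) : v ∈ T.Int Z.Right :=
  pl_int_sep hT (pl_right_face Z) (X := Z.vertsᶜ) (fun _ hv _ hd hb => pl_cyc_off Z (hd ▸ hv) (pl_right_bd_sub Z hb)) hu
    (ReflTransGen.mono (fun _ _ hab => ⟨hab.1, hab.2.2⟩) _ _ h)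

/-- the beads lie in the open cell, up to their base points -/
theorem pvsw_at_int (hT : T.IsSph) (hnb : PvswNB s Z n) {k : ℕ} (hk : k ≤ n) {u : V} (h : PvswAt s Z k u) : u = T.src (Z.e k) ∨ u ∈ T.Int Z.Right := by
  rcases h with e | ⟨d, hd, hj⟩
  · exact Or.inl e
  · exact Or.inr (pvsw_bj_int hT ((pvsw_sp_head hT hd).resolve_left (hnb k hk d hd).1) hj)

/-- distinct beads are disjoint -/
theorem pvsw_at_disj (h : PvswTrap s Z n) (hnb : PvswNB s Z n) {k l : ℕ} (hk : k ≤ n) (hl : l ≤ n) {u : V} (hu : PvswAt s Z k u) (hu' : PvswAt s Z l u) : k = l := by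
  rcases hu with e | ⟨d, hd, hj⟩
  · have h1 := pvsw_at_verts hnb hl hu' (by rw [e]; exact ⟨k, rfl⟩)
    exact pvsw_idx_inj h hk hl (e.symm.trans h1)
  · rcases hu' with e | ⟨d', hd', hj'⟩
    · exact absurd (show u ∈ Z.verts by rw [e]; exact ⟨l, rfl⟩) (pvsw_bj_off (hnb k hk d hd).1 hj)
    · have h1 : pvswBJ s Z (T.tgt d) (T.tgt d') := hj.trans (pvsw_bj_symm hd'.2.2.2 (hnb l hl d' hd').1 hj')
      exact ((hnb k hk d hd).2 _ h1 l hl ⟨T.opp d', T.src_opp' d', by rw [T.tgt_opp, hd'.1]⟩).symm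

/-- **NO BYPASS is decreasing in black** -/
theorem pvsw_nb_anti {s s' : V → Bool} (hle : ∀ v, s' v = true → s v = true) (h : PvswNB s Z n) : PvswNB s' Z n := by
  intro k hk d hd
  have hd' : PvswSp s Z k d := ⟨hd.1, hd.2.1, hd.2.2.1, hle _ hd.2.2.2⟩
  exact ⟨(h k hk d hd').1, fun v hv => (h k hk d hd').2 v (ReflTransGen.mono (fun _ _ hab => ⟨hab.1, hle _ hab.2.1, hab.2.2⟩) _ _ hv)⟩

/-- **NO BYPASS reads the colours of the closed cell only** -/
theorem pvsw_nb_congr (hT : T.IsSph) {s s' : V → Bool} (hs : ∀ v ∈ T.Int Z.Right, s' v = s v) (hz : ∀ v ∈ Z.verts, s' v = s v) (h : PvswNB s Z n) : PvswNB s' Z n := by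
  intro k hk d hd
  have hcol : s (T.tgt d) = true := by
    rcases pvsw_sp_head hT hd with hv | hv
    · rw [← hz _ hv]; exact hd.2.2.2
    · rw [← hs _ hv]; exact hd.2.2.2
  have hd' : PvswSp s Z k d := ⟨hd.1, hd.2.1, hd.2.2.1, hcol⟩
  have hoff := (h k hk d hd').1
  have hint := (pvsw_sp_head hT hd).resolve_left hoff
  refine ⟨hoff, fun v hv => (h k hk d hd').2 v ?_⟩
  induction hv with
  | refl => exact ReflTransGen.refl
  | @tail b c hab hbc ih =>
    have hc : c ∈ T.Int Z.Right := pvsw_bj_int hT hint (ReflTransGen.tail hab hbc)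
    exact ReflTransGen.tail ih ⟨hbc.1, by rw [← hs _ hc]; exact hbc.2.1, hbc.2.2⟩

/-- NO BYPASS in a vertex region `U`, read on `β` only: a spoke is not a chord of `β`, and the black cluster of its head in `U` minus `β` touches no other vertex of `β` -/
def PvswNBU (s : V → Bool) (Z : T.Cyc) (n : ℕ) (U : Set V) : Prop :=
  ∀ k, k ≤ n → ∀ d, PvswSp s Z k d → (∀ l, l ≤ n → T.tgt d ≠ T.src (Z.e l)) ∧
    ∀ v, ReflTransGen (fun u v => T.Adj u v ∧ s v = true ∧ v ∈ U ∧ ∀ l, l ≤ n → v ≠ T.src (Z.e l)) (T.tgt d) v → ∀ l, l ≤ n → T.Adj v (T.src (Z.e l)) → l = k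

theorem pvsw_nbu_eqns_cite : True := by
  have := @PvswNBU.eq_1
  trivial

theorem pvsw_nbu_anti {U U' : Set V} (hU : U' ⊆ U) (h : PvswNBU s Z n U) : PvswNBU s Z n U' := fun k hk d hd =>
  ⟨(h k hk d hd).1, fun v hv => (h k hk d hd).2 v (ReflTransGen.mono (fun _ _ hab => ⟨hab.1, hab.2.1, hU hab.2.2.1, hab.2.2.2⟩) _ _ hv)⟩

/-- **from a region to the cell**: the white arc closes the cell, so a bypass inside the cell is a bypass in any region which contains the open cell -/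
theorem pvsw_nb_of_region (hT : T.IsSph) (h : PvswTrap s Z n) {U : Set V} (hU : T.Int Z.Right ⊆ U) (hnb : PvswNBU s Z n U) : PvswNB s Z n := by
  intro k hk d hd
  have hoff : T.tgt d ∉ Z.verts := fun hv => by
    obtain ⟨l, hl, e⟩ := pvsw_black_idx h hv hd.2.2.2
    exact (hnb k hk d hd).1 l hl e
  have hint := (pvsw_sp_head hT hd).resolve_left hoff
  refine ⟨hoff, fun v hv => (hnb k hk d hd).2 v ?_⟩
  induction hv with
  | refl => exact ReflTransGen.refl
  | @tail b c hab hbc ih =>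
    have hc : c ∈ T.Int Z.Right := pvsw_bj_int hT hint (ReflTransGen.tail hab hbc)
    exact ReflTransGen.tail ih ⟨hbc.1, hbc.2.1, hU hc, fun l _ e => hbc.2.2 ⟨l, e.symm⟩⟩

/-! ## 7. EXISTENCE of a faced path in a cell (L9 of 194, D6 of 6): no hypothesis on bypasses -/

/-- a walk along darts of a set `B` contains a simple path along darts of `B` -/
theorem pvsw_pth_of_walk {B : Set D} (d₀ : D) {a b : V} (h : ReflTransGen (fun u v => ∃ d ∈ B, T.src d = u ∧ T.tgt d = v) a b) :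
    ∃ p : T.Pth, p.v 0 = a ∧ p.v p.n = b ∧ ∀ i, i < p.n → p.e i ∈ B := by
  induction h with
  | refl => exact ⟨PvMap.Pth.nil T a d₀, rfl, rfl, fun i hi => absurd hi (Nat.not_lt_zero i)⟩
  | tail _ hstep ih =>
    obtain ⟨p, p0, p1, pB⟩ := ih
    obtain ⟨d, hdB, hds, hdt⟩ := hstep
    by_cases hw : T.tgt d ∈ p.verts
    · obtain ⟨i, hi, hiw⟩ := hw
      refine ⟨p.seg 0 i, ?_, ?_, ?_⟩
      · show p.v (0 + 0) = a
        exact p0
      · show p.v (0 + (min i p.n - 0)) = _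
        rw [Nat.min_eq_left hi, Nat.sub_zero, Nat.zero_add, hiw, hdt]
      · intro k hk
        have hk' : k < min i p.n - 0 := hk
        show p.e (0 + k) ∈ B
        rw [Nat.zero_add]
        exact pB k (by omega)
    · refine ⟨p.snoc d (by rw [hds, p1]) hw, ?_, ?_, ?_⟩
      · show (if 0 ≤ p.n then p.v 0 else T.tgt d) = a
        rw [if_pos (Nat.zero_le _), p0]
      · show (if p.n + 1 ≤ p.n then p.v (p.n + 1) else T.tgt d) = _
        rw [if_neg (by omega), hdt]
      · intro k hk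
        show (if k < p.n then p.e k else d) ∈ B
        by_cases h : k < p.n
        · rw [if_pos h]; exact pB k h
        · rw [if_neg h]; exact hdB

/-- the BANK DARTS of the positions `0..N-1` of the strand of `x`: `rot a : src a → apex a` for the positions `a` with a black apex -/
def pvswBank (T : PvMap V D) (s : V → Bool) (x : D) (N : ℕ) : Set D := {b | ∃ j, j < N ∧ s (T.apex (pvasIt T s x j)) = true ∧ b = T.rot (pvasIt T s x j)}

theorem pvsw_bank_eqns_cite : True := by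
  have := @pvswBank.eq_1
  trivial

/-- the black ends of the positions form a walk along the bank darts -/
theorem pvsw_bank_walk (s : V → Bool) (x : D) (N : ℕ) {j : ℕ} (hj : j ≤ N) :
    ReflTransGen (fun u v => ∃ d ∈ pvswBank T s x N, T.src d = u ∧ T.tgt d = v) (T.src x) (T.src (pvasIt T s x j)) := by
  induction j with
  | zero => exact ReflTransGen.refl
  | succ j ih =>
    have ih' := ih (by omega)
    rw [pvas_it_succ]
    rcases pvas_step_ends s (pvasIt T s x j) with ⟨hap, e1, -⟩ | ⟨hap, e1, -⟩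
    · rw [e1]
      exact ReflTransGen.tail ih' ⟨T.rot (pvasIt T s x j), ⟨j, by omega, hap, rfl⟩, T.src_rot _, T.tgt_rot _⟩
    · rw [e1]; exact ih'

/-- a bank dart: black ends, its right face is the face which is crossed, its right apex is the white end of the position -/
theorem pvsw_bank_dart {x : D} (hx : pvasBW T s x) {N : ℕ} {b : D} (hb : b ∈ pvswBank T s x N) :
    ∃ j, j < N ∧ s (T.src b) = true ∧ s (T.tgt b) = true ∧ T.opp b = T.nxt (T.nxt (pvasIt T s x j)) ∧ T.apex (T.opp b) = T.tgt (pvasIt T s x j) := by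
  obtain ⟨j, hj, hap, rfl⟩ := hb
  have ho : T.opp (T.rot (pvasIt T s x j)) = T.nxt (T.nxt (pvasIt T s x j)) := by unfold PvMap.rot; rw [T.opp_opp]
  exact ⟨j, hj, by rw [T.src_rot]; exact (pvas_it_bw hx j).1, by rw [T.tgt_rot]; exact hap, ho, by rw [ho, T.apex_nxt2]⟩

/-- **EXISTENCE (two lanes ⇒ a faced path)**: in a cell there is a black simple path from `β_0` to `β_n`, inside the closed cell, which is faced in the cell with any white vertex of the cell as anchor -/
theorem pvsw_exist (hT : T.IsSph) (h : PvswTrap s Z n) {i : ℕ} (hi : n < i) (hi' : i < Z.n) :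
    ∃ g : T.Pth, g.v 0 = T.src (Z.e 0) ∧ g.v g.n = T.src (Z.e n) ∧ g.Faced s Z.Right (T.src (Z.e i)) ∧ g.verts ⊆ T.VOf Z.Right := by
  obtain ⟨N, hN1, hN, hout⟩ := pvsw_trap hT h
  have hx := pvsw_in_bw h
  have hF := pl_right_face Z
  obtain ⟨g, g0, g1, gB⟩ := pvsw_pth_of_walk (Z.e 0) (pvsw_bank_walk (T := T) s (pvswIn Z) N (le_refl N))
  rw [pvsw_in_src] at g0
  rw [hout] at g1
  have hw : s (T.src (Z.e i)) = false := h.wh i hi hi'
  have hbl : ∀ k, k ≤ g.n → s (g.v k) = true := by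
    intro k hk
    rcases Nat.lt_or_ge k g.n with hlt | hge
    · obtain ⟨j, -, h1, -⟩ := pvsw_bank_dart hx (gB k hlt)
      rw [← g.src_e k hlt]; exact h1
    · rw [show k = g.n by omega, g1]; exact h.bl n le_rfl
  refine ⟨g, g0, g1, ⟨fun k hk => by rw [hbl k hk, hw]; exact fun hc => Bool.false_ne_true hc.symm, fun k hk => ?_⟩, ?_⟩
  · obtain ⟨j, hj, -, -, ho, ha⟩ := pvsw_bank_dart hx (gB k hk)
    refine ⟨by rw [ho]; exact (hF.nxt2 T _).2 (hN j hj), ?_⟩
    have hjn := pvas_layW_join (T := T) s (pvswIn Z) (i := j) (n := N) hj.le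
    rw [pvsw_in_tgt] at hjn
    rw [ha, hw]
    exact pl_hx_join_trans (pl_hx_join_symm (pl_hx_join_mono (pvas_fc_sub hF hN) (fun v hv => pvas_layW_white hx hv) hjn))
      (pl_hx_join_symm (pvsw_white_join hT h hi (by omega) (by have := pl_cyc_pos Z; omega)))
  · rintro v ⟨k, hk, rfl⟩
    rcases Nat.lt_or_ge k g.n with hlt | hge
    · obtain ⟨j, hj, -, -, ho, -⟩ := pvsw_bank_dart hx (gB k hlt)
      refine ⟨T.nxt (T.opp (g.e k)), (hF _).2 (by rw [ho]; exact (hF.nxt2 T _).2 (hN j hj)), ?_⟩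
      rw [T.src_nxt, T.tgt_opp, g.src_e k hlt]
    · rw [show k = g.n by omega, g1]
      exact ⟨T.nxt (T.opp (Z.e n)), (hF _).2 ((pl_jordan hT Z).2.2.1 n), by rw [T.src_nxt, T.tgt_opp]⟩

/-- the same in the vocabulary of `Tr/Close`: `p` = ANY black path, `q` = a path back with white inner vertices (two lanes).   The faced path `g` has the ends of `p` and is glued to `q` again. -/
theorem pvsw_exist_glue (hT : T.IsSph) (p q : T.Pth) (hg : p.Glue q) (hp : ∀ i, i ≤ p.n → s (p.v i) = true) (hq : ∀ x ∈ q.inner, s x = false)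
    (hfin : ((p.glue q hg).Right ∩ {d | T.Wall s (pvswIn (p.glue q hg)) d}).Finite) {ρ : V} (hρ : ρ ∈ q.inner) :
    ∃ g : T.Pth, g.v 0 = p.v 0 ∧ g.v g.n = p.v p.n ∧ g.Faced s (p.glue q hg).Right ρ ∧ g.verts ⊆ T.VOf (p.glue q hg).Right ∧ g.Glue q := by
  obtain ⟨j, hj0, hjn, rfl⟩ := hρ
  have hw : s (q.v j) = false := hq _ ⟨j, hj0, hjn, rfl⟩
  have h := pvsw_trap_glue p q hg hp hq (by omega) hfin
  obtain ⟨g, g0, g1, gF, gV⟩ := pvsw_exist hT h (i := p.n + j) (by omega) (by rw [pl_pth_glue_n]; omega)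
  rw [pl_pth_glue_src1 p q hg (Nat.zero_le _)] at g0
  rw [pl_pth_glue_src1 p q hg le_rfl] at g1
  rw [pl_pth_glue_src2 p q hg hjn.le] at gF
  refine ⟨g, g0, g1, gF, gV, ⟨g1.trans hg.h1, hg.h2.trans g0.symm, ?_, ?_⟩⟩
  · have hpos : 0 < g.n := by
      by_contra hc
      have h0 : g.n = 0 := by omega
      rw [h0, g0] at g1
      have := p.inj 0 p.n (Nat.zero_le _) le_rfl g1
      have := (pl_pth_glue_pos hg).1
      omega
    omega
  · intro a b ha hb e
    have hbl : s (g.v a) = true := by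
      have h1 := gF.1 a ha
      rw [hw] at h1
      cases hs : s (g.v a)
      · exact absurd hs h1
      · rfl
    rcases Nat.eq_zero_or_pos b with rfl | hb0
    · left
      exact ⟨g.inj a g.n ha le_rfl (by rw [e, g1, hg.h1]), rfl⟩
    · rcases Nat.lt_or_ge b q.n with hlt | hge
      · rw [e, hq _ ⟨b, hb0, hlt, rfl⟩] at hbl
        exact absurd hbl Bool.false_ne_true
      · obtain rfl : b = q.n := by omega
        right
        exact ⟨g.inj a 0 ha (Nat.zero_le _) (by rw [e, g0, hg.h2]), rfl⟩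

/-! ## 8. PIECE form (ruling 2 of 194): the right triangles are tags on the wall of the entrance -/

/-- a bank dart of a strand is a bank dart of its wall (set form of `pvt_s_bank_bk`) -/
theorem pvsw_bank_bk {x : D} (hx : pvasBW T s x) {N : ℕ} {b : D} (hb : b ∈ pvswBank T s x N) : pvtBk T s x b := by
  obtain ⟨j, -, h1, h2, ho, ha⟩ := pvsw_bank_dart hx hb
  refine ⟨⟨by rw [T.src_opp', T.tgt_opp, h1, h2], ?_⟩, by rw [ho]; exact pl_ra_wall_nxt2.2 (pvt_s_it_wall hx j)⟩
  rw [ha, T.src_opp', h2, (pvas_it_bw hx j).2]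
  exact Bool.false_ne_true

/-- **STRAND ⇒ FACED PATH + PIECE** (no planarity): the black ends of the positions `0` and `N` of a strand are joined by a black simple path made of bank darts;
it is faced in every face region which contains the faces crossed, with the white end of the first position as anchor, and all its right triangles are tags on the wall of the strand -/
theorem pvsw_strand_faced {x : D} (hx : pvasBW T s x) (N : ℕ) {R : Set D} (hR : pvasFc T s x N ⊆ R) :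
    ∃ g : T.Pth, g.v 0 = T.src x ∧ g.v g.n = T.src (pvasIt T s x N) ∧ g.Faced s R (T.tgt x) ∧ g.verts ⊆ pvasLayB T s x N ∧ (∀ k, k < g.n → g.e k ∈ pvswBank T s x N) ∧
      ∀ k, k < g.n → pvtBk T s x (g.e k) := by
  obtain ⟨g, g0, g1, gB⟩ := pvsw_pth_of_walk x (pvsw_bank_walk (T := T) s x N (le_refl N))
  have hV : g.verts ⊆ pvasLayB T s x N := by
    rintro v ⟨k, hk, rfl⟩
    rcases Nat.lt_or_ge k g.n with hlt | hge
    · obtain ⟨j, hj, -, e⟩ := gB k hlt
      exact ⟨j, hj.le, by rw [← g.src_e k hlt, e, T.src_rot]⟩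
    · rw [show k = g.n by omega, g1]; exact ⟨N, le_rfl, rfl⟩
  refine ⟨g, g0, g1, ⟨fun k hk => ?_, fun k hk => ?_⟩, hV, gB, fun k hk => pvsw_bank_bk hx (gB k hk)⟩
  · rw [pvas_layB_black hx (hV ⟨k, hk, rfl⟩), hx.2]; exact fun hc => Bool.false_ne_true hc.symm
  · obtain ⟨j, hj, -, -, ho, ha⟩ := pvsw_bank_dart hx (gB k hk)
    refine ⟨hR ⟨j, hj, by rw [ho]; exact T.sf_nxt2 _⟩, ?_⟩
    rw [ha, hx.2]
    exact pl_hx_join_symm (pl_hx_join_mono hR (fun v hv => pvas_layW_white hx hv) (pvas_layW_join (T := T) s x (i := j) (n := N) hj.le))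

/-- the same for a RUN of `Tr/LaneDet` (70): a run in `K` gives a black simple path in `K` from `src a₀` to `src a₁`, globally faced with anchor `tgt a₀`, a piece of the wall of `a₀` -/
theorem pvsw_run_faced {K : Set V} {a₀ a₁ : D} (h0 : pvasBW T s a₀) (h : PvldRun T s K a₀ a₁) :
    ∃ g : T.Pth, g.v 0 = T.src a₀ ∧ g.v g.n = T.src a₁ ∧ g.GFaced s (T.tgt a₀) ∧ g.verts ⊆ K ∧ (∀ k, k < g.n → T.apex (T.opp (g.e k)) ∈ K) ∧ ∀ k, k < g.n → pvtBk T s a₀ (g.e k) := by
  obtain ⟨N, hN1, hN, -, hK⟩ := h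
  obtain ⟨g, g0, g1, gF, gV, gB, gP⟩ := pvsw_strand_faced h0 N (R := pvasFc T s a₀ N) subset_rfl
  rw [pvas_fc_verts s a₀ hN1] at hK
  refine ⟨g, g0, by rw [g1, hN], gF.gfaced, fun v hv => hK (Or.inl (gV hv)), fun k hk => ?_, gP⟩
  obtain ⟨j, hj, -, -, -, ha⟩ := pvsw_bank_dart h0 (gB k hk)
  rw [ha]
  exact hK (Or.inr ⟨j, hj.le, rfl⟩)

/-- the exit of the cell lies on the wall of its entrance -/
theorem pvsw_wall_out (hT : T.IsSph) (h : PvswTrap s Z n) : T.Wall s (pvswIn Z) (Z.e n) := by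
  obtain ⟨N, -, -, hout⟩ := pvsw_trap hT h
  rw [← hout]
  exact pvt_s_it_wall (pvsw_in_bw h) N

/-- **NB + TRAP ⇒ PIECE**: under NO BYPASS every right triangle of `β` is a tag on the wall of the entrance of the cell -/
theorem pvsw_piece (hT : T.IsSph) (h : PvswTrap s Z n) (hnb : PvswNB s Z n) {k : ℕ} (hk : k < n) : pvtBk T s (pvswIn Z) (Z.e k) := by
  obtain ⟨N, hN1, hN, hout⟩ := pvsw_trap hT h
  obtain ⟨τ, h1, -, -⟩ := pvsw_sweep hT h hnb hN hout
  obtain ⟨-, e⟩ := h1 k hk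
  have hw := pvt_s_it_wall (pvsw_in_bw h) (τ k)
  rw [e] at hw
  refine ⟨⟨?_, ?_⟩, pl_ra_wall_nxt.1 hw⟩
  · rw [T.src_opp', T.tgt_opp, Z.chain, h.bl k (by omega), h.bl (k + 1) (by omega)]
  · rw [(pvsw_faced_cyc hT h hnb hk).1, T.src_opp', Z.chain, h.bl (k + 1) (by omega)]
    exact Bool.false_ne_true

/-- **EXISTENCE, full form**: in a cell there is a black simple path from `β_0` to `β_n` in the closed cell, faced in the cell with any white vertex of the cell as anchor, and a piece of the wall of the entrance -/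
theorem pvsw_exist_full (hT : T.IsSph) (h : PvswTrap s Z n) :
    ∃ g : T.Pth, g.v 0 = T.src (Z.e 0) ∧ g.v g.n = T.src (Z.e n) ∧ (∀ i, n < i → i < Z.n → g.Faced s Z.Right (T.src (Z.e i))) ∧ g.verts ⊆ T.VOf Z.Right ∧
      ∀ k, k < g.n → pvtBk T s (pvswIn Z) (g.e k) := by
  obtain ⟨N, hN1, hN, hout⟩ := pvsw_trap hT h
  obtain ⟨g, g0, g1, gF, gV, -, gP⟩ := pvsw_strand_faced (pvsw_in_bw h) N (pvas_fc_sub (pl_right_face Z) hN)
  refine ⟨g, by rw [g0, pvsw_in_src], by rw [g1, hout], fun i hi hi' => ?_, fun v hv => pvsw_trap_lay hT h hN hout (Or.inl (gV hv)), gP⟩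
  refine gF.anchor ?_
  rw [pvsw_in_tgt, h.wh _ (by have := h.lt; omega) (by have := pl_cyc_pos Z; omega)]
  exact pl_hx_join_symm (pvsw_white_join hT h hi (by omega) (by have := pl_cyc_pos Z; omega))

/-! ## 9. adapters: the entrance of a glued cell, spokes in rotation form -/

theorem pvsw_in_glue (p q : T.Pth) (hg : p.Glue q) : pvswIn (p.glue q hg) = T.opp (q.e (q.n - 1)) := by
  have hq := (pl_pth_glue_pos hg).2
  unfold pvswIn
  rw [pl_pth_glue_n, show p.n + q.n - 1 = p.n + (q.n - 1) by omega, pl_pth_glue_e2 p q hg (by omega)]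

theorem pvsw_out_glue (p q : T.Pth) (hg : p.Glue q) : (p.glue q hg).e p.n = q.e 0 := by
  have h := pl_pth_glue_e2 p q hg (pl_pth_glue_pos hg).2
  rwa [Nat.add_zero] at h

/-- **spokes in rotation form**: a dart at the vertex `src (Z.e (i+1))` whose two faces lie on the right of the cycle is met strictly before `Z.e (i+1)` when one turns counterclockwise from `opp (Z.e i)`
(= `RS_k` of 6, `Sec` of 105, `pvttBtw` of 194, `PvwDat.RSec` of `Tr/Defs` at the inner vertices) -/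
theorem pvsw_sp_rot (hT : T.IsSph) (Z : T.Cyc) (i : ℕ) {d : D} (hs : T.src d = T.src (Z.e (i + 1))) (h1 : d ∈ Z.Right) (h2 : T.opp d ∈ Z.Right) :
    ∃ k, 0 < k ∧ d = T.rot^[k] (T.opp (Z.e i)) ∧ ∀ j, j ≤ k → T.rot^[j] (T.opp (Z.e i)) ≠ Z.e (i + 1) ∧ T.rot^[j] (T.opp (Z.e i)) ∈ Z.Right := by
  obtain ⟨hR, hL, hO, hB⟩ := pl_jordan hT Z
  have hF := pl_right_face Z
  have hne : T.opp (Z.e i) ≠ Z.e (i + 1) := (pl_cyc_ne_opp Z _ _).symm
  have hsrc : T.src (T.opp (Z.e i)) = T.src (Z.e (i + 1)) := by rw [T.src_opp', Z.chain]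
  have hbd : ∀ d, T.src d = T.src (T.opp (Z.e i)) → T.Bd Z.Right d → d = T.opp (Z.e i) ∨ d = Z.e (i + 1) :=
    fun d hd hb => (pl_cyc_at Z i (hd.trans hsrc) (pl_right_bd_sub Z hb)).symm
  obtain ⟨K, hK0, hK, hKno, hKm⟩ := pl_sector_aux hT hF hne hsrc hbd
  obtain ⟨K', hK0', hK', -, hKm'⟩ := pl_sector_aux hT hF hne.symm hsrc.symm (fun d hd hb => (hbd d (hd.trans hsrc.symm) hb).symm)
  obtain ⟨m, rfl⟩ := hT.link (T.opp (Z.e i)) d (hsrc.trans hs.symm)
  have hper : Function.IsPeriodicPt T.rot (K' + K) (T.opp (Z.e i)) := by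
    show T.rot^[K' + K] (T.opp (Z.e i)) = T.opp (Z.e i)
    rw [Function.iterate_add_apply, hK, hK']
  have hm : T.rot^[m % (K' + K)] (T.opp (Z.e i)) = T.rot^[m] (T.opp (Z.e i)) := hper.iterate_mod_apply m
  have hlt : m % (K' + K) < K' + K := Nat.mod_lt _ (by omega)
  by_cases hc : m % (K' + K) < K
  · refine ⟨m % (K' + K), ?_, hm.symm, fun j hj => ?_⟩
    · rcases Nat.eq_zero_or_pos (m % (K' + K)) with h0 | h0
      · exfalso
        rw [← hm, h0, Function.iterate_zero, id, T.opp_opp, hR] at h2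
        exact h2 (hL i)
      · exact h0
    · refine ⟨?_, (hKm j (by omega)).2 (hO i)⟩
      rcases Nat.eq_zero_or_pos j with rfl | hj0
      · exact hne
      · exact (hKno j hj0 (by omega)).2
  · exfalso
    obtain ⟨j, hj⟩ : ∃ j, m % (K' + K) = j + K := ⟨m % (K' + K) - K, by omega⟩
    rw [← hm, hj, Function.iterate_add_apply, hK, hKm' j (by omega), hR] at h1
    exact h1 (hL _)

/-! ## 10. the adapter in the names of `Tr/Defs`: `PvwDat.NB` + a white closing path ⇒ `g₀` is a PIECE of the wall of the exit gate edge of `s` -/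

/-- a simple path which starts with the dart `d` and then follows a connection inside `X` (`src d ∉ X`) -/
theorem pvsw_pth_from (d : D) {X : Set V} (hd : T.tgt d ∈ X) (hs : T.src d ∉ X) {v : V} (h : ReflTransGen (fun u v => T.Adj u v ∧ v ∈ X) (T.tgt d) v) :
    ∃ p : T.Pth, 0 < p.n ∧ p.v 0 = T.src d ∧ p.e 0 = d ∧ p.v p.n = v ∧ ∀ i, 0 < i → i ≤ p.n → p.v i ∈ X := by
  induction h with
  | refl =>
    have hn : T.tgt d ∉ (PvMap.Pth.nil T (T.src d) d).verts := by
      rintro ⟨i, -, hi⟩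
      exact T.tgt_ne_src d hi.symm
    refine ⟨(PvMap.Pth.nil T (T.src d) d).snoc d rfl hn, Nat.succ_pos _, rfl, rfl, rfl, ?_⟩
    intro i hi0 hi
    have hi1 : i ≤ 0 + 1 := hi
    obtain rfl : i = 1 := by omega
    exact hd
  | @tail b c _ hstep ih =>
    obtain ⟨p, pn, p0, pe, p1, pX⟩ := ih
    obtain ⟨⟨f, hfs, hft⟩, hcX⟩ := hstep
    by_cases hw : T.tgt f ∈ p.verts
    · obtain ⟨i, hi, hiw⟩ := hw
      have hi0 : 0 < i := by
        rcases Nat.eq_zero_or_pos i with rfl | h0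
        · exact absurd (by rw [← p0, hiw, hft]; exact hcX) hs
        · exact h0
      refine ⟨p.seg 0 i, ?_, ?_, ?_, ?_, ?_⟩
      · show 0 < min i p.n - 0
        omega
      · show p.v (0 + 0) = _
        exact p0
      · show p.e (0 + 0) = _
        exact pe
      · show p.v (0 + (min i p.n - 0)) = _
        rw [Nat.min_eq_left hi, Nat.sub_zero, Nat.zero_add, hiw, hft]
      · intro k hk0 hk
        have hk' : k ≤ min i p.n - 0 := hk
        show p.v (0 + k) ∈ X
        rw [Nat.zero_add]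
        exact pX k hk0 (by omega)
    · refine ⟨p.snoc f (by rw [hfs, p1]) hw, Nat.succ_pos _, ?_, ?_, ?_, ?_⟩
      · show (if 0 ≤ p.n then p.v 0 else T.tgt f) = _
        rw [if_pos (Nat.zero_le _), p0]
      · show (if 0 < p.n then p.e 0 else f) = _
        rw [if_pos pn, pe]
      · show (if p.n + 1 ≤ p.n then p.v (p.n + 1) else T.tgt f) = _
        rw [if_neg (by omega), hft]
      · intro k hk0 hk
        have hk' : k ≤ p.n + 1 := hk
        show (if k ≤ p.n then p.v k else T.tgt f) ∈ X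
        by_cases hkp : k ≤ p.n
        · rw [if_pos hkp]; exact pX k hk0 hkp
        · rw [if_neg hkp, hft]; exact hcX

/-- a black connection off the cycle which starts in the open cell is a connection inside (black, off the cycle, in the open cell) -/
theorem pvsw_bj_chain (hT : T.IsSph) {u v : V} (hu : u ∈ T.Int Z.Right) (h : pvswBJ s Z u v) :
    ReflTransGen (fun a b => T.Adj a b ∧ b ∈ {x | s x = true ∧ x ∉ Z.verts ∧ x ∈ T.Int Z.Right}) u v := by
  induction h with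
  | refl => exact ReflTransGen.refl
  | @tail b c hab hbc ih => exact ReflTransGen.tail ih ⟨hbc.1, hbc.2.1, hbc.2.2, pvsw_bj_int hT hu (ReflTransGen.tail hab hbc)⟩

section dat

variable (𝔇 : PvwDat T) (pos : V → ℂ) (π : PvwPat) {σ : V → Bool} (q : T.Pth) (hg : 𝔇.g.Glue q)

/-- the spokes of the cell at an INNER vertex of `g₀` leave `g₀` into its right side -/
theorem pvsw_d_rsec_mid (hT : T.IsSph) {k : ℕ} (hk0 : 0 < k) (hk : k < 𝔇.g.n) {d : D} (hd : PvswSp σ (𝔇.g.glue q hg) k d) : 𝔇.RSec k d := by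
  obtain ⟨i, rfl⟩ : ∃ i, k = i + 1 := ⟨k - 1, by omega⟩
  obtain ⟨m, hm0, e, hne⟩ := pvsw_sp_rot hT (𝔇.g.glue q hg) i hd.1 hd.2.1 hd.2.2.1
  rw [pl_pth_glue_e1 𝔇.g q hg (by omega)] at e hne
  rw [pl_pth_glue_e1 𝔇.g q hg hk] at hne
  have hp : 𝔇.prv (i + 1) = 𝔇.g.e i := by unfold PvwDat.prv; rw [if_neg (by omega), Nat.add_sub_cancel]
  have hx : 𝔇.nx (i + 1) = 𝔇.g.e (i + 1) := by unfold PvwDat.nx; rw [if_neg (by omega)]
  exact ⟨m, hm0, by rw [hp]; exact e, fun j _ hj => by rw [hp, hx]; exact (hne j hj).1⟩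

/-- SIDE at the first vertex: the entrance of the cell is reached from the last dart of `inner(s)`, reversed, by turning counterclockwise without meeting the first dart of `g₀` -/
theorem pvsw_d_rsec_zero (hT : T.IsSph) (hn : 0 < 𝔇.g.n)
    (hS : ∃ m, T.opp (q.e (q.n - 1)) = T.rot^[m] (T.opp (𝔇.s.inn.e (𝔇.s.inn.n - 1))) ∧ ∀ j, 0 < j → j ≤ m → T.rot^[j] (T.opp (𝔇.s.inn.e (𝔇.s.inn.n - 1))) ≠ 𝔇.g.e 0)
    {d : D} (hd : PvswSp σ (𝔇.g.glue q hg) 0 d) : 𝔇.RSec 0 d := by
  obtain ⟨m, hm, hmne⟩ := hS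
  have hZn := pl_cyc_pos (𝔇.g.glue q hg)
  have hidx : (𝔇.g.glue q hg).e ((𝔇.g.glue q hg).n - 1 + 1) = (𝔇.g.glue q hg).e 0 := by
    rw [show (𝔇.g.glue q hg).n - 1 + 1 = 0 + (𝔇.g.glue q hg).n by omega, (𝔇.g.glue q hg).per]
  obtain ⟨k, hk0, e, hne⟩ := pvsw_sp_rot hT (𝔇.g.glue q hg) ((𝔇.g.glue q hg).n - 1) (by rw [hidx]; exact hd.1) hd.2.1 hd.2.2.1
  have hin : T.opp ((𝔇.g.glue q hg).e ((𝔇.g.glue q hg).n - 1)) = T.opp (q.e (q.n - 1)) := pvsw_in_glue 𝔇.g q hg
  rw [hin, hm, ← Function.iterate_add_apply] at e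
  rw [hidx, hin, hm, pl_pth_glue_e1 𝔇.g q hg hn] at hne
  have hp : 𝔇.prv 0 = 𝔇.s.inn.e (𝔇.s.inn.n - 1) := by unfold PvwDat.prv; rw [if_pos rfl]
  have hx : 𝔇.nx 0 = 𝔇.g.e 0 := by unfold PvwDat.nx; rw [if_neg (by omega)]
  refine ⟨k + m, by omega, by rw [hp]; exact e, fun j hj0 hj => ?_⟩
  rw [hp, hx]
  rcases Nat.lt_or_ge m j with hlt | hge
  · obtain ⟨j', rfl⟩ : ∃ j', j = j' + m := ⟨j - m, by omega⟩
    rw [Function.iterate_add_apply]
    exact (hne j' (by omega)).1
  · exact hmne j hj0 hge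

/-- SIDE at the last vertex: the first dart of `inner(t)` does not lie on the right of the cell -/
theorem pvsw_d_rsec_last (hT : T.IsSph) (hn : 0 < 𝔇.g.n) (hS : 𝔇.t.inn.e 0 ∉ (𝔇.g.glue q hg).Right) {d : D} (hd : PvswSp σ (𝔇.g.glue q hg) 𝔇.g.n d) : 𝔇.RSec 𝔇.g.n d := by
  obtain ⟨i, hi⟩ : ∃ i, 𝔇.g.n = i + 1 := ⟨𝔇.g.n - 1, by omega⟩
  have hd' := hd
  rw [hi] at hd'
  obtain ⟨m, hm0, e, hne⟩ := pvsw_sp_rot hT (𝔇.g.glue q hg) i hd'.1 hd'.2.1 hd'.2.2.1
  rw [pl_pth_glue_e1 𝔇.g q hg (by omega)] at e hne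
  have hp : 𝔇.prv 𝔇.g.n = 𝔇.g.e i := by unfold PvwDat.prv; rw [if_neg (by omega), hi, Nat.add_sub_cancel]
  have hx : 𝔇.nx 𝔇.g.n = 𝔇.t.inn.e 0 := by unfold PvwDat.nx; rw [if_pos rfl]
  exact ⟨m, hm0, by rw [hp]; exact e, fun j _ hj hc => by rw [hp, hx] at hc; exact hS (hc ▸ (hne j hj).2)⟩

/-- **`NB(D)` ⇒ NO BYPASS in the cell** `Z = g₀ . q`:   SIDE at the two ends of `g₀`, REGION (`YCL` does not meet the open cell) -/
theorem pvsw_d_nb (hT : T.IsSph) (hw : ∀ x ∈ q.inner, σ x = false)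
    (h0 : ∀ d, PvswSp σ (𝔇.g.glue q hg) 0 d → 𝔇.RSec 0 d) (hn : ∀ d, PvswSp σ (𝔇.g.glue q hg) 𝔇.g.n d → 𝔇.RSec 𝔇.g.n d)
    (hreg : ∀ v ∈ T.Int (𝔇.g.glue q hg).Right, v ∉ 𝔇.YCL pos π) (hnb : 𝔇.NBsec pos π σ) : PvswNB σ (𝔇.g.glue q hg) 𝔇.g.n := by
  intro k hk d hd
  have hsec : 𝔇.RSec k d := by
    rcases Nat.eq_zero_or_pos k with rfl | hk0
    · exact h0 d hd
    · rcases Nat.lt_or_ge k 𝔇.g.n with hlt | hge
      · exact pvsw_d_rsec_mid 𝔇 q hg hT hk0 hlt hd
      · obtain rfl : k = 𝔇.g.n := by omega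
        exact hn d hd
  have hsrc : T.src d = 𝔇.g.v k := by rw [hd.1, pl_pth_glue_src1 𝔇.g q hg hk]
  have hgZ : ∀ x, x ∈ 𝔇.g.verts → x ∈ (𝔇.g.glue q hg).verts := fun x hx => by rw [pl_pth_glue_verts]; exact Or.inl hx
  have hoff : T.tgt d ∉ (𝔇.g.glue q hg).verts := by
    intro hv
    obtain ⟨l, hl, e⟩ : ∃ l, l ≤ 𝔇.g.n ∧ T.tgt d = 𝔇.g.v l := by
      rw [pl_pth_glue_verts, pl_pth_verts_eq q] at hv
      rcases hv with ⟨l, hl, e⟩ | (e | e) | hi
      · exact ⟨l, hl, e.symm⟩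
      · exact ⟨𝔇.g.n, le_rfl, e.trans hg.h1.symm⟩
      · exact ⟨0, Nat.zero_le _, (show T.tgt d = q.v q.n from e).trans hg.h2⟩
      · exact absurd ((hw _ hi).symm.trans hd.2.2.2) Bool.false_ne_true
    have hnil : T.tgt d ∉ (PvMap.Pth.nil T (T.src d) d).verts := by
      rintro ⟨i, -, hi⟩
      exact T.tgt_ne_src d hi.symm
    refine hnb ⟨k, l, (PvMap.Pth.nil T (T.src d) d).snoc d rfl hnil, hk, hl, ?_, Nat.succ_pos _, hsrc, e, hsec, ?_⟩
    · rintro rfl
      exact T.tgt_ne_src d (e.trans hsrc.symm)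
    · rintro x ⟨i, hi0, hi1, -⟩
      have hi2 : i < 0 + 1 := hi1
      omega
  refine ⟨hoff, fun v hv l hl hadj => ?_⟩
  by_contra hlk
  have hint := (pvsw_sp_head hT hd).resolve_left hoff
  have hsX : T.src d ∉ {x | σ x = true ∧ x ∉ (𝔇.g.glue q hg).verts ∧ x ∈ T.Int (𝔇.g.glue q hg).Right} := fun hc => hc.2.1 (by rw [hd.1]; exact ⟨k, rfl⟩)
  obtain ⟨p, pn, p0, pe, p1, pX⟩ := pvsw_pth_from d (X := {x | σ x = true ∧ x ∉ (𝔇.g.glue q hg).verts ∧ x ∈ T.Int (𝔇.g.glue q hg).Right})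
    ⟨hd.2.2.2, hoff, hint⟩ hsX (pvsw_bj_chain hT hint hv)
  obtain ⟨f, hfs, hft⟩ := hadj
  rw [pl_pth_glue_src1 𝔇.g q hg hl] at hft
  have hnew : T.tgt f ∉ p.verts := by
    rintro ⟨i, hi, hiv⟩
    rcases Nat.eq_zero_or_pos i with rfl | hi0
    · rw [p0, hsrc, hft] at hiv
      exact hlk (𝔇.g.inj k l hk hl hiv).symm
    · exact (pX i hi0 hi).2.1 (by rw [hiv, hft]; exact hgZ _ ⟨l, hl, rfl⟩)
  refine hnb ⟨k, l, p.snoc f (by rw [hfs, p1]) hnew, hk, hl, fun e => hlk e.symm, Nat.succ_pos _, ?_, ?_, ?_, ?_⟩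
  · show (if 0 ≤ p.n then p.v 0 else T.tgt f) = _
    rw [if_pos (Nat.zero_le _), p0, hsrc]
  · show (if p.n + 1 ≤ p.n then p.v (p.n + 1) else T.tgt f) = _
    rw [if_neg (by omega), hft]
  · show 𝔇.RSec k (if 0 < p.n then p.e 0 else f)
    rw [if_pos pn, pe]; exact hsec
  · rintro x ⟨i, hi0, hi1, rfl⟩
    have hi2 : i < p.n + 1 := hi1
    show (σ (if i ≤ p.n then p.v i else T.tgt f) = true) ∧ (if i ≤ p.n then p.v i else T.tgt f) ∉ 𝔇.g.verts ∧ (if i ≤ p.n then p.v i else T.tgt f) ∉ 𝔇.YCL pos π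
    rw [if_pos (by omega)]
    have hx := pX i hi0 (by omega)
    exact ⟨hx.1, fun hc => hx.2.1 (hgZ _ hc), hreg _ hx.2.2⟩

/-- **(C2), the `g₀` part**: on `NB(D)`, with a white closing path `q` from `g⁻(t)` back to `g⁺(s)` (first dart `dm(t)`, last dart `opp dp(s)`): every right triangle of `g₀` is a tag on the wall of `dp(s) = opp (last dart of q)`,
`dm(t) = first dart of q` lies on the same wall, and `g₀` is faced in the cell -/
theorem pvsw_d_piece (hT : T.IsSph) (hb : ∀ i, i ≤ 𝔇.g.n → σ (𝔇.g.v i) = true) (hw : ∀ x ∈ q.inner, σ x = false) (hq2 : 2 ≤ q.n)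
    (hfin : ((𝔇.g.glue q hg).Right ∩ {d | T.Wall σ (pvswIn (𝔇.g.glue q hg)) d}).Finite)
    (hS0 : ∃ m, T.opp (q.e (q.n - 1)) = T.rot^[m] (T.opp (𝔇.s.inn.e (𝔇.s.inn.n - 1))) ∧ ∀ j, 0 < j → j ≤ m → T.rot^[j] (T.opp (𝔇.s.inn.e (𝔇.s.inn.n - 1))) ≠ 𝔇.g.e 0)
    (hSn : 𝔇.t.inn.e 0 ∉ (𝔇.g.glue q hg).Right) (hreg : ∀ v ∈ T.Int (𝔇.g.glue q hg).Right, v ∉ 𝔇.YCL pos π) (hnb : 𝔇.NBsec pos π σ) :
    (∀ k, k < 𝔇.g.n → pvtBk T σ (T.opp (q.e (q.n - 1))) (𝔇.g.e k)) ∧ T.Wall σ (T.opp (q.e (q.n - 1))) (q.e 0) ∧ ∀ ρ ∈ q.inner, 𝔇.g.Faced σ (𝔇.g.glue q hg).Right ρ := by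
  have hn := (pl_pth_glue_pos hg).1
  have h := pvsw_trap_glue 𝔇.g q hg hb hw hq2 hfin
  have hNB := pvsw_d_nb 𝔇 pos π q hg hT hw (fun d hd => pvsw_d_rsec_zero 𝔇 q hg hT hn hS0 hd) (fun d hd => pvsw_d_rsec_last 𝔇 q hg hT hn hSn hd) hreg hnb
  refine ⟨fun k hk => ?_, ?_, fun ρ hρ => pvsw_faced hT 𝔇.g q hg hb hw hfin hNB hρ⟩
  · have h1 := pvsw_piece hT h hNB hk
    rwa [pvsw_in_glue, pl_pth_glue_e1 𝔇.g q hg hk] at h1
  · have h1 := pvsw_wall_out hT h
    rwa [pvsw_in_glue, pvsw_out_glue] at h1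

end dat

end Claimed.Agent.R289
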