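-- KEEP
import Claimed.Agent.R289.Tr.GateB
import Claimed.Agent.R289.Tr.Sweep
import Claimed.Agent.R289.Tr.OneWall
import Claimed.Agent.R289.Tr.Arc
import Claimed.Agent.R289.Tr.StrandF
import Claimed.Agent.R289.Tr.StrandD
import Claimed.Agent.R289.Tr.Di

/-!
# Row 289 (S0537, Cardy for Poisson-Voronoi), unit TR, ROAD P, file Tr/GateN : PASSAGES, INNER PATH OF A GATE, `Δ(S,P)`, NESTED GATES, RIBS, TR13      (owner helper260; prefix `pvgz_`)

Blueprint: `origin/helper273:notes/R289/ROADP_273.md` (P3 gates of a state, P5 FIT-IN, P12 STAB, P17), `origin/helper273:notes/R289/PIN_273.md` sec. 2 (D1, L1, D2 `Δ(S,P)`, L2 TRAP, L3 white ladder),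
`origin/helper131:notes/R289/ref_131.md` D4 (RIBS), `origin/helper6:notes/R289/W2c_6.md` V2.0 (STATE = gate + `inn`), TR13.
Vocabulary: `PvMap.Gate` of `Tr/GateB`; crosscuts `Cyc.Cut`, `cutL`, `cutR` of `Pl/Path`; `Faced`, `GFaced`, `psum` of `Tr/Close` (202); `OnWall`, `pvow_ring` of `Tr/OneWall` (194); cells of `Tr/Sweep` (225).

* sec.1  `g.swap` : the same circuit with `g⁻ ↔ g⁺`, `R ↔ L`;   `pvgz_swap_thru` : `Thru` is INVARIANT (so `Thru` does not orient a gate).
* sec.2  PASSAGE `g.Psg p` : a black path `g⁻ → g⁺` through the inside = a crosscut `g.c.Cut p 0 g.m`;   `pvgz_thru_iff` : `g.Thru ↔` black connection inside `↔ ∃ p, g.Psg p`.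
* sec.3  RIBS `pvgz_rib`;   LOCALISE `pvgz_localise` : a white vertex on the right of a passage which is white-joined to a vertex not strictly inside is white-joined INSIDE to the right arc.
* sec.4  INNER PATH `g.IsInn p := g.Psg p ∧ p.Faced s g.c.Left (tgt g.aIn)` : exists iff `Thru`, unique, local, a piece of the wall of `g.aIn`, `GFaced` with any anchor on the right arc.
* sec.5  `Δ(S,P)` = `g.Pass P lo hi`;   `pvgz_pass` (existence up to `swap`), `pvgz_pass_trap`, `pvgz_pass_tr`;   **`pvgz_pass_rim`** : RIM ⟹ STATE.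
* sec.6  NESTED gates `pvgz_nest_pass`, `pvgz_nest_inn` (+ white ladder).
* sec.7  LINKS `pvgz_wall_thru`, `pvgz_wall_link` (ONE WALL with ribs);   **TR13** `pvgz_close` (four pieces).
* sec.8  BRIDGES `pvgz_inn_le`, `pvgz_inn_of_le` (`g.IsInn p ↔ PvwLE` of the black bank of the inner strand), `pvgz_pass_of_di` (`PvdiPass → g.Pass`), **`pvgz_pass_rim_le`** (RIM ⟹ `Thru` + `PvwLE`).
* sec.9  **CLOSE-P** `PvgzRing T s n g inn lk`, `pvgz_ring` (ONE label, sum for every dart function), `pvgz_ring_cyc` (rim), `pvgz_ring_sum` (`= ∑_e X_e`, arcs between marked vertices), links `pvgz_link_le`, `pvgz_link_gfaced`.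
* sec.11 SMALLER GATE, STRAND FORM: `pvgz_no_RL`, **`pvgz_nest_strand`** (`aIn` of the smaller gate is a position of the inner strand of the larger one, touching allowed), `pvgz_nest_banks` (banks, feet joined along the banks).
* sec.10 ORIENTATION (T-level half of M11; ANY black circuit, no rim): `pvgz_pass_parts`, **`pvgz_pass_side`** (`g.R ⊆ Int P.Right`, `g.L ⊆ Int P.Left`), `pvgz_pass_right`, `pvgz_pass_walk`.
-/

set_option autoImplicit false

namespace Claimed.Agent.R289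

open Relation

variable {V D : Type} {T : PvMap V D} {s : V → Bool}

/-! ## 1. SWAP -/

/-- the same circuit, read from `g⁺` -/
def PvMap.Gate.swap (g : T.Gate s) : T.Gate s where
  c := g.c.shift g.m
  m := g.c.n - g.m
  hm := by have := g.hmn; omega
  hmn := by
    show g.c.n - g.m + 2 ≤ g.c.n
    have := g.hm; have := g.hmn; omega
  col i hi := by
    have hi' : i < g.c.n := hi
    show s (T.src (g.c.e (i + g.m))) = true ↔ _
    rw [pvtg_col]
    have h1 := g.hm
    have h2 := g.hmn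
    rcases Nat.lt_or_ge (i + g.m) g.c.n with h | h
    · rw [Nat.mod_eq_of_lt h]; omega
    · rw [Nat.mod_eq_sub_mod h, Nat.mod_eq_of_lt (by omega)]; omega

/-- PASSAGE: a black path from `g⁻` to `g⁺` through the inside -/
structure PvMap.Gate.Psg (g : T.Gate s) (p : T.Pth) : Prop where
  h0 : p.v 0 = g.vm
  h1 : p.v p.n = g.vp
  bl : ∀ i, i ≤ p.n → s (p.v i) = true
  ins : ∀ k, k < p.n → p.e k ∈ g.c.Left ∧ T.opp (p.e k) ∈ g.c.Left

/-- INNER PATH of a gate: a passage which is faced, inside the gate, by the right arc -/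
def PvMap.Gate.IsInn (g : T.Gate s) (p : T.Pth) : Prop := g.Psg p ∧ p.Faced s g.c.Left (T.tgt g.aIn)

/-- `Δ(S,P)`: the cycle `P` enters the gate at `g⁻` (index `lo`), leaves it at `g⁺` (index `hi`) -/
structure PvMap.Gate.Pass (g : T.Gate s) (P : T.Cyc) (lo hi : ℕ) : Prop where
  lt : lo + 1 < hi
  lt' : hi + 1 < lo + P.n
  hlo : T.src (P.e lo) = g.vm
  hhi : T.src (P.e hi) = g.vp
  inn : ∀ k, lo < k → k < hi → T.src (P.e k) ∈ T.Int g.c.Left
  out : ∀ k, hi < k → k < lo + P.n → T.src (P.e k) ∈ T.Int g.c.Right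

theorem pvgz_eqns_cite : True := by
  have := @PvMap.Gate.swap.eq_1; have := @PvMap.Gate.IsInn.eq_1
  trivial

theorem pvgz_swap_e (g : T.Gate s) (i : ℕ) : g.swap.c.e i = g.c.e (i + g.m) := rfl
theorem pvgz_swap_n (g : T.Gate s) : g.swap.c.n = g.c.n := rfl
theorem pvgz_swap_m (g : T.Gate s) : g.swap.m = g.c.n - g.m := rfl

theorem pvgz_swap_vm (g : T.Gate s) : g.swap.vm = g.vp := by
  show T.src (g.c.e (0 + g.m)) = _
  rw [Nat.zero_add]; rfl

theorem pvgz_swap_vp (g : T.Gate s) : g.swap.vp = g.vm := by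
  show T.src (g.c.e (g.c.n - g.m + g.m)) = _
  have := g.hmn
  rw [show g.c.n - g.m + g.m = 0 + g.c.n by omega, g.c.per]; rfl

theorem pvgz_swap_left (hT : T.IsSph) (g : T.Gate s) : g.swap.c.Left = g.c.Left := (pl_shift_left hT g.c g.m).1
theorem pvgz_swap_right (hT : T.IsSph) (g : T.Gate s) : g.swap.c.Right = g.c.Right := (pl_shift_left hT g.c g.m).2

theorem pvgz_swap_aIn (g : T.Gate s) : g.swap.aIn = g.bIn := by
  show g.c.e (0 + g.m) = _
  rw [Nat.zero_add]; rfl

theorem pvgz_swap_bIn (g : T.Gate s) : g.swap.bIn = g.aIn := by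
  show g.c.e (g.c.n - g.m + g.m) = _
  have := g.hmn
  rw [show g.c.n - g.m + g.m = 0 + g.c.n by omega, g.c.per]; rfl

theorem pvgz_swap_aOut (g : T.Gate s) : g.swap.aOut = g.bOut := by
  show T.opp (g.c.e (g.c.n - g.m - 1 + g.m)) = _
  have := g.hmn
  rw [show g.c.n - g.m - 1 + g.m = g.c.n - 1 by omega]; rfl

theorem pvgz_swap_bOut (g : T.Gate s) : g.swap.bOut = g.aOut := by
  show T.opp (g.c.e (g.c.n - 1 + g.m)) = _
  have := g.hmn; have := g.hm
  rw [show g.c.n - 1 + g.m = g.m - 1 + g.c.n by omega, g.c.per]; rfl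

theorem pvgz_swap_R (g : T.Gate s) : g.swap.R = g.L := by
  have h1 := g.hm
  have h2 := g.hmn
  ext v
  constructor
  · rintro ⟨k, hk0, hk1, hk⟩
    have hk1' : k < g.c.n - g.m := hk1
    exact ⟨k + g.m, by omega, by omega, hk⟩
  · rintro ⟨k, hk0, hk1, hk⟩
    refine ⟨k - g.m, by omega, ?_, ?_⟩
    · show k - g.m < g.c.n - g.m
      omega
    · show T.src (g.c.e (k - g.m + g.m)) = v
      rw [show k - g.m + g.m = k by omega]
      exact hk

theorem pvgz_swap_L (g : T.Gate s) : g.swap.L = g.R := by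
  have h1 := g.hm
  have h2 := g.hmn
  ext v
  constructor
  · rintro ⟨k, hk0, hk1, hk⟩
    have hk0' : g.c.n - g.m < k := hk0
    have hk1' : k < g.c.n := hk1
    have hk' : T.src (g.c.e (k + g.m)) = v := hk
    refine ⟨k + g.m - g.c.n, by omega, by omega, ?_⟩
    rw [← g.c.per, show k + g.m - g.c.n + g.c.n = k + g.m by omega]
    exact hk'
  · rintro ⟨k, hk0, hk1, hk⟩
    refine ⟨k + g.c.n - g.m, ?_, ?_, ?_⟩
    · show g.c.n - g.m < k + g.c.n - g.m
      omega
    · show k + g.c.n - g.m < g.c.n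
      omega
    · show T.src (g.c.e (k + g.c.n - g.m + g.m)) = v
      rw [show k + g.c.n - g.m + g.m = k + g.c.n by omega, g.c.per]
      exact hk

/-- **`Thru` does not orient a gate** -/
theorem pvgz_swap_thru (hT : T.IsSph) (g : T.Gate s) (hfin : g.c.Left.Finite) : g.swap.Thru ↔ g.Thru := by
  have e : g.swap.Thru ↔ pvasExit T g.c.Left s g.bIn = g.bOut := by
    unfold PvMap.Gate.Thru
    rw [pvgz_swap_left hT, pvgz_swap_aIn, pvgz_swap_aOut]
  rw [e]
  unfold PvMap.Gate.Thru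
  have hne := pvtg_aOut_ne_bOut g
  rcases pvtg_exit hT g hfin with ⟨h1, h2⟩ | ⟨h1, h2⟩
  · exact ⟨fun _ => h1, fun _ => h2⟩
  · constructor
    · intro h
      exact absurd (h2.symm.trans h) hne
    · intro h
      exact absurd (h.symm.trans h1) hne

/-! ## 2. PASSAGES -/

theorem pvgz_psg_pos (g : T.Gate s) {p : T.Pth} (h : g.Psg p) : 0 < p.n := by
  by_contra hc
  have h0 : p.n = 0 := by omega
  exact pvtg_ne g (by rw [← h.h0, ← h.h1, h0])

/-- a passage is a crosscut of the disc of the gate -/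
theorem pvgz_psg_cut (g : T.Gate s) {p : T.Pth} (h : g.Psg p) : g.c.Cut p 0 g.m := by
  have hm := g.hm
  have hmn := g.hmn
  have hpos := pvgz_psg_pos g h
  refine ⟨by omega, by omega, h.h0, h.h1, fun k h0 hk hv => ?_, h.ins, by omega, by omega⟩
  rcases pvtg_black g hv (h.bl k hk.le) with e | e
  · have := p.inj k 0 hk.le (Nat.zero_le _) (e.trans h.h0.symm); omega
  · have := p.inj k p.n hk.le le_rfl (e.trans h.h1.symm); omega

/-- an edge of a face of the inside with two black ends has both its faces inside -/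
theorem pvgz_black_edge (hT : T.IsSph) (g : T.Gate s) {d : D} (hd : d ∈ g.c.Left ∨ T.opp d ∈ g.c.Left) (h1 : s (T.src d) = true) (h2 : s (T.tgt d) = true) :
    d ∈ g.c.Left ∧ T.opp d ∈ g.c.Left := by
  have hne : ¬ T.Edg g.c.darts d := by
    have key : ∀ i, ¬ (s (T.src (g.c.e i)) = true ∧ s (T.src (g.c.e (i + 1))) = true) := by
      intro i ⟨a, b⟩
      rw [pvtg_col] at a b
      have hm := g.hm
      have hmn := g.hmn
      have hlt := Nat.mod_lt i (pl_cyc_pos g.c)
      have h1n : 1 % g.c.n = 1 := Nat.mod_eq_of_lt (by omega)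
      rw [Nat.add_mod, h1n] at b
      by_cases hc : i % g.c.n + 1 = g.c.n
      · rw [hc, Nat.mod_self] at b; omega
      · rw [Nat.mod_eq_of_lt (by omega)] at b; omega
    rintro (⟨i, rfl⟩ | ⟨i, hi⟩)
    · exact key i ⟨h1, by rw [← g.c.chain]; exact h2⟩
    · refine key i ⟨?_, ?_⟩
      · rw [hi, T.src_opp']; exact h2
      · rw [← g.c.chain, hi, T.tgt_opp]; exact h1
  rcases pl_edge_side hT g.c hne with h | h
  · exact h
  · rw [(pl_jordan hT g.c).1] at h
    rcases hd with hd | hd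
    · exact absurd hd h.1
    · exact absurd hd h.2

/-- a black connection inside contains a passage -/
theorem pvgz_psg_of_join (hT : T.IsSph) (g : T.Gate s) (h : T.Join g.c.Left {v | s v = true} g.vm g.vp) : ∃ p, g.Psg p := by
  have : Nonempty D := ⟨g.c.e 0⟩
  obtain ⟨p, h0, h1, hX, hA⟩ := pl_pth_of_join h
  have hbl : ∀ i, i ≤ p.n → s (p.v i) = true := fun i hi => hX ⟨i, hi, rfl⟩
  refine ⟨p, h0, h1, hbl, fun k hk => ?_⟩
  refine pvgz_black_edge hT g (hA k hk) ?_ ?_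
  · rw [p.src_e k hk]
    exact hbl k hk.le
  · rw [p.tgt_e k hk]
    exact hbl (k + 1) hk

/-- the vertices of a passage other than its ends lie strictly inside -/
theorem pvgz_psg_int (hT : T.IsSph) (g : T.Gate s) {p : T.Pth} (h : g.Psg p) {k : ℕ} (h0 : 0 < k) (hk : k < p.n) : p.v k ∈ T.Int g.c.Left := by
  have h1 : p.v k ∈ T.VOf g.c.Left := ⟨p.e k, (h.ins k hk).1, p.src_e k hk⟩
  rw [pl_VOf_left hT] at h1
  exact h1.resolve_left ((pvgz_psg_cut g h).off k h0 hk)

/-- a white path inside the gate which starts on the right of a passage stays on its right -/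
theorem pvgz_stay (hT : T.IsSph) (g : T.Gate s) {p : T.Pth} (h : g.Psg p) {X : Set V} (hX : ∀ v ∈ X, s v = false) {a b : V}
    (ha : a ∈ T.VOf (g.c.cutR (pvgz_psg_cut g h)).Left) (hab : T.Join g.c.Left X a b) : b ∈ T.VOf (g.c.cutR (pvgz_psg_cut g h)).Left := by
  obtain ⟨ha0, hab⟩ := hab
  have key : b ∈ T.VOf (g.c.cutR (pvgz_psg_cut g h)).Left ∧ b ∈ X := by
    induction hab with
    | refl => exact ⟨ha, ha0⟩
    | @tail u w _ huw ih =>
      obtain ⟨⟨d, hd, hd1, hd2⟩, hw⟩ := huw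
      refine ⟨?_, hw⟩
      have hU := (pl_cc_left hT (pvgz_psg_cut g h)).1
      have hFR := pl_left_face (g.c.cutR (pvgz_psg_cut g h))
      have hFL := pl_left_face (g.c.cutL (pvgz_psg_cut g h))
      have hno : u ∉ T.VOf (g.c.cutL (pvgz_psg_cut g h)).Left := by
        intro hu
        have h1 : u ∈ p.verts := by
          rw [← pl_cc_VOf_inter hT (pvgz_psg_cut g h)]
          exact ⟨hu, ih.1⟩
        obtain ⟨k, hk, rfl⟩ := h1
        have := hX _ ih.2
        rw [h.bl k hk] at this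
        exact absurd this (by simp)
      rw [← hU] at hd
      rcases hd with (hd | hd) | (hd | hd)
      · exact absurd ⟨d, hd, hd1⟩ hno
      · exact ⟨T.nxt d, (hFR d).2 hd, hd2⟩
      · exact absurd ⟨T.nxt (T.opp d), (hFL _).2 hd, by rw [T.src_nxt, T.tgt_opp, hd1]⟩ hno
      · exact ⟨T.opp d, hd, by rw [T.src_opp', hd2]⟩
  exact key.1

/-- **a passage forces `Thru`** (TRAP in the cell between the passage and the right arc) -/
theorem pvgz_thru_of_psg (hT : T.IsSph) (g : T.Gate s) (hfin : g.c.Left.Finite) {p : T.Pth} (h : g.Psg p) : g.Thru := by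
  rcases pvtg_exit hT g hfin with h1 | h1
  · exact h1.1
  · exfalso
    obtain ⟨-, h2, h3⟩ := pvtg_len hT g hfin
    have hj := pvas_layW_join (T := T) s g.aIn (le_refl g.len)
    rw [h3, h1.1] at hj
    have hj' : T.Join g.c.Left g.wbank (T.tgt g.aIn) (T.tgt g.bOut) := pvtg_join_mono (pvas_fc_sub (pl_left_face g.c) h2) hj
    have hm := g.hm
    have hmn := g.hmn
    have hc := pvgz_psg_cut g h
    -- the first vertex of the right arc lies on the right part
    have ha : T.tgt g.aIn ∈ T.VOf (g.c.cutR (pvgz_psg_cut g h)).Left := by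
      refine ⟨(g.c.cutR (pvgz_psg_cut g h)).e 1, (pl_jordan hT _).2.1 1, ?_⟩
      rw [(pl_cc_cutR_e (pvgz_psg_cut g h)).2.1 1 (by omega), pvtg_aIn_tgt]
    have hb := pvgz_stay hT g h (fun v hv => (pvtg_wbank_sub hT g hfin hv).2) ha hj'
    have hb' : T.tgt g.bOut ∈ T.VOf (g.c.cutL (pvgz_psg_cut g h)).Left := by
      refine ⟨(g.c.cutL (pvgz_psg_cut g h)).e (g.c.n - 1 - g.m), (pl_jordan hT _).2.1 _, ?_⟩
      rw [(pl_cc_cutL_e (pvgz_psg_cut g h)).2.1 _ (by omega), pvtg_bOut_tgt]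
      congr 2
      omega
    have h4 : T.tgt g.bOut ∈ p.verts := by
      rw [← pl_cc_VOf_inter hT (pvgz_psg_cut g h)]
      exact ⟨hb', hb⟩
    obtain ⟨k, hk, e⟩ := h4
    have := (pvtg_bOut_bw g).2
    rw [← e, h.bl k hk] at this
    exact absurd this (by simp)

theorem pvgz_thru_iff (hT : T.IsSph) (g : T.Gate s) (hfin : g.c.Left.Finite) : g.Thru ↔ T.Join g.c.Left {v | s v = true} g.vm g.vp := by
  constructor
  · intro h
    exact pl_hx_join_mono subset_rfl (fun v hv => (pvtg_bank_sub hT g hfin hv).2) (pvtg_thru_join hT g hfin h)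
  · intro h
    obtain ⟨p, hp⟩ := pvgz_psg_of_join hT g h
    exact pvgz_thru_of_psg hT g hfin hp

/-! ## 3. RIBS, LOCALISE -/

/-- **RIBS**: the right arc is white-joined inside -/
theorem pvgz_rib (hT : T.IsSph) (g : T.Gate s) {u v : V} (hu : u ∈ g.R) (hv : v ∈ g.R) : T.Join g.c.Left {x | s x = false} u v := by
  obtain ⟨-, hL, -, -⟩ := pl_jordan hT g.c
  have key : ∀ j k, 0 < k → k + j < g.m → T.Join g.c.Left {x | s x = false} (T.src (g.c.e k)) (T.src (g.c.e (k + j))) := by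
    intro j
    induction j with
    | zero => intro k h0 hk; exact pl_hx_join_refl (pvtg_R_white g ⟨k, h0, hk, rfl⟩)
    | succ j ih =>
      intro k h0 hk
      refine pl_hx_join_tail (ih k h0 (by omega)) ⟨g.c.e (k + j), Or.inl (hL _), rfl, g.c.chain _⟩ ?_
      exact pvtg_R_white g ⟨k + (j + 1), by omega, hk, rfl⟩
  obtain ⟨k, k0, k1, rfl⟩ := hu
  obtain ⟨l, l0, l1, rfl⟩ := hv
  rcases Nat.le_total k l with h | h
  · have := key (l - k) k k0 (by omega)
    rwa [show k + (l - k) = l by omega] at this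
  · have := key (k - l) l l0 (by omega)
    rw [show l + (k - l) = k by omega] at this
    exact pl_hx_join_symm this

/-- a white vertex of the right part of the disc which lies on its boundary is a vertex of the right arc -/
theorem pvgz_cutR_white (g : T.Gate s) {p : T.Pth} (h : g.Psg p) {v : V} (hv : v ∈ (g.c.cutR (pvgz_psg_cut g h)).verts) (hw : s v = false) : v ∈ g.R := by
  rw [(pl_cc_verts (pvgz_psg_cut g h)).2] at hv
  rcases hv with ⟨k, -, hk, rfl⟩ | ⟨k, hk, rfl⟩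
  · refine ⟨k, ?_, ?_, rfl⟩
    · rcases Nat.eq_zero_or_pos k with rfl | h0
      · have := pvtg_vm g
        unfold PvMap.Gate.vm at this
        rw [this] at hw; exact absurd hw (by simp)
      · exact h0
    · rcases Nat.lt_or_ge k g.m with h1 | h1
      · exact h1
      · have e : k = g.m := le_antisymm hk h1
        subst e
        have := pvtg_vp g
        unfold PvMap.Gate.vp at this
        rw [this] at hw; exact absurd hw (by simp)
  · rw [h.bl k hk] at hw; exact absurd hw (by simp)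

/-- **LOCALISE**: a white vertex of the part of the disc on the right of a passage, white-joined to a vertex which is not strictly inside, is white-joined INSIDE to the right arc -/
theorem pvgz_localise (hT : T.IsSph) (g : T.Gate s) {p : T.Pth} (h : g.Psg p) {x y : V} (hx : x ∈ T.VOf (g.c.cutR (pvgz_psg_cut g h)).Left) (hw : s x = false)
    (hxy : T.Mono s x y) (hy : y ∉ T.Int g.c.Left) : ∃ r ∈ g.R, T.Join g.c.Left {v | s v = false} x r := by
  have hsub : (g.c.cutR (pvgz_psg_cut g h)).Left ⊆ g.c.Left := (pl_cc_sub hT (pvgz_psg_cut g h)).2.1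
  have hF := pl_left_face (g.c.cutR (pvgz_psg_cut g h))
  have cls : ∀ b, b ∈ T.VOf (g.c.cutR (pvgz_psg_cut g h)).Left → s b = false → T.Join g.c.Left {v | s v = false} x b →
      (∃ r ∈ g.R, T.Join g.c.Left {v | s v = false} x r) ∨ (b ∈ T.Int (g.c.cutR (pvgz_psg_cut g h)).Left ∧ s b = false ∧ T.Join g.c.Left {v | s v = false} x b) := by
    intro b hb hwb hj
    rw [pl_VOf_left hT] at hb
    rcases hb with hb | hb
    · exact Or.inl ⟨b, pvgz_cutR_white g h hb hwb, hj⟩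
    · exact Or.inr ⟨hb, hwb, hj⟩
  have key : ∀ b, T.Mono s x b →
      (∃ r ∈ g.R, T.Join g.c.Left {v | s v = false} x r) ∨ (b ∈ T.Int (g.c.cutR (pvgz_psg_cut g h)).Left ∧ s b = false ∧ T.Join g.c.Left {v | s v = false} x b) := by
    intro b hb
    induction hb with
    | refl => exact cls x hx hw ⟨hw, ReflTransGen.refl⟩
    | @tail b c _ hbc ih =>
      rcases ih with ih | ⟨h1, h2, h3⟩
      · exact Or.inl ih
      · obtain ⟨⟨d, hd1, hd2⟩, hcol⟩ := hbc
        have hd : d ∈ (g.c.cutR (pvgz_psg_cut g h)).Left := h1 d hd1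
        have hwc : s c = false := hcol ▸ h2
        refine cls c ⟨T.nxt d, (hF d).2 hd, hd2⟩ hwc ⟨h3.1, h3.2.tail ⟨⟨d, Or.inl (hsub hd), hd1, hd2⟩, hwc⟩⟩
  rcases key y hxy with h1 | ⟨h1, -, -⟩
  · exact h1
  · exact absurd (fun d hd => hsub (h1 d hd)) hy

/-- a passage whose right apexes are white and white-joined to vertices which are not strictly inside is THE inner path -/
theorem pvgz_psg_inn (hT : T.IsSph) (g : T.Gate s) {p : T.Pth} (h : g.Psg p) (hw : ∀ k, k < p.n → s (p.rap k) = false)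
    (ho : ∀ k, k < p.n → ∃ y, y ∉ T.Int g.c.Left ∧ T.Mono s (p.rap k) y) : g.IsInn p := by
  have hρ : s (T.tgt g.aIn) = false := (pvtg_aIn_bw g).2
  refine ⟨h, fun i hi => by rw [h.bl i hi, hρ]; simp, fun k hk => ⟨(h.ins k hk).2, ?_⟩⟩
  rw [hρ]
  obtain ⟨y, hy, hm⟩ := ho k hk
  have hx : p.rap k ∈ T.VOf (g.c.cutR (pvgz_psg_cut g h)).Left :=
    ⟨T.nxt (T.nxt (T.opp (p.e k))), ((pl_left_face _).nxt2 T _).2 (pl_cc_side hT (pvgz_psg_cut g h) hk).2, rfl⟩
  obtain ⟨r, hr, hj⟩ := pvgz_localise hT g h hx (hw k hk) hm hy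
  exact pl_hx_join_trans hj (pvgz_rib hT g hr (pvtg_aIn_tgt_R g))

/-! ## 4. THE INNER PATH -/

/-- existence: the loop-free part of the black bank of the inner strand -/
theorem pvgz_inn_exists (hT : T.IsSph) (g : T.Gate s) (hfin : g.c.Left.Finite) (h : g.Thru) :
    ∃ p, g.IsInn p ∧ p.OnWall s g.aIn ∧ p.verts ⊆ g.bank := by
  classical
  obtain ⟨-, h2, h3⟩ := pvtg_len hT g hfin
  have hbw := pvtg_aIn_bw g
  have hV : (pvtArc T s g.aIn g.len).verts ⊆ g.bank := pvt_sf_arc_verts (T := T) s g.aIn g.len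
  have hF : (pvtArc T s g.aIn g.len).Faced s g.c.Left (T.tgt g.aIn) :=
    (pvt_sf_arc_faced (T := T) (s := s) hbw g.len).mono (pvas_fc_sub (pl_left_face g.c) h2)
  have hbl : ∀ i, i ≤ (pvtArc T s g.aIn g.len).n → s ((pvtArc T s g.aIn g.len).v i) = true :=
    fun i hi => (pvtg_bank_sub hT g hfin (hV ⟨i, hi, rfl⟩)).2
  refine ⟨pvtArc T s g.aIn g.len, ⟨⟨pvt_sf_arc_v0 s g.aIn g.len, ?_, hbl, fun k hk => ?_⟩, hF⟩,
    pvow_bank_onwall hbw (fun k hk => pvt_sf_arc_e_mem s g.aIn g.len hk), hV⟩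
  · rw [pvt_sf_arc_vn, h3, h, pvtg_aOut_src]
  · refine pvgz_black_edge hT g (Or.inr (hF.2 k hk).1) ?_ ?_
    · rw [(pvtArc T s g.aIn g.len).src_e k hk]
      exact hbl k hk.le
    · rw [(pvtArc T s g.aIn g.len).tgt_e k hk]
      exact hbl (k + 1) hk

theorem pvgz_inn_iff (hT : T.IsSph) (g : T.Gate s) (hfin : g.c.Left.Finite) : (∃ p, g.IsInn p) ↔ g.Thru :=
  ⟨fun ⟨_, hp⟩ => pvgz_thru_of_psg hT g hfin hp.1, fun h => (pvgz_inn_exists hT g hfin h).imp fun _ hp => hp.1⟩

/-- the inner path is globally faced, with any anchor on the right arc -/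
theorem pvgz_inn_gfaced (hT : T.IsSph) (g : T.Gate s) {p : T.Pth} (h : g.IsInn p) {r : V} (hr : r ∈ g.R) : p.GFaced s r :=
  h.2.gfaced.anchor (pvt_c_join_mono (pvgz_rib hT g (pvtg_aIn_tgt_R g) hr))

/-- uniqueness -/
theorem pvgz_inn_unique (hT : T.IsSph) (hS : T.Simple) (g : T.Gate s) {p p' : T.Pth} (h : g.IsInn p) (h' : g.IsInn p') : p.n = p'.n ∧ ∀ i, i < p.n → p.e i = p'.e i :=
  pvt_c_unique hT hS s _ p p' h.2.gfaced h'.2.gfaced (h.1.h0.trans h'.1.h0.symm) (h.1.h1.trans h'.1.h1.symm)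

/-- the inner path is a piece of the wall of the entrance -/
theorem pvgz_inn_onwall (hT : T.IsSph) (g : T.Gate s) {p : T.Pth} (h : g.IsInn p) : p.OnWall s g.aIn := by
  intro k hk
  have hρ : s (T.tgt g.aIn) = false := pvtg_R_white g (pvtg_aIn_tgt_R g)
  obtain ⟨-, hj⟩ := h.2.2 k hk
  have hap : s (T.apex (T.opp (p.e k))) = false := by
    have := hj.1
    have this' : s (T.apex (T.opp (p.e k))) = s (T.tgt g.aIn) := this
    rw [this', hρ]
  have hb0 : s (p.v k) = true := h.1.bl k hk.le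
  have hb1 : s (p.v (k + 1)) = true := h.1.bl (k + 1) hk
  have e1 : T.src (T.opp (p.e k)) = p.v (k + 1) := by rw [T.src_opp', p.tgt_e k hk]
  have e2 : T.tgt (T.opp (p.e k)) = p.v k := by rw [T.tgt_opp, p.src_e k hk]
  refine ⟨⟨by rw [e1, e2, hb0, hb1], by rw [hap, e1, hb1]; simp⟩, ?_⟩
  have hm1 : T.Mono s (T.src g.aIn) (T.src (T.nxt (T.opp (p.e k)))) := by
    rw [T.src_nxt, e2, pvtg_aIn_src, ← h.1.h0]
    exact pvow_pth_mono (fun i hi => by rw [h.1.bl i hi, h.1.bl 0 (Nat.zero_le _)]) k hk.le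
  have hm2 : T.Mono s (T.tgt g.aIn) (T.tgt (T.nxt (T.opp (p.e k)))) := by
    rw [T.tgt_nxt]
    exact pvt_c_mono_symm (pvt_c_join_mono hj)
  have hocc : T.Occ s g.aIn := by
    unfold PvMap.Occ
    rw [pvtg_aIn_src, pvtg_vm g, hρ]
    simp
  exact PvMap.Wall.trans T (pvt_c_onewall hT s hocc hm1 hm2) (PvMap.Wall.of_SF T s (T.sf_symm (T.sf_nxt _)))

/-- a join inside a face set reads the set `X` on the vertices of the face set only -/
theorem pvgz_join_congr {A : Set D} (hA : T.FaceSet A) {X X' : Set V} (hX : ∀ v ∈ T.VOf A, v ∈ X → v ∈ X') {a b : V} (ha : a ∈ T.VOf A) (h : T.Join A X a b) :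
    T.Join A X' a b := by
  obtain ⟨h1, h2⟩ := h
  refine ⟨hX a ha h1, ?_⟩
  induction h2 with
  | refl => exact ReflTransGen.refl
  | tail _ hbc ih =>
    refine ih.tail ⟨hbc.1, hX _ ?_ hbc.2⟩
    obtain ⟨d, hd, -, rfl⟩ := hbc.1
    rcases hd with hd | hd
    · exact ⟨T.nxt d, (hA d).2 hd, rfl⟩
    · exact ⟨T.opp d, hd, T.src_opp' d⟩

/-- **LOCALITY**: the inner path is a function of the colours of the closed inside -/
theorem pvgz_inn_tr (g : T.Gate s) {p : T.Pth} (h : g.IsInn p) (s' : V → Bool) (hV : ∀ v ∈ T.VOf g.c.Left, s' v = s v) (h' : ∀ v ∈ g.c.verts, s' v = s v) :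
    (g.tr s' h').IsInn p := by
  have hF := pl_left_face g.c
  have hn : 0 < p.n := by
    rcases Nat.eq_zero_or_pos p.n with h0 | h0
    · exact absurd (by rw [← h.1.h0, ← h.1.h1, h0]) (pvtg_ne g)
    · exact h0
  have hvV : ∀ i, i ≤ p.n → p.v i ∈ T.VOf g.c.Left := by
    intro i hi
    rcases Nat.lt_or_ge i p.n with h1 | h1
    · exact ⟨p.e i, (h.1.ins i h1).1, p.src_e i h1⟩
    · have e : i = (p.n - 1) + 1 := by omega
      refine ⟨T.opp (p.e (p.n - 1)), (h.1.ins _ (by omega)).2, ?_⟩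
      rw [T.src_opp', p.tgt_e _ (by omega), ← e]
  have hρ : s' (T.tgt g.aIn) = s (T.tgt g.aIn) := h' _ ((pvtg_verts g _).2 (Or.inr (Or.inr (Or.inl (pvtg_aIn_tgt_R g)))))
  refine ⟨⟨h.1.h0, h.1.h1, fun i hi => by rw [hV _ (hvV i hi)]; exact h.1.bl i hi, h.1.ins⟩, ?_, ?_⟩
  · intro i hi
    show s' (p.v i) ≠ s' (T.tgt g.aIn)
    rw [hV _ (hvV i hi), hρ]
    exact h.2.1 i hi
  · intro i hi
    obtain ⟨h1, h2⟩ := h.2.2 i hi
    refine ⟨h1, ?_⟩
    show T.Join g.c.Left {v | s' v = s' (T.tgt g.aIn)} _ _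
    rw [hρ]
    exact pvgz_join_congr hF (fun v hv (hx : s v = s (T.tgt g.aIn)) => show s' v = _ by rw [hV v hv]; exact hx)
      ⟨T.nxt (T.nxt (T.opp (p.e i))), (hF _).2 ((hF _).2 h1), rfl⟩ h2

/-! ## 5. `Δ(S,P)` -/

/-- every dart of a cycle has an index in any window of length `n` -/
theorem pvgz_win (c : T.Cyc) (i l₀ : ℕ) : ∃ l, i ≤ l ∧ l < i + c.n ∧ c.e l = c.e l₀ := by
  obtain ⟨k, h1, h2, h3⟩ := (pl_cyc_edg_window c i (c.e l₀)).1 (Or.inl ⟨l₀, rfl⟩)
  rcases h3 with h3 | h3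
  · exact ⟨k, h1, h2, h3.symm⟩
  · exact absurd h3 (pl_cyc_ne_opp c _ _)

/-- **L1 (passage)**: a black simple circuit which visits both sides passes the gate, in one of the two senses -/
theorem pvgz_pass (hT : T.IsSph) (g : T.Gate s) (P : T.Cyc) (hP : ∀ k, s (T.src (P.e k)) = true) {u w : V} (hu : u ∈ P.verts) (hw : w ∈ P.verts)
    (hi : u ∈ T.Int g.c.Left) (hj : w ∈ T.Int g.c.Right) : (∃ lo hi, g.Pass P lo hi) ∨ ∃ lo hi, g.swap.Pass P lo hi := by
  obtain ⟨hd1, hd2, hd3⟩ := pl_jordan_vert_disj hT g.c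
  obtain ⟨p, q, hpq, hqp, hends, hin, hout⟩ := pvtg_pass hT g P hP hu hw hi hj
  have hvm : g.vm ∈ g.c.verts := ⟨0, rfl⟩
  have hvp : g.vp ∈ g.c.verts := ⟨g.m, rfl⟩
  have hpv : T.src (P.e p) ∈ g.c.verts := by rcases hends with ⟨e, -⟩ | ⟨e, -⟩ <;> rw [e] <;> assumption
  have hqv : T.src (P.e q) ∈ g.c.verts := by rcases hends with ⟨-, e⟩ | ⟨-, e⟩ <;> rw [e] <;> assumption
  have h1 : p + 1 < q := by
    obtain ⟨i, rfl⟩ := hu
    obtain ⟨l, hl1, hl2, hl3⟩ := pvgz_win P p i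
    rw [← hl3] at hi
    by_contra hcon
    rcases Nat.lt_or_ge q l with h4 | h4
    · exact Set.disjoint_left.1 hd3 hi (hout l h4 hl2)
    · have : l = p ∨ l = q := by omega
      rcases this with rfl | rfl
      · exact Set.disjoint_left.1 hd1 hpv hi
      · exact Set.disjoint_left.1 hd1 hqv hi
  have h2 : q + 1 < p + P.n := by
    obtain ⟨i, rfl⟩ := hw
    obtain ⟨l, hl1, hl2, hl3⟩ := pvgz_win P p i
    rw [← hl3] at hj
    by_contra hcon
    rcases Nat.lt_or_ge l q with h4 | h4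
    · rcases Nat.eq_or_lt_of_le hl1 with rfl | h5
      · exact Set.disjoint_left.1 hd2 hpv hj
      · exact Set.disjoint_left.1 hd3 (hin l h5 h4) hj
    · have : l = q := by omega
      subst this
      exact Set.disjoint_left.1 hd2 hqv hj
  rcases hends with ⟨e1, e2⟩ | ⟨e1, e2⟩
  · exact Or.inl ⟨p, q, h1, h2, e1, e2, hin, hout⟩
  · refine Or.inr ⟨p, q, h1, h2, by rw [pvgz_swap_vm]; exact e1, by rw [pvgz_swap_vp]; exact e2, ?_, ?_⟩
    · rw [pvgz_swap_left hT]; exact hin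
    · rw [pvgz_swap_right hT]; exact hout

/-- **L2 (a) TRAP**: every vertex of `P` in the closed inside lies on `Δ` -/
theorem pvgz_pass_trap (hT : T.IsSph) (g : T.Gate s) {P : T.Cyc} {lo hi : ℕ} (h : g.Pass P lo hi) {k : ℕ} (hk : T.src (P.e k) ∈ T.VOf g.c.Left) :
    ∃ j, lo ≤ j ∧ j ≤ hi ∧ T.src (P.e j) = T.src (P.e k) := by
  have hn := pl_cyc_pos P
  obtain ⟨j, hj1, hj2, hj⟩ : ∃ j, lo ≤ j ∧ j < lo + P.n ∧ P.e j = P.e k := by
    refine ⟨lo + (k + (P.n - lo % P.n)) % P.n, Nat.le_add_right _ _, Nat.add_lt_add_left (Nat.mod_lt _ hn) _, ?_⟩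
    apply pl_cyc_eq_of_mod
    have h1 : lo % P.n < P.n := Nat.mod_lt _ hn
    have : (lo + (k + (P.n - lo % P.n)) % P.n) % P.n = (lo % P.n + (k + (P.n - lo % P.n))) % P.n := by
      rw [Nat.add_mod, Nat.mod_mod, Nat.add_mod (lo % P.n) (k + (P.n - lo % P.n)), Nat.mod_mod]
    rw [this, show lo % P.n + (k + (P.n - lo % P.n)) = k + P.n by omega, Nat.add_mod_right]
  by_cases hle : j ≤ hi
  · exact ⟨j, hj1, hle, by rw [hj]⟩
  · exfalso
    have h3 := h.out j (by omega) hj2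
    rw [hj] at h3
    rw [pl_VOf_left hT] at hk
    obtain ⟨d1, d2, d3⟩ := pl_jordan_vert_disj hT g.c
    rcases hk with hk | hk
    · exact Set.disjoint_left.1 d2 hk h3
    · exact Set.disjoint_left.1 d3 hk h3

/-- **L2 (d) STABILITY** -/
theorem pvgz_pass_tr (g : T.Gate s) {P : T.Cyc} {lo hi : ℕ} (h : g.Pass P lo hi) (s' : V → Bool) (h' : ∀ v ∈ g.c.verts, s' v = s v) : (g.tr s' h').Pass P lo hi :=
  ⟨h.lt, h.lt', h.hlo, h.hhi, h.inn, h.out⟩

/-- recolouring black → white off a black circuit which passes the gate does not touch the circuit of the gate -/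
theorem pvgz_pass_recolor (g : T.Gate s) {P : T.Cyc} {lo hi : ℕ} (h : g.Pass P lo hi) {s' : V → Bool} (h1 : ∀ v, s' v = true → s v = true)
    (h2 : ∀ k, s' (T.src (P.e k)) = s (T.src (P.e k))) : ∀ v ∈ g.c.verts, s' v = s v := by
  intro v hv
  have key : ∀ w, s w = false → s' w = s w := by
    intro w hw
    rw [hw]
    by_contra hc
    have := h1 w (by simpa using hc)
    rw [hw] at this
    exact absurd this (by simp)
  rcases (pvtg_verts g v).1 hv with rfl | rfl | hR | hL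
  · rw [← h.hlo]; exact h2 lo
  · rw [← h.hhi]; exact h2 hi
  · exact key v (pvtg_R_white g hR)
  · exact key v (pvtg_L_white g hL)

/-- a dart with an end strictly on one side has both its faces on that side -/
theorem pvgz_side_left (hT : T.IsSph) (c : T.Cyc) {d : D} (h : T.src d ∈ T.Int c.Left ∨ T.tgt d ∈ T.Int c.Left) : d ∈ c.Left ∧ T.opp d ∈ c.Left := by
  have hF := pl_left_face c
  rcases h with h | h
  · have h1 : d ∈ c.Left := h d rfl
    have hne : ¬ T.Edg c.darts d := pl_cyc_off c (fun hv => Set.disjoint_left.1 (pl_jordan_vert_disj hT c).1 hv h)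
    rcases pl_edge_side hT c hne with h2 | h2
    · exact h2
    · rw [(pl_jordan hT c).1] at h2; exact absurd h1 h2.1
  · have h1 : T.opp d ∈ c.Left := h (T.opp d) (T.src_opp' d)
    have hne : ¬ T.Edg c.darts (T.opp d) := pl_cyc_off c (fun hv => Set.disjoint_left.1 (pl_jordan_vert_disj hT c).1 hv (by rw [T.src_opp']; exact h))
    rcases pl_edge_side hT c hne with h2 | h2
    · rw [T.opp_opp] at h2; exact h2.symm
    · rw [(pl_jordan hT c).1] at h2; exact absurd h1 h2.1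

theorem pvgz_side_right (hT : T.IsSph) (c : T.Cyc) {d : D} (h : T.src d ∈ T.Int c.Right ∨ T.tgt d ∈ T.Int c.Right) : d ∈ c.Right ∧ T.opp d ∈ c.Right := by
  rcases h with h | h
  · have h1 : d ∈ c.Right := h d rfl
    have hne : ¬ T.Edg c.darts d := pl_cyc_off c (fun hv => Set.disjoint_left.1 (pl_jordan_vert_disj hT c).2.1 hv h)
    rcases pl_edge_side hT c hne with h2 | h2
    · rw [(pl_jordan hT c).1] at h1; exact absurd h2.1 h1
    · exact h2
  · have h1 : T.opp d ∈ c.Right := h (T.opp d) (T.src_opp' d)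
    have hne : ¬ T.Edg c.darts (T.opp d) := pl_cyc_off c (fun hv => Set.disjoint_left.1 (pl_jordan_vert_disj hT c).2.1 hv (by rw [T.src_opp']; exact h))
    rcases pl_edge_side hT c hne with h2 | h2
    · rw [(pl_jordan hT c).1] at h1; exact absurd h2.1 h1
    · rw [T.opp_opp] at h2; exact h2.symm

theorem pvgz_pass_n (g : T.Gate s) {P : T.Cyc} {lo hi : ℕ} (h : g.Pass P lo hi) : (P.pth lo (hi - lo)).n = hi - lo := by
  show min (hi - lo) (P.n - 1) = hi - lo
  have := h.lt; have := h.lt'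
  omega

/-- `Δ` as a path is a passage -/
theorem pvgz_pass_psg (hT : T.IsSph) (g : T.Gate s) {P : T.Cyc} (hP : ∀ k, s (T.src (P.e k)) = true) {lo hi : ℕ} (h : g.Pass P lo hi) : g.Psg (P.pth lo (hi - lo)) := by
  have hn := pvgz_pass_n g h
  have h1 := h.lt
  refine ⟨h.hlo, ?_, fun i _ => hP _, fun k hk => ?_⟩
  · rw [hn]
    show T.src (P.e (lo + (hi - lo))) = _
    rw [show lo + (hi - lo) = hi by omega]; exact h.hhi
  · rw [hn] at hk
    show P.e (lo + k) ∈ _ ∧ T.opp (P.e (lo + k)) ∈ _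
    apply pvgz_side_left hT
    rcases Nat.eq_zero_or_pos k with rfl | h0
    · right; rw [P.chain]; exact h.inn _ (by omega) (by omega)
    · left; exact h.inn _ (by omega) (by omega)

/-- **RIM ⟹ STATE**: the arc `Δ(S,P)` of a black rim is the inner path of the gate, and the right arc of the gate lies in the white cluster which faces the rim -/
theorem pvgz_pass_rim (hT : T.IsSph) (g : T.Gate s) {P : T.Cyc} (hP : P.IsRim s) (hb : s (T.src (P.e 0)) = true) {lo hi : ℕ} (h : g.Pass P lo hi) :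
    g.IsInn (P.pth lo (hi - lo)) ∧ ∀ r ∈ g.R, ∀ k, T.Mono s r (T.apex (T.opp (P.e k))) := by
  have hB : ∀ k, s (T.src (P.e k)) = true := fun k => (pl_rim_col hP k 0).trans hb
  have hn := pvgz_pass_n g h
  have h1 := h.lt
  have h2 := h.lt'
  have hwhite : ∀ k, s (T.apex (T.opp (P.e k))) = false := by
    intro k
    have := pl_rim_facing_col hP k
    rw [hB] at this
    simpa using this
  have hy : T.apex (T.opp (P.e hi)) ∉ T.Int g.c.Left := by
    intro hc
    have h3 := (pvgz_side_right hT g.c (d := P.e hi) (Or.inr (by rw [P.chain]; exact h.out _ (by omega) (by omega)))).2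
    have h4 : T.nxt (T.nxt (T.opp (P.e hi))) ∈ g.c.Right := ((pl_right_face g.c).nxt2 T _).2 h3
    rw [(pl_jordan hT g.c).1] at h4
    exact h4 (hc _ rfl)
  have hinn : g.IsInn (P.pth lo (hi - lo)) :=
    pvgz_psg_inn hT g (pvgz_pass_psg hT g hB h) (fun k _ => hwhite _) (fun k _ => ⟨_, hy, pl_rim_facing hT hP _ _⟩)
  refine ⟨hinn, fun r hr k => ?_⟩
  have h5 := (pvgz_inn_gfaced hT g hinn hr).2 0 (by rw [hn]; omega)
  exact (pvt_c_mono_symm h5).trans (pl_rim_facing hT hP _ _)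

/-- the four gate darts of the right arc lie on the wall of the rim -/
theorem pvgz_pass_wall (hT : T.IsSph) (g : T.Gate s) {P : T.Cyc} (hP : P.IsRim s) (hb : s (T.src (P.e 0)) = true) {lo hi : ℕ} (h : g.Pass P lo hi) :
    T.Wall s (T.opp (P.e 0)) g.aIn ∧ T.Wall s (T.opp (P.e 0)) g.aOut := by
  obtain ⟨-, hR⟩ := pvgz_pass_rim hT g hP hb h
  have hcol : ∀ i, s (T.src (P.e i)) = s (T.src (P.e 0)) := fun i => pl_rim_col hP i 0
  -- the occupied dart of the face of the tag `opp (P.e 0)`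
  have hs1 : T.src (T.nxt (T.opp (P.e 0))) = T.src (P.e 0) := by
    rw [T.src_nxt, T.tgt_opp]
  have ht1 : T.tgt (T.nxt (T.opp (P.e 0))) = T.apex (T.opp (P.e 0)) := T.tgt_nxt _
  have hocc : T.Occ s (T.nxt (T.opp (P.e 0))) := by
    unfold PvMap.Occ
    rw [hs1, ht1]
    exact (pl_rim_facing_col hP 0).symm
  have hw0 : T.Wall s (T.opp (P.e 0)) (T.nxt (T.opp (P.e 0))) := ReflTransGen.single (Or.inl (T.sf_nxt _))
  constructor
  · refine Relation.ReflTransGen.trans hw0 (pvt_c_onewall hT s hocc ?_ ?_)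
    · rw [hs1, pvtg_aIn_src, ← h.hlo]
      exact pvt_c_cyc_mono s P hcol lo
    · rw [ht1]
      exact pvt_c_mono_symm (hR _ (pvtg_aIn_tgt_R g) 0)
  · refine Relation.ReflTransGen.trans hw0 (pvt_c_onewall hT s hocc ?_ ?_)
    · rw [hs1, pvtg_aOut_src, ← h.hhi]
      exact pvt_c_cyc_mono s P hcol hi
    · rw [ht1]
      exact pvt_c_mono_symm (hR _ (pvtg_aOut_tgt_R g) 0)

/-! ## 6. NESTED GATES -/

/-- a passage may be read at any index congruent to `lo` -/
theorem pvgz_pass_shift (g : T.Gate s) {P : T.Cyc} {lo hi lo' : ℕ} (h : g.Pass P lo hi) (hm : lo' % P.n = lo % P.n) : g.Pass P lo' (lo' + (hi - lo)) := by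
  have hlt := h.lt
  have key : ∀ t, P.e (lo' + t) = P.e (lo + t) := fun t => pl_cyc_eq_of_mod P (by rw [Nat.add_mod, hm, ← Nat.add_mod])
  refine ⟨by omega, by have := h.lt'; omega, ?_, ?_, ?_, ?_⟩
  · have := key 0
    rw [Nat.add_zero, Nat.add_zero] at this
    rw [this]; exact h.hlo
  · rw [key, show lo + (hi - lo) = hi by omega]; exact h.hhi
  · intro k h1 h2
    obtain ⟨t, rfl⟩ := Nat.exists_eq_add_of_le h1.le
    rw [key]
    exact h.inn _ (by omega) (by omega)
  · intro k h1 h2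
    obtain ⟨t, rfl⟩ := Nat.exists_eq_add_of_le (show lo' ≤ k by omega)
    rw [key]
    exact h.out _ (by omega) (by omega)

/-- a vertex is not strictly inside and strictly outside -/
theorem pvgz_int_disj (hT : T.IsSph) (c : T.Cyc) {d : D} (h1 : T.src d ∈ T.Int c.Left) (h2 : T.src d ∈ T.Int c.Right) : False := by
  have a1 := h1 d rfl
  have a2 := h2 d rfl
  rw [(pl_jordan hT c).1] at a2
  exact a2 a1

/-- a vertex of the circuit is not strictly inside -/
theorem pvgz_verts_not_int (hT : T.IsSph) (c : T.Cyc) (i : ℕ) : T.src (c.e i) ∉ T.Int c.Left := by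
  intro h
  have hn := pl_cyc_pos c
  have h1 : T.opp (c.e (i + c.n - 1)) ∈ c.Left := h _ (by
    rw [T.src_opp', c.chain, show i + c.n - 1 + 1 = i + c.n by omega, c.per])
  have h2 := (pl_jordan hT c).2.2.1 (i + c.n - 1)
  rw [(pl_jordan hT c).1] at h2
  exact h2 h1

/-- **L2 (c)**: the passages of nested gates are nested -/
theorem pvgz_nest_pass (hT : T.IsSph) (g₁ g₂ : T.Gate s) (hin : g₁.c.Inside g₂.c) {P : T.Cyc} {lo₁ hi₁ lo₂ hi₂ : ℕ} (h₁ : g₁.Pass P lo₁ hi₁) (h₂ : g₂.Pass P lo₂ hi₂) :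
    ∃ lo hi, g₁.Pass P lo hi ∧ lo₂ < lo ∧ hi < hi₂ := by
  have hn := pl_cyc_pos P
  -- all the vertices of the passage of `g₁` lie strictly inside `g₂`
  have hin1 : ∀ {lo hi : ℕ}, g₁.Pass P lo hi → ∀ k, lo ≤ k → k ≤ hi → T.src (P.e k) ∈ T.Int g₂.c.Left := by
    intro lo hi h k h1 h2
    rcases Nat.eq_or_lt_of_le h1 with rfl | h1
    · rw [h.hlo]; exact hin.1 ⟨0, rfl⟩
    · rcases Nat.eq_or_lt_of_le h2 with rfl | h2
      · rw [h.hhi]; exact hin.1 ⟨g₁.m, rfl⟩
      · exact fun d hd => hin.2 (h.inn k h1 h2 d hd)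
  set r := (lo₁ + P.n * lo₂ - lo₂) % P.n with hr
  have hle : lo₂ ≤ lo₁ + P.n * lo₂ := le_trans (Nat.le_mul_of_pos_left lo₂ hn) (Nat.le_add_left _ _)
  have hrn : r < P.n := Nat.mod_lt _ hn
  have hmod : (lo₂ + r) % P.n = lo₁ % P.n := by
    rw [hr, Nat.add_mod_mod, Nat.add_sub_cancel' hle, Nat.add_mul_mod_self_left]
  have hp := pvgz_pass_shift g₁ h₁ hmod
  refine ⟨_, _, hp, ?_, ?_⟩
  · rcases Nat.eq_zero_or_pos r with h0 | h0
    · exfalso
      have := hin1 hp (lo₂ + r) le_rfl (by omega)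
      rw [h0, Nat.add_zero, h₂.hlo] at this
      exact pvgz_verts_not_int hT g₂.c 0 this
    · omega
  · by_contra hc
    rcases Nat.lt_or_ge hi₂ (lo₂ + r) with h3 | h3
    · exact pvgz_int_disj hT g₂.c (hin1 hp (lo₂ + r) le_rfl (by omega)) (h₂.out _ h3 (by omega))
    · have := hin1 hp hi₂ h3 (by omega)
      rw [h₂.hhi] at this
      exact pvgz_verts_not_int hT g₂.c g₂.m this

/-- the last index before `k` at which `P` fails -/
theorem pvgz_last_before (P : ℕ → Prop) : ∀ k, ¬ P 0 → P k → ∃ i, i < k ∧ ¬ P i ∧ ∀ m, i < m → m ≤ k → P m := by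
  intro k
  induction k with
  | zero => intro h0 hk; exact absurd hk h0
  | succ k ih =>
    intro h0 hk
    by_cases h : P k
    · obtain ⟨i, hi, h1, h2⟩ := ih h0 h
      refine ⟨i, by omega, h1, fun m hm hm' => ?_⟩
      rcases Nat.lt_or_ge m (k + 1) with h3 | h3
      · exact h2 m hm (by omega)
      · have : m = k + 1 := by omega
        rw [this]; exact hk
    · refine ⟨k, by omega, h, fun m hm hm' => ?_⟩
      have : m = k + 1 := by omega
      rw [this]; exact hk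

/-- the first index after `k` at which `P` fails -/
theorem pvgz_first_after (P : ℕ → Prop) {k n : ℕ} (hkn : k ≤ n) (hk : P k) (hn : ¬ P n) : ∃ j, k < j ∧ j ≤ n ∧ ¬ P j ∧ ∀ m, k ≤ m → m < j → P m := by
  classical
  have hex : ∃ j, k ≤ j ∧ ¬ P j := ⟨n, hkn, hn⟩
  refine ⟨Nat.find hex, ?_, Nat.find_min' hex ⟨hkn, hn⟩, (Nat.find_spec hex).2, fun m h1 h2 => ?_⟩
  · rcases Nat.lt_or_ge k (Nat.find hex) with h | h
    · exact h
    · have h1 := Nat.find_spec hex
      have : Nat.find hex = k := by omega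
      rw [this] at h1
      exact absurd hk h1.2
  · by_contra hc
    exact Nat.find_min hex h2 ⟨h1, hc⟩

/-- a stretch of the inner path of the outer gate which crosses an inner gate from `g⁻` to `g⁺` is the inner path of the inner gate;   white ladder -/
theorem pvgz_nest_aux (hT : T.IsSph) (g g₂ : T.Gate s) (hL : g.c.Left ⊆ g₂.c.Left) {p : T.Pth} (hp : g₂.IsInn p) {i j : ℕ} (hij : i + 1 < j) (hj : j ≤ p.n)
    (h0 : p.v i = g.vm) (h1 : p.v j = g.vp) (hin : ∀ m, i < m → m < j → p.v m ∈ T.Int g.c.Left) :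
    g.IsInn (p.seg i j) ∧ ∀ r₁ ∈ g.R, ∀ r₂ ∈ g₂.R, T.Join g₂.c.Left {v | s v = false} r₁ r₂ := by
  have hn : (p.seg i j).n = j - i := by
    show min j p.n - i = j - i
    rw [Nat.min_eq_left hj]
  have hρ : s (T.tgt g₂.aIn) = false := pvtg_R_white g₂ (pvtg_aIn_tgt_R g₂)
  have hρ' : s (T.tgt g.aIn) = false := pvtg_R_white g (pvtg_aIn_tgt_R g)
  have hy : T.tgt g₂.aIn ∉ T.Int g.c.Left := by
    intro h
    rw [pvtg_aIn_tgt] at h
    exact pvgz_verts_not_int hT g₂.c 1 fun d hd => hL (h d hd)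
  have hface : ∀ k, k < p.n → T.Join g₂.c.Left {v | s v = false} (p.rap k) (T.tgt g₂.aIn) := by
    intro k hk
    have := (hp.2.2 k hk).2
    rw [hρ] at this
    exact this
  have hpsg : g.Psg (p.seg i j) := by
    refine ⟨h0, ?_, fun k hk => hp.1.bl _ (by rw [hn] at hk; omega), fun k hk => ?_⟩
    · show p.v (i + (p.seg i j).n) = _
      rw [hn, show i + (j - i) = j by omega, h1]
    · rw [hn] at hk
      show p.e (i + k) ∈ _ ∧ T.opp (p.e (i + k)) ∈ _
      refine pvgz_side_left hT g.c ?_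
      rcases Nat.eq_zero_or_pos k with rfl | hk0
      · right
        rw [p.tgt_e _ (by omega)]
        exact hin _ (by omega) (by omega)
      · left
        rw [p.src_e _ (by omega)]
        exact hin _ (by omega) (by omega)
  have hinn : g.IsInn (p.seg i j) := by
    refine pvgz_psg_inn hT g hpsg (fun k hk => ?_) fun k hk => ⟨_, hy, ?_⟩
    · rw [hn] at hk
      exact (hface (i + k) (by omega)).1
    · rw [hn] at hk
      exact pvt_c_join_mono (hface (i + k) (by omega))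
  refine ⟨hinn, fun r₁ hr₁ r₂ hr₂ => ?_⟩
  have a1 : T.Join g₂.c.Left {v | s v = false} r₁ (T.tgt g.aIn) := pvtg_join_mono hL (pvgz_rib hT g hr₁ (pvtg_aIn_tgt_R g))
  have a2 : T.Join g₂.c.Left {v | s v = false} (p.rap i) (T.tgt g.aIn) := by
    have := (hinn.2.2 0 (by rw [hn]; omega)).2
    rw [hρ'] at this
    exact pvtg_join_mono hL this
  have a3 := hface i (by omega)
  have a4 := pvgz_rib hT g₂ (pvtg_aIn_tgt_R g₂) hr₂
  exact pl_hx_join_trans (pl_hx_join_trans (pl_hx_join_trans a1 (pl_hx_join_symm a2)) a3) a4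

/-- **the inner path of the outer gate contains the inner path of the inner gate**, as soon as it visits its inside;   WHITE LADDER (L3): the two right arcs are white-joined inside the outer gate -/
theorem pvgz_nest_inn (hT : T.IsSph) (g₁ g₂ : T.Gate s) (hin : g₁.c.Inside g₂.c) {p : T.Pth} (hp : g₂.IsInn p) {k : ℕ} (hk : k ≤ p.n) (hv : p.v k ∈ T.Int g₁.c.Left) :
    ∃ g : T.Gate s, (g = g₁ ∨ g = g₁.swap) ∧ ∃ i j, 0 < i ∧ i < k ∧ k < j ∧ j < p.n ∧ g.IsInn (p.seg i j) ∧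
      ∀ r₁ ∈ g.R, ∀ r₂ ∈ g₂.R, T.Join g₂.c.Left {v | s v = false} r₁ r₂ := by
  obtain ⟨hin1, hin2⟩ := hin
  have hsub : ∀ v, v ∈ T.Int g₁.c.Left → v ∈ T.Int g₂.c.Left := fun v h d hd => hin2 (h d hd)
  -- the two ends of `p` are on the outer circuit
  have e0 : p.v 0 ∉ T.Int g₂.c.Left := by rw [hp.1.h0]; exact pvgz_verts_not_int hT g₂.c 0
  have e1 : p.v p.n ∉ T.Int g₂.c.Left := by rw [hp.1.h1]; exact pvgz_verts_not_int hT g₂.c g₂.m
  obtain ⟨i, hik, hi1, hi2⟩ := pvgz_last_before (fun m => p.v m ∈ T.Int g₁.c.Left) k (fun h => e0 (hsub _ h)) hv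
  obtain ⟨j, hkj, hjn, hj1, hj2⟩ := pvgz_first_after (fun m => p.v m ∈ T.Int g₁.c.Left) hk hv (fun h => e1 (hsub _ h))
  have hmid : ∀ m, i < m → m < j → p.v m ∈ T.Int g₁.c.Left := by
    intro m h1 h2
    rcases Nat.lt_or_ge k m with h | h
    · exact hj2 m h.le h2
    · exact hi2 m h1 h
  -- the two stops are black vertices of the inner circuit
  have vi : p.v i ∈ g₁.c.verts := by
    by_contra hc
    have h1 : p.e i ∈ g₁.c.Left := (pvgz_side_left hT g₁.c (Or.inr (by rw [p.tgt_e i (by omega)]; exact hmid _ (by omega) (by omega)))).1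
    have := pvt_c_int_of_left hT g₁.c h1 (by rw [p.src_e i (by omega)]; exact hc)
    rw [p.src_e i (by omega)] at this
    exact hi1 this
  have vj : p.v j ∈ g₁.c.verts := by
    by_contra hc
    have h1 : T.opp (p.e (j - 1)) ∈ g₁.c.Left := (pvgz_side_left hT g₁.c (Or.inl (by rw [p.src_e (j - 1) (by omega)]; exact hmid _ (by omega) (by omega)))).2
    have e : T.src (T.opp (p.e (j - 1))) = p.v j := by
      rw [T.src_opp', p.tgt_e (j - 1) (by omega), show j - 1 + 1 = j by omega]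
    have := pvt_c_int_of_left hT g₁.c h1 (by rw [e]; exact hc)
    rw [e] at this
    exact hj1 this
  have i0 : 0 < i := by
    rcases Nat.eq_zero_or_pos i with rfl | h
    · exact absurd (hin1 vi) e0
    · exact h
  have jn : j < p.n := by
    rcases Nat.lt_or_ge j p.n with h | h
    · exact h
    · have : j = p.n := by omega
      rw [this] at vj
      exact absurd (hin1 vj) e1
  have hne : p.v i ≠ p.v j := fun h => by
    have := p.inj _ _ (by omega) hjn h
    omega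
  rcases pvtg_black g₁ vi (hp.1.bl i (by omega)) with hi | hi <;> rcases pvtg_black g₁ vj (hp.1.bl j hjn) with hj | hj
  · exact absurd (hi.trans hj.symm) hne
  · obtain ⟨h1, h2⟩ := pvgz_nest_aux hT g₁ g₂ hin2 hp (i := i) (j := j) (by omega) hjn hi hj hmid
    exact ⟨g₁, Or.inl rfl, i, j, i0, hik, hkj, jn, h1, h2⟩
  · obtain ⟨h1, h2⟩ := pvgz_nest_aux hT g₁.swap g₂ (by rw [pvgz_swap_left hT]; exact hin2) hp (i := i) (j := j) (by omega) hjn (by rw [pvgz_swap_vm]; exact hi) (by rw [pvgz_swap_vp]; exact hj)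
      (by rw [pvgz_swap_left hT]; exact hmid)
    exact ⟨g₁.swap, Or.inr rfl, i, j, i0, hik, hkj, jn, h1, h2⟩
  · exact absurd (hi.trans hj.symm) hne

/-! ## 7. LINKS, TR13 -/

theorem pvgz_wall_thru (hT : T.IsSph) (g : T.Gate s) (hfin : g.c.Left.Finite) (h : g.Thru) : T.Wall s g.aIn g.aOut := by
  have h1 := pvt_s_it_wall (pvtg_aIn_bw g) g.len
  rw [(pvtg_len hT g hfin).2.2] at h1
  have h2 : pvasExit T g.c.Left s g.aIn = g.aOut := h
  rwa [h2] at h1

/-- **ONE WALL with ribs**: a black connection `g⁺ ~ g'⁻` and a white connection between ANY two vertices of the two right arcs put the exit of `g` and the entrance of `g'` on one wall -/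
theorem pvgz_wall_link (hT : T.IsSph) (g g' : T.Gate s) (hb : T.Mono s g.vp g'.vm) {r r' : V} (hr : r ∈ g.R) (hr' : r' ∈ g'.R) (hw : T.Mono s r r') : T.Wall s g.aOut g'.aIn := by
  have hocc : T.Occ s g.aOut := by
    have := pvtg_aOut_bw g
    unfold PvMap.Occ
    rw [this.1, this.2]
    exact Bool.noConfusion
  refine pvt_c_onewall hT s hocc ?_ ?_
  · rw [pvtg_aOut_src, pvtg_aIn_src]; exact hb
  · have a1 : T.Mono s (T.tgt g.aOut) r := pvt_c_join_mono (pvgz_rib hT g (pvtg_aOut_tgt_R g) hr)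
    have a2 : T.Mono s r' (T.tgt g'.aIn) := pvt_c_join_mono (pvgz_rib hT g' hr' (pvtg_aIn_tgt_R g'))
    exact (a1.trans hw).trans a2

/-- **TR13 with ribs, four pieces**: `P' = inn(s) . γ . inn(t) . Rc`.   `γ : g_s⁺ → g_t⁻` (free arc) and `Rc : g_t⁺ → g_s⁻` (the chain) are globally faced with anchors on the ribs, they run outside the two gates and are disjoint;
the two right arcs are white-joined (white lane hooked ANYWHERE on the ribs).   Then `P'` carries ONE label and the label sum is the sum of the four path sums. -/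
theorem pvgz_close (hT : T.IsSph) (hS : T.Simple) (gs gt : T.Gate s) {ps pt γ Rc : T.Pth} (hs : gs.IsInn ps) (ht : gt.IsInn pt)
    (γ0 : γ.v 0 = gs.vp) (γ1 : γ.v γ.n = gt.vm) (R0 : Rc.v 0 = gt.vp) (R1 : Rc.v Rc.n = gs.vm)
    {r r' : V} (hr : r ∈ gs.R) (hr' : r' ∈ gt.R) (hw : T.Mono s r r') (hγ : γ.GFaced s r) (hR : Rc.GFaced s r')
    (hdis : Disjoint (T.VOf gs.c.Left) (T.VOf gt.c.Left))
    (γo : ∀ k, 0 < k → k < γ.n → γ.v k ∉ T.VOf gs.c.Left ∧ γ.v k ∉ T.VOf gt.c.Left) (Ro : ∀ k, 0 < k → k < Rc.n → Rc.v k ∉ T.VOf gs.c.Left ∧ Rc.v k ∉ T.VOf gt.c.Left)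
    (hγR : ∀ k l, 0 < k → k < γ.n → 0 < l → l < Rc.n → γ.v k ≠ Rc.v l) :
    T.Tag s (T.opp (ps.e 0)) ∧
      (∀ d', T.SameLab s (T.opp (ps.e 0)) d' ↔ (∃ i, i < ps.n ∧ d' = T.opp (ps.e i)) ∨ (∃ i, i < γ.n ∧ d' = T.opp (γ.e i)) ∨ (∃ i, i < pt.n ∧ d' = T.opp (pt.e i)) ∨
        ∃ i, i < Rc.n ∧ d' = T.opp (Rc.e i)) ∧
      ∀ w : D → ℂ, T.lsum s w (T.opp (ps.e 0)) = ps.psum w + γ.psum w + pt.psum w + Rc.psum w := by
  obtain ⟨-, hLs, -, -⟩ := pl_jordan hT gs.c
  obtain ⟨-, hLt, -, -⟩ := pl_jordan hT gt.c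
  have hmono : ∀ {p : T.Pth} {ρ : V}, p.GFaced s ρ → T.Mono s (p.v 0) (p.v p.n) := fun {p ρ} hp =>
    pvow_pth_mono (fun i hi => pvt_c_bool (hp.1 i hi) (hp.1 0 (Nat.zero_le _))) p.n le_rfl
  have gps : ps.GFaced s r := pvgz_inn_gfaced hT gs hs hr
  have gpt : pt.GFaced s r' := pvgz_inn_gfaced hT gt ht hr'
  have hocc : T.Occ s gs.aIn := by
    have := pvtg_aIn_bw gs
    unfold PvMap.Occ
    rw [this.1, this.2]
    exact Bool.noConfusion
  have m1 : T.Mono s (T.src gs.aIn) (ps.v 0) := by rw [pvtg_aIn_src, hs.1.h0]; exact ReflTransGen.refl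
  have m2 : T.Mono s (T.src gs.aIn) (γ.v 0) := by
    have := m1.trans (hmono gps)
    rwa [hs.1.h1, ← γ0] at this
  have m3 : T.Mono s (T.src gs.aIn) (pt.v 0) := by
    have := m2.trans (hmono hγ)
    rwa [γ1, ← ht.1.h0] at this
  have m4 : T.Mono s (T.src gs.aIn) (Rc.v 0) := by
    have := m3.trans (hmono gpt)
    rwa [ht.1.h1, ← R0] at this
  have w1 : T.Mono s (T.tgt gs.aIn) r := pvt_c_join_mono (pvgz_rib hT gs (pvtg_aIn_tgt_R gs) hr)
  have w2 : T.Mono s (T.tgt gs.aIn) r' := w1.trans hw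
  have hpn : 0 < ps.n := by
    rcases Nat.eq_zero_or_pos ps.n with h | h
    · exact absurd (by rw [← hs.1.h0, ← hs.1.h1, h]) (pvtg_ne gs)
    · exact h
  -- membership in the two closed gates
  have vs : ∀ k, k < ps.n → ps.v (k + 1) ∈ T.VOf gs.c.Left := fun k hk =>
    ⟨T.opp (ps.e k), (hs.1.ins k hk).2, by rw [T.src_opp', ps.tgt_e k hk]⟩
  have vt : ∀ k, k < pt.n → pt.v (k + 1) ∈ T.VOf gt.c.Left := fun k hk =>
    ⟨T.opp (pt.e k), (ht.1.ins k hk).2, by rw [T.src_opp', pt.tgt_e k hk]⟩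
  have vsm : gs.vm ∈ T.VOf gs.c.Left := ⟨gs.c.e 0, hLs 0, rfl⟩
  have vtm : gt.vm ∈ T.VOf gt.c.Left := ⟨gt.c.e 0, hLt 0, rfl⟩
  have hd : ∀ v, v ∈ T.VOf gs.c.Left → v ∈ T.VOf gt.c.Left → False := fun v h1 h2 => Set.disjoint_left.1 hdis h1 h2
  have hn : ((pvowDarts [ps, γ, pt, Rc]).map T.tgt).Nodup := by
    refine pvow_nodup ?_
    simp only [List.pairwise_cons, List.mem_cons, List.not_mem_nil, or_false, forall_eq_or_imp, forall_eq, IsEmpty.forall_iff, implies_true, List.Pairwise.nil, and_true]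
    refine ⟨⟨?_, ?_, ?_⟩, ⟨?_, ?_⟩, ?_⟩
    · intro k l hk hl e
      rcases Nat.lt_or_ge (l + 1) γ.n with h | h
      · exact (γo _ (Nat.succ_pos _) h).1 (e ▸ vs k hk)
      · have : l + 1 = γ.n := by omega
        rw [this, γ1] at e
        exact hd _ (vs k hk) (e ▸ vtm)
    · intro k l hk hl e
      exact hd _ (vs k hk) (e ▸ vt l hl)
    · intro k l hk hl e
      rcases Nat.lt_or_ge (l + 1) Rc.n with h | h
      · exact (Ro _ (Nat.succ_pos _) h).1 (e ▸ vs k hk)
      · have : l + 1 = Rc.n := by omega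
        rw [this, R1, ← hs.1.h0] at e
        have := ps.inj _ _ (by omega) (Nat.zero_le _) e
        omega
    · intro k l hk hl e
      rcases Nat.lt_or_ge (k + 1) γ.n with h | h
      · exact (γo _ (Nat.succ_pos _) h).2 (e ▸ vt l hl)
      · have : k + 1 = γ.n := by omega
        rw [this, γ1, ← ht.1.h0] at e
        have := pt.inj _ _ (Nat.zero_le _) (by omega) e
        omega
    · intro k l hk hl e
      rcases Nat.lt_or_ge (k + 1) γ.n with h | h
      · rcases Nat.lt_or_ge (l + 1) Rc.n with h' | h'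
        · exact hγR _ _ (Nat.succ_pos _) h (Nat.succ_pos _) h' e
        · have : l + 1 = Rc.n := by omega
          rw [this, R1] at e
          exact (γo _ (Nat.succ_pos _) h).1 (e ▸ vsm)
      · have : k + 1 = γ.n := by omega
        rw [this, γ1] at e
        rcases Nat.lt_or_ge (l + 1) Rc.n with h' | h'
        · exact (Ro _ (Nat.succ_pos _) h').2 (e ▸ vtm)
        · have : l + 1 = Rc.n := by omega
          rw [this, R1] at e
          exact hd _ vsm (e ▸ vtm)
    · intro k l hk hl e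
      rcases Nat.lt_or_ge (l + 1) Rc.n with h | h
      · exact (Ro _ (Nat.succ_pos _) h).2 (e ▸ vt k hk)
      · have : l + 1 = Rc.n := by omega
        rw [this, R1] at e
        exact hd _ vsm (e ▸ vt k hk)
  have hch : pvowChain T [ps, γ, pt, Rc] (ps.v 0) (ps.v 0) :=
    ⟨rfl, by rw [γ0, hs.1.h1], by rw [γ1, ht.1.h0], by rw [R0, ht.1.h1], by rw [R1, hs.1.h0]; exact rfl⟩
  have hwl : ∀ p ∈ [ps, γ, pt, Rc], p.OnWall s gs.aIn := by
    intro p hp
    simp only [List.mem_cons, List.not_mem_nil, or_false] at hp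
    rcases hp with rfl | rfl | rfl | rfl
    · exact pvow_gfaced_onwall hT gps hocc m1 w1
    · exact pvow_gfaced_onwall hT hγ hocc m2 w1
    · exact pvow_gfaced_onwall hT gpt hocc m3 w2
    · exact pvow_gfaced_onwall hT hR hocc m4 w2
  have hg : ps.e 0 ∈ pvowDarts [ps, γ, pt, Rc] := pvow_mem_darts.2 ⟨ps, List.mem_cons_self, 0, hpn, rfl⟩
  obtain ⟨h1, h2, h3⟩ := pvow_ring hT hS hch hn hwl hg
  refine ⟨h1, fun d' => ?_, fun w => ?_⟩
  · rw [h2, pvow_mem_darts]
    simp only [List.mem_cons, List.not_mem_nil, or_false, exists_eq_or_imp, exists_eq_left]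
    have aux : ∀ (p : T.Pth), (∃ k, k < p.n ∧ p.e k = T.opp d') ↔ ∃ i, i < p.n ∧ d' = T.opp (p.e i) := by
      intro p
      constructor
      · rintro ⟨k, hk, e⟩
        exact ⟨k, hk, by rw [e, T.opp_opp]⟩
      · rintro ⟨k, hk, e⟩
        exact ⟨k, hk, by rw [e, T.opp_opp]⟩
    rw [aux, aux, aux, aux]
  · rw [h3]
    simp only [List.map_cons, List.map_nil, List.sum_cons, List.sum_nil]
    ring

/-! ## 8. BRIDGES: `PvwLE` of `Tr/Defs` (216, 64), `PvdiPass` of `Tr/Di` (212) -/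

/-- `PvwLE` reads the length and the vertices only -/
theorem pvgz_le_congr {b : ℕ → V} {n : ℕ} {y p : T.Pth} (hy : PvwLE T b n y) (hn : y.n = p.n) (hv : ∀ k, k ≤ y.n → y.v k = p.v k) : PvwLE T b n p := by
  obtain ⟨j, h0, h1, h2, h3⟩ := hy
  refine ⟨j, by rw [← hv 0 (Nat.zero_le _)]; exact h0, by rw [← hn]; exact h1, fun k hk => ?_, fun k hk => ?_⟩
  · rw [← hn] at hk
    rw [← hv k hk]; exact h2 k hk
  · rw [← hn] at hk
    rw [← hv (k + 1) hk]; exact h3 k hk

/-- two paths with the same darts have the same vertices -/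
theorem pvgz_pth_v {p q : T.Pth} (hn : p.n = q.n) (h0 : p.v 0 = q.v 0) (he : ∀ i, i < p.n → p.e i = q.e i) {k : ℕ} (hk : k ≤ p.n) : p.v k = q.v k := by
  rcases Nat.eq_zero_or_pos k with rfl | hpos
  · exact h0
  · obtain ⟨j, rfl⟩ : ∃ j, k = j + 1 := ⟨k - 1, by omega⟩
    rw [← p.tgt_e j (by omega), ← q.tgt_e j (by omega), he j (by omega)]

/-- the inner strand does not repeat a position -/
theorem pvgz_strand_inj (hT : T.IsSph) (g : T.Gate s) (hfin : g.c.Left.Finite) : ∀ i j, i < g.len → j < g.len → pvasIt T s g.aIn i = pvasIt T s g.aIn j → i = j := by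
  obtain ⟨-, h2, -⟩ := pvtg_len hT g hfin
  have hin : pvasIn T g.c.Left s g.aIn := (pvtg_in_iff hT g _).2 (Or.inl rfl)
  refine pvt_sd_inj (pvtg_aIn_bw g) fun k h0 hk e => ?_
  have := pvas_in_first (pl_left_face g.c) hin e (fun i hi => h2 i (by omega))
  omega

/-- **BRIDGE to `PvwLE`** (`Tr/Defs`): the inner path is the loop erasure of the black bank of the inner strand -/
theorem pvgz_inn_le (hT : T.IsSph) (hS : T.Simple) (g : T.Gate s) (hfin : g.c.Left.Finite) {p : T.Pth} (h : g.IsInn p) :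
    PvwLE T (fun i => T.src (pvasIt T s g.aIn i)) g.len p := by
  classical
  have hthru : g.Thru := pvgz_thru_of_psg hT g hfin h.1
  obtain ⟨-, h2, h3⟩ := pvtg_len hT g hfin
  have hbw := pvtg_aIn_bw g
  have hy := pvt_sd_le hT hS hbw (pvgz_strand_inj hT g hfin)
  have e0 : (pvtArc T s g.aIn g.len).v 0 = p.v 0 := by rw [pvt_sd_v0 hy, h.1.h0]; rfl
  have e1 : (pvtArc T s g.aIn g.len).v (pvtArc T s g.aIn g.len).n = p.v p.n := by
    rw [pvt_sd_vn hy, h3, show pvasExit T g.c.Left s g.aIn = g.aOut from hthru, pvtg_aOut_src, h.1.h1]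
  obtain ⟨hn, he⟩ := pvt_c_unique hT hS s _ _ p (pvt_sd_gfaced hS hbw hy) h.2.gfaced e0 e1
  exact pvgz_le_congr hy hn fun k hk => pvgz_pth_v hn e0 he hk

/-- converse -/
theorem pvgz_inn_of_le (hT : T.IsSph) (hS : T.Simple) (g : T.Gate s) (hfin : g.c.Left.Finite) (hthru : g.Thru) {p : T.Pth}
    (h : PvwLE T (fun i => T.src (pvasIt T s g.aIn i)) g.len p) : g.IsInn p := by
  obtain ⟨-, h2, h3⟩ := pvtg_len hT g hfin
  have hbw := pvtg_aIn_bw g
  have hF : p.Faced s g.c.Left (T.tgt g.aIn) := (pvt_sd_faced hS hbw h).mono (pvas_fc_sub (pl_left_face g.c) h2)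
  have hbl : ∀ i, i ≤ p.n → s (p.v i) = true := fun i hi => pvas_layB_black hbw (pvt_sd_verts h ⟨i, hi, rfl⟩)
  refine ⟨⟨pvt_sd_v0 h, ?_, hbl, fun k hk => ?_⟩, hF⟩
  · rw [pvt_sd_vn h, h3, show pvasExit T g.c.Left s g.aIn = g.aOut from hthru, pvtg_aOut_src]
  · exact pvgz_black_edge hT g (Or.inr (hF.2 k hk).1) (by rw [p.src_e k hk]; exact hbl k hk.le) (by rw [p.tgt_e k hk]; exact hbl (k + 1) hk)

/-- **BRIDGE from `PvdiPass`** (212) -/
theorem pvgz_pass_of_di (hT : T.IsSph) (g : T.Gate s) {γ : T.Cyc} {k lo hi : ℕ} {X : Finset V} (hp : PvdiPass T g.c.Left X γ k lo hi)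
    (hm : g.vm = T.src (γ.e lo)) (hv : g.vp = T.src (γ.e hi)) : g.Pass γ lo hi := by
  have h1 := hp.lo_pos; have h2 := hp.lo_lt; have h3 := hp.lt_hi; have h4 := hp.hi_lt
  have hR := (pl_jordan hT g.c).1
  refine ⟨by omega, by omega, hm.symm, hv.symm, hp.mid, fun j hj1 hj2 => ?_⟩
  rw [hR]
  rcases Nat.lt_or_ge γ.n j with h | h
  · obtain ⟨t, rfl⟩ := Nat.exists_eq_add_of_le h.le
    rw [Nat.add_comm, γ.per]
    exact hp.before t (by omega)
  · exact hp.after j hj1 h

/-- **RIM ⟹ STATE in the `PvwLE` form** -/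
theorem pvgz_pass_rim_le (hT : T.IsSph) (hS : T.Simple) (g : T.Gate s) (hfin : g.c.Left.Finite) {P : T.Cyc} (hP : P.IsRim s) (hb : s (T.src (P.e 0)) = true) {lo hi : ℕ}
    (h : g.Pass P lo hi) : g.Thru ∧ PvwLE T (fun i => T.src (pvasIt T s g.aIn i)) g.len (P.pth lo (hi - lo)) :=
  ⟨pvgz_thru_of_psg hT g hfin (pvgz_pass_rim hT g hP hb h).1.1, pvgz_inn_le hT hS g hfin (pvgz_pass_rim hT g hP hb h).1⟩

/-! ## 9. CLOSE-P : a closed chain of `n` gates and `n` links -/

/-- **a closed CHAIN of `n` gates and `n` links** (CLOSE-P, data of a cycle of plugs and connectors): `inn j` = inner path of the gate `g j`, `lk j` = a piece of the wall of the exit of `g j` from `g_j⁺` to `g_(j+1)⁻`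
(loop erasure of the black bank of the strand `aOut (g j) → aIn (g (j+1))`, or a faced arc), the exit of `g j` and the entrance of `g (j+1)` on one wall;   the closed insides are pairwise disjoint, the links run outside and are pairwise disjoint -/
structure PvgzRing (T : PvMap V D) (s : V → Bool) (n : ℕ) (g : ℕ → T.Gate s) (inn lk : ℕ → T.Pth) : Prop where
  pos : 0 < n
  per : g n = g 0
  hinn : ∀ j, j < n → (g j).IsInn (inn j)
  lk0 : ∀ j, j < n → (lk j).v 0 = (g j).vp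
  lk1 : ∀ j, j < n → (lk j).v (lk j).n = (g (j + 1)).vm
  piece : ∀ j, j < n → (lk j).OnWall s (g j).aOut
  wall : ∀ j, j < n → T.Wall s (g j).aOut (g (j + 1)).aIn
  thru : ∀ j, j < n → T.Wall s (g j).aIn (g j).aOut
  dGG : ∀ i j, i < n → j < n → i ≠ j → Disjoint (T.VOf (g i).c.Left) (T.VOf (g j).c.Left)
  dLG : ∀ i j, i < n → j < n → ∀ k, 0 < k → k < (lk j).n → (lk j).v k ∉ T.VOf (g i).c.Left
  dLL : ∀ i j, i < n → j < n → i ≠ j → ∀ k l, 0 < k → k < (lk i).n → 0 < l → l < (lk j).n → (lk i).v k ≠ (lk j).v l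

/-- a path sum splits at any vertex -/
theorem pvgz_psum_split (p : T.Pth) {i : ℕ} (hi : i ≤ p.n) (w : D → ℂ) : p.psum w = (p.seg 0 i).psum w + (p.seg i p.n).psum w := by
  unfold PvMap.Pth.psum
  have e1 : (p.seg 0 i).n = i := by show min i p.n - 0 = i; omega
  have e2 : (p.seg i p.n).n = p.n - i := by show min p.n p.n - i = p.n - i; omega
  rw [e1, e2]
  obtain ⟨m, hm⟩ := Nat.exists_eq_add_of_le hi
  rw [hm, Nat.add_sub_cancel_left, Finset.sum_range_add]
  congr 1
  exact Finset.sum_congr rfl fun k _ => by show _ = w (T.opp (p.e (0 + k))); rw [Nat.zero_add]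

/-- how to get a link: a strand from the exit of `g` to the entrance of `g'` (`PvwLE` form) -/
theorem pvgz_link_le (hS : T.Simple) (g g' : T.Gate s) {N : ℕ} (hN : pvasIt T s g.aOut N = g'.aIn) {y : T.Pth} (hy : PvwLE T (fun i => T.src (pvasIt T s g.aOut i)) N y) :
    y.v 0 = g.vp ∧ y.v y.n = g'.vm ∧ y.OnWall s g.aOut ∧ T.Wall s g.aOut g'.aIn := by
  refine ⟨by rw [pvt_sd_v0 hy, pvtg_aOut_src], by rw [pvt_sd_vn hy, hN]; rfl, pvow_le_onwall hS (pvtg_aOut_bw g) hy, ?_⟩
  rw [← hN]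
  exact pvt_s_it_wall (pvtg_aOut_bw g) N

/-- how to get a link: a faced arc with its anchor on a rib, the two ribs white-joined -/
theorem pvgz_link_gfaced (hT : T.IsSph) (g g' : T.Gate s) {γ : T.Pth} (γ0 : γ.v 0 = g.vp) (γ1 : γ.v γ.n = g'.vm) {r r' : V} (hr : r ∈ g.R) (hr' : r' ∈ g'.R) (hw : T.Mono s r r')
    (hγ : γ.GFaced s r) : γ.OnWall s g.aOut ∧ T.Wall s g.aOut g'.aIn := by
  have hc : ∀ i, i ≤ γ.n → s (γ.v i) = s (γ.v 0) := fun i hi => pvt_c_bool (hγ.1 i hi) (hγ.1 0 (Nat.zero_le _))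
  constructor
  · refine pvow_gfaced_onwall hT hγ ?_ ?_ ?_
    · have := pvtg_aOut_bw g
      unfold PvMap.Occ
      rw [this.1, this.2]; simp
    · rw [pvtg_aOut_src, γ0]; exact ReflTransGen.refl
    · exact pvt_c_join_mono (pvgz_rib hT g (pvtg_aOut_tgt_R g) hr)
  · refine pvgz_wall_link hT g g' ?_ hr hr' hw
    have := pvow_pth_mono hc γ.n le_rfl
    rwa [γ0, γ1] at this

/-- the list of the pieces of a chain -/
def pvgzL (inn lk : ℕ → T.Pth) (n : ℕ) : List T.Pth := (List.range n).flatMap fun j => [inn j, lk j]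

theorem pvgz_L_eqns_cite : True := by
  have := @pvgzL.eq_1
  trivial

theorem pvgz_L_succ (inn lk : ℕ → T.Pth) (n : ℕ) : pvgzL inn lk (n + 1) = pvgzL inn lk n ++ [inn n, lk n] := by
  unfold pvgzL
  rw [List.range_succ, List.flatMap_append]
  simp

theorem pvgz_L_mem {inn lk : ℕ → T.Pth} {n : ℕ} {p : T.Pth} : p ∈ pvgzL inn lk n ↔ ∃ j, j < n ∧ (p = inn j ∨ p = lk j) := by
  unfold pvgzL
  simp only [List.mem_flatMap, List.mem_range, List.mem_cons, List.not_mem_nil, or_false]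

theorem pvgz_L_sum (inn lk : ℕ → T.Pth) (n : ℕ) (F : T.Pth → ℂ) : ((pvgzL inn lk n).map F).sum = ∑ j ∈ Finset.range n, (F (inn j) + F (lk j)) := by
  induction n with
  | zero => rfl
  | succ n ih =>
    rw [pvgz_L_succ, List.map_append, List.sum_append, ih, Finset.sum_range_succ]
    simp

theorem pvgz_chain_append {L L' : List T.Pth} {u v w : V} (h : pvowChain T L u v) (h' : pvowChain T L' v w) : pvowChain T (L ++ L') u w := by
  induction L generalizing u with
  | nil =>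
    have : u = v := h
    rw [List.nil_append, this]; exact h'
  | cons p L ih => exact ⟨h.1, ih h.2⟩

theorem pvgz_vm_mem (hT : T.IsSph) (g : T.Gate s) : g.vm ∈ T.VOf g.c.Left := ⟨g.c.e 0, (pl_jordan hT g.c).2.1 0, rfl⟩

theorem pvgz_psg_mem (hT : T.IsSph) (g : T.Gate s) {p : T.Pth} (h : g.Psg p) {k : ℕ} (hk : k ≤ p.n) : p.v k ∈ T.VOf g.c.Left := by
  rcases Nat.lt_or_ge k p.n with h1 | h1
  · exact ⟨p.e k, (h.ins k h1).1, p.src_e k h1⟩
  · rw [show k = p.n by omega, h.h1]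
    exact ⟨g.c.e g.m, (pl_jordan hT g.c).2.1 _, rfl⟩

section ring

variable {n : ℕ} {g : ℕ → T.Gate s} {inn lk : ℕ → T.Pth}

theorem pvgz_ring_chain (H : PvgzRing T s n g inn lk) : ∀ m, m ≤ n → pvowChain T (pvgzL inn lk m) (g 0).vm (g m).vm := by
  intro m
  induction m with
  | zero => intro _; exact rfl
  | succ m ih =>
    intro hm
    rw [pvgz_L_succ]
    refine pvgz_chain_append (ih (by omega)) ⟨(H.hinn m hm).1.h0, ?_, ?_⟩
    · rw [(H.hinn m hm).1.h1]; exact H.lk0 m hm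
    · exact H.lk1 m hm

theorem pvgz_ring_wall (H : PvgzRing T s n g inn lk) : ∀ m, m ≤ n → T.Wall s (g 0).aIn (g m).aIn := by
  intro m
  induction m with
  | zero => intro _; exact pl_ra_wall_refl s _
  | succ m ih =>
    intro hm
    exact pl_ra_wall_trans (ih (by omega)) (pl_ra_wall_trans (H.thru m hm) (H.wall m hm))

theorem pvgz_ring_onwall (hT : T.IsSph) (H : PvgzRing T s n g inn lk) : ∀ p ∈ pvgzL inn lk n, p.OnWall s (g 0).aIn := by
  intro p hp
  obtain ⟨j, hj, rfl | rfl⟩ := pvgz_L_mem.1 hp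
  · exact pvow_onwall_trans (pvgz_inn_onwall hT (g j) (H.hinn j hj)) (pvgz_ring_wall H j hj.le)
  · exact pvow_onwall_trans (H.piece j hj) (pl_ra_wall_trans (pvgz_ring_wall H j hj.le) (H.thru j hj))

/-- the head of a dart of a link: an inner vertex, or the entrance vertex of a gate `i < n`, `i ≡ j + 1` -/
theorem pvgz_ring_head (H : PvgzRing T s n g inn lk) {j : ℕ} (hj : j < n) {l : ℕ} (hl : l < (lk j).n) :
    (0 < l + 1 ∧ l + 1 < (lk j).n) ∨ ((lk j).v (l + 1) = (g ((j + 1) % n)).vm) := by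
  rcases Nat.lt_or_ge (l + 1) (lk j).n with h | h
  · exact Or.inl ⟨Nat.succ_pos _, h⟩
  · right
    rw [show l + 1 = (lk j).n by omega, H.lk1 j hj]
    rcases Nat.lt_or_ge (j + 1) n with h1 | h1
    · rw [Nat.mod_eq_of_lt h1]
    · rw [show j + 1 = n by omega, Nat.mod_self, H.per]

theorem pvgz_ring_pair (hT : T.IsSph) (H : PvgzRing T s n g inn lk) :
    (pvgzL inn lk n).Pairwise fun p q => ∀ k l, k < p.n → l < q.n → p.v (k + 1) ≠ q.v (l + 1) := by
  have hmod : ∀ j, (j + 1) % n < n := fun j => Nat.mod_lt _ H.pos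
  have hI : ∀ j, j < n → ∀ k, k ≤ (inn j).n → (inn j).v k ∈ T.VOf (g j).c.Left := fun j hj k hk => pvgz_psg_mem hT (g j) (H.hinn j hj).1 hk
  have hG : ∀ i j, i < n → j < n → i ≠ j → ∀ x, x ∈ T.VOf (g i).c.Left → x ∈ T.VOf (g j).c.Left → False :=
    fun i j hi hj hij x h1 h2 => Set.disjoint_left.1 (H.dGG i j hi hj hij) h1 h2
  -- a head of `inn i` is not the entrance vertex of a gate
  have hIv : ∀ i j, i < n → j < n → ∀ k, k < (inn i).n → (inn i).v (k + 1) ≠ (g j).vm := by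
    intro i j hi hj k hk e
    by_cases hij : i = j
    · subst hij
      have := (inn i).inj (k + 1) 0 hk (Nat.zero_le _) (e.trans (H.hinn i hi).1.h0.symm)
      omega
    · exact hG i j hi hj hij _ (hI i hi _ hk) (e ▸ pvgz_vm_mem hT (g j))
  have hIL : ∀ i j, i < n → j < n → ∀ k l, k < (inn i).n → l < (lk j).n → (inn i).v (k + 1) ≠ (lk j).v (l + 1) := by
    intro i j hi hj k l hk hl e
    rcases pvgz_ring_head H hj hl with ⟨h0, h1⟩ | h1
    · exact H.dLG i j hi hj _ h0 h1 (e ▸ hI i hi _ hk)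
    · exact hIv i _ hi (hmod j) k hk (e.trans h1)
  have hLL : ∀ i j, i < j → j < n → ∀ k l, k < (lk i).n → l < (lk j).n → (lk i).v (k + 1) ≠ (lk j).v (l + 1) := by
    intro i j hij hj k l hk hl e
    have hi : i < n := by omega
    rcases pvgz_ring_head H hi hk with ⟨a0, a1⟩ | a1 <;> rcases pvgz_ring_head H hj hl with ⟨b0, b1⟩ | b1
    · exact H.dLL i j hi hj (by omega) _ _ a0 a1 b0 b1 e
    · exact H.dLG _ i (hmod j) hi _ a0 a1 (by rw [e, b1]; exact pvgz_vm_mem hT _)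
    · exact H.dLG _ j (hmod i) hj _ b0 b1 (by rw [← e, a1]; exact pvgz_vm_mem hT _)
    · have hne : (i + 1) % n ≠ (j + 1) % n := by
        rw [Nat.mod_eq_of_lt (show i + 1 < n by omega)]
        rcases Nat.lt_or_ge (j + 1) n with h | h
        · rw [Nat.mod_eq_of_lt h]; omega
        · rw [show j + 1 = n by omega, Nat.mod_self]; omega
      exact hG _ _ (hmod i) (hmod j) hne _ (pvgz_vm_mem hT _) (by rw [← a1, e, b1]; exact pvgz_vm_mem hT _)
  unfold pvgzL
  rw [List.pairwise_flatMap]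
  constructor
  · intro j hj
    have hj' : j < n := List.mem_range.1 hj
    simp only [List.pairwise_cons, List.mem_cons, List.not_mem_nil, or_false, forall_eq, IsEmpty.forall_iff, implies_true, List.Pairwise.nil, and_true]
    exact hIL j j hj' hj'
  · refine (List.pairwise_lt_range (n := n)).imp_of_mem ?_
    intro i j hi hj hij x hx y hy
    have hi' : i < n := List.mem_range.1 hi
    have hj' : j < n := List.mem_range.1 hj
    simp only [List.mem_cons, List.not_mem_nil, or_false] at hx hy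
    rcases hx with rfl | rfl <;> rcases hy with rfl | rfl
    · intro k l hk hl e
      exact hG i j hi' hj' (by omega) _ (hI i hi' _ hk) (e ▸ hI j hj' _ hl)
    · exact hIL i j hi' hj'
    · intro k l hk hl e
      exact hIL j i hj' hi' l k hl hk e.symm
    · exact hLL i j hij hj'

/-- **CLOSE-P (TR13, `n` gates)**: the chain carries ONE label; its tags are the right triangles of the inner paths and of the links; the label sum of EVERY dart function (masks live in `w`: TR14) is the sum of the path sums -/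
theorem pvgz_ring (hT : T.IsSph) (hS : T.Simple) (H : PvgzRing T s n g inn lk) :
    T.Tag s (T.opp ((inn 0).e 0)) ∧
      (∀ d', T.SameLab s (T.opp ((inn 0).e 0)) d' ↔ ∃ j, j < n ∧ ((∃ i, i < (inn j).n ∧ d' = T.opp ((inn j).e i)) ∨ ∃ i, i < (lk j).n ∧ d' = T.opp ((lk j).e i))) ∧
      ∀ w : D → ℂ, T.lsum s w (T.opp ((inn 0).e 0)) = ∑ j ∈ Finset.range n, ((inn j).psum w + (lk j).psum w) := by
  have hc : pvowChain T (pvgzL inn lk n) (g 0).vm (g 0).vm := by
    have := pvgz_ring_chain H n le_rfl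
    rwa [H.per] at this
  have hg : (inn 0).e 0 ∈ pvowDarts (pvgzL inn lk n) :=
    pvow_mem_darts.2 ⟨inn 0, pvgz_L_mem.2 ⟨0, H.pos, Or.inl rfl⟩, 0, pvgz_psg_pos (g 0) (H.hinn 0 H.pos).1, rfl⟩
  obtain ⟨h1, h2, h3⟩ := pvow_ring hT hS hc (pvow_nodup (pvgz_ring_pair hT H)) (pvgz_ring_onwall hT H) hg
  refine ⟨h1, fun d' => ?_, fun w => by rw [h3 w, pvgz_L_sum]⟩
  rw [h2 d', pvow_mem_darts]
  constructor
  · rintro ⟨p, hp, k, hk, e⟩
    obtain ⟨j, hj, rfl | rfl⟩ := pvgz_L_mem.1 hp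
    · exact ⟨j, hj, Or.inl ⟨k, hk, by rw [e, T.opp_opp]⟩⟩
    · exact ⟨j, hj, Or.inr ⟨k, hk, by rw [e, T.opp_opp]⟩⟩
  · rintro ⟨j, hj, ⟨i, hi, rfl⟩ | ⟨i, hi, rfl⟩⟩
    · exact ⟨inn j, pvgz_L_mem.2 ⟨j, hj, Or.inl rfl⟩, i, hi, (T.opp_opp _).symm⟩
    · exact ⟨lk j, pvgz_L_mem.2 ⟨j, hj, Or.inr rfl⟩, i, hi, (T.opp_opp _).symm⟩

theorem pvgz_L_len (inn lk : ℕ → T.Pth) (n : ℕ) : (pvowDarts (pvgzL inn lk n)).length = ∑ j ∈ Finset.range n, ((inn j).n + (lk j).n) := by
  induction n with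
  | zero => rfl
  | succ n ih =>
    rw [pvgz_L_succ, Finset.sum_range_succ, ← ih]
    unfold pvowDarts
    rw [List.flatMap_append, List.length_append]
    simp [pvow_lst_length]

theorem pvgz_ring_lk_pos (hT : T.IsSph) (H : PvgzRing T s n g inn lk) {j : ℕ} (hj : j < n) : 0 < (lk j).n := by
  by_contra hc
  have h0 : (lk j).n = 0 := by omega
  have e : (g j).vp = (g (j + 1)).vm := by rw [← H.lk0 j hj, ← H.lk1 j hj, h0]
  have hvp : (g j).vp ∈ T.VOf (g j).c.Left := ⟨(g j).c.e (g j).m, (pl_jordan hT (g j).c).2.1 _, rfl⟩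
  rcases Nat.lt_or_ge (j + 1) n with h | h
  · exact Set.disjoint_left.1 (H.dGG j (j + 1) hj h (by omega)) hvp (e ▸ pvgz_vm_mem hT _)
  · rw [show j + 1 = n by omega, H.per] at e
    by_cases hj0 : j = 0
    · subst hj0; exact pvtg_ne (g 0) e.symm
    · exact Set.disjoint_left.1 (H.dGG j 0 hj H.pos hj0) hvp (e ▸ pvgz_vm_mem hT _)

/-- the chain as a rim -/
theorem pvgz_ring_cyc (hT : T.IsSph) (hS : T.Simple) (H : PvgzRing T s n g inn lk) (h3 : 2 ≤ n ∨ 2 ≤ (inn 0).n ∨ 2 ≤ (lk 0).n) :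
    ∃ P : T.Cyc, P.IsRim s ∧ ∀ f, (∃ i, f = P.e i) ↔ ∃ j, j < n ∧ ((∃ i, i < (inn j).n ∧ f = (inn j).e i) ∨ ∃ i, i < (lk j).n ∧ f = (lk j).e i) := by
  have hc : pvowChain T (pvgzL inn lk n) (g 0).vm (g 0).vm := by
    have := pvgz_ring_chain H n le_rfl
    rwa [H.per] at this
  have hlen : 3 ≤ (pvowDarts (pvgzL inn lk n)).length := by
    rw [pvgz_L_len]
    have hge : ∀ j ∈ Finset.range n, 2 ≤ (inn j).n + (lk j).n := fun j hj => by
      have h1 := pvgz_psg_pos (g j) (H.hinn j (Finset.mem_range.1 hj)).1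
      have h2 := pvgz_ring_lk_pos hT H (Finset.mem_range.1 hj)
      omega
    rcases Nat.lt_or_ge 1 n with h | h
    · have := Finset.card_nsmul_le_sum (Finset.range n) _ 2 hge
      rw [Finset.card_range, smul_eq_mul] at this
      omega
    · have hn1 : n = 1 := by have := H.pos; omega
      subst hn1
      rw [Finset.sum_range_one]
      have h1 := pvgz_psg_pos (g 0) (H.hinn 0 H.pos).1
      have h2 := pvgz_ring_lk_pos hT H H.pos
      omega
  obtain ⟨P, hP, hrim⟩ := pvow_ring_cyc hT hc (pvow_nodup (pvgz_ring_pair hT H)) (pvgz_ring_onwall hT H) hlen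
  refine ⟨P, hrim, fun f => ?_⟩
  rw [← hP f, pvow_mem_darts]
  constructor
  · rintro ⟨p, hp, k, hk, e⟩
    obtain ⟨j, hj, rfl | rfl⟩ := pvgz_L_mem.1 hp
    · exact ⟨j, hj, Or.inl ⟨k, hk, e.symm⟩⟩
    · exact ⟨j, hj, Or.inr ⟨k, hk, e.symm⟩⟩
  · rintro ⟨j, hj, ⟨i, hi, rfl⟩ | ⟨i, hi, rfl⟩⟩
    · exact ⟨inn j, pvgz_L_mem.2 ⟨j, hj, Or.inl rfl⟩, i, hi, rfl⟩
    · exact ⟨lk j, pvgz_L_mem.2 ⟨j, hj, Or.inr rfl⟩, i, hi, rfl⟩

/-- **`pvgz_P'(w) = ∑_e X_e`**, `X_e` := the sum over the arc from the marked vertex `ip j` of `inn j` to the marked vertex of `inn (j+1)` -/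
theorem pvgz_ring_sum (hT : T.IsSph) (hS : T.Simple) (H : PvgzRing T s n g inn lk) (hper : inn n = inn 0)
    (ip : ℕ → ℕ) (hip : ∀ j, j ≤ n → ip j ≤ (inn j).n) (hipn : ip n = ip 0) (w : D → ℂ) :
    T.lsum s w (T.opp ((inn 0).e 0)) =
      ∑ j ∈ Finset.range n, (((inn j).seg (ip j) (inn j).n).psum w + (lk j).psum w + ((inn (j + 1)).seg 0 (ip (j + 1))).psum w) := by
  rw [(pvgz_ring hT hS H).2.2 w]
  have hB : ∑ j ∈ Finset.range n, ((inn (j + 1)).seg 0 (ip (j + 1))).psum w = ∑ j ∈ Finset.range n, ((inn j).seg 0 (ip j)).psum w := by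
    have h1 := Finset.sum_range_succ (fun j => ((inn j).seg 0 (ip j)).psum w) n
    have h2 := Finset.sum_range_succ' (fun j => ((inn j).seg 0 (ip j)).psum w) n
    rw [h1, hper, hipn] at h2
    exact (add_right_cancel h2).symm
  rw [Finset.sum_add_distrib (g := fun j => ((inn (j + 1)).seg 0 (ip (j + 1))).psum w), hB, ← Finset.sum_add_distrib]
  refine Finset.sum_congr rfl fun j hj => ?_
  rw [pvgz_psum_split (inn j) (hip j (Finset.mem_range.1 hj).le) w]
  ring

end ring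

/-! ## 10. ORIENTATION of a gate by a circuit which passes it (T-level half of M11) -/

/-- a dual path which crosses no edge of `Z` crosses no edge of `Z'`, if on its class every edge of `Z'` is an edge of `Z` -/
theorem pvgz_djoin_sub {Z Z' : Set D} {a d : D} (h : T.DJoin Z a d) (hZ : ∀ x, T.DJoin Z a x → T.Edg Z' x → T.Edg Z x) : T.DJoin Z' a d := by
  induction h with
  | refl => exact ReflTransGen.refl
  | @tail b c hab hbc ih =>
    refine ih.tail ?_
    rcases hbc with e | ⟨e, hne⟩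
    · exact Or.inl e
    · exact Or.inr ⟨e, fun hc => hne (hZ b hab hc)⟩

/-- an edge of a circuit which passes the gate is an edge of `Δ` or has both its faces outside -/
theorem pvgz_pass_edge (hT : T.IsSph) (g : T.Gate s) {P : T.Cyc} {lo hi : ℕ} (h : g.Pass P lo hi) {x : D} (hx : T.Edg P.darts x) :
    T.Edg (P.pth lo (hi - lo)).darts x ∨ x ∈ g.c.Right := by
  have h1 := h.lt
  have h2 := h.lt'
  obtain ⟨k, hk1, hk2, hk⟩ := (pl_cyc_edg_window P lo x).1 hx
  rcases Nat.lt_or_ge k hi with hlt | hge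
  · left
    rw [pl_cyc_pth_edg P lo (by omega)]
    exact ⟨k, hk1, by omega, hk⟩
  · right
    have hb := pvgz_side_right hT g.c (d := P.e k) (by
      rcases Nat.eq_or_lt_of_le hge with e | hgt
      · right; rw [P.chain, ← e]; exact h.out _ (by omega) (by omega)
      · left; exact h.out _ hgt hk2)
    rcases hk with rfl | rfl
    · exact hb.1
    · exact hb.2

/-- **SIDES**: the part of the disc of the gate on the right (left) of `Δ(S,P)` lies on the right (left) of `P` -/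
theorem pvgz_pass_parts (hT : T.IsSph) (g : T.Gate s) {P : T.Cyc} (hP : ∀ k, s (T.src (P.e k)) = true) {lo hi : ℕ} (h : g.Pass P lo hi) :
    (g.c.cutR (pvgz_psg_cut g (pvgz_pass_psg hT g hP h))).Left ⊆ P.Right ∧ (g.c.cutL (pvgz_psg_cut g (pvgz_pass_psg hT g hP h))).Left ⊆ P.Left := by
  have hc := pvgz_psg_cut g (pvgz_pass_psg hT g hP h)
  obtain ⟨sL, sR, -, -⟩ := pl_cc_sub hT hc
  have hn := pvgz_pass_n g h
  have hpos : 0 < (P.pth lo (hi - lo)).n := pl_cc_pos hc
  obtain ⟨e1, e2⟩ := pl_cc_side hT hc hpos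
  have hRc := (pl_jordan hT g.c).1
  obtain ⟨-, hPL, hPR, -⟩ := pl_jordan hT P
  constructor
  · intro d hd
    -- `d` is joined to `opp (P.e lo)` off the edges of `cutR`
    have h0 : T.DJoin (g.c.cutR hc).darts (T.opp (P.e lo)) d := by
      have a1 : T.DJoin (g.c.cutR hc).darts ((g.c.cutR hc).e 0) (T.opp (P.e (lo + 0))) := e2
      rw [Nat.add_zero] at a1
      exact (T.djoin_symm a1).trans hd
    have h3 : T.DJoin P.darts (T.opp (P.e lo)) d := by
      refine pvgz_djoin_sub h0 fun x hx hxP => ?_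
      have hxL : x ∈ (g.c.cutR hc).Left := by
        have a1 : T.DJoin (g.c.cutR hc).darts ((g.c.cutR hc).e 0) (T.opp (P.e (lo + 0))) := e2
        rw [Nat.add_zero] at a1
        exact a1.trans hx
      rcases pvgz_pass_edge hT g h hxP with hh | hh
      · exact ((pl_cc_edg hc x).2).2 (Or.inr hh)
      · rw [hRc] at hh; exact absurd (sR hxL) hh
    exact ReflTransGen.trans (hPR lo) h3
  · intro d hd
    have h0 : T.DJoin (g.c.cutL hc).darts (P.e lo) d := by
      have a1 : T.DJoin (g.c.cutL hc).darts ((g.c.cutL hc).e 0) (P.e (lo + 0)) := e1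
      rw [Nat.add_zero] at a1
      exact (T.djoin_symm a1).trans hd
    have h3 : T.DJoin P.darts (P.e lo) d := by
      refine pvgz_djoin_sub h0 fun x hx hxP => ?_
      have hxL : x ∈ (g.c.cutL hc).Left := by
        have a1 : T.DJoin (g.c.cutL hc).darts ((g.c.cutL hc).e 0) (P.e (lo + 0)) := e1
        rw [Nat.add_zero] at a1
        exact a1.trans hx
      rcases pvgz_pass_edge hT g h hxP with hh | hh
      · exact ((pl_cc_edg hc x).1).2 (Or.inr hh)
      · rw [hRc] at hh; exact absurd (sL hxL) hh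
    exact ReflTransGen.trans (hPL lo) h3

/-- **ORIENTATION OF A GATE BY A CIRCUIT** (T-level half of M11): the right arc lies strictly on the right of `P`, the left arc strictly on its left -/
theorem pvgz_pass_side (hT : T.IsSph) (g : T.Gate s) {P : T.Cyc} (hP : ∀ k, s (T.src (P.e k)) = true) {lo hi : ℕ} (h : g.Pass P lo hi) :
    g.R ⊆ T.Int P.Right ∧ g.L ⊆ T.Int P.Left := by
  have hc := pvgz_psg_cut g (pvgz_pass_psg hT g hP h)
  obtain ⟨pR, pL⟩ := pvgz_pass_parts hT g hP h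
  have hm := g.hm
  have hmn := g.hmn
  have hoff : ∀ v, s v = false → v ∉ P.verts := by
    rintro v hv ⟨k, rfl⟩
    rw [hP k] at hv; exact absurd hv (by simp)
  constructor
  · rintro v ⟨k, h0, hk, rfl⟩
    have hw := pvtg_R_white g ⟨k, h0, hk, rfl⟩
    have h1 : g.c.e k ∈ P.Right := by
      apply pR
      have := (pl_cc_cutR_e hc).2.1 k (by omega)
      rw [Nat.zero_add] at this
      rw [← this]
      exact (pl_jordan hT _).2.1 k
    exact pvt_c_int_of_right hT P h1 (hoff _ hw)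
  · rintro v ⟨k, h0, hk, rfl⟩
    have hw := pvtg_L_white g ⟨k, h0, hk, rfl⟩
    have h1 : g.c.e k ∈ P.Left := by
      apply pL
      have := (pl_cc_cutL_e hc).2.1 (k - g.m) (by omega)
      rw [show g.m + (k - g.m) = k by omega] at this
      rw [← this]
      exact (pl_jordan hT _).2.1 _
    have h2 : T.src (g.c.e k) ∈ T.VOf P.Left := ⟨_, h1, rfl⟩
    rw [pl_VOf_left hT] at h2
    exact h2.resolve_left (hoff _ hw)

/-- a vertex of the circuit of the gate strictly on the right of `P` is a vertex of the right arc -/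
theorem pvgz_pass_right (hT : T.IsSph) (g : T.Gate s) {P : T.Cyc} (hP : ∀ k, s (T.src (P.e k)) = true) {lo hi : ℕ} (h : g.Pass P lo hi) {v : V}
    (hv : v ∈ g.c.verts) (hr : v ∈ T.Int P.Right) : v ∈ g.R := by
  obtain ⟨d1, d2, d3⟩ := pl_jordan_vert_disj hT P
  rcases (pvtg_verts g v).1 hv with e | e | e | e
  · exact absurd hr (Set.disjoint_left.1 d2 ⟨lo, by rw [h.hlo, e]⟩)
  · exact absurd hr (Set.disjoint_left.1 d2 ⟨hi, by rw [h.hhi, e]⟩)
  · exact e
  · exact absurd hr (Set.disjoint_left.1 d3 ((pvgz_pass_side hT g hP h).2 e))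

/-- **M11, T-level**: a path off `P` which starts strictly on the right of `P` meets the circuit of the gate only on its right arc -/
theorem pvgz_pass_walk (hT : T.IsSph) (g : T.Gate s) {P : T.Cyc} (hP : ∀ k, s (T.src (P.e k)) = true) {lo hi : ℕ} (h : g.Pass P lo hi) {a v : V}
    (ha : a ∈ T.Int P.Right) (hav : ReflTransGen (fun x y => T.Adj x y ∧ y ∉ P.verts) a v) (hv : v ∈ g.c.verts) : v ∈ g.R := by
  refine pvgz_pass_right hT g hP h hv ?_
  exact pl_int_sep hT (pl_right_face P) (X := P.vertsᶜ) (fun _ hx _ hd hb => pl_cyc_off P (hd ▸ hx) (pl_right_bd_sub P hb)) ha hav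

/-! ## 11. the inner strand of a smaller gate (request of 259, [ADM]: transfer to the minimal gate) -/

/-- a passage separates the two arcs: no white connection inside the gate from the first vertex of the right arc to the first vertex of the left arc -/
theorem pvgz_no_RL (hT : T.IsSph) (g : T.Gate s) {p : T.Pth} (h : g.Psg p) {X : Set V} (hX : ∀ v ∈ X, s v = false) : ¬ T.Join g.c.Left X (T.tgt g.aIn) (T.tgt g.bIn) := by
  intro hj
  have hm := g.hm
  have hmn := g.hmn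
  have ha : T.tgt g.aIn ∈ T.VOf (g.c.cutR (pvgz_psg_cut g h)).Left := by
    refine ⟨(g.c.cutR (pvgz_psg_cut g h)).e 1, (pl_jordan hT _).2.1 1, ?_⟩
    rw [(pl_cc_cutR_e (pvgz_psg_cut g h)).2.1 1 (by omega), pvtg_aIn_tgt]
  have hb := pvgz_stay hT g h hX ha hj
  have hb' : T.tgt g.bIn ∈ T.VOf (g.c.cutL (pvgz_psg_cut g h)).Left := by
    refine ⟨(g.c.cutL (pvgz_psg_cut g h)).e 1, (pl_jordan hT _).2.1 _, ?_⟩
    rw [(pl_cc_cutL_e (pvgz_psg_cut g h)).2.1 _ (by omega)]
    show _ = T.tgt (g.c.e g.m)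
    rw [g.c.chain]
  have h4 : T.tgt g.bIn ∈ p.verts := by
    rw [← pl_cc_VOf_inter hT (pvgz_psg_cut g h)]
    exact ⟨hb', hb⟩
  obtain ⟨k, hk, e⟩ := h4
  have := (pvtg_bIn_bw g).2
  rw [← e, h.bl k hk] at this
  exact absurd this (by simp)

/-- **the inner strand of the outer gate contains the inner strand of the inner gate** (touching allowed) -/
theorem pvgz_nest_strand (hT : T.IsSph) (hS : T.Simple) (g g₂ : T.Gate s) (hfin : g₂.c.Left.Finite) (hL : g.c.Left ⊆ g₂.c.Left) {p : T.Pth} (hp : g₂.IsInn p)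
    {i j : ℕ} (hij : i + 1 < j) (hj : j ≤ p.n) (h0 : p.v i = g.vm) (h1 : p.v j = g.vp) (hin : ∀ m, i < m → m < j → p.v m ∈ T.Int g.c.Left) :
    ∃ t, t + g.len ≤ g₂.len ∧ pvasIt T s g₂.aIn t = g.aIn ∧ pvasIt T s g₂.aIn (t + g.len) = g.aOut := by
  classical
  have hfin' : g.c.Left.Finite := hfin.subset hL
  obtain ⟨hinn, -⟩ := pvgz_nest_aux hT g g₂ hL hp hij hj h0 h1 hin
  have hthru : g.Thru := pvgz_thru_of_psg hT g hfin' hinn.1
  have hF := pl_left_face g.c
  have hn : (p.seg i j).n = j - i := by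
    show min j p.n - i = j - i
    rw [Nat.min_eq_left hj]
  obtain ⟨-, l2, l3⟩ := pvtg_len hT g₂ hfin
  obtain ⟨-, k2, k3⟩ := pvtg_len hT g hfin'
  have hbw := pvtg_aIn_bw g₂
  have hy := pvgz_inn_le hT hS g₂ hfin hp
  obtain ⟨τ, hτ, -, he⟩ := pvt_sd_time hS hy (show i < p.n by omega)
  -- the position at time `τ` lies inside the inner gate
  have hτA : pvasIt T s g₂.aIn τ ∈ g.c.Left := by
    have h2 : T.opp (p.e i) ∈ g.c.Left := by
      have := (hinn.1.ins 0 (by rw [hn]; omega)).2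
      exact this
    rw [he, pvt_s_opp_rot] at h2
    exact (hF.nxt2 T _).1 h2
  -- trace back
  have hex : ∃ t, t ≤ τ ∧ ∀ k, t ≤ k → k ≤ τ → pvasIt T s g₂.aIn k ∈ g.c.Left := ⟨τ, le_rfl, fun k a b => by rw [show k = τ by omega]; exact hτA⟩
  obtain ⟨ht1, ht2⟩ := Nat.find_spec hex
  have hmin := fun m (hm : m < Nat.find hex) => Nat.find_min hex hm
  generalize Nat.find hex = t at ht1 ht2 hmin
  have hIn : pvasIn T g.c.Left s (pvasIt T s g₂.aIn t) := by
    refine ⟨ht2 t le_rfl ht1, ?_, pvas_it_bw hbw t⟩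
    rcases Nat.eq_zero_or_pos t with rfl | ht0
    · intro h
      exact ((pvtg_in_iff hT g₂ _).2 (Or.inl rfl)).2.1 (hL h)
    · intro h
      obtain ⟨u, rfl⟩ : ∃ u, t = u + 1 := ⟨t - 1, by omega⟩
      rw [pvas_it_succ, pvas_step_opp_mem hF] at h
      refine hmin u (by omega) ⟨by omega, fun k a b => ?_⟩
      rcases Nat.eq_or_lt_of_le a with rfl | a
      · exact h
      · exact ht2 k a b
  rcases (pvtg_in_iff hT g _).1 hIn with e | e
  · have hle : t + g.len ≤ g₂.len := by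
      by_contra hc
      have h3 : pvasIt T s g.aIn (g₂.len - t) ∈ g.c.Left := k2 _ (by omega)
      rw [← e, ← pvas_it_add, show t + (g₂.len - t) = g₂.len by omega, l3] at h3
      exact (pvas_exit_spec (pl_left_face g₂.c) hfin ((pvtg_in_iff hT g₂ _).2 (Or.inl rfl))).2.2.1 (hL h3)
    refine ⟨t, hle, e, ?_⟩
    rw [pvas_it_add, e, k3]
    exact hthru
  · exfalso
    have hj1 := pvas_layW_join (T := T) s g.bIn (le_refl (τ - t))
    rw [← e, ← pvas_it_add, show t + (τ - t) = τ by omega, e] at hj1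
    have hsub : pvasFc T s g.bIn (τ - t) ⊆ g.c.Left := by
      refine pvas_fc_sub hF fun k hk => ?_
      rw [← e, ← pvas_it_add]
      exact ht2 _ (by omega) (by omega)
    have hj2 : T.Join g.c.Left {v | s v = false} (T.tgt g.bIn) (T.tgt (pvasIt T s g₂.aIn τ)) :=
      pl_hx_join_mono hsub (fun v hv => pvas_layW_white (pvtg_bIn_bw g) hv) hj1
    have hj3 : T.Join g.c.Left {v | s v = false} (T.tgt (pvasIt T s g₂.aIn τ)) (T.tgt g.aIn) := by
      have := (hinn.2.2 0 (by rw [hn]; omega)).2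
      rw [pvtg_R_white g (pvtg_aIn_tgt_R g)] at this
      have e2 : T.apex (T.opp ((p.seg i j).e 0)) = T.tgt (pvasIt T s g₂.aIn τ) := by
        show T.apex (T.opp (p.e (i + 0))) = _
        rw [Nat.add_zero, he, pvt_s_opp_rot, T.apex_nxt2]
      rwa [e2] at this
    exact pvgz_no_RL hT g hinn.1 (fun v hv => hv) (pl_hx_join_symm (pl_hx_join_trans hj2 hj3))

/-- a later stretch of a strand: layers and faces -/
theorem pvgz_sub_lay (a : D) {t r n : ℕ} (h : t + r ≤ n) :
    pvasLayB T s (pvasIt T s a t) r ⊆ pvasLayB T s a n ∧ pvasLayW T s (pvasIt T s a t) r ⊆ pvasLayW T s a n ∧ pvasFc T s (pvasIt T s a t) r ⊆ pvasFc T s a n := by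
  refine ⟨?_, ?_, ?_⟩
  · rintro v ⟨k, hk, rfl⟩
    exact ⟨t + k, by omega, by rw [pvas_it_add]⟩
  · rintro v ⟨k, hk, rfl⟩
    exact ⟨t + k, by omega, by rw [pvas_it_add]⟩
  · rintro f ⟨k, hk, hf⟩
    exact ⟨t + k, by omega, by rw [pvas_it_add]; exact hf⟩

/-- **TRANSFER to a smaller gate**: banks, and the four feet joined along the banks of the outer gate, inside the outer gate -/
theorem pvgz_nest_banks (hT : T.IsSph) (g g₂ : T.Gate s) (hfin : g₂.c.Left.Finite) {t : ℕ} (ht : t + g.len ≤ g₂.len) (e1 : pvasIt T s g₂.aIn t = g.aIn)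
    (e2 : pvasIt T s g₂.aIn (t + g.len) = g.aOut) (hthru : g₂.Thru) :
    g.bank ⊆ g₂.bank ∧ g.wbank ⊆ g₂.wbank ∧ T.Join g₂.c.Left g₂.bank g₂.vm g.vm ∧ T.Join g₂.c.Left g₂.wbank (T.tgt g₂.aIn) (T.tgt g.aIn) ∧
      T.Join g₂.c.Left g₂.bank g.vp g₂.vp ∧ T.Join g₂.c.Left g₂.wbank (T.tgt g.aOut) (T.tgt g₂.aOut) := by
  obtain ⟨-, l2, l3⟩ := pvtg_len hT g₂ hfin
  have hsub : pvasFc T s g₂.aIn g₂.len ⊆ g₂.c.Left := pvas_fc_sub (pl_left_face g₂.c) l2
  have hout : pvasIt T s g₂.aIn g₂.len = g₂.aOut := l3.trans hthru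
  obtain ⟨a1, a2, -⟩ := pvgz_sub_lay (T := T) (s := s) g₂.aIn ht
  rw [e1] at a1 a2
  refine ⟨a1, a2, ?_, ?_, ?_, ?_⟩
  · have := pvas_layB_join (T := T) s g₂.aIn (show t ≤ g₂.len by omega)
    rw [e1] at this
    exact pvtg_join_mono hsub this
  · have := pvas_layW_join (T := T) s g₂.aIn (show t ≤ g₂.len by omega)
    rw [e1] at this
    exact pvtg_join_mono hsub this
  · obtain ⟨b1, -, b3⟩ := pvgz_sub_lay (T := T) (s := s) g₂.aIn (show t + g.len + (g₂.len - (t + g.len)) ≤ g₂.len by omega)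
    have := pvas_layB_join (T := T) s (pvasIt T s g₂.aIn (t + g.len)) (le_refl (g₂.len - (t + g.len)))
    rw [← pvas_it_add, show t + g.len + (g₂.len - (t + g.len)) = g₂.len by omega, hout, e2, pvtg_aOut_src, pvtg_aOut_src] at this
    rw [e2] at b1 b3
    exact pl_hx_join_mono (b3.trans hsub) b1 this
  · obtain ⟨-, b2, b3⟩ := pvgz_sub_lay (T := T) (s := s) g₂.aIn (show t + g.len + (g₂.len - (t + g.len)) ≤ g₂.len by omega)
    have := pvas_layW_join (T := T) s (pvasIt T s g₂.aIn (t + g.len)) (le_refl (g₂.len - (t + g.len)))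
    rw [← pvas_it_add, show t + g.len + (g₂.len - (t + g.len)) = g₂.len by omega, hout, e2] at this
    rw [e2] at b2 b3
    exact pl_hx_join_mono (b3.trans hsub) b2 this

end Claimed.Agent.R289
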