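import Claimed.Agent.R289.Pl.Quad
import Claimed.Agent.R289.Pl.Gate
import Claimed.Agent.R289.Tr.GateMin
import Claimed.Agent.R289.Tr.GateN
import Claimed.Agent.R289.Tr.GateFr
import Claimed.Agent.R289.Tr.Defs
import Claimed.Agent.R289.Pl.Geo

/-!
# Row 289 (S0537, Cardy for Poisson-Voronoi), THE WALL, ADMISSION (TR22 = TR37 = P18 = E25), file Tr/AdmHash : D4 D5 D6 OF ADM_140 BY THE HASH LEMMA      (helper18, second of rope A; prefix `pvah_`, `Pvah`)

Text: `origin/helper140:notes/R289/ADM_140.md` sec.3 (D4 GATE, D5 BLACK LINE, D6 THRU), ruling 14 of 234.   MODEL FREE: a dart map `T : PvMap V D`, quads of `Pl/Quad` (15), annulus duality of `Pl/Gate` (284),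
`pvgn_gate_of_cyc` of `Tr/GateMin` (150), `pvgz_thru_iff` of `Tr/GateN` (260).   NO loop erasure, NO explicit cycle, NO winding number, NO transversality at the black sites.

THE GAP WHICH THIS FILE CLOSES.   Two disjoint white arcs between two black sites `u₁ u₂` make a simple cycle, but "it SURROUNDS the centre and lies in the annulus" (`I ⊆ g.c.Left ⊆ O`),
on which D5 ("the black line joins the inside to the outside") and D6 rest, needs a separation argument.

* sec.1  **HASH LEMMA** `pvah_block`.   `F : PvahFr T ι` = a family of quads `F.R i` with HEIGHTS `F.h i : V → ℝ` and a gauge `F.H : V → ℝ`.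
         The instance: four rectangles in `#` position,  top `[-b-1,b+1] × [a,b]`, right `[a,b] × [-b-1,b+1]`, bottom, left;  `h = Im, Re, -Im, -Re` of the position, `H` = the sup norm;
         side 1 = the long side towards the centre, side 3 = the far long side, sides 2 and 4 = the short ends (they stick out of the square `[-b,b]²`).
         `F.Ok` = position facts only: deep sites are interior, the closed disc lies below `b + μ`, the sides lie near the geometric sides.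
         If a set `N` crosses EVERY `F.R i` the long way (`Cr24`), then no path off `N` with steps `≤ μ` leaves the square: the invariant `F.Inv N v` is inductive.   The crossings need NOT be joined to each other.
* sec.2  `pvah_cyc`: with two frame cycles `c'.Inside c` (inside the inner square, outside the `#`): a `T.Cyc` with all its vertices in `N`, between `c'` and `c`   (`pl_gt_ann_dual` for `Nᶜ`).
* sec.3  `pvah_arm`: a path which leaves the open inside of a cycle contains a path of the closed inside to a vertex of the cycle.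
* sec.4  **`pvah_plug`**: `N = white ∪ {u₁, u₂}`, two black arms from a centre vertex `z` to the outer frame, one off `u₂`, one off `u₁`:  a gate `g : T.Gate s`, `g.vm = u₁`, `g.vp = u₂`, between the frames, drawn in the annulus, `g.Thru`;
         `pvah_plug_G`: the face-set gate `PvgnG` of 150 (input of the rule `pvgnHull`).
* sec.5  `pvah_bar`: the long crossing by `white ∪ {u}` from the output of the net of 127 (`Tr/Adm`: landing vertex, explored white path on one side, fresh white path on the other side);  `pvah_bar_l _r _w`.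
* sec.6  **`pvah_between`**, `pvah_between_v`, `pvah_gate_G` (request of 140): `PlGeo`, a cycle with finite left side which contains the point `z`, polygon in the round annulus `a ≤ |w - z| < b`:
         `pvwI T pos z a ⊆ c.Left ⊆ pvwO T pos z b` (the frames of record of `Tr/Defs`, `PvkdGate.rule` of 34), so the EXPLICIT gate of `Tr/AdmDet` (`pvaq_gate` + `pvaq_gate_orient`) is a `PvgnG` between the frames: input of `pvgn_innermost`, `pvgn_min_arc`.
-/

set_option autoImplicit false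
set_option linter.unusedSectionVars false
set_option linter.unusedVariables false

namespace Claimed.Agent.R289

open Relation

variable {V D : Type} {T : PvMap V D}

/-! ## 1. the hash lemma -/

/-- **HASH FRAME**: quads with heights -/
structure PvahFr (T : PvMap V D) (ι : Type) where
  /-- the quads; side 1 towards the centre, side 3 away from it, sides 2 and 4 = the short ends -/
  R : ι → T.Quad
  /-- the height across the quad number `i` -/
  h : ι → V → ℝ
  /-- the gauge -/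
  H : V → ℝ
  /-- height of the sides 1 -/
  a : ℝ
  /-- height of the sides 3 -/
  b : ℝ
  /-- the tolerance (mesh) -/
  μ : ℝ

namespace PvahFr

variable {ι : Type} (F : PvahFr T ι)

/-- what the positions owe -/
structure Ok : Prop where
  μ0 : 0 ≤ F.μ
  ab : F.a + 3 * F.μ ≤ F.b
  /-- the gauge is large only if a height is large -/
  sup : ∀ v, F.b + F.μ < F.H v → ∃ i, F.b + F.μ < F.h i v
  /-- deep sites are interior -/
  deep : ∀ i v, F.a + F.μ ≤ F.h i v → F.h i v ≤ F.b - F.μ → F.H v ≤ F.b + F.μ → v ∈ T.Int (F.R i).c.Left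
  /-- the closed disc lies below the far side -/
  out : ∀ i v, v ∈ T.VOf (F.R i).c.Left → F.h i v ≤ F.b + F.μ
  s1 : ∀ i v, v ∈ (F.R i).S1 → F.h i v < F.a + F.μ
  s3 : ∀ i v, v ∈ (F.R i).S3 → F.b - F.μ < F.h i v
  /-- the short ends stick out -/
  s24 : ∀ i v, v ∈ (F.R i).S2 ∪ (F.R i).S4 → F.b + F.μ < F.H v

/-- the vertices of the closed disc number `i` which are joined to its side 1 off `N` -/
def Sd (N : Set V) (i : ι) : Set V := {v | ∃ x ∈ (F.R i).S1, T.Join (F.R i).c.Left Nᶜ x v}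

/-- **THE INVARIANT** -/
structure Inv (N : Set V) (v : V) : Prop where
  H_le : F.H v ≤ F.b + F.μ
  sd : ∀ i, v ∈ T.VOf (F.R i).c.Left → v ∈ F.Sd N i
  lo : ∀ i, F.h i v ≤ F.b - F.μ ∨ v ∈ T.Int (F.R i).c.Left

end PvahFr

theorem pvah_eqns_cite : True := by
  have := @PvahFr.Sd.eq_1
  trivial

variable {ι : Type}

/-- the invariant at a vertex of the inner square -/
theorem pvah_inv_start (F : PvahFr T ι) (N : Set V) {v : V} (h1 : ∀ i, v ∉ T.VOf (F.R i).c.Left) (h2 : ∀ i, F.h i v ≤ F.b - F.μ) (h3 : F.H v ≤ F.b + F.μ) : F.Inv N v :=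
  ⟨h3, fun i hi => absurd hi (h1 i), fun i => Or.inl (h2 i)⟩

/-- an edge at an interior vertex, vertex form -/
theorem pvah_int_edge (hT : T.IsSph) (c : T.Cyc) {v w : V} (hv : v ∈ T.Int c.Left) (hvw : T.Adj v w) : T.EdgeIn c.Left v w ∧ w ∈ T.VOf c.Left := by
  obtain ⟨d, rfl, rfl⟩ := hvw
  obtain ⟨h1, -, h3⟩ := pl_int_edge hT c hv
  exact ⟨⟨d, Or.inl h1, rfl, rfl⟩, h3⟩

theorem pvah_adj_symm {v w : V} (h : T.Adj v w) : T.Adj w v := by
  obtain ⟨d, rfl, rfl⟩ := h
  exact ⟨T.opp d, T.src_opp' d, T.tgt_opp d⟩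

theorem pvah_int_VOf (hT : T.IsSph) (c : T.Cyc) {v : V} (hv : v ∈ T.Int c.Left) : v ∈ T.VOf c.Left := by
  rw [pl_VOf_left hT c]
  exact Or.inr hv

/-- a vertex joined to the side 1 off `N` is not on the side 3 -/
theorem pvah_no3 (hT : T.IsSph) (F : PvahFr T ι) {N : Set V} (hN : ∀ i, (F.R i).Cr24 N) {i : ι} {w : V} (hw : w ∈ F.Sd N i) : w ∉ (F.R i).S3 := by
  intro h3
  obtain ⟨x, hx, hj⟩ := hw
  obtain ⟨y, hy, hy'⟩ := pl_qd_excl hT (F.R i) ⟨x, hx, w, h3, hj⟩ (hN i)
  exact hy hy'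

/-- **the invariant is inductive** -/
theorem pvah_step (hT : T.IsSph) (F : PvahFr T ι) (hF : F.Ok) {N : Set V} (hN : ∀ i, (F.R i).Cr24 N) {v v' : V} (hv : F.Inv N v) (hadj : T.Adj v v')
    (hst : ∀ i, F.h i v' - F.h i v ≤ F.μ) (hv' : v' ∉ N) : F.Inv N v' := by
  have hμ := hF.μ0
  have hab := hF.ab
  -- a high successor has an interior predecessor
  have key : ∀ i, F.b - F.μ < F.h i v' → v ∈ T.Int (F.R i).c.Left := by
    intro i hi
    rcases hv.lo i with h | h
    · exact hF.deep i v (by have := hst i; linarith) h hv.H_le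
    · exact h
  -- then the successor is joined to the side 1
  have ext : ∀ i, v ∈ T.Int (F.R i).c.Left → v' ∈ T.VOf (F.R i).c.Left ∧ v' ∈ F.Sd N i := by
    intro i hi
    obtain ⟨e1, e2⟩ := pvah_int_edge hT (F.R i).c hi hadj
    obtain ⟨x, hx, hj⟩ := hv.sd i (pvah_int_VOf hT _ hi)
    exact ⟨e2, x, hx, pl_hx_join_tail hj e1 hv'⟩
  have hH : F.H v' ≤ F.b + F.μ := by
    by_contra hcon
    obtain ⟨j, hj⟩ := hF.sup v' (not_le.1 hcon)
    have h1 := (ext j (key j (by linarith))).1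
    have h2 := hF.out j v' h1
    linarith
  have hsd : ∀ i, v' ∈ T.VOf (F.R i).c.Left → v' ∈ F.Sd N i := by
    intro i hi
    rw [pl_VOf_left hT] at hi
    rcases hi with hi | hi
    · rw [← pl_qd_sides (F.R i)] at hi
      rcases hi with ((h1 | h2) | h3) | h4
      · exact ⟨v', h1, pl_hx_join_refl hv'⟩
      · exact absurd (hF.s24 i v' (Or.inl h2)) (not_lt.2 hH)
      · exact (ext i (key i (hF.s3 i v' h3))).2
      · exact absurd (hF.s24 i v' (Or.inr h4)) (not_lt.2 hH)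
    · obtain ⟨e1, e2⟩ := pvah_int_edge hT (F.R i).c hi (pvah_adj_symm hadj)
      obtain ⟨x, hx, hj⟩ := hv.sd i e2
      exact ⟨x, hx, pl_hx_join_tail hj (pl_hx_edgeIn_symm e1) hv'⟩
  refine ⟨hH, hsd, fun i => ?_⟩
  by_cases hi : F.h i v' ≤ F.b - F.μ
  · exact Or.inl hi
  · right
    have hi' := not_le.1 hi
    obtain ⟨h1, h2⟩ := ext i (key i hi')
    rw [pl_VOf_left hT] at h1
    rcases h1 with h1 | h1
    · rw [← pl_qd_sides (F.R i)] at h1
      rcases h1 with ((k1 | k2) | k3) | k4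
      · have := hF.s1 i v' k1
        linarith
      · exact absurd (hF.s24 i v' (Or.inl k2)) (not_lt.2 hH)
      · exact absurd k3 (pvah_no3 hT F hN h2)
      · exact absurd (hF.s24 i v' (Or.inr k4)) (not_lt.2 hH)
    · exact h1

/-- **HASH LEMMA**: a path off `N` with short steps keeps the invariant; in particular it stays in the square `H ≤ b + μ` -/
theorem pvah_block (hT : T.IsSph) (F : PvahFr T ι) (hF : F.Ok) {N : Set V} (hN : ∀ i, (F.R i).Cr24 N) {A : Set D}
    (hst : ∀ u v, T.EdgeIn A u v → ∀ i, F.h i v - F.h i u ≤ F.μ) {x y : V} (hx : F.Inv N x) (hxy : T.Join A Nᶜ x y) : F.Inv N y := by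
  obtain ⟨-, h2⟩ := hxy
  induction h2 with
  | refl => exact hx
  | tail _ hbc ih => exact pvah_step hT F hF hN ih (pl_hx_edgeIn_adj hbc.1) (hst _ _ hbc.1) hbc.2

/-- the hash lemma, contrapositive: a path with short steps from the inner square to a vertex with a large gauge meets `N` -/
theorem pvah_meet (hT : T.IsSph) (F : PvahFr T ι) (hF : F.Ok) {N : Set V} (hN : ∀ i, (F.R i).Cr24 N) {A : Set D}
    (hst : ∀ u v, T.EdgeIn A u v → ∀ i, F.h i v - F.h i u ≤ F.μ) {X : Set V} {x y : V} (hx : F.Inv N x) (hxy : T.Join A X x y) (hy : F.b + F.μ < F.H y) : (X ∩ N).Nonempty := by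
  by_contra hne
  rw [Set.not_nonempty_iff_eq_empty] at hne
  have hsub : X ⊆ Nᶜ := fun v hv hv' => (Set.eq_empty_iff_forall_notMem.1 hne v) ⟨hv, hv'⟩
  have := (pvah_block hT F hF hN hst hx (pl_hx_join_mono Set.Subset.rfl hsub hxy)).H_le
  linarith

/-! ## 2. the cycle -/

/-- **the circuit of the hash**: a simple cycle with all its vertices in `N`, between the two frame cycles, drawn in the closed annulus -/
theorem pvah_cyc (hT : T.IsSph) (hS : T.Simple) {c' c : T.Cyc} (h : c'.Inside c) (hfin : c.Left.Finite) (F : PvahFr T ι) (hF : F.Ok) {N : Set V} (hN : ∀ i, (F.R i).Cr24 N)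
    (hst : ∀ u v, T.EdgeIn (c'.Ann c) u v → ∀ i, F.h i v - F.h i u ≤ F.μ) (hin : ∀ v ∈ c'.verts, F.Inv N v) (hout : ∀ v ∈ c.verts, F.b + F.μ < F.H v) :
    ∃ c'' : T.Cyc, c''.verts ⊆ N ∧ c'.Left ⊆ c''.Left ∧ c''.Left ⊆ c.Left ∧ ∀ i, c''.e i ∈ c'.Ann c ∨ T.opp (c''.e i) ∈ c'.Ann c := by
  rcases pl_gt_ann_dual hT hS h hfin Nᶜ with ⟨a, ha, b, hb, hj⟩ | ⟨c'', h1, h2, h3, h4⟩
  · have := (pvah_block hT F hF hN hst (hin a ha) hj).H_le
    have := hout b hb
    linarith
  · exact ⟨c'', fun v hv => not_not.1 (h1 hv), h2, h3, h4⟩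

/-! ## 3. arms -/

/-- a path which starts strictly inside a cycle and ends elsewhere contains a path of the closed inside to a vertex of the cycle -/
theorem pvah_arm (hT : T.IsSph) (c : T.Cyc) {X : Set V} {z y : V} (hz : z ∈ T.Int c.Left) (hy : y ∉ T.Int c.Left) (h : T.Join Set.univ X z y) :
    ∃ p ∈ c.verts, T.Join c.Left X z p := by
  obtain ⟨h1, h2⟩ := h
  have key : (∃ p ∈ c.verts, T.Join c.Left X z p) ∨ (y ∈ T.Int c.Left ∧ T.Join c.Left X z y) := by
    clear hy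
    induction h2 with
    | refl => exact Or.inr ⟨hz, pl_hx_join_refl h1⟩
    | @tail u w _ huw ih =>
      rcases ih with ih | ⟨i1, i2⟩
      · exact Or.inl ih
      · obtain ⟨e1, e2⟩ := pvah_int_edge hT c i1 (pl_hx_edgeIn_adj huw.1)
        have hj := pl_hx_join_tail i2 e1 huw.2
        rw [pl_VOf_left hT] at e2
        rcases e2 with e2 | e2
        · exact Or.inl ⟨w, e2, hj⟩
        · exact Or.inr ⟨e2, hj⟩
  rcases key with key | key
  · exact key
  · exact absurd key.1 hy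

/-! ## 4. the plug -/

section plug

variable {s : V → Bool}

/-- **THE PLUG** (D4 + D5 + D6 of ADM_140).   Every quad of the hash is crossed the long way by `white ∪ {u₁, u₂}`; from a vertex `z` of the closed inner disc a black arm off `u₂` and a black arm off `u₁` reach the outer frame. -/
theorem pvah_plug (hT : T.IsSph) (hS : T.Simple) {c' c : T.Cyc} (h : c'.Inside c) (hfin : c.Left.Finite) (F : PvahFr T ι) (hF : F.Ok) {u₁ u₂ z : V}
    (hadj : ¬ T.Adj u₁ u₂) (hN : ∀ i, (F.R i).Cr24 ({v | s v = false} ∪ {u₁, u₂}))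
    (hst : ∀ u v, T.EdgeIn (c'.Ann c) u v → ∀ i, F.h i v - F.h i u ≤ F.μ) (hin : ∀ v ∈ c'.verts, F.Inv ({v | s v = false} ∪ {u₁, u₂}) v) (hout : ∀ v ∈ c.verts, F.b + F.μ < F.H v)
    (hz : z ∈ T.VOf c'.Left) (hB₁ : ∃ y ∈ c.verts, T.Join Set.univ ({v | s v = true} \ {u₂}) z y) (hB₂ : ∃ y ∈ c.verts, T.Join Set.univ ({v | s v = true} \ {u₁}) z y) :
    ∃ g : T.Gate s, g.vm = u₁ ∧ g.vp = u₂ ∧ c'.Left ⊆ g.c.Left ∧ g.c.Left ⊆ c.Left ∧ g.c.verts ⊆ T.VOf (c'.Ann c) ∧ g.Thru ∧
      T.Join g.c.Left {v | s v = true} z u₁ ∧ T.Join g.c.Left {v | s v = true} z u₂ := by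
  obtain ⟨c'', k1, k2, k3, k4⟩ := pvah_cyc hT hS h hfin F hF hN hst hin hout
  obtain ⟨y₁, hy₁, j₁⟩ := hB₁
  obtain ⟨y₂, hy₂, j₂⟩ := hB₂
  -- black vertices of the circuit
  have hbl : ∀ v ∈ c''.verts, s v = true → v = u₁ ∨ v = u₂ := by
    intro v hv hb
    rcases k1 hv with h1 | h1
    · rw [show s v = false from h1] at hb
      exact absurd hb (by simp)
    · exact h1
  -- the centre is strictly inside
  have hzi : z ∈ T.Int c''.Left := by
    have h1 : z ∈ T.VOf c''.Left := (pl_nested_vert hT c'' c' k2).1 hz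
    rw [pl_VOf_left hT] at h1
    refine h1.resolve_left fun hv => ?_
    rcases hbl z hv j₁.1.1 with e | e
    · exact j₂.1.2 e
    · exact j₁.1.2 e
  -- the outer frame is not strictly inside
  have hyo : ∀ y ∈ c.verts, y ∉ T.Int c''.Left := fun y hy hi =>
    Set.disjoint_left.1 (pl_jordan_vert_disj hT c).1 hy ((pl_nested_vert hT c c'' k3).2 hi)
  obtain ⟨p₁, hp₁, a₁⟩ := pvah_arm hT c'' hzi (hyo y₁ hy₁) j₁
  obtain ⟨p₂, hp₂, a₂⟩ := pvah_arm hT c'' hzi (hyo y₂ hy₂) j₂
  have m₁ := pl_hx_join_mem a₁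
  have m₂ := pl_hx_join_mem a₂
  have e₁ : p₁ = u₁ := (hbl p₁ hp₁ m₁.1).resolve_right m₁.2
  have e₂ : p₂ = u₂ := (hbl p₂ hp₂ m₂.1).resolve_left m₂.2
  subst e₁
  subst e₂
  have hne : p₁ ≠ p₂ := fun e => m₁.2 e
  have hX : pvgnX T s c''.Left = {p₁, p₂} := by
    ext v
    constructor
    · rintro ⟨hv, hb⟩
      rw [pvgn_bdV_left hT] at hv
      exact hbl v hv hb
    · rintro (rfl | rfl)
      · exact ⟨by rw [pvgn_bdV_left hT]; exact hp₁, m₁.1⟩
      · exact ⟨by rw [pvgn_bdV_left hT]; exact hp₂, m₂.1⟩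
  have hnobb : ∀ d, T.Bd c''.Left d → ¬ (s (T.src d) = true ∧ s (T.tgt d) = true) := by
    rintro d hd ⟨b1, b2⟩
    obtain ⟨v1, v2⟩ := pl_gt_edg_verts c'' (((pl_jordan hT c'').2.2.2 d).1 hd)
    have hsd := T.tgt_ne_src d
    rcases hbl _ v1 b1 with f1 | f1 <;> rcases hbl _ v2 b2 with f2 | f2
    · exact hsd (f2.trans f1.symm)
    · exact hadj ⟨d, f1, f2⟩
    · exact hadj (pvah_adj_symm ⟨d, f1, f2⟩)
    · exact hsd (f2.trans f1.symm)
  obtain ⟨g, g1, -, g3, g4, g5⟩ := pvgn_gate_of_cyc hT c'' hne hX hnobb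
  have hgfin : g.c.Left.Finite := by rw [g1]; exact hfin.subset k3
  have b₁ : T.Join g.c.Left {v | s v = true} z p₁ := by rw [g1]; exact pl_hx_join_mono Set.Subset.rfl Set.sdiff_subset a₁
  have b₂ : T.Join g.c.Left {v | s v = true} z p₂ := by rw [g1]; exact pl_hx_join_mono Set.Subset.rfl Set.sdiff_subset a₂
  refine ⟨g, g4, g5, by rw [g1]; exact k2, by rw [g1]; exact k3, ?_, ?_, b₁, b₂⟩
  · rintro _ ⟨i, rfl⟩
    obtain ⟨j, hj⟩ : g.c.e i ∈ c''.darts := g3 ▸ ⟨i, rfl⟩
    rw [← hj]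
    exact pl_gt_drawn_VOf k4 ⟨j, rfl⟩
  · rw [pvgz_thru_iff hT g hgfin, g4, g5]
    exact pl_hx_join_trans (pl_hx_join_symm b₁) b₂

/-- the face-set gate of 150 (input `hne` of the rule `pvgnHull` / `pvgnRule`) from the plug -/
theorem pvah_plug_G (hT : T.IsSph) (hS : T.Simple) {c' c : T.Cyc} (h : c'.Inside c) (hfin : c.Left.Finite) (F : PvahFr T ι) (hF : F.Ok) {u₁ u₂ z : V}
    (hadj : ¬ T.Adj u₁ u₂) (hN : ∀ i, (F.R i).Cr24 ({v | s v = false} ∪ {u₁, u₂}))
    (hst : ∀ u v, T.EdgeIn (c'.Ann c) u v → ∀ i, F.h i v - F.h i u ≤ F.μ) (hin : ∀ v ∈ c'.verts, F.Inv ({v | s v = false} ∪ {u₁, u₂}) v) (hout : ∀ v ∈ c.verts, F.b + F.μ < F.H v)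
    (hz : z ∈ T.VOf c'.Left) (hB₁ : ∃ y ∈ c.verts, T.Join Set.univ ({v | s v = true} \ {u₂}) z y) (hB₂ : ∃ y ∈ c.verts, T.Join Set.univ ({v | s v = true} \ {u₁}) z y)
    {I O : Set D} (hI : I ⊆ c'.Left) (hO : c.Left ⊆ O) : ∃ G, PvgnG T s I O G := by
  obtain ⟨g, -, -, g1, g2, -⟩ := pvah_plug hT hS h hfin F hF hadj hN hst hin hout hz hB₁ hB₂
  exact ⟨g.c.Left, pvgn_of_gate hT g (hI.trans g1) (g2.trans hO)⟩

end plug

/-! ## 5. bars -/

/-- **BAR**: an explored white path from the side 2 to a neighbour `x` of `u`, a fresh white path from a neighbour `w` of `u` to the side 4: a long crossing by `W ∪ {u}` -/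
theorem pvah_bar (R : T.Quad) {W : Set V} {A₁ A₂ : Set D} (hA₁ : A₁ ⊆ R.c.Left) (hA₂ : A₂ ⊆ R.c.Left) {u x w t t' : V} (ht : t ∈ R.S2) (ht' : t' ∈ R.S4)
    (h1 : T.Join A₁ W t x) (e1 : T.EdgeIn A₁ x u) (e2 : T.EdgeIn A₂ u w) (h2 : T.Join A₂ W w t') : R.Cr24 (W ∪ {u}) := by
  have m1 : T.Join R.c.Left (W ∪ {u}) t x := pl_hx_join_mono hA₁ Set.subset_union_left h1
  have m2 : T.Join R.c.Left (W ∪ {u}) w t' := pl_hx_join_mono hA₂ Set.subset_union_left h2
  have f1 : T.EdgeIn R.c.Left x u := by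
    obtain ⟨d, hd, k1, k2⟩ := e1
    exact ⟨d, hd.imp (fun k => hA₁ k) (fun k => hA₁ k), k1, k2⟩
  have f2 : T.EdgeIn R.c.Left u w := by
    obtain ⟨d, hd, k1, k2⟩ := e2
    exact ⟨d, hd.imp (fun k => hA₂ k) (fun k => hA₂ k), k1, k2⟩
  exact ⟨t, ht, t', ht', pl_hx_join_trans (pl_hx_join_tail (pl_hx_join_tail m1 f1 (Or.inr rfl)) f2 m2.1) m2⟩

/-- a long crossing by `W ∪ {u}` is a long crossing by `W ∪ {u₁, u₂}` -/
theorem pvah_bar_l (R : T.Quad) {W : Set V} {u₁ u₂ : V} (h : R.Cr24 (W ∪ {u₁})) : R.Cr24 (W ∪ {u₁, u₂}) :=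
  pl_qd_mono24 R (Set.union_subset_union_right W fun v hv => Or.inl hv) h

theorem pvah_bar_r (R : T.Quad) {W : Set V} {u₁ u₂ : V} (h : R.Cr24 (W ∪ {u₂})) : R.Cr24 (W ∪ {u₁, u₂}) :=
  pl_qd_mono24 R (Set.union_subset_union_right W fun v hv => Or.inr hv) h

theorem pvah_bar_w (R : T.Quad) {W : Set V} {u₁ u₂ : V} (h : R.Cr24 W) : R.Cr24 (W ∪ {u₁, u₂}) :=
  pl_qd_mono24 R Set.subset_union_left h

/-! ## 6. a cycle in a round annulus lies between the frames of record      (request of 140, 10:50Z: `I ⊆ g.c.Left ⊆ O` for the EXPLICIT gate `pvaq_gate` + `pvaq_gate_orient` of `Tr/AdmDet`) -/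

/-- the exterior of a round disc is connected -/
theorem pvah_ext_preconn (z : ℂ) {b : ℝ} (hb : 0 < b) : IsPreconnected {w : ℂ | b ≤ ‖w - z‖} := by
  have h1 : IsPreconnected (Set.Ici b ×ˢ Metric.sphere (0 : ℂ) 1) :=
    isPreconnected_Ici.prod (isPreconnected_sphere (by rw [Complex.rank_real_complex]; norm_num) 0 1)
  have h2 := h1.image (fun p : ℝ × ℂ => z + (p.1 : ℂ) * p.2) (by fun_prop)
  convert h2 using 1
  ext w
  constructor
  · intro h3
    have h3' : b ≤ ‖w - z‖ := h3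
    have hz : ‖w - z‖ ≠ 0 := by linarith
    have hz' : ((‖w - z‖ : ℝ) : ℂ) ≠ 0 := by exact_mod_cast hz
    refine ⟨(‖w - z‖, (w - z) / ‖w - z‖), ⟨h3', ?_⟩, ?_⟩
    · simp [hz]
    · show z + ((‖w - z‖ : ℝ) : ℂ) * ((w - z) / ‖w - z‖) = w
      field_simp
      ring
  · rintro ⟨⟨t, u⟩, ⟨h3, h5⟩, rfl⟩
    have h3' : b ≤ t := h3
    have h6 : ‖u‖ = 1 := by simpa using h5
    show b ≤ ‖z + ((t : ℝ) : ℂ) * u - z‖
    rw [add_sub_cancel_left, norm_mul, h6, mul_one, Complex.norm_real, Real.norm_of_nonneg (by linarith)]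
    exact h3'

/-- the exterior of a round disc is not contained in a bounded set -/
theorem pvah_ext_escape (z : ℂ) (b : ℝ) {K : Set ℂ} (hK : Bornology.IsBounded K) : ∃ w : ℂ, b ≤ ‖w - z‖ ∧ w ∉ K := by
  obtain ⟨M, hM⟩ := hK.exists_norm_le
  have hR : 0 ≤ |b| + |M| + ‖z‖ + 1 := by positivity
  refine ⟨z + ((|b| + |M| + ‖z‖ + 1 : ℝ) : ℂ), ?_, fun hw => ?_⟩
  · rw [add_sub_cancel_left, Complex.norm_real, Real.norm_of_nonneg hR]
    have := le_abs_self b
    have := abs_nonneg M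
    have := norm_nonneg z
    linarith
  · have h1 := hM _ hw
    have h2 : ‖((|b| + |M| + ‖z‖ + 1 : ℝ) : ℂ)‖ ≤ ‖z + ((|b| + |M| + ‖z‖ + 1 : ℝ) : ℂ)‖ + ‖z‖ := by
      have := norm_sub_le (z + ((|b| + |M| + ‖z‖ + 1 : ℝ) : ℂ)) z
      rwa [add_sub_cancel_left] at this
    rw [Complex.norm_real, Real.norm_of_nonneg hR] at h2
    have := le_abs_self M
    have := abs_nonneg b
    linarith

/-- **BETWEEN THE FRAMES**: a cycle with finite left side which contains the point `z`, whose polygon stays in the annulus `a ≤ |w - z| < b` -/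
theorem pvah_between (hT : T.IsSph) {pos : V → ℂ} (G : PlGeo T pos) (c : T.Cyc) (hfin : c.Left.Finite) {z : ℂ} {a b : ℝ} (hb : 0 < b) (hz : z ∈ T.real pos c.Left)
    (hin : ∀ w ∈ c.poly pos, a ≤ ‖w - z‖) (hout : ∀ w ∈ c.poly pos, ‖w - z‖ < b) : pvwI T pos z a ⊆ c.Left ∧ c.Left ⊆ pvwO T pos z b := by
  unfold pvwI pvwO
  rw [pvgy_between hT c]
  constructor
  · intro v hv
    have hv' : ‖pos v - z‖ < a := hv
    have hS : IsPreconnected (Metric.ball z a) := (convex_ball z a).isPreconnected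
    have h0 : Disjoint (Metric.ball z a) (T.bdReal pos c.Left) := by
      rw [plg_cyc_bd hT, Set.disjoint_left]
      intro w hw hw'
      rw [Metric.mem_ball, dist_eq_norm] at hw
      have := hin w hw'
      linarith
    have ha : 0 < a := (norm_nonneg _).trans_lt hv'
    have h1 := plg_stay hT G (pl_left_face c) hS h0 ⟨z, Metric.mem_ball_self ha, hz⟩
    rw [plg_int_iff G (pl_left_face c)]
    exact h1 (by rw [Metric.mem_ball, dist_eq_norm]; exact hv')
  · intro v hv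
    have hv' : b ≤ ‖pos v - z‖ := hv
    have hJ := (pl_jordan hT c).1
    have h0 : Disjoint {w : ℂ | b ≤ ‖w - z‖} (T.bdReal pos c.Right) := by
      rw [hJ, plg_bdReal_compl, plg_cyc_bd hT, Set.disjoint_left]
      intro w hw hw'
      have hw1 : b ≤ ‖w - z‖ := hw
      have := hout w hw'
      linarith
    obtain ⟨w, hw1, hw2⟩ := pvah_ext_escape z b (plg_cyc_compact G c hfin).isBounded
    have hw3 : w ∈ T.real pos c.Right := by
      have := (plg_cyc_union hT G c).symm ▸ Set.mem_univ w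
      exact this.resolve_left hw2
    have h1 := plg_stay hT G (pl_right_face c) (pvah_ext_preconn z hb) h0 ⟨w, hw1, hw3⟩
    rw [plg_int_iff G (pl_right_face c)]
    exact h1 hv'

/-- the same from the vertices and the mesh of the cycle -/
theorem pvah_between_v (hT : T.IsSph) {pos : V → ℂ} (G : PlGeo T pos) (c : T.Cyc) (hfin : c.Left.Finite) {z : ℂ} {a b μ : ℝ} (hb : 0 < b) (hz : z ∈ T.real pos c.Left)
    (hv : ∀ v ∈ c.verts, a + μ ≤ ‖pos v - z‖ ∧ ‖pos v - z‖ < b) (hμ : ∀ i, ‖pos (T.tgt (c.e i)) - pos (T.src (c.e i))‖ ≤ μ) :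
    pvwI T pos z a ⊆ c.Left ∧ c.Left ⊆ pvwO T pos z b := by
  refine pvah_between hT G c hfin hb hz ?_ ?_
  · rintro w ⟨i, hw⟩
    have h1 := (hv _ ⟨i, rfl⟩).1
    have h2 : ‖w - pos (T.src (c.e i))‖ ≤ ‖pos (T.tgt (c.e i)) - pos (T.src (c.e i))‖ := by
      have hw' : w ∈ segment ℝ (pos (T.src (c.e i))) (pos (T.tgt (c.e i))) := hw
      rw [segment_eq_image_lineMap] at hw'
      obtain ⟨t, ⟨ht0, ht1⟩, rfl⟩ := hw'
      rw [AffineMap.lineMap_apply, vsub_eq_sub, vadd_eq_add, add_sub_cancel_right, norm_smul, Real.norm_of_nonneg ht0]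
      exact mul_le_of_le_one_left (norm_nonneg _) ht1
    have h3 : ‖pos (T.src (c.e i)) - z‖ ≤ ‖w - z‖ + ‖w - pos (T.src (c.e i))‖ := by
      have := norm_sub_le (w - z) (w - pos (T.src (c.e i)))
      rwa [show w - z - (w - pos (T.src (c.e i))) = pos (T.src (c.e i)) - z by ring] at this
    have := hμ i
    linarith
  · rintro w ⟨i, hw⟩
    have h1 : pos (T.src (c.e i)) ∈ Metric.ball z b := by rw [Metric.mem_ball, dist_eq_norm]; exact (hv _ ⟨i, rfl⟩).2
    have h2 : pos (T.tgt (c.e i)) ∈ Metric.ball z b := by rw [Metric.mem_ball, dist_eq_norm, c.chain i]; exact (hv _ ⟨i + 1, rfl⟩).2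
    have := (convex_ball z b).segment_subset h1 h2 hw
    rwa [Metric.mem_ball, dist_eq_norm] at this

/-- the explicit gate is a face-set gate between the frames of record -/
theorem pvah_gate_G (hT : T.IsSph) {pos : V → ℂ} (G : PlGeo T pos) {s : V → Bool} (g : T.Gate s) (hfin : g.c.Left.Finite) {z : ℂ} {a b μ : ℝ} (hb : 0 < b) (hz : z ∈ T.real pos g.c.Left)
    (hv : ∀ v ∈ g.c.verts, a + μ ≤ ‖pos v - z‖ ∧ ‖pos v - z‖ < b) (hμ : ∀ i, ‖pos (T.tgt (g.c.e i)) - pos (T.src (g.c.e i))‖ ≤ μ) :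
    PvgnG T s (pvwI T pos z a) (pvwO T pos z b) g.c.Left :=
  pvgn_of_gate hT g (pvah_between_v hT G g.c hfin hb hz hv hμ).1 (pvah_between_v hT G g.c hfin hb hz hv hμ).2

end Claimed.Agent.R289
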