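import Claimed.Agent.R289.Tr.Adm
import Claimed.Agent.R289.Tr.AdmDet
import Claimed.Agent.R289.Tr.AdmHash
import Claimed.Agent.R289.Tr.LaneDet
import Claimed.Agent.R289.Tr.PlugLoc

/-!
# Row 289 (S0537, Cardy for Poisson-Voronoi), THE WALL, ADMISSION, file Tr/AdmOut : BLOCK C = FROM THE OUTPUT OF THE NET TO THE EXPLICIT GATE      (helper140; prefix `pvaz_`, `Pvaz`)

Roof: `exit_pvko_inst` (`Tr/AdmP.lean`, 262).   Block B (instance of `PvamIn`, `PvamNet` at a nice point set: 19, 267, 229) gives `N.Out σ`;   block D (259 `Tr/AdmMin`, 224 `Adm/Rec`) passes from the EXPLICIT gate `g₀` to the gate of record.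
This file: MODEL FREE (+ `PlGeo` of 172 for the orientation and the maximum principle).
* sec. 1  `pvaz_pth`, **`pvaz_gate`** : a gate with PRESCRIBED FEET (`tgt g.aIn = s⁻`, `tgt g.aOut = s⁺`, `tgt g.bIn = w⁺`, `tgt g.bOut = w⁻`);  no hypothesis `¬ Adj`.
* sec. 2  `pvaz_orient` : orientation of a cycle by ray casting, hypotheses on the POSITIONS of two sets of vertices (lower arc, upper arc);  `pvaz_half`, `pvaz_box` : maximum principle (the closed disc of a cycle lies in every half plane / rectangle which contains its vertices).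
* sec. 3  **`pvaz_trap`** : black line + white tube line between the feet of a gate ⟹ the strand from `aIn` reaches `aOut`, all the faces it crosses lie in the disc of the cycle (black line, tube line): in the bounding box.   No co-connectedness, no `OUT` hypothesis.
* sec. 4  `pvaz_ivt`, `pvaz_inside`, **`pvaz_thru`** (a black line through the inner disc gives `Thru`), `pvaz_banks`, `pvaz_in` (`PvzlIn` of 173 from `pvah_between_v` of 18).
* sec. 5  `PvazLk N` (the links of ONE plug in a net of 127), `PvazLk.Pos` (what the positions owe), **`pvaz_main`** : `N.Out σ` ⟹ the explicit gate with all the hypotheses of `pvzt_record` (259).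
-/

set_option autoImplicit false

namespace Claimed.Agent.R289

open Relation

variable {V D : Type} {T : PvMap V D}

/-! ## 1. a gate with prescribed feet -/

/-- a simple path with prescribed first and last edge -/
theorem pvaz_pth [Nonempty D] {A : Set D} {X : Set V} {u a b u' : V} (hu : u ∉ X) (hu' : u' ∉ X) (hne : u ≠ u') (e1 : T.EdgeIn A u a) (j : T.Join A X a b) (e2 : T.EdgeIn A b u') :
    ∃ p : T.Pth, 2 ≤ p.n ∧ p.v 0 = u ∧ p.v 1 = a ∧ p.v (p.n - 1) = b ∧ p.v p.n = u' ∧ (∀ k, 0 < k → k < p.n → p.v k ∈ X) ∧ p.In A := by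
  obtain ⟨q, q0, q1, qX, qA⟩ := pl_pth_of_join j
  obtain ⟨d, hd, d1, d2⟩ := e1
  obtain ⟨d', hd', d1', d2'⟩ := e2
  have hn : T.src d ∉ q.verts := fun h => hu (d1 ▸ qX h)
  have hs : T.src d' = (pvldCons q d (d2.trans q0.symm) hn).v (pvldCons q d (d2.trans q0.symm) hn).n := by
    show T.src d' = if q.n + 1 = 0 then T.src d else q.v (q.n + 1 - 1)
    rw [if_neg (by omega), Nat.add_sub_cancel, q1, d1']
  have hn' : T.tgt d' ∉ (pvldCons q d (d2.trans q0.symm) hn).verts := by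
    rw [pvld_cons_verts, d2', d1]
    rintro (h | h)
    · exact hne (Set.mem_singleton_iff.1 h).symm
    · exact hu' (qX h)
  refine ⟨(pvldCons q d (d2.trans q0.symm) hn).snoc d' hs hn', ?_, ?_, ?_, ?_, ?_, ?_, ?_⟩
  · show 2 ≤ q.n + 1 + 1
    omega
  · show (if 0 ≤ q.n + 1 then (if (0 : ℕ) = 0 then T.src d else q.v (0 - 1)) else T.tgt d') = u
    rw [if_pos (by omega), if_pos rfl, d1]
  · show (if 1 ≤ q.n + 1 then (if (1 : ℕ) = 0 then T.src d else q.v (1 - 1)) else T.tgt d') = a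
    rw [if_pos (by omega), if_neg (by omega), q0]
  · show (if q.n + 1 + 1 - 1 ≤ q.n + 1 then (if q.n + 1 + 1 - 1 = 0 then T.src d else q.v (q.n + 1 + 1 - 1 - 1)) else T.tgt d') = b
    rw [if_pos (by omega), if_neg (by omega), show q.n + 1 + 1 - 1 - 1 = q.n by omega, q1]
  · show (if q.n + 1 + 1 ≤ q.n + 1 then (if q.n + 1 + 1 = 0 then T.src d else q.v (q.n + 1 + 1 - 1)) else T.tgt d') = u'
    rw [if_neg (by omega), d2']
  · intro k hk0 hk1
    have hk1' : k < q.n + 1 + 1 := hk1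
    show (if k ≤ q.n + 1 then (if k = 0 then T.src d else q.v (k - 1)) else T.tgt d') ∈ X
    rw [if_pos (by omega), if_neg (by omega)]
    exact qX ⟨k - 1, by omega, rfl⟩
  · intro k hk
    have hk' : k < q.n + 1 + 1 := hk
    show (if k < q.n + 1 then (if k = 0 then d else q.e (k - 1)) else d') ∈ A ∨ T.opp (if k < q.n + 1 then (if k = 0 then d else q.e (k - 1)) else d') ∈ A
    by_cases h1 : k < q.n + 1
    · rw [if_pos h1]
      by_cases h2 : k = 0
      · rw [if_pos h2]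
        exact hd
      · rw [if_neg h2]
        exact qA (k - 1) (by omega)
    · rw [if_neg h1]
      exact hd'

/-- **GATE WITH PRESCRIBED FEET**: two black vertices, two disjoint white sets; the right arc starts at `sm` and ends at `sp`, the left arc starts at `wp` and ends at `wm` -/
theorem pvaz_gate [Nonempty D] {s : V → Bool} {um up sm sp wm wp : V} (hm : s um = true) (hp : s up = true) (hne : um ≠ up) {A : Set D} {R L : Set V}
    (hR : ∀ v ∈ R, s v = false) (hL : ∀ v ∈ L, s v = false) (hd : Disjoint R L)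
    (e1 : T.EdgeIn A um sm) (j1 : T.Join A R sm sp) (e2 : T.EdgeIn A sp up) (e3 : T.EdgeIn A up wp) (j2 : T.Join A L wp wm) (e4 : T.EdgeIn A wm um) :
    ∃ g : T.Gate s, g.vm = um ∧ g.vp = up ∧ T.tgt g.aIn = sm ∧ T.tgt g.aOut = sp ∧ T.tgt g.bIn = wp ∧ T.tgt g.bOut = wm ∧ g.R ⊆ R ∧ g.L ⊆ L ∧ ∀ i, g.c.e i ∈ A ∨ T.opp (g.c.e i) ∈ A := by
  have nR : ∀ v, s v = true → v ∉ R := fun v hv h => by rw [hR v h] at hv; exact Bool.noConfusion hv
  have nL : ∀ v, s v = true → v ∉ L := fun v hv h => by rw [hL v h] at hv; exact Bool.noConfusion hv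
  obtain ⟨p, pn, p0, pa, pb, p1, pin, pA⟩ := pvaz_pth (nR _ hm) (nR _ hp) hne e1 j1 e2
  obtain ⟨q, qn, q0, qa, qb, q1, qin, qA⟩ := pvaz_pth (nL _ hp) (nL _ hm) hne.symm e3 j2 e4
  have hG : p.Glue q := by
    refine ⟨p1.trans q0.symm, q1.trans p0.symm, by omega, fun i j hi hj hij => ?_⟩
    by_cases i0 : i = 0
    · right
      refine ⟨i0, q.inj j q.n hj le_rfl ?_⟩
      rw [← hij, i0, p0, q1]
    by_cases i1 : i = p.n
    · left
      refine ⟨i1, q.inj j 0 hj (Nat.zero_le _) ?_⟩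
      rw [← hij, i1, p1, q0]
    exfalso
    have hiR := pin i (by omega) (by omega)
    have hw := hR _ hiR
    by_cases j0 : j = 0
    · rw [hij, j0, q0, hp] at hw
      exact Bool.noConfusion hw
    by_cases j1 : j = q.n
    · rw [hij, j1, q1, hm] at hw
      exact Bool.noConfusion hw
    exact Set.disjoint_left.1 hd hiR (hij ▸ qin j (by omega) (by omega))
  have hcol : ∀ i, i < (p.glue q hG).n → (s (T.src ((p.glue q hG).e i)) = true ↔ i = 0 ∨ i = p.n) := by
    intro i hi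
    have hi' : i < p.n + q.n := hi
    rcases Nat.lt_or_ge p.n i with h | h
    · obtain ⟨k, rfl⟩ := Nat.exists_eq_add_of_le h.le
      rw [pl_pth_glue_src2 p q hG (by omega), hL _ (qin k (by omega) (by omega))]
      constructor
      · intro h'
        exact Bool.noConfusion h'
      · intro h'
        omega
    · rw [pl_pth_glue_src1 p q hG h]
      by_cases i0 : i = 0
      · rw [i0, p0, hm]
        simp
      by_cases i1 : i = p.n
      · rw [i1, p1, hp]
        simp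
      rw [hR _ (pin i (by omega) (by omega))]
      constructor
      · intro h'
        exact Bool.noConfusion h'
      · intro h'
        omega
  refine ⟨⟨p.glue q hG, p.n, pn, (by show p.n + 2 ≤ p.n + q.n; omega), hcol⟩, ?_, ?_, ?_, ?_, ?_, ?_, ?_, ?_, fun i => ?_⟩
  · show T.src ((p.glue q hG).e 0) = um
    rw [pl_pth_glue_src1 p q hG (Nat.zero_le _), p0]
  · show T.src ((p.glue q hG).e p.n) = up
    rw [pl_pth_glue_src1 p q hG le_rfl, p1]
  · rw [pvtg_aIn_tgt]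
    show T.src ((p.glue q hG).e 1) = sm
    rw [pl_pth_glue_src1 p q hG (by omega), pa]
  · rw [pvtg_aOut_tgt]
    show T.src ((p.glue q hG).e (p.n - 1)) = sp
    rw [pl_pth_glue_src1 p q hG (by omega), pb]
  · rw [pvtg_bIn_tgt]
    show T.src ((p.glue q hG).e (p.n + 1)) = wp
    rw [pl_pth_glue_src2 p q hG (by omega), qa]
  · rw [pvtg_bOut_tgt]
    show T.src ((p.glue q hG).e (p.n + q.n - 1)) = wm
    rw [show p.n + q.n - 1 = p.n + (q.n - 1) by omega, pl_pth_glue_src2 p q hG (by omega), qb]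
  · rintro v ⟨k, hk0, hk1, rfl⟩
    have hk1' : k < p.n := hk1
    show T.src ((p.glue q hG).e k) ∈ R
    rw [pl_pth_glue_src1 p q hG hk1'.le]
    exact pin k hk0 hk1'
  · rintro v ⟨k, hk0, hk1, rfl⟩
    have hk0' : p.n < k := hk0
    have hk1' : k < p.n + q.n := hk1
    show T.src ((p.glue q hG).e k) ∈ L
    obtain ⟨j, rfl⟩ := Nat.exists_eq_add_of_le hk0'.le
    rw [pl_pth_glue_src2 p q hG (by omega)]
    exact qin j (by omega) (by omega)
  · show (p.glue q hG).e i ∈ A ∨ T.opp ((p.glue q hG).e i) ∈ A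
    have hmem : (p.glue q hG).e i ∈ (p.glue q hG).darts := ⟨i, rfl⟩
    rw [pl_pth_glue_darts] at hmem
    rcases hmem with ⟨k, hk, e⟩ | ⟨k, hk, e⟩
    · rw [← e]
      exact pA k hk
    · rw [← e]
      exact qA k hk

/-! ## 2. orientation and maximum principle -/

/-- an edge both of whose ends are below `z` passes below `z` -/
theorem pvaz_below {p q z : ℂ} (hp : p.im < z.im) (hq : q.im < z.im) :
    (p.re ≤ z.re ∧ z.re < q.re → 0 < vorDet p q z) ∧ (q.re ≤ z.re ∧ z.re < p.re → vorDet p q z < 0) := by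
  constructor
  · rintro ⟨h1, h2⟩
    unfold vorDet
    nlinarith [mul_nonneg (sub_nonneg.2 h1) (sub_pos.2 hq).le, mul_pos (sub_pos.2 h2) (sub_pos.2 hp)]
  · rintro ⟨h1, h2⟩
    unfold vorDet
    nlinarith [mul_nonneg (sub_nonneg.2 h1) (sub_pos.2 hp).le, mul_pos (sub_pos.2 h2) (sub_pos.2 hq)]

/-- an edge both of whose ends are not below `z` does not pass below `z` -/
theorem pvaz_above {p q z : ℂ} (hp : z.im ≤ p.im) (hq : z.im ≤ q.im) :
    (p.re ≤ z.re ∧ z.re < q.re → vorDet p q z ≤ 0) ∧ (q.re ≤ z.re ∧ z.re < p.re → 0 ≤ vorDet p q z) := by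
  constructor
  · rintro ⟨h1, h2⟩
    unfold vorDet
    nlinarith [mul_nonneg (sub_nonneg.2 h1) (sub_nonneg.2 hq), mul_nonneg (sub_pos.2 h2).le (sub_nonneg.2 hp)]
  · rintro ⟨h1, h2⟩
    unfold vorDet
    nlinarith [mul_nonneg (sub_nonneg.2 h1) (sub_nonneg.2 hp), mul_nonneg (sub_pos.2 h2).le (sub_nonneg.2 hq)]

/-- **ORIENTATION OF A CYCLE BY POSITIONS**.   The vertices number `0..m` = lower arc, from west to east; the vertices number `m..n` = upper arc.   The edges of the cycle move the abscissa by at most `lam`;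
in the slab `|re - z.re| ≤ lam` the vertices of the lower arc are below `z`, those of the upper arc are not.   Then the LEFT side is the finite one and `z` lies in it. -/
theorem pvaz_orient (hT : T.IsSph) {pos : V → ℂ} (G : PlGeo T pos) (c : T.Cyc) {m : ℕ} (hmn : m ≤ c.n) (z : ℂ) {lam : ℝ}
    (hlam : ∀ i, |(pos (T.src (c.e (i + 1)))).re - (pos (T.src (c.e i))).re| ≤ lam)
    (h0 : (pos (T.src (c.e 0))).re ≤ z.re) (h1 : z.re < (pos (T.src (c.e m))).re)
    (hlo : ∀ i, i ≤ m → |(pos (T.src (c.e i))).re - z.re| ≤ lam → (pos (T.src (c.e i))).im < z.im)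
    (hup : ∀ i, m ≤ i → i ≤ c.n → |(pos (T.src (c.e i))).re - z.re| ≤ lam → z.im ≤ (pos (T.src (c.e i))).im) :
    c.Left.Finite ∧ z ∈ T.real pos c.Left := by
  have slab : ∀ i, (((pos (T.src (c.e i))).re ≤ z.re ∧ z.re < (pos (T.src (c.e (i + 1)))).re) ∨ ((pos (T.src (c.e (i + 1)))).re ≤ z.re ∧ z.re < (pos (T.src (c.e i))).re)) →
      |(pos (T.src (c.e i))).re - z.re| ≤ lam ∧ |(pos (T.src (c.e (i + 1)))).re - z.re| ≤ lam := by
    intro i h
    have h2 := abs_le.1 (hlam i)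
    rcases h with ⟨a, b⟩ | ⟨a, b⟩
    · exact ⟨abs_le.2 ⟨by linarith [h2.2], by linarith⟩, abs_le.2 ⟨by linarith, by linarith [h2.2]⟩⟩
    · exact ⟨abs_le.2 ⟨by linarith, by linarith [h2.1]⟩, abs_le.2 ⟨by linarith [h2.1], by linarith⟩⟩
  refine pvaq_orient hT G c z ?_
  rw [pvaq_sum_congr pos z c.e c.n (fun i => pos (T.src (c.e i))) (fun _ _ => rfl) (fun i _ => by rw [c.chain i])]
  have hR : ∀ i, i < m → ((pos (T.src (c.e i))).re ≤ z.re ∧ z.re < (pos (T.src (c.e (i + 1)))).re → 0 < vorDet (pos (T.src (c.e i))) (pos (T.src (c.e (i + 1)))) z) ∧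
      ((pos (T.src (c.e (i + 1)))).re ≤ z.re ∧ z.re < (pos (T.src (c.e i))).re → vorDet (pos (T.src (c.e i))) (pos (T.src (c.e (i + 1)))) z < 0) := by
    intro i hi
    constructor
    · intro h
      obtain ⟨s1, s2⟩ := slab i (Or.inl h)
      exact (pvaz_below (hlo i hi.le s1) (hlo (i + 1) hi s2)).1 h
    · intro h
      obtain ⟨s1, s2⟩ := slab i (Or.inr h)
      exact (pvaz_below (hlo i hi.le s1) (hlo (i + 1) hi s2)).2 h
  rw [Finset.range_eq_Ico, ← Finset.sum_Ico_consecutive _ (Nat.zero_le m) hmn, ← Finset.range_eq_Ico, pvaq_seq_low (fun i => pos (T.src (c.e i))) z m hR]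
  have hz : ∑ i ∈ Finset.Ico m c.n, pvaqW z (pos (T.src (c.e i))) (pos (T.src (c.e (i + 1)))) = 0 := by
    refine Finset.sum_eq_zero fun i hi => ?_
    rw [Finset.mem_Ico] at hi
    refine pvaq_w_up ?_ ?_
    · intro h
      obtain ⟨s1, s2⟩ := slab i (Or.inl h)
      exact (pvaz_above (hup i hi.1 hi.2.le s1) (hup (i + 1) (by omega) hi.2 s2)).1 h
    · intro h
      obtain ⟨s1, s2⟩ := slab i (Or.inr h)
      exact (pvaz_above (hup i hi.1 hi.2.le s1) (hup (i + 1) (by omega) hi.2 s2)).2 h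
  rw [hz]
  have e2 : ¬ z.re < (pos (T.src (c.e 0))).re := not_lt.2 h0
  rw [if_pos h1, if_neg e2]
  norm_num

/-- **MAXIMUM PRINCIPLE**: the closed disc of a cycle lies in every closed half plane which contains the vertices of the cycle -/
theorem pvaz_half (hT : T.IsSph) {pos : V → ℂ} (G : PlGeo T pos) (c : T.Cyc) (hfin : c.Left.Finite) (α β : ℝ) (hαβ : α ≠ 0 ∨ β ≠ 0) {M : ℝ}
    (hM : ∀ v ∈ c.verts, α * (pos v).re + β * (pos v).im ≤ M) {v : V} (hv : v ∈ T.VOf c.Left) : α * (pos v).re + β * (pos v).im ≤ M := by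
  by_contra hlt
  rw [not_le] at hlt
  have hJ := (pl_jordan hT c).1
  have hconv : Convex ℝ {w : ℂ | M < α * w.re + β * w.im} := by
    intro x hx y hy a b ha hb hab
    have hx' : M < α * x.re + β * x.im := hx
    have hy' : M < α * y.re + β * y.im := hy
    show M < α * (a • x + b • y).re + β * (a • x + b • y).im
    simp only [Complex.add_re, Complex.add_im, Complex.real_smul, Complex.mul_re, Complex.mul_im, Complex.ofReal_re, Complex.ofReal_im, zero_mul, sub_zero, add_zero]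
    rcases eq_or_lt_of_le ha with h0 | h0
    · have hb1 : b = 1 := by linarith
      rw [← h0, hb1]
      linarith
    · have e1 := mul_lt_mul_of_pos_left hx' h0
      have e2 := mul_le_mul_of_nonneg_left hy'.le hb
      have e3 : a * M + b * M = M := by rw [← add_mul, hab, one_mul]
      have e4 : α * (a * x.re + b * y.re) + β * (a * x.im + b * y.im) = a * (α * x.re + β * x.im) + b * (α * y.re + β * y.im) := by ring
      rw [e4]
      linarith
  have h0 : Disjoint {w : ℂ | M < α * w.re + β * w.im} (T.bdReal pos c.Right) := by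
    rw [hJ, plg_bdReal_compl, plg_cyc_bd hT, Set.disjoint_left]
    rintro w hw ⟨i, hi⟩
    have hw' : M < α * w.re + β * w.im := hw
    have hc2 : Convex ℝ {w : ℂ | α * w.re + β * w.im ≤ M} := by
      intro x hx y hy a b ha hb hab
      have hx' : α * x.re + β * x.im ≤ M := hx
      have hy' : α * y.re + β * y.im ≤ M := hy
      show α * (a • x + b • y).re + β * (a • x + b • y).im ≤ M
      simp only [Complex.add_re, Complex.add_im, Complex.real_smul, Complex.mul_re, Complex.mul_im, Complex.ofReal_re, Complex.ofReal_im, zero_mul, sub_zero, add_zero]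
      have e1 := mul_le_mul_of_nonneg_left hx' ha
      have e2 := mul_le_mul_of_nonneg_left hy' hb
      have e3 : a * M + b * M = M := by rw [← add_mul, hab, one_mul]
      have e4 : α * (a * x.re + b * y.re) + β * (a * x.im + b * y.im) = a * (α * x.re + β * x.im) + b * (α * y.re + β * y.im) := by ring
      rw [e4]
      linarith
    have h1 : α * w.re + β * w.im ≤ M := hc2.segment_subset (hM _ ⟨i, rfl⟩) (hM _ ⟨i + 1, (c.chain i).symm⟩) hi
    linarith
  obtain ⟨B, hB⟩ := (plg_cyc_compact G c hfin).isBounded.exists_norm_le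
  have hn : 0 < α ^ 2 + β ^ 2 := by
    rcases hαβ with h | h
    · have := sq_pos_of_ne_zero h
      positivity
    · have := sq_pos_of_ne_zero h
      positivity
  have hB0 : 0 ≤ B := (norm_nonneg _).trans (hB _ ((plg_vof_iff G (pl_left_face c) v).1 hv))
  -- a far point of the half plane
  set t : ℝ := (|M| + (|α| + |β|) * B + 1) / (α ^ 2 + β ^ 2) with ht
  have hw1 : α * (⟨t * α, t * β⟩ : ℂ).re + β * (⟨t * α, t * β⟩ : ℂ).im = |M| + (|α| + |β|) * B + 1 := by
    show α * (t * α) + β * (t * β) = _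
    rw [ht]
    field_simp
  have hw2 : (⟨t * α, t * β⟩ : ℂ) ∉ T.real pos c.Left := by
    intro h
    have h1 := hB _ h
    have h2 : α * (⟨t * α, t * β⟩ : ℂ).re + β * (⟨t * α, t * β⟩ : ℂ).im ≤ (|α| + |β|) * B := by
      have r1 := Complex.abs_re_le_norm (⟨t * α, t * β⟩ : ℂ)
      have r2 := Complex.abs_im_le_norm (⟨t * α, t * β⟩ : ℂ)
      have a1 : α * (⟨t * α, t * β⟩ : ℂ).re ≤ |α| * B := by
        calc α * (⟨t * α, t * β⟩ : ℂ).re ≤ |α * (⟨t * α, t * β⟩ : ℂ).re| := le_abs_self _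
          _ = |α| * |(⟨t * α, t * β⟩ : ℂ).re| := abs_mul _ _
          _ ≤ |α| * B := mul_le_mul_of_nonneg_left (r1.trans h1) (abs_nonneg _)
      have a2 : β * (⟨t * α, t * β⟩ : ℂ).im ≤ |β| * B := by
        calc β * (⟨t * α, t * β⟩ : ℂ).im ≤ |β * (⟨t * α, t * β⟩ : ℂ).im| := le_abs_self _
          _ = |β| * |(⟨t * α, t * β⟩ : ℂ).im| := abs_mul _ _
          _ ≤ |β| * B := mul_le_mul_of_nonneg_left (r2.trans h1) (abs_nonneg _)
      linarith
    rw [hw1] at h2
    have := abs_nonneg M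
    linarith
  have hw3 : (⟨t * α, t * β⟩ : ℂ) ∈ T.real pos c.Right := by
    have := (plg_cyc_union hT G c).symm ▸ Set.mem_univ (⟨t * α, t * β⟩ : ℂ)
    exact this.resolve_left hw2
  have hw4 : (⟨t * α, t * β⟩ : ℂ) ∈ {w : ℂ | M < α * w.re + β * w.im} := by
    show M < α * (⟨t * α, t * β⟩ : ℂ).re + β * (⟨t * α, t * β⟩ : ℂ).im
    rw [hw1]
    have := le_abs_self M
    have : 0 ≤ (|α| + |β|) * B := by positivity
    linarith
  have h1 := plg_stay hT G (pl_right_face c) hconv.isPreconnected h0 ⟨_, hw4, hw3⟩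
  have h2 : pos v ∉ T.real pos c.Rightᶜ := h1 hlt
  rw [hJ, compl_compl] at h2
  exact h2 ((plg_vof_iff G (pl_left_face c) v).1 hv)

/-- the closed disc of a cycle lies in every rectangle which contains the vertices of the cycle -/
theorem pvaz_box (hT : T.IsSph) {pos : V → ℂ} (G : PlGeo T pos) (c : T.Cyc) (hfin : c.Left.Finite) {x0 x1 y0 y1 : ℝ}
    (hM : ∀ v ∈ c.verts, x0 ≤ (pos v).re ∧ (pos v).re ≤ x1 ∧ y0 ≤ (pos v).im ∧ (pos v).im ≤ y1) {v : V} (hv : v ∈ T.VOf c.Left) :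
    x0 ≤ (pos v).re ∧ (pos v).re ≤ x1 ∧ y0 ≤ (pos v).im ∧ (pos v).im ≤ y1 := by
  have a1 := pvaz_half hT G c hfin (-1) 0 (Or.inl (by norm_num)) (M := -x0) (fun w hw => by have := (hM w hw).1; linarith) hv
  have a2 := pvaz_half hT G c hfin 1 0 (Or.inl (by norm_num)) (M := x1) (fun w hw => by have := (hM w hw).2.1; linarith) hv
  have a3 := pvaz_half hT G c hfin 0 (-1) (Or.inr (by norm_num)) (M := -y0) (fun w hw => by have := (hM w hw).2.2.1; linarith) hv
  have a4 := pvaz_half hT G c hfin 0 1 (Or.inr (by norm_num)) (M := y1) (fun w hw => by have := (hM w hw).2.2.2; linarith) hv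
  exact ⟨by linarith, by linarith, by linarith, by linarith⟩

/-! ## 3. the trap -/

/-- **TRAP BETWEEN A BLACK LINE AND A WHITE LINE**.   `a₀`, `a₁` two positions (black source, white target), `a₀` in the west, `a₁` in the east;  a black join of the sources in `KB`, a white join of the targets in `KW`;
in the slab `|re - z.re| ≤ lam` the sites of `KW` are below `z`, those of `KB` are not.   Then the strand from `a₀` reaches `a₁` inside the disc of a cycle drawn on the two lines. -/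
theorem pvaz_trap (hT : T.IsSph) {pos : V → ℂ} (G : PlGeo T pos) {s : V → Bool} {a₀ a₁ : D} (h0 : pvasBW T s a₀) (h1 : pvasBW T s a₁) {KB KW : Set V}
    (hB : T.Join Set.univ {v | v ∈ KB ∧ s v = true} (T.src a₀) (T.src a₁)) (hW : T.Join Set.univ {v | v ∈ KW ∧ s v = false} (T.tgt a₀) (T.tgt a₁))
    (z : ℂ) {lam : ℝ} (hlam : ∀ u v, u ∈ KB ∪ KW → v ∈ KB ∪ KW → T.Adj u v → |(pos v).re - (pos u).re| ≤ lam)
    (hm : (pos (T.src a₀)).re < z.re - lam) (hp : z.re + lam < (pos (T.src a₁)).re)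
    (hlo : ∀ v ∈ KW, |(pos v).re - z.re| ≤ lam → (pos v).im < z.im) (hup : ∀ v ∈ KB, |(pos v).re - z.re| ≤ lam → z.im ≤ (pos v).im) :
    ∃ (c : T.Cyc) (N : ℕ), c.Left.Finite ∧ z ∈ T.real pos c.Left ∧ c.verts ⊆ KB ∪ KW ∧ 1 ≤ N ∧ (∀ i, i < N → pvasIt T s a₀ i ∈ c.Left) ∧ pvasIt T s a₀ N = a₁ := by
  have hne : T.src a₀ ≠ T.src a₁ := by
    intro h
    rw [h] at hm
    have hl : 0 ≤ lam := (abs_nonneg _).trans (hlam _ _ (Or.inl hB.1.1) (Or.inr hW.1.1) ⟨a₀, rfl, rfl⟩)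
    linarith
  have hl : 0 ≤ lam := (abs_nonneg _).trans (hlam _ _ (Or.inl hB.1.1) (Or.inr hW.1.1) ⟨a₀, rfl, rfl⟩)
  have hB' : T.Join Set.univ (pvldCol s {v | (v ∈ KB ∧ s v = true) ∨ (v ∈ KW ∧ s v = false)} true) (T.src a₀) (T.src a₁) :=
    pl_hx_join_mono Set.Subset.rfl (fun v (hv : v ∈ KB ∧ s v = true) => show v ∈ {v | (v ∈ KB ∧ s v = true) ∨ (v ∈ KW ∧ s v = false)} ∧ s v = true from ⟨Or.inl hv, hv.2⟩) hB
  have hW' : T.Join Set.univ (pvldCol s {v | (v ∈ KB ∧ s v = true) ∨ (v ∈ KW ∧ s v = false)} false) (T.tgt a₀) (T.tgt a₁) :=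
    pl_hx_join_mono Set.Subset.rfl (fun v (hv : v ∈ KW ∧ s v = false) => show v ∈ {v | (v ∈ KB ∧ s v = true) ∨ (v ∈ KW ∧ s v = false)} ∧ s v = false from ⟨Or.inr hv, hv.2⟩) hW
  obtain ⟨c, m, hm0, hmn, e0, em, hw, hb, hcK, -⟩ := pvld_cyc h0 h1 hne hB' hW'
  have hK : ∀ k, T.src (c.e k) ∈ KB ∪ KW := fun k => by
    rcases hcK ⟨k, rfl⟩ with h | h
    · exact Or.inl h.1
    · exact Or.inr h.1
  have hKW : ∀ k, s (T.src (c.e k)) = false → T.src (c.e k) ∈ KW := fun k hk => by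
    rcases hcK ⟨k, rfl⟩ with h | h
    · rw [h.2] at hk
      exact Bool.noConfusion hk
    · exact h.1
  have hKB : ∀ k, s (T.src (c.e k)) = true → T.src (c.e k) ∈ KB := fun k hk => by
    rcases hcK ⟨k, rfl⟩ with h | h
    · exact h.1
    · rw [h.2] at hk
      exact Bool.noConfusion hk
  have es : T.src (c.e (m + 1)) = T.src a₁ := by rw [← c.chain m, em, T.tgt_opp]
  obtain ⟨hfin, hz⟩ := pvaz_orient hT G c (m := m + 1) hmn z (lam := lam)
    (fun i => hlam _ _ (hK i) (hK (i + 1)) ⟨c.e i, rfl, c.chain i⟩)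
    (by rw [e0]; linarith) (by rw [es]; linarith)
    (fun i hi hs => by
      rcases Nat.eq_zero_or_pos i with i0 | i0
      · exfalso
        rw [i0, e0] at hs
        have := (abs_le.1 hs).1
        linarith
      · rcases Nat.lt_or_ge m i with i1 | i1
        · exfalso
          have : i = m + 1 := by omega
          rw [this, es] at hs
          have := (abs_le.1 hs).2
          linarith
        · exact hlo _ (hKW i (hw i i0 i1)) hs)
    (fun i hi1 hi2 hs => hup _ (hKB i (hb i hi1 hi2)) hs)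
  obtain ⟨N, hN1, hNin, hNe⟩ := pvld_trap hT c hfin hm0 hmn hw hb
  rw [e0] at hNin hNe
  rw [em, T.opp_opp] at hNe
  refine ⟨c, N, hfin, hz, ?_, hN1, hNin, hNe⟩
  rintro v ⟨k, rfl⟩
  exact hK k

/-- **THE RUN OF A GATE IN A BOX**: the trap for the two positions `aIn`, `aOut` of a gate; all the faces crossed have their vertices in the rectangle which contains the two lines -/
theorem pvaz_gate_run (hT : T.IsSph) {pos : V → ℂ} (G : PlGeo T pos) {s : V → Bool} (g : T.Gate s) {KB KW : Set V}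
    (hB : T.Join Set.univ {v | v ∈ KB ∧ s v = true} g.vm g.vp) (hW : T.Join Set.univ {v | v ∈ KW ∧ s v = false} (T.tgt g.aIn) (T.tgt g.aOut))
    (z : ℂ) {lam : ℝ} (hlam : ∀ u v, u ∈ KB ∪ KW → v ∈ KB ∪ KW → T.Adj u v → |(pos v).re - (pos u).re| ≤ lam)
    (hm : (pos g.vm).re < z.re - lam) (hp : z.re + lam < (pos g.vp).re)
    (hlo : ∀ v ∈ KW, |(pos v).re - z.re| ≤ lam → (pos v).im < z.im) (hup : ∀ v ∈ KB, |(pos v).re - z.re| ≤ lam → z.im ≤ (pos v).im)
    {x0 x1 y0 y1 : ℝ} (hbox : ∀ v ∈ KB ∪ KW, x0 ≤ (pos v).re ∧ (pos v).re ≤ x1 ∧ y0 ≤ (pos v).im ∧ (pos v).im ≤ y1) :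
    ∃ N, 1 ≤ N ∧ pvasIt T s g.aIn N = g.aOut ∧ ∀ v ∈ T.VOf (pvasFc T s g.aIn N), x0 ≤ (pos v).re ∧ (pos v).re ≤ x1 ∧ y0 ≤ (pos v).im ∧ (pos v).im ≤ y1 := by
  obtain ⟨c, N, hfin, -, hcK, hN1, hNin, hNe⟩ := pvaz_trap hT G (pvtg_aIn_bw g) (pvtg_aOut_bw g) (KB := KB) (KW := KW)
    (by rw [pvtg_aIn_src, pvtg_aOut_src]; exact hB) hW z hlam (by rw [pvtg_aIn_src]; exact hm) (by rw [pvtg_aOut_src]; exact hp) hlo hup
  refine ⟨N, hN1, hNe, ?_⟩
  rintro v ⟨d, hd, rfl⟩
  exact pvaz_box hT G c hfin (fun w hw => hbox w (hcK hw)) ⟨d, pvas_fc_sub (pl_left_face c) hNin hd, rfl⟩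

/-! ## 4. through; the banks -/

/-- discrete intermediate value -/
theorem pvaz_ivt (f : ℕ → ℝ) {n : ℕ} {x lam : ℝ} (h0 : f 0 < x) (hn : x < f n) (hs : ∀ i, i < n → |f (i + 1) - f i| ≤ lam) : ∃ k, 0 < k ∧ k < n + 1 ∧ |f k - x| ≤ lam := by
  classical
  have hex : ∃ k, x ≤ f k := ⟨n, hn.le⟩
  have h1 := Nat.find_spec hex
  have h2 : Nat.find hex ≤ n := Nat.find_min' hex hn.le
  have h3 : 0 < Nat.find hex := by
    rcases Nat.eq_zero_or_pos (Nat.find hex) with e | e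
    · rw [e] at h1
      linarith
    · exact e
  have h4 : f (Nat.find hex - 1) < x := not_le.1 (Nat.find_min hex (by omega))
  have h5 := abs_le.1 (hs (Nat.find hex - 1) (by omega))
  rw [show Nat.find hex - 1 + 1 = Nat.find hex by omega] at h5
  exact ⟨Nat.find hex, h3, by omega, abs_le.2 ⟨by linarith, by linarith [h5.2]⟩⟩

/-- **INSIDE**: a black join of `g⁻` and `g⁺` every simple path of which has a vertex strictly inside is (contains) a join of the closed inside -/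
theorem pvaz_inside (hT : T.IsSph) {s : V → Bool} (g : T.Gate s) {X : Set V} (hX : ∀ v ∈ X, s v = true) (h : T.Join Set.univ X g.vm g.vp)
    (hcut : ∀ p : T.Pth, p.v 0 = g.vm → p.v p.n = g.vp → p.verts ⊆ X → ∃ k, k ≤ p.n ∧ p.v k ∈ T.Int g.c.Left) : T.Join g.c.Left X g.vm g.vp := by
  haveI : Nonempty D := ⟨g.c.e 0⟩
  obtain ⟨p, p0, p1, pX, -⟩ := pl_pth_of_join h
  obtain ⟨k, hk, hkI⟩ := hcut p p0 p1 pX
  have hdis := (pl_jordan_vert_disj hT g.c).1
  have hvm : g.vm ∈ g.c.verts := ⟨0, rfl⟩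
  have hvp : g.vp ∈ g.c.verts := ⟨g.m, rfl⟩
  have k0 : k ≠ 0 := fun e => Set.disjoint_left.1 hdis hvm (by rw [← p0, ← e]; exact hkI)
  have k1 : k ≠ p.n := fun e => Set.disjoint_left.1 hdis hvp (by rw [← p1, ← e]; exact hkI)
  -- an inner vertex of the closed disc is strictly inside
  have inn : ∀ j, 0 < j → j < p.n → p.v j ∈ T.VOf g.c.Left → p.v j ∈ T.Int g.c.Left := by
    intro j j0 j1 hj
    rw [pl_VOf_left hT g.c] at hj
    rcases hj with hj | hj
    · exfalso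
      rcases pvtg_black g hj (hX _ (pX ⟨j, j1.le, rfl⟩)) with e | e
      · have := p.inj j 0 j1.le (Nat.zero_le _) (e.trans p0.symm)
        omega
      · have := p.inj j p.n j1.le le_rfl (e.trans p1.symm)
        omega
    · exact hj
  have up : ∀ t, k + t < p.n → p.v (k + t) ∈ T.Int g.c.Left := by
    intro t
    induction t with
    | zero => intro _; exact hkI
    | succ t ih =>
      intro ht
      have h1 := ih (by omega)
      have h2 := (pl_int_edge hT g.c (d := p.e (k + t)) (by rw [p.src_e _ (by omega)]; exact h1)).2.2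
      rw [p.tgt_e _ (by omega)] at h2
      exact inn (k + t + 1) (by omega) ht h2
  have down : ∀ t, t < k → p.v (k - t) ∈ T.Int g.c.Left := by
    intro t
    induction t with
    | zero => intro _; exact hkI
    | succ t ih =>
      intro ht
      have h1 := ih (by omega)
      have h2 := (pl_int_edge hT g.c (d := T.opp (p.e (k - t - 1))) (by rw [T.src_opp', p.tgt_e _ (by omega), show k - t - 1 + 1 = k - t by omega]; exact h1)).2.2
      rw [T.tgt_opp, p.src_e _ (by omega)] at h2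
      exact inn (k - (t + 1)) (by omega) (by omega) h2
  have all : ∀ j, 0 < j → j < p.n → p.v j ∈ T.Int g.c.Left := by
    intro j j0 j1
    rcases Nat.le_total k j with hkj | hkj
    · obtain ⟨t, rfl⟩ := Nat.exists_eq_add_of_le hkj
      exact up t j1
    · have := down (k - j) (by omega)
      rwa [show k - (k - j) = j by omega] at this
  have hIn : p.In g.c.Left := by
    intro i hi
    rcases Nat.eq_zero_or_pos i with i0 | i0
    · right
      have h1 := all 1 (by omega) (by omega)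
      exact (pl_int_edge hT g.c (d := T.opp (p.e i)) (by rw [T.src_opp', p.tgt_e _ hi, i0]; exact h1)).1
    · left
      exact (pl_int_edge hT g.c (d := p.e i) (by rw [p.src_e _ hi]; exact all i i0 hi)).1
  have := pl_pth_join p hIn pX (Nat.zero_le _) (le_refl p.n)
  rwa [p0, p1] at this

/-- **THROUGH, BY POSITIONS**: the black line goes from the west of the slab to its east, its sites in the slab are strictly inside the gate -/
theorem pvaz_thru (hT : T.IsSph) {pos : V → ℂ} {s : V → Bool} (g : T.Gate s) (hfin : g.c.Left.Finite) {X : Set V} (hX : ∀ v ∈ X, s v = true) (h : T.Join Set.univ X g.vm g.vp)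
    {x lam : ℝ} (hlam : ∀ u v, u ∈ X → v ∈ X → T.Adj u v → |(pos v).re - (pos u).re| ≤ lam) (hm : (pos g.vm).re < x) (hp : x < (pos g.vp).re)
    (hslab : ∀ v ∈ X, |(pos v).re - x| ≤ lam → v ∈ T.Int g.c.Left) : g.Thru := by
  refine pvaq_thru hT g hfin (pl_hx_join_mono Set.Subset.rfl (fun v hv => hX v hv) (pvaz_inside hT g hX h fun p p0 p1 pX => ?_))
  obtain ⟨k, -, hk, hk'⟩ := pvaz_ivt (fun i => (pos (p.v i)).re) (n := p.n) (x := x) (lam := lam) (by show (pos (p.v 0)).re < x; rw [p0]; exact hm) (by show x < (pos (p.v p.n)).re; rw [p1]; exact hp)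
    (fun i hi => hlam _ _ (pX ⟨i, hi.le, rfl⟩) (pX ⟨i + 1, hi, rfl⟩) ⟨p.e i, p.src_e i hi, p.tgt_e i hi⟩)
  exact ⟨k, by omega, hslab _ (pX ⟨k, by omega, rfl⟩) hk'⟩

/-- the banks of a gate lie among the vertices of the faces crossed by any run from `aIn` to `aOut` -/
theorem pvaz_banks (hT : T.IsSph) {s : V → Bool} (g : T.Gate s) {N : ℕ} (hN : 1 ≤ N) (h : pvasIt T s g.aIn N = g.aOut) : g.bank ∪ g.wbank ⊆ T.VOf (pvasFc T s g.aIn N) := by
  have hle : g.len ≤ N := pvas_hit_le (by rw [h]; exact ((pvtg_out_iff hT g _).2 (Or.inl rfl)).1)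
  rw [pvas_fc_verts s g.aIn hN]
  exact Set.union_subset_union (pvas_layB_mono s g.aIn hle) (pvas_layW_mono s g.aIn hle)

/-- the circuit between the two round frames, in the form of 173 -/
theorem pvaz_in (hT : T.IsSph) {pos : V → ℂ} (G : PlGeo T pos) (c : T.Cyc) (hfin : c.Left.Finite) {z : ℂ} {a b μ : ℝ} (hb : 0 < b) (hz : z ∈ T.real pos c.Left)
    (hv : ∀ v ∈ c.verts, a + μ ≤ ‖pos v - z‖ ∧ ‖pos v - z‖ < b) (hμ : ∀ i, ‖pos (T.tgt (c.e i)) - pos (T.src (c.e i))‖ ≤ μ) :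
    PvzlIn T pos (Metric.ball z a) (Metric.ball z b) c := by
  obtain ⟨h1, h2⟩ := pvah_between_v hT G c hfin hb hz hv hμ
  have outer : ∀ d ∈ c.Left, pos (T.src d) ∈ Metric.ball z b := by
    intro d hd
    rw [Metric.mem_ball, dist_eq_norm]
    by_contra hc
    exact h2 hd (Or.inl (not_lt.1 hc))
  refine ⟨fun d hd => h1 ?_, outer, fun k => outer _ ((pl_jordan hT c).2.1 k)⟩
  rcases hd with h | h | h
  · exact Or.inl (by have := h; rwa [Metric.mem_ball, dist_eq_norm] at this)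
  · exact Or.inr (Or.inl (by have := h; rwa [Metric.mem_ball, dist_eq_norm] at this))
  · exact Or.inr (Or.inr (by have := h; rwa [Metric.mem_ball, dist_eq_norm] at this))

/-! ## 5. BLOCK C -/

section main

variable [DecidableEq V] {ι : Type} [Fintype ι]

/-- **THE LINKS OF ONE PLUG** in a net of 127 (`Tr/Adm` v2): `lw` upper half circuit (West half, East half), `lb` black connector (West half, East half), `dm dp` black lanes to the doors,
`(R1, C1)` lower half circuit, `(R2, C2)` TUBE LINE, `(R3, C3, Zm)`, `(R4, C4, Zp)` white lanes to the doors -/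
structure PvazLk {I : PvamIn T ι} (N : PvamNet I) where
  lw : PvamHalf I × PvamHalf I
  lb : PvamHalf I × PvamHalf I
  dm : PvamHalf I × PvamEnd I
  dp : PvamHalf I × PvamEnd I
  R1 : Set D
  R2 : Set D
  R3 : Set D
  R4 : Set D
  C1 : Set V
  C2 : Set V
  C3 : Set V
  C4 : Set V
  Zm : Set V
  Zp : Set V
  hlw : lw ∈ N.wl
  hlb : lb ∈ N.bl
  hdm : dm ∈ N.bd
  hdp : dp ∈ N.bd
  b1 : lb.1.i = lw.1.i
  b2 : lb.2.i = lw.2.i
  d1 : dm.1.i = lw.1.i
  d2 : dp.1.i = lw.2.i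
  h1 : (lw.1.i, lw.2.i, R1, C1) ∈ N.xl
  h2 : (lw.1.i, lw.2.i, R2, C2) ∈ N.xl
  h3 : (lw.1.i, R3, C3, Zm) ∈ N.xd
  h4 : (lw.2.i, R4, C4, Zp) ∈ N.xd

namespace PvazLk

variable {I : PvamIn T ι} {N : PvamNet I} (K : PvazLk N)

/-- the vertices of the closed disc of the West quad -/
def Vm : Set V := T.VOf (I.Q K.lw.1.i).c.Left
/-- the vertices of the closed disc of the East quad -/
def Vp : Set V := T.VOf (I.Q K.lw.2.i).c.Left
/-- the class of the upper arc -/
def Kup : Set V := K.lw.1.K ∪ K.lw.2.K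
/-- the class of the black connector -/
def Kbk : Set V := K.lb.1.K ∪ K.lb.2.K

/-- **WHAT THE POSITIONS OWE**      (centre `z`, annulus `a < b`, mesh `μ`, box of the tube `[x0,x1] × [y0,y1]`; SLAB = `|re - z.re| ≤ μ`) -/
structure Pos (pos : V → ℂ) (z : ℂ) (a b μ x0 x1 y0 y1 : ℝ) : Prop where
  b0 : 0 < b
  /-- the edges between the sites of the classes of the gate and of the tube are short -/
  mesh : ∀ u v, u ∈ K.Vm ∪ K.Vp ∪ K.C1 ∪ K.C2 ∪ K.Kup ∪ K.Kbk → v ∈ K.Vm ∪ K.Vp ∪ K.C1 ∪ K.C2 ∪ K.Kup ∪ K.Kbk → T.Adj u v → ‖pos v - pos u‖ ≤ μ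
  /-- the two arcs of the gate run in the annulus -/
  ann : ∀ v ∈ K.Vm ∪ K.Vp ∪ K.C1 ∪ K.Kup, a + μ ≤ ‖pos v - z‖ ∧ ‖pos v - z‖ < b
  west : ∀ v ∈ K.Vm, (pos v).re < z.re - μ
  east : ∀ v ∈ K.Vp, z.re + μ < (pos v).re
  /-- in the slab the lower arc and the tube line are below the centre -/
  lo : ∀ v ∈ K.C1 ∪ K.C2, |(pos v).re - z.re| ≤ μ → (pos v).im < z.im
  /-- in the slab the upper arc and the black line are not below the centre -/
  up : ∀ v ∈ K.Kup ∪ K.Kbk, |(pos v).re - z.re| ≤ μ → z.im ≤ (pos v).im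
  /-- in the slab the black line is in the inner disc -/
  ctr : ∀ v ∈ K.Kbk, |(pos v).re - z.re| ≤ μ → ‖pos v - z‖ < a
  box : ∀ v ∈ K.Vm ∪ K.Vp ∪ K.C2 ∪ K.Kbk, x0 ≤ (pos v).re ∧ (pos v).re ≤ x1 ∧ y0 ≤ (pos v).im ∧ (pos v).im ≤ y1

end PvazLk

theorem pvaz_eqns_cite : True := by
  have := @PvazLk.Vm.eq_1; have := @PvazLk.Vp.eq_1; have := @PvazLk.Kup.eq_1; have := @PvazLk.Kbk.eq_1
  trivial

/-- **BLOCK C**: the output of the net gives the EXPLICIT gate `g₀` between the frames, through, with its banks in the box, its feet in the two quads, and the four lanes from its feet      (= the hypotheses of `pvzt_record` of 259) -/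
theorem pvaz_main {I : PvamIn T ι} {N : PvamNet I} (K : PvazLk N) {pos : V → ℂ} (G : PlGeo T pos) {z : ℂ} {a b μ x0 x1 y0 y1 : ℝ} (P : K.Pos pos z a b μ x0 x1 y0 y1)
    {σ : V → Bool} (h : N.Out σ) :
    ∃ g : T.Gate σ, g.c.Left.Finite ∧ PvzlIn T pos (Metric.ball z a) (Metric.ball z b) g.c ∧ g.Thru ∧
      g.vm ∈ K.Vm ∧ T.tgt g.aIn ∈ K.Vm ∧ g.vp ∈ K.Vp ∧ T.tgt g.aOut ∈ K.Vp ∧
      (∀ v ∈ g.bank ∪ g.wbank, x0 ≤ (pos v).re ∧ (pos v).re ≤ x1 ∧ y0 ≤ (pos v).im ∧ (pos v).im ≤ y1) ∧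
      (∃ t ∈ K.dp.2.Z, T.Join Set.univ (pvldCol σ (K.Vp ∪ (K.dp.1.K ∪ K.dp.2.K)) true) g.vp t) ∧ (∃ t ∈ K.Zp, T.Join Set.univ (pvldCol σ (K.Vp ∪ K.C4) false) (T.tgt g.aOut) t) ∧
      (∃ t ∈ K.dm.2.Z, T.Join Set.univ (pvldCol σ (K.Vm ∪ (K.dm.1.K ∪ K.dm.2.K)) true) g.vm t) ∧ (∃ t ∈ K.Zm, T.Join Set.univ (pvldCol σ (K.Vm ∪ K.C3) false) (T.tgt g.aIn) t) := by
  have hT := I.sph
  obtain ⟨u, u', w, w', hu, -, hu', -, hwu, hwu', hww⟩ := pvam_out_wl N h K.hlw
  obtain ⟨s, hs⟩ := pvam_out_foot N h hu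
  obtain ⟨s', hs'⟩ := pvam_out_foot N h hu'
  have j1 := pvam_out_xl N h K.h1 hs hs'
  have j2 := pvam_out_xl N h K.h2 hs hs'
  have jb := pvam_out_black N h K.hlb (u := u) (u' := u') (by rw [K.b1]; exact hu) (by rw [K.b2]; exact hu')
  rw [K.b1, K.b2] at jb
  obtain ⟨tE, htE, jE⟩ := pvam_out_bdoor N h K.hdp (u := u') (by rw [K.d2]; exact hu')
  rw [K.d2] at jE
  obtain ⟨tW, htW, jW⟩ := pvam_out_bdoor N h K.hdm (u := u) (by rw [K.d1]; exact hu)
  rw [K.d1] at jW
  obtain ⟨tE', htE', jE'⟩ := pvam_out_xd N h K.h4 hs'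
  obtain ⟨tW', htW', jW'⟩ := pvam_out_xd N h K.h3 hs
  -- membership in the closed discs
  have lowm : (I.Q K.lw.1.i).Low (pvamB σ) ⊆ K.Vm := fun v hv => pvam_ex_VOf hT _ _ (Or.inr hv)
  have lowp : (I.Q K.lw.2.i).Low (pvamB σ) ⊆ K.Vp := fun v hv => pvam_ex_VOf hT _ _ (Or.inr hv)
  have seam : (I.Q K.lw.1.i).Sea (pvamB σ) ⊆ K.Vm := fun v hv => pvam_ex_VOf hT _ _ (Or.inl hv)
  have seap : (I.Q K.lw.2.i).Sea (pvamB σ) ⊆ K.Vp := fun v hv => pvam_ex_VOf hT _ _ (Or.inl hv)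
  have lowb : ∀ i, ∀ v ∈ (I.Q i).Low (pvamB σ), σ v = true := fun i v hv => (pl_qd_low_sub (I.Q i) (pvamB σ) hv : v ∈ pvamB σ)
  have seaw : ∀ i, ∀ v ∈ (I.Q i).Sea (pvamB σ), σ v = false := fun i v hv => (pvam_sea_Wx I σ i hv).2
  have huV : u ∈ K.Vm := lowm hu.1
  have huV' : u' ∈ K.Vp := lowp hu'.1
  have hsV : s ∈ K.Vm := seam hs.1
  have hsV' : s' ∈ K.Vp := seap hs'.1
  have hμ0 : 0 ≤ μ := (norm_nonneg _).trans (P.mesh s u (by simp [hsV]) (by simp [huV]) (pl_hx_edgeIn_adj hs.2.1))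
  have hne : u ≠ u' := by
    intro e
    have h1 := P.west u huV
    have h2 := P.east u' huV'
    rw [← e] at h2
    linarith
  have eU : ∀ {A : Set D} {x y : V}, T.EdgeIn A x y → T.EdgeIn Set.univ x y := fun hxy => pvam_og_edge_mono (Set.subset_univ _) hxy
  haveI : Nonempty D := ⟨(I.Q K.lw.1.i).c.e 0⟩
  -- the gate
  obtain ⟨g, gvm, gvp, gin, gout, -, -, gR, gL, -⟩ := pvaz_gate (T := T) (s := σ) (A := Set.univ) (lowb _ u hu.1) (lowb _ u' hu'.1) hne
    (R := (I.Q K.lw.1.i).Sea (pvamB σ) ∪ (I.Wx σ ∩ K.C1) ∪ (I.Q K.lw.2.i).Sea (pvamB σ)) (L := I.Fs (K.lw.1.K ∪ K.lw.2.K) false σ)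
    (by
      rintro v ((hv | hv) | hv)
      · exact seaw _ v hv
      · exact hv.1.2
      · exact seaw _ v hv)
    (fun v hv => hv.2.2)
    (by
      rw [Set.disjoint_left]
      rintro v hv hv'
      refine hv'.2.1 ?_
      rcases hv with (hv | hv) | hv
      · exact (pvam_sea_Wx I σ _ hv).1
      · exact hv.1.1
      · exact (pvam_sea_Wx I σ _ hv).1)
    (eU (pl_hx_edgeIn_symm hs.2.1)) (pl_hx_join_mono (Set.subset_univ _) Set.Subset.rfl j1) (eU hs'.2.1)
    (eU (pl_hx_edgeIn_symm hwu')) (pl_hx_join_mono (Set.subset_univ _) Set.Subset.rfl (pl_hx_join_symm hww)) (eU hwu)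
  -- the vertices of the circuit
  have hR' : ∀ v ∈ g.R, v ∈ K.Vm ∪ K.Vp ∪ K.C1 := by
    intro v hv
    rcases gR hv with (h1 | h1) | h1
    · exact Or.inl (Or.inl (seam h1))
    · exact Or.inr h1.2
    · exact Or.inl (Or.inr (seap h1))
  have hL' : ∀ v ∈ g.L, v ∈ K.Kup := fun v hv => (gL hv).1
  have hverts : ∀ v ∈ g.c.verts, v ∈ K.Vm ∪ K.Vp ∪ K.C1 ∪ K.Kup := by
    intro v hv
    rcases (pvtg_verts g v).1 hv with e | e | e | e
    · rw [e, gvm]; exact Or.inl (Or.inl (Or.inl huV))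
    · rw [e, gvp]; exact Or.inl (Or.inl (Or.inr huV'))
    · exact Or.inl (hR' v e)
    · exact Or.inr (hL' v e)
  have big : K.Vm ∪ K.Vp ∪ K.C1 ∪ K.Kup ⊆ K.Vm ∪ K.Vp ∪ K.C1 ∪ K.C2 ∪ K.Kup ∪ K.Kbk := by
    rintro v (((h1 | h1) | h1) | h1)
    · exact Or.inl (Or.inl (Or.inl (Or.inl (Or.inl h1))))
    · exact Or.inl (Or.inl (Or.inl (Or.inl (Or.inr h1))))
    · exact Or.inl (Or.inl (Or.inl (Or.inr h1)))
    · exact Or.inl (Or.inr h1)
  have hedge : ∀ i, ‖pos (T.src (g.c.e (i + 1))) - pos (T.src (g.c.e i))‖ ≤ μ := fun i =>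
    P.mesh _ _ (big (hverts _ ⟨i, rfl⟩)) (big (hverts _ ⟨i + 1, rfl⟩)) ⟨g.c.e i, rfl, g.c.chain i⟩
  have rele : ∀ x y : ℂ, |y.re - x.re| ≤ ‖y - x‖ := fun x y => by rw [← Complex.sub_re]; exact Complex.abs_re_le_norm _
  have slabm : ∀ v ∈ K.Vm, ¬ |(pos v).re - z.re| ≤ μ := fun v hv hs => by
    have h1 := P.west v hv
    have h2 := (abs_le.1 hs).1
    linarith
  have slabp : ∀ v ∈ K.Vp, ¬ |(pos v).re - z.re| ≤ μ := fun v hv hs => by
    have h1 := P.east v hv
    have h2 := (abs_le.1 hs).2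
    linarith
  have hmn : g.m ≤ g.c.n := by have := g.hmn; omega
  have e0 : T.src (g.c.e 0) = u := gvm
  have em : T.src (g.c.e g.m) = u' := gvp
  -- orientation
  obtain ⟨hfin, hz⟩ := pvaz_orient hT G g.c hmn z (lam := μ) (fun i => (rele _ _).trans (hedge i))
    (by rw [e0]; have := P.west _ huV; linarith) (by rw [em]; have := P.east _ huV'; linarith)
    (fun i hi hs => by
      rcases Nat.eq_zero_or_pos i with i0 | i0
      · rw [i0, e0] at hs
        exact absurd hs (slabm u huV)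
      · rcases Nat.lt_or_ge i g.m with i1 | i1
        · rcases hR' _ ⟨i, i0, i1, rfl⟩ with (h1 | h1) | h1
          · exact absurd hs (slabm _ h1)
          · exact absurd hs (slabp _ h1)
          · exact P.lo _ (Or.inl h1) hs
        · have : i = g.m := by omega
          rw [this, em] at hs
          exact absurd hs (slabp u' huV'))
    (fun i hi1 hi2 hs => by
      rcases Nat.eq_or_lt_of_le hi1 with i0 | i0
      · rw [← i0, em] at hs
        exact absurd hs (slabp u' huV')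
      · rcases Nat.lt_or_ge i g.c.n with i1 | i1
        · exact P.up _ (Or.inl (hL' _ ⟨i, i0, i1, rfl⟩)) hs
        · have : i = 0 + g.c.n := by omega
          rw [this, g.c.per 0, e0] at hs
          exact absurd hs (slabm u huV))
  have hIn := pvaz_in hT G g.c hfin P.b0 hz (fun v hv => P.ann v (hverts v hv)) (fun i => by rw [g.c.chain i]; exact hedge i)
  have hInt : ∀ v, ‖pos v - z‖ < a → v ∈ T.Int g.c.Left := fun v hv d hd =>
    hIn.inner (Or.inl (show pos (T.src d) ∈ Metric.ball z a by rw [hd, Metric.mem_ball, dist_eq_norm]; exact hv))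
  -- the black line
  have hXB : ∀ v ∈ (I.Q K.lw.1.i).Low (pvamB σ) ∪ I.Fs (K.lb.1.K ∪ K.lb.2.K) true σ ∪ (I.Q K.lw.2.i).Low (pvamB σ), v ∈ K.Vm ∪ K.Kbk ∪ K.Vp ∧ σ v = true := by
    rintro v ((hv | hv) | hv)
    · exact ⟨Or.inl (Or.inl (lowm hv)), lowb _ v hv⟩
    · exact ⟨Or.inl (Or.inr hv.1), hv.2.2⟩
    · exact ⟨Or.inr (lowp hv), lowb _ v hv⟩
  have hB : T.Join Set.univ {v | v ∈ K.Vm ∪ K.Kbk ∪ K.Vp ∧ σ v = true} g.vm g.vp := by
    rw [gvm, gvp]
    exact pl_hx_join_mono (Set.subset_univ _) hXB jb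
  have bigB : K.Vm ∪ K.Kbk ∪ K.Vp ⊆ K.Vm ∪ K.Vp ∪ K.C1 ∪ K.C2 ∪ K.Kup ∪ K.Kbk := by
    rintro v ((h1 | h1) | h1)
    · exact Or.inl (Or.inl (Or.inl (Or.inl (Or.inl h1))))
    · exact Or.inr h1
    · exact Or.inl (Or.inl (Or.inl (Or.inl (Or.inr h1))))
  have bigW : K.Vm ∪ K.C2 ∪ K.Vp ⊆ K.Vm ∪ K.Vp ∪ K.C1 ∪ K.C2 ∪ K.Kup ∪ K.Kbk := by
    rintro v ((h1 | h1) | h1)
    · exact Or.inl (Or.inl (Or.inl (Or.inl (Or.inl h1))))
    · exact Or.inl (Or.inl (Or.inr h1))
    · exact Or.inl (Or.inl (Or.inl (Or.inl (Or.inr h1))))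
  have hthru : g.Thru := by
    refine pvaz_thru hT (pos := pos) g hfin (X := {v | v ∈ K.Vm ∪ K.Kbk ∪ K.Vp ∧ σ v = true}) (fun v hv => hv.2) hB (x := z.re) (lam := μ)
      (fun x y hx hy hxy => (rele _ _).trans (P.mesh x y (bigB hx.1) (bigB hy.1) hxy)) ?_ ?_ ?_
    · rw [gvm]; have := P.west _ huV; linarith
    · rw [gvp]; have := P.east _ huV'; linarith
    · rintro v ⟨(h1 | h1) | h1, -⟩ hs
      · exact absurd hs (slabm _ h1)
      · exact hInt v (P.ctr v h1 hs)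
      · exact absurd hs (slabp _ h1)
  -- the tube line
  have hW : T.Join Set.univ {v | v ∈ K.Vm ∪ K.C2 ∪ K.Vp ∧ σ v = false} (T.tgt g.aIn) (T.tgt g.aOut) := by
    rw [gin, gout]
    refine pl_hx_join_mono (Set.subset_univ _) ?_ j2
    rintro v ((hv | hv) | hv)
    · exact ⟨Or.inl (Or.inl (seam hv)), seaw _ v hv⟩
    · exact ⟨Or.inl (Or.inr hv.2), hv.1.2⟩
    · exact ⟨Or.inr (seap hv), seaw _ v hv⟩
  obtain ⟨n, hn1, hne', hnbox⟩ := pvaz_gate_run hT G g hB hW z (lam := μ) (x0 := x0) (x1 := x1) (y0 := y0) (y1 := y1)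
    (fun x y hx hy hxy => (rele _ _).trans (P.mesh x y (hx.elim (fun q => bigB q) (fun q => bigW q)) (hy.elim (fun q => bigB q) (fun q => bigW q)) hxy))
    (by rw [gvm]; exact P.west _ huV) (by rw [gvp]; exact P.east _ huV')
    (by
      rintro v ((h1 | h1) | h1) hs
      · exact absurd hs (slabm _ h1)
      · exact P.lo v (Or.inr h1) hs
      · exact absurd hs (slabp _ h1))
    (by
      rintro v ((h1 | h1) | h1) hs
      · exact absurd hs (slabm _ h1)
      · exact P.up v (Or.inr h1) hs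
      · exact absurd hs (slabp _ h1))
    (by
      rintro v (((h1 | h1) | h1) | ((h1 | h1) | h1))
      · exact P.box v (Or.inl (Or.inl (Or.inl h1)))
      · exact P.box v (Or.inr h1)
      · exact P.box v (Or.inl (Or.inl (Or.inr h1)))
      · exact P.box v (Or.inl (Or.inl (Or.inl h1)))
      · exact P.box v (Or.inl (Or.inr h1))
      · exact P.box v (Or.inl (Or.inl (Or.inr h1))))
  refine ⟨g, hfin, hIn, hthru, gvm ▸ huV, gin ▸ hsV, gvp ▸ huV', gout ▸ hsV', fun v hv => hnbox v (pvaz_banks hT g hn1 hne' hv), ⟨tE, htE, ?_⟩, ⟨tE', htE', ?_⟩, ⟨tW, htW, ?_⟩, ⟨tW', htW', ?_⟩⟩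
  · rw [gvp]
    refine pl_hx_join_mono (Set.subset_univ _) ?_ jE
    rintro v (hv | hv)
    · exact ⟨Or.inl (lowp hv), lowb _ v hv⟩
    · exact ⟨Or.inr hv.1, hv.2.2⟩
  · rw [gout]
    refine pl_hx_join_mono (Set.subset_univ _) ?_ jE'
    rintro v (hv | hv)
    · exact ⟨Or.inl (seap hv), seaw _ v hv⟩
    · exact ⟨Or.inr hv.2, hv.1.2⟩
  · rw [gvm]
    refine pl_hx_join_mono (Set.subset_univ _) ?_ jW
    rintro v (hv | hv)
    · exact ⟨Or.inl (lowm hv), lowb _ v hv⟩
    · exact ⟨Or.inr hv.1, hv.2.2⟩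
  · rw [gin]
    refine pl_hx_join_mono (Set.subset_univ _) ?_ jW'
    rintro v (hv | hv)
    · exact ⟨Or.inl (seam hv), seaw _ v hv⟩
    · exact ⟨Or.inr hv.2, hv.1.2⟩

end main

end Claimed.Agent.R289
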