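-- KEEP
import Claimed.Agent.R289.Pl.Path
import Claimed.Agent.R289.Pl.Rim
import Claimed.Agent.R289.Pl.RimC

/-!
# Row 289 (S0537), TR-blueprint chapter B, file Tr/Nb : ARC EVENTS `B_g`, `NB_g^U`, and TR11 ACT, TR12 UNIQ, TR13 CLOSE      (helper105; prefix `pvnb_`)

Sources: origin/helper295:notes/R289/TR_295.md (DEF B1, TR11-TR13), origin/helper6:notes/R289/W2c_6.md (sec.1 objects, D1, D5).   NO wall step, NO loop erasure, NO white circuit in this file.

* sec.1  `T.OSec x y` = OPEN SECTOR at a vertex: the darts met when turning counterclockwise (`rot`) from `x`, before `y`.   `pvnb_sec_cyc`: the sector from `opp (c.e i)` to `c.e (i+1)` = the darts at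
         `x_(i+1)` whose two faces are on the right of the cycle.
* sec.2  `g.RS a0 a1 k` (right darts of the path `g` at its vertex number `k`; `a0`, `a1` = GATE DARTS at the two ends), `g.Byp a0 a1 X` (right bypass through the vertex set `X`),
         `g.NB s b U a0 a1` = `NB_g^U` for the colour `b`, `g.Col s b` = `B_g`.   Monotonicity / locality for Harris: `pvnb_nb_anti`, `pvnb_nb_decr`, `pvnb_nb_congr`.
* sec.3  **TR11 ACT** `pvnb_act`: an arc of a rim has `NB^U` for every `U`.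
* sec.4  FREE CELLS: `Z.FCell s b m`: the cycle `Z` = black path `x_0 .. x_m` + white path `x_(m+1) .. x_(n-1)`; the cell is `Z.Right`.   `Z.NoXc s b m`: no black excursion through `Int Z.Right`
         between two distinct black vertices of `Z`.   `pvnb_noexc_of_nb`: `NB^U`, `VOf Z.Right ⊆ U` gives `NoXc`.   `pvnb_region` (D5(b)): how to get `VOf Z.Right ⊆ U`.
* sec.5  CELLS OF A CYCLE `π.Cell s Z i m`; `pvnb_cell_sub` (D5(a)): `Z.Right ⊆ π.Right`, `π.Left ⊆ Z.Left`;  `pvnb_cell_side` (how to get the field `side`).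
* sec.6  **TR13 CLOSE** `pvnb_close_nb` (no right bypass of `π`), `pvnb_close` (`π.IsRim s`, through `pl_rim_conv` of helper113, Pl/RimC).
* sec.7  **TR12 UNIQ** `pvnb_uniq`: two free cells with the same white part and `NoXc` are equal.
-/

set_option autoImplicit false

namespace Claimed.Agent.R289

open Relation

variable {V D : Type} {T : PvMap V D}

/-! ## 1. Sectors -/

/-- OPEN SECTOR from `x` to `y` (counterclockwise): `rot^[j] x`, `0 < j`, before the first visit of `y` -/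
def PvMap.OSec (T : PvMap V D) (x y : D) : Set D := {d | ∃ j, 0 < j ∧ T.rot^[j] x = d ∧ ∀ i, 0 < i → i ≤ j → T.rot^[i] x ≠ y}

theorem pvnb_sec_src {x y d : D} (h : d ∈ T.OSec x y) : T.src d = T.src x := by
  obtain ⟨j, -, rfl, -⟩ := h
  exact T.src_rot_iter j x

theorem pvnb_sec_sub_left {x y a : D} (ha : a ∈ T.OSec x y) : T.OSec a y ⊆ T.OSec x y := by
  obtain ⟨J, hJ, rfl, hJy⟩ := ha
  rintro d ⟨j, hj, rfl, hjy⟩
  refine ⟨j + J, by omega, Function.iterate_add_apply _ _ _ _, fun i hi hij => ?_⟩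
  by_cases h : i ≤ J
  · exact hJy i hi h
  · have := hjy (i - J) (by omega) (by omega)
    rwa [← Function.iterate_add_apply, Nat.sub_add_cancel (by omega)] at this

theorem pvnb_sec_sub_right {x y a : D} (ha : a ∈ T.OSec x y) : T.OSec x a ⊆ T.OSec x y := by
  obtain ⟨J, hJ, rfl, hJy⟩ := ha
  rintro d ⟨j, hj, rfl, hjy⟩
  refine ⟨j, hj, rfl, fun i hi hij => ?_⟩
  by_cases h : i ≤ J
  · exact hJy i hi h
  · exact absurd rfl (hjy J hJ (by omega))

/-- the right sector of a cycle at `x_(i+1)` -/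
theorem pvnb_sec_cyc (hT : T.IsSph) (c : T.Cyc) (i : ℕ) (d : D) :
    d ∈ T.OSec (T.opp (c.e i)) (c.e (i + 1)) ↔ T.src d = T.src (c.e (i + 1)) ∧ d ∉ c.Left ∧ T.opp d ∉ c.Left := by
  obtain ⟨hR, hL, hRo, hbd⟩ := pl_jordan hT c
  have hsrc : T.src (T.opp (c.e i)) = T.src (c.e (i + 1)) := by rw [T.src_opp', c.chain]
  have hxL : T.opp (c.e i) ∉ c.Left := by
    have := hRo i
    rw [hR] at this
    exact this
  obtain ⟨K, hK, hKy, hKne, hKA⟩ := pl_sector_aux hT (pl_left_face c) (x := T.opp (c.e i)) (y := c.e (i + 1)) (pl_cyc_ne_opp c _ _).symm hsrc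
    (fun d hd hb => (pl_cyc_at c i (hd.trans hsrc) (pl_left_bd_sub c hb)).symm)
  obtain ⟨K2, hK2, hK2x, -, hK2L⟩ := pl_cyc_sector hT c i
  constructor
  · rintro ⟨j, hj, rfl, hjy⟩
    have hjK : j < K := by
      by_contra h
      exact hjy K hK (by omega) hKy
    have h1 : T.rot^[j] (T.opp (c.e i)) ∉ c.Left := fun h => hxL ((hKA j hjK).1 h)
    have hs : T.src (T.rot^[j] (T.opp (c.e i))) = T.src (c.e (i + 1)) := by rw [T.src_rot_iter, hsrc]
    refine ⟨hs, h1, fun h2 => ?_⟩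
    have hb : T.Bd c.Left (T.rot^[j] (T.opp (c.e i))) := fun h => h1 (h.2 h2)
    rcases pl_cyc_at c i hs (pl_left_bd_sub c hb) with h | h
    · exact (hKne j hj hjK).2 h
    · exact (hKne j hj hjK).1 h
  · rintro ⟨hs, h1, h2⟩
    obtain ⟨n, hn⟩ := hT.link (T.opp (c.e i)) d (hsrc.trans hs.symm)
    have hper : Function.IsPeriodicPt T.rot (K2 + K) (T.opp (c.e i)) := by
      show T.rot^[K2 + K] _ = _
      rw [Function.iterate_add_apply, hKy, hK2x]
    have hn' := hper.iterate_mod_apply n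
    rw [hn] at hn'
    have hlt : n % (K2 + K) < K2 + K := Nat.mod_lt _ (by omega)
    set r := n % (K2 + K) with hr
    by_cases h0 : r = 0
    · rw [h0] at hn'
      exact absurd (by rw [← hn']; show T.opp (T.opp (c.e i)) ∈ _; rw [T.opp_opp]; exact hL i) h2
    by_cases hrK : r < K
    · exact ⟨r, by omega, hn', fun i' hi' hi'r => (hKne i' hi' (by omega)).2⟩
    · exfalso
      apply h1
      rw [hK2L d hs]
      refine ⟨r - K, by omega, ?_⟩
      rw [← hKy, ← Function.iterate_add_apply, Nat.sub_add_cancel (by omega), hn']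

/-! ## 2. Arc events -/

/-- `B_g` for the colour `b` -/
def PvMap.Pth.Col (g : T.Pth) (s : V → Bool) (b : Bool) : Prop := ∀ k, k ≤ g.n → s (g.v k) = b

/-- right darts of `g` at its vertex number `k` (`k ≤ g.n`); `a0`, `a1` = reference (gate) darts at the first and at the last vertex -/
def PvMap.Pth.RS (g : T.Pth) (a0 a1 : D) (k : ℕ) : Set D :=
  T.OSec (if k = 0 then a0 else T.opp (g.e (k - 1))) (if k = g.n then a1 else g.e k)

/-- RIGHT BYPASS of `g` through `X`: a walk `g_k, u_1, .., u_r, g_l` (`r ≥ 0`, `k ≠ l`), first dart in the right sector at `g_k`, all `u_i ∈ X` -/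
def PvMap.Pth.Byp (g : T.Pth) (a0 a1 : D) (X : Set V) : Prop :=
  ∃ k l, k ≤ g.n ∧ l ≤ g.n ∧ k ≠ l ∧ ∃ d ∈ g.RS a0 a1 k, ReflTransGen (fun x y => T.Adj x y ∧ x ∈ X) (T.tgt d) (g.v l)

/-- `NB_g^U` for the colour `b` -/
def PvMap.Pth.NB (g : T.Pth) (s : V → Bool) (b : Bool) (U : Set V) (a0 a1 : D) : Prop :=
  ¬ g.Byp a0 a1 {v | v ∈ U ∧ v ∉ g.verts ∧ s v = b}

theorem pvnb_eqns_cite : True := by
  have := @PvMap.OSec.eq_1
  have := @PvMap.Pth.Col.eq_1
  have := @PvMap.Pth.RS.eq_1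
  have := @PvMap.Pth.Byp.eq_1
  have := @PvMap.Pth.NB.eq_1
  trivial

theorem pvnb_byp_mono {g : T.Pth} {a0 a1 : D} {X X' : Set V} (hX : X ⊆ X') (h : g.Byp a0 a1 X) : g.Byp a0 a1 X' := by
  obtain ⟨k, l, hk, hl, hkl, d, hd, hw⟩ := h
  exact ⟨k, l, hk, hl, hkl, d, hd, ReflTransGen.mono (fun x y hxy => ⟨hxy.1, hX hxy.2⟩) _ _ hw⟩

/-- `NB^U` is antitone in `U` -/
theorem pvnb_nb_anti {g : T.Pth} {s : V → Bool} {b : Bool} {U U' : Set V} {a0 a1 : D} (hU : U ⊆ U') (h : g.NB s b U' a0 a1) : g.NB s b U a0 a1 :=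
  fun hb => h (pvnb_byp_mono (fun _ hv => ⟨hU hv.1, hv.2⟩) hb)

/-- `NB^U` is decreasing in the set of sites of colour `b` in `U \ V(g)` -/
theorem pvnb_nb_decr {g : T.Pth} {s s' : V → Bool} {b : Bool} {U : Set V} {a0 a1 : D} (hs : ∀ v ∈ U, v ∉ g.verts → s' v = b → s v = b)
    (h : g.NB s b U a0 a1) : g.NB s' b U a0 a1 :=
  fun hb => h (pvnb_byp_mono (fun v hv => ⟨hv.1, hv.2.1, hs v hv.1 hv.2.1 hv.2.2⟩) hb)

/-- `NB^U` reads the colours of `U \ V(g)` only -/
theorem pvnb_nb_congr {g : T.Pth} {s s' : V → Bool} {b : Bool} {U : Set V} {a0 a1 : D} (hs : ∀ v ∈ U, v ∉ g.verts → s' v = s v) :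
    g.NB s b U a0 a1 ↔ g.NB s' b U a0 a1 :=
  ⟨pvnb_nb_decr fun v hv hg h => by rw [← hs v hv hg]; exact h, pvnb_nb_decr fun v hv hg h => by rw [hs v hv hg]; exact h⟩

/-! ## 3. TR11 ACT -/

/-- **TR11 (ACT)** = D1 of helper6: an arc `g` of a rim `c` (`g.e k = c.e (i + k)`), gate darts in the right sectors of `c` at the two ends: `NB_g^U` for EVERY `U` -/
theorem pvnb_act (hT : T.IsSph) {c : T.Cyc} {s : V → Bool} (h : c.IsRim s) {g : T.Pth} {i : ℕ} (hn : 0 < g.n) (hg : ∀ k, k < g.n → g.e k = c.e (i + k))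
    {a0 a1 : D} (h0 : T.src a0 = g.v 0 ∧ a0 ∉ c.Left ∧ T.opp a0 ∉ c.Left) (h1 : T.src a1 = g.v g.n ∧ a1 ∉ c.Left ∧ T.opp a1 ∉ c.Left) (U : Set V) :
    g.Col s (s (T.src (c.e 0))) ∧ g.NB s (s (T.src (c.e 0))) U a0 a1 := by
  obtain ⟨hR, hL, hRo, hB⟩ := pl_jordan hT c
  have hv : ∀ k, k ≤ g.n → g.v k = T.src (c.e (i + k)) := by
    intro k hk
    rcases Nat.lt_or_ge k g.n with hlt | hge
    · rw [← g.src_e k hlt, hg k hlt]
    · obtain ⟨r, hr⟩ : ∃ r, g.n = r + 1 := ⟨g.n - 1, by omega⟩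
      have hkr : k = r + 1 := by omega
      subst hkr
      rw [← g.tgt_e r (by omega), hg r (by omega), c.chain]
      rfl
  have hcol : g.Col s (s (T.src (c.e 0))) := by
    intro k hk
    rw [hv k hk]
    exact pl_rim_col h _ _
  refine ⟨hcol, ?_⟩
  rintro ⟨k, l, hk, hl, hkl, d, hd, hw⟩
  -- the first dart is on the right
  have hdR : T.src d = g.v k ∧ d ∉ c.Left ∧ T.opp d ∉ c.Left := by
    obtain ⟨p, hp⟩ : ∃ p, c.e (p + 1) = c.e (i + k) ∧ (0 < k → p + 1 = i + k) := by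
      rcases Nat.eq_zero_or_pos k with h0 | h0
      · refine ⟨i + k + c.n - 1, ?_, fun h => absurd h0 (by omega)⟩
        have : i + k + c.n - 1 + 1 = i + k + c.n := by have := pl_cyc_pos c; omega
        rw [this, c.per]
      · exact ⟨i + k - 1, by rw [show i + k - 1 + 1 = i + k by omega], fun _ => by omega⟩
    have hsec : d ∈ T.OSec (T.opp (c.e p)) (c.e (p + 1)) := by
      unfold PvMap.Pth.RS at hd
      by_cases hk0 : k = 0
      · subst hk0
        rw [if_pos rfl, if_neg (by omega), hg 0 hn, ← hp.1] at hd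
        refine pvnb_sec_sub_left ?_ hd
        rw [pvnb_sec_cyc hT c p a0, hp.1, ← hv 0 (Nat.zero_le _)]
        exact h0
      · have hp2 := hp.2 (Nat.pos_of_ne_zero hk0)
        have hp3 : i + (k - 1) = p := by omega
        rw [if_neg hk0, hg (k - 1) (by omega), hp3] at hd
        by_cases hkn : k = g.n
        · rw [if_pos hkn] at hd
          refine pvnb_sec_sub_right ?_ hd
          rw [pvnb_sec_cyc hT c p a1, hp.1, ← hv k hk, hkn]
          exact h1
        · rw [if_neg hkn, hg k (by omega), ← hp2] at hd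
          exact hd
    have := (pvnb_sec_cyc hT c p d).1 hsec
    rw [hp.1, ← hv k hk] at this
    exact this
  have hkc : g.v k ∈ c.verts := ⟨i + k, (hv k hk).symm⟩
  have hlc : g.v l ∈ c.verts := ⟨i + l, (hv l hl).symm⟩
  have key : ∀ y, ReflTransGen (fun x y => T.Adj x y ∧ x ∈ {v | v ∈ U ∧ v ∉ g.verts ∧ s v = s (T.src (c.e 0))}) (T.tgt d) y → s y = s (T.src (c.e 0)) →
      ReflTransGen (fun x y => ∃ e, T.src e = x ∧ T.tgt e = y ∧ ¬ T.Occ s e ∧ e ∉ c.Left ∧ T.opp e ∉ c.Left) (g.v k) y := by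
    intro y hy
    induction hy with
    | refl =>
      intro hs
      refine ReflTransGen.single ⟨d, hdR.1, rfl, fun ho => ho ?_, hdR.2.1, hdR.2.2⟩
      rw [hdR.1, hcol k hk, hs]
    | @tail x y _ hxy ih =>
      intro hs
      obtain ⟨⟨e, hex, hey⟩, hxU, hxg, hxs⟩ := hxy
      have hwx := ih hxs
      have hxc : x ∉ c.verts := by
        intro hxc
        have := pl_no_bypass hT h hkc hxc hwx
        exact hxg ⟨k, hk, this⟩
      have hxI : x ∈ T.Int c.Right := by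
        rcases pl_jordan_vert hT c x with h' | h' | h'
        · exact absurd h' hxc
        · exfalso
          rcases ReflTransGen.cases_tail hwx with heq | ⟨z, -, e', -, he2, -, -, he5⟩
          · exact hxg ⟨k, hk, heq.symm⟩
          · exact he5 (h' _ (by rw [T.src_opp', he2]))
        · exact h'
      have hside : e ∈ c.Right ∧ T.opp e ∈ c.Right ∧ T.tgt e ∈ T.VOf c.Right := by
        obtain ⟨c', -, -, -, hl, -⟩ := pl_cyc_rev hT c
        have hxI' : T.src e ∈ T.Int c.Right := by rw [hex]; exact hxI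
        rw [← hl] at hxI' ⊢
        exact pl_int_edge hT c' hxI'
      rw [hR] at hside
      refine hwx.tail ⟨e, hex, hey, fun ho => ho ?_, hside.1, hside.2.1⟩
      rw [hex, hey, hxs, hs]
  have := pl_no_bypass hT h hkc hlc (key _ hw (hcol l hl))
  exact hkl (g.inj k l hk hl this)

/-! ## 4. Free cells -/

/-- FREE CELL: the cycle `Z` = path `x_0 .. x_m` of colour `b`, then `x_(m+1) .. x_(n-1)` of the other colour.   The cell is the face set `Z.Right`. -/
structure PvMap.Cyc.FCell (Z : T.Cyc) (s : V → Bool) (b : Bool) (m : ℕ) : Prop where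
  pos : 0 < m
  lt : m + 1 < Z.n
  blk : ∀ k, k ≤ m → s (T.src (Z.e k)) = b
  wht : ∀ k, m < k → k < Z.n → s (T.src (Z.e k)) ≠ b

/-- no excursion of colour `b` through the open cell between two distinct vertices of the path `x_0 .. x_m` (chords included) -/
def PvMap.Cyc.NoXc (Z : T.Cyc) (s : V → Bool) (b : Bool) (m : ℕ) : Prop :=
  ∀ k l, k ≤ m → l ≤ m → ∀ d, T.src d = T.src (Z.e k) → d ∈ Z.Right → T.opp d ∈ Z.Right →
    ReflTransGen (fun x y => T.Adj x y ∧ x ∈ T.Int Z.Right ∧ s x = b) (T.tgt d) (T.src (Z.e l)) → k = l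

theorem pvnb_VOf_right (hT : T.IsSph) (c : T.Cyc) : T.VOf c.Right = c.verts ∪ T.Int c.Right := by
  obtain ⟨c', -, -, hv, hl, -⟩ := pl_cyc_rev hT c
  rw [← hl, ← hv]
  exact pl_VOf_left hT c'

theorem pvnb_int_edge_right (hT : T.IsSph) (c : T.Cyc) {d : D} (h : T.src d ∈ T.Int c.Right) : d ∈ c.Right ∧ T.opp d ∈ c.Right ∧ T.tgt d ∈ T.VOf c.Right := by
  obtain ⟨c', -, -, -, hl, -⟩ := pl_cyc_rev hT c
  rw [← hl] at h ⊢
  exact pl_int_edge hT c' h

/-- a vertex of colour `b` of the closed cell is one of `x_0 .. x_m` or an inner vertex -/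
theorem pvnb_fcell_vert (hT : T.IsSph) {Z : T.Cyc} {s : V → Bool} {b : Bool} {m : ℕ} (hZ : Z.FCell s b m) {v : V} (hv : v ∈ T.VOf Z.Right) (hb : s v = b) :
    (∃ l, l ≤ m ∧ v = T.src (Z.e l)) ∨ v ∈ T.Int Z.Right := by
  rw [pvnb_VOf_right hT] at hv
  rcases hv with ⟨k, rfl⟩ | hv
  · left
    have hn := pl_cyc_pos Z
    have hk := Nat.mod_lt k hn
    refine ⟨k % Z.n, ?_, by rw [pl_cyc_mod]⟩
    by_contra h
    exact hZ.wht (k % Z.n) (by omega) hk (by rw [pl_cyc_mod]; exact hb)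
  · exact Or.inr hv

/-- an edge of `Z` is monochromatic, except the two edges `x_m x_(m+1)` and `x_(n-1) x_0` -/
theorem pvnb_fcell_edge {Z : T.Cyc} {s : V → Bool} {b : Bool} {m : ℕ} (hZ : Z.FCell s b m) {d : D} (hd : T.Edg Z.darts d) :
    (∃ k, k < m ∧ (d = Z.e k ∨ d = T.opp (Z.e k))) ∨ (s (T.src d) ≠ b ∧ s (T.tgt d) ≠ b) ∨ (d = Z.e m ∨ d = T.opp (Z.e m)) ∨ (d = Z.e (Z.n - 1) ∨ d = T.opp (Z.e (Z.n - 1))) := by
  obtain ⟨k, -, hk, hdk⟩ := (pl_cyc_edg_window Z 0 d).1 hd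
  have hlt := hZ.lt
  by_cases h1 : k < m
  · exact Or.inl ⟨k, h1, hdk⟩
  by_cases h2 : k = m
  · subst h2
    exact Or.inr (Or.inr (Or.inl hdk))
  by_cases h3 : k = Z.n - 1
  · subst h3
    exact Or.inr (Or.inr (Or.inr hdk))
  right; left
  have w1 := hZ.wht k (by omega) (by omega)
  have w2 := hZ.wht (k + 1) (by omega) (by omega)
  rw [← Z.chain] at w2
  rcases hdk with rfl | rfl
  · exact ⟨w1, w2⟩
  · rw [T.src_opp', T.tgt_opp]
    exact ⟨w2, w1⟩

/-- `NB_g^U` (gate darts = the two bichromatic darts of `Z` at the ends of `g`) gives `NoXc` as soon as `U` contains the closed cell -/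
theorem pvnb_noexc_of_nb (hT : T.IsSph) {Z : T.Cyc} {s : V → Bool} {b : Bool} {m : ℕ} (hZ : Z.FCell s b m) {g : T.Pth} (hn : g.n = m) (hg : ∀ k, k < m → g.e k = Z.e k)
    {U : Set V} (hU : T.VOf Z.Right ⊆ U) (h : g.NB s b U (T.opp (Z.e (Z.n - 1))) (Z.e m)) : Z.NoXc s b m := by
  intro k l hk hl d hsrc hd hd' hpath
  by_contra hkl
  obtain ⟨hR, -, -, -⟩ := pl_jordan hT Z
  have hm := hZ.pos
  have hnZ := pl_cyc_pos Z
  -- the vertices of `g`
  have hv : ∀ j, j ≤ m → g.v j = T.src (Z.e j) := by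
    intro j hj
    rcases Nat.lt_or_ge j m with h1 | h1
    · rw [← g.src_e j (by omega), hg j h1]
    · obtain rfl : j = m := le_antisymm hj h1
      obtain ⟨i, rfl⟩ : ∃ i, j = i + 1 := ⟨j - 1, by omega⟩
      rw [← g.tgt_e i (by omega), hg i (by omega), Z.chain]
  have hverts : g.verts ⊆ Z.verts := by
    rintro x ⟨j, hj, rfl⟩
    exact ⟨j, (hv j (by omega)).symm⟩
  have hdisj := (pl_jordan_vert_disj hT Z).2.1
  apply h
  refine ⟨k, l, by omega, by omega, hkl, d, ?_, ?_⟩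
  · -- the right sector
    have hmem : T.src d = T.src (Z.e k) ∧ d ∉ Z.Left ∧ T.opp d ∉ Z.Left := by
      rw [hR] at hd hd'
      exact ⟨hsrc, hd, hd'⟩
    unfold PvMap.Pth.RS
    rw [hn]
    have e2 : (if k = m then Z.e m else g.e k) = Z.e k := by
      split_ifs with h1
      · rw [h1]
      · exact hg k (by omega)
    rw [e2]
    by_cases h0 : k = 0
    · subst h0
      rw [if_pos rfl]
      have := (pvnb_sec_cyc hT Z (Z.n - 1) d)
      rw [show Z.n - 1 + 1 = 0 + Z.n by omega, Z.per] at this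
      exact this.2 hmem
    · rw [if_neg h0, hg (k - 1) (by omega)]
      have := (pvnb_sec_cyc hT Z (k - 1) d)
      rw [show k - 1 + 1 = k by omega] at this
      exact this.2 hmem
  · rw [hv l hl]
    refine ReflTransGen.mono (fun x y hxy => ⟨hxy.1, hU ?_, fun hx => ?_, hxy.2.2⟩) _ _ hpath
    · rw [pvnb_VOf_right hT Z]; exact Or.inr hxy.2.1
    · exact Set.disjoint_left.1 hdisj (hverts hx) hxy.2.1

/-- **D5(b) REGION**: `V(Z) ⊆ U`, the complement of `U` is connected off `U`, and one vertex `o ∉ U` is not in the open cell: then the closed cell is in `U` -/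
theorem pvnb_region (hT : T.IsSph) (Z : T.Cyc) {U : Set V} (hZ : Z.verts ⊆ U) {o : V} (ho : o ∉ U) (ho' : o ∉ T.Int Z.Right)
    (hconn : ∀ v, v ∉ U → ReflTransGen (fun x y => T.Adj x y ∧ y ∉ U) v o) : T.VOf Z.Right ⊆ U := by
  intro v hv
  rw [pvnb_VOf_right hT Z] at hv
  rcases hv with hv | hv
  · exact hZ hv
  · by_contra hvU
    obtain ⟨c', -, -, hvs, hl, -⟩ := pl_cyc_rev hT Z
    apply ho'
    rw [← hl] at hv ⊢
    refine pl_jordan_sep hT c' hv (ReflTransGen.mono (fun x y hxy => ⟨hxy.1, fun hy => hxy.2 (hZ ?_)⟩) _ _ (hconn v hvU))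
    rw [← hvs]; exact hy

/-! ## 5. Cells of a cycle -/

/-- `Z` is a CELL of the cycle `π` (of colour `b = s x_0`): a free cell whose coloured path is the arc `π.e i .. π.e (i + m - 1)`, and whose last dart (white vertex `→` first vertex of the arc) is on the right of `π` -/
structure PvMap.Cyc.Cell (π : T.Cyc) (s : V → Bool) (Z : T.Cyc) (i m : ℕ) : Prop where
  free : Z.FCell s (s (T.src (π.e 0))) m
  arc : ∀ k, k < m → Z.e k = π.e (i + k)
  side : Z.e (Z.n - 1) ∈ π.Right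

theorem pvnb_cell_src {π Z : T.Cyc} {i m : ℕ} (hm : 0 < m) (harc : ∀ k, k < m → Z.e k = π.e (i + k)) {k : ℕ} (hk : k ≤ m) : T.src (Z.e k) = T.src (π.e (i + k)) := by
  rcases Nat.lt_or_ge k m with h | h
  · rw [harc k h]
  · obtain rfl : k = m := le_antisymm hk h
    obtain ⟨j, rfl⟩ : ∃ j, k = j + 1 := ⟨k - 1, by omega⟩
    rw [← Z.chain, harc j (by omega), π.chain]
    rfl

/-- **D5(a) SIDE**: the cell is on the right of `π` -/
theorem pvnb_cell_sub (hT : T.IsSph) {π : T.Cyc} {s : V → Bool} (hmono : ∀ i, s (T.src (π.e i)) = s (T.src (π.e 0))) {Z : T.Cyc} {i m : ℕ} (hZ : π.Cell s Z i m) :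
    Z.Right ⊆ π.Right ∧ π.Left ⊆ Z.Left := by
  obtain ⟨hR, hL, hO, -⟩ := pl_jordan hT π
  obtain ⟨hRZ, hLZ, -, -⟩ := pl_jordan hT Z
  obtain ⟨π', -, -, hv', hl', hr'⟩ := pl_cyc_rev hT π
  have hn := pl_cyc_pos Z
  -- white vertices are off `π`
  have hoff : ∀ k, m < k → k < Z.n → T.src (Z.e k) ∉ π.verts := by
    rintro k h1 h2 ⟨j, hj⟩
    exact hZ.free.wht k h1 h2 (by rw [← hj]; exact hmono j)
  -- all white vertices are strictly on the right
  have hint : ∀ j, j < Z.n - 1 - m → T.src (Z.e (Z.n - 1 - j)) ∈ T.Int π.Right := by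
    intro j
    induction j with
    | zero =>
      intro _
      have hlt := hZ.free.lt
      rcases pl_jordan_vert hT π (T.src (Z.e (Z.n - 1 - 0))) with h | h | h
      · exact absurd h (hoff _ (by omega) (by omega))
      · have h1 := h (Z.e (Z.n - 1)) (by simp)
        have h2 := hZ.side
        rw [hR] at h2
        exact absurd h1 h2
      · exact h
    | succ j ih =>
      intro hj
      have h0 := ih (by omega)
      rw [← hl'] at h0 ⊢
      refine pl_jordan_sep hT π' h0 (ReflTransGen.single ⟨?_, ?_⟩)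
      · refine T.adj_symm ⟨Z.e (Z.n - 1 - (j + 1)), rfl, ?_⟩
        rw [Z.chain]
        congr 2
        omega
      · rw [hv']
        exact hoff _ (by omega) (by omega)
  have hint' : ∀ k, m < k → k < Z.n → T.src (Z.e k) ∈ T.Int π.Right := by
    intro k h1 h2
    have := hint (Z.n - 1 - k) (by omega)
    rwa [show Z.n - 1 - (Z.n - 1 - k) = k by omega] at this
  have hdr : ∀ k, Z.e k ∈ π'.Left ∨ T.opp (Z.e k) ∈ π'.Left := by
    intro k
    rw [hl', ← pl_cyc_mod Z k]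
    have hk : k % Z.n < Z.n := Nat.mod_lt _ hn
    generalize k % Z.n = k at hk
    rcases lt_trichotomy k m with h | h | h
    · right
      rw [hZ.arc k h]
      exact hO _
    · right
      subst h
      refine hint' (k + 1) (by omega) hZ.free.lt _ ?_
      rw [T.src_opp', Z.chain]
    · left
      exact hint' k h hk _ rfl
  have hsub : Z.Right ⊆ π.Right := by
    rcases pl_nested hT π' Z hdr with h | h
    · exfalso
      have h1 : Z.e 0 ∈ π.Right := by rw [← hl']; exact h (hLZ 0)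
      rw [hZ.arc 0 hZ.free.pos, hR] at h1
      exact h1 (hL _)
    · rw [← hl']; exact h
  refine ⟨hsub, fun d hd => ?_⟩
  by_contra hn'
  have h1 : d ∈ Z.Right := by rw [hRZ]; exact hn'
  have h2 := hsub h1
  rw [hR] at h2
  exact h2 hd

/-- no vertex of `π` in the open cell -/
theorem pvnb_cell_int (hT : T.IsSph) {π : T.Cyc} {s : V → Bool} (hmono : ∀ i, s (T.src (π.e i)) = s (T.src (π.e 0))) {Z : T.Cyc} {i m : ℕ} (hZ : π.Cell s Z i m)
    {v : V} (hv : v ∈ π.verts) : v ∉ T.Int Z.Right := by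
  obtain ⟨hR, hL, -, -⟩ := pl_jordan hT π
  obtain ⟨j, rfl⟩ := hv
  intro h
  have h1 := (pvnb_cell_sub hT hmono hZ).1 (h (π.e j) rfl)
  rw [hR] at h1
  exact h1 (hL j)

/-- how to get the field `side`: no edge of `π` strictly inside `Z.Right` -/
theorem pvnb_cell_side (hT : T.IsSph) {π Z : T.Cyc} {i m : ℕ} (hm : 0 < m) (harc : ∀ k, k < m → Z.e k = π.e (i + k))
    (hno : ∀ d, d ∈ Z.Right → T.opp d ∈ Z.Right → ¬ T.Edg π.darts d) : Z.Right ⊆ π.Right := by
  obtain ⟨-, -, hO, -⟩ := pl_jordan hT π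
  intro d hd
  have hd' : ReflTransGen (T.DStep Z.darts) (T.opp (Z.e 0)) d := hd
  induction hd' with
  | refl =>
    rw [harc 0 hm]
    exact hO _
  | @tail a b hab hbc ih =>
    have haZ : a ∈ Z.Right := hab
    have ha := ih haZ
    rcases hbc with rfl | ⟨rfl, -⟩
    · exact (pl_right_face π a).2 ha
    · have h1 : ¬ T.Edg π.darts a := hno a haZ hd
      have h2 : a ∈ π.Right ↔ T.opp a ∈ π.Right := not_not.1 fun hb => h1 (pl_right_bd_sub π hb)
      exact h2.1 ha

/-- how to get the field `side`, second way: the white vertex `x_(n-1)` of `Z` lies in a face set `A ⊆ π.Right` (e.g. the neighbouring cell) -/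
theorem pvnb_cell_side' (hT : T.IsSph) {π : T.Cyc} {s : V → Bool} (hmono : ∀ i, s (T.src (π.e i)) = s (T.src (π.e 0))) {d : D} (hd : s (T.src d) ≠ s (T.src (π.e 0)))
    {A : Set D} (hA : A ⊆ π.Right) (hv : T.src d ∈ T.VOf A) : d ∈ π.Right := by
  have h1 : T.src d ∈ T.VOf π.Right := by
    obtain ⟨e, he, hs⟩ := hv
    exact ⟨e, hA he, hs⟩
  rw [pvnb_VOf_right hT] at h1
  rcases h1 with h1 | h1
  · obtain ⟨i, hi⟩ := h1
    exact absurd (by rw [← hi]; exact hmono i) hd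
  · exact (pvnb_int_edge_right hT π h1).1

/-! ## 6. TR13 CLOSE -/

section close

variable {π : T.Cyc} {s : V → Bool} {ι : Type} {Z : ι → T.Cyc} {i m : ι → ℕ}

/-- the union of the cells is a face set -/
theorem pvnb_union_face {ι : Type} (Z : ι → T.Cyc) : T.FaceSet (⋃ j, (Z j).Right) := by
  intro d
  simp only [Set.mem_iUnion]
  exact exists_congr fun j => pl_right_face (Z j) d

/-- one half of `pvnb_union_bd` -/
theorem pvnb_union_bd_aux {π : T.Cyc} {s : V → Bool} {ι : Type} {Z : ι → T.Cyc} {i m : ι → ℕ} (hZ : ∀ j, π.Cell s (Z j) (i j) (m j))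
    (hout : ∀ j, ∃ j', (Z j).e (m j) ∈ (Z j').Right) (hin : ∀ j, ∃ j', (Z j).e ((Z j).n - 1) ∈ (Z j').Right) (hT : T.IsSph) {d : D} {j : ι}
    (hd : d ∈ (Z j).Right) (hd' : T.opp d ∉ ⋃ j, (Z j).Right) :
    T.Edg π.darts d ∨ (s (T.src d) ≠ s (T.src (π.e 0)) ∧ s (T.tgt d) ≠ s (T.src (π.e 0))) := by
  have hU : ∀ x j', x ∈ (Z j').Right → x ∈ ⋃ j, (Z j).Right := fun x j' hx => Set.mem_iUnion.2 ⟨j', hx⟩
  have hdU : d ∈ ⋃ j, (Z j).Right := hU _ _ hd
  have hbd : T.Bd (Z j).Right d := fun h => hd' (hU _ j (h.1 hd))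
  have hedg := pl_right_bd_sub (Z j) hbd
  obtain ⟨-, -, hopp, -⟩ := pl_jordan hT (Z j)
  rcases pvnb_fcell_edge (hZ j).free hedg with ⟨k, hk, h⟩ | h | h | h
  · left
    rw [(hZ j).arc k hk] at h
    rcases h with h | h
    · exact Or.inl ⟨_, h.symm⟩
    · exact Or.inr ⟨i j + k, by rw [h, T.opp_opp]⟩
  · exact Or.inr h
  · exfalso
    obtain ⟨j', hj'⟩ := hout j
    rcases h with h | h
    · exact hd' (hU _ j (h ▸ hopp (m j)))
    · apply hd'
      rw [h, T.opp_opp]
      exact hU _ j' hj'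
  · exfalso
    obtain ⟨j', hj'⟩ := hin j
    rcases h with h | h
    · exact hd' (hU _ j (h ▸ hopp ((Z j).n - 1)))
    · apply hd'
      rw [h, T.opp_opp]
      exact hU _ j' hj'

/-- the boundary of the union of the cells: edges of `π`, or edges with two white ends -/
theorem pvnb_union_bd (hZ : ∀ j, π.Cell s (Z j) (i j) (m j))
    (hout : ∀ j, ∃ j', (Z j).e (m j) ∈ (Z j').Right) (hin : ∀ j, ∃ j', (Z j).e ((Z j).n - 1) ∈ (Z j').Right) (hT : T.IsSph) {d : D} (hd : T.Bd (⋃ j, (Z j).Right) d) :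
    T.Edg π.darts d ∨ (s (T.src d) ≠ s (T.src (π.e 0)) ∧ s (T.tgt d) ≠ s (T.src (π.e 0))) := by
  by_cases h1 : d ∈ ⋃ j, (Z j).Right
  · have h2 : T.opp d ∉ ⋃ j, (Z j).Right := fun h2 => hd ⟨fun _ => h2, fun _ => h1⟩
    obtain ⟨j, hj⟩ := Set.mem_iUnion.1 h1
    exact pvnb_union_bd_aux hZ hout hin hT hj h2
  · have h2 : T.opp d ∈ ⋃ j, (Z j).Right := by
      by_contra h2
      exact hd ⟨fun h => absurd h h1, fun h => absurd h h2⟩
    obtain ⟨j, hj⟩ := Set.mem_iUnion.1 h2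
    have := pvnb_union_bd_aux hZ hout hin hT hj (by rw [T.opp_opp]; exact h1)
    rw [T.edg_opp, T.src_opp', T.tgt_opp] at this
    rcases this with h | h
    · exact Or.inl h
    · exact Or.inr ⟨h.2, h.1⟩

/-- COVER: every right dart of `π` with a black target lies, with its opposite, in one cell, and its source is on the arc of that cell -/
theorem pvnb_cover (hT : T.IsSph) (hmono : ∀ i, s (T.src (π.e i)) = s (T.src (π.e 0))) (hZ : ∀ j, π.Cell s (Z j) (i j) (m j)) (hcov : ∀ k, ∃ j, T.opp (π.e k) ∈ (Z j).Right)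
    (hout : ∀ j, ∃ j', (Z j).e (m j) ∈ (Z j').Right) (hin : ∀ j, ∃ j', (Z j).e ((Z j).n - 1) ∈ (Z j').Right)
    {d : D} (hsrc : T.src d ∈ π.verts) (h1 : d ∉ π.Left) (h2 : T.opp d ∉ π.Left) (hb : s (T.tgt d) = s (T.src (π.e 0))) :
    ∃ j k, k ≤ m j ∧ T.src d = T.src ((Z j).e k) ∧ d ∈ (Z j).Right ∧ T.opp d ∈ (Z j).Right := by
  obtain ⟨hR, hL, hoppR, hbdL⟩ := pl_jordan hT π
  obtain ⟨i0, hi0⟩ := hsrc
  have hblk : s (T.src d) = s (T.src (π.e 0)) := by rw [← hi0]; exact hmono i0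
  -- the reversed cycle
  obtain ⟨c', -, -, hv', hl', -⟩ := pl_cyc_rev hT π
  obtain ⟨-, -, -, hbd'⟩ := pl_jordan hT c'
  have hedg' : ∀ x, T.Edg c'.darts x ↔ T.Edg π.darts x := by
    intro x
    rw [← hbd', hl', hR, T.bd_compl, hbdL]
  -- `d` is in the union
  have hk : T.src (T.opp (π.e (i0 + π.n - 1))) = T.src d := by
    rw [T.src_opp', π.chain, ← hi0]
    have : i0 + π.n - 1 + 1 = i0 + π.n := by have := pl_cyc_pos π; omega
    rw [this, π.per]
  have hdU : d ∈ ⋃ j, (Z j).Right := by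
    obtain ⟨j0, hj0⟩ := hcov (i0 + π.n - 1)
    have hc := pl_cyc_sector_const hT c' (v := T.src d) (by rw [hv']; exact ⟨i0, hi0⟩) (pvnb_union_face Z)
      (fun x hx hbx => by
        rw [hedg']
        rcases pvnb_union_bd hZ hout hin hT hbx with h | h
        · exact h
        · exact absurd (by rw [hx]; exact hblk) h.1)
      (d := T.opp (π.e (i0 + π.n - 1))) (d' := d) hk rfl (by rw [hl']; exact hoppR _) (by rw [hl', hR]; exact h1)
    exact hc.1 (Set.mem_iUnion.2 ⟨j0, hj0⟩)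
  obtain ⟨j, hj⟩ := Set.mem_iUnion.1 hdU
  have hnot : ¬ T.Edg π.darts d := by
    rintro (⟨k, hk⟩ | ⟨k, hk⟩)
    · exact h1 (hk ▸ hL k)
    · exact h2 (hk ▸ hL k)
  have hoppj : T.opp d ∈ (Z j).Right := by
    by_contra hc
    have hbd : T.Bd (Z j).Right d := fun h => hc (h.1 hj)
    have hedg := pl_right_bd_sub (Z j) hbd
    have hF := (hZ j).free
    have hn : 0 < (Z j).n := pl_cyc_pos (Z j)
    rcases pvnb_fcell_edge hF hedg with ⟨k, hk, h⟩ | h | h | h
    · rw [(hZ j).arc k hk] at h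
      rcases h with h | h
      · exact hnot (Or.inl ⟨_, h.symm⟩)
      · exact hnot (Or.inr ⟨i j + k, by rw [h, T.opp_opp]⟩)
    · exact h.1 hblk
    · have hw := hF.wht (m j + 1) (Nat.lt_succ_self _) hF.lt
      rcases h with h | h
      · apply hw; rw [← (Z j).chain, ← h]; exact hb
      · apply hw; rw [← (Z j).chain, ← T.src_opp', ← h]; exact hblk
    · have hw := hF.wht ((Z j).n - 1) (by have := hF.lt; omega) (by omega)
      rcases h with h | h
      · apply hw; rw [← h]; exact hblk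
      · apply hw; rw [← T.tgt_opp, ← h]; exact hb
  rcases pvnb_fcell_vert hT (hZ j).free (v := T.src d) ⟨d, hj, rfl⟩ hblk with ⟨l, hl, h⟩ | h
  · exact ⟨j, l, hl, h, hj, hoppj⟩
  · exact absurd h (pvnb_cell_int hT hmono (hZ j) ⟨i0, hi0⟩)

/-- **TR13 CLOSE, first half**: `π` has no right bypass (the relation is the one of `pl_no_bypass`, verbatim) -/
theorem pvnb_close_nb (hT : T.IsSph) (hmono : ∀ i, s (T.src (π.e i)) = s (T.src (π.e 0))) (hZ : ∀ j, π.Cell s (Z j) (i j) (m j)) (hcov : ∀ k, ∃ j, T.opp (π.e k) ∈ (Z j).Right)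
    (hout : ∀ j, ∃ j', (Z j).e (m j) ∈ (Z j').Right) (hin : ∀ j, ∃ j', (Z j).e ((Z j).n - 1) ∈ (Z j').Right)
    (hne : ∀ j, (Z j).NoXc s (s (T.src (π.e 0))) (m j)) :
    ∀ a ∈ π.verts, ∀ b ∈ π.verts, ReflTransGen (fun x y => ∃ e, T.src e = x ∧ T.tgt e = y ∧ ¬ T.Occ s e ∧ e ∉ π.Left ∧ T.opp e ∉ π.Left) a b → a = b := by
  intro a ha b hb hab
  have hsa : s a = s (T.src (π.e 0)) := by
    obtain ⟨i0, rfl⟩ := ha
    exact hmono i0
  -- the invariant
  have key : ∀ b, ReflTransGen (fun x y => ∃ e, T.src e = x ∧ T.tgt e = y ∧ ¬ T.Occ s e ∧ e ∉ π.Left ∧ T.opp e ∉ π.Left) a b →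
      (b = a ∨ ∃ j k d, k ≤ m j ∧ T.src d = T.src ((Z j).e k) ∧ T.src d = a ∧ d ∈ (Z j).Right ∧ T.opp d ∈ (Z j).Right ∧
      ReflTransGen (fun x y => T.Adj x y ∧ x ∈ T.Int (Z j).Right ∧ s x = s (T.src (π.e 0))) (T.tgt d) b ∧ b ∈ T.Int (Z j).Right ∧ s b = s (T.src (π.e 0))) := by
    intro b hab
    induction hab with
    | refl => exact Or.inl rfl
    | @tail x y _ hxy ih =>
      obtain ⟨e, hex, hey, hocc, heL, heL'⟩ := hxy
      have hocc' : s (T.src e) = s (T.tgt e) := not_not.1 hocc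
      rcases ih with rfl | ⟨j, k, d, hk, hdk, hda, hdR, hdR', hpath, hxI, hsx⟩
      · -- first step
        have hsy : s (T.tgt e) = s (T.src (π.e 0)) := by rw [← hocc', hex]; exact hsa
        obtain ⟨j, k, hk, hek, heR, heR'⟩ := pvnb_cover hT hmono hZ hcov hout hin (d := e) (by rw [hex]; exact ha) heL heL' hsy
        rcases pvnb_fcell_vert hT (hZ j).free (v := T.tgt e) ⟨T.opp e, heR', T.src_opp' e⟩ hsy with ⟨l, hl, h⟩ | h
        · left
          have := hne j k l hk hl e hek heR heR' (by rw [h])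
          rw [← hey, h, ← this, ← hek, hex]
        · right
          exact ⟨j, k, e, hk, hek, hex, heR, heR', by rw [hey], by rw [← hey]; exact h, by rw [← hey]; exact hsy⟩
      · have hsy : s (T.tgt e) = s (T.src (π.e 0)) := by rw [← hocc', hex]; exact hsx
        obtain ⟨-, -, hV⟩ := pvnb_int_edge_right hT (Z j) (d := e) (by rw [hex]; exact hxI)
        have hstep : ReflTransGen (fun x y => T.Adj x y ∧ x ∈ T.Int (Z j).Right ∧ s x = s (T.src (π.e 0))) (T.tgt d) y :=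
          hpath.tail ⟨⟨e, hex, hey⟩, hxI, hsx⟩
        rcases pvnb_fcell_vert hT (hZ j).free hV hsy with ⟨l, hl, h⟩ | h
        · left
          have := hne j k l hk hl d hdk hdR hdR' (by rw [← h, hey]; exact hstep)
          rw [← hey, h, ← this, ← hdk, hda]
        · right
          exact ⟨j, k, d, hk, hdk, hda, hdR, hdR', hstep, by rw [← hey]; exact h, by rw [← hey]; exact hsy⟩
  rcases key b hab with h | ⟨j, _, _, _, _, _, _, _, _, hI, _⟩
  · exact h.symm
  · exact absurd hI (pvnb_cell_int hT hmono (hZ j) hb)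

/-- the wall of a right triangle of `π` stays in the union of the cells -/
theorem pvnb_close_wall (hT : T.IsSph) (hZ : ∀ j, π.Cell s (Z j) (i j) (m j)) (hcov : ∀ k, ∃ j, T.opp (π.e k) ∈ (Z j).Right)
    (hmono : ∀ i, s (T.src (π.e i)) = s (T.src (π.e 0)))
    (hout : ∀ j, ∃ j', (Z j).e (m j) ∈ (Z j').Right) (hin : ∀ j, ∃ j', (Z j).e ((Z j).n - 1) ∈ (Z j').Right) :
    {d' | T.Wall s (T.opp (π.e 0)) d'} ⊆ ⋃ j, (Z j).Right := by
  intro d' hd'
  have hw : ReflTransGen (fun a b => T.SF a b ∨ (T.Occ s a ∧ b = T.opp a)) (T.opp (π.e 0)) d' := hd'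
  induction hw with
  | refl =>
    obtain ⟨j, hj⟩ := hcov 0
    exact Set.mem_iUnion.2 ⟨j, hj⟩
  | @tail a b hab hstep ih =>
    have ih := ih hab
    rcases hstep with h | ⟨hocc, rfl⟩
    · exact (PvMap.FaceSet.sf T (pvnb_union_face Z) h).2 ih
    · by_contra hc
      have hbd : T.Bd (⋃ j, (Z j).Right) a := fun h => hc (h.1 ih)
      rcases pvnb_union_bd hZ hout hin hT hbd with h | ⟨h1, h2⟩
      · apply hocc
        rcases h with ⟨k, hk⟩ | ⟨k, hk⟩
        · rw [← hk, π.chain, hmono k, hmono (k + 1)]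
        · have e1 : T.src a = T.tgt (π.e k) := by rw [hk, T.tgt_opp]
          have e2 : T.tgt a = T.src (π.e k) := by rw [hk, T.src_opp']
          rw [e1, e2, π.chain, hmono k, hmono (k + 1)]
      · apply hocc
        cases h3 : s (T.src a) <;> cases h4 : s (T.tgt a) <;> cases h5 : s (T.src (π.e 0)) <;> simp_all

/-- a white vertex on the right of `π` -/
theorem pvnb_close_white (hT : T.IsSph) (hmono : ∀ i, s (T.src (π.e i)) = s (T.src (π.e 0))) (hZ : ∀ j, π.Cell s (Z j) (i j) (m j)) (hcov : ∀ k, ∃ j, T.opp (π.e k) ∈ (Z j).Right) :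
    ∃ v ∈ T.VOf π.Right, s v ≠ s (T.src (π.e 0)) := by
  obtain ⟨j, -⟩ := hcov 0
  obtain ⟨-, -, hopp, -⟩ := pl_jordan hT (Z j)
  have hF := (hZ j).free
  refine ⟨T.src ((Z j).e (m j + 1)), ⟨T.opp ((Z j).e (m j)), (pvnb_cell_sub hT hmono (hZ j)).1 (hopp _), ?_⟩, hF.wht _ (Nat.lt_succ_self _) hF.lt⟩
  rw [T.src_opp', (Z j).chain]

/-- **TR13 CLOSE**: a monochromatic cycle whose right side is covered by finitely many finite cells without excursions is a rim   (through `pl_rim_conv` of helper113, Pl/RimC) -/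
theorem pvnb_close [Finite ι] (hT : T.IsSph) (hS : T.Simple)
    (hmono : ∀ i, s (T.src (π.e i)) = s (T.src (π.e 0))) (hZ : ∀ j, π.Cell s (Z j) (i j) (m j)) (hcov : ∀ k, ∃ j, T.opp (π.e k) ∈ (Z j).Right)
    (hout : ∀ j, ∃ j', (Z j).e (m j) ∈ (Z j').Right) (hin : ∀ j, ∃ j', (Z j).e ((Z j).n - 1) ∈ (Z j').Right)
    (hfin : ∀ j, (Z j).Right.Finite) (hne : ∀ j, (Z j).NoXc s (s (T.src (π.e 0))) (m j)) : π.IsRim s :=
  pl_rim_conv hT hS hmono (pvnb_close_nb hT hmono hZ hcov hout hin hne) (pvnb_close_white hT hmono hZ hcov)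
    ((Set.finite_iUnion hfin).subset (pvnb_close_wall hT hZ hcov hmono hout hin))

end close

/-! ## 7. TR12 UNIQ -/

/-- two cycles with the same darts, read from a common vertex, are equal pointwise -/
theorem pvnb_cyc_eq {c c' : T.Cyc} (hd : c.darts = c'.darts) {a a' : ℕ} (h : T.src (c.e a) = T.src (c'.e a')) (k : ℕ) : c.e (a + k) = c'.e (a' + k) := by
  have key : ∀ p q, T.src (c.e p) = T.src (c'.e q) → c.e p = c'.e q := by
    intro p q hpq
    have hm : c.e p ∈ c'.darts := hd ▸ (⟨p, rfl⟩ : c.e p ∈ c.darts)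
    obtain ⟨r, hr⟩ := hm
    rw [← hr]
    exact pl_cyc_eq_of_src c' (by rw [hr]; exact hpq)
  induction k with
  | zero => exact key _ _ h
  | succ k ih =>
    apply key
    rw [← Nat.add_assoc, ← Nat.add_assoc, ← c.chain, ← c'.chain, ih]

/-- the first vertices of two cycles with the same last dart agree -/
theorem pvnb_uniq_fst {Z Z' : T.Cyc} {m m' : ℕ} (hm : m + 1 < Z.n) (hm' : m' + 1 < Z'.n)
    (hlen : Z.n - m = Z'.n - m') (hsame : ∀ k, k < Z.n - m → Z.e (m + k) = Z'.e (m' + k)) : T.src (Z.e 0) = T.src (Z'.e 0) := by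
  have h1 := hsame (Z.n - m - 1) (by omega)
  rw [show m + (Z.n - m - 1) = Z.n - 1 by omega, show m' + (Z.n - m - 1) = Z'.n - 1 by omega] at h1
  have h2 := Z.chain (Z.n - 1)
  have h3 := Z'.chain (Z'.n - 1)
  rw [show Z.n - 1 + 1 = 0 + Z.n by omega, Z.per] at h2
  rw [show Z'.n - 1 + 1 = 0 + Z'.n by omega, Z'.per] at h3
  rw [← h2, ← h3, h1]

/-- the black path of `Z'` does not enter the open cell of `Z`, and has no chord in it -/
theorem pvnb_uniq_drawn (hT : T.IsSph) {s : V → Bool} {b : Bool} {Z Z' : T.Cyc} {m m' : ℕ} (hZ : Z.FCell s b m) (hZ' : Z'.FCell s b m')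
    (hlen : Z.n - m = Z'.n - m') (hsame : ∀ k, k < Z.n - m → Z.e (m + k) = Z'.e (m' + k)) (hne : Z.NoXc s b m) (k : ℕ) :
    Z'.e k ∈ Z.Left ∨ T.opp (Z'.e k) ∈ Z.Left := by
  classical
  obtain ⟨hR, hL, -, -⟩ := pl_jordan hT Z
  obtain ⟨-, hdis, -⟩ := pl_jordan_vert_disj hT Z
  have hm := hZ.lt
  have hm' := hZ'.lt
  have hn' := pl_cyc_pos Z'
  -- reduction to `k < Z'.n`
  rw [← pl_cyc_mod Z' k]
  have hk : k % Z'.n < Z'.n := Nat.mod_lt _ hn'
  generalize k % Z'.n = k at hk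
  by_cases hkm : m' ≤ k
  · left
    have := hsame (k - m') (by omega)
    rw [show m' + (k - m') = k by omega] at this
    rw [← this]
    exact hL _
  by_contra hcon
  have hin : ∃ j, j < m' ∧ Z'.e j ∈ Z.Right ∧ T.opp (Z'.e j) ∈ Z.Right := by
    refine ⟨k, by omega, ?_, ?_⟩
    · rw [hR]; exact fun h => hcon (Or.inl h)
    · rw [hR]; exact fun h => hcon (Or.inr h)
  obtain ⟨hk0, hk1, hk2⟩ := Nat.find_spec hin
  have hmin := fun j => Nat.find_min hin (m := j)
  generalize Nat.find hin = k0 at hk0 hk1 hk2 hmin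
  have hvert : ∀ i, T.src (Z.e i) ∉ T.Int Z.Right := fun i h => Set.disjoint_left.1 hdis ⟨i, rfl⟩ h
  -- the excursion starts on `Z`
  have hA : ∃ a, a ≤ m ∧ T.src (Z'.e k0) = T.src (Z.e a) := by
    rcases pvnb_fcell_vert hT hZ (v := T.src (Z'.e k0)) ⟨_, hk1, rfl⟩ (hZ'.blk k0 hk0.le) with h | h
    · exact h
    · exfalso
      rcases Nat.eq_zero_or_pos k0 with rfl | hpos
      · rw [← pvnb_uniq_fst hm hm' hlen hsame] at h
        exact hvert 0 h
      · have h1 : T.src (T.opp (Z'.e (k0 - 1))) ∈ T.Int Z.Right := by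
          rw [T.src_opp', Z'.chain, show k0 - 1 + 1 = k0 by omega]
          exact h
        obtain ⟨h2, h3, -⟩ := pvnb_int_edge_right hT Z h1
        rw [T.opp_opp] at h3
        exact hmin (k0 - 1) (by omega) ⟨by omega, h3, h2⟩
  obtain ⟨a, ha, hae⟩ := hA
  -- the first return
  have hex : ∃ j, k0 + 1 + j ≤ m' ∧ T.src (Z'.e (k0 + 1 + j)) ∉ T.Int Z.Right := by
    refine ⟨m' - k0 - 1, by omega, ?_⟩
    rw [show k0 + 1 + (m' - k0 - 1) = m' + 0 by omega, ← hsame 0 (by omega)]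
    exact hvert _
  obtain ⟨hj0, hj1⟩ := Nat.find_spec hex
  have hjmin := fun j => Nat.find_min hex (m := j)
  generalize Nat.find hex = j0 at hj0 hj1 hjmin
  have hwalk : ∀ j, j ≤ j0 → ReflTransGen (fun x y => T.Adj x y ∧ x ∈ T.Int Z.Right ∧ s x = b) (T.tgt (Z'.e k0)) (T.src (Z'.e (k0 + 1 + j))) ∧
      T.src (Z'.e (k0 + 1 + j)) ∈ T.VOf Z.Right := by
    intro j
    induction j with
    | zero =>
      intro _
      rw [Z'.chain]
      exact ⟨ReflTransGen.refl, T.opp (Z'.e k0), hk2, by rw [T.src_opp', Z'.chain]⟩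
    | succ j ih =>
      intro hj
      obtain ⟨h1, -⟩ := ih (by omega)
      have h2 : T.src (Z'.e (k0 + 1 + j)) ∈ T.Int Z.Right := by
        by_contra h
        exact hjmin j (by omega) ⟨by omega, h⟩
      have h3 := (pvnb_int_edge_right hT Z h2).2.2
      rw [Z'.chain] at h3
      exact ⟨h1.tail ⟨⟨_, rfl, Z'.chain _⟩, h2, hZ'.blk _ (by omega)⟩, h3⟩
  obtain ⟨hw1, hw2⟩ := hwalk j0 le_rfl
  rcases pvnb_fcell_vert hT hZ hw2 (hZ'.blk _ hj0) with ⟨l, hl, hle⟩ | h
  · rw [hle] at hw1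
    have hal := hne a l ha hl (Z'.e k0) hae hk1 hk2 hw1
    have := Z'.inj k0 (k0 + 1 + j0) (by omega) (by omega) (by rw [hae, hle, hal])
    omega
  · exact hj1 h

/-- the darts of a cycle are read from its left side -/
theorem pvnb_darts_left (hT : T.IsSph) (c : T.Cyc) : c.darts = {d | d ∈ c.Left ∧ T.opp d ∉ c.Left} := by
  obtain ⟨hR, hL, hO, hB⟩ := pl_jordan hT c
  ext d
  constructor
  · rintro ⟨i, rfl⟩
    refine ⟨hL i, fun h => ?_⟩
    have := hO i
    rw [hR] at this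
    exact this h
  · rintro ⟨h1, h2⟩
    rcases (hB d).1 (fun h => h2 (h.1 h1)) with h | ⟨i, hi⟩
    · exact h
    · exact absurd (hi ▸ hL i) h2

/-- **TR12 UNIQ**: two free cells with the same white part (darts `x_m → x_(m+1) → .. → x_(n-1) → x_0`), both without excursions, are equal -/
theorem pvnb_uniq (hT : T.IsSph) {s : V → Bool} {b : Bool} {Z Z' : T.Cyc} {m m' : ℕ} (hZ : Z.FCell s b m) (hZ' : Z'.FCell s b m')
    (hlen : Z.n - m = Z'.n - m') (hsame : ∀ k, k < Z.n - m → Z.e (m + k) = Z'.e (m' + k)) (hne : Z.NoXc s b m) (hne' : Z'.NoXc s b m') :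
    m = m' ∧ ∀ k, Z.e k = Z'.e k := by
  have hm := hZ.lt
  have hm' := hZ'.lt
  have hsame' : ∀ k, k < Z'.n - m' → Z'.e (m' + k) = Z.e (m + k) := fun k hk => (hsame k (by omega)).symm
  have h0 := hsame 0 (by omega)
  have h1 := pl_cc_nested hT Z Z' (pvnb_uniq_drawn hT hZ hZ' hlen hsame hne) h0.symm
  have h2 := pl_cc_nested hT Z' Z (pvnb_uniq_drawn hT hZ' hZ hlen.symm hsame' hne') h0
  have hLL : Z.Left = Z'.Left := Set.Subset.antisymm h2.1 h1.1
  have hd : Z.darts = Z'.darts := by rw [pvnb_darts_left hT Z, pvnb_darts_left hT Z', hLL]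
  have hall : ∀ k, Z.e k = Z'.e k := fun k => by
    have := pvnb_cyc_eq hd (a := 0) (a' := 0) (pvnb_uniq_fst hm hm' hlen hsame) k
    rwa [Nat.zero_add] at this
  refine ⟨?_, hall⟩
  have hn : Z.n = Z'.n := by
    rcases lt_trichotomy Z.n Z'.n with h | h | h
    · exfalso
      have h3 : Z'.e Z.n = Z'.e 0 := by
        rw [← hall, ← hall, show Z.n = 0 + Z.n by omega, Z.per]
      have := Z'.inj Z.n 0 h (by omega) (by rw [h3])
      omega
    · exact h
    · exfalso
      have h3 : Z.e Z'.n = Z.e 0 := by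
        rw [hall, hall, show Z'.n = 0 + Z'.n by omega, Z'.per]
      have := Z.inj Z'.n 0 h (by omega) (by rw [h3])
      omega
  omega

/-- TR12, rim form: two rims with a common dart, read from that dart, are equal pointwise -/
theorem pvnb_rim_eq {c c' : T.Cyc} {s : V → Bool} (h : c.IsRim s) (h' : c'.IsRim s) {a a' : ℕ} (haa : c.e a = c'.e a') (k : ℕ) : c.e (a + k) = c'.e (a' + k) :=
  pvnb_cyc_eq (pl_rim_unique h h' haa) (by rw [haa]) k

end Claimed.Agent.R289
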