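-- KEEP
import Claimed.Agent.R289.Pl.Excise
import Claimed.Agent.R289.Pl.RimC
import Claimed.Agent.R289.Del.Bulk
import Claimed.Agent.R289.Tr.Nb
import Claimed.Agent.R289.Tr.GateB
import Claimed.Agent.R289.Cr.Inst

/-!
# Row 289 (S0537, Cardy for Poisson-Voronoi), unit TR, item TR24 + (P4) LOCALITY, file Tr/Local      (owner helper22; prefix `pvloc_`, records `PvLoc`, `PvLocPth`, `PvLocCyc`)

Blueprint: `origin/helper295:notes/R289/TR_295.md` (TR24 transfer to completions), `origin/helper208:notes/R289/W1_208.md` sec. 2 ("BULK PATCH"), `origin/helper7:notes/R289/LM_7.md` (P4).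
The rims of `PvTransport` live in an ARBITRARY completion `𝔅.T Y`; the experiments of the wall live in the Delaunay plane `(delPl h).toMap`.   This file carries everything that is read in the shared patch from one surface to the other.

* sec. 1  `PvLoc T T' R` = `PlIso T T' R` (helper97, `Pl/Excise`) + consistency at the vertices;  `pvlocV` the vertex correspondence;  FULL vertices = `T.Int (plDom R)`;  `rot`, `opp`, adjacency, `Sec` at the full vertices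
* sec. 2  twin paths `PvLocPth`: existence, `RS`, walks, `Byp`, **`pvloc_nb`** (`NB^U` of helper105 is carried over), `Col`, tags
* sec. 3  twin cycles `PvLocCyc`: existence, **`pvloc_left`** (`Left` is carried over as soon as it lies in the shared part), `VOf`, `Int`, `verts`
* sec. 4  strands (`pvasStep`, `pvasIt` of helper158) and gates (`PvMap.Gate` of helper260)
* sec. 5  THE INSTANCE: `pvlocR 𝔅 h K` = the dictionary `DelbRel` of helper219 restricted to the star of `K`;  `pvloc_bulk : PvLoc ..`;  the sites of `K` are full on both sides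
* sec. 6  **TR24** `pvloc_act`, `pvloc_act_sec`: an arc of a rim of ANY completion through sites of `K` is a path of the Delaunay plane with `Col`, right tags, `NB^K`;  `pvloc_rim_arc`: the same for the encoded rims `𝔅.rims x R p`
* sec. 7  `pvloc_nb_circuit`: `NB^U` + a circuit of the other colour round the path inside `U`  ⟹  `NB^univ`
-/

set_option autoImplicit false

namespace Claimed.Agent.R289

open Relation

variable {V D V' D' : Type}

/-! ## 1. Local isomorphisms -/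

/-- LOCAL ISOMORPHISM of two dart structures: a partial isomorphism of darts which is consistent at the vertices -/
structure PvLoc (T : PvMap V D) (T' : PvMap V' D') (R : D → D' → Prop) : Prop where
  iso : PlIso T T' R
  vfn : ∀ {d e : D} {d' e' : D'}, R d d' → R e e' → T.src d = T.src e → T'.src d' = T'.src e'
  vinj : ∀ {d e : D} {d' e' : D'}, R d d' → R e e' → T'.src d' = T'.src e' → T.src d = T.src e

/-- the vertex correspondence of a dart correspondence -/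
def pvlocV (T : PvMap V D) (T' : PvMap V' D') (R : D → D' → Prop) (v : V) (v' : V') : Prop := ∃ d d', R d d' ∧ T.src d = v ∧ T'.src d' = v'

theorem pvloc_eqns_cite : True := by
  have := @pvlocV.eq_1
  trivial

section kit

variable {T : PvMap V D} {T' : PvMap V' D'} {R : D → D' → Prop}

theorem PvLoc.symm (L : PvLoc T T' R) : PvLoc T' T (fun d' d => R d d') := ⟨L.iso.symm, L.vinj, L.vfn⟩

theorem pvloc_v_symm {v : V} {v' : V'} (h : pvlocV T T' R v v') : pvlocV T' T (fun d' d => R d d') v' v := by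
  obtain ⟨d, d', h1, h2, h3⟩ := h
  exact ⟨d', d, h1, h3, h2⟩

theorem pvloc_v_fn (L : PvLoc T T' R) {v : V} {v' w' : V'} (h : pvlocV T T' R v v') (h' : pvlocV T T' R v w') : v' = w' := by
  obtain ⟨d, d', h1, h2, rfl⟩ := h
  obtain ⟨e, e', k1, k2, rfl⟩ := h'
  exact L.vfn h1 k1 (h2.trans k2.symm)

theorem pvloc_v_inj (L : PvLoc T T' R) {v w : V} {v' : V'} (h : pvlocV T T' R v v') (h' : pvlocV T T' R w v') : v = w :=
  pvloc_v_fn L.symm (pvloc_v_symm h) (pvloc_v_symm h')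

theorem pvloc_v_src {d : D} {d' : D'} (h : R d d') : pvlocV T T' R (T.src d) (T'.src d') := ⟨d, d', h, rfl, rfl⟩

theorem pvloc_v_tgt (L : PvLoc T T' R) {d : D} {d' : D'} (h : R d d') : pvlocV T T' R (T.tgt d) (T'.tgt d') := ⟨_, _, L.iso.nxt h, rfl, rfl⟩

theorem pvloc_v_apex (L : PvLoc T T' R) {d : D} {d' : D'} (h : R d d') : pvlocV T T' R (T.apex d) (T'.apex d') := ⟨_, _, L.iso.nxt (L.iso.nxt h), rfl, rfl⟩

/-- the colours agree at corresponding vertices -/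
theorem pvloc_v_col {s : V → Bool} {s' : V' → Bool} (hs : ∀ d d', R d d' → s (T.src d) = s' (T'.src d')) {v : V} {v' : V'} (h : pvlocV T T' R v v') : s v = s' v' := by
  obtain ⟨d, d', h1, rfl, rfl⟩ := h
  exact hs d d' h1

/-- the opposite dart is shared as soon as one end of the edge is a full vertex -/
theorem pvloc_opp_mem (L : PvLoc T T' R) {d : D} (h : T.src d ∈ T.Int (plDom R) ∨ T.tgt d ∈ T.Int (plDom R)) : T.opp d ∈ plDom R := by
  rcases h with h | h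
  · exact (L.iso.dom_face (T.opp d)).1 (h _ (by rw [T.src_nxt, T.tgt_opp]))
  · exact h _ (T.src_opp' d)

theorem pvloc_opp (L : PvLoc T T' R) {d : D} {d' : D'} (hd : R d d') (h : T.src d ∈ T.Int (plDom R) ∨ T.tgt d ∈ T.Int (plDom R)) : R (T.opp d) (T'.opp d') :=
  L.iso.opp_rel hd (pvloc_opp_mem L h)

theorem pvloc_rot (L : PvLoc T T' R) {d : D} {d' : D'} (hd : R d d') (h : T.src d ∈ T.Int (plDom R)) : R (T.rot d) (T'.rot d') :=
  L.iso.opp_rel (L.iso.nxt (L.iso.nxt hd)) (h _ (T.src_rot d))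

theorem pvloc_rot_iter (L : PvLoc T T' R) {d : D} {d' : D'} (hd : R d d') (h : T.src d ∈ T.Int (plDom R)) (j : ℕ) : R (T.rot^[j] d) (T'.rot^[j] d') := by
  induction j with
  | zero => exact hd
  | succ j ih =>
    rw [Function.iterate_succ_apply', Function.iterate_succ_apply']
    exact pvloc_rot L ih (by rw [T.src_rot_iter]; exact h)

/-- a full vertex corresponds to a full vertex -/
theorem pvloc_int (L : PvLoc T T' R) (hT' : T'.IsSph) {v : V} {v' : V'} (h : pvlocV T T' R v v') (hv : v ∈ T.Int (plDom R)) : v' ∈ T'.Int (plRan R) := by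
  obtain ⟨d, d', h1, rfl, rfl⟩ := h
  intro e' he'
  obtain ⟨j, rfl⟩ := hT'.link d' e' he'.symm
  exact ⟨_, pvloc_rot_iter L h1 hv j⟩

/-- the twin of a dart at a full vertex -/
theorem pvloc_dart (L : PvLoc T T' R) {v : V} {v' : V'} (h : pvlocV T T' R v v') (hv : v ∈ T.Int (plDom R)) {d : D} (hd : T.src d = v) : ∃ d', R d d' ∧ T'.src d' = v' := by
  obtain ⟨d', hd'⟩ := hv d hd
  exact ⟨d', hd', pvloc_v_fn L (hd ▸ pvloc_v_src hd') h⟩

theorem pvloc_adj (L : PvLoc T T' R) {x y : V} {x' : V'} (h : pvlocV T T' R x x') (hx : x ∈ T.Int (plDom R)) (hxy : T.Adj x y) : ∃ y', pvlocV T T' R y y' ∧ T'.Adj x' y' := by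
  obtain ⟨d, hd, rfl⟩ := hxy
  obtain ⟨d', h1, h2⟩ := pvloc_dart L h hx hd
  exact ⟨T'.tgt d', pvloc_v_tgt L h1, d', h2, rfl⟩

/-- open sectors at a full vertex -/
theorem pvloc_sec (L : PvLoc T T' R) {x y d : D} {x' y' : D'} (hx : R x x') (hy : R y y') (hv : T.src x ∈ T.Int (plDom R)) (hd : d ∈ T.OSec x y) : ∃ d', R d d' ∧ d' ∈ T'.OSec x' y' := by
  obtain ⟨j, hj, rfl, hno⟩ := hd
  exact ⟨_, pvloc_rot_iter L hx hv j, j, hj, rfl, fun i hi hij he => hno i hi hij (L.iso.inj (pvloc_rot_iter L hx hv i) (he ▸ hy))⟩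

end kit

/-! ## 2. Twin paths, bypasses -/

/-- TWIN PATHS -/
structure PvLocPth {T : PvMap V D} {T' : PvMap V' D'} (R : D → D' → Prop) (g : T.Pth) (g' : T'.Pth) : Prop where
  n_eq : g'.n = g.n
  e_rel : ∀ k, k < g.n → R (g.e k) (g'.e k)
  v_rel : ∀ k, k ≤ g.n → pvlocV T T' R (g.v k) (g'.v k)

section pth

variable {T : PvMap V D} {T' : PvMap V' D'} {R : D → D' → Prop}

theorem PvLocPth.symm {g : T.Pth} {g' : T'.Pth} (P : PvLocPth R g g') : PvLocPth (fun d' d => R d d') g' g :=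
  ⟨P.n_eq.symm, fun k hk => P.e_rel k (P.n_eq ▸ hk), fun k hk => pvloc_v_symm (P.v_rel k (P.n_eq ▸ hk))⟩

/-- **existence of the twin path** -/
theorem pvloc_pth_exists (L : PvLoc T T' R) (g : T.Pth) (hn : 0 < g.n) (hg : ∀ k, k < g.n → g.e k ∈ plDom R) : ∃ g' : T'.Pth, PvLocPth R g g' := by
  classical
  have hex : ∀ k, ∃ d', R (g.e (min k (g.n - 1))) d' := fun k => hg _ (by omega)
  choose f hf using hex
  have hf' : ∀ k, k < g.n → R (g.e k) (f k) := fun k hk => by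
    have := hf k
    rwa [min_eq_left (by omega)] at this
  have hv : ∀ k, k ≤ g.n → pvlocV T T' R (g.v k) (if k < g.n then T'.src (f k) else T'.tgt (f (g.n - 1))) := by
    intro k hk
    by_cases h : k < g.n
    · rw [if_pos h, ← g.src_e k h]
      exact pvloc_v_src (hf' k h)
    · rw [if_neg h]
      have hk' : k = (g.n - 1) + 1 := by omega
      rw [hk', ← g.tgt_e (g.n - 1) (by omega)]
      exact pvloc_v_tgt L (hf' _ (by omega))
  refine ⟨⟨g.n, fun k => if k < g.n then T'.src (f k) else T'.tgt (f (g.n - 1)), f, fun k hk => by rw [if_pos hk], fun k hk => ?_, fun i j hi hj hij => ?_⟩, rfl, hf', hv⟩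
  · have h1 : pvlocV T T' R (g.v (k + 1)) (T'.tgt (f k)) := by
      rw [← g.tgt_e k hk]
      exact pvloc_v_tgt L (hf' k hk)
    exact pvloc_v_fn L h1 (hv (k + 1) hk)
  · have h1 := hv i hi
    have h2 := hv j hj
    rw [hij] at h1
    exact g.inj i j hi hj (pvloc_v_inj L h1 h2)

theorem pvloc_pth_verts (L : PvLoc T T' R) {g : T.Pth} {g' : T'.Pth} (P : PvLocPth R g g') {v : V} {v' : V'} (h : pvlocV T T' R v v') : v ∈ g.verts ↔ v' ∈ g'.verts := by
  constructor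
  · rintro ⟨k, hk, rfl⟩
    exact ⟨k, P.n_eq ▸ hk, pvloc_v_fn L (P.v_rel k hk) h⟩
  · rintro ⟨k, hk, rfl⟩
    rw [P.n_eq] at hk
    exact ⟨k, hk, pvloc_v_inj L (P.v_rel k hk) h⟩

/-- the opposite darts of twin paths, at a full vertex -/
theorem pvloc_pth_opp (L : PvLoc T T' R) {g : T.Pth} {g' : T'.Pth} (P : PvLocPth R g g') {k : ℕ} (hk : k < g.n)
    (hv : g.v k ∈ T.Int (plDom R) ∨ g.v (k + 1) ∈ T.Int (plDom R)) : R (T.opp (g.e k)) (T'.opp (g'.e k)) :=
  pvloc_opp L (P.e_rel k hk) (by rw [g.src_e k hk, g.tgt_e k hk]; exact hv)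

/-- right darts of twin paths -/
theorem pvloc_rs (L : PvLoc T T' R) {g : T.Pth} {g' : T'.Pth} (P : PvLocPth R g g') {a0 a1 : D} {a0' a1' : D'} (r0 : R a0 a0') (r1 : R a1 a1')
    (h0 : T.src a0 ∈ T.Int (plDom R)) {k : ℕ} (hk : k ≤ g.n) (hv : g.v k ∈ T.Int (plDom R)) {d : D} (hd : d ∈ g.RS a0 a1 k) : ∃ d', R d d' ∧ d' ∈ g'.RS a0' a1' k := by
  unfold PvMap.Pth.RS at hd ⊢
  rw [P.n_eq]
  have hy : R (if k = g.n then a1 else g.e k) (if k = g.n then a1' else g'.e k) := by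
    by_cases h : k = g.n
    · rw [if_pos h, if_pos h]; exact r1
    · rw [if_neg h, if_neg h]; exact P.e_rel k (by omega)
  by_cases h : k = 0
  · rw [if_pos h] at hd ⊢
    exact pvloc_sec L r0 hy h0 hd
  · rw [if_neg h] at hd ⊢
    have hk1 : k - 1 + 1 = k := by omega
    have hx : R (T.opp (g.e (k - 1))) (T'.opp (g'.e (k - 1))) := pvloc_pth_opp L P (by omega) (Or.inr (by rw [hk1]; exact hv))
    refine pvloc_sec L hx hy ?_ hd
    rw [T.src_opp', g.tgt_e _ (by omega), hk1]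
    exact hv

/-- walks through full vertices -/
theorem pvloc_walk (L : PvLoc T T' R) {X : Set V} {X' : Set V'} (hX : X ⊆ T.Int (plDom R)) (hXX : ∀ v v', pvlocV T T' R v v' → v ∈ X → v' ∈ X') {a b : V}
    (h : ReflTransGen (fun x y => T.Adj x y ∧ x ∈ X) a b) {a' : V'} (ha : pvlocV T T' R a a') :
    ∃ b', pvlocV T T' R b b' ∧ ReflTransGen (fun x y => T'.Adj x y ∧ x ∈ X') a' b' := by
  induction h with
  | refl => exact ⟨a', ha, ReflTransGen.refl⟩
  | @tail b c _ hbc ih =>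
    obtain ⟨b', hb, hw⟩ := ih
    obtain ⟨c', hc, hadj⟩ := pvloc_adj L hb (hX hbc.2) hbc.1
    exact ⟨c', hc, hw.tail ⟨hadj, hXX _ _ hb hbc.2⟩⟩

/-- right bypasses through full vertices -/
theorem pvloc_byp (L : PvLoc T T' R) {g : T.Pth} {g' : T'.Pth} (P : PvLocPth R g g') {a0 a1 : D} {a0' a1' : D'} (r0 : R a0 a0') (r1 : R a1 a1')
    (h0 : T.src a0 ∈ T.Int (plDom R)) (hv : ∀ k, k ≤ g.n → g.v k ∈ T.Int (plDom R)) {X : Set V} {X' : Set V'} (hX : X ⊆ T.Int (plDom R))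
    (hXX : ∀ v v', pvlocV T T' R v v' → v ∈ X → v' ∈ X') (h : g.Byp a0 a1 X) : g'.Byp a0' a1' X' := by
  obtain ⟨k, l, hk, hl, hkl, d, hd, hw⟩ := h
  obtain ⟨d', hdd, hd'⟩ := pvloc_rs L P r0 r1 h0 hk (hv k hk) hd
  obtain ⟨b', hb, hw'⟩ := pvloc_walk L hX hXX hw (pvloc_v_tgt L hdd)
  rw [pvloc_v_fn L hb (P.v_rel l hl)] at hw'
  exact ⟨k, l, P.n_eq ▸ hk, P.n_eq ▸ hl, hkl, d', hd', hw'⟩

/-- **`NB^U` is carried over** (from `T` to `T'`; the hypotheses of fullness are on the side of `T'`; use `L.symm`, `P.symm` for the other direction) -/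
theorem pvloc_nb (L : PvLoc T T' R) {g : T.Pth} {g' : T'.Pth} (P : PvLocPth R g g') {a0 a1 : D} {a0' a1' : D'} (r0 : R a0 a0') (r1 : R a1 a1')
    (h0 : T'.src a0' ∈ T'.Int (plRan R)) (hv : ∀ k, k ≤ g'.n → g'.v k ∈ T'.Int (plRan R)) {s : V → Bool} {s' : V' → Bool}
    (hs : ∀ d d', R d d' → s (T.src d) = s' (T'.src d')) {b : Bool} {U : Set V} {U' : Set V'} (hU' : U' ⊆ T'.Int (plRan R))
    (hUU : ∀ v v', pvlocV T T' R v v' → v' ∈ U' → v ∈ U) (h : g.NB s b U a0 a1) : g'.NB s' b U' a0' a1' := by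
  intro hb
  refine h (pvloc_byp L.symm P.symm r0 r1 h0 hv (X := {v | v ∈ U' ∧ v ∉ g'.verts ∧ s' v = b}) (fun v hv' => hU' hv'.1) ?_ hb)
  rintro v' v hvv ⟨h1, h2, h3⟩
  have hvv' : pvlocV T T' R v v' := by
    obtain ⟨d', d, k1, k2, k3⟩ := hvv
    exact ⟨d, d', k1, k3, k2⟩
  exact ⟨hUU v v' hvv' h1, fun hg => h2 ((pvloc_pth_verts L P hvv').1 hg), by rw [pvloc_v_col hs hvv']; exact h3⟩

theorem pvloc_col {g : T.Pth} {g' : T'.Pth} (P : PvLocPth R g g') {s : V → Bool} {s' : V' → Bool} (hs : ∀ d d', R d d' → s (T.src d) = s' (T'.src d')) {b : Bool}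
    (h : g.Col s b) : g'.Col s' b := by
  intro k hk
  rw [P.n_eq] at hk
  rw [← pvloc_v_col hs (P.v_rel k hk)]
  exact h k hk

end pth

/-! ## 3. Twin cycles, their left sides -/

/-- TWIN CYCLES -/
structure PvLocCyc {T : PvMap V D} {T' : PvMap V' D'} (R : D → D' → Prop) (c : T.Cyc) (c' : T'.Cyc) : Prop where
  n_eq : c'.n = c.n
  e_rel : ∀ k, R (c.e k) (c'.e k)

section cyc

variable {T : PvMap V D} {T' : PvMap V' D'} {R : D → D' → Prop}

theorem PvLocCyc.symm {c : T.Cyc} {c' : T'.Cyc} (P : PvLocCyc R c c') : PvLocCyc (fun d' d => R d d') c' c := ⟨P.n_eq.symm, P.e_rel⟩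

/-- **existence of the twin cycle** -/
theorem pvloc_cyc_exists (L : PvLoc T T' R) (c : T.Cyc) (hc : ∀ k, c.e k ∈ plDom R) : ∃ c' : T'.Cyc, PvLocCyc R c c' := by
  choose f hf using hc
  refine ⟨⟨c.n, f, c.three, fun i => ?_, fun i => ?_, fun i j hi hj hij => ?_⟩, rfl, hf⟩
  · have h1 := hf (i + c.n)
    rw [c.per] at h1
    exact L.iso.fn h1 (hf i)
  · exact L.vfn (L.iso.nxt (hf i)) (hf (i + 1)) (c.chain i)
  · exact c.inj i j hi hj (L.vinj (hf i) (hf j) hij)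

theorem pvloc_cyc_verts (L : PvLoc T T' R) {c : T.Cyc} {c' : T'.Cyc} (P : PvLocCyc R c c') {v : V} {v' : V'} (h : pvlocV T T' R v v') : v ∈ c.verts ↔ v' ∈ c'.verts := by
  constructor
  · rintro ⟨k, rfl⟩
    exact ⟨k, pvloc_v_fn L (pvloc_v_src (P.e_rel k)) h⟩
  · rintro ⟨k, rfl⟩
    exact ⟨k, pvloc_v_inj L (pvloc_v_src (P.e_rel k)) h⟩

theorem pvloc_cyc_edg_fwd (L : PvLoc T T' R) {c : T.Cyc} {c' : T'.Cyc} (P : PvLocCyc R c c') {a : D} {a' : D'} (h : R a a') (he : T.Edg c.darts a) : T'.Edg c'.darts a' := by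
  rcases he with ⟨k, rfl⟩ | ⟨k, hk⟩
  · exact Or.inl ⟨k, L.iso.fn (P.e_rel k) h⟩
  · have h1 := P.e_rel k
    rw [hk] at h1
    exact Or.inr ⟨k, L.iso.opp h h1⟩

theorem pvloc_cyc_edg (L : PvLoc T T' R) {c : T.Cyc} {c' : T'.Cyc} (P : PvLocCyc R c c') {a : D} {a' : D'} (h : R a a') : T.Edg c.darts a ↔ T'.Edg c'.darts a' :=
  ⟨pvloc_cyc_edg_fwd L P h, pvloc_cyc_edg_fwd L.symm P.symm h⟩

theorem pvloc_left_fwd (L : PvLoc T T' R) {c : T.Cyc} {c' : T'.Cyc} (P : PvLocCyc R c c') (hL : c.Left ⊆ plDom R) {d : D} (hd : d ∈ c.Left) : ∃ d', R d d' ∧ d' ∈ c'.Left := by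
  have key : ∀ d, ReflTransGen (T.DStep c.darts) (c.e 0) d → ∃ d', R d d' ∧ ReflTransGen (T'.DStep c'.darts) (c'.e 0) d' := by
    intro d h
    induction h with
    | refl => exact ⟨c'.e 0, P.e_rel 0, ReflTransGen.refl⟩
    | @tail a b hab hstep ih =>
      obtain ⟨a', ha, hl⟩ := ih
      have hb : b ∈ plDom R := hL (hab.tail hstep)
      rcases hstep with rfl | ⟨rfl, hne⟩
      · exact ⟨_, L.iso.nxt ha, hl.tail (Or.inl rfl)⟩
      · exact ⟨_, L.iso.opp_rel ha hb, hl.tail (Or.inr ⟨rfl, fun he => hne ((pvloc_cyc_edg L P ha).2 he)⟩)⟩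
  exact key d hd

theorem pvloc_left_bwd (L : PvLoc T T' R) {c : T.Cyc} {c' : T'.Cyc} (P : PvLocCyc R c c') (hL : c.Left ⊆ plDom R) {d' : D'} (hd : d' ∈ c'.Left) : ∃ d, R d d' ∧ d ∈ c.Left := by
  have key : ∀ d', ReflTransGen (T'.DStep c'.darts) (c'.e 0) d' → ∃ d, R d d' ∧ ReflTransGen (T.DStep c.darts) (c.e 0) d := by
    intro d' h
    induction h with
    | refl => exact ⟨c.e 0, P.e_rel 0, ReflTransGen.refl⟩
    | @tail a' b' _ hstep ih =>
      obtain ⟨a, ha, hl⟩ := ih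
      rcases hstep with rfl | ⟨rfl, hne⟩
      · exact ⟨_, L.iso.nxt ha, hl.tail (Or.inl rfl)⟩
      · have h1 : ReflTransGen (T.DStep c.darts) (c.e 0) (T.opp a) := hl.tail (Or.inr ⟨rfl, fun he => hne ((pvloc_cyc_edg L P ha).1 he)⟩)
        exact ⟨_, L.iso.opp_rel ha (hL h1), h1⟩
  exact key d' hd

/-- **the left side of a cycle is carried over** as soon as it lies in the shared part -/
theorem pvloc_left (L : PvLoc T T' R) {c : T.Cyc} {c' : T'.Cyc} (P : PvLocCyc R c c') (hL : c.Left ⊆ plDom R) {d : D} {d' : D'} (h : R d d') : d ∈ c.Left ↔ d' ∈ c'.Left := by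
  constructor
  · intro hd
    obtain ⟨e', h1, h2⟩ := pvloc_left_fwd L P hL hd
    rwa [L.iso.fn h h1]
  · intro hd
    obtain ⟨e, h1, h2⟩ := pvloc_left_bwd L P hL hd
    rwa [L.iso.inj h h1]

theorem pvloc_left_ran (L : PvLoc T T' R) {c : T.Cyc} {c' : T'.Cyc} (P : PvLocCyc R c c') (hL : c.Left ⊆ plDom R) : c'.Left ⊆ plRan R := by
  intro d' hd
  obtain ⟨e, h1, -⟩ := pvloc_left_bwd L P hL hd
  exact ⟨e, h1⟩

theorem pvloc_left_VOf (L : PvLoc T T' R) {c : T.Cyc} {c' : T'.Cyc} (P : PvLocCyc R c c') (hL : c.Left ⊆ plDom R) {v : V} {v' : V'} (h : pvlocV T T' R v v') :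
    v ∈ T.VOf c.Left ↔ v' ∈ T'.VOf c'.Left := by
  constructor
  · rintro ⟨d, hd, rfl⟩
    obtain ⟨d', h1, h2⟩ := pvloc_left_fwd L P hL hd
    exact ⟨d', h2, pvloc_v_fn L (pvloc_v_src h1) h⟩
  · rintro ⟨d', hd, rfl⟩
    obtain ⟨d, h1, h2⟩ := pvloc_left_bwd L P hL hd
    exact ⟨d, h2, pvloc_v_inj L (pvloc_v_src h1) h⟩

theorem pvloc_int_sub {A B : Set D} (h : A ⊆ B) : T.Int A ⊆ T.Int B := fun _ hv d hd => h (hv d hd)

theorem pvloc_left_int_fwd (L : PvLoc T T' R) (hT' : T'.IsSph) {c : T.Cyc} {c' : T'.Cyc} (P : PvLocCyc R c c') (hL : c.Left ⊆ plDom R) {v : V} {v' : V'} (h : pvlocV T T' R v v')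
    (hv : v ∈ T.Int c.Left) : v' ∈ T'.Int c'.Left := by
  intro d' hd'
  obtain ⟨d, hd⟩ := pvloc_int L hT' h (pvloc_int_sub hL hv) d' hd'
  exact (pvloc_left L P hL hd).1 (hv d (pvloc_v_inj L (pvloc_v_src hd) (hd' ▸ h)))

theorem pvloc_left_int (L : PvLoc T T' R) (hT : T.IsSph) (hT' : T'.IsSph) {c : T.Cyc} {c' : T'.Cyc} (P : PvLocCyc R c c') (hL : c.Left ⊆ plDom R) {v : V} {v' : V'}
    (h : pvlocV T T' R v v') : v ∈ T.Int c.Left ↔ v' ∈ T'.Int c'.Left :=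
  ⟨pvloc_left_int_fwd L hT' P hL h, pvloc_left_int_fwd L.symm hT P.symm (pvloc_left_ran L P hL) (pvloc_v_symm h)⟩

end cyc

/-! ## 4. Strands and gates -/

section strand

variable {T : PvMap V D} {T' : PvMap V' D'} {R : D → D' → Prop} {s : V → Bool} {s' : V' → Bool}

theorem pvloc_bw (L : PvLoc T T' R) (hs : ∀ d d', R d d' → s (T.src d) = s' (T'.src d')) {a : D} {a' : D'} (h : R a a') : pvasBW T s a ↔ pvasBW T' s' a' := by
  unfold pvasBW
  rw [hs _ _ h, show s (T.tgt a) = s' (T'.tgt a') from hs _ _ (L.iso.nxt h)]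

/-- one step of a strand -/
theorem pvloc_step (L : PvLoc T T' R) (hs : ∀ d d', R d d' → s (T.src d) = s' (T'.src d')) {a : D} {a' : D'} (h : R a a') (hm : pvasStep T s a ∈ plDom R) :
    R (pvasStep T s a) (pvasStep T' s' a') := by
  have h3 : s (T.apex a) = s' (T'.apex a') := hs _ _ (L.iso.nxt (L.iso.nxt h))
  unfold pvasStep at hm ⊢
  rw [← h3]
  by_cases hc : s (T.apex a) = true
  · rw [if_pos hc] at hm ⊢
    rw [if_pos hc]
    exact L.iso.opp_rel (L.iso.nxt h) hm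
  · rw [if_neg hc] at hm ⊢
    rw [if_neg hc]
    exact L.iso.opp_rel (L.iso.nxt (L.iso.nxt h)) hm

/-- a strand, as long as it stays in the shared part -/
theorem pvloc_it (L : PvLoc T T' R) (hs : ∀ d d', R d d' → s (T.src d) = s' (T'.src d')) {a : D} {a' : D'} (h : R a a') {n : ℕ} (hm : ∀ j, j ≤ n → pvasIt T s a j ∈ plDom R) :
    ∀ j, j ≤ n → R (pvasIt T s a j) (pvasIt T' s' a' j) := by
  intro j
  induction j with
  | zero => intro _; exact h
  | succ j ih =>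
    intro hj
    have h1 := ih (by omega)
    have h2 := hm (j + 1) hj
    unfold pvasIt at h1 h2 ⊢
    rw [Function.iterate_succ_apply'] at h2 ⊢
    rw [Function.iterate_succ_apply']
    exact pvloc_step L hs h1 h2

/-- the next position of a strand in the disc of a cycle lies in the disc or in its collar -/
theorem pvloc_step_mem (hT : T.IsSph) {c : T.Cyc} (hL : c.Left ⊆ plDom R) (hcol : ∀ k, T.opp (c.e k) ∈ plDom R) {a : D} (ha : a ∈ c.Left) : pvasStep T s a ∈ plDom R := by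
  have key : ∀ x, x ∈ c.Left → T.opp x ∈ plDom R := by
    intro x hx
    by_cases h : T.opp x ∈ c.Left
    · exact hL h
    · obtain ⟨k, rfl⟩ := pl_rc_dart hT hx h
      exact hcol k
  unfold pvasStep
  split_ifs
  · exact key _ ((pl_left_face c _).2 ha)
  · exact key _ (((pl_left_face c).nxt2 T _).2 ha)

/-- a strand in the disc of a cycle, up to and including its exit -/
theorem pvloc_it_disc (L : PvLoc T T' R) (hT : T.IsSph) (hs : ∀ d d', R d d' → s (T.src d) = s' (T'.src d')) {c : T.Cyc} (hL : c.Left ⊆ plDom R) (hcol : ∀ k, T.opp (c.e k) ∈ plDom R)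
    {a : D} {a' : D'} (h : R a a') {n : ℕ} (hin : ∀ j, j < n → pvasIt T s a j ∈ c.Left) : ∀ j, j ≤ n → R (pvasIt T s a j) (pvasIt T' s' a' j) := by
  refine pvloc_it L hs h fun j hj => ?_
  rcases Nat.eq_zero_or_pos j with rfl | hj0
  · exact ⟨a', h⟩
  · obtain ⟨i, rfl⟩ : ∃ i, j = i + 1 := ⟨j - 1, by omega⟩
    have := pvloc_step_mem (s := s) hT hL hcol (hin i (by omega))
    unfold pvasIt at this ⊢
    rwa [Function.iterate_succ_apply']

/-- the exit time from the disc of a cycle is carried over -/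
theorem pvloc_hit (L : PvLoc T T' R) (hT : T.IsSph) (hs : ∀ d d', R d d' → s (T.src d) = s' (T'.src d')) {c : T.Cyc} {c' : T'.Cyc} (P : PvLocCyc R c c') (hL : c.Left ⊆ plDom R)
    (hcol : ∀ k, T.opp (c.e k) ∈ plDom R) {a : D} {a' : D'} (h : R a a') : pvasHit T' s' a' c'.Leftᶜ = pvasHit T s a c.Leftᶜ := by
  unfold pvasHit
  rcases Set.eq_empty_or_nonempty {n | pvasIt T s a n ∈ c.Leftᶜ} with he | hne
  · have hall : ∀ n, pvasIt T s a n ∈ c.Left := fun n => by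
      by_contra hn
      have : n ∈ {n | pvasIt T s a n ∈ c.Leftᶜ} := hn
      rw [he] at this
      exact this
    have he' : {n | pvasIt T' s' a' n ∈ c'.Leftᶜ} = ∅ := by
      apply Set.eq_empty_of_forall_notMem
      intro n hn
      exact hn ((pvloc_left L P hL (pvloc_it_disc L hT hs hL hcol h (n := n) (fun j _ => hall j) n le_rfl)).1 (hall n))
    rw [he, he']
  · have hN := Nat.sInf_mem hne
    set N := sInf {n | pvasIt T s a n ∈ c.Leftᶜ} with hNdef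
    have hin : ∀ j, j < N → pvasIt T s a j ∈ c.Left := fun j hj => by
      by_contra hn
      exact Nat.notMem_of_lt_sInf hj hn
    have hrel := pvloc_it_disc L hT hs hL hcol h hin
    have hN' : N ∈ {n | pvasIt T' s' a' n ∈ c'.Leftᶜ} := fun hm => hN ((pvloc_left L P hL (hrel N le_rfl)).2 hm)
    apply le_antisymm (Nat.sInf_le hN')
    by_contra hlt
    push Not at hlt
    have hm := Nat.sInf_mem (⟨N, hN'⟩ : {n | pvasIt T' s' a' n ∈ c'.Leftᶜ}.Nonempty)
    exact hm ((pvloc_left L P hL (hrel _ hlt.le)).1 (hin _ hlt))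

end strand

/-! ## 5. The instance: a bulk family against the Delaunay plane -/

section inst

variable {X : Type} {𝔅 : PvBulk X} {Y K : Set ℂ} {h : DelGood Y}

/-- the dictionary of helper219 restricted to the star of `K` -/
def pvlocR (𝔅 : PvBulk X) (h : DelGood Y) (K : Set ℂ) (d : 𝔅.D Y) (e : (delPl h).Dart) : Prop := DelbRel 𝔅 h d e ∧ e ∈ delbStar h K

theorem pvloc_eqns_cite2 : True := by
  have := @pvlocR.eq_1
  trivial

/-- **THE INSTANCE** -/
theorem pvloc_bulk (hOk : 𝔅.Ok Y K) : PvLoc (𝔅.T Y) (delPl h).toMap (pvlocR 𝔅 h K) where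
  iso :=
    { fn := fun h1 h2 => delb_rel_fun h1.1 h2.1
      inj := fun h1 h2 => delb_rel_inj hOk h1.1 h2.1
      nxt := fun h1 => ⟨delb_rel_nxt hOk h1.1 (delb_emb_of_star hOk h1.1 h1.2), delb_star_nxt.2 h1.2⟩
      opp := fun h1 h2 => delb_rel_fun h2.1 (delb_rel_opp h1.1)
      opp' := fun h1 h2 => delb_rel_inj hOk h2.1 (delb_rel_opp h1.1) }
  vfn := fun h1 h2 he => Subtype.ext (Sum.inl_injective (h1.1.1.symm.trans ((congrArg (𝔅.lab Y) he).trans h2.1.1)))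
  vinj := fun h1 h2 he => hOk.inj (h1.1.1.trans ((congrArg (fun v : ↥Y => (Sum.inl (v : ℂ) : ℂ ⊕ X)) he).trans h2.1.1.symm))

/-- the sites of `K` are full vertices of the bulk family -/
theorem pvloc_bulk_int (hOk : 𝔅.Ok Y K) {v : 𝔅.V Y} {a : ℂ} (hv : 𝔅.lab Y v = Sum.inl a) (ha : a ∈ K) : v ∈ (𝔅.T Y).Int (plDom (pvlocR 𝔅 h K)) := by
  intro d hd
  have hd' : 𝔅.lab Y ((𝔅.T Y).src d) = Sum.inl a := by rw [hd]; exact hv
  obtain ⟨e, he⟩ := delb_rel_of_emb h hOk (delb_emb_of_src hOk hd' ha)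
  exact ⟨e, he, delb_star_of_src he hd' ha⟩

/-- the sites of `K` are full vertices of the plane -/
theorem pvloc_plane_int (hOk : 𝔅.Ok Y K) {v : ↥Y} (ha : (v : ℂ) ∈ K) : v ∈ (delPl h).toMap.Int (plRan (pvlocR 𝔅 h K)) := by
  intro e he
  have hs : e ∈ delbStar h K := Or.inl (by rw [he]; exact ha)
  obtain ⟨d, hd, -⟩ := delb_rel_of_star hOk hs
  exact ⟨d, hd, hs⟩

/-- the vertex correspondence is the equality of the names -/
theorem pvloc_bulk_v {v : 𝔅.V Y} {v' : ↥Y} (hv : pvlocV (𝔅.T Y) (delPl h).toMap (pvlocR 𝔅 h K) v v') : 𝔅.lab Y v = Sum.inl (v' : ℂ) := by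
  obtain ⟨d, e, h1, rfl, rfl⟩ := hv
  exact h1.1.1

theorem pvloc_bulk_col {s : 𝔅.V Y → Bool} {σ : ℂ → Bool} (hs : DelbCol 𝔅 s σ) :
    ∀ d e, pvlocR 𝔅 h K d e → s ((𝔅.T Y).src d) = (fun v : ↥Y => σ v) ((delPl h).toMap.src e) := fun _ _ h1 => hs _ _ h1.1.1

/-- a related pair with an end in `K` -/
theorem pvloc_bulk_rel {d : 𝔅.D Y} {e : (delPl h).Dart} (h1 : DelbRel 𝔅 h d e) (hK : ((delPl h).toMap.src e : ℂ) ∈ K ∨ ((delPl h).toMap.tgt e : ℂ) ∈ K) : pvlocR 𝔅 h K d e :=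
  ⟨h1, hK.elim Or.inl fun h2 => Or.inr (Or.inl h2)⟩

end inst

/-! ## 6. TR24: arcs of rims of any completion are arcs of the plane -/

section tr24

variable {X : Type} {𝔅 : PvBulk X} {Y K : Set ℂ}

/-- **TR24, dart form**: `c` a rim of ANY completion, the vertices number `i, …, i + n` are sites of `K`.   Then the arc is a path of the Delaunay plane, of one colour, with tags on its right, and it has `NB^K` in the plane
for the twins of all gate darts on the right of `c`. -/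
theorem pvloc_act (h : DelGood Y) (hOk : 𝔅.Ok Y K) {s : 𝔅.V Y → Bool} {σ : ℂ → Bool} (hs : DelbCol 𝔅 s σ) {c : (𝔅.T Y).Cyc} (hc : c.IsRim s) {i n : ℕ} (hn : 0 < n) (hnc : n < c.n)
    (hK : ∀ k, k ≤ n → ∃ a ∈ K, 𝔅.lab Y ((𝔅.T Y).src (c.e (i + k))) = Sum.inl a) :
    ∃ g : (delPl h).toMap.Pth, g.n = n ∧ (∀ k, k < n → DelbRel 𝔅 h (c.e (i + k)) (g.e k)) ∧ (∀ k, k ≤ n → 𝔅.lab Y ((𝔅.T Y).src (c.e (i + k))) = Sum.inl (g.v k : ℂ)) ∧
      g.Col (fun v => σ v) (s ((𝔅.T Y).src (c.e 0))) ∧ (∀ k, k < n → (delPl h).toMap.Tag (fun v => σ v) ((delPl h).toMap.opp (g.e k))) ∧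
      ∀ (a0 a1 : 𝔅.D Y) (a0' a1' : (delPl h).Dart), ((𝔅.T Y).src a0 = (𝔅.T Y).src (c.e i) ∧ a0 ∉ c.Left ∧ (𝔅.T Y).opp a0 ∉ c.Left) →
        ((𝔅.T Y).src a1 = (𝔅.T Y).src (c.e (i + n)) ∧ a1 ∉ c.Left ∧ (𝔅.T Y).opp a1 ∉ c.Left) → DelbRel 𝔅 h a0 a0' → DelbRel 𝔅 h a1 a1' →
        g.NB (fun v => σ v) (s ((𝔅.T Y).src (c.e 0))) {v | (v : ℂ) ∈ K} a0' a1' := by
  have L : PvLoc (𝔅.T Y) (delPl h).toMap (pvlocR 𝔅 h K) := pvloc_bulk hOk
  have hcol := pvloc_bulk_col (h := h) (K := K) hs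
  have hgn : (c.pth i n).n = n := by
    show min n (c.n - 1) = n
    omega
  have hfull : ∀ k, k ≤ n → (𝔅.T Y).src (c.e (i + k)) ∈ (𝔅.T Y).Int (plDom (pvlocR 𝔅 h K)) := fun k hk => by
    obtain ⟨a, ha, hl⟩ := hK k hk
    exact pvloc_bulk_int hOk hl ha
  obtain ⟨g, P⟩ := pvloc_pth_exists L (c.pth i n) (by omega) (fun k hk => hfull k (by omega) _ rfl)
  have hlab : ∀ k, k ≤ n → 𝔅.lab Y ((𝔅.T Y).src (c.e (i + k))) = Sum.inl (g.v k : ℂ) := fun k hk => pvloc_bulk_v (P.v_rel k (by omega))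
  have hgK : ∀ k, k ≤ n → (g.v k : ℂ) ∈ K := fun k hk => by
    obtain ⟨a, ha, hl⟩ := hK k hk
    have := Sum.inl_injective (hl.symm.trans (hlab k hk))
    exact this ▸ ha
  have hgn' : g.n = n := P.n_eq.trans hgn
  refine ⟨g, hgn', fun k hk => (P.e_rel k (by omega)).1, hlab, ?_, ?_, ?_⟩
  · exact pvloc_col P hcol (fun k _ => pl_rim_col hc _ 0)
  · intro k hk
    exact (pl_ex_tag L.iso hcol (pvloc_pth_opp L P (by omega) (Or.inl (hfull k (by omega))))).1 (pl_rim_tag hc (i + k))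
  · intro a0 a1 a0' a1' h0 h1 r0 r1
    have e0 : ((delPl h).toMap.src a0' : ℂ) = g.v 0 := by
      have := r0.1
      rw [h0.1] at this
      exact Sum.inl_injective (this.symm.trans (hlab 0 (Nat.zero_le _)))
    have e1 : ((delPl h).toMap.src a1' : ℂ) = g.v n := by
      have := r1.1
      rw [h1.1] at this
      exact Sum.inl_injective (this.symm.trans (hlab n le_rfl))
    have k0 : ((delPl h).toMap.src a0' : ℂ) ∈ K := e0 ▸ hgK 0 (Nat.zero_le _)
    have k1 : ((delPl h).toMap.src a1' : ℂ) ∈ K := e1 ▸ hgK n le_rfl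
    refine pvloc_nb L P (pvloc_bulk_rel r0 (Or.inl k0)) (pvloc_bulk_rel r1 (Or.inl k1)) (pvloc_plane_int hOk k0) (fun k hk => pvloc_plane_int hOk (hgK k (by omega))) hcol
      (fun v hv => pvloc_plane_int hOk hv) (U := Set.univ) (fun _ _ _ _ => Set.mem_univ _) ?_
    refine (pvnb_act hOk.sph hc (g := c.pth i n) (i := i) (by omega) (fun k _ => rfl) h0 ?_ Set.univ).2
    rw [hgn]
    exact h1

/-- **TR24, sector form**: everything is read in the plane: `e0`, `e1` = the plane twins of the rim darts before and after the arc; the gate darts are ANY plane darts in the two right sectors. -/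
theorem pvloc_act_sec (h : DelGood Y) (hOk : 𝔅.Ok Y K) {s : 𝔅.V Y → Bool} {σ : ℂ → Bool} (hs : DelbCol 𝔅 s σ) {c : (𝔅.T Y).Cyc} (hc : c.IsRim s) {j n : ℕ} (hn : 0 < n) (hnc : n < c.n)
    (hK : ∀ k, k ≤ n → ∃ a ∈ K, 𝔅.lab Y ((𝔅.T Y).src (c.e (j + 1 + k))) = Sum.inl a) :
    ∃ (g : (delPl h).toMap.Pth) (e0 e1 : (delPl h).Dart), g.n = n ∧ (∀ k, k < n → DelbRel 𝔅 h (c.e (j + 1 + k)) (g.e k)) ∧ DelbRel 𝔅 h (c.e j) e0 ∧ DelbRel 𝔅 h (c.e (j + 1 + n)) e1 ∧
      (∀ k, k ≤ n → 𝔅.lab Y ((𝔅.T Y).src (c.e (j + 1 + k))) = Sum.inl (g.v k : ℂ)) ∧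
      g.Col (fun v => σ v) (s ((𝔅.T Y).src (c.e 0))) ∧ (∀ k, k < n → (delPl h).toMap.Tag (fun v => σ v) ((delPl h).toMap.opp (g.e k))) ∧
      ∀ a0 ∈ (delPl h).toMap.OSec ((delPl h).toMap.opp e0) (g.e 0), ∀ a1 ∈ (delPl h).toMap.OSec ((delPl h).toMap.opp (g.e (n - 1))) e1,
        g.NB (fun v => σ v) (s ((𝔅.T Y).src (c.e 0))) {v | (v : ℂ) ∈ K} a0 a1 := by
  have L : PvLoc (𝔅.T Y) (delPl h).toMap (pvlocR 𝔅 h K) := pvloc_bulk hOk
  obtain ⟨g, hgn, hrel, hlab, hcol, htag, hnb⟩ := pvloc_act h hOk hs hc (i := j + 1) hn hnc hK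
  have hgK : ∀ k, k ≤ n → (g.v k : ℂ) ∈ K := fun k hk => by
    obtain ⟨a, ha, hl⟩ := hK k hk
    have := Sum.inl_injective (hl.symm.trans (hlab k hk))
    exact this ▸ ha
  have l0 : 𝔅.lab Y ((𝔅.T Y).tgt (c.e j)) = Sum.inl (g.v 0 : ℂ) := by
    rw [c.chain]
    exact hlab 0 (Nat.zero_le _)
  obtain ⟨e0, r0⟩ := delb_rel_of_emb h hOk (delb_emb_of_tgt hOk l0 (hgK 0 (Nat.zero_le _)))
  obtain ⟨e1, r1⟩ := delb_rel_of_emb h hOk (delb_emb_of_src hOk (hlab n le_rfl) (hgK n le_rfl))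
  have t0 : ((delPl h).toMap.tgt e0 : ℂ) = g.v 0 := Sum.inl_injective (r0.2.symm.trans l0)
  have s1 : ((delPl h).toMap.src e1 : ℂ) = g.v n := Sum.inl_injective (r1.1.symm.trans (hlab n le_rfl))
  refine ⟨g, e0, e1, hgn, hrel, r0, r1, hlab, hcol, htag, ?_⟩
  intro a0 ha0 a1 ha1
  -- the twins of the gate darts
  have R0 : pvlocR 𝔅 h K ((𝔅.T Y).opp (c.e j)) ((delPl h).toMap.opp e0) :=
    pvloc_bulk_rel (delb_rel_opp r0) (Or.inl (by rw [PvMap.src_opp', t0]; exact hgK 0 (Nat.zero_le _)))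
  have Rg : ∀ k, k < n → pvlocR 𝔅 h K (c.e (j + 1 + k)) (g.e k) := fun k hk =>
    pvloc_bulk_rel (hrel k hk) (Or.inl (by rw [g.src_e k (by omega)]; exact hgK k (by omega)))
  have R1 : pvlocR 𝔅 h K (c.e (j + 1 + n)) e1 := pvloc_bulk_rel r1 (Or.inl (by rw [s1]; exact hgK n le_rfl))
  have Rl : pvlocR 𝔅 h K ((𝔅.T Y).opp (c.e (j + 1 + (n - 1)))) ((delPl h).toMap.opp (g.e (n - 1))) :=
    pvloc_bulk_rel (delb_rel_opp (hrel (n - 1) (by omega))) (Or.inl (by
      rw [PvMap.src_opp', g.tgt_e (n - 1) (by omega), Nat.sub_add_cancel hn]; exact hgK n le_rfl))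
  obtain ⟨b0, hb0, hb0'⟩ := pvloc_sec L.symm (x := (delPl h).toMap.opp e0) (y := g.e 0) R0 (Rg 0 hn)
    (pvloc_plane_int hOk (by rw [PvMap.src_opp', t0]; exact hgK 0 (Nat.zero_le _))) ha0
  obtain ⟨b1, hb1, hb1'⟩ := pvloc_sec L.symm (x := (delPl h).toMap.opp (g.e (n - 1))) (y := e1) Rl R1
    (pvloc_plane_int hOk (by rw [PvMap.src_opp', g.tgt_e (n - 1) (by omega), Nat.sub_add_cancel hn]; exact hgK n le_rfl)) ha1
  have c0 := (pvnb_sec_cyc hOk.sph c j b0).1 hb0'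
  have e2 : j + 1 + (n - 1) = j + n := by omega
  have e3 : j + 1 + n = j + n + 1 := by omega
  rw [e2, e3] at hb1'
  have c1 := (pvnb_sec_cyc hOk.sph c (j + n) b1).1 hb1'
  rw [← e3] at c1
  exact hnb b0 b1 a0 a1 c0 c1 hb0.1 hb1.1

theorem pvloc_posF_inl {zi : ℂ} {v : 𝔅.V Y} {a : ℂ} (h : 𝔅.lab Y v = Sum.inl a) : 𝔅.posF Y zi v = a := by
  unfold PvBulk.posF; rw [h]; rfl

/-- a vertex whose encoded position lies in the ball of agreement is a site -/
theorem pvloc_posF {x : ℂ} {R : ℝ} (hR : 0 < R) {v : 𝔅.V Y} (hv : ‖𝔅.posF Y (x + 7 * R) v - x‖ ≤ 6 * R) : 𝔅.lab Y v = Sum.inl (𝔅.posF Y (x + 7 * R) v) := by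
  unfold PvBulk.posF at hv ⊢
  rcases hl : 𝔅.lab Y v with a | e
  · rfl
  · rw [hl] at hv
    exfalso
    simp only [Sum.elim_inr, add_sub_cancel_left] at hv
    have : ‖(7 * (R : ℂ))‖ = 7 * R := by
      rw [norm_mul, Complex.norm_real, Real.norm_of_nonneg hR.le]
      simp
    rw [this] at hv
    linarith

/-- **TR24, encoded form**: the arcs of the reaching rims of ANY bulk family inside the ball of agreement -/
theorem pvloc_rim_arc (𝔅 : PvBulk X) {x : ℂ} {R : ℝ} (hR : 0 < R) {p : Claims.C0465.PVSample × (X → Bool)} (h : DelGood (cfSites (pvConf p.1))) {P : PvbRim} (hP : P ∈ 𝔅.rims x R p)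
    {j n : ℕ} (hn : 0 < n) (hjn : j + n + 2 ≤ P.len) (hball : ∀ k, k ≤ n → ‖P.v (j + 1 + k) - x‖ ≤ 6 * R) :
    ∃ (b : Bool) (g : (delPl h).toMap.Pth) (e0 e1 : (delPl h).Dart), g.n = n ∧ (∀ k, k ≤ n → (g.v k : ℂ) = P.v (j + 1 + k)) ∧
      ((delPl h).toMap.src e0 : ℂ) = P.v j ∧ (delPl h).toMap.tgt e0 = g.v 0 ∧ (delPl h).toMap.src e1 = g.v n ∧ ((delPl h).toMap.tgt e1 : ℂ) = P.v (j + n + 2) ∧
      g.Col (fun v => cfCol (pvConf p.1) v) b ∧
      (∀ k, k < n → (delPl h).toMap.Tag (fun v => cfCol (pvConf p.1) v) ((delPl h).toMap.opp (g.e k)) ∧ P.z (j + 1 + k) = (delPl h).toMap.bary Subtype.val ((delPl h).toMap.opp (g.e k)) ∧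
        P.xQ (j + 1 + k) = (delPl h).toMap.qpart Subtype.val ((delPl h).toMap.opp (g.e k)) ∧ P.xV (j + 1 + k) = (delPl h).toMap.side Subtype.val ((delPl h).toMap.opp (g.e k))) ∧
      ∀ a0 ∈ (delPl h).toMap.OSec ((delPl h).toMap.opp e0) (g.e 0), ∀ a1 ∈ (delPl h).toMap.OSec ((delPl h).toMap.opp (g.e (n - 1))) e1,
        g.NB (fun v => cfCol (pvConf p.1) v) b {v | ‖(v : ℂ) - x‖ ≤ 6 * R} a0 a1 := by
  obtain ⟨-, hOk, c, hc, -, rfl⟩ := hP
  have hjn' : j + n + 2 ≤ c.n := hjn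
  have hball' : ∀ k, k ≤ n → ‖𝔅.posF _ (x + 7 * R) ((𝔅.T _).src (c.e (j + 1 + k))) - x‖ ≤ 6 * R := hball
  have hK : ∀ k, k ≤ n → ∃ a ∈ Metric.closedBall x (6 * R), 𝔅.lab _ ((𝔅.T _).src (c.e (j + 1 + k))) = Sum.inl a := fun k hk =>
    ⟨_, mem_closedBall_iff_norm.2 (hball' k hk), pvloc_posF hR (hball' k hk)⟩
  obtain ⟨g, e0, e1, hgn, hrel, r0, r1, hlab, hcol, htag, hnb⟩ := pvloc_act_sec h hOk (delb_col 𝔅 (pvConf p.1) p.2) hc (j := j) hn (by omega) hK
  have hgK : ∀ k, k ≤ n → (g.v k : ℂ) ∈ Metric.closedBall x (6 * R) := fun k hk => by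
    obtain ⟨a, ha, hl⟩ := hK k hk
    have := Sum.inl_injective (hl.symm.trans (hlab k hk))
    exact this ▸ ha
  refine ⟨_, g, e0, e1, hgn, fun k hk => (pvloc_posF_inl (hlab k hk)).symm, (pvloc_posF_inl r0.1).symm, ?_, ?_, ?_, hcol, ?_, ?_⟩
  · apply Subtype.ext
    have := r0.2
    rw [c.chain] at this
    exact Sum.inl_injective (this.symm.trans (hlab 0 (Nat.zero_le _)))
  · exact Subtype.ext (Sum.inl_injective (r1.1.symm.trans (hlab n le_rfl)))
  · have := r1.2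
    rw [c.chain] at this
    have e : j + 1 + n + 1 = j + n + 2 := by omega
    rw [e] at this
    exact (pvloc_posF_inl this).symm
  · intro k hk
    have hemb : 𝔅.Emb _ ((𝔅.T _).opp (c.e (j + 1 + k))) := delb_emb_opp_of_src hOk (hlab k hk.le) (hgK k hk.le)
    have hr := delb_rel_opp (hrel k hk)
    refine ⟨htag k hk, ?_, ?_, ?_⟩
    · unfold PvBulk.enc
      simp only
      rw [if_pos hemb]
      exact delb_rel_bary hOk hr hemb
    · unfold PvBulk.enc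
      simp only
      rw [if_pos hemb]
      exact delb_rel_qpart hOk hr hemb
    · unfold PvBulk.enc
      simp only
      rw [if_pos hemb]
      exact delb_rel_side hr
  · intro a0 ha0 a1 ha1
    refine pvnb_nb_anti (fun v hv => ?_) (hnb a0 ha0 a1 ha1)
    exact mem_closedBall_iff_norm.2 hv

end tr24

/-! ## 7. From the patch to the whole surface -/

/-- `NB^U` + a circuit `w` of the other colour with the path strictly inside and `Int w.Left ⊆ U`  ⟹  `NB^univ`      (W1_208 sec. 2: `NB_patch ∩ {white circuit} ⊆ NB_plane`) -/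
theorem pvloc_nb_circuit {T : PvMap V D} (hT : T.IsSph) {g : T.Pth} {s : V → Bool} {b : Bool} {U : Set V} {a0 a1 : D} (h0 : T.src a0 = g.v 0) (w : T.Cyc)
    (hw : ∀ k, s (T.src (w.e k)) ≠ b) (hg : g.verts ⊆ T.Int w.Left) (hU : T.Int w.Left ⊆ U) (h : g.NB s b U a0 a1) : g.NB s b Set.univ a0 a1 := by
  rintro ⟨k, l, hk, hl, hkl, d, hd, hwk⟩
  refine h ⟨k, l, hk, hl, hkl, d, hd, ?_⟩
  have hsrc : T.src d = g.v k := by
    have h1 := pvnb_sec_src hd
    rw [h1]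
    by_cases hk0 : k = 0
    · rw [if_pos hk0, h0, hk0]
    · rw [if_neg hk0, T.src_opp', g.tgt_e _ (by omega)]
      congr 1
      omega
  have hstart : T.tgt d ∈ T.VOf w.Left := (pl_int_edge hT w (by rw [hsrc]; exact hg ⟨k, hk, rfl⟩)).2.2
  have key : ∀ y, ReflTransGen (fun x y => T.Adj x y ∧ x ∈ {v | v ∈ Set.univ ∧ v ∉ g.verts ∧ s v = b}) (T.tgt d) y →
      y ∈ T.VOf w.Left ∧ ReflTransGen (fun x y => T.Adj x y ∧ x ∈ {v | v ∈ U ∧ v ∉ g.verts ∧ s v = b}) (T.tgt d) y := by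
    intro y hy
    induction hy with
    | refl => exact ⟨hstart, ReflTransGen.refl⟩
    | @tail x y _ hxy ih =>
      obtain ⟨⟨e, rfl, rfl⟩, -, hx2, hx3⟩ := hxy
      have hxI : T.src e ∈ T.Int w.Left := by
        have := ih.1
        rw [pl_VOf_left hT w] at this
        rcases this with ⟨m, hm⟩ | h'
        · exact absurd (hm ▸ hx3) (hw m)
        · exact h'
      exact ⟨(pl_int_edge hT w hxI).2.2, ih.2.tail ⟨⟨e, rfl, rfl⟩, hU hxI, hx2, hx3⟩⟩
  exact (key _ hwk).2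

end Claimed.Agent.R289
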