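-- KEEP
import Claimed.Agent.R289.Tr.Local
import Claimed.Agent.R289.Tr.Arc
import Claimed.Agent.R289.Tr.Close

/-!
# Row 289 (S0537, Cardy for Poisson-Voronoi), unit TR, item TR24 + LOCALITY in the FACED form, file Tr/LocalF      (owner helper264; prefix `pvlf_`)

Route of record of TR11-TR14 (ruling 2 of helper194): FACED / ONE WALL = `Tr/Arc` (helper6: `pvtaB`, `pvtaN`), `Tr/Close` (helper202: `Pth.Faced`, `psum`).      Local isomorphisms: `PvLoc`, `pvlocV`, `PvLocPth` of `Tr/Local` (helper22).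
This file carries the faced vocabulary from one surface to another one which shares a patch with it (completion <-> Delaunay plane; two Delaunay planes whose configurations agree on a region).

* sec. 1  joins: `pvlf_join` (through FULL vertices, any edges), `pvlf_join_in` (edges of faces of a SHARED face set `A`, no fullness)
* sec. 2  `pvlf_rap`, `pvlf_B`, **`pvlf_N`** (`N_g^{U,𝔄}` is carried over)
* sec. 3  `pvlfIm R A` = the image of a shared face set;  **`pvlf_faced`** (`p.Faced s A ρ` is carried over), `pvlf_psum`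
* sec. 4  **`pvlf_act`** = (C1) of N1 for completions: an arc of a black rim of ANY completion through sites of `K` is a path of the Delaunay plane with `pvtaB` and `pvtaN`
-/

set_option autoImplicit false

namespace Claimed.Agent.R289

open Relation

variable {V D V' D' : Type} {T : PvMap V D} {T' : PvMap V' D'} {R : D → D' → Prop}

/-! ## 1. Joins -/

/-- joins through full vertices -/
theorem pvlf_join (L : PvLoc T T' R) {X : Set V} {X' : Set V'} (hX : X ⊆ T.Int (plDom R)) (hXX : ∀ v v', pvlocV T T' R v v' → v ∈ X → v' ∈ X') {a b : V}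
    (h : T.Join Set.univ X a b) {a' : V'} (ha : pvlocV T T' R a a') : ∃ b', pvlocV T T' R b b' ∧ T'.Join Set.univ X' a' b' := by
  obtain ⟨haX, hab⟩ := h
  have key : ∃ b', pvlocV T T' R b b' ∧ b ∈ X ∧ ReflTransGen (fun u v => T'.EdgeIn Set.univ u v ∧ v ∈ X') a' b' := by
    induction hab with
    | refl => exact ⟨a', ha, haX, ReflTransGen.refl⟩
    | @tail b c _ hbc ih =>
      obtain ⟨b', hb, hbX, hw⟩ := ih
      obtain ⟨⟨d, -, h1, h2⟩, hcX⟩ := hbc
      obtain ⟨c', hc, d', g1, g2⟩ := pvloc_adj L hb (hX hbX) ⟨d, h1, h2⟩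
      exact ⟨c', hc, hcX, hw.tail ⟨⟨d', Or.inl (Set.mem_univ _), g1, g2⟩, hXX _ _ hc hcX⟩⟩
  obtain ⟨b', hb, -, hw⟩ := key
  exact ⟨b', hb, hXX _ _ ha haX, hw⟩

/-- the image of a set of shared darts -/
def pvlfIm (R : D → D' → Prop) (A : Set D) : Set D' := {d' | ∃ d ∈ A, R d d'}

theorem pvlf_eqns_cite : True := by
  have := @pvlfIm.eq_1
  trivial

theorem pvlf_im_face (L : PvLoc T T' R) {A : Set D} (hA : T.FaceSet A) : T'.FaceSet (pvlfIm R A) := by
  intro d'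
  constructor
  · rintro ⟨d, hd, hr⟩
    have h1 := L.iso.nxt (L.iso.nxt hr)
    rw [T'.nxt3] at h1
    exact ⟨_, (hA.nxt2 T d).2 hd, h1⟩
  · rintro ⟨d, hd, hr⟩
    exact ⟨_, (hA d).2 hd, L.iso.nxt hr⟩

/-- one edge of a face of a shared face set -/
theorem pvlf_edgeIn (L : PvLoc T T' R) {A : Set D} (hA : A ⊆ plDom R) {u v : V} (h : T.EdgeIn A u v) {u' : V'} (hu : pvlocV T T' R u u') :
    ∃ v', pvlocV T T' R v v' ∧ T'.EdgeIn (pvlfIm R A) u' v' := by
  obtain ⟨d, hd, rfl, rfl⟩ := h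
  rcases hd with hd | hd
  · obtain ⟨d', hr⟩ := hA hd
    exact ⟨T'.tgt d', pvloc_v_tgt L hr, d', Or.inl ⟨d, hd, hr⟩, pvloc_v_fn L (pvloc_v_src hr) hu, rfl⟩
  · obtain ⟨e', hr⟩ := hA hd
    refine ⟨T'.src e', ?_, T'.opp e', Or.inr ?_, ?_, T'.tgt_opp e'⟩
    · have := pvloc_v_src (T := T) (T' := T') hr
      rwa [T.src_opp'] at this
    · rw [T'.opp_opp]; exact ⟨_, hd, hr⟩
    · rw [T'.src_opp']
      have := pvloc_v_tgt L hr
      rw [T.tgt_opp] at this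
      exact pvloc_v_fn L this hu

/-- joins inside a shared face set (no fullness) -/
theorem pvlf_join_in (L : PvLoc T T' R) {A : Set D} (hA : A ⊆ plDom R) {X : Set V} {X' : Set V'} (hXX : ∀ v v', pvlocV T T' R v v' → v ∈ X → v' ∈ X') {a b : V}
    (h : T.Join A X a b) {a' : V'} (ha : pvlocV T T' R a a') : ∃ b', pvlocV T T' R b b' ∧ T'.Join (pvlfIm R A) X' a' b' := by
  obtain ⟨haX, hab⟩ := h
  have key : ∃ b', pvlocV T T' R b b' ∧ ReflTransGen (fun u v => T'.EdgeIn (pvlfIm R A) u v ∧ v ∈ X') a' b' := by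
    induction hab with
    | refl => exact ⟨a', ha, ReflTransGen.refl⟩
    | @tail b c _ hbc ih =>
      obtain ⟨b', hb, hw⟩ := ih
      obtain ⟨c', hc, he⟩ := pvlf_edgeIn L hA hbc.1 hb
      exact ⟨c', hc, hw.tail ⟨he, hXX _ _ hc hbc.2⟩⟩
  obtain ⟨b', hb, hw⟩ := key
  exact ⟨b', hb, hXX _ _ ha haX, hw⟩

/-! ## 2. `B_g`, `N_g` -/

/-- right apexes of twin paths -/
theorem pvlf_rap (L : PvLoc T T' R) {g : T.Pth} {g' : T'.Pth} (P : PvLocPth R g g') {k : ℕ} (hk : k < g.n)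
    (hv : g.v k ∈ T.Int (plDom R) ∨ g.v (k + 1) ∈ T.Int (plDom R)) : pvlocV T T' R (g.rap k) (g'.rap k) :=
  pvloc_v_apex L (pvloc_pth_opp L P hk hv)

theorem pvlf_B {g : T.Pth} {g' : T'.Pth} (P : PvLocPth R g g') {s : V → Bool} {s' : V' → Bool} (hs : ∀ d d', R d d' → s (T.src d) = s' (T'.src d'))
    (h : pvtaB g s) : pvtaB g' s' := by
  intro k hk
  rw [P.n_eq] at hk
  rw [← pvloc_v_col hs (P.v_rel k hk)]
  exact h k hk

/-- **`N_g^{U,𝔄}` is carried over** -/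
theorem pvlf_N (L : PvLoc T T' R) {g : T.Pth} {g' : T'.Pth} (P : PvLocPth R g g') (hv : ∀ k, k < g.n → g.v k ∈ T.Int (plDom R) ∨ g.v (k + 1) ∈ T.Int (plDom R))
    {s : V → Bool} {s' : V' → Bool} (hs : ∀ d d', R d d' → s (T.src d) = s' (T'.src d')) {U 𝔄 : Set V} {U' 𝔄' : Set V'} (hU : U ⊆ T.Int (plDom R))
    (hUU : ∀ v v', pvlocV T T' R v v' → v ∈ U → v' ∈ U') (hAA : ∀ v v', pvlocV T T' R v v' → v ∈ 𝔄 → v' ∈ 𝔄') (h : pvtaN g s U 𝔄) : pvtaN g' s' U' 𝔄' := by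
  intro k hk
  rw [P.n_eq] at hk
  obtain ⟨a, ha, hj⟩ := h k hk
  have hXX : ∀ v v', pvlocV T T' R v v' → v ∈ {v | v ∈ U ∧ v ∉ g.verts ∧ s v = false} → v' ∈ {v | v ∈ U' ∧ v ∉ g'.verts ∧ s' v = false} := by
    rintro v v' hvv ⟨h1, h2, h3⟩
    exact ⟨hUU _ _ hvv h1, fun hg => h2 ((pvloc_pth_verts L P hvv).2 hg), by rw [← pvloc_v_col hs hvv]; exact h3⟩
  obtain ⟨a', haa, hj'⟩ := pvlf_join L (fun v hv' => hU hv'.1) hXX hj (pvlf_rap L P hk (hv k hk))
  exact ⟨a', hAA _ _ haa ha, hj'⟩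

/-! ## 3. Faced paths -/

/-- **facedness in a shared face set is carried over** -/
theorem pvlf_faced (L : PvLoc T T' R) {p : T.Pth} {p' : T'.Pth} (P : PvLocPth R p p') {s : V → Bool} {s' : V' → Bool} (hs : ∀ d d', R d d' → s (T.src d) = s' (T'.src d'))
    {A : Set D} (hA : A ⊆ plDom R) {ρ : V} {ρ' : V'} (hρ : pvlocV T T' R ρ ρ') (h : p.Faced s A ρ) : p'.Faced s' (pvlfIm R A) ρ' := by
  have e : s ρ = s' ρ' := pvloc_v_col hs hρ
  refine ⟨fun i hi => ?_, fun i hi => ?_⟩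
  · rw [P.n_eq] at hi
    rw [← pvloc_v_col hs (P.v_rel i hi), ← e]
    exact h.1 i hi
  · rw [P.n_eq] at hi
    obtain ⟨h1, h2⟩ := h.2 i hi
    have hr : R (T.opp (p.e i)) (T'.opp (p'.e i)) := L.iso.opp_rel (P.e_rel i hi) (hA h1)
    refine ⟨⟨_, h1, hr⟩, ?_⟩
    obtain ⟨b', hb, hj⟩ := pvlf_join_in L hA (X' := {v | s' v = s' ρ'}) (fun v v' hvv hv => by
      show s' v' = s' ρ'
      rw [← pvloc_v_col hs hvv, ← e]; exact hv) h2 (pvloc_v_apex L hr)
    rwa [pvloc_v_fn L hb hρ] at hj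

/-- path sums of twin paths -/
theorem pvlf_psum (L : PvLoc T T' R) {p : T.Pth} {p' : T'.Pth} (P : PvLocPth R p p') {w : D → ℂ} {w' : D' → ℂ} (hw : ∀ d d', R d d' → w d = w' d')
    (ho : ∀ i, i < p.n → T.opp (p.e i) ∈ plDom R) : p.psum w = p'.psum w' := by
  unfold PvMap.Pth.psum
  rw [P.n_eq]
  refine Finset.sum_congr rfl fun i hi => ?_
  have hi' := Finset.mem_range.1 hi
  exact hw _ _ (L.iso.opp_rel (P.e_rel i hi') (ho i hi'))

/-! ## 4. (C1) for completions -/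

section inst

variable {X : Type} {𝔅 : PvBulk X} {Y K : Set ℂ}

/-- a site of `K` which has a dart corresponds to itself -/
theorem pvlf_bulk_v (h : DelGood Y) (hOk : 𝔅.Ok Y K) {v : 𝔅.V Y} {v' : ↥Y} (hv : 𝔅.lab Y v = Sum.inl (v' : ℂ)) (hK : (v' : ℂ) ∈ K) {d : 𝔅.D Y} (hd : (𝔅.T Y).src d = v) :
    pvlocV (𝔅.T Y) (delPl h).toMap (pvlocR 𝔅 h K) v v' := by
  obtain ⟨e, he⟩ := pvloc_bulk_int (h := h) hOk hv hK d hd
  have h1 := pvloc_v_src (T := 𝔅.T Y) (T' := (delPl h).toMap) he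
  rw [hd] at h1
  have h2 := pvloc_bulk_v h1
  have h3 : (delPl h).toMap.src e = v' := Subtype.ext (Sum.inl_injective (h2.symm.trans hv))
  rwa [h3] at h1

/-- **(C1) of N1 for completions, FACED form** (TR11 + TR24): `c` a black rim of ANY completion, the vertices number `j+1, …, j+1+n` are sites of `K`.   Then the arc is a path `g` of the Delaunay plane with `B_g`, and, for every `U ⊆ K` with boundary
layer `Λ` which contains the right apexes of `g`, with `N_g^{U, {a} ∪ Λ}`, `a` = right apex of the plane twin `e0` of the rim dart which enters the arc. -/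
theorem pvlf_act (h : DelGood Y) (hOk : 𝔅.Ok Y K) {s : 𝔅.V Y → Bool} {σ : ℂ → Bool} (hs : DelbCol 𝔅 s σ) {c : (𝔅.T Y).Cyc} (hc : c.IsRim s) (hb : s ((𝔅.T Y).src (c.e 0)) = true)
    {j n : ℕ} (hn : 0 < n) (hnc : n < c.n) (hK : ∀ k, k ≤ n → ∃ a ∈ K, 𝔅.lab Y ((𝔅.T Y).src (c.e (j + 1 + k))) = Sum.inl a) :
    ∃ (g : (delPl h).toMap.Pth) (e0 : (delPl h).Dart), g.n = n ∧ (∀ k, k < n → DelbRel 𝔅 h (c.e (j + 1 + k)) (g.e k)) ∧ DelbRel 𝔅 h (c.e j) e0 ∧
      (∀ k, k ≤ n → 𝔅.lab Y ((𝔅.T Y).src (c.e (j + 1 + k))) = Sum.inl (g.v k : ℂ)) ∧ pvtaB g (fun v => σ v) ∧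
      ∀ U Λ : Set ↥Y, (∀ v ∈ U, (v : ℂ) ∈ K) → (∀ u, u ∈ U → u ∉ Λ → ∀ w, (delPl h).toMap.Adj u w → w ∈ U) → (∀ k, k < n → g.rap k ∈ U) →
        pvtaN g (fun v => σ v) U ({(delPl h).toMap.apex ((delPl h).toMap.opp e0)} ∪ Λ) := by
  have L : PvLoc (𝔅.T Y) (delPl h).toMap (pvlocR 𝔅 h K) := pvloc_bulk hOk
  have hcol := pvloc_bulk_col (h := h) (K := K) hs
  have hgn : (c.pth (j + 1) n).n = n := by
    show min n (c.n - 1) = n
    omega
  have hfull : ∀ k, k ≤ n → (𝔅.T Y).src (c.e (j + 1 + k)) ∈ (𝔅.T Y).Int (plDom (pvlocR 𝔅 h K)) := by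
    intro k hk
    obtain ⟨a, ha, hl⟩ := hK k hk
    exact pvloc_bulk_int hOk hl ha
  obtain ⟨g, P⟩ := pvloc_pth_exists L (c.pth (j + 1) n) (by omega) (fun k hk => hfull k (by omega) _ rfl)
  have hgn' : g.n = n := P.n_eq.trans hgn
  -- the dart which enters the arc
  have h0 : (𝔅.T Y).tgt (c.e j) ∈ (𝔅.T Y).Int (plDom (pvlocR 𝔅 h K)) := by
    rw [c.chain]; exact hfull 0 (Nat.zero_le _)
  have hoj : (𝔅.T Y).opp (c.e j) ∈ plDom (pvlocR 𝔅 h K) := h0 _ ((𝔅.T Y).src_opp' _)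
  obtain ⟨f0, hf0⟩ := hoj
  have hej : pvlocR 𝔅 h K (c.e j) ((delPl h).toMap.opp f0) := by
    have := pvloc_opp L hf0 (Or.inl (by rw [(𝔅.T Y).src_opp']; exact h0))
    rwa [(𝔅.T Y).opp_opp] at this
  refine ⟨g, (delPl h).toMap.opp f0, hgn', fun k hk => (P.e_rel k (by omega)).1, hej.1, fun k hk => pvloc_bulk_v (P.v_rel k (by omega)), ?_, ?_⟩
  · exact pvlf_B P hcol (pvta_act hOk.sph hc hb (j + 1) n j hnc Set.univ ∅ (fun _ _ => Set.mem_univ _) (fun _ _ _ _ _ => Set.mem_univ _)).1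
  · intro U Λ hUK hΛ hrap
    -- the sets of the completion
    set U₁ : Set (𝔅.V Y) := {v | ∃ v' ∈ U, 𝔅.lab Y v = Sum.inl (v' : ℂ)} with hU₁
    set Λ₁ : Set (𝔅.V Y) := {v | ∃ v' ∈ Λ, 𝔅.lab Y v = Sum.inl (v' : ℂ)} with hΛ₁
    have hvfull : ∀ k, k < (c.pth (j + 1) n).n → (c.pth (j + 1) n).v k ∈ (𝔅.T Y).Int (plDom (pvlocR 𝔅 h K)) ∨ (c.pth (j + 1) n).v (k + 1) ∈ (𝔅.T Y).Int (plDom (pvlocR 𝔅 h K)) :=
      fun k hk => Or.inl (hfull k (by omega))
    have hA := pvta_act hOk.sph hc hb (j + 1) n j hnc U₁ Λ₁ (fun k hk => ?_) (fun u hu hun w huw => ?_)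
    · refine pvlf_N L P hvfull hcol (U := U₁) (𝔄 := {(𝔅.T Y).apex ((𝔅.T Y).opp (c.e j))} ∪ Λ₁) ?_ ?_ ?_ hA.2
      · rintro v ⟨v', hv', hl⟩
        exact pvloc_bulk_int hOk hl (hUK v' hv')
      · rintro v v' hvv ⟨v'', hv'', hl⟩
        have : v' = v'' := Subtype.ext (Sum.inl_injective ((pvloc_bulk_v hvv).symm.trans hl))
        rw [this]; exact hv''
      · rintro v v' hvv (hv | ⟨v'', hv'', hl⟩)
        · left
          have hv1 : v = (𝔅.T Y).apex ((𝔅.T Y).opp (c.e j)) := hv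
          rw [hv1] at hvv
          rw [(delPl h).toMap.opp_opp]
          exact pvloc_v_fn L hvv (pvloc_v_apex L hf0)
        · right
          have : v' = v'' := Subtype.ext (Sum.inl_injective ((pvloc_bulk_v hvv).symm.trans hl))
          rw [this]; exact hv''
    · exact ⟨g.rap k, hrap k hk, pvloc_bulk_v (pvlf_rap L P (by omega) (hvfull k (by omega)))⟩
    · obtain ⟨u', hu', hl⟩ := hu
      obtain ⟨d, hd, hdw⟩ := huw
      have huu := pvlf_bulk_v h hOk hl (hUK u' hu') hd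
      obtain ⟨w', hww, hadj⟩ := pvloc_adj L huu (pvloc_bulk_int hOk hl (hUK u' hu')) ⟨d, hd, hdw⟩
      exact ⟨w', hΛ u' hu' (fun h1 => hun ⟨u', h1, hl⟩) w' hadj, pvloc_bulk_v hww⟩

end inst

/-! ## 5. Exchange of the colours -/

section flip

variable {V D : Type} {T : PvMap V D}

/-- the colouring in which the colour `b` is called `true` -/
def pvlfFl (b : Bool) (s : V → Bool) : V → Bool := fun v => s v == b

theorem pvlf_eqns_cite2 : True := by
  have := @pvlfFl.eq_1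
  trivial

theorem pvlf_fl_true (s : V → Bool) : pvlfFl true s = s := by
  funext v
  unfold pvlfFl
  cases s v <;> rfl

theorem pvlf_fl_false (s : V → Bool) : pvlfFl false s = pvasNot s := by
  funext v
  unfold pvlfFl pvasNot
  cases s v <;> rfl

theorem pvlf_fl_eq {b : Bool} {s : V → Bool} {v : V} : pvlfFl b s v = true ↔ s v = b := by
  unfold pvlfFl
  cases s v <;> cases b <;> decide

theorem pvlf_occ_not (s : V → Bool) : T.Occ (pvasNot s) = T.Occ s := funext fun _ => propext pvas_occ_not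

theorem pvlf_tag_not (s : V → Bool) : T.Tag (pvasNot s) = T.Tag s := by
  funext d
  apply propext
  unfold PvMap.Tag pvasNot
  generalize s (T.src d) = a
  generalize s (T.tgt d) = b
  generalize s (T.apex d) = c
  revert a b c
  decide

theorem pvlf_wall_not (s : V → Bool) : T.Wall (pvasNot s) = T.Wall s := by
  funext d d'
  unfold PvMap.Wall
  rw [pvlf_occ_not]

theorem pvlf_incomp_not (s : V → Bool) : T.InComp (pvasNot s) = T.InComp s := by
  funext d e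
  unfold PvMap.InComp PvMap.CStep
  rw [pvlf_wall_not]

theorem pvlf_samelab_not (s : V → Bool) : T.SameLab (pvasNot s) = T.SameLab s := by
  funext d e
  unfold PvMap.SameLab
  rw [pvlf_wall_not, pvlf_incomp_not, pvlf_tag_not]

/-- **a rim of a colouring is a rim of the exchanged colouring** -/
theorem pvlf_rim_not {c : T.Cyc} {s : V → Bool} : c.IsRim (pvasNot s) ↔ c.IsRim s := by
  unfold PvMap.Cyc.IsRim plRaA
  rw [pvlf_wall_not, pvlf_incomp_not, pvlf_tag_not, pvlf_samelab_not]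

theorem pvlf_rim_fl {c : T.Cyc} {s : V → Bool} (b : Bool) : c.IsRim (pvlfFl b s) ↔ c.IsRim s := by
  cases b
  · rw [pvlf_fl_false]; exact pvlf_rim_not
  · rw [pvlf_fl_true]

/-- `N_g` depends on the path through its darts and vertices only -/
theorem pvlf_N_ext {g g' : T.Pth} (hn : g.n = g'.n) (he : ∀ k, k < g.n → g.e k = g'.e k) (hv : ∀ k, k ≤ g.n → g.v k = g'.v k) {s : V → Bool} {U 𝔄 : Set V}
    (h : pvtaN g s U 𝔄) : pvtaN g' s U 𝔄 := by
  have hverts : g.verts = g'.verts := by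
    ext x
    constructor
    · rintro ⟨k, hk, rfl⟩
      exact ⟨k, hn ▸ hk, (hv k hk).symm⟩
    · rintro ⟨k, hk, rfl⟩
      rw [← hn] at hk
      exact ⟨k, hk, hv k hk⟩
  intro k hk
  rw [← hn] at hk
  obtain ⟨a, ha, hj⟩ := h k hk
  refine ⟨a, ha, ?_⟩
  unfold PvMap.Pth.rap at hj ⊢
  rw [← hverts, ← he k hk]
  exact hj

end flip

/-! ## 6. (C1), encoded form -/

section enc

variable {X : Type}

/-- **(C1) of N1, ENCODED FACED form**: the arcs of the reaching rims of ANY bulk family inside the ball of agreement.   Same outputs as `pvloc_rim_arc` of helper22; the clause `NB` is replaced by `B_g`, `N_g` for the colouring in which the colour `b` of the rim is called `true`. -/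
theorem pvlf_rim_arc (𝔅 : PvBulk X) {x : ℂ} {R : ℝ} (hR : 0 < R) {p : Claims.C0465.PVSample × (X → Bool)} (h : DelGood (cfSites (pvConf p.1))) {P : PvbRim} (hP : P ∈ 𝔅.rims x R p)
    {j n : ℕ} (hn : 0 < n) (hjn : j + n + 2 ≤ P.len) (hball : ∀ k, k ≤ n → ‖P.v (j + 1 + k) - x‖ ≤ 6 * R) :
    ∃ (b : Bool) (g : (delPl h).toMap.Pth) (e0 e1 : (delPl h).Dart), g.n = n ∧ (∀ k, k ≤ n → (g.v k : ℂ) = P.v (j + 1 + k)) ∧
      ((delPl h).toMap.src e0 : ℂ) = P.v j ∧ (delPl h).toMap.tgt e0 = g.v 0 ∧ (delPl h).toMap.src e1 = g.v n ∧ ((delPl h).toMap.tgt e1 : ℂ) = P.v (j + n + 2) ∧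
      (∀ k, k < n → (delPl h).toMap.Tag (fun v => cfCol (pvConf p.1) v) ((delPl h).toMap.opp (g.e k)) ∧ P.z (j + 1 + k) = (delPl h).toMap.bary Subtype.val ((delPl h).toMap.opp (g.e k)) ∧
        P.xQ (j + 1 + k) = (delPl h).toMap.qpart Subtype.val ((delPl h).toMap.opp (g.e k)) ∧ P.xV (j + 1 + k) = (delPl h).toMap.side Subtype.val ((delPl h).toMap.opp (g.e k))) ∧
      pvtaB g (pvlfFl b fun v => cfCol (pvConf p.1) v) ∧
      ∀ U Λ : Set ↥(cfSites (pvConf p.1)), (∀ v ∈ U, ‖(v : ℂ) - x‖ ≤ 6 * R) → (∀ u, u ∈ U → u ∉ Λ → ∀ w, (delPl h).toMap.Adj u w → w ∈ U) → (∀ k, k < n → g.rap k ∈ U) →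
        pvtaN g (pvlfFl b fun v => cfCol (pvConf p.1) v) U ({(delPl h).toMap.apex ((delPl h).toMap.opp e0)} ∪ Λ) := by
  obtain ⟨b, g, e0, e1, hgn, hgv, he0s, he0t, he1s, he1t, hcol, htags, -⟩ := pvloc_rim_arc 𝔅 hR h hP hn hjn hball
  obtain ⟨-, hOk, c, hc, -, rfl⟩ := hP
  have hlen : (𝔅.enc (cfSites (pvConf p.1)) (x + 7 * R) c).len = c.n := rfl
  have hPv : ∀ k, (𝔅.enc (cfSites (pvConf p.1)) (x + 7 * R) c).v k = 𝔅.posF (cfSites (pvConf p.1)) (x + 7 * R) ((𝔅.T (cfSites (pvConf p.1))).src (c.e k)) := fun _ => rfl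
  have hlab : ∀ k, k ≤ n → 𝔅.lab (cfSites (pvConf p.1)) ((𝔅.T (cfSites (pvConf p.1))).src (c.e (j + 1 + k))) = Sum.inl (g.v k : ℂ) := by
    intro k hk
    rw [hgv k hk, hPv]
    exact pvloc_posF hR (by rw [← hPv]; exact hball k hk)
  have hK : ∀ k, k ≤ n → ∃ a ∈ Metric.closedBall x (6 * R), 𝔅.lab (cfSites (pvConf p.1)) ((𝔅.T (cfSites (pvConf p.1))).src (c.e (j + 1 + k))) = Sum.inl a := by
    intro k hk
    refine ⟨_, ?_, hlab k hk⟩
    rw [Metric.mem_closedBall, dist_eq_norm, hgv k hk]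
    exact hball k hk
  -- the colour
  have hb : 𝔅.col (pvConf p.1) p.2 ((𝔅.T (cfSites (pvConf p.1))).src (c.e 0)) = b := by
    rw [pl_rim_col hc 0 (j + 1 + 0), delb_col (𝔅 := 𝔅) (pvConf p.1) p.2 _ _ (hlab 0 (Nat.zero_le _))]
    exact hcol 0 (Nat.zero_le _)
  have hs' : DelbCol 𝔅 (pvlfFl b (𝔅.col (pvConf p.1) p.2)) (fun a => cfCol (pvConf p.1) a == b) := by
    intro v a hv
    show (𝔅.col (pvConf p.1) p.2 v == b) = (cfCol (pvConf p.1) a == b)
    rw [delb_col (𝔅 := 𝔅) (pvConf p.1) p.2 v a hv]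
  obtain ⟨g₂, f0, hg₂n, hg₂e, hf0, hg₂v, hB, hN⟩ := pvlf_act h hOk hs' ((pvlf_rim_fl b).2 hc) (pvlf_fl_eq.2 hb) (j := j) hn (by rw [hlen] at hjn; omega) hK
  have ev : ∀ k, k ≤ g₂.n → g₂.v k = g.v k := by
    intro k hk
    rw [hg₂n] at hk
    exact Subtype.ext (Sum.inl_injective ((hg₂v k hk).symm.trans (hlab k hk)))
  have ee : ∀ k, k < g₂.n → g₂.e k = g.e k := by
    intro k hk
    apply delb_P_ext
    · rw [g₂.src_e k hk, g.src_e k (by omega), ev k hk.le]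
    · rw [g₂.tgt_e k hk, g.tgt_e k (by omega), ev (k + 1) hk]
  have ef : f0 = e0 := by
    apply delb_P_ext
    · rw [he0s, hPv]
      unfold PvBulk.posF
      rw [hf0.1]; rfl
    · rw [he0t, ← ev 0 (Nat.zero_le _)]
      have h1 := hf0.2
      rw [c.chain] at h1
      exact Sum.inl_injective (h1.symm.trans (hg₂v 0 (Nat.zero_le _)))
  refine ⟨b, g, e0, e1, hgn, hgv, he0s, he0t, he1s, he1t, htags, ?_, ?_⟩
  · intro k hk
    rw [← ev k (by omega)]
    exact hB k (by omega)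
  · intro U Λ hUK hΛ hrap
    rw [← ef]
    refine pvlf_N_ext (by omega) ee ev (hN U Λ (fun v hv => ?_) hΛ (fun k hk => ?_))
    · rw [Metric.mem_closedBall, dist_eq_norm]; exact hUK v hv
    · have := hrap k hk
      unfold PvMap.Pth.rap at this ⊢
      rw [ee k (by omega)]
      exact this

end enc

end Claimed.Agent.R289
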