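import Claimed.Agent.R289.Tr.GeoLoc
import Claimed.Agent.R289.Tr.LocalF
import Claimed.Agent.R289.Tr.Defs

/-!
# Row 289 (S0537), wall TR, file Tr/Rd : THE `X` SIDE DOES NOT READ THE RESAMPLED REGION `C`      (owner helper29; prefix `pvrd_`, `Pvrd`, `pvrd`; ruling T2bis of 24: node RD)      0 sorry
Field `rd` of `PvdmSys.Hyp` (159) = field `rd` of `PvxnOk` (170, `Exit/N1`): the events `A i`, `WO i` are the same for `η` and for the splice of `η` with an independent sample inside `C`.      The exit itself: `Exit/N1R`.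
* §1 SURGERY (site level): `pvrd_surgery`, `pvrd_surgery_near`: a Delaunay chain of `Y` which runs through the resampled region is rerouted in `Y'` through the sites whose cells meet the `3ρ`-neighbourhood of `C`; by the mesh of the collar ALONE these sites lie within `6ρ` of `C` (`pvrd_meet_thick`), whatever the new sites in `C` are (none, for instance).
* §2 `PvrdSit Y Y' C ρ` (THE SITUATION: two good site sets, equal off `C`, mesh on the collar);  `PvrdSame` (two sets of vertices with the same far points);  `pvrd_comp_iff` (`pvwComp` = `Join`);  joins: `pvrd_join_far`, `pvrd_join_near` (surgery), `pvrd_join_in` (inside the far part);  colourings: `PvrdCol`, `pvrdPull`.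
* §3 Defs v3: **`pvrd_yc0`, `pvrd_nu`, `pvrd_lam`**: the classes `YC0`, `NU`, `Lam` of two data with the same frozen positions and tip apexes (`PvrdTwY`) have the same positions, as soon as the `3ρ`-neighbourhood of `C` lies in `Ycol`.
-/

set_option autoImplicit false

namespace Claimed.Agent.R289

open Set Metric Relation Claimed.Agent.R291

/-! ## 1. SURGERY: chains which run through the resampled region -/

section surgery

variable {Y Y' C W W' : Set ℂ} {a b z : ℂ} {ρ : ℝ}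

/-- the THICK part: the points within `6ρ` of `C` -/
def pvrdThick (C : Set ℂ) (ρ : ℝ) : Set ℂ := {z | infDist z C ≤ 6 * ρ}

theorem pvrd_eqns_cite : True := by
  have := @pvrdThick.eq_1
  trivial

/-- a point which is not far lies in the closed `3ρ`-neighbourhood of `C` -/
theorem pvrd_near_nbd (hC : C.Nonempty) (hz : z ∉ pvgeFar C ρ) : z ∈ vorNbd C (3 * ρ) := by
  have h1 : infDist z C < 3 * ρ := not_le.1 hz
  obtain ⟨c, hc, hzc⟩ := (infDist_lt_iff hC).1 h1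
  exact ⟨c, hc, by rw [← dist_eq_norm]; exact hzc.le⟩

theorem pvrd_nbd_infDist (hz : z ∈ vorNbd C (3 * ρ)) : infDist z C ≤ 3 * ρ := by
  obtain ⟨c, hc, hzc⟩ := hz
  exact (infDist_le_dist_of_mem hc).trans (by rw [dist_eq_norm]; exact hzc)

/-- a site which is not far: its cell meets the neighbourhood -/
theorem pvrd_near_meet (hC : C.Nonempty) (hb : b ∈ Y) (hbf : b ∉ pvgeFar C ρ) : b ∈ vorMeet Y (vorNbd C (3 * ρ)) := pvge_site_meet hb (pvrd_near_nbd hC hbf)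

/-- mesh on the collar only: the sites whose cells meet the `3ρ`-neighbourhood of `C` lie in the thick part -/
theorem pvrd_meet_thick (hρ : 0 < ρ) (hC : C.Nonempty) (hd : VorDense Y (pvgeCollar C ρ) ρ) : vorMeet Y (vorNbd C (3 * ρ)) ⊆ pvrdThick C ρ := by
  rintro b ⟨-, z, hzb, hzS⟩
  show infDist b C ≤ 6 * ρ
  by_cases hbf : b ∈ pvgeFar C ρ
  · have hdis := pvge_no_bridge hρ hd hbf hzb
    have h1 : infDist z C ≤ 3 * ρ := pvrd_nbd_infDist hzS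
    have h2 : ‖z - b‖ ≤ infDist z C := by
      refine (le_infDist hC).2 fun c hc => ?_
      by_contra hlt
      exact disjoint_left.1 hdis (by rw [mem_closedBall, dist_comm]; exact (not_le.1 hlt).le) hc
    have h3 : infDist b C ≤ infDist z C + dist b z := infDist_le_infDist_add_dist
    rw [dist_eq_norm, norm_sub_rev] at h3
    linarith
  · have h1 : infDist b C < 3 * ρ := not_le.1 hbf
    linarith

/-- **SURGERY**: `Y`, `Y'` equal off `C`, mesh on the collar of `C`, the `3ρ`-neighbourhood of `C` preconnected.   `W`, `W'` = the allowed positions: the same far from `C`, everything is allowed in the thick part.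
A chain of `Y` inside `W` from a common site: its end is reached in `Y'` inside `W'` (far end), or a site of `Y'` which is not far is reached -/
theorem pvrd_surgery_aux (hρ : 0 < ρ) (hC : C.Nonempty) (hS : IsPreconnected (vorNbd C (3 * ρ))) (hYY : Y \ C = Y' \ C) (hd : VorDense Y (pvgeCollar C ρ) ρ) (lf' : VorLF Y')
    (hW : ∀ z ∈ W, z ∈ pvgeFar C ρ → z ∈ W') (hT : ∀ z ∈ Y', z ∈ pvrdThick C ρ → z ∈ W') (ha : a ∈ Y') (h : PvgeCh Y W a b) :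
    (b ∈ pvgeFar C ρ ∧ PvgeCh Y' W' a b) ∨ (b ∉ pvgeFar C ρ ∧ ∃ n, n ∈ Y' ∧ n ∉ pvgeFar C ρ ∧ PvgeCh Y' W' a n) := by
  have hd' := pvge_collar_transfer hYY hd
  induction h with
  | refl =>
    by_cases haf : a ∈ pvgeFar C ρ
    · exact Or.inl ⟨haf, PvgeCh.refl _ _ _⟩
    · exact Or.inr ⟨haf, a, ha, haf, PvgeCh.refl _ _ _⟩
  | @tail x y _ hxy ih =>
    obtain ⟨hadj, hyW⟩ := hxy
    by_cases hy : y ∈ pvgeFar C ρ
    · left
      refine ⟨hy, ?_⟩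
      have hadj' : DelAdj Y' x y := ((pvge_far_adj hρ hYY hd hy).1 hadj.symm).symm
      rcases ih with ⟨-, hch⟩ | ⟨hx, n, hn, hnf, hch⟩
      · exact hch.tail ⟨hadj', hW y hyW hy⟩
      · have h1 : PvgeCh Y' (vorMeet Y' (vorNbd C (3 * ρ))) n x := pvge_conn lf' hS (pvrd_near_meet hC hn hnf) (pvrd_near_meet hC hadj'.1 hx)
        exact (hch.trans (h1.mono fun z hz => hT z hz.1 (pvrd_meet_thick hρ hC hd' hz))).tail ⟨hadj', hW y hyW hy⟩
    · right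
      refine ⟨hy, ?_⟩
      rcases ih with ⟨hx, hch⟩ | ⟨-, n, hn, hnf, hch⟩
      · have hadj' : DelAdj Y' x y := (pvge_far_adj hρ hYY hd hx).1 hadj
        exact ⟨y, hadj'.2.1, hy, hch.tail ⟨hadj', hT y hadj'.2.1 (pvrd_meet_thick hρ hC hd' (pvrd_near_meet hC hadj'.2.1 hy))⟩⟩
      · exact ⟨n, hn, hnf, hch⟩

/-- **SURGERY, far ends** -/
theorem pvrd_surgery (hρ : 0 < ρ) (hC : C.Nonempty) (hS : IsPreconnected (vorNbd C (3 * ρ))) (hYY : Y \ C = Y' \ C) (hd : VorDense Y (pvgeCollar C ρ) ρ) (lf' : VorLF Y')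
    (hW : ∀ z ∈ W, z ∈ pvgeFar C ρ → z ∈ W') (hT : ∀ z ∈ Y', z ∈ pvrdThick C ρ → z ∈ W') (ha : a ∈ Y') (hb : b ∈ pvgeFar C ρ) (h : PvgeCh Y W a b) : PvgeCh Y' W' a b := by
  rcases pvrd_surgery_aux hρ hC hS hYY hd lf' hW hT ha h with h1 | h1
  · exact h1.2
  · exact absurd hb h1.1

/-- **SURGERY, near end**: every site of `Y'` which is not far is reached -/
theorem pvrd_surgery_near (hρ : 0 < ρ) (hC : C.Nonempty) (hS : IsPreconnected (vorNbd C (3 * ρ))) (hYY : Y \ C = Y' \ C) (hd : VorDense Y (pvgeCollar C ρ) ρ) (lf' : VorLF Y')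
    (hW : ∀ z ∈ W, z ∈ pvgeFar C ρ → z ∈ W') (hT : ∀ z ∈ Y', z ∈ pvrdThick C ρ → z ∈ W') (ha : a ∈ Y') (hb : b ∉ pvgeFar C ρ) (h : PvgeCh Y W a b) {n : ℂ} (hn : n ∈ Y') (hnf : n ∉ pvgeFar C ρ) :
    PvgeCh Y' W' a n := by
  rcases pvrd_surgery_aux hρ hC hS hYY hd lf' hW hT ha h with h1 | ⟨-, m, hm, hmf, hch⟩
  · exact absurd h1.1 hb
  · exact hch.trans ((pvge_conn lf' hS (pvrd_near_meet hC hm hmf) (pvrd_near_meet hC hn hnf)).mono fun z hz => hT z hz.1 (pvrd_meet_thick hρ hC (pvge_collar_transfer hYY hd) hz))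

/-- the neighbourhood of a preconnected set is preconnected -/
theorem pvrd_nbd_preconnected {r : ℝ} (hC : IsPreconnected C) : IsPreconnected (vorNbd C r) := by
  have e : vorNbd C r = (fun p : ℂ × ℂ => p.1 + p.2) '' (C ×ˢ closedBall (0 : ℂ) r) := by
    ext w
    constructor
    · rintro ⟨z, hz, hw⟩
      exact ⟨(z, w - z), ⟨hz, by rw [mem_closedBall, dist_zero_right]; exact hw⟩, by simp⟩
    · rintro ⟨⟨z, u⟩, ⟨hz, hu⟩, rfl⟩
      refine ⟨z, hz, ?_⟩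
      rw [mem_closedBall, dist_zero_right] at hu
      simpa using hu
  rw [e]
  exact (hC.prod (convex_closedBall (0 : ℂ) r).isPreconnected).image _ (continuous_fst.add continuous_snd).continuousOn

end surgery

/-! ## 2. the two planes: joins, components, escapes -/

section maps

variable {Y Y' C : Set ℂ} {ρ : ℝ}

/-- **THE SITUATION**: two good site sets which are equal off `C`, mesh on the collar of `C` (read off `C`) -/
structure PvrdSit (Y Y' C : Set ℂ) (ρ : ℝ) : Prop where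
  rho : 0 < ρ
  eq : Y \ C = Y' \ C
  mesh : VorDense Y (pvgeCollar C ρ) ρ
  good : DelGood Y
  good' : DelGood Y'

theorem PvrdSit.symm (H : PvrdSit Y Y' C ρ) : PvrdSit Y' Y C ρ := ⟨H.rho, H.eq.symm, pvge_collar_transfer H.eq H.mesh, H.good', H.good⟩

theorem PvrdSit.agr (H : PvrdSit Y Y' C ρ) : PvgeAgr Y Y' (pvgeFar C ρ) Cᶜ := pvge_agr_far H.rho H.eq H.mesh

theorem PvrdSit.loc (H : PvrdSit Y Y' C ρ) : PvLoc (delbPl Y).toMap (delbPl Y').toMap (pvgeRel (delbPl Y) (delbPl Y') (pvgeFar C ρ)) :=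
  pvge_loc (pvge_del_bpl H.good) (pvge_del_bpl H.good') H.agr.same

theorem PvrdSit.site (H : PvrdSit Y Y' C ρ) {z : ℂ} (hz : z ∈ pvgeFar C ρ) (hY : z ∈ Y) : z ∈ Y' := (pvge_far_site H.rho H.eq hz).1 hY

/-- two sets of vertices of the two planes with the same FAR points -/
def PvrdSame (C : Set ℂ) (ρ : ℝ) (A : Set ↥Y) (A' : Set ↥Y') : Prop := ∀ (v : ↥Y) (v' : ↥Y'), (v : ℂ) = v' → (v : ℂ) ∈ pvgeFar C ρ → (v ∈ A ↔ v' ∈ A')

theorem pvrd_eqns_cite2 : True := by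
  have := @PvrdSame.eq_1
  trivial

theorem PvrdSame.symm {A : Set ↥Y} {A' : Set ↥Y'} (h : PvrdSame C ρ A A') : PvrdSame C ρ A' A := fun v' v e hv => (h v v' e.symm (e ▸ hv)).symm

theorem PvrdSame.union {A B : Set ↥Y} {A' B' : Set ↥Y'} (h : PvrdSame C ρ A A') (k : PvrdSame C ρ B B') : PvrdSame C ρ (A ∪ B) (A' ∪ B') :=
  fun v v' e hv => or_congr (h v v' e hv) (k v v' e hv)

theorem PvrdSame.inter {A B : Set ↥Y} {A' B' : Set ↥Y'} (h : PvrdSame C ρ A A') (k : PvrdSame C ρ B B') : PvrdSame C ρ (A ∩ B) (A' ∩ B') :=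
  fun v v' e hv => and_congr (h v v' e hv) (k v v' e hv)

theorem PvrdSame.compl {A : Set ↥Y} {A' : Set ↥Y'} (h : PvrdSame C ρ A A') : PvrdSame C ρ Aᶜ A'ᶜ := fun v v' e hv => not_congr (h v v' e hv)

/-- a set of vertices given by a test on the positions -/
theorem pvrd_same_pos (G : Set ℂ) : PvrdSame C ρ {v : ↥Y | (v : ℂ) ∈ G} {v : ↥Y' | (v : ℂ) ∈ G} := fun v v' e _ => by
  show (v : ℂ) ∈ G ↔ (v' : ℂ) ∈ G
  rw [e]

theorem pvrd_edgeIn (h : DelGood Y) {u v : ↥Y} : (delbPl Y).toMap.EdgeIn univ u v ↔ DelAdj Y u v := by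
  constructor
  · rintro ⟨d, -, rfl, rfl⟩
    exact d.2.2
  · intro hab
    exact ⟨⟨(u, v), h, hab⟩, Or.inl (mem_univ _), rfl, rfl⟩

theorem pvrd_adj (h : DelGood Y) {u v : ↥Y} : (delbPl Y).toMap.Adj u v ↔ DelAdj Y u v := by
  constructor
  · rintro ⟨d, rfl, rfl⟩
    exact d.2.2
  · intro hab
    exact ⟨⟨(u, v), h, hab⟩, rfl, rfl⟩

theorem pvrd_join_ch {X : Set ↥Y} {a b : ↥Y} (hj : (delbPl Y).toMap.Join univ X a b) : PvgeCh Y (Subtype.val '' X) a b := by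
  obtain ⟨-, hab⟩ := hj
  induction hab with
  | refl => exact PvgeCh.refl _ _ _
  | @tail u v _ huv ih =>
    obtain ⟨⟨d, -, rfl, rfl⟩, hv⟩ := huv
    exact ih.tail ⟨d.2.2, _, hv, rfl⟩

theorem pvrd_ch_join (h : DelGood Y) {X : Set ↥Y} {a : ↥Y} (ha : a ∈ X) {b : ℂ} (hc : PvgeCh Y (Subtype.val '' X) a b) : ∃ hb : b ∈ Y, (delbPl Y).toMap.Join univ X a ⟨b, hb⟩ := by
  induction hc with
  | refl => exact ⟨a.2, ha, ReflTransGen.refl⟩
  | @tail u v _ huv ih =>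
    obtain ⟨hu, hj⟩ := ih
    obtain ⟨hadj, x, hx, rfl⟩ := huv
    exact ⟨x.2, hj.1, hj.2.tail ⟨(pvrd_edgeIn h).2 hadj, hx⟩⟩

theorem pvrd_dart_nonempty (h : DelGood Y) : Nonempty (delbPl Y).Dart := by
  obtain ⟨a, ha⟩ := h.ne
  obtain ⟨b, hb⟩ := pvge_del_ne h ⟨a, ha⟩
  exact ⟨⟨(⟨a, ha⟩, b), h, hb⟩⟩

/-- the component of `Tr/Defs` is a join -/
theorem pvrd_comp_iff (h : DelGood Y) {X : Set ↥Y} {a v : ↥Y} : v ∈ pvwComp (delbPl Y).toMap X a ↔ (delbPl Y).toMap.Join univ X a v := by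
  constructor
  · rintro ⟨q, h0, h1, hX⟩
    have := pl_pth_join q (A := univ) (X := X) (fun i _ => Or.inl (mem_univ _)) hX (Nat.zero_le _) (le_refl q.n)
    rwa [h0, h1] at this
  · intro hj
    have := pvrd_dart_nonempty h
    obtain ⟨p, h0, h1, hX, -⟩ := pl_pth_of_join hj
    exact ⟨p, h0, h1, hX⟩

variable {X : Set ↥Y} {X' : Set ↥Y'} {a v : ↥Y} {a' v' : ↥Y'}

theorem pvrd_hW (H : PvrdSit Y Y' C ρ) (hX : PvrdSame C ρ X X') : ∀ z ∈ Subtype.val '' X, z ∈ pvgeFar C ρ → z ∈ Subtype.val '' X' := by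
  rintro _ ⟨x, hx, rfl⟩ hz
  exact ⟨⟨x, H.site hz x.2⟩, (hX x ⟨x, H.site hz x.2⟩ rfl hz).1 hx, rfl⟩

theorem pvrd_near_thick {z : ℂ} (hρ : 0 < ρ) (hz : z ∉ pvgeFar C ρ) : z ∈ pvrdThick C ρ := by
  have h1 : infDist z C < 3 * ρ := not_le.1 hz
  show infDist z C ≤ 6 * ρ
  linarith

theorem pvrd_start (H : PvrdSit Y Y' C ρ) (hX : PvrdSame C ρ X X') (hT : ∀ x : ↥Y', (x : ℂ) ∈ pvrdThick C ρ → x ∈ X') (haa : (a : ℂ) = a') (ha : a ∈ X) : a' ∈ X' := by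
  by_cases hf : (a : ℂ) ∈ pvgeFar C ρ
  · exact (hX a a' haa hf).1 ha
  · exact hT a' (pvrd_near_thick H.rho (haa ▸ hf))

/-- **JOINS, far end** (`C` nonempty, its neighbourhood preconnected; everything is allowed in the thick part) -/
theorem pvrd_join_far (H : PvrdSit Y Y' C ρ) (hne : C.Nonempty) (hconn : IsPreconnected (vorNbd C (3 * ρ))) (hX : PvrdSame C ρ X X') (hT : ∀ x : ↥Y', (x : ℂ) ∈ pvrdThick C ρ → x ∈ X') (haa : (a : ℂ) = a')
    (hvv : (v : ℂ) = v') (hv : (v : ℂ) ∈ pvgeFar C ρ) (h : (delbPl Y).toMap.Join univ X a v) : (delbPl Y').toMap.Join univ X' a' v' := by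
  have h1 := pvrd_surgery H.rho hne hconn H.eq H.mesh H.good'.lf (pvrd_hW H hX) (fun z hz hzT => ⟨⟨z, hz⟩, hT _ hzT, rfl⟩) (haa ▸ a'.2) hv (pvrd_join_ch h)
  rw [haa, hvv] at h1
  obtain ⟨_, h2⟩ := pvrd_ch_join H.good' (pvrd_start H hX hT haa h.1) h1
  exact h2

/-- **JOINS, near end**: if a site which is not far is reached, then all the sites of `Y'` which are not far are reached -/
theorem pvrd_join_near (H : PvrdSit Y Y' C ρ) (hne : C.Nonempty) (hconn : IsPreconnected (vorNbd C (3 * ρ))) (hX : PvrdSame C ρ X X') (hT : ∀ x : ↥Y', (x : ℂ) ∈ pvrdThick C ρ → x ∈ X') (haa : (a : ℂ) = a')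
    (hv : (v : ℂ) ∉ pvgeFar C ρ) (h : (delbPl Y).toMap.Join univ X a v) (hv' : (v' : ℂ) ∉ pvgeFar C ρ) : (delbPl Y').toMap.Join univ X' a' v' := by
  have h1 := pvrd_surgery_near H.rho hne hconn H.eq H.mesh H.good'.lf (pvrd_hW H hX) (fun z hz hzT => ⟨⟨z, hz⟩, hT _ hzT, rfl⟩) (haa ▸ a'.2) hv (pvrd_join_ch h) v'.2 hv'
  rw [haa] at h1
  obtain ⟨_, h2⟩ := pvrd_ch_join H.good' (pvrd_start H hX hT haa h.1) h1
  exact h2

/-- **JOINS INSIDE THE FAR PART**: no hypothesis on `C` -/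
theorem pvrd_join_in (H : PvrdSit Y Y' C ρ) (hXf : ∀ x ∈ X, (x : ℂ) ∈ pvgeFar C ρ) (hX : PvrdSame C ρ X X') (haa : (a : ℂ) = a') (h : (delbPl Y).toMap.Join univ X a v) :
    ∃ v' : ↥Y', (v : ℂ) = v' ∧ (delbPl Y').toMap.Join univ X' a' v' := by
  have h1 : PvgeCh Y' (Subtype.val '' X) a v := pvge_far_chain H.rho H.eq H.mesh (by rintro _ ⟨x, hx, rfl⟩; exact hXf x hx) (pvrd_join_ch h)
  have h2 : PvgeCh Y' (Subtype.val '' X') a v := h1.mono (by rintro _ ⟨x, hx, rfl⟩; exact pvrd_hW H hX _ ⟨x, hx, rfl⟩ (hXf x hx))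
  rw [haa] at h2
  obtain ⟨hb, h3⟩ := pvrd_ch_join H.good' ((hX a a' haa (hXf a h.1)).1 h.1) h2
  exact ⟨⟨v, hb⟩, rfl, h3⟩

/-- two colourings of the two site sets which agree at the common sites off `C` -/
def PvrdCol (C : Set ℂ) {Y Y' : Set ℂ} (τ : ↥Y → Bool) (τ' : ↥Y' → Bool) : Prop := ∀ (v : ↥Y) (v' : ↥Y'), (v : ℂ) = v' → (v : ℂ) ∉ C → τ v = τ' v'

theorem PvrdCol.symm {τ : ↥Y → Bool} {τ' : ↥Y' → Bool} (h : PvrdCol C τ τ') : PvrdCol C τ' τ := fun v' v e hv => (h v v' e.symm (e ▸ hv)).symm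

open Classical in
/-- the colouring of `Y` read from a colouring of `Y'` -/
noncomputable def pvrdPull {Y Y' : Set ℂ} (τ' : ↥Y' → Bool) : ↥Y → Bool := fun v => if h : (v : ℂ) ∈ Y' then τ' ⟨v, h⟩ else false

theorem pvrd_eqns_cite3 : True := by
  have := @PvrdCol.eq_1; have := @pvrdPull.eq_1
  trivial

theorem pvrd_pull_col (C : Set ℂ) (τ' : ↥Y' → Bool) : PvrdCol C (pvrdPull (Y := Y) τ') τ' := fun v v' e _ => by
  have h : (v : ℂ) ∈ Y' := e ▸ v'.2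
  unfold pvrdPull
  rw [dif_pos h]
  congr 1
  exact Subtype.ext e

theorem pvrd_col_of {σ σ' : ℂ → Bool} (hσ : ∀ z ∉ C, σ z = σ' z) : PvrdCol C (fun v : ↥Y => σ v) (fun v : ↥Y' => σ' v) := fun v v' e hv => by
  show σ v = σ' v'
  rw [← e]
  exact hσ _ hv

/-- the colourings agree at the twin darts of the far instance -/
theorem pvrd_col_rel (H : PvrdSit Y Y' C ρ) {τ : ↥Y → Bool} {τ' : ↥Y' → Bool} (h : PvrdCol C τ τ') :
    ∀ d d', pvgeRel (delbPl Y) (delbPl Y') (pvgeFar C ρ) d d' → τ ((delbPl Y).toMap.src d) = τ' ((delbPl Y').toMap.src d') := fun d d' hd =>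
  h _ _ (pvge_pos_eq d d' hd) (pvge_rel_mem (pvge_del_bpl H.good) H.agr hd).1

end maps

/-! ## 3. `NU`, `Lam` (Defs v3) do not read `C` -/

section nu

variable {Y Y' C : Set ℂ} {ρ : ℝ}

/-- the same positions: the same membership -/
theorem pvrd_img_iff {A : Set ↥Y} {A' : Set ↥Y'} (h : Subtype.val '' A = Subtype.val '' A') {v : ↥Y} {v' : ↥Y'} (e : (v : ℂ) = v') : v ∈ A ↔ v' ∈ A' := by
  constructor
  · intro hv
    have h1 : (v : ℂ) ∈ Subtype.val '' A' := h ▸ ⟨v, hv, rfl⟩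
    obtain ⟨w, hw, hwv⟩ := h1
    have : w = v' := Subtype.ext (hwv.trans e)
    exact this ▸ hw
  · intro hv
    have h1 : (v' : ℂ) ∈ Subtype.val '' A := h ▸ ⟨v', hv, rfl⟩
    obtain ⟨w, hw, hwv⟩ := h1
    have : w = v := Subtype.ext (hwv.trans e.symm)
    exact this ▸ hw

theorem pvrd_img_of {A : Set ↥Y} {A' : Set ↥Y'} (h : ∀ v ∈ A, ∃ v' ∈ A', (v : ℂ) = v') (h' : ∀ v' ∈ A', ∃ v ∈ A, (v' : ℂ) = v) : Subtype.val '' A = Subtype.val '' A' := by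
  ext z
  constructor
  · rintro ⟨v, hv, rfl⟩
    obtain ⟨v', hv', e⟩ := h v hv
    exact ⟨v', hv', e.symm⟩
  · rintro ⟨v', hv', rfl⟩
    obtain ⟨v, hv, e⟩ := h' v' hv'
    exact ⟨v, hv, e.symm⟩

variable {𝔇 : PvwDat (delbPl Y).toMap} {𝔇' : PvwDat (delbPl Y').toMap} {π : PvwPat}

/-- **the positions which the class `YC0` reads from the datum**: the frozen sites of `D_Y`, the two tip apexes -/
structure PvrdTwY (𝔇 : PvwDat (delbPl Y).toMap) (𝔇' : PvwDat (delbPl Y').toMap) : Prop where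
  fzY : Subtype.val '' 𝔇.fzY = Subtype.val '' 𝔇'.fzY
  ap : (𝔇.t.ap : ℂ) = 𝔇'.t.ap
  am : (𝔇.s.am : ℂ) = 𝔇'.s.am

theorem PvrdTwY.symm (G : PvrdTwY 𝔇 𝔇') : PvrdTwY 𝔇' 𝔇 := ⟨G.fzY.symm, G.ap.symm, G.am.symm⟩

theorem pvrd_yr0_same (G : PvrdTwY 𝔇 𝔇') : PvrdSame C ρ (𝔇.Yr0 Subtype.val π) (𝔇'.Yr0 Subtype.val π) := fun v v' e _ => by
  show ((v ∉ 𝔇.fzY ∧ (v : ℂ) ∈ π.Yin) ∧ (v : ℂ) ∉ π.Ycol) ↔ ((v' ∉ 𝔇'.fzY ∧ (v' : ℂ) ∈ π.Yin) ∧ (v' : ℂ) ∉ π.Ycol)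
  rw [pvrd_img_iff G.fzY e, e]

theorem pvrd_yc0_imp (H : PvrdSit Y Y' C ρ) (G : PvrdTwY 𝔇 𝔇') (hY : π.Yin \ π.Ycol ⊆ pvgeFar C ρ) {v : ↥Y} (hv : v ∈ 𝔇.YC0 Subtype.val π) :
    ∃ v' : ↥Y', (v : ℂ) = v' ∧ v' ∈ 𝔇'.YC0 Subtype.val π := by
  obtain ⟨a, hs, hc⟩ := hv
  have hj := (pvrd_comp_iff H.good).1 hc
  have hXf : ∀ x ∈ 𝔇.Yr0 Subtype.val π, (x : ℂ) ∈ pvgeFar C ρ := fun x hx => hY ⟨hx.1.2, hx.2⟩
  have haf := hXf a hj.1
  obtain ⟨v', e, hj'⟩ := pvrd_join_in (a' := ⟨a, H.site haf a.2⟩) H hXf (pvrd_yr0_same G) rfl hj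
  refine ⟨v', e, ⟨a, H.site haf a.2⟩, ?_, (pvrd_comp_iff H.good').2 hj'⟩
  rcases hs with rfl | rfl | ⟨w, hw, haw⟩
  · exact Or.inl (Subtype.ext G.ap)
  · exact Or.inr (Or.inl (Subtype.ext G.am))
  · have h1 : DelAdj Y' a w := (pvge_far_adj H.rho H.eq H.mesh haf).1 ((pvrd_adj H.good).1 haw)
    exact Or.inr (Or.inr ⟨⟨w, h1.2.1⟩, hw, (pvrd_adj H.good').2 h1⟩)

/-- `YC0` is the same class in the two planes -/
theorem pvrd_yc0 (H : PvrdSit Y Y' C ρ) (G : PvrdTwY 𝔇 𝔇') (hY : π.Yin \ π.Ycol ⊆ pvgeFar C ρ) : Subtype.val '' 𝔇.YC0 Subtype.val π = Subtype.val '' 𝔇'.YC0 Subtype.val π :=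
  pvrd_img_of (fun _ hv => (pvrd_yc0_imp H G hY hv).imp fun _ h => ⟨h.2, h.1⟩) (fun _ hv => (pvrd_yc0_imp H.symm G.symm hY hv).imp fun _ h => ⟨h.2, h.1⟩)

/-- **`NU` DOES NOT READ `C`** (the `3ρ`-neighbourhood of `C` lies in `Ycol`) -/
theorem pvrd_nu (H : PvrdSit Y Y' C ρ) (G : PvrdTwY 𝔇 𝔇') (hcol : π.Ycolᶜ ⊆ pvgeFar C ρ) : Subtype.val '' 𝔇.NU Subtype.val π = Subtype.val '' 𝔇'.NU Subtype.val π := by
  have hY : π.Yin \ π.Ycol ⊆ pvgeFar C ρ := fun z hz => hcol hz.2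
  have key : ∀ {Y Y' : Set ℂ} {𝔇 : PvwDat (delbPl Y).toMap} {𝔇' : PvwDat (delbPl Y').toMap}, PvrdSit Y Y' C ρ → PvrdTwY 𝔇 𝔇' → ∀ v ∈ 𝔇.NU Subtype.val π, ∃ v' ∈ 𝔇'.NU Subtype.val π, (v : ℂ) = v' := by
    intro Y Y' 𝔇 𝔇' H G v hv
    refine ⟨⟨v, H.site (hcol hv.2) v.2⟩, ⟨fun hc => hv.1 ?_, hv.2⟩, rfl⟩
    exact (pvrd_img_iff (pvrd_yc0 H G hY) rfl).2 hc
  exact pvrd_img_of (key H G) (key H.symm G.symm)

theorem pvrd_nu_far (hcol : π.Ycolᶜ ⊆ pvgeFar C ρ) {v : ↥Y} (hv : v ∈ 𝔇.NU Subtype.val π) : (v : ℂ) ∈ pvgeFar C ρ := hcol hv.2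

/-- **the boundary layer of `NU` does not read `C`** -/
theorem pvrd_lam (H : PvrdSit Y Y' C ρ) (G : PvrdTwY 𝔇 𝔇') (hcol : π.Ycolᶜ ⊆ pvgeFar C ρ) : Subtype.val '' 𝔇.Lam Subtype.val π = Subtype.val '' 𝔇'.Lam Subtype.val π := by
  have key : ∀ {Y Y' : Set ℂ} {𝔇 : PvwDat (delbPl Y).toMap} {𝔇' : PvwDat (delbPl Y').toMap}, PvrdSit Y Y' C ρ → PvrdTwY 𝔇 𝔇' → ∀ v ∈ 𝔇.Lam Subtype.val π, ∃ v' ∈ 𝔇'.Lam Subtype.val π, (v : ℂ) = v' := by
    rintro Y Y' 𝔇 𝔇' H G v ⟨hv, w, hw, hvw⟩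
    have hf := pvrd_nu_far (𝔇 := 𝔇) hcol hv
    have h1 : DelAdj Y' v w := (pvge_far_adj H.rho H.eq H.mesh hf).1 ((pvrd_adj H.good).1 hvw)
    refine ⟨⟨v, h1.1⟩, ⟨(pvrd_img_iff (pvrd_nu H G hcol) rfl).1 hv, ⟨w, h1.2.1⟩, fun hc => hw ((pvrd_img_iff (pvrd_nu H G hcol) rfl).2 hc), (pvrd_adj H.good').2 h1⟩, rfl⟩
  exact pvrd_img_of (key H G) (key H.symm G.symm)

end nu

end Claimed.Agent.R289
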