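import Mathlib

/-!
# Row 289 (S0537, Cardy for Poisson-Voronoi), box TR, file Tr/S5Kit : THE MODEL-FREE SOFT HALF OF SEC. 5 (PINS) AND THE WHITE-ADDING KERNEL OF SEC. 6      (owner helper3; list of helper205, `notes/R289/s5_205.md` sec. 4; T1, T2 of helper208; prefix `pv5_`)

Mathlib only.  Nothing here knows the Poisson process, Delaunay triangles or rims.

* sec. 1  `pv5_trials`       (5.1) `pin:trials`: independent tests of probability `≤ p`:  `P(at most j clean) ≤ C(n,j) p^(n-j)`   (paper: `j = 2`)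
* sec. 2  `pv5_small_prop`, `pv5_small_prop_prod`     (5.3) `pin:small-propensity`: `ν(A ∩ {ν(A | F) < t}) ≤ t`, for a sub-sigma-field and for a product measure (no disintegration)
* sec. 3  `pv5_block_markov`, `pv5_arith`     (5.4) `pin:flag`: first moment for the number of flagged centres;   the order of choices `M`, then `n`
* sec. 4  `pv5_harris`, `pv5_mono_kernel`, `pv5_mono_pmf`, `pv5_prep_dom`     Harris on a finite cube of fair bits;   T2 = the kernel which only recolours `false → true` and maps the uniform law to the uniform law on an upper set;   its density bound (X4 (3) of 205)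
* sec. 5  `pv5_dom_kernel`     T1 of 208 (Lemma 6.1, first clause), his proof
* sec. 6  `pv5_subfamily`, `pv5_peierls`, `pv5_peierls_exp`     the block argument of Prop. 5.4: bad blocks of finite range and small probability do not form long `*`-chains
* sec. 7  `pv5_walk_chain`, `pv5_chain`, `pv5_centres`     deterministic: a chain of points with small steps and large displacement visits a simple `*`-chain of many blocks (G7 of 205: many distinct grid centres)
-/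

set_option autoImplicit false

namespace Claimed.Agent.R289

open MeasureTheory ProbabilityTheory Filter Topology
open scoped ENNReal

/-! ## 1. Independent trials -/

/-- (5.1): if at most `j` of the tests are negative, then some `n - j` tests are all positive -/
theorem pv5_trials_sub {Ω ι : Type*} [Fintype ι] [DecidableEq ι] (T : ι → Set Ω) (j : ℕ) :
    {ω | ∀ S : Finset ι, (∀ i ∈ S, ω ∉ T i) → S.card ≤ j} ⊆
      ⋃ S ∈ Finset.powersetCard (Fintype.card ι - j) (Finset.univ : Finset ι), ⋂ i ∈ S, T i := by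
  classical
  intro ω hω
  set N : Finset ι := Finset.univ.filter fun i => ω ∉ T i with hN
  have h1 : N.card ≤ j := hω N fun i hi => (Finset.mem_filter.1 hi).2
  have h2 : Fintype.card ι - j ≤ Nᶜ.card := by
    rw [Finset.card_compl]
    omega
  obtain ⟨S, hS, hc⟩ := Finset.exists_subset_card_eq h2
  refine Set.mem_iUnion₂.2 ⟨S, Finset.mem_powersetCard.2 ⟨Finset.subset_univ _, hc⟩, Set.mem_iInter₂.2 fun i hi => ?_⟩
  have := Finset.mem_compl.1 (hS hi)
  by_contra hcon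
  exact this (Finset.mem_filter.2 ⟨Finset.mem_univ _, hcon⟩)

/-- **(5.1) `pin:trials`**: `n` independent tests, each positive with probability `≤ p`.   The probability that at most `j` tests are negative (`clean`) is `≤ C(n,j) p^(n-j)`.      Paper: `j = 2` (fewer than three clean trials). -/
theorem pv5_trials {Ω ι : Type*} [MeasurableSpace Ω] [Fintype ι] [DecidableEq ι] (μ : Measure Ω) (T : ι → Set Ω) (hind : iIndepSet T μ)
    (p : ℝ≥0∞) (hp : ∀ i, μ (T i) ≤ p) (j : ℕ) :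
    μ {ω | ∀ S : Finset ι, (∀ i ∈ S, ω ∉ T i) → S.card ≤ j} ≤ (Fintype.card ι).choose (Fintype.card ι - j) * p ^ (Fintype.card ι - j) := by
  refine (measure_mono (pv5_trials_sub T j)).trans ((measure_biUnion_finset_le _ _).trans ?_)
  have h : ∀ S ∈ Finset.powersetCard (Fintype.card ι - j) (Finset.univ : Finset ι), μ (⋂ i ∈ S, T i) ≤ p ^ (Fintype.card ι - j) := by
    intro S hS
    rw [hind.meas_biInter S, ← (Finset.mem_powersetCard.1 hS).2, ← Finset.prod_const]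
    exact Finset.prod_le_prod' fun i _ => hp i
  refine (Finset.sum_le_sum h).trans ?_
  rw [Finset.sum_const, Finset.card_powersetCard, Finset.card_univ, nsmul_eq_mul]

/-- the form of the paper: fewer than three clean trials -/
theorem pv5_trials_three {Ω ι : Type*} [MeasurableSpace Ω] [Fintype ι] [DecidableEq ι] (μ : Measure Ω) (T : ι → Set Ω) (hind : iIndepSet T μ)
    (p : ℝ≥0∞) (hp : ∀ i, μ (T i) ≤ p) (hn : 2 ≤ Fintype.card ι) :
    μ {ω | ¬ ∃ S : Finset ι, S.card = 3 ∧ ∀ i ∈ S, ω ∉ T i} ≤ (Fintype.card ι) ^ 2 * p ^ (Fintype.card ι - 2) := by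
  have hsub : {ω | ¬ ∃ S : Finset ι, S.card = 3 ∧ ∀ i ∈ S, ω ∉ T i} ⊆ {ω | ∀ S : Finset ι, (∀ i ∈ S, ω ∉ T i) → S.card ≤ 2} := by
    intro ω hω S hS
    by_contra hcon
    obtain ⟨S', hS', hc⟩ := Finset.exists_subset_card_eq (show 3 ≤ S.card by omega)
    exact hω ⟨S', hc, fun i hi => hS i (hS' hi)⟩
  refine (measure_mono hsub).trans ((pv5_trials μ T hind p hp 2).trans ?_)
  gcongr
  rw [Nat.choose_symm hn]
  have : (Fintype.card ι).choose 2 ≤ (Fintype.card ι) ^ 2 := Nat.choose_le_pow _ _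
  exact_mod_cast this

/-! ## 2. Small propensities -/

/-- **(5.3) `pin:small-propensity`**, product form: under `μ₁ ⊗ μ₂` the event `A` together with `μ₂(A | first coordinate) < t` has probability `≤ t` -/
theorem pv5_small_prop_prod {α β : Type*} [MeasurableSpace α] [MeasurableSpace β] (μ₁ : Measure α) (μ₂ : Measure β) [IsProbabilityMeasure μ₁] [SFinite μ₂]
    (A : Set (α × β)) (hA : MeasurableSet A) (t : ℝ≥0∞) :
    (μ₁.prod μ₂) (A ∩ {x | μ₂ (Prod.mk x.1 ⁻¹' A) < t}) ≤ t := by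
  have hm : Measurable fun a : α => μ₂ (Prod.mk a ⁻¹' A) := measurable_measure_prodMk_left hA
  have hB : MeasurableSet {x : α × β | μ₂ (Prod.mk x.1 ⁻¹' A) < t} := measurableSet_lt (hm.comp measurable_fst) measurable_const
  rw [Measure.prod_apply (hA.inter hB)]
  calc ∫⁻ a, μ₂ (Prod.mk a ⁻¹' (A ∩ {x | μ₂ (Prod.mk x.1 ⁻¹' A) < t})) ∂μ₁ ≤ ∫⁻ _, t ∂μ₁ := by
        refine lintegral_mono fun a => ?_
        by_cases h : μ₂ (Prod.mk a ⁻¹' A) < t
        · exact (measure_mono fun b hb => hb.1).trans h.le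
        · have : Prod.mk a ⁻¹' (A ∩ {x | μ₂ (Prod.mk x.1 ⁻¹' A) < t}) = ∅ := by
            ext b
            simp only [Set.mem_preimage, Set.mem_inter_iff, Set.mem_ofPred_eq, Set.mem_empty_iff_false, iff_false, not_and]
            exact fun _ => h
          rw [this]
          simp
    _ = t := by simp

/-- **(5.3)**, for a sub-sigma-field -/
theorem pv5_small_prop {Ω : Type*} {m m0 : MeasurableSpace Ω} (hm : m ≤ m0) (μ : Measure Ω) [IsProbabilityMeasure μ] (A : Set Ω) (hA : MeasurableSet A)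
    (t : ℝ) (ht : 0 ≤ t) :
    μ.real (A ∩ {ω | (μ[A.indicator (fun _ => (1 : ℝ)) | m]) ω < t}) ≤ t := by
  set g : Ω → ℝ := μ[A.indicator (fun _ => (1 : ℝ)) | m] with hg
  have hgm : StronglyMeasurable[m] g := stronglyMeasurable_condExp
  have hB : MeasurableSet[m] {ω | g ω < t} := measurableSet_lt hgm.measurable measurable_const
  have hB0 : MeasurableSet {ω | g ω < t} := hm _ hB
  have hint : Integrable (A.indicator fun _ => (1 : ℝ)) μ := (integrable_const 1).indicator hA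
  have e1 : ∫ ω in {ω | g ω < t}, g ω ∂μ = ∫ ω in {ω | g ω < t}, A.indicator (fun _ => (1 : ℝ)) ω ∂μ := setIntegral_condExp hm hint hB
  have e2 : ∫ ω in {ω | g ω < t}, A.indicator (fun _ => (1 : ℝ)) ω ∂μ = μ.real (A ∩ {ω | g ω < t}) := by
    rw [setIntegral_indicator hA, setIntegral_const, smul_eq_mul, mul_one, Set.inter_comm]
  have e3 : ∫ ω in {ω | g ω < t}, g ω ∂μ ≤ ∫ _ in {ω | g ω < t}, t ∂μ :=
    setIntegral_mono_on integrable_condExp.integrableOn (integrable_const t).integrableOn hB0 fun ω hω => le_of_lt hω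
  have e4 : ∫ _ in {ω | g ω < t}, t ∂μ ≤ t := by
    rw [setIntegral_const, smul_eq_mul]
    have : μ.real {ω | g ω < t} ≤ 1 := measureReal_le_one
    nlinarith [measureReal_nonneg (μ := μ) (s := {ω | g ω < t})]
  rw [← e2, ← e1]
  exact e3.trans e4

/-! ## 3. The first moment of the flags;  the order of the constants -/

/-- **(5.4), Markov**: the probability that at least `k` of the events `F i`, `i ∈ S`, occur is at most `(∑ P(F i)) / k` -/
theorem pv5_block_markov {Ω ι : Type*} [MeasurableSpace Ω] (μ : Measure Ω) (S : Finset ι) (F : ι → Set Ω) (hF : ∀ i ∈ S, MeasurableSet (F i)) (k : ℕ) (hk : 0 < k) :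
    μ {ω | ∃ U ⊆ S, k ≤ U.card ∧ ∀ i ∈ U, ω ∈ F i} ≤ (∑ i ∈ S, μ (F i)) / k := by
  classical
  set f : Ω → ℝ≥0∞ := fun ω => ∑ i ∈ S, (F i).indicator (fun _ => (1 : ℝ≥0∞)) ω with hf
  have hfm : Measurable f := Finset.measurable_sum _ fun i hi => measurable_const.indicator (hF i hi)
  have hsub : {ω | ∃ U ⊆ S, k ≤ U.card ∧ ∀ i ∈ U, ω ∈ F i} ⊆ {ω | (k : ℝ≥0∞) ≤ f ω} := by
    rintro ω ⟨U, hU, hc, hm⟩
    show (k : ℝ≥0∞) ≤ f ω
    calc (k : ℝ≥0∞) ≤ (U.card : ℝ≥0∞) := by exact_mod_cast hc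
      _ = ∑ i ∈ U, (F i).indicator (fun _ => (1 : ℝ≥0∞)) ω := by
          rw [Finset.sum_congr rfl fun i hi => Set.indicator_of_mem (hm i hi) _]
          simp
      _ ≤ f ω := Finset.sum_le_sum_of_subset hU
  have hint : ∫⁻ ω, f ω ∂μ = ∑ i ∈ S, μ (F i) := by
    rw [lintegral_finsetSum _ fun i hi => measurable_const.indicator (hF i hi)]
    refine Finset.sum_congr rfl fun i hi => ?_
    rw [lintegral_indicator (hF i hi), setLIntegral_const, one_mul]
  rw [ENNReal.le_div_iff_mul_le (Or.inl (by exact_mod_cast hk.ne')) (Or.inl (ENNReal.natCast_ne_top k)), mul_comm, ← hint]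
  exact (mul_le_mul_right (measure_mono hsub) _).trans (mul_meas_ge_le_lintegral hfm _)

/-- **(5.4), the order of the choices**: `L = B_n = 30 M (10⁴ M)^(n-1)`;   first `M` (so that `10⁴ C M^(-c) ≤ 1/2`: here `1 + c > 1` is used), then `n`:   `L n² (C M^(-1-c))^(n-2) ≤ ζ` -/
theorem pv5_arith (C c ζ M0 : ℝ) (hC : 0 < C) (hc : 0 < c) (hζ : 0 < ζ) :
    ∃ M : ℝ, M0 ≤ M ∧ 1 ≤ M ∧ ∃ n0 : ℕ, ∀ n : ℕ, n0 ≤ n → 30 * M * (10 ^ 4 * M) ^ (n - 1) * ((n : ℝ) ^ 2 * (C * M ^ (-1 - c)) ^ (n - 2)) ≤ ζ := by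
  set M : ℝ := max (max M0 1) ((2 * 10 ^ 4 * C) ^ (1 / c)) with hM
  have hM0 : M0 ≤ M := (le_max_left _ _).trans (le_max_left _ _)
  have hM1 : 1 ≤ M := (le_max_right _ _).trans (le_max_left _ _)
  have hMpos : 0 < M := by linarith
  have hMc : 2 * 10 ^ 4 * C ≤ M ^ c := by
    have h1 : (2 * 10 ^ 4 * C) ^ (1 / c) ≤ M := le_max_right _ _
    have h2 : ((2 * 10 ^ 4 * C) ^ (1 / c)) ^ c ≤ M ^ c := Real.rpow_le_rpow (by positivity) h1 hc.le
    rwa [← Real.rpow_mul (by positivity), one_div, inv_mul_cancel₀ hc.ne', Real.rpow_one] at h2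
  have hr : 10 ^ 4 * M * (C * M ^ (-1 - c)) ≤ 1 / 2 := by
    have e : M ^ (-1 - c) = (M * M ^ c)⁻¹ := by
      rw [show (-1 - c) = -(1 + c) by ring, Real.rpow_neg hMpos.le, Real.rpow_add hMpos, Real.rpow_one]
    rw [e]
    have hp : 0 < M ^ c := Real.rpow_pos_of_pos hMpos _
    rw [show 10 ^ 4 * M * (C * (M * M ^ c)⁻¹) = (10 ^ 4 * C) / M ^ c by field_simp, div_le_iff₀ hp]
    linarith
  have hr0 : 0 ≤ 10 ^ 4 * M * (C * M ^ (-1 - c)) := by positivity
  have hlim : Tendsto (fun n : ℕ => (n : ℝ) ^ 2 * (1 / 2 : ℝ) ^ n) atTop (𝓝 0) :=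
    tendsto_pow_const_mul_const_pow_of_abs_lt_one 2 (by rw [abs_of_pos (by norm_num)]; norm_num)
  have hK : 0 < ζ / (30 * M * (10 ^ 4 * M) * 4) := by positivity
  obtain ⟨n1, hn1⟩ := eventually_atTop.1 (hlim.eventually (gt_mem_nhds hK))
  refine ⟨M, hM0, hM1, max n1 2, fun n hn => ?_⟩
  have hn2 : 2 ≤ n := (le_max_right _ _).trans hn
  have h3 := hn1 n ((le_max_left _ _).trans hn)
  obtain ⟨k, rfl⟩ : ∃ k, n = k + 2 := ⟨n - 2, by omega⟩
  have e1 : k + 2 - 1 = k + 1 := by omega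
  have e2 : k + 2 - 2 = k := by omega
  rw [e1, e2]
  have e3 : 30 * M * (10 ^ 4 * M) ^ (k + 1) * (((k + 2 : ℕ) : ℝ) ^ 2 * (C * M ^ (-1 - c)) ^ k) =
      30 * M * (10 ^ 4 * M) * (((k + 2 : ℕ) : ℝ) ^ 2 * (10 ^ 4 * M * (C * M ^ (-1 - c))) ^ k) := by
    rw [mul_pow (10 ^ 4 * M) (C * M ^ (-1 - c)) k, pow_succ]
    ring
  rw [e3]
  have e4 : (10 ^ 4 * M * (C * M ^ (-1 - c))) ^ k ≤ (1 / 2 : ℝ) ^ k := pow_le_pow_left₀ hr0 hr k
  have e5 : (1 / 2 : ℝ) ^ k = 4 * (1 / 2 : ℝ) ^ (k + 2) := by rw [pow_add]; ring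
  have e6 : ((k + 2 : ℕ) : ℝ) ^ 2 * (10 ^ 4 * M * (C * M ^ (-1 - c))) ^ k ≤ 4 * (((k + 2 : ℕ) : ℝ) ^ 2 * (1 / 2 : ℝ) ^ (k + 2)) := by
    calc _ ≤ ((k + 2 : ℕ) : ℝ) ^ 2 * (1 / 2 : ℝ) ^ k := by gcongr
      _ = _ := by rw [e5]; ring
  have hA : 0 < 30 * M * (10 ^ 4 * M) := by positivity
  calc 30 * M * (10 ^ 4 * M) * (((k + 2 : ℕ) : ℝ) ^ 2 * (10 ^ 4 * M * (C * M ^ (-1 - c))) ^ k)
      ≤ 30 * M * (10 ^ 4 * M) * (4 * (((k + 2 : ℕ) : ℝ) ^ 2 * (1 / 2 : ℝ) ^ (k + 2))) := by gcongr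
    _ ≤ 30 * M * (10 ^ 4 * M) * (4 * (ζ / (30 * M * (10 ^ 4 * M) * 4))) := by gcongr
    _ = ζ := by field_simp

/-! ## 4. Harris and the white-adding kernel on a finite cube of fair bits -/

section cube
open Finset

/-- sums over the cube, one coordinate split off -/
theorem pv5_sum_cons {n : ℕ} (F : (Fin (n + 1) → Bool) → ℝ) :
    ∑ w, F w = ∑ x : Fin n → Bool, F (Fin.cons true x) + ∑ x : Fin n → Bool, F (Fin.cons false x) := by
  rw [← (Fin.consEquiv fun _ => Bool).sum_comp, Fintype.sum_prod_type, Fintype.sum_bool]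
  rfl

theorem pv5_card_cons {n : ℕ} (W : Finset (Fin (n + 1) → Bool)) :
    (W.card : ℝ) = ((univ.filter fun x : Fin n → Bool => (Fin.cons true x : Fin (n + 1) → Bool) ∈ W).card : ℝ) +
      ((univ.filter fun x : Fin n → Bool => (Fin.cons false x : Fin (n + 1) → Bool) ∈ W).card : ℝ) := by
  have h : (W.card : ℝ) = ∑ w, if w ∈ W then (1 : ℝ) else 0 := by
    rw [Finset.sum_boole, Finset.filter_mem_eq_inter, Finset.univ_inter]
  rw [h, pv5_sum_cons, Finset.sum_boole, Finset.sum_boole]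

theorem pv5_cons_le {n : ℕ} {b b' : Bool} {x x' : Fin n → Bool} (hb : b ≤ b') (hx : x ≤ x') :
    (Fin.cons b x : Fin (n + 1) → Bool) ≤ Fin.cons b' x' := by
  intro i
  refine Fin.cases ?_ (fun j => ?_) i
  · simpa using hb
  · simpa using hx j

/-- **T2 (208), matrix form, on `Fin n → Bool`** (`true` = white) -/
theorem pv5_mono_kernel_fin (n : ℕ) (W : Finset (Fin n → Bool)) (hW : IsUpperSet (W : Set (Fin n → Bool))) (hne : W.Nonempty) :
    ∃ K : (Fin n → Bool) → (Fin n → Bool) → ℝ, (∀ w w', 0 ≤ K w w') ∧ (∀ w, ∑ w', K w w' = 1) ∧ (∀ w w', K w w' ≠ 0 → w ≤ w') ∧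
      ∀ w', ∑ w, K w w' = if w' ∈ W then (2 : ℝ) ^ n / W.card else 0 := by
  induction n with
  | zero =>
    refine ⟨fun _ _ => 1, fun _ _ => zero_le_one, fun w => by simp, fun w w' _ => by rw [Subsingleton.elim w w'], fun w' => ?_⟩
    obtain ⟨w0, hw0⟩ := hne
    have hmem : w' ∈ W := by rwa [Subsingleton.elim w' w0]
    have hc : W = {w'} := by
      ext x
      rw [Subsingleton.elim x w']
      simp [hmem]
    rw [if_pos hmem, hc]
    simp
  | succ n ih =>
    set Wt : Finset (Fin n → Bool) := univ.filter fun x => (Fin.cons true x : Fin (n + 1) → Bool) ∈ W with hWt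
    set Wf : Finset (Fin n → Bool) := univ.filter fun x => (Fin.cons false x : Fin (n + 1) → Bool) ∈ W with hWf
    have mt : ∀ x, x ∈ Wt ↔ (Fin.cons true x : Fin (n + 1) → Bool) ∈ W := fun x => by simp [hWt]
    have mf : ∀ x, x ∈ Wf ↔ (Fin.cons false x : Fin (n + 1) → Bool) ∈ W := fun x => by simp [hWf]
    have hsub : Wf ⊆ Wt := fun x hx => (mt x).2 (hW (pv5_cons_le (Bool.false_le _) le_rfl) ((mf x).1 hx))
    have hUt : IsUpperSet (Wt : Set (Fin n → Bool)) := fun x y hxy hx => (mt y).2 (hW (pv5_cons_le le_rfl hxy) ((mt x).1 hx))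
    have hUf : IsUpperSet (Wf : Set (Fin n → Bool)) := fun x y hxy hx => (mf y).2 (hW (pv5_cons_le le_rfl hxy) ((mf x).1 hx))
    have hnt : Wt.Nonempty := by
      obtain ⟨w, hw⟩ := hne
      refine ⟨Fin.tail w, (mt _).2 (hW ?_ hw)⟩
      conv_lhs => rw [← Fin.cons_self_tail w]
      exact pv5_cons_le (Bool.le_true _) le_rfl
    have hcard : (W.card : ℝ) = Wt.card + Wf.card := pv5_card_cons W
    have hct : (0 : ℝ) < Wt.card := by exact_mod_cast hnt.card_pos
    have hcf : (0 : ℝ) ≤ Wf.card := Nat.cast_nonneg _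
    have hle : (Wf.card : ℝ) ≤ Wt.card := by exact_mod_cast Finset.card_le_card hsub
    have hcW : (0 : ℝ) < W.card := by rw [hcard]; linarith
    obtain ⟨Kt, t0, t1, t2, t3⟩ := ih Wt hUt hnt
    obtain ⟨Kf, f0, f1, f2, f3⟩ : ∃ K : (Fin n → Bool) → (Fin n → Bool) → ℝ, (∀ w w', 0 ≤ K w w') ∧ (∀ w, ∑ w', K w w' = 1) ∧
        (Wf.Nonempty → ∀ w w', K w w' ≠ 0 → w ≤ w') ∧ (Wf.Nonempty → ∀ w', ∑ w, K w w' = if w' ∈ Wf then (2 : ℝ) ^ n / Wf.card else 0) := by
      by_cases h : Wf.Nonempty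
      · obtain ⟨K, a, b, c, d⟩ := ih Wf hUf h
        exact ⟨K, a, b, fun _ => c, fun _ => d⟩
      · exact ⟨Kt, t0, t1, fun h' => absurd h' h, fun h' => absurd h' h⟩
    set θ : ℝ := (Wt.card - Wf.card) / W.card with hθ
    have hθ0 : 0 ≤ θ := div_nonneg (by linarith) hcW.le
    have hθ1 : 1 - θ = 2 * Wf.card / W.card := by
      rw [hθ]; field_simp; rw [hcard]; ring
    have hθ2 : 1 + θ = 2 * Wt.card / W.card := by
      rw [hθ]; field_simp; rw [hcard]; ring
    have hθ3 : 0 ≤ 1 - θ := by rw [hθ1]; positivity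
    obtain ⟨K, hKtt, hKtf, hKft, hKff⟩ : ∃ K : (Fin (n + 1) → Bool) → (Fin (n + 1) → Bool) → ℝ,
        (∀ x x', K (Fin.cons true x) (Fin.cons true x') = Kt x x') ∧ (∀ x x', K (Fin.cons true x) (Fin.cons false x') = 0) ∧
        (∀ x x', K (Fin.cons false x) (Fin.cons true x') = θ * Kt x x') ∧ (∀ x x', K (Fin.cons false x) (Fin.cons false x') = (1 - θ) * Kf x x') :=
      ⟨fun w w' => if w 0 = true then (if w' 0 = true then Kt (Fin.tail w) (Fin.tail w') else 0)
        else (if w' 0 = true then θ * Kt (Fin.tail w) (Fin.tail w') else (1 - θ) * Kf (Fin.tail w) (Fin.tail w')),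
        fun x x' => by simp, fun x x' => by simp, fun x x' => by simp, fun x x' => by simp⟩
    have hsplit : ∀ w : Fin (n + 1) → Bool, ∃ (b : Bool) (x : Fin n → Bool), w = Fin.cons b x :=
      fun w => ⟨w 0, Fin.tail w, (Fin.cons_self_tail w).symm⟩
    refine ⟨K, ?_, ?_, ?_, ?_⟩
    · intro w w'
      obtain ⟨b, x, rfl⟩ := hsplit w
      obtain ⟨b', x', rfl⟩ := hsplit w'
      cases b <;> cases b'
      · rw [hKff]; exact mul_nonneg hθ3 (f0 _ _)
      · rw [hKft]; exact mul_nonneg hθ0 (t0 _ _)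
      · rw [hKtf]
      · rw [hKtt]; exact t0 _ _
    · intro w
      obtain ⟨b, x, rfl⟩ := hsplit w
      rw [pv5_sum_cons]
      cases b
      · simp only [hKft, hKff]
        rw [← Finset.mul_sum, ← Finset.mul_sum, t1, f1]
        ring
      · simp only [hKtt, hKtf]
        rw [t1]
        simp
    · intro w w' hK
      obtain ⟨b, x, rfl⟩ := hsplit w
      obtain ⟨b', x', rfl⟩ := hsplit w'
      cases b <;> cases b'
      · rw [hKff] at hK
        have hne' : Wf.Nonempty := by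
          by_contra hcon
          rw [Finset.not_nonempty_iff_eq_empty] at hcon
          apply left_ne_zero_of_mul hK
          rw [hθ1, hcon]
          simp
        exact pv5_cons_le le_rfl (f2 hne' _ _ (right_ne_zero_of_mul hK))
      · rw [hKft] at hK
        exact pv5_cons_le (Bool.false_le _) (t2 _ _ (right_ne_zero_of_mul hK))
      · rw [hKtf] at hK
        exact absurd rfl hK
      · rw [hKtt] at hK
        exact pv5_cons_le le_rfl (t2 _ _ hK)
    · intro w'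
      obtain ⟨b', x', rfl⟩ := hsplit w'
      rw [pv5_sum_cons]
      cases b'
      · simp only [hKtf, hKff, Finset.sum_const_zero, zero_add]
        rw [← Finset.mul_sum]
        by_cases hm : x' ∈ Wf
        · have hne' : Wf.Nonempty := ⟨_, hm⟩
          have hcf' : (0 : ℝ) < Wf.card := by exact_mod_cast hne'.card_pos
          rw [f3 hne', if_pos hm, if_pos ((mf _).1 hm), hθ1, pow_succ]
          field_simp
        · rw [if_neg fun h => hm ((mf _).2 h)]
          by_cases hne' : Wf.Nonempty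
          · rw [f3 hne', if_neg hm, mul_zero]
          · rw [Finset.not_nonempty_iff_eq_empty] at hne'
            rw [hθ1, hne']
            simp
      · simp only [hKtt, hKft]
        rw [← Finset.mul_sum, t3]
        by_cases hm : x' ∈ Wt
        · rw [if_pos hm, if_pos ((mt _).1 hm)]
          have : (2 : ℝ) ^ n / Wt.card + θ * ((2 : ℝ) ^ n / Wt.card) = (1 + θ) * ((2 : ℝ) ^ n / Wt.card) := by ring
          rw [this, hθ2, pow_succ]
          field_simp
        · rw [if_neg hm, if_neg fun h => hm ((mt _).2 h)]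
          simp

/-- **T2 (208), matrix form**: `ι` a finite set of sites, `true` = white, `W` an increasing event.   `K w w'` = probability to output `w'` from the input `w`: only `false → true` changes;   uniform input gives the uniform law on `W`. -/
theorem pv5_mono_kernel {ι : Type*} [Fintype ι] [DecidableEq ι] (W : Finset (ι → Bool)) (hW : IsUpperSet (W : Set (ι → Bool))) (hne : W.Nonempty) :
    ∃ K : (ι → Bool) → (ι → Bool) → ℝ, (∀ w w', 0 ≤ K w w') ∧ (∀ w, ∑ w', K w w' = 1) ∧ (∀ w w', K w w' ≠ 0 → w ≤ w') ∧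
      ∀ w', ∑ w, K w w' = if w' ∈ W then (2 : ℝ) ^ Fintype.card ι / W.card else 0 := by
  set e : ι ≃ Fin (Fintype.card ι) := Fintype.equivFin ι with he
  set φ : (ι → Bool) ≃ (Fin (Fintype.card ι) → Bool) := e.arrowCongr (Equiv.refl Bool) with hφ
  have hφa : ∀ w i, φ w (e i) = w i := fun w i => by simp [hφ, Equiv.arrowCongr]
  have hφle : ∀ w w', φ w ≤ φ w' → w ≤ w' := fun w w' h i => by rw [← hφa w i, ← hφa w' i]; exact h (e i)
  have hφle' : ∀ w w', w ≤ w' → φ w ≤ φ w' := fun w w' h j => by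
    obtain ⟨i, rfl⟩ := e.surjective j
    rw [hφa, hφa]; exact h i
  set W' : Finset (Fin (Fintype.card ι) → Bool) := W.map φ.toEmbedding with hW'
  have hmem : ∀ w, φ w ∈ W' ↔ w ∈ W := fun w => by simp [hW']
  have hU : IsUpperSet (W' : Set (Fin (Fintype.card ι) → Bool)) := by
    intro a b hab ha
    obtain ⟨w, rfl⟩ := φ.surjective a
    obtain ⟨w', rfl⟩ := φ.surjective b
    exact (hmem w').2 (hW (hφle _ _ hab) ((hmem w).1 ha))
  obtain ⟨K, k0, k1, k2, k3⟩ := pv5_mono_kernel_fin _ W' hU (hne.map)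
  refine ⟨fun w w' => K (φ w) (φ w'), fun w w' => k0 _ _, fun w => ?_, fun w w' h => hφle _ _ (k2 _ _ h), fun w' => ?_⟩
  · rw [φ.sum_comp fun x => K (φ w) x, k1]
  · rw [φ.sum_comp fun x => K x (φ w'), k3, hW', Finset.card_map]
    simp only [← hW', hmem]

/-- **T2 (208), `PMF` form** -/
theorem pv5_mono_pmf {ι : Type*} [Fintype ι] [DecidableEq ι] (W : Finset (ι → Bool)) (hW : IsUpperSet (W : Set (ι → Bool))) (hne : W.Nonempty) :
    ∃ K : (ι → Bool) → PMF (ι → Bool), (∀ w w', w' ∈ (K w).support → w ≤ w') ∧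
      (PMF.uniformOfFintype (ι → Bool)).bind K = PMF.uniformOfFinset W hne := by
  obtain ⟨K, k0, k1, k2, k3⟩ := pv5_mono_kernel W hW hne
  have hsum : ∀ w, ∑ w', ENNReal.ofReal (K w w') = 1 := fun w => by
    rw [← ENNReal.ofReal_sum_of_nonneg fun w' _ => k0 w w', k1, ENNReal.ofReal_one]
  refine ⟨fun w => PMF.ofFintype (fun w' => ENNReal.ofReal (K w w')) (hsum w), fun w w' h => k2 w w' ?_, ?_⟩
  · rw [PMF.mem_support_iff, PMF.ofFintype_apply] at h
    intro h0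
    rw [h0] at h
    simp at h
  · ext w'
    rw [PMF.bind_apply, tsum_fintype, PMF.uniformOfFinset_apply]
    simp only [PMF.uniformOfFintype_apply, PMF.ofFintype_apply]
    rw [← Finset.mul_sum, ← ENNReal.ofReal_sum_of_nonneg fun w _ => k0 w w', k3]
    have hc : (Fintype.card (ι → Bool) : ℝ≥0∞) = 2 ^ Fintype.card ι := by
      rw [Fintype.card_fun, Fintype.card_bool]; push_cast; rfl
    rw [hc]
    by_cases hm : w' ∈ W
    · rw [if_pos hm, if_pos hm]
      have hW0 : (0 : ℝ) < W.card := by exact_mod_cast hne.card_pos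
      rw [ENNReal.ofReal_div_of_pos hW0, ENNReal.ofReal_pow (by norm_num), ENNReal.ofReal_natCast]
      have h2 : ENNReal.ofReal 2 = 2 := by simp
      rw [h2, div_eq_mul_inv, ← mul_assoc, ENNReal.inv_mul_cancel (by simp) (by simp), one_mul]
    · rw [if_neg hm, if_neg hm]
      simp

/-- **Harris** on a finite cube of fair bits -/
theorem pv5_harris {ι : Type*} [Fintype ι] [DecidableEq ι] (A B : Finset (ι → Bool)) (hA : IsUpperSet (A : Set (ι → Bool))) (hB : IsUpperSet (B : Set (ι → Bool))) :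
    A.card * B.card ≤ 2 ^ Fintype.card ι * (A ∩ B).card := by
  have hmono : ∀ S : Finset (ι → Bool), IsUpperSet (S : Set (ι → Bool)) → Monotone fun w => if w ∈ S then (1 : ℕ) else 0 := by
    intro S hS w w' h
    dsimp only
    by_cases hw : w ∈ S
    · have hw' : w' ∈ S := hS h hw
      rw [if_pos hw, if_pos hw']
    · rw [if_neg hw]; exact Nat.zero_le _
  have h := fkg (fun w => if w ∈ A then (1 : ℕ) else 0) (fun w => if w ∈ B then (1 : ℕ) else 0) (fun _ : ι → Bool => (1 : ℕ))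
    (fun _ => Nat.zero_le _) (fun _ => Nat.zero_le _) (fun _ => Nat.zero_le _) (hmono A hA) (hmono B hB) (fun _ _ => le_rfl)
  simp only [one_mul, Finset.sum_boole, Finset.filter_mem_eq_inter, Finset.univ_inter, Finset.sum_const, Finset.card_univ, smul_eq_mul, mul_one,
    Nat.cast_id] at h
  have e : ∑ w : ι → Bool, (if w ∈ A then (1 : ℕ) else 0) * (if w ∈ B then (1 : ℕ) else 0) = (A ∩ B).card := by
    have : ∀ w : ι → Bool, (if w ∈ A then (1 : ℕ) else 0) * (if w ∈ B then (1 : ℕ) else 0) = if w ∈ A ∩ B then 1 else 0 := by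
      intro w
      by_cases h1 : w ∈ A <;> by_cases h2 : w ∈ B <;> simp [h1, h2]
    rw [Finset.sum_congr rfl fun w _ => this w, Finset.sum_boole, Finset.filter_mem_eq_inter, Finset.univ_inter]
    simp
  rw [e, Fintype.card_fun, Fintype.card_bool] at h
  exact h

/-- **X4 (3) of 205**: the output law of the preparation is at most `p⁻¹` times the ordinary law when the forced event has probability `≥ p` -/
theorem pv5_prep_dom {ι : Type*} [Fintype ι] [DecidableEq ι] (W : Finset (ι → Bool)) (hne : W.Nonempty) (p : ℝ≥0∞)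
    (hp : p * 2 ^ Fintype.card ι ≤ W.card) (w : ι → Bool) :
    PMF.uniformOfFinset W hne w ≤ p⁻¹ * PMF.uniformOfFintype (ι → Bool) w := by
  rw [PMF.uniformOfFinset_apply, PMF.uniformOfFintype_apply]
  have hc : (Fintype.card (ι → Bool) : ℝ≥0∞) = 2 ^ Fintype.card ι := by
    rw [Fintype.card_fun, Fintype.card_bool]; push_cast; rfl
  rw [hc]
  split_ifs
  · rw [← ENNReal.mul_inv (Or.inr (by simp)) (Or.inr (by simp))]
    exact ENNReal.inv_le_inv.2 hp
  · exact zero_le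

end cube

/-! ## 5. The dominated forcing kernel -/

/-- **T1 = Lemma 6.1, first clause** (statement and proof of helper208, `notes/R289/s6a_208.lean`).   `hK` is the integrated form of `ν_z K_z = ν_z(· | W)` over `H`; no regular conditional law is needed. -/
theorem pv5_dom_kernel {Ω Zs : Type*} [MeasurableSpace Ω] [MeasurableSpace Zs] (ν lam : Measure Ω) (Z : Ω → Zs) (hZ : Measurable Z)
    (W : Set Ω) (hW : MeasurableSet W) (H : Set Zs) (hH : MeasurableSet H) (p : Zs → ℝ≥0∞) (q C : ℝ≥0∞)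
    (hpq : ∀ z ∈ H, q ≤ p z) (K : Kernel Ω Ω)
    (hK : ∀ s : Set Ω, MeasurableSet s → ∫⁻ ω in Z ⁻¹' H, K ω s ∂ν = ∫⁻ ω in Z ⁻¹' H ∩ W, s.indicator (fun ω => (p (Z ω))⁻¹) ω ∂ν)
    (hlam : lam ≤ C • ν) (hsupp : lam (Z ⁻¹' H)ᶜ = 0) :
    lam.bind K ≤ (C / q) • ν := by
  refine Measure.le_iff.2 fun s hs => ?_
  rw [Measure.bind_apply hs K.aemeasurable]
  have hHm : MeasurableSet (Z ⁻¹' H) := hZ hH
  have h1 : ∫⁻ ω, K ω s ∂lam = ∫⁻ ω in Z ⁻¹' H, K ω s ∂lam := by
    rw [← lintegral_add_compl _ hHm]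
    have : ∫⁻ ω in (Z ⁻¹' H)ᶜ, K ω s ∂lam = 0 := by
      rw [Measure.restrict_eq_zero.2 hsupp]; simp
    rw [this, add_zero]
  have h2 : ∫⁻ ω in Z ⁻¹' H, K ω s ∂lam ≤ C * ∫⁻ ω in Z ⁻¹' H, K ω s ∂ν := by
    have : lam.restrict (Z ⁻¹' H) ≤ C • ν.restrict (Z ⁻¹' H) := by
      rw [← Measure.restrict_smul]; exact Measure.restrict_mono le_rfl hlam
    calc _ ≤ ∫⁻ ω, K ω s ∂(C • ν.restrict (Z ⁻¹' H)) := lintegral_mono' this le_rfl
      _ = _ := by rw [lintegral_smul_measure]; rfl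
  have h3 : ∫⁻ ω in Z ⁻¹' H ∩ W, s.indicator (fun ω => (p (Z ω))⁻¹) ω ∂ν ≤ q⁻¹ * ν s := by
    calc _ ≤ ∫⁻ ω in Z ⁻¹' H ∩ W, s.indicator (fun _ => q⁻¹) ω ∂ν := by
          refine setLIntegral_mono' (hHm.inter hW) fun ω hω => ?_
          by_cases hs' : ω ∈ s
          · simp only [Set.indicator_of_mem hs']
            exact ENNReal.inv_le_inv.2 (hpq _ hω.1)
          · simp [Set.indicator_of_notMem hs']
      _ ≤ ∫⁻ ω, s.indicator (fun _ => q⁻¹) ω ∂ν := setLIntegral_le_lintegral _ _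
      _ = q⁻¹ * ν s := by rw [lintegral_indicator hs, setLIntegral_const]
  rw [h1]
  refine h2.trans ?_
  rw [hK s hs]
  calc C * _ ≤ C * (q⁻¹ * ν s) := by gcongr
    _ = ((C / q) • ν) s := by
      rw [Measure.smul_apply, smul_eq_mul, ENNReal.div_eq_inv_mul]; ring

/-! ## 6. The block argument -/

/-- sup-distance on the lattice of blocks -/
def pv5Dist (x y : ℤ × ℤ) : ℤ := max |x.1 - y.1| |x.2 - y.2|

/-- `*`-adjacency of blocks (king's moves) -/
def pv5King : SimpleGraph (ℤ × ℤ) where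
  Adj x y := x ≠ y ∧ |x.1 - y.1| ≤ 1 ∧ |x.2 - y.2| ≤ 1
  symm := ⟨fun x y h => ⟨h.1.symm, by rw [abs_sub_comm]; exact h.2.1, by rw [abs_sub_comm]; exact h.2.2⟩⟩
  loopless := ⟨fun x h => h.1 rfl⟩

/-- a simple `*`-chain of `k + 1` blocks `c 0, …, c k` -/
def Pv5Chain (k : ℕ) (c : ℕ → ℤ × ℤ) : Prop := (∀ i < k, pv5King.Adj (c i) (c (i + 1))) ∧ Set.InjOn c {i | i ≤ k}

/-- the eight king's moves -/
def pv5Off : Finset (ℤ × ℤ) := {(-1, -1), (-1, 0), (-1, 1), (0, -1), (0, 1), (1, -1), (1, 0), (1, 1)}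

/-- the block of side `ℓ` which contains `z` -/
noncomputable def pv5Blk (ℓ : ℝ) (z : ℂ) : ℤ × ℤ := (⌊z.re / ℓ⌋, ⌊z.im / ℓ⌋)

theorem pv5_eqns_cite : True := by
  have := @pv5Dist.eq_1; have := @pv5King.eq_1; have := @Pv5Chain.eq_1; have := @pv5Off.eq_1; have := @pv5Blk.eq_1
  trivial

theorem pv5_off_card : pv5Off.card = 8 := by decide

theorem pv5_off_mem {x y : ℤ × ℤ} (h : pv5King.Adj x y) : y - x ∈ pv5Off := by
  obtain ⟨h0, h1, h2⟩ : x ≠ y ∧ |x.1 - y.1| ≤ 1 ∧ |x.2 - y.2| ≤ 1 := h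
  rw [abs_sub_comm, abs_le] at h1 h2
  obtain ⟨a, b, hab⟩ : ∃ a b : ℤ, y - x = (a, b) := ⟨_, _, rfl⟩
  have ha : y.1 - x.1 = a := congrArg Prod.fst hab
  have hb : y.2 - x.2 = b := congrArg Prod.snd hab
  have hne : ¬ (a = 0 ∧ b = 0) := by
    rintro ⟨rfl, rfl⟩
    exact h0 (Prod.ext (by linarith) (by linarith))
  rw [ha] at h1
  rw [hb] at h2
  rw [hab]
  obtain ⟨h1a, h1b⟩ := h1
  obtain ⟨h2a, h2b⟩ := h2
  interval_cases a <;> interval_cases b <;> first | (exact absurd ⟨rfl, rfl⟩ hne) | decide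

/-- **(G8 of 205)**: `k` distinct blocks contain `k / D²` blocks which are pairwise at sup-distance `≥ D` (one residue class mod `D`) -/
theorem pv5_subfamily (S : Finset (ℤ × ℤ)) (D : ℕ) (hD : 0 < D) :
    ∃ T ⊆ S, S.card ≤ D ^ 2 * T.card ∧ ∀ x ∈ T, ∀ y ∈ T, x ≠ y → (D : ℤ) ≤ pv5Dist x y := by
  classical
  have hD' : (0 : ℤ) < D := by exact_mod_cast hD
  set R : Finset (ℤ × ℤ) := (Finset.Ico 0 (D : ℤ)) ×ˢ (Finset.Ico 0 (D : ℤ)) with hR
  set f : ℤ × ℤ → ℤ × ℤ := fun x => (x.1 % D, x.2 % D) with hf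
  have hmaps : ∀ x ∈ S, f x ∈ R := fun x _ => Finset.mem_product.2
    ⟨Finset.mem_Ico.2 ⟨Int.emod_nonneg _ hD'.ne', Int.emod_lt_of_pos _ hD'⟩, Finset.mem_Ico.2 ⟨Int.emod_nonneg _ hD'.ne', Int.emod_lt_of_pos _ hD'⟩⟩
  have hRc : R.card = D ^ 2 := by
    rw [hR, Finset.card_product, Int.card_Ico]; simp [sq]
  have hRne : R.Nonempty := by
    rw [← Finset.card_pos, hRc]; positivity
  obtain ⟨y, hy, hmax⟩ := Finset.exists_max_image R (fun b => (S.filter fun a => f a = b).card) hRne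
  refine ⟨S.filter fun a => f a = y, Finset.filter_subset _ _, ?_, ?_⟩
  · rw [Finset.card_eq_sum_card_fiberwise hmaps, ← hRc, ← smul_eq_mul, ← Finset.sum_const]
    exact Finset.sum_le_sum hmax
  · intro a ha b hb hab
    have ea := (Finset.mem_filter.1 ha).2
    have eb := (Finset.mem_filter.1 hb).2
    have e1 : a.1 % D = b.1 % D := by
      have := congrArg Prod.fst (ea.trans eb.symm); simpa [hf] using this
    have e2 : a.2 % D = b.2 % D := by
      have := congrArg Prod.snd (ea.trans eb.symm); simpa [hf] using this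
    have key : ∀ u v : ℤ, u % D = v % D → u ≠ v → (D : ℤ) ≤ |u - v| := by
      intro u v h hne
      have hd : (D : ℤ) ∣ u - v := (Int.ModEq.dvd (show v ≡ u [ZMOD D] from h.symm))
      exact Int.le_of_dvd (abs_pos.2 (sub_ne_zero.2 hne)) ((dvd_abs _ _).2 hd)
    by_cases h1 : a.1 = b.1
    · have h2 : a.2 ≠ b.2 := fun h2 => hab (Prod.ext h1 h2)
      exact (key _ _ e2 h2).trans (le_max_right _ _)
    · exact (key _ _ e1 h1).trans (le_max_left _ _)

/-- the chain with start `s` and moves `o` -/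
def pv5Pos {k : ℕ} (s : ℤ × ℤ) (o : Fin k → ℤ × ℤ) (i : ℕ) : ℤ × ℤ := s + ∑ j ∈ Finset.range i, if h : j < k then o ⟨j, h⟩ else 0

theorem pv5_pos_eqns_cite : True := by
  have := @pv5Pos.eq_1
  trivial

theorem pv5_pos_of_chain {k : ℕ} {c : ℕ → ℤ × ℤ} {i : ℕ} (hi : i ≤ k) : pv5Pos (c 0) (fun j : Fin k => c (j + 1) - c j) i = c i := by
  unfold pv5Pos
  have : ∑ j ∈ Finset.range i, (if h : j < k then (fun j : Fin k => c (j + 1) - c j) ⟨j, h⟩ else 0) = ∑ j ∈ Finset.range i, (c (j + 1) - c j) := by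
    refine Finset.sum_congr rfl fun j hj => ?_
    rw [dif_pos (lt_of_lt_of_le (Finset.mem_range.1 hj) hi)]
  rw [this, Finset.sum_range_sub]
  abel

/-- **the block argument of Prop. 5.4 (Peierls)**.   `Bad x` = the block `x` is bad;   `hind`: blocks pairwise at sup-distance `≥ D` are bad simultaneously with probability `≤ q^#` (independence + `P(bad) ≤ q`).
The probability that some simple `*`-chain of `k + 1` bad blocks starts in `Start` is at most `#Start · 8^k · q^⌊(k+1)/D²⌋`. -/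
theorem pv5_peierls {Ω : Type*} [MeasurableSpace Ω] (μ : Measure Ω) (Bad : ℤ × ℤ → Set Ω) (D : ℕ) (hD : 0 < D) (q : ℝ≥0∞) (hq1 : q ≤ 1)
    (hind : ∀ T : Finset (ℤ × ℤ), (∀ x ∈ T, ∀ y ∈ T, x ≠ y → (D : ℤ) ≤ pv5Dist x y) → μ (⋂ x ∈ T, Bad x) ≤ q ^ T.card)
    (Start : Finset (ℤ × ℤ)) (k : ℕ) :
    μ {ω | ∃ c, Pv5Chain k c ∧ c 0 ∈ Start ∧ ∀ i ≤ k, ω ∈ Bad (c i)} ≤ Start.card * 8 ^ k * q ^ ((k + 1) / D ^ 2) := by
  classical
  set E : ℤ × ℤ → (Fin k → ℤ × ℤ) → Set Ω := fun s o => {ω | Set.InjOn (pv5Pos s o) {i | i ≤ k} ∧ ∀ i ≤ k, ω ∈ Bad (pv5Pos s o i)} with hE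
  have hsub : {ω | ∃ c, Pv5Chain k c ∧ c 0 ∈ Start ∧ ∀ i ≤ k, ω ∈ Bad (c i)} ⊆ ⋃ s ∈ Start, ⋃ o ∈ Fintype.piFinset fun _ : Fin k => pv5Off, E s o := by
    rintro ω ⟨c, ⟨hadj, hinj⟩, hs, hb⟩
    refine Set.mem_iUnion₂.2 ⟨c 0, hs, Set.mem_iUnion₂.2 ⟨fun j : Fin k => c (j + 1) - c j, Fintype.mem_piFinset.2 fun j => pv5_off_mem (hadj j j.2), ?_, ?_⟩⟩
    · intro i hi i' hi' h
      rw [pv5_pos_of_chain hi, pv5_pos_of_chain hi'] at h
      exact hinj hi hi' h
    · intro i hi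
      rw [pv5_pos_of_chain hi]
      exact hb i hi
  have hEb : ∀ s o, μ (E s o) ≤ q ^ ((k + 1) / D ^ 2) := by
    intro s o
    by_cases hinj : Set.InjOn (pv5Pos s o) {i | i ≤ k}
    · set S : Finset (ℤ × ℤ) := (Finset.range (k + 1)).image (pv5Pos s o) with hS
      have hSc : S.card = k + 1 := by
        rw [hS, Finset.card_image_of_injOn, Finset.card_range]
        intro i hi i' hi' h
        exact hinj (Nat.lt_succ_iff.1 (Finset.mem_range.1 hi)) (Nat.lt_succ_iff.1 (Finset.mem_range.1 hi')) h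
      obtain ⟨T, hTS, hTc, hTsep⟩ := pv5_subfamily S D hD
      have h1 : E s o ⊆ ⋂ x ∈ T, Bad x := by
        rintro ω ⟨-, hb⟩
        refine Set.mem_iInter₂.2 fun x hx => ?_
        obtain ⟨i, hi, rfl⟩ := Finset.mem_image.1 (hTS hx)
        exact hb i (Nat.lt_succ_iff.1 (Finset.mem_range.1 hi))
      have h2 : (k + 1) / D ^ 2 ≤ T.card := Nat.div_le_of_le_mul (hSc ▸ hTc)
      exact (measure_mono h1).trans ((hind T hTsep).trans (pow_le_pow_right_of_le_one' hq1 h2))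
    · have : E s o = ∅ := by
        ext ω
        simp only [hE, Set.mem_ofPred_eq, Set.mem_empty_iff_false, iff_false, not_and]
        exact fun h => absurd h hinj
      rw [this]
      simp
  refine (measure_mono hsub).trans ((measure_biUnion_finset_le _ _).trans ?_)
  calc ∑ s ∈ Start, μ (⋃ o ∈ Fintype.piFinset fun _ : Fin k => pv5Off, E s o)
      ≤ ∑ _s ∈ Start, (8 ^ k * q ^ ((k + 1) / D ^ 2) : ℝ≥0∞) := by
        refine Finset.sum_le_sum fun s _ => (measure_biUnion_finset_le _ _).trans ?_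
        refine (Finset.sum_le_sum fun o _ => hEb s o).trans ?_
        rw [Finset.sum_const, Fintype.card_piFinset_const, pv5_off_card, nsmul_eq_mul]
        push_cast
        exact le_rfl
    _ = Start.card * 8 ^ k * q ^ ((k + 1) / D ^ 2) := by
        rw [Finset.sum_const, nsmul_eq_mul, mul_assoc]

/-- the arithmetic of the last display of Prop. 5.4: `q ≤ 16^(-D²)` gives `8^k q^⌊(k+1)/D²⌋ ≤ 16^(D²) 2^(-k)` -/
theorem pv5_peierls_num (D : ℕ) (hD : 0 < D) (q : ℝ≥0∞) (hq : q ≤ ((16 : ℝ≥0∞) ^ D ^ 2)⁻¹) (k : ℕ) :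
    (8 : ℝ≥0∞) ^ k * q ^ ((k + 1) / D ^ 2) ≤ 16 ^ D ^ 2 * (2⁻¹ : ℝ≥0∞) ^ k := by
  set m : ℕ := (k + 1) / D ^ 2 with hm
  set a : ℝ≥0∞ := 16 ^ D ^ 2 with ha
  have hD2 : 0 < D ^ 2 := by positivity
  have h1 : k ≤ D ^ 2 * m + D ^ 2 := by
    have := Nat.div_add_mod (k + 1) (D ^ 2)
    have h2 := Nat.mod_lt (k + 1) hD2
    rw [← hm] at this
    omega
  have h16 : (16 : ℝ≥0∞) ≠ 0 := by norm_num
  have h16' : (16 : ℝ≥0∞) ≠ ⊤ := by norm_num
  have ha0 : a ≠ 0 := pow_ne_zero _ h16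
  have ha' : a ≠ ⊤ := ENNReal.pow_ne_top h16'
  have h2 : q ^ m ≤ (a ^ m)⁻¹ := by
    rw [ENNReal.inv_pow]
    exact pow_le_pow_left' hq m
  have h3 : (16 : ℝ≥0∞) ^ k ≤ a * a ^ m := by
    rw [ha, ← pow_mul, ← pow_add]
    exact pow_le_pow_right₀ (by norm_num) (by omega)
  have h8 : (8 : ℝ≥0∞) = 16 * 2⁻¹ := by
    have : (16 : ℝ≥0∞) = 8 * 2 := by norm_num
    rw [this, mul_assoc, ENNReal.mul_inv_cancel (by norm_num) (by norm_num), mul_one]
  calc (8 : ℝ≥0∞) ^ k * q ^ m ≤ 8 ^ k * (a ^ m)⁻¹ := by gcongr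
    _ = 8 ^ k / a ^ m := (div_eq_mul_inv _ _).symm
    _ ≤ a * (2⁻¹ : ℝ≥0∞) ^ k := by
        rw [ENNReal.div_le_iff_le_mul (Or.inl (pow_ne_zero _ ha0)) (Or.inl (ENNReal.pow_ne_top ha')), h8, mul_pow]
        calc (16 : ℝ≥0∞) ^ k * 2⁻¹ ^ k ≤ a * a ^ m * 2⁻¹ ^ k := by gcongr
          _ = a * 2⁻¹ ^ k * a ^ m := by ring


/-- the hypothesis `hind` of `pv5_peierls` from independence of separated blocks and `P(bad) ≤ q` -/
theorem pv5_hind_of_indep {Ω : Type*} [MeasurableSpace Ω] (μ : Measure Ω) (Bad : ℤ × ℤ → Set Ω) (D : ℕ) (q : ℝ≥0∞) (hq : ∀ x, μ (Bad x) ≤ q)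
    (hi : ∀ T : Finset (ℤ × ℤ), (∀ x ∈ T, ∀ y ∈ T, x ≠ y → (D : ℤ) ≤ pv5Dist x y) → μ (⋂ x ∈ T, Bad x) = ∏ x ∈ T, μ (Bad x))
    (T : Finset (ℤ × ℤ)) (hT : ∀ x ∈ T, ∀ y ∈ T, x ≠ y → (D : ℤ) ≤ pv5Dist x y) : μ (⋂ x ∈ T, Bad x) ≤ q ^ T.card := by
  rw [hi T hT, ← Finset.prod_const]
  exact Finset.prod_le_prod' fun x _ => hq x

/-- **Prop. 5.4, last display**: if `q ≤ 16^(-D²)` the probability of a simple `*`-chain of `k + 1` bad blocks from `Start` is `≤ #Start · 16^(D²) · 2^(-k)` -/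
theorem pv5_peierls_exp {Ω : Type*} [MeasurableSpace Ω] (μ : Measure Ω) (Bad : ℤ × ℤ → Set Ω) (D : ℕ) (hD : 0 < D) (q : ℝ≥0∞) (hq : q ≤ ((16 : ℝ≥0∞) ^ D ^ 2)⁻¹)
    (hind : ∀ T : Finset (ℤ × ℤ), (∀ x ∈ T, ∀ y ∈ T, x ≠ y → (D : ℤ) ≤ pv5Dist x y) → μ (⋂ x ∈ T, Bad x) ≤ q ^ T.card)
    (Start : Finset (ℤ × ℤ)) (k : ℕ) :
    μ {ω | ∃ c, Pv5Chain k c ∧ c 0 ∈ Start ∧ ∀ i ≤ k, ω ∈ Bad (c i)} ≤ Start.card * (16 ^ D ^ 2 * (2⁻¹ : ℝ≥0∞) ^ k) := by
  have hq1 : q ≤ 1 := hq.trans (ENNReal.inv_le_one.2 (one_le_pow₀ (by norm_num)))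
  refine (pv5_peierls μ Bad D hD q hq1 hind Start k).trans ?_
  rw [mul_assoc]
  exact mul_le_mul_right (pv5_peierls_num D hD q hq k) _

/-! ## 7. Chains of blocks visited by a path -/

theorem pv5_dist_triangle (x y z : ℤ × ℤ) : pv5Dist x z ≤ pv5Dist x y + pv5Dist y z := by
  unfold pv5Dist
  have h1 : |x.1 - z.1| ≤ |x.1 - y.1| + |y.1 - z.1| := abs_sub_le _ _ _
  have h2 : |x.2 - z.2| ≤ |x.2 - y.2| + |y.2 - z.2| := abs_sub_le _ _ _
  refine max_le ?_ ?_
  · exact h1.trans (add_le_add (le_max_left _ _) (le_max_left _ _))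
  · exact h2.trans (add_le_add (le_max_right _ _) (le_max_right _ _))

theorem pv5_dist_self (x : ℤ × ℤ) : pv5Dist x x = 0 := by simp [pv5Dist]

theorem pv5_dist_adj {x y : ℤ × ℤ} (h : pv5King.Adj x y) : pv5Dist x y ≤ 1 := max_le h.2.1 h.2.2

/-- a `*`-walk is at least as long as the sup-distance of its ends -/
theorem pv5_dist_le_length {u v : ℤ × ℤ} (w : pv5King.Walk u v) : pv5Dist u v ≤ w.length := by
  induction w with
  | nil => simp [pv5_dist_self]
  | cons h p ih =>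
    rw [SimpleGraph.Walk.length_cons]
    push_cast
    have := pv5_dist_triangle _ _ _ |>.trans (add_le_add (pv5_dist_adj h) ih)
    linarith

/-- **loop erasure**: a sequence of blocks whose consecutive members are equal or `*`-adjacent contains, among the visited blocks, a simple `*`-chain of `k + 1` blocks from its first block, for every `k ≤` the sup-distance of its ends -/
theorem pv5_walk_chain (b : ℕ → ℤ × ℤ) (m : ℕ) (hb : ∀ i < m, b i = b (i + 1) ∨ pv5King.Adj (b i) (b (i + 1))) (k : ℕ) (hk : (k : ℤ) ≤ pv5Dist (b 0) (b m)) :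
    ∃ c, Pv5Chain k c ∧ c 0 = b 0 ∧ ∀ i ≤ k, ∃ j ≤ m, c i = b j := by
  classical
  have hw : ∀ n ≤ m, ∃ w : pv5King.Walk (b 0) (b n), ∀ x ∈ w.support, ∃ j ≤ n, x = b j := by
    intro n
    induction n with
    | zero => exact fun _ => ⟨SimpleGraph.Walk.nil, fun x hx => ⟨0, le_rfl, by simpa using hx⟩⟩
    | succ n ih =>
      intro hn
      obtain ⟨w, hw⟩ := ih (by omega)
      rcases hb n (by omega) with h | h
      · refine ⟨w.copy rfl h, fun x hx => ?_⟩
        rw [SimpleGraph.Walk.support_copy] at hx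
        obtain ⟨j, hj, rfl⟩ := hw x hx
        exact ⟨j, by omega, rfl⟩
      · refine ⟨w.concat h, fun x hx => ?_⟩
        rw [SimpleGraph.Walk.support_concat, List.mem_append, List.mem_singleton] at hx
        rcases hx with hx | rfl
        · obtain ⟨j, hj, rfl⟩ := hw x hx
          exact ⟨j, by omega, rfl⟩
        · exact ⟨n + 1, le_rfl, rfl⟩
  obtain ⟨w, hw⟩ := hw m le_rfl
  have hp : w.bypass.IsPath := w.bypass_isPath
  have hlen : k ≤ w.bypass.length := by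
    have := pv5_dist_le_length w.bypass
    exact_mod_cast hk.trans this
  refine ⟨w.bypass.getVert, ⟨fun i hi => w.bypass.adj_getVert_succ (by omega), ?_⟩, by simp, fun i _ => ?_⟩
  · exact hp.getVert_injOn.mono fun i (hi : i ≤ k) => (hi.trans hlen : i ≤ w.bypass.length)
  · exact hw _ (w.support_bypass_subset_support (w.bypass.getVert_mem_support i))

theorem pv5_floor_close {a b : ℝ} (h : |a - b| ≤ 1) : |⌊a⌋ - ⌊b⌋| ≤ 1 := by
  obtain ⟨h1, h2⟩ := abs_le.1 h
  rw [abs_le]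
  constructor
  · have : ⌊b⌋ ≤ ⌊a + 1⌋ := Int.floor_le_floor (by linarith)
    rw [Int.floor_add_one] at this
    linarith
  · have : ⌊a⌋ ≤ ⌊b + 1⌋ := Int.floor_le_floor (by linarith)
    rw [Int.floor_add_one] at this
    linarith

theorem pv5_floor_far {a b : ℝ} {k : ℕ} (h : (k : ℝ) + 1 ≤ |a - b|) : (k : ℤ) ≤ |⌊a⌋ - ⌊b⌋| := by
  have key : ∀ a b : ℝ, (k : ℝ) + 1 ≤ a - b → (k : ℤ) ≤ ⌊a⌋ - ⌊b⌋ := by
    intro a b h
    have h1 : ⌊b + k⌋ ≤ ⌊a⌋ := Int.floor_le_floor (by linarith)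
    rw [Int.floor_add_natCast] at h1
    linarith
  rcases le_total 0 (a - b) with h0 | h0
  · rw [abs_of_nonneg h0] at h
    exact (key a b h).trans (le_abs_self _)
  · rw [abs_of_nonpos h0] at h
    have := key b a (by linarith)
    rw [abs_sub_comm]
    exact this.trans (le_abs_self _)

/-- **the chain of blocks of a path** (Prop. 5.4): points with steps `≤ ℓ` and displacement `≥ 2 (k+1) ℓ` visit a simple `*`-chain of `k + 1` blocks of side `ℓ`, which starts at the block of the first point -/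
theorem pv5_chain (ℓ : ℝ) (hℓ : 0 < ℓ) (P : ℕ → ℂ) (m : ℕ) (hstep : ∀ i < m, ‖P (i + 1) - P i‖ ≤ ℓ) (k : ℕ) (hk : ((k : ℝ) + 1) * (2 * ℓ) ≤ ‖P m - P 0‖) :
    ∃ c, Pv5Chain k c ∧ c 0 = pv5Blk ℓ (P 0) ∧ ∀ i ≤ k, ∃ j ≤ m, c i = pv5Blk ℓ (P j) := by
  refine pv5_walk_chain (fun i => pv5Blk ℓ (P i)) m (fun i hi => ?_) k ?_
  · by_cases h : pv5Blk ℓ (P i) = pv5Blk ℓ (P (i + 1))
    · exact Or.inl h
    · refine Or.inr ⟨h, pv5_floor_close ?_, pv5_floor_close ?_⟩
      · rw [← sub_div, abs_div, abs_of_pos hℓ, div_le_one hℓ, abs_sub_comm, ← Complex.sub_re]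
        exact (Complex.abs_re_le_norm _).trans (hstep i hi)
      · rw [← sub_div, abs_div, abs_of_pos hℓ, div_le_one hℓ, abs_sub_comm, ← Complex.sub_im]
        exact (Complex.abs_im_le_norm _).trans (hstep i hi)
  · have h1 : ‖P m - P 0‖ ≤ |(P m - P 0).re| + |(P m - P 0).im| := Complex.norm_le_abs_re_add_abs_im _
    have h2 : ((k : ℝ) + 1) * ℓ ≤ |(P m - P 0).re| ∨ ((k : ℝ) + 1) * ℓ ≤ |(P m - P 0).im| := by
      by_contra hcon
      push Not at hcon
      nlinarith [hcon.1, hcon.2]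
    show (k : ℤ) ≤ max _ _
    rcases h2 with h2 | h2
    · refine le_max_of_le_left (pv5_floor_far ?_)
      rw [← sub_div, abs_div, abs_of_pos hℓ, le_div_iff₀ hℓ, abs_sub_comm, ← Complex.sub_re]
      exact h2
    · refine le_max_of_le_right (pv5_floor_far ?_)
      rw [← sub_div, abs_div, abs_of_pos hℓ, le_div_iff₀ hℓ, abs_sub_comm, ← Complex.sub_im]
      exact h2

/-- the grid centre `h (x₁ + i x₂)` -/
noncomputable def pv5Ctr (h : ℝ) (x : ℤ × ℤ) : ℂ := ⟨h * x.1, h * x.2⟩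

theorem pv5_ctr_eqns_cite : True := by
  have := @pv5Ctr.eq_1
  trivial

/-- the nearest grid centre is within distance `h` -/
theorem pv5_ctr_near (h : ℝ) (hh : 0 < h) (z : ℂ) : ‖z - pv5Ctr h (pv5Blk h (z + ⟨h / 2, h / 2⟩))‖ ≤ h := by
  have key : ∀ x : ℝ, |x - h * (⌊(x + h / 2) / h⌋ : ℝ)| ≤ h / 2 := by
    intro x
    have h1 := Int.floor_le ((x + h / 2) / h)
    have h2 := Int.lt_floor_add_one ((x + h / 2) / h)
    rw [le_div_iff₀ hh] at h1
    rw [div_lt_iff₀ hh] at h2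
    rw [abs_le]
    constructor <;> nlinarith
  refine (Complex.norm_le_abs_re_add_abs_im _).trans ?_
  have e1 := key z.re
  have e2 := key z.im
  simp only [pv5Ctr, pv5Blk, Complex.sub_re, Complex.sub_im, Complex.add_re, Complex.add_im]
  linarith

/-- **(G7 of 205)**: points with steps `≤ h` and displacement `≥ 2 (k+1) h` come within distance `h` of at least `k + 1` distinct grid centres of `h ℤ²` -/
theorem pv5_centres (h : ℝ) (hh : 0 < h) (P : ℕ → ℂ) (m : ℕ) (hstep : ∀ i < m, ‖P (i + 1) - P i‖ ≤ h) (k : ℕ) (hk : ((k : ℝ) + 1) * (2 * h) ≤ ‖P m - P 0‖) :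
    ∃ Z : Finset (ℤ × ℤ), Z.card = k + 1 ∧ ∀ x ∈ Z, ∃ j ≤ m, ‖P j - pv5Ctr h x‖ ≤ h := by
  classical
  obtain ⟨c, ⟨-, hinj⟩, -, hc⟩ := pv5_chain h hh (fun i => P i + ⟨h / 2, h / 2⟩) m (fun i hi => by simpa using hstep i hi) k (by simpa using hk)
  refine ⟨(Finset.range (k + 1)).image c, ?_, fun x hx => ?_⟩
  · rw [Finset.card_image_of_injOn, Finset.card_range]
    intro i hi i' hi' e
    exact hinj (Nat.lt_succ_iff.1 (Finset.mem_range.1 hi)) (Nat.lt_succ_iff.1 (Finset.mem_range.1 hi')) e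
  · obtain ⟨i, hi, rfl⟩ := Finset.mem_image.1 hx
    obtain ⟨j, hj, e⟩ := hc i (Nat.lt_succ_iff.1 (Finset.mem_range.1 hi))
    exact ⟨j, hj, by rw [e]; exact pv5_ctr_near h hh (P j)⟩

end Claimed.Agent.R289
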