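import Claimed.Agent.R289.Tr.S5Kit
import Claimed.Agent.R289.Arm.GateP
import Claimed.Agent.R289.Ppp.Ind
import Claimed.Agent.R289.PppPv
import Claimed.Agent.R289.S6b.Main

/-!
# Row 289 (S0537, Cardy for Poisson-Voronoi), THE WALL, chapter C, TR16 : DENSE = the block argument AT THE LEVEL OF THE MARKED POISSON PROCESS      (helper101, prefix `pvtd_`, `pvtd`, `Pvtd`)

Blueprint: `origin/helper281:notes/R289/A6_281.md` (THEOREM A6, proof (i); sec.4 `P(c-bad)`), `origin/helper273:notes/R289/PIN_273.md` (AG, DENSE), paper Prop. 5.4.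
Vocabulary of blocks and chains: `Tr/S5Kit.lean` (helper3): `pv5Dist pv5King Pv5Chain pv5Blk pv5Ctr`, `pv5_peierls`, `pv5_chain`.      PPP: `Ppp.lean`, `Ppp/Ind.lean`, `PppPv.lean`.

CONTENTS      (NO MEASURABILITY HYPOTHESIS ANYWHERE: all events are arbitrary sets, all probabilities outer measures)
* sec.1  `pvtdWin ℓ a x` = the marked points whose site lies in a block of side `ℓ` at sup-distance `≤ a` of the block `x`: measurable, disjoint for blocks at sup-distance `≥ 2a+1`, contains the `aℓ`-neighbourhood of the block.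
* sec.2  **`pvtd_hull`** (generic `E`): an ARBITRARY event read from a measurable window `W` has a measurable hull read from `W` of the same outer probability;   **`pvtd_outer_prod`**: `μ(⋂ A i) ≤ ∏ μ(A i)` for arbitrary events
         read from pairwise disjoint windows;   `pvtd_prod` (equality, null-measurable);   `pvtd_hind` = hypothesis `hind` of `pv5_peierls`, for ANY Poisson law on `PvPt`.
* sec.3  model free: `pvtd_frac` (chains with at least `j` bad blocks, auxiliary event), `pvtd_num` (arithmetic), `pvtd_split` (blocks bad for one of two reasons), `pvtd_chain_dist`.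
* sec.4  `pvtdReach Start k`;   **`pvtd_peierls_all`**, **`pvtd_peierls_frac`**, **`pvtd_peierls_half`** : PEIERLS FOR THE MARKED PPP (hypotheses only on the finitely many blocks of `pvtdReach Start k`).
* sec.5  `pvtdEv ℓ B x` = the copy at the block `x`, side `ℓ`, of an event `B` of unit scale: `pvtd_ev_le` (`≤ pvP (ε/ℓ) B`, any event), `pvtd_ev_law`, `pvtd_ev_reads`  (stationarity + scaling: ONE number `p₀` for all blocks and all `h`).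
* sec.6  `pvtd_chain` : a sub-arc of a rim of diameter `≥ 2(k+a+1)ℓ` visits a simple chain of `k+1` blocks and LEAVES the `a`-enlargement of each of them afterwards (passage).
* sec.7  `PvtdDense PvtdHalf PvtdDI`;   `pvtd_dense_det` : deterministic assembly = field `dense` of `PvbRimGood`;   `pvtd_dense_sub`, `pvtd_dense_prob` : union bound.
* sec.8  `PvtdOrd l p` (generic ordered limit: `PvbOrd = PvtdOrd atTop`, `PvhbOrd = PvtdOrd (𝓝[>] 0)` by `Iff.rfl`);   **`pvtd_dense_ord`**.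
* sec.9  numbers: `pvtdStart`, `pvtdK`, `pvtd_num_lim`.      sec.10  **`pvtd_dense_main`** (packaged).
* sec.11 **G8 of A6 (abstract half)** on the vocabulary of `Arm/GateP` (281): `pvtd_markov` (outer Markov), `pvtd_blk_cg` (nested grids: `pv5Blk (A ℓ) = pvagCg A ∘ pv5Blk ℓ`), `pvtdCells N d x`, `pvtdHeavy` (= not `PvagLight`), `pvtdCB`, `pvtdCBx`;
         `pvtd_not_cb` (what `pvag_select` consumes), `pvtd_heavy_le`, **`pvtd_cb_le`**, `pvtd_cb_reads`, `pvtd_cell_win`, `pvtd_cb_num`, **`pvtd_cbx_reads`**, **`pvtd_cbx_le`** (`P(c-bad) ≤ C(n,n0,d,C0,K) / Mc`).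
-/

set_option autoImplicit false
set_option linter.unusedSectionVars false
set_option linter.style.haveILetI false

namespace Claimed.Agent.R289

open MeasureTheory ProbabilityTheory Set Filter Topology Claims.C0465
open scoped ENNReal NNReal

/-! ## 1. windows of blocks -/

/-- the window of the block `x`: the marked points whose site lies in a block at sup-distance `≤ a` of `x` -/
def pvtdWin (ℓ : ℝ) (a : ℕ) (x : ℤ × ℤ) : Set PvPt := {p | pv5Dist (pv5Blk ℓ p.1) x ≤ a}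

theorem pvtd_eqns_cite : True := by
  have := @pvtdWin.eq_1
  trivial

theorem pvtd_dist_comm (x y : ℤ × ℤ) : pv5Dist x y = pv5Dist y x := by
  unfold pv5Dist
  rw [abs_sub_comm x.1, abs_sub_comm x.2]

theorem pvtd_dist_nonneg (x y : ℤ × ℤ) : 0 ≤ pv5Dist x y := le_max_of_le_left (abs_nonneg _)

theorem pvtd_measurable_blk (ℓ : ℝ) : Measurable (pv5Blk ℓ) := by
  unfold pv5Blk
  exact (Int.measurable_floor.comp (Complex.measurable_re.div_const ℓ)).prodMk (Int.measurable_floor.comp (Complex.measurable_im.div_const ℓ))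

theorem pvtd_win_meas (ℓ : ℝ) (a : ℕ) (x : ℤ × ℤ) : MeasurableSet (pvtdWin ℓ a x) := by
  have h : pvtdWin ℓ a x = (fun p : PvPt => pv5Blk ℓ p.1) ⁻¹' {b | pv5Dist b x ≤ a} := rfl
  rw [h]
  exact ((pvtd_measurable_blk ℓ).comp measurable_fst) (MeasurableSet.of_discrete)

theorem pvtd_win_disj (ℓ : ℝ) (a : ℕ) {x y : ℤ × ℤ} (h : ((2 * a + 1 : ℕ) : ℤ) ≤ pv5Dist x y) : Disjoint (pvtdWin ℓ a x) (pvtdWin ℓ a y) := by
  rw [Set.disjoint_left]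
  intro p hx hy
  have hx' : pv5Dist (pv5Blk ℓ p.1) x ≤ a := hx
  have hy' : pv5Dist (pv5Blk ℓ p.1) y ≤ a := hy
  have := pv5_dist_triangle x (pv5Blk ℓ p.1) y
  rw [pvtd_dist_comm x (pv5Blk ℓ p.1)] at this
  push_cast at h
  linarith

theorem pvtd_win_mono (ℓ : ℝ) {a b : ℕ} (h : a ≤ b) (x : ℤ × ℤ) : pvtdWin ℓ a x ⊆ pvtdWin ℓ b x := fun p (hp : pv5Dist (pv5Blk ℓ p.1) x ≤ a) =>
  show pv5Dist (pv5Blk ℓ p.1) x ≤ b from hp.trans (by exact_mod_cast h)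

theorem pvtd_floor_close {u v : ℝ} {a : ℕ} (h : |u - v| ≤ a) : |⌊u⌋ - ⌊v⌋| ≤ a := by
  obtain ⟨h1, h2⟩ := abs_le.1 h
  rw [abs_le]
  constructor
  · have : ⌊v⌋ ≤ ⌊u + a⌋ := Int.floor_le_floor (by linarith)
    rw [Int.floor_add_natCast] at this
    linarith
  · have : ⌊u⌋ ≤ ⌊v + a⌋ := Int.floor_le_floor (by linarith)
    rw [Int.floor_add_natCast] at this
    linarith

/-- points at distance `≤ aℓ` lie in blocks at sup-distance `≤ a` -/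
theorem pvtd_blk_close {ℓ : ℝ} (hℓ : 0 < ℓ) {a : ℕ} {z w : ℂ} (h : ‖z - w‖ ≤ a * ℓ) : pv5Dist (pv5Blk ℓ z) (pv5Blk ℓ w) ≤ a := by
  refine max_le (pvtd_floor_close ?_) (pvtd_floor_close ?_)
  · rw [← sub_div, abs_div, abs_of_pos hℓ, div_le_iff₀ hℓ, ← Complex.sub_re]
    exact (Complex.abs_re_le_norm _).trans h
  · rw [← sub_div, abs_div, abs_of_pos hℓ, div_le_iff₀ hℓ, ← Complex.sub_im]
    exact (Complex.abs_im_le_norm _).trans h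

/-- the window contains the `aℓ`-neighbourhood of the block -/
theorem pvtd_win_of_close {ℓ : ℝ} (hℓ : 0 < ℓ) {a : ℕ} {x : ℤ × ℤ} {w : ℂ} (hw : pv5Blk ℓ w = x) {p : PvPt} (h : ‖p.1 - w‖ ≤ a * ℓ) : p ∈ pvtdWin ℓ a x := by
  show pv5Dist (pv5Blk ℓ p.1) x ≤ a
  rw [← hw]
  exact pvtd_blk_close hℓ h

/-- the window contains the marked points over a ball whose centre lies in a block close to `x` -/
theorem pvtd_ball_sub_win {ℓ : ℝ} (hℓ : 0 < ℓ) {a b : ℕ} {x : ℤ × ℤ} {w : ℂ} (hw : pv5Dist (pv5Blk ℓ w) x ≤ b) {ρ : ℝ} (hρ : ρ ≤ a * ℓ) :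
    Metric.closedBall w ρ ×ˢ (univ : Set Bool) ⊆ pvtdWin ℓ (a + b) x := by
  rintro p ⟨hp, -⟩
  rw [mem_closedBall_iff_norm] at hp
  show pv5Dist (pv5Blk ℓ p.1) x ≤ ((a + b : ℕ) : ℤ)
  have h1 := pvtd_blk_close hℓ (hp.trans hρ)
  have h2 := pv5_dist_triangle (pv5Blk ℓ p.1) (pv5Blk ℓ w) x
  push_cast
  linarith

/-- the block of the corner `pv5Ctr ℓ x` is `x` -/
theorem pvtd_blk_ctr {ℓ : ℝ} (hℓ : 0 < ℓ) (x : ℤ × ℤ) : pv5Blk ℓ (pv5Ctr ℓ x) = x := by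
  unfold pv5Blk pv5Ctr
  ext
  · simp [mul_div_cancel_left₀ _ hℓ.ne']
  · simp [mul_div_cancel_left₀ _ hℓ.ne']

/-! ## 2. independence of separated blocks -/

/-- **`hind` for a marked PPP**: events read from the windows of blocks pairwise at sup-distance `≥ 2a+1` multiply -/
theorem pvtd_prod {m : Measure PvPt} {μ : Measure (Conf PvPt)} (h : IsPpp m μ) (ℓ : ℝ) (a : ℕ) (Bad : ℤ × ℤ → Set (Conf PvPt))
    (T : Finset (ℤ × ℤ)) (hm : ∀ x ∈ T, NullMeasurableSet (Bad x) μ) (hr : ∀ x ∈ T, Conf.ReadsSet (pvtdWin ℓ a x) (Bad x))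
    (hT : ∀ x ∈ T, ∀ y ∈ T, x ≠ y → ((2 * a + 1 : ℕ) : ℤ) ≤ pv5Dist x y) : μ (⋂ x ∈ T, Bad x) = ∏ x ∈ T, μ (Bad x) :=
  h.measure_iInter_reads T (fun x _ => pvtd_win_meas ℓ a x) (fun x hx y hy hxy => pvtd_win_disj ℓ a (hT x hx y hy hxy)) hm hr

/-- **measurable hull inside the window**: an ARBITRARY event read from `W` is contained in a measurable event read from `W` of the same (outer) probability -/
theorem pvtd_hull {E : Type*} [MeasurableSpace E] {m : Measure E} {μ : Measure (Conf E)} (h : IsPpp m μ) {W : Set E} (hW : MeasurableSet W) {A : Set (Conf E)}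
    (hA : Conf.ReadsSet W A) : ∃ B, MeasurableSet B ∧ A ⊆ B ∧ Conf.ReadsSet W B ∧ μ B = μ A := by
  have := h.prob
  set A' := toMeasurable μ A with hA'
  have hA'm : MeasurableSet A' := measurableSet_toMeasurable μ A
  set Φ : Conf E × Conf E → Conf E := fun x => Conf.union (Conf.restr W x.1) (Conf.restr Wᶜ x.2) with hΦ
  have hΦm : Measurable Φ := IsPpp.pvi_measurable_splice hW
  set g : Conf E → ℝ≥0∞ := fun η => μ (Prod.mk η ⁻¹' (Φ ⁻¹' A')) with hg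
  have hgm : Measurable g := measurable_measure_prodMk_left (hΦm hA'm)
  refine ⟨g ⁻¹' {1}, hgm (measurableSet_singleton 1), ?_, ?_, ?_⟩
  · intro η hη
    have : Prod.mk η ⁻¹' (Φ ⁻¹' A') = univ := by
      refine eq_univ_of_forall fun η' => subset_toMeasurable μ A ?_
      show Conf.union (Conf.restr W η) (Conf.restr Wᶜ η') ∈ A
      rw [← hA, pvi_restr_splice, hA]
      exact hη
    show g η = 1
    rw [hg]
    simp only [this, measure_univ]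
  · intro η
    have : g (Conf.restr W η) = g η := by
      have e : Prod.mk (Conf.restr W η) ⁻¹' (Φ ⁻¹' A') = Prod.mk η ⁻¹' (Φ ⁻¹' A') := by
        ext η'
        show Conf.union (Conf.restr W (Conf.restr W η)) (Conf.restr Wᶜ η') ∈ A' ↔ Conf.union (Conf.restr W η) (Conf.restr Wᶜ η') ∈ A'
        rw [pvi_restr_idem]
      simp only [hg, e]
    show g (Conf.restr W η) = 1 ↔ g η = 1
    rw [this]
  · refine le_antisymm ?_ (measure_mono ?_)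
    · calc μ (g ⁻¹' {1}) = ∫⁻ η in g ⁻¹' {1}, 1 ∂μ := by simp
        _ = ∫⁻ η in g ⁻¹' {1}, g η ∂μ := by
            refine setLIntegral_congr_fun (hgm (measurableSet_singleton 1)) fun η hη => ?_
            exact (hη : g η = 1).symm
        _ ≤ ∫⁻ η, g η ∂μ := setLIntegral_le_lintegral _ _
        _ = (μ.prod μ) (Φ ⁻¹' A') := (Measure.prod_apply (hΦm hA'm)).symm
        _ = μ A' := by rw [← Measure.map_apply hΦm hA'm, h.splice hW]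
        _ = μ A := measure_toMeasurable A
    · intro η hη
      have : Prod.mk η ⁻¹' (Φ ⁻¹' A') = univ := by
        refine eq_univ_of_forall fun η' => subset_toMeasurable μ A ?_
        show Conf.union (Conf.restr W η) (Conf.restr Wᶜ η') ∈ A
        rw [← hA, pvi_restr_splice, hA]
        exact hη
      show g η = 1
      rw [hg]
      simp only [this, measure_univ]

/-- **sub-multiplicativity of the OUTER measure** for arbitrary events read from pairwise disjoint windows -/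
theorem pvtd_outer_prod {E ι : Type*} [MeasurableSpace E] {m : Measure E} {μ : Measure (Conf E)} (h : IsPpp m μ) {O : ι → Set E} (s : Finset ι)
    (hO : ∀ i ∈ s, MeasurableSet (O i)) (hd : (s : Set ι).PairwiseDisjoint O) {A : ι → Set (Conf E)} (hr : ∀ i ∈ s, Conf.ReadsSet (O i) (A i)) :
    μ (⋂ i ∈ s, A i) ≤ ∏ i ∈ s, μ (A i) := by
  have hex : ∀ i ∈ s, ∃ B, MeasurableSet B ∧ A i ⊆ B ∧ Conf.ReadsSet (O i) B ∧ μ B = μ (A i) := fun i hi => pvtd_hull h (hO i hi) (hr i hi)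
  choose! B hBm hAB hBr hBμ using hex
  calc μ (⋂ i ∈ s, A i) ≤ μ (⋂ i ∈ s, B i) := measure_mono (iInter₂_mono fun i hi => hAB i hi)
    _ = ∏ i ∈ s, μ (B i) := h.measure_iInter_reads s hO hd (fun i hi => (hBm i hi).nullMeasurableSet) hBr
    _ = ∏ i ∈ s, μ (A i) := Finset.prod_congr rfl hBμ

/-- **`hind` of `pv5_peierls` for a marked PPP, OUTER measure**: ARBITRARY events read from the windows of blocks pairwise at sup-distance `≥ 2a+1` -/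
theorem pvtd_hind {m : Measure PvPt} {μ : Measure (Conf PvPt)} (h : IsPpp m μ) (ℓ : ℝ) (a : ℕ) (Bad : ℤ × ℤ → Set (Conf PvPt))
    (hr : ∀ x, Conf.ReadsSet (pvtdWin ℓ a x) (Bad x)) (q : ℝ≥0∞) (hq : ∀ x, μ (Bad x) ≤ q)
    (T : Finset (ℤ × ℤ)) (hT : ∀ x ∈ T, ∀ y ∈ T, x ≠ y → ((2 * a + 1 : ℕ) : ℤ) ≤ pv5Dist x y) : μ (⋂ x ∈ T, Bad x) ≤ q ^ T.card := by
  refine (pvtd_outer_prod h T (fun x _ => pvtd_win_meas ℓ a x) (fun x hx y hy hxy => pvtd_win_disj ℓ a (hT x hx y hy hxy)) fun x _ => hr x).trans ?_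
  rw [← Finset.prod_const]
  exact Finset.prod_le_prod' fun x _ => hq x

/-! ## 3. model free: chains with many bad blocks -/

/-- **Peierls with a fraction of bad blocks** (A6 (i), (ii); AG (iv), (v)).   `A` = auxiliary event of cost `α` (take `univ`, `1`);   `hind`: separated blocks are simultaneously bad, on `A`, with probability `≤ α q^#`.
The (outer) probability that, on `A`, some simple `*`-chain of `k+1` blocks from `Start` has at least `j` bad blocks is `≤ #Start 8^k 2^(k+1) α q^⌊j/D²⌋`. -/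
theorem pvtd_frac {Ω : Type*} [MeasurableSpace Ω] (μ : Measure Ω) (A : Set Ω) (Bad : ℤ × ℤ → Set Ω) (D : ℕ) (hD : 0 < D) (α q : ℝ≥0∞) (hq1 : q ≤ 1)
    (hind : ∀ T : Finset (ℤ × ℤ), (∀ x ∈ T, ∀ y ∈ T, x ≠ y → (D : ℤ) ≤ pv5Dist x y) → μ (A ∩ ⋂ x ∈ T, Bad x) ≤ α * q ^ T.card)
    (Start : Finset (ℤ × ℤ)) (k j : ℕ) :
    μ {ω | ω ∈ A ∧ ∃ c, Pv5Chain k c ∧ c 0 ∈ Start ∧ ∃ I ⊆ Finset.range (k + 1), j ≤ I.card ∧ ∀ i ∈ I, ω ∈ Bad (c i)}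
      ≤ Start.card * 8 ^ k * 2 ^ (k + 1) * (α * q ^ (j / D ^ 2)) := by
  classical
  set E : ℤ × ℤ → (Fin k → ℤ × ℤ) → Finset ℕ → Set Ω := fun s o I =>
    {ω | ω ∈ A ∧ Set.InjOn (pv5Pos s o) {i | i ≤ k} ∧ j ≤ I.card ∧ ∀ i ∈ I, ω ∈ Bad (pv5Pos s o i)} with hE
  have hsub : {ω | ω ∈ A ∧ ∃ c, Pv5Chain k c ∧ c 0 ∈ Start ∧ ∃ I ⊆ Finset.range (k + 1), j ≤ I.card ∧ ∀ i ∈ I, ω ∈ Bad (c i)}
      ⊆ ⋃ s ∈ Start, ⋃ o ∈ Fintype.piFinset fun _ : Fin k => pv5Off, ⋃ I ∈ (Finset.range (k + 1)).powerset, E s o I := by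
    rintro ω ⟨hA, c, ⟨hadj, hinj⟩, hs, I, hI, hj, hb⟩
    refine Set.mem_iUnion₂.2 ⟨c 0, hs, Set.mem_iUnion₂.2 ⟨fun j : Fin k => c (j + 1) - c j, Fintype.mem_piFinset.2 fun j => pv5_off_mem (hadj j j.2),
      Set.mem_iUnion₂.2 ⟨I, Finset.mem_powerset.2 hI, hA, ?_, hj, ?_⟩⟩⟩
    · intro i hi i' hi' h
      rw [pv5_pos_of_chain hi, pv5_pos_of_chain hi'] at h
      exact hinj hi hi' h
    · intro i hi
      rw [pv5_pos_of_chain (Nat.lt_succ_iff.1 (Finset.mem_range.1 (hI hi)))]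
      exact hb i hi
  have hEb : ∀ s o, ∀ I ∈ (Finset.range (k + 1)).powerset, μ (E s o I) ≤ α * q ^ (j / D ^ 2) := by
    intro s o I hI
    have hI' := Finset.mem_powerset.1 hI
    by_cases hc : Set.InjOn (pv5Pos s o) {i | i ≤ k} ∧ j ≤ I.card
    · obtain ⟨hinj, hj⟩ := hc
      set S : Finset (ℤ × ℤ) := I.image (pv5Pos s o) with hS
      have hSc : S.card = I.card := by
        rw [hS, Finset.card_image_of_injOn]
        intro i hi i' hi' h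
        exact hinj (Nat.lt_succ_iff.1 (Finset.mem_range.1 (hI' hi))) (Nat.lt_succ_iff.1 (Finset.mem_range.1 (hI' hi'))) h
      obtain ⟨T, hTS, hTc, hTsep⟩ := pv5_subfamily S D hD
      have h1 : E s o I ⊆ A ∩ ⋂ x ∈ T, Bad x := by
        rintro ω ⟨hA, -, -, hb⟩
        refine ⟨hA, Set.mem_iInter₂.2 fun x hx => ?_⟩
        obtain ⟨i, hi, rfl⟩ := Finset.mem_image.1 (hTS hx)
        exact hb i hi
      have h2 : j / D ^ 2 ≤ T.card := Nat.div_le_of_le_mul (hj.trans (hSc ▸ hTc))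
      exact (measure_mono h1).trans ((hind T hTsep).trans (mul_le_mul_right (pow_le_pow_right_of_le_one' hq1 h2) _))
    · have : E s o I = ∅ := by
        ext ω
        simp only [hE, Set.mem_ofPred_eq, Set.mem_empty_iff_false, iff_false]
        rintro ⟨-, h1, h2, -⟩
        exact hc ⟨h1, h2⟩
      rw [this]
      simp
  refine (measure_mono hsub).trans ((measure_biUnion_finset_le _ _).trans ?_)
  calc ∑ s ∈ Start, μ (⋃ o ∈ Fintype.piFinset fun _ : Fin k => pv5Off, ⋃ I ∈ (Finset.range (k + 1)).powerset, E s o I)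
      ≤ ∑ _s ∈ Start, (8 ^ k * (2 ^ (k + 1) * (α * q ^ (j / D ^ 2))) : ℝ≥0∞) := by
        refine Finset.sum_le_sum fun s _ => (measure_biUnion_finset_le _ _).trans ?_
        have h3 : ∀ o ∈ Fintype.piFinset fun _ : Fin k => pv5Off, μ (⋃ I ∈ (Finset.range (k + 1)).powerset, E s o I) ≤ 2 ^ (k + 1) * (α * q ^ (j / D ^ 2)) := by
          intro o _
          refine (measure_biUnion_finset_le _ _).trans ((Finset.sum_le_sum fun I hI => hEb s o I hI).trans ?_)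
          rw [Finset.sum_const, Finset.card_powerset, Finset.card_range, nsmul_eq_mul]
          push_cast
          exact le_rfl
        refine (Finset.sum_le_sum h3).trans ?_
        rw [Finset.sum_const, Fintype.card_piFinset_const, pv5_off_card, nsmul_eq_mul]
        push_cast
        exact le_rfl
    _ = Start.card * 8 ^ k * 2 ^ (k + 1) * (α * q ^ (j / D ^ 2)) := by
        rw [Finset.sum_const, nsmul_eq_mul]
        ring

/-- blocks which are bad for one of two reasons: one of the two reasons holds on half of the chain -/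
theorem pvtd_split (k : ℕ) (c : ℕ → ℤ × ℤ) (S A : ℤ × ℤ → Prop) (h : ∀ i ≤ k, S (c i) ∨ A (c i)) :
    (∃ I ⊆ Finset.range (k + 1), (k + 1) / 2 ≤ I.card ∧ ∀ i ∈ I, S (c i)) ∨ (∃ I ⊆ Finset.range (k + 1), (k + 1) / 2 ≤ I.card ∧ ∀ i ∈ I, A (c i)) := by
  classical
  set I₁ := (Finset.range (k + 1)).filter fun i => S (c i) with h1
  set I₂ := (Finset.range (k + 1)).filter fun i => ¬ S (c i) with h2
  have hc : I₁.card + I₂.card = k + 1 := by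
    rw [h1, h2, Finset.card_filter_add_card_filter_not, Finset.card_range]
  by_cases hh : (k + 1) / 2 ≤ I₁.card
  · exact Or.inl ⟨I₁, Finset.filter_subset _ _, hh, fun i hi => (Finset.mem_filter.1 hi).2⟩
  · refine Or.inr ⟨I₂, Finset.filter_subset _ _, by omega, fun i hi => ?_⟩
    obtain ⟨hi1, hi2⟩ := Finset.mem_filter.1 hi
    exact (h i (Nat.lt_succ_iff.1 (Finset.mem_range.1 hi1))).resolve_left hi2

/-- arithmetic: `q ≤ (2b)^(-N)` gives `b^k q^⌊(k+1)/N⌋ ≤ (2b)^N 2^(-k)` -/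
theorem pvtd_num (b : ℕ) (hb : 0 < b) (N : ℕ) (hN : 0 < N) (q : ℝ≥0∞) (hq : q ≤ (((2 * b : ℕ) : ℝ≥0∞) ^ N)⁻¹) (k : ℕ) :
    (b : ℝ≥0∞) ^ k * q ^ ((k + 1) / N) ≤ ((2 * b : ℕ) : ℝ≥0∞) ^ N * (2⁻¹ : ℝ≥0∞) ^ k := by
  set m : ℕ := (k + 1) / N with hm
  set B : ℝ≥0∞ := ((2 * b : ℕ) : ℝ≥0∞) with hB
  set a : ℝ≥0∞ := B ^ N with ha
  have h1 : k ≤ N * m + N := by
    have := Nat.div_add_mod (k + 1) N
    have h2 := Nat.mod_lt (k + 1) hN
    rw [← hm] at this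
    omega
  have hB0 : B ≠ 0 := by rw [hB]; exact_mod_cast (by omega : 2 * b ≠ 0)
  have hB' : B ≠ ⊤ := ENNReal.natCast_ne_top _
  have hB1 : 1 ≤ B := by rw [hB]; exact_mod_cast (by omega : 1 ≤ 2 * b)
  have ha0 : a ≠ 0 := pow_ne_zero _ hB0
  have ha' : a ≠ ⊤ := ENNReal.pow_ne_top hB'
  have h2 : q ^ m ≤ (a ^ m)⁻¹ := by
    rw [ENNReal.inv_pow]
    exact pow_le_pow_left' hq m
  have h3 : B ^ k ≤ a * a ^ m := by
    rw [ha, ← pow_mul, ← pow_add]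
    exact pow_le_pow_right₀ hB1 (by omega)
  have h8 : (b : ℝ≥0∞) = B * 2⁻¹ := by
    have : B = b * 2 := by rw [hB]; push_cast; ring
    rw [this, mul_assoc, ENNReal.mul_inv_cancel (by norm_num) (by norm_num), mul_one]
  calc (b : ℝ≥0∞) ^ k * q ^ m ≤ b ^ k * (a ^ m)⁻¹ := by gcongr
    _ = b ^ k / a ^ m := (div_eq_mul_inv _ _).symm
    _ ≤ a * (2⁻¹ : ℝ≥0∞) ^ k := by
        rw [ENNReal.div_le_iff_le_mul (Or.inl (pow_ne_zero _ ha0)) (Or.inl (ENNReal.pow_ne_top ha')), h8, mul_pow]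
        calc B ^ k * 2⁻¹ ^ k ≤ a * a ^ m * 2⁻¹ ^ k := by gcongr
          _ = a * 2⁻¹ ^ k * a ^ m := by ring

theorem pvtd_chain_mono {k k' : ℕ} (h : k ≤ k') {c : ℕ → ℤ × ℤ} (hc : Pv5Chain k' c) : Pv5Chain k c :=
  ⟨fun i hi => hc.1 i (hi.trans_le h), hc.2.mono fun i (hi : i ≤ k) => (hi.trans h : i ≤ k')⟩

/-- the `t`-th block of a chain is at sup-distance `≤ t` of the first one -/
theorem pvtd_chain_dist {k : ℕ} {c : ℕ → ℤ × ℤ} (hc : Pv5Chain k c) {t : ℕ} (ht : t ≤ k) : pv5Dist (c 0) (c t) ≤ t := by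
  induction t with
  | zero => simp [pv5_dist_self]
  | succ t ih =>
    have h1 := ih (by omega)
    have h2 := pv5_dist_adj (hc.1 t (by omega))
    have h3 := pv5_dist_triangle (c 0) (c t) (c (t + 1))
    push_cast
    linarith

/-! ## 4. Peierls for the marked Poisson process -/

/-- the blocks within sup-distance `k` of `Start`: the only blocks which a chain of `k+1` blocks from `Start` can visit -/
def pvtdReach (Start : Finset (ℤ × ℤ)) (k : ℕ) : Set (ℤ × ℤ) := {x | ∃ s ∈ Start, pv5Dist s x ≤ k}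

theorem pvtd_reach_finite (Start : Finset (ℤ × ℤ)) (k : ℕ) : (pvtdReach Start k).Finite := by
  have : pvtdReach Start k ⊆ ⋃ s ∈ Start, ((Finset.Icc (s.1 - k) (s.1 + k) ×ˢ Finset.Icc (s.2 - k) (s.2 + k) : Finset (ℤ × ℤ)) : Set (ℤ × ℤ)) := by
    rintro x ⟨s, hs, hd⟩
    refine Set.mem_iUnion₂.2 ⟨s, hs, ?_⟩
    have h1 := abs_le.1 ((le_max_left _ _).trans hd)
    have h2 := abs_le.1 ((le_max_right _ _).trans hd)
    simp only [Finset.coe_product, Finset.coe_Icc, Set.mem_prod, Set.mem_Icc]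
    exact ⟨⟨by linarith [h1.2], by linarith [h1.1]⟩, by linarith [h2.2], by linarith [h2.1]⟩
  exact (Start.finite_toSet.biUnion fun s _ => Finset.finite_toSet _).subset this

theorem pvtd_reach_mono {Start : Finset (ℤ × ℤ)} {k k' : ℕ} (h : k ≤ k') : pvtdReach Start k ⊆ pvtdReach Start k' :=
  fun _ ⟨s, hs, hd⟩ => ⟨s, hs, hd.trans (by exact_mod_cast h)⟩

section ppp

variable {m : Measure PvPt} {μ : Measure (Conf PvPt)}

open Classical in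
/-- the family cut off outside the region -/
noncomputable def pvtdCut (Reg : Set (ℤ × ℤ)) (Bad : ℤ × ℤ → Set (Conf PvPt)) (x : ℤ × ℤ) : Set (Conf PvPt) := if x ∈ Reg then Bad x else ∅

theorem pvtd_cut_reads {Reg : Set (ℤ × ℤ)} {Bad : ℤ × ℤ → Set (Conf PvPt)} {W : ℤ × ℤ → Set PvPt} (hr : ∀ x ∈ Reg, Conf.ReadsSet (W x) (Bad x)) (x : ℤ × ℤ) :
    Conf.ReadsSet (W x) (pvtdCut Reg Bad x) := by
  unfold pvtdCut
  by_cases hx : x ∈ Reg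
  · rw [if_pos hx]; exact hr x hx
  · rw [if_neg hx]; exact fun _ => Iff.rfl

theorem pvtd_cut_le {Reg : Set (ℤ × ℤ)} {Bad : ℤ × ℤ → Set (Conf PvPt)} {q : ℝ≥0∞} (hq : ∀ x ∈ Reg, μ (Bad x) ≤ q) (x : ℤ × ℤ) : μ (pvtdCut Reg Bad x) ≤ q := by
  unfold pvtdCut
  by_cases hx : x ∈ Reg
  · rw [if_pos hx]; exact hq x hx
  · rw [if_neg hx]; simp

theorem pvtd_cut_mem {Reg : Set (ℤ × ℤ)} {Bad : ℤ × ℤ → Set (Conf PvPt)} {x : ℤ × ℤ} (hx : x ∈ Reg) {η : Conf PvPt} (h : η ∈ Bad x) : η ∈ pvtdCut Reg Bad x := by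
  unfold pvtdCut
  rw [if_pos hx]; exact h

/-- **chains of bad blocks** (A6 sec.4, `P(c-bad)`; paper Prop. 5.4).   ARBITRARY events (outer measure); hypotheses only on the blocks which the chains can visit. -/
theorem pvtd_peierls_all (h : IsPpp m μ) (ℓ : ℝ) (a : ℕ) (Bad : ℤ × ℤ → Set (Conf PvPt)) (Start : Finset (ℤ × ℤ)) (k : ℕ)
    (hr : ∀ x ∈ pvtdReach Start k, Conf.ReadsSet (pvtdWin ℓ a x) (Bad x)) (q : ℝ≥0∞) (hq1 : q ≤ 1) (hq : ∀ x ∈ pvtdReach Start k, μ (Bad x) ≤ q) :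
    μ {η | ∃ c, Pv5Chain k c ∧ c 0 ∈ Start ∧ ∀ i ≤ k, η ∈ Bad (c i)} ≤ Start.card * 8 ^ k * q ^ ((k + 1) / (2 * a + 1) ^ 2) := by
  refine le_trans (measure_mono ?_) (pv5_peierls μ (pvtdCut (pvtdReach Start k) Bad) (2 * a + 1) (by omega) q hq1
    (pvtd_hind h ℓ a _ (pvtd_cut_reads hr) q (pvtd_cut_le hq)) Start k)
  rintro η ⟨c, hc, h0, hb⟩
  exact ⟨c, hc, h0, fun i hi => pvtd_cut_mem (show c i ∈ pvtdReach Start k from ⟨c 0, h0, (pvtd_chain_dist hc hi).trans (by exact_mod_cast hi)⟩) (hb i hi)⟩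

/-- **chains with at least `j` bad blocks** (A6 (i)) -/
theorem pvtd_peierls_frac (h : IsPpp m μ) (ℓ : ℝ) (a : ℕ) (Bad : ℤ × ℤ → Set (Conf PvPt)) (Start : Finset (ℤ × ℤ)) (k j : ℕ)
    (hr : ∀ x ∈ pvtdReach Start k, Conf.ReadsSet (pvtdWin ℓ a x) (Bad x)) (q : ℝ≥0∞) (hq1 : q ≤ 1) (hq : ∀ x ∈ pvtdReach Start k, μ (Bad x) ≤ q) :
    μ {η | ∃ c, Pv5Chain k c ∧ c 0 ∈ Start ∧ ∃ I ⊆ Finset.range (k + 1), j ≤ I.card ∧ ∀ i ∈ I, η ∈ Bad (c i)}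
      ≤ Start.card * 8 ^ k * 2 ^ (k + 1) * q ^ (j / (2 * a + 1) ^ 2) := by
  have := pvtd_frac μ univ (pvtdCut (pvtdReach Start k) Bad) (2 * a + 1) (by omega) 1 q hq1 (fun T hT => by
    rw [univ_inter, one_mul]; exact pvtd_hind h ℓ a _ (pvtd_cut_reads hr) q (pvtd_cut_le hq) T hT) Start k j
  simp only [mem_univ, true_and, one_mul] at this
  refine le_trans (measure_mono ?_) this
  rintro η ⟨c, hc, h0, I, hI, hj, hb⟩
  refine ⟨c, hc, h0, I, hI, hj, fun i hi => ?_⟩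
  have hik : i ≤ k := Nat.lt_succ_iff.1 (Finset.mem_range.1 (hI hi))
  exact pvtd_cut_mem (show c i ∈ pvtdReach Start k from ⟨c 0, h0, (pvtd_chain_dist hc hik).trans (by exact_mod_cast hik)⟩) (hb i hi)

/-- the threshold for `P(bad)` in `pvtd_peierls_half`: `32^(-2(2a+1)²)` -/
noncomputable def pvtdQ (a : ℕ) : ℝ≥0∞ := ((32 : ℝ≥0∞) ^ (2 * (2 * a + 1) ^ 2))⁻¹

/-- the constant of `pvtd_peierls_half` -/
noncomputable def pvtdC (a : ℕ) : ℝ≥0∞ := 2 * (32 : ℝ≥0∞) ^ (2 * (2 * a + 1) ^ 2)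

theorem pvtd_eqns_cite4 : True := by
  have := @pvtdQ.eq_1; have := @pvtdC.eq_1; have := @pvtdReach.eq_1; have := @pvtdCut.eq_1
  trivial

theorem pvtd_Q_le_one (a : ℕ) : pvtdQ a ≤ 1 := ENNReal.inv_le_one.2 (one_le_pow₀ (by norm_num))

theorem pvtd_Q_pos (a : ℕ) : 0 < pvtdQ a := ENNReal.inv_pos.2 (ENNReal.pow_ne_top (by norm_num))

theorem pvtd_C_ne_top (a : ℕ) : pvtdC a ≠ ⊤ := ENNReal.mul_ne_top (by norm_num) (ENNReal.pow_ne_top (by norm_num))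

/-- the arithmetic of (i): `8^k 2^(k+1) q^⌊⌊(k+1)/2⌋/D²⌋ ≤ C 2^(-k)` -/
theorem pvtd_half_num (a : ℕ) (q : ℝ≥0∞) (hq : q ≤ pvtdQ a) (k : ℕ) :
    (8 : ℝ≥0∞) ^ k * 2 ^ (k + 1) * q ^ ((k + 1) / 2 / (2 * a + 1) ^ 2) ≤ pvtdC a * (2⁻¹ : ℝ≥0∞) ^ k := by
  have h1 := pvtd_num 16 (by norm_num) (2 * (2 * a + 1) ^ 2) (by positivity) q (by simpa [pvtdQ] using hq) k
  rw [Nat.div_div_eq_div_mul]
  have e : (8 : ℝ≥0∞) ^ k * 2 ^ (k + 1) = 2 * ((16 : ℕ) : ℝ≥0∞) ^ k := by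
    have : ((16 : ℕ) : ℝ≥0∞) = 8 * 2 := by norm_num
    rw [this, mul_pow, pow_succ]; ring
  rw [e, mul_assoc, pvtdC, mul_assoc]
  refine mul_le_mul_right (h1.trans (le_of_eq ?_)) _
  norm_num

/-- **A6 (i)**: if `P(bad) ≤ 32^(-2(2a+1)²)`, the probability that some simple `*`-chain of `k+1` blocks from `Start` has at least `⌊(k+1)/2⌋` bad blocks is `≤ #Start · C(a) · 2^(-k)` -/
theorem pvtd_peierls_half (h : IsPpp m μ) (ℓ : ℝ) (a : ℕ) (Bad : ℤ × ℤ → Set (Conf PvPt)) (Start : Finset (ℤ × ℤ)) (k : ℕ)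
    (hr : ∀ x ∈ pvtdReach Start k, Conf.ReadsSet (pvtdWin ℓ a x) (Bad x)) (hq : ∀ x ∈ pvtdReach Start k, μ (Bad x) ≤ pvtdQ a) :
    μ {η | ∃ c, Pv5Chain k c ∧ c 0 ∈ Start ∧ ∃ I ⊆ Finset.range (k + 1), (k + 1) / 2 ≤ I.card ∧ ∀ i ∈ I, η ∈ Bad (c i)}
      ≤ Start.card * (pvtdC a * (2⁻¹ : ℝ≥0∞) ^ k) := by
  refine (pvtd_peierls_frac h ℓ a Bad Start k ((k + 1) / 2) hr (pvtdQ a) (pvtd_Q_le_one a) hq).trans ?_
  rw [mul_assoc, mul_assoc, ← mul_assoc (8 ^ k)]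
  exact mul_le_mul_right (pvtd_half_num a _ le_rfl k) _

end ppp

/-! ## 5. copies of an event of unit scale: stationarity and scaling -/

/-- the similarity which maps the block `x` of side `ℓ` onto the unit block `0` -/
noncomputable def pvtdSim (ℓ : ℝ) (x : ℤ × ℤ) (z : ℂ) : ℂ := ℓ⁻¹ • (z + -pv5Ctr ℓ x)

/-- the copy at the block `x` of side `ℓ` of the event `B` (of unit scale, at the block `0`) -/
def pvtdEv (ℓ : ℝ) (B : Set (Conf PvPt)) (x : ℤ × ℤ) : Set (Conf PvPt) := cfMap (pvtdSim ℓ x) ⁻¹' B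

theorem pvtd_eqns_cite5 : True := by
  have := @pvtdSim.eq_1; have := @pvtdEv.eq_1
  trivial

theorem pvtd_cfMap_comp (g f : ℂ → ℂ) (η : Conf PvPt) : cfMap (g ∘ f) η = cfMap g (cfMap f η) := by
  unfold cfMap Conf.image
  simp only [Conf.mk.injEq]
  rw [Set.image_image]
  rfl

theorem pvtd_measurable_sim (ℓ : ℝ) (x : ℤ × ℤ) : Measurable (pvtdSim ℓ x) := by
  have h1 : Measurable fun z : ℂ => z + -pv5Ctr ℓ x := measurable_id.add_const _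
  exact h1.const_smul ℓ⁻¹

/-- **stationarity + scaling**: the image of `pvP ε` under the similarity is `pvP (ε/ℓ)` -/
theorem pvtd_map_sim {ℓ : ℝ} (hℓ : ℓ ≠ 0) (x : ℤ × ℤ) (ε : ℝ) : (pvP ε).map (cfMap (pvtdSim ℓ x)) = pvP (ℓ⁻¹ * ε) := by
  have e : cfMap (pvtdSim ℓ x) = cfMap (fun z => ℓ⁻¹ • z) ∘ cfMap (fun z => z + -pv5Ctr ℓ x) := by
    funext η
    exact pvtd_cfMap_comp (fun z => ℓ⁻¹ • z) (fun z => z + -pv5Ctr ℓ x) η
  have h1 : Measurable fun z : ℂ => z + -pv5Ctr ℓ x := measurable_id.add_const _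
  have h2 : Measurable fun z : ℂ => ℓ⁻¹ • z := measurable_id.const_smul ℓ⁻¹
  rw [e, ← Measure.map_map (measurable_cfMap h2) (measurable_cfMap h1), pvP_translate, pvP_scale (inv_ne_zero hℓ)]

theorem pvtd_ev_law {ℓ : ℝ} (hℓ : ℓ ≠ 0) (x : ℤ × ℤ) (ε : ℝ) {B : Set (Conf PvPt)} (hB : NullMeasurableSet B (pvP (ℓ⁻¹ * ε))) :
    pvP ε (pvtdEv ℓ B x) = pvP (ℓ⁻¹ * ε) B := by
  rw [← pvtd_map_sim hℓ x ε] at hB ⊢
  exact (Measure.map_apply₀ (measurable_cfMap (pvtd_measurable_sim ℓ x)).aemeasurable hB).symm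

theorem pvtd_ev_meas {ℓ : ℝ} (hℓ : ℓ ≠ 0) (x : ℤ × ℤ) (ε : ℝ) {B : Set (Conf PvPt)} (hB : NullMeasurableSet B (pvP (ℓ⁻¹ * ε))) :
    NullMeasurableSet (pvtdEv ℓ B x) (pvP ε) :=
  hB.preimage (MeasurePreserving.quasiMeasurePreserving ⟨measurable_cfMap (pvtd_measurable_sim ℓ x), pvtd_map_sim hℓ x ε⟩)

theorem pvtd_blk_sim {ℓ : ℝ} (hℓ : 0 < ℓ) (x : ℤ × ℤ) (z : ℂ) : pv5Blk 1 (pvtdSim ℓ x z) = pv5Blk ℓ z - x := by
  have key : ∀ (u : ℝ) (n : ℤ), ⌊ℓ⁻¹ * (u + -(ℓ * n)) / 1⌋ = ⌊u / ℓ⌋ - n := by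
    intro u n
    have : ℓ⁻¹ * (u + -(ℓ * n)) / 1 = u / ℓ - n := by field_simp; ring
    rw [this, Int.floor_sub_intCast]
  have e1 : (pvtdSim ℓ x z).re = ℓ⁻¹ * (z.re + -(ℓ * x.1)) := by
    simp [pvtdSim, pv5Ctr, Complex.real_smul]; ring
  have e2 : (pvtdSim ℓ x z).im = ℓ⁻¹ * (z.im + -(ℓ * x.2)) := by
    simp [pvtdSim, pv5Ctr, Complex.real_smul]; ring
  unfold pv5Blk
  rw [e1, e2, key, key]
  rfl

theorem pvtd_win_sim {ℓ : ℝ} (hℓ : 0 < ℓ) (a : ℕ) (x : ℤ × ℤ) : pvtdWin ℓ a x = Prod.map (pvtdSim ℓ x) id ⁻¹' pvtdWin 1 a 0 := by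
  ext p
  show pv5Dist (pv5Blk ℓ p.1) x ≤ a ↔ pv5Dist (pv5Blk 1 (pvtdSim ℓ x p.1)) 0 ≤ a
  rw [pvtd_blk_sim hℓ]
  simp [pv5Dist]

theorem pvtd_cfMap_restr (g : ℂ → ℂ) (W : Set PvPt) (η : Conf PvPt) : cfMap g (Conf.restr (Prod.map g id ⁻¹' W) η) = Conf.restr W (cfMap g η) := by
  unfold cfMap Conf.image Conf.restr
  simp only [Conf.mk.injEq]
  exact Set.image_inter_preimage _ _ _

/-- the copy reads the window of its block -/
theorem pvtd_ev_reads {ℓ : ℝ} (hℓ : 0 < ℓ) (a : ℕ) (x : ℤ × ℤ) {B : Set (Conf PvPt)} (hB : Conf.ReadsSet (pvtdWin 1 a 0) B) :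
    Conf.ReadsSet (pvtdWin ℓ a x) (pvtdEv ℓ B x) := by
  intro η
  show cfMap (pvtdSim ℓ x) (Conf.restr (pvtdWin ℓ a x) η) ∈ B ↔ cfMap (pvtdSim ℓ x) η ∈ B
  rw [pvtd_win_sim hℓ, pvtd_cfMap_restr]
  exact hB _

/-- outer form of `pvtd_ev_law`: ANY event -/
theorem pvtd_ev_le {ℓ : ℝ} (hℓ : ℓ ≠ 0) (x : ℤ × ℤ) (ε : ℝ) (B : Set (Conf PvPt)) : pvP ε (pvtdEv ℓ B x) ≤ pvP (ℓ⁻¹ * ε) B := by
  rw [← pvtd_map_sim hℓ x ε]
  exact Measure.le_map_apply (measurable_cfMap (pvtd_measurable_sim ℓ x)).aemeasurable B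

/-- **A6 (i) for the copies of ONE event of unit scale** (ANY event read from the window) -/
theorem pvtd_peierls_ev {ℓ : ℝ} (hℓ : 0 < ℓ) (a : ℕ) (ε : ℝ) {B : Set (Conf PvPt)}
    (hr : Conf.ReadsSet (pvtdWin 1 a 0) B) (hq : pvP (ℓ⁻¹ * ε) B ≤ pvtdQ a) (Start : Finset (ℤ × ℤ)) (k : ℕ) :
    pvP ε {η | ∃ c, Pv5Chain k c ∧ c 0 ∈ Start ∧ ∃ I ⊆ Finset.range (k + 1), (k + 1) / 2 ≤ I.card ∧ ∀ i ∈ I, η ∈ pvtdEv ℓ B (c i)}
      ≤ Start.card * (pvtdC a * (2⁻¹ : ℝ≥0∞) ^ k) :=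
  pvtd_peierls_half (pv_isPpp ε) ℓ a (pvtdEv ℓ B) Start k (fun x _ => pvtd_ev_reads hℓ a x hr) (fun x _ => (pvtd_ev_le hℓ.ne' x ε B).trans hq)

/-! ## 6. the chain of blocks of a sub-arc, with passages -/

/-- far points lie in far blocks -/
theorem pvtd_blk_far {ℓ : ℝ} (hℓ : 0 < ℓ) {z w : ℂ} {K : ℕ} (h : ((K : ℝ) + 1) * (2 * ℓ) ≤ ‖z - w‖) : (K : ℤ) ≤ pv5Dist (pv5Blk ℓ w) (pv5Blk ℓ z) := by
  have h1 : ‖z - w‖ ≤ |(z - w).re| + |(z - w).im| := Complex.norm_le_abs_re_add_abs_im _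
  have h2 : ((K : ℝ) + 1) * ℓ ≤ |(z - w).re| ∨ ((K : ℝ) + 1) * ℓ ≤ |(z - w).im| := by
    by_contra hcon
    push Not at hcon
    nlinarith [hcon.1, hcon.2]
  show (K : ℤ) ≤ max _ _
  rcases h2 with h2 | h2
  · refine le_max_of_le_left (pv5_floor_far ?_)
    rw [← sub_div, abs_div, abs_of_pos hℓ, le_div_iff₀ hℓ, abs_sub_comm, ← Complex.sub_re]
    exact h2
  · refine le_max_of_le_right (pv5_floor_far ?_)
    rw [← sub_div, abs_div, abs_of_pos hℓ, le_div_iff₀ hℓ, abs_sub_comm, ← Complex.sub_im]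
    exact h2

/-- **the chain of a sub-arc** (paper l.555-575):   the points `v i, …, v i'` have steps `≤ ℓ` and `|v i' - v i| ≥ 2(k+a+1)ℓ`.   Then they visit a simple `*`-chain of `k+1` blocks, from the block of `v i`,
and the end point `v i'` lies in a block at sup-distance `≥ a` of each block of the chain (so the arc, after its visit, LEAVES the enlargement of the block: a passage). -/
theorem pvtd_chain {ℓ : ℝ} (hℓ : 0 < ℓ) (v : ℕ → ℂ) {i i' : ℕ} (hii : i ≤ i') (hstep : ∀ t, i ≤ t → t < i' → ‖v (t + 1) - v t‖ ≤ ℓ) (k a : ℕ)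
    (hk : (((k + a : ℕ) : ℝ) + 1) * (2 * ℓ) ≤ ‖v i' - v i‖) :
    ∃ c, Pv5Chain k c ∧ c 0 = pv5Blk ℓ (v i) ∧ ∀ t ≤ k, ∃ j, i ≤ j ∧ j ≤ i' ∧ c t = pv5Blk ℓ (v j) ∧ (a : ℤ) ≤ pv5Dist (c t) (pv5Blk ℓ (v i')) := by
  have e : i + (i' - i) = i' := by omega
  obtain ⟨c, hc, h0, hv⟩ := pv5_chain ℓ hℓ (fun s => v (i + s)) (i' - i) (fun s hs => hstep (i + s) (by omega) (by omega)) (k + a)
    (by simpa only [e, Nat.add_zero] using hk)
  refine ⟨c, pvtd_chain_mono (by omega) hc, h0, fun t ht => ?_⟩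
  obtain ⟨j, hj, hcj⟩ := hv t (by omega)
  refine ⟨i + j, by omega, by omega, hcj, ?_⟩
  have h1 := pvtd_blk_far hℓ hk
  have h2 := pvtd_chain_dist hc (t := t) (by omega)
  have h3 := pv5_dist_triangle (c 0) (c t) (pv5Blk ℓ (v i'))
  have h0' : c 0 = pv5Blk ℓ (v i) := h0
  rw [h0'] at h2 h3
  have ht' : (t : ℤ) ≤ k := by exact_mod_cast ht
  push_cast at h1
  linarith

/-! ## 7. DENSE -/

/-- the conclusion: field `dense` of `PvbRimGood` (S6b/Det), = (P3) of `LM_7.md` -/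
def PvtdDense {τ : Type} (x : ℂ) (R r : ℝ) (P : PvbRim) (pins : Set (PvbPin τ)) : Prop :=
  ∀ i i', i ≤ i' → i' ≤ P.len → (∀ k, i ≤ k → k ≤ i' → ‖P.v k - x‖ ≤ 2 * R) → r ≤ ‖P.v i' - P.v i‖ → ∃ s ∈ pins, i ≤ s.idx ∧ s.idx ≤ i'

/-- some simple `*`-chain of `k+1` blocks from `Start` has at least `⌊(k+1)/2⌋` blocks with the property `B` -/
def PvtdHalf (Start : Finset (ℤ × ℤ)) (k : ℕ) (B : ℤ × ℤ → Prop) : Prop :=
  ∃ c, Pv5Chain k c ∧ c 0 ∈ Start ∧ ∃ I ⊆ Finset.range (k + 1), (k + 1) / 2 ≤ I.card ∧ ∀ i ∈ I, B (c i)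

/-- **(DI) in the form which DENSE consumes**: a PASSAGE of the rim (indices `j ≤ j'`, inside `B(x,2R)`, from the block `b` of `v j` to a block at sup-distance `≥ a` of `b`) carries a pin as soon as `b` is
neither statically bad (`SB`) nor adaptively bad (`AB`) -/
def PvtdDI {τ : Type} (ℓ : ℝ) (a : ℕ) (x : ℂ) (R : ℝ) (P : PvbRim) (pins : Set (PvbPin τ)) (SB AB : ℤ × ℤ → Prop) : Prop :=
  ∀ j j', j ≤ j' → j' ≤ P.len → (∀ t, j ≤ t → t ≤ j' → ‖P.v t - x‖ ≤ 2 * R) → (a : ℤ) ≤ pv5Dist (pv5Blk ℓ (P.v j)) (pv5Blk ℓ (P.v j')) →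
    ¬ SB (pv5Blk ℓ (P.v j)) → ¬ AB (pv5Blk ℓ (P.v j)) → ∃ s ∈ pins, j ≤ s.idx ∧ s.idx ≤ j'

theorem pvtd_eqns_cite7 : True := by
  have := @PvtdDense.eq_1; have := @PvtdHalf.eq_1; have := @PvtdDI.eq_1
  trivial

/-- **DENSE, deterministic assembly** -/
theorem pvtd_dense_det {τ : Type} {ℓ r R : ℝ} {x : ℂ} (hℓ : 0 < ℓ) (k a : ℕ) (P : PvbRim) (pins : Set (PvbPin τ)) (SB AB : ℤ × ℤ → Prop) (Start : Finset (ℤ × ℤ))
    (hmesh : ∀ t < P.len, ‖P.v t - x‖ ≤ 2 * R → ‖P.v (t + 1) - P.v t‖ ≤ ℓ) (hr : (((k + a : ℕ) : ℝ) + 1) * (2 * ℓ) ≤ r)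
    (hStart : ∀ w : ℂ, ‖w - x‖ ≤ 2 * R → pv5Blk ℓ w ∈ Start) (hDI : PvtdDI ℓ a x R P pins SB AB)
    (hS : ¬ PvtdHalf Start k SB) (hA : ¬ PvtdHalf Start k AB) : PvtdDense x R r P pins := by
  intro i i' hii hi' hin hfar
  obtain ⟨c, hc, h0, hv⟩ := pvtd_chain hℓ P.v hii (fun t h1 h2 => hmesh t (by omega) (hin t h1 h2.le)) k a (hr.trans hfar)
  have hs : c 0 ∈ Start := by rw [h0]; exact hStart _ (hin i le_rfl hii)
  by_cases hall : ∀ t ≤ k, SB (c t) ∨ AB (c t)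
  · rcases pvtd_split k c SB AB hall with h | h
    · exact absurd ⟨c, hc, hs, h⟩ hS
    · exact absurd ⟨c, hc, hs, h⟩ hA
  · push Not at hall
    obtain ⟨t, ht, h1, h2⟩ := hall
    obtain ⟨j, hj1, hj2, hcj, hd⟩ := hv t ht
    rw [hcj] at h1 h2 hd
    obtain ⟨s, hs, hs1, hs2⟩ := hDI j i' hj2 hi' (fun u hu1 hu2 => hin u (hj1.trans hu1) hu2) hd h1 h2
    exact ⟨s, hs, hj1.trans hs1, hs2⟩

section prob

variable {Ω : Type} [MeasurableSpace Ω] {τ : Type}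

/-- **DENSE, the inclusion of events**: `Ex` = exceptional event off which the mesh is `≤ ℓ` and (DI) holds -/
theorem pvtd_dense_sub (cf : Ω → Conf PvPt) (rims : Ω → Set PvbRim) (pins : Ω → PvbRim → Set (PvbPin τ)) {ℓ r R : ℝ} {x : ℂ} (hℓ : 0 < ℓ) (k a : ℕ)
    (SB : ℤ × ℤ → Set (Conf PvPt)) (AB : Ω → PvbRim → ℤ × ℤ → Prop) (Start : Finset (ℤ × ℤ)) (Ex : Set Ω)
    (hmesh : ∀ o ∉ Ex, ∀ P ∈ rims o, ∀ t < P.len, ‖P.v t - x‖ ≤ 2 * R → ‖P.v (t + 1) - P.v t‖ ≤ ℓ)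
    (hDI : ∀ o ∉ Ex, ∀ P ∈ rims o, PvtdDI ℓ a x R P (pins o P) (fun b => cf o ∈ SB b) (AB o P))
    (hr : (((k + a : ℕ) : ℝ) + 1) * (2 * ℓ) ≤ r) (hStart : ∀ w : ℂ, ‖w - x‖ ≤ 2 * R → pv5Blk ℓ w ∈ Start) :
    {o | ¬ ∀ P ∈ rims o, PvtdDense x R r P (pins o P)} ⊆
      Ex ∪ cf ⁻¹' {η | PvtdHalf Start k fun b => η ∈ SB b} ∪ {o | ∃ P ∈ rims o, PvtdHalf Start k (AB o P)} := by
  intro o ho
  by_contra hcon
  simp only [mem_union, mem_preimage, mem_ofPred_eq, not_or, not_exists, not_and] at hcon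
  obtain ⟨⟨h1, h2⟩, h3⟩ := hcon
  exact ho fun P hP => pvtd_dense_det hℓ k a P (pins o P) _ _ Start (hmesh o h1 P hP) hr hStart (hDI o h1 P hP) h2 (h3 P hP)

/-- **DENSE, the union bound at fixed `(ε, h)`** (outer measures; `hlaw`: the configuration `cf o` is dominated by the marked PPP, see `pvtd_law_le`) -/
theorem pvtd_dense_prob (Pr : Measure Ω) {cf : Ω → Conf PvPt} {ε : ℝ} (hlaw : ∀ A, Pr (cf ⁻¹' A) ≤ pvP ε A) (rims : Ω → Set PvbRim)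
    (pins : Ω → PvbRim → Set (PvbPin τ)) {ℓ r R : ℝ} {x : ℂ} (hℓ : 0 < ℓ) (k a a' : ℕ)
    (SB : ℤ × ℤ → Set (Conf PvPt)) (AB : Ω → PvbRim → ℤ × ℤ → Prop) (Start : Finset (ℤ × ℤ)) (Ex : Set Ω)
    (hSr : ∀ b ∈ pvtdReach Start k, Conf.ReadsSet (pvtdWin ℓ a' b) (SB b)) (hSq : ∀ b ∈ pvtdReach Start k, pvP ε (SB b) ≤ pvtdQ a')
    (hmesh : ∀ o ∉ Ex, ∀ P ∈ rims o, ∀ t < P.len, ‖P.v t - x‖ ≤ 2 * R → ‖P.v (t + 1) - P.v t‖ ≤ ℓ)
    (hDI : ∀ o ∉ Ex, ∀ P ∈ rims o, PvtdDI ℓ a x R P (pins o P) (fun b => cf o ∈ SB b) (AB o P))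
    (hr : (((k + a : ℕ) : ℝ) + 1) * (2 * ℓ) ≤ r) (hStart : ∀ w : ℂ, ‖w - x‖ ≤ 2 * R → pv5Blk ℓ w ∈ Start) :
    Pr {o | ¬ ∀ P ∈ rims o, PvtdDense x R r P (pins o P)} ≤
      Pr Ex + Start.card * (pvtdC a' * (2⁻¹ : ℝ≥0∞) ^ k) + Pr {o | ∃ P ∈ rims o, PvtdHalf Start k (AB o P)} := by
  refine (measure_mono (pvtd_dense_sub cf rims pins hℓ k a SB AB Start Ex hmesh hDI hr hStart)).trans ?_
  refine (measure_union_le _ _).trans (add_le_add ((measure_union_le _ _).trans (add_le_add le_rfl ?_)) le_rfl)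
  exact (hlaw _).trans (pvtd_peierls_half (pv_isPpp ε) ℓ a' SB Start k hSr hSq)

/-- `hlaw` from a measurable map with the right law -/
theorem pvtd_law_le {Pr : Measure Ω} {cf : Ω → Conf PvPt} (hcf : Measurable cf) {ε : ℝ} (hlaw : Pr.map cf = pvP ε) (A : Set (Conf PvPt)) : Pr (cf ⁻¹' A) ≤ pvP ε A := by
  rw [← hlaw]
  exact Measure.le_map_apply hcf.aemeasurable A

end prob

/-! ## 8. the ordered limit -/

/-- `p m i → 0` in the ORDERED limit: first along `l` (`ε ↓ 0`) at fixed `m`, then `m → ∞`.      `PvbOrd p = PvtdOrd atTop p` (S6b/Det), `PvhbOrd p = PvtdOrd (𝓝[>] 0) p` (Tr/Hub), both by `Iff.rfl`. -/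
def PvtdOrd {ι : Type} (l : Filter ι) (p : ℕ → ι → ℝ) : Prop := ∀ η : ℝ, 0 < η → ∀ᶠ m in atTop, ∀ᶠ i in l, p m i ≤ η

theorem pvtd_eqns_cite8 : True := by
  have := @PvtdOrd.eq_1
  trivial

theorem pvtd_ord_iff_pvb (p : ℕ → ℕ → ℝ) : PvbOrd p ↔ PvtdOrd atTop p := Iff.rfl

theorem PvtdOrd.mono {ι : Type} {l : Filter ι} {p q : ℕ → ι → ℝ} (hq : PvtdOrd l q) (h : ∀ᶠ m in atTop, ∀ᶠ i in l, p m i ≤ q m i) : PvtdOrd l p := by
  intro η hη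
  filter_upwards [hq η hη, h] with m h1 h2
  filter_upwards [h1, h2] with n h3 h4
  exact h4.trans h3

theorem PvtdOrd.add {ι : Type} {l : Filter ι} {p q : ℕ → ι → ℝ} (hp : PvtdOrd l p) (hq : PvtdOrd l q) : PvtdOrd l (fun m n => p m n + q m n) := by
  intro η hη
  filter_upwards [hp (η / 2) (by positivity), hq (η / 2) (by positivity)] with m h1 h2
  filter_upwards [h1, h2] with n h3 h4
  linarith

theorem PvtdOrd.of_tendsto {ι : Type} {l : Filter ι} {b : ℕ → ℝ} (hb : Tendsto b atTop (𝓝 0)) : PvtdOrd l (fun m _ => b m) := by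
  intro η hη
  filter_upwards [hb.eventually (gt_mem_nhds hη)] with m hm
  exact Eventually.of_forall fun _ => hm.le

section ord

variable {Ω : Type} [MeasurableSpace Ω] {τ : Type} {ι : Type}

/-- **DENSE IN THE ORDERED LIMIT** (`i` along `l`: `ε_i ↓ 0` first;  `m` = index of `h_m ↓ 0` then).      `ι = ℕ`, `l = atTop`: `PvbOrd`;   `ι = ℝ`, `l = 𝓝[>] 0`, `εs = id`: `PvhbOrd` (field `pinsOK` of `PvhbLoc`).
INPUTS:  `SB m b` static bad blocks (ARBITRARY events of the marked PPP read from the window `pvtdWin (ℓ m) a' b`, probability `≤ pvtdQ a'` in the ordered limit; only the blocks of `pvtdReach (Start m) (k m)` matter);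
`AB m i o P b` adaptive bad blocks, with THEIR Peierls bound `hAB` (A6 (ii)+(iii), quenched; exit of 281 / 13 / 237);   `Ex m i` exceptional events;   off `Ex`: mesh `≤ ℓ m` and (DI);   numbers. -/
theorem pvtd_dense_ord (l : Filter ι) (Pr : ι → Measure Ω) [∀ i, IsProbabilityMeasure (Pr i)] {cf : Ω → Conf PvPt} (εs : ι → ℝ)
    (hlaw : ∀ i A, Pr i (cf ⁻¹' A) ≤ pvP (εs i) A) (rims : ι → Ω → Set PvbRim) (pins : ℕ → ι → Ω → PvbRim → Set (PvbPin τ)) (ℓ r : ℕ → ℝ) {R : ℝ} {x : ℂ}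
    (k : ℕ → ℕ) (a a' : ℕ) (SB : ℕ → ℤ × ℤ → Set (Conf PvPt)) (AB : ℕ → ι → Ω → PvbRim → ℤ × ℤ → Prop) (Start : ℕ → Finset (ℤ × ℤ)) (Ex : ℕ → ι → Set Ω)
    (hℓ : ∀ m, 0 < ℓ m) (hSr : ∀ m, ∀ b ∈ pvtdReach (Start m) (k m), Conf.ReadsSet (pvtdWin (ℓ m) a' b) (SB m b))
    (hSq : ∀ᶠ m in atTop, ∀ᶠ i in l, ∀ b ∈ pvtdReach (Start m) (k m), pvP (εs i) (SB m b) ≤ pvtdQ a')
    (hEx : PvtdOrd l fun m i => (Pr i (Ex m i)).toReal)
    (hAB : PvtdOrd l fun m i => (Pr i {o | ∃ P ∈ rims i o, PvtdHalf (Start m) (k m) (AB m i o P)}).toReal)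
    (hmesh : ∀ m i, ∀ o ∉ Ex m i, ∀ P ∈ rims i o, ∀ t < P.len, ‖P.v t - x‖ ≤ 2 * R → ‖P.v (t + 1) - P.v t‖ ≤ ℓ m)
    (hDI : ∀ m i, ∀ o ∉ Ex m i, ∀ P ∈ rims i o, PvtdDI (ℓ m) a x R P (pins m i o P) (fun b => cf o ∈ SB m b) (AB m i o P))
    (hr : ∀ᶠ m in atTop, (((k m + a : ℕ) : ℝ) + 1) * (2 * ℓ m) ≤ r m) (hStart : ∀ m, ∀ w : ℂ, ‖w - x‖ ≤ 2 * R → pv5Blk (ℓ m) w ∈ Start m)
    (hnum : Tendsto (fun m => ((Start m).card : ℝ) * (2⁻¹ : ℝ) ^ k m) atTop (𝓝 0)) :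
    PvtdOrd l fun m i => (Pr i {o | ¬ ∀ P ∈ rims i o, PvtdDense x R (r m) P (pins m i o P)}).toReal := by
  have hb : Tendsto (fun m => (pvtdC a').toReal * (((Start m).card : ℝ) * (2⁻¹ : ℝ) ^ k m)) atTop (𝓝 0) := by
    simpa using hnum.const_mul (pvtdC a').toReal
  refine ((hEx.add (PvtdOrd.of_tendsto hb)).add hAB).mono ?_
  filter_upwards [hSq, hr] with m hm1 hm2
  filter_upwards [hm1] with n hn
  have h1 := pvtd_dense_prob (Pr n) (hlaw n) (rims n) (pins m n) (hℓ m) (k m) a a' (SB m) (AB m n) (Start m) (Ex m n) (hSr m) hn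
    (hmesh m n) (hDI m n) hm2 (hStart m)
  have hfin : ((Start m).card : ℝ≥0∞) * (pvtdC a' * (2⁻¹ : ℝ≥0∞) ^ k m) ≠ ⊤ :=
    ENNReal.mul_ne_top (ENNReal.natCast_ne_top _) (ENNReal.mul_ne_top (pvtd_C_ne_top a') (ENNReal.pow_ne_top (by norm_num)))
  have h2 := ENNReal.toReal_mono (ENNReal.add_ne_top.2 ⟨ENNReal.add_ne_top.2 ⟨measure_ne_top _ _, hfin⟩, measure_ne_top _ _⟩) h1
  rw [ENNReal.toReal_add (ENNReal.add_ne_top.2 ⟨measure_ne_top _ _, hfin⟩) (measure_ne_top _ _), ENNReal.toReal_add (measure_ne_top _ _) hfin] at h2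
  refine h2.trans (le_of_eq ?_)
  rw [ENNReal.toReal_mul, ENNReal.toReal_mul, ENNReal.toReal_pow, ENNReal.toReal_inv, ENNReal.toReal_natCast]
  norm_num
  ring

/-- the law of the configuration under `pvLaw ε ⊗ ν` (sample space of `Cr/Inst.lean`: `ν = colLaw X`) -/
theorem pvtd_law_prod {X : Type} [MeasurableSpace X] (ν : Measure X) [IsProbabilityMeasure ν] (ε : ℝ) :
    ((pvLaw ε).prod ν).map (fun p => pvConf p.1) = pvP ε := by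
  have : (fun p : PVSample × X => pvConf p.1) = pvConf ∘ Prod.fst := rfl
  rw [this, ← Measure.map_map measurable_pvConf measurable_fst, Measure.map_fst_prod, measure_univ, one_smul]
  rfl

end ord

/-! ## 9. the numbers -/

/-- the blocks of side `ℓ` which meet the square of half-side `2R` round `x` -/
noncomputable def pvtdStart (ℓ : ℝ) (x : ℂ) (R : ℝ) : Finset (ℤ × ℤ) :=
  Finset.Icc ⌊(x.re - 2 * R) / ℓ⌋ ⌊(x.re + 2 * R) / ℓ⌋ ×ˢ Finset.Icc ⌊(x.im - 2 * R) / ℓ⌋ ⌊(x.im + 2 * R) / ℓ⌋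

/-- the length of the chains: `⌊r/2ℓ⌋ - (a+1)` -/
noncomputable def pvtdK (ℓ r : ℝ) (a : ℕ) : ℕ := ⌊r / (2 * ℓ)⌋₊ - (a + 1)

theorem pvtd_eqns_cite9 : True := by
  have := @pvtdStart.eq_1; have := @pvtdK.eq_1
  trivial

theorem pvtd_start_mem {ℓ : ℝ} (hℓ : 0 < ℓ) {x w : ℂ} {R : ℝ} (h : ‖w - x‖ ≤ 2 * R) : pv5Blk ℓ w ∈ pvtdStart ℓ x R := by
  have h1 := abs_le.1 ((Complex.abs_re_le_norm (w - x)).trans h)
  have h2 := abs_le.1 ((Complex.abs_im_le_norm (w - x)).trans h)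
  rw [Complex.sub_re] at h1
  rw [Complex.sub_im] at h2
  unfold pvtdStart pv5Blk
  rw [Finset.mem_product, Finset.mem_Icc, Finset.mem_Icc]
  refine ⟨⟨Int.floor_le_floor ?_, Int.floor_le_floor ?_⟩, Int.floor_le_floor ?_, Int.floor_le_floor ?_⟩ <;>
  · apply div_le_div_of_nonneg_right _ hℓ.le
    linarith [h1.1, h1.2, h2.1, h2.2]

theorem pvtd_Icc_card {ℓ : ℝ} (hℓ : 0 < ℓ) {R : ℝ} (hR : 0 ≤ R) (u : ℝ) : ((Finset.Icc ⌊(u - 2 * R) / ℓ⌋ ⌊(u + 2 * R) / ℓ⌋).card : ℝ) ≤ 4 * R / ℓ + 2 := by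
  rw [Int.card_Icc]
  have h1 : (u - 2 * R) / ℓ < ⌊(u - 2 * R) / ℓ⌋ + 1 := Int.lt_floor_add_one _
  have h2 : (⌊(u + 2 * R) / ℓ⌋ : ℝ) ≤ (u + 2 * R) / ℓ := Int.floor_le _
  have h3 : ⌊(u - 2 * R) / ℓ⌋ ≤ ⌊(u + 2 * R) / ℓ⌋ := Int.floor_le_floor (div_le_div_of_nonneg_right (by linarith) hℓ.le)
  have h4 : (((⌊(u + 2 * R) / ℓ⌋ + 1 - ⌊(u - 2 * R) / ℓ⌋).toNat : ℤ) : ℝ) = (⌊(u + 2 * R) / ℓ⌋ : ℝ) + 1 - ⌊(u - 2 * R) / ℓ⌋ := by
    rw [Int.toNat_of_nonneg (by omega)]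
    push_cast
    ring
  have h5 : (((⌊(u + 2 * R) / ℓ⌋ + 1 - ⌊(u - 2 * R) / ℓ⌋).toNat : ℕ) : ℝ) = (((⌊(u + 2 * R) / ℓ⌋ + 1 - ⌊(u - 2 * R) / ℓ⌋).toNat : ℤ) : ℝ) := by
    push_cast
    rfl
  rw [h5, h4]
  have e : 4 * R / ℓ = (u + 2 * R) / ℓ - (u - 2 * R) / ℓ := by
    field_simp
    ring
  rw [e]
  linarith

theorem pvtd_start_card {ℓ : ℝ} (hℓ : 0 < ℓ) (x : ℂ) {R : ℝ} (hR : 0 ≤ R) : ((pvtdStart ℓ x R).card : ℝ) ≤ (4 * R / ℓ + 2) ^ 2 := by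
  unfold pvtdStart
  rw [Finset.card_product, Nat.cast_mul, sq]
  exact mul_le_mul (pvtd_Icc_card hℓ hR _) (pvtd_Icc_card hℓ hR _) (Nat.cast_nonneg _) (by positivity)

theorem pvtd_K_le {ℓ r : ℝ} (hℓ : 0 < ℓ) (hr : 0 ≤ r) {a : ℕ} (h : a + 1 ≤ ⌊r / (2 * ℓ)⌋₊) : (((pvtdK ℓ r a + a : ℕ) : ℝ) + 1) * (2 * ℓ) ≤ r := by
  have e : pvtdK ℓ r a + a + 1 = ⌊r / (2 * ℓ)⌋₊ := by unfold pvtdK; omega
  have e' : ((pvtdK ℓ r a + a : ℕ) : ℝ) + 1 = (⌊r / (2 * ℓ)⌋₊ : ℝ) := by exact_mod_cast e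
  rw [e', ← le_div_iff₀ (by positivity)]
  exact Nat.floor_le (by positivity)

/-- **the numbers of (i)**: `ℓ_m ↓ 0`, `r_m ≥ ℓ_m^(1-κ)`: then `#Start · 2^(-k) → 0` (stretched exponential against a power) and the chains are long -/
theorem pvtd_num_lim (ℓ r : ℕ → ℝ) (hℓ0 : ∀ m, 0 < ℓ m) (hℓ : Tendsto ℓ atTop (𝓝 0)) {κ : ℝ} (hκ : 0 < κ) (hr : ∀ᶠ m in atTop, ℓ m ^ (1 - κ) ≤ r m)
    (x : ℂ) {R : ℝ} (hR : 0 ≤ R) (a : ℕ) :
    Tendsto (fun m => ((pvtdStart (ℓ m) x R).card : ℝ) * (2⁻¹ : ℝ) ^ pvtdK (ℓ m) (r m) a) atTop (𝓝 0) ∧ ∀ᶠ m in atTop, a + 1 ≤ ⌊r m / (2 * ℓ m)⌋₊ := by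
  set t : ℕ → ℝ := fun m => ℓ m ^ (-κ) with ht
  have htt : Tendsto t atTop atTop :=
    (tendsto_rpow_neg_nhdsGT_zero (neg_lt_zero.2 hκ)).comp (tendsto_nhdsWithin_iff.2 ⟨hℓ, Eventually.of_forall hℓ0⟩)
  have key1 : ∀ᶠ m in atTop, t m / 2 ≤ r m / (2 * ℓ m) := by
    filter_upwards [hr] with m hm
    have e : ℓ m ^ (1 - κ) = ℓ m * t m := by
      rw [ht, sub_eq_add_neg, Real.rpow_add (hℓ0 m), Real.rpow_one]
    rw [e] at hm
    rw [le_div_iff₀ (by have := hℓ0 m; positivity)]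
    calc t m / 2 * (2 * ℓ m) = ℓ m * t m := by ring
      _ ≤ r m := hm
  refine ⟨?_, ?_⟩
  · set C : ℝ := (4 * R + 2) ^ 2 * Real.exp (Real.log 2 * (a + 2)) with hC
    have hlim : Tendsto (fun m => C * (t m ^ (2 / κ) * Real.exp (-(Real.log 2 / 2) * t m))) atTop (𝓝 0) := by
      have := ((tendsto_rpow_mul_exp_neg_mul_atTop_nhds_zero (2 / κ) (Real.log 2 / 2) (by have := Real.log_pos one_lt_two; positivity)).comp htt).const_mul C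
      simpa using this
    refine squeeze_zero' (Eventually.of_forall fun m => by positivity) ?_ hlim
    filter_upwards [key1, hℓ.eventually (ge_mem_nhds one_pos)] with m hm1 hm2
    have hl := hℓ0 m
    have h1 : ((pvtdStart (ℓ m) x R).card : ℝ) ≤ (4 * R + 2) ^ 2 * t m ^ (2 / κ) := by
      refine (pvtd_start_card hl x hR).trans ?_
      have e : t m ^ (2 / κ) = ((ℓ m)⁻¹) ^ 2 := by
        rw [ht]
        simp only
        rw [← Real.rpow_mul hl.le]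
        have : -κ * (2 / κ) = -2 := by field_simp
        rw [this, Real.rpow_neg hl.le, inv_pow]
        norm_cast
      rw [e, ← mul_pow]
      refine pow_le_pow_left₀ (by positivity) ?_ 2
      have : (4 * R + 2) * (ℓ m)⁻¹ = 4 * R / ℓ m + 2 * (ℓ m)⁻¹ := by ring
      rw [this]
      have h3 : 1 ≤ (ℓ m)⁻¹ := (one_le_inv₀ hl).2 hm2
      linarith
    have h2 : (2⁻¹ : ℝ) ^ pvtdK (ℓ m) (r m) a ≤ Real.exp (Real.log 2 * (a + 2)) * Real.exp (-(Real.log 2 / 2) * t m) := by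
      have e : (2⁻¹ : ℝ) ^ pvtdK (ℓ m) (r m) a = Real.exp (-Real.log 2 * pvtdK (ℓ m) (r m) a) := by
        rw [← Real.rpow_natCast, Real.rpow_def_of_pos (by norm_num), Real.log_inv]
      rw [e, ← Real.exp_add]
      refine Real.exp_le_exp.2 ?_
      have h4 : ⌊r m / (2 * ℓ m)⌋₊ ≤ pvtdK (ℓ m) (r m) a + (a + 1) := by unfold pvtdK; omega
      have h5 : ((⌊r m / (2 * ℓ m)⌋₊ : ℕ) : ℝ) ≤ (pvtdK (ℓ m) (r m) a : ℝ) + (a + 1) := by exact_mod_cast h4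
      have h6 := Nat.sub_one_lt_floor (r m / (2 * ℓ m))
      have h7 : t m / 2 - a - 2 ≤ (pvtdK (ℓ m) (r m) a : ℝ) := by linarith
      have hlog := Real.log_pos one_lt_two
      nlinarith
    calc ((pvtdStart (ℓ m) x R).card : ℝ) * (2⁻¹ : ℝ) ^ pvtdK (ℓ m) (r m) a
        ≤ ((4 * R + 2) ^ 2 * t m ^ (2 / κ)) * (Real.exp (Real.log 2 * (a + 2)) * Real.exp (-(Real.log 2 / 2) * t m)) :=
          mul_le_mul h1 h2 (by positivity) (by have : 0 ≤ t m := Real.rpow_nonneg hl.le _; positivity)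
      _ = C * (t m ^ (2 / κ) * Real.exp (-(Real.log 2 / 2) * t m)) := by rw [hC]; ring
  · filter_upwards [key1, htt.eventually_ge_atTop (2 * ((a : ℝ) + 1))] with m hm1 hm2
    refine Nat.le_floor ?_
    push_cast
    linarith

/-! ## 10. the packaged form -/

section main

variable {Ω : Type} [MeasurableSpace Ω] {τ : Type} {ι : Type}

/-- **DENSE, PACKAGED**:   blocks of side `ℓ m ↓ 0` (`= L h_m`), `r m ≥ (ℓ m)^(1-κ)`, static bad blocks = the copies `pvtdEv (ℓ m) B b` of ONE event `B` of unit scale (block side `1`; ANY event read from `pvtdWin 1 a' 0`)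
with `P_ε(B) ≤ pvtdQ a'` for small `ε`, chains of `pvtdK (ℓ m) (r m) a + 1` blocks from `pvtdStart (ℓ m) x R`. -/
theorem pvtd_dense_main (l : Filter ι) (Pr : ι → Measure Ω) [∀ i, IsProbabilityMeasure (Pr i)] {cf : Ω → Conf PvPt} (εs : ι → ℝ)
    (hε : Tendsto εs l (𝓝[>] 0)) (hlaw : ∀ i A, Pr i (cf ⁻¹' A) ≤ pvP (εs i) A) (rims : ι → Ω → Set PvbRim)
    (pins : ℕ → ι → Ω → PvbRim → Set (PvbPin τ)) (ℓ r : ℕ → ℝ) {R : ℝ} (hR : 0 ≤ R) {x : ℂ} (a a' : ℕ) {κ : ℝ} (hκ : 0 < κ)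
    (hℓ0 : ∀ m, 0 < ℓ m) (hℓ : Tendsto ℓ atTop (𝓝 0)) (hr : ∀ᶠ m in atTop, ℓ m ^ (1 - κ) ≤ r m)
    (B : Set (Conf PvPt)) (hBr : Conf.ReadsSet (pvtdWin 1 a' 0) B) (hBq : ∀ᶠ ε in 𝓝[>] 0, pvP ε B ≤ pvtdQ a')
    (AB : ℕ → ι → Ω → PvbRim → ℤ × ℤ → Prop) (Ex : ℕ → ι → Set Ω)
    (hEx : PvtdOrd l fun m i => (Pr i (Ex m i)).toReal)
    (hAB : PvtdOrd l fun m i => (Pr i {o | ∃ P ∈ rims i o, PvtdHalf (pvtdStart (ℓ m) x R) (pvtdK (ℓ m) (r m) a) (AB m i o P)}).toReal)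
    (hmesh : ∀ m i, ∀ o ∉ Ex m i, ∀ P ∈ rims i o, ∀ t < P.len, ‖P.v t - x‖ ≤ 2 * R → ‖P.v (t + 1) - P.v t‖ ≤ ℓ m)
    (hDI : ∀ m i, ∀ o ∉ Ex m i, ∀ P ∈ rims i o, PvtdDI (ℓ m) a x R P (pins m i o P) (fun b => cf o ∈ pvtdEv (ℓ m) B b) (AB m i o P)) :
    PvtdOrd l fun m i => (Pr i {o | ¬ ∀ P ∈ rims i o, PvtdDense x R (r m) P (pins m i o P)}).toReal := by
  obtain ⟨hnum, hlong⟩ := pvtd_num_lim ℓ r hℓ0 hℓ hκ hr x hR a
  refine pvtd_dense_ord l Pr εs hlaw rims pins ℓ r (fun m => pvtdK (ℓ m) (r m) a) a a' (fun m => pvtdEv (ℓ m) B) AB (fun m => pvtdStart (ℓ m) x R) Ex hℓ0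
    (fun m b _ => pvtd_ev_reads (hℓ0 m) a' b hBr) ?_ hEx hAB hmesh hDI ?_ (fun m w hw => pvtd_start_mem (hℓ0 m) hw) hnum
  · refine Eventually.of_forall fun m => ?_
    have h1 : Tendsto (fun i => (ℓ m)⁻¹ * εs i) l (𝓝[>] 0) := by
      have h2 := tendsto_nhdsWithin_iff.1 hε
      refine tendsto_nhdsWithin_iff.2 ⟨by simpa using h2.1.const_mul (ℓ m)⁻¹, h2.2.mono fun i hi => ?_⟩
      exact mul_pos (inv_pos.2 (hℓ0 m)) hi
    filter_upwards [h1.eventually hBq] with i hi b _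
    exact (pvtd_ev_le (hℓ0 m).ne' b (εs i) B).trans hi
  · filter_upwards [hlong, hr] with m hm1 hm2
    exact pvtd_K_le (hℓ0 m) ((Real.rpow_nonneg (hℓ0 m).le _).trans hm2) hm1

end main

/-! ## 11. G8 of A6: heavy cells, c-bad blocks      (vocabulary of `Arm/GateP`, helper281: `pvagCg`, `PvagNear`, `PvagLight`, consumer `pvag_select`) -/

/-- **Markov for OUTER measures**: the probability that at least `k` of the ARBITRARY events `F i`, `i ∈ S`, occur is at most `(∑ P(F i)) / k` -/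
theorem pvtd_markov {Ω ι : Type*} [MeasurableSpace Ω] (μ : Measure Ω) (S : Finset ι) (F : ι → Set Ω) (k : ℕ) (hk : 0 < k) :
    μ {ω | ∃ U ⊆ S, k ≤ U.card ∧ ∀ i ∈ U, ω ∈ F i} ≤ (∑ i ∈ S, μ (F i)) / k := by
  have h1 := pv5_block_markov μ S (fun i => toMeasurable μ (F i)) (fun i _ => measurableSet_toMeasurable μ (F i)) k hk
  simp only [measure_toMeasurable] at h1
  refine le_trans (measure_mono ?_) h1
  rintro ω ⟨U, hU, hc, hm⟩
  exact ⟨U, hU, hc, fun i hi => subset_toMeasurable μ (F i) (hm i hi)⟩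

/-- nested grids: the block of side `A ℓ` is the coarse graining of the block of side `ℓ` -/
theorem pvtd_blk_cg {ℓ : ℝ} (hℓ : 0 < ℓ) {A : ℕ} (hA : 0 < A) (z : ℂ) : pv5Blk (A * ℓ) z = pvagCg A (pv5Blk ℓ z) := by
  have key : ∀ u : ℝ, ⌊u / (A * ℓ)⌋ = ⌊u / ℓ⌋ / (A : ℤ) := by
    intro u
    have hA' : (0 : ℝ) < A := by exact_mod_cast hA
    have e : u / (A * ℓ) = u / ℓ / A := by field_simp
    rw [e]
    obtain ⟨h1, h2⟩ := pvag_div_spec hA ⌊u / ℓ⌋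
    rw [Int.floor_eq_iff]
    have g1 : ((⌊u / ℓ⌋ : ℤ) : ℝ) ≤ u / ℓ := Int.floor_le _
    have g2 : u / ℓ < (⌊u / ℓ⌋ : ℝ) + 1 := Int.lt_floor_add_one _
    have h1' : (A : ℝ) * ((⌊u / ℓ⌋ / (A : ℤ) : ℤ) : ℝ) ≤ (⌊u / ℓ⌋ : ℝ) := by exact_mod_cast h1
    have h2' : (⌊u / ℓ⌋ : ℝ) + 1 ≤ (A : ℝ) * ((⌊u / ℓ⌋ / (A : ℤ) : ℤ) : ℝ) + A := by exact_mod_cast h2
    constructor
    · rw [le_div_iff₀ hA']; linarith
    · rw [div_lt_iff₀ hA']; linarith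
  unfold pv5Blk pvagCg
  rw [key, key]

theorem pvtd_near_iff (r : ℕ) (a b : ℤ × ℤ) : PvagNear r a b ↔ pv5Dist a b ≤ r := by
  unfold PvagNear pv5Dist
  exact max_le_iff.symm

/-- coarse graining contracts the sup-distance: `≤ kA` becomes `≤ k` -/
theorem pvtd_cg_dist {A : ℕ} (hA : 0 < A) {a b : ℤ × ℤ} {k : ℕ} (h : pv5Dist a b ≤ (k * A : ℕ)) : pv5Dist (pvagCg A a) (pvagCg A b) ≤ k := by
  have h1 := (le_max_left _ _).trans h
  have h2 := (le_max_right _ _).trans h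
  push_cast at h1 h2
  exact max_le (pvag_div_abs_le hA h1) (pvag_div_abs_le hA h2)

/-- the indices `u` with `|u / N - x| ≤ d` (one coordinate) -/
theorem pvtd_div_mem {N : ℕ} (hN : 0 < N) (u x : ℤ) (d : ℕ) : |u / (N : ℤ) - x| ≤ d ↔ u ∈ Finset.Icc ((N : ℤ) * (x - d)) ((N : ℤ) * (x + d + 1) - 1) := by
  have hN' : (0 : ℤ) < N := by exact_mod_cast hN
  rw [Finset.mem_Icc, abs_le]
  constructor
  · rintro ⟨h1, h2⟩
    obtain ⟨g1, g2⟩ := pvag_div_spec hN u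
    constructor
    · calc (N : ℤ) * (x - d) ≤ N * (u / N) := mul_le_mul_of_nonneg_left (by linarith) hN'.le
        _ ≤ u := g1
    · have : (N : ℤ) * (u / N) + N ≤ N * (x + d + 1) := by
        have := mul_le_mul_of_nonneg_left (show u / (N : ℤ) + 1 ≤ x + d + 1 by linarith) hN'.le
        linarith
      linarith
  · rintro ⟨h1, h2⟩
    constructor
    · have : x - d ≤ u / (N : ℤ) := (Int.le_ediv_iff_mul_le hN').2 (by linarith)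
      linarith
    · have : u / (N : ℤ) < x + d + 1 := (Int.ediv_lt_iff_lt_mul hN').2 (by linarith)
      linarith

/-- the cells (`N` cells per block side) of the blocks at sup-distance `≤ d` of the block `x` -/
noncomputable def pvtdCells (N d : ℕ) (x : ℤ × ℤ) : Finset (ℤ × ℤ) :=
  Finset.Icc ((N : ℤ) * (x.1 - d)) ((N : ℤ) * (x.1 + d + 1) - 1) ×ˢ Finset.Icc ((N : ℤ) * (x.2 - d)) ((N : ℤ) * (x.2 + d + 1) - 1)

theorem pvtd_cells_mem {N : ℕ} (hN : 0 < N) (d : ℕ) (x Q : ℤ × ℤ) : Q ∈ pvtdCells N d x ↔ pv5Dist (pvagCg N Q) x ≤ d := by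
  unfold pvtdCells pv5Dist pvagCg
  rw [Finset.mem_product, max_le_iff, pvtd_div_mem hN, pvtd_div_mem hN]

theorem pvtd_cells_card (N d : ℕ) (x : ℤ × ℤ) : (pvtdCells N d x).card = (N * (2 * d + 1)) ^ 2 := by
  unfold pvtdCells
  have key : ∀ u : ℤ, (Finset.Icc ((N : ℤ) * (u - d)) ((N : ℤ) * (u + d + 1) - 1)).card = N * (2 * d + 1) := by
    intro u
    rw [Int.card_Icc]
    have : (N : ℤ) * (u + d + 1) - 1 + 1 - (N : ℤ) * (u - d) = ((N * (2 * d + 1) : ℕ) : ℤ) := by push_cast; ring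
    rw [this, Int.toNat_natCast]
  rw [Finset.card_product, key, key, sq]

/-- the cell `Q` is HEAVY: not light in the sense of 281 (at least `M` flagged boxes in its `3 × 3` neighbourhood) -/
def pvtdHeavy (M : ℕ) (Fl : ℤ × ℤ → ℤ × ℤ → Set (Conf PvPt)) (Q : ℤ × ℤ) : Set (Conf PvPt) := {η | ¬ PvagLight M (fun Q b => η ∈ Fl Q b) Q}

/-- the block is c-BAD: at some level `i < n` a simple `*`-chain of `n0 + 1` heavy cells starts in `St i` -/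
def pvtdCB (n n0 : ℕ) (M : ℕ → ℕ) (Fl : ℕ → ℤ × ℤ → ℤ × ℤ → Set (Conf PvPt)) (St : ℕ → Finset (ℤ × ℤ)) : Set (Conf PvPt) :=
  {η | ∃ i < n, ∃ c, Pv5Chain n0 c ∧ c 0 ∈ St i ∧ ∀ j ≤ n0, η ∈ pvtdHeavy (M i) (Fl i) (c j)}

theorem pvtd_eqns_cite11 : True := by
  have := @pvtdCells.eq_1; have := @pvtdHeavy.eq_1; have := @pvtdCB.eq_1
  trivial

/-- **what (H) = `pvag_select` consumes** -/
theorem pvtd_not_cb {n n0 : ℕ} {M : ℕ → ℕ} {Fl : ℕ → ℤ × ℤ → ℤ × ℤ → Set (Conf PvPt)} {St : ℕ → Finset (ℤ × ℤ)} {η : Conf PvPt} (h : η ∉ pvtdCB n n0 M Fl St) :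
    ∀ i < n, ∀ c, Pv5Chain n0 c → c 0 ∈ St i → ∃ j ≤ n0, PvagLight (M i) (fun Q b => η ∈ Fl i Q b) (c j) := by
  intro i hi c hc h0
  by_contra hcon
  push Not at hcon
  exact h ⟨i, hi, c, hc, h0, hcon⟩

/-- the boxes of the `3 × 3` neighbourhood of the cell `Q` -/
theorem pvtd_nb_mem {M : ℕ} (hM : 0 < M) (Q b : ℤ × ℤ) : b ∈ pvtdCells M 1 Q ↔ PvagNear 1 (pvagCg M b) Q := by
  rw [pvtd_cells_mem hM, ← pvtd_near_iff]
  rfl

theorem pvtd_heavy_le {μ : Measure (Conf PvPt)} {M : ℕ} (hM : 0 < M) (Fl : ℤ × ℤ → ℤ × ℤ → Set (Conf PvPt)) (Q : ℤ × ℤ) :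
    μ (pvtdHeavy M Fl Q) ≤ (∑ b ∈ pvtdCells M 1 Q, μ (Fl Q b)) / M := by
  refine le_trans (measure_mono ?_) (pvtd_markov μ (pvtdCells M 1 Q) (Fl Q) M hM)
  intro η hη
  have hη' : ¬ PvagLight M (fun Q b => η ∈ Fl Q b) Q := hη
  unfold PvagLight at hη'
  push Not at hη'
  obtain ⟨B, hB, hc⟩ := hη'
  exact ⟨B, fun b hb => (pvtd_nb_mem hM Q b).2 (hB b hb).2, hc, fun b hb => (hB b hb).1⟩

theorem pvtd_heavy_reads {M : ℕ} (hM : 0 < M) {Fl : ℤ × ℤ → ℤ × ℤ → Set (Conf PvPt)} {Q : ℤ × ℤ} {W : Set PvPt} (h : ∀ b ∈ pvtdCells M 1 Q, Conf.ReadsSet W (Fl Q b)) :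
    Conf.ReadsSet W (pvtdHeavy M Fl Q) := by
  intro η
  show ¬ PvagLight M (fun Q b => Conf.restr W η ∈ Fl Q b) Q ↔ ¬ PvagLight M (fun Q b => η ∈ Fl Q b) Q
  refine not_congr (forall_congr' fun B => ?_)
  refine imp_congr_left (forall₂_congr fun b _ => ?_)
  constructor
  · rintro ⟨h1, h2⟩
    exact ⟨(h b ((pvtd_nb_mem hM Q b).2 h2) η).1 h1, h2⟩
  · rintro ⟨h1, h2⟩
    exact ⟨(h b ((pvtd_nb_mem hM Q b).2 h2) η).2 h1, h2⟩

section cb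

variable {m : Measure PvPt} {μ : Measure (Conf PvPt)}

/-- **G8, `P(c-bad)`**:   level `i < n`: cells of side `ℓc i`, flags `Fl i Q b` (ARBITRARY events) read from the window `pvtdWin (ℓc i) a Q` of the cell, first moment `∑_b P(Fl i Q b) ≤ K i` (five-arm COUNT), `K i ≤ M i`.   Then
`P(c-bad) ≤ ∑_i #St_i 8^n0 (K_i / M_i)^⌊(n0+1)/(2a+1)²⌋`. -/
theorem pvtd_cb_le (h : IsPpp m μ) (n n0 a : ℕ) (M : ℕ → ℕ) (ℓc : ℕ → ℝ) (Fl : ℕ → ℤ × ℤ → ℤ × ℤ → Set (Conf PvPt)) (St : ℕ → Finset (ℤ × ℤ)) (K : ℕ → ℝ≥0∞)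
    (hM : ∀ i < n, 0 < M i) (hr : ∀ i < n, ∀ Q ∈ pvtdReach (St i) n0, ∀ b ∈ pvtdCells (M i) 1 Q, Conf.ReadsSet (pvtdWin (ℓc i) a Q) (Fl i Q b))
    (hK : ∀ i < n, ∀ Q ∈ pvtdReach (St i) n0, ∑ b ∈ pvtdCells (M i) 1 Q, μ (Fl i Q b) ≤ K i) (hKM : ∀ i < n, K i ≤ M i) :
    μ (pvtdCB n n0 M Fl St) ≤ ∑ i ∈ Finset.range n, ((St i).card * 8 ^ n0 * (K i / M i) ^ ((n0 + 1) / (2 * a + 1) ^ 2) : ℝ≥0∞) := by
  have hsub : pvtdCB n n0 M Fl St ⊆ ⋃ i ∈ Finset.range n, {η | ∃ c, Pv5Chain n0 c ∧ c 0 ∈ St i ∧ ∀ j ≤ n0, η ∈ pvtdHeavy (M i) (Fl i) (c j)} := by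
    rintro η ⟨i, hi, hc⟩
    exact Set.mem_iUnion₂.2 ⟨i, Finset.mem_range.2 hi, hc⟩
  refine (measure_mono hsub).trans ((measure_biUnion_finset_le _ _).trans (Finset.sum_le_sum fun i hi => ?_))
  have hi' := Finset.mem_range.1 hi
  have hM0 : ((M i : ℕ) : ℝ≥0∞) ≠ 0 := by exact_mod_cast (hM i hi').ne'
  refine pvtd_peierls_all h (ℓc i) a (pvtdHeavy (M i) (Fl i)) (St i) n0 (fun Q hQ => pvtd_heavy_reads (hM i hi') (hr i hi' Q hQ)) (K i / M i)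
    (ENNReal.div_le_of_le_mul (by rw [one_mul]; exact hKM i hi')) fun Q hQ => ?_
  exact (pvtd_heavy_le (hM i hi') (Fl i) Q).trans (ENNReal.div_le_div_right (hK i hi' Q hQ) _)

/-- the event c-bad reads every window which contains the windows of the cells which the chains can visit -/
theorem pvtd_cb_reads {n n0 : ℕ} {M : ℕ → ℕ} {Fl : ℕ → ℤ × ℤ → ℤ × ℤ → Set (Conf PvPt)} {St : ℕ → Finset (ℤ × ℤ)} {W : Set PvPt} (hM : ∀ i < n, 0 < M i)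
    (hr : ∀ i < n, ∀ Q ∈ pvtdReach (St i) n0, ∀ b ∈ pvtdCells (M i) 1 Q, Conf.ReadsSet W (Fl i Q b)) : Conf.ReadsSet W (pvtdCB n n0 M Fl St) := by
  intro η
  have key : ∀ i < n, ∀ c, Pv5Chain n0 c → c 0 ∈ St i → ∀ j ≤ n0, (Conf.restr W η ∈ pvtdHeavy (M i) (Fl i) (c j) ↔ η ∈ pvtdHeavy (M i) (Fl i) (c j)) := by
    intro i hi c hc h0 j hj
    exact pvtd_heavy_reads (hM i hi) (hr i hi (c j) ⟨c 0, h0, (pvtd_chain_dist hc hj).trans (by exact_mod_cast hj)⟩) η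
  constructor
  · rintro ⟨i, hi, c, hc, h0, hb⟩
    exact ⟨i, hi, c, hc, h0, fun j hj => (key i hi c hc h0 j hj).1 (hb j hj)⟩
  · rintro ⟨i, hi, c, hc, h0, hb⟩
    exact ⟨i, hi, c, hc, h0, fun j hj => (key i hi c hc h0 j hj).2 (hb j hj)⟩

end cb

/-- the window of a cell which a chain from the cells of the `d`-enlargement of the block `x` can visit lies in the window `d + 1` of the block (`N` cells per block side, `n0 + a ≤ N`) -/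
theorem pvtd_cell_win {ℓc : ℝ} (hℓ : 0 < ℓc) {N : ℕ} (hN : 0 < N) {n0 a d : ℕ} (hNa : n0 + a ≤ N) {x Q : ℤ × ℤ} (hQ : Q ∈ pvtdReach (pvtdCells N d x) n0) :
    pvtdWin ℓc a Q ⊆ pvtdWin (N * ℓc) (d + 1) x := by
  obtain ⟨Q0, hQ0, hd⟩ := hQ
  rw [pvtd_cells_mem hN] at hQ0
  intro p hp
  have hp' : pv5Dist (pv5Blk ℓc p.1) Q ≤ a := hp
  show pv5Dist (pv5Blk (N * ℓc) p.1) x ≤ ((d + 1 : ℕ) : ℤ)
  rw [pvtd_blk_cg hℓ hN]
  have h1 : pv5Dist (pv5Blk ℓc p.1) Q0 ≤ ((1 * N : ℕ) : ℤ) := by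
    have := pv5_dist_triangle (pv5Blk ℓc p.1) Q Q0
    rw [pvtd_dist_comm Q Q0] at this
    have h2 : ((n0 + a : ℕ) : ℤ) ≤ N := by exact_mod_cast hNa
    push_cast at h2 ⊢
    linarith
  have h2 := pvtd_cg_dist hN h1
  have h3 := pv5_dist_triangle (pvagCg N (pv5Blk ℓc p.1)) (pvagCg N Q0) x
  push_cast at h2 ⊢
  linarith

/-- **G8, arithmetic** (order of the constants: `n`, `n0`, `a`, `d`, `K`, `C0` first, `Mb → ∞` last):   `N_i ≤ C0 Mb^n` cells per block side, exponent `⌊(n0+1)/(2a+1)²⌋ ≥ 2n + 1`:   the bound of `pvtd_cb_le` is `≤ n ((2d+1) C0)² 8^n0 K^(2n+1) / Mb`. -/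
theorem pvtd_cb_num (n n0 a d C0 K Mb : ℕ) (he : 2 * n + 1 ≤ (n0 + 1) / (2 * a + 1) ^ 2) (hMb : 0 < Mb) (hK : K ≤ Mb) (N : ℕ → ℕ) (hN : ∀ i < n, N i ≤ C0 * Mb ^ n) :
    ∑ i ∈ Finset.range n, ((((N i * (2 * d + 1)) ^ 2 : ℕ) : ℝ≥0∞) * 8 ^ n0 * ((K : ℝ≥0∞) / Mb) ^ ((n0 + 1) / (2 * a + 1) ^ 2))
      ≤ ((n * ((2 * d + 1) * C0) ^ 2 * 8 ^ n0 * K ^ (2 * n + 1) : ℕ) : ℝ≥0∞) / Mb := by
  have hMb0 : ((Mb : ℕ) : ℝ≥0∞) ≠ 0 := by exact_mod_cast hMb.ne'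
  have hMbt : ((Mb : ℕ) : ℝ≥0∞) ≠ ⊤ := ENNReal.natCast_ne_top _
  have hq1 : (K : ℝ≥0∞) / Mb ≤ 1 := ENNReal.div_le_of_le_mul (by rw [one_mul]; exact_mod_cast hK)
  have hterm : ∀ i ∈ Finset.range n, ((((N i * (2 * d + 1)) ^ 2 : ℕ) : ℝ≥0∞) * 8 ^ n0 * ((K : ℝ≥0∞) / Mb) ^ ((n0 + 1) / (2 * a + 1) ^ 2))
      ≤ ((((2 * d + 1) * C0) ^ 2 * 8 ^ n0 * K ^ (2 * n + 1) : ℕ) : ℝ≥0∞) / Mb := by
    intro i hi
    have h1 : ((K : ℝ≥0∞) / Mb) ^ ((n0 + 1) / (2 * a + 1) ^ 2) ≤ ((K : ℝ≥0∞) / Mb) ^ (2 * n + 1) := pow_le_pow_right_of_le_one' hq1 he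
    have h2 : (((N i * (2 * d + 1)) ^ 2 : ℕ) : ℝ≥0∞) ≤ ((((2 * d + 1) * C0) ^ 2 * Mb ^ (2 * n) : ℕ) : ℝ≥0∞) := by
      have : (N i * (2 * d + 1)) ^ 2 ≤ ((2 * d + 1) * C0) ^ 2 * Mb ^ (2 * n) := by
        calc (N i * (2 * d + 1)) ^ 2 ≤ (C0 * Mb ^ n * (2 * d + 1)) ^ 2 := Nat.pow_le_pow_left (Nat.mul_le_mul_right _ (hN i (Finset.mem_range.1 hi))) 2
          _ = ((2 * d + 1) * C0) ^ 2 * Mb ^ (2 * n) := by ring
      exact_mod_cast this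
    calc _ ≤ ((((2 * d + 1) * C0) ^ 2 * Mb ^ (2 * n) : ℕ) : ℝ≥0∞) * 8 ^ n0 * ((K : ℝ≥0∞) / Mb) ^ (2 * n + 1) := by gcongr
      _ = ((((2 * d + 1) * C0) ^ 2 * 8 ^ n0 * K ^ (2 * n + 1) : ℕ) : ℝ≥0∞) / Mb := by
          have e : (Mb : ℝ≥0∞) * (Mb : ℝ≥0∞)⁻¹ = 1 := ENNReal.mul_inv_cancel hMb0 hMbt
          rw [div_eq_mul_inv, div_eq_mul_inv]
          push_cast
          calc ((2 * (d : ℝ≥0∞) + 1) * C0) ^ 2 * (Mb : ℝ≥0∞) ^ (2 * n) * 8 ^ n0 * ((K : ℝ≥0∞) * (Mb : ℝ≥0∞)⁻¹) ^ (2 * n + 1)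
              = ((2 * (d : ℝ≥0∞) + 1) * C0) ^ 2 * 8 ^ n0 * (K : ℝ≥0∞) ^ (2 * n + 1) * ((Mb : ℝ≥0∞) * (Mb : ℝ≥0∞)⁻¹) ^ (2 * n) * (Mb : ℝ≥0∞)⁻¹ := by ring
            _ = _ := by rw [e, one_pow, mul_one]
  refine (Finset.sum_le_sum hterm).trans (le_of_eq ?_)
  rw [Finset.sum_const, Finset.card_range, nsmul_eq_mul, ← mul_div_assoc]
  push_cast
  ring_nf

/-- **the c-bad event of the block `x`**:   levels `i < n`, `N i` cells per block side, `Mc` boxes per cell side, chains of `n0 + 1` heavy cells from the cells of the blocks at sup-distance `≤ d` of `x` -/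
def pvtdCBx (n n0 d Mc : ℕ) (N : ℕ → ℕ) (Fl : ℕ → ℤ × ℤ → ℤ × ℤ → Set (Conf PvPt)) (x : ℤ × ℤ) : Set (Conf PvPt) :=
  pvtdCB n n0 (fun _ => Mc) Fl (fun i => pvtdCells (N i) d x)

theorem pvtd_eqns_cite12 : True := by
  have := @pvtdCBx.eq_1
  trivial

/-- **G8, locality of c-bad**: block side `ℓ = N i * ℓc i`, `n0 + a ≤ N i`, the flags of a cell read its window `pvtdWin (ℓc i) a Q`:   c-bad reads `pvtdWin ℓ (d + 1) x` -/
theorem pvtd_cbx_reads {n n0 d a Mc : ℕ} (hMc : 0 < Mc) {N : ℕ → ℕ} {ℓ : ℝ} {ℓc : ℕ → ℝ} {Fl : ℕ → ℤ × ℤ → ℤ × ℤ → Set (Conf PvPt)} {x : ℤ × ℤ}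
    (hℓc : ∀ i < n, 0 < ℓc i) (hN : ∀ i < n, 0 < N i ∧ n0 + a ≤ N i ∧ ℓ = N i * ℓc i)
    (hr : ∀ i < n, ∀ Q ∈ pvtdReach (pvtdCells (N i) d x) n0, ∀ b ∈ pvtdCells Mc 1 Q, Conf.ReadsSet (pvtdWin (ℓc i) a Q) (Fl i Q b)) :
    Conf.ReadsSet (pvtdWin ℓ (d + 1) x) (pvtdCBx n n0 d Mc N Fl x) := by
  refine pvtd_cb_reads (fun _ _ => hMc) fun i hi Q hQ b hb => (hr i hi Q hQ b hb).mono ?_
  obtain ⟨h1, h2, h3⟩ := hN i hi
  rw [h3]
  exact pvtd_cell_win (hℓc i hi) h1 h2 hQ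

/-- **G8, `P(c-bad)` with the order of the constants**:   first moment of the flags of a cell `≤ K` (five-arm COUNT: a constant which does not depend on `Mc`), `N i ≤ C0 Mc^n`, `⌊(n0+1)/(2a+1)²⌋ ≥ 2n+1`:
`P(c-bad) ≤ n ((2d+1) C0)² 8^n0 K^(2n+1) / Mc`      (`→ 0` as `Mc → ∞`, all the other constants being fixed before). -/
theorem pvtd_cbx_le {m : Measure PvPt} {μ : Measure (Conf PvPt)} (h : IsPpp m μ) {n n0 d a Mc C0 K : ℕ} (hMc : 0 < Mc) (hKM : K ≤ Mc) (he : 2 * n + 1 ≤ (n0 + 1) / (2 * a + 1) ^ 2)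
    {N : ℕ → ℕ} (hN : ∀ i < n, N i ≤ C0 * Mc ^ n) (ℓc : ℕ → ℝ) {Fl : ℕ → ℤ × ℤ → ℤ × ℤ → Set (Conf PvPt)} {x : ℤ × ℤ}
    (hr : ∀ i < n, ∀ Q ∈ pvtdReach (pvtdCells (N i) d x) n0, ∀ b ∈ pvtdCells Mc 1 Q, Conf.ReadsSet (pvtdWin (ℓc i) a Q) (Fl i Q b))
    (hK : ∀ i < n, ∀ Q ∈ pvtdReach (pvtdCells (N i) d x) n0, ∑ b ∈ pvtdCells Mc 1 Q, μ (Fl i Q b) ≤ K) :
    μ (pvtdCBx n n0 d Mc N Fl x) ≤ ((n * ((2 * d + 1) * C0) ^ 2 * 8 ^ n0 * K ^ (2 * n + 1) : ℕ) : ℝ≥0∞) / Mc := by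
  refine (pvtd_cb_le h n n0 a (fun _ => Mc) ℓc Fl (fun i => pvtdCells (N i) d x) (fun _ => (K : ℝ≥0∞)) (fun _ _ => hMc) hr hK (fun _ _ => by exact_mod_cast hKM)).trans ?_
  simp only [pvtd_cells_card]
  exact pvtd_cb_num n n0 a d C0 K Mc he hMc hKM N hN

end Claimed.Agent.R289
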