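import Mathlib

/-!
# Row 289, box T4 (N2): linear algebra of cell increments along rectilinear corridors

Model free.  A rectilinear corridor of grid cells is coded by a starting frame `d : ℂ`
(the direction in which the first cell is entered, a fourth root of unity in the application,
an arbitrary complex number here) and a word `l : List PvtTurn` (one letter per cell:
straight, left turn, right turn).  A cell entered in the frame `d` with the letter `τ`
* is left in the frame `d * τ.rot`,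
* moves the side midpoint by `d * τ.mid`,
* contributes the increment `d * W.w τ`, where `W = (a, bL, bR)` are the three numbers
  `alpha, beta_L, beta_R` of note s6a_208 (N2).

Main results (all proved, Mathlib only):
* `pvt_sum_eq`      : `Σ increments = a * disp + k * (d_in - d_out) + rel * N_R`;
* `pvt_closed_NL`, `pvt_closed_NS`, `pvt_closed_sum` : closed words have `N_L = -i N_R`,
  `N_S = (i-1) N_R`, `Σ = rel * N_R`;
* `pvt_hex_sum`     : the L-shaped hexagon is closed and has `N_R = -d`, so `Σ = - rel * d`;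
* `pvt_rel_eq_zero_iff` : the solutions of `rel = 0` are affine part + coboundary;
* `pvt_sum_approx`, `pvt_sum_approx_of_hex` : quantitative forms;
* `pvt_chain_eval`  : adapters `kappa_out`, `kappa_in` are `-k`, `k` up to the errors of one straight
  and one L-shaped template, hence the chain evaluates to `a * disp` whatever its corners;
* `pvt_covariant`   : covariance under the rotation by 90 degrees gives the frame form;
* step-list form `pvtStepSum`, and the conversion word <-> list of cells.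
-/

set_option autoImplicit false

namespace Claimed.Agent.R289

open Complex

/-! ## 1. Letters -/

/-- The three ways of passing through a square cell: straight, left turn, right turn. -/
inductive PvtTurn
  | S
  | L
  | R
  deriving DecidableEq

namespace PvtTurn

/-- rotation of the frame -/
noncomputable def rot : PvtTurn → ℂ
  | S => 1
  | L => I
  | R => -I

/-- displacement from the midpoint of the entrance side to the midpoint of the exit side -/
noncomputable def mid : PvtTurn → ℂ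
  | S => 1
  | L => (1 + I) / 2
  | R => (1 - I) / 2

/-- indicator of `S` -/
def isS : PvtTurn → ℂ
  | S => 1
  | L => 0
  | R => 0

/-- indicator of `L` -/
def isL : PvtTurn → ℂ
  | S => 0
  | L => 1
  | R => 0

/-- indicator of `R` -/
def isR : PvtTurn → ℂ
  | S => 0
  | L => 0
  | R => 1

end PvtTurn

theorem pvt_norm_rot (τ : PvtTurn) : ‖τ.rot‖ = 1 := by
  cases τ <;> simp [PvtTurn.rot]

theorem pvt_rot_ne_zero (τ : PvtTurn) : τ.rot ≠ 0 := by
  intro h
  have := pvt_norm_rot τ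
  rw [h] at this
  simp at this

theorem pvt_rot_pow_four (τ : PvtTurn) : τ.rot ^ 4 = 1 := by
  cases τ
  · simp [PvtTurn.rot]
  · simp [PvtTurn.rot, Complex.I_pow_four]
  · have : (-I) ^ 4 = I ^ 4 := by ring
    simp [PvtTurn.rot, this, Complex.I_pow_four]

theorem pvt_mid_eq (τ : PvtTurn) : τ.mid = (1 + τ.rot) / 2 := by
  cases τ
  · simp [PvtTurn.mid, PvtTurn.rot]
  · simp [PvtTurn.mid, PvtTurn.rot]
  · simp [PvtTurn.mid, PvtTurn.rot]; ring

theorem pvt_norm_isR_le (τ : PvtTurn) : ‖τ.isR‖ ≤ 1 := by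
  cases τ <;> simp [PvtTurn.isR]

/-! ## 2. Weights -/

/-- The three cell increments in the standard frame: `a` straight, `bL` left, `bR` right. -/
structure PvtW where
  a : ℂ
  bL : ℂ
  bR : ℂ

namespace PvtW

/-- weight of a letter -/
def w (W : PvtW) : PvtTurn → ℂ
  | PvtTurn.S => W.a
  | PvtTurn.L => W.bL
  | PvtTurn.R => W.bR

/-- the coboundary constant -/
noncomputable def k (W : PvtW) : ℂ := ((1 + I) * W.bL - I * W.a) / 2

/-- the one relation: `alpha (i-1) - i beta_L + beta_R` -/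
noncomputable def rel (W : PvtW) : ℂ := W.a * (I - 1) - I * W.bL + W.bR

end PvtW

/-- Pointwise decomposition of the weights: affine part + coboundary + defect on right turns. -/
theorem pvt_w_decomp (W : PvtW) (τ : PvtTurn) :
    W.w τ = W.a * τ.mid + W.k * (1 - τ.rot) + W.rel * τ.isR := by
  cases τ
  · simp [PvtW.w, PvtTurn.mid, PvtTurn.rot, PvtTurn.isR]
  · simp only [PvtW.w, PvtTurn.mid, PvtTurn.rot, PvtTurn.isR, PvtW.k, PvtW.rel]
    linear_combination ((W.bL / 2) - W.a / 2) * Complex.I_sq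
  · simp only [PvtW.w, PvtTurn.mid, PvtTurn.rot, PvtTurn.isR, PvtW.k, PvtW.rel]
    linear_combination (-(W.bL / 2) + W.a / 2) * Complex.I_sq

theorem pvt_w_eq_ind (W : PvtW) (τ : PvtTurn) :
    W.w τ = W.a * τ.isS + W.bL * τ.isL + W.bR * τ.isR := by
  cases τ <;> simp [PvtW.w, PvtTurn.isS, PvtTurn.isL, PvtTurn.isR]

theorem pvt_mid_eq_ind (τ : PvtTurn) :
    τ.mid = τ.isS + (1 + I) / 2 * τ.isL + (1 - I) / 2 * τ.isR := by
  cases τ <;> simp [PvtTurn.mid, PvtTurn.isS, PvtTurn.isL, PvtTurn.isR]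

theorem pvt_one_sub_rot_eq_ind (τ : PvtTurn) :
    1 - τ.rot = (1 - I) * τ.isL + (1 + I) * τ.isR := by
  cases τ <;> simp [PvtTurn.rot, PvtTurn.isL, PvtTurn.isR]

/-- The solutions of the relation are exactly affine part + coboundary. -/
theorem pvt_rel_eq_zero_iff (W : PvtW) :
    W.rel = 0 ↔ ∃ a' k' : ℂ, W.a = a' ∧ W.bL = a' * ((1 + I) / 2) + k' * (1 - I) ∧
      W.bR = a' * ((1 - I) / 2) + k' * (1 + I) := by
  constructor
  · intro h
    refine ⟨W.a, W.k, rfl, ?_, ?_⟩
    · have := pvt_w_decomp W PvtTurn.L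
      simpa [PvtW.w, PvtTurn.mid, PvtTurn.rot, PvtTurn.isR] using this
    · have := pvt_w_decomp W PvtTurn.R
      rw [h] at this
      simpa [PvtW.w, PvtTurn.mid, PvtTurn.rot, PvtTurn.isR] using this
  · rintro ⟨a', k', h1, h2, h3⟩
    simp only [PvtW.rel, h1, h2, h3]
    linear_combination (k' - a' / 2) * Complex.I_sq

/-! ## 3. Additive functionals of words -/

/-- final frame -/
noncomputable def pvtDir (d : ℂ) : List PvtTurn → ℂ
  | [] => d
  | τ :: l => pvtDir (d * τ.rot) l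

/-- the additive functional `Σ_j d_j f(τ_j)`, `d_j` the frame in which cell `j` is entered -/
noncomputable def pvtAcc (f : PvtTurn → ℂ) (d : ℂ) : List PvtTurn → ℂ
  | [] => 0
  | τ :: l => d * f τ + pvtAcc f (d * τ.rot) l

/-- displacement of the side midpoint -/
noncomputable def pvtDisp (d : ℂ) (l : List PvtTurn) : ℂ := pvtAcc PvtTurn.mid d l

/-- sum of the cell increments -/
noncomputable def pvtSum (W : PvtW) (d : ℂ) (l : List PvtTurn) : ℂ := pvtAcc W.w d l

/-- `N_S = Σ_{τ_j = S} d_j` -/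
noncomputable def pvtNS (d : ℂ) (l : List PvtTurn) : ℂ := pvtAcc PvtTurn.isS d l

/-- `N_L = Σ_{τ_j = L} d_j` -/
noncomputable def pvtNL (d : ℂ) (l : List PvtTurn) : ℂ := pvtAcc PvtTurn.isL d l

/-- `N_R = Σ_{τ_j = R} d_j` -/
noncomputable def pvtNR (d : ℂ) (l : List PvtTurn) : ℂ := pvtAcc PvtTurn.isR d l

/-- number of right turns -/
def pvtCntR (l : List PvtTurn) : ℕ := l.count PvtTurn.R

@[simp] theorem pvtDir_nil (d : ℂ) : pvtDir d [] = d := rfl

@[simp] theorem pvtDir_cons (d : ℂ) (τ : PvtTurn) (l : List PvtTurn) :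
    pvtDir d (τ :: l) = pvtDir (d * τ.rot) l := rfl

@[simp] theorem pvtAcc_nil (f : PvtTurn → ℂ) (d : ℂ) : pvtAcc f d [] = 0 := rfl

@[simp] theorem pvtAcc_cons (f : PvtTurn → ℂ) (d : ℂ) (τ : PvtTurn) (l : List PvtTurn) :
    pvtAcc f d (τ :: l) = d * f τ + pvtAcc f (d * τ.rot) l := rfl

theorem pvtDir_append (d : ℂ) (l m : List PvtTurn) :
    pvtDir d (l ++ m) = pvtDir (pvtDir d l) m := by
  induction l generalizing d with
  | nil => rfl
  | cons τ l ih => simp [ih]

theorem pvtAcc_append (f : PvtTurn → ℂ) (d : ℂ) (l m : List PvtTurn) :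
    pvtAcc f d (l ++ m) = pvtAcc f d l + pvtAcc f (pvtDir d l) m := by
  induction l generalizing d with
  | nil => simp
  | cons τ l ih => simp [ih, add_assoc]

theorem pvtDir_mul (c d : ℂ) (l : List PvtTurn) : pvtDir (c * d) l = c * pvtDir d l := by
  induction l generalizing d with
  | nil => rfl
  | cons τ l ih => simp [mul_assoc, ih]

theorem pvtAcc_mul (f : PvtTurn → ℂ) (c d : ℂ) (l : List PvtTurn) :
    pvtAcc f (c * d) l = c * pvtAcc f d l := by
  induction l generalizing d with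
  | nil => simp
  | cons τ l ih => simp [mul_assoc, ih, mul_add]

theorem pvtDir_eq_mul_one (d : ℂ) (l : List PvtTurn) : pvtDir d l = d * pvtDir 1 l := by
  rw [← pvtDir_mul, mul_one]

theorem pvtAcc_eq_mul_one (f : PvtTurn → ℂ) (d : ℂ) (l : List PvtTurn) :
    pvtAcc f d l = d * pvtAcc f 1 l := by
  rw [← pvtAcc_mul, mul_one]

theorem pvt_norm_dir (d : ℂ) (l : List PvtTurn) : ‖pvtDir d l‖ = ‖d‖ := by
  induction l generalizing d with
  | nil => rfl
  | cons τ l ih => simp [ih, pvt_norm_rot]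

theorem pvtDir_pow_four (d : ℂ) (hd : d ^ 4 = 1) (l : List PvtTurn) : pvtDir d l ^ 4 = 1 := by
  induction l generalizing d with
  | nil => simpa using hd
  | cons τ l ih =>
    apply ih
    rw [mul_pow, hd, pvt_rot_pow_four, one_mul]

theorem pvtAcc_congr {f g : PvtTurn → ℂ} (h : ∀ τ, f τ = g τ) (d : ℂ) (l : List PvtTurn) :
    pvtAcc f d l = pvtAcc g d l := by
  have : f = g := funext h
  rw [this]

theorem pvtAcc_add (f g : PvtTurn → ℂ) (d : ℂ) (l : List PvtTurn) :
    pvtAcc (fun τ => f τ + g τ) d l = pvtAcc f d l + pvtAcc g d l := by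
  induction l generalizing d with
  | nil => simp
  | cons τ l ih => simp only [pvtAcc_cons, ih]; ring

theorem pvtAcc_const_mul (c : ℂ) (f : PvtTurn → ℂ) (d : ℂ) (l : List PvtTurn) :
    pvtAcc (fun τ => c * f τ) d l = c * pvtAcc f d l := by
  induction l generalizing d with
  | nil => simp
  | cons τ l ih => simp only [pvtAcc_cons, ih]; ring

/-- The coboundary telescopes. -/
theorem pvtAcc_one_sub_rot (d : ℂ) (l : List PvtTurn) :
    pvtAcc (fun τ => 1 - τ.rot) d l = d - pvtDir d l := by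
  induction l generalizing d with
  | nil => simp
  | cons τ l ih => simp only [pvtAcc_cons, pvtDir_cons, ih]; ring

theorem pvtDir_replicate_S (d : ℂ) (n : ℕ) : pvtDir d (List.replicate n PvtTurn.S) = d := by
  induction n with
  | zero => rfl
  | succ n ih => simpa [List.replicate_succ, PvtTurn.rot] using ih

theorem pvtAcc_replicate_S (f : PvtTurn → ℂ) (d : ℂ) (n : ℕ) :
    pvtAcc f d (List.replicate n PvtTurn.S) = n * (d * f PvtTurn.S) := by
  induction n with
  | zero => simp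
  | succ n ih =>
    simp only [List.replicate_succ, pvtAcc_cons, PvtTurn.rot, mul_one, ih]
    push_cast; ring

/-- crude bound -/
theorem pvt_norm_acc_le (f : PvtTurn → ℂ) (d : ℂ) (l : List PvtTurn) :
    ‖pvtAcc f d l‖ ≤ ‖d‖ * (l.map (fun τ => ‖f τ‖)).sum := by
  induction l generalizing d with
  | nil => simp
  | cons τ l ih =>
    simp only [pvtAcc_cons, List.map_cons, List.sum_cons]
    calc ‖d * f τ + pvtAcc f (d * τ.rot) l‖
        ≤ ‖d * f τ‖ + ‖pvtAcc f (d * τ.rot) l‖ := norm_add_le _ _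
      _ ≤ ‖d‖ * ‖f τ‖ + ‖d * τ.rot‖ * (l.map (fun τ => ‖f τ‖)).sum := by
          gcongr
          · exact (norm_mul _ _).le
          · exact ih _
      _ = ‖d‖ * (‖f τ‖ + (l.map (fun τ => ‖f τ‖)).sum) := by
          rw [norm_mul, pvt_norm_rot]; ring

theorem pvt_norm_NR_le (d : ℂ) (l : List PvtTurn) : ‖pvtNR d l‖ ≤ ‖d‖ * pvtCntR l := by
  induction l generalizing d with
  | nil => simp [pvtNR, pvtCntR]
  | cons τ l ih =>
    have h := ih (d * τ.rot)
    rw [norm_mul, pvt_norm_rot, mul_one] at h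
    cases τ
    · simpa [pvtNR, pvtCntR, PvtTurn.isR] using h
    · simpa [pvtNR, pvtCntR, PvtTurn.isR] using h
    · have h2 : pvtNR d (PvtTurn.R :: l) = d + pvtNR (d * PvtTurn.R.rot) l := by
        simp [pvtNR, PvtTurn.isR]
      have h3 : (pvtCntR (PvtTurn.R :: l) : ℝ) = pvtCntR l + 1 := by
        simp [pvtCntR]
      rw [h2, h3]
      calc ‖d + pvtNR (d * PvtTurn.R.rot) l‖ ≤ ‖d‖ + ‖pvtNR (d * PvtTurn.R.rot) l‖ :=
            norm_add_le _ _
        _ ≤ ‖d‖ + ‖d‖ * pvtCntR l := by gcongr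
        _ = ‖d‖ * (pvtCntR l + 1) := by ring

/-! ## 4. The main identity -/

/-- **N2, main identity.**  The sum of the cell increments along a word is
`a * displacement + k * (d_in - d_out) + rel * N_R`. -/
theorem pvt_sum_eq (W : PvtW) (d : ℂ) (l : List PvtTurn) :
    pvtSum W d l = W.a * pvtDisp d l + W.k * (d - pvtDir d l) + W.rel * pvtNR d l := by
  unfold pvtSum pvtDisp pvtNR
  rw [pvtAcc_congr (pvt_w_decomp W), pvtAcc_add, pvtAcc_add, pvtAcc_const_mul, pvtAcc_const_mul,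
    pvtAcc_const_mul, pvtAcc_one_sub_rot]

theorem pvt_sum_eq_counts (W : PvtW) (d : ℂ) (l : List PvtTurn) :
    pvtSum W d l = W.a * pvtNS d l + W.bL * pvtNL d l + W.bR * pvtNR d l := by
  unfold pvtSum pvtNS pvtNL pvtNR
  rw [pvtAcc_congr (pvt_w_eq_ind W), pvtAcc_add, pvtAcc_add, pvtAcc_const_mul, pvtAcc_const_mul,
    pvtAcc_const_mul]

theorem pvt_disp_eq_counts (d : ℂ) (l : List PvtTurn) :
    pvtDisp d l = pvtNS d l + (1 + I) / 2 * pvtNL d l + (1 - I) / 2 * pvtNR d l := by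
  unfold pvtDisp pvtNS pvtNL pvtNR
  rw [pvtAcc_congr pvt_mid_eq_ind, pvtAcc_add, pvtAcc_add, pvtAcc_const_mul, pvtAcc_const_mul]

theorem pvt_dir_eq_counts (d : ℂ) (l : List PvtTurn) :
    d - pvtDir d l = (1 - I) * pvtNL d l + (1 + I) * pvtNR d l := by
  unfold pvtNL pvtNR
  rw [← pvtAcc_one_sub_rot, pvtAcc_congr pvt_one_sub_rot_eq_ind, pvtAcc_add, pvtAcc_const_mul,
    pvtAcc_const_mul]

/-- A word is closed in the frame `d`: it comes back to its first side in the same frame. -/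
def PvtClosed (d : ℂ) (l : List PvtTurn) : Prop := pvtDisp d l = 0 ∧ pvtDir d l = d

theorem pvt_closed_NL {d : ℂ} {l : List PvtTurn} (h : PvtClosed d l) :
    pvtNL d l = -I * pvtNR d l := by
  have h1 := pvt_dir_eq_counts d l
  rw [h.2, sub_self] at h1
  -- multiply by (1 + I) / 2
  linear_combination (-(1 + I) / 2) * h1 + ((pvtNL d l) / 2 - pvtNR d l / 2) * Complex.I_sq

theorem pvt_closed_NS {d : ℂ} {l : List PvtTurn} (h : PvtClosed d l) :
    pvtNS d l = (I - 1) * pvtNR d l := by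
  have h1 := pvt_disp_eq_counts d l
  rw [h.1, pvt_closed_NL h] at h1
  linear_combination -h1 + ((pvtNR d l) / 2) * Complex.I_sq

/-- Closed loops see only the relation. -/
theorem pvt_closed_sum (W : PvtW) {d : ℂ} {l : List PvtTurn} (h : PvtClosed d l) :
    pvtSum W d l = W.rel * pvtNR d l := by
  rw [pvt_sum_eq, h.1, h.2]; ring

/-! ## 5. Rectangles and the L-shaped hexagon -/

theorem pvt_I3 : I ^ 3 = -I := by
  linear_combination I * Complex.I_sq

theorem pvt_I5 : I ^ 5 = I := by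
  linear_combination I * Complex.I_pow_four

theorem pvt_I6 : I ^ 6 = -1 := by
  linear_combination I ^ 2 * Complex.I_pow_four + Complex.I_sq

/-- `S^n` followed by the letter `τ` and by `m`. -/
def pvtRun (n : ℕ) (τ : PvtTurn) (m : List PvtTurn) : List PvtTurn :=
  List.replicate n PvtTurn.S ++ τ :: m

theorem pvtDir_run (d : ℂ) (n : ℕ) (τ : PvtTurn) (m : List PvtTurn) :
    pvtDir d (pvtRun n τ m) = pvtDir (d * τ.rot) m := by
  simp [pvtRun, pvtDir_append, pvtDir_replicate_S]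

theorem pvtAcc_run (f : PvtTurn → ℂ) (d : ℂ) (n : ℕ) (τ : PvtTurn) (m : List PvtTurn) :
    pvtAcc f d (pvtRun n τ m) = n * (d * f PvtTurn.S) + d * f τ + pvtAcc f (d * τ.rot) m := by
  simp [pvtRun, pvtAcc_append, pvtDir_replicate_S, pvtAcc_replicate_S, add_assoc]

/-- the counterclockwise rectangle `S^p L S^q L S^p L S^q L` -/
def pvtRect (p q : ℕ) : List PvtTurn :=
  pvtRun p PvtTurn.L (pvtRun q PvtTurn.L (pvtRun p PvtTurn.L (pvtRun q PvtTurn.L [])))

/-- the counterclockwise L-shaped hexagon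
`S^(r+t+1) L S^q L S^r R S^s L S^t L S^(q+s+1) L` (five left turns, one right turn) -/
def pvtHex (q r s t : ℕ) : List PvtTurn :=
  pvtRun (r + t + 1) PvtTurn.L (pvtRun q PvtTurn.L (pvtRun r PvtTurn.R (pvtRun s PvtTurn.L
    (pvtRun t PvtTurn.L (pvtRun (q + s + 1) PvtTurn.L [])))))

theorem pvt_rect_closed (d : ℂ) (p q : ℕ) : PvtClosed d (pvtRect p q) := by
  constructor
  · simp only [pvtDisp, pvtRect, pvtAcc_run, pvtAcc_nil, PvtTurn.mid, PvtTurn.rot]
    linear_combination (d * (p + 1 + I * q + I)) * Complex.I_sq + (d / 2) * Complex.I_pow_four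
  · simp only [pvtRect, pvtDir_run, pvtDir_nil, PvtTurn.rot]
    linear_combination (d * (I ^ 2 - 1)) * Complex.I_sq

theorem pvt_rect_NR (d : ℂ) (p q : ℕ) : pvtNR d (pvtRect p q) = 0 := by
  simp [pvtNR, pvtRect, pvtAcc_run, PvtTurn.isR]

theorem pvt_hex_closed (d : ℂ) (q r s t : ℕ) : PvtClosed d (pvtHex q r s t) := by
  constructor
  · simp only [pvtDisp, pvtHex, pvtAcc_run, pvtAcc_nil, PvtTurn.mid, PvtTurn.rot]
    push_cast
    linear_combination (r * d + d) * Complex.I_sq - d * (1 + s) * pvt_I3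
      + (-(t * d) - d) * Complex.I_pow_four - d * (2 + q + s) * pvt_I5 - d / 2 * pvt_I6
  · simp only [pvtHex, pvtDir_run, pvtDir_nil, PvtTurn.rot]
    linear_combination (-d) * pvt_I6

theorem pvt_hex_NR (d : ℂ) (q r s t : ℕ) : pvtNR d (pvtHex q r s t) = -d := by
  simp only [pvtNR, pvtHex, pvtAcc_run, pvtAcc_nil, PvtTurn.isR, PvtTurn.rot]
  linear_combination d * Complex.I_sq

/-- Rectangles carry no information: their sum vanishes identically. -/
theorem pvt_rect_sum (W : PvtW) (d : ℂ) (p q : ℕ) : pvtSum W d (pvtRect p q) = 0 := by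
  rw [pvt_closed_sum W (pvt_rect_closed d p q), pvt_rect_NR, mul_zero]

/-- **The L-shaped hexagon reads off the relation.** -/
theorem pvt_hex_sum (W : PvtW) (d : ℂ) (q r s t : ℕ) :
    pvtSum W d (pvtHex q r s t) = -(W.rel * d) := by
  rw [pvt_closed_sum W (pvt_hex_closed d q r s t), pvt_hex_NR]; ring

theorem pvt_norm_rel_of_hex (W : PvtW) {d : ℂ} (hd : ‖d‖ = 1) (q r s t : ℕ) :
    ‖W.rel‖ = ‖pvtSum W d (pvtHex q r s t)‖ := by
  rw [pvt_hex_sum, norm_neg, norm_mul, hd, mul_one]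

/-! ## 6. Quantitative forms -/

theorem pvt_sum_approx (W : PvtW) (d : ℂ) (l : List PvtTurn) :
    ‖pvtSum W d l - (W.a * pvtDisp d l + W.k * (d - pvtDir d l))‖
      ≤ ‖W.rel‖ * (‖d‖ * pvtCntR l) := by
  have : pvtSum W d l - (W.a * pvtDisp d l + W.k * (d - pvtDir d l)) = W.rel * pvtNR d l := by
    rw [pvt_sum_eq]; ring
  rw [this, norm_mul]
  exact mul_le_mul_of_nonneg_left (pvt_norm_NR_le d l) (norm_nonneg _)

/-- If ONE hexagon has a sum `≤ e`, every word is affine + coboundary up to `e * #R`. -/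
theorem pvt_sum_approx_of_hex (W : PvtW) {d d' : ℂ} (hd : ‖d‖ = 1) (hd' : ‖d'‖ = 1)
    (q r s t : ℕ) {e : ℝ} (he : ‖pvtSum W d' (pvtHex q r s t)‖ ≤ e) (l : List PvtTurn) :
    ‖pvtSum W d l - (W.a * pvtDisp d l + W.k * (d - pvtDir d l))‖ ≤ e * pvtCntR l := by
  refine (pvt_sum_approx W d l).trans ?_
  rw [hd, one_mul, pvt_norm_rel_of_hex W hd' q r s t]
  exact mul_le_mul_of_nonneg_right he (Nat.cast_nonneg _)

/-- total defect of a list of actual increments `x_j` with respect to the frame model -/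
noncomputable def pvtDefect (W : PvtW) (d : ℂ) : List (PvtTurn × ℂ) → ℝ
  | [] => 0
  | p :: l => ‖p.2 - d * W.w p.1‖ + pvtDefect W (d * p.1.rot) l

theorem pvt_defect_nonneg (W : PvtW) (d : ℂ) (l : List (PvtTurn × ℂ)) : 0 ≤ pvtDefect W d l := by
  induction l generalizing d with
  | nil => exact le_refl _
  | cons p l ih => exact add_nonneg (norm_nonneg _) (ih _)

theorem pvt_actual_sub_sum (W : PvtW) (d : ℂ) (l : List (PvtTurn × ℂ)) :
    ‖(l.map Prod.snd).sum - pvtSum W d (l.map Prod.fst)‖ ≤ pvtDefect W d l := by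
  induction l generalizing d with
  | nil => simp [pvtSum, pvtDefect]
  | cons p l ih =>
    have h := ih (d * p.1.rot)
    simp only [List.map_cons, List.sum_cons, pvtSum, pvtAcc_cons, pvtDefect] at h ⊢
    calc ‖p.2 + (l.map Prod.snd).sum - (d * W.w p.1 + pvtAcc W.w (d * p.1.rot) (l.map Prod.fst))‖
        = ‖(p.2 - d * W.w p.1)
            + ((l.map Prod.snd).sum - pvtAcc W.w (d * p.1.rot) (l.map Prod.fst))‖ := by
          congr 1; ring
      _ ≤ ‖p.2 - d * W.w p.1‖
            + ‖(l.map Prod.snd).sum - pvtAcc W.w (d * p.1.rot) (l.map Prod.fst)‖ :=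
          norm_add_le _ _
      _ ≤ _ := by gcongr

/-- uniform defect `η` per cell -/
theorem pvt_defect_le (W : PvtW) (d : ℂ) (l : List (PvtTurn × ℂ)) {η : ℝ}
    (h : pvtDefect W d l ≤ η) (q r s t : ℕ) {d' : ℂ} (hd : ‖d‖ = 1) (hd' : ‖d'‖ = 1) {e : ℝ}
    (he : ‖pvtSum W d' (pvtHex q r s t)‖ ≤ e) :
    ‖(l.map Prod.snd).sum - (W.a * pvtDisp d (l.map Prod.fst)
        + W.k * (d - pvtDir d (l.map Prod.fst)))‖ ≤ η + e * pvtCntR (l.map Prod.fst) := by
  have h1 := pvt_actual_sub_sum W d l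
  have h2 := pvt_sum_approx_of_hex W hd hd' q r s t he (l.map Prod.fst)
  calc _ = ‖((l.map Prod.snd).sum - pvtSum W d (l.map Prod.fst))
            + (pvtSum W d (l.map Prod.fst) - (W.a * pvtDisp d (l.map Prod.fst)
              + W.k * (d - pvtDir d (l.map Prod.fst))))‖ := by congr 1; ring
    _ ≤ _ := norm_add_le _ _
    _ ≤ _ := add_le_add (h1.trans h) h2

/-! ## 7. Adapters -/

/-- value of a chain: adapter out of the first state, cells, adapter into the last state -/
noncomputable def pvtChain (W : PvtW) (κo κi : ℂ) (d : ℂ) (l : List PvtTurn) : ℂ :=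
  κo * d + pvtSum W d l + κi * pvtDir d l

theorem pvt_chain_eq (W : PvtW) (κo κi d : ℂ) (l : List PvtTurn) :
    pvtChain W κo κi d l = W.a * pvtDisp d l + (κo + W.k) * d + (κi - W.k) * pvtDir d l
      + W.rel * pvtNR d l := by
  rw [pvtChain, pvt_sum_eq]; ring

theorem pvt_NR_replicate_S (d : ℂ) (n : ℕ) : pvtNR d (List.replicate n PvtTurn.S) = 0 := by
  simp [pvtNR, pvtAcc_replicate_S, PvtTurn.isR]

theorem pvt_chain_straight (W : PvtW) (κo κi d : ℂ) (n : ℕ) :
    pvtChain W κo κi d (List.replicate n PvtTurn.S)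
      = W.a * pvtDisp d (List.replicate n PvtTurn.S) + (κo + κi) * d := by
  rw [pvt_chain_eq, pvtDir_replicate_S, pvt_NR_replicate_S]; ring

theorem pvt_chain_L (W : PvtW) (κo κi d : ℂ) (n m : ℕ) :
    pvtChain W κo κi d (pvtRun n PvtTurn.L (List.replicate m PvtTurn.S))
      = W.a * pvtDisp d (pvtRun n PvtTurn.L (List.replicate m PvtTurn.S))
        + ((κo + W.k) + (κi - W.k) * I) * d := by
  have h1 : pvtNR d (pvtRun n PvtTurn.L (List.replicate m PvtTurn.S)) = 0 := by
    simp [pvtNR, pvtAcc_run, pvtAcc_replicate_S, PvtTurn.isR]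
  rw [pvt_chain_eq, pvtDir_run, pvtDir_replicate_S, h1]
  simp only [PvtTurn.rot]; ring

theorem pvt_norm_one_add_I_le : ‖(1 + I) / 2‖ ≤ 1 := by
  rw [norm_div]
  have h : ‖(1 : ℂ) + I‖ ≤ 2 := by
    calc ‖(1 : ℂ) + I‖ ≤ ‖(1 : ℂ)‖ + ‖I‖ := norm_add_le _ _
      _ = 2 := by simp; norm_num
  have h2 : ‖(2 : ℂ)‖ = 2 := by simp
  rw [h2]; linarith

/-- One straight template and one L-shaped template pin the adapters:
`κ_in = k + O(e1 + e2)`, `κ_out = -k + O(2 e1 + e2)`. -/
theorem pvt_adapters (W : PvtW) (κo κi : ℂ) {d d' : ℂ} (hd : ‖d‖ = 1) (hd' : ‖d'‖ = 1)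
    (n n' m' : ℕ) {e1 e2 : ℝ}
    (h1 : ‖pvtChain W κo κi d (List.replicate n PvtTurn.S)
        - W.a * pvtDisp d (List.replicate n PvtTurn.S)‖ ≤ e1)
    (h2 : ‖pvtChain W κo κi d' (pvtRun n' PvtTurn.L (List.replicate m' PvtTurn.S))
        - W.a * pvtDisp d' (pvtRun n' PvtTurn.L (List.replicate m' PvtTurn.S))‖ ≤ e2) :
    ‖κi - W.k‖ ≤ e1 + e2 ∧ ‖κo + W.k‖ ≤ 2 * e1 + e2 := by
  rw [pvt_chain_straight, add_sub_cancel_left, norm_mul, hd, mul_one] at h1
  rw [pvt_chain_L, add_sub_cancel_left, norm_mul, hd', mul_one] at h2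
  have hB : ‖κi - W.k‖ ≤ e1 + e2 := by
    have : κi - W.k = ((κo + κi) - ((κo + W.k) + (κi - W.k) * I)) * ((1 + I) / 2) := by
      linear_combination ((κi - W.k) / 2) * Complex.I_sq
    rw [this, norm_mul]
    calc _ ≤ ‖(κo + κi) - ((κo + W.k) + (κi - W.k) * I)‖ * 1 :=
          mul_le_mul_of_nonneg_left pvt_norm_one_add_I_le (norm_nonneg _)
      _ = ‖(κo + κi) - ((κo + W.k) + (κi - W.k) * I)‖ := mul_one _
      _ ≤ ‖κo + κi‖ + ‖(κo + W.k) + (κi - W.k) * I‖ := norm_sub_le _ _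
      _ ≤ e1 + e2 := add_le_add h1 h2
  refine ⟨hB, ?_⟩
  have : κo + W.k = (κo + κi) - (κi - W.k) := by ring
  rw [this]
  calc _ ≤ ‖κo + κi‖ + ‖κi - W.k‖ := norm_sub_le _ _
    _ ≤ e1 + (e1 + e2) := add_le_add h1 hB
    _ = 2 * e1 + e2 := by ring

/-- **Evaluation of a chain.**  Whatever its corners, a chain evaluates to `a * displacement`, up to
the errors of one straight template, one L-shaped template and one hexagon per right turn. -/
theorem pvt_chain_eval (W : PvtW) (κo κi : ℂ) {d d' d'' d₀ : ℂ} (hd : ‖d‖ = 1) (hd' : ‖d'‖ = 1)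
    (hd'' : ‖d''‖ = 1) (hd₀ : ‖d₀‖ = 1) (n n' m' q r s t : ℕ) {e1 e2 e : ℝ}
    (h1 : ‖pvtChain W κo κi d (List.replicate n PvtTurn.S)
        - W.a * pvtDisp d (List.replicate n PvtTurn.S)‖ ≤ e1)
    (h2 : ‖pvtChain W κo κi d' (pvtRun n' PvtTurn.L (List.replicate m' PvtTurn.S))
        - W.a * pvtDisp d' (pvtRun n' PvtTurn.L (List.replicate m' PvtTurn.S))‖ ≤ e2)
    (he : ‖pvtSum W d'' (pvtHex q r s t)‖ ≤ e) (l : List PvtTurn) :
    ‖pvtChain W κo κi d₀ l - W.a * pvtDisp d₀ l‖ ≤ 3 * e1 + 2 * e2 + e * pvtCntR l := by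
  obtain ⟨hB, hA⟩ := pvt_adapters W κo κi hd hd' n n' m' h1 h2
  have h3 : ‖W.rel * pvtNR d₀ l‖ ≤ e * pvtCntR l := by
    rw [norm_mul, pvt_norm_rel_of_hex W hd'' q r s t]
    have h4 := pvt_norm_NR_le d₀ l
    rw [hd₀, one_mul] at h4
    exact mul_le_mul he h4 (norm_nonneg _) ((norm_nonneg _).trans he)
  have : pvtChain W κo κi d₀ l - W.a * pvtDisp d₀ l
      = (κo + W.k) * d₀ + (κi - W.k) * pvtDir d₀ l + W.rel * pvtNR d₀ l := by
    rw [pvt_chain_eq]; ring
  rw [this]
  calc _ ≤ ‖(κo + W.k) * d₀ + (κi - W.k) * pvtDir d₀ l‖ + ‖W.rel * pvtNR d₀ l‖ := norm_add_le _ _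
    _ ≤ (‖(κo + W.k) * d₀‖ + ‖(κi - W.k) * pvtDir d₀ l‖) + ‖W.rel * pvtNR d₀ l‖ := by
        gcongr; exact norm_add_le _ _
    _ = (‖κo + W.k‖ + ‖κi - W.k‖) + ‖W.rel * pvtNR d₀ l‖ := by
        rw [norm_mul, norm_mul, pvt_norm_dir, hd₀, mul_one, mul_one]
    _ ≤ ((2 * e1 + e2) + (e1 + e2)) + e * pvtCntR l := by gcongr
    _ = _ := by ring

/-! ## 8. Covariance under the rotation by 90 degrees -/

theorem pvt_fourth_root {d : ℂ} (hd : d ^ 4 = 1) : d = 1 ∨ d = I ∨ d = -1 ∨ d = -I := by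
  have h : (d - 1) * ((d - I) * ((d + 1) * (d + I))) = 0 := by
    linear_combination hd + (1 - d ^ 2) * Complex.I_sq
  rcases mul_eq_zero.1 h with h | h
  · left; linear_combination h
  rcases mul_eq_zero.1 h with h | h
  · right; left; linear_combination h
  rcases mul_eq_zero.1 h with h | h
  · right; right; left; linear_combination h
  · right; right; right; linear_combination h

/-- A function of (entrance frame, exit frame) which commutes with the rotation by 90 degrees is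
given by its values in the standard frame. -/
theorem pvt_covariant (f : ℂ → ℂ → ℂ) (hf : ∀ d d', f (I * d) (I * d') = I * f d d') {d : ℂ}
    (hd : d ^ 4 = 1) (r : ℂ) : f d (d * r) = d * f 1 r := by
  have h1 : f I (I * r) = I * f 1 r := by simpa using hf 1 r
  have h2 : f (-1) (-1 * r) = -1 * f 1 r := by
    have := hf I (I * r)
    rw [h1, ← mul_assoc, ← mul_assoc, Complex.I_mul_I] at this
    exact this
  have h3 : f (-I) (-I * r) = -I * f 1 r := by
    have := hf (-1) (-1 * r)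
    rw [h2] at this
    have e1 : I * (-1 : ℂ) = -I := by ring
    have e2 : I * (-1 * r) = -I * r := by ring
    have e3 : I * (-1 * f 1 r) = -I * f 1 r := by ring
    rw [e1, e2, e3] at this
    exact this
  rcases pvt_fourth_root hd with h | h | h | h
  · subst h; simp
  · subst h; exact h1
  · subst h; exact h2
  · subst h; exact h3

/-- the weights of a covariant function -/
noncomputable def pvtWOf (f : ℂ → ℂ → ℂ) : PvtW := ⟨f 1 1, f 1 I, f 1 (-I)⟩

theorem pvt_covariant_w (f : ℂ → ℂ → ℂ) (hf : ∀ d d', f (I * d) (I * d') = I * f d d') {d : ℂ}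
    (hd : d ^ 4 = 1) (τ : PvtTurn) : f d (d * τ.rot) = d * (pvtWOf f).w τ := by
  rw [pvt_covariant f hf hd]
  cases τ <;> rfl

/-! ## 9. Lists of frames -/

/-- the list of the frames `d_0, ..., d_n` of a word of length `n` -/
noncomputable def pvtFrames (d : ℂ) : List PvtTurn → List ℂ
  | [] => [d]
  | τ :: l => d :: pvtFrames (d * τ.rot) l

/-- `Σ_j f(d_j, d_{j+1})` along a list of frames -/
noncomputable def pvtStepSum (f : ℂ → ℂ → ℂ) : List ℂ → ℂ
  | [] => 0
  | [_] => 0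
  | d :: d' :: t => f d d' + pvtStepSum f (d' :: t)

theorem pvtFrames_length (d : ℂ) (l : List PvtTurn) : (pvtFrames d l).length = l.length + 1 := by
  induction l generalizing d with
  | nil => rfl
  | cons τ l ih => simp [pvtFrames, ih]

theorem pvtFrames_eq_cons (d : ℂ) (l : List PvtTurn) : ∃ t, pvtFrames d l = d :: t := by
  cases l with
  | nil => exact ⟨[], rfl⟩
  | cons τ l => exact ⟨_, rfl⟩

theorem pvt_stepSum_frames (f : ℂ → ℂ → ℂ) (hf : ∀ d d', f (I * d) (I * d') = I * f d d') {d : ℂ}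
    (hd : d ^ 4 = 1) (l : List PvtTurn) :
    pvtStepSum f (pvtFrames d l) = pvtSum (pvtWOf f) d l := by
  induction l generalizing d with
  | nil => rfl
  | cons τ l ih =>
    have hd' : (d * τ.rot) ^ 4 = 1 := by rw [mul_pow, hd, pvt_rot_pow_four, one_mul]
    obtain ⟨t, ht⟩ := pvtFrames_eq_cons (d * τ.rot) l
    have h := ih hd'
    rw [ht] at h
    simp only [pvtFrames, ht, pvtStepSum, h, pvtSum, pvtAcc_cons, pvt_covariant_w f hf hd]

/-- The explicit form of the solution as a function of two consecutive frames. -/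
theorem pvt_step_form (W : PvtW) (d : ℂ) (τ : PvtTurn) :
    d * W.w τ = W.a * ((d + d * τ.rot) / 2) + W.k * (d - d * τ.rot) + W.rel * (d * τ.isR) := by
  rw [pvt_w_decomp, pvt_mid_eq]; ring

/-! ## 10. Centres of cells; paths of `ℤ × ℤ` -/

/-- the centres of the cells of a word, and of the next cell: `n + 1` points for `n` letters;
`z` is the centre of the first cell, `d` the frame in which it is entered -/
noncomputable def pvtCentres (z d : ℂ) : List PvtTurn → List ℂ
  | [] => [z]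
  | τ :: l => z :: pvtCentres (z + d * τ.rot) (d * τ.rot) l

/-- the centre of the cell which follows the word -/
noncomputable def pvtEnd (z d : ℂ) (l : List PvtTurn) : ℂ := z + pvtAcc PvtTurn.rot d l

theorem pvtCentres_length (z d : ℂ) (l : List PvtTurn) :
    (pvtCentres z d l).length = l.length + 1 := by
  induction l generalizing z d with
  | nil => rfl
  | cons τ l ih => simp [pvtCentres, ih]

theorem pvtCentres_ne_nil (z d : ℂ) (l : List PvtTurn) : pvtCentres z d l ≠ [] := by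
  cases l <;> simp [pvtCentres]

theorem pvtCentres_getLast (z d : ℂ) (l : List PvtTurn) :
    (pvtCentres z d l).getLast (pvtCentres_ne_nil z d l) = pvtEnd z d l := by
  induction l generalizing z d with
  | nil => simp [pvtCentres, pvtEnd]
  | cons τ l ih =>
    have := ih (z + d * τ.rot) (d * τ.rot)
    simp only [pvtCentres]
    rw [List.getLast_cons (pvtCentres_ne_nil _ _ _), this]
    simp [pvtEnd, add_assoc]

/-- side midpoints versus centres -/
theorem pvt_disp_eq_end (z d : ℂ) (l : List PvtTurn) :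
    pvtDisp d l = (pvtEnd z d l - pvtDir d l / 2) - (z - d / 2) := by
  have h : ∀ τ : PvtTurn, τ.mid = τ.rot + 1 / 2 * (1 - τ.rot) := by
    intro τ; rw [pvt_mid_eq]; ring
  unfold pvtDisp pvtEnd
  rw [pvtAcc_congr h, pvtAcc_add, pvtAcc_const_mul, pvtAcc_one_sub_rot]; ring

/-- main identity, from centre to centre -/
theorem pvt_sum_eq_centres (W : PvtW) (z d : ℂ) (l : List PvtTurn) :
    pvtSum W d l = W.a * (pvtEnd z d l - z) + (W.k + W.a / 2) * (d - pvtDir d l)
      + W.rel * pvtNR d l := by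
  rw [pvt_sum_eq, pvt_disp_eq_end z]; ring

/-- two cells which share a side (same body as `pvtG4.Adj` of `Tr/Poly`) -/
def PvtAdj4 (u v : ℤ × ℤ) : Prop :=
  (v.1 = u.1 ∧ (v.2 = u.2 + 1 ∨ v.2 = u.2 - 1)) ∨ (v.2 = u.2 ∧ (v.1 = u.1 + 1 ∨ v.1 = u.1 - 1))

/-- the Gaussian integer of a cell -/
noncomputable def pvtZ (c : ℤ × ℤ) : ℂ := (c.1 : ℂ) + (c.2 : ℂ) * I

theorem pvt_step_pow_four {u v : ℤ × ℤ} (h : PvtAdj4 u v) : (pvtZ v - pvtZ u) ^ 4 = 1 := by
  obtain ⟨u1, u2⟩ := u
  obtain ⟨v1, v2⟩ := v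
  simp only [PvtAdj4] at h
  rcases h with ⟨h1, h2 | h2⟩ | ⟨h1, h2 | h2⟩
  · have : pvtZ (v1, v2) - pvtZ (u1, u2) = I := by simp [pvtZ, h1, h2]; ring
    rw [this, Complex.I_pow_four]
  · have : pvtZ (v1, v2) - pvtZ (u1, u2) = -I := by simp [pvtZ, h1, h2]; ring
    rw [this]; linear_combination Complex.I_pow_four
  · have : pvtZ (v1, v2) - pvtZ (u1, u2) = 1 := by simp [pvtZ, h1, h2]
    rw [this, one_pow]
  · have : pvtZ (v1, v2) - pvtZ (u1, u2) = -1 := by simp [pvtZ, h1, h2]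
    rw [this]; norm_num

/-- two consecutive steps without backtracking differ by a letter -/
theorem pvt_turn_exists {u v w : ℤ × ℤ} (h1 : PvtAdj4 u v) (h2 : PvtAdj4 v w) (h : w ≠ u) :
    ∃ τ : PvtTurn, pvtZ w - pvtZ v = (pvtZ v - pvtZ u) * τ.rot := by
  obtain ⟨u1, u2⟩ := u
  obtain ⟨v1, v2⟩ := v
  obtain ⟨w1, w2⟩ := w
  simp only [PvtAdj4] at h1 h2
  rcases h1 with ⟨a1, a2 | a2⟩ | ⟨a1, a2 | a2⟩ <;> rcases h2 with ⟨b1, b2 | b2⟩ | ⟨b1, b2 | b2⟩ <;>
    subst a1 a2 b1 b2 <;>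
    first
    | (refine ⟨PvtTurn.S, ?_⟩; simp only [pvtZ, PvtTurn.rot]; push_cast; ring1)
    | (refine ⟨PvtTurn.L, ?_⟩; simp only [pvtZ, PvtTurn.rot]; push_cast
       linear_combination (1 : ℂ) * Complex.I_sq)
    | (refine ⟨PvtTurn.L, ?_⟩; simp only [pvtZ, PvtTurn.rot]; push_cast
       linear_combination (-1 : ℂ) * Complex.I_sq)
    | (refine ⟨PvtTurn.L, ?_⟩; simp only [pvtZ, PvtTurn.rot]; push_cast; ring1)
    | (refine ⟨PvtTurn.R, ?_⟩; simp only [pvtZ, PvtTurn.rot]; push_cast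
       linear_combination (1 : ℂ) * Complex.I_sq)
    | (refine ⟨PvtTurn.R, ?_⟩; simp only [pvtZ, PvtTurn.rot]; push_cast
       linear_combination (-1 : ℂ) * Complex.I_sq)
    | (refine ⟨PvtTurn.R, ?_⟩; simp only [pvtZ, PvtTurn.rot]; push_cast; ring1)
    | (exfalso; apply h; ext <;> simp)

/-- no backtracking -/
def PvtNB : List (ℤ × ℤ) → Prop
  | [] => True
  | [_] => True
  | [_, _] => True
  | c0 :: c1 :: c2 :: t => c2 ≠ c0 ∧ PvtNB (c1 :: c2 :: t)

theorem pvt_nb_of_nodup : ∀ p : List (ℤ × ℤ), p.Nodup → PvtNB p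
  | [], _ => trivial
  | [_], _ => trivial
  | [_, _], _ => trivial
  | c0 :: c1 :: c2 :: t, h => by
    refine ⟨?_, pvt_nb_of_nodup (c1 :: c2 :: t) (List.nodup_cons.1 h).2⟩
    intro e
    simp [e] at h

/-- consecutive differences -/
noncomputable def pvtDiffs : List ℂ → List ℂ
  | [] => []
  | [_] => []
  | z :: z' :: t => (z' - z) :: pvtDiffs (z' :: t)

/-- the sum of a function of (entrance step, exit step) over the inner cells of a path -/
noncomputable def pvtPathSum (f : ℂ → ℂ → ℂ) (p : List (ℤ × ℤ)) : ℂ :=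
  pvtStepSum f (pvtDiffs (p.map pvtZ))

theorem pvtFrames_ne_nil (d : ℂ) (l : List PvtTurn) : pvtFrames d l ≠ [] := by
  cases l <;> simp [pvtFrames]

theorem pvtFrames_getLast (d : ℂ) (l : List PvtTurn) :
    (pvtFrames d l).getLast (pvtFrames_ne_nil d l) = pvtDir d l := by
  induction l generalizing d with
  | nil => simp [pvtFrames]
  | cons τ l ih =>
    simp only [pvtFrames]
    rw [List.getLast_cons (pvtFrames_ne_nil _ _), ih]
    rfl

/-- **Every rectilinear path of cells without backtracking is a word.**  The word has one letter for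
each cell except the first and the last one. -/
theorem pvt_word_of_path (c0 c1 : ℤ × ℤ) (t : List (ℤ × ℤ))
    (hc : List.IsChain PvtAdj4 (c0 :: c1 :: t)) (hn : PvtNB (c0 :: c1 :: t)) :
    ∃ l : List PvtTurn, l.length = t.length ∧
      pvtCentres (pvtZ c1) (pvtZ c1 - pvtZ c0) l = (c1 :: t).map pvtZ ∧
      pvtFrames (pvtZ c1 - pvtZ c0) l = pvtDiffs ((c0 :: c1 :: t).map pvtZ) := by
  induction t generalizing c0 c1 with
  | nil => exact ⟨[], rfl, rfl, rfl⟩
  | cons c2 t ih =>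
    have h01 : PvtAdj4 c0 c1 := by
      simp only [List.isChain_cons_cons] at hc; exact hc.1
    have h12 : PvtAdj4 c1 c2 := by
      simp only [List.isChain_cons_cons] at hc; exact hc.2.1
    have hne : c2 ≠ c0 := hn.1
    obtain ⟨τ, hτ⟩ := pvt_turn_exists h01 h12 hne
    have hc' : List.IsChain PvtAdj4 (c1 :: c2 :: t) := by
      rw [List.isChain_cons_cons] at hc; exact hc.2
    have hn' : PvtNB (c1 :: c2 :: t) := hn.2
    obtain ⟨l, hl, hl2, hl3⟩ := ih c1 c2 hc' hn'
    refine ⟨τ :: l, by simp [hl], ?_, ?_⟩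
    · have e : pvtZ c1 + (pvtZ c1 - pvtZ c0) * τ.rot = pvtZ c2 := by rw [← hτ]; ring
      show pvtZ c1 :: pvtCentres (pvtZ c1 + (pvtZ c1 - pvtZ c0) * τ.rot)
        ((pvtZ c1 - pvtZ c0) * τ.rot) l = _
      rw [e, ← hτ, hl2]
      rfl
    · show (pvtZ c1 - pvtZ c0) :: pvtFrames ((pvtZ c1 - pvtZ c0) * τ.rot) l = _
      rw [← hτ, hl3]
      rfl

/-- **N2 for paths of cells.**  `f` = mean increment of a cell as a function of (entrance step, exit
step), covariant under the rotation by 90 degrees.  Along every path without backtracking the sum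
over the inner cells is affine + coboundary + `rel * N_R`, `|N_R| ≤` number of inner cells. -/
theorem pvt_path_sum (f : ℂ → ℂ → ℂ) (hf : ∀ d d', f (I * d) (I * d') = I * f d d')
    (c0 c1 : ℤ × ℤ) (t : List (ℤ × ℤ))
    (hc : List.IsChain PvtAdj4 (c0 :: c1 :: t)) (hn : PvtNB (c0 :: c1 :: t)) :
    ∃ (N dout : ℂ), ‖N‖ ≤ t.length ∧
      dout = (pvtDiffs ((c0 :: c1 :: t).map pvtZ)).getLast (by simp [pvtDiffs]) ∧
      pvtPathSum f (c0 :: c1 :: t)
        = (pvtWOf f).a * (pvtZ ((c1 :: t).getLast (by simp)) - pvtZ c1)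
          + ((pvtWOf f).k + (pvtWOf f).a / 2) * ((pvtZ c1 - pvtZ c0) - dout)
          + (pvtWOf f).rel * N := by
  obtain ⟨l, hl, hl2, hl3⟩ := pvt_word_of_path c0 c1 t hc hn
  have h01 : PvtAdj4 c0 c1 := by
    simp only [List.isChain_cons_cons] at hc; exact hc.1
  have hd := pvt_step_pow_four h01
  have hd1 : ‖pvtZ c1 - pvtZ c0‖ = 1 := by
    have : ‖pvtZ c1 - pvtZ c0‖ ^ 4 = 1 := by rw [← norm_pow, hd, norm_one]
    exact (pow_eq_one_iff_of_nonneg (norm_nonneg _) (by norm_num)).1 this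
  refine ⟨pvtNR (pvtZ c1 - pvtZ c0) l, pvtDir (pvtZ c1 - pvtZ c0) l, ?_, ?_, ?_⟩
  · refine (pvt_norm_NR_le _ l).trans ?_
    rw [hd1, one_mul, ← hl]
    exact_mod_cast List.count_le_length
  · rw [← pvtFrames_getLast]
    simp only [hl3]
  · have e1 : pvtEnd (pvtZ c1) (pvtZ c1 - pvtZ c0) l = pvtZ ((c1 :: t).getLast (by simp)) := by
      rw [← pvtCentres_getLast]
      simp only [hl2]
      rw [List.getLast_map]
    rw [pvtPathSum, ← hl3, pvt_stepSum_frames f hf hd, pvt_sum_eq_centres _ (pvtZ c1), e1]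

/-! ## 11. TR25 (cell constants), TR27 (hexagon), TR28 (`V`), in abstract form -/

/-- the formula of 125 for the coboundary constant -/
theorem pvt_k_eq (W : PvtW) : W.k = (W.bL - W.a * (1 + I) / 2) / (1 - I) := by
  have h : (1 - I) ≠ 0 := by
    intro h
    have := congrArg Complex.re h
    simp at this
  rw [eq_div_iff h, PvtW.k]
  linear_combination (-(W.bL / 2) + W.a / 2) * Complex.I_sq

/-- **TR25, rigid form.**  `k z d τ` = mean of the connector of shape `τ` placed at the door `z` in the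
frame `d`.  If the placement is covariant under the rigid motions `w ↦ u w + a`, `u` in a set `U` of
frames which contains `d`, the mean is `d` times a constant. -/
theorem pvt_cell_const_rigid (k : ℂ → ℂ → PvtTurn → ℂ) (U : Set ℂ)
    (hk : ∀ u ∈ U, ∀ a z d τ, k (u * z + a) (u * d) τ = u * k z d τ) {d : ℂ} (hd : d ∈ U)
    (z : ℂ) (τ : PvtTurn) :
    k z d τ = d * (PvtW.mk (k 0 1 PvtTurn.S) (k 0 1 PvtTurn.L) (k 0 1 PvtTurn.R)).w τ := by
  have h := hk d hd z 0 1 τ
  rw [mul_zero, zero_add, mul_one] at h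
  rw [h]
  cases τ <;> rfl

/-- a door of the grid of mesh `δ`: midpoint `z` of a side, crossed in the direction `d` -/
def PvtDoor (δ : ℂ) (z d : ℂ) : Prop := d ^ 4 = 1 ∧ ∃ v : ℤ × ℤ, z = δ * (I * d / 2) + δ * pvtZ v

/-- **TR25, grid form.**  Only the translations of the grid and the rotation by `i` are used. -/
theorem pvt_cell_const_grid (δ : ℂ) (k : ℂ → ℂ → PvtTurn → ℂ)
    (htr : ∀ (v : ℤ × ℤ) z d τ, k (z + δ * pvtZ v) d τ = k z d τ)
    (hrot : ∀ z d τ, k (I * z) (I * d) τ = I * k z d τ) {z d : ℂ} (h : PvtDoor δ z d)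
    (τ : PvtTurn) :
    k z d τ = d * (PvtW.mk (k (δ * (I / 2)) 1 PvtTurn.S) (k (δ * (I / 2)) 1 PvtTurn.L)
      (k (δ * (I / 2)) 1 PvtTurn.R)).w τ := by
  obtain ⟨hd, v, rfl⟩ := h
  rw [htr]
  have key : k (δ * (I * d / 2)) d τ = d * k (δ * (I / 2)) 1 τ := by
    have hf := pvt_covariant (fun x _ => k (δ * (I * x / 2)) x τ) (by
      intro x _
      have := hrot (δ * (I * x / 2)) x τ
      have e : I * (δ * (I * x / 2)) = δ * (I * (I * x) / 2) := by ring
      rw [e] at this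
      exact this) hd 1
    simpa using hf
  rw [key]
  cases τ <;> rfl

/-- the exit door of a cell -/
theorem pvt_door_next {δ z d : ℂ} (h : PvtDoor δ z d) (τ : PvtTurn) :
    PvtDoor δ (z + δ * (d * τ.mid)) (d * τ.rot) := by
  obtain ⟨hd, v, rfl⟩ := h
  refine ⟨by rw [mul_pow, hd, pvt_rot_pow_four, one_mul], ?_⟩
  rcases pvt_fourth_root hd with h | h | h | h <;> subst h <;> cases τ
  · exact ⟨(v.1 + 1, v.2), by simp only [pvtZ, PvtTurn.mid, PvtTurn.rot]; push_cast; ring⟩
  · exact ⟨(v.1 + 1, v.2 + 1), by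
      simp only [pvtZ, PvtTurn.mid, PvtTurn.rot]; push_cast
      linear_combination (-δ / 2) * Complex.I_sq⟩
  · exact ⟨(v.1, v.2), by
      simp only [pvtZ, PvtTurn.mid, PvtTurn.rot]
      linear_combination (δ / 2) * Complex.I_sq⟩
  · exact ⟨(v.1, v.2 + 1), by simp only [pvtZ, PvtTurn.mid, PvtTurn.rot]; push_cast; ring⟩
  · exact ⟨(v.1 - 1, v.2 + 1), by
      simp only [pvtZ, PvtTurn.mid, PvtTurn.rot]; push_cast
      linear_combination (-δ * I / 2 + δ) * Complex.I_sq⟩
  · exact ⟨(v.1, v.2), by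
      simp only [pvtZ, PvtTurn.mid, PvtTurn.rot]
      linear_combination (δ * I / 2) * Complex.I_sq⟩
  · exact ⟨(v.1 - 1, v.2), by simp only [pvtZ, PvtTurn.mid, PvtTurn.rot]; push_cast; ring⟩
  · exact ⟨(v.1 - 1, v.2 - 1), by
      simp only [pvtZ, PvtTurn.mid, PvtTurn.rot]; push_cast
      linear_combination (δ / 2) * Complex.I_sq⟩
  · exact ⟨(v.1, v.2), by
      simp only [pvtZ, PvtTurn.mid, PvtTurn.rot]
      linear_combination (-δ / 2) * Complex.I_sq⟩
  · exact ⟨(v.1, v.2 - 1), by simp only [pvtZ, PvtTurn.mid, PvtTurn.rot]; push_cast; ring⟩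
  · exact ⟨(v.1 + 1, v.2 - 1), by
      simp only [pvtZ, PvtTurn.mid, PvtTurn.rot]; push_cast
      linear_combination (δ * I / 2 - δ) * Complex.I_sq⟩
  · exact ⟨(v.1, v.2), by
      simp only [pvtZ, PvtTurn.mid, PvtTurn.rot]
      linear_combination (-δ * I / 2) * Complex.I_sq⟩

/-- **TR27.** -/
theorem pvt_rel_le_sqrt (W : PvtW) {d : ℂ} (hd : ‖d‖ = 1) (q r s t : ℕ) {B : ℝ}
    (h : ‖pvtSum W d (pvtHex q r s t)‖ ^ 2 ≤ B) : ‖W.rel‖ ≤ Real.sqrt B := by
  rw [pvt_norm_rel_of_hex W hd q r s t]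
  exact Real.le_sqrt_of_sq_le h

/-- **TR28, quantitative.** -/
theorem pvt_alpha_close {α β c : ℂ} {C : ℝ} {n : ℕ} (hn : 0 < n)
    (h : ‖c + n * α - n * β‖ ≤ C) : ‖α - β‖ ≤ (C + ‖c‖) / n := by
  have hn' : (0 : ℝ) < n := by exact_mod_cast hn
  rw [le_div_iff₀ hn']
  have e : (n : ℂ) * (α - β) = (c + n * α - n * β) - c := by ring
  calc ‖α - β‖ * n = ‖(n : ℂ) * (α - β)‖ := by
        rw [norm_mul, Complex.norm_natCast]; ring
    _ = ‖(c + n * α - n * β) - c‖ := by rw [e]
    _ ≤ ‖c + n * α - n * β‖ + ‖c‖ := norm_sub_le _ _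
    _ ≤ C + ‖c‖ := by gcongr

/-- **TR28.**  `|c + n α - n β| ≤ C` for all `n` forces `α = β`. -/
theorem pvt_alpha_eq {α β c : ℂ} {C : ℝ} (h : ∀ n : ℕ, ‖c + n * α - n * β‖ ≤ C) : α = β := by
  by_contra hne
  have hpos : 0 < ‖α - β‖ := norm_pos_iff.2 (sub_ne_zero.2 hne)
  obtain ⟨n, hn⟩ := exists_nat_gt ((C + ‖c‖) / ‖α - β‖)
  have hC : 0 ≤ C + ‖c‖ := add_nonneg ((norm_nonneg _).trans (h 0)) (norm_nonneg _)
  have hn0 : 0 < n := by
    have : (0 : ℝ) < n := lt_of_le_of_lt (div_nonneg hC hpos.le) hn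
    exact_mod_cast this
  have h1 := pvt_alpha_close hn0 (h n)
  have hn' : (0 : ℝ) < n := by exact_mod_cast hn0
  rw [le_div_iff₀ hn'] at h1
  rw [div_lt_iff₀ hpos] at hn
  nlinarith

/-! ## 12. TR29, TR30: the normal form, pointwise algebra -/

/-- data of a pin as seen by the algebra: centre, ports, frames at the ports -/
structure PvtPin where
  z : ℂ
  pin : ℂ
  pout : ℂ
  din : ℂ
  dout : ℂ

/-- the defect of the single pin cycle (`Sigma_2`, TR29) -/
def pvtSig2 (a k : ℂ) (s : PvtPin) (kout kin : ℂ) : ℂ :=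
  kout + kin + a * (s.pin - s.pout) + k * (s.dout - s.din)

/-- the potential `Phi` of TR30 -/
def pvtPhi (a k : ℂ) (s : PvtPin) (kout : ℂ) : ℂ := kout - a * (s.pout - s.z) + k * s.dout

/-- **TR30, the identity.**  `X` = mass of the actual arc `s → t`; the closing chain runs from the exit
port of `t` to the entrance port of `s`; `cells = a disp + k (d_first - d_last) + err`. -/
theorem pvt_real_arc_id (a k : ℂ) (s t : PvtPin) (X koutS kinS koutT cells err : ℂ)
    (hc : cells = a * (s.pin - t.pout) + k * (t.dout - s.din) + err) :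
    X - (a * (t.z - s.z) + pvtPhi a k s koutS - pvtPhi a k t koutT)
      = (X + (koutT + cells + kinS)) - pvtSig2 a k s koutS kinS - err := by
  rw [hc, pvtPhi, pvtPhi, pvtSig2]; ring

theorem pvt_real_arc_norm (a k : ℂ) (s t : PvtPin) (X koutS kinS koutT cells err : ℂ)
    (hc : cells = a * (s.pin - t.pout) + k * (t.dout - s.din) + err) :
    ‖X - (a * (t.z - s.z) + pvtPhi a k s koutS - pvtPhi a k t koutT)‖
      ≤ ‖X + (koutT + cells + kinS)‖ + ‖pvtSig2 a k s koutS kinS‖ + ‖err‖ := by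
  rw [pvt_real_arc_id a k s t X koutS kinS koutT cells err hc]
  calc _ ≤ ‖(X + (koutT + cells + kinS)) - pvtSig2 a k s koutS kinS‖ + ‖err‖ := norm_sub_le _ _
    _ ≤ _ := by gcongr; exact norm_sub_le _ _

theorem pvt_real_arc_sq (a k : ℂ) (s t : PvtPin) (X koutS kinS koutT cells err : ℂ)
    (hc : cells = a * (s.pin - t.pout) + k * (t.dout - s.din) + err) :
    ‖X - (a * (t.z - s.z) + pvtPhi a k s koutS - pvtPhi a k t koutT)‖ ^ 2
      ≤ 3 * (‖X + (koutT + cells + kinS)‖ ^ 2 + ‖pvtSig2 a k s koutS kinS‖ ^ 2 + ‖err‖ ^ 2) := by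
  have h := pvt_real_arc_norm a k s t X koutS kinS koutT cells err hc
  set A := ‖X + (koutT + cells + kinS)‖
  set B := ‖pvtSig2 a k s koutS kinS‖
  set C := ‖err‖
  have h0 : 0 ≤ ‖X - (a * (t.z - s.z) + pvtPhi a k s koutS - pvtPhi a k t koutT)‖ := norm_nonneg _
  calc _ ≤ (A + B + C) ^ 2 := pow_le_pow_left₀ h0 h 2
    _ ≤ 3 * (A ^ 2 + B ^ 2 + C ^ 2) := by
        nlinarith [sq_nonneg (A - B), sq_nonneg (A - C), sq_nonneg (B - C)]

/-- The cells of a word between two ports, in the scale `δ`: `a = alpha / δ`. -/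
theorem pvt_cells_of_word (W : PvtW) {δ : ℂ} (hδ : δ ≠ 0) (d : ℂ) (l : List PvtTurn) (p p' : ℂ)
    (hp : p' - p = δ * pvtDisp d l) :
    pvtSum W d l = W.a / δ * (p' - p) + W.k * (d - pvtDir d l) + W.rel * pvtNR d l := by
  rw [pvt_sum_eq, hp]; field_simp

/-- the lemmas which Lean writes on demand are written HERE, once -/
theorem pvt_alg_eqns_cite : True := by
  have := @pvtAcc.eq_1; have := @pvtAcc.eq_def; have := @pvtDir.eq_1; have := @pvtDir.eq_def; have := @PvtClosed.eq_1; have := @PvtDoor.eq_1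
  have := @PvtNB.eq_1; have := @PvtNB.eq_def; have := @pvtNS.eq_1; have := @pvtNL.eq_1; have := @pvtWOf.eq_1
  have := @pvtAcc.induct; have := @pvtDir.induct; have := @PvtNB.induct; have := @pvtStepSum.induct; have := @pvtDiffs.induct
  have := @pvtFrames.induct; have := @pvtCentres.induct; have := @pvtDefect.induct
  trivial

end Claimed.Agent.R289
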