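-- KEEP
import Claimed.Agent.R289.Tr.CellAlg
import Claimed.Agent.R289.Cr.Inst

/-!
# Row 289 (S0537, Cardy for Poisson-Voronoi), THE WALL, block WB1 = SPINE (TR29-TR32, model free)      (helper129; prefix `pvts_`, `Pvts`)

Blueprint: `origin/helper295:notes/R289/TR_295.md` (TR29-TR32), `origin/helper208:notes/R289/W1_208.md` sec.7, `origin/helper140:notes/R289/wall_140.md` sec.3.

TARGET: the structure `L9Loc` of `Cr/Inst.lean` (= fields `good`, `Ψ_L2` of `PvbIn`), over the upper expectation `PvUp.ofMeasure (Pr n)` (`Defs/Up.lean`; transfer to `l9Up`: `l9_loc_of_le`, `l9_up_le_joint` of `Cr/Inst.lean`).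

MATHEMATICS.   One field `y = xQ - a_m xV`.   For a pattern `π` (pins `s`, `t`, thin chain of cells from the exit door of `t` to the entrance door of `s`, word `l`) the cycle mean is (TR2)
    `ŷ_π = kout(σ_t) + pvtSum W d_out l + kin(σ_s)`,
and (TR23) `I(P;s,t) + ŷ_π` is small with high probability.   With `a := W.a / δ`, `k := W.k` the cell identity `pvt_sum_eq` gives the NORMAL FORM
    `ŷ_π = Φ(σ_t) + Kin(σ_s) + a (z_s - z_t) + rel * N_R`,      `Φ := kout - a p_out + k d_out`,   `Kin := kin + a p_in - k d_in`.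
The base potential `β` of `PvbRealArc` is FREE, so no single pin cycle (`Σ₂`) and no variance split are needed:
    `Ψ(z,τ) := -(Φ - c₀)` on the usable event `U(z,τ)`, `0` off it,      `β(P,s) := -Kin(σ_s) - c₀`,      `c₀ := -(kin0 + a p_in0 - k d_in0)`  (`kin0` = any constant; in the model the mean of `kin` of ONE reference type).
`Σ₁` = ONE pure cycle per type: `t` -thin chain `l1`-> `u` (reference type, inner plug, integrated) -THICK SHORT link-> `t`.   Its mean is `kout(σ_t) + pvtSum W d_out l1 + kin0 + ke(σ_t)`, small in `L²` (TR3'),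
and `ke` is `O(h)` in `L²` (TR5 + Bessel).   Hence `Φ - c₀ = (cycle mean) - ke - a z_u - rel N_R` is `O(h)` in `L²`.

The instance hands over RANDOM VARIABLES on `Ω` (`kout m n z t o` = `kout` of the state of the candidate `(z,t)` in the sample `o`): no state space, no laws in this file.
-/

set_option autoImplicit false

namespace Claimed.Agent.R289

open MeasureTheory Filter Topology Set
open scoped ENNReal

/-! ## 1. the `L²` kit -/

theorem pvts_ofReal_sq (z : ℂ) : ENNReal.ofReal (‖z‖ ^ 2) = ‖z‖ₑ ^ 2 := by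
  rw [ENNReal.ofReal_pow (norm_nonneg z), ofReal_norm]

theorem pvts_add3_sq (a b c : ℂ) : ‖a + b + c‖ₑ ^ 2 ≤ 3 * (‖a‖ₑ ^ 2 + ‖b‖ₑ ^ 2 + ‖c‖ₑ ^ 2) := by
  have h : ‖a + b + c‖ ^ 2 ≤ 3 * (‖a‖ ^ 2 + ‖b‖ ^ 2 + ‖c‖ ^ 2) := by
    have h1 : ‖a + b + c‖ ≤ ‖a‖ + ‖b‖ + ‖c‖ := norm_add₃_le
    have h2 : ‖a + b + c‖ ^ 2 ≤ (‖a‖ + ‖b‖ + ‖c‖) ^ 2 := pow_le_pow_left₀ (norm_nonneg _) h1 2
    nlinarith [sq_nonneg (‖a‖ - ‖b‖), sq_nonneg (‖a‖ - ‖c‖), sq_nonneg (‖b‖ - ‖c‖)]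
  calc ‖a + b + c‖ₑ ^ 2 = ENNReal.ofReal (‖a + b + c‖ ^ 2) := (pvts_ofReal_sq _).symm
    _ ≤ ENNReal.ofReal (3 * (‖a‖ ^ 2 + ‖b‖ ^ 2 + ‖c‖ ^ 2)) := ENNReal.ofReal_le_ofReal h
    _ = 3 * (‖a‖ₑ ^ 2 + ‖b‖ₑ ^ 2 + ‖c‖ₑ ^ 2) := by
        rw [ENNReal.ofReal_mul (by norm_num), ENNReal.ofReal_add (by positivity) (by positivity),
          ENNReal.ofReal_add (by positivity) (by positivity), pvts_ofReal_sq, pvts_ofReal_sq, pvts_ofReal_sq]
        norm_num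

/-- three term triangle inequality in `L²` (no measurability of the first two terms) -/
theorem pvts_lint_add3 {Ω : Type*} [MeasurableSpace Ω] (μ : Measure Ω) (f g : Ω → ℂ) (c : ℂ) (hf : Measurable f) :
    ∫⁻ o, ‖f o + g o + c‖ₑ ^ 2 ∂μ ≤ 3 * (∫⁻ o, ‖f o‖ₑ ^ 2 ∂μ + ∫⁻ o, ‖g o‖ₑ ^ 2 ∂μ + ‖c‖ₑ ^ 2 * μ univ) := by
  have hF : Measurable fun o => ‖f o‖ₑ ^ 2 := hf.enorm.pow_const 2
  calc ∫⁻ o, ‖f o + g o + c‖ₑ ^ 2 ∂μ ≤ ∫⁻ o, 3 * (‖f o‖ₑ ^ 2 + (‖g o‖ₑ ^ 2 + ‖c‖ₑ ^ 2)) ∂μ :=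
        lintegral_mono fun o => by rw [← add_assoc]; exact pvts_add3_sq _ _ _
    _ = 3 * (∫⁻ o, ‖f o‖ₑ ^ 2 ∂μ + ∫⁻ o, ‖g o‖ₑ ^ 2 ∂μ + ‖c‖ₑ ^ 2 * μ univ) := by
        rw [lintegral_const_mul' _ _ (by norm_num), lintegral_add_left hF, lintegral_add_right _ measurable_const, lintegral_const, add_assoc]

/-! ## 2. doors, words, normal form -/

/-- the deterministic data of one level `m` (scales `h`, `δ` fixed): mesh of the cells, doors of the types (position relative to the centre, frame), door of the reference plug,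
position `zu t` of the reference plug relative to a plug of type `t` and word `l1 t` of the thin chain from the exit door of `t` to the entrance door of the reference plug -/
structure PvtsGeo (τ : Type) where
  δ : ℝ
  pout : τ → ℂ
  pin : τ → ℂ
  dout : τ → ℂ
  din : τ → ℂ
  pin0 : ℂ
  din0 : ℂ
  zu : τ → ℂ
  l1 : τ → List PvtTurn
  δ0 : δ ≠ 0
  dout1 : ∀ t, ‖dout t‖ = 1
  l1_disp : ∀ t, (δ : ℂ) * pvtDisp (dout t) (l1 t) = (zu t + pin0) - pout t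
  l1_dir : ∀ t, pvtDir (dout t) (l1 t) = din0

/-- a pattern, as far as the spine sees it: centres and types of the two pins, word of the thin chain from the exit door of `t` to the entrance door of `s` -/
structure PvtsPat (τ : Type) where
  zs : ℂ
  ts : τ
  zt : ℂ
  tt : τ
  l : List PvtTurn

namespace PvtsGeo

variable {τ : Type} (Γ : PvtsGeo τ)

/-- the pattern is a chain of cells from door to door -/
def Ok (π : PvtsPat τ) : Prop :=
  (Γ.δ : ℂ) * pvtDisp (Γ.dout π.tt) π.l = (π.zs + Γ.pin π.ts) - (π.zt + Γ.pout π.tt) ∧ pvtDir (Γ.dout π.tt) π.l = Γ.din π.ts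

/-- the affine coefficient -/
noncomputable def a (W : PvtW) : ℂ := W.a / (Γ.δ : ℂ)

/-- `Φ = kout + offO` -/
noncomputable def offO (W : PvtW) (t : τ) : ℂ := - Γ.a W * Γ.pout t + W.k * Γ.dout t

/-- `Kin = kin + offI` -/
noncomputable def offI (W : PvtW) (t : τ) : ℂ := Γ.a W * Γ.pin t - W.k * Γ.din t

/-- the common additive constant -/
noncomputable def c0 (W : PvtW) (kin0 : ℂ) : ℂ := - (kin0 + Γ.a W * Γ.pin0 - W.k * Γ.din0)

theorem a_mul (W : PvtW) (z : ℂ) : W.a * z = Γ.a W * ((Γ.δ : ℂ) * z) := by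
  have h : (Γ.δ : ℂ) ≠ 0 := by exact_mod_cast Γ.δ0
  unfold a
  field_simp

theorem err_gen (W : PvtW) (t : τ) (z : ℂ) (l : List PvtTurn) :
    ‖Γ.a W * z + W.rel * pvtNR (Γ.dout t) l‖ ≤ ‖Γ.a W‖ * ‖z‖ + ‖W.rel‖ * pvtCntR l := by
  refine (norm_add_le _ _).trans ?_
  rw [norm_mul, norm_mul]
  have h := pvt_norm_NR_le (Γ.dout t) l
  rw [Γ.dout1, one_mul] at h
  gcongr

/-- **NORMAL FORM** of a cycle mean (TR30, algebra) -/
theorem nf (W : PvtW) {π : PvtsPat τ} (hπ : Γ.Ok π) (ko ki : ℂ) :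
    ko + pvtSum W (Γ.dout π.tt) π.l + ki =
      (ko + Γ.offO W π.tt) + (ki + Γ.offI W π.ts) + Γ.a W * (π.zs - π.zt) + W.rel * pvtNR (Γ.dout π.tt) π.l := by
  have hδ : (Γ.δ : ℂ) ≠ 0 := Complex.ofReal_ne_zero.2 Γ.δ0
  have h1 : W.a * pvtDisp (Γ.dout π.tt) π.l = Γ.a W * ((π.zs + Γ.pin π.ts) - (π.zt + Γ.pout π.tt)) := by
    rw [← hπ.1, a]
    field_simp
  rw [pvt_sum_eq, h1, hπ.2, offO, offI]
  ring

/-- normal form of the `Σ₁` cycle -/
theorem nf1 (W : PvtW) (t : τ) (ko kin0 : ℂ) :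
    ko + pvtSum W (Γ.dout t) (Γ.l1 t) + kin0 = (ko + Γ.offO W t) - Γ.c0 W kin0 + Γ.a W * Γ.zu t + W.rel * pvtNR (Γ.dout t) (Γ.l1 t) := by
  have hδ : (Γ.δ : ℂ) ≠ 0 := Complex.ofReal_ne_zero.2 Γ.δ0
  have h1 : W.a * pvtDisp (Γ.dout t) (Γ.l1 t) = Γ.a W * ((Γ.zu t + Γ.pin0) - Γ.pout t) := by
    rw [← Γ.l1_disp t, a]
    field_simp
  rw [pvt_sum_eq, h1, Γ.l1_dir t, offO, c0]
  ring

/-- the deterministic error of a pattern -/
theorem err_le (W : PvtW) (π : PvtsPat τ) :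
    ‖Γ.a W * (π.zs - π.zt) + W.rel * pvtNR (Γ.dout π.tt) π.l‖ ≤ ‖Γ.a W‖ * ‖π.zs - π.zt‖ + ‖W.rel‖ * pvtCntR π.l := by
  have h := pvt_norm_NR_le (Γ.dout π.tt) π.l
  rw [Γ.dout1, one_mul] at h
  refine (norm_add_le _ _).trans ?_
  rw [norm_mul, norm_mul]
  gcongr

theorem err1_le (W : PvtW) (t : τ) :
    ‖Γ.a W * Γ.zu t + W.rel * pvtNR (Γ.dout t) (Γ.l1 t)‖ ≤ ‖Γ.a W‖ * ‖Γ.zu t‖ + ‖W.rel‖ * pvtCntR (Γ.l1 t) := by
  have h := pvt_norm_NR_le (Γ.dout t) (Γ.l1 t)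
  rw [Γ.dout1, one_mul] at h
  refine (norm_add_le _ _).trans ?_
  rw [norm_mul, norm_mul]
  gcongr

end PvtsGeo

/-! ## 3. the input of the spine -/

section spine

variable {Ω : Type} [MeasurableSpace Ω]

/-- **THE INPUT OF THE SPINE** = the exits of chapters A-E of the wall, for one family of laws `Pr n`, one random set of rims, one ball.   `m` = level (`h ↓ 0`), `n` = index of `ε ↓ 0`. -/
structure PvtsIn {τ : Type} {c : ℝ} (G : L9Glob τ c) (Pr : ℕ → Measure Ω) (rims : Ω → Set PvbRim) (x : ℂ) (R : ℝ) where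
  /-- the qualified pins of a rim -/
  pins : ℕ → ℕ → Ω → PvbRim → Set (PvbPin τ)
  /-- doors and words of level `m` -/
  Γ : ℕ → PvtsGeo τ
  /-- the three cell means of the field `Q - a_m V` -/
  W : ℕ → ℕ → PvtW
  /-- the constant of the reference plug -/
  kin0 : ℕ → ℕ → ℂ
  /-- the candidate `(z,t)` is usable (its state exists and is good) -/
  U : ℕ → ℕ → ℂ → τ → Set Ω
  /-- `κ_out`, `κ_in` and the mean of the thick short link, evaluated at the state of the candidate `(z,t)` -/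
  kout : ℕ → ℕ → ℂ → τ → Ω → ℂ
  kin : ℕ → ℕ → ℂ → τ → Ω → ℂ
  ke : ℕ → ℕ → ℂ → τ → Ω → ℂ
  /-- the patterns of level `m` -/
  Pat : ℕ → Type
  Pat_fin : ∀ m, Finite (Pat m)
  pat : ∀ m, Pat m → PvtsPat τ
  pat_ok : ∀ m π, (Γ m).Ok (pat m π)
  /-- the arc `s → t` of the rim `P` fits the pattern -/
  Fit : ∀ m : ℕ, ℕ → Ω → PvbRim → PvbPin τ → PvbPin τ → Pat m → Prop
  fit_s : ∀ m n o P s t π, Fit m n o P s t π → s.ctr = (pat m π).zs ∧ s.typ = (pat m π).ts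
  fit_t : ∀ m n o P s t π, Fit m n o P s t π → t.ctr = (pat m π).zt ∧ t.typ = (pat m π).tt
  fit_U : ∀ m n o P s t π, Fit m n o P s t π → o ∈ U m n t.ctr t.typ
  /-- (H1), chapter C: pins are pins, sit on the grid, are dense -/
  pinsOK : PvbOrd (fun m n => (Pr n {o | ¬ ∀ P ∈ rims o,
    (∀ s ∈ pins m n o P, PvbIsPin G.𝔐 (G.h m) P s ∧ ∃ p : ℤ × ℤ, s.ctr = l9Pt (G.h m) p) ∧
    (∀ i i', i ≤ i' → i' ≤ P.len → (∀ k, i ≤ k → k ≤ i' → ‖P.v k - x‖ ≤ 2 * R) → G.r m ≤ ‖P.v i' - P.v i‖ → ∃ s ∈ pins m n o P, i ≤ s.idx ∧ s.idx ≤ i')}).toReal)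
  /-- (H2), TR20 COVER: every long pinned arc in the ball fits a pattern -/
  cover : PvbOrd (fun m n => (Pr n {o | ¬ ∀ P ∈ rims o, ∀ s ∈ pins m n o P, ∀ t ∈ pins m n o P, s.idx < t.idx →
    (∀ k, s.idx ≤ k → k ≤ t.idx → ‖P.v k - x‖ ≤ 2 * R) → R / 3 ≤ ‖s.ctr - t.ctr‖ → ∃ π : Pat m, Fit m n o P s t π}).toReal)
  /-- (H3), TR23 + TR2 + TR25: `I + ŷ` is small for the arcs which fit a fixed pattern -/
  n1 : ∀ m (π : Pat m) (u : ℝ), 0 < u → Tendsto (fun n => (Pr n {o | ∃ P ∈ rims o, ∃ s ∈ pins m n o P, ∃ t ∈ pins m n o P, Fit m n o P s t π ∧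
    u < ‖pvbArcI G.𝔐 (G.h m) P (fun k => P.xQ k - G.a m * P.xV k) s t +
      (kout m n t.ctr t.typ o + pvtSum (W m n) ((Γ m).dout (pat m π).tt) (pat m π).l + kin m n s.ctr s.typ o)‖}).toReal) atTop (𝓝 0)
  /-- (H4a), TR3' + TR2: the `Σ₁` cycle -/
  cyc1 : ∀ m (p : ℤ × ℤ) t, ‖l9Pt (G.h m) p - x‖ ≤ 2 * R → Tendsto (fun n => ∫⁻ o in U m n (l9Pt (G.h m) p) t,
    ‖kout m n (l9Pt (G.h m) p) t o + pvtSum (W m n) ((Γ m).dout t) ((Γ m).l1 t) + kin0 m n + ke m n (l9Pt (G.h m) p) t o‖ₑ ^ 2 ∂(Pr n)) atTop (𝓝 0)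
  /-- (H4b), TR5 + Bessel: the thick short link -/
  Ce : ℝ
  thick : ∀ m (p : ℤ × ℤ) t, ‖l9Pt (G.h m) p - x‖ ≤ 2 * R → ∀ᶠ n in atTop,
    ∫⁻ o in U m n (l9Pt (G.h m) p) t, ‖ke m n (l9Pt (G.h m) p) t o‖ₑ ^ 2 ∂(Pr n) ≤ ENNReal.ofReal (Ce * G.h m ^ 2)
  /-- (H5), TR27 + order of limits -/
  a_lim : ∀ m, Tendsto (fun n => (Γ m).a (W m n)) atTop (𝓝 0)
  rel_lim : ∀ m, Tendsto (fun n => (W m n).rel) atTop (𝓝 0)
  /-- (H6) measurability -/
  U_meas : ∀ m n z t, MeasurableSet (U m n z t)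
  kout_meas : ∀ m n z t, Measurable (kout m n z t)
  ke_meas : ∀ m n z t, Measurable (ke m n z t)

namespace PvtsIn

variable {τ : Type} {c : ℝ} {G : L9Glob τ c} {Pr : ℕ → Measure Ω} {rims : Ω → Set PvbRim} {x : ℂ} {R : ℝ} (I : PvtsIn G Pr rims x R)

/-- the common constant of level `(m,n)` -/
noncomputable def cc (m n : ℕ) : ℂ := (I.Γ m).c0 (I.W m n) (I.kin0 m n)

open Classical in
/-- the terminal potential -/
noncomputable def Ψ (m n : ℕ) (o : Ω) (z : ℂ) (t : τ) : ℂ :=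
  if o ∈ I.U m n z t then - (I.kout m n z t o + (I.Γ m).offO (I.W m n) t - I.cc m n) else 0

/-- the base potential -/
noncomputable def β (m n : ℕ) (o : Ω) (_P : PvbRim) (s : PvbPin τ) : ℂ :=
  - (I.kin m n s.ctr s.typ o + (I.Γ m).offI (I.W m n) s.typ) - I.cc m n

theorem Ψ_meas (m n : ℕ) (z : ℂ) (t : τ) : Measurable (fun o => I.Ψ m n o z t) := by
  unfold PvtsIn.Ψ
  exact Measurable.ite (I.U_meas m n z t) (((I.kout_meas m n z t).add_const _).sub_const _).neg measurable_const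

/-- **TR30, deterministic**: the real arc defect is the `N1` defect plus the deterministic error of the pattern -/
theorem arc_eq {m n : ℕ} {o : Ω} {P : PvbRim} {s t : PvbPin τ} {π : I.Pat m} (hF : I.Fit m n o P s t π) (J : ℂ) :
    J - I.β m n o P s - I.Ψ m n o t.ctr t.typ =
      (J + (I.kout m n t.ctr t.typ o + pvtSum (I.W m n) ((I.Γ m).dout (I.pat m π).tt) (I.pat m π).l + I.kin m n s.ctr s.typ o))
        - ((I.Γ m).a (I.W m n) * ((I.pat m π).zs - (I.pat m π).zt) + (I.W m n).rel * pvtNR ((I.Γ m).dout (I.pat m π).tt) (I.pat m π).l) := by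
  have hU := I.fit_U m n o P s t π hF
  obtain ⟨hs1, hs2⟩ := I.fit_s m n o P s t π hF
  obtain ⟨ht1, ht2⟩ := I.fit_t m n o P s t π hF
  have hnf := (I.Γ m).nf (I.W m n) (I.pat_ok m π) (I.kout m n t.ctr t.typ o) (I.kin m n s.ctr s.typ o)
  unfold PvtsIn.Ψ PvtsIn.β
  rw [if_pos hU, hnf, hs2, ht2]
  ring

/-- the deterministic errors of the finitely many patterns of level `m` vanish as `n → ∞` -/
theorem err_small (m : ℕ) {u : ℝ} (hu : 0 < u) : ∀ᶠ n in atTop, ∀ π : I.Pat m,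
    ‖(I.Γ m).a (I.W m n) * ((I.pat m π).zs - (I.pat m π).zt) + (I.W m n).rel * pvtNR ((I.Γ m).dout (I.pat m π).tt) (I.pat m π).l‖ ≤ u := by
  have := I.Pat_fin m
  rw [eventually_all]
  intro π
  have h1 : Tendsto (fun n => (I.Γ m).a (I.W m n) * ((I.pat m π).zs - (I.pat m π).zt) + (I.W m n).rel * pvtNR ((I.Γ m).dout (I.pat m π).tt) (I.pat m π).l) atTop (𝓝 0) := by
    have := ((I.a_lim m).mul_const ((I.pat m π).zs - (I.pat m π).zt)).add ((I.rel_lim m).mul_const (pvtNR ((I.Γ m).dout (I.pat m π).tt) (I.pat m π).l))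
    simpa using this
  have h2 := h1.norm
  rw [norm_zero] at h2
  exact (h2.eventually (gt_mem_nhds hu)).mono fun n hn => hn.le

/-- the failure event of `N1` for some pattern -/
def badN1 (m n : ℕ) (u : ℝ) : Set Ω :=
  {o | ∃ π : I.Pat m, ∃ P ∈ rims o, ∃ s ∈ I.pins m n o P, ∃ t ∈ I.pins m n o P, I.Fit m n o P s t π ∧
    u < ‖pvbArcI G.𝔐 (G.h m) P (fun k => P.xQ k - G.a m * P.xV k) s t +
      (I.kout m n t.ctr t.typ o + pvtSum (I.W m n) ((I.Γ m).dout (I.pat m π).tt) (I.pat m π).l + I.kin m n s.ctr s.typ o)‖}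

theorem badN1_lim (hPr : ∀ n, IsProbabilityMeasure (Pr n)) (m : ℕ) {u : ℝ} (hu : 0 < u) :
    Tendsto (fun n => (Pr n (I.badN1 m n u)).toReal) atTop (𝓝 0) := by
  haveI := I.Pat_fin m
  letI := Fintype.ofFinite (I.Pat m)
  have hsum : Tendsto (fun n => ∑ π : I.Pat m, (Pr n {o | ∃ P ∈ rims o, ∃ s ∈ I.pins m n o P, ∃ t ∈ I.pins m n o P, I.Fit m n o P s t π ∧
      u < ‖pvbArcI G.𝔐 (G.h m) P (fun k => P.xQ k - G.a m * P.xV k) s t +
        (I.kout m n t.ctr t.typ o + pvtSum (I.W m n) ((I.Γ m).dout (I.pat m π).tt) (I.pat m π).l + I.kin m n s.ctr s.typ o)‖}).toReal) atTop (𝓝 0) := by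
    have := tendsto_finsetSum (Finset.univ : Finset (I.Pat m)) (fun π _ => I.n1 m π u hu)
    simpa using this
  refine squeeze_zero (fun n => ENNReal.toReal_nonneg) (fun n => ?_) hsum
  haveI := hPr n
  have hU : I.badN1 m n u = ⋃ π : I.Pat m, {o | ∃ P ∈ rims o, ∃ s ∈ I.pins m n o P, ∃ t ∈ I.pins m n o P, I.Fit m n o P s t π ∧
      u < ‖pvbArcI G.𝔐 (G.h m) P (fun k => P.xQ k - G.a m * P.xV k) s t +
        (I.kout m n t.ctr t.typ o + pvtSum (I.W m n) ((I.Γ m).dout (I.pat m π).tt) (I.pat m π).l + I.kin m n s.ctr s.typ o)‖} := by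
    ext o
    simp only [PvtsIn.badN1, mem_ofPred_eq, mem_iUnion]
  rw [hU, ← ENNReal.toReal_sum (fun π _ => measure_ne_top _ _)]
  exact ENNReal.toReal_mono (ENNReal.sum_ne_top.2 fun π _ => measure_ne_top _ _) (measure_iUnion_fintype_le _ _)

/-- **TR30 REAL ARC**, inclusion of events -/
theorem real_sub {m n : ℕ} {E : ℝ}
    (herr : ∀ π : I.Pat m, ‖(I.Γ m).a (I.W m n) * ((I.pat m π).zs - (I.pat m π).zt) + (I.W m n).rel * pvtNR ((I.Γ m).dout (I.pat m π).tt) (I.pat m π).l‖ ≤ E / 2) :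
    {o | ¬ ∀ P ∈ rims o, PvbRealArc G.𝔐 x R (G.h m) P (I.pins m n o P) (fun k => P.xQ k - G.a m * P.xV k) (I.β m n o P) (I.Ψ m n o) E} ⊆
      {o | ¬ ∀ P ∈ rims o, ∀ s ∈ I.pins m n o P, ∀ t ∈ I.pins m n o P, s.idx < t.idx →
        (∀ k, s.idx ≤ k → k ≤ t.idx → ‖P.v k - x‖ ≤ 2 * R) → R / 3 ≤ ‖s.ctr - t.ctr‖ → ∃ π : I.Pat m, I.Fit m n o P s t π} ∪ I.badN1 m n (E / 2) := by
  intro o ho
  by_contra hno
  rw [mem_union, not_or] at hno
  obtain ⟨h1, h2⟩ := hno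
  simp only [Set.mem_ofPred_eq, not_not] at h1
  apply ho
  intro P hP s hs t ht hst hin hfar
  obtain ⟨π, hF⟩ := h1 P hP s hs t ht hst hin hfar
  rw [I.arc_eq hF]
  have h3 : ¬ (E / 2 < ‖pvbArcI G.𝔐 (G.h m) P (fun k => P.xQ k - G.a m * P.xV k) s t +
      (I.kout m n t.ctr t.typ o + pvtSum (I.W m n) ((I.Γ m).dout (I.pat m π).tt) (I.pat m π).l + I.kin m n s.ctr s.typ o)‖) := by
    intro h4
    exact h2 ⟨π, P, hP, s, hs, t, ht, hF, h4⟩
  rw [not_lt] at h3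
  calc _ ≤ _ + _ := norm_sub_le _ _
    _ ≤ E / 2 + E / 2 := add_le_add h3 (herr π)
    _ = E := by ring

/-- **TR30 REAL ARC**, ordered limit, for ANY positive error sequence -/
theorem real_ord (hPr : ∀ n, IsProbabilityMeasure (Pr n)) (Err : ℕ → ℝ) (hE : ∀ m, 0 < Err m) :
    PvbOrd (fun m n => (Pr n {o | ¬ ∀ P ∈ rims o,
      PvbRealArc G.𝔐 x R (G.h m) P (I.pins m n o P) (fun k => P.xQ k - G.a m * P.xV k) (I.β m n o P) (I.Ψ m n o) (Err m)}).toReal) := by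
  intro η hη
  filter_upwards [I.cover (η / 2) (half_pos hη)] with m hm
  have hb := (badN1_lim I hPr m (half_pos (hE m))).eventually (Iic_mem_nhds (half_pos hη))
  filter_upwards [hm, hb, err_small I m (half_pos (hE m))] with n h1 h2 h3
  haveI := hPr n
  have hsub := real_sub I h3
  calc _ ≤ (Pr n (_ ∪ _)).toReal := ENNReal.toReal_mono (measure_ne_top _ _) (measure_mono hsub)
    _ ≤ (Pr n _ + Pr n _).toReal := ENNReal.toReal_mono (ENNReal.add_ne_top.2 ⟨measure_ne_top _ _, measure_ne_top _ _⟩) (measure_union_le _ _)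
    _ = (Pr n _).toReal + (Pr n _).toReal := ENNReal.toReal_add (measure_ne_top _ _) (measure_ne_top _ _)
    _ ≤ η / 2 + η / 2 := add_le_add h1 h2
    _ = η := by ring

/-- **TR31 `Σ₁`**: the `L²` bound of the terminal potential -/
theorem Ψ_L2 (hPr : ∀ n, IsProbabilityMeasure (Pr n)) (m : ℕ) (p : ℤ × ℤ) (t : τ) (hp : ‖l9Pt (G.h m) p - x‖ ≤ 2 * R) : ∀ᶠ n in atTop,
    ∫⁻ o, ENNReal.ofReal (‖I.Ψ m n o (l9Pt (G.h m) p) t‖ ^ 2) ∂(Pr n) ≤ ENNReal.ofReal (3 * (|I.Ce| + 2) * G.h m ^ 2) := by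
  have hh : 0 < G.h m ^ 2 := pow_pos (G.h0 m) 2
  have hh' : (0 : ℝ≥0∞) < ENNReal.ofReal (G.h m ^ 2) := ENNReal.ofReal_pos.2 hh
  -- the deterministic error
  have hD : Tendsto (fun n => (I.Γ m).a (I.W m n) * (I.Γ m).zu t + (I.W m n).rel * pvtNR ((I.Γ m).dout t) ((I.Γ m).l1 t)) atTop (𝓝 0) := by
    have h1 := ((I.a_lim m).mul_const ((I.Γ m).zu t)).add ((I.rel_lim m).mul_const (pvtNR ((I.Γ m).dout t) ((I.Γ m).l1 t)))
    rwa [zero_mul, zero_mul, add_zero] at h1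
  have hD2 : ∀ᶠ n in atTop, ‖(I.Γ m).a (I.W m n) * (I.Γ m).zu t + (I.W m n).rel * pvtNR ((I.Γ m).dout t) ((I.Γ m).l1 t)‖ ^ 2 ≤ G.h m ^ 2 := by
    have h2 := (hD.norm).pow 2
    rw [norm_zero, zero_pow two_ne_zero] at h2
    exact h2.eventually (Iic_mem_nhds hh)
  have hC := (I.cyc1 m p t hp).eventually (Iic_mem_nhds hh')
  filter_upwards [hD2, hC, I.thick m p t hp] with n h1 h2 h3
  have := hPr n
  set z := l9Pt (G.h m) p with hz
  set Dn := (I.Γ m).a (I.W m n) * (I.Γ m).zu t + (I.W m n).rel * pvtNR ((I.Γ m).dout t) ((I.Γ m).l1 t) with hDn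
  have hind : ∀ o, ENNReal.ofReal (‖I.Ψ m n o z t‖ ^ 2) = (I.U m n z t).indicator (fun o =>
      ‖(I.kout m n z t o + pvtSum (I.W m n) ((I.Γ m).dout t) ((I.Γ m).l1 t) + I.kin0 m n + I.ke m n z t o) + (- I.ke m n z t o) + (- Dn)‖ₑ ^ 2) o := by
    intro o
    by_cases ho : o ∈ I.U m n z t
    · rw [indicator_of_mem ho, pvts_ofReal_sq]
      unfold PvtsIn.Ψ
      rw [if_pos ho, (I.Γ m).nf1 (I.W m n) t, enorm_neg]
      congr 2
      unfold PvtsIn.cc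
      rw [hDn]
      ring
    · rw [indicator_of_notMem ho]
      unfold PvtsIn.Ψ
      rw [if_neg ho]
      simp
  simp_rw [hind]
  rw [lintegral_indicator (I.U_meas m n z t)]
  have hmeas : Measurable (fun o => I.kout m n z t o + pvtSum (I.W m n) ((I.Γ m).dout t) ((I.Γ m).l1 t) + I.kin0 m n + I.ke m n z t o) :=
    (((I.kout_meas m n z t).add_const _).add_const _).add (I.ke_meas m n z t)
  refine (pvts_lint_add3 ((Pr n).restrict (I.U m n z t)) _ (fun o => - I.ke m n z t o) (- Dn) hmeas).trans ?_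
  have e1 : ∫⁻ o in I.U m n z t, ‖- I.ke m n z t o‖ₑ ^ 2 ∂(Pr n) ≤ ENNReal.ofReal (|I.Ce| * G.h m ^ 2) := by
    simp_rw [enorm_neg]
    exact h3.trans (ENNReal.ofReal_le_ofReal (mul_le_mul_of_nonneg_right (le_abs_self _) hh.le))
  have e2 : ‖- Dn‖ₑ ^ 2 * ((Pr n).restrict (I.U m n z t)) univ ≤ ENNReal.ofReal (G.h m ^ 2) := by
    have hle : ((Pr n).restrict (I.U m n z t)) univ ≤ 1 := by
      rw [Measure.restrict_apply MeasurableSet.univ, univ_inter]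
      exact prob_le_one
    calc _ ≤ ‖- Dn‖ₑ ^ 2 * 1 := by gcongr
      _ = ENNReal.ofReal (‖Dn‖ ^ 2) := by rw [mul_one, enorm_neg, pvts_ofReal_sq]
      _ ≤ _ := ENNReal.ofReal_le_ofReal h1
  calc _ ≤ 3 * (ENNReal.ofReal (G.h m ^ 2) + ENNReal.ofReal (|I.Ce| * G.h m ^ 2) + ENNReal.ofReal (G.h m ^ 2)) := by
        gcongr
    _ = ENNReal.ofReal (3 * (|I.Ce| + 2) * G.h m ^ 2) := by
        rw [← ENNReal.ofReal_add hh.le (by positivity), ← ENNReal.ofReal_add (by positivity) hh.le]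
        rw [show (3 : ℝ≥0∞) = ENNReal.ofReal 3 by simp, ← ENNReal.ofReal_mul (by norm_num)]
        congr 1
        ring

end PvtsIn

/-- the error sequence `h²` is admissible -/
theorem pvts_lim1 {τ : Type} {c : ℝ} (c0 : 0 < c) (G : L9Glob τ c) : Tendsto (fun m => G.r m * G.h m ^ 2 * G.h m ^ (-2 + c)) atTop (𝓝 0) := by
  have h1 : ∀ m, G.r m * G.h m ^ 2 * G.h m ^ (-2 + c) = G.r m * G.h m ^ c := by
    intro m
    rw [mul_assoc, ← Real.rpow_natCast, ← Real.rpow_add (G.h0 m)]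
    norm_num
  simp only [h1]
  have h2 := G.r_lim.mul (G.h_lim.rpow_const (Or.inr c0.le))
  rwa [Real.zero_rpow c0.ne', mul_zero] at h2

/-- **TR32 EXPORT: THE EXIT OF THE SPINE** -/
theorem pvts_loc {τ : Type} {c : ℝ} (c0 : 0 < c) {G : L9Glob τ c} {Pr : ℕ → Measure Ω} (hPr : ∀ n, IsProbabilityMeasure (Pr n)) {rims : Ω → Set PvbRim} {x : ℂ} {R : ℝ}
    (I : PvtsIn G Pr rims x R) : Nonempty (L9Loc G (fun n => @PvUp.ofMeasure _ _ (Pr n) (hPr n)) rims x R) := by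
  have hE : ∀ m, 0 < G.h m ^ 2 := fun m => by have := G.h0 m; positivity
  refine ⟨{ Err := fun m => G.h m ^ 2
            Err0 := fun m => (hE m).le
            lim1 := pvts_lim1 c0 G
            pins := I.pins
            β := I.β
            Ψ := I.Ψ
            good := ?_
            CΨ := 3 * (|I.Ce| + 2)
            Ψ_L2 := fun m p t hp => ?_ }⟩
  · intro η hη
    filter_upwards [I.pinsOK (η / 2) (by positivity), I.real_ord hPr (fun m => G.h m ^ 2) hE (η / 2) (by positivity)] with m a1 a2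
    filter_upwards [a1, a2] with n b1 b2
    have := hPr n
    rw [pvup_ofMeasure_P]
    have hsub : {o | ¬ ∀ P ∈ rims o,
        (∀ s ∈ I.pins m n o P, PvbIsPin G.𝔐 (G.h m) P s ∧ ∃ p : ℤ × ℤ, s.ctr = l9Pt (G.h m) p) ∧
        (∀ i i', i ≤ i' → i' ≤ P.len → (∀ k, i ≤ k → k ≤ i' → ‖P.v k - x‖ ≤ 2 * R) → G.r m ≤ ‖P.v i' - P.v i‖ → ∃ s ∈ I.pins m n o P, i ≤ s.idx ∧ s.idx ≤ i') ∧
        PvbRealArc G.𝔐 x R (G.h m) P (I.pins m n o P) (fun k => P.xQ k - G.a m * P.xV k) (I.β m n o P) (I.Ψ m n o) (G.h m ^ 2)} ⊆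
      {o | ¬ ∀ P ∈ rims o,
        (∀ s ∈ I.pins m n o P, PvbIsPin G.𝔐 (G.h m) P s ∧ ∃ p : ℤ × ℤ, s.ctr = l9Pt (G.h m) p) ∧
        (∀ i i', i ≤ i' → i' ≤ P.len → (∀ k, i ≤ k → k ≤ i' → ‖P.v k - x‖ ≤ 2 * R) → G.r m ≤ ‖P.v i' - P.v i‖ → ∃ s ∈ I.pins m n o P, i ≤ s.idx ∧ s.idx ≤ i')} ∪
      {o | ¬ ∀ P ∈ rims o, PvbRealArc G.𝔐 x R (G.h m) P (I.pins m n o P) (fun k => P.xQ k - G.a m * P.xV k) (I.β m n o P) (I.Ψ m n o) (G.h m ^ 2)} := by
      intro o ho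
      by_contra hcon
      rw [mem_union, not_or] at hcon
      obtain ⟨h1, h2⟩ := hcon
      apply ho
      intro P hP
      have a1 := (not_not.1 h1) P hP
      have a2 := (not_not.1 h2) P hP
      exact ⟨a1.1, a1.2, a2⟩
    have h3 := ENNReal.toReal_mono (ENNReal.add_ne_top.2 ⟨measure_ne_top _ _, measure_ne_top _ _⟩) ((measure_mono hsub).trans (measure_union_le (μ := Pr n) _ _))
    rw [ENNReal.toReal_add (measure_ne_top _ _) (measure_ne_top _ _)] at h3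
    linarith
  · filter_upwards [I.Ψ_L2 hPr m p t hp] with n hn
    have := hPr n
    have hm : Measurable (fun o => ENNReal.ofReal (‖I.Ψ m n o (l9Pt (G.h m) p) t‖ ^ 2)) :=
      ((I.Ψ_meas m n (l9Pt (G.h m) p) t).norm.pow_const 2).ennreal_ofReal
    show pvUpInt (Pr n) _ ≤ _
    rw [pvup_int_of_meas (Pr n) hm]
    exact hn

end spine

/-! ## 4. THE U-FORM: the spine over UPPER EXPECTATIONS (`Defs/Up.lean`), no measurability at all

`PvtsInU` = `PvtsIn` FIELD BY FIELD with `(Pr n {..}).toReal ↦ ((Pr n).P {..}).toReal`, `∫⁻ o in U, F o ∂Pr n ↦ (Pr n).E (U.indicator F)`; the three fields (H6) `U_meas kout_meas ke_meas` are GONE, `Ω` carries no `MeasurableSpace`.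
Exit: `pvts_locU`.   Adapter from the measure form: `PvtsIn.toU`. -/

section spineU

variable {Ω : Type}

/-- **THE INPUT OF THE SPINE, U-FORM** -/
structure PvtsInU {τ : Type} {c : ℝ} (G : L9Glob τ c) (Pr : ℕ → PvUp Ω) (rims : Ω → Set PvbRim) (x : ℂ) (R : ℝ) where
  /-- the qualified pins of a rim -/
  pins : ℕ → ℕ → Ω → PvbRim → Set (PvbPin τ)
  /-- doors and words of level `m` -/
  Γ : ℕ → PvtsGeo τ
  /-- the three cell means of the field `Q - a_m V` -/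
  W : ℕ → ℕ → PvtW
  /-- the constant of the reference plug -/
  kin0 : ℕ → ℕ → ℂ
  /-- the candidate `(z,t)` is usable (its state exists and is good) -/
  U : ℕ → ℕ → ℂ → τ → Set Ω
  /-- `κ_out`, `κ_in` and the mean of the thick short link, evaluated at the state of the candidate `(z,t)` -/
  kout : ℕ → ℕ → ℂ → τ → Ω → ℂ
  kin : ℕ → ℕ → ℂ → τ → Ω → ℂ
  ke : ℕ → ℕ → ℂ → τ → Ω → ℂ
  /-- the patterns of level `m` -/
  Pat : ℕ → Type
  Pat_fin : ∀ m, Finite (Pat m)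
  pat : ∀ m, Pat m → PvtsPat τ
  pat_ok : ∀ m π, (Γ m).Ok (pat m π)
  /-- the arc `s → t` of the rim `P` fits the pattern -/
  Fit : ∀ m : ℕ, ℕ → Ω → PvbRim → PvbPin τ → PvbPin τ → Pat m → Prop
  fit_s : ∀ m n o P s t π, Fit m n o P s t π → s.ctr = (pat m π).zs ∧ s.typ = (pat m π).ts
  fit_t : ∀ m n o P s t π, Fit m n o P s t π → t.ctr = (pat m π).zt ∧ t.typ = (pat m π).tt
  fit_U : ∀ m n o P s t π, Fit m n o P s t π → o ∈ U m n t.ctr t.typ
  /-- (H1), chapter C: pins are pins, sit on the grid, are dense -/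
  pinsOK : PvbOrd (fun m n => ((Pr n).P {o | ¬ ∀ P ∈ rims o,
    (∀ s ∈ pins m n o P, PvbIsPin G.𝔐 (G.h m) P s ∧ ∃ p : ℤ × ℤ, s.ctr = l9Pt (G.h m) p) ∧
    (∀ i i', i ≤ i' → i' ≤ P.len → (∀ k, i ≤ k → k ≤ i' → ‖P.v k - x‖ ≤ 2 * R) → G.r m ≤ ‖P.v i' - P.v i‖ → ∃ s ∈ pins m n o P, i ≤ s.idx ∧ s.idx ≤ i')}).toReal)
  /-- (H2), TR20 COVER: every long pinned arc in the ball fits a pattern -/
  cover : PvbOrd (fun m n => ((Pr n).P {o | ¬ ∀ P ∈ rims o, ∀ s ∈ pins m n o P, ∀ t ∈ pins m n o P, s.idx < t.idx →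
    (∀ k, s.idx ≤ k → k ≤ t.idx → ‖P.v k - x‖ ≤ 2 * R) → R / 3 ≤ ‖s.ctr - t.ctr‖ → ∃ π : Pat m, Fit m n o P s t π}).toReal)
  /-- (H3), TR23 + TR2 + TR25: `I + ŷ` is small for the arcs which fit a fixed pattern -/
  n1 : ∀ m (π : Pat m) (u : ℝ), 0 < u → Tendsto (fun n => ((Pr n).P {o | ∃ P ∈ rims o, ∃ s ∈ pins m n o P, ∃ t ∈ pins m n o P, Fit m n o P s t π ∧
    u < ‖pvbArcI G.𝔐 (G.h m) P (fun k => P.xQ k - G.a m * P.xV k) s t +
      (kout m n t.ctr t.typ o + pvtSum (W m n) ((Γ m).dout (pat m π).tt) (pat m π).l + kin m n s.ctr s.typ o)‖}).toReal) atTop (𝓝 0)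
  /-- (H4a), TR3' + TR2: the `Σ₁` cycle -/
  cyc1 : ∀ m (p : ℤ × ℤ) t, ‖l9Pt (G.h m) p - x‖ ≤ 2 * R → Tendsto (fun n => (Pr n).E ((U m n (l9Pt (G.h m) p) t).indicator fun o =>
    ‖kout m n (l9Pt (G.h m) p) t o + pvtSum (W m n) ((Γ m).dout t) ((Γ m).l1 t) + kin0 m n + ke m n (l9Pt (G.h m) p) t o‖ₑ ^ 2)) atTop (𝓝 0)
  /-- (H4b), TR5 + Bessel: the thick short link -/
  Ce : ℝ
  thick : ∀ m (p : ℤ × ℤ) t, ‖l9Pt (G.h m) p - x‖ ≤ 2 * R → ∀ᶠ n in atTop,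
    (Pr n).E ((U m n (l9Pt (G.h m) p) t).indicator fun o => ‖ke m n (l9Pt (G.h m) p) t o‖ₑ ^ 2) ≤ ENNReal.ofReal (Ce * G.h m ^ 2)
  /-- (H5), TR27 + order of limits -/
  a_lim : ∀ m, Tendsto (fun n => (Γ m).a (W m n)) atTop (𝓝 0)
  rel_lim : ∀ m, Tendsto (fun n => (W m n).rel) atTop (𝓝 0)

namespace PvtsInU

variable {τ : Type} {c : ℝ} {G : L9Glob τ c} {Pr : ℕ → PvUp Ω} {rims : Ω → Set PvbRim} {x : ℂ} {R : ℝ} (I : PvtsInU G Pr rims x R)

/-- the common constant of level `(m,n)` -/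
noncomputable def cc (m n : ℕ) : ℂ := (I.Γ m).c0 (I.W m n) (I.kin0 m n)

open Classical in
/-- the terminal potential -/
noncomputable def Ψ (m n : ℕ) (o : Ω) (z : ℂ) (t : τ) : ℂ :=
  if o ∈ I.U m n z t then - (I.kout m n z t o + (I.Γ m).offO (I.W m n) t - I.cc m n) else 0

/-- the base potential -/
noncomputable def β (m n : ℕ) (o : Ω) (_P : PvbRim) (s : PvbPin τ) : ℂ :=
  - (I.kin m n s.ctr s.typ o + (I.Γ m).offI (I.W m n) s.typ) - I.cc m n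

/-- **TR30, deterministic**: the real arc defect is the `N1` defect plus the deterministic error of the pattern -/
theorem arc_eq {m n : ℕ} {o : Ω} {P : PvbRim} {s t : PvbPin τ} {π : I.Pat m} (hF : I.Fit m n o P s t π) (J : ℂ) :
    J - I.β m n o P s - I.Ψ m n o t.ctr t.typ =
      (J + (I.kout m n t.ctr t.typ o + pvtSum (I.W m n) ((I.Γ m).dout (I.pat m π).tt) (I.pat m π).l + I.kin m n s.ctr s.typ o))
        - ((I.Γ m).a (I.W m n) * ((I.pat m π).zs - (I.pat m π).zt) + (I.W m n).rel * pvtNR ((I.Γ m).dout (I.pat m π).tt) (I.pat m π).l) := by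
  have hU := I.fit_U m n o P s t π hF
  obtain ⟨hs1, hs2⟩ := I.fit_s m n o P s t π hF
  obtain ⟨ht1, ht2⟩ := I.fit_t m n o P s t π hF
  have hnf := (I.Γ m).nf (I.W m n) (I.pat_ok m π) (I.kout m n t.ctr t.typ o) (I.kin m n s.ctr s.typ o)
  unfold PvtsInU.Ψ PvtsInU.β
  rw [if_pos hU, hnf, hs2, ht2]
  ring

/-- the deterministic errors of the finitely many patterns of level `m` vanish as `n → ∞` -/
theorem err_small (m : ℕ) {u : ℝ} (hu : 0 < u) : ∀ᶠ n in atTop, ∀ π : I.Pat m,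
    ‖(I.Γ m).a (I.W m n) * ((I.pat m π).zs - (I.pat m π).zt) + (I.W m n).rel * pvtNR ((I.Γ m).dout (I.pat m π).tt) (I.pat m π).l‖ ≤ u := by
  have := I.Pat_fin m
  rw [eventually_all]
  intro π
  have h1 : Tendsto (fun n => (I.Γ m).a (I.W m n) * ((I.pat m π).zs - (I.pat m π).zt) + (I.W m n).rel * pvtNR ((I.Γ m).dout (I.pat m π).tt) (I.pat m π).l) atTop (𝓝 0) := by
    have := ((I.a_lim m).mul_const ((I.pat m π).zs - (I.pat m π).zt)).add ((I.rel_lim m).mul_const (pvtNR ((I.Γ m).dout (I.pat m π).tt) (I.pat m π).l))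
    simpa using this
  have h2 := h1.norm
  rw [norm_zero] at h2
  exact (h2.eventually (gt_mem_nhds hu)).mono fun n hn => hn.le

/-- the failure event of `N1` for some pattern -/
def badN1 (m n : ℕ) (u : ℝ) : Set Ω :=
  {o | ∃ π : I.Pat m, ∃ P ∈ rims o, ∃ s ∈ I.pins m n o P, ∃ t ∈ I.pins m n o P, I.Fit m n o P s t π ∧
    u < ‖pvbArcI G.𝔐 (G.h m) P (fun k => P.xQ k - G.a m * P.xV k) s t +
      (I.kout m n t.ctr t.typ o + pvtSum (I.W m n) ((I.Γ m).dout (I.pat m π).tt) (I.pat m π).l + I.kin m n s.ctr s.typ o)‖}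

theorem badN1_lim (m : ℕ) {u : ℝ} (hu : 0 < u) :
    Tendsto (fun n => ((Pr n).P (I.badN1 m n u)).toReal) atTop (𝓝 0) := by
  haveI := I.Pat_fin m
  letI := Fintype.ofFinite (I.Pat m)
  have hsum : Tendsto (fun n => ∑ π : I.Pat m, ((Pr n).P {o | ∃ P ∈ rims o, ∃ s ∈ I.pins m n o P, ∃ t ∈ I.pins m n o P, I.Fit m n o P s t π ∧
      u < ‖pvbArcI G.𝔐 (G.h m) P (fun k => P.xQ k - G.a m * P.xV k) s t +
        (I.kout m n t.ctr t.typ o + pvtSum (I.W m n) ((I.Γ m).dout (I.pat m π).tt) (I.pat m π).l + I.kin m n s.ctr s.typ o)‖}).toReal) atTop (𝓝 0) := by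
    have := tendsto_finsetSum (Finset.univ : Finset (I.Pat m)) (fun π _ => I.n1 m π u hu)
    simpa using this
  refine squeeze_zero (fun n => ENNReal.toReal_nonneg) (fun n => ?_) hsum
  have hU : I.badN1 m n u = ⋃ π ∈ (Finset.univ : Finset (I.Pat m)), {o | ∃ P ∈ rims o, ∃ s ∈ I.pins m n o P, ∃ t ∈ I.pins m n o P, I.Fit m n o P s t π ∧
      u < ‖pvbArcI G.𝔐 (G.h m) P (fun k => P.xQ k - G.a m * P.xV k) s t +
        (I.kout m n t.ctr t.typ o + pvtSum (I.W m n) ((I.Γ m).dout (I.pat m π).tt) (I.pat m π).l + I.kin m n s.ctr s.typ o)‖} := by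
    ext o
    simp only [PvtsInU.badN1, mem_ofPred_eq, mem_iUnion, Finset.mem_univ, exists_true_left]
  rw [hU, ← ENNReal.toReal_sum (fun π _ => (Pr n).P_ne_top _)]
  exact ENNReal.toReal_mono (ENNReal.sum_ne_top.2 fun π _ => (Pr n).P_ne_top _) ((Pr n).P_biUnion_le _ _)

/-- **TR30 REAL ARC**, inclusion of events -/
theorem real_sub {m n : ℕ} {E : ℝ}
    (herr : ∀ π : I.Pat m, ‖(I.Γ m).a (I.W m n) * ((I.pat m π).zs - (I.pat m π).zt) + (I.W m n).rel * pvtNR ((I.Γ m).dout (I.pat m π).tt) (I.pat m π).l‖ ≤ E / 2) :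
    {o | ¬ ∀ P ∈ rims o, PvbRealArc G.𝔐 x R (G.h m) P (I.pins m n o P) (fun k => P.xQ k - G.a m * P.xV k) (I.β m n o P) (I.Ψ m n o) E} ⊆
      {o | ¬ ∀ P ∈ rims o, ∀ s ∈ I.pins m n o P, ∀ t ∈ I.pins m n o P, s.idx < t.idx →
        (∀ k, s.idx ≤ k → k ≤ t.idx → ‖P.v k - x‖ ≤ 2 * R) → R / 3 ≤ ‖s.ctr - t.ctr‖ → ∃ π : I.Pat m, I.Fit m n o P s t π} ∪ I.badN1 m n (E / 2) := by
  intro o ho
  by_contra hno
  rw [mem_union, not_or] at hno
  obtain ⟨h1, h2⟩ := hno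
  simp only [Set.mem_ofPred_eq, not_not] at h1
  apply ho
  intro P hP s hs t ht hst hin hfar
  obtain ⟨π, hF⟩ := h1 P hP s hs t ht hst hin hfar
  rw [I.arc_eq hF]
  have h3 : ¬ (E / 2 < ‖pvbArcI G.𝔐 (G.h m) P (fun k => P.xQ k - G.a m * P.xV k) s t +
      (I.kout m n t.ctr t.typ o + pvtSum (I.W m n) ((I.Γ m).dout (I.pat m π).tt) (I.pat m π).l + I.kin m n s.ctr s.typ o)‖) := by
    intro h4
    exact h2 ⟨π, P, hP, s, hs, t, ht, hF, h4⟩
  rw [not_lt] at h3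
  calc _ ≤ _ + _ := norm_sub_le _ _
    _ ≤ E / 2 + E / 2 := add_le_add h3 (herr π)
    _ = E := by ring

/-- **TR30 REAL ARC**, ordered limit, for ANY positive error sequence -/
theorem real_ord (Err : ℕ → ℝ) (hE : ∀ m, 0 < Err m) :
    PvbOrd (fun m n => ((Pr n).P {o | ¬ ∀ P ∈ rims o,
      PvbRealArc G.𝔐 x R (G.h m) P (I.pins m n o P) (fun k => P.xQ k - G.a m * P.xV k) (I.β m n o P) (I.Ψ m n o) (Err m)}).toReal) := by
  intro η hη
  filter_upwards [I.cover (η / 2) (half_pos hη)] with m hm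
  have hb := (badN1_lim I m (half_pos (hE m))).eventually (Iic_mem_nhds (half_pos hη))
  filter_upwards [hm, hb, err_small I m (half_pos (hE m))] with n h1 h2 h3
  have hsub := real_sub I h3
  calc _ ≤ ((Pr n).P (_ ∪ _)).toReal := ENNReal.toReal_mono ((Pr n).P_ne_top _) ((Pr n).P_mono hsub)
    _ ≤ ((Pr n).P _ + (Pr n).P _).toReal := ENNReal.toReal_mono (ENNReal.add_ne_top.2 ⟨(Pr n).P_ne_top _, (Pr n).P_ne_top _⟩) ((Pr n).P_union_le _ _)
    _ = ((Pr n).P _).toReal + ((Pr n).P _).toReal := ENNReal.toReal_add ((Pr n).P_ne_top _) ((Pr n).P_ne_top _)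
    _ ≤ η / 2 + η / 2 := add_le_add h1 h2
    _ = η := by ring

/-- **TR31 `Σ₁`**: the `L²` bound of the terminal potential -/
theorem Ψ_L2 (m : ℕ) (p : ℤ × ℤ) (t : τ) (hp : ‖l9Pt (G.h m) p - x‖ ≤ 2 * R) : ∀ᶠ n in atTop,
    (Pr n).E (fun o => ENNReal.ofReal (‖I.Ψ m n o (l9Pt (G.h m) p) t‖ ^ 2)) ≤ ENNReal.ofReal (3 * (|I.Ce| + 2) * G.h m ^ 2) := by
  have hh : 0 < G.h m ^ 2 := pow_pos (G.h0 m) 2
  have hh' : (0 : ℝ≥0∞) < ENNReal.ofReal (G.h m ^ 2) := ENNReal.ofReal_pos.2 hh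
  -- the deterministic error
  have hD : Tendsto (fun n => (I.Γ m).a (I.W m n) * (I.Γ m).zu t + (I.W m n).rel * pvtNR ((I.Γ m).dout t) ((I.Γ m).l1 t)) atTop (𝓝 0) := by
    have h1 := ((I.a_lim m).mul_const ((I.Γ m).zu t)).add ((I.rel_lim m).mul_const (pvtNR ((I.Γ m).dout t) ((I.Γ m).l1 t)))
    rwa [zero_mul, zero_mul, add_zero] at h1
  have hD2 : ∀ᶠ n in atTop, ‖(I.Γ m).a (I.W m n) * (I.Γ m).zu t + (I.W m n).rel * pvtNR ((I.Γ m).dout t) ((I.Γ m).l1 t)‖ ^ 2 ≤ G.h m ^ 2 := by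
    have h2 := (hD.norm).pow 2
    rw [norm_zero, zero_pow two_ne_zero] at h2
    exact h2.eventually (Iic_mem_nhds hh)
  have hC := (I.cyc1 m p t hp).eventually (Iic_mem_nhds hh')
  filter_upwards [hD2, hC, I.thick m p t hp] with n h1 h2 h3
  set z := l9Pt (G.h m) p with hz
  set Dn := (I.Γ m).a (I.W m n) * (I.Γ m).zu t + (I.W m n).rel * pvtNR ((I.Γ m).dout t) ((I.Γ m).l1 t) with hDn
  -- pointwise majorant
  have hpt : ∀ o, ENNReal.ofReal (‖I.Ψ m n o z t‖ ^ 2) ≤ 3 * (((I.U m n z t).indicator (fun o =>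
      ‖I.kout m n z t o + pvtSum (I.W m n) ((I.Γ m).dout t) ((I.Γ m).l1 t) + I.kin0 m n + I.ke m n z t o‖ₑ ^ 2) o
        + (I.U m n z t).indicator (fun o => ‖I.ke m n z t o‖ₑ ^ 2) o) + ‖Dn‖ₑ ^ 2 * 1) := by
    intro o
    by_cases ho : o ∈ I.U m n z t
    · rw [indicator_of_mem ho, indicator_of_mem ho, pvts_ofReal_sq, mul_one]
      have e : I.Ψ m n o z t = - ((I.kout m n z t o + pvtSum (I.W m n) ((I.Γ m).dout t) ((I.Γ m).l1 t) + I.kin0 m n + I.ke m n z t o) + (- I.ke m n z t o) + (- Dn)) := by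
        unfold PvtsInU.Ψ
        rw [if_pos ho, (I.Γ m).nf1 (I.W m n) t]
        congr 1
        unfold PvtsInU.cc
        rw [hDn]
        ring
      rw [e, enorm_neg]
      refine (pvts_add3_sq _ _ _).trans ?_
      rw [enorm_neg, enorm_neg]
    · have e : I.Ψ m n o z t = 0 := by
        unfold PvtsInU.Ψ
        rw [if_neg ho]
      rw [e]
      simp
  have e2 : ‖Dn‖ₑ ^ 2 ≤ ENNReal.ofReal (G.h m ^ 2) := by
    rw [← pvts_ofReal_sq]
    exact ENNReal.ofReal_le_ofReal h1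
  have e1 : (Pr n).E ((I.U m n z t).indicator fun o => ‖I.ke m n z t o‖ₑ ^ 2) ≤ ENNReal.ofReal (|I.Ce| * G.h m ^ 2) :=
    h3.trans (ENNReal.ofReal_le_ofReal (mul_le_mul_of_nonneg_right (le_abs_self _) hh.le))
  have hDtop : ‖Dn‖ₑ ^ 2 ≠ ⊤ := ENNReal.pow_ne_top enorm_ne_top
  calc _ ≤ (Pr n).E (fun o => 3 * (((I.U m n z t).indicator (fun o =>
      ‖I.kout m n z t o + pvtSum (I.W m n) ((I.Γ m).dout t) ((I.Γ m).l1 t) + I.kin0 m n + I.ke m n z t o‖ₑ ^ 2) o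
        + (I.U m n z t).indicator (fun o => ‖I.ke m n z t o‖ₑ ^ 2) o) + ‖Dn‖ₑ ^ 2 * 1)) := (Pr n).mono hpt
    _ ≤ 3 * (((Pr n).E ((I.U m n z t).indicator (fun o =>
      ‖I.kout m n z t o + pvtSum (I.W m n) ((I.Γ m).dout t) ((I.Γ m).l1 t) + I.kin0 m n + I.ke m n z t o‖ₑ ^ 2))
        + (Pr n).E ((I.U m n z t).indicator (fun o => ‖I.ke m n z t o‖ₑ ^ 2))) + ‖Dn‖ₑ ^ 2 * (Pr n).E (fun _ => 1)) := by
        refine ((Pr n).smul_le 3 _ (by norm_num)).trans ?_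
        gcongr
        refine ((Pr n).add_le _ _).trans ?_
        exact add_le_add ((Pr n).add_le _ _) ((Pr n).smul_le _ _ hDtop)
    _ ≤ 3 * (ENNReal.ofReal (G.h m ^ 2) + ENNReal.ofReal (|I.Ce| * G.h m ^ 2) + ENNReal.ofReal (G.h m ^ 2)) := by
        have h4 : ‖Dn‖ₑ ^ 2 * (Pr n).E (fun _ => 1) ≤ ENNReal.ofReal (G.h m ^ 2) := by
          calc _ ≤ ‖Dn‖ₑ ^ 2 * 1 := by gcongr; exact (Pr n).one_le
            _ ≤ _ := by rw [mul_one]; exact e2
        gcongr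
    _ = ENNReal.ofReal (3 * (|I.Ce| + 2) * G.h m ^ 2) := by
        rw [← ENNReal.ofReal_add hh.le (by positivity), ← ENNReal.ofReal_add (by positivity) hh.le]
        rw [show (3 : ℝ≥0∞) = ENNReal.ofReal 3 by simp, ← ENNReal.ofReal_mul (by norm_num)]
        congr 1
        ring

end PvtsInU

/-- **TR32 EXPORT: THE EXIT OF THE SPINE, U-FORM** (any upper expectations, no measurability) -/
theorem pvts_locU {τ : Type} {c : ℝ} (c0 : 0 < c) {G : L9Glob τ c} {Pr : ℕ → PvUp Ω} {rims : Ω → Set PvbRim} {x : ℂ} {R : ℝ}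
    (I : PvtsInU G Pr rims x R) : Nonempty (L9Loc G Pr rims x R) := by
  have hE : ∀ m, 0 < G.h m ^ 2 := fun m => by have := G.h0 m; positivity
  refine ⟨{ Err := fun m => G.h m ^ 2
            Err0 := fun m => (hE m).le
            lim1 := pvts_lim1 c0 G
            pins := I.pins
            β := I.β
            Ψ := I.Ψ
            good := ?_
            CΨ := 3 * (|I.Ce| + 2)
            Ψ_L2 := fun m p t hp => I.Ψ_L2 m p t hp }⟩
  intro η hη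
  filter_upwards [I.pinsOK (η / 2) (by positivity), I.real_ord (fun m => G.h m ^ 2) hE (η / 2) (by positivity)] with m a1 a2
  filter_upwards [a1, a2] with n b1 b2
  have hsub : {o | ¬ ∀ P ∈ rims o,
      (∀ s ∈ I.pins m n o P, PvbIsPin G.𝔐 (G.h m) P s ∧ ∃ p : ℤ × ℤ, s.ctr = l9Pt (G.h m) p) ∧
      (∀ i i', i ≤ i' → i' ≤ P.len → (∀ k, i ≤ k → k ≤ i' → ‖P.v k - x‖ ≤ 2 * R) → G.r m ≤ ‖P.v i' - P.v i‖ → ∃ s ∈ I.pins m n o P, i ≤ s.idx ∧ s.idx ≤ i') ∧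
      PvbRealArc G.𝔐 x R (G.h m) P (I.pins m n o P) (fun k => P.xQ k - G.a m * P.xV k) (I.β m n o P) (I.Ψ m n o) (G.h m ^ 2)} ⊆
    {o | ¬ ∀ P ∈ rims o,
      (∀ s ∈ I.pins m n o P, PvbIsPin G.𝔐 (G.h m) P s ∧ ∃ p : ℤ × ℤ, s.ctr = l9Pt (G.h m) p) ∧
      (∀ i i', i ≤ i' → i' ≤ P.len → (∀ k, i ≤ k → k ≤ i' → ‖P.v k - x‖ ≤ 2 * R) → G.r m ≤ ‖P.v i' - P.v i‖ → ∃ s ∈ I.pins m n o P, i ≤ s.idx ∧ s.idx ≤ i')} ∪
    {o | ¬ ∀ P ∈ rims o, PvbRealArc G.𝔐 x R (G.h m) P (I.pins m n o P) (fun k => P.xQ k - G.a m * P.xV k) (I.β m n o P) (I.Ψ m n o) (G.h m ^ 2)} := by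
    intro o ho
    by_contra hcon
    rw [mem_union, not_or] at hcon
    obtain ⟨h1, h2⟩ := hcon
    apply ho
    intro P hP
    have a1 := (not_not.1 h1) P hP
    have a2 := (not_not.1 h2) P hP
    exact ⟨a1.1, a1.2, a2⟩
  have h3 := ENNReal.toReal_mono (ENNReal.add_ne_top.2 ⟨(Pr n).P_ne_top _, (Pr n).P_ne_top _⟩) (((Pr n).P_mono hsub).trans ((Pr n).P_union_le _ _))
  rw [ENNReal.toReal_add ((Pr n).P_ne_top _) ((Pr n).P_ne_top _)] at h3
  linarith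

/-- the U-form is MONOTONE in the upper expectations -/
def PvtsInU.of_le {τ : Type} {c : ℝ} {G : L9Glob τ c} {Pr Pr' : ℕ → PvUp Ω} {rims : Ω → Set PvbRim} {x : ℂ} {R : ℝ}
    (I : PvtsInU G Pr rims x R) (hle : ∀ n F, (Pr' n).E F ≤ (Pr n).E F) : PvtsInU G Pr' rims x R where
  pins := I.pins
  Γ := I.Γ
  W := I.W
  kin0 := I.kin0
  U := I.U
  kout := I.kout
  kin := I.kin
  ke := I.ke
  Pat := I.Pat
  Pat_fin := I.Pat_fin
  pat := I.pat
  pat_ok := I.pat_ok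
  Fit := I.Fit
  fit_s := I.fit_s
  fit_t := I.fit_t
  fit_U := I.fit_U
  pinsOK := fun η hη => (I.pinsOK η hη).mono fun m hm => hm.mono fun n hn =>
    (ENNReal.toReal_mono ((Pr n).P_ne_top _) (hle n _)).trans hn
  cover := fun η hη => (I.cover η hη).mono fun m hm => hm.mono fun n hn =>
    (ENNReal.toReal_mono ((Pr n).P_ne_top _) (hle n _)).trans hn
  n1 := fun m π u hu => squeeze_zero (fun _ => ENNReal.toReal_nonneg)
    (fun n => ENNReal.toReal_mono ((Pr n).P_ne_top _) (hle n _)) (I.n1 m π u hu)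
  cyc1 := fun m p t hp => tendsto_of_tendsto_of_tendsto_of_le_of_le tendsto_const_nhds (I.cyc1 m p t hp)
    (fun _ => zero_le) (fun n => hle n _)
  Ce := I.Ce
  thick := fun m p t hp => (I.thick m p t hp).mono fun n hn => (hle n _).trans hn
  a_lim := I.a_lim
  rel_lim := I.rel_lim

end spineU

/-- the measure form (with its three measurability fields) is an instance of the U-form -/
def PvtsIn.toU {Ω : Type} [MeasurableSpace Ω] {τ : Type} {c : ℝ} {G : L9Glob τ c} {Pr : ℕ → Measure Ω} (hPr : ∀ n, IsProbabilityMeasure (Pr n))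
    {rims : Ω → Set PvbRim} {x : ℂ} {R : ℝ} (I : PvtsIn G Pr rims x R) :
    PvtsInU G (fun n => @PvUp.ofMeasure _ _ (Pr n) (hPr n)) rims x R where
  pins := I.pins
  Γ := I.Γ
  W := I.W
  kin0 := I.kin0
  U := I.U
  kout := I.kout
  kin := I.kin
  ke := I.ke
  Pat := I.Pat
  Pat_fin := I.Pat_fin
  pat := I.pat
  pat_ok := I.pat_ok
  Fit := I.Fit
  fit_s := I.fit_s
  fit_t := I.fit_t
  fit_U := I.fit_U
  pinsOK := by
    have h := I.pinsOK
    simp only [pvup_ofMeasure_P]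
    exact h
  cover := by
    have h := I.cover
    simp only [pvup_ofMeasure_P]
    exact h
  n1 := by
    have h := I.n1
    simp only [pvup_ofMeasure_P]
    exact h
  cyc1 := fun m p t hp => by
    have h := I.cyc1 m p t hp
    refine h.congr fun n => ?_
    have hm : Measurable ((I.U m n (l9Pt (G.h m) p) t).indicator fun o =>
        ‖I.kout m n (l9Pt (G.h m) p) t o + pvtSum (I.W m n) ((I.Γ m).dout t) ((I.Γ m).l1 t) + I.kin0 m n + I.ke m n (l9Pt (G.h m) p) t o‖ₑ ^ 2) :=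
      (((((I.kout_meas m n _ t).add_const _).add_const _).add (I.ke_meas m n _ t)).enorm.pow_const 2).indicator (I.U_meas m n _ t)
    show _ = pvUpInt (Pr n) _
    rw [pvup_int_of_meas (Pr n) hm, lintegral_indicator (I.U_meas m n _ t)]
  Ce := I.Ce
  thick := fun m p t hp => by
    refine (I.thick m p t hp).mono fun n hn => ?_
    have hm : Measurable ((I.U m n (l9Pt (G.h m) p) t).indicator fun o => ‖I.ke m n (l9Pt (G.h m) p) t o‖ₑ ^ 2) :=
      ((I.ke_meas m n _ t).enorm.pow_const 2).indicator (I.U_meas m n _ t)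
    show pvUpInt (Pr n) _ ≤ _
    rw [pvup_int_of_meas (Pr n) hm, lintegral_indicator (I.U_meas m n _ t)]
    exact hn
  a_lim := I.a_lim
  rel_lim := I.rel_lim

end Claimed.Agent.R289
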