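-- KEEP
import Claimed.Agent.R289.Tr.Spine

/-!
# Row 289 (S0537, Cardy for Poisson-Voronoi), THE WALL, file Tr/Hub : THE MASTER THEOREM OF THE WALL      (helper73; prefix `pvhb_`, `Pvhb`)

Post of the captain (234, ruling 5): "(exits of chapters A-E as hypotheses) => fields `good` + `Psi_L2` of `PvbIn`; glue compiled first; you tell every block the exact shape you consume".

LEVELS.   0 = `L9ExitTR c` (161, `Cr/Inst.lean`)   <=   1 = `pvts_loc : PvtsIn G Pr rims x R → Nonempty (L9Loc G Pr rims x R)` (129, `Tr/Spine.lean`)   <=   2 = THIS FILE.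

WHAT THE HUB DOES ITSELF (nobody upstream has to think about it):
* NO SEQUENCE, NO SUBSEQUENCE UPSTREAM.   Every exit of a chapter is a statement along the filter `ε ↓ 0` (`𝓝[>] 0`) for the laws `Pr ε`.   Ordered limits are `PvhbOrd`: first `ε ↓ 0` at fixed level `m`, then `m → ∞`.
* THE SCALAR IS A FREE PARAMETER UPSTREAM.   The field of record is `y_a = xQ - a xV` with an ARBITRARY `a : ℂ`; the engine (TR1-TR7), N1' (TR23), the cycles (TR3', TR5) are run for this ONE linear field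
  (its closed-sum tail is the tail of `Q`, because closed `V` sums vanish).
* DIAGONAL EXTRACTION (`pvhb_diag`): `A m ε = α^Q / δ_m` is bounded as `ε ↓ 0`;  given `ε_n ↓ 0` the hub extracts `φ` (in `n`), `a_m = lim_n A m ε_{φ n}`, `ψ` (in `m`), `a_∞ = lim a_{ψ m}`,
  builds `G : L9Glob` (levels `ψ m`) and evaluates all fields at `a := a_{ψ m}`.      This is the ONLY place where a subsequence is extracted; `φ`, `G` depend only on the NUMBERS `PvhbNum` and on the sequence.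

RECORDS.
* `PvhbNum τ c`      NUMBERS (no sample space): menu, scales `h r`, doors `Γ m`, cell means `W m ε a`, reference constant `kin0 m ε a`, scalar `A m ε`.      OWNERS: chapter E (125 251 218 69 283 195), scales: 247.
* `PvhbLoc N Pr rims x R`      RANDOM VARIABLES AND EVENTS on an arbitrary sample space `Ω` with laws `Pr ε`, for one random set of rims and one ball.      = `PvtsIn` of 129 with `n` replaced by `ε` and the extra argument `a`.
   Intended instance: `Ω = PVSample`, `Pr = pvLaw`, `rims x R ω` = the encoded reaching rims of ALL completions (115, `Cr/All.lean`);   the record is generic, so it also fits `PVSample × (X → Bool)`.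
EXITS.   `pvhb_main` (=> `PvtsIn`),  `pvhb_loc` (=> `L9Loc`),  `pvhb_exit` (=> `L9ExitTR c`).

RULING H1 (09:36Z, after 12 and 187): **THE RECORD OF THE EXIT IS `PvhbLocU N (Pr : ℝ → PvUp Ω) rims x R`** (sec.9) = `PvhbLoc` field by field over UPPER EXPECTATIONS, without the three measurability fields.
   NODE OF THE WALL: `∀ x R, 0 < R → Nonempty (PvhbLocU N pvhbUp (fun q => pvhbAll x R (pvMerge q)) x R)`,   `pvhbUp ε = PvUp.iter (pvGeo ε) pvCol` on `PvGeoT × PvColT`;      `pvhb_exit_up` (=> `L9ExitTR c`).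
   sec.8 `PvhbInU`, `pvhb_spineU` = the spine of 129 over `PvUp`;   adapters `PvhbLoc.toU`, `PvhbLoc.toUp` (MEASURE form => record of the exit), `PvhbLocU.comap`, `PvhbLocU.of_le`, `pvhb_up_le_law`.
   HOW TO BOUND `pvhbUp ε`:   any event by its joint outer measure (`pvup_iter_P_le`), jointly measurable majorants (`pvup_iter_E_le`), QUENCHED bounds `∀ g, ∫* F(g,·) dκ ≤ w g`, `w` measurable (`pvup_iter_E_quenched`).
   sec.10 TOOLKIT: `pvhb_int_ae`, `pvhb_int_of_ae`, `pvhb_iter_E_ae`, `pvhb_iter_P_ae` (ALMOST EVERY geometry, a.e. measurable majorant), `pvhb_iter_P_split`, `pvhb_iter_E_split`, `pvhb_up_P_split` (bad geometries split off, outer measure),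
   `pvhb_up_P_law`, `pvhb_up_P_conf`, `pvhb_up_E_conf`, `pvhb_up_P_geo` (transfer from `pvLaw ε`, `pvP ε`, `pvGeo ε`: outer measures, a.e. majorants).
-/

set_option autoImplicit false

namespace Claimed.Agent.R289

open MeasureTheory Filter Topology Set
open scoped ENNReal

/-! ## 0. ordered limits along `ε ↓ 0` -/

/-- `p m ε → 0` in the ORDERED limit: first `ε ↓ 0` at fixed `m`, then `m → ∞` -/
def PvhbOrd (p : ℕ → ℝ → ℝ) : Prop := ∀ η : ℝ, 0 < η → ∀ᶠ m in atTop, ∀ᶠ ε in 𝓝[>] (0 : ℝ), p m ε ≤ η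

theorem PvhbOrd.comp {p : ℕ → ℝ → ℝ} (hp : PvhbOrd p) {ψ : ℕ → ℕ} (hψ : Tendsto ψ atTop atTop) {es : ℕ → ℝ} (hes : Tendsto es atTop (𝓝[>] (0 : ℝ))) :
    PvbOrd (fun m n => p (ψ m) (es n)) :=
  fun η hη => (hψ.eventually (hp η hη)).mono fun _ hm => hes.eventually hm

theorem PvhbOrd.mono {p q : ℕ → ℝ → ℝ} (hq : PvhbOrd q) (h : ∀ m ε, p m ε ≤ q m ε) : PvhbOrd p :=
  fun η hη => (hq η hη).mono fun m hm => hm.mono fun ε hε => (h m ε).trans hε

theorem PvhbOrd.add {p q : ℕ → ℝ → ℝ} (hp : PvhbOrd p) (hq : PvhbOrd q) : PvhbOrd (fun m ε => p m ε + q m ε) := by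
  intro η hη
  filter_upwards [hp (η / 2) (by positivity), hq (η / 2) (by positivity)] with m h1 h2
  filter_upwards [h1, h2] with ε a1 a2
  linarith

/-- a fixed-level limit `ε ↓ 0` is an ordered limit -/
theorem PvhbOrd.of_tendsto {p : ℕ → ℝ → ℝ} (h : ∀ m, Tendsto (p m) (𝓝[>] (0 : ℝ)) (𝓝 0)) : PvhbOrd p :=
  fun _ hη => Eventually.of_forall fun m => ((h m).eventually (gt_mem_nhds hη)).mono fun _ hε => le_of_lt hε

/-- a positive sequence which tends to `0` tends to `0` from the right -/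
theorem pvhb_seq {es : ℕ → ℝ} (h0 : ∀ n, 0 < es n) (he : Tendsto es atTop (𝓝 0)) : Tendsto es atTop (𝓝[>] (0 : ℝ)) :=
  tendsto_nhdsWithin_iff.2 ⟨he, Eventually.of_forall h0⟩

/-! ## 1. the diagonal extraction -/

/-- **DIAGONAL EXTRACTION**: the only place of the wall where subsequences are chosen -/
theorem pvhb_diag (A : ℕ → ℝ → ℂ) (CA : ℝ) (hA : ∀ m, ∀ᶠ ε in 𝓝[>] (0 : ℝ), ‖A m ε‖ ≤ CA) (es : ℕ → ℝ) (hes : Tendsto es atTop (𝓝[>] (0 : ℝ))) :
    ∃ φ : ℕ → ℕ, StrictMono φ ∧ ∃ ψ : ℕ → ℕ, StrictMono ψ ∧ ∃ (a : ℕ → ℂ) (ainf : ℂ), (∀ m, ‖a m‖ ≤ CA) ∧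
      (∀ m, Tendsto (fun n => A m (es (φ n))) atTop (𝓝 (a m))) ∧ Tendsto (fun m => a (ψ m)) atTop (𝓝 ainf) := by
  classical
  have hCA : 0 ≤ CA := by
    obtain ⟨ε, hε⟩ := (hA 0).exists
    exact (norm_nonneg _).trans hε
  -- the clipped double sequence
  set B : ℕ → ℕ → ℂ := fun n m => if ‖A m (es n)‖ ≤ CA then A m (es n) else 0 with hB
  have hBmem : ∀ n, B n ∈ Set.pi (univ : Set ℕ) (fun _ => Metric.closedBall (0 : ℂ) CA) := by
    intro n m _
    rw [mem_closedBall_zero_iff]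
    by_cases h : ‖A m (es n)‖ ≤ CA
    · simp only [hB, if_pos h]; exact h
    · simp only [hB, if_neg h, norm_zero]; exact hCA
  have hK : IsCompact (Set.pi (univ : Set ℕ) (fun _ => Metric.closedBall (0 : ℂ) CA)) :=
    isCompact_univ_pi fun _ => isCompact_closedBall _ _
  obtain ⟨a, ha, φ, hφ, hlim⟩ := hK.tendsto_subseq hBmem
  have ha' : ∀ m, ‖a m‖ ≤ CA := fun m => mem_closedBall_zero_iff.1 (ha m (mem_univ m))
  obtain ⟨ainf, -, ψ, hψ, hlim2⟩ := (isCompact_closedBall (0 : ℂ) CA).tendsto_subseq (x := a) fun m => mem_closedBall_zero_iff.2 (ha' m)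
  refine ⟨φ, hφ, ψ, hψ, a, ainf, ha', fun m => ?_, hlim2⟩
  have h1 : Tendsto (fun n => B (φ n) m) atTop (𝓝 (a m)) := (tendsto_pi_nhds.1 hlim) m
  have h2 : ∀ᶠ n in atTop, ‖A m (es (φ n))‖ ≤ CA := (hes.comp hφ.tendsto_atTop).eventually (hA m)
  refine h1.congr' (h2.mono fun n hn => ?_)
  simp only [hB, if_pos hn]

/-! ## 2. the numbers of the wall -/

/-- **THE NUMBERS OF THE WALL** (no sample space).      `m` = level (`h_m ↓ 0`, `δ_m = (Γ m).δ` chosen as a function of `h_m`), `ε` = mesh, `a` = the free scalar of the field `y_a = xQ - a xV`. -/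
structure PvhbNum (τ : Type) (c : ℝ) where
  /-- the numbers of the finite menu -/
  𝔐 : PvbMenu τ
  /-- the scale of the pins -/
  h : ℕ → ℝ
  /-- the density scale `r = h^(1-κ)` -/
  r : ℕ → ℝ
  h0 : ∀ m, 0 < h m
  h_lim : Tendsto h atTop (𝓝 0)
  r_lim : Tendsto r atTop (𝓝 0)
  Lh_r : ∀ᶠ m in atTop, 4 * 𝔐.L * h m ≤ r m
  lim2 : Tendsto (fun m => r m * h m ^ (-1 + c / 2)) atTop (𝓝 0)
  /-- doors and reference words of level `m` -/
  Γ : ℕ → PvtsGeo τ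
  /-- the three cell means of the field `y_a` at level `m`, mesh `ε` (TR25) -/
  W : ℕ → ℝ → ℂ → PvtW
  /-- the constant of the reference plug -/
  kin0 : ℕ → ℝ → ℂ → ℂ
  /-- `A m ε = α^Q / δ_m` -/
  A : ℕ → ℝ → ℂ
  CA : ℝ
  /-- TR28 (ii): Bessel at the scale of the cells + scaling -/
  A_bdd : ∀ m, ∀ᶠ ε in 𝓝[>] (0 : ℝ), ‖A m ε‖ ≤ CA
  /-- linearity of the means in the field + TR28 (i): `α^V = δ` EXACTLY -/
  cell_a : ∀ m, ∀ᶠ ε in 𝓝[>] (0 : ℝ), ∀ a : ℂ, (Γ m).a (W m ε a) = A m ε - a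
  /-- TR27 (hexagon) -/
  rel_lim : ∀ m (a : ℂ), Tendsto (fun ε => (W m ε a).rel) (𝓝[>] (0 : ℝ)) (𝓝 0)

/-- the global record of 161 along the levels `ψ m` -/
def PvhbNum.toGlob {τ : Type} {c : ℝ} (N : PvhbNum τ c) (ψ : ℕ → ℕ) (hψ : Tendsto ψ atTop atTop) (a : ℕ → ℂ) (ainf : ℂ)
    (ha : Tendsto (fun m => a (ψ m)) atTop (𝓝 ainf)) : L9Glob τ c where
  𝔐 := N.𝔐
  h := fun m => N.h (ψ m)
  r := fun m => N.r (ψ m)
  a := fun m => a (ψ m)
  ainf := ainf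
  h0 := fun m => N.h0 (ψ m)
  h_lim := N.h_lim.comp hψ
  r_lim := N.r_lim.comp hψ
  Lh_r := hψ.eventually N.Lh_r
  lim2 := N.lim2.comp hψ
  a_lim := ha

/-! ## 3. the exits of the chapters -/

section loc

variable {Ω : Type} [MeasurableSpace Ω]

/-- **THE EXITS OF CHAPTERS A-E** for one family of laws `Pr ε`, one random set of rims, one ball.      (`PvtsIn` of 129 with `n ↦ ε` and the free scalar `a`.) -/
structure PvhbLoc {τ : Type} {c : ℝ} (N : PvhbNum τ c) (Pr : ℝ → Measure Ω) (rims : Ω → Set PvbRim) (x : ℂ) (R : ℝ) where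
  /-- the qualified pins of a rim   [chapter C: 273; Tr/Defs: 216 25 150] -/
  pins : ℕ → ℝ → Ω → PvbRim → Set (PvbPin τ)
  /-- the candidate `(z,t)` is usable (its state exists and is good) -/
  U : ℕ → ℝ → ℂ → τ → Set Ω
  /-- `κ_out`, `κ_in`, mean of the thick short link, for the field `y_a`, evaluated at the state of the candidate `(z,t)`:   arguments `m ε a z t ω` -/
  kout : ℕ → ℝ → ℂ → ℂ → τ → Ω → ℂ
  kin : ℕ → ℝ → ℂ → ℂ → τ → Ω → ℂ
  ke : ℕ → ℝ → ℂ → ℂ → τ → Ω → ℂ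
  /-- the patterns of level `m` in the patch -/
  Pat : ℕ → Type
  Pat_fin : ∀ m, Finite (Pat m)
  pat : ∀ m, Pat m → PvtsPat τ
  pat_ok : ∀ m π, (N.Γ m).Ok (pat m π)
  /-- the arc `s → t` of the rim `P` fits the pattern -/
  Fit : ∀ m : ℕ, ℝ → Ω → PvbRim → PvbPin τ → PvbPin τ → Pat m → Prop
  fit_s : ∀ m ε o P s t π, Fit m ε o P s t π → s.ctr = (pat m π).zs ∧ s.typ = (pat m π).ts
  fit_t : ∀ m ε o P s t π, Fit m ε o P s t π → t.ctr = (pat m π).zt ∧ t.typ = (pat m π).tt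
  fit_U : ∀ m ε o P s t π, Fit m ε o P s t π → o ∈ U m ε t.ctr t.typ
  /-- (H1) CHAPTER C (273 212 101 238 13 281): pins are pins (near, TRAP), sit on the grid, are DENSE -/
  pinsOK : PvhbOrd (fun m ε => (Pr ε {o | ¬ ∀ P ∈ rims o,
    (∀ s ∈ pins m ε o P, PvbIsPin N.𝔐 (N.h m) P s ∧ ∃ p : ℤ × ℤ, s.ctr = l9Pt (N.h m) p) ∧
    (∀ i i', i ≤ i' → i' ≤ P.len → (∀ k, i ≤ k → k ≤ i' → ‖P.v k - x‖ ≤ 2 * R) → N.r m ≤ ‖P.v i' - P.v i‖ → ∃ s ∈ pins m ε o P, i ≤ s.idx ∧ s.idx ≤ i')}).toReal)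
  /-- (H2) TR20 COVER (240 236 151 164; FIT/RING: 211 20 39 292 222): every long pinned arc in the ball fits a pattern -/
  cover : PvhbOrd (fun m ε => (Pr ε {o | ¬ ∀ P ∈ rims o, ∀ s ∈ pins m ε o P, ∀ t ∈ pins m ε o P, s.idx < t.idx →
    (∀ k, s.idx ≤ k → k ≤ t.idx → ‖P.v k - x‖ ≤ 2 * R) → R / 3 ≤ ‖s.ctr - t.ctr‖ → ∃ π : Pat m, Fit m ε o P s t π}).toReal)
  /-- (H3) N1' = TR23 (208 6 159 141 252 193) + TR2 (175) + TR25 (69 125): `I + ŷ` is small for the arcs which fit a fixed pattern -/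
  n1 : ∀ (a : ℂ) (m : ℕ) (π : Pat m) (u : ℝ), 0 < u → Tendsto (fun ε => (Pr ε {o | ∃ P ∈ rims o, ∃ s ∈ pins m ε o P, ∃ t ∈ pins m ε o P, Fit m ε o P s t π ∧
    u < ‖pvbArcI N.𝔐 (N.h m) P (fun k => P.xQ k - a * P.xV k) s t +
      (kout m ε a t.ctr t.typ o + pvtSum (N.W m ε a) ((N.Γ m).dout (pat m π).tt) (pat m π).l + kin m ε a s.ctr s.typ o)‖}).toReal) (𝓝[>] (0 : ℝ)) (𝓝 0)
  /-- (H4a) TR3' + TR2 + TR25 (175 95 58): the `Σ₁` cycle  `t -thin chain l1-> u (reference type, integrated) -THICK SHORT link-> t` -/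
  cyc1 : ∀ (a : ℂ) (m : ℕ) (p : ℤ × ℤ) (t : τ), ‖l9Pt (N.h m) p - x‖ ≤ 2 * R → Tendsto (fun ε => ∫⁻ o in U m ε (l9Pt (N.h m) p) t,
    ‖kout m ε a (l9Pt (N.h m) p) t o + pvtSum (N.W m ε a) ((N.Γ m).dout t) ((N.Γ m).l1 t) + N.kin0 m ε a + ke m ε a (l9Pt (N.h m) p) t o‖ₑ ^ 2 ∂(Pr ε)) (𝓝[>] (0 : ℝ)) (𝓝 0)
  /-- (H4b) TR5 + I.BES + masks (223 165 140): the thick short link, UNIFORMLY in `‖a‖ ≤ CA` -/
  Ce : ℝ
  thick : ∀ (a : ℂ), ‖a‖ ≤ N.CA → ∀ (m : ℕ) (p : ℤ × ℤ) (t : τ), ‖l9Pt (N.h m) p - x‖ ≤ 2 * R → ∀ᶠ ε in 𝓝[>] (0 : ℝ),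
    ∫⁻ o in U m ε (l9Pt (N.h m) p) t, ‖ke m ε a (l9Pt (N.h m) p) t o‖ₑ ^ 2 ∂(Pr ε) ≤ ENNReal.ofReal (Ce * N.h m ^ 2)
  /-- (H6) measurability (238 + the owners of the states) -/
  U_meas : ∀ m ε z t, MeasurableSet (U m ε z t)
  kout_meas : ∀ m ε a z t, Measurable (kout m ε a z t)
  ke_meas : ∀ m ε a z t, Measurable (ke m ε a z t)

/-! ## 4. the master theorem -/

/-- the input of the spine along `ε_{φ n}`, levels `ψ m`, scalars `a (ψ m)` -/
def PvhbLoc.toSpine {τ : Type} {c : ℝ} {N : PvhbNum τ c} {Pr : ℝ → Measure Ω} {rims : Ω → Set PvbRim} {x : ℂ} {R : ℝ} (L : PvhbLoc N Pr rims x R)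
    (es : ℕ → ℝ) (hes : Tendsto es atTop (𝓝[>] (0 : ℝ))) (ψ : ℕ → ℕ) (hψ : Tendsto ψ atTop atTop) (a : ℕ → ℂ) (ainf : ℂ)
    (ha : Tendsto (fun m => a (ψ m)) atTop (𝓝 ainf)) (hCA : ∀ m, ‖a m‖ ≤ N.CA) (hA : ∀ m, Tendsto (fun n => N.A m (es n)) atTop (𝓝 (a m))) :
    PvtsIn (N.toGlob ψ hψ a ainf ha) (fun n => Pr (es n)) rims x R where
  pins := fun m n => L.pins (ψ m) (es n)
  Γ := fun m => N.Γ (ψ m)
  W := fun m n => N.W (ψ m) (es n) (a (ψ m))
  kin0 := fun m n => N.kin0 (ψ m) (es n) (a (ψ m))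
  U := fun m n => L.U (ψ m) (es n)
  kout := fun m n => L.kout (ψ m) (es n) (a (ψ m))
  kin := fun m n => L.kin (ψ m) (es n) (a (ψ m))
  ke := fun m n => L.ke (ψ m) (es n) (a (ψ m))
  Pat := fun m => L.Pat (ψ m)
  Pat_fin := fun m => L.Pat_fin (ψ m)
  pat := fun m => L.pat (ψ m)
  pat_ok := fun m => L.pat_ok (ψ m)
  Fit := fun m n => L.Fit (ψ m) (es n)
  fit_s := fun m n => L.fit_s (ψ m) (es n)
  fit_t := fun m n => L.fit_t (ψ m) (es n)
  fit_U := fun m n => L.fit_U (ψ m) (es n)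
  pinsOK := L.pinsOK.comp hψ hes
  cover := L.cover.comp hψ hes
  n1 := fun m π u hu => (L.n1 (a (ψ m)) (ψ m) π u hu).comp hes
  cyc1 := fun m p t hp => (L.cyc1 (a (ψ m)) (ψ m) p t hp).comp hes
  Ce := L.Ce
  thick := fun m p t hp => hes.eventually (L.thick (a (ψ m)) (hCA (ψ m)) (ψ m) p t hp)
  a_lim := fun m => by
    have h1 : Tendsto (fun n => N.A (ψ m) (es n) - a (ψ m)) atTop (𝓝 0) := by
      simpa using (hA (ψ m)).sub_const (a (ψ m))
    refine h1.congr' ((hes.eventually (N.cell_a (ψ m))).mono fun n hn => ?_)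
    exact (hn (a (ψ m))).symm
  rel_lim := fun m => (N.rel_lim (ψ m) (a (ψ m))).comp hes
  U_meas := fun m n => L.U_meas (ψ m) (es n)
  kout_meas := fun m n => L.kout_meas (ψ m) (es n) (a (ψ m))
  ke_meas := fun m n => L.ke_meas (ψ m) (es n) (a (ψ m))

end loc

/-- **THE MASTER THEOREM OF THE WALL**: the subsequence `φ` and the global record `G` depend only on the numbers `N` and on the sequence; they serve every sample space, every family of rims, every ball -/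
theorem pvhb_main {τ : Type} {c : ℝ} (N : PvhbNum τ c) (es : ℕ → ℝ) (h0 : ∀ n, 0 < es n) (he : Tendsto es atTop (𝓝 0)) :
    ∃ φ : ℕ → ℕ, StrictMono φ ∧ ∃ G : L9Glob τ c, ∀ (Ω : Type) [MeasurableSpace Ω] (Pr : ℝ → Measure Ω) (rims : Ω → Set PvbRim) (x : ℂ) (R : ℝ),
      Nonempty (PvhbLoc N Pr rims x R) → Nonempty (PvtsIn G (fun n => Pr (es (φ n))) rims x R) := by
  obtain ⟨φ, hφ, ψ, hψ, a, ainf, hCA, hA, ha⟩ := pvhb_diag N.A N.CA N.A_bdd es (pvhb_seq h0 he)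
  refine ⟨φ, hφ, N.toGlob ψ hψ.tendsto_atTop a ainf ha, fun Ω _ Pr rims x R ⟨L⟩ => ⟨?_⟩⟩
  exact L.toSpine (fun n => es (φ n)) ((pvhb_seq h0 he).comp hφ.tendsto_atTop) ψ hψ.tendsto_atTop a ainf ha hCA hA

/-- the same with the exit of the spine -/
theorem pvhb_loc {τ : Type} {c : ℝ} (c0 : 0 < c) (N : PvhbNum τ c) (es : ℕ → ℝ) (h0 : ∀ n, 0 < es n) (he : Tendsto es atTop (𝓝 0)) :
    ∃ φ : ℕ → ℕ, StrictMono φ ∧ ∃ G : L9Glob τ c, ∀ (Ω : Type) [MeasurableSpace Ω] (Pr : ℝ → Measure Ω) (rims : Ω → Set PvbRim) (x : ℂ) (R : ℝ),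
      ∀ hPr : ∀ ε, IsProbabilityMeasure (Pr ε), Nonempty (PvhbLoc N Pr rims x R) →
        Nonempty (L9Loc G (fun n => @PvUp.ofMeasure _ _ (Pr (es (φ n))) (hPr (es (φ n)))) rims x R) := by
  obtain ⟨φ, hφ, G, H⟩ := pvhb_main N es h0 he
  refine ⟨φ, hφ, G, fun Ω _ Pr rims x R hPr hL => ?_⟩
  obtain ⟨I⟩ := H Ω Pr rims x R hL
  exact pvts_loc c0 (fun n => hPr (es (φ n))) I

/-- **EXIT OF THE WALL** in the form of 161 -/
theorem pvhb_exit {c : ℝ} (c0 : 0 < c) (τ : Type) [Fintype τ] [Nonempty τ] (N : PvhbNum τ c)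
    (H : ∀ (X : Type) [Fintype X] (𝔅 : PvBulk X) (x : ℂ) (R : ℝ), 0 < R →
      Nonempty (PvhbLoc N (fun ε => (pvGeo ε).prod (pvCol.prod (colLaw X))) (fun w : L9Om X => 𝔅.rims x R (l9Sm w)) x R)) : L9ExitTR c := by
  intro es h0 he
  obtain ⟨φ, hφ, G, K⟩ := pvhb_loc c0 N es h0 he
  refine ⟨φ, hφ, τ, inferInstance, inferInstance, G, fun X _ 𝔅 x R hR => ?_⟩
  obtain ⟨L⟩ := K _ _ _ x R (fun ε => inferInstance) (H X 𝔅 x R hR)
  exact l9_loc_of_le (fun n F => l9_up_le_joint X _ F) L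

/-! ## 6. sequence form ⟷ filter form

Several boxes type their exits PER SEQUENCE `ε_n ↓ 0` (`L9ExitArm`, `pvtv_cover_ord`, ..), with thresholds and constants which a priori depend on the sequence.
The fields of `PvhbNum`, `PvhbLoc` are statements along the filter `𝓝[>] 0`.      The two forms are EQUIVALENT (interleaving of countably many sequences). -/

/-- **INTERLEAVING**: countably many properties which hold frequently as `ε ↓ 0` hold frequently along ONE sequence -/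
theorem pvhb_interleave (Q : ℕ → ℝ → Prop) (h : ∀ j, ∃ᶠ ε in 𝓝[>] (0 : ℝ), Q j ε) :
    ∃ es : ℕ → ℝ, (∀ n, 0 < es n) ∧ Tendsto es atTop (𝓝 0) ∧ ∀ j, ∃ᶠ n in atTop, Q j (es n) := by
  have key : ∀ j k : ℕ, ∃ ε : ℝ, (0 < ε ∧ ε < 1 / ((k : ℝ) + 1)) ∧ Q j ε := by
    intro j k
    have hk : (0 : ℝ) < 1 / ((k : ℝ) + 1) := by positivity
    obtain ⟨ε, h1, h2⟩ := ((h j).and_eventually (Ioo_mem_nhdsGT hk)).exists
    exact ⟨ε, ⟨h2.1, h2.2⟩, h1⟩
  choose e he using key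
  refine ⟨fun n => e (Nat.unpair n).1 n, fun n => (he _ n).1.1, ?_, fun j => ?_⟩
  · refine squeeze_zero (fun n => (he _ n).1.1.le) (fun n => (he _ n).1.2.le) ?_
    exact tendsto_one_div_add_atTop_nhds_zero_nat
  · rw [frequently_atTop]
    intro M
    refine ⟨Nat.pair j M, Nat.right_le_pair j M, ?_⟩
    have := (he j (Nat.pair j M)).2
    simpa [Nat.unpair_pair] using this

theorem pvhb_eventually_iff (P : ℝ → Prop) :
    (∀ᶠ ε in 𝓝[>] (0 : ℝ), P ε) ↔ ∀ es : ℕ → ℝ, (∀ n, 0 < es n) → Tendsto es atTop (𝓝 0) → ∀ᶠ n in atTop, P (es n) := by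
  constructor
  · intro h es h0 he
    exact (pvhb_seq h0 he).eventually h
  · intro h
    by_contra hcon
    obtain ⟨es, h0, he, hf⟩ := pvhb_interleave (fun _ ε => ¬ P ε) (fun _ => not_eventually.1 hcon)
    exact (hf 0) ((h es h0 he).mono fun n hn => not_not.2 hn)

theorem pvhb_tendsto_iff {β : Type*} (f : ℝ → β) (l : Filter β) :
    Tendsto f (𝓝[>] (0 : ℝ)) l ↔ ∀ es : ℕ → ℝ, (∀ n, 0 < es n) → Tendsto es atTop (𝓝 0) → Tendsto (fun n => f (es n)) atTop l := by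
  constructor
  · intro h es h0 he
    exact h.comp (pvhb_seq h0 he)
  · intro h s hs
    exact (pvhb_eventually_iff fun ε => f ε ∈ s).2 fun es h0 he => h es h0 he hs

/-- the ordered limit along the filter is the ordered limit along every sequence -/
theorem pvhb_ord_iff (p : ℕ → ℝ → ℝ) :
    PvhbOrd p ↔ ∀ es : ℕ → ℝ, (∀ n, 0 < es n) → Tendsto es atTop (𝓝 0) → PvbOrd (fun m n => p m (es n)) := by
  constructor
  · intro h es h0 he
    exact h.comp tendsto_id (pvhb_seq h0 he)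
  · intro h η hη
    by_contra hcon
    have hbad : ∃ᶠ m in atTop, ∃ᶠ ε in 𝓝[>] (0 : ℝ), ¬ p m ε ≤ η := by
      refine (not_eventually.1 hcon).mono fun m hm => not_eventually.1 hm
    obtain ⟨es, h0, he, hf⟩ := pvhb_interleave (fun j ε => (∃ᶠ ε' in 𝓝[>] (0 : ℝ), ¬ p j ε' ≤ η) → ¬ p j ε ≤ η) (fun j => by
      by_cases hj : ∃ᶠ ε' in 𝓝[>] (0 : ℝ), ¬ p j ε' ≤ η
      · exact hj.mono fun ε hε _ => hε
      · exact Frequently.of_forall fun ε hε => absurd hε hj)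
    obtain ⟨m, hm1, hm2⟩ := (hbad.and_eventually (h es h0 he η hη)).exists
    exact ((hf m).mono fun n hn => hn hm1) (hm2.mono fun n hn => not_not.2 hn)

/-- **THE CONSTANT DOES NOT DEPEND ON THE SEQUENCE**: `i` = any family of parameters (centres, radii), `b i ≥ 0` the shape of the bound -/
theorem pvhb_const {ι : Type*} (B : ι → ℝ → ℝ) (b : ι → ℝ) (hb : ∀ i, 0 ≤ b i)
    (h : ∀ es : ℕ → ℝ, (∀ n, 0 < es n) → Tendsto es atTop (𝓝 0) → ∃ C : ℝ, ∀ i, ∀ᶠ n in atTop, B i (es n) ≤ C * b i) :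
    ∃ C : ℝ, ∀ i, ∀ᶠ ε in 𝓝[>] (0 : ℝ), B i ε ≤ C * b i := by
  by_contra hcon
  have hcon' : ∀ j : ℕ, ∃ i, ¬ ∀ᶠ ε in 𝓝[>] (0 : ℝ), B i ε ≤ (j : ℝ) * b i := fun j => by
    by_contra hj
    exact hcon ⟨(j : ℝ), fun i => by_contra fun hi => hj ⟨i, hi⟩⟩
  choose i hi using hcon'
  obtain ⟨es, h0, he, hf⟩ := pvhb_interleave (fun j ε => ¬ B (i j) ε ≤ (j : ℝ) * b (i j)) (fun j => not_eventually.1 (hi j))
  obtain ⟨C, hC⟩ := h es h0 he
  obtain ⟨j, hj⟩ := exists_nat_ge C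
  exact (hf j) ((hC (i j)).mono fun n hn => not_not.2 (hn.trans (mul_le_mul_of_nonneg_right hj (hb _))))

/-! ## 7. change of sample space -/

section comap

variable {Ω Ω' : Type} [MeasurableSpace Ω] [MeasurableSpace Ω']

/-- outer measure of a preimage under a measure preserving map (NO measurability of the set) -/
theorem pvhb_preimage_le {μ : Measure Ω} {μ' : Measure Ω'} {π : Ω' → Ω} (hπ : Measurable π) (hmap : μ'.map π = μ) (A : Set Ω) : μ' (π ⁻¹' A) ≤ μ A := by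
  calc μ' (π ⁻¹' A) ≤ μ' (π ⁻¹' (toMeasurable μ A)) := measure_mono (preimage_mono (subset_toMeasurable μ A))
    _ = μ (toMeasurable μ A) := by rw [← hmap, Measure.map_apply hπ (measurableSet_toMeasurable _ _)]
    _ = μ A := measure_toMeasurable A

theorem pvhb_toReal_le {μ : Measure Ω} [IsFiniteMeasure μ] {μ' : Measure Ω'} {π : Ω' → Ω} (hπ : Measurable π) (hmap : μ'.map π = μ) {A : Set Ω} {A' : Set Ω'}
    (hsub : A' ⊆ π ⁻¹' A) : (μ' A').toReal ≤ (μ A).toReal :=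
  ENNReal.toReal_mono (measure_ne_top μ A) ((measure_mono hsub).trans (pvhb_preimage_le hπ hmap A))

/-- **CHANGE OF SAMPLE SPACE**: the whole record is pulled back along a measure preserving map `π : Ω' → Ω` (plain space ← sample × coins ← sample × coins × seeds), for any smaller family of rims -/
def PvhbLoc.comap {τ : Type} {c : ℝ} {N : PvhbNum τ c} {Pr : ℝ → Measure Ω} {rims : Ω → Set PvbRim} {x : ℂ} {R : ℝ} (L : PvhbLoc N Pr rims x R)
    (hPr : ∀ ε, IsFiniteMeasure (Pr ε)) (Pr' : ℝ → Measure Ω') (π : Ω' → Ω) (hπ : Measurable π) (hmap : ∀ ε, (Pr' ε).map π = Pr ε)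
    (rims' : Ω' → Set PvbRim) (hr : ∀ o, rims' o ⊆ rims (π o)) : PvhbLoc N Pr' rims' x R where
  pins := fun m ε o => L.pins m ε (π o)
  U := fun m ε z t => π ⁻¹' L.U m ε z t
  kout := fun m ε a z t o => L.kout m ε a z t (π o)
  kin := fun m ε a z t o => L.kin m ε a z t (π o)
  ke := fun m ε a z t o => L.ke m ε a z t (π o)
  Pat := L.Pat
  Pat_fin := L.Pat_fin
  pat := L.pat
  pat_ok := L.pat_ok
  Fit := fun m ε o => L.Fit m ε (π o)
  fit_s := fun m ε o => L.fit_s m ε (π o)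
  fit_t := fun m ε o => L.fit_t m ε (π o)
  fit_U := fun m ε o => L.fit_U m ε (π o)
  pinsOK := L.pinsOK.mono fun m ε => by
    have := hPr ε
    refine pvhb_toReal_le hπ (hmap ε) fun o ho => ?_
    exact fun hall => ho fun P hP => hall P (hr o hP)
  cover := L.cover.mono fun m ε => by
    have := hPr ε
    refine pvhb_toReal_le hπ (hmap ε) fun o ho => ?_
    exact fun hall => ho fun P hP => hall P (hr o hP)
  n1 := fun a m π' u hu => by
    refine squeeze_zero (fun ε => ENNReal.toReal_nonneg) (fun ε => ?_) (L.n1 a m π' u hu)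
    have := hPr ε
    refine pvhb_toReal_le hπ (hmap ε) fun o ho => ?_
    obtain ⟨P, hP, rest⟩ := ho
    exact ⟨P, hr o hP, rest⟩
  cyc1 := fun a m p t hp => by
    refine (L.cyc1 a m p t hp).congr fun ε => ?_
    rw [← hmap ε, setLIntegral_map (L.U_meas m ε _ t) _ hπ]
    exact ((((L.kout_meas m ε a _ t).add_const _).add_const _).add (L.ke_meas m ε a _ t)).enorm.pow_const 2
  Ce := L.Ce
  thick := fun a ha m p t hp => (L.thick a ha m p t hp).mono fun ε hε => by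
    rw [← hmap ε, setLIntegral_map (L.U_meas m ε _ t) _ hπ] at hε
    · exact hε
    · exact (L.ke_meas m ε a _ t).enorm.pow_const 2
  U_meas := fun m ε z t => hπ (L.U_meas m ε z t)
  kout_meas := fun m ε a z t => (L.kout_meas m ε a z t).comp hπ
  ke_meas := fun m ε a z t => (L.ke_meas m ε a z t).comp hπ

end comap

/-- the encoded reaching rims of ALL completions of the sample `ω` (all sets of extra vertices, all bulk families, all colours of the extra vertices) -/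
def pvhbAll (x : ℂ) (R : ℝ) (ω : Claims.C0465.PVSample) : Set PvbRim :=
  {P | ∃ (X : Type) (_ : Fintype X) (𝔅 : PvBulk X) (ξ : X → Bool), P ∈ 𝔅.rims x R (ω, ξ)}

/-- the sample of the two-level space has the law `pvLaw ε` -/
theorem pvhb_map_sm (X : Type) (ε : ℝ) :
    ((pvGeo ε).prod (pvCol.prod (colLaw X))).map (fun w : L9Om X => (l9Sm w).1) = Claims.C0465.pvLaw ε := by
  have h1 : (fun w : L9Om X => (l9Sm w).1) = pvMerge ∘ Prod.map id Prod.fst := rfl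
  rw [h1, ← Measure.map_map measurable_pvMerge (measurable_id.prodMap measurable_fst), ← Measure.map_prod_map _ _ measurable_id measurable_fst,
    Measure.map_id, Measure.map_fst_prod, measure_univ, one_smul, ← pvqu_law]

/-- **EXIT OF THE WALL FROM THE PLAIN SPACE** `(PVSample, pvLaw ε)`: no extra vertices, no bulk family, no coins, no upper expectation upstream -/
theorem pvhb_exit_plain {c : ℝ} (c0 : 0 < c) (τ : Type) [Fintype τ] [Nonempty τ] (N : PvhbNum τ c)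
    (H : ∀ (x : ℂ) (R : ℝ), 0 < R → Nonempty (PvhbLoc N (fun ε => Claims.C0465.pvLaw ε) (pvhbAll x R) x R)) : L9ExitTR c := by
  refine pvhb_exit c0 τ N fun X _ 𝔅 x R hR => ?_
  obtain ⟨L⟩ := H x R hR
  refine ⟨L.comap (fun ε => inferInstance) (fun ε => (pvGeo ε).prod (pvCol.prod (colLaw X))) (fun w : L9Om X => (l9Sm w).1)
    (measurable_pvMerge.comp (measurable_fst.prodMk (measurable_fst.comp measurable_snd))) (fun ε => pvhb_map_sm X ε)
    (fun w : L9Om X => 𝔅.rims x R (l9Sm w)) fun o P hP => ?_⟩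
  exact ⟨X, inferInstance, 𝔅, (l9Sm o).2, hP⟩

/-! ## 8. THE SPINE OVER UPPER EXPECTATIONS      (ruling H1, after 12 and 187)

The estimates of PINS, N1', ARM are QUENCHED (colour probability of the section at fixed geometry `≤ w g`); the joint OUTER measure of an event cannot be bounded from its sections without joint measurability.
So the record of the exit runs over an UPPER EXPECTATION `PvUp Ω` (`Defs/Up.lean`, 163): monotone, subadditive, positively homogeneous, mass `≤ 1`.      NO measurable structure on `Ω`, NO measurability field.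
`PvhbInU` = `PvtsIn` of 129 (`Tr/Spine.lean`) over `PvUp`; the proofs are his, with `P_mono`, `P_union_le`, `P_biUnion_le`, `add_le`, `smul_le`. -/

section spineU

variable {Ω : Type}

/-- `PvtsIn` of 129 over upper expectations (sequence form) -/
structure PvhbInU {τ : Type} {c : ℝ} (G : L9Glob τ c) (Pr : ℕ → PvUp Ω) (rims : Ω → Set PvbRim) (x : ℂ) (R : ℝ) where
  pins : ℕ → ℕ → Ω → PvbRim → Set (PvbPin τ)
  Γ : ℕ → PvtsGeo τ
  W : ℕ → ℕ → PvtW
  kin0 : ℕ → ℕ → ℂ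
  U : ℕ → ℕ → ℂ → τ → Set Ω
  kout : ℕ → ℕ → ℂ → τ → Ω → ℂ
  kin : ℕ → ℕ → ℂ → τ → Ω → ℂ
  ke : ℕ → ℕ → ℂ → τ → Ω → ℂ
  Pat : ℕ → Type
  Pat_fin : ∀ m, Finite (Pat m)
  pat : ∀ m, Pat m → PvtsPat τ
  pat_ok : ∀ m π, (Γ m).Ok (pat m π)
  Fit : ∀ m : ℕ, ℕ → Ω → PvbRim → PvbPin τ → PvbPin τ → Pat m → Prop
  fit_s : ∀ m n o P s t π, Fit m n o P s t π → s.ctr = (pat m π).zs ∧ s.typ = (pat m π).ts
  fit_t : ∀ m n o P s t π, Fit m n o P s t π → t.ctr = (pat m π).zt ∧ t.typ = (pat m π).tt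
  fit_U : ∀ m n o P s t π, Fit m n o P s t π → o ∈ U m n t.ctr t.typ
  pinsOK : PvbOrd (fun m n => ((Pr n).P {o | ¬ ∀ P ∈ rims o,
    (∀ s ∈ pins m n o P, PvbIsPin G.𝔐 (G.h m) P s ∧ ∃ p : ℤ × ℤ, s.ctr = l9Pt (G.h m) p) ∧
    (∀ i i', i ≤ i' → i' ≤ P.len → (∀ k, i ≤ k → k ≤ i' → ‖P.v k - x‖ ≤ 2 * R) → G.r m ≤ ‖P.v i' - P.v i‖ → ∃ s ∈ pins m n o P, i ≤ s.idx ∧ s.idx ≤ i')}).toReal)
  cover : PvbOrd (fun m n => ((Pr n).P {o | ¬ ∀ P ∈ rims o, ∀ s ∈ pins m n o P, ∀ t ∈ pins m n o P, s.idx < t.idx →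
    (∀ k, s.idx ≤ k → k ≤ t.idx → ‖P.v k - x‖ ≤ 2 * R) → R / 3 ≤ ‖s.ctr - t.ctr‖ → ∃ π : Pat m, Fit m n o P s t π}).toReal)
  n1 : ∀ m (π : Pat m) (u : ℝ), 0 < u → Tendsto (fun n => ((Pr n).P {o | ∃ P ∈ rims o, ∃ s ∈ pins m n o P, ∃ t ∈ pins m n o P, Fit m n o P s t π ∧
    u < ‖pvbArcI G.𝔐 (G.h m) P (fun k => P.xQ k - G.a m * P.xV k) s t +
      (kout m n t.ctr t.typ o + pvtSum (W m n) ((Γ m).dout (pat m π).tt) (pat m π).l + kin m n s.ctr s.typ o)‖}).toReal) atTop (𝓝 0)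
  cyc1 : ∀ m (p : ℤ × ℤ) t, ‖l9Pt (G.h m) p - x‖ ≤ 2 * R → Tendsto (fun n => (Pr n).E ((U m n (l9Pt (G.h m) p) t).indicator fun o =>
    ‖kout m n (l9Pt (G.h m) p) t o + pvtSum (W m n) ((Γ m).dout t) ((Γ m).l1 t) + kin0 m n + ke m n (l9Pt (G.h m) p) t o‖ₑ ^ 2)) atTop (𝓝 0)
  Ce : ℝ
  thick : ∀ m (p : ℤ × ℤ) t, ‖l9Pt (G.h m) p - x‖ ≤ 2 * R → ∀ᶠ n in atTop,
    (Pr n).E ((U m n (l9Pt (G.h m) p) t).indicator fun o => ‖ke m n (l9Pt (G.h m) p) t o‖ₑ ^ 2) ≤ ENNReal.ofReal (Ce * G.h m ^ 2)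
  a_lim : ∀ m, Tendsto (fun n => (Γ m).a (W m n)) atTop (𝓝 0)
  rel_lim : ∀ m, Tendsto (fun n => (W m n).rel) atTop (𝓝 0)

namespace PvhbInU

variable {τ : Type} {c : ℝ} {G : L9Glob τ c} {Pr : ℕ → PvUp Ω} {rims : Ω → Set PvbRim} {x : ℂ} {R : ℝ} (I : PvhbInU G Pr rims x R)

/-- the common constant of level `(m,n)` -/
noncomputable def cc (m n : ℕ) : ℂ := (I.Γ m).c0 (I.W m n) (I.kin0 m n)

open Classical in
/-- the terminal potential -/
noncomputable def Ψ (m n : ℕ) (o : Ω) (z : ℂ) (t : τ) : ℂ :=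
  if o ∈ I.U m n z t then - (I.kout m n z t o + (I.Γ m).offO (I.W m n) t - I.cc m n) else 0

/-- the base potential -/
noncomputable def β (m n : ℕ) (o : Ω) (_P : PvbRim) (s : PvbPin τ) : ℂ :=
  - (I.kin m n s.ctr s.typ o + (I.Γ m).offI (I.W m n) s.typ) - I.cc m n

theorem arc_eq {m n : ℕ} {o : Ω} {P : PvbRim} {s t : PvbPin τ} {π : I.Pat m} (hF : I.Fit m n o P s t π) (J : ℂ) :
    J - I.β m n o P s - I.Ψ m n o t.ctr t.typ =
      (J + (I.kout m n t.ctr t.typ o + pvtSum (I.W m n) ((I.Γ m).dout (I.pat m π).tt) (I.pat m π).l + I.kin m n s.ctr s.typ o))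
        - ((I.Γ m).a (I.W m n) * ((I.pat m π).zs - (I.pat m π).zt) + (I.W m n).rel * pvtNR ((I.Γ m).dout (I.pat m π).tt) (I.pat m π).l) := by
  have hU := I.fit_U m n o P s t π hF
  obtain ⟨hs1, hs2⟩ := I.fit_s m n o P s t π hF
  obtain ⟨ht1, ht2⟩ := I.fit_t m n o P s t π hF
  have hnf := (I.Γ m).nf (I.W m n) (I.pat_ok m π) (I.kout m n t.ctr t.typ o) (I.kin m n s.ctr s.typ o)
  unfold PvhbInU.Ψ PvhbInU.β
  rw [if_pos hU, hnf, hs2, ht2]
  ring

theorem err_small (m : ℕ) {u : ℝ} (hu : 0 < u) : ∀ᶠ n in atTop, ∀ π : I.Pat m,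
    ‖(I.Γ m).a (I.W m n) * ((I.pat m π).zs - (I.pat m π).zt) + (I.W m n).rel * pvtNR ((I.Γ m).dout (I.pat m π).tt) (I.pat m π).l‖ ≤ u := by
  have := I.Pat_fin m
  rw [eventually_all]
  intro π
  have h1 : Tendsto (fun n => (I.Γ m).a (I.W m n) * ((I.pat m π).zs - (I.pat m π).zt) + (I.W m n).rel * pvtNR ((I.Γ m).dout (I.pat m π).tt) (I.pat m π).l) atTop (𝓝 0) := by
    have := ((I.a_lim m).mul_const ((I.pat m π).zs - (I.pat m π).zt)).add ((I.rel_lim m).mul_const (pvtNR ((I.Γ m).dout (I.pat m π).tt) (I.pat m π).l))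
    simpa using this
  have h2 := h1.norm
  rw [norm_zero] at h2
  exact (h2.eventually (gt_mem_nhds hu)).mono fun n hn => hn.le

/-- the failure event of `N1` for some pattern -/
def badN1 (m n : ℕ) (u : ℝ) : Set Ω :=
  {o | ∃ π : I.Pat m, ∃ P ∈ rims o, ∃ s ∈ I.pins m n o P, ∃ t ∈ I.pins m n o P, I.Fit m n o P s t π ∧
    u < ‖pvbArcI G.𝔐 (G.h m) P (fun k => P.xQ k - G.a m * P.xV k) s t +
      (I.kout m n t.ctr t.typ o + pvtSum (I.W m n) ((I.Γ m).dout (I.pat m π).tt) (I.pat m π).l + I.kin m n s.ctr s.typ o)‖}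

theorem badN1_lim (m : ℕ) {u : ℝ} (hu : 0 < u) : Tendsto (fun n => ((Pr n).P (I.badN1 m n u)).toReal) atTop (𝓝 0) := by
  have := I.Pat_fin m
  let _ := Fintype.ofFinite (I.Pat m)
  have hsum : Tendsto (fun n => ∑ π : I.Pat m, ((Pr n).P {o | ∃ P ∈ rims o, ∃ s ∈ I.pins m n o P, ∃ t ∈ I.pins m n o P, I.Fit m n o P s t π ∧
      u < ‖pvbArcI G.𝔐 (G.h m) P (fun k => P.xQ k - G.a m * P.xV k) s t +
        (I.kout m n t.ctr t.typ o + pvtSum (I.W m n) ((I.Γ m).dout (I.pat m π).tt) (I.pat m π).l + I.kin m n s.ctr s.typ o)‖}).toReal) atTop (𝓝 0) := by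
    have := tendsto_finsetSum (Finset.univ : Finset (I.Pat m)) (fun π _ => I.n1 m π u hu)
    simpa using this
  refine squeeze_zero (fun n => ENNReal.toReal_nonneg) (fun n => ?_) hsum
  have hU : I.badN1 m n u = ⋃ π ∈ (Finset.univ : Finset (I.Pat m)), {o | ∃ P ∈ rims o, ∃ s ∈ I.pins m n o P, ∃ t ∈ I.pins m n o P, I.Fit m n o P s t π ∧
      u < ‖pvbArcI G.𝔐 (G.h m) P (fun k => P.xQ k - G.a m * P.xV k) s t +
        (I.kout m n t.ctr t.typ o + pvtSum (I.W m n) ((I.Γ m).dout (I.pat m π).tt) (I.pat m π).l + I.kin m n s.ctr s.typ o)‖} := by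
    ext o
    simp only [PvhbInU.badN1, mem_ofPred_eq, mem_iUnion, Finset.mem_univ, exists_true_left]
  rw [hU, ← ENNReal.toReal_sum (fun π _ => (Pr n).P_ne_top _)]
  exact ENNReal.toReal_mono (ENNReal.sum_ne_top.2 fun π _ => (Pr n).P_ne_top _) ((Pr n).P_biUnion_le _ _)

theorem real_sub {m n : ℕ} {E : ℝ}
    (herr : ∀ π : I.Pat m, ‖(I.Γ m).a (I.W m n) * ((I.pat m π).zs - (I.pat m π).zt) + (I.W m n).rel * pvtNR ((I.Γ m).dout (I.pat m π).tt) (I.pat m π).l‖ ≤ E / 2) :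
    {o | ¬ ∀ P ∈ rims o, PvbRealArc G.𝔐 x R (G.h m) P (I.pins m n o P) (fun k => P.xQ k - G.a m * P.xV k) (I.β m n o P) (I.Ψ m n o) E} ⊆
      {o | ¬ ∀ P ∈ rims o, ∀ s ∈ I.pins m n o P, ∀ t ∈ I.pins m n o P, s.idx < t.idx →
        (∀ k, s.idx ≤ k → k ≤ t.idx → ‖P.v k - x‖ ≤ 2 * R) → R / 3 ≤ ‖s.ctr - t.ctr‖ → ∃ π : I.Pat m, I.Fit m n o P s t π} ∪ I.badN1 m n (E / 2) := by
  intro o ho
  by_contra hno
  rw [mem_union, not_or] at hno
  obtain ⟨h1, h2⟩ := hno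
  simp only [Set.mem_ofPred_eq, not_not] at h1
  apply ho
  intro P hP s hs t ht hst hin hfar
  obtain ⟨π, hF⟩ := h1 P hP s hs t ht hst hin hfar
  rw [I.arc_eq hF]
  have h3 : ¬ (E / 2 < ‖pvbArcI G.𝔐 (G.h m) P (fun k => P.xQ k - G.a m * P.xV k) s t +
      (I.kout m n t.ctr t.typ o + pvtSum (I.W m n) ((I.Γ m).dout (I.pat m π).tt) (I.pat m π).l + I.kin m n s.ctr s.typ o)‖) := by
    intro h4
    exact h2 ⟨π, P, hP, s, hs, t, ht, hF, h4⟩
  rw [not_lt] at h3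
  calc _ ≤ _ + _ := norm_sub_le _ _
    _ ≤ E / 2 + E / 2 := add_le_add h3 (herr π)
    _ = E := by ring

theorem real_ord (Err : ℕ → ℝ) (hE : ∀ m, 0 < Err m) :
    PvbOrd (fun m n => ((Pr n).P {o | ¬ ∀ P ∈ rims o,
      PvbRealArc G.𝔐 x R (G.h m) P (I.pins m n o P) (fun k => P.xQ k - G.a m * P.xV k) (I.β m n o P) (I.Ψ m n o) (Err m)}).toReal) := by
  intro η hη
  filter_upwards [I.cover (η / 2) (half_pos hη)] with m hm
  have hb := (badN1_lim I m (half_pos (hE m))).eventually (Iic_mem_nhds (half_pos hη))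
  filter_upwards [hm, hb, err_small I m (half_pos (hE m))] with n h1 h2 h3
  have hsub := real_sub I h3
  calc _ ≤ ((Pr n).P (_ ∪ _)).toReal := ENNReal.toReal_mono ((Pr n).P_ne_top _) ((Pr n).P_mono hsub)
    _ ≤ ((Pr n).P _ + (Pr n).P _).toReal := ENNReal.toReal_mono (ENNReal.add_ne_top.2 ⟨(Pr n).P_ne_top _, (Pr n).P_ne_top _⟩) ((Pr n).P_union_le _ _)
    _ = ((Pr n).P _).toReal + ((Pr n).P _).toReal := ENNReal.toReal_add ((Pr n).P_ne_top _) ((Pr n).P_ne_top _)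
    _ ≤ η / 2 + η / 2 := add_le_add h1 h2
    _ = η := by ring

theorem Ψ_L2 (m : ℕ) (p : ℤ × ℤ) (t : τ) (hp : ‖l9Pt (G.h m) p - x‖ ≤ 2 * R) : ∀ᶠ n in atTop,
    (Pr n).E (fun o => ENNReal.ofReal (‖I.Ψ m n o (l9Pt (G.h m) p) t‖ ^ 2)) ≤ ENNReal.ofReal (3 * (|I.Ce| + 2) * G.h m ^ 2) := by
  have hh : 0 < G.h m ^ 2 := pow_pos (G.h0 m) 2
  have hh' : (0 : ℝ≥0∞) < ENNReal.ofReal (G.h m ^ 2) := ENNReal.ofReal_pos.2 hh
  have hD : Tendsto (fun n => (I.Γ m).a (I.W m n) * (I.Γ m).zu t + (I.W m n).rel * pvtNR ((I.Γ m).dout t) ((I.Γ m).l1 t)) atTop (𝓝 0) := by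
    have h1 := ((I.a_lim m).mul_const ((I.Γ m).zu t)).add ((I.rel_lim m).mul_const (pvtNR ((I.Γ m).dout t) ((I.Γ m).l1 t)))
    rwa [zero_mul, zero_mul, add_zero] at h1
  have hD2 : ∀ᶠ n in atTop, ‖(I.Γ m).a (I.W m n) * (I.Γ m).zu t + (I.W m n).rel * pvtNR ((I.Γ m).dout t) ((I.Γ m).l1 t)‖ ^ 2 ≤ G.h m ^ 2 := by
    have h2 := (hD.norm).pow 2
    rw [norm_zero, zero_pow two_ne_zero] at h2
    exact h2.eventually (Iic_mem_nhds hh)
  have hC := (I.cyc1 m p t hp).eventually (Iic_mem_nhds hh')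
  filter_upwards [hD2, hC, I.thick m p t hp] with n h1 h2 h3
  set z := l9Pt (G.h m) p with hz
  set Dn := (I.Γ m).a (I.W m n) * (I.Γ m).zu t + (I.W m n).rel * pvtNR ((I.Γ m).dout t) ((I.Γ m).l1 t) with hDn
  set F1 : Ω → ℝ≥0∞ := (I.U m n z t).indicator fun o =>
    ‖I.kout m n z t o + pvtSum (I.W m n) ((I.Γ m).dout t) ((I.Γ m).l1 t) + I.kin0 m n + I.ke m n z t o‖ₑ ^ 2 with hF1
  set F2 : Ω → ℝ≥0∞ := (I.U m n z t).indicator fun o => ‖I.ke m n z t o‖ₑ ^ 2 with hF2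
  have hpt : ∀ o, ENNReal.ofReal (‖I.Ψ m n o z t‖ ^ 2) ≤ 3 * (F1 o + F2 o + ‖Dn‖ₑ ^ 2 * 1) := by
    intro o
    by_cases ho : o ∈ I.U m n z t
    · have e : I.Ψ m n o z t = - ((I.kout m n z t o + pvtSum (I.W m n) ((I.Γ m).dout t) ((I.Γ m).l1 t) + I.kin0 m n + I.ke m n z t o) + (- I.ke m n z t o) + (- Dn)) := by
        unfold PvhbInU.Ψ
        rw [if_pos ho, (I.Γ m).nf1 (I.W m n) t]
        unfold PvhbInU.cc
        rw [hDn]
        ring
      rw [pvts_ofReal_sq, e, enorm_neg, hF1, hF2, indicator_of_mem ho, indicator_of_mem ho, mul_one]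
      have := pvts_add3_sq (I.kout m n z t o + pvtSum (I.W m n) ((I.Γ m).dout t) ((I.Γ m).l1 t) + I.kin0 m n + I.ke m n z t o) (- I.ke m n z t o) (- Dn)
      rwa [enorm_neg, enorm_neg] at this
    · have e : I.Ψ m n o z t = 0 := by
        unfold PvhbInU.Ψ
        rw [if_neg ho]
      rw [e]
      simp
  have hDtop : ‖Dn‖ₑ ^ 2 ≠ ⊤ := ENNReal.pow_ne_top enorm_ne_top
  have e3 : (Pr n).E (fun _ => ‖Dn‖ₑ ^ 2 * 1) ≤ ENNReal.ofReal (G.h m ^ 2) := by
    calc (Pr n).E (fun _ => ‖Dn‖ₑ ^ 2 * 1) ≤ ‖Dn‖ₑ ^ 2 * (Pr n).E (fun _ => 1) := (Pr n).smul_le _ _ hDtop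
      _ ≤ ‖Dn‖ₑ ^ 2 * 1 := by gcongr; exact (Pr n).one_le
      _ = ENNReal.ofReal (‖Dn‖ ^ 2) := by rw [mul_one, pvts_ofReal_sq]
      _ ≤ _ := ENNReal.ofReal_le_ofReal h1
  have e2 : (Pr n).E F2 ≤ ENNReal.ofReal (|I.Ce| * G.h m ^ 2) :=
    h3.trans (ENNReal.ofReal_le_ofReal (mul_le_mul_of_nonneg_right (le_abs_self _) hh.le))
  calc (Pr n).E (fun o => ENNReal.ofReal (‖I.Ψ m n o z t‖ ^ 2)) ≤ (Pr n).E (fun o => 3 * (F1 o + F2 o + ‖Dn‖ₑ ^ 2 * 1)) := (Pr n).mono hpt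
    _ ≤ 3 * (Pr n).E (fun o => F1 o + F2 o + ‖Dn‖ₑ ^ 2 * 1) := (Pr n).smul_le 3 _ (by norm_num)
    _ ≤ 3 * ((Pr n).E F1 + (Pr n).E F2 + (Pr n).E (fun _ => ‖Dn‖ₑ ^ 2 * 1)) := by
        gcongr
        exact ((Pr n).add_le _ _).trans (add_le_add ((Pr n).add_le _ _) le_rfl)
    _ ≤ 3 * (ENNReal.ofReal (G.h m ^ 2) + ENNReal.ofReal (|I.Ce| * G.h m ^ 2) + ENNReal.ofReal (G.h m ^ 2)) := by
        gcongr
    _ = ENNReal.ofReal (3 * (|I.Ce| + 2) * G.h m ^ 2) := by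
        rw [← ENNReal.ofReal_add hh.le (by positivity), ← ENNReal.ofReal_add (by positivity) hh.le]
        rw [show (3 : ℝ≥0∞) = ENNReal.ofReal 3 by simp, ← ENNReal.ofReal_mul (by norm_num)]
        congr 1
        ring

end PvhbInU

/-- **THE EXIT OF THE SPINE OVER UPPER EXPECTATIONS** -/
theorem pvhb_spineU {τ : Type} {c : ℝ} (c0 : 0 < c) {G : L9Glob τ c} {Pr : ℕ → PvUp Ω} {rims : Ω → Set PvbRim} {x : ℂ} {R : ℝ}
    (I : PvhbInU G Pr rims x R) : Nonempty (L9Loc G Pr rims x R) := by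
  have hE : ∀ m, 0 < G.h m ^ 2 := fun m => by have := G.h0 m; positivity
  refine ⟨{ Err := fun m => G.h m ^ 2
            Err0 := fun m => (hE m).le
            lim1 := pvts_lim1 c0 G
            pins := I.pins
            β := I.β
            Ψ := I.Ψ
            good := ?_
            CΨ := 3 * (|I.Ce| + 2)
            Ψ_L2 := fun m p t hp => I.Ψ_L2 m p t hp }⟩
  intro η hη
  filter_upwards [I.pinsOK (η / 2) (by positivity), I.real_ord (fun m => G.h m ^ 2) hE (η / 2) (by positivity)] with m a1 a2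
  filter_upwards [a1, a2] with n b1 b2
  have hsub : {o | ¬ ∀ P ∈ rims o,
      (∀ s ∈ I.pins m n o P, PvbIsPin G.𝔐 (G.h m) P s ∧ ∃ p : ℤ × ℤ, s.ctr = l9Pt (G.h m) p) ∧
      (∀ i i', i ≤ i' → i' ≤ P.len → (∀ k, i ≤ k → k ≤ i' → ‖P.v k - x‖ ≤ 2 * R) → G.r m ≤ ‖P.v i' - P.v i‖ → ∃ s ∈ I.pins m n o P, i ≤ s.idx ∧ s.idx ≤ i') ∧
      PvbRealArc G.𝔐 x R (G.h m) P (I.pins m n o P) (fun k => P.xQ k - G.a m * P.xV k) (I.β m n o P) (I.Ψ m n o) (G.h m ^ 2)} ⊆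
    {o | ¬ ∀ P ∈ rims o,
      (∀ s ∈ I.pins m n o P, PvbIsPin G.𝔐 (G.h m) P s ∧ ∃ p : ℤ × ℤ, s.ctr = l9Pt (G.h m) p) ∧
      (∀ i i', i ≤ i' → i' ≤ P.len → (∀ k, i ≤ k → k ≤ i' → ‖P.v k - x‖ ≤ 2 * R) → G.r m ≤ ‖P.v i' - P.v i‖ → ∃ s ∈ I.pins m n o P, i ≤ s.idx ∧ s.idx ≤ i')} ∪
    {o | ¬ ∀ P ∈ rims o, PvbRealArc G.𝔐 x R (G.h m) P (I.pins m n o P) (fun k => P.xQ k - G.a m * P.xV k) (I.β m n o P) (I.Ψ m n o) (G.h m ^ 2)} := by
    intro o ho
    by_contra hcon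
    rw [mem_union, not_or] at hcon
    obtain ⟨h1, h2⟩ := hcon
    apply ho
    intro P hP
    have a1 := (not_not.1 h1) P hP
    have a2 := (not_not.1 h2) P hP
    exact ⟨a1.1, a1.2, a2⟩
  have h3 := ENNReal.toReal_mono (ENNReal.add_ne_top.2 ⟨(Pr n).P_ne_top _, (Pr n).P_ne_top _⟩) (((Pr n).P_mono hsub).trans ((Pr n).P_union_le _ _))
  rw [ENNReal.toReal_add ((Pr n).P_ne_top _) ((Pr n).P_ne_top _)] at h3
  linarith

/-! ## 9. THE RECORD OF THE EXIT OF THE WALL -/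

/-- **THE EXITS OF CHAPTERS A-E OVER UPPER EXPECTATIONS** `Pr ε : PvUp Ω`, for one random set of rims and one ball.      = `PvhbLoc` field by field: `.P` of the events, `.E` of the indicator-weighted squares; NO measurability. -/
structure PvhbLocU {τ : Type} {c : ℝ} (N : PvhbNum τ c) (Pr : ℝ → PvUp Ω) (rims : Ω → Set PvbRim) (x : ℂ) (R : ℝ) where
  /-- the qualified pins of a rim -/
  pins : ℕ → ℝ → Ω → PvbRim → Set (PvbPin τ)
  /-- the candidate `(z,t)` is usable (its state exists and is good) -/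
  U : ℕ → ℝ → ℂ → τ → Set Ω
  /-- `κ_out`, `κ_in`, mean of the thick short link, for the field `y_a`, evaluated at the state of the candidate `(z,t)`:   arguments `m ε a z t ω` -/
  kout : ℕ → ℝ → ℂ → ℂ → τ → Ω → ℂ
  kin : ℕ → ℝ → ℂ → ℂ → τ → Ω → ℂ
  ke : ℕ → ℝ → ℂ → ℂ → τ → Ω → ℂ
  /-- the patterns of level `m` in the patch -/
  Pat : ℕ → Type
  Pat_fin : ∀ m, Finite (Pat m)
  pat : ∀ m, Pat m → PvtsPat τ
  pat_ok : ∀ m π, (N.Γ m).Ok (pat m π)
  /-- the arc `s → t` of the rim `P` fits the pattern -/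
  Fit : ∀ m : ℕ, ℝ → Ω → PvbRim → PvbPin τ → PvbPin τ → Pat m → Prop
  fit_s : ∀ m ε o P s t π, Fit m ε o P s t π → s.ctr = (pat m π).zs ∧ s.typ = (pat m π).ts
  fit_t : ∀ m ε o P s t π, Fit m ε o P s t π → t.ctr = (pat m π).zt ∧ t.typ = (pat m π).tt
  fit_U : ∀ m ε o P s t π, Fit m ε o P s t π → o ∈ U m ε t.ctr t.typ
  /-- (H1) CHAPTER C: pins are pins (near, TRAP), sit on the grid, are DENSE -/
  pinsOK : PvhbOrd (fun m ε => ((Pr ε).P {o | ¬ ∀ P ∈ rims o,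
    (∀ s ∈ pins m ε o P, PvbIsPin N.𝔐 (N.h m) P s ∧ ∃ p : ℤ × ℤ, s.ctr = l9Pt (N.h m) p) ∧
    (∀ i i', i ≤ i' → i' ≤ P.len → (∀ k, i ≤ k → k ≤ i' → ‖P.v k - x‖ ≤ 2 * R) → N.r m ≤ ‖P.v i' - P.v i‖ → ∃ s ∈ pins m ε o P, i ≤ s.idx ∧ s.idx ≤ i')}).toReal)
  /-- (H2) TR20 COVER: every long pinned arc in the ball fits a pattern -/
  cover : PvhbOrd (fun m ε => ((Pr ε).P {o | ¬ ∀ P ∈ rims o, ∀ s ∈ pins m ε o P, ∀ t ∈ pins m ε o P, s.idx < t.idx →
    (∀ k, s.idx ≤ k → k ≤ t.idx → ‖P.v k - x‖ ≤ 2 * R) → R / 3 ≤ ‖s.ctr - t.ctr‖ → ∃ π : Pat m, Fit m ε o P s t π}).toReal)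
  /-- (H3) N1' = TR23 + TR2 + TR25: `I + ŷ` is small for the arcs which fit a fixed pattern -/
  n1 : ∀ (a : ℂ) (m : ℕ) (π : Pat m) (u : ℝ), 0 < u → Tendsto (fun ε => ((Pr ε).P {o | ∃ P ∈ rims o, ∃ s ∈ pins m ε o P, ∃ t ∈ pins m ε o P, Fit m ε o P s t π ∧
    u < ‖pvbArcI N.𝔐 (N.h m) P (fun k => P.xQ k - a * P.xV k) s t +
      (kout m ε a t.ctr t.typ o + pvtSum (N.W m ε a) ((N.Γ m).dout (pat m π).tt) (pat m π).l + kin m ε a s.ctr s.typ o)‖}).toReal) (𝓝[>] (0 : ℝ)) (𝓝 0)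
  /-- (H4a) TR3' + TR2 + TR25: the `Σ₁` cycle  `t -thin chain l1-> u (reference type, integrated) -THICK SHORT link-> t` -/
  cyc1 : ∀ (a : ℂ) (m : ℕ) (p : ℤ × ℤ) (t : τ), ‖l9Pt (N.h m) p - x‖ ≤ 2 * R → Tendsto (fun ε => (Pr ε).E ((U m ε (l9Pt (N.h m) p) t).indicator fun o =>
    ‖kout m ε a (l9Pt (N.h m) p) t o + pvtSum (N.W m ε a) ((N.Γ m).dout t) ((N.Γ m).l1 t) + N.kin0 m ε a + ke m ε a (l9Pt (N.h m) p) t o‖ₑ ^ 2)) (𝓝[>] (0 : ℝ)) (𝓝 0)
  /-- (H4b) TR5 + I.BES + masks: the thick short link, UNIFORMLY in `‖a‖ ≤ CA` -/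
  Ce : ℝ
  thick : ∀ (a : ℂ), ‖a‖ ≤ N.CA → ∀ (m : ℕ) (p : ℤ × ℤ) (t : τ), ‖l9Pt (N.h m) p - x‖ ≤ 2 * R → ∀ᶠ ε in 𝓝[>] (0 : ℝ),
    (Pr ε).E ((U m ε (l9Pt (N.h m) p) t).indicator fun o => ‖ke m ε a (l9Pt (N.h m) p) t o‖ₑ ^ 2) ≤ ENNReal.ofReal (Ce * N.h m ^ 2)

/-- the input of the spine along `ε_{φ n}`, levels `ψ m`, scalars `a (ψ m)` -/
def PvhbLocU.toSpine {τ : Type} {c : ℝ} {N : PvhbNum τ c} {Pr : ℝ → PvUp Ω} {rims : Ω → Set PvbRim} {x : ℂ} {R : ℝ} (L : PvhbLocU N Pr rims x R)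
    (es : ℕ → ℝ) (hes : Tendsto es atTop (𝓝[>] (0 : ℝ))) (ψ : ℕ → ℕ) (hψ : Tendsto ψ atTop atTop) (a : ℕ → ℂ) (ainf : ℂ)
    (ha : Tendsto (fun m => a (ψ m)) atTop (𝓝 ainf)) (hCA : ∀ m, ‖a m‖ ≤ N.CA) (hA : ∀ m, Tendsto (fun n => N.A m (es n)) atTop (𝓝 (a m))) :
    PvhbInU (N.toGlob ψ hψ a ainf ha) (fun n => Pr (es n)) rims x R where
  pins := fun m n => L.pins (ψ m) (es n)
  Γ := fun m => N.Γ (ψ m)
  W := fun m n => N.W (ψ m) (es n) (a (ψ m))
  kin0 := fun m n => N.kin0 (ψ m) (es n) (a (ψ m))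
  U := fun m n => L.U (ψ m) (es n)
  kout := fun m n => L.kout (ψ m) (es n) (a (ψ m))
  kin := fun m n => L.kin (ψ m) (es n) (a (ψ m))
  ke := fun m n => L.ke (ψ m) (es n) (a (ψ m))
  Pat := fun m => L.Pat (ψ m)
  Pat_fin := fun m => L.Pat_fin (ψ m)
  pat := fun m => L.pat (ψ m)
  pat_ok := fun m => L.pat_ok (ψ m)
  Fit := fun m n => L.Fit (ψ m) (es n)
  fit_s := fun m n => L.fit_s (ψ m) (es n)
  fit_t := fun m n => L.fit_t (ψ m) (es n)
  fit_U := fun m n => L.fit_U (ψ m) (es n)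
  pinsOK := L.pinsOK.comp hψ hes
  cover := L.cover.comp hψ hes
  n1 := fun m π u hu => (L.n1 (a (ψ m)) (ψ m) π u hu).comp hes
  cyc1 := fun m p t hp => (L.cyc1 (a (ψ m)) (ψ m) p t hp).comp hes
  Ce := L.Ce
  thick := fun m p t hp => hes.eventually (L.thick (a (ψ m)) (hCA (ψ m)) (ψ m) p t hp)
  a_lim := fun m => by
    have h1 : Tendsto (fun n => N.A (ψ m) (es n) - a (ψ m)) atTop (𝓝 0) := by
      simpa using (hA (ψ m)).sub_const (a (ψ m))
    refine h1.congr' ((hes.eventually (N.cell_a (ψ m))).mono fun n hn => ?_)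
    exact (hn (a (ψ m))).symm
  rel_lim := fun m => (N.rel_lim (ψ m) (a (ψ m))).comp hes

/-- **CHANGE OF SAMPLE SPACE / OF UPPER EXPECTATION**: pull back along ANY map `π : Ω' → Ω` with `E'(F ∘ π) ≤ E F`, for any smaller family of rims -/
def PvhbLocU.comap {Ω' : Type} {τ : Type} {c : ℝ} {N : PvhbNum τ c} {Pr : ℝ → PvUp Ω} {rims : Ω → Set PvbRim} {x : ℂ} {R : ℝ} (L : PvhbLocU N Pr rims x R)
    (Pr' : ℝ → PvUp Ω') (π : Ω' → Ω) (hE : ∀ ε F, (Pr' ε).E (fun o => F (π o)) ≤ (Pr ε).E F)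
    (rims' : Ω' → Set PvbRim) (hr : ∀ o, rims' o ⊆ rims (π o)) : PvhbLocU N Pr' rims' x R :=
  have hP : ∀ ε (A : Set Ω) (A' : Set Ω'), A' ⊆ π ⁻¹' A → ((Pr' ε).P A').toReal ≤ ((Pr ε).P A).toReal := fun ε A A' h =>
    ENNReal.toReal_mono ((Pr ε).P_ne_top A) (((Pr' ε).P_mono h).trans (hE ε (A.indicator fun _ => 1)))
  { pins := fun m ε o => L.pins m ε (π o)
    U := fun m ε z t => π ⁻¹' L.U m ε z t
    kout := fun m ε a z t o => L.kout m ε a z t (π o)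
    kin := fun m ε a z t o => L.kin m ε a z t (π o)
    ke := fun m ε a z t o => L.ke m ε a z t (π o)
    Pat := L.Pat
    Pat_fin := L.Pat_fin
    pat := L.pat
    pat_ok := L.pat_ok
    Fit := fun m ε o => L.Fit m ε (π o)
    fit_s := fun m ε o => L.fit_s m ε (π o)
    fit_t := fun m ε o => L.fit_t m ε (π o)
    fit_U := fun m ε o => L.fit_U m ε (π o)
    pinsOK := L.pinsOK.mono fun m ε => hP ε _ _ fun o ho hall => ho fun P hP' => hall P (hr o hP')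
    cover := L.cover.mono fun m ε => hP ε _ _ fun o ho hall => ho fun P hP' => hall P (hr o hP')
    n1 := fun a m π' u hu => by
      refine squeeze_zero (fun ε => ENNReal.toReal_nonneg) (fun ε => hP ε _ _ fun o ho => ?_) (L.n1 a m π' u hu)
      obtain ⟨P, hP', rest⟩ := ho
      exact ⟨P, hr o hP', rest⟩
    cyc1 := fun a m p t hp =>
      tendsto_of_tendsto_of_tendsto_of_le_of_le tendsto_const_nhds (L.cyc1 a m p t hp) (fun _ => zero_le) fun ε => hE ε _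
    Ce := L.Ce
    thick := fun a ha m p t hp => (L.thick a ha m p t hp).mono fun ε hε => (hE ε _).trans hε }

/-- the record is monotone in the upper expectations -/
def PvhbLocU.of_le {τ : Type} {c : ℝ} {N : PvhbNum τ c} {Pr Pr' : ℝ → PvUp Ω} {rims : Ω → Set PvbRim} {x : ℂ} {R : ℝ} (L : PvhbLocU N Pr rims x R)
    (hE : ∀ ε F, (Pr' ε).E F ≤ (Pr ε).E F) : PvhbLocU N Pr' rims x R :=
  L.comap Pr' id hE rims fun _ => Subset.rfl

/-- the MEASURE form (with its three measurability fields) is a special case -/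
def PvhbLoc.toU [MeasurableSpace Ω] {τ : Type} {c : ℝ} {N : PvhbNum τ c} {Pr : ℝ → Measure Ω} {rims : Ω → Set PvbRim} {x : ℂ} {R : ℝ} (L : PvhbLoc N Pr rims x R)
    (hPr : ∀ ε, IsProbabilityMeasure (Pr ε)) : PvhbLocU N (fun ε => @PvUp.ofMeasure _ _ (Pr ε) (hPr ε)) rims x R where
  pins := L.pins
  U := L.U
  kout := L.kout
  kin := L.kin
  ke := L.ke
  Pat := L.Pat
  Pat_fin := L.Pat_fin
  pat := L.pat
  pat_ok := L.pat_ok
  Fit := L.Fit
  fit_s := L.fit_s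
  fit_t := L.fit_t
  fit_U := L.fit_U
  pinsOK := by
    have := L.pinsOK
    simpa only [pvup_ofMeasure_P] using this
  cover := by
    have := L.cover
    simpa only [pvup_ofMeasure_P] using this
  n1 := fun a m π u hu => by
    have := L.n1 a m π u hu
    simpa only [pvup_ofMeasure_P] using this
  cyc1 := fun a m p t hp => by
    refine (L.cyc1 a m p t hp).congr fun ε => ?_
    have hm : Measurable ((L.U m ε (l9Pt (N.h m) p) t).indicator fun o =>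
        ‖L.kout m ε a (l9Pt (N.h m) p) t o + pvtSum (N.W m ε a) ((N.Γ m).dout t) ((N.Γ m).l1 t) + N.kin0 m ε a + L.ke m ε a (l9Pt (N.h m) p) t o‖ₑ ^ 2) :=
      (((((L.kout_meas m ε a _ t).add_const _).add_const _).add (L.ke_meas m ε a _ t)).enorm.pow_const 2).indicator (L.U_meas m ε _ t)
    show _ = pvUpInt (Pr ε) _
    rw [pvup_int_of_meas (Pr ε) hm, lintegral_indicator (L.U_meas m ε _ t)]
  Ce := L.Ce
  thick := fun a ha m p t hp => (L.thick a ha m p t hp).mono fun ε hε => by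
    have hm : Measurable ((L.U m ε (l9Pt (N.h m) p) t).indicator fun o => ‖L.ke m ε a (l9Pt (N.h m) p) t o‖ₑ ^ 2) :=
      ((L.ke_meas m ε a _ t).enorm.pow_const 2).indicator (L.U_meas m ε _ t)
    show pvUpInt (Pr ε) _ ≤ _
    rw [pvup_int_of_meas (Pr ε) hm, lintegral_indicator (L.U_meas m ε _ t)]
    exact hε

end spineU

/-- **THE MASTER THEOREM OF THE WALL OVER UPPER EXPECTATIONS**: `φ` and `G` depend only on the numbers `N` and on the sequence -/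
theorem pvhb_locU {τ : Type} {c : ℝ} (c0 : 0 < c) (N : PvhbNum τ c) (es : ℕ → ℝ) (h0 : ∀ n, 0 < es n) (he : Tendsto es atTop (𝓝 0)) :
    ∃ φ : ℕ → ℕ, StrictMono φ ∧ ∃ G : L9Glob τ c, ∀ (Ω : Type) (Pr : ℝ → PvUp Ω) (rims : Ω → Set PvbRim) (x : ℂ) (R : ℝ),
      Nonempty (PvhbLocU N Pr rims x R) → Nonempty (L9Loc G (fun n => Pr (es (φ n))) rims x R) := by
  obtain ⟨φ, hφ, ψ, hψ, a, ainf, hCA, hA, ha⟩ := pvhb_diag N.A N.CA N.A_bdd es (pvhb_seq h0 he)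
  refine ⟨φ, hφ, N.toGlob ψ hψ.tendsto_atTop a ainf ha, fun Ω Pr rims x R ⟨L⟩ => ?_⟩
  exact pvhb_spineU c0 (L.toSpine (fun n => es (φ n)) ((pvhb_seq h0 he).comp hφ.tendsto_atTop) ψ hψ.tendsto_atTop a ainf ha hCA hA)

/-- the PLAIN TWO-LEVEL upper expectation: colours at fixed geometry, then the geometry -/
noncomputable def pvhbUp (ε : ℝ) : PvUp (PvGeoT × PvColT) := PvUp.iter (pvGeo ε) pvCol

/-- **EXIT OF THE WALL** from the plain two-level space: no extra vertices, no bulk family, no coins -/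
theorem pvhb_exit_up {c : ℝ} (c0 : 0 < c) (τ : Type) [Fintype τ] [Nonempty τ] (N : PvhbNum τ c)
    (H : ∀ (x : ℂ) (R : ℝ), 0 < R → Nonempty (PvhbLocU N pvhbUp (fun q => pvhbAll x R (pvMerge q)) x R)) : L9ExitTR c := by
  intro es h0 he
  obtain ⟨φ, hφ, G, K⟩ := pvhb_locU c0 N es h0 he
  refine ⟨φ, hφ, τ, inferInstance, inferInstance, G, fun X _ 𝔅 x R hR => ?_⟩
  obtain ⟨L⟩ := H x R hR
  refine K (L9Om X) (fun ε => l9Up X ε) _ x R ⟨L.comap (fun ε => l9Up X ε) (fun w : L9Om X => (w.1, w.2.1))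
    (fun ε F => pvup_seed_E_le (pvGeo ε) pvCol (colLaw X) F) (fun w : L9Om X => 𝔅.rims x R (l9Sm w)) fun o P hP => ?_⟩
  exact ⟨X, inferInstance, 𝔅, (l9Sm o).2, hP⟩

/-- the plain two-level upper expectation is dominated by the upper integral of `pvLaw ε` -/
theorem pvhb_up_le_law (ε : ℝ) (F : Claims.C0465.PVSample → ENNReal) :
    (pvhbUp ε).E (fun q => F (pvMerge q)) ≤ (PvUp.ofMeasure (Claims.C0465.pvLaw ε)).E F := by
  refine le_iInf fun φ => ?_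
  refine ((pvhbUp ε).mono fun q => φ.2.2 (pvMerge q)).trans ?_
  refine (pvup_iter_E_le (pvGeo ε) pvCol (φ.2.1.comp measurable_pvMerge)).trans (le_of_eq ?_)
  rw [pvqu_law, lintegral_map φ.2.1 measurable_pvMerge]
  rfl

/-- a record in MEASURE form on the plain space `(PVSample, pvLaw ε)` gives the record of the exit -/
noncomputable def PvhbLoc.toUp {τ : Type} {c : ℝ} {N : PvhbNum τ c} {x : ℂ} {R : ℝ} (L : PvhbLoc N (fun ε => Claims.C0465.pvLaw ε) (pvhbAll x R) x R) :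
    PvhbLocU N pvhbUp (fun q => pvhbAll x R (pvMerge q)) x R :=
  (L.toU fun _ => inferInstance).comap pvhbUp pvMerge (fun ε F => pvhb_up_le_law ε F) _ fun _ => Subset.rfl

/-! ## 10. TOOLKIT FOR THE ROOFS: how to bound `pvhbUp ε` (and any `PvUp.iter γ κ`)

Complements `Defs/Up.lean` (163): ALMOST EVERY geometry instead of every geometry, a.e. measurable majorants, bad geometries split off, transfer from `pvLaw ε` and `pvP ε` (OUTER measures: no measurability of the event). -/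

section tools

variable {α : Type} [MeasurableSpace α] (μ : Measure α)

/-- upper integral: an a.e. majorant which is a.e. measurable is enough -/
theorem pvhb_int_ae {F φ : α → ENNReal} (hφ : AEMeasurable φ μ) (h : ∀ᵐ a ∂μ, F a ≤ φ a) : pvUpInt μ F ≤ ∫⁻ a, φ a ∂μ := by
  have h1 : ∀ᵐ a ∂μ, F a ≤ hφ.mk φ a := by
    filter_upwards [h, hφ.ae_eq_mk] with a h1 h2
    rwa [← h2]
  set T : Set α := toMeasurable μ {a | ¬ F a ≤ hφ.mk φ a} with hT
  have hT0 : μ T = 0 := by rw [hT, measure_toMeasurable]; exact h1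
  have hTm : MeasurableSet T := measurableSet_toMeasurable _ _
  refine (pvup_int_le μ (φ := fun a => hφ.mk φ a + T.indicator (fun _ => ⊤) a) (hφ.measurable_mk.add (measurable_const.indicator hTm)) fun a => ?_).trans ?_
  · by_cases ha : F a ≤ hφ.mk φ a
    · exact ha.trans le_self_add
    · have : a ∈ T := subset_toMeasurable μ _ ha
      simp [indicator_of_mem this]
  · rw [lintegral_add_left hφ.measurable_mk, lintegral_indicator_const hTm, hT0, mul_zero, add_zero, lintegral_congr_ae hφ.ae_eq_mk]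

/-- the upper integral of an a.e. measurable function is its integral -/
theorem pvhb_int_of_ae {F : α → ENNReal} (hF : AEMeasurable F μ) : pvUpInt μ F = ∫⁻ a, F a ∂μ :=
  le_antisymm (pvhb_int_ae μ hF (Eventually.of_forall fun _ => le_rfl)) (le_iInf fun φ => lintegral_mono φ.2.2)

/-- the upper integral sees functions up to null sets -/
theorem pvhb_int_mono_ae {F G : α → ENNReal} (h : ∀ᵐ a ∂μ, F a ≤ G a) : pvUpInt μ F ≤ pvUpInt μ G :=
  le_iInf fun φ => pvhb_int_ae μ φ.2.1.aemeasurable (h.mono fun a ha => ha.trans (φ.2.2 a))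

variable {G K : Type} [MeasurableSpace G] [MeasurableSpace K] (γ : Measure G) (κ : Measure K) [IsProbabilityMeasure γ] [IsProbabilityMeasure κ]

/-- **QUENCHED BOUND, a.e. form**: for ALMOST EVERY geometry the upper colour integral of the section is `≤ w g`, `w` a.e. measurable -/
theorem pvhb_iter_E_ae {F : G × K → ENNReal} {w : G → ENNReal} (hw : AEMeasurable w γ) (h : ∀ᵐ g ∂γ, pvUpInt κ (fun k => F (g, k)) ≤ w g) :
    (PvUp.iter γ κ).E F ≤ ∫⁻ g, w g ∂γ := pvhb_int_ae γ hw h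

/-- **QUENCHED BOUND FOR EVENTS, a.e. form**: OUTER colour measure of the section `≤ w g` for almost every geometry -/
theorem pvhb_iter_P_ae {A : Set (G × K)} {w : G → ENNReal} (hw : AEMeasurable w γ) (h : ∀ᵐ g ∂γ, κ {k | (g, k) ∈ A} ≤ w g) :
    (PvUp.iter γ κ).P A ≤ ∫⁻ g, w g ∂γ := by
  rw [pvup_iter_P]
  exact pvhb_int_ae γ hw h

/-- an event of the geometry alone, by its OUTER measure -/
theorem pvhb_iter_P_geo (B : Set G) : (PvUp.iter γ κ).P {p | p.1 ∈ B} ≤ γ B := by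
  have hm := measurableSet_toMeasurable γ B
  rw [pvup_iter_P]
  refine (pvup_int_le γ (φ := (toMeasurable γ B).indicator fun _ => 1) (measurable_const.indicator hm) fun g => ?_).trans ?_
  · by_cases hg : g ∈ B
    · rw [indicator_of_mem (subset_toMeasurable γ B hg)]
      exact prob_le_one
    · have : {k : K | ((g, k) : G × K) ∈ {p : G × K | p.1 ∈ B}} = ∅ := by
        ext k; simp [hg]
      rw [this, measure_empty]
      exact zero_le
  · rw [lintegral_indicator_const hm, one_mul, measure_toMeasurable]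

/-- **BAD GEOMETRIES SPLIT OFF**: off an ARBITRARY set `B` of geometries the section has outer colour measure `≤ w g` -/
theorem pvhb_iter_P_split {A : Set (G × K)} (B : Set G) {w : G → ENNReal} (hw : AEMeasurable w γ) (h : ∀ g, g ∉ B → κ {k | (g, k) ∈ A} ≤ w g) :
    (PvUp.iter γ κ).P A ≤ γ B + ∫⁻ g, w g ∂γ := by
  have hsub : A ⊆ {p | p.1 ∈ B} ∪ (A \ {p | p.1 ∈ B}) := fun p hp => by
    by_cases hB : p.1 ∈ B
    · exact Or.inl hB
    · exact Or.inr ⟨hp, hB⟩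
  refine ((PvUp.iter γ κ).P_mono hsub).trans (((PvUp.iter γ κ).P_union_le _ _).trans (add_le_add (pvhb_iter_P_geo γ κ B) ?_))
  refine pvhb_iter_P_ae γ κ hw (Eventually.of_forall fun g => ?_)
  by_cases hg : g ∈ B
  · have : {k : K | ((g, k) : G × K) ∈ A \ {p : G × K | p.1 ∈ B}} = ∅ := by
      ext k; simp [hg]
    rw [this, measure_empty]
    exact zero_le
  · exact (measure_mono fun k hk => hk.1).trans (h g hg)

/-- the same with a constant -/
theorem pvhb_iter_P_split_const {A : Set (G × K)} (B : Set G) (q : ENNReal) (h : ∀ g, g ∉ B → κ {k | (g, k) ∈ A} ≤ q) :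
    (PvUp.iter γ κ).P A ≤ γ B + q := by
  have := pvhb_iter_P_split γ κ B (w := fun _ => q) aemeasurable_const h
  simpa using this

/-- **BAD GEOMETRIES SPLIT OFF, expectations**: `F ≤ M` everywhere, quenched bound off `B` -/
theorem pvhb_iter_E_split {F : G × K → ENNReal} (B : Set G) (M : ENNReal) (hF : ∀ p, F p ≤ M) {w : G → ENNReal} (hw : AEMeasurable w γ)
    (h : ∀ g, g ∉ B → pvUpInt κ (fun k => F (g, k)) ≤ w g) : (PvUp.iter γ κ).E F ≤ M * γ B + ∫⁻ g, w g ∂γ := by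
  have hm := measurableSet_toMeasurable γ B
  have hw' : AEMeasurable (fun g => (toMeasurable γ B).indicator (fun _ => M) g + w g) γ := (measurable_const.indicator hm).aemeasurable.add hw
  refine (pvhb_iter_E_ae γ κ hw' (Eventually.of_forall fun g => ?_)).trans ?_
  · by_cases hg : g ∈ B
    · rw [indicator_of_mem (subset_toMeasurable γ B hg)]
      refine le_trans ?_ le_self_add
      refine (pvup_int_le κ (φ := fun _ => M) measurable_const fun k => hF (g, k)).trans ?_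
      simp
    · exact (h g hg).trans le_add_self
  · rw [lintegral_add_left (measurable_const.indicator hm), lintegral_indicator_const hm, measure_toMeasurable]

end tools

/-- an event of the SAMPLE, by its outer measure under `pvLaw ε` -/
theorem pvhb_up_P_law (ε : ℝ) (A : Set Claims.C0465.PVSample) : (pvhbUp ε).P {q | pvMerge q ∈ A} ≤ Claims.C0465.pvLaw ε A := by
  have h := pvhb_up_le_law ε (A.indicator fun _ => 1)
  have e : (PvUp.ofMeasure (Claims.C0465.pvLaw ε)).E (A.indicator fun _ => 1) = Claims.C0465.pvLaw ε A := pvup_ofMeasure_P _ A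
  rw [e] at h
  exact h

/-- an event of the CONFIGURATION, by its outer measure under `pvP ε` -/
theorem pvhb_up_P_conf (ε : ℝ) (A : Set (Conf PvPt)) : (pvhbUp ε).P {q | pvConf (pvMerge q) ∈ A} ≤ pvP ε A := by
  refine (pvhb_up_P_law ε (pvConf ⁻¹' A)).trans ?_
  exact pvhb_preimage_le measurable_pvConf rfl A

/-- a function of the CONFIGURATION with an a.e. measurable a.e. majorant -/
theorem pvhb_up_E_conf (ε : ℝ) {F φ : Conf PvPt → ENNReal} (hφ : AEMeasurable φ (pvP ε)) (h : ∀ᵐ η ∂(pvP ε), F η ≤ φ η) :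
    (pvhbUp ε).E (fun q => F (pvConf (pvMerge q))) ≤ ∫⁻ η, φ η ∂(pvP ε) := by
  refine (pvhb_up_le_law ε fun ω => F (pvConf ω)).trans ?_
  have hφ' : AEMeasurable (fun ω => φ (pvConf ω)) (Claims.C0465.pvLaw ε) := hφ.comp_measurable measurable_pvConf
  refine (pvhb_int_ae (Claims.C0465.pvLaw ε) hφ' (ae_of_ae_map measurable_pvConf.aemeasurable h)).trans (le_of_eq ?_)
  exact (lintegral_map' hφ measurable_pvConf.aemeasurable).symm

/-- an event of the GEOMETRY, by its outer measure under `pvGeo ε` -/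
theorem pvhb_up_P_geo (ε : ℝ) (B : Set PvGeoT) : (pvhbUp ε).P {q | q.1 ∈ B} ≤ pvGeo ε B := pvhb_iter_P_geo (pvGeo ε) pvCol B

/-- **THE STANDARD QUENCHED ESTIMATE OF AN EVENT OF THE WALL**: bad geometries `B` (outer measure) + colour probability `≤ w g` of the section at a good geometry -/
theorem pvhb_up_P_split (ε : ℝ) {A : Set (PvGeoT × PvColT)} (B : Set PvGeoT) {w : PvGeoT → ENNReal} (hw : AEMeasurable w (pvGeo ε))
    (h : ∀ g, g ∉ B → pvCol {k | (g, k) ∈ A} ≤ w g) : (pvhbUp ε).P A ≤ pvGeo ε B + ∫⁻ g, w g ∂(pvGeo ε) := pvhb_iter_P_split (pvGeo ε) pvCol B hw h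

theorem pvhb_eqns_cite : True := by
  have := @PvhbOrd.eq_1; have := @PvhbNum.toGlob.eq_1; have := @pvhbAll.eq_1; have := @pvhbUp.eq_1
  have := @PvhbInU.cc.eq_1; have := @PvhbInU.Ψ.eq_1; have := @PvhbInU.β.eq_1; have := @PvhbInU.badN1.eq_1
  trivial

end Claimed.Agent.R289
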