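import Claimed.Agent.R289.Arm.Top
import Claimed.Agent.R289.Tr.Dense

/-!
# Row 289 (S0537, Cardy for Poisson-Voronoi), THE WALL, chapter C, A6 = GATE DENSITY, file Tr/DenseM : THE COUNTS OF THE STATIC BAD BLOCKS AT THE MODEL      (helper89; prefix `pvdn_`, `Pvdn`, `pvdn`)

Post of 24 (10:12Z: "X2 at the model: frame ⟹ quenched ⟹ annealed glue") + word of 101 (10:14Z: item (3) of the G8 INSTANCE).      Blueprint: `origin/helper281:notes/R289/A6_281.md` sec.4 (COUNT, heavy cells, J-bad).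
CONSUMER: hypothesis `hK` of `pvtd_cbx_le` (`Tr/Dense.lean` sec.11, 101): `∑ b ∈ pvtdCells Mc 1 Q, μ (Fl i Q b) ≤ K`, `K` INDEPENDENT of `Mc`.

* sec.1  `PvdnFive T pos s ζ r0 r1` = the flag of a box, UNIVERSAL over the cycles (format of 101: no chosen cycle, no frame inside): for ALL cycles `k1 < k2 < k0` with `clB(ζ,r0) ⊆ Int k1.Left`, `VOf k0.Left ⊆ clB(ζ,r1)`
         there is a CONFIG5 of 249 (`PvatCfg`) for `s` or for `pvasNot s` (`= PvagaFl` of 281 by `Iff.rfl`).      `PvdnFiveY Y σ ζ r0 r1` = the same in the Delaunay plane of the site set `Y` coloured by `σ`.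
* sec.2  **`pvdn_five_q1`**  ONE lattice of boxes (mesh = inner radius `s`): on `ArmtFrame` the quenched sum `∑_p pvQc (F p) g ≤ 2 q⁻² Cl M(q)`      (`armt_geo` at `m = m' = 0`, `PvauChain.geo`, `pvau_five_ex_sum`, `armt_col`)
* sec.3  **`pvdn_five_q`**   boxes of mesh `a`, inner radius `N0 a`: the `N0²` sublattices
* sec.4  **`pvdn_five`**     annealed, `ε ↓ 0`: `∃ K : ℕ`, eventually `∑_{b ∈ I} pvP ε (F b) ≤ N0² K`      (`pvat_sum_le` of 98; measurable flags; the flags may be exact only on a geometry event `Gd` of probability `→ 1`)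
         **`pvdn_five_cells`** = the same on the index set `pvtdCells Mc 1 Q` of `pvtd_cbx_le`
* sec.5  `PvdnJ`, `PvdnJY` (`J` disjoint monochromatic crossings, universal over the cycles = `pvdsJ` of 101);   `pvdn_JA_le` (model free: `≤ 2 (1-q)^J`, BK of 221), **`pvdn_J_q`** (quenched on `ArmtFrame q {ζ} {r0, 4 r0}`, `5 r0 ≤ r1`), **`pvdn_J`** (annealed: `∀ δ > 0 ∃ J0 ∀ J ≥ J0 …` eventually `pvP ε F ≤ δ`)
-/

set_option autoImplicit false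
set_option linter.unusedSectionVars false
set_option linter.unusedVariables false

namespace Claimed.Agent.R289

open MeasureTheory ProbabilityTheory Set Filter Topology Metric
open scoped ENNReal NNReal
open Claims.C0465

/-! ## 1. the flag of a box -/

/-- **FIVE ARMS ROUND `ζ` BETWEEN THE RADII `r0`, `r1`, universal over the cycles** -/
def PvdnFive {V D : Type} (T : PvMap V D) (pos : V → ℂ) (s : V → Bool) (ζ : ℂ) (r0 r1 : ℝ) : Prop :=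
  ∀ k0 k1 k2 : T.Cyc, k0.Left.Finite → k1.Inside k2 → k2.Inside k0 → (∀ v, ‖pos v - ζ‖ ≤ r0 → v ∈ T.Int k1.Left) → (∀ v ∈ T.VOf k0.Left, ‖pos v - ζ‖ ≤ r1) →
    (∃ (x x2 x4 : D) (n1 n2 n4 : ℕ), PvatCfg T k0 k1 k2 s x x2 x4 n1 n2 n4) ∨ ∃ (x x2 x4 : D) (n1 n2 n4 : ℕ), PvatCfg T k0 k1 k2 (pvasNot s) x x2 x4 n1 n2 n4

/-- the same in the Delaunay plane of the site set `Y` coloured by `σ` -/
def PvdnFiveY (Y : Set ℂ) (σ : ℂ → Bool) (ζ : ℂ) (r0 r1 : ℝ) : Prop := ∀ h : DelGood Y, PvdnFive (delMap h) (dlsPos Y) (fun v => σ v) ζ r0 r1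

theorem pvdn_eqns_cite : True := by
  have := @PvdnFive.eq_1; have := @PvdnFiveY.eq_1
  trivial

theorem pvdn_fiveY_congr {Y : Set ℂ} {σ σ' : ℂ → Bool} (h : ∀ p ∈ Y, σ p = σ' p) {ζ : ℂ} {r0 r1 : ℝ} (hF : PvdnFiveY Y σ ζ r0 r1) : PvdnFiveY Y σ' ζ r0 r1 := by
  intro hY
  have e : (fun v : Y => σ' v) = fun v : Y => σ v := funext fun v => (h v v.2).symm
  rw [e]
  exact hF hY

/-- monotone in the radii -/
theorem PvdnFive.mono {V D : Type} {T : PvMap V D} {pos : V → ℂ} {s : V → Bool} {ζ : ℂ} {r0 r1 r0' r1' : ℝ} (h : PvdnFive T pos s ζ r0 r1) (h0 : r0 ≤ r0') (h1 : r1' ≤ r1) :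
    PvdnFive T pos s ζ r0' r1' :=
  fun k0 k1 k2 hf h12 h20 hi ho => h k0 k1 k2 hf h12 h20 (fun v hv => hi v (hv.trans h0)) (fun v hv => (ho v hv).trans h1)

/-! ## 2. one lattice of boxes: the quenched count on a frame -/

/-- the constant of the count -/
noncomputable def pvdnKap (q : ℝ) : ℝ := 2 * ((q * q)⁻¹ * (armtCl * pvbkM 2 2 (1 - q)))

theorem pvdn_eqns_cite2 : True := by
  have := @pvdnKap.eq_1
  trivial

theorem pvdn_kap_nonneg {q : ℝ} (hq : 0 < q) (hq1 : q < 1) : 0 ≤ pvdnKap q := by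
  have := pvbk_M_nonneg 2 2 (r := 1 - q) (by linarith)
  unfold pvdnKap
  positivity

open Classical in
/-- **THE QUENCHED FIVE-ARM COUNT ON A FRAME** (one lattice: mesh `s` = inner radius).      The flags `F p` are ARBITRARY sets of configurations. -/
theorem pvdn_five_q1 {q : ℝ} (hq : 0 < q) (hq1 : q < 1) {g : PvGeoT} (hg : PvgOk g) {y : ℂ} {s S : ℝ} {L : ℕ} (hs : 0 < s)
    (hL : 2 * (L : ℝ) * s ≤ S / 64) (hm : 20480 * s ≤ S / 64) (hF : ArmtFrame q (armtZ y s L) (armtRs s S 0 0) (pvgSites g)) (F : ℤ × ℤ → Set (Conf PvPt))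
    (hFl : ∀ p ∈ armtBox L, ∀ η ∈ F p, cfSites η = pvgSites g → PvdnFiveY (cfSites η) (cfCol η) (armtCtr y s p) s S) :
    ∑ p ∈ armtBox L, pvQc (F p) g ≤ ENNReal.ofReal (pvdnKap q) := by
  have hS : 0 < S := by nlinarith
  obtain ⟨h, G, hAt⟩ := armt_geo (R := S) (m := 0) (m' := 0) hs hL (by norm_num; linarith) (by norm_num; linarith) hF
  have hsph : (delMap h).IsSph := (armt_loc_plane h Set.univ).sph
  have hsimple : (delMap h).Simple := (armt_loc_plane h Set.univ).simple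
  have hch : PvauChain (delMap h) q 0 0 armtCl G.γ G.δ := ⟨G.fin, G.γ_blk, G.γ_top, G.δ_blk, G.mult⟩
  set gg : PvauGeo (delMap h) (armtBox L) := hch.geo hsph hq with hgg
  have hfin : ((delMap h).VOf gg.c0.Left).Finite := by
    have : (delMap h).VOf gg.c0.Left = (delMap h).src '' gg.c0.Left := by
      ext v
      simp only [PvMap.VOf, Set.mem_ofPred_eq, Set.mem_image]
    rw [this]
    exact gg.fin0.image _
  set A : Finset (pvgSites g) := hfin.toFinset with hAdef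
  have hA : ∀ v ∈ (delMap h).VOf gg.c0.Left, v ∈ A := fun v hv => hfin.mem_toFinset.2 hv
  set ξ : pvgSites g → Bool := fun _ => false with hξ
  have hloc : ∀ p : armtBox L, PvalLoc A (fun σ => PvauFive gg p σ ∨ PvauFive gg p (pvasNot σ)) := by
    intro p ω ω' hω
    have h1 : PvauFive gg p ω ↔ PvauFive gg p ω' := pvau_five_congr hsph gg p fun v hv => hω v (hA v hv)
    have h2 : PvauFive gg p (pvasNot ω) ↔ PvauFive gg p (pvasNot ω') :=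
      pvau_five_congr hsph gg p fun v hv => by simp only [pvasNot, hω v (hA v hv)]
    exact propext (or_congr h1 h2)
  have hone : ∀ p : armtBox L, pvQc (F p) g ≤ ENNReal.ofReal (pvaP A ξ (fun σ => PvauFive gg p σ ∨ PvauFive gg p (pvasNot σ))) := by
    intro p
    rw [← armt_col hg A _ (hloc p) ξ, pvqu_Qc_eq]
    refine measure_mono fun c hc => ?_
    have hsites : cfSites (pvConf (pvMerge (g, c))) = pvgSites g := by rw [hg.conf_eq c, cfOf_sites]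
    have h1 := hFl p p.2 _ hc hsites
    rw [hsites] at h1
    have h2 : PvdnFiveY (pvgSites g) (pvgColAt g c) (armtCtr y s p) s S := pvdn_fiveY_congr (fun z hz => pval_cfCol hg c hz) h1
    have h3 := h2 h (G.δ 1) (G.γ p 0) (G.γ p 3) (G.fin 1) (hch.gi hsph p (by norm_num) (by norm_num)) (hch.gd hsph p (by norm_num) (by norm_num))
      (fun v hv => hAt.inn p v hv) (fun v hv => (hAt.mid p v hv).le)
    rcases h3 with ⟨x, x2, x4, n1, n2, n4, hc⟩ | ⟨x, x2, x4, n1, n2, n4, hc⟩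
    · exact Or.inl ⟨((x, x2, x4), (n1, n2, n4)), hc⟩
    · exact Or.inr ⟨((x, x2, x4), (n1, n2, n4)), hc⟩
  have hsum : ∑ p : armtBox L, pvaP A ξ (fun σ => PvauFive gg p σ ∨ PvauFive gg p (pvasNot σ)) ≤ pvdnKap q := by
    have b1 := pvau_five_ex_sum hsph hsimple gg Finset.univ A ξ hA
    have b2 := pvau_five_ex_sum hsph hsimple gg Finset.univ A (fun v => !ξ v) hA
    have e2 : ∑ p : armtBox L, pvaP A ξ (fun σ => PvauFive gg p (pvasNot σ)) = ∑ p : armtBox L, pvaP A (fun v => !ξ v) (PvauFive gg p) :=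
      Finset.sum_congr rfl fun p _ => pva_P_flip A ξ (PvauFive gg p)
    calc ∑ p : armtBox L, pvaP A ξ (fun σ => PvauFive gg p σ ∨ PvauFive gg p (pvasNot σ))
        ≤ ∑ p : armtBox L, (pvaP A ξ (PvauFive gg p) + pvaP A ξ (fun σ => PvauFive gg p (pvasNot σ))) := Finset.sum_le_sum fun p _ => pva_P_or_le A ξ _ _
      _ = ∑ p : armtBox L, pvaP A ξ (PvauFive gg p) + ∑ p : armtBox L, pvaP A (fun v => !ξ v) (PvauFive gg p) := by rw [Finset.sum_add_distrib, e2]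
      _ ≤ (q * q)⁻¹ * (armtCl * pvbkM 2 2 (1 - q)) + (q * q)⁻¹ * (armtCl * pvbkM 2 2 (1 - q)) := add_le_add b1 b2
      _ = pvdnKap q := by unfold pvdnKap; ring
  calc ∑ p ∈ armtBox L, pvQc (F p) g = ∑ p : armtBox L, pvQc (F p) g := (Finset.sum_coe_sort (armtBox L) (fun p => pvQc (F p) g)).symm
    _ ≤ ∑ p : armtBox L, ENNReal.ofReal (pvaP A ξ (fun σ => PvauFive gg p σ ∨ PvauFive gg p (pvasNot σ))) := Finset.sum_le_sum fun p _ => hone p
    _ = ENNReal.ofReal (∑ p : armtBox L, pvaP A ξ (fun σ => PvauFive gg p σ ∨ PvauFive gg p (pvasNot σ))) :=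
        (ENNReal.ofReal_sum_of_nonneg fun p _ => pva_P_nonneg _ _ _).symm
    _ ≤ ENNReal.ofReal (pvdnKap q) := ENNReal.ofReal_le_ofReal hsum

/-! ## 3. boxes of mesh `a`, inner radius `N0 a`: the `N0²` sublattices -/

theorem pvdn_frame_mono {q : ℝ} {Z Z' : Finset ℂ} {Rs Rs' : Finset ℝ} {Y : Set ℂ} (h : ArmtFrame q Z Rs Y) (hZ : Z' ⊆ Z) (hR : Rs' ⊆ Rs) : ArmtFrame q Z' Rs' Y := by
  obtain ⟨hY, hF⟩ := h
  exact ⟨hY, fun z hz r hr => hF z (hZ hz) r (hR hr)⟩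

/-- the box number `p` of the sublattice `ρ` -/
def pvdnIx (N0 : ℕ) (b0 : ℤ × ℤ) (x : (ℕ × ℕ) × (ℤ × ℤ)) : ℤ × ℤ := (b0.1 + x.1.1 + N0 * x.2.1, b0.2 + x.1.2 + N0 * x.2.2)

/-- the origin of the sublattice `ρ` -/
def pvdnOr (z0 : ℂ) (a : ℝ) (b0 : ℤ × ℤ) (ρ : ℕ × ℕ) : ℂ := z0 + l9Pt a (b0.1 + ρ.1, b0.2 + ρ.2)

/-- the centres of the frames of the `N0²` sublattices -/
noncomputable def pvdnZ (z0 : ℂ) (a : ℝ) (N0 : ℕ) (b0 : ℤ × ℤ) (L : ℕ) : Finset ℂ := by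
  classical exact (Finset.range N0 ×ˢ Finset.range N0).biUnion fun ρ => armtZ (pvdnOr z0 a b0 ρ) (N0 * a) L

theorem pvdn_eqns_cite3 : True := by
  have := @pvdnIx.eq_1; have := @pvdnOr.eq_1; have := @pvdnZ.eq_1
  trivial

theorem pvdn_ctr (z0 : ℂ) (a : ℝ) (N0 : ℕ) (b0 : ℤ × ℤ) (ρ : ℕ × ℕ) (p : ℤ × ℤ) : armtCtr (pvdnOr z0 a b0 ρ) (N0 * a) p = z0 + l9Pt a (pvdnIx N0 b0 (ρ, p)) := by
  unfold armtCtr pvdnOr pvdnIx l9Pt
  apply Complex.ext
  · simp only [Complex.add_re]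
    push_cast
    ring
  · simp only [Complex.add_im]
    push_cast
    ring

/-- every box of the square is a box of one of the sublattices -/
theorem pvdn_ix_surj {N0 L : ℕ} (hN0 : 0 < N0) {b0 b : ℤ × ℤ} (h1 : |b.1 - b0.1| ≤ N0 * L) (h2 : |b.2 - b0.2| ≤ N0 * L) :
    ∃ x ∈ (Finset.range N0 ×ˢ Finset.range N0) ×ˢ armtBox L, pvdnIx N0 b0 x = b := by
  have hN : (0 : ℤ) < N0 := by exact_mod_cast hN0
  have key : ∀ u : ℤ, |u| ≤ N0 * L → ∃ (r : ℕ) (t : ℤ), r < N0 ∧ -(L : ℤ) ≤ t ∧ t ≤ L ∧ u = r + N0 * t := by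
    intro u hu
    obtain ⟨hu1, hu2⟩ := abs_le.1 hu
    refine ⟨(u % N0).toNat, u / N0, ?_, ?_, ?_, ?_⟩
    · have := Int.emod_lt_of_pos u hN
      have := Int.emod_nonneg u hN.ne'
      omega
    · rw [Int.le_ediv_iff_mul_le hN]
      nlinarith
    · have : u / N0 < L + 1 := by
        rw [Int.ediv_lt_iff_lt_mul hN]
        nlinarith
      omega
    · rw [Int.toNat_of_nonneg (Int.emod_nonneg u hN.ne')]
      exact (Int.emod_add_mul_ediv u N0).symm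
  obtain ⟨r1, t1, a1, a2, a3, a4⟩ := key _ h1
  obtain ⟨r2, t2, c1, c2, c3, c4⟩ := key _ h2
  refine ⟨((r1, r2), (t1, t2)), ?_, ?_⟩
  · simp only [Finset.mem_product, Finset.mem_range, armtBox, Finset.mem_Icc]
    exact ⟨⟨a1, c1⟩, ⟨a2, a3⟩, ⟨c2, c3⟩⟩
  · unfold pvdnIx
    apply Prod.ext
    · show b0.1 + (r1 : ℤ) + N0 * t1 = b.1
      linarith
    · show b0.2 + (r2 : ℤ) + N0 * t2 = b.2
      linarith

open Classical in
/-- **THE QUENCHED FIVE-ARM COUNT ON A FRAME**: boxes of mesh `a` (centres `z0 + l9Pt a b`), inner radius `N0 a`, outer radius `S`.      The flags are ARBITRARY sets of configurations. -/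
theorem pvdn_five_q {q : ℝ} (hq : 0 < q) (hq1 : q < 1) {g : PvGeoT} (hg : PvgOk g) (z0 : ℂ) {a S : ℝ} {N0 L : ℕ} (b0 : ℤ × ℤ) (ha : 0 < a) (hN0 : 0 < N0)
    (hL : 2 * (L : ℝ) * (N0 * a) ≤ S / 64) (hm : 20480 * (N0 * a) ≤ S / 64) (hF : ArmtFrame q (pvdnZ z0 a N0 b0 L) (armtRs (N0 * a) S 0 0) (pvgSites g))
    (I : Finset (ℤ × ℤ)) (hI : ∀ b ∈ I, |b.1 - b0.1| ≤ N0 * L ∧ |b.2 - b0.2| ≤ N0 * L) (F : ℤ × ℤ → Set (Conf PvPt))
    (hFl : ∀ b ∈ I, ∀ η ∈ F b, cfSites η = pvgSites g → PvdnFiveY (cfSites η) (cfCol η) (z0 + l9Pt a b) (N0 * a) S) :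
    ∑ b ∈ I, pvQc (F b) g ≤ ENNReal.ofReal (N0 ^ 2 * pvdnKap q) := by
  have hs : (0 : ℝ) < N0 * a := by positivity
  set F' : ℤ × ℤ → Set (Conf PvPt) := fun b => if b ∈ I then F b else ∅ with hF'
  set P : Finset ((ℕ × ℕ) × (ℤ × ℤ)) := (Finset.range N0 ×ˢ Finset.range N0) ×ˢ armtBox L with hP
  have hone : ∀ ρ ∈ Finset.range N0 ×ˢ Finset.range N0, ∑ p ∈ armtBox L, pvQc (F' (pvdnIx N0 b0 (ρ, p))) g ≤ ENNReal.ofReal (pvdnKap q) := by
    intro ρ hρ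
    refine pvdn_five_q1 hq hq1 hg (y := pvdnOr z0 a b0 ρ) hs hL hm (pvdn_frame_mono hF ?_ subset_rfl) (fun p => F' (pvdnIx N0 b0 (ρ, p))) ?_
    · unfold pvdnZ
      exact Finset.subset_biUnion_of_mem (fun ρ => armtZ (pvdnOr z0 a b0 ρ) (N0 * a) L) hρ
    · intro p _ η hη hsites
      by_cases hb : pvdnIx N0 b0 (ρ, p) ∈ I
      · rw [pvdn_ctr]
        have hη' : η ∈ F (pvdnIx N0 b0 (ρ, p)) := by simpa only [hF', if_pos hb] using hη
        exact hFl _ hb η hη' hsites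
      · have hη' : η ∈ (∅ : Set (Conf PvPt)) := by simpa only [hF', if_neg hb] using hη
        exact absurd hη' (Set.notMem_empty η)
  calc ∑ b ∈ I, pvQc (F b) g = ∑ b ∈ I, pvQc (F' b) g := Finset.sum_congr rfl fun b hb => by simp only [hF', if_pos hb]
    _ ≤ ∑ b ∈ P.image (pvdnIx N0 b0), pvQc (F' b) g := by
        refine Finset.sum_le_sum_of_subset fun b hb => ?_
        obtain ⟨x, hx, e⟩ := pvdn_ix_surj hN0 (hI b hb).1 (hI b hb).2
        exact Finset.mem_image.2 ⟨x, hx, e⟩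
    _ ≤ ∑ x ∈ P, pvQc (F' (pvdnIx N0 b0 x)) g := Finset.sum_image_le_of_nonneg fun _ _ => zero_le
    _ = ∑ ρ ∈ Finset.range N0 ×ˢ Finset.range N0, ∑ p ∈ armtBox L, pvQc (F' (pvdnIx N0 b0 (ρ, p))) g := Finset.sum_product _ _ _
    _ ≤ ∑ _ρ ∈ Finset.range N0 ×ˢ Finset.range N0, ENNReal.ofReal (pvdnKap q) := Finset.sum_le_sum hone
    _ = ENNReal.ofReal (N0 ^ 2 * pvdnKap q) := by
        rw [Finset.sum_const, Finset.card_product, Finset.card_range, nsmul_eq_mul, ENNReal.ofReal_mul (by positivity)]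
        congr 1
        rw [← sq]
        push_cast
        rw [ENNReal.ofReal_pow (by positivity), ENNReal.ofReal_natCast]

/-! ## 4. annealing, `ε ↓ 0` -/

theorem pvdn_rs_pos {s S : ℝ} (hs : 0 < s) (hS : 0 < S) (m m' : ℕ) : ∀ r ∈ armtRs s S m m', 0 < r := by
  classical
  intro r hr
  unfold armtRs at hr
  rw [Finset.mem_union, Finset.mem_image, Finset.mem_image] at hr
  rcases hr with ⟨j, -, rfl⟩ | ⟨j, -, rfl⟩ <;> positivity

/-- **THE FRAMES**, filter form, with `ArmtFrame` -/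
theorem pvdn_frame_lim : ∃ q : ℝ, 0 < q ∧ q < 1 ∧ ∀ (Z : Finset ℂ) (Rs : Finset ℝ), (∀ r ∈ Rs, 0 < r) →
    Tendsto (fun ε : ℝ => pvGeo ε {g | ¬ ArmtFrame q Z Rs (pvgSites g)}) (𝓝[>] 0) (𝓝 0) := armtf_frame_lim

/-- **THE FIVE-ARM COUNT AT THE MODEL** (hypothesis `hK` of `pvtd_cbx_le`).      `K` depends on the constant `q` of the frames only.
Boxes `b ∈ I` of mesh `a`, centres `z0 + l9Pt a b`, in the square `|b - b0|_∞ ≤ N0 L`;   flags `F b`: measurable, and on a geometry event `Gd` of probability `→ 1` a flagged configuration has `PvdnFiveY` between the radii `N0 a` and `S`. -/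
theorem pvdn_five : ∃ K : ℕ, ∀ (z0 : ℂ) (a S : ℝ) (N0 L : ℕ) (b0 : ℤ × ℤ), 0 < a → 0 < N0 → 2 * (L : ℝ) * (N0 * a) ≤ S / 64 → 20480 * (N0 * a) ≤ S / 64 →
    ∀ (I : Finset (ℤ × ℤ)), (∀ b ∈ I, |b.1 - b0.1| ≤ N0 * L ∧ |b.2 - b0.2| ≤ N0 * L) → ∀ (F : ℤ × ℤ → Set (Conf PvPt)) (Gd : Set ℂ → Prop),
      Tendsto (fun ε : ℝ => pvGeo ε {g | ¬ Gd (pvgSites g)}) (𝓝[>] 0) (𝓝 0) → (∀ b ∈ I, MeasurableSet (pvConf ⁻¹' F b)) →
      (∀ b ∈ I, ∀ η ∈ F b, Gd (cfSites η) → PvdnFiveY (cfSites η) (cfCol η) (z0 + l9Pt a b) (N0 * a) S) →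
      ∀ᶠ ε in 𝓝[>] (0 : ℝ), ∑ b ∈ I, pvP ε (F b) ≤ ((N0 ^ 2 * K : ℕ) : ℝ≥0∞) := by
  obtain ⟨q, hq, hq1, hfr⟩ := pvdn_frame_lim
  have hκ := pvdn_kap_nonneg hq hq1
  refine ⟨⌈pvdnKap q⌉₊ + 1, ?_⟩
  intro z0 a S N0 L b0 ha hN0 hL hm I hI F Gd hGd hmeas hFl
  have hs : (0 : ℝ) < N0 * a := by positivity
  have hS : 0 < S := by nlinarith
  have hlim := hfr (pvdnZ z0 a N0 b0 L) (armtRs (N0 * a) S 0 0) (pvdn_rs_pos hs hS 0 0)
  have hlim2 : Tendsto (fun ε : ℝ => (I.card : ℝ≥0∞) * (pvGeo ε {g | ¬ ArmtFrame q (pvdnZ z0 a N0 b0 L) (armtRs (N0 * a) S 0 0) (pvgSites g)} + pvGeo ε {g | ¬ Gd (pvgSites g)}))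
      (𝓝[>] 0) (𝓝 0) := by
    have := ENNReal.Tendsto.const_mul (a := (I.card : ℝ≥0∞)) (hlim.add hGd) (Or.inr (ENNReal.natCast_ne_top _))
    simpa using this
  filter_upwards [hlim2.eventually (Iic_mem_nhds (show (0 : ℝ≥0∞) < 1 by norm_num))] with ε hε
  obtain ⟨Bad, hBad⟩ : ∃ Bad : Set PvGeoT, Bad = {g | ¬ PvgOk g} ∪ ({g | ¬ ArmtFrame q (pvdnZ z0 a N0 b0 L) (armtRs (N0 * a) S 0 0) (pvgSites g)} ∪ {g | ¬ Gd (pvgSites g)}) := ⟨_, rfl⟩
  have hbad : pvGeo ε Bad ≤ pvGeo ε {g | ¬ ArmtFrame q (pvdnZ z0 a N0 b0 L) (armtRs (N0 * a) S 0 0) (pvgSites g)} + pvGeo ε {g | ¬ Gd (pvgSites g)} := by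
    rw [hBad]
    refine (measure_union_le _ _).trans ?_
    have : pvGeo ε {g | ¬ PvgOk g} = 0 := pvqu_ok_ae ε
    rw [this, zero_add]
    exact measure_union_le _ _
  have h1 := pvat_sum_le ε I hmeas Bad (ENNReal.ofReal (N0 ^ 2 * pvdnKap q)) (fun g hg => by
    rw [hBad] at hg
    simp only [mem_union, mem_ofPred_eq, not_or, not_not] at hg
    exact pvdn_five_q hq hq1 hg.1 z0 b0 ha hN0 hL hm hg.2.1 I hI F fun b hb η hη hsites => hFl b hb η hη (by rw [hsites]; exact hg.2.2))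
  refine h1.trans ?_
  have h2 : (I.card : ℝ≥0∞) * pvGeo ε Bad ≤ 1 := (mul_le_mul_right hbad _).trans hε
  have h3 : ENNReal.ofReal (N0 ^ 2 * pvdnKap q) ≤ ((N0 ^ 2 * ⌈pvdnKap q⌉₊ : ℕ) : ℝ≥0∞) := by
    rw [← ENNReal.ofReal_natCast]
    refine ENNReal.ofReal_le_ofReal ?_
    push_cast
    exact mul_le_mul_of_nonneg_left (Nat.le_ceil _) (by positivity)
  have h4 : (1 : ℝ≥0∞) ≤ ((N0 ^ 2 : ℕ) : ℝ≥0∞) := by exact_mod_cast Nat.one_le_pow _ _ hN0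
  calc ENNReal.ofReal (N0 ^ 2 * pvdnKap q) + (I.card : ℝ≥0∞) * pvGeo ε Bad ≤ ((N0 ^ 2 * ⌈pvdnKap q⌉₊ : ℕ) : ℝ≥0∞) + ((N0 ^ 2 : ℕ) : ℝ≥0∞) := add_le_add h3 (h2.trans h4)
    _ = ((N0 ^ 2 * (⌈pvdnKap q⌉₊ + 1) : ℕ) : ℝ≥0∞) := by push_cast; ring

/-- **the count in the index set of `pvtd_cbx_le`**: the `(3 Mc)²` boxes of the `3 × 3` neighbourhood of the cell `Q` (`Mc` boxes per cell side) -/
theorem pvdn_five_cells : ∃ K : ℕ, ∀ (z0 : ℂ) (a S : ℝ) (N0 Mc : ℕ) (Q : ℤ × ℤ), 0 < a → 2 ≤ N0 → 2 * (Mc : ℝ) * (N0 * a) ≤ S / 64 → 20480 * (N0 * a) ≤ S / 64 →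
    ∀ (F : ℤ × ℤ → Set (Conf PvPt)) (Gd : Set ℂ → Prop), Tendsto (fun ε : ℝ => pvGeo ε {g | ¬ Gd (pvgSites g)}) (𝓝[>] 0) (𝓝 0) →
      (∀ b ∈ pvtdCells Mc 1 Q, MeasurableSet (pvConf ⁻¹' F b)) →
      (∀ b ∈ pvtdCells Mc 1 Q, ∀ η ∈ F b, Gd (cfSites η) → PvdnFiveY (cfSites η) (cfCol η) (z0 + l9Pt a b) (N0 * a) S) →
      ∀ᶠ ε in 𝓝[>] (0 : ℝ), ∑ b ∈ pvtdCells Mc 1 Q, pvP ε (F b) ≤ ((N0 ^ 2 * K : ℕ) : ℝ≥0∞) := by
  obtain ⟨K, hK⟩ := pvdn_five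
  refine ⟨K, fun z0 a S N0 Mc Q ha hN0 hL hm F Gd hGd hmeas hFl => ?_⟩
  refine hK z0 a S N0 Mc ((Mc : ℤ) * Q.1, (Mc : ℤ) * Q.2) ha (by omega) hL hm (pvtdCells Mc 1 Q) (fun b hb => ?_) F Gd hGd hmeas hFl
  unfold pvtdCells at hb
  simp only [Finset.mem_product, Finset.mem_Icc] at hb
  obtain ⟨⟨h1, h2⟩, h3, h4⟩ := hb
  have hN : (2 : ℤ) ≤ N0 := by exact_mod_cast hN0
  have hM : (0 : ℤ) ≤ Mc := Int.natCast_nonneg _
  have hNM : 2 * (Mc : ℤ) ≤ N0 * Mc := mul_le_mul_of_nonneg_right hN hM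
  push_cast at h1 h2 h3 h4
  constructor <;> rw [abs_le] <;> constructor <;> simp only <;> nlinarith

/-! ## 5. J-bad: many disjoint monochromatic crossings of an annulus -/

/-- **`J` DISJOINT MONOCHROMATIC CROSSINGS BETWEEN THE RADII `r0`, `r1` ROUND `ζ`, universal over the cycles** (format of 101: `pvdsJ`) -/
def PvdnJ {V D : Type} [DecidableEq V] (T : PvMap V D) (pos : V → ℂ) (s : V → Bool) (ζ : ℂ) (r0 r1 : ℝ) (J : ℕ) : Prop :=
  ∀ c1 c : T.Cyc, c.Left.Finite → c1.Inside c → (∀ v, ‖pos v - ζ‖ ≤ r0 → v ∈ T.Int c1.Left) → (∀ v ∈ T.VOf c.Left, ‖pos v - ζ‖ ≤ r1) →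
    ∃ col : Bool, PvbkDisj (fun _ => pvakW c1 c) col J s

open Classical in
/-- the same in the Delaunay plane of the site set `Y` coloured by `σ` -/
def PvdnJY (Y : Set ℂ) (σ : ℂ → Bool) (ζ : ℂ) (r0 r1 : ℝ) (J : ℕ) : Prop := ∀ h : DelGood Y, PvdnJ (delMap h) (dlsPos Y) (fun v => σ v) ζ r0 r1 J

theorem pvdn_eqns_cite5 : True := by
  have := @PvdnJ.eq_1; have := @PvdnJY.eq_1
  trivial

theorem pvdn_JY_congr {Y : Set ℂ} {σ σ' : ℂ → Bool} (h : ∀ p ∈ Y, σ p = σ' p) {ζ : ℂ} {r0 r1 : ℝ} {J : ℕ} (hF : PvdnJY Y σ ζ r0 r1 J) : PvdnJY Y σ' ζ r0 r1 J := by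
  intro hY
  have e : (fun v : Y => σ' v) = fun v : Y => σ v := funext fun v => (h v v.2).symm
  rw [e]
  exact hF hY

section jbad

variable {V D : Type} [DecidableEq V] {T : PvMap V D}

/-- a crossing set may be cut down to the vertices of the annulus -/
theorem pvdn_W_inter (hT : T.IsSph) {c' c : T.Cyc} (h : c'.Inside c) {A : Finset V} (hA : ∀ v ∈ T.VOf (c'.Ann c), v ∈ A) {a : Finset V} (ha : pvakW c' c a) : pvakW c' c (a ∩ A) := by
  have h1 : PvaxCr T c' c (↑a) true (fun _ => true) := by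
    obtain ⟨x, hx, y, hy, hj⟩ := ha
    refine ⟨x, hx, y, hy, ?_⟩
    have e : {v | v ∈ (↑a : Set V) ∧ (fun _ : V => true) v = true} = (↑a : Set V) := by
      ext v
      simp
    rw [e]
    exact hj
  have h2 := (pvax_cr_inter hT h).1 h1
  obtain ⟨x, hx, y, hy, hj⟩ := pvax_cr_mono (X' := (↑(a ∩ A) : Set V)) (fun v hv => by
    rw [Finset.coe_inter]
    exact ⟨hv.1, hA v hv.2⟩) h2
  refine ⟨x, hx, y, hy, ?_⟩
  have e : {v | v ∈ (↑(a ∩ A) : Set V) ∧ (fun _ : V => true) v = true} = (↑(a ∩ A) : Set V) := by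
    ext v
    simp
  rw [e] at hj
  exact hj

/-- blocking gives a circuit of either colour -/
theorem pvdn_circ (hT : T.IsSph) (hS : T.Simple) {c' c : T.Cyc} (h : c'.Inside c) (hfin : c.Left.Finite) {q : ℝ} (hb : PvaxBlk T c' c q) (A : Finset V) (ξ : V → Bool)
    (hA : ∀ v ∈ T.VOf (c'.Ann c), v ∈ A) (col : Bool) : q ≤ pvaP A ξ (PvakCirc c' c (!col)) := by
  refine (hb A ξ col hA).trans (pva_P_mono fun ω _ hω => ?_)
  obtain ⟨k, hk, h1, h2⟩ := (pvax_ncr_iff hT hS h hfin Set.univ col ω).1 hω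
  refine ⟨k, fun v hv => ?_, h1, h2⟩
  have h3 : ω v ≠ col := fun hv' => hk v hv ⟨Set.mem_univ v, hv'⟩
  cases hc : col <;> cases hw : ω v <;> simp_all

/-- the local form of the event -/
def PvdnJA (c' c : T.Cyc) (A : Finset V) (J : ℕ) (s : V → Bool) : Prop := ∃ col : Bool, PvbkDisj (fun _ a => pvakW c' c a ∧ a ⊆ A) col J s

theorem pvdn_eqns_cite6 : True := by
  have := @PvdnJA.eq_1
  trivial

theorem pvdn_JA_loc (c' c : T.Cyc) (A : Finset V) (J : ℕ) : PvalLoc A (PvdnJA c' c A J) := by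
  have key : ∀ ω ω' : V → Bool, (∀ v ∈ A, ω v = ω' v) → PvdnJA c' c A J ω → PvdnJA c' c A J ω' := by
    rintro ω ω' h ⟨col, f, h1, h2⟩
    exact ⟨col, f, fun i hi => ⟨(h1 i hi).1, fun v hv => by rw [← h v ((h1 i hi).1.2 hv)]; exact (h1 i hi).2 v hv⟩, h2⟩
  intro ω ω' h
  exact propext ⟨key ω ω' h, key ω' ω fun v hv => (h v hv).symm⟩

theorem pvdn_JA_of (hT : T.IsSph) {c' c : T.Cyc} (h : c'.Inside c) {A : Finset V} (hA : ∀ v ∈ T.VOf (c'.Ann c), v ∈ A) {J : ℕ} {s : V → Bool}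
    (hJ : ∃ col : Bool, PvbkDisj (fun _ => pvakW c' c) col J s) : PvdnJA c' c A J s := by
  obtain ⟨col, f, h1, h2⟩ := hJ
  refine ⟨col, fun i => f i ∩ A, fun i hi => ⟨⟨pvdn_W_inter hT h hA (h1 i hi).1, Finset.inter_subset_right⟩, fun v hv => (h1 i hi).2 v (Finset.mem_inter.1 hv).1⟩, ?_⟩
  intro i hi j hj hij
  exact (h2 i hi j hj hij).mono Finset.inter_subset_left Finset.inter_subset_left

/-- **the quenched cost of `J` disjoint monochromatic crossings** -/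
theorem pvdn_JA_le (hT : T.IsSph) (hS : T.Simple) {c' c : T.Cyc} (h : c'.Inside c) (hfin : c.Left.Finite) {q : ℝ} (hb : PvaxBlk T c' c q) (A : Finset V) (ξ : V → Bool)
    (hA : ∀ v ∈ T.VOf (c'.Ann c), v ∈ A) (J : ℕ) : pvaP A ξ (PvdnJA c' c A J) ≤ 2 * (1 - q) ^ J := by
  have h1 : pvaP A ξ (PvdnJA c' c A J) ≤ pvaP A ξ (fun s => PvbkDisj (fun _ => pvakW c' c) true J s ∨ PvbkDisj (fun _ => pvakW c' c) false J s) := by
    refine pva_P_mono fun ω _ => ?_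
    rintro ⟨col, f, g1, g2⟩
    cases col
    · exact Or.inr ⟨f, fun i hi => ⟨(g1 i hi).1.1, (g1 i hi).2⟩, g2⟩
    · exact Or.inl ⟨f, fun i hi => ⟨(g1 i hi).1.1, (g1 i hi).2⟩, g2⟩
  have h2 := pva_P_or_le A ξ (PvbkDisj (fun _ => pvakW c' c) true J) (PvbkDisj (fun _ => pvakW c' c) false J)
  have h3 := pvak_cross_pow hT true A ξ (pvdn_circ hT hS h hfin hb A ξ hA true) J
  have h4 := pvak_cross_pow hT false A ξ (pvdn_circ hT hS h hfin hb A ξ hA false) J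
  linarith

end jbad

open Classical in
/-- **J-BAD, QUENCHED ON A FRAME**.      The flag `F` is an ARBITRARY set of configurations. -/
theorem pvdn_J_q {q : ℝ} {g : PvGeoT} (hg : PvgOk g) {ζ : ℂ} {r0 r1 : ℝ} (J : ℕ) (hr0 : 0 < r0) (h01 : 5 * r0 ≤ r1) (hF : ArmtFrame q {ζ} {r0, 4 * r0} (pvgSites g))
    (F : Set (Conf PvPt)) (hFl : ∀ η ∈ F, cfSites η = pvgSites g → PvdnJY (cfSites η) (cfCol η) ζ r0 r1 J) : pvQc F g ≤ ENNReal.ofReal (2 * (1 - q) ^ J) := by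
  obtain ⟨h, hfr⟩ := hF
  have hsph : (delMap h).IsSph := (armt_loc_plane h Set.univ).sph
  have hsimple : (delMap h).Simple := (armt_loc_plane h Set.univ).simple
  obtain ⟨⟨c1, hc1⟩, hB⟩ := hfr ζ (Finset.mem_singleton_self ζ) r0 (by simp)
  obtain ⟨⟨c, hc⟩, -⟩ := hfr ζ (Finset.mem_singleton_self ζ) (4 * r0) (by simp)
  obtain ⟨hin, hblk⟩ := pvax_at_blk hsph hc1 hc hB (by linarith)
  have hfin : ((delMap h).VOf (c1.Ann c)).Finite := by
    have h1 : (delMap h).VOf (c1.Ann c) ⊆ (delMap h).src '' c.Left := by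
      rintro v ⟨d, hd, rfl⟩
      exact ⟨d, hd.1, rfl⟩
    exact (hc.fin.image _).subset h1
  set A : Finset (pvgSites g) := hfin.toFinset with hAdef
  have hA : ∀ v ∈ (delMap h).VOf (c1.Ann c), v ∈ A := fun v hv => hfin.mem_toFinset.2 hv
  set ξ : pvgSites g → Bool := fun _ => false with hξ
  refine le_trans ?_ (ENNReal.ofReal_le_ofReal (pvdn_JA_le hsph hsimple hin hc.fin hblk A ξ hA J))
  rw [← armt_col hg A _ (pvdn_JA_loc c1 c A J) ξ, pvqu_Qc_eq]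
  refine measure_mono fun cc hcc => ?_
  have hsites : cfSites (pvConf (pvMerge (g, cc))) = pvgSites g := by rw [hg.conf_eq cc, cfOf_sites]
  have h1 := hFl _ hcc hsites
  rw [hsites] at h1
  have h2 : PvdnJY (pvgSites g) (pvgColAt g cc) ζ r0 r1 J := pvdn_JY_congr (fun z hz => pval_cfCol hg cc hz) h1
  exact pvdn_JA_of hsph hin hA (h2 h c1 c hc.fin hin hc1.inn fun v hv => ((hc.out v hv).le.trans (by linarith)))

/-- **J-BAD AT THE MODEL**: the probability is as small as one likes for `J` large, uniformly in the centre and the radii -/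
theorem pvdn_J (δ : ℝ≥0∞) (hδ : 0 < δ) : ∃ J0 : ℕ, ∀ J, J0 ≤ J → ∀ (ζ : ℂ) (r0 r1 : ℝ), 0 < r0 → 5 * r0 ≤ r1 → ∀ (F : Set (Conf PvPt)) (Gd : Set ℂ → Prop),
    Tendsto (fun ε : ℝ => pvGeo ε {g | ¬ Gd (pvgSites g)}) (𝓝[>] 0) (𝓝 0) → MeasurableSet (pvConf ⁻¹' F) →
    (∀ η ∈ F, Gd (cfSites η) → PvdnJY (cfSites η) (cfCol η) ζ r0 r1 J) → ∀ᶠ ε in 𝓝[>] (0 : ℝ), pvP ε F ≤ δ := by
  obtain ⟨q, hq, hq1, hfr⟩ := pvdn_frame_lim
  have hδ2 : 0 < δ / 2 := ENNReal.div_pos hδ.ne' (by norm_num)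
  have hlimJ : Tendsto (fun J : ℕ => ENNReal.ofReal (2 * (1 - q) ^ J)) atTop (𝓝 0) := by
    have h1 : Tendsto (fun J : ℕ => 2 * (1 - q) ^ J) atTop (𝓝 0) := by
      simpa using (tendsto_pow_atTop_nhds_zero_of_lt_one (by linarith : (0 : ℝ) ≤ 1 - q) (by linarith)).const_mul 2
    simpa using ENNReal.tendsto_ofReal h1
  obtain ⟨J0, hJ0⟩ := eventually_atTop.1 (hlimJ.eventually (Iic_mem_nhds hδ2))
  refine ⟨J0, fun J hJ ζ r0 r1 hr0 h01 F Gd hGd hmeas hFl => ?_⟩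
  have hlim := hfr {ζ} {r0, 4 * r0} (by
    intro r hr
    simp only [Finset.mem_insert, Finset.mem_singleton] at hr
    rcases hr with rfl | rfl <;> positivity)
  have hlim2 := hlim.add hGd
  rw [add_zero] at hlim2
  filter_upwards [hlim2.eventually (Iic_mem_nhds hδ2)] with ε hε
  obtain ⟨Bad, hBad⟩ : ∃ Bad : Set PvGeoT, Bad = {g | ¬ PvgOk g} ∪ ({g | ¬ ArmtFrame q {ζ} {r0, 4 * r0} (pvgSites g)} ∪ {g | ¬ Gd (pvgSites g)}) := ⟨_, rfl⟩
  have hbad : pvGeo ε Bad ≤ pvGeo ε {g | ¬ ArmtFrame q {ζ} {r0, 4 * r0} (pvgSites g)} + pvGeo ε {g | ¬ Gd (pvgSites g)} := by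
    rw [hBad]
    refine (measure_union_le _ _).trans ?_
    have : pvGeo ε {g | ¬ PvgOk g} = 0 := pvqu_ok_ae ε
    rw [this, zero_add]
    exact measure_union_le _ _
  have h1 := pvat_sum_le ε ({0} : Finset ℕ) (𝒜 := fun _ => F) (fun _ _ => hmeas) Bad (ENNReal.ofReal (2 * (1 - q) ^ J)) (fun g hg => by
    rw [hBad] at hg
    simp only [mem_union, mem_ofPred_eq, not_or, not_not] at hg
    rw [Finset.sum_singleton]
    exact pvdn_J_q hg.1 J hr0 h01 hg.2.1 F fun η hη hsites => hFl η hη (by rw [hsites]; exact hg.2.2))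
  rw [Finset.sum_singleton, Finset.card_singleton, Nat.cast_one, one_mul] at h1
  calc pvP ε F ≤ ENNReal.ofReal (2 * (1 - q) ^ J) + pvGeo ε Bad := h1
    _ ≤ δ / 2 + δ / 2 := add_le_add (hJ0 J hJ) (hbad.trans hε)
    _ = δ := ENNReal.add_halves δ

end Claimed.Agent.R289
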