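import Claimed.Agent.R289.Tr.Di
import Claimed.Agent.R289.Tr.Local
import Claimed.Agent.R289.Cr.All

/-!
# Row 289 (S0537, Cardy for Poisson-Voronoi), THE WALL, chapter C, file Tr/DiA : GATES AND THE TRAP IN THE FAMILY-FREE (`A`) FORM      (owner helper212; prefix `pvda_`, `Pvda`, `pvda`)

Post: sub-exit (X1) of the roof of PINS (helper12, `Exit/Pins.lean`) = first half of the field `pinsOK` of `PvhbLoc` (helper73, `Tr/Hub.lean`).
The rims of the exits live in ARBITRARY completions `𝔅.T Y` (`l9All x R ω` of helper115); gates, flags and their probabilities live on the plain sample, i.e. in the Delaunay PLANE `(delPl h).toMap`.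
This file carries gates, crossings and clean annuli (`S2/Gate.lean` of helper190, `Tr/Di.lean`) along the local isomorphisms `PvLoc` of helper22 (`Tr/Local.lean`), in BOTH directions, and concludes the TRAP for all rims of all completions.

* sec. 1  `pvdaPull R A'` = the darts related to a dart of `A'`;  face sets, boundaries `Bd`, `BdV`, `EdgeIn`, `VOf`, `Int` along `PvLoc`;  `pvda_X` (the exceptional sites);  **`pvda_gate_pull`** : a gate inside the shared part is a gate on the other surface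
* sec. 2  (next commit) lists of vertices along `PvLoc`;  `pvda_cross_pull` (`PvgCross`),  clean annuli
* sec. 3  THE INSTANCE (completion against the plane): `pvda_B_eq` (the faces which meet a ball), `pvda_B_ran`, `pvda_mesh` (`L9Fine` of helper161 ⟹ `PvdiMesh`), `pvda_plane_mesh`
* sec. 4  `PvdaGate Y σ c z a b` (FAMILY-FREE gate: a two-site gate of colour `c` of the Delaunay plane), `PvdaClean`;  `pvda_gate_bulk`, `pvda_gate_plane`
* sec. 5  **`pvda_trap`** : (X1);   `PvdaPass` (ordered passages read on the ENCODED rim), **`pvda_gates`** : `g` gates of the plane in fixed nested annuli are passed in order by every rim of every completion; their exceptional sites are exactly `P.v (lo j)`, `P.v (hi j)`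
COLOURS.   The rims of `l9All` have BOTH colours (`IsRim` only says: monochromatic).   The gate has to be a gate for the colour of the rim, which is the family-free number `cfCol (pvConf ω) (P.v k)`.
-/

set_option autoImplicit false

namespace Claimed.Agent.R289

open Claims.C0465

/-! ## 1. Face sets, boundaries and gates along a local isomorphism -/

section pull

variable {V D V' D' : Type}

/-- the darts related to a dart of `A'` -/
def pvdaPull (R : D → D' → Prop) (A' : Set D') : Set D := {d | ∃ d', R d d' ∧ d' ∈ A'}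

theorem pvda_eqns_cite : True := by
  have := @pvdaPull.eq_1
  trivial

variable {T : PvMap V D} {T' : PvMap V' D'} {R : D → D' → Prop}

theorem pvda_pull_mono {A' B' : Set D'} (h : A' ⊆ B') : pvdaPull R A' ⊆ pvdaPull R B' := fun _ ⟨d', h1, h2⟩ => ⟨d', h1, h h2⟩

theorem pvda_pull_dom (A' : Set D') : pvdaPull R A' ⊆ plDom R := fun _ ⟨d', h1, _⟩ => ⟨d', h1⟩

theorem pvda_pull_mem (L : PlIso T T' R) {A' : Set D'} {d : D} {d' : D'} (h : R d d') : d ∈ pvdaPull R A' ↔ d' ∈ A' :=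
  ⟨fun ⟨e', h1, h2⟩ => by rwa [L.fn h h1], fun h2 => ⟨d', h, h2⟩⟩

theorem pvda_pull_diff (L : PlIso T T' R) {A' B' : Set D'} : pvdaPull R (A' \ B') = pvdaPull R A' \ pvdaPull R B' := by
  ext d
  constructor
  · rintro ⟨d', h1, h2, h3⟩
    exact ⟨⟨d', h1, h2⟩, fun h4 => h3 ((pvda_pull_mem L h1).1 h4)⟩
  · rintro ⟨⟨d', h1, h2⟩, h3⟩
    exact ⟨d', h1, h2, fun h4 => h3 ⟨d', h1, h4⟩⟩

/-- pulling back twice: the part of `A` in the shared face set -/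
theorem pvda_pull_pull (L : PlIso T T' R) (A : Set D) (hA : A ⊆ plDom R) : pvdaPull R (pvdaPull (fun d' d => R d d') A) = A := by
  ext d
  constructor
  · rintro ⟨d', h1, e, h2, h3⟩
    rwa [L.inj h1 h2]
  · intro hd
    obtain ⟨d', h1⟩ := hA hd
    exact ⟨d', h1, d, h1, hd⟩

theorem pvda_pull_face (L : PlIso T T' R) {A' : Set D'} (hA : T'.FaceSet A') : T.FaceSet (pvdaPull R A') := by
  intro d
  constructor
  · rintro ⟨e', h1, h2⟩
    have h3 := L.nxt (L.nxt h1)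
    rw [T.nxt3] at h3
    exact ⟨_, h3, (hA _).2 ((hA _).2 h2)⟩
  · rintro ⟨d', h1, h2⟩
    exact ⟨_, L.nxt h1, (hA _).2 h2⟩

/-- a boundary dart of `A'` which lies in `A'`, seen on the other surface -/
theorem pvda_bd_pull (L : PlIso T T' R) {A' : Set D'} {d : D} {d' : D'} (h : R d d') (h1 : d' ∈ A') (h2 : T'.opp d' ∉ A') : T.Bd (pvdaPull R A') d := by
  intro hiff
  obtain ⟨x', k1, k2⟩ := hiff.1 ⟨d', h, h1⟩
  rw [L.opp h k1] at k2
  exact h2 k2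

/-- a boundary dart of the pull back which lies in it -/
theorem pvda_bd_push (L : PlIso T T' R) {A' : Set D'} (hA : A' ⊆ plRan R) {d : D} {d' : D'} (h : R d d') (h1 : d' ∈ A') (h2 : T.opp d ∉ pvdaPull R A') : T'.Bd A' d' := by
  intro hiff
  have k1 := hiff.1 h1
  exact h2 ⟨_, L.opp_rel h ((L.opp_mem_iff h).2 (hA k1)), k1⟩

/-- boundary vertices, from `T'` to `T` -/
theorem pvda_bdV_pull (L : PvLoc T T' R) {A' : Set D'} (hA : A' ⊆ plRan R) {v' : V'} (hv : v' ∈ T'.BdV A') : ∃ v, pvlocV T T' R v v' ∧ v ∈ T.BdV (pvdaPull R A') := by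
  obtain ⟨d', rfl, hb⟩ := hv
  by_cases h1 : d' ∈ A'
  · have h2 : T'.opp d' ∉ A' := fun h2 => hb ⟨fun _ => h2, fun _ => h1⟩
    obtain ⟨d, hd⟩ := hA h1
    exact ⟨T.src d, pvloc_v_src hd, pvg_bdV_src (pvda_bd_pull L.iso hd h1 h2)⟩
  · have h2 : T'.opp d' ∈ A' := by
      by_contra h2
      exact hb ⟨fun h => absurd h h1, fun h => absurd h h2⟩
    obtain ⟨e, he⟩ := hA h2
    have h3 : T.Bd (pvdaPull R A') e := pvda_bd_pull L.iso he h2 (by rwa [T'.opp_opp])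
    refine ⟨T.tgt e, ?_, pvg_bdV_tgt h3⟩
    have := pvloc_v_tgt L he
    rwa [T'.tgt_opp] at this

/-- boundary vertices, from `T` to `T'` -/
theorem pvda_bdV_push (L : PvLoc T T' R) {A' : Set D'} (hA : A' ⊆ plRan R) {v : V} (hv : v ∈ T.BdV (pvdaPull R A')) : ∃ v', pvlocV T T' R v v' ∧ v' ∈ T'.BdV A' := by
  obtain ⟨d, rfl, hb⟩ := hv
  by_cases h1 : d ∈ pvdaPull R A'
  · have h2 : T.opp d ∉ pvdaPull R A' := fun h2 => hb ⟨fun _ => h2, fun _ => h1⟩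
    obtain ⟨d', hd, hd'⟩ := h1
    exact ⟨T'.src d', pvloc_v_src hd, pvg_bdV_src (pvda_bd_push L.iso hA hd hd' h2)⟩
  · have h2 : T.opp d ∈ pvdaPull R A' := by
      by_contra h2
      exact hb ⟨fun h => absurd h h1, fun h => absurd h h2⟩
    obtain ⟨e', he, he'⟩ := h2
    have h3 : T'.Bd A' e' := pvda_bd_push L.iso hA he he' (by rwa [T.opp_opp])
    refine ⟨T'.tgt e', ?_, pvg_bdV_tgt h3⟩
    have := pvloc_v_tgt L he
    rwa [T.tgt_opp] at this

/-- edges of faces of `A'`, from `T'` to `T` -/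
theorem pvda_edge_pull (L : PvLoc T T' R) {A' : Set D'} (hA : A' ⊆ plRan R) {a b : V} {a' b' : V'} (ha : pvlocV T T' R a a') (hb : pvlocV T T' R b b')
    (h : T'.EdgeIn A' a' b') : T.EdgeIn (pvdaPull R A') a b := by
  obtain ⟨d', hd, rfl, rfl⟩ := h
  rcases hd with hd | hd
  · obtain ⟨d, h1⟩ := hA hd
    exact ⟨d, Or.inl ⟨d', h1, hd⟩, pvloc_v_inj L (pvloc_v_src h1) ha, pvloc_v_inj L (pvloc_v_tgt L h1) hb⟩
  · obtain ⟨e, h1⟩ := hA hd
    refine ⟨T.opp e, Or.inr (by rw [T.opp_opp]; exact ⟨_, h1, hd⟩), ?_, ?_⟩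
    · rw [T.src_opp']
      have := pvloc_v_tgt L h1
      rw [T'.tgt_opp] at this
      exact pvloc_v_inj L this ha
    · rw [T.tgt_opp]
      have := pvloc_v_src (T := T) (T' := T') h1
      rw [T'.src_opp'] at this
      exact pvloc_v_inj L this hb

/-- the ends of an edge of a face of `A'` are shared vertices -/
theorem pvda_edge_v (L : PvLoc T T' R) {A' : Set D'} (hA : A' ⊆ plRan R) {a' b' : V'} (h : T'.EdgeIn A' a' b') : (∃ a, pvlocV T T' R a a') ∧ ∃ b, pvlocV T T' R b b' := by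
  obtain ⟨d', hd, rfl, rfl⟩ := h
  rcases hd with hd | hd
  · obtain ⟨d, h1⟩ := hA hd
    exact ⟨⟨_, pvloc_v_src h1⟩, ⟨_, pvloc_v_tgt L h1⟩⟩
  · obtain ⟨e, h1⟩ := hA hd
    refine ⟨⟨T.tgt e, ?_⟩, ⟨T.src e, ?_⟩⟩
    · have := pvloc_v_tgt L h1
      rwa [T'.tgt_opp] at this
    · have := pvloc_v_src (T := T) (T' := T') h1
      rwa [T'.src_opp'] at this

/-- vertices of faces -/
theorem pvda_VOf_push {A' : Set D'} {v : V} (hv : v ∈ T.VOf (pvdaPull R A')) : ∃ v', pvlocV T T' R v v' ∧ v' ∈ T'.VOf A' := by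
  obtain ⟨d, ⟨d', h1, h2⟩, rfl⟩ := hv
  exact ⟨_, pvloc_v_src h1, d', h2, rfl⟩

theorem pvda_VOf_pull {A' : Set D'} (hA : A' ⊆ plRan R) {v' : V'} (hv : v' ∈ T'.VOf A') : ∃ v, pvlocV T T' R v v' ∧ v ∈ T.VOf (pvdaPull R A') := by
  obtain ⟨d', h2, rfl⟩ := hv
  obtain ⟨d, h1⟩ := hA h2
  exact ⟨_, pvloc_v_src h1, d, ⟨d', h1, h2⟩, rfl⟩

/-- interior vertices, from `T'` to `T` -/
theorem pvda_int_pull (L : PvLoc T T' R) (hT : T.IsSph) {A' : Set D'} (hA : A' ⊆ plRan R) {v : V} {v' : V'} (h : pvlocV T T' R v v') (hv : v' ∈ T'.Int A') : v ∈ T.Int (pvdaPull R A') := by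
  have h1 : v' ∈ T'.Int (plRan R) := fun d hd => hA (hv d hd)
  have h2 : v ∈ T.Int (plDom R) := pvloc_int L.symm hT (pvloc_v_symm h) h1
  intro d hd
  obtain ⟨d', k1, k2⟩ := pvloc_dart L h h2 hd
  exact ⟨d', k1, hv d' k2⟩

/-- the exceptional sites on the other surface -/
theorem pvda_X (L : PvLoc T T' R) (X' : Finset V') : ∃ X : Finset V, X.card ≤ X'.card ∧ ∀ v, v ∈ X ↔ ∃ v' ∈ X', pvlocV T T' R v v' := by
  classical
  induction X' using Finset.induction_on with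
  | empty => exact ⟨∅, le_rfl, fun v => by simp⟩
  | insert a s ha ih =>
    obtain ⟨X, hc, hX⟩ := ih
    by_cases h : ∃ v, pvlocV T T' R v a
    · obtain ⟨v0, h0⟩ := h
      refine ⟨insert v0 X, ?_, fun v => ?_⟩
      · rw [Finset.card_insert_of_notMem ha]
        exact (Finset.card_insert_le _ _).trans (Nat.succ_le_succ hc)
      · rw [Finset.mem_insert]
        constructor
        · rintro (rfl | h1)
          · exact ⟨a, Finset.mem_insert_self _ _, h0⟩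
          · obtain ⟨v', k1, k2⟩ := (hX v).1 h1
            exact ⟨v', Finset.mem_insert_of_mem k1, k2⟩
        · rintro ⟨v', k1, k2⟩
          rcases Finset.mem_insert.1 k1 with rfl | k1
          · exact Or.inl (pvloc_v_inj L k2 h0)
          · exact Or.inr ((hX v).2 ⟨v', k1, k2⟩)
    · refine ⟨X, hc.trans (Finset.card_le_card (Finset.subset_insert _ _)), fun v => ?_⟩
      rw [hX v]
      constructor
      · rintro ⟨v', k1, k2⟩
        exact ⟨v', Finset.mem_insert_of_mem k1, k2⟩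
      · rintro ⟨v', k1, k2⟩
        rcases Finset.mem_insert.1 k1 with rfl | k1
        · exact absurd ⟨v, k2⟩ h
        · exact ⟨v', k1, k2⟩

variable {s : V → Bool} {s' : V' → Bool} {c : Bool}

/-- **a gate inside the shared part is a gate on the other surface** -/
theorem pvda_gate_pull (L : PvLoc T T' R) (hs : ∀ d d', R d d' → s (T.src d) = s' (T'.src d')) {I' O' G' : Set D'} {X' : Finset V'}
    (hg : PvgGate T' s' c I' O' G' X') (hG : G' ⊆ plRan R) :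
    ∃ X : Finset V, (∀ v, v ∈ X ↔ ∃ v' ∈ X', pvlocV T T' R v v') ∧ PvgGate T s c (pvdaPull R I') (pvdaPull R O') (pvdaPull R G') X := by
  obtain ⟨X, hc, hX⟩ := pvda_X L X'
  refine ⟨X, hX, pvda_pull_face L.iso hg.face, pvda_pull_mono hg.inner, pvda_pull_mono hg.outer, hc.trans hg.card, ?_, ?_⟩
  · intro v hv
    obtain ⟨v', k1, k2⟩ := (hX v).1 hv
    rw [pvloc_v_col hs k2]
    exact hg.col v' k1
  · intro v hv
    obtain ⟨v', k1, k2⟩ := pvda_bdV_push L hG hv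
    rcases hg.other v' k2 with h | h
    · exact Or.inl (by rw [pvloc_v_col hs k1]; exact h)
    · exact Or.inr ((hX v).2 ⟨v', h, k1⟩)

end pull

/-! ## 3. The instance: a completion against the Delaunay plane -/

section inst

variable {X : Type} {𝔅 : PvBulk X} {Y : Set ℂ} {h : DelGood Y} {x : ℂ} {R : ℝ}

/-- related darts have the same three positions -/
theorem pvda_pos (hOk : 𝔅.Ok Y (Metric.closedBall x (6 * R))) (zi : ℂ) {d : 𝔅.D Y} {e : (delPl h).Dart} (hd : pvlocR 𝔅 h (Metric.closedBall x (6 * R)) d e) :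
    𝔅.posF Y zi ((𝔅.T Y).src d) = ((delPl h).toMap.src e : ℂ) ∧ 𝔅.posF Y zi ((𝔅.T Y).tgt d) = ((delPl h).toMap.tgt e : ℂ) ∧
      𝔅.posF Y zi ((𝔅.T Y).apex d) = ((delPl h).toMap.apex e : ℂ) :=
  ⟨l9_posF_inl 𝔅 (pvloc_bulk_v (pvloc_v_src hd)), l9_posF_inl 𝔅 (pvloc_bulk_v (pvloc_v_tgt (pvloc_bulk hOk) hd)),
    l9_posF_inl 𝔅 (pvloc_bulk_v (pvloc_v_apex (pvloc_bulk hOk) hd))⟩

theorem pvda_ball_sub {z w : ℂ} {ρ : ℝ} (hz : ‖z - x‖ + ρ ≤ 6 * R) (hw : ‖w - z‖ ≤ ρ) : ‖w - x‖ ≤ 6 * R := by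
  calc ‖w - x‖ = ‖(w - z) + (z - x)‖ := by ring_nf
    _ ≤ ‖w - z‖ + ‖z - x‖ := norm_add_le _ _
    _ ≤ 6 * R := by linarith

/-- a vertex of a completion whose encoded position lies in a ball inside the ball of agreement is a full vertex -/
theorem pvda_full (hR : 0 < R) (hOk : 𝔅.Ok Y (Metric.closedBall x (6 * R))) {z : ℂ} {ρ : ℝ} (hz : ‖z - x‖ + ρ ≤ 6 * R) {v : 𝔅.V Y}
    (hv : ‖𝔅.posF Y (x + 7 * R) v - z‖ ≤ ρ) : v ∈ (𝔅.T Y).Int (plDom (pvlocR 𝔅 h (Metric.closedBall x (6 * R)))) := by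
  have h1 := pvda_ball_sub hz hv
  exact pvloc_bulk_int hOk (pvloc_posF hR h1) (mem_closedBall_iff_norm.2 h1)

/-- **the faces which meet a ball** are the same on both surfaces -/
theorem pvda_B_eq (hR : 0 < R) (hOk : 𝔅.Ok Y (Metric.closedBall x (6 * R))) {z : ℂ} {ρ : ℝ} (hz : ‖z - x‖ + ρ ≤ 6 * R) :
    pvdaPull (pvlocR 𝔅 h (Metric.closedBall x (6 * R))) (pvdiB (delPl h).toMap Subtype.val z ρ) = pvdiB (𝔅.T Y) (𝔅.posF Y (x + 7 * R)) z ρ := by
  have L := pvloc_bulk (h := h) hOk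
  ext d
  constructor
  · rintro ⟨e, h1, h2⟩
    obtain ⟨p1, p2, p3⟩ := pvda_pos hOk (x + 7 * R) h1
    rw [pvdi_mem_B, p1, p2, p3]
    exact h2
  · intro hd
    have hdom : d ∈ plDom (pvlocR 𝔅 h (Metric.closedBall x (6 * R))) := by
      rcases pvdi_mem_B.1 hd with h1 | h1 | h1
      · exact pvda_full hR hOk hz h1 d rfl
      · exact (L.iso.dom_face d).1 (pvda_full hR hOk hz h1 _ rfl)
      · exact (L.iso.dom_face d).1 ((L.iso.dom_face _).1 (pvda_full hR hOk hz h1 _ rfl))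
    obtain ⟨e, h1⟩ := hdom
    obtain ⟨p1, p2, p3⟩ := pvda_pos hOk (x + 7 * R) h1
    refine ⟨e, h1, ?_⟩
    rw [pvdi_mem_B, p1, p2, p3] at hd
    exact hd

/-- the faces of the plane which meet a ball inside the ball of agreement are shared -/
theorem pvda_B_ran (hOk : 𝔅.Ok Y (Metric.closedBall x (6 * R))) {z : ℂ} {ρ : ℝ} (hz : ‖z - x‖ + ρ ≤ 6 * R) :
    pvdiB (delPl h).toMap Subtype.val z ρ ⊆ plRan (pvlocR 𝔅 h (Metric.closedBall x (6 * R))) := by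
  intro e he
  have hs : e ∈ delbStar h (Metric.closedBall x (6 * R)) := by
    rcases pvdi_mem_B.1 he with h1 | h1 | h1
    · exact Or.inl (mem_closedBall_iff_norm.2 (pvda_ball_sub hz h1))
    · exact Or.inr (Or.inl (mem_closedBall_iff_norm.2 (pvda_ball_sub hz h1)))
    · exact Or.inr (Or.inr (mem_closedBall_iff_norm.2 (pvda_ball_sub hz h1)))
  obtain ⟨d, hd, -⟩ := delb_rel_of_star hOk hs
  exact ⟨d, hd, hs⟩

/-- the faces of a completion which meet a ball inside the ball of agreement are shared -/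
theorem pvda_B_dom (hR : 0 < R) (hOk : 𝔅.Ok Y (Metric.closedBall x (6 * R))) {z : ℂ} {ρ : ℝ} (hz : ‖z - x‖ + ρ ≤ 6 * R) :
    pvdiB (𝔅.T Y) (𝔅.posF Y (x + 7 * R)) z ρ ⊆ plDom (pvlocR 𝔅 h (Metric.closedBall x (6 * R))) := by
  rw [← pvda_B_eq (h := h) hR hOk hz]
  exact pvda_pull_dom _

/-- the same equality read in the other direction -/
theorem pvda_B_eq' (hR : 0 < R) (hOk : 𝔅.Ok Y (Metric.closedBall x (6 * R))) {z : ℂ} {ρ : ℝ} (hz : ‖z - x‖ + ρ ≤ 6 * R) :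
    pvdaPull (fun e d => pvlocR 𝔅 h (Metric.closedBall x (6 * R)) d e) (pvdiB (𝔅.T Y) (𝔅.posF Y (x + 7 * R)) z ρ) = pvdiB (delPl h).toMap Subtype.val z ρ := by
  rw [← pvda_B_eq (h := h) hR hOk hz]
  exact pvda_pull_pull (pvloc_bulk (h := h) hOk).iso.symm _ (pvda_B_ran hOk hz)

/-- **MESH**: the family-free mesh event of helper161 gives the mesh of every completion -/
theorem pvda_mesh (hR : 0 < R) (hOk : 𝔅.Ok Y (Metric.closedBall x (6 * R))) {μ : ℝ} (hf : L9Fine Y (Metric.closedBall x (6 * R)) μ) {z : ℂ} {ρ : ℝ}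
    (hz : ‖z - x‖ + ρ ≤ 6 * R) : PvdiMesh (𝔅.T Y) (𝔅.posF Y (x + 7 * R)) z ρ μ := by
  rintro u v ⟨d, rfl, rfl⟩ hu
  have h1 := pvda_ball_sub hz hu
  have hK : 𝔅.posF Y (x + 7 * R) ((𝔅.T Y).src d) ∈ Metric.closedBall x (6 * R) := mem_closedBall_iff_norm.2 h1
  obtain ⟨b, c, k1, -, k3⟩ := hOk.del d _ (pvloc_posF hR h1) hK
  rw [l9_posF_inl 𝔅 k1]
  exact (hf _ _ _ k3 (Or.inl hK)).1

/-- the mesh of the plane -/
theorem pvda_plane_mesh {K : Set ℂ} {μ : ℝ} (hf : L9Fine Y K μ) {z : ℂ} {ρ : ℝ} (hz : Metric.closedBall z ρ ⊆ K) : PvdiMesh (delPl h).toMap Subtype.val z ρ μ := by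
  rintro u v ⟨e, rfl, rfl⟩ hu
  exact (hf _ _ _ (delb_plane_tri e) (Or.inl (hz (mem_closedBall_iff_norm.2 hu)))).1

end inst

/-! ## 4. Family-free gates and clean annuli -/

section free

/-- **FAMILY-FREE GATE**: a two-site gate for the colour `c` of the Delaunay PLANE of the site set `Y`, colouring `σ`, in the annulus `clB(z,b) \ clB(z,a)` -/
def PvdaGate (Y : Set ℂ) (σ : ℂ → Bool) (c : Bool) (z : ℂ) (a b : ℝ) : Prop :=
  ∃ (h : DelGood Y) (G : Set (delPl h).Dart) (X : Finset ↥Y),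
    PvgGate (delPl h).toMap (fun v : ↥Y => σ v) c (pvdiB (delPl h).toMap Subtype.val z a) (pvdiB (delPl h).toMap Subtype.val z b) G X

/-- **FAMILY-FREE CLEAN ANNULUS**: no three disjoint crossings of colour `c` in the Delaunay plane -/
def PvdaClean (Y : Set ℂ) (σ : ℂ → Bool) (c : Bool) (z : ℂ) (a b : ℝ) : Prop :=
  ∃ h : DelGood Y, PvdiClean (delPl h).toMap Subtype.val (fun v : ↥Y => σ v) c z a b

theorem pvda_eqns_cite4 : True := by
  have := @PvdaGate.eq_1; have := @PvdaClean.eq_1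
  trivial

variable {X : Type} {𝔅 : PvBulk X} {Y : Set ℂ} {x : ℂ} {R : ℝ} {s : 𝔅.V Y → Bool} {σ : ℂ → Bool} {c : Bool}

/-- a gate of the plane is a gate of every completion -/
theorem pvda_gate_bulk (hR : 0 < R) (hOk : 𝔅.Ok Y (Metric.closedBall x (6 * R))) (hs : DelbCol 𝔅 s σ) {z : ℂ} {a b : ℝ} (hab : a ≤ b) (hz : ‖z - x‖ + b ≤ 6 * R)
    (hg : PvdaGate Y σ c z a b) : ∃ G X, PvgGate (𝔅.T Y) s c (pvdiB (𝔅.T Y) (𝔅.posF Y (x + 7 * R)) z a) (pvdiB (𝔅.T Y) (𝔅.posF Y (x + 7 * R)) z b) G X := by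
  obtain ⟨h, G', X', hg'⟩ := hg
  obtain ⟨X, -, hX⟩ := pvda_gate_pull (pvloc_bulk (h := h) hOk) (pvloc_bulk_col hs) hg' (hg'.outer.trans (pvda_B_ran hOk hz))
  rw [pvda_B_eq hR hOk hz, pvda_B_eq hR hOk (by linarith)] at hX
  exact ⟨_, X, hX⟩

/-- a gate of one completion is a gate of the plane -/
theorem pvda_gate_plane (h : DelGood Y) (hR : 0 < R) (hOk : 𝔅.Ok Y (Metric.closedBall x (6 * R))) (hs : DelbCol 𝔅 s σ) {z : ℂ} {a b : ℝ} (hab : a ≤ b) (hz : ‖z - x‖ + b ≤ 6 * R)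
    {G : Set (𝔅.D Y)} {X : Finset (𝔅.V Y)} (hg : PvgGate (𝔅.T Y) s c (pvdiB (𝔅.T Y) (𝔅.posF Y (x + 7 * R)) z a) (pvdiB (𝔅.T Y) (𝔅.posF Y (x + 7 * R)) z b) G X) :
    PvdaGate Y σ c z a b := by
  obtain ⟨X', -, hX⟩ := pvda_gate_pull (s := fun v : ↥Y => σ v) (pvloc_bulk (h := h) hOk).symm (fun e d hde => (pvloc_bulk_col hs d e hde).symm) hg
    (hg.outer.trans (pvda_B_dom hR hOk hz))
  rw [pvda_B_eq' hR hOk hz, pvda_B_eq' hR hOk (by linarith)] at hX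
  exact ⟨h, _, X', hX⟩

end free

/-! ## 5. THE TRAP for all rims of all completions -/

section trap

/-- ALL encoded reaching rims of ALL completions of the CONFIGURATION `η` (`l9All x R ω` of helper115 is the case `η = pvConf ω`: `pvda_all_eq`).      Road P repaints configurations, not samples. -/
def pvdaAll (x : ℂ) (R : ℝ) (η : Conf PvPt) : Set PvbRim :=
  {P | ∃ (X : Type) (_ : Fintype X) (𝔅 : PvBulk X) (ξ : X → Bool), 𝔅.Adm (cfSites η) ∧ 𝔅.Ok (cfSites η) (Metric.closedBall x (6 * R)) ∧ P ∈ 𝔅.rimsAt (cfSites η) (𝔅.col η ξ) x R}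

theorem pvda_eqns_cite5 : True := by
  have := @pvdaAll.eq_1
  trivial

theorem pvda_all_eq (x : ℂ) (R : ℝ) (ω : PVSample) : l9All x R ω = pvdaAll x R (pvConf ω) := rfl

theorem pvda_all_mem {x : ℂ} {R : ℝ} {η : Conf PvPt} {P : PvbRim} (h : P ∈ pvdaAll x R η) :
    ∃ (X : Type) (_ : Fintype X) (𝔅 : PvBulk X) (ξ : X → Bool), 𝔅.Adm (cfSites η) ∧ 𝔅.Ok (cfSites η) (Metric.closedBall x (6 * R)) ∧
      ∃ c : (𝔅.T (cfSites η)).Cyc, c.IsRim (𝔅.col η ξ) ∧ 4 * R ≤ ‖𝔅.posF (cfSites η) (x + 7 * R) ((𝔅.T (cfSites η)).src (c.e 0)) - x‖ ∧ P = 𝔅.enc (cfSites η) (x + 7 * R) c := by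
  obtain ⟨X, hX, 𝔅, ξ, hA, hOk, c, hc, h4, rfl⟩ := h
  exact ⟨X, hX, 𝔅, ξ, hA, hOk, c, hc, h4, rfl⟩

open Classical in
/-- **(X1) TRAP, FAMILY-FREE FORM**.      `η` a configuration with fine mesh in the ball of agreement;  `P` ANY encoded reaching rim of ANY completion;  `k` an index with `|P.v k - z| ≤ h`;
a two-site gate of the Delaunay plane of `η`, for the colour of the site `P.v k`, in the annulus `clB(z,b) \ clB(z,a)`.      Then `⟨k, z, t⟩` is a pin of `P`. -/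
theorem pvda_trap_cf {τ : Type} (𝔐 : PvbMenu τ) {x z : ℂ} {R h a b μ : ℝ} {η : Conf PvPt} (hR : 0 < R) (hμ : 0 ≤ μ)
    (hf : L9Fine (cfSites η) (Metric.closedBall x (6 * R)) μ) (hz : ‖z - x‖ + b + μ < 4 * R) {P : PvbRim} (hP : P ∈ pvdaAll x R η) {k : ℕ} (hk : k < P.len)
    (hnear : ‖P.v k - z‖ ≤ h) (hha : h ≤ a) (hab : a ≤ b) (t : τ) (ha : 𝔐.a3 t * h ≤ a) (hb : b + μ ≤ 𝔐.L * h)
    (hg : PvdaGate (cfSites η) (cfCol η) (cfCol η (P.v k)) z a b) : PvbIsPin 𝔐 h P ⟨k, z, t⟩ := by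
  obtain ⟨X, hX, 𝔅, ξ, -, hOk, c, hc, h4, rfl⟩ := pvda_all_mem hP
  have hz6 : ‖z - x‖ + b ≤ 6 * R := by linarith
  obtain ⟨G, X', hg'⟩ := pvda_gate_bulk hR hOk (delb_col (𝔅 := 𝔅) η ξ) hab hz6 hg
  have hkx : ‖𝔅.posF (cfSites η) (x + 7 * R) ((𝔅.T (cfSites η)).src (c.e k)) - x‖ ≤ 6 * R :=
    pvda_ball_sub hz6 (hnear.trans (hha.trans hab))
  have hcol : ∀ j, 𝔅.col η ξ ((𝔅.T (cfSites η)).src (c.e j)) =
      cfCol η (𝔅.posF (cfSites η) (x + 7 * R) ((𝔅.T (cfSites η)).src (c.e k))) := by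
    intro j
    rw [pl_rim_col hc j k]
    exact delb_col_inl 𝔅 η ξ (pvloc_posF hR hkx)
  refine pvdi_isPin hOk.sph 𝔐 hμ (pvda_mesh hR hOk hf hz6) hg' c hcol hk ?_ _ rfl (fun _ => rfl) t hnear hha ha hb
  have h5 : ‖𝔅.posF (cfSites η) (x + 7 * R) ((𝔅.T (cfSites η)).src (c.e 0)) - x‖ ≤
      ‖𝔅.posF (cfSites η) (x + 7 * R) ((𝔅.T (cfSites η)).src (c.e 0)) - z‖ + ‖z - x‖ := by
    calc _ = ‖(𝔅.posF (cfSites η) (x + 7 * R) ((𝔅.T (cfSites η)).src (c.e 0)) - z) + (z - x)‖ := by ring_nf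
      _ ≤ _ := norm_add_le _ _
  linarith

/-- **the ordered passages of an encoded rim** through `g` nested annuli round `z`, read on the encoded rim only: `lo j < k < hi j`, all visits to `clB(z, a j)` on the open arc `(lo j, hi j)`,
the closed arc in `clB(z, b j + μ)`, the passages are nested -/
structure PvdaPass (P : PvbRim) (z : ℂ) (μ : ℝ) (k : ℕ) {g : ℕ} (a b : Fin g → ℝ) (lo hi : Fin g → ℕ) : Prop where
  lo_pos : ∀ j, 0 < lo j
  lo_lt : ∀ j, lo j < k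
  lt_hi : ∀ j, k < hi j
  hi_lt : ∀ j, hi j < P.len
  visit : ∀ j, ∀ i ≤ P.len, ‖P.v i - z‖ ≤ a j → lo j < i ∧ i < hi j
  diam : ∀ j i, lo j ≤ i → i ≤ hi j → ‖P.v i - z‖ ≤ b j + μ
  order : ∀ j j', j < j' → lo j' < lo j ∧ hi j < hi j'

/-- the TRAP from the passage number `j` -/
theorem PvdaPass.isPin {P : PvbRim} {z : ℂ} {μ : ℝ} {k g : ℕ} {a b : Fin g → ℝ} {lo hi : Fin g → ℕ} (H : PvdaPass P z μ k a b lo hi) {τ : Type} (𝔐 : PvbMenu τ) {h : ℝ} (j : Fin g)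
    (t : τ) (hnear : ‖P.v k - z‖ ≤ h) (ha : 𝔐.a3 t * h ≤ a j) (hb : b j + μ ≤ 𝔐.L * h) : PvbIsPin 𝔐 h P ⟨k, z, t⟩ := by
  refine ⟨(H.lt_hi j).trans (H.hi_lt j), hnear, lo j, hi j, (H.lo_lt j).le, (H.lt_hi j).le, (H.hi_lt j).le, ?_, ?_⟩
  · intro i hi' hlt
    have := H.visit j i hi' (hlt.le.trans ha)
    exact ⟨this.1.le, this.2.le⟩
  · intro i i' a1 a2 a3 a4
    have e1 := H.diam j i a1 a2
    have e2 := H.diam j i' a3 a4
    calc ‖P.v i - P.v i'‖ = ‖(P.v i - z) - (P.v i' - z)‖ := by ring_nf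
      _ ≤ ‖P.v i - z‖ + ‖P.v i' - z‖ := norm_sub_le _ _
      _ ≤ 2 * 𝔐.L * h := by linarith

/-- between two successive passages the rim stays in the closed annulus between the two gates -/
theorem PvdaPass.between {P : PvbRim} {z : ℂ} {μ : ℝ} {k g : ℕ} {a b : Fin g → ℝ} {lo hi : Fin g → ℕ} (H : PvdaPass P z μ k a b lo hi) {j j' : Fin g} {i : ℕ}
    (h1 : (lo j' ≤ i ∧ i ≤ lo j) ∨ (hi j ≤ i ∧ i ≤ hi j')) : a j < ‖P.v i - z‖ ∧ ‖P.v i - z‖ ≤ b j' + μ := by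
  have l1 := H.lo_lt j
  have l2 := H.lt_hi j
  have l3 := H.hi_lt j
  have l1' := H.lo_lt j'
  have l2' := H.lt_hi j'
  have l3' := H.hi_lt j'
  constructor
  · by_contra hn
    have := H.visit j i (by rcases h1 with h | h <;> omega) (not_lt.1 hn)
    rcases h1 with h | h <;> omega
  · exact H.diam j' i (by rcases h1 with h | h <;> omega) (by rcases h1 with h | h <;> omega)

/-- **`g` GATES OF THE PLANE IN FIXED NESTED ANNULI ARE PASSED IN ORDER BY EVERY RIM OF EVERY COMPLETION**; the exceptional sites of the gate number `j` are EXACTLY the two sites `P.v (lo j)`, `P.v (hi j)`;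
the sites of the open arc `(lo j, hi j)` are interior vertices of the gate, in the plane -/
theorem pvda_gates_cf {x z : ℂ} {R μ : ℝ} {η : Conf PvPt} (hR : 0 < R) (hμ : 0 ≤ μ) (hf : L9Fine (cfSites η) (Metric.closedBall x (6 * R)) μ)
    {P : PvbRim} (hP : P ∈ pvdaAll x R η) {k : ℕ} (hk : k < P.len) (hkx : ‖P.v k - x‖ ≤ 6 * R) {g : ℕ} {a b : Fin g → ℝ} (hab : ∀ j, a j ≤ b j) (hord : ∀ j j', j < j' → b j + μ ≤ a j')
    (hz : ∀ j, ‖z - x‖ + b j + μ < 4 * R) (hnear : ∀ j, ‖P.v k - z‖ ≤ a j) (h : DelGood (cfSites η)) {G : Fin g → Set (delPl h).Dart} {X : Fin g → Finset ↥(cfSites η)}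
    (hg : ∀ j, PvgGate (delPl h).toMap (fun v => cfCol η v) (cfCol η (P.v k)) (pvdiB (delPl h).toMap Subtype.val z (a j)) (pvdiB (delPl h).toMap Subtype.val z (b j)) (G j) (X j)) :
    ∃ lo hi : Fin g → ℕ, PvdaPass P z μ k a b lo hi ∧ ∀ j, (∃ v ∈ X j, (v : ℂ) = P.v (lo j)) ∧ (∃ v ∈ X j, (v : ℂ) = P.v (hi j)) ∧ (∀ v ∈ X j, (v : ℂ) = P.v (lo j) ∨ (v : ℂ) = P.v (hi j)) ∧
      P.v (lo j) ≠ P.v (hi j) ∧ ∀ i, lo j < i → i < hi j → ∃ v ∈ (delPl h).toMap.Int (G j), (v : ℂ) = P.v i := by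
  classical
  obtain ⟨X₀, hX₀, 𝔅, ξ, -, hOk, c, hc, h4, rfl⟩ := pvda_all_mem hP
  have L := pvloc_bulk (h := h) hOk
  have hz6 : ∀ j, ‖z - x‖ + b j ≤ 6 * R := fun j => by linarith [hz j]
  have hran : ∀ j, G j ⊆ plRan (pvlocR 𝔅 h (Metric.closedBall x (6 * R))) := fun j => (hg j).outer.trans (pvda_B_ran hOk (hz6 j))
  have h1 := fun j => pvda_gate_pull L (pvloc_bulk_col (delb_col (𝔅 := 𝔅) η ξ)) (hg j) (hran j)
  choose X' hX' hg' using h1
  have hg'' : ∀ j, PvgGate (𝔅.T (cfSites η)) (𝔅.col η ξ) (cfCol η ((𝔅.enc (cfSites η) (x + 7 * R) c).v k))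
      (pvdiB (𝔅.T (cfSites η)) (𝔅.posF (cfSites η) (x + 7 * R)) z (a j)) (pvdiB (𝔅.T (cfSites η)) (𝔅.posF (cfSites η) (x + 7 * R)) z (b j))
      (pvdaPull (pvlocR 𝔅 h (Metric.closedBall x (6 * R))) (G j)) (X' j) := by
    intro j
    have := hg' j
    rwa [pvda_B_eq hR hOk (hz6 j), pvda_B_eq hR hOk (by linarith [hz6 j, hab j])] at this
  have hcol : ∀ j, 𝔅.col η ξ ((𝔅.T (cfSites η)).src (c.e j)) = cfCol η ((𝔅.enc (cfSites η) (x + 7 * R) c).v k) := by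
    intro j
    rw [pl_rim_col hc j k]
    exact delb_col_inl 𝔅 η ξ (pvloc_posF hR hkx)
  have hfar : ∀ j, b j + μ < ‖𝔅.posF (cfSites η) (x + 7 * R) ((𝔅.T (cfSites η)).src (c.e 0)) - z‖ := by
    intro j
    have h5 : ‖𝔅.posF (cfSites η) (x + 7 * R) ((𝔅.T (cfSites η)).src (c.e 0)) - x‖ ≤
        ‖𝔅.posF (cfSites η) (x + 7 * R) ((𝔅.T (cfSites η)).src (c.e 0)) - z‖ + ‖z - x‖ := by
      calc _ = ‖(𝔅.posF (cfSites η) (x + 7 * R) ((𝔅.T (cfSites η)).src (c.e 0)) - z) + (z - x)‖ := by ring_nf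
        _ ≤ _ := norm_add_le _ _
    linarith [hz j]
  obtain ⟨lo, hi, H⟩ := pvdi_gates hOk.sph hμ (fun j => pvda_mesh hR hOk hf (hz6 j)) hord hg'' c hcol hk hnear hfar
  have hpos : ∀ {v : 𝔅.V (cfSites η)} {v' : ↥(cfSites η)}, pvlocV (𝔅.T (cfSites η)) (delPl h).toMap (pvlocR 𝔅 h (Metric.closedBall x (6 * R))) v v' →
      (v' : ℂ) = 𝔅.posF (cfSites η) (x + 7 * R) v := fun hv => (l9_posF_inl 𝔅 (pvloc_bulk_v hv)).symm
  refine ⟨lo, hi, ⟨fun j => (H.pass j).lo_pos, fun j => (H.pass j).lo_lt, fun j => (H.pass j).lt_hi, fun j => (H.pass j).hi_lt, H.visit, H.diam, H.order⟩, fun j => ?_⟩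
  obtain ⟨u, hu, hu'⟩ := (hX' j _).1 (H.pass j).lo_X
  obtain ⟨w, hw, hw'⟩ := (hX' j _).1 (H.pass j).hi_X
  have hne : u ≠ w := fun e => (H.pass j).ne (pvloc_v_inj L hu' (e ▸ hw'))
  have hne' : (u : ℂ) ≠ (w : ℂ) := fun e => hne (Subtype.ext e)
  refine ⟨⟨u, hu, hpos hu'⟩, ⟨w, hw, hpos hw'⟩, ?_, ?_, ?_⟩
  · have hsub : ({u, w} : Finset ↥(cfSites η)) ⊆ X j := by
      intro y hy
      rcases Finset.mem_insert.1 hy with rfl | hy
      · exact hu
      · rw [Finset.mem_singleton.1 hy]; exact hw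
    have heq := Finset.eq_of_subset_of_card_le hsub (by rw [Finset.card_pair hne]; exact (hg j).card)
    intro v hv
    rw [← heq] at hv
    rcases Finset.mem_insert.1 hv with rfl | hv
    · exact Or.inl (hpos hu')
    · rw [Finset.mem_singleton.1 hv]; exact Or.inr (hpos hw')
  · have e1 := hpos hu'
    have e2 := hpos hw'
    intro e
    exact hne' (e1.trans (e.trans e2.symm))
  · intro i i1 i2
    have hm := (H.pass j).mid i i1 i2
    obtain ⟨d', hd, -⟩ := hm (c.e i) rfl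
    refine ⟨(delPl h).toMap.src d', ?_, hpos (pvloc_v_src hd)⟩
    have := pvda_int_pull L.symm (delp_isSph h) (pvda_pull_dom (R := pvlocR 𝔅 h (Metric.closedBall x (6 * R))) (G j)) (pvloc_v_symm (pvloc_v_src hd)) hm
    rwa [pvda_pull_pull L.iso.symm _ (hran j)] at this

/-- **(X1) TRAP**, sample form -/
theorem pvda_trap {τ : Type} (𝔐 : PvbMenu τ) {x z : ℂ} {R h a b μ : ℝ} {ω : PVSample} (hR : 0 < R) (hμ : 0 ≤ μ)
    (hf : L9Fine (cfSites (pvConf ω)) (Metric.closedBall x (6 * R)) μ) (hz : ‖z - x‖ + b + μ < 4 * R) {P : PvbRim} (hP : P ∈ l9All x R ω) {k : ℕ} (hk : k < P.len)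
    (hnear : ‖P.v k - z‖ ≤ h) (hha : h ≤ a) (hab : a ≤ b) (t : τ) (ha : 𝔐.a3 t * h ≤ a) (hb : b + μ ≤ 𝔐.L * h)
    (hg : PvdaGate (cfSites (pvConf ω)) (cfCol (pvConf ω)) (cfCol (pvConf ω) (P.v k)) z a b) : PvbIsPin 𝔐 h P ⟨k, z, t⟩ :=
  pvda_trap_cf 𝔐 hR hμ hf hz hP hk hnear hha hab t ha hb hg

/-- `g` gates of the plane in fixed nested annuli, sample form -/
theorem pvda_gates {x z : ℂ} {R μ : ℝ} {ω : PVSample} (hR : 0 < R) (hμ : 0 ≤ μ) (hf : L9Fine (cfSites (pvConf ω)) (Metric.closedBall x (6 * R)) μ)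
    {P : PvbRim} (hP : P ∈ l9All x R ω) {k : ℕ} (hk : k < P.len) (hkx : ‖P.v k - x‖ ≤ 6 * R) {g : ℕ} {a b : Fin g → ℝ} (hab : ∀ j, a j ≤ b j) (hord : ∀ j j', j < j' → b j + μ ≤ a j')
    (hz : ∀ j, ‖z - x‖ + b j + μ < 4 * R) (hnear : ∀ j, ‖P.v k - z‖ ≤ a j) (h : DelGood (cfSites (pvConf ω))) {G : Fin g → Set (delPl h).Dart} {X : Fin g → Finset ↥(cfSites (pvConf ω))}
    (hg : ∀ j, PvgGate (delPl h).toMap (fun v => cfCol (pvConf ω) v) (cfCol (pvConf ω) (P.v k)) (pvdiB (delPl h).toMap Subtype.val z (a j)) (pvdiB (delPl h).toMap Subtype.val z (b j)) (G j) (X j)) :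
    ∃ lo hi : Fin g → ℕ, PvdaPass P z μ k a b lo hi ∧ ∀ j, (∃ v ∈ X j, (v : ℂ) = P.v (lo j)) ∧ (∃ v ∈ X j, (v : ℂ) = P.v (hi j)) ∧ (∀ v ∈ X j, (v : ℂ) = P.v (lo j) ∨ (v : ℂ) = P.v (hi j)) ∧
      P.v (lo j) ≠ P.v (hi j) ∧ ∀ i, lo j < i → i < hi j → ∃ v ∈ (delPl h).toMap.Int (G j), (v : ℂ) = P.v i :=
  pvda_gates_cf hR hμ hf hP hk hkx hab hord hz hnear h hg

end trap

end Claimed.Agent.R289
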