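import Claimed.Agent.R289.Fkg
import Claimed.Agent.R289.Ppp.Ind

/-!
# Row 289 (S0537), box TR-IND, file Tr/Ind : THE INDEPENDENCE LAYER OF (N1) AT THE LEVEL OF THE POISSON PROCESS      (owner helper141; prefix `pvti_`, `pvti`; `Conf.Reads` itself + `mono comp prodMk pi` + n-fold independence = 256, `Ppp/Ind.lean`)

TEX[Cardy:plugs] (Def. cycle experiment, (plug:cycle-density), Prop. state cochain) in the form (N1) of 208 (`s6a_208.md` v2) with the repair F1 of 140 (`wall_140.md` sec. 1-2).      Consumers: 175 (abstract N1), 295 (TR blueprint).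
Generic in the measurable space `E` (for the model: `E = PvPt = ℂ × Bool`, `μ = pvP ε`, `pv_isPpp`).      NO regular conditional law, NO disintegration: "given the states" = an honest product integral over the splice `Conf.spl O (σ, η)` (159, `Fkg.lean`).
* §1 `Conf.Reads W f` : `f` is READ from the restriction to `W` (`f (restr W η) = f η`); events are `Prop`-valued `f`.   Closure (`mono`, `comp`, `map₂`), splice identities `spl_left`, `spl_right`, `spl_change`, `union_eq`.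
* §2 product integrals: `IsPpp.lintegral_spl`, `IsPpp.indepFun_restr`, `IsPpp.indepFun_reads`, `IsPpp.lintegral_mul_reads`, `IsPpp.map_restr₃` (the law of three disjoint restrictions is the product law).
* §3 `pvti_jensen` (no integrability hypothesis), `pvtiMean μ O w Y σ` = the mean of `Y` under the weight `w` given `σ ∩ O`,
  **`pvti_n1`** : `∫ |X + y_c(σ)|² a ≤ ∫ |X + Y|² a w`   (`X`, `a` read `O ∪ E0`; `Y`, `w` read `O ∪ C0`; `∫ w = 1` given `σ` wherever `a ≠ 0`),   **`pvti_n1_q`** : the form with an event `S` of conditional probability `≥ q0`.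
* §4 `Conf.Reads.spl_sec`, **`pvti_peel`** (one connector of conditional mass one is dropped).
* §5 **`pvti_n1_fam`** (FAMILY form: the sum over the arcs `g` of TR23; any index type, `X i`, `a i` only READ `C0ᶜ`, NO measurability asked of them; `Y`, `w`, majorant `H` only `AEMeasurable`), `pvti_n1_ae`, **`pvti_pattern`** (TR23 model free), `IsPpp.ae_aemeasurable_spl`, `pvti_tsum_lintegral_le`.
* §6 THE CORE OF N1' (cylinder domination, `W1_208.md` sec. 2), MODEL FREE, for an abstract resampling `r σ η`, `η ∼ ν σ` (seed law may depend on `σ`, no measurability in `σ`): `pvtiHat ν r w Y σ`, **`pvti_core_fam`**, **`pvti_core_cyl`** (C1, C2, C3, P1.8 as hypotheses);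
  instance for a measurable map `R` with `(P ⊗ P').map R = P`: `pvti_rs_ae`, `pvti_rs_aemeasurable`, `pvti_rs_lintegral`, **`pvti_rs_cyl`**, `pvti_rs_comp` (two resamplings in a row).   Fits `Conf.spl U` (`IsPpp.splice`) and the stopping sets of 170 (`pvstRs`, `measurable_pvstRs`, `pvst_splice`, `pvst_meas_rs`).
* §7 LOCAL PREPARATION (D1 of `ref_131.md`): `pvti_prep_lintegral`, `pvti_prep_measure`, `pvti_prep_cheb`, **`pvti_tr23`** = TR23 on road P, model free (five lines: prepared sample, `law ≤ C μ`, Harris, Jensen with `W_c`, recognition, tail).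
-/

set_option autoImplicit false
set_option linter.unusedSectionVars false

namespace Claimed.Agent.R289

open MeasureTheory ProbabilityTheory Set Filter Topology
open scoped ENNReal NNReal

/-! ## 1. reading a restriction -/

section reads

variable {E : Type*} [MeasurableSpace E] {β γ δ : Type*} {W W' O U C : Set E}

theorem Conf.Reads.congr {f : Conf E → β} (h : Conf.Reads W f) {η η' : Conf E} (e : Conf.restr W η = Conf.restr W η') : f η = f η' := by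
  rw [← h η, e, h η']

theorem Conf.restr_restr (O W : Set E) (η : Conf E) : Conf.restr O (Conf.restr W η) = Conf.restr (O ∩ W) η := by
  ext p
  simp only [Conf.restr, mem_inter_iff]
  tauto

theorem Conf.reads_restr_of_subset (hO : O ⊆ W) : Conf.Reads W (Conf.restr O : Conf E → Conf E) := fun η => by
  rw [Conf.restr_restr, inter_eq_left.2 hO]

theorem Conf.Reads.map₂ {f : Conf E → β} {f' : Conf E → γ} (h : Conf.Reads W f) (h' : Conf.Reads W f') (g : β → γ → δ) :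
    Conf.Reads W (fun η => g (f η) (f' η)) := fun η => by
  show g (f _) (f' _) = g (f η) (f' η)
  rw [h η, h' η]

/-- a function of the restriction -/
theorem Conf.reads_comp_restr_of_subset (hO : O ⊆ W) (g : Conf E → β) : Conf.Reads W (fun η => g (Conf.restr O η)) :=
  (Conf.reads_restr_of_subset hO).comp g

theorem Conf.restr_spl_of_subset (hW : W ⊆ O) (σ η : Conf E) : Conf.restr W (Conf.spl O (σ, η)) = Conf.restr W σ := by
  ext p
  simp only [Conf.restr, Conf.spl, Conf.union, mem_inter_iff, mem_union, mem_compl_iff]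
  constructor
  · rintro ⟨h | h, hp⟩
    · exact ⟨h.1, hp⟩
    · exact absurd (hW hp) h.2
  · rintro ⟨h, hp⟩
    exact ⟨Or.inl ⟨h, hW hp⟩, hp⟩

theorem Conf.restr_spl_of_disjoint (hW : Disjoint W O) (σ η : Conf E) : Conf.restr W (Conf.spl O (σ, η)) = Conf.restr W η := by
  ext p
  simp only [Conf.restr, Conf.spl, Conf.union, mem_inter_iff, mem_union, mem_compl_iff]
  constructor
  · rintro ⟨h | h, hp⟩
    · exact absurd h.2 (Set.disjoint_left.1 hW hp)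
    · exact ⟨h.1, hp⟩
  · rintro ⟨h, hp⟩
    exact ⟨Or.inr ⟨h, Set.disjoint_left.1 hW hp⟩, hp⟩

/-- what is read inside `O` does not see the resampled part -/
theorem Conf.Reads.spl_left {f : Conf E → β} (h : Conf.Reads W f) (hW : W ⊆ O) (σ η : Conf E) : f (Conf.spl O (σ, η)) = f σ :=
  h.congr (Conf.restr_spl_of_subset hW σ η)

/-- what is read outside `O` sees the resampled part only -/
theorem Conf.Reads.spl_right {f : Conf E → β} (h : Conf.Reads W f) (hW : Disjoint W O) (σ η : Conf E) : f (Conf.spl O (σ, η)) = f η :=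
  h.congr (Conf.restr_spl_of_disjoint hW σ η)

/-- `f` reads `O ∪ C`; keeping more than `O`, but nothing of `C`, is the same as keeping `O` -/
theorem Conf.Reads.spl_change {f : Conf E → β} (h : Conf.Reads (O ∪ C) f) (hOU : O ⊆ U) (hC : Disjoint C U) (σ η : Conf E) :
    f (Conf.spl U (σ, η)) = f (Conf.spl O (σ, η)) := by
  refine h.congr ?_
  ext p
  simp only [Conf.restr, Conf.spl, Conf.union, mem_inter_iff, mem_union, mem_compl_iff]
  constructor
  · rintro ⟨h1 | h1, hp | hp⟩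
    · exact ⟨Or.inl ⟨h1.1, hp⟩, Or.inl hp⟩
    · exact absurd h1.2 (Set.disjoint_left.1 hC hp)
    · exact absurd (hOU hp) h1.2
    · exact ⟨Or.inr ⟨h1.1, fun hO => h1.2 (hOU hO)⟩, Or.inr hp⟩
  · rintro ⟨h1 | h1, hp | hp⟩
    · exact ⟨Or.inl ⟨h1.1, hOU hp⟩, Or.inl hp⟩
    · exact absurd (hOU h1.2) (Set.disjoint_left.1 hC hp)
    · exact absurd hp h1.2
    · exact ⟨Or.inr ⟨h1.1, Set.disjoint_left.1 hC hp⟩, Or.inr hp⟩

/-- a function which reads `O ∪ W` is a function of the two restrictions -/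
theorem Conf.Reads.union_eq {f : Conf E → β} (h : Conf.Reads (O ∪ W) f) (η : Conf E) :
    f η = f (Conf.union (Conf.restr O η) (Conf.restr W η)) := by
  rw [← h η]
  congr 1
  ext p
  simp only [Conf.restr, Conf.union, mem_inter_iff, mem_union]
  tauto

/-- the splice, as a function of the kept configuration, reads `O` -/
theorem Conf.reads_spl (O : Set E) (f : Conf E → β) (η : Conf E) : Conf.Reads O (fun σ => f (Conf.spl O (σ, η))) := fun σ => by
  show f (Conf.spl O (Conf.restr O σ, η)) = _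
  rw [Conf.spl_restr]

end reads

/-! ## 2. product integrals -/

section prod

variable {E : Type*} [MeasurableSpace E] {m : Measure E} {μ : Measure (Conf E)} {O W U C : Set E}

/-- **Fubini over the splice**: integrate first over the resampled exterior -/
theorem IsPpp.lintegral_spl (h : IsPpp m μ) (hO : MeasurableSet O) {F : Conf E → ℝ≥0∞} (hF : Measurable F) :
    ∫⁻ η, F η ∂μ = ∫⁻ σ, ∫⁻ η, F (Conf.spl O (σ, η)) ∂μ ∂μ := by
  have := h.prob
  have e : (μ.prod μ).map (Conf.spl O) = μ := h.splice hO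
  calc ∫⁻ η, F η ∂μ = ∫⁻ η, F η ∂((μ.prod μ).map (Conf.spl O)) := by rw [e]
    _ = ∫⁻ x, F (Conf.spl O x) ∂(μ.prod μ) := lintegral_map hF (Conf.measurable_spl hO)
    _ = ∫⁻ σ, ∫⁻ η, F (Conf.spl O (σ, η)) ∂μ ∂μ := lintegral_prod _ (hF.comp (Conf.measurable_spl hO)).aemeasurable

/-- product formula -/
theorem IsPpp.lintegral_mul_reads (h : IsPpp m μ) (hO : MeasurableSet O) (hW : MeasurableSet W) (hd : Disjoint O W)
    {f g : Conf E → ℝ≥0∞} (hf : Measurable f) (hg : Measurable g) (hfr : Conf.Reads O f) (hgr : Conf.Reads W g) :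
    ∫⁻ η, f η * g η ∂μ = (∫⁻ η, f η ∂μ) * ∫⁻ η, g η ∂μ :=
  lintegral_mul_eq_lintegral_mul_lintegral_of_indepFun hf hg (h.indepFun_reads hO hW hd hf hg hfr hgr)

/-- **the law of three disjoint restrictions is the product of their laws** -/
theorem IsPpp.map_restr₃ (h : IsPpp m μ) (hO : MeasurableSet O) (hW : MeasurableSet W) (hC : MeasurableSet C)
    (h1 : Disjoint O W) (h2 : Disjoint O C) (h3 : Disjoint W C) :
    μ.map (fun η => (Conf.restr O η, Conf.restr W η, Conf.restr C η)) =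
      (μ.map (Conf.restr O)).prod ((μ.map (Conf.restr W)).prod (μ.map (Conf.restr C))) := by
  have := h.prob
  have a := (indepFun_iff_map_prod_eq_prod_map_map (Conf.measurable_restr hW).aemeasurable (Conf.measurable_restr hC).aemeasurable).1
    (h.indepFun_restr hW hC h3)
  have hWC : MeasurableSet (W ∪ C) := hW.union hC
  have b0 := (h.indepFun_restr hO hWC (Set.disjoint_union_right.2 ⟨h1, h2⟩)).comp (φ := id)
    (ψ := fun η => (Conf.restr W η, Conf.restr C η)) measurable_id ((Conf.measurable_restr hW).prodMk (Conf.measurable_restr hC))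
  have e : (fun η : Conf E => (Conf.restr W η, Conf.restr C η)) ∘ Conf.restr (W ∪ C) = fun η => (Conf.restr W η, Conf.restr C η) := by
    funext η
    show (Conf.restr W (Conf.restr (W ∪ C) η), Conf.restr C (Conf.restr (W ∪ C) η)) = _
    rw [Conf.restr_restr, Conf.restr_restr, inter_eq_left.2 subset_union_left, inter_eq_left.2 subset_union_right]
  rw [e] at b0
  have b := (indepFun_iff_map_prod_eq_prod_map_map (Conf.measurable_restr hO).aemeasurable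
    ((Conf.measurable_restr hW).prodMk (Conf.measurable_restr hC)).aemeasurable).1 b0
  rw [← a]
  exact b

end prod

/-! ## 3. (N1): removing the randomness of the closing corridor -/

section n1

/-- **Jensen**, without any integrability hypothesis (if `Y` is not integrable the right side is infinite) -/
theorem pvti_jensen {Ω : Type*} [MeasurableSpace Ω] (P : Measure Ω) [IsProbabilityMeasure P] (x : ℂ) {Y : Ω → ℂ} (hY : AEStronglyMeasurable Y P) :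
    ‖x + ∫ ω, Y ω ∂P‖ₑ ^ 2 ≤ ∫⁻ ω, ‖x + Y ω‖ₑ ^ 2 ∂P := by
  have hg : AEStronglyMeasurable (fun ω => x + Y ω) P := aestronglyMeasurable_const.add hY
  have key : (∫⁻ ω, ‖x + Y ω‖ₑ ∂P) ^ 2 ≤ ∫⁻ ω, ‖x + Y ω‖ₑ ^ 2 ∂P := by
    have h1 := eLpNorm_le_eLpNorm_of_exponent_le (μ := P) (p := 1) (q := 2) (by norm_num) hg
    rw [eLpNorm_one_eq_lintegral_enorm, eLpNorm_eq_lintegral_rpow_enorm_toReal (by norm_num) (by norm_num)] at h1
    have h2 := pow_le_pow_left₀ zero_le h1 2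
    refine h2.trans (le_of_eq ?_)
    simp only [ENNReal.toReal_ofNat, ENNReal.rpow_ofNat, one_div]
    rw [← ENNReal.rpow_natCast, ← ENNReal.rpow_mul]
    norm_num
  by_cases hi : Integrable Y P
  · have e : x + ∫ ω, Y ω ∂P = ∫ ω, (x + Y ω) ∂P := by
      rw [integral_add (integrable_const x) hi, integral_const]
      simp
    rw [e]
    exact (pow_le_pow_left₀ zero_le (enorm_integral_le_lintegral_enorm _) 2).trans key
  · have hni : ¬ Integrable (fun ω => x + Y ω) P := fun h => hi (by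
      have h2 := h.sub (integrable_const x)
      refine h2.congr (ae_of_all _ fun ω => ?_)
      simp)
    have htop : ∫⁻ ω, ‖x + Y ω‖ₑ ∂P = ∞ := by
      by_contra hne
      exact hni ⟨hg, lt_top_iff_ne_top.2 hne⟩
    rw [htop] at key
    have : ∫⁻ ω, ‖x + Y ω‖ₑ ^ 2 ∂P = ∞ := top_le_iff.1 (by simpa using key)
    rw [this]
    exact le_top

variable {E : Type*} [MeasurableSpace E] {m : Measure E} {μ : Measure (Conf E)} {O E0 C0 : Set E}

/-- the mean of `Y` under the weight `w`, given the restriction of `σ` to `O` (everything outside `O` is resampled) -/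
noncomputable def pvtiMean (μ : Measure (Conf E)) (O : Set E) (w : Conf E → ℝ≥0∞) (Y : Conf E → ℂ) (σ : Conf E) : ℂ :=
  ∫ η, Y (Conf.spl O (σ, η)) ∂(μ.withDensity fun η => w (Conf.spl O (σ, η)))

theorem pvti_eqns_cite2 : True := by
  have := @pvtiMean.eq_1.{0}
  trivial

theorem pvti_mean_reads (μ : Measure (Conf E)) (O : Set E) (w : Conf E → ℝ≥0∞) (Y : Conf E → ℂ) : Conf.Reads O (pvtiMean μ O w Y) := fun σ => by
  unfold pvtiMean
  simp_rw [Conf.spl_restr]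

/-- **(N1), weight form** (F1 of 140).   `X` and the nonnegative weight `a` (e.g. `1_A 1_G`) read `O ∪ E0`;   `Y` and the weight `w` (the cycle weight `W_c`) read `O ∪ C0`;   `w` has conditional mass one given the states wherever `a ≠ 0`.
Then `Y` may be replaced by its conditional mean `y_c(σ)`. -/
theorem pvti_n1 (h : IsPpp m μ) (hO : MeasurableSet O) (hE : MeasurableSet E0) (hOC : Disjoint O C0) (hEC : Disjoint E0 C0)
    {X Y : Conf E → ℂ} {a w : Conf E → ℝ≥0∞} (hX : Measurable X) (hY : Measurable Y) (ha : Measurable a) (hw : Measurable w)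
    (hXr : Conf.Reads (O ∪ E0) X) (har : Conf.Reads (O ∪ E0) a) (hYr : Conf.Reads (O ∪ C0) Y) (hwr : Conf.Reads (O ∪ C0) w)
    (hnorm : ∀ σ, a σ ≠ 0 → ∫⁻ η, w (Conf.spl O (σ, η)) ∂μ = 1) :
    ∫⁻ η, ‖X η + pvtiMean μ O w Y η‖ₑ ^ 2 * a η ∂μ ≤ ∫⁻ η, ‖X η + Y η‖ₑ ^ 2 * a η * w η ∂μ := by
  have hU : MeasurableSet (O ∪ E0) := hO.union hE
  have hCU : Disjoint C0 (O ∪ E0) := Set.disjoint_union_right.2 ⟨hOC.symm, hEC.symm⟩
  have hF : Measurable fun η => ‖X η + Y η‖ₑ ^ 2 * a η * w η := (((hX.add hY).enorm.pow_const 2).mul ha).mul hw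
  rw [h.lintegral_spl hU hF]
  refine lintegral_mono fun σ => ?_
  have e : ∀ η, ‖X (Conf.spl (O ∪ E0) (σ, η)) + Y (Conf.spl (O ∪ E0) (σ, η))‖ₑ ^ 2 * a (Conf.spl (O ∪ E0) (σ, η)) * w (Conf.spl (O ∪ E0) (σ, η))
      = a σ * (w (Conf.spl O (σ, η)) * ‖X σ + Y (Conf.spl O (σ, η))‖ₑ ^ 2) := by
    intro η
    rw [hXr.spl_left subset_rfl, har.spl_left subset_rfl, hYr.spl_change subset_union_left hCU, hwr.spl_change subset_union_left hCU]
    ring
  simp_rw [e]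
  have hsec : Measurable fun η => Conf.spl O (σ, η) := (Conf.measurable_spl hO).comp (measurable_const.prodMk measurable_id)
  have hm1 : Measurable fun η => w (Conf.spl O (σ, η)) := hw.comp hsec
  have hm2 : Measurable fun η => ‖X σ + Y (Conf.spl O (σ, η))‖ₑ ^ 2 := (measurable_const.add (hY.comp hsec)).enorm.pow_const 2
  have hm3 : Measurable fun η => w (Conf.spl O (σ, η)) * ‖X σ + Y (Conf.spl O (σ, η))‖ₑ ^ 2 := hm1.mul hm2
  rw [lintegral_const_mul _ hm3, mul_comm]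
  by_cases h0 : a σ = 0
  · rw [h0, zero_mul, zero_mul]
  refine mul_le_mul_right ?_ _
  have hP : IsProbabilityMeasure (μ.withDensity fun η => w (Conf.spl O (σ, η))) := ⟨by
    rw [withDensity_apply _ MeasurableSet.univ, Measure.restrict_univ]; exact hnorm σ h0⟩
  have j := pvti_jensen (μ.withDensity fun η => w (Conf.spl O (σ, η))) (X σ) (Y := fun η => Y (Conf.spl O (σ, η)))
    (hY.comp hsec).aestronglyMeasurable
  rw [lintegral_withDensity_eq_lintegral_mul _ hm1 hm2] at j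
  exact j

/-! ### the form with an event of conditional probability `≥ q0` -/

/-- the conditional probability of `S` given the restriction of `σ` to `O` -/
noncomputable def pvtiP (μ : Measure (Conf E)) (O : Set E) (S : Set (Conf E)) (σ : Conf E) : ℝ≥0∞ := ∫⁻ η, S.indicator 1 (Conf.spl O (σ, η)) ∂μ

/-- the weight `1_S / P(S | σ)` -/
noncomputable def pvtiW (μ : Measure (Conf E)) (O : Set E) (S : Set (Conf E)) (η : Conf E) : ℝ≥0∞ := S.indicator 1 η / pvtiP μ O S η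

theorem pvti_eqns_cite3 : True := by
  have := @pvtiP.eq_1.{0}
  have := @pvtiW.eq_1.{0}
  trivial

theorem pvti_P_reads (μ : Measure (Conf E)) (O : Set E) (S : Set (Conf E)) : Conf.Reads O (pvtiP μ O S) := fun σ => by
  unfold pvtiP
  simp_rw [Conf.spl_restr]

theorem pvti_P_measurable [SFinite μ] (hO : MeasurableSet O) {S : Set (Conf E)} (hS : MeasurableSet S) : Measurable (pvtiP μ O S) :=
  ((measurable_one.indicator hS).comp (Conf.measurable_spl hO)).lintegral_prod_right'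

theorem pvti_P_le_one [IsProbabilityMeasure μ] (O : Set E) (S : Set (Conf E)) (σ : Conf E) : pvtiP μ O S σ ≤ 1 := by
  unfold pvtiP
  calc ∫⁻ η, S.indicator 1 (Conf.spl O (σ, η)) ∂μ ≤ ∫⁻ _η, 1 ∂μ := lintegral_mono fun η => Set.indicator_le_self' (fun _ _ => zero_le) _
    _ = 1 := by simp

theorem pvti_ind_reads {W : Set E} {S : Set (Conf E)} (hS : Conf.Reads W (fun η => η ∈ S)) : Conf.Reads W (S.indicator (1 : Conf E → ℝ≥0∞)) := fun η => by
  have e : (Conf.restr W η ∈ S) = (η ∈ S) := hS η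
  by_cases hη : η ∈ S
  · rw [Set.indicator_of_mem hη, Set.indicator_of_mem (e ▸ hη)]
    rfl
  · rw [Set.indicator_of_notMem hη, Set.indicator_of_notMem (e ▸ hη)]

/-- **(N1), form with a success event**: `S` (the forced corridor) reads `O ∪ C0` and has conditional probability `≥ q0` given the states wherever `a ≠ 0`;  `y(σ) = E[Y | S, σ]` -/
theorem pvti_n1_q (h : IsPpp m μ) (hO : MeasurableSet O) (hE : MeasurableSet E0) (hOC : Disjoint O C0) (hEC : Disjoint E0 C0)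
    {X Y : Conf E → ℂ} {a : Conf E → ℝ≥0∞} {S : Set (Conf E)} (hX : Measurable X) (hY : Measurable Y) (ha : Measurable a) (hS : MeasurableSet S)
    (hXr : Conf.Reads (O ∪ E0) X) (har : Conf.Reads (O ∪ E0) a) (hYr : Conf.Reads (O ∪ C0) Y) (hSr : Conf.Reads (O ∪ C0) (fun η => η ∈ S))
    {q0 : ℝ≥0∞} (hq0 : q0 ≠ 0) (hq : ∀ σ, a σ ≠ 0 → q0 ≤ pvtiP μ O S σ) :
    ∫⁻ η, ‖X η + pvtiMean μ O (pvtiW μ O S) Y η‖ₑ ^ 2 * a η ∂μ ≤ q0⁻¹ * ∫⁻ η, ‖X η + Y η‖ₑ ^ 2 * a η * S.indicator 1 η ∂μ := by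
  have := h.prob
  have hPm := pvti_P_measurable (μ := μ) hO hS
  have hw : Measurable (pvtiW μ O S) := (measurable_one.indicator hS).div hPm
  have hwr : Conf.Reads (O ∪ C0) (pvtiW μ O S) :=
    (pvti_ind_reads hSr).map₂ ((pvti_P_reads μ O S).mono subset_union_left) (fun x y => x / y)
  have hnorm : ∀ σ, a σ ≠ 0 → ∫⁻ η, pvtiW μ O S (Conf.spl O (σ, η)) ∂μ = 1 := by
    intro σ hσ
    have hp0 : pvtiP μ O S σ ≠ 0 := fun h0 => hq0 (le_antisymm (h0 ▸ hq σ hσ) zero_le)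
    have hp1 : pvtiP μ O S σ ≠ ∞ := ne_top_of_le_ne_top ENNReal.one_ne_top (pvti_P_le_one O S σ)
    have e : ∀ η, pvtiW μ O S (Conf.spl O (σ, η)) = S.indicator 1 (Conf.spl O (σ, η)) * (pvtiP μ O S σ)⁻¹ := by
      intro η
      unfold pvtiW
      rw [(pvti_P_reads μ O S).spl_left subset_rfl, div_eq_mul_inv]
    simp_rw [e]
    have hsec : Measurable fun η => Conf.spl O (σ, η) := (Conf.measurable_spl hO).comp (measurable_const.prodMk measurable_id)
    have hm : Measurable fun η => S.indicator (1 : Conf E → ℝ≥0∞) (Conf.spl O (σ, η)) := (measurable_one.indicator hS).comp hsec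
    rw [lintegral_mul_const _ hm]
    exact ENNReal.mul_inv_cancel hp0 hp1
  refine (pvti_n1 h hO hE hOC hEC hX hY ha hw hXr har hYr hwr hnorm).trans ?_
  have hm : Measurable fun η => ‖X η + Y η‖ₑ ^ 2 * a η * S.indicator (1 : Conf E → ℝ≥0∞) η :=
    (((hX.add hY).enorm.pow_const 2).mul ha).mul (measurable_one.indicator hS)
  rw [← lintegral_const_mul _ hm]
  refine lintegral_mono fun η => ?_
  by_cases h0 : a η = 0
  · simp [h0]
  have h1 : (pvtiP μ O S η)⁻¹ ≤ q0⁻¹ := ENNReal.inv_le_inv.2 (hq η h0)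
  calc ‖X η + Y η‖ₑ ^ 2 * a η * pvtiW μ O S η = (‖X η + Y η‖ₑ ^ 2 * a η * S.indicator 1 η) * (pvtiP μ O S η)⁻¹ := by
        unfold pvtiW; rw [div_eq_mul_inv]; ring
    _ ≤ (‖X η + Y η‖ₑ ^ 2 * a η * S.indicator 1 η) * q0⁻¹ := mul_le_mul_right h1 _
    _ = q0⁻¹ * (‖X η + Y η‖ₑ ^ 2 * a η * S.indicator 1 η) := mul_comm _ _

end n1

/-! ## 4. peeling the connectors of a cycle weight -/

section peel

variable {E : Type*} [MeasurableSpace E] {m : Measure E} {μ : Measure (Conf E)} {R K O W : Set E}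

/-- the section of a reader at a fixed kept configuration reads the same window -/
theorem Conf.Reads.spl_sec {β : Type*} {f : Conf E → β} (h : Conf.Reads W f) (O : Set E) (σ : Conf E) :
    Conf.Reads W (fun η => f (Conf.spl O (σ, η))) := fun η => by
  refine h.congr ?_
  ext p
  simp only [Conf.restr, Conf.spl, Conf.union, mem_inter_iff, mem_union, mem_compl_iff]
  tauto

/-- **PEELING ONE CONNECTOR** ((plug:cycle-density): "unused data remain free").   `v` reads `R ∪ K` and has conditional mass one given `R` wherever `b ≠ 0`;   `F`, `b` do not read `K`.   Then the factor `v` may be dropped. -/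
theorem pvti_peel (h : IsPpp m μ) (hR : MeasurableSet R) (hK : MeasurableSet K) (hRK : Disjoint R K)
    {F b v : Conf E → ℝ≥0∞} (hF : Measurable F) (hb : Measurable b) (hv : Measurable v)
    (hFr : Conf.Reads Kᶜ F) (hbr : Conf.Reads Kᶜ b) (hvr : Conf.Reads (R ∪ K) v)
    (hnorm : ∀ σ, b σ ≠ 0 → ∫⁻ η, v (Conf.spl R (σ, η)) ∂μ = 1) :
    ∫⁻ η, F η * b η * v η ∂μ = ∫⁻ η, F η * b η ∂μ := by
  have hG : Measurable fun η => F η * b η * v η := (hF.mul hb).mul hv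
  rw [h.lintegral_spl hK.compl hG]
  refine lintegral_congr fun σ => ?_
  have e : ∀ η, F (Conf.spl Kᶜ (σ, η)) * b (Conf.spl Kᶜ (σ, η)) * v (Conf.spl Kᶜ (σ, η)) = F σ * b σ * v (Conf.spl R (σ, η)) := by
    intro η
    rw [hFr.spl_left subset_rfl, hbr.spl_left subset_rfl,
      hvr.spl_change (Set.subset_compl_iff_disjoint_right.2 hRK) (Set.disjoint_compl_right_iff_subset.2 subset_rfl)]
  simp_rw [e]
  by_cases h0 : b σ = 0
  · simp [h0]
  · have hsec : Measurable fun η => Conf.spl R (σ, η) := (Conf.measurable_spl hR).comp (measurable_const.prodMk measurable_id)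
    have hm : Measurable fun η => v (Conf.spl R (σ, η)) := hv.comp hsec
    rw [lintegral_const_mul _ hm, hnorm σ h0, mul_one]

end peel

/-! ## 5. (N1) for a FAMILY: the sum over the arcs `g` of TR23; hypotheses of a.e. measurability only -/

section fam

variable {E : Type*} [MeasurableSpace E] {m : Measure E} {μ : Measure (Conf E)} {O C0 U : Set E}

/-- sums and integrals, ANY index type: one inequality -/
theorem pvti_tsum_lintegral_le {Ω ι : Type*} [MeasurableSpace Ω] (P : Measure Ω) (f : ι → Ω → ℝ≥0∞) (hf : ∀ i, AEMeasurable (f i) P) :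
    ∑' i, ∫⁻ ω, f i ω ∂P ≤ ∫⁻ ω, ∑' i, f i ω ∂P := by
  rw [ENNReal.tsum_eq_iSup_sum]
  refine iSup_le fun s => ?_
  rw [← lintegral_finsetSum' s fun i _ => hf i]
  exact lintegral_mono fun ω => ENNReal.sum_le_tsum s

/-- a.e. section of an a.e. measurable function is a.e. measurable -/
theorem IsPpp.ae_aemeasurable_spl (h : IsPpp m μ) (hU : MeasurableSet U) {β : Type*} [MeasurableSpace β] {f : Conf E → β} (hf : AEMeasurable f μ) :
    ∀ᵐ σ ∂μ, AEMeasurable (fun η => f (Conf.spl U (σ, η))) μ := by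
  filter_upwards [h.ae_ae_splice hU hf.ae_eq_mk] with σ hσ
  exact ⟨fun η => hf.mk f (Conf.spl U (σ, η)), hf.measurable_mk.comp ((Conf.measurable_spl hU).comp (measurable_const.prodMk measurable_id)), hσ⟩

/-- **(N1), FAMILY FORM**.   `X i`, `a i` (`i` in ANY index type: the arcs `g`) only have to READ the complement of the closing region `C0`: no measurability is asked of them.
`Y`, `w` read `O ∪ C0` and are a.e. measurable;   `w` has conditional mass one given the states, for a.e. `σ` at which some `a i ≠ 0`;   `H` is any a.e. measurable majorant of `∑ |X i + Y|² a i w`. -/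
theorem pvti_n1_fam (h : IsPpp m μ) (hC : MeasurableSet C0) (hOC : Disjoint O C0) {ι : Type*}
    {X : ι → Conf E → ℂ} {a : ι → Conf E → ℝ≥0∞} {Y : Conf E → ℂ} {w H : Conf E → ℝ≥0∞}
    (hXr : ∀ i, Conf.Reads C0ᶜ (X i)) (har : ∀ i, Conf.Reads C0ᶜ (a i)) (hY : AEMeasurable Y μ) (hw : AEMeasurable w μ) (hH : AEMeasurable H μ)
    (hYr : Conf.Reads (O ∪ C0) Y) (hwr : Conf.Reads (O ∪ C0) w)
    (hnorm : ∀ᵐ σ ∂μ, (∃ i, a i σ ≠ 0) → ∫⁻ η, w (Conf.spl O (σ, η)) ∂μ = 1)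
    (hdom : ∀ᵐ η ∂μ, ∑' i, ‖X i η + Y η‖ₑ ^ 2 * a i η * w η ≤ H η) :
    ∫⁻ σ, ∑' i, ‖X i σ + pvtiMean μ O w Y σ‖ₑ ^ 2 * a i σ ∂μ ≤ ∫⁻ η, H η ∂μ := by
  have hU : MeasurableSet C0ᶜ := hC.compl
  have hOU : O ⊆ C0ᶜ := Set.subset_compl_iff_disjoint_right.2 hOC
  have hCU : Disjoint C0 C0ᶜ := disjoint_compl_right
  have eH : ∫⁻ η, H η ∂μ = ∫⁻ σ, ∫⁻ η, H (Conf.spl C0ᶜ (σ, η)) ∂μ ∂μ := h.lintegral_splice hU hH
  rw [eH]
  refine lintegral_mono_ae ?_
  filter_upwards [hnorm, h.ae_ae_splice hU hdom, h.ae_aemeasurable_spl hU hY, h.ae_aemeasurable_spl hU hw] with σ h1 h2 h3 h4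
  have eY : (fun η => Y (Conf.spl C0ᶜ (σ, η))) = fun η => Y (Conf.spl O (σ, η)) := funext fun η => hYr.spl_change hOU hCU σ η
  have ew : (fun η => w (Conf.spl C0ᶜ (σ, η))) = fun η => w (Conf.spl O (σ, η)) := funext fun η => hwr.spl_change hOU hCU σ η
  rw [eY] at h3
  rw [ew] at h4
  -- Jensen, index by index
  have hJ : ∀ i, ‖X i σ + pvtiMean μ O w Y σ‖ₑ ^ 2 * a i σ ≤ ∫⁻ η, ‖X i σ + Y (Conf.spl O (σ, η))‖ₑ ^ 2 * a i σ * w (Conf.spl O (σ, η)) ∂μ := by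
    intro i
    by_cases h0 : a i σ = 0
    · simp [h0]
    have hP : IsProbabilityMeasure (μ.withDensity fun η => w (Conf.spl O (σ, η))) := ⟨by
      rw [withDensity_apply _ MeasurableSet.univ, Measure.restrict_univ]; exact h1 ⟨i, h0⟩⟩
    have hac : (μ.withDensity fun η => w (Conf.spl O (σ, η))) ≪ μ := withDensity_absolutelyContinuous _ _
    have j := pvti_jensen (μ.withDensity fun η => w (Conf.spl O (σ, η))) (X i σ) (Y := fun η => Y (Conf.spl O (σ, η)))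
      (h3.mono_ac hac).aestronglyMeasurable
    have hm2 : AEMeasurable (fun η => ‖X i σ + Y (Conf.spl O (σ, η))‖ₑ ^ 2) μ := (aemeasurable_const.add h3).enorm.pow_const 2
    rw [lintegral_withDensity_eq_lintegral_mul₀ h4 hm2] at j
    have hm3 : AEMeasurable (fun η => w (Conf.spl O (σ, η)) * ‖X i σ + Y (Conf.spl O (σ, η))‖ₑ ^ 2) μ := h4.mul hm2
    calc ‖X i σ + pvtiMean μ O w Y σ‖ₑ ^ 2 * a i σ
        ≤ (∫⁻ η, w (Conf.spl O (σ, η)) * ‖X i σ + Y (Conf.spl O (σ, η))‖ₑ ^ 2 ∂μ) * a i σ := mul_le_mul_left j _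
      _ = ∫⁻ η, w (Conf.spl O (σ, η)) * ‖X i σ + Y (Conf.spl O (σ, η))‖ₑ ^ 2 * a i σ ∂μ := (lintegral_mul_const'' _ hm3).symm
      _ = _ := lintegral_congr fun η => by ring
  have hm : ∀ i, AEMeasurable (fun η => ‖X i σ + Y (Conf.spl O (σ, η))‖ₑ ^ 2 * a i σ * w (Conf.spl O (σ, η))) μ := fun i =>
    (((aemeasurable_const.add h3).enorm.pow_const 2).mul_const _).mul h4
  calc ∑' i, ‖X i σ + pvtiMean μ O w Y σ‖ₑ ^ 2 * a i σ
      ≤ ∑' i, ∫⁻ η, ‖X i σ + Y (Conf.spl O (σ, η))‖ₑ ^ 2 * a i σ * w (Conf.spl O (σ, η)) ∂μ := ENNReal.tsum_le_tsum hJ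
    _ ≤ ∫⁻ η, ∑' i, ‖X i σ + Y (Conf.spl O (σ, η))‖ₑ ^ 2 * a i σ * w (Conf.spl O (σ, η)) ∂μ := pvti_tsum_lintegral_le μ _ hm
    _ ≤ ∫⁻ η, H (Conf.spl C0ᶜ (σ, η)) ∂μ := by
        refine lintegral_mono_ae ?_
        filter_upwards [h2] with η hη
        have hη' : ∑' i, ‖X i (Conf.spl C0ᶜ (σ, η)) + Y (Conf.spl C0ᶜ (σ, η))‖ₑ ^ 2 * a i (Conf.spl C0ᶜ (σ, η)) * w (Conf.spl C0ᶜ (σ, η))
            ≤ H (Conf.spl C0ᶜ (σ, η)) := hη
        refine le_trans (le_of_eq ?_) hη'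
        refine tsum_congr fun i => ?_
        rw [(hXr i).spl_left subset_rfl, (har i).spl_left subset_rfl, hYr.spl_change hOU hCU, hwr.spl_change hOU hCU]

/-- (N1), weight form, hypotheses of a.e. measurability only (no measurability of `X`, `a`) -/
theorem pvti_n1_ae (h : IsPpp m μ) (hC : MeasurableSet C0) (hOC : Disjoint O C0)
    {X Y : Conf E → ℂ} {a w H : Conf E → ℝ≥0∞} (hXr : Conf.Reads C0ᶜ X) (har : Conf.Reads C0ᶜ a)
    (hY : AEMeasurable Y μ) (hw : AEMeasurable w μ) (hH : AEMeasurable H μ) (hYr : Conf.Reads (O ∪ C0) Y) (hwr : Conf.Reads (O ∪ C0) w)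
    (hnorm : ∀ᵐ σ ∂μ, a σ ≠ 0 → ∫⁻ η, w (Conf.spl O (σ, η)) ∂μ = 1)
    (hdom : ∀ᵐ η ∂μ, ‖X η + Y η‖ₑ ^ 2 * a η * w η ≤ H η) :
    ∫⁻ σ, ‖X σ + pvtiMean μ O w Y σ‖ₑ ^ 2 * a σ ∂μ ≤ ∫⁻ η, H η ∂μ := by
  have k := pvti_n1_fam h hC hOC (ι := Unit) (X := fun _ => X) (a := fun _ => a) (fun _ => hXr) (fun _ => har) hY hw hH hYr hwr
    (hnorm.mono fun σ hσ ⟨_, h0⟩ => hσ h0) (hdom.mono fun η hη => by simpa using hη)
  simpa using k

/-- **TR23, MODEL FREE** (N1 for a pattern).   `a i` = the arc events `B_g NB_g G`,   `a' i` = the same with the white lane `W`;   inputs as hypotheses: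
`hharris` (first moment over the arcs + Harris, TR4),   `hwD` (`W_c ≤ D_c 1_S`, TR1),   `hrec` (recognition TR13: the closed circuits are distinct rims, `Θ` = the closed-sum functional),   `hθ` (I.TAIL). -/
theorem pvti_pattern (h : IsPpp m μ) (hC : MeasurableSet C0) (hOC : Disjoint O C0) {ι : Type*}
    {X : ι → Conf E → ℂ} {a a' : ι → Conf E → ℝ≥0∞} {Y : Conf E → ℂ} {w Θ : Conf E → ℝ≥0∞} {S : Set (Conf E)} {D q bad θ : ℝ≥0∞}
    (hXr : ∀ i, Conf.Reads C0ᶜ (X i)) (har : ∀ i, Conf.Reads C0ᶜ (a' i)) (hY : AEMeasurable Y μ) (hw : AEMeasurable w μ) (hΘ : AEMeasurable Θ μ)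
    (hYr : Conf.Reads (O ∪ C0) Y) (hwr : Conf.Reads (O ∪ C0) w)
    (hnorm : ∀ᵐ σ ∂μ, (∃ i, a' i σ ≠ 0) → ∫⁻ η, w (Conf.spl O (σ, η)) ∂μ = 1)
    (hwD : ∀ᵐ η ∂μ, w η ≤ D * S.indicator 1 η)
    (hharris : ∫⁻ σ, ∑' i, ‖X i σ + pvtiMean μ O w Y σ‖ₑ ^ 2 * a i σ ∂μ ≤ q⁻¹ * ∫⁻ σ, ∑' i, ‖X i σ + pvtiMean μ O w Y σ‖ₑ ^ 2 * a' i σ ∂μ + bad)
    (hrec : ∀ᵐ η ∂μ, ∑' i, ‖X i η + Y η‖ₑ ^ 2 * a' i η * S.indicator 1 η ≤ Θ η)
    (hθ : ∫⁻ η, Θ η ∂μ ≤ θ) :
    ∫⁻ σ, ∑' i, ‖X i σ + pvtiMean μ O w Y σ‖ₑ ^ 2 * a i σ ∂μ ≤ q⁻¹ * (D * θ) + bad := by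
  have hH : AEMeasurable (fun η => D * Θ η) μ := hΘ.const_mul D
  have hdom : ∀ᵐ η ∂μ, ∑' i, ‖X i η + Y η‖ₑ ^ 2 * a' i η * w η ≤ D * Θ η := by
    filter_upwards [hwD, hrec] with η h1 h2
    calc ∑' i, ‖X i η + Y η‖ₑ ^ 2 * a' i η * w η ≤ ∑' i, D * (‖X i η + Y η‖ₑ ^ 2 * a' i η * S.indicator 1 η) :=
          ENNReal.tsum_le_tsum fun i => (mul_le_mul_right h1 _).trans (le_of_eq (by ring))
      _ = D * ∑' i, ‖X i η + Y η‖ₑ ^ 2 * a' i η * S.indicator 1 η := ENNReal.tsum_mul_left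
      _ ≤ D * Θ η := mul_le_mul_right h2 _
  have k := pvti_n1_fam h hC hOC hXr har hY hw hH hYr hwr hnorm hdom
  rw [lintegral_const_mul'' _ hΘ] at k
  refine hharris.trans ?_
  gcongr
  exact k.trans (mul_le_mul_right hθ _)

end fam

/-! ## 6. THE CORE of N1' (cylinder domination, `W1_208.md` sec. 2) for an abstract resampling -/

section core

variable {Ω Ω' : Type*} [MeasurableSpace Ω] [MeasurableSpace Ω'] {P : Measure Ω} {ν : Ω → Measure Ω'} {r : Ω → Ω' → Ω} {ι : Type*}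

/-- the mean of `Y` under the weight `w` when the sample is `r σ η`, `η ∼ ν σ` -/
noncomputable def pvtiHat (ν : Ω → Measure Ω') (r : Ω → Ω' → Ω) (w : Ω → ℝ≥0∞) (Y : Ω → ℂ) (σ : Ω) : ℂ :=
  ∫ η, Y (r σ η) ∂((ν σ).withDensity fun η => w (r σ η))

theorem pvti_eqns_cite4 : True := by
  have := @pvtiHat.eq_1.{0, 0}
  trivial

/-- **THE CORE**.   `r σ η`, `η ∼ ν σ` = the sample when the `Y`-part is resampled and the rest of `σ` is kept (NO measurability in `σ` is asked; the seed law `ν σ` may depend on `σ`).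
`hfix`: the data `X i`, `a i` are not touched;   `hnorm`: `w` has mass one;   `hdom`: `H` dominates;   `hinv`: invariance, asked only of the majorant `H` and only as an inequality. -/
theorem pvti_core_fam {X : ι → Ω → ℂ} {a : ι → Ω → ℝ≥0∞} {Y : Ω → ℂ} {w H : Ω → ℝ≥0∞}
    (hfix : ∀ᵐ σ ∂P, ∀ᵐ η ∂(ν σ), ∀ i, X i (r σ η) = X i σ ∧ a i (r σ η) = a i σ)
    (hY : ∀ᵐ σ ∂P, AEMeasurable (fun η => Y (r σ η)) (ν σ)) (hw : ∀ᵐ σ ∂P, AEMeasurable (fun η => w (r σ η)) (ν σ))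
    (hnorm : ∀ᵐ σ ∂P, (∃ i, a i σ ≠ 0) → ∫⁻ η, w (r σ η) ∂(ν σ) = 1)
    (hdom : ∀ᵐ σ ∂P, ∀ᵐ η ∂(ν σ), ∑' i, ‖X i (r σ η) + Y (r σ η)‖ₑ ^ 2 * a i (r σ η) * w (r σ η) ≤ H (r σ η))
    (hinv : ∫⁻ σ, ∫⁻ η, H (r σ η) ∂(ν σ) ∂P ≤ ∫⁻ ω, H ω ∂P) :
    ∫⁻ σ, ∑' i, ‖X i σ + pvtiHat ν r w Y σ‖ₑ ^ 2 * a i σ ∂P ≤ ∫⁻ ω, H ω ∂P := by
  refine le_trans (lintegral_mono_ae ?_) hinv
  filter_upwards [hfix, hY, hw, hnorm, hdom] with σ h0 h3 h4 h1 h2
  have hJ : ∀ i, ‖X i σ + pvtiHat ν r w Y σ‖ₑ ^ 2 * a i σ ≤ ∫⁻ η, ‖X i σ + Y (r σ η)‖ₑ ^ 2 * a i σ * w (r σ η) ∂(ν σ) := by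
    intro i
    by_cases hz : a i σ = 0
    · simp [hz]
    have hP : IsProbabilityMeasure ((ν σ).withDensity fun η => w (r σ η)) := ⟨by
      rw [withDensity_apply _ MeasurableSet.univ, Measure.restrict_univ]; exact h1 ⟨i, hz⟩⟩
    have hac : ((ν σ).withDensity fun η => w (r σ η)) ≪ ν σ := withDensity_absolutelyContinuous _ _
    have j := pvti_jensen ((ν σ).withDensity fun η => w (r σ η)) (X i σ) (Y := fun η => Y (r σ η)) (h3.mono_ac hac).aestronglyMeasurable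
    have hm2 : AEMeasurable (fun η => ‖X i σ + Y (r σ η)‖ₑ ^ 2) (ν σ) := (aemeasurable_const.add h3).enorm.pow_const 2
    rw [lintegral_withDensity_eq_lintegral_mul₀ h4 hm2] at j
    have hm3 : AEMeasurable (fun η => w (r σ η) * ‖X i σ + Y (r σ η)‖ₑ ^ 2) (ν σ) := h4.mul hm2
    calc ‖X i σ + pvtiHat ν r w Y σ‖ₑ ^ 2 * a i σ
        ≤ (∫⁻ η, w (r σ η) * ‖X i σ + Y (r σ η)‖ₑ ^ 2 ∂(ν σ)) * a i σ := mul_le_mul_left j _
      _ = ∫⁻ η, w (r σ η) * ‖X i σ + Y (r σ η)‖ₑ ^ 2 * a i σ ∂(ν σ) := (lintegral_mul_const'' _ hm3).symm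
      _ = _ := lintegral_congr fun η => by ring
  have hm : ∀ i, AEMeasurable (fun η => ‖X i σ + Y (r σ η)‖ₑ ^ 2 * a i σ * w (r σ η)) (ν σ) := fun i =>
    (((aemeasurable_const.add h3).enorm.pow_const 2).mul_const _).mul h4
  calc ∑' i, ‖X i σ + pvtiHat ν r w Y σ‖ₑ ^ 2 * a i σ
      ≤ ∑' i, ∫⁻ η, ‖X i σ + Y (r σ η)‖ₑ ^ 2 * a i σ * w (r σ η) ∂(ν σ) := ENNReal.tsum_le_tsum hJ
    _ ≤ ∫⁻ η, ∑' i, ‖X i σ + Y (r σ η)‖ₑ ^ 2 * a i σ * w (r σ η) ∂(ν σ) := pvti_tsum_lintegral_le (ν σ) _ hm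
    _ ≤ ∫⁻ η, H (r σ η) ∂(ν σ) := by
        refine lintegral_mono_ae ?_
        filter_upwards [h0, h2] with η hη hη'
        refine le_trans (le_of_eq ?_) hη'
        refine tsum_congr fun i => ?_
        rw [(hη i).1, (hη i).2]

/-- **N1' (CYLINDER DOMINATION), MODEL FREE**.   `act i` = "the datum `D = i` is actual",   `cn i` = `1_{Cyl D} 1_{NB}`,   `cnw i` = `1_{Cyl D} 1_{NB} 1_{WO}`,   `S` = `SY`,   `w ≤ D 1_S` (`D = q_c⁻¹`),   `Θ` = the closed-sum functional.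
Inputs: `hC1` (actual ⟹ NB),   `hC3` (Harris, with an error term for the bad geometries),   `hC2` (closing + injectivity of `D ↦ P'`),   `hθ` (P1.8). -/
theorem pvti_core_cyl {X : ι → Ω → ℂ} {act cn cnw : ι → Ω → ℝ≥0∞} {Y : Ω → ℂ} {w Θ : Ω → ℝ≥0∞} {S : Set Ω} {D q bad θ : ℝ≥0∞} (hD : D ≠ ∞)
    (hfix : ∀ᵐ σ ∂P, ∀ᵐ η ∂(ν σ), ∀ i, X i (r σ η) = X i σ ∧ cnw i (r σ η) = cnw i σ)
    (hY : ∀ᵐ σ ∂P, AEMeasurable (fun η => Y (r σ η)) (ν σ)) (hw : ∀ᵐ σ ∂P, AEMeasurable (fun η => w (r σ η)) (ν σ))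
    (hnorm : ∀ᵐ σ ∂P, (∃ i, cnw i σ ≠ 0) → ∫⁻ η, w (r σ η) ∂(ν σ) = 1)
    (hwD : ∀ᵐ σ ∂P, ∀ᵐ η ∂(ν σ), w (r σ η) ≤ D * S.indicator 1 (r σ η))
    (hC1 : ∀ᵐ σ ∂P, ∀ i, act i σ ≤ cn i σ)
    (hC3 : ∫⁻ σ, ∑' i, ‖X i σ + pvtiHat ν r w Y σ‖ₑ ^ 2 * cn i σ ∂P ≤ q⁻¹ * ∫⁻ σ, ∑' i, ‖X i σ + pvtiHat ν r w Y σ‖ₑ ^ 2 * cnw i σ ∂P + bad)
    (hC2 : ∀ᵐ σ ∂P, ∀ᵐ η ∂(ν σ), ∑' i, ‖X i (r σ η) + Y (r σ η)‖ₑ ^ 2 * cnw i (r σ η) * S.indicator 1 (r σ η) ≤ Θ (r σ η))
    (hinv : ∫⁻ σ, ∫⁻ η, Θ (r σ η) ∂(ν σ) ∂P ≤ ∫⁻ ω, Θ ω ∂P) (hθ : ∫⁻ ω, Θ ω ∂P ≤ θ) :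
    ∫⁻ σ, ∑' i, ‖X i σ + pvtiHat ν r w Y σ‖ₑ ^ 2 * act i σ ∂P ≤ q⁻¹ * (D * θ) + bad := by
  have hdom : ∀ᵐ σ ∂P, ∀ᵐ η ∂(ν σ), ∑' i, ‖X i (r σ η) + Y (r σ η)‖ₑ ^ 2 * cnw i (r σ η) * w (r σ η) ≤ D * Θ (r σ η) := by
    filter_upwards [hwD, hC2] with σ g1 g2
    filter_upwards [g1, g2] with η h1 h2
    calc ∑' i, ‖X i (r σ η) + Y (r σ η)‖ₑ ^ 2 * cnw i (r σ η) * w (r σ η)
        ≤ ∑' i, D * (‖X i (r σ η) + Y (r σ η)‖ₑ ^ 2 * cnw i (r σ η) * S.indicator 1 (r σ η)) :=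
          ENNReal.tsum_le_tsum fun i => (mul_le_mul_right h1 _).trans (le_of_eq (by ring))
      _ = D * ∑' i, ‖X i (r σ η) + Y (r σ η)‖ₑ ^ 2 * cnw i (r σ η) * S.indicator 1 (r σ η) := ENNReal.tsum_mul_left
      _ ≤ D * Θ (r σ η) := mul_le_mul_right h2 _
  have hinv' : ∫⁻ σ, ∫⁻ η, D * Θ (r σ η) ∂(ν σ) ∂P ≤ ∫⁻ ω, D * Θ ω ∂P := by
    simp_rw [lintegral_const_mul' D _ hD]
    exact mul_le_mul_right hinv _
  have k := pvti_core_fam (H := fun ω => D * Θ ω) hfix hY hw hnorm hdom hinv'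
  rw [lintegral_const_mul' D _ hD] at k
  have h1 : ∫⁻ σ, ∑' i, ‖X i σ + pvtiHat ν r w Y σ‖ₑ ^ 2 * act i σ ∂P ≤ ∫⁻ σ, ∑' i, ‖X i σ + pvtiHat ν r w Y σ‖ₑ ^ 2 * cn i σ ∂P := by
    refine lintegral_mono_ae ?_
    filter_upwards [hC1] with σ hσ
    exact ENNReal.tsum_le_tsum fun i => mul_le_mul_right (hσ i) _
  refine h1.trans (hC3.trans ?_)
  gcongr
  exact k.trans (mul_le_mul_right hθ _)

/-! ### instance: a measurable resampling map with a fixed seed law -/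

variable {P' : Measure Ω'} {R : Ω × Ω' → Ω}

/-- an a.e. property passes to the resampled sample -/
theorem pvti_rs_ae [SFinite P] [SFinite P'] (hR : Measurable R) (hinv : (P.prod P').map R = P) {p : Ω → Prop} (hp : ∀ᵐ ω ∂P, p ω) :
    ∀ᵐ σ ∂P, ∀ᵐ η ∂P', p (R (σ, η)) := by
  rw [← hinv] at hp
  exact Measure.ae_ae_of_ae_prod (ae_of_ae_map hR.aemeasurable hp)

theorem pvti_rs_aemeasurable [SFinite P] [SFinite P'] (hR : Measurable R) (hinv : (P.prod P').map R = P) {β : Type*} [MeasurableSpace β] {f : Ω → β}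
    (hf : AEMeasurable f P) : ∀ᵐ σ ∂P, AEMeasurable (fun η => f (R (σ, η))) P' := by
  filter_upwards [pvti_rs_ae hR hinv hf.ae_eq_mk] with σ hσ
  exact ⟨fun η => hf.mk f (R (σ, η)), hf.measurable_mk.comp (hR.comp (measurable_const.prodMk measurable_id)), hσ⟩

theorem pvti_rs_lintegral [SFinite P] [SFinite P'] (hR : Measurable R) (hinv : (P.prod P').map R = P) {H : Ω → ℝ≥0∞} (hH : AEMeasurable H P) :
    ∫⁻ σ, ∫⁻ η, H (R (σ, η)) ∂P' ∂P = ∫⁻ ω, H ω ∂P := by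
  have hH' : AEMeasurable H ((P.prod P').map R) := by rwa [hinv]
  conv_rhs => rw [← hinv]
  rw [lintegral_map' hH' hR.aemeasurable]
  exact (lintegral_prod _ (hH'.comp_aemeasurable hR.aemeasurable)).symm

/-- **N1', resampling map form**: `R` measurable, `(P ⊗ P').map R = P`;   `X i`, `cnw i` invariant under `R` (pointwise; no measurability);   `Y`, `w`, `Θ` a.e. measurable. -/
theorem pvti_rs_cyl [SFinite P] [SFinite P'] (hR : Measurable R) (hinv : (P.prod P').map R = P)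
    {X : ι → Ω → ℂ} {act cn cnw : ι → Ω → ℝ≥0∞} {Y : Ω → ℂ} {w Θ : Ω → ℝ≥0∞} {S : Set Ω} {D q bad θ : ℝ≥0∞} (hD : D ≠ ∞)
    (hfix : ∀ σ η i, X i (R (σ, η)) = X i σ ∧ cnw i (R (σ, η)) = cnw i σ)
    (hY : AEMeasurable Y P) (hw : AEMeasurable w P) (hΘ : AEMeasurable Θ P)
    (hnorm : ∀ᵐ σ ∂P, (∃ i, cnw i σ ≠ 0) → ∫⁻ η, w (R (σ, η)) ∂P' = 1)
    (hwD : ∀ᵐ ω ∂P, w ω ≤ D * S.indicator 1 ω)
    (hC1 : ∀ᵐ σ ∂P, ∀ i, act i σ ≤ cn i σ)
    (hC3 : ∫⁻ σ, ∑' i, ‖X i σ + pvtiHat (fun _ => P') (fun σ η => R (σ, η)) w Y σ‖ₑ ^ 2 * cn i σ ∂P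
      ≤ q⁻¹ * ∫⁻ σ, ∑' i, ‖X i σ + pvtiHat (fun _ => P') (fun σ η => R (σ, η)) w Y σ‖ₑ ^ 2 * cnw i σ ∂P + bad)
    (hC2 : ∀ᵐ ω ∂P, ∑' i, ‖X i ω + Y ω‖ₑ ^ 2 * cnw i ω * S.indicator 1 ω ≤ Θ ω)
    (hθ : ∫⁻ ω, Θ ω ∂P ≤ θ) :
    ∫⁻ σ, ∑' i, ‖X i σ + pvtiHat (fun _ => P') (fun σ η => R (σ, η)) w Y σ‖ₑ ^ 2 * act i σ ∂P ≤ q⁻¹ * (D * θ) + bad :=
  pvti_core_cyl (ν := fun _ => P') (r := fun σ η => R (σ, η)) hD (ae_of_all _ fun σ => ae_of_all _ fun η i => hfix σ η i)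
    (pvti_rs_aemeasurable hR hinv hY) (pvti_rs_aemeasurable hR hinv hw) hnorm (pvti_rs_ae hR hinv hwD) hC1 hC3 (pvti_rs_ae hR hinv hC2)
    (pvti_rs_lintegral hR hinv hΘ).le hθ

/-- two resamplings in a row are a resampling -/
theorem pvti_rs_comp {Ω'' : Type*} [MeasurableSpace Ω''] {P'' : Measure Ω''} [SFinite P] [SFinite P'] [SFinite P''] {R' : Ω × Ω'' → Ω}
    (hR : Measurable R) (hinv : (P.prod P').map R = P) (hR' : Measurable R') (hinv' : (P.prod P'').map R' = P) :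
    (P.prod (P'.prod P'')).map (fun x => R' (R (x.1, x.2.1), x.2.2)) = P := by
  have e : (fun x : Ω × Ω' × Ω'' => R' (R (x.1, x.2.1), x.2.2)) = R' ∘ (Prod.map R id) ∘ MeasurableEquiv.prodAssoc.symm := by
    funext x; rfl
  have hm : Measurable (Prod.map R (id : Ω'' → Ω'')) := hR.prodMap measurable_id
  rw [e, ← Measure.map_map hR' (hm.comp MeasurableEquiv.prodAssoc.symm.measurable), ← Measure.map_map hm MeasurableEquiv.prodAssoc.symm.measurable]
  have e1 : (P.prod (P'.prod P'')).map MeasurableEquiv.prodAssoc.symm = (P.prod P').prod P'' := by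
    rw [← Measure.prodAssoc_prod, Measure.map_map MeasurableEquiv.prodAssoc.symm.measurable MeasurableEquiv.prodAssoc.measurable]
    simp
  rw [e1, ← Measure.map_prod_map _ _ hR measurable_id, hinv, Measure.map_id, hinv']

end core

/-! ## 7. lines 1-3 of the domination chain with a LOCAL PREPARATION (D1 of `ref_131.md`): actual sample → prepared sample → the law `P` -/

section prep

variable {Ω Ωs : Type*} [MeasurableSpace Ω] [MeasurableSpace Ωs] {P : Measure Ω} {Q : Measure Ωs} {prep : Ωs → Ω} {C : ℝ≥0∞} {ι : Type*}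

/-- the only property of the preparation kernel which is used: the law of the prepared sample is `≤ C P` -/
theorem pvti_prep_lintegral (hp : AEMeasurable prep Q) (hC : Q.map prep ≤ C • P) {F : Ω → ℝ≥0∞} (hF : AEMeasurable F P) :
    ∫⁻ x, F (prep x) ∂Q ≤ C * ∫⁻ ω, F ω ∂P := by
  have hF' : AEMeasurable F (Q.map prep) := hF.mono_ac (Measure.absolutelyContinuous_of_le_smul hC)
  calc ∫⁻ x, F (prep x) ∂Q = ∫⁻ ω, F ω ∂(Q.map prep) := (lintegral_map' hF' hp).symm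
    _ ≤ ∫⁻ ω, F ω ∂(C • P) := lintegral_mono' hC le_rfl
    _ = C * ∫⁻ ω, F ω ∂P := by rw [lintegral_smul_measure, smul_eq_mul]

theorem pvti_prep_measure (hp : AEMeasurable prep Q) (hC : Q.map prep ≤ C • P) (A : Set Ω) : Q (prep ⁻¹' A) ≤ C * P A :=
  (Measure.le_map_apply hp A).trans ((hC A).trans (le_of_eq (by rw [Measure.smul_apply, smul_eq_mul])))

/-- **Chebyshev after preparation**.   `Ωs` carries the sample and the seeds;   `act i x`: the arc `i` is the actual arc of the pattern;   `hact`: then the arc events hold for the PREPARED sample. -/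
theorem pvti_prep_cheb (hp : AEMeasurable prep Q) (hC : Q.map prep ≤ C • P) {X : ι → Ω → ℂ} {a : ι → Ω → ℝ≥0∞} {y : Ω → ℂ} {act : ι → Ωs → Prop}
    (hact : ∀ i x, act i x → 1 ≤ a i (prep x)) (hF : AEMeasurable (fun ω => ∑' i, ‖X i ω + y ω‖ₑ ^ 2 * a i ω) P)
    {u M : ℝ≥0∞} (hu0 : u ≠ 0) (hu1 : u ≠ ∞) (hM : ∫⁻ ω, ∑' i, ‖X i ω + y ω‖ₑ ^ 2 * a i ω ∂P ≤ M) :
    Q {x | ∃ i, act i x ∧ u ≤ ‖X i (prep x) + y (prep x)‖ₑ} ≤ C * M / u ^ 2 := by
  have hF' : AEMeasurable (fun x => ∑' i, ‖X i (prep x) + y (prep x)‖ₑ ^ 2 * a i (prep x)) Q :=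
    (hF.mono_ac (Measure.absolutelyContinuous_of_le_smul hC)).comp_aemeasurable hp
  have hsub : {x | ∃ i, act i x ∧ u ≤ ‖X i (prep x) + y (prep x)‖ₑ} ⊆ {x | u ^ 2 ≤ ∑' i, ‖X i (prep x) + y (prep x)‖ₑ ^ 2 * a i (prep x)} := by
    rintro x ⟨i, hi, hu⟩
    calc u ^ 2 ≤ ‖X i (prep x) + y (prep x)‖ₑ ^ 2 * 1 := by rw [mul_one]; exact pow_le_pow_left₀ zero_le hu 2
      _ ≤ ‖X i (prep x) + y (prep x)‖ₑ ^ 2 * a i (prep x) := mul_le_mul_right (hact i x hi) _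
      _ ≤ _ := ENNReal.le_tsum i
  refine (measure_mono hsub).trans ((meas_ge_le_lintegral_div hF' (pow_ne_zero 2 hu0) (ENNReal.pow_ne_top hu1)).trans ?_)
  gcongr
  exact (pvti_prep_lintegral hp hC hF).trans (mul_le_mul_right hM _)

/-- **TR23 ON ROAD P, MODEL FREE** = the five lines of D1 (`ref_131.md`):   actual arc → prepared sample (`hact`, `hC`) → the law `μ` → Harris (`hharris`) → Jensen with the cycle weight (`pvti_n1_fam`) → recognition (`hrec`) → closed-sum tail (`hθ`). -/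
theorem pvti_tr23 {E : Type*} [MeasurableSpace E] {m : Measure E} {μ : Measure (Conf E)} {O C0 : Set E} {prep : Ωs → Conf E}
    (h : IsPpp m μ) (hC0 : MeasurableSet C0) (hOC : Disjoint O C0) (hp : AEMeasurable prep Q) (hC : Q.map prep ≤ C • μ)
    {X : ι → Conf E → ℂ} {a a' : ι → Conf E → ℝ≥0∞} {Y : Conf E → ℂ} {w Θ : Conf E → ℝ≥0∞} {S : Set (Conf E)} {D q bad θ u : ℝ≥0∞} {act : ι → Ωs → Prop}
    (hact : ∀ i x, act i x → 1 ≤ a i (prep x))
    (hF : AEMeasurable (fun η => ∑' i, ‖X i η + pvtiMean μ O w Y η‖ₑ ^ 2 * a i η) μ)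
    (hXr : ∀ i, Conf.Reads C0ᶜ (X i)) (har : ∀ i, Conf.Reads C0ᶜ (a' i)) (hY : AEMeasurable Y μ) (hw : AEMeasurable w μ) (hΘ : AEMeasurable Θ μ)
    (hYr : Conf.Reads (O ∪ C0) Y) (hwr : Conf.Reads (O ∪ C0) w)
    (hnorm : ∀ᵐ σ ∂μ, (∃ i, a' i σ ≠ 0) → ∫⁻ η, w (Conf.spl O (σ, η)) ∂μ = 1)
    (hwD : ∀ᵐ η ∂μ, w η ≤ D * S.indicator 1 η)
    (hharris : ∫⁻ σ, ∑' i, ‖X i σ + pvtiMean μ O w Y σ‖ₑ ^ 2 * a i σ ∂μ ≤ q⁻¹ * ∫⁻ σ, ∑' i, ‖X i σ + pvtiMean μ O w Y σ‖ₑ ^ 2 * a' i σ ∂μ + bad)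
    (hrec : ∀ᵐ η ∂μ, ∑' i, ‖X i η + Y η‖ₑ ^ 2 * a' i η * S.indicator 1 η ≤ Θ η)
    (hθ : ∫⁻ η, Θ η ∂μ ≤ θ) (hu0 : u ≠ 0) (hu1 : u ≠ ∞) :
    Q {x | ∃ i, act i x ∧ u ≤ ‖X i (prep x) + pvtiMean μ O w Y (prep x)‖ₑ} ≤ C * (q⁻¹ * (D * θ) + bad) / u ^ 2 :=
  pvti_prep_cheb hp hC hact hF hu0 hu1 (pvti_pattern h hC0 hOC hXr har hY hw hΘ hYr hwr hnorm hwD hharris hrec hθ)

end prep

end Claimed.Agent.R289
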