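import Claimed.Agent.R289.Del.Main
import Claimed.Agent.R289.Vor.Cov
import Claimed.Agent.R289.Tr.Ind

/-!
# Row 289 (S0537), box TR-IND, file Tr/Ret : LOCALITY THROUGH RETAINED TRIANGLES      (owner helper220, post of helper141; prefix `pvtr_`, `pvtr`, `PvRet`)

Sec. 1 of `origin/helper140:notes/R289/wall_140.md`:   `R(E)` := the triangles `a b c` of points of `ω|E` whose circumdisc has radius `≤ ρ`, lies in `E` and contains no point of `ω|E`.
It is a function of `ω|E`, every such triangle is a Delaunay triangle of the FULL `ω`, and on the mesh event all Delaunay triangles which meet the core of `E` are retained.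
Deterministic part on `Y : Set ℂ` (vocabulary of `Vor/Basic`, `Del/Apex`, `Del/Main`), then the `Conf PvPt` form with `Conf.Reads` of `Tr/Ind` (141).
* §0 `PvRet ρ E Y a b c`, `pvtrCore r E = {z | closedBall z r ⊆ E}`, `pvtrSet ρ E η` (the COLOURED retained triangles of a configuration), `PvtrMesh ρ E Y` (mesh event read in `E`)
* §1 (1) `pvtr_reads`, `pvtr_congr`   (2) `PvRet.tri`   (4) `PvRet.mono`, `PvRet.mono_rad`;   `PvRet.cyc`, `PvRet.unique`, vertices / circumdisc / closed triangle inside `E`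
* §2 (3) **`pvtr_of_tri`** : mesh near `x`, `x` in the closed circumdisc, `closedBall x (2ρ) ⊆ E`  ⟹  retained;   forms `pvtr_of_vertex`, `pvtr_of_centre`, `pvtr_of_hull`;   `pvtr_iff_tri`;   **`pvtr_loc`** (two site sets equal on `E`)
* §3 cores and the mesh event:  `pvtr_mesh_reads`, `PvtrMesh.dense`, `pvtr_of_mesh`
* §4 covariance under the similarities `vorSim α β`
* §5 (5) `Conf` form:  `pvtr_reads_ret`, `pvtr_reads_col`, `pvtr_reads_set`, `pvtr_reads_mesh`, `pvtr_reads_of_set` (every function of the coloured retained triangles reads `E ×ˢ univ`), `pvtr_set_spl`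
-/

set_option autoImplicit false

namespace Claimed.Agent.R289

open Set Metric

/-! ## 0. definitions -/

/-- **retained triangle**: positively oriented triangle of sites of `Y ∩ E`, circumradius `≤ ρ`, closed circumdisc inside `E`, no site of `Y ∩ E` in the open circumdisc -/
def PvRet (ρ : ℝ) (E Y : Set ℂ) (a b c : ℂ) : Prop :=
  a ∈ Y ∩ E ∧ b ∈ Y ∩ E ∧ c ∈ Y ∩ E ∧ 0 < vorDet a b c ∧ ‖delO a b c - a‖ ≤ ρ ∧
    closedBall (delO a b c) ‖delO a b c - a‖ ⊆ E ∧ ∀ w ∈ Y ∩ E, ‖delO a b c - a‖ ≤ ‖delO a b c - w‖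

/-- the `r`-core of `E` -/
def pvtrCore (r : ℝ) (E : Set ℂ) : Set ℂ := {z | closedBall z r ⊆ E}

/-- the mesh event, READ IN `E`: every point of the `ρ`-core of `E` has a site at distance `≤ ρ` -/
def PvtrMesh (ρ : ℝ) (E Y : Set ℂ) : Prop := VorDense Y (pvtrCore ρ E) ρ

/-- the COLOURED retained triangles of a configuration -/
def pvtrSet (ρ : ℝ) (E : Set ℂ) (η : Conf PvPt) : Set (PvPt × PvPt × PvPt) :=
  {t | t.1 ∈ η.pts ∧ t.2.1 ∈ η.pts ∧ t.2.2 ∈ η.pts ∧ PvRet ρ E (cfSites η) t.1.1 t.2.1.1 t.2.2.1}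

theorem pvtr_eqns_cite : True := by
  have := @PvRet.eq_1
  have := @pvtrCore.eq_1
  have := @PvtrMesh.eq_1
  have := @pvtrSet.eq_1
  trivial

variable {ρ ρ' r r' : ℝ} {E E' Y Y' : Set ℂ} {a b c x : ℂ}

/-! ## 1. reading, Delaunay, monotonicity -/

/-- (1) the retained triangles are read from `Y ∩ E` -/
theorem pvtr_reads (ρ : ℝ) (E Y : Set ℂ) (a b c : ℂ) : PvRet ρ E (Y ∩ E) a b c ↔ PvRet ρ E Y a b c := by
  unfold PvRet
  rw [inter_assoc, inter_self]

/-- (4b) two site sets equal on `E` have the same retained triangles -/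
theorem pvtr_congr (h : Y ∩ E = Y' ∩ E) : PvRet ρ E Y a b c ↔ PvRet ρ E Y' a b c := by
  rw [← pvtr_reads ρ E Y, ← pvtr_reads ρ E Y', h]

theorem PvRet.left (h : PvRet ρ E Y a b c) : 0 < vorDet a b c := h.2.2.2.1

theorem PvRet.rad_le (h : PvRet ρ E Y a b c) : ‖delO a b c - a‖ ≤ ρ := h.2.2.2.2.1

theorem PvRet.disc_subset (h : PvRet ρ E Y a b c) : closedBall (delO a b c) ‖delO a b c - a‖ ⊆ E := h.2.2.2.2.2.1

theorem PvRet.centre_mem (h : PvRet ρ E Y a b c) : delO a b c ∈ E :=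
  h.disc_subset (mem_closedBall_self (norm_nonneg _))

/-- the circumdisc is empty of ALL the sites of `Y` -/
theorem PvRet.empty (h : PvRet ρ E Y a b c) : ∀ w ∈ Y, ‖delO a b c - a‖ ≤ ‖delO a b c - w‖ := fun w hw => by
  by_cases hE : w ∈ E
  · exact h.2.2.2.2.2.2 w ⟨hw, hE⟩
  · by_contra hlt
    refine hE (h.disc_subset ?_)
    rw [mem_closedBall, dist_eq_norm, norm_sub_rev]
    exact (not_le.1 hlt).le

/-- (2) **every retained triangle is a Delaunay triangle of the full site set** -/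
theorem PvRet.tri (h : PvRet ρ E Y a b c) : DelTri Y a b c :=
  del_tri_iff.2 ⟨h.1.1, h.2.1.1, h.2.2.1.1, h.left, h.empty⟩

/-- retained = Delaunay + small circumdisc inside `E` -/
theorem pvtr_iff : PvRet ρ E Y a b c ↔ DelTri Y a b c ∧ ‖delO a b c - a‖ ≤ ρ ∧ closedBall (delO a b c) ‖delO a b c - a‖ ⊆ E := by
  constructor
  · exact fun h => ⟨h.tri, h.rad_le, h.disc_subset⟩
  · rintro ⟨h, h1, h2⟩
    have ha : a ∈ E := h2 (by rw [mem_closedBall, dist_eq_norm, norm_sub_rev])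
    have hb : b ∈ E := h2 (by rw [mem_closedBall, dist_eq_norm, norm_sub_rev, del_O_ab])
    have hc : c ∈ E := h2 (by rw [mem_closedBall, dist_eq_norm, norm_sub_rev, del_O_ac h.left.ne'])
    exact ⟨⟨h.1, ha⟩, ⟨h.2.1, hb⟩, ⟨h.2.2.1, hc⟩, h.left, h1, h2, fun w hw => h.empty w hw.1⟩

/-- (4a) monotone in `E` -/
theorem PvRet.mono (h : PvRet ρ E Y a b c) (hE : E ⊆ E') : PvRet ρ E' Y a b c :=
  pvtr_iff.2 ⟨h.tri, h.rad_le, h.disc_subset.trans hE⟩

theorem PvRet.mono_rad (h : PvRet ρ E Y a b c) (hρ : ρ ≤ ρ') : PvRet ρ' E Y a b c :=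
  pvtr_iff.2 ⟨h.tri, h.rad_le.trans hρ, h.disc_subset⟩

/-- retained for `E` and inside `E' ⊆ E`: retained for `E'` -/
theorem PvRet.shrink (h : PvRet ρ E Y a b c) (hE : closedBall (delO a b c) ‖delO a b c - a‖ ⊆ E') : PvRet ρ E' Y a b c :=
  pvtr_iff.2 ⟨h.tri, h.rad_le, hE⟩

theorem PvRet.cyc (h : PvRet ρ E Y a b c) : PvRet ρ E Y b c a := by
  have e : delO b c a = delO a b c := del_O_rot h.left.ne'
  refine pvtr_iff.2 ⟨del_tri_cyc h.tri, ?_, ?_⟩
  · rw [e, ← del_O_ab]; exact h.rad_le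
  · rw [e, ← del_O_ab]; exact h.disc_subset

theorem PvRet.unique (gp : VorGP Y) {c' : ℂ} (h : PvRet ρ E Y a b c) (h' : PvRet ρ' E' Y a b c') : c = c' :=
  del_tri_unique gp h.tri h'.tri

theorem PvRet.mem_a (h : PvRet ρ E Y a b c) : a ∈ Y ∩ E := h.1
theorem PvRet.mem_b (h : PvRet ρ E Y a b c) : b ∈ Y ∩ E := h.2.1
theorem PvRet.mem_c (h : PvRet ρ E Y a b c) : c ∈ Y ∩ E := h.2.2.1

/-- the three vertices lie in the closed circumdisc -/
theorem pvtr_vertices_disc (h : vorDet a b c ≠ 0) : ({a, b, c} : Set ℂ) ⊆ closedBall (delO a b c) ‖delO a b c - a‖ := by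
  rintro w (rfl | rfl | rfl)
  · rw [mem_closedBall, dist_eq_norm, norm_sub_rev]
  · rw [mem_closedBall, dist_eq_norm, norm_sub_rev, del_O_ab]
  · rw [mem_closedBall, dist_eq_norm, norm_sub_rev, del_O_ac h]

/-- the closed triangle lies in the closed circumdisc -/
theorem pvtr_hull_disc (h : vorDet a b c ≠ 0) : convexHull ℝ ({a, b, c} : Set ℂ) ⊆ closedBall (delO a b c) ‖delO a b c - a‖ :=
  convexHull_min (pvtr_vertices_disc h) (convex_closedBall _ _)

/-- the closed triangle of a retained triangle lies in `E` -/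
theorem PvRet.hull_subset (h : PvRet ρ E Y a b c) : convexHull ℝ ({a, b, c} : Set ℂ) ⊆ E :=
  (pvtr_hull_disc h.left.ne').trans h.disc_subset

/-- sides of a retained triangle are short -/
theorem PvRet.side_le (h : PvRet ρ E Y a b c) : ‖a - b‖ ≤ 2 * ρ := by
  have h1 := h.rad_le
  have h2 : ‖delO a b c - b‖ ≤ ρ := by rw [← del_O_ab]; exact h1
  calc ‖a - b‖ = ‖(delO a b c - b) - (delO a b c - a)‖ := by congr 1; ring
    _ ≤ ‖delO a b c - b‖ + ‖delO a b c - a‖ := norm_sub_le _ _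
    _ ≤ 2 * ρ := by linarith

/-! ## 2. on the mesh event the Delaunay triangles near the core are retained -/

/-- the circumradius of a Delaunay triangle whose closed circumdisc contains `x` is `≤ ρ` as soon as the sites are `ρ`-dense in `closedBall x (2ρ)` -/
theorem pvtr_radius (hρ : 0 < ρ) (hd : VorDense Y (closedBall x (2 * ρ)) ρ) (h : DelTri Y a b c) (hx : ‖x - delO a b c‖ ≤ ‖delO a b c - a‖) :
    ‖delO a b c - a‖ ≤ ρ := by
  by_contra hlt
  rw [not_le] at hlt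
  set O := delO a b c with hO
  by_cases hs : ‖x - O‖ ≤ 2 * ρ
  · obtain ⟨u, hu, hu'⟩ := hd O (by rw [mem_closedBall, dist_eq_norm, norm_sub_rev]; exact hs)
    have := h.empty u hu
    linarith
  · rw [not_le] at hs
    have hs0 : 0 < ‖x - O‖ := by linarith
    set θ : ℝ := 2 * ρ / ‖x - O‖ with hθ
    have hθ1 : θ * ‖x - O‖ = 2 * ρ := by rw [hθ]; field_simp
    have hθ0 : 0 ≤ θ := by rw [hθ]; positivity
    have hθle : θ ≤ 1 := by rw [hθ, div_le_one hs0]; exact hs.le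
    set y : ℂ := x + (θ : ℂ) * (O - x) with hy
    have hyx : ‖y - x‖ = 2 * ρ := by
      have : y - x = (θ : ℂ) * (O - x) := by rw [hy]; ring
      rw [this, norm_mul, Complex.norm_real, Real.norm_of_nonneg hθ0, norm_sub_rev, hθ1]
    have hyO : ‖O - y‖ = ‖x - O‖ - 2 * ρ := by
      have : O - y = ((1 - θ : ℝ) : ℂ) * (O - x) := by rw [hy]; push_cast; ring
      rw [this, norm_mul, Complex.norm_real, Real.norm_of_nonneg (by linarith), norm_sub_rev O x]
      linarith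
    obtain ⟨u, hu, hu'⟩ := hd y (by rw [mem_closedBall, dist_eq_norm, hyx])
    have h1 := h.empty u hu
    have h2 : ‖O - u‖ ≤ ‖O - y‖ + ‖y - u‖ := by
      have : O - u = (O - y) + (y - u) := by ring
      rw [this]; exact norm_add_le _ _
    linarith

/-- (3) **mesh ⟹ retained**: `x` in the closed circumdisc, sites `ρ`-dense in `closedBall x (2ρ) ⊆ E` -/
theorem pvtr_of_tri (hρ : 0 < ρ) (hd : VorDense Y (closedBall x (2 * ρ)) ρ) (hE : closedBall x (2 * ρ) ⊆ E) (h : DelTri Y a b c)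
    (hx : ‖x - delO a b c‖ ≤ ‖delO a b c - a‖) : PvRet ρ E Y a b c := by
  have hr := pvtr_radius hρ hd h hx
  refine pvtr_iff.2 ⟨h, hr, fun w hw => hE ?_⟩
  rw [mem_closedBall, dist_eq_norm] at hw ⊢
  have : w - x = (w - delO a b c) - (x - delO a b c) := by ring
  rw [this]
  have := norm_sub_le (w - delO a b c) (x - delO a b c)
  linarith

/-- (3), a vertex in the core -/
theorem pvtr_of_vertex (hρ : 0 < ρ) (hd : VorDense Y (closedBall a (2 * ρ)) ρ) (hE : closedBall a (2 * ρ) ⊆ E) (h : DelTri Y a b c) : PvRet ρ E Y a b c :=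
  pvtr_of_tri hρ hd hE h (by rw [norm_sub_rev])

/-- (3), the circumcentre in the core -/
theorem pvtr_of_centre (hρ : 0 < ρ) (hd : VorDense Y (closedBall (delO a b c) (2 * ρ)) ρ) (hE : closedBall (delO a b c) (2 * ρ) ⊆ E) (h : DelTri Y a b c) :
    PvRet ρ E Y a b c :=
  pvtr_of_tri hρ hd hE h (by rw [sub_self, norm_zero]; exact norm_nonneg _)

/-- (3), a point of the closed triangle in the core -/
theorem pvtr_of_hull (hρ : 0 < ρ) (hd : VorDense Y (closedBall x (2 * ρ)) ρ) (hE : closedBall x (2 * ρ) ⊆ E) (h : DelTri Y a b c)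
    (hx : x ∈ convexHull ℝ ({a, b, c} : Set ℂ)) : PvRet ρ E Y a b c :=
  pvtr_of_tri hρ hd hE h (by have := pvtr_hull_disc h.left.ne' hx; rwa [mem_closedBall, dist_eq_norm] at this)

/-- near the core: retained ⟺ Delaunay -/
theorem pvtr_iff_tri (hρ : 0 < ρ) (hd : VorDense Y (closedBall x (2 * ρ)) ρ) (hE : closedBall x (2 * ρ) ⊆ E) (hx : ‖x - delO a b c‖ ≤ ‖delO a b c - a‖) :
    PvRet ρ E Y a b c ↔ DelTri Y a b c :=
  ⟨PvRet.tri, fun h => pvtr_of_tri hρ hd hE h hx⟩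

/-- **LOC**: two site sets which agree on `E`, the first one dense near `x`: the same Delaunay triangles around `x` -/
theorem pvtr_loc (hρ : 0 < ρ) (hYY : Y ∩ E = Y' ∩ E) (hd : VorDense Y (closedBall x (2 * ρ)) ρ) (hE : closedBall x (2 * ρ) ⊆ E)
    (hx : ‖x - delO a b c‖ ≤ ‖delO a b c - a‖) (h : DelTri Y a b c) : DelTri Y' a b c :=
  ((pvtr_congr hYY).1 (pvtr_of_tri hρ hd hE h hx)).tri

/-! ## 3. cores and the mesh event -/

theorem pvtr_mem_core : x ∈ pvtrCore r E ↔ closedBall x r ⊆ E := Iff.rfl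

theorem pvtr_core_subset (hr : 0 ≤ r) : pvtrCore r E ⊆ E := fun _ hz => hz (mem_closedBall_self hr)

theorem pvtr_core_mono (hE : E ⊆ E') : pvtrCore r E ⊆ pvtrCore r E' := fun _ hz => hz.trans hE

theorem pvtr_core_anti (hr : r ≤ r') : pvtrCore r' E ⊆ pvtrCore r E := fun _ hz => (closedBall_subset_closedBall hr).trans hz

/-- `closedBall x s ⊆ core r E` for `x` in the `(r + s)`-core -/
theorem pvtr_ball_core {s : ℝ} (hx : x ∈ pvtrCore (r + s) E) : closedBall x s ⊆ pvtrCore r E := fun y hy w hw => by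
  refine hx ?_
  rw [mem_closedBall] at hy hw ⊢
  have := dist_triangle w y x
  linarith

theorem pvtr_core_core {s : ℝ} : pvtrCore (r + s) E ⊆ pvtrCore s (pvtrCore r E) := fun _ hx => pvtr_ball_core hx

theorem pvtr_core_inter : pvtrCore r (E ∩ E') = pvtrCore r E ∩ pvtrCore r E' := by
  ext z
  simp only [pvtrCore, mem_ofPred_eq, subset_inter_iff, mem_inter_iff]

theorem pvtr_core_univ : pvtrCore r (univ : Set ℂ) = univ := by
  ext z
  simp only [pvtrCore, mem_ofPred_eq, subset_univ, mem_univ]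

/-- the mesh event is read from `Y ∩ E` -/
theorem pvtr_mesh_reads (ρ : ℝ) (E Y : Set ℂ) : PvtrMesh ρ E (Y ∩ E) ↔ PvtrMesh ρ E Y := by
  constructor
  · exact fun h => h.mono inter_subset_left Subset.rfl le_rfl
  · intro h z hz
    obtain ⟨u, hu, hu'⟩ := h z hz
    exact ⟨u, ⟨hu, hz (by rw [mem_closedBall, dist_eq_norm, norm_sub_rev]; exact hu')⟩, hu'⟩

theorem pvtr_mesh_congr (h : Y ∩ E = Y' ∩ E) : PvtrMesh ρ E Y ↔ PvtrMesh ρ E Y' := by
  rw [← pvtr_mesh_reads ρ E Y, ← pvtr_mesh_reads ρ E Y', h]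

theorem PvtrMesh.dense (h : PvtrMesh ρ E Y) (hx : x ∈ pvtrCore (3 * ρ) E) : VorDense Y (closedBall x (2 * ρ)) ρ :=
  VorDense.mono h Subset.rfl (pvtr_ball_core (by have : ρ + 2 * ρ = 3 * ρ := by ring
                                                 rwa [this])) le_rfl

theorem VorDense.pvtrMesh {K : Set ℂ} (h : VorDense Y K ρ) (hK : pvtrCore ρ E ⊆ K) : PvtrMesh ρ E Y := h.mono Subset.rfl hK le_rfl

/-- (3) in the form of the mesh event: all Delaunay triangles whose closed circumdisc meets the `3ρ`-core of `E` are retained -/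
theorem pvtr_of_mesh (hρ : 0 < ρ) (hm : PvtrMesh ρ E Y) (hx : x ∈ pvtrCore (3 * ρ) E) (h : DelTri Y a b c)
    (hxO : ‖x - delO a b c‖ ≤ ‖delO a b c - a‖) : PvRet ρ E Y a b c :=
  pvtr_of_tri hρ (hm.dense hx) ((closedBall_subset_closedBall (by linarith)).trans hx) h hxO

theorem pvtr_of_mesh_vertex (hρ : 0 < ρ) (hm : PvtrMesh ρ E Y) (ha : a ∈ pvtrCore (3 * ρ) E) (h : DelTri Y a b c) : PvRet ρ E Y a b c :=
  pvtr_of_mesh hρ hm ha h (by rw [norm_sub_rev])

theorem pvtr_of_mesh_hull (hρ : 0 < ρ) (hm : PvtrMesh ρ E Y) (hx : x ∈ pvtrCore (3 * ρ) E) (h : DelTri Y a b c)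
    (hxT : x ∈ convexHull ℝ ({a, b, c} : Set ℂ)) : PvRet ρ E Y a b c :=
  pvtr_of_mesh hρ hm hx h (by have := pvtr_hull_disc h.left.ne' hxT; rwa [mem_closedBall, dist_eq_norm] at this)

/-- **LOC on the mesh event** (symmetric form: the mesh event itself is read in `E`) -/
theorem pvtr_loc_mesh (hρ : 0 < ρ) (hYY : Y ∩ E = Y' ∩ E) (hm : PvtrMesh ρ E Y) (hx : x ∈ pvtrCore (3 * ρ) E)
    (hxO : ‖x - delO a b c‖ ≤ ‖delO a b c - a‖) : DelTri Y a b c ↔ DelTri Y' a b c :=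
  ⟨fun h => ((pvtr_congr hYY).1 (pvtr_of_mesh hρ hm hx h hxO)).tri,
    fun h => ((pvtr_congr hYY).2 (pvtr_of_mesh hρ ((pvtr_mesh_congr hYY).1 hm) hx h hxO)).tri⟩

/-- on the mesh event the cell of a site of the `3ρ`-core is small -/
theorem pvtr_cell_small (hρ : 0 < ρ) (hm : PvtrMesh ρ E Y) (ha : a ∈ pvtrCore (3 * ρ) E) : vorCell Y a ⊆ closedBall a ρ :=
  vor_cell_subset_ball hρ.le (by linarith : ρ < 2 * ρ) (hm.dense ha)

/-! ## 4. covariance under similarities -/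

theorem pvtr_O_sim {α : ℂ} (hα : α ≠ 0) (β : ℂ) (h : vorDet a b c ≠ 0) :
    delO (vorSim α β a) (vorSim α β b) (vorSim α β c) = vorSim α β (delO a b c) := by
  have hdet : vorDet (vorSim α β a) (vorSim α β b) (vorSim α β c) ≠ 0 := by
    rw [vor_sim_det]
    exact mul_ne_zero (pow_ne_zero 2 (norm_ne_zero_iff.2 hα)) h
  refine (del_O_unique hdet ?_ ?_).symm
  · rw [vorSim_norm, vorSim_norm, del_O_ab]
  · rw [vorSim_norm, vorSim_norm, del_O_ac h]

theorem pvtr_tri_sim {α : ℂ} (hα : α ≠ 0) (β : ℂ) :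
    DelTri (vorSim α β '' Y) (vorSim α β a) (vorSim α β b) (vorSim α β c) ↔ DelTri Y a b c := by
  have hpos : 0 < ‖α‖ ^ 2 := pow_pos (norm_pos_iff.2 hα) 2
  unfold DelTri
  rw [vor_sim_mem_image hα, vor_sim_mem_image hα, vor_sim_mem_image hα, vor_sim_det, vor_sim_cell Y a hα, vor_sim_cell Y b hα, vor_sim_cell Y c hα,
    ← image_inter (vorSim_injective hα β), ← image_inter (vorSim_injective hα β), image_nonempty, mul_pos_iff_of_pos_left hpos]

/-- **covariance of the retained triangles** -/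
theorem pvtr_sim {α : ℂ} (hα : α ≠ 0) (β : ℂ) :
    PvRet (‖α‖ * ρ) (vorSim α β '' E) (vorSim α β '' Y) (vorSim α β a) (vorSim α β b) (vorSim α β c) ↔ PvRet ρ E Y a b c := by
  have hn : 0 < ‖α‖ := norm_pos_iff.2 hα
  have hS := vorc_sim_vorSim α β hα
  rw [pvtr_iff, pvtr_iff, pvtr_tri_sim hα β]
  refine and_congr_right fun h => ?_
  rw [pvtr_O_sim hα β h.left.ne', vorSim_norm, ← hS.image_closedBall, image_subset_image_iff (vorSim_injective hα β), mul_le_mul_iff_right₀ hn]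

theorem pvtr_core_sim {α : ℂ} (hα : α ≠ 0) (β : ℂ) : pvtrCore (‖α‖ * r) (vorSim α β '' E) = vorSim α β '' pvtrCore r E := by
  have hS := vorc_sim_vorSim α β hα
  ext z
  obtain ⟨w, rfl⟩ := vorSim_surjective hα β z
  rw [vor_sim_mem_image hα, pvtr_mem_core, pvtr_mem_core, ← hS.image_closedBall, image_subset_image_iff (vorSim_injective hα β)]

theorem pvtr_mesh_sim {α : ℂ} (hα : α ≠ 0) (β : ℂ) : PvtrMesh (‖α‖ * ρ) (vorSim α β '' E) (vorSim α β '' Y) ↔ PvtrMesh ρ E Y := by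
  unfold PvtrMesh
  rw [pvtr_core_sim hα β]
  exact vorc_dense (vorc_sim_vorSim α β hα)

/-! ## 5. the `Conf` form -/

theorem pvtr_sites_restr (E : Set ℂ) (η : Conf PvPt) : cfSites (Conf.restr (E ×ˢ univ) η) = cfSites η ∩ E := by
  ext z
  simp only [cfSites, Conf.restr, mem_image, mem_inter_iff, mem_prod, mem_univ, and_true]
  constructor
  · rintro ⟨p, ⟨hp, hE⟩, rfl⟩
    exact ⟨⟨p, hp, rfl⟩, hE⟩
  · rintro ⟨⟨p, hp, rfl⟩, hE⟩
    exact ⟨p, ⟨hp, hE⟩, rfl⟩

/-- (5) the retained triangles of a configuration read `E ×ˢ univ` -/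
theorem pvtr_reads_ret (ρ : ℝ) (E : Set ℂ) (a b c : ℂ) : Conf.Reads (E ×ˢ univ) (fun η : Conf PvPt => PvRet ρ E (cfSites η) a b c) := fun η => by
  show PvRet ρ E (cfSites (Conf.restr (E ×ˢ univ) η)) a b c = PvRet ρ E (cfSites η) a b c
  rw [pvtr_sites_restr, pvtr_reads]

/-- (5) the mesh event reads `E ×ˢ univ` -/
theorem pvtr_reads_mesh (ρ : ℝ) (E : Set ℂ) : Conf.Reads (E ×ˢ univ) (fun η : Conf PvPt => PvtrMesh ρ E (cfSites η)) := fun η => by
  show PvtrMesh ρ E (cfSites (Conf.restr (E ×ˢ univ) η)) = PvtrMesh ρ E (cfSites η)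
  rw [pvtr_sites_restr, pvtr_mesh_reads]

/-- (5) the colour of a point of `E` reads `E ×ˢ univ` -/
theorem pvtr_reads_col {v : ℂ} (hv : v ∈ E) (k : Bool) : Conf.Reads (E ×ˢ univ) (fun η : Conf PvPt => (v, k) ∈ η.pts) := fun η => by
  show ((v, k) ∈ η.pts ∩ E ×ˢ univ) = ((v, k) ∈ η.pts)
  simp only [mem_inter_iff, mem_prod, hv, mem_univ, and_true]

/-- (5) **the coloured retained triangles read `E ×ˢ univ`** -/
theorem pvtr_reads_set (ρ : ℝ) (E : Set ℂ) : Conf.Reads (E ×ˢ univ) (pvtrSet ρ E) := fun η => by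
  ext ⟨p, q, s⟩
  simp only [pvtrSet, mem_ofPred_eq]
  rw [pvtr_sites_restr, pvtr_reads]
  constructor
  · rintro ⟨h1, h2, h3, h⟩
    exact ⟨h1.1, h2.1, h3.1, h⟩
  · rintro ⟨h1, h2, h3, h⟩
    exact ⟨⟨h1, h.mem_a.2, mem_univ _⟩, ⟨h2, h.mem_b.2, mem_univ _⟩, ⟨h3, h.mem_c.2, mem_univ _⟩, h⟩

/-- every function of the coloured retained triangles reads `E ×ˢ univ` -/
theorem pvtr_reads_of_set {β : Type*} (ρ : ℝ) (E : Set ℂ) (g : Set (PvPt × PvPt × PvPt) → β) : Conf.Reads (E ×ˢ univ) (fun η => g (pvtrSet ρ E η)) :=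
  (pvtr_reads_set ρ E).comp g

theorem pvtr_reads_of_set' {β : Type*} {W : Set PvPt} (hW : E ×ˢ univ ⊆ W) (ρ : ℝ) (g : Set (PvPt × PvPt × PvPt) → β) :
    Conf.Reads W (fun η => g (pvtrSet ρ E η)) :=
  (pvtr_reads_of_set ρ E g).mono hW

theorem pvtr_set_mono (hE : E ⊆ E') (hρ : ρ ≤ ρ') (η : Conf PvPt) : pvtrSet ρ E η ⊆ pvtrSet ρ' E' η := fun _ ht =>
  ⟨ht.1, ht.2.1, ht.2.2.1, (ht.2.2.2.mono hE).mono_rad hρ⟩

/-- the members of `pvtrSet` are Delaunay triangles of the full configuration -/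
theorem pvtr_set_tri {η : Conf PvPt} {t : PvPt × PvPt × PvPt} (ht : t ∈ pvtrSet ρ E η) : DelTri (cfSites η) t.1.1 t.2.1.1 t.2.2.1 := ht.2.2.2.tri

/-- on the mesh event every coloured Delaunay triangle with a vertex in the `3ρ`-core is in `pvtrSet` -/
theorem pvtr_mem_set {η : Conf PvPt} (hρ : 0 < ρ) (hm : PvtrMesh ρ E (cfSites η)) {p q s : PvPt} (hp : p ∈ η.pts) (hq : q ∈ η.pts) (hs : s ∈ η.pts)
    (h : DelTri (cfSites η) p.1 q.1 s.1) (hc : p.1 ∈ pvtrCore (3 * ρ) E) : (p, q, s) ∈ pvtrSet ρ E η :=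
  ⟨hp, hq, hs, pvtr_of_mesh_vertex hρ hm hc h⟩

/-- splice: what is retained in `E` does not see the part resampled off `O ⊇ E ×ˢ univ` -/
theorem pvtr_set_spl_left {O : Set PvPt} (hO : E ×ˢ univ ⊆ O) (σ η : Conf PvPt) : pvtrSet ρ E (Conf.spl O (σ, η)) = pvtrSet ρ E σ :=
  (pvtr_reads_set ρ E).spl_left hO σ η

/-- splice: what is retained in `E`, `E ×ˢ univ` disjoint from `O`, sees the resampled part only -/
theorem pvtr_set_spl_right {O : Set PvPt} (hO : Disjoint (E ×ˢ (univ : Set Bool)) O) (σ η : Conf PvPt) : pvtrSet ρ E (Conf.spl O (σ, η)) = pvtrSet ρ E η :=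
  (pvtr_reads_set ρ E).spl_right hO σ η

end Claimed.Agent.R289
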