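import Claimed.Agent.R289.Tr.Poly
import Claimed.Agent.R289.Tr.Ret
import Claimed.Agent.R289.Del.Seam
import Claimed.Agent.R289.Pl.Jordan

/-!
# Row 289 (S0537), wall TR, file Tr/Geo : SITES VERSUS REGIONS ON THE MESH EVENT      (owner helper29, post of helper295; prefix `pvge_`, `PvgeCh`, `pvgeIn`)      0 sorry

Deterministic integration layer between the polyomino kit (`Tr/Poly`, 39 20 211), the retained triangles (`Tr/Ret`, 220), the Voronoi / Delaunay kit (`Vor/Basic`, `Del/Main`, 253 19), the seam `delMap h` (`Del/Seam`, 271),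
the Jordan kit (`Pl/Jordan`, 57) and the bulk families (`Defs/Bulk`, 163).      Source: `origin/helper6:notes/R289/W2c_6.md` D5(b), D6;  `origin/helper140:notes/R289/wall_140.md` sec. 1;  TR_295 I.IND, I.MESH.
* §0 `PvgeCh Y W a b`   Delaunay chain `a → b`, all vertices after `a` in `W` (= the shape of `pl_jordan_sep` and of `DeldJoin.primal`);      `pvgeIn E`  the INNER cells of a polyomino (the cell and its 8 neighbours are in `E`): `T^-`
* §1 calculus: `mono trans symm mem mem' both inter`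
* §2 arbitrary regions:   **K1** `pvge_conn`, `pvge_K1` (sites of a preconnected `S`, mesh on `S`: joined inside `S^{+ρ}`), `pvge_conn_col` (one colour);
                          **K3** `pvge_K3`, `pvge_K3_compl` (mesh on `T` ONLY, nothing is asked far away: the sites whose cells meet the outside are joined off the `r`-core of `T`, `ρ < r`)
* §3 polyomino geometry:  `pvge_in_core` (`pvtU δ (pvgeIn E) ⊆ pvtrCore δ (pvtU δ E)`), `pvge_nbd_N8`, `pvge_N8_sub_iff` (adjunction `N8 ⊣ In`), `pvge_compl_touch`, `pvge_core_disj`, `pvge_core_off`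
* §4 **K1** `pvge_poly_K1`, `_N8`, `_in`, `_col`;   **K3** `pvge_poly_K3`, `_in`, `_off`      (connectivity of `E`, `Eᶜ` in the WEAKEST sense `TscConn pvtG8`: use `pvt_conn_tri8`, `pvt_conn4_tri`)
* §5 **K2** at a site of the `3ρ`-core of `U`: `pvge_adj_loc`, `pvge_tri_loc`, `pvge_apex_loc` (two site sets equal on `U`: same edges, triangles, rotation system), `pvge_adj_short`, `pvge_adj_mem`, `pvge_tri_iff_ret`,
                          `Conf` forms `pvge_reads_tri`, `pvge_reads_adj`;   polyomino forms `pvge_poly_K2`, `_hull`, `_set`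
* §6 any `PvMap`:         `pvge_sep_right`, `pvge_VOf_right`, `pvge_one_side_right`, `pvge_one_side_left`
* §7 `delMap h`:          `pvge_map_chain`, `pvge_chain_of_map`, `pvge_map_off`, **`pvge_D5b_left`**, **`pvge_D5b_right`**, `pvge_D5b` (= D5(b): `VOf A ⊆` sites of `T`), `pvge_map_K1`
* §8 bulk families:       `pvge_bulk_adj`, `pvge_bulk_chain`, `pvge_bulk_adj'`
* §9 **`pvgeK Y S`** = the sites whose CELL misses `S` (`S = pvtU δ Eᶜ` the closed outside of a corridor): the vertex set `K` for `pvld_exist` (70) and `U` for `pvnb_region` (105).   EXACT co-connectedness `pvge_K_co`, `pvge_poly_K_co`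
                          (no mesh, no GP), map forms **`pvge_map_co`** (`hconn` of 105), **`pvge_map_co_join`** (`hco` of 70);   sandwich `pvge_poly_in_sub_K`, `pvge_poly_K_sub` (sites of `T^-` `⊆ K ⊆` sites of `T`);   `pvge_poly_K_finite`;
                          LOC `pvge_K_loc`, `pvge_poly_K_loc`, `_N8` (`K` is read in the collar);   `pvge_poly_K_ret` (triangles at a site of `K` are retained in `pvtU δ (pvtN8 E)`);   `pvge_U_closed`, `pvge_U_cover`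
* §10 **FAR LOCALITY** (dual of K2: the sites are changed arbitrarily INSIDE `C`; R-F of W1_208).   `pvgeCollar C ρ` (`ρ < d(·,C) ≤ 5ρ`), `pvgeFar C ρ` (`3ρ ≤ d(·,C)`);   **`pvge_no_bridge`** (mesh on the collar ONLY: an empty disc with a far point
                          on its circle misses `C`);   `pvge_collar_congr` (the mesh event of the collar is read off `C`);   **`pvge_far_cell`**, **`pvge_far_adj`**, **`pvge_far_tri`**, `pvge_far_apex`, `pvge_far_chain`, `pvge_far_nbr_off`, `pvge_far_tri_off`;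
                          `Conf` forms `pvge_reads_collar`, `pvge_reads_far_tri`, `pvge_reads_far_adj` (`Conf.Reads (Cᶜ ×ˢ univ)`);   polyomino forms `pvge_poly_far`, `pvge_poly_collar`, `pvge_poly_far_all` (`C = pvtU δ E`, mesh on `pvtU δ (pvtN8 E)`, `5ρ < δ`)
-/

set_option autoImplicit false

namespace Claimed.Agent.R289

open Set Metric Relation Claimed.Agent.R291

/-! ## 0. definitions -/

/-- **Delaunay chain**: a path of the Delaunay graph of `Y` from `a` to `b`, all of whose vertices after `a` lie in `W` (shape of `pl_jordan_sep`, `DeldJoin.primal`) -/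
def PvgeCh (Y W : Set ℂ) (a b : ℂ) : Prop := ReflTransGen (fun u v => DelAdj Y u v ∧ v ∈ W) a b

/-- the INNER cells of a polyomino: the cell and its eight neighbours belong to `E` -/
def pvgeIn (E : Set (ℤ × ℤ)) : Set (ℤ × ℤ) := {z | ∀ w, (w = z ∨ pvtG8.Adj z w) → w ∈ E}

theorem pvge_eqns_cite : True := by
  have := @PvgeCh.eq_1
  have := @pvgeIn.eq_1
  trivial

variable {Y Y' W W' S T : Set ℂ} {a b c v : ℂ} {ρ r δ : ℝ} {E E' : Set (ℤ × ℤ)}

/-! ## 1. calculus of chains -/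

theorem PvgeCh.refl (Y W : Set ℂ) (a : ℂ) : PvgeCh Y W a a := ReflTransGen.refl

theorem PvgeCh.mono (h : PvgeCh Y W a b) (hW : W ⊆ W') : PvgeCh Y W' a b :=
  ReflTransGen.mono (fun _ _ huv => ⟨huv.1, hW huv.2⟩) _ _ h

theorem PvgeCh.trans (h : PvgeCh Y W a b) (h' : PvgeCh Y W b c) : PvgeCh Y W a c := ReflTransGen.trans h h'

theorem PvgeCh.mem (h : PvgeCh Y W a b) : b = a ∨ b ∈ W := by
  induction h with
  | refl => exact Or.inl rfl
  | tail _ h2 _ => exact Or.inr h2.2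

theorem PvgeCh.mem' (h : PvgeCh Y W a b) (ha : a ∈ W) : b ∈ W := by
  rcases h.mem with rfl | h
  · exact ha
  · exact h

theorem PvgeCh.mem_sites (h : PvgeCh Y W a b) (ha : a ∈ Y) : b ∈ Y := by
  induction h with
  | refl => exact ha
  | tail _ h2 _ => exact h2.1.2.1

theorem PvgeCh.symm (h : PvgeCh Y W a b) (ha : a ∈ W) : PvgeCh Y W b a := by
  induction h with
  | refl => exact ReflTransGen.refl
  | @tail u w h1 h2 ih =>
    have hu : u ∈ W := PvgeCh.mem' h1 ha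
    exact ReflTransGen.head ⟨h2.1.symm, hu⟩ ih

/-- chains with both ends of every step in `W` -/
theorem PvgeCh.both (h : PvgeCh Y W a b) (ha : a ∈ W) : ReflTransGen (fun u v => DelAdj Y u v ∧ u ∈ W ∧ v ∈ W) a b := by
  induction h with
  | refl => exact ReflTransGen.refl
  | @tail u w h1 h2 ih => exact ih.tail ⟨h2.1, PvgeCh.mem' h1 ha, h2.2⟩

theorem PvgeCh.inter (h : PvgeCh Y W a b) : PvgeCh Y (Y ∩ W) a b :=
  ReflTransGen.mono (fun _ _ huv => ⟨huv.1, huv.1.2.1, huv.2⟩) _ _ h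

theorem pvge_of_adjIn (h : ReflTransGen (VorAdjIn Y S) a b) : PvgeCh Y (vorMeet Y S) a b :=
  ReflTransGen.mono (fun _ _ huv => ⟨huv.adj, huv.mem_right⟩) _ _ h

theorem pvge_site_meet (ha : a ∈ Y) (haS : a ∈ S) : a ∈ vorMeet Y S := ⟨ha, a, vor_self_mem Y a, haS⟩

/-! ## 2. K1 and K3 on arbitrary regions -/

/-- **K1, core**: the sites whose cells meet a preconnected set are Delaunay-connected through such sites -/
theorem pvge_conn (lf : VorLF Y) (hS : IsPreconnected S) (ha : a ∈ vorMeet Y S) (hb : b ∈ vorMeet Y S) : PvgeCh Y (vorMeet Y S) a b :=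
  pvge_of_adjIn (del_win_conn lf hS ha hb)

/-- **K1**: on the mesh event the sites of a preconnected region are Delaunay-connected inside its `ρ`-collar -/
theorem pvge_K1 (lf : VorLF Y) (hS : IsPreconnected S) (hd : VorDense Y S ρ) (ha : a ∈ Y) (haS : a ∈ S) (hb : b ∈ Y) (hbS : b ∈ S) :
    PvgeCh Y (Y ∩ vorNbd S ρ) a b :=
  (pvge_conn lf hS (pvge_site_meet ha haS) (pvge_site_meet hb hbS)).mono (vor_meet_subset_nbd hd)

/-- K1 with a colour: `A` = the sites of one colour, `S` a preconnected subset of the union of their cells -/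
theorem pvge_conn_col {A : Set ℂ} (lf : VorLF Y) (hA : A ⊆ Y) (hS : IsPreconnected S) (hSA : S ⊆ vorUn Y A)
    (ha : a ∈ A) (haS : (vorCell Y a ∩ S).Nonempty) (hb : b ∈ A) (hbS : (vorCell Y b ∩ S).Nonempty) : PvgeCh Y (A ∩ vorMeet Y S) a b := by
  have h := vor_block_connected_in lf hA hS hSA ha haS hb hbS
  clear hb hbS
  induction h with
  | refl => exact ReflTransGen.refl
  | @tail u w _ h2 ih =>
    by_cases e : u = w
    · exact e ▸ ih
    · obtain ⟨hu, hw, z, ⟨hzu, hzw⟩, hzS⟩ := h2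
      exact ih.tail ⟨⟨hA hu, hA hw, e, z, hzu, hzw⟩, hw, hA hw, z, hzw, hzS⟩

/-- on the mesh event the cell of a site of the `r`-core, `ρ < r`, is small -/
theorem pvge_cell_core (hρ : 0 ≤ ρ) (hr : ρ < r) (hd : VorDense Y T ρ) (hv : v ∈ pvtrCore r T) : vorCell Y v ⊆ closedBall v ρ :=
  vor_cell_subset_ball hρ hr (hd.mono Subset.rfl hv le_rfl)

/-- a site whose cell meets `S` is off the core of `T` as soon as the `ρ`-balls round the core miss `S` -/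
theorem pvge_meet_off (hρ : 0 ≤ ρ) (hr : ρ < r) (hd : VorDense Y T ρ) (hS : ∀ v ∈ pvtrCore r T, Disjoint (closedBall v ρ) S) :
    vorMeet Y S ⊆ Y \ pvtrCore r T := by
  rintro v ⟨hv, z, hz, hzS⟩
  exact ⟨hv, fun hc => disjoint_left.1 (hS v hc) (pvge_cell_core hρ hr hd hc hz) hzS⟩

/-- **K3, core**: `S` preconnected (the outside of `T`), mesh on `T` ONLY (no density is asked off `T`): the sites whose cells meet `S` are Delaunay-connected off the `r`-core of `T` -/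
theorem pvge_K3 (lf : VorLF Y) (hS : IsPreconnected S) (hρ : 0 ≤ ρ) (hr : ρ < r) (hd : VorDense Y T ρ)
    (hST : ∀ v ∈ pvtrCore r T, Disjoint (closedBall v ρ) S) (ha : a ∈ vorMeet Y S) (hb : b ∈ vorMeet Y S) : PvgeCh Y (Y \ pvtrCore r T) a b :=
  (pvge_conn lf hS ha hb).mono (pvge_meet_off hρ hr hd hST)

/-- K3 for `S = Tᶜ` -/
theorem pvge_K3_compl (lf : VorLF Y) (hS : IsPreconnected Tᶜ) (hρ : 0 ≤ ρ) (hr : ρ < r) (hd : VorDense Y T ρ)
    (ha : a ∈ Y) (haT : a ∉ T) (hb : b ∈ Y) (hbT : b ∉ T) : PvgeCh Y (Y \ pvtrCore r T) a b :=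
  pvge_K3 lf hS hρ hr hd (fun _ hv => disjoint_left.2 fun _ hz hzT => hzT (hv (closedBall_subset_closedBall hr.le hz)))
    (pvge_site_meet ha haT) (pvge_site_meet hb hbT)

/-! ## 3. polyominoes: cores, collars, the closed outside -/

theorem pvge_in_sub : pvgeIn E ⊆ E := fun z hz => hz z (Or.inl rfl)

theorem pvge_in_mono (h : E ⊆ E') : pvgeIn E ⊆ pvgeIn E' := fun _ hz w hw => h (hz w hw)

theorem pvge_mem_in {z : ℤ × ℤ} : z ∈ pvgeIn E ↔ pvtN8 {z} ⊆ E := by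
  constructor
  · rintro h w ⟨z', rfl, hw⟩
    exact h w hw
  · intro h w hw
    exact h ⟨z, rfl, hw⟩

/-- `N8` and `In` are adjoint -/
theorem pvge_N8_sub_iff : pvtN8 E ⊆ E' ↔ E ⊆ pvgeIn E' := by
  constructor
  · intro h z hz w hw
    exact h ⟨z, hz, hw⟩
  · rintro h w ⟨z, hz, hw⟩
    exact h hz w hw

theorem pvge_sub_in_N8 : E ⊆ pvgeIn (pvtN8 E) := pvge_N8_sub_iff.1 Subset.rfl

/-- the union of the inner cells lies in the `δ`-core -/
theorem pvge_in_core (hδ : 0 < δ) : pvtU δ (pvgeIn E) ⊆ pvtrCore δ (pvtU δ E) := by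
  intro p hp q hq
  obtain ⟨z, hz, hpz⟩ := mem_iUnion₂.1 hp
  rw [mem_closedBall, dist_eq_norm] at hq
  obtain ⟨w, hw, hqw⟩ := pvt_sq_ball hδ hpz hq
  exact mem_biUnion (hz w hw) hqw

/-- the `ρ`-collar of a polyomino, `ρ ≤ δ`, lies in the union of the cells of `N8 E` -/
theorem pvge_nbd_N8 (hδ : 0 < δ) (hρ : ρ ≤ δ) : vorNbd (pvtU δ E) ρ ⊆ pvtU δ (pvtN8 E) := by
  rintro q ⟨p, hp, hq⟩
  exact pvt_N8_U hδ hp (hq.trans hρ)

/-- a point of the OPEN square number `k` lies in no other closed square -/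
theorem pvge_sq_unique (hδ : 0 < δ) {k w : ℤ × ℤ} {q : ℂ} (h1 : (k.1 : ℝ) * δ < q.re) (h2 : q.re < ((k.1 : ℝ) + 1) * δ)
    (h3 : (k.2 : ℝ) * δ < q.im) (h4 : q.im < ((k.2 : ℝ) + 1) * δ) (hq : q ∈ pvtSq δ w) : w = k := by
  obtain ⟨g1, g2, g3, g4⟩ := hq
  have key : ∀ (m n : ℤ) (x : ℝ), (m : ℝ) * δ < x → x ≤ ((n : ℝ) + 1) * δ → m ≤ n := by
    intro m n x e1 e2
    have : (m : ℝ) < (n : ℝ) + 1 := lt_of_mul_lt_mul_right (e1.trans_le e2) hδ.le
    have : m < n + 1 := by exact_mod_cast this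
    omega
  have key' : ∀ (m n : ℤ) (x : ℝ), (m : ℝ) * δ ≤ x → x < ((n : ℝ) + 1) * δ → m ≤ n := by
    intro m n x e1 e2
    have : (m : ℝ) < (n : ℝ) + 1 := lt_of_mul_lt_mul_right (e1.trans_lt e2) hδ.le
    have : m < n + 1 := by exact_mod_cast this
    omega
  exact Prod.ext (le_antisymm (key' _ _ _ g1 h2) (key _ _ _ h1 g2)) (le_antisymm (key' _ _ _ g3 h4) (key _ _ _ h3 g4))

/-- every point of a closed square is a limit of points of the open square -/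
theorem pvge_sq_approx (hδ : 0 < δ) {k : ℤ × ℤ} {p : ℂ} (hp : p ∈ pvtSq δ k) (hr : 0 < r) : ∃ q : ℂ, ‖q - p‖ ≤ r ∧
    (k.1 : ℝ) * δ < q.re ∧ q.re < ((k.1 : ℝ) + 1) * δ ∧ (k.2 : ℝ) * δ < q.im ∧ q.im < ((k.2 : ℝ) + 1) * δ := by
  obtain ⟨t, ht0, ht1, htr⟩ : ∃ t : ℝ, 0 < t ∧ t ≤ 1 ∧ t * (2 * δ) ≤ r := by
    refine ⟨min 1 (r / (2 * δ)), lt_min one_pos (by positivity), min_le_left _ _, ?_⟩
    calc min 1 (r / (2 * δ)) * (2 * δ) ≤ r / (2 * δ) * (2 * δ) := by gcongr; exact min_le_right _ _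
      _ = r := by field_simp
  have hc := pvt_sq_diam (pvt_sq_ctr (z := k) hδ.le) hp
  obtain ⟨h1, h2, h3, h4⟩ := hp
  refine ⟨p + (t : ℂ) * (pvtCtr δ k - p), ?_, ?_, ?_, ?_, ?_⟩
  · rw [add_sub_cancel_left, norm_mul, Complex.norm_real, Real.norm_of_nonneg ht0.le]
    exact (mul_le_mul_of_nonneg_left hc ht0.le).trans htr
  all_goals
    simp only [pvtCtr, Complex.add_re, Complex.add_im, Complex.mul_re, Complex.mul_im, Complex.ofReal_re, Complex.ofReal_im, Complex.sub_re, Complex.sub_im, zero_mul,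
      sub_zero, add_zero]
    nlinarith

/-- **no ball round a point of the closed outside lies in the polyomino** -/
theorem pvge_compl_touch (hδ : 0 < δ) {p : ℂ} (hp : p ∈ pvtU δ Eᶜ) (hr : 0 < r) : ¬ closedBall p r ⊆ pvtU δ E := by
  intro hsub
  obtain ⟨k, hk, hpk⟩ := mem_iUnion₂.1 hp
  obtain ⟨q, hq, h1, h2, h3, h4⟩ := pvge_sq_approx hδ hpk hr
  obtain ⟨w, hw, hqw⟩ := mem_iUnion₂.1 (hsub (by rw [mem_closedBall, dist_eq_norm]; exact hq))
  exact hk (pvge_sq_unique hδ h1 h2 h3 h4 hqw ▸ hw)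

/-- the `ρ`-balls round the `r`-core, `ρ < r`, miss the closed outside -/
theorem pvge_core_disj (hδ : 0 < δ) (hr : ρ < r) (hv : v ∈ pvtrCore r (pvtU δ E)) : Disjoint (closedBall v ρ) (pvtU δ Eᶜ) := by
  refine disjoint_left.2 fun p hp hpE => pvge_compl_touch hδ hpE (sub_pos.2 hr) fun q hq => hv ?_
  rw [mem_closedBall] at hp hq ⊢
  linarith [dist_triangle q p v]

/-- the core of a polyomino misses the closed outside -/
theorem pvge_core_off (hδ : 0 < δ) (hr : 0 < r) : Disjoint (pvtrCore r (pvtU δ E)) (pvtU δ Eᶜ) :=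
  disjoint_left.2 fun _ hv hvE => pvge_compl_touch hδ hvE hr hv

/-! ## 4. K1, K3 on polyominoes -/

/-- **K1** (polyomino form): `E` connected (8-adjacency is enough, so `pvtG4`, `tscG` too), mesh on `U = pvtU δ E`: the sites of `U` are Delaunay-connected inside the `ρ`-collar of `U` -/
theorem pvge_poly_K1 (hδ : 0 < δ) (lf : VorLF Y) (hE : TscConn pvtG8 E) (hd : VorDense Y (pvtU δ E) ρ)
    (ha : a ∈ Y) (haU : a ∈ pvtU δ E) (hb : b ∈ Y) (hbU : b ∈ pvtU δ E) : PvgeCh Y (Y ∩ vorNbd (pvtU δ E) ρ) a b :=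
  pvge_K1 lf (pvt_U_conn hδ hE) hd ha haU hb hbU

/-- K1, collar in cells -/
theorem pvge_poly_K1_N8 (hδ : 0 < δ) (lf : VorLF Y) (hE : TscConn pvtG8 E) (hd : VorDense Y (pvtU δ E) ρ) (hρ : ρ ≤ δ)
    (ha : a ∈ Y) (haU : a ∈ pvtU δ E) (hb : b ∈ Y) (hbU : b ∈ pvtU δ E) : PvgeCh Y (Y ∩ pvtU δ (pvtN8 E)) a b :=
  (pvge_poly_K1 hδ lf hE hd ha haU hb hbU).mono (inter_subset_inter_right _ (pvge_nbd_N8 hδ hρ))

/-- K1 for the inner cells: the chain stays in `U` -/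
theorem pvge_poly_K1_in (hδ : 0 < δ) (lf : VorLF Y) (hE : TscConn pvtG8 (pvgeIn E)) (hd : VorDense Y (pvtU δ E) ρ) (hρ : ρ ≤ δ)
    (ha : a ∈ Y) (haU : a ∈ pvtU δ (pvgeIn E)) (hb : b ∈ Y) (hbU : b ∈ pvtU δ (pvgeIn E)) : PvgeCh Y (Y ∩ pvtU δ E) a b :=
  (pvge_poly_K1_N8 hδ lf hE (hd.mono Subset.rfl (pvt_U_mono pvge_in_sub) le_rfl) hρ ha haU hb hbU).mono
    (inter_subset_inter_right _ (pvt_U_mono (pvge_N8_sub_iff.2 Subset.rfl)))

/-- K1 with a colour, polyomino form: a preconnected subset `S` of `U` covered by the cells of `A` -/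
theorem pvge_poly_K1_col {A : Set ℂ} (lf : VorLF Y) (hA : A ⊆ Y) (hS : IsPreconnected S) (hSA : S ⊆ vorUn Y A) (hSU : S ⊆ pvtU δ E)
    (hd : VorDense Y (pvtU δ E) ρ) (ha : a ∈ A) (haS : (vorCell Y a ∩ S).Nonempty) (hb : b ∈ A) (hbS : (vorCell Y b ∩ S).Nonempty) :
    PvgeCh Y (A ∩ vorNbd (pvtU δ E) ρ) a b :=
  (pvge_conn_col lf hA hS hSA ha haS hb hbS).mono fun _ hv =>
    ⟨hv.1, (vor_meet_subset_nbd hd ⟨hv.2.1, hv.2.2.mono (inter_subset_inter_right _ hSU)⟩).2⟩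

/-- **K3** (polyomino form): `Eᶜ` connected (8-adjacency is enough), mesh on `T = pvtU δ E` ONLY: the sites of the closed outside are Delaunay-connected off the `r`-core of `T`, `ρ < r` -/
theorem pvge_poly_K3 (hδ : 0 < δ) (lf : VorLF Y) (hE : TscConn pvtG8 Eᶜ) (hρ : 0 ≤ ρ) (hr : ρ < r) (hd : VorDense Y (pvtU δ E) ρ)
    (ha : a ∈ Y) (haU : a ∈ pvtU δ Eᶜ) (hb : b ∈ Y) (hbU : b ∈ pvtU δ Eᶜ) : PvgeCh Y (Y \ pvtrCore r (pvtU δ E)) a b :=
  pvge_K3 lf (pvt_U_conn hδ hE) hρ hr hd (fun _ hv => pvge_core_disj hδ hr hv) (pvge_site_meet ha haU) (pvge_site_meet hb hbU)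

/-- K3, core in cells: the chain avoids the inner cells -/
theorem pvge_poly_K3_in (hδ : 0 < δ) (lf : VorLF Y) (hE : TscConn pvtG8 Eᶜ) (hρ : 0 ≤ ρ) (hr : ρ < δ) (hd : VorDense Y (pvtU δ E) ρ)
    (ha : a ∈ Y) (haU : a ∈ pvtU δ Eᶜ) (hb : b ∈ Y) (hbU : b ∈ pvtU δ Eᶜ) : PvgeCh Y (Y \ pvtU δ (pvgeIn E)) a b :=
  (pvge_poly_K3 hδ lf hE hρ hr hd ha haU hb hbU).mono (sdiff_subset_sdiff_right (pvge_in_core hδ))

/-- K3 for the sites off `T` -/
theorem pvge_poly_K3_off (hδ : 0 < δ) (lf : VorLF Y) (hE : TscConn pvtG8 Eᶜ) (hρ : 0 ≤ ρ) (hr : ρ < δ) (hd : VorDense Y (pvtU δ E) ρ)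
    (ha : a ∈ Y) (haU : a ∉ pvtU δ E) (hb : b ∈ Y) (hbU : b ∉ pvtU δ E) : PvgeCh Y (Y \ pvtU δ (pvgeIn E)) a b :=
  pvge_poly_K3_in hδ lf hE hρ hr hd ha (pvt_U_compl hδ haU) hb (pvt_U_compl hδ hbU)

/-! ## 5. K2: the star of a site of the core is retained, and read from the restriction -/

section K2

variable {U : Set ℂ}

/-- edges at a site of the `3ρ`-core are edges of the window `closedBall a ρ` -/
theorem pvge_adj_win (hρ : 0 < ρ) (hm : PvtrMesh ρ U Y) (ha : a ∈ pvtrCore (3 * ρ) U) : DelAdj Y a b ↔ VorAdjIn Y (closedBall a ρ) a b :=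
  ⟨fun h => h.inWin (pvtr_cell_small hρ hm ha), VorAdjIn.adj⟩

/-- edges at a site of the core are short -/
theorem pvge_adj_short (hρ : 0 < ρ) (hm : PvtrMesh ρ U Y) (ha : a ∈ pvtrCore (3 * ρ) U) (h : DelAdj Y a b) : ‖a - b‖ ≤ 2 * ρ :=
  del_adj_dist ((hm.dense ha).mono Subset.rfl (closedBall_subset_closedBall (by linarith)) le_rfl) ((pvge_adj_win hρ hm ha).1 h)

/-- the neighbours of a site of the core lie in `U` -/
theorem pvge_adj_mem (hρ : 0 < ρ) (hm : PvtrMesh ρ U Y) (ha : a ∈ pvtrCore (3 * ρ) U) (h : DelAdj Y a b) : b ∈ U := by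
  refine ha ?_
  rw [mem_closedBall, dist_eq_norm, norm_sub_rev]
  linarith [pvge_adj_short hρ hm ha h]

/-- **K2 (edges)**: two site sets equal on `U`, mesh read in `U`: the same Delaunay edges at the sites of the `3ρ`-core -/
theorem pvge_adj_loc (hρ : 0 < ρ) (hYY : Y ∩ U = Y' ∩ U) (hm : PvtrMesh ρ U Y) (ha : a ∈ pvtrCore (3 * ρ) U) : DelAdj Y a b ↔ DelAdj Y' a b := by
  rw [pvge_adj_win hρ hm ha, pvge_adj_win hρ ((pvtr_mesh_congr hYY).1 hm) ha]
  refine del_loc_adj ((hm.dense ha).mono Subset.rfl (closedBall_subset_closedBall (by linarith)) le_rfl) ?_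
  have hsub : vorNbd (closedBall a ρ) ρ ⊆ U := by
    rintro w ⟨z, hz, hw⟩
    refine ha ?_
    rw [mem_closedBall, dist_eq_norm] at hz ⊢
    calc ‖w - a‖ = ‖(w - z) + (z - a)‖ := by ring_nf
      _ ≤ ‖w - z‖ + ‖z - a‖ := norm_add_le _ _
      _ ≤ 3 * ρ := by linarith
  rw [← inter_eq_self_of_subset_right hsub, ← inter_assoc, ← inter_assoc, hYY]

/-- **K2 (triangles)**: the same Delaunay triangles at the sites of the `3ρ`-core -/
theorem pvge_tri_loc (hρ : 0 < ρ) (hYY : Y ∩ U = Y' ∩ U) (hm : PvtrMesh ρ U Y) (ha : a ∈ pvtrCore (3 * ρ) U) : DelTri Y a b c ↔ DelTri Y' a b c :=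
  pvtr_loc_mesh hρ hYY hm ha (by rw [norm_sub_rev])

/-- **K2 (rotation system)**: the same apex at the edges which start in the `3ρ`-core -/
theorem pvge_apex_loc (hρ : 0 < ρ) (hYY : Y ∩ U = Y' ∩ U) (hm : PvtrMesh ρ U Y) (ha : a ∈ pvtrCore (3 * ρ) U) (gp : VorGP Y') (h : ∃ c, DelTri Y a b c) :
    delApex Y' a b = delApex Y a b :=
  del_apex_eq gp ((pvge_tri_loc hρ hYY hm ha).1 (del_apex_tri h))

/-- on the mesh event: triangle at a site of the core ⟺ retained triangle -/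
theorem pvge_tri_iff_ret (hρ : 0 < ρ) (hm : PvtrMesh ρ U Y) (ha : a ∈ pvtrCore (3 * ρ) U) : DelTri Y a b c ↔ PvRet ρ U Y a b c :=
  ⟨pvtr_of_mesh_vertex hρ hm ha, PvRet.tri⟩

/-- **K2 (`Conf` form)**: `mesh ∧ triangle at a site of the core` reads `U ×ˢ univ` -/
theorem pvge_reads_tri (hρ : 0 < ρ) (ha : a ∈ pvtrCore (3 * ρ) U) :
    Conf.Reads (U ×ˢ univ) (fun η : Conf PvPt => PvtrMesh ρ U (cfSites η) ∧ DelTri (cfSites η) a b c) := by
  have e : (fun η : Conf PvPt => PvtrMesh ρ U (cfSites η) ∧ DelTri (cfSites η) a b c) = fun η => PvtrMesh ρ U (cfSites η) ∧ PvRet ρ U (cfSites η) a b c := by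
    funext η
    exact propext (and_congr_right fun hm => pvge_tri_iff_ret hρ hm ha)
  rw [e]
  exact (pvtr_reads_mesh ρ U).map₂ (pvtr_reads_ret ρ U a b c) And

/-- K2 (`Conf` form, edges) -/
theorem pvge_reads_adj (hρ : 0 < ρ) (ha : a ∈ pvtrCore (3 * ρ) U) :
    Conf.Reads (U ×ˢ univ) (fun η : Conf PvPt => PvtrMesh ρ U (cfSites η) ∧ DelAdj (cfSites η) a b) := fun η => by
  have hYY : cfSites (Conf.restr (U ×ˢ univ) η) ∩ U = cfSites η ∩ U := by rw [pvtr_sites_restr, inter_assoc, inter_self]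
  exact propext ⟨fun h => ⟨(pvtr_mesh_congr hYY).1 h.1, (pvge_adj_loc hρ hYY h.1 ha).1 h.2⟩,
    fun h => ⟨(pvtr_mesh_congr hYY).2 h.1, (pvge_adj_loc hρ hYY.symm h.1 ha).1 h.2⟩⟩

end K2

/-- the inner cells lie in the `3ρ`-core, `3ρ ≤ δ` -/
theorem pvge_in_core3 (hδ : 0 < δ) (h3 : 3 * ρ ≤ δ) : pvtU δ (pvgeIn E) ⊆ pvtrCore (3 * ρ) (pvtU δ E) :=
  (pvge_in_core hδ).trans (pvtr_core_anti h3)

/-- density on the polyomino gives the mesh event read in the polyomino -/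
theorem pvge_poly_mesh (hρ : 0 ≤ ρ) (hd : VorDense Y (pvtU δ E) ρ) : PvtrMesh ρ (pvtU δ E) Y := hd.pvtrMesh (pvtr_core_subset hρ)

/-- **K2** (polyomino form): all Delaunay triangles at a site of an inner cell are retained in `U = pvtU δ E` -/
theorem pvge_poly_K2 (hδ : 0 < δ) (hρ : 0 < ρ) (h3 : 3 * ρ ≤ δ) (hm : PvtrMesh ρ (pvtU δ E) Y) (ha : a ∈ pvtU δ (pvgeIn E)) (h : DelTri Y a b c) :
    PvRet ρ (pvtU δ E) Y a b c :=
  pvtr_of_mesh_vertex hρ hm (pvge_in_core3 hδ h3 ha) h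

/-- K2: the closed triangle lies in `U` -/
theorem pvge_poly_K2_hull (hδ : 0 < δ) (hρ : 0 < ρ) (h3 : 3 * ρ ≤ δ) (hm : PvtrMesh ρ (pvtU δ E) Y) (ha : a ∈ pvtU δ (pvgeIn E)) (h : DelTri Y a b c) :
    convexHull ℝ ({a, b, c} : Set ℂ) ⊆ pvtU δ E :=
  (pvge_poly_K2 hδ hρ h3 hm ha h).hull_subset

/-- K2: coloured form, membership in `pvtrSet` (a function of `Conf.restr (U ×ˢ univ) η`: `pvtr_reads_set`) -/
theorem pvge_poly_K2_set {η : Conf PvPt} (hδ : 0 < δ) (hρ : 0 < ρ) (h3 : 3 * ρ ≤ δ) (hm : PvtrMesh ρ (pvtU δ E) (cfSites η)) {p q s : PvPt}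
    (hp : p ∈ η.pts) (hq : q ∈ η.pts) (hs : s ∈ η.pts) (ha : p.1 ∈ pvtU δ (pvgeIn E)) (h : DelTri (cfSites η) p.1 q.1 s.1) : (p, q, s) ∈ pvtrSet ρ (pvtU δ E) η :=
  ⟨hp, hq, hs, pvge_poly_K2 hδ hρ h3 hm ha h⟩

/-! ## 6. sides of a cycle (any `PvMap`) -/

section sides

variable {V D : Type} {M : PvMap V D}

/-- `pl_jordan_sep` for the right side -/
theorem pvge_sep_right (hM : M.IsSph) (c : M.Cyc) {x y : V} (hx : x ∈ M.Int c.Right) (hxy : ReflTransGen (fun u v => M.Adj u v ∧ v ∉ c.verts) x y) :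
    y ∈ M.Int c.Right := by
  obtain ⟨c', -, -, hv, hL, -⟩ := pl_cyc_rev hM c
  rw [← hL] at hx ⊢
  exact pl_jordan_sep hM c' hx (by rwa [hv])

theorem pvge_VOf_right (hM : M.IsSph) (c : M.Cyc) : M.VOf c.Right = c.verts ∪ M.Int c.Right := by
  obtain ⟨c', -, -, hv, hL, -⟩ := pl_cyc_rev hM c
  rw [← hL, ← hv]
  exact pl_VOf_left hM c'

/-- a set `X` of vertices, any two of which are joined off the cycle, with one vertex strictly on the right: `X` is strictly on the right and no vertex of a left face is in `X` -/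
theorem pvge_one_side_right (hM : M.IsSph) (c : M.Cyc) {X : Set V} (hX : ∀ x ∈ X, ∀ y ∈ X, ReflTransGen (fun u v => M.Adj u v ∧ v ∉ c.verts) x y)
    {w : V} (hw : w ∈ X) (hwR : w ∈ M.Int c.Right) : X ⊆ M.Int c.Right ∧ Disjoint (M.VOf c.Left) X := by
  have h1 : X ⊆ M.Int c.Right := fun y hy => pvge_sep_right hM c hwR (hX w hw y hy)
  obtain ⟨-, d2, d3⟩ := pl_jordan_vert_disj hM c
  refine ⟨h1, ?_⟩
  rw [pl_VOf_left hM c]
  exact (d2.union_left d3).mono_right h1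

/-- the same with left and right exchanged -/
theorem pvge_one_side_left (hM : M.IsSph) (c : M.Cyc) {X : Set V} (hX : ∀ x ∈ X, ∀ y ∈ X, ReflTransGen (fun u v => M.Adj u v ∧ v ∉ c.verts) x y)
    {w : V} (hw : w ∈ X) (hwL : w ∈ M.Int c.Left) : X ⊆ M.Int c.Left ∧ Disjoint (M.VOf c.Right) X := by
  have h1 : X ⊆ M.Int c.Left := fun y hy => pl_jordan_sep hM c hwL (hX w hw y hy)
  obtain ⟨d1, -, d3⟩ := pl_jordan_vert_disj hM c
  refine ⟨h1, ?_⟩
  rw [pvge_VOf_right hM c]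
  exact (d1.union_left d3.symm).mono_right h1

end sides

/-! ## 7. the full plane Delaunay map `delMap h` -/

/-- a Delaunay chain is a path of `delMap h` -/
theorem pvge_map_chain (h : DelGood Y) {x : Y} (hab : PvgeCh Y W x b) :
    ∃ hb : b ∈ Y, ReflTransGen (fun u v : Y => (delMap h).Adj u v ∧ (v : ℂ) ∈ W) x ⟨b, hb⟩ := by
  induction hab with
  | refl => exact ⟨x.2, ReflTransGen.refl⟩
  | @tail u w _ h2 ih =>
    obtain ⟨hu, ih⟩ := ih
    exact ⟨h2.1.2.1, ih.tail ⟨(dls_adj_iff h ⟨u, hu⟩ ⟨w, h2.1.2.1⟩).2 h2.1, h2.2⟩⟩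

theorem pvge_map_chain' (h : DelGood Y) {x y : Y} (hab : PvgeCh Y W x y) : ReflTransGen (fun u v : Y => (delMap h).Adj u v ∧ (v : ℂ) ∈ W) x y :=
  (pvge_map_chain h hab).2

/-- conversely -/
theorem pvge_chain_of_map (h : DelGood Y) {x y : Y} (hab : ReflTransGen (fun u v : Y => (delMap h).Adj u v ∧ (v : ℂ) ∈ W) x y) : PvgeCh Y W x y := by
  induction hab with
  | refl => exact ReflTransGen.refl
  | tail _ h2 ih => exact ih.tail ⟨(dls_adj_iff h _ _).1 h2.1, h2.2⟩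

/-- a chain off `Z` is a path off every cycle with vertices in `Z`: the shape consumed by `pl_jordan_sep` -/
theorem pvge_map_off (h : DelGood Y) (c : (delMap h).Cyc) {Z : Set ℂ} (hc : ∀ v ∈ c.verts, (v : ℂ) ∈ Z) {x y : Y} (hab : PvgeCh Y (Y \ Z) x y) :
    ReflTransGen (fun u v : Y => (delMap h).Adj u v ∧ v ∉ c.verts) x y :=
  ReflTransGen.mono (fun _ v huv => ⟨huv.1, fun hv => huv.2.2 (hc v hv)⟩) _ _ (pvge_map_chain' h hab)

/-- **D5(b) of W2c (helper6)**, left form.   `T = pvtU δ E` co-connected polyomino, mesh on `T`, `c` a cycle of the full plane Delaunay map with all its vertices in the inner cells of `T`,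
one site OFF `T` strictly on the right of `c`.   Then ALL the sites off `T` are strictly on the right, and all the vertices of the faces on the left of `c` are sites of `T` -/
theorem pvge_D5b_left (hδ : 0 < δ) (h : DelGood Y) (hE : TscConn pvtG8 Eᶜ) (hρ : 0 ≤ ρ) (hr : ρ < δ) (hd : VorDense Y (pvtU δ E) ρ)
    (c : (delMap h).Cyc) (hc : ∀ v ∈ c.verts, (v : ℂ) ∈ pvtU δ (pvgeIn E)) {w : Y} (hw : (w : ℂ) ∉ pvtU δ E) (hwR : w ∈ (delMap h).Int c.Right) :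
    (∀ v : Y, (v : ℂ) ∉ pvtU δ E → v ∈ (delMap h).Int c.Right) ∧ ∀ v ∈ (delMap h).VOf c.Left, (v : ℂ) ∈ pvtU δ E := by
  obtain ⟨h1, h2⟩ := pvge_one_side_right (X := {v : Y | (v : ℂ) ∉ pvtU δ E}) (dls_isSph h) c
    (fun x hx y hy => pvge_map_off h c hc (pvge_poly_K3_off hδ h.lf hE hρ hr hd x.2 hx y.2 hy)) hw hwR
  exact ⟨fun v hv => h1 hv, fun v hv => by_contra fun hn => disjoint_left.1 h2 hv hn⟩

/-- **D5(b)**, right form -/
theorem pvge_D5b_right (hδ : 0 < δ) (h : DelGood Y) (hE : TscConn pvtG8 Eᶜ) (hρ : 0 ≤ ρ) (hr : ρ < δ) (hd : VorDense Y (pvtU δ E) ρ)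
    (c : (delMap h).Cyc) (hc : ∀ v ∈ c.verts, (v : ℂ) ∈ pvtU δ (pvgeIn E)) {w : Y} (hw : (w : ℂ) ∉ pvtU δ E) (hwL : w ∈ (delMap h).Int c.Left) :
    (∀ v : Y, (v : ℂ) ∉ pvtU δ E → v ∈ (delMap h).Int c.Left) ∧ ∀ v ∈ (delMap h).VOf c.Right, (v : ℂ) ∈ pvtU δ E := by
  obtain ⟨h1, h2⟩ := pvge_one_side_left (X := {v : Y | (v : ℂ) ∉ pvtU δ E}) (dls_isSph h) c
    (fun x hx y hy => pvge_map_off h c hc (pvge_poly_K3_off hδ h.lf hE hρ hr hd x.2 hx y.2 hy)) hw hwL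
  exact ⟨fun v hv => h1 hv, fun v hv => by_contra fun hn => disjoint_left.1 h2 hv hn⟩

/-- D5(b) without a witness: one of the two sides of `c` has all its vertices in `T` (there are sites off `T`: `T` is bounded, `Y` is not) -/
theorem pvge_D5b (hδ : 0 < δ) (h : DelGood Y) (hE : TscConn pvtG8 Eᶜ) (hρ : 0 ≤ ρ) (hr : ρ < δ) (hd : VorDense Y (pvtU δ E) ρ)
    (c : (delMap h).Cyc) (hc : ∀ v ∈ c.verts, (v : ℂ) ∈ pvtU δ (pvgeIn E)) {w : Y} (hw : (w : ℂ) ∉ pvtU δ E) :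
    (∀ v ∈ (delMap h).VOf c.Left, (v : ℂ) ∈ pvtU δ E) ∨ ∀ v ∈ (delMap h).VOf c.Right, (v : ℂ) ∈ pvtU δ E := by
  rcases pl_jordan_vert (dls_isSph h) c w with hv | hL | hR
  · exact absurd (pvt_U_mono pvge_in_sub (hc w hv)) hw
  · exact Or.inr (pvge_D5b_right hδ h hE hρ hr hd c hc hw hL).2
  · exact Or.inl (pvge_D5b_left hδ h hE hρ hr hd c hc hw hR).2

/-- K1 on the map: the sites of a connected polyomino are joined in `delMap h` inside the collar -/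
theorem pvge_map_K1 (hδ : 0 < δ) (h : DelGood Y) (hE : TscConn pvtG8 E) (hd : VorDense Y (pvtU δ E) ρ) (hρ : ρ ≤ δ)
    {x y : Y} (hx : (x : ℂ) ∈ pvtU δ E) (hy : (y : ℂ) ∈ pvtU δ E) :
    ReflTransGen (fun u v : Y => (delMap h).Adj u v ∧ (v : ℂ) ∈ pvtU δ (pvtN8 E)) x y :=
  pvge_map_chain' h ((pvge_poly_K1_N8 hδ h.lf hE hd hρ x.2 hx y.2 hy).mono inter_subset_right)

/-! ## 8. bulk families (`Defs/Bulk`): chains inside the patch -/

section bulk

variable {X : Type} (𝔅 : PvBulk X) {K : Set ℂ}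

/-- a Delaunay edge which starts in the patch is an edge of the surface -/
theorem pvge_bulk_adj (ok : 𝔅.Ok Y K) (lf : VorLF Y) (hbd : Bornology.IsBounded (vorCell Y a)) (haK : a ∈ K) (hab : DelAdj Y a b) :
    ∃ d, 𝔅.lab Y ((𝔅.T Y).src d) = Sum.inl a ∧ 𝔅.lab Y ((𝔅.T Y).tgt d) = Sum.inl b := by
  obtain ⟨c, hc⟩ := del_apex_exists lf hbd hab
  obtain ⟨d, h1, h2, -⟩ := ok.face a b c hc haK
  exact ⟨d, h1, h2⟩

/-- a Delaunay chain inside the patch is a path of the surface -/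
theorem pvge_bulk_chain (ok : 𝔅.Ok Y K) (lf : VorLF Y) (hbd : ∀ v ∈ K, Bornology.IsBounded (vorCell Y v)) (hW : W ⊆ K) (haK : a ∈ K)
    {u : 𝔅.V Y} (hu : 𝔅.lab Y u = Sum.inl a) (hab : PvgeCh Y W a b) :
    ∃ v, 𝔅.lab Y v = Sum.inl b ∧ ReflTransGen (fun x y => (𝔅.T Y).Adj x y ∧ ∃ p ∈ W, 𝔅.lab Y y = Sum.inl p) u v := by
  induction hab with
  | refl => exact ⟨u, hu, ReflTransGen.refl⟩
  | @tail p q h1 h2 ih =>
    obtain ⟨v, hv, hch⟩ := ih
    have hpK : p ∈ K := by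
      rcases PvgeCh.mem h1 with rfl | hp
      · exact haK
      · exact hW hp
    obtain ⟨d, e1, e2⟩ := pvge_bulk_adj 𝔅 ok lf (hbd p hpK) hpK h2.1
    have e3 : (𝔅.T Y).src d = v := ok.inj (e1.trans hv.symm)
    exact ⟨(𝔅.T Y).tgt d, e2, hch.tail ⟨⟨d, e3, rfl⟩, q, h2.2, e2⟩⟩

/-- an edge of the surface which starts at a site of the patch is a Delaunay edge -/
theorem pvge_bulk_adj' (ok : 𝔅.Ok Y K) {d : 𝔅.D Y} (hd : 𝔅.lab Y ((𝔅.T Y).src d) = Sum.inl a) (haK : a ∈ K) :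
    ∃ b, 𝔅.lab Y ((𝔅.T Y).tgt d) = Sum.inl b ∧ DelAdj Y a b := by
  obtain ⟨b, c, h1, -, h3⟩ := ok.del d a hd haK
  exact ⟨b, h1, h3.adj⟩

end bulk

/-! ## 9. the sites whose cell misses the outside: EXACT co-connectedness      (hypotheses `hco` of `pvld_exist`, `pvld_region` (70), `hconn` of `pvnb_region` (105)) -/

/-- **the sites of `Y` whose Voronoi cell misses `S`** (`S` = the closed outside of a corridor): the vertex set `K` of the lane experiments -/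
def pvgeK (Y S : Set ℂ) : Set ℂ := {v | v ∈ Y ∧ Disjoint (vorCell Y v) S}

theorem pvge_eqns_cite2 : True := by
  have := @pvgeK.eq_1
  trivial

theorem pvge_K_sdiff (Y S : Set ℂ) : Y \ pvgeK Y S = vorMeet Y S := by
  ext v
  constructor
  · rintro ⟨hv, hn⟩
    exact ⟨hv, not_disjoint_iff_nonempty_inter.1 fun hd => hn ⟨hv, hd⟩⟩
  · rintro ⟨hv, hne⟩
    exact ⟨hv, fun hK => not_disjoint_iff_nonempty_inter.2 hne hK.2⟩

theorem pvge_K_sub (Y S : Set ℂ) : pvgeK Y S ⊆ Y \ S := fun v hv => ⟨hv.1, fun hS => disjoint_left.1 hv.2 (vor_self_mem Y v) hS⟩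

theorem pvge_K_anti {S' : Set ℂ} (h : S ⊆ S') : pvgeK Y S' ⊆ pvgeK Y S := fun _ hv => ⟨hv.1, hv.2.mono_right h⟩

/-- **EXACT co-connectedness** (no mesh, no general position): the sites off `pvgeK Y S` are Delaunay-connected OFF `pvgeK Y S` -/
theorem pvge_K_co (lf : VorLF Y) (hS : IsPreconnected S) (ha : a ∈ Y) (haK : a ∉ pvgeK Y S) (hb : b ∈ Y) (hbK : b ∉ pvgeK Y S) : PvgeCh Y (Y \ pvgeK Y S) a b := by
  have ha' : a ∈ Y \ pvgeK Y S := ⟨ha, haK⟩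
  have hb' : b ∈ Y \ pvgeK Y S := ⟨hb, hbK⟩
  rw [pvge_K_sdiff] at ha' hb' ⊢
  exact pvge_conn lf hS ha' hb'

/-- on the mesh event the sites of the `r`-core of `T` belong to `pvgeK` -/
theorem pvge_K_core (hρ : 0 ≤ ρ) (hr : ρ < r) (hd : VorDense Y T ρ) (hST : ∀ v ∈ pvtrCore r T, Disjoint (closedBall v ρ) S) : Y ∩ pvtrCore r T ⊆ pvgeK Y S :=
  fun v hv => ⟨hv.1, (hST v hv.2).mono_left (pvge_cell_core hρ hr hd hv.2)⟩

theorem pvge_K_finite (lf : VorLF Y) (hb : Bornology.IsBounded Sᶜ) : (pvgeK Y S).Finite := by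
  obtain ⟨R, hR⟩ := hb.subset_closedBall (0 : ℂ)
  exact (lf R).subset fun v hv => ⟨hv.1, hR (pvge_K_sub Y S hv).2⟩

theorem pvge_K_loc_aux (hT : IsClosed T) (hSc : IsClosed S) (hcov : T ∪ S = univ) (hd : VorDense Y T ρ) (hYY : Y ∩ vorNbd T ρ = Y' ∩ vorNbd T ρ) :
    pvgeK Y S ⊆ pvgeK Y' S := by
  intro v hv
  have hvT : v ∈ T := ((hcov ▸ mem_univ v : v ∈ T ∪ S)).resolve_right (pvge_K_sub Y S hv).2
  have h1 := (vor_loc hd hYY hvT (v := v)).1 ⟨hv.1, vor_self_mem Y v⟩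
  refine ⟨h1.1, disjoint_left.2 fun z hz hzS => ?_⟩
  have hseg : segment ℝ v z ⊆ vorCell Y' v := (vor_convex_cell Y' v).segment_subset (vor_self_mem Y' v) hz
  obtain ⟨y, hy, hyT, hyS⟩ := isPreconnected_closed_iff.1 (convex_segment v z).isPreconnected T S hT hSc (by rw [hcov]; exact subset_univ _)
    ⟨v, left_mem_segment ℝ v z, hvT⟩ ⟨z, right_mem_segment ℝ v z, hzS⟩
  exact disjoint_left.1 hv.2 ((vor_loc hd hYY hyT (v := v)).2 ⟨h1.1, hseg hy⟩).2 hyS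

/-- **LOC**: `T`, `S` closed, `T ∪ S` = the plane, mesh on `T`: the set `pvgeK Y S` is read from the sites of the `ρ`-collar of `T` -/
theorem pvge_K_loc (hT : IsClosed T) (hSc : IsClosed S) (hcov : T ∪ S = univ) (hd : VorDense Y T ρ) (hYY : Y ∩ vorNbd T ρ = Y' ∩ vorNbd T ρ) :
    pvgeK Y S = pvgeK Y' S :=
  Subset.antisymm (pvge_K_loc_aux hT hSc hcov hd hYY) (pvge_K_loc_aux hT hSc hcov (vor_dense_transfer hd hYY) hYY.symm)

/-- every union of closed squares is closed -/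
theorem pvge_U_closed (hδ : 0 < δ) (E : Set (ℤ × ℤ)) : IsClosed (pvtU δ E) := by
  have hlf : LocallyFinite (fun z : E => pvtSq δ (z : ℤ × ℤ)) := by
    intro x
    refine ⟨ball x 1, ball_mem_nhds x one_pos, ?_⟩
    exact ((pvt_cells_finite hδ (K := ball x 1) isBounded_ball).preimage Subtype.val_injective.injOn).subset fun z hz => hz
  have e : pvtU δ E = ⋃ z : E, pvtSq δ (z : ℤ × ℤ) := by
    unfold pvtU
    rw [biUnion_eq_iUnion]
  rw [e]
  exact hlf.isClosed_iUnion fun _ => pvt_sq_closed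

theorem pvge_U_cover (hδ : 0 < δ) (E : Set (ℤ × ℤ)) : pvtU δ E ∪ pvtU δ Eᶜ = univ := by
  refine eq_univ_of_forall fun p => ?_
  by_cases hp : p ∈ pvtU δ E
  · exact Or.inl hp
  · exact Or.inr (pvt_U_compl hδ hp)

theorem pvge_U_sub_in_N8 : pvtU δ E ⊆ pvtU δ (pvgeIn (pvtN8 E)) := pvt_U_mono pvge_sub_in_N8

/-- the polyomino form: `K = pvgeK Y (pvtU δ Eᶜ)` lies between the sites of the inner cells and the sites of `T = pvtU δ E` -/
theorem pvge_poly_K_sub (hδ : 0 < δ) : pvgeK Y (pvtU δ Eᶜ) ⊆ Y ∩ pvtU δ E := fun v hv => by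
  have h := pvge_K_sub Y _ hv
  refine ⟨h.1, ?_⟩
  have := pvt_U_compl hδ h.2
  rwa [compl_compl] at this

theorem pvge_poly_in_sub_K (hδ : 0 < δ) (hρ : 0 ≤ ρ) (hr : ρ < δ) (hd : VorDense Y (pvtU δ E) ρ) : Y ∩ pvtU δ (pvgeIn E) ⊆ pvgeK Y (pvtU δ Eᶜ) :=
  (inter_subset_inter_right _ (pvge_in_core hδ)).trans (pvge_K_core hρ hr hd fun _ hv => pvge_core_disj hδ hr hv)

theorem pvge_poly_K_finite (hδ : 0 < δ) (lf : VorLF Y) (hE : E.Finite) : (pvgeK Y (pvtU δ Eᶜ)).Finite := by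
  obtain ⟨R, hR⟩ := (pvt_U_compact (δ := δ) hE).isBounded.subset_closedBall (0 : ℂ)
  exact (lf R).subset fun v hv => ⟨(pvge_poly_K_sub hδ hv).1, hR (pvge_poly_K_sub hδ hv).2⟩

theorem pvge_poly_K_co (hδ : 0 < δ) (lf : VorLF Y) (hE : TscConn pvtG8 Eᶜ) (ha : a ∈ Y) (haK : a ∉ pvgeK Y (pvtU δ Eᶜ)) (hb : b ∈ Y) (hbK : b ∉ pvgeK Y (pvtU δ Eᶜ)) :
    PvgeCh Y (Y \ pvgeK Y (pvtU δ Eᶜ)) a b :=
  pvge_K_co lf (pvt_U_conn hδ hE) ha haK hb hbK

theorem pvge_poly_K_loc (hδ : 0 < δ) (hd : VorDense Y (pvtU δ E) ρ) (hYY : Y ∩ vorNbd (pvtU δ E) ρ = Y' ∩ vorNbd (pvtU δ E) ρ) :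
    pvgeK Y (pvtU δ Eᶜ) = pvgeK Y' (pvtU δ Eᶜ) :=
  pvge_K_loc (pvge_U_closed hδ E) (pvge_U_closed hδ Eᶜ) (pvge_U_cover hδ E) hd hYY

/-- `K` is read in `pvtU δ (pvtN8 E)` -/
theorem pvge_poly_K_loc_N8 (hδ : 0 < δ) (hρ : ρ ≤ δ) (hd : VorDense Y (pvtU δ E) ρ) (hYY : Y ∩ pvtU δ (pvtN8 E) = Y' ∩ pvtU δ (pvtN8 E)) :
    pvgeK Y (pvtU δ Eᶜ) = pvgeK Y' (pvtU δ Eᶜ) := by
  refine pvge_poly_K_loc hδ hd ?_
  rw [← inter_eq_self_of_subset_right (pvge_nbd_N8 (E := E) hδ hρ), ← inter_assoc, ← inter_assoc, hYY]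

/-- all the Delaunay triangles at a site of `K` are retained in `pvtU δ (pvtN8 E)` -/
theorem pvge_poly_K_ret (hδ : 0 < δ) (hρ : 0 < ρ) (h3 : 3 * ρ ≤ δ) (hm : PvtrMesh ρ (pvtU δ (pvtN8 E)) Y) (ha : a ∈ pvgeK Y (pvtU δ Eᶜ)) (h : DelTri Y a b c) :
    PvRet ρ (pvtU δ (pvtN8 E)) Y a b c :=
  pvge_poly_K2 hδ hρ h3 hm (pvge_U_sub_in_N8 (pvge_poly_K_sub hδ ha).2) h

/-- the vertex set of `delMap h` -/
def pvgeKV (Y S : Set ℂ) : Set Y := {w | (w : ℂ) ∈ pvgeK Y S}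

theorem pvge_eqns_cite3 : True := by
  have := @pvgeKV.eq_1
  trivial

theorem pvge_KV_finite (h : (pvgeK Y S).Finite) : (pvgeKV Y S).Finite := h.preimage Subtype.val_injective.injOn

/-- the hypothesis `hconn` of `pvnb_region` (105) -/
theorem pvge_map_co (h : DelGood Y) (hS : IsPreconnected S) {u v : Y} (hu : u ∉ pvgeKV Y S) (hv : v ∉ pvgeKV Y S) :
    ReflTransGen (fun x y : Y => (delMap h).Adj x y ∧ y ∉ pvgeKV Y S) u v :=
  ReflTransGen.mono (fun _ _ hxy => ⟨hxy.1, hxy.2.2⟩) _ _ (pvge_map_chain' h (pvge_K_co h.lf hS u.2 hu v.2 hv))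

/-- the hypothesis `hco` of `pvld_exist`, `pvld_region` (70) -/
theorem pvge_map_co_join (h : DelGood Y) (hS : IsPreconnected S) (u v : Y) (hu : u ∉ pvgeKV Y S) (hv : v ∉ pvgeKV Y S) :
    (delMap h).Join univ (pvgeKV Y S)ᶜ u v :=
  ⟨hu, ReflTransGen.mono (fun x y hxy => ⟨(dls_edgeIn_univ h x y).2 ((dls_adj_iff h x y).1 hxy.1), hxy.2⟩) _ _ (pvge_map_co h hS hu hv)⟩

/-! ## 10. FAR LOCALITY: the sites are resampled INSIDE `C`, mesh on the collar of `C` only -/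

section far

variable {C : Set ℂ} {z : ℂ}

/-- the COLLAR of `C`: the points at distance in `(ρ, 5ρ]` from `C` -/
def pvgeCollar (C : Set ℂ) (ρ : ℝ) : Set ℂ := {y | ρ < infDist y C ∧ infDist y C ≤ 5 * ρ}

/-- the points FAR from `C`: at distance `≥ 3ρ` -/
def pvgeFar (C : Set ℂ) (ρ : ℝ) : Set ℂ := {y | 3 * ρ ≤ infDist y C}

theorem pvge_eqns_cite4 : True := by
  have := @pvgeCollar.eq_1
  have := @pvgeFar.eq_1
  trivial

/-- **NO BRIDGE**: mesh on the collar of `C` only.   An empty disc with a far point `a` on its circle does not meet `C` -/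
theorem pvge_no_bridge (hρ : 0 < ρ) (hd : VorDense Y (pvgeCollar C ρ) ρ) (ha : a ∈ pvgeFar C ρ) (hz : z ∈ vorCell Y a) : Disjoint (closedBall z ‖z - a‖) C := by
  refine disjoint_left.2 fun x hx hxC => ?_
  have ha' : 3 * ρ ≤ infDist a C := ha
  -- a point of the chord at distance `3ρ` from `C`
  have hcont : ContinuousOn (fun t : ℝ => infDist (AffineMap.lineMap x a t : ℂ) C) (Icc 0 1) :=
    ((continuous_infDist_pt C).comp AffineMap.lineMap_continuous).continuousOn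
  have hmem : 3 * ρ ∈ Icc (infDist (AffineMap.lineMap x a (0 : ℝ) : ℂ) C) (infDist (AffineMap.lineMap x a (1 : ℝ) : ℂ) C) := by
    rw [AffineMap.lineMap_apply_zero, AffineMap.lineMap_apply_one, infDist_zero_of_mem hxC]
    exact ⟨by positivity, ha'⟩
  obtain ⟨t, ht, hpt⟩ := intermediate_value_Icc (zero_le_one' ℝ) hcont hmem
  set p : ℂ := AffineMap.lineMap x a t with hp
  have hpt' : infDist p C = 3 * ρ := hpt
  have haB : a ∈ closedBall z ‖z - a‖ := by rw [mem_closedBall, dist_eq_norm, norm_sub_rev]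
  have hpB : p ∈ closedBall z ‖z - a‖ := by
    have : p ∈ segment ℝ x a := by
      rw [segment_eq_image_lineMap]
      exact ⟨t, ht, rfl⟩
    exact (convex_closedBall z _).segment_subset hx haB this
  rw [mem_closedBall, dist_eq_norm, norm_sub_rev] at hpB
  -- the radius is large
  have hr : 3 / 2 * ρ ≤ ‖z - a‖ := by
    have h1 : infDist a C ≤ dist a x := infDist_le_dist_of_mem hxC
    have h2 : dist a x ≤ dist a z + dist z x := dist_triangle _ _ _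
    rw [mem_closedBall, dist_comm] at hx
    have h3 : dist a z = ‖z - a‖ := by rw [dist_eq_norm, norm_sub_rev]
    linarith
  -- the point `y` deep in the disc, in the collar
  obtain ⟨y, hyp, hyz⟩ : ∃ y : ℂ, dist y p ≤ 3 / 2 * ρ ∧ ‖z - y‖ + 3 / 2 * ρ ≤ ‖z - a‖ := by
    by_cases hcase : 3 / 2 * ρ ≤ ‖z - p‖
    · have hpos : 0 < ‖z - p‖ := lt_of_lt_of_le (by positivity) hcase
      refine ⟨p + ((3 / 2 * ρ / ‖z - p‖ : ℝ) : ℂ) * (z - p), ?_, ?_⟩
      · rw [dist_eq_norm, add_sub_cancel_left, norm_mul, Complex.norm_real, Real.norm_of_nonneg (by positivity), div_mul_cancel₀ _ hpos.ne']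
      · have e : z - (p + ((3 / 2 * ρ / ‖z - p‖ : ℝ) : ℂ) * (z - p)) = ((1 - 3 / 2 * ρ / ‖z - p‖ : ℝ) : ℂ) * (z - p) := by
          push_cast; ring
        have h0 : 0 ≤ 1 - 3 / 2 * ρ / ‖z - p‖ := by
          rw [sub_nonneg, div_le_one hpos]; exact hcase
        rw [e, norm_mul, Complex.norm_real, Real.norm_of_nonneg h0, sub_mul, one_mul, div_mul_cancel₀ _ hpos.ne']
        linarith
    · refine ⟨z, ?_, ?_⟩
      · rw [dist_eq_norm]; exact (not_le.1 hcase).le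
      · rw [sub_self, norm_zero]; linarith
  have h1 : infDist p C ≤ infDist y C + dist p y := infDist_le_infDist_add_dist
  have h2 : infDist y C ≤ infDist p C + dist y p := infDist_le_infDist_add_dist
  rw [dist_comm] at h1
  obtain ⟨u, hu, hyu⟩ := hd y ⟨by linarith, by linarith⟩
  have h3 := hz u hu
  have h4 : ‖z - u‖ ≤ ‖z - y‖ + ‖y - u‖ := by
    calc ‖z - u‖ = ‖(z - y) + (y - u)‖ := by ring_nf
      _ ≤ _ := norm_add_le _ _
  linarith

/-- a site which serves a point of the collar is off `C` -/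
theorem pvge_collar_off {y u : ℂ} (hy : y ∈ pvgeCollar C ρ) (hyu : ‖y - u‖ ≤ ρ) : u ∉ C := fun hu => by
  have h1 : infDist y C ≤ dist y u := infDist_le_dist_of_mem hu
  rw [dist_eq_norm] at h1
  exact absurd hy.1 (not_lt.2 (h1.trans hyu))

/-- the mesh event of the collar is read OFF `C` -/
theorem pvge_collar_transfer (hYY : Y \ C = Y' \ C) (hd : VorDense Y (pvgeCollar C ρ) ρ) : VorDense Y' (pvgeCollar C ρ) ρ := fun y hy => by
  obtain ⟨u, hu, hyu⟩ := hd y hy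
  have : u ∈ Y' \ C := hYY ▸ ⟨hu, pvge_collar_off hy hyu⟩
  exact ⟨u, this.1, hyu⟩

theorem pvge_collar_congr (hYY : Y \ C = Y' \ C) : VorDense Y (pvgeCollar C ρ) ρ ↔ VorDense Y' (pvgeCollar C ρ) ρ :=
  ⟨pvge_collar_transfer hYY, pvge_collar_transfer hYY.symm⟩

theorem pvge_far_notMem (hρ : 0 < ρ) (ha : a ∈ pvgeFar C ρ) : a ∉ C := fun h => by
  have h1 : 3 * ρ ≤ infDist a C := ha
  rw [infDist_zero_of_mem h] at h1
  linarith

theorem pvge_far_site (hρ : 0 < ρ) (hYY : Y \ C = Y' \ C) (ha : a ∈ pvgeFar C ρ) : a ∈ Y ↔ a ∈ Y' := by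
  have key : ∀ {Y Y' : Set ℂ}, Y \ C = Y' \ C → a ∈ Y → a ∈ Y' := fun {Y Y'} h h1 => by
    have : a ∈ Y' \ C := by rw [← h]; exact ⟨h1, pvge_far_notMem hρ ha⟩
    exact this.1
  exact ⟨key hYY, key hYY.symm⟩

theorem pvge_far_cell_sub (hρ : 0 < ρ) (hYY : Y \ C = Y' \ C) (hd : VorDense Y (pvgeCollar C ρ) ρ) (ha : a ∈ pvgeFar C ρ) : vorCell Y a ⊆ vorCell Y' a := by
  intro z hz u hu
  by_cases huC : u ∈ C
  · by_contra hlt
    refine disjoint_left.1 (pvge_no_bridge hρ hd ha hz) ?_ huC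
    rw [mem_closedBall, dist_eq_norm, norm_sub_rev]
    exact (not_le.1 hlt).le
  · have : u ∈ Y \ C := by rw [hYY]; exact ⟨hu, huC⟩
    exact hz u this.1

/-- **FAR CELLS**: the sites are changed arbitrarily INSIDE `C`, mesh on the collar of `C` only: the Voronoi cells of the far points do not change -/
theorem pvge_far_cell (hρ : 0 < ρ) (hYY : Y \ C = Y' \ C) (hd : VorDense Y (pvgeCollar C ρ) ρ) (ha : a ∈ pvgeFar C ρ) : vorCell Y a = vorCell Y' a :=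
  Subset.antisymm (pvge_far_cell_sub hρ hYY hd ha) (pvge_far_cell_sub hρ hYY.symm (pvge_collar_transfer hYY hd) ha)

/-- a site whose cell meets the cell of a far site is off `C` -/
theorem pvge_far_nbr_off (hρ : 0 < ρ) (hd : VorDense Y (pvgeCollar C ρ) ρ) (ha : a ∈ pvgeFar C ρ) (haY : a ∈ Y) (hb : b ∈ Y) (hza : z ∈ vorCell Y a) (hzb : z ∈ vorCell Y b) :
    b ∉ C := fun hbC => by
  refine disjoint_left.1 (pvge_no_bridge hρ hd ha hza) ?_ hbC
  rw [mem_closedBall, dist_eq_norm, norm_sub_rev, vor_equidist haY hb hza hzb]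

theorem pvge_far_adj_aux (hρ : 0 < ρ) (hYY : Y \ C = Y' \ C) (hd : VorDense Y (pvgeCollar C ρ) ρ) (ha : a ∈ pvgeFar C ρ) (h : DelAdj Y a b) : DelAdj Y' a b := by
  obtain ⟨haY, hbY, hab, z, hza, hzb⟩ := h
  have hza' := pvge_far_cell_sub hρ hYY hd ha hza
  have hb' : b ∈ Y' \ C := hYY ▸ ⟨hbY, pvge_far_nbr_off hρ hd ha haY hbY hza hzb⟩
  exact ⟨(pvge_far_site hρ hYY ha).1 haY, hb'.1, hab, z, hza', vor_mem_of_equidist hza' (vor_equidist haY hbY hza hzb)⟩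

/-- **FAR EDGES** -/
theorem pvge_far_adj (hρ : 0 < ρ) (hYY : Y \ C = Y' \ C) (hd : VorDense Y (pvgeCollar C ρ) ρ) (ha : a ∈ pvgeFar C ρ) : DelAdj Y a b ↔ DelAdj Y' a b :=
  ⟨pvge_far_adj_aux hρ hYY hd ha, pvge_far_adj_aux hρ hYY.symm (pvge_collar_transfer hYY hd) ha⟩

theorem pvge_far_tri_aux (hρ : 0 < ρ) (hYY : Y \ C = Y' \ C) (hd : VorDense Y (pvgeCollar C ρ) ρ) (ha : a ∈ pvgeFar C ρ) (h : DelTri Y a b c) : DelTri Y' a b c := by
  obtain ⟨haY, hbY, hcY, hdet, z, ⟨hza, hzb⟩, hzc⟩ := h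
  have hza' := pvge_far_cell_sub hρ hYY hd ha hza
  have hb' : b ∈ Y' \ C := hYY ▸ ⟨hbY, pvge_far_nbr_off hρ hd ha haY hbY hza hzb⟩
  have hc' : c ∈ Y' \ C := hYY ▸ ⟨hcY, pvge_far_nbr_off hρ hd ha haY hcY hza hzc⟩
  exact ⟨(pvge_far_site hρ hYY ha).1 haY, hb'.1, hc'.1, hdet, z, ⟨hza', vor_mem_of_equidist hza' (vor_equidist haY hbY hza hzb)⟩,
    vor_mem_of_equidist hza' (vor_equidist haY hcY hza hzc)⟩

/-- **FAR TRIANGLES**: all the Delaunay triangles at a far site are read off `C` -/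
theorem pvge_far_tri (hρ : 0 < ρ) (hYY : Y \ C = Y' \ C) (hd : VorDense Y (pvgeCollar C ρ) ρ) (ha : a ∈ pvgeFar C ρ) : DelTri Y a b c ↔ DelTri Y' a b c :=
  ⟨pvge_far_tri_aux hρ hYY hd ha, pvge_far_tri_aux hρ hYY.symm (pvge_collar_transfer hYY hd) ha⟩

/-- the vertices of a Delaunay triangle at a far site are off `C` -/
theorem pvge_far_tri_off (hρ : 0 < ρ) (hd : VorDense Y (pvgeCollar C ρ) ρ) (ha : a ∈ pvgeFar C ρ) (h : DelTri Y a b c) : b ∉ C ∧ c ∉ C := by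
  obtain ⟨haY, hbY, hcY, -, z, ⟨hza, hzb⟩, hzc⟩ := h
  exact ⟨pvge_far_nbr_off hρ hd ha haY hbY hza hzb, pvge_far_nbr_off hρ hd ha haY hcY hza hzc⟩

/-- **FAR ROTATION SYSTEM** -/
theorem pvge_far_apex (hρ : 0 < ρ) (hYY : Y \ C = Y' \ C) (hd : VorDense Y (pvgeCollar C ρ) ρ) (ha : a ∈ pvgeFar C ρ) (gp : VorGP Y') (h : ∃ c, DelTri Y a b c) :
    delApex Y' a b = delApex Y a b :=
  del_apex_eq gp ((pvge_far_tri hρ hYY hd ha).1 (del_apex_tri h))

/-- **FAR CHAINS**: a Delaunay chain through far sites is read off `C` -/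
theorem pvge_far_chain {W : Set ℂ} (hρ : 0 < ρ) (hYY : Y \ C = Y' \ C) (hd : VorDense Y (pvgeCollar C ρ) ρ) (hW : W ⊆ pvgeFar C ρ) (h : PvgeCh Y W a b) : PvgeCh Y' W a b :=
  ReflTransGen.mono (fun _ _ huv => ⟨((pvge_far_adj hρ hYY hd (hW huv.2)).1 huv.1.symm).symm, huv.2⟩) _ _ h

/-! ### `Conf` forms: what is read from `Cᶜ ×ˢ univ` -/

theorem pvge_sites_restr_compl (C : Set ℂ) (η : Conf PvPt) : cfSites (Conf.restr (Cᶜ ×ˢ univ) η) \ C = cfSites η \ C := by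
  rw [pvtr_sites_restr]
  ext v
  simp only [mem_sdiff, mem_inter_iff, mem_compl_iff]
  tauto

theorem pvge_reads_collar (C : Set ℂ) (ρ : ℝ) : Conf.Reads (Cᶜ ×ˢ univ) (fun η : Conf PvPt => VorDense (cfSites η) (pvgeCollar C ρ) ρ) := fun η =>
  propext (pvge_collar_congr (pvge_sites_restr_compl C η))

theorem pvge_reads_far_tri (hρ : 0 < ρ) (ha : a ∈ pvgeFar C ρ) :
    Conf.Reads (Cᶜ ×ˢ univ) (fun η : Conf PvPt => VorDense (cfSites η) (pvgeCollar C ρ) ρ ∧ DelTri (cfSites η) a b c) := fun η => by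
  have hYY := pvge_sites_restr_compl C η
  exact propext ⟨fun h => ⟨(pvge_collar_congr hYY).1 h.1, (pvge_far_tri hρ hYY h.1 ha).1 h.2⟩,
    fun h => ⟨(pvge_collar_congr hYY).2 h.1, (pvge_far_tri hρ hYY.symm h.1 ha).1 h.2⟩⟩

theorem pvge_reads_far_adj (hρ : 0 < ρ) (ha : a ∈ pvgeFar C ρ) :
    Conf.Reads (Cᶜ ×ˢ univ) (fun η : Conf PvPt => VorDense (cfSites η) (pvgeCollar C ρ) ρ ∧ DelAdj (cfSites η) a b) := fun η => by
  have hYY := pvge_sites_restr_compl C η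
  exact propext ⟨fun h => ⟨(pvge_collar_congr hYY).1 h.1, (pvge_far_adj hρ hYY h.1 ha).1 h.2⟩,
    fun h => ⟨(pvge_collar_congr hYY).2 h.1, (pvge_far_adj hρ hYY.symm h.1 ha).1 h.2⟩⟩

/-! ### polyomino forms: `C = pvtU δ E` -/

theorem pvge_U_nonempty (hδ : 0 < δ) (hE : E.Nonempty) : (pvtU δ E).Nonempty := by
  obtain ⟨k, hk⟩ := hE
  exact ⟨pvtCtr δ k, mem_biUnion hk (pvt_sq_ctr hδ.le)⟩

/-- the cells off the collar `N8 E` are far from `pvtU δ E` -/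
theorem pvge_poly_far (hδ : 0 < δ) (h3 : 3 * ρ ≤ δ) (hE : E.Nonempty) : pvtU δ (pvtN8 E)ᶜ ⊆ pvgeFar (pvtU δ E) ρ := by
  intro q hq
  refine h3.trans ((le_infDist (pvge_U_nonempty hδ hE)).2 fun p hp => ?_)
  rw [dist_eq_norm, norm_sub_rev]
  exact pvt_N8_far hδ hp hq

/-- the collar lies in the cells of `N8 E` -/
theorem pvge_poly_collar (hδ : 0 < δ) (h5 : 5 * ρ < δ) (hE : E.Nonempty) : pvgeCollar (pvtU δ E) ρ ⊆ pvtU δ (pvtN8 E) := by
  intro y hy
  obtain ⟨p, hp, hyp⟩ := (infDist_lt_iff (pvge_U_nonempty hδ hE)).1 (hy.2.trans_lt h5)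
  rw [dist_eq_norm] at hyp
  exact pvt_N8_U hδ hp hyp.le

theorem pvge_poly_collar_dense (hδ : 0 < δ) (h5 : 5 * ρ < δ) (hE : E.Nonempty) (hd : VorDense Y (pvtU δ (pvtN8 E)) ρ) : VorDense Y (pvgeCollar (pvtU δ E) ρ) ρ :=
  hd.mono Subset.rfl (pvge_poly_collar hδ h5 hE) le_rfl

/-- **RESAMPLING INSIDE A POLYOMINO**: `Y`, `Y'` equal off `C = pvtU δ E`, mesh on `pvtU δ (pvtN8 E)`, `5ρ < δ`: the same cells, edges, triangles at all the points of the cells off `N8 E` -/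
theorem pvge_poly_far_all (hδ : 0 < δ) (hρ : 0 < ρ) (h5 : 5 * ρ < δ) (hE : E.Nonempty) (hYY : Y \ pvtU δ E = Y' \ pvtU δ E) (hd : VorDense Y (pvtU δ (pvtN8 E)) ρ)
    (ha : a ∈ pvtU δ (pvtN8 E)ᶜ) : vorCell Y a = vorCell Y' a ∧ (∀ b, DelAdj Y a b ↔ DelAdj Y' a b) ∧ ∀ b c, DelTri Y a b c ↔ DelTri Y' a b c := by
  have hd' := pvge_poly_collar_dense hδ h5 hE hd
  have ha' := pvge_poly_far hδ (by linarith : 3 * ρ ≤ δ) hE ha
  exact ⟨pvge_far_cell hρ hYY hd' ha', fun _ => pvge_far_adj hρ hYY hd' ha', fun _ _ => pvge_far_tri hρ hYY hd' ha'⟩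

end far

end Claimed.Agent.R289
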