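import Claimed.Agent.R289.Tr.Ind
import Claimed.Agent.R289.PppPv

/-!
# Row 289 (S0537), wall block WB4 CELLS, file Tr/CellInv : THE INVARIANCE LAYER OF THE CELLS (TR25, I.INV in the form the cells consume)      (helper52; prefix `pvci_`, `pvci`)

"cell means are EXACT constants by grid translations + rotation by i (+ scaling)".      No geometry: everything is a change of variables `η ↦ Conf.image g η`.
* §1 generic (`g : E ≃ F`): `pvci_image_id/_image/_symm/_symm'`, `pvci_image_restr`, `pvci_image_union`, `pvci_image_spl` : the image commutes with restriction, union, splice.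
* §2 TRANSPORT of a functional `pvciT g f := f ∘ Conf.image g.symm` (the functional `f` carried to the frame `g`): `pvci_T_image`, `pvci_T_reads` (reads `g '' W`), `pvci_T_measurable`,
     `pvci_lintegral_T`, `pvci_integral_T`, `pvci_measure_T` (`μ' = μ.map (Conf.image g)`).
* §3 covariance of the conditional objects of `Tr/Ind` : `pvci_P_T` (`pvtiP`), `pvci_W_T` (`pvtiW`), `pvci_mean_T` (`pvtiMean`, with a complex factor `c` = the rotation of the vector valued increment).
* §4 the model: `pvciAff a b` = the map `z ↦ a z + b` as a measurable equivalence of `PvPt`, `pvci_law_aff` : `(pvP ε).map (image) = pvP (‖a‖ ε)`;   composition law `pvci_aff_comp`.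
* §5 CELL CONSTANT `pvciK μ O Γ A X` = mean of `X` under the two-plug weight `1_Γ/μ(Γ) 1_A/P(A | O)` (`Γ = G_u ∩ G_u'`, `O = O_u ∪ O_u'`);  **`pvci_K_aff`** : the constant of the cell carried to the frame `(a, b)`, increment rotated by `a`, at mesh `‖a‖ ε`, is `a *` the constant of the reference cell.
     `pvci_K_frame` : `‖d‖ = 1` (same `ε`): `k(z, d) = d * k(0, 1)` = TR25.   Same for `pvciI` (`i_e`), `pvciKo` (`kout_e`, `kin_e`), `pvtiP` (lower bounds `q_cell` are uniform), probabilities.
-/

set_option autoImplicit false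
set_option linter.unusedSectionVars false

namespace Claimed.Agent.R289

open MeasureTheory ProbabilityTheory Set Filter Topology
open scoped ENNReal NNReal

/-! ## 1. the image commutes with everything -/

section generic

variable {E F G : Type*}

theorem pvci_image_id (η : Conf E) : Conf.image id η = η := by
  ext p; simp [Conf.image]

theorem pvci_image_image (g : E → F) (g' : F → G) (η : Conf E) : Conf.image g' (Conf.image g η) = Conf.image (g' ∘ g) η := by
  ext p; simp [Conf.image]

theorem pvci_image_symm (g : E ≃ F) (η : Conf E) : Conf.image g.symm (Conf.image g η) = η := by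
  rw [pvci_image_image, Equiv.symm_comp_self, pvci_image_id]

theorem pvci_image_symm' (g : E ≃ F) (η : Conf F) : Conf.image g (Conf.image g.symm η) = η := by
  rw [pvci_image_image, Equiv.self_comp_symm, pvci_image_id]

theorem pvci_image_restr {g : E → F} (hg : Function.Injective g) (O : Set E) (η : Conf E) :
    Conf.image g (Conf.restr O η) = Conf.restr (g '' O) (Conf.image g η) := by
  ext p
  simp only [Conf.image, Conf.restr]
  rw [Set.image_inter hg]

theorem pvci_image_union (g : E → F) (η η' : Conf E) : Conf.image g (Conf.union η η') = Conf.union (Conf.image g η) (Conf.image g η') := by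
  ext p
  simp only [Conf.image, Conf.union]
  rw [Set.image_union]

theorem pvci_image_spl (g : E ≃ F) (O : Set E) (σ η : Conf E) :
    Conf.image g (Conf.spl O (σ, η)) = Conf.spl (g '' O) (Conf.image g σ, Conf.image g η) := by
  unfold Conf.spl
  rw [pvci_image_union, pvci_image_restr g.injective, pvci_image_restr g.injective, Set.image_compl_eq g.bijective]

/-! ## 2. transport of a functional -/

/-- the functional `f` carried by `g` : `(pvciT g f) (g η) = f η` -/
def pvciT {β : Type*} (g : E ≃ F) (f : Conf E → β) (η : Conf F) : β := f (Conf.image g.symm η)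

theorem pvci_eqns_cite : True := by
  have := @pvciT.eq_1.{0, 0, 0}
  trivial

theorem pvci_T_image {β : Type*} (g : E ≃ F) (f : Conf E → β) (η : Conf E) : pvciT g f (Conf.image g η) = f η := by
  unfold pvciT; rw [pvci_image_symm]

theorem pvci_T_reads {β : Type*} (g : E ≃ F) {W : Set E} {f : Conf E → β} (h : Conf.Reads W f) : Conf.Reads (g '' W) (pvciT g f) := fun η => by
  unfold pvciT
  rw [pvci_image_restr g.symm.injective, Equiv.symm_image_image]
  exact h _

theorem pvci_T_spl {β : Type*} (g : E ≃ F) (f : Conf E → β) (O : Set E) (σ η : Conf E) :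
    pvciT g f (Conf.spl (g '' O) (Conf.image g σ, Conf.image g η)) = f (Conf.spl O (σ, η)) := by
  rw [← pvci_image_spl, pvci_T_image]

/-- the event `S` carried by `g` -/
theorem pvci_T_mem (g : E ≃ F) (S : Set (Conf E)) (η : Conf F) : pvciT g (fun ξ => ξ ∈ S) η ↔ η ∈ Conf.image g.symm ⁻¹' S := Iff.rfl

theorem pvci_T_indicator {β : Type*} [Zero β] (g : E ≃ F) (S : Set (Conf E)) (f : Conf E → β) :
    pvciT g (S.indicator f) = (Conf.image g.symm ⁻¹' S).indicator (pvciT g f) := by
  funext η
  unfold pvciT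
  by_cases h : Conf.image g.symm η ∈ S
  · rw [Set.indicator_of_mem h, Set.indicator_of_mem (show η ∈ Conf.image g.symm ⁻¹' S from h)]
  · rw [Set.indicator_of_notMem h, Set.indicator_of_notMem (show η ∉ Conf.image g.symm ⁻¹' S from h)]

end generic

section meas

variable {E F : Type*} [MeasurableSpace E] [MeasurableSpace F]

theorem pvci_T_measurable {β : Type*} [MeasurableSpace β] (g : E ≃ᵐ F) {f : Conf E → β} (hf : Measurable f) : Measurable (pvciT g.toEquiv f) :=
  hf.comp (Conf.measurable_image g.symm.measurable)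

theorem pvci_T_measurableSet (g : E ≃ᵐ F) {S : Set (Conf E)} (hS : MeasurableSet S) : MeasurableSet (Conf.image g.toEquiv.symm ⁻¹' S) :=
  Conf.measurable_image g.symm.measurable hS

/-- change of variables, `ℝ≥0∞` (no measurability of `f`: the image is a measurable equivalence of configurations) -/
theorem pvci_lintegral_T (g : E ≃ᵐ F) {μ : Measure (Conf E)} {μ' : Measure (Conf F)} (hμ : μ.map (Conf.image g) = μ') (f : Conf E → ℝ≥0∞) :
    ∫⁻ η, pvciT g.toEquiv f η ∂μ' = ∫⁻ η, f η ∂μ := by
  let Φ : Conf E ≃ᵐ Conf F :=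
    { toFun := Conf.image g
      invFun := Conf.image g.symm
      left_inv := fun η => pvci_image_symm g.toEquiv η
      right_inv := fun η => pvci_image_symm' g.toEquiv η
      measurable_toFun := Conf.measurable_image g.measurable
      measurable_invFun := Conf.measurable_image g.symm.measurable }
  have e : μ' = μ.map Φ := hμ.symm
  rw [e, lintegral_map_equiv]
  refine lintegral_congr fun η => ?_
  exact pvci_T_image g.toEquiv f η

/-- change of variables, Bochner -/
theorem pvci_integral_T {B : Type*} [NormedAddCommGroup B] [NormedSpace ℝ B] (g : E ≃ᵐ F) {μ : Measure (Conf E)} {μ' : Measure (Conf F)}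
    (hμ : μ.map (Conf.image g) = μ') (f : Conf E → B) :
    ∫ η, pvciT g.toEquiv f η ∂μ' = ∫ η, f η ∂μ := by
  let Φ : Conf E ≃ᵐ Conf F :=
    { toFun := Conf.image g
      invFun := Conf.image g.symm
      left_inv := fun η => pvci_image_symm g.toEquiv η
      right_inv := fun η => pvci_image_symm' g.toEquiv η
      measurable_toFun := Conf.measurable_image g.measurable
      measurable_invFun := Conf.measurable_image g.symm.measurable }
  have e : μ' = μ.map Φ := hμ.symm
  rw [e, integral_map_equiv]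
  refine integral_congr_ae (ae_of_all _ fun η => ?_)
  exact pvci_T_image g.toEquiv f η

theorem pvci_measure_T (g : E ≃ᵐ F) {μ : Measure (Conf E)} {μ' : Measure (Conf F)} (hμ : μ.map (Conf.image g) = μ') (S : Set (Conf E)) :
    μ' (Conf.image g.toEquiv.symm ⁻¹' S) = μ S := by
  let Φ : Conf E ≃ᵐ Conf F :=
    { toFun := Conf.image g
      invFun := Conf.image g.symm
      left_inv := fun η => pvci_image_symm g.toEquiv η
      right_inv := fun η => pvci_image_symm' g.toEquiv η
      measurable_toFun := Conf.measurable_image g.measurable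
      measurable_invFun := Conf.measurable_image g.symm.measurable }
  have e : μ' = μ.map Φ := hμ.symm
  rw [e, Φ.map_apply]
  congr 1
  ext η
  show Conf.image g.toEquiv.symm (Conf.image g η) ∈ S ↔ η ∈ S
  rw [show Conf.image g η = Conf.image g.toEquiv η from rfl, pvci_image_symm]

/-! ## 3. covariance of the conditional objects of `Tr/Ind` -/

/-- the conditional probability of the carried event given the carried states -/
theorem pvci_P_T (g : E ≃ᵐ F) {μ : Measure (Conf E)} {μ' : Measure (Conf F)} (hμ : μ.map (Conf.image g) = μ') (O : Set E) (S : Set (Conf E)) :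
    pvtiP μ' (g '' O) (Conf.image g.toEquiv.symm ⁻¹' S) = pvciT g.toEquiv (pvtiP μ O S) := by
  funext σ'
  obtain ⟨σ, rfl⟩ : ∃ σ, Conf.image g.toEquiv σ = σ' := ⟨_, pvci_image_symm' g.toEquiv σ'⟩
  rw [pvci_T_image]
  unfold pvtiP
  rw [← pvci_lintegral_T g hμ]
  refine lintegral_congr fun η' => ?_
  obtain ⟨η, rfl⟩ : ∃ η, Conf.image g.toEquiv η = η' := ⟨_, pvci_image_symm' g.toEquiv η'⟩
  rw [pvci_T_image]
  have := pvci_T_spl g.toEquiv (S.indicator (1 : Conf E → ℝ≥0∞)) O σ η
  rw [pvci_T_indicator] at this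
  exact this

/-- the weight `1_S / P(S | σ)` of the carried event -/
theorem pvci_W_T (g : E ≃ᵐ F) {μ : Measure (Conf E)} {μ' : Measure (Conf F)} (hμ : μ.map (Conf.image g) = μ') (O : Set E) (S : Set (Conf E)) :
    pvtiW μ' (g '' O) (Conf.image g.toEquiv.symm ⁻¹' S) = pvciT g.toEquiv (pvtiW μ O S) := by
  funext η
  unfold pvtiW
  rw [pvci_P_T g hμ]
  have := congrFun (pvci_T_indicator g.toEquiv S (1 : Conf E → ℝ≥0∞)) η
  show (Conf.image g.toEquiv.symm ⁻¹' S).indicator 1 η / _ = S.indicator 1 (Conf.image g.toEquiv.symm η) / pvtiP μ O S (Conf.image g.toEquiv.symm η)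
  congr 1

theorem pvci_withDensity_map {α β : Type*} [MeasurableSpace α] [MeasurableSpace β] (Φ : α ≃ᵐ β) (μ : Measure α) (h : α → ℝ≥0∞) :
    (μ.map Φ).withDensity (fun y => h (Φ.symm y)) = (μ.withDensity h).map Φ := by
  ext s hs
  rw [withDensity_apply _ hs, Φ.map_apply, withDensity_apply _ (Φ.measurable hs), Φ.restrict_map, lintegral_map_equiv]
  simp

/-- **the weighted mean of the carried increment** (rotated by `c`) given the carried states -/
theorem pvci_mean_T (g : E ≃ᵐ F) {μ : Measure (Conf E)} {μ' : Measure (Conf F)} (hμ : μ.map (Conf.image g) = μ') (O : Set E)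
    (w : Conf E → ℝ≥0∞) (Y : Conf E → ℂ) (c : ℂ) :
    pvtiMean μ' (g '' O) (pvciT g.toEquiv w) (fun η => c * pvciT g.toEquiv Y η) = fun σ => c * pvciT g.toEquiv (pvtiMean μ O w Y) σ := by
  funext σ'
  obtain ⟨σ, rfl⟩ : ∃ σ, Conf.image g.toEquiv σ = σ' := ⟨_, pvci_image_symm' g.toEquiv σ'⟩
  rw [pvci_T_image]
  unfold pvtiMean
  let Φ : Conf E ≃ᵐ Conf F :=
    { toFun := Conf.image g
      invFun := Conf.image g.symm
      left_inv := fun η => pvci_image_symm g.toEquiv η
      right_inv := fun η => pvci_image_symm' g.toEquiv η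
      measurable_toFun := Conf.measurable_image g.measurable
      measurable_invFun := Conf.measurable_image g.symm.measurable }
  have e : μ' = μ.map Φ := hμ.symm
  have hd : (fun η' => pvciT g.toEquiv w (Conf.spl (g '' O) (Conf.image g.toEquiv σ, η'))) = fun η' => (fun η => w (Conf.spl O (σ, η))) (Φ.symm η') := by
    funext η'
    obtain ⟨η, rfl⟩ : ∃ η, Conf.image g.toEquiv η = η' := ⟨_, pvci_image_symm' g.toEquiv η'⟩
    have h1 : Φ.symm (Conf.image g.toEquiv η) = η := pvci_image_symm g.toEquiv η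
    rw [h1]
    exact pvci_T_spl g.toEquiv w O σ η
  rw [hd, e, pvci_withDensity_map Φ μ (fun η => w (Conf.spl O (σ, η))), integral_map_equiv, integral_const_mul]
  congr 1
  refine integral_congr_ae (ae_of_all _ fun η => ?_)
  exact pvci_T_spl g.toEquiv Y O σ η

/-- change of variables under a carried density, Bochner -/
theorem pvci_integral_withDensity_T {B : Type*} [NormedAddCommGroup B] [NormedSpace ℝ B] (g : E ≃ᵐ F) {μ : Measure (Conf E)} {μ' : Measure (Conf F)}
    (hμ : μ.map (Conf.image g) = μ') (w : Conf E → ℝ≥0∞) (f : Conf E → B) :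
    ∫ η, pvciT g.toEquiv f η ∂(μ'.withDensity (pvciT g.toEquiv w)) = ∫ η, f η ∂(μ.withDensity w) := by
  let Φ : Conf E ≃ᵐ Conf F :=
    { toFun := Conf.image g
      invFun := Conf.image g.symm
      left_inv := fun η => pvci_image_symm g.toEquiv η
      right_inv := fun η => pvci_image_symm' g.toEquiv η
      measurable_toFun := Conf.measurable_image g.measurable
      measurable_invFun := Conf.measurable_image g.symm.measurable }
  have e : μ' = μ.map Φ := hμ.symm
  have hd : pvciT g.toEquiv w = fun η' => w (Φ.symm η') := rfl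
  rw [hd, e, pvci_withDensity_map Φ μ w, integral_map_equiv]
  refine integral_congr_ae (ae_of_all _ fun η => ?_)
  exact pvci_T_image g.toEquiv f η

/-- the carried density: the measure itself -/
theorem pvci_withDensity_T (g : E ≃ᵐ F) {μ : Measure (Conf E)} {μ' : Measure (Conf F)} (hμ : μ.map (Conf.image g) = μ') (w : Conf E → ℝ≥0∞) :
    (μ.withDensity w).map (Conf.image g) = μ'.withDensity (pvciT g.toEquiv w) := by
  let Φ : Conf E ≃ᵐ Conf F :=
    { toFun := Conf.image g
      invFun := Conf.image g.symm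
      left_inv := fun η => pvci_image_symm g.toEquiv η
      right_inv := fun η => pvci_image_symm' g.toEquiv η
      measurable_toFun := Conf.measurable_image g.measurable
      measurable_invFun := Conf.measurable_image g.symm.measurable }
  have e : μ' = μ.map Φ := hμ.symm
  have hd : pvciT g.toEquiv w = fun η' => w (Φ.symm η') := rfl
  rw [hd, e, pvci_withDensity_map Φ μ w]
  rfl

/-- conditioning on the carried event -/
theorem pvci_cond_T (g : E ≃ᵐ F) {μ : Measure (Conf E)} {μ' : Measure (Conf F)} (hμ : μ.map (Conf.image g) = μ') (Γ : Set (Conf E)) :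
    (ProbabilityTheory.cond μ Γ).map (Conf.image g) = ProbabilityTheory.cond μ' (Conf.image g.toEquiv.symm ⁻¹' Γ) := by
  let Φ : Conf E ≃ᵐ Conf F :=
    { toFun := Conf.image g
      invFun := Conf.image g.symm
      left_inv := fun η => pvci_image_symm g.toEquiv η
      right_inv := fun η => pvci_image_symm' g.toEquiv η
      measurable_toFun := Conf.measurable_image g.measurable
      measurable_invFun := Conf.measurable_image g.symm.measurable }
  have e : μ' = μ.map Φ := hμ.symm
  unfold ProbabilityTheory.cond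
  rw [pvci_measure_T g hμ, Measure.map_smul]
  congr 1
  rw [e, Φ.restrict_map]
  congr 2
  ext η
  show η ∈ Γ ↔ Conf.image g.toEquiv.symm (Conf.image g.toEquiv η) ∈ Γ
  rw [pvci_image_symm]

/-! ### the constants of a connector -/

/-- `i_e(σ)` : the mean of the increment `X` given the states `σ ∩ O`, under the weight `1_A / P(A | σ)` -/
noncomputable def pvciI (μ : Measure (Conf E)) (O : Set E) (A : Set (Conf E)) (X : Conf E → ℂ) : Conf E → ℂ := pvtiMean μ O (pvtiW μ O A) X

/-- `k_e` : the mean of `i_e` under the law of the states conditioned on `Γ` (`Γ = G_u ∩ G_u'`) -/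
noncomputable def pvciK (μ : Measure (Conf E)) (O : Set E) (Γ A : Set (Conf E)) (X : Conf E → ℂ) : ℂ := ∫ σ, pvciI μ O A X σ ∂(ProbabilityTheory.cond μ Γ)

/-- `kout_e(σ)` / `kin_e(σ)` : the mean of `i_e` when the state in `U ⊆ O` is kept and the other one is resampled under the law conditioned on `Γ'` -/
noncomputable def pvciKo (μ : Measure (Conf E)) (O U : Set E) (Γ' A : Set (Conf E)) (X : Conf E → ℂ) (σ : Conf E) : ℂ :=
  ∫ η, pvciI μ O A X (Conf.spl U (σ, η)) ∂(ProbabilityTheory.cond μ Γ')

theorem pvci_eqns_cite2 : True := by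
  have := @pvciI.eq_1.{0}
  have := @pvciK.eq_1.{0}
  have := @pvciKo.eq_1.{0}
  trivial

theorem pvci_I_reads (μ : Measure (Conf E)) (O : Set E) (A : Set (Conf E)) (X : Conf E → ℂ) : Conf.Reads O (pvciI μ O A X) := pvti_mean_reads μ O _ X

theorem pvci_Ko_reads (μ : Measure (Conf E)) (O U : Set E) (Γ' A : Set (Conf E)) (X : Conf E → ℂ) : Conf.Reads U (pvciKo μ O U Γ' A X) := fun σ => by
  unfold pvciKo
  simp_rw [Conf.spl_restr]

theorem pvci_I_T (g : E ≃ᵐ F) {μ : Measure (Conf E)} {μ' : Measure (Conf F)} (hμ : μ.map (Conf.image g) = μ') (O : Set E) (A : Set (Conf E))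
    (X : Conf E → ℂ) (c : ℂ) :
    pvciI μ' (g '' O) (Conf.image g.toEquiv.symm ⁻¹' A) (fun η => c * pvciT g.toEquiv X η) = fun σ => c * pvciT g.toEquiv (pvciI μ O A X) σ := by
  unfold pvciI
  rw [pvci_W_T g hμ, pvci_mean_T g hμ]

/-- **covariance of the constant of a connector** -/
theorem pvci_K_T (g : E ≃ᵐ F) {μ : Measure (Conf E)} {μ' : Measure (Conf F)} (hμ : μ.map (Conf.image g) = μ') (O : Set E) (Γ A : Set (Conf E)) (X : Conf E → ℂ) (c : ℂ) :
    pvciK μ' (g '' O) (Conf.image g.toEquiv.symm ⁻¹' Γ) (Conf.image g.toEquiv.symm ⁻¹' A) (fun η => c * pvciT g.toEquiv X η) = c * pvciK μ O Γ A X := by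
  unfold pvciK
  rw [pvci_I_T g hμ, integral_const_mul, pvci_integral_T g (pvci_cond_T g hμ _)]

/-- **covariance of the one-sided means** -/
theorem pvci_Ko_T (g : E ≃ᵐ F) {μ : Measure (Conf E)} {μ' : Measure (Conf F)} (hμ : μ.map (Conf.image g) = μ') (O U : Set E) (Γ' A : Set (Conf E)) (X : Conf E → ℂ) (c : ℂ) :
    pvciKo μ' (g '' O) (g '' U) (Conf.image g.toEquiv.symm ⁻¹' Γ') (Conf.image g.toEquiv.symm ⁻¹' A) (fun η => c * pvciT g.toEquiv X η)
      = fun σ => c * pvciT g.toEquiv (pvciKo μ O U Γ' A X) σ := by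
  funext σ'
  obtain ⟨σ, rfl⟩ : ∃ σ, Conf.image g.toEquiv σ = σ' := ⟨_, pvci_image_symm' g.toEquiv σ'⟩
  rw [pvci_T_image]
  unfold pvciKo
  rw [pvci_I_T g hμ, integral_const_mul, ← pvci_integral_T g (pvci_cond_T g hμ _)]
  congr 1
  refine integral_congr_ae (ae_of_all _ fun η' => ?_)
  obtain ⟨η, rfl⟩ : ∃ η, Conf.image g.toEquiv η = η' := ⟨_, pvci_image_symm' g.toEquiv η'⟩
  rw [pvci_T_image]
  exact pvci_T_spl g.toEquiv _ U σ η

end meas

/-! ## 4. the model: the maps `z ↦ a z + b` -/

section model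

/-- the map `z ↦ a z + b` on coloured points -/
noncomputable def pvciAff (a b : ℂ) (ha : a ≠ 0) : PvPt ≃ᵐ PvPt where
  toFun p := (a * p.1 + b, p.2)
  invFun p := ((p.1 - b) / a, p.2)
  left_inv p := by
    refine Prod.ext ?_ rfl
    show (a * p.1 + b - b) / a = p.1
    field_simp
    ring
  right_inv p := by
    refine Prod.ext ?_ rfl
    show a * ((p.1 - b) / a) + b = p.1
    field_simp
    ring
  measurable_toFun := by
    show Measurable fun p : PvPt => (a * p.1 + b, p.2)
    fun_prop
  measurable_invFun := by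
    show Measurable fun p : PvPt => ((p.1 - b) / a, p.2)
    fun_prop

theorem pvci_eqns_cite3 : True := by
  have := @pvciAff.eq_1
  trivial

theorem pvci_aff_apply (a b : ℂ) (ha : a ≠ 0) (p : PvPt) : pvciAff a b ha p = (a * p.1 + b, p.2) := rfl

theorem pvci_aff_symm_apply (a b : ℂ) (ha : a ≠ 0) (p : PvPt) : (pvciAff a b ha).symm p = ((p.1 - b) / a, p.2) := rfl

theorem pvci_aff_image (a b : ℂ) (ha : a ≠ 0) : Conf.image (pvciAff a b ha) = cfMap fun z => a * z + b := rfl

/-- the lift of a planar region -/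
theorem pvci_aff_image_fst (a b : ℂ) (ha : a ≠ 0) (U : Set ℂ) : pvciAff a b ha '' (Prod.fst ⁻¹' U) = Prod.fst ⁻¹' ((fun z => a * z + b) '' U) := by
  ext p
  constructor
  · rintro ⟨q, hq, rfl⟩
    exact ⟨q.1, hq, rfl⟩
  · rintro ⟨z, hz, e⟩
    exact ⟨(z, p.2), hz, Prod.ext e rfl⟩

theorem pvci_rot_preserving {u : ℂ} (hu : ‖u‖ = 1) (b : ℂ) : MeasurePreserving (fun z : ℂ => u * z + b) volume volume := by
  have h1 := (rotation ⟨u, mem_sphere_zero_iff_norm.2 hu⟩).measurePreserving
  have h2 := measurePreserving_add_right (volume : Measure ℂ) b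
  exact h2.comp h1

theorem pvci_cfMap_comp (g g' : ℂ → ℂ) (η : Conf PvPt) : cfMap g (cfMap g' η) = cfMap (g ∘ g') η := by
  unfold cfMap
  rw [pvci_image_image]
  rfl

/-- **I.INV + SCALE in one line** : the image of the model at mesh `ε` under `z ↦ a z + b` is the model at mesh `‖a‖ ε` -/
theorem pvci_law_aff (a b : ℂ) (ha : a ≠ 0) (ε : ℝ) : (pvP ε).map (Conf.image (pvciAff a b ha)) = pvP (‖a‖ * ε) := by
  have hn : ‖a‖ ≠ 0 := norm_ne_zero_iff.2 ha
  have hu : ‖a / (‖a‖ : ℂ)‖ = 1 := by
    rw [norm_div, Complex.norm_real, norm_norm, div_self hn]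
  have e : cfMap (fun z => a * z + b) = cfMap (fun z => a / (‖a‖ : ℂ) * z + b) ∘ cfMap (fun z => ‖a‖ • z) := by
    funext η
    rw [Function.comp, pvci_cfMap_comp]
    congr 1
    funext z
    have hn' : (‖a‖ : ℂ) ≠ 0 := by exact_mod_cast hn
    simp only [Function.comp, Complex.real_smul]
    field_simp
  rw [pvci_aff_image, e, ← Measure.map_map (measurable_cfMap (pvci_rot_preserving hu b).measurable) (measurable_cfMap (measurable_const_smul _)),
    pvP_scale hn, pvP_map_preserving (pvci_rot_preserving hu b)]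

/-- frames: `‖d‖ = 1` -/
theorem pvci_law_frame (z d : ℂ) (hd : ‖d‖ = 1) (ε : ℝ) : (pvP ε).map (Conf.image (pvciAff d z (by rintro rfl; simp at hd))) = pvP ε := by
  rw [pvci_law_aff, hd, one_mul]

/-- **TR25 with scaling**: the constant of the connector carried by `z ↦ a z + b`, with the increment multiplied by `a`, at mesh `‖a‖ ε` -/
theorem pvci_K_aff (a b : ℂ) (ha : a ≠ 0) (ε : ℝ) (O : Set PvPt) (Γ A : Set (Conf PvPt)) (X : Conf PvPt → ℂ) :
    pvciK (pvP (‖a‖ * ε)) (pvciAff a b ha '' O) (Conf.image (pvciAff a b ha).toEquiv.symm ⁻¹' Γ) (Conf.image (pvciAff a b ha).toEquiv.symm ⁻¹' A)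
      (fun η => a * pvciT (pvciAff a b ha).toEquiv X η) = a * pvciK (pvP ε) O Γ A X :=
  pvci_K_T (pvciAff a b ha) (pvci_law_aff a b ha ε) O Γ A X a

/-- the one-sided means of the carried connector -/
theorem pvci_Ko_aff (a b : ℂ) (ha : a ≠ 0) (ε : ℝ) (O U : Set PvPt) (Γ' A : Set (Conf PvPt)) (X : Conf PvPt → ℂ) :
    pvciKo (pvP (‖a‖ * ε)) (pvciAff a b ha '' O) (pvciAff a b ha '' U) (Conf.image (pvciAff a b ha).toEquiv.symm ⁻¹' Γ')
      (Conf.image (pvciAff a b ha).toEquiv.symm ⁻¹' A) (fun η => a * pvciT (pvciAff a b ha).toEquiv X η)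
      = fun σ => a * pvciT (pvciAff a b ha).toEquiv (pvciKo (pvP ε) O U Γ' A X) σ :=
  pvci_Ko_T (pvciAff a b ha) (pvci_law_aff a b ha ε) O U Γ' A X a

/-- **TR25**: a door `(z, d)`, `‖d‖ = 1` : the constant of the cell in the frame `(z, d)` is `d *` the constant of the reference cell, at the SAME mesh -/
theorem pvci_K_frame (z d : ℂ) (hd : ‖d‖ = 1) (hd0 : d ≠ 0) (ε : ℝ) (O : Set PvPt) (Γ A : Set (Conf PvPt)) (X : Conf PvPt → ℂ) :
    pvciK (pvP ε) (pvciAff d z hd0 '' O) (Conf.image (pvciAff d z hd0).toEquiv.symm ⁻¹' Γ) (Conf.image (pvciAff d z hd0).toEquiv.symm ⁻¹' A)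
      (fun η => d * pvciT (pvciAff d z hd0).toEquiv X η) = d * pvciK (pvP ε) O Γ A X := by
  have := pvci_K_aff d z hd0 ε O Γ A X
  rwa [hd, one_mul] at this

/-- probabilities of carried events -/
theorem pvci_measure_aff (a b : ℂ) (ha : a ≠ 0) (ε : ℝ) (S : Set (Conf PvPt)) :
    pvP (‖a‖ * ε) (Conf.image (pvciAff a b ha).toEquiv.symm ⁻¹' S) = pvP ε S :=
  pvci_measure_T (pvciAff a b ha) (pvci_law_aff a b ha ε) S

/-- conditional probabilities of carried events: a lower bound `q` on the reference cell is a lower bound on every carried cell -/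
theorem pvci_P_aff (a b : ℂ) (ha : a ≠ 0) (ε : ℝ) (O : Set PvPt) (S : Set (Conf PvPt)) :
    pvtiP (pvP (‖a‖ * ε)) (pvciAff a b ha '' O) (Conf.image (pvciAff a b ha).toEquiv.symm ⁻¹' S) = pvciT (pvciAff a b ha).toEquiv (pvtiP (pvP ε) O S) :=
  pvci_P_T (pvciAff a b ha) (pvci_law_aff a b ha ε) O S

/-- composition of frames -/
theorem pvci_aff_comp (a b a' b' : ℂ) (ha : a ≠ 0) (ha' : a' ≠ 0) (p : PvPt) :
    pvciAff a b ha (pvciAff a' b' ha' p) = pvciAff (a * a') (a * b' + b) (mul_ne_zero ha ha') p := by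
  refine Prod.ext ?_ rfl
  show a * (a' * p.1 + b') + b = a * a' * p.1 + (a * b' + b)
  ring

end model

end Claimed.Agent.R289
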