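import Claimed.Agent.R289.Tr.Ind
import Claimed.Agent.R289.Tr.CellAlg
import Claimed.Agent.R289.Tr.CellInv
import Claimed.Agent.R289.PppPv

/-!
# Row 289 (S0537), wall, chapter E (cells): TR27 (HEXAGON) and TR28 (THE FIELD `V`, UNIFORM BOUNDS)      (owner helper251, second helper218; prefix `pvth_`, `pvth`, `Pvth`)

Blueprint: `origin/helper295:notes/R289/TR_295.md` (DEF A0, TR1-TR3', TR25-TR28), `origin/helper140:notes/R289/wall_140.md` sec. 3, `origin/helper208:notes/R289/s6a_208.md` (N2).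
Language: `Conf.Reads`, `Conf.spl`, `pvtiP`, `pvtiW` of 141 (`Tr/Ind.lean`), letters / words / `PvtW` of 218 (`Tr/CellAlg.lean`), `cfMap`, `pvP` of 267 (`PppPv.lean`).

## THE RECORD: a PLACED CELL KIT
REFERENCE data in the frame `(z, d) = (0, 1)`: the door is the midpoint `0` of the entrance side, the cell is entered in the direction `1`, its side is `δ`.
* `O₀`      region of the door plug,            `G₀`   its usable event (reads `O₀`)
* `K₀ τ`    exterior region of the connector of shape `τ ∈ {S, L, R}`,      `A₀ τ`   its success event (reads `O₀ ∪ K₀ τ ∪` the plug at the exit door)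
* a FIELD is a family `X₀ τ : Conf PvPt → ℂ` reading the same three regions (`X = Q`, `V`, `Q - a V`: mass of the rim in the cut-off disc of the entrance plug + mass of the arc outside the two cut-off discs)
PLACEMENT at `(z, d)`, `‖d‖ = 1`, by the similarity `w ↦ z + d w`: regions are images, events are preimages under `cfMap (w ↦ (w - z) / d)`, fields are `d * X₀ τ (cfMap … η)`.      So covariance holds BY DEFINITION; what the instance owes is the
recognition of the rim in the pulled back configuration (TR13, TR14), where `x(g)` is an explicit covariant formula of the positions.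
Exit door of the cell `(z, d, τ)`: `(z + d δ τ.mid, d τ.rot)`.      Doors of a word `l` started at `(z, d)`: `pvthZ δ z d l j`, `pvthD d l j`.

* `kit.g μ z d`        `1_G / μ(G₀)`                            * `kit.w μ z d τ`     `1_A / P(A | the two states)` (`pvtiW`)
* `kit.w2 μ z d τ`     the two-plug weight `g g' w`              * `kit.k μ X₀ τ`      THE CELL CONSTANT `∫ X₀ τ · w2`,      `kit.W μ X₀ : PvtW = (α, β_L, β_R)`
* `kit.Wt μ z d l`     the weight of the word `l` (closed word: the CYCLE WEIGHT (3.3) of the paper),   `kit.Y X₀ z d l` the sum of the placed fields,   `kit.Ev z d l` all usable + all success events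

## EXITS
* `pvth_place_mean`   (TR25 in the form consumed here)      mean of the placed cell `= d *` cell constant
* `pvth_cyc_mass`, `pvth_cyc_marg`, `pvth_cyc_marg_sq`   (TR1, TR2 for a closed word)
* **`pvth_closed`**, **`pvth_hex`**   TR27:   `‖rel‖² ≤ (β' q)^{-N} θ`
* **`pvth_V`**, `pvth_V_a`, `pvth_V_rel`   TR28 (i):   EXACT: `α^V = δ`, `rel^V = 0`, `k^V = - f̄`
* **`pvth_bound`**   TR28 (ii):   `‖k τ‖² ≤ (β' q)^{-N} B` from Bessel on the SAME loop (125)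
* `pvth_hex_lim`, `pvth_a_bdd`   the limit forms
-/

set_option autoImplicit false
set_option linter.unusedSectionVars false

namespace Claimed.Agent.R289

open MeasureTheory ProbabilityTheory Set Filter Topology
open scoped ENNReal NNReal

/-! ## 00. the generic engine: peeling many connectors, dropping many free plugs, THE CYCLE (abstract: any `IsPpp`) -/

section engA

variable {E : Type*} [MeasurableSpace E] {m : Measure E} {μ : Measure (Conf E)}

theorem pvthx_reads_mul {W : Set E} {f g : Conf E → ℝ≥0∞} (hf : Conf.Reads W f) (hg : Conf.Reads W g) : Conf.Reads W (fun η => f η * g η) :=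
  hf.map₂ hg (fun x y => x * y)

theorem pvthx_reads_prod {ι : Type*} {W : Set E} (s : Finset ι) {f : ι → Conf E → ℝ≥0∞} (hf : ∀ i ∈ s, Conf.Reads W (f i)) :
    Conf.Reads W (fun η => ∏ i ∈ s, f i η) := fun η => by
  refine Finset.prod_congr rfl fun i hi => hf i hi η

/-- normalisation of `pvtiW` -/
theorem pvthx_W_norm [IsProbabilityMeasure μ] {O : Set E} (hO : MeasurableSet O) {S : Set (Conf E)} (hS : MeasurableSet S) (σ : Conf E) (hp0 : pvtiP μ O S σ ≠ 0) :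
    ∫⁻ η, pvtiW μ O S (Conf.spl O (σ, η)) ∂μ = 1 := by
  have hp1 : pvtiP μ O S σ ≠ ∞ := ne_top_of_le_ne_top ENNReal.one_ne_top (pvti_P_le_one O S σ)
  have e : ∀ η, pvtiW μ O S (Conf.spl O (σ, η)) = S.indicator 1 (Conf.spl O (σ, η)) * (pvtiP μ O S σ)⁻¹ := by
    intro η
    unfold pvtiW
    rw [(pvti_P_reads μ O S).spl_left subset_rfl, div_eq_mul_inv]
  simp_rw [e]
  have hsec : Measurable fun η => Conf.spl O (σ, η) := (Conf.measurable_spl hO).comp (measurable_const.prodMk measurable_id)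
  have hm : Measurable fun η => S.indicator (1 : Conf E → ℝ≥0∞) (Conf.spl O (σ, η)) := (measurable_one.indicator hS).comp hsec
  rw [lintegral_mul_const _ hm]
  exact ENNReal.mul_inv_cancel hp0 hp1

theorem pvthx_W_meas [SFinite μ] {O : Set E} (hO : MeasurableSet O) {S : Set (Conf E)} (hS : MeasurableSet S) : Measurable (pvtiW μ O S) :=
  (measurable_one.indicator hS).div (pvti_P_measurable hO hS)

theorem pvthx_W_reads {O C : Set E} {S : Set (Conf E)} (hSr : Conf.Reads (O ∪ C) (fun η => η ∈ S)) : Conf.Reads (O ∪ C) (pvtiW μ O S) :=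
  (pvti_ind_reads hSr).map₂ ((pvti_P_reads μ O S).mono subset_union_left) (fun x y => x / y)

/-- **PEELING MANY CONNECTORS** -/
theorem pvthx_peel_many (h : IsPpp m μ) {ι : Type*} (s : Finset ι) {R K : ι → Set E} (hR : ∀ i ∈ s, MeasurableSet (R i)) (hK : ∀ i ∈ s, MeasurableSet (K i))
    (hRK : ∀ i ∈ s, ∀ j ∈ s, Disjoint (R i) (K j)) (hKK : ∀ i ∈ s, ∀ j ∈ s, i ≠ j → Disjoint (K i) (K j))
    {F b : Conf E → ℝ≥0∞} {v : ι → Conf E → ℝ≥0∞} (hF : Measurable F) (hb : Measurable b) (hv : ∀ i ∈ s, Measurable (v i))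
    (hFr : ∀ i ∈ s, Conf.Reads (K i)ᶜ F) (hbr : ∀ i ∈ s, Conf.Reads (K i)ᶜ b) (hvr : ∀ i ∈ s, Conf.Reads (R i ∪ K i) (v i))
    (hnorm : ∀ i ∈ s, ∀ σ, b σ ≠ 0 → ∫⁻ η, v i (Conf.spl (R i) (σ, η)) ∂μ = 1) :
    ∫⁻ η, F η * b η * ∏ i ∈ s, v i η ∂μ = ∫⁻ η, F η * b η ∂μ := by
  classical
  induction s using Finset.induction_on generalizing F with
  | empty => simp
  | insert i s hi ih =>
    have hs : ∀ j ∈ s, j ∈ insert i s := fun j hj => Finset.mem_insert_of_mem hj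
    have hii : i ∈ insert i s := Finset.mem_insert_self i s
    have e : ∀ η, F η * b η * ∏ j ∈ insert i s, v j η = (F η * ∏ j ∈ s, v j η) * b η * v i η := by
      intro η
      rw [Finset.prod_insert hi]; ring
    simp_rw [e]
    have hPm : Measurable fun η => ∏ j ∈ s, v j η := Finset.measurable_fun_prod s fun j hj => hv j (hs j hj)
    have hPr : Conf.Reads (K i)ᶜ (fun η => ∏ j ∈ s, v j η) := by
      refine pvthx_reads_prod s fun j hj => (hvr j (hs j hj)).mono ?_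
      have hij : j ≠ i := fun h => hi (h ▸ hj)
      rw [Set.subset_compl_iff_disjoint_right]
      exact Set.disjoint_union_left.2 ⟨hRK j (hs j hj) i hii, hKK j (hs j hj) i hii hij⟩
    have hFP : Measurable fun η => F η * ∏ j ∈ s, v j η := hF.mul hPm
    rw [pvti_peel (F := fun η => F η * ∏ j ∈ s, v j η) h (hR i hii) (hK i hii) (hRK i hii i hii) hFP hb (hv i hii) (pvthx_reads_mul (hFr i hii) hPr) (hbr i hii) (hvr i hii) (hnorm i hii)]
    have e3 : ∀ η, (F η * ∏ j ∈ s, v j η) * b η = F η * b η * ∏ j ∈ s, v j η := fun η => by ring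
    simp_rw [e3]
    exact ih (fun j hj => hR j (hs j hj)) (fun j hj => hK j (hs j hj)) (fun a ha c hc => hRK a (hs a ha) c (hs c hc))
      (fun a ha c hc => hKK a (hs a ha) c (hs c hc)) hF (fun j hj => hv j (hs j hj)) (fun j hj => hFr j (hs j hj)) (fun j hj => hbr j (hs j hj))
      (fun j hj => hvr j (hs j hj)) (fun j hj => hnorm j (hs j hj))

/-- **DROPPING MANY FREE PLUGS** -/
theorem pvthx_drop_many (h : IsPpp m μ) {ι : Type*} (s : Finset ι) {O : ι → Set E} {U : Set E} (hO : ∀ i ∈ s, MeasurableSet (O i)) (hU : MeasurableSet U)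
    (hUO : ∀ i ∈ s, Disjoint U (O i)) (hOO : ∀ i ∈ s, ∀ j ∈ s, i ≠ j → Disjoint (O i) (O j))
    {H : Conf E → ℝ≥0∞} {g : ι → Conf E → ℝ≥0∞} (hH : Measurable H) (hg : ∀ i ∈ s, Measurable (g i))
    (hHr : Conf.Reads U H) (hgr : ∀ i ∈ s, Conf.Reads (O i) (g i)) (hnorm : ∀ i ∈ s, ∫⁻ η, g i η ∂μ = 1) :
    ∫⁻ η, H η * ∏ i ∈ s, g i η ∂μ = ∫⁻ η, H η ∂μ := by
  classical
  induction s using Finset.induction_on generalizing H U with
  | empty => simp
  | insert i s hi ih =>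
    have hs : ∀ j ∈ s, j ∈ insert i s := fun j hj => Finset.mem_insert_of_mem hj
    have hii : i ∈ insert i s := Finset.mem_insert_self i s
    have e : ∀ η, H η * ∏ j ∈ insert i s, g j η = (H η * g i η) * ∏ j ∈ s, g j η := by
      intro η
      rw [Finset.prod_insert hi]; ring
    simp_rw [e]
    rw [ih (U := U ∪ O i) (H := fun η => H η * g i η) (fun j hj => hO j (hs j hj)) (hU.union (hO i hii))
      (fun j hj => Set.disjoint_union_left.2 ⟨hUO j (hs j hj), hOO i hii j (hs j hj) (fun h => hi (h ▸ hj))⟩)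
      (fun a ha c hc => hOO a (hs a ha) c (hs c hc)) (hH.mul (hg i hii)) (fun j hj => hg j (hs j hj))
      (pvthx_reads_mul (hHr.mono subset_union_left) ((hgr i hii).mono subset_union_right)) (fun j hj => hgr j (hs j hj)) (fun j hj => hnorm j (hs j hj))]
    rw [h.lintegral_mul_reads hU (hO i hii) (hUO i hii) hH (hg i hii) hHr (hgr i hii), hnorm i hii, mul_one]

/-- **THE CYCLE**, abstract form (TR1 + TR2 for `N` plugs `O i`, `N` connectors `K i`, indices `i < N`, the plug number `N` IS the plug number `0`) -/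
theorem pvthx_cycle (h : IsPpp m μ) {N : ℕ} (h2 : 2 ≤ N) {O K : ℕ → Set E} {g v : ℕ → Conf E → ℝ≥0∞} (hON : O N = O 0) (hgN : g N = g 0)
    (mO : ∀ i < N, MeasurableSet (O i)) (mK : ∀ i < N, MeasurableSet (K i))
    (dOO : ∀ i < N, ∀ j < N, i ≠ j → Disjoint (O i) (O j)) (dKK : ∀ i < N, ∀ j < N, i ≠ j → Disjoint (K i) (K j)) (dOK : ∀ i < N, ∀ j < N, Disjoint (O i) (K j))
    (mg : ∀ i < N, Measurable (g i)) (mv : ∀ i < N, Measurable (v i))
    (rg : ∀ i < N, Conf.Reads (O i) (g i)) (rv : ∀ i < N, Conf.Reads ((O i ∪ O (i + 1)) ∪ K i) (v i))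
    (ng : ∀ i < N, ∫⁻ η, g i η ∂μ = 1)
    (nv : ∀ i < N, ∀ σ, g i σ ≠ 0 → g (i + 1) σ ≠ 0 → ∫⁻ η, v i (Conf.spl (O i ∪ O (i + 1)) (σ, η)) ∂μ = 1)
    {j : ℕ} (hj : j < N) {F : Conf E → ℝ≥0∞} (hF : Measurable F) (hFr : Conf.Reads ((O j ∪ O (j + 1)) ∪ K j) F) :
    ∫⁻ η, F η * ∏ i ∈ Finset.range N, (g i η * v i η) ∂μ = ∫⁻ η, F η * (g j η * g (j + 1) η * v j η) ∂μ := by
  classical
  -- the successor inside `range N`
  have hsucc : ∀ i < N, ∃ c < N, c ≠ i ∧ O (i + 1) = O c ∧ g (i + 1) = g c := by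
    intro i hi
    by_cases hc : i + 1 = N
    · exact ⟨0, by omega, by omega, by rw [hc, hON], by rw [hc, hgN]⟩
    · exact ⟨i + 1, by omega, by omega, rfl, rfl⟩
  have mO1 : ∀ i < N, MeasurableSet (O (i + 1)) := fun i hi => by
    obtain ⟨c, hc, -, e, -⟩ := hsucc i hi; rw [e]; exact mO c hc
  have dO1K : ∀ i < N, ∀ a < N, Disjoint (O (i + 1)) (K a) := fun i hi a ha => by
    obtain ⟨c, hc, -, e, -⟩ := hsucc i hi; rw [e]; exact dOK c hc a ha
  obtain ⟨c, hc, hcj, eO, eg⟩ := hsucc j hj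
  set s : Finset ℕ := (Finset.range N).erase j with hs
  have hsN : ∀ i ∈ s, i < N := fun i hi => Finset.mem_range.1 (Finset.mem_of_mem_erase hi)
  have hsj : ∀ i ∈ s, i ≠ j := fun i hi => Finset.ne_of_mem_erase hi
  have hjr : j ∈ Finset.range N := Finset.mem_range.2 hj
  set b : Conf E → ℝ≥0∞ := fun η => ∏ i ∈ Finset.range N, g i η with hb
  have mb : Measurable b := Finset.measurable_fun_prod _ fun i hi => mg i (Finset.mem_range.1 hi)
  have e1 : ∀ η, F η * ∏ i ∈ Finset.range N, (g i η * v i η) = (F η * v j η) * b η * ∏ i ∈ s, v i η := by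
    intro η
    rw [Finset.prod_mul_distrib, ← Finset.mul_prod_erase (Finset.range N) (fun i => v i η) hjr]
    ring
  simp_rw [e1]
  have hsub : ∀ i ∈ s, (O j ∪ O (j + 1)) ∪ K j ⊆ (K i)ᶜ := by
    intro i hi
    rw [Set.subset_compl_iff_disjoint_right]
    exact Set.disjoint_union_left.2 ⟨Set.disjoint_union_left.2 ⟨dOK j hj i (hsN i hi), dO1K j hj i (hsN i hi)⟩, dKK j hj i (hsN i hi) (hsj i hi).symm⟩
  have mFv : Measurable fun η => F η * v j η := hF.mul (mv j hj)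
  rw [pvthx_peel_many (F := fun η => F η * v j η) (b := b) (R := fun i => O i ∪ O (i + 1)) (K := K) h s
    (fun i hi => (mO i (hsN i hi)).union (mO1 i (hsN i hi))) (fun i hi => mK i (hsN i hi))
    (fun i hi a ha => Set.disjoint_union_left.2 ⟨dOK i (hsN i hi) a (hsN a ha), dO1K i (hsN i hi) a (hsN a ha)⟩)
    (fun i hi a ha hia => dKK i (hsN i hi) a (hsN a ha) hia) mFv mb (fun i hi => mv i (hsN i hi))
    (fun i hi => (pvthx_reads_mul hFr (rv j hj)).mono (hsub i hi))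
    (fun i hi => pvthx_reads_prod _ fun a ha => (rg a (Finset.mem_range.1 ha)).mono
      (Set.subset_compl_iff_disjoint_right.2 (dOK a (Finset.mem_range.1 ha) i (hsN i hi))))
    (fun i hi => rv i (hsN i hi))
    (fun i hi σ hσ => by
      have hall : ∀ a < N, g a σ ≠ 0 := fun a ha => (Finset.prod_ne_zero_iff.1 hσ) a (Finset.mem_range.2 ha)
      obtain ⟨c', hc', -, -, eg'⟩ := hsucc i (hsN i hi)
      exact nv i (hsN i hi) σ (hall i (hsN i hi)) (by rw [eg']; exact hall c' hc'))]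
  -- drop the free plugs
  set t : Finset ℕ := s.erase c with ht
  have hcs : c ∈ s := Finset.mem_erase.2 ⟨hcj, Finset.mem_range.2 hc⟩
  have htN : ∀ i ∈ t, i < N := fun i hi => hsN i (Finset.mem_of_mem_erase hi)
  have htj : ∀ i ∈ t, i ≠ j := fun i hi => hsj i (Finset.mem_of_mem_erase hi)
  have htc : ∀ i ∈ t, i ≠ c := fun i hi => Finset.ne_of_mem_erase hi
  have e2 : ∀ η, (F η * v j η) * b η = (F η * (g j η * g (j + 1) η * v j η)) * ∏ i ∈ t, g i η := by
    intro η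
    rw [hb]
    simp only
    rw [← Finset.mul_prod_erase (Finset.range N) (fun i => g i η) hjr, ← Finset.mul_prod_erase s (fun i => g i η) hcs, eg]
    ring
  simp_rw [e2]
  have rg1 : Conf.Reads (O (j + 1)) (g (j + 1)) := by rw [eO, eg]; exact rg c hc
  have mg1 : Measurable (g (j + 1)) := by rw [eg]; exact mg c hc
  have mH : Measurable fun η => F η * (g j η * g (j + 1) η * v j η) := hF.mul (((mg j hj).mul mg1).mul (mv j hj))
  exact pvthx_drop_many (H := fun η => F η * (g j η * g (j + 1) η * v j η)) (U := (O j ∪ O (j + 1)) ∪ K j) (O := O) h t (fun i hi => mO i (htN i hi))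
    (((mO j hj).union (mO1 j hj)).union (mK j hj))
    (fun i hi => Set.disjoint_union_left.2 ⟨Set.disjoint_union_left.2 ⟨dOO j hj i (htN i hi) (htj i hi).symm, by rw [eO]; exact dOO c hc i (htN i hi) (htc i hi).symm⟩,
      (dOK i (htN i hi) j hj).symm⟩)
    (fun i hi a ha hia => dOO i (htN i hi) a (htN a ha) hia) mH (fun i hi => mg i (htN i hi))
    (pvthx_reads_mul hFr (pvthx_reads_mul (pvthx_reads_mul ((rg j hj).mono (subset_union_left.trans subset_union_left)) (rg1.mono (subset_union_right.trans subset_union_left))) (rv j hj)))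
    (fun i hi => rg i (htN i hi)) (fun i hi => ng i (htN i hi))

/-- the two-plug weight has mass one -/
theorem pvthx_two_mass (h : IsPpp m μ) {O O' K : Set E} {g g' v : Conf E → ℝ≥0∞} (mO : MeasurableSet O) (mO' : MeasurableSet O') (mK : MeasurableSet K)
    (dOO : Disjoint O O') (dOK : Disjoint O K) (dOK' : Disjoint O' K) (mg : Measurable g) (mg' : Measurable g') (mv : Measurable v)
    (rg : Conf.Reads O g) (rg' : Conf.Reads O' g') (rv : Conf.Reads ((O ∪ O') ∪ K) v) (ng : ∫⁻ η, g η ∂μ = 1) (ng' : ∫⁻ η, g' η ∂μ = 1)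
    (nv : ∀ σ, g σ ≠ 0 → g' σ ≠ 0 → ∫⁻ η, v (Conf.spl (O ∪ O') (σ, η)) ∂μ = 1) :
    ∫⁻ η, g η * g' η * v η ∂μ = 1 := by
  have hd : Disjoint (O ∪ O') K := Set.disjoint_union_left.2 ⟨dOK, dOK'⟩
  have e := pvti_peel (F := fun _ => 1) (b := fun η => g η * g' η) (v := v) h (mO.union mO') mK hd measurable_const (mg.mul mg') mv
    (fun _ => rfl) (pvthx_reads_mul (rg.mono (Set.subset_compl_iff_disjoint_right.2 dOK)) (rg'.mono (Set.subset_compl_iff_disjoint_right.2 dOK'))) rv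
    (fun σ hσ => nv σ (left_ne_zero_of_mul hσ) (right_ne_zero_of_mul hσ))
  simp only [one_mul] at e
  rw [e, h.lintegral_mul_reads mO mO' dOO mg mg' rg rg', ng, ng', one_mul]

end engA

/-! ## 0. placement -/

/-- the placement `w ↦ z + d w` -/
def pvthSim (z d w : ℂ) : ℂ := z + d * w

/-- its inverse `w ↦ (w - z) / d` -/
noncomputable def pvthInv (z d w : ℂ) : ℂ := (w - z) / d

/-- position of the door number `j` of the word `l` started at `(z, d)`, cells of side `δ` -/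
noncomputable def pvthZ (δ : ℝ) (z d : ℂ) (l : List PvtTurn) (j : ℕ) : ℂ := z + δ * pvtDisp d (l.take j)

/-- frame of the door number `j` -/
noncomputable def pvthD (d : ℂ) (l : List PvtTurn) (j : ℕ) : ℂ := pvtDir d (l.take j)

/-- the letter number `j` -/
def pvthL (l : List PvtTurn) (j : ℕ) : PvtTurn := l.getD j PvtTurn.S

/-- placed field -/
noncomputable def pvthX (X₀ : PvtTurn → Conf PvPt → ℂ) (z d : ℂ) (τ : PvtTurn) (η : Conf PvPt) : ℂ := d * X₀ τ (cfMap (pvthInv z d) η)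

/-- REFERENCE DATA of a cell kit -/
structure PvthKit where
  /-- side of the cells -/
  δ : ℝ
  /-- region of the door plug -/
  O₀ : Set ℂ
  /-- exterior region of the connector -/
  K₀ : PvtTurn → Set ℂ
  /-- usable states -/
  G₀ : Set (Conf PvPt)
  /-- success of the connector -/
  A₀ : PvtTurn → Set (Conf PvPt)

namespace PvthKit

variable (kit : PvthKit)

/-- position of the exit door -/
noncomputable def zo (z d : ℂ) (τ : PvtTurn) : ℂ := z + d * (kit.δ * τ.mid)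

/-- placed plug region -/
def O (z d : ℂ) : Set PvPt := (pvthSim z d '' kit.O₀) ×ˢ univ

/-- placed connector region -/
def K (z d : ℂ) (τ : PvtTurn) : Set PvPt := (pvthSim z d '' kit.K₀ τ) ×ˢ univ

/-- the two plug regions of a placed cell -/
noncomputable def OO (z d : ℂ) (τ : PvtTurn) : Set PvPt := kit.O z d ∪ kit.O (kit.zo z d τ) (d * τ.rot)

/-- placed usable event -/
noncomputable def G (z d : ℂ) : Set (Conf PvPt) := cfMap (pvthInv z d) ⁻¹' kit.G₀

/-- placed success event -/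
noncomputable def A (z d : ℂ) (τ : PvtTurn) : Set (Conf PvPt) := cfMap (pvthInv z d) ⁻¹' kit.A₀ τ

/-- well-formedness of the reference data -/
structure WF : Prop where
  δ0 : 0 < kit.δ
  mO : MeasurableSet kit.O₀
  mK : ∀ τ, MeasurableSet (kit.K₀ τ)
  mG : MeasurableSet kit.G₀
  mA : ∀ τ, MeasurableSet (kit.A₀ τ)
  rG : Conf.Reads (kit.O 0 1) (fun η => η ∈ kit.G₀)
  rA : ∀ τ, Conf.Reads (kit.OO 0 1 τ ∪ kit.K 0 1 τ) (fun η => η ∈ kit.A₀ τ)

/-- a field on the kit -/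
structure Fld (X₀ : PvtTurn → Conf PvPt → ℂ) : Prop where
  meas : ∀ τ, Measurable (X₀ τ)
  reads : ∀ τ, Conf.Reads (kit.OO 0 1 τ ∪ kit.K 0 1 τ) (X₀ τ)

/-- `1_G / μ(G₀)` -/
noncomputable def g (μ : Measure (Conf PvPt)) (z d : ℂ) (η : Conf PvPt) : ℝ≥0∞ := (kit.G z d).indicator 1 η / μ kit.G₀

/-- `1_A / P(A | the two states)` -/
noncomputable def w (μ : Measure (Conf PvPt)) (z d : ℂ) (τ : PvtTurn) : Conf PvPt → ℝ≥0∞ := pvtiW μ (kit.OO z d τ) (kit.A z d τ)

/-- the two-plug weight of a placed cell -/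
noncomputable def w2 (μ : Measure (Conf PvPt)) (z d : ℂ) (τ : PvtTurn) (η : Conf PvPt) : ℝ≥0∞ :=
  kit.g μ z d η * kit.g μ (kit.zo z d τ) (d * τ.rot) η * kit.w μ z d τ η

/-- **THE CELL CONSTANT** -/
noncomputable def k (μ : Measure (Conf PvPt)) (X₀ : PvtTurn → Conf PvPt → ℂ) (τ : PvtTurn) : ℂ := ∫ η, X₀ τ η ∂(μ.withDensity (kit.w2 μ 0 1 τ))

/-- `(α, β_L, β_R)` -/
noncomputable def W (μ : Measure (Conf PvPt)) (X₀ : PvtTurn → Conf PvPt → ℂ) : PvtW := ⟨kit.k μ X₀ PvtTurn.S, kit.k μ X₀ PvtTurn.L, kit.k μ X₀ PvtTurn.R⟩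

/-- the weight of a word: one factor `g` per ENTRANCE door, one factor `w` per cell.      For a closed word: the cycle weight. -/
noncomputable def Wt (μ : Measure (Conf PvPt)) (z d : ℂ) (l : List PvtTurn) (η : Conf PvPt) : ℝ≥0∞ :=
  ∏ j ∈ Finset.range l.length, (kit.g μ (pvthZ kit.δ z d l j) (pvthD d l j) η * kit.w μ (pvthZ kit.δ z d l j) (pvthD d l j) (pvthL l j) η)

/-- the field of the cell number `j` -/
noncomputable def Xj (X₀ : PvtTurn → Conf PvPt → ℂ) (z d : ℂ) (l : List PvtTurn) (j : ℕ) : Conf PvPt → ℂ :=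
  pvthX X₀ (pvthZ kit.δ z d l j) (pvthD d l j) (pvthL l j)

/-- the sum of the placed fields along a word -/
noncomputable def Y (X₀ : PvtTurn → Conf PvPt → ℂ) (z d : ℂ) (l : List PvtTurn) (η : Conf PvPt) : ℂ :=
  ∑ j ∈ Finset.range l.length, kit.Xj X₀ z d l j η

/-- all entrance plugs usable, all connectors successful -/
noncomputable def Ev (z d : ℂ) (l : List PvtTurn) : Set (Conf PvPt) :=
  {η | ∀ j < l.length, η ∈ kit.G (pvthZ kit.δ z d l j) (pvthD d l j) ∧ η ∈ kit.A (pvthZ kit.δ z d l j) (pvthD d l j) (pvthL l j)}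

/-- the placed regions of a CLOSED word are pairwise disjoint (166: `Tr/CellChain.lean`, for cell-simple words) -/
structure Disj (z d : ℂ) (l : List PvtTurn) : Prop where
  OO : ∀ i < l.length, ∀ j < l.length, i ≠ j → Disjoint (kit.O (pvthZ kit.δ z d l i) (pvthD d l i)) (kit.O (pvthZ kit.δ z d l j) (pvthD d l j))
  KK : ∀ i < l.length, ∀ j < l.length, i ≠ j →
    Disjoint (kit.K (pvthZ kit.δ z d l i) (pvthD d l i) (pvthL l i)) (kit.K (pvthZ kit.δ z d l j) (pvthD d l j) (pvthL l j))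
  OK : ∀ i < l.length, ∀ j < l.length, Disjoint (kit.O (pvthZ kit.δ z d l i) (pvthD d l i)) (kit.K (pvthZ kit.δ z d l j) (pvthD d l j) (pvthL l j))

/-- the connectors are FORCED with the constant `q` (TR21 (a)) and the plug is ADMITTED with the constant `β'` (TR22) -/
structure Forced (μ : Measure (Conf PvPt)) (β' q : ℝ≥0∞) : Prop where
  β0 : β' ≠ 0
  q0 : q ≠ 0
  adm : β' ≤ μ kit.G₀
  frc : ∀ τ σ, σ ∈ kit.G₀ → σ ∈ kit.G (kit.zo 0 1 τ) τ.rot → q ≤ pvtiP μ (kit.OO 0 1 τ) (kit.A₀ τ) σ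

end PvthKit

theorem pvthx_eqns_cite : True := by
  have := @pvthSim.eq_1; have := @pvthInv.eq_1; have := @pvthZ.eq_1; have := @pvthD.eq_1; have := @pvthL.eq_1
  have := @PvthKit.zo.eq_1; have := @PvthKit.O.eq_1; have := @PvthKit.K.eq_1; have := @PvthKit.OO.eq_1; have := @PvthKit.G.eq_1; have := @PvthKit.A.eq_1
  have := @pvthX.eq_1; have := @PvthKit.g.eq_1; have := @PvthKit.w.eq_1; have := @PvthKit.w2.eq_1; have := @PvthKit.k.eq_1; have := @PvthKit.W.eq_1
  have := @PvthKit.Wt.eq_1; have := @PvthKit.Xj.eq_1; have := @PvthKit.Y.eq_1; have := @PvthKit.Ev.eq_1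
  trivial

variable {kit : PvthKit} {ε : ℝ} {X₀ : PvtTurn → Conf PvPt → ℂ} {β' q : ℝ≥0∞}

/-! ## 0'. the engine: peeling the connectors, integrating out the free plugs (helper153) -/

section engine

variable {E : Type*} [MeasurableSpace E] {m : Measure E} {μ : Measure (Conf E)} {ι : Type*}

theorem pvth_reads_prod {W : Set E} (s : Finset ι) {f : ι → Conf E → ℝ≥0∞} (h : ∀ i ∈ s, Conf.Reads W (f i)) :
    Conf.Reads W (fun η => ∏ i ∈ s, f i η) := fun η => Finset.prod_congr rfl fun i hi => h i hi η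

/-- **all the connectors are peeled** -/
theorem pvth_peel_all [DecidableEq ι] (h : IsPpp m μ) (t : Finset ι) {R K : ι → Set E} (hR : ∀ i ∈ t, MeasurableSet (R i)) (hK : ∀ i ∈ t, MeasurableSet (K i))
    (hRK : ∀ i ∈ t, ∀ j ∈ t, Disjoint (R i) (K j)) (hKK : ∀ i ∈ t, ∀ j ∈ t, i ≠ j → Disjoint (K i) (K j))
    {b : Conf E → ℝ≥0∞} (hb : Measurable b) (hbr : ∀ i ∈ t, Conf.Reads (K i)ᶜ b)
    {v : ι → Conf E → ℝ≥0∞} (hv : ∀ i ∈ t, Measurable (v i)) (hvr : ∀ i ∈ t, Conf.Reads (R i ∪ K i) (v i))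
    (hnorm : ∀ i ∈ t, ∀ σ, b σ ≠ 0 → ∫⁻ η, v i (Conf.spl (R i) (σ, η)) ∂μ = 1)
    {F : Conf E → ℝ≥0∞} (hF : Measurable F) (hFr : ∀ i ∈ t, Conf.Reads (K i)ᶜ F) :
    ∫⁻ η, F η * b η * ∏ i ∈ t, v i η ∂μ = ∫⁻ η, F η * b η ∂μ := by
  have key : ∀ s : Finset ι, s ⊆ t → ∫⁻ η, F η * b η * ∏ i ∈ s, v i η ∂μ = ∫⁻ η, F η * b η ∂μ := by
    intro s
    induction s using Finset.induction_on with
    | empty => intro _; simp
    | insert j s hj ih =>
      intro hs
      have hjt : j ∈ t := hs (Finset.mem_insert_self j s)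
      have hst : s ⊆ t := fun i hi => hs (Finset.mem_insert_of_mem hi)
      rw [← ih hst]
      have hm : Measurable fun η => F η * ∏ i ∈ s, v i η := hF.mul (Finset.measurable_fun_prod s fun i hi => hv i (hst hi))
      have hr : Conf.Reads (K j)ᶜ fun η => F η * ∏ i ∈ s, v i η := by
        refine (hFr j hjt).map₂ (pvth_reads_prod s fun i hi => (hvr i (hst hi)).mono ?_) (fun x y => x * y)
        have hij : i ≠ j := fun e => hj (e ▸ hi)
        exact Set.subset_compl_iff_disjoint_right.2 (Set.disjoint_union_left.2 ⟨hRK i (hst hi) j hjt, hKK i (hst hi) j hjt hij⟩)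
      have := pvti_peel h (hR j hjt) (hK j hjt) (hRK j hjt j hjt) hm hb (hv j hjt) hr (hbr j hjt) (hvr j hjt) (hnorm j hjt)
      calc ∫⁻ η, F η * b η * ∏ i ∈ insert j s, v i η ∂μ = ∫⁻ η, F η * (∏ i ∈ s, v i η) * b η * v j η ∂μ := by
            refine lintegral_congr fun η => ?_
            rw [Finset.prod_insert hj]; ring
        _ = ∫⁻ η, F η * (∏ i ∈ s, v i η) * b η ∂μ := this
        _ = ∫⁻ η, F η * b η * ∏ i ∈ s, v i η ∂μ := by
            refine lintegral_congr fun η => ?_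
            ring
  exact key t subset_rfl

/-- **the free plugs are integrated out** -/
theorem pvth_drop_all [DecidableEq ι] (h : IsPpp m μ) (t : Finset ι) {O : ι → Set E} (hO : ∀ i ∈ t, MeasurableSet (O i))
    (hOO : ∀ i ∈ t, ∀ j ∈ t, i ≠ j → Disjoint (O i) (O j)) {W : Set E} (hW : MeasurableSet W) (hWO : ∀ i ∈ t, Disjoint W (O i))
    {g : ι → Conf E → ℝ≥0∞} (hg : ∀ i ∈ t, Measurable (g i)) (hgr : ∀ i ∈ t, Conf.Reads (O i) (g i)) (hg1 : ∀ i ∈ t, ∫⁻ η, g i η ∂μ = 1)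
    {H : Conf E → ℝ≥0∞} (hH : Measurable H) (hHr : Conf.Reads W H) :
    ∫⁻ η, H η * ∏ i ∈ t, g i η ∂μ = ∫⁻ η, H η ∂μ := by
  have key : ∀ s : Finset ι, s ⊆ t → ∫⁻ η, H η * ∏ i ∈ s, g i η ∂μ = ∫⁻ η, H η ∂μ := by
    intro s
    induction s using Finset.induction_on with
    | empty => intro _; simp
    | insert j s hj ih =>
      intro hs
      have hjt : j ∈ t := hs (Finset.mem_insert_self j s)
      have hst : s ⊆ t := fun i hi => hs (Finset.mem_insert_of_mem hi)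
      rw [← ih hst]
      have hm : Measurable fun η => H η * ∏ i ∈ s, g i η := hH.mul (Finset.measurable_fun_prod s fun i hi => hg i (hst hi))
      have hU : MeasurableSet (W ∪ ⋃ i ∈ s, O i) := hW.union (Finset.measurableSet_biUnion s fun i hi => hO i (hst hi))
      have hr : Conf.Reads (W ∪ ⋃ i ∈ s, O i) fun η => H η * ∏ i ∈ s, g i η := by
        refine (hHr.mono subset_union_left).map₂ (pvth_reads_prod s fun i hi => (hgr i (hst hi)).mono ?_) (fun x y => x * y)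
        exact (Set.subset_biUnion_of_mem (u := fun i => O i) (show i ∈ (s : Set ι) from hi)).trans subset_union_right
      have hd : Disjoint (W ∪ ⋃ i ∈ s, O i) (O j) := by
        refine Set.disjoint_union_left.2 ⟨hWO j hjt, Set.disjoint_iUnion₂_left.2 fun i hi => hOO i (hst hi) j hjt fun e => hj (e ▸ hi)⟩
      have := h.lintegral_mul_reads hU (hO j hjt) hd hm (hg j hjt) hr (hgr j hjt)
      rw [hg1 j hjt, mul_one] at this
      rw [← this]
      refine lintegral_congr fun η => ?_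
      rw [Finset.prod_insert hj]; ring
  exact key t subset_rfl

/-- the weight `1_S / P(S | σ)` has conditional mass one wherever `P(S | σ) ≠ 0` -/
theorem pvth_W_norm [IsProbabilityMeasure μ] {O : Set E} (hO : MeasurableSet O) {S : Set (Conf E)} (hS : MeasurableSet S) (σ : Conf E)
    (hp0 : pvtiP μ O S σ ≠ 0) : ∫⁻ η, pvtiW μ O S (Conf.spl O (σ, η)) ∂μ = 1 := by
  have hp1 : pvtiP μ O S σ ≠ ∞ := ne_top_of_le_ne_top ENNReal.one_ne_top (pvti_P_le_one O S σ)
  have e : ∀ η, pvtiW μ O S (Conf.spl O (σ, η)) = S.indicator 1 (Conf.spl O (σ, η)) * (pvtiP μ O S σ)⁻¹ := by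
    intro η
    unfold pvtiW
    rw [(pvti_P_reads μ O S).spl_left subset_rfl, div_eq_mul_inv]
  simp_rw [e]
  have hsec : Measurable fun η => Conf.spl O (σ, η) := (Conf.measurable_spl hO).comp (measurable_const.prodMk measurable_id)
  have hm : Measurable fun η => S.indicator (1 : Conf E → ℝ≥0∞) (Conf.spl O (σ, η)) := (measurable_one.indicator hS).comp hsec
  rw [lintegral_mul_const _ hm]
  exact ENNReal.mul_inv_cancel hp0 hp1

theorem pvth_W_measurable [SFinite μ] {O : Set E} (hO : MeasurableSet O) {S : Set (Conf E)} (hS : MeasurableSet S) : Measurable (pvtiW μ O S) :=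
  (measurable_one.indicator hS).div (pvti_P_measurable hO hS)

theorem pvth_W_reads (μ : Measure (Conf E)) {O C : Set E} {S : Set (Conf E)} (hS : Conf.Reads (O ∪ C) (fun η => η ∈ S)) : Conf.Reads (O ∪ C) (pvtiW μ O S) :=
  (pvti_ind_reads hS).map₂ ((pvti_P_reads μ O S).mono subset_union_left) (fun x y => x / y)

/-- **from nonnegative to complex readers**: two measures which agree on the nonnegative readers of `W` agree on the complex readers of `W` -/
theorem pvth_transfer {ν₁ ν₂ : Measure (Conf E)} {W : Set E} (hW : MeasurableSet W)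
    (h : ∀ F : Conf E → ℝ≥0∞, Measurable F → Conf.Reads W F → ∫⁻ η, F η ∂ν₁ = ∫⁻ η, F η ∂ν₂)
    {f : Conf E → ℂ} (hf : Measurable f) (hfr : Conf.Reads W f) : ∫ η, f η ∂ν₁ = ∫ η, f η ∂ν₂ := by
  have hm := Conf.measurable_restr (E := E) hW
  have e : ν₁.map (Conf.restr W) = ν₂.map (Conf.restr W) := by
    ext s hs
    rw [Measure.map_apply hm hs, Measure.map_apply hm hs, ← lintegral_indicator_one (hm hs), ← lintegral_indicator_one (hm hs)]
    refine h _ (measurable_one.indicator (hm hs)) (pvti_ind_reads fun η => ?_)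
    show (Conf.restr W (Conf.restr W η) ∈ s) = (Conf.restr W η ∈ s)
    rw [Conf.restr_restr, inter_self]
  have e1 : ∀ ν : Measure (Conf E), ∫ η, f η ∂ν = ∫ η, f η ∂(ν.map (Conf.restr W)) := by
    intro ν
    rw [integral_map hm.aemeasurable hf.aestronglyMeasurable]
    exact integral_congr_ae (ae_of_all _ fun η => (hfr η).symm)
  rw [e1 ν₁, e1 ν₂, e]

end engine

/-! ## 0''. covariance of the placed objects (helper153) -/

section place

theorem pvth_ne_zero {d : ℂ} (hd : ‖d‖ = 1) : d ≠ 0 := by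
  rintro rfl
  simp at hd

theorem pvth_norm_of_pow {d : ℂ} (hd : d ^ 4 = 1) : ‖d‖ = 1 := by
  have h : ‖d‖ ^ 4 = 1 := by rw [← norm_pow, hd, norm_one]
  exact (pow_eq_one_iff_of_nonneg (norm_nonneg d) (by norm_num)).1 h

theorem pvth_cfMap_inv (z d : ℂ) (hd : d ≠ 0) : cfMap (pvthInv z d) = Conf.image (pvciAff d z hd).toEquiv.symm := rfl

theorem pvth_inv_comp (z d z' d' : ℂ) (hd : d ≠ 0) : pvthInv z' d' ∘ pvthInv z d = pvthInv (z + d * z') (d * d') := by
  funext w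
  show ((w - z) / d - z') / d' = (w - (z + d * z')) / (d * d')
  by_cases h : d' = 0
  · simp [h]
  · field_simp
    ring

theorem pvth_inv_id : pvthInv 0 1 = id := by
  funext w
  simp [pvthInv]

theorem pvth_sim_id : pvthSim 0 1 = id := by
  funext w
  simp [pvthSim]

theorem pvth_cfMap_id (η : Conf PvPt) : cfMap id η = η := by
  unfold cfMap
  rw [Prod.map_id, pvci_image_id]

theorem pvth_reg_image (U : Set ℂ) (z d z' d' : ℂ) (hd : d ≠ 0) :
    pvciAff d z hd '' ((pvthSim z' d' '' U) ×ˢ (univ : Set Bool)) = (pvthSim (z + d * z') (d * d') '' U) ×ˢ (univ : Set Bool) := by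
  ext p
  constructor
  · rintro ⟨q, ⟨⟨u, hu, e⟩, -⟩, rfl⟩
    refine ⟨⟨u, hu, ?_⟩, trivial⟩
    show z + d * z' + d * d' * u = d * q.1 + z
    rw [← e]
    simp only [pvthSim]
    ring
  · rintro ⟨⟨u, hu, e⟩, -⟩
    refine ⟨(pvthSim z' d' u, p.2), ⟨⟨u, hu, rfl⟩, trivial⟩, Prod.ext ?_ rfl⟩
    show d * pvthSim z' d' u + z = p.1
    rw [← e]
    simp only [pvthSim]
    ring

theorem pvth_O_image (kit : PvthKit) (z d z' d' : ℂ) (hd : d ≠ 0) : pvciAff d z hd '' kit.O z' d' = kit.O (z + d * z') (d * d') :=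
  pvth_reg_image _ z d z' d' hd

theorem pvth_K_image (kit : PvthKit) (z d z' d' : ℂ) (hd : d ≠ 0) (τ : PvtTurn) : pvciAff d z hd '' kit.K z' d' τ = kit.K (z + d * z') (d * d') τ :=
  pvth_reg_image _ z d z' d' hd

theorem pvth_O_place (kit : PvthKit) (z d : ℂ) (hd : d ≠ 0) : kit.O z d = pvciAff d z hd '' kit.O 0 1 := by
  rw [pvth_O_image, mul_zero, add_zero, mul_one]

theorem pvth_K_place (kit : PvthKit) (z d : ℂ) (hd : d ≠ 0) (τ : PvtTurn) : kit.K z d τ = pvciAff d z hd '' kit.K 0 1 τ := by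
  rw [pvth_K_image, mul_zero, add_zero, mul_one]

theorem pvth_zo_place (kit : PvthKit) (z d : ℂ) (τ : PvtTurn) : kit.zo z d τ = z + d * kit.zo 0 1 τ := by
  simp only [PvthKit.zo]
  ring

theorem pvth_OO_place (kit : PvthKit) (z d : ℂ) (hd : d ≠ 0) (τ : PvtTurn) : kit.OO z d τ = pvciAff d z hd '' kit.OO 0 1 τ := by
  unfold PvthKit.OO
  rw [Set.image_union, pvth_O_image, pvth_O_image, mul_zero, add_zero, mul_one, one_mul, ← pvth_zo_place]

theorem pvth_G_comp (kit : PvthKit) (z d z' d' : ℂ) (hd : d ≠ 0) : kit.G (z + d * z') (d * d') = cfMap (pvthInv z d) ⁻¹' kit.G z' d' := by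
  unfold PvthKit.G
  rw [← Set.preimage_comp, ← pvth_inv_comp z d z' d' hd]
  congr 1
  funext η
  exact (pvci_cfMap_comp _ _ η).symm

theorem pvth_G_ref (kit : PvthKit) : kit.G 0 1 = kit.G₀ := by
  unfold PvthKit.G
  rw [pvth_inv_id]
  ext η
  show cfMap id η ∈ kit.G₀ ↔ _
  rw [pvth_cfMap_id]

theorem pvth_A_ref (kit : PvthKit) (τ : PvtTurn) : kit.A 0 1 τ = kit.A₀ τ := by
  unfold PvthKit.A
  rw [pvth_inv_id]
  ext η
  show cfMap id η ∈ kit.A₀ τ ↔ _
  rw [pvth_cfMap_id]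

theorem pvth_g_comp (kit : PvthKit) (μ : Measure (Conf PvPt)) (z d z' d' : ℂ) (hd : d ≠ 0) (η : Conf PvPt) :
    kit.g μ (z + d * z') (d * d') η = kit.g μ z' d' (cfMap (pvthInv z d) η) := by
  unfold PvthKit.g
  rw [pvth_G_comp kit z d z' d' hd]
  rfl

theorem pvth_g_place (kit : PvthKit) (μ : Measure (Conf PvPt)) (z d : ℂ) (hd : d ≠ 0) (η : Conf PvPt) :
    kit.g μ z d η = kit.g μ 0 1 (cfMap (pvthInv z d) η) := by
  rw [← pvth_g_comp kit μ z d 0 1 hd, mul_zero, add_zero, mul_one]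

theorem pvth_P_place (kit : PvthKit) (ε : ℝ) (z d : ℂ) (hd : ‖d‖ = 1) (τ : PvtTurn) (η : Conf PvPt) :
    pvtiP (pvP ε) (kit.OO z d τ) (kit.A z d τ) η = pvtiP (pvP ε) (kit.OO 0 1 τ) (kit.A₀ τ) (cfMap (pvthInv z d) η) := by
  rw [pvth_OO_place kit z d (pvth_ne_zero hd)]
  exact congrFun (pvci_P_T (pvciAff d z (pvth_ne_zero hd)) (pvci_law_frame z d hd ε) (kit.OO 0 1 τ) (kit.A₀ τ)) η

theorem pvth_w_place (kit : PvthKit) (ε : ℝ) (z d : ℂ) (hd : ‖d‖ = 1) (τ : PvtTurn) (η : Conf PvPt) :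
    kit.w (pvP ε) z d τ η = kit.w (pvP ε) 0 1 τ (cfMap (pvthInv z d) η) := by
  unfold PvthKit.w
  rw [pvth_OO_place kit z d (pvth_ne_zero hd), pvth_A_ref]
  exact congrFun (pvci_W_T (pvciAff d z (pvth_ne_zero hd)) (pvci_law_frame z d hd ε) (kit.OO 0 1 τ) (kit.A₀ τ)) η

theorem pvth_w2_place (kit : PvthKit) (ε : ℝ) (z d : ℂ) (hd : ‖d‖ = 1) (τ : PvtTurn) (η : Conf PvPt) :
    kit.w2 (pvP ε) z d τ η = kit.w2 (pvP ε) 0 1 τ (cfMap (pvthInv z d) η) := by
  unfold PvthKit.w2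
  rw [pvth_g_place kit _ z d (pvth_ne_zero hd), pvth_w_place kit ε z d hd, pvth_zo_place kit z d, one_mul,
    pvth_g_comp kit _ z d _ _ (pvth_ne_zero hd)]

/-- the image under a measurable equivalence of the points, as a measurable equivalence of the configurations -/
theorem pvth_equiv (g : PvPt ≃ᵐ PvPt) : ∃ Φ : Conf PvPt ≃ᵐ Conf PvPt, (∀ η, Φ η = Conf.image g η) ∧ ∀ η, Φ.symm η = Conf.image g.toEquiv.symm η :=
  ⟨{ toFun := Conf.image g
     invFun := Conf.image g.symm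
     left_inv := fun η => pvci_image_symm g.toEquiv η
     right_inv := fun η => pvci_image_symm' g.toEquiv η
     measurable_toFun := Conf.measurable_image g.measurable
     measurable_invFun := Conf.measurable_image g.symm.measurable }, fun _ => rfl, fun _ => rfl⟩

theorem pvth_measurable_inv (z d : ℂ) : Measurable (pvthInv z d) := by
  unfold pvthInv
  fun_prop

/-! ### measurability, windows, masses of the placed objects -/

theorem pvth_mO (hk : kit.WF) (z d : ℂ) (hd : d ≠ 0) : MeasurableSet (kit.O z d) := by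
  rw [pvth_O_place kit z d hd, MeasurableEquiv.measurableSet_image]
  unfold PvthKit.O
  rw [pvth_sim_id, Set.image_id]
  exact hk.mO.prod MeasurableSet.univ

theorem pvth_mK (hk : kit.WF) (z d : ℂ) (hd : d ≠ 0) (τ : PvtTurn) : MeasurableSet (kit.K z d τ) := by
  rw [pvth_K_place kit z d hd, MeasurableEquiv.measurableSet_image]
  unfold PvthKit.K
  rw [pvth_sim_id, Set.image_id]
  exact (hk.mK τ).prod MeasurableSet.univ

theorem pvth_mOO (hk : kit.WF) (z d : ℂ) (hd : d ≠ 0) (τ : PvtTurn) : MeasurableSet (kit.OO z d τ) :=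
  (pvth_mO hk z d hd).union (pvth_mO hk _ _ (mul_ne_zero hd (pvt_rot_ne_zero τ)))

theorem pvth_mG (hk : kit.WF) (z d : ℂ) : MeasurableSet (kit.G z d) := measurable_cfMap (pvth_measurable_inv z d) hk.mG

theorem pvth_mA (hk : kit.WF) (z d : ℂ) (τ : PvtTurn) : MeasurableSet (kit.A z d τ) := measurable_cfMap (pvth_measurable_inv z d) (hk.mA τ)

theorem pvth_rG (hk : kit.WF) (z d : ℂ) (hd : d ≠ 0) : Conf.Reads (kit.O z d) (fun η => η ∈ kit.G z d) := by
  rw [pvth_O_place kit z d hd]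
  exact pvci_T_reads (pvciAff d z hd).toEquiv hk.rG

theorem pvth_rA (hk : kit.WF) (z d : ℂ) (hd : d ≠ 0) (τ : PvtTurn) : Conf.Reads (kit.OO z d τ ∪ kit.K z d τ) (fun η => η ∈ kit.A z d τ) := by
  rw [pvth_OO_place kit z d hd, pvth_K_place kit z d hd, ← Set.image_union]
  exact pvci_T_reads (pvciAff d z hd).toEquiv (hk.rA τ)

theorem pvth_g_measurable (hk : kit.WF) (μ : Measure (Conf PvPt)) (z d : ℂ) : Measurable (kit.g μ z d) :=
  (measurable_one.indicator (pvth_mG hk z d)).div_const _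

theorem pvth_g_reads (hk : kit.WF) (μ : Measure (Conf PvPt)) (z d : ℂ) (hd : d ≠ 0) : Conf.Reads (kit.O z d) (kit.g μ z d) :=
  (pvti_ind_reads (pvth_rG hk z d hd)).comp (fun x => x / μ kit.G₀)

theorem pvth_measure_G (kit : PvthKit) (ε : ℝ) (z d : ℂ) (hd : ‖d‖ = 1) : pvP ε (kit.G z d) = pvP ε kit.G₀ :=
  pvci_measure_T (pvciAff d z (pvth_ne_zero hd)) (pvci_law_frame z d hd ε) kit.G₀

theorem pvth_G0_ne (hF : kit.Forced (pvP ε) β' q) : pvP ε kit.G₀ ≠ 0 := fun h0 => hF.β0 (le_antisymm (h0 ▸ hF.adm) zero_le)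

theorem pvth_g_mass (hk : kit.WF) (hF : kit.Forced (pvP ε) β' q) (z d : ℂ) (hd : ‖d‖ = 1) : ∫⁻ η, kit.g (pvP ε) z d η ∂(pvP ε) = 1 := by
  unfold PvthKit.g
  simp_rw [div_eq_mul_inv]
  rw [lintegral_mul_const _ (measurable_one.indicator (pvth_mG hk z d)), lintegral_indicator_one (pvth_mG hk z d), pvth_measure_G kit ε z d hd]
  exact ENNReal.mul_inv_cancel (pvth_G0_ne hF) (measure_ne_top _ _)

theorem pvth_g_ne_zero {μ : Measure (Conf PvPt)} {z d : ℂ} {η : Conf PvPt} (h : kit.g μ z d η ≠ 0) : η ∈ kit.G z d := by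
  by_contra hn
  exact h (by unfold PvthKit.g; rw [Set.indicator_of_notMem hn, ENNReal.zero_div])

theorem pvth_w_measurable (hk : kit.WF) (z d : ℂ) (hd : d ≠ 0) (τ : PvtTurn) : Measurable (kit.w (pvP ε) z d τ) :=
  pvth_W_measurable (pvth_mOO hk z d hd τ) (pvth_mA hk z d τ)

theorem pvth_w_reads (hk : kit.WF) (μ : Measure (Conf PvPt)) (z d : ℂ) (hd : d ≠ 0) (τ : PvtTurn) : Conf.Reads (kit.OO z d τ ∪ kit.K z d τ) (kit.w μ z d τ) :=
  pvth_W_reads μ (pvth_rA hk z d hd τ)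

/-- the placed connector is forced -/
theorem pvth_frc (hF : kit.Forced (pvP ε) β' q) (z d : ℂ) (hd : ‖d‖ = 1) (τ : PvtTurn) {σ : Conf PvPt} (h1 : σ ∈ kit.G z d)
    (h2 : σ ∈ kit.G (kit.zo z d τ) (d * τ.rot)) : q ≤ pvtiP (pvP ε) (kit.OO z d τ) (kit.A z d τ) σ := by
  rw [pvth_P_place kit ε z d hd]
  refine hF.frc τ _ h1 ?_
  rw [pvth_zo_place, pvth_G_comp kit z d _ _ (pvth_ne_zero hd)] at h2
  exact h2

theorem pvth_w_norm (hk : kit.WF) (hF : kit.Forced (pvP ε) β' q) (z d : ℂ) (hd : ‖d‖ = 1) (τ : PvtTurn) {σ : Conf PvPt} (h1 : σ ∈ kit.G z d)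
    (h2 : σ ∈ kit.G (kit.zo z d τ) (d * τ.rot)) : ∫⁻ η, kit.w (pvP ε) z d τ (Conf.spl (kit.OO z d τ) (σ, η)) ∂(pvP ε) = 1 :=
  pvth_W_norm (pvth_mOO hk z d (pvth_ne_zero hd) τ) (pvth_mA hk z d τ) σ
    fun h0 => hF.q0 (le_antisymm (h0 ▸ pvth_frc hF z d hd τ h1 h2) zero_le)

end place

/-! ## 1. TR25 in the form consumed here -/

/-- **TR25**: the mean of the placed cell is `d *` the cell constant (`pvP_isometry` + covariance by definition; `pvtiP` commutes with the placement because `cfMap` of a bijection commutes with `Conf.spl`) -/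
theorem pvth_place_mean (hk : kit.WF) (hX : kit.Fld X₀) (z d : ℂ) (hd : ‖d‖ = 1) (τ : PvtTurn) :
    ∫ η, pvthX X₀ z d τ η ∂((pvP ε).withDensity (kit.w2 (pvP ε) z d τ)) = d * kit.k (pvP ε) X₀ τ := by
  have hd0 := pvth_ne_zero hd
  obtain ⟨Φ, hΦ, hΦs⟩ := pvth_equiv (pvciAff d z hd0)
  have h1 := pvci_withDensity_map Φ (pvP ε) (kit.w2 (pvP ε) 0 1 τ)
  have h2 : (pvP ε).map Φ = pvP ε := by
    rw [show (Φ : Conf PvPt → Conf PvPt) = Conf.image (pvciAff d z hd0) from funext hΦ]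
    exact pvci_law_frame z d hd ε
  rw [h2] at h1
  have h3 : kit.w2 (pvP ε) z d τ = fun y => kit.w2 (pvP ε) 0 1 τ (Φ.symm y) := by
    funext y
    rw [pvth_w2_place kit ε z d hd, hΦs, pvth_cfMap_inv z d hd0]
  rw [h3, h1, integral_map_equiv]
  unfold PvthKit.k
  rw [← integral_const_mul]
  refine integral_congr_ae (ae_of_all _ fun η => ?_)
  show d * X₀ τ (cfMap (pvthInv z d) (Φ η)) = d * X₀ τ η
  rw [pvth_cfMap_inv z d hd0, ← hΦs, Φ.symm_apply_apply]

/-- the same for the second moment -/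
theorem pvth_place_sq (hk : kit.WF) (hX : kit.Fld X₀) (z d : ℂ) (hd : ‖d‖ = 1) (τ : PvtTurn) :
    ∫⁻ η, ‖pvthX X₀ z d τ η‖ₑ ^ 2 * kit.w2 (pvP ε) z d τ η ∂(pvP ε) = ∫⁻ η, ‖X₀ τ η‖ₑ ^ 2 * kit.w2 (pvP ε) 0 1 τ η ∂(pvP ε) := by
  have hd0 := pvth_ne_zero hd
  rw [← pvci_lintegral_T (pvciAff d z hd0) (pvci_law_frame z d hd ε) (fun η => ‖X₀ τ η‖ₑ ^ 2 * kit.w2 (pvP ε) 0 1 τ η)]
  refine lintegral_congr fun η => ?_
  show ‖d * X₀ τ (cfMap (pvthInv z d) η)‖ₑ ^ 2 * _ = ‖X₀ τ (cfMap (pvthInv z d) η)‖ₑ ^ 2 * kit.w2 (pvP ε) 0 1 τ (cfMap (pvthInv z d) η)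
  rw [pvth_w2_place kit ε z d hd, enorm_mul, ← ofReal_norm d, hd, ENNReal.ofReal_one, one_mul]

/-! ## 2. TR1, TR2 for a closed word -/

/-! ### doors (helper251) -/

theorem pvthx_take_succ (l : List PvtTurn) {j : ℕ} (hj : j < l.length) : l.take (j + 1) = l.take j ++ [pvthL l j] := by
  unfold pvthL
  rw [List.getD_eq_getElem _ _ hj]
  exact List.take_succ_eq_append_getElem hj

/-- the frame of the door `j + 1` is the exit frame of the cell `j` -/
theorem pvthx_D_succ (d : ℂ) (l : List PvtTurn) {j : ℕ} (hj : j < l.length) : pvthD d l (j + 1) = pvthD d l j * (pvthL l j).rot := by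
  unfold pvthD
  rw [pvthx_take_succ l hj, pvtDir_append]
  rfl

/-- the door `j + 1` is the exit door of the cell `j` -/
theorem pvthx_Z_succ (kit : PvthKit) (z d : ℂ) (l : List PvtTurn) {j : ℕ} (hj : j < l.length) :
    pvthZ kit.δ z d l (j + 1) = kit.zo (pvthZ kit.δ z d l j) (pvthD d l j) (pvthL l j) := by
  unfold pvthZ PvthKit.zo pvthD pvtDisp
  rw [pvthx_take_succ l hj, pvtAcc_append]
  simp only [pvtAcc_cons, pvtAcc_nil]
  ring

theorem pvthx_D_zero (d : ℂ) (l : List PvtTurn) : pvthD d l 0 = d := by simp [pvthD]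

theorem pvthx_Z_zero (δ : ℝ) (z d : ℂ) (l : List PvtTurn) : pvthZ δ z d l 0 = z := by simp [pvthZ, pvtDisp]

/-- closed word: the last door is the first door -/
theorem pvthx_D_len {d : ℂ} {l : List PvtTurn} (hl : PvtClosed d l) : pvthD d l l.length = pvthD d l 0 := by
  rw [pvthx_D_zero]; unfold pvthD; rw [List.take_length]; exact hl.2

theorem pvthx_Z_len (δ : ℝ) (z : ℂ) {d : ℂ} {l : List PvtTurn} (hl : PvtClosed d l) : pvthZ δ z d l l.length = pvthZ δ z d l 0 := by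
  rw [pvthx_Z_zero]; unfold pvthZ; rw [List.take_length, hl.1]; simp

theorem pvthx_D_norm {d : ℂ} (hd : d ^ 4 = 1) (l : List PvtTurn) (j : ℕ) : ‖pvthD d l j‖ = 1 := pvth_norm_of_pow (pvtDir_pow_four d hd _)

theorem pvthx_D_ne {d : ℂ} (hd : d ^ 4 = 1) (l : List PvtTurn) (j : ℕ) : pvthD d l j ≠ 0 := pvth_ne_zero (pvthx_D_norm hd l j)

/-- **TR2** for a closed word (proof: `pvthx_cycle` at the doors of the word) -/
theorem pvthx_cyc_marg_lint (hk : kit.WF) (hF : kit.Forced (pvP ε) β' q) {d : ℂ} (hd : d ^ 4 = 1) (z : ℂ) {l : List PvtTurn} (hl : PvtClosed d l) (h2 : 2 ≤ l.length)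
    (hdj : kit.Disj z d l) {j : ℕ} (hj : j < l.length) {F : Conf PvPt → ℝ≥0∞} (hFm : Measurable F)
    (hFr : Conf.Reads (kit.OO (pvthZ kit.δ z d l j) (pvthD d l j) (pvthL l j) ∪ kit.K (pvthZ kit.δ z d l j) (pvthD d l j) (pvthL l j)) F) :
    ∫⁻ η, F η * kit.Wt (pvP ε) z d l η ∂(pvP ε) = ∫⁻ η, F η * kit.w2 (pvP ε) (pvthZ kit.δ z d l j) (pvthD d l j) (pvthL l j) η ∂(pvP ε) := by
  have eOO : ∀ i < l.length, kit.OO (pvthZ kit.δ z d l i) (pvthD d l i) (pvthL l i) =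
      kit.O (pvthZ kit.δ z d l i) (pvthD d l i) ∪ kit.O (pvthZ kit.δ z d l (i + 1)) (pvthD d l (i + 1)) := fun i hi => by
    rw [pvthx_Z_succ kit z d l hi, pvthx_D_succ d l hi]; rfl
  have key := pvthx_cycle (pv_isPpp ε) (N := l.length) h2 (O := fun i => kit.O (pvthZ kit.δ z d l i) (pvthD d l i))
    (K := fun i => kit.K (pvthZ kit.δ z d l i) (pvthD d l i) (pvthL l i)) (g := fun i => kit.g (pvP ε) (pvthZ kit.δ z d l i) (pvthD d l i))
    (v := fun i => kit.w (pvP ε) (pvthZ kit.δ z d l i) (pvthD d l i) (pvthL l i))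
    (by simp only [pvthx_Z_len kit.δ z hl, pvthx_D_len hl]) (by simp only [pvthx_Z_len kit.δ z hl, pvthx_D_len hl])
    (fun i _ => pvth_mO hk _ _ (pvthx_D_ne hd l i)) (fun i _ => pvth_mK hk _ _ (pvthx_D_ne hd l i) _) hdj.OO hdj.KK hdj.OK
    (fun i _ => pvth_g_measurable hk _ _ _) (fun i _ => pvth_w_measurable hk _ _ (pvthx_D_ne hd l i) _) (fun i _ => pvth_g_reads hk _ _ _ (pvthx_D_ne hd l i))
    (fun i hi => by
      have := pvth_w_reads hk (pvP ε) (pvthZ kit.δ z d l i) _ (pvthx_D_ne hd l i) (pvthL l i)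
      rwa [eOO i hi] at this)
    (fun i _ => pvth_g_mass hk hF _ _ (pvthx_D_norm hd l i))
    (fun i hi σ h1 h2 => by
      have h1' := pvth_g_ne_zero h1
      have h2' := pvth_g_ne_zero h2
      rw [pvthx_Z_succ kit z d l hi, pvthx_D_succ d l hi] at h2'
      have := pvth_w_norm hk hF (pvthZ kit.δ z d l i) _ (pvthx_D_norm hd l i) (pvthL l i) h1' h2'
      rwa [eOO i hi] at this)
    hj hFm (by rwa [eOO j hj] at hFr)
  unfold PvthKit.Wt PvthKit.w2
  rw [key, pvthx_Z_succ kit z d l hj, pvthx_D_succ d l hj]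


/-- **TR1** for a closed word: the cycle weight has total mass one -/
theorem pvth_cyc_mass (hk : kit.WF) (hF : kit.Forced (pvP ε) β' q) {d : ℂ} (hd : d ^ 4 = 1) (z : ℂ) {l : List PvtTurn} (hl : PvtClosed d l) (h2 : 2 ≤ l.length)
    (hdj : kit.Disj z d l) : ∫⁻ η, kit.Wt (pvP ε) z d l η ∂(pvP ε) = 1 := by
  have h0 : 0 < l.length := by omega
  have h1 : 1 < l.length := by omega
  have e := pvthx_cyc_marg_lint hk hF hd z hl h2 hdj h0 (F := fun _ => 1) measurable_const (fun _ => rfl)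
  simp only [one_mul] at e
  rw [e]
  unfold PvthKit.w2
  have dn := pvthx_D_ne hd l 0
  have dn1 : pvthD d l 0 * (pvthL l 0).rot ≠ 0 := mul_ne_zero dn (pvt_rot_ne_zero _)
  have nn1 : ‖pvthD d l 0 * (pvthL l 0).rot‖ = 1 := by rw [← pvthx_D_succ d l h0]; exact pvthx_D_norm hd l 1
  have eZ := pvthx_Z_succ kit z d l h0
  have eD := pvthx_D_succ d l h0
  refine pvthx_two_mass (pv_isPpp ε) (O := kit.O (pvthZ kit.δ z d l 0) (pvthD d l 0)) (O' := kit.O (kit.zo (pvthZ kit.δ z d l 0) (pvthD d l 0) (pvthL l 0)) (pvthD d l 0 * (pvthL l 0).rot))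
    (K := kit.K (pvthZ kit.δ z d l 0) (pvthD d l 0) (pvthL l 0)) (pvth_mO hk _ _ dn) (pvth_mO hk _ _ dn1) (pvth_mK hk _ _ dn _) ?_ (hdj.OK 0 h0 0 h0) ?_
    (pvth_g_measurable hk _ _ _) (pvth_g_measurable hk _ _ _) (pvth_w_measurable hk _ _ dn _) (pvth_g_reads hk _ _ _ dn) (pvth_g_reads hk _ _ _ dn1) (pvth_w_reads hk _ _ _ dn _)
    (pvth_g_mass hk hF _ _ (pvthx_D_norm hd l 0)) (pvth_g_mass hk hF _ _ nn1)
    (fun σ a b => pvth_w_norm hk hF _ _ (pvthx_D_norm hd l 0) _ (pvth_g_ne_zero a) (pvth_g_ne_zero b))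
  · rw [← eZ, ← eD]; exact hdj.OO 0 h0 1 h1 (by norm_num)
  · rw [← eZ, ← eD]; exact hdj.OK 1 h1 0 h0

/-- the exit door of the cell `j` is the door `j + 1` (153) -/
theorem pvthx_exit153 (kit : PvthKit) (z d : ℂ) (l : List PvtTurn) {j : ℕ} (hj : j < l.length) :
    kit.zo (pvthZ kit.δ z d l j) (pvthD d l j) (pvthL l j) = pvthZ kit.δ z d l (j + 1) ∧ pvthD d l j * (pvthL l j).rot = pvthD d l (j + 1) := by
  have e : l.take (j + 1) = l.take j ++ [pvthL l j] := by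
    unfold pvthL
    rw [List.getD_eq_getElem _ _ hj]
    exact List.take_succ_eq_append_getElem hj
  constructor
  · unfold PvthKit.zo pvthZ pvthD pvtDisp
    rw [e, pvtAcc_append]
    simp only [pvtAcc_cons, pvtAcc_nil]
    ring
  · unfold pvthD
    rw [e, pvtDir_append]
    simp only [pvtDir_cons, pvtDir_nil]

/-- the last door of a closed word is the first door (153) -/
theorem pvthx_last153 (δ : ℝ) (z : ℂ) {d : ℂ} {l : List PvtTurn} (hl : PvtClosed d l) :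
    pvthZ δ z d l l.length = pvthZ δ z d l 0 ∧ pvthD d l l.length = pvthD d l 0 := by
  unfold pvthZ pvthD
  rw [List.take_length, List.take_zero, hl.1, hl.2]
  simp [pvtDisp]

/-- on the event the exit plug of every cell is usable (153) -/
theorem pvthx_exit_mem153 {z d : ℂ} {l : List PvtTurn} (hl : PvtClosed d l) {η : Conf PvPt} (hη : η ∈ kit.Ev z d l) {j : ℕ} (hj : j < l.length) :
    η ∈ kit.G (kit.zo (pvthZ kit.δ z d l j) (pvthD d l j) (pvthL l j)) (pvthD d l j * (pvthL l j).rot) := by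
  obtain ⟨e1, e2⟩ := pvthx_exit153 kit z d l hj
  rw [e1, e2]
  rcases Nat.lt_or_ge (j + 1) l.length with h | h
  · exact (hη (j + 1) h).1
  · have e : j + 1 = l.length := le_antisymm hj h
    obtain ⟨e3, e4⟩ := pvthx_last153 kit.δ z hl
    rw [e, e3, e4]
    exact (hη 0 (by omega)).1

/-- **TR1**, second half: the cycle weight is bounded by `(β' q)^{-N}` on the event, and vanishes off the event -/
theorem pvth_cyc_le (hk : kit.WF) (hF : kit.Forced (pvP ε) β' q) {d : ℂ} (hd : d ^ 4 = 1) (z : ℂ) {l : List PvtTurn} (hl : PvtClosed d l) (η : Conf PvPt) :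
    kit.Wt (pvP ε) z d l η ≤ ((β' * q)⁻¹) ^ l.length * (kit.Ev z d l).indicator 1 η := by
  have hn : ∀ j, ‖pvthD d l j‖ = 1 := fun j => by
    unfold pvthD
    rw [pvt_norm_dir]
    exact pvth_norm_of_pow hd
  by_cases hη : η ∈ kit.Ev z d l
  · rw [Set.indicator_of_mem hη, Pi.one_apply, mul_one]
    unfold PvthKit.Wt
    have := Finset.prod_le_pow_card (Finset.range l.length)
      (fun j => kit.g (pvP ε) (pvthZ kit.δ z d l j) (pvthD d l j) η * kit.w (pvP ε) (pvthZ kit.δ z d l j) (pvthD d l j) (pvthL l j) η) ((β' * q)⁻¹) ?_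
    · rwa [Finset.card_range] at this
    intro j hj
    have hj' : j < l.length := Finset.mem_range.1 hj
    rw [ENNReal.mul_inv (Or.inl hF.β0) (Or.inr hF.q0)]
    refine mul_le_mul' ?_ ?_
    · unfold PvthKit.g
      rw [Set.indicator_of_mem (hη j hj').1, Pi.one_apply, one_div]
      exact ENNReal.inv_le_inv.2 hF.adm
    · unfold PvthKit.w pvtiW
      rw [Set.indicator_of_mem (hη j hj').2, Pi.one_apply, one_div]
      exact ENNReal.inv_le_inv.2 (pvth_frc hF _ _ (hn j) _ (hη j hj').1 (pvthx_exit_mem153 hl hη hj'))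
  · rw [Set.indicator_of_notMem hη, mul_zero]
    refine le_of_eq ?_
    have : ∃ j, j < l.length ∧ ¬ (η ∈ kit.G (pvthZ kit.δ z d l j) (pvthD d l j) ∧ η ∈ kit.A (pvthZ kit.δ z d l j) (pvthD d l j) (pvthL l j)) := by
      by_contra hc
      push_neg at hc
      exact hη fun j hj => hc j hj
    obtain ⟨j, hj, hc⟩ := this
    unfold PvthKit.Wt
    refine Finset.prod_eq_zero (Finset.mem_range.2 hj) ?_
    by_cases h1 : η ∈ kit.G (pvthZ kit.δ z d l j) (pvthD d l j)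
    · have h2 : η ∉ kit.A (pvthZ kit.δ z d l j) (pvthD d l j) (pvthL l j) := fun h => hc ⟨h1, h⟩
      unfold PvthKit.w pvtiW
      rw [Set.indicator_of_notMem h2, ENNReal.zero_div, mul_zero]
    · unfold PvthKit.g
      rw [Set.indicator_of_notMem h1, ENNReal.zero_div, zero_mul]

/-- **TR2** for a closed word, nonnegative form: under the cycle weight the triple (entrance state, connector, exit state) of the cell `j` has the two-plug marginal -/
theorem pvth_cyc_marg_lint (hk : kit.WF) (hF : kit.Forced (pvP ε) β' q) {d : ℂ} (hd : d ^ 4 = 1) (z : ℂ) {l : List PvtTurn} (hl : PvtClosed d l) (h2 : 2 ≤ l.length)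
    (hdj : kit.Disj z d l) {j : ℕ} (hj : j < l.length) {F : Conf PvPt → ℝ≥0∞} (hFm : Measurable F)
    (hFr : Conf.Reads (kit.OO (pvthZ kit.δ z d l j) (pvthD d l j) (pvthL l j) ∪ kit.K (pvthZ kit.δ z d l j) (pvthD d l j) (pvthL l j)) F) :
    ∫⁻ η, F η * kit.Wt (pvP ε) z d l η ∂(pvP ε) = ∫⁻ η, F η * kit.w2 (pvP ε) (pvthZ kit.δ z d l j) (pvthD d l j) (pvthL l j) η ∂(pvP ε) :=
  pvthx_cyc_marg_lint hk hF hd z hl h2 hdj hj hFm hFr

/-- reading through a placement -/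
theorem pvth_reads_map {β : Type*} {g : ℂ → ℂ} {W₀ : Set PvPt} {F₀ : Conf PvPt → β} (h : Conf.Reads W₀ F₀) :
    Conf.Reads (Prod.map g id ⁻¹' W₀) (fun η => F₀ (cfMap g η)) := by
  intro η
  have e : cfMap g (Conf.restr (Prod.map g id ⁻¹' W₀) η) = Conf.restr W₀ (cfMap g η) := by
    apply Conf.ext
    show Prod.map g id '' (η.pts ∩ Prod.map g id ⁻¹' W₀) = Prod.map g id '' η.pts ∩ W₀
    exact Set.image_inter_preimage _ _ _
  show F₀ (cfMap g (Conf.restr _ η)) = F₀ (cfMap g η)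
  rw [e, h]

theorem pvth_sim_pre {z d : ℂ} (hd : d ≠ 0) (z' d' : ℂ) (S : Set ℂ) :
    ((pvthSim (z + d * z') (d * d') '' S) ×ˢ univ : Set PvPt) = Prod.map (pvthInv z d) id ⁻¹' ((pvthSim z' d' '' S) ×ˢ univ) := by
  ext ⟨p, c⟩
  simp only [mem_prod, mem_univ, and_true, mem_preimage, Prod.map, mem_image, pvthSim, pvthInv]
  constructor
  · rintro ⟨w, hw, rfl⟩
    refine ⟨w, hw, ?_⟩
    field_simp
    ring
  · rintro ⟨w, hw, h⟩
    refine ⟨w, hw, ?_⟩
    rw [eq_div_iff hd] at h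
    linear_combination h

/-- the regions of a placed cell are the preimages of the reference regions -/
theorem pvth_region (kit : PvthKit) {z d : ℂ} (hd : d ≠ 0) (τ : PvtTurn) :
    kit.OO z d τ ∪ kit.K z d τ = Prod.map (pvthInv z d) id ⁻¹' (kit.OO 0 1 τ ∪ kit.K 0 1 τ) := by
  have h1 : kit.O z d = Prod.map (pvthInv z d) id ⁻¹' kit.O 0 1 := by
    have := pvth_sim_pre (z := z) hd 0 1 kit.O₀
    rwa [mul_zero, add_zero, mul_one] at this
  have h2 : kit.O (kit.zo z d τ) (d * τ.rot) = Prod.map (pvthInv z d) id ⁻¹' kit.O (kit.zo 0 1 τ) (1 * τ.rot) := by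
    have := pvth_sim_pre (z := z) hd (kit.zo 0 1 τ) (1 * τ.rot) kit.O₀
    have e1 : z + d * kit.zo 0 1 τ = kit.zo z d τ := by unfold PvthKit.zo; ring
    have e2 : d * (1 * τ.rot) = d * τ.rot := by ring
    rwa [e1, e2] at this
  have h3 : kit.K z d τ = Prod.map (pvthInv z d) id ⁻¹' kit.K 0 1 τ := by
    have := pvth_sim_pre (z := z) hd 0 1 (kit.K₀ τ)
    rwa [mul_zero, add_zero, mul_one] at this
  unfold PvthKit.OO
  rw [h1, h2, h3, preimage_union, preimage_union]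

theorem pvth_inv_meas (z d : ℂ) : Measurable (pvthInv z d) := (measurable_id.sub_const z).div_const d

theorem pvth_X_meas (hX : kit.Fld X₀) (z d : ℂ) (τ : PvtTurn) : Measurable (pvthX X₀ z d τ) :=
  ((hX.meas τ).comp (measurable_cfMap (pvth_inv_meas z d))).const_mul d

theorem pvth_X_reads (hX : kit.Fld X₀) (z : ℂ) {d : ℂ} (hd : d ≠ 0) (τ : PvtTurn) : Conf.Reads (kit.OO z d τ ∪ kit.K z d τ) (pvthX X₀ z d τ) := by
  rw [pvth_region kit hd τ]
  intro η
  exact congrArg (fun x => d * x) (pvth_reads_map (g := pvthInv z d) (hX.reads τ) η)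

theorem pvth_norm_D {d : ℂ} (hd : d ^ 4 = 1) (l : List PvtTurn) (j : ℕ) : ‖pvthD d l j‖ = 1 := by
  unfold pvthD
  rw [pvt_norm_dir]
  have h : ‖d‖ ^ 4 = 1 := by rw [← norm_pow, hd, norm_one]
  exact (pow_eq_one_iff_of_nonneg (norm_nonneg d) (by norm_num)).1 h

theorem pvth_D_ne {d : ℂ} (hd : d ^ 4 = 1) (l : List PvtTurn) (j : ℕ) : pvthD d l j ≠ 0 := by
  intro h
  have := pvth_norm_D hd l j
  rw [h, norm_zero] at this
  exact zero_ne_one this

/-- **TR2** for a closed word: the mean of the cell `j` under the cycle weight -/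
theorem pvth_cyc_marg (hk : kit.WF) (hX : kit.Fld X₀) (hF : kit.Forced (pvP ε) β' q) {d : ℂ} (hd : d ^ 4 = 1) (z : ℂ) {l : List PvtTurn} (hl : PvtClosed d l)
    (h2 : 2 ≤ l.length) (hdj : kit.Disj z d l) {j : ℕ} (hj : j < l.length) :
    ∫ η, kit.Xj X₀ z d l j η ∂((pvP ε).withDensity (kit.Wt (pvP ε) z d l)) = pvthD d l j * (kit.W (pvP ε) X₀).w (pvthL l j) := by
  have hm : Measurable (kit.Xj X₀ z d l j) := pvth_X_meas hX _ _ _
  have hr := pvth_X_reads (kit := kit) hX (pvthZ kit.δ z d l j) (pvth_D_ne hd l j) (pvthL l j)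
  have hmap : ((pvP ε).withDensity (kit.Wt (pvP ε) z d l)).map (kit.Xj X₀ z d l j)
      = ((pvP ε).withDensity (kit.w2 (pvP ε) (pvthZ kit.δ z d l j) (pvthD d l j) (pvthL l j))).map (kit.Xj X₀ z d l j) := by
    refine Measure.ext fun S hS => ?_
    rw [Measure.map_apply hm hS, Measure.map_apply hm hS, withDensity_apply _ (hm hS), withDensity_apply _ (hm hS),
      ← lintegral_indicator (hm hS), ← lintegral_indicator (hm hS)]
    have key := pvth_cyc_marg_lint (ε := ε) hk hF hd z hl h2 hdj hj (F := (kit.Xj X₀ z d l j ⁻¹' S).indicator 1)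
      (measurable_one.indicator (hm hS))
      (pvti_ind_reads (S := kit.Xj X₀ z d l j ⁻¹' S) (fun η => by
        show (kit.Xj X₀ z d l j (Conf.restr _ η) ∈ S) = (kit.Xj X₀ z d l j η ∈ S)
        have e : kit.Xj X₀ z d l j (Conf.restr _ η) = kit.Xj X₀ z d l j η := hr η
        rw [e]))
    have e : ∀ (w : Conf PvPt → ℝ≥0∞) (η : Conf PvPt), (kit.Xj X₀ z d l j ⁻¹' S).indicator w η = (kit.Xj X₀ z d l j ⁻¹' S).indicator 1 η * w η := by
      intro w η
      by_cases h : η ∈ kit.Xj X₀ z d l j ⁻¹' S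
      · rw [indicator_of_mem h, indicator_of_mem h, Pi.one_apply, one_mul]
      · rw [indicator_of_notMem h, indicator_of_notMem h, zero_mul]
    rw [lintegral_congr (e _), lintegral_congr (e _)]
    exact key
  have e1 : ∀ ν : Measure (Conf PvPt), ∫ η, kit.Xj X₀ z d l j η ∂ν = ∫ y, y ∂(ν.map (kit.Xj X₀ z d l j)) :=
    fun ν => (integral_map hm.aemeasurable aestronglyMeasurable_id).symm
  rw [e1, hmap, ← e1]
  have h3 := pvth_place_mean (ε := ε) hk hX (pvthZ kit.δ z d l j) (pvthD d l j) (pvth_norm_D hd l j) (pvthL l j)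
  have h4 : (kit.W (pvP ε) X₀).w (pvthL l j) = kit.k (pvP ε) X₀ (pvthL l j) := by
    cases pvthL l j <;> rfl
  rw [h4]
  exact h3

/-- second moment of the cell `j` under the cycle weight -/
theorem pvth_cyc_marg_sq (hk : kit.WF) (hX : kit.Fld X₀) (hF : kit.Forced (pvP ε) β' q) {d : ℂ} (hd : d ^ 4 = 1) (z : ℂ) {l : List PvtTurn} (hl : PvtClosed d l)
    (h2 : 2 ≤ l.length) (hdj : kit.Disj z d l) {j : ℕ} (hj : j < l.length) :
    ∫⁻ η, ‖kit.Xj X₀ z d l j η‖ₑ ^ 2 * kit.Wt (pvP ε) z d l η ∂(pvP ε) = ∫⁻ η, ‖X₀ (pvthL l j) η‖ₑ ^ 2 * kit.w2 (pvP ε) 0 1 (pvthL l j) η ∂(pvP ε) := by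
  have hm : Measurable (kit.Xj X₀ z d l j) := pvth_X_meas hX _ _ _
  have hr := pvth_X_reads (kit := kit) hX (pvthZ kit.δ z d l j) (pvth_D_ne hd l j) (pvthL l j)
  rw [pvth_cyc_marg_lint (ε := ε) hk hF hd z hl h2 hdj hj (F := fun η => ‖kit.Xj X₀ z d l j η‖ₑ ^ 2) (hm.enorm.pow_const 2)
    (fun η => by
      have e : kit.Xj X₀ z d l j (Conf.restr _ η) = kit.Xj X₀ z d l j η := hr η
      simp only [e])]
  exact pvth_place_sq hk hX _ _ (pvth_norm_D hd l j) _

/-! ## 3. TR28 (ii): bounds from Bessel on the same loop -/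

theorem pvthx_O_meas (hk : kit.WF) (z : ℂ) {d : ℂ} (hd : d ≠ 0) : MeasurableSet (kit.O z d) := by
  have h := pvth_sim_pre (z := z) hd 0 1 kit.O₀
  rw [mul_zero, add_zero, mul_one] at h
  have e : pvthSim 0 1 '' kit.O₀ = kit.O₀ := by
    have : pvthSim 0 1 = id := by
      funext w
      simp [pvthSim]
    rw [this, image_id]
  unfold PvthKit.O
  rw [h, e]
  exact ((pvth_inv_meas z d).prodMap measurable_id) (hk.mO.prod MeasurableSet.univ)

theorem pvthx_g_meas (hk : kit.WF) (μ : Measure (Conf PvPt)) (z d : ℂ) : Measurable (kit.g μ z d) :=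
  (measurable_one.indicator (measurable_cfMap (pvth_inv_meas z d) hk.mG)).div_const _

theorem pvthx_w2_meas (hk : kit.WF) (τ : PvtTurn) : Measurable (kit.w2 (pvP ε) 0 1 τ) := by
  have hr : (1 : ℂ) * τ.rot ≠ 0 := by
    rw [one_mul]
    exact pvt_rot_ne_zero τ
  have hOO : MeasurableSet (kit.OO 0 1 τ) := (pvthx_O_meas hk 0 one_ne_zero).union (pvthx_O_meas hk _ hr)
  have hA : MeasurableSet (kit.A 0 1 τ) := measurable_cfMap (pvth_inv_meas 0 1) (hk.mA τ)
  have hw : Measurable (kit.w (pvP ε) 0 1 τ) := (measurable_one.indicator hA).div (pvti_P_measurable hOO hA)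
  exact ((pvthx_g_meas hk _ _ _).mul (pvthx_g_meas hk _ _ _)).mul hw

/-- **TR28 (ii)**.      `hbes` = [TR13 + TR14 on the loop: on `Ev` the field of the cell `j` is `X_π(mask_j)` for a rim `π`] + I.BES (`B = C_B |mask|₂² ≤ C δ²`). -/
theorem pvth_bound (hk : kit.WF) (hX : kit.Fld X₀) (hF : kit.Forced (pvP ε) β' q) {d : ℂ} (hd : d ^ 4 = 1) (z : ℂ) {l : List PvtTurn} (hl : PvtClosed d l)
    (h2 : 2 ≤ l.length) (hdj : kit.Disj z d l) {j : ℕ} (hj : j < l.length) {B : ℝ≥0∞}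
    (hbes : ∫⁻ η, ‖kit.Xj X₀ z d l j η‖ₑ ^ 2 * (kit.Ev z d l).indicator 1 η ∂(pvP ε) ≤ B) :
    ∫⁻ η, ‖X₀ (pvthL l j) η‖ₑ ^ 2 * kit.w2 (pvP ε) 0 1 (pvthL l j) η ∂(pvP ε) ≤ ((β' * q)⁻¹) ^ l.length * B ∧
      ‖kit.k (pvP ε) X₀ (pvthL l j)‖ₑ ^ 2 ≤ ((β' * q)⁻¹) ^ l.length * B := by
  have p1 : ∫⁻ η, ‖X₀ (pvthL l j) η‖ₑ ^ 2 * kit.w2 (pvP ε) 0 1 (pvthL l j) η ∂(pvP ε) ≤ ((β' * q)⁻¹) ^ l.length * B := by
    rw [← pvth_cyc_marg_sq hk hX hF hd z hl h2 hdj hj]
    have hc : ((β' * q)⁻¹) ^ l.length ≠ ∞ :=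
      ENNReal.pow_ne_top (ENNReal.inv_ne_top.2 (mul_ne_zero hF.β0 hF.q0))
    calc ∫⁻ η, ‖kit.Xj X₀ z d l j η‖ₑ ^ 2 * kit.Wt (pvP ε) z d l η ∂(pvP ε)
        ≤ ∫⁻ η, ((β' * q)⁻¹) ^ l.length * (‖kit.Xj X₀ z d l j η‖ₑ ^ 2 * (kit.Ev z d l).indicator 1 η) ∂(pvP ε) := by
          refine lintegral_mono fun η => ?_
          calc ‖kit.Xj X₀ z d l j η‖ₑ ^ 2 * kit.Wt (pvP ε) z d l η
              ≤ ‖kit.Xj X₀ z d l j η‖ₑ ^ 2 * (((β' * q)⁻¹) ^ l.length * (kit.Ev z d l).indicator 1 η) :=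
                mul_le_mul_right (pvth_cyc_le hk hF hd z hl η) _
            _ = ((β' * q)⁻¹) ^ l.length * (‖kit.Xj X₀ z d l j η‖ₑ ^ 2 * (kit.Ev z d l).indicator 1 η) := by ring
      _ = ((β' * q)⁻¹) ^ l.length * ∫⁻ η, ‖kit.Xj X₀ z d l j η‖ₑ ^ 2 * (kit.Ev z d l).indicator 1 η ∂(pvP ε) :=
          lintegral_const_mul' _ _ hc
      _ ≤ ((β' * q)⁻¹) ^ l.length * B := mul_le_mul_right hbes _
  refine ⟨p1, le_trans ?_ p1⟩
  have hw2 : Measurable (kit.w2 (pvP ε) 0 1 (pvthL l j)) := pvthx_w2_meas hk _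
  have hone : kit.Fld (fun _ _ => (1 : ℂ)) := ⟨fun _ => measurable_const, fun _ _ => rfl⟩
  have hmass : ∫⁻ η, kit.w2 (pvP ε) 0 1 (pvthL l j) η ∂(pvP ε) = 1 := by
    have h := pvth_cyc_marg_sq (ε := ε) hk hone hF hd z hl h2 hdj hj
    have e1 : ∀ η, ‖kit.Xj (fun _ _ => (1 : ℂ)) z d l j η‖ₑ ^ 2 * kit.Wt (pvP ε) z d l η = kit.Wt (pvP ε) z d l η := by
      intro η
      have : ‖kit.Xj (fun _ _ => (1 : ℂ)) z d l j η‖ₑ = 1 := by
        show ‖pvthD d l j * 1‖ₑ = 1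
        rw [mul_one, ← ofReal_norm, pvth_norm_D hd, ENNReal.ofReal_one]
      rw [this, one_pow, one_mul]
    have e2 : ∀ η, ‖(1 : ℂ)‖ₑ ^ 2 * kit.w2 (pvP ε) 0 1 (pvthL l j) η = kit.w2 (pvP ε) 0 1 (pvthL l j) η := by
      intro η
      rw [enorm_one, one_pow, one_mul]
    rw [lintegral_congr e1, lintegral_congr e2, pvth_cyc_mass hk hF hd z hl h2 hdj] at h
    exact h.symm
  haveI : IsProbabilityMeasure ((pvP ε).withDensity (kit.w2 (pvP ε) 0 1 (pvthL l j))) :=
    ⟨by rw [withDensity_apply _ MeasurableSet.univ, Measure.restrict_univ, hmass]⟩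
  have hj2 := pvti_jensen ((pvP ε).withDensity (kit.w2 (pvP ε) 0 1 (pvthL l j))) 0 (hX.meas (pvthL l j)).aestronglyMeasurable
  simp only [zero_add] at hj2
  refine le_trans hj2 (le_of_eq ?_)
  rw [lintegral_withDensity_eq_lintegral_mul _ hw2 ((hX.meas (pvthL l j)).enorm.pow_const 2)]
  exact lintegral_congr fun η => mul_comm _ _

/-! ## 4. TR27: the hexagon -/

/-- an additive functional of a word is the sum over its doors (153) -/
theorem pvthx_acc153 (f : PvtTurn → ℂ) (d : ℂ) (l : List PvtTurn) : pvtAcc f d l = ∑ j ∈ Finset.range l.length, pvthD d l j * f (pvthL l j) := by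
  induction l generalizing d with
  | nil => simp
  | cons τ l ih =>
    rw [pvtAcc_cons, List.length_cons, Finset.sum_range_succ', ih, add_comm]
    congr 1

theorem pvthx_Wt_meas153 (hk : kit.WF) {d : ℂ} (hd : d ^ 4 = 1) (z : ℂ) (l : List PvtTurn) : Measurable (kit.Wt (pvP ε) z d l) := by
  unfold PvthKit.Wt
  exact Finset.measurable_fun_prod _ fun j _ => (pvth_g_measurable hk _ _ _).mul (pvth_w_measurable hk _ _ (pvth_D_ne hd l j) _)

theorem pvthx_le_one_add_sq153 (a : ℝ≥0∞) : a ≤ 1 + a ^ 2 := by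
  rcases le_total a 1 with h | h
  · exact h.trans le_self_add
  · calc a = a * 1 := (mul_one a).symm
      _ ≤ a * a := mul_le_mul_right h a
      _ = a ^ 2 := (sq a).symm
      _ ≤ 1 + a ^ 2 := le_add_self

/-- **TR27**, any closed word.      `hclose` = [TR13 + TR14: on `Ev` the sum is `X_π(1)` for a rim `π ⊆ box`, `diam π ≥ δ`] + I.TAIL (+ the mesh-bad term).      `hint` = `pvth_bound` with `B < ∞`. -/
theorem pvth_closed (hk : kit.WF) (hX : kit.Fld X₀) (hF : kit.Forced (pvP ε) β' q) {d : ℂ} (hd : d ^ 4 = 1) (z : ℂ) {l : List PvtTurn} (hl : PvtClosed d l)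
    (h2 : 2 ≤ l.length) (hdj : kit.Disj z d l) (hint : ∀ τ, ∫⁻ η, ‖X₀ τ η‖ₑ ^ 2 * kit.w2 (pvP ε) 0 1 τ η ∂(pvP ε) ≠ ∞) {θ : ℝ≥0∞}
    (hclose : ∫⁻ η, ‖kit.Y X₀ z d l η‖ₑ ^ 2 * (kit.Ev z d l).indicator 1 η ∂(pvP ε) ≤ θ) :
    ‖(kit.W (pvP ε) X₀).rel * pvtNR d l‖ₑ ^ 2 ≤ ((β' * q)⁻¹) ^ l.length * θ := by
  have hWm := pvthx_Wt_meas153 (ε := ε) hk hd z l
  have hP : IsProbabilityMeasure ((pvP ε).withDensity (kit.Wt (pvP ε) z d l)) := ⟨by
    rw [withDensity_apply _ MeasurableSet.univ, Measure.restrict_univ]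
    exact pvth_cyc_mass hk hF hd z hl h2 hdj⟩
  have hXm : ∀ j, Measurable (kit.Xj X₀ z d l j) := fun j => pvth_X_meas hX _ _ _
  have hYm : Measurable (kit.Y X₀ z d l) := by
    unfold PvthKit.Y
    exact Finset.measurable_fun_sum _ fun j _ => hXm j
  have hXi : ∀ j ∈ Finset.range l.length, Integrable (kit.Xj X₀ z d l j) ((pvP ε).withDensity (kit.Wt (pvP ε) z d l)) := by
    intro j hj
    refine ⟨(hXm j).aestronglyMeasurable, ?_⟩
    have h1 : ∫⁻ η, ‖kit.Xj X₀ z d l j η‖ₑ ^ 2 ∂((pvP ε).withDensity (kit.Wt (pvP ε) z d l)) ≠ ∞ := by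
      rw [lintegral_withDensity_eq_lintegral_mul _ hWm ((hXm j).enorm.pow_const 2)]
      have := pvth_cyc_marg_sq (ε := ε) hk hX hF hd z hl h2 hdj (Finset.mem_range.1 hj)
      simp only [Pi.mul_apply]
      simp_rw [mul_comm (kit.Wt (pvP ε) z d l _)]
      rw [this]
      exact hint _
    calc ∫⁻ η, ‖kit.Xj X₀ z d l j η‖ₑ ∂((pvP ε).withDensity (kit.Wt (pvP ε) z d l))
        ≤ ∫⁻ η, (1 + ‖kit.Xj X₀ z d l j η‖ₑ ^ 2) ∂((pvP ε).withDensity (kit.Wt (pvP ε) z d l)) := lintegral_mono fun η => pvthx_le_one_add_sq153 _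
      _ = 1 + ∫⁻ η, ‖kit.Xj X₀ z d l j η‖ₑ ^ 2 ∂((pvP ε).withDensity (kit.Wt (pvP ε) z d l)) := by
          rw [lintegral_add_left measurable_const, lintegral_const, measure_univ, mul_one]
      _ < ∞ := ENNReal.add_lt_top.2 ⟨ENNReal.one_lt_top, lt_top_iff_ne_top.2 h1⟩
  have e1 : ∫ η, kit.Y X₀ z d l η ∂((pvP ε).withDensity (kit.Wt (pvP ε) z d l)) = (kit.W (pvP ε) X₀).rel * pvtNR d l := by
    unfold PvthKit.Y
    rw [integral_finsetSum _ hXi, ← pvt_closed_sum _ hl, pvtSum, pvthx_acc153]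
    exact Finset.sum_congr rfl fun j hj => pvth_cyc_marg hk hX hF hd z hl h2 hdj (Finset.mem_range.1 hj)
  have j := pvti_jensen ((pvP ε).withDensity (kit.Wt (pvP ε) z d l)) 0 (Y := kit.Y X₀ z d l) hYm.aestronglyMeasurable
  simp only [zero_add] at j
  rw [e1, lintegral_withDensity_eq_lintegral_mul _ hWm (hYm.enorm.pow_const 2)] at j
  refine j.trans ?_
  have hEv : Measurable fun η => ‖kit.Y X₀ z d l η‖ₑ ^ 2 * (kit.Ev z d l).indicator (1 : Conf PvPt → ℝ≥0∞) η := by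
    refine (hYm.enorm.pow_const 2).mul (measurable_one.indicator ?_)
    have : kit.Ev z d l = ⋂ j ∈ Finset.range l.length, (kit.G (pvthZ kit.δ z d l j) (pvthD d l j) ∩ kit.A (pvthZ kit.δ z d l j) (pvthD d l j) (pvthL l j)) := by
      ext η
      simp only [PvthKit.Ev, mem_setOf_eq, mem_iInter, Finset.mem_range, mem_inter_iff]
    rw [this]
    exact Finset.measurableSet_biInter _ fun j _ => (pvth_mG hk _ _).inter (pvth_mA hk _ _ _)
  calc ∫⁻ η, (kit.Wt (pvP ε) z d l * fun η => ‖kit.Y X₀ z d l η‖ₑ ^ 2) η ∂(pvP ε)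
      ≤ ∫⁻ η, ((β' * q)⁻¹) ^ l.length * (‖kit.Y X₀ z d l η‖ₑ ^ 2 * (kit.Ev z d l).indicator 1 η) ∂(pvP ε) := by
        refine lintegral_mono fun η => ?_
        simp only [Pi.mul_apply]
        calc kit.Wt (pvP ε) z d l η * ‖kit.Y X₀ z d l η‖ₑ ^ 2
            ≤ (((β' * q)⁻¹) ^ l.length * (kit.Ev z d l).indicator 1 η) * ‖kit.Y X₀ z d l η‖ₑ ^ 2 := mul_le_mul_left (pvth_cyc_le hk hF hd z hl η) _
          _ = ((β' * q)⁻¹) ^ l.length * (‖kit.Y X₀ z d l η‖ₑ ^ 2 * (kit.Ev z d l).indicator 1 η) := by ring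
    _ = ((β' * q)⁻¹) ^ l.length * ∫⁻ η, ‖kit.Y X₀ z d l η‖ₑ ^ 2 * (kit.Ev z d l).indicator 1 η ∂(pvP ε) := lintegral_const_mul _ hEv
    _ ≤ ((β' * q)⁻¹) ^ l.length * θ := mul_le_mul_right hclose _

/-- **TR27**: the L-shaped hexagon -/
theorem pvth_hex (hk : kit.WF) (hX : kit.Fld X₀) (hF : kit.Forced (pvP ε) β' q) (z : ℂ) (a b c e : ℕ) (hdj : kit.Disj z 1 (pvtHex a b c e))
    (hint : ∀ τ, ∫⁻ η, ‖X₀ τ η‖ₑ ^ 2 * kit.w2 (pvP ε) 0 1 τ η ∂(pvP ε) ≠ ∞) {θ : ℝ≥0∞}
    (hclose : ∫⁻ η, ‖kit.Y X₀ z 1 (pvtHex a b c e) η‖ₑ ^ 2 * (kit.Ev z 1 (pvtHex a b c e)).indicator 1 η ∂(pvP ε) ≤ θ) :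
    ‖(kit.W (pvP ε) X₀).rel‖ₑ ^ 2 ≤ ((β' * q)⁻¹) ^ (pvtHex a b c e).length * θ := by
  have h := pvth_closed (ε := ε) hk hX hF (d := 1) (by norm_num) z (pvt_hex_closed 1 a b c e) (by simp [pvtHex, pvtRun]; omega) hdj hint hclose
  rwa [pvt_hex_NR, mul_neg, mul_one, enorm_neg] at h

/-! ## 5. TR28 (i): the field `V` telescopes -/

/-- **TR28 (i)**, EXACT.      `f = ζ` = the CUT POINT of the door plug, a function of its state: (position of the entrance vertex of the second gate) + (edges of the inner entrance path with tag outside the cut-off disc).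
`htel` = on the support of the two-plug weight `V`(cell) `= ζ(exit plug) - ζ(entrance plug)` (deterministic: `V` is the sum of the edge vectors; TR14).      `hfi`: crude bound `|ζ| ≤ diam O + ∑_{retained t in O} diam t ∈ L¹`. -/
theorem pvth_V (hk : kit.WF) (hX : kit.Fld X₀) (hF : kit.Forced (pvP ε) β' q) (τ : PvtTurn)
    (hOO : Disjoint (kit.O 0 1) (kit.O (kit.zo 0 1 τ) τ.rot)) (hOK : Disjoint (kit.OO 0 1 τ) (kit.K 0 1 τ))
    {f : Conf PvPt → ℂ} (hf : Measurable f) (hfr : Conf.Reads (kit.O 0 1) f) (hfi : Integrable f ((pvP ε).withDensity (kit.g (pvP ε) 0 1)))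
    (htel : ∀ η ∈ kit.G₀, η ∈ kit.G (kit.zo 0 1 τ) τ.rot → η ∈ kit.A₀ τ →
      X₀ τ η = (kit.zo 0 1 τ + τ.rot * f (cfMap (pvthInv (kit.zo 0 1 τ) τ.rot) η)) - f η) :
    kit.k (pvP ε) X₀ τ = kit.δ * τ.mid - (∫ η, f η ∂((pvP ε).withDensity (kit.g (pvP ε) 0 1))) * (1 - τ.rot) := by
  have h := pv_isPpp ε
  have hr1 : ‖τ.rot‖ = 1 := pvt_norm_rot τ
  have hr0 : τ.rot ≠ 0 := pvt_rot_ne_zero τ
  have h11 : ‖(1 : ℂ)‖ = 1 := norm_one
  have eOO : kit.OO 0 1 τ = kit.O 0 1 ∪ kit.O (kit.zo 0 1 τ) τ.rot := by unfold PvthKit.OO; rw [one_mul]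
  have ew2 : ∀ η, kit.w2 (pvP ε) 0 1 τ η = kit.g (pvP ε) 0 1 η * kit.g (pvP ε) (kit.zo 0 1 τ) τ.rot η * kit.w (pvP ε) 0 1 τ η := by
    intro η; unfold PvthKit.w2; rw [one_mul]
  have mO := pvth_mO hk 0 1 one_ne_zero
  have mO' := pvth_mO hk (kit.zo 0 1 τ) τ.rot hr0
  have mOO := pvth_mOO hk 0 1 one_ne_zero τ
  have mK := pvth_mK hk 0 1 one_ne_zero τ
  have mg := pvth_g_measurable hk (pvP ε) 0 1
  have mg' := pvth_g_measurable hk (pvP ε) (kit.zo 0 1 τ) τ.rot
  have mv := pvth_w_measurable (ε := ε) hk 0 1 one_ne_zero τ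
  have rg := pvth_g_reads hk (pvP ε) 0 1 one_ne_zero
  have rg' := pvth_g_reads hk (pvP ε) (kit.zo 0 1 τ) τ.rot hr0
  have rv := pvth_w_reads hk (pvP ε) 0 1 one_ne_zero τ
  have ng := pvth_g_mass (ε := ε) hk hF 0 1 h11
  have ng' := pvth_g_mass (ε := ε) hk hF (kit.zo 0 1 τ) τ.rot hr1
  have mw2 : Measurable (kit.w2 (pvP ε) 0 1 τ) := by
    have : kit.w2 (pvP ε) 0 1 τ = fun η => kit.g (pvP ε) 0 1 η * kit.g (pvP ε) (kit.zo 0 1 τ) τ.rot η * kit.w (pvP ε) 0 1 τ η := funext ew2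
    rw [this]; exact (mg.mul mg').mul mv
  have sub1 : kit.O 0 1 ⊆ kit.OO 0 1 τ := by rw [eOO]; exact subset_union_left
  have sub2 : kit.O (kit.zo 0 1 τ) τ.rot ⊆ kit.OO 0 1 τ := by rw [eOO]; exact subset_union_right
  have subK : kit.OO 0 1 τ ⊆ (kit.K 0 1 τ)ᶜ := Set.subset_compl_iff_disjoint_right.2 hOK
  -- Step A: peel the connector
  have stepA : ∀ F : Conf PvPt → ℝ≥0∞, Measurable F → Conf.Reads (kit.OO 0 1 τ) F →
      ∫⁻ η, F η ∂((pvP ε).withDensity (kit.w2 (pvP ε) 0 1 τ)) = ∫⁻ η, F η * (kit.g (pvP ε) 0 1 η * kit.g (pvP ε) (kit.zo 0 1 τ) τ.rot η) ∂(pvP ε) := by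
    intro F hFm hFr
    rw [lintegral_withDensity_eq_lintegral_mul _ mw2 hFm]
    have e : ∀ η, (kit.w2 (pvP ε) 0 1 τ * F) η = F η * (kit.g (pvP ε) 0 1 η * kit.g (pvP ε) (kit.zo 0 1 τ) τ.rot η) * kit.w (pvP ε) 0 1 τ η := by
      intro η; rw [Pi.mul_apply, ew2]; ring
    simp_rw [e]
    refine pvti_peel (b := fun η => kit.g (pvP ε) 0 1 η * kit.g (pvP ε) (kit.zo 0 1 τ) τ.rot η) h mOO mK hOK hFm (mg.mul mg') mv (hFr.mono subK)
      (pvthx_reads_mul (rg.mono (sub1.trans subK)) (rg'.mono (sub2.trans subK))) rv ?_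
    intro σ hσ
    have a1 := pvth_g_ne_zero (left_ne_zero_of_mul hσ)
    have a2 := pvth_g_ne_zero (right_ne_zero_of_mul hσ)
    refine pvth_w_norm hk hF 0 1 h11 τ a1 ?_
    rw [one_mul]; exact a2
  -- Step B: the two marginals
  have stepB : ∀ F : Conf PvPt → ℝ≥0∞, Measurable F → Conf.Reads (kit.O 0 1) F →
      ∫⁻ η, F η ∂((pvP ε).withDensity (kit.w2 (pvP ε) 0 1 τ)) = ∫⁻ η, F η ∂((pvP ε).withDensity (kit.g (pvP ε) 0 1)) := by
    intro F hFm hFr
    rw [stepA F hFm (hFr.mono sub1), lintegral_withDensity_eq_lintegral_mul _ mg hFm]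
    have e : ∀ η, F η * (kit.g (pvP ε) 0 1 η * kit.g (pvP ε) (kit.zo 0 1 τ) τ.rot η) = (F η * kit.g (pvP ε) 0 1 η) * kit.g (pvP ε) (kit.zo 0 1 τ) τ.rot η := fun η => by ring
    simp_rw [e]
    rw [h.lintegral_mul_reads (f := fun η => F η * kit.g (pvP ε) 0 1 η) mO mO' hOO (hFm.mul mg) mg' (pvthx_reads_mul hFr rg) rg', ng', mul_one]
    refine lintegral_congr fun η => ?_
    rw [Pi.mul_apply, mul_comm]
  have stepB' : ∀ F : Conf PvPt → ℝ≥0∞, Measurable F → Conf.Reads (kit.O (kit.zo 0 1 τ) τ.rot) F →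
      ∫⁻ η, F η ∂((pvP ε).withDensity (kit.w2 (pvP ε) 0 1 τ)) = ∫⁻ η, F η ∂((pvP ε).withDensity (kit.g (pvP ε) (kit.zo 0 1 τ) τ.rot)) := by
    intro F hFm hFr
    rw [stepA F hFm (hFr.mono sub2), lintegral_withDensity_eq_lintegral_mul _ mg' hFm]
    have e : ∀ η, F η * (kit.g (pvP ε) 0 1 η * kit.g (pvP ε) (kit.zo 0 1 τ) τ.rot η) = kit.g (pvP ε) 0 1 η * (F η * kit.g (pvP ε) (kit.zo 0 1 τ) τ.rot η) := fun η => by ring
    simp_rw [e]
    rw [h.lintegral_mul_reads (g := fun η => F η * kit.g (pvP ε) (kit.zo 0 1 τ) τ.rot η) mO mO' hOO mg (hFm.mul mg') rg (pvthx_reads_mul hFr rg'), ng, one_mul]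
    refine lintegral_congr fun η => ?_
    rw [Pi.mul_apply, mul_comm]
  -- the placed cut point
  set f' : Conf PvPt → ℂ := fun η => f (cfMap (pvthInv (kit.zo 0 1 τ) τ.rot) η) with hf'
  have mf' : Measurable f' := hf.comp (measurable_cfMap (pvth_measurable_inv _ _))
  have rf' : Conf.Reads (kit.O (kit.zo 0 1 τ) τ.rot) f' := by
    rw [pvth_O_place kit _ _ hr0]
    exact pvci_T_reads (pvciAff τ.rot (kit.zo 0 1 τ) hr0).toEquiv hfr
  have L := pvci_law_frame (kit.zo 0 1 τ) τ.rot hr1 ε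
  have eg' : kit.g (pvP ε) (kit.zo 0 1 τ) τ.rot = pvciT (pvciAff τ.rot (kit.zo 0 1 τ) (pvth_ne_zero hr1)).toEquiv (kit.g (pvP ε) 0 1) :=
    funext fun η => pvth_g_place kit (pvP ε) _ _ hr0 η
  -- Step C: covariance
  have stepC : ∫ η, f' η ∂((pvP ε).withDensity (kit.g (pvP ε) (kit.zo 0 1 τ) τ.rot)) = ∫ η, f η ∂((pvP ε).withDensity (kit.g (pvP ε) 0 1)) := by
    rw [eg']
    exact pvci_integral_withDensity_T _ L (kit.g (pvP ε) 0 1) f
  have intC : Integrable f' ((pvP ε).withDensity (kit.g (pvP ε) (kit.zo 0 1 τ) τ.rot)) := by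
    rw [eg', ← pvci_withDensity_T _ L, integrable_map_measure mf'.aestronglyMeasurable (Conf.measurable_image (pvciAff _ _ _).measurable).aemeasurable]
    refine hfi.congr (ae_of_all _ fun η => ?_)
    exact (pvci_T_image (pvciAff τ.rot (kit.zo 0 1 τ) (pvth_ne_zero hr1)).toEquiv f η).symm
  -- integrability under the two-plug weight
  have i1 : Integrable f ((pvP ε).withDensity (kit.w2 (pvP ε) 0 1 τ)) := by
    refine ⟨hf.aestronglyMeasurable, ?_⟩
    unfold HasFiniteIntegral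
    rw [stepB _ hf.enorm (hfr.comp (fun x => ‖x‖ₑ))]
    exact hfi.2
  have i2 : Integrable f' ((pvP ε).withDensity (kit.w2 (pvP ε) 0 1 τ)) := by
    refine ⟨mf'.aestronglyMeasurable, ?_⟩
    unfold HasFiniteIntegral
    rw [stepB' _ mf'.enorm (rf'.comp (fun x => ‖x‖ₑ))]
    exact intC.2
  have hP : IsProbabilityMeasure ((pvP ε).withDensity (kit.w2 (pvP ε) 0 1 τ)) := ⟨by
    have := stepB (fun _ => 1) measurable_const (fun _ => rfl)
    simp only [lintegral_const, one_mul] at this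
    rw [this, withDensity_apply _ MeasurableSet.univ, Measure.restrict_univ]
    exact ng⟩
  -- Step D
  have eX : ∀ᵐ η ∂((pvP ε).withDensity (kit.w2 (pvP ε) 0 1 τ)), X₀ τ η = (kit.zo 0 1 τ + τ.rot * f' η) - f η := by
    rw [ae_withDensity_iff mw2]
    refine ae_of_all _ fun η hne => ?_
    rw [ew2] at hne
    have a1 := pvth_g_ne_zero (left_ne_zero_of_mul (left_ne_zero_of_mul hne))
    have a2 := pvth_g_ne_zero (right_ne_zero_of_mul (left_ne_zero_of_mul hne))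
    have a3 : η ∈ kit.A₀ τ := by
      by_contra hn
      apply right_ne_zero_of_mul hne
      unfold PvthKit.w pvtiW
      rw [pvth_A_ref, Set.indicator_of_notMem hn, ENNReal.zero_div]
    rw [pvth_G_ref] at a1
    exact htel η a1 a2 a3
  unfold PvthKit.k
  have i3 : Integrable (fun η => kit.zo 0 1 τ + τ.rot * f' η) ((pvP ε).withDensity (kit.w2 (pvP ε) 0 1 τ)) := (integrable_const _).add (i2.const_mul _)
  rw [integral_congr_ae eX, integral_sub i3 i1, integral_add (integrable_const _) (i2.const_mul _),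
    integral_const_mul, integral_const, pvth_transfer mO stepB hf hfr, pvth_transfer mO' stepB' mf' rf', stepC]
  simp only [probReal_univ, one_smul]
  unfold PvthKit.zo
  ring

end Claimed.Agent.R289
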