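import Claimed.Agent.R289.Tr.CellAlg
import Claimed.Agent.R289.Tr.CellHex

/-!
# Row 289 (S0537), block WB4 CELLS, file Tr/CellChain : GEOMETRY OF PLACED CELLS + THE CHAIN MEAN      (helper166; prefix `pvcc`)

Reference picture (unit coordinates): the reference cell is the open square of centre `1/2` and half side `1/2`; it is entered through the door `0` in the
frame `1` and left through the door `τ.mid` in the frame `τ.rot` (218, `Tr/CellAlg`).   A reference plug region `O₀` lives in the open square of centre `0` and half side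
`r ≤ 1/4`; the three reference tiles `K₀ τ` live in the reference cell, off the four `r`-squares round the midpoints of its sides.
Everything is placed by the similarities `w ↦ z + d w` (`pvccPl`), `d ≠ 0` arbitrary (`d = δ · i^k` in the model).

* §1 sup norm `pvccN`, squares `pvccSq`, placements `pvccPl`, Gaussian integers `PvccG`;
* §2 doors `pvccZ`, frames `pvccD`, centres `pvccC` of a word; recursions, covariance;
* §3 **`pvcc_OO`, `pvcc_KK`, `pvcc_OK`** : along a CELL-SIMPLE word the placed plugs and tiles are pairwise disjoint (`pvcc_OK` needs no simplicity);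
* §4 integer model, `decide` for explicit words: the hexagon `pvtHex 0 0 0 0 = S L L R L L S L` (HEX of 125) is a simple loop; straight words; words of `Nodup` paths of cells;
* §5 the chain mean (TR2 + TR25 + TR26).
-/

set_option autoImplicit false

namespace Claimed.Agent.R289

open Complex Set

/-! ## 1. sup norm, squares, placements, Gaussian integers -/

/-- the sup norm of the plane -/
noncomputable def pvccN (w : ℂ) : ℝ := max |w.re| |w.im|

/-- the open square of centre `c` and half side `r` -/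
def pvccSq (c : ℂ) (r : ℝ) : Set ℂ := {w | pvccN (w - c) < r}

/-- the placement `w ↦ z + d w` of a reference region -/
def pvccPl (z d : ℂ) (U : Set ℂ) : Set ℂ := (fun w => z + d * w) '' U

/-- Gaussian integers -/
def PvccG (w : ℂ) : Prop := ∃ a b : ℤ, w = (a : ℂ) + (b : ℂ) * I

theorem pvccN_nonneg (w : ℂ) : 0 ≤ pvccN w := le_max_of_le_left (abs_nonneg _)

theorem pvccN_neg (w : ℂ) : pvccN (-w) = pvccN w := by simp [pvccN]

theorem pvccN_add_le (a b : ℂ) : pvccN (a + b) ≤ pvccN a + pvccN b := by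
  unfold pvccN
  refine max_le ?_ ?_
  · rw [add_re]
    exact (abs_add_le _ _).trans (add_le_add (le_max_left _ _) (le_max_left _ _))
  · rw [add_im]
    exact (abs_add_le _ _).trans (add_le_add (le_max_right _ _) (le_max_right _ _))

theorem pvccN_unit_mul {u : ℂ} (hu : u ^ 4 = 1) (w : ℂ) : pvccN (u * w) = pvccN w := by
  rcases pvt_fourth_root hu with rfl | rfl | rfl | rfl
  · simp
  · simp [pvccN, max_comm]
  · simp [pvccN]
  · simp [pvccN, max_comm]

theorem pvccN_two_mul (w : ℂ) : pvccN (2 * w) = 2 * pvccN w := by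
  unfold pvccN
  have h1 : (2 * w).re = 2 * w.re := by simp
  have h2 : (2 * w).im = 2 * w.im := by simp
  rw [h1, h2, abs_mul, abs_mul, abs_two, ← mul_max_of_nonneg _ _ (by norm_num : (0:ℝ) ≤ 2)]

theorem pvcc_sq_disjoint {c c' : ℂ} {r r' : ℝ} (h : r + r' ≤ pvccN (c - c')) : Disjoint (pvccSq c r) (pvccSq c' r') := by
  rw [Set.disjoint_left]
  intro w h1 h2
  have h1' : pvccN (c - w) < r := by
    have := pvccN_neg (w - c)
    rw [neg_sub] at this
    rw [this]; exact h1
  have h3 := pvccN_add_le (c - w) (w - c')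
  rw [sub_add_sub_cancel] at h3
  have h2' : pvccN (w - c') < r' := h2
  linarith

theorem pvcc_sq_mono (c : ℂ) {r r' : ℝ} (h : r ≤ r') : pvccSq c r ⊆ pvccSq c r' := fun _ hw => lt_of_lt_of_le hw h

theorem pvccPl_mono (z d : ℂ) {U V : Set ℂ} (h : U ⊆ V) : pvccPl z d U ⊆ pvccPl z d V := Set.image_mono h

theorem pvccPl_comp (z d z' d' : ℂ) (U : Set ℂ) : pvccPl z d (pvccPl z' d' U) = pvccPl (z + d * z') (d * d') U := by
  unfold pvccPl
  rw [Set.image_image]
  refine Set.image_congr fun w _ => ?_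
  ring

theorem pvcc_pl_injective (z : ℂ) {d : ℂ} (hd : d ≠ 0) : Function.Injective fun w : ℂ => z + d * w := fun a b h => by
  have : d * a = d * b := add_left_cancel h
  exact mul_left_cancel₀ hd this

theorem pvccPl_disjoint (z : ℂ) {d : ℂ} (hd : d ≠ 0) {U V : Set ℂ} (h : Disjoint U V) : Disjoint (pvccPl z d U) (pvccPl z d V) :=
  (Set.disjoint_image_iff (pvcc_pl_injective z hd)).2 h

theorem pvccPl_eq_preimage (z : ℂ) {d : ℂ} (hd : d ≠ 0) (U : Set ℂ) : pvccPl z d U = (fun x => (x - z) / d) ⁻¹' U := by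
  ext x
  simp only [pvccPl, mem_image, mem_preimage]
  constructor
  · rintro ⟨w, hw, rfl⟩
    have : (z + d * w - z) / d = w := by field_simp; ring
    rw [this]; exact hw
  · intro h
    exact ⟨_, h, by field_simp; ring⟩

theorem pvccPl_measurable (z : ℂ) {d : ℂ} (hd : d ≠ 0) {U : Set ℂ} (hU : MeasurableSet U) : MeasurableSet (pvccPl z d U) := by
  rw [pvccPl_eq_preimage z hd]
  exact ((measurable_id.sub_const z).div_const d) hU

/-- a rotation by a fourth root of unity maps squares to squares -/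
theorem pvccPl_sq (z : ℂ) {u : ℂ} (hu : u ^ 4 = 1) (c : ℂ) (r : ℝ) : pvccPl z u (pvccSq c r) = pvccSq (z + u * c) r := by
  have hu0 : u ≠ 0 := by
    rintro rfl
    norm_num at hu
  rw [pvccPl_eq_preimage z hu0]
  ext x
  simp only [mem_preimage, pvccSq, Set.mem_ofPred_eq]
  have e : x - (z + u * c) = u * ((x - z) / u - c) := by field_simp; ring
  rw [e, pvccN_unit_mul hu]

theorem PvccG.zero : PvccG 0 := ⟨0, 0, by simp⟩

theorem PvccG.one : PvccG 1 := ⟨1, 0, by simp⟩

theorem PvccG.add {a b : ℂ} (ha : PvccG a) (hb : PvccG b) : PvccG (a + b) := by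
  obtain ⟨a1, a2, rfl⟩ := ha
  obtain ⟨b1, b2, rfl⟩ := hb
  exact ⟨a1 + b1, a2 + b2, by push_cast; ring⟩

theorem PvccG.neg {a : ℂ} (ha : PvccG a) : PvccG (-a) := by
  obtain ⟨a1, a2, rfl⟩ := ha
  exact ⟨-a1, -a2, by push_cast; ring⟩

theorem PvccG.sub {a b : ℂ} (ha : PvccG a) (hb : PvccG b) : PvccG (a - b) := by
  rw [sub_eq_add_neg]; exact ha.add hb.neg

theorem PvccG.I_mul {a : ℂ} (ha : PvccG a) : PvccG (I * a) := by
  obtain ⟨a1, a2, rfl⟩ := ha
  exact ⟨-a2, a1, by push_cast; linear_combination (a2 : ℂ) * Complex.I_sq⟩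

theorem PvccG.unit_mul {u a : ℂ} (hu : u ^ 4 = 1) (ha : PvccG a) : PvccG (u * a) := by
  rcases pvt_fourth_root hu with rfl | rfl | rfl | rfl
  · simpa using ha
  · exact ha.I_mul
  · simpa using ha.neg
  · simpa using ha.I_mul.neg

theorem PvccG.unit {u : ℂ} (hu : u ^ 4 = 1) : PvccG u := by
  simpa using PvccG.unit_mul hu PvccG.one

/-- a nonzero Gaussian integer has sup norm at least one -/
theorem PvccG.one_le {g : ℂ} (hg : PvccG g) (h0 : g ≠ 0) : 1 ≤ pvccN g := by
  obtain ⟨a, b, rfl⟩ := hg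
  have hre : ((a : ℂ) + (b : ℂ) * I).re = a := by simp
  have him : ((a : ℂ) + (b : ℂ) * I).im = b := by simp
  unfold pvccN
  rw [hre, him]
  by_cases ha : a = 0
  · have hb : b ≠ 0 := by
      rintro rfl
      apply h0
      simp [ha]
    refine le_max_of_le_right ?_
    have : (1 : ℤ) ≤ |b| := Int.one_le_abs hb
    exact_mod_cast this
  · refine le_max_of_le_left ?_
    have : (1 : ℤ) ≤ |a| := Int.one_le_abs ha
    exact_mod_cast this

/-- the midpoints of the sides of the other cells are far from the centre of a cell -/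
theorem PvccG.one_le_sub_half {g : ℂ} (hg : PvccG g) (h0 : g ≠ 0) (h1 : g ≠ 1) : 1 ≤ pvccN (g - 1 / 2) := by
  obtain ⟨a, b, rfl⟩ := hg
  have hre : ((a : ℂ) + (b : ℂ) * I - 1 / 2).re = a - 1 / 2 := by simp
  have him : ((a : ℂ) + (b : ℂ) * I - 1 / 2).im = b := by simp
  unfold pvccN
  rw [hre, him]
  by_cases hb : b = 0
  · subst hb
    have ha0 : a ≠ 0 := by
      rintro rfl
      apply h0; simp
    have ha1 : a ≠ 1 := by
      rintro rfl
      apply h1; simp
    refine le_max_of_le_left ?_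
    rcases lt_or_gt_of_ne ha0 with h | h
    · have : (a : ℝ) ≤ -1 := by exact_mod_cast (by omega : a ≤ -1)
      rw [abs_of_nonpos (by linarith)]
      linarith
    · have : (2 : ℝ) ≤ a := by exact_mod_cast (by omega : 2 ≤ a)
      rw [abs_of_nonneg (by linarith)]
      linarith
  · refine le_max_of_le_right ?_
    have : (1 : ℤ) ≤ |b| := Int.one_le_abs hb
    exact_mod_cast this

/-- two frames whose half difference is a Gaussian integer are equal or opposite -/
theorem pvcc_unit_half {u v : ℂ} (hu : u ^ 4 = 1) (hv : v ^ 4 = 1) (hg : PvccG ((u - v) / 2)) : v = u ∨ v = -u := by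
  obtain ⟨a, b, h⟩ := hg
  have hre := congrArg Complex.re h
  have him := congrArg Complex.im h
  have key : ∀ x : ℤ, (1 / 2 : ℝ) ≠ x := by
    intro x hx
    have : (2 : ℝ) * x = 1 := by linarith
    have h2 : (2 : ℤ) * x = 1 := by exact_mod_cast this
    omega
  have key' : ∀ x : ℤ, (-1 / 2 : ℝ) ≠ x := by
    intro x hx
    have : (2 : ℝ) * x = -1 := by linarith
    have h2 : (2 : ℤ) * x = -1 := by exact_mod_cast this
    omega
  rcases pvt_fourth_root hu with rfl | rfl | rfl | rfl <;> rcases pvt_fourth_root hv with rfl | rfl | rfl | rfl <;>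
    first
    | (left; rfl)
    | (right; simp; done)
    | (exfalso; simp at hre; first | exact key a (by linarith) | exact key' a (by linarith))

/-! ## 2. doors, frames and centres of a word -/

/-- the `j`-th door (midpoint of a side) of the word `l` started at the door `z` in the frame `d` -/
noncomputable def pvccZ (z d : ℂ) (l : List PvtTurn) (j : ℕ) : ℂ := z + pvtDisp d (l.take j)

/-- the frame at the `j`-th door -/
noncomputable def pvccD (d : ℂ) (l : List PvtTurn) (j : ℕ) : ℂ := pvtDir d (l.take j)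

/-- the centre of the `j`-th cell (the cell entered through the `j`-th door) -/
noncomputable def pvccC (z d : ℂ) (l : List PvtTurn) (j : ℕ) : ℂ := pvccZ z d l j + pvccD d l j / 2

/-- the `j`-th letter -/
def pvccT (l : List PvtTurn) (j : ℕ) : PvtTurn := l.getD j PvtTurn.S

theorem pvcc_take_succ (l : List PvtTurn) {j : ℕ} (hj : j < l.length) : l.take (j + 1) = l.take j ++ [pvccT l j] := by
  rw [List.take_add_one, pvccT, List.getD_eq_getElem?_getD, List.getElem?_eq_getElem hj]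
  rfl

@[simp] theorem pvccZ_zero (z d : ℂ) (l : List PvtTurn) : pvccZ z d l 0 = z := by simp [pvccZ, pvtDisp]

@[simp] theorem pvccD_zero (d : ℂ) (l : List PvtTurn) : pvccD d l 0 = d := by simp [pvccD]

theorem pvccD_succ (d : ℂ) (l : List PvtTurn) {j : ℕ} (hj : j < l.length) : pvccD d l (j + 1) = pvccD d l j * (pvccT l j).rot := by
  unfold pvccD
  rw [pvcc_take_succ l hj, pvtDir_append]
  rfl

theorem pvccZ_succ (z d : ℂ) (l : List PvtTurn) {j : ℕ} (hj : j < l.length) :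
    pvccZ z d l (j + 1) = pvccZ z d l j + pvccD d l j * (pvccT l j).mid := by
  unfold pvccZ pvccD pvtDisp
  rw [pvcc_take_succ l hj, pvtAcc_append]
  simp [add_assoc]

theorem pvccZ_length (z d : ℂ) (l : List PvtTurn) : pvccZ z d l l.length = z + pvtDisp d l := by simp [pvccZ]

theorem pvccD_length (d : ℂ) (l : List PvtTurn) : pvccD d l l.length = pvtDir d l := by simp [pvccD]

theorem pvccD_cov (d : ℂ) (l : List PvtTurn) (j : ℕ) : pvccD d l j = d * pvccD 1 l j := pvtDir_eq_mul_one d _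

theorem pvccZ_cov (z d : ℂ) (l : List PvtTurn) (j : ℕ) : pvccZ z d l j = z + d * pvccZ 0 1 l j := by
  unfold pvccZ pvtDisp
  rw [pvtAcc_eq_mul_one, zero_add]

theorem pvccC_cov (z d : ℂ) (l : List PvtTurn) (j : ℕ) : pvccC z d l j = z + d * pvccC 0 1 l j := by
  unfold pvccC
  rw [pvccZ_cov, pvccD_cov]; ring

theorem pvccD_pow_four {d : ℂ} (hd : d ^ 4 = 1) (l : List PvtTurn) (j : ℕ) : pvccD d l j ^ 4 = 1 := pvtDir_pow_four d hd _

/-- centre = first centre + the sum of the steps -/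
theorem pvccC_eq (z d : ℂ) (l : List PvtTurn) (j : ℕ) : pvccC z d l j = z + d / 2 + pvtAcc PvtTurn.rot d (l.take j) := by
  unfold pvccC pvccZ pvccD
  rw [pvt_disp_eq_end 0, pvtEnd]; ring

/-- the cell before the door `j + 1` is the cell `j` -/
theorem pvccC_prev (z d : ℂ) (l : List PvtTurn) {j : ℕ} (hj : j < l.length) :
    pvccZ z d l (j + 1) - pvccD d l (j + 1) / 2 = pvccC z d l j := by
  rw [pvccZ_succ z d l hj, pvccD_succ d l hj, pvt_mid_eq, pvccC]; ring

theorem pvcc_acc_rot_gauss {u : ℂ} (hu : u ^ 4 = 1) (l : List PvtTurn) : PvccG (pvtAcc PvtTurn.rot u l) := by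
  induction l generalizing u with
  | nil => simpa using PvccG.zero
  | cons τ l ih =>
    have hu' : (u * τ.rot) ^ 4 = 1 := by rw [mul_pow, hu, pvt_rot_pow_four, one_mul]
    rw [pvtAcc_cons]
    exact (PvccG.unit hu').add (ih hu')

theorem pvccC_sub_gauss (l : List PvtTurn) (j k : ℕ) : PvccG (pvccC 0 1 l j - pvccC 0 1 l k) := by
  rw [pvccC_eq, pvccC_eq]
  have := (pvcc_acc_rot_gauss (one_pow 4) (l.take j)).sub (pvcc_acc_rot_gauss (one_pow 4) (l.take k))
  convert this using 1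
  ring

theorem pvcc_mid_ne_zero (τ : PvtTurn) : τ.mid ≠ 0 := by
  intro h
  have := congrArg Complex.re h
  cases τ <;> simp [PvtTurn.mid] at this

/-- **cell-simple up to the index `N`**: the centres of the cells `0, …, N` are distinct -/
def PvccSimple (l : List PvtTurn) (N : ℕ) : Prop := ∀ j k, j ≤ N → k ≤ N → pvccC 0 1 l j = pvccC 0 1 l k → j = k

theorem PvccSimple.mono {l : List PvtTurn} {N M : ℕ} (h : PvccSimple l N) (hM : M ≤ N) : PvccSimple l M :=
  fun j k hj hk e => h j k (hj.trans hM) (hk.trans hM) e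

theorem PvccSimple.centre_ne {l : List PvtTurn} {N : ℕ} (h : PvccSimple l N) (z : ℂ) {d : ℂ} (hd : d ≠ 0) {j k : ℕ} (hj : j ≤ N) (hk : k ≤ N)
    (hjk : j ≠ k) : pvccC z d l j ≠ pvccC z d l k := by
  intro e
  rw [pvccC_cov z d l j, pvccC_cov z d l k] at e
  exact hjk (h j k hj hk (pvcc_pl_injective z hd e))

/-- the doors of a cell-simple word are distinct (unit coordinates, `j < k`) -/
theorem PvccSimple.door_ne_aux {l : List PvtTurn} {N : ℕ} (h : PvccSimple l N) (hN : N ≤ l.length) {j k : ℕ} (hk : k ≤ N) (hjk : j < k) :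
    pvccZ 0 1 l j ≠ pvccZ 0 1 l k := by
  intro e
  obtain ⟨k, rfl⟩ : ∃ k', k = k' + 1 := ⟨k - 1, by omega⟩
  have hkl : k < l.length := by omega
  have hg := pvccC_sub_gauss l j (k + 1)
  have e1 : pvccC 0 1 l j - pvccC 0 1 l (k + 1) = (pvccD 1 l j - pvccD 1 l (k + 1)) / 2 := by
    unfold pvccC; rw [e]; ring
  rw [e1] at hg
  rcases pvcc_unit_half (pvccD_pow_four (one_pow 4) l j) (pvccD_pow_four (one_pow 4) l (k + 1)) hg with h1 | h1
  · have : pvccC 0 1 l j = pvccC 0 1 l (k + 1) := by unfold pvccC; rw [e, h1]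
    have := h j (k + 1) (by omega) hk this
    omega
  · have h2 := pvccC_prev 0 1 l hkl
    have : pvccC 0 1 l j = pvccC 0 1 l k := by
      rw [← h2, ← e, h1, pvccC]; ring
    have hjk' := h j k (by omega) (by omega) this
    subst hjk'
    rw [pvccZ_succ 0 1 l hkl] at e
    have h3 : pvccD 1 l j * (pvccT l j).mid = 0 := by linear_combination -e
    rcases mul_eq_zero.1 h3 with h4 | h4
    · have := pvccD_pow_four (one_pow 4) l j
      rw [h4] at this
      norm_num at this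
    · exact pvcc_mid_ne_zero _ h4

theorem PvccSimple.door_ne {l : List PvtTurn} {N : ℕ} (h : PvccSimple l N) (hN : N ≤ l.length) {j k : ℕ} (hj : j ≤ N) (hk : k ≤ N) (hjk : j ≠ k) :
    pvccZ 0 1 l j ≠ pvccZ 0 1 l k := by
  rcases lt_or_gt_of_ne hjk with h1 | h1
  · exact h.door_ne_aux hN hk h1
  · exact (h.door_ne_aux hN hj h1).symm

/-! ## 3. the placed regions are pairwise disjoint -/

/-- **the reference regions** (unit coordinates): plug `O₀` in the `r`-square round the door `0`, tiles `K₀ τ` in the reference cell, off the `r`-squares round the midpoints of its four sides -/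
structure PvccRef (r : ℝ) (O₀ : Set ℂ) (K₀ : PvtTurn → Set ℂ) : Prop where
  r_le : r ≤ 1 / 4
  O_sub : O₀ ⊆ pvccSq 0 r
  K_cell : ∀ τ, K₀ τ ⊆ pvccSq (1 / 2) (1 / 2)
  K_off : ∀ τ, ∀ v : ℂ, v ^ 4 = 1 → Disjoint (K₀ τ) (pvccSq (1 / 2 + v / 2) r)

/-- the placed plug at the door `j` -/
def pvccO (O₀ : Set ℂ) (z d : ℂ) (l : List PvtTurn) (j : ℕ) : Set ℂ := pvccPl (pvccZ z d l j) (pvccD d l j) O₀

/-- the placed tile in the cell `j` -/
def pvccK (K₀ : PvtTurn → Set ℂ) (z d : ℂ) (l : List PvtTurn) (j : ℕ) : Set ℂ := pvccPl (pvccZ z d l j) (pvccD d l j) (K₀ (pvccT l j))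

theorem pvccO_cov (O₀ : Set ℂ) (z d : ℂ) (l : List PvtTurn) (j : ℕ) : pvccO O₀ z d l j = pvccPl z d (pvccO O₀ 0 1 l j) := by
  unfold pvccO
  rw [pvccPl_comp, ← pvccZ_cov, ← pvccD_cov]

theorem pvccK_cov (K₀ : PvtTurn → Set ℂ) (z d : ℂ) (l : List PvtTurn) (j : ℕ) : pvccK K₀ z d l j = pvccPl z d (pvccK K₀ 0 1 l j) := by
  unfold pvccK
  rw [pvccPl_comp, ← pvccZ_cov, ← pvccD_cov]

section ref

variable {r : ℝ} {O₀ : Set ℂ} {K₀ : PvtTurn → Set ℂ}

theorem PvccRef.O_sq (R : PvccRef r O₀ K₀) (l : List PvtTurn) (j : ℕ) : pvccO O₀ 0 1 l j ⊆ pvccSq (pvccZ 0 1 l j) r := by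
  have := pvccPl_sq (pvccZ 0 1 l j) (pvccD_pow_four (one_pow 4) l j) 0 r
  rw [mul_zero, add_zero] at this
  rw [← this]
  exact pvccPl_mono _ _ R.O_sub

theorem PvccRef.K_sq (R : PvccRef r O₀ K₀) (l : List PvtTurn) (j : ℕ) : pvccK K₀ 0 1 l j ⊆ pvccSq (pvccC 0 1 l j) (1 / 2) := by
  have := pvccPl_sq (pvccZ 0 1 l j) (pvccD_pow_four (one_pow 4) l j) (1 / 2) (1 / 2)
  have e : pvccZ 0 1 l j + pvccD 1 l j * (1 / 2) = pvccC 0 1 l j := by unfold pvccC; ring
  rw [e] at this
  rw [← this]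
  exact pvccPl_mono _ _ (R.K_cell _)

theorem PvccRef.K_off_sq (R : PvccRef r O₀ K₀) (l : List PvtTurn) (j : ℕ) {v : ℂ} (hv : v ^ 4 = 1) :
    Disjoint (pvccK K₀ 0 1 l j) (pvccSq (pvccC 0 1 l j + v / 2) r) := by
  have hu := pvccD_pow_four (one_pow 4) l j
  have hu0 : pvccD 1 l j ≠ 0 := by
    intro h0
    rw [h0] at hu
    norm_num at hu
  have hv' : (pvccD 1 l j ^ 3 * v) ^ 4 = 1 := by
    rw [mul_pow, hv, mul_one, ← pow_mul, mul_comm, pow_mul, hu, one_pow]
  have := pvccPl_sq (pvccZ 0 1 l j) hu (1 / 2 + (pvccD 1 l j ^ 3 * v) / 2) r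
  have e : pvccZ 0 1 l j + pvccD 1 l j * (1 / 2 + (pvccD 1 l j ^ 3 * v) / 2) = pvccC 0 1 l j + v / 2 := by
    unfold pvccC
    linear_combination (v / 2) * hu
  rw [e] at this
  rw [← this]
  exact pvccPl_disjoint _ hu0 (R.K_off _ _ hv')

/-- **plugs at different doors are disjoint** -/
theorem pvcc_OO (R : PvccRef r O₀ K₀) (z : ℂ) {d : ℂ} (hd : d ≠ 0) {l : List PvtTurn} {N : ℕ} (h : PvccSimple l N) (hN : N ≤ l.length)
    {j k : ℕ} (hj : j ≤ N) (hk : k ≤ N) (hjk : j ≠ k) : Disjoint (pvccO O₀ z d l j) (pvccO O₀ z d l k) := by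
  rw [pvccO_cov O₀ z d l j, pvccO_cov O₀ z d l k]
  refine pvccPl_disjoint z hd (Disjoint.mono (R.O_sq l j) (R.O_sq l k) (pvcc_sq_disjoint ?_))
  have hne := h.door_ne hN hj hk hjk
  have hg : PvccG (2 * (pvccZ 0 1 l j - pvccZ 0 1 l k)) := by
    have h1 := pvccC_sub_gauss l j k
    have h2 := (PvccG.unit (pvccD_pow_four (one_pow 4) l j)).sub (PvccG.unit (pvccD_pow_four (one_pow 4) l k))
    have h3 := (h1.add h1).sub h2
    convert h3 using 1
    unfold pvccC; ring
  have h1 := hg.one_le (mul_ne_zero two_ne_zero (sub_ne_zero.2 hne))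
  rw [pvccN_two_mul] at h1
  have := R.r_le
  linarith

/-- **tiles in different cells are disjoint** -/
theorem pvcc_KK (R : PvccRef r O₀ K₀) (z : ℂ) {d : ℂ} (hd : d ≠ 0) {l : List PvtTurn} {N : ℕ} (h : PvccSimple l N)
    {j k : ℕ} (hj : j ≤ N) (hk : k ≤ N) (hjk : j ≠ k) : Disjoint (pvccK K₀ z d l j) (pvccK K₀ z d l k) := by
  rw [pvccK_cov K₀ z d l j, pvccK_cov K₀ z d l k]
  refine pvccPl_disjoint z hd (Disjoint.mono (R.K_sq l j) (R.K_sq l k) (pvcc_sq_disjoint ?_))
  have hne : pvccC 0 1 l j ≠ pvccC 0 1 l k := fun e => hjk (h j k hj hk e)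
  have := (pvccC_sub_gauss l j k).one_le (sub_ne_zero.2 hne)
  linarith

/-- **a plug never meets a tile** (no simplicity needed) -/
theorem pvcc_OK (R : PvccRef r O₀ K₀) (z : ℂ) {d : ℂ} (hd : d ≠ 0) (l : List PvtTurn) (j k : ℕ) :
    Disjoint (pvccO O₀ z d l j) (pvccK K₀ z d l k) := by
  rw [pvccO_cov O₀ z d l j, pvccK_cov K₀ z d l k]
  refine pvccPl_disjoint z hd ?_
  have hu := pvccD_pow_four (one_pow 4) l j
  set u := pvccD 1 l j with hudef
  have hg := pvccC_sub_gauss l j k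
  set g := pvccC 0 1 l j - pvccC 0 1 l k with hgdef
  have hz : pvccZ 0 1 l j = pvccC 0 1 l k + (g - u / 2) := by
    have e : pvccC 0 1 l j = pvccZ 0 1 l j + u / 2 := rfl
    rw [hgdef, e]; ring
  by_cases h0 : g = 0
  · have hv : (-u) ^ 4 = 1 := by rw [← hu]; ring
    have := R.K_off_sq l k hv
    have e : pvccC 0 1 l k + -u / 2 = pvccZ 0 1 l j := by rw [hz, h0]; ring
    rw [e] at this
    exact (this.mono_right (R.O_sq l j)).symm
  by_cases h1 : g = u
  · have := R.K_off_sq l k hu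
    have e : pvccC 0 1 l k + u / 2 = pvccZ 0 1 l j := by rw [hz, h1]; ring
    rw [e] at this
    exact (this.mono_right (R.O_sq l j)).symm
  · refine Disjoint.mono (R.O_sq l j) (R.K_sq l k) (pvcc_sq_disjoint ?_)
    have hu3 : (u ^ 3) ^ 4 = 1 := by rw [← pow_mul, mul_comm, pow_mul, hu, one_pow]
    have hg' : PvccG (u ^ 3 * g) := PvccG.unit_mul hu3 hg
    have hu0 : u ≠ 0 := by
      intro h
      rw [h] at hu
      norm_num at hu
    have h0' : u ^ 3 * g ≠ 0 := mul_ne_zero (pow_ne_zero 3 hu0) h0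
    have h1' : u ^ 3 * g ≠ 1 := by
      intro e
      apply h1
      have : u * (u ^ 3 * g) = u := by rw [e, mul_one]
      linear_combination this - g * hu
    have h2 := hg'.one_le_sub_half h0' h1'
    have e : u ^ 3 * g - 1 / 2 = u ^ 3 * (pvccZ 0 1 l j - pvccC 0 1 l k) := by
      rw [hz]
      linear_combination ((1 : ℂ) / 2) * hu
    rw [e, pvccN_unit_mul hu3] at h2
    have := R.r_le
    linarith

theorem pvccO_measurable (hO : MeasurableSet O₀) (z : ℂ) {d : ℂ} (hd : d ≠ 0) (l : List PvtTurn) (j : ℕ) : MeasurableSet (pvccO O₀ z d l j) := by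
  refine pvccPl_measurable _ ?_ hO
  rw [pvccD_cov]
  refine mul_ne_zero hd fun h0 => ?_
  have := pvccD_pow_four (one_pow 4) l j
  rw [h0] at this
  norm_num at this

theorem pvccK_measurable (hK : ∀ τ, MeasurableSet (K₀ τ)) (z : ℂ) {d : ℂ} (hd : d ≠ 0) (l : List PvtTurn) (j : ℕ) : MeasurableSet (pvccK K₀ z d l j) := by
  refine pvccPl_measurable _ ?_ (hK _)
  rw [pvccD_cov]
  refine mul_ne_zero hd fun h0 => ?_
  have := pvccD_pow_four (one_pow 4) l j
  rw [h0] at this
  norm_num at this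

end ref

/-! ## 4. how to check cell-simplicity -/

/-- rotation of an integer direction by a letter -/
def pvccRotI (u : ℤ × ℤ) : PvtTurn → ℤ × ℤ
  | PvtTurn.S => u
  | PvtTurn.L => (-u.2, u.1)
  | PvtTurn.R => (u.2, -u.1)

/-- the integer model of `pvtAcc PvtTurn.rot` -/
def pvccAccI (u : ℤ × ℤ) : List PvtTurn → ℤ × ℤ
  | [] => (0, 0)
  | τ :: l => pvccRotI u τ + pvccAccI (pvccRotI u τ) l

theorem pvccRotI_eq (u : ℤ × ℤ) (τ : PvtTurn) : pvtZ (pvccRotI u τ) = pvtZ u * τ.rot := by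
  cases τ
  · simp [pvccRotI, PvtTurn.rot]
  · simp only [pvccRotI, PvtTurn.rot, pvtZ]
    push_cast
    linear_combination (-(u.2 : ℂ)) * Complex.I_sq
  · simp only [pvccRotI, PvtTurn.rot, pvtZ]
    push_cast
    linear_combination (u.2 : ℂ) * Complex.I_sq

theorem pvtZ_add (u v : ℤ × ℤ) : pvtZ (u + v) = pvtZ u + pvtZ v := by
  simp only [pvtZ, Prod.fst_add, Prod.snd_add]
  push_cast
  ring

theorem pvtZ_injective : Function.Injective pvtZ := by
  intro u v h
  have hre := congrArg Complex.re h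
  have him := congrArg Complex.im h
  simp [pvtZ] at hre him
  exact Prod.ext hre him

theorem pvccAccI_eq (u : ℤ × ℤ) (l : List PvtTurn) : pvtZ (pvccAccI u l) = pvtAcc PvtTurn.rot (pvtZ u) l := by
  induction l generalizing u with
  | nil => simp [pvccAccI, pvtZ]
  | cons τ l ih => rw [pvccAccI, pvtZ_add, ih, pvccRotI_eq, pvtAcc_cons]

/-- **decidable criterion** -/
theorem pvcc_simple_of_int {l : List PvtTurn} {N : ℕ}
    (h : ∀ j ≤ N, ∀ k ≤ N, pvccAccI (1, 0) (l.take j) = pvccAccI (1, 0) (l.take k) → j = k) : PvccSimple l N := by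
  intro j k hj hk e
  refine h j hj k hk (pvtZ_injective ?_)
  rw [pvccC_eq, pvccC_eq] at e
  have h1 : pvtZ (1, 0) = 1 := by simp [pvtZ]
  rw [pvccAccI_eq, pvccAccI_eq, h1]
  exact add_left_cancel e

/-- HEX of 125 (`S L L R L L S L`, eight cells round an L-shaped hexagon) is a simple loop: its eight cells are distinct -/
theorem pvcc_hex_simple : PvccSimple (pvtHex 0 0 0 0) 7 := by
  refine pvcc_simple_of_int ?_
  decide

theorem pvcc_hex_length : (pvtHex 0 0 0 0).length = 8 := by decide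

theorem pvcc_hex_eq : pvtHex 0 0 0 0 = [PvtTurn.S, PvtTurn.L, PvtTurn.L, PvtTurn.R, PvtTurn.L, PvtTurn.L, PvtTurn.S, PvtTurn.L] := by decide

/-- the centres, as the list of 218 -/
theorem pvtCentres_eq_map (z d : ℂ) (l : List PvtTurn) :
    pvtCentres z d l = (List.range (l.length + 1)).map fun j => z + pvtAcc PvtTurn.rot d (l.take j) := by
  induction l generalizing z d with
  | nil => simp [pvtCentres]
  | cons τ l ih =>
    have e : List.range ((τ :: l).length + 1) = 0 :: (List.range (l.length + 1)).map Nat.succ := by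
      rw [List.length_cons, List.range_succ_eq_map]
    rw [pvtCentres, ih, e, List.map_cons, List.map_map]
    simp only [List.take_zero, pvtAcc_nil, add_zero]
    congr 1
    refine List.map_congr_left fun j _ => ?_
    simp [add_assoc]

/-- cell-simplicity = the list of centres of 218 has no repetition -/
theorem pvcc_simple_of_nodup {z d : ℂ} {l : List PvtTurn} (h : (pvtCentres z d l).Nodup) : PvccSimple l l.length := by
  intro j k hj hk e
  rw [pvtCentres_eq_map] at h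
  have hinj := List.inj_on_of_nodup_map h (x := j) (List.mem_range.2 (by omega)) (y := k) (List.mem_range.2 (by omega))
  apply hinj
  rw [pvccC_eq, pvccC_eq] at e
  have e' := add_left_cancel e
  show z + pvtAcc PvtTurn.rot d (l.take j) = z + pvtAcc PvtTurn.rot d (l.take k)
  rw [pvtAcc_eq_mul_one PvtTurn.rot d, pvtAcc_eq_mul_one PvtTurn.rot d (l.take k), e']

/-- the word of a path of distinct cells is cell-simple -/
theorem pvcc_word_of_path (c0 c1 : ℤ × ℤ) (t : List (ℤ × ℤ)) (hc : List.IsChain PvtAdj4 (c0 :: c1 :: t)) (hn : (c0 :: c1 :: t).Nodup) :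
    ∃ l : List PvtTurn, l.length = t.length ∧ PvccSimple l l.length ∧
      pvtCentres (pvtZ c1) (pvtZ c1 - pvtZ c0) l = (c1 :: t).map pvtZ ∧
      pvtFrames (pvtZ c1 - pvtZ c0) l = pvtDiffs ((c0 :: c1 :: t).map pvtZ) := by
  obtain ⟨l, h1, h2, h3⟩ := pvt_word_of_path c0 c1 t hc (pvt_nb_of_nodup _ hn)
  refine ⟨l, h1, pvcc_simple_of_nodup (z := pvtZ c1) (d := pvtZ c1 - pvtZ c0) ?_, h2, h3⟩
  rw [h2]
  exact (List.nodup_cons.1 hn).2.map pvtZ_injective

/-- straight words are cell-simple -/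
theorem pvcc_simple_straight (n : ℕ) : PvccSimple (List.replicate n PvtTurn.S) n := by
  intro j k hj hk e
  rw [pvccC_eq, pvccC_eq, List.take_replicate, List.take_replicate, pvtAcc_replicate_S, pvtAcc_replicate_S, min_eq_left hj, min_eq_left hk] at e
  have e' := add_left_cancel e
  simp [PvtTurn.rot] at e'
  exact e'

/-! ## 5. the record of 251 (`Tr/CellHex`): `kit.Disj` for cell-simple words -/

theorem pvccN_real_mul {δ : ℝ} (hδ : 0 ≤ δ) (w : ℂ) : pvccN ((δ : ℂ) * w) = δ * pvccN w := by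
  unfold pvccN
  have h1 : ((δ : ℂ) * w).re = δ * w.re := by simp
  have h2 : ((δ : ℂ) * w).im = δ * w.im := by simp
  rw [h1, h2, abs_mul, abs_mul, abs_of_nonneg hδ, ← mul_max_of_nonneg _ _ hδ]

/-- a dilation maps squares to squares -/
theorem pvcc_preimage_sq {δ : ℝ} (hδ : 0 < δ) (c : ℂ) (r : ℝ) : (fun w : ℂ => (δ : ℂ) * w) ⁻¹' pvccSq ((δ : ℂ) * c) (δ * r) = pvccSq c r := by
  ext w
  simp only [mem_preimage, pvccSq, Set.mem_ofPred_eq]
  rw [← mul_sub, pvccN_real_mul hδ.le]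
  exact mul_lt_mul_iff_right₀ hδ

/-- **containment hypotheses on the reference regions of a kit** (actual coordinates: cells of side `δ`): the plug region lies in the `r`-square round the door `0`, `r ≤ δ/4`;
the tiles lie in the reference cell (centre `δ/2`), off the `r`-squares round the midpoints of its four sides -/
structure PvccKitRef (kit : PvthKit) (r : ℝ) : Prop where
  δ0 : 0 < kit.δ
  r_le : r ≤ kit.δ / 4
  O_sub : kit.O₀ ⊆ pvccSq 0 r
  K_cell : ∀ τ, kit.K₀ τ ⊆ pvccSq ((kit.δ : ℂ) * (1 / 2)) (kit.δ * (1 / 2))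
  K_off : ∀ τ, ∀ v : ℂ, v ^ 4 = 1 → Disjoint (kit.K₀ τ) (pvccSq ((kit.δ : ℂ) * (1 / 2 + v / 2)) r)

/-- the reference regions in unit coordinates -/
theorem PvccKitRef.ref {kit : PvthKit} {r : ℝ} (R : PvccKitRef kit r) :
    PvccRef (r / kit.δ) ((fun w : ℂ => (kit.δ : ℂ) * w) ⁻¹' kit.O₀) (fun τ => (fun w : ℂ => (kit.δ : ℂ) * w) ⁻¹' kit.K₀ τ) where
  r_le := by
    rw [div_le_iff₀ R.δ0]
    have := R.r_le
    linarith
  O_sub := by
    have h := pvcc_preimage_sq R.δ0 0 (r / kit.δ)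
    rw [mul_zero, mul_div_cancel₀ _ R.δ0.ne'] at h
    rw [← h]
    exact Set.preimage_mono R.O_sub
  K_cell := fun τ => by
    rw [← pvcc_preimage_sq R.δ0 (1 / 2) (1 / 2)]
    exact Set.preimage_mono (R.K_cell τ)
  K_off := fun τ v hv => by
    have h := pvcc_preimage_sq R.δ0 (1 / 2 + v / 2) (r / kit.δ)
    rw [mul_div_cancel₀ _ R.δ0.ne'] at h
    rw [← h]
    exact (R.K_off τ v hv).preimage _

theorem pvcc_pl_preimage {δ : ℝ} (hδ : δ ≠ 0) (z d : ℂ) (U : Set ℂ) : pvccPl z (d * δ) ((fun w : ℂ => (δ : ℂ) * w) ⁻¹' U) = pvthSim z d '' U := by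
  ext x
  simp only [pvccPl, mem_image, mem_preimage, pvthSim]
  constructor
  · rintro ⟨w, hw, rfl⟩
    exact ⟨_, hw, by ring⟩
  · rintro ⟨w, hw, rfl⟩
    have hδ' : (δ : ℂ) ≠ 0 := by exact_mod_cast hδ
    refine ⟨w / δ, ?_, ?_⟩
    · rw [mul_div_cancel₀ _ hδ']; exact hw
    · field_simp

theorem pvthZ_eq (δ : ℝ) (z d : ℂ) (l : List PvtTurn) (j : ℕ) : pvthZ δ z d l j = pvccZ z (δ * d) l j := by
  unfold pvthZ pvccZ pvtDisp
  rw [pvtAcc_mul]

theorem pvthD_eq (δ : ℝ) (d : ℂ) (l : List PvtTurn) (j : ℕ) : pvthD d l j * δ = pvccD (δ * d) l j := by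
  unfold pvthD pvccD
  rw [pvtDir_mul, mul_comm]

theorem pvthL_eq (l : List PvtTurn) (j : ℕ) : pvthL l j = pvccT l j := rfl

/-- the placed plug of the kit, in the vocabulary of this file -/
theorem pvcc_kit_O (kit : PvthKit) (hδ : kit.δ ≠ 0) (z d : ℂ) (l : List PvtTurn) (j : ℕ) :
    kit.O (pvthZ kit.δ z d l j) (pvthD d l j) = pvccO ((fun w : ℂ => (kit.δ : ℂ) * w) ⁻¹' kit.O₀) z (kit.δ * d) l j ×ˢ univ := by
  unfold PvthKit.O pvccO
  rw [← pvcc_pl_preimage hδ, pvthZ_eq, pvthD_eq]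

/-- the placed tile of the kit, in the vocabulary of this file -/
theorem pvcc_kit_K (kit : PvthKit) (hδ : kit.δ ≠ 0) (z d : ℂ) (l : List PvtTurn) (j : ℕ) :
    kit.K (pvthZ kit.δ z d l j) (pvthD d l j) (pvthL l j) = pvccK (fun τ => (fun w : ℂ => (kit.δ : ℂ) * w) ⁻¹' kit.K₀ τ) z (kit.δ * d) l j ×ˢ univ := by
  unfold PvthKit.K pvccK
  rw [← pvcc_pl_preimage hδ, pvthZ_eq, pvthD_eq, pvthL_eq]

theorem pvcc_prod_disjoint {U V : Set ℂ} (h : Disjoint U V) : Disjoint (U ×ˢ (univ : Set Bool)) (V ×ˢ (univ : Set Bool)) :=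
  Set.Disjoint.set_prod_left h _ _

/-- **`kit.Disj`**: the placed regions of a word whose cells `0, …, n - 1` are distinct (closed words: simple loops) are pairwise disjoint -/
theorem pvcc_kit_disj {kit : PvthKit} {r : ℝ} (R : PvccKitRef kit r) (z : ℂ) {d : ℂ} (hd : d ≠ 0) {l : List PvtTurn} (h : PvccSimple l (l.length - 1)) :
    kit.Disj z d l := by
  have hδ : kit.δ ≠ 0 := R.δ0.ne'
  have hd' : (kit.δ : ℂ) * d ≠ 0 := mul_ne_zero (by exact_mod_cast hδ) hd
  refine ⟨fun i hi j hj hij => ?_, fun i hi j hj hij => ?_, fun i _ j _ => ?_⟩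
  · rw [pvcc_kit_O kit hδ, pvcc_kit_O kit hδ]
    exact pvcc_prod_disjoint (pvcc_OO R.ref z hd' h (by omega) (by omega) (by omega) hij)
  · rw [pvcc_kit_K kit hδ, pvcc_kit_K kit hδ]
    exact pvcc_prod_disjoint (pvcc_KK R.ref z hd' h (by omega) (by omega) hij)
  · rw [pvcc_kit_O kit hδ, pvcc_kit_K kit hδ]
    exact pvcc_prod_disjoint (pvcc_OK R.ref z hd' l i j)

/-- **HEX** -/
theorem pvcc_kit_disj_hex {kit : PvthKit} {r : ℝ} (R : PvccKitRef kit r) (z : ℂ) {d : ℂ} (hd : d ≠ 0) : kit.Disj z d (pvtHex 0 0 0 0) :=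
  pvcc_kit_disj R z hd pvcc_hex_simple

/-- OPEN words: all the `n + 1` plugs (the last door included) and the `n` tiles are pairwise disjoint as soon as the `n + 1` cells `0, …, n` are distinct -/
theorem pvcc_kit_disj_open {kit : PvthKit} {r : ℝ} (R : PvccKitRef kit r) (z : ℂ) {d : ℂ} (hd : d ≠ 0) {l : List PvtTurn} (h : PvccSimple l l.length) :
    (∀ i ≤ l.length, ∀ j ≤ l.length, i ≠ j → Disjoint (kit.O (pvthZ kit.δ z d l i) (pvthD d l i)) (kit.O (pvthZ kit.δ z d l j) (pvthD d l j))) ∧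
    (∀ i ≤ l.length, ∀ j ≤ l.length, i ≠ j →
      Disjoint (kit.K (pvthZ kit.δ z d l i) (pvthD d l i) (pvthL l i)) (kit.K (pvthZ kit.δ z d l j) (pvthD d l j) (pvthL l j))) ∧
    (∀ i j, Disjoint (kit.O (pvthZ kit.δ z d l i) (pvthD d l i)) (kit.K (pvthZ kit.δ z d l j) (pvthD d l j) (pvthL l j))) := by
  have hδ : kit.δ ≠ 0 := R.δ0.ne'
  have hd' : (kit.δ : ℂ) * d ≠ 0 := mul_ne_zero (by exact_mod_cast hδ) hd
  refine ⟨fun i hi j hj hij => ?_, fun i hi j hj hij => ?_, fun i j => ?_⟩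
  · rw [pvcc_kit_O kit hδ, pvcc_kit_O kit hδ]
    exact pvcc_prod_disjoint (pvcc_OO R.ref z hd' h le_rfl hi hj hij)
  · rw [pvcc_kit_K kit hδ, pvcc_kit_K kit hδ]
    exact pvcc_prod_disjoint (pvcc_KK R.ref z hd' h hi hj hij)
  · rw [pvcc_kit_O kit hδ, pvcc_kit_K kit hδ]
    exact pvcc_prod_disjoint (pvcc_OK R.ref z hd' l i j)

/-- the two hypotheses of `pvth_V` (one cell) -/
theorem pvcc_kit_cell {kit : PvthKit} {r : ℝ} (R : PvccKitRef kit r) (τ : PvtTurn) :
    Disjoint (kit.O 0 1) (kit.O (kit.zo 0 1 τ) τ.rot) ∧ Disjoint (kit.OO 0 1 τ) (kit.K 0 1 τ) := by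
  have hs : PvccSimple [τ] 1 := by
    refine pvcc_simple_of_int ?_
    cases τ <;> decide
  obtain ⟨h1, _, h3⟩ := pvcc_kit_disj_open R 0 one_ne_zero (l := [τ]) hs
  have e0z : pvthZ kit.δ 0 1 [τ] 0 = 0 := by simp [pvthZ, pvtDisp]
  have e0d : pvthD 1 [τ] 0 = 1 := by simp [pvthD]
  have e1z : pvthZ kit.δ 0 1 [τ] 1 = kit.zo 0 1 τ := by simp [pvthZ, pvtDisp, PvthKit.zo]
  have e1d : pvthD 1 [τ] 1 = τ.rot := by simp [pvthD]
  have eL : pvthL [τ] 0 = τ := rfl
  have a := h1 0 (by simp) 1 (by simp) (by norm_num)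
  have b := h3 0 0
  have c := h3 1 0
  rw [e0z, e0d, e1z, e1d] at a
  rw [e0z, e0d, eL] at b
  rw [e0z, e0d, e1z, e1d, eL] at c
  refine ⟨a, ?_⟩
  unfold PvthKit.OO
  rw [one_mul]
  exact Set.disjoint_union_left.2 ⟨b, c⟩

/-- measurability of the placed regions of a kit -/
theorem pvcc_kit_mO {kit : PvthKit} (hk : kit.WF) (z : ℂ) {d : ℂ} (hd : d ≠ 0) : MeasurableSet (kit.O z d) :=
  (pvccPl_measurable z hd hk.mO).prod MeasurableSet.univ

theorem pvcc_kit_mK {kit : PvthKit} (hk : kit.WF) (z : ℂ) {d : ℂ} (hd : d ≠ 0) (τ : PvtTurn) : MeasurableSet (kit.K z d τ) :=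
  (pvccPl_measurable z hd (hk.mK τ)).prod MeasurableSet.univ

theorem pvcc_kit_mOO {kit : PvthKit} (hk : kit.WF) (z : ℂ) {d : ℂ} (hd : d ≠ 0) (τ : PvtTurn) : MeasurableSet (kit.OO z d τ) :=
  (pvcc_kit_mO hk z hd).union (pvcc_kit_mO hk _ (mul_ne_zero hd (pvt_rot_ne_zero τ)))

theorem pvthD_ne_zero {d : ℂ} (hd : d ≠ 0) (l : List PvtTurn) (j : ℕ) : pvthD d l j ≠ 0 := by
  intro h
  have := pvt_norm_dir d (l.take j)
  unfold pvthD at h
  rw [h, norm_zero] at this
  exact hd (norm_eq_zero.1 this.symm)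

/-- the exit door of the cell `j` is the door `j + 1` -/
theorem pvthZ_succ (kit : PvthKit) (z d : ℂ) (l : List PvtTurn) {j : ℕ} (hj : j < l.length) :
    pvthZ kit.δ z d l (j + 1) = kit.zo (pvthZ kit.δ z d l j) (pvthD d l j) (pvthL l j) := by
  rw [pvthZ_eq, pvccZ_succ _ _ _ hj, ← pvthZ_eq, ← pvthD_eq, PvthKit.zo, pvthL_eq]; ring

theorem pvthD_succ (d : ℂ) (l : List PvtTurn) {j : ℕ} (hj : j < l.length) : pvthD d l (j + 1) = pvthD d l j * (pvthL l j).rot :=
  pvccD_succ d l hj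

/-- a closed word comes back to its first door -/
theorem pvthZ_closed (δ : ℝ) (z : ℂ) {d : ℂ} {l : List PvtTurn} (hl : PvtClosed d l) : pvthZ δ z d l l.length = z ∧ pvthD d l l.length = d := by
  unfold pvthZ pvthD
  rw [List.take_length, hl.1, hl.2]
  simp

theorem pvcc_eqns_cite : True := by
  have := @pvccN.eq_1
  have := @pvccSq.eq_1
  have := @pvccPl.eq_1
  have := @PvccG.eq_1
  have := @pvccZ.eq_1
  have := @pvccD.eq_1
  have := @pvccC.eq_1
  have := @pvccT.eq_1
  have := @PvccSimple.eq_1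
  have := @pvccO.eq_1
  have := @pvccK.eq_1
  have := @pvccRotI.eq_1
  have := @pvccAccI.eq_1
  trivial

end Claimed.Agent.R289
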