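import Claimed.Agent.R291.Pl.Place
import Claimed.Agent.R291.Ann.Place
import Claimed.Agent.R289.Pl.Defs

/-!
# Row 289 (S0537, Cardy for Poisson-Voronoi), unit TR (T3), Tr/Poly : POLYOMINO KIT      (owner helper39, with 20, 211; prefix `pvt_`, defs `pvt*`)

Order of 234 (08:03Z): corridors, hulls, complementary components, `H^1 = 0` Timar style on `ℤ × ℤ`, REUSING the kit of row 291 (`Tool/TriSC`, `Tool/TriSCLat`, `Tool/HexPeel`, `Pl/Place`, `Ann/Place`: all 0 sorry, model free).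

WORKING ADJACENCY = the TRIANGULAR one (`triAdj`, graph `tscG`: the four sides and ONE diagonal `(1,-1)`), which is SELF-MATCHING: "connected" has one meaning for a set of cells and for its complement.
`4-adjacent ⟹ triAdj ⟹ 8-adjacent` (`pvt_g4_tri`, `pvt_tri_g8`).   Geometry gives 4-connected sets (`pvt_cells_conn4`: the CLOSED squares met by a connected set), and consumes 8-connected sets (`pvt_U_conn`).

* §1 `pvtG4`, `pvtG8`
* §2 `pvtOut S` (cells joined to infinity off `S`), `pvtHull S` (fill), layers `pvtLayO`, `pvtLayI`;   hull: finite, connected, `TriSCOn`;   outside connected;   layers connected (Timar);   holes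
* §3 `pvtSq δ z`, `pvtU δ E`, `pvtCells δ S`:   squares of the plane ↔ cells
-/

set_option autoImplicit false
set_option linter.unusedSectionVars false
set_option linter.unusedVariables false
set_option linter.unusedSimpArgs false

namespace Claimed.Agent.R289

open Relation Claims.C0467 Claimed.Agent.R291

/-! ## §1 the three adjacencies -/

/-- two cells which share a side -/
def pvtG4 : SimpleGraph (ℤ × ℤ) where
  Adj u v := (v.1 = u.1 ∧ (v.2 = u.2 + 1 ∨ v.2 = u.2 - 1)) ∨ (v.2 = u.2 ∧ (v.1 = u.1 + 1 ∨ v.1 = u.1 - 1))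
  symm := ⟨fun u v h => by omega⟩
  loopless := ⟨fun u h => by omega⟩

/-- two distinct cells which share a point -/
def pvtG8 : SimpleGraph (ℤ × ℤ) where
  Adj u v := u ≠ v ∧ v.1 ≤ u.1 + 1 ∧ u.1 ≤ v.1 + 1 ∧ v.2 ≤ u.2 + 1 ∧ u.2 ≤ v.2 + 1
  symm := ⟨fun u v h => ⟨h.1.symm, by omega, by omega, by omega, by omega⟩⟩
  loopless := ⟨fun u h => h.1 rfl⟩

theorem pvt_g4_tri {u v : ℤ × ℤ} (h : pvtG4.Adj u v) : triAdj u v := by
  rw [tsc_adj_iff]
  have h' : (v.1 = u.1 ∧ (v.2 = u.2 + 1 ∨ v.2 = u.2 - 1)) ∨ (v.2 = u.2 ∧ (v.1 = u.1 + 1 ∨ v.1 = u.1 - 1)) := h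
  omega

theorem pvt_tri_g8 {u v : ℤ × ℤ} (h : triAdj u v) : pvtG8.Adj u v := by
  have h' := (tsc_adj_iff u v).1 h
  refine ⟨fun e => ?_, by omega, by omega, by omega, by omega⟩
  subst e
  omega

theorem pvt_R4_tri {s : Set (ℤ × ℤ)} {u v : ℤ × ℤ} (h : TscR pvtG4 s u v) : TscR tscG s u v :=
  ReflTransGen.mono (fun a b hab => ⟨pvt_g4_tri hab.1, hab.2⟩) u v h

theorem pvt_Rtri_8 {s : Set (ℤ × ℤ)} {u v : ℤ × ℤ} (h : TscR tscG s u v) : TscR pvtG8 s u v :=
  ReflTransGen.mono (fun a b hab => ⟨pvt_tri_g8 hab.1, hab.2⟩) u v h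

theorem pvt_conn4_tri {s : Set (ℤ × ℤ)} (h : TscConn pvtG4 s) : TscConn tscG s := fun u hu v hv => pvt_R4_tri (h u hu v hv)

theorem pvt_conn_tri8 {s : Set (ℤ × ℤ)} (h : TscConn tscG s) : TscConn pvtG8 s := fun u hu v hv => pvt_Rtri_8 (h u hu v hv)

/-! ## §2 outside, hull, layers -/

/-- the cells which are joined to infinity off `S` -/
def pvtOut (S : Set (ℤ × ℤ)) : Set (ℤ × ℤ) := {z | ∀ B : Set (ℤ × ℤ), B.Finite → ∃ t, t ∉ B ∧ TscR tscG Sᶜ z t}

/-- the hull (fill) of `S`: `S` and its holes -/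
def pvtHull (S : Set (ℤ × ℤ)) : Set (ℤ × ℤ) := (pvtOut S)ᶜ

/-- the outer layer: the cells of the outside which touch `S` -/
def pvtLayO (S : Set (ℤ × ℤ)) : Set (ℤ × ℤ) := {w | w ∈ pvtOut S ∧ ∃ z ∈ S, triAdj w z}

/-- the inner layer: the cells of `S` which touch the outside -/
def pvtLayI (S : Set (ℤ × ℤ)) : Set (ℤ × ℤ) := {z | z ∈ S ∧ ∃ w ∈ pvtOut S, triAdj z w}

theorem pvt_eqns_cite : True := by
  have := @pvtG4.eq_1
  have := @pvtG8.eq_1
  have := @pvtOut.eq_1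
  have := @pvtHull.eq_1
  have := @pvtLayO.eq_1
  have := @pvtLayI.eq_1
  trivial

section hull

variable {S S' : Set (ℤ × ℤ)} {a b c d : ℤ} {z w : ℤ × ℤ}

theorem pvt_out_sub : pvtOut S ⊆ Sᶜ := by
  intro z hz
  obtain ⟨t, ht, h⟩ := hz {z} (Set.finite_singleton z)
  rcases ReflTransGen.cases_head h with h0 | ⟨c, hc, -⟩
  · exact absurd h0.symm ht
  · exact hc.2.1

/-- the outside is closed under paths off `S` -/
theorem pvt_out_R (hz : z ∈ pvtOut S) (h : TscR tscG Sᶜ z w) : w ∈ pvtOut S := by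
  intro B hB
  obtain ⟨t, ht, h'⟩ := hz B hB
  exact ⟨t, ht, tsc_R_trans (tsc_R_symm h) h'⟩

/-- a path off `S` which starts in the outside is a path of the outside -/
theorem pvt_out_R_in (hz : z ∈ pvtOut S) (h : TscR tscG Sᶜ z w) : TscR tscG (pvtOut S) z w := by
  induction h with
  | refl => exact tsc_R_refl _
  | @tail b c hb hbc ih =>
    have hb' : b ∈ pvtOut S := pvt_out_R hz hb
    exact ih.tail ⟨hbc.1, hb', pvt_out_R hb' (ReflTransGen.single hbc)⟩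

/-- everything off a box which contains `S` belongs to the outside -/
theorem pvt_out_of_box (hS : S ⊆ tscBox a b c d) (hz : z ∉ tscBox a b c d) : z ∈ pvtOut S := by
  intro B hB
  obtain ⟨t, ht⟩ := (hB.union (tsc_box_finite a b c d)).infinite_compl.nonempty
  have ht' : t ∉ B ∧ t ∉ tscBox a b c d := by
    simpa [not_or] using ht
  exact ⟨t, ht'.1, tsc_R_mono (Set.compl_subset_compl.2 hS) (tsc_box_compl_conn a b c d z hz t ht'.2)⟩

theorem pvt_out_iff (hS : S ⊆ tscBox a b c d) : z ∈ pvtOut S ↔ ∃ t, t ∉ tscBox a b c d ∧ TscR tscG Sᶜ z t := by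
  constructor
  · intro hz
    exact hz _ (tsc_box_finite a b c d)
  · rintro ⟨t, ht, h⟩
    exact pvt_out_R (pvt_out_of_box hS ht) (tsc_R_symm h)

theorem pvt_finite_sub_box (hS : S.Finite) : ∃ a b c d : ℤ, S ⊆ tscBox a b c d := by
  obtain ⟨x0, y0, a, b, h⟩ := hx_finite_sub_box hS
  refine ⟨x0, x0 + a, y0, y0 + b, fun p hp => ?_⟩
  have := h hp
  simp only [hxBox, Set.mem_ofPred_eq] at this
  simp only [tscBox, Set.mem_ofPred_eq]
  omega

theorem pvt_out_nonempty (hS : S.Finite) : (pvtOut S).Nonempty := by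
  obtain ⟨a, b, c, d, h⟩ := pvt_finite_sub_box hS
  obtain ⟨t, ht⟩ := (tsc_box_finite a b c d).infinite_compl.nonempty
  exact ⟨t, pvt_out_of_box h ht⟩

/-- the outside is ONE component of the complement -/
theorem pvt_out_comp (hS : S.Finite) (hz : z ∈ pvtOut S) : tscComp tscG Sᶜ z = pvtOut S := by
  obtain ⟨a, b, c, d, h⟩ := pvt_finite_sub_box hS
  ext v
  constructor
  · intro hv
    exact pvt_out_R hz hv.2
  · intro hv
    obtain ⟨t, ht, h1⟩ := (pvt_out_iff h).1 hz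
    obtain ⟨t', ht', h2⟩ := (pvt_out_iff h).1 hv
    exact ⟨pvt_out_sub hv, tsc_R_trans h1 (tsc_R_trans (tsc_R_mono (Set.compl_subset_compl.2 h) (tsc_box_compl_conn a b c d t ht t' ht')) (tsc_R_symm h2))⟩

/-- **the outside of a finite set is connected** -/
theorem pvt_out_conn (hS : S.Finite) : TscConn tscG (pvtOut S) := by
  intro u hu v hv
  have := tsc_comp_conn (G := tscG) (s := Sᶜ) u
  rw [pvt_out_comp hS hu] at this
  exact this u hu v hv

theorem pvt_hull_sub : S ⊆ pvtHull S := fun z hz h => pvt_out_sub h hz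

theorem pvt_hull_box (hS : S ⊆ tscBox a b c d) : pvtHull S ⊆ tscBox a b c d := by
  intro z hz
  by_contra h
  exact hz (pvt_out_of_box hS h)

theorem pvt_hull_finite (hS : S.Finite) : (pvtHull S).Finite := by
  obtain ⟨a, b, c, d, h⟩ := pvt_finite_sub_box hS
  exact (tsc_box_finite a b c d).subset (pvt_hull_box h)

theorem pvt_out_anti (h : S ⊆ S') : pvtOut S' ⊆ pvtOut S := by
  intro z hz B hB
  obtain ⟨t, ht, h'⟩ := hz B hB
  exact ⟨t, ht, tsc_R_mono (Set.compl_subset_compl.2 h) h'⟩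

theorem pvt_hull_mono (h : S ⊆ S') : pvtHull S ⊆ pvtHull S' := Set.compl_subset_compl.2 (pvt_out_anti h)

/-- a cell of the hull next to the outside belongs to `S` -/
theorem pvt_hull_bd (hz : z ∈ pvtHull S) (hw : w ∈ pvtOut S) (h : triAdj z w) : z ∈ S := by
  by_contra hzS
  exact hz (pvt_out_R hw (tsc_R_step (G := tscG) (hx_tri_symm _ _ h) (pvt_out_sub hw) hzS))

theorem pvt_out_hull : pvtOut (pvtHull S) = pvtOut S := by
  apply Set.Subset.antisymm (pvt_out_anti pvt_hull_sub)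
  intro z hz B hB
  obtain ⟨t, ht, h'⟩ := hz B hB
  refine ⟨t, ht, ?_⟩
  have := pvt_out_R_in hz h'
  rwa [pvtHull, compl_compl]

theorem pvt_hull_idem : pvtHull (pvtHull S) = pvtHull S := by
  rw [pvtHull, pvt_out_hull]
  rfl

/-- the hull has no hole -/
theorem pvt_hull_free : HxFree (pvtHull S) := by
  intro s hs B hB
  have hs' : s ∈ pvtOut S := by
    by_contra h
    exact hs h
  obtain ⟨t, ht, h'⟩ := hs' B hB
  refine ⟨t, ht, ReflTransGen.mono (fun a b hab => ⟨hab.1, fun hb => hb hab.2.2⟩) s t (pvt_out_R_in hs' h')⟩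

/-- **the hull is simply connected** -/
theorem pvt_hull_sc (hS : S.Finite) : TriSCOn (ZMod 2) tscG (pvtHull S) := hxp_sc_free (pvt_hull_finite hS) pvt_hull_free

theorem pvt_univ_R (u v : ℤ × ℤ) : TscR tscG Set.univ u v :=
  tsc_R_trans (tsc_R_hseg (x := u.1) (x' := v.1) (y := u.2) (fun _ _ _ => Set.mem_univ _)) (tsc_R_vseg (x := v.1) (y := u.2) (y' := v.2) (fun _ _ _ => Set.mem_univ _))

theorem pvt_comp_step {T : Set (ℤ × ℤ)} {u v : ℤ × ℤ} (h : TscR tscG T u v) : tscComp tscG T v ⊆ tscComp tscG T u :=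
  fun x hx => ⟨hx.1, tsc_R_trans h hx.2⟩

/-- from every cell one reaches `S` through its own complementary component -/
theorem pvt_reach (hne : S.Nonempty) (u : ℤ × ℤ) : ∃ k ∈ S, TscR tscG (S ∪ tscComp tscG Sᶜ u) u k := by
  obtain ⟨k0, hk0⟩ := hne
  have h := pvt_univ_R u k0
  induction h using ReflTransGen.head_induction_on with
  | refl => exact ⟨k0, hk0, tsc_R_refl _⟩
  | @head a a' haa' _ ih =>
    by_cases ha : a ∈ S
    · exact ⟨a, ha, tsc_R_refl _⟩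
    by_cases ha' : a' ∈ S
    · exact ⟨a', ha', tsc_R_step haa'.1 (Or.inr (tsc_comp_self ha)) (Or.inl ha')⟩
    obtain ⟨k, hk, hR⟩ := ih
    have hstep : TscR tscG Sᶜ a a' := tsc_R_step haa'.1 ha ha'
    refine ⟨k, hk, tsc_R_trans (tsc_R_step haa'.1 (Or.inr (tsc_comp_self ha)) (Or.inr ⟨ha', hstep⟩)) (tsc_R_mono (Set.union_subset_union_right _ (pvt_comp_step hstep)) hR)⟩

/-- a hole: a component of the complement inside the hull -/
theorem pvt_hole_sub (hz : z ∈ pvtHull S) : tscComp tscG Sᶜ z ⊆ pvtHull S \ S := by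
  intro v hv
  exact ⟨fun h => hz (pvt_out_R h (tsc_R_symm hv.2)), hv.1⟩

theorem pvt_hull_empty : pvtHull (∅ : Set (ℤ × ℤ)) = ∅ := by
  have h : pvtHull (∅ : Set (ℤ × ℤ)) ⊆ tscBox 1 0 1 0 := pvt_hull_box (Set.empty_subset _)
  apply Set.eq_empty_of_forall_notMem
  intro x hx
  have := h hx
  simp only [tscBox, Set.mem_ofPred_eq] at this
  omega

theorem pvt_nonempty_of_hull (hz : z ∈ pvtHull S) : S.Nonempty := by
  by_contra h
  rw [Set.not_nonempty_iff_eq_empty] at h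
  subst h
  rw [pvt_hull_empty] at hz
  exact hz

/-- every cell of the hull is joined to `S` inside the hull -/
theorem pvt_hull_to (hz : z ∈ pvtHull S) : ∃ k ∈ S, TscR tscG (pvtHull S) z k := by
  obtain ⟨k, hk, h⟩ := pvt_reach (pvt_nonempty_of_hull hz) z
  exact ⟨k, hk, tsc_R_mono (Set.union_subset pvt_hull_sub (fun x hx => (pvt_hole_sub hz hx).1)) h⟩

/-- **the hull of a connected set is connected** -/
theorem pvt_hull_conn (hc : TscConn tscG S) : TscConn tscG (pvtHull S) := by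
  intro u hu v hv
  obtain ⟨k, hk, h⟩ := pvt_hull_to hu
  obtain ⟨k', hk', h'⟩ := pvt_hull_to hv
  exact tsc_R_trans h (tsc_R_trans (tsc_R_mono pvt_hull_sub (hc k hk k' hk')) (tsc_R_symm h'))

/-- **the outer layer of a connected set is connected** (Timar) -/
theorem pvt_layO_conn (hS : S.Finite) (hc : TscConn tscG S) : TscConn tscG (pvtLayO S) := by
  obtain ⟨x, hx⟩ := pvt_out_nonempty hS
  have h := tsc_plane_timar hc x
  rw [pvt_out_comp hS hx] at h
  have e : pvtLayO S = {d | d ∈ pvtOut S ∧ ∃ c ∈ S, triAdj c d} := by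
    ext w
    constructor
    · rintro ⟨h1, z, hz, h2⟩
      exact ⟨h1, z, hz, hx_tri_symm _ _ h2⟩
    · rintro ⟨h1, z, hz, h2⟩
      exact ⟨h1, z, hz, hx_tri_symm _ _ h2⟩
  rw [e]
  exact h

/-- **the inner layer of a connected set is connected** (Timar) -/
theorem pvt_layI_conn (hS : S.Finite) (hc : TscConn tscG S) : TscConn tscG (pvtLayI S) := by
  obtain ⟨x, hx⟩ := pvt_out_nonempty hS
  have h := tsc_plane_timar_in hc x
  rw [pvt_out_comp hS hx] at h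
  have e : pvtLayI S = {c | c ∈ S ∧ ∃ d ∈ pvtOut S, triAdj d c} := by
    ext w
    constructor
    · rintro ⟨h1, z, hz, h2⟩
      exact ⟨h1, z, hz, hx_tri_symm _ _ h2⟩
    · rintro ⟨h1, z, hz, h2⟩
      exact ⟨h1, z, hz, hx_tri_symm _ _ h2⟩
  rw [e]
  exact h

/-- every path from the outside to the hull visits the outer layer -/
theorem pvt_layO_meets {Q : Set (ℤ × ℤ)} (hw : w ∈ pvtOut S) (hz : z ∈ pvtHull S) (h : TscR tscG Q w z) : ∃ x ∈ Q, x ∈ pvtLayO S := by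
  induction h with
  | refl => exact absurd hw hz
  | @tail b c hb hbc ih =>
    by_cases hb' : b ∈ pvtOut S
    · exact ⟨b, hbc.2.1, hb', c, pvt_hull_bd hz hb' (hx_tri_symm _ _ hbc.1), hbc.1⟩
    · exact ih hb'

/-- the layers of the hull are the layers of `S` -/
theorem pvt_layO_hull : pvtLayO (pvtHull S) = pvtLayO S := by
  ext w
  simp only [pvtLayO, Set.mem_ofPred_eq, pvt_out_hull]
  constructor
  · rintro ⟨h1, z, hz, h2⟩
    exact ⟨h1, z, pvt_hull_bd hz h1 (hx_tri_symm _ _ h2), h2⟩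
  · rintro ⟨h1, z, hz, h2⟩
    exact ⟨h1, z, pvt_hull_sub hz, h2⟩

/-- a finite set with connected complement has no hole -/
theorem pvt_free_of_compl_conn (hS : S.Finite) (hc : TscConn tscG Sᶜ) : HxFree S := by
  intro s hs B hB
  obtain ⟨t, ht⟩ := (hB.union hS).infinite_compl.nonempty
  have ht' : t ∉ B ∧ t ∉ S := by
    simpa [not_or] using ht
  exact ⟨t, ht'.1, ReflTransGen.mono (fun a b hab => ⟨hab.1, hab.2.2⟩) s t (hc s hs t ht'.2)⟩

/-- **the complement of a complementary component of a connected set is connected** -/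
theorem pvt_comp_compl_conn (hc : TscConn tscG S) (hne : S.Nonempty) (z : ℤ × ℤ) : TscConn tscG (tscComp tscG Sᶜ z)ᶜ := by
  have key : ∀ u, u ∉ tscComp tscG Sᶜ z → S ∪ tscComp tscG Sᶜ u ⊆ (tscComp tscG Sᶜ z)ᶜ := by
    intro u hu x hx hxz
    rcases hx with hx | hx
    · exact hxz.1 hx
    · exact hu ⟨tsc_R_mem (tsc_R_symm hx.2) hx.1, tsc_R_trans hxz.2 (tsc_R_symm hx.2)⟩
  intro u hu v hv
  obtain ⟨k, hk, h⟩ := pvt_reach hne u
  obtain ⟨k', hk', h'⟩ := pvt_reach hne v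
  exact tsc_R_trans (tsc_R_mono (key u hu) h) (tsc_R_trans (tsc_R_mono (fun x hx hxz => hxz.1 hx) (hc k hk k' hk')) (tsc_R_symm (tsc_R_mono (key v hv) h')))

/-- **every bounded complementary component of a connected set is simply connected** -/
theorem pvt_hole_sc (hS : S.Finite) (hc : TscConn tscG S) (hz : z ∈ pvtHull S) : TriSCOn (ZMod 2) tscG (tscComp tscG Sᶜ z) := by
  have hfin : (tscComp tscG Sᶜ z).Finite := (pvt_hull_finite hS).subset (fun x hx => (pvt_hole_sub hz hx).1)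
  exact hxp_sc_free hfin (pvt_free_of_compl_conn hfin (pvt_comp_compl_conn hc (pvt_nonempty_of_hull hz) z))

/-- a set without hole is its own hull -/
theorem pvt_hull_eq_of_free (h : HxFree S) : pvtHull S = S := by
  apply Set.Subset.antisymm _ pvt_hull_sub
  intro z hz
  by_contra hzS
  apply hz
  intro B hB
  obtain ⟨t, ht, h'⟩ := h z hzS B hB
  refine ⟨t, ht, ?_⟩
  clear ht
  induction h' with
  | refl => exact tsc_R_refl _
  | @tail b c hb hbc ih => exact ih.tail ⟨hbc.1, tsc_R_mem ih hzS, hbc.2⟩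

/-- a connected subset of the union of two disjoint non adjacent sets lies in one of them -/
theorem pvt_conn_split {L : Set (ℤ × ℤ)} (hL : TscConn tscG L) (hLS : L ⊆ S ∪ S') (hd : Disjoint S S') (hna : ∀ x ∈ S, ∀ y ∈ S', ¬ triAdj x y) : L ⊆ S ∨ L ⊆ S' := by
  by_contra hcon
  rw [not_or, Set.not_subset, Set.not_subset] at hcon
  obtain ⟨⟨x, hx, hxS⟩, y, hy, hyS⟩ := hcon
  have hx' : x ∈ S' := (hLS hx).resolve_left hxS
  have hy' : y ∈ S := (hLS hy).resolve_right hyS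
  have := tsc_R_const (G := tscG) (s := L) (fun a => a ∈ S) (fun a b hab => by
    apply propext
    constructor
    · intro ha
      exact (hLS hab.2.2).resolve_right (fun hb => hna a ha b hb hab.1)
    · intro hb
      exact (hLS hab.2.1).resolve_right (fun ha => hna b hb a ha (hx_tri_symm _ _ hab.1))) (hL x hx y hy)
  exact hxS (this.symm ▸ hy')

/-- two finite sets which are disjoint and not adjacent: the hull of the union is the union of the hulls (a ring cannot be shared) -/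
theorem pvt_hull_union (hS : S.Finite) (hS' : S'.Finite) (hd : Disjoint S S') (hna : ∀ x ∈ S, ∀ y ∈ S', ¬ triAdj x y) : pvtHull (S ∪ S') = pvtHull S ∪ pvtHull S' := by
  apply Set.Subset.antisymm _ (Set.union_subset (pvt_hull_mono Set.subset_union_left) (pvt_hull_mono Set.subset_union_right))
  intro z hz
  by_contra hcon
  rw [Set.mem_union, not_or] at hcon
  have h1 : z ∈ pvtOut S := by
    by_contra h
    exact hcon.1 h
  have h2 : z ∈ pvtOut S' := by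
    by_contra h
    exact hcon.2 h
  have hzU : z ∉ S ∪ S' := fun h => h.elim (fun h => pvt_out_sub h1 h) (fun h => pvt_out_sub h2 h)
  set H := tscComp tscG (S ∪ S')ᶜ z with hH
  have hzH : z ∈ H := tsc_comp_self hzU
  have hfin : H.Finite := (pvt_hull_finite (hS.union hS')).subset (fun x hx => (pvt_hole_sub hz hx).1)
  have hHc : TscConn tscG H := tsc_comp_conn z
  have hL := pvt_layO_conn hfin hHc
  have hLS : pvtLayO H ⊆ S ∪ S' := by
    rintro x ⟨hx, y, hy, hxy⟩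
    by_contra hxU
    exact pvt_out_sub hx (tsc_comp_adj hy hxU (hx_tri_symm _ _ hxy))
  obtain ⟨a, b, c, d, hbox⟩ := pvt_finite_sub_box hfin
  have fin : ∀ T : Set (ℤ × ℤ), z ∈ pvtOut T → ¬ pvtLayO H ⊆ T := by
    intro T hT hsub
    obtain ⟨t, ht, hR⟩ := hT _ (tsc_box_finite a b c d)
    obtain ⟨x, hx, hx'⟩ := pvt_layO_meets (pvt_out_of_box hbox ht) (pvt_hull_sub hzH) (tsc_R_symm hR)
    exact hx (hsub hx')
  rcases pvt_conn_split hL hLS hd hna with h | h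
  · exact fin S h1 h
  · exact fin S' h2 h

end hull

/-! ## §3 squares of the plane -/

/-- the closed square of side `δ` number `z` -/
def pvtSq (δ : ℝ) (z : ℤ × ℤ) : Set ℂ := {p | (z.1 : ℝ) * δ ≤ p.re ∧ p.re ≤ ((z.1 : ℝ) + 1) * δ ∧ (z.2 : ℝ) * δ ≤ p.im ∧ p.im ≤ ((z.2 : ℝ) + 1) * δ}

/-- the union of the squares of `E` -/
def pvtU (δ : ℝ) (E : Set (ℤ × ℤ)) : Set ℂ := ⋃ z ∈ E, pvtSq δ z

/-- the squares which meet `K` -/
def pvtCells (δ : ℝ) (K : Set ℂ) : Set (ℤ × ℤ) := {z | (pvtSq δ z ∩ K).Nonempty}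

/-- the centre of the square -/
noncomputable def pvtCtr (δ : ℝ) (z : ℤ × ℤ) : ℂ := ⟨((z.1 : ℝ) + 1 / 2) * δ, ((z.2 : ℝ) + 1 / 2) * δ⟩

/-- the collar: `E` and all cells which share a point with a cell of `E` -/
def pvtN8 (E : Set (ℤ × ℤ)) : Set (ℤ × ℤ) := {w | ∃ z ∈ E, w = z ∨ pvtG8.Adj z w}

/-- the filled `δ`-neighbourhood of `K` -/
def pvtFill (δ : ℝ) (K : Set ℂ) : Set (ℤ × ℤ) := pvtHull (pvtCells δ K)

theorem pvt_eqns_cite3 : True := by
  have := @pvtSq.eq_1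
  have := @pvtU.eq_1
  have := @pvtCells.eq_1
  have := @pvtCtr.eq_1
  have := @pvtN8.eq_1
  have := @pvtFill.eq_1
  trivial

section squares

variable {δ : ℝ} {z w : ℤ × ℤ} {p q : ℂ} {E E' : Set (ℤ × ℤ)} {K : Set ℂ}

theorem pvt_sq_closed : IsClosed (pvtSq δ z) := by
  have h : pvtSq δ z = (({p : ℂ | (z.1 : ℝ) * δ ≤ p.re} ∩ {p | p.re ≤ ((z.1 : ℝ) + 1) * δ}) ∩ {p | (z.2 : ℝ) * δ ≤ p.im}) ∩ {p | p.im ≤ ((z.2 : ℝ) + 1) * δ} := by
    ext p
    simp only [pvtSq, Set.mem_ofPred_eq, Set.mem_inter_iff, and_assoc]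
  rw [h]
  exact (((isClosed_le continuous_const Complex.continuous_re).inter (isClosed_le Complex.continuous_re continuous_const)).inter
    (isClosed_le continuous_const Complex.continuous_im)).inter (isClosed_le Complex.continuous_im continuous_const)

theorem pvt_sq_compact : IsCompact (pvtSq δ z) := by
  refine Metric.isCompact_of_isClosed_isBounded pvt_sq_closed ?_
  refine (Metric.isBounded_iff_subset_closedBall 0).2
    ⟨(|(z.1 : ℝ) * δ| + |((z.1 : ℝ) + 1) * δ|) + (|(z.2 : ℝ) * δ| + |((z.2 : ℝ) + 1) * δ|), fun p hp => ?_⟩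
  rw [mem_closedBall_zero_iff]
  have h0 := Complex.norm_le_abs_re_add_abs_im p
  obtain ⟨h1, h2, h3, h4⟩ := hp
  have hr : |p.re| ≤ |(z.1 : ℝ) * δ| + |((z.1 : ℝ) + 1) * δ| := by
    refine abs_le.2 ⟨?_, ?_⟩
    · have := neg_abs_le ((z.1 : ℝ) * δ)
      have := abs_nonneg (((z.1 : ℝ) + 1) * δ)
      linarith
    · have := le_abs_self (((z.1 : ℝ) + 1) * δ)
      have := abs_nonneg ((z.1 : ℝ) * δ)
      linarith
  have hi : |p.im| ≤ |(z.2 : ℝ) * δ| + |((z.2 : ℝ) + 1) * δ| := by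
    refine abs_le.2 ⟨?_, ?_⟩
    · have := neg_abs_le ((z.2 : ℝ) * δ)
      have := abs_nonneg (((z.2 : ℝ) + 1) * δ)
      linarith
    · have := le_abs_self (((z.2 : ℝ) + 1) * δ)
      have := abs_nonneg ((z.2 : ℝ) * δ)
      linarith
  linarith

theorem pvt_sq_convex : Convex ℝ (pvtSq δ z) := by
  intro p hp q hq a b ha hb hab
  obtain ⟨h1, h2, h3, h4⟩ := hp
  obtain ⟨k1, k2, k3, k4⟩ := hq
  have hre : (a • p + b • q).re = a * p.re + b * q.re := by simp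
  have him : (a • p + b • q).im = a * p.im + b * q.im := by simp
  have key : ∀ c x y : ℝ, c ≤ x → c ≤ y → c ≤ a * x + b * y := by
    intro c x y hx hy
    have e : c = a * c + b * c := by rw [← add_mul, hab, one_mul]
    rw [e]
    exact add_le_add (mul_le_mul_of_nonneg_left hx ha) (mul_le_mul_of_nonneg_left hy hb)
  have key' : ∀ c x y : ℝ, x ≤ c → y ≤ c → a * x + b * y ≤ c := by
    intro c x y hx hy
    have e : c = a * c + b * c := by rw [← add_mul, hab, one_mul]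
    rw [e]
    exact add_le_add (mul_le_mul_of_nonneg_left hx ha) (mul_le_mul_of_nonneg_left hy hb)
  refine ⟨?_, ?_, ?_, ?_⟩
  · rw [hre]; exact key _ _ _ h1 k1
  · rw [hre]; exact key' _ _ _ h2 k2
  · rw [him]; exact key _ _ _ h3 k3
  · rw [him]; exact key' _ _ _ h4 k4

theorem pvt_sq_ctr (hδ : 0 ≤ δ) : pvtCtr δ z ∈ pvtSq δ z := by
  refine ⟨?_, ?_, ?_, ?_⟩ <;> simp only [pvtCtr] <;> nlinarith

theorem pvt_sq_cover (hδ : 0 < δ) (p : ℂ) : ∃ z, p ∈ pvtSq δ z := by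
  refine ⟨(⌊p.re / δ⌋, ⌊p.im / δ⌋), ?_, ?_, ?_, ?_⟩
  · exact (le_div_iff₀ hδ).1 (Int.floor_le _)
  · exact (div_le_iff₀ hδ).1 (Int.lt_floor_add_one _).le
  · exact (le_div_iff₀ hδ).1 (Int.floor_le _)
  · exact (div_le_iff₀ hδ).1 (Int.lt_floor_add_one _).le

theorem pvt_sq_diam (hp : p ∈ pvtSq δ z) (hq : q ∈ pvtSq δ z) : ‖p - q‖ ≤ 2 * δ := by
  have h0 := Complex.norm_le_abs_re_add_abs_im (p - q)
  obtain ⟨h1, h2, h3, h4⟩ := hp
  obtain ⟨k1, k2, k3, k4⟩ := hq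
  have hr : |(p - q).re| ≤ δ := by
    rw [Complex.sub_re]
    exact abs_le.2 ⟨by linarith, by linarith⟩
  have hi : |(p - q).im| ≤ δ := by
    rw [Complex.sub_im]
    exact abs_le.2 ⟨by linarith, by linarith⟩
  linarith

/-- one coordinate: two closed intervals of the grid with a common point are equal or neighbours -/
theorem pvt_aux_le (hδ : 0 < δ) {a b : ℤ} {x : ℝ} (h1 : (a : ℝ) * δ ≤ x) (h2 : x ≤ ((b : ℝ) + 1) * δ) : a ≤ b + 1 := by
  have h := le_of_mul_le_mul_right (h1.trans h2) hδ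
  exact_mod_cast h

/-- two squares meet iff they are equal or 8-adjacent -/
theorem pvt_sq_meet (hδ : 0 < δ) : (pvtSq δ z ∩ pvtSq δ w).Nonempty ↔ z = w ∨ pvtG8.Adj z w := by
  constructor
  · rintro ⟨p, ⟨h1, h2, h3, h4⟩, ⟨k1, k2, k3, k4⟩⟩
    by_cases e : z = w
    · exact Or.inl e
    · exact Or.inr ⟨e, pvt_aux_le hδ k1 h2, pvt_aux_le hδ h1 k2, pvt_aux_le hδ k3 h4, pvt_aux_le hδ h3 k4⟩
  · intro h
    have h' : w.1 ≤ z.1 + 1 ∧ z.1 ≤ w.1 + 1 ∧ w.2 ≤ z.2 + 1 ∧ z.2 ≤ w.2 + 1 := by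
      rcases h with rfl | h
      · exact ⟨by omega, by omega, by omega, by omega⟩
      · exact h.2
    obtain ⟨a1, a2, a3, a4⟩ := h'
    have c1 : ((max z.1 w.1 : ℤ) : ℝ) ≤ (z.1 : ℝ) + 1 := by exact_mod_cast max_le (by omega) a1
    have c2 : ((max z.1 w.1 : ℤ) : ℝ) ≤ (w.1 : ℝ) + 1 := by exact_mod_cast max_le a2 (by omega)
    have c3 : ((max z.2 w.2 : ℤ) : ℝ) ≤ (z.2 : ℝ) + 1 := by exact_mod_cast max_le (by omega) a3
    have c4 : ((max z.2 w.2 : ℤ) : ℝ) ≤ (w.2 : ℝ) + 1 := by exact_mod_cast max_le a4 (by omega)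
    have d1 : (z.1 : ℝ) ≤ ((max z.1 w.1 : ℤ) : ℝ) := by exact_mod_cast le_max_left _ _
    have d2 : (w.1 : ℝ) ≤ ((max z.1 w.1 : ℤ) : ℝ) := by exact_mod_cast le_max_right _ _
    have d3 : (z.2 : ℝ) ≤ ((max z.2 w.2 : ℤ) : ℝ) := by exact_mod_cast le_max_left _ _
    have d4 : (w.2 : ℝ) ≤ ((max z.2 w.2 : ℤ) : ℝ) := by exact_mod_cast le_max_right _ _
    refine ⟨⟨((max z.1 w.1 : ℤ) : ℝ) * δ, ((max z.2 w.2 : ℤ) : ℝ) * δ⟩, ⟨?_, ?_, ?_, ?_⟩, ⟨?_, ?_, ?_, ?_⟩⟩ <;>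
      exact mul_le_mul_of_nonneg_right (by assumption) hδ.le

/-- two squares which do not meet are at distance `≥ δ` -/
theorem pvt_sq_far (hδ : 0 < δ) (h : z ≠ w) (h8 : ¬ pvtG8.Adj z w) (hp : p ∈ pvtSq δ z) (hq : q ∈ pvtSq δ w) : δ ≤ ‖p - q‖ := by
  obtain ⟨h1, h2, h3, h4⟩ := hp
  obtain ⟨k1, k2, k3, k4⟩ := hq
  have h8' : ¬ (w.1 ≤ z.1 + 1 ∧ z.1 ≤ w.1 + 1 ∧ w.2 ≤ z.2 + 1 ∧ z.2 ≤ w.2 + 1) := fun hh => h8 ⟨h, hh⟩
  have hre := Complex.abs_re_le_norm (p - q)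
  have him := Complex.abs_im_le_norm (p - q)
  rw [Complex.sub_re] at hre
  rw [Complex.sub_im] at him
  have cases4 : z.1 + 2 ≤ w.1 ∨ w.1 + 2 ≤ z.1 ∨ z.2 + 2 ≤ w.2 ∨ w.2 + 2 ≤ z.2 := by omega
  rcases cases4 with c | c | c | c
  · have c' : (z.1 : ℝ) + 2 ≤ (w.1 : ℝ) := by exact_mod_cast c
    have := mul_le_mul_of_nonneg_right c' hδ.le
    have := neg_abs_le (p.re - q.re)
    nlinarith
  · have c' : (w.1 : ℝ) + 2 ≤ (z.1 : ℝ) := by exact_mod_cast c
    have := mul_le_mul_of_nonneg_right c' hδ.le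
    have := le_abs_self (p.re - q.re)
    nlinarith
  · have c' : (z.2 : ℝ) + 2 ≤ (w.2 : ℝ) := by exact_mod_cast c
    have := mul_le_mul_of_nonneg_right c' hδ.le
    have := neg_abs_le (p.im - q.im)
    nlinarith
  · have c' : (w.2 : ℝ) + 2 ≤ (z.2 : ℝ) := by exact_mod_cast c
    have := mul_le_mul_of_nonneg_right c' hδ.le
    have := le_abs_self (p.im - q.im)
    nlinarith

/-- a common point of two squares belongs to the two other squares of the `2 × 2` block -/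
theorem pvt_sq_corner (hδ : 0 < δ) (hp : p ∈ pvtSq δ z) (hq : p ∈ pvtSq δ w) : p ∈ pvtSq δ (z.1, w.2) ∧ p ∈ pvtSq δ (w.1, z.2) := by
  obtain ⟨h1, h2, h3, h4⟩ := hp
  obtain ⟨k1, k2, k3, k4⟩ := hq
  exact ⟨⟨h1, h2, k3, k4⟩, ⟨k1, k2, h3, h4⟩⟩

/-- one coordinate of `pvt_sq_ball` -/
theorem pvt_aux_1d (hδ : 0 < δ) (a : ℤ) (x y : ℝ) (h1 : (a : ℝ) * δ ≤ x) (h2 : x ≤ ((a : ℝ) + 1) * δ) (h : |y - x| ≤ δ) :
    ∃ b : ℤ, a - 1 ≤ b ∧ b ≤ a + 1 ∧ (b : ℝ) * δ ≤ y ∧ y ≤ ((b : ℝ) + 1) * δ := by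
  obtain ⟨l, u⟩ := abs_le.1 h
  by_cases c1 : y < (a : ℝ) * δ
  · refine ⟨a - 1, le_refl _, by omega, ?_, ?_⟩
    · push_cast; nlinarith
    · push_cast; nlinarith
  · by_cases c2 : ((a : ℝ) + 1) * δ < y
    · refine ⟨a + 1, by omega, le_refl _, ?_, ?_⟩
      · push_cast; nlinarith
      · push_cast; nlinarith
    · exact ⟨a, by omega, by omega, not_lt.1 c1, not_lt.1 c2⟩

/-- the `δ`-ball round a point of a square is covered by the `3 × 3` block -/
theorem pvt_sq_ball (hδ : 0 < δ) (hp : p ∈ pvtSq δ z) (hq : ‖q - p‖ ≤ δ) : ∃ w, (w = z ∨ pvtG8.Adj z w) ∧ q ∈ pvtSq δ w := by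
  obtain ⟨h1, h2, h3, h4⟩ := hp
  have hre := (Complex.abs_re_le_norm (q - p)).trans hq
  have him := (Complex.abs_im_le_norm (q - p)).trans hq
  rw [Complex.sub_re] at hre
  rw [Complex.sub_im] at him
  obtain ⟨b1, l1, u1, m1, n1⟩ := pvt_aux_1d hδ z.1 p.re q.re h1 h2 hre
  obtain ⟨b2, l2, u2, m2, n2⟩ := pvt_aux_1d hδ z.2 p.im q.im h3 h4 him
  refine ⟨(b1, b2), ?_, ⟨m1, n1, m2, n2⟩⟩
  by_cases e : (b1, b2) = z
  · exact Or.inl e
  · exact Or.inr ⟨fun e' => e e'.symm, by show b1 ≤ z.1 + 1; omega, by show z.1 ≤ b1 + 1; omega, by show b2 ≤ z.2 + 1; omega, by show z.2 ≤ b2 + 1; omega⟩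

theorem pvt_U_mono (h : E ⊆ E') : pvtU δ E ⊆ pvtU δ E' := by
  exact Set.biUnion_subset_biUnion_left h

theorem pvt_U_union : pvtU δ (E ∪ E') = pvtU δ E ∪ pvtU δ E' := by
  exact Set.biUnion_union _ _ _

theorem pvt_U_compact (hE : E.Finite) : IsCompact (pvtU δ E) := by
  exact hE.isCompact_biUnion (fun z _ => pvt_sq_compact)

theorem pvt_U_compl (hδ : 0 < δ) : (pvtU δ E)ᶜ ⊆ pvtU δ Eᶜ := by
  intro p hp
  obtain ⟨z, hz⟩ := pvt_sq_cover hδ p
  exact Set.mem_biUnion (fun hzE : z ∈ E => hp (Set.mem_biUnion hzE hz)) hz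

/-- two points of one square of `E` -/
theorem pvt_aux_joined (hz : z ∈ E) (hp : p ∈ pvtSq δ z) (hq : q ∈ pvtSq δ z) : JoinedIn (pvtU δ E) p q :=
  ((pvt_sq_convex.isPathConnected ⟨p, hp⟩).joinedIn p hp q hq).mono (Set.subset_biUnion_of_mem hz)

/-- **an 8-connected set of cells has a path connected union** -/
theorem pvt_U_joined (hδ : 0 < δ) (hE : TscConn pvtG8 E) (hp : p ∈ pvtU δ E) (hq : q ∈ pvtU δ E) : JoinedIn (pvtU δ E) p q := by
  obtain ⟨u, hu, hpu⟩ := Set.mem_iUnion₂.1 hp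
  obtain ⟨v, hv, hqv⟩ := Set.mem_iUnion₂.1 hq
  have key : ∀ v, TscR pvtG8 E u v → ∀ q ∈ pvtSq δ v, JoinedIn (pvtU δ E) p q := by
    intro v h
    induction h with
    | refl => exact fun q hq => pvt_aux_joined hu hpu hq
    | @tail b c _ hbc ih =>
      intro q hq
      obtain ⟨r, hrb, hrc⟩ := (pvt_sq_meet hδ).2 (Or.inr hbc.1)
      exact (ih r hrb).trans (pvt_aux_joined hbc.2.2 hrc hq)
  exact key v (hE u hu v hv) q hqv

theorem pvt_U_conn (hδ : 0 < δ) (hE : TscConn pvtG8 E) : IsPreconnected (pvtU δ E) := by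
  rcases (pvtU δ E).eq_empty_or_nonempty with h | h
  · rw [h]; exact isPreconnected_empty
  · exact (isPathConnected_iff.2 ⟨h, fun x hx y hy => pvt_U_joined hδ hE hx hy⟩).isConnected.isPreconnected

theorem pvt_cells_mono {K' : Set ℂ} (h : K ⊆ K') : pvtCells δ K ⊆ pvtCells δ K' := by
  exact fun z hz => hz.mono (Set.inter_subset_inter_right _ h)

theorem pvt_cells_finite (hδ : 0 < δ) (hK : Bornology.IsBounded K) : (pvtCells δ K).Finite := by
  obtain ⟨R, hR⟩ := (Metric.isBounded_iff_subset_closedBall 0).1 hK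
  refine Set.Finite.subset ((Set.finite_Icc (⌊-R / δ⌋ - 1) ⌈R / δ⌉).prod (Set.finite_Icc (⌊-R / δ⌋ - 1) ⌈R / δ⌉)) ?_
  rintro z ⟨p, ⟨h1, h2, h3, h4⟩, hpK⟩
  have hn : ‖p‖ ≤ R := mem_closedBall_zero_iff.1 (hR hpK)
  obtain ⟨r1, r2⟩ := abs_le.1 ((Complex.abs_re_le_norm p).trans hn)
  obtain ⟨i1, i2⟩ := abs_le.1 ((Complex.abs_im_le_norm p).trans hn)
  have up : ∀ a : ℤ, (a : ℝ) * δ ≤ R → a ≤ ⌈R / δ⌉ := by
    intro a ha
    have : (a : ℝ) ≤ R / δ := (le_div_iff₀ hδ).2 ha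
    exact_mod_cast this.trans (Int.le_ceil _)
  have lo : ∀ a : ℤ, -R ≤ ((a : ℝ) + 1) * δ → ⌊-R / δ⌋ - 1 ≤ a := by
    intro a ha
    have h5 : -R / δ ≤ (a : ℝ) + 1 := (div_le_iff₀ hδ).2 ha
    have h6 : ((⌊-R / δ⌋ : ℤ) : ℝ) ≤ ((a + 1 : ℤ) : ℝ) := by
      push_cast
      exact (Int.floor_le _).trans h5
    have h7 : ⌊-R / δ⌋ ≤ a + 1 := by exact_mod_cast h6
    omega
  exact ⟨⟨lo _ (r1.trans h2), up _ (h1.trans r2)⟩, ⟨lo _ (i1.trans h4), up _ (h3.trans i2)⟩⟩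

theorem pvt_cells_cover (hδ : 0 < δ) : K ⊆ pvtU δ (pvtCells δ K) := by
  intro p hp
  obtain ⟨z, hz⟩ := pvt_sq_cover hδ p
  exact Set.mem_biUnion (show z ∈ pvtCells δ K from ⟨p, hz, hp⟩) hz

theorem pvt_cells_near (hp : p ∈ pvtU δ (pvtCells δ K)) : ∃ q ∈ K, ‖p - q‖ ≤ 2 * δ := by
  obtain ⟨z, ⟨q, hqz, hqK⟩, hpz⟩ := Set.mem_iUnion₂.1 hp
  exact ⟨q, hqK, pvt_sq_diam hpz hqz⟩

/-- the cells met by a set which avoids `pvtU δ E` are off `E` -/
theorem pvt_cells_off (h : Disjoint K (pvtU δ E)) : pvtCells δ K ⊆ Eᶜ := by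
  rintro z ⟨p, hpz, hpK⟩ hzE
  exact Set.disjoint_left.1 h hpK (Set.mem_biUnion hzE hpz)

/-- **the closed squares met by a connected set are 4-connected** -/
theorem pvt_cells_conn4 (hδ : 0 < δ) (hK : IsPreconnected K) (hb : Bornology.IsBounded K) : TscConn pvtG4 (pvtCells δ K) := by
  classical
  intro u hu v hv
  have hfin : (pvtCells δ K).Finite := pvt_cells_finite hδ hb
  have : Finite (pvtCells δ K) := hfin.to_subtype
  have key := pl_cover_const (ι := pvtCells δ K) hK (fun i => pvtSq δ i.1) (fun i => pvt_sq_closed)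
    (by
      intro x hx
      obtain ⟨c, hc⟩ := pvt_sq_cover hδ x
      exact Set.mem_iUnion.2 ⟨⟨c, ⟨x, hc, hx⟩⟩, hc⟩)
    (fun i => tscComp pvtG4 (pvtCells δ K) i.1)
    (by
      rintro ⟨a, ha⟩ ⟨b, hb'⟩ ⟨x, ⟨hxa, hxb⟩, hxK⟩
      replace hxa : x ∈ pvtSq δ a := hxa
      replace hxb : x ∈ pvtSq δ b := hxb
      have hR : TscR pvtG4 (pvtCells δ K) a b := by
        rcases (pvt_sq_meet hδ).1 ⟨x, hxa, hxb⟩ with rfl | h8
        · exact ReflTransGen.refl
        · obtain ⟨hne, h1, h2, h3, h4⟩ := h8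
          have hcor := (pvt_sq_corner hδ hxa hxb).1
          have hm : (a.1, b.2) ∈ pvtCells δ K := ⟨x, hcor, hxK⟩
          have s1 : TscR pvtG4 (pvtCells δ K) a (a.1, b.2) := by
            by_cases e : b.2 = a.2
            · have : (a.1, b.2) = a := by rw [e]
              rw [this]; exact ReflTransGen.refl
            · refine tsc_R_step ?_ ha hm
              show ((a.1, b.2) : ℤ × ℤ).1 = a.1 ∧ _ ∨ _
              left
              refine ⟨rfl, ?_⟩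
              show b.2 = a.2 + 1 ∨ b.2 = a.2 - 1
              omega
          have s2 : TscR pvtG4 (pvtCells δ K) (a.1, b.2) b := by
            by_cases e : b.1 = a.1
            · have : (a.1, b.2) = b := by rw [← e]
              rw [this]; exact ReflTransGen.refl
            · refine tsc_R_step ?_ hm hb'
              right
              refine ⟨rfl, ?_⟩
              show b.1 = a.1 + 1 ∨ b.1 = a.1 - 1
              omega
          exact tsc_R_trans s1 s2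
      ext c
      constructor
      · rintro ⟨hc, h⟩
        exact ⟨hc, tsc_R_trans (tsc_R_symm hR) h⟩
      · rintro ⟨hc, h⟩
        exact ⟨hc, tsc_R_trans hR h⟩)
    ⟨u, hu⟩ ⟨v, hv⟩ hu hv
  have hv' : v ∈ tscComp pvtG4 (pvtCells δ K) v := tsc_comp_self hv
  have key' : tscComp pvtG4 (pvtCells δ K) u = tscComp pvtG4 (pvtCells δ K) v := key
  rw [← key'] at hv'
  exact hv'.2

theorem pvt_cells_conn (hδ : 0 < δ) (hK : IsPreconnected K) (hb : Bornology.IsBounded K) : TscConn tscG (pvtCells δ K) :=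
  pvt_conn4_tri (pvt_cells_conn4 hδ hK hb)

/-- **separation in the plane**: a connected set from the hull of `E` to the outside of `E` meets the squares of `E` -/
theorem pvt_sep (hδ : 0 < δ) (hK : IsPreconnected K) (hb : Bornology.IsBounded K) (hz : z ∈ pvtHull E) (hw : w ∈ pvtOut E)
    (h1 : (pvtSq δ z ∩ K).Nonempty) (h2 : (pvtSq δ w ∩ K).Nonempty) : (K ∩ pvtU δ E).Nonempty := by
  by_contra hne
  have hd : Disjoint K (pvtU δ E) := Set.disjoint_iff_inter_eq_empty.2 (Set.not_nonempty_iff_eq_empty.1 hne)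
  have hsub := pvt_cells_off (δ := δ) hd
  have hR : TscR tscG (pvtCells δ K) w z := pvt_cells_conn hδ hK hb w h2 z h1
  exact hz (pvt_out_R hw (tsc_R_mono hsub hR))

theorem pvt_N8_sub : E ⊆ pvtN8 E := by
  exact fun z hz => ⟨z, hz, Or.inl rfl⟩

theorem pvt_N8_mono (h : E ⊆ E') : pvtN8 E ⊆ pvtN8 E' := by
  rintro w ⟨z, hz, hw⟩
  exact ⟨z, h hz, hw⟩

theorem pvt_N8_finite (hE : E.Finite) : (pvtN8 E).Finite := by
  have h : pvtN8 E ⊆ ⋃ z ∈ E, (Set.Icc (z.1 - 1) (z.1 + 1) ×ˢ Set.Icc (z.2 - 1) (z.2 + 1) : Set (ℤ × ℤ)) := by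
    rintro w ⟨z, hz, hw⟩
    refine Set.mem_biUnion hz ?_
    rcases hw with rfl | hw
    · exact ⟨⟨by omega, by omega⟩, ⟨by omega, by omega⟩⟩
    · obtain ⟨_, a1, a2, a3, a4⟩ := hw
      exact ⟨⟨by omega, by omega⟩, ⟨by omega, by omega⟩⟩
  exact (hE.biUnion fun z _ => (Set.finite_Icc _ _).prod (Set.finite_Icc _ _)).subset h

theorem pvt_N8_conn (hE : TscConn tscG E) : TscConn tscG (pvtN8 E) := by
  have hsub : E ⊆ pvtN8 E := fun z hz => ⟨z, hz, Or.inl rfl⟩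
  have hto : ∀ w ∈ pvtN8 E, ∃ z ∈ E, TscR tscG (pvtN8 E) w z := by
    rintro w ⟨z, hz, rfl | h8⟩
    · exact ⟨w, hz, ReflTransGen.refl⟩
    · refine ⟨z, hz, ?_⟩
      have hw : w ∈ pvtN8 E := ⟨z, hz, Or.inr h8⟩
      obtain ⟨hne, h1, h2, h3, h4⟩ := h8
      have hne' : ¬ (z.1 = w.1 ∧ z.2 = w.2) := fun h => hne (Prod.ext h.1 h.2)
      by_cases ht : triAdj w z
      · exact tsc_R_step ht hw (hsub hz)
      · rw [tsc_adj_iff] at ht
        have hm : (w.1, z.2) ∈ pvtN8 E := by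
          refine ⟨z, hz, Or.inr ⟨fun h => ?_, ?_, ?_, ?_, ?_⟩⟩
          · have := congrArg Prod.fst h
            simp only at this
            omega
          all_goals (simp only; omega)
        refine tsc_R_trans (tsc_R_step ?_ hw hm) (tsc_R_step ?_ hm (hsub hz))
        · show triAdj w (w.1, z.2)
          rw [tsc_adj_iff]
          show (w.1 = w.1 + 1 ∧ z.2 = w.2) ∨ (w.1 = w.1 ∧ z.2 = w.2 + 1) ∨ (w.1 = w.1 - 1 ∧ z.2 = w.2 + 1) ∨
            (w.1 = w.1 - 1 ∧ z.2 = w.2) ∨ (w.1 = w.1 ∧ z.2 = w.2 - 1) ∨ (w.1 = w.1 + 1 ∧ z.2 = w.2 - 1)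
          omega
        · show triAdj (w.1, z.2) z
          rw [tsc_adj_iff]
          show (z.1 = w.1 + 1 ∧ z.2 = z.2) ∨ (z.1 = w.1 ∧ z.2 = z.2 + 1) ∨ (z.1 = w.1 - 1 ∧ z.2 = z.2 + 1) ∨
            (z.1 = w.1 - 1 ∧ z.2 = z.2) ∨ (z.1 = w.1 ∧ z.2 = z.2 - 1) ∨ (z.1 = w.1 + 1 ∧ z.2 = z.2 - 1)
          omega
  intro u hu v hv
  obtain ⟨a, ha, hua⟩ := hto u hu
  obtain ⟨b, hb, hvb⟩ := hto v hv
  exact tsc_R_trans hua (tsc_R_trans (tsc_R_mono hsub (hE a ha b hb)) (tsc_R_symm hvb))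

/-- the collar contains the `δ`-neighbourhood -/
theorem pvt_N8_U (hδ : 0 < δ) (hp : p ∈ pvtU δ E) (hq : ‖q - p‖ ≤ δ) : q ∈ pvtU δ (pvtN8 E) := by
  obtain ⟨z, hz, hpz⟩ := Set.mem_iUnion₂.1 hp
  obtain ⟨w, hw, hqw⟩ := pvt_sq_ball hδ hpz hq
  exact Set.mem_iUnion₂.2 ⟨w, ⟨z, hz, hw⟩, hqw⟩

/-- off the collar one is at distance `≥ δ` -/
theorem pvt_N8_far (hδ : 0 < δ) (hp : p ∈ pvtU δ E) (hq : q ∈ pvtU δ (pvtN8 E)ᶜ) : δ ≤ ‖p - q‖ := by
  obtain ⟨z, hz, hpz⟩ := Set.mem_iUnion₂.1 hp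
  obtain ⟨w, hw, hqw⟩ := Set.mem_iUnion₂.1 hq
  refine pvt_sq_far hδ (fun h => hw ⟨z, hz, Or.inl h.symm⟩) (fun h => hw ⟨z, hz, Or.inr h⟩) hpz hqw

/-- **the filled neighbourhood of a bounded connected set**: finite, connected, simply connected, contains the set, and its outside is connected -/
theorem pvt_fill_spec (hδ : 0 < δ) (hK : IsPreconnected K) (hb : Bornology.IsBounded K) :
    (pvtFill δ K).Finite ∧ TscConn tscG (pvtFill δ K) ∧ TriSCOn (ZMod 2) tscG (pvtFill δ K) ∧ HxFree (pvtFill δ K) ∧ K ⊆ pvtU δ (pvtFill δ K)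
      ∧ TscConn tscG (pvtFill δ K)ᶜ := by
  have hf := pvt_cells_finite (K := K) hδ hb
  refine ⟨pvt_hull_finite hf, pvt_hull_conn (pvt_cells_conn hδ hK hb), pvt_hull_sc hf, pvt_hull_free,
    (pvt_cells_cover hδ).trans (pvt_U_mono pvt_hull_sub), ?_⟩
  have : (pvtFill δ K)ᶜ = pvtOut (pvtCells δ K) := compl_compl _
  rw [this]
  exact pvt_out_conn hf

end squares

end Claimed.Agent.R289
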