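import Claimed.Agent.R289.S6b.Det
import Claimed.Agent.R289.Defs.Up

/-!
# Row 289 (S0537, Cardy for Poisson-Voronoi), unit TR, item TR20 = COVER      (typist + prover helper236, author of the item helper240; prefix `pvtv_`, defs `pvtv*`, `Pvtv*`)

TR20 of `origin/helper295:notes/R289/TR_295.md`:   `nu( some reaching rim, some pins s,t as in (A1), no pattern of the delta-family fits ) <= zeta(delta,h)`, `zeta -> 0` as `delta -> 0` (limsup in `eps` first).     [TR19 + I.ARM6 + TR17]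

VOCABULARY = the geometry-free one of `R289/S6b/Det.lean` (`PvbRim`, `PvbPin`, `PvbIsPin`, `PvbNearRet`, `PvbRimGood`, `PvbPar`, `PvbOrd`), so that the field `arm2` of `PvbIn` is consumed VERBATIM.

* §1 near returns: monotone in the two radii, change of centre
* §2 the net `pvtvNet x R s` of the closed ball `B(x,2R)`:  inside the ball, `≤ 49 (R/s)^2` points, `2s`-dense
* §3 `pvtvZeta`: the bound;  closed form `K s^c`;  `→ 0` as `s ↓ 0` at fixed `S`;  choice of `δ_m`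
* §4 UNION: eventually in `n`,  `ℙ n (some rim has a near return (s,S) at SOME centre of the closed ball) ≤ pvtvZeta`
* §5 DETERMINISTIC: no near return at any centre + `(A1)` pair of pins ⟹ `PvtvFitIn` = the metric input of TR19
     (arc `ρ`-separated from the two continuations off the pin discs, the forward continuation misses the disc of `s`, the backward one that of `t`, both continuations reach distance `4R`);  segment (polygonal) forms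
* §6 COVER: abstract family of patterns, `fit` = TR19 (+ TR17) as a hypothesis;  fixed `m` form and `PvbOrd` form
* §7 the same for an ARBITRARY local arm event (change of centre = ONE inclusion), centres in the ball `3R`
* §8 `pvtv_cover_field`, `pvtv_cover_field_abs` = the field `cover` of `PvtsIn` (`Tr/Spine.lean`) VERBATIM
* §9 POLYGONAL FORM: `pvtvPoly`, `PvtvPolyIn` = (NR) + (OUT) of TR19 for `γ`, `γ⁻`, `γ⁺` (first / last vertex at distance `4R`), `pvtv_polyIn`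
* §10 GENERAL FORM: ANY index filter `l` (`atTop` on `ℕ`: `PvbOrd`;  `𝓝[>] 0` on `ℝ`: `PvhbOrd` of `Tr/Hub.lean`) and ANY capacity (`PvtvCap`: monotone, subadditive, `0` at `∅`):
      `fun A => (μ A).toReal` (`pvtv_cap_measure`),  `fun A => (U.P A).toReal` for `U : PvUp Ω` (`pvtv_cap_up`).      `pvtv_cover_field_gen`, `pvtv_cover_field_abs_gen` = the field `cover` of `PvhbLoc`.
-/

set_option autoImplicit false
set_option linter.unusedSectionVars false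

namespace Claimed.Agent.R289

open MeasureTheory Filter Topology Finset

/-! ## §1 near returns -/

theorem pvtv_nr_mono {P : PvbRim} {y : ℂ} {s s' S S' : ℝ} (h : PvbNearRet P y s S) (hs : s ≤ s') (hS : S' ≤ S) :
    PvbNearRet P y s' S' := by
  obtain ⟨k, i, k', h1, h2, h3, h4, h5, h6⟩ := h
  exact ⟨k, i, k', h1, h2, h3, h4.trans hs, h5.trans hs, lt_of_le_of_lt hS h6⟩

theorem pvtv_tri (a b c : ℂ) : ‖a - c‖ ≤ ‖a - b‖ + ‖b - c‖ := by
  calc ‖a - c‖ = ‖(a - b) + (b - c)‖ := by ring_nf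
    _ ≤ _ := norm_add_le _ _

/-- change of centre -/
theorem pvtv_nr_shift {P : PvbRim} {y y' : ℂ} {s S d : ℝ} (h : PvbNearRet P y s S) (hd : ‖y - y'‖ ≤ d) :
    PvbNearRet P y' (s + d) (S - d) := by
  obtain ⟨k, i, k', h1, h2, h3, h4, h5, h6⟩ := h
  refine ⟨k, i, k', h1, h2, h3, ?_, ?_, ?_⟩
  · exact (pvtv_tri _ y _).trans (add_le_add h4 hd)
  · exact (pvtv_tri _ y _).trans (add_le_add h5 hd)
  · have h7 := pvtv_tri (P.v i) y' y
    rw [norm_sub_rev y' y] at h7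
    linarith

/-! ## §2 the net -/

open Classical in
/-- the points `x + (a + b i) s` of the closed ball `B(x,2R)` -/
noncomputable def pvtvNet (x : ℂ) (R s : ℝ) : Finset ℂ :=
  ((Finset.Icc (-⌈2 * R / s⌉) ⌈2 * R / s⌉ ×ˢ Finset.Icc (-⌈2 * R / s⌉) ⌈2 * R / s⌉).image
    (fun p : ℤ × ℤ => x + (⟨(p.1 : ℝ) * s, (p.2 : ℝ) * s⟩ : ℂ))).filter (fun y => ‖y - x‖ ≤ 2 * R)

theorem pvtv_net_in {x y : ℂ} {R s : ℝ} (h : y ∈ pvtvNet x R s) : ‖y - x‖ ≤ 2 * R := by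
  classical
  exact (Finset.mem_filter.1 h).2

theorem pvtv_net_card {x : ℂ} {R s : ℝ} (hs : 0 < s) (hsR : s ≤ R) : ((pvtvNet x R s).card : ℝ) ≤ 49 * (R / s) ^ 2 := by
  classical
  have hR : 0 < R := lt_of_lt_of_le hs hsR
  have h1 : (1 : ℝ) ≤ R / s := (one_le_div hs).2 hsR
  set N : ℤ := ⌈2 * R / s⌉ with hN
  have hN0 : 0 ≤ N := Int.ceil_nonneg (by positivity)
  have hN1 : (N : ℝ) < 2 * R / s + 1 := Int.ceil_lt_add_one _
  have hc : (pvtvNet x R s).card ≤ (Finset.Icc (-N) N).card * (Finset.Icc (-N) N).card := by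
    refine (Finset.card_filter_le _ _).trans (Finset.card_image_le.trans ?_)
    rw [Finset.card_product]
  have hI : ((Finset.Icc (-N) N).card : ℝ) = 2 * N + 1 := by
    rw [Int.card_Icc]
    have : ((N + 1 - -N).toNat : ℤ) = 2 * N + 1 := by
      rw [Int.toNat_of_nonneg (by omega)]; ring
    have h2 : (((N + 1 - -N).toNat : ℤ) : ℝ) = ((2 * N + 1 : ℤ) : ℝ) := by rw [this]
    push_cast at h2
    exact h2
  have hI2 : ((Finset.Icc (-N) N).card : ℝ) ≤ 7 * (R / s) := by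
    rw [hI]
    have : 2 * R / s = 2 * (R / s) := by ring
    linarith
  have hI0 : (0 : ℝ) ≤ ((Finset.Icc (-N) N).card : ℝ) := Nat.cast_nonneg _
  calc ((pvtvNet x R s).card : ℝ) ≤ ((Finset.Icc (-N) N).card : ℝ) * ((Finset.Icc (-N) N).card : ℝ) := by exact_mod_cast hc
    _ ≤ (7 * (R / s)) * (7 * (R / s)) := mul_le_mul hI2 hI2 hI0 (by positivity)
    _ = 49 * (R / s) ^ 2 := by ring

theorem pvtv_norm_le_add (u : ℂ) : ‖u‖ ≤ |u.re| + |u.im| := Complex.norm_le_abs_re_add_abs_im u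

/-- the net is `2s`-dense in the closed ball -/
theorem pvtv_net_cov {x w : ℂ} {R s : ℝ} (hs : 0 < s) (hsR : s ≤ R) (hw : ‖w - x‖ ≤ 2 * R) : ∃ y ∈ pvtvNet x R s, ‖w - y‖ ≤ 2 * s := by
  classical
  have hR : 0 < R := lt_of_lt_of_le hs hsR
  -- pull `w` inside by `s`
  set lam : ℝ := 1 - s / (2 * R) with hlam
  have hl0 : 0 ≤ lam := by
    have : s / (2 * R) ≤ 1 := by rw [div_le_one (by positivity)]; linarith
    linarith
  set u : ℂ := (lam : ℂ) * (w - x) with hu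
  have hu1 : ‖u‖ ≤ 2 * R - s := by
    rw [hu, norm_mul, Complex.norm_real, Real.norm_of_nonneg hl0]
    calc lam * ‖w - x‖ ≤ lam * (2 * R) := mul_le_mul_of_nonneg_left hw hl0
      _ = 2 * R - s := by rw [hlam]; field_simp
  have hu2 : ‖(w - x) - u‖ ≤ s := by
    have e : (w - x) - u = ((s / (2 * R) : ℝ) : ℂ) * (w - x) := by
      rw [hu, hlam]; push_cast; ring
    rw [e, norm_mul, Complex.norm_real, Real.norm_of_nonneg (by positivity)]
    calc s / (2 * R) * ‖w - x‖ ≤ s / (2 * R) * (2 * R) := mul_le_mul_of_nonneg_left hw (by positivity)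
      _ = s := by field_simp
  set a : ℤ := round (u.re / s) with ha
  set b : ℤ := round (u.im / s) with hb
  set g : ℂ := ⟨(a : ℝ) * s, (b : ℝ) * s⟩ with hg
  have ha1 : |u.re - a * s| ≤ s / 2 := by
    have h1 := abs_sub_round (u.re / s)
    have e : u.re - a * s = (u.re / s - a) * s := by field_simp
    rw [e, abs_mul, abs_of_pos hs]
    calc |u.re / s - a| * s ≤ 1 / 2 * s := mul_le_mul_of_nonneg_right h1 hs.le
      _ = s / 2 := by ring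
  have hb1 : |u.im - b * s| ≤ s / 2 := by
    have h1 := abs_sub_round (u.im / s)
    have e : u.im - b * s = (u.im / s - b) * s := by field_simp
    rw [e, abs_mul, abs_of_pos hs]
    calc |u.im / s - b| * s ≤ 1 / 2 * s := mul_le_mul_of_nonneg_right h1 hs.le
      _ = s / 2 := by ring
  have hug : ‖u - g‖ ≤ s := by
    refine (pvtv_norm_le_add _).trans ?_
    have e1 : (u - g).re = u.re - a * s := by simp [hg]
    have e2 : (u - g).im = u.im - b * s := by simp [hg]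
    rw [e1, e2]; linarith
  have hg1 : ‖g‖ ≤ 2 * R := by
    have := pvtv_tri g u 0
    simp only [sub_zero] at this
    rw [norm_sub_rev] at this
    linarith
  have hab : ∀ t : ℤ, |(t : ℝ) * s| ≤ 2 * R → t ∈ Finset.Icc (-⌈2 * R / s⌉) ⌈2 * R / s⌉ := by
    intro t ht
    rw [abs_mul, abs_of_pos hs] at ht
    have h1 : |(t : ℝ)| ≤ 2 * R / s := by rw [le_div_iff₀ hs]; exact ht
    have h2 : (t : ℝ) ≤ (⌈2 * R / s⌉ : ℝ) := ((le_abs_self _).trans h1).trans (Int.le_ceil _)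
    have h3 : -(⌈2 * R / s⌉ : ℝ) ≤ (t : ℝ) := by
      have := (neg_abs_le (t : ℝ))
      have h4 := Int.le_ceil (2 * R / s)
      linarith
    rw [Finset.mem_Icc]
    constructor
    · exact_mod_cast h3
    · exact_mod_cast h2
  refine ⟨x + g, ?_, ?_⟩
  · refine Finset.mem_filter.2 ⟨Finset.mem_image.2 ⟨(a, b), Finset.mem_product.2 ⟨hab a ?_, hab b ?_⟩, rfl⟩, ?_⟩
    · have := Complex.abs_re_le_norm g
      simp only [hg] at this ⊢
      exact this.trans (by simpa [hg] using hg1)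
    · have := Complex.abs_im_le_norm g
      simp only [hg] at this ⊢
      exact this.trans (by simpa [hg] using hg1)
    · simpa using hg1
  · have e : w - (x + g) = ((w - x) - u) + (u - g) := by ring
    rw [e]
    exact (norm_add_le _ _).trans (by linarith)

/-! ## §3 the bound -/

/-- `49 (R/s)^2` centres, each with the probability of `arm2` at the radii `(3s, S/2)` -/
noncomputable def pvtvZeta (C1 c R s S : ℝ) : ℝ := 49 * (R / s) ^ 2 * (C1 * (3 * s / (S / 2)) ^ (2 + c) * (S / 2 / R) ^ c)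

/-- the constant of the closed form -/
noncomputable def pvtvK (C1 c R S : ℝ) : ℝ := 49 * C1 * R ^ 2 * (6 / S) ^ (2 + c) * (S / 2 / R) ^ c

theorem pvtv_zeta_eq {C1 c R s S : ℝ} (hs : 0 < s) (hS : 0 < S) : pvtvZeta C1 c R s S = pvtvK C1 c R S * s ^ c := by
  have e1 : 3 * s / (S / 2) = 6 / S * s := by field_simp; ring
  have e2 : (6 / S * s) ^ (2 + c) = (6 / S) ^ (2 + c) * (s ^ 2 * s ^ c) := by
    rw [Real.mul_rpow (by positivity) hs.le, Real.rpow_add hs, Real.rpow_two]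
  rw [pvtvZeta, pvtvK, e1, e2]
  field_simp

theorem pvtv_zeta_tendsto {C1 c R S : ℝ} (hc : 0 < c) (hS : 0 < S) : Tendsto (fun s => pvtvZeta C1 c R s S) (𝓝[>] 0) (𝓝 0) := by
  have h1 : Tendsto (fun s : ℝ => pvtvK C1 c R S * s ^ c) (𝓝 0) (𝓝 0) := by
    have := ((Real.continuous_rpow_const hc.le).tendsto 0).const_mul (pvtvK C1 c R S)
    rwa [Real.zero_rpow hc.ne', mul_zero] at this
  refine (h1.mono_left nhdsWithin_le_nhds).congr' ?_
  filter_upwards [self_mem_nhdsWithin] with s hs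
  exact (pvtv_zeta_eq hs hS).symm

theorem pvtv_zeta_small {C1 c R S η : ℝ} (hc : 0 < c) (hS : 0 < S) (hη : 0 < η) : ∃ s0 : ℝ, 0 < s0 ∧ ∀ s, 0 < s → s ≤ s0 → |pvtvZeta C1 c R s S| ≤ η := by
  have h1 := (pvtv_zeta_tendsto (C1 := C1) (R := R) hc hS).eventually (Metric.closedBall_mem_nhds 0 hη)
  rw [eventually_nhdsWithin_iff, Metric.eventually_nhds_iff] at h1
  obtain ⟨e, he, h2⟩ := h1
  refine ⟨e / 2, by positivity, fun s hs hse => ?_⟩
  have h3 := h2 (y := s) (by rw [Real.dist_eq, sub_zero, abs_of_pos hs]; linarith) hs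
  rwa [Real.dist_eq, sub_zero] at h3

/-- CHOICE OF `δ_m`: below any prescribed positive caps, with `pvtvZeta → 0` -/
theorem pvtv_choose {C1 c R : ℝ} (hc : 0 < c) (S cap : ℕ → ℝ) (hS : ∀ m, 0 < S m) (hcap : ∀ m, 0 < cap m) :
    ∃ ρ : ℕ → ℝ, (∀ m, 0 < ρ m) ∧ (∀ m, ρ m ≤ cap m) ∧ (∀ m, 6 * ρ m ≤ S m) ∧ Tendsto (fun m => pvtvZeta C1 c R (ρ m) (S m)) atTop (𝓝 0) ∧
      ∀ m, ∀ s, 0 < s → s ≤ ρ m → |pvtvZeta C1 c R s (S m)| ≤ 1 / ((m : ℝ) + 1) := by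
  have h1 : ∀ m : ℕ, ∃ s0 : ℝ, 0 < s0 ∧ ∀ s, 0 < s → s ≤ s0 → |pvtvZeta C1 c R s (S m)| ≤ 1 / ((m : ℝ) + 1) :=
    fun m => pvtv_zeta_small hc (hS m) (by positivity)
  choose s0 hs0 hs1 using h1
  have hpos : ∀ m, 0 < min (s0 m) (min (cap m) (S m / 6)) := fun m => lt_min (hs0 m) (lt_min (hcap m) (by have := hS m; positivity))
  have hle : ∀ m, ∀ s, 0 < s → s ≤ min (s0 m) (min (cap m) (S m / 6)) → |pvtvZeta C1 c R s (S m)| ≤ 1 / ((m : ℝ) + 1) :=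
    fun m s hs hsm => hs1 m s hs (hsm.trans (min_le_left _ _))
  refine ⟨fun m => min (s0 m) (min (cap m) (S m / 6)), hpos, fun m => (min_le_right _ _).trans (min_le_left _ _), fun m => ?_, ?_, hle⟩
  · have : min (s0 m) (min (cap m) (S m / 6)) ≤ S m / 6 := (min_le_right _ _).trans (min_le_right _ _)
    linarith
  · refine squeeze_zero_norm (fun m => ?_) tendsto_one_div_add_atTop_nhds_zero_nat
    rw [Real.norm_eq_abs]
    exact hle m _ (hpos m) le_rfl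

/-! ## §4 UNION over the net -/

section union

variable {Ω : Type} [MeasurableSpace Ω] {ℙ : ℕ → Measure Ω} {rims : ℕ → Ω → Set PvbRim} {x : ℂ} {R C1 c : ℝ}

/-- a near return at an arbitrary centre of the closed ball is a near return at a centre of the net -/
theorem pvtv_nr_net {P : PvbRim} {w : ℂ} {s S : ℝ} (hs : 0 < s) (hsR : s ≤ R) (hsS : 4 * s ≤ S) (hw : ‖w - x‖ ≤ 2 * R) (h : PvbNearRet P w s S) :
    ∃ y ∈ pvtvNet x R s, PvbNearRet P y (3 * s) (S / 2) := by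
  obtain ⟨y, hy, hwy⟩ := pvtv_net_cov hs hsR hw
  exact ⟨y, hy, pvtv_nr_mono (pvtv_nr_shift h hwy) (by linarith) (by linarith)⟩

/-- **UNION**: `arm2` of `PvbIn` at all centres simultaneously -/
theorem pvtv_union (hP : ∀ n, IsProbabilityMeasure (ℙ n))
    (arm2 : ∀ (y : ℂ) (s S : ℝ), ‖y - x‖ ≤ 2 * R → 0 < s → s ≤ S → S ≤ R → ∀ᶠ n in atTop,
      (ℙ n {ω | ∃ P ∈ rims n ω, PvbNearRet P y s S}).toReal ≤ C1 * (s / S) ^ (2 + c) * (S / R) ^ c)
    {s S : ℝ} (hs : 0 < s) (hsS : 6 * s ≤ S) (hSR : S ≤ R) :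
    ∀ᶠ n in atTop, (ℙ n {ω | ∃ P ∈ rims n ω, ∃ w, ‖w - x‖ ≤ 2 * R ∧ PvbNearRet P w s S}).toReal ≤ pvtvZeta C1 c R s S := by
  have hsR : s ≤ R := by linarith
  have hR : 0 < R := by linarith
  set p : ℝ := C1 * (3 * s / (S / 2)) ^ (2 + c) * (S / 2 / R) ^ c with hp
  have h1 : ∀ y ∈ pvtvNet x R s, ∀ᶠ n in atTop, (ℙ n {ω | ∃ P ∈ rims n ω, PvbNearRet P y (3 * s) (S / 2)}).toReal ≤ p :=
    fun y hy => arm2 y (3 * s) (S / 2) (pvtv_net_in hy) (by positivity) (by linarith) (by linarith)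
  have hp0 : 0 ≤ p := by
    obtain ⟨n, hn⟩ := (arm2 x (3 * s) (S / 2) (by simpa using hR.le) (by positivity) (by linarith) (by linarith)).exists
    exact ENNReal.toReal_nonneg.trans hn
  filter_upwards [(Filter.eventually_all_finset _).2 h1] with n hn
  have := hP n
  have hsub : {ω | ∃ P ∈ rims n ω, ∃ w, ‖w - x‖ ≤ 2 * R ∧ PvbNearRet P w s S} ⊆
      ⋃ y ∈ pvtvNet x R s, {ω | ∃ P ∈ rims n ω, PvbNearRet P y (3 * s) (S / 2)} := by
    rintro ω ⟨P, hPr, w, hw, hnr⟩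
    obtain ⟨y, hy, hy2⟩ := pvtv_nr_net hs hsR (by linarith) hw hnr
    exact Set.mem_biUnion hy ⟨P, hPr, hy2⟩
  have h2 : (ℙ n {ω | ∃ P ∈ rims n ω, ∃ w, ‖w - x‖ ≤ 2 * R ∧ PvbNearRet P w s S}).toReal ≤
      (ℙ n (⋃ y ∈ pvtvNet x R s, {ω | ∃ P ∈ rims n ω, PvbNearRet P y (3 * s) (S / 2)})).toReal :=
    ENNReal.toReal_mono (measure_ne_top _ _) (measure_mono hsub)
  have h3 := measureReal_biUnion_finset_le (μ := ℙ n) (pvtvNet x R s) fun y => {ω | ∃ P ∈ rims n ω, PvbNearRet P y (3 * s) (S / 2)}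
  simp only [Measure.real] at h3
  calc _ ≤ _ := h2
    _ ≤ _ := h3
    _ ≤ ∑ _y ∈ pvtvNet x R s, p := Finset.sum_le_sum hn
    _ = ((pvtvNet x R s).card : ℝ) * p := by rw [Finset.sum_const, nsmul_eq_mul]
    _ ≤ 49 * (R / s) ^ 2 * p := mul_le_mul_of_nonneg_right (pvtv_net_card hs hsR) hp0
    _ = pvtvZeta C1 c R s S := rfl

end union

/-! ## §5 DETERMINISTIC: from "no near return" to the metric input of TR19 -/

section det

variable {τ : Type} {𝔐 : PvbMenu τ} {x : ℂ} {R h r μ ρ σ : ℝ} {P : PvbRim} {pins : Set (PvbPin τ)} {s t : PvbPin τ}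

/-- a pair of pins as in `(A1)` = the hypotheses of `PvbRealArc`, verbatim -/
structure PvtvPair (x : ℂ) (R : ℝ) (P : PvbRim) (pins : Set (PvbPin τ)) (s t : PvbPin τ) : Prop where
  hs : s ∈ pins
  ht : t ∈ pins
  lt : s.idx < t.idx
  arc : ∀ k, s.idx ≤ k → k ≤ t.idx → ‖P.v k - x‖ ≤ 2 * R
  far : R / 3 ≤ ‖s.ctr - t.ctr‖

/-- the arc `s → t` is `ρ`-separated from the backward continuation off the disc `B(ctr s, σ)`, and from the forward continuation off the disc `B(ctr t, σ)` -/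
structure PvtvSep (P : PvbRim) (s t : PvbPin τ) (ρ σ : ℝ) : Prop where
  back : ∀ k k', s.idx ≤ k → k ≤ t.idx → k' < s.idx → σ < ‖P.v k - s.ctr‖ → ρ < ‖P.v k - P.v k'‖
  fwd : ∀ k k', s.idx ≤ k → k ≤ t.idx → t.idx < k' → k' ≤ P.len → σ < ‖P.v k - t.ctr‖ → ρ < ‖P.v k - P.v k'‖

/-- **the metric input of TR19** for the arc `s → t` of the rim `P` -/
structure PvtvFitIn (𝔐 : PvbMenu τ) (x : ℂ) (R h ρ σ : ℝ) (P : PvbRim) (s t : PvbPin τ) : Prop where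
  sep : PvtvSep P s t ρ σ
  fwd_s : ∀ k', t.idx ≤ k' → k' ≤ P.len → 𝔐.a3 s.typ * h ≤ ‖P.v k' - s.ctr‖
  back_t : ∀ k', k' ≤ s.idx → 𝔐.a3 t.typ * h ≤ ‖P.v k' - t.ctr‖
  reach_b : 4 * R ≤ ‖P.v 0 - x‖
  reach_f : 4 * R ≤ ‖P.v P.len - x‖

theorem pvtv_sep_mono {ρ' σ' : ℝ} (H : PvtvSep P s t ρ σ) (hρ : ρ' ≤ ρ) (hσ : σ ≤ σ') : PvtvSep P s t ρ' σ' :=
  ⟨fun k k' h1 h2 h3 h4 => lt_of_le_of_lt hρ (H.back k k' h1 h2 h3 (lt_of_le_of_lt hσ h4)),
   fun k k' h1 h2 h3 h4 h5 => lt_of_le_of_lt hρ (H.fwd k k' h1 h2 h3 h4 (lt_of_le_of_lt hσ h5))⟩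

/-- the same with the condition on the vertex of the CONTINUATION -/
theorem pvtv_sep_back' (H : PvtvSep P s t ρ σ) {k k' : ℕ} (h1 : s.idx ≤ k) (h2 : k ≤ t.idx) (h3 : k' < s.idx) (h4 : σ + ρ < ‖P.v k' - s.ctr‖) :
    ρ < ‖P.v k - P.v k'‖ := by
  by_contra hc
  rw [not_lt] at hc
  have h5 : σ < ‖P.v k - s.ctr‖ := by
    have := pvtv_tri (P.v k') (P.v k) s.ctr
    rw [norm_sub_rev (P.v k') (P.v k)] at this
    linarith
  exact absurd (H.back k k' h1 h2 h3 h5) (not_lt.2 hc)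

theorem pvtv_sep_fwd' (H : PvtvSep P s t ρ σ) {k k' : ℕ} (h1 : s.idx ≤ k) (h2 : k ≤ t.idx) (h3 : t.idx < k') (h3' : k' ≤ P.len) (h4 : σ + ρ < ‖P.v k' - t.ctr‖) :
    ρ < ‖P.v k - P.v k'‖ := by
  by_contra hc
  rw [not_lt] at hc
  have h5 : σ < ‖P.v k - t.ctr‖ := by
    have := pvtv_tri (P.v k') (P.v k) t.ctr
    rw [norm_sub_rev (P.v k') (P.v k)] at this
    linarith
  exact absurd (H.fwd k k' h1 h2 h3 h3' h5) (not_lt.2 hc)

/-- **SEPARATION**: the pin vertex is the departure -/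
theorem pvtv_sep (hpair : PvtvPair x R P pins s t) (hs : ‖P.v s.idx - s.ctr‖ ≤ h) (ht : ‖P.v t.idx - t.ctr‖ ≤ h) (htl : t.idx ≤ P.len) (hσ : h ≤ σ)
    (hno : ∀ w, ‖w - x‖ ≤ 2 * R → ¬ PvbNearRet P w ρ (σ - h)) : PvtvSep P s t ρ σ := by
  constructor
  · intro k k' h1 h2 h3 h4
    by_contra hc
    rw [not_lt] at hc
    have hρ : 0 ≤ ρ := (norm_nonneg _).trans hc
    have hk : s.idx < k := by
      rcases Nat.lt_or_ge s.idx k with h | h
      · exact h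
      · have : k = s.idx := le_antisymm h h1
        rw [this] at h4
        linarith
    refine hno (P.v k) (hpair.arc k h1 h2) ⟨k', s.idx, k, h3, hk, ?_, ?_, ?_, ?_⟩
    · exact h2.trans htl
    · rw [norm_sub_rev]; exact hc
    · simpa using hρ
    · have := pvtv_tri (P.v k) (P.v s.idx) s.ctr
      rw [norm_sub_rev (P.v k) (P.v s.idx)] at this
      linarith
  · intro k k' h1 h2 h3 h3' h4
    by_contra hc
    rw [not_lt] at hc
    have hρ : 0 ≤ ρ := (norm_nonneg _).trans hc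
    have hk : k < t.idx := by
      rcases Nat.lt_or_ge k t.idx with h | h
      · exact h
      · have : k = t.idx := le_antisymm h2 h
        rw [this] at h4
        linarith
    refine hno (P.v k) (hpair.arc k h1 h2) ⟨k, t.idx, k', hk, h3, h3', ?_, ?_, ?_⟩
    · simpa using hρ
    · rw [norm_sub_rev]; exact hc
    · have := pvtv_tri (P.v k) (P.v t.idx) t.ctr
      rw [norm_sub_rev (P.v k) (P.v t.idx)] at this
      linarith

/-- the two pin vertices are far apart -/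
theorem pvtv_pins_far (hpair : PvtvPair x R P pins s t) (hs : ‖P.v s.idx - s.ctr‖ ≤ h) (ht : ‖P.v t.idx - t.ctr‖ ≤ h) :
    R / 3 - 2 * h ≤ ‖P.v s.idx - P.v t.idx‖ := by
  have h1 := pvtv_tri s.ctr (P.v s.idx) t.ctr
  have h2 := pvtv_tri (P.v s.idx) (P.v t.idx) t.ctr
  rw [norm_sub_rev s.ctr (P.v s.idx)] at h1
  have := hpair.far
  linarith

/-- TRAP at `s`: the forward continuation (from `t` on) misses the disc `B(ctr s, a3 h)` -/
theorem pvtv_fwd_s (hpair : PvtvPair x R P pins s t) (hs : PvbIsPin 𝔐 h P s) (ht : PvbIsPin 𝔐 h P t) (hR : 2 * 𝔐.L * h + 2 * h < R / 3)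
    {k' : ℕ} (h1 : t.idx ≤ k') (h2 : k' ≤ P.len) : 𝔐.a3 s.typ * h ≤ ‖P.v k' - s.ctr‖ := by
  by_contra hc
  rw [not_le] at hc
  obtain ⟨lo, hi, hlo, -, -, htr, hdiam⟩ := hs.trap
  obtain ⟨-, h4⟩ := htr k' h2 hc
  have h5 := hdiam s.idx t.idx hlo ((hpair.lt.le.trans h1).trans h4) (hlo.trans hpair.lt.le) (h1.trans h4)
  have h6 := pvtv_pins_far hpair hs.near ht.near
  linarith

/-- TRAP at `t`: the backward continuation (up to `s`) misses the disc `B(ctr t, a3 h)` -/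
theorem pvtv_back_t (hpair : PvtvPair x R P pins s t) (hs : PvbIsPin 𝔐 h P s) (ht : PvbIsPin 𝔐 h P t) (hR : 2 * 𝔐.L * h + 2 * h < R / 3)
    {k' : ℕ} (h1 : k' ≤ s.idx) : 𝔐.a3 t.typ * h ≤ ‖P.v k' - t.ctr‖ := by
  by_contra hc
  rw [not_le] at hc
  obtain ⟨lo, hi, -, hhi, -, htr, hdiam⟩ := ht.trap
  obtain ⟨h3, -⟩ := htr k' ((h1.trans hpair.lt.le).trans ht.idx_lt.le) hc
  have h5 := hdiam s.idx t.idx (h3.trans h1) (hpair.lt.le.trans hhi) ((h3.trans h1).trans hpair.lt.le) hhi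
  have h6 := pvtv_pins_far hpair hs.near ht.near
  linarith

theorem pvtv_L_pos (𝔐 : PvbMenu τ) (t : τ) : 100000 < 𝔐.L := by
  have h1 := 𝔐.mc_gt t
  have h2 := 𝔐.mc_lt t
  have h3 := 𝔐.a3_gt t
  have h4 := 𝔐.a3_le t
  linarith

/-- the numerical condition of the two TRAP lemmas follows from `PvbPar` -/
theorem pvtv_par_num (hpar : PvbPar 𝔐 R h r μ) (t : τ) : 2 * 𝔐.L * h + 2 * h < R / 3 := by
  have h1 := pvtv_L_pos 𝔐 t
  have h2 := hpar.h0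
  have h3 := hpar.Lh_r
  have h4 := hpar.r_R
  have h5 : 0 < 𝔐.L * h := by nlinarith
  have h6 : h < 𝔐.L * h := by nlinarith
  nlinarith

/-- **TR20, deterministic half**: on a good rim without near return `(ρ, σ - h)` at any centre of the closed ball, every `(A1)` pair of pins satisfies the metric input of TR19 -/
theorem pvtv_fitIn (hgood : PvbRimGood 𝔐 x R h r μ P pins) (hpar : PvbPar 𝔐 R h r μ) (hσ : h ≤ σ)
    (hno : ∀ w, ‖w - x‖ ≤ 2 * R → ¬ PvbNearRet P w ρ (σ - h)) (hpair : PvtvPair x R P pins s t) : PvtvFitIn 𝔐 x R h ρ σ P s t := by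
  have hs := hgood.pin s hpair.hs
  have ht := hgood.pin t hpair.ht
  have hnum := pvtv_par_num hpar s.typ
  exact ⟨pvtv_sep hpair hs.near ht.near ht.idx_lt.le hσ hno, fun k' h1 h2 => pvtv_fwd_s hpair hs ht hnum h1 h2,
    fun k' h1 => pvtv_back_t hpair hs ht hnum h1, hgood.far, by rw [hgood.closed]; exact hgood.far⟩

end det

/-! ## §6 COVER -/

section cover

variable {τ : Type} {Ω : Type} [MeasurableSpace Ω] {𝔐 : PvbMenu τ} {ℙ : ℕ → Measure Ω} {rims : ℕ → Ω → Set PvbRim} {x : ℂ} {R C1 c : ℝ}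

/-- the event of TR20: some rim, some `(A1)` pair of its pins, no pattern of the family fits -/
def pvtvNoFit {ι : Type} (x : ℂ) (R : ℝ) (rims : Ω → Set PvbRim) (pins : Ω → PvbRim → Set (PvbPin τ)) (Pats : Set ι)
    (Fits : ι → Ω → PvbRim → PvbPin τ → PvbPin τ → Prop) : Set Ω :=
  {ω | ∃ P ∈ rims ω, ∃ s t, PvtvPair x R P (pins ω P) s t ∧ ∀ p ∈ Pats, ¬ Fits p ω P s t}

omit [MeasurableSpace Ω] in
/-- inclusion of events (no probability): off `Good`, or a near return at some centre -/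
theorem pvtv_noFit_sub {ι : Type} {h r μ ρ σ : ℝ} {rims : Ω → Set PvbRim} {pins : Ω → PvbRim → Set (PvbPin τ)} {Pats : Set ι}
    {Fits : ι → Ω → PvbRim → PvbPin τ → PvbPin τ → Prop} {Good : Set Ω}
    (hpar : PvbPar 𝔐 R h r μ) (hσ : h ≤ σ)
    (good : ∀ ω ∈ Good, ∀ P ∈ rims ω, PvbRimGood 𝔐 x R h r μ P (pins ω P))
    (fit : ∀ ω ∈ Good, ∀ P ∈ rims ω, ∀ s t, PvtvPair x R P (pins ω P) s t → PvtvFitIn 𝔐 x R h ρ σ P s t → ∃ p ∈ Pats, Fits p ω P s t) :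
    pvtvNoFit x R rims pins Pats Fits ⊆ Goodᶜ ∪ {ω | ∃ P ∈ rims ω, ∃ w, ‖w - x‖ ≤ 2 * R ∧ PvbNearRet P w ρ (σ - h)} := by
  rintro ω ⟨P, hP, s, t, hpair, hnone⟩
  by_cases hg : ω ∈ Good
  · right
    by_contra hc
    have hno : ∀ w, ‖w - x‖ ≤ 2 * R → ¬ PvbNearRet P w ρ (σ - h) := fun w hw hnr => hc ⟨P, hP, w, hw, hnr⟩
    obtain ⟨p, hp, hf⟩ := fit ω hg P hP s t hpair (pvtv_fitIn (good ω hg P hP) hpar hσ hno hpair)
    exact hnone p hp hf
  · left; exact hg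

/-- **TR20 (COVER) at fixed scales**.   `fit` = TR19 (+ TR17 inside the pin discs), `Good n` = mesh + pins (+ whatever TR17/TR19 want), `ρ = C k δ`, `σ = (τ₀ + 1) h`. -/
theorem pvtv_cover {ι : Type} {h r μ ρ σ : ℝ} (hP : ∀ n, IsProbabilityMeasure (ℙ n))
    (arm2 : ∀ (y : ℂ) (s S : ℝ), ‖y - x‖ ≤ 2 * R → 0 < s → s ≤ S → S ≤ R → ∀ᶠ n in atTop,
      (ℙ n {ω | ∃ P ∈ rims n ω, PvbNearRet P y s S}).toReal ≤ C1 * (s / S) ^ (2 + c) * (S / R) ^ c)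
    {pins : ℕ → Ω → PvbRim → Set (PvbPin τ)} {Pats : Set ι} {Fits : ι → ℕ → Ω → PvbRim → PvbPin τ → PvbPin τ → Prop} {Good : ℕ → Set Ω}
    (hpar : PvbPar 𝔐 R h r μ) (hρ : 0 < ρ) (hρσ : 6 * ρ ≤ σ - h) (hσR : σ - h ≤ R)
    (good : ∀ n, ∀ ω ∈ Good n, ∀ P ∈ rims n ω, PvbRimGood 𝔐 x R h r μ P (pins n ω P))
    (fit : ∀ n, ∀ ω ∈ Good n, ∀ P ∈ rims n ω, ∀ s t, PvtvPair x R P (pins n ω P) s t → PvtvFitIn 𝔐 x R h ρ σ P s t → ∃ p ∈ Pats, Fits p n ω P s t) :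
    ∀ᶠ n in atTop, (ℙ n (pvtvNoFit x R (rims n) (pins n) Pats (fun p => Fits p n))).toReal ≤ (ℙ n (Good n)ᶜ).toReal + pvtvZeta C1 c R ρ (σ - h) := by
  filter_upwards [pvtv_union hP arm2 hρ hρσ hσR] with n hn
  have := hP n
  have h1 := pvtv_noFit_sub (Fits := fun p => Fits p n) hpar (by linarith) (good n) (fit n)
  calc _ ≤ (ℙ n ((Good n)ᶜ ∪ {ω | ∃ P ∈ rims n ω, ∃ w, ‖w - x‖ ≤ 2 * R ∧ PvbNearRet P w ρ (σ - h)})).toReal :=
        ENNReal.toReal_mono (measure_ne_top _ _) (measure_mono h1)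
    _ ≤ (ℙ n (Good n)ᶜ).toReal + (ℙ n {ω | ∃ P ∈ rims n ω, ∃ w, ‖w - x‖ ≤ 2 * R ∧ PvbNearRet P w ρ (σ - h)}).toReal := by
        rw [← ENNReal.toReal_add (measure_ne_top _ _) (measure_ne_top _ _)]
        exact ENNReal.toReal_mono (ENNReal.add_ne_top.2 ⟨measure_ne_top _ _, measure_ne_top _ _⟩) (measure_union_le _ _)
    _ ≤ _ := by linarith

/-- sum of two ordered-small families -/
theorem pvtv_ord_add {p q u : ℕ → ℕ → ℝ} (hp : PvbOrd p) (hq : PvbOrd q) (hu : ∀ᶠ m in atTop, ∀ᶠ n in atTop, u m n ≤ p m n + q m n) : PvbOrd u := by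
  intro η hη
  filter_upwards [hp (η / 2) (by positivity), hq (η / 2) (by positivity), hu] with m h1 h2 h3
  filter_upwards [h1, h2, h3] with n g1 g2 g3
  linarith

/-- a sequence in `m` alone which tends to `0` is ordered-small -/
theorem pvtv_ord_of_tendsto {z : ℕ → ℝ} (hz : Tendsto z atTop (𝓝 0)) : PvbOrd (fun m _ => z m) := by
  intro η hη
  filter_upwards [hz.eventually (ge_mem_nhds hη)] with m hm
  exact Eventually.of_forall fun _ => hm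

/-- **TR20 (COVER), ordered form**: the shape of the field `good` of `PvbIn` -/
theorem pvtv_cover_ord {ι : ℕ → Type} {h r μ ρ σ : ℕ → ℝ} (hP : ∀ n, IsProbabilityMeasure (ℙ n))
    (arm2 : ∀ (y : ℂ) (s S : ℝ), ‖y - x‖ ≤ 2 * R → 0 < s → s ≤ S → S ≤ R → ∀ᶠ n in atTop,
      (ℙ n {ω | ∃ P ∈ rims n ω, PvbNearRet P y s S}).toReal ≤ C1 * (s / S) ^ (2 + c) * (S / R) ^ c)
    {pins : ℕ → ℕ → Ω → PvbRim → Set (PvbPin τ)} {Pats : ∀ m, Set (ι m)} {Fits : ∀ m, ι m → ℕ → Ω → PvbRim → PvbPin τ → PvbPin τ → Prop}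
    {Good : ℕ → ℕ → Set Ω}
    (hpar : ∀ᶠ m in atTop, PvbPar 𝔐 R (h m) (r m) (μ m)) (hρ : ∀ᶠ m in atTop, 0 < ρ m) (hρσ : ∀ᶠ m in atTop, 6 * ρ m ≤ σ m - h m)
    (hσR : ∀ᶠ m in atTop, σ m - h m ≤ R)
    (hζ : Tendsto (fun m => pvtvZeta C1 c R (ρ m) (σ m - h m)) atTop (𝓝 0))
    (hbad : PvbOrd (fun m n => (ℙ n (Good m n)ᶜ).toReal))
    (good : ∀ m n, ∀ ω ∈ Good m n, ∀ P ∈ rims n ω, PvbRimGood 𝔐 x R (h m) (r m) (μ m) P (pins m n ω P))
    (fit : ∀ m n, ∀ ω ∈ Good m n, ∀ P ∈ rims n ω, ∀ s t, PvtvPair x R P (pins m n ω P) s t → PvtvFitIn 𝔐 x R (h m) (ρ m) (σ m) P s t →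
      ∃ p ∈ Pats m, Fits m p n ω P s t) :
    PvbOrd (fun m n => (ℙ n (pvtvNoFit x R (rims n) (pins m n) (Pats m) (fun p => Fits m p n))).toReal) := by
  refine pvtv_ord_add hbad (pvtv_ord_of_tendsto hζ) ?_
  filter_upwards [hpar, hρ, hρσ, hσR] with m h1 h2 h3 h4
  exact pvtv_cover hP arm2 h1 h2 h3 h4 (good m) (fit m)

end cover

/-! ## §7 the same for an ARBITRARY local arm event (ruling of 234, 08:56Z: `SixArm (y; s, S)` in the place of the near return of a rim) -/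

section abs

variable {τ : Type} {Ω : Type} [MeasurableSpace Ω] {ℙ : ℕ → Measure Ω} {x : ℂ}

/-- **UNION, abstract**: `Ev n y s S` = any family of events with a change-of-centre inclusion;  ball of radius `2A` -/
theorem pvtv_union_abs (hP : ∀ n, IsProbabilityMeasure (ℙ n)) (Ev : ℕ → ℂ → ℝ → ℝ → Set Ω) {A s S p : ℝ}
    (shift : ∀ n w y, ‖w - y‖ ≤ 2 * s → Ev n w s S ⊆ Ev n y (3 * s) (S / 2))
    (arm : ∀ y, ‖y - x‖ ≤ 2 * A → ∀ᶠ n in atTop, (ℙ n (Ev n y (3 * s) (S / 2))).toReal ≤ p)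
    (hs : 0 < s) (hsA : s ≤ A) :
    ∀ᶠ n in atTop, (ℙ n {ω | ∃ w, ‖w - x‖ ≤ 2 * A ∧ ω ∈ Ev n w s S}).toReal ≤ 49 * (A / s) ^ 2 * p := by
  have hA : 0 < A := by linarith
  have h1 : ∀ y ∈ pvtvNet x A s, ∀ᶠ n in atTop, (ℙ n (Ev n y (3 * s) (S / 2))).toReal ≤ p := fun y hy => arm y (pvtv_net_in hy)
  have hp0 : 0 ≤ p := by
    obtain ⟨n, hn⟩ := (arm x (by simpa using hA.le)).exists
    exact ENNReal.toReal_nonneg.trans hn
  filter_upwards [(Filter.eventually_all_finset _).2 h1] with n hn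
  have := hP n
  have hsub : {ω | ∃ w, ‖w - x‖ ≤ 2 * A ∧ ω ∈ Ev n w s S} ⊆ ⋃ y ∈ pvtvNet x A s, Ev n y (3 * s) (S / 2) := by
    rintro ω ⟨w, hw, hω⟩
    obtain ⟨y, hy, hwy⟩ := pvtv_net_cov hs hsA hw
    exact Set.mem_biUnion hy (shift n w y hwy hω)
  have h2 : (ℙ n {ω | ∃ w, ‖w - x‖ ≤ 2 * A ∧ ω ∈ Ev n w s S}).toReal ≤ (ℙ n (⋃ y ∈ pvtvNet x A s, Ev n y (3 * s) (S / 2))).toReal :=
    ENNReal.toReal_mono (measure_ne_top _ _) (measure_mono hsub)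
  have h3 := measureReal_biUnion_finset_le (μ := ℙ n) (pvtvNet x A s) fun y => Ev n y (3 * s) (S / 2)
  simp only [Measure.real] at h3
  calc _ ≤ _ := h2
    _ ≤ _ := h3
    _ ≤ ∑ _y ∈ pvtvNet x A s, p := Finset.sum_le_sum hn
    _ = ((pvtvNet x A s).card : ℝ) * p := by rw [Finset.sum_const, nsmul_eq_mul]
    _ ≤ 49 * (A / s) ^ 2 * p := mul_le_mul_of_nonneg_right (pvtv_net_card hs hsA) hp0

/-- the abstract union with the bound of `arm2`, centres in the ball of radius `3R` (`A = 3R/2`) -/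
theorem pvtv_union_abs3 (hP : ∀ n, IsProbabilityMeasure (ℙ n)) (Ev : ℕ → ℂ → ℝ → ℝ → Set Ω) {R C1 c s S : ℝ}
    (shift : ∀ n w y, ‖w - y‖ ≤ 2 * s → Ev n w s S ⊆ Ev n y (3 * s) (S / 2))
    (arm : ∀ (y : ℂ) (s S : ℝ), ‖y - x‖ ≤ 3 * R → 0 < s → s ≤ S → S ≤ R → ∀ᶠ n in atTop,
      (ℙ n (Ev n y s S)).toReal ≤ C1 * (s / S) ^ (2 + c) * (S / R) ^ c)
    (hs : 0 < s) (hsS : 6 * s ≤ S) (hSR : S ≤ R) :
    ∀ᶠ n in atTop, (ℙ n {ω | ∃ w, ‖w - x‖ ≤ 3 * R ∧ ω ∈ Ev n w s S}).toReal ≤ 9 / 4 * pvtvZeta C1 c R s S := by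
  have h1 := pvtv_union_abs (x := x) (A := 3 * R / 2) (p := C1 * (3 * s / (S / 2)) ^ (2 + c) * (S / 2 / R) ^ c) hP Ev shift
    (fun y hy => arm y (3 * s) (S / 2) (by linarith) (by positivity) (by linarith) (by linarith)) hs (by linarith)
  have e : (2 : ℝ) * (3 * R / 2) = 3 * R := by ring
  rw [e] at h1
  filter_upwards [h1] with n hn
  refine hn.trans (le_of_eq ?_)
  rw [pvtvZeta]
  ring

/-- **COVER, abstract**: `Bad n` = any event off which every `(A1)` pair is fitted by a pattern -/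
theorem pvtv_cover_abs {ι : Type} {R z : ℝ} (hP : ∀ n, IsProbabilityMeasure (ℙ n)) {rims : ℕ → Ω → Set PvbRim}
    {pins : ℕ → Ω → PvbRim → Set (PvbPin τ)} {Pats : Set ι} {Fits : ι → ℕ → Ω → PvbRim → PvbPin τ → PvbPin τ → Prop} {Good Bad : ℕ → Set Ω}
    (hbad : ∀ᶠ n in atTop, (ℙ n (Bad n)).toReal ≤ z)
    (fit : ∀ n, ∀ ω ∈ Good n, ω ∉ Bad n → ∀ P ∈ rims n ω, ∀ s t, PvtvPair x R P (pins n ω P) s t → ∃ p ∈ Pats, Fits p n ω P s t) :
    ∀ᶠ n in atTop, (ℙ n (pvtvNoFit x R (rims n) (pins n) Pats (fun p => Fits p n))).toReal ≤ (ℙ n (Good n)ᶜ).toReal + z := by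
  filter_upwards [hbad] with n hn
  have := hP n
  have h1 : pvtvNoFit x R (rims n) (pins n) Pats (fun p => Fits p n) ⊆ (Good n)ᶜ ∪ Bad n := by
    rintro ω ⟨P, hPr, s, t, hpair, hnone⟩
    by_cases hg : ω ∈ Good n
    · right
      by_contra hc
      obtain ⟨p, hp, hf⟩ := fit n ω hg hc P hPr s t hpair
      exact hnone p hp hf
    · left; exact hg
  calc _ ≤ (ℙ n ((Good n)ᶜ ∪ Bad n)).toReal := ENNReal.toReal_mono (measure_ne_top _ _) (measure_mono h1)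
    _ ≤ (ℙ n (Good n)ᶜ).toReal + (ℙ n (Bad n)).toReal := by
        rw [← ENNReal.toReal_add (measure_ne_top _ _) (measure_ne_top _ _)]
        exact ENNReal.toReal_mono (ENNReal.add_ne_top.2 ⟨measure_ne_top _ _, measure_ne_top _ _⟩) (measure_union_le _ _)
    _ ≤ _ := by linarith

/-- **COVER, abstract, ordered form** -/
theorem pvtv_cover_abs_ord {ι : ℕ → Type} {R : ℝ} {z : ℕ → ℝ} (hP : ∀ n, IsProbabilityMeasure (ℙ n)) {rims : ℕ → Ω → Set PvbRim}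
    {pins : ℕ → ℕ → Ω → PvbRim → Set (PvbPin τ)} {Pats : ∀ m, Set (ι m)} {Fits : ∀ m, ι m → ℕ → Ω → PvbRim → PvbPin τ → PvbPin τ → Prop}
    {Good Bad : ℕ → ℕ → Set Ω}
    (hz : Tendsto z atTop (𝓝 0)) (hbad : ∀ᶠ m in atTop, ∀ᶠ n in atTop, (ℙ n (Bad m n)).toReal ≤ z m)
    (hgood : PvbOrd (fun m n => (ℙ n (Good m n)ᶜ).toReal))
    (fit : ∀ m n, ∀ ω ∈ Good m n, ω ∉ Bad m n → ∀ P ∈ rims n ω, ∀ s t, PvtvPair x R P (pins m n ω P) s t → ∃ p ∈ Pats m, Fits m p n ω P s t) :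
    PvbOrd (fun m n => (ℙ n (pvtvNoFit x R (rims n) (pins m n) (Pats m) (fun p => Fits m p n))).toReal) := by
  refine pvtv_ord_add hgood (pvtv_ord_of_tendsto hz) ?_
  filter_upwards [hbad] with m hm
  exact pvtv_cover_abs hP hm (fit m)

end abs

/-! ## §8 the field `cover` of `PvtsIn` (`Tr/Spine.lean`), verbatim -/

section field

variable {τ : Type} {Ω : Type} [MeasurableSpace Ω] {𝔐 : PvbMenu τ} {Pr : ℕ → Measure Ω} {rims : Ω → Set PvbRim} {x : ℂ} {R C1 c : ℝ}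

omit [MeasurableSpace Ω] in
/-- the event of the field `cover` is `pvtvNoFit` -/
theorem pvtv_noFit_eq {ι : Type} (pins : Ω → PvbRim → Set (PvbPin τ)) (Fit : Ω → PvbRim → PvbPin τ → PvbPin τ → ι → Prop) :
    {o | ¬ ∀ P ∈ rims o, ∀ s ∈ pins o P, ∀ t ∈ pins o P, s.idx < t.idx →
      (∀ k, s.idx ≤ k → k ≤ t.idx → ‖P.v k - x‖ ≤ 2 * R) → R / 3 ≤ ‖s.ctr - t.ctr‖ → ∃ π : ι, Fit o P s t π} =
    pvtvNoFit x R rims pins Set.univ (fun π o P s t => Fit o P s t π) := by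
  ext o
  constructor
  · intro h
    by_contra hc
    apply h
    intro P hP s hs t ht hlt harc hfar
    by_contra hn
    exact hc ⟨P, hP, s, t, ⟨hs, ht, hlt, harc, hfar⟩, fun π _ hπ => hn ⟨π, hπ⟩⟩
  · rintro ⟨P, hP, s, t, hpair, hnone⟩ h
    obtain ⟨π, hπ⟩ := h P hP s hpair.hs t hpair.ht hpair.lt hpair.arc hpair.far
    exact hnone π (Set.mem_univ _) hπ

/-- **TR20 in the shape of `PvtsIn.cover`**, rim form (`arm2` of `L9Arm`) -/
theorem pvtv_cover_field {Pat : ℕ → Type} {h r μ ρ σ : ℕ → ℝ} (hP : ∀ n, IsProbabilityMeasure (Pr n))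
    (arm2 : ∀ (y : ℂ) (s S : ℝ), ‖y - x‖ ≤ 2 * R → 0 < s → s ≤ S → S ≤ R → ∀ᶠ n in atTop,
      (Pr n {o | ∃ P ∈ rims o, PvbNearRet P y s S}).toReal ≤ C1 * (s / S) ^ (2 + c) * (S / R) ^ c)
    {pins : ℕ → ℕ → Ω → PvbRim → Set (PvbPin τ)} {Fit : ∀ m : ℕ, ℕ → Ω → PvbRim → PvbPin τ → PvbPin τ → Pat m → Prop}
    {Good : ℕ → ℕ → Set Ω}
    (hpar : ∀ᶠ m in atTop, PvbPar 𝔐 R (h m) (r m) (μ m)) (hρ : ∀ᶠ m in atTop, 0 < ρ m) (hρσ : ∀ᶠ m in atTop, 6 * ρ m ≤ σ m - h m)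
    (hσR : ∀ᶠ m in atTop, σ m - h m ≤ R)
    (hζ : Tendsto (fun m => pvtvZeta C1 c R (ρ m) (σ m - h m)) atTop (𝓝 0))
    (hbad : PvbOrd (fun m n => (Pr n (Good m n)ᶜ).toReal))
    (good : ∀ m n, ∀ o ∈ Good m n, ∀ P ∈ rims o, PvbRimGood 𝔐 x R (h m) (r m) (μ m) P (pins m n o P))
    (fit : ∀ m n, ∀ o ∈ Good m n, ∀ P ∈ rims o, ∀ s t, PvtvPair x R P (pins m n o P) s t → PvtvFitIn 𝔐 x R (h m) (ρ m) (σ m) P s t →
      ∃ π : Pat m, Fit m n o P s t π) :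
    PvbOrd (fun m n => (Pr n {o | ¬ ∀ P ∈ rims o, ∀ s ∈ pins m n o P, ∀ t ∈ pins m n o P, s.idx < t.idx →
      (∀ k, s.idx ≤ k → k ≤ t.idx → ‖P.v k - x‖ ≤ 2 * R) → R / 3 ≤ ‖s.ctr - t.ctr‖ → ∃ π : Pat m, Fit m n o P s t π}).toReal) := by
  have h1 := pvtv_cover_ord (ι := Pat) (rims := fun _ => rims) (Pats := fun _ => Set.univ) (Fits := fun m π n o P s t => Fit m n o P s t π)
    hP arm2 hpar hρ hρσ hσR hζ hbad good
    (fun m n o ho P hPr s t hp hf => by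
      obtain ⟨π, hπ⟩ := fit m n o ho P hPr s t hp hf
      exact ⟨π, Set.mem_univ _, hπ⟩)
  intro η hη
  filter_upwards [h1 η hη] with m hm
  filter_upwards [hm] with n hn
  rw [pvtv_noFit_eq]
  exact hn

/-- **TR20 in the shape of `PvtsIn.cover`**, abstract form (any bad event) -/
theorem pvtv_cover_field_abs {Pat : ℕ → Type} {z : ℕ → ℝ} (hP : ∀ n, IsProbabilityMeasure (Pr n))
    {pins : ℕ → ℕ → Ω → PvbRim → Set (PvbPin τ)} {Fit : ∀ m : ℕ, ℕ → Ω → PvbRim → PvbPin τ → PvbPin τ → Pat m → Prop}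
    {Good Bad : ℕ → ℕ → Set Ω}
    (hz : Tendsto z atTop (𝓝 0)) (hbad : ∀ᶠ m in atTop, ∀ᶠ n in atTop, (Pr n (Bad m n)).toReal ≤ z m)
    (hgood : PvbOrd (fun m n => (Pr n (Good m n)ᶜ).toReal))
    (fit : ∀ m n, ∀ o ∈ Good m n, o ∉ Bad m n → ∀ P ∈ rims o, ∀ s t, PvtvPair x R P (pins m n o P) s t → ∃ π : Pat m, Fit m n o P s t π) :
    PvbOrd (fun m n => (Pr n {o | ¬ ∀ P ∈ rims o, ∀ s ∈ pins m n o P, ∀ t ∈ pins m n o P, s.idx < t.idx →
      (∀ k, s.idx ≤ k → k ≤ t.idx → ‖P.v k - x‖ ≤ 2 * R) → R / 3 ≤ ‖s.ctr - t.ctr‖ → ∃ π : Pat m, Fit m n o P s t π}).toReal) := by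
  have h1 := pvtv_cover_abs_ord (x := x) (R := R) (ι := Pat) (rims := fun _ => rims) (Pats := fun _ => Set.univ) (Fits := fun m π n o P s t => Fit m n o P s t π)
    hP hz hbad hgood
    (fun m n o ho hb P hPr s t hp => by
      obtain ⟨π, hπ⟩ := fit m n o ho hb P hPr s t hp
      exact ⟨π, Set.mem_univ _, hπ⟩)
  intro η hη
  filter_upwards [h1 η hη] with m hm
  filter_upwards [hm] with n hn
  rw [pvtv_noFit_eq]
  exact hn

end field

/-! ## §9 POLYGONAL FORM = the hypotheses (NR), (OUT) of TR19 (`origin/helper118:notes/R289/W1_118.md` sec. 4) -/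

section poly

variable {τ : Type} {𝔐 : PvbMenu τ} {x : ℂ} {R h r μ ρ σ : ℝ} {P : PvbRim} {pins : Set (PvbPin τ)} {s t : PvbPin τ}

/-- the polygonal arc of `P` from the vertex number `i` to the vertex number `j` -/
def pvtvPoly (P : PvbRim) (i j : ℕ) : Set ℂ := ⋃ k ∈ Set.Ico i j, segment ℝ (P.v k) (P.v (k + 1))

theorem pvtv_seg_left {a b p : ℂ} (hp : p ∈ segment ℝ a b) : ‖p - a‖ ≤ ‖b - a‖ := by
  obtain ⟨u, v, hu, hv, huv, rfl⟩ := hp
  have e : u • a + v • b - a = v • (b - a) := by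
    have : u = 1 - v := by linarith
    rw [this, sub_smul, one_smul, smul_sub]
    ring
  rw [e, norm_smul, Real.norm_of_nonneg hv]
  exact mul_le_of_le_one_left (norm_nonneg _) (by linarith)

theorem pvtv_seg_right {a b p : ℂ} (hp : p ∈ segment ℝ a b) : ‖p - b‖ ≤ ‖b - a‖ := by
  rw [segment_symm] at hp
  rw [norm_sub_rev b a]
  exact pvtv_seg_left hp

theorem pvtv_mem_poly {i j : ℕ} {p : ℂ} : p ∈ pvtvPoly P i j ↔ ∃ k, i ≤ k ∧ k < j ∧ p ∈ segment ℝ (P.v k) (P.v (k + 1)) := by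
  simp only [pvtvPoly, Set.mem_iUnion, Set.mem_Ico, exists_prop, and_assoc]

theorem pvtv_vertex_mem_poly {i j k : ℕ} (h1 : i ≤ k) (h2 : k ≤ j) (hij : i < j) : P.v k ∈ pvtvPoly P i j := by
  rcases Nat.lt_or_ge k j with h | h
  · exact pvtv_mem_poly.2 ⟨k, h1, h, left_mem_segment _ _ _⟩
  · obtain rfl : k = j := le_antisymm h2 h
    obtain ⟨l, rfl⟩ : ∃ l, k = l + 1 := ⟨k - 1, by omega⟩
    exact pvtv_mem_poly.2 ⟨l, by omega, by omega, right_mem_segment _ _ _⟩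

theorem pvtv_poly_mono {i j i' j' : ℕ} (h1 : i' ≤ i) (h2 : j ≤ j') : pvtvPoly P i j ⊆ pvtvPoly P i' j' := by
  intro p hp
  obtain ⟨k, hk1, hk2, hk⟩ := pvtv_mem_poly.1 hp
  exact pvtv_mem_poly.2 ⟨k, h1.trans hk1, lt_of_lt_of_le hk2 h2, hk⟩

/-- (NR), backward continuation -/
theorem pvtv_poly_back (H : PvtvSep P s t ρ σ) {i : ℕ} (mesh : ∀ k, i ≤ k → k < t.idx → ‖P.v (k + 1) - P.v k‖ ≤ μ) {p q : ℂ}
    (hp : p ∈ pvtvPoly P s.idx t.idx) (hq : q ∈ pvtvPoly P i s.idx) (hps : σ + μ < ‖p - s.ctr‖) : ρ - 2 * μ < ‖p - q‖ := by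
  obtain ⟨k, hk1, hk2, hk⟩ := pvtv_mem_poly.1 hp
  obtain ⟨k', hk1', hk2', hk'⟩ := pvtv_mem_poly.1 hq
  have h1 : ‖p - P.v k‖ ≤ μ := (pvtv_seg_left hk).trans (mesh k ((hk1'.trans hk2'.le).trans hk1) hk2)
  have h2 : ‖q - P.v k'‖ ≤ μ := (pvtv_seg_left hk').trans (mesh k' hk1' (lt_of_lt_of_le hk2' (hk1.trans hk2.le)))
  have h3 : σ < ‖P.v k - s.ctr‖ := by
    have := pvtv_tri p (P.v k) s.ctr
    linarith
  have h4 := H.back k k' hk1 hk2.le hk2' h3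
  have h5 := pvtv_tri (P.v k) p (P.v k')
  have h6 := pvtv_tri p q (P.v k')
  rw [norm_sub_rev (P.v k) p] at h5
  linarith

/-- (NR), forward continuation -/
theorem pvtv_poly_fwd (H : PvtvSep P s t ρ σ) {j : ℕ} (hj : j ≤ P.len) (mesh : ∀ k, s.idx ≤ k → k < j → ‖P.v (k + 1) - P.v k‖ ≤ μ) {p q : ℂ}
    (hp : p ∈ pvtvPoly P s.idx t.idx) (hq : q ∈ pvtvPoly P t.idx j) (hpt : σ + μ < ‖p - t.ctr‖) : ρ - 2 * μ < ‖p - q‖ := by
  obtain ⟨k, hk1, hk2, hk⟩ := pvtv_mem_poly.1 hp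
  obtain ⟨k', hk1', hk2', hk'⟩ := pvtv_mem_poly.1 hq
  have h1 : ‖p - P.v k‖ ≤ μ := (pvtv_seg_left hk).trans (mesh k hk1 (lt_of_lt_of_le hk2 (hk1'.trans hk2'.le)))
  have h2 : ‖q - P.v (k' + 1)‖ ≤ μ := (pvtv_seg_right hk').trans (mesh k' ((hk1.trans hk2.le).trans hk1') hk2')
  have h3 : σ < ‖P.v k - t.ctr‖ := by
    have := pvtv_tri p (P.v k) t.ctr
    linarith
  have h4 := H.fwd k (k' + 1) hk1 hk2.le (by omega) (by omega) h3
  have h5 := pvtv_tri (P.v k) p (P.v (k' + 1))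
  have h6 := pvtv_tri p q (P.v (k' + 1))
  rw [norm_sub_rev (P.v k) p] at h5
  linarith

/-- **the polygonal input of TR19**: `γ = pvtvPoly P (idx s) (idx t)`, `γ⁻ = pvtvPoly P kb (idx s)`, `γ⁺ = pvtvPoly P (idx t) kf` -/
structure PvtvPolyIn (𝔐 : PvbMenu τ) (x : ℂ) (R h μ ρ σ : ℝ) (P : PvbRim) (s t : PvbPin τ) (kb kf : ℕ) : Prop where
  kb_lt : kb < s.idx
  lt_kf : t.idx < kf
  kf_le : kf ≤ P.len
  /-- (OUT) -/
  out_b : 4 * R ≤ ‖P.v kb - x‖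
  out_f : 4 * R ≤ ‖P.v kf - x‖
  in_b : ∀ k, kb < k → k ≤ s.idx → ‖P.v k - x‖ < 4 * R
  in_f : ∀ k, t.idx ≤ k → k < kf → ‖P.v k - x‖ < 4 * R
  mesh : ∀ k, kb ≤ k → k < kf → ‖P.v (k + 1) - P.v k‖ ≤ μ
  /-- (NR) -/
  nr_b : ∀ p ∈ pvtvPoly P s.idx t.idx, ∀ q ∈ pvtvPoly P kb s.idx, σ + μ < ‖p - s.ctr‖ → ρ - 2 * μ < ‖p - q‖
  nr_f : ∀ p ∈ pvtvPoly P s.idx t.idx, ∀ q ∈ pvtvPoly P t.idx kf, σ + μ < ‖p - t.ctr‖ → ρ - 2 * μ < ‖p - q‖
  /-- the continuations miss the disc of the other pin -/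
  off_s : ∀ q ∈ pvtvPoly P t.idx kf, 𝔐.a3 s.typ * h - μ ≤ ‖q - s.ctr‖
  off_t : ∀ q ∈ pvtvPoly P kb s.idx, 𝔐.a3 t.typ * h - μ ≤ ‖q - t.ctr‖

theorem pvtv_polyIn (hgood : PvbRimGood 𝔐 x R h r μ P pins) (hR : 0 < R) (hpair : PvtvPair x R P pins s t) (H : PvtvFitIn 𝔐 x R h ρ σ P s t) :
    ∃ kb kf, PvtvPolyIn 𝔐 x R h μ ρ σ P s t kb kf := by
  have htl : t.idx ≤ P.len := (hgood.pin t hpair.ht).idx_lt.le
  -- first far vertex after `t`, last far vertex before `s`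
  obtain ⟨kf, hf1, hf2, hf3, hf4⟩ := pvb_first (p := fun k => 4 * R ≤ ‖P.v k - x‖) htl H.reach_f
  obtain ⟨kb, -, hb2, hb3, hb4⟩ := pvb_last (p := fun k => 4 * R ≤ ‖P.v k - x‖) (Nat.zero_le s.idx) H.reach_b
  have hs2 : ‖P.v s.idx - x‖ ≤ 2 * R := hpair.arc _ le_rfl hpair.lt.le
  have ht2 : ‖P.v t.idx - x‖ ≤ 2 * R := hpair.arc _ hpair.lt.le le_rfl
  have hkb : kb < s.idx := by
    rcases Nat.lt_or_ge kb s.idx with h | h
    · exact h
    · obtain rfl : kb = s.idx := le_antisymm hb2 h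
      linarith
  have hkf : t.idx < kf := by
    rcases Nat.lt_or_ge t.idx kf with h | h
    · exact h
    · obtain rfl : kf = t.idx := le_antisymm h hf1
      linarith
  have hinb : ∀ k, kb < k → k ≤ s.idx → ‖P.v k - x‖ < 4 * R := fun k h1 h2 => not_le.1 (hb4 k h1 h2)
  have hinf : ∀ k, t.idx ≤ k → k < kf → ‖P.v k - x‖ < 4 * R := fun k h1 h2 => not_le.1 (hf4 k h1 h2)
  have hin : ∀ k, kb < k → k < kf → ‖P.v k - x‖ < 4 * R := by
    intro k h1 h2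
    rcases Nat.lt_or_ge s.idx k with h | h
    · rcases Nat.lt_or_ge k t.idx with h' | h'
      · have := hpair.arc k h.le h'.le
        linarith
      · exact hinf k h' h2
    · exact hinb k h1 h
  have hmesh : ∀ k, kb ≤ k → k < kf → ‖P.v (k + 1) - P.v k‖ ≤ μ := by
    intro k h1 h2
    refine hgood.mesh_v k (lt_of_lt_of_le h2 hf2) ?_
    rcases Nat.lt_or_ge kb k with h | h
    · left
      have := hin k h h2
      linarith
    · right
      obtain rfl : k = kb := le_antisymm h h1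
      have h9 := hpair.lt
      have := hin (k + 1) (by omega) (by omega)
      linarith
  refine ⟨kb, kf, hkb, hkf, hf2, hb3, hf3, hinb, hinf, hmesh, ?_, ?_, ?_, ?_⟩
  · exact fun p hp q hq hps => pvtv_poly_back H.sep (fun k h1 h2 => hmesh k h1 (h2.trans hkf)) hp hq hps
  · exact fun p hp q hq hpt => pvtv_poly_fwd H.sep hf2 (fun k h1 h2 => hmesh k (hkb.le.trans h1) h2) hp hq hpt
  · intro q hq
    obtain ⟨k', h1, h2, hk'⟩ := pvtv_mem_poly.1 hq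
    have h3 := H.fwd_s k' h1 (h2.le.trans hf2)
    have h4 : ‖q - P.v k'‖ ≤ μ := (pvtv_seg_left hk').trans (hmesh k' ((hkb.le.trans hpair.lt.le).trans h1) h2)
    have h5 := pvtv_tri (P.v k') q s.ctr
    rw [norm_sub_rev (P.v k') q] at h5
    linarith
  · intro q hq
    obtain ⟨k', h1, h2, hk'⟩ := pvtv_mem_poly.1 hq
    have h3 := H.back_t k' h2.le
    have h4 : ‖q - P.v k'‖ ≤ μ := (pvtv_seg_left hk').trans (hmesh k' h1 (h2.trans (hpair.lt.trans hkf)))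
    have h5 := pvtv_tri (P.v k') q t.ctr
    rw [norm_sub_rev (P.v k') q] at h5
    linarith

end poly

/-! ## §10 GENERAL FORM: any index filter, any capacity -/

/-- what TR20 uses of a probability -/
structure PvtvCap {Ω : Type} (cap : Set Ω → ℝ) : Prop where
  mono : ∀ {A B : Set Ω}, A ⊆ B → cap A ≤ cap B
  union : ∀ A B : Set Ω, cap (A ∪ B) ≤ cap A + cap B
  empty : cap ∅ = 0

theorem pvtv_cap_measure {Ω : Type} [MeasurableSpace Ω] (μ : Measure Ω) [IsFiniteMeasure μ] : PvtvCap (fun A => (μ A).toReal) where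
  mono := fun h => ENNReal.toReal_mono (measure_ne_top _ _) (measure_mono h)
  union := fun A B => by
    rw [← ENNReal.toReal_add (measure_ne_top _ _) (measure_ne_top _ _)]
    exact ENNReal.toReal_mono (ENNReal.add_ne_top.2 ⟨measure_ne_top _ _, measure_ne_top _ _⟩) (measure_union_le _ _)
  empty := by simp

theorem pvtv_cap_up {Ω : Type} (U : PvUp Ω) : PvtvCap (fun A => (U.P A).toReal) where
  mono := fun h => ENNReal.toReal_mono (U.P_ne_top _) (U.P_mono h)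
  union := fun A B => by
    rw [← ENNReal.toReal_add (U.P_ne_top _) (U.P_ne_top _)]
    exact ENNReal.toReal_mono (ENNReal.add_ne_top.2 ⟨U.P_ne_top _, U.P_ne_top _⟩) (U.P_union_le _ _)
  empty := by simp [U.P_empty]

theorem PvtvCap.nonneg {Ω : Type} {cap : Set Ω → ℝ} (h : PvtvCap cap) (A : Set Ω) : 0 ≤ cap A := by
  rw [← h.empty]
  exact h.mono (Set.empty_subset _)

theorem PvtvCap.biUnion {Ω : Type} {cap : Set Ω → ℝ} (h : PvtvCap cap) {ι : Type} (S : Finset ι) (A : ι → Set Ω) :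
    cap (⋃ i ∈ S, A i) ≤ ∑ i ∈ S, cap (A i) := by
  classical
  induction S using Finset.induction_on with
  | empty => simp [h.empty]
  | insert a s ha ih =>
    rw [Finset.set_biUnion_insert, Finset.sum_insert ha]
    exact (h.union _ _).trans (add_le_add le_rfl ih)

/-- ordered limit: first along `l` at fixed level `m`, then `m → ∞`.      `PvbOrd = PvtvOrd atTop`, `PvhbOrd = PvtvOrd (𝓝[>] 0)`, both by `Iff.rfl` -/
def PvtvOrd {J : Type} (l : Filter J) (p : ℕ → J → ℝ) : Prop := ∀ η : ℝ, 0 < η → ∀ᶠ m in atTop, ∀ᶠ j in l, p m j ≤ η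

theorem pvtv_ord_iff_pvb (p : ℕ → ℕ → ℝ) : PvtvOrd atTop p ↔ PvbOrd p := Iff.rfl

section gen

variable {τ : Type} {Ω J : Type} {l : Filter J} {cap : J → Set Ω → ℝ} {𝔐 : PvbMenu τ} {x : ℂ} {R C1 c : ℝ}

theorem pvtv_ord_add_gen {p q u : ℕ → J → ℝ} (hp : PvtvOrd l p) (hq : PvtvOrd l q) (hu : ∀ᶠ m in atTop, ∀ᶠ j in l, u m j ≤ p m j + q m j) : PvtvOrd l u := by
  intro η hη
  filter_upwards [hp (η / 2) (by positivity), hq (η / 2) (by positivity), hu] with m h1 h2 h3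
  filter_upwards [h1, h2, h3] with n g1 g2 g3
  linarith

theorem pvtv_ord_of_tendsto_gen {z : ℕ → ℝ} (hz : Tendsto z atTop (𝓝 0)) : PvtvOrd l (fun m _ => z m) := by
  intro η hη
  filter_upwards [hz.eventually (ge_mem_nhds hη)] with m hm
  exact Eventually.of_forall fun _ => hm

/-- **UNION**, general -/
theorem pvtv_union_gen [l.NeBot] (hcap : ∀ j, PvtvCap (cap j)) (Ev : J → ℂ → ℝ → ℝ → Set Ω) {A s S p : ℝ}
    (shift : ∀ j w y, ‖w - y‖ ≤ 2 * s → Ev j w s S ⊆ Ev j y (3 * s) (S / 2))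
    (arm : ∀ y, ‖y - x‖ ≤ 2 * A → ∀ᶠ j in l, cap j (Ev j y (3 * s) (S / 2)) ≤ p)
    (hs : 0 < s) (hsA : s ≤ A) :
    ∀ᶠ j in l, cap j {ω | ∃ w, ‖w - x‖ ≤ 2 * A ∧ ω ∈ Ev j w s S} ≤ 49 * (A / s) ^ 2 * p := by
  have hA : 0 < A := by linarith
  have h1 : ∀ y ∈ pvtvNet x A s, ∀ᶠ j in l, cap j (Ev j y (3 * s) (S / 2)) ≤ p := fun y hy => arm y (pvtv_net_in hy)
  have hp0 : 0 ≤ p := by
    obtain ⟨j, hj⟩ := (arm x (by simpa using hA.le)).exists
    exact ((hcap j).nonneg _).trans hj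
  filter_upwards [(Filter.eventually_all_finset _).2 h1] with j hj
  have hsub : {ω | ∃ w, ‖w - x‖ ≤ 2 * A ∧ ω ∈ Ev j w s S} ⊆ ⋃ y ∈ pvtvNet x A s, Ev j y (3 * s) (S / 2) := by
    rintro ω ⟨w, hw, hω⟩
    obtain ⟨y, hy, hwy⟩ := pvtv_net_cov hs hsA hw
    exact Set.mem_biUnion hy (shift j w y hwy hω)
  calc _ ≤ cap j (⋃ y ∈ pvtvNet x A s, Ev j y (3 * s) (S / 2)) := (hcap j).mono hsub
    _ ≤ ∑ y ∈ pvtvNet x A s, cap j (Ev j y (3 * s) (S / 2)) := (hcap j).biUnion _ _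
    _ ≤ ∑ _y ∈ pvtvNet x A s, p := Finset.sum_le_sum hj
    _ = ((pvtvNet x A s).card : ℝ) * p := by rw [Finset.sum_const, nsmul_eq_mul]
    _ ≤ 49 * (A / s) ^ 2 * p := mul_le_mul_of_nonneg_right (pvtv_net_card hs hsA) hp0

/-- **UNION**, general, for the near returns of rims (`arm2`) -/
theorem pvtv_union_rim_gen [l.NeBot] (hcap : ∀ j, PvtvCap (cap j)) {rims : J → Ω → Set PvbRim}
    (arm2 : ∀ (y : ℂ) (s S : ℝ), ‖y - x‖ ≤ 2 * R → 0 < s → s ≤ S → S ≤ R → ∀ᶠ j in l,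
      cap j {ω | ∃ P ∈ rims j ω, PvbNearRet P y s S} ≤ C1 * (s / S) ^ (2 + c) * (S / R) ^ c)
    {s S : ℝ} (hs : 0 < s) (hsS : 6 * s ≤ S) (hSR : S ≤ R) :
    ∀ᶠ j in l, cap j {ω | ∃ P ∈ rims j ω, ∃ w, ‖w - x‖ ≤ 2 * R ∧ PvbNearRet P w s S} ≤ pvtvZeta C1 c R s S := by
  have h1 := pvtv_union_gen (x := x) (A := R) (s := s) (S := S) (p := C1 * (3 * s / (S / 2)) ^ (2 + c) * (S / 2 / R) ^ c) hcap
    (fun j y s S => {ω | ∃ P ∈ rims j ω, PvbNearRet P y s S})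
    (fun j w y hwy ω hω => by
      obtain ⟨P, hP, hnr⟩ := hω
      exact ⟨P, hP, pvtv_nr_mono (pvtv_nr_shift hnr hwy) (by linarith) (by linarith)⟩)
    (fun y hy => arm2 y (3 * s) (S / 2) hy (by positivity) (by linarith) (by linarith)) hs (by linarith)
  filter_upwards [h1] with j hj
  refine le_trans ((hcap j).mono ?_) hj
  rintro ω ⟨P, hP, w, hw, hnr⟩
  exact ⟨w, hw, P, hP, hnr⟩

/-- **COVER**, general, abstract bad event, fixed scales -/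
theorem pvtv_cover_abs_gen {ι : Type} {z : ℝ} (hcap : ∀ j, PvtvCap (cap j)) {rims : J → Ω → Set PvbRim}
    {pins : J → Ω → PvbRim → Set (PvbPin τ)} {Pats : Set ι} {Fits : ι → J → Ω → PvbRim → PvbPin τ → PvbPin τ → Prop} {Good Bad : J → Set Ω}
    (hbad : ∀ᶠ j in l, cap j (Bad j) ≤ z)
    (fit : ∀ j, ∀ ω ∈ Good j, ω ∉ Bad j → ∀ P ∈ rims j ω, ∀ s t, PvtvPair x R P (pins j ω P) s t → ∃ p ∈ Pats, Fits p j ω P s t) :
    ∀ᶠ j in l, cap j (pvtvNoFit x R (rims j) (pins j) Pats (fun p => Fits p j)) ≤ cap j (Good j)ᶜ + z := by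
  filter_upwards [hbad] with j hj
  have h1 : pvtvNoFit x R (rims j) (pins j) Pats (fun p => Fits p j) ⊆ (Good j)ᶜ ∪ Bad j := by
    rintro ω ⟨P, hPr, s, t, hpair, hnone⟩
    by_cases hg : ω ∈ Good j
    · right
      by_contra hc
      obtain ⟨p, hp, hf⟩ := fit j ω hg hc P hPr s t hpair
      exact hnone p hp hf
    · left; exact hg
  calc _ ≤ cap j ((Good j)ᶜ ∪ Bad j) := (hcap j).mono h1
    _ ≤ cap j (Good j)ᶜ + cap j (Bad j) := (hcap j).union _ _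
    _ ≤ _ := by linarith

/-- **the field `cover` of `PvhbLoc` / `PvtsIn`**, general, abstract bad event -/
theorem pvtv_cover_field_abs_gen {Pat : ℕ → Type} {z : ℕ → ℝ} (hcap : ∀ j, PvtvCap (cap j)) {rims : Ω → Set PvbRim}
    {pins : ℕ → J → Ω → PvbRim → Set (PvbPin τ)} {Fit : ∀ m : ℕ, J → Ω → PvbRim → PvbPin τ → PvbPin τ → Pat m → Prop}
    {Good Bad : ℕ → J → Set Ω}
    (hz : Tendsto z atTop (𝓝 0)) (hbad : ∀ᶠ m in atTop, ∀ᶠ j in l, cap j (Bad m j) ≤ z m)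
    (hgood : PvtvOrd l (fun m j => cap j (Good m j)ᶜ))
    (fit : ∀ m j, ∀ o ∈ Good m j, o ∉ Bad m j → ∀ P ∈ rims o, ∀ s t, PvtvPair x R P (pins m j o P) s t → ∃ π : Pat m, Fit m j o P s t π) :
    PvtvOrd l (fun m j => cap j {o | ¬ ∀ P ∈ rims o, ∀ s ∈ pins m j o P, ∀ t ∈ pins m j o P, s.idx < t.idx →
      (∀ k, s.idx ≤ k → k ≤ t.idx → ‖P.v k - x‖ ≤ 2 * R) → R / 3 ≤ ‖s.ctr - t.ctr‖ → ∃ π : Pat m, Fit m j o P s t π}) := by
  refine pvtv_ord_add_gen hgood (pvtv_ord_of_tendsto_gen hz) ?_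
  filter_upwards [hbad] with m hm
  have h1 := pvtv_cover_abs_gen (x := x) (R := R) (ι := Pat m) (rims := fun _ => rims) (pins := pins m) (Pats := Set.univ)
    (Fits := fun π j o P s t => Fit m j o P s t π) hcap hm
    (fun j o ho hb P hPr s t hp => by
      obtain ⟨π, hπ⟩ := fit m j o ho hb P hPr s t hp
      exact ⟨π, Set.mem_univ _, hπ⟩)
  filter_upwards [h1] with j hj
  rw [pvtv_noFit_eq]
  exact hj

/-- **the field `cover` of `PvhbLoc` / `PvtsIn`**, general, rim form: `arm2` + good rims + TR19 -/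
theorem pvtv_cover_field_gen [l.NeBot] {Pat : ℕ → Type} {h r μ ρ σ : ℕ → ℝ} (hcap : ∀ j, PvtvCap (cap j)) {rims : Ω → Set PvbRim}
    (arm2 : ∀ (y : ℂ) (s S : ℝ), ‖y - x‖ ≤ 2 * R → 0 < s → s ≤ S → S ≤ R → ∀ᶠ j in l,
      cap j {o | ∃ P ∈ rims o, PvbNearRet P y s S} ≤ C1 * (s / S) ^ (2 + c) * (S / R) ^ c)
    {pins : ℕ → J → Ω → PvbRim → Set (PvbPin τ)} {Fit : ∀ m : ℕ, J → Ω → PvbRim → PvbPin τ → PvbPin τ → Pat m → Prop}
    {Good : ℕ → J → Set Ω}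
    (hpar : ∀ᶠ m in atTop, PvbPar 𝔐 R (h m) (r m) (μ m)) (hρ : ∀ᶠ m in atTop, 0 < ρ m) (hρσ : ∀ᶠ m in atTop, 6 * ρ m ≤ σ m - h m)
    (hσR : ∀ᶠ m in atTop, σ m - h m ≤ R)
    (hζ : Tendsto (fun m => pvtvZeta C1 c R (ρ m) (σ m - h m)) atTop (𝓝 0))
    (hgood : PvtvOrd l (fun m j => cap j (Good m j)ᶜ))
    (good : ∀ m j, ∀ o ∈ Good m j, ∀ P ∈ rims o, PvbRimGood 𝔐 x R (h m) (r m) (μ m) P (pins m j o P))
    (fit : ∀ m j, ∀ o ∈ Good m j, ∀ P ∈ rims o, ∀ s t, PvtvPair x R P (pins m j o P) s t → PvtvFitIn 𝔐 x R (h m) (ρ m) (σ m) P s t →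
      ∃ π : Pat m, Fit m j o P s t π) :
    PvtvOrd l (fun m j => cap j {o | ¬ ∀ P ∈ rims o, ∀ s ∈ pins m j o P, ∀ t ∈ pins m j o P, s.idx < t.idx →
      (∀ k, s.idx ≤ k → k ≤ t.idx → ‖P.v k - x‖ ≤ 2 * R) → R / 3 ≤ ‖s.ctr - t.ctr‖ → ∃ π : Pat m, Fit m j o P s t π}) := by
  classical
  -- the levels at which the numerical conditions hold
  set OK : ℕ → Prop := fun m => PvbPar 𝔐 R (h m) (r m) (μ m) ∧ 0 < ρ m ∧ 6 * ρ m ≤ σ m - h m ∧ σ m - h m ≤ R with hOK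
  have hOKev : ∀ᶠ m in atTop, OK m := by
    filter_upwards [hpar, hρ, hρσ, hσR] with m h1 h2 h3 h4
    exact ⟨h1, h2, h3, h4⟩
  refine pvtv_cover_field_abs_gen (z := fun m => pvtvZeta C1 c R (ρ m) (σ m - h m)) (Good := fun m j => {o | OK m ∧ o ∈ Good m j})
    (Bad := fun m _ => {o | ∃ P ∈ rims o, ∃ w, ‖w - x‖ ≤ 2 * R ∧ PvbNearRet P w (ρ m) (σ m - h m)}) hcap hζ ?_ ?_ ?_
  · filter_upwards [hOKev] with m hm
    exact pvtv_union_rim_gen (rims := fun _ => rims) hcap arm2 hm.2.1 hm.2.2.1 hm.2.2.2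
  · intro η hη
    filter_upwards [hgood η hη, hOKev] with m hm hok
    filter_upwards [hm] with j hj
    refine le_trans ((hcap j).mono ?_) hj
    intro o ho hg
    exact ho ⟨hok, hg⟩
  · rintro m j o ⟨hok, ho⟩ hb P hP s t hpair
    have hno : ∀ w, ‖w - x‖ ≤ 2 * R → ¬ PvbNearRet P w (ρ m) (σ m - h m) := fun w hw hnr => hb ⟨P, hP, w, hw, hnr⟩
    have hσh : h m ≤ σ m := by
      have := hok.2.1
      have := hok.2.2.1
      linarith
    exact fit m j o ho P hP s t hpair (pvtv_fitIn (good m j o ho P hP) hok.1 hσh hno hpair)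

/-- **UNION**, general, near returns of rims, centres in the ball of radius `2A` (`arm2` asked there) -/
theorem pvtv_union_rim_genA [l.NeBot] (hcap : ∀ j, PvtvCap (cap j)) {rims : J → Ω → Set PvbRim} {A : ℝ}
    (arm2 : ∀ (y : ℂ) (s S : ℝ), ‖y - x‖ ≤ 2 * A → 0 < s → s ≤ S → S ≤ R → ∀ᶠ j in l,
      cap j {ω | ∃ P ∈ rims j ω, PvbNearRet P y s S} ≤ C1 * (s / S) ^ (2 + c) * (S / R) ^ c)
    {s S : ℝ} (hs : 0 < s) (hsS : 6 * s ≤ S) (hSR : S ≤ R) (hsA : s ≤ A) (hR : 0 < R) :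
    ∀ᶠ j in l, cap j {ω | ∃ P ∈ rims j ω, ∃ w, ‖w - x‖ ≤ 2 * A ∧ PvbNearRet P w s S} ≤ (A / R) ^ 2 * pvtvZeta C1 c R s S := by
  have h1 := pvtv_union_gen (x := x) (A := A) (s := s) (S := S) (p := C1 * (3 * s / (S / 2)) ^ (2 + c) * (S / 2 / R) ^ c) hcap
    (fun j y s S => {ω | ∃ P ∈ rims j ω, PvbNearRet P y s S})
    (fun j w y hwy ω hω => by
      obtain ⟨P, hP, hnr⟩ := hω
      exact ⟨P, hP, pvtv_nr_mono (pvtv_nr_shift hnr hwy) (by linarith) (by linarith)⟩)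
    (fun y hy => arm2 y (3 * s) (S / 2) hy (by positivity) (by linarith) (by linarith)) hs hsA
  filter_upwards [h1] with j hj
  have e : (A / R) ^ 2 * pvtvZeta C1 c R s S = 49 * (A / s) ^ 2 * (C1 * (3 * s / (S / 2)) ^ (2 + c) * (S / 2 / R) ^ c) := by
    rw [pvtvZeta]
    field_simp
  rw [e]
  refine le_trans ((hcap j).mono ?_) hj
  rintro ω ⟨P, hP, w, hw, hnr⟩
  exact ⟨w, hw, P, hP, hnr⟩

/-- **the field `cover`**, general, in the form "NO NEAR RETURN `(ρ, S)` AT ANY CENTRE OF `B(x,2A)` ⟹ every `(A1)` pair is fitted" (`fit` = PORT + FIT: `pvtp_nr_of_not` of `Tr/Port.lean` turns the hypothesis into `PvtpNR`) -/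
theorem pvtv_cover_field_nr [l.NeBot] {Pat : ℕ → Type} {ρ S : ℕ → ℝ} {A : ℝ} (hcap : ∀ j, PvtvCap (cap j)) {rims : Ω → Set PvbRim} (hR : 0 < R)
    (arm2 : ∀ (y : ℂ) (s S : ℝ), ‖y - x‖ ≤ 2 * A → 0 < s → s ≤ S → S ≤ R → ∀ᶠ j in l,
      cap j {o | ∃ P ∈ rims o, PvbNearRet P y s S} ≤ C1 * (s / S) ^ (2 + c) * (S / R) ^ c)
    {pins : ℕ → J → Ω → PvbRim → Set (PvbPin τ)} {Fit : ∀ m : ℕ, J → Ω → PvbRim → PvbPin τ → PvbPin τ → Pat m → Prop}
    {Good : ℕ → J → Set Ω}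
    (hρ : ∀ᶠ m in atTop, 0 < ρ m) (hρS : ∀ᶠ m in atTop, 6 * ρ m ≤ S m) (hSR : ∀ᶠ m in atTop, S m ≤ R) (hρA : ∀ᶠ m in atTop, ρ m ≤ A)
    (hζ : Tendsto (fun m => pvtvZeta C1 c R (ρ m) (S m)) atTop (𝓝 0))
    (hgood : PvtvOrd l (fun m j => cap j (Good m j)ᶜ))
    (fit : ∀ m j, ∀ o ∈ Good m j, ∀ P ∈ rims o, (∀ w, ‖w - x‖ ≤ 2 * A → ¬ PvbNearRet P w (ρ m) (S m)) →
      ∀ s t, PvtvPair x R P (pins m j o P) s t → ∃ π : Pat m, Fit m j o P s t π) :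
    PvtvOrd l (fun m j => cap j {o | ¬ ∀ P ∈ rims o, ∀ s ∈ pins m j o P, ∀ t ∈ pins m j o P, s.idx < t.idx →
      (∀ k, s.idx ≤ k → k ≤ t.idx → ‖P.v k - x‖ ≤ 2 * R) → R / 3 ≤ ‖s.ctr - t.ctr‖ → ∃ π : Pat m, Fit m j o P s t π}) := by
  refine pvtv_cover_field_abs_gen (z := fun m => (A / R) ^ 2 * pvtvZeta C1 c R (ρ m) (S m)) (Good := Good)
    (Bad := fun m _ => {o | ∃ P ∈ rims o, ∃ w, ‖w - x‖ ≤ 2 * A ∧ PvbNearRet P w (ρ m) (S m)}) hcap ?_ ?_ hgood ?_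
  · simpa using hζ.const_mul ((A / R) ^ 2)
  · filter_upwards [hρ, hρS, hSR, hρA] with m h1 h2 h3 h4
    exact pvtv_union_rim_genA (rims := fun _ => rims) hcap arm2 h1 h2 h3 h4 hR
  · intro m j o ho hb P hP s t hpair
    exact fit m j o ho P hP (fun w hw hnr => hb ⟨P, hP, w, hw, hnr⟩) s t hpair

end gen

/-! ## §11 tail against tail -/

section tails

variable {τ : Type} {x : ℂ} {R A h ρ S : ℝ} {P : PvbRim} {pins : Set (PvbPin τ)} {s t : PvbPin τ}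

/-- the forward continuation (from `t` on) and the backward continuation (up to `s`) are `ρ`-separated at the centres where near returns are excluded:
between the two vertices the rim passes BOTH pins, which are `R/3` apart -/
theorem pvtv_tails (hpair : PvtvPair x R P pins s t) (hs : ‖P.v s.idx - s.ctr‖ ≤ h) (ht : ‖P.v t.idx - t.ctr‖ ≤ h)
    (hS : S < R / 6 - h) (hρS : ρ ≤ S) (hno : ∀ w, ‖w - x‖ ≤ 2 * A → ¬ PvbNearRet P w ρ S)
    {k1 k2 : ℕ} (h1 : t.idx ≤ k1) (h1' : k1 ≤ P.len) (h2 : k2 ≤ s.idx) (hx : ‖P.v k1 - x‖ ≤ 2 * A) : ρ < ‖P.v k1 - P.v k2‖ := by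
  by_contra hc
  rw [not_lt] at hc
  have hρ : 0 ≤ ρ := (norm_nonneg _).trans hc
  have hfar := pvtv_pins_far hpair hs ht
  have htri := pvtv_tri (P.v s.idx) (P.v k1) (P.v t.idx)
  rw [norm_sub_rev (P.v k1) (P.v t.idx)] at htri
  have hlt := hpair.lt
  rcases le_or_gt ‖P.v s.idx - P.v k1‖ S with hA | hA
  · -- then `t` is the departure
    have hB : S < ‖P.v t.idx - P.v k1‖ := by linarith
    have hk : t.idx < k1 := by
      rcases Nat.eq_or_lt_of_le h1 with h | h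
      · rw [h] at hB
        simp only [sub_self, norm_zero] at hB
        linarith
      · exact h
    exact hno _ hx ⟨k2, t.idx, k1, by omega, hk, h1', by rw [norm_sub_rev]; exact hc, by simpa using hρ, hB⟩
  · have hk : k2 < s.idx := by
      rcases Nat.eq_or_lt_of_le h2 with h | h
      · rw [h, norm_sub_rev] at hc
        linarith
      · exact h
    exact hno _ hx ⟨k2, s.idx, k1, hk, by omega, h1', by rw [norm_sub_rev]; exact hc, by simpa using hρ, hA⟩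

end tails

end Claimed.Agent.R289
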