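-- KEEP
import Claimed.Agent.R289.Cr.Inst
import Claimed.Agent.R289.Tr.Cover

/-!
# Row 289 (S0537, Cardy for Poisson-Voronoi), THE WALL, integration layer LIM = ORDER OF LIMITS      (helper247, post of the editor 295; prefix `pvlm_`, `Pvlm`)

Blueprint: `origin/helper295:notes/R289/TR_295.md` sec. 0 + TR32, `origin/helper7:notes/R289/LM_7.md` sec. 0, sec. 3 SLACK (v), `origin/helper140:notes/R289/wall_140.md` F7, paper Convention 3.2 + first lines of S4, S6.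
MODEL FREE.      CONSUMER: `L9ExitTR c` (`R289/Cr/Inst.lean`, 161).      PRODUCERS: TR16 (pins), TR20 (cover), TR23/24, TR28, TR30, TR31, TR32 AT FIXED PARAMETERS.

WHAT THE WALL PROVES is a family of statements `limsup_{ε → 0} (..) ≤ ζ` at FIXED parameters `(i, j)`:  `i` = index of the pin scale `hs i ↓ 0`,  `j` = index of the refinement (`δ = δ(i,j)`, cell size; `j → ∞` = `δ → 0` at fixed `h`),
through values of `ε` along which finitely-valued data (the ADMITTED sets at the scales `h`, `h' = c₀ δ`) are constant and the bounded scalars `a^Q(ε,i,j)` converge.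
WHAT S6b CONSUMES is ONE subsequence `φ`, ONE sequence of levels `m ↦ (h_m, r_m, a_m)`, `a_m → a`, common to all bulk families, balls and tests, and the ordered limit `PvbOrd`.

* §1  `PvlmLs p b` (`limsup p ≤ b`), calculus, unions of events under UPPER probability (`PvUp`), `pvlm_ord` (`limsup_n p m n ≤ b m → 0` ⟹ `PvbOrd p`).
* §2  `pvlm_diag`: ONE subsequence for countably many bounded complex sequences and countably many finitely-valued sequences.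
* §3  `pvlm_choose`: the choice `j = J i` (`δ(h)`), uniform over the countable exhaustion `k` of the patches.
* §4  `pvlm_scales`: `r = h^(1-κ)`.
* §5  `PvlmArc` = REAL ARC with the affine term (TR30), linear algebra `Q, V ⟹ Q - b V`.
* §6  THE INTERFACE `PvlmGlob`, `PvlmStable`, `PvlmLoc`, `PvlmExit c`   and   `pvlm_exit : 0 < c → PvlmExit c → L9ExitTR c`.
* §7  THE SCALES OF RECORD `pvlmH m = 2^-m`, `pvlmR c m = h^(1-κ)`, `pvlmDel c m = h / N` (`≤ h^(4+3/c+m)`, super-polynomial: `pvlm_Del_beats_any`), chosen before the ball, the family, the constants: `pvlm_R_spec`, `pvlm_par`, `pvlm_Del_beats`, `pvlm_zeta_lim` (TR20).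
-/

set_option autoImplicit false

namespace Claimed.Agent.R289

open MeasureTheory Set Filter Topology
open scoped ENNReal

/-! ## 1. `limsup ≤ b` -/

/-- `limsup_n p n ≤ b` -/
def PvlmLs (p : ℕ → ℝ) (b : ℝ) : Prop := ∀ η : ℝ, 0 < η → ∀ᶠ n in atTop, p n ≤ b + η

theorem PvlmLs.mono {p q : ℕ → ℝ} {b b' : ℝ} (hq : PvlmLs q b) (h : ∀ᶠ n in atTop, p n ≤ q n) (hb : b ≤ b') : PvlmLs p b' := by
  intro η hη
  filter_upwards [hq η hη, h] with n h1 h2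
  linarith

theorem PvlmLs.add {p q : ℕ → ℝ} {b b' : ℝ} (hp : PvlmLs p b) (hq : PvlmLs q b') : PvlmLs (fun n => p n + q n) (b + b') := by
  intro η hη
  filter_upwards [hp (η / 2) (by positivity), hq (η / 2) (by positivity)] with n h1 h2
  linarith

theorem PvlmLs.sum {ι : Type} (S : Finset ι) {p : ι → ℕ → ℝ} {b : ι → ℝ} (h : ∀ i ∈ S, PvlmLs (p i) (b i)) :
    PvlmLs (fun n => ∑ i ∈ S, p i n) (∑ i ∈ S, b i) := by
  classical
  induction S using Finset.induction_on with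
  | empty =>
    intro η hη
    simp [hη.le]
  | insert a S ha ih =>
    simp only [Finset.sum_insert ha]
    exact (h a (Finset.mem_insert_self _ _)).add (ih fun i hi => h i (Finset.mem_insert_of_mem hi))

theorem PvlmLs.comp {p : ℕ → ℝ} {b : ℝ} (hp : PvlmLs p b) {φ : ℕ → ℕ} (hφ : Tendsto φ atTop atTop) : PvlmLs (fun n => p (φ n)) b :=
  fun η hη => hφ.eventually (hp η hη)

theorem PvlmLs.of_tendsto {p : ℕ → ℝ} {b : ℝ} (h : Tendsto p atTop (𝓝 b)) : PvlmLs p b := by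
  intro η hη
  exact (h.eventually (Iio_mem_nhds (show b < b + η by linarith))).mono fun n hn => le_of_lt hn

theorem PvlmLs.of_le {p : ℕ → ℝ} {b : ℝ} (h : ∀ᶠ n in atTop, p n ≤ b) : PvlmLs p b := by
  intro η hη
  filter_upwards [h] with n hn
  linarith

theorem PvlmLs.const_mul {p : ℕ → ℝ} {b : ℝ} (hp : PvlmLs p b) {C : ℝ} (hC : 0 ≤ C) : PvlmLs (fun n => C * p n) (C * b) := by
  intro η hη
  filter_upwards [hp (η / (C + 1)) (by positivity)] with n hn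
  have h1 : C * p n ≤ C * (b + η / (C + 1)) := mul_le_mul_of_nonneg_left hn hC
  have h2 : C * (η / (C + 1)) ≤ η := by
    rw [← mul_div_assoc, div_le_iff₀ (by positivity)]
    nlinarith
  linarith

/-- only the eventual behaviour matters: substitution of an eventually constant parameter (stabilised admitted sets) -/
theorem PvlmLs.subst {σ : Type} {s : ℕ → σ} {v : σ} (hs : ∀ᶠ n in atTop, s n = v) {p : σ → ℕ → ℝ} {b : ℝ} (h : PvlmLs (p v) b) :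
    PvlmLs (fun n => p (s n) n) b :=
  h.mono (hs.mono fun n hn => by rw [hn]) le_rfl

theorem pvlm_ls_zero {p : ℕ → ℝ} (h0 : ∀ n, 0 ≤ p n) : PvlmLs p 0 ↔ Tendsto p atTop (𝓝 0) := by
  constructor
  · intro h
    rw [Metric.tendsto_atTop]
    intro η hη
    obtain ⟨N, hN⟩ := eventually_atTop.1 (h (η / 2) (by positivity))
    refine ⟨N, fun n hn => ?_⟩
    rw [Real.dist_eq, sub_zero, abs_of_nonneg (h0 n)]
    have := hN n hn
    linarith
  · exact PvlmLs.of_tendsto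

/-- **`limsup_ε ≤ b m` at fixed parameters, `b m → 0`  ⟹  small in the ordered limit** -/
theorem pvlm_ord {p : ℕ → ℕ → ℝ} {b : ℕ → ℝ} (h : ∀ᶠ m in atTop, PvlmLs (p m) (b m)) (hb : Tendsto b atTop (𝓝 0)) : PvbOrd p := by
  intro η hη
  have h1 : ∀ᶠ m in atTop, b m < η / 2 := hb.eventually (Iio_mem_nhds (by positivity))
  filter_upwards [h, h1] with m hm hbm
  filter_upwards [hm (η / 2) (by positivity)] with n hn
  linarith

/-- **`limsup_ε = 0` at fixed parameters  ⟹  small in the ordered limit** -/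
theorem pvlm_ord_of_tendsto {p : ℕ → ℕ → ℝ} (h : ∀ᶠ m in atTop, Tendsto (p m) atTop (𝓝 0)) : PvbOrd p :=
  pvlm_ord (b := fun _ => 0) (h.mono fun _ hm => PvlmLs.of_tendsto hm) tendsto_const_nhds

theorem pvlm_ord_comp_left {p : ℕ → ℕ → ℝ} (hp : PvbOrd p) {ψ : ℕ → ℕ} (hψ : Tendsto ψ atTop atTop) : PvbOrd (fun m n => p (ψ m) n) :=
  fun η hη => hψ.eventually (hp η hη)

theorem pvlm_ord_comp_right {p : ℕ → ℕ → ℝ} (hp : PvbOrd p) {φ : ℕ → ℕ} (hφ : Tendsto φ atTop atTop) : PvbOrd (fun m n => p m (φ n)) :=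
  fun η hη => (hp η hη).mono fun _ hm => hφ.eventually hm

section meas

variable {Ω : Type} {Pr : ℕ → PvUp Ω}

/-- monotonicity of the UPPER probability -/
theorem pvlm_ls_subset {A B : ℕ → Set Ω} {b : ℝ} (hB : PvlmLs (fun n => ((Pr n).P (B n)).toReal) b)
    (h : ∀ᶠ n in atTop, A n ⊆ B n) : PvlmLs (fun n => ((Pr n).P (A n)).toReal) b :=
  hB.mono (h.mono fun n hn => ENNReal.toReal_mono (PvUp.P_ne_top _ _) ((Pr n).P_mono hn)) le_rfl

theorem pvlm_ls_union {A B : ℕ → Set Ω} {a b : ℝ} (hA : PvlmLs (fun n => ((Pr n).P (A n)).toReal) a)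
    (hB : PvlmLs (fun n => ((Pr n).P (B n)).toReal) b) : PvlmLs (fun n => ((Pr n).P (A n ∪ B n)).toReal) (a + b) := by
  refine (hA.add hB).mono (Eventually.of_forall fun n => ?_) le_rfl
  rw [← ENNReal.toReal_add (PvUp.P_ne_top _ _) (PvUp.P_ne_top _ _)]
  exact ENNReal.toReal_mono (ENNReal.add_ne_top.2 ⟨PvUp.P_ne_top _ _, PvUp.P_ne_top _ _⟩) ((Pr n).P_union_le _ _)

/-- **finite union over patterns** (their number may depend on the fixed parameters) -/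
theorem pvlm_ls_biUnion {ι : Type} (S : Finset ι) {A : ι → ℕ → Set Ω} {b : ι → ℝ}
    (h : ∀ i ∈ S, PvlmLs (fun n => ((Pr n).P (A i n)).toReal) (b i)) : PvlmLs (fun n => ((Pr n).P (⋃ i ∈ S, A i n)).toReal) (∑ i ∈ S, b i) := by
  refine (PvlmLs.sum S h).mono (Eventually.of_forall fun n => ?_) le_rfl
  rw [← ENNReal.toReal_sum fun i _ => PvUp.P_ne_top _ _]
  exact ENNReal.toReal_mono (ENNReal.sum_ne_top.2 fun i _ => PvUp.P_ne_top _ _) ((Pr n).P_biUnion_le S fun i => A i n)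

/-- finite union of events of probability `→ 0` -/
theorem pvlm_tendsto_biUnion {ι : Type} (S : Finset ι) {A : ι → ℕ → Set Ω}
    (h : ∀ i ∈ S, Tendsto (fun n => ((Pr n).P (A i n)).toReal) atTop (𝓝 0)) : Tendsto (fun n => ((Pr n).P (⋃ i ∈ S, A i n)).toReal) atTop (𝓝 0) := by
  rw [← pvlm_ls_zero fun n => ENNReal.toReal_nonneg]
  have := pvlm_ls_biUnion S (b := fun _ => 0) fun i hi => PvlmLs.of_tendsto (h i hi)
  simpa using this

end meas

/-! ## 2. ONE subsequence -/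

/-- diagonal subsequence for countably many eventually bounded complex sequences -/
theorem pvlm_diag_bdd {ι : Type} [Countable ι] (u : ι → ℕ → ℂ) (C : ι → ℝ) (hu : ∀ j, ∀ᶠ n in atTop, ‖u j n‖ ≤ C j) :
    ∃ φ : ℕ → ℕ, StrictMono φ ∧ ∀ j, ∃ l : ℂ, ‖l‖ ≤ C j ∧ Tendsto (fun n => u j (φ n)) atTop (𝓝 l) := by
  classical
  have hC : ∀ j, 0 ≤ C j := fun j => by
    obtain ⟨n, hn⟩ := (hu j).exists
    exact (norm_nonneg _).trans hn
  set v : ℕ → ι → ℂ := fun n j => if ‖u j n‖ ≤ C j then u j n else 0 with hv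
  have hK : IsCompact (Set.pi Set.univ fun j : ι => Metric.closedBall (0 : ℂ) (C j)) :=
    isCompact_univ_pi fun j => isCompact_closedBall _ _
  have hmem : ∀ n, v n ∈ Set.pi Set.univ fun j : ι => Metric.closedBall (0 : ℂ) (C j) := by
    intro n j _
    rw [mem_closedBall_zero_iff]
    simp only [hv]
    split_ifs with h
    · exact h
    · simpa using hC j
  obtain ⟨l, hl, φ, hφ, hlim⟩ := hK.tendsto_subseq hmem
  refine ⟨φ, hφ, fun j => ⟨l j, ?_, ?_⟩⟩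
  · simpa using hl j (Set.mem_univ _)
  · have h1 : Tendsto (fun n => v (φ n) j) atTop (𝓝 (l j)) := (tendsto_pi_nhds.1 hlim) j
    refine h1.congr' ?_
    filter_upwards [hφ.tendsto_atTop.eventually (hu j)] with n hn
    simp only [hv, if_pos hn]

/-- diagonal subsequence for countably many sequences with finitely many values: each of them becomes eventually constant -/
theorem pvlm_diag_fin {ι : Type} [Countable ι] {σ : Type} [Finite σ] (s : ι → ℕ → σ) :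
    ∃ φ : ℕ → ℕ, StrictMono φ ∧ ∀ j, ∃ v : σ, ∀ᶠ n in atTop, s j (φ n) = v := by
  letI : TopologicalSpace σ := ⊥
  haveI : DiscreteTopology σ := ⟨rfl⟩
  obtain ⟨l, φ, hφ, hlim⟩ := CompactSpace.tendsto_subseq (fun n (j : ι) => s j n)
  refine ⟨φ, hφ, fun j => ⟨l j, ?_⟩⟩
  have h1 : Tendsto (fun n => s j (φ n)) atTop (𝓝 (l j)) := (tendsto_pi_nhds.1 hlim) j
  rw [nhds_discrete, tendsto_pure] at h1
  exact h1

/-- **ONE subsequence**: the scalars converge, the finitely-valued data stabilise -/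
theorem pvlm_diag {ι : Type} [Countable ι] {σ : Type} [Finite σ] (u : ι → ℕ → ℂ) (C : ι → ℝ) (hu : ∀ j, ∀ᶠ n in atTop, ‖u j n‖ ≤ C j) (s : ι → ℕ → σ) :
    ∃ φ : ℕ → ℕ, StrictMono φ ∧ (∀ j, ∃ l : ℂ, ‖l‖ ≤ C j ∧ Tendsto (fun n => u j (φ n)) atTop (𝓝 l)) ∧ ∀ j, ∃ v : σ, ∀ᶠ n in atTop, s j (φ n) = v := by
  obtain ⟨φ1, h1, H1⟩ := pvlm_diag_bdd u C hu
  obtain ⟨φ2, h2, H2⟩ := pvlm_diag_fin fun j n => s j (φ1 n)
  refine ⟨φ1 ∘ φ2, h1.comp h2, fun j => ?_, H2⟩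
  obtain ⟨l, hl, hlim⟩ := H1 j
  exact ⟨l, hl, hlim.comp h2.tendsto_atTop⟩

/-- second extraction, in the level index: `a_m → a` -/
theorem pvlm_sub_level (l : ℕ → ℂ) (A : ℝ) (hl : ∀ i, ‖l i‖ ≤ A) : ∃ ψ : ℕ → ℕ, StrictMono ψ ∧ ∃ a : ℂ, ‖a‖ ≤ A ∧ Tendsto (fun m => l (ψ m)) atTop (𝓝 a) := by
  obtain ⟨a, ha, ψ, hψ, hlim⟩ := (isCompact_closedBall (0 : ℂ) A).tendsto_subseq (x := l) fun i => by simpa using hl i
  exact ⟨ψ, hψ, a, by simpa using ha, hlim⟩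

/-! ## 3. the choice `δ(h)` -/

/-- **the choice `j = J i`**: `k` = index of a countable exhaustion of the patches, `Q i j` = any further requirement which holds for large `j` -/
theorem pvlm_choose (ζ : ℕ → ℕ → ℕ → ℝ) (ζ0 : ℕ → ℕ → ℝ) (h : ∀ k i, PvlmLs (ζ k i) (ζ0 k i)) (Q : ℕ → ℕ → Prop) (hQ : ∀ i, ∀ᶠ j in atTop, Q i j) :
    ∃ J : ℕ → ℕ, ∀ i, Q i (J i) ∧ ∀ k ≤ i, ζ k i (J i) ≤ ζ0 k i + 1 / ((i : ℝ) + 1) := by
  have key : ∀ i, ∃ j, Q i j ∧ ∀ k ≤ i, ζ k i j ≤ ζ0 k i + 1 / ((i : ℝ) + 1) := by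
    intro i
    have h1 : ∀ᶠ j in atTop, ∀ k ∈ Finset.range (i + 1), ζ k i j ≤ ζ0 k i + 1 / ((i : ℝ) + 1) := by
      rw [Finset.eventually_all]
      intro k _
      exact h k i _ (by positivity)
    obtain ⟨j, hj1, hj2⟩ := ((hQ i).and h1).exists
    exact ⟨j, hj1, fun k hk => hj2 k (Finset.mem_range.2 (by omega))⟩
  choose J hJ using key
  exact ⟨J, hJ⟩

/-- the bound obtained after the choice tends to `0` -/
theorem pvlm_choose_lim {ζ0 : ℕ → ℝ} (h : Tendsto ζ0 atTop (𝓝 0)) (C : ℝ) : Tendsto (fun i : ℕ => C * (ζ0 i + 1 / ((i : ℝ) + 1))) atTop (𝓝 0) := by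
  have h1 : Tendsto (fun i : ℕ => 1 / ((i : ℝ) + 1)) atTop (𝓝 0) := tendsto_one_div_add_atTop_nhds_zero_nat
  have := (h.add h1).const_mul C
  simpa using this

/-! ## 4. scales -/

theorem pvlm_rpow_lim {h : ℕ → ℝ} (hl : Tendsto h atTop (𝓝 0)) {p : ℝ} (hp : 0 < p) : Tendsto (fun m => h m ^ p) atTop (𝓝 0) := by
  have := ((Real.continuous_rpow_const hp.le).tendsto 0).comp hl
  rw [Real.zero_rpow hp.ne'] at this
  exact this

/-- **`r = h^(1-κ)`, `0 < κ < min(1, c/2)`** has all the properties which `L9Glob` asks -/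
theorem pvlm_scales {h : ℕ → ℝ} (h0 : ∀ m, 0 < h m) (hl : Tendsto h atTop (𝓝 0)) {c κ : ℝ} (hκ : 0 < κ) (hκ1 : κ < 1) (hκc : κ < c / 2) (L : ℝ) :
    Tendsto (fun m => h m ^ (1 - κ)) atTop (𝓝 0) ∧ (∀ᶠ m in atTop, 4 * L * h m ≤ h m ^ (1 - κ)) ∧
      Tendsto (fun m => h m ^ (1 - κ) * h m ^ (-1 + c / 2)) atTop (𝓝 0) := by
  refine ⟨pvlm_rpow_lim hl (by linarith), ?_, ?_⟩
  · have h1 : Tendsto (fun m => 4 * L * h m ^ κ) atTop (𝓝 0) := by
      simpa using (pvlm_rpow_lim hl hκ).const_mul (4 * L)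
    filter_upwards [h1.eventually (Iio_mem_nhds (show (0 : ℝ) < 1 by norm_num))] with m hm
    have e : h m = h m ^ (1 - κ) * h m ^ κ := by
      rw [← Real.rpow_add (h0 m)]
      simp
    have hp : 0 < h m ^ (1 - κ) := Real.rpow_pos_of_pos (h0 m) _
    calc 4 * L * h m = h m ^ (1 - κ) * (4 * L * h m ^ κ) := by
          conv_lhs => rw [e]
          ring
      _ ≤ h m ^ (1 - κ) * 1 := mul_le_mul_of_nonneg_left (le_of_lt hm) hp.le
      _ = _ := mul_one _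
  · have e : (fun m => h m ^ (1 - κ) * h m ^ (-1 + c / 2)) = fun m => h m ^ (c / 2 - κ) := by
      funext m
      rw [← Real.rpow_add (h0 m)]
      congr 1
      ring
    rw [e]
    exact pvlm_rpow_lim hl (by linarith)

/-- `Err = h²` is admissible -/
theorem pvlm_err_lim {h r : ℕ → ℝ} (h0 : ∀ m, 0 < h m) (hl : Tendsto h atTop (𝓝 0)) (hr : Tendsto r atTop (𝓝 0)) {c : ℝ} (c0 : 0 < c) :
    Tendsto (fun m => r m * h m ^ 2 * h m ^ (-2 + c)) atTop (𝓝 0) := by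
  have e : (fun m => r m * h m ^ 2 * h m ^ (-2 + c)) = fun m => r m * h m ^ c := by
    funext m
    rw [mul_assoc, ← Real.rpow_natCast (h m) 2, ← Real.rpow_add (h0 m)]
    congr 2
    push_cast
    ring
  rw [e]
  simpa using hr.mul (pvlm_rpow_lim hl c0)

/-! ## 5. REAL ARC with the affine term; linear algebra -/

section arc

variable {τ : Type} (𝔐 : PvbMenu τ)

theorem pvlm_arcI_sub_mul (h : ℝ) (P : PvbRim) (y y' : ℕ → ℂ) (b : ℂ) (s t : PvbPin τ) :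
    pvbArcI 𝔐 h P (fun k => y k - b * y' k) s t = pvbArcI 𝔐 h P y s t - b * pvbArcI 𝔐 h P y' s t := by
  unfold pvbArcI
  simp only [Finset.sum_sub_distrib, ← Finset.mul_sum]
  ring

/-- **REAL ARC, form of TR30**: `I_y(P;s,t) = α (z_t - z_s) + β(s) + Ψ(z_t, type_t) ± u` for the pins of (A1) -/
def PvlmArc (x : ℂ) (R h : ℝ) (P : PvbRim) (pins : Set (PvbPin τ)) (y : ℕ → ℂ) (α : ℂ) (β : PvbPin τ → ℂ) (Ψ : ℂ → τ → ℂ) (u : ℝ) : Prop :=
  ∀ s ∈ pins, ∀ t ∈ pins, s.idx < t.idx → (∀ k, s.idx ≤ k → k ≤ t.idx → ‖P.v k - x‖ ≤ 2 * R) → R / 3 ≤ ‖s.ctr - t.ctr‖ →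
    ‖pvbArcI 𝔐 h P y s t - α * (t.ctr - s.ctr) - β s - Ψ t.ctr t.typ‖ ≤ u

theorem pvlm_arc_empty (x : ℂ) (R h : ℝ) (P : PvbRim) (y : ℕ → ℂ) (α : ℂ) (β : PvbPin τ → ℂ) (Ψ : ℂ → τ → ℂ) (u : ℝ) :
    PvlmArc 𝔐 x R h P ∅ y α β Ψ u := fun _ hs => absurd hs (Set.notMem_empty _)

variable {𝔐}

theorem PvlmArc.mono {x : ℂ} {R h : ℝ} {P : PvbRim} {pins : Set (PvbPin τ)} {y : ℕ → ℂ} {α : ℂ} {β : PvbPin τ → ℂ} {Ψ : ℂ → τ → ℂ} {u u' : ℝ}
    (H : PvlmArc 𝔐 x R h P pins y α β Ψ u) (hu : u ≤ u') : PvlmArc 𝔐 x R h P pins y α β Ψ u' :=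
  fun s hs t ht h1 h2 h3 => (H s hs t ht h1 h2 h3).trans hu

/-- **`Q`, `V` ⟹ `Q - b V`**: the affine terms cancel up to `|α_Q - b α_V| (4R + 2h)` -/
theorem pvlm_arc_comb {x : ℂ} {R h : ℝ} {P : PvbRim} {pins : Set (PvbPin τ)} {y y' : ℕ → ℂ} {α α' b : ℂ} {β β' : PvbPin τ → ℂ} {Ψ Ψ' : ℂ → τ → ℂ} {u u' : ℝ}
    (hpin : ∀ s ∈ pins, PvbIsPin 𝔐 h P s) (H : PvlmArc 𝔐 x R h P pins y α β Ψ u) (H' : PvlmArc 𝔐 x R h P pins y' α' β' Ψ' u') :
    PvbRealArc 𝔐 x R h P pins (fun k => y k - b * y' k) (fun s => β s - b * β' s) (fun g t => Ψ g t - b * Ψ' g t)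
      (u + ‖b‖ * u' + ‖α - b * α'‖ * (4 * R + 2 * h)) := by
  intro s hs t ht h1 h2 h3
  have a1 := H s hs t ht h1 h2 h3
  have a2 := H' s hs t ht h1 h2 h3
  have d1 : ‖t.ctr - s.ctr‖ ≤ 4 * R + 2 * h := by
    have n1 := (hpin s hs).near
    have n2 := (hpin t ht).near
    have m1 := h2 s.idx le_rfl h1.le
    have m2 := h2 t.idx h1.le le_rfl
    have e : t.ctr - s.ctr = -(P.v t.idx - t.ctr) + (P.v t.idx - x) - (P.v s.idx - x) + (P.v s.idx - s.ctr) := by ring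
    rw [e]
    have t1 := norm_add_le (-(P.v t.idx - t.ctr) + (P.v t.idx - x) - (P.v s.idx - x)) (P.v s.idx - s.ctr)
    have t2 := norm_sub_le (-(P.v t.idx - t.ctr) + (P.v t.idx - x)) (P.v s.idx - x)
    have t3 := norm_add_le (-(P.v t.idx - t.ctr)) (P.v t.idx - x)
    rw [norm_neg] at t3
    linarith
  rw [pvlm_arcI_sub_mul]
  have e : pvbArcI 𝔐 h P y s t - b * pvbArcI 𝔐 h P y' s t - (β s - b * β' s) - (Ψ t.ctr t.typ - b * Ψ' t.ctr t.typ)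
      = (pvbArcI 𝔐 h P y s t - α * (t.ctr - s.ctr) - β s - Ψ t.ctr t.typ)
        - b * (pvbArcI 𝔐 h P y' s t - α' * (t.ctr - s.ctr) - β' s - Ψ' t.ctr t.typ) + (α - b * α') * (t.ctr - s.ctr) := by ring
  rw [e]
  have t1 := norm_add_le ((pvbArcI 𝔐 h P y s t - α * (t.ctr - s.ctr) - β s - Ψ t.ctr t.typ)
        - b * (pvbArcI 𝔐 h P y' s t - α' * (t.ctr - s.ctr) - β' s - Ψ' t.ctr t.typ)) ((α - b * α') * (t.ctr - s.ctr))
  have t2 := norm_sub_le (pvbArcI 𝔐 h P y s t - α * (t.ctr - s.ctr) - β s - Ψ t.ctr t.typ)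
        (b * (pvbArcI 𝔐 h P y' s t - α' * (t.ctr - s.ctr) - β' s - Ψ' t.ctr t.typ))
  rw [norm_mul] at t1 t2
  have t3 : ‖b‖ * ‖pvbArcI 𝔐 h P y' s t - α' * (t.ctr - s.ctr) - β' s - Ψ' t.ctr t.typ‖ ≤ ‖b‖ * u' := mul_le_mul_of_nonneg_left a2 (norm_nonneg _)
  have t4 : ‖α - b * α'‖ * ‖t.ctr - s.ctr‖ ≤ ‖α - b * α'‖ * (4 * R + 2 * h) := mul_le_mul_of_nonneg_left d1 (norm_nonneg _)
  linarith

theorem pvlm_realArc_mono {x : ℂ} {R h : ℝ} {P : PvbRim} {pins : Set (PvbPin τ)} {y : ℕ → ℂ} {β : PvbPin τ → ℂ} {Ψ : ℂ → τ → ℂ} {u u' : ℝ}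
    (H : PvbRealArc 𝔐 x R h P pins y β Ψ u) (hu : u ≤ u') : PvbRealArc 𝔐 x R h P pins y β Ψ u' :=
  fun s hs t ht h1 h2 h3 => (H s hs t ht h1 h2 h3).trans hu

end arc

/-! ## 6. THE INTERFACE -/

/-- the field `X` of a rim: `false = Q`, `true = V` (convention of `PvbIn.W`) -/
def pvlmFld (P : PvbRim) (X : Bool) : ℕ → ℂ := bif X then P.xV else P.xQ

/-- **GLOBAL DATA OF THE WALL AT ALL PARAMETERS** (full plane; common to all bulk families, balls, tests).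
`i` = index of the pin scale, `j` = index of the refinement (`δ(i,j) → 0` as `j → ∞`), `ε` = microscopic scale, `k` = index of a countable exhaustion of the patches (e.g. `1/(k+1) ≤ R ≤ k+1`). -/
structure PvlmGlob (τ σ : Type) (c : ℝ) where
  𝔐 : PvbMenu τ
  /-- pin scales `h_i ↓ 0` and density scales `r_i` (`pvlm_scales`: `r = h^(1-κ)`) -/
  hs : ℕ → ℝ
  rs : ℕ → ℝ
  hs0 : ∀ i, 0 < hs i
  hs_lim : Tendsto hs atTop (𝓝 0)
  rs_lim : Tendsto rs atTop (𝓝 0)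
  Lh_r : ∀ᶠ i in atTop, 4 * 𝔐.L * hs i ≤ rs i
  lim2 : Tendsto (fun i => rs i * hs i ^ (-1 + c / 2)) atTop (𝓝 0)
  /-- the affine coefficients `a^X(ε,i,j)` (TR26/TR28: `α/δ`) -/
  a : Bool → ℝ → ℕ → ℕ → ℂ
  A : ℝ
  aQ_le : ∀ i j, ∀ᶠ ε in 𝓝[>] (0 : ℝ), ‖a false ε i j‖ ≤ A
  /-- finitely-valued data to be stabilised (admitted sets at the scales `h`, `h' = c₀ δ`, reference types ..) -/
  st : ℝ → ℕ → ℕ → σ
  /-- the bounds of the `limsup_ε`: `limsup_j ζ k i j ≤ ζ0 k i → 0` -/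
  ζ : ℕ → ℕ → ℕ → ℝ
  ζ0 : ℕ → ℕ → ℝ
  ζ_lim : ∀ k i, PvlmLs (ζ k i) (ζ0 k i)
  ζ0_lim : ∀ k, Tendsto (ζ0 k) atTop (𝓝 0)
  /-- threshold of the tolerances of REAL ARC (`0` in the route R3 of 295; `C √δ` in the N-form) -/
  u0 : ℕ → ℕ → ℝ
  u0_lim : ∀ i, Tendsto (u0 i) atTop (𝓝 0)

/-- the sequences `ε_n ↓ 0` through which the wall takes its limits -/
structure PvlmStable {τ σ : Type} {c : ℝ} (G : PvlmGlob τ σ c) (εs : ℕ → ℝ) : Prop where
  pos : ∀ n, 0 < εs n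
  lim : Tendsto εs atTop (𝓝 0)
  st_ev : ∀ i j, ∃ v : σ, ∀ᶠ n in atTop, G.st (εs n) i j = v
  aQ_lim : ∀ i j, ∃ l : ℂ, ‖l‖ ≤ G.A ∧ Tendsto (fun n => G.a false (εs n) i j) atTop (𝓝 l)

/-- **LOCAL STATEMENTS OF THE WALL AT FIXED PARAMETERS** `(i,j)`, for one family of rims and one ball: (P1)-(P3), REAL ARC for `Q` and for `V` with the affine term, L2 of the potentials -/
structure PvlmLoc {τ σ : Type} {c : ℝ} (G : PvlmGlob τ σ c) (εs : ℕ → ℝ) {Ω : Type} (Pr : ℕ → PvUp Ω) (rims : Ω → Set PvbRim) (x : ℂ) (R : ℝ) where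
  k : ℕ
  i0 : ℕ
  pins : ℕ → ℕ → ℕ → Ω → PvbRim → Set (PvbPin τ)
  β : Bool → ℕ → ℕ → ℕ → Ω → PvbRim → PvbPin τ → ℂ
  Ψ : Bool → ℕ → ℕ → ℕ → Ω → ℂ → τ → ℂ
  pin_bad : ∀ i j, i0 ≤ i → PvlmLs (fun n => ((Pr n).P {o | ¬ ∀ P ∈ rims o,
    (∀ s ∈ pins i j n o P, PvbIsPin G.𝔐 (G.hs i) P s ∧ ∃ p : ℤ × ℤ, s.ctr = l9Pt (G.hs i) p) ∧
    (∀ e e', e ≤ e' → e' ≤ P.len → (∀ q, e ≤ q → q ≤ e' → ‖P.v q - x‖ ≤ 2 * R) → G.rs i ≤ ‖P.v e' - P.v e‖ → ∃ s ∈ pins i j n o P, e ≤ s.idx ∧ s.idx ≤ e')}).toReal) (G.ζ k i j)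
  arc_bad : ∀ (X : Bool) (i j : ℕ) (u : ℝ), i0 ≤ i → G.u0 i j < u → PvlmLs (fun n => ((Pr n).P {o | ¬ ∀ P ∈ rims o,
    PvlmArc G.𝔐 x R (G.hs i) P (pins i j n o P) (pvlmFld P X) (G.a X (εs n) i j) (β X i j n o P) (Ψ X i j n o) u}).toReal) (G.ζ k i j)
  CΨ : ℝ
  Ψ_L2 : ∀ (X : Bool) (i j : ℕ) (p : ℤ × ℤ) (t : τ), i0 ≤ i → ‖l9Pt (G.hs i) p - x‖ ≤ 2 * R → ∀ᶠ n in atTop,
    (Pr n).E (fun o => ENNReal.ofReal (‖Ψ X i j n o (l9Pt (G.hs i) p) t‖ ^ 2)) ≤ ENNReal.ofReal (CΨ * G.hs i ^ 2)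

/-- **THE EXIT OF THE WALL AT FIXED PARAMETERS** -/
def PvlmExit (c : ℝ) : Prop :=
  ∃ (τ σ : Type) (_ : Fintype τ) (_ : Nonempty τ) (_ : Finite σ) (G : PvlmGlob τ σ c), ∀ εs : ℕ → ℝ, PvlmStable G εs →
    (∀ i j, Tendsto (fun n => G.a true (εs n) i j) atTop (𝓝 1)) ∧
    ∀ (X : Type) [Fintype X] (𝔅 : PvBulk X) (x : ℂ) (R : ℝ), 0 < R → Nonempty (PvlmLoc G εs (fun n => l9Up X (εs n)) (fun w => 𝔅.rims x R (l9Sm w)) x R)

/-- the choices: `J i` (= `δ(h_i)`), the limits `l i = lim_n a^Q(ε_n, i, J i)`, the levels `ψ m`, the scalar `ainf` -/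
structure PvlmSel {τ σ : Type} {c : ℝ} (G : PvlmGlob τ σ c) (εs : ℕ → ℝ) where
  J : ℕ → ℕ
  ψ : ℕ → ℕ
  ψ_mono : StrictMono ψ
  l : ℕ → ℂ
  l_le : ∀ i, ‖l i‖ ≤ G.A
  l_lim : ∀ i, Tendsto (fun n => G.a false (εs n) i (J i)) atTop (𝓝 (l i))
  ainf : ℂ
  a_lim : Tendsto (fun m => l (ψ m)) atTop (𝓝 ainf)
  ζ_le : ∀ i, ∀ k ≤ i, G.ζ k i (J i) ≤ G.ζ0 k i + 1 / ((i : ℝ) + 1)
  u0_lt : ∀ i, G.u0 i (J i) < G.hs i ^ 2 / (4 * (1 + G.A))

theorem pvlm_eqns_cite : True := by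
  have := @PvlmLs.eq_1; have := @PvlmArc.eq_1; have := @pvlmFld.eq_1; have := @PvlmExit.eq_1
  trivial

section sel

variable {τ σ : Type} {c : ℝ} {G : PvlmGlob τ σ c} {εs : ℕ → ℝ}

theorem PvlmStable.A_nonneg (H : PvlmStable G εs) : 0 ≤ G.A := by
  obtain ⟨l, hl, -⟩ := H.aQ_lim 0 0
  exact (norm_nonneg _).trans hl

/-- every sequence `ε_n ↓ 0` has a stable subsequence -/
theorem pvlm_stable_sub [Finite σ] (G : PvlmGlob τ σ c) (εs : ℕ → ℝ) (h0 : ∀ n, 0 < εs n) (hε : Tendsto εs atTop (𝓝 0)) :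
    ∃ φ : ℕ → ℕ, StrictMono φ ∧ PvlmStable G (fun n => εs (φ n)) := by
  have hε' : Tendsto εs atTop (𝓝[>] (0 : ℝ)) := tendsto_nhdsWithin_iff.2 ⟨hε, Eventually.of_forall h0⟩
  obtain ⟨φ, hφ, H1, H2⟩ := pvlm_diag (ι := ℕ × ℕ) (fun q n => G.a false (εs n) q.1 q.2) (fun _ => G.A)
    (fun q => hε'.eventually (G.aQ_le q.1 q.2)) (fun q n => G.st (εs n) q.1 q.2)
  exact ⟨φ, hφ, fun n => h0 _, hε.comp hφ.tendsto_atTop, fun i j => H2 (i, j), fun i j => H1 (i, j)⟩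

/-- the choices exist -/
theorem pvlm_sel (H : PvlmStable G εs) : Nonempty (PvlmSel G εs) := by
  have hA := H.A_nonneg
  obtain ⟨J, hJ⟩ := pvlm_choose G.ζ G.ζ0 G.ζ_lim (fun i j => G.u0 i j < G.hs i ^ 2 / (4 * (1 + G.A)))
    (fun i => (G.u0_lim i).eventually (Iio_mem_nhds (by have := G.hs0 i; positivity)))
  choose l hl hlim using fun i => H.aQ_lim i (J i)
  obtain ⟨ψ, hψ, a, -, ha⟩ := pvlm_sub_level l G.A hl
  exact ⟨⟨J, ψ, hψ, l, hl, hlim, a, ha, fun i => (hJ i).2, fun i => (hJ i).1⟩⟩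

/-- the global part of the exit -/
def PvlmSel.glob (S : PvlmSel G εs) : L9Glob τ c where
  𝔐 := G.𝔐
  h := fun m => G.hs (S.ψ m)
  r := fun m => G.rs (S.ψ m)
  a := fun m => S.l (S.ψ m)
  ainf := S.ainf
  h0 := fun m => G.hs0 _
  h_lim := G.hs_lim.comp S.ψ_mono.tendsto_atTop
  r_lim := G.rs_lim.comp S.ψ_mono.tendsto_atTop
  Lh_r := S.ψ_mono.tendsto_atTop.eventually G.Lh_r
  lim2 := G.lim2.comp S.ψ_mono.tendsto_atTop
  a_lim := S.a_lim

end sel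


/-- `L²` bound of a linear combination of two potentials -/
theorem pvlm_L2_comb {Ω : Type} (U : PvUp Ω) {p q : Ω → ℂ} {b : ℂ} {A C : ℝ} (hb : ‖b‖ ≤ A)
    (h1 : U.E (fun o => ENNReal.ofReal (‖p o‖ ^ 2)) ≤ ENNReal.ofReal C) (h2 : U.E (fun o => ENNReal.ofReal (‖q o‖ ^ 2)) ≤ ENNReal.ofReal C) :
    U.E (fun o => ENNReal.ofReal (‖p o - b * q o‖ ^ 2)) ≤ ENNReal.ofReal ((2 + 2 * A ^ 2) * |C|) := by
  have hA : 0 ≤ A := (norm_nonneg _).trans hb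
  have pt : ∀ o, ENNReal.ofReal (‖p o - b * q o‖ ^ 2) ≤ ENNReal.ofReal 2 * ENNReal.ofReal (‖p o‖ ^ 2) + ENNReal.ofReal (2 * A ^ 2) * ENNReal.ofReal (‖q o‖ ^ 2) := by
    intro o
    rw [← ENNReal.ofReal_mul (by norm_num), ← ENNReal.ofReal_mul (by positivity), ← ENNReal.ofReal_add (by positivity) (by positivity)]
    apply ENNReal.ofReal_le_ofReal
    have t1 : ‖p o - b * q o‖ ≤ ‖p o‖ + A * ‖q o‖ := by
      have := norm_sub_le (p o) (b * q o)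
      rw [norm_mul] at this
      have t2 : ‖b‖ * ‖q o‖ ≤ A * ‖q o‖ := mul_le_mul_of_nonneg_right hb (norm_nonneg _)
      linarith
    have t0 : 0 ≤ ‖p o - b * q o‖ := norm_nonneg _
    have t3 : ‖p o - b * q o‖ ^ 2 ≤ (‖p o‖ + A * ‖q o‖) ^ 2 := by gcongr
    nlinarith [sq_nonneg (‖p o‖ - A * ‖q o‖)]
  have hC : ENNReal.ofReal C ≤ ENNReal.ofReal |C| := ENNReal.ofReal_le_ofReal (le_abs_self C)
  calc U.E (fun o => ENNReal.ofReal (‖p o - b * q o‖ ^ 2))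
      ≤ U.E (fun o => ENNReal.ofReal 2 * ENNReal.ofReal (‖p o‖ ^ 2) + ENNReal.ofReal (2 * A ^ 2) * ENNReal.ofReal (‖q o‖ ^ 2)) := U.mono pt
    _ ≤ ENNReal.ofReal 2 * U.E (fun o => ENNReal.ofReal (‖p o‖ ^ 2)) + ENNReal.ofReal (2 * A ^ 2) * U.E (fun o => ENNReal.ofReal (‖q o‖ ^ 2)) :=
        (U.add_le _ _).trans (add_le_add (U.smul_le _ _ ENNReal.ofReal_ne_top) (U.smul_le _ _ ENNReal.ofReal_ne_top))
    _ ≤ ENNReal.ofReal 2 * ENNReal.ofReal |C| + ENNReal.ofReal (2 * A ^ 2) * ENNReal.ofReal |C| := by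
        gcongr
        · exact h1.trans hC
        · exact h2.trans hC
    _ = ENNReal.ofReal ((2 + 2 * A ^ 2) * |C|) := by
        rw [← ENNReal.ofReal_mul (by norm_num), ← ENNReal.ofReal_mul (by positivity), ← ENNReal.ofReal_add (by positivity) (by positivity)]
        congr 1
        ring

/-- **the local part of the exit** -/
theorem pvlm_loc {τ σ : Type} {c : ℝ} {G : PvlmGlob τ σ c} {εs : ℕ → ℝ} (c0 : 0 < c) (S : PvlmSel G εs)
    (hV : ∀ i j, Tendsto (fun n => G.a true (εs n) i j) atTop (𝓝 1))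
    {Ω : Type} {Pr : ℕ → PvUp Ω} {rims : Ω → Set PvbRim} {x : ℂ} {R : ℝ} (hR : 0 < R)
    (L : PvlmLoc G εs Pr rims x R) : Nonempty (L9Loc S.glob Pr rims x R) := by
  classical
  have hA : 0 ≤ G.A := (norm_nonneg _).trans (S.l_le 0)
  have hψ := S.ψ_mono.tendsto_atTop
  refine ⟨{
    Err := fun m => G.hs (S.ψ m) ^ 2
    Err0 := fun m => by positivity
    lim1 := pvlm_err_lim (h := fun m => G.hs (S.ψ m)) (r := fun m => G.rs (S.ψ m)) (fun m => G.hs0 _) (G.hs_lim.comp hψ) (G.rs_lim.comp hψ) c0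
    pins := fun m n => L.pins (S.ψ m) (S.J (S.ψ m)) n
    β := fun m n o P s => L.β false (S.ψ m) (S.J (S.ψ m)) n o P s - S.l (S.ψ m) * L.β true (S.ψ m) (S.J (S.ψ m)) n o P s
    Ψ := fun m n o g t => if L.i0 ≤ S.ψ m then L.Ψ false (S.ψ m) (S.J (S.ψ m)) n o g t - S.l (S.ψ m) * L.Ψ true (S.ψ m) (S.J (S.ψ m)) n o g t else 0
    good := ?_
    CΨ := (2 + 2 * G.A ^ 2) * |L.CΨ|
    Ψ_L2 := ?_ }⟩
  · -- good
    refine pvlm_ord (b := fun m => 3 * (G.ζ0 L.k (S.ψ m) + 1 / ((S.ψ m : ℝ) + 1))) ?_ ((pvlm_choose_lim (G.ζ0_lim L.k) 3).comp hψ)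
    filter_upwards [hψ.eventually (eventually_ge_atTop L.i0), hψ.eventually (eventually_ge_atTop L.k)] with m hm1 hm2
    set i := S.ψ m with hi
    set j := S.J i with hj
    set u : ℝ := G.hs i ^ 2 / (4 * (1 + G.A)) with hu
    have hh := G.hs0 i
    have b1 := L.pin_bad i j hm1
    have b2 := L.arc_bad false i j u hm1 (S.u0_lt i)
    have b3 := L.arc_bad true i j u hm1 (S.u0_lt i)
    have hζ := S.ζ_le i L.k hm2
    -- the affine terms cancel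
    have hlim : Tendsto (fun n => ‖G.a false (εs n) i j - S.l i * G.a true (εs n) i j‖ * (4 * R + 2 * G.hs i)) atTop (𝓝 0) := by
      have h1 : Tendsto (fun n => G.a false (εs n) i j - S.l i * G.a true (εs n) i j) atTop (𝓝 (S.l i - S.l i * 1)) :=
        (S.l_lim i).sub ((hV i j).const_mul _)
      have h2 := h1.norm.mul_const (4 * R + 2 * G.hs i)
      simpa using h2
    have hev : ∀ᶠ n in atTop, ‖G.a false (εs n) i j - S.l i * G.a true (εs n) i j‖ * (4 * R + 2 * G.hs i) < G.hs i ^ 2 / 2 :=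
      hlim.eventually (Iio_mem_nhds (by positivity))
    refine (pvlm_ls_subset (pvlm_ls_union b1 (pvlm_ls_union b2 b3)) ?_).mono (Eventually.of_forall fun _ => le_rfl) (by linarith)
    filter_upwards [hev] with n hn o ho
    by_contra hcon
    simp only [Set.mem_union, Set.mem_setOf_eq, not_or, not_not] at hcon
    obtain ⟨c1, c2, c3⟩ := hcon
    apply ho
    intro P hP
    refine ⟨(c1 P hP).1, (c1 P hP).2, ?_⟩
    have key := pvlm_arc_comb (b := S.l i) (fun s hs => ((c1 P hP).1 s hs).1) (c2 P hP) (c3 P hP)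
    have hle : u + ‖S.l i‖ * u + ‖G.a false (εs n) i j - S.l i * G.a true (εs n) i j‖ * (4 * R + 2 * G.hs i) ≤ G.hs i ^ 2 := by
      have hu0 : 0 ≤ u := by positivity
      have h1 : ‖S.l i‖ * u ≤ G.A * u := mul_le_mul_of_nonneg_right (S.l_le i) hu0
      have h2 : (1 + G.A) * u = G.hs i ^ 2 / 4 := by
        rw [hu]
        field_simp
      nlinarith
    have key2 := pvlm_realArc_mono key hle
    simp only [if_pos hm1]
    exact key2
  · intro m p t hp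
    by_cases hm : L.i0 ≤ S.ψ m
    · filter_upwards [L.Ψ_L2 false (S.ψ m) (S.J (S.ψ m)) p t hm hp, L.Ψ_L2 true (S.ψ m) (S.J (S.ψ m)) p t hm hp] with n h1 h2
      simp only [if_pos hm]
      have := pvlm_L2_comb (Pr n) (S.l_le (S.ψ m)) h1 h2
      refine this.trans (le_of_eq ?_)
      congr 1
      rw [abs_mul, abs_of_nonneg (sq_nonneg (G.hs (S.ψ m)))]
      show _ = (2 + 2 * G.A ^ 2) * |L.CΨ| * G.hs (S.ψ m) ^ 2
      ring
    · refine Eventually.of_forall fun n => ?_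
      simp only [if_neg hm]
      simp [PvUp.E_zero]

/-- **ORDER OF LIMITS: the wall at fixed parameters gives the exit consumed by CR.B** -/
theorem pvlm_exit {c : ℝ} (c0 : 0 < c) (H : PvlmExit c) : L9ExitTR c := by
  obtain ⟨τ, σ, i1, i2, i3, G, HG⟩ := H
  intro εs h0 hε
  obtain ⟨φ, hφ, hst⟩ := pvlm_stable_sub G εs h0 hε
  obtain ⟨S⟩ := pvlm_sel hst
  obtain ⟨hV, hL⟩ := HG _ hst
  refine ⟨φ, hφ, τ, i1, i2, S.glob, fun X _ 𝔅 x R hR => ?_⟩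
  obtain ⟨L⟩ := hL X 𝔅 x R hR
  exact pvlm_loc c0 S hV hR L

/-! ## 7. THE SCALES OF RECORD  (chosen BEFORE the ball, the bulk family, the constants of the arm events and the sequence `ε_n`) -/

/-- `h_m = 2^-m` -/
noncomputable def pvlmH (m : ℕ) : ℝ := (2 : ℝ)⁻¹ ^ m

/-- `κ = min(c/4, 1/2)` -/
noncomputable def pvlmKap (c : ℝ) : ℝ := min (c / 4) (1 / 2)

/-- `r_m = h_m^(1-κ)` -/
noncomputable def pvlmR (c : ℝ) (m : ℕ) : ℝ := pvlmH m ^ (1 - pvlmKap c)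

/-- the exponent `q = 3 + 3/c`:  `δ_m ≤ h_m^(1+q)` -/
noncomputable def pvlmQ (c : ℝ) : ℝ := 3 + 3 / c

/-- the number of cells per `h_m`:  `N_m ≥ h_m^-(q+m)`.      SUPER-POLYNOMIAL (295, 10:00Z): the wall is stated for EVERY parameter `c > 0`, while the exponent `c₁` of the arm bounds is chosen by ARM;
`δ_m ≤ h_m^(1+q+m)` beats `h_m^-p` after EVERY exponent `c₁ > 0` (`pvlm_Del_beats_any`) -/
noncomputable def pvlmN (c : ℝ) (m : ℕ) : ℕ := ⌈pvlmH m ^ (-(pvlmQ c + m))⌉₊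

/-- `δ_m = h_m / N_m` -/
noncomputable def pvlmDel (c : ℝ) (m : ℕ) : ℝ := pvlmH m / pvlmN c m

theorem pvlm_eqns_cite2 : True := by
  have := @pvlmH.eq_1; have := @pvlmKap.eq_1; have := @pvlmR.eq_1; have := @pvlmQ.eq_1; have := @pvlmN.eq_1; have := @pvlmDel.eq_1
  trivial

theorem pvlm_H_pos (m : ℕ) : 0 < pvlmH m := by unfold pvlmH; positivity

theorem pvlm_H_le_one (m : ℕ) : pvlmH m ≤ 1 := by
  unfold pvlmH
  exact pow_le_one₀ (by norm_num) (by norm_num)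

theorem pvlm_H_lim : Tendsto pvlmH atTop (𝓝 0) := by
  unfold pvlmH
  exact tendsto_pow_atTop_nhds_zero_of_lt_one (by norm_num) (by norm_num)

theorem pvlm_H_succ (m : ℕ) : pvlmH (m + 1) = pvlmH m / 2 := by
  unfold pvlmH
  rw [pow_succ]
  ring

theorem pvlm_Kap_pos {c : ℝ} (c0 : 0 < c) : 0 < pvlmKap c := lt_min (by positivity) (by norm_num)

theorem pvlm_Kap_lt_one (c : ℝ) : pvlmKap c < 1 := lt_of_le_of_lt (min_le_right _ _) (by norm_num)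

theorem pvlm_Kap_lt {c : ℝ} (c0 : 0 < c) : pvlmKap c < c / 2 := lt_of_le_of_lt (min_le_left _ _) (by linarith)

theorem pvlm_R_pos (c : ℝ) (m : ℕ) : 0 < pvlmR c m := Real.rpow_pos_of_pos (pvlm_H_pos m) _

/-- the four fields `r_lim`, `Lh_r`, `lim2` of `PvhbNum` / `L9Glob` / `PvlmGlob` -/
theorem pvlm_R_spec {c : ℝ} (c0 : 0 < c) (L : ℝ) :
    Tendsto (pvlmR c) atTop (𝓝 0) ∧ (∀ᶠ m in atTop, 4 * L * pvlmH m ≤ pvlmR c m) ∧ Tendsto (fun m => pvlmR c m * pvlmH m ^ (-1 + c / 2)) atTop (𝓝 0) :=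
  pvlm_scales pvlm_H_pos pvlm_H_lim (pvlm_Kap_pos c0) (pvlm_Kap_lt_one c) (pvlm_Kap_lt c0) L

theorem pvlm_H_le_R {c : ℝ} (c0 : 0 < c) (m : ℕ) : pvlmH m ≤ pvlmR c m := by
  unfold pvlmR
  have h1 : pvlmH m ^ (1 : ℝ) ≤ pvlmH m ^ (1 - pvlmKap c) :=
    Real.rpow_le_rpow_of_exponent_ge (pvlm_H_pos m) (pvlm_H_le_one m) (by have := pvlm_Kap_pos c0; linarith)
  rwa [Real.rpow_one] at h1

theorem pvlm_Q_pos {c : ℝ} (c0 : 0 < c) : 3 < pvlmQ c := by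
  unfold pvlmQ
  have : 0 < 3 / c := by positivity
  linarith

theorem pvlm_N_pos (c : ℝ) (m : ℕ) : 0 < pvlmN c m := Nat.ceil_pos.2 (Real.rpow_pos_of_pos (pvlm_H_pos m) _)

theorem pvlm_Del_pos (c : ℝ) (m : ℕ) : 0 < pvlmDel c m := div_pos (pvlm_H_pos m) (by exact_mod_cast pvlm_N_pos c m)

/-- the grid `h ℤ²` is a sub-grid of `δ ℤ²` -/
theorem pvlm_N_mul_Del (c : ℝ) (m : ℕ) : (pvlmN c m : ℝ) * pvlmDel c m = pvlmH m := by
  have : (pvlmN c m : ℝ) ≠ 0 := by exact_mod_cast (pvlm_N_pos c m).ne'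
  unfold pvlmDel
  field_simp

/-- `δ_m ≤ h_m^(1+q+m)` -/
theorem pvlm_Del_le_m (c : ℝ) (m : ℕ) : pvlmDel c m ≤ pvlmH m ^ (1 + (pvlmQ c + m)) := by
  have hh := pvlm_H_pos m
  have h1 : pvlmH m ^ (-(pvlmQ c + m)) ≤ (pvlmN c m : ℝ) := Nat.le_ceil _
  have h2 : 0 < pvlmH m ^ (-(pvlmQ c + m)) := Real.rpow_pos_of_pos hh _
  unfold pvlmDel
  calc pvlmH m / (pvlmN c m : ℝ) ≤ pvlmH m / pvlmH m ^ (-(pvlmQ c + m)) := div_le_div_of_nonneg_left hh.le h2 h1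
    _ = pvlmH m ^ (1 + (pvlmQ c + m)) := by
        rw [Real.rpow_add hh, Real.rpow_one, Real.rpow_neg hh.le, div_inv_eq_mul]

theorem pvlm_Del_le (c : ℝ) (m : ℕ) : pvlmDel c m ≤ pvlmH m ^ (1 + pvlmQ c) :=
  (pvlm_Del_le_m c m).trans (Real.rpow_le_rpow_of_exponent_ge (pvlm_H_pos m) (pvlm_H_le_one m) (by have : (0 : ℝ) ≤ m := Nat.cast_nonneg m; linarith))

theorem pvlm_Del_le_pow4 {c : ℝ} (c0 : 0 < c) (m : ℕ) : pvlmDel c m ≤ pvlmH m ^ 4 := by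
  refine (pvlm_Del_le c m).trans ?_
  have h1 : pvlmH m ^ (1 + pvlmQ c) ≤ pvlmH m ^ ((4 : ℕ) : ℝ) :=
    Real.rpow_le_rpow_of_exponent_ge (pvlm_H_pos m) (pvlm_H_le_one m) (by have := pvlm_Q_pos c0; push_cast; linarith)
  rwa [Real.rpow_natCast] at h1

theorem pvlm_Del_le_H {c : ℝ} (c0 : 0 < c) (m : ℕ) : pvlmDel c m ≤ pvlmH m := by
  refine (pvlm_Del_le_pow4 c0 m).trans ?_
  have := pow_le_of_le_one (pvlm_H_pos m).le (pvlm_H_le_one m) (show 4 ≠ 0 by norm_num)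
  exact this

theorem pvlm_Del_lim {c : ℝ} (c0 : 0 < c) : Tendsto (pvlmDel c) atTop (𝓝 0) :=
  squeeze_zero (fun m => (pvlm_Del_pos c m).le) (pvlm_Del_le_H c0) pvlm_H_lim

/-- **`δ_m` beats every constant and every negative power `h^-p`, `p ≤ 3 + 3c`, after the exponent `c`**:  `K δ_m^c h_m^-p → 0` -/
theorem pvlm_Del_beats {c : ℝ} (c0 : 0 < c) (K : ℝ) {p : ℝ} (hp : p ≤ 3 + 3 * c) : Tendsto (fun m => K * (pvlmDel c m ^ c * pvlmH m ^ (-p))) atTop (𝓝 0) := by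
  have h1 : Tendsto (fun m => pvlmH m ^ c) atTop (𝓝 0) := pvlm_rpow_lim pvlm_H_lim c0
  have h2 : Tendsto (fun m => pvlmDel c m ^ c * pvlmH m ^ (-p)) atTop (𝓝 0) := by
    refine squeeze_zero (fun m => ?_) (fun m => ?_) h1
    · have := pvlm_Del_pos c m
      have := pvlm_H_pos m
      positivity
    · have hh := pvlm_H_pos m
      have a1 : pvlmDel c m ^ c ≤ (pvlmH m ^ (1 + pvlmQ c)) ^ c := Real.rpow_le_rpow (pvlm_Del_pos c m).le (pvlm_Del_le c m) c0.le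
      rw [← Real.rpow_mul hh.le] at a1
      have a2 : 0 < pvlmH m ^ (-p) := Real.rpow_pos_of_pos hh _
      calc pvlmDel c m ^ c * pvlmH m ^ (-p) ≤ pvlmH m ^ ((1 + pvlmQ c) * c) * pvlmH m ^ (-p) := mul_le_mul_of_nonneg_right a1 a2.le
        _ = pvlmH m ^ ((1 + pvlmQ c) * c + -p) := (Real.rpow_add hh _ _).symm
        _ ≤ pvlmH m ^ c := by
            apply Real.rpow_le_rpow_of_exponent_ge hh (pvlm_H_le_one m)
            have e : (1 + pvlmQ c) * c = c + 3 * c + 3 := by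
              unfold pvlmQ
              field_simp
              ring
            rw [e]
            linarith
  simpa using h2.const_mul K

/-- **TR20 with the scales of record**: the bound of COVER tends to `0` for ALL constants `C1`, ALL radii `R`, all proportionality constants `s = k₁ δ_m`, `S = k₂ h_m` -/
theorem pvlm_zeta_lim {c : ℝ} (c0 : 0 < c) (C1 R : ℝ) {k1 k2 : ℝ} (hk1 : 0 < k1) (hk2 : 0 < k2) (hR : 0 < R) :
    Tendsto (fun m => pvtvZeta C1 c R (k1 * pvlmDel c m) (k2 * pvlmH m)) atTop (𝓝 0) := by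
  have key : ∀ m, pvtvZeta C1 c R (k1 * pvlmDel c m) (k2 * pvlmH m)
      = (49 * C1 * R ^ 2 * (6 / k2) ^ (2 + c) * (k2 / 2 / R) ^ c * k1 ^ c) * (pvlmDel c m ^ c * pvlmH m ^ (-(2 : ℝ))) := by
    intro m
    have hh := pvlm_H_pos m
    have hd := pvlm_Del_pos c m
    rw [pvtv_zeta_eq (by positivity) (by positivity), pvtvK]
    have e1 : 6 / (k2 * pvlmH m) = 6 / k2 * (pvlmH m)⁻¹ := by field_simp
    have e2 : k2 * pvlmH m / 2 / R = k2 / 2 / R * pvlmH m := by field_simp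
    rw [e1, e2, Real.mul_rpow (by positivity) (by positivity), Real.mul_rpow (by positivity) hh.le, Real.mul_rpow hk1.le hd.le,
      Real.inv_rpow hh.le, Real.rpow_add hh, Real.rpow_neg hh.le]
    have hc' : pvlmH m ^ c ≠ 0 := (Real.rpow_pos_of_pos hh c).ne'
    have h2' : pvlmH m ^ (2 : ℝ) ≠ 0 := (Real.rpow_pos_of_pos hh 2).ne'
    field_simp
  simp only [key]
  exact pvlm_Del_beats c0 _ (by linarith)

/-- **union bound of CONFIG6 / near returns over a net of mesh `δ_m`** (rider (r3) of 37):  `K (R/δ_m)² (δ_m/(ρ h_m))^(2+c) → 0` for ALL `K`, `R`, `ρ` -/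
theorem pvlm_cfg6_lim {c : ℝ} (c0 : 0 < c) (K R : ℝ) {ρ : ℝ} (hρ : 0 < ρ) :
    Tendsto (fun m => K * ((R / pvlmDel c m) ^ 2 * (pvlmDel c m / (ρ * pvlmH m)) ^ (2 + c))) atTop (𝓝 0) := by
  have key : ∀ m, K * ((R / pvlmDel c m) ^ 2 * (pvlmDel c m / (ρ * pvlmH m)) ^ (2 + c))
      = (K * R ^ 2 * (ρ⁻¹) ^ (2 + c)) * (pvlmDel c m ^ c * pvlmH m ^ (-(2 + c))) := by
    intro m
    have hh := pvlm_H_pos m
    have hd := pvlm_Del_pos c m
    have e1 : pvlmDel c m / (ρ * pvlmH m) = ρ⁻¹ * (pvlmDel c m * (pvlmH m)⁻¹) := by field_simp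
    rw [e1, Real.mul_rpow (by positivity) (by positivity), Real.mul_rpow hd.le (by positivity), Real.inv_rpow hh.le, Real.rpow_neg hh.le,
      Real.rpow_add hd, Real.rpow_two]
    field_simp
  simp only [key]
  exact pvlm_Del_beats c0 _ (by linarith)


/-- **`δ_m` beats every constant and EVERY negative power `h^-p` after EVERY exponent `c₁ > 0`** (the exponent of ARM is not the parameter `c` of the wall):  `K δ_m^c₁ h_m^-p → 0` -/
theorem pvlm_Del_beats_any {c : ℝ} (c0 : 0 < c) {c1 : ℝ} (h1 : 0 < c1) (K p : ℝ) : Tendsto (fun m => K * (pvlmDel c m ^ c1 * pvlmH m ^ (-p))) atTop (𝓝 0) := by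
  have l1 : Tendsto (fun m => pvlmH m ^ c1) atTop (𝓝 0) := pvlm_rpow_lim pvlm_H_lim h1
  have h2 : Tendsto (fun m => pvlmDel c m ^ c1 * pvlmH m ^ (-p)) atTop (𝓝 0) := by
    refine squeeze_zero' (Eventually.of_forall fun m => ?_) ?_ l1
    · have := pvlm_Del_pos c m
      have := pvlm_H_pos m
      positivity
    · obtain ⟨M, hM⟩ := exists_nat_ge (p / c1)
      filter_upwards [eventually_ge_atTop M] with m hm
      have hh := pvlm_H_pos m
      have hmp : p ≤ (m : ℝ) * c1 := by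
        have : p / c1 ≤ (m : ℝ) := hM.trans (by exact_mod_cast hm)
        rwa [div_le_iff₀ h1] at this
      have a1 : pvlmDel c m ^ c1 ≤ (pvlmH m ^ (1 + (pvlmQ c + m))) ^ c1 := Real.rpow_le_rpow (pvlm_Del_pos c m).le (pvlm_Del_le_m c m) h1.le
      rw [← Real.rpow_mul hh.le] at a1
      have a2 : 0 < pvlmH m ^ (-p) := Real.rpow_pos_of_pos hh _
      calc pvlmDel c m ^ c1 * pvlmH m ^ (-p) ≤ pvlmH m ^ ((1 + (pvlmQ c + m)) * c1) * pvlmH m ^ (-p) := mul_le_mul_of_nonneg_right a1 a2.le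
        _ = pvlmH m ^ ((1 + (pvlmQ c + m)) * c1 + -p) := (Real.rpow_add hh _ _).symm
        _ ≤ pvlmH m ^ c1 := by
            apply Real.rpow_le_rpow_of_exponent_ge hh (pvlm_H_le_one m)
            have hq := pvlm_Q_pos c0
            nlinarith
  simpa using h2.const_mul K

/-- **TR20 with the scales of record, arm exponent `c₁` FREE** -/
theorem pvlm_zeta_lim_any {c : ℝ} (c0 : 0 < c) {c1 : ℝ} (h1 : 0 < c1) (C1 R : ℝ) {k1 k2 : ℝ} (hk1 : 0 < k1) (hk2 : 0 < k2) (hR : 0 < R) :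
    Tendsto (fun m => pvtvZeta C1 c1 R (k1 * pvlmDel c m) (k2 * pvlmH m)) atTop (𝓝 0) := by
  have key : ∀ m, pvtvZeta C1 c1 R (k1 * pvlmDel c m) (k2 * pvlmH m)
      = (49 * C1 * R ^ 2 * (6 / k2) ^ (2 + c1) * (k2 / 2 / R) ^ c1 * k1 ^ c1) * (pvlmDel c m ^ c1 * pvlmH m ^ (-(2 : ℝ))) := by
    intro m
    have hh := pvlm_H_pos m
    have hd := pvlm_Del_pos c m
    rw [pvtv_zeta_eq (by positivity) (by positivity), pvtvK]
    have e1 : 6 / (k2 * pvlmH m) = 6 / k2 * (pvlmH m)⁻¹ := by field_simp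
    have e2 : k2 * pvlmH m / 2 / R = k2 / 2 / R * pvlmH m := by field_simp
    rw [e1, e2, Real.mul_rpow (by positivity) (by positivity), Real.mul_rpow (by positivity) hh.le, Real.mul_rpow hk1.le hd.le,
      Real.inv_rpow hh.le, Real.rpow_add hh, Real.rpow_neg hh.le]
    have hc' : pvlmH m ^ c1 ≠ 0 := (Real.rpow_pos_of_pos hh c1).ne'
    have h2' : pvlmH m ^ (2 : ℝ) ≠ 0 := (Real.rpow_pos_of_pos hh 2).ne'
    field_simp
  simp only [key]
  exact pvlm_Del_beats_any c0 h1 _ _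

/-- **union bound of CONFIG6 / three passages / near returns over a net of mesh `δ_m`, arm exponent `c₁` FREE**:  `K (R/δ_m)² (δ_m/(ρ h_m))^(2+c₁) → 0` -/
theorem pvlm_cfg6_lim_any {c : ℝ} (c0 : 0 < c) {c1 : ℝ} (h1 : 0 < c1) (K R : ℝ) {ρ : ℝ} (hρ : 0 < ρ) :
    Tendsto (fun m => K * ((R / pvlmDel c m) ^ 2 * (pvlmDel c m / (ρ * pvlmH m)) ^ (2 + c1))) atTop (𝓝 0) := by
  have key : ∀ m, K * ((R / pvlmDel c m) ^ 2 * (pvlmDel c m / (ρ * pvlmH m)) ^ (2 + c1))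
      = (K * R ^ 2 * (ρ⁻¹) ^ (2 + c1)) * (pvlmDel c m ^ c1 * pvlmH m ^ (-(2 + c1))) := by
    intro m
    have hh := pvlm_H_pos m
    have hd := pvlm_Del_pos c m
    have e1 : pvlmDel c m / (ρ * pvlmH m) = ρ⁻¹ * (pvlmDel c m * (pvlmH m)⁻¹) := by field_simp
    rw [e1, Real.mul_rpow (by positivity) (by positivity), Real.mul_rpow hd.le (by positivity), Real.inv_rpow hh.le, Real.rpow_neg hh.le,
      Real.rpow_add hd, Real.rpow_two]
    field_simp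
  simp only [key]
  exact pvlm_Del_beats_any c0 h1 _ _

/-- the numerical relations `PvbPar` hold eventually, for every ball and every mesh tolerance `μ_m ≤ h_m / 10` -/
theorem pvlm_par {τ : Type} (𝔐 : PvbMenu τ) {c : ℝ} (c0 : 0 < c) {R : ℝ} (hR : 0 < R) {μ : ℕ → ℝ} (hμ0 : ∀ m, 0 ≤ μ m) (hμ : ∀ m, μ m ≤ pvlmH m / 10) :
    ∀ᶠ m in atTop, PvbPar 𝔐 R (pvlmH m) (pvlmR c m) (μ m) := by
  obtain ⟨h1, h2, -⟩ := pvlm_R_spec c0 𝔐.L
  filter_upwards [h2, h1.eventually (Iio_mem_nhds (show (0 : ℝ) < R / 100 by positivity))] with m a1 a2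
  exact ⟨hμ0 m, hμ m, pvlm_H_pos m, a1, by have : pvlmR c m < R / 100 := a2; linarith⟩

end Claimed.Agent.R289
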