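import Claimed.Agent.R289.Arm.Bxp
import Claimed.Agent.R289.Arm.BxpPv

/-!
# Row 289 (S0537, Cardy for Poisson-Voronoi), THE WALL, file Tr/BlockP : (H4b) ONE-POINT BLOCKS, THE PROBABILITY HALF      (helper233; post of the captain 234, ruling 8 D; text of record `W1_208.md` v2, R-A (H4b); prefix `pvbp_`, defs `Pvbp…`)

NO INDEPENDENT COPY (trick of 196, `pvax_blk_fresh`): `X` = the set of the FRESH vertices (off the frozen set of the cylinder `(core, Σ⁺)`).      `true` = BLACK.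
A tower `a i, o i` (`i < 2J`) of nested cycles round the centre of the tip cell (`PvaxTower`).
* `PvbpBlock T a o X j s`      **BLOCK_j**: no WHITE crossing of the annulus number `2j` through fresh vertices, no BLACK crossing of the annulus number `2j+1` through fresh vertices
* `pvbp_block_iff`             CIRCUIT FORM (what the sealing lemma consumes): a cycle in the annulus `2j` all of whose FRESH vertices are black + a cycle in the annulus `2j+1` all of whose FRESH vertices are white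
* `pvbp_fresh`                 `P(no BLOCK_j, j < J) ≤ (1 - q²)^J`, fresh bits on `A ⊇ X`, any background;   `pvbp_fresh_ge` : `q² ≤ P(BLOCK_j)`
* **`pvbp_stop`**              after a stopping set: `P(K, no BLOCK_j) ≤ (1 - q²)^J P(K)`; the tower and `X` are functions of the explored data (NO union over the positions of the tip)
* **`pvbp_cyl`**, `pvbp_cyl_ge`, **`pvbp_cyl_blocks`**      the same for a FAMILY OF CYLINDERS (`F i` finite frozen set, `K i` read on `F i`, the `K i` pairwise exclusive): no stopping-set theory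
* `pvbp_frame_tower`           QBX-good geometry on a finite grid of tip cells ⟹ the towers (radii `16^i s`)
-/

set_option autoImplicit false
set_option linter.unusedSectionVars false
set_option linter.unusedVariables false

namespace Claimed.Agent.R289

open Relation

/-! ## 1. the blocks, quenched -/

section abs

variable {V D : Type} [DecidableEq V] {T : PvMap V D}

/-- **BLOCK_j**: no white crossing of the annulus `2j`, no black crossing of the annulus `2j+1`, through the allowed (= fresh) vertices -/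
def PvbpBlock (T : PvMap V D) (a o : ℕ → T.Cyc) (X : Set V) (j : ℕ) (s : V → Bool) : Prop :=
  ¬ PvaxCr T (a (2 * j)) (o (2 * j)) X false s ∧ ¬ PvaxCr T (a (2 * j + 1)) (o (2 * j + 1)) X true s

theorem pvbp_eqns_cite : True := by
  have := @PvbpBlock.eq_1
  trivial

/-- **CIRCUIT FORM** -/
theorem pvbp_block_iff (hT : T.IsSph) (hS : T.Simple) {J : ℕ} {a o : ℕ → T.Cyc} {q : ℝ} (h : PvaxTower T (2 * J) a o q) (X : Set V) {j : ℕ} (hj : j < J) (s : V → Bool) :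
    PvbpBlock T a o X j s ↔
      (∃ c : T.Cyc, (∀ v ∈ c.verts, v ∈ X → s v = true) ∧ (a (2 * j)).Left ⊆ c.Left ∧ c.Left ⊆ (o (2 * j)).Left) ∧
      ∃ c : T.Cyc, (∀ v ∈ c.verts, v ∈ X → s v = false) ∧ (a (2 * j + 1)).Left ⊆ c.Left ∧ c.Left ⊆ (o (2 * j + 1)).Left := by
  unfold PvbpBlock
  rw [pvax_ncr_iff hT hS (h.ins (2 * j) (by omega)) (h.fin (2 * j) (by omega)), pvax_ncr_iff hT hS (h.ins (2 * j + 1) (by omega)) (h.fin (2 * j + 1) (by omega))]
  constructor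
  · rintro ⟨⟨c, h1, h2⟩, c', h1', h2'⟩
    refine ⟨⟨c, fun v hv hx => ?_, h2⟩, c', fun v hv hx => ?_, h2'⟩
    · have := h1 v hv
      cases e : s v
      · exact absurd ⟨hx, e⟩ this
      · rfl
    · have := h1' v hv
      cases e : s v
      · rfl
      · exact absurd ⟨hx, e⟩ this
  · rintro ⟨⟨c, h1, h2⟩, c', h1', h2'⟩
    refine ⟨⟨c, fun v hv hx => ?_, h2⟩, c', fun v hv hx => ?_, h2'⟩
    · have := h1 v hv hx.1
      rw [hx.2] at this
      exact Bool.false_ne_true this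
    · have := h1' v hv hx.1
      rw [hx.2] at this
      exact Bool.false_ne_true this.symm

/-- monotone in the allowed set: fewer fresh vertices, more blocks -/
theorem pvbp_block_anti {a o : ℕ → T.Cyc} {X X' : Set V} (h : X ⊆ X') {j : ℕ} {s : V → Bool} (hb : PvbpBlock T a o X' j s) : PvbpBlock T a o X j s :=
  ⟨fun hc => hb.1 (pvax_cr_mono h hc), fun hc => hb.2 (pvax_cr_mono h hc)⟩

/-- the block reads the colours of the allowed vertices only -/
theorem pvbp_block_congr {a o : ℕ → T.Cyc} {X : Set V} {j : ℕ} {s s' : V → Bool} (h : ∀ v ∈ X, s' v = s v) : PvbpBlock T a o X j s' ↔ PvbpBlock T a o X j s := by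
  unfold PvbpBlock
  rw [pvax_cr_congr h, pvax_cr_congr h]

/-- the closed vertex sets of the annuli of a tower are pairwise disjoint -/
theorem pvbp_tower_disj (hT : T.IsSph) {m : ℕ} {a o : ℕ → T.Cyc} {q : ℝ} (h : PvaxTower T m a o q) {i j : ℕ} (hij : i < j) (hj : j < m) {v : V}
    (hv : v ∈ T.VOf ((a i).Ann (o i))) : v ∉ T.VOf ((a j).Ann (o j)) := by
  have hmono : ∀ k i, i + k < m → (a i).Left ⊆ (a (i + k)).Left := by
    intro k
    induction k with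
    | zero => exact fun i _ => subset_rfl
    | succ k ih =>
      intro i hi
      exact (ih i (by omega)).trans (((h.ins (i + k) (by omega)).2).trans (h.nxt (i + k) (by omega)).2)
  obtain ⟨d, hd, rfl⟩ := hv
  rintro ⟨d', hd', h1⟩
  have h2 : T.src d ∈ T.VOf (o i).Left := ⟨d, hd.1, rfl⟩
  have hn := h.nxt i (by omega)
  have h3 : T.src d ∈ T.Int (a (i + 1)).Left := by
    rw [pl_VOf_left hT] at h2
    rcases h2 with h2 | h2
    · exact hn.1 h2
    · exact (pl_nested_vert hT _ _ hn.2).2 h2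
  have h4 : (a (i + 1)).Left ⊆ (a j).Left := by
    have := hmono (j - (i + 1)) (i + 1) (by omega)
    rwa [show i + 1 + (j - (i + 1)) = j by omega] at this
  exact hd'.2 (h4 (h3 d' h1))

open Classical in
/-- the fresh vertices of the annulus number `i` -/
noncomputable def pvbpR (T : PvMap V D) (a o : ℕ → T.Cyc) (A : Finset V) (X : Set V) (i : ℕ) : Finset V := A.filter (fun v => v ∈ X ∧ v ∈ T.VOf ((a i).Ann (o i)))

theorem pvbp_R_sub (a o : ℕ → T.Cyc) (A : Finset V) (X : Set V) (i : ℕ) : pvbpR T a o A X i ⊆ A := by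
  classical exact Finset.filter_subset _ _

theorem pvbp_R_mem {a o : ℕ → T.Cyc} {A : Finset V} {X : Set V} {i : ℕ} {v : V} : v ∈ pvbpR T a o A X i ↔ v ∈ A ∧ v ∈ X ∧ v ∈ T.VOf ((a i).Ann (o i)) := by
  classical exact Finset.mem_filter

theorem pvbp_R_disj (hT : T.IsSph) {m : ℕ} {a o : ℕ → T.Cyc} {q : ℝ} (h : PvaxTower T m a o q) (A : Finset V) (X : Set V) {i j : ℕ} (hi : i < m) (hj : j < m) (hij : i ≠ j) :
    Disjoint (pvbpR T a o A X i) (pvbpR T a o A X j) := by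
  rw [Finset.disjoint_left]
  intro v hv hv'
  have h1 := (pvbp_R_mem.1 hv).2.2
  have h2 := (pvbp_R_mem.1 hv').2.2
  rcases lt_or_gt_of_ne hij with h3 | h3
  · exact pvbp_tower_disj hT h h3 hj h1 h2
  · exact pvbp_tower_disj hT h h3 hi h2 h1

/-- a crossing of the annulus number `i` reads `pvbpR i` only -/
theorem pvbp_cr_dep (hT : T.IsSph) {m : ℕ} {a o : ℕ → T.Cyc} {q : ℝ} (h : PvaxTower T m a o q) (A : Finset V) (ξ : V → Bool) {X : Set V} (hX : ∀ v ∈ X, v ∈ A) {i : ℕ} (hi : i < m) (b : Bool) :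
    PvaDep A (pvbpR T a o A X i) ξ (fun s => PvaxCr T (a i) (o i) X b s) := by
  intro ω₁ ω₂ _ _ h12
  refine propext ?_
  show PvaxCr T (a i) (o i) X b ω₁ ↔ PvaxCr T (a i) (o i) X b ω₂
  rw [pvax_cr_inter hT (h.ins i hi), pvax_cr_inter hT (h.ins i hi) (s := ω₂)]
  exact pvax_cr_congr fun v hv => h12 v (pvbp_R_mem.2 ⟨hX v hv.1, hv.1, hv.2⟩)

/-- two events which read disjoint parts of the fresh set are independent -/
theorem pvbp_P_and {A R₁ R₂ : Finset V} (hR₂ : R₂ ⊆ A) (hd : Disjoint R₁ R₂) {ξ : V → Bool} {K L : (V → Bool) → Prop} (h₁ : PvaDep A R₁ ξ K) (h₂ : PvaDep A R₂ ξ L) :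
    pvaP A ξ (fun ω => K ω ∧ L ω) = pvaP A ξ K * pvaP A ξ L := by
  classical
  rw [pva_P_and_eq, pva_E_mul hR₂ hd (pva_dep_ind h₁) (pva_dep_ind h₂)]
  rfl

theorem pvbp_dep_not {A R : Finset V} {ξ : V → Bool} {K : (V → Bool) → Prop} (h : PvaDep A R ξ K) : PvaDep A R ξ (fun ω => ¬ K ω) := by
  intro ω₁ ω₂ a1 a2 h'
  have := h ω₁ ω₂ a1 a2 h'
  show (¬ K ω₁) = ¬ K ω₂
  rw [this]

theorem pvbp_dep_and {A R₁ R₂ : Finset V} {ξ : V → Bool} {K L : (V → Bool) → Prop} (h₁ : PvaDep A R₁ ξ K) (h₂ : PvaDep A R₂ ξ L) : PvaDep A (R₁ ∪ R₂) ξ (fun ω => K ω ∧ L ω) := by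
  intro ω₁ ω₂ a1 a2 h'
  have e1 := h₁ ω₁ ω₂ a1 a2 fun v hv => h' v (Finset.mem_union_left _ hv)
  have e2 := h₂ ω₁ ω₂ a1 a2 fun v hv => h' v (Finset.mem_union_right _ hv)
  show (K ω₁ ∧ L ω₁) = (K ω₂ ∧ L ω₂)
  rw [e1, e2]

/-- the block number `j` reads the fresh vertices of the annuli `2j`, `2j+1` -/
theorem pvbp_block_dep (hT : T.IsSph) {J : ℕ} {a o : ℕ → T.Cyc} {q : ℝ} (h : PvaxTower T (2 * J) a o q) (A : Finset V) (ξ : V → Bool) {X : Set V} (hX : ∀ v ∈ X, v ∈ A) {j : ℕ} (hj : j < J) :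
    PvaDep A (pvbpR T a o A X (2 * j) ∪ pvbpR T a o A X (2 * j + 1)) ξ (fun s => PvbpBlock T a o X j s) :=
  pvbp_dep_and (pvbp_dep_not (pvbp_cr_dep hT h A ξ hX (by omega) false)) (pvbp_dep_not (pvbp_cr_dep hT h A ξ hX (by omega) true))

/-- **one block**: probability at least `q²`, whatever the background -/
theorem pvbp_fresh_ge (hT : T.IsSph) {J : ℕ} {a o : ℕ → T.Cyc} {q : ℝ} (hq : 0 ≤ q) (h : PvaxTower T (2 * J) a o q) (A : Finset V) (ξ : V → Bool) {X : Set V} (hX : ∀ v ∈ X, v ∈ A)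
    {j : ℕ} (hj : j < J) : q ^ 2 ≤ pvaP A ξ (fun s => PvbpBlock T a o X j s) := by
  have e : pvaP A ξ (fun s => PvbpBlock T a o X j s) =
      pvaP A ξ (fun s => ¬ PvaxCr T (a (2 * j)) (o (2 * j)) X false s) * pvaP A ξ (fun s => ¬ PvaxCr T (a (2 * j + 1)) (o (2 * j + 1)) X true s) :=
    pvbp_P_and (pvbp_R_sub a o A X (2 * j + 1)) (pvbp_R_disj hT h A X (by omega) (by omega) (by omega))
      (pvbp_dep_not (pvbp_cr_dep hT h A ξ hX (by omega) false)) (pvbp_dep_not (pvbp_cr_dep hT h A ξ hX (by omega) true))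
  rw [e, sq]
  exact mul_le_mul (pvax_blk_fresh hT (h.fin _ (by omega)) (h.blk _ (by omega)) A ξ false hX) (pvax_blk_fresh hT (h.fin _ (by omega)) (h.blk _ (by omega)) A ξ true hX) hq
    (pva_P_nonneg _ _ _)

/-- **no block among `J`**: probability at most `(1 - q²)^J`, whatever the background -/
theorem pvbp_fresh (hT : T.IsSph) {J : ℕ} {a o : ℕ → T.Cyc} {q : ℝ} (hq : 0 ≤ q) (h : PvaxTower T (2 * J) a o q) (A : Finset V) (ξ : V → Bool) {X : Set V} (hX : ∀ v ∈ X, v ∈ A) :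
    pvaP A ξ (fun s => ∀ j < J, ¬ PvbpBlock T a o X j s) ≤ (1 - q ^ 2) ^ J := by
  classical
  have e1 : pvaP A ξ (fun s => ∀ j < J, ¬ PvbpBlock T a o X j s) = pvaP A ξ (fun s => ∀ j ∈ Finset.range J, ¬ PvbpBlock T a o X j s) :=
    pva_P_congr fun ω _ => by simp only [Finset.mem_range]
  rw [e1, pva_P_forall (Finset.range J) (fun j => pvbpR T a o A X (2 * j) ∪ pvbpR T a o A X (2 * j + 1)) (fun j s => ¬ PvbpBlock T a o X j s)
    (fun j _ => Finset.union_subset (pvbp_R_sub _ _ _ _ _) (pvbp_R_sub _ _ _ _ _))]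
  · calc ∏ j ∈ Finset.range J, pvaP A ξ (fun s => ¬ PvbpBlock T a o X j s) ≤ ∏ _j ∈ Finset.range J, (1 - q ^ 2) := by
          refine Finset.prod_le_prod (fun _ _ => pva_P_nonneg _ _ _) fun j hj => ?_
          rw [pva_P_not]
          have := pvbp_fresh_ge hT hq h A ξ hX (Finset.mem_range.1 hj)
          linarith
      _ = (1 - q ^ 2) ^ J := by rw [Finset.prod_const, Finset.card_range]
  · intro i hi j hj hij
    have hi' := Finset.mem_range.1 hi
    have hj' := Finset.mem_range.1 hj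
    rw [Finset.disjoint_union_left, Finset.disjoint_union_right, Finset.disjoint_union_right]
    exact ⟨⟨pvbp_R_disj hT h A X (by omega) (by omega) (by omega), pvbp_R_disj hT h A X (by omega) (by omega) (by omega)⟩,
      pvbp_R_disj hT h A X (by omega) (by omega) (by omega), pvbp_R_disj hT h A X (by omega) (by omega) (by omega)⟩
  · intro j hj
    exact pvbp_dep_not (pvbp_block_dep hT h A ξ hX (Finset.mem_range.1 hj))

/-- **(H4b), STOPPING-SET FORM**: `S` stopping set, `K` an explored event, the tower `(a ω, o ω)` and the set `X ω` of fresh vertices are functions of the explored data.      NO union over the positions of the tip. -/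
theorem pvbp_stop (hT : T.IsSph) {J : ℕ} {q : ℝ} (hq : 0 ≤ q) {S : (V → Bool) → Finset V} (hS : PvaStop S) {K : (V → Bool) → Prop} (hK : PvaMeas S K)
    {a o : (V → Bool) → ℕ → T.Cyc} (ha : PvaMeas S a) (ho : PvaMeas S o) (h : ∀ ω, K ω → PvaxTower T (2 * J) (a ω) (o ω) q)
    {X : (V → Bool) → Set V} (hX : PvaMeas S X) (A : Finset V) (ξ : V → Bool) (hXA : ∀ ω, K ω → ∀ v ∈ X ω, v ∈ A ∧ v ∉ S ω) :
    pvaP A ξ (fun ω => K ω ∧ ∀ j < J, ¬ PvbpBlock T (a ω) (o ω) (X ω) j ω) ≤ (1 - q ^ 2) ^ J * pvaP A ξ K := by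
  refine pva_smarkov_le hS hK A ξ fun ω hω hk => ?_
  have e1 : pvaP (A \ S ω) ω (fun ω' => ∀ j < J, ¬ PvbpBlock T (a ω') (o ω') (X ω') j ω') = pvaP (A \ S ω) ω (fun ω' => ∀ j < J, ¬ PvbpBlock T (a ω) (o ω) (X ω) j ω') := by
    refine pva_P_congr fun ω' hω' => ?_
    have hag : ∀ v ∈ S ω, ω' v = ω v := fun v hv => hω' v fun h2 => (Finset.mem_sdiff.1 h2).2 hv
    rw [hX ω ω' hag, ha ω ω' hag, ho ω ω' hag]
  rw [e1]
  exact pvbp_fresh hT hq (h ω hk) (A \ S ω) ω fun v hv => Finset.mem_sdiff.2 (hXA ω hk v hv)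

/-- one block after a stopping set: `q² P(K) ≤ P(K, BLOCK_j)` -/
theorem pvbp_stop_ge (hT : T.IsSph) {J : ℕ} {q : ℝ} (hq : 0 ≤ q) {S : (V → Bool) → Finset V} (hS : PvaStop S) {K : (V → Bool) → Prop} (hK : PvaMeas S K)
    {a o : (V → Bool) → ℕ → T.Cyc} (ha : PvaMeas S a) (ho : PvaMeas S o) (h : ∀ ω, K ω → PvaxTower T (2 * J) (a ω) (o ω) q)
    {X : (V → Bool) → Set V} (hX : PvaMeas S X) (A : Finset V) (ξ : V → Bool) (hXA : ∀ ω, K ω → ∀ v ∈ X ω, v ∈ A ∧ v ∉ S ω) {j : ℕ} (hj : j < J) :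
    q ^ 2 * pvaP A ξ K ≤ pvaP A ξ (fun ω => K ω ∧ PvbpBlock T (a ω) (o ω) (X ω) j ω) := by
  refine pva_smarkov_ge hS hK A ξ fun ω hω hk => ?_
  have e1 : pvaP (A \ S ω) ω (fun ω' => PvbpBlock T (a ω') (o ω') (X ω') j ω') = pvaP (A \ S ω) ω (fun ω' => PvbpBlock T (a ω) (o ω) (X ω) j ω') := by
    refine pva_P_congr fun ω' hω' => ?_
    have hag : ∀ v ∈ S ω, ω' v = ω v := fun v hv => hω' v fun h2 => (Finset.mem_sdiff.1 h2).2 hv
    rw [hX ω ω' hag, ha ω ω' hag, ho ω ω' hag]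
  rw [e1]
  exact pvbp_fresh_ge hT hq (h ω hk) (A \ S ω) ω (fun v hv => Finset.mem_sdiff.2 (hXA ω hk v hv)) hj

/-! ## 2. families of cylinders -/

/-- **CYLINDER FAMILY**: `K i` is read on the finite frozen set `F i`, the `K i` are pairwise exclusive (the state is a function of the colouring); `L i` has conditional probability `≤ p` given the colours of `F i`.
Then `P(∃ i, K i, L i) ≤ p P(∃ i, K i)`.      The index type is arbitrary (only finitely many `i` matter). -/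
theorem pvbp_cyl {ι : Type} (F : ι → Finset V) (K : ι → (V → Bool) → Prop) (hK : ∀ i (ω ω' : V → Bool), (∀ v ∈ F i, ω' v = ω v) → K i ω → K i ω')
    (hu : ∀ i i' ω, K i ω → K i' ω → i = i') (L : ι → (V → Bool) → Prop) {p : ℝ} (A : Finset V) (ξ : V → Bool)
    (hL : ∀ i ω, PvaCfg A ξ ω → K i ω → pvaP (A \ F i) ω (L i) ≤ p) :
    pvaP A ξ (fun ω => ∃ i, K i ω ∧ L i ω) ≤ p * pvaP A ξ (fun ω => ∃ i, K i ω) := by
  classical
  by_cases hne : Nonempty ι
  swap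
  · rw [pva_P_false fun ω _ h => hne ⟨h.choose⟩, pva_P_false fun ω _ h => hne ⟨h.choose⟩, mul_zero]
  obtain ⟨i₀⟩ := hne
  -- the finitely many indices which matter
  set I : Finset ι := (pvaCfgs A ξ).image (fun ω => if h : ∃ i, K i ω then h.choose else i₀) with hI
  have hmem : ∀ ω, PvaCfg A ξ ω → ∀ i, K i ω → i ∈ I := by
    intro ω hω i hi
    refine Finset.mem_image.2 ⟨ω, pva_mem_cfgs.2 hω, ?_⟩
    have hex : ∃ i, K i ω := ⟨i, hi⟩
    rw [dif_pos hex]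
    exact hu _ _ ω hex.choose_spec hi
  have hKm : ∀ i, PvaMeas (fun _ : V → Bool => F i) (K i) := by
    intro i ω ω' h
    refine propext ⟨fun h' => hK i ω' ω (fun v hv => (h v hv).symm) h', fun h' => hK i ω ω' h h'⟩
  have h1 : pvaP A ξ (fun ω => ∃ i, K i ω ∧ L i ω) ≤ ∑ i ∈ I, pvaP A ξ (fun ω => K i ω ∧ L i ω) := by
    refine le_trans (pva_P_mono fun ω hω h => ?_) (pva_P_exists_le A ξ I fun i ω => K i ω ∧ L i ω)
    obtain ⟨i, hi, hl⟩ := h
    exact ⟨i, hmem ω hω i hi, hi, hl⟩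
  have h2 : ∀ i ∈ I, pvaP A ξ (fun ω => K i ω ∧ L i ω) ≤ p * pvaP A ξ (K i) := fun i _ =>
    pva_smarkov_le (pva_stop_const (F i)) (hKm i) A ξ fun ω hω hk => hL i ω hω hk
  have h3 : ∑ i ∈ I, pvaP A ξ (K i) = pvaP A ξ (fun ω => ∃ i, K i ω) := by
    unfold pvaP
    rw [← pva_E_sum]
    refine pva_E_congr fun ω hω => ?_
    by_cases hex : ∃ i, K i ω
    · obtain ⟨i, hi⟩ := hex
      rw [if_pos ⟨i, hi⟩, Finset.sum_eq_single i]
      · exact if_pos hi
      · intro i' _ hne'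
        exact if_neg fun h' => hne' (hu _ _ ω h' hi)
      · intro hni
        exact absurd (hmem ω hω i hi) hni
    · rw [if_neg hex]
      exact Finset.sum_eq_zero fun i _ => if_neg fun h' => hex ⟨i, h'⟩
  calc pvaP A ξ (fun ω => ∃ i, K i ω ∧ L i ω) ≤ ∑ i ∈ I, pvaP A ξ (fun ω => K i ω ∧ L i ω) := h1
    _ ≤ ∑ i ∈ I, p * pvaP A ξ (K i) := Finset.sum_le_sum h2
    _ = p * pvaP A ξ (fun ω => ∃ i, K i ω) := by rw [← Finset.mul_sum, h3]

/-- **CYLINDER FAMILY, LOWER BOUND** (cost of a flag by CLOSING the state: FLAG4 of E16, admission): `L i` has conditional probability `≥ q` given the colours of `F i`.      Then `q P(∃ i, K i) ≤ P(∃ i, K i, L i)`. -/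
theorem pvbp_cyl_ge {ι : Type} (F : ι → Finset V) (K : ι → (V → Bool) → Prop) (hK : ∀ i (ω ω' : V → Bool), (∀ v ∈ F i, ω' v = ω v) → K i ω → K i ω')
    (hu : ∀ i i' ω, K i ω → K i' ω → i = i') (L : ι → (V → Bool) → Prop) {q : ℝ} (A : Finset V) (ξ : V → Bool)
    (hL : ∀ i ω, PvaCfg A ξ ω → K i ω → q ≤ pvaP (A \ F i) ω (L i)) :
    q * pvaP A ξ (fun ω => ∃ i, K i ω) ≤ pvaP A ξ (fun ω => ∃ i, K i ω ∧ L i ω) := by
  have h1 := pvbp_cyl F K hK hu (fun i ω => ¬ L i ω) (p := 1 - q) A ξ fun i ω hω hk => by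
    rw [pva_P_not]
    linarith [hL i ω hω hk]
  have h2 : pvaP A ξ (fun ω => ∃ i, K i ω) ≤ pvaP A ξ (fun ω => ∃ i, K i ω ∧ L i ω) + pvaP A ξ (fun ω => ∃ i, K i ω ∧ ¬ L i ω) := by
    refine le_trans (pva_P_mono fun ω _ h => ?_) (pva_P_or_le A ξ _ _)
    obtain ⟨i, hi⟩ := h
    by_cases hl : L i ω
    · exact Or.inl ⟨i, hi, hl⟩
    · exact Or.inr ⟨i, hi, hl⟩
  linarith

/-- **(H4b), CYLINDER FORM**: for every datum `i` (= value of the state `(core, Σ⁺)`): frozen set `F i`, tower `(a i, o i)` round its tip cell, fresh set `X i`. -/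
theorem pvbp_cyl_blocks (hT : T.IsSph) {J : ℕ} {q : ℝ} (hq : 0 ≤ q) {ι : Type} (F : ι → Finset V) (K : ι → (V → Bool) → Prop)
    (hK : ∀ i (ω ω' : V → Bool), (∀ v ∈ F i, ω' v = ω v) → K i ω → K i ω') (hu : ∀ i i' ω, K i ω → K i' ω → i = i')
    (a o : ι → ℕ → T.Cyc) (h : ∀ i ω, K i ω → PvaxTower T (2 * J) (a i) (o i) q) (X : ι → Set V) (A : Finset V) (ξ : V → Bool) (hXA : ∀ i ω, K i ω → ∀ v ∈ X i, v ∈ A ∧ v ∉ F i) :
    pvaP A ξ (fun ω => ∃ i, K i ω ∧ ∀ j < J, ¬ PvbpBlock T (a i) (o i) (X i) j ω) ≤ (1 - q ^ 2) ^ J * pvaP A ξ (fun ω => ∃ i, K i ω) :=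
  pvbp_cyl F K hK hu (fun i ω => ∀ j < J, ¬ PvbpBlock T (a i) (o i) (X i) j ω) A ξ fun i ω _ hk =>
    pvbp_fresh hT hq (h i ω hk) (A \ F i) ω fun v hv => Finset.mem_sdiff.2 (hXA i ω hk v hv)

end abs

/-! ## 3. positions: geometric blocks (canonical: no choice of a tower in the event) -/

section geo

variable {V D : Type} [DecidableEq V] {T : PvMap V D}

/-- a cycle at radius `(r, R)` round `z` all of whose allowed (= fresh) vertices have the colour `b` -/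
def PvbpCirc (T : PvMap V D) (pos : V → ℂ) (X : Set V) (z : ℂ) (r R : ℝ) (b : Bool) (s : V → Bool) : Prop :=
  ∃ c : T.Cyc, PvaxAt T pos z r R c ∧ ∀ v ∈ c.verts, v ∈ X → s v = b

/-- **GEOMETRIC BLOCK_j** round `z` at the scale `ρ`: a cycle at radius `(16^(4j) ρ, 5/4 · 16^(4j+1) ρ)` whose fresh vertices are black, a cycle at radius `(16^(4j+2) ρ, 5/4 · 16^(4j+3) ρ)` whose fresh vertices are white -/
def PvbpGBlock (T : PvMap V D) (pos : V → ℂ) (X : Set V) (z : ℂ) (ρ : ℝ) (j : ℕ) (s : V → Bool) : Prop :=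
  PvbpCirc T pos X z ((16 : ℝ) ^ (4 * j) * ρ) (5 / 4 * ((16 : ℝ) ^ (4 * j + 1) * ρ)) true s ∧
    PvbpCirc T pos X z ((16 : ℝ) ^ (4 * j + 2) * ρ) (5 / 4 * ((16 : ℝ) ^ (4 * j + 3) * ρ)) false s

/-- a tower of `2J` annuli round `z` at the radii `16^i ρ` -/
structure PvbpTw (T : PvMap V D) (pos : V → ℂ) (q : ℝ) (z : ℂ) (ρ : ℝ) (J : ℕ) (a o : ℕ → T.Cyc) : Prop where
  tw : PvaxTower T (2 * J) a o q
  ata : ∀ i < 2 * J, PvaxAt T pos z ((16 : ℝ) ^ (2 * i) * ρ) (5 / 4 * ((16 : ℝ) ^ (2 * i) * ρ)) (a i)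
  ato : ∀ i < 2 * J, PvaxAt T pos z ((16 : ℝ) ^ (2 * i + 1) * ρ) (5 / 4 * ((16 : ℝ) ^ (2 * i + 1) * ρ)) (o i)

theorem pvbp_eqns_cite2 : True := by
  have := @PvbpCirc.eq_1; have := @PvbpGBlock.eq_1
  trivial

theorem pvbp_circ_anti {pos : V → ℂ} {X X' : Set V} (h : X ⊆ X') {z : ℂ} {r R : ℝ} {b : Bool} {s : V → Bool} (hc : PvbpCirc T pos X' z r R b s) : PvbpCirc T pos X z r R b s := by
  obtain ⟨c, h1, h2⟩ := hc
  exact ⟨c, h1, fun v hv hx => h2 v hv (h hx)⟩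

theorem pvbp_gblock_anti {pos : V → ℂ} {X X' : Set V} (h : X ⊆ X') {z : ℂ} {ρ : ℝ} {j : ℕ} {s : V → Bool} (hb : PvbpGBlock T pos X' z ρ j s) : PvbpGBlock T pos X z ρ j s :=
  ⟨pvbp_circ_anti h hb.1, pvbp_circ_anti h hb.2⟩

/-- the circuit event reads the colours of the allowed vertices in the open shell only -/
theorem pvbp_circ_congr (hT : T.IsSph) {pos : V → ℂ} {X : Set V} {z : ℂ} {r R : ℝ} {b : Bool} {s s' : V → Bool}
    (h : ∀ v ∈ X, r < ‖pos v - z‖ → ‖pos v - z‖ < R → s' v = s v) (hc : PvbpCirc T pos X z r R b s) : PvbpCirc T pos X z r R b s' := by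
  obtain ⟨c, h1, h2⟩ := hc
  refine ⟨c, h1, fun v hv hx => ?_⟩
  have h3 := pvax_at_verts hT h1 hv
  rw [h v hx h3.1 h3.2]
  exact h2 v hv hx

/-- a cycle between a cycle at radius `(r, r')` and a cycle at radius `(R, R')` is a cycle at radius `(r, R')` -/
theorem pvbp_at_between {pos : V → ℂ} {z : ℂ} {r r' R R' : ℝ} {c' c c'' : T.Cyc} (h' : PvaxAt T pos z r r' c') (h : PvaxAt T pos z R R' c) (h1 : c'.Left ⊆ c''.Left) (h2 : c''.Left ⊆ c.Left) :
    PvaxAt T pos z r R' c'' :=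
  ⟨h.fin.subset h2, fun v hv d hd => h1 (h'.inn v hv d hd), fun v hv => by
    obtain ⟨d, hd, e⟩ := hv
    exact h.out v ⟨d, h2 hd, e⟩⟩

/-- a block of the tower is a geometric block.      The allowed set of the tower block may be cut down to any set `A` which contains the disc of radius `5/4 · 16^(4J) ρ`. -/
theorem pvbp_gblock_of_block (hT : T.IsSph) (hS : T.Simple) {pos : V → ℂ} {q : ℝ} {z : ℂ} {ρ : ℝ} (hρ : 0 < ρ) {J : ℕ} {a o : ℕ → T.Cyc} (h : PvbpTw T pos q z ρ J a o) {X A : Set V}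
    (hA : ∀ v, ‖pos v - z‖ < 5 / 4 * ((16 : ℝ) ^ (4 * J) * ρ) → v ∈ A) {j : ℕ} (hj : j < J) {s : V → Bool} (hb : PvbpBlock T a o (X ∩ A) j s) : PvbpGBlock T pos X z ρ j s := by
  obtain ⟨⟨c, h1, h2, h3⟩, c', h1', h2', h3'⟩ := (pvbp_block_iff hT hS h.tw (X ∩ A) hj s).1 hb
  have hpow : ∀ k, k ≤ 4 * J → 5 / 4 * ((16 : ℝ) ^ k * ρ) ≤ 5 / 4 * ((16 : ℝ) ^ (4 * J) * ρ) := by
    intro k hk
    have : (16 : ℝ) ^ k ≤ (16 : ℝ) ^ (4 * J) := pow_le_pow_right₀ (by norm_num) hk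
    nlinarith
  have e1 : 2 * (2 * j) = 4 * j := by ring
  have e2 : 2 * (2 * j) + 1 = 4 * j + 1 := by ring
  have e3 : 2 * (2 * j + 1) = 4 * j + 2 := by ring
  have e4 : 2 * (2 * j + 1) + 1 = 4 * j + 3 := by ring
  have ha1 := h.ata (2 * j) (by omega)
  have ho1 := h.ato (2 * j) (by omega)
  have ha2 := h.ata (2 * j + 1) (by omega)
  have ho2 := h.ato (2 * j + 1) (by omega)
  rw [e1] at ha1
  rw [e2] at ho1
  rw [e3] at ha2
  rw [e4] at ho2
  have hc := pvbp_at_between ha1 ho1 h2 h3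
  have hc' := pvbp_at_between ha2 ho2 h2' h3'
  refine ⟨⟨c, hc, fun v hv hx => h1 v hv ⟨hx, hA v ?_⟩⟩, c', hc', fun v hv hx => h1' v hv ⟨hx, hA v ?_⟩⟩
  · exact lt_of_lt_of_le (pvax_at_verts hT hc hv).2 (hpow _ (by omega))
  · exact lt_of_lt_of_le (pvax_at_verts hT hc' hv).2 (hpow _ (by omega))

/-- **no geometric block among `J`**, fresh bits on `A` (which contains the FRESH vertices of the disc), any background -/
theorem pvbp_gfresh (hT : T.IsSph) (hS : T.Simple) {pos : V → ℂ} {q : ℝ} (hq : 0 ≤ q) {z : ℂ} {ρ : ℝ} (hρ : 0 < ρ) {J : ℕ} {a o : ℕ → T.Cyc} (h : PvbpTw T pos q z ρ J a o) {X : Set V}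
    (A : Finset V) (ξ : V → Bool) (hA : ∀ v ∈ X, ‖pos v - z‖ < 5 / 4 * ((16 : ℝ) ^ (4 * J) * ρ) → v ∈ A) :
    pvaP A ξ (fun s => ∀ j < J, ¬ PvbpGBlock T pos X z ρ j s) ≤ (1 - q ^ 2) ^ J := by
  refine le_trans (pva_P_mono fun ω _ hω j hj hb => hω j hj ?_)
    (pvbp_fresh hT hq h.tw A ξ (X := X ∩ {v | ‖pos v - z‖ < 5 / 4 * ((16 : ℝ) ^ (4 * J) * ρ)}) fun v hv => hA v hv.1 hv.2)
  exact pvbp_gblock_of_block hT hS hρ h (fun v hv => hv) hj hb

/-- **(H4b), CYLINDER FORM, GEOMETRIC BLOCKS**: `y i` = centre of the tip cell of the datum `i`, fresh set = complement of the frozen set `F i`; `A` = any finite set which contains the discs round the tip cells -/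
theorem pvbp_cyl_gblocks (hT : T.IsSph) (hS : T.Simple) {pos : V → ℂ} {q : ℝ} (hq : 0 ≤ q) {ρ : ℝ} (hρ : 0 < ρ) {J : ℕ} {ι : Type} (F : ι → Finset V) (K : ι → (V → Bool) → Prop)
    (hK : ∀ i (ω ω' : V → Bool), (∀ v ∈ F i, ω' v = ω v) → K i ω → K i ω') (hu : ∀ i i' ω, K i ω → K i' ω → i = i') (y : ι → ℂ)
    (htw : ∀ i ω, K i ω → ∃ a o : ℕ → T.Cyc, PvbpTw T pos q (y i) ρ J a o) (A : Finset V) (ξ : V → Bool)
    (hA : ∀ i ω, K i ω → ∀ v, ‖pos v - y i‖ < 5 / 4 * ((16 : ℝ) ^ (4 * J) * ρ) → v ∈ A) :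
    pvaP A ξ (fun ω => ∃ i, K i ω ∧ ∀ j < J, ¬ PvbpGBlock T pos (↑(F i))ᶜ (y i) ρ j ω) ≤ (1 - q ^ 2) ^ J * pvaP A ξ (fun ω => ∃ i, K i ω) := by
  refine pvbp_cyl F K hK hu (fun i ω => ∀ j < J, ¬ PvbpGBlock T pos (↑(F i))ᶜ (y i) ρ j ω) A ξ fun i ω _ hk => ?_
  obtain ⟨a, o, h⟩ := htw i ω hk
  exact pvbp_gfresh hT hS hq hρ h (A \ F i) ω fun v hv hd => Finset.mem_sdiff.2 ⟨hA i ω hk v hd, fun h' => hv (Finset.mem_coe.2 h')⟩

/-- **(H4b), STOPPING-SET FORM, GEOMETRIC BLOCKS** -/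
theorem pvbp_stop_gblocks (hT : T.IsSph) (hS' : T.Simple) {pos : V → ℂ} {q : ℝ} (hq : 0 ≤ q) {ρ : ℝ} (hρ : 0 < ρ) {J : ℕ} {S : (V → Bool) → Finset V} (hS : PvaStop S)
    {K : (V → Bool) → Prop} (hK : PvaMeas S K) {y : (V → Bool) → ℂ} (hy : PvaMeas S y) (htw : ∀ ω, K ω → ∃ a o : ℕ → T.Cyc, PvbpTw T pos q (y ω) ρ J a o) (A : Finset V) (ξ : V → Bool)
    (hA : ∀ ω, K ω → ∀ v, ‖pos v - y ω‖ < 5 / 4 * ((16 : ℝ) ^ (4 * J) * ρ) → v ∈ A) :
    pvaP A ξ (fun ω => K ω ∧ ∀ j < J, ¬ PvbpGBlock T pos (↑(S ω))ᶜ (y ω) ρ j ω) ≤ (1 - q ^ 2) ^ J * pvaP A ξ K := by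
  refine pva_smarkov_le hS hK A ξ fun ω hω hk => ?_
  have e1 : pvaP (A \ S ω) ω (fun ω' => ∀ j < J, ¬ PvbpGBlock T pos (↑(S ω'))ᶜ (y ω') ρ j ω') = pvaP (A \ S ω) ω (fun ω' => ∀ j < J, ¬ PvbpGBlock T pos (↑(S ω))ᶜ (y ω) ρ j ω') := by
    refine pva_P_congr fun ω' hω' => ?_
    have hag : ∀ v ∈ S ω, ω' v = ω v := fun v hv => hω' v fun h2 => (Finset.mem_sdiff.1 h2).2 hv
    rw [hS ω ω' hag, hy ω ω' hag]
  rw [e1]
  obtain ⟨a, o, h⟩ := htw ω hk
  exact pvbp_gfresh hT hS' hq hρ h (A \ S ω) ω fun v hv hd => Finset.mem_sdiff.2 ⟨hA ω hk v hd, fun h' => hv (Finset.mem_coe.2 h')⟩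

end geo

/-! ## 4. Poisson: frames on a grid of tip cells, the two seams -/

section poisson

open MeasureTheory Filter Topology Claims.C0465
open scoped ENNReal

/-- the radii of the towers -/
noncomputable def pvbpRs (ρ : ℝ) (J : ℕ) : Finset ℝ := by
  classical exact (Finset.range (4 * J)).image fun j => (16 : ℝ) ^ j * ρ

theorem pvbp_Rs_mem {ρ : ℝ} {J j : ℕ} (hj : j < 4 * J) : (16 : ℝ) ^ j * ρ ∈ pvbpRs ρ J := by
  classical exact Finset.mem_image.2 ⟨j, Finset.mem_range.2 hj, rfl⟩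

theorem pvbp_Rs_pos {ρ : ℝ} (hρ : 0 < ρ) {J : ℕ} : ∀ r ∈ pvbpRs ρ J, 0 < r := by
  classical
  intro r hr
  obtain ⟨j, -, rfl⟩ := Finset.mem_image.1 hr
  positivity

/-- **QBX-good geometry on a finite grid `Z` of tip cells ⟹ the towers** -/
theorem pvbp_frame_tower {q : ℝ} {Z : Finset ℂ} {ρ : ℝ} (hρ : 0 < ρ) {J : ℕ} (hJ : 0 < J) {Y : Set ℂ} (hF : PvaxFrame q Z (pvbpRs ρ J) Y) (h : DelGood Y) {z : ℂ} (hz : z ∈ Z) :
    ∃ a o : ℕ → (delMap h).Cyc, PvbpTw (delMap h) (dlsPos Y) q z ρ J a o := by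
  obtain ⟨a, o, h1, h2, h3⟩ := pvax_frame_tower hF h hz hρ (m := 2 * J) (by omega) fun j hj => pvbp_Rs_mem (by omega)
  exact ⟨a, o, h1, h2, h3⟩

/-- **SEAM 1**: the OUTER measure of a set of geometries can be computed in the sample space (`≥` is `pvax_geo_le`) -/
theorem pvbp_geo_outer (ε : ℝ) (S : Set PvGeoT) : pvGeo ε S ≤ pvLaw ε {ω | pvGeoOf ω ∈ S} := by
  set M := toMeasurable (pvLaw ε) {ω | pvGeoOf ω ∈ S} with hM
  have hMm : MeasurableSet M := measurableSet_toMeasurable _ _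
  have hsub : S ⊆ {g | 1 ≤ pvQ M g} := by
    intro g hg
    have : {c | pvMerge (g, c) ∈ M} = Set.univ := by
      refine Set.eq_univ_of_forall fun c => ?_
      exact subset_toMeasurable _ _ (show pvGeoOf (pvMerge (g, c)) ∈ S from hg)
    show 1 ≤ pvCol {c | pvMerge (g, c) ∈ M}
    rw [this, measure_univ]
  calc pvGeo ε S ≤ pvGeo ε {g | 1 ≤ pvQ M g} := measure_mono hsub
    _ ≤ (∫⁻ g, pvQ M g ∂(pvGeo ε)) / 1 := meas_ge_le_lintegral_div (pvqu_Q_meas hMm).aemeasurable one_ne_zero ENNReal.one_ne_top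
    _ = pvLaw ε {ω | pvGeoOf ω ∈ S} := by rw [div_one, pvqu_Q_lintegral ε hMm, hM, measure_toMeasurable]

theorem pvbp_geo_eq (ε : ℝ) (S : Set PvGeoT) : pvGeo ε S = pvLaw ε {ω | pvGeoOf ω ∈ S} := le_antisymm (pvbp_geo_outer ε S) (pvax_geo_le ε S)

/-- the frame event fails with small OUTER `pvGeo` measure -/
theorem pvbp_frame_geo {q : ℝ} (hQ : PvaxQbx q) (Z : Finset ℂ) (Rs : Finset ℝ) (hRs : ∀ r ∈ Rs, 0 < r) :
    Tendsto (fun ε : ℝ => pvGeo ε {g | ¬ PvaxFrame q Z Rs (pvgSites g)}) (𝓝[>] 0) (𝓝 0) := by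
  refine (pvax_frame hQ Z Rs hRs).congr fun ε => ?_
  rw [pvbp_geo_eq]
  congr 1
  ext ω
  simp only [Set.mem_ofPred_eq, pvax_sites]

open Classical in
/-- **SEAM 2**: at a fixed geometry the colours of the sites are fair bits (`K` reads the finite set `A`) -/
theorem pvbp_col (g : PvGeoT) (A : Finset (pvgSites g)) (K : (pvgSites g → Bool) → Prop) (hK : PvalLoc A K) (ξ : pvgSites g → Bool) :
    pvCol {c | K (fun v => pvgColAt g c v)} = ENNReal.ofReal (pvaP A ξ K) := by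
  let f : ↥(pvgSites g) → PvIx := fun v => pvgIdx g v
  have hf : Function.Injective f := fun v w hvw => Subtype.ext (pvqu_idx_injOn g v.2 w.2 hvw)
  have hm : Measurable (fun s : PvIx → Bool => s ∘ f) := measurable_pi_lambda _ fun v => measurable_pi_apply (f v)
  have h2 : colLaw PvIx {c₀ | K (c₀ ∘ f)} = colLaw _ {s | K s} := by
    rw [← pvf_colLaw_comp f hf, Measure.map_apply hm (pval_loc_measurableSet hK)]
    rfl
  rw [← pval_measure hK ξ, ← h2]
  rfl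

end poisson

end Claimed.Agent.R289
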