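import Claimed.Agent.R289.Tr.PinLoc
import Claimed.Agent.R289.Tr.Local
import Claimed.Agent.R289.Tr.Dense
import Claimed.Agent.R289.Arm.Stop
import Claimed.Agent.R289.S1P.Cov

/-!
# R289 / Tr / PinLocB : consumer layer of the locality kit `Tr/PinLoc` (owner helper238, prefixes `pvplb_`, `Pvpl`)

SHARED POST of the two roads (P and E): "flags: locality + measurability".

* section 6: a `PvplIso` of simple maps is a `PvLoc` of `Tr/Local` (22), so every transfer typed there proves `Φ.Local K`.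
* section 7: `PvplRep θ Φ K E ρ B` = the record "`B` is measurable, reads `E ×ˢ univ`, and on the mesh event equals `Φ` evaluated on EVERY completion"; existence `pvplb_main`, covariance `PvplRep.sim`, uniqueness `PvplRep.unique`.
* section 8: the marks of record (ring test `pvplRad`, grid `pvplGrid`), and the scaling of the law `pvplb_law_sim`.
* section 9: the gates (`PvgGate`) and cleanness (`PvdiClean`) as local predicates, consumer forms `PvplRep.gate_at`, `PvplRep.clean_at`.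
* section 10: `PvplPred.quench`, `PvplPred.Local.quench`: the quenched probability of a local predicate is a local predicate (`PvplIso.pvaP_eq`), blind to the fresh colours.
-/

set_option autoImplicit false
set_option linter.unusedSectionVars false

namespace Claimed.Agent.R289

open MeasureTheory ProbabilityTheory Set Filter Topology Metric Claims.C0465
open scoped ENNReal

/-! ## 6. THE BRIDGE TO THE DETERMINISTIC KIT `Tr/Local` (22) -/

section loc

variable {κ : Type} {V D V' D' : Type} {T : PvMap V D} {mk : V → κ} {s : V → Bool} {T' : PvMap V' D'} {mk' : V' → κ} {s' : V' → Bool} {K : Set κ} {R : V → V' → Prop}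

/-- the dart correspondence of record: corresponding faces with a vertex marked in `K` -/
def pvplRK (T : PvMap V D) (mk : V → κ) (T' : PvMap V' D') (K : Set κ) (R : V → V' → Prop) (d : D) (d' : D') : Prop :=
  PvplRD T T' R d d' ∧ d ∈ pvplB T fun v => mk v ∈ K

theorem pvplb_eqns_cite : True := by
  have := @pvplRK.eq_1
  trivial

/-- **a `PvplIso` of simple maps is a `PvLoc` of helper22**: all the transfers of `Tr/Local` (paths, `NB`, cycles, `Left`, strands, gates) prove `Φ.Local K` -/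
theorem PvplIso.toLoc (h : PvplIso T mk s T' mk' s' K R) (hS : T.Simple) (hS' : T'.Simple) : PvLoc T T' (pvplRK T mk T' K R) where
  iso :=
    { fn := fun h1 h2 => h.rd_fn hS' h1.1 h2.1
      inj := fun h1 h2 => h.rd_inj hS h1.1 h2.1
      nxt := fun h1 => ⟨h1.1.nxt, (pvpl_B_face T _ _).2 h1.2⟩
      opp := fun {d d' x'} h1 h2 => by
        refine hS' _ _ ?_ ?_
        · rw [T'.src_opp']
          have := h2.1.1
          rw [T.src_opp'] at this
          exact h.fn _ _ _ this h1.1.2.1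
        · rw [T'.tgt_opp]
          have := h2.1.2.1
          rw [T.tgt_opp] at this
          exact h.fn _ _ _ this h1.1.1
      opp' := fun {d x d'} h1 h2 => by
        refine hS _ _ ?_ ?_
        · rw [T.src_opp']
          have := h2.1.1
          rw [T'.src_opp'] at this
          exact h.inj _ _ _ this h1.1.2.1
        · rw [T.tgt_opp]
          have := h2.1.2.1
          rw [T'.tgt_opp] at this
          exact h.inj _ _ _ this h1.1.1 }
  vfn := fun h1 h2 e => h.fn _ _ _ h1.1.1 (e ▸ h2.1.1)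
  vinj := fun h1 h2 e => h.inj _ _ _ h1.1.1 (e ▸ h2.1.1)

/-- the vertices marked in `K` are FULL -/
theorem PvplIso.full (h : PvplIso T mk s T' mk' s' K R) {v : V} (hv : mk v ∈ K) : v ∈ T.Int (plDom (pvplRK T mk T' K R)) := by
  intro d hd
  subst hd
  obtain ⟨d', hd'⟩ := h.ex d hv
  exact ⟨d', hd', Or.inl hv⟩

theorem PvplIso.full' (h : PvplIso T mk s T' mk' s' K R) {v' : V'} (hv : mk' v' ∈ K) : v' ∈ T'.Int (plRan (pvplRK T mk T' K R)) := by
  intro d' hd
  subst hd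
  obtain ⟨d, hd⟩ := h.ex' d' hv
  exact ⟨d, hd, Or.inl (by show mk (T.src d) ∈ K; rw [← h.mark _ _ hd.1]; exact hv)⟩

/-- the vertex correspondence of `Tr/Local` is contained in `R` -/
theorem pvplb_locV {v : V} {v' : V'} (h : pvlocV T T' (pvplRK T mk T' K R) v v') : R v v' := by
  obtain ⟨d, d', h1, rfl, rfl⟩ := h
  exact h1.1.1

theorem PvplIso.loc_col (h : PvplIso T mk s T' mk' s' K R) : ∀ d d', pvplRK T mk T' K R d d' → s (T.src d) = s' (T'.src d') :=
  fun _ _ hd => (h.col _ _ hd.1.1).symm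

theorem PvplIso.loc_mark (h : PvplIso T mk s T' mk' s' K R) : ∀ d d', pvplRK T mk T' K R d d' → mk (T.src d) = mk' (T'.src d') :=
  fun _ _ hd => (h.mark _ _ hd.1.1).symm

end loc

/-! ## 7. REPRESENTING EVENTS;  COVARIANCE UNDER SIMILARITIES (one event of unit scale for all centres and all scales) -/

section rep

variable {κ : Type}

/-- `B` REPRESENTS the local predicate `Φ` (tests `θ`, region `K`, window `E`, mesh `ρ`): on the mesh event it is the event `Φ` for EVERY completion -/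
def PvplRep (θ : ℂ → κ) (Φ : PvplPred κ) (K : Set κ) (E : Set ℂ) (ρ : ℝ) (B : Set (Conf PvPt)) : Prop :=
  ∀ (X : Type) (𝔅 : PvBulk X) (η : Conf PvPt) (ξ : X → Bool) (zi : ℂ), (η.pts ∩ E ×ˢ univ).Finite → 𝔅.Ok (cfSites η) (θ ⁻¹' K) → PvtrMesh ρ E (cfSites η) → θ zi ∉ K →
    (η ∈ B ↔ Φ _ _ (𝔅.T (cfSites η)) (fun v => θ (𝔅.posF _ zi v)) (𝔅.col η ξ))

/-- the surface of a bulk family at the site set `Y`, its names moved by `g` -/
def PvBulk.mv {X : Type} (𝔅 : PvBulk X) (Y : Set ℂ) (g : ℂ → ℂ) : PvgSurf X := ⟨𝔅.V Y, 𝔅.D Y, 𝔅.T Y, fun v => Sum.map g id (𝔅.lab Y v)⟩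

theorem pvplb_eqns_cite2 : True := by
  have := @PvplRep.eq_1; have := @PvBulk.mv.eq_1
  trivial

/-- `pvpl_main` in the vocabulary of this section -/
theorem pvplb_main [Countable κ] [MeasurableSpace κ] [MeasurableSingletonClass κ] {θ : ℂ → κ} (hθ : Measurable θ) {Φ : PvplPred κ} {K : Set κ} (hΦ : Φ.Local K)
    {E : Set ℂ} {ρ : ℝ} (hE : PvplWin E) (hρ : 0 < ρ) (hK : θ ⁻¹' K ⊆ pvtrCore (3 * ρ) E) :
    ∃ B : Set (Conf PvPt), MeasurableSet B ∧ Conf.ReadsSet (E ×ˢ univ) B ∧ PvplRep θ Φ K E ρ B := pvpl_main hθ hΦ hE hρ hK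

/-- the moved surface is a completion of the moved site set -/
theorem pvplb_mv_ok {X : Type} {𝔅 : PvBulk X} {Y K : Set ℂ} {α : ℂ} (hα : α ≠ 0) (β : ℂ) (hok : 𝔅.Ok Y K) :
    (𝔅.mv Y (vorSim α β)).Ok (vorSim α β '' Y) (vorSim α β '' K) := by
  have hg : Function.Injective (vorSim α β) := vorSim_injective hα β
  have hl : ∀ v p, Sum.map (vorSim α β) id (𝔅.lab Y v) = Sum.inl p → ∃ a, 𝔅.lab Y v = Sum.inl a ∧ vorSim α β a = p := by
    intro v p h
    cases hv : 𝔅.lab Y v with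
    | inl a =>
      rw [hv] at h
      exact ⟨a, rfl, Sum.inl_injective h⟩
    | inr x =>
      rw [hv] at h
      simp at h
  have hl' : ∀ v a, 𝔅.lab Y v = Sum.inl a → Sum.map (vorSim α β) id (𝔅.lab Y v) = Sum.inl (vorSim α β a) := by
    intro v a h
    rw [h]; rfl
  refine ⟨hok.sph, hok.simple, ?_, ?_, ?_, ?_, ?_⟩
  · exact (Sum.map_injective.2 ⟨hg, Function.injective_id⟩).comp hok.inj
  · intro v p h
    obtain ⟨a, ha, rfl⟩ := hl v p h
    exact ⟨a, hok.site v a ha, rfl⟩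
  · intro a' b' c' ht ha'
    obtain ⟨a, ha, rfl⟩ := ha'
    obtain ⟨b, -, rfl⟩ := ht.2.1
    obtain ⟨c, -, rfl⟩ := ht.2.2.1
    obtain ⟨d, h1, h2, h3⟩ := hok.face a b c ((pvtr_tri_sim hα β).1 ht) ha
    exact ⟨d, hl' _ _ h1, hl' _ _ h2, hl' _ _ h3⟩
  · intro d a' hd ha'
    obtain ⟨a, ha, e⟩ := hl _ _ hd
    obtain ⟨a0, ha0, e0⟩ := ha'
    have : a = a0 := hg (e.trans e0.symm)
    subst this
    obtain ⟨b, c, h1, h2, h3⟩ := hok.del d a ha ha0
    exact ⟨_, _, hl' _ _ h1, hl' _ _ h2, e ▸ (pvtr_tri_sim hα β).2 h3⟩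
  · intro d a' b' c' h1 h2 h3
    obtain ⟨a, ha, rfl⟩ := hl _ _ h1
    obtain ⟨b, hb, rfl⟩ := hl _ _ h2
    obtain ⟨c, hc, rfl⟩ := hl _ _ h3
    exact (pvtr_tri_sim hα β).2 (hok.emb d a b c ha hb hc)

/-- **covariance**: the preimage of a representing event under a similarity represents the same predicate with the moved tests -/
theorem PvplRep.sim {θ : ℂ → κ} {Φ : PvplPred κ} {K : Set κ} {E : Set ℂ} {ρ : ℝ} {B : Set (Conf PvPt)} (hB : PvplRep θ Φ K E ρ B) {α : ℂ} (hα : α ≠ 0) (β : ℂ) :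
    PvplRep (θ ∘ vorSim α β) Φ K (vorSim α β ⁻¹' E) (ρ / ‖α‖) (cfMap (vorSim α β) ⁻¹' B) := by
  intro X 𝔅 η ξ zi hf hok hm hzi
  have hsur : Function.Surjective (vorSim α β) := vorSim_surjective hα β
  have hn : ‖α‖ ≠ 0 := norm_ne_zero_iff.2 hα
  have e1 : cfSites (cfMap (vorSim α β) η) = vorSim α β '' cfSites η := pvcv_sites α β η
  have hK' : θ ⁻¹' K = vorSim α β '' ((θ ∘ vorSim α β) ⁻¹' K) := by
    rw [preimage_comp, image_preimage_eq _ hsur]
  have hok' : (pvgFam fun _ => 𝔅.mv (cfSites η) (vorSim α β)).Ok (cfSites (cfMap (vorSim α β) η)) (θ ⁻¹' K) := by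
    rw [pvg_w_fam_ok, e1, hK']
    exact pvplb_mv_ok hα β hok
  have hm' : PvtrMesh ρ E (cfSites (cfMap (vorSim α β) η)) := by
    have := (pvtr_mesh_sim (ρ := ρ / ‖α‖) (E := vorSim α β ⁻¹' E) (Y := cfSites η) hα β).2 hm
    rwa [image_preimage_eq _ hsur, mul_div_cancel₀ _ hn, ← e1] at this
  have hf' : ((cfMap (vorSim α β) η).pts ∩ E ×ˢ univ).Finite := by
    refine (hf.image (Prod.map (vorSim α β) id)).subset ?_
    rintro p ⟨⟨q, hq, rfl⟩, hp⟩
    exact ⟨q, ⟨hq, ⟨hp.1, mem_univ _⟩⟩, rfl⟩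
  have key := hB X (pvgFam fun _ => 𝔅.mv (cfSites η) (vorSim α β)) (cfMap (vorSim α β) η) ξ (vorSim α β zi) hf' hok' hm' hzi
  have em : ∀ v : 𝔅.V (cfSites η), θ ((pvgFam fun _ => 𝔅.mv (cfSites η) (vorSim α β)).posF (cfSites (cfMap (vorSim α β) η)) (vorSim α β zi) v)
      = (θ ∘ vorSim α β) (𝔅.posF (cfSites η) zi v) := by
    intro v
    show θ (Sum.elim id (fun _ => vorSim α β zi) (Sum.map (vorSim α β) id (𝔅.lab (cfSites η) v))) = θ (vorSim α β (Sum.elim id (fun _ => zi) (𝔅.lab (cfSites η) v)))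
    cases 𝔅.lab (cfSites η) v <;> rfl
  have ec : ∀ v : 𝔅.V (cfSites η), (pvgFam fun _ => 𝔅.mv (cfSites η) (vorSim α β)).col (cfMap (vorSim α β) η) ξ v = 𝔅.col η ξ v := by
    intro v
    show Sum.elim (cfCol (cfMap (vorSim α β) η)) ξ (Sum.map (vorSim α β) id (𝔅.lab (cfSites η) v)) = Sum.elim (cfCol η) ξ (𝔅.lab (cfSites η) v)
    cases 𝔅.lab (cfSites η) v with
    | inl a => exact pvcv_col hα η a
    | inr x => rfl
  have cong : ∀ (m₁ m₂ : 𝔅.V (cfSites η) → κ) (s₁ s₂ : 𝔅.V (cfSites η) → Bool), m₁ = m₂ → s₁ = s₂ →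
      (Φ _ _ (𝔅.T (cfSites η)) m₁ s₁ ↔ Φ _ _ (𝔅.T (cfSites η)) m₂ s₂) := by
    rintro m₁ _ s₁ _ rfl rfl
    exact Iff.rfl
  exact key.trans (cong _ _ _ _ (funext em) (funext ec))

/-- two representing events coincide on the mesh event as soon as ONE completion exists -/
theorem PvplRep.unique {θ : ℂ → κ} {Φ : PvplPred κ} {K : Set κ} {E : Set ℂ} {ρ : ℝ} {B B' : Set (Conf PvPt)} (hB : PvplRep θ Φ K E ρ B) (hB' : PvplRep θ Φ K E ρ B')
    {X : Type} (𝔅 : PvBulk X) {η : Conf PvPt} (ξ : X → Bool) {zi : ℂ} (hf : (η.pts ∩ E ×ˢ univ).Finite) (hok : 𝔅.Ok (cfSites η) (θ ⁻¹' K)) (hm : PvtrMesh ρ E (cfSites η))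
    (hzi : θ zi ∉ K) : η ∈ B ↔ η ∈ B' :=
  (hB X 𝔅 η ξ zi hf hok hm hzi).trans (hB' X 𝔅 η ξ zi hf hok hm hzi).symm

end rep

/-! ## 8. POSITION TESTS: rings and grid squares -/

section tests

open Classical in
/-- RADIAL TEST: the number of the radii `r 0 ≤ r 1 ≤ … ≤ r (n-1)` which are `< ‖p‖` (`= j`: `p` lies in the `j`-th ring) -/
noncomputable def pvplRad (r : ℕ → ℝ) (n : ℕ) (p : ℂ) : ℕ := ((Finset.range n).filter fun i => r i < ‖p‖).card

/-- GRID TEST: the square of side `δ` which contains `p` -/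
noncomputable def pvplGrid (δ : ℝ) (p : ℂ) : ℤ × ℤ := (⌊p.re / δ⌋, ⌊p.im / δ⌋)

theorem pvplb_eqns_cite3 : True := by
  have := @pvplRad.eq_1; have := @pvplGrid.eq_1
  trivial

theorem pvplb_rad_le {r : ℕ → ℝ} (hr : Monotone r) {n j : ℕ} (hj : j < n) (p : ℂ) : pvplRad r n p ≤ j ↔ ‖p‖ ≤ r j := by
  classical
  unfold pvplRad
  constructor
  · intro h
    by_contra hlt
    have hlt' : r j < ‖p‖ := not_le.1 hlt
    have hsub : Finset.range (j + 1) ⊆ (Finset.range n).filter fun i => r i < ‖p‖ := by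
      intro i hi
      rw [Finset.mem_range] at hi
      exact Finset.mem_filter.2 ⟨Finset.mem_range.2 (by omega), lt_of_le_of_lt (hr (by omega)) hlt'⟩
    have := Finset.card_le_card hsub
    rw [Finset.card_range] at this
    omega
  · intro h
    have hsub : ((Finset.range n).filter fun i => r i < ‖p‖) ⊆ Finset.range j := by
      intro i hi
      rw [Finset.mem_filter] at hi
      rw [Finset.mem_range]
      by_contra hij
      exact absurd (lt_of_lt_of_le hi.2 h) (not_lt.2 (hr (not_lt.1 hij)))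
    have := Finset.card_le_card hsub
    rwa [Finset.card_range] at this

theorem pvplb_rad_measurable (r : ℕ → ℝ) (n : ℕ) : Measurable (pvplRad r n) := by
  classical
  have e : pvplRad r n = fun p => ∑ i ∈ Finset.range n, if r i < ‖p‖ then 1 else 0 := by
    funext p
    unfold pvplRad
    rw [Finset.card_filter]
  rw [e]
  refine Finset.measurable_sum _ fun i _ => Measurable.ite ?_ measurable_const measurable_const
  exact measurableSet_lt measurable_const measurable_norm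

theorem pvplb_grid_measurable (δ : ℝ) : Measurable (pvplGrid δ) := by
  unfold pvplGrid
  exact ((Complex.measurable_re.div_const δ).floor).prodMk ((Complex.measurable_im.div_const δ).floor)

/-- the region `‖p‖ ≤ r j` in terms of the radial test -/
theorem pvplb_rad_preimage {r : ℕ → ℝ} (hr : Monotone r) {n j : ℕ} (hj : j < n) : pvplRad r n ⁻¹' {k | k ≤ j} = closedBall 0 (r j) := by
  ext p
  rw [mem_preimage, mem_ofPred_eq, pvplb_rad_le hr hj, mem_closedBall, dist_zero_right]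

/-- the similarity which maps `closedBall z (t h)` onto `closedBall 0 t` -/
theorem pvplb_sim_norm {h : ℝ} (hh : 0 < h) (z p : ℂ) : ‖vorSim ((h : ℂ)⁻¹) (-((h : ℂ)⁻¹ * z)) p‖ = ‖p - z‖ / h := by
  have : vorSim ((h : ℂ)⁻¹) (-((h : ℂ)⁻¹ * z)) p = (h : ℂ)⁻¹ * (p - z) := by
    unfold vorSim; ring
  rw [this, norm_mul, norm_inv, Complex.norm_real, Real.norm_of_nonneg hh.le]
  field_simp

theorem pvplb_sim_le {h : ℝ} (hh : 0 < h) (z p : ℂ) (t : ℝ) : ‖vorSim ((h : ℂ)⁻¹) (-((h : ℂ)⁻¹ * z)) p‖ ≤ t ↔ ‖p - z‖ ≤ t * h := by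
  rw [pvplb_sim_norm hh, div_le_iff₀ hh]

theorem pvplb_sim_ball {h : ℝ} (hh : 0 < h) (z : ℂ) (t : ℝ) : vorSim ((h : ℂ)⁻¹) (-((h : ℂ)⁻¹ * z)) ⁻¹' closedBall 0 t = closedBall z (t * h) := by
  ext p
  rw [mem_preimage, mem_closedBall, dist_zero_right, pvplb_sim_le hh, mem_closedBall, dist_eq_norm]

/-- **stationarity + scaling**: law of the copy at `(z, h)` of an event of unit scale -/
theorem pvplb_law_sim {h : ℝ} (hh : 0 < h) (z : ℂ) (ε : ℝ) {B : Set (Conf PvPt)} (hB : MeasurableSet B) :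
    pvP ε (cfMap (vorSim ((h : ℂ)⁻¹) (-((h : ℂ)⁻¹ * z))) ⁻¹' B) = pvP (h⁻¹ * ε) B := by
  have e : cfMap (vorSim ((h : ℂ)⁻¹) (-((h : ℂ)⁻¹ * z))) = cfMap (fun w => h⁻¹ • w) ∘ cfMap (fun w => w + -z) := by
    funext η
    rw [Function.comp_apply, ← pvtd_cfMap_comp]
    congr 1
    funext w
    simp only [vorSim, Function.comp_apply, Complex.real_smul, Complex.ofReal_inv]
    ring
  have h1 : Measurable fun w : ℂ => w + -z := measurable_id.add_const _
  have h2 : Measurable fun w : ℂ => h⁻¹ • w := measurable_id.const_smul h⁻¹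
  have hmeas : Measurable (cfMap (vorSim ((h : ℂ)⁻¹) (-((h : ℂ)⁻¹ * z)))) := by
    rw [e]; exact (measurable_cfMap h2).comp (measurable_cfMap h1)
  have hm : (pvP ε).map (cfMap (vorSim ((h : ℂ)⁻¹) (-((h : ℂ)⁻¹ * z)))) = pvP (h⁻¹ * ε) := by
    rw [e, ← Measure.map_map (measurable_cfMap h2) (measurable_cfMap h1), pvP_translate, pvP_scale (inv_ne_zero hh.ne')]
  rw [← hm, Measure.map_apply hmeas hB]

end tests

/-! ## 9. GATES: `∃ G X, PvgGate` is local;  the events of unit scale -/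

section gate

variable {κ : Type} {V D V' D' : Type} {T : PvMap V D} {mk : V → κ} {s : V → Bool} {T' : PvMap V' D'} {mk' : V' → κ} {s' : V' → Bool} {K : Set κ} {R : V → V' → Prop}

/-- every face of `O` has a partner -/
theorem PvplIso.ex_B (h : PvplIso T mk s T' mk' s' K R) {P : κ → Prop} (hP : ∀ k, P k → k ∈ K) {d : D} (hd : d ∈ pvplB T fun v => P (mk v)) : ∃ d', PvplRD T T' R d d' := by
  rcases hd with h1 | h1 | h1
  · exact h.ex d (hP _ h1)
  · obtain ⟨e', he'⟩ := h.ex (T.nxt d) (by rw [T.src_nxt]; exact hP _ h1)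
    refine ⟨T'.nxt (T'.nxt e'), ?_⟩
    have he'' : PvplRD T T' R (T.nxt d) e' := he'
    have := he''.nxt.nxt
    rwa [T.nxt3] at this
  · obtain ⟨e', he'⟩ := h.ex (T.nxt (T.nxt d)) (hP _ h1)
    refine ⟨T'.nxt e', ?_⟩
    have he'' : PvplRD T T' R (T.nxt (T.nxt d)) e' := he'
    have := he''.nxt
    rwa [T.nxt3] at this

/-- **transfer of a gate** of helper190 -/
theorem PvplIso.gate (h : PvplIso T mk s T' mk' s' K R) (hS' : T'.Simple) {Pa Pb : κ → Prop} (hab : ∀ k, Pa k → Pb k) (hbK : ∀ k, Pb k → k ∈ K)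
    (hst : PvplStar T mk Pb K) {c : Bool} {G : Set D} {X : Finset V}
    (hg : PvgGate T s c (pvplB T fun v => Pa (mk v)) (pvplB T fun v => Pb (mk v)) G X) :
    ∃ G' X', PvgGate T' s' c (pvplB T' fun v => Pa (mk' v)) (pvplB T' fun v => Pb (mk' v)) G' X' := by
  classical
  set X' : Finset V' := X.biUnion fun v => if hv : ∃ v', R v v' then {hv.choose} else ∅ with hX'
  have hmem : ∀ v', v' ∈ X' ↔ ∃ v ∈ X, R v v' := by
    intro v'
    rw [hX', Finset.mem_biUnion]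
    constructor
    · rintro ⟨v, hv, hv'⟩
      by_cases hex : ∃ v', R v v'
      · rw [dif_pos hex, Finset.mem_singleton] at hv'
        exact ⟨v, hv, hv' ▸ hex.choose_spec⟩
      · rw [dif_neg hex] at hv'
        simp at hv'
    · rintro ⟨v, hv, hr⟩
      have hex : ∃ v', R v v' := ⟨v', hr⟩
      refine ⟨v, hv, ?_⟩
      rw [dif_pos hex, Finset.mem_singleton]
      exact h.fn _ _ _ hr hex.choose_spec
  refine ⟨{d' | ∃ d ∈ G, PvplRD T T' R d d'}, X', ?_, ?_, ?_, ?_, ?_, ?_⟩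
  · intro d'
    constructor
    · rintro ⟨e, he, hr⟩
      refine ⟨T.nxt (T.nxt e), (hg.face _).2 ((hg.face _).2 he), ?_⟩
      have := hr.nxt.nxt
      rwa [T'.nxt3] at this
    · rintro ⟨d, hd, hr⟩
      exact ⟨T.nxt d, (hg.face d).2 hd, hr.nxt⟩
  · intro d' hd'
    obtain ⟨d, hr⟩ := h.symm.ex_B (P := Pa) (fun k hk => hbK k (hab k hk)) hd'
    have hr' : PvplRD T T' R d d' := hr
    exact ⟨d, hg.inner ((h.mem_B Pa hr').2 hd'), hr'⟩
  · rintro d' ⟨d, hd, hr⟩
    exact (h.mem_B Pb hr).1 (hg.outer hd)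
  · refine (Finset.card_biUnion_le_card_mul X _ 1 fun v _ => ?_).trans (by rw [mul_one]; exact hg.card)
    by_cases hex : ∃ v', R v v'
    · rw [dif_pos hex, Finset.card_singleton]
    · rw [dif_neg hex]; simp
  · intro v' hv'
    obtain ⟨v, hv, hr⟩ := (hmem v').1 hv'
    rw [h.col _ _ hr]
    exact hg.col v hv
  · rintro v' ⟨d', rfl, hbd⟩
    -- a dart `d` of the boundary of `G` which corresponds to `d'`
    have key : ∃ d, T.Bd G d ∧ R (T.src d) (T'.src d') := by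
      by_cases h1 : d' ∈ {d' | ∃ d ∈ G, PvplRD T T' R d d'}
      · obtain ⟨d, hd, hr⟩ := h1
        have hro := h.opp hS' hr (hst.tgt_mem hbK (hg.outer hd))
        refine ⟨d, fun hiff => hbd ⟨fun _ => ⟨T.opp d, hiff.1 hd, hro⟩, fun _ => ⟨d, hd, hr⟩⟩, hr.1⟩
      · have h2 : T'.opp d' ∈ {d' | ∃ d ∈ G, PvplRD T T' R d d'} := by
          by_contra h2
          exact hbd ⟨fun hh => absurd hh h1, fun hh => absurd hh h2⟩
        obtain ⟨e, he, hr⟩ := h2
        have hro := h.opp hS' hr (hst.tgt_mem hbK (hg.outer he))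
        rw [T'.opp_opp] at hro
        refine ⟨T.opp e, fun hiff => h1 ⟨T.opp e, hiff.2 (by rw [T.opp_opp]; exact he), hro⟩, hro.1⟩
    obtain ⟨d, hd, hr⟩ := key
    rcases hg.other _ ⟨d, rfl, hd⟩ with h3 | h3
    · exact Or.inl (by rw [h.col _ _ hr]; exact h3)
    · exact Or.inr ((hmem _).2 ⟨_, h3, hr⟩)

/-- **`mesh ∧ ∃ gate` is local** -/
theorem pvplb_gate_local {Pa Pb : κ → Prop} (hab : ∀ k, Pa k → Pb k) (hbK : ∀ k, Pb k → k ∈ K) (c : Bool) :
    PvplPred.Local (fun _ _ T mk s => PvplStar T mk Pb K ∧ ∃ G X, PvgGate T s c (pvplB T fun v => Pa (mk v)) (pvplB T fun v => Pb (mk v)) G X) K :=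
  PvplPred.Local.and_of (pvpl_star_local hbK) fun _ _ _ _ _ _ _ _ _ _ _ hS hS' hi hst =>
    ⟨fun ⟨_, _, hg⟩ => hi.gate hS' hab hbK hst hg, fun ⟨_, _, hg⟩ => hi.symm.gate hS hab hbK (hi.star hbK hst) hg⟩

end gate

section gateEv

/-- THE GATE PREDICATE IN RINGS (marks = index of the ring): mesh at the ring `jb`, a gate of colour `c` between the rings `ja` and `jb` -/
def pvplGateP (c : Bool) (ja jb : ℕ) : PvplPred ℕ := fun _ _ T mk s =>
  PvplStar T mk (fun k => k ≤ jb) {k | k ≤ jb + 1} ∧ ∃ G X, PvgGate T s c (pvplB T fun v => mk v ≤ ja) (pvplB T fun v => mk v ≤ jb) G X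

/-- THE CLEAN PREDICATE IN RINGS -/
def pvplCleanP (c : Bool) (ja jb : ℕ) : PvplPred ℕ := fun _ _ T mk s =>
  PvplStar T mk (fun k => k ≤ jb) {k | k ≤ jb + 1} ∧ PvplClean T mk s c (fun k => k ≤ ja) (fun k => k ≤ jb)

theorem pvplb_eqns_cite4 : True := by
  have := @pvplGateP.eq_1; have := @pvplCleanP.eq_1
  trivial

theorem pvplb_gateP_local (c : Bool) {ja jb : ℕ} (h : ja ≤ jb) : (pvplGateP c ja jb).Local {k | k ≤ jb + 1} :=
  pvplb_gate_local (Pa := fun k => k ≤ ja) (Pb := fun k => k ≤ jb) (fun _ hk => hk.trans h) (fun _ hk => Nat.le_succ_of_le hk) c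

theorem pvplb_cleanP_local (c : Bool) {ja jb : ℕ} (h : ja ≤ jb) : (pvplCleanP c ja jb).Local {k | k ≤ jb + 1} :=
  pvpl_clean_local (Pa := fun k => k ≤ ja) (Pb := fun k => k ≤ jb) (fun _ hk => hk.trans h) (fun _ hk => Nat.le_succ_of_le hk) c

/-- **events of unit scale for a predicate in rings** which is read in the ring `jK` -/
theorem pvplb_ring_event {Φ : PvplPred ℕ} {jK : ℕ} (hΦ : Φ.Local {k | k ≤ jK}) {r : ℕ → ℝ} (hr : Monotone r) {n : ℕ} (hK : jK < n) {ρ rE : ℝ} (hρ : 0 < ρ)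
    (hE : r jK + 3 * ρ ≤ rE) :
    ∃ B : Set (Conf PvPt), MeasurableSet B ∧ Conf.ReadsSet (closedBall 0 rE ×ˢ univ) B ∧ PvplRep (pvplRad r n) Φ {k | k ≤ jK} (closedBall 0 rE) ρ B := by
  refine pvplb_main (pvplb_rad_measurable r n) hΦ (pvpl_win_ball 0 rE) hρ ?_
  rw [pvplb_rad_preimage hr hK]
  intro z hz
  rw [mem_closedBall] at hz
  exact closedBall_subset_closedBall' (by linarith)

/-- **a representing event of unit scale, read at the centre `z` and the scale `h`** -/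
theorem PvplRep.at {Φ : PvplPred ℕ} {jK : ℕ} {r : ℕ → ℝ} {n : ℕ} {ρ rE : ℝ} {B : Set (Conf PvPt)} (hB : PvplRep (pvplRad r n) Φ {k | k ≤ jK} (closedBall 0 rE) ρ B)
    (hr : Monotone r) (hK : jK < n) {h : ℝ} (hh : 0 < h) (z : ℂ) {X : Type} (𝔅 : PvBulk X) (η : Conf PvPt) (ξ : X → Bool) (zi : ℂ)
    (hf : (η.pts ∩ closedBall z (rE * h) ×ˢ univ).Finite) (hok : 𝔅.Ok (cfSites η) (closedBall z (r jK * h))) (hm : PvtrMesh (ρ * h) (closedBall z (rE * h)) (cfSites η))
    (hzi : r jK * h < ‖zi - z‖) :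
    cfMap (vorSim ((h : ℂ)⁻¹) (-((h : ℂ)⁻¹ * z))) η ∈ B ↔
      Φ _ _ (𝔅.T (cfSites η)) (fun v => pvplRad r n (vorSim ((h : ℂ)⁻¹) (-((h : ℂ)⁻¹ * z)) (𝔅.posF _ zi v))) (𝔅.col η ξ) := by
  have hα : ((h : ℂ)⁻¹) ≠ 0 := inv_ne_zero (Complex.ofReal_ne_zero.2 hh.ne')
  have hn : ρ / ‖((h : ℂ)⁻¹)‖ = ρ * h := by
    rw [norm_inv, Complex.norm_real, Real.norm_of_nonneg hh.le, div_inv_eq_mul]
  have key := hB.sim hα (-((h : ℂ)⁻¹ * z)) X 𝔅 η ξ zi
  rw [pvplb_sim_ball hh, hn, preimage_comp, pvplb_rad_preimage hr hK, pvplb_sim_ball hh] at key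
  refine key hf hok hm ?_
  show ¬ pvplRad r n (vorSim ((h : ℂ)⁻¹) (-((h : ℂ)⁻¹ * z)) zi) ≤ jK
  rw [pvplb_rad_le hr hK, pvplb_sim_le hh]
  exact not_le.2 hzi

/-- the ring marks at `(z, h)` are the tests `‖pos v - z‖ ≤ r j h` -/
theorem pvplb_ring_mark {r : ℕ → ℝ} (hr : Monotone r) {n j : ℕ} (hj : j < n) {h : ℝ} (hh : 0 < h) (z p : ℂ) :
    pvplRad r n (vorSim ((h : ℂ)⁻¹) (-((h : ℂ)⁻¹ * z)) p) ≤ j ↔ ‖p - z‖ ≤ r j * h := by
  rw [pvplb_rad_le hr hj, pvplb_sim_le hh]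

/-- **GATES(η, z): the form of helper212 / helper190**, for every completion -/
theorem PvplRep.gate_at {c : Bool} {ja jb : ℕ} {r : ℕ → ℝ} {n : ℕ} {ρ rE : ℝ} {B : Set (Conf PvPt)}
    (hB : PvplRep (pvplRad r n) (pvplGateP c ja jb) {k | k ≤ jb + 1} (closedBall 0 rE) ρ B) (hr : Monotone r) (hab : ja ≤ jb) (hK : jb + 1 < n) {h : ℝ} (hh : 0 < h) (z : ℂ)
    {X : Type} (𝔅 : PvBulk X) (η : Conf PvPt) (ξ : X → Bool) (zi : ℂ)
    (hf : (η.pts ∩ closedBall z (rE * h) ×ˢ univ).Finite) (hok : 𝔅.Ok (cfSites η) (closedBall z (r (jb + 1) * h))) (hm : PvtrMesh (ρ * h) (closedBall z (rE * h)) (cfSites η))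
    (hzi : r (jb + 1) * h < ‖zi - z‖) :
    cfMap (vorSim ((h : ℂ)⁻¹) (-((h : ℂ)⁻¹ * z))) η ∈ B ↔
      (∀ d, ‖𝔅.posF _ zi ((𝔅.T (cfSites η)).src d) - z‖ ≤ r jb * h →
        ‖𝔅.posF _ zi ((𝔅.T (cfSites η)).tgt d) - z‖ ≤ r (jb + 1) * h ∧ ‖𝔅.posF _ zi ((𝔅.T (cfSites η)).apex d) - z‖ ≤ r (jb + 1) * h) ∧
      ∃ G X, PvgGate (𝔅.T (cfSites η)) (𝔅.col η ξ) c (pvdiB (𝔅.T (cfSites η)) (𝔅.posF _ zi) z (r ja * h)) (pvdiB (𝔅.T (cfSites η)) (𝔅.posF _ zi) z (r jb * h)) G X := by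
  rw [hB.at hr hK hh z 𝔅 η ξ zi hf hok hm hzi]
  unfold pvplGateP PvplStar
  simp only [mem_ofPred_eq, pvplb_ring_mark hr hK hh, pvplb_ring_mark hr (show jb < n by omega) hh, pvplb_ring_mark hr (show ja < n by omega) hh, pvpl_B_eq]

/-- **CLEAN(η, z): the form of helper212**, for every completion -/
theorem PvplRep.clean_at {c : Bool} {ja jb : ℕ} {r : ℕ → ℝ} {n : ℕ} {ρ rE : ℝ} {B : Set (Conf PvPt)}
    (hB : PvplRep (pvplRad r n) (pvplCleanP c ja jb) {k | k ≤ jb + 1} (closedBall 0 rE) ρ B) (hr : Monotone r) (hab : ja ≤ jb) (hK : jb + 1 < n) {h : ℝ} (hh : 0 < h) (z : ℂ)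
    {X : Type} (𝔅 : PvBulk X) (η : Conf PvPt) (ξ : X → Bool) (zi : ℂ)
    (hf : (η.pts ∩ closedBall z (rE * h) ×ˢ univ).Finite) (hok : 𝔅.Ok (cfSites η) (closedBall z (r (jb + 1) * h))) (hm : PvtrMesh (ρ * h) (closedBall z (rE * h)) (cfSites η))
    (hzi : r (jb + 1) * h < ‖zi - z‖) :
    cfMap (vorSim ((h : ℂ)⁻¹) (-((h : ℂ)⁻¹ * z))) η ∈ B ↔
      (∀ d, ‖𝔅.posF _ zi ((𝔅.T (cfSites η)).src d) - z‖ ≤ r jb * h →
        ‖𝔅.posF _ zi ((𝔅.T (cfSites η)).tgt d) - z‖ ≤ r (jb + 1) * h ∧ ‖𝔅.posF _ zi ((𝔅.T (cfSites η)).apex d) - z‖ ≤ r (jb + 1) * h) ∧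
      PvdiClean (𝔅.T (cfSites η)) (𝔅.posF _ zi) (𝔅.col η ξ) c z (r ja * h) (r jb * h) := by
  rw [hB.at hr hK hh z 𝔅 η ξ zi hf hok hm hzi]
  unfold pvplCleanP PvplStar PvplClean PvdiClean
  simp only [mem_ofPred_eq, pvplb_ring_mark hr hK hh, pvplb_ring_mark hr (show jb < n by omega) hh, pvplb_ring_mark hr (show ja < n by omega) hh, pvpl_B_eq]

end gateEv

/-! ## 10. THE QUENCHED PROBABILITY OF A LOCAL PREDICATE IS A LOCAL PREDICATE -/

section quench

variable {κ : Type} {V D V' D' : Type} {T : PvMap V D} {mk : V → κ} {s : V → Bool} {T' : PvMap V' D'} {mk' : V' → κ} {s' : V' → Bool} {K : Set κ} {R : V → V' → Prop}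

/-- the fresh vertices of record: the vertices of the map with a mark in `KA` -/
def PvplFresh (T : PvMap V D) (mk : V → κ) (KA : Set κ) (A : Finset V) : Prop := ∀ v, v ∈ A ↔ mk v ∈ KA ∧ ∃ d, T.src d = v

theorem PvplIso.fresh_iff (h : PvplIso T mk s T' mk' s' K R) {KA : Set κ} (hKA : KA ⊆ K) {A : Finset V} {A' : Finset V'} (hA : PvplFresh T mk KA A)
    (hA' : PvplFresh T' mk' KA A') {v : V} {v' : V'} (hv : R v v') : v ∈ A ↔ v' ∈ A' := by
  constructor
  · intro hm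
    obtain ⟨h1, d, rfl⟩ := (hA v).1 hm
    obtain ⟨d', h2, -, -⟩ := h.ex d (hKA h1)
    rw [h.fn _ _ _ hv h2]
    exact (hA' _).2 ⟨by rw [h.mark _ _ h2]; exact h1, d', rfl⟩
  · intro hm
    obtain ⟨h1, d', rfl⟩ := (hA' v').1 hm
    obtain ⟨d, h2, -, -⟩ := h.ex' d' (hKA h1)
    rw [h.inj _ _ _ hv h2]
    exact (hA _).2 ⟨by rw [← h.mark _ _ h2]; exact h1, d, rfl⟩

theorem PvplIso.fresh_ex (h : PvplIso T mk s T' mk' s' K R) {KA : Set κ} (hKA : KA ⊆ K) {A : Finset V} (hA : PvplFresh T mk KA A) {v : V} (hv : v ∈ A) : ∃ v', R v v' := by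
  obtain ⟨h1, d, rfl⟩ := (hA v).1 hv
  obtain ⟨d', h2, -, -⟩ := h.ex d (hKA h1)
  exact ⟨_, h2⟩

theorem PvplIso.fresh_ex' (h : PvplIso T mk s T' mk' s' K R) {KA : Set κ} (hKA : KA ⊆ K) {A' : Finset V'} (hA' : PvplFresh T' mk' KA A') {v' : V'} (hv : v' ∈ A') : ∃ v, R v v' := by
  obtain ⟨h1, d', rfl⟩ := (hA' v').1 hv
  obtain ⟨d, h2, -, -⟩ := h.ex' d' (hKA h1)
  exact ⟨_, h2⟩

open Classical in
/-- the colouring carried to the other map: the colours of the partners on `A'`, the background `s'` off `A'` -/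
noncomputable def pvplPush (R : V → V' → Prop) (A' : Finset V') (s' : V' → Bool) (ω : V → Bool) : V' → Bool :=
  fun v' => if v' ∈ A' then decide (∃ v, R v v' ∧ ω v = true) else s' v'

theorem pvplb_eqns_cite5 : True := by
  have := @PvplFresh.eq_1; have := @pvplPush.eq_1
  trivial

theorem PvplIso.push_col (h : PvplIso T mk s T' mk' s' K R) {KA : Set κ} (hKA : KA ⊆ K) {A : Finset V} {A' : Finset V'} (hA : PvplFresh T mk KA A)
    (hA' : PvplFresh T' mk' KA A') {ω : V → Bool} (hω : ∀ v, v ∉ A → ω v = s v) {v : V} {v' : V'} (hv : R v v') : pvplPush R A' s' ω v' = ω v := by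
  classical
  unfold pvplPush
  by_cases hm : v' ∈ A'
  · rw [if_pos hm]
    cases e : ω v
    · refine decide_eq_false ?_
      rintro ⟨u, hu, hu1⟩
      rw [h.inj _ _ _ hu hv, e] at hu1
      exact Bool.noConfusion hu1
    · exact decide_eq_true ⟨v, hv, e⟩
  · rw [if_neg hm, h.col _ _ hv, hω v fun h' => hm ((h.fresh_iff hKA hA hA' hv).1 h')]

/-- recolouring the fresh vertices on both sides keeps the local isomorphism -/
theorem PvplIso.push (h : PvplIso T mk s T' mk' s' K R) {KA : Set κ} (hKA : KA ⊆ K) {A : Finset V} {A' : Finset V'} (hA : PvplFresh T mk KA A)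
    (hA' : PvplFresh T' mk' KA A') {ω : V → Bool} (hω : ∀ v, v ∉ A → ω v = s v) : PvplIso T mk ω T' mk' (pvplPush R A' s' ω) K R where
  mark := h.mark
  col := fun _ _ hv => h.push_col hKA hA hA' hω hv
  fn := h.fn
  inj := h.inj
  ex := h.ex
  ex' := h.ex'

theorem PvplIso.fresh_card (h : PvplIso T mk s T' mk' s' K R) {KA : Set κ} (hKA : KA ⊆ K) {A : Finset V} {A' : Finset V'} (hA : PvplFresh T mk KA A)
    (hA' : PvplFresh T' mk' KA A') : A.card = A'.card := by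
  refine Finset.card_bij (fun v hv => (h.fresh_ex hKA hA hv).choose) (fun v hv => ?_) (fun v hv u hu e => ?_) (fun v' hv' => ?_)
  · exact (h.fresh_iff hKA hA hA' (h.fresh_ex hKA hA hv).choose_spec).1 hv
  · have h1 := (h.fresh_ex hKA hA hv).choose_spec
    have h2 := (h.fresh_ex hKA hA hu).choose_spec
    rw [← e] at h2
    exact h.inj _ _ _ h1 h2
  · obtain ⟨v, hv⟩ := h.fresh_ex' hKA hA' hv'
    have hm := (h.fresh_iff hKA hA hA' hv).2 hv'
    exact ⟨v, hm, h.fn _ _ _ (h.fresh_ex hKA hA hm).choose_spec hv⟩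

/-- **the quenched probabilities of a local predicate agree on locally isomorphic maps** -/
theorem PvplIso.pvaP_eq [DecidableEq V] [DecidableEq V'] {Φ : PvplPred κ} (hΦ : Φ.Local K) (hS : T.Simple) (hS' : T'.Simple) (h : PvplIso T mk s T' mk' s' K R)
    {KA : Set κ} (hKA : KA ⊆ K) {A : Finset V} {A' : Finset V'} (hA : PvplFresh T mk KA A) (hA' : PvplFresh T' mk' KA A') :
    pvaP A s (Φ V D T mk) = pvaP A' s' (Φ V' D' T' mk') := by
  classical
  have e1 : pvaP A s (Φ V D T mk) = pvaP A s (fun ω => Φ V' D' T' mk' (pvplPush R A' s' ω)) :=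
    pva_P_congr fun ω hω => hΦ _ _ _ _ _ _ _ _ _ _ _ hS hS' (h.push hKA hA hA' hω)
  rw [e1]
  have hs := h.symm
  refine pva_E_bij (h.fresh_card hKA hA hA') (pvplPush R A' s') (pvplPush (fun v' v => R v v') A s) (fun ω _ v hv => ?_) (fun ω _ v hv => ?_)
    (fun ω hω => funext fun v => ?_) (fun ω hω => funext fun v' => ?_) (fun ω => if Φ V' D' T' mk' ω then 1 else 0)
  · unfold pvplPush
    rw [if_neg hv]
  · unfold pvplPush
    rw [if_neg hv]
  · by_cases hv : v ∈ A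
    · obtain ⟨v', hv'⟩ := h.fresh_ex hKA hA hv
      have h1 : pvplPush R A' s' ω v' = ω v := h.push_col hKA hA hA' hω hv'
      have h2 : pvplPush (fun v' v => R v v') A s (pvplPush R A' s' ω) v = pvplPush R A' s' ω v' :=
        hs.push_col hKA hA' hA (fun u hu => by unfold pvplPush; rw [if_neg hu]) hv'
      rw [h2, h1]
    · rw [hω v hv]
      unfold pvplPush
      rw [if_neg hv]
  · by_cases hv : v' ∈ A'
    · obtain ⟨v, hv1⟩ := h.fresh_ex' hKA hA' hv
      have h1 : pvplPush (fun v' v => R v v') A s ω v = ω v' := hs.push_col hKA hA' hA hω hv1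
      have h2 : pvplPush R A' s' (pvplPush (fun v' v => R v v') A s ω) v' = pvplPush (fun v' v => R v v') A s ω v :=
        h.push_col hKA hA hA' (fun u hu => by unfold pvplPush; rw [if_neg hu]) hv1
      rw [h2, h1]
    · rw [hω v' hv]
      unfold pvplPush
      rw [if_neg hv]

/-- the fresh set of the other map exists -/
theorem PvplIso.fresh_tr (h : PvplIso T mk s T' mk' s' K R) {KA : Set κ} (hKA : KA ⊆ K) {A : Finset V} (hA : PvplFresh T mk KA A) : ∃ A' : Finset V', PvplFresh T' mk' KA A' := by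
  classical
  have hfin : {v' : V' | mk' v' ∈ KA ∧ ∃ d, T'.src d = v'}.Finite := by
    refine ((A.finite_toSet.biUnion (t := fun v => {v' | R v v'}) fun v _ => ?_)).subset ?_
    · refine Set.Subsingleton.finite fun a ha b hb => h.fn _ _ _ ha hb
    · rintro v' ⟨h1, d', rfl⟩
      obtain ⟨d, h2, -, -⟩ := h.ex' d' (hKA h1)
      refine mem_iUnion₂.2 ⟨T.src d, ?_, h2⟩
      exact Finset.mem_coe.2 ((hA _).2 ⟨by rw [← h.mark _ _ h2]; exact h1, d, rfl⟩)
  exact ⟨hfin.toFinset, fun v => by rw [Set.Finite.mem_toFinset]; rfl⟩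

open Classical in
/-- **QUENCHED PREDICATE**: the vertices with a mark in `KA` are finitely many and, when they are recoloured by fair bits, `Φ` has probability `≥ q` -/
def PvplPred.quench (Φ : PvplPred κ) (KA : Set κ) (q : ℝ) : PvplPred κ :=
  fun V D T mk s => ∃ A : Finset V, PvplFresh T mk KA A ∧ q ≤ pvaP A s (Φ V D T mk)

theorem pvplb_eqns_cite6 : True := by
  have := @PvplPred.quench.eq_1
  trivial

/-- the quenched predicate with the ambient decidable equality -/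
theorem pvplb_quench_iff [inst : DecidableEq V] (Φ : PvplPred κ) (KA : Set κ) (q : ℝ) (T : PvMap V D) (mk : V → κ) (s : V → Bool) :
    Φ.quench KA q V D T mk s ↔ ∃ A : Finset V, PvplFresh T mk KA A ∧ q ≤ pvaP A s (Φ V D T mk) := by
  unfold PvplPred.quench
  have : inst = fun a b => Classical.propDecidable (a = b) := Subsingleton.elim _ _
  subst this
  rfl

/-- **(Q) the quenched probability of a local predicate is a local predicate** -/
theorem PvplPred.Local.quench {Φ : PvplPred κ} (hΦ : Φ.Local K) {KA : Set κ} (hKA : KA ⊆ K) (q : ℝ) : (Φ.quench KA q).Local K := by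
  classical
  intro V D V' D' T mk s T' mk' s' R hS hS' h
  rw [pvplb_quench_iff, pvplb_quench_iff]
  constructor
  · rintro ⟨A, hA, hq⟩
    obtain ⟨A', hA'⟩ := h.fresh_tr hKA hA
    exact ⟨A', hA', by rw [← h.pvaP_eq hΦ hS hS' hKA hA hA']; exact hq⟩
  · rintro ⟨A', hA', hq⟩
    obtain ⟨A, hA⟩ := h.symm.fresh_tr hKA hA'
    exact ⟨A, hA, by rw [h.pvaP_eq hΦ hS hS' hKA hA hA']; exact hq⟩

/-- the quenched predicate does not read the colours of the fresh vertices -/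
theorem pvplb_quench_blind (Φ : PvplPred κ) (KA : Set κ) (q : ℝ) (T : PvMap V D) (mk : V → κ) {s t : V → Bool}
    (hst : ∀ v, ¬ (mk v ∈ KA ∧ ∃ d, T.src d = v) → s v = t v) : Φ.quench KA q V D T mk s ↔ Φ.quench KA q V D T mk t := by
  classical
  rw [pvplb_quench_iff, pvplb_quench_iff]
  refine exists_congr fun A => and_congr_right fun hA => ?_
  rw [pva_P_bg (ξ := s) (ξ' := t) fun v hv => (hst v fun h => hv ((hA v).2 h)).symm]

end quench

end Claimed.Agent.R289
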