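import Claimed.Agent.R289.Tr.Dense
import Claimed.Agent.R289.Tr.PinLocB
import Claimed.Agent.R289.Tr.BlockP
import Claimed.Agent.R289.Arm.Top
import Claimed.Agent.R289.Arm.Transfer

/-!
# Row 289 (S0537), chapter C, TR16 = THEOREM A6 of 281, block G8 (INSTANCE): THE STATIC BAD BLOCK      (owner helper101; prefix `pvds_`, defs `pvds…`, `Pvds…`)

The abstract half of G8 is in `Tr/Dense.lean` sec. 11 (`pvtdCBx`, `pvtd_cbx_reads`, `pvtd_cbx_le`, `pvtd_not_cb`).      This file constructs the flags.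

* sec. 1  transfer kit: a `PvplIso` of 238 is a `PlIsoV` of 97; twins of cycles, of discs, of the position conditions (NO `IsSph`).
* sec. 2  THE FLAGS AS RING PREDICATES (`PvplPred ℕ` of 238; marks `mk v ≤ 0`: within the inner radius, `mk v ≤ 1`: within the outer radius):
          `pvdsFive` (five arms for ALL triples of cycles at the prescribed position), `pvdsJ J` (`J` disjoint monochromatic crossings for ALL pairs of cycles);   both are `Local {k | k ≤ 1}`.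
* sec. 3  the events of unit scale (`pvplb_ring_event`), their copies, what their complements give on EVERY completion.
* sec. 4  the quenched count on a frame, annealing.
* sec. 5  the static bad block.
-/

set_option autoImplicit false
set_option linter.unusedSectionVars false
set_option linter.unusedVariables false

namespace Claimed.Agent.R289

open MeasureTheory ProbabilityTheory Set Filter Topology Metric Claims.C0465
open scoped ENNReal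

/-! ## 1. transfer kit -/

section iso

variable {κ : Type} {V D V' D' : Type} {T : PvMap V D} {mk : V → κ} {s : V → Bool} {T' : PvMap V' D'} {mk' : V' → κ} {s' : V' → Bool} {K : Set κ} {R : V → V' → Prop}

/-- a `PvplIso` of simple maps (238) is a `PlIsoV` (97) -/
theorem PvplIso.toIsoV (h : PvplIso T mk s T' mk' s' K R) (hS : T.Simple) (hS' : T'.Simple) : PlIsoV T T' (pvplRK T mk T' K R) :=
  { toPlIso := (h.toLoc hS hS').iso, vfn := (h.toLoc hS hS').vfn, vinj := (h.toLoc hS hS').vinj }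

/-- a face set all of whose vertices are marked in `K` lies in the shared part -/
theorem PvplIso.sub_dom (h : PvplIso T mk s T' mk' s' K R) {B : Set D} (hB : ∀ v ∈ T.VOf B, mk v ∈ K) : B ⊆ plDom (pvplRK T mk T' K R) := by
  intro d hd
  have hk := hB _ ⟨d, hd, rfl⟩
  obtain ⟨d', hd'⟩ := h.ex d hk
  exact ⟨d', hd', Or.inl hk⟩

/-- the marks of the vertices of related face sets -/
theorem PvplIso.fs_mark (h : PvplIso T mk s T' mk' s' K R) {B : Set D} {B' : Set D'} (hB : ArmxFS (pvplRK T mk T' K R) B B') {P : κ → Prop} (hP : ∀ v ∈ T.VOf B, P (mk v)) :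
    ∀ v' ∈ T'.VOf B', P (mk' v') := by
  rintro v' ⟨d', hd', rfl⟩
  obtain ⟨d, hd⟩ := hB.2.1 hd'
  rw [h.mark _ _ hd.1.1]
  exact hP _ ⟨d, (hB.2.2 _ _ hd).2 hd', rfl⟩

/-- `the vertices with P are interior` is transported (the stars of the vertices marked in `K` correspond: no `IsSph`) -/
theorem PvplIso.fs_int (h : PvplIso T mk s T' mk' s' K R) {B : Set D} {B' : Set D'} (hB : ArmxFS (pvplRK T mk T' K R) B B') {P : κ → Prop} (hPK : ∀ k, P k → k ∈ K)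
    (hP : ∀ v, P (mk v) → v ∈ T.Int B) : ∀ v', P (mk' v') → v' ∈ T'.Int B' := by
  intro v' hv' d' hd'
  subst hd'
  obtain ⟨d, hd⟩ := h.ex' d' (hPK _ hv')
  have hm : mk' (T'.src d') = mk (T.src d) := h.mark _ _ hd.1
  rw [hm] at hv'
  exact (hB.2.2 d d' ⟨hd, Or.inl (hPK _ hv')⟩).1 (hP _ hv' d rfl)

theorem PvplIso.fs_int_v (h : PvplIso T mk s T' mk' s' K R) {B : Set D} {B' : Set D'} (hB : ArmxFS (pvplRK T mk T' K R) B B') {v : V} {v' : V'} (hv : R v v') (hk : mk v ∈ K)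
    (hi : v ∈ T.Int B) : v' ∈ T'.Int B' := by
  intro d' hd'
  subst hd'
  obtain ⟨d, hd⟩ := h.ex' d' (by rw [h.mark _ _ hv]; exact hk)
  have e : T.src d = v := h.inj _ _ _ hd.1 hv
  exact (hB.2.2 d d' ⟨hd, Or.inl (by show mk (T.src d) ∈ K; rw [e]; exact hk)⟩).1 (hi d e)

/-- nesting is transported -/
theorem PvplIso.inside (h : PvplIso T mk s T' mk' s' K R) {c₁ c₂ : T.Cyc} {c₁' c₂' : T'.Cyc} (P₁ : ArmxCyc (pvplRK T mk T' K R) c₁ c₁')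
    (F₁ : ArmxFS (pvplRK T mk T' K R) c₁.Left c₁'.Left) (F₂ : ArmxFS (pvplRK T mk T' K R) c₂.Left c₂'.Left) (hK : ∀ v ∈ T.VOf c₂.Left, mk v ∈ K) (hin : c₁.Inside c₂) :
    c₁'.Inside c₂' := by
  refine ⟨?_, fun d' hd' => ?_⟩
  · rintro v' ⟨i, rfl⟩
    have hi : T.src (c₁.e i) ∈ T.Int c₂.Left := hin.1 ⟨i, rfl⟩
    exact h.fs_int_v F₂ (P₁.2 i).1.1 (hK _ ⟨c₁.e i, hi _ rfl, rfl⟩) hi
  · obtain ⟨d, hd⟩ := F₁.2.1 hd'
    exact (F₂.2.2 _ _ hd).1 (hin.2 ((F₁.2.2 _ _ hd).2 hd'))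

/-- related face sets are finite together -/
theorem pvds_fs_finite {Rd : D → D' → Prop} (hI : PlIsoV T T' Rd) {B : Set D} {B' : Set D'} (hB : ArmxFS Rd B B') (hfin : B.Finite) : B'.Finite := by
  classical
  choose f hf using fun d : B => hB.1 d.2
  have hsub : B' ⊆ Set.range f := by
    intro d' hd'
    obtain ⟨d, hd⟩ := hB.2.1 hd'
    have hdB := (hB.2.2 _ _ hd).2 hd'
    exact ⟨⟨d, hdB⟩, hI.fn (hf ⟨d, hdB⟩) hd⟩
  have := hfin.to_subtype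
  exact (Set.finite_range f).subset hsub

theorem pvds_VOf_mono {A B : Set D} (h : A ⊆ B) : T.VOf A ⊆ T.VOf B := fun _ ⟨d, hd, e⟩ => ⟨d, h hd, e⟩

end iso

/-! ## 2. the flags as ring predicates -/

/-- **FIVE-ARM FLAG** (ring marks: `mk v ≤ 0` = within the inner radius, `mk v ≤ 1` = within the outer radius):   EVERY triple of nested cycles `k1 < k2 < k0`, the inner disc inside `k1`, `k0` within the outer radius,
carries CONFIG5 of 249 for `s` or for `pvasNot s`.      (`∀ i, k0.e i ∈ k0.Left` holds on every sphere: `plc_e_left`.) -/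
def pvdsFive : PvplPred ℕ := fun _ _ T mk s =>
  ∀ k0 k1 k2 : T.Cyc, k0.Left.Finite → (∀ i, k0.e i ∈ k0.Left) → k1.Inside k2 → k2.Inside k0 → (∀ v, mk v ≤ 0 → v ∈ T.Int k1.Left) → (∀ v ∈ T.VOf k0.Left, mk v ≤ 1) →
    (∃ x x2 x4 n1 n2 n4, PvatCfg T k0 k1 k2 s x x2 x4 n1 n2 n4) ∨ ∃ x x2 x4 n1 n2 n4, PvatCfg T k0 k1 k2 (pvasNot s) x x2 x4 n1 n2 n4

/-- `J` pairwise disjoint crossings of colour `col` of the annulus between `c'` and `c` (`= PvbkDisj (fun _ => pvakW c' c) col J s`: `pvds_cross_iff`) -/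
def PvdsCross {V D : Type} (T : PvMap V D) (c' c : T.Cyc) (col : Bool) (J : ℕ) (s : V → Bool) : Prop :=
  ∃ f : ℕ → Set V, (∀ i < J, (f i).Finite ∧ (∃ x ∈ c'.verts, ∃ y ∈ c.verts, T.Join (c'.Ann c) (f i) x y) ∧ ∀ v ∈ f i, s v = col) ∧ ∀ i < J, ∀ j < J, i ≠ j → Disjoint (f i) (f j)

/-- **J-FLAG**: EVERY pair of nested cycles `c' < c`, the inner disc inside `c'`, `c` within the outer radius, carries `J` pairwise disjoint crossings of one colour -/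
def pvdsJ (J : ℕ) : PvplPred ℕ := fun _ _ T mk s =>
  ∀ c' c : T.Cyc, c.Left.Finite → (∀ i, c.e i ∈ c.Left) → c'.Inside c → (∀ v, mk v ≤ 0 → v ∈ T.Int c'.Left) → (∀ v ∈ T.VOf c.Left, mk v ≤ 1) → ∃ col, PvdsCross T c' c col J s

theorem pvds_eqns_cite : True := by
  have := @pvdsFive.eq_1; have := @PvdsCross.eq_1; have := @pvdsJ.eq_1
  trivial

section loc

variable {V D V' D' : Type} {T : PvMap V D} {mk : V → ℕ} {s : V → Bool} {T' : PvMap V' D'} {mk' : V' → ℕ} {s' : V' → Bool} {R : V → V' → Prop}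

theorem pvds_five_fwd (h : PvplIso T mk s T' mk' s' {k | k ≤ 1} R) (hS : T.Simple) (hS' : T'.Simple) (hΦ : pvdsFive V D T mk s) : pvdsFive V' D' T' mk' s' := by
  intro k0' k1' k2' hfin' he' h12' h20' hinn' hout'
  have h' := h.symm
  have hI' := h'.toIsoV hS' hS
  have hL0 := h'.sub_dom (B := k0'.Left) hout'
  obtain ⟨k0, P0⟩ := armx_cyc_exists hI' k0' (fun i => hL0 (he' i))
  obtain ⟨k2, P2⟩ := armx_cyc_exists hI' k2' (fun i => hL0 (h20'.1 ⟨i, rfl⟩ _ rfl))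
  obtain ⟨k1, P1⟩ := armx_cyc_exists hI' k1' (fun i => hL0 (h20'.2 (h12'.1 ⟨i, rfl⟩ _ rfl)))
  have F0 := armx_left hI' P0 hL0
  have F2 := armx_left hI' P2 (h20'.2.trans hL0)
  have F1 := armx_left hI' P1 ((h12'.2.trans h20'.2).trans hL0)
  have hfin : k0.Left.Finite := pvds_fs_finite hI' F0 hfin'
  have he : ∀ i, k0.e i ∈ k0.Left := fun i => (F0.2.2 _ _ (P0.2 i)).1 (he' i)
  have h12 : k1.Inside k2 := h'.inside P1 F1 F2 (fun v hv => hout' v (pvds_VOf_mono h20'.2 hv)) h12'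
  have h20 : k2.Inside k0 := h'.inside P2 F2 F0 hout' h20'
  have hinn := h'.fs_int F1 (P := fun k => k ≤ 0) (fun k hk => le_trans hk zero_le_one) hinn'
  have hout := h'.fs_mark F0 (P := fun k => k ≤ 1) hout'
  have hI := hI'.symm
  have hcol : ArmxCol T T' (fun d d' => pvplRK T' mk' T {k | k ≤ 1} (fun u' u => R u u') d' d) s s' := ArmxCol.symm h'.loc_col
  rcases hΦ k0 k1 k2 hfin he h12 h20 hinn hout with ⟨x, x2, x4, n1, n2, n4, hc⟩ | ⟨x, x2, x4, n1, n2, n4, hc⟩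
  · left
    obtain ⟨x', hx⟩ := F0.symm.1 hc.r1.ent.1
    obtain ⟨x2', hx2⟩ := F0.symm.1 hc.r2.ent.1
    obtain ⟨x4', hx4⟩ := F0.symm.1 hc.r4.ent.1
    exact ⟨x', x2', x4', n1, n2, n4, armx_cfg hI hcol F0.symm F1.symm F2.symm hx hx2 hx4 hc⟩
  · right
    obtain ⟨x', hx⟩ := F0.symm.1 hc.r1.ent.1
    obtain ⟨x2', hx2⟩ := F0.symm.1 hc.r2.ent.1
    obtain ⟨x4', hx4⟩ := F0.symm.1 hc.r4.ent.1
    exact ⟨x', x2', x4', n1, n2, n4, armx_cfg hI hcol.not F0.symm F1.symm F2.symm hx hx2 hx4 hc⟩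

/-- **the five-arm flag is local** -/
theorem pvds_five_local : pvdsFive.Local {k | k ≤ 1} :=
  fun _ _ _ _ _ _ _ _ _ _ _ hS hS' hi => ⟨pvds_five_fwd hi hS hS', pvds_five_fwd hi.symm hS' hS⟩

/-- disjoint monochromatic crossings are transported -/
theorem pvds_cross_fwd {Rd : D → D' → Prop} (hI : PlIsoV T T' Rd) (hs : ArmxCol T T' Rd s s') {c₁ c : T.Cyc} {c₁' c' : T'.Cyc} (P₁ : ArmxCyc Rd c₁ c₁') (P : ArmxCyc Rd c c')
    (hL : c.Left ⊆ plDom Rd) (hL1 : c₁.Left ⊆ plDom Rd) {col : Bool} {J : ℕ} (hc : PvdsCross T c₁ c col J s) : PvdsCross T' c₁' c' col J s' := by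
  obtain ⟨f, hf, hd⟩ := hc
  have hinj : ∀ {v w : V} {v' : V'}, armxV T T' Rd v v' → armxV T T' Rd w v' → v = w := by
    rintro v w v' ⟨e, e', he, rfl, rfl⟩ ⟨a, a', ha, rfl, ha'⟩
    exact hI.vinj he ha ha'.symm
  refine ⟨fun i => {v' | ∃ v ∈ f i, armxV T T' Rd v v'}, fun i hi => ⟨?_, ?_, ?_⟩, fun i hi j hj hij => ?_⟩
  · have e : {v' | ∃ v ∈ f i, armxV T T' Rd v v'} = ⋃ v ∈ f i, {v' | armxV T T' Rd v v'} := by
      ext v'
      simp only [mem_ofPred_eq, mem_iUnion, exists_prop]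
    show {v' | ∃ v ∈ f i, armxV T T' Rd v v'}.Finite
    rw [e]
    refine (hf i hi).1.biUnion fun v _ => Set.Subsingleton.finite ?_
    intro a ha b hb
    exact armx_V_fn hI ha hb
  · obtain ⟨x, ⟨k, rfl⟩, y, hy, hj⟩ := (hf i hi).2.1
    have hX : ArmxVS T T' Rd (f i) {v' | ∃ v ∈ f i, armxV T T' Rd v v'} := by
      intro d d' hdd
      constructor
      · intro h1
        exact ⟨_, h1, d, d', hdd, rfl, rfl⟩
      · rintro ⟨v, hv, hvv⟩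
        rwa [← hinj hvv ⟨d, d', hdd, rfl, rfl⟩]
    obtain ⟨w', hww, hj'⟩ := armx_join hI (armx_ann hI P₁ P hL hL1) hX ⟨_, _, P₁.2 k, rfl, rfl⟩ hj
    exact ⟨_, ⟨k, rfl⟩, w', ((armx_verts hI P).of_V hww).1 hy, hj'⟩
  · rintro v' ⟨v, hv, e, e', he, rfl, rfl⟩
    rw [← hs e e' he]
    exact (hf i hi).2.2 _ hv
  · rw [Set.disjoint_left]
    rintro v' ⟨v, hv, hvv⟩ ⟨w, hw, hww⟩
    rw [hinj hvv hww] at hv
    exact Set.disjoint_left.1 (hd i hi j hj hij) hv hw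

theorem pvds_J_fwd {J : ℕ} (h : PvplIso T mk s T' mk' s' {k | k ≤ 1} R) (hS : T.Simple) (hS' : T'.Simple) (hΦ : pvdsJ J V D T mk s) : pvdsJ J V' D' T' mk' s' := by
  intro c₁' c' hfin' he' hin' hinn' hout'
  have h' := h.symm
  have hI' := h'.toIsoV hS' hS
  have hL0 := h'.sub_dom (B := c'.Left) hout'
  obtain ⟨c, P0⟩ := armx_cyc_exists hI' c' (fun i => hL0 (he' i))
  obtain ⟨c₁, P1⟩ := armx_cyc_exists hI' c₁' (fun i => hL0 (hin'.1 ⟨i, rfl⟩ _ rfl))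
  have F0 := armx_left hI' P0 hL0
  have F1 := armx_left hI' P1 (hin'.2.trans hL0)
  have hfin : c.Left.Finite := pvds_fs_finite hI' F0 hfin'
  have he : ∀ i, c.e i ∈ c.Left := fun i => (F0.2.2 _ _ (P0.2 i)).1 (he' i)
  have hin : c₁.Inside c := h'.inside P1 F1 F0 hout' hin'
  have hinn := h'.fs_int F1 (P := fun k => k ≤ 0) (fun k hk => le_trans hk zero_le_one) hinn'
  have hout := h'.fs_mark F0 (P := fun k => k ≤ 1) hout'
  have hcol : ArmxCol T T' (fun d d' => pvplRK T' mk' T {k | k ≤ 1} (fun u' u => R u u') d' d) s s' := ArmxCol.symm h'.loc_col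
  obtain ⟨col, hc⟩ := hΦ c₁ c hfin he hin hinn hout
  exact ⟨col, pvds_cross_fwd hI'.symm hcol P1.symm P0.symm F0.symm.1 F1.symm.1 hc⟩

/-- **the J-flag is local** -/
theorem pvds_J_local (J : ℕ) : (pvdsJ J).Local {k | k ≤ 1} :=
  fun _ _ _ _ _ _ _ _ _ _ _ hS hS' hi => ⟨pvds_J_fwd hi hS hS', pvds_J_fwd hi.symm hS' hS⟩

end loc

/-! ## 3. the events of unit scale, their copies, what they say on a completion -/

/-- the two radii `1 ≤ Λ` -/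
noncomputable def pvdsR (Λ : ℝ) (j : ℕ) : ℝ := if j = 0 then 1 else Λ

theorem pvds_R_mono {Λ : ℝ} (h : 1 ≤ Λ) : Monotone (pvdsR Λ) := by
  intro i j hij
  unfold pvdsR
  split_ifs with h1 h2 h2
  · exact le_rfl
  · exact h
  · omega
  · exact le_rfl

/-- `B` is THE event of unit scale of the ring predicate `Φ`: inner radius `1`, outer radius `Λ`, mesh `ρ`, window `closedBall 0 (Λ + 3ρ)` -/
structure PvdsUnit (Φ : PvplPred ℕ) (Λ ρ : ℝ) (B : Set (Conf PvPt)) : Prop where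
  meas : MeasurableSet B
  reads : Conf.ReadsSet (closedBall 0 (Λ + 3 * ρ) ×ˢ univ) B
  rep : PvplRep (pvplRad (pvdsR Λ) 2) Φ {k | k ≤ 1} (closedBall 0 (Λ + 3 * ρ)) ρ B

theorem pvds_unit_exists {Φ : PvplPred ℕ} (hΦ : Φ.Local {k | k ≤ 1}) {Λ ρ : ℝ} (hΛ : 1 ≤ Λ) (hρ : 0 < ρ) : ∃ B, PvdsUnit Φ Λ ρ B := by
  obtain ⟨B, h1, h2, h3⟩ := pvplb_ring_event hΦ (pvds_R_mono hΛ) (n := 2) (by norm_num) hρ (rE := Λ + 3 * ρ) (le_of_eq (by simp [pvdsR]))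
  exact ⟨B, h1, h2, h3⟩

/-- the copy of the event `B` of unit scale at the centre `z`, scale `t` -/
def pvdsAt (B : Set (Conf PvPt)) (z : ℂ) (t : ℝ) : Set (Conf PvPt) := cfMap (vorSim ((t : ℂ)⁻¹) (-((t : ℂ)⁻¹ * z))) ⁻¹' B

theorem pvds_eqns_cite2 : True := by
  have := @pvdsR.eq_1; have := @pvdsAt.eq_1
  trivial

theorem pvds_measurable_sim (α β : ℂ) : Measurable (vorSim α β) := by
  unfold vorSim
  exact (measurable_const.mul measurable_id).add_const _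

theorem pvds_at_meas {B : Set (Conf PvPt)} (hB : MeasurableSet B) (z : ℂ) (t : ℝ) : MeasurableSet (pvdsAt B z t) :=
  measurable_cfMap (pvds_measurable_sim _ _) hB

/-- the copy reads the ball of radius `r t` round `z` -/
theorem pvds_at_reads {B : Set (Conf PvPt)} {r : ℝ} (hB : Conf.ReadsSet (closedBall 0 r ×ˢ univ) B) (z : ℂ) {t : ℝ} (ht : 0 < t) :
    Conf.ReadsSet (closedBall z (r * t) ×ˢ univ) (pvdsAt B z t) := by
  intro η
  have e : closedBall z (r * t) ×ˢ (univ : Set Bool) = Prod.map (vorSim ((t : ℂ)⁻¹) (-((t : ℂ)⁻¹ * z))) id ⁻¹' (closedBall 0 r ×ˢ univ) := by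
    rw [← pvplb_sim_ball ht z r]
    ext p
    simp only [mem_prod, mem_preimage, mem_univ, and_true, Prod.map_fst]
  show cfMap _ (Conf.restr (closedBall z (r * t) ×ˢ univ) η) ∈ B ↔ cfMap _ η ∈ B
  rw [e, pvtd_cfMap_restr]
  exact hB _

/-- a finer mesh on a larger window -/
theorem pvds_mesh_mono {ρ ρ' : ℝ} {E E' Y : Set ℂ} (h : PvtrMesh ρ E Y) (hρ : ρ ≤ ρ') (hE : E' ⊆ E) : PvtrMesh ρ' E' Y :=
  VorDense.mono h Subset.rfl (fun _ hz => (closedBall_subset_closedBall hρ).trans (hz.trans hE)) hρ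

/-- local finiteness -/
theorem pvds_fin {η : Conf PvPt} (h : VorLF (cfSites η)) {W : Set ℂ} (hW : Bornology.IsBounded W) : (η.pts ∩ W ×ˢ univ).Finite := by
  obtain ⟨R, hR⟩ := hW.subset_closedBall 0
  refine (((h R).prod (Set.finite_univ (α := Bool)))).subset ?_
  rintro p ⟨hp, hpW, -⟩
  exact ⟨⟨⟨p, hp, rfl⟩, hR hpW⟩, mem_univ _⟩

section use

variable {Φ : PvplPred ℕ} {Λ ρ : ℝ} {B : Set (Conf PvPt)}

/-- **the copy at `(z, t)` on a completion** (marks = ring index round `z` at scale `t`) -/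
theorem PvdsUnit.at (hB : PvdsUnit Φ Λ ρ B) (hΛ : 1 ≤ Λ) {t : ℝ} (ht : 0 < t) (z : ℂ) {X : Type} (𝔅 : PvBulk X) (η : Conf PvPt) (ξ : X → Bool) (zi : ℂ)
    (hf : (η.pts ∩ closedBall z ((Λ + 3 * ρ) * t) ×ˢ univ).Finite) (hok : 𝔅.Ok (cfSites η) (closedBall z (Λ * t))) (hm : PvtrMesh (ρ * t) (closedBall z ((Λ + 3 * ρ) * t)) (cfSites η))
    (hzi : Λ * t < ‖zi - z‖) :
    η ∈ pvdsAt B z t ↔ Φ _ _ (𝔅.T (cfSites η)) (fun v => pvplRad (pvdsR Λ) 2 (vorSim ((t : ℂ)⁻¹) (-((t : ℂ)⁻¹ * z)) (𝔅.posF _ zi v))) (𝔅.col η ξ) :=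
  hB.rep.at (pvds_R_mono hΛ) (by norm_num) ht z 𝔅 η ξ zi hf hok hm hzi

theorem pvds_mark0 {Λ : ℝ} (hΛ : 1 ≤ Λ) {t : ℝ} (ht : 0 < t) (z p : ℂ) : pvplRad (pvdsR Λ) 2 (vorSim ((t : ℂ)⁻¹) (-((t : ℂ)⁻¹ * z)) p) ≤ 0 ↔ ‖p - z‖ ≤ t := by
  rw [pvplb_ring_mark (pvds_R_mono hΛ) (by norm_num) ht]
  simp [pvdsR]

theorem pvds_mark1 {Λ : ℝ} (hΛ : 1 ≤ Λ) {t : ℝ} (ht : 0 < t) (z p : ℂ) : pvplRad (pvdsR Λ) 2 (vorSim ((t : ℂ)⁻¹) (-((t : ℂ)⁻¹ * z)) p) ≤ 1 ↔ ‖p - z‖ ≤ Λ * t := by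
  rw [pvplb_ring_mark (pvds_R_mono hΛ) (by norm_num) ht]
  simp [pvdsR]

end use

/-- **NOT FLAGGED** (consumer form, EVERY completion): cycles `k1 < k2 < k0`, `closedBall z t` inside `k1`, `k0` within `closedBall z (Λ t)`, without CONFIG5 for `s` and for `pvasNot s`   (= the buffer hypothesis of D14 of 281) -/
theorem PvdsUnit.five_not {Λ ρ : ℝ} {B : Set (Conf PvPt)} (hB : PvdsUnit pvdsFive Λ ρ B) (hΛ : 1 ≤ Λ) {t : ℝ} (ht : 0 < t) (z : ℂ) {X : Type} (𝔅 : PvBulk X) (η : Conf PvPt) (ξ : X → Bool) (zi : ℂ)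
    (hf : (η.pts ∩ closedBall z ((Λ + 3 * ρ) * t) ×ˢ univ).Finite) (hok : 𝔅.Ok (cfSites η) (closedBall z (Λ * t))) (hm : PvtrMesh (ρ * t) (closedBall z ((Λ + 3 * ρ) * t)) (cfSites η))
    (hzi : Λ * t < ‖zi - z‖) (h : η ∉ pvdsAt B z t) :
    ∃ k0 k1 k2 : (𝔅.T (cfSites η)).Cyc, k0.Left.Finite ∧ k1.Inside k2 ∧ k2.Inside k0 ∧ (∀ v, ‖𝔅.posF _ zi v - z‖ ≤ t → v ∈ (𝔅.T (cfSites η)).Int k1.Left) ∧
      (∀ v ∈ (𝔅.T (cfSites η)).VOf k0.Left, ‖𝔅.posF _ zi v - z‖ ≤ Λ * t) ∧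
      (¬ ∃ x x2 x4 n1 n2 n4, PvatCfg (𝔅.T (cfSites η)) k0 k1 k2 (𝔅.col η ξ) x x2 x4 n1 n2 n4) ∧
      ¬ ∃ x x2 x4 n1 n2 n4, PvatCfg (𝔅.T (cfSites η)) k0 k1 k2 (pvasNot (𝔅.col η ξ)) x x2 x4 n1 n2 n4 := by
  rw [hB.at hΛ ht z 𝔅 η ξ zi hf hok hm hzi] at h
  unfold pvdsFive at h
  push Not at h
  obtain ⟨k0, k1, k2, h1, -, h3, h4, h5, h6, h7, h8⟩ := h
  refine ⟨k0, k1, k2, h1, h3, h4, fun v hv => h5 v ((pvds_mark0 hΛ ht z _).2 hv), fun v hv => (pvds_mark1 hΛ ht z _).1 (h6 v hv), ?_, ?_⟩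
  · rintro ⟨x, x2, x4, n1, n2, n4, hc⟩
    exact h7 x x2 x4 n1 n2 n4 hc
  · rintro ⟨x, x2, x4, n1, n2, n4, hc⟩
    exact h8 x x2 x4 n1 n2 n4 hc

/-- **NOT J-BAD** (consumer form, EVERY completion): cycles `c' < c`, `closedBall z t` inside `c'`, `c` within `closedBall z (Λ t)`, without `J` disjoint crossings of one colour -/
theorem PvdsUnit.J_not {J : ℕ} {Λ ρ : ℝ} {B : Set (Conf PvPt)} (hB : PvdsUnit (pvdsJ J) Λ ρ B) (hΛ : 1 ≤ Λ) {t : ℝ} (ht : 0 < t) (z : ℂ) {X : Type} (𝔅 : PvBulk X) (η : Conf PvPt) (ξ : X → Bool) (zi : ℂ)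
    (hf : (η.pts ∩ closedBall z ((Λ + 3 * ρ) * t) ×ˢ univ).Finite) (hok : 𝔅.Ok (cfSites η) (closedBall z (Λ * t))) (hm : PvtrMesh (ρ * t) (closedBall z ((Λ + 3 * ρ) * t)) (cfSites η))
    (hzi : Λ * t < ‖zi - z‖) (h : η ∉ pvdsAt B z t) :
    ∃ c' c : (𝔅.T (cfSites η)).Cyc, c.Left.Finite ∧ c'.Inside c ∧ (∀ v, ‖𝔅.posF _ zi v - z‖ ≤ t → v ∈ (𝔅.T (cfSites η)).Int c'.Left) ∧
      (∀ v ∈ (𝔅.T (cfSites η)).VOf c.Left, ‖𝔅.posF _ zi v - z‖ ≤ Λ * t) ∧ ∀ col, ¬ PvdsCross (𝔅.T (cfSites η)) c' c col J (𝔅.col η ξ) := by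
  rw [hB.at hΛ ht z 𝔅 η ξ zi hf hok hm hzi] at h
  unfold pvdsJ at h
  push Not at h
  obtain ⟨c', c, h1, -, h3, h5, h6, h7⟩ := h
  exact ⟨c', c, h1, h3, fun v hv => h5 v ((pvds_mark0 hΛ ht z _).2 hv), fun v hv => (pvds_mark1 hΛ ht z _).1 (h6 v hv), h7⟩

/-- **the copy at `(z, t)` on the Delaunay plane of a good site set** -/
theorem PvdsUnit.plane {Φ : PvplPred ℕ} {Λ ρ : ℝ} {B : Set (Conf PvPt)} (hB : PvdsUnit Φ Λ ρ B) (hΛ : 1 ≤ Λ) {t : ℝ} (ht : 0 < t) (z : ℂ) {Y : Set ℂ} (h : DelGood Y) {η : Conf PvPt} (hη : cfSites η = Y)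
    (hm : PvtrMesh (ρ * t) (closedBall z ((Λ + 3 * ρ) * t)) Y) :
    η ∈ pvdsAt B z t ↔ Φ _ _ (delMap h) (fun v => pvplRad (pvdsR Λ) 2 (vorSim ((t : ℂ)⁻¹) (-((t : ℂ)⁻¹ * z)) (v : ℂ))) (fun v => cfCol η v) := by
  have hok : (pvgFam fun _ => pvgDelS h Empty).Ok (cfSites η) (closedBall z (Λ * t)) := by
    rw [pvg_w_fam_ok, hη]
    exact (pvg_w_del_ok h Empty).mono (subset_univ _)
  have hf : (η.pts ∩ closedBall z ((Λ + 3 * ρ) * t) ×ˢ univ).Finite := pvds_fin (by rw [hη]; exact h.lf) isBounded_closedBall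
  have hzi : Λ * t < ‖(z + ((Λ * t + 1 : ℝ) : ℂ)) - z‖ := by
    rw [add_sub_cancel_left, Complex.norm_real, Real.norm_of_nonneg (by positivity)]
    linarith
  exact hB.at hΛ ht z (pvgFam fun _ => pvgDelS h Empty) η Empty.elim _ hf hok (by rw [hη]; exact hm) hzi

/-! ## 4. the quenched count on a frame -/

/-- the colours of the configuration at a fixed geometry -/
theorem pvds_col {g : PvGeoT} (hg : PvgOk g) (c : PvColT) {z : ℂ} (hz : z ∈ pvgSites g) : cfCol (pvConf (pvMerge (g, c))) z = pvgColAt g c z := by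
  classical
  rw [hg.conf_eq c]
  unfold cfCol
  by_cases hc : pvgColAt g c z = true
  · rw [hc, decide_eq_true_iff]
    exact ⟨hz, hc.symm⟩
  · rw [Bool.not_eq_true] at hc
    rw [hc, decide_eq_false_iff_not]
    rintro ⟨-, h2⟩
    rw [hc] at h2
    exact Bool.noConfusion h2

/-- the constant of the five-arm count (`q` only) -/
noncomputable def pvdsC5 (q : ℝ) : ℝ := 2 * ((q * q)⁻¹ * (armtCl * pvbkM 2 2 (1 - q)))

/-- **QUENCHED COUNT, one lattice of mesh = inner radius `s`**:   on a frame (186) the flags at the centres `y + s p`, `p ∈ armtBox L`, have total quenched probability `≤ pvdsC5 q`.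
`armt_geo` (186) gives the cycles, the flag is universal over cycles, `pvau_five_ex_sum` (89) counts. -/
theorem pvds_five_sub {q : ℝ} (hq : 0 < q) {g : PvGeoT} (hg : PvgOk g) {y : ℂ} {s Λ ρ : ℝ} {L : ℕ} (hs : 0 < s) (hΛ : 1 ≤ Λ) (hL : 2 * (L : ℝ) * s ≤ Λ * s / 64)
    (hm : 5 / 4 * 4 ^ 7 * s ≤ Λ * s / 64) {B : Set (Conf PvPt)} (hB : PvdsUnit pvdsFive Λ ρ B) (hF : ArmtFrame q (armtZ y s L) (armtRs s (Λ * s) 0 0) (pvgSites g))
    (hmesh : ∀ p ∈ armtBox L, PvtrMesh (ρ * s) (closedBall (armtCtr y s p) ((Λ + 3 * ρ) * s)) (pvgSites g)) :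
    ∑ p ∈ armtBox L, pvQc (pvdsAt B (armtCtr y s p) s) g ≤ ENNReal.ofReal (pvdsC5 q) := by
  classical
  have hS : 0 < Λ * s := by positivity
  obtain ⟨h, G, hAt⟩ := armt_geo (R := Λ * s) (m := 0) (m' := 0) hs hL (by simpa using hm) (by norm_num; linarith) hF
  have hT : (delMap h).IsSph := dls_isSph h
  have hSi : (delMap h).Simple := dls_simple h
  have hch : PvauChain (delMap h) q 0 0 armtCl G.γ G.δ := ⟨G.fin, G.γ_blk, G.γ_top, G.δ_blk, G.mult⟩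
  set ge := hch.geo hT hq with hge
  have hfin : ((delMap h).VOf ge.c0.Left).Finite := (ge.fin0.image (delMap h).src).subset (by rintro v ⟨d, hd, rfl⟩; exact ⟨d, hd, rfl⟩)
  set A : Finset (pvgSites g) := hfin.toFinset with hAdef
  have hA : ∀ v ∈ (delMap h).VOf ge.c0.Left, v ∈ A := fun v hv => hfin.mem_toFinset.2 hv
  set ξ : pvgSites g → Bool := fun _ => false with hξ
  have hloc : ∀ p, PvalLoc A (fun σ => PvauFive ge p σ ∨ PvauFive ge p (pvasNot σ)) := by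
    intro p ω ω' hω
    have h1 : PvauFive ge p ω ↔ PvauFive ge p ω' := pvau_five_congr hT ge p fun v hv => hω v (hA v hv)
    have h2 : PvauFive ge p (pvasNot ω) ↔ PvauFive ge p (pvasNot ω') := pvau_five_congr hT ge p fun v hv => by
      simp only [pvasNot, hω v (hA v hv)]
    exact propext (or_congr h1 h2)
  have hone : ∀ p : armtBox L, pvQc (pvdsAt B (armtCtr y s p) s) g ≤ ENNReal.ofReal (pvaP A ξ (fun σ => PvauFive ge p σ ∨ PvauFive ge p (pvasNot σ))) := by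
    intro p
    rw [← armt_col hg A _ (hloc p) ξ, pvqu_Qc_eq]
    refine measure_mono fun c hc => ?_
    have hc' : pvConf (pvMerge (g, c)) ∈ pvdsAt B (armtCtr y s p) s := hc
    rw [hB.plane hΛ hs _ h (pvqu_cfSites g c) (hmesh p p.2)] at hc'
    have hcol : (fun v : pvgSites g => cfCol (pvConf (pvMerge (g, c))) v) = fun v : pvgSites g => pvgColAt g c v := funext fun v => pvds_col hg c v.2
    rw [hcol] at hc'
    have hinn : ∀ v : pvgSites g, pvplRad (pvdsR Λ) 2 (vorSim ((s : ℂ)⁻¹) (-((s : ℂ)⁻¹ * armtCtr y s p)) (v : ℂ)) ≤ 0 → v ∈ (delMap h).Int (G.γ p 0).Left :=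
      fun v hv => hAt.inn p v ((pvds_mark0 hΛ hs _ _).1 hv)
    have hout : ∀ v ∈ (delMap h).VOf (G.δ 1).Left, pvplRad (pvdsR Λ) 2 (vorSim ((s : ℂ)⁻¹) (-((s : ℂ)⁻¹ * armtCtr y s p)) (v : ℂ)) ≤ 1 :=
      fun v hv => (pvds_mark1 hΛ hs _ _).2 (hAt.mid p v hv).le
    rcases hc' (G.δ 1) (G.γ p 0) (G.γ p 3) (G.fin 1) (plc_e_left hT _) (hch.gi hT p (by norm_num) (by norm_num)) (hch.gd hT p (by norm_num) (by norm_num)) hinn hout with
      ⟨x, x2, x4, n1, n2, n4, hcf⟩ | ⟨x, x2, x4, n1, n2, n4, hcf⟩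
    · exact Or.inl ⟨((x, x2, x4), (n1, n2, n4)), hcf⟩
    · exact Or.inr ⟨((x, x2, x4), (n1, n2, n4)), hcf⟩
  have hsum : ∑ p : armtBox L, pvaP A ξ (fun σ => PvauFive ge p σ ∨ PvauFive ge p (pvasNot σ)) ≤ pvdsC5 q := by
    have s1 : ∑ p : armtBox L, pvaP A ξ (PvauFive ge p) ≤ (q * q)⁻¹ * (armtCl * pvbkM 2 2 (1 - q)) := pvau_five_ex_sum hT hSi ge Finset.univ A ξ hA
    have s2 : ∑ p : armtBox L, pvaP A ξ (fun σ => PvauFive ge p (pvasNot σ)) ≤ (q * q)⁻¹ * (armtCl * pvbkM 2 2 (1 - q)) := by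
      refine le_trans (le_of_eq (Finset.sum_congr rfl fun p _ => ?_)) (pvau_five_ex_sum hT hSi ge Finset.univ A (fun v => !ξ v) hA)
      exact pva_P_flip A ξ (PvauFive ge p)
    calc ∑ p : armtBox L, pvaP A ξ (fun σ => PvauFive ge p σ ∨ PvauFive ge p (pvasNot σ))
        ≤ ∑ p : armtBox L, (pvaP A ξ (PvauFive ge p) + pvaP A ξ (fun σ => PvauFive ge p (pvasNot σ))) := Finset.sum_le_sum fun p _ => pva_P_or_le A ξ _ _
      _ = ∑ p : armtBox L, pvaP A ξ (PvauFive ge p) + ∑ p : armtBox L, pvaP A ξ (fun σ => PvauFive ge p (pvasNot σ)) := Finset.sum_add_distrib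
      _ ≤ pvdsC5 q := by unfold pvdsC5; linarith
  calc ∑ p ∈ armtBox L, pvQc (pvdsAt B (armtCtr y s p) s) g = ∑ p : armtBox L, pvQc (pvdsAt B (armtCtr y s p) s) g :=
        (Finset.sum_coe_sort (armtBox L) (fun p => pvQc (pvdsAt B (armtCtr y s p) s) g)).symm
    _ ≤ ∑ p : armtBox L, ENNReal.ofReal (pvaP A ξ (fun σ => PvauFive ge p σ ∨ PvauFive ge p (pvasNot σ))) := Finset.sum_le_sum fun p _ => hone p
    _ = ENNReal.ofReal (∑ p : armtBox L, pvaP A ξ (fun σ => PvauFive ge p σ ∨ PvauFive ge p (pvasNot σ))) :=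
        (ENNReal.ofReal_sum_of_nonneg fun p _ => pva_P_nonneg _ _ _).symm
    _ ≤ ENNReal.ofReal (pvdsC5 q) := ENNReal.ofReal_le_ofReal hsum

/-- the outer radius of the five-arm flags in units of the inner radius (`Mc` boxes per cell side) -/
noncomputable def pvdsLam (Mc : ℕ) : ℝ := 256 * Mc + 1310720

theorem pvds_lam_one (Mc : ℕ) : 1 ≤ pvdsLam Mc := by
  unfold pvdsLam
  have : (0 : ℝ) ≤ Mc := Nat.cast_nonneg _
  linarith

theorem pvds_div_aux {w Mc : ℕ} (hw : 0 < w) {u : ℤ} (h1 : -(Mc : ℤ) ≤ u) (h2 : u ≤ 2 * Mc - 1) :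
    ∃ r : ℕ, r < w ∧ ∃ p : ℤ, -((2 * Mc : ℕ) : ℤ) ≤ p ∧ p ≤ ((2 * Mc : ℕ) : ℤ) ∧ u = r + w * p := by
  have hw' : (0 : ℤ) < w := by exact_mod_cast hw
  have hw1 : (1 : ℤ) ≤ w := hw'
  have hM : (0 : ℤ) ≤ Mc := Int.natCast_nonneg _
  refine ⟨(u % w).toNat, ?_, u / w, ?_, ?_, ?_⟩
  · have := Int.emod_lt_of_pos u hw'
    have h0 := Int.emod_nonneg u hw'.ne'
    omega
  · rw [Int.le_ediv_iff_mul_le hw']
    push_cast
    nlinarith
  · have : u / (w : ℤ) < 2 * Mc + 1 := by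
      rw [Int.ediv_lt_iff_lt_mul hw']
      nlinarith
    push_cast
    omega
  · rw [Int.toNat_of_nonneg (Int.emod_nonneg u hw'.ne')]
    exact (Int.emod_add_mul_ediv u w).symm

/-- the reference point of the box `b` of side `β` on the lattice of mesh `w β` through the box `b0 + r` -/
theorem pvds_ctr_eq (β : ℝ) (w : ℕ) (a p : ℤ × ℤ) : pv5Ctr β (a.1 + w * p.1, a.2 + w * p.2) = armtCtr (pv5Ctr β a) (w * β) p := by
  unfold pv5Ctr armtCtr l9Pt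
  apply Complex.ext
  · simp only [Complex.add_re]
    push_cast
    ring
  · simp only [Complex.add_im]
    push_cast
    ring

/-- **QUENCHED COUNT, the boxes of the `3 × 3` neighbourhood of a cell**:   boxes of side `β`, reference points `pv5Ctr β b`, inner radius `w β`, outer radius `pvdsLam Mc * w β`:   `w²` lattices of mesh `w β`. -/
theorem pvds_five_quenched {q : ℝ} (hq : 0 < q) {g : PvGeoT} (hg : PvgOk g) {w Mc : ℕ} (hw : 0 < w) {β ρ : ℝ} (hβ : 0 < β) (Q : ℤ × ℤ) {B : Set (Conf PvPt)}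
    (hB : PvdsUnit pvdsFive (pvdsLam Mc) ρ B)
    (hF : ∀ r ∈ Finset.range w ×ˢ Finset.range w, ArmtFrame q (armtZ (pv5Ctr β ((Mc : ℤ) * Q.1 + r.1, (Mc : ℤ) * Q.2 + r.2)) (w * β) (2 * Mc))
      (armtRs (w * β) (pvdsLam Mc * (w * β)) 0 0) (pvgSites g))
    (hmesh : ∀ r ∈ Finset.range w ×ˢ Finset.range w, ∀ p ∈ armtBox (2 * Mc),
      PvtrMesh (ρ * (w * β)) (closedBall (armtCtr (pv5Ctr β ((Mc : ℤ) * Q.1 + r.1, (Mc : ℤ) * Q.2 + r.2)) (w * β) p) ((pvdsLam Mc + 3 * ρ) * (w * β))) (pvgSites g)) :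
    ∑ b ∈ pvtdCells Mc 1 Q, pvQc (pvdsAt B (pv5Ctr β b) (w * β)) g ≤ ((w ^ 2 : ℕ) : ℝ≥0∞) * ENNReal.ofReal (pvdsC5 q) := by
  classical
  have hs : 0 < (w : ℝ) * β := by positivity
  have hMc : (0 : ℝ) ≤ Mc := Nat.cast_nonneg _
  have e64 : pvdsLam Mc * ((w : ℝ) * β) / 64 = (4 * Mc + 20480) * ((w : ℝ) * β) := by unfold pvdsLam; ring
  have hL : 2 * ((2 * Mc : ℕ) : ℝ) * ((w : ℝ) * β) ≤ pvdsLam Mc * ((w : ℝ) * β) / 64 := by
    rw [e64]
    push_cast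
    nlinarith
  have hm : 5 / 4 * 4 ^ 7 * ((w : ℝ) * β) ≤ pvdsLam Mc * ((w : ℝ) * β) / 64 := by
    rw [e64]
    nlinarith
  set f : ℤ × ℤ → ℝ≥0∞ := fun b => pvQc (pvdsAt B (pv5Ctr β b) (w * β)) g with hf
  set ψ : (ℕ × ℕ) × (ℤ × ℤ) → ℤ × ℤ := fun u => ((Mc : ℤ) * Q.1 + u.1.1 + w * u.2.1, (Mc : ℤ) * Q.2 + u.1.2 + w * u.2.2) with hψ
  have hsub : pvtdCells Mc 1 Q ⊆ ((Finset.range w ×ˢ Finset.range w) ×ˢ armtBox (2 * Mc)).image ψ := by
    intro b hb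
    unfold pvtdCells at hb
    rw [Finset.mem_product, Finset.mem_Icc, Finset.mem_Icc] at hb
    obtain ⟨⟨a1, a2⟩, a3, a4⟩ := hb
    push_cast at a1 a2 a3 a4
    obtain ⟨r1, hr1, p1, hp1, hp1', e1⟩ := pvds_div_aux (Mc := Mc) hw (u := b.1 - Mc * Q.1) (by linarith) (by linarith)
    obtain ⟨r2, hr2, p2, hp2, hp2', e2⟩ := pvds_div_aux (Mc := Mc) hw (u := b.2 - Mc * Q.2) (by linarith) (by linarith)
    refine Finset.mem_image.2 ⟨((r1, r2), (p1, p2)), ?_, ?_⟩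
    · unfold armtBox
      simp only [Finset.mem_product, Finset.mem_range, Finset.mem_Icc]
      exact ⟨⟨hr1, hr2⟩, ⟨hp1, hp1'⟩, hp2, hp2'⟩
    · rw [hψ]
      ext
      · simp only
        linarith
      · simp only
        linarith
  calc ∑ b ∈ pvtdCells Mc 1 Q, f b ≤ ∑ b ∈ ((Finset.range w ×ˢ Finset.range w) ×ˢ armtBox (2 * Mc)).image ψ, f b := Finset.sum_le_sum_of_subset hsub
    _ ≤ ∑ u ∈ (Finset.range w ×ˢ Finset.range w) ×ˢ armtBox (2 * Mc), f (ψ u) := Finset.sum_image_le_of_nonneg fun _ _ => zero_le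
    _ = ∑ r ∈ Finset.range w ×ˢ Finset.range w, ∑ p ∈ armtBox (2 * Mc), f (ψ (r, p)) := Finset.sum_product _ _ _
    _ ≤ ∑ _r ∈ Finset.range w ×ˢ Finset.range w, ENNReal.ofReal (pvdsC5 q) := by
        refine Finset.sum_le_sum fun r hr => ?_
        have e : ∀ p : ℤ × ℤ, f (ψ (r, p)) = pvQc (pvdsAt B (armtCtr (pv5Ctr β ((Mc : ℤ) * Q.1 + r.1, (Mc : ℤ) * Q.2 + r.2)) (w * β) p) (w * β)) g := by
          intro p
          rw [hf, hψ]
          simp only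
          rw [← pvds_ctr_eq β w ((Mc : ℤ) * Q.1 + r.1, (Mc : ℤ) * Q.2 + r.2) p]
        simp only [e]
        exact pvds_five_sub hq hg hs (pvds_lam_one Mc) hL hm hB (hF r hr) (hmesh r hr)
    _ = ((w ^ 2 : ℕ) : ℝ≥0∞) * ENNReal.ofReal (pvdsC5 q) := by
        rw [Finset.sum_const, Finset.card_product, Finset.card_range, nsmul_eq_mul, sq]

/-! ## 5. annealing -/

/-- **the frames of 186** (base 4): the bad geometries have outer probability `o(1)` -/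
def PvdsFr (q : ℝ) : Prop :=
  ∀ (Z : Finset ℂ) (Rs : Finset ℝ), (∀ r ∈ Rs, 0 < r) → Tendsto (fun ε : ℝ => pvGeo ε {g | ¬ ArmtFrame q Z Rs (pvgSites g)}) (𝓝[>] 0) (𝓝 0)

theorem pvds_eqns_cite3 : True := by
  have := @pvdsC5.eq_1; have := @pvdsLam.eq_1; have := @PvdsFr.eq_1
  trivial

theorem pvds_fr_exists : ∃ q : ℝ, 0 < q ∧ q < 1 ∧ PvdsFr q := armtf_frame_lim

theorem pvds_rs_pos {s S : ℝ} (hs : 0 < s) (hS : 0 < S) (m m' : ℕ) : ∀ r ∈ armtRs s S m m', 0 < r := by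
  classical
  intro r hr
  unfold armtRs at hr
  rw [Finset.mem_union, Finset.mem_image, Finset.mem_image] at hr
  rcases hr with ⟨j, -, rfl⟩ | ⟨j, -, rfl⟩ <;> positivity

/-- a dense site set has the mesh property in every window inside the dense region -/
theorem pvds_mesh_of_dense {Y K E : Set ℂ} {ρ : ℝ} (h : VorDense Y K ρ) (hρ : 0 ≤ ρ) (hE : E ⊆ K) : PvtrMesh ρ E Y :=
  VorDense.mono h Subset.rfl (fun z hz => hE (hz (mem_closedBall_self hρ))) le_rfl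

/-- `o(1)` times a constant is eventually `≤ δ` -/
theorem pvds_ev_small {f : ℝ → ℝ≥0∞} (h : Tendsto f (𝓝[>] 0) (𝓝 0)) (N : ℕ) {δ : ℝ≥0∞} (hδ : 0 < δ) : ∀ᶠ ε in 𝓝[>] (0 : ℝ), (N : ℝ≥0∞) * f ε ≤ δ := by
  have h1 : Tendsto (fun ε => (N : ℝ≥0∞) * f ε) (𝓝[>] 0) (𝓝 ((N : ℝ≥0∞) * 0)) := ENNReal.Tendsto.const_mul h (Or.inr (ENNReal.natCast_ne_top N))
  rw [mul_zero] at h1
  exact h1.eventually (Iic_mem_nhds hδ)

/-- **ANNEALED FIRST MOMENT OF THE FIVE-ARM FLAGS OF A CELL**: `≤ w² pvdsC5 q + 1` for small `ε` (a constant which does not depend on `Mc`) -/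
theorem pvds_five_anneal {q : ℝ} (hq : 0 < q) (hFr : PvdsFr q) {w Mc : ℕ} (hw : 0 < w) {β ρ : ℝ} (hβ : 0 < β) (hρ : 0 < ρ) (Q : ℤ × ℤ) {B : Set (Conf PvPt)}
    (hB : PvdsUnit pvdsFive (pvdsLam Mc) ρ B) :
    ∀ᶠ ε in 𝓝[>] (0 : ℝ), ∑ b ∈ pvtdCells Mc 1 Q, pvP ε (pvdsAt B (pv5Ctr β b) (w * β)) ≤ ((w ^ 2 : ℕ) : ℝ≥0∞) * ENNReal.ofReal (pvdsC5 q) + 1 := by
  classical
  have hs : 0 < (w : ℝ) * β := by positivity
  have hΛ := pvds_lam_one Mc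
  set R := Finset.range w ×ˢ Finset.range w with hR
  set K0 : Set ℂ := ⋃ u ∈ R ×ˢ armtBox (2 * Mc), closedBall (armtCtr (pv5Ctr β ((Mc : ℤ) * Q.1 + u.1.1, (Mc : ℤ) * Q.2 + u.1.2)) (w * β) u.2) ((pvdsLam Mc + 3 * ρ) * (w * β)) with hK0
  have hK0b : Bornology.IsBounded K0 := (Bornology.isBounded_biUnion_finset _).2 fun _ _ => isBounded_closedBall
  set Bad : Set PvGeoT := {g | ¬ (PvgOk g ∧ DelGood (pvgSites g))} ∪ ((⋃ r ∈ R, {g | ¬ ArmtFrame q (armtZ (pv5Ctr β ((Mc : ℤ) * Q.1 + r.1, (Mc : ℤ) * Q.2 + r.2)) (w * β) (2 * Mc))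
      (armtRs (w * β) (pvdsLam Mc * (w * β)) 0 0) (pvgSites g)}) ∪ {g | ¬ VorDense (pvgSites g) K0 (ρ * (w * β))}) with hBad
  have hlim : Tendsto (fun ε : ℝ => pvGeo ε Bad) (𝓝[>] 0) (𝓝 0) :=
    armtf_union2 armtf_good (armtf_union2 (armtf_union R _ fun r _ => hFr _ _ (pvds_rs_pos hs (by positivity) 0 0)) (armtf_dense hK0b (by positivity)))
  filter_upwards [pvds_ev_small hlim (pvtdCells Mc 1 Q).card one_pos] with ε hε
  have hq' : ∀ g, g ∉ Bad → ∑ b ∈ pvtdCells Mc 1 Q, pvQc (pvdsAt B (pv5Ctr β b) (w * β)) g ≤ ((w ^ 2 : ℕ) : ℝ≥0∞) * ENNReal.ofReal (pvdsC5 q) := by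
    intro g hg
    have hg1 : PvgOk g ∧ DelGood (pvgSites g) := by
      by_contra h
      exact hg (Or.inl h)
    have hg2 : ∀ r ∈ R, ArmtFrame q (armtZ (pv5Ctr β ((Mc : ℤ) * Q.1 + r.1, (Mc : ℤ) * Q.2 + r.2)) (w * β) (2 * Mc)) (armtRs (w * β) (pvdsLam Mc * (w * β)) 0 0) (pvgSites g) := by
      intro r hr
      by_contra h
      exact hg (Or.inr (Or.inl (mem_biUnion hr h)))
    have hg3 : VorDense (pvgSites g) K0 (ρ * (w * β)) := by
      by_contra h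
      exact hg (Or.inr (Or.inr h))
    refine pvds_five_quenched hq hg1.1 hw hβ Q hB hg2 fun r hr p hp => ?_
    refine pvds_mesh_of_dense hg3 (by positivity) ?_
    intro z hz
    exact mem_biUnion (show ((r, p) : (ℕ × ℕ) × (ℤ × ℤ)) ∈ (↑(R ×ˢ armtBox (2 * Mc)) : Set _) from Finset.mem_coe.2 (Finset.mem_product.2 ⟨hr, hp⟩)) hz
  exact (pvat_sum_le ε (pvtdCells Mc 1 Q) (fun b _ => measurable_pvConf (pvds_at_meas hB.meas _ _)) Bad _ hq').trans (add_le_add le_rfl hε)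

/-! ## 6. the J-flag: quenched bound, annealing -/

open Classical in
/-- disjoint crossings in the vocabulary of the BK kit (221), with witnesses inside the closed annulus -/
theorem pvds_cross_disj {V D : Type} {T : PvMap V D} (hT : T.IsSph) {c' c : T.Cyc} (h : c'.Inside c) {col : Bool} {J : ℕ} {σ : V → Bool} (hc : PvdsCross T c' c col J σ) :
    PvbkDisj (fun _ a => pvakW c' c a ∧ (↑a : Set V) ⊆ T.VOf (c'.Ann c)) col J σ := by
  obtain ⟨f, hf, hd⟩ := hc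
  set F : ℕ → Finset V := fun i => if hi : i < J then ((hf i hi).1.subset (inter_subset_left (t := T.VOf (c'.Ann c)))).toFinset else ∅ with hF
  have hmem : ∀ i (hi : i < J) v, v ∈ F i ↔ v ∈ f i ∩ T.VOf (c'.Ann c) := by
    intro i hi v
    rw [hF]
    simp only [dif_pos hi, Set.Finite.mem_toFinset]
  refine ⟨F, fun i hi => ⟨⟨?_, fun v hv => ((hmem i hi v).1 hv).2⟩, fun v hv => (hf i hi).2.2 v ((hmem i hi v).1 hv).1⟩, fun i hi j hj hij => ?_⟩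
  · obtain ⟨x, hx, y, hy, hj⟩ := (hf i hi).2.1
    have h1 : PvaxCr T c' c (f i) col σ := ⟨x, hx, y, hy, pl_hx_join_mono (X' := {v | v ∈ f i ∧ σ v = col}) subset_rfl (fun v hv => ⟨hv, (hf i hi).2.2 v hv⟩) hj⟩
    obtain ⟨u, hu, w, hw, hj'⟩ := (pvax_cr_inter hT h).1 h1
    exact ⟨u, hu, w, hw, pl_hx_join_mono subset_rfl (fun v hv => Finset.mem_coe.2 ((hmem i hi v).2 hv.1)) hj'⟩
  · rw [Finset.disjoint_left]
    intro v hv hv'
    exact Set.disjoint_left.1 (hd i hi j hj hij) ((hmem i hi v).1 hv).1 ((hmem j hj v).1 hv').1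

/-- **QUENCHED BOUND OF THE J-FLAG** on a frame: cycles at the radii `(t, 5t/4)`, `(4t, 5t)`, blocking between them, BK -/
theorem pvds_J_quenched {q : ℝ} {g : PvGeoT} (hg : PvgOk g) {z : ℂ} {t ρ : ℝ} (ht : 0 < t) {J : ℕ} {B : Set (Conf PvPt)} (hB : PvdsUnit (pvdsJ J) 5 ρ B)
    (hF : ArmtFrame q {z} {t, 4 * t} (pvgSites g)) (hmesh : PvtrMesh (ρ * t) (closedBall z ((5 + 3 * ρ) * t)) (pvgSites g)) :
    pvQc (pvdsAt B z t) g ≤ ENNReal.ofReal (2 * (1 - q) ^ J) := by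
  classical
  obtain ⟨h, hF⟩ := hF
  have hT : (delMap h).IsSph := dls_isSph h
  obtain ⟨⟨c', hc'⟩, hbx⟩ := hF z (Finset.mem_singleton_self z) t (by simp)
  obtain ⟨⟨c, hc⟩, -⟩ := hF z (Finset.mem_singleton_self z) (4 * t) (by simp)
  obtain ⟨hin, hblk⟩ := pvax_at_blk hT hc' hc hbx (by linarith)
  have hfin : ((delMap h).VOf (c'.Ann c)).Finite := pvax_ann_finite hT hc.fin
  set A : Finset (pvgSites g) := hfin.toFinset with hAdef
  have hA : ∀ v ∈ (delMap h).VOf (c'.Ann c), v ∈ A := fun v hv => hfin.mem_toFinset.2 hv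
  set ξ : pvgSites g → Bool := fun _ => false with hξ
  set W : Finset (pvgSites g) → Prop := fun a => pvakW c' c a ∧ (↑a : Set (pvgSites g)) ⊆ (delMap h).VOf (c'.Ann c) with hW
  have hloc : PvalLoc A (fun σ => PvbkDisj (fun _ => W) true J σ ∨ PvbkDisj (fun _ => W) false J σ) := by
    have key : ∀ (col : Bool) (ω ω' : pvgSites g → Bool), (∀ v ∈ A, ω v = ω' v) → PvbkDisj (fun _ => W) col J ω → PvbkDisj (fun _ => W) col J ω' := by
      rintro col ω ω' hω ⟨f, hf, hd⟩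
      exact ⟨f, fun i hi => ⟨(hf i hi).1, fun v hv => by rw [← hω v (hA v ((hf i hi).1.2 hv))]; exact (hf i hi).2 v hv⟩, hd⟩
    intro ω ω' hω
    exact propext (or_congr ⟨key true ω ω' hω, key true ω' ω fun v hv => (hω v hv).symm⟩ ⟨key false ω ω' hω, key false ω' ω fun v hv => (hω v hv).symm⟩)
  have hpow : ∀ col, pvaP A ξ (PvbkDisj (fun _ => W) col J) ≤ (1 - q) ^ J := by
    intro col
    refine le_trans (pva_P_mono fun ω _ hω => ?_) (pvak_cross_pow_blk hblk col A hA ξ J)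
    obtain ⟨f, hf, hd⟩ := hω
    exact ⟨f, fun i hi => ⟨(hf i hi).1.1, (hf i hi).2⟩, hd⟩
  have h5 : (1 : ℝ) ≤ 5 := by norm_num
  calc pvQc (pvdsAt B z t) g ≤ ENNReal.ofReal (pvaP A ξ (fun σ => PvbkDisj (fun _ => W) true J σ ∨ PvbkDisj (fun _ => W) false J σ)) := by
        rw [← armt_col hg A _ hloc ξ, pvqu_Qc_eq]
        refine measure_mono fun cc hcc => ?_
        have hc1 : pvConf (pvMerge (g, cc)) ∈ pvdsAt B z t := hcc
        rw [hB.plane h5 ht _ h (pvqu_cfSites g cc) hmesh] at hc1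
        have hcol : (fun v : pvgSites g => cfCol (pvConf (pvMerge (g, cc))) v) = fun v : pvgSites g => pvgColAt g cc v := funext fun v => pvds_col hg cc v.2
        rw [hcol] at hc1
        obtain ⟨col, hcr⟩ := hc1 c' c hc.fin (plc_e_left hT _) hin (fun v hv => hc'.inn v ((pvds_mark0 h5 ht _ _).1 hv))
          (fun v hv => (pvds_mark1 h5 ht _ _).2 (by have := hc.out v hv; show ‖(v : ℂ) - z‖ ≤ 5 * t; have e : dlsPos (pvgSites g) v = (v : ℂ) := rfl; rw [e] at this; linarith))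
        have := pvds_cross_disj hT hin hcr
        cases col
        · exact Or.inr this
        · exact Or.inl this
    _ ≤ ENNReal.ofReal (2 * (1 - q) ^ J) := by
        refine ENNReal.ofReal_le_ofReal ((pva_P_or_le A ξ _ _).trans ?_)
        have := hpow true
        have := hpow false
        linarith

/-- **ANNEALED BOUND OF THE J-FLAG** -/
theorem pvds_J_anneal {q : ℝ} (hFr : PvdsFr q) (z : ℂ) {t ρ : ℝ} (ht : 0 < t) (hρ : 0 < ρ) {J : ℕ} {B : Set (Conf PvPt)} (hB : PvdsUnit (pvdsJ J) 5 ρ B) {δ : ℝ≥0∞} (hδ : 0 < δ) :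
    ∀ᶠ ε in 𝓝[>] (0 : ℝ), pvP ε (pvdsAt B z t) ≤ ENNReal.ofReal (2 * (1 - q) ^ J) + δ := by
  classical
  set Bad : Set PvGeoT := {g | ¬ (PvgOk g ∧ DelGood (pvgSites g))} ∪ ({g | ¬ ArmtFrame q {z} {t, 4 * t} (pvgSites g)} ∪ {g | ¬ VorDense (pvgSites g) (closedBall z ((5 + 3 * ρ) * t)) (ρ * t)}) with hBad
  have hRs : ∀ r ∈ ({t, 4 * t} : Finset ℝ), 0 < r := by
    intro r hr
    rw [Finset.mem_insert, Finset.mem_singleton] at hr
    rcases hr with rfl | rfl <;> positivity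
  have hlim : Tendsto (fun ε : ℝ => pvGeo ε Bad) (𝓝[>] 0) (𝓝 0) :=
    armtf_union2 armtf_good (armtf_union2 (hFr _ _ hRs) (armtf_dense isBounded_closedBall (by positivity)))
  filter_upwards [pvds_ev_small hlim 1 hδ] with ε hε
  have hq' : ∀ g, g ∉ Bad → ∑ _b ∈ ({()} : Finset Unit), pvQc (pvdsAt B z t) g ≤ ENNReal.ofReal (2 * (1 - q) ^ J) := by
    intro g hg
    have hg1 : PvgOk g ∧ DelGood (pvgSites g) := by
      by_contra h
      exact hg (Or.inl h)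
    have hg2 : ArmtFrame q {z} {t, 4 * t} (pvgSites g) := by
      by_contra h
      exact hg (Or.inr (Or.inl h))
    have hg3 : VorDense (pvgSites g) (closedBall z ((5 + 3 * ρ) * t)) (ρ * t) := by
      by_contra h
      exact hg (Or.inr (Or.inr h))
    rw [Finset.sum_singleton]
    exact pvds_J_quenched hg1.1 ht hB hg2 (pvds_mesh_of_dense hg3 (by positivity) subset_rfl)
  have := pvat_sum_le ε ({()} : Finset Unit) (𝒜 := fun _ => pvdsAt B z t) (fun _ _ => measurable_pvConf (pvds_at_meas hB.meas _ _)) Bad _ hq'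
  rw [Finset.sum_singleton, Finset.card_singleton] at this
  exact this.trans (add_le_add le_rfl hε)

/-! ## 7. THE STATIC BAD BLOCK -/

open Classical in
/-- THE five-arm event of unit scale -/
noncomputable def pvdsB5 (Mc : ℕ) (ρ : ℝ) : Set (Conf PvPt) := if h : 0 < ρ then (pvds_unit_exists pvds_five_local (pvds_lam_one Mc) h).choose else ∅

open Classical in
/-- THE J-event of unit scale -/
noncomputable def pvdsBJ (J : ℕ) (ρ : ℝ) : Set (Conf PvPt) := if h : 0 < ρ then (pvds_unit_exists (pvds_J_local J) (by norm_num : (1 : ℝ) ≤ 5) h).choose else ∅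

theorem pvds_B5_spec (Mc : ℕ) {ρ : ℝ} (hρ : 0 < ρ) : PvdsUnit pvdsFive (pvdsLam Mc) ρ (pvdsB5 Mc ρ) := by
  unfold pvdsB5
  rw [dif_pos hρ]
  exact (pvds_unit_exists pvds_five_local (pvds_lam_one Mc) hρ).choose_spec

theorem pvds_BJ_spec (J : ℕ) {ρ : ℝ} (hρ : 0 < ρ) : PvdsUnit (pvdsJ J) 5 ρ (pvdsBJ J ρ) := by
  unfold pvdsBJ
  rw [dif_pos hρ]
  exact (pvds_unit_exists (pvds_J_local J) (by norm_num : (1 : ℝ) ≤ 5) hρ).choose_spec

/-- the square window of the block `x` -/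
def pvdsSq (ℓ : ℝ) (a : ℕ) (x : ℤ × ℤ) : Set ℂ := {z | pv5Dist (pv5Blk ℓ z) x ≤ a}

theorem pvds_sq_prod (ℓ : ℝ) (a : ℕ) (x : ℤ × ℤ) : pvdsSq ℓ a x ×ˢ (univ : Set Bool) = pvtdWin ℓ a x := by
  ext p
  simp only [mem_prod, mem_univ, and_true]
  rfl

theorem pvds_mem_sq (ℓ : ℝ) (a : ℕ) (x : ℤ × ℤ) (z : ℂ) : z ∈ pvdsSq ℓ a x ↔ ((z, true) : PvPt) ∈ pvtdWin ℓ a x := Iff.rfl

theorem pvds_sq_bdd {ℓ : ℝ} (hℓ : 0 < ℓ) (a : ℕ) (x : ℤ × ℤ) : Bornology.IsBounded (pvdsSq ℓ a x) := by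
  refine (isBounded_closedBall (x := pv5Ctr ℓ x) (r := 2 * ((a + 1) * ℓ))).subset fun z hz => ?_
  have key : ∀ (u : ℝ) (k : ℤ), |⌊u / ℓ⌋ - k| ≤ (a : ℤ) → |u - ℓ * k| ≤ (a + 1) * ℓ := by
    intro u k hk
    obtain ⟨h1, h2⟩ := abs_le.1 hk
    have g1 : ((⌊u / ℓ⌋ : ℤ) : ℝ) ≤ u / ℓ := Int.floor_le _
    have g2 : u / ℓ < (⌊u / ℓ⌋ : ℝ) + 1 := Int.lt_floor_add_one _
    have h1' : -(a : ℝ) ≤ (⌊u / ℓ⌋ : ℝ) - k := by exact_mod_cast h1
    have h2' : (⌊u / ℓ⌋ : ℝ) - k ≤ a := by exact_mod_cast h2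
    have e : u = u / ℓ * ℓ := by field_simp
    rw [abs_le]
    constructor
    · have : (-(a : ℝ) + k) * ℓ ≤ u / ℓ * ℓ := mul_le_mul_of_nonneg_right (by linarith) hℓ.le
      nlinarith
    · have : u / ℓ * ℓ ≤ ((a : ℝ) + k + 1) * ℓ := mul_le_mul_of_nonneg_right (by linarith) hℓ.le
      nlinarith
  have hz' : max |(pv5Blk ℓ z).1 - x.1| |(pv5Blk ℓ z).2 - x.2| ≤ (a : ℤ) := hz
  have h1 := key z.re x.1 ((le_max_left _ _).trans hz')
  have h2 := key z.im x.2 ((le_max_right _ _).trans hz')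
  rw [mem_closedBall, dist_eq_norm]
  refine (Complex.norm_le_abs_re_add_abs_im _).trans ?_
  have e1 : (z - pv5Ctr ℓ x).re = z.re - ℓ * x.1 := by simp [pv5Ctr]
  have e2 : (z - pv5Ctr ℓ x).im = z.im - ℓ * x.2 := by simp [pv5Ctr]
  rw [e1, e2]
  linarith

/-- the mesh event of a window is read from the window -/
theorem pvds_mesh_reads (ρ : ℝ) (E : Set ℂ) : Conf.ReadsSet (E ×ˢ univ) {η : Conf PvPt | ¬ PvtrMesh ρ E (cfSites η)} := by
  intro η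
  refine not_congr (pvtr_mesh_congr (pvat_restr_sites ?_))
  rw [pvi_restr_idem]

/-- the mesh fails with probability `o(1)` -/
theorem pvds_mesh_lim {ρ : ℝ} (hρ : 0 < ρ) {E : Set ℂ} (hE : Bornology.IsBounded E) : Tendsto (fun ε : ℝ => pvP ε {η : Conf PvPt | ¬ PvtrMesh ρ E (cfSites η)}) (𝓝[>] 0) (𝓝 0) := by
  refine tendsto_of_tendsto_of_tendsto_of_le_of_le tendsto_const_nhds (vorm_G_tendsto hE hρ) (fun _ => zero_le) fun ε => measure_mono fun η hη hG => hη ?_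
  exact pvds_mesh_of_dense (vorm_G_dense hρ hG) hρ.le subset_rfl

/-- **the numbers of the static bad block**.   Unit `h`;   `n` levels;   level `i`: boxes of side `A i` (units of `h`), cells of `Mc × Mc` boxes, `N i` cells per block side, block side `L = N i * (Mc * A i)`;
flags: inner radius `w * A i`, outer radius `pvdsLam Mc * w * A i`;   c-bad: a simple `*`-chain of `n0 + 1` heavy cells from the `d`-enlargement;   `J`;   window `a'` blocks;   mesh `ρ h`. -/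
structure PvdsPar where
  n : ℕ
  n0 : ℕ
  d : ℕ
  w : ℕ
  Mc : ℕ
  J : ℕ
  a' : ℕ
  C0 : ℕ
  L : ℕ
  A : ℕ → ℕ
  N : ℕ → ℕ
  ρ : ℝ

namespace PvdsPar

variable (P : PvdsPar)

/-- the range of the flags of a cell, in cells -/
def a : ℕ := 257 * P.w + 1

structure Wf : Prop where
  w_pos : 0 < P.w
  Mc_big : 1310723 ≤ P.Mc
  ρ_pos : 0 < P.ρ
  ρ_le : P.ρ ≤ 1
  A_pos : ∀ i < P.n, 0 < P.A i
  N_pos : ∀ i < P.n, 0 < P.N i
  L_eq : ∀ i < P.n, P.L = P.N i * (P.Mc * P.A i)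
  L_pos : 0 < P.L
  N_big : ∀ i < P.n, P.n0 + P.a ≤ P.N i
  N_le : ∀ i < P.n, P.N i ≤ P.C0 * P.Mc ^ P.n
  he : 2 * P.n + 1 ≤ (P.n0 + 1) / (2 * P.a + 1) ^ 2
  a_d : P.d + 1 ≤ P.a'
  a_J : 16 ≤ P.a'

/-- **the five-arm flag of the box `b` of level `i`** (side `A i * h`, reference point = its corner `pv5Ctr (A i * h) b`) -/
noncomputable def Fl (h : ℝ) (i : ℕ) (b : ℤ × ℤ) : Set (Conf PvPt) := pvdsAt (pvdsB5 P.Mc P.ρ) (pv5Ctr (P.A i * h) b) (P.w * (P.A i * h))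

/-- c-bad -/
noncomputable def CB (h : ℝ) (x : ℤ × ℤ) : Set (Conf PvPt) := pvtdCBx P.n P.n0 P.d P.Mc P.N (fun i _ b => P.Fl h i b) x

/-- J-bad: inner radius `2 L h` round the corner of the block, outer radius `10 L h` -/
noncomputable def JB (h : ℝ) (x : ℤ × ℤ) : Set (Conf PvPt) := pvdsAt (pvdsBJ P.J P.ρ) (pv5Ctr (P.L * h) x) (2 * (P.L * h))

/-- mesh failure in the window -/
def MF (h : ℝ) (x : ℤ × ℤ) : Set (Conf PvPt) := {η | ¬ PvtrMesh (P.ρ * h) (pvdsSq (P.L * h) P.a' x) (cfSites η)}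

/-- **THE STATIC BAD BLOCK** (c-bad, J-bad, mesh failure;   frame failure and flagged centres are added by the consumer: `Conf.ReadsSet.union`, `measure_union_le`) -/
noncomputable def SB (h : ℝ) (x : ℤ × ℤ) : Set (Conf PvPt) := P.CB h x ∪ (P.JB h x ∪ P.MF h x)

end PvdsPar

theorem pvds_eqns_cite4 : True := by
  have := @pvdsB5.eq_1; have := @pvdsBJ.eq_1; have := @pvdsSq.eq_1; have := @PvdsPar.a.eq_1; have := @PvdsPar.Fl.eq_1; have := @PvdsPar.CB.eq_1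
  have := @PvdsPar.JB.eq_1; have := @PvdsPar.MF.eq_1; have := @PvdsPar.SB.eq_1
  trivial

namespace PvdsPar

variable {P : PvdsPar}

theorem Wf.Mc_pos (hP : P.Wf) : 0 < P.Mc := lt_of_lt_of_le (by norm_num) hP.Mc_big

/-- the window of a flag lies in the window of the cells near its box -/
theorem Wf.fl_win (hP : P.Wf) {h : ℝ} (hh : 0 < h) {i : ℕ} (hi : i < P.n) {Q b : ℤ × ℤ} (hb : b ∈ pvtdCells P.Mc 1 Q) :
    closedBall (pv5Ctr (P.A i * h) b) ((pvdsLam P.Mc + 3 * P.ρ) * (P.w * (P.A i * h))) ×ˢ (univ : Set Bool) ⊆ pvtdWin (P.Mc * (P.A i * h)) P.a Q := by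
  have hA : (0 : ℝ) < P.A i := by exact_mod_cast hP.A_pos i hi
  have hβ : 0 < (P.A i : ℝ) * h := by positivity
  have hMc : (0 : ℝ) < P.Mc := by exact_mod_cast hP.Mc_pos
  have hw : (0 : ℝ) < P.w := by exact_mod_cast hP.w_pos
  refine pvtd_ball_sub_win (a := 257 * P.w) (b := 1) (by positivity) ?_ ?_
  · rw [pvtd_blk_cg hβ hP.Mc_pos, pvtd_blk_ctr hβ]
    exact (pvtd_cells_mem hP.Mc_pos 1 Q b).1 hb
  · have h1 : (1310723 : ℝ) ≤ P.Mc := by exact_mod_cast hP.Mc_big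
    have h2 := hP.ρ_le
    have h3 : pvdsLam P.Mc + 3 * P.ρ ≤ 257 * P.Mc := by unfold pvdsLam; linarith
    have h4 : 0 ≤ (P.w : ℝ) * ((P.A i : ℝ) * h) := by positivity
    calc (pvdsLam P.Mc + 3 * P.ρ) * (P.w * (P.A i * h)) ≤ 257 * P.Mc * (P.w * (P.A i * h)) := mul_le_mul_of_nonneg_right h3 h4
      _ = ((257 * P.w : ℕ) : ℝ) * (P.Mc * (P.A i * h)) := by push_cast; ring

theorem Wf.fl_reads (hP : P.Wf) {h : ℝ} (hh : 0 < h) {i : ℕ} (hi : i < P.n) {Q b : ℤ × ℤ} (hb : b ∈ pvtdCells P.Mc 1 Q) :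
    Conf.ReadsSet (pvtdWin (P.Mc * (P.A i * h)) P.a Q) (P.Fl h i b) := by
  have hA : (0 : ℝ) < P.A i := by exact_mod_cast hP.A_pos i hi
  have hw : (0 : ℝ) < P.w := by exact_mod_cast hP.w_pos
  exact (pvds_at_reads (pvds_B5_spec P.Mc hP.ρ_pos).reads _ (by positivity)).mono (hP.fl_win hh hi hb)

theorem Wf.L_eq' (hP : P.Wf) (h : ℝ) {i : ℕ} (hi : i < P.n) : (P.L : ℝ) * h = P.N i * (P.Mc * (P.A i * h)) := by
  have := hP.L_eq i hi
  have e : (P.L : ℝ) = P.N i * (P.Mc * P.A i) := by exact_mod_cast this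
  rw [e]
  ring

theorem Wf.cb_reads (hP : P.Wf) {h : ℝ} (hh : 0 < h) (x : ℤ × ℤ) : Conf.ReadsSet (pvtdWin (P.L * h) (P.d + 1) x) (P.CB h x) := by
  refine pvtd_cbx_reads (a := P.a) (ℓc := fun i => P.Mc * (P.A i * h)) hP.Mc_pos (fun i hi => ?_) (fun i hi => ⟨hP.N_pos i hi, hP.N_big i hi, hP.L_eq' h hi⟩)
    fun i hi Q _ b hb => hP.fl_reads hh hi hb
  have hA : (0 : ℝ) < P.A i := by exact_mod_cast hP.A_pos i hi
  have hMc : (0 : ℝ) < P.Mc := by exact_mod_cast hP.Mc_pos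
  positivity

theorem pvds_win_mono (ℓ : ℝ) {a b : ℕ} (hab : a ≤ b) (x : ℤ × ℤ) : pvtdWin ℓ a x ⊆ pvtdWin ℓ b x := fun p hp => by
  have hp' : pv5Dist (pv5Blk ℓ p.1) x ≤ a := hp
  show pv5Dist (pv5Blk ℓ p.1) x ≤ b
  exact hp'.trans (by exact_mod_cast hab)

theorem Wf.jb_win (hP : P.Wf) {h : ℝ} (hh : 0 < h) (x : ℤ × ℤ) :
    closedBall (pv5Ctr (P.L * h) x) ((5 + 3 * P.ρ) * (2 * (P.L * h))) ×ˢ (univ : Set Bool) ⊆ pvtdWin (P.L * h) P.a' x := by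
  have hL : (0 : ℝ) < P.L := by exact_mod_cast hP.L_pos
  have hℓ : 0 < (P.L : ℝ) * h := by positivity
  refine (pvtd_ball_sub_win (a := 16) (b := 0) hℓ ?_ ?_).trans (pvds_win_mono _ hP.a_J x)
  · rw [pvtd_blk_ctr hℓ]
    simp [pv5Dist]
  · have := hP.ρ_le
    push_cast
    nlinarith

/-- **hSr**: the static bad block reads the window `a'` of its block -/
theorem Wf.sb_reads (hP : P.Wf) {h : ℝ} (hh : 0 < h) (x : ℤ × ℤ) : Conf.ReadsSet (pvtdWin (P.L * h) P.a' x) (P.SB h x) := by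
  have hL : (0 : ℝ) < P.L := by exact_mod_cast hP.L_pos
  refine ((hP.cb_reads hh x).mono (pvds_win_mono _ hP.a_d x)).union (Conf.ReadsSet.union ?_ ?_)
  · exact (pvds_at_reads (pvds_BJ_spec P.J hP.ρ_pos).reads _ (by positivity)).mono (hP.jb_win hh x)
  · rw [← pvds_sq_prod]
    exact pvds_mesh_reads _ _

end PvdsPar

/-! ## 8. the probability of the static bad block -/

/-- the bound of the first moment of the flags of a cell (`q`, `w` only) -/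
noncomputable def pvdsK (q : ℝ) (w : ℕ) : ℕ := w ^ 2 * ⌈pvdsC5 q⌉₊ + 1

theorem pvds_K_le (q : ℝ) (w : ℕ) : ((w ^ 2 : ℕ) : ℝ≥0∞) * ENNReal.ofReal (pvdsC5 q) + 1 ≤ (pvdsK q w : ℝ≥0∞) := by
  have h1 : ENNReal.ofReal (pvdsC5 q) ≤ (⌈pvdsC5 q⌉₊ : ℝ≥0∞) := by
    rw [← ENNReal.ofReal_natCast]
    exact ENNReal.ofReal_le_ofReal (Nat.le_ceil _)
  unfold pvdsK
  push_cast
  gcongr

/-- the bound of `P(c-bad)` -/
noncomputable def PvdsPar.cbNum (P : PvdsPar) (q : ℝ) : ℕ := P.n * ((2 * P.d + 1) * P.C0) ^ 2 * 8 ^ P.n0 * pvdsK q P.w ^ (2 * P.n + 1)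

theorem pvds_eqns_cite5 : True := by
  have := @pvdsK.eq_1; have := @PvdsPar.cbNum.eq_1
  trivial

namespace PvdsPar

variable {P : PvdsPar}

/-- **`P(c-bad) ≤ cbNum / Mc`** for small `ε` -/
theorem Wf.cb_le (hP : P.Wf) {q : ℝ} (hq : 0 < q) (hFr : PvdsFr q) (hK : pvdsK q P.w ≤ P.Mc) {h : ℝ} (hh : 0 < h) (x : ℤ × ℤ) :
    ∀ᶠ ε in 𝓝[>] (0 : ℝ), pvP ε (P.CB h x) ≤ (P.cbNum q : ℝ≥0∞) / P.Mc := by
  have hev : ∀ᶠ ε in 𝓝[>] (0 : ℝ), ∀ i ∈ Finset.range P.n, ∀ Q ∈ pvtdReach (pvtdCells (P.N i) P.d x) P.n0,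
      ∑ b ∈ pvtdCells P.Mc 1 Q, pvP ε (P.Fl h i b) ≤ (pvdsK q P.w : ℝ≥0∞) := by
    rw [Filter.eventually_all_finset]
    intro i hi
    rw [Filter.eventually_all_finite (pvtd_reach_finite _ _)]
    intro Q _
    have hA : (0 : ℝ) < P.A i := by exact_mod_cast hP.A_pos i (Finset.mem_range.1 hi)
    filter_upwards [pvds_five_anneal hq hFr hP.w_pos (β := P.A i * h) (by positivity) hP.ρ_pos Q (pvds_B5_spec P.Mc hP.ρ_pos)] with ε hε
    exact hε.trans (pvds_K_le q P.w)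
  filter_upwards [hev] with ε hε
  exact pvtd_cbx_le (pv_isPpp ε) hP.Mc_pos hK hP.he hP.N_le (fun i => P.Mc * (P.A i * h)) (fun i hi Q _ b hb => hP.fl_reads hh hi hb)
    (fun i hi Q hQ => hε i (Finset.mem_range.2 hi) Q hQ)

/-- **hSq, one block**: `P(static bad) ≤ cbNum / Mc + 2 (1-q)^J + δ` for small `ε` -/
theorem Wf.sb_le (hP : P.Wf) {q : ℝ} (hq : 0 < q) (hFr : PvdsFr q) (hK : pvdsK q P.w ≤ P.Mc) {h : ℝ} (hh : 0 < h) (x : ℤ × ℤ) {δ : ℝ≥0∞} (hδ : 0 < δ) :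
    ∀ᶠ ε in 𝓝[>] (0 : ℝ), pvP ε (P.SB h x) ≤ (P.cbNum q : ℝ≥0∞) / P.Mc + ENNReal.ofReal (2 * (1 - q) ^ P.J) + δ := by
  have hL : (0 : ℝ) < P.L := by exact_mod_cast hP.L_pos
  have hδ2 : 0 < δ / 2 := ENNReal.half_pos hδ.ne'
  have hρh : 0 < P.ρ * h := mul_pos hP.ρ_pos hh
  have h3 : ∀ᶠ ε in 𝓝[>] (0 : ℝ), pvP ε (P.MF h x) ≤ δ / 2 :=
    (pvds_mesh_lim hρh (pvds_sq_bdd (by positivity) P.a' x)).eventually (Iic_mem_nhds hδ2)
  filter_upwards [hP.cb_le hq hFr hK hh x, pvds_J_anneal hFr (pv5Ctr (P.L * h) x) (t := 2 * (P.L * h)) (by positivity) hP.ρ_pos (pvds_BJ_spec P.J hP.ρ_pos) hδ2, h3] with ε h1 h2 h3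
  calc pvP ε (P.SB h x) ≤ pvP ε (P.CB h x) + (pvP ε (P.JB h x) + pvP ε (P.MF h x)) := (measure_union_le _ _).trans (add_le_add le_rfl (measure_union_le _ _))
    _ ≤ (P.cbNum q : ℝ≥0∞) / P.Mc + ((ENNReal.ofReal (2 * (1 - q) ^ P.J) + δ / 2) + δ / 2) := add_le_add h1 (add_le_add h2 h3)
    _ = (P.cbNum q : ℝ≥0∞) / P.Mc + ENNReal.ofReal (2 * (1 - q) ^ P.J) + δ := by rw [add_assoc (ENNReal.ofReal _), ENNReal.add_halves, add_assoc]

/-- **hSq in the form of `pvtd_dense_ord`** -/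
theorem Wf.hSq (hP : P.Wf) {q : ℝ} (hq : 0 < q) (hFr : PvdsFr q) (hK : pvdsK q P.w ≤ P.Mc) {τ δ : ℝ≥0∞} (hδ : 0 < δ)
    (hτ : (P.cbNum q : ℝ≥0∞) / P.Mc + ENNReal.ofReal (2 * (1 - q) ^ P.J) + δ ≤ τ) {ι : Type} {l : Filter ι} {εs : ι → ℝ} (hε : Tendsto εs l (𝓝[>] 0)) {h : ℝ} (hh : 0 < h)
    (Start : Finset (ℤ × ℤ)) (k : ℕ) : ∀ᶠ i in l, ∀ b ∈ pvtdReach Start k, pvP (εs i) (P.SB h b) ≤ τ := by
  have h1 : ∀ᶠ ε in 𝓝[>] (0 : ℝ), ∀ b ∈ pvtdReach Start k, pvP ε (P.SB h b) ≤ τ := by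
    rw [Filter.eventually_all_finite (pvtd_reach_finite _ _)]
    intro b _
    filter_upwards [hP.sb_le hq hFr hK hh b hδ] with ε hε'
    exact hε'.trans hτ
  exact hε.eventually h1

end PvdsPar

/-- choice of `J` -/
theorem pvds_choose_J {q : ℝ} (hq : 0 < q) (hq1 : q < 1) {τ : ℝ≥0∞} (hτ : 0 < τ) : ∃ J0 : ℕ, ∀ J ≥ J0, ENNReal.ofReal (2 * (1 - q) ^ J) ≤ τ := by
  have h1 : Tendsto (fun J : ℕ => 2 * (1 - q) ^ J) atTop (𝓝 0) := by
    simpa using (tendsto_pow_atTop_nhds_zero_of_lt_one (by linarith : (0 : ℝ) ≤ 1 - q) (by linarith)).const_mul 2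
  have h2 : Tendsto (fun J : ℕ => ENNReal.ofReal (2 * (1 - q) ^ J)) atTop (𝓝 0) := by
    simpa using ENNReal.tendsto_ofReal h1
  exact eventually_atTop.1 (h2.eventually (Iic_mem_nhds hτ))

/-- choice of `Mc` (LAST) -/
theorem pvds_choose_Mc (C : ℕ) {τ : ℝ≥0∞} (hτ : 0 < τ) : ∃ M0 : ℕ, ∀ Mc ≥ M0, (C : ℝ≥0∞) / Mc ≤ τ := by
  have h1 : (C : ℝ≥0∞) / τ ≠ ⊤ := ENNReal.div_ne_top (ENNReal.natCast_ne_top C) hτ.ne'
  obtain ⟨M0, hM0⟩ := ENNReal.exists_nat_gt h1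
  refine ⟨M0, fun Mc hMc => ENNReal.div_le_of_le_mul ?_⟩
  have h2 : (C : ℝ≥0∞) / τ ≤ Mc := hM0.le.trans (by exact_mod_cast hMc)
  by_cases ht : τ = ⊤
  · rw [ht]
    rcases Nat.eq_zero_or_pos Mc with h0 | h0
    · subst h0
      have : (C : ℝ≥0∞) / τ < (0 : ℕ) := lt_of_lt_of_le hM0 (by exact_mod_cast hMc)
      simp at this
    · rw [ENNReal.top_mul (by exact_mod_cast h0.ne')]
      exact le_top
  · have := (ENNReal.div_le_iff_le_mul (Or.inl hτ.ne') (Or.inl ht)).1 h2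
    rwa [mul_comm] at this

/-! ## 9. USE -/

namespace PvdsPar

variable {P : PvdsPar}

/-- **off the static bad block**: mesh in the window, not J-bad, and the hypothesis of `pvag_select` (281) at all levels -/
theorem use {h : ℝ} {x : ℤ × ℤ} {η : Conf PvPt} (hη : η ∉ P.SB h x) :
    PvtrMesh (P.ρ * h) (pvdsSq (P.L * h) P.a' x) (cfSites η) ∧ η ∉ P.JB h x ∧
      ∀ i < P.n, ∀ c, Pv5Chain P.n0 c → c 0 ∈ pvtdCells (P.N i) P.d x → ∃ j ≤ P.n0, PvagLight P.Mc (fun _ b => η ∈ P.Fl h i b) (c j) := by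
  refine ⟨?_, fun hj => hη (Or.inr (Or.inl hj)), ?_⟩
  · by_contra hm
    exact hη (Or.inr (Or.inr hm))
  · exact pvtd_not_cb (fun hc => hη (Or.inl hc))

/-- the window of a flag which `pvag_select` can pick lies in the window of the block -/
theorem Wf.fl_sq (hP : P.Wf) {h : ℝ} (hh : 0 < h) (x : ℤ × ℤ) {i : ℕ} (hi : i < P.n) {Q : ℤ × ℤ} (hQ : Q ∈ pvtdReach (pvtdCells (P.N i) P.d x) P.n0) {b : ℤ × ℤ}
    (hb : b ∈ pvtdCells P.Mc 1 Q) : closedBall (pv5Ctr (P.A i * h) b) ((pvdsLam P.Mc + 3 * P.ρ) * (P.w * (P.A i * h))) ⊆ pvdsSq (P.L * h) P.a' x := by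
  intro z hz
  have hA : (0 : ℝ) < P.A i := by exact_mod_cast hP.A_pos i hi
  have hMc : (0 : ℝ) < P.Mc := by exact_mod_cast hP.Mc_pos
  have h1 : ((z, true) : PvPt) ∈ pvtdWin (P.Mc * (P.A i * h)) P.a Q := hP.fl_win hh hi hb (Set.mk_mem_prod hz (mem_univ true))
  have h2 : ((z, true) : PvPt) ∈ pvtdWin (P.N i * (P.Mc * (P.A i * h))) (P.d + 1) x :=
    pvtd_cell_win (ℓc := P.Mc * (P.A i * h)) (by positivity) (hP.N_pos i hi) (hP.N_big i hi) hQ h1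
  rw [← hP.L_eq' h hi] at h2
  exact (pvds_mem_sq _ _ _ _).2 (pvds_win_mono _ hP.a_d x h2)

/-- **NOT FLAGGED, in a block with the mesh property** (EVERY completion): the cycles of the buffer hypothesis of D14 (281) -/
theorem Wf.five_use (hP : P.Wf) {h : ℝ} (hh : 0 < h) (x : ℤ × ℤ) {η : Conf PvPt} (hm : PvtrMesh (P.ρ * h) (pvdsSq (P.L * h) P.a' x) (cfSites η)) (hlf : VorLF (cfSites η)) {i : ℕ} (hi : i < P.n)
    {Q : ℤ × ℤ} (hQ : Q ∈ pvtdReach (pvtdCells (P.N i) P.d x) P.n0) {b : ℤ × ℤ} (hb : b ∈ pvtdCells P.Mc 1 Q) {X : Type} (𝔅 : PvBulk X) (ξ : X → Bool) (zi : ℂ)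
    (hok : 𝔅.Ok (cfSites η) (closedBall (pv5Ctr (P.A i * h) b) (pvdsLam P.Mc * (P.w * (P.A i * h))))) (hzi : pvdsLam P.Mc * (P.w * (P.A i * h)) < ‖zi - pv5Ctr (P.A i * h) b‖)
    (hnf : η ∉ P.Fl h i b) :
    ∃ k0 k1 k2 : (𝔅.T (cfSites η)).Cyc, k0.Left.Finite ∧ k1.Inside k2 ∧ k2.Inside k0 ∧
      (∀ v, ‖𝔅.posF _ zi v - pv5Ctr (P.A i * h) b‖ ≤ P.w * (P.A i * h) → v ∈ (𝔅.T (cfSites η)).Int k1.Left) ∧
      (∀ v ∈ (𝔅.T (cfSites η)).VOf k0.Left, ‖𝔅.posF _ zi v - pv5Ctr (P.A i * h) b‖ ≤ pvdsLam P.Mc * (P.w * (P.A i * h))) ∧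
      (¬ ∃ x x2 x4 n1 n2 n4, PvatCfg (𝔅.T (cfSites η)) k0 k1 k2 (𝔅.col η ξ) x x2 x4 n1 n2 n4) ∧
      ¬ ∃ x x2 x4 n1 n2 n4, PvatCfg (𝔅.T (cfSites η)) k0 k1 k2 (pvasNot (𝔅.col η ξ)) x x2 x4 n1 n2 n4 := by
  have hA : (1 : ℝ) ≤ P.A i := by exact_mod_cast hP.A_pos i hi
  have hw : (1 : ℝ) ≤ P.w := by exact_mod_cast hP.w_pos
  have ht : 0 < (P.w : ℝ) * (P.A i * h) := by positivity
  refine (pvds_B5_spec P.Mc hP.ρ_pos).five_not (pvds_lam_one _) ht _ 𝔅 η ξ zi (pvds_fin hlf isBounded_closedBall) hok (pvds_mesh_mono hm ?_ (hP.fl_sq hh x hi hQ hb)) hzi hnf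
  refine mul_le_mul_of_nonneg_left ?_ hP.ρ_pos.le
  have : (1 : ℝ) ≤ P.w * P.A i := by nlinarith
  nlinarith

/-- **NOT J-BAD, in a block with the mesh property** (EVERY completion): the block lies inside `c'`, `c` within `10 L h` of its corner, fewer than `J` disjoint crossings of each colour -/
theorem Wf.J_use (hP : P.Wf) {h : ℝ} (hh : 0 < h) (x : ℤ × ℤ) {η : Conf PvPt} (hm : PvtrMesh (P.ρ * h) (pvdsSq (P.L * h) P.a' x) (cfSites η)) (hlf : VorLF (cfSites η))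
    {X : Type} (𝔅 : PvBulk X) (ξ : X → Bool) (zi : ℂ) (hok : 𝔅.Ok (cfSites η) (closedBall (pv5Ctr (P.L * h) x) (5 * (2 * (P.L * h))))) (hzi : 5 * (2 * (P.L * h)) < ‖zi - pv5Ctr (P.L * h) x‖)
    (hnj : η ∉ P.JB h x) :
    ∃ c' c : (𝔅.T (cfSites η)).Cyc, c.Left.Finite ∧ c'.Inside c ∧ (∀ v, ‖𝔅.posF _ zi v - pv5Ctr (P.L * h) x‖ ≤ 2 * (P.L * h) → v ∈ (𝔅.T (cfSites η)).Int c'.Left) ∧
      (∀ v ∈ (𝔅.T (cfSites η)).VOf c.Left, ‖𝔅.posF _ zi v - pv5Ctr (P.L * h) x‖ ≤ 5 * (2 * (P.L * h))) ∧ ∀ col, ¬ PvdsCross (𝔅.T (cfSites η)) c' c col P.J (𝔅.col η ξ) := by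
  have hL : (1 : ℝ) ≤ P.L := by exact_mod_cast hP.L_pos
  have ht : 0 < 2 * ((P.L : ℝ) * h) := by positivity
  refine (pvds_BJ_spec P.J hP.ρ_pos).J_not (by norm_num) ht _ 𝔅 η ξ zi (pvds_fin hlf isBounded_closedBall) hok (pvds_mesh_mono hm ?_ ?_) hzi hnj
  · refine mul_le_mul_of_nonneg_left ?_ hP.ρ_pos.le
    nlinarith
  · intro z hz
    exact (pvds_mem_sq _ _ _ _).2 (hP.jb_win hh x (Set.mk_mem_prod hz (mem_univ true)))

end PvdsPar

end Claimed.Agent.R289
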