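import Claimed.Agent.R289.Tr.CellInv
import Claimed.Agent.R289.Tr.CellAlg

/-!
# Row 289 (S0537), wall block WB4 CELLS, file Tr/CellV : TR28 (b) = THE V-HALF OF THE CELL CONSTANTS (`al^V = δ`, `rel^V = 0`, `a^V = 1` EXACTLY)      (helper52; prefix `pvcz_`)

TRE_125.md, TR28 (b), lines 2-5, in the `Conf` / `Reads` / `spl` language of 141 and with the constants `pvciI` (`i_e`), `pvciK` (`k_e`), `pvciKo` (`kout_e`, `kin_e`) of `Tr/CellInv`.
The deterministic identity (line 1, owner B) `X^V_e = c(σ_u') - c(σ_u)` on `A_e` is the HYPOTHESIS `hX`.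
* §1 (V1) `pvcz_I_const` : `X = v` on `A`, `v` reads `O`, `P(A | σ) ≠ 0`  ⟹  `i_e(σ) = v(σ)` EXACTLY (no integrability);   `pvcz_W_prob` : the weight `1_A / P(A | σ)` has conditional mass one.
* §2 (V2) `pvcz_K_const` : `k_e = E[v | Γ]`;   `pvcz_cond_inter` : `E[c | G ∩ G'] = E[c | G]` (`c`, `G` read `U`; `G'` reads `U'`; `U`, `U'` disjoint);   `pvcz_K_diff` : `k_e = E[c' | G'] - E[c | G]`;   `pvcz_Ko_diff`, `pvcz_Ki_diff` : the one-sided means.
* §3 (V3) POINT covariance: `pvcz_mean_aff` : the placed point functional `η ↦ a * c (g⁻¹ η) + b` has conditional mean `a * cbar + b`.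
* §4 (V4) `pvczW δ ζ` = the three constants of the field `V` (`ζ = cbar - z_ref`);  `pvcz_rel = 0`, `pvcz_a = δ`, `pvcz_k = -ζ`, `pvcz_sum` : the chain sum of `V` is `δ disp + ζ (d_out - d_in)` for EVERY word;
     `pvczY W δ ζ` = constants of the field of record `y = Q - (al^Q/δ) V` : `pvcz_Y_a = 0`, `pvcz_Y_rel = rel^Q`, `pvcz_Y_sum`;     **`pvcz_K_cell`** = TR28 (b) for a placed transition of the model (`pvP ε`, frames `pvciAff`).
-/

set_option autoImplicit false
set_option linter.unusedSectionVars false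

namespace Claimed.Agent.R289

open MeasureTheory ProbabilityTheory Set Filter Topology
open scoped ENNReal NNReal

section gen

variable {E : Type*} [MeasurableSpace E] {m : Measure E} {μ : Measure (Conf E)} {O U U' : Set E}

/-! ## 1. (V1) -/

theorem pvcz_W_spl (μ : Measure (Conf E)) (O : Set E) (A : Set (Conf E)) (σ η : Conf E) :
    pvtiW μ O A (Conf.spl O (σ, η)) = A.indicator 1 (Conf.spl O (σ, η)) * (pvtiP μ O A σ)⁻¹ := by
  unfold pvtiW
  rw [(pvti_P_reads μ O A).spl_left subset_rfl, div_eq_mul_inv]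

theorem pvcz_W_meas [SFinite μ] (hO : MeasurableSet O) {A : Set (Conf E)} (hA : MeasurableSet A) (σ : Conf E) :
    Measurable fun η => pvtiW μ O A (Conf.spl O (σ, η)) :=
  ((measurable_one.indicator hA).div (pvti_P_measurable hO hA)).comp ((Conf.measurable_spl hO).comp (measurable_const.prodMk measurable_id))

/-- the weight `1_A / P(A | σ)` has conditional mass one -/
theorem pvcz_W_prob [IsProbabilityMeasure μ] (hO : MeasurableSet O) {A : Set (Conf E)} (hA : MeasurableSet A) {σ : Conf E} (hp : pvtiP μ O A σ ≠ 0) :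
    IsProbabilityMeasure (μ.withDensity fun η => pvtiW μ O A (Conf.spl O (σ, η))) := ⟨by
  rw [withDensity_apply _ MeasurableSet.univ, Measure.restrict_univ]
  simp_rw [pvcz_W_spl]
  have hsec : Measurable fun η => Conf.spl O (σ, η) := (Conf.measurable_spl hO).comp (measurable_const.prodMk measurable_id)
  have hm : Measurable fun η => A.indicator (1 : Conf E → ℝ≥0∞) (Conf.spl O (σ, η)) := (measurable_one.indicator hA).comp hsec
  rw [lintegral_mul_const _ hm]
  exact ENNReal.mul_inv_cancel hp (ne_top_of_le_ne_top ENNReal.one_ne_top (pvti_P_le_one O A σ))⟩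

/-- **(V1)** : an increment which on `A` is a function of the states has `i_e = ` that function, exactly -/
theorem pvcz_I_const [IsProbabilityMeasure μ] (hO : MeasurableSet O) {A : Set (Conf E)} (hA : MeasurableSet A) {X v : Conf E → ℂ}
    (hv : Conf.Reads O v) (hX : ∀ η ∈ A, X η = v η) {σ : Conf E} (hp : pvtiP μ O A σ ≠ 0) : pvciI μ O A X σ = v σ := by
  unfold pvciI pvtiMean
  have := pvcz_W_prob (μ := μ) hO hA hp
  have e : ∀ᵐ η ∂(μ.withDensity fun η => pvtiW μ O A (Conf.spl O (σ, η))), X (Conf.spl O (σ, η)) = v σ := by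
    rw [ae_withDensity_iff (pvcz_W_meas hO hA σ)]
    refine ae_of_all _ fun η hne => ?_
    have hmem : Conf.spl O (σ, η) ∈ A := by
      by_contra hn
      apply hne
      rw [pvcz_W_spl, Set.indicator_of_notMem hn, zero_mul]
    rw [hX _ hmem, hv.spl_left subset_rfl]
  rw [integral_congr_ae e, integral_const]
  simp

/-! ## 2. (V2) -/

/-- `k_e = E[v | Γ]` -/
theorem pvcz_K_const [IsProbabilityMeasure μ] (hO : MeasurableSet O) {A Γ : Set (Conf E)} (hA : MeasurableSet A) (hΓ : MeasurableSet Γ) {X v : Conf E → ℂ}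
    (hv : Conf.Reads O v) (hX : ∀ η ∈ A, X η = v η) (hp : ∀ σ ∈ Γ, pvtiP μ O A σ ≠ 0) :
    pvciK μ O Γ A X = ∫ σ, v σ ∂(ProbabilityTheory.cond μ Γ) := by
  unfold pvciK
  refine integral_congr_ae ?_
  filter_upwards [ae_cond_mem hΓ] with σ hσ
  exact pvcz_I_const hO hA hv hX (hp σ hσ)

/-- conditioning on an independent event does not change the mean -/
theorem pvcz_cond_inter (h : IsPpp m μ) (hU : MeasurableSet U) (hU' : MeasurableSet U') (hd : Disjoint U U') {G G' : Set (Conf E)}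
    (hG : MeasurableSet G) (hG' : MeasurableSet G') (hGr : Conf.ReadsSet U G) (hGr' : Conf.ReadsSet U' G') (hG0 : μ G' ≠ 0)
    {c : Conf E → ℂ} (hc : Measurable c) (hcr : Conf.Reads U c) :
    ∫ σ, c σ ∂(ProbabilityTheory.cond μ (G ∩ G')) = ∫ σ, c σ ∂(ProbabilityTheory.cond μ G) := by
  have := h.prob
  have hind : IndepFun (G.indicator c) (G'.indicator (1 : Conf E → ℂ)) μ :=
    h.indepFun_reads hU hU' hd (hc.indicator hG) (measurable_one.indicator hG') (hGr.indicator hcr) (hGr'.indicator (Conf.reads_const _ _))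
  have h1 : ∫ σ in G ∩ G', c σ ∂μ = (∫ σ in G, c σ ∂μ) * (μ G').toReal := by
    rw [← integral_indicator (hG.inter hG'), ← integral_indicator hG]
    have e : (G ∩ G').indicator c = fun σ => G.indicator c σ * G'.indicator (1 : Conf E → ℂ) σ := by
      funext σ
      by_cases a : σ ∈ G <;> by_cases b : σ ∈ G' <;> simp [a, b]
    rw [e, hind.integral_fun_mul_eq_mul_integral (hc.indicator hG).aestronglyMeasurable (measurable_one.indicator hG').aestronglyMeasurable]
    congr 1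
    rw [integral_indicator hG']
    simp [Measure.real]
  have h2 : μ (G ∩ G') = μ G * μ G' := h.measure_inter_reads hU hU' hd hG.nullMeasurableSet hG'.nullMeasurableSet hGr hGr'
  unfold ProbabilityTheory.cond
  rw [integral_smul_measure, integral_smul_measure, h1, h2]
  have ht : μ G' ≠ ∞ := measure_ne_top _ _
  have hr : (μ G').toReal ≠ 0 := ENNReal.toReal_ne_zero.2 ⟨hG0, ht⟩
  rw [ENNReal.toReal_inv, ENNReal.toReal_inv, ENNReal.toReal_mul]
  simp only [Complex.real_smul, Complex.ofReal_inv, Complex.ofReal_mul]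
  have hr' : ((μ G').toReal : ℂ) ≠ 0 := by exact_mod_cast hr
  by_cases hg : ((μ G).toReal : ℂ) = 0
  · simp [hg]
  · field_simp

/-- **(V2)** : `k_e = E[c' | G'] - E[c | G]` -/
theorem pvcz_K_diff (h : IsPpp m μ) (hU : MeasurableSet U) (hU' : MeasurableSet U') (hd : Disjoint U U') {G G' A : Set (Conf E)}
    (hG : MeasurableSet G) (hG' : MeasurableSet G') (hA : MeasurableSet A) (hGr : Conf.ReadsSet U G) (hGr' : Conf.ReadsSet U' G')
    (hG0 : μ G ≠ 0) (hG0' : μ G' ≠ 0) {c c' X : Conf E → ℂ} (hc : Measurable c) (hc' : Measurable c') (hcr : Conf.Reads U c) (hcr' : Conf.Reads U' c')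
    (hci : IntegrableOn c G μ) (hci' : IntegrableOn c' G' μ)
    (hX : ∀ η ∈ A, X η = c' η - c η) (hp : ∀ σ ∈ G ∩ G', pvtiP μ (U ∪ U') A σ ≠ 0) :
    pvciK μ (U ∪ U') (G ∩ G') A X = ∫ σ, c' σ ∂(ProbabilityTheory.cond μ G') - ∫ σ, c σ ∂(ProbabilityTheory.cond μ G) := by
  have := h.prob
  have hv : Conf.Reads (U ∪ U') (fun η => c' η - c η) :=
    (hcr'.mono subset_union_right).map₂ (hcr.mono subset_union_left) (fun x y => x - y)
  rw [pvcz_K_const (hU.union hU') hA (hG.inter hG') hv hX hp]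
  have i1 : Integrable c (ProbabilityTheory.cond μ (G ∩ G')) := by
    unfold ProbabilityTheory.cond
    refine Integrable.smul_measure ?_ (by
      rw [h.measure_inter_reads hU hU' hd hG.nullMeasurableSet hG'.nullMeasurableSet hGr hGr']
      exact ENNReal.inv_ne_top.2 (mul_ne_zero hG0 hG0'))
    exact hci.mono_set inter_subset_left
  have i2 : Integrable c' (ProbabilityTheory.cond μ (G ∩ G')) := by
    unfold ProbabilityTheory.cond
    refine Integrable.smul_measure ?_ (by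
      rw [h.measure_inter_reads hU hU' hd hG.nullMeasurableSet hG'.nullMeasurableSet hGr hGr']
      exact ENNReal.inv_ne_top.2 (mul_ne_zero hG0 hG0'))
    exact hci'.mono_set inter_subset_right
  rw [integral_sub i2 i1, pvcz_cond_inter h hU hU' hd hG hG' hGr hGr' hG0' hc hcr, inter_comm,
    pvcz_cond_inter h hU' hU hd.symm hG' hG hGr' hGr hG0 hc' hcr']

/-- membership in an event read from `U` after a splice which keeps `U` -/
theorem pvcz_mem_spl_left {W : Set E} {G : Set (Conf E)} (hGr : Conf.ReadsSet W G) (hW : W ⊆ U) (σ η : Conf E) : Conf.spl U (σ, η) ∈ G ↔ σ ∈ G := by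
  have := (Conf.readsSet_iff_reads.1 hGr).spl_left hW σ η
  exact iff_of_eq this

theorem pvcz_mem_spl_right {W : Set E} {G : Set (Conf E)} (hGr : Conf.ReadsSet W G) (hW : Disjoint W U) (σ η : Conf E) : Conf.spl U (σ, η) ∈ G ↔ η ∈ G := by
  have := (Conf.readsSet_iff_reads.1 hGr).spl_right hW σ η
  exact iff_of_eq this

/-- `kout_e(σ) = E[c' | G'] - c(σ)` for `σ ∈ G` -/
theorem pvcz_Ko_diff (h : IsPpp m μ) (hU : MeasurableSet U) (hU' : MeasurableSet U') (hd : Disjoint U U') {G G' A : Set (Conf E)}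
    (hG' : MeasurableSet G') (hA : MeasurableSet A) (hGr : Conf.ReadsSet U G) (hGr' : Conf.ReadsSet U' G')
    (hG0' : μ G' ≠ 0) {c c' X : Conf E → ℂ} (hcr : Conf.Reads U c) (hcr' : Conf.Reads U' c') (hci' : IntegrableOn c' G' μ)
    (hX : ∀ η ∈ A, X η = c' η - c η) (hp : ∀ σ ∈ G ∩ G', pvtiP μ (U ∪ U') A σ ≠ 0) {σ : Conf E} (hσ : σ ∈ G) :
    pvciKo μ (U ∪ U') U G' A X σ = ∫ η, c' η ∂(ProbabilityTheory.cond μ G') - c σ := by
  have := h.prob
  have hv : Conf.Reads (U ∪ U') (fun η => c' η - c η) :=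
    (hcr'.mono subset_union_right).map₂ (hcr.mono subset_union_left) (fun x y => x - y)
  have hP : IsProbabilityMeasure (ProbabilityTheory.cond μ G') := cond_isProbabilityMeasure hG0'
  unfold pvciKo
  have e : ∀ᵐ η ∂(ProbabilityTheory.cond μ G'), pvciI μ (U ∪ U') A X (Conf.spl U (σ, η)) = c' η - c σ := by
    filter_upwards [ae_cond_mem hG'] with η hη
    have hm : Conf.spl U (σ, η) ∈ G ∩ G' := ⟨(pvcz_mem_spl_left hGr subset_rfl σ η).2 hσ, (pvcz_mem_spl_right hGr' hd.symm σ η).2 hη⟩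
    rw [pvcz_I_const (hU.union hU') hA hv hX (hp _ hm), hcr'.spl_right hd.symm, hcr.spl_left subset_rfl]
  have i2 : Integrable c' (ProbabilityTheory.cond μ G') := by
    unfold ProbabilityTheory.cond
    exact Integrable.smul_measure hci' (ENNReal.inv_ne_top.2 hG0')
  rw [integral_congr_ae e, integral_sub i2 (integrable_const _), integral_const]
  simp

/-- `kin_e(σ) = c'(σ) - E[c | G]` for `σ ∈ G'` -/
theorem pvcz_Ki_diff (h : IsPpp m μ) (hU : MeasurableSet U) (hU' : MeasurableSet U') (hd : Disjoint U U') {G G' A : Set (Conf E)}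
    (hG : MeasurableSet G) (hA : MeasurableSet A) (hGr : Conf.ReadsSet U G) (hGr' : Conf.ReadsSet U' G')
    (hG0 : μ G ≠ 0) {c c' X : Conf E → ℂ} (hcr : Conf.Reads U c) (hcr' : Conf.Reads U' c') (hci : IntegrableOn c G μ)
    (hX : ∀ η ∈ A, X η = c' η - c η) (hp : ∀ σ ∈ G ∩ G', pvtiP μ (U ∪ U') A σ ≠ 0) {σ : Conf E} (hσ : σ ∈ G') :
    pvciKo μ (U ∪ U') U' G A X σ = c' σ - ∫ η, c η ∂(ProbabilityTheory.cond μ G) := by
  have := h.prob
  have hv : Conf.Reads (U ∪ U') (fun η => c' η - c η) :=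
    (hcr'.mono subset_union_right).map₂ (hcr.mono subset_union_left) (fun x y => x - y)
  have hP : IsProbabilityMeasure (ProbabilityTheory.cond μ G) := cond_isProbabilityMeasure hG0
  unfold pvciKo
  have e : ∀ᵐ η ∂(ProbabilityTheory.cond μ G), pvciI μ (U ∪ U') A X (Conf.spl U' (σ, η)) = c' σ - c η := by
    filter_upwards [ae_cond_mem hG] with η hη
    have hm : Conf.spl U' (σ, η) ∈ G ∩ G' := ⟨(pvcz_mem_spl_right hGr hd σ η).2 hη, (pvcz_mem_spl_left hGr' subset_rfl σ η).2 hσ⟩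
    rw [pvcz_I_const (hU.union hU') hA hv hX (hp _ hm), hcr'.spl_left subset_rfl, hcr.spl_right hd]
  have i2 : Integrable c (ProbabilityTheory.cond μ G) := by
    unfold ProbabilityTheory.cond
    exact Integrable.smul_measure hci (ENNReal.inv_ne_top.2 hG0)
  rw [integral_congr_ae e, integral_sub (integrable_const _) i2, integral_const]
  simp

end gen

/-! ## 3. (V3) point covariance -/

section cov

variable {E F : Type*} [MeasurableSpace E] [MeasurableSpace F]

/-- the conditional mean of a placed POINT functional -/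
theorem pvcz_mean_T (g : E ≃ᵐ F) {μ : Measure (Conf E)} {μ' : Measure (Conf F)} [IsFiniteMeasure μ] (hμ : μ.map (Conf.image g) = μ') {Γ : Set (Conf E)}
    (hΓ0 : μ Γ ≠ 0) {c : Conf E → ℂ} (hc : IntegrableOn c Γ μ) (a b : ℂ) :
    ∫ η, (a * pvciT g.toEquiv c η + b) ∂(ProbabilityTheory.cond μ' (Conf.image g.toEquiv.symm ⁻¹' Γ)) = a * ∫ η, c η ∂(ProbabilityTheory.cond μ Γ) + b := by
  have hP : IsProbabilityMeasure (ProbabilityTheory.cond μ Γ) := cond_isProbabilityMeasure hΓ0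
  have e := pvci_integral_T g (pvci_cond_T g hμ Γ) (fun η => a * c η + b)
  have i2 : Integrable c (ProbabilityTheory.cond μ Γ) := by
    unfold ProbabilityTheory.cond
    exact Integrable.smul_measure hc (ENNReal.inv_ne_top.2 hΓ0)
  have e2 : ∫ η, (a * c η + b) ∂(ProbabilityTheory.cond μ Γ) = a * ∫ η, c η ∂(ProbabilityTheory.cond μ Γ) + b := by
    rw [integral_add (i2.const_mul a) (integrable_const _), integral_const_mul, integral_const]
    simp
  rw [← e2, ← e]
  rfl

/-- the model: a point functional `c` of the reference plug, placed by `z ↦ a z + b` -/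
theorem pvcz_mean_aff (a b : ℂ) (ha : a ≠ 0) (ε : ℝ) {Γ : Set (Conf PvPt)} (hΓ0 : pvP ε Γ ≠ 0) {c : Conf PvPt → ℂ} (hc : IntegrableOn c Γ (pvP ε)) :
    ∫ η, (a * pvciT (pvciAff a b ha).toEquiv c η + b) ∂(ProbabilityTheory.cond (pvP (‖a‖ * ε)) (Conf.image (pvciAff a b ha).toEquiv.symm ⁻¹' Γ))
      = a * ∫ η, c η ∂(ProbabilityTheory.cond (pvP ε) Γ) + b :=
  pvcz_mean_T (pvciAff a b ha) (pvci_law_aff a b ha ε) hΓ0 hc a b

theorem pvcz_integrableOn_T (g : E ≃ᵐ F) {μ : Measure (Conf E)} {μ' : Measure (Conf F)} (hμ : μ.map (Conf.image g) = μ') {Γ : Set (Conf E)}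
    {c : Conf E → ℂ} (hc : IntegrableOn c Γ μ) : IntegrableOn (pvciT g.toEquiv c) (Conf.image g.toEquiv.symm ⁻¹' Γ) μ' := by
  let Φ : Conf E ≃ᵐ Conf F :=
    { toFun := Conf.image g
      invFun := Conf.image g.symm
      left_inv := fun η => pvci_image_symm g.toEquiv η
      right_inv := fun η => pvci_image_symm' g.toEquiv η
      measurable_toFun := Conf.measurable_image g.measurable
      measurable_invFun := Conf.measurable_image g.symm.measurable }
  have e : μ' = μ.map Φ := hμ.symm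
  unfold IntegrableOn
  rw [e, Φ.restrict_map, integrable_map_equiv]
  have e1 : Φ ⁻¹' (Conf.image g.toEquiv.symm ⁻¹' Γ) = Γ := by
    ext η
    show Conf.image g.toEquiv.symm (Conf.image g.toEquiv η) ∈ Γ ↔ η ∈ Γ
    rw [pvci_image_symm]
  have e2 : pvciT g.toEquiv c ∘ Φ = c := by
    funext η
    exact pvci_T_image g.toEquiv c η
  rw [e1, e2]
  exact hc

theorem pvcz_readsSet_T (g : E ≃ F) {W : Set E} {Γ : Set (Conf E)} (h : Conf.ReadsSet W Γ) : Conf.ReadsSet (g '' W) (Conf.image g.symm ⁻¹' Γ) :=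
  Conf.readsSet_iff_reads.2 (pvci_T_reads g (Conf.readsSet_iff_reads.1 h))

end cov

/-! ## 4. (V4) the three constants of the field `V` -/

section alg

open Complex

/-- the constants of the field `V` : a cell of side `δ`, `ζ` = mean of the marked point of the reference door plug, in the frame of the door -/
noncomputable def pvczW (δ ζ : ℂ) : PvtW where
  a := δ
  bL := δ * ((1 + I) / 2) + (I - 1) * ζ
  bR := δ * ((1 - I) / 2) - (1 + I) * ζ

theorem pvcz_eqns_cite : True := by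
  have := @pvczW.eq_1
  trivial

/-- the constant of a transition: difference of the two placed means.   Door `(z, d)`, next door `(z + δ d mid τ, d rot τ)`. -/
theorem pvcz_w (δ ζ : ℂ) (τ : PvtTurn) (z d : ℂ) :
    ((d * τ.rot) * ζ + (z + δ * (d * τ.mid))) - (d * ζ + z) = d * (pvczW δ ζ).w τ := by
  cases τ
  · simp only [PvtW.w, pvczW, PvtTurn.mid, PvtTurn.rot]; ring
  · simp only [PvtW.w, pvczW, PvtTurn.mid, PvtTurn.rot]; ring
  · simp only [PvtW.w, pvczW, PvtTurn.mid, PvtTurn.rot]; ring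

theorem pvcz_a (δ ζ : ℂ) : (pvczW δ ζ).a = δ := rfl

/-- `rel^V = 0` EXACTLY -/
theorem pvcz_rel (δ ζ : ℂ) : (pvczW δ ζ).rel = 0 := by
  simp only [PvtW.rel, pvczW]
  linear_combination (-ζ - δ / 2) * Complex.I_sq

/-- `k^V = - ζ` -/
theorem pvcz_k (δ ζ : ℂ) : (pvczW δ ζ).k = -ζ := by
  simp only [PvtW.k, pvczW]
  linear_combination (δ / 4 + ζ / 2) * Complex.I_sq

/-- the chain sum of `V` telescopes, for EVERY word -/
theorem pvcz_sum (δ ζ d : ℂ) (l : List PvtTurn) : pvtSum (pvczW δ ζ) d l = δ * pvtDisp d l + ζ * (pvtDir d l - d) := by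
  rw [pvt_sum_eq, pvcz_rel, pvcz_k, pvcz_a]
  ring

/-- the field of record `y = Q - a V`, `a = al^Q / δ` : its straight constant vanishes, its relation is the relation of `Q` -/
noncomputable def pvczY (W : PvtW) (δ ζ : ℂ) : PvtW where
  a := W.a - W.a / δ * (pvczW δ ζ).a
  bL := W.bL - W.a / δ * (pvczW δ ζ).bL
  bR := W.bR - W.a / δ * (pvczW δ ζ).bR

theorem pvcz_eqns_cite2 : True := by
  have := @pvczY.eq_1
  trivial

theorem pvcz_Y_w (W : PvtW) (δ ζ : ℂ) (τ : PvtTurn) : (pvczY W δ ζ).w τ = W.w τ - W.a / δ * (pvczW δ ζ).w τ := by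
  cases τ <;> rfl

theorem pvcz_Y_a (W : PvtW) {δ : ℂ} (hδ : δ ≠ 0) (ζ : ℂ) : (pvczY W δ ζ).a = 0 := by
  simp only [pvczY, pvczW]
  field_simp
  ring

theorem pvcz_Y_rel (W : PvtW) (δ ζ : ℂ) : (pvczY W δ ζ).rel = W.rel := by
  have h := pvcz_rel δ ζ
  simp only [PvtW.rel] at h ⊢
  simp only [pvczY]
  linear_combination (-(W.a / δ)) * h

theorem pvcz_Y_k (W : PvtW) (δ ζ : ℂ) : (pvczY W δ ζ).k = W.k + W.a / δ * ζ := by
  have h := pvcz_k δ ζ
  simp only [PvtW.k] at h ⊢
  simp only [pvczY]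
  linear_combination (-(W.a / δ)) * h

/-- TR26 for the field of record: `Σ_j d_j γ^y = k^y (d_in - d_out) + rel N_R` -/
theorem pvcz_Y_sum (W : PvtW) {δ : ℂ} (hδ : δ ≠ 0) (ζ d : ℂ) (l : List PvtTurn) :
    pvtSum (pvczY W δ ζ) d l = (W.k + W.a / δ * ζ) * (d - pvtDir d l) + W.rel * pvtNR d l := by
  rw [pvt_sum_eq, pvcz_Y_a W hδ, pvcz_Y_rel, pvcz_Y_k]
  ring

/-- **TR28 (b)** at the level of the model.   Reference door plug `(U₀, G₀, c₀)` in the frame `(0, 1)`;   a transition of type `τ` from the door `(z, d)` to the door `(z + δ d mid τ, d rot τ)`;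
the plugs, their events and their marked points are the IMAGES of the reference ones;   `X = c' - c` on `A` (deterministic identity, owner B).   Then `k^V_e = d * (δ mid τ + (rot τ - 1) ζ)`, `ζ = E[c₀ | G₀]`. -/
theorem pvcz_K_cell (ε : ℝ) {U₀ : Set PvPt} (hU₀ : MeasurableSet U₀) {G₀ : Set (Conf PvPt)} (hG₀ : MeasurableSet G₀) (hGr : Conf.ReadsSet U₀ G₀)
    (hG0 : pvP ε G₀ ≠ 0) {c₀ : Conf PvPt → ℂ} (hc₀ : Measurable c₀) (hcr : Conf.Reads U₀ c₀) (hci : IntegrableOn c₀ G₀ (pvP ε))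
    (δ z d : ℂ) (hd : ‖d‖ = 1) (hd0 : d ≠ 0) (τ : PvtTurn) (hd0' : d * τ.rot ≠ 0)
    (hdis : Disjoint (pvciAff d z hd0 '' U₀) (pvciAff (d * τ.rot) (z + δ * (d * τ.mid)) hd0' '' U₀))
    {A : Set (Conf PvPt)} (hA : MeasurableSet A) {X : Conf PvPt → ℂ}
    (hX : ∀ η ∈ A, X η = ((d * τ.rot) * pvciT (pvciAff (d * τ.rot) (z + δ * (d * τ.mid)) hd0').toEquiv c₀ η + (z + δ * (d * τ.mid)))
      - (d * pvciT (pvciAff d z hd0).toEquiv c₀ η + z))
    (hp : ∀ σ ∈ (Conf.image (pvciAff d z hd0).toEquiv.symm ⁻¹' G₀) ∩ (Conf.image (pvciAff (d * τ.rot) (z + δ * (d * τ.mid)) hd0').toEquiv.symm ⁻¹' G₀),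
      pvtiP (pvP ε) (pvciAff d z hd0 '' U₀ ∪ pvciAff (d * τ.rot) (z + δ * (d * τ.mid)) hd0' '' U₀) A σ ≠ 0) :
    pvciK (pvP ε) (pvciAff d z hd0 '' U₀ ∪ pvciAff (d * τ.rot) (z + δ * (d * τ.mid)) hd0' '' U₀)
      ((Conf.image (pvciAff d z hd0).toEquiv.symm ⁻¹' G₀) ∩ (Conf.image (pvciAff (d * τ.rot) (z + δ * (d * τ.mid)) hd0').toEquiv.symm ⁻¹' G₀)) A X
      = d * (pvczW δ (∫ η, c₀ η ∂(ProbabilityTheory.cond (pvP ε) G₀))).w τ := by
  have hd' : ‖d * τ.rot‖ = 1 := by rw [norm_mul, hd, pvt_norm_rot, one_mul]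
  have L : (pvP ε).map (Conf.image (pvciAff d z hd0)) = pvP ε := by rw [pvci_law_aff, hd, one_mul]
  have L' : (pvP ε).map (Conf.image (pvciAff (d * τ.rot) (z + δ * (d * τ.mid)) hd0')) = pvP ε := by rw [pvci_law_aff, hd', one_mul]
  have key := pvcz_K_diff (pv_isPpp ε) ((pvciAff d z hd0).measurableSet_image.2 hU₀) ((pvciAff (d * τ.rot) (z + δ * (d * τ.mid)) hd0').measurableSet_image.2 hU₀) hdis
    (pvci_T_measurableSet (pvciAff d z hd0) hG₀) (pvci_T_measurableSet (pvciAff (d * τ.rot) (z + δ * (d * τ.mid)) hd0') hG₀) hA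
    (pvcz_readsSet_T (pvciAff d z hd0).toEquiv hGr) (pvcz_readsSet_T (pvciAff (d * τ.rot) (z + δ * (d * τ.mid)) hd0').toEquiv hGr)
    (by rw [pvci_measure_T _ L]; exact hG0) (by rw [pvci_measure_T _ L']; exact hG0)
    (c := fun η => d * pvciT (pvciAff d z hd0).toEquiv c₀ η + z)
    (c' := fun η => (d * τ.rot) * pvciT (pvciAff (d * τ.rot) (z + δ * (d * τ.mid)) hd0').toEquiv c₀ η + (z + δ * (d * τ.mid)))
    (((pvci_T_measurable _ hc₀).const_mul _).add_const _) (((pvci_T_measurable _ hc₀).const_mul _).add_const _)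
    ((pvci_T_reads (pvciAff d z hd0).toEquiv hcr).comp (fun x => d * x + z))
    ((pvci_T_reads (pvciAff (d * τ.rot) (z + δ * (d * τ.mid)) hd0').toEquiv hcr).comp (fun x => (d * τ.rot) * x + (z + δ * (d * τ.mid))))
    (((pvcz_integrableOn_T _ L hci).const_mul _).add (integrable_const _)) (((pvcz_integrableOn_T _ L' hci).const_mul _).add (integrable_const _))
    hX hp
  rw [key, pvcz_mean_T _ L hG0 hci, pvcz_mean_T _ L' hG0 hci, pvcz_w]

end alg

end Claimed.Agent.R289
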