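-- KEEP
import Claimed.Agent.R289.Tr.Hub

/-!
# Row 289 (S0537, Cardy for Poisson-Voronoi), THE WALL, TR32 EXPORT = THE LINEARITY LAYER IN FRONT OF THE HUB      (helper283; prefix `pvty_`, `Pvty`)

Post of 295 (TR32), form of 129 (msg 09:00Z) and of 73 (`Tr/Hub.lean`, msg 09:10Z).   The hub consumes ONE linear field `y_a = xQ - a xV` with a FREE scalar `a : ℂ` (`PvhbNum`, `PvhbLoc`).
The engine of the wall (chapters A-E) may be run for the two fields `Q` and `V` SEPARATELY (closed `Q`-sums are small: `I.TAIL`; closed `V`-sums vanish).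
This file turns the two sets of outputs into the records of the hub FOR ALL `a` AT ONCE; no linearity of an integral, no scalar, no uniformity in `a` is asked from the instance.

* `PvtW.lin W W' a`      the cell means `W - a W'`;   `pvty_lin_w/_k/_rel/_sum`, `pvty_geo_a`, `pvty_geo_offO/_offI/_c0`: everything the spine reads of `W` is linear
* `pvty_arcI_lin`, `pvty_fld_lin`      `pvbArcI` and `PvbRim.fld` are linear in the field
* `pvtyX X P`            the field `X` of a rim (`false = Q`, `true = V`, the convention of `L9Bes.W`)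
* `pvty_tendsto_union`, `pvty_tendsto_lint`, `pvty_bound_lint`      the three soft estimates, along an arbitrary filter
* `PvtyNum τ c`          **THE TWO-FIELD NUMBERS**: `PvhbNum` with `W kin0` indexed by `X : Bool`;   `aQ_bdd : |α^Q / δ| ≤ CA` (TR28 ii),   `aV_one : α^V = δ` EXACTLY (TR28 i: `Tr/CellV.lean`),   `rel_lim` for both fields (TR27; `rel^V = 0`)
* `PvtyNum.toHub`        `PvtyNum τ c → PvhbNum τ c`   (`W m ε a = W^Q - a W^V`, `A m ε = α^Q / δ_m`)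
* `PvtyLoc N Pr rims x R`      **THE TWO-FIELD EXITS OF CHAPTERS A-E**: `PvhbLoc` with `kout kin ke n1 cyc1 thick` indexed by `X : Bool`, no scalar
* `PvtyLoc.toHub`        `PvtyLoc N Pr rims x R → PvhbLoc N.toHub Pr rims x R`
* `pvty_exit`            the exit of the wall `L9ExitTR c` from two-field records
* sec.8 **OVER UPPER EXPECTATIONS** (`PvUp`; ruling H1 of 73): `pvty_up_union`, `pvty_up_tendsto_union`, `pvty_up_sq_le`, `pvty_up_tendsto_sq`, `pvty_up_bound_sq`;   `PvtyLocU N Pr rims x R`, `PvtyLocU.toHub : PvhbLocU N.toHub Pr rims x R`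
* sec.9 **`V` NEEDS NO ENGINE**: `pvtyWV δ` (virtual cell means), `PvtyNumQ τ c`, `PvtyLocQ N kV Pr rims x R` = the fields for `Q` ALONE + the cut point `cV` with (A4) `tel : I_V = cV t - cV s` and `cV_L2` (up to the FREE constant `kV m ε`);   `PvtyNumQ.toNum`, `PvtyLocQ.toLocU`, `PvtyLocQ.toHub`
* sec.10 `pvty_exit_up`, **`pvty_exit_Q`** : `L9ExitTR c` from the plain two-level space `pvhbUp`
* sec.11 adapters at `a := 0` : `PvhbNum.toQ`, `PvhbLocU.toQ`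
* sec.7 (variant, along sequences, `α^V / δ → 1` only ASYMPTOTICALLY, scalars `a_m` given by `G`): `PvtyIn G Pr rims x R`, `PvtyIn.toSpine : PvtyIn → PvtsIn`, `pvty_loc`
-/

set_option autoImplicit false

namespace Claimed.Agent.R289

open MeasureTheory Filter Topology Set
open scoped ENNReal

/-! ## 1. linearity of the cell algebra -/

/-- the cell means of the field `x - a y` -/
def PvtW.lin (W W' : PvtW) (a : ℂ) : PvtW := ⟨W.a - a * W'.a, W.bL - a * W'.bL, W.bR - a * W'.bR⟩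

theorem pvty_lin_a (W W' : PvtW) (a : ℂ) : (W.lin W' a).a = W.a - a * W'.a := rfl

theorem pvty_lin_w (W W' : PvtW) (a : ℂ) (τ : PvtTurn) : (W.lin W' a).w τ = W.w τ - a * W'.w τ := by
  cases τ <;> rfl

theorem pvty_lin_k (W W' : PvtW) (a : ℂ) : (W.lin W' a).k = W.k - a * W'.k := by
  simp only [PvtW.k, PvtW.lin]
  ring

theorem pvty_lin_rel (W W' : PvtW) (a : ℂ) : (W.lin W' a).rel = W.rel - a * W'.rel := by
  simp only [PvtW.rel, PvtW.lin]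
  ring

theorem pvty_acc_sub (f g : PvtTurn → ℂ) (a d : ℂ) (l : List PvtTurn) :
    pvtAcc (fun τ => f τ - a * g τ) d l = pvtAcc f d l - a * pvtAcc g d l := by
  induction l generalizing d with
  | nil => simp
  | cons τ l ih => simp only [pvtAcc_cons, ih]; ring

theorem pvty_lin_sum (W W' : PvtW) (a d : ℂ) (l : List PvtTurn) :
    pvtSum (W.lin W' a) d l = pvtSum W d l - a * pvtSum W' d l := by
  unfold pvtSum
  rw [← pvty_acc_sub]
  exact pvtAcc_congr (pvty_lin_w W W' a) d l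

theorem pvty_geo_a {τ : Type} (Γ : PvtsGeo τ) (W W' : PvtW) (a : ℂ) : Γ.a (W.lin W' a) = Γ.a W - a * Γ.a W' := by
  simp only [PvtsGeo.a, pvty_lin_a]
  ring

theorem pvty_geo_offO {τ : Type} (Γ : PvtsGeo τ) (W W' : PvtW) (a : ℂ) (t : τ) : Γ.offO (W.lin W' a) t = Γ.offO W t - a * Γ.offO W' t := by
  simp only [PvtsGeo.offO, pvty_geo_a, pvty_lin_k]
  ring

theorem pvty_geo_offI {τ : Type} (Γ : PvtsGeo τ) (W W' : PvtW) (a : ℂ) (t : τ) : Γ.offI (W.lin W' a) t = Γ.offI W t - a * Γ.offI W' t := by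
  simp only [PvtsGeo.offI, pvty_geo_a, pvty_lin_k]
  ring

theorem pvty_geo_c0 {τ : Type} (Γ : PvtsGeo τ) (W W' : PvtW) (a k k' : ℂ) : Γ.c0 (W.lin W' a) (k - a * k') = Γ.c0 W k - a * Γ.c0 W' k' := by
  simp only [PvtsGeo.c0, pvty_geo_a, pvty_lin_k]
  ring

/-! ## 2. linearity of the arc integral -/

/-- the field `X` of a rim: `false = Q`, `true = V` -/
def pvtyX (X : Bool) (P : PvbRim) : ℕ → ℂ := bif X then P.xV else P.xQ

theorem pvty_X_false (P : PvbRim) : pvtyX false P = P.xQ := rfl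

theorem pvty_X_true (P : PvbRim) : pvtyX true P = P.xV := rfl

theorem pvty_arcI_lin {τ : Type} (𝔐 : PvbMenu τ) (h : ℝ) (P : PvbRim) (x y : ℕ → ℂ) (a : ℂ) (s t : PvbPin τ) :
    pvbArcI 𝔐 h P (fun k => x k - a * y k) s t = pvbArcI 𝔐 h P x s t - a * pvbArcI 𝔐 h P y s t := by
  unfold pvbArcI
  simp only [Finset.sum_sub_distrib, ← Finset.mul_sum]
  ring

theorem pvty_fld_lin (P : PvbRim) (x y : ℕ → ℂ) (a : ℂ) (g : ℂ → ℂ) :
    P.fld (fun k => x k - a * y k) g = P.fld x g - a * P.fld y g := by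
  unfold PvbRim.fld
  rw [Finset.mul_sum, ← Finset.sum_sub_distrib]
  exact Finset.sum_congr rfl fun k _ => by ring

/-! ## 3. the two elementary estimates -/

/-- splitting of a large deviation of `A - a B` -/
theorem pvty_split {A B a : ℂ} {u : ℝ} (h : u < ‖A - a * B‖) : u / 2 < ‖A‖ ∨ u / (2 * (‖a‖ + 1)) < ‖B‖ := by
  by_contra hc
  rw [not_or, not_lt, not_lt] at hc
  obtain ⟨h1, h2⟩ := hc
  have ha : 0 < ‖a‖ + 1 := by positivity
  have h3 : ‖a‖ * ‖B‖ ≤ u / 2 := by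
    by_cases hu : 0 ≤ u
    · calc ‖a‖ * ‖B‖ ≤ (‖a‖ + 1) * (u / (2 * (‖a‖ + 1))) :=
            mul_le_mul (by linarith) h2 (norm_nonneg _) ha.le
        _ = u / 2 := by field_simp
    · exfalso
      have : ‖A‖ < 0 := lt_of_le_of_lt h1 (by linarith [not_le.1 hu])
      exact absurd (norm_nonneg A) (not_le.2 this)
  have h4 : ‖A - a * B‖ ≤ ‖A‖ + ‖a‖ * ‖B‖ := by
    rw [← norm_mul]
    exact norm_sub_le _ _
  linarith

theorem pvty_add_sq (p q : ℝ≥0∞) : (p + q) ^ 2 ≤ 2 * p ^ 2 + 2 * q ^ 2 := by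
  by_cases hp : p = ⊤
  · subst hp; simp
  by_cases hq : q = ⊤
  · subst hq; simp
  lift p to NNReal using hp
  lift q to NNReal using hq
  have h : (p + q) ^ 2 ≤ 2 * p ^ 2 + 2 * q ^ 2 := by
    have := add_sq_le (a := p) (b := q)
    rw [mul_add] at this
    exact this
  exact_mod_cast h

/-- `|A - a B|² ≤ 2 |A|² + 2 |a|² |B|²` in `ℝ≥0∞` -/
theorem pvty_sq_le (A B a : ℂ) : ‖A - a * B‖ₑ ^ 2 ≤ 2 * ‖A‖ₑ ^ 2 + 2 * ‖a‖ₑ ^ 2 * ‖B‖ₑ ^ 2 := by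
  have h1 : ‖A - a * B‖ₑ ≤ ‖A‖ₑ + ‖a‖ₑ * ‖B‖ₑ := by
    rw [← enorm_mul]
    exact enorm_sub_le
  calc ‖A - a * B‖ₑ ^ 2 ≤ (‖A‖ₑ + ‖a‖ₑ * ‖B‖ₑ) ^ 2 := by gcongr
    _ ≤ 2 * ‖A‖ₑ ^ 2 + 2 * (‖a‖ₑ * ‖B‖ₑ) ^ 2 := pvty_add_sq _ _
    _ = _ := by rw [mul_pow, mul_assoc]

/-- the `L²` form: no measurability of `B` -/
theorem pvty_lint_le {Ω : Type*} [MeasurableSpace Ω] (μ : Measure Ω) (A B : Ω → ℂ) (a : ℂ) (hA : Measurable A) :
    ∫⁻ o, ‖A o - a * B o‖ₑ ^ 2 ∂μ ≤ 2 * ∫⁻ o, ‖A o‖ₑ ^ 2 ∂μ + 2 * ‖a‖ₑ ^ 2 * ∫⁻ o, ‖B o‖ₑ ^ 2 ∂μ := by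
  have hc : (2 : ℝ≥0∞) * ‖a‖ₑ ^ 2 ≠ ⊤ := ENNReal.mul_ne_top (by norm_num) (ENNReal.pow_ne_top enorm_ne_top)
  calc ∫⁻ o, ‖A o - a * B o‖ₑ ^ 2 ∂μ ≤ ∫⁻ o, (2 * ‖A o‖ₑ ^ 2 + 2 * ‖a‖ₑ ^ 2 * ‖B o‖ₑ ^ 2) ∂μ := lintegral_mono fun o => pvty_sq_le _ _ _
    _ = ∫⁻ o, 2 * ‖A o‖ₑ ^ 2 ∂μ + ∫⁻ o, 2 * ‖a‖ₑ ^ 2 * ‖B o‖ₑ ^ 2 ∂μ := lintegral_add_left ((hA.enorm.pow_const 2).const_mul 2) _
    _ = _ := by rw [lintegral_const_mul' _ _ (by norm_num), lintegral_const_mul' _ _ hc]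

/-- the union bound in the `toReal` form of the spine -/
theorem pvty_union {Ω : Type*} [MeasurableSpace Ω] (μ : Measure Ω) [IsFiniteMeasure μ] {S A B : Set Ω} (h : S ⊆ A ∪ B) :
    (μ S).toReal ≤ (μ A).toReal + (μ B).toReal := by
  rw [← ENNReal.toReal_add (measure_ne_top _ _) (measure_ne_top _ _)]
  exact ENNReal.toReal_mono (ENNReal.add_ne_top.2 ⟨measure_ne_top _ _, measure_ne_top _ _⟩) ((measure_mono h).trans (measure_union_le _ _))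

/-- arithmetic of the constant of the thick link -/
theorem pvty_thick_num {C s a2 A2 : ℝ} (hs : 0 ≤ s) (ha : 0 ≤ a2) (haA : a2 ≤ A2) :
    2 * ENNReal.ofReal (C * s) + 2 * ENNReal.ofReal a2 * ENNReal.ofReal (C * s) ≤ ENNReal.ofReal (2 * (1 + A2) * |C| * s) := by
  have hb : 0 ≤ |C| * s := mul_nonneg (abs_nonneg C) hs
  have h1 : ENNReal.ofReal (C * s) ≤ ENNReal.ofReal (|C| * s) :=
    ENNReal.ofReal_le_ofReal (mul_le_mul_of_nonneg_right (le_abs_self C) hs)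
  have e2 : (2 : ℝ≥0∞) = ENNReal.ofReal 2 := by simp
  have h3 : 2 * ENNReal.ofReal (|C| * s) + 2 * ENNReal.ofReal a2 * ENNReal.ofReal (|C| * s) = ENNReal.ofReal (2 * (|C| * s) + 2 * a2 * (|C| * s)) := by
    rw [e2, ← ENNReal.ofReal_mul (by norm_num), ← ENNReal.ofReal_mul (by norm_num), ← ENNReal.ofReal_mul (mul_nonneg (by norm_num) ha),
      ← ENNReal.ofReal_add (mul_nonneg (by norm_num) hb) (mul_nonneg (mul_nonneg (by norm_num) ha) hb)]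
  calc 2 * ENNReal.ofReal (C * s) + 2 * ENNReal.ofReal a2 * ENNReal.ofReal (C * s)
      ≤ 2 * ENNReal.ofReal (|C| * s) + 2 * ENNReal.ofReal a2 * ENNReal.ofReal (|C| * s) :=
        add_le_add (mul_le_mul_right h1 _) (mul_le_mul_right h1 _)
    _ = ENNReal.ofReal (2 * (|C| * s) + 2 * a2 * (|C| * s)) := h3
    _ ≤ _ := by
        apply ENNReal.ofReal_le_ofReal
        have : a2 * (|C| * s) ≤ A2 * (|C| * s) := mul_le_mul_of_nonneg_right haA hb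
        linarith

/-! ### the three soft estimates along an arbitrary filter -/

/-- (H3): a family of events covered by two families of negligible events is negligible (OUTER measure: no measurability) -/
theorem pvty_tendsto_union {Ω ι : Type*} [MeasurableSpace Ω] {l : Filter ι} (μ : ι → Measure Ω) (hμ : ∀ i, IsFiniteMeasure (μ i)) {S A B : ι → Set Ω}
    (h : ∀ i, S i ⊆ A i ∪ B i) (hA : Tendsto (fun i => (μ i (A i)).toReal) l (𝓝 0)) (hB : Tendsto (fun i => (μ i (B i)).toReal) l (𝓝 0)) :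
    Tendsto (fun i => (μ i (S i)).toReal) l (𝓝 0) := by
  have h3 := hA.add hB
  rw [add_zero] at h3
  refine squeeze_zero (fun i => ENNReal.toReal_nonneg) (fun i => ?_) h3
  have := hμ i
  exact pvty_union (μ i) (h i)

/-- (H4a): `L²` smallness of `A` and of `B` gives `L²` smallness of `A - a B` -/
theorem pvty_tendsto_lint {Ω ι : Type*} [MeasurableSpace Ω] {l : Filter ι} (μ : ι → Measure Ω) (A B : ι → Ω → ℂ) (a : ℂ) (hm : ∀ i, Measurable (A i))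
    (hA : Tendsto (fun i => ∫⁻ o, ‖A i o‖ₑ ^ 2 ∂(μ i)) l (𝓝 0)) (hB : Tendsto (fun i => ∫⁻ o, ‖B i o‖ₑ ^ 2 ∂(μ i)) l (𝓝 0)) :
    Tendsto (fun i => ∫⁻ o, ‖A i o - a * B i o‖ₑ ^ 2 ∂(μ i)) l (𝓝 0) := by
  have hc : (2 : ℝ≥0∞) * ‖a‖ₑ ^ 2 ≠ ⊤ := ENNReal.mul_ne_top (by norm_num) (ENNReal.pow_ne_top enorm_ne_top)
  have h1 := ENNReal.Tendsto.const_mul (a := 2) hA (Or.inr (by norm_num))
  have h2 := ENNReal.Tendsto.const_mul (a := 2 * ‖a‖ₑ ^ 2) hB (Or.inr hc)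
  have h3 := h1.add h2
  rw [mul_zero, mul_zero, add_zero] at h3
  exact tendsto_of_tendsto_of_tendsto_of_le_of_le tendsto_const_nhds h3 (fun i => zero_le) (fun i => pvty_lint_le (μ i) (A i) (B i) a (hm i))

/-- (H4b): `L²` bounds `C s` of `A` and of `B` give the `L²` bound `2 (1 + CA²) |C| s` of `A - a B`, uniformly in `|a| ≤ CA` -/
theorem pvty_bound_lint {Ω : Type*} [MeasurableSpace Ω] (μ : Measure Ω) (A B : Ω → ℂ) {a : ℂ} {CA C s : ℝ} (ha : ‖a‖ ≤ CA) (hs : 0 ≤ s) (hm : Measurable A)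
    (hA : ∫⁻ o, ‖A o‖ₑ ^ 2 ∂μ ≤ ENNReal.ofReal (C * s)) (hB : ∫⁻ o, ‖B o‖ₑ ^ 2 ∂μ ≤ ENNReal.ofReal (C * s)) :
    ∫⁻ o, ‖A o - a * B o‖ₑ ^ 2 ∂μ ≤ ENNReal.ofReal (2 * (1 + CA ^ 2) * |C| * s) := by
  refine (pvty_lint_le μ A B a hm).trans ?_
  refine le_trans ?_ (pvty_thick_num (C := C) (s := s) (a2 := ‖a‖ ^ 2) (A2 := CA ^ 2) hs (sq_nonneg _) (pow_le_pow_left₀ (norm_nonneg _) ha 2))
  rw [pvts_ofReal_sq]
  exact add_le_add (mul_le_mul_right hA _) (mul_le_mul_right hB _)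

theorem pvty_eqns_cite : True := by
  have := @PvtW.lin.eq_1; have := @pvtyX.eq_1
  trivial

/-! ## 4. THE TWO-FIELD NUMBERS -/

/-- **THE TWO-FIELD NUMBERS OF THE WALL** (no sample space, no scalar): `PvhbNum` of 73 with the cell means and the reference constant of the two fields `X = Q` (`false`), `X = V` (`true`). -/
structure PvtyNum (τ : Type) (c : ℝ) where
  𝔐 : PvbMenu τ
  h : ℕ → ℝ
  r : ℕ → ℝ
  h0 : ∀ m, 0 < h m
  h_lim : Tendsto h atTop (𝓝 0)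
  r_lim : Tendsto r atTop (𝓝 0)
  Lh_r : ∀ᶠ m in atTop, 4 * 𝔐.L * h m ≤ r m
  lim2 : Tendsto (fun m => r m * h m ^ (-1 + c / 2)) atTop (𝓝 0)
  Γ : ℕ → PvtsGeo τ
  /-- the three cell means of the field `X` at level `m`, mesh `ε` (TR25) -/
  W : Bool → ℕ → ℝ → PvtW
  /-- the constant of the reference plug for the field `X` -/
  kin0 : Bool → ℕ → ℝ → ℂ
  CA : ℝ
  /-- TR28 (ii): `|α^Q| ≤ CA δ` -/
  aQ_bdd : ∀ m, ∀ᶠ ε in 𝓝[>] (0 : ℝ), ‖(Γ m).a (W false m ε)‖ ≤ CA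
  /-- TR28 (i): `α^V = δ` EXACTLY -/
  aV_one : ∀ m, ∀ᶠ ε in 𝓝[>] (0 : ℝ), (W true m ε).a = ((Γ m).δ : ℂ)
  /-- TR27 (hexagon) for the two fields (`rel^V = 0`) -/
  rel_lim : ∀ (X : Bool) m, Tendsto (fun ε => (W X m ε).rel) (𝓝[>] (0 : ℝ)) (𝓝 0)

theorem pvty_geo_a_one {τ : Type} (Γ : PvtsGeo τ) {W : PvtW} (h : W.a = (Γ.δ : ℂ)) : Γ.a W = 1 := by
  rw [PvtsGeo.a, h]
  exact div_self (Complex.ofReal_ne_zero.2 Γ.δ0)

/-- **the numbers of the hub** for the field `y_a = xQ - a xV` -/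
noncomputable def PvtyNum.toHub {τ : Type} {c : ℝ} (N : PvtyNum τ c) : PvhbNum τ c where
  𝔐 := N.𝔐
  h := N.h
  r := N.r
  h0 := N.h0
  h_lim := N.h_lim
  r_lim := N.r_lim
  Lh_r := N.Lh_r
  lim2 := N.lim2
  Γ := N.Γ
  W := fun m ε a => (N.W false m ε).lin (N.W true m ε) a
  kin0 := fun m ε a => N.kin0 false m ε - a * N.kin0 true m ε
  A := fun m ε => (N.Γ m).a (N.W false m ε)
  CA := N.CA
  A_bdd := N.aQ_bdd
  cell_a := fun m => (N.aV_one m).mono fun ε hε a => by rw [pvty_geo_a, pvty_geo_a_one _ hε, mul_one]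
  rel_lim := fun m a => by
    have h := (N.rel_lim false m).sub ((N.rel_lim true m).const_mul a)
    rw [mul_zero, sub_zero] at h
    exact h.congr fun ε => (pvty_lin_rel _ _ _).symm

/-! ## 5. THE TWO-FIELD EXITS OF THE CHAPTERS -/

section hub

variable {Ω : Type} [MeasurableSpace Ω]

/-- **THE TWO-FIELD EXITS OF CHAPTERS A-E** for one family of laws `Pr ε`, one random set of rims, one ball: `PvhbLoc` of 73 without the scalar.
Pins, usable events, patterns and fits are COMMON to the two fields;  `kout kin ke` and (H3) (H4a) (H4b) are asked for `X = Q` (`false`) and `X = V` (`true`). -/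
structure PvtyLoc {τ : Type} {c : ℝ} (N : PvtyNum τ c) (Pr : ℝ → Measure Ω) (rims : Ω → Set PvbRim) (x : ℂ) (R : ℝ) where
  pins : ℕ → ℝ → Ω → PvbRim → Set (PvbPin τ)
  U : ℕ → ℝ → ℂ → τ → Set Ω
  /-- `κ_out`, `κ_in`, mean of the thick short link of the field `X`:   arguments `X m ε z t ω` -/
  kout : Bool → ℕ → ℝ → ℂ → τ → Ω → ℂ
  kin : Bool → ℕ → ℝ → ℂ → τ → Ω → ℂ
  ke : Bool → ℕ → ℝ → ℂ → τ → Ω → ℂ
  Pat : ℕ → Type
  Pat_fin : ∀ m, Finite (Pat m)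
  pat : ∀ m, Pat m → PvtsPat τ
  pat_ok : ∀ m π, (N.Γ m).Ok (pat m π)
  Fit : ∀ m : ℕ, ℝ → Ω → PvbRim → PvbPin τ → PvbPin τ → Pat m → Prop
  fit_s : ∀ m ε o P s t π, Fit m ε o P s t π → s.ctr = (pat m π).zs ∧ s.typ = (pat m π).ts
  fit_t : ∀ m ε o P s t π, Fit m ε o P s t π → t.ctr = (pat m π).zt ∧ t.typ = (pat m π).tt
  fit_U : ∀ m ε o P s t π, Fit m ε o P s t π → o ∈ U m ε t.ctr t.typ
  /-- (H1) -/
  pinsOK : PvhbOrd (fun m ε => (Pr ε {o | ¬ ∀ P ∈ rims o,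
    (∀ s ∈ pins m ε o P, PvbIsPin N.𝔐 (N.h m) P s ∧ ∃ p : ℤ × ℤ, s.ctr = l9Pt (N.h m) p) ∧
    (∀ i i', i ≤ i' → i' ≤ P.len → (∀ k, i ≤ k → k ≤ i' → ‖P.v k - x‖ ≤ 2 * R) → N.r m ≤ ‖P.v i' - P.v i‖ → ∃ s ∈ pins m ε o P, i ≤ s.idx ∧ s.idx ≤ i')}).toReal)
  /-- (H2) -/
  cover : PvhbOrd (fun m ε => (Pr ε {o | ¬ ∀ P ∈ rims o, ∀ s ∈ pins m ε o P, ∀ t ∈ pins m ε o P, s.idx < t.idx →
    (∀ k, s.idx ≤ k → k ≤ t.idx → ‖P.v k - x‖ ≤ 2 * R) → R / 3 ≤ ‖s.ctr - t.ctr‖ → ∃ π : Pat m, Fit m ε o P s t π}).toReal)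
  /-- (H3) for each of the two fields (`X = V`: closed sums vanish, the defect is `0` off the bad geometries) -/
  n1 : ∀ (X : Bool) (m : ℕ) (π : Pat m) (u : ℝ), 0 < u → Tendsto (fun ε => (Pr ε {o | ∃ P ∈ rims o, ∃ s ∈ pins m ε o P, ∃ t ∈ pins m ε o P, Fit m ε o P s t π ∧
    u < ‖pvbArcI N.𝔐 (N.h m) P (pvtyX X P) s t +
      (kout X m ε t.ctr t.typ o + pvtSum (N.W X m ε) ((N.Γ m).dout (pat m π).tt) (pat m π).l + kin X m ε s.ctr s.typ o)‖}).toReal) (𝓝[>] (0 : ℝ)) (𝓝 0)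
  /-- (H4a) for each of the two fields -/
  cyc1 : ∀ (X : Bool) (m : ℕ) (p : ℤ × ℤ) (t : τ), ‖l9Pt (N.h m) p - x‖ ≤ 2 * R → Tendsto (fun ε => ∫⁻ o in U m ε (l9Pt (N.h m) p) t,
    ‖kout X m ε (l9Pt (N.h m) p) t o + pvtSum (N.W X m ε) ((N.Γ m).dout t) ((N.Γ m).l1 t) + N.kin0 X m ε + ke X m ε (l9Pt (N.h m) p) t o‖ₑ ^ 2 ∂(Pr ε)) (𝓝[>] (0 : ℝ)) (𝓝 0)
  /-- (H4b) for each of the two fields -/
  Ce : ℝ
  thick : ∀ (X : Bool) (m : ℕ) (p : ℤ × ℤ) (t : τ), ‖l9Pt (N.h m) p - x‖ ≤ 2 * R → ∀ᶠ ε in 𝓝[>] (0 : ℝ),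
    ∫⁻ o in U m ε (l9Pt (N.h m) p) t, ‖ke X m ε (l9Pt (N.h m) p) t o‖ₑ ^ 2 ∂(Pr ε) ≤ ENNReal.ofReal (Ce * N.h m ^ 2)
  /-- (H6) -/
  U_meas : ∀ m ε z t, MeasurableSet (U m ε z t)
  kout_meas : ∀ X m ε z t, Measurable (kout X m ε z t)
  ke_meas : ∀ X m ε z t, Measurable (ke X m ε z t)

namespace PvtyLoc

variable {τ : Type} {c : ℝ} {N : PvtyNum τ c} {Pr : ℝ → Measure Ω} {rims : Ω → Set PvbRim} {x : ℂ} {R : ℝ} (L : PvtyLoc N Pr rims x R)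

/-- the `N1` defect of the field `X` for the arc `s → t` of `P` and the pattern `π` -/
noncomputable def dN1 (X : Bool) (m : ℕ) (ε : ℝ) (π : L.Pat m) (o : Ω) (P : PvbRim) (s t : PvbPin τ) : ℂ :=
  pvbArcI N.𝔐 (N.h m) P (pvtyX X P) s t +
    (L.kout X m ε t.ctr t.typ o + pvtSum (N.W X m ε) ((N.Γ m).dout (L.pat m π).tt) (L.pat m π).l + L.kin X m ε s.ctr s.typ o)

/-- the `Σ₁` cycle mean of the field `X` -/
noncomputable def dC1 (X : Bool) (m : ℕ) (ε : ℝ) (z : ℂ) (t : τ) (o : Ω) : ℂ :=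
  L.kout X m ε z t o + pvtSum (N.W X m ε) ((N.Γ m).dout t) ((N.Γ m).l1 t) + N.kin0 X m ε + L.ke X m ε z t o

theorem dN1_lin (a : ℂ) (m : ℕ) (ε : ℝ) (π : L.Pat m) (o : Ω) (P : PvbRim) (s t : PvbPin τ) :
    pvbArcI N.𝔐 (N.h m) P (fun k => P.xQ k - a * P.xV k) s t +
      ((L.kout false m ε t.ctr t.typ o - a * L.kout true m ε t.ctr t.typ o)
        + pvtSum ((N.W false m ε).lin (N.W true m ε) a) ((N.Γ m).dout (L.pat m π).tt) (L.pat m π).l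
        + (L.kin false m ε s.ctr s.typ o - a * L.kin true m ε s.ctr s.typ o))
      = L.dN1 false m ε π o P s t - a * L.dN1 true m ε π o P s t := by
  rw [pvty_arcI_lin, pvty_lin_sum, dN1, dN1, pvty_X_false, pvty_X_true]
  ring

theorem dC1_lin (a : ℂ) (m : ℕ) (ε : ℝ) (z : ℂ) (t : τ) (o : Ω) :
    (L.kout false m ε z t o - a * L.kout true m ε z t o) + pvtSum ((N.W false m ε).lin (N.W true m ε) a) ((N.Γ m).dout t) ((N.Γ m).l1 t)
        + (N.kin0 false m ε - a * N.kin0 true m ε) + (L.ke false m ε z t o - a * L.ke true m ε z t o)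
      = L.dC1 false m ε z t o - a * L.dC1 true m ε z t o := by
  rw [pvty_lin_sum, dC1, dC1]
  ring

theorem dC1_meas (X : Bool) (m : ℕ) (ε : ℝ) (z : ℂ) (t : τ) : Measurable (L.dC1 X m ε z t) :=
  (((L.kout_meas X m ε z t).add_const _).add_const _).add (L.ke_meas X m ε z t)

theorem n1Y (hPr : ∀ ε, IsFiniteMeasure (Pr ε)) (a : ℂ) (m : ℕ) (π : L.Pat m) (u : ℝ) (hu : 0 < u) :
    Tendsto (fun ε => (Pr ε {o | ∃ P ∈ rims o, ∃ s ∈ L.pins m ε o P, ∃ t ∈ L.pins m ε o P, L.Fit m ε o P s t π ∧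
      u < ‖pvbArcI N.𝔐 (N.h m) P (fun k => P.xQ k - a * P.xV k) s t +
        ((L.kout false m ε t.ctr t.typ o - a * L.kout true m ε t.ctr t.typ o)
          + pvtSum ((N.W false m ε).lin (N.W true m ε) a) ((N.Γ m).dout (L.pat m π).tt) (L.pat m π).l
          + (L.kin false m ε s.ctr s.typ o - a * L.kin true m ε s.ctr s.typ o))‖}).toReal) (𝓝[>] (0 : ℝ)) (𝓝 0) := by
  refine pvty_tendsto_union Pr hPr (fun ε => ?_) (L.n1 false m π (u / 2) (by positivity)) (L.n1 true m π (u / (2 * (‖a‖ + 1))) (by positivity))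
  rintro o ⟨P, hP, s, hs, t, ht, hF, hlt⟩
  rw [L.dN1_lin] at hlt
  rcases pvty_split hlt with h | h
  · exact Or.inl ⟨P, hP, s, hs, t, ht, hF, h⟩
  · exact Or.inr ⟨P, hP, s, hs, t, ht, hF, h⟩

theorem cyc1Y (a : ℂ) (m : ℕ) (p : ℤ × ℤ) (t : τ) (hp : ‖l9Pt (N.h m) p - x‖ ≤ 2 * R) :
    Tendsto (fun ε => ∫⁻ o in L.U m ε (l9Pt (N.h m) p) t,
      ‖(L.kout false m ε (l9Pt (N.h m) p) t o - a * L.kout true m ε (l9Pt (N.h m) p) t o)
        + pvtSum ((N.W false m ε).lin (N.W true m ε) a) ((N.Γ m).dout t) ((N.Γ m).l1 t)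
        + (N.kin0 false m ε - a * N.kin0 true m ε)
        + (L.ke false m ε (l9Pt (N.h m) p) t o - a * L.ke true m ε (l9Pt (N.h m) p) t o)‖ₑ ^ 2 ∂(Pr ε)) (𝓝[>] (0 : ℝ)) (𝓝 0) := by
  simp only [L.dC1_lin]
  exact pvty_tendsto_lint (fun ε => (Pr ε).restrict (L.U m ε (l9Pt (N.h m) p) t)) (fun ε => L.dC1 false m ε (l9Pt (N.h m) p) t)
    (fun ε => L.dC1 true m ε (l9Pt (N.h m) p) t) a (fun ε => L.dC1_meas false m ε _ t) (L.cyc1 false m p t hp) (L.cyc1 true m p t hp)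

theorem thickY (a : ℂ) (ha : ‖a‖ ≤ N.CA) (m : ℕ) (p : ℤ × ℤ) (t : τ) (hp : ‖l9Pt (N.h m) p - x‖ ≤ 2 * R) : ∀ᶠ ε in 𝓝[>] (0 : ℝ),
    ∫⁻ o in L.U m ε (l9Pt (N.h m) p) t, ‖L.ke false m ε (l9Pt (N.h m) p) t o - a * L.ke true m ε (l9Pt (N.h m) p) t o‖ₑ ^ 2 ∂(Pr ε)
      ≤ ENNReal.ofReal (2 * (1 + N.CA ^ 2) * |L.Ce| * N.h m ^ 2) := by
  filter_upwards [L.thick false m p t hp, L.thick true m p t hp] with ε h1 h2
  exact pvty_bound_lint _ _ _ ha (sq_nonneg _) (L.ke_meas false m ε _ t) h1 h2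

/-- **THE LINEARITY LAYER**: the exits of the chapters for the field `y_a = xQ - a xV`, all `a` at once -/
noncomputable def toHub (hPr : ∀ ε, IsFiniteMeasure (Pr ε)) : PvhbLoc N.toHub Pr rims x R where
  pins := L.pins
  U := L.U
  kout := fun m ε a z t o => L.kout false m ε z t o - a * L.kout true m ε z t o
  kin := fun m ε a z t o => L.kin false m ε z t o - a * L.kin true m ε z t o
  ke := fun m ε a z t o => L.ke false m ε z t o - a * L.ke true m ε z t o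
  Pat := L.Pat
  Pat_fin := L.Pat_fin
  pat := L.pat
  pat_ok := L.pat_ok
  Fit := L.Fit
  fit_s := L.fit_s
  fit_t := L.fit_t
  fit_U := L.fit_U
  pinsOK := L.pinsOK
  cover := L.cover
  n1 := L.n1Y hPr
  cyc1 := L.cyc1Y
  Ce := 2 * (1 + N.CA ^ 2) * |L.Ce|
  thick := L.thickY
  U_meas := L.U_meas
  kout_meas := fun m ε _ z t => (L.kout_meas false m ε z t).sub ((L.kout_meas true m ε z t).const_mul _)
  ke_meas := fun m ε _ z t => (L.ke_meas false m ε z t).sub ((L.ke_meas true m ε z t).const_mul _)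

end PvtyLoc

end hub

/-! ## 6. the exit of the wall from two-field records -/

/-- the master theorem of the hub, two-field form: `φ` and `G` depend only on the two-field numbers and on the sequence -/
theorem pvty_main {τ : Type} {c : ℝ} (c0 : 0 < c) (N : PvtyNum τ c) (es : ℕ → ℝ) (h0 : ∀ n, 0 < es n) (he : Tendsto es atTop (𝓝 0)) :
    ∃ φ : ℕ → ℕ, StrictMono φ ∧ ∃ G : L9Glob τ c, ∀ (Ω : Type) [MeasurableSpace Ω] (Pr : ℝ → Measure Ω) (rims : Ω → Set PvbRim) (x : ℂ) (R : ℝ),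
      ∀ hPr : ∀ ε, IsProbabilityMeasure (Pr ε), Nonempty (PvtyLoc N Pr rims x R) →
        Nonempty (L9Loc G (fun n => @PvUp.ofMeasure _ _ (Pr (es (φ n))) (hPr (es (φ n)))) rims x R) := by
  obtain ⟨φ, hφ, G, K⟩ := pvhb_loc c0 N.toHub es h0 he
  exact ⟨φ, hφ, G, fun Ω _ Pr rims x R hPr ⟨L⟩ => K Ω Pr rims x R hPr ⟨L.toHub fun ε => inferInstance⟩⟩

/-- **EXIT OF THE WALL, two-field form** -/
theorem pvty_exit {c : ℝ} (c0 : 0 < c) (τ : Type) [Fintype τ] [Nonempty τ] (N : PvtyNum τ c)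
    (H : ∀ (X : Type) [Fintype X] (𝔅 : PvBulk X) (x : ℂ) (R : ℝ), 0 < R →
      Nonempty (PvtyLoc N (fun ε => (pvGeo ε).prod (pvCol.prod (colLaw X))) (fun w : L9Om X => 𝔅.rims x R (l9Sm w)) x R)) : L9ExitTR c :=
  pvhb_exit c0 τ N.toHub fun X _ 𝔅 x R hR => by
    obtain ⟨L⟩ := H X 𝔅 x R hR
    exact ⟨L.toHub fun ε => inferInstance⟩

theorem pvty_eqns_cite1 : True := by
  have := @PvtyNum.toHub.eq_1; have := @PvtyLoc.dN1.eq_1; have := @PvtyLoc.dC1.eq_1; have := @PvtyLoc.toHub.eq_1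
  trivial

/-! ## 7. VARIANT along sequences: `α^V / δ → 1` only asymptotically, scalars `a_m` given -/

/-- `sup_m |a_m|` -/
noncomputable def L9Glob.aB {τ : Type} {c : ℝ} (G : L9Glob τ c) : ℝ := sSup (range fun m => ‖G.a m‖)

theorem pvty_aB_le {τ : Type} {c : ℝ} (G : L9Glob τ c) (m : ℕ) : ‖G.a m‖ ≤ G.aB :=
  le_csSup G.a_lim.norm.bddAbove_range (mem_range_self m)

theorem pvty_aB_nonneg {τ : Type} {c : ℝ} (G : L9Glob τ c) : 0 ≤ G.aB := (norm_nonneg _).trans (pvty_aB_le G 0)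

section layer

variable {Ω : Type} [MeasurableSpace Ω]

/-- **THE TWO-FIELD INPUT OF THE WALL**: the exits of chapters A-E for the two fields `X = Q` (`false`) and `X = V` (`true`), for one family of laws, one random set of rims, one ball.
Pins, doors, usable events, patterns and fits are COMMON to the two fields. -/
structure PvtyIn {τ : Type} {c : ℝ} (G : L9Glob τ c) (Pr : ℕ → Measure Ω) (rims : Ω → Set PvbRim) (x : ℂ) (R : ℝ) where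
  pins : ℕ → ℕ → Ω → PvbRim → Set (PvbPin τ)
  Γ : ℕ → PvtsGeo τ
  /-- the three cell means of the field `X` -/
  W : Bool → ℕ → ℕ → PvtW
  /-- the constant of the reference plug -/
  kin0 : Bool → ℕ → ℕ → ℂ
  U : ℕ → ℕ → ℂ → τ → Set Ω
  kout : Bool → ℕ → ℕ → ℂ → τ → Ω → ℂ
  kin : Bool → ℕ → ℕ → ℂ → τ → Ω → ℂ
  ke : Bool → ℕ → ℕ → ℂ → τ → Ω → ℂ
  Pat : ℕ → Type
  Pat_fin : ∀ m, Finite (Pat m)
  pat : ∀ m, Pat m → PvtsPat τ
  pat_ok : ∀ m π, (Γ m).Ok (pat m π)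
  Fit : ∀ m : ℕ, ℕ → Ω → PvbRim → PvbPin τ → PvbPin τ → Pat m → Prop
  fit_s : ∀ m n o P s t π, Fit m n o P s t π → s.ctr = (pat m π).zs ∧ s.typ = (pat m π).ts
  fit_t : ∀ m n o P s t π, Fit m n o P s t π → t.ctr = (pat m π).zt ∧ t.typ = (pat m π).tt
  fit_U : ∀ m n o P s t π, Fit m n o P s t π → o ∈ U m n t.ctr t.typ
  /-- (H1) -/
  pinsOK : PvbOrd (fun m n => (Pr n {o | ¬ ∀ P ∈ rims o,
    (∀ s ∈ pins m n o P, PvbIsPin G.𝔐 (G.h m) P s ∧ ∃ p : ℤ × ℤ, s.ctr = l9Pt (G.h m) p) ∧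
    (∀ i i', i ≤ i' → i' ≤ P.len → (∀ k, i ≤ k → k ≤ i' → ‖P.v k - x‖ ≤ 2 * R) → G.r m ≤ ‖P.v i' - P.v i‖ → ∃ s ∈ pins m n o P, i ≤ s.idx ∧ s.idx ≤ i')}).toReal)
  /-- (H2) -/
  cover : PvbOrd (fun m n => (Pr n {o | ¬ ∀ P ∈ rims o, ∀ s ∈ pins m n o P, ∀ t ∈ pins m n o P, s.idx < t.idx →
    (∀ k, s.idx ≤ k → k ≤ t.idx → ‖P.v k - x‖ ≤ 2 * R) → R / 3 ≤ ‖s.ctr - t.ctr‖ → ∃ π : Pat m, Fit m n o P s t π}).toReal)
  /-- (H3) for each of the two fields (`X = V`: the closed sums vanish, so the defect is `0` off the bad geometries) -/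
  n1 : ∀ (X : Bool) m (π : Pat m) (u : ℝ), 0 < u → Tendsto (fun n => (Pr n {o | ∃ P ∈ rims o, ∃ s ∈ pins m n o P, ∃ t ∈ pins m n o P, Fit m n o P s t π ∧
    u < ‖pvbArcI G.𝔐 (G.h m) P (pvtyX X P) s t +
      (kout X m n t.ctr t.typ o + pvtSum (W X m n) ((Γ m).dout (pat m π).tt) (pat m π).l + kin X m n s.ctr s.typ o)‖}).toReal) atTop (𝓝 0)
  /-- (H4a) for each of the two fields -/
  cyc1 : ∀ (X : Bool) m (p : ℤ × ℤ) t, ‖l9Pt (G.h m) p - x‖ ≤ 2 * R → Tendsto (fun n => ∫⁻ o in U m n (l9Pt (G.h m) p) t,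
    ‖kout X m n (l9Pt (G.h m) p) t o + pvtSum (W X m n) ((Γ m).dout t) ((Γ m).l1 t) + kin0 X m n + ke X m n (l9Pt (G.h m) p) t o‖ₑ ^ 2 ∂(Pr n)) atTop (𝓝 0)
  /-- (H4b) for each of the two fields -/
  Ce : ℝ
  thick : ∀ (X : Bool) m (p : ℤ × ℤ) t, ‖l9Pt (G.h m) p - x‖ ≤ 2 * R → ∀ᶠ n in atTop,
    ∫⁻ o in U m n (l9Pt (G.h m) p) t, ‖ke X m n (l9Pt (G.h m) p) t o‖ₑ ^ 2 ∂(Pr n) ≤ ENNReal.ofReal (Ce * G.h m ^ 2)
  /-- (H5) the affine coefficient of `Q` at level `m` converges to `a_m`: the DEFINITION of `a_m` (diagonal subsequence) -/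
  aQ_lim : ∀ m, Tendsto (fun n => (Γ m).a (W false m n)) atTop (𝓝 (G.a m))
  /-- (H5) TR28: the affine coefficient of `V` is (asymptotically) `1` -/
  aV_lim : ∀ m, Tendsto (fun n => (Γ m).a (W true m n)) atTop (𝓝 1)
  /-- (H5) TR27 -/
  rel_lim : ∀ (X : Bool) m, Tendsto (fun n => (W X m n).rel) atTop (𝓝 0)
  /-- (H6) -/
  U_meas : ∀ m n z t, MeasurableSet (U m n z t)
  kout_meas : ∀ X m n z t, Measurable (kout X m n z t)
  ke_meas : ∀ X m n z t, Measurable (ke X m n z t)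

namespace PvtyIn

variable {τ : Type} {c : ℝ} {G : L9Glob τ c} {Pr : ℕ → Measure Ω} {rims : Ω → Set PvbRim} {x : ℂ} {R : ℝ} (I : PvtyIn G Pr rims x R)

/-- the cell means of `Y_m = Q - a_m V` -/
def WY (m n : ℕ) : PvtW := (I.W false m n).lin (I.W true m n) (G.a m)

theorem n1Y (hPr : ∀ n, IsFiniteMeasure (Pr n)) (m : ℕ) (π : I.Pat m) (u : ℝ) (hu : 0 < u) :
    Tendsto (fun n => (Pr n {o | ∃ P ∈ rims o, ∃ s ∈ I.pins m n o P, ∃ t ∈ I.pins m n o P, I.Fit m n o P s t π ∧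
      u < ‖pvbArcI G.𝔐 (G.h m) P (fun k => P.xQ k - G.a m * P.xV k) s t +
        ((I.kout false m n t.ctr t.typ o - G.a m * I.kout true m n t.ctr t.typ o) + pvtSum (I.WY m n) ((I.Γ m).dout (I.pat m π).tt) (I.pat m π).l
          + (I.kin false m n s.ctr s.typ o - G.a m * I.kin true m n s.ctr s.typ o))‖}).toReal) atTop (𝓝 0) := by
  refine pvty_tendsto_union Pr hPr (fun n => ?_) (I.n1 false m π (u / 2) (by positivity)) (I.n1 true m π (u / (2 * (‖G.a m‖ + 1))) (by positivity))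
  rintro o ⟨P, hP, s, hs, t, ht, hF, hlt⟩
  have e : pvbArcI G.𝔐 (G.h m) P (fun k => P.xQ k - G.a m * P.xV k) s t +
        ((I.kout false m n t.ctr t.typ o - G.a m * I.kout true m n t.ctr t.typ o) + pvtSum (I.WY m n) ((I.Γ m).dout (I.pat m π).tt) (I.pat m π).l
          + (I.kin false m n s.ctr s.typ o - G.a m * I.kin true m n s.ctr s.typ o))
      = (pvbArcI G.𝔐 (G.h m) P (pvtyX false P) s t +
          (I.kout false m n t.ctr t.typ o + pvtSum (I.W false m n) ((I.Γ m).dout (I.pat m π).tt) (I.pat m π).l + I.kin false m n s.ctr s.typ o))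
        - G.a m * (pvbArcI G.𝔐 (G.h m) P (pvtyX true P) s t +
          (I.kout true m n t.ctr t.typ o + pvtSum (I.W true m n) ((I.Γ m).dout (I.pat m π).tt) (I.pat m π).l + I.kin true m n s.ctr s.typ o)) := by
    rw [pvty_arcI_lin, WY, pvty_lin_sum, pvty_X_false, pvty_X_true]
    ring
  rw [e] at hlt
  rcases pvty_split hlt with h | h
  · exact Or.inl ⟨P, hP, s, hs, t, ht, hF, h⟩
  · exact Or.inr ⟨P, hP, s, hs, t, ht, hF, h⟩

theorem cyc1Y (m : ℕ) (p : ℤ × ℤ) (t : τ) (hp : ‖l9Pt (G.h m) p - x‖ ≤ 2 * R) :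
    Tendsto (fun n => ∫⁻ o in I.U m n (l9Pt (G.h m) p) t,
      ‖(I.kout false m n (l9Pt (G.h m) p) t o - G.a m * I.kout true m n (l9Pt (G.h m) p) t o) + pvtSum (I.WY m n) ((I.Γ m).dout t) ((I.Γ m).l1 t)
        + (I.kin0 false m n - G.a m * I.kin0 true m n) + (I.ke false m n (l9Pt (G.h m) p) t o - G.a m * I.ke true m n (l9Pt (G.h m) p) t o)‖ₑ ^ 2 ∂(Pr n)) atTop (𝓝 0) := by
  have hm : ∀ n, Measurable fun o => I.kout false m n (l9Pt (G.h m) p) t o + pvtSum (I.W false m n) ((I.Γ m).dout t) ((I.Γ m).l1 t) + I.kin0 false m n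
      + I.ke false m n (l9Pt (G.h m) p) t o :=
    fun n => (((I.kout_meas false m n _ t).add_const _).add_const _).add (I.ke_meas false m n _ t)
  refine (pvty_tendsto_lint (fun n => (Pr n).restrict (I.U m n (l9Pt (G.h m) p) t)) _
    (fun n o => I.kout true m n (l9Pt (G.h m) p) t o + pvtSum (I.W true m n) ((I.Γ m).dout t) ((I.Γ m).l1 t) + I.kin0 true m n
      + I.ke true m n (l9Pt (G.h m) p) t o) (G.a m) hm (I.cyc1 false m p t hp) (I.cyc1 true m p t hp)).congr fun n => ?_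
  refine lintegral_congr fun o => ?_
  rw [WY, pvty_lin_sum]
  congr 2
  ring

theorem thickY (m : ℕ) (p : ℤ × ℤ) (t : τ) (hp : ‖l9Pt (G.h m) p - x‖ ≤ 2 * R) : ∀ᶠ n in atTop,
    ∫⁻ o in I.U m n (l9Pt (G.h m) p) t, ‖I.ke false m n (l9Pt (G.h m) p) t o - G.a m * I.ke true m n (l9Pt (G.h m) p) t o‖ₑ ^ 2 ∂(Pr n)
      ≤ ENNReal.ofReal (2 * (1 + G.aB ^ 2) * |I.Ce| * G.h m ^ 2) := by
  filter_upwards [I.thick false m p t hp, I.thick true m p t hp] with n h1 h2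
  exact pvty_bound_lint _ _ _ (pvty_aB_le G m) (sq_nonneg _) (I.ke_meas false m n _ t) h1 h2

theorem a_limY (m : ℕ) : Tendsto (fun n => (I.Γ m).a (I.WY m n)) atTop (𝓝 0) := by
  have h := (I.aQ_lim m).sub ((I.aV_lim m).const_mul (G.a m))
  rw [mul_one, sub_self] at h
  refine h.congr fun n => ?_
  rw [WY, pvty_geo_a]

theorem rel_limY (m : ℕ) : Tendsto (fun n => (I.WY m n).rel) atTop (𝓝 0) := by
  have h := (I.rel_lim false m).sub ((I.rel_lim true m).const_mul (G.a m))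
  rw [mul_zero, sub_zero] at h
  refine h.congr fun n => ?_
  rw [WY, pvty_lin_rel]

/-- the input of the spine for the field `Y_m = Q - a_m V` -/
noncomputable def toSpine (hPr : ∀ n, IsFiniteMeasure (Pr n)) : PvtsIn G Pr rims x R where
  pins := I.pins
  Γ := I.Γ
  W := I.WY
  kin0 := fun m n => I.kin0 false m n - G.a m * I.kin0 true m n
  U := I.U
  kout := fun m n z t o => I.kout false m n z t o - G.a m * I.kout true m n z t o
  kin := fun m n z t o => I.kin false m n z t o - G.a m * I.kin true m n z t o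
  ke := fun m n z t o => I.ke false m n z t o - G.a m * I.ke true m n z t o
  Pat := I.Pat
  Pat_fin := I.Pat_fin
  pat := I.pat
  pat_ok := I.pat_ok
  Fit := I.Fit
  fit_s := I.fit_s
  fit_t := I.fit_t
  fit_U := I.fit_U
  pinsOK := I.pinsOK
  cover := I.cover
  n1 := I.n1Y hPr
  cyc1 := I.cyc1Y
  Ce := 2 * (1 + G.aB ^ 2) * |I.Ce|
  thick := I.thickY
  a_lim := I.a_limY
  rel_lim := I.rel_limY
  U_meas := I.U_meas
  kout_meas := fun m n z t => (I.kout_meas false m n z t).sub ((I.kout_meas true m n z t).const_mul _)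
  ke_meas := fun m n z t => (I.ke_meas false m n z t).sub ((I.ke_meas true m n z t).const_mul _)

end PvtyIn

/-- **TR32 EXPORT, two-field form along a sequence** -/
theorem pvty_loc {τ : Type} {c : ℝ} (c0 : 0 < c) {G : L9Glob τ c} {Pr : ℕ → Measure Ω} (hPr : ∀ n, IsProbabilityMeasure (Pr n)) {rims : Ω → Set PvbRim} {x : ℂ} {R : ℝ}
    (I : PvtyIn G Pr rims x R) : Nonempty (L9Loc G (fun n => @PvUp.ofMeasure _ _ (Pr n) (hPr n)) rims x R) :=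
  pvts_loc c0 hPr (I.toSpine fun _ => inferInstance)

end layer

theorem pvty_eqns_cite2 : True := by
  have := @L9Glob.aB.eq_1; have := @PvtyIn.WY.eq_1; have := @PvtyIn.toSpine.eq_1
  trivial

/-! ## 8. THE SAME LAYER OVER UPPER EXPECTATIONS (`PvUp`, `Defs/Up.lean`; ruling of 163 09:29Z, H1 of 73): no measurability at all -/

section up

variable {Ω : Type}

/-- the union bound in the `toReal` form, upper probabilities -/
theorem pvty_up_union (U : PvUp Ω) {S A B : Set Ω} (h : S ⊆ A ∪ B) : (U.P S).toReal ≤ (U.P A).toReal + (U.P B).toReal := by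
  rw [← ENNReal.toReal_add (U.P_ne_top _) (U.P_ne_top _)]
  exact ENNReal.toReal_mono (ENNReal.add_ne_top.2 ⟨U.P_ne_top _, U.P_ne_top _⟩) ((U.P_mono h).trans (U.P_union_le _ _))

/-- (H3), upper probabilities, any filter -/
theorem pvty_up_tendsto_union {ι : Type*} {l : Filter ι} (μ : ι → PvUp Ω) {S A B : ι → Set Ω}
    (h : ∀ i, S i ⊆ A i ∪ B i) (hA : Tendsto (fun i => ((μ i).P (A i)).toReal) l (𝓝 0)) (hB : Tendsto (fun i => ((μ i).P (B i)).toReal) l (𝓝 0)) :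
    Tendsto (fun i => ((μ i).P (S i)).toReal) l (𝓝 0) := by
  have h3 := hA.add hB
  rw [add_zero] at h3
  exact squeeze_zero (fun i => ENNReal.toReal_nonneg) (fun i => pvty_up_union (μ i) (h i)) h3

/-- the `L²` form on an event, upper expectations -/
theorem pvty_up_sq_le (U : PvUp Ω) (S : Set Ω) (A B : Ω → ℂ) (a : ℂ) :
    U.E (S.indicator fun o => ‖A o - a * B o‖ₑ ^ 2) ≤ 2 * U.E (S.indicator fun o => ‖A o‖ₑ ^ 2) + 2 * ‖a‖ₑ ^ 2 * U.E (S.indicator fun o => ‖B o‖ₑ ^ 2) := by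
  have hc : (2 : ℝ≥0∞) * ‖a‖ₑ ^ 2 ≠ ⊤ := ENNReal.mul_ne_top (by norm_num) (ENNReal.pow_ne_top enorm_ne_top)
  have h1 : ∀ o, (S.indicator fun o => ‖A o - a * B o‖ₑ ^ 2) o ≤
      2 * (S.indicator fun o => ‖A o‖ₑ ^ 2) o + 2 * ‖a‖ₑ ^ 2 * (S.indicator fun o => ‖B o‖ₑ ^ 2) o := by
    intro o
    by_cases ho : o ∈ S
    · simp only [indicator_of_mem ho]
      exact pvty_sq_le _ _ _
    · simp only [indicator_of_notMem ho, mul_zero, add_zero, le_refl]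
  exact (U.mono h1).trans ((U.add_le _ _).trans (add_le_add (U.smul_le _ _ (by norm_num)) (U.smul_le _ _ hc)))

/-- (H4a), upper expectations, any filter -/
theorem pvty_up_tendsto_sq {ι : Type*} {l : Filter ι} (μ : ι → PvUp Ω) (S : ι → Set Ω) (A B : ι → Ω → ℂ) (a : ℂ)
    (hA : Tendsto (fun i => (μ i).E ((S i).indicator fun o => ‖A i o‖ₑ ^ 2)) l (𝓝 0)) (hB : Tendsto (fun i => (μ i).E ((S i).indicator fun o => ‖B i o‖ₑ ^ 2)) l (𝓝 0)) :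
    Tendsto (fun i => (μ i).E ((S i).indicator fun o => ‖A i o - a * B i o‖ₑ ^ 2)) l (𝓝 0) := by
  have hc : (2 : ℝ≥0∞) * ‖a‖ₑ ^ 2 ≠ ⊤ := ENNReal.mul_ne_top (by norm_num) (ENNReal.pow_ne_top enorm_ne_top)
  have h1 := ENNReal.Tendsto.const_mul (a := 2) hA (Or.inr (by norm_num))
  have h2 := ENNReal.Tendsto.const_mul (a := 2 * ‖a‖ₑ ^ 2) hB (Or.inr hc)
  have h3 := h1.add h2
  rw [mul_zero, mul_zero, add_zero] at h3
  exact tendsto_of_tendsto_of_tendsto_of_le_of_le tendsto_const_nhds h3 (fun i => zero_le) (fun i => pvty_up_sq_le (μ i) (S i) (A i) (B i) a)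

/-- (H4b), upper expectations -/
theorem pvty_up_bound_sq (U : PvUp Ω) (S : Set Ω) (A B : Ω → ℂ) {a : ℂ} {CA C s : ℝ} (ha : ‖a‖ ≤ CA) (hs : 0 ≤ s)
    (hA : U.E (S.indicator fun o => ‖A o‖ₑ ^ 2) ≤ ENNReal.ofReal (C * s)) (hB : U.E (S.indicator fun o => ‖B o‖ₑ ^ 2) ≤ ENNReal.ofReal (C * s)) :
    U.E (S.indicator fun o => ‖A o - a * B o‖ₑ ^ 2) ≤ ENNReal.ofReal (2 * (1 + CA ^ 2) * |C| * s) := by
  refine (pvty_up_sq_le U S A B a).trans ?_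
  refine le_trans ?_ (pvty_thick_num (C := C) (s := s) (a2 := ‖a‖ ^ 2) (A2 := CA ^ 2) hs (sq_nonneg _) (pow_le_pow_left₀ (norm_nonneg _) ha 2))
  rw [pvts_ofReal_sq]
  exact add_le_add (mul_le_mul_right hA _) (mul_le_mul_right hB _)

/-- **THE TWO-FIELD EXITS OF CHAPTERS A-E OVER UPPER EXPECTATIONS**: `PvhbLocU` of 73 without the scalar;   `kout kin ke` and (H3) (H4a) (H4b) for `X = Q` (`false`) and `X = V` (`true`) -/
structure PvtyLocU {τ : Type} {c : ℝ} (N : PvtyNum τ c) (Pr : ℝ → PvUp Ω) (rims : Ω → Set PvbRim) (x : ℂ) (R : ℝ) where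
  pins : ℕ → ℝ → Ω → PvbRim → Set (PvbPin τ)
  U : ℕ → ℝ → ℂ → τ → Set Ω
  kout : Bool → ℕ → ℝ → ℂ → τ → Ω → ℂ
  kin : Bool → ℕ → ℝ → ℂ → τ → Ω → ℂ
  ke : Bool → ℕ → ℝ → ℂ → τ → Ω → ℂ
  Pat : ℕ → Type
  Pat_fin : ∀ m, Finite (Pat m)
  pat : ∀ m, Pat m → PvtsPat τ
  pat_ok : ∀ m π, (N.Γ m).Ok (pat m π)
  Fit : ∀ m : ℕ, ℝ → Ω → PvbRim → PvbPin τ → PvbPin τ → Pat m → Prop
  fit_s : ∀ m ε o P s t π, Fit m ε o P s t π → s.ctr = (pat m π).zs ∧ s.typ = (pat m π).ts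
  fit_t : ∀ m ε o P s t π, Fit m ε o P s t π → t.ctr = (pat m π).zt ∧ t.typ = (pat m π).tt
  fit_U : ∀ m ε o P s t π, Fit m ε o P s t π → o ∈ U m ε t.ctr t.typ
  /-- (H1) -/
  pinsOK : PvhbOrd (fun m ε => ((Pr ε).P {o | ¬ ∀ P ∈ rims o,
    (∀ s ∈ pins m ε o P, PvbIsPin N.𝔐 (N.h m) P s ∧ ∃ p : ℤ × ℤ, s.ctr = l9Pt (N.h m) p) ∧
    (∀ i i', i ≤ i' → i' ≤ P.len → (∀ k, i ≤ k → k ≤ i' → ‖P.v k - x‖ ≤ 2 * R) → N.r m ≤ ‖P.v i' - P.v i‖ → ∃ s ∈ pins m ε o P, i ≤ s.idx ∧ s.idx ≤ i')}).toReal)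
  /-- (H2) -/
  cover : PvhbOrd (fun m ε => ((Pr ε).P {o | ¬ ∀ P ∈ rims o, ∀ s ∈ pins m ε o P, ∀ t ∈ pins m ε o P, s.idx < t.idx →
    (∀ k, s.idx ≤ k → k ≤ t.idx → ‖P.v k - x‖ ≤ 2 * R) → R / 3 ≤ ‖s.ctr - t.ctr‖ → ∃ π : Pat m, Fit m ε o P s t π}).toReal)
  /-- (H3) for each of the two fields -/
  n1 : ∀ (X : Bool) (m : ℕ) (π : Pat m) (u : ℝ), 0 < u → Tendsto (fun ε => ((Pr ε).P {o | ∃ P ∈ rims o, ∃ s ∈ pins m ε o P, ∃ t ∈ pins m ε o P, Fit m ε o P s t π ∧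
    u < ‖pvbArcI N.𝔐 (N.h m) P (pvtyX X P) s t +
      (kout X m ε t.ctr t.typ o + pvtSum (N.W X m ε) ((N.Γ m).dout (pat m π).tt) (pat m π).l + kin X m ε s.ctr s.typ o)‖}).toReal) (𝓝[>] (0 : ℝ)) (𝓝 0)
  /-- (H4a) for each of the two fields -/
  cyc1 : ∀ (X : Bool) (m : ℕ) (p : ℤ × ℤ) (t : τ), ‖l9Pt (N.h m) p - x‖ ≤ 2 * R → Tendsto (fun ε => (Pr ε).E ((U m ε (l9Pt (N.h m) p) t).indicator fun o =>
    ‖kout X m ε (l9Pt (N.h m) p) t o + pvtSum (N.W X m ε) ((N.Γ m).dout t) ((N.Γ m).l1 t) + N.kin0 X m ε + ke X m ε (l9Pt (N.h m) p) t o‖ₑ ^ 2)) (𝓝[>] (0 : ℝ)) (𝓝 0)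
  /-- (H4b) for each of the two fields -/
  Ce : ℝ
  thick : ∀ (X : Bool) (m : ℕ) (p : ℤ × ℤ) (t : τ), ‖l9Pt (N.h m) p - x‖ ≤ 2 * R → ∀ᶠ ε in 𝓝[>] (0 : ℝ),
    (Pr ε).E ((U m ε (l9Pt (N.h m) p) t).indicator fun o => ‖ke X m ε (l9Pt (N.h m) p) t o‖ₑ ^ 2) ≤ ENNReal.ofReal (Ce * N.h m ^ 2)

namespace PvtyLocU

variable {τ : Type} {c : ℝ} {N : PvtyNum τ c} {Pr : ℝ → PvUp Ω} {rims : Ω → Set PvbRim} {x : ℂ} {R : ℝ} (L : PvtyLocU N Pr rims x R)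

/-- the `N1` defect of the field `X` -/
noncomputable def dN1 (X : Bool) (m : ℕ) (ε : ℝ) (π : L.Pat m) (o : Ω) (P : PvbRim) (s t : PvbPin τ) : ℂ :=
  pvbArcI N.𝔐 (N.h m) P (pvtyX X P) s t +
    (L.kout X m ε t.ctr t.typ o + pvtSum (N.W X m ε) ((N.Γ m).dout (L.pat m π).tt) (L.pat m π).l + L.kin X m ε s.ctr s.typ o)

/-- the `Σ₁` cycle mean of the field `X` -/
noncomputable def dC1 (X : Bool) (m : ℕ) (ε : ℝ) (z : ℂ) (t : τ) (o : Ω) : ℂ :=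
  L.kout X m ε z t o + pvtSum (N.W X m ε) ((N.Γ m).dout t) ((N.Γ m).l1 t) + N.kin0 X m ε + L.ke X m ε z t o

theorem dN1_lin (a : ℂ) (m : ℕ) (ε : ℝ) (π : L.Pat m) (o : Ω) (P : PvbRim) (s t : PvbPin τ) :
    pvbArcI N.𝔐 (N.h m) P (fun k => P.xQ k - a * P.xV k) s t +
      ((L.kout false m ε t.ctr t.typ o - a * L.kout true m ε t.ctr t.typ o)
        + pvtSum ((N.W false m ε).lin (N.W true m ε) a) ((N.Γ m).dout (L.pat m π).tt) (L.pat m π).l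
        + (L.kin false m ε s.ctr s.typ o - a * L.kin true m ε s.ctr s.typ o))
      = L.dN1 false m ε π o P s t - a * L.dN1 true m ε π o P s t := by
  rw [pvty_arcI_lin, pvty_lin_sum, dN1, dN1, pvty_X_false, pvty_X_true]
  ring

theorem dC1_lin (a : ℂ) (m : ℕ) (ε : ℝ) (z : ℂ) (t : τ) (o : Ω) :
    (L.kout false m ε z t o - a * L.kout true m ε z t o) + pvtSum ((N.W false m ε).lin (N.W true m ε) a) ((N.Γ m).dout t) ((N.Γ m).l1 t)
        + (N.kin0 false m ε - a * N.kin0 true m ε) + (L.ke false m ε z t o - a * L.ke true m ε z t o)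
      = L.dC1 false m ε z t o - a * L.dC1 true m ε z t o := by
  rw [pvty_lin_sum, dC1, dC1]
  ring

theorem n1Y (a : ℂ) (m : ℕ) (π : L.Pat m) (u : ℝ) (hu : 0 < u) :
    Tendsto (fun ε => ((Pr ε).P {o | ∃ P ∈ rims o, ∃ s ∈ L.pins m ε o P, ∃ t ∈ L.pins m ε o P, L.Fit m ε o P s t π ∧
      u < ‖pvbArcI N.𝔐 (N.h m) P (fun k => P.xQ k - a * P.xV k) s t +
        ((L.kout false m ε t.ctr t.typ o - a * L.kout true m ε t.ctr t.typ o)
          + pvtSum ((N.W false m ε).lin (N.W true m ε) a) ((N.Γ m).dout (L.pat m π).tt) (L.pat m π).l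
          + (L.kin false m ε s.ctr s.typ o - a * L.kin true m ε s.ctr s.typ o))‖}).toReal) (𝓝[>] (0 : ℝ)) (𝓝 0) := by
  refine pvty_up_tendsto_union Pr (fun ε => ?_) (L.n1 false m π (u / 2) (by positivity)) (L.n1 true m π (u / (2 * (‖a‖ + 1))) (by positivity))
  rintro o ⟨P, hP, s, hs, t, ht, hF, hlt⟩
  rw [L.dN1_lin] at hlt
  rcases pvty_split hlt with h | h
  · exact Or.inl ⟨P, hP, s, hs, t, ht, hF, h⟩
  · exact Or.inr ⟨P, hP, s, hs, t, ht, hF, h⟩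

theorem cyc1Y (a : ℂ) (m : ℕ) (p : ℤ × ℤ) (t : τ) (hp : ‖l9Pt (N.h m) p - x‖ ≤ 2 * R) :
    Tendsto (fun ε => (Pr ε).E ((L.U m ε (l9Pt (N.h m) p) t).indicator fun o =>
      ‖(L.kout false m ε (l9Pt (N.h m) p) t o - a * L.kout true m ε (l9Pt (N.h m) p) t o)
        + pvtSum ((N.W false m ε).lin (N.W true m ε) a) ((N.Γ m).dout t) ((N.Γ m).l1 t)
        + (N.kin0 false m ε - a * N.kin0 true m ε)
        + (L.ke false m ε (l9Pt (N.h m) p) t o - a * L.ke true m ε (l9Pt (N.h m) p) t o)‖ₑ ^ 2)) (𝓝[>] (0 : ℝ)) (𝓝 0) := by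
  simp only [L.dC1_lin]
  exact pvty_up_tendsto_sq Pr (fun ε => L.U m ε (l9Pt (N.h m) p) t) (fun ε => L.dC1 false m ε (l9Pt (N.h m) p) t)
    (fun ε => L.dC1 true m ε (l9Pt (N.h m) p) t) a (L.cyc1 false m p t hp) (L.cyc1 true m p t hp)

theorem thickY (a : ℂ) (ha : ‖a‖ ≤ N.CA) (m : ℕ) (p : ℤ × ℤ) (t : τ) (hp : ‖l9Pt (N.h m) p - x‖ ≤ 2 * R) : ∀ᶠ ε in 𝓝[>] (0 : ℝ),
    (Pr ε).E ((L.U m ε (l9Pt (N.h m) p) t).indicator fun o => ‖L.ke false m ε (l9Pt (N.h m) p) t o - a * L.ke true m ε (l9Pt (N.h m) p) t o‖ₑ ^ 2)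
      ≤ ENNReal.ofReal (2 * (1 + N.CA ^ 2) * |L.Ce| * N.h m ^ 2) := by
  filter_upwards [L.thick false m p t hp, L.thick true m p t hp] with ε h1 h2
  exact pvty_up_bound_sq _ _ _ _ ha (sq_nonneg _) h1 h2

/-- **THE LINEARITY LAYER OVER UPPER EXPECTATIONS** -/
noncomputable def toHub : PvhbLocU N.toHub Pr rims x R where
  pins := L.pins
  U := L.U
  kout := fun m ε a z t o => L.kout false m ε z t o - a * L.kout true m ε z t o
  kin := fun m ε a z t o => L.kin false m ε z t o - a * L.kin true m ε z t o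
  ke := fun m ε a z t o => L.ke false m ε z t o - a * L.ke true m ε z t o
  Pat := L.Pat
  Pat_fin := L.Pat_fin
  pat := L.pat
  pat_ok := L.pat_ok
  Fit := L.Fit
  fit_s := L.fit_s
  fit_t := L.fit_t
  fit_U := L.fit_U
  pinsOK := L.pinsOK
  cover := L.cover
  n1 := L.n1Y
  cyc1 := L.cyc1Y
  Ce := 2 * (1 + N.CA ^ 2) * |L.Ce|
  thick := L.thickY

end PvtyLocU

end up

theorem pvty_eqns_cite3 : True := by
  have := @PvtyLocU.dN1.eq_1; have := @PvtyLocU.dC1.eq_1; have := @PvtyLocU.toHub.eq_1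
  trivial

/-! ## 9. THE FIELD `V` NEEDS NO ENGINE: `Q`-only records + the exact `V` identity (A4)

`xV k = v (k+1) - v k` telescopes: `I_V(P;s,t) = c(t) - c(s)`, `c(p) = ctr p + Φ^V(p)` (`pvdc_V`, `pvdc_V_enc` of 195, `Tr/Dict.lean`).      The records of sec. 4, 8 ask NOTHING which ties `W^V kout^V kin^V ke^V kin0^V` to conditional means:
they may be CHOSEN.      With `W^V := δ · mid` (`a = δ`, `k = 0`, `rel = 0`), `kout^V := z + p_out - c`, `kin^V := c - z - p_in`, `kin0^V := - p_in0 + kV`, `ke^V := c - z - z_u - kV`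
the defect of (H3) is `I_V - (c(t) - c(s))`, the `Σ₁` cycle mean of (H4a) is `0` IDENTICALLY, and (H4b) is the `L²` bound of `c - z - z_u - kV`.
`kV m ε` = a FREE CONSTANT (hostile reading of 163, 234: the mass BEFORE the pin is a HALF mass, no deterministic mask, so `c - z` is not bounded by I.BES in the cut-off disc;   what the tools give is `c(σ_t) - c(σ_u) = X^V` of the thick link
`u → t`, `O(h)` in `L²` by the proof of `thick` for the weight `side`;   `kV` := mean of `c - z_u` of the reference plug: NOBODY BOUNDS IT, the common constant `c₀` of the spine absorbs it into `β`).      `kV` is GLOBAL (no ball): a parameter of the records.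
So: NO cell means of `V`, NO TR28 (i), NO scalar.      The wall owes the engine for `Q` alone. -/

/-- the virtual cell means of `V` : `w τ = δ τ.mid` -/
noncomputable def pvtyWV (δ : ℂ) : PvtW := ⟨δ, δ * ((1 + Complex.I) / 2), δ * ((1 - Complex.I) / 2)⟩

theorem pvty_WV_a (δ : ℂ) : (pvtyWV δ).a = δ := rfl

theorem pvty_WV_w (δ : ℂ) (τ : PvtTurn) : (pvtyWV δ).w τ = δ * τ.mid := by
  cases τ
  · simp [PvtW.w, pvtyWV, PvtTurn.mid]
  · rfl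
  · rfl

theorem pvty_WV_sum (δ d : ℂ) (l : List PvtTurn) : pvtSum (pvtyWV δ) d l = δ * pvtDisp d l := by
  unfold pvtSum pvtDisp
  rw [pvtAcc_congr (pvty_WV_w δ), pvtAcc_const_mul]

theorem pvty_WV_rel (δ : ℂ) : (pvtyWV δ).rel = 0 := by
  simp only [PvtW.rel, pvtyWV]
  linear_combination (-(δ / 2)) * Complex.I_sq

theorem pvty_WV_k (δ : ℂ) : (pvtyWV δ).k = 0 := by
  simp only [PvtW.k, pvtyWV]
  linear_combination (δ / 4) * Complex.I_sq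

/-- **THE NUMBERS OF THE WALL, `Q` ONLY** -/
structure PvtyNumQ (τ : Type) (c : ℝ) where
  𝔐 : PvbMenu τ
  h : ℕ → ℝ
  r : ℕ → ℝ
  h0 : ∀ m, 0 < h m
  h_lim : Tendsto h atTop (𝓝 0)
  r_lim : Tendsto r atTop (𝓝 0)
  Lh_r : ∀ᶠ m in atTop, 4 * 𝔐.L * h m ≤ r m
  lim2 : Tendsto (fun m => r m * h m ^ (-1 + c / 2)) atTop (𝓝 0)
  Γ : ℕ → PvtsGeo τ
  /-- the three cell means of `Q` at level `m`, mesh `ε` (TR25) -/
  W : ℕ → ℝ → PvtW
  /-- the constant of the reference plug for `Q` -/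
  kin0 : ℕ → ℝ → ℂ
  CA : ℝ
  /-- TR28 (ii) -/
  a_bdd : ∀ m, ∀ᶠ ε in 𝓝[>] (0 : ℝ), ‖(Γ m).a (W m ε)‖ ≤ CA
  /-- TR27 (hexagon) -/
  rel_lim : ∀ m, Tendsto (fun ε => (W m ε).rel) (𝓝[>] (0 : ℝ)) (𝓝 0)

/-- the two-field numbers with the virtual `V` and the free constant `kV` -/
noncomputable def PvtyNumQ.toNum {τ : Type} {c : ℝ} (N : PvtyNumQ τ c) (kV : ℕ → ℝ → ℂ) : PvtyNum τ c where
  𝔐 := N.𝔐
  h := N.h
  r := N.r
  h0 := N.h0
  h_lim := N.h_lim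
  r_lim := N.r_lim
  Lh_r := N.Lh_r
  lim2 := N.lim2
  Γ := N.Γ
  W := fun X m ε => cond X (pvtyWV ((N.Γ m).δ : ℂ)) (N.W m ε)
  kin0 := fun X m ε => cond X (- (N.Γ m).pin0 + kV m ε) (N.kin0 m ε)
  CA := N.CA
  aQ_bdd := N.a_bdd
  aV_one := fun _ => Eventually.of_forall fun _ => rfl
  rel_lim := fun X m => by
    cases X
    · exact N.rel_lim m
    · simp only [cond_true, pvty_WV_rel]
      exact tendsto_const_nhds

section vfree

variable {Ω : Type}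

/-- **THE EXITS OF CHAPTERS A-E, `Q` ONLY, + (A4)** over upper expectations -/
structure PvtyLocQ {τ : Type} {c : ℝ} (N : PvtyNumQ τ c) (kV : ℕ → ℝ → ℂ) (Pr : ℝ → PvUp Ω) (rims : Ω → Set PvbRim) (x : ℂ) (R : ℝ) where
  pins : ℕ → ℝ → Ω → PvbRim → Set (PvbPin τ)
  U : ℕ → ℝ → ℂ → τ → Set Ω
  /-- `κ_out`, `κ_in`, mean of the thick short link of the field `Q`:   arguments `m ε z t ω` -/
  kout : ℕ → ℝ → ℂ → τ → Ω → ℂ
  kin : ℕ → ℝ → ℂ → τ → Ω → ℂ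
  ke : ℕ → ℝ → ℂ → τ → Ω → ℂ
  Pat : ℕ → Type
  Pat_fin : ∀ m, Finite (Pat m)
  pat : ∀ m, Pat m → PvtsPat τ
  pat_ok : ∀ m π, (N.Γ m).Ok (pat m π)
  Fit : ∀ m : ℕ, ℝ → Ω → PvbRim → PvbPin τ → PvbPin τ → Pat m → Prop
  fit_s : ∀ m ε o P s t π, Fit m ε o P s t π → s.ctr = (pat m π).zs ∧ s.typ = (pat m π).ts
  fit_t : ∀ m ε o P s t π, Fit m ε o P s t π → t.ctr = (pat m π).zt ∧ t.typ = (pat m π).tt
  fit_U : ∀ m ε o P s t π, Fit m ε o P s t π → o ∈ U m ε t.ctr t.typ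
  /-- (H1) -/
  pinsOK : PvhbOrd (fun m ε => ((Pr ε).P {o | ¬ ∀ P ∈ rims o,
    (∀ s ∈ pins m ε o P, PvbIsPin N.𝔐 (N.h m) P s ∧ ∃ p : ℤ × ℤ, s.ctr = l9Pt (N.h m) p) ∧
    (∀ i i', i ≤ i' → i' ≤ P.len → (∀ k, i ≤ k → k ≤ i' → ‖P.v k - x‖ ≤ 2 * R) → N.r m ≤ ‖P.v i' - P.v i‖ → ∃ s ∈ pins m ε o P, i ≤ s.idx ∧ s.idx ≤ i')}).toReal)
  /-- (H2) -/
  cover : PvhbOrd (fun m ε => ((Pr ε).P {o | ¬ ∀ P ∈ rims o, ∀ s ∈ pins m ε o P, ∀ t ∈ pins m ε o P, s.idx < t.idx →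
    (∀ k, s.idx ≤ k → k ≤ t.idx → ‖P.v k - x‖ ≤ 2 * R) → R / 3 ≤ ‖s.ctr - t.ctr‖ → ∃ π : Pat m, Fit m ε o P s t π}).toReal)
  /-- (H3) for `Q` -/
  n1 : ∀ (m : ℕ) (π : Pat m) (u : ℝ), 0 < u → Tendsto (fun ε => ((Pr ε).P {o | ∃ P ∈ rims o, ∃ s ∈ pins m ε o P, ∃ t ∈ pins m ε o P, Fit m ε o P s t π ∧
    u < ‖pvbArcI N.𝔐 (N.h m) P P.xQ s t +
      (kout m ε t.ctr t.typ o + pvtSum (N.W m ε) ((N.Γ m).dout (pat m π).tt) (pat m π).l + kin m ε s.ctr s.typ o)‖}).toReal) (𝓝[>] (0 : ℝ)) (𝓝 0)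
  /-- (H4a) for `Q` -/
  cyc1 : ∀ (m : ℕ) (p : ℤ × ℤ) (t : τ), ‖l9Pt (N.h m) p - x‖ ≤ 2 * R → Tendsto (fun ε => (Pr ε).E ((U m ε (l9Pt (N.h m) p) t).indicator fun o =>
    ‖kout m ε (l9Pt (N.h m) p) t o + pvtSum (N.W m ε) ((N.Γ m).dout t) ((N.Γ m).l1 t) + N.kin0 m ε + ke m ε (l9Pt (N.h m) p) t o‖ₑ ^ 2)) (𝓝[>] (0 : ℝ)) (𝓝 0)
  /-- (H4b) for `Q` -/
  Ce : ℝ
  thick : ∀ (m : ℕ) (p : ℤ × ℤ) (t : τ), ‖l9Pt (N.h m) p - x‖ ≤ 2 * R → ∀ᶠ ε in 𝓝[>] (0 : ℝ),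
    (Pr ε).E ((U m ε (l9Pt (N.h m) p) t).indicator fun o => ‖ke m ε (l9Pt (N.h m) p) t o‖ₑ ^ 2) ≤ ENNReal.ofReal (Ce * N.h m ^ 2)
  /-- the CUT POINT of the candidate `(z,t)`: `c = ctr + Φ^V` = (marked vertex) − (`V`-mass of the cut-off disc before the pin), a function of the state -/
  cV : ℕ → ℝ → ℂ → τ → Ω → ℂ
  /-- (A4): `I_V(P;s,t) = c(t) - c(s)` for the arcs which fit a pattern (exact in the model: `pvdc_V_enc`; asked only in probability) -/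
  tel : ∀ (m : ℕ) (π : Pat m) (u : ℝ), 0 < u → Tendsto (fun ε => ((Pr ε).P {o | ∃ P ∈ rims o, ∃ s ∈ pins m ε o P, ∃ t ∈ pins m ε o P, Fit m ε o P s t π ∧
    u < ‖pvbArcI N.𝔐 (N.h m) P P.xV s t - (cV m ε t.ctr t.typ o - cV m ε s.ctr s.typ o)‖}).toReal) (𝓝[>] (0 : ℝ)) (𝓝 0)
  /-- `thick` for the weight `side` (TR5 + I.BES + masks), up to the free constant `kV m ε` -/
  CV : ℝ
  cV_L2 : ∀ (m : ℕ) (p : ℤ × ℤ) (t : τ), ‖l9Pt (N.h m) p - x‖ ≤ 2 * R → ∀ᶠ ε in 𝓝[>] (0 : ℝ),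
    (Pr ε).E ((U m ε (l9Pt (N.h m) p) t).indicator fun o => ‖cV m ε (l9Pt (N.h m) p) t o - l9Pt (N.h m) p - (N.Γ m).zu t - kV m ε‖ₑ ^ 2) ≤ ENNReal.ofReal (CV * N.h m ^ 2)

namespace PvtyLocQ

variable {τ : Type} {c : ℝ} {N : PvtyNumQ τ c} {kV : ℕ → ℝ → ℂ} {Pr : ℝ → PvUp Ω} {rims : Ω → Set PvbRim} {x : ℂ} {R : ℝ} (L : PvtyLocQ N kV Pr rims x R)

/-- the defect of (H3) for the virtual `V` is the defect of (A4) -/
theorem n1V_eq {m : ℕ} {ε : ℝ} {o : Ω} {P : PvbRim} {s t : PvbPin τ} {π : L.Pat m} (hF : L.Fit m ε o P s t π) (J : ℂ) :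
    J + ((t.ctr + (N.Γ m).pout t.typ - L.cV m ε t.ctr t.typ o) + pvtSum (pvtyWV ((N.Γ m).δ : ℂ)) ((N.Γ m).dout (L.pat m π).tt) (L.pat m π).l
      + (L.cV m ε s.ctr s.typ o - s.ctr - (N.Γ m).pin s.typ)) = J - (L.cV m ε t.ctr t.typ o - L.cV m ε s.ctr s.typ o) := by
  obtain ⟨hs1, hs2⟩ := L.fit_s m ε o P s t π hF
  obtain ⟨ht1, ht2⟩ := L.fit_t m ε o P s t π hF
  rw [pvty_WV_sum, (L.pat_ok m π).1, ← hs1, ← hs2, ← ht1, ← ht2]
  ring

/-- the `Σ₁` cycle mean of the virtual `V` vanishes identically -/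
theorem cyc1V_eq (m : ℕ) (ε : ℝ) (z : ℂ) (t : τ) (o : Ω) :
    (z + (N.Γ m).pout t - L.cV m ε z t o) + pvtSum (pvtyWV ((N.Γ m).δ : ℂ)) ((N.Γ m).dout t) ((N.Γ m).l1 t) + (- (N.Γ m).pin0 + kV m ε)
      + (L.cV m ε z t o - z - (N.Γ m).zu t - kV m ε) = 0 := by
  rw [pvty_WV_sum, (N.Γ m).l1_disp t]
  ring

/-- **`V` FOR FREE**: the two-field record -/
noncomputable def toLocU : PvtyLocU (N.toNum kV) Pr rims x R where
  pins := L.pins
  U := L.U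
  kout := fun X m ε z t o => cond X (z + (N.Γ m).pout t - L.cV m ε z t o) (L.kout m ε z t o)
  kin := fun X m ε z t o => cond X (L.cV m ε z t o - z - (N.Γ m).pin t) (L.kin m ε z t o)
  ke := fun X m ε z t o => cond X (L.cV m ε z t o - z - (N.Γ m).zu t - kV m ε) (L.ke m ε z t o)
  Pat := L.Pat
  Pat_fin := L.Pat_fin
  pat := L.pat
  pat_ok := L.pat_ok
  Fit := L.Fit
  fit_s := L.fit_s
  fit_t := L.fit_t
  fit_U := L.fit_U
  pinsOK := L.pinsOK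
  cover := L.cover
  n1 := fun X m π u hu => by
    cases X
    · exact L.n1 m π u hu
    · refine squeeze_zero (fun ε => ENNReal.toReal_nonneg) (fun ε => ?_) (L.tel m π u hu)
      refine ENNReal.toReal_mono ((Pr ε).P_ne_top _) ((Pr ε).P_mono ?_)
      rintro o ⟨P, hP, s, hs, t, ht, hF, hlt⟩
      refine ⟨P, hP, s, hs, t, ht, hF, ?_⟩
      rw [← L.n1V_eq hF]
      exact hlt
  cyc1 := fun X m p t hp => by
    cases X
    · exact L.cyc1 m p t hp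
    · have e : ∀ ε : ℝ, (Pr ε).E ((L.U m ε (l9Pt (N.h m) p) t).indicator fun o =>
          ‖(l9Pt (N.h m) p + (N.Γ m).pout t - L.cV m ε (l9Pt (N.h m) p) t o) + pvtSum (pvtyWV ((N.Γ m).δ : ℂ)) ((N.Γ m).dout t) ((N.Γ m).l1 t) + (- (N.Γ m).pin0 + kV m ε)
            + (L.cV m ε (l9Pt (N.h m) p) t o - l9Pt (N.h m) p - (N.Γ m).zu t - kV m ε)‖ₑ ^ 2) = 0 := by
        intro ε
        simp only [L.cyc1V_eq, enorm_zero, ne_eq, OfNat.ofNat_ne_zero, not_false_eq_true, zero_pow, indicator_zero]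
        exact (Pr ε).E_zero
      exact (tendsto_const_nhds (x := (0 : ℝ≥0∞))).congr fun ε => (e ε).symm
  Ce := max L.Ce L.CV
  thick := fun X m p t hp => by
    have hh : 0 ≤ N.h m ^ 2 := sq_nonneg _
    cases X
    · exact (L.thick m p t hp).mono fun ε hε => hε.trans (ENNReal.ofReal_le_ofReal (mul_le_mul_of_nonneg_right (le_max_left _ _) hh))
    · exact (L.cV_L2 m p t hp).mono fun ε hε => hε.trans (ENNReal.ofReal_le_ofReal (mul_le_mul_of_nonneg_right (le_max_right _ _) hh))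

/-- **the record of the hub from `Q` alone** -/
noncomputable def toHub : PvhbLocU (N.toNum kV).toHub Pr rims x R := L.toLocU.toHub

end PvtyLocQ

end vfree

theorem pvty_eqns_cite4 : True := by
  have := @pvtyWV.eq_1; have := @PvtyNumQ.toNum.eq_1; have := @PvtyLocQ.toLocU.eq_1; have := @PvtyLocQ.toHub.eq_1
  trivial

/-! ## 10. the exits of the wall from the plain two-level space -/

/-- **EXIT OF THE WALL, two-field form, over `pvhbUp`** (same shape as `pvhb_exit_up`) -/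
theorem pvty_exit_up {c : ℝ} (c0 : 0 < c) (τ : Type) [Fintype τ] [Nonempty τ] (N : PvtyNum τ c)
    (H : ∀ (x : ℂ) (R : ℝ), 0 < R → Nonempty (PvtyLocU N pvhbUp (fun q => pvhbAll x R (pvMerge q)) x R)) : L9ExitTR c :=
  pvhb_exit_up c0 τ N.toHub fun x R hR => by
    obtain ⟨L⟩ := H x R hR
    exact ⟨L.toHub⟩

/-- **EXIT OF THE WALL FROM `Q` ALONE + (A4)** -/
theorem pvty_exit_Q {c : ℝ} (c0 : 0 < c) (τ : Type) [Fintype τ] [Nonempty τ] (N : PvtyNumQ τ c) (kV : ℕ → ℝ → ℂ)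
    (H : ∀ (x : ℂ) (R : ℝ), 0 < R → Nonempty (PvtyLocQ N kV pvhbUp (fun q => pvhbAll x R (pvMerge q)) x R)) : L9ExitTR c :=
  pvhb_exit_up c0 τ (N.toNum kV).toHub fun x R hR => by
    obtain ⟨L⟩ := H x R hR
    exact ⟨L.toHub⟩

/-! ## 11. adapters: statements typed "for all `a`" give the `Q` fields at `a := 0` (request of 73, RULING H2) -/

/-- the numbers of `Q` from the numbers of `y_a` at `a = 0` -/
noncomputable def PvhbNum.toQ {τ : Type} {c : ℝ} (N : PvhbNum τ c) : PvtyNumQ τ c where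
  𝔐 := N.𝔐
  h := N.h
  r := N.r
  h0 := N.h0
  h_lim := N.h_lim
  r_lim := N.r_lim
  Lh_r := N.Lh_r
  lim2 := N.lim2
  Γ := N.Γ
  W := fun m ε => N.W m ε 0
  kin0 := fun m ε => N.kin0 m ε 0
  CA := N.CA
  a_bdd := fun m => by
    filter_upwards [N.cell_a m, N.A_bdd m] with ε h1 h2
    rw [h1 0, sub_zero]
    exact h2
  rel_lim := fun m => N.rel_lim m 0

theorem pvty_CA_nonneg {τ : Type} {c : ℝ} (N : PvhbNum τ c) : 0 ≤ N.CA := by
  obtain ⟨ε, hε⟩ := (N.A_bdd 0).exists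
  exact (norm_nonneg _).trans hε

/-- the record of `Q` from the record of `y_a` at `a = 0` and the three `V` fields -/
noncomputable def PvhbLocU.toQ {Ω : Type} {τ : Type} {c : ℝ} {N : PvhbNum τ c} {Pr : ℝ → PvUp Ω} {rims : Ω → Set PvbRim} {x : ℂ} {R : ℝ} (L : PvhbLocU N Pr rims x R)
    (kV : ℕ → ℝ → ℂ) (cV : ℕ → ℝ → ℂ → τ → Ω → ℂ)
    (tel : ∀ (m : ℕ) (π : L.Pat m) (u : ℝ), 0 < u → Tendsto (fun ε => ((Pr ε).P {o | ∃ P ∈ rims o, ∃ s ∈ L.pins m ε o P, ∃ t ∈ L.pins m ε o P, L.Fit m ε o P s t π ∧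
      u < ‖pvbArcI N.𝔐 (N.h m) P P.xV s t - (cV m ε t.ctr t.typ o - cV m ε s.ctr s.typ o)‖}).toReal) (𝓝[>] (0 : ℝ)) (𝓝 0))
    (CV : ℝ)
    (cV_L2 : ∀ (m : ℕ) (p : ℤ × ℤ) (t : τ), ‖l9Pt (N.h m) p - x‖ ≤ 2 * R → ∀ᶠ ε in 𝓝[>] (0 : ℝ),
      (Pr ε).E ((L.U m ε (l9Pt (N.h m) p) t).indicator fun o => ‖cV m ε (l9Pt (N.h m) p) t o - l9Pt (N.h m) p - (N.Γ m).zu t - kV m ε‖ₑ ^ 2) ≤ ENNReal.ofReal (CV * N.h m ^ 2)) :
    PvtyLocQ N.toQ kV Pr rims x R where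
  pins := L.pins
  U := L.U
  kout := fun m ε => L.kout m ε 0
  kin := fun m ε => L.kin m ε 0
  ke := fun m ε => L.ke m ε 0
  Pat := L.Pat
  Pat_fin := L.Pat_fin
  pat := L.pat
  pat_ok := L.pat_ok
  Fit := L.Fit
  fit_s := L.fit_s
  fit_t := L.fit_t
  fit_U := L.fit_U
  pinsOK := L.pinsOK
  cover := L.cover
  n1 := fun m π u hu => by
    have h := L.n1 0 m π u hu
    simp only [zero_mul, sub_zero] at h
    exact h
  cyc1 := fun m p t hp => L.cyc1 0 m p t hp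
  Ce := L.Ce
  thick := fun m p t hp => L.thick 0 (by rw [norm_zero]; exact pvty_CA_nonneg N) m p t hp
  cV := cV
  tel := tel
  CV := CV
  cV_L2 := cV_L2

theorem pvty_eqns_cite5 : True := by
  have := @PvhbNum.toQ.eq_1; have := @PvhbLocU.toQ.eq_1
  trivial

end Claimed.Agent.R289
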