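import Claimed.Agent.R289.Tr.CellChain
import Claimed.Agent.R289.Tr.CellV
import Claimed.Agent.R289.Tr.Hub
import Claimed.Agent.R289.Tr.Lim
import Claimed.Agent.R289.Tr.Lin

/-!
# Row 289 (S0537), THE WALL, chapter E (cells), file Tr/CellNum : THE EXIT OF CHAPTER E = the fields `W A CA A_bdd cell_a rel_lim` of `PvhbNum` (`Tr/Hub.lean`, 73)      (helper52; prefix `pvcn_`, `Pvcn`)

INPUT: 251's placed cell kit (`PvthKit`, `Tr/CellHex.lean`), 166's geometry (`PvccKitRef`, `Tr/CellChain.lean`), two fields `XQ`, `XV` on the kit, and the NAMED MODEL HYPOTHESES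
* (B)  Bessel on the hexagon loop:  `∫ |X_j|² 1_Ev ≤ B` for the 8 cells of HEX, `X = Q, V`      [TR13 + TR14 + I.BES; `B = C_B δ²`]
* (V)  the field `V` telescopes: `XV τ = ζ(exit plug) - ζ(entrance plug)` on `G ∩ G' ∩ A`, `ζ = f` integrable      [TR14, deterministic]
* (T)  closed-sum tail on the hexagon loop:  `∫ |Y^Q_hex|² 1_Ev → 0` as `ε ↓ 0`      [TR13 + TR14 + I.TAIL]
* forced connectors + admitted plug with constants `β'`, `q` UNIFORM in `(m, ε)`      [TR21 (a), TR22 + scaling `pvci_P_aff`, `pvci_measure_aff`]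
OUTPUT, for the field of record `y_a = XQ - a XV`, `a : ℂ` ARBITRARY:
* `pvcn_k_sub`, `pvcn_W_a`, `pvcn_W_rel`      the cell constants are LINEAR in the field
* `pvcn_WV`      `W^V = pvczW δ f̄`, so `α^V = δ`, `rel^V = 0` EXACTLY
* **`PvcnFam.cell_a`**      `(W m ε a).a / δ_m = A m ε - a`            * **`PvcnFam.A_bdd`**      `‖A m ε‖ ≤ CA`, `CA = sqrt((β' q)^{-8} C_B)`            * **`PvcnFam.rel_lim`**      `(W m ε a).rel → 0`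
-/

set_option autoImplicit false
set_option linter.unusedSectionVars false

namespace Claimed.Agent.R289

open MeasureTheory ProbabilityTheory Set Filter Topology
open scoped ENNReal NNReal

/-- the field of record `y_a = X^Q - a X^V` -/
def pvcnY (XQ XV : PvtTurn → Conf PvPt → ℂ) (a : ℂ) (τ : PvtTurn) (η : Conf PvPt) : ℂ := XQ τ η - a * XV τ η

/-- the hexagon word `S L L R L L S L` -/
abbrev pvcnHex : List PvtTurn := pvtHex 0 0 0 0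

/-- (V): the field `V` telescopes through the cut point `f` of the door plug -/
structure PvcnV (kit : PvthKit) (ε : ℝ) (XV : PvtTurn → Conf PvPt → ℂ) (f : Conf PvPt → ℂ) : Prop where
  meas : Measurable f
  reads : Conf.Reads (kit.O 0 1) f
  int : Integrable f ((pvP ε).withDensity (kit.g (pvP ε) 0 1))
  tel : ∀ τ, ∀ η ∈ kit.G₀, η ∈ kit.G (kit.zo 0 1 τ) τ.rot → η ∈ kit.A₀ τ →
    XV τ η = (kit.zo 0 1 τ + τ.rot * f (cfMap (pvthInv (kit.zo 0 1 τ) τ.rot) η)) - f η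

/-- all the hypotheses on ONE kit at ONE mesh -/
structure PvcnOk (kit : PvthKit) (ε : ℝ) (XQ XV : PvtTurn → Conf PvPt → ℂ) (f : Conf PvPt → ℂ) (β' q B : ℝ≥0∞) (r : ℝ) : Prop where
  wf : kit.WF
  ref : PvccKitRef kit r
  fQ : kit.Fld XQ
  fV : kit.Fld XV
  frc : kit.Forced (pvP ε) β' q
  B_fin : B ≠ ∞
  besQ : ∀ j < 8, ∫⁻ η, ‖kit.Xj XQ 0 1 pvcnHex j η‖ₑ ^ 2 * (kit.Ev 0 1 pvcnHex).indicator 1 η ∂(pvP ε) ≤ B
  besV : ∀ j < 8, ∫⁻ η, ‖kit.Xj XV 0 1 pvcnHex j η‖ₑ ^ 2 * (kit.Ev 0 1 pvcnHex).indicator 1 η ∂(pvP ε) ≤ B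
  V : PvcnV kit ε XV f

theorem pvcn_eqns_cite : True := by
  have := @pvcnY.eq_1
  trivial

variable {kit : PvthKit} {ε : ℝ} {XQ XV X₀ : PvtTurn → Conf PvPt → ℂ} {f : Conf PvPt → ℂ} {β' q B : ℝ≥0∞} {r : ℝ}

/-! ## 1. one kit, one mesh -/

theorem pvcn_fld (hQ : kit.Fld XQ) (hV : kit.Fld XV) (a : ℂ) : kit.Fld (pvcnY XQ XV a) where
  meas τ := (hQ.meas τ).sub ((hV.meas τ).const_mul a)
  reads τ := (hQ.reads τ).map₂ (hV.reads τ) (fun x y => x - a * y)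

theorem pvcn_letter (τ : PvtTurn) : ∃ j < 8, pvthL pvcnHex j = τ := by
  cases τ
  · exact ⟨0, by norm_num, by decide⟩
  · exact ⟨1, by norm_num, by decide⟩
  · exact ⟨3, by norm_num, by decide⟩

/-- the constant `D = (β' q)^{-8}` is finite -/
theorem pvcn_D_ne_top (hF : kit.Forced (pvP ε) β' q) : ((β' * q)⁻¹) ^ 8 ≠ ∞ :=
  ENNReal.pow_ne_top (ENNReal.inv_ne_top.2 (mul_ne_zero hF.β0 hF.q0))

/-- (B) on the loop gives the second moment and the size of every cell constant -/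
theorem pvcn_bound (hk : kit.WF) (R : PvccKitRef kit r) (hX : kit.Fld X₀) (hF : kit.Forced (pvP ε) β' q)
    (hB : ∀ j < 8, ∫⁻ η, ‖kit.Xj X₀ 0 1 pvcnHex j η‖ₑ ^ 2 * (kit.Ev 0 1 pvcnHex).indicator 1 η ∂(pvP ε) ≤ B) (τ : PvtTurn) :
    ∫⁻ η, ‖X₀ τ η‖ₑ ^ 2 * kit.w2 (pvP ε) 0 1 τ η ∂(pvP ε) ≤ ((β' * q)⁻¹) ^ 8 * B ∧ ‖kit.k (pvP ε) X₀ τ‖ₑ ^ 2 ≤ ((β' * q)⁻¹) ^ 8 * B := by
  obtain ⟨j, hj, rfl⟩ := pvcn_letter τ
  have h := pvth_bound (ε := ε) hk hX hF (d := 1) (by norm_num) 0 (pvt_hex_closed 1 0 0 0 0) (by rw [pvcc_hex_length]; norm_num)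
    (pvcc_kit_disj_hex R 0 one_ne_zero) (j := j) (by rw [pvcc_hex_length]; exact hj) (hB j hj)
  rwa [pvcc_hex_length] at h

/-- the two-plug weight is a probability density -/
theorem pvcn_w2_prob (hk : kit.WF) (R : PvccKitRef kit r) (hF : kit.Forced (pvP ε) β' q) (τ : PvtTurn) :
    IsProbabilityMeasure ((pvP ε).withDensity (kit.w2 (pvP ε) 0 1 τ)) := ⟨by
  obtain ⟨hOO, hOK⟩ := pvcc_kit_cell R τ
  have hr1 : ‖τ.rot‖ = 1 := pvt_norm_rot τ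
  have hr0 : τ.rot ≠ 0 := pvt_rot_ne_zero τ
  have eOO : kit.OO 0 1 τ = kit.O 0 1 ∪ kit.O (kit.zo 0 1 τ) τ.rot := by unfold PvthKit.OO; rw [one_mul]
  rw [eOO] at hOK
  rw [withDensity_apply _ MeasurableSet.univ, Measure.restrict_univ]
  have ew2 : ∀ η, kit.w2 (pvP ε) 0 1 τ η = kit.g (pvP ε) 0 1 η * kit.g (pvP ε) (kit.zo 0 1 τ) τ.rot η * kit.w (pvP ε) 0 1 τ η := by
    intro η; unfold PvthKit.w2; rw [one_mul]
  simp_rw [ew2]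
  refine pvthx_two_mass (pv_isPpp ε) (pvth_mO hk 0 1 one_ne_zero) (pvth_mO hk (kit.zo 0 1 τ) τ.rot hr0) (pvth_mK hk 0 1 one_ne_zero τ) hOO
    (Set.disjoint_union_left.1 hOK).1 (Set.disjoint_union_left.1 hOK).2 (pvth_g_measurable hk _ 0 1) (pvth_g_measurable hk _ _ _)
    (pvth_w_measurable hk 0 1 one_ne_zero τ) (pvth_g_reads hk _ 0 1 one_ne_zero) (pvth_g_reads hk _ _ _ hr0) ?_
    (pvth_g_mass hk hF 0 1 norm_one) (pvth_g_mass hk hF _ _ hr1) ?_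
  · rw [← eOO]; exact pvth_w_reads hk _ 0 1 one_ne_zero τ
  · intro σ h1 h2
    rw [← eOO]
    refine pvth_w_norm hk hF 0 1 norm_one τ (pvth_g_ne_zero h1) ?_
    rw [one_mul]; exact pvth_g_ne_zero h2⟩

theorem pvcn_le_one_add_sq (x : ℝ≥0∞) : x ≤ 1 + x ^ 2 := by
  rcases le_total x 1 with h | h
  · exact h.trans le_self_add
  · calc x = x * 1 := (mul_one x).symm
      _ ≤ x * x := by gcongr
      _ = x ^ 2 := (sq x).symm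
      _ ≤ 1 + x ^ 2 := le_add_self

/-- a finite second moment under the two-plug weight gives integrability -/
theorem pvcn_integrable (hk : kit.WF) (R : PvccKitRef kit r) (hX : kit.Fld X₀) (hF : kit.Forced (pvP ε) β' q) (τ : PvtTurn)
    (h2 : ∫⁻ η, ‖X₀ τ η‖ₑ ^ 2 * kit.w2 (pvP ε) 0 1 τ η ∂(pvP ε) ≠ ∞) : Integrable (X₀ τ) ((pvP ε).withDensity (kit.w2 (pvP ε) 0 1 τ)) := by
  have := pvcn_w2_prob (ε := ε) hk R hF τ
  refine ⟨(hX.meas τ).aestronglyMeasurable, ?_⟩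
  unfold HasFiniteIntegral
  have e : ∫⁻ η, ‖X₀ τ η‖ₑ ^ 2 ∂((pvP ε).withDensity (kit.w2 (pvP ε) 0 1 τ)) = ∫⁻ η, ‖X₀ τ η‖ₑ ^ 2 * kit.w2 (pvP ε) 0 1 τ η ∂(pvP ε) := by
    rw [lintegral_withDensity_eq_lintegral_mul _ (pvthx_w2_meas hk τ) ((hX.meas τ).enorm.pow_const 2)]
    refine lintegral_congr fun η => ?_
    rw [Pi.mul_apply, mul_comm]
  calc ∫⁻ η, ‖X₀ τ η‖ₑ ∂((pvP ε).withDensity (kit.w2 (pvP ε) 0 1 τ))
      ≤ ∫⁻ η, (1 + ‖X₀ τ η‖ₑ ^ 2) ∂((pvP ε).withDensity (kit.w2 (pvP ε) 0 1 τ)) := lintegral_mono fun η => pvcn_le_one_add_sq _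
    _ = 1 + ∫⁻ η, ‖X₀ τ η‖ₑ ^ 2 * kit.w2 (pvP ε) 0 1 τ η ∂(pvP ε) := by
        rw [lintegral_add_left measurable_const, e]; simp
    _ < ∞ := ENNReal.add_lt_top.2 ⟨ENNReal.one_lt_top, lt_top_iff_ne_top.2 h2⟩

namespace PvcnOk

variable (H : PvcnOk kit ε XQ XV f β' q B r)
include H

theorem DB_ne_top : ((β' * q)⁻¹) ^ 8 * B ≠ ∞ := ENNReal.mul_ne_top (pvcn_D_ne_top H.frc) H.B_fin

theorem intQ (τ : PvtTurn) : Integrable (XQ τ) ((pvP ε).withDensity (kit.w2 (pvP ε) 0 1 τ)) :=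
  pvcn_integrable H.wf H.ref H.fQ H.frc τ (ne_top_of_le_ne_top H.DB_ne_top (pvcn_bound H.wf H.ref H.fQ H.frc H.besQ τ).1)

theorem intV (τ : PvtTurn) : Integrable (XV τ) ((pvP ε).withDensity (kit.w2 (pvP ε) 0 1 τ)) :=
  pvcn_integrable H.wf H.ref H.fV H.frc τ (ne_top_of_le_ne_top H.DB_ne_top (pvcn_bound H.wf H.ref H.fV H.frc H.besV τ).1)

/-- **the cell constants are linear in the field** -/
theorem k_sub (a : ℂ) (τ : PvtTurn) : kit.k (pvP ε) (pvcnY XQ XV a) τ = kit.k (pvP ε) XQ τ - a * kit.k (pvP ε) XV τ := by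
  unfold PvthKit.k pvcnY
  rw [integral_sub (H.intQ τ) ((H.intV τ).const_mul a), integral_const_mul]

/-- `W^V = pvczW δ f̄` -/
theorem WV : kit.W (pvP ε) XV = pvczW kit.δ (∫ η, f η ∂((pvP ε).withDensity (kit.g (pvP ε) 0 1))) := by
  have h : ∀ τ, kit.k (pvP ε) XV τ = kit.δ * τ.mid - (∫ η, f η ∂((pvP ε).withDensity (kit.g (pvP ε) 0 1))) * (1 - τ.rot) := fun τ =>
    pvth_V H.wf H.fV H.frc τ (pvcc_kit_cell H.ref τ).1 (pvcc_kit_cell H.ref τ).2 H.V.meas H.V.reads H.V.int (H.V.tel τ)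
  unfold PvthKit.W pvczW
  rw [h, h, h]
  simp only [PvtTurn.mid, PvtTurn.rot]
  congr 1 <;> ring

theorem W_a (a : ℂ) : (kit.W (pvP ε) (pvcnY XQ XV a)).a = (kit.W (pvP ε) XQ).a - a * kit.δ := by
  have h1 : (kit.W (pvP ε) XV).a = kit.δ := by rw [H.WV]; rfl
  show kit.k (pvP ε) (pvcnY XQ XV a) PvtTurn.S = kit.k (pvP ε) XQ PvtTurn.S - a * kit.δ
  rw [H.k_sub, ← h1]
  rfl

theorem W_rel (a : ℂ) : (kit.W (pvP ε) (pvcnY XQ XV a)).rel = (kit.W (pvP ε) XQ).rel := by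
  have h1 : (kit.W (pvP ε) XV).rel = 0 := by rw [H.WV]; exact pvcz_rel _ _
  simp only [PvtW.rel, PvthKit.W] at h1 ⊢
  rw [H.k_sub, H.k_sub, H.k_sub]
  linear_combination (-a) * h1

theorem W_k (a : ℂ) : (kit.W (pvP ε) (pvcnY XQ XV a)).k = (kit.W (pvP ε) XQ).k + a * ∫ η, f η ∂((pvP ε).withDensity (kit.g (pvP ε) 0 1)) := by
  have h1 : (kit.W (pvP ε) XV).k = -∫ η, f η ∂((pvP ε).withDensity (kit.g (pvP ε) 0 1)) := by rw [H.WV]; exact pvcz_k _ _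
  simp only [PvtW.k, PvthKit.W] at h1 ⊢
  rw [H.k_sub, H.k_sub]
  linear_combination (-a) * h1

/-- TR27 for the field of record -/
theorem rel_le (a : ℂ) {θ : ℝ≥0∞} (hθ : ∫⁻ η, ‖kit.Y XQ 0 1 pvcnHex η‖ₑ ^ 2 * (kit.Ev 0 1 pvcnHex).indicator 1 η ∂(pvP ε) ≤ θ) :
    ‖(kit.W (pvP ε) (pvcnY XQ XV a)).rel‖ₑ ^ 2 ≤ ((β' * q)⁻¹) ^ 8 * θ := by
  rw [H.W_rel]
  have h := pvth_hex (ε := ε) H.wf H.fQ H.frc 0 0 0 0 0 (pvcc_kit_disj_hex H.ref 0 one_ne_zero)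
    (fun τ => ne_top_of_le_ne_top H.DB_ne_top (pvcn_bound H.wf H.ref H.fQ H.frc H.besQ τ).1) hθ
  rwa [pvcc_hex_length] at h

end PvcnOk

/-! ## 2. the family: levels `m`, mesh `ε ↓ 0` -/

/-- **THE INPUT OF CHAPTER E**: kits, fields and cut points of all levels and meshes; constants `β'`, `q`, `C_B` UNIFORM -/
structure PvcnFam (δ : ℕ → ℝ) where
  kit : ℕ → ℝ → PvthKit
  XQ : ℕ → ℝ → PvtTurn → Conf PvPt → ℂ
  XV : ℕ → ℝ → PvtTurn → Conf PvPt → ℂ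
  f : ℕ → ℝ → Conf PvPt → ℂ
  r : ℕ → ℝ → ℝ
  β' : ℝ≥0∞
  q : ℝ≥0∞
  CB : ℝ
  CB0 : 0 ≤ CB
  kδ : ∀ m ε, (kit m ε).δ = δ m
  ok : ∀ m, ∀ᶠ ε in 𝓝[>] (0 : ℝ), PvcnOk (kit m ε) ε (XQ m ε) (XV m ε) (f m ε) β' q (ENNReal.ofReal (CB * δ m ^ 2)) (r m ε)
  /-- (T) -/
  tail : ∀ m, Tendsto (fun ε => ∫⁻ η, ‖(kit m ε).Y (XQ m ε) 0 1 pvcnHex η‖ₑ ^ 2 * ((kit m ε).Ev 0 1 pvcnHex).indicator 1 η ∂(pvP ε)) (𝓝[>] (0 : ℝ)) (𝓝 0)

namespace PvcnFam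

variable {δ : ℕ → ℝ} (F : PvcnFam δ)

/-- the three cell means of the field `y_a` at level `m`, mesh `ε` -/
noncomputable def W (m : ℕ) (ε : ℝ) (a : ℂ) : PvtW := (F.kit m ε).W (pvP ε) (pvcnY (F.XQ m ε) (F.XV m ε) a)

/-- `A m ε = α^Q / δ_m` -/
noncomputable def A (m : ℕ) (ε : ℝ) : ℂ := ((F.kit m ε).W (pvP ε) (F.XQ m ε)).a / (δ m : ℂ)

/-- the uniform bound of the scalar -/
noncomputable def CA : ℝ := Real.sqrt ((((F.β' * F.q)⁻¹) ^ 8).toReal * F.CB)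

/-- **`cell_a`** of `PvhbNum` : linearity + `α^V = δ` EXACTLY -/
theorem cell_a (m : ℕ) : ∀ᶠ ε in 𝓝[>] (0 : ℝ), ∀ a : ℂ, (F.W m ε a).a / (δ m : ℂ) = F.A m ε - a := by
  filter_upwards [F.ok m] with ε H a
  have hδ : (δ m : ℂ) ≠ 0 := by
    have := H.wf.δ0
    rw [F.kδ] at this
    exact_mod_cast this.ne'
  unfold W A
  rw [H.W_a, F.kδ]
  field_simp

/-- **`A_bdd`** of `PvhbNum` : TR28 (ii) -/
theorem A_bdd (m : ℕ) : ∀ᶠ ε in 𝓝[>] (0 : ℝ), ‖F.A m ε‖ ≤ F.CA := by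
  filter_upwards [F.ok m] with ε H
  have hδ : 0 < δ m := by
    have := H.wf.δ0
    rwa [F.kδ] at this
  have h := (pvcn_bound H.wf H.ref H.fQ H.frc H.besQ PvtTurn.S).2
  have hD := pvcn_D_ne_top H.frc
  set D : ℝ≥0∞ := ((F.β' * F.q)⁻¹) ^ 8 with hDdef
  have h1 : ‖(F.kit m ε).k (pvP ε) (F.XQ m ε) PvtTurn.S‖ ^ 2 ≤ D.toReal * (F.CB * δ m ^ 2) := by
    have h2 : ENNReal.ofReal (‖(F.kit m ε).k (pvP ε) (F.XQ m ε) PvtTurn.S‖ ^ 2) ≤ ENNReal.ofReal (D.toReal * (F.CB * δ m ^ 2)) := by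
      rw [ENNReal.ofReal_pow (norm_nonneg _), ofReal_norm, ENNReal.ofReal_mul ENNReal.toReal_nonneg, ENNReal.ofReal_toReal hD]
      exact h
    exact (ENNReal.ofReal_le_ofReal_iff (mul_nonneg ENNReal.toReal_nonneg (mul_nonneg F.CB0 (sq_nonneg _)))).1 h2
  unfold A CA
  show ‖(F.kit m ε).k (pvP ε) (F.XQ m ε) PvtTurn.S / (δ m : ℂ)‖ ≤ _
  rw [norm_div, Complex.norm_real, Real.norm_of_nonneg hδ.le, div_le_iff₀ hδ]
  have hs : (Real.sqrt (D.toReal * F.CB) * δ m) ^ 2 = D.toReal * (F.CB * δ m ^ 2) := by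
    rw [mul_pow, Real.sq_sqrt (mul_nonneg ENNReal.toReal_nonneg F.CB0)]; ring
  exact (pow_le_pow_iff_left₀ (norm_nonneg _) (by positivity) two_ne_zero).1 (h1.trans_eq hs.symm)

/-- **`rel_lim`** of `PvhbNum` : TR27 (hexagon) for the field `y_a`, every `a` -/
theorem rel_lim (m : ℕ) (a : ℂ) : Tendsto (fun ε => (F.W m ε a).rel) (𝓝[>] (0 : ℝ)) (𝓝 0) := by
  rw [tendsto_iff_edist_tendsto_0]
  simp_rw [edist_zero_right]
  rw [ENNReal.tendsto_nhds_zero]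
  intro e he
  by_cases hD : ((F.β' * F.q)⁻¹) ^ 8 = ∞
  · filter_upwards [F.ok m] with ε H
    exact absurd hD (pvcn_D_ne_top H.frc)
  have h1 : Tendsto (fun ε => ((F.β' * F.q)⁻¹) ^ 8 *
      ∫⁻ η, ‖(F.kit m ε).Y (F.XQ m ε) 0 1 pvcnHex η‖ₑ ^ 2 * ((F.kit m ε).Ev 0 1 pvcnHex).indicator 1 η ∂(pvP ε)) (𝓝[>] (0 : ℝ)) (𝓝 0) := by
    have := ENNReal.Tendsto.const_mul (a := ((F.β' * F.q)⁻¹) ^ 8) (F.tail m) (Or.inr hD)
    rwa [mul_zero] at this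
  have he2 : (0 : ℝ≥0∞) < e ^ 2 := by positivity
  filter_upwards [F.ok m, (ENNReal.tendsto_nhds_zero.1 h1) (e ^ 2) he2] with ε H h2
  exact (ENNReal.pow_le_pow_left_iff two_ne_zero).1 ((H.rel_le a le_rfl).trans h2)

/-- the coboundary constant of the field `y_a` -/
theorem W_k (m : ℕ) : ∀ᶠ ε in 𝓝[>] (0 : ℝ), ∀ a : ℂ, (F.W m ε a).k = ((F.kit m ε).W (pvP ε) (F.XQ m ε)).k
    + a * ∫ η, F.f m ε η ∂((pvP ε).withDensity ((F.kit m ε).g (pvP ε) 0 1)) := by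
  filter_upwards [F.ok m] with ε H a
  exact H.W_k a

end PvcnFam

theorem pvcn_eqns_cite2 : True := by
  have := @PvcnFam.W.eq_1; have := @PvcnFam.A.eq_1; have := @PvcnFam.CA.eq_1
  trivial

/-! ## 3. THE NUMBERS OF THE WALL FROM THE EXIT OF CHAPTER E      (prefix `pvno_`, `pvno`)

GLUE.      `pvnoNum c0 𝔐 Γ F kin0 : PvhbNum τ c` is a DEF (data), not an existence statement: the record `PvhbNum` is satisfiable by fake numbers, and `PvhbLoc N ..` is stated FOR THAT `N` (remark of 259);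
the consumers (`Exit/TrNum.lean`, `Exit/Tr.lean`) must use the SAME term.
* `𝔐 : PvbMenu τ`, `Γ : ℕ → PvtsGeo τ`   parameters of 187;   the size of the cells of level `m` is `(Γ m).δ`;
* `F : PvcnFam (fun m => (Γ m).δ)`   the exit of chapter E (§2);
* `kin0`   the constant of the reference plug (129, `Tr/Top.lean`): free here.
SCALES: `h = pvlmH`, `r = pvlmR c` (247, `Tr/Lim.lean` §7). -/

/-- **THE NUMBERS OF THE WALL** -/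
noncomputable def pvnoNum {τ : Type} {c : ℝ} (c0 : 0 < c) (𝔐 : PvbMenu τ) (Γ : ℕ → PvtsGeo τ) (F : PvcnFam (fun m => (Γ m).δ)) (kin0 : ℕ → ℝ → ℂ → ℂ) :
    PvhbNum τ c where
  𝔐 := 𝔐
  h := pvlmH
  r := pvlmR c
  h0 := pvlm_H_pos
  h_lim := pvlm_H_lim
  r_lim := (pvlm_R_spec c0 𝔐.L).1
  Lh_r := (pvlm_R_spec c0 𝔐.L).2.1
  lim2 := (pvlm_R_spec c0 𝔐.L).2.2
  Γ := Γ
  W := F.W
  kin0 := kin0
  A := F.A
  CA := F.CA
  A_bdd := F.A_bdd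
  cell_a := F.cell_a
  rel_lim := F.rel_lim

theorem pvno_eqns_cite : True := by
  have := @pvnoNum.eq_1
  trivial

section

variable {τ : Type} {c : ℝ} (c0 : 0 < c) (𝔐 : PvbMenu τ) (Γ : ℕ → PvtsGeo τ) (F : PvcnFam (fun m => (Γ m).δ)) (kin0 : ℕ → ℝ → ℂ → ℂ)

@[simp] theorem pvno_M : (pvnoNum c0 𝔐 Γ F kin0).𝔐 = 𝔐 := rfl
@[simp] theorem pvno_h : (pvnoNum c0 𝔐 Γ F kin0).h = pvlmH := rfl
@[simp] theorem pvno_r : (pvnoNum c0 𝔐 Γ F kin0).r = pvlmR c := rfl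
@[simp] theorem pvno_G : (pvnoNum c0 𝔐 Γ F kin0).Γ = Γ := rfl
@[simp] theorem pvno_W : (pvnoNum c0 𝔐 Γ F kin0).W = F.W := rfl
@[simp] theorem pvno_kin0 : (pvnoNum c0 𝔐 Γ F kin0).kin0 = kin0 := rfl
@[simp] theorem pvno_A : (pvnoNum c0 𝔐 Γ F kin0).A = F.A := rfl
@[simp] theorem pvno_CA : (pvnoNum c0 𝔐 Γ F kin0).CA = F.CA := rfl

/-- what `W` is, for the producers of `n1`, `cyc1` (TR25): the three means of the field of record under the two-door weight of the kit -/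
theorem pvno_W_apply (m : ℕ) (ε : ℝ) (a : ℂ) :
    (pvnoNum c0 𝔐 Γ F kin0).W m ε a = (F.kit m ε).W (pvP ε) (pvcnY (F.XQ m ε) (F.XV m ε) a) := rfl

/-- the coboundary constant is affine in the scalar -/
theorem pvno_W_k (m : ℕ) : ∀ᶠ ε in 𝓝[>] (0 : ℝ), ∀ a : ℂ, ((pvnoNum c0 𝔐 Γ F kin0).W m ε a).k = ((F.kit m ε).W (pvP ε) (F.XQ m ε)).k
    + a * ∫ η, F.f m ε η ∂((pvP ε).withDensity ((F.kit m ε).g (pvP ε) 0 1)) := F.W_k m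

end

/-! ## 4. `Q` ALONE      (ruling 12 of the arbiter 234: the field `V` needs no engine; record `PvtyNumQ` of 283, `Tr/Lin.lean` sec. 9)

No `XV`, no cut point, no scalar.      `PvcnFam.toQ` forgets `V`, so every producer of `PvcnFam` feeds `pvnoNumQ`. -/

/-- all the hypotheses on ONE kit at ONE mesh, `Q` only -/
structure PvcnOkQ (kit : PvthKit) (ε : ℝ) (XQ : PvtTurn → Conf PvPt → ℂ) (β' q B : ℝ≥0∞) (r : ℝ) : Prop where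
  wf : kit.WF
  ref : PvccKitRef kit r
  fQ : kit.Fld XQ
  frc : kit.Forced (pvP ε) β' q
  B_fin : B ≠ ∞
  besQ : ∀ j < 8, ∫⁻ η, ‖kit.Xj XQ 0 1 pvcnHex j η‖ₑ ^ 2 * (kit.Ev 0 1 pvcnHex).indicator 1 η ∂(pvP ε) ≤ B

theorem PvcnOk.toQ (H : PvcnOk kit ε XQ XV f β' q B r) : PvcnOkQ kit ε XQ β' q B r := ⟨H.wf, H.ref, H.fQ, H.frc, H.B_fin, H.besQ⟩

/-- TR27 for `Q` -/
theorem PvcnOkQ.rel_le (H : PvcnOkQ kit ε XQ β' q B r) {θ : ℝ≥0∞} (hθ : ∫⁻ η, ‖kit.Y XQ 0 1 pvcnHex η‖ₑ ^ 2 * (kit.Ev 0 1 pvcnHex).indicator 1 η ∂(pvP ε) ≤ θ) :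
    ‖(kit.W (pvP ε) XQ).rel‖ₑ ^ 2 ≤ ((β' * q)⁻¹) ^ 8 * θ := by
  have h := pvth_hex (ε := ε) H.wf H.fQ H.frc 0 0 0 0 0 (pvcc_kit_disj_hex H.ref 0 one_ne_zero)
    (fun τ => ne_top_of_le_ne_top (ENNReal.mul_ne_top (pvcn_D_ne_top H.frc) H.B_fin) (pvcn_bound H.wf H.ref H.fQ H.frc H.besQ τ).1) hθ
  rwa [pvcc_hex_length] at h

/-- **THE INPUT OF CHAPTER E, `Q` ONLY** -/
structure PvcnFamQ (δ : ℕ → ℝ) where
  kit : ℕ → ℝ → PvthKit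
  XQ : ℕ → ℝ → PvtTurn → Conf PvPt → ℂ
  r : ℕ → ℝ → ℝ
  β' : ℝ≥0∞
  q : ℝ≥0∞
  CB : ℝ
  CB0 : 0 ≤ CB
  kδ : ∀ m ε, (kit m ε).δ = δ m
  ok : ∀ m, ∀ᶠ ε in 𝓝[>] (0 : ℝ), PvcnOkQ (kit m ε) ε (XQ m ε) β' q (ENNReal.ofReal (CB * δ m ^ 2)) (r m ε)
  /-- (T) -/
  tail : ∀ m, Tendsto (fun ε => ∫⁻ η, ‖(kit m ε).Y (XQ m ε) 0 1 pvcnHex η‖ₑ ^ 2 * ((kit m ε).Ev 0 1 pvcnHex).indicator 1 η ∂(pvP ε)) (𝓝[>] (0 : ℝ)) (𝓝 0)

/-- forget `V` -/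
def PvcnFam.toQ {δ : ℕ → ℝ} (F : PvcnFam δ) : PvcnFamQ δ where
  kit := F.kit
  XQ := F.XQ
  r := F.r
  β' := F.β'
  q := F.q
  CB := F.CB
  CB0 := F.CB0
  kδ := F.kδ
  ok := fun m => (F.ok m).mono fun _ H => H.toQ
  tail := F.tail

namespace PvcnFamQ

variable {δ : ℕ → ℝ} (F : PvcnFamQ δ)

/-- the three cell means of `Q` at level `m`, mesh `ε` -/
noncomputable def W (m : ℕ) (ε : ℝ) : PvtW := (F.kit m ε).W (pvP ε) (F.XQ m ε)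

/-- the uniform bound of `α^Q / δ` -/
noncomputable def CA : ℝ := Real.sqrt ((((F.β' * F.q)⁻¹) ^ 8).toReal * F.CB)

/-- **`a_bdd`** of `PvtyNumQ` : TR28 (ii) -/
theorem a_bdd (m : ℕ) : ∀ᶠ ε in 𝓝[>] (0 : ℝ), ‖(F.W m ε).a / (δ m : ℂ)‖ ≤ F.CA := by
  filter_upwards [F.ok m] with ε H
  have hδ : 0 < δ m := by
    have := H.wf.δ0
    rwa [F.kδ] at this
  have h := (pvcn_bound H.wf H.ref H.fQ H.frc H.besQ PvtTurn.S).2
  have hD := pvcn_D_ne_top H.frc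
  set D : ℝ≥0∞ := ((F.β' * F.q)⁻¹) ^ 8 with hDdef
  have h1 : ‖(F.kit m ε).k (pvP ε) (F.XQ m ε) PvtTurn.S‖ ^ 2 ≤ D.toReal * (F.CB * δ m ^ 2) := by
    have h2 : ENNReal.ofReal (‖(F.kit m ε).k (pvP ε) (F.XQ m ε) PvtTurn.S‖ ^ 2) ≤ ENNReal.ofReal (D.toReal * (F.CB * δ m ^ 2)) := by
      rw [ENNReal.ofReal_pow (norm_nonneg _), ofReal_norm, ENNReal.ofReal_mul ENNReal.toReal_nonneg, ENNReal.ofReal_toReal hD]
      exact h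
    exact (ENNReal.ofReal_le_ofReal_iff (mul_nonneg ENNReal.toReal_nonneg (mul_nonneg F.CB0 (sq_nonneg _)))).1 h2
  unfold CA
  show ‖(F.kit m ε).k (pvP ε) (F.XQ m ε) PvtTurn.S / (δ m : ℂ)‖ ≤ _
  rw [norm_div, Complex.norm_real, Real.norm_of_nonneg hδ.le, div_le_iff₀ hδ]
  have hs : (Real.sqrt (D.toReal * F.CB) * δ m) ^ 2 = D.toReal * (F.CB * δ m ^ 2) := by
    rw [mul_pow, Real.sq_sqrt (mul_nonneg ENNReal.toReal_nonneg F.CB0)]; ring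
  exact (pow_le_pow_iff_left₀ (norm_nonneg _) (by positivity) two_ne_zero).1 (h1.trans_eq hs.symm)

/-- **`rel_lim`** of `PvtyNumQ` : TR27 (hexagon) -/
theorem rel_lim (m : ℕ) : Tendsto (fun ε => (F.W m ε).rel) (𝓝[>] (0 : ℝ)) (𝓝 0) := by
  rw [tendsto_iff_edist_tendsto_0]
  simp_rw [edist_zero_right]
  rw [ENNReal.tendsto_nhds_zero]
  intro e he
  by_cases hD : ((F.β' * F.q)⁻¹) ^ 8 = ∞
  · filter_upwards [F.ok m] with ε H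
    exact absurd hD (pvcn_D_ne_top H.frc)
  have h1 : Tendsto (fun ε => ((F.β' * F.q)⁻¹) ^ 8 *
      ∫⁻ η, ‖(F.kit m ε).Y (F.XQ m ε) 0 1 pvcnHex η‖ₑ ^ 2 * ((F.kit m ε).Ev 0 1 pvcnHex).indicator 1 η ∂(pvP ε)) (𝓝[>] (0 : ℝ)) (𝓝 0) := by
    have := ENNReal.Tendsto.const_mul (a := ((F.β' * F.q)⁻¹) ^ 8) (F.tail m) (Or.inr hD)
    rwa [mul_zero] at this
  have he2 : (0 : ℝ≥0∞) < e ^ 2 := by positivity
  filter_upwards [F.ok m, (ENNReal.tendsto_nhds_zero.1 h1) (e ^ 2) he2] with ε H h2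
  exact (ENNReal.pow_le_pow_left_iff two_ne_zero).1 ((H.rel_le le_rfl).trans h2)

end PvcnFamQ

/-- **THE NUMBERS OF THE WALL, `Q` ONLY** (a DEF: the roofs `n1`, `cyc1` must speak of the SAME `W`) -/
noncomputable def pvnoNumQ {τ : Type} {c : ℝ} (c0 : 0 < c) (𝔐 : PvbMenu τ) (Γ : ℕ → PvtsGeo τ) (F : PvcnFamQ (fun m => (Γ m).δ)) (kin0 : ℕ → ℝ → ℂ) :
    PvtyNumQ τ c where
  𝔐 := 𝔐
  h := pvlmH
  r := pvlmR c
  h0 := pvlm_H_pos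
  h_lim := pvlm_H_lim
  r_lim := (pvlm_R_spec c0 𝔐.L).1
  Lh_r := (pvlm_R_spec c0 𝔐.L).2.1
  lim2 := (pvlm_R_spec c0 𝔐.L).2.2
  Γ := Γ
  W := F.W
  kin0 := kin0
  CA := F.CA
  a_bdd := F.a_bdd
  rel_lim := F.rel_lim

theorem pvno_eqns_cite2 : True := by
  have := @PvcnFam.toQ.eq_1; have := @PvcnFamQ.W.eq_1; have := @PvcnFamQ.CA.eq_1; have := @pvnoNumQ.eq_1
  trivial

section

variable {τ : Type} {c : ℝ} (c0 : 0 < c) (𝔐 : PvbMenu τ) (Γ : ℕ → PvtsGeo τ) (F : PvcnFamQ (fun m => (Γ m).δ)) (kin0 : ℕ → ℝ → ℂ)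

@[simp] theorem pvno_Q_M : (pvnoNumQ c0 𝔐 Γ F kin0).𝔐 = 𝔐 := rfl
@[simp] theorem pvno_Q_h : (pvnoNumQ c0 𝔐 Γ F kin0).h = pvlmH := rfl
@[simp] theorem pvno_Q_r : (pvnoNumQ c0 𝔐 Γ F kin0).r = pvlmR c := rfl
@[simp] theorem pvno_Q_G : (pvnoNumQ c0 𝔐 Γ F kin0).Γ = Γ := rfl
@[simp] theorem pvno_Q_W : (pvnoNumQ c0 𝔐 Γ F kin0).W = F.W := rfl
@[simp] theorem pvno_Q_kin0 : (pvnoNumQ c0 𝔐 Γ F kin0).kin0 = kin0 := rfl
@[simp] theorem pvno_Q_CA : (pvnoNumQ c0 𝔐 Γ F kin0).CA = F.CA := rfl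

/-- what `W` is, for the producers of `n1`, `cyc1` (TR25) -/
theorem pvno_Q_W_apply (m : ℕ) (ε : ℝ) : (pvnoNumQ c0 𝔐 Γ F kin0).W m ε = (F.kit m ε).W (pvP ε) (F.XQ m ε) := rfl

end

end Claimed.Agent.R289
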