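-- KEEP
import Claimed.Agent.R289.Tr.Ind
import Claimed.Agent.R289.PppQ

/-!
# Row 289 (S0537), box TR-HYB, file Tr/Hyb : THE HYBRID CONDITIONAL LAW OF TR23 (N1' of `W1_208.md` sec. 2)      (owner helper252, order of 141 msg 08:56Z; prefix `pvth_`, `pvth`, `Pvth`)

The `Y`-experiment of N1' resamples (positions + colours in the inner lanes `C₀` of the pattern) AND (the colours only of the state-dependent finite set `A σ` of FRESH sites of the mouths).   That is not a splice.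
It is an INSTANCE of the abstract core of 141 (`Tr/Ind.lean` sec. 6: `pvtiHat`, `pvti_core_fam`, `pvti_core_cyl`) in SEED form (the seed form is needed: `X i`, `a i` carry no measurability, so "constant a.e. for the kernel" must come from a pointwise identity on the seeds):
* seeds `PvthSd = Conf PvPt × (ℂ → Bool)`, FIXED seed law `pvthSeed ε = pvP ε ⊗ (fair bits indexed by ℂ)`;
* `pvthCol A u p` (the colour of `p` becomes `u p.1` if `p.1 ∈ A`), `pvthRec A u σ` (recolouring), `pvthR C₀ A σ (η, u) = pvthRec (A σ) u (Conf.spl (fst ⁻¹' C₀)ᶜ (σ, η))`;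
* `PvthOk ε C₀ A` : `C₀` measurable;  `A` READS a bounded window;  `A σ ∩ C₀ = ∅` a.s.;  STOP: a.s. `A (pvthRec (A σ) u σ) = A σ` for every `u` (colour stopping set).   NO measurability of `A` in `σ`, no `A σ ⊆ cfSites σ`.
* **`pvth_seed_lintegral`** : `∫ f (R σ ·) d seed = 2^{-|A σ|} ∑_{x : A σ → Bool} ∫ f (pvthRec (A σ) x (spl (σ, η))) dμ(η)` = the formula `κ(σ)` of the order;
* **`pvth_ae_rec`** : an a.s. property holds a.s. for ALL finite recolourings at once;   **`pvth_ae`**, **`pvth_aemeasurable`** : a.s. properties / a.e. measurability pass to the sections `R σ ·`;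
* **`pvth_inv`** : `∫∫ H (R σ x) d seed dμ ≤ ∫ H dμ` (`H` a.e. measurable);   `pvth_stop_le` : the colour part alone;
* **`pvth_cyl`** : N1' (cylinder domination) for the hybrid law = `pvti_core_cyl` with all the measure theory discharged.
-/

set_option autoImplicit false
set_option linter.unusedSectionVars false

namespace Claimed.Agent.R289

open MeasureTheory ProbabilityTheory Set Filter Topology Claims.C0465
open scoped ENNReal NNReal

/-! ## 0. definitions -/

open Classical in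
/-- the colour of `p` becomes `u p.1` if the site of `p` lies in `A` -/
noncomputable def pvthCol (A : Set ℂ) (u : ℂ → Bool) (p : PvPt) : PvPt := (p.1, if p.1 ∈ A then u p.1 else p.2)

/-- recolouring of the sites of `A` by `u` -/
noncomputable def pvthRec (A : Set ℂ) (u : ℂ → Bool) (σ : Conf PvPt) : Conf PvPt := Conf.image (pvthCol A u) σ

/-- the seeds: a fresh configuration, fresh colours -/
abbrev PvthSd := Conf PvPt × (ℂ → Bool)

/-- fair bits indexed by the plane -/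
noncomputable def pvthBit : Measure (ℂ → Bool) := Measure.infinitePi fun _ : ℂ => pvCoin

instance pvthBitProb : IsProbabilityMeasure pvthBit := by unfold pvthBit; infer_instance

/-- the seed law -/
noncomputable def pvthSeed (ε : ℝ) : Measure PvthSd := (pvP ε).prod pvthBit

instance pvthSeedProb (ε : ℝ) : IsProbabilityMeasure (pvthSeed ε) := by unfold pvthSeed; infer_instance

/-- **the hybrid resampling**: positions and colours in `C₀` are replaced by those of the seed `x.1`, the colours of the sites of `A σ` by the seed `x.2` -/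
noncomputable def pvthR (C₀ : Set ℂ) (A : Conf PvPt → Finset ℂ) (σ : Conf PvPt) (x : PvthSd) : Conf PvPt :=
  pvthRec (A σ) x.2 (Conf.spl (Prod.fst ⁻¹' C₀)ᶜ (σ, x.1))

/-- the hypotheses on the pair (inner lanes `C₀`, fresh sites `A`) -/
structure PvthOk (ε : ℝ) (C₀ : Set ℂ) (A : Conf PvPt → Finset ℂ) : Prop where
  meas : MeasurableSet C₀
  loc : ∃ M : Set ℂ, Bornology.IsBounded M ∧ Conf.Reads (Prod.fst ⁻¹' M) A
  disj : ∀ᵐ σ ∂(pvP ε), Disjoint (↑(A σ) : Set ℂ) C₀
  stop : ∀ᵐ σ ∂(pvP ε), ∀ u : ℂ → Bool, A (pvthRec (A σ) u σ) = A σ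

theorem pvth_eqns_cite : True := by
  have := @pvthCol.eq_1
  have := @pvthRec.eq_1
  have := @pvthBit.eq_1
  have := @pvthSeed.eq_1
  have := @pvthR.eq_1
  trivial

/-! ## 1. recolouring: measurability, splice -/

theorem pvth_col_measurable (A : Finset ℂ) (u : ℂ → Bool) : Measurable (pvthCol A u) := by
  classical
  unfold pvthCol
  refine measurable_fst.prodMk ?_
  refine measurable_to_countable' fun b => ?_
  have e : (fun p : PvPt => if p.1 ∈ (↑A : Set ℂ) then u p.1 else p.2) ⁻¹' {b}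
      = Prod.fst ⁻¹' (↑(A.filter fun z => u z = b) : Set ℂ) ∪ ((Prod.fst ⁻¹' (↑A : Set ℂ))ᶜ ∩ Prod.snd ⁻¹' {b}) := by
    ext p
    simp only [mem_preimage, mem_singleton_iff, mem_union, mem_inter_iff, mem_compl_iff, Finset.coe_filter, mem_ofPred_eq, Finset.mem_coe]
    by_cases hp : p.1 ∈ A
    · simp [hp]
    · simp [hp]
  have hms : MeasurableSet (Prod.fst ⁻¹' (↑(A.filter fun z => u z = b) : Set ℂ) ∪ ((Prod.fst ⁻¹' (↑A : Set ℂ))ᶜ ∩ Prod.snd ⁻¹' {b}) : Set PvPt) :=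
    (measurable_fst (Finset.measurableSet _)).union ((measurable_fst (Finset.measurableSet _)).compl.inter (measurable_snd (measurableSet_singleton b)))
  rw [← e] at hms
  convert hms

theorem pvth_rec_measurable (A : Finset ℂ) (u : ℂ → Bool) : Measurable (pvthRec A u) := Conf.measurable_image (pvth_col_measurable A u)

/-- only the values of `u` on `A` matter -/
theorem pvth_rec_congr {A : Set ℂ} {u u' : ℂ → Bool} (h : ∀ z ∈ A, u z = u' z) (σ : Conf PvPt) : pvthRec A u σ = pvthRec A u' σ := by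
  classical
  have e : pvthCol A u = pvthCol A u' := by
    funext p
    unfold pvthCol
    by_cases hp : p.1 ∈ A
    · rw [if_pos hp, if_pos hp, h _ hp]
    · rw [if_neg hp, if_neg hp]
  unfold pvthRec
  rw [e]

/-- recolouring outside `C₀` commutes with the splice in `C₀` -/
theorem pvth_rec_spl {A C₀ : Set ℂ} (h : Disjoint A C₀) (u : ℂ → Bool) (σ η : Conf PvPt) :
    pvthRec A u (Conf.spl (Prod.fst ⁻¹' C₀)ᶜ (σ, η)) = Conf.spl (Prod.fst ⁻¹' C₀)ᶜ (pvthRec A u σ, η) := by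
  classical
  have hfst : ∀ p : PvPt, (pvthCol A u p).1 = p.1 := fun _ => rfl
  have hid : ∀ p : PvPt, p.1 ∈ C₀ → pvthCol A u p = p := by
    intro p hp
    unfold pvthCol
    rw [if_neg fun hA => Set.disjoint_left.1 h hA hp]
  refine Conf.ext ?_
  show pvthCol A u '' (σ.pts ∩ (Prod.fst ⁻¹' C₀)ᶜ ∪ η.pts ∩ (Prod.fst ⁻¹' C₀)ᶜᶜ) = (pvthCol A u '' σ.pts) ∩ (Prod.fst ⁻¹' C₀)ᶜ ∪ η.pts ∩ (Prod.fst ⁻¹' C₀)ᶜᶜ
  ext r
  constructor
  · rintro ⟨p, hp | hp, rfl⟩
    · exact Or.inl ⟨⟨p, hp.1, rfl⟩, hp.2⟩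
    · have hpC : p.1 ∈ C₀ := not_not.1 hp.2
      rw [hid p hpC]
      exact Or.inr hp
  · rintro (⟨⟨p, hp, rfl⟩, hr⟩ | hr)
    · exact ⟨p, Or.inl ⟨hp, hr⟩, rfl⟩
    · have hrC : r.1 ∈ C₀ := not_not.1 hr.2
      exact ⟨r, Or.inr hr, hid r hrC⟩

theorem pvthq_ext_restrict (F : Finset ℂ) (u : ℂ → Bool) : ∀ z ∈ (↑F : Set ℂ), u z = cfExt F (F.restrict u) z := by
  intro z hz
  have hz' : z ∈ F := hz
  unfold cfExt
  rw [dif_pos hz']
  rfl

/-- the hybrid resampling is measurable in the seeds (`σ` fixed) -/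
theorem pvth_R_measurable {C₀ : Set ℂ} (hC : MeasurableSet C₀) (A : Conf PvPt → Finset ℂ) (σ : Conf PvPt) : Measurable (pvthR C₀ A σ) := by
  have hspl : Measurable fun η : Conf PvPt => Conf.spl (Prod.fst ⁻¹' C₀)ᶜ (σ, η) := by
    have hC' : MeasurableSet (Prod.fst ⁻¹' C₀ : Set PvPt) := measurable_fst hC
    have h0 : Measurable fun η : Conf PvPt => ((Conf.restr (Prod.fst ⁻¹' C₀)ᶜ σ, Conf.restr (Prod.fst ⁻¹' C₀)ᶜᶜ η) : Conf PvPt × Conf PvPt) :=
      measurable_const.prodMk (Conf.measurable_restr hC'.compl.compl)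
    exact Conf.measurable_union.comp h0
  have h1 : Measurable fun y : PvthSd × (↥(A σ) → Bool) => pvthRec (A σ) (cfExt (A σ) y.2) (Conf.spl (Prod.fst ⁻¹' C₀)ᶜ (σ, y.1.1)) :=
    measurable_from_prod_countable_left fun x => (pvth_rec_measurable (A σ) (cfExt (A σ) x)).comp (hspl.comp measurable_fst)
  have h2 : Measurable fun x : PvthSd => ((x, (A σ).restrict x.2) : PvthSd × (↥(A σ) → Bool)) :=
    measurable_id.prodMk ((Finset.measurable_restrict (A σ)).comp measurable_snd)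
  have e : pvthR C₀ A σ = fun x : PvthSd => pvthRec (A σ) (cfExt (A σ) ((A σ).restrict x.2)) (Conf.spl (Prod.fst ⁻¹' C₀)ᶜ (σ, x.1)) := by
    funext x
    unfold pvthR
    exact pvth_rec_congr (pvthq_ext_restrict (A σ) x.2) _
  rw [e]
  exact h1.comp h2

/-! ## 2. the formula of the kernel -/

/-- a function of finitely many of the bits -/
theorem pvth_bit_lintegral (A : Finset ℂ) {φ : (ℂ → Bool) → ℝ≥0∞} (hφ : ∀ u u' : ℂ → Bool, (∀ z ∈ A, u z = u' z) → φ u = φ u') :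
    ∫⁻ u, φ u ∂pvthBit = (∑ x : A → Bool, φ (cfExt A x)) * (2⁻¹ : ℝ≥0∞) ^ A.card := by
  have e : ∀ u, φ u = (fun x : ↥A → Bool => φ (cfExt A x)) (A.restrict u) := fun u => hφ _ _ (pvthq_ext_restrict A u)
  rw [lintegral_congr e]
  have hm : Measurable fun x : ↥A → Bool => φ (cfExt A x) := measurable_of_countable _
  unfold pvthBit
  rw [← lintegral_map hm (Finset.measurable_restrict A), Measure.infinitePi_map_restrict, lintegral_fintype, Finset.sum_mul]
  refine Finset.sum_congr rfl fun x _ => ?_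
  congr 1
  rw [Measure.pi_singleton]
  simp only [pvCoin_apply]
  rw [Finset.prod_const, Finset.card_univ, Fintype.card_coe]

/-- **the kernel**: `κ(σ) = 2^{-|A σ|} ∑_{x} μ.map (η ↦ recolour (spl (σ, η)) (A σ) x)` -/
theorem pvth_seed_lintegral (ε : ℝ) {C₀ : Set ℂ} (hC : MeasurableSet C₀) (A : Conf PvPt → Finset ℂ) (σ : Conf PvPt) {f : Conf PvPt → ℝ≥0∞} (hf : Measurable f) :
    ∫⁻ x, f (pvthR C₀ A σ x) ∂(pvthSeed ε)
      = (∑ x : A σ → Bool, ∫⁻ η, f (pvthRec (A σ) (cfExt (A σ) x) (Conf.spl (Prod.fst ⁻¹' C₀)ᶜ (σ, η))) ∂(pvP ε)) * (2⁻¹ : ℝ≥0∞) ^ (A σ).card := by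
  have hspl : Measurable fun η : Conf PvPt => Conf.spl (Prod.fst ⁻¹' C₀)ᶜ (σ, η) := by
    have hC' : MeasurableSet (Prod.fst ⁻¹' C₀ : Set PvPt) := measurable_fst hC
    have h0 : Measurable fun η : Conf PvPt => ((Conf.restr (Prod.fst ⁻¹' C₀)ᶜ σ, Conf.restr (Prod.fst ⁻¹' C₀)ᶜᶜ η) : Conf PvPt × Conf PvPt) :=
      measurable_const.prodMk (Conf.measurable_restr hC'.compl.compl)
    exact Conf.measurable_union.comp h0
  have hm : Measurable fun x : PvthSd => f (pvthR C₀ A σ x) := hf.comp (pvth_R_measurable hC A σ)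
  unfold pvthSeed
  rw [lintegral_prod _ hm.aemeasurable]
  have e : ∀ η : Conf PvPt, ∫⁻ u, f (pvthR C₀ A σ (η, u)) ∂pvthBit
      = (∑ x : A σ → Bool, f (pvthRec (A σ) (cfExt (A σ) x) (Conf.spl (Prod.fst ⁻¹' C₀)ᶜ (σ, η)))) * (2⁻¹ : ℝ≥0∞) ^ (A σ).card := by
    intro η
    exact pvth_bit_lintegral (A σ) (φ := fun u => f (pvthRec (A σ) u (Conf.spl (Prod.fst ⁻¹' C₀)ᶜ (σ, η))))
      fun u u' huu => by
        show f _ = f _
        rw [pvth_rec_congr (A := (↑(A σ) : Set ℂ)) (fun z hz => huu z hz)]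
  simp only [e]
  have hmx : ∀ x : A σ → Bool, Measurable fun η : Conf PvPt => f (pvthRec (A σ) (cfExt (A σ) x) (Conf.spl (Prod.fst ⁻¹' C₀)ᶜ (σ, η))) :=
    fun x => hf.comp ((pvth_rec_measurable (A σ) (cfExt (A σ) x)).comp hspl)
  rw [lintegral_mul_const _ (Finset.measurable_sum _ fun x _ => hmx x), lintegral_finsetSum _ fun x _ => hmx x]

/-! ## 3. a.s. properties and finite recolourings -/

/-- flip the colours of the points with position in `W` -/
noncomputable def pvthFl (W : Set ℂ) (p : PvPt) : PvPt := by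
  classical exact (p.1, if p.1 ∈ W then !p.2 else p.2)

theorem pvthq_eqns_cite : True := by
  have := @pvthFl.eq_1
  trivial

theorem pvthq_fl_measurable {W : Set ℂ} (hW : MeasurableSet W) : Measurable (pvthFl W) := by
  classical
  unfold pvthFl
  refine measurable_fst.prodMk ?_
  exact Measurable.ite (measurable_fst hW) ((measurable_of_countable not).comp measurable_snd) measurable_snd

theorem pvthq_int_map (ε : ℝ) {W : Set ℂ} (hW : MeasurableSet W) : (pvInt ε).map (pvthFl W) = pvInt ε := by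
  classical
  unfold pvInt
  rw [Measure.map_smul]
  congr 1
  symm
  refine Measure.prod_eq fun s t hs ht => ?_
  rw [Measure.map_apply (pvthq_fl_measurable hW) (hs.prod ht)]
  have e : pvthFl W ⁻¹' (s ×ˢ t) = ((s ∩ W) ×ˢ (not ⁻¹' t)) ∪ ((s \ W) ×ˢ t) := by
    ext p
    unfold pvthFl
    by_cases hp : p.1 ∈ W <;> simp [hp]
  have hd : Disjoint ((s ∩ W) ×ˢ (not ⁻¹' t)) ((s \ W) ×ˢ t) := by
    rw [Set.disjoint_left]
    rintro p ⟨h1, _⟩ ⟨h2, _⟩
    exact h2.2 h1.2
  have hc : pvCoin (not ⁻¹' t) = pvCoin t := by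
    rw [← Measure.map_apply (measurable_of_countable _) ht, pvCoin_map_not]
  rw [e, measure_union hd ((hs.diff hW).prod ht), Measure.prod_prod, Measure.prod_prod, hc, ← add_mul, measure_inter_add_sdiff s hW]

theorem pvthq_P_map (ε : ℝ) {W : Set ℂ} (hW : MeasurableSet W) : (pvP ε).map (Conf.image (pvthFl W)) = pvP ε := by
  have h1 := (pv_isPpp ε).map (pvthq_fl_measurable hW)
  rw [pvthq_int_map ε hW] at h1
  exact IsPpp.unique h1 (pv_isPpp ε)

theorem pvthq_ae_fl (ε : ℝ) {p : Conf PvPt → Prop} (hp : ∀ᵐ σ ∂(pvP ε), p σ) {W : Set ℂ} (hW : MeasurableSet W) :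
    ∀ᵐ σ ∂(pvP ε), p (Conf.image (pvthFl W) σ) := by
  have h : ∀ᵐ σ ∂((pvP ε).map (Conf.image (pvthFl W))), p σ := by rw [pvthq_P_map ε hW]; exact hp
  exact ae_of_ae_map (Conf.measurable_image (pvthq_fl_measurable hW)).aemeasurable h

/-- a finite set of sites is cut out by a finite union of basic open sets -/
theorem pvthq_isolate {Y : Set ℂ} (hY : VorLF Y) (K : Finset ℂ) (hK : (↑K : Set ℂ) ⊆ Y) :
    ∃ F : Finset (TopologicalSpace.countableBasis ℂ), (⋃ B ∈ F, (B : Set ℂ)) ∩ Y = ↑K := by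
  classical
  have h : ∀ z : K, ∃ B : TopologicalSpace.countableBasis ℂ, (z : ℂ) ∈ (B : Set ℂ) ∧ ∀ w ∈ (B : Set ℂ), w ∈ Y → w = z := by
    intro z
    have hfin : ((Y ∩ Metric.closedBall (z : ℂ) 1) \ {(z : ℂ)}).Finite := (hY.finite_ball z 1).subset Set.sdiff_subset
    have hU : IsOpen (Metric.ball (z : ℂ) 1 \ ((Y ∩ Metric.closedBall (z : ℂ) 1) \ {(z : ℂ)})) := Metric.isOpen_ball.sdiff hfin.isClosed
    have hz : (z : ℂ) ∈ Metric.ball (z : ℂ) 1 \ ((Y ∩ Metric.closedBall (z : ℂ) 1) \ {(z : ℂ)}) :=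
      ⟨Metric.mem_ball_self one_pos, fun h => h.2 rfl⟩
    obtain ⟨v, hv, hzv, hvU⟩ := (TopologicalSpace.isBasis_countableBasis ℂ).exists_subset_of_mem_open hz hU
    refine ⟨⟨v, hv⟩, hzv, fun w hw hwY => ?_⟩
    have hwU := hvU hw
    by_contra hne
    exact hwU.2 ⟨⟨hwY, Metric.ball_subset_closedBall hwU.1⟩, hne⟩
  choose B hB1 hB2 using h
  refine ⟨Finset.univ.image B, ?_⟩
  ext w
  constructor
  · rintro ⟨hw, hwY⟩
    obtain ⟨b, hb, hwb⟩ := mem_iUnion₂.1 hw
    obtain ⟨z, _, rfl⟩ := Finset.mem_image.1 hb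
    rw [hB2 z w hwb hwY]
    exact z.2
  · intro hw
    exact ⟨mem_iUnion₂.2 ⟨B ⟨w, hw⟩, Finset.mem_image.2 ⟨_, Finset.mem_univ _, rfl⟩, hB1 ⟨w, hw⟩⟩, hK hw⟩

/-- **an a.s. property holds a.s. for all the finite recolourings at once** -/
theorem pvth_ae_rec (ε : ℝ) {p : Conf PvPt → Prop} (hp : ∀ᵐ σ ∂(pvP ε), p σ) : ∀ᵐ σ ∂(pvP ε), ∀ (A : Finset ℂ) (u : ℂ → Bool), p (pvthRec A u σ) := by
  classical
  have : Countable (TopologicalSpace.countableBasis ℂ) := (TopologicalSpace.countable_countableBasis ℂ).to_subtype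
  have h1 : ∀ᵐ σ ∂(pvP ε), ∀ F : Finset (TopologicalSpace.countableBasis ℂ), p (Conf.image (pvthFl (⋃ B ∈ F, (B : Set ℂ))) σ) := by
    rw [ae_all_iff]
    intro F
    exact pvthq_ae_fl ε hp (Finset.measurableSet_biUnion _ fun B _ => (TopologicalSpace.isOpen_of_mem_countableBasis B.2).measurableSet)
  filter_upwards [h1, delgp_ae_conf ε] with σ h1σ h2σ A u
  obtain ⟨hlf, _, hone⟩ := h2σ
  obtain ⟨K, hK⟩ : ∃ K : Finset ℂ, K = A.filter (fun z => (z, !u z) ∈ σ.pts) := ⟨_, rfl⟩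
  have hKY : (↑K : Set ℂ) ⊆ cfSites σ := by
    intro z hz
    have hz' : z ∈ K := hz
    rw [hK] at hz'
    exact ⟨(z, !u z), (Finset.mem_filter.1 hz').2, rfl⟩
  obtain ⟨F, hF⟩ := pvthq_isolate hlf K hKY
  have e : pvthRec A u σ = Conf.image (pvthFl (⋃ B ∈ F, (B : Set ℂ))) σ := by
    refine Conf.ext ?_
    show pvthCol A u '' σ.pts = pvthFl _ '' σ.pts
    refine Set.image_congr fun q hq => ?_
    have hqY : q.1 ∈ cfSites σ := ⟨q, hq, rfl⟩
    have hW : q.1 ∈ (⋃ B ∈ F, (B : Set ℂ)) ↔ q.1 ∈ K := by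
      constructor
      · intro h
        have h' : q.1 ∈ (⋃ B ∈ F, (B : Set ℂ)) ∩ cfSites σ := ⟨h, hqY⟩
        rw [hF] at h'
        exact h'
      · intro h
        have h' : q.1 ∈ (↑K : Set ℂ) := h
        rw [← hF] at h'
        exact h'.1
    unfold pvthCol pvthFl
    refine Prod.ext rfl ?_
    dsimp only
    by_cases hk : q.1 ∈ K
    · rw [if_pos (hW.2 hk)]
      rw [hK, Finset.mem_filter] at hk
      have h3 := hone q hq _ hk.2 rfl
      have h2 : q.2 = !u q.1 := congrArg Prod.snd h3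
      rw [if_pos (show q.1 ∈ (↑A : Set ℂ) from hk.1), h2, Bool.not_not]
    · rw [if_neg (fun h => hk (hW.1 h))]
      by_cases hA : q.1 ∈ A
      · rw [if_pos (show q.1 ∈ (↑A : Set ℂ) from hA)]
        by_contra hne
        apply hk
        rw [hK, Finset.mem_filter]
        refine ⟨hA, ?_⟩
        have h2 : q.2 = !u q.1 := by
          cases h5 : q.2 <;> cases h6 : u q.1 <;> simp_all
        rw [← h2]
        exact hq
      · rw [if_neg (show q.1 ∉ (↑A : Set ℂ) from hA)]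
  rw [e]
  exact h1σ F

/-- an a.s. property passes to the resampled sample -/
theorem pvth_ae {ε : ℝ} {C₀ : Set ℂ} {A : Conf PvPt → Finset ℂ} (h : PvthOk ε C₀ A) {p : Conf PvPt → Prop} (hp : ∀ᵐ σ ∂(pvP ε), p σ) :
    ∀ᵐ σ ∂(pvP ε), ∀ᵐ x ∂(pvthSeed ε), p (pvthR C₀ A σ x) := by
  have hP := pv_isPpp ε
  have hO : MeasurableSet ((Prod.fst ⁻¹' C₀)ᶜ : Set PvPt) := (measurable_fst h.meas).compl
  have h2 := hP.ae_ae_splice hO (pvth_ae_rec ε hp)
  filter_upwards [h2] with σ hσ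
  have h3 : ∀ᵐ x ∂(pvthSeed ε), ∀ (B : Finset ℂ) (u : ℂ → Bool), p (pvthRec B u (Conf.spl (Prod.fst ⁻¹' C₀)ᶜ (σ, x.1))) :=
    (Measure.quasiMeasurePreserving_fst (μ := pvP ε) (ν := pvthBit)).ae hσ
  filter_upwards [h3] with x hx
  exact hx (A σ) x.2

theorem pvth_aemeasurable {ε : ℝ} {C₀ : Set ℂ} {A : Conf PvPt → Finset ℂ} (h : PvthOk ε C₀ A) {β : Type*} [MeasurableSpace β] {f : Conf PvPt → β}
    (hf : AEMeasurable f (pvP ε)) : ∀ᵐ σ ∂(pvP ε), AEMeasurable (fun x => f (pvthR C₀ A σ x)) (pvthSeed ε) := by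
  filter_upwards [pvth_ae h hf.ae_eq_mk] with σ hσ
  exact ⟨fun x => hf.mk f (pvthR C₀ A σ x), hf.measurable_mk.comp (pvth_R_measurable h.meas A σ), hσ⟩

/-! ## 4. invariance -/

/-- the colours of the indices of `j` are taken from `v`, the others from `c` -/
def pvthqMix (j : Finset PvIx) (c v : PvColT) : PvColT := fun i => if i ∈ j then v i else c i

theorem pvthq_eqns_cite2 : True := by
  have := @pvthqMix.eq_1
  trivial

theorem pvthq_mix_measurable (j : Finset PvIx) : Measurable fun x : PvColT × PvColT => pvthqMix j x.1 x.2 := by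
  unfold pvthqMix
  refine measurable_pi_lambda _ fun i => ?_
  by_cases hi : i ∈ j
  · simp only [hi, if_true]
    exact (measurable_pi_apply i).comp measurable_snd
  · simp only [hi, if_false]
    exact (measurable_pi_apply i).comp measurable_fst

theorem pvthq_mix_map (j : Finset PvIx) : (pvCol.prod pvCol).map (fun x : PvColT × PvColT => pvthqMix j x.1 x.2) = pvCol := by
  have hz := infinitePi_prod_zip (fun _ : PvIx => pvCoin) (fun _ : PvIx => pvCoin)
  have hf : ∀ i : PvIx, Measurable (fun y : Bool × Bool => if i ∈ j then y.2 else y.1) := fun i => measurable_of_countable _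
  have hp := Measure.infinitePi_map_pi (fun _ : PvIx => pvCoin.prod pvCoin) (f := fun i (y : Bool × Bool) => if i ∈ j then y.2 else y.1) hf
  have e : ∀ i : PvIx, (pvCoin.prod pvCoin).map (fun y : Bool × Bool => if i ∈ j then y.2 else y.1) = pvCoin := by
    intro i
    by_cases hi : i ∈ j
    · simp only [hi, if_true]
      rw [Measure.map_snd_prod, measure_univ, one_smul]
    · simp only [hi, if_false]
      rw [Measure.map_fst_prod, measure_univ, one_smul]
  simp only [e] at hp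
  rw [← hz, Measure.map_map (by fun_prop) (by fun_prop)] at hp
  have e2 : (fun x : PvColT × PvColT => pvthqMix j x.1 x.2)
      = (fun (x : PvIx → Bool × Bool) i => if i ∈ j then (x i).2 else (x i).1) ∘ fun (p : PvColT × PvColT) i => (p.1 i, p.2 i) := by
    funext x i
    simp only [pvthqMix, Function.comp]
  rw [e2]
  exact hp

theorem pvthq_mix_lintegral (j : Finset PvIx) {G : PvColT → ℝ≥0∞} (hG : Measurable G) :
    ∫⁻ c, ∫⁻ v, G (pvthqMix j c v) ∂pvCol ∂pvCol = ∫⁻ c, G c ∂pvCol := by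
  rw [← lintegral_prod (fun x : PvColT × PvColT => G (pvthqMix j x.1 x.2)) (hG.comp (pvthq_mix_measurable j)).aemeasurable,
    ← lintegral_map hG (pvthq_mix_measurable j), pvthq_mix_map]

/-- **colour stopping sets, on the fair bits** -/
theorem pvthq_stop_core {J : PvColT → Finset PvIx} (hm : ∀ j, MeasurableSet {c | J c = j})
    (hs : ∀ᵐ c ∂pvCol, ∀ v, J (pvthqMix (J c) c v) = J c) {F : PvColT → ℝ≥0∞} (hF : Measurable F) :
    ∫⁻ c, ∫⁻ v, F (pvthqMix (J c) c v) ∂pvCol ∂pvCol ≤ ∫⁻ c, F c ∂pvCol := by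
  classical
  have hmI : ∀ j : Finset PvIx, Measurable fun c : PvColT => ∫⁻ v, F (pvthqMix j c v) ∂pvCol :=
    fun j => (hF.comp (pvthq_mix_measurable j)).lintegral_prod_right'
  have e1 : ∀ c, ∫⁻ v, F (pvthqMix (J c) c v) ∂pvCol = ∑' j : Finset PvIx, {c | J c = j}.indicator (fun c => ∫⁻ v, F (pvthqMix j c v) ∂pvCol) c := by
    intro c
    rw [tsum_eq_single (J c)]
    · rw [indicator_of_mem (show c ∈ {c' | J c' = J c} from rfl)]
    · intro j hj
      exact indicator_of_notMem (show c ∉ {c' | J c' = j} from fun h => hj (Eq.symm h)) _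
  have e2 : ∀ c, F c = ∑' j : Finset PvIx, {c | J c = j}.indicator F c := by
    intro c
    rw [tsum_eq_single (J c)]
    · rw [indicator_of_mem (show c ∈ {c' | J c' = J c} from rfl)]
    · intro j hj
      exact indicator_of_notMem (show c ∉ {c' | J c' = j} from fun h => hj (Eq.symm h)) _
  rw [lintegral_congr e1, lintegral_congr e2, lintegral_tsum fun j => ((hmI j).indicator (hm j)).aemeasurable,
    lintegral_tsum fun j => (hF.indicator (hm j)).aemeasurable]
  refine ENNReal.tsum_le_tsum fun j => ?_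
  rw [← pvthq_mix_lintegral j (hF.indicator (hm j))]
  refine lintegral_mono_ae ?_
  filter_upwards [hs] with c hc
  by_cases hcj : J c = j
  · rw [indicator_of_mem (show c ∈ {c | J c = j} from hcj)]
    refine lintegral_mono fun v => ?_
    have : pvthqMix j c v ∈ {c | J c = j} := by
      have := hc v
      rw [hcj] at this
      exact this
    rw [indicator_of_mem this]
  · rw [indicator_of_notMem (show c ∉ {c | J c = j} from hcj)]
    exact zero_le

/-- fair bits indexed by the plane, read along an injective family of points -/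
theorem pvthq_bit_map {e : PvIx → ℂ} (he : Function.Injective e) : pvthBit.map (fun (u : ℂ → Bool) (i : PvIx) => u (e i)) = pvCol := by
  classical
  have hm : Measurable fun (u : ℂ → Bool) (i : PvIx) => u (e i) := by fun_prop
  unfold pvCol
  refine Measure.eq_infinitePi _ fun s t ht => ?_
  have hS : MeasurableSet (Set.pi (s : Set PvIx) t) := MeasurableSet.pi s.countable_toSet fun i _ => ht i
  rw [Measure.map_apply hm hS]
  have h1 : (fun (u : ℂ → Bool) (i : PvIx) => u (e i)) ⁻¹' Set.pi (s : Set PvIx) t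
      = Set.pi ((s.image e : Finset ℂ) : Set ℂ) fun z => {b | ∀ i, e i = z → b ∈ t i} := by
    ext u
    simp only [mem_preimage, Set.mem_pi, Finset.coe_image, mem_image, Finset.mem_coe, mem_ofPred_eq, forall_exists_index, and_imp]
    constructor
    · rintro h z i hi rfl i' hi'
      rw [← hi']
      exact h i' (by rw [he hi']; exact hi)
    · intro h i hi
      exact h (e i) i hi rfl i rfl
  rw [h1]
  unfold pvthBit
  rw [Measure.infinitePi_pi _ fun _ _ => MeasurableSet.of_discrete, Finset.prod_image fun i _ i' _ h => he h]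
  refine Finset.prod_congr rfl fun i _ => ?_
  congr 1
  ext b
  simp only [mem_ofPred_eq]
  exact ⟨fun h => h i rfl, fun h i' hi => by rw [he hi]; exact h⟩

/-- recolouring of a labelled sample = mixing of the colourings -/
theorem pvthq_rec_merge {g : PvGeoT} (hg : PvgOk g) (a : Finset ℂ) (u : ℂ → Bool) (c : PvColT) :
    pvthRec a u (pvConf (pvMerge (g, c))) = pvConf (pvMerge (g, pvthqMix (a.preimage (pvgSite g) hg.inj.injOn) c fun i => u (pvgSite g i))) := by
  classical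
  have key : ∀ i, pvthCol a u (pvgSite g i, c i) = (pvgSite g i, pvthqMix (a.preimage (pvgSite g) hg.inj.injOn) c (fun i => u (pvgSite g i)) i) := by
    intro i
    unfold pvthCol pvthqMix
    by_cases hi : pvgSite g i ∈ a
    · have hi' : pvgSite g i ∈ (↑a : Set ℂ) := hi
      rw [if_pos hi', if_pos (Finset.mem_preimage.2 hi)]
    · have hi' : pvgSite g i ∉ (↑a : Set ℂ) := hi
      rw [if_neg hi', if_neg fun h => hi (Finset.mem_preimage.1 h)]
  refine Conf.ext ?_
  ext p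
  rw [pvqu_mem_conf]
  show p ∈ pvthCol a u '' (pvConf (pvMerge (g, c))).pts ↔ _
  constructor
  · rintro ⟨q, hq, rfl⟩
    obtain ⟨i, hi, rfl⟩ := pvqu_mem_conf.1 hq
    exact ⟨i, hi, key i⟩
  · rintro ⟨i, hi, rfl⟩
    exact ⟨_, pvqu_mem_conf.2 ⟨i, hi, rfl⟩, key i⟩

/-- **colour stopping sets**: resampling the colours of `A σ` does not increase the mean -/
theorem pvth_stop_le {ε : ℝ} {C₀ : Set ℂ} {A : Conf PvPt → Finset ℂ} (h : PvthOk ε C₀ A) {f : Conf PvPt → ℝ≥0∞} (hf : Measurable f) :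
    ∫⁻ σ, (∑ x : A σ → Bool, f (pvthRec (A σ) (cfExt (A σ) x) σ)) * (2⁻¹ : ℝ≥0∞) ^ (A σ).card ∂(pvP ε) ≤ ∫⁻ σ, f σ ∂(pvP ε) := by
  classical
  have e0 : ∀ σ, (∑ x : A σ → Bool, f (pvthRec (A σ) (cfExt (A σ) x) σ)) * (2⁻¹ : ℝ≥0∞) ^ (A σ).card = ∫⁻ u, f (pvthRec (A σ) u σ) ∂pvthBit := by
    intro σ
    exact (pvth_bit_lintegral (A σ) (φ := fun u => f (pvthRec (A σ) u σ)) fun u u' huu => by
      show f _ = f _
      rw [pvth_rec_congr (A := (↑(A σ) : Set ℂ)) (fun z hz => huu z hz)]).symm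
  rw [lintegral_congr e0]
  obtain ⟨ψ, hψm, hψle, hψe⟩ := exists_measurable_le_lintegral_eq (pvP ε) fun σ => ∫⁻ u, f (pvthRec (A σ) u σ) ∂pvthBit
  rw [hψe]
  unfold pvP
  rw [lintegral_map hψm measurable_pvConf, lintegral_map hf measurable_pvConf,
    pvqu_lintegral ε (f := fun ω => ψ (pvConf ω)) (hψm.comp measurable_pvConf),
    pvqu_lintegral ε (f := fun ω => f (pvConf ω)) (hf.comp measurable_pvConf)]
  obtain ⟨M, hMb, hMr⟩ := h.loc
  refine lintegral_mono_ae ?_
  filter_upwards [pvqu_ok_ae ε, pvqu_Qc_ae ε h.stop] with g hg hstop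
  set J : PvColT → Finset PvIx := fun c => (A (pvConf (pvMerge (g, c)))).preimage (pvgSite g) hg.inj.injOn with hJ
  have hFm : Measurable fun c : PvColT => f (pvConf (pvMerge (g, c))) := hf.comp (pvqu_Qm_meas g)
  -- the value of `A` depends on finitely many colours
  have hfin : (pvgIn g (Prod.fst ⁻¹' M : Set PvPt)).Finite := hg.in_finite (hMb.subset (by rintro _ ⟨p, hp, rfl⟩; exact hp))
  have hAdep : ∀ c c' : PvColT, (∀ i ∈ pvgIn g (Prod.fst ⁻¹' M : Set PvPt), c i = c' i) → A (pvConf (pvMerge (g, c))) = A (pvConf (pvMerge (g, c'))) := by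
    intro c c' hcc
    rw [← hMr (pvConf (pvMerge (g, c))), ← hMr (pvConf (pvMerge (g, c'))), pvqu_restr_congr hcc]
  have hm : ∀ j, MeasurableSet {c | J c = j} := by
    intro j
    have hdep : PvDep (↑hfin.toFinset : Set PvIx) {c | J c = j} := by
      intro c c' hcc hc
      have e : A (pvConf (pvMerge (g, c))) = A (pvConf (pvMerge (g, c'))) := hAdep c c' fun i hi => hcc i (by simpa using hi)
      show J c' = j
      rw [← (show J c = j from hc)]
      simp only [hJ]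
      simp only [e]
    exact (pvqu_dep_finset hdep).1
  have hs : ∀ᵐ c ∂pvCol, ∀ v, J (pvthqMix (J c) c v) = J c := by
    filter_upwards [hstop] with c hc v
    set u : ℂ → Bool := fun z => if hz : ∃ i, pvgSite g i = z then v hz.choose else false with hu
    have huv : (fun i => u (pvgSite g i)) = v := by
      funext i
      have hz : ∃ i', pvgSite g i' = pvgSite g i := ⟨i, rfl⟩
      simp only [hu]
      rw [dif_pos hz, hg.inj hz.choose_spec]
    have e1 := pvthq_rec_merge hg (A (pvConf (pvMerge (g, c)))) u c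
    rw [huv] at e1
    have e2 := hc u
    rw [e1] at e2
    show (A (pvConf (pvMerge (g, pvthqMix (J c) c v)))).preimage (pvgSite g) hg.inj.injOn = (A (pvConf (pvMerge (g, c)))).preimage (pvgSite g) hg.inj.injOn
    have e3 : A (pvConf (pvMerge (g, pvthqMix (J c) c v))) = A (pvConf (pvMerge (g, c))) := e2
    simp only [e3]
  calc ∫⁻ c, ψ (pvConf (pvMerge (g, c))) ∂pvCol
      ≤ ∫⁻ c, ∫⁻ u, f (pvthRec (A (pvConf (pvMerge (g, c)))) u (pvConf (pvMerge (g, c)))) ∂pvthBit ∂pvCol := lintegral_mono fun c => hψle _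
    _ = ∫⁻ c, ∫⁻ v, f (pvConf (pvMerge (g, pvthqMix (J c) c v))) ∂pvCol ∂pvCol := by
        refine lintegral_congr fun c => ?_
        have hH : Measurable fun v : PvColT => f (pvConf (pvMerge (g, pvthqMix (J c) c v))) :=
          hFm.comp ((pvthq_mix_measurable (J c)).comp (measurable_const.prodMk measurable_id))
        rw [← pvthq_bit_map hg.inj, lintegral_map hH (by fun_prop)]
        refine lintegral_congr fun u => ?_
        rw [pvthq_rec_merge hg]
    _ ≤ ∫⁻ c, f (pvConf (pvMerge (g, c))) ∂pvCol := pvthq_stop_core hm hs hFm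

/-- **(inv)** -/
theorem pvth_inv {ε : ℝ} {C₀ : Set ℂ} {A : Conf PvPt → Finset ℂ} (h : PvthOk ε C₀ A) {H : Conf PvPt → ℝ≥0∞} (hH : AEMeasurable H (pvP ε)) :
    ∫⁻ σ, ∫⁻ x, H (pvthR C₀ A σ x) ∂(pvthSeed ε) ∂(pvP ε) ≤ ∫⁻ ω, H ω ∂(pvP ε) := by
  have hP := pv_isPpp ε
  have hO : MeasurableSet ((Prod.fst ⁻¹' C₀)ᶜ : Set PvPt) := (measurable_fst h.meas).compl
  have hm : Measurable (hH.mk H) := hH.measurable_mk
  have hF : Measurable fun σ' : Conf PvPt => ∫⁻ η, hH.mk H (Conf.spl (Prod.fst ⁻¹' C₀)ᶜ (σ', η)) ∂(pvP ε) :=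
    (hm.comp (Conf.measurable_spl hO)).lintegral_prod_right'
  have e1 : ∫⁻ σ, ∫⁻ x, H (pvthR C₀ A σ x) ∂(pvthSeed ε) ∂(pvP ε)
      = ∫⁻ σ, (∑ x : A σ → Bool, (fun σ' : Conf PvPt => ∫⁻ η, hH.mk H (Conf.spl (Prod.fst ⁻¹' C₀)ᶜ (σ', η)) ∂(pvP ε)) (pvthRec (A σ) (cfExt (A σ) x) σ))
          * (2⁻¹ : ℝ≥0∞) ^ (A σ).card ∂(pvP ε) := by
    refine lintegral_congr_ae ?_
    filter_upwards [pvth_ae h hH.ae_eq_mk, h.disj] with σ hσ hd
    rw [lintegral_congr_ae hσ, pvth_seed_lintegral ε h.meas A σ hm]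
    congr 1
    refine Finset.sum_congr rfl fun x _ => ?_
    refine lintegral_congr fun η => ?_
    rw [pvth_rec_spl hd]
  rw [e1]
  refine (pvth_stop_le h hF).trans ?_
  rw [← hP.lintegral_spl hO hm]
  exact (lintegral_congr_ae hH.ae_eq_mk).ge

/-! ## 5. N1' for the hybrid law -/

/-- **N1' (CYLINDER DOMINATION) FOR THE HYBRID LAW**.   `X i`, `cnw i` : invariant under the hybrid resampling (pointwise a.s.; no measurability);   `Y`, `w`, `Θ` a.e. measurable. -/
theorem pvth_cyl {ε : ℝ} {C₀ : Set ℂ} {A : Conf PvPt → Finset ℂ} (h : PvthOk ε C₀ A) {ι : Type*}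
    {X : ι → Conf PvPt → ℂ} {act cn cnw : ι → Conf PvPt → ℝ≥0∞} {Y : Conf PvPt → ℂ} {w Θ : Conf PvPt → ℝ≥0∞} {S : Set (Conf PvPt)} {D q bad θ : ℝ≥0∞} (hD : D ≠ ∞)
    (hfix : ∀ᵐ σ ∂(pvP ε), ∀ᵐ x ∂(pvthSeed ε), ∀ i, X i (pvthR C₀ A σ x) = X i σ ∧ cnw i (pvthR C₀ A σ x) = cnw i σ)
    (hY : AEMeasurable Y (pvP ε)) (hw : AEMeasurable w (pvP ε)) (hΘ : AEMeasurable Θ (pvP ε))
    (hnorm : ∀ᵐ σ ∂(pvP ε), (∃ i, cnw i σ ≠ 0) → ∫⁻ x, w (pvthR C₀ A σ x) ∂(pvthSeed ε) = 1)
    (hwD : ∀ᵐ ω ∂(pvP ε), w ω ≤ D * S.indicator 1 ω)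
    (hC1 : ∀ᵐ σ ∂(pvP ε), ∀ i, act i σ ≤ cn i σ)
    (hC3 : ∫⁻ σ, ∑' i, ‖X i σ + pvtiHat (fun _ => pvthSeed ε) (pvthR C₀ A) w Y σ‖ₑ ^ 2 * cn i σ ∂(pvP ε)
      ≤ q⁻¹ * ∫⁻ σ, ∑' i, ‖X i σ + pvtiHat (fun _ => pvthSeed ε) (pvthR C₀ A) w Y σ‖ₑ ^ 2 * cnw i σ ∂(pvP ε) + bad)
    (hC2 : ∀ᵐ ω ∂(pvP ε), ∑' i, ‖X i ω + Y ω‖ₑ ^ 2 * cnw i ω * S.indicator 1 ω ≤ Θ ω)
    (hθ : ∫⁻ ω, Θ ω ∂(pvP ε) ≤ θ) :
    ∫⁻ σ, ∑' i, ‖X i σ + pvtiHat (fun _ => pvthSeed ε) (pvthR C₀ A) w Y σ‖ₑ ^ 2 * act i σ ∂(pvP ε) ≤ q⁻¹ * (D * θ) + bad :=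
  pvti_core_cyl (ν := fun _ => pvthSeed ε) (r := pvthR C₀ A) hD hfix (pvth_aemeasurable h hY) (pvth_aemeasurable h hw) hnorm (pvth_ae h hwD) hC1 hC3
    (pvth_ae h hC2) (pvth_inv h hΘ) hθ

end Claimed.Agent.R289
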