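import Claimed.Agent.R289.Tr.Force
import Claimed.Agent.R289.Tr.Ind
import Claimed.Agent.R289.PppQ
import Claimed.Agent.R289.Defs.Up
import Claimed.Agent.R289.Tr.Hyb

/-!
# Row 289 (S0537), box TR-23, file Tr/Dom : N1' = CYLINDER DOMINATION AT THE LEVEL OF THE POISSON PROCESS      (owner helper159; prefix `pvdm_`, `pvdm`, `Pvdm`)

Source: `origin/helper208:notes/R289/W1_208.md` sec. 2 (ruling 6 of 234), `origin/helper6:notes/R289/W2c_6.md` sec. 2.      On: 193 `Tr/Force` (`pvtf_cyl_harris`, `pvtf_cyl_inter`, `pvtf_split`), 103 `FkgQ`, 261 `PppQ` (quenched split, `cfOf`), 141/256 (splice).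
* sec. 1  THE CORE, model free (`PvdmCore`, `PvdmCore.Ok`, **`pvdm_core`**): colours `V → Bool` fair and independent, an independent variable `ξ` (= the configuration in the corridor).
          A family of data `i` (ANY index type, countably many present), `A i = Cyl ∩ NB`, `W i = WO`, frozen sites `frz i s`, unread sites `yf i s`.   `A i` is cut into countably many pieces
          (label = frozen sites, their colours, read sites); on a piece: Harris given the cylinder (193), resampling of the unread colours + Jensen.   NO measurability of `A W frz yf X yh`: a piece depends on finitely many colours.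
* sec. 2  THE POISSON LEVEL (`PvdmSys`, `PvdmSys.Hyp`, **`pvdm_main`** = TR23, `pvdm_cheb`): `pvP ε` on `Conf PvPt`; colours QUENCHED, the geometry of the corridor `C` ANNEALED (so `ŷ_c` does not depend on `η` in `c`).
          All hypotheses are label free: a configuration at a fixed geometry is `cfOf Y σ`.   NO uniqueness of `g0` (TR12) is consumed, only (C2) (`dom`).
* sec. 3  QUENCHED EXITS (27 129 286; for `PvhbLocU` over `pvhbUp ε = PvUp.iter (pvGeo ε) pvCol`): `pvdm_fixed` (a.e. geometry: measurable in the colours + domination), `pvdm_quenchedE` (`pvUpInt`), `pvdm_quenchedI` (`∫⁻`),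
          76's `pvdm_quenched` (Chebyshev), **`pvdm_main_up`** (upper expectation: THE EXIT OF RECORD), **`pvdm_up_cheb`** (upper probability of ANY event `B`).
* sec. 4  HYBRID INVARIANCE IN THE U-FORM (leaf `pvl3_inv_up` of 129): `pvdm_stop_up` (fixed geometry), `pvdm_rec_merge`, **`pvdm_inv_up`**.
-/

set_option autoImplicit false
set_option linter.unusedSectionVars false
set_option linter.unusedVariables false

namespace Claimed.Agent.R289

open MeasureTheory ProbabilityTheory Set Claims.C0465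
open scoped ENNReal

/-! ## 1. the model free core: fair bits `V → Bool` times an independent variable `ξ` -/

section core

variable {V : Type}

/-- a set of colourings which depends on finitely many sites is measurable -/
theorem pvdm_meas_of_dep (N : Finset V) {E : Set (V → Bool)} (h : ∀ s s', (∀ v ∈ N, s' v = s v) → s ∈ E → s' ∈ E) : MeasurableSet E := by
  classical
  have hr : Measurable fun (s : V → Bool) (v : N) => s v := measurable_pi_lambda _ fun v => measurable_pi_apply _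
  have e : E = (fun (s : V → Bool) (v : N) => s v) ⁻¹' ((fun (s : V → Bool) (v : N) => s v) '' E) := by
    ext s
    constructor
    · exact fun hs => ⟨s, hs, rfl⟩
    · rintro ⟨s₀, hs₀, h0⟩
      exact h s₀ s (fun v hv => (congrFun h0 ⟨v, hv⟩).symm) hs₀
  rw [e]
  exact hr (Set.toFinite _).measurableSet

theorem pvdm_mix_self (T : Set V) (s : V → Bool) : pvfqMix T (s, s) = s := by
  funext v
  by_cases hv : v ∈ T
  · rw [pvfqMix_of_mem hv]
  · rw [pvfqMix_of_notMem hv]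

/-- a function which is measurable along the sections `y ↦ f (s on T, y off T)`, `T` finite, `s ∈ B`, is measurable on the measurable set `B` -/
theorem pvdm_meas_sect {T : Set V} (hT : T.Finite) {B : Set (V → Bool)} (mB : MeasurableSet B) {f : (V → Bool) → ℝ≥0∞}
    (hf : ∀ s ∈ B, Measurable fun y => f (pvfqMix T (s, y))) : Measurable (B.indicator f) := by
  classical
  have := hT.to_subtype
  let ex : (T → Bool) → V → Bool := fun x v => if h : v ∈ T then x ⟨v, h⟩ else false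
  let F : (V → Bool) × (T → Bool) → ℝ≥0∞ := fun p => B.indicator f (pvfqMix T (ex p.2, p.1))
  have mF : Measurable F := by
    refine measurable_from_prod_countable_left fun x => ?_
    have mm : Measurable fun y : V → Bool => pvfqMix T (ex x, y) := (measurable_pvfqMix T).comp (measurable_const.prodMk measurable_id)
    by_cases hx : ∃ y, pvfqMix T (ex x, y) ∈ B
    · obtain ⟨y₀, hy₀⟩ := hx
      have e : ∀ y, pvfqMix T (pvfqMix T (ex x, y₀), y) = pvfqMix T (ex x, y) := fun y => pvfqMix_sub subset_rfl _ _ _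
      have e2 : (fun y => F (y, x)) = ((fun y : V → Bool => pvfqMix T (ex x, y)) ⁻¹' B).indicator fun y => f (pvfqMix T (pvfqMix T (ex x, y₀), y)) := by
        funext y
        show B.indicator f (pvfqMix T (ex x, y)) = _
        by_cases hy : pvfqMix T (ex x, y) ∈ B
        · rw [indicator_of_mem hy, indicator_of_mem (show y ∈ (fun y : V → Bool => pvfqMix T (ex x, y)) ⁻¹' B from hy), e]
        · rw [indicator_of_notMem hy, indicator_of_notMem (show y ∉ (fun y : V → Bool => pvfqMix T (ex x, y)) ⁻¹' B from hy)]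
      rw [e2]
      exact (hf _ hy₀).indicator (mm mB)
    · have e2 : (fun y => F (y, x)) = fun _ => 0 := by
        funext y
        exact indicator_of_notMem (fun hy => hx ⟨y, hy⟩) _
      rw [e2]
      exact measurable_const
  have e : B.indicator f = fun s => F (s, fun v : T => s v) := by
    funext s
    show _ = B.indicator f (pvfqMix T (ex (fun v : T => s v), s))
    congr 1
    funext v
    by_cases hv : v ∈ T
    · rw [pvfqMix_of_mem hv]
      show s v = if h : v ∈ T then s v else false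
      rw [dif_pos hv]
    · rw [pvfqMix_of_notMem hv]
  rw [e]
  exact mF.comp (measurable_id.prodMk (measurable_pi_lambda _ fun v => measurable_pi_apply _))

open Classical in
/-- a finite set as a `Finset` (junk `∅`) -/
noncomputable def pvdmFs (T : Set V) : Finset V := if h : T.Finite then h.toFinset else ∅

theorem pvdm_coe_fs {T : Set V} (h : T.Finite) : (pvdmFs T : Set V) = T := by
  unfold pvdmFs
  rw [dif_pos h]
  exact h.coe_toFinset

/-- **the data at a fixed geometry**.   `A i` = `Cyl(D_i) ∩ NB(D_i)`, `W i` = `WO(D_i)`, `frz i s` = the frozen sites of `D_i`, `yf i s` = the sites whose colour the `X` side does not read,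
`X i`, `yh i` = `X(D_i)`, `ŷ(D_i)`;   `w`, `Y` = the cycle weight and the closing sum, functions of the colours and of an independent variable `ξ` (the configuration in the corridor). -/
structure PvdmCore (V : Type) (Ξ : Type*) (ι : Type*) where
  A : ι → Set (V → Bool)
  W : ι → Set (V → Bool)
  frz : ι → (V → Bool) → Set V
  yf : ι → (V → Bool) → Set V
  X : ι → (V → Bool) → ℂ
  yh : ι → (V → Bool) → ℂ
  w : (V → Bool) × Ξ → ℝ≥0∞
  Y : (V → Bool) × Ξ → ℂ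

variable {Ξ : Type*} [MeasurableSpace Ξ] {ι : Type*}

/-- the hypotheses of the core -/
structure PvdmCore.Ok (D : PvdmCore V Ξ ι) (ρ : Measure Ξ) (q : ℝ≥0∞) : Prop where
  mw : ∀ i s, s ∈ D.A i → s ∈ D.W i → Measurable fun p : (V → Bool) × Ξ => D.w (pvfqMix (D.yf i s)ᶜ (s, p.1), p.2)
  mY : ∀ i s, s ∈ D.A i → s ∈ D.W i → Measurable fun p : (V → Bool) × Ξ => D.Y (pvfqMix (D.yf i s)ᶜ (s, p.1), p.2)
  cnt : {i | (D.A i).Nonempty}.Countable
  fin : ∀ i s, s ∈ D.A i → (D.yf i s)ᶜ.Finite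
  dis : ∀ i s, s ∈ D.A i → Disjoint (D.frz i s) (D.yf i s)
  stab : ∀ i s s', s ∈ D.A i → (∀ v ∈ D.frz i s, s' v = s v) → (∀ v, v ∉ D.yf i s → s' v ≤ s v) →
    s' ∈ D.A i ∧ D.frz i s' = D.frz i s ∧ D.yf i s' = D.yf i s ∧ D.X i s' = D.X i s ∧ D.yh i s' = D.yh i s
  stabW : ∀ i s₀ s s', s₀ ∈ D.A i → (∀ v ∈ D.frz i s₀, s v = s₀ v) → (∀ v ∈ D.frz i s₀, s' v = s₀ v) → (∀ v, v ∉ D.yf i s₀ → s' v ≤ s v) →
    s ∈ D.W i → s' ∈ D.W i
  hq : ∀ i s, s ∈ D.A i → q ≤ colLaw V {y | pvtfFr (D.frz i s) s y ∈ D.W i}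
  jen : ∀ i s, s ∈ D.A i → s ∈ D.W i → ‖D.X i s + D.yh i s‖ₑ ^ 2 ≤
    ∫⁻ y, ∫⁻ ξ, D.w (pvfqMix (D.yf i s)ᶜ (s, y), ξ) * ‖D.X i s + D.Y (pvfqMix (D.yf i s)ᶜ (s, y), ξ)‖ₑ ^ 2 ∂ρ ∂colLaw V

/-- the label of a colouring: frozen sites, black frozen sites, sites that are read -/
noncomputable def PvdmCore.lab (D : PvdmCore V Ξ ι) (i : ι) (s : V → Bool) : Finset V × Finset V × Finset V :=
  (pvdmFs (D.frz i s), pvdmFs {v | v ∈ D.frz i s ∧ s v = true}, pvdmFs (D.yf i s)ᶜ)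

/-- the piece of `A i` with a given label -/
def PvdmCore.E (D : PvdmCore V Ξ ι) (i : ι) (k : Finset V × Finset V × Finset V) : Set (V → Bool) := {s | s ∈ D.A i ∧ D.lab i s = k}

variable {D : PvdmCore V Ξ ι} {ρ : Measure Ξ} {q : ℝ≥0∞}

theorem PvdmCore.Ok.frz_sub (h : D.Ok ρ q) {i : ι} {s : V → Bool} (hs : s ∈ D.A i) : D.frz i s ⊆ (D.yf i s)ᶜ :=
  fun v hv hv' => Set.disjoint_left.1 (h.dis i s hs) hv hv'

theorem PvdmCore.Ok.frz_fin (h : D.Ok ρ q) {i : ι} {s : V → Bool} (hs : s ∈ D.A i) : (D.frz i s).Finite :=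
  (h.fin i s hs).subset (h.frz_sub hs)

/-- an admissible move stays in the piece -/
theorem PvdmCore.Ok.move (h : D.Ok ρ q) {i : ι} {k : Finset V × Finset V × Finset V} {s s' : V → Bool} (hs : s ∈ D.E i k)
    (h1 : ∀ v ∈ D.frz i s, s' v = s v) (h2 : ∀ v, v ∉ D.yf i s → s' v ≤ s v) :
    s' ∈ D.E i k ∧ D.X i s' = D.X i s ∧ D.yh i s' = D.yh i s := by
  obtain ⟨a1, a2, a3, a4, a5⟩ := h.stab i s s' hs.1 h1 h2
  refine ⟨⟨a1, ?_⟩, a4, a5⟩
  rw [← hs.2]
  unfold PvdmCore.lab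
  rw [a2, a3]
  have e : {v | v ∈ D.frz i s ∧ s' v = true} = {v | v ∈ D.frz i s ∧ s v = true} := by
    ext v
    simp only [mem_ofPred_eq]
    constructor
    · rintro ⟨b1, b2⟩; exact ⟨b1, by rw [← h1 v b1]; exact b2⟩
    · rintro ⟨b1, b2⟩; exact ⟨b1, by rw [h1 v b1]; exact b2⟩
  rw [e]

/-- two colourings of one piece have the same frozen sites with the same colours, and the same unread sites -/
theorem PvdmCore.Ok.same (h : D.Ok ρ q) {i : ι} {k : Finset V × Finset V × Finset V} {s s' : V → Bool} (hs : s ∈ D.E i k) (hs' : s' ∈ D.E i k) :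
    D.frz i s' = D.frz i s ∧ D.yf i s' = D.yf i s ∧ ∀ v ∈ D.frz i s, s' v = s v := by
  have e : D.lab i s' = D.lab i s := hs'.2.trans hs.2.symm
  have e1 : pvdmFs (D.frz i s') = pvdmFs (D.frz i s) := congrArg Prod.fst e
  have e2 : pvdmFs {v | v ∈ D.frz i s' ∧ s' v = true} = pvdmFs {v | v ∈ D.frz i s ∧ s v = true} := congrArg (fun x => x.2.1) e
  have e3 : pvdmFs (D.yf i s')ᶜ = pvdmFs (D.yf i s)ᶜ := congrArg (fun x => x.2.2) e
  have f1 : D.frz i s' = D.frz i s := by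
    rw [← pvdm_coe_fs (h.frz_fin hs'.1), ← pvdm_coe_fs (h.frz_fin hs.1), e1]
  have f3 : D.yf i s' = D.yf i s := by
    have : (D.yf i s')ᶜ = (D.yf i s)ᶜ := by rw [← pvdm_coe_fs (h.fin i s' hs'.1), ← pvdm_coe_fs (h.fin i s hs.1), e3]
    exact compl_injective this
  have f2 : {v | v ∈ D.frz i s' ∧ s' v = true} = {v | v ∈ D.frz i s ∧ s v = true} := by
    have g1 : {v | v ∈ D.frz i s' ∧ s' v = true}.Finite := (h.frz_fin hs'.1).subset fun v hv => hv.1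
    have g2 : {v | v ∈ D.frz i s ∧ s v = true}.Finite := (h.frz_fin hs.1).subset fun v hv => hv.1
    rw [← pvdm_coe_fs g1, ← pvdm_coe_fs g2, e2]
  refine ⟨f1, f3, fun v hv => ?_⟩
  have g : (v ∈ D.frz i s' ∧ s' v = true) ↔ (v ∈ D.frz i s ∧ s v = true) := Set.ext_iff.1 f2 v
  rw [f1] at g
  cases hb : s v
  · cases hb' : s' v
    · rfl
    · have := (g.1 ⟨hv, hb'⟩).2
      rw [hb] at this
      exact absurd this (by decide)
  · exact (g.2 ⟨hv, hb⟩).2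

/-- `X` and `ŷ` are constant on a piece -/
theorem PvdmCore.Ok.const (h : D.Ok ρ q) {i : ι} {k : Finset V × Finset V × Finset V} {s s' : V → Bool} (hs : s ∈ D.E i k) (hs' : s' ∈ D.E i k) :
    D.X i s' = D.X i s ∧ D.yh i s' = D.yh i s := by
  obtain ⟨f1, f3, f2⟩ := h.same hs hs'
  have m1 := h.move (s' := fun v => s v && s' v) hs (fun v hv => by simp [f2 v hv]) (fun v _ => by cases s v <;> cases s' v <;> decide)
  have m2 := h.move (s' := fun v => s v && s' v) hs' (fun v hv => by rw [f1] at hv; simp [f2 v hv]) (fun v _ => by cases s v <;> cases s' v <;> decide)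
  exact ⟨m2.2.1.symm.trans m1.2.1, m2.2.2.symm.trans m1.2.2⟩

/-- a piece only depends on the colours that are read -/
theorem PvdmCore.Ok.dep (h : D.Ok ρ q) {i : ι} {k : Finset V × Finset V × Finset V} {s s' : V → Bool} (hs : s ∈ D.E i k)
    (h1 : ∀ v, v ∉ D.yf i s → s' v = s v) : s' ∈ D.E i k :=
  (h.move hs (fun v hv => h1 v (h.frz_sub hs.1 hv)) (fun v hv => (h1 v hv).le)).1

theorem PvdmCore.Ok.depW (h : D.Ok ρ q) {i : ι} {k : Finset V × Finset V × Finset V} {s s' : V → Bool} (hs : s ∈ D.E i k ∩ D.W i)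
    (h1 : ∀ v, v ∉ D.yf i s → s' v = s v) : s' ∈ D.E i k ∩ D.W i :=
  ⟨h.dep hs.1 h1, h.stabW i s s s' hs.1.1 (fun _ _ => rfl) (fun v hv => h1 v (h.frz_sub hs.1.1 hv)) (fun v hv => (h1 v hv).le) hs.2⟩

theorem PvdmCore.Ok.mem_read (h : D.Ok ρ q) {i : ι} {k : Finset V × Finset V × Finset V} {s : V → Bool} (hs : s ∈ D.E i k) {v : V}
    (hv : v ∉ D.yf i s) : v ∈ k.2.2 := by
  have e : ((pvdmFs (D.yf i s)ᶜ : Finset V) : Set V) = (D.yf i s)ᶜ := pvdm_coe_fs (h.fin i s hs.1)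
  have e2 : k.2.2 = pvdmFs (D.yf i s)ᶜ := by rw [← hs.2]; rfl
  rw [e2, ← Finset.mem_coe, e]
  exact hv

theorem PvdmCore.Ok.meas_E (h : D.Ok ρ q) (i : ι) (k : Finset V × Finset V × Finset V) : MeasurableSet (D.E i k) :=
  pvdm_meas_of_dep k.2.2 fun _ _ hss hs => h.dep hs fun v hv => hss v (h.mem_read hs hv)

theorem PvdmCore.Ok.meas_EW (h : D.Ok ρ q) (i : ι) (k : Finset V × Finset V × Finset V) : MeasurableSet (D.E i k ∩ D.W i) :=
  pvdm_meas_of_dep k.2.2 fun _ _ hss hs => h.depW hs fun v hv => hss v (h.mem_read hs.1 hv)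

/-- the right side on one piece is measurable (only the SECTIONS of `w`, `Y` along the unread colours are asked to be measurable) -/
theorem PvdmCore.Ok.meas_G [SFinite ρ] (h : D.Ok ρ q) (i : ι) (k : Finset V × Finset V × Finset V) {s₀ : V → Bool} (hs₀ : s₀ ∈ D.E i k) (x : ℂ) :
    Measurable ((D.E i k ∩ D.W i).indicator fun s => ∫⁻ ξ, D.w (s, ξ) * ‖x + D.Y (s, ξ)‖ₑ ^ 2 ∂ρ) := by
  refine pvdm_meas_sect (h.fin i s₀ hs₀.1) (h.meas_EW i k) fun s hs => ?_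
  have f3 := (h.same hs₀ hs.1).2.1
  have m1 := h.mw i s hs.1.1 hs.2
  have m2 := h.mY i s hs.1.1 hs.2
  rw [f3] at m1 m2
  exact (m1.mul ((measurable_const.add m2).enorm.pow_const 2)).lintegral_prod_right'

/-- **Harris on one piece** (given the cylinder of the frozen sites, 193) -/
theorem PvdmCore.Ok.harris [Countable V] (h : D.Ok ρ q) (i : ι) (k : Finset V × Finset V × Finset V) :
    q * colLaw V (D.E i k) ≤ colLaw V (D.E i k ∩ D.W i) := by
  rcases (D.E i k).eq_empty_or_nonempty with h0 | ⟨s₀, hs₀⟩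
  · simp [h0]
  have hEC : D.E i k ⊆ pvtfCyl (D.frz i s₀) s₀ := fun s hs v hv => (h.same hs₀ hs).2.2 v hv
  have hfr : ∀ s ∈ pvtfCyl (D.frz i s₀) s₀, pvtfFr (D.frz i s₀) s₀ s = s := by
    intro s hs
    funext v
    by_cases hv : v ∈ D.frz i s₀
    · rw [pvtf_fr_mem hv]; exact (hs v hv).symm
    · rw [pvtf_fr_notMem hv]
  have hle : ∀ s s' : V → Bool, (∀ v, v ∉ D.yf i s₀ → s' v ≤ s v) → ∀ v, v ∉ D.yf i s₀ → pvtfFr (D.frz i s₀) s₀ s' v ≤ pvtfFr (D.frz i s₀) s₀ s v := by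
    intro s s' hss v hv
    by_cases hz : v ∈ D.frz i s₀
    · rw [pvtf_fr_mem hz, pvtf_fr_mem hz]
    · rw [pvtf_fr_notMem hz, pvtf_fr_notMem hz]; exact hss v hv
  have hWmono : ∀ s s' : V → Bool, (∀ v, v ∉ D.yf i s₀ → s' v ≤ s v) → pvtfFr (D.frz i s₀) s₀ s ∈ D.W i → pvtfFr (D.frz i s₀) s₀ s' ∈ D.W i :=
    fun s s' hss hs => h.stabW i s₀ _ _ hs₀.1 (fun v hv => pvtf_fr_mem hv _ _) (fun v hv => pvtf_fr_mem hv _ _) (hle s s' hss) hs
  have mW' : MeasurableSet {s | pvtfFr (D.frz i s₀) s₀ s ∈ D.W i} :=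
    pvdm_meas_of_dep k.2.2 fun s s' hss hs => hWmono s s' (fun v hv => (hss v (h.mem_read hs₀ hv)).le) hs
  have dE : PvtfDec (D.frz i s₀) s₀ (D.E i k) := fun s s' hc hc' hs hl =>
    (h.move hs (by rw [(h.same hs₀ hs).1]; exact fun v hv => (hc' v hv).trans (hc v hv).symm) (fun v _ => hl v)).1
  have dW : PvtfDec (D.frz i s₀) s₀ {s | pvtfFr (D.frz i s₀) s₀ s ∈ D.W i} := fun s s' _ _ hs hl => hWmono s s' (fun v _ => hl v) hs
  have eW : D.E i k ∩ D.W i = pvtfCyl (D.frz i s₀) s₀ ∩ (D.E i k ∩ {s | pvtfFr (D.frz i s₀) s₀ s ∈ D.W i}) := by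
    ext s
    constructor
    · rintro ⟨a, b⟩
      exact ⟨hEC a, a, by show pvtfFr _ _ s ∈ D.W i; rw [hfr s (hEC a)]; exact b⟩
    · rintro ⟨a, b, c⟩
      refine ⟨b, ?_⟩
      have c' : pvtfFr (D.frz i s₀) s₀ s ∈ D.W i := c
      rwa [hfr s a] at c'
  have eE : D.E i k = pvtfCyl (D.frz i s₀) s₀ ∩ D.E i k := (inter_eq_right.2 hEC).symm
  have hq' : q ≤ pvtfPD (D.frz i s₀) s₀ {s | pvtfFr (D.frz i s₀) s₀ s ∈ D.W i} := by
    rw [pvtf_PD_apply _ _ mW']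
    refine (h.hq i s₀ hs₀.1).trans (le_of_eq ?_)
    congr 1
    ext y
    have e : pvtfFr (D.frz i s₀) s₀ (pvtfFr (D.frz i s₀) s₀ y) = pvtfFr (D.frz i s₀) s₀ y :=
      hfr _ fun v hv => pvtf_fr_mem hv _ _
    simp only [mem_ofPred_eq, e]
  rw [eW, pvtf_cyl_inter _ _ ((h.meas_E i k).inter mW')]
  conv_lhs => rw [eE, pvtf_cyl_inter _ _ (h.meas_E i k)]
  calc q * (colLaw V (pvtfCyl (D.frz i s₀) s₀) * pvtfPD (D.frz i s₀) s₀ (D.E i k))
      = colLaw V (pvtfCyl (D.frz i s₀) s₀) * (pvtfPD (D.frz i s₀) s₀ (D.E i k) * q) := by ring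
    _ ≤ colLaw V (pvtfCyl (D.frz i s₀) s₀) * (pvtfPD (D.frz i s₀) s₀ (D.E i k) * pvtfPD (D.frz i s₀) s₀ {s | pvtfFr (D.frz i s₀) s₀ s ∈ D.W i}) := by
        gcongr
    _ ≤ _ := by
        gcongr
        exact pvtf_cyl_harris _ _ (h.meas_E i k) mW' dE dW

/-- **Jensen on one piece**: resampling of the colours that the `X` side does not read -/
theorem PvdmCore.Ok.jensen [SFinite ρ] (h : D.Ok ρ q) (i : ι) (k : Finset V × Finset V × Finset V) {s₀ : V → Bool} (hs₀ : s₀ ∈ D.E i k) :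
    ‖D.X i s₀ + D.yh i s₀‖ₑ ^ 2 * colLaw V (D.E i k ∩ D.W i)
      ≤ ∫⁻ s in D.E i k ∩ D.W i, ∫⁻ ξ, D.w (s, ξ) * ‖D.X i s₀ + D.Y (s, ξ)‖ₑ ^ 2 ∂ρ ∂colLaw V := by
  have mEW := h.meas_EW i k
  have hh := h.meas_G i k hs₀ (D.X i s₀)
  rw [← lintegral_indicator mEW, ← lintegral_indicator_const mEW]
  conv_rhs => rw [← pvtf_split (D.yf i s₀)ᶜ]
  have hh2 : Measurable fun a : (V → Bool) × (V → Bool) => (D.E i k ∩ D.W i).indicator
      (fun s : V → Bool => ∫⁻ ξ, D.w (s, ξ) * ‖D.X i s₀ + D.Y (s, ξ)‖ₑ ^ 2 ∂ρ) (pvfqMix (D.yf i s₀)ᶜ a) := hh.comp (measurable_pvfqMix _)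
  rw [lintegral_map hh (measurable_pvfqMix _), lintegral_prod _ hh2.aemeasurable]
  refine lintegral_mono fun s => ?_
  by_cases hs : s ∈ D.E i k ∩ D.W i
  · rw [indicator_of_mem hs]
    obtain ⟨-, f3, -⟩ := h.same hs₀ hs.1
    obtain ⟨c1, c2⟩ := h.const hs₀ hs.1
    have e : ∀ y, (D.E i k ∩ D.W i).indicator (fun s : V → Bool => ∫⁻ ξ, D.w (s, ξ) * ‖D.X i s₀ + D.Y (s, ξ)‖ₑ ^ 2 ∂ρ) (pvfqMix (D.yf i s₀)ᶜ (s, y))
        = ∫⁻ ξ, D.w (pvfqMix (D.yf i s₀)ᶜ (s, y), ξ) * ‖D.X i s₀ + D.Y (pvfqMix (D.yf i s₀)ᶜ (s, y), ξ)‖ₑ ^ 2 ∂ρ := fun y =>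
      indicator_of_mem (h.depW hs fun v hv => pvfqMix_of_mem (by rw [f3] at hv; exact hv) _) _
    simp_rw [e]
    have j := h.jen i s hs.1.1 hs.2
    rw [c1, c2, f3] at j
    exact j
  · rw [indicator_of_notMem hs]
    exact zero_le

/-- the pieces cut `A i` -/
theorem PvdmCore.tsum_E (D : PvdmCore V Ξ ι) (i : ι) (B : Set (V → Bool)) (f : (V → Bool) → ℝ≥0∞) (s : V → Bool) :
    ∑' k, (D.E i k ∩ B).indicator f s = (D.A i ∩ B).indicator f s := by
  classical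
  rw [tsum_eq_single (D.lab i s)]
  · by_cases hs : s ∈ D.A i ∩ B
    · rw [indicator_of_mem hs, indicator_of_mem (show s ∈ D.E i (D.lab i s) ∩ B from ⟨⟨hs.1, rfl⟩, hs.2⟩)]
    · rw [indicator_of_notMem hs, indicator_of_notMem (fun hh => hs ⟨hh.1.1, hh.2⟩)]
  · intro k hk
    exact indicator_of_notMem (fun hh => hk hh.1.2.symm) _

/-- the two functions on one piece, with their measurability, and the inequality -/
theorem PvdmCore.Ok.piece [Countable V] [SFinite ρ] (h : D.Ok ρ q) (i : ι) (k : Finset V × Finset V × Finset V) :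
    Measurable ((D.E i k ∩ univ).indicator fun s => ‖D.X i s + D.yh i s‖ₑ ^ 2) ∧
    Measurable ((D.E i k ∩ D.W i).indicator fun s => ∫⁻ ξ, D.w (s, ξ) * ‖D.X i s + D.Y (s, ξ)‖ₑ ^ 2 ∂ρ) ∧
    q * ∫⁻ s, (D.E i k ∩ univ).indicator (fun s => ‖D.X i s + D.yh i s‖ₑ ^ 2) s ∂colLaw V
      ≤ ∫⁻ s, (D.E i k ∩ D.W i).indicator (fun s => ∫⁻ ξ, D.w (s, ξ) * ‖D.X i s + D.Y (s, ξ)‖ₑ ^ 2 ∂ρ) s ∂colLaw V := by
  rw [inter_univ]
  rcases (D.E i k).eq_empty_or_nonempty with h0 | ⟨s₀, hs₀⟩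
  · simp only [h0, empty_inter, indicator_empty]
    exact ⟨measurable_const, measurable_const, by simp⟩
  have e1 : ((D.E i k).indicator fun s => ‖D.X i s + D.yh i s‖ₑ ^ 2) = (D.E i k).indicator fun _ => ‖D.X i s₀ + D.yh i s₀‖ₑ ^ 2 := by
    funext s
    by_cases hs : s ∈ D.E i k
    · rw [indicator_of_mem hs, indicator_of_mem hs, (h.const hs₀ hs).1, (h.const hs₀ hs).2]
    · rw [indicator_of_notMem hs, indicator_of_notMem hs]
  have e2 : ((D.E i k ∩ D.W i).indicator fun s => ∫⁻ ξ, D.w (s, ξ) * ‖D.X i s + D.Y (s, ξ)‖ₑ ^ 2 ∂ρ)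
      = (D.E i k ∩ D.W i).indicator fun s => ∫⁻ ξ, D.w (s, ξ) * ‖D.X i s₀ + D.Y (s, ξ)‖ₑ ^ 2 ∂ρ := by
    funext s
    by_cases hs : s ∈ D.E i k ∩ D.W i
    · rw [indicator_of_mem hs, indicator_of_mem hs, (h.const hs₀ hs.1).1]
    · rw [indicator_of_notMem hs, indicator_of_notMem hs]
  rw [e1, e2]
  refine ⟨measurable_const.indicator (h.meas_E i k), h.meas_G i k hs₀ _, ?_⟩
  rw [lintegral_indicator_const (h.meas_E i k), lintegral_indicator (h.meas_EW i k)]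
  calc q * (‖D.X i s₀ + D.yh i s₀‖ₑ ^ 2 * colLaw V (D.E i k)) = ‖D.X i s₀ + D.yh i s₀‖ₑ ^ 2 * (q * colLaw V (D.E i k)) := by ring
    _ ≤ ‖D.X i s₀ + D.yh i s₀‖ₑ ^ 2 * colLaw V (D.E i k ∩ D.W i) := by
        gcongr
        exact h.harris i k
    _ ≤ _ := h.jensen i k hs₀

/-- one datum index `i`: measurability and the inequality -/
theorem PvdmCore.Ok.one [Countable V] [SFinite ρ] (h : D.Ok ρ q) (i : ι) :
    Measurable ((D.A i).indicator fun s => ‖D.X i s + D.yh i s‖ₑ ^ 2) ∧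
    Measurable ((D.A i ∩ D.W i).indicator fun s => ∫⁻ ξ, D.w (s, ξ) * ‖D.X i s + D.Y (s, ξ)‖ₑ ^ 2 ∂ρ) ∧
    q * ∫⁻ s, (D.A i).indicator (fun s => ‖D.X i s + D.yh i s‖ₑ ^ 2) s ∂colLaw V
      ≤ ∫⁻ s, (D.A i ∩ D.W i).indicator (fun s => ∫⁻ ξ, D.w (s, ξ) * ‖D.X i s + D.Y (s, ξ)‖ₑ ^ 2 ∂ρ) s ∂colLaw V := by
  have e1 : ((D.A i).indicator fun s => ‖D.X i s + D.yh i s‖ₑ ^ 2)
      = fun s => ∑' k, (D.E i k ∩ univ).indicator (fun s => ‖D.X i s + D.yh i s‖ₑ ^ 2) s := by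
    funext s
    rw [D.tsum_E i univ, inter_univ]
  have e2 : ((D.A i ∩ D.W i).indicator fun s => ∫⁻ ξ, D.w (s, ξ) * ‖D.X i s + D.Y (s, ξ)‖ₑ ^ 2 ∂ρ)
      = fun s => ∑' k, (D.E i k ∩ D.W i).indicator (fun s => ∫⁻ ξ, D.w (s, ξ) * ‖D.X i s + D.Y (s, ξ)‖ₑ ^ 2 ∂ρ) s := by
    funext s
    rw [D.tsum_E i (D.W i)]
  rw [e1, e2]
  refine ⟨Measurable.tsum fun k => (h.piece i k).1, Measurable.tsum fun k => (h.piece i k).2.1, ?_⟩
  rw [lintegral_tsum fun k => (h.piece i k).1.aemeasurable, lintegral_tsum fun k => (h.piece i k).2.1.aemeasurable, ← ENNReal.tsum_mul_left]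
  exact ENNReal.tsum_le_tsum fun k => (h.piece i k).2.2

/-- **THE CORE: cylinder domination at a fixed geometry**, colours `V → Bool` fair and independent, `ξ ~ ρ` independent of the colours.
The index type `ι` is arbitrary (countably many `A i` are nonempty); no measurability is asked of `A`, `W`, `frz`, `yf`, `X`, `yh`. -/
theorem pvdm_core [Countable V] [SFinite ρ] (h : D.Ok ρ q) :
    q * ∫⁻ s, ∑' i, (D.A i).indicator (fun s => ‖D.X i s + D.yh i s‖ₑ ^ 2) s ∂colLaw V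
      ≤ ∫⁻ s, ∫⁻ ξ, ∑' i, (D.A i ∩ D.W i).indicator (fun s => D.w (s, ξ) * ‖D.X i s + D.Y (s, ξ)‖ₑ ^ 2) s ∂ρ ∂colLaw V := by
  have := h.cnt.to_subtype
  have s1 : ∫⁻ s, ∑' i, (D.A i).indicator (fun s => ‖D.X i s + D.yh i s‖ₑ ^ 2) s ∂colLaw V
      ≤ ∑' i, ∫⁻ s, (D.A i).indicator (fun s => ‖D.X i s + D.yh i s‖ₑ ^ 2) s ∂colLaw V := by
    have e : ∀ s, ∑' i, (D.A i).indicator (fun s => ‖D.X i s + D.yh i s‖ₑ ^ 2) s
        = ∑' i : {i | (D.A i).Nonempty}, (D.A i).indicator (fun s => ‖D.X i s + D.yh i s‖ₑ ^ 2) s := by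
      intro s
      refine (tsum_subtype_eq_of_support_subset (f := fun i => (D.A i).indicator (fun s => ‖D.X i s + D.yh i s‖ₑ ^ 2) s) ?_).symm
      intro i hi
      by_contra hne
      exact hi (indicator_of_notMem (fun hs => hne ⟨s, hs⟩) _)
    simp_rw [e]
    rw [lintegral_tsum fun i : {i | (D.A i).Nonempty} => (h.one i).1.aemeasurable]
    exact ENNReal.tsum_comp_le_tsum_of_injective Subtype.val_injective
      (fun i => ∫⁻ s, (D.A i).indicator (fun s => ‖D.X i s + D.yh i s‖ₑ ^ 2) s ∂colLaw V)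
  calc q * ∫⁻ s, ∑' i, (D.A i).indicator (fun s => ‖D.X i s + D.yh i s‖ₑ ^ 2) s ∂colLaw V
      ≤ q * ∑' i, ∫⁻ s, (D.A i).indicator (fun s => ‖D.X i s + D.yh i s‖ₑ ^ 2) s ∂colLaw V := by gcongr
    _ = ∑' i, q * ∫⁻ s, (D.A i).indicator (fun s => ‖D.X i s + D.yh i s‖ₑ ^ 2) s ∂colLaw V := ENNReal.tsum_mul_left.symm
    _ ≤ ∑' i, ∫⁻ s, (D.A i ∩ D.W i).indicator (fun s => ∫⁻ ξ, D.w (s, ξ) * ‖D.X i s + D.Y (s, ξ)‖ₑ ^ 2 ∂ρ) s ∂colLaw V :=
        ENNReal.tsum_le_tsum fun i => (h.one i).2.2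
    _ ≤ ∫⁻ s, ∑' i, (D.A i ∩ D.W i).indicator (fun s => ∫⁻ ξ, D.w (s, ξ) * ‖D.X i s + D.Y (s, ξ)‖ₑ ^ 2 ∂ρ) s ∂colLaw V :=
        pvti_tsum_lintegral_le _ _ fun i => (h.one i).2.1.aemeasurable
    _ ≤ _ := by
        refine lintegral_mono fun s => ?_
        have e : ∀ i, (D.A i ∩ D.W i).indicator (fun s => ∫⁻ ξ, D.w (s, ξ) * ‖D.X i s + D.Y (s, ξ)‖ₑ ^ 2 ∂ρ) s
            = ∫⁻ ξ, (D.A i ∩ D.W i).indicator (fun s => D.w (s, ξ) * ‖D.X i s + D.Y (s, ξ)‖ₑ ^ 2) s ∂ρ := by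
          intro i
          by_cases hs : s ∈ D.A i ∩ D.W i
          · simp only [indicator_of_mem hs]
          · simp only [indicator_of_notMem hs, lintegral_zero]
        simp_rw [e]
        refine pvti_tsum_lintegral_le _ _ fun i => ?_
        by_cases hs : s ∈ D.A i ∩ D.W i
        · simp only [indicator_of_mem hs]
          have m1 : Measurable fun ξ : Ξ => D.w (s, ξ) := by
            have := (h.mw i s hs.1 hs.2).comp (measurable_prodMk_left (x := s))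
            simpa only [Function.comp_def, pvdm_mix_self] using this
          have m2 : Measurable fun ξ : Ξ => D.Y (s, ξ) := by
            have := (h.mY i s hs.1 hs.2).comp (measurable_prodMk_left (x := s))
            simpa only [Function.comp_def, pvdm_mix_self] using this
          exact (m1.mul ((measurable_const.add m2).enorm.pow_const 2)).aemeasurable
        · simp only [indicator_of_notMem hs]
          exact aemeasurable_const

/-- the left side of the core is a MEASURABLE function of the colours -/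
theorem PvdmCore.Ok.meas_sum [Countable V] [SFinite ρ] (h : D.Ok ρ q) :
    Measurable fun s => ∑' i, (D.A i).indicator (fun s => ‖D.X i s + D.yh i s‖ₑ ^ 2) s := by
  have := h.cnt.to_subtype
  have e : (fun s => ∑' i, (D.A i).indicator (fun s => ‖D.X i s + D.yh i s‖ₑ ^ 2) s)
      = fun s => ∑' i : {i | (D.A i).Nonempty}, (D.A i).indicator (fun s => ‖D.X i s + D.yh i s‖ₑ ^ 2) s := by
    funext s
    refine (tsum_subtype_eq_of_support_subset (f := fun i => (D.A i).indicator (fun s => ‖D.X i s + D.yh i s‖ₑ ^ 2) s) ?_).symm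
    intro i hi
    by_contra hne
    exact hi (indicator_of_notMem (fun hs => hne ⟨s, hs⟩) _)
  rw [e]
  exact Measurable.tsum fun i : {i | (D.A i).Nonempty} => (h.one i).1

/-- **Chebyshev at a fixed geometry**: OUTER probability of the colourings at which some present datum is large -/
theorem pvdm_core_cheb [Countable V] [SFinite ρ] (h : D.Ok ρ q) (u : ℝ≥0∞) :
    q * (u ^ 2 * colLaw V {s | ∃ i, s ∈ D.A i ∧ u ≤ ‖D.X i s + D.yh i s‖ₑ})
      ≤ ∫⁻ s, ∫⁻ ξ, ∑' i, (D.A i ∩ D.W i).indicator (fun s => D.w (s, ξ) * ‖D.X i s + D.Y (s, ξ)‖ₑ ^ 2) s ∂ρ ∂colLaw V := by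
  refine le_trans ?_ (pvdm_core h)
  gcongr
  refine le_trans ?_ (mul_meas_ge_le_lintegral h.meas_sum (u ^ 2))
  refine mul_le_mul_right (measure_mono ?_) _
  rintro s ⟨i, hi, hu⟩
  show u ^ 2 ≤ ∑' i, (D.A i).indicator (fun s => ‖D.X i s + D.yh i s‖ₑ ^ 2) s
  refine le_trans ?_ (ENNReal.le_tsum i)
  rw [indicator_of_mem hi]
  gcongr

end core

/-! ## 2. the statement at the level of the Poisson process -/

section ppp

open Classical in
/-- colours `κ` on `U`, colours `σ` elsewhere -/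
noncomputable def pvdmOv (U : Set ℂ) (κ σ : ℂ → Bool) : ℂ → Bool := fun z => if z ∈ U then κ z else σ z

theorem pvdm_ov_mem {U : Set ℂ} {z : ℂ} (h : z ∈ U) (κ σ : ℂ → Bool) : pvdmOv U κ σ z = κ z := if_pos h

theorem pvdm_ov_notMem {U : Set ℂ} {z : ℂ} (h : z ∉ U) (κ σ : ℂ → Bool) : pvdmOv U κ σ z = σ z := if_neg h

theorem pvdm_cfOf_congr {Y : Set ℂ} {σ σ' : ℂ → Bool} (h : ∀ z ∈ Y, σ z = σ' z) : cfOf Y σ = cfOf Y σ' := by
  ext p
  simp only [cfOf, mem_ofPred_eq]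
  constructor
  · rintro ⟨h1, h2⟩; exact ⟨h1, by rw [h2, h _ h1]⟩
  · rintro ⟨h1, h2⟩; exact ⟨h1, by rw [h2, h _ h1]⟩

/-- the points off the corridor `C` (kept by the resampling of the geometry) -/
def pvdmU (C : Set ℂ) : Set PvPt := Prod.fst ⁻¹' Cᶜ

theorem pvdm_measurableSet_U {C : Set ℂ} (hC : MeasurableSet C) : MeasurableSet (pvdmU C) := measurable_fst hC.compl

variable {ι : Type*}

/-- **THE DATA OF N1' (cylinder domination, W1_208 sec. 2) for one pattern `π`**.   A configuration at a fixed geometry is written `cfOf Y σ` (`Y` = the sites, `σ : ℂ → Bool` = the colours, `true` = black).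
* `Ok Y`   any almost sure property of the set of the sites;
* `C`      the region whose GEOMETRY is resampled (inner lanes of the corridor `c`, off the boxes of the two pins);
* `i : ι`  the index of the datum (`g0`; the two states are functions of the configuration); ANY type;
* `A i`    `Cyl(D_i) ∩ NB(D_i) ∩ {η good}`;   `WO i` the outer white lane;   `frz i ω` the frozen sites of `D_i`;
* `yf i ω` the sites whose colour the `X` side does NOT read: the class YCL off `C` (fresh sites of the inner mouths) and everything outside the patch;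
* `X i ω = X(D_i)`, `yh i ω = ŷ_c(D_Y)`;   `w` the cycle weight (`W_c`, or `1_SY / P(SY | D_Y)`), `Y` the closing sum, `H` a majorant (`D_c Θ`). -/
structure PvdmSys (ι : Type*) where
  Ok : Set ℂ → Prop
  C : Set ℂ
  A : ι → Set (Conf PvPt)
  WO : ι → Set (Conf PvPt)
  frz : ι → Conf PvPt → Set ℂ
  yf : ι → Conf PvPt → Set ℂ
  X : ι → Conf PvPt → ℂ
  yh : ι → Conf PvPt → ℂ
  w : Conf PvPt → ℝ≥0∞
  Y : Conf PvPt → ℂ
  H : Conf PvPt → ℝ≥0∞
  q : ℝ≥0∞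

/-- the experiment: the colours of `yf i ω` are replaced by `κ`, the configuration in the corridor by that of `ω₂` -/
noncomputable def PvdmSys.R (S : PvdmSys ι) (i : ι) (Y : Set ℂ) (σ κ : ℂ → Bool) (ω₂ : Conf PvPt) : Conf PvPt :=
  Conf.spl (pvdmU S.C) (cfOf Y (pvdmOv (S.yf i (cfOf Y σ)) κ σ), ω₂)

theorem pvdm_measurable_ov (U : Set ℂ) (σ : ℂ → Bool) : Measurable fun κ : ℂ → Bool => pvdmOv U κ σ := by
  refine measurable_pi_lambda _ fun z => ?_
  by_cases hz : z ∈ U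
  · simp only [pvdm_ov_mem hz]; exact measurable_pi_apply z
  · simp only [pvdm_ov_notMem hz]; exact measurable_const

theorem pvdm_measurable_cfOf {Y : Set ℂ} (hY : Y.Countable) : Measurable (cfOf Y) := by
  have e : cfOf Y = pvfCf Y ∘ fun (κ : ℂ → Bool) (v : ↥Y) => κ v := by
    funext κ
    ext p
    constructor
    · rintro ⟨h1, h2⟩
      exact ⟨⟨p.1, h1⟩, Prod.ext rfl h2⟩
    · rintro ⟨v, rfl⟩
      exact ⟨v.2, rfl⟩
  rw [e]
  exact (pvf_measurable_cf hY).comp (measurable_pi_lambda _ fun v => measurable_pi_apply _)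

/-- the experiment is measurable in `(κ, ω₂)`: so the fields `mw`, `mY` below follow from `Measurable S.w`, `Measurable S.Y` when the sets of sites are countable -/
theorem PvdmSys.measurable_R (S : PvdmSys ι) (hC : MeasurableSet S.C) {Y : Set ℂ} (hY : Y.Countable) (i : ι) (σ : ℂ → Bool) :
    Measurable fun p : (ℂ → Bool) × Conf PvPt => S.R i Y σ p.1 p.2 :=
  (Conf.measurable_spl (pvdm_measurableSet_U hC)).comp
    ((((pvdm_measurable_cfOf hY).comp (pvdm_measurable_ov _ σ)).comp measurable_fst).prodMk measurable_snd)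

/-- **THE HYPOTHESES OF N1'**.   `mw`, `mY` = SECTIONWISE measurability only (296, 193): at a FIXED configuration `cfOf Y σ` of `A i ∩ WO i`, in the variables `(κ, ω₂)` of the experiment (the states are constants there);   `stab` = the datum is a cylinder and `NB` is decreasing;   `stabW` = `WO` is decreasing on the cylinder;   `hq` = `P(WO | D) ≥ q_W`;   `rd` = the `X` side does not read the corridor;
`jen` = Jensen for the experiment (see `pvdm_jen_of_mean`);   `dom` = (C2): closing + injectivity of `D ↦ P'`. -/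
structure PvdmSys.Hyp (S : PvdmSys ι) (ε : ℝ) : Prop where
  ok_ae : ∀ᵐ ω ∂pvP ε, S.Ok (cfSites ω)
  mC : MeasurableSet S.C
  mw : ∀ Y, S.Ok Y → ∀ i σ, cfOf Y σ ∈ S.A i → cfOf Y σ ∈ S.WO i → Measurable fun p : (ℂ → Bool) × Conf PvPt => S.w (S.R i Y σ p.1 p.2)
  mY : ∀ Y, S.Ok Y → ∀ i σ, cfOf Y σ ∈ S.A i → cfOf Y σ ∈ S.WO i → Measurable fun p : (ℂ → Bool) × Conf PvPt => S.Y (S.R i Y σ p.1 p.2)
  mH : Measurable S.H
  cnt : ∀ Y, S.Ok Y → {i | ∃ σ, cfOf Y σ ∈ S.A i}.Countable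
  fin : ∀ Y, S.Ok Y → ∀ i σ, cfOf Y σ ∈ S.A i → (Y \ S.yf i (cfOf Y σ)).Finite
  dis : ∀ Y, S.Ok Y → ∀ i σ, cfOf Y σ ∈ S.A i → Disjoint (S.frz i (cfOf Y σ)) (S.yf i (cfOf Y σ))
  stab : ∀ Y, S.Ok Y → ∀ i σ σ', cfOf Y σ ∈ S.A i → (∀ z ∈ Y, z ∈ S.frz i (cfOf Y σ) → σ' z = σ z) → (∀ z ∈ Y, z ∉ S.yf i (cfOf Y σ) → σ' z ≤ σ z) →
    cfOf Y σ' ∈ S.A i ∧ S.frz i (cfOf Y σ') = S.frz i (cfOf Y σ) ∧ S.yf i (cfOf Y σ') = S.yf i (cfOf Y σ) ∧
      S.X i (cfOf Y σ') = S.X i (cfOf Y σ) ∧ S.yh i (cfOf Y σ') = S.yh i (cfOf Y σ)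
  stabW : ∀ Y, S.Ok Y → ∀ i σ₀ σ σ', cfOf Y σ₀ ∈ S.A i → (∀ z ∈ Y, z ∈ S.frz i (cfOf Y σ₀) → σ z = σ₀ z) → (∀ z ∈ Y, z ∈ S.frz i (cfOf Y σ₀) → σ' z = σ₀ z) →
    (∀ z ∈ Y, z ∉ S.yf i (cfOf Y σ₀) → σ' z ≤ σ z) → cfOf Y σ ∈ S.WO i → cfOf Y σ' ∈ S.WO i
  hq : ∀ Y, S.Ok Y → ∀ i σ, cfOf Y σ ∈ S.A i → S.q ≤ colLaw ℂ {κ | cfOf Y (pvdmOv (S.frz i (cfOf Y σ))ᶜ κ σ) ∈ S.WO i}
  rd : ∀ Y, S.Ok Y → ∀ σ, ∀ᵐ ω₂ ∂pvP ε, ∀ i, (Conf.spl (pvdmU S.C) (cfOf Y σ, ω₂) ∈ S.A i ↔ cfOf Y σ ∈ S.A i) ∧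
    (Conf.spl (pvdmU S.C) (cfOf Y σ, ω₂) ∈ S.WO i ↔ cfOf Y σ ∈ S.WO i) ∧ S.X i (Conf.spl (pvdmU S.C) (cfOf Y σ, ω₂)) = S.X i (cfOf Y σ)
  jen : ∀ Y, S.Ok Y → ∀ i σ, cfOf Y σ ∈ S.A i → cfOf Y σ ∈ S.WO i → ‖S.X i (cfOf Y σ) + S.yh i (cfOf Y σ)‖ₑ ^ 2 ≤
    ∫⁻ κ, ∫⁻ ω₂, S.w (S.R i Y σ κ ω₂) * ‖S.X i (cfOf Y σ) + S.Y (S.R i Y σ κ ω₂)‖ₑ ^ 2 ∂pvP ε ∂colLaw ℂ
  dom : ∀ᵐ ω ∂pvP ε, ∑' i, (S.A i ∩ S.WO i).indicator (fun ω => S.w ω * ‖S.X i ω + S.Y ω‖ₑ ^ 2) ω ≤ S.H ω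

/-- the colouring of the indices read at a good geometry -/
theorem pvdm_cf_mix {g : PvGeoT} (hg : PvgOk g) {T : Set PvIx} {U : Set ℂ} (hTU : ∀ j ∈ pvgAct g, (j ∈ T ↔ pvgSite g j ∉ U)) (c : PvColT) (κ : ℂ → Bool) :
    pvConf (pvMerge (g, pvfqMix T (c, κ ∘ pvgSite g))) = cfOf (pvgSites g) (pvdmOv U κ (pvgColAt g c)) := by
  rw [hg.conf_eq]
  refine pvdm_cfOf_congr fun z hz => ?_
  obtain ⟨h1, h2⟩ := pvqu_idx_spec hz
  show pvfqMix T (c, κ ∘ pvgSite g) (pvgIdx g z) = _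
  by_cases hU : z ∈ U
  · rw [pvdm_ov_mem hU, pvfqMix_of_notMem (fun hT => ((hTU _ h1).1 hT) (by rw [h2]; exact hU))]
    show κ (pvgSite g (pvgIdx g z)) = κ z
    rw [h2]
  · rw [pvdm_ov_notMem hU, pvfqMix_of_mem ((hTU _ h1).2 (by rw [h2]; exact hU))]
    rfl

theorem pvdm_cf_mix' {g : PvGeoT} (hg : PvgOk g) {T : Set PvIx} {U : Set ℂ} (hTU : ∀ j ∈ pvgAct g, (j ∈ T ↔ pvgSite g j ∉ U)) (c y : PvColT) :
    pvConf (pvMerge (g, pvfqMix T (c, y))) = cfOf (pvgSites g) (pvdmOv U (pvgColAt g y) (pvgColAt g c)) := by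
  rw [hg.conf_eq]
  refine pvdm_cfOf_congr fun z hz => ?_
  obtain ⟨h1, h2⟩ := pvqu_idx_spec hz
  show pvfqMix T (c, y) (pvgIdx g z) = _
  by_cases hU : z ∈ U
  · rw [pvdm_ov_mem hU, pvfqMix_of_notMem (fun hT => ((hTU _ h1).1 hT) (by rw [h2]; exact hU))]
    rfl
  · rw [pvdm_ov_notMem hU, pvfqMix_of_mem ((hTU _ h1).2 (by rw [h2]; exact hU))]
    rfl

/-- the data at the geometry `g` -/
noncomputable def PvdmSys.core (S : PvdmSys ι) (g : PvGeoT) : PvdmCore PvIx (Conf PvPt) ι where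
  A i := {c | pvConf (pvMerge (g, c)) ∈ S.A i}
  W i := {c | pvConf (pvMerge (g, c)) ∈ S.WO i}
  frz i c := {j | j ∈ pvgAct g ∧ pvgSite g j ∈ S.frz i (pvConf (pvMerge (g, c)))}
  yf i c := {j | j ∈ pvgAct g → pvgSite g j ∈ S.yf i (pvConf (pvMerge (g, c)))}
  X i c := S.X i (pvConf (pvMerge (g, c)))
  yh i c := S.yh i (pvConf (pvMerge (g, c)))
  w p := S.w (Conf.spl (pvdmU S.C) (pvConf (pvMerge (g, p.1)), p.2))
  Y p := S.Y (Conf.spl (pvdmU S.C) (pvConf (pvMerge (g, p.1)), p.2))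

variable {S : PvdmSys ι} {ε : ℝ}

/-- the hypotheses of the core hold at every good geometry -/
theorem PvdmSys.Hyp.core_ok (h : S.Hyp ε) {g : PvGeoT} (hg : PvgOk g) (hY : S.Ok (pvgSites g)) : (S.core g).Ok (pvP ε) S.q := by
  have hcf : ∀ c, pvConf (pvMerge (g, c)) = cfOf (pvgSites g) (pvgColAt g c) := hg.conf_eq
  have hU := pvdm_measurableSet_U h.mC
  have mcf : Measurable fun p : PvColT × Conf PvPt => Conf.spl (pvdmU S.C) (pvConf (pvMerge (g, p.1)), p.2) :=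
    (Conf.measurable_spl hU).comp (((measurable_pvConf.comp (measurable_pvMerge.comp (measurable_const.prodMk measurable_fst)))).prodMk measurable_snd)
  have hnyf : ∀ i c j, j ∉ (S.core g).yf i c ↔ j ∈ pvgAct g ∧ pvgSite g j ∉ S.yf i (cfOf (pvgSites g) (pvgColAt g c)) := by
    intro i c j
    show ¬ (j ∈ pvgAct g → pvgSite g j ∈ S.yf i (pvConf (pvMerge (g, c)))) ↔ _
    rw [hcf, Classical.not_imp]
  have hfrz : ∀ i c j, j ∈ (S.core g).frz i c ↔ j ∈ pvgAct g ∧ pvgSite g j ∈ S.frz i (cfOf (pvgSites g) (pvgColAt g c)) := by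
    intro i c j
    show (j ∈ pvgAct g ∧ pvgSite g j ∈ S.frz i (pvConf (pvMerge (g, c)))) ↔ _
    rw [hcf]
  have hA : ∀ i c, c ∈ (S.core g).A i ↔ cfOf (pvgSites g) (pvgColAt g c) ∈ S.A i := by
    intro i c
    show pvConf (pvMerge (g, c)) ∈ S.A i ↔ _
    rw [hcf]
  have hW : ∀ i c, c ∈ (S.core g).W i ↔ cfOf (pvgSites g) (pvgColAt g c) ∈ S.WO i := by
    intro i c
    show pvConf (pvMerge (g, c)) ∈ S.WO i ↔ _
    rw [hcf]
  have mcol : Measurable fun y : PvColT => pvgColAt g y := measurable_pi_lambda _ fun z => measurable_pi_apply _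
  have eR' : ∀ i c y ω₂, Conf.spl (pvdmU S.C) (pvConf (pvMerge (g, pvfqMix ((S.core g).yf i c)ᶜ (c, y))), ω₂)
      = S.R i (pvgSites g) (pvgColAt g c) (pvgColAt g y) ω₂ := by
    intro i c y ω₂
    unfold PvdmSys.R
    rw [pvdm_cf_mix' hg (U := S.yf i (cfOf (pvgSites g) (pvgColAt g c))) (fun j hj => by
      rw [mem_compl_iff, hnyf]
      exact ⟨fun hh => hh.2, fun hh => ⟨hj, hh⟩⟩)]
  have cmw : ∀ i c, c ∈ (S.core g).A i → c ∈ (S.core g).W i → Measurable fun p : PvColT × Conf PvPt => (S.core g).w (pvfqMix ((S.core g).yf i c)ᶜ (c, p.1), p.2) := by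
    intro i c hc hw
    have m := (h.mw _ hY i (pvgColAt g c) ((hA i c).1 hc) ((hW i c).1 hw)).comp ((mcol.comp measurable_fst).prodMk measurable_snd)
    have e : (fun p : PvColT × Conf PvPt => (S.core g).w (pvfqMix ((S.core g).yf i c)ᶜ (c, p.1), p.2))
        = (fun p : (ℂ → Bool) × Conf PvPt => S.w (S.R i (pvgSites g) (pvgColAt g c) p.1 p.2)) ∘ fun p : PvColT × Conf PvPt => (pvgColAt g p.1, p.2) := by
      funext p
      show S.w (Conf.spl (pvdmU S.C) (pvConf (pvMerge (g, pvfqMix ((S.core g).yf i c)ᶜ (c, p.1))), p.2)) = _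
      rw [eR']
      rfl
    rw [e]
    exact m
  have cmY : ∀ i c, c ∈ (S.core g).A i → c ∈ (S.core g).W i → Measurable fun p : PvColT × Conf PvPt => (S.core g).Y (pvfqMix ((S.core g).yf i c)ᶜ (c, p.1), p.2) := by
    intro i c hc hw
    have m := (h.mY _ hY i (pvgColAt g c) ((hA i c).1 hc) ((hW i c).1 hw)).comp ((mcol.comp measurable_fst).prodMk measurable_snd)
    have e : (fun p : PvColT × Conf PvPt => (S.core g).Y (pvfqMix ((S.core g).yf i c)ᶜ (c, p.1), p.2))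
        = (fun p : (ℂ → Bool) × Conf PvPt => S.Y (S.R i (pvgSites g) (pvgColAt g c) p.1 p.2)) ∘ fun p : PvColT × Conf PvPt => (pvgColAt g p.1, p.2) := by
      funext p
      show S.Y (Conf.spl (pvdmU S.C) (pvConf (pvMerge (g, pvfqMix ((S.core g).yf i c)ᶜ (c, p.1))), p.2)) = _
      rw [eR']
      rfl
    rw [e]
    exact m
  refine ⟨cmw, cmY, ?_, ?_, ?_, ?_, ?_, ?_, ?_⟩
  · -- cnt
    refine (h.cnt _ hY).mono ?_
    rintro i ⟨c, hc⟩
    exact ⟨pvgColAt g c, (hA i c).1 hc⟩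
  · -- fin
    intro i c hc
    refine ((h.fin _ hY i _ ((hA i c).1 hc)).preimage hg.inj.injOn).subset ?_
    intro j hj
    obtain ⟨j1, j2⟩ := (hnyf i c j).1 hj
    exact ⟨⟨j, j1, rfl⟩, j2⟩
  · -- dis
    intro i c hc
    refine Set.disjoint_left.2 fun j hj hj' => ?_
    obtain ⟨j1, j2⟩ := (hfrz i c j).1 hj
    by_contra _
    have hj'' : pvgSite g j ∈ S.yf i (cfOf (pvgSites g) (pvgColAt g c)) := by
      by_contra hn
      exact ((hnyf i c j).2 ⟨j1, hn⟩) hj'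
    exact Set.disjoint_left.1 (h.dis _ hY i _ ((hA i c).1 hc)) j2 hj''
  · -- stab
    intro i c c' hc h1 h2
    obtain ⟨a1, a2, a3, a4, a5⟩ := h.stab _ hY i (pvgColAt g c) (pvgColAt g c') ((hA i c).1 hc)
      (fun z hz hzf => by
        obtain ⟨b1, b2⟩ := pvqu_idx_spec hz
        exact h1 _ ((hfrz i c _).2 ⟨b1, by rw [b2]; exact hzf⟩))
      (fun z hz hzf => by
        obtain ⟨b1, b2⟩ := pvqu_idx_spec hz
        exact h2 _ ((hnyf i c _).2 ⟨b1, by rw [b2]; exact hzf⟩))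
    refine ⟨(hA i c').2 a1, ?_, ?_, ?_, ?_⟩
    · ext j; rw [hfrz, hfrz, a2]
    · ext j
      rw [← not_iff_not, hnyf, hnyf, a3]
    · show S.X i (pvConf (pvMerge (g, c'))) = S.X i (pvConf (pvMerge (g, c)))
      rw [hcf, hcf, a4]
    · show S.yh i (pvConf (pvMerge (g, c'))) = S.yh i (pvConf (pvMerge (g, c)))
      rw [hcf, hcf, a5]
  · -- stabW
    intro i c₀ c c' hc h1 h1' h2 hw
    refine (hW i c').2 (h.stabW _ hY i (pvgColAt g c₀) (pvgColAt g c) (pvgColAt g c') ((hA i c₀).1 hc) ?_ ?_ ?_ ((hW i c).1 hw))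
    · intro z hz hzf
      obtain ⟨b1, b2⟩ := pvqu_idx_spec hz
      exact h1 _ ((hfrz i c₀ _).2 ⟨b1, by rw [b2]; exact hzf⟩)
    · intro z hz hzf
      obtain ⟨b1, b2⟩ := pvqu_idx_spec hz
      exact h1' _ ((hfrz i c₀ _).2 ⟨b1, by rw [b2]; exact hzf⟩)
    · intro z hz hzf
      obtain ⟨b1, b2⟩ := pvqu_idx_spec hz
      exact h2 _ ((hnyf i c₀ _).2 ⟨b1, by rw [b2]; exact hzf⟩)
  · -- hq
    intro i c hc
    refine (h.hq _ hY i _ ((hA i c).1 hc)).trans ?_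
    have hm : Measurable fun κ : ℂ → Bool => κ ∘ pvgSite g := measurable_pi_lambda _ fun j => measurable_pi_apply _
    have e := pvf_colLaw_comp (pvgSite g) hg.inj
    rw [← e]
    refine le_trans (measure_mono ?_) (Measure.le_map_apply hm.aemeasurable _)
    intro κ hκ
    show pvConf (pvMerge (g, pvfqMix ((S.core g).frz i c) (c, κ ∘ pvgSite g))) ∈ S.WO i
    rw [pvdm_cf_mix hg (U := (S.frz i (cfOf (pvgSites g) (pvgColAt g c)))ᶜ) (fun j hj => by
      rw [hfrz, mem_compl_iff, not_not]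
      exact ⟨fun hh => hh.2, fun hh => ⟨hj, hh⟩⟩)]
    exact hκ
  · -- jen
    intro i c hc hw
    have j := h.jen _ hY i _ ((hA i c).1 hc) ((hW i c).1 hw)
    have hm : Measurable fun κ : ℂ → Bool => κ ∘ pvgSite g := measurable_pi_lambda _ fun j => measurable_pi_apply _
    have e := pvf_colLaw_comp (pvgSite g) hg.inj
    have eX : (S.core g).X i c = S.X i (cfOf (pvgSites g) (pvgColAt g c)) := by
      show S.X i (pvConf (pvMerge (g, c))) = _
      rw [hcf]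
    have eyh : (S.core g).yh i c = S.yh i (cfOf (pvgSites g) (pvgColAt g c)) := by
      show S.yh i (pvConf (pvMerge (g, c))) = _
      rw [hcf]
    rw [eX, eyh, ← e]
    have mF : Measurable fun p : PvColT × Conf PvPt => (S.core g).w (pvfqMix ((S.core g).yf i c)ᶜ (c, p.1), p.2) *
        ‖S.X i (cfOf (pvgSites g) (pvgColAt g c)) + (S.core g).Y (pvfqMix ((S.core g).yf i c)ᶜ (c, p.1), p.2)‖ₑ ^ 2 :=
      (cmw i c hc hw).mul ((measurable_const.add (cmY i c hc hw)).enorm.pow_const 2)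
    rw [lintegral_map mF.lintegral_prod_right' hm]
    refine j.trans (le_of_eq ?_)
    refine lintegral_congr fun κ => lintegral_congr fun ω₂ => ?_
    have eR : Conf.spl (pvdmU S.C) (pvConf (pvMerge (g, pvfqMix ((S.core g).yf i c)ᶜ (c, κ ∘ pvgSite g))), ω₂)
        = S.R i (pvgSites g) (pvgColAt g c) κ ω₂ := by
      unfold PvdmSys.R
      rw [pvdm_cf_mix hg (U := S.yf i (cfOf (pvgSites g) (pvgColAt g c))) (fun j hj => by
        rw [mem_compl_iff, hnyf]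
        exact ⟨fun hh => hh.2, fun hh => ⟨hj, hh⟩⟩)]
    show _ = S.w (Conf.spl (pvdmU S.C) (pvConf (pvMerge (g, pvfqMix ((S.core g).yf i c)ᶜ (c, κ ∘ pvgSite g))), ω₂)) *
      ‖_ + S.Y (Conf.spl (pvdmU S.C) (pvConf (pvMerge (g, pvfqMix ((S.core g).yf i c)ᶜ (c, κ ∘ pvgSite g))), ω₂))‖ₑ ^ 2
    rw [eR]

/-- **THEOREM N1' (CYLINDER DOMINATION) AT THE LEVEL OF THE POISSON PROCESS = TR23.**
`q_W E[ ∑_D 1{Cyl D ∩ NB D} |X(D) + ŷ_c(D_Y)|² ] ≤ E[H]`,   `H ≥ ∑_D 1{Cyl D ∩ NB D ∩ WO D} W_c |X(D) + Y|²`   (`H = D_c Θ`, `Θ` = the closed-sum functional of I.TAIL).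
The left side is a lower integral: no measurability of the `X` side is asked. -/
theorem pvdm_main (h : S.Hyp ε) :
    S.q * ∫⁻ ω, ∑' i, (S.A i).indicator (fun ω => ‖S.X i ω + S.yh i ω‖ₑ ^ 2) ω ∂pvP ε ≤ ∫⁻ ω, S.H ω ∂pvP ε := by
  have hP := pv_isPpp ε
  have := hP.prob
  have hU := pvdm_measurableSet_U h.mC
  have ecol : pvCol = colLaw PvIx := rfl
  -- the left side: lower Fubini
  obtain ⟨F', mF', hle, heq⟩ := exists_measurable_le_lintegral_eq (pvP ε) fun ω => ∑' i, (S.A i).indicator (fun ω => ‖S.X i ω + S.yh i ω‖ₑ ^ 2) ω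
  have s1 : ∫⁻ ω, ∑' i, (S.A i).indicator (fun ω => ‖S.X i ω + S.yh i ω‖ₑ ^ 2) ω ∂pvP ε
      ≤ ∫⁻ g, ∫⁻ c, ∑' i, (S.A i).indicator (fun ω => ‖S.X i ω + S.yh i ω‖ₑ ^ 2) (pvConf (pvMerge (g, c))) ∂pvCol ∂pvGeo ε := by
    rw [heq]
    have e : ∫⁻ ω, F' ω ∂pvP ε = ∫⁻ g, ∫⁻ c, F' (pvConf (pvMerge (g, c))) ∂pvCol ∂pvGeo ε := by
      unfold pvP
      rw [lintegral_map mF' measurable_pvConf]
      exact pvqu_lintegral ε (mF'.comp measurable_pvConf)
    rw [e]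
    exact lintegral_mono fun g => lintegral_mono fun c => hle _
  -- the right side: Fubini
  have mH₁ : Measurable fun ω : Conf PvPt => ∫⁻ ω₂, S.H (Conf.spl (pvdmU S.C) (ω, ω₂)) ∂pvP ε :=
    (h.mH.comp (Conf.measurable_spl hU)).lintegral_prod_right'
  have s3 : ∫⁻ g, ∫⁻ c, ∫⁻ ω₂, S.H (Conf.spl (pvdmU S.C) (pvConf (pvMerge (g, c)), ω₂)) ∂pvP ε ∂pvCol ∂pvGeo ε = ∫⁻ ω, S.H ω ∂pvP ε := by
    rw [hP.lintegral_spl hU h.mH]
    have e : ∫⁻ ω, ∫⁻ ω₂, S.H (Conf.spl (pvdmU S.C) (ω, ω₂)) ∂pvP ε ∂pvP ε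
        = ∫⁻ ω, ∫⁻ ω₂, S.H (Conf.spl (pvdmU S.C) (pvConf ω, ω₂)) ∂pvP ε ∂pvLaw ε := by
      exact lintegral_map (μ := pvLaw ε) mH₁ measurable_pvConf
    rw [e]
    exact (pvqu_lintegral ε (mH₁.comp measurable_pvConf)).symm
  -- a fixed geometry
  have s2 : ∀ᵐ g ∂pvGeo ε, S.q * ∫⁻ c, ∑' i, (S.A i).indicator (fun ω => ‖S.X i ω + S.yh i ω‖ₑ ^ 2) (pvConf (pvMerge (g, c))) ∂pvCol
      ≤ ∫⁻ c, ∫⁻ ω₂, S.H (Conf.spl (pvdmU S.C) (pvConf (pvMerge (g, c)), ω₂)) ∂pvP ε ∂pvCol := by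
    filter_upwards [pvqu_ok_ae ε, pvqu_Qc_ae ε h.ok_ae, pvqu_Qc_ae ε (hP.ae_ae_splice hU h.dom)] with g hg h2 h3
    have hY : S.Ok (pvgSites g) := by
      obtain ⟨c, hc⟩ := h2.exists
      rwa [pvqu_cfSites] at hc
    have k := pvdm_core (h.core_ok hg hY)
    rw [← ecol] at k
    refine le_trans (le_of_eq rfl) (k.trans ?_)
    refine lintegral_mono_ae ?_
    filter_upwards [h3] with c hc
    refine lintegral_mono_ae ?_
    filter_upwards [hc, h.rd _ hY (pvgColAt g c)] with ω₂ hd hr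
    refine le_trans (le_of_eq ?_) hd
    refine tsum_congr fun i => ?_
    obtain ⟨r1, r2, r3⟩ := hr i
    rw [← hg.conf_eq c] at r1 r2 r3
    by_cases hc' : pvConf (pvMerge (g, c)) ∈ S.A i ∩ S.WO i
    · have hs : Conf.spl (pvdmU S.C) (pvConf (pvMerge (g, c)), ω₂) ∈ S.A i ∩ S.WO i := ⟨r1.2 hc'.1, r2.2 hc'.2⟩
      have hs' : Conf.union (Conf.restr (pvdmU S.C) (pvConf (pvMerge (g, c)))) (Conf.restr (pvdmU S.C)ᶜ ω₂) ∈ S.A i ∩ S.WO i := hs
      have hc'' : c ∈ (S.core g).A i ∩ (S.core g).W i := hc'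
      rw [indicator_of_mem hc'', indicator_of_mem hs']
      show S.w (Conf.spl (pvdmU S.C) (pvConf (pvMerge (g, c)), ω₂)) * ‖S.X i (pvConf (pvMerge (g, c))) + S.Y (Conf.spl (pvdmU S.C) (pvConf (pvMerge (g, c)), ω₂))‖ₑ ^ 2
        = S.w (Conf.spl (pvdmU S.C) (pvConf (pvMerge (g, c)), ω₂)) * ‖S.X i (Conf.spl (pvdmU S.C) (pvConf (pvMerge (g, c)), ω₂)) + S.Y (Conf.spl (pvdmU S.C) (pvConf (pvMerge (g, c)), ω₂))‖ₑ ^ 2
      rw [r3]
    · have hs' : Conf.union (Conf.restr (pvdmU S.C) (pvConf (pvMerge (g, c)))) (Conf.restr (pvdmU S.C)ᶜ ω₂) ∉ S.A i ∩ S.WO i :=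
        fun hh => hc' ⟨r1.1 hh.1, r2.1 hh.2⟩
      have hc'' : c ∉ (S.core g).A i ∩ (S.core g).W i := hc'
      rw [indicator_of_notMem hc'', indicator_of_notMem hs']
  calc S.q * ∫⁻ ω, ∑' i, (S.A i).indicator (fun ω => ‖S.X i ω + S.yh i ω‖ₑ ^ 2) ω ∂pvP ε
      ≤ S.q * ∫⁻ g, ∫⁻ c, ∑' i, (S.A i).indicator (fun ω => ‖S.X i ω + S.yh i ω‖ₑ ^ 2) (pvConf (pvMerge (g, c))) ∂pvCol ∂pvGeo ε := by gcongr
    _ ≤ ∫⁻ g, S.q * ∫⁻ c, ∑' i, (S.A i).indicator (fun ω => ‖S.X i ω + S.yh i ω‖ₑ ^ 2) (pvConf (pvMerge (g, c))) ∂pvCol ∂pvGeo ε :=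
        lintegral_const_mul_le _ _
    _ ≤ ∫⁻ g, ∫⁻ c, ∫⁻ ω₂, S.H (Conf.spl (pvdmU S.C) (pvConf (pvMerge (g, c)), ω₂)) ∂pvP ε ∂pvCol ∂pvGeo ε := lintegral_mono_ae s2
    _ = _ := s3

/-- **Chebyshev form**: `B` = any null-measurable event on which some present datum has `|X(D) + ŷ| ≥ u`   (by (C1): the actual pinned arc fitting `π`). -/
theorem pvdm_cheb (h : S.Hyp ε) {B : Set (Conf PvPt)} (hB : NullMeasurableSet B (pvP ε)) {u : ℝ≥0∞}
    (hBu : ∀ ω ∈ B, ∃ i, ω ∈ S.A i ∧ u ≤ ‖S.X i ω + S.yh i ω‖ₑ) :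
    S.q * (u ^ 2 * pvP ε B) ≤ ∫⁻ ω, S.H ω ∂pvP ε := by
  refine le_trans ?_ (pvdm_main h)
  gcongr
  rw [← lintegral_indicator_const₀ hB]
  refine lintegral_mono fun ω => ?_
  by_cases hω : ω ∈ B
  · obtain ⟨i, hi, hu⟩ := hBu ω hω
    rw [indicator_of_mem hω]
    refine le_trans ?_ (ENNReal.le_tsum i)
    rw [indicator_of_mem hi]
    gcongr
  · rw [indicator_of_notMem hω]
    exact zero_le

/-- **THE QUENCHED EXIT OF N1'** (form asked by 27 for the roof `n1` over `PvUp.iter (pvGeo ε) pvCol`): a MEASURABLE majorant `Φ` of the geometry, of mean `≤ E[H]`, which dominates at EVERY geometry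
the OUTER colour probability of `{some present datum has |X(D) + ŷ| ≥ u}`.   No measurability of anything about the data. -/
theorem pvdm_quenched (h : S.Hyp ε) : ∃ Φ : PvGeoT → ℝ≥0∞, Measurable Φ ∧ ∫⁻ g, Φ g ∂pvGeo ε ≤ ∫⁻ ω, S.H ω ∂pvP ε ∧
    ∀ (g : PvGeoT) (u : ℝ≥0∞), S.q * (u ^ 2 * pvCol {c | ∃ i, pvConf (pvMerge (g, c)) ∈ S.A i ∧
      u ≤ ‖S.X i (pvConf (pvMerge (g, c))) + S.yh i (pvConf (pvMerge (g, c)))‖ₑ}) ≤ Φ g := by
  classical
  have hP := pv_isPpp ε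
  have := hP.prob
  have mU := pvdm_measurableSet_U h.mC
  have mHs : Measurable fun x : Conf PvPt × Conf PvPt => S.H (Conf.spl (pvdmU S.C) x) := h.mH.comp (Conf.measurable_spl mU)
  have m1 : Measurable fun ω : Conf PvPt => ∫⁻ ξ, S.H (Conf.spl (pvdmU S.C) (ω, ξ)) ∂pvP ε := mHs.lintegral_prod_right'
  have m2 : Measurable fun x : PvGeoT × PvColT => ∫⁻ ξ, S.H (Conf.spl (pvdmU S.C) (pvConf (pvMerge x), ξ)) ∂pvP ε :=
    m1.comp (measurable_pvConf.comp measurable_pvMerge)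
  have mΨ : Measurable fun g : PvGeoT => ∫⁻ c, ∫⁻ ξ, S.H (Conf.spl (pvdmU S.C) (pvConf (pvMerge (g, c)), ξ)) ∂pvP ε ∂pvCol := m2.lintegral_prod_right'
  have r1 : ∫⁻ g, ∫⁻ c, ∫⁻ ξ, S.H (Conf.spl (pvdmU S.C) (pvConf (pvMerge (g, c)), ξ)) ∂pvP ε ∂pvCol ∂pvGeo ε = ∫⁻ ω, S.H ω ∂pvP ε := by
    have e1 : ∫⁻ o, ∫⁻ ξ, S.H (Conf.spl (pvdmU S.C) (pvConf o, ξ)) ∂pvP ε ∂Claims.C0465.pvLaw ε
        = ∫⁻ g, ∫⁻ c, ∫⁻ ξ, S.H (Conf.spl (pvdmU S.C) (pvConf (pvMerge (g, c)), ξ)) ∂pvP ε ∂pvCol ∂pvGeo ε :=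
      pvqu_lintegral ε (m1.comp measurable_pvConf)
    have e2 : ∫⁻ o, ∫⁻ ξ, S.H (Conf.spl (pvdmU S.C) (pvConf o, ξ)) ∂pvP ε ∂Claims.C0465.pvLaw ε
        = ∫⁻ ω, ∫⁻ ξ, S.H (Conf.spl (pvdmU S.C) (ω, ξ)) ∂pvP ε ∂pvP ε := (lintegral_map m1 measurable_pvConf).symm
    rw [← e1, e2, ← lintegral_prod _ mHs.aemeasurable]
    conv_rhs => rw [← hP.splice mU]
    exact (lintegral_map h.mH (Conf.measurable_spl mU)).symm
  have a1 : ∀ᵐ g ∂pvGeo ε, S.Ok (pvgSites g) := by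
    have b1 : ∀ᵐ o ∂Claims.C0465.pvLaw ε, S.Ok (cfSites (pvConf o)) := ae_of_ae_map measurable_pvConf.aemeasurable h.ok_ae
    filter_upwards [pvqu_ae ε b1] with g hg
    obtain ⟨c, hc⟩ := hg.exists
    rwa [pvqu_cfSites] at hc
  have a2 : ∀ᵐ g ∂pvGeo ε, ∀ᵐ c ∂pvCol, ∀ᵐ ξ ∂pvP ε,
      ∑' i, (S.A i ∩ S.WO i).indicator (fun ω => S.w ω * ‖S.X i ω + S.Y ω‖ₑ ^ 2) (Conf.spl (pvdmU S.C) (pvConf (pvMerge (g, c)), ξ))
        ≤ S.H (Conf.spl (pvdmU S.C) (pvConf (pvMerge (g, c)), ξ)) :=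
    pvqu_ae ε (ae_of_ae_map measurable_pvConf.aemeasurable (hP.ae_ae_splice mU h.dom))
  -- the measurable null set of the bad geometries
  set G : Set PvGeoT := {g | PvgOk g ∧ S.Ok (pvgSites g) ∧ ∀ᵐ c ∂pvCol, ∀ᵐ ξ ∂pvP ε,
      ∑' i, (S.A i ∩ S.WO i).indicator (fun ω => S.w ω * ‖S.X i ω + S.Y ω‖ₑ ^ 2) (Conf.spl (pvdmU S.C) (pvConf (pvMerge (g, c)), ξ))
        ≤ S.H (Conf.spl (pvdmU S.C) (pvConf (pvMerge (g, c)), ξ))} with hG
  have hG0 : pvGeo ε Gᶜ = 0 := by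
    have : ∀ᵐ g ∂pvGeo ε, g ∈ G := by
      filter_upwards [pvqu_ok_ae ε, a1, a2] with g h1 h2 h3
      exact ⟨h1, h2, h3⟩
    exact this
  set N := toMeasurable (pvGeo ε) Gᶜ with hN
  have mN : MeasurableSet N := measurableSet_toMeasurable _ _
  have hN0 : pvGeo ε N = 0 := by rw [hN, measure_toMeasurable, hG0]
  refine ⟨N.piecewise (fun _ => ⊤) fun g => ∫⁻ c, ∫⁻ ξ, S.H (Conf.spl (pvdmU S.C) (pvConf (pvMerge (g, c)), ξ)) ∂pvP ε ∂pvCol,
    Measurable.piecewise mN measurable_const mΨ, ?_, ?_⟩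
  · rw [← r1]
    refine le_of_eq (lintegral_congr_ae ?_)
    have : ∀ᵐ g ∂pvGeo ε, g ∉ N := measure_eq_zero_iff_ae_notMem.1 hN0
    filter_upwards [this] with g hg
    exact Set.piecewise_eq_of_notMem _ _ _ hg
  · intro g u
    by_cases hg : g ∈ N
    · rw [Set.piecewise_eq_of_mem _ _ _ hg]
      exact le_top
    rw [Set.piecewise_eq_of_notMem _ _ _ hg]
    have hgG : g ∈ G := by
      by_contra hcon
      exact hg (subset_toMeasurable _ _ hcon)
    obtain ⟨hok, hY, hd⟩ := hgG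
    refine (pvdm_core_cheb (h.core_ok hok hY) u).trans ?_
    refine lintegral_mono_ae ?_
    filter_upwards [hd] with c hc
    refine lintegral_mono_ae ?_
    have hrd := h.rd _ hY (pvgColAt g c)
    rw [← hok.conf_eq c] at hrd
    filter_upwards [hc, hrd] with ξ h1 h2
    refine le_trans (le_of_eq ?_) h1
    refine tsum_congr fun i => ?_
    obtain ⟨r1, r2, r3⟩ := h2 i
    by_cases hm : pvConf (pvMerge (g, c)) ∈ S.A i ∩ S.WO i
    · have hm' : Conf.spl (pvdmU S.C) (pvConf (pvMerge (g, c)), ξ) ∈ S.A i ∩ S.WO i := ⟨r1.2 hm.1, r2.2 hm.2⟩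
      rw [indicator_of_mem hm', indicator_of_mem (show c ∈ (S.core g).A i ∩ (S.core g).W i from hm), r3]
      rfl
    · have hm' : Conf.spl (pvdmU S.C) (pvConf (pvMerge (g, c)), ξ) ∉ S.A i ∩ S.WO i := fun hh => hm ⟨r1.1 hh.1, r2.1 hh.2⟩
      rw [indicator_of_notMem hm', indicator_of_notMem (show c ∉ (S.core g).A i ∩ (S.core g).W i from hm)]

/-! ## 3. QUENCHED EXITS (27, ruling H1 of 73): over the iterated upper expectation `PvUp.iter (pvGeo ε) pvCol`; no measurability of anything -/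

/-- the right side at the geometry `g`: the majorant averaged over the colours and over the fresh corridor -/
noncomputable def PvdmSys.Psi (S : PvdmSys ι) (ε : ℝ) (g : PvGeoT) : ℝ≥0∞ :=
  ∫⁻ c, ∫⁻ ω₂, S.H (Conf.spl (pvdmU S.C) (pvConf (pvMerge (g, c)), ω₂)) ∂pvP ε ∂pvCol

theorem PvdmSys.Hyp.measurable_Psi (h : S.Hyp ε) : Measurable (S.Psi ε) := by
  have := (pv_isPpp ε).prob
  have hU := pvdm_measurableSet_U h.mC
  have mH₁ : Measurable fun ω : Conf PvPt => ∫⁻ ω₂, S.H (Conf.spl (pvdmU S.C) (ω, ω₂)) ∂pvP ε :=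
    (h.mH.comp (Conf.measurable_spl hU)).lintegral_prod_right'
  exact (mH₁.comp (measurable_pvConf.comp measurable_pvMerge)).lintegral_prod_right'

theorem PvdmSys.Hyp.lintegral_Psi (h : S.Hyp ε) : ∫⁻ g, S.Psi ε g ∂pvGeo ε = ∫⁻ ω, S.H ω ∂pvP ε := by
  have hP := pv_isPpp ε
  have := hP.prob
  have hU := pvdm_measurableSet_U h.mC
  have mH₁ : Measurable fun ω : Conf PvPt => ∫⁻ ω₂, S.H (Conf.spl (pvdmU S.C) (ω, ω₂)) ∂pvP ε :=
    (h.mH.comp (Conf.measurable_spl hU)).lintegral_prod_right'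
  rw [hP.lintegral_spl hU h.mH]
  have e : ∫⁻ ω, ∫⁻ ω₂, S.H (Conf.spl (pvdmU S.C) (ω, ω₂)) ∂pvP ε ∂pvP ε
      = ∫⁻ ω, ∫⁻ ω₂, S.H (Conf.spl (pvdmU S.C) (pvConf ω, ω₂)) ∂pvP ε ∂pvLaw ε := by
    exact lintegral_map (μ := pvLaw ε) mH₁ measurable_pvConf
  rw [e]
  exact (pvqu_lintegral ε (mH₁.comp measurable_pvConf)).symm

/-- **N1' AT A FIXED GEOMETRY** (almost every geometry): the left side is MEASURABLE in the colours and is dominated. -/
theorem pvdm_fixed (h : S.Hyp ε) : ∀ᵐ g ∂pvGeo ε,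
    Measurable (fun c : PvColT => ∑' i, (S.A i).indicator (fun ω => ‖S.X i ω + S.yh i ω‖ₑ ^ 2) (pvConf (pvMerge (g, c)))) ∧
    S.q * ∫⁻ c, ∑' i, (S.A i).indicator (fun ω => ‖S.X i ω + S.yh i ω‖ₑ ^ 2) (pvConf (pvMerge (g, c))) ∂pvCol ≤ S.Psi ε g := by
  have hP := pv_isPpp ε
  have := hP.prob
  have hU := pvdm_measurableSet_U h.mC
  have ecol : pvCol = colLaw PvIx := rfl
  filter_upwards [pvqu_ok_ae ε, pvqu_Qc_ae ε h.ok_ae, pvqu_Qc_ae ε (hP.ae_ae_splice hU h.dom)] with g hg h2 h3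
  have hY : S.Ok (pvgSites g) := by
    obtain ⟨c, hc⟩ := h2.exists
    rwa [pvqu_cfSites] at hc
  refine ⟨(h.core_ok hg hY).meas_sum, ?_⟩
  have k := pvdm_core (h.core_ok hg hY)
  rw [← ecol] at k
  refine le_trans (le_of_eq rfl) (k.trans ?_)
  refine lintegral_mono_ae ?_
  filter_upwards [h3] with c hc
  refine lintegral_mono_ae ?_
  filter_upwards [hc, h.rd _ hY (pvgColAt g c)] with ω₂ hd hr
  refine le_trans (le_of_eq ?_) hd
  refine tsum_congr fun i => ?_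
  obtain ⟨r1, r2, r3⟩ := hr i
  rw [← hg.conf_eq c] at r1 r2 r3
  by_cases hc' : pvConf (pvMerge (g, c)) ∈ S.A i ∩ S.WO i
  · have hs : Conf.spl (pvdmU S.C) (pvConf (pvMerge (g, c)), ω₂) ∈ S.A i ∩ S.WO i := ⟨r1.2 hc'.1, r2.2 hc'.2⟩
    have hs' : Conf.union (Conf.restr (pvdmU S.C) (pvConf (pvMerge (g, c)))) (Conf.restr (pvdmU S.C)ᶜ ω₂) ∈ S.A i ∩ S.WO i := hs
    have hc'' : c ∈ (S.core g).A i ∩ (S.core g).W i := hc'
    rw [indicator_of_mem hc'', indicator_of_mem hs']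
    show S.w (Conf.spl (pvdmU S.C) (pvConf (pvMerge (g, c)), ω₂)) * ‖S.X i (pvConf (pvMerge (g, c))) + S.Y (Conf.spl (pvdmU S.C) (pvConf (pvMerge (g, c)), ω₂))‖ₑ ^ 2
      = S.w (Conf.spl (pvdmU S.C) (pvConf (pvMerge (g, c)), ω₂)) * ‖S.X i (Conf.spl (pvdmU S.C) (pvConf (pvMerge (g, c)), ω₂)) + S.Y (Conf.spl (pvdmU S.C) (pvConf (pvMerge (g, c)), ω₂))‖ₑ ^ 2
    rw [r3]
  · have hs' : Conf.union (Conf.restr (pvdmU S.C) (pvConf (pvMerge (g, c)))) (Conf.restr (pvdmU S.C)ᶜ ω₂) ∉ S.A i ∩ S.WO i :=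
      fun hh => hc' ⟨r1.1 hh.1, r2.1 hh.2⟩
    have hc'' : c ∉ (S.core g).A i ∩ (S.core g).W i := hc'
    rw [indicator_of_notMem hc'', indicator_of_notMem hs']

/-- **QUENCHED FORM**: a measurable majorant `Φ` of the geometry, for EVERY geometry. -/
theorem pvdm_quenchedE (h : S.Hyp ε) : ∃ Φ : PvGeoT → ℝ≥0∞, Measurable Φ ∧ ∫⁻ g, Φ g ∂pvGeo ε ≤ ∫⁻ ω, S.H ω ∂pvP ε ∧
    ∀ g, S.q * pvUpInt pvCol (fun c => ∑' i, (S.A i).indicator (fun ω => ‖S.X i ω + S.yh i ω‖ₑ ^ 2) (pvConf (pvMerge (g, c)))) ≤ Φ g := by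
  classical
  have hf := pvdm_fixed h
  set N : Set PvGeoT := toMeasurable (pvGeo ε) {g | ¬ (Measurable (fun c : PvColT => ∑' i, (S.A i).indicator (fun ω => ‖S.X i ω + S.yh i ω‖ₑ ^ 2) (pvConf (pvMerge (g, c)))) ∧
    S.q * ∫⁻ c, ∑' i, (S.A i).indicator (fun ω => ‖S.X i ω + S.yh i ω‖ₑ ^ 2) (pvConf (pvMerge (g, c))) ∂pvCol ≤ S.Psi ε g)} with hN
  have mN : MeasurableSet N := measurableSet_toMeasurable _ _
  have zN : pvGeo ε N = 0 := by rw [hN, measure_toMeasurable]; exact hf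
  refine ⟨N.piecewise (fun _ => ⊤) (S.Psi ε), Measurable.piecewise mN measurable_const h.measurable_Psi, ?_, ?_⟩
  · rw [← h.lintegral_Psi]
    refine le_of_eq (lintegral_congr_ae ?_)
    have : ∀ᵐ g ∂pvGeo ε, g ∉ N := measure_eq_zero_iff_ae_notMem.1 zN
    filter_upwards [this] with g hg
    exact piecewise_eq_of_notMem _ _ _ hg
  · intro g
    by_cases hg : g ∈ N
    · rw [piecewise_eq_of_mem _ _ _ hg]; exact le_top
    · rw [piecewise_eq_of_notMem _ _ _ hg]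
      have hg' : Measurable (fun c : PvColT => ∑' i, (S.A i).indicator (fun ω => ‖S.X i ω + S.yh i ω‖ₑ ^ 2) (pvConf (pvMerge (g, c)))) ∧
          S.q * ∫⁻ c, ∑' i, (S.A i).indicator (fun ω => ‖S.X i ω + S.yh i ω‖ₑ ^ 2) (pvConf (pvMerge (g, c))) ∂pvCol ≤ S.Psi ε g := by
        by_contra hn
        exact hg (subset_toMeasurable _ _ hn)
      rw [pvup_int_of_meas _ hg'.1]
      exact hg'.2

/-- quenched INTEGRAL form (286): the lower integral in the colours at EVERY geometry -/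
theorem pvdm_quenchedI (h : S.Hyp ε) : ∃ Φ : PvGeoT → ℝ≥0∞, Measurable Φ ∧ ∫⁻ g, Φ g ∂pvGeo ε ≤ ∫⁻ ω, S.H ω ∂pvP ε ∧
    ∀ g, S.q * ∫⁻ c, ∑' i, (S.A i).indicator (fun ω => ‖S.X i ω + S.yh i ω‖ₑ ^ 2) (pvConf (pvMerge (g, c))) ∂pvCol ≤ Φ g := by
  obtain ⟨Φ, mΦ, h1, h2⟩ := pvdm_quenchedE h
  refine ⟨Φ, mΦ, h1, fun g => le_trans ?_ (h2 g)⟩
  gcongr
  exact le_iInf fun φ => lintegral_mono φ.2.2

/-- **UPPER EXPECTATION FORM = THE EXIT OF RECORD OF TR23** (129) -/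
theorem pvdm_main_up (h : S.Hyp ε) :
    S.q * (PvUp.iter (pvGeo ε) pvCol).E (fun p => ∑' i, (S.A i).indicator (fun ω => ‖S.X i ω + S.yh i ω‖ₑ ^ 2) (pvConf (pvMerge p))) ≤ ∫⁻ ω, S.H ω ∂pvP ε := by
  obtain ⟨Φ, mΦ, h1, h2⟩ := pvdm_quenchedE h
  by_cases h0 : S.q = 0
  · rw [h0, zero_mul]; exact zero_le
  refine le_trans ?_ h1
  by_cases hq : S.q = ⊤
  · by_cases hΦ : ∫⁻ g, Φ g ∂pvGeo ε = ⊤
    · rw [hΦ]; exact le_top
    have mT : MeasurableSet {g | Φ g = ⊤} := mΦ (measurableSet_singleton ⊤)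
    have zT : pvGeo ε {g | Φ g = ⊤} = 0 := by
      have := ae_lt_top mΦ hΦ
      rw [ae_iff] at this
      simpa using this
    have k := pvup_iter_E_quenched (pvGeo ε) pvCol (F := fun p => ∑' i, (S.A i).indicator (fun ω => ‖S.X i ω + S.yh i ω‖ₑ ^ 2) (pvConf (pvMerge p)))
      (w := {g | Φ g = ⊤}.indicator fun _ => ⊤) (measurable_const.indicator mT) (fun g => by
        by_cases hg : Φ g = ⊤
        · rw [indicator_of_mem (show g ∈ {g | Φ g = ⊤} from hg)]; exact le_top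
        · rw [indicator_of_notMem (show g ∉ {g | Φ g = ⊤} from hg)]
          have k := h2 g
          rw [hq] at k
          by_contra hn
          rw [ENNReal.top_mul (fun h0 => hn (le_of_eq h0)), top_le_iff] at k
          exact hg k)
    rw [lintegral_indicator_const mT, zT, mul_zero] at k
    rw [nonpos_iff_eq_zero.1 k, mul_zero]
    exact zero_le
  have k := pvup_iter_E_quenched (pvGeo ε) pvCol (F := fun p => ∑' i, (S.A i).indicator (fun ω => ‖S.X i ω + S.yh i ω‖ₑ ^ 2) (pvConf (pvMerge p)))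
    (w := fun g => S.q⁻¹ * Φ g) (mΦ.const_mul _) (fun g => by
      rw [← ENNReal.div_eq_inv_mul, ENNReal.le_div_iff_mul_le (Or.inl h0) (Or.inl hq), mul_comm]
      exact h2 g)
  rw [lintegral_const_mul _ mΦ] at k
  calc S.q * _ ≤ S.q * (S.q⁻¹ * ∫⁻ g, Φ g ∂pvGeo ε) := by gcongr
    _ = _ := by rw [← mul_assoc, ENNReal.mul_inv_cancel h0 hq, one_mul]

/-- **UPPER PROBABILITY FORM**: `B` = ANY event of `(geometry, colours)` on which some present datum has `|X(D) + ŷ| ≥ u`. -/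
theorem pvdm_up_cheb (h : S.Hyp ε) {B : Set (PvGeoT × PvColT)} {u : ℝ≥0∞}
    (hBu : ∀ p ∈ B, ∃ i, pvConf (pvMerge p) ∈ S.A i ∧ u ≤ ‖S.X i (pvConf (pvMerge p)) + S.yh i (pvConf (pvMerge p))‖ₑ) :
    S.q * (u ^ 2 * (PvUp.iter (pvGeo ε) pvCol).P B) ≤ ∫⁻ ω, S.H ω ∂pvP ε := by
  refine le_trans ?_ (pvdm_main_up h)
  gcongr
  by_cases h0 : u ^ 2 = 0
  · rw [h0, zero_mul]; exact zero_le
  by_cases ht : u ^ 2 = ⊤
  · have hB : B = ∅ := by
      refine eq_empty_of_forall_notMem fun p hp => ?_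
      obtain ⟨i, _, hu⟩ := hBu p hp
      have : u = ⊤ := by
        by_contra hn
        exact (ENNReal.pow_ne_top hn) ht
      rw [this, top_le_iff] at hu
      exact enorm_ne_top hu
    rw [hB, PvUp.P_empty, mul_zero]; exact zero_le
  have k := (PvUp.iter (pvGeo ε) pvCol).markov (fun p => ∑' i, (S.A i).indicator (fun ω => ‖S.X i ω + S.yh i ω‖ₑ ^ 2) (pvConf (pvMerge p))) h0 ht
  have hsub : B ⊆ {p | u ^ 2 ≤ ∑' i, (S.A i).indicator (fun ω => ‖S.X i ω + S.yh i ω‖ₑ ^ 2) (pvConf (pvMerge p))} := by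
    intro p hp
    obtain ⟨i, hi, hu⟩ := hBu p hp
    refine le_trans ?_ (ENNReal.le_tsum i)
    rw [indicator_of_mem hi]
    gcongr
  have k2 := ((PvUp.iter (pvGeo ε) pvCol).P_mono hsub).trans k
  rw [ENNReal.le_div_iff_mul_le (Or.inl h0) (Or.inl ht), mul_comm] at k2
  exact k2

end ppp

/-! ## 4. HYBRID INVARIANCE IN THE U-FORM (leaf `pvl3_inv_up` of 129, `Tr/Top`) -/

section inv

/-- **colour stopping sets on a union of cylinders, fixed geometry**: `Z c` = frozen indices, `J c` = fresh indices;   the integrand is MEASURABLE and its mean is dominated.   No measurability of `Bc`, `Z`, `J`. -/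
theorem pvdm_stop_up {Bc : Set PvColT} {Z J : PvColT → Finset PvIx} (dis : ∀ c ∈ Bc, Disjoint (Z c) (J c))
    (cyl : ∀ c ∈ Bc, ∀ c' : PvColT, (∀ i ∈ Z c, c' i = c i) → c' ∈ Bc ∧ Z c' = Z c ∧ J c' = J c) {G : PvColT → ℝ≥0∞} (hG : Measurable G) :
    Measurable (Bc.indicator fun c => ∫⁻ v, G (pvthqMix (J c) c v) ∂pvCol) ∧
    ∫⁻ c, Bc.indicator (fun c => ∫⁻ v, G (pvthqMix (J c) c v) ∂pvCol) c ∂pvCol ≤ ∫⁻ c, G c ∂pvCol := by
  classical
  let P : Finset PvIx × Finset PvIx → Set PvColT := fun k => {c | c ∈ Bc ∧ Z c = k.1 ∧ J c = k.2}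
  have mP : ∀ k, MeasurableSet (P k) := by
    intro k
    refine pvdm_meas_of_dep k.1 fun s s' hss hs => ?_
    obtain ⟨a1, a2, a3⟩ := cyl s hs.1 s' (fun i hi => hss i (by rw [← hs.2.1]; exact hi))
    exact ⟨a1, a2.trans hs.2.1, a3.trans hs.2.2⟩
  have hmI : ∀ j : Finset PvIx, Measurable fun c : PvColT => ∫⁻ v, G (pvthqMix j c v) ∂pvCol :=
    fun j => (hG.comp (pvthq_mix_measurable j)).lintegral_prod_right'
  have e1 : (Bc.indicator fun c => ∫⁻ v, G (pvthqMix (J c) c v) ∂pvCol) = fun c => ∑' k, (P k).indicator (fun c => ∫⁻ v, G (pvthqMix k.2 c v) ∂pvCol) c := by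
    funext c
    rw [tsum_eq_single (Z c, J c)]
    · by_cases hc : c ∈ Bc
      · rw [indicator_of_mem hc, indicator_of_mem (show c ∈ P (Z c, J c) from ⟨hc, rfl, rfl⟩)]
      · rw [indicator_of_notMem hc, indicator_of_notMem (fun hh : c ∈ P (Z c, J c) => hc hh.1)]
    · intro k hk
      exact indicator_of_notMem (fun hh : c ∈ P k => hk (Prod.ext hh.2.1.symm hh.2.2.symm)) _
  have e2 : ∀ c, ∑' k, (P k).indicator G c ≤ G c := by
    intro c
    rw [tsum_eq_single (Z c, J c)]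
    · exact indicator_le_self _ _ _
    · intro k hk
      exact indicator_of_notMem (fun hh : c ∈ P k => hk (Prod.ext hh.2.1.symm hh.2.2.symm)) _
  rw [e1]
  refine ⟨Measurable.tsum fun k => (hmI k.2).indicator (mP k), ?_⟩
  rw [lintegral_tsum fun k => ((hmI k.2).indicator (mP k)).aemeasurable]
  refine le_trans ?_ (lintegral_mono e2)
  rw [lintegral_tsum fun k => (hG.indicator (mP k)).aemeasurable]
  refine ENNReal.tsum_le_tsum fun k => ?_
  rw [← pvthq_mix_lintegral k.2 (hG.indicator (mP k))]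
  refine lintegral_mono fun c => ?_
  by_cases hc : c ∈ P k
  · rw [indicator_of_mem hc]
    refine lintegral_mono fun v => ?_
    have hm : pvthqMix k.2 c v ∈ P k := by
      obtain ⟨a1, a2, a3⟩ := cyl c hc.1 (pvthqMix k.2 c v) (fun i hi => by
        unfold pvthqMix
        rw [if_neg fun hj => Finset.disjoint_left.1 (dis c hc.1) hi (by rw [hc.2.2]; exact hj)])
      exact ⟨a1, a2.trans hc.2.1, a3.trans hc.2.2⟩
    rw [indicator_of_mem hm]
  · rw [indicator_of_notMem hc]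
    exact zero_le

open Classical in
/-- recolouring of a labelled sample on ANY set of sites -/
theorem pvdm_rec_merge (g : PvGeoT) (T : Set ℂ) (u : ℂ → Bool) (c : PvColT) :
    pvthRec T u (pvConf (pvMerge (g, c))) = pvConf (pvMerge (g, fun i => if pvgSite g i ∈ T then u (pvgSite g i) else c i)) := by
  have key : ∀ i, pvthCol T u (pvgSite g i, c i) = (pvgSite g i, if pvgSite g i ∈ T then u (pvgSite g i) else c i) := by
    intro i
    unfold pvthCol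
    congr 1
  refine Conf.ext ?_
  ext p
  rw [pvqu_mem_conf]
  show p ∈ pvthCol T u '' (pvConf (pvMerge (g, c))).pts ↔ _
  constructor
  · rintro ⟨q, hq, rfl⟩
    obtain ⟨i, hi, rfl⟩ := pvqu_mem_conf.1 hq
    exact ⟨i, hi, key i⟩
  · rintro ⟨i, hi, rfl⟩
    exact ⟨_, pvqu_mem_conf.2 ⟨i, hi, rfl⟩, key i⟩

/-- **HYBRID INVARIANCE, U-FORM**: `B` = a union of colour cylinders (`frz σ` = the frozen sites), `F σ` = the fresh sites (not frozen, off `C`).   No measurability of `B`, `F`, `frz`. -/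
theorem pvdm_inv_up (ε : ℝ) {B : Set (Conf PvPt)} {C : Set ℂ} {F frz : Conf PvPt → Finset ℂ} (mC : MeasurableSet C)
    (dis : ∀ σ ∈ B, Disjoint (frz σ) (F σ)) (dF : ∀ σ ∈ B, Disjoint (↑(F σ) : Set ℂ) C)
    (cyl : ∀ σ ∈ B, ∀ (T : Set ℂ) (u : ℂ → Bool), Disjoint T (↑(frz σ) : Set ℂ) → pvthRec T u σ ∈ B ∧ frz (pvthRec T u σ) = frz σ ∧ F (pvthRec T u σ) = F σ)
    {Θ : Conf PvPt → ℝ≥0∞} (hΘ : Measurable Θ) :
    (PvUp.iter (pvGeo ε) pvCol).E (fun o => B.indicator (fun σ => ∫⁻ x, Θ (pvthR C F σ x) ∂(pvthSeed ε)) (pvConf (pvMerge o))) ≤ ∫⁻ ω, Θ ω ∂(pvP ε) := by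
  classical
  have hP := pv_isPpp ε
  have := hP.prob
  have hU : MeasurableSet ((Prod.fst ⁻¹' C)ᶜ : Set PvPt) := (measurable_fst mC).compl
  -- the corridor averaged
  set G : Conf PvPt → ℝ≥0∞ := fun σ => ∫⁻ η, Θ (Conf.spl (Prod.fst ⁻¹' C)ᶜ (σ, η)) ∂pvP ε with hGdef
  have mG : Measurable G := (hΘ.comp (Conf.measurable_spl hU)).lintegral_prod_right'
  have mΨ : Measurable fun g : PvGeoT => ∫⁻ c, G (pvConf (pvMerge (g, c))) ∂pvCol :=
    (mG.comp (measurable_pvConf.comp measurable_pvMerge)).lintegral_prod_right'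
  have iΨ : ∫⁻ g, ∫⁻ c, G (pvConf (pvMerge (g, c))) ∂pvCol ∂pvGeo ε = ∫⁻ ω, Θ ω ∂pvP ε := by
    rw [hP.lintegral_spl hU hΘ]
    have e : ∫⁻ ω, G ω ∂pvP ε = ∫⁻ ω, G (pvConf ω) ∂pvLaw ε := lintegral_map (μ := pvLaw ε) mG measurable_pvConf
    show _ = ∫⁻ ω, G ω ∂pvP ε
    rw [e]
    exact (pvqu_lintegral ε (mG.comp measurable_pvConf)).symm
  -- the integrand on `B`
  have hint : ∀ σ ∈ B, ∫⁻ x, Θ (pvthR C F σ x) ∂(pvthSeed ε) = ∫⁻ u, G (pvthRec (F σ) u σ) ∂pvthBit := by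
    intro σ hσ
    unfold pvthSeed
    rw [lintegral_prod_symm (fun x : PvthSd => Θ (pvthR C F σ x)) (hΘ.comp (pvth_R_measurable mC F σ)).aemeasurable]
    refine lintegral_congr fun u => lintegral_congr fun η => ?_
    show Θ (pvthRec (F σ) u (Conf.spl (Prod.fst ⁻¹' C)ᶜ (σ, η))) = _
    rw [pvth_rec_spl (dF σ hσ)]
  -- a good geometry
  have key : ∀ g, PvgOk g → pvUpInt pvCol (fun c => B.indicator (fun σ => ∫⁻ x, Θ (pvthR C F σ x) ∂(pvthSeed ε)) (pvConf (pvMerge (g, c))))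
      ≤ ∫⁻ c, G (pvConf (pvMerge (g, c))) ∂pvCol := by
    intro g hg
    have mG' : Measurable fun c : PvColT => G (pvConf (pvMerge (g, c))) := mG.comp (pvqu_Qm_meas g)
    have k := pvdm_stop_up (Bc := {c | pvConf (pvMerge (g, c)) ∈ B}) (Z := fun c => (frz (pvConf (pvMerge (g, c)))).preimage (pvgSite g) hg.inj.injOn)
      (J := fun c => (F (pvConf (pvMerge (g, c)))).preimage (pvgSite g) hg.inj.injOn) ?_ ?_ mG'
    · have e : (fun c => B.indicator (fun σ => ∫⁻ x, Θ (pvthR C F σ x) ∂(pvthSeed ε)) (pvConf (pvMerge (g, c))))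
          = {c | pvConf (pvMerge (g, c)) ∈ B}.indicator fun c => ∫⁻ v, G (pvConf (pvMerge (g, pvthqMix ((F (pvConf (pvMerge (g, c)))).preimage (pvgSite g) hg.inj.injOn) c v))) ∂pvCol := by
        funext c
        by_cases hc : pvConf (pvMerge (g, c)) ∈ B
        · rw [indicator_of_mem hc, indicator_of_mem (show c ∈ {c | pvConf (pvMerge (g, c)) ∈ B} from hc), hint _ hc]
          have hH : Measurable fun v : PvColT => G (pvConf (pvMerge (g, pvthqMix ((F (pvConf (pvMerge (g, c)))).preimage (pvgSite g) hg.inj.injOn) c v))) :=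
            mG'.comp ((pvthq_mix_measurable _).comp (measurable_const.prodMk measurable_id))
          rw [← pvthq_bit_map hg.inj, lintegral_map hH (by fun_prop)]
          refine lintegral_congr fun u => ?_
          rw [pvthq_rec_merge hg]
        · rw [indicator_of_notMem hc, indicator_of_notMem (show c ∉ {c | pvConf (pvMerge (g, c)) ∈ B} from hc)]
      rw [e, pvup_int_of_meas _ k.1]
      exact k.2
    · intro c hc
      refine Finset.disjoint_left.2 fun i hi hi' => ?_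
      exact Finset.disjoint_left.1 (dis _ hc) (Finset.mem_preimage.1 hi) (Finset.mem_preimage.1 hi')
    · intro c hc c' hcc
      set u : ℂ → Bool := fun z => if hz : ∃ i, pvgSite g i = z then c' hz.choose else false with hu
      have huv : ∀ i, u (pvgSite g i) = c' i := by
        intro i
        have hz : ∃ i', pvgSite g i' = pvgSite g i := ⟨i, rfl⟩
        simp only [hu]
        rw [dif_pos hz, hg.inj hz.choose_spec]
      have e : pvthRec (↑(frz (pvConf (pvMerge (g, c)))) : Set ℂ)ᶜ u (pvConf (pvMerge (g, c))) = pvConf (pvMerge (g, c')) := by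
        rw [pvdm_rec_merge]
        congr 3
        funext i
        by_cases hi : pvgSite g i ∈ (↑(frz (pvConf (pvMerge (g, c)))) : Set ℂ)ᶜ
        · rw [if_pos hi, huv]
        · rw [if_neg hi]
          exact (hcc i (Finset.mem_preimage.2 (not_not.1 hi))).symm
      obtain ⟨a1, a2, a3⟩ := cyl _ hc (↑(frz (pvConf (pvMerge (g, c)))) : Set ℂ)ᶜ u disjoint_compl_left
      rw [e] at a1 a2 a3
      refine ⟨a1, ?_, ?_⟩
      · show (frz (pvConf (pvMerge (g, c')))).preimage (pvgSite g) hg.inj.injOn = (frz (pvConf (pvMerge (g, c)))).preimage (pvgSite g) hg.inj.injOn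
        simp only [a2]
      · show (F (pvConf (pvMerge (g, c')))).preimage (pvgSite g) hg.inj.injOn = (F (pvConf (pvMerge (g, c)))).preimage (pvgSite g) hg.inj.injOn
        simp only [a3]
  -- the bad geometries
  set N : Set PvGeoT := toMeasurable (pvGeo ε) {g | ¬ PvgOk g} with hN
  have mN : MeasurableSet N := measurableSet_toMeasurable _ _
  have zN : pvGeo ε N = 0 := by rw [hN, measure_toMeasurable]; exact pvqu_ok_ae ε
  refine (pvup_iter_E_quenched (pvGeo ε) pvCol (w := N.piecewise (fun _ => ⊤) fun g => ∫⁻ c, G (pvConf (pvMerge (g, c))) ∂pvCol)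
    (Measurable.piecewise mN measurable_const mΨ) fun g => ?_).trans ?_
  · by_cases hg : g ∈ N
    · rw [piecewise_eq_of_mem _ _ _ hg]; exact le_top
    · rw [piecewise_eq_of_notMem _ _ _ hg]
      refine key g ?_
      by_contra hn
      exact hg (subset_toMeasurable _ _ hn)
  · rw [← iΨ]
    refine le_of_eq (lintegral_congr_ae ?_)
    have : ∀ᵐ g ∂pvGeo ε, g ∉ N := measure_eq_zero_iff_ae_notMem.1 zN
    filter_upwards [this] with g hg
    exact piecewise_eq_of_notMem _ _ _ hg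

end inv

end Claimed.Agent.R289
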