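import Claimed.Agent.R289.Tr.Force
import Claimed.Agent.R289.Tr.Ind
import Claimed.Agent.R289.Tr.Dom
import Claimed.Agent.R289.PppQ
import Claimed.Agent.R289.Defs.Bulk

/-!
# Row 289 (S0537), box TR-DOMY, file Tr/DomY : THE Y SIDE OF TR23 (N1' AT THE LEVEL OF THE POISSON PROCESS), LABEL FREE      (helper193, on the request of helper159; prefix `pvdy_`, `pvdy`, `Pvdy`)

The hybrid resampling of `W1_208.md` (R-F): the GEOMETRY AND COLOURS inside a deterministic region `C` are replaced by an independent copy, the COLOURS of a state dependent set `yf ω` of sites are replaced by fresh fair bits.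
NO measurability of `yf` (of the states) is asked: at fixed geometry the level sets of a finite stopping set are finite unions of cylinders, and in the geometry variable only LOWER integrals occur.      0 sorry
* sec. 1  `PvdyStp U S`, `pvdyMx`, **`pvdy_stop`** : at fixed geometry (any `V`) fresh colours off a finite STOPPING SET preserve `colLaw V`.
* sec. 2  `pvdy_quenched`, `pvdy_quenched_le` : `∫ F d(pvP ε) = ∫ db ∫ F (cfOf (pvfSites b) κ) d(colLaw ℂ)` (`≤` for ANY `F`).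
* sec. 3  `pvdyRec F ω κ`, **`pvdyR C yf ω (κ, ω₂)`**, `pvdyNu ε`, `PvdyStop yf` (FINITE WITNESSES: `.of_cofin`, `.of_set`; 96), `pvdy_rec_meas`;   `pvdy_rec_q`, `pvdy_rec_le`, **`pvdy_inv`** : `∫ dω ∫ dp H (R ω p) ≤ ∫ H`.
* sec. 4  **`pvdyHat ε C yf w Y`** (ruling 10bis of 234: THE definition of `kout kin ke ŷ_c`), `pvdy_jensen` = (J), **`pvdy_core`** (`'`, `_ae'`: sectionwise measurability) = Jensen + invariance.
* sec. 5  KIT: `pvdy_mem_R`, `pvdy_sites_R`, `pvdy_cfCol_R`, **`pvdy_R_congr`** (what `R` reads), **`pvdy_R_R`** (idempotence), `pvdy_hat_congr`, `pvdy_hat_reads`, `pvdy_hat_R`;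
          the conditioning weight `pvdyQ` = `P(S | kept)`, `pvdyW` = `1_S / P(S | kept)` : `pvdy_Q_R`, `pvdy_W_R`, `pvdy_W_meas`, `pvdy_W_norm`, `pvdy_W_le`.
* sec. 6  BRIDGE to `Tr/Dom` (159): `pvdy_sys_R`, `PvdmSys.hat S ε w0`, `PvdmSys.HypY S ε w0` (no `jen`, no `yh`;   `w0` = the TRUE weight: sections AEMeasurable `mw0`, mass one `norm`, `le0 : w0 ≤ S.w` along the experiment, `rdY`),
          `HypY.hat_stab` (Y-b), `HypY.hat_jen` (Y-a), `HypY.hyp`, `pvdy_main`, **`pvdy_main_up`**, **`pvdy_up_cheb`** = TR23 for the concrete `ŷ_c` over `PvUp.iter (pvGeo ε) pvCol`;   `pvdy_section_meas`.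
* sec. 7  THE EXPERIMENT AT A FIXED COMBINED GEOMETRY (Fubini half of E10): `pvdyYc C Y Y₂`, `pvdyFz C yf Y σ`, `pvdy_spl_cfOf`, `pvdy_R_comb`, **`pvdy_lintegral_comb`**, `pvdyPq Y' Fz σ S` (`= pvtfPD Fz σ {τ | cfOf Y' τ ∈ S}` : `pvdy_Pq_eq`),
          **`pvdy_Q_quenched`** : `P(S | kept) = ∫ dg pvdyPq (combined sites) (frozen sites) σ S`,   `pvdy_Q_ge` (quenched bound off ANY set of bad geometries).
-/

set_option autoImplicit false
set_option linter.unusedSectionVars false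

namespace Claimed.Agent.R289

open MeasureTheory ProbabilityTheory Set
open scoped ENNReal

/-! ## 1. fixed geometry: recolouring off a finite STOPPING SET preserves `colLaw V` -/

section stop

variable {V : Type}

/-- an event which reads finitely many colours is measurable -/
theorem pvdy_meas_of_finite (T : Finset V) (E : Set (V → Bool)) (h : ∀ s s', (∀ v ∈ T, s v = s' v) → (s ∈ E ↔ s' ∈ E)) : MeasurableSet E := by
  classical
  have hm : Measurable (fun (s : V → Bool) (v : T) => s v) := measurable_pi_lambda _ fun v => measurable_pi_apply _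
  let ex : (T → Bool) → V → Bool := fun x v => if h : v ∈ T then x ⟨v, h⟩ else false
  have e : E = (fun (s : V → Bool) (v : T) => s v) ⁻¹' {x | ex x ∈ E} := by
    ext s
    refine h s _ fun v hv => ?_
    simp only [ex, dif_pos hv]
  rw [e]
  exact hm MeasurableSet.of_discrete

open Classical in
/-- the resampling rule: on `U` keep the colours of the finite set `S s` and take the fresh colours `κ` elsewhere; off `U` do nothing -/
noncomputable def pvdyMx (U : Set (V → Bool)) (S : (V → Bool) → Finset V) (s κ : V → Bool) : V → Bool :=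
  if s ∈ U then pvfqMix (↑(S s) : Set V) (s, κ) else s

/-- `S` is a STOPPING SET on `U` -/
structure PvdyStp (U : Set (V → Bool)) (S : (V → Bool) → Finset V) : Prop where
  stop : ∀ s ∈ U, ∀ s', (∀ v ∈ S s, s' v = s v) → s' ∈ U ∧ S s' = S s
  cnt : (S '' U).Countable

theorem pvdy_eqns_cite1 : True := by
  have := @pvdyMx.eq_1
  trivial

theorem PvdyStp.level_iff {U : Set (V → Bool)} {S : (V → Bool) → Finset V} (h : PvdyStp U S) (T : Finset V) {s s' : V → Bool} (hs : ∀ v ∈ T, s v = s' v) :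
    (s ∈ U ∧ S s = T) ↔ (s' ∈ U ∧ S s' = T) := by
  constructor
  · rintro ⟨h1, h2⟩
    have := h.stop s h1 s' fun v hv => (hs v (h2 ▸ hv)).symm
    exact ⟨this.1, this.2.trans h2⟩
  · rintro ⟨h1, h2⟩
    have := h.stop s' h1 s fun v hv => hs v (h2 ▸ hv)
    exact ⟨this.1, this.2.trans h2⟩

theorem PvdyStp.level_meas {U : Set (V → Bool)} {S : (V → Bool) → Finset V} (h : PvdyStp U S) (T : Finset V) : MeasurableSet {s | s ∈ U ∧ S s = T} :=
  pvdy_meas_of_finite T _ fun _ _ hs => h.level_iff T hs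

theorem PvdyStp.meas {U : Set (V → Bool)} {S : (V → Bool) → Finset V} (h : PvdyStp U S) : MeasurableSet U := by
  have e : U = ⋃ T ∈ S '' U, {s | s ∈ U ∧ S s = T} := by
    ext s
    simp only [mem_iUnion, mem_ofPred_eq, exists_prop]
    exact ⟨fun hs => ⟨S s, mem_image_of_mem S hs, hs, rfl⟩, fun ⟨_, _, hs, _⟩ => hs⟩
  rw [e]
  exact MeasurableSet.biUnion h.cnt fun T _ => h.level_meas T

/-- **RECOLOURING LEMMA, fixed geometry**: fresh colours off a finite stopping set -/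
theorem pvdy_stop {U : Set (V → Bool)} {S : (V → Bool) → Finset V} (h : PvdyStp U S) {H : (V → Bool) → ℝ≥0∞} (mH : Measurable H) :
    ∫⁻ s, ∫⁻ κ, H (pvdyMx U S s κ) ∂colLaw V ∂colLaw V = ∫⁻ s, H s ∂colLaw V := by
  classical
  have := h.cnt.to_subtype
  -- the partition
  let P : Option ↥(S '' U) → Set (V → Bool) := fun o => o.elim Uᶜ fun T => {s | s ∈ U ∧ S s = T}
  have mP : ∀ o, MeasurableSet (P o) := by
    rintro (_ | T)
    · exact h.meas.compl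
    · exact h.level_meas T
  have dP : Pairwise (Function.onFun Disjoint P) := by
    rintro (_ | T) (_ | T') hne
    · exact absurd rfl hne
    · exact Set.disjoint_left.2 fun s h1 h2 => h1 h2.1
    · exact Set.disjoint_left.2 fun s h1 h2 => h2 h1.1
    · refine Set.disjoint_left.2 fun s h1 h2 => hne ?_
      congr 1
      exact Subtype.ext (h1.2.symm.trans h2.2)
  have uP : ⋃ o, P o = univ := by
    refine eq_univ_of_forall fun s => mem_iUnion.2 ?_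
    by_cases hs : s ∈ U
    · exact ⟨some ⟨S s, mem_image_of_mem S hs⟩, hs, rfl⟩
    · exact ⟨none, hs⟩
  have key : ∀ f : (V → Bool) → ℝ≥0∞, ∫⁻ s, f s ∂colLaw V = ∑' o, ∫⁻ s in P o, f s ∂colLaw V := by
    intro f
    rw [← lintegral_iUnion mP dP, uP, Measure.restrict_univ]
  rw [key, key H]
  refine tsum_congr ?_
  rintro (_ | T)
  · refine setLIntegral_congr_fun h.meas.compl fun s hs => ?_
    have : ∀ κ, pvdyMx U S s κ = s := fun κ => if_neg hs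
    simp only [this, lintegral_const, measure_univ, mul_one]
  · have mE : MeasurableSet {s | s ∈ U ∧ S s = (T : Finset V)} := h.level_meas T
    show ∫⁻ s in {s | s ∈ U ∧ S s = (T : Finset V)}, ∫⁻ κ, H (pvdyMx U S s κ) ∂colLaw V ∂colLaw V = ∫⁻ s in {s | s ∈ U ∧ S s = (T : Finset V)}, H s ∂colLaw V
    have e1 : ∫⁻ s in {s | s ∈ U ∧ S s = (T : Finset V)}, ∫⁻ κ, H (pvdyMx U S s κ) ∂colLaw V ∂colLaw V
        = ∫⁻ s, ∫⁻ κ, ({s | s ∈ U ∧ S s = (T : Finset V)} : Set (V → Bool)).indicator H (pvfqMix (↑(T : Finset V) : Set V) (s, κ)) ∂colLaw V ∂colLaw V := by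
      rw [← lintegral_indicator mE]
      refine lintegral_congr fun s => ?_
      have hiff : ∀ κ, (pvfqMix (↑(T : Finset V) : Set V) (s, κ) ∈ U ∧ S (pvfqMix (↑(T : Finset V) : Set V) (s, κ)) = (T : Finset V)) ↔ (s ∈ U ∧ S s = (T : Finset V)) :=
        fun κ => h.level_iff T fun v hv => pvfqMix_of_mem (Finset.mem_coe.2 hv) _
      by_cases hs : s ∈ U ∧ S s = (T : Finset V)
      · rw [indicator_of_mem (show s ∈ {s | s ∈ U ∧ S s = (T : Finset V)} from hs)]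
        refine lintegral_congr fun κ => ?_
        rw [indicator_of_mem (show _ ∈ {s | s ∈ U ∧ S s = (T : Finset V)} from (hiff κ).2 hs)]
        unfold pvdyMx
        rw [if_pos hs.1, hs.2]
      · rw [indicator_of_notMem (show s ∉ {s | s ∈ U ∧ S s = (T : Finset V)} from hs)]
        have : ∀ κ, ({s | s ∈ U ∧ S s = (T : Finset V)} : Set (V → Bool)).indicator H (pvfqMix (↑(T : Finset V) : Set V) (s, κ)) = 0 := fun κ =>
          indicator_of_notMem (show _ ∉ {s | s ∈ U ∧ S s = (T : Finset V)} from fun hh => hs ((hiff κ).1 hh)) _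
        simp only [this, lintegral_zero]
    rw [e1, ← lintegral_indicator mE]
    have mI : Measurable (({s | s ∈ U ∧ S s = (T : Finset V)} : Set (V → Bool)).indicator H) := mH.indicator mE
    conv_rhs => rw [← pvtf_split (↑(T : Finset V) : Set V)]
    rw [lintegral_map mI (measurable_pvfqMix _)]
    exact (lintegral_prod _ (mI.comp (measurable_pvfqMix _)).aemeasurable).symm

/-! ### finite WITNESSES instead of a cofinite choice      (helper96; flag (F1) of 161) -/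

/-- `F` is a STOPPING CHOICE with FINITE WITNESSES inside `Y`: whenever some site is chosen, finitely many colours of NOT chosen sites of `Y` decide the choice.      (No bound on the size of `F s`, none on its complement.) -/
def PvdzStp (Y : Set V) (F : (V → Bool) → Set V) : Prop :=
  ∀ s, (F s).Nonempty → ∃ S : Finset V, (↑S : Set V) ⊆ Y ∧ (∀ v ∈ S, v ∉ F s) ∧ ∀ s', (∀ v ∈ S, s' v = s v) → F s' = F s

theorem pvdz_countable_finsets {Y : Set V} (hY : Y.Countable) : {T : Finset V | (↑T : Set V) ⊆ Y}.Countable := by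
  have h1 := Set.countable_ofPred_finite_subset hY
  have h2 : {T : Finset V | (↑T : Set V) ⊆ Y} = (fun T : Finset V => (↑T : Set V)) ⁻¹' {t | t.Finite ∧ t ⊆ Y} := by
    ext T
    simp only [mem_ofPred_eq, mem_preimage, Finset.finite_toSet, true_and]
  rw [h2]
  exact h1.preimage_of_injOn Finset.coe_injective.injOn

/-- a level set of the choice does not read the chosen colours -/
theorem PvdzStp.level_mix {Y : Set V} {F : (V → Bool) → Set V} (h : PvdzStp Y F) {F0 : Set V} (h0 : F0.Nonempty) (s κ : V → Bool) :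
    F (pvfqMix F0 (κ, s)) = F0 ↔ F s = F0 := by
  constructor
  · intro hm
    obtain ⟨S, -, h2, h3⟩ := h (pvfqMix F0 (κ, s)) (by rw [hm]; exact h0)
    refine (h3 s fun v hv => ?_).trans hm
    have hv0 : v ∉ F0 := by
      have := h2 v hv
      rwa [hm] at this
    exact (pvfqMix_of_notMem hv0 (κ, s)).symm
  · intro hs
    obtain ⟨S, -, h2, h3⟩ := h s (by rw [hs]; exact h0)
    refine (h3 _ fun v hv => ?_).trans hs
    have hv0 : v ∉ F0 := by
      have := h2 v hv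
      rwa [hs] at this
    exact pvfqMix_of_notMem hv0 (κ, s)

/-- the level sets are measurable -/
theorem PvdzStp.level_meas {Y : Set V} {F : (V → Bool) → Set V} (h : PvdzStp Y F) (hY : Y.Countable) {F0 : Set V} (h0 : F0.Nonempty) : MeasurableSet {s | F s = F0} := by
  have e : {s | F s = F0} = ⋃ S ∈ {T : Finset V | (↑T : Set V) ⊆ Y}, {s | F s = F0 ∧ ∀ s', (∀ v ∈ S, s' v = s v) → F s' = F0} := by
    ext s
    simp only [mem_iUnion, mem_ofPred_eq, exists_prop]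
    constructor
    · intro hs
      obtain ⟨S, h1, -, h3⟩ := h s (by rw [hs]; exact h0)
      exact ⟨S, h1, hs, fun s' hs' => (h3 s' hs').trans hs⟩
    · rintro ⟨_, _, hs, _⟩
      exact hs
  rw [e]
  refine MeasurableSet.biUnion (pvdz_countable_finsets hY) fun S _ => ?_
  refine pvdy_meas_of_finite S _ fun s t hs => ?_
  constructor
  · rintro ⟨-, h2⟩
    exact ⟨h2 t fun v hv => (hs v hv).symm, fun s' hs' => h2 s' fun v hv => (hs' v hv).trans (hs v hv).symm⟩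
  · rintro ⟨-, h2⟩
    exact ⟨h2 s fun v hv => hs v hv, fun s' hs' => h2 s' fun v hv => (hs' v hv).trans (hs v hv)⟩

/-- countably many values -/
theorem PvdzStp.vals {Y : Set V} {F : (V → Bool) → Set V} (h : PvdzStp Y F) (hY : Y.Countable) : {F0 : Set V | F0.Nonempty ∧ ∃ s, F s = F0}.Countable := by
  classical
  refine ((pvdz_countable_finsets hY).image fun T : Finset V => F fun v => decide (v ∈ T)).mono ?_
  rintro _ ⟨h0, s, rfl⟩
  obtain ⟨S, h1, -, h3⟩ := h s h0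
  refine ⟨S.filter fun v => s v = true, ?_, ?_⟩
  · intro v hv
    exact h1 (Finset.mem_coe.2 (Finset.mem_filter.1 (Finset.mem_coe.1 hv)).1)
  · refine h3 _ fun v hv => ?_
    cases hsv : s v
    · simp [hsv]
    · simp [hsv, hv]

/-- **RECOLOURING LEMMA, fixed geometry, FINITE WITNESSES**: fresh colours on a stopping choice preserve `colLaw V` -/
theorem pvdz_stop {Y : Set V} {F : (V → Bool) → Set V} (h : PvdzStp Y F) (hY : Y.Countable) {H : (V → Bool) → ℝ≥0∞} (mH : Measurable H) :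
    ∫⁻ s, ∫⁻ κ, H (pvfqMix (F s) (κ, s)) ∂colLaw V ∂colLaw V = ∫⁻ s, H s ∂colLaw V := by
  classical
  have := (h.vals hY).to_subtype
  let P : Option ↥{F0 : Set V | F0.Nonempty ∧ ∃ s, F s = F0} → Set (V → Bool) := fun o => o.elim {s | ¬ (F s).Nonempty} fun T => {s | F s = T}
  have mN : MeasurableSet {s | ¬ (F s).Nonempty} := by
    have e : {s | ¬ (F s).Nonempty} = (⋃ T : ↥{F0 : Set V | F0.Nonempty ∧ ∃ s, F s = F0}, {s | F s = T})ᶜ := by
      ext s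
      simp only [mem_ofPred_eq, mem_compl_iff, mem_iUnion, not_exists]
      constructor
      · intro hs T hT
        exact hs (hT ▸ T.2.1)
      · intro hs hne
        exact hs ⟨F s, hne, s, rfl⟩ rfl
    rw [e]
    exact (MeasurableSet.iUnion fun T => h.level_meas hY T.2.1).compl
  have mP : ∀ o, MeasurableSet (P o) := by
    rintro (_ | T)
    · exact mN
    · exact h.level_meas hY T.2.1
  have dP : Pairwise (Function.onFun Disjoint P) := by
    rintro (_ | T) (_ | T') hne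
    · exact absurd rfl hne
    · exact Set.disjoint_left.2 fun s h1 h2 => h1 ((show F s = T' from h2) ▸ T'.2.1)
    · exact Set.disjoint_left.2 fun s h1 h2 => h2 ((show F s = T from h1) ▸ T.2.1)
    · refine Set.disjoint_left.2 fun s h1 h2 => hne ?_
      congr 1
      exact Subtype.ext ((show F s = T from h1).symm.trans h2)
  have uP : ⋃ o, P o = univ := by
    refine eq_univ_of_forall fun s => mem_iUnion.2 ?_
    by_cases hs : (F s).Nonempty
    · exact ⟨some ⟨F s, hs, s, rfl⟩, rfl⟩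
    · exact ⟨none, hs⟩
  have key : ∀ f : (V → Bool) → ℝ≥0∞, ∫⁻ s, f s ∂colLaw V = ∑' o, ∫⁻ s in P o, f s ∂colLaw V := by
    intro f
    rw [← lintegral_iUnion mP dP, uP, Measure.restrict_univ]
  rw [key, key H]
  refine tsum_congr ?_
  rintro (_ | T)
  · refine setLIntegral_congr_fun mN fun s hs => ?_
    have he : F s = ∅ := Set.not_nonempty_iff_eq_empty.1 hs
    have : ∀ κ, pvfqMix (F s) (κ, s) = s := fun κ => by rw [he, pvfqMix_empty]
    simp only [this, lintegral_const, measure_univ, mul_one]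
  · have mE : MeasurableSet {s | F s = (T : Set V)} := h.level_meas hY T.2.1
    show ∫⁻ s in {s | F s = (T : Set V)}, ∫⁻ κ, H (pvfqMix (F s) (κ, s)) ∂colLaw V ∂colLaw V = ∫⁻ s in {s | F s = (T : Set V)}, H s ∂colLaw V
    have e1 : ∫⁻ s in {s | F s = (T : Set V)}, ∫⁻ κ, H (pvfqMix (F s) (κ, s)) ∂colLaw V ∂colLaw V
        = ∫⁻ s, ∫⁻ κ, ({s | F s = (T : Set V)} : Set (V → Bool)).indicator H (pvfqMix (T : Set V) (κ, s)) ∂colLaw V ∂colLaw V := by
      rw [← lintegral_indicator mE]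
      refine lintegral_congr fun s => ?_
      by_cases hs : F s = (T : Set V)
      · rw [indicator_of_mem (show s ∈ {s | F s = (T : Set V)} from hs)]
        refine lintegral_congr fun κ => ?_
        rw [indicator_of_mem (show _ ∈ {s | F s = (T : Set V)} from (h.level_mix T.2.1 s κ).2 hs), hs]
      · rw [indicator_of_notMem (show s ∉ {s | F s = (T : Set V)} from hs)]
        have : ∀ κ, ({s | F s = (T : Set V)} : Set (V → Bool)).indicator H (pvfqMix (T : Set V) (κ, s)) = 0 := fun κ =>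
          indicator_of_notMem (show _ ∉ {s | F s = (T : Set V)} from fun hh => hs ((h.level_mix T.2.1 s κ).1 hh)) _
        simp only [this, lintegral_zero]
    rw [e1, ← lintegral_indicator mE]
    have mI : Measurable (({s | F s = (T : Set V)} : Set (V → Bool)).indicator H) := mH.indicator mE
    conv_rhs => rw [← pvtf_split (T : Set V)]
    rw [lintegral_map mI (measurable_pvfqMix _)]
    exact (lintegral_prod_symm _ (mI.comp (measurable_pvfqMix _)).aemeasurable).symm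

/-- the mean over the fresh colours is measurable in the old colours -/
theorem pvdz_stop_meas {Y : Set V} {F : (V → Bool) → Set V} (h : PvdzStp Y F) (hY : Y.Countable) {H : (V → Bool) → ℝ≥0∞} (mH : Measurable H) :
    Measurable fun s => ∫⁻ κ, H (pvfqMix (F s) (κ, s)) ∂colLaw V := by
  classical
  have := (h.vals hY).to_subtype
  have e : (fun s => ∫⁻ κ, H (pvfqMix (F s) (κ, s)) ∂colLaw V) = fun s => ({s | ¬ (F s).Nonempty} : Set (V → Bool)).indicator H s +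
      ∑' T : ↥{F0 : Set V | F0.Nonempty ∧ ∃ s, F s = F0}, ({s | F s = (T : Set V)} : Set (V → Bool)).indicator (fun s => ∫⁻ κ, H (pvfqMix (T : Set V) (κ, s)) ∂colLaw V) s := by
    funext s
    by_cases hs : (F s).Nonempty
    · rw [indicator_of_notMem (show s ∉ {s | ¬ (F s).Nonempty} from fun hh => hh hs), zero_add,
        tsum_eq_single (⟨F s, hs, s, rfl⟩ : ↥{F0 : Set V | F0.Nonempty ∧ ∃ s, F s = F0})]
      · rw [indicator_of_mem (show s ∈ {s' | F s' = F s} from rfl)]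
      · intro T hT
        exact indicator_of_notMem (show s ∉ {s | F s = (T : Set V)} from fun hh => hT (Subtype.ext (show (T : Set V) = F s from hh.symm))) _
    · rw [indicator_of_mem (show s ∈ {s | ¬ (F s).Nonempty} from hs)]
      have he : F s = ∅ := Set.not_nonempty_iff_eq_empty.1 hs
      have h1 : ∀ κ, pvfqMix (F s) (κ, s) = s := fun κ => by rw [he, pvfqMix_empty]
      have h2 : ∀ T : ↥{F0 : Set V | F0.Nonempty ∧ ∃ s, F s = F0}, ({s | F s = (T : Set V)} : Set (V → Bool)).indicator (fun s => ∫⁻ κ, H (pvfqMix (T : Set V) (κ, s)) ∂colLaw V) s = 0 := fun T =>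
        indicator_of_notMem (show s ∉ {s | F s = (T : Set V)} from fun hh => hs ((show F s = T from hh) ▸ T.2.1)) _
      simp only [h1, h2, lintegral_const, measure_univ, mul_one, tsum_zero, add_zero]
  rw [e]
  have mN : MeasurableSet {s | ¬ (F s).Nonempty} := by
    have e : {s | ¬ (F s).Nonempty} = (⋃ T : ↥{F0 : Set V | F0.Nonempty ∧ ∃ s, F s = F0}, {s | F s = T})ᶜ := by
      ext s
      simp only [mem_ofPred_eq, mem_compl_iff, mem_iUnion, not_exists]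
      constructor
      · intro hs T hT
        exact hs (hT ▸ T.2.1)
      · intro hs hne
        exact hs ⟨F s, hne, s, rfl⟩ rfl
    rw [e]
    exact (MeasurableSet.iUnion fun T => h.level_meas hY T.2.1).compl
  refine (mH.indicator mN).add (Measurable.ennreal_tsum fun T => Measurable.indicator ?_ (h.level_meas hY T.2.1))
  exact (mH.comp ((measurable_pvfqMix (T : Set V)).comp measurable_swap)).lintegral_prod_right'

end stop

/-! ## 2. the quenched Fubini in the names `cfOf Y κ`, `κ : ℂ → Bool` of law `colLaw ℂ` -/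

section quenched

theorem pvdy_cf_eq (Y : Set ℂ) (κ : ℂ → Bool) : pvfCf Y (fun v => κ v) = cfOf Y κ := by
  ext p
  constructor
  · rintro ⟨v, rfl⟩
    exact ⟨v.2, rfl⟩
  · rintro ⟨h1, h2⟩
    exact ⟨⟨p.1, h1⟩, Prod.ext rfl h2⟩

theorem pvdy_measurable_cfOf {Y : Set ℂ} (hY : Y.Countable) : Measurable (cfOf Y) := by
  have e : cfOf Y = pvfCf Y ∘ fun (κ : ℂ → Bool) (v : ↥Y) => κ v := by
    funext κ; exact (pvdy_cf_eq Y κ).symm
  rw [e]
  exact (pvf_measurable_cf hY).comp (measurable_pi_lambda _ fun v => measurable_pi_apply _)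

theorem pvdy_cfOf_congr {Y : Set ℂ} {σ σ' : ℂ → Bool} (h : ∀ z ∈ Y, σ z = σ' z) : cfOf Y σ = cfOf Y σ' := by
  ext p
  constructor
  · rintro ⟨h1, h2⟩; exact ⟨h1, h2.trans (h _ h1)⟩
  · rintro ⟨h1, h2⟩; exact ⟨h1, h2.trans (h _ h1).symm⟩

theorem pvdy_cfCol_cfOf {Y : Set ℂ} (σ : ℂ → Bool) {z : ℂ} (hz : z ∈ Y) : cfCol (cfOf Y σ) z = σ z := by
  classical
  unfold cfCol
  cases h : σ z
  · rw [decide_eq_false_iff_not]
    rintro ⟨-, h2⟩
    have h3 : true = σ z := h2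
    rw [h] at h3
    exact Bool.noConfusion h3
  · rw [decide_eq_true_iff]
    exact ⟨hz, h.symm⟩

/-- **quenched Fubini**: sites first, then fair independent colours -/
theorem pvdy_quenched (ε : ℝ) {F : Conf PvPt → ℝ≥0∞} (hF : Measurable F) :
    ∫⁻ η, F η ∂pvP ε = ∫⁻ b, ∫⁻ κ, F (cfOf (pvfSites b) κ) ∂colLaw ℂ ∂pvfBaseLaw ε := by
  rw [pvf_quenched ε hF]
  refine lintegral_congr fun b => ?_
  rw [← pvf_colLaw_comp (Subtype.val : ↥(pvfSites b) → ℂ) Subtype.val_injective]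
  refine (lintegral_map (f := fun σ => F (pvfCf (pvfSites b) σ)) (hF.comp (pvf_measurable_cf (pvf_sites_countable b)))
    (measurable_pi_lambda _ fun v => measurable_pi_apply _)).trans ?_
  refine lintegral_congr fun κ => ?_
  rw [← pvdy_cf_eq]
  rfl

/-- the same for ANY function: lower integrals -/
theorem pvdy_quenched_le (ε : ℝ) (F : Conf PvPt → ℝ≥0∞) :
    ∫⁻ η, F η ∂pvP ε ≤ ∫⁻ b, ∫⁻ κ, F (cfOf (pvfSites b) κ) ∂colLaw ℂ ∂pvfBaseLaw ε := by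
  obtain ⟨G, mG, hG, e⟩ := exists_measurable_le_lintegral_eq (pvP ε) F
  rw [e, pvdy_quenched ε mG]
  exact lintegral_mono fun b => lintegral_mono fun κ => hG _

theorem pvdy_countable_of_LF {η : Conf PvPt} (h : PvLF η) : (cfSites η).Countable := by
  have e : η.pts = ⋃ k : ℤ × ℤ, η.pts ∩ pvBox k := by
    ext p
    simp only [mem_iUnion, mem_inter_iff, exists_and_left]
    exact ⟨fun hp => ⟨hp, pvcn_box_cover p⟩, fun hp => hp.1⟩
  have : η.pts.Countable := by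
    rw [e]; exact countable_iUnion fun k => (h k).countable
  exact this.image _

end quenched

/-! ## 3. the hybrid resampling and its invariance -/

section rec

/-- recolour the sites of `F` by `κ` -/
noncomputable def pvdyRec (F : Set ℂ) (ω : Conf PvPt) (κ : ℂ → Bool) : Conf PvPt := cfOf (cfSites ω) (pvfqMix F (κ, cfCol ω))

/-- **THE HYBRID RESAMPLING** `R(ω; κ, ω₂)`: the colours of the sites of `yf ω` are replaced by `κ`, then everything inside `C` (sites and colours) by `ω₂` -/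
noncomputable def pvdyR (C : Set ℂ) (yf : Conf PvPt → Set ℂ) (ω : Conf PvPt) (p : (ℂ → Bool) × Conf PvPt) : Conf PvPt :=
  Conf.spl (Cᶜ ×ˢ univ) (pvdyRec (yf ω) ω p.1, p.2)

/-- the law of the seeds `(κ, ω₂)` -/
noncomputable def pvdyNu (ε : ℝ) : Measure ((ℂ → Bool) × Conf PvPt) := (colLaw ℂ).prod (pvP ε)

/-- `yf` is a STOPPING CHOICE of the sites to be recoloured (configurations at a fixed geometry are written `cfOf Y σ`):
whenever some site is chosen, the colours of FINITELY MANY NOT chosen sites decide the choice.      NO measurability;   no bound on the number of the chosen sites, none on the number of the others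
(weakened in place by helper96, flag (F1) of 161: the finite set of the fresh sites of a mouth AND the cofinite choices are covered;   the former definition = `PvdyStop.of_cofin`). -/
structure PvdyStop (yf : Conf PvPt → Set ℂ) : Prop where
  wit : ∀ (Y : Set ℂ) (σ : ℂ → Bool), (Y ∩ yf (cfOf Y σ)).Nonempty → ∃ S : Finset ℂ, (↑S : Set ℂ) ⊆ Y \ yf (cfOf Y σ) ∧
    ∀ σ' : ℂ → Bool, (∀ z ∈ S, σ' z = σ z) → Y ∩ yf (cfOf Y σ') = Y ∩ yf (cfOf Y σ)

/-- the former definition: either no site is chosen or all but finitely many are;   the choice is not changed by a recolouring of the chosen sites -/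
theorem PvdyStop.of_cofin {yf : Conf PvPt → Set ℂ} (fin : ∀ (Y : Set ℂ) (σ : ℂ → Bool), (Y ∩ yf (cfOf Y σ)).Nonempty → (Y \ yf (cfOf Y σ)).Finite)
    (stop : ∀ (Y : Set ℂ) (σ σ' : ℂ → Bool), (∀ z ∈ Y \ yf (cfOf Y σ), σ' z = σ z) → Y ∩ yf (cfOf Y σ') = Y ∩ yf (cfOf Y σ)) : PvdyStop yf :=
  ⟨fun Y σ h => ⟨(fin Y σ h).toFinset, by rw [Set.Finite.coe_toFinset], fun σ' h' => stop Y σ σ' fun z hz => h' z ((fin Y σ h).mem_toFinset.2 hz)⟩⟩

/-- the form of the applications: a finite STOPPING SET `S ω` of sites, disjoint from the choice, whose colours decide the choice -/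
theorem PvdyStop.of_set {yf : Conf PvPt → Set ℂ} (S : Conf PvPt → Set ℂ) (fin : ∀ (Y : Set ℂ) (σ : ℂ → Bool), (Y ∩ yf (cfOf Y σ)).Nonempty → (Y ∩ S (cfOf Y σ)).Finite)
    (dis : ∀ (Y : Set ℂ) (σ : ℂ → Bool), Disjoint (Y ∩ S (cfOf Y σ)) (yf (cfOf Y σ)))
    (stop : ∀ (Y : Set ℂ) (σ σ' : ℂ → Bool), (∀ z ∈ Y ∩ S (cfOf Y σ), σ' z = σ z) → Y ∩ yf (cfOf Y σ') = Y ∩ yf (cfOf Y σ)) : PvdyStop yf :=
  ⟨fun Y σ h => ⟨(fin Y σ h).toFinset, by
    rw [Set.Finite.coe_toFinset]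
    exact fun z hz => ⟨hz.1, fun hy => Set.disjoint_left.1 (dis Y σ) hz hy⟩, fun σ' h' => stop Y σ σ' fun z hz => h' z ((fin Y σ h).mem_toFinset.2 hz)⟩⟩

theorem PvdyStop.stp {yf : Conf PvPt → Set ℂ} (hS : PvdyStop yf) (Y : Set ℂ) : PvdzStp Y fun σ => Y ∩ yf (cfOf Y σ) := by
  intro σ h
  obtain ⟨S, h1, h2⟩ := hS.wit Y σ h
  exact ⟨S, fun z hz => (h1 hz).1, fun z hz hh => (h1 (Finset.mem_coe.2 hz)).2 hh.2, h2⟩

theorem pvdy_eqns_cite2 : True := by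
  have := @pvdyRec.eq_1; have := @pvdyR.eq_1; have := @pvdyNu.eq_1
  trivial

instance pvdy_nu_prob (ε : ℝ) : IsProbabilityMeasure (pvdyNu ε) := by
  have := (pv_isPpp ε).prob
  unfold pvdyNu; infer_instance

theorem pvdy_rec_cfOf (F Y : Set ℂ) (σ κ : ℂ → Bool) : pvdyRec F (cfOf Y σ) κ = cfOf Y (pvfqMix F (κ, σ)) := by
  unfold pvdyRec
  rw [cfOf_sites]
  refine pvdy_cfOf_congr fun z hz => ?_
  by_cases hF : z ∈ F
  · rw [pvfqMix_of_mem hF, pvfqMix_of_mem hF]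
  · rw [pvfqMix_of_notMem hF, pvfqMix_of_notMem hF]
    exact pvdy_cfCol_cfOf σ hz

theorem pvdy_rec_inter (F Y : Set ℂ) (σ κ : ℂ → Bool) : pvdyRec F (cfOf Y σ) κ = cfOf Y (pvfqMix (Y ∩ F) (κ, σ)) := by
  rw [pvdy_rec_cfOf]
  refine pvdy_cfOf_congr fun z hz => ?_
  by_cases hF : z ∈ F
  · rw [pvfqMix_of_mem hF, pvfqMix_of_mem (show z ∈ Y ∩ F from ⟨hz, hF⟩)]
  · rw [pvfqMix_of_notMem hF, pvfqMix_of_notMem (fun hh : z ∈ Y ∩ F => hF hh.2)]

theorem pvdy_sites_rec (F : Set ℂ) (ω : Conf PvPt) (κ : ℂ → Bool) : cfSites (pvdyRec F ω κ) = cfSites ω := cfOf_sites _ _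

theorem pvdy_measurable_rec (F : Set ℂ) {ω : Conf PvPt} (h : (cfSites ω).Countable) : Measurable (pvdyRec F ω) :=
  (pvdy_measurable_cfOf h).comp ((measurable_pvfqMix F).comp (measurable_id.prodMk measurable_const))

theorem pvdy_measurable_R {C : Set ℂ} (hC : MeasurableSet C) (yf : Conf PvPt → Set ℂ) {ω : Conf PvPt} (h : (cfSites ω).Countable) : Measurable (pvdyR C yf ω) :=
  (Conf.measurable_spl (hC.compl.prod MeasurableSet.univ)).comp (((pvdy_measurable_rec (yf ω) h).comp measurable_fst).prodMk measurable_snd)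

theorem pvdy_countable_finsets {Y : Set ℂ} (hY : Y.Countable) : {T : Finset ℂ | (↑T : Set ℂ) ⊆ Y}.Countable := by
  have h1 := Set.countable_ofPred_finite_subset hY
  have h2 : {T : Finset ℂ | (↑T : Set ℂ) ⊆ Y} = (fun T : Finset ℂ => (↑T : Set ℂ)) ⁻¹' {t | t.Finite ∧ t ⊆ Y} := by
    ext T
    simp only [mem_ofPred_eq, mem_preimage, Finset.finite_toSet, true_and]
  rw [h2]
  exact h1.preimage_of_injOn Finset.coe_injective.injOn

/-- **RECOLOURING LEMMA at a fixed site set** -/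
theorem pvdy_rec_q {yf : Conf PvPt → Set ℂ} (hS : PvdyStop yf) {Y : Set ℂ} (hY : Y.Countable) {G : Conf PvPt → ℝ≥0∞} (mG : Measurable G) :
    ∫⁻ σ, ∫⁻ κ, G (pvdyRec (yf (cfOf Y σ)) (cfOf Y σ) κ) ∂colLaw ℂ ∂colLaw ℂ = ∫⁻ σ, G (cfOf Y σ) ∂colLaw ℂ := by
  simp_rw [pvdy_rec_inter]
  exact pvdz_stop (hS.stp Y) hY (H := fun σ => G (cfOf Y σ)) (mG.comp (pvdy_measurable_cfOf hY))

/-- at a fixed site set the mean over the fresh colours is measurable in the old colours (NO measurability of `yf`) -/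
theorem pvdy_rec_meas {yf : Conf PvPt → Set ℂ} (hS : PvdyStop yf) {Y : Set ℂ} (hY : Y.Countable) {G : Conf PvPt → ℝ≥0∞} (mG : Measurable G) :
    Measurable fun σ => ∫⁻ κ, G (pvdyRec (yf (cfOf Y σ)) (cfOf Y σ) κ) ∂colLaw ℂ := by
  simp_rw [pvdy_rec_inter]
  exact pvdz_stop_meas (hS.stp Y) hY (H := fun σ => G (cfOf Y σ)) (mG.comp (pvdy_measurable_cfOf hY))

/-- **RECOLOURING LEMMA, annealed** (lower integral in `ω`: no measurability of `yf`) -/
theorem pvdy_rec_le (ε : ℝ) {yf : Conf PvPt → Set ℂ} (hS : PvdyStop yf) {G : Conf PvPt → ℝ≥0∞} (mG : Measurable G) :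
    ∫⁻ ω, ∫⁻ κ, G (pvdyRec (yf ω) ω κ) ∂colLaw ℂ ∂pvP ε ≤ ∫⁻ ω, G ω ∂pvP ε := by
  refine (pvdy_quenched_le ε _).trans (le_of_eq ?_)
  rw [pvdy_quenched ε mG]
  exact lintegral_congr fun b => pvdy_rec_q hS (pvf_sites_countable b) mG

/-- **INVARIANCE OF THE LAW UNDER THE HYBRID RESAMPLING** (the form consumed by `pvti_core_fam` of 141) -/
theorem pvdy_inv (ε : ℝ) {C : Set ℂ} (hC : MeasurableSet C) {yf : Conf PvPt → Set ℂ} (hS : PvdyStop yf) {H : Conf PvPt → ℝ≥0∞} (mH : Measurable H) :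
    ∫⁻ ω, ∫⁻ p, H (pvdyR C yf ω p) ∂pvdyNu ε ∂pvP ε ≤ ∫⁻ ω, H ω ∂pvP ε := by
  have := (pv_isPpp ε).prob
  have hO : MeasurableSet (Cᶜ ×ˢ (univ : Set Bool)) := hC.compl.prod MeasurableSet.univ
  let G : Conf PvPt → ℝ≥0∞ := fun ω' => ∫⁻ ω₂, H (Conf.spl (Cᶜ ×ˢ univ) (ω', ω₂)) ∂pvP ε
  have mG : Measurable G := (mH.comp (Conf.measurable_spl hO)).lintegral_prod_right'
  have e2 : ∫⁻ ω, H ω ∂pvP ε = ∫⁻ ω, G ω ∂pvP ε := (pv_isPpp ε).lintegral_spl hO mH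
  rw [e2, pvdy_quenched ε mG]
  refine (pvdy_quenched_le ε _).trans (le_of_eq ?_)
  refine lintegral_congr fun b => ?_
  rw [← pvdy_rec_q hS (pvf_sites_countable b) mG]
  refine lintegral_congr fun σ => ?_
  have hc : (cfSites (cfOf (pvfSites b) σ)).Countable := by rw [cfOf_sites]; exact pvf_sites_countable b
  unfold pvdyNu
  exact lintegral_prod (fun p => H (pvdyR C yf (cfOf (pvfSites b) σ) p)) (mH.comp (pvdy_measurable_R hC yf hc)).aemeasurable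

end rec

/-! ## 4. `ŷ`, Jensen (J), the Jensen + invariance half of TR23 -/

section core

variable {ι : Type*}

/-- **`ŷ`** = the mean of `Y` under the weight `w` when the sample is resampled by `pvdyR` -/
noncomputable def pvdyHat (ε : ℝ) (C : Set ℂ) (yf : Conf PvPt → Set ℂ) (w : Conf PvPt → ℝ≥0∞) (Y : Conf PvPt → ℂ) : Conf PvPt → ℂ :=
  pvtiHat (fun _ => pvdyNu ε) (pvdyR C yf) w Y

theorem pvdy_hat_eq (ε : ℝ) (C : Set ℂ) (yf : Conf PvPt → Set ℂ) (w : Conf PvPt → ℝ≥0∞) (Y : Conf PvPt → ℂ) (ω : Conf PvPt) :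
    pvdyHat ε C yf w Y ω = ∫ p, Y (pvdyR C yf ω p) ∂((pvdyNu ε).withDensity fun p => w (pvdyR C yf ω p)) := rfl

/-- (Y-a) = **(J), POINTWISE JENSEN**;   only the measurability of the sections `p ↦ w (R ω p)`, `p ↦ Y (R ω p)` is asked -/
theorem pvdy_jensen' (ε : ℝ) (C : Set ℂ) (yf : Conf PvPt → Set ℂ) {w : Conf PvPt → ℝ≥0∞} {Y : Conf PvPt → ℂ} {ω : Conf PvPt}
    (mw : AEMeasurable (fun p => w (pvdyR C yf ω p)) (pvdyNu ε)) (mY : AEMeasurable (fun p => Y (pvdyR C yf ω p)) (pvdyNu ε))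
    (hnorm : ∫⁻ p, w (pvdyR C yf ω p) ∂pvdyNu ε = 1) (x : ℂ) :
    ‖x + pvdyHat ε C yf w Y ω‖ₑ ^ 2 ≤ ∫⁻ p, w (pvdyR C yf ω p) * ‖x + Y (pvdyR C yf ω p)‖ₑ ^ 2 ∂pvdyNu ε := by
  have hP : IsProbabilityMeasure ((pvdyNu ε).withDensity fun p => w (pvdyR C yf ω p)) := ⟨by
    rw [withDensity_apply _ MeasurableSet.univ, Measure.restrict_univ]; exact hnorm⟩
  have hac : ((pvdyNu ε).withDensity fun p => w (pvdyR C yf ω p)) ≪ pvdyNu ε := withDensity_absolutelyContinuous _ _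
  have j := pvti_jensen ((pvdyNu ε).withDensity fun p => w (pvdyR C yf ω p)) x (Y := fun p => Y (pvdyR C yf ω p)) (mY.mono_ac hac).aestronglyMeasurable
  have hm2 : AEMeasurable (fun p => ‖x + Y (pvdyR C yf ω p)‖ₑ ^ 2) (pvdyNu ε) := (aemeasurable_const.add mY).enorm.pow_const 2
  rw [lintegral_withDensity_eq_lintegral_mul₀ mw hm2] at j
  exact j

theorem pvdy_jensen (ε : ℝ) {C : Set ℂ} (hC : MeasurableSet C) (yf : Conf PvPt → Set ℂ) {w : Conf PvPt → ℝ≥0∞} {Y : Conf PvPt → ℂ} (mw : Measurable w) (mY : Measurable Y)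
    {ω : Conf PvPt} (hc : (cfSites ω).Countable) (hnorm : ∫⁻ p, w (pvdyR C yf ω p) ∂pvdyNu ε = 1) (x : ℂ) :
    ‖x + pvdyHat ε C yf w Y ω‖ₑ ^ 2 ≤ ∫⁻ p, w (pvdyR C yf ω p) * ‖x + Y (pvdyR C yf ω p)‖ₑ ^ 2 ∂pvdyNu ε :=
  pvdy_jensen' ε C yf (mw.comp (pvdy_measurable_R hC yf hc)).aemeasurable (mY.comp (pvdy_measurable_R hC yf hc)).aemeasurable hnorm x

/-- the integral over the seeds as an iterated integral: colours first, then the independent copy -/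
theorem pvdy_lintegral_nu (ε : ℝ) {C : Set ℂ} (hC : MeasurableSet C) (yf : Conf PvPt → Set ℂ) {F : Conf PvPt → ℝ≥0∞} (mF : Measurable F) {ω : Conf PvPt} (hc : (cfSites ω).Countable) :
    ∫⁻ p, F (pvdyR C yf ω p) ∂pvdyNu ε = ∫⁻ κ, ∫⁻ ω₂, F (Conf.spl (Cᶜ ×ˢ univ) (pvdyRec (yf ω) ω κ, ω₂)) ∂pvP ε ∂colLaw ℂ := by
  have := (pv_isPpp ε).prob
  unfold pvdyNu
  exact lintegral_prod (fun p => F (pvdyR C yf ω p)) (mF.comp (pvdy_measurable_R hC yf hc)).aemeasurable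

open Classical in
/-- **THE JENSEN + INVARIANCE HALF OF TR23, sectionwise measurability**.      `a i` = indicator of `A i ∩ WO i`;   `hfix`: the resampling touches neither `a i` nor (where `a i ≠ 0`) `X i`;   `hnorm`: `w` has mass one;   `hdom` = (C2). -/
theorem pvdy_core' (ε : ℝ) {C : Set ℂ} (hC : MeasurableSet C) {yf : Conf PvPt → Set ℂ} (hS : PvdyStop yf)
    {X : ι → Conf PvPt → ℂ} {a : ι → Conf PvPt → ℝ≥0∞} {Y : Conf PvPt → ℂ} {w H : Conf PvPt → ℝ≥0∞} (mH : Measurable H)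
    (mY : ∀ᵐ ω ∂pvP ε, AEMeasurable (fun p => Y (pvdyR C yf ω p)) (pvdyNu ε)) (mw : ∀ᵐ ω ∂pvP ε, AEMeasurable (fun p => w (pvdyR C yf ω p)) (pvdyNu ε))
    (hfix : ∀ᵐ ω ∂pvP ε, ∀ p i, a i (pvdyR C yf ω p) = a i ω ∧ (a i ω ≠ 0 → X i (pvdyR C yf ω p) = X i ω))
    (hnorm : ∀ᵐ ω ∂pvP ε, (∃ i, a i ω ≠ 0) → ∫⁻ p, w (pvdyR C yf ω p) ∂pvdyNu ε = 1)
    (hdom : ∀ ω, ∑' i, ‖X i ω + Y ω‖ₑ ^ 2 * a i ω * w ω ≤ H ω) :
    ∫⁻ ω, ∑' i, ‖X i ω + pvdyHat ε C yf w Y ω‖ₑ ^ 2 * a i ω ∂pvP ε ≤ ∫⁻ ω, H ω ∂pvP ε := by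
  let X' : ι → Conf PvPt → ℂ := fun i ω => if a i ω = 0 then 0 else X i ω
  have hX' : ∀ (i : ι) (ω : Conf PvPt) (y : ℂ), ‖X' i ω + y‖ₑ ^ 2 * a i ω = ‖X i ω + y‖ₑ ^ 2 * a i ω := by
    intro i ω y
    by_cases h : a i ω = 0
    · rw [h, mul_zero, mul_zero]
    · simp only [X', if_neg h]
  have k := pvti_core_fam (P := pvP ε) (ν := fun _ => pvdyNu ε) (r := pvdyR C yf) (X := X') (a := a) (Y := Y) (w := w) (H := H) ?_ mY mw hnorm ?_ (pvdy_inv ε hC hS mH)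
  · refine le_trans (le_of_eq ?_) k
    refine lintegral_congr fun ω => tsum_congr fun i => ?_
    exact (hX' i ω _).symm
  · filter_upwards [hfix] with ω h
    refine ae_of_all _ fun p i => ⟨?_, (h p i).1⟩
    by_cases h0 : a i ω = 0
    · simp only [X', (h p i).1, h0, if_true]
    · simp only [X', (h p i).1, h0, if_false]
      exact (h p i).2 h0
  · refine ae_of_all _ fun ω => ae_of_all _ fun p => le_trans (le_of_eq ?_) (hdom _)
    refine tsum_congr fun i => ?_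
    rw [hX']

/-- the same with (C2) almost everywhere -/
theorem pvdy_core_ae' (ε : ℝ) {C : Set ℂ} (hC : MeasurableSet C) {yf : Conf PvPt → Set ℂ} (hS : PvdyStop yf)
    {X : ι → Conf PvPt → ℂ} {a : ι → Conf PvPt → ℝ≥0∞} {Y : Conf PvPt → ℂ} {w H : Conf PvPt → ℝ≥0∞} (mH : Measurable H)
    (mY : ∀ᵐ ω ∂pvP ε, AEMeasurable (fun p => Y (pvdyR C yf ω p)) (pvdyNu ε)) (mw : ∀ᵐ ω ∂pvP ε, AEMeasurable (fun p => w (pvdyR C yf ω p)) (pvdyNu ε))
    (hfix : ∀ᵐ ω ∂pvP ε, ∀ p i, a i (pvdyR C yf ω p) = a i ω ∧ (a i ω ≠ 0 → X i (pvdyR C yf ω p) = X i ω))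
    (hnorm : ∀ᵐ ω ∂pvP ε, (∃ i, a i ω ≠ 0) → ∫⁻ p, w (pvdyR C yf ω p) ∂pvdyNu ε = 1)
    (hdom : ∀ᵐ ω ∂pvP ε, ∑' i, ‖X i ω + Y ω‖ₑ ^ 2 * a i ω * w ω ≤ H ω) :
    ∫⁻ ω, ∑' i, ‖X i ω + pvdyHat ε C yf w Y ω‖ₑ ^ 2 * a i ω ∂pvP ε ≤ ∫⁻ ω, H ω ∂pvP ε := by
  obtain ⟨N, hN, mN, h0⟩ := exists_measurable_superset_of_null hdom
  have mH' : Measurable fun ω => H ω + N.indicator (fun _ => ∞) ω := mH.add (measurable_const.indicator mN)
  have k := pvdy_core' ε hC hS (X := X) (a := a) (Y := Y) (w := w) mH' mY mw hfix hnorm ?_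
  · refine k.trans (le_of_eq ?_)
    rw [lintegral_add_left mH, lintegral_indicator mN, setLIntegral_measure_zero _ _ h0, add_zero]
  · intro ω
    by_cases hω : ω ∈ N
    · rw [indicator_of_mem hω, add_top]; exact le_top
    · rw [indicator_of_notMem hω, add_zero]
      by_contra hh
      exact hω (hN hh)

/-- **THE JENSEN + INVARIANCE HALF OF TR23**, `Y`, `w`, `H` measurable -/
theorem pvdy_core (ε : ℝ) {C : Set ℂ} (hC : MeasurableSet C) {yf : Conf PvPt → Set ℂ} (hS : PvdyStop yf)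
    {X : ι → Conf PvPt → ℂ} {a : ι → Conf PvPt → ℝ≥0∞} {Y : Conf PvPt → ℂ} {w H : Conf PvPt → ℝ≥0∞} (mY : Measurable Y) (mw : Measurable w) (mH : Measurable H)
    (hfix : ∀ᵐ ω ∂pvP ε, ∀ p i, a i (pvdyR C yf ω p) = a i ω ∧ (a i ω ≠ 0 → X i (pvdyR C yf ω p) = X i ω))
    (hnorm : ∀ᵐ ω ∂pvP ε, (∃ i, a i ω ≠ 0) → ∫⁻ p, w (pvdyR C yf ω p) ∂pvdyNu ε = 1)
    (hdom : ∀ᵐ ω ∂pvP ε, ∑' i, ‖X i ω + Y ω‖ₑ ^ 2 * a i ω * w ω ≤ H ω) :
    ∫⁻ ω, ∑' i, ‖X i ω + pvdyHat ε C yf w Y ω‖ₑ ^ 2 * a i ω ∂pvP ε ≤ ∫⁻ ω, H ω ∂pvP ε := by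
  refine pvdy_core_ae' ε hC hS mH ?_ ?_ hfix hnorm hdom
  · filter_upwards [pvcn_LF_ae ε] with ω hω
    exact (mY.comp (pvdy_measurable_R hC yf (pvdy_countable_of_LF hω))).aemeasurable
  · filter_upwards [pvcn_LF_ae ε] with ω hω
    exact (mw.comp (pvdy_measurable_R hC yf (pvdy_countable_of_LF hω))).aemeasurable

end core

/-! ## 5. the kit of `R`: what it reads, idempotence, (Y-b), the conditioning weight -/

section kit

theorem pvdy_mem_R {C : Set ℂ} {yf : Conf PvPt → Set ℂ} {ω : Conf PvPt} {p : (ℂ → Bool) × Conf PvPt} {x : PvPt} :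
    x ∈ (pvdyR C yf ω p).pts ↔ (x.1 ∉ C ∧ x.1 ∈ cfSites ω ∧ x.2 = pvfqMix (yf ω) (p.1, cfCol ω) x.1) ∨ (x.1 ∈ C ∧ x ∈ p.2.pts) := by
  simp only [pvdyR, pvdyRec, Conf.spl, Conf.union, Conf.restr, cfOf, mem_union, mem_inter_iff, mem_ofPred_eq, mem_prod, mem_compl_iff, mem_univ, and_true, not_not]
  tauto

theorem pvdy_R_cfOf (C : Set ℂ) (yf : Conf PvPt → Set ℂ) (Ys : Set ℂ) (σ κ : ℂ → Bool) (ω₂ : Conf PvPt) :
    pvdyR C yf (cfOf Ys σ) (κ, ω₂) = Conf.spl (Cᶜ ×ˢ univ) (cfOf Ys (pvfqMix (yf (cfOf Ys σ)) (κ, σ)), ω₂) := by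
  unfold pvdyR
  rw [pvdy_rec_cfOf]

/-- the sites of the resampled configuration -/
theorem pvdy_sites_R (C : Set ℂ) (yf : Conf PvPt → Set ℂ) (ω : Conf PvPt) (p : (ℂ → Bool) × Conf PvPt) :
    cfSites (pvdyR C yf ω p) = (cfSites ω \ C) ∪ (cfSites p.2 ∩ C) := by
  ext z
  simp only [cfSites, mem_image, mem_union, mem_sdiff, mem_inter_iff]
  constructor
  · rintro ⟨x, hx, rfl⟩
    rcases pvdy_mem_R.1 hx with ⟨h1, h2, -⟩ | ⟨h1, h2⟩
    · exact Or.inl ⟨h2, h1⟩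
    · exact Or.inr ⟨⟨x, h2, rfl⟩, h1⟩
  · rintro (⟨h1, h2⟩ | ⟨⟨x, hx, rfl⟩, h2⟩)
    · exact ⟨(z, pvfqMix (yf ω) (p.1, cfCol ω) z), pvdy_mem_R.2 (Or.inl ⟨h2, h1, rfl⟩), rfl⟩
    · exact ⟨x, pvdy_mem_R.2 (Or.inr ⟨h2, hx⟩), rfl⟩

/-- the colours of the resampled configuration off `C` -/
theorem pvdy_cfCol_R {C : Set ℂ} (yf : Conf PvPt → Set ℂ) {ω : Conf PvPt} (p : (ℂ → Bool) × Conf PvPt) {z : ℂ} (hz : z ∈ cfSites ω) (hC : z ∉ C) :
    cfCol (pvdyR C yf ω p) z = pvfqMix (yf ω) (p.1, cfCol ω) z := by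
  classical
  unfold cfCol
  cases h : pvfqMix (yf ω) (p.1, fun p => decide ((p, true) ∈ ω.pts)) z
  · rw [decide_eq_false_iff_not]
    intro hh
    rcases pvdy_mem_R.1 hh with ⟨-, -, h3⟩ | ⟨h1, -⟩
    · have h4 : true = pvfqMix (yf ω) (p.1, fun p => decide ((p, true) ∈ ω.pts)) z := h3
      rw [h] at h4
      exact Bool.noConfusion h4
    · exact hC h1
  · rw [decide_eq_true_iff]
    exact pvdy_mem_R.2 (Or.inl ⟨hC, hz, h.symm⟩)

/-- **WHAT `R` READS**: the sites off `C`, the chosen sites off `C`, the colours of the other sites off `C` -/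
theorem pvdy_R_congr {C : Set ℂ} {yf : Conf PvPt → Set ℂ} {ω ω' : Conf PvPt} (hs : ∀ z, z ∉ C → (z ∈ cfSites ω' ↔ z ∈ cfSites ω))
    (hy : ∀ z ∈ cfSites ω, z ∉ C → (z ∈ yf ω' ↔ z ∈ yf ω)) (hc : ∀ z ∈ cfSites ω, z ∉ C → z ∉ yf ω → cfCol ω' z = cfCol ω z) (p : (ℂ → Bool) × Conf PvPt) :
    pvdyR C yf ω' p = pvdyR C yf ω p := by
  ext x
  rw [pvdy_mem_R, pvdy_mem_R]
  refine or_congr_left ?_
  refine and_congr_right fun h1 => ?_
  rw [hs _ h1]
  refine and_congr_right fun h2 => ?_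
  have e : pvfqMix (yf ω') (p.1, cfCol ω') x.1 = pvfqMix (yf ω) (p.1, cfCol ω) x.1 := by
    by_cases h3 : x.1 ∈ yf ω
    · rw [pvfqMix_of_mem h3, pvfqMix_of_mem ((hy _ h2 h1).2 h3)]
    · rw [pvfqMix_of_notMem h3, pvfqMix_of_notMem (fun hh => h3 ((hy _ h2 h1).1 hh))]
      exact hc _ h2 h1 h3
  rw [e]

/-- **IDEMPOTENCE**: if the choice `yf` off `C` is not changed by the resampling, a second resampling forgets the first -/
theorem pvdy_R_R {C : Set ℂ} {yf : Conf PvPt → Set ℂ} {ω : Conf PvPt} {p : (ℂ → Bool) × Conf PvPt}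
    (h : ∀ z ∈ cfSites ω, z ∉ C → (z ∈ yf (pvdyR C yf ω p) ↔ z ∈ yf ω)) (p' : (ℂ → Bool) × Conf PvPt) :
    pvdyR C yf (pvdyR C yf ω p) p' = pvdyR C yf ω p' := by
  refine pvdy_R_congr (fun z hz => ?_) h (fun z hz hC hy => ?_) p'
  · rw [pvdy_sites_R]
    simp only [mem_union, mem_sdiff, mem_inter_iff]
    tauto
  · rw [pvdy_cfCol_R yf p hz hC, pvfqMix_of_notMem hy]

/-- (Y-b), raw form -/
theorem pvdy_hat_congr (ε : ℝ) (C : Set ℂ) (yf : Conf PvPt → Set ℂ) (w : Conf PvPt → ℝ≥0∞) (Y : Conf PvPt → ℂ) {ω ω' : Conf PvPt}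
    (h : ∀ p, w (pvdyR C yf ω' p) = w (pvdyR C yf ω p) ∧ Y (pvdyR C yf ω' p) = Y (pvdyR C yf ω p)) :
    pvdyHat ε C yf w Y ω' = pvdyHat ε C yf w Y ω := by
  rw [pvdy_hat_eq, pvdy_hat_eq]
  have e1 : (fun p => w (pvdyR C yf ω' p)) = fun p => w (pvdyR C yf ω p) := funext fun p => (h p).1
  have e2 : (fun p => Y (pvdyR C yf ω' p)) = fun p => Y (pvdyR C yf ω p) := funext fun p => (h p).2
  rw [e1, e2]

/-- `ŷ` reads what `R` reads -/
theorem pvdy_hat_reads (ε : ℝ) {C : Set ℂ} {yf : Conf PvPt → Set ℂ} (w : Conf PvPt → ℝ≥0∞) (Y : Conf PvPt → ℂ) {ω ω' : Conf PvPt} (hs : ∀ z, z ∉ C → (z ∈ cfSites ω' ↔ z ∈ cfSites ω))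
    (hy : ∀ z ∈ cfSites ω, z ∉ C → (z ∈ yf ω' ↔ z ∈ yf ω)) (hc : ∀ z ∈ cfSites ω, z ∉ C → z ∉ yf ω → cfCol ω' z = cfCol ω z) :
    pvdyHat ε C yf w Y ω' = pvdyHat ε C yf w Y ω :=
  pvdy_hat_congr ε C yf w Y fun p => by rw [pvdy_R_congr hs hy hc p]; exact ⟨rfl, rfl⟩

/-- `ŷ` is invariant under the resampling -/
theorem pvdy_hat_R (ε : ℝ) {C : Set ℂ} {yf : Conf PvPt → Set ℂ} (w : Conf PvPt → ℝ≥0∞) (Y : Conf PvPt → ℂ) {ω : Conf PvPt} {p : (ℂ → Bool) × Conf PvPt}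
    (h : ∀ z ∈ cfSites ω, z ∉ C → (z ∈ yf (pvdyR C yf ω p) ↔ z ∈ yf ω)) :
    pvdyHat ε C yf w Y (pvdyR C yf ω p) = pvdyHat ε C yf w Y ω :=
  pvdy_hat_congr ε C yf w Y fun p' => by rw [pvdy_R_R h p']; exact ⟨rfl, rfl⟩

/-- the conditional probability of `S` given what the resampling keeps -/
noncomputable def pvdyQ (ε : ℝ) (C : Set ℂ) (yf : Conf PvPt → Set ℂ) (S : Set (Conf PvPt)) (ω : Conf PvPt) : ℝ≥0∞ := pvdyNu ε {p | pvdyR C yf ω p ∈ S}

/-- the conditioning weight `1_S / P(S | kept)` -/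
noncomputable def pvdyW (ε : ℝ) (C : Set ℂ) (yf : Conf PvPt → Set ℂ) (S : Set (Conf PvPt)) (ω : Conf PvPt) : ℝ≥0∞ := S.indicator 1 ω / pvdyQ ε C yf S ω

theorem pvdy_eqns_cite3 : True := by
  have := @pvdyHat.eq_1; have := @pvdyQ.eq_1; have := @pvdyW.eq_1
  trivial

theorem pvdy_Q_R (ε : ℝ) {C : Set ℂ} {yf : Conf PvPt → Set ℂ} (S : Set (Conf PvPt)) {ω : Conf PvPt} {p : (ℂ → Bool) × Conf PvPt}
    (h : ∀ z ∈ cfSites ω, z ∉ C → (z ∈ yf (pvdyR C yf ω p) ↔ z ∈ yf ω)) : pvdyQ ε C yf S (pvdyR C yf ω p) = pvdyQ ε C yf S ω := by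
  unfold pvdyQ
  simp_rw [pvdy_R_R h]

theorem pvdy_Q_le_one (ε : ℝ) (C : Set ℂ) (yf : Conf PvPt → Set ℂ) (S : Set (Conf PvPt)) (ω : Conf PvPt) : pvdyQ ε C yf S ω ≤ 1 := prob_le_one

theorem pvdy_W_R (ε : ℝ) {C : Set ℂ} {yf : Conf PvPt → Set ℂ} (S : Set (Conf PvPt)) {ω : Conf PvPt} {p : (ℂ → Bool) × Conf PvPt}
    (h : ∀ z ∈ cfSites ω, z ∉ C → (z ∈ yf (pvdyR C yf ω p) ↔ z ∈ yf ω)) : pvdyW ε C yf S (pvdyR C yf ω p) = S.indicator 1 (pvdyR C yf ω p) / pvdyQ ε C yf S ω := by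
  unfold pvdyW
  rw [pvdy_Q_R ε S h]

/-- the section of the conditioning weight is measurable (no measurability of the state) -/
theorem pvdy_W_meas (ε : ℝ) {C : Set ℂ} (hC : MeasurableSet C) {yf : Conf PvPt → Set ℂ} {S : Set (Conf PvPt)} (mS : MeasurableSet S) {ω : Conf PvPt} (hc : (cfSites ω).Countable)
    (h : ∀ p, ∀ z ∈ cfSites ω, z ∉ C → (z ∈ yf (pvdyR C yf ω p) ↔ z ∈ yf ω)) : Measurable fun p => pvdyW ε C yf S (pvdyR C yf ω p) := by
  have e : (fun p => pvdyW ε C yf S (pvdyR C yf ω p)) = fun p => S.indicator 1 (pvdyR C yf ω p) / pvdyQ ε C yf S ω := funext fun p => pvdy_W_R ε S (h p)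
  rw [e]
  exact (((measurable_one.indicator mS).comp (pvdy_measurable_R hC yf hc))).div_const _

/-- the conditioning weight has mass one -/
theorem pvdy_W_norm (ε : ℝ) {C : Set ℂ} (hC : MeasurableSet C) {yf : Conf PvPt → Set ℂ} {S : Set (Conf PvPt)} (mS : MeasurableSet S) {ω : Conf PvPt} (hc : (cfSites ω).Countable)
    (h : ∀ p, ∀ z ∈ cfSites ω, z ∉ C → (z ∈ yf (pvdyR C yf ω p) ↔ z ∈ yf ω)) (hq : pvdyQ ε C yf S ω ≠ 0) : ∫⁻ p, pvdyW ε C yf S (pvdyR C yf ω p) ∂pvdyNu ε = 1 := by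
  have e : ∀ p, pvdyW ε C yf S (pvdyR C yf ω p) = ({p | pvdyR C yf ω p ∈ S} : Set _).indicator 1 p * (pvdyQ ε C yf S ω)⁻¹ := fun p => by
    rw [pvdy_W_R ε S (h p), div_eq_mul_inv]; rfl
  have mS' : MeasurableSet {p | pvdyR C yf ω p ∈ S} := pvdy_measurable_R hC yf hc mS
  simp_rw [e]
  rw [lintegral_mul_const _ (measurable_one.indicator mS'), lintegral_indicator_one mS']
  exact ENNReal.mul_inv_cancel hq (ne_top_of_le_ne_top ENNReal.one_ne_top (pvdy_Q_le_one ε C yf S ω))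

theorem pvdy_W_le (ε : ℝ) (C : Set ℂ) (yf : Conf PvPt → Set ℂ) (S : Set (Conf PvPt)) {ω : Conf PvPt} {q : ℝ≥0∞} (hq : q ≤ pvdyQ ε C yf S ω) :
    pvdyW ε C yf S ω ≤ q⁻¹ * S.indicator 1 ω := by
  unfold pvdyW
  rw [div_eq_mul_inv, mul_comm]
  gcongr

end kit

/-! ## 6. the bridge to `Tr/Dom` (159): TR23 for the concrete `ŷ` -/

section bridge

variable {ι : Type*}

theorem pvdy_U_eq (C : Set ℂ) : pvdmU C = Cᶜ ×ˢ (univ : Set Bool) := by
  ext x
  simp only [pvdmU, mem_preimage, mem_prod, mem_univ, and_true]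

theorem pvdy_ov_eq (U : Set ℂ) (κ σ : ℂ → Bool) : pvdmOv U κ σ = pvfqMix U (κ, σ) := by
  funext z
  by_cases h : z ∈ U
  · rw [pvdm_ov_mem h, pvfqMix_of_mem h]
  · rw [pvdm_ov_notMem h, pvfqMix_of_notMem h]

/-- the experiment of 159 is the hybrid resampling -/
theorem pvdy_sys_R (S : PvdmSys ι) (i : ι) (Y : Set ℂ) (σ κ : ℂ → Bool) (ω₂ : Conf PvPt) : S.R i Y σ κ ω₂ = pvdyR S.C (S.yf i) (cfOf Y σ) (κ, ω₂) := by
  rw [pvdy_R_cfOf, ← pvdy_U_eq, ← pvdy_ov_eq]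
  rfl

/-- (Y-b), almost everywhere form -/
theorem pvdy_hat_congr_ae (ε : ℝ) (C : Set ℂ) (yf : Conf PvPt → Set ℂ) (w : Conf PvPt → ℝ≥0∞) (Y : Conf PvPt → ℂ) {ω ω' : Conf PvPt}
    (h : ∀ᵐ p ∂pvdyNu ε, w (pvdyR C yf ω' p) = w (pvdyR C yf ω p) ∧ Y (pvdyR C yf ω' p) = Y (pvdyR C yf ω p)) :
    pvdyHat ε C yf w Y ω' = pvdyHat ε C yf w Y ω := by
  rw [pvdy_hat_eq, pvdy_hat_eq]
  have e1 : (pvdyNu ε).withDensity (fun p => w (pvdyR C yf ω' p)) = (pvdyNu ε).withDensity fun p => w (pvdyR C yf ω p) :=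
    withDensity_congr_ae (h.mono fun p hp => hp.1)
  rw [e1]
  exact integral_congr_ae ((withDensity_absolutelyContinuous _ _).ae_le (h.mono fun p hp => hp.2))

/-- the system with the concrete `ŷ` = the mean of `Y` under the weight `w0` in the experiment -/
noncomputable def PvdmSys.hat (S : PvdmSys ι) (ε : ℝ) (w0 : Conf PvPt → ℝ≥0∞) : PvdmSys ι := { S with yh := fun i => pvdyHat ε S.C (S.yf i) w0 S.Y }

/-- **THE HYPOTHESES OF N1' FOR THE CONCRETE `ŷ = pvdyHat ε C yf w0 Y`** = `PvdmSys.Hyp` of 159 without `jen` and without the clause on `yh` in `stab`.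
`w0` = the TRUE weight (`W_c`, or `1_SY / P(SY | D_Y)`): only its SECTIONS `p ↦ w0 (R ω p)` at a fixed `ω` are asked to be measurable (there the states are constants);   `S.w` = a majorant (`D_c 1_Ev`; or `w0` itself).
New fields: `cntY` (countably many sites),   `mw0`,   `norm` (`w0` has mass one under the experiment),   `le0` (`w0 ≤ S.w` along the experiment),
`rdY` (given the frozen colours, `w0` and `Y` read only the colours of `yf` and the corridor). -/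
structure PvdmSys.HypY (S : PvdmSys ι) (ε : ℝ) (w0 : Conf PvPt → ℝ≥0∞) : Prop where
  ok_ae : ∀ᵐ ω ∂pvP ε, S.Ok (cfSites ω)
  cntY : ∀ Y, S.Ok Y → Y.Countable
  mC : MeasurableSet S.C
  mw : ∀ Y, S.Ok Y → ∀ i σ, cfOf Y σ ∈ S.A i → cfOf Y σ ∈ S.WO i → Measurable fun p : (ℂ → Bool) × Conf PvPt => S.w (S.R i Y σ p.1 p.2)
  mY : ∀ Y, S.Ok Y → ∀ i σ, cfOf Y σ ∈ S.A i → cfOf Y σ ∈ S.WO i → Measurable fun p : (ℂ → Bool) × Conf PvPt => S.Y (S.R i Y σ p.1 p.2)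
  mH : Measurable S.H
  cnt : ∀ Y, S.Ok Y → {i | ∃ σ, cfOf Y σ ∈ S.A i}.Countable
  fin : ∀ Y, S.Ok Y → ∀ i σ, cfOf Y σ ∈ S.A i → (Y \ S.yf i (cfOf Y σ)).Finite
  dis : ∀ Y, S.Ok Y → ∀ i σ, cfOf Y σ ∈ S.A i → Disjoint (S.frz i (cfOf Y σ)) (S.yf i (cfOf Y σ))
  stab : ∀ Y, S.Ok Y → ∀ i σ σ', cfOf Y σ ∈ S.A i → (∀ z ∈ Y, z ∈ S.frz i (cfOf Y σ) → σ' z = σ z) → (∀ z ∈ Y, z ∉ S.yf i (cfOf Y σ) → σ' z ≤ σ z) →
    cfOf Y σ' ∈ S.A i ∧ S.frz i (cfOf Y σ') = S.frz i (cfOf Y σ) ∧ S.yf i (cfOf Y σ') = S.yf i (cfOf Y σ) ∧ S.X i (cfOf Y σ') = S.X i (cfOf Y σ)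
  stabW : ∀ Y, S.Ok Y → ∀ i σ₀ σ σ', cfOf Y σ₀ ∈ S.A i → (∀ z ∈ Y, z ∈ S.frz i (cfOf Y σ₀) → σ z = σ₀ z) → (∀ z ∈ Y, z ∈ S.frz i (cfOf Y σ₀) → σ' z = σ₀ z) →
    (∀ z ∈ Y, z ∉ S.yf i (cfOf Y σ₀) → σ' z ≤ σ z) → cfOf Y σ ∈ S.WO i → cfOf Y σ' ∈ S.WO i
  hq : ∀ Y, S.Ok Y → ∀ i σ, cfOf Y σ ∈ S.A i → S.q ≤ colLaw ℂ {κ | cfOf Y (pvdmOv (S.frz i (cfOf Y σ))ᶜ κ σ) ∈ S.WO i}
  rd : ∀ Y, S.Ok Y → ∀ σ, ∀ᵐ ω₂ ∂pvP ε, ∀ i, (Conf.spl (pvdmU S.C) (cfOf Y σ, ω₂) ∈ S.A i ↔ cfOf Y σ ∈ S.A i) ∧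
    (Conf.spl (pvdmU S.C) (cfOf Y σ, ω₂) ∈ S.WO i ↔ cfOf Y σ ∈ S.WO i) ∧ S.X i (Conf.spl (pvdmU S.C) (cfOf Y σ, ω₂)) = S.X i (cfOf Y σ)
  mw0 : ∀ Y, S.Ok Y → ∀ i σ, cfOf Y σ ∈ S.A i → cfOf Y σ ∈ S.WO i → AEMeasurable (fun p => w0 (pvdyR S.C (S.yf i) (cfOf Y σ) p)) (pvdyNu ε)
  norm : ∀ Y, S.Ok Y → ∀ i σ, cfOf Y σ ∈ S.A i → cfOf Y σ ∈ S.WO i → ∫⁻ p, w0 (pvdyR S.C (S.yf i) (cfOf Y σ) p) ∂pvdyNu ε = 1
  le0 : ∀ Y, S.Ok Y → ∀ i σ, cfOf Y σ ∈ S.A i → cfOf Y σ ∈ S.WO i → ∀ᵐ p ∂pvdyNu ε, w0 (pvdyR S.C (S.yf i) (cfOf Y σ) p) ≤ S.w (pvdyR S.C (S.yf i) (cfOf Y σ) p)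
  rdY : ∀ Y, S.Ok Y → ∀ i σ, cfOf Y σ ∈ S.A i → ∀ᵐ ω₂ ∂pvP ε, ∀ τ τ' : ℂ → Bool, (∀ z ∈ Y, z ∈ S.frz i (cfOf Y σ) → τ z = σ z ∧ τ' z = σ z) →
    (∀ z ∈ Y, z ∈ S.yf i (cfOf Y σ) → τ z = τ' z) → w0 (Conf.spl (pvdmU S.C) (cfOf Y τ, ω₂)) = w0 (Conf.spl (pvdmU S.C) (cfOf Y τ', ω₂)) ∧
      S.Y (Conf.spl (pvdmU S.C) (cfOf Y τ, ω₂)) = S.Y (Conf.spl (pvdmU S.C) (cfOf Y τ', ω₂))
  dom : ∀ᵐ ω ∂pvP ε, ∑' i, (S.A i ∩ S.WO i).indicator (fun ω => S.w ω * ‖S.X i ω + S.Y ω‖ₑ ^ 2) ω ≤ S.H ω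

theorem pvdy_eqns_cite4 : True := by
  have := @PvdmSys.hat.eq_1.{0}
  trivial

variable {S : PvdmSys ι} {ε : ℝ} {w0 : Conf PvPt → ℝ≥0∞}

/-- a function which is measurable at a fixed set of sites has measurable sections along the experiment -/
theorem pvdy_section_meas {β : Type*} [MeasurableSpace β] (C : Set ℂ) (yf : Conf PvPt → Set ℂ) {f : Conf PvPt → β} {Y : Set ℂ}
    (mf : Measurable fun p : (ℂ → Bool) × Conf PvPt => f (Conf.spl (pvdmU C) (cfOf Y p.1, p.2))) (σ : ℂ → Bool) : Measurable fun p => f (pvdyR C yf (cfOf Y σ) p) := by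
  have e : (fun p => f (pvdyR C yf (cfOf Y σ) p)) = (fun p : (ℂ → Bool) × Conf PvPt => f (Conf.spl (pvdmU C) (cfOf Y p.1, p.2))) ∘
      fun p : (ℂ → Bool) × Conf PvPt => ((pvfqMix (yf (cfOf Y σ)) (p.1, σ) : ℂ → Bool), p.2) := by
    funext p
    obtain ⟨κ, ω₂⟩ := p
    rw [pvdy_R_cfOf, ← pvdy_U_eq]
    rfl
  rw [e]
  exact mf.comp (((measurable_pvfqMix _).comp (measurable_fst.prodMk measurable_const)).prodMk measurable_snd)

/-- (Y-b) in the names of 159: `ŷ` is invariant under the moves of `stab` -/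
theorem PvdmSys.HypY.hat_stab (h : S.HypY ε w0) {Y : Set ℂ} (hY : S.Ok Y) {i : ι} {σ σ' : ℂ → Bool} (hA : cfOf Y σ ∈ S.A i)
    (h1 : ∀ z ∈ Y, z ∈ S.frz i (cfOf Y σ) → σ' z = σ z) (h2 : ∀ z ∈ Y, z ∉ S.yf i (cfOf Y σ) → σ' z ≤ σ z) :
    pvdyHat ε S.C (S.yf i) w0 S.Y (cfOf Y σ') = pvdyHat ε S.C (S.yf i) w0 S.Y (cfOf Y σ) := by
  have := (pv_isPpp ε).prob
  obtain ⟨-, -, a3, -⟩ := h.stab Y hY i σ σ' hA h1 h2
  refine pvdy_hat_congr_ae ε _ _ _ _ ?_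
  have k : ∀ᵐ p ∂pvdyNu ε, ∀ τ τ' : ℂ → Bool, (∀ z ∈ Y, z ∈ S.frz i (cfOf Y σ) → τ z = σ z ∧ τ' z = σ z) →
      (∀ z ∈ Y, z ∈ S.yf i (cfOf Y σ) → τ z = τ' z) → w0 (Conf.spl (pvdmU S.C) (cfOf Y τ, p.2)) = w0 (Conf.spl (pvdmU S.C) (cfOf Y τ', p.2)) ∧
        S.Y (Conf.spl (pvdmU S.C) (cfOf Y τ, p.2)) = S.Y (Conf.spl (pvdmU S.C) (cfOf Y τ', p.2)) :=
    (Measure.quasiMeasurePreserving_snd (μ := colLaw ℂ) (ν := pvP ε)).ae (h.rdY Y hY i σ hA)
  filter_upwards [k] with p hp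
  obtain ⟨κ, ω₂⟩ := p
  rw [pvdy_R_cfOf, pvdy_R_cfOf, a3, ← pvdy_U_eq]
  refine hp _ _ ?_ ?_
  · intro z hz hf
    have hn : z ∉ S.yf i (cfOf Y σ) := fun hh => Set.disjoint_left.1 (h.dis Y hY i σ hA) hf hh
    rw [pvfqMix_of_notMem hn, pvfqMix_of_notMem hn]
    exact ⟨h1 z hz hf, rfl⟩
  · intro z _ hf
    rw [pvfqMix_of_mem hf, pvfqMix_of_mem hf]

/-- (Y-a) in the names of 159: `jen` -/
theorem PvdmSys.HypY.hat_jen (h : S.HypY ε w0) {Y : Set ℂ} (hY : S.Ok Y) {i : ι} {σ : ℂ → Bool} (hA : cfOf Y σ ∈ S.A i) (hW : cfOf Y σ ∈ S.WO i) (x : ℂ) :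
    ‖x + pvdyHat ε S.C (S.yf i) w0 S.Y (cfOf Y σ)‖ₑ ^ 2 ≤ ∫⁻ κ, ∫⁻ ω₂, S.w (S.R i Y σ κ ω₂) * ‖x + S.Y (S.R i Y σ κ ω₂)‖ₑ ^ 2 ∂pvP ε ∂colLaw ℂ := by
  have := (pv_isPpp ε).prob
  have m1 : Measurable fun p => S.w (pvdyR S.C (S.yf i) (cfOf Y σ) p) := by
    have := h.mw Y hY i σ hA hW
    simp_rw [pvdy_sys_R] at this
    exact this
  have m2 : Measurable fun p => S.Y (pvdyR S.C (S.yf i) (cfOf Y σ) p) := by
    have := h.mY Y hY i σ hA hW
    simp_rw [pvdy_sys_R] at this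
    exact this
  refine (pvdy_jensen' ε S.C (S.yf i) (h.mw0 Y hY i σ hA hW) m2.aemeasurable (h.norm Y hY i σ hA hW) x).trans ?_
  have mF : Measurable fun p => S.w (pvdyR S.C (S.yf i) (cfOf Y σ) p) * ‖x + S.Y (pvdyR S.C (S.yf i) (cfOf Y σ) p)‖ₑ ^ 2 :=
    m1.mul ((measurable_const.add m2).enorm.pow_const 2)
  calc ∫⁻ p, w0 (pvdyR S.C (S.yf i) (cfOf Y σ) p) * ‖x + S.Y (pvdyR S.C (S.yf i) (cfOf Y σ) p)‖ₑ ^ 2 ∂pvdyNu ε
      ≤ ∫⁻ p, S.w (pvdyR S.C (S.yf i) (cfOf Y σ) p) * ‖x + S.Y (pvdyR S.C (S.yf i) (cfOf Y σ) p)‖ₑ ^ 2 ∂pvdyNu ε := by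
        refine lintegral_mono_ae ?_
        filter_upwards [h.le0 Y hY i σ hA hW] with p hp
        gcongr
    _ = ∫⁻ κ, ∫⁻ ω₂, S.w (pvdyR S.C (S.yf i) (cfOf Y σ) (κ, ω₂)) * ‖x + S.Y (pvdyR S.C (S.yf i) (cfOf Y σ) (κ, ω₂))‖ₑ ^ 2 ∂pvP ε ∂colLaw ℂ := by
        unfold pvdyNu
        exact lintegral_prod _ mF.aemeasurable
    _ = _ := by simp_rw [pvdy_sys_R]

/-- the hypotheses of 159 hold for the concrete `ŷ` -/
theorem PvdmSys.HypY.hyp (h : S.HypY ε w0) : (S.hat ε w0).Hyp ε where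
  ok_ae := h.ok_ae
  mC := h.mC
  mw := h.mw
  mY := h.mY
  mH := h.mH
  cnt := h.cnt
  fin := h.fin
  dis := h.dis
  stab := fun Y hY i σ σ' hA h1 h2 => by
    obtain ⟨a1, a2, a3, a4⟩ := h.stab Y hY i σ σ' hA h1 h2
    exact ⟨a1, a2, a3, a4, h.hat_stab hY hA h1 h2⟩
  stabW := h.stabW
  hq := h.hq
  rd := h.rd
  jen := fun Y hY i σ hA hW => h.hat_jen hY hA hW _
  dom := h.dom

/-- **TR23 = N1' (CYLINDER DOMINATION) FOR THE CONCRETE `ŷ_c`**, lower integral -/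
theorem pvdy_main (h : S.HypY ε w0) :
    S.q * ∫⁻ ω, ∑' i, (S.A i).indicator (fun ω => ‖S.X i ω + pvdyHat ε S.C (S.yf i) w0 S.Y ω‖ₑ ^ 2) ω ∂pvP ε ≤ ∫⁻ ω, S.H ω ∂pvP ε :=
  pvdm_main h.hyp

/-- **THE EXIT OF RECORD: upper expectation over (geometry, colours)** -/
theorem pvdy_main_up (h : S.HypY ε w0) :
    S.q * (PvUp.iter (pvGeo ε) pvCol).E (fun p => ∑' i, (S.A i).indicator (fun ω => ‖S.X i ω + pvdyHat ε S.C (S.yf i) w0 S.Y ω‖ₑ ^ 2) (pvConf (pvMerge p))) ≤ ∫⁻ ω, S.H ω ∂pvP ε :=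
  pvdm_main_up h.hyp

/-- **upper probability form**: `B` = ANY event of (geometry, colours) on which some present datum has `|X(D) + ŷ| ≥ u` -/
theorem pvdy_up_cheb (h : S.HypY ε w0) {B : Set (PvGeoT × PvColT)} {u : ℝ≥0∞}
    (hBu : ∀ p ∈ B, ∃ i, pvConf (pvMerge p) ∈ S.A i ∧ u ≤ ‖S.X i (pvConf (pvMerge p)) + pvdyHat ε S.C (S.yf i) w0 S.Y (pvConf (pvMerge p))‖ₑ) :
    S.q * (u ^ 2 * (PvUp.iter (pvGeo ε) pvCol).P B) ≤ ∫⁻ ω, S.H ω ∂pvP ε :=
  pvdm_up_cheb h.hyp hBu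

end bridge

/-! ## 7. the experiment at a fixed COMBINED geometry (the Fubini half of the link bounds E10): anneal the sites of `C`, then all sites but the frozen ones carry fresh fair bits -/

section comb

/-- the combined set of sites: the old sites off `C`, the new sites in `C` -/
def pvdyYc (C Y Y₂ : Set ℂ) : Set ℂ := (Y \ C) ∪ (Y₂ ∩ C)

/-- the frozen sites of the experiment: the old sites off `C` which are not recoloured -/
def pvdyFz (C : Set ℂ) (yf : Conf PvPt → Set ℂ) (Y : Set ℂ) (σ : ℂ → Bool) : Set ℂ := (Y \ C) \ yf (cfOf Y σ)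

theorem pvdy_eqns_cite5 : True := by
  have := @pvdyYc.eq_1; have := @pvdyFz.eq_1
  trivial

theorem pvdy_Yc_countable {C Y Y₂ : Set ℂ} (hY : Y.Countable) (hY₂ : Y₂.Countable) : (pvdyYc C Y Y₂).Countable :=
  (hY.mono sdiff_subset).union (hY₂.mono inter_subset_left)

/-- the splice of two coloured configurations -/
theorem pvdy_spl_cfOf (C Y Y₂ : Set ℂ) (τ₁ σ₂ : ℂ → Bool) :
    Conf.spl (Cᶜ ×ˢ univ) (cfOf Y τ₁, cfOf Y₂ σ₂) = cfOf (pvdyYc C Y Y₂) (pvfqMix C (σ₂, τ₁)) := by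
  ext x
  simp only [Conf.spl, Conf.union, Conf.restr, cfOf, pvdyYc, mem_union, mem_inter_iff, mem_ofPred_eq, mem_prod, mem_compl_iff, mem_univ, and_true, not_not, mem_sdiff]
  by_cases hx : x.1 ∈ C
  · rw [pvfqMix_of_mem hx]; tauto
  · rw [pvfqMix_of_notMem hx]; tauto

/-- the experiment with a simple seed, at the combined geometry: frozen colours on `pvdyFz`, the seeds elsewhere -/
theorem pvdy_R_comb (C : Set ℂ) (yf : Conf PvPt → Set ℂ) (Y Y₂ : Set ℂ) (σ κ σ₂ : ℂ → Bool) :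
    pvdyR C yf (cfOf Y σ) (κ, cfOf Y₂ σ₂) = cfOf (pvdyYc C Y Y₂) (pvfqMix (pvdyFz C yf Y σ) (σ, pvfqMix C (σ₂, κ))) := by
  rw [pvdy_R_cfOf, pvdy_spl_cfOf]
  refine pvdy_cfOf_congr fun z hz => ?_
  by_cases hC : z ∈ C
  · have h1 : z ∉ pvdyFz C yf Y σ := fun h => h.1.2 hC
    rw [pvfqMix_of_mem hC, pvfqMix_of_notMem h1]
    exact (pvfqMix_of_mem hC (σ₂, κ)).symm
  · have hY : z ∈ Y := by
      rcases hz with h | h
      · exact h.1
      · exact absurd h.2 hC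
    rw [pvfqMix_of_notMem hC]
    show pvfqMix (yf (cfOf Y σ)) (κ, σ) z = _
    by_cases hy : z ∈ yf (cfOf Y σ)
    · have h1 : z ∉ pvdyFz C yf Y σ := fun h => h.2 hy
      rw [pvfqMix_of_mem hy, pvfqMix_of_notMem h1]
      exact (pvfqMix_of_notMem hC (σ₂, κ)).symm
    · have h1 : z ∈ pvdyFz C yf Y σ := ⟨⟨hY, hC⟩, hy⟩
      rw [pvfqMix_of_notMem hy, pvfqMix_of_mem h1]

/-- **THE EXPERIMENT = anneal the geometry of `C`, then the conditional law given the cylinder of the frozen sites at the combined geometry** -/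
theorem pvdy_lintegral_comb (ε : ℝ) {C : Set ℂ} (hC : MeasurableSet C) (yf : Conf PvPt → Set ℂ) {Y : Set ℂ} (hY : Y.Countable) (σ : ℂ → Bool)
    {F : Conf PvPt → ℝ≥0∞} (mF : Measurable F) :
    ∫⁻ p, F (pvdyR C yf (cfOf Y σ) p) ∂pvdyNu ε
      = ∫⁻ g, ∫⁻ τ, F (cfOf (pvdyYc C Y (pvgSites g)) (pvfqMix (pvdyFz C yf Y σ) (σ, τ))) ∂colLaw ℂ ∂pvGeo ε := by
  have := (pv_isPpp ε).prob
  have hc : (cfSites (cfOf Y σ)).Countable := by rw [cfOf_sites]; exact hY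
  have mR : Measurable fun p => F (pvdyR C yf (cfOf Y σ) p) := mF.comp (pvdy_measurable_R hC yf hc)
  have e1 : ∫⁻ p, F (pvdyR C yf (cfOf Y σ) p) ∂pvdyNu ε = ∫⁻ ω₂, ∫⁻ κ, F (pvdyR C yf (cfOf Y σ) (κ, ω₂)) ∂colLaw ℂ ∂pvP ε := by
    unfold pvdyNu
    exact lintegral_prod_symm _ mR.aemeasurable
  have mΦ : Measurable fun ω₂ => ∫⁻ κ, F (pvdyR C yf (cfOf Y σ) (κ, ω₂)) ∂colLaw ℂ := mR.lintegral_prod_left'
  rw [e1, pvdy_quenched ε mΦ]
  refine lintegral_congr fun g => ?_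
  have hY' : (pvdyYc C Y (pvfSites g)).Countable := pvdy_Yc_countable hY (pvf_sites_countable g)
  have mF' : Measurable fun τ : ℂ → Bool => F (cfOf (pvdyYc C Y (pvfSites g)) (pvfqMix (pvdyFz C yf Y σ) (σ, τ))) :=
    mF.comp ((pvdy_measurable_cfOf hY').comp ((measurable_pvfqMix _).comp (measurable_const.prodMk measurable_id)))
  simp_rw [pvdy_R_comb]
  show _ = ∫⁻ τ, F (cfOf (pvdyYc C Y (pvfSites g)) (pvfqMix (pvdyFz C yf Y σ) (σ, τ))) ∂colLaw ℂ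
  conv_rhs => rw [← pvtf_split C]
  rw [lintegral_map mF' (measurable_pvfqMix C)]
  exact (lintegral_prod _ (mF'.comp (measurable_pvfqMix C)).aemeasurable).symm

/-- the quenched conditional probability of `S` at the combined geometry `Y'`, given the colours `σ` on the frozen set `Fz` -/
noncomputable def pvdyPq (Y' Fz : Set ℂ) (σ : ℂ → Bool) (S : Set (Conf PvPt)) : ℝ≥0∞ := colLaw ℂ {τ | cfOf Y' (pvfqMix Fz (σ, τ)) ∈ S}

/-- `pvdyPq` is the conditional law `pvtfPD` of `Tr/Force` (so `pvtf_cyl_harris`, `pvtf_cyl_indep` apply to events `{τ | cfOf Y' τ ∈ S}`) -/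
theorem pvdy_Pq_eq {Y' : Set ℂ} (hY' : Y'.Countable) (Fz : Set ℂ) (σ : ℂ → Bool) {S : Set (Conf PvPt)} (mS : MeasurableSet S) :
    pvdyPq Y' Fz σ S = pvtfPD Fz σ {τ | cfOf Y' τ ∈ S} :=
  (pvtf_PD_apply Fz σ (pvdy_measurable_cfOf hY' mS)).symm

/-- **`P(S | kept)` = the mean over the geometry of `C` of the quenched conditional probability** -/
theorem pvdy_Q_quenched (ε : ℝ) {C : Set ℂ} (hC : MeasurableSet C) (yf : Conf PvPt → Set ℂ) {Y : Set ℂ} (hY : Y.Countable) (σ : ℂ → Bool) {S : Set (Conf PvPt)} (mS : MeasurableSet S) :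
    pvdyQ ε C yf S (cfOf Y σ) = ∫⁻ g, pvdyPq (pvdyYc C Y (pvgSites g)) (pvdyFz C yf Y σ) σ S ∂pvGeo ε := by
  have hc : (cfSites (cfOf Y σ)).Countable := by rw [cfOf_sites]; exact hY
  have mS' : MeasurableSet {p | pvdyR C yf (cfOf Y σ) p ∈ S} := pvdy_measurable_R hC yf hc mS
  have e := pvdy_lintegral_comb ε hC yf hY σ (F := S.indicator 1) (measurable_one.indicator mS)
  have e1 : ∫⁻ p, S.indicator 1 (pvdyR C yf (cfOf Y σ) p) ∂pvdyNu ε = pvdyQ ε C yf S (cfOf Y σ) := by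
    unfold pvdyQ
    rw [← lintegral_indicator_one mS']
    rfl
  rw [← e1, e]
  refine lintegral_congr fun g => ?_
  have hY' : (pvdyYc C Y (pvgSites g)).Countable := pvdy_Yc_countable hY (pvf_sites_countable g)
  have mS'' : MeasurableSet {τ : ℂ → Bool | cfOf (pvdyYc C Y (pvgSites g)) (pvfqMix (pvdyFz C yf Y σ) (σ, τ)) ∈ S} :=
    ((pvdy_measurable_cfOf hY').comp ((measurable_pvfqMix _).comp (measurable_const.prodMk measurable_id))) mS
  unfold pvdyPq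
  rw [← lintegral_indicator_one mS'']
  rfl

/-- **lower bound**: a quenched bound `q0` off a set `B` of bad geometries of the seed (ANY set: outer measure) -/
theorem pvdy_Q_ge (ε : ℝ) {C : Set ℂ} (hC : MeasurableSet C) (yf : Conf PvPt → Set ℂ) {Y : Set ℂ} (hY : Y.Countable) (σ : ℂ → Bool) {S : Set (Conf PvPt)} (mS : MeasurableSet S)
    (B : Set PvGeoT) {q0 : ℝ≥0∞} (h : ∀ g, g ∉ B → q0 ≤ pvdyPq (pvdyYc C Y (pvgSites g)) (pvdyFz C yf Y σ) σ S) :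
    q0 * (1 - pvGeo ε B) ≤ pvdyQ ε C yf S (cfOf Y σ) := by
  rw [pvdy_Q_quenched ε hC yf hY σ mS]
  have mT : MeasurableSet (toMeasurable (pvGeo ε) B)ᶜ := (measurableSet_toMeasurable _ _).compl
  have e : pvGeo ε (toMeasurable (pvGeo ε) B)ᶜ = 1 - pvGeo ε B := by
    rw [measure_compl (measurableSet_toMeasurable _ _) (measure_ne_top _ _), measure_univ, measure_toMeasurable]
  rw [← e, ← lintegral_indicator_const mT]
  refine lintegral_mono fun g => ?_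
  by_cases hg : g ∈ (toMeasurable (pvGeo ε) B)ᶜ
  · rw [indicator_of_mem hg]
    exact h g fun hB => hg (subset_toMeasurable _ _ hB)
  · rw [indicator_of_notMem hg]
    exact zero_le

end comb

end Claimed.Agent.R289
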