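-- KEEP
import Claimed.Agent.R289.Defs.TrModel
import Claimed.Agent.R289.Tr.DomY
import Claimed.Agent.R289.Tr.CellNum

/-!
# Row 289 (S0537), THE WALL, ROAD E, file Tr/InstE : `kout kin ke W kin0 A` DEFINED ONCE, ON THE ACTUAL SAMPLE      (helper161 with helper193; RULINGS 10, 10bis of 234; prefix `pvie`, `Pvie`)

WHAT.   `Defs/TrModel.lean` (187) = `pins U Pat pat Fit` of `PvhbLocU`.      THIS FILE = the ANALYTIC data `kout kin ke` (random variables) and `W kin0 A` (numbers), as DEFINITIONS, label free: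
      `kout m ε a z t ω := pvdyHat ε C₀ yf w₀ Y₀ (pvConf ω)`      (193, `Tr/DomY.lean`: mean of `Y₀` under the weight `w₀` when the colours of the fresh sites `yf` of the mouth and everything inside `C₀` are resampled).
NO theorem of probability here.      Every ingredient is a NAMED def: an owner who needs another form of ONE ingredient (fresh class of R-E, first-hit clause, ..) patches THAT def, all the roofs follow.

* sec. 1  THE MODEL ON `Conf PvPt` (`pvieY pvieT pviePos pvieCol`): the experiments live on RESAMPLED configurations, which are not of the form `pvConf ω`.      `pvxT ω = pvieT (pvConf ω)` etc. BY `rfl`.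
          `PviePl` = a PLACED PLUG (centre, scale, type, tip cells, masks: ABSOLUTE sets), `PvieAt` = `PvxAt` for a placed plug (`pvie_at_iff`), `pvieU`.   ONE vocabulary for marked pins (scale `h_m`), small plugs (scale `h'`), the reference plug.
* sec. 2  THE LINK `p → p'` IN STRAND FORM (`PvieLk`): `Run` (the strand from the exit gate edge of `p` reaches the entry gate edge of `p'`, FIRST HIT, the new part inside `Yin`), `Arc`, success `PvieLk.A`, value `PvieLk.X a` `= I_X(p → p')`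
          for the field `y_a = qpart - a side` (TWO SCALES: cut-off radii `m h_p`, `m h_p'`; for `h_p = h_p'` this is `PvwDat.Yof`).
* sec. 3  HYBRID ATOMS: fresh sites of a mouth `pvieFrO pvieFrI`, conditional probability `pvieP`, weight `pvieWt = 1_A / P(A | states)`.
* sec. 4  `PvieEng τ` = THE DATA OF THE ENGINE which are not in `PvxPar`: cell kit + cell fields (244 `Tr/KitI`, 229 `Tr/PropKit`, 294), exploration form of the door plug, reference plug, regions of the four special links.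
* sec. 5  **`pvieKout pvieKin pvieKe pvieW pvieKin0 pvieA`**.
* sec. 6  THE WHOLE CHAIN of a pattern: `pvieCc pvieYfc pvieWc pvieYc`, `pvieHat` `= ŷ_c`.
* sec. 7  the statements of the roofs, ONE PER FIELD (`PvieNum PvieN1 PvieCyc1 PvieThick`), the sub-contracts of `n1` (`PvieChainEq`, `PvieDom`), and the COMPILED glue `pvie_ana : … → PvxAna 𝔓`.
COLOURS.   `true` = the colour `b = 𝔓.col t` of the rim.   Strand objects carry `b` (`pvieCol η b`); the kit (typed for black) is evaluated at `pvieFl b η` (`η` or `cfFlip η`).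
-/

set_option autoImplicit false

namespace Claimed.Agent.R289

open Set MeasureTheory Filter Topology Claims.C0465
open scoped ENNReal

/-! ## 1. the model on configurations -/

/-- the sites -/
def pvieY (η : Conf PvPt) : Set ℂ := cfSites η

/-- the Delaunay triangulation of the plane (total definition of 219) -/
noncomputable def pvieT (η : Conf PvPt) : PvMap ↥(pvieY η) (delbPl (pvieY η)).Dart := (delbPl (pvieY η)).toMap

/-- positions -/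
def pviePos (η : Conf PvPt) : ↥(pvieY η) → ℂ := Subtype.val

/-- the colouring seen by a rim of colour `b` -/
noncomputable def pvieCol (η : Conf PvPt) (b : Bool) : ↥(pvieY η) → Bool := fun v => cfCol η v.1 == b

/-- the configuration seen by the objects typed for BLACK rims -/
def pvieFl (b : Bool) (η : Conf PvPt) : Conf PvPt := if b then η else cfFlip η

theorem pvie_Y_conf (ω : PVSample) : pvxY ω = pvieY (pvConf ω) := rfl
theorem pvie_T_conf (ω : PVSample) : pvxT ω = pvieT (pvConf ω) := rfl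
theorem pvie_pos_conf (ω : PVSample) : pvxPos ω = pviePos (pvConf ω) := rfl
theorem pvie_col_conf (ω : PVSample) (b : Bool) : pvxCol ω b = pvieCol (pvConf ω) b := rfl

/-- translation of a region -/
def pvieSh (z : ℂ) (S : Set ℂ) : Set ℂ := (fun w : ℂ => z + w) '' S

/-- **A PLACED PLUG**: centre, scale, type; tip cells and masks as ABSOLUTE sets -/
structure PviePl where
  z : ℂ
  h : ℝ
  ty : PvwTy
  cp : Set ℂ
  cm : Set ℂ
  Mp : Set ℂ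
  Mm : Set ℂ
  /-- the level of the plug is admitted (`PvxAt.lev0` of TrModel v4: `m0 ≤ m`) -/
  lev : Prop

/-- the plug moved by the frame `w ↦ z + d w` (`d ∈ {1, i, -1, -i}`: the boxes are squares) -/
def PviePl.mv (p : PviePl) (z d : ℂ) : PviePl where
  z := pvthSim z d p.z
  h := p.h
  ty := p.ty
  cp := pvthSim z d '' p.cp
  cm := pvthSim z d '' p.cm
  Mp := pvthSim z d '' p.Mp
  Mm := pvthSim z d '' p.Mm
  lev := p.lev

/-- **`𝔖` IS THE STATE OF THE PLACED PLUG `p` IN THE CONFIGURATION `η`** for the colour `b`      (= `PvxAt` of 187) -/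
structure PvieAt (N : PvwNum) (b : Bool) (p : PviePl) (η : Conf PvPt) (𝔖 : PvwSt (pvieT η)) : Prop where
  good : DelGood (pvieY η)
  st : 𝔖.At (pviePos η) N p.h p.z p.ty (pvieCol η b)
  tip_p : pviePos η ((pvieT η).src (𝔖.ep 𝔖.np)) ∈ p.cp
  tip_m : pviePos η ((pvieT η).src (𝔖.em 𝔖.nm)) ∈ p.cm
  mask_p : ∀ y : (pvieT η).Pth, PvwLE (pvieT η) (fun i => (pvieT η).src (𝔖.ep i)) 𝔖.np y → ∀ v ∈ y.verts, pviePos η v ∈ p.Mp
  mask_m : ∀ y : (pvieT η).Pth, PvwLE (pvieT η) (fun i => (pvieT η).src (𝔖.em i)) 𝔖.nm y → ∀ v ∈ y.verts, pviePos η v ∈ p.Mm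
  /-- R17 (a) of 234 (TrModel v4): the two halves of the inner arc, cut at the mark, lie in the masks off the cut-off ball -/
  inn_p : ∀ i, 𝔖.ip ≤ i → i ≤ 𝔖.inn.n → (N.m - 1) * p.h < ‖pviePos η (𝔖.inn.v i) - p.z‖ → pviePos η (𝔖.inn.v i) ∈ p.Mp
  inn_m : ∀ i, i ≤ 𝔖.ip → (N.m - 1) * p.h < ‖pviePos η (𝔖.inn.v i) - p.z‖ → pviePos η (𝔖.inn.v i) ∈ p.Mm
  lev0 : p.lev

/-- the state of the placed plug exists -/
def pvieU (N : PvwNum) (b : Bool) (p : PviePl) : Set (Conf PvPt) := {η | ∃ 𝔖 : PvwSt (pvieT η), PvieAt N b p η 𝔖}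

/-- the candidate `(z,t)` of level `m` as a placed plug -/
noncomputable def PvxPar.pl {τ : Type} {c : ℝ} (𝔓 : PvxPar τ c) (m : ℕ) (z : ℂ) (t : τ) : PviePl where
  z := z
  h := pvlmH m
  ty := 𝔓.ty t
  cp := pvxPl z (pvlmH m) (𝔓.cp t)
  cm := pvxPl z (pvlmH m) (𝔓.cm t)
  Mp := pvxPl z (pvlmH m) (𝔓.Mp t)
  Mm := pvxPl z (pvlmH m) (𝔓.Mm t)
  lev := 𝔓.m0 ≤ m

theorem pvie_at_iff {τ : Type} {c : ℝ} (𝔓 : PvxPar τ c) (m : ℕ) (ω : PVSample) (z : ℂ) (t : τ) (𝔖 : PvwSt (pvxT ω)) :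
    PvxAt 𝔓 m ω z t 𝔖 ↔ PvieAt 𝔓.num (𝔓.col t) (𝔓.pl m z t) (pvConf ω) 𝔖 :=
  ⟨fun h => ⟨h.good, h.st, h.tip_p, h.tip_m, h.mask_p, h.mask_m, h.inn_p, h.inn_m, h.lev0⟩, fun h => ⟨h.good, h.st, h.tip_p, h.tip_m, h.mask_p, h.mask_m, h.inn_p, h.inn_m, h.lev0⟩⟩

theorem pvie_U_conf {τ : Type} {c : ℝ} (𝔓 : PvxPar τ c) (m : ℕ) (z : ℂ) (t : τ) : pvxU 𝔓 m z t = pvConf ⁻¹' pvieU 𝔓.num (𝔓.col t) (𝔓.pl m z t) := by
  ext ω
  exact ⟨fun ⟨𝔖, h⟩ => ⟨𝔖, (pvie_at_iff 𝔓 m ω z t 𝔖).1 h⟩, fun ⟨𝔖, h⟩ => ⟨𝔖, (pvie_at_iff 𝔓 m ω z t 𝔖).2 h⟩⟩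

/-! ## 2. the link in strand form -/

/-- **A LINK**: from the EXIT of the plug `p` to the ENTRANCE of the plug `p'`; `Yin` = the room of the new part of the strand -/
structure PvieLk where
  p : PviePl
  p' : PviePl
  Yin : Set ℂ

namespace PvieLk

variable (L : PvieLk)

/-- the strand continued from the exit gate edge of `𝔖` reaches the entry gate edge of `𝔖'` after `n` steps, FOR THE FIRST TIME; between the two stubs it stays in `Yin`      (= `PvwDat.SYn` + first hit) -/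
def Run (b : Bool) (η : Conf PvPt) (𝔖 𝔖' : PvwSt (pvieT η)) (n : ℕ) : Prop :=
  𝔖.np + 𝔖'.nm ≤ n ∧ pvasIt (pvieT η) (pvieCol η b) 𝔖.dp n = 𝔖'.dm ∧ (∀ i, i < n → pvasIt (pvieT η) (pvieCol η b) 𝔖.dp i ≠ 𝔖'.dm) ∧
    ∀ i, 𝔖.np < i → i + 𝔖'.nm < n →
      pviePos η ((pvieT η).src (pvasIt (pvieT η) (pvieCol η b) 𝔖.dp i)) ∈ L.Yin ∧ pviePos η ((pvieT η).tgt (pvasIt (pvieT η) (pvieCol η b) 𝔖.dp i)) ∈ L.Yin

/-- both states exist, the link succeeds, `y` = the rim arc `g⁺(p) → g⁻(p')` = LE (black bank of the strand) -/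
structure Arc (N : PvwNum) (b : Bool) (η : Conf PvPt) (𝔖 𝔖' : PvwSt (pvieT η)) (y : (pvieT η).Pth) : Prop where
  at_p : PvieAt N b L.p η 𝔖
  at_p' : PvieAt N b L.p' η 𝔖'
  run : ∃ n, L.Run b η 𝔖 𝔖' n ∧ PvwLE (pvieT η) (fun i => (pvieT η).src (pvasIt (pvieT η) (pvieCol η b) 𝔖.dp i)) n y

/-- **SUCCESS OF THE LINK** (`SY`) -/
def A (N : PvwNum) (b : Bool) : Set (Conf PvPt) := {η | ∃ (𝔖 𝔖' : PvwSt (pvieT η)) (y : (pvieT η).Pth), L.Arc N b η 𝔖 𝔖' y}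

/-- the complement of the two cut-off balls (TWO scales) -/
def off (N : PvwNum) : Set ℂ := (Metric.closedBall L.p.z (N.m * L.p.h) ∪ Metric.closedBall L.p'.z (N.m * L.p'.h))ᶜ

/-- `I_X(p → p')` read on the two inner arcs and on `y`: the whole mass of the inner arc of `p` in its cut-off ball + the mass outside the two cut-off balls of the arc `mark(p) → g⁺(p) → g⁻(p') → mark(p')` -/
noncomputable def val (N : PvwNum) (η : Conf PvPt) (w : (delbPl (pvieY η)).Dart → ℂ) (𝔖 𝔖' : PvwSt (pvieT η)) (y : (pvieT η).Pth) : ℂ :=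
  pvwMass (pvieT η) (pviePos η) w (Metric.closedBall L.p.z (N.m * L.p.h)) 𝔖.inn 0 𝔖.inn.n + pvwMass (pvieT η) (pviePos η) w (L.off N) 𝔖.inn 𝔖.ip 𝔖.inn.n +
    pvwMass (pvieT η) (pviePos η) w (L.off N) y 0 y.n + pvwMass (pvieT η) (pviePos η) w (L.off N) 𝔖'.inn 0 𝔖'.ip

end PvieLk

/-- the field of record `y_a = qpart - a side` -/
noncomputable def pvieFld (η : Conf PvPt) (a : ℂ) : (delbPl (pvieY η)).Dart → ℂ := fun d => (pvieT η).qpart (pviePos η) d - a * (pvieT η).side (pviePos η) d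

open Classical in
/-- **THE VALUE OF THE LINK** for the field `y_a` (`0` off the success event) -/
noncomputable def PvieLk.X (L : PvieLk) (N : PvwNum) (b : Bool) (a : ℂ) (η : Conf PvPt) : ℂ :=
  if h : ∃ (𝔖 𝔖' : PvwSt (pvieT η)) (y : (pvieT η).Pth), L.Arc N b η 𝔖 𝔖' y then
    L.val N η (pvieFld η a) h.choose h.choose_spec.choose h.choose_spec.choose_spec.choose else 0

/-! ## 3. hybrid atoms -/

/-- the FRESH sites of the exit mouth `M` of the plug `p`: the points of `M` which are not frozen by `Σ_out`      (empty if the state does not exist) -/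
def pvieFrO (N : PvwNum) (b : Bool) (p : PviePl) (M : Set ℂ) (η : Conf PvPt) : Set ℂ :=
  {v | v ∈ M ∧ ∃ 𝔖 : PvwSt (pvieT η), PvieAt N b p η 𝔖 ∧ ∀ u ∈ 𝔖.fzOut, pviePos η u ≠ v}

/-- the FRESH sites of the entrance mouth `M` of the plug `p`: not frozen by `Σ_in` -/
def pvieFrI (N : PvwNum) (b : Bool) (p : PviePl) (M : Set ℂ) (η : Conf PvPt) : Set ℂ :=
  {v | v ∈ M ∧ ∃ 𝔖 : PvwSt (pvieT η), PvieAt N b p η 𝔖 ∧ ∀ u ∈ 𝔖.fzIn, pviePos η u ≠ v}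

/-- conditional probability of `A` when the atom (tile `K`, colours of the fresh sites `yf`) is resampled -/
noncomputable def pvieP (ε : ℝ) (K : Set ℂ) (yf : Conf PvPt → Set ℂ) (A : Set (Conf PvPt)) (η : Conf PvPt) : ℝ≥0∞ :=
  ∫⁻ p, A.indicator 1 (pvdyR K yf η p) ∂(pvdyNu ε)

/-- the weight `1_A / P(A | the two states)` of a hybrid link -/
noncomputable def pvieWt (ε : ℝ) (K : Set ℂ) (yf : Conf PvPt → Set ℂ) (A : Set (Conf PvPt)) (η : Conf PvPt) : ℝ≥0∞ :=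
  A.indicator 1 η / pvieP ε K yf A η

/-! ## 4. the data of the engine -/

/-- **THE DATA OF THE ENGINE OF ROAD E** which are not in `PvxPar`.      Regions with an index `t : τ` are RELATIVE TO THE CENTRE of the pin (absolute units), regions of the reference plug relative to its centre. -/
structure PvieEng (τ : Type) where
  /-- the cell kit of level `m`, mesh `ε` (the soft thresholds depend on `ε`)      [244 229 294 47] -/
  kit : ℕ → ℝ → PvthKit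
  /-- the cell fields -/
  XQ : ℕ → ℝ → PvtTurn → Conf PvPt → ℂ
  XV : ℕ → ℝ → PvtTurn → Conf PvPt → ℂ
  /-- the door plug in EXPLORATION form, reference frame `(0, 1)` -/
  sp : ℕ → PviePl
  /-- the reference plug `τ₀` (scale `h_m`) in exploration form, centre `0` -/
  rp : ℕ → PviePl
  /-- its region -/
  rO : ℕ → Set ℂ
  /-- its usable states (soft threshold), centre `0`, typed for black -/
  rG : ℕ → ℝ → Set (Conf PvPt)
  /-- FIRST LINK `t → door plug`: recoloured mouth, resampled tile, room of the strand -/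
  oM : ℕ → τ → Set ℂ
  oK : ℕ → τ → Set ℂ
  oY : ℕ → τ → Set ℂ
  /-- LAST LINK `door plug → s` -/
  iM : ℕ → τ → Set ℂ
  iK : ℕ → τ → Set ℂ
  iY : ℕ → τ → Set ℂ
  /-- THICK SHORT LINK `reference plug → t` -/
  eM : ℕ → τ → Set ℂ
  eK : ℕ → τ → Set ℂ
  eY : ℕ → τ → Set ℂ
  /-- last link of the thin chain `door plug → reference plug` -/
  rK : ℕ → Set ℂ
  rY : ℕ → Set ℂ
  /-- THICK RETURN `t → reference plug` (R20 (5) of 234; 7, 129): recoloured (exit) mouth, resampled tile, room of the strand.      Read by no number of the Hub: only by the good part of `thick`, by `V` and by the proofs -/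
  fM : ℕ → τ → Set ℂ
  fK : ℕ → τ → Set ℂ
  fY : ℕ → τ → Set ℂ

section defs

variable {τ : Type} {c : ℝ} (𝔓 : PvxPar τ c) (𝔈 : PvieEng τ)

/-! ### doors -/

/-- exit door of the candidate `(z,t)` -/
def pvieZo (m : ℕ) (z : ℂ) (t : τ) : ℂ := z + (𝔓.Γ m).pout t
/-- entrance door of the candidate `(z,t)` -/
def pvieZi (m : ℕ) (z : ℂ) (t : τ) : ℂ := z + (𝔓.Γ m).pin t
/-- centre of the reference plug of the candidate `(z,t)` -/
def pvieZu (m : ℕ) (z : ℂ) (t : τ) : ℂ := z + (𝔓.Γ m).zu t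

/-- the region of the door plug placed at `(z, d)` -/
def pvieDoor (m : ℕ) (ε : ℝ) (z d : ℂ) : Set ℂ := pvthSim z d '' (𝔈.kit m ε).O₀

/-- `1_G / μ(G)` for the reference plug placed at `z` (black form) -/
noncomputable def pvieGr (m : ℕ) (ε : ℝ) (z : ℂ) (η : Conf PvPt) : ℝ≥0∞ := (cfMap (pvthInv z 1) ⁻¹' 𝔈.rG m ε).indicator 1 η / pvP ε (𝔈.rG m ε)

/-! ### the four special links -/

/-- first link -/
noncomputable def pvieLo (m : ℕ) (z : ℂ) (t : τ) : PvieLk := ⟨𝔓.pl m z t, (𝔈.sp m).mv (pvieZo 𝔓 m z t) ((𝔓.Γ m).dout t), pvieSh z (𝔈.oY m t)⟩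
/-- last link -/
noncomputable def pvieLi (m : ℕ) (z : ℂ) (t : τ) : PvieLk := ⟨(𝔈.sp m).mv (pvieZi 𝔓 m z t) ((𝔓.Γ m).din t), 𝔓.pl m z t, pvieSh z (𝔈.iY m t)⟩
/-- thick short link -/
noncomputable def pvieLe (m : ℕ) (z : ℂ) (t : τ) : PvieLk := ⟨(𝔈.rp m).mv (pvieZu 𝔓 m z t) 1, 𝔓.pl m z t, pvieSh z (𝔈.eY m t)⟩
/-- last link of the thin chain into the reference plug (centre `0`) -/
def pvieLr (m : ℕ) : PvieLk := ⟨(𝔈.sp m).mv (𝔓.Γ m).pin0 (𝔓.Γ m).din0, 𝔈.rp m, 𝔈.rY m⟩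

/-- fresh sites of the three hybrid links -/
noncomputable def pvieYo (m : ℕ) (z : ℂ) (t : τ) : Conf PvPt → Set ℂ := pvieFrO 𝔓.num (𝔓.col t) (𝔓.pl m z t) (pvieSh z (𝔈.oM m t))
noncomputable def pvieYi (m : ℕ) (z : ℂ) (t : τ) : Conf PvPt → Set ℂ := pvieFrI 𝔓.num (𝔓.col t) (𝔓.pl m z t) (pvieSh z (𝔈.iM m t))
noncomputable def pvieYe (m : ℕ) (z : ℂ) (t : τ) : Conf PvPt → Set ℂ := pvieFrI 𝔓.num (𝔓.col t) (𝔓.pl m z t) (pvieSh z (𝔈.eM m t))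

/-- the weights `1_A / P(A | states)` of the three hybrid links -/
noncomputable def pvieWo (m : ℕ) (ε : ℝ) (z : ℂ) (t : τ) : Conf PvPt → ℝ≥0∞ :=
  pvieWt ε (pvieSh z (𝔈.oK m t)) (pvieYo 𝔓 𝔈 m z t) ((pvieLo 𝔓 𝔈 m z t).A 𝔓.num (𝔓.col t))
noncomputable def pvieWi (m : ℕ) (ε : ℝ) (z : ℂ) (t : τ) : Conf PvPt → ℝ≥0∞ :=
  pvieWt ε (pvieSh z (𝔈.iK m t)) (pvieYi 𝔓 𝔈 m z t) ((pvieLi 𝔓 𝔈 m z t).A 𝔓.num (𝔓.col t))
noncomputable def pvieWe (m : ℕ) (ε : ℝ) (z : ℂ) (t : τ) : Conf PvPt → ℝ≥0∞ :=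
  pvieWt ε (pvieSh z (𝔈.eK m t)) (pvieYe 𝔓 𝔈 m z t) ((pvieLe 𝔓 𝔈 m z t).A 𝔓.num (𝔓.col t))

/-! ## 5. THE DATA FIELDS -/

/-- **`κ_out`**: mean of the value of the STANDARD FIRST LINK `t → door plug`, over (fresh colours of the exit mouth, tile, door plug), weights `1_G/μ(G)`, `1_A/P(A | states)` -/
noncomputable def pvieKout (m : ℕ) (ε : ℝ) (a : ℂ) (z : ℂ) (t : τ) (ω : PVSample) : ℂ :=
  pvdyHat ε (pvieSh z (𝔈.oK m t) ∪ pvieDoor 𝔈 m ε (pvieZo 𝔓 m z t) ((𝔓.Γ m).dout t)) (pvieYo 𝔓 𝔈 m z t)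
    (fun η => (𝔈.kit m ε).g (pvP ε) (pvieZo 𝔓 m z t) ((𝔓.Γ m).dout t) (pvieFl (𝔓.col t) η) * pvieWo 𝔓 𝔈 m ε z t η)
    ((pvieLo 𝔓 𝔈 m z t).X 𝔓.num (𝔓.col t) a) (pvConf ω)

/-- **`κ_in`**: the same for the STANDARD LAST LINK `door plug → t` -/
noncomputable def pvieKin (m : ℕ) (ε : ℝ) (a : ℂ) (z : ℂ) (t : τ) (ω : PVSample) : ℂ :=
  pvdyHat ε (pvieSh z (𝔈.iK m t) ∪ pvieDoor 𝔈 m ε (pvieZi 𝔓 m z t) ((𝔓.Γ m).din t)) (pvieYi 𝔓 𝔈 m z t)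
    (fun η => (𝔈.kit m ε).g (pvP ε) (pvieZi 𝔓 m z t) ((𝔓.Γ m).din t) (pvieFl (𝔓.col t) η) * pvieWi 𝔓 𝔈 m ε z t η)
    ((pvieLi 𝔓 𝔈 m z t).X 𝔓.num (𝔓.col t) a) (pvConf ω)

/-- **mean of the THICK SHORT LINK** `reference plug (integrated) → t` -/
noncomputable def pvieKe (m : ℕ) (ε : ℝ) (a : ℂ) (z : ℂ) (t : τ) (ω : PVSample) : ℂ :=
  pvdyHat ε (pvieSh z (𝔈.eK m t) ∪ pvieSh (pvieZu 𝔓 m z t) (𝔈.rO m)) (pvieYe 𝔓 𝔈 m z t)
    (fun η => pvieGr 𝔈 m ε (pvieZu 𝔓 m z t) (pvieFl (𝔓.col t) η) * pvieWe 𝔓 𝔈 m ε z t η)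
    ((pvieLe 𝔓 𝔈 m z t).X 𝔓.num (𝔓.col t) a) (pvConf ω)

/-- **the three cell means** of the field `y_a`      (`= PvcnFam.W` of 52) -/
noncomputable def pvieW (m : ℕ) (ε : ℝ) (a : ℂ) : PvtW := (𝔈.kit m ε).W (pvP ε) (pvcnY (𝔈.XQ m ε) (𝔈.XV m ε) a)

/-- **`A m ε = α^Q / δ_m`**      (`= PvcnFam.A` of 52) -/
noncomputable def pvieA (c : ℝ) (m : ℕ) (ε : ℝ) : ℂ := ((𝔈.kit m ε).W (pvP ε) (𝔈.XQ m ε)).a / (pvlmDel c m : ℂ)

/-- the two plug regions of the last link into the reference plug -/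
def pvieOr (m : ℕ) (ε : ℝ) : Set PvPt := (pvieDoor 𝔈 m ε (𝔓.Γ m).pin0 (𝔓.Γ m).din0 ∪ 𝔈.rO m) ×ˢ univ

/-- **the constant of the reference plug**: mean of the last link of the thin chain, ALL coordinates integrated (black form, centre `0`) -/
noncomputable def pvieKin0 (m : ℕ) (ε : ℝ) (a : ℂ) : ℂ :=
  ∫ η, (pvieLr 𝔓 𝔈 m).X 𝔓.num true a η ∂((pvP ε).withDensity fun η =>
    (𝔈.kit m ε).g (pvP ε) (𝔓.Γ m).pin0 (𝔓.Γ m).din0 η * pvieGr 𝔈 m ε 0 η * pvtiW (pvP ε) (pvieOr 𝔓 𝔈 m ε) ((pvieLr 𝔓 𝔈 m).A 𝔓.num true) η)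

end defs

/-! ## 6. the whole chain of a pattern -/

section chain

variable {τ : Type} {c : ℝ} (𝔓 : PvxPar τ c) (𝔈 : PvieEng τ)

/-- the RESAMPLED regions of the chain of the pattern `π`: the two end tiles, the doors `0 .. n-1`, the last door, the tiles of the cells -/
noncomputable def pvieTiles (m : ℕ) (ε : ℝ) (π : PvtsPat τ) : List (Set ℂ) :=
  [pvieSh π.zt (𝔈.oK m π.tt), pvieSh π.zs (𝔈.iK m π.ts), pvieDoor 𝔈 m ε (pvieZi 𝔓 m π.zs π.ts) ((𝔓.Γ m).din π.ts)] ++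
  (List.range π.l.length).map (fun j => pvieDoor 𝔈 m ε (pvthZ (𝔈.kit m ε).δ (pvieZo 𝔓 m π.zt π.tt) ((𝔓.Γ m).dout π.tt) π.l j) (pvthD ((𝔓.Γ m).dout π.tt) π.l j)) ++
  (List.range π.l.length).map (fun j =>
    pvthSim (pvthZ (𝔈.kit m ε).δ (pvieZo 𝔓 m π.zt π.tt) ((𝔓.Γ m).dout π.tt) π.l j) (pvthD ((𝔓.Γ m).dout π.tt) π.l j) '' (𝔈.kit m ε).K₀ (pvthL π.l j))

/-- **the chain is SIMPLE**: the two recoloured mouths and all the resampled regions are pairwise disjoint      (deterministic; owed by the regions of a pattern which can be fitted) -/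
def PvieSimple (m : ℕ) (ε : ℝ) (π : PvtsPat τ) : Prop :=
  ([pvieSh π.zt (𝔈.oM m π.tt), pvieSh π.zs (𝔈.iM m π.ts)] ++ pvieTiles 𝔓 𝔈 m ε π).Pairwise Disjoint

/-- `C_c` = the resampled region of the chain -/
def pvieCc (m : ℕ) (ε : ℝ) (π : PvtsPat τ) : Set ℂ := {w | ∃ S ∈ pvieTiles 𝔓 𝔈 m ε π, w ∈ S}

/-- the recoloured sites of the chain: fresh sites of the exit mouth of `t` and of the entrance mouth of `s` -/
noncomputable def pvieYfc (m : ℕ) (π : PvtsPat τ) (η : Conf PvPt) : Set ℂ := pvieYo 𝔓 𝔈 m π.zt π.tt η ∪ pvieYi 𝔓 𝔈 m π.zs π.ts η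

/-- **`W_c`** (R-C of `W1_208`): `1_G/μ(G)` for every door plug, `1_A/P(A | states)` for every link -/
noncomputable def pvieWc (m : ℕ) (ε : ℝ) (π : PvtsPat τ) (η : Conf PvPt) : ℝ≥0∞ :=
  pvieWo 𝔓 𝔈 m ε π.zt π.tt η * (𝔈.kit m ε).Wt (pvP ε) (pvieZo 𝔓 m π.zt π.tt) ((𝔓.Γ m).dout π.tt) π.l (pvieFl (𝔓.col π.tt) η) *
    ((𝔈.kit m ε).g (pvP ε) (pvieZi 𝔓 m π.zs π.ts) ((𝔓.Γ m).din π.ts) (pvieFl (𝔓.col π.tt) η) * pvieWi 𝔓 𝔈 m ε π.zs π.ts η)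

/-- **`Y_c`** = first link + cells + last link -/
noncomputable def pvieYc (m : ℕ) (ε : ℝ) (a : ℂ) (π : PvtsPat τ) (η : Conf PvPt) : ℂ :=
  (pvieLo 𝔓 𝔈 m π.zt π.tt).X 𝔓.num (𝔓.col π.tt) a η +
    (𝔈.kit m ε).Y (pvcnY (𝔈.XQ m ε) (𝔈.XV m ε) a) (pvieZo 𝔓 m π.zt π.tt) ((𝔓.Γ m).dout π.tt) π.l (pvieFl (𝔓.col π.tt) η) +
    (pvieLi 𝔓 𝔈 m π.zs π.ts).X 𝔓.num (𝔓.col π.ts) a η

/-- **`ŷ_c`** `= E[Y_c W_c | Σ_out(t), Σ_in(s)]`, on the actual sample -/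
noncomputable def pvieHat (m : ℕ) (ε : ℝ) (a : ℂ) (π : PvtsPat τ) (ω : PVSample) : ℂ :=
  pvdyHat ε (pvieCc 𝔓 𝔈 m ε π) (pvieYfc 𝔓 𝔈 m π) (pvieWc 𝔓 𝔈 m ε π) (pvieYc 𝔓 𝔈 m ε a π) (pvConf ω)

end chain

/-! ## 7. the statements of the roofs, one per field; the glue -/

section roofs

variable {τ : Type} {c : ℝ} (𝔓 : PvxPar τ c) (𝔈 : PvieEng τ)

/-- **NUM** = fields `A_bdd cell_a rel_lim`      [34 259 52 173 244: `Exit/TrNum.lean`] -/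
structure PvieNum (CA : ℝ) : Prop where
  A_bdd : ∀ m, ∀ᶠ ε in 𝓝[>] (0 : ℝ), ‖pvieA 𝔈 c m ε‖ ≤ CA
  cell_a : ∀ m, ∀ᶠ ε in 𝓝[>] (0 : ℝ), ∀ a : ℂ, (𝔓.Γ m).a (pvieW 𝔈 m ε a) = pvieA 𝔈 c m ε - a
  rel_lim : ∀ m (a : ℂ), Tendsto (fun ε => (pvieW 𝔈 m ε a).rel) (𝓝[>] (0 : ℝ)) (𝓝 0)

/-- **N1** = field `n1`      [170 274: `Exit/N1.lean`] -/
def PvieN1 : Prop :=
  ∀ (x : ℂ) (R : ℝ), 0 < R → ∀ (a : ℂ) (m : ℕ), ∀ π ∈ pvxPatSet 𝔓 x R m, ∀ u : ℝ, 0 < u →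
    Tendsto (fun ε => ((pvhbUp ε).P {q | ∃ P ∈ pvhbAll x R (pvMerge q), ∃ s ∈ pvxPins 𝔓 x R m (pvMerge q) P, ∃ t ∈ pvxPins 𝔓 x R m (pvMerge q) P, pvxFit 𝔓 x R m (pvMerge q) P s t π ∧
      u < ‖pvbArcI 𝔓.𝔐 (pvlmH m) P (fun k => P.xQ k - a * P.xV k) s t +
        (pvieKout 𝔓 𝔈 m ε a t.ctr t.typ (pvMerge q) + pvtSum (pvieW 𝔈 m ε a) ((𝔓.Γ m).dout π.p.tt) π.p.l + pvieKin 𝔓 𝔈 m ε a s.ctr s.typ (pvMerge q))‖}).toReal) (𝓝[>] (0 : ℝ)) (𝓝 0)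

/-- **CYC1** = field `cyc1`      [129 58 143] -/
def PvieCyc1 : Prop :=
  ∀ (a : ℂ) (m : ℕ) (p : ℤ × ℤ) (t : τ), Tendsto (fun ε => (pvhbUp ε).E ((pvMerge ⁻¹' pvxU 𝔓 m (l9Pt (pvlmH m) p) t).indicator fun q =>
    ‖pvieKout 𝔓 𝔈 m ε a (l9Pt (pvlmH m) p) t (pvMerge q) + pvtSum (pvieW 𝔈 m ε a) ((𝔓.Γ m).dout t) ((𝔓.Γ m).l1 t) + pvieKin0 𝔓 𝔈 m ε a +
      pvieKe 𝔓 𝔈 m ε a (l9Pt (pvlmH m) p) t (pvMerge q)‖ₑ ^ 2)) (𝓝[>] (0 : ℝ)) (𝓝 0)

/-- **THICK** = field `thick`      [129 58 103 223] -/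
def PvieThick (CA Ce : ℝ) : Prop :=
  ∀ (a : ℂ), ‖a‖ ≤ CA → ∀ (m : ℕ) (p : ℤ × ℤ) (t : τ), ∀ᶠ ε in 𝓝[>] (0 : ℝ),
    (pvhbUp ε).E ((pvMerge ⁻¹' pvxU 𝔓 m (l9Pt (pvlmH m) p) t).indicator fun q => ‖pvieKe 𝔓 𝔈 m ε a (l9Pt (pvlmH m) p) t (pvMerge q)‖ₑ ^ 2) ≤ ENNReal.ofReal (Ce * pvlmH m ^ 2)

/-- **THE GLUE**: the four roofs give the analytic record of 187 -/
noncomputable def pvie_ana {CA Ce : ℝ} (hN : PvieNum 𝔓 𝔈 CA) (h1 : PvieN1 𝔓 𝔈) (h2 : PvieCyc1 𝔓 𝔈) (h3 : PvieThick 𝔓 𝔈 CA Ce) : PvxAna 𝔓 where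
  W := pvieW 𝔈
  kin0 := pvieKin0 𝔓 𝔈
  A := pvieA 𝔈 c
  CA := CA
  A_bdd := hN.A_bdd
  cell_a := hN.cell_a
  rel_lim := hN.rel_lim
  kout := pvieKout 𝔓 𝔈
  kin := pvieKin 𝔓 𝔈
  ke := pvieKe 𝔓 𝔈
  n1 := h1
  cyc1 := h2
  Ce := Ce
  thick := h3

/-- NUM from the exit of chapter E (52, `Tr/CellNum.lean`) -/
theorem pvie_num_of_fam (F : PvcnFam (pvlmDel c)) (hk : F.kit = 𝔈.kit) (hQ : F.XQ = 𝔈.XQ) (hV : F.XV = 𝔈.XV) (hδ : ∀ m, (𝔓.Γ m).δ = pvlmDel c m) : PvieNum 𝔓 𝔈 F.CA where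
  A_bdd := fun m => by
    have := F.A_bdd m
    simpa only [PvcnFam.A, pvieA, hk, hQ] using this
  cell_a := fun m => by
    have := F.cell_a m
    simpa only [PvcnFam.A, PvcnFam.W, pvieA, pvieW, PvtsGeo.a, hk, hQ, hV, hδ] using this
  rel_lim := fun m a => by
    have := F.rel_lim m a
    simpa only [PvcnFam.W, pvieW, hk, hQ, hV] using this

/-! ### the two halves of `n1` -/

/-- **(N1.a) TR2-E** [218 `Tr/ChainE.lean`, 193]: with the weights of R-C the mean of the chain is EXACTLY `κ_out + cell means + κ_in`, POINTWISE on the usable samples -/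
def PvieChainEq : Prop :=
  ∀ (m : ℕ), ∀ᶠ ε in 𝓝[>] (0 : ℝ), ∀ (a : ℂ) (π : PvtsPat τ), (𝔓.Γ m).Ok π → 𝔓.col π.ts = 𝔓.col π.tt → PvieSimple 𝔓 𝔈 m ε π →
    ∀ ω ∈ pvxU 𝔓 m π.zt π.tt ∩ pvxU 𝔓 m π.zs π.ts,
      pvieHat 𝔓 𝔈 m ε a π ω = pvieKout 𝔓 𝔈 m ε a π.zt π.tt ω + pvtSum (pvieW 𝔈 m ε a) ((𝔓.Γ m).dout π.tt) π.l + pvieKin 𝔓 𝔈 m ε a π.zs π.ts ω

/-- **(N1.b) N1' = CYLINDER DOMINATION + DICT + I.TAIL** [159 193 170 274; DICT 195 161]: second moment of `I + ŷ_c` over the arcs which fit a fixed pattern -/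
def PvieDom : Prop :=
  ∀ (x : ℂ) (R : ℝ), 0 < R → ∀ (a : ℂ) (m : ℕ), ∀ π ∈ pvxPatSet 𝔓 x R m,
    Tendsto (fun ε => (pvhbUp ε).E fun q => ⨆ P ∈ pvhbAll x R (pvMerge q), ⨆ s ∈ pvxPins 𝔓 x R m (pvMerge q) P, ⨆ t ∈ pvxPins 𝔓 x R m (pvMerge q) P, ⨆ (_ : pvxFit 𝔓 x R m (pvMerge q) P s t π),
      ‖pvbArcI 𝔓.𝔐 (pvlmH m) P (fun k => P.xQ k - a * P.xV k) s t + pvieHat 𝔓 𝔈 m ε a π.p (pvMerge q)‖ₑ ^ 2) (𝓝[>] (0 : ℝ)) (𝓝 0)

/-- **(N1.c)** [PAR, helper1; 209]: a pattern which is fitted is simple -/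
def PvieFitSimple : Prop :=
  ∀ (x : ℂ) (R : ℝ) (m : ℕ) (ε : ℝ) (ω : PVSample) (P : PvbRim) (s t : PvbPin τ) (π : PvxIx τ), pvxFit 𝔓 x R m ω P s t π → PvieSimple 𝔓 𝔈 m ε π.p

/-- **`n1` FROM ITS THREE HALVES** (Markov for `PvUp`, `PvUp.markov`; on the event `Fit` the centres and types are those of the pattern and both candidates are usable) -/
theorem pvie_n1_of (h1 : PvieChainEq 𝔓 𝔈) (h2 : PvieDom 𝔓 𝔈) (h3 : PvieFitSimple 𝔓 𝔈) : PvieN1 𝔓 𝔈 := by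
  intro x R hR a m π hπ u hu
  have hD := h2 x R hR a m π hπ
  have ht0 : ENNReal.ofReal u ^ 2 ≠ 0 := pow_ne_zero _ (by simpa using hu)
  have htt : ENNReal.ofReal u ^ 2 ≠ ⊤ := ENNReal.pow_ne_top ENNReal.ofReal_ne_top
  have hlim : Tendsto (fun ε => (pvhbUp ε).E (fun q => ⨆ P ∈ pvhbAll x R (pvMerge q), ⨆ s ∈ pvxPins 𝔓 x R m (pvMerge q) P, ⨆ t ∈ pvxPins 𝔓 x R m (pvMerge q) P, ⨆ (_ : pvxFit 𝔓 x R m (pvMerge q) P s t π),
      ‖pvbArcI 𝔓.𝔐 (pvlmH m) P (fun k => P.xQ k - a * P.xV k) s t + pvieHat 𝔓 𝔈 m ε a π.p (pvMerge q)‖ₑ ^ 2) / ENNReal.ofReal u ^ 2) (𝓝[>] (0 : ℝ)) (𝓝 0) := by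
    have := ENNReal.Tendsto.div_const hD (Or.inr ht0)
    simpa using this
  have hP : Tendsto (fun ε => (pvhbUp ε).P {q | ∃ P ∈ pvhbAll x R (pvMerge q), ∃ s ∈ pvxPins 𝔓 x R m (pvMerge q) P, ∃ t ∈ pvxPins 𝔓 x R m (pvMerge q) P, pvxFit 𝔓 x R m (pvMerge q) P s t π ∧
      u < ‖pvbArcI 𝔓.𝔐 (pvlmH m) P (fun k => P.xQ k - a * P.xV k) s t +
        (pvieKout 𝔓 𝔈 m ε a t.ctr t.typ (pvMerge q) + pvtSum (pvieW 𝔈 m ε a) ((𝔓.Γ m).dout π.p.tt) π.p.l + pvieKin 𝔓 𝔈 m ε a s.ctr s.typ (pvMerge q))‖}) (𝓝[>] (0 : ℝ)) (𝓝 0) := by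
    refine tendsto_of_tendsto_of_tendsto_of_le_of_le' tendsto_const_nhds hlim (Eventually.of_forall fun _ => zero_le) ?_
    filter_upwards [h1 m] with ε hε
    refine ((pvhbUp ε).P_mono ?_).trans ((pvhbUp ε).markov _ ht0 htt)
    rintro q ⟨P, hP, s, hs, t, ht, hfit, hu'⟩
    have hfit' := hfit
    obtain ⟨⟨es1, es2⟩, ⟨et1, et2⟩, hUs, hUt, -⟩ := hfit'
    have hch := hε a π.p hπ.1.1 hπ.1.2.2.2.2.2.1 (h3 x R m ε (pvMerge q) P s t π hfit) (pvMerge q) ⟨by rw [← et1, ← et2]; exact hUt, by rw [← es1, ← es2]; exact hUs⟩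
    rw [es1, es2, et1, et2, ← hch] at hu'
    show ENNReal.ofReal u ^ 2 ≤ _
    refine le_trans ?_ (le_iSup₂_of_le P hP (le_iSup₂_of_le s hs (le_iSup₂_of_le t ht (le_iSup_of_le hfit le_rfl))))
    gcongr
    rw [← ofReal_norm_eq_enorm]
    exact ENNReal.ofReal_le_ofReal hu'.le
  have := (ENNReal.tendsto_toReal ENNReal.zero_ne_top).comp hP
  rw [ENNReal.toReal_zero] at this
  exact this

end roofs

theorem pvie_eqns_cite : True := by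
  have := @pvieY.eq_1; have := @pvieT.eq_1; have := @pviePos.eq_1; have := @pvieCol.eq_1; have := @pvieFl.eq_1; have := @pvieSh.eq_1; have := @PviePl.mv.eq_1; have := @pvieU.eq_1; have := @PvxPar.pl.eq_1
  have := @PvieLk.Run.eq_1; have := @PvieLk.A.eq_1; have := @PvieLk.off.eq_1; have := @PvieLk.val.eq_1; have := @pvieFld.eq_1; have := @PvieLk.X.eq_1
  have := @pvieFrO.eq_1; have := @pvieFrI.eq_1; have := @pvieP.eq_1; have := @pvieWt.eq_1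
  have := @pvieZo.eq_1; have := @pvieZi.eq_1; have := @pvieZu.eq_1; have := @pvieDoor.eq_1; have := @pvieGr.eq_1; have := @pvieLo.eq_1; have := @pvieLi.eq_1; have := @pvieLe.eq_1; have := @pvieLr.eq_1
  have := @pvieYo.eq_1; have := @pvieYi.eq_1; have := @pvieYe.eq_1; have := @pvieWo.eq_1; have := @pvieWi.eq_1; have := @pvieWe.eq_1
  have := @pvieKout.eq_1; have := @pvieKin.eq_1; have := @pvieKe.eq_1; have := @pvieW.eq_1; have := @pvieA.eq_1; have := @pvieOr.eq_1; have := @pvieKin0.eq_1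
  have := @pvieTiles.eq_1; have := @PvieSimple.eq_1; have := @pvieCc.eq_1; have := @pvieYfc.eq_1; have := @pvieWc.eq_1; have := @pvieYc.eq_1; have := @pvieHat.eq_1
  have := @PvieN1.eq_1; have := @PvieCyc1.eq_1; have := @PvieThick.eq_1; have := @PvieChainEq.eq_1; have := @PvieDom.eq_1; have := @PvieFitSimple.eq_1
  trivial

end Claimed.Agent.R289
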