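import Claimed.Agent.R289.Tr.ChainE
import Claimed.Agent.R289.Tr.DomY
import Claimed.Agent.R289.Del.GenPos

/-!
# Row 289 (S0537), box TR2-EY, file Tr/ChainY : TR2-E IN THE NAMES OF `Tr/DomY` (`pvdyR pvdyHat pvdyW pvdyQ`)      (helper218; prefix `pvky_`, `pvky`, `Pvky`)

`Tr/ChainE.lean` proves TR1 TR2 TR3 for a chain `t -fo-> door 0 -cells-> door n -fi-> s` ON THE EXPERIMENT SPACE `PvkeX ℂ PvPt = (ℂ → Bool) × Conf PvPt` (seeds of the fresh sites, independent configuration).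
THIS FILE carries the three exits to the functions ON CONFIGURATIONS of ruling 10bis (`kout kin ŷ_c := pvdyHat ..`, weights `pvdyW`), at a FIXED base configuration `ω`.      0 sorry
NO measurability on `Conf PvPt` of the end links is asked, NO pointwise identity in the seeds: everything is asked for ALMOST EVERY seed (a global `DelGood` inside the success event does no harm).

* sec. 1  the colour flip `pvkyFl b` (`= pvieFl b` of 161), `pvkyT b` (measurable equivalence of the experiment space, law preserving): `pvky_lintegral_T`, `pvky_integral_T`, `pvky_measure_T` (ANY function / set).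
* sec. 2  **`pvkyPhi b C yf ω x = pvdyR C yf ω (x.1, fl x.2)`**;   `pvky_reads_phi` (a reader of a region inside `C`, evaluated at `fl (Φ x)`, sees `x.2`);
          **`pvky_R_at`, `pvky_phi_at`** : THE NESTED EXPERIMENT IS AN ATOM: `pvdyR K y (Φ x) (T x') = Φ (pvkeAt (y ω) (K ×ˢ univ) (x, x'))` (`x.2` with one colour per site: a.e., `pvky_ae_one`);
          `pvky_hat_phi`, `pvky_hat_of_ae`, `pvky_lintegral_phi`, `pvky_ae_phi`.
* sec. 3  `PvkyEnd` (tile `K`, fresh sites `y`, success `A`, value `X` ON CONFIGURATIONS),   **`PvkyAg ε b ω C yf e f`** : the funnel `f` REPRESENTS the end link `e` in the experiment `(C, yf)` (a.e. seed: success, value, STOP);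
          **`PvkyAg.Q_ae`** (`pvdyQ` along the experiment = `pvtkE` of the engine), **`PvkyAg.W_ae`** (`pvdyW` along the experiment = `f.w`).
* sec. 4  `pvkyDoor pvkyW1 pvkyK pvkyWc pvkyYc pvkyEv`, the record **`PvkyChain`**, EXITS
          (1) **`PvkyChain.mass`**, `.le_ae`;   (2) **`PvkyChain.hat_eq`** : `pvdyHat ε C yf W_c Y_c ω = pvkyK (out) + pvtSum (kit.W (pvP ε) X₀) d l + pvkyK (in)`;   (3) **`PvkyChain.jensen`**, `.jensen'`.
* sec. 5  the POINTWISE contract `PvkyRd` (the link along the whole experiment reads its seeds, its tile, its door) and the canonical funnel `pvkyFun`: `PvkyRd.ok`, `.ag`, `.loc` (`pvky_phi_sub`: a smaller experiment is a section of the larger one).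
-/

set_option autoImplicit false
set_option linter.unusedSectionVars false

namespace Claimed.Agent.R289

open MeasureTheory ProbabilityTheory Set
open scoped ENNReal

/-! ## 1. the colour flip on the experiment space -/

/-- the configuration seen by the objects typed for BLACK (`= pvieFl` of 161) -/
def pvkyFl (b : Bool) (η : Conf PvPt) : Conf PvPt := if b then η else cfFlip η

theorem pvky_eqns_cite : True := by
  have := @pvkyFl.eq_1
  trivial

theorem pvky_mem_flip {η : Conf PvPt} {p : PvPt} : p ∈ (cfFlip η).pts ↔ (p.1, !p.2) ∈ η.pts := by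
  constructor
  · rintro ⟨q, hq, rfl⟩
    simpa using hq
  · intro h
    exact ⟨(p.1, !p.2), h, by simp⟩

theorem pvky_mem_fl {b : Bool} {η : Conf PvPt} {p : PvPt} : p ∈ (pvkyFl b η).pts ↔ (p.1, p.2 == b) ∈ η.pts := by
  cases b
  · simp [pvkyFl, pvky_mem_flip]
  · simp [pvkyFl]

theorem pvky_fl_fl (b : Bool) (η : Conf PvPt) : pvkyFl b (pvkyFl b η) = η := by
  ext p
  rw [pvky_mem_fl, pvky_mem_fl]
  cases b <;> simp

theorem measurable_pvkyFl (b : Bool) : Measurable (pvkyFl b) := by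
  cases b
  · exact measurable_cfFlip
  · exact measurable_id

theorem pvky_fl_map (b : Bool) (ε : ℝ) : (pvP ε).map (pvkyFl b) = pvP ε := by
  cases b
  · exact pvP_flip ε
  · exact Measure.map_id

theorem pvky_fl_restr (b : Bool) (S : Set ℂ) (η : Conf PvPt) : Conf.restr (S ×ˢ univ) (pvkyFl b η) = pvkyFl b (Conf.restr (S ×ˢ univ) η) := by
  ext p
  simp only [Conf.restr, mem_inter_iff, pvky_mem_fl, mem_prod, mem_univ, and_true]

theorem pvky_fl_R (b : Bool) (K : Set ℂ) (η η' : Conf PvPt) : pvkyFl b (pvtkR (K ×ˢ univ) (η, η')) = pvtkR (K ×ˢ univ) (pvkyFl b η, pvkyFl b η') := by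
  ext p
  simp only [pvtk_mem_R, pvky_mem_fl, mem_prod, mem_univ, and_true]

theorem pvky_fl_one {b : Bool} {η : Conf PvPt} (h : ∀ p ∈ η.pts, ∀ q ∈ η.pts, p.1 = q.1 → p = q) : ∀ p ∈ (pvkyFl b η).pts, ∀ q ∈ (pvkyFl b η).pts, p.1 = q.1 → p = q := by
  intro p hp q hq e
  have := h _ (pvky_mem_fl.1 hp) _ (pvky_mem_fl.1 hq) e
  have h2 : (p.2 == b) = (q.2 == b) := congrArg Prod.snd this
  refine Prod.ext e ?_
  revert h2
  cases p.2 <;> cases q.2 <;> cases b <;> simp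

/-- the flip of the independent configuration, as a measurable equivalence of the experiment space -/
def pvkyT (b : Bool) : PvkeX ℂ PvPt ≃ᵐ PvkeX ℂ PvPt where
  toFun x := (x.1, pvkyFl b x.2)
  invFun x := (x.1, pvkyFl b x.2)
  left_inv x := by simp only [pvky_fl_fl]
  right_inv x := by simp only [pvky_fl_fl]
  measurable_toFun := measurable_fst.prodMk ((measurable_pvkyFl b).comp measurable_snd)
  measurable_invFun := measurable_fst.prodMk ((measurable_pvkyFl b).comp measurable_snd)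

theorem pvky_T_apply (b : Bool) (x : PvkeX ℂ PvPt) : pvkyT b x = (x.1, pvkyFl b x.2) := rfl

theorem pvky_T_T (b : Bool) (x : PvkeX ℂ PvPt) : pvkyT b (pvkyT b x) = x := (pvkyT b).left_inv x

theorem pvky_T_map (b : Bool) (ε : ℝ) : (pvkeLaw ℂ (pvP ε)).map (pvkyT b) = pvkeLaw ℂ (pvP ε) := by
  have := (pv_isPpp ε).prob
  have e : (pvkyT b : PvkeX ℂ PvPt → PvkeX ℂ PvPt) = Prod.map id (pvkyFl b) := rfl
  unfold pvkeLaw
  rw [e, ← Measure.map_prod_map _ _ measurable_id (measurable_pvkyFl b), Measure.map_id, pvky_fl_map]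

theorem pvky_T_at (b : Bool) (U K : Set ℂ) (x x' : PvkeX ℂ PvPt) : pvkyT b (pvkeAt U (K ×ˢ univ) (x, x')) = pvkeAt U (K ×ˢ univ) (pvkyT b x, pvkyT b x') := by
  refine Prod.ext rfl ?_
  exact pvky_fl_R b K x.2 x'.2

theorem pvky_nu_eq (ε : ℝ) : pvdyNu ε = pvkeLaw ℂ (pvP ε) := rfl

/-- change of variables: lower integrals of ANY function -/
theorem pvky_lintegral_T (b : Bool) (ε : ℝ) (F : PvkeX ℂ PvPt → ℝ≥0∞) : ∫⁻ x, F (pvkyT b x) ∂(pvkeLaw ℂ (pvP ε)) = ∫⁻ x, F x ∂(pvkeLaw ℂ (pvP ε)) := by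
  conv_rhs => rw [← pvky_T_map b ε]
  exact (lintegral_map_equiv F (pvkyT b)).symm

theorem pvky_measure_T (b : Bool) (ε : ℝ) (S : Set (PvkeX ℂ PvPt)) : pvkeLaw ℂ (pvP ε) {x | pvkyT b x ∈ S} = pvkeLaw ℂ (pvP ε) S := by
  conv_rhs => rw [← pvky_T_map b ε]
  exact ((pvkyT b).map_apply S).symm

theorem pvky_ae_T (b : Bool) (ε : ℝ) {p : PvkeX ℂ PvPt → Prop} (h : ∀ᵐ x ∂(pvkeLaw ℂ (pvP ε)), p x) : ∀ᵐ x ∂(pvkeLaw ℂ (pvP ε)), p (pvkyT b x) := by
  have : pvkeLaw ℂ (pvP ε) {x | pvkyT b x ∈ {x | ¬ p x}} = 0 := by rw [pvky_measure_T]; exact h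
  exact this

/-- change of variables: weighted means of ANY functions -/
theorem pvky_integral_T (b : Bool) (ε : ℝ) (w : PvkeX ℂ PvPt → ℝ≥0∞) (F : PvkeX ℂ PvPt → ℂ) :
    ∫ x, F (pvkyT b x) ∂((pvkeLaw ℂ (pvP ε)).withDensity fun x => w (pvkyT b x)) = ∫ x, F x ∂((pvkeLaw ℂ (pvP ε)).withDensity w) := by
  have e : ((pvkeLaw ℂ (pvP ε)).withDensity fun x => w (pvkyT b x)).map (pvkyT b) = (pvkeLaw ℂ (pvP ε)).withDensity w := by
    ext s hs
    rw [(pvkyT b).map_apply, withDensity_apply _ hs, withDensity_apply _ ((pvkyT b).measurable hs), ← lintegral_indicator hs, ← lintegral_indicator ((pvkyT b).measurable hs),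
      ← pvky_lintegral_T b ε (s.indicator w)]
    rfl
  rw [← e]
  exact (integral_map_equiv (pvkyT b) F).symm

/-! ## 2. the experiment map at a FIXED base configuration -/

section phi

variable {b : Bool} {C K : Set ℂ} {yf y : Conf PvPt → Set ℂ} {ω : Conf PvPt}

/-- **THE EXPERIMENT MAP** `Φ_ω (κ, η) = R(ω; κ, fl η)` -/
noncomputable def pvkyPhi (b : Bool) (C : Set ℂ) (yf : Conf PvPt → Set ℂ) (ω : Conf PvPt) (x : PvkeX ℂ PvPt) : Conf PvPt := pvdyR C yf ω (pvkyT b x)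

theorem pvky_eqns_cite2 : True := by
  have := @pvkyPhi.eq_1
  trivial

theorem pvky_measurable_phi (b : Bool) (hC : MeasurableSet C) (yf : Conf PvPt → Set ℂ) (hc : (cfSites ω).Countable) : Measurable (pvkyPhi b C yf ω) :=
  (pvdy_measurable_R hC yf hc).comp (pvkyT b).measurable

/-- inside `C` the resampled configuration is the independent one -/
theorem pvky_restr_R {S : Set ℂ} (hS : S ⊆ C) (p : PvkeX ℂ PvPt) : Conf.restr (S ×ˢ univ) (pvdyR C yf ω p) = Conf.restr (S ×ˢ univ) p.2 := by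
  ext q
  have := @hS q.1
  simp only [Conf.restr, mem_inter_iff, pvdy_mem_R, mem_prod, mem_univ, and_true]
  tauto

theorem pvky_restr_phi {S : Set ℂ} (hS : S ⊆ C) (x : PvkeX ℂ PvPt) : Conf.restr (S ×ˢ univ) (pvkyFl b (pvkyPhi b C yf ω x)) = Conf.restr (S ×ˢ univ) x.2 := by
  unfold pvkyPhi
  rw [pvky_fl_restr, pvky_restr_R hS, pvky_T_apply, ← pvky_fl_restr, pvky_fl_fl]

/-- a function which reads a region inside `C` sees the independent configuration -/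
theorem pvky_reads_phi {β : Type*} {W : Set PvPt} {f : Conf PvPt → β} (hf : Conf.Reads W f) (hW : W ⊆ C ×ˢ univ) (x : PvkeX ℂ PvPt) : f (pvkyFl b (pvkyPhi b C yf ω x)) = f x.2 :=
  (hf.mono hW).congr (pvky_restr_phi subset_rfl x)

/-- **THE NESTED EXPERIMENT IS AN ATOM OF THE SEEDS** (no flip) -/
theorem pvky_R_at (hK : K ⊆ C) (hy : y ω ⊆ yf ω) (hyC : Disjoint (y ω) C) {x : PvkeX ℂ PvPt} (h1 : ∀ p ∈ x.2.pts, ∀ q ∈ x.2.pts, p.1 = q.1 → p = q)
    (hst : ∀ z ∈ cfSites (pvdyR C yf ω x), z ∉ K → (z ∈ y (pvdyR C yf ω x) ↔ z ∈ y ω)) (x' : PvkeX ℂ PvPt) :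
    pvdyR K y (pvdyR C yf ω x) x' = pvdyR C yf ω (pvkeAt (y ω) (K ×ˢ univ) (x, x')) := by
  classical
  ext p
  obtain ⟨z, c⟩ := p
  rw [pvdy_mem_R, pvdy_mem_R, pvke_at_fst, pvke_at_snd, pvtk_mem_R]
  simp only [mem_prod, mem_univ, and_true]
  by_cases hzK : z ∈ K
  · have hzC := hK hzK
    simp only [hzK, hzC, not_true_eq_false, false_and, true_and, and_false, false_or, and_true]
  by_cases hzC : z ∈ C
  · have hs : z ∈ cfSites (pvdyR C yf ω x) ↔ z ∈ cfSites x.2 := by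
      rw [pvdy_sites_R]
      simp only [mem_union, mem_sdiff, mem_inter_iff, hzC, not_true_eq_false, and_false, and_true, false_or]
    have hcol : cfCol (pvdyR C yf ω x) z = decide ((z, true) ∈ x.2.pts) := by
      unfold cfCol
      congr 1
      rw [pvdy_mem_R]
      simp only [hzC, not_true_eq_false, false_and, true_and, false_or]
    simp only [hzK, hzC, not_true_eq_false, not_false_eq_true, false_and, true_and, and_false, false_or, and_true, or_false]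
    constructor
    · rintro ⟨h2, h3⟩
      have hny : z ∉ y (pvdyR C yf ω x) := fun hh => Set.disjoint_left.1 hyC ((hst z h2 hzK).1 hh) hzC
      rw [pvfqMix_of_notMem hny] at h3
      change c = cfCol (pvdyR C yf ω x) z at h3
      rw [hcol] at h3
      obtain ⟨⟨z', c'⟩, hq, rfl⟩ := hs.1 h2
      by_cases ht : ((z', true) : PvPt) ∈ x.2.pts
      · rw [h3, decide_eq_true ht]; exact ht
      · rw [h3, decide_eq_false ht]
        cases c'
        · exact hq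
        · exact absurd hq ht
    · intro hq
      have h2 : z ∈ cfSites (pvdyR C yf ω x) := hs.2 ⟨(z, c), hq, rfl⟩
      have hny : z ∉ y (pvdyR C yf ω x) := fun hh => Set.disjoint_left.1 hyC ((hst z h2 hzK).1 hh) hzC
      refine ⟨h2, ?_⟩
      rw [pvfqMix_of_notMem hny]
      change c = cfCol (pvdyR C yf ω x) z
      rw [hcol]
      cases c
      · symm
        rw [decide_eq_false_iff_not]
        intro ht
        have := h1 _ hq _ ht rfl
        simp at this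
      · exact (decide_eq_true hq).symm
  · have hs : z ∈ cfSites (pvdyR C yf ω x) ↔ z ∈ cfSites ω := by
      rw [pvdy_sites_R]
      simp only [mem_union, mem_sdiff, mem_inter_iff, hzC, not_false_eq_true, and_true, and_false, or_false]
    simp only [hzK, hzC, not_false_eq_true, false_and, true_and, or_false, hs]
    refine and_congr_right fun h2 => ?_
    have e : pvfqMix (y (pvdyR C yf ω x)) (x'.1, cfCol (pvdyR C yf ω x)) z = pvfqMix (yf ω) (pvtuBlk (y ω) (x.1, x'.1), cfCol ω) z := by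
      by_cases h3 : z ∈ y ω
      · rw [pvfqMix_of_mem ((hst z (hs.2 h2) hzK).2 h3), pvfqMix_of_mem (hy h3)]
        exact (pvtu_blk_mem h3 x.1 x'.1).symm
      · rw [pvfqMix_of_notMem (fun hh => h3 ((hst z (hs.2 h2) hzK).1 hh))]
        change cfCol (pvdyR C yf ω x) z = _
        rw [pvdy_cfCol_R yf x h2 hzC]
        by_cases h4 : z ∈ yf ω
        · rw [pvfqMix_of_mem h4, pvfqMix_of_mem h4]
          exact (pvtu_blk_notMem h3 x.1 x'.1).symm
        · rw [pvfqMix_of_notMem h4, pvfqMix_of_notMem h4]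
    rw [e]

/-- **THE NESTED EXPERIMENT IS AN ATOM OF THE SEEDS** -/
theorem pvky_phi_at (hK : K ⊆ C) (hy : y ω ⊆ yf ω) (hyC : Disjoint (y ω) C) {x : PvkeX ℂ PvPt} (h1 : ∀ p ∈ x.2.pts, ∀ q ∈ x.2.pts, p.1 = q.1 → p = q)
    (hst : ∀ z ∈ cfSites (pvkyPhi b C yf ω x), z ∉ K → (z ∈ y (pvkyPhi b C yf ω x) ↔ z ∈ y ω)) (x' : PvkeX ℂ PvPt) :
    pvdyR K y (pvkyPhi b C yf ω x) (pvkyT b x') = pvkyPhi b C yf ω (pvkeAt (y ω) (K ×ˢ univ) (x, x')) := by
  unfold pvkyPhi at hst ⊢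
  rw [pvky_T_at]
  exact pvky_R_at hK hy hyC (pvky_fl_one h1) hst _

/-- `ŷ` as a weighted mean over the experiment map -/
theorem pvky_hat_phi (b : Bool) (ε : ℝ) (C : Set ℂ) (yf : Conf PvPt → Set ℂ) (w : Conf PvPt → ℝ≥0∞) (Y : Conf PvPt → ℂ) (ω : Conf PvPt) :
    pvdyHat ε C yf w Y ω = ∫ x, Y (pvkyPhi b C yf ω x) ∂((pvkeLaw ℂ (pvP ε)).withDensity fun x => w (pvkyPhi b C yf ω x)) := by
  rw [pvdy_hat_eq]
  exact (pvky_integral_T b ε (fun p => w (pvdyR C yf ω p)) (fun p => Y (pvdyR C yf ω p))).symm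

/-- `ŷ` from a.e. identifications on the experiment space -/
theorem pvky_hat_of_ae (b : Bool) (ε : ℝ) (C : Set ℂ) (yf : Conf PvPt → Set ℂ) {w : Conf PvPt → ℝ≥0∞} {Y : Conf PvPt → ℂ} (ω : Conf PvPt) {w' : PvkeX ℂ PvPt → ℝ≥0∞} {Y' : PvkeX ℂ PvPt → ℂ}
    (hw : ∀ᵐ x ∂(pvkeLaw ℂ (pvP ε)), w (pvkyPhi b C yf ω x) = w' x) (hY : ∀ᵐ x ∂(pvkeLaw ℂ (pvP ε)), Y (pvkyPhi b C yf ω x) = Y' x) :
    pvdyHat ε C yf w Y ω = ∫ x, Y' x ∂((pvkeLaw ℂ (pvP ε)).withDensity w') := by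
  rw [pvky_hat_phi b, withDensity_congr_ae hw]
  exact integral_congr_ae ((withDensity_absolutelyContinuous _ _).ae_le hY)

theorem pvky_lintegral_phi (b : Bool) (ε : ℝ) (C : Set ℂ) (yf : Conf PvPt → Set ℂ) (F : Conf PvPt → ℝ≥0∞) (ω : Conf PvPt) :
    ∫⁻ p, F (pvdyR C yf ω p) ∂pvdyNu ε = ∫⁻ x, F (pvkyPhi b C yf ω x) ∂(pvkeLaw ℂ (pvP ε)) :=
  (pvky_lintegral_T b ε fun p => F (pvdyR C yf ω p)).symm

theorem pvky_ae_phi (b : Bool) (ε : ℝ) (C : Set ℂ) (yf : Conf PvPt → Set ℂ) {P : Conf PvPt → Prop} (ω : Conf PvPt) (h : ∀ᵐ x ∂(pvkeLaw ℂ (pvP ε)), P (pvkyPhi b C yf ω x)) :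
    ∀ᵐ p ∂pvdyNu ε, P (pvdyR C yf ω p) := by
  have := pvky_ae_T b ε h
  unfold pvkyPhi at this
  simp only [pvky_T_T] at this
  exact this

/-- almost every independent configuration has one colour per site -/
theorem pvky_ae_one (ε : ℝ) : ∀ᵐ x ∂(pvkeLaw ℂ (pvP ε)), ∀ p ∈ x.2.pts, ∀ q ∈ x.2.pts, p.1 = q.1 → p = q := by
  have := (pv_isPpp ε).prob
  have h : ∀ᵐ η ∂(pvP ε), ∀ p ∈ η.pts, ∀ q ∈ η.pts, p.1 = q.1 → p = q := (delgp_ae_conf ε).mono fun _ h => h.2.2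
  unfold pvkeLaw
  exact Measure.quasiMeasurePreserving_snd.ae h

end phi

/-! ## 3. an end link: the side of the configurations, the side of the experiment -/

/-- an END LINK on the side of the configurations: resampled tile, fresh sites, success, value -/
structure PvkyEnd where
  K : Set ℂ
  y : Conf PvPt → Set ℂ
  A : Set (Conf PvPt)
  X : Conf PvPt → ℂ

/-- **the funnel `f` REPRESENTS the end link `e` in the experiment `(C, yf)` at the base configuration `ω`**: for ALMOST EVERY seed, success and value agree, and the fresh sites are those of `ω` (STOP) -/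
structure PvkyAg (ε : ℝ) (b : Bool) (ω : Conf PvPt) (C : Set ℂ) (yf : Conf PvPt → Set ℂ) (e : PvkyEnd) (f : PvkeFun ℂ) : Prop where
  U_eq : f.U = e.y ω
  K_eq : f.K = e.K ×ˢ univ
  sub : e.K ⊆ C
  ysub : e.y ω ⊆ yf ω
  yC : Disjoint (e.y ω) C
  ae : ∀ᵐ x ∂(pvkeLaw ℂ (pvP ε)), (pvkyPhi b C yf ω x ∈ e.A ↔ x ∈ f.A) ∧ e.X (pvkyPhi b C yf ω x) = f.X x ∧
    ∀ z ∈ cfSites (pvkyPhi b C yf ω x), z ∉ e.K → (z ∈ e.y (pvkyPhi b C yf ω x) ↔ z ∈ e.y ω)

section agree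

variable {ε : ℝ} {b : Bool} {ω : Conf PvPt} {C : Set ℂ} {yf : Conf PvPt → Set ℂ} {e : PvkyEnd} {f : PvkeFun ℂ}

/-- the conditional probability of 193 along the experiment = the conditional expectation of the engine -/
theorem PvkyAg.Q_ae (h : PvkyAg ε b ω C yf e f) (mK : MeasurableSet f.K) (mA : MeasurableSet f.A) :
    ∀ᵐ x ∂(pvkeLaw ℂ (pvP ε)), pvdyQ ε e.K e.y e.A (pvkyPhi b C yf ω x) = pvtkE (pvkeLaw ℂ (pvP ε)) (pvkeAt f.U f.K) (f.A.indicator 1) x := by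
  have := (pv_isPpp ε).prob
  have rs : PvtkRs (pvkeLaw ℂ (pvP ε)) (pvkeAt f.U f.K) := pvke_rs_at (pv_isPpp ε) f.U mK
  have h2 : ∀ᵐ x ∂(pvkeLaw ℂ (pvP ε)), ∀ᵐ x' ∂(pvkeLaw ℂ (pvP ε)), (pvkyPhi b C yf ω (pvkeAt f.U f.K (x, x')) ∈ e.A ↔ pvkeAt f.U f.K (x, x') ∈ f.A) := by
    have hq : Measure.QuasiMeasurePreserving (pvkeAt f.U f.K) ((pvkeLaw ℂ (pvP ε)).prod (pvkeLaw ℂ (pvP ε))) (pvkeLaw ℂ (pvP ε)) :=
      ⟨rs.meas, by rw [rs.law]⟩
    exact Measure.ae_ae_of_ae_prod (hq.ae (h.ae.mono fun _ hx => hx.1))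
  filter_upwards [h.ae, h2, pvky_ae_one ε] with x hx hx2 h1
  unfold pvdyQ pvtkE
  rw [pvky_nu_eq, ← pvky_measure_T b ε]
  have e1 : {x' | pvkyT b x' ∈ {p | pvdyR e.K e.y (pvkyPhi b C yf ω x) p ∈ e.A}} = {x' | pvkyPhi b C yf ω (pvkeAt f.U f.K (x, x')) ∈ e.A} := by
    ext x'
    simp only [mem_ofPred_eq]
    rw [pvky_phi_at h.sub h.ysub h.yC h1 hx.2.2 x', h.U_eq, h.K_eq]
  have e2 : ({x' | pvkyPhi b C yf ω (pvkeAt f.U f.K (x, x')) ∈ e.A} : Set (PvkeX ℂ PvPt)) =ᵐ[pvkeLaw ℂ (pvP ε)] {x' | pvkeAt f.U f.K (x, x') ∈ f.A} :=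
    Filter.eventuallyEq_set.2 hx2
  have m3 : MeasurableSet {x' | pvkeAt f.U f.K (x, x') ∈ f.A} := (rs.meas.comp measurable_prodMk_left) mA
  rw [e1, measure_congr e2, ← lintegral_indicator_one m3]
  rfl

/-- **the weight `1_A / P(A | kept)` of 193 along the experiment = the weight of the funnel** -/
theorem PvkyAg.W_ae (h : PvkyAg ε b ω C yf e f) (mK : MeasurableSet f.K) (mA : MeasurableSet f.A) :
    ∀ᵐ x ∂(pvkeLaw ℂ (pvP ε)), pvdyW ε e.K e.y e.A (pvkyPhi b C yf ω x) = f.w (pvP ε) x := by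
  filter_upwards [h.ae, h.Q_ae mK mA] with x hx hq
  unfold pvdyW PvkeFun.w pvtkW
  rw [hq]
  congr 1
  by_cases hA : x ∈ f.A
  · rw [indicator_of_mem hA, indicator_of_mem (hx.1.2 hA)]; rfl
  · rw [indicator_of_notMem hA, indicator_of_notMem fun hh => hA (hx.1.1 hh)]

end agree

/-! ## 4. the chain: TR1, TR2, TR3 in the names of `Tr/DomY` -/

section defs

variable (kit : PvthKit) (ε : ℝ) (b : Bool) (z d : ℂ) (l : List PvtTurn) (eo ei : PvkyEnd)

/-- the region of the door plug placed at `(z, d)` -/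
def pvkyDoor (z d : ℂ) : Set ℂ := pvthSim z d '' kit.O₀

/-- the weight of an end link with its door plug at `(z, d)`: `1_G / μ(G) * 1_A / P(A | kept)` -/
noncomputable def pvkyW1 (e : PvkyEnd) (z d : ℂ) (η : Conf PvPt) : ℝ≥0∞ := kit.g (pvP ε) z d (pvkyFl b η) * pvdyW ε e.K e.y e.A η

/-- **`κ_out`, `κ_in`** in the form of ruling 10bis: `pvdyHat` of the end link in its OWN experiment (tile + door plug, fresh sites of the mouth) -/
noncomputable def pvkyK (e : PvkyEnd) (z d : ℂ) (ω : Conf PvPt) : ℂ := pvdyHat ε (e.K ∪ pvkyDoor kit z d) e.y (pvkyW1 kit ε b e z d) e.X ω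

/-- **`W_c`** on configurations -/
noncomputable def pvkyWc (η : Conf PvPt) : ℝ≥0∞ :=
  pvdyW ε eo.K eo.y eo.A η * kit.Wt (pvP ε) z d l (pvkyFl b η) * pvkyW1 kit ε b ei (pvthZ kit.δ z d l l.length) (pvthD d l l.length) η

/-- **`Y_c`** on configurations -/
noncomputable def pvkyYc (X₀ : PvtTurn → Conf PvPt → ℂ) (η : Conf PvPt) : ℂ := eo.X η + kit.Y X₀ z d l (pvkyFl b η) + ei.X η

/-- all the door plugs usable, all the links successful -/
def pvkyEv : Set (Conf PvPt) :=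
  {η | (∀ j ≤ l.length, pvkyFl b η ∈ kit.G (pvthZ kit.δ z d l j) (pvthD d l j)) ∧ (∀ j < l.length, pvkyFl b η ∈ kit.A (pvthZ kit.δ z d l j) (pvthD d l j) (pvthL l j)) ∧ η ∈ ei.A ∧ η ∈ eo.A}

end defs

theorem pvky_eqns_cite3 : True := by
  have := @pvkyDoor.eq_1; have := @pvkyW1.eq_1; have := @pvkyK.eq_1; have := @pvkyWc.eq_1; have := @pvkyYc.eq_1; have := @pvkyEv.eq_1
  trivial

/-- **ALL THE HYPOTHESES ON A CHAIN AT A FIXED BASE CONFIGURATION `ω`**: the chain record of `Tr/ChainE` for two funnels `fo fi` on the experiment space, which represent the end links `eo ei` in the experiment of the whole chain AND in their own experiments -/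
structure PvkyChain (kit : PvthKit) (ε : ℝ) (b : Bool) (X₀ : PvtTurn → Conf PvPt → ℂ) (z d : ℂ) (l : List PvtTurn) (ω : Conf PvPt) (C : Set ℂ) (yf : Conf PvPt → Set ℂ)
    (eo ei : PvkyEnd) (fo fi : PvkeFun ℂ) (β' q qo qi : ℝ≥0∞) : Prop where
  ch : PvkeChain kit ε X₀ z d l fo fi β' q qo qi
  CO : ∀ j ≤ l.length, pvkeO kit z d l j ⊆ C ×ˢ univ
  CK : ∀ j < l.length, pvkeK kit z d l j ⊆ C ×ˢ univ
  ag_o : PvkyAg ε b ω C yf eo fo
  ag_i : PvkyAg ε b ω C yf ei fi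
  loc_o : PvkyAg ε b ω (eo.K ∪ pvkyDoor kit z d) eo.y eo fo
  loc_i : PvkyAg ε b ω (ei.K ∪ pvkyDoor kit (pvthZ kit.δ z d l l.length) (pvthD d l l.length)) ei.y ei fi

namespace PvkyChain

variable {kit : PvthKit} {ε : ℝ} {b : Bool} {X₀ : PvtTurn → Conf PvPt → ℂ} {z d : ℂ} {l : List PvtTurn} {ω : Conf PvPt} {C : Set ℂ} {yf : Conf PvPt → Set ℂ}
  {eo ei : PvkyEnd} {fo fi : PvkeFun ℂ} {β' q qo qi : ℝ≥0∞} (H : PvkyChain kit ε b X₀ z d l ω C yf eo ei fo fi β' q qo qi)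
include H

theorem g_phi {j : ℕ} (hj : j ≤ l.length) (x : PvkeX ℂ PvPt) :
    kit.g (pvP ε) (pvthZ kit.δ z d l j) (pvthD d l j) (pvkyFl b (pvkyPhi b C yf ω x)) = kit.g (pvP ε) (pvthZ kit.δ z d l j) (pvthD d l j) x.2 :=
  pvky_reads_phi (pvth_g_reads H.ch.wf (pvP ε) _ _ (pvthx_D_ne H.ch.dir l j)) (H.CO j hj) x

theorem G_phi {j : ℕ} (hj : j ≤ l.length) (x : PvkeX ℂ PvPt) :
    (pvkyFl b (pvkyPhi b C yf ω x) ∈ kit.G (pvthZ kit.δ z d l j) (pvthD d l j)) = (x.2 ∈ kit.G (pvthZ kit.δ z d l j) (pvthD d l j)) :=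
  pvky_reads_phi (pvth_rG H.ch.wf _ _ (pvthx_D_ne H.ch.dir l j)) (H.CO j hj) x

theorem cell_sub {j : ℕ} (hj : j < l.length) :
    kit.OO (pvthZ kit.δ z d l j) (pvthD d l j) (pvthL l j) ∪ kit.K (pvthZ kit.δ z d l j) (pvthD d l j) (pvthL l j) ⊆ C ×ˢ univ := by
  rw [pvke_OO_eq kit z d l hj]
  exact union_subset (union_subset (H.CO j hj.le) (H.CO (j + 1) hj)) (H.CK j hj)

theorem w_phi {j : ℕ} (hj : j < l.length) (x : PvkeX ℂ PvPt) :
    kit.w (pvP ε) (pvthZ kit.δ z d l j) (pvthD d l j) (pvthL l j) (pvkyFl b (pvkyPhi b C yf ω x)) = kit.w (pvP ε) (pvthZ kit.δ z d l j) (pvthD d l j) (pvthL l j) x.2 :=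
  pvky_reads_phi (pvth_w_reads H.ch.wf (pvP ε) _ _ (pvthx_D_ne H.ch.dir l j) _) (H.cell_sub hj) x

theorem A_phi {j : ℕ} (hj : j < l.length) (x : PvkeX ℂ PvPt) :
    (pvkyFl b (pvkyPhi b C yf ω x) ∈ kit.A (pvthZ kit.δ z d l j) (pvthD d l j) (pvthL l j)) = (x.2 ∈ kit.A (pvthZ kit.δ z d l j) (pvthD d l j) (pvthL l j)) :=
  pvky_reads_phi (pvth_rA H.ch.wf _ _ (pvthx_D_ne H.ch.dir l j) _) (H.cell_sub hj) x

theorem X_phi {j : ℕ} (hj : j < l.length) (x : PvkeX ℂ PvPt) : kit.Xj X₀ z d l j (pvkyFl b (pvkyPhi b C yf ω x)) = kit.Xj X₀ z d l j x.2 :=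
  pvky_reads_phi (pvth_X_reads H.ch.fld _ (pvthx_D_ne H.ch.dir l j) _) (H.cell_sub hj) x

/-- `W_c` along the experiment is the weight of `Tr/ChainE` -/
theorem Wc_ae : ∀ᵐ x ∂(pvkeLaw ℂ (pvP ε)), pvkyWc kit ε b z d l eo ei (pvkyPhi b C yf ω x) = pvkeWt kit z d l fo fi (pvP ε) x := by
  filter_upwards [H.ag_o.W_ae H.ch.ok_o.mK H.ch.ok_o.mA, H.ag_i.W_ae H.ch.ok_i.mK H.ch.ok_i.mA] with x ho hi
  unfold pvkyWc pvkyW1 pvkeWt PvthKit.Wt
  rw [ho, hi, H.g_phi le_rfl, Finset.prod_range_succ, Finset.prod_mul_distrib]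
  rw [Finset.prod_congr rfl fun j hj => H.g_phi (Finset.mem_range.1 hj).le x, Finset.prod_congr rfl fun j hj => H.w_phi (Finset.mem_range.1 hj) x]
  ring

/-- `Y_c` along the experiment is the closing sum of `Tr/ChainE` -/
theorem Yc_ae : ∀ᵐ x ∂(pvkeLaw ℂ (pvP ε)), pvkyYc kit b z d l eo ei X₀ (pvkyPhi b C yf ω x) = pvkeY kit z d l fo fi X₀ x := by
  filter_upwards [H.ag_o.ae, H.ag_i.ae] with x ho hi
  unfold pvkyYc pvkeY PvthKit.Y
  rw [ho.2.1, hi.2.1, Finset.sum_congr rfl fun j hj => H.X_phi (Finset.mem_range.1 hj) x]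
  ring

theorem Ev_ae : ∀ᵐ x ∂(pvkeLaw ℂ (pvP ε)), (pvkyPhi b C yf ω x ∈ pvkyEv kit b z d l eo ei ↔ x ∈ pvkeEv kit z d l fo fi) := by
  filter_upwards [H.ag_o.ae, H.ag_i.ae] with x ho hi
  unfold pvkyEv pvkeEv
  simp only [mem_ofPred_eq]
  rw [ho.1, hi.1]
  refine and_congr (forall₂_congr fun j hj => by rw [H.G_phi hj]) (and_congr_left fun _ => forall₂_congr fun j hj => by rw [H.A_phi hj])

theorem d_ne : d ≠ 0 := pvth_ne_zero (pvth_norm_of_pow H.ch.dir)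

/-- `κ_out` of ruling 10bis is the mean of the funnel `fo` -/
theorem K_out : pvkyK kit ε b eo z d ω = fo.k kit (pvP ε) (pvthZ kit.δ z d l 0) (pvthD d l 0) := by
  rw [pvthx_Z_zero, pvthx_D_zero]
  unfold pvkyK PvkeFun.k
  refine pvky_hat_of_ae b ε _ _ ω ?_ (H.loc_o.ae.mono fun _ h => h.2.1)
  filter_upwards [H.loc_o.W_ae H.ch.ok_o.mK H.ch.ok_o.mA] with x hx
  unfold pvkyW1
  have hs : kit.O z d ⊆ (eo.K ∪ pvkyDoor kit z d) ×ˢ univ := prod_mono subset_union_right subset_rfl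
  rw [hx, pvky_reads_phi (pvth_g_reads H.ch.wf (pvP ε) z d H.d_ne) hs x]

/-- `κ_in` of ruling 10bis is the mean of the funnel `fi` -/
theorem K_in : pvkyK kit ε b ei (pvthZ kit.δ z d l l.length) (pvthD d l l.length) ω = fi.k kit (pvP ε) (pvthZ kit.δ z d l l.length) (pvthD d l l.length) := by
  unfold pvkyK PvkeFun.k
  refine pvky_hat_of_ae b ε _ _ ω ?_ (H.loc_i.ae.mono fun _ h => h.2.1)
  filter_upwards [H.loc_i.W_ae H.ch.ok_i.mK H.ch.ok_i.mA] with x hx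
  unfold pvkyW1
  have hs : kit.O (pvthZ kit.δ z d l l.length) (pvthD d l l.length) ⊆ (ei.K ∪ pvkyDoor kit (pvthZ kit.δ z d l l.length) (pvthD d l l.length)) ×ˢ univ :=
    prod_mono subset_union_right subset_rfl
  rw [hx, pvky_reads_phi (pvth_g_reads H.ch.wf (pvP ε) _ _ (pvthx_D_ne H.ch.dir l l.length)) hs x]

/-- **TR2-E, EXIT (2)**: `ŷ_c = κ_out + pvtSum W d l + κ_in`, EXACT, at the base configuration `ω`, all three means in the form `pvdyHat` -/
theorem hat_eq : pvdyHat ε C yf (pvkyWc kit ε b z d l eo ei) (pvkyYc kit b z d l eo ei X₀) ω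
    = pvkyK kit ε b eo z d ω + pvtSum (kit.W (pvP ε) X₀) d l + pvkyK kit ε b ei (pvthZ kit.δ z d l l.length) (pvthD d l l.length) ω := by
  rw [pvky_hat_of_ae b ε C yf ω H.Wc_ae H.Yc_ae, H.ch.mean, H.K_out, H.K_in]
  rfl

/-- **TR1, EXIT (1)**: `W_c` has mass one under the experiment -/
theorem mass : ∫⁻ p, pvkyWc kit ε b z d l eo ei (pvdyR C yf ω p) ∂pvdyNu ε = 1 := by
  rw [pvky_lintegral_phi b, lintegral_congr_ae H.Wc_ae, H.ch.mass]

/-- **TR1**: `W_c ≤ D_c 1_Ev` along the experiment -/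
theorem le_ae : ∀ᵐ p ∂pvdyNu ε, pvkyWc kit ε b z d l eo ei (pvdyR C yf ω p) ≤ pvkeD kit (pvP ε) l.length q qo qi * (pvkyEv kit b z d l eo ei).indicator 1 (pvdyR C yf ω p) := by
  refine pvky_ae_phi b ε C yf (P := fun η => pvkyWc kit ε b z d l eo ei η ≤ pvkeD kit (pvP ε) l.length q qo qi * (pvkyEv kit b z d l eo ei).indicator 1 η) ω ?_
  filter_upwards [H.Wc_ae, H.Ev_ae] with x h1 h2
  rw [h1]
  refine (H.ch.le x).trans (le_of_eq ?_)
  congr 1
  by_cases hx : x ∈ pvkeEv kit z d l fo fi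
  · rw [indicator_of_mem hx, indicator_of_mem (h2.2 hx)]; rfl
  · rw [indicator_of_notMem hx, indicator_of_notMem fun hh => hx (h2.1 hh)]

/-- **TR3, EXIT (3)** (field `jen` of `PvdmSys.Hyp` with `S.w := D_c 1_Ev`; `x₀ = X(D)`) -/
theorem jensen (x₀ : ℂ) : ‖x₀ + pvdyHat ε C yf (pvkyWc kit ε b z d l eo ei) (pvkyYc kit b z d l eo ei X₀) ω‖ₑ ^ 2 ≤ pvkeD kit (pvP ε) l.length q qo qi *
    ∫⁻ p, ‖x₀ + pvkyYc kit b z d l eo ei X₀ (pvdyR C yf ω p)‖ₑ ^ 2 * (pvkyEv kit b z d l eo ei).indicator 1 (pvdyR C yf ω p) ∂pvdyNu ε := by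
  rw [pvky_hat_of_ae b ε C yf ω H.Wc_ae H.Yc_ae, H.ch.mean,
    pvky_lintegral_phi b ε C yf (fun η => ‖x₀ + pvkyYc kit b z d l eo ei X₀ η‖ₑ ^ 2 * (pvkyEv kit b z d l eo ei).indicator 1 η)]
  refine (H.ch.jensen x₀).trans (le_of_eq ?_)
  congr 1
  refine lintegral_congr_ae ?_
  filter_upwards [H.Yc_ae, H.Ev_ae] with x h1 h2
  rw [h1]
  congr 1
  by_cases hx : x ∈ pvkeEv kit z d l fo fi
  · rw [indicator_of_mem hx, indicator_of_mem (h2.2 hx)]; rfl
  · rw [indicator_of_notMem hx, indicator_of_notMem fun hh => hx (h2.1 hh)]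

/-- the same with the normal form of the mean -/
theorem jensen' (x₀ : ℂ) : ‖x₀ + (pvkyK kit ε b eo z d ω + pvtSum (kit.W (pvP ε) X₀) d l + pvkyK kit ε b ei (pvthZ kit.δ z d l l.length) (pvthD d l l.length) ω)‖ₑ ^ 2 ≤
    pvkeD kit (pvP ε) l.length q qo qi * ∫⁻ p, ‖x₀ + pvkyYc kit b z d l eo ei X₀ (pvdyR C yf ω p)‖ₑ ^ 2 * (pvkyEv kit b z d l eo ei).indicator 1 (pvdyR C yf ω p) ∂pvdyNu ε := by
  rw [← H.hat_eq]
  exact H.jensen x₀

end PvkyChain

/-! ## 5. the canonical funnel of an end link which READS its own coordinates (pointwise contract) -/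

/-- the canonical funnel: success and value of the end link along the experiment of the whole chain -/
noncomputable def pvkyFun (b : Bool) (C : Set ℂ) (yf : Conf PvPt → Set ℂ) (ω : Conf PvPt) (e : PvkyEnd) : PvkeFun ℂ where
  U := e.y ω
  K := e.K ×ˢ univ
  A := {x | pvkyPhi b C yf ω x ∈ e.A}
  X := fun x => e.X (pvkyPhi b C yf ω x)

/-- **THE MODEL INPUT ON AN END LINK, pointwise form**: at the FIXED base configuration `ω`, along the experiment of the whole chain, the success and the value of the link are measurable functions of the seeds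
which read the seeds of the fresh sites `e.y ω`, the tile `e.K` and the door region `D` only;   the fresh sites are not changed by the experiment (STOP) -/
structure PvkyRd (b : Bool) (ω : Conf PvPt) (C : Set ℂ) (yf : Conf PvPt → Set ℂ) (e : PvkyEnd) (D : Set ℂ) : Prop where
  mK : MeasurableSet e.K
  sub : e.K ∪ D ⊆ C
  ysub : e.y ω ⊆ yf ω
  yC : Disjoint (e.y ω) C
  mA : MeasurableSet {x | pvkyPhi b C yf ω x ∈ e.A}
  mX : Measurable fun x => e.X (pvkyPhi b C yf ω x)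
  rA : PvkeRd (e.y ω) ((e.K ∪ D) ×ˢ univ) fun x => pvkyPhi b C yf ω x ∈ e.A
  rX : PvkeRd (e.y ω) ((e.K ∪ D) ×ˢ univ) fun x => e.X (pvkyPhi b C yf ω x)
  stop : ∀ x, ∀ z ∈ cfSites (pvkyPhi b C yf ω x), z ∉ e.K → (z ∈ e.y (pvkyPhi b C yf ω x) ↔ z ∈ e.y ω)

theorem pvky_eqns_cite4 : True := by
  have := @pvkyFun.eq_1
  trivial

section canon

variable {b : Bool} {ω : Conf PvPt} {C : Set ℂ} {yf : Conf PvPt → Set ℂ} {e : PvkyEnd} {D : Set ℂ}

/-- **a smaller experiment is a section of the larger one** -/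
theorem pvky_phi_sub {C' : Set ℂ} {y : Conf PvPt → Set ℂ} (hC : C' ⊆ C) (hy : y ω ⊆ yf ω) (x : PvkeX ℂ PvPt) :
    pvkyPhi b C' y ω x = pvkyPhi b C yf ω (pvfqMix (y ω) (x.1, cfCol ω), pvkyFl b (pvkyPhi b C' y ω x)) := by
  conv_rhs => unfold pvkyPhi
  rw [pvky_T_apply, pvky_fl_fl]
  ext p
  rw [pvdy_mem_R]
  by_cases hp : p.1 ∈ C
  · simp only [hp, not_true_eq_false, false_and, true_and, false_or]
    rfl
  · have hp' : p.1 ∉ C' := fun h => hp (hC h)
    simp only [hp, not_false_eq_true, true_and, false_and, or_false]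
    unfold pvkyPhi
    rw [pvdy_mem_R]
    simp only [hp', not_false_eq_true, true_and, false_and, or_false]
    refine and_congr_right fun _ => ?_
    have e1 : pvfqMix (y ω) ((pvkyT b x).1, cfCol ω) p.1 = pvfqMix (yf ω) (pvfqMix (y ω) (x.1, cfCol ω), cfCol ω) p.1 := by
      by_cases h1 : p.1 ∈ yf ω
      · rw [pvfqMix_of_mem h1]; rfl
      · rw [pvfqMix_of_notMem h1, pvfqMix_of_notMem fun h => h1 (hy h)]
    rw [e1]

theorem PvkyRd.ok (h : PvkyRd b ω C yf e D) : (pvkyFun b C yf ω e).Ok (D ×ˢ univ) where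
  mK := h.mK.prod MeasurableSet.univ
  mA := h.mA
  mX := h.mX
  rA := by
    have := h.rA
    rwa [union_prod] at this
  rX := by
    have := h.rX
    rwa [union_prod] at this

theorem PvkyRd.ag (h : PvkyRd b ω C yf e D) (ε : ℝ) : PvkyAg ε b ω C yf e (pvkyFun b C yf ω e) where
  U_eq := rfl
  K_eq := rfl
  sub := subset_union_left.trans h.sub
  ysub := h.ysub
  yC := h.yC
  ae := Filter.Eventually.of_forall fun x => ⟨Iff.rfl, rfl, h.stop x⟩

theorem PvkyRd.loc (h : PvkyRd b ω C yf e D) (ε : ℝ) : PvkyAg ε b ω (e.K ∪ D) e.y e (pvkyFun b C yf ω e) where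
  U_eq := rfl
  K_eq := rfl
  sub := subset_union_left
  ysub := subset_rfl
  yC := h.yC.mono_right h.sub
  ae := Filter.Eventually.of_forall fun x => by
    have e1 := pvky_phi_sub (b := b) (ω := ω) (yf := yf) h.sub h.ysub x
    have h1 : ∀ z ∈ e.y ω, pvfqMix (e.y ω) (x.1, cfCol ω) z = x.1 z := fun z hz => pvfqMix_of_mem hz _
    have h2 : Conf.restr ((e.K ∪ D) ×ˢ univ) (pvkyFl b (pvkyPhi b (e.K ∪ D) e.y ω x)) = Conf.restr ((e.K ∪ D) ×ˢ univ) x.2 := pvky_restr_phi subset_rfl x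
    refine ⟨?_, ?_, ?_⟩
    · rw [e1]
      exact iff_of_eq (h.rA _ _ _ _ h1 h2)
    · rw [e1]
      exact h.rX _ _ _ _ h1 h2
    · rw [e1]
      exact h.stop _

end canon

end Claimed.Agent.R289
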