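import Claimed.Agent.R289.Tr.N1

/-!
# Row 289 (S0537), box TR, chapter A of `TR_295.md` : THE ABSTRACT ENGINE, items TR4 - TR7 (+ the reindexing step of TR23)      (author helper250; prefix `pvte_`)

Model free (Mathlib + `Tr/N1.lean`).  All main statements are in `ℝ≥0∞` (`∫⁻`, `‖·‖ₑ`), for an arbitrary exponent `n : ℕ` (`n = 2` is the blueprint) and values in an arbitrary real Banach space `E` (`E = ℂ`):
NO integrability hypothesis anywhere; "given `F`" is never a conditional expectation: it is either a family of TEST SETS of a sub-sigma-field, or an honest iterated / product integral.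

## TR4 (first moment over arcs + Harris)
* `pvte_sub_lintegral` : two measures ordered on the sets of a sub-sigma-field `𝓕` are ordered on the `𝓕`-measurable functions
* `pvte_harris_one`, **`pvte_harris_sum`**, `pvte_harris_sum_inv` : `q μ(E_g ∩ A) ≤ μ(E_g ∩ W ∩ A)` for all `A ∈ 𝓕`, `f_g` `𝓕`-measurable  ⟹  `∑_g ∫_{E_g} f_g ≤ q⁻¹ ∑_g ∫_{E_g ∩ W} f_g`
* `pvte_set_compProd`, `pvte_harris_kernel`, `pvte_harris_kernel_sum`, `pvte_harris_prod`, `pvte_harris_prod_sum` : the same on `β ⊗ₘ κ`, `β.prod γ` (`b` = geometry + states, `κ b` = law of the free colours), hypothesis on the sections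
* `pvte_harris_norm` : the form of the blueprint, `f_g = ‖X_g + y‖ₑ ^ n`
## TR5 (`L^n` norm of the mean of a forced connector)
* `pvte_conn_pt`, **`pvte_conn_L2`**, `pvte_conn_L2_inv`, `pvte_conn_L2_cond`
## TR6 (variance split)
* `pvte_split_left`, `pvte_split_right`, `pvte_split_mean`, `pvte_split_center`, `pvte_add_sq`, **`pvte_split`**
## TR7 (Chebyshev + union)
* `pvte_cheb`, **`pvte_cheb_union`**, `pvte_cheb_union_tsum`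
## reindexing (TR23: distinct arcs give distinct rims)
* `pvte_reindex`, `pvte_reindex_lintegral`
-/

set_option autoImplicit false

namespace Claimed.Agent.R289

open MeasureTheory ProbabilityTheory Set
open scoped ENNReal NNReal

theorem pvte_le_inv_mul {a b q : ℝ≥0∞} (hq0 : q ≠ 0) (hq : q ≠ ∞) (h : q * a ≤ b) : a ≤ q⁻¹ * b := by
  calc a = q⁻¹ * (q * a) := by rw [← mul_assoc, ENNReal.inv_mul_cancel hq0 hq, one_mul]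
    _ ≤ q⁻¹ * b := by gcongr

/-! ## TR4 -/

section TR4

variable {Ω : Type*} {𝓕 m0 : MeasurableSpace Ω}

/-- two measures which are ordered on a sub-sigma-field are ordered on its measurable functions -/
theorem pvte_sub_lintegral (h𝓕 : 𝓕 ≤ m0) (μ₁ μ₂ : Measure Ω)
    (h : ∀ A, MeasurableSet[𝓕] A → μ₁ A ≤ μ₂ A) {f : Ω → ℝ≥0∞} (hf : Measurable[𝓕] f) :
    ∫⁻ ω, f ω ∂μ₁ ≤ ∫⁻ ω, f ω ∂μ₂ := by
  rw [← lintegral_trim h𝓕 hf, ← lintegral_trim h𝓕 hf]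
  refine lintegral_mono' (Measure.le_iff.2 fun A hA => ?_) le_rfl
  rw [trim_measurableSet_eq h𝓕 hA, trim_measurableSet_eq h𝓕 hA]
  exact h A hA

/-- **TR4, one arc**.  `𝓕` = the sigma-field of everything that `f` reads; no measurability of `E`, `W`. -/
theorem pvte_harris_one (h𝓕 : 𝓕 ≤ m0) (μ : Measure Ω) {E W : Set Ω} (q : ℝ≥0∞)
    (h : ∀ A, MeasurableSet[𝓕] A → q * μ (E ∩ A) ≤ μ (E ∩ W ∩ A)) {f : Ω → ℝ≥0∞} (hf : Measurable[𝓕] f) :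
    q * ∫⁻ ω in E, f ω ∂μ ≤ ∫⁻ ω in E ∩ W, f ω ∂μ := by
  have h1 := pvte_sub_lintegral h𝓕 (q • μ.restrict E) (μ.restrict (E ∩ W)) (fun A hA => by
    rw [Measure.smul_apply, smul_eq_mul, Measure.restrict_apply (h𝓕 A hA), Measure.restrict_apply (h𝓕 A hA),
      inter_comm A, inter_comm A]
    exact h A hA) hf
  rwa [lintegral_smul_measure, smul_eq_mul] at h1

/-- **TR4** (first moment over the arcs `g` + Harris given `𝓕`), test-set form -/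
theorem pvte_harris_sum {ι : Type*} (h𝓕 : 𝓕 ≤ m0) (μ : Measure Ω) {E : ι → Set Ω} {W : Set Ω} (q : ℝ≥0∞)
    (h : ∀ g, ∀ A, MeasurableSet[𝓕] A → q * μ (E g ∩ A) ≤ μ (E g ∩ W ∩ A)) {f : ι → Ω → ℝ≥0∞} (hf : ∀ g, Measurable[𝓕] (f g)) :
    q * ∑' g, ∫⁻ ω in E g, f g ω ∂μ ≤ ∑' g, ∫⁻ ω in E g ∩ W, f g ω ∂μ := by
  rw [← ENNReal.tsum_mul_left]
  exact ENNReal.tsum_le_tsum fun g => pvte_harris_one h𝓕 μ q (h g) (hf g)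

theorem pvte_harris_sum_inv {ι : Type*} (h𝓕 : 𝓕 ≤ m0) (μ : Measure Ω) {E : ι → Set Ω} {W : Set Ω} {q : ℝ≥0∞}
    (hq0 : q ≠ 0) (hq : q ≠ ∞)
    (h : ∀ g, ∀ A, MeasurableSet[𝓕] A → q * μ (E g ∩ A) ≤ μ (E g ∩ W ∩ A)) {f : ι → Ω → ℝ≥0∞} (hf : ∀ g, Measurable[𝓕] (f g)) :
    ∑' g, ∫⁻ ω in E g, f g ω ∂μ ≤ q⁻¹ * ∑' g, ∫⁻ ω in E g ∩ W, f g ω ∂μ :=
  pvte_le_inv_mul hq0 hq (pvte_harris_sum h𝓕 μ q h hf)

end TR4

section TR4k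

variable {B C : Type*} [MeasurableSpace B] [MeasurableSpace C]

/-- the integral over an event of a function of the first coordinate -/
theorem pvte_set_compProd (β : Measure B) [SFinite β] (κ : Kernel B C) [IsSFiniteKernel κ] {E : Set (B × C)} (hE : MeasurableSet E)
    {f : B → ℝ≥0∞} (hf : Measurable f) :
    ∫⁻ x in E, f x.1 ∂(β ⊗ₘ κ) = ∫⁻ b, f b * κ b (Prod.mk b ⁻¹' E) ∂β := by
  rw [← lintegral_indicator hE, Measure.lintegral_compProd (f := E.indicator fun x : B × C => f x.1) ((hf.comp measurable_fst).indicator hE)]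
  refine lintegral_congr fun b => ?_
  have e : (fun c => E.indicator (fun x : B × C => f x.1) (b, c)) = (Prod.mk b ⁻¹' E).indicator fun _ => f b := by
    funext c
    by_cases hc : (b, c) ∈ E
    · rw [indicator_of_mem hc, indicator_of_mem (show c ∈ Prod.mk b ⁻¹' E from hc)]
    · rw [indicator_of_notMem hc, indicator_of_notMem (show c ∉ Prod.mk b ⁻¹' E from hc)]
  rw [e, lintegral_indicator (measurable_prodMk_left hE), setLIntegral_const]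

/-- **TR4, one arc, kernel form**: `b` = everything that `f` reads, `κ b` = the law of the rest -/
theorem pvte_harris_kernel (β : Measure B) [SFinite β] (κ : Kernel B C) [IsSFiniteKernel κ] {E W : Set (B × C)} (hE : MeasurableSet E)
    (hW : MeasurableSet W) (q : ℝ≥0∞) (h : ∀ᵐ b ∂β, q * κ b (Prod.mk b ⁻¹' E) ≤ κ b (Prod.mk b ⁻¹' (E ∩ W)))
    {f : B → ℝ≥0∞} (hf : Measurable f) :
    q * ∫⁻ x in E, f x.1 ∂(β ⊗ₘ κ) ≤ ∫⁻ x in E ∩ W, f x.1 ∂(β ⊗ₘ κ) := by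
  rw [pvte_set_compProd β κ hE hf, pvte_set_compProd β κ (hE.inter hW) hf]
  refine (lintegral_const_mul_le q _).trans (lintegral_mono_ae ?_)
  filter_upwards [h] with b hb
  calc q * (f b * κ b (Prod.mk b ⁻¹' E)) = f b * (q * κ b (Prod.mk b ⁻¹' E)) := by ring
    _ ≤ f b * κ b (Prod.mk b ⁻¹' (E ∩ W)) := by gcongr

theorem pvte_harris_kernel_sum {ι : Type*} (β : Measure B) [SFinite β] (κ : Kernel B C) [IsSFiniteKernel κ] {E : ι → Set (B × C)} {W : Set (B × C)}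
    (hE : ∀ g, MeasurableSet (E g)) (hW : MeasurableSet W) {q : ℝ≥0∞} (hq0 : q ≠ 0) (hq : q ≠ ∞)
    (h : ∀ g, ∀ᵐ b ∂β, q * κ b (Prod.mk b ⁻¹' E g) ≤ κ b (Prod.mk b ⁻¹' (E g ∩ W)))
    {f : ι → B → ℝ≥0∞} (hf : ∀ g, Measurable (f g)) :
    ∑' g, ∫⁻ x in E g, f g x.1 ∂(β ⊗ₘ κ) ≤ q⁻¹ * ∑' g, ∫⁻ x in E g ∩ W, f g x.1 ∂(β ⊗ₘ κ) := by
  refine pvte_le_inv_mul hq0 hq ?_
  rw [← ENNReal.tsum_mul_left]
  exact ENNReal.tsum_le_tsum fun g => pvte_harris_kernel β κ (hE g) hW q (h g) (hf g)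

/-- **TR4, one arc, product form** -/
theorem pvte_harris_prod (β : Measure B) [SFinite β] (γ : Measure C) [SFinite γ] {E W : Set (B × C)} (hE : MeasurableSet E)
    (hW : MeasurableSet W) (q : ℝ≥0∞) (h : ∀ᵐ b ∂β, q * γ (Prod.mk b ⁻¹' E) ≤ γ (Prod.mk b ⁻¹' (E ∩ W)))
    {f : B → ℝ≥0∞} (hf : Measurable f) :
    q * ∫⁻ x in E, f x.1 ∂(β.prod γ) ≤ ∫⁻ x in E ∩ W, f x.1 ∂(β.prod γ) := by
  rw [← Measure.compProd_const]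
  exact pvte_harris_kernel β (Kernel.const B γ) hE hW q (by simpa using h) hf

theorem pvte_harris_prod_sum {ι : Type*} (β : Measure B) [SFinite β] (γ : Measure C) [SFinite γ] {E : ι → Set (B × C)} {W : Set (B × C)}
    (hE : ∀ g, MeasurableSet (E g)) (hW : MeasurableSet W) {q : ℝ≥0∞} (hq0 : q ≠ 0) (hq : q ≠ ∞)
    (h : ∀ g, ∀ᵐ b ∂β, q * γ (Prod.mk b ⁻¹' E g) ≤ γ (Prod.mk b ⁻¹' (E g ∩ W)))
    {f : ι → B → ℝ≥0∞} (hf : ∀ g, Measurable (f g)) :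
    ∑' g, ∫⁻ x in E g, f g x.1 ∂(β.prod γ) ≤ q⁻¹ * ∑' g, ∫⁻ x in E g ∩ W, f g x.1 ∂(β.prod γ) := by
  refine pvte_le_inv_mul hq0 hq ?_
  rw [← ENNReal.tsum_mul_left]
  exact ENNReal.tsum_le_tsum fun g => pvte_harris_prod β γ (hE g) hW q (h g) (hf g)

/-- **TR4, the form of the blueprint**: `∑_g E[|X_g + y|^n ; B_g N_g] ≤ q⁻¹ ∑_g E[|X_g + y|^n ; B_g N_g W]`, `X_g`, `y` functions of `b` -/
theorem pvte_harris_norm {ι : Type*} {F : Type*} [NormedAddCommGroup F] [MeasurableSpace F] [BorelSpace F]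
    (β : Measure B) [SFinite β] (κ : Kernel B C) [IsSFiniteKernel κ] {E : ι → Set (B × C)} {W : Set (B × C)}
    (hE : ∀ g, MeasurableSet (E g)) (hW : MeasurableSet W) {q : ℝ≥0∞} (hq0 : q ≠ 0) (hq : q ≠ ∞)
    (h : ∀ g, ∀ᵐ b ∂β, q * κ b (Prod.mk b ⁻¹' E g) ≤ κ b (Prod.mk b ⁻¹' (E g ∩ W)))
    (n : ℕ) {Z : ι → B → F} (hZ : ∀ g, Measurable (Z g)) :
    ∑' g, ∫⁻ x in E g, ‖Z g x.1‖ₑ ^ n ∂(β ⊗ₘ κ) ≤ q⁻¹ * ∑' g, ∫⁻ x in E g ∩ W, ‖Z g x.1‖ₑ ^ n ∂(β ⊗ₘ κ) :=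
  pvte_harris_kernel_sum β κ hE hW hq0 hq h (f := fun g b => ‖Z g b‖ₑ ^ n) fun g => (hZ g).enorm.pow_const n

end TR4k

/-! ## TR5 -/

section TR5

variable {S S' Ξ Ξ' : Type*} [MeasurableSpace S] [MeasurableSpace S'] [MeasurableSpace Ξ] [MeasurableSpace Ξ']
variable {E : Type*} [NormedAddCommGroup E] [NormedSpace ℝ E] [CompleteSpace E]

/-- TR5 at fixed states: Jensen on `A`, then the independent return connector `A'` is inserted -/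
theorem pvte_conn_pt (ρ : Measure Ξ) [IsFiniteMeasure ρ] (ρ' : Measure Ξ') (n : ℕ) (A : Set Ξ) (A' : Set Ξ') {X : Ξ → E}
    (hX : AEStronglyMeasurable X (ρ.restrict A)) {q q' : ℝ≥0∞} (hq : q ≤ ρ A) (hq' : q' ≤ ρ' A') :
    q * q' * ‖⨍ ξ in A, X ξ ∂ρ‖ₑ ^ n ≤ ∫⁻ _ξ' in A', ∫⁻ ξ in A, ‖X ξ‖ₑ ^ n ∂ρ ∂ρ' := by
  have h1 := pvt_n1_set ρ n A hX 0
  simp only [zero_add] at h1
  rw [setLIntegral_const]
  calc q * q' * ‖⨍ ξ in A, X ξ ∂ρ‖ₑ ^ n = (q * ‖⨍ ξ in A, X ξ ∂ρ‖ₑ ^ n) * q' := by ring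
    _ ≤ (ρ A * ‖⨍ ξ in A, X ξ ∂ρ‖ₑ ^ n) * ρ' A' := by gcongr
    _ ≤ (∫⁻ ξ in A, ‖X ξ‖ₑ ^ n ∂ρ) * ρ' A' := by gcongr

/-- **TR5** (`L^n` norm of the mean `i_e(σ,σ') = ⨍_{A_e(σ,σ')} X_e` of a forced connector `e : u → u'`; `e' : u' → u` any forced connector independent of `e`):
`q q' ∫_G ∫_G' |i_e|^n ≤ E[|X_e|^n ; A_e A_e' G G']` (right side = iterated integral). -/
theorem pvte_conn_L2 (m : Measure S) (m' : Measure S') (ρ : Measure Ξ) [IsFiniteMeasure ρ] (ρ' : Measure Ξ') (n : ℕ)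
    {G : Set S} {G' : Set S'} (hG : MeasurableSet G) (hG' : MeasurableSet G') (A : S → S' → Set Ξ) (A' : S → S' → Set Ξ')
    (X : S → S' → Ξ → E) (q q' : ℝ≥0∞)
    (hX : ∀ σ ∈ G, ∀ σ' ∈ G', AEStronglyMeasurable (X σ σ') (ρ.restrict (A σ σ')))
    (hq : ∀ σ ∈ G, ∀ σ' ∈ G', q ≤ ρ (A σ σ')) (hq' : ∀ σ ∈ G, ∀ σ' ∈ G', q' ≤ ρ' (A' σ σ')) :
    q * q' * ∫⁻ σ in G, ∫⁻ σ' in G', ‖⨍ ξ in A σ σ', X σ σ' ξ ∂ρ‖ₑ ^ n ∂m' ∂m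
      ≤ ∫⁻ σ in G, ∫⁻ σ' in G', ∫⁻ _ξ' in A' σ σ', ∫⁻ ξ in A σ σ', ‖X σ σ' ξ‖ₑ ^ n ∂ρ ∂ρ' ∂m' ∂m := by
  refine (lintegral_const_mul_le _ _).trans (setLIntegral_mono' hG fun σ hσ => ?_)
  refine (lintegral_const_mul_le _ _).trans (setLIntegral_mono' hG' fun σ' hσ' => ?_)
  exact pvte_conn_pt ρ ρ' n _ _ (hX σ hσ σ' hσ') (hq σ hσ σ' hσ') (hq' σ hσ σ' hσ')

theorem pvte_conn_L2_inv (m : Measure S) (m' : Measure S') (ρ : Measure Ξ) [IsFiniteMeasure ρ] (ρ' : Measure Ξ') (n : ℕ)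
    {G : Set S} {G' : Set S'} (hG : MeasurableSet G) (hG' : MeasurableSet G') (A : S → S' → Set Ξ) (A' : S → S' → Set Ξ')
    (X : S → S' → Ξ → E) {q q' : ℝ≥0∞} (h0 : q * q' ≠ 0) (ht : q * q' ≠ ∞)
    (hX : ∀ σ ∈ G, ∀ σ' ∈ G', AEStronglyMeasurable (X σ σ') (ρ.restrict (A σ σ')))
    (hq : ∀ σ ∈ G, ∀ σ' ∈ G', q ≤ ρ (A σ σ')) (hq' : ∀ σ ∈ G, ∀ σ' ∈ G', q' ≤ ρ' (A' σ σ')) :
    ∫⁻ σ in G, ∫⁻ σ' in G', ‖⨍ ξ in A σ σ', X σ σ' ξ ∂ρ‖ₑ ^ n ∂m' ∂m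
      ≤ (q * q')⁻¹ * ∫⁻ σ in G, ∫⁻ σ' in G', ∫⁻ _ξ' in A' σ σ', ∫⁻ ξ in A σ σ', ‖X σ σ' ξ‖ₑ ^ n ∂ρ ∂ρ' ∂m' ∂m :=
  pvte_le_inv_mul h0 ht (pvte_conn_L2 m m' ρ ρ' n hG hG' A A' X q q' hX hq hq')

/-- TR5 with the conditioned laws `μ_u = m[|G]`, `μ_u' = m'[|G']` -/
theorem pvte_conn_L2_cond (m : Measure S) (m' : Measure S') (ρ : Measure Ξ) [IsFiniteMeasure ρ] (ρ' : Measure Ξ') (n : ℕ)
    {G : Set S} {G' : Set S'} (hG : MeasurableSet G) (hG' : MeasurableSet G') (hm' : m' G' ≠ 0) (A : S → S' → Set Ξ) (A' : S → S' → Set Ξ')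
    (X : S → S' → Ξ → E) {q q' : ℝ≥0∞} (h0 : q * q' ≠ 0) (ht : q * q' ≠ ∞)
    (hX : ∀ σ ∈ G, ∀ σ' ∈ G', AEStronglyMeasurable (X σ σ') (ρ.restrict (A σ σ')))
    (hq : ∀ σ ∈ G, ∀ σ' ∈ G', q ≤ ρ (A σ σ')) (hq' : ∀ σ ∈ G, ∀ σ' ∈ G', q' ≤ ρ' (A' σ σ')) :
    ∫⁻ σ, ∫⁻ σ', ‖⨍ ξ in A σ σ', X σ σ' ξ ∂ρ‖ₑ ^ n ∂(m'[|G']) ∂(m[|G])
      ≤ (m G)⁻¹ * ((m' G')⁻¹ * ((q * q')⁻¹ *
        ∫⁻ σ in G, ∫⁻ σ' in G', ∫⁻ _ξ' in A' σ σ', ∫⁻ ξ in A σ σ', ‖X σ σ' ξ‖ₑ ^ n ∂ρ ∂ρ' ∂m' ∂m)) := by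
  have e : ∫⁻ σ, ∫⁻ σ', ‖⨍ ξ in A σ σ', X σ σ' ξ ∂ρ‖ₑ ^ n ∂(m'[|G']) ∂(m[|G])
      = (m G)⁻¹ * ((m' G')⁻¹ * ∫⁻ σ in G, ∫⁻ σ' in G', ‖⨍ ξ in A σ σ', X σ σ' ξ ∂ρ‖ₑ ^ n ∂m' ∂m) := by
    simp only [ProbabilityTheory.cond, lintegral_smul_measure, smul_eq_mul]
    rw [lintegral_const_mul' _ _ (ENNReal.inv_ne_top.2 hm')]
  rw [e]
  gcongr
  exact pvte_conn_L2_inv m m' ρ ρ' n hG hG' A A' X h0 ht hX hq hq'

end TR5

/-! ## TR6 -/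

theorem pvte_add_sq (x y : ℝ≥0∞) : (x + y) ^ 2 ≤ 2 * x ^ 2 + 2 * y ^ 2 := by
  rcases eq_or_ne x ∞ with rfl | hx
  · simp
  rcases eq_or_ne y ∞ with rfl | hy
  · simp
  lift x to ℝ≥0 using hx
  lift y to ℝ≥0 using hy
  norm_cast
  have h : ((x : ℝ) + y) ^ 2 ≤ 2 * (x : ℝ) ^ 2 + 2 * (y : ℝ) ^ 2 := by nlinarith [sq_nonneg ((x : ℝ) - y)]
  exact_mod_cast h

section TR6

variable {S S' : Type*} [MeasurableSpace S] [MeasurableSpace S']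
variable {E : Type*} [NormedAddCommGroup E] [NormedSpace ℝ E] [CompleteSpace E]

/-- TR6 (a): `f` minus the MEAN OF `f'` is bounded by the difference on the product -/
theorem pvte_split_left (μ : Measure S) (μ' : Measure S') [IsProbabilityMeasure μ'] (n : ℕ) (f : S → E) {f' : S' → E}
    (hf' : AEStronglyMeasurable f' μ') :
    ∫⁻ σ, ‖f σ - ∫ s, f' s ∂μ'‖ₑ ^ n ∂μ ≤ ∫⁻ σ, ∫⁻ σ', ‖f σ - f' σ'‖ₑ ^ n ∂μ' ∂μ := by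
  refine lintegral_mono fun σ => ?_
  have h := pvt_n1_shift μ' n (Y := fun w => - f' w) hf'.neg (f σ)
  rw [measure_univ, one_mul, average_eq_integral, integral_neg] at h
  simpa only [sub_eq_add_neg] using h

/-- TR6 (b) -/
theorem pvte_split_right (μ : Measure S) (μ' : Measure S') [IsProbabilityMeasure μ] (n : ℕ) {f : S → E} (f' : S' → E)
    (hf : AEStronglyMeasurable f μ) :
    ∫⁻ σ', ‖∫ s, f s ∂μ - f' σ'‖ₑ ^ n ∂μ' ≤ ∫⁻ σ', ∫⁻ σ, ‖f σ - f' σ'‖ₑ ^ n ∂μ ∂μ' := by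
  refine lintegral_mono fun σ' => ?_
  have h := pvt_n1_shift μ n (Y := f) hf (- f' σ')
  rw [measure_univ, one_mul, average_eq_integral] at h
  have e : ∀ x : E, -f' σ' + x = x - f' σ' := fun x => by abel
  simpa only [e] using h

/-- TR6 (c): the difference of the means -/
theorem pvte_split_mean (μ : Measure S) (μ' : Measure S') [IsProbabilityMeasure μ] [IsProbabilityMeasure μ'] (n : ℕ) {f : S → E} {f' : S' → E}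
    (hf : AEStronglyMeasurable f μ) (hf' : AEStronglyMeasurable f' μ') :
    ‖∫ s, f s ∂μ - ∫ s, f' s ∂μ'‖ₑ ^ n ≤ ∫⁻ σ, ∫⁻ σ', ‖f σ - f' σ'‖ₑ ^ n ∂μ' ∂μ := by
  refine le_trans ?_ (pvte_split_left μ μ' n f hf')
  have h := pvt_n1_shift μ n (Y := f) hf (- ∫ s, f' s ∂μ')
  rw [measure_univ, one_mul, average_eq_integral] at h
  have e : ∀ x : E, -(∫ s, f' s ∂μ') + x = x - ∫ s, f' s ∂μ' := fun x => by abel
  simpa only [e] using h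

/-- TR6 (d): the variance of `f` (centred at its own mean), `n = 2` -/
theorem pvte_split_center (μ : Measure S) (μ' : Measure S') [IsProbabilityMeasure μ] [IsProbabilityMeasure μ'] {f : S → E} {f' : S' → E}
    (hf : AEStronglyMeasurable f μ) (hf' : AEStronglyMeasurable f' μ') :
    ∫⁻ σ, ‖f σ - ∫ s, f s ∂μ‖ₑ ^ 2 ∂μ ≤ 4 * ∫⁻ σ, ∫⁻ σ', ‖f σ - f' σ'‖ₑ ^ 2 ∂μ' ∂μ := by
  set H := ∫⁻ σ, ∫⁻ σ', ‖f σ - f' σ'‖ₑ ^ 2 ∂μ' ∂μ with hH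
  have h1 := pvte_split_left μ μ' 2 f hf'
  have h2 := pvte_split_mean μ μ' 2 hf hf'
  have h3 : ∀ σ, ‖f σ - ∫ s, f s ∂μ‖ₑ ^ 2 ≤ 2 * ‖f σ - ∫ s, f' s ∂μ'‖ₑ ^ 2 + 2 * ‖∫ s, f s ∂μ - ∫ s, f' s ∂μ'‖ₑ ^ 2 := fun σ => by
    refine le_trans ?_ (pvte_add_sq _ _)
    gcongr
    have e : f σ - ∫ s, f s ∂μ = (f σ - ∫ s, f' s ∂μ') - (∫ s, f s ∂μ - ∫ s, f' s ∂μ') := by abel
    rw [e]
    exact enorm_sub_le
  calc ∫⁻ σ, ‖f σ - ∫ s, f s ∂μ‖ₑ ^ 2 ∂μ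
      ≤ ∫⁻ σ, (2 * ‖f σ - ∫ s, f' s ∂μ'‖ₑ ^ 2 + 2 * ‖∫ s, f s ∂μ - ∫ s, f' s ∂μ'‖ₑ ^ 2) ∂μ := lintegral_mono h3
    _ = 2 * ∫⁻ σ, ‖f σ - ∫ s, f' s ∂μ'‖ₑ ^ 2 ∂μ + 2 * ‖∫ s, f s ∂μ - ∫ s, f' s ∂μ'‖ₑ ^ 2 := by
        rw [lintegral_add_right _ measurable_const, lintegral_const, measure_univ, mul_one,
          lintegral_const_mul' _ _ (by norm_num)]
    _ ≤ 2 * H + 2 * H := by gcongr
    _ = 4 * H := by ring

omit [NormedSpace ℝ E] [CompleteSpace E] in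
/-- the split `F + err` of the difference, `n = 2` -/
theorem pvte_split_err (μ : Measure S) (μ' : Measure S') [SFinite μ'] {F err : S → S' → E}
    (hF : Measurable fun x : S × S' => ‖F x.1 x.2‖ₑ) :
    ∫⁻ σ, ∫⁻ σ', ‖F σ σ' + err σ σ'‖ₑ ^ 2 ∂μ' ∂μ
      ≤ 2 * ∫⁻ σ, ∫⁻ σ', ‖F σ σ'‖ₑ ^ 2 ∂μ' ∂μ + 2 * ∫⁻ σ, ∫⁻ σ', ‖err σ σ'‖ₑ ^ 2 ∂μ' ∂μ := by
  have hF2 : Measurable fun x : S × S' => 2 * ‖F x.1 x.2‖ₑ ^ 2 := (hF.pow_const 2).const_mul 2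
  have h1 : ∀ σ, ∫⁻ σ', ‖F σ σ' + err σ σ'‖ₑ ^ 2 ∂μ' ≤ ∫⁻ σ', 2 * ‖F σ σ'‖ₑ ^ 2 ∂μ' + ∫⁻ σ', 2 * ‖err σ σ'‖ₑ ^ 2 ∂μ' := fun σ => by
    rw [← lintegral_add_left (f := fun σ' => 2 * ‖F σ σ'‖ₑ ^ 2) (hF2.comp measurable_prodMk_left)]
    refine lintegral_mono fun σ' => ?_
    refine le_trans ?_ (pvte_add_sq _ _)
    gcongr
    exact enorm_add_le _ _
  calc _ ≤ ∫⁻ σ, (∫⁻ σ', 2 * ‖F σ σ'‖ₑ ^ 2 ∂μ' + ∫⁻ σ', 2 * ‖err σ σ'‖ₑ ^ 2 ∂μ') ∂μ := lintegral_mono h1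
    _ = ∫⁻ σ, ∫⁻ σ', 2 * ‖F σ σ'‖ₑ ^ 2 ∂μ' ∂μ + ∫⁻ σ, ∫⁻ σ', 2 * ‖err σ σ'‖ₑ ^ 2 ∂μ' ∂μ :=
        lintegral_add_left hF2.lintegral_prod_right' _
    _ = _ := by
        simp only [lintegral_const_mul' _ _ (show (2 : ℝ≥0∞) ≠ ∞ by norm_num)]

/-- **TR6** (variance split): `f(σ) - f'(σ') = F(σ,σ') + err(σ,σ')` on a product of probability spaces. -/
theorem pvte_split (μ : Measure S) (μ' : Measure S') [IsProbabilityMeasure μ] [IsProbabilityMeasure μ'] {f : S → E} {f' : S' → E}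
    (hf : AEStronglyMeasurable f μ) (hf' : AEStronglyMeasurable f' μ') {F err : S → S' → E}
    (hF : Measurable fun x : S × S' => ‖F x.1 x.2‖ₑ) (h : ∀ σ σ', f σ - f' σ' = F σ σ' + err σ σ') :
    ∫⁻ σ, ‖f σ - ∫ s, f s ∂μ‖ₑ ^ 2 ∂μ
        ≤ 4 * (2 * ∫⁻ σ, ∫⁻ σ', ‖F σ σ'‖ₑ ^ 2 ∂μ' ∂μ + 2 * ∫⁻ σ, ∫⁻ σ', ‖err σ σ'‖ₑ ^ 2 ∂μ' ∂μ) ∧
      ‖∫ s, f s ∂μ - ∫ s, f' s ∂μ'‖ₑ ^ 2
        ≤ 2 * ∫⁻ σ, ∫⁻ σ', ‖F σ σ'‖ₑ ^ 2 ∂μ' ∂μ + 2 * ∫⁻ σ, ∫⁻ σ', ‖err σ σ'‖ₑ ^ 2 ∂μ' ∂μ := by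
  have e := pvte_split_err μ μ' (err := err) hF
  simp only [← h] at e
  exact ⟨(pvte_split_center μ μ' hf hf').trans (by gcongr), (pvte_split_mean μ μ' 2 hf hf').trans e⟩

end TR6

/-! ## TR7 -/

section TR7

variable {Ω : Type*} [MeasurableSpace Ω] {F : Type*} [NormedAddCommGroup F]

/-- Chebyshev on an event (no measurability of the event) -/
theorem pvte_cheb (μ : Measure Ω) (Fit : Set Ω) {Z : Ω → F} (hZ : AEStronglyMeasurable Z (μ.restrict Fit)) {u : ℝ} (hu : 0 < u) (n : ℕ) :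
    μ {ω | ω ∈ Fit ∧ u < ‖Z ω‖} ≤ (∫⁻ ω in Fit, ‖Z ω‖ₑ ^ n ∂μ) / ENNReal.ofReal u ^ n := by
  have hu0 : ENNReal.ofReal u ^ n ≠ 0 := pow_ne_zero _ (by simpa using hu)
  have hut : ENNReal.ofReal u ^ n ≠ ∞ := ENNReal.pow_ne_top ENNReal.ofReal_ne_top
  have h1 := meas_ge_le_lintegral_div (μ := μ.restrict Fit) (f := fun ω => ‖Z ω‖ₑ ^ n) (hZ.enorm.pow_const n) hu0 hut
  refine le_trans ?_ h1
  refine le_trans (measure_mono ?_) (Measure.le_restrict_apply Fit {ω | ENNReal.ofReal u ^ n ≤ ‖Z ω‖ₑ ^ n})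
  rintro ω ⟨h1, h2⟩
  refine ⟨?_, h1⟩
  show ENNReal.ofReal u ^ n ≤ ‖Z ω‖ₑ ^ n
  gcongr
  rw [← ofReal_norm]
  exact ENNReal.ofReal_le_ofReal h2.le

/-- **TR7** (Chebyshev + union over a finite family of patterns) -/
theorem pvte_cheb_union {ι : Type*} (s : Finset ι) (μ : Measure Ω) (Fit : ι → Set Ω) {Z : ι → Ω → F}
    (hZ : ∀ p ∈ s, AEStronglyMeasurable (Z p) (μ.restrict (Fit p))) {u : ℝ} (hu : 0 < u) (n : ℕ) :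
    μ {ω | ∃ p ∈ s, ω ∈ Fit p ∧ u < ‖Z p ω‖} ≤ (∑ p ∈ s, ∫⁻ ω in Fit p, ‖Z p ω‖ₑ ^ n ∂μ) / ENNReal.ofReal u ^ n := by
  have e : {ω | ∃ p ∈ s, ω ∈ Fit p ∧ u < ‖Z p ω‖} = ⋃ p ∈ s, {ω | ω ∈ Fit p ∧ u < ‖Z p ω‖} := by
    ext ω
    simp only [Set.mem_ofPred_eq, mem_iUnion, exists_prop]
  rw [e, ENNReal.div_eq_inv_mul, Finset.mul_sum]
  refine (measure_biUnion_finset_le s _).trans (Finset.sum_le_sum fun p hp => ?_)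
  rw [← ENNReal.div_eq_inv_mul]
  exact pvte_cheb μ (Fit p) (hZ p hp) hu n

/-- TR7 for a countable family (patterns x arcs) -/
theorem pvte_cheb_union_tsum {ι : Type*} [Countable ι] (μ : Measure Ω) (Fit : ι → Set Ω) {Z : ι → Ω → F}
    (hZ : ∀ p, AEStronglyMeasurable (Z p) (μ.restrict (Fit p))) {u : ℝ} (hu : 0 < u) (n : ℕ) :
    μ {ω | ∃ p, ω ∈ Fit p ∧ u < ‖Z p ω‖} ≤ (∑' p, ∫⁻ ω in Fit p, ‖Z p ω‖ₑ ^ n ∂μ) / ENNReal.ofReal u ^ n := by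
  have e : {ω | ∃ p, ω ∈ Fit p ∧ u < ‖Z p ω‖} = ⋃ p, {ω | ω ∈ Fit p ∧ u < ‖Z p ω‖} := by
    ext ω; simp
  rw [e, ENNReal.div_eq_inv_mul, ← ENNReal.tsum_mul_left]
  refine (measure_iUnion_le _).trans (ENNReal.tsum_le_tsum fun p => ?_)
  rw [← ENNReal.div_eq_inv_mul]
  exact pvte_cheb μ (Fit p) (hZ p) hu n

end TR7

/-! ## the reindexing step of TR23 -/

section reindex

/-- distinct arcs give distinct rims: a sum over the arcs which are realised is bounded by the sum over the rims -/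
theorem pvte_reindex {ι κ : Type*} (T : Set ι) (R : Set κ) (a : ι → ℝ≥0∞) (b : κ → ℝ≥0∞) (φ : ι → κ) (hφ : Set.InjOn φ T)
    (hR : ∀ g ∈ T, φ g ∈ R) (h : ∀ g ∈ T, a g ≤ b (φ g)) :
    ∑' g, T.indicator a g ≤ ∑' P, R.indicator b P := by
  rw [← tsum_subtype T a, ← tsum_subtype R b]
  let ψ : T → R := fun g => ⟨φ g, hR g g.2⟩
  have hψ : Function.Injective ψ := fun g g' e => Subtype.ext (hφ g.2 g'.2 (congrArg Subtype.val e))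
  calc ∑' g : T, a g ≤ ∑' g : T, b (ψ g) := ENNReal.tsum_le_tsum fun g => h g g.2
    _ ≤ ∑' P : R, b P := ENNReal.tsum_comp_le_tsum_of_injective hψ fun P : R => b P

/-- the same under the integral: `∑_g E[a_g ; E_g] ≤ E ∑_{P ∈ rims} b_P` -/
theorem pvte_reindex_lintegral {Ω : Type*} [MeasurableSpace Ω] (μ : Measure Ω) {ι κ : Type*} [Countable ι] (Ev : ι → Set Ω) (hEv : ∀ g, MeasurableSet (Ev g))
    (a : ι → Ω → ℝ≥0∞) (ha : ∀ g, AEMeasurable (a g) (μ.restrict (Ev g))) (R : Ω → Set κ) (b : Ω → κ → ℝ≥0∞) (φ : Ω → ι → κ)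
    (hφ : ∀ ω, Set.InjOn (φ ω) {g | ω ∈ Ev g}) (hR : ∀ ω g, ω ∈ Ev g → φ ω g ∈ R ω) (h : ∀ ω g, ω ∈ Ev g → a g ω ≤ b ω (φ ω g)) :
    ∑' g, ∫⁻ ω in Ev g, a g ω ∂μ ≤ ∫⁻ ω, ∑' P, (R ω).indicator (b ω) P ∂μ := by
  have e : ∀ g, ∫⁻ ω in Ev g, a g ω ∂μ = ∫⁻ ω, (Ev g).indicator (a g) ω ∂μ := fun g => (lintegral_indicator (hEv g) _).symm
  simp only [e]
  rw [← lintegral_tsum fun g => (aemeasurable_indicator_iff (hEv g)).2 (ha g)]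
  refine lintegral_mono fun ω => ?_
  refine le_trans (le_of_eq ?_) (pvte_reindex {g | ω ∈ Ev g} (R ω) (fun g => a g ω) (b ω) (φ ω) (hφ ω) (hR ω) (h ω))
  refine tsum_congr fun g => ?_
  by_cases hg : ω ∈ Ev g
  · rw [indicator_of_mem hg, indicator_of_mem (show g ∈ {g | ω ∈ Ev g} from hg)]
  · rw [indicator_of_notMem hg, indicator_of_notMem (show g ∉ {g | ω ∈ Ev g} from hg)]

end reindex

end Claimed.Agent.R289
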