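import Claimed.Agent.R289.Tr.Cyc
import Claimed.Agent.R289.Tr.Ind

/-!
# Row 289 (S0537), the wall, INTEGRATION LAYER, file Tr/Sys : GEOMETRIC SYSTEMS  ⟹  THE ENGINE A0      (owner helper95; post of 295; prefix `pvsy_`, `pvsy`, `Pvsy`)

Blueprint: `origin/helper295:notes/R289/TR_295.md` (DEF A0, TR1-TR5), TEX[Cardy:plugs] Def. 3.3 (simple system), Def. 3.6 (cycle experiment), (3.3) (cycle density).
Language: `Conf.Reads`, `Conf.ReadsSet` (256, `Ppp/Ind`), `Conf.spl`, `pvtiP`, `pvtiW`, `pvtiMean` (141, `Tr/Ind`), the abstract engine `PvtcSys` (175, `Tr/Cyc`).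

## THE RECORD
`S : PvsySys E U C` = a finite GRAPH of plugs `u : U` and connectors `e : C`, `e : S.src e → S.tgt e`, on the configurations of ANY measurable space `E` (model: `E = PvPt`, regions `= (region of ℂ) ×ˢ univ`):
`S.O u` state region, `S.K e` exterior region, `S.G u` usable states (reads `S.O u`), `S.A e` success (reads `S.D e = S.O (src e) ∪ S.O (tgt e) ∪ S.K e`).      A FIELD is `X : C → Conf E → ℂ`, `X e` reading `S.D e`.
`S.WF` : Borel, pairwise disjoint, measurable, reading.      `S.Fld X`.      `S.Forced μ Cu Cf q` : the inner plugs `Cu` have `μ (G u) ≠ 0`, the connectors `Cf` are forced with the constants `q e`.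
As in `Tr/Cyc`, an EXPERIMENT is a pair `(Cu, Cf)` = (inner plugs, connectors); the ends of the connectors which are not in `Cu` are the MARKED plugs (`t`, `s`).
* `S.R Cu Cf`   the resampled region (`C0` of the wall)            * `S.g μ u = 1_G / μ G`,  `S.p μ e = pvtiP μ (OO e) (A e)`,  `S.w μ e = pvtiW μ (OO e) (A e)`
* `S.Wt μ Cu Cf`   THE WEIGHT `W_c`                                * `S.Dc μ Cu Cf q`   its bound `D_c`
* `S.Ev Cu Cf`   all inner `G`, all `A`                            * `S.Ends Cu Cf`   the marked plugs are usable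
* `pvsyY X Cf = ∑ X e`                                             * `S.y μ X Cu Cf = pvtiMean μ (R Cu Cf)ᶜ W_c Y_c`   THE MEAN `y_c`
* `S.me μ X Cu e`   the mean of ONE connector (its ends which are in `Cu` are integrated):   `S.ii` (`i_e`), `S.kout`, `S.kin`, `S.k` (`k_e`, a number `= ∫ X e · g g w`)

## THE ENGINE
`S.toEng μ X : PvtcSys (U ⊕ C) (Conf E) ℂ`, `S.cod η i = restr (win i) η`;   `pvsy_law` (`μ.map cod = law`: `IsPpp.map_restr_pi` of 256), `pvsy_ok`, dictionary `pvsy_cod_spl`, `pvsy_W_cod`, `pvsy_Y_cod`, `pvsy_y_cod`, …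

## EXITS (all on `Conf E`, honest product integrals)
* **`pvsy_mass`** TR1 (a)      **`pvsy_Wt_le`** TR1 (b)      **`pvsy_marg`**, `pvsy_marg_closed` TR2 (two-plug marginal)      **`pvsy_y_eq`** TR2 (means)
* **`pvsy_n1`** TR3      `pvsy_n1_fam` TR3 for a family (TR23)      **`pvsy_cycle`** TR3'      **`pvsy_const`** closed system: `‖∑ k_e‖² ≤ D_c E[‖Y‖² ; Ev]` (TR27)      **`pvsy_conn_L2`** TR5 in the CHAIN form of 125
## CYCLIC LISTS (sec. 6)
`PvsySec E` = one SECTOR (a plug and the connector which leaves it), `pvsyCyc n sec` the cyclic system of `n` sectors.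
-/

set_option autoImplicit false
set_option linter.unusedSectionVars false

namespace Claimed.Agent.R289

open MeasureTheory ProbabilityTheory Set
open scoped ENNReal NNReal

/-! ## 1. the record -/

/-- `Y_c` : the sum of the fields of the connectors `Cf` -/
def pvsyY {E : Type*} {C : Type*} (X : C → Conf E → ℂ) (Cf : Finset C) (η : Conf E) : ℂ := ∑ e ∈ Cf, X e η

/-- **GEOMETRIC SYSTEM**: a finite graph of plugs and connectors, with their regions and events -/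
structure PvsySys (E : Type*) (U : Type*) (C : Type*) where
  /-- state region of a plug -/
  O : U → Set E
  /-- exterior region of a connector -/
  K : C → Set E
  src : C → U
  tgt : C → U
  /-- usable states -/
  G : U → Set (Conf E)
  /-- success of a connector -/
  A : C → Set (Conf E)

namespace PvsySys

variable {E : Type*} {U : Type*} {C : Type*} (S : PvsySys E U C)

/-- the window of an index of the engine -/
def win : U ⊕ C → Set E := Sum.elim S.O S.K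

/-- the two state regions of a connector -/
def OO (e : C) : Set E := S.O (S.src e) ∪ S.O (S.tgt e)

/-- everything that a connector reads -/
def D (e : C) : Set E := S.OO e ∪ S.K e

/-- the RESAMPLED region of the experiment `(Cu, Cf)` -/
def R (Cu : Finset U) (Cf : Finset C) : Set E := (⋃ u ∈ Cu, S.O u) ∪ ⋃ e ∈ Cf, S.K e

/-- all inner plugs usable, all connectors successful -/
def Ev (Cu : Finset U) (Cf : Finset C) : Set (Conf E) := {η | (∀ u ∈ Cu, η ∈ S.G u) ∧ ∀ e ∈ Cf, η ∈ S.A e}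

/-- the marked plugs are usable -/
def Ends (Cu : Finset U) (Cf : Finset C) : Set (Conf E) :=
  {η | ∀ e ∈ Cf, (S.src e ∉ Cu → η ∈ S.G (S.src e)) ∧ (S.tgt e ∉ Cu → η ∈ S.G (S.tgt e))}

/-- the inner ends of a connector -/
def ie [DecidableEq U] (Cu : Finset U) (e : C) : Finset U := Cu ∩ {S.src e, S.tgt e}

/-- the configuration read by a connector, glued from a triple (state, seed, state) -/
def glue (e : C) (z : Conf E × Conf E × Conf E) : Conf E :=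
  Conf.union (Conf.restr (S.O (S.src e)) z.1) (Conf.union (Conf.restr (S.K e) z.2.1) (Conf.restr (S.O (S.tgt e)) z.2.2))

/-- the coordinates of the engine -/
def cod (η : Conf E) : U ⊕ C → Conf E := fun i => Conf.restr (S.win i) η

variable [MeasurableSpace E]

/-- `1_G / μ G` -/
noncomputable def g (μ : Measure (Conf E)) (u : U) (η : Conf E) : ℝ≥0∞ := (S.G u).indicator 1 η / μ (S.G u)

/-- `p_e` : the success probability given the two states -/
noncomputable def p (μ : Measure (Conf E)) (e : C) : Conf E → ℝ≥0∞ := pvtiP μ (S.OO e) (S.A e)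

/-- `w_e = 1_A / p_e` -/
noncomputable def w (μ : Measure (Conf E)) (e : C) : Conf E → ℝ≥0∞ := pvtiW μ (S.OO e) (S.A e)

/-- **THE WEIGHT** `W_c` of the experiment `(Cu, Cf)` -/
noncomputable def Wt (μ : Measure (Conf E)) (Cu : Finset U) (Cf : Finset C) (η : Conf E) : ℝ≥0∞ :=
  (∏ u ∈ Cu, S.g μ u η) * ∏ e ∈ Cf, S.w μ e η

/-- its bound `D_c` -/
noncomputable def Dc (μ : Measure (Conf E)) (Cu : Finset U) (Cf : Finset C) (q : C → ℝ≥0∞) : ℝ≥0∞ :=
  (∏ u ∈ Cu, (μ (S.G u))⁻¹) * ∏ e ∈ Cf, (q e)⁻¹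

/-- **THE MEAN** `y_c` : a function of the marked states -/
noncomputable def y (μ : Measure (Conf E)) (X : C → Conf E → ℂ) (Cu : Finset U) (Cf : Finset C) : Conf E → ℂ :=
  pvtiMean μ (S.R Cu Cf)ᶜ (S.Wt μ Cu Cf) (pvsyY X Cf)

/-- the mean of ONE connector; its ends which belong to `Cu` are integrated -/
noncomputable def me [DecidableEq U] (μ : Measure (Conf E)) (X : C → Conf E → ℂ) (Cu : Finset U) (e : C) : Conf E → ℂ :=
  S.y μ X (S.ie Cu e) {e}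

/-- `i_e(σ, σ')` -/
noncomputable def ii (μ : Measure (Conf E)) (X : C → Conf E → ℂ) (e : C) : Conf E → ℂ := S.y μ X ∅ {e}

/-- `kout_e(σ)` -/
noncomputable def kout (μ : Measure (Conf E)) (X : C → Conf E → ℂ) (e : C) : Conf E → ℂ := S.y μ X {S.tgt e} {e}

/-- `kin_e(σ')` -/
noncomputable def kin (μ : Measure (Conf E)) (X : C → Conf E → ℂ) (e : C) : Conf E → ℂ := S.y μ X {S.src e} {e}

/-- `k_e` -/
noncomputable def k [DecidableEq U] (μ : Measure (Conf E)) (X : C → Conf E → ℂ) (e : C) : ℂ :=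
  ∫ η, X e η ∂(μ.withDensity (S.Wt μ {S.src e, S.tgt e} {e}))

/-- well-formedness: Borel regions, pairwise disjoint; measurable events which read their regions -/
structure WF : Prop where
  mO : ∀ u, MeasurableSet (S.O u)
  mK : ∀ e, MeasurableSet (S.K e)
  dj : Pairwise (Function.onFun Disjoint S.win)
  ne : ∀ e, S.src e ≠ S.tgt e
  mG : ∀ u, MeasurableSet (S.G u)
  mA : ∀ e, MeasurableSet (S.A e)
  rG : ∀ u, Conf.ReadsSet (S.O u) (S.G u)
  rA : ∀ e, Conf.ReadsSet (S.D e) (S.A e)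

/-- a field on the system -/
structure Fld (X : C → Conf E → ℂ) : Prop where
  meas : ∀ e, Measurable (X e)
  reads : ∀ e, Conf.Reads (S.D e) (X e)

/-- well-formedness, NULL-measurable events (what `pvcn_bridge_null` gives) -/
structure WF₀ (μ : Measure (Conf E)) : Prop where
  mO : ∀ u, MeasurableSet (S.O u)
  mK : ∀ e, MeasurableSet (S.K e)
  dj : Pairwise (Function.onFun Disjoint S.win)
  ne : ∀ e, S.src e ≠ S.tgt e
  mG : ∀ u, NullMeasurableSet (S.G u) μ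
  mA : ∀ e, NullMeasurableSet (S.A e) μ
  rG : ∀ u, Conf.ReadsSet (S.O u) (S.G u)
  rA : ∀ e, Conf.ReadsSet (S.D e) (S.A e)

/-- a field, a.e. measurable (what `pvcn_bridge_fun` gives) -/
structure Fld₀ (μ : Measure (Conf E)) (X : C → Conf E → ℂ) : Prop where
  meas : ∀ e, AEMeasurable (X e) μ
  reads : ∀ e, Conf.Reads (S.D e) (X e)

/-- the inner plugs are admitted, the connectors are FORCED -/
structure Forced (μ : Measure (Conf E)) (Cu : Finset U) (Cf : Finset C) (q : C → ℝ≥0∞) : Prop where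
  G_pos : ∀ u ∈ Cu, μ (S.G u) ≠ 0
  q_pos : ∀ e ∈ Cf, q e ≠ 0
  q_le : ∀ e ∈ Cf, q e ≤ 1
  frc : ∀ e ∈ Cf, ∀ σ ∈ S.G (S.src e), σ ∈ S.G (S.tgt e) → q e ≤ S.p μ e σ

/-- the same, the connectors are forced for ALMOST EVERY pair of states (degenerate states are not seen) -/
structure Forced₀ (μ : Measure (Conf E)) (Cu : Finset U) (Cf : Finset C) (q : C → ℝ≥0∞) : Prop where
  G_pos : ∀ u ∈ Cu, μ (S.G u) ≠ 0
  q_pos : ∀ e ∈ Cf, q e ≠ 0
  q_le : ∀ e ∈ Cf, q e ≤ 1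
  frc : ∀ e ∈ Cf, ∀ᵐ σ ∂μ, σ ∈ S.G (S.src e) → σ ∈ S.G (S.tgt e) → q e ≤ S.p μ e σ

/-- the same regions, a.e. equal events -/
structure AE (μ : Measure (Conf E)) (S' : PvsySys E U C) : Prop where
  O : S'.O = S.O
  K : S'.K = S.K
  src : S'.src = S.src
  tgt : S'.tgt = S.tgt
  G : ∀ u, S'.G u =ᵐ[μ] S.G u
  A : ∀ e, S'.A e =ᵐ[μ] S.A e

/-- **THE ENGINE SYSTEM** (DEF A0 of 175): `σ_u = restr (O u)`, `ξ_e = restr (K e)` -/
noncomputable def toEng (μ : Measure (Conf E)) (X : C → Conf E → ℂ) : PvtcSys (U ⊕ C) (Conf E) ℂ where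
  ν i := μ.map (Conf.restr (S.win i))
  G := Sum.elim S.G fun _ => univ
  src := Sum.elim Sum.inl fun e => Sum.inl (S.src e)
  tgt := Sum.elim Sum.inl fun e => Sum.inl (S.tgt e)
  A := Sum.elim (fun _ => univ) fun e => S.glue e ⁻¹' S.A e
  X := Sum.elim (fun _ _ => 0) fun e z => X e (S.glue e z)

end PvsySys

/-- inner plugs, as indices of the engine -/
def pvsyL {U : Type*} (C : Type*) (Cu : Finset U) : Finset (U ⊕ C) := Cu.map Function.Embedding.inl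

/-- connectors, as indices of the engine -/
def pvsyR (U : Type*) {C : Type*} (Cf : Finset C) : Finset (U ⊕ C) := Cf.map Function.Embedding.inr

theorem pvsy_eqns_cite : True := by
  have := @PvsySys.win.eq_1.{0, 0, 0}; have := @PvsySys.OO.eq_1.{0, 0, 0}; have := @PvsySys.D.eq_1.{0, 0, 0}; have := @PvsySys.R.eq_1.{0, 0, 0}
  have := @PvsySys.Ev.eq_1.{0, 0, 0}; have := @PvsySys.Ends.eq_1.{0, 0, 0}; have := @pvsyY.eq_1.{0, 0}; have := @PvsySys.ie.eq_1.{0, 0, 0}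
  have := @PvsySys.glue.eq_1.{0, 0, 0}; have := @PvsySys.cod.eq_1.{0, 0, 0}; have := @PvsySys.g.eq_1.{0, 0, 0}; have := @PvsySys.p.eq_1.{0, 0, 0}
  have := @PvsySys.w.eq_1.{0, 0, 0}; have := @PvsySys.Wt.eq_1.{0, 0, 0}; have := @PvsySys.Dc.eq_1.{0, 0, 0}; have := @PvsySys.y.eq_1.{0, 0, 0}
  have := @PvsySys.me.eq_1.{0, 0, 0}; have := @PvsySys.ii.eq_1.{0, 0, 0}; have := @PvsySys.kout.eq_1.{0, 0, 0}; have := @PvsySys.kin.eq_1.{0, 0, 0}
  have := @PvsySys.k.eq_1.{0, 0, 0}; have := @PvsySys.toEng.eq_1.{0, 0, 0}; have := @pvsyL.eq_1.{0, 0}; have := @pvsyR.eq_1.{0, 0}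
  trivial

/-! ## 2. the dictionary -/

section dict

variable {E : Type*} {U : Type*} {C : Type*} [MeasurableSpace E] {S : PvsySys E U C} {m : Measure E} {μ : Measure (Conf E)}
variable {X : C → Conf E → ℂ} {Cu : Finset U} {Cf : Finset C} {q : C → ℝ≥0∞}

theorem PvsySys.WF.mwin (hS : S.WF) (i : U ⊕ C) : MeasurableSet (S.win i) := by
  rcases i with u | e
  · exact hS.mO u
  · exact hS.mK e

theorem PvsySys.WF.mOO (hS : S.WF) (e : C) : MeasurableSet (S.OO e) := (hS.mO _).union (hS.mO _)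

theorem PvsySys.WF.mD (hS : S.WF) (e : C) : MeasurableSet (S.D e) := (hS.mOO e).union (hS.mK e)

theorem PvsySys.WF.mR (hS : S.WF) (Cu : Finset U) (Cf : Finset C) : MeasurableSet (S.R Cu Cf) :=
  (Finset.measurableSet_biUnion _ fun u _ => hS.mO u).union (Finset.measurableSet_biUnion _ fun e _ => hS.mK e)

theorem PvsySys.WF.dOO (hS : S.WF) {u v : U} (h : u ≠ v) : Disjoint (S.O u) (S.O v) :=
  hS.dj (i := Sum.inl u) (j := Sum.inl v) fun e => h (Sum.inl.inj e)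

theorem PvsySys.WF.dKK (hS : S.WF) {e f : C} (h : e ≠ f) : Disjoint (S.K e) (S.K f) :=
  hS.dj (i := Sum.inr e) (j := Sum.inr f) fun e => h (Sum.inr.inj e)

theorem PvsySys.WF.dOK (hS : S.WF) (u : U) (e : C) : Disjoint (S.O u) (S.K e) :=
  hS.dj (i := Sum.inl u) (j := Sum.inr e) Sum.inl_ne_inr

theorem pvsy_measurable_glue (hS : S.WF) (e : C) : Measurable (S.glue e) := by
  unfold PvsySys.glue
  have h1 : Measurable fun z : Conf E × Conf E × Conf E => Conf.restr (S.O (S.src e)) z.1 := (Conf.measurable_restr (hS.mO _)).comp measurable_fst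
  have h2 : Measurable fun z : Conf E × Conf E × Conf E => Conf.restr (S.K e) z.2.1 :=
    (Conf.measurable_restr (hS.mK _)).comp (measurable_fst.comp measurable_snd)
  have h3 : Measurable fun z : Conf E × Conf E × Conf E => Conf.restr (S.O (S.tgt e)) z.2.2 :=
    (Conf.measurable_restr (hS.mO _)).comp (measurable_snd.comp measurable_snd)
  exact Conf.measurable_union.comp (h1.prodMk (Conf.measurable_union.comp (h2.prodMk h3)))

theorem pvsy_measurable_cod (hS : S.WF) : Measurable S.cod :=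
  measurable_pi_lambda _ fun i => Conf.measurable_restr (hS.mwin i)

/-- the triple read by `e` in the coordinates of `η` glues to the restriction of `η` -/
theorem pvsy_glue_cod (S : PvsySys E U C) (μ : Measure (Conf E)) (X : C → Conf E → ℂ) (e : C) (η : Conf E) :
    S.glue e ((S.toEng μ X).tri (Sum.inr e) (S.cod η)) = Conf.restr (S.D e) η := by
  refine Conf.ext ?_
  show (η.pts ∩ S.O (S.src e)) ∩ S.O (S.src e) ∪ ((η.pts ∩ S.K e) ∩ S.K e ∪ (η.pts ∩ S.O (S.tgt e)) ∩ S.O (S.tgt e))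
    = η.pts ∩ ((S.O (S.src e) ∪ S.O (S.tgt e)) ∪ S.K e)
  ext p
  simp only [mem_inter_iff, mem_union]
  tauto

/-- **the law of the coordinates is the product law** (256) -/
theorem pvsy_law [Fintype U] [Fintype C] (h : IsPpp m μ) (hS : S.WF) (X : C → Conf E → ℂ) : μ.map S.cod = (S.toEng μ X).law :=
  h.map_restr_pi hS.mwin hS.dj

/-- resampling the region `R Cu Cf` = resampling the coordinates `Cu ∪ Cf` -/
theorem pvsy_cod_spl [DecidableEq U] [DecidableEq C] (hS : S.WF) (Cu : Finset U) (Cf : Finset C) (σ η : Conf E) :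
    S.cod (Conf.spl (S.R Cu Cf)ᶜ (σ, η)) = pvtMix (pvsyL C Cu ∪ pvsyR U Cf) (S.cod σ) (S.cod η) := by
  funext i
  rw [pvtMix_apply]
  unfold PvsySys.cod
  rcases i with u | e
  · have hR : (Sum.inl u : U ⊕ C) ∉ pvsyR U Cf := by simp [pvsyR]
    by_cases hu : u ∈ Cu
    · have hi : (Sum.inl u : U ⊕ C) ∈ pvsyL C Cu ∪ pvsyR U Cf := Finset.mem_union_left _ (by simpa [pvsyL] using hu)
      rw [if_pos hi]
      refine Conf.restr_spl_of_disjoint ?_ σ η
      refine Set.disjoint_compl_right_iff_subset.2 ?_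
      intro p hp
      exact Or.inl (mem_iUnion₂.2 ⟨u, hu, hp⟩)
    · have hi : (Sum.inl u : U ⊕ C) ∉ pvsyL C Cu ∪ pvsyR U Cf := by
        rw [Finset.mem_union, not_or]
        exact ⟨by simpa [pvsyL] using hu, hR⟩
      rw [if_neg hi]
      refine Conf.restr_spl_of_subset ?_ σ η
      intro p hp hpR
      rcases hpR with h1 | h1
      · obtain ⟨v, hv, hpv⟩ := mem_iUnion₂.1 h1
        exact Set.disjoint_left.1 (hS.dOO (u := u) (v := v) (fun huv => hu (by rw [huv]; exact hv))) hp hpv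
      · obtain ⟨f, _, hpf⟩ := mem_iUnion₂.1 h1
        exact Set.disjoint_left.1 (hS.dOK u f) hp hpf
  · have hL : (Sum.inr e : U ⊕ C) ∉ pvsyL C Cu := by simp [pvsyL]
    by_cases he : e ∈ Cf
    · have hi : (Sum.inr e : U ⊕ C) ∈ pvsyL C Cu ∪ pvsyR U Cf := Finset.mem_union_right _ (by simpa [pvsyR] using he)
      rw [if_pos hi]
      refine Conf.restr_spl_of_disjoint ?_ σ η
      refine Set.disjoint_compl_right_iff_subset.2 ?_
      intro p hp
      exact Or.inr (mem_iUnion₂.2 ⟨e, he, hp⟩)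
    · have hi : (Sum.inr e : U ⊕ C) ∉ pvsyL C Cu ∪ pvsyR U Cf := by
        rw [Finset.mem_union, not_or]
        exact ⟨hL, by simpa [pvsyR] using he⟩
      rw [if_neg hi]
      refine Conf.restr_spl_of_subset ?_ σ η
      intro p hp hpR
      rcases hpR with h1 | h1
      · obtain ⟨v, _, hpv⟩ := mem_iUnion₂.1 h1
        exact Set.disjoint_left.1 (hS.dOK v e) hpv hp
      · obtain ⟨f, hf, hpf⟩ := mem_iUnion₂.1 h1
        exact Set.disjoint_left.1 (hS.dKK (e := e) (f := f) (fun hef => he (by rw [hef]; exact hf))) hp hpf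

/-- the glued triple is what `A e` reads of the split configuration -/
theorem pvsyq_restr_spl (hS : S.WF) (e : C) (σ σ' η : Conf E) :
    Conf.restr (S.D e) (Conf.spl (S.OO e) (Conf.union (Conf.restr (S.O (S.src e)) σ) (Conf.restr (S.O (S.tgt e)) σ'), η))
      = S.glue e (σ, Conf.restr (S.K e) η, σ') := by
  have d1 := Set.disjoint_left.1 (hS.dOK (S.src e) e)
  have d2 := Set.disjoint_left.1 (hS.dOK (S.tgt e) e)
  refine Conf.ext ?_
  show (((σ.pts ∩ S.O (S.src e) ∪ σ'.pts ∩ S.O (S.tgt e)) ∩ (S.O (S.src e) ∪ S.O (S.tgt e))) ∪ η.pts ∩ (S.O (S.src e) ∪ S.O (S.tgt e))ᶜ)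
      ∩ ((S.O (S.src e) ∪ S.O (S.tgt e)) ∪ S.K e)
    = σ.pts ∩ S.O (S.src e) ∪ ((η.pts ∩ S.K e) ∩ S.K e ∪ σ'.pts ∩ S.O (S.tgt e))
  ext p
  have d1p := @d1 p
  have d2p := @d2 p
  simp only [mem_inter_iff, mem_union, mem_compl_iff]
  tauto

/-- `p_e` of the engine, at ANY pair of configurations -/
theorem pvsy_p_eng (h : IsPpp m μ) (hS : S.WF) (X : C → Conf E → ℂ) (e : C) (σ σ' : Conf E) :
    (S.toEng μ X).p (Sum.inr e) σ σ' = S.p μ e (Conf.union (Conf.restr (S.O (S.src e)) σ) (Conf.restr (S.O (S.tgt e)) σ')) := by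
  have hmz : Measurable fun ξ : Conf E => ((σ, ξ, σ') : Conf E × Conf E × Conf E) := by fun_prop
  have hms : MeasurableSet {ξ : Conf E | S.glue e (σ, ξ, σ') ∈ S.A e} := ((pvsy_measurable_glue hS e).comp hmz) (hS.mA e)
  show (μ.map (Conf.restr (S.K e))) {ξ : Conf E | S.glue e (σ, ξ, σ') ∈ S.A e} = _
  rw [Measure.map_apply (Conf.measurable_restr (hS.mK e)) hms]
  unfold PvsySys.p pvtiP
  have hset : MeasurableSet (Conf.restr (S.K e) ⁻¹' {ξ : Conf E | S.glue e (σ, ξ, σ') ∈ S.A e}) := Conf.measurable_restr (hS.mK e) hms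
  rw [← lintegral_indicator_one hset]
  refine lintegral_congr fun η => ?_
  have hiff : η ∈ Conf.restr (S.K e) ⁻¹' {ξ : Conf E | S.glue e (σ, ξ, σ') ∈ S.A e} ↔
      Conf.spl (S.OO e) (Conf.union (Conf.restr (S.O (S.src e)) σ) (Conf.restr (S.O (S.tgt e)) σ'), η) ∈ S.A e := by
    rw [← hS.rA e, pvsyq_restr_spl hS e σ σ' η]
    exact Iff.rfl
  by_cases hη : η ∈ Conf.restr (S.K e) ⁻¹' {ξ : Conf E | S.glue e (σ, ξ, σ') ∈ S.A e}
  · rw [indicator_of_mem hη, indicator_of_mem (hiff.1 hη)]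
    rfl
  · rw [indicator_of_notMem hη, indicator_of_notMem fun h' => hη (hiff.2 h')]

theorem pvsy_p_cod (h : IsPpp m μ) (hS : S.WF) (X : C → Conf E → ℂ) (e : C) (η : Conf E) :
    (S.toEng μ X).p (Sum.inr e) (S.cod η (Sum.inl (S.src e))) (S.cod η (Sum.inl (S.tgt e))) = S.p μ e η := by
  rw [pvsy_p_eng h hS X e]
  have e1 : Conf.union (Conf.restr (S.O (S.src e)) (S.cod η (Sum.inl (S.src e)))) (Conf.restr (S.O (S.tgt e)) (S.cod η (Sum.inl (S.tgt e))))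
      = Conf.restr (S.OO e) η := by
    refine Conf.ext ?_
    show (η.pts ∩ S.O (S.src e)) ∩ S.O (S.src e) ∪ (η.pts ∩ S.O (S.tgt e)) ∩ S.O (S.tgt e) = η.pts ∩ (S.O (S.src e) ∪ S.O (S.tgt e))
    ext p
    simp only [mem_inter_iff, mem_union]
    tauto
  rw [e1]
  exact pvti_P_reads μ (S.OO e) (S.A e) η

/-- **the hypotheses of the engine** -/
theorem pvsy_ok (h : IsPpp m μ) (hS : S.WF) (hX : S.Fld X) (hF : S.Forced μ Cu Cf q) :
    (S.toEng μ X).Ok (pvsyL C Cu) (pvsyR U Cf) (Sum.elim (fun _ => 1) q) := by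
  have hp := h.prob
  refine ⟨?_, ?_, ?_, ?_, ?_, ?_, ?_, ?_, ?_, ?_⟩
  · intro i
    exact Measure.isProbabilityMeasure_map (Conf.measurable_restr (hS.mwin i)).aemeasurable
  · rintro (u | e)
    · exact hS.mG u
    · exact MeasurableSet.univ
  · rintro (u | e)
    · exact MeasurableSet.univ
    · exact pvsy_measurable_glue hS e (hS.mA e)
  · rintro (u | e)
    · exact stronglyMeasurable_const
    · exact ((hX.meas e).comp (pvsy_measurable_glue hS e)).stronglyMeasurable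
  · rw [Finset.disjoint_left]
    intro i hi hi'
    obtain ⟨u, _, rfl⟩ := Finset.mem_map.1 hi
    obtain ⟨e, _, he⟩ := Finset.mem_map.1 hi'
    exact Sum.inr_ne_inl he
  · intro i hi hi'
    obtain ⟨e, _, rfl⟩ := Finset.mem_map.1 hi
    obtain ⟨f, _, hf⟩ := Finset.mem_map.1 hi'
    exact Sum.inr_ne_inl hf
  · intro i hi hi'
    obtain ⟨e, _, rfl⟩ := Finset.mem_map.1 hi
    obtain ⟨f, _, hf⟩ := Finset.mem_map.1 hi'
    exact Sum.inr_ne_inl hf
  · intro i hi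
    obtain ⟨u, hu, rfl⟩ := Finset.mem_map.1 hi
    show (μ.map (Conf.restr (S.O u))) (S.G u) ≠ 0
    rw [Measure.map_apply (Conf.measurable_restr (hS.mO u)) (hS.mG u), (hS.rG u).preimage_eq]
    exact hF.G_pos u hu
  · intro i hi
    obtain ⟨e, he, rfl⟩ := Finset.mem_map.1 hi
    exact hF.q_pos e he
  · intro i hi σ hσ σ' hσ'
    obtain ⟨e, he, rfl⟩ := Finset.mem_map.1 hi
    have hσ : σ ∈ S.G (S.src e) := hσ
    have hσ' : σ' ∈ S.G (S.tgt e) := hσ'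
    show q e ≤ (S.toEng μ X).p (Sum.inr e) σ σ'
    rw [pvsy_p_eng h hS X e]
    have dd := Set.disjoint_left.1 (hS.dOO (hS.ne e))
    refine hF.frc e he _ ?_ ?_
    · rw [← hS.rG (S.src e)] at hσ ⊢
      have e1 : Conf.restr (S.O (S.src e)) (Conf.union (Conf.restr (S.O (S.src e)) σ) (Conf.restr (S.O (S.tgt e)) σ')) = Conf.restr (S.O (S.src e)) σ := by
        refine Conf.ext ?_
        show (σ.pts ∩ S.O (S.src e) ∪ σ'.pts ∩ S.O (S.tgt e)) ∩ S.O (S.src e) = σ.pts ∩ S.O (S.src e)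
        ext p
        have ddp := @dd p
        simp only [mem_inter_iff, mem_union]
        tauto
      rw [e1]; exact hσ
    · rw [← hS.rG (S.tgt e)] at hσ' ⊢
      have e1 : Conf.restr (S.O (S.tgt e)) (Conf.union (Conf.restr (S.O (S.src e)) σ) (Conf.restr (S.O (S.tgt e)) σ')) = Conf.restr (S.O (S.tgt e)) σ' := by
        refine Conf.ext ?_
        show (σ.pts ∩ S.O (S.src e) ∪ σ'.pts ∩ S.O (S.tgt e)) ∩ S.O (S.tgt e) = σ'.pts ∩ S.O (S.tgt e)
        ext p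
        have ddp := @dd p
        simp only [mem_inter_iff, mem_union]
        tauto
      rw [e1]; exact hσ'

/-- the law of the state of a plug gives `G u` its mass -/
theorem pvsy_nu_G (hS : S.WF) (μ : Measure (Conf E)) (X : C → Conf E → ℂ) (u : U) :
    (S.toEng μ X).ν (Sum.inl u) ((S.toEng μ X).G (Sum.inl u)) = μ (S.G u) := by
  show (μ.map (Conf.restr (S.O u))) (S.G u) = μ (S.G u)
  rw [Measure.map_apply (Conf.measurable_restr (hS.mO u)) (hS.mG u), (hS.rG u).preimage_eq]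

theorem pvsy_g_cod (hS : S.WF) (μ : Measure (Conf E)) (X : C → Conf E → ℂ) (u : U) (η : Conf E) :
    (S.toEng μ X).g (Sum.inl u) (S.cod η (Sum.inl u)) = S.g μ u η := by
  unfold PvtcSys.g PvsySys.g
  rw [pvsy_nu_G hS]
  show (S.G u).indicator (fun _ => (μ (S.G u))⁻¹) (Conf.restr (S.O u) η) = _
  by_cases hη : η ∈ S.G u
  · rw [Set.indicator_of_mem ((hS.rG u η).2 hη), Set.indicator_of_mem hη, Pi.one_apply, one_div]
  · rw [Set.indicator_of_notMem (fun h => hη ((hS.rG u η).1 h)), Set.indicator_of_notMem hη, ENNReal.zero_div]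

theorem pvsy_tri_mem (hS : S.WF) (μ : Measure (Conf E)) (X : C → Conf E → ℂ) (e : C) (η : Conf E) :
    (S.toEng μ X).tri (Sum.inr e) (S.cod η) ∈ (S.toEng μ X).A (Sum.inr e) ↔ η ∈ S.A e := by
  show S.glue e ((S.toEng μ X).tri (Sum.inr e) (S.cod η)) ∈ S.A e ↔ _
  rw [pvsy_glue_cod]
  exact hS.rA e η

theorem pvsy_w_cod (h : IsPpp m μ) (hS : S.WF) (X : C → Conf E → ℂ) (e : C) (η : Conf E) :
    (S.toEng μ X).w (Sum.inr e) ((S.toEng μ X).tri (Sum.inr e) (S.cod η)) = S.w μ e η := by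
  unfold PvtcSys.w PvsySys.w pvtiW
  by_cases hη : η ∈ S.A e
  · rw [Set.indicator_of_mem ((pvsy_tri_mem hS μ X e η).2 hη), Set.indicator_of_mem hη, Pi.one_apply, one_div]
    congr 1
    exact pvsy_p_cod h hS X e η
  · rw [Set.indicator_of_notMem (fun h => hη ((pvsy_tri_mem hS μ X e η).1 h)), Set.indicator_of_notMem hη, ENNReal.zero_div]

theorem pvsy_W_cod (h : IsPpp m μ) (hS : S.WF) (X : C → Conf E → ℂ) (Cu : Finset U) (Cf : Finset C) (η : Conf E) :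
    (S.toEng μ X).W (pvsyL C Cu) (pvsyR U Cf) (S.cod η) = S.Wt μ Cu Cf η := by
  unfold PvtcSys.W PvsySys.Wt pvsyL pvsyR
  rw [Finset.prod_map, Finset.prod_map]
  congr 1
  · exact Finset.prod_congr rfl fun u _ => pvsy_g_cod hS μ X u η
  · exact Finset.prod_congr rfl fun e _ => pvsy_w_cod h hS X e η

theorem pvsy_D_cod (hS : S.WF) (X : C → Conf E → ℂ) (Cu : Finset U) (Cf : Finset C) (q : C → ℝ≥0∞) :
    (S.toEng μ X).D (pvsyL C Cu) (pvsyR U Cf) (Sum.elim (fun _ => 1) q) = S.Dc μ Cu Cf q := by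
  unfold PvtcSys.D PvsySys.Dc pvsyL pvsyR
  rw [Finset.prod_map, Finset.prod_map]
  congr 1
  exact Finset.prod_congr rfl fun u _ => by
    show ((S.toEng μ X).ν (Sum.inl u) ((S.toEng μ X).G (Sum.inl u)))⁻¹ = _
    rw [pvsy_nu_G hS]

theorem pvsy_Y_cod (hX : S.Fld X) (μ : Measure (Conf E)) (Cf : Finset C) (η : Conf E) :
    (S.toEng μ X).Y (pvsyR U Cf) (S.cod η) = pvsyY X Cf η := by
  unfold PvtcSys.Y pvsyY pvsyR
  rw [Finset.sum_map]
  refine Finset.sum_congr rfl fun e _ => ?_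
  show X e (S.glue e ((S.toEng μ X).tri (Sum.inr e) (S.cod η))) = X e η
  rw [pvsy_glue_cod]
  exact hX.reads e η

theorem pvsy_good_cod (hS : S.WF) (μ : Measure (Conf E)) (X : C → Conf E → ℂ) (Cu : Finset U) (Cf : Finset C) (η : Conf E) :
    S.cod η ∈ (S.toEng μ X).good (pvsyL C Cu) (pvsyR U Cf) ↔ η ∈ S.Ev Cu Cf := by
  unfold PvtcSys.good PvsySys.Ev pvsyL pvsyR
  simp only [Set.mem_ofPred_eq, Finset.mem_map, Function.Embedding.inl_apply, Function.Embedding.inr_apply, forall_exists_index, and_imp,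
    forall_apply_eq_imp_iff₂]
  refine and_congr (forall₂_congr fun u _ => ?_) (forall₂_congr fun e _ => pvsy_tri_mem hS μ X e η)
  exact hS.rG u η

theorem pvsy_ends_cod (hS : S.WF) (μ : Measure (Conf E)) (X : C → Conf E → ℂ) (Cu : Finset U) (Cf : Finset C) (η : Conf E) :
    S.cod η ∈ (S.toEng μ X).ends (pvsyL C Cu) (pvsyR U Cf) ↔ η ∈ S.Ends Cu Cf := by
  unfold PvtcSys.ends PvsySys.Ends pvsyL pvsyR
  simp only [Set.mem_ofPred_eq, Finset.mem_map, Function.Embedding.inl_apply, Function.Embedding.inr_apply, forall_exists_index, and_imp,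
    forall_apply_eq_imp_iff₂]
  refine forall₂_congr fun e _ => ?_
  have a1 : ∀ v : U, (¬ ∃ a ∈ Cu, (Sum.inl a : U ⊕ C) = Sum.inl v) ↔ v ∉ Cu := fun v => by simp
  refine and_congr (imp_congr (a1 _) (hS.rG _ η)) (imp_congr (a1 _) (hS.rG _ η))

/-- the mean of the engine is the mean of 141 -/
theorem pvsy_y_cod [Fintype U] [Fintype C] [DecidableEq U] [DecidableEq C] (h : IsPpp m μ) (hS : S.WF) (hX : S.Fld X)
    (Cu : Finset U) (Cf : Finset C) (σ : Conf E) :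
    (S.toEng μ X).y (pvsyL C Cu) (pvsyR U Cf) (S.cod σ) = S.y μ X Cu Cf σ := by
  have := h.prob
  have hF0 : S.Forced μ (∅ : Finset U) (∅ : Finset C) (fun _ => 1) := ⟨by simp, by simp, by simp, by simp⟩
  have hok := pvsy_ok h hS hX hF0
  have hmix : Measurable fun y : U ⊕ C → Conf E => pvtMix (pvsyL C Cu ∪ pvsyR U Cf) (S.cod σ) y := pvtc_measurable_mix_right _ _
  have hg : Measurable fun y => (S.toEng μ X).W (pvsyL C Cu) (pvsyR U Cf) (pvtMix (pvsyL C Cu ∪ pvsyR U Cf) (S.cod σ) y) :=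
    (hok.measurable_W _ _).comp hmix
  have hf : StronglyMeasurable fun y => (S.toEng μ X).Y (pvsyR U Cf) (pvtMix (pvsyL C Cu ∪ pvsyR U Cf) (S.cod σ) y) :=
    (hok.stronglyMeasurable_Y _).comp_measurable hmix
  have hcod := pvsy_measurable_cod hS
  have hwd : (μ.map S.cod).withDensity (fun y => (S.toEng μ X).W (pvsyL C Cu) (pvsyR U Cf) (pvtMix (pvsyL C Cu ∪ pvsyR U Cf) (S.cod σ) y))
      = (μ.withDensity fun η => (S.toEng μ X).W (pvsyL C Cu) (pvsyR U Cf) (pvtMix (pvsyL C Cu ∪ pvsyR U Cf) (S.cod σ) (S.cod η))).map S.cod := by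
    ext s hs
    rw [withDensity_apply _ hs, Measure.map_apply hcod hs, withDensity_apply _ (hcod hs), setLIntegral_map hs hg hcod]
  unfold PvtcSys.y pvtcMean PvsySys.y pvtiMean
  rw [← pvsy_law h hS X]
  show ∫ y, (S.toEng μ X).Y (pvsyR U Cf) (pvtMix (pvsyL C Cu ∪ pvsyR U Cf) (S.cod σ) y)
    ∂((μ.map S.cod).withDensity fun y => (S.toEng μ X).W (pvsyL C Cu) (pvsyR U Cf) (pvtMix (pvsyL C Cu ∪ pvsyR U Cf) (S.cod σ) y)) = _
  rw [hwd, integral_map hcod.aemeasurable hf.aestronglyMeasurable]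
  simp only [← pvsy_cod_spl hS, pvsy_W_cod h hS, pvsy_Y_cod hX]

end dict

/-! ## 3. measurability, reading -/

section meas

variable {E : Type*} {U : Type*} {C : Type*} [MeasurableSpace E] {S : PvsySys E U C} {m : Measure E} {μ : Measure (Conf E)}
variable {X : C → Conf E → ℂ} {Cu : Finset U} {Cf : Finset C} {q : C → ℝ≥0∞}

theorem pvsy_measurable_g (hS : S.WF) (μ : Measure (Conf E)) (u : U) : Measurable (S.g μ u) :=
  (measurable_one.indicator (hS.mG u)).div_const _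

theorem pvsy_measurable_w [SFinite μ] (hS : S.WF) (e : C) : Measurable (S.w μ e) :=
  (measurable_one.indicator (hS.mA e)).div (pvti_P_measurable (hS.mOO e) (hS.mA e))

theorem pvsy_measurable_Wt [SFinite μ] (hS : S.WF) (Cu : Finset U) (Cf : Finset C) : Measurable (S.Wt μ Cu Cf) :=
  (Finset.measurable_prod _ fun u _ => pvsy_measurable_g hS μ u).mul (Finset.measurable_prod _ fun e _ => pvsy_measurable_w hS e)

theorem pvsy_measurable_Y (hX : S.Fld X) (Cf : Finset C) : Measurable (pvsyY X Cf) :=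
  Finset.measurable_sum _ fun e _ => hX.meas e

theorem pvsy_measurableSet_Ev (hS : S.WF) (Cu : Finset U) (Cf : Finset C) : MeasurableSet (S.Ev Cu Cf) := by
  have e : S.Ev Cu Cf = (⋂ u ∈ Cu, S.G u) ∩ ⋂ e ∈ Cf, S.A e := by
    ext η
    simp [PvsySys.Ev]
  rw [e]
  exact (Finset.measurableSet_biInter _ fun u _ => hS.mG u).inter (Finset.measurableSet_biInter _ fun e _ => hS.mA e)

theorem pvsy_measurableSet_Ends (hS : S.WF) (Cu : Finset U) (Cf : Finset C) : MeasurableSet (S.Ends Cu Cf) := by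
  have e1 : S.Ends Cu Cf = ⋂ e ∈ Cf, ({η | S.src e ∉ Cu → η ∈ S.G (S.src e)} ∩ {η | S.tgt e ∉ Cu → η ∈ S.G (S.tgt e)}) := by
    ext η
    simp only [PvsySys.Ends, mem_ofPred_eq, mem_iInter, mem_inter_iff]
  have key : ∀ u : U, MeasurableSet {η | u ∉ Cu → η ∈ S.G u} := by
    intro u
    by_cases h : u ∉ Cu
    · have : {η | u ∉ Cu → η ∈ S.G u} = S.G u := by
        ext η
        exact ⟨fun h1 => h1 h, fun h1 _ => h1⟩
      rw [this]
      exact hS.mG u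
    · have : {η | u ∉ Cu → η ∈ S.G u} = univ := by
        ext η
        exact ⟨fun _ => trivial, fun _ h1 => absurd h1 h⟩
      rw [this]
      exact MeasurableSet.univ
  rw [e1]
  exact Finset.measurableSet_biInter _ fun e _ => (key _).inter (key _)

/-- the marked plugs are not resampled -/
theorem pvsy_reads_Ends (hS : S.WF) (Cu : Finset U) (Cf : Finset C) : Conf.ReadsSet (S.R Cu Cf)ᶜ (S.Ends Cu Cf) := by
  have sub : ∀ u : U, u ∉ Cu → S.O u ⊆ (S.R Cu Cf)ᶜ := by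
    intro u hu z hz hR
    rcases hR with hR | hR
    · obtain ⟨v, hv, hzv⟩ := mem_iUnion₂.1 hR
      exact Set.disjoint_left.1 (hS.dOO (fun h : u = v => hu (h ▸ hv))) hz hzv
    · obtain ⟨e, -, hze⟩ := mem_iUnion₂.1 hR
      exact Set.disjoint_left.1 (hS.dOK u e) hz hze
  intro η
  exact forall₂_congr fun e _ => and_congr (imp_congr_right fun h => ((hS.rG _).mono (sub _ h)) η) (imp_congr_right fun h => ((hS.rG _).mono (sub _ h)) η)

theorem pvsy_reads_g (hS : S.WF) (μ : Measure (Conf E)) (u : U) : Conf.Reads (S.O u) (S.g μ u) := by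
  intro η
  show (S.G u).indicator 1 (Conf.restr (S.O u) η) / μ (S.G u) = (S.G u).indicator 1 η / μ (S.G u)
  rw [pvti_ind_reads (Conf.readsSet_iff_reads.1 (hS.rG u)) η]

theorem pvsy_reads_w (hS : S.WF) (μ : Measure (Conf E)) (e : C) : Conf.Reads (S.D e) (S.w μ e) := by
  intro η
  have h1 : Conf.Reads (S.D e) (pvtiP μ (S.OO e) (S.A e)) := (pvti_P_reads μ (S.OO e) (S.A e)).mono (subset_union_left : S.OO e ⊆ S.OO e ∪ S.K e)
  show (S.A e).indicator 1 (Conf.restr (S.D e) η) / pvtiP μ (S.OO e) (S.A e) (Conf.restr (S.D e) η) = (S.A e).indicator 1 η / pvtiP μ (S.OO e) (S.A e) η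
  rw [pvti_ind_reads (Conf.readsSet_iff_reads.1 (hS.rA e)) η, h1 η]

/-- the MARKED region of an experiment -/
def PvsySys.Mk (S : PvsySys E U C) (Cu : Finset U) (Cf : Finset C) : Set E := (⋃ e ∈ Cf, S.OO e) \ S.R Cu Cf

theorem pvsy_eqns_cite2 : True := by
  have := @PvsySys.Mk.eq_1.{0, 0, 0}
  trivial

/-- the weight reads the marked and the resampled regions -/
theorem pvsy_reads_Wt (hS : S.WF) (μ : Measure (Conf E)) (Cu : Finset U) (Cf : Finset C) : Conf.Reads (S.Mk Cu Cf ∪ S.R Cu Cf) (S.Wt μ Cu Cf) := by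
  have s1 : ∀ u ∈ Cu, S.O u ⊆ S.Mk Cu Cf ∪ S.R Cu Cf := fun u hu z hz => Or.inr (Or.inl (mem_iUnion₂.2 ⟨u, hu, hz⟩))
  have s2 : ∀ e ∈ Cf, S.D e ⊆ S.Mk Cu Cf ∪ S.R Cu Cf := by
    rintro e he z (hz | hz)
    · by_cases hR : z ∈ S.R Cu Cf
      · exact Or.inr hR
      · exact Or.inl ⟨mem_iUnion₂.2 ⟨e, he, hz⟩, hR⟩
    · exact Or.inr (Or.inr (mem_iUnion₂.2 ⟨e, he, hz⟩))
  intro η
  unfold PvsySys.Wt
  rw [Finset.prod_congr rfl fun u hu => ((pvsy_reads_g hS μ u).mono (s1 u hu)) η, Finset.prod_congr rfl fun e he => ((pvsy_reads_w hS μ e).mono (s2 e he)) η]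

theorem pvsy_reads_Y (hX : S.Fld X) (Cu : Finset U) (Cf : Finset C) : Conf.Reads (S.Mk Cu Cf ∪ S.R Cu Cf) (pvsyY X Cf) := by
  intro η
  unfold pvsyY
  refine Finset.sum_congr rfl fun e he => ?_
  refine (hX.reads e).mono ?_ η
  rintro p (hp | hp)
  · by_cases hR : p ∈ S.R Cu Cf
    · exact Or.inr hR
    · exact Or.inl ⟨mem_iUnion₂.2 ⟨e, he, hp⟩, hR⟩
  · exact Or.inr (Or.inr (mem_iUnion₂.2 ⟨e, he, hp⟩))

/-- **`y_c` is a function of the marked states** -/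
theorem pvsy_reads_y (hS : S.WF) (hX : S.Fld X) (μ : Measure (Conf E)) (Cu : Finset U) (Cf : Finset C) : Conf.Reads (S.Mk Cu Cf) (S.y μ X Cu Cf) := by
  have e : S.y μ X Cu Cf = pvtiMean μ (S.Mk Cu Cf) (S.Wt μ Cu Cf) (pvsyY X Cf) := by
    funext σ
    have hMk : S.Mk Cu Cf ⊆ (S.R Cu Cf)ᶜ := fun p hp => hp.2
    have hW : (fun η => S.Wt μ Cu Cf (Conf.spl (S.R Cu Cf)ᶜ (σ, η))) = fun η => S.Wt μ Cu Cf (Conf.spl (S.Mk Cu Cf) (σ, η)) :=
      funext fun η => (pvsy_reads_Wt hS μ Cu Cf).spl_change hMk disjoint_compl_right σ η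
    have hY : (fun η => pvsyY X Cf (Conf.spl (S.R Cu Cf)ᶜ (σ, η))) = fun η => pvsyY X Cf (Conf.spl (S.Mk Cu Cf) (σ, η)) :=
      funext fun η => (pvsy_reads_Y hX Cu Cf).spl_change hMk disjoint_compl_right σ η
    unfold PvsySys.y pvtiMean
    rw [hW, hY]
  rw [e]
  exact pvti_mean_reads μ _ _ _

/-- the mean may be computed by keeping ANY region `O` between the marked region and the complement of the resampled region (the form of `pvti_n1`, `pvti_n1_fam`) -/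
theorem pvsy_y_eq_mean (hS : S.WF) (hX : S.Fld X) (μ : Measure (Conf E)) (Cu : Finset U) (Cf : Finset C) {O : Set E} (h1 : S.Mk Cu Cf ⊆ O)
    (h2 : Disjoint O (S.R Cu Cf)) : S.y μ X Cu Cf = pvtiMean μ O (S.Wt μ Cu Cf) (pvsyY X Cf) := by
  funext σ
  have hMk : S.Mk Cu Cf ⊆ (S.R Cu Cf)ᶜ := fun p hp => hp.2
  have hW : (fun η => S.Wt μ Cu Cf (Conf.spl (S.R Cu Cf)ᶜ (σ, η))) = fun η => S.Wt μ Cu Cf (Conf.spl O (σ, η)) :=
    funext fun η => ((pvsy_reads_Wt hS μ Cu Cf).spl_change hMk disjoint_compl_right σ η).trans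
      ((pvsy_reads_Wt hS μ Cu Cf).spl_change h1 h2.symm σ η).symm
  have hY : (fun η => pvsyY X Cf (Conf.spl (S.R Cu Cf)ᶜ (σ, η))) = fun η => pvsyY X Cf (Conf.spl O (σ, η)) :=
    funext fun η => ((pvsy_reads_Y hX Cu Cf).spl_change hMk disjoint_compl_right σ η).trans
      ((pvsy_reads_Y hX Cu Cf).spl_change h1 h2.symm σ η).symm
  unfold PvsySys.y pvtiMean
  rw [hW, hY]

/-- a kernel with an arbitrary (possibly infinite) measurable density is s-finite -/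
theorem pvsy_sfinite_withDensity {α β : Type*} [MeasurableSpace α] [MeasurableSpace β] (κ : Kernel α β) [IsSFiniteKernel κ] {w : α → β → ℝ≥0∞}
    (hw : Measurable (Function.uncurry w)) : IsSFiniteKernel (Kernel.withDensity κ w) := by
  have hS : MeasurableSet {z : α × β | Function.uncurry w z = ∞} := hw (measurableSet_singleton ∞)
  obtain ⟨f0, hf0⟩ : ∃ f0 : α → β → ℝ≥0∞, f0 = fun a b => ({z : α × β | Function.uncurry w z = ∞}ᶜ).indicator (Function.uncurry w) (a, b) := ⟨_, rfl⟩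
  obtain ⟨f1, hf1⟩ : ∃ f1 : α → β → ℝ≥0∞, f1 = fun a b => ({z : α × β | Function.uncurry w z = ∞}).indicator (fun _ => 1) (a, b) := ⟨_, rfl⟩
  have m0 : Measurable (Function.uncurry f0) := by
    rw [hf0]
    exact hw.indicator hS.compl
  have m1 : Measurable (Function.uncurry f1) := by
    rw [hf1]
    exact measurable_const.indicator hS
  have t0 : ∀ a b, f0 a b ≠ ∞ := by
    intro a b
    rw [hf0]
    by_cases h : w a b = ∞
    · have : ((a, b) : α × β) ∉ {z : α × β | Function.uncurry w z = ∞}ᶜ := fun h' => h' h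
      simp only [indicator_of_notMem this]
      exact ENNReal.zero_ne_top
    · have : ((a, b) : α × β) ∈ {z : α × β | Function.uncurry w z = ∞}ᶜ := h
      simp only [indicator_of_mem this]
      exact h
  have t1 : ∀ a b, f1 a b ≠ ∞ := by
    intro a b
    rw [hf1]
    by_cases h : w a b = ∞
    · have : ((a, b) : α × β) ∈ {z : α × β | Function.uncurry w z = ∞} := h
      simp only [indicator_of_mem this]
      exact ENNReal.one_ne_top
    · have : ((a, b) : α × β) ∉ {z : α × β | Function.uncurry w z = ∞} := h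
      simp only [indicator_of_notMem this]
      exact ENNReal.zero_ne_top
  have hsum1 : (∑' _ : ℕ, f1) = fun a b => ∞ * f1 a b := by
    funext a b
    rw [tsum_apply (Pi.summable.2 fun a => Pi.summable.2 fun b => ENNReal.summable), tsum_apply (Pi.summable.2 fun b => ENNReal.summable)]
    rw [ENNReal.tsum_const]
    simp
  have hw' : w = f0 + ∑' _ : ℕ, f1 := by
    rw [hsum1]
    funext a b
    rw [hf0, hf1]
    by_cases h : w a b = ∞
    · have h1 : ((a, b) : α × β) ∈ {z : α × β | Function.uncurry w z = ∞} := h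
      have h2 : ((a, b) : α × β) ∉ {z : α × β | Function.uncurry w z = ∞}ᶜ := fun h' => h' h
      simp only [Pi.add_apply, indicator_of_mem h1, indicator_of_notMem h2]
      simp [h]
    · have h1 : ((a, b) : α × β) ∉ {z : α × β | Function.uncurry w z = ∞} := h
      have h2 : ((a, b) : α × β) ∈ {z : α × β | Function.uncurry w z = ∞}ᶜ := h
      simp only [Pi.add_apply, indicator_of_notMem h1, indicator_of_mem h2]
      simp [Function.uncurry]
  have i0 : IsSFiniteKernel (Kernel.withDensity κ f0) := Kernel.IsSFiniteKernel.withDensity κ t0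
  have i1 : IsSFiniteKernel (Kernel.withDensity κ (∑' _ : ℕ, f1)) := by
    rw [Kernel.withDensity_tsum κ fun _ => m1]
    exact Kernel.isSFiniteKernel_sum (hκs := fun n => Kernel.IsSFiniteKernel.withDensity κ t1)
  have m1' : Measurable (Function.uncurry (∑' _ : ℕ, f1)) := by
    rw [hsum1]
    exact m1.const_mul ∞
  rw [hw', Kernel.withDensity_add_right m0 m1']
  infer_instance

/-- a mean under a parametrised density is measurable in the parameter -/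
theorem pvsy_stronglyMeasurable_mean {α β : Type*} [MeasurableSpace α] [MeasurableSpace β] (μ : Measure β) [SFinite μ] {w : α → β → ℝ≥0∞}
    (hw : Measurable (Function.uncurry w)) {f : α × β → ℂ} (hf : StronglyMeasurable f) :
    StronglyMeasurable fun a => ∫ b, f (a, b) ∂(μ.withDensity (w a)) := by
  have := pvsy_sfinite_withDensity (Kernel.const α μ) hw
  have h1 := hf.integral_kernel_prod_right' (κ := Kernel.withDensity (Kernel.const α μ) w)
  have h2 : ∀ a, Kernel.withDensity (Kernel.const α μ) w a = μ.withDensity (w a) := fun a => by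
    rw [Kernel.withDensity_apply _ hw, Kernel.const_apply]
  simpa only [h2] using h1

theorem pvsy_measurable_y (h : IsPpp m μ) (hS : S.WF) (hX : S.Fld X) (Cu : Finset U) (Cf : Finset C) : Measurable (S.y μ X Cu Cf) := by
  have := h.prob
  have hspl : Measurable (Conf.spl (S.R Cu Cf)ᶜ : Conf E × Conf E → Conf E) := Conf.measurable_spl (hS.mR Cu Cf).compl
  have hw : Measurable (Function.uncurry fun σ η : Conf E => S.Wt μ Cu Cf (Conf.spl (S.R Cu Cf)ᶜ (σ, η))) :=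
    (pvsy_measurable_Wt hS Cu Cf).comp hspl
  have hf : StronglyMeasurable fun z : Conf E × Conf E => pvsyY X Cf (Conf.spl (S.R Cu Cf)ᶜ z) :=
    ((pvsy_measurable_Y hX Cf).comp hspl).stronglyMeasurable
  exact (pvsy_stronglyMeasurable_mean μ hw hf).measurable

end meas

/-! ## 4. the exits: TR1, TR2, TR3, TR3', TR5 on `Conf E` -/

section exits

variable {E : Type*} {U : Type*} {C : Type*} [MeasurableSpace E] [Fintype U] [Fintype C] [DecidableEq U] [DecidableEq C]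
variable {S : PvsySys E U C} {m : Measure E} {μ : Measure (Conf E)} {X : C → Conf E → ℂ} {Cu : Finset U} {Cf : Finset C} {q : C → ℝ≥0∞}

/-- **TR1 (a)**: given usable marked states the weight has mass one -/
theorem pvsy_mass (h : IsPpp m μ) (hS : S.WF) (hF : S.Forced μ Cu Cf q) {σ : Conf E} (hσ : σ ∈ S.Ends Cu Cf) :
    ∫⁻ η, S.Wt μ Cu Cf (Conf.spl (S.R Cu Cf)ᶜ (σ, η)) ∂μ = 1 := by
  have hX : S.Fld (fun _ _ => (0 : ℂ)) := ⟨fun _ => measurable_const, fun _ _ => rfl⟩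
  have hok := pvsy_ok h hS hX hF
  have key := hok.lintegral_W ((pvsy_ends_cod hS μ _ Cu Cf σ).2 hσ)
  have hm : Measurable fun y : U ⊕ C → Conf E => (S.toEng μ fun _ _ => (0 : ℂ)).W (pvsyL C Cu) (pvsyR U Cf) (pvtMix (pvsyL C Cu ∪ pvsyR U Cf) (S.cod σ) y) :=
    (hok.measurable_W _ _).comp (pvtc_measurable_mix_right _ _)
  rw [← pvsy_law h hS, lintegral_map hm (pvsy_measurable_cod hS)] at key
  rw [← key]
  refine lintegral_congr fun η => ?_
  rw [← pvsy_cod_spl hS, pvsy_W_cod h hS]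

/-- **TR1 (b)** -/
theorem pvsy_Wt_le (hF : S.Forced μ Cu Cf q) {σ : Conf E} (hσ : σ ∈ S.Ends Cu Cf) :
    S.Wt μ Cu Cf σ ≤ (S.Ev Cu Cf).indicator (fun _ => S.Dc μ Cu Cf q) σ := by
  by_cases hE : σ ∈ S.Ev Cu Cf
  · rw [Set.indicator_of_mem hE]
    unfold PvsySys.Wt PvsySys.Dc
    refine mul_le_mul' (Finset.prod_le_prod' fun u hu => ?_) (Finset.prod_le_prod' fun e he => ?_)
    · unfold PvsySys.g
      rw [Set.indicator_of_mem (hE.1 u hu), Pi.one_apply, one_div]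
    · have h1 : σ ∈ S.G (S.src e) := by
        by_cases hc : S.src e ∈ Cu
        · exact hE.1 _ hc
        · exact (hσ e he).1 hc
      have h2 : σ ∈ S.G (S.tgt e) := by
        by_cases hc : S.tgt e ∈ Cu
        · exact hE.1 _ hc
        · exact (hσ e he).2 hc
      unfold PvsySys.w pvtiW
      rw [Set.indicator_of_mem (hE.2 e he), Pi.one_apply, one_div]
      exact ENNReal.inv_le_inv.2 (hF.frc e he σ h1 h2)
  · rw [Set.indicator_of_notMem hE]
    refine le_of_eq ?_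
    unfold PvsySys.Wt
    by_cases h1 : ∀ u ∈ Cu, σ ∈ S.G u
    · have h2 : ¬ ∀ e ∈ Cf, σ ∈ S.A e := fun h2 => hE ⟨h1, h2⟩
      push_neg at h2
      obtain ⟨e, he, hn⟩ := h2
      rw [Finset.prod_eq_zero (i := e) (s := Cf) he (by unfold PvsySys.w pvtiW; rw [Set.indicator_of_notMem hn, ENNReal.zero_div]), mul_zero]
    · push_neg at h1
      obtain ⟨u, hu, hn⟩ := h1
      rw [Finset.prod_eq_zero (i := u) (s := Cu) hu (by unfold PvsySys.g; rw [Set.indicator_of_notMem hn, ENNReal.zero_div]), zero_mul]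

/-- the two-plug marginal of the engine, read on `Conf E` (153) -/
theorem pvsy_marg_eng (h : IsPpp m μ) (hS : S.WF) (hF : S.Forced μ Cu Cf q) {σ : Conf E} (hσ : σ ∈ S.Ends Cu Cf) {e : C} (he : e ∈ Cf)
    {F : Conf E → ℝ≥0∞} (hFm : Measurable F) (hFr : Conf.Reads (S.D e) F) :
    ∫⁻ η, S.Wt μ Cu Cf (Conf.spl (S.R Cu Cf)ᶜ (σ, η)) * F (Conf.spl (S.R Cu Cf)ᶜ (σ, η)) ∂μ
      = ∫⁻ s, ∫⁻ s', ∫⁻ ξ, (S.toEng μ fun _ _ => 0).w (Sum.inr e) (s, ξ, s') * F (S.glue e (s, ξ, s')) ∂((S.toEng μ fun _ _ => 0).ν (Sum.inr e))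
          ∂((S.toEng μ fun _ _ => 0).mu (pvsyL C Cu) (S.cod σ) (Sum.inl (S.tgt e))) ∂((S.toEng μ fun _ _ => 0).mu (pvsyL C Cu) (S.cod σ) (Sum.inl (S.src e))) := by
  have hX0 : S.Fld (fun _ _ => (0 : ℂ)) := ⟨fun _ => measurable_const, fun _ => Conf.reads_const _ _⟩
  have hok := pvsy_ok h hS hX0 hF
  have hx : S.cod σ ∈ (S.toEng μ fun _ _ => 0).ends (pvsyL C Cu) (pvsyR U Cf) := (pvsy_ends_cod hS μ _ Cu Cf σ).2 hσ
  have heR : Sum.inr e ∈ pvsyR U Cf := Finset.mem_map_of_mem _ he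
  have hφ : Measurable fun z => F (S.glue e z) := hFm.comp (pvsy_measurable_glue hS e)
  have key := hok.lintegral_W_mul hx heR (fun _ _ hh => hS.ne e (Sum.inl.inj hh)) hφ
  refine Eq.trans ?_ key
  have hH : Measurable fun y => (S.toEng μ fun _ _ => 0).W (pvsyL C Cu) (pvsyR U Cf) (pvtMix (pvsyL C Cu ∪ pvsyR U Cf) (S.cod σ) y) *
      F (S.glue e ((S.toEng μ fun _ _ => 0).tri (Sum.inr e) (pvtMix (pvsyL C Cu ∪ pvsyR U Cf) (S.cod σ) y))) :=
    ((hok.measurable_W _ _).comp (pvtc_measurable_mix_right _ _)).mul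
      (hφ.comp (((S.toEng μ fun _ _ => 0).measurable_tri _).comp (pvtc_measurable_mix_right _ _)))
  rw [← pvsy_law h hS, lintegral_map hH (pvsy_measurable_cod hS)]
  refine lintegral_congr fun η => ?_
  rw [← pvsy_cod_spl hS Cu Cf σ η, pvsy_W_cod h hS, pvsy_glue_cod, hFr]

/-- **TR2, two-plug marginal**: under the weight of the experiment, the triple of the connector `e` has the law of the one-connector experiment -/
theorem pvsy_marg (h : IsPpp m μ) (hS : S.WF) (hF : S.Forced μ Cu Cf q) {σ : Conf E} (hσ : σ ∈ S.Ends Cu Cf) {e : C} (he : e ∈ Cf)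
    {F : Conf E → ℝ≥0∞} (hFm : Measurable F) (hFr : Conf.Reads (S.D e) F) :
    ∫⁻ η, S.Wt μ Cu Cf (Conf.spl (S.R Cu Cf)ᶜ (σ, η)) * F (Conf.spl (S.R Cu Cf)ᶜ (σ, η)) ∂μ
      = ∫⁻ η, S.Wt μ (S.ie Cu e) {e} (Conf.spl (S.R (S.ie Cu e) {e})ᶜ (σ, η)) * F (Conf.spl (S.R (S.ie Cu e) {e})ᶜ (σ, η)) ∂μ := by
  have hF' : S.Forced μ (S.ie Cu e) {e} q :=
    ⟨fun u hu => hF.G_pos u (Finset.mem_inter.1 hu).1, fun e' he' => by rw [Finset.mem_singleton.1 he']; exact hF.q_pos e he,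
      fun e' he' => by rw [Finset.mem_singleton.1 he']; exact hF.q_le e he, fun e' he' => by rw [Finset.mem_singleton.1 he']; exact hF.frc e he⟩
  have hσ' : σ ∈ S.Ends (S.ie Cu e) {e} := by
    intro e' he'
    rw [Finset.mem_singleton.1 he']
    exact ⟨fun hc => (hσ e he).1 fun hcu => hc (Finset.mem_inter.2 ⟨hcu, by simp⟩), fun hc => (hσ e he).2 fun hcu => hc (Finset.mem_inter.2 ⟨hcu, by simp⟩)⟩
  have hmu : ∀ u, u = S.src e ∨ u = S.tgt e →
      (S.toEng μ fun _ _ => 0).mu (pvsyL C (S.ie Cu e)) (S.cod σ) (Sum.inl u) = (S.toEng μ fun _ _ => 0).mu (pvsyL C Cu) (S.cod σ) (Sum.inl u) := by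
    intro u hu
    have e1 : (Sum.inl u : U ⊕ C) ∈ pvsyL C (S.ie Cu e) ↔ (Sum.inl u : U ⊕ C) ∈ pvsyL C Cu := by
      simp only [pvsyL, PvsySys.ie, Finset.mem_map, Function.Embedding.inl_apply, Sum.inl.injEq, exists_eq_right, Finset.mem_inter, Finset.mem_insert,
        Finset.mem_singleton]
      exact ⟨fun hh => hh.1, fun hh => ⟨hh, hu⟩⟩
    unfold PvtcSys.mu
    simp only [e1]
  rw [pvsy_marg_eng h hS hF hσ he hFm hFr, pvsy_marg_eng h hS hF' hσ' (Finset.mem_singleton_self e) hFm hFr, hmu _ (Or.inl rfl), hmu _ (Or.inr rfl)]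

/-- TR2 for a CLOSED experiment (no marked plug) -/
theorem pvsy_marg_closed (h : IsPpp m μ) (hS : S.WF) (hF : S.Forced μ Cu Cf q) (hcl : ∀ e ∈ Cf, S.src e ∈ Cu ∧ S.tgt e ∈ Cu) {e : C} (he : e ∈ Cf)
    {F : Conf E → ℝ≥0∞} (hFm : Measurable F) (hFr : Conf.Reads (S.D e) F) :
    ∫⁻ η, F η * S.Wt μ Cu Cf η ∂μ = ∫⁻ η, F η * S.Wt μ {S.src e, S.tgt e} {e} η ∂μ := by
  have := h.prob
  have hE : ∀ σ, σ ∈ S.Ends Cu Cf := fun σ e he => ⟨fun hc => absurd (hcl e he).1 hc, fun hc => absurd (hcl e he).2 hc⟩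
  have hie : S.ie Cu e = {S.src e, S.tgt e} := by
    unfold PvsySys.ie
    refine Finset.inter_eq_right.2 fun u hu => ?_
    rcases Finset.mem_insert.1 hu with rfl | hu
    · exact (hcl e he).1
    · rw [Finset.mem_singleton.1 hu]; exact (hcl e he).2
  have m1 : Measurable fun η => F η * S.Wt μ Cu Cf η := hFm.mul (pvsy_measurable_Wt hS Cu Cf)
  have m2 : Measurable fun η => F η * S.Wt μ {S.src e, S.tgt e} {e} η := hFm.mul (pvsy_measurable_Wt hS {S.src e, S.tgt e} {e})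
  rw [h.lintegral_spl (hS.mR Cu Cf).compl m1, h.lintegral_spl (hS.mR {S.src e, S.tgt e} {e}).compl m2]
  refine lintegral_congr fun σ => ?_
  have := pvsy_marg h hS hF (hE σ) he hFm hFr
  rw [hie] at this
  simp_rw [mul_comm (F _)]
  exact this

/-- TR1 (a) for a closed experiment -/
theorem pvsy_mass_closed (h : IsPpp m μ) (hS : S.WF) (hF : S.Forced μ Cu Cf q) (hcl : ∀ e ∈ Cf, S.src e ∈ Cu ∧ S.tgt e ∈ Cu) :
    ∫⁻ η, S.Wt μ Cu Cf η ∂μ = 1 := by
  have := h.prob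
  rw [h.lintegral_spl (hS.mR Cu Cf).compl (pvsy_measurable_Wt hS Cu Cf)]
  have hE : ∀ σ, σ ∈ S.Ends Cu Cf := fun σ e he => ⟨fun hc => absurd (hcl e he).1 hc, fun hc => absurd (hcl e he).2 hc⟩
  simp_rw [pvsy_mass h hS hF (hE _)]
  simp

/-- from nonnegative to complex readers: two measures which agree on the nonnegative measurable readers of `W` agree on the complex ones (153) -/
theorem pvsy_transfer {ν₁ ν₂ : Measure (Conf E)} {W : Set E} (hW : MeasurableSet W)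
    (h : ∀ F : Conf E → ℝ≥0∞, Measurable F → Conf.Reads W F → ∫⁻ η, F η ∂ν₁ = ∫⁻ η, F η ∂ν₂)
    {f : Conf E → ℂ} (hf : Measurable f) (hfr : Conf.Reads W f) : ∫ η, f η ∂ν₁ = ∫ η, f η ∂ν₂ := by
  have hm := Conf.measurable_restr (E := E) hW
  have e : ν₁.map (Conf.restr W) = ν₂.map (Conf.restr W) := by
    ext s hs
    rw [Measure.map_apply hm hs, Measure.map_apply hm hs, ← lintegral_indicator_one (hm hs), ← lintegral_indicator_one (hm hs)]
    refine h _ (measurable_one.indicator (hm hs)) (pvti_ind_reads fun η => ?_)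
    show (Conf.restr W (Conf.restr W η) ∈ s) = (Conf.restr W η ∈ s)
    rw [Conf.restr_restr, inter_self]
  have e1 : ∀ ν : Measure (Conf E), ∫ η, f η ∂ν = ∫ η, f η ∂(ν.map (Conf.restr W)) := by
    intro ν
    rw [integral_map hm.aemeasurable hf.aestronglyMeasurable]
    exact integral_congr_ae (ae_of_all _ fun η => (hfr η).symm)
  rw [e1 ν₁, e1 ν₂, e]

/-- **TR2, one connector** (NO integrability hypothesis): the mean of `X e` under the weight of the experiment is the mean of the one-connector experiment -/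
theorem pvsy_y_single (h : IsPpp m μ) (hS : S.WF) (hX : S.Fld X) (hF : S.Forced μ Cu Cf q) {σ : Conf E} (hσ : σ ∈ S.Ends Cu Cf) {e : C} (he : e ∈ Cf) :
    pvtiMean μ (S.R Cu Cf)ᶜ (S.Wt μ Cu Cf) (X e) σ = S.me μ X Cu e σ := by
  have := h.prob
  have eY : pvsyY X {e} = X e := by
    funext η
    simp [pvsyY]
  unfold PvsySys.me PvsySys.y pvtiMean
  rw [eY]
  have hsec : ∀ (Cu' : Finset U) (Cf' : Finset C), Measurable fun η => Conf.spl (S.R Cu' Cf')ᶜ (σ, η) := fun Cu' Cf' =>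
    (Conf.measurable_spl (hS.mR Cu' Cf').compl).comp (measurable_const.prodMk measurable_id)
  have hW : ∀ (Cu' : Finset U) (Cf' : Finset C), Measurable fun η => S.Wt μ Cu' Cf' (Conf.spl (S.R Cu' Cf')ᶜ (σ, η)) := fun Cu' Cf' =>
    (pvsy_measurable_Wt hS Cu' Cf').comp (hsec Cu' Cf')
  have key := pvsy_transfer (hS.mD e)
    (ν₁ := (μ.withDensity fun η => S.Wt μ Cu Cf (Conf.spl (S.R Cu Cf)ᶜ (σ, η))).map fun η => Conf.spl (S.R Cu Cf)ᶜ (σ, η))
    (ν₂ := (μ.withDensity fun η => S.Wt μ (S.ie Cu e) {e} (Conf.spl (S.R (S.ie Cu e) {e})ᶜ (σ, η))).map fun η => Conf.spl (S.R (S.ie Cu e) {e})ᶜ (σ, η))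
    (fun F hFm hFr => by
      have hFs : ∀ (Cu' : Finset U) (Cf' : Finset C), Measurable fun η => F (Conf.spl (S.R Cu' Cf')ᶜ (σ, η)) := fun Cu' Cf' => hFm.comp (hsec Cu' Cf')
      rw [lintegral_map hFm (hsec _ _), lintegral_map hFm (hsec _ _), lintegral_withDensity_eq_lintegral_mul _ (hW _ _) (hFs _ _),
        lintegral_withDensity_eq_lintegral_mul _ (hW _ _) (hFs _ _)]
      exact pvsy_marg h hS hF hσ he hFm hFr)
    (hX.meas e) (hX.reads e)
  rw [integral_map (hsec _ _).aemeasurable (hX.meas e).aestronglyMeasurable, integral_map (hsec _ _).aemeasurable (hX.meas e).aestronglyMeasurable] at key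
  exact key

/-- **TR2 (means), EXACT** -/
theorem pvsy_y_eq (h : IsPpp m μ) (hS : S.WF) (hX : S.Fld X) (hF : S.Forced μ Cu Cf q) {σ : Conf E} (hσ : σ ∈ S.Ends Cu Cf)
    (hint : ∀ e ∈ Cf, Integrable (fun η => X e (Conf.spl (S.R Cu Cf)ᶜ (σ, η))) (μ.withDensity fun η => S.Wt μ Cu Cf (Conf.spl (S.R Cu Cf)ᶜ (σ, η)))) :
    S.y μ X Cu Cf σ = ∑ e ∈ Cf, S.me μ X Cu e σ := by
  unfold PvsySys.y pvtiMean pvsyY
  rw [integral_finsetSum _ hint]
  exact Finset.sum_congr rfl fun e he => pvsy_y_single h hS hX hF hσ he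

/-- the integrability hypothesis of TR2 holds for a.e. `σ` as soon as `E[W_c ‖X_e‖] < ∞` -/
theorem pvsy_ae_integrable (h : IsPpp m μ) (hS : S.WF) (hX : S.Fld X) (Cu : Finset U) (Cf : Finset C) (e : C) {B : Set (Conf E)} (hB : MeasurableSet B)
    (hBr : Conf.ReadsSet (S.R Cu Cf)ᶜ B) (hfin : ∫⁻ η in B, S.Wt μ Cu Cf η * ‖X e η‖ₑ ∂μ ≠ ∞) :
    ∀ᵐ σ ∂μ, σ ∈ B → Integrable (fun η => X e (Conf.spl (S.R Cu Cf)ᶜ (σ, η))) (μ.withDensity fun η => S.Wt μ Cu Cf (Conf.spl (S.R Cu Cf)ᶜ (σ, η))) := by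
  have := h.prob
  have hO : MeasurableSet (S.R Cu Cf)ᶜ := (hS.mR Cu Cf).compl
  have hWm : Measurable (S.Wt μ Cu Cf) := pvsy_measurable_Wt hS Cu Cf
  have hH : Measurable (B.indicator fun η => S.Wt μ Cu Cf η * ‖X e η‖ₑ) := (hWm.mul (hX.meas e).enorm).indicator hB
  rw [← lintegral_indicator hB, h.lintegral_spl hO hH] at hfin
  have hinner : Measurable fun σ => ∫⁻ η, B.indicator (fun η => S.Wt μ Cu Cf η * ‖X e η‖ₑ) (Conf.spl (S.R Cu Cf)ᶜ (σ, η)) ∂μ :=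
    (hH.comp (Conf.measurable_spl hO)).lintegral_prod_right'
  filter_upwards [ae_lt_top hinner hfin] with σ hσ hσB
  have hsec : Measurable fun η => Conf.spl (S.R Cu Cf)ᶜ (σ, η) := (Conf.measurable_spl hO).comp (measurable_const.prodMk measurable_id)
  refine ⟨((hX.meas e).comp hsec).aestronglyMeasurable, ?_⟩
  show ∫⁻ η, ‖X e (Conf.spl (S.R Cu Cf)ᶜ (σ, η))‖ₑ ∂(μ.withDensity fun η => S.Wt μ Cu Cf (Conf.spl (S.R Cu Cf)ᶜ (σ, η))) < ∞
  have hm1 : Measurable fun η => S.Wt μ Cu Cf (Conf.spl (S.R Cu Cf)ᶜ (σ, η)) := hWm.comp hsec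
  have hm2 : Measurable fun η => ‖X e (Conf.spl (S.R Cu Cf)ᶜ (σ, η))‖ₑ := ((hX.meas e).comp hsec).enorm
  rw [lintegral_withDensity_eq_lintegral_mul _ hm1 hm2]
  refine lt_of_le_of_lt (le_of_eq (lintegral_congr fun η => ?_)) hσ
  have hmem : Conf.spl (S.R Cu Cf)ᶜ (σ, η) ∈ B := by
    rw [← hBr, Conf.restr_spl_of_subset subset_rfl, hBr]
    exact hσB
  rw [Set.indicator_of_mem hmem]
  rfl

theorem pvsy_me_k (hS : S.WF) (hX : S.Fld X) (μ : Measure (Conf E)) {e : C} (h1 : S.src e ∈ Cu) (h2 : S.tgt e ∈ Cu) (σ : Conf E) :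
    S.me μ X Cu e σ = S.k μ X e := by
  have hie : S.ie Cu e = {S.src e, S.tgt e} := by
    unfold PvsySys.ie
    refine Finset.inter_eq_right.2 fun u hu => ?_
    rcases Finset.mem_insert.1 hu with rfl | hu
    · exact h1
    · rw [Finset.mem_singleton.1 hu]; exact h2
  have hR : S.R {S.src e, S.tgt e} {e} = S.D e := by
    unfold PvsySys.R PvsySys.D PvsySys.OO
    simp [Finset.set_biUnion_insert]
  unfold PvsySys.me PvsySys.y PvsySys.k pvtiMean
  rw [hie]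
  have e1 : ∀ η, pvsyY X {e} (Conf.spl (S.R {S.src e, S.tgt e} {e})ᶜ (σ, η)) = X e η := by
    intro η
    unfold pvsyY
    rw [Finset.sum_singleton]
    exact (hX.reads e).spl_right (by rw [hR]; exact disjoint_compl_right) σ η
  have e2 : ∀ η, S.Wt μ {S.src e, S.tgt e} {e} (Conf.spl (S.R {S.src e, S.tgt e} {e})ᶜ (σ, η)) = S.Wt μ {S.src e, S.tgt e} {e} η := by
    intro η
    refine (pvsy_reads_Wt hS μ {S.src e, S.tgt e} {e}).spl_right ?_ σ η
    refine Set.disjoint_compl_right_iff_subset.2 (Set.union_subset ?_ subset_rfl)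
    intro p hp
    have hp1 := hp.1
    simp only [Finset.mem_singleton, Set.iUnion_iUnion_eq_left] at hp1
    rw [hR]
    exact Or.inl hp1
  simp_rw [e1, e2]

theorem pvsy_me_kout (μ : Measure (Conf E)) (X : C → Conf E → ℂ) {e : C} (h1 : S.src e ∉ Cu) (h2 : S.tgt e ∈ Cu) : S.me μ X Cu e = S.kout μ X e := by
  have e1 : S.ie Cu e = {S.tgt e} := by
    ext u
    simp only [PvsySys.ie, Finset.mem_inter, Finset.mem_insert, Finset.mem_singleton]
    constructor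
    · rintro ⟨hu, rfl | rfl⟩
      · exact absurd hu h1
      · rfl
    · rintro rfl
      exact ⟨h2, Or.inr rfl⟩
  unfold PvsySys.me PvsySys.kout
  rw [e1]

theorem pvsy_me_kin (μ : Measure (Conf E)) (X : C → Conf E → ℂ) {e : C} (h1 : S.src e ∈ Cu) (h2 : S.tgt e ∉ Cu) : S.me μ X Cu e = S.kin μ X e := by
  have e1 : S.ie Cu e = {S.src e} := by
    ext u
    simp only [PvsySys.ie, Finset.mem_inter, Finset.mem_insert, Finset.mem_singleton]
    constructor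
    · rintro ⟨hu, rfl | rfl⟩
      · rfl
      · exact absurd hu h2
    · rintro rfl
      exact ⟨h1, Or.inl rfl⟩
  unfold PvsySys.me PvsySys.kin
  rw [e1]

theorem pvsy_me_ii (μ : Measure (Conf E)) (X : C → Conf E → ℂ) {e : C} (h1 : S.src e ∉ Cu) (h2 : S.tgt e ∉ Cu) : S.me μ X Cu e = S.ii μ X e := by
  have e1 : S.ie Cu e = ∅ := by
    ext u
    simp only [PvsySys.ie, Finset.mem_inter, Finset.mem_insert, Finset.mem_singleton, Finset.notMem_empty, iff_false]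
    rintro ⟨hu, rfl | rfl⟩
    · exact h1 hu
    · exact h2 hu
  unfold PvsySys.me PvsySys.ii
  rw [e1]

/-- **TR3 (weighted N1)**: `X₀`, `B` (`= A ∩ G_s ∩ G_t`) do not read the resampled region -/
theorem pvsy_n1 (h : IsPpp m μ) (hS : S.WF) (hX : S.Fld X) (hF : S.Forced μ Cu Cf q) (n : ℕ) {B : Set (Conf E)} (hB : MeasurableSet B)
    (hBe : B ⊆ S.Ends Cu Cf) (hBr : Conf.ReadsSet (S.R Cu Cf)ᶜ B) {X₀ : Conf E → ℂ} (hX₀ : Measurable X₀) (hX₀r : Conf.Reads (S.R Cu Cf)ᶜ X₀) :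
    ∫⁻ η in B, ‖X₀ η + S.y μ X Cu Cf η‖ₑ ^ n ∂μ ≤ S.Dc μ Cu Cf q * ∫⁻ η in B ∩ S.Ev Cu Cf, ‖X₀ η + pvsyY X Cf η‖ₑ ^ n ∂μ := by
  have := h.prob
  have hO : MeasurableSet (S.R Cu Cf)ᶜ := (hS.mR Cu Cf).compl
  exact pvtc_n1_D (P := μ) (r := Conf.spl (S.R Cu Cf)ᶜ) ⟨Conf.measurable_spl hO, h.splice hO⟩ n hB
    (fun x y => by
      have e := (Conf.readsSet_iff_reads.1 hBr).spl_left subset_rfl x y
      exact iff_of_eq e)
    hX₀.stronglyMeasurable (fun x y => hX₀r.spl_left subset_rfl x y) (pvsy_measurable_Y hX Cf).stronglyMeasurable (pvsy_measurable_Wt hS Cu Cf)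
    (fun x hx => pvsy_mass h hS hF (hBe hx)) (pvsy_measurableSet_Ev hS Cu Cf) _ (fun x hx => pvsy_Wt_le hF (hBe hx))

/-- **TR3 for a family** (the sum over the arcs `g` of TR23): no measurability of `X₀ i`, `a i` -/
theorem pvsy_n1_fam (h : IsPpp m μ) (hS : S.WF) (hX : S.Fld X) (hF : S.Forced μ Cu Cf q) {ι : Type*} {X₀ : ι → Conf E → ℂ} {a : ι → Conf E → ℝ≥0∞}
    {H : Conf E → ℝ≥0∞} (hXr : ∀ i, Conf.Reads (S.R Cu Cf)ᶜ (X₀ i)) (har : ∀ i, Conf.Reads (S.R Cu Cf)ᶜ (a i)) (hH : AEMeasurable H μ)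
    (ha : ∀ i σ, a i σ ≠ 0 → σ ∈ S.Ends Cu Cf)
    (hdom : ∀ᵐ η ∂μ, η ∈ S.Ev Cu Cf → ∑' i, ‖X₀ i η + pvsyY X Cf η‖ₑ ^ 2 * a i η ≤ H η) :
    ∫⁻ σ, ∑' i, ‖X₀ i σ + S.y μ X Cu Cf σ‖ₑ ^ 2 * a i σ ∂μ ≤ S.Dc μ Cu Cf q * ∫⁻ η in S.Ev Cu Cf, H η ∂μ := by
  have := h.prob
  have hEv : MeasurableSet (S.Ev Cu Cf) := pvsy_measurableSet_Ev hS Cu Cf
  have hH' : AEMeasurable ((S.Ev Cu Cf).indicator H) μ := hH.indicator hEv
  have huniv : (S.R Cu Cf)ᶜ ∪ S.R Cu Cf = univ := compl_union_self _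
  have key := pvti_n1_fam (O := (S.R Cu Cf)ᶜ) (C0 := S.R Cu Cf) h (hS.mR Cu Cf) disjoint_compl_left (X := X₀) (a := a) (Y := pvsyY X Cf)
    (w := S.Wt μ Cu Cf) (H := fun η => S.Dc μ Cu Cf q * (S.Ev Cu Cf).indicator H η) hXr har (pvsy_measurable_Y hX Cf).aemeasurable
    (pvsy_measurable_Wt hS Cu Cf).aemeasurable (hH'.const_mul _) (by rw [huniv]; exact Conf.reads_univ _) (by rw [huniv]; exact Conf.reads_univ _)
    (Filter.Eventually.of_forall fun σ ⟨i, hi⟩ => pvsy_mass h hS hF (ha i σ hi))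
    (by
      filter_upwards [hdom] with η hη
      by_cases hE : η ∈ S.Ev Cu Cf
      · rw [indicator_of_mem hE]
        calc ∑' i, ‖X₀ i η + pvsyY X Cf η‖ₑ ^ 2 * a i η * S.Wt μ Cu Cf η
            ≤ ∑' i, S.Dc μ Cu Cf q * (‖X₀ i η + pvsyY X Cf η‖ₑ ^ 2 * a i η) := by
              refine ENNReal.tsum_le_tsum fun i => ?_
              by_cases h0 : a i η = 0
              · simp [h0]
              · have hw := pvsy_Wt_le hF (ha i η h0)
                rw [indicator_of_mem hE] at hw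
                rw [mul_comm (S.Dc μ Cu Cf q)]
                exact mul_le_mul_right hw _
          _ = S.Dc μ Cu Cf q * ∑' i, ‖X₀ i η + pvsyY X Cf η‖ₑ ^ 2 * a i η := ENNReal.tsum_mul_left
          _ ≤ S.Dc μ Cu Cf q * H η := mul_le_mul_right (hη hE) _
      · rw [indicator_of_notMem hE, mul_zero]
        refine le_of_eq (ENNReal.tsum_eq_zero.2 fun i => ?_)
        by_cases h0 : a i η = 0
        · simp [h0]
        · have hw := pvsy_Wt_le hF (ha i η h0)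
          rw [indicator_of_notMem hE] at hw
          rw [nonpos_iff_eq_zero.1 hw, mul_zero])
  refine key.trans (le_of_eq ?_)
  rw [lintegral_const_mul'' _ hH', lintegral_indicator hEv]

/-- **TR3' (pure cycle)** -/
theorem pvsy_cycle (h : IsPpp m μ) (hS : S.WF) (hX : S.Fld X) (hF : S.Forced μ Cu Cf q) (n : ℕ) {B : Set (Conf E)} (hB : MeasurableSet B)
    (hBe : B ⊆ S.Ends Cu Cf) (hBr : Conf.ReadsSet (S.R Cu Cf)ᶜ B) :
    ∫⁻ η in B, ‖S.y μ X Cu Cf η‖ₑ ^ n ∂μ ≤ S.Dc μ Cu Cf q * ∫⁻ η in B ∩ S.Ev Cu Cf, ‖pvsyY X Cf η‖ₑ ^ n ∂μ := by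
  have := pvsy_n1 h hS hX hF n hB hBe hBr (X₀ := fun _ => 0) measurable_const (Conf.reads_const _ _)
  simpa using this

/-- **TR5, chain form** (125): the `L^n` norm of the mean of ONE connector, closed by the rest of the experiment -/
theorem pvsy_conn (h : IsPpp m μ) (hS : S.WF) (hX : S.Fld X) (hF : S.Forced μ Cu Cf q) (n : ℕ) {B : Set (Conf E)} (hB : MeasurableSet B)
    (hBe : B ⊆ S.Ends Cu Cf) (hBr : Conf.ReadsSet (S.R Cu Cf)ᶜ B) {e : C} (he : e ∈ Cf) :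
    ∫⁻ η in B, ‖S.me μ X Cu e η‖ₑ ^ n ∂μ ≤ S.Dc μ Cu Cf q * ∫⁻ η in B ∩ S.Ev Cu Cf, ‖X e η‖ₑ ^ n ∂μ := by
  have := h.prob
  have hO : MeasurableSet (S.R Cu Cf)ᶜ := (hS.mR Cu Cf).compl
  have key := pvtc_n1_D (P := μ) (r := Conf.spl (S.R Cu Cf)ᶜ) ⟨Conf.measurable_spl hO, h.splice hO⟩ n hB
    (fun x y => by
      have e := (Conf.readsSet_iff_reads.1 hBr).spl_left subset_rfl x y
      exact iff_of_eq e)
    (X := fun _ => (0 : ℂ)) stronglyMeasurable_const (fun _ _ => rfl) (hX.meas e).stronglyMeasurable (pvsy_measurable_Wt hS Cu Cf)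
    (fun x hx => pvsy_mass h hS hF (hBe hx)) (pvsy_measurableSet_Ev hS Cu Cf) _ (fun x hx => pvsy_Wt_le hF (hBe hx))
  simp only [zero_add] at key
  refine le_trans (le_of_eq ?_) key
  refine setLIntegral_congr_fun hB fun σ hσ => ?_
  rw [← pvsy_y_single h hS hX hF (hBe hσ) he]
  rfl

/-- a closed experiment has no marked plug -/
theorem pvsy_closed_ends (hcl : ∀ e ∈ Cf, S.src e ∈ Cu ∧ S.tgt e ∈ Cu) (σ : Conf E) : σ ∈ S.Ends Cu Cf :=
  fun e he => ⟨fun h => absurd (hcl e he).1 h, fun h => absurd (hcl e he).2 h⟩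

theorem pvsy_readsSet_univ (W : Set E) : Conf.ReadsSet W (univ : Set (Conf E)) := fun _ => Iff.rfl

/-- in a closed experiment everything that a connector reads is resampled -/
theorem pvsy_closed_D_sub (hcl : ∀ e ∈ Cf, S.src e ∈ Cu ∧ S.tgt e ∈ Cu) {e : C} (he : e ∈ Cf) : S.D e ⊆ S.R Cu Cf := by
  rintro p ((hp | hp) | hp)
  · exact Or.inl (mem_iUnion₂.2 ⟨_, (hcl e he).1, hp⟩)
  · exact Or.inl (mem_iUnion₂.2 ⟨_, (hcl e he).2, hp⟩)
  · exact Or.inr (mem_iUnion₂.2 ⟨_, he, hp⟩)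

theorem pvsy_closed_Mk (hcl : ∀ e ∈ Cf, S.src e ∈ Cu ∧ S.tgt e ∈ Cu) : S.Mk Cu Cf = ∅ := by
  unfold PvsySys.Mk
  rw [sdiff_eq_empty]
  intro p hp
  obtain ⟨e, he, hp⟩ := mem_iUnion₂.1 hp
  exact pvsy_closed_D_sub hcl he (Or.inl hp)

/-- the bound of the weight, integrated -/
theorem pvsy_closed_le (hS : S.WF) (hF : S.Forced μ Cu Cf q) (hcl : ∀ e ∈ Cf, S.src e ∈ Cu ∧ S.tgt e ∈ Cu) {F : Conf E → ℝ≥0∞} (hFm : Measurable F) :
    ∫⁻ η, F η * S.Wt μ Cu Cf η ∂μ ≤ S.Dc μ Cu Cf q * ∫⁻ η in S.Ev Cu Cf, F η ∂μ := by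
  have hE := pvsy_measurableSet_Ev hS Cu Cf
  rw [← lintegral_indicator hE]
  calc ∫⁻ η, F η * S.Wt μ Cu Cf η ∂μ ≤ ∫⁻ η, S.Dc μ Cu Cf q * (S.Ev Cu Cf).indicator F η ∂μ := by
        refine lintegral_mono fun η => ?_
        have := pvsy_Wt_le hF (pvsy_closed_ends hcl η)
        by_cases hη : η ∈ S.Ev Cu Cf
        · rw [indicator_of_mem hη] at this ⊢
          rw [mul_comm]
          exact mul_le_mul_left this _
        · rw [indicator_of_notMem hη] at this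
          rw [nonpos_iff_eq_zero.1 this, mul_zero]
          exact zero_le
    _ = S.Dc μ Cu Cf q * ∫⁻ η, (S.Ev Cu Cf).indicator F η ∂μ := lintegral_const_mul _ (hFm.indicator hE)

/-- **closed experiment** (TR27): the sum of the constants is bounded by the closed sum -/
theorem pvsy_const (h : IsPpp m μ) (hS : S.WF) (hX : S.Fld X) (hF : S.Forced μ Cu Cf q) (hcl : ∀ e ∈ Cf, S.src e ∈ Cu ∧ S.tgt e ∈ Cu)
    (hint : ∀ e ∈ Cf, Integrable (X e) (μ.withDensity (S.Wt μ {S.src e, S.tgt e} {e}))) (n : ℕ) :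
    ‖∑ e ∈ Cf, S.k μ X e‖ₑ ^ n ≤ S.Dc μ Cu Cf q * ∫⁻ η in S.Ev Cu Cf, ‖pvsyY X Cf η‖ₑ ^ n ∂μ := by
  have hp := h.prob
  have hc := pvsy_cycle h hS hX hF n MeasurableSet.univ (fun σ _ => pvsy_closed_ends hcl σ) (pvsy_readsSet_univ _)
  rw [univ_inter, Measure.restrict_univ] at hc
  refine le_trans (le_of_eq ?_) hc
  have hy : ∀ σ, S.y μ X Cu Cf σ = ∑ e ∈ Cf, S.k μ X e := by
    intro σ
    have hWt : (fun η => S.Wt μ Cu Cf (Conf.spl (S.R Cu Cf)ᶜ (σ, η))) = S.Wt μ Cu Cf := by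
      funext η
      have hr := pvsy_reads_Wt hS μ Cu Cf
      rw [pvsy_closed_Mk hcl, empty_union] at hr
      exact hr.spl_right disjoint_compl_right σ η
    rw [pvsy_y_eq h hS hX hF (pvsy_closed_ends hcl σ)]
    · exact Finset.sum_congr rfl fun e he => pvsy_me_k hS hX μ (hcl e he).1 (hcl e he).2 σ
    · intro e he
      have hXe : (fun η => X e (Conf.spl (S.R Cu Cf)ᶜ (σ, η))) = X e := by
        funext η
        exact ((hX.reads e).mono (pvsy_closed_D_sub hcl he)).spl_right disjoint_compl_right σ η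
      rw [hWt, hXe]
      refine ⟨(hX.meas e).aestronglyMeasurable, ?_⟩
      have h1 := (hint e he).2
      unfold HasFiniteIntegral at h1 ⊢
      have hm : Measurable fun η => ‖X e η‖ₑ := (hX.meas e).enorm
      rw [lintegral_withDensity_eq_lintegral_mul _ (pvsy_measurable_Wt hS _ _) hm] at h1 ⊢
      have e1 := pvsy_marg_closed h hS hF hcl he hm ((hX.reads e).comp fun z => ‖z‖ₑ)
      simp only [Pi.mul_apply] at h1 ⊢
      simp_rw [mul_comm (S.Wt μ _ _ _)] at h1 ⊢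
      rw [e1]
      exact h1
  simp_rw [hy]
  rw [lintegral_const, measure_univ, mul_one]

/-- closed experiment (TR28 (a)): one constant -/
theorem pvsy_const_one (h : IsPpp m μ) (hS : S.WF) (hX : S.Fld X) (hF : S.Forced μ Cu Cf q) (hcl : ∀ e ∈ Cf, S.src e ∈ Cu ∧ S.tgt e ∈ Cu)
    {e : C} (he : e ∈ Cf) (n : ℕ) :
    ‖S.k μ X e‖ₑ ^ n ≤ S.Dc μ Cu Cf q * ∫⁻ η in S.Ev Cu Cf, ‖X e η‖ₑ ^ n ∂μ := by
  have hp := h.prob
  have hc := pvsy_conn h hS hX hF n MeasurableSet.univ (fun σ _ => pvsy_closed_ends hcl σ) (pvsy_readsSet_univ _) he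
  rw [univ_inter, Measure.restrict_univ] at hc
  refine le_trans (le_of_eq ?_) hc
  simp_rw [pvsy_me_k hS hX μ (hcl e he).1 (hcl e he).2]
  rw [lintegral_const, measure_univ, mul_one]

/-- TR5 in the form of the blueprint: `‖i_e‖²_{L²(μ_u × μ_u')}` -/
theorem pvsy_conn_L2 (h : IsPpp m μ) (hS : S.WF) (hX : S.Fld X) (hF : S.Forced μ Cu Cf q) (hcl : ∀ e ∈ Cf, S.src e ∈ Cu ∧ S.tgt e ∈ Cu)
    {e : C} (he : e ∈ Cf) (n : ℕ) :
    ∫⁻ σ, ‖S.ii μ X e σ‖ₑ ^ n * (S.g μ (S.src e) σ * S.g μ (S.tgt e) σ) ∂μ ≤ S.Dc μ Cu Cf q * ∫⁻ η in S.Ev Cu Cf, ‖X e η‖ₑ ^ n ∂μ := by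
  have hp := h.prob
  have hFm : Measurable fun η => ‖X e η‖ₑ ^ n := (hX.meas e).enorm.pow_const n
  have hFr : Conf.Reads (S.D e) fun η => ‖X e η‖ₑ ^ n := (hX.reads e).comp fun z => ‖z‖ₑ ^ n
  refine le_trans ?_ (pvsy_closed_le hS hF hcl hFm)
  rw [pvsy_marg_closed h hS hF hcl he hFm hFr]
  -- the one-connector experiment
  have hF1 : S.Forced μ ∅ {e} q := ⟨fun u hu => absurd hu (Finset.notMem_empty u), fun f hf => by rw [Finset.mem_singleton.1 hf]; exact hF.q_pos e he,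
    fun f hf => by rw [Finset.mem_singleton.1 hf]; exact hF.q_le e he, fun f hf => by rw [Finset.mem_singleton.1 hf]; exact hF.frc e he⟩
  have hO : MeasurableSet (S.R ∅ {e})ᶜ := (hS.mR ∅ {e}).compl
  have hRK : S.R ∅ {e} = S.K e := by
    unfold PvsySys.R
    simp
  have hsub : ∀ u, S.O u ⊆ (S.R ∅ {e})ᶜ := fun u => by
    rw [hRK]
    exact (hS.dOK u e).subset_compl_right
  have hW2 : ∀ η, S.Wt μ {S.src e, S.tgt e} {e} η = S.Wt μ ∅ {e} η * (S.g μ (S.src e) η * S.g μ (S.tgt e) η) := by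
    intro η
    unfold PvsySys.Wt
    rw [Finset.prod_pair (hS.ne e), Finset.prod_empty, one_mul, mul_comm]
  have hY1 : pvsyY X {e} = X e := by
    funext η
    unfold pvsyY
    rw [Finset.sum_singleton]
  have hH : Measurable fun η => ‖X e η‖ₑ ^ n * S.Wt μ {S.src e, S.tgt e} {e} η := hFm.mul (pvsy_measurable_Wt hS _ _)
  rw [h.lintegral_spl hO hH]
  refine lintegral_mono fun σ => ?_
  by_cases h0 : S.g μ (S.src e) σ * S.g μ (S.tgt e) σ = 0
  · rw [h0, mul_zero]; exact zero_le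
  have hG : ∀ u, S.g μ u σ ≠ 0 → σ ∈ S.G u := by
    intro u hu
    by_contra hn
    apply hu
    unfold PvsySys.g
    rw [indicator_of_notMem hn, ENNReal.zero_div]
  have hσ : σ ∈ S.Ends ∅ {e} := by
    intro f hf
    rw [Finset.mem_singleton.1 hf]
    exact ⟨fun _ => hG _ (left_ne_zero_of_mul h0), fun _ => hG _ (right_ne_zero_of_mul h0)⟩
  have hm1 := pvsy_mass h hS hF1 hσ
  have hj := pvtc_jensen μ (Conf.measurable_spl hO) n (hX.meas e).stronglyMeasurable (pvsy_measurable_Wt hS ∅ {e}) σ hm1 0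
  have hii : S.ii μ X e σ = pvtcMean μ (Conf.spl (S.R ∅ {e})ᶜ) (S.Wt μ ∅ {e}) (X e) σ := by
    unfold PvsySys.ii PvsySys.y
    rw [hY1]
    rfl
  rw [zero_add, ← hii] at hj
  calc ‖S.ii μ X e σ‖ₑ ^ n * (S.g μ (S.src e) σ * S.g μ (S.tgt e) σ)
      ≤ (∫⁻ η, S.Wt μ ∅ {e} (Conf.spl (S.R ∅ {e})ᶜ (σ, η)) * ‖0 + X e (Conf.spl (S.R ∅ {e})ᶜ (σ, η))‖ₑ ^ n ∂μ) * (S.g μ (S.src e) σ * S.g μ (S.tgt e) σ) :=
        mul_le_mul_left hj _
    _ = ∫⁻ η, S.Wt μ ∅ {e} (Conf.spl (S.R ∅ {e})ᶜ (σ, η)) * ‖0 + X e (Conf.spl (S.R ∅ {e})ᶜ (σ, η))‖ₑ ^ n * (S.g μ (S.src e) σ * S.g μ (S.tgt e) σ) ∂μ := by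
        have hsec : Measurable fun η => Conf.spl (S.R ∅ {e})ᶜ (σ, η) := (Conf.measurable_spl hO).comp (measurable_const.prodMk measurable_id)
        rw [lintegral_mul_const]
        exact ((pvsy_measurable_Wt hS ∅ {e}).comp hsec).mul ((measurable_const.add ((hX.meas e).comp hsec)).enorm.pow_const n)
    _ = _ := by
        refine lintegral_congr fun η => ?_
        rw [hW2, (pvsy_reads_g hS μ (S.src e)).spl_left (hsub _), (pvsy_reads_g hS μ (S.tgt e)).spl_left (hsub _), zero_add]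
        ring

end exits

/-! ## 4'. the same exits for NULL-measurable events and a.e. measurable fields -/

section reg

variable {E : Type*} {U : Type*} {C : Type*} [MeasurableSpace E] [Fintype U] [Fintype C] [DecidableEq U] [DecidableEq C]
variable {S S' : PvsySys E U C} {m : Measure E} {μ : Measure (Conf E)} {X X' : C → Conf E → ℂ} {Cu : Finset U} {Cf : Finset C} {q : C → ℝ≥0∞}

/-- the mean of 141 does not see a.e. modifications -/
theorem pvsy_mean_congr (h : IsPpp m μ) {O : Set E} (hO : MeasurableSet O) {W W' : Conf E → ℝ≥0∞} {Y Y' : Conf E → ℂ} (hW : W' =ᵐ[μ] W) (hY : Y' =ᵐ[μ] Y) :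
    pvtiMean μ O W' Y' =ᵐ[μ] pvtiMean μ O W Y := by
  filter_upwards [h.ae_ae_splice hO hW, h.ae_ae_splice hO hY] with σ h1 h2
  have h1' : (fun η => W' (Conf.spl O (σ, η))) =ᵐ[μ] fun η => W (Conf.spl O (σ, η)) := h1
  have h2' : (fun η => Y' (Conf.spl O (σ, η))) =ᵐ[μ] fun η => Y (Conf.spl O (σ, η)) := h2
  unfold pvtiMean
  rw [withDensity_congr_ae h1']
  exact integral_congr_ae ((withDensity_absolutelyContinuous μ _).ae_le h2')

theorem pvsy_P_congr (h : IsPpp m μ) {O : Set E} (hO : MeasurableSet O) {A A' : Set (Conf E)} (hA : A' =ᵐ[μ] A) : pvtiP μ O A' =ᵐ[μ] pvtiP μ O A := by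
  have hA' : ∀ᵐ η ∂μ, A'.indicator (1 : Conf E → ℝ≥0∞) η = A.indicator 1 η := by
    filter_upwards [hA] with η hη
    have : η ∈ A' ↔ η ∈ A := iff_of_eq hη
    by_cases h1 : η ∈ A
    · rw [indicator_of_mem h1, indicator_of_mem (this.2 h1)]
    · rw [indicator_of_notMem h1, indicator_of_notMem (fun h2 => h1 (this.1 h2))]
  filter_upwards [h.ae_ae_splice hO hA'] with σ h1
  have h1' : (fun η => A'.indicator (1 : Conf E → ℝ≥0∞) (Conf.spl O (σ, η))) =ᵐ[μ] fun η => A.indicator 1 (Conf.spl O (σ, η)) := h1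
  unfold pvtiP
  exact lintegral_congr_ae h1'

/-- measurable hull which reads the same window -/
theorem pvsy_hull (h : IsPpp m μ) {W : Set E} (hW : MeasurableSet W) {A : Set (Conf E)} (hA : NullMeasurableSet A μ) (hr : Conf.ReadsSet W A) :
    ∃ A', MeasurableSet A' ∧ Conf.ReadsSet W A' ∧ A ⊆ A' ∧ A' =ᵐ[μ] A := by
  have := h.prob
  obtain ⟨B, hAB', hBm, hAB⟩ := hA.exists_measurable_superset_ae_eq
  have h0 : ∀ᵐ η ∂μ, (η ∈ A ↔ η ∈ B) := by
    filter_upwards [hAB] with η hη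
    exact (iff_of_eq hη).symm
  obtain ⟨c, hc⟩ := (h.ae_ae_splice' hW h0).exists
  have hm : Measurable fun σ : Conf E => Conf.union (Conf.restr W σ) (Conf.restr Wᶜ c) :=
    Conf.measurable_union.comp ((Conf.measurable_restr hW).prodMk measurable_const)
  refine ⟨(fun σ => Conf.union (Conf.restr W σ) (Conf.restr Wᶜ c)) ⁻¹' B, hm hBm, fun η => ?_, fun σ hσ => ?_, ?_⟩
  · show Conf.union (Conf.restr W (Conf.restr W η)) (Conf.restr Wᶜ c) ∈ B ↔ Conf.union (Conf.restr W η) (Conf.restr Wᶜ c) ∈ B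
    rw [pvi_restr_idem]
  · refine hAB' ?_
    rw [← hr (Conf.union _ _), pvi_restr_splice, hr]
    exact hσ
  · filter_upwards [hc] with σ hσ
    refine propext ?_
    show Conf.union (Conf.restr W σ) (Conf.restr Wᶜ c) ∈ B ↔ σ ∈ A
    rw [← hσ, ← hr (Conf.union _ _), pvi_restr_splice, hr]

/-- measurable kernel which reads the same window -/
theorem pvsy_kern (h : IsPpp m μ) {W : Set E} (hW : MeasurableSet W) {A : Set (Conf E)} (hA : NullMeasurableSet A μ) (hr : Conf.ReadsSet W A) :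
    ∃ A', MeasurableSet A' ∧ Conf.ReadsSet W A' ∧ A' ⊆ A ∧ A' =ᵐ[μ] A := by
  obtain ⟨B, h1, h2, h3, h4⟩ := pvsy_hull h hW hA.compl hr.compl
  refine ⟨Bᶜ, h1.compl, h2.compl, compl_subset_comm.1 h3, ?_⟩
  have := h4.compl
  rwa [compl_compl] at this

theorem PvsySys.Forced.ae (hF : S.Forced μ Cu Cf q) : S.Forced₀ μ Cu Cf q :=
  ⟨hF.G_pos, hF.q_pos, hF.q_le, fun e he => Filter.Eventually.of_forall fun σ h1 h2 => hF.frc e he σ h1 h2⟩

/-- **REGULARISATION**: a null-measurable system which is forced for ALMOST EVERY pair of states is a.e. equal to a measurable system which is forced at EVERY pair of states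
(the hull of `A e` is completed by the null set of the pairs of states at which the bound fails: "forced by construction" of 34) -/
theorem pvsy_reg_ae (h : IsPpp m μ) (hS : S.WF₀ μ) (hX : S.Fld₀ μ X) (hF : S.Forced₀ μ Cu Cf q) :
    ∃ (S' : PvsySys E U C) (X' : C → Conf E → ℂ), S.AE μ S' ∧ (∀ e, X' e =ᵐ[μ] X e) ∧ S'.WF ∧ S'.Fld X' ∧ S'.Forced μ Cu Cf q := by
  have := h.prob
  have hD : ∀ e, MeasurableSet (S.D e) := fun e => ((hS.mO _).union (hS.mO _)).union (hS.mK e)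
  have hOO : ∀ e, MeasurableSet (S.OO e) := fun e => (hS.mO _).union (hS.mO _)
  choose G' hG1 hG2 hG3 hG4 using fun u => pvsy_kern h (hS.mO u) (hS.mG u) (hS.rG u)
  choose A' hA1 hA2 hA3 hA4 using fun e => pvsy_hull h (hD e) (hS.mA e) (hS.rA e)
  choose g hg1 hg2 using fun e => h.reads_aemeasurable (hD e) (hX.meas e) (hX.reads e)
  have hmono : ∀ e σ, pvtiP μ (S.OO e) (S.A e) σ ≤ pvtiP μ (S.OO e) (A' e) σ := fun e σ => by
    unfold pvtiP
    exact lintegral_mono fun η => indicator_le_indicator_of_subset (hA3 e) (fun _ => zero_le) _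
  -- the pairs of states at which the bound fails
  let N : C → Set (Conf E) := fun e => (G' (S.src e) ∩ G' (S.tgt e)) ∩ {σ | pvtiP μ (S.OO e) (A' e) σ < q e}
  have hNm : ∀ e, MeasurableSet (N e) := fun e => ((hG1 _).inter (hG1 _)).inter ((pvti_P_measurable (hOO e) (hA1 e)) measurableSet_Iio)
  have hNr : ∀ e, Conf.ReadsSet (S.OO e) (N e) := fun e =>
    (((hG2 (S.src e)).mono subset_union_left).inter ((hG2 (S.tgt e)).mono subset_union_right)).inter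
      (fun η => by
        show pvtiP μ (S.OO e) (A' e) (Conf.restr (S.OO e) η) < q e ↔ pvtiP μ (S.OO e) (A' e) η < q e
        rw [pvti_P_reads μ (S.OO e) (A' e) η])
  have hN0 : ∀ e ∈ Cf, N e =ᵐ[μ] (∅ : Set (Conf E)) := fun e he => by
    rw [ae_eq_empty, measure_eq_zero_iff_ae_notMem]
    filter_upwards [hF.frc e he] with σ h1 h2
    exact absurd ((h1 (hG3 _ h2.1.1) (hG3 _ h2.1.2)).trans (hmono e σ)) (not_le.2 h2.2)
  classical
  let A'' : C → Set (Conf E) := fun e => if e ∈ Cf then A' e ∪ N e else A' e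
  have hA''m : ∀ e, MeasurableSet (A'' e) := fun e => by
    by_cases he : e ∈ Cf
    · simp only [A'', if_pos he]; exact (hA1 e).union (hNm e)
    · simp only [A'', if_neg he]; exact hA1 e
  have hA''r : ∀ e, Conf.ReadsSet (S.D e) (A'' e) := fun e => by
    by_cases he : e ∈ Cf
    · simp only [A'', if_pos he]; exact (hA2 e).union ((hNr e).mono subset_union_left)
    · simp only [A'', if_neg he]; exact hA2 e
  have hA''e : ∀ e, A'' e =ᵐ[μ] S.A e := fun e => by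
    by_cases he : e ∈ Cf
    · simp only [A'', if_pos he]
      have := (hA4 e).union (hN0 e he)
      rwa [union_empty] at this
    · simp only [A'', if_neg he]; exact hA4 e
  refine ⟨{ S with G := G', A := A'' }, fun e => g e ∘ Conf.restr (S.D e), ⟨rfl, rfl, rfl, rfl, hG4, hA''e⟩, fun e => (hg2 e).symm,
    ⟨hS.mO, hS.mK, hS.dj, hS.ne, hG1, hA''m, hG2, hA''r⟩, ⟨fun e => (hg1 e).comp (Conf.measurable_restr (hD e)), fun e => Conf.reads_comp_restr _ _⟩,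
    ⟨fun u hu => ?_, hF.q_pos, hF.q_le, fun e he σ h1 h2 => ?_⟩⟩
  · show μ (G' u) ≠ 0
    rw [measure_congr (hG4 u)]
    exact hF.G_pos u hu
  · show q e ≤ pvtiP μ (S.OO e) (A'' e) σ
    have h1' : σ ∈ G' (S.src e) := h1
    have h2' : σ ∈ G' (S.tgt e) := h2
    simp only [A'', if_pos he]
    by_cases hc : q e ≤ pvtiP μ (S.OO e) (A' e) σ
    · refine hc.trans ?_
      unfold pvtiP
      exact lintegral_mono fun η => indicator_le_indicator_of_subset subset_union_left (fun _ => zero_le) _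
    · have hσN : σ ∈ N e := ⟨⟨h1', h2'⟩, not_le.1 hc⟩
      have hall : ∀ ξ, Conf.spl (S.OO e) (σ, ξ) ∈ A' e ∪ N e := fun ξ => by
        refine Or.inr ?_
        have := (Conf.readsSet_iff_reads.1 (hNr e)).spl_left Subset.rfl σ ξ
        exact this.mpr hσN
      unfold pvtiP
      have e2 : ∀ ξ, (A' e ∪ N e).indicator (1 : Conf E → ℝ≥0∞) (Conf.spl (S.OO e) (σ, ξ)) = 1 := fun ξ => indicator_of_mem (hall ξ) _
      simp only [e2, lintegral_const, measure_univ, mul_one]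
      exact hF.q_le e he

/-- **REGULARISATION**, pointwise hypothesis -/
theorem pvsy_reg (h : IsPpp m μ) (hS : S.WF₀ μ) (hX : S.Fld₀ μ X) (hF : S.Forced μ Cu Cf q) :
    ∃ (S' : PvsySys E U C) (X' : C → Conf E → ℂ), S.AE μ S' ∧ (∀ e, X' e =ᵐ[μ] X e) ∧ S'.WF ∧ S'.Fld X' ∧ S'.Forced μ Cu Cf q :=
  pvsy_reg_ae h hS hX hF.ae

theorem pvsy_ae_R (hA : S.AE μ S') (Cu : Finset U) (Cf : Finset C) : S'.R Cu Cf = S.R Cu Cf := by
  unfold PvsySys.R; rw [hA.O, hA.K]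

theorem pvsy_ae_Dc (hA : S.AE μ S') (Cu : Finset U) (Cf : Finset C) (q : C → ℝ≥0∞) : S'.Dc μ Cu Cf q = S.Dc μ Cu Cf q := by
  unfold PvsySys.Dc
  congr 1
  exact Finset.prod_congr rfl fun u _ => by rw [measure_congr (hA.G u)]

theorem pvsy_ae_Ev (hA : S.AE μ S') (Cu : Finset U) (Cf : Finset C) : S'.Ev Cu Cf =ᵐ[μ] S.Ev Cu Cf := by
  have h1 : ∀ᵐ η ∂μ, ∀ u, (η ∈ S'.G u ↔ η ∈ S.G u) := ae_all_iff.2 fun u => (hA.G u).mono fun η hη => iff_of_eq hη
  have h2 : ∀ᵐ η ∂μ, ∀ e, (η ∈ S'.A e ↔ η ∈ S.A e) := ae_all_iff.2 fun e => (hA.A e).mono fun η hη => iff_of_eq hη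
  filter_upwards [h1, h2] with η h1 h2
  refine propext ?_
  show ((∀ u ∈ Cu, η ∈ S'.G u) ∧ ∀ e ∈ Cf, η ∈ S'.A e) ↔ ((∀ u ∈ Cu, η ∈ S.G u) ∧ ∀ e ∈ Cf, η ∈ S.A e)
  simp only [h1, h2]

theorem pvsy_ae_Ends (hA : S.AE μ S') (Cu : Finset U) (Cf : Finset C) : S'.Ends Cu Cf =ᵐ[μ] S.Ends Cu Cf := by
  have hG : ∀ᵐ η ∂μ, ∀ u, (η ∈ S'.G u ↔ η ∈ S.G u) := ae_all_iff.2 fun u => (hA.G u).mem_iff
  filter_upwards [hG] with η hη
  apply propext
  show η ∈ S'.Ends Cu Cf ↔ η ∈ S.Ends Cu Cf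
  simp only [PvsySys.Ends, mem_ofPred_eq, hA.src, hA.tgt, hη]

theorem pvsy_ae_Wt (h : IsPpp m μ) (hS : S.WF₀ μ) (hA : S.AE μ S') (Cu : Finset U) (Cf : Finset C) : S'.Wt μ Cu Cf =ᵐ[μ] S.Wt μ Cu Cf := by
  have hOO : ∀ e, S'.OO e = S.OO e := fun e => by unfold PvsySys.OO; rw [hA.O, hA.src, hA.tgt]
  have hG : ∀ᵐ η ∂μ, ∀ u, (η ∈ S'.G u ↔ η ∈ S.G u) := ae_all_iff.2 fun u => (hA.G u).mem_iff
  have hAe : ∀ᵐ η ∂μ, ∀ e, (η ∈ S'.A e ↔ η ∈ S.A e) := ae_all_iff.2 fun e => (hA.A e).mem_iff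
  have hP : ∀ᵐ η ∂μ, ∀ e, pvtiP μ (S.OO e) (S'.A e) η = pvtiP μ (S.OO e) (S.A e) η :=
    ae_all_iff.2 fun e => pvsy_P_congr h ((hS.mO _).union (hS.mO _)) (hA.A e)
  filter_upwards [hG, hAe, hP] with η h1 h2 h3
  unfold PvsySys.Wt
  congr 1
  · refine Finset.prod_congr rfl fun u _ => ?_
    unfold PvsySys.g
    rw [measure_congr (hA.G u)]
    congr 1
    by_cases hu : η ∈ S.G u
    · rw [indicator_of_mem hu, indicator_of_mem ((h1 u).2 hu)]
    · rw [indicator_of_notMem hu, indicator_of_notMem fun h' => hu ((h1 u).1 h')]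
  · refine Finset.prod_congr rfl fun e _ => ?_
    unfold PvsySys.w pvtiW
    rw [hOO e, h3 e]
    congr 1
    by_cases hu : η ∈ S.A e
    · rw [indicator_of_mem hu, indicator_of_mem ((h2 e).2 hu)]
    · rw [indicator_of_notMem hu, indicator_of_notMem fun h' => hu ((h2 e).1 h')]

theorem pvsy_ae_y (h : IsPpp m μ) (hS : S.WF₀ μ) (hA : S.AE μ S') (hX : ∀ e, X' e =ᵐ[μ] X e) (Cu : Finset U) (Cf : Finset C) :
    S'.y μ X' Cu Cf =ᵐ[μ] S.y μ X Cu Cf := by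
  have hR : MeasurableSet (S.R Cu Cf)ᶜ :=
    ((Finset.measurableSet_biUnion _ fun u _ => hS.mO u).union (Finset.measurableSet_biUnion _ fun e _ => hS.mK e)).compl
  have hY : pvsyY X' Cf =ᵐ[μ] pvsyY X Cf := by
    have hall : ∀ᵐ η ∂μ, ∀ e, X' e η = X e η := ae_all_iff.2 hX
    filter_upwards [hall] with η hη
    unfold pvsyY
    exact Finset.sum_congr rfl fun e _ => hη e
  unfold PvsySys.y
  rw [pvsy_ae_R hA]
  exact pvsy_mean_congr h hR (pvsy_ae_Wt h hS hA Cu Cf) hY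

/-- regularisation of a null-measurable event of the marked states -/
theorem pvsy_reg_set (h : IsPpp m μ) (hS : S.WF₀ μ) (hS' : S'.WF) (hA : S.AE μ S') {B : Set (Conf E)} (hB : NullMeasurableSet B μ)
    (hBe : B ⊆ S.Ends Cu Cf) (hBr : Conf.ReadsSet (S.R Cu Cf)ᶜ B) :
    ∃ B', MeasurableSet B' ∧ B' ⊆ S'.Ends Cu Cf ∧ Conf.ReadsSet (S'.R Cu Cf)ᶜ B' ∧ B' =ᵐ[μ] B := by
  have hR : MeasurableSet (S.R Cu Cf)ᶜ :=
    ((Finset.measurableSet_biUnion _ fun u _ => hS.mO u).union (Finset.measurableSet_biUnion _ fun e _ => hS.mK e)).compl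
  obtain ⟨A', hA'm, hBA'⟩ := h.reads_null hR hB hBr
  refine ⟨(Conf.restr (S.R Cu Cf)ᶜ ⁻¹' A') ∩ S'.Ends Cu Cf, (Conf.measurable_restr hR hA'm).inter (pvsy_measurableSet_Ends hS' Cu Cf),
    inter_subset_right, ?_, ?_⟩
  · rw [pvsy_ae_R hA]
    refine (Conf.readsSet_preimage _ _).inter ?_
    have := pvsy_reads_Ends hS' Cu Cf
    rwa [pvsy_ae_R hA] at this
  · filter_upwards [hBA'.mem_iff, (pvsy_ae_Ends hA Cu Cf).mem_iff] with η h1 h2
    apply propext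
    show η ∈ (Conf.restr (S.R Cu Cf)ᶜ ⁻¹' A') ∩ S'.Ends Cu Cf ↔ η ∈ B
    constructor
    · rintro ⟨h3, -⟩
      exact h1.2 h3
    · intro h3
      exact ⟨h1.1 h3, h2.2 (hBe h3)⟩

/-- TR1 (a), a.e. form (the form eaten by `pvti_n1_fam`) -/
theorem pvsy_mass_ae (h : IsPpp m μ) (hS : S.WF₀ μ) (hF : S.Forced₀ μ Cu Cf q) :
    ∀ᵐ σ ∂μ, σ ∈ S.Ends Cu Cf → ∫⁻ η, S.Wt μ Cu Cf (Conf.spl (S.R Cu Cf)ᶜ (σ, η)) ∂μ = 1 := by
  have hR : MeasurableSet (S.R Cu Cf)ᶜ :=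
    ((Finset.measurableSet_biUnion _ fun u _ => hS.mO u).union (Finset.measurableSet_biUnion _ fun e _ => hS.mK e)).compl
  obtain ⟨S', X', hA, -, hS', -, hF'⟩ := pvsy_reg_ae (X := fun _ _ => 0) h hS ⟨fun _ => aemeasurable_const, fun _ => Conf.reads_const _ _⟩ hF
  filter_upwards [(pvsy_ae_Ends hA Cu Cf).mem_iff, h.ae_ae_splice hR (pvsy_ae_Wt h hS hA Cu Cf)] with σ h1 h2 hσ
  have h3 := pvsy_mass h hS' hF' (h1.2 hσ)
  rw [pvsy_ae_R hA] at h3
  rw [← h3]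
  exact lintegral_congr_ae (h2.mono fun η e => e.symm)

/-- TR2 (means), a.e. form -/
theorem pvsy_y_eq_ae (h : IsPpp m μ) (hS : S.WF₀ μ) (hX : S.Fld₀ μ X) (hF : S.Forced₀ μ Cu Cf q) {B : Set (Conf E)} (hB : NullMeasurableSet B μ)
    (hBe : B ⊆ S.Ends Cu Cf) (hBr : Conf.ReadsSet (S.R Cu Cf)ᶜ B) (hfin : ∀ e ∈ Cf, ∫⁻ η in B ∩ S.Ev Cu Cf, ‖X e η‖ₑ ∂μ ≠ ∞) :
    ∀ᵐ σ ∂μ, σ ∈ B → S.y μ X Cu Cf σ = ∑ e ∈ Cf, S.me μ X Cu e σ := by
  obtain ⟨S', X', hA, hXX, hS', hX', hF'⟩ := pvsy_reg_ae h hS hX hF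
  obtain ⟨B', hB'm, hB'e, hB'r, hBB⟩ := pvsy_reg_set h hS hS' hA hB hBe hBr
  have hDc : S.Dc μ Cu Cf q ≠ ∞ := by
    unfold PvsySys.Dc
    exact ENNReal.mul_ne_top (ENNReal.prod_ne_top fun u hu => ENNReal.inv_ne_top.2 (hF.G_pos u hu))
      (ENNReal.prod_ne_top fun e he => ENNReal.inv_ne_top.2 (hF.q_pos e he))
  have hint : ∀ e ∈ Cf, ∀ᵐ σ ∂μ, σ ∈ B' → Integrable (fun η => X' e (Conf.spl (S'.R Cu Cf)ᶜ (σ, η)))
      (μ.withDensity fun η => S'.Wt μ Cu Cf (Conf.spl (S'.R Cu Cf)ᶜ (σ, η))) := by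
    intro e he
    refine pvsy_ae_integrable h hS' hX' Cu Cf e hB'm hB'r ?_
    have hle : ∫⁻ η in B', S'.Wt μ Cu Cf η * ‖X' e η‖ₑ ∂μ ≤ S'.Dc μ Cu Cf q * ∫⁻ η in B' ∩ S'.Ev Cu Cf, ‖X' e η‖ₑ ∂μ := by
      rw [← lintegral_const_mul _ (hX'.meas e).enorm, ← lintegral_indicator hB'm,
        ← lintegral_indicator (hB'm.inter (pvsy_measurableSet_Ev hS' Cu Cf))]
      refine lintegral_mono fun η => ?_
      by_cases hη : η ∈ B'
      · have hw := pvsy_Wt_le hF' (hB'e hη)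
        by_cases hE : η ∈ S'.Ev Cu Cf
        · rw [indicator_of_mem hη, indicator_of_mem (show η ∈ B' ∩ S'.Ev Cu Cf from ⟨hη, hE⟩)]
          rw [indicator_of_mem hE] at hw
          gcongr
        · rw [indicator_of_notMem hE] at hw
          rw [indicator_of_mem hη, le_zero_iff.1 hw, zero_mul]
          exact zero_le
      · rw [indicator_of_notMem hη]
        exact zero_le
    refine ne_top_of_le_ne_top ?_ hle
    rw [pvsy_ae_Dc hA, Measure.restrict_congr_set (hBB.inter (pvsy_ae_Ev hA Cu Cf))]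
    have e2 : ∫⁻ η in B ∩ S.Ev Cu Cf, ‖X' e η‖ₑ ∂μ = ∫⁻ η in B ∩ S.Ev Cu Cf, ‖X e η‖ₑ ∂μ :=
      lintegral_congr_ae (ae_restrict_of_ae ((hXX e).mono fun η e => by simp only [e]))
    rw [e2]
    exact ENNReal.mul_ne_top hDc (hfin e he)
  have hint' := (Finset.eventually_all Cf).2 hint
  have hie : ∀ e, S'.ie Cu e = S.ie Cu e := fun e => by unfold PvsySys.ie; rw [hA.src, hA.tgt]
  have hme : ∀ᵐ σ ∂μ, ∀ e, S'.me μ X' Cu e σ = S.me μ X Cu e σ := ae_all_iff.2 fun e => by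
    unfold PvsySys.me
    rw [hie e]
    exact pvsy_ae_y h hS hA hXX _ _
  filter_upwards [hint', hme, pvsy_ae_y h hS hA hXX Cu Cf, hBB.mem_iff] with σ h1 h2 h3 h4 hσ
  have hσ' := h4.2 hσ
  rw [← h3, pvsy_y_eq h hS' hX' hF' (hB'e hσ') fun e he => h1 e he hσ']
  exact Finset.sum_congr rfl fun e _ => h2 e

/-- TR3' -/
theorem pvsy_cycle_ae (h : IsPpp m μ) (hS : S.WF₀ μ) (hX : S.Fld₀ μ X) (hF : S.Forced₀ μ Cu Cf q) (n : ℕ) {B : Set (Conf E)} (hB : NullMeasurableSet B μ)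
    (hBe : B ⊆ S.Ends Cu Cf) (hBr : Conf.ReadsSet (S.R Cu Cf)ᶜ B) :
    ∫⁻ η in B, ‖S.y μ X Cu Cf η‖ₑ ^ n ∂μ ≤ S.Dc μ Cu Cf q * ∫⁻ η in B ∩ S.Ev Cu Cf, ‖pvsyY X Cf η‖ₑ ^ n ∂μ := by
  obtain ⟨S', X', hA, hXX, hS', hX', hF'⟩ := pvsy_reg_ae h hS hX hF
  obtain ⟨B', hB'm, hB'e, hB'r, hBB⟩ := pvsy_reg_set h hS hS' hA hB hBe hBr
  have key := pvsy_cycle h hS' hX' hF' n hB'm hB'e hB'r
  have hY : pvsyY X' Cf =ᵐ[μ] pvsyY X Cf := by
    have hall : ∀ᵐ η ∂μ, ∀ e, X' e η = X e η := ae_all_iff.2 hXX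
    filter_upwards [hall] with η hη
    unfold pvsyY
    exact Finset.sum_congr rfl fun e _ => hη e
  rw [pvsy_ae_Dc hA, Measure.restrict_congr_set hBB, Measure.restrict_congr_set (hBB.inter (pvsy_ae_Ev hA Cu Cf))] at key
  have e1 : ∫⁻ η in B, ‖S'.y μ X' Cu Cf η‖ₑ ^ n ∂μ = ∫⁻ η in B, ‖S.y μ X Cu Cf η‖ₑ ^ n ∂μ :=
    lintegral_congr_ae (ae_restrict_of_ae ((pvsy_ae_y h hS hA hXX Cu Cf).mono fun η e => by simp only [e]))
  have e2 : ∫⁻ η in B ∩ S.Ev Cu Cf, ‖pvsyY X' Cf η‖ₑ ^ n ∂μ = ∫⁻ η in B ∩ S.Ev Cu Cf, ‖pvsyY X Cf η‖ₑ ^ n ∂μ :=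
    lintegral_congr_ae (ae_restrict_of_ae (hY.mono fun η e => by simp only [e]))
  rw [e1, e2] at key
  exact key

/-- regularisation of the event of the marked states -/
theorem pvsy_reg_B (h : IsPpp m μ) (hA : S.AE μ S') (hS' : S'.WF) {B : Set (Conf E)} (hB : NullMeasurableSet B μ)
    (hBe : B ⊆ S.Ends Cu Cf) (hBr : Conf.ReadsSet (S.R Cu Cf)ᶜ B) :
    ∃ B' : Set (Conf E), MeasurableSet B' ∧ B' ⊆ S'.Ends Cu Cf ∧ Conf.ReadsSet (S'.R Cu Cf)ᶜ B' ∧ B' =ᵐ[μ] B := by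
  have hR : S'.R Cu Cf = S.R Cu Cf := pvsy_ae_R hA Cu Cf
  have hRm : MeasurableSet (S.R Cu Cf)ᶜ := hR ▸ (hS'.mR Cu Cf).compl
  obtain ⟨A', hA'm, hBA⟩ := h.reads_null hRm hB hBr
  refine ⟨Conf.restr (S.R Cu Cf)ᶜ ⁻¹' A' ∩ S'.Ends Cu Cf, (Conf.measurable_restr hRm hA'm).inter (pvsy_measurableSet_Ends hS' Cu Cf), inter_subset_right, ?_, ?_⟩
  · intro η
    rw [hR]
    have h1 := pvsy_reads_Ends hS' Cu Cf η
    rw [hR] at h1
    simp only [mem_inter_iff, mem_preimage, Conf.restr_restr, inter_self, h1]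
  · filter_upwards [hBA, pvsy_ae_Ends hA Cu Cf] with η h1 h2
    have h1' : η ∈ B ↔ η ∈ Conf.restr (S.R Cu Cf)ᶜ ⁻¹' A' := iff_of_eq h1
    have h2' : η ∈ S'.Ends Cu Cf ↔ η ∈ S.Ends Cu Cf := iff_of_eq h2
    refine propext ?_
    show η ∈ Conf.restr (S.R Cu Cf)ᶜ ⁻¹' A' ∩ S'.Ends Cu Cf ↔ η ∈ B
    rw [mem_inter_iff, ← h1', h2']
    exact ⟨fun h => h.1, fun h => ⟨h, hBe h⟩⟩

theorem pvsy_ae_me (h : IsPpp m μ) (hS : S.WF₀ μ) (hA : S.AE μ S') (hX : ∀ e, X' e =ᵐ[μ] X e) (Cu : Finset U) (e : C) :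
    S'.me μ X' Cu e =ᵐ[μ] S.me μ X Cu e := by
  have e1 : S'.ie Cu e = S.ie Cu e := by unfold PvsySys.ie; rw [hA.src, hA.tgt]
  unfold PvsySys.me
  rw [e1]
  exact pvsy_ae_y h hS hA hX _ _

theorem pvsy_ae_Y (hX : ∀ e, X' e =ᵐ[μ] X e) (Cf : Finset C) : pvsyY X' Cf =ᵐ[μ] pvsyY X Cf := by
  have : ∀ᵐ η ∂μ, ∀ e ∈ Cf, X' e η = X e η := (Finset.eventually_all Cf).2 fun e _ => hX e
  filter_upwards [this] with η hη
  exact Finset.sum_congr rfl hη

theorem pvsy_ae_k (h : IsPpp m μ) (hS : S.WF₀ μ) (hA : S.AE μ S') (hX : ∀ e, X' e =ᵐ[μ] X e) (e : C) : S'.k μ X' e = S.k μ X e := by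
  unfold PvsySys.k
  rw [hA.src, hA.tgt, withDensity_congr_ae (pvsy_ae_Wt h hS hA {S.src e, S.tgt e} {e})]
  exact integral_congr_ae ((withDensity_absolutelyContinuous μ _).ae_le (hX e))

/-- TR5, chain form -/
theorem pvsy_conn_ae (h : IsPpp m μ) (hS : S.WF₀ μ) (hX : S.Fld₀ μ X) (hF : S.Forced₀ μ Cu Cf q) (n : ℕ) {B : Set (Conf E)} (hB : NullMeasurableSet B μ)
    (hBe : B ⊆ S.Ends Cu Cf) (hBr : Conf.ReadsSet (S.R Cu Cf)ᶜ B) {e : C} (he : e ∈ Cf) :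
    ∫⁻ η in B, ‖S.me μ X Cu e η‖ₑ ^ n ∂μ ≤ S.Dc μ Cu Cf q * ∫⁻ η in B ∩ S.Ev Cu Cf, ‖X e η‖ₑ ^ n ∂μ := by
  obtain ⟨S', X', hA, hXX, hS', hX', hF'⟩ := pvsy_reg_ae h hS hX hF
  obtain ⟨B', hB'm, hB'e, hB'r, hBB⟩ := pvsy_reg_B h hA hS' hB hBe hBr
  have key := pvsy_conn h hS' hX' hF' n hB'm hB'e hB'r he
  rw [pvsy_ae_Dc hA, setLIntegral_congr hBB, setLIntegral_congr (hBB.inter (pvsy_ae_Ev hA Cu Cf))] at key
  have e1 : ∫⁻ η in B, ‖S'.me μ X' Cu e η‖ₑ ^ n ∂μ = ∫⁻ η in B, ‖S.me μ X Cu e η‖ₑ ^ n ∂μ := by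
    refine lintegral_congr_ae (ae_restrict_of_ae ?_)
    filter_upwards [pvsy_ae_me h hS hA hXX Cu e] with η hη
    rw [hη]
  have e2 : ∫⁻ η in B ∩ S.Ev Cu Cf, ‖X' e η‖ₑ ^ n ∂μ = ∫⁻ η in B ∩ S.Ev Cu Cf, ‖X e η‖ₑ ^ n ∂μ := by
    refine lintegral_congr_ae (ae_restrict_of_ae ?_)
    filter_upwards [hXX e] with η hη
    rw [hη]
  rwa [e1, e2] at key

/-- TR3, family form -/
theorem pvsy_n1_fam_ae (h : IsPpp m μ) (hS : S.WF₀ μ) (hX : S.Fld₀ μ X) (hF : S.Forced₀ μ Cu Cf q) {ι : Type*} {X₀ : ι → Conf E → ℂ} {a : ι → Conf E → ℝ≥0∞}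
    {H : Conf E → ℝ≥0∞} (hXr : ∀ i, Conf.Reads (S.R Cu Cf)ᶜ (X₀ i)) (har : ∀ i, Conf.Reads (S.R Cu Cf)ᶜ (a i)) (hH : AEMeasurable H μ)
    (ha : ∀ i σ, a i σ ≠ 0 → σ ∈ S.Ends Cu Cf)
    (hdom : ∀ᵐ η ∂μ, η ∈ S.Ev Cu Cf → ∑' i, ‖X₀ i η + pvsyY X Cf η‖ₑ ^ 2 * a i η ≤ H η) :
    ∫⁻ σ, ∑' i, ‖X₀ i σ + S.y μ X Cu Cf σ‖ₑ ^ 2 * a i σ ∂μ ≤ S.Dc μ Cu Cf q * ∫⁻ η in S.Ev Cu Cf, H η ∂μ := by
  classical
  obtain ⟨S', X', hA, hXX, hS', hX', hF'⟩ := pvsy_reg_ae h hS hX hF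
  have hR : S'.R Cu Cf = S.R Cu Cf := pvsy_ae_R hA Cu Cf
  have haa : ∀ᵐ σ ∂μ, ∀ i, (S'.Ends Cu Cf).indicator (a i) σ = a i σ := by
    filter_upwards [pvsy_ae_Ends hA Cu Cf] with σ hσ i
    have hσ' : σ ∈ S'.Ends Cu Cf ↔ σ ∈ S.Ends Cu Cf := iff_of_eq hσ
    by_cases h1 : σ ∈ S'.Ends Cu Cf
    · rw [indicator_of_mem h1]
    · rw [indicator_of_notMem h1]
      by_contra h2
      exact h1 (hσ'.2 (ha i σ (Ne.symm h2)))
  have key := pvsy_n1_fam h hS' hX' hF' (X₀ := X₀) (a := fun i => (S'.Ends Cu Cf).indicator (a i)) (H := H)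
    (fun i => hR ▸ hXr i)
    (fun i η => by
      have h1 := pvsy_reads_Ends hS' Cu Cf η
      have h2 := har i η
      rw [← hR] at h2
      by_cases h3 : η ∈ S'.Ends Cu Cf
      · rw [indicator_of_mem h3, indicator_of_mem (h1.2 h3), h2]
      · rw [indicator_of_notMem h3, indicator_of_notMem (fun h4 => h3 (h1.1 h4))])
    hH
    (fun i σ h1 => by
      by_contra h2
      exact h1 (indicator_of_notMem h2 _))
    (by
      filter_upwards [hdom, haa, pvsy_ae_Ev hA Cu Cf, pvsy_ae_Y hXX Cf] with η h1 h2 h3 h4 h5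
      have h3' : η ∈ S'.Ev Cu Cf ↔ η ∈ S.Ev Cu Cf := iff_of_eq h3
      simp only [h2, h4]
      exact h1 (h3'.1 h5))
  rw [pvsy_ae_Dc hA, setLIntegral_congr (pvsy_ae_Ev hA Cu Cf)] at key
  refine le_trans (le_of_eq (lintegral_congr_ae ?_)) key
  filter_upwards [haa, pvsy_ae_y h hS hA hXX Cu Cf] with σ h1 h2
  simp only [h1, h2]

/-- closed experiment (TR27) -/
theorem pvsy_const_ae (h : IsPpp m μ) (hS : S.WF₀ μ) (hX : S.Fld₀ μ X) (hF : S.Forced₀ μ Cu Cf q) (hcl : ∀ e ∈ Cf, S.src e ∈ Cu ∧ S.tgt e ∈ Cu)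
    (hint : ∀ e ∈ Cf, Integrable (X e) (μ.withDensity (S.Wt μ {S.src e, S.tgt e} {e}))) (n : ℕ) :
    ‖∑ e ∈ Cf, S.k μ X e‖ₑ ^ n ≤ S.Dc μ Cu Cf q * ∫⁻ η in S.Ev Cu Cf, ‖pvsyY X Cf η‖ₑ ^ n ∂μ := by
  obtain ⟨S', X', hA, hXX, hS', hX', hF'⟩ := pvsy_reg_ae h hS hX hF
  have key := pvsy_const h hS' hX' hF' (by rw [hA.src, hA.tgt]; exact hcl)
    (fun e he => by
      rw [hA.src, hA.tgt, withDensity_congr_ae (pvsy_ae_Wt h hS hA {S.src e, S.tgt e} {e})]
      exact (hint e he).congr ((withDensity_absolutelyContinuous μ _).ae_le (hXX e).symm)) n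
  rw [pvsy_ae_Dc hA, setLIntegral_congr (pvsy_ae_Ev hA Cu Cf), Finset.sum_congr rfl fun e _ => pvsy_ae_k h hS hA hXX e] at key
  have e2 : ∫⁻ η in S.Ev Cu Cf, ‖pvsyY X' Cf η‖ₑ ^ n ∂μ = ∫⁻ η in S.Ev Cu Cf, ‖pvsyY X Cf η‖ₑ ^ n ∂μ := by
    refine lintegral_congr_ae (ae_restrict_of_ae ?_)
    filter_upwards [pvsy_ae_Y hXX Cf] with η hη
    rw [hη]
  rwa [e2] at key

/-- closed experiment (TR28 (a)) -/
theorem pvsy_const_one_ae (h : IsPpp m μ) (hS : S.WF₀ μ) (hX : S.Fld₀ μ X) (hF : S.Forced₀ μ Cu Cf q) (hcl : ∀ e ∈ Cf, S.src e ∈ Cu ∧ S.tgt e ∈ Cu)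
    {e : C} (he : e ∈ Cf) (n : ℕ) :
    ‖S.k μ X e‖ₑ ^ n ≤ S.Dc μ Cu Cf q * ∫⁻ η in S.Ev Cu Cf, ‖X e η‖ₑ ^ n ∂μ := by
  obtain ⟨S', X', hA, hXX, hS', hX', hF'⟩ := pvsy_reg_ae h hS hX hF
  have key := pvsy_const_one h hS' hX' hF' (by rw [hA.src, hA.tgt]; exact hcl) he n
  rw [pvsy_ae_Dc hA, setLIntegral_congr (pvsy_ae_Ev hA Cu Cf), pvsy_ae_k h hS hA hXX e] at key
  have e2 : ∫⁻ η in S.Ev Cu Cf, ‖X' e η‖ₑ ^ n ∂μ = ∫⁻ η in S.Ev Cu Cf, ‖X e η‖ₑ ^ n ∂μ := by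
    refine lintegral_congr_ae (ae_restrict_of_ae ?_)
    filter_upwards [hXX e] with η hη
    rw [hη]
  rwa [e2] at key

/-! the same exits under the POINTWISE hypothesis `Forced` (old names) -/

theorem pvsy_mass₀ (h : IsPpp m μ) (hS : S.WF₀ μ) (hF : S.Forced μ Cu Cf q) :
    ∀ᵐ σ ∂μ, σ ∈ S.Ends Cu Cf → ∫⁻ η, S.Wt μ Cu Cf (Conf.spl (S.R Cu Cf)ᶜ (σ, η)) ∂μ = 1 :=
  pvsy_mass_ae h hS hF.ae

theorem pvsy_y_eq₀ (h : IsPpp m μ) (hS : S.WF₀ μ) (hX : S.Fld₀ μ X) (hF : S.Forced μ Cu Cf q) {B : Set (Conf E)} (hB : NullMeasurableSet B μ)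
    (hBe : B ⊆ S.Ends Cu Cf) (hBr : Conf.ReadsSet (S.R Cu Cf)ᶜ B) (hfin : ∀ e ∈ Cf, ∫⁻ η in B ∩ S.Ev Cu Cf, ‖X e η‖ₑ ∂μ ≠ ∞) :
    ∀ᵐ σ ∂μ, σ ∈ B → S.y μ X Cu Cf σ = ∑ e ∈ Cf, S.me μ X Cu e σ :=
  pvsy_y_eq_ae h hS hX hF.ae hB hBe hBr hfin

theorem pvsy_cycle₀ (h : IsPpp m μ) (hS : S.WF₀ μ) (hX : S.Fld₀ μ X) (hF : S.Forced μ Cu Cf q) (n : ℕ) {B : Set (Conf E)} (hB : NullMeasurableSet B μ)
    (hBe : B ⊆ S.Ends Cu Cf) (hBr : Conf.ReadsSet (S.R Cu Cf)ᶜ B) :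
    ∫⁻ η in B, ‖S.y μ X Cu Cf η‖ₑ ^ n ∂μ ≤ S.Dc μ Cu Cf q * ∫⁻ η in B ∩ S.Ev Cu Cf, ‖pvsyY X Cf η‖ₑ ^ n ∂μ :=
  pvsy_cycle_ae h hS hX hF.ae n hB hBe hBr

theorem pvsy_conn₀ (h : IsPpp m μ) (hS : S.WF₀ μ) (hX : S.Fld₀ μ X) (hF : S.Forced μ Cu Cf q) (n : ℕ) {B : Set (Conf E)} (hB : NullMeasurableSet B μ)
    (hBe : B ⊆ S.Ends Cu Cf) (hBr : Conf.ReadsSet (S.R Cu Cf)ᶜ B) {e : C} (he : e ∈ Cf) :
    ∫⁻ η in B, ‖S.me μ X Cu e η‖ₑ ^ n ∂μ ≤ S.Dc μ Cu Cf q * ∫⁻ η in B ∩ S.Ev Cu Cf, ‖X e η‖ₑ ^ n ∂μ :=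
  pvsy_conn_ae h hS hX hF.ae n hB hBe hBr he

theorem pvsy_n1_fam₀ (h : IsPpp m μ) (hS : S.WF₀ μ) (hX : S.Fld₀ μ X) (hF : S.Forced μ Cu Cf q) {ι : Type*} {X₀ : ι → Conf E → ℂ} {a : ι → Conf E → ℝ≥0∞}
    {H : Conf E → ℝ≥0∞} (hXr : ∀ i, Conf.Reads (S.R Cu Cf)ᶜ (X₀ i)) (har : ∀ i, Conf.Reads (S.R Cu Cf)ᶜ (a i)) (hH : AEMeasurable H μ)
    (ha : ∀ i σ, a i σ ≠ 0 → σ ∈ S.Ends Cu Cf)
    (hdom : ∀ᵐ η ∂μ, η ∈ S.Ev Cu Cf → ∑' i, ‖X₀ i η + pvsyY X Cf η‖ₑ ^ 2 * a i η ≤ H η) :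
    ∫⁻ σ, ∑' i, ‖X₀ i σ + S.y μ X Cu Cf σ‖ₑ ^ 2 * a i σ ∂μ ≤ S.Dc μ Cu Cf q * ∫⁻ η in S.Ev Cu Cf, H η ∂μ :=
  pvsy_n1_fam_ae h hS hX hF.ae hXr har hH ha hdom

theorem pvsy_const₀ (h : IsPpp m μ) (hS : S.WF₀ μ) (hX : S.Fld₀ μ X) (hF : S.Forced μ Cu Cf q) (hcl : ∀ e ∈ Cf, S.src e ∈ Cu ∧ S.tgt e ∈ Cu)
    (hint : ∀ e ∈ Cf, Integrable (X e) (μ.withDensity (S.Wt μ {S.src e, S.tgt e} {e}))) (n : ℕ) :
    ‖∑ e ∈ Cf, S.k μ X e‖ₑ ^ n ≤ S.Dc μ Cu Cf q * ∫⁻ η in S.Ev Cu Cf, ‖pvsyY X Cf η‖ₑ ^ n ∂μ :=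
  pvsy_const_ae h hS hX hF.ae hcl hint n

theorem pvsy_const_one₀ (h : IsPpp m μ) (hS : S.WF₀ μ) (hX : S.Fld₀ μ X) (hF : S.Forced μ Cu Cf q) (hcl : ∀ e ∈ Cf, S.src e ∈ Cu ∧ S.tgt e ∈ Cu)
    {e : C} (he : e ∈ Cf) (n : ℕ) :
    ‖S.k μ X e‖ₑ ^ n ≤ S.Dc μ Cu Cf q * ∫⁻ η in S.Ev Cu Cf, ‖X e η‖ₑ ^ n ∂μ :=
  pvsy_const_one_ae h hS hX hF.ae hcl he n

end reg

/-! ## 5. cyclic lists of sectors -/

/-- one SECTOR of a cyclic system: a placed plug (`O`, `G`) and the connector which leaves it (`K`, `A`) -/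
structure PvsySec (E : Type*) where
  O : Set E
  G : Set (Conf E)
  K : Set E
  A : Set (Conf E)

namespace PvsySec

variable {E : Type*} [MeasurableSpace E] (a b : PvsySec E)

/-- `1_G / μ G` -/
noncomputable def g (μ : Measure (Conf E)) (η : Conf E) : ℝ≥0∞ := a.G.indicator 1 η / μ a.G

/-- `w_e`, `e : a → b` the connector of the sector `a` -/
noncomputable def w (μ : Measure (Conf E)) : Conf E → ℝ≥0∞ := pvtiW μ (a.O ∪ b.O) a.A

/-- the two-plug weight -/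
noncomputable def w2 (μ : Measure (Conf E)) (η : Conf E) : ℝ≥0∞ := a.g μ η * b.g μ η * a.w b μ η

/-- `k_e` -/
noncomputable def k (μ : Measure (Conf E)) (X : Conf E → ℂ) : ℂ := ∫ η, X η ∂(μ.withDensity (a.w2 b μ))

/-- `kout_e` : a function of the state of `a` -/
noncomputable def kout (μ : Measure (Conf E)) (X : Conf E → ℂ) : Conf E → ℂ := pvtiMean μ a.O (fun η => b.g μ η * a.w b μ η) X

/-- `kin_e` : a function of the state of `b` -/
noncomputable def kin (μ : Measure (Conf E)) (X : Conf E → ℂ) : Conf E → ℂ := pvtiMean μ b.O (fun η => a.g μ η * a.w b μ η) X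

/-- `i_e` : a function of the two states -/
noncomputable def ii (μ : Measure (Conf E)) (X : Conf E → ℂ) : Conf E → ℂ := pvtiMean μ (a.O ∪ b.O) (a.w b μ) X

end PvsySec

/-- the successor in `Fin n` -/
def pvsyNx {n : ℕ} (j : Fin n) : Fin n := ⟨(j.1 + 1) % n, Nat.mod_lt _ (Nat.lt_of_le_of_lt (Nat.zero_le _) j.2)⟩

/-- **the cyclic system of the sectors `sec 0, …, sec (n-1)`**: the connector of `sec j` goes to the plug of `sec ((j+1) % n)` -/
def pvsyCyc {E : Type*} (n : ℕ) (sec : ℕ → PvsySec E) : PvsySys E (Fin n) (Fin n) where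
  O j := (sec j).O
  K j := (sec j).K
  src j := j
  tgt j := pvsyNx j
  G j := (sec j).G
  A j := (sec j).A

/-- a set of indices `< n` -/
def pvsyFin (n : ℕ) (s : Finset ℕ) : Finset (Fin n) := Finset.univ.filter fun j => j.1 ∈ s

theorem pvsy_eqns_cite3 : True := by
  have := @PvsySec.g.eq_1.{0}; have := @PvsySec.w.eq_1.{0}; have := @PvsySec.w2.eq_1.{0}; have := @PvsySec.k.eq_1.{0}
  have := @PvsySec.kout.eq_1.{0}; have := @PvsySec.kin.eq_1.{0}; have := @PvsySec.ii.eq_1.{0}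
  have := @pvsyNx.eq_1; have := @pvsyCyc.eq_1.{0}; have := @pvsyFin.eq_1
  trivial

section cyc

variable {E : Type*} [MeasurableSpace E] {n : ℕ} {sec : ℕ → PvsySec E} {m : Measure E} {μ : Measure (Conf E)} {X : ℕ → Conf E → ℂ}

/-- well-formedness of a cyclic list (events: NULL-measurable only, as `pvcn_bridge_null` gives them) -/
structure PvsyCycWF (μ : Measure (Conf E)) (n : ℕ) (sec : ℕ → PvsySec E) : Prop where
  two : 2 ≤ n
  mO : ∀ j < n, MeasurableSet (sec j).O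
  mK : ∀ j < n, MeasurableSet (sec j).K
  mG : ∀ j < n, NullMeasurableSet (sec j).G μ
  mA : ∀ j < n, NullMeasurableSet (sec j).A μ
  dOO : ∀ i < n, ∀ j < n, i ≠ j → Disjoint (sec i).O (sec j).O
  dKK : ∀ i < n, ∀ j < n, i ≠ j → Disjoint (sec i).K (sec j).K
  dOK : ∀ i < n, ∀ j < n, Disjoint (sec i).O (sec j).K
  rG : ∀ j < n, Conf.ReadsSet (sec j).O (sec j).G
  rA : ∀ j < n, Conf.ReadsSet ((sec j).O ∪ (sec ((j + 1) % n)).O ∪ (sec j).K) (sec j).A

/-- a field on a cyclic list (a.e. measurable only, as `pvcn_bridge_fun` gives it) -/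
structure PvsyCycFld (μ : Measure (Conf E)) (n : ℕ) (sec : ℕ → PvsySec E) (X : ℕ → Conf E → ℂ) : Prop where
  meas : ∀ j < n, AEMeasurable (X j) μ
  reads : ∀ j < n, Conf.Reads ((sec j).O ∪ (sec ((j + 1) % n)).O ∪ (sec j).K) (X j)

/-- admission of the inner plugs `a`, forcing of the connectors `b` (for ALMOST EVERY pair of states: `pvsy_reg_ae`) -/
structure PvsyCycForced (μ : Measure (Conf E)) (n : ℕ) (sec : ℕ → PvsySec E) (a b : Finset ℕ) (q : ℕ → ℝ≥0∞) : Prop where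
  G_pos : ∀ j ∈ a, j < n → μ (sec j).G ≠ 0
  q_pos : ∀ j ∈ b, j < n → q j ≠ 0
  q_le : ∀ j ∈ b, j < n → q j ≤ 1
  frc : ∀ j ∈ b, j < n → ∀ᵐ σ ∂μ, σ ∈ (sec j).G → σ ∈ (sec ((j + 1) % n)).G → q j ≤ pvtiP μ ((sec j).O ∪ (sec ((j + 1) % n)).O) (sec j).A σ

theorem pvsy_cyc_wf (h : PvsyCycWF μ n sec) : (pvsyCyc n sec).WF₀ μ := by
  refine ⟨fun u => h.mO u u.2, fun e => h.mK e e.2, ?_, ?_, fun u => h.mG u u.2, fun e => h.mA e e.2, fun u => h.rG u u.2, fun e => h.rA e e.2⟩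
  · rintro (u | u) (v | v) huv
    · exact h.dOO u u.2 v v.2 fun e => huv (congrArg Sum.inl (Fin.ext e))
    · exact h.dOK u u.2 v v.2
    · exact (h.dOK v v.2 u u.2).symm
    · exact h.dKK u u.2 v v.2 fun e => huv (congrArg Sum.inr (Fin.ext e))
  · intro e he
    have h1 : (e : ℕ) = (e.1 + 1) % n := congrArg Fin.val he
    have h2 := h.two
    have h3 := e.2
    rcases Nat.lt_or_ge (e.1 + 1) n with h4 | h4
    · rw [Nat.mod_eq_of_lt h4] at h1; omega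
    · have h5 : e.1 + 1 = n := by omega
      rw [h5, Nat.mod_self] at h1; omega

theorem pvsy_cyc_fld (h : PvsyCycFld μ n sec X) : (pvsyCyc n sec).Fld₀ μ fun j => X j := by
  exact ⟨fun e => h.meas e e.2, fun e => h.reads e e.2⟩

theorem pvsy_cyc_forced {a b : Finset ℕ} {q : ℕ → ℝ≥0∞} (h : PvsyCycForced μ n sec a b q) :
    (pvsyCyc n sec).Forced₀ μ (pvsyFin n a) (pvsyFin n b) fun j => q j := by
  refine ⟨fun u hu => ?_, fun e he => ?_, fun e he => ?_, fun e he => ?_⟩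
  · exact h.G_pos u (Finset.mem_filter.1 hu).2 u.2
  · exact h.q_pos e (Finset.mem_filter.1 he).2 e.2
  · exact h.q_le e (Finset.mem_filter.1 he).2 e.2
  · exact h.frc e (Finset.mem_filter.1 he).2 e.2

theorem pvsy_fin_map (n : ℕ) (s : Finset ℕ) : (pvsyFin n s).map Fin.valEmbedding = s.filter (· < n) := by
  ext j
  simp only [pvsyFin, Finset.mem_map, Finset.mem_filter, Finset.mem_univ, true_and, Fin.valEmbedding_apply]
  constructor
  · rintro ⟨i, hi, rfl⟩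
    exact ⟨hi, i.2⟩
  · rintro ⟨hj, hn⟩
    exact ⟨⟨j, hn⟩, hj, rfl⟩

theorem pvsy_sum_fin {M : Type*} [AddCommMonoid M] (n : ℕ) (s : Finset ℕ) (f : ℕ → M) : ∑ j ∈ pvsyFin n s, f j = ∑ j ∈ s.filter (· < n), f j := by
  rw [← pvsy_fin_map, Finset.sum_map]
  rfl

theorem pvsy_prod_fin {M : Type*} [CommMonoid M] (n : ℕ) (s : Finset ℕ) (f : ℕ → M) : ∏ j ∈ pvsyFin n s, f j = ∏ j ∈ s.filter (· < n), f j := by
  rw [← pvsy_fin_map, Finset.prod_map]
  rfl

theorem pvsy_nx_ne (h2 : 2 ≤ n) (j : Fin n) : j ≠ pvsyNx j := by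
  intro h
  have h1 : j.1 = (j.1 + 1) % n := congrArg Fin.val h
  have hj := j.2
  rcases Nat.lt_or_ge (j.1 + 1) n with h3 | h3
  · rw [Nat.mod_eq_of_lt h3] at h1; omega
  · have : j.1 + 1 = n := by omega
    rw [this, Nat.mod_self] at h1; omega

theorem pvsy_sec_reads_g {O : Set E} {G : Set (Conf E)} (h : Conf.ReadsSet O G) (c : ℝ≥0∞) : Conf.Reads O (fun η => G.indicator (1 : Conf E → ℝ≥0∞) η / c) := by
  intro η
  by_cases hη : η ∈ G
  · simp only [Set.indicator_of_mem hη, Set.indicator_of_mem ((h η).2 hη), Pi.one_apply]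
  · simp only [Set.indicator_of_notMem hη, Set.indicator_of_notMem (fun h' => hη ((h η).1 h'))]

theorem pvsy_sec_reads_w {O D : Set E} {A : Set (Conf E)} (hOD : O ⊆ D) (h : Conf.ReadsSet D A) (μ : Measure (Conf E)) : Conf.Reads D (pvtiW μ O A) := by
  intro η
  unfold pvtiW
  rw [((pvti_P_reads μ O A).mono hOD) η]
  by_cases hη : η ∈ A
  · simp only [Set.indicator_of_mem hη, Set.indicator_of_mem ((h η).2 hη), Pi.one_apply]
  · simp only [Set.indicator_of_notMem hη, Set.indicator_of_notMem (fun h' => hη ((h η).1 h'))]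

/-- the constants of a cyclic system depend only on the two sectors -/
theorem pvsy_cyc_k (h : PvsyCycWF μ n sec) (X : ℕ → Conf E → ℂ) (j : Fin n) :
    (pvsyCyc n sec).k μ (fun j => X j) j = (sec j).k (sec ((j + 1) % n)) μ (X j) := by
  unfold PvsySys.k PvsySec.k
  congr 2
  funext η
  unfold PvsySys.Wt PvsySec.w2
  have hne : (pvsyCyc n sec).src j ≠ (pvsyCyc n sec).tgt j := pvsy_nx_ne h.two j
  rw [Finset.prod_pair hne, Finset.prod_singleton]
  rfl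

theorem pvsy_cyc_kout (h : PvsyCycWF μ n sec) (hX : PvsyCycFld μ n sec X) (j : Fin n) :
    (pvsyCyc n sec).kout μ (fun j => X j) j = (sec j).kout (sec ((j + 1) % n)) μ (X j) := by
  have hj := j.2
  have hj' : (j.1 + 1) % n < n := Nat.mod_lt _ (by omega)
  have hne : j.1 ≠ (j.1 + 1) % n := fun e => pvsy_nx_ne h.two j (Fin.ext e)
  obtain ⟨a, ha⟩ : ∃ a, a = sec j := ⟨_, rfl⟩
  obtain ⟨b, hb⟩ : ∃ b, b = sec ((j + 1) % n) := ⟨_, rfl⟩
  have hR : (pvsyCyc n sec).R {(pvsyCyc n sec).tgt j} {j} = b.O ∪ a.K := by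
    unfold PvsySys.R
    simp only [Finset.mem_singleton, iUnion_iUnion_eq_left]
    rw [ha, hb]; rfl
  have hW : (pvsyCyc n sec).Wt μ {(pvsyCyc n sec).tgt j} {j} = fun η => b.g μ η * a.w b μ η := by
    funext η
    unfold PvsySys.Wt
    rw [Finset.prod_singleton, Finset.prod_singleton, ha, hb]
    rfl
  have hY : pvsyY (fun j : Fin n => X j) {j} = X j := by
    funext η
    unfold pvsyY
    rw [Finset.sum_singleton]
  unfold PvsySys.kout PvsySys.y PvsySec.kout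
  rw [hR, hW, hY, ← ha, ← hb]
  have dab : Disjoint a.O b.O := by rw [ha, hb]; exact h.dOO _ hj _ hj' hne
  have daK : Disjoint a.O a.K := by rw [ha]; exact h.dOK _ hj _ hj
  have hsub : a.O ⊆ (b.O ∪ a.K)ᶜ := by
    intro p hp hq
    rcases hq with hq | hq
    · exact Set.disjoint_left.1 dab hp hq
    · exact Set.disjoint_left.1 daK hp hq
  have hdis : Disjoint (b.O ∪ a.K) (b.O ∪ a.K)ᶜ := disjoint_compl_right
  have hD : a.O ∪ (b.O ∪ a.K) = a.O ∪ b.O ∪ a.K := (Set.union_assoc _ _ _).symm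
  have rX : Conf.Reads (a.O ∪ (b.O ∪ a.K)) (X j) := by rw [hD, ha, hb]; exact hX.reads _ hj
  have rg : Conf.Reads (a.O ∪ (b.O ∪ a.K)) (b.g μ) :=
    (pvsy_sec_reads_g (by rw [hb]; exact h.rG _ hj') _).mono (fun p hp => Or.inr (Or.inl hp))
  have rw' : Conf.Reads (a.O ∪ (b.O ∪ a.K)) (a.w b μ) := by
    rw [hD]
    exact pvsy_sec_reads_w Set.subset_union_left (by rw [ha, hb]; exact h.rA _ hj) μ
  funext σ
  unfold pvtiMean
  have e1 : (fun η => X j (Conf.spl (b.O ∪ a.K)ᶜ (σ, η))) = fun η => X j (Conf.spl a.O (σ, η)) :=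
    funext fun η => rX.spl_change hsub hdis σ η
  have e2 : (fun η => b.g μ (Conf.spl (b.O ∪ a.K)ᶜ (σ, η)) * a.w b μ (Conf.spl (b.O ∪ a.K)ᶜ (σ, η)))
      = fun η => b.g μ (Conf.spl a.O (σ, η)) * a.w b μ (Conf.spl a.O (σ, η)) :=
    funext fun η => by rw [rg.spl_change hsub hdis σ η, rw'.spl_change hsub hdis σ η]
  rw [e1, e2]

theorem pvsy_cyc_kin (h : PvsyCycWF μ n sec) (hX : PvsyCycFld μ n sec X) (j : Fin n) :
    (pvsyCyc n sec).kin μ (fun j => X j) j = (sec j).kin (sec ((j + 1) % n)) μ (X j) := by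
  have hj := j.2
  have hj' : (j.1 + 1) % n < n := Nat.mod_lt _ (by omega)
  have hne : j.1 ≠ (j.1 + 1) % n := fun e => pvsy_nx_ne h.two j (Fin.ext e)
  obtain ⟨a, ha⟩ : ∃ a, a = sec j := ⟨_, rfl⟩
  obtain ⟨b, hb⟩ : ∃ b, b = sec ((j + 1) % n) := ⟨_, rfl⟩
  have hR : (pvsyCyc n sec).R {(pvsyCyc n sec).src j} {j} = a.O ∪ a.K := by
    unfold PvsySys.R
    simp only [Finset.mem_singleton, iUnion_iUnion_eq_left]
    rw [ha]; rfl
  have hW : (pvsyCyc n sec).Wt μ {(pvsyCyc n sec).src j} {j} = fun η => a.g μ η * a.w b μ η := by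
    funext η
    unfold PvsySys.Wt
    rw [Finset.prod_singleton, Finset.prod_singleton, ha, hb]
    rfl
  have hY : pvsyY (fun j : Fin n => X j) {j} = X j := by
    funext η
    unfold pvsyY
    rw [Finset.sum_singleton]
  unfold PvsySys.kin PvsySys.y PvsySec.kin
  rw [hR, hW, hY, ← ha, ← hb]
  have dab : Disjoint a.O b.O := by rw [ha, hb]; exact h.dOO _ hj _ hj' hne
  have dbK : Disjoint b.O a.K := by rw [ha, hb]; exact h.dOK _ hj' _ hj
  have hsub : b.O ⊆ (a.O ∪ a.K)ᶜ := by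
    intro p hp hq
    rcases hq with hq | hq
    · exact Set.disjoint_left.1 dab hq hp
    · exact Set.disjoint_left.1 dbK hp hq
  have hdis : Disjoint (a.O ∪ a.K) (a.O ∪ a.K)ᶜ := disjoint_compl_right
  have hD : b.O ∪ (a.O ∪ a.K) = a.O ∪ b.O ∪ a.K := by
    rw [← Set.union_assoc, Set.union_comm b.O a.O]
  have rX : Conf.Reads (b.O ∪ (a.O ∪ a.K)) (X j) := by rw [hD, ha, hb]; exact hX.reads _ hj
  have rg : Conf.Reads (b.O ∪ (a.O ∪ a.K)) (a.g μ) :=
    (pvsy_sec_reads_g (by rw [ha]; exact h.rG _ hj) _).mono (fun p hp => Or.inr (Or.inl hp))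
  have rw' : Conf.Reads (b.O ∪ (a.O ∪ a.K)) (a.w b μ) := by
    rw [hD]
    exact pvsy_sec_reads_w Set.subset_union_left (by rw [ha, hb]; exact h.rA _ hj) μ
  funext σ
  unfold pvtiMean
  have e1 : (fun η => X j (Conf.spl (a.O ∪ a.K)ᶜ (σ, η))) = fun η => X j (Conf.spl b.O (σ, η)) :=
    funext fun η => rX.spl_change hsub hdis σ η
  have e2 : (fun η => a.g μ (Conf.spl (a.O ∪ a.K)ᶜ (σ, η)) * a.w b μ (Conf.spl (a.O ∪ a.K)ᶜ (σ, η)))
      = fun η => a.g μ (Conf.spl b.O (σ, η)) * a.w b μ (Conf.spl b.O (σ, η)) :=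
    funext fun η => by rw [rg.spl_change hsub hdis σ η, rw'.spl_change hsub hdis σ η]
  rw [e1, e2]

/-- the mean of 141 : keeping more than `O`, but nothing of `C`, is the same as keeping `O` -/
theorem pvsy_mean_chg {O U K : Set E} {W : Conf E → ℝ≥0∞} {Y : Conf E → ℂ} (hW : Conf.Reads (O ∪ K) W) (hY : Conf.Reads (O ∪ K) Y)
    (hOU : O ⊆ U) (hK : Disjoint K U) (μ : Measure (Conf E)) : pvtiMean μ U W Y = pvtiMean μ O W Y := by
  funext σ
  unfold pvtiMean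
  simp_rw [hW.spl_change hOU hK σ, hY.spl_change hOU hK σ]

theorem pvsy_cyc_ii (h : PvsyCycWF μ n sec) (hX : PvsyCycFld μ n sec X) (j : Fin n) :
    (pvsyCyc n sec).ii μ (fun j => X j) j = (sec j).ii (sec ((j + 1) % n)) μ (X j) := by
  have hn : (j.1 + 1) % n < n := Nat.mod_lt _ (Nat.lt_of_le_of_lt (Nat.zero_le _) j.2)
  have eW : (pvsyCyc n sec).Wt μ ∅ {j} = (sec j).w (sec ((j + 1) % n)) μ := by
    funext η
    simp only [PvsySys.Wt, Finset.prod_empty, Finset.prod_singleton, one_mul]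
    rfl
  have eY : pvsyY (fun j : Fin n => X j) {j} = X j := by
    funext η
    simp only [pvsyY, Finset.sum_singleton]
  have eR : (pvsyCyc n sec).R ∅ {j} = (sec j).K := by
    simp only [PvsySys.R, Finset.notMem_empty, iUnion_of_empty, iUnion_empty, empty_union, Finset.mem_singleton, iUnion_iUnion_eq_left]
    rfl
  have rW : Conf.Reads ((sec j).O ∪ (sec ((j + 1) % n)).O ∪ (sec j).K) ((sec j).w (sec ((j + 1) % n)) μ) := by
    intro η
    have h1 : Conf.Reads ((sec j).O ∪ (sec ((j + 1) % n)).O ∪ (sec j).K) (pvtiP μ ((sec j).O ∪ (sec ((j + 1) % n)).O) (sec j).A) :=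
      (pvti_P_reads μ _ _).mono subset_union_left
    show (sec j).A.indicator 1 (Conf.restr _ η) / pvtiP μ _ (sec j).A (Conf.restr _ η) = (sec j).A.indicator 1 η / pvtiP μ _ (sec j).A η
    rw [pvti_ind_reads (Conf.readsSet_iff_reads.1 (h.rA j j.2)) η, h1 η]
  show pvtiMean μ ((pvsyCyc n sec).R ∅ {j})ᶜ ((pvsyCyc n sec).Wt μ ∅ {j}) (pvsyY (fun j : Fin n => X j) {j}) = pvtiMean μ _ _ _
  rw [eW, eY, eR]
  refine pvsy_mean_chg rW (hX.reads j j.2) ?_ disjoint_compl_right μ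
  rintro z (hz | hz) hK
  · exact Set.disjoint_left.1 (h.dOK j j.2 j j.2) hz hK
  · exact Set.disjoint_left.1 (h.dOK _ hn j j.2) hz hK

/-- the event of a cyclic experiment -/
def pvsyEv (n : ℕ) (sec : ℕ → PvsySec E) (a b : Finset ℕ) : Set (Conf E) := {η | (∀ j ∈ a, j < n → η ∈ (sec j).G) ∧ ∀ j ∈ b, j < n → η ∈ (sec j).A}

/-- the bound of the weight of a cyclic experiment -/
noncomputable def pvsyDc (μ : Measure (Conf E)) (n : ℕ) (sec : ℕ → PvsySec E) (a b : Finset ℕ) (q : ℕ → ℝ≥0∞) : ℝ≥0∞ :=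
  (∏ j ∈ a.filter (· < n), (μ (sec j).G)⁻¹) * ∏ j ∈ b.filter (· < n), (q j)⁻¹

theorem pvsy_eqns_cite4 : True := by
  have := @pvsyEv.eq_1.{0}; have := @pvsyDc.eq_1.{0}
  trivial

theorem pvsy_mem_fin {s : Finset ℕ} {j : Fin n} : j ∈ pvsyFin n s ↔ j.1 ∈ s := by
  simp only [pvsyFin, Finset.mem_filter, Finset.mem_univ, true_and]

theorem pvsy_cyc_Ev (n : ℕ) (sec : ℕ → PvsySec E) (a b : Finset ℕ) : (pvsyCyc n sec).Ev (pvsyFin n a) (pvsyFin n b) = pvsyEv n sec a b := by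
  ext η
  simp only [PvsySys.Ev, pvsyEv, mem_ofPred_eq, pvsy_mem_fin]
  constructor
  · rintro ⟨h1, h2⟩
    exact ⟨fun j hj hn => h1 ⟨j, hn⟩ hj, fun j hj hn => h2 ⟨j, hn⟩ hj⟩
  · rintro ⟨h1, h2⟩
    exact ⟨fun j hj => h1 j hj j.2, fun j hj => h2 j hj j.2⟩

theorem pvsy_cyc_Dc (μ : Measure (Conf E)) (n : ℕ) (sec : ℕ → PvsySec E) (a b : Finset ℕ) (q : ℕ → ℝ≥0∞) :
    (pvsyCyc n sec).Dc μ (pvsyFin n a) (pvsyFin n b) (fun j => q j) = pvsyDc μ n sec a b q := by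
  unfold PvsySys.Dc pvsyDc
  rw [← pvsy_prod_fin n a fun j => (μ (sec j).G)⁻¹, ← pvsy_prod_fin n b fun j => (q j)⁻¹]
  rfl

theorem pvsy_cyc_Y (n : ℕ) (X : ℕ → Conf E → ℂ) (b : Finset ℕ) (η : Conf E) :
    pvsyY (fun j : Fin n => X j) (pvsyFin n b) η = ∑ j ∈ b.filter (· < n), X j η := by
  unfold pvsyY
  exact pvsy_sum_fin n b fun j => X j η

theorem pvsy_cyc_Wt2 (hn : 2 ≤ n) (μ : Measure (Conf E)) (sec : ℕ → PvsySec E) (j : Fin n) :
    (pvsyCyc n sec).Wt μ {(pvsyCyc n sec).src j, (pvsyCyc n sec).tgt j} {j} = (sec j).w2 (sec ((j + 1) % n)) μ := by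
  funext η
  have hne : (pvsyCyc n sec).src j ∉ ({(pvsyCyc n sec).tgt j} : Finset (Fin n)) := by
    rw [Finset.mem_singleton]
    exact pvsy_nx_ne hn j
  simp only [PvsySys.Wt, Finset.prod_insert hne, Finset.prod_singleton]
  rfl

theorem pvsy_filter_range (n : ℕ) : (Finset.range n).filter (· < n) = Finset.range n :=
  Finset.filter_true_of_mem fun _ hj => Finset.mem_range.1 hj

/-- **INSTANCE 1: CLOSED CYCLE** (HEX, TR27): no marked plug -/
theorem pvsy_closed (h : IsPpp m μ) (hS : PvsyCycWF μ n sec) (hX : PvsyCycFld μ n sec X) {q : ℕ → ℝ≥0∞}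
    (hF : PvsyCycForced μ n sec (Finset.range n) (Finset.range n) q)
    (hint : ∀ j < n, Integrable (X j) (μ.withDensity ((sec j).w2 (sec ((j + 1) % n)) μ))) (r : ℕ) :
    ‖∑ j ∈ Finset.range n, (sec j).k (sec ((j + 1) % n)) μ (X j)‖ₑ ^ r
      ≤ pvsyDc μ n sec (Finset.range n) (Finset.range n) q * ∫⁻ η in pvsyEv n sec (Finset.range n) (Finset.range n), ‖∑ j ∈ Finset.range n, X j η‖ₑ ^ r ∂μ := by
  have key := pvsy_const_ae h (pvsy_cyc_wf hS) (pvsy_cyc_fld hX) (pvsy_cyc_forced hF)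
    (fun e _ => ⟨pvsy_mem_fin.2 (Finset.mem_range.2 (Fin.is_lt _)), pvsy_mem_fin.2 (Finset.mem_range.2 (Fin.is_lt _))⟩)
    (fun e _ => by rw [pvsy_cyc_Wt2 hS.two]; exact hint e e.2) r
  rw [pvsy_cyc_Ev, pvsy_cyc_Dc] at key
  simp_rw [pvsy_cyc_Y, pvsy_cyc_k hS X, pvsy_filter_range] at key
  rw [pvsy_sum_fin n (Finset.range n) fun j => (sec j).k (sec ((j + 1) % n)) μ (X j), pvsy_filter_range] at key
  exact key

/-- closed cycle, one constant (TR28 (a)) -/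
theorem pvsy_closed_one (h : IsPpp m μ) (hS : PvsyCycWF μ n sec) (hX : PvsyCycFld μ n sec X) {q : ℕ → ℝ≥0∞}
    (hF : PvsyCycForced μ n sec (Finset.range n) (Finset.range n) q) {j : ℕ} (hj : j < n) (r : ℕ) :
    ‖(sec j).k (sec ((j + 1) % n)) μ (X j)‖ₑ ^ r
      ≤ pvsyDc μ n sec (Finset.range n) (Finset.range n) q * ∫⁻ η in pvsyEv n sec (Finset.range n) (Finset.range n), ‖X j η‖ₑ ^ r ∂μ := by
  have key := pvsy_const_one_ae h (pvsy_cyc_wf hS) (pvsy_cyc_fld hX) (pvsy_cyc_forced hF)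
    (fun e _ => ⟨pvsy_mem_fin.2 (Finset.mem_range.2 (Fin.is_lt _)), pvsy_mem_fin.2 (Finset.mem_range.2 (Fin.is_lt _))⟩)
    (e := ⟨j, hj⟩) (pvsy_mem_fin.2 (Finset.mem_range.2 hj)) r
  rw [pvsy_cyc_Ev, pvsy_cyc_Dc, pvsy_cyc_k hS X] at key
  exact key

/-- `pvsy_me_k` for null-measurable systems (only the reading is used) -/
theorem pvsy_me_k0 {U C : Type*} [DecidableEq U] {S : PvsySys E U C} {X : C → Conf E → ℂ} {Cu : Finset U} (hS : S.WF₀ μ) (hX : S.Fld₀ μ X) {e : C}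
    (h1 : S.src e ∈ Cu) (h2 : S.tgt e ∈ Cu) (σ : Conf E) : S.me μ X Cu e σ = S.k μ X e := by
  have eie : S.ie Cu e = {S.src e, S.tgt e} := by
    unfold PvsySys.ie
    refine Finset.inter_eq_right.2 ?_
    intro u hu
    rcases Finset.mem_insert.1 hu with rfl | hu
    · exact h1
    · rw [Finset.mem_singleton.1 hu]
      exact h2
  have eR : S.R {S.src e, S.tgt e} {e} = S.D e := by
    ext z
    simp only [PvsySys.R, PvsySys.D, PvsySys.OO, mem_union, mem_iUnion, Finset.mem_insert, Finset.mem_singleton, exists_prop, exists_eq_or_imp, exists_eq_left]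
  have rg : ∀ u, Conf.Reads (S.O u) (S.g μ u) := by
    intro u η
    show (S.G u).indicator 1 (Conf.restr (S.O u) η) / μ (S.G u) = (S.G u).indicator 1 η / μ (S.G u)
    rw [pvti_ind_reads (Conf.readsSet_iff_reads.1 (hS.rG u)) η]
  have rw' : Conf.Reads (S.D e) (S.w μ e) := by
    intro η
    have h1 : Conf.Reads (S.D e) (pvtiP μ (S.OO e) (S.A e)) := (pvti_P_reads μ (S.OO e) (S.A e)).mono (subset_union_left : S.OO e ⊆ S.OO e ∪ S.K e)
    show (S.A e).indicator 1 (Conf.restr (S.D e) η) / pvtiP μ (S.OO e) (S.A e) (Conf.restr (S.D e) η) = (S.A e).indicator 1 η / pvtiP μ (S.OO e) (S.A e) η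
    rw [pvti_ind_reads (Conf.readsSet_iff_reads.1 (hS.rA e)) η, h1 η]
  have sO : ∀ u ∈ ({S.src e, S.tgt e} : Finset U), S.O u ⊆ S.D e := by
    intro u hu
    rcases Finset.mem_insert.1 hu with rfl | hu
    · exact fun z hz => Or.inl (Or.inl hz)
    · rw [Finset.mem_singleton.1 hu]
      exact fun z hz => Or.inl (Or.inr hz)
  have rWt : Conf.Reads (S.D e) (S.Wt μ {S.src e, S.tgt e} {e}) := by
    intro η
    unfold PvsySys.Wt
    rw [Finset.prod_congr rfl fun u hu => ((rg u).mono (sO u hu)) η, Finset.prod_singleton, Finset.prod_singleton, rw' η]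
  have eY : pvsyY X {e} = X e := by
    funext η
    simp only [pvsyY, Finset.sum_singleton]
  show pvtiMean μ (S.R (S.ie Cu e) {e})ᶜ (S.Wt μ (S.ie Cu e) {e}) (pvsyY X {e}) σ = ∫ η, X e η ∂(μ.withDensity (S.Wt μ {S.src e, S.tgt e} {e}))
  rw [eie, eR, eY]
  unfold pvtiMean
  simp_rw [rWt.spl_right disjoint_compl_right σ, (hX.reads e).spl_right disjoint_compl_right σ]

/-- the sum of the means of the connectors of a chain `0 → 1 → … → M`, in normal form (`M = n`: one marked plug; `M < n`: two marked plugs) -/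
theorem pvsy_cyc_chain (hS : PvsyCycWF μ n sec) (hX : PvsyCycFld μ n sec X) {M : ℕ} (hM : 2 ≤ M) (hMn : M ≤ n) (σ : Conf E) :
    ∑ e ∈ pvsyFin n (Finset.range M), (pvsyCyc n sec).me μ (fun j => X j) (pvsyFin n (Finset.Ioo 0 M)) e σ
      = (sec 0).kout (sec 1) μ (X 0) σ + ∑ j ∈ Finset.Ioo 0 (M - 1), (sec j).k (sec (j + 1)) μ (X j)
        + (sec (M - 1)).kin (sec (M % n)) μ (X (M - 1)) σ := by
  classical
  set f : ℕ → ℂ := fun j => if j = 0 then (sec 0).kout (sec 1) μ (X 0) σ else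
    if j = M - 1 then (sec (M - 1)).kin (sec (M % n)) μ (X (M - 1)) σ else (sec j).k (sec (j + 1)) μ (X j) with hf
  have e1 : ∀ e ∈ pvsyFin n (Finset.range M), (pvsyCyc n sec).me μ (fun j => X j) (pvsyFin n (Finset.Ioo 0 M)) e σ = f e := by
    intro e he
    have heM : e.1 < M := Finset.mem_range.1 (pvsy_mem_fin.1 he)
    by_cases h0 : e.1 = 0
    · have hs : (pvsyCyc n sec).src e ∉ pvsyFin n (Finset.Ioo 0 M) := by
        rw [pvsy_mem_fin]
        show e.1 ∉ _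
        rw [h0, Finset.mem_Ioo]
        omega
      have ht : (pvsyCyc n sec).tgt e ∈ pvsyFin n (Finset.Ioo 0 M) := by
        rw [pvsy_mem_fin]
        show (e.1 + 1) % n ∈ _
        rw [h0, Nat.mod_eq_of_lt (by omega), Finset.mem_Ioo]
        omega
      rw [pvsy_me_kout μ _ hs ht, pvsy_cyc_kout hS hX e, hf]
      simp only [h0, if_true]
      rw [Nat.mod_eq_of_lt (by omega)]
    · by_cases h1 : e.1 = M - 1
      · have hs : (pvsyCyc n sec).src e ∈ pvsyFin n (Finset.Ioo 0 M) := by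
          rw [pvsy_mem_fin]
          show e.1 ∈ _
          rw [Finset.mem_Ioo]
          omega
        have e2 : e.1 + 1 = M := by omega
        have ht : (pvsyCyc n sec).tgt e ∉ pvsyFin n (Finset.Ioo 0 M) := by
          rw [pvsy_mem_fin]
          show (e.1 + 1) % n ∉ _
          rw [e2, Finset.mem_Ioo]
          rcases Nat.lt_or_ge M n with h2 | h2
          · rw [Nat.mod_eq_of_lt h2]
            omega
          · rw [show M = n by omega, Nat.mod_self]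
            omega
        rw [pvsy_me_kin μ _ hs ht, pvsy_cyc_kin hS hX e, hf]
        simp only [if_neg h0, if_pos h1]
        rw [e2, h1]
      · have e2 : e.1 + 1 < n := by omega
        have hs : (pvsyCyc n sec).src e ∈ pvsyFin n (Finset.Ioo 0 M) := by
          rw [pvsy_mem_fin]
          show e.1 ∈ _
          rw [Finset.mem_Ioo]
          omega
        have ht : (pvsyCyc n sec).tgt e ∈ pvsyFin n (Finset.Ioo 0 M) := by
          rw [pvsy_mem_fin]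
          show (e.1 + 1) % n ∈ _
          rw [Nat.mod_eq_of_lt e2, Finset.mem_Ioo]
          omega
        rw [pvsy_me_k0 (pvsy_cyc_wf hS) (pvsy_cyc_fld hX) hs ht, pvsy_cyc_k hS X e, hf]
        simp only [if_neg h0, if_neg h1]
        rw [Nat.mod_eq_of_lt e2]
  rw [Finset.sum_congr rfl e1, pvsy_sum_fin n (Finset.range M) f]
  have e2 : (Finset.range M).filter (· < n) = insert 0 (insert (M - 1) (Finset.Ioo 0 (M - 1))) := by
    ext j
    simp only [Finset.mem_filter, Finset.mem_range, Finset.mem_insert, Finset.mem_Ioo]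
    omega
  have n1 : (0 : ℕ) ∉ insert (M - 1) (Finset.Ioo 0 (M - 1)) := by
    simp only [Finset.mem_insert, Finset.mem_Ioo]
    omega
  have n2 : M - 1 ∉ Finset.Ioo 0 (M - 1) := by
    simp only [Finset.mem_Ioo]
    omega
  have e3 : ∑ j ∈ Finset.Ioo 0 (M - 1), f j = ∑ j ∈ Finset.Ioo 0 (M - 1), (sec j).k (sec (j + 1)) μ (X j) := by
    refine Finset.sum_congr rfl fun j hj => ?_
    have := Finset.mem_Ioo.1 hj
    simp only [hf, if_neg (show j ≠ 0 by omega), if_neg (show j ≠ M - 1 by omega)]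
  rw [e2, Finset.sum_insert n1, Finset.sum_insert n2, e3]
  simp only [hf, if_true, if_neg (show M - 1 ≠ 0 by omega)]
  ring

/-- the marked plugs of a chain `0 → … → M` -/
theorem pvsy_cyc_ends {M : ℕ} (hMn : M ≤ n) {σ : Conf E} (h0 : σ ∈ (sec 0).G) (h1 : σ ∈ (sec (M % n)).G) :
    σ ∈ (pvsyCyc n sec).Ends (pvsyFin n (Finset.Ioo 0 M)) (pvsyFin n (Finset.range M)) := by
  intro e he
  have heM : e.1 < M := Finset.mem_range.1 (pvsy_mem_fin.1 he)
  constructor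
  · intro hs
    rw [pvsy_mem_fin] at hs
    have hs' : e.1 ∉ Finset.Ioo 0 M := hs
    rw [Finset.mem_Ioo] at hs'
    have e0 : e.1 = 0 := by omega
    show σ ∈ (sec e.1).G
    rw [e0]
    exact h0
  · intro ht
    rw [pvsy_mem_fin] at ht
    have ht' : (e.1 + 1) % n ∉ Finset.Ioo 0 M := ht
    show σ ∈ (sec ((e.1 + 1) % n)).G
    rcases Nat.lt_or_ge (e.1 + 1) M with h2 | h2
    · rw [Nat.mod_eq_of_lt (by omega), Finset.mem_Ioo] at ht'
      omega
    · rw [show e.1 + 1 = M by omega]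
      exact h1

/-- a plug which is not inner is not resampled -/
theorem pvsy_cyc_O_sub (hS : PvsyCycWF μ n sec) {a b : Finset ℕ} {i : ℕ} (hi : i < n) (hia : i ∉ a) :
    (sec i).O ⊆ ((pvsyCyc n sec).R (pvsyFin n a) (pvsyFin n b))ᶜ := by
  rintro z hz (hR | hR)
  · obtain ⟨u, hu, hzu⟩ := mem_iUnion₂.1 hR
    have hne : i ≠ u.1 := fun e => hia (e ▸ pvsy_mem_fin.1 hu)
    exact Set.disjoint_left.1 (hS.dOO i hi u u.2 hne) hz hzu
  · obtain ⟨e, -, hze⟩ := mem_iUnion₂.1 hR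
    exact Set.disjoint_left.1 (hS.dOK i hi e e.2) hz hze

/-- **INSTANCE 2: ONE MARKED PLUG** (`Σ₂`: one pin + funnels + thin ring arc, TR29;   `Σ₁`: `t -thin-> u -thick-> t`, TR31): the plug of `sec 0` is marked.
`L^r` bound of `kout_0(σ) + ∑_{0<j<n-1} k_j + kin_{n-1}(σ)` on `G_0` -/
theorem pvsy_pin (h : IsPpp m μ) (hS : PvsyCycWF μ n sec) (hX : PvsyCycFld μ n sec X) {q : ℕ → ℝ≥0∞}
    (hF : PvsyCycForced μ n sec (Finset.Ioo 0 n) (Finset.range n) q)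
    (hfin : ∀ j < n, ∫⁻ η in (sec 0).G ∩ pvsyEv n sec (Finset.Ioo 0 n) (Finset.range n), ‖X j η‖ₑ ∂μ ≠ ∞) (r : ℕ) :
    ∫⁻ σ in (sec 0).G, ‖(sec 0).kout (sec 1) μ (X 0) σ + ∑ j ∈ Finset.Ioo 0 (n - 1), (sec j).k (sec (j + 1)) μ (X j)
        + (sec (n - 1)).kin (sec 0) μ (X (n - 1)) σ‖ₑ ^ r ∂μ
      ≤ pvsyDc μ n sec (Finset.Ioo 0 n) (Finset.range n) q *
        ∫⁻ η in (sec 0).G ∩ pvsyEv n sec (Finset.Ioo 0 n) (Finset.range n), ‖∑ j ∈ Finset.range n, X j η‖ₑ ^ r ∂μ := by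
  have hn := hS.two
  have hB : NullMeasurableSet (sec 0).G μ := hS.mG 0 (by omega)
  have hBe : (sec 0).G ⊆ (pvsyCyc n sec).Ends (pvsyFin n (Finset.Ioo 0 n)) (pvsyFin n (Finset.range n)) :=
    fun σ hσ => pvsy_cyc_ends le_rfl hσ (by rwa [Nat.mod_self])
  have hBr : Conf.ReadsSet ((pvsyCyc n sec).R (pvsyFin n (Finset.Ioo 0 n)) (pvsyFin n (Finset.range n)))ᶜ (sec 0).G :=
    (hS.rG 0 (by omega)).mono (pvsy_cyc_O_sub hS (by omega) (by simp))
  have key := pvsy_cycle_ae h (pvsy_cyc_wf hS) (pvsy_cyc_fld hX) (pvsy_cyc_forced hF) r hB hBe hBr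
  have hy := pvsy_y_eq_ae h (pvsy_cyc_wf hS) (pvsy_cyc_fld hX) (pvsy_cyc_forced hF) hB hBe hBr
    (fun e _ => by rw [pvsy_cyc_Ev]; exact hfin e e.2)
  rw [pvsy_cyc_Ev, pvsy_cyc_Dc] at key
  simp_rw [pvsy_cyc_Y, pvsy_filter_range] at key
  refine le_trans (le_of_eq ?_) key
  refine lintegral_congr_ae ((ae_restrict_iff'₀ hB).2 ?_)
  filter_upwards [hy] with σ hσ hσB
  rw [hσ hσB, pvsy_cyc_chain hS hX hn le_rfl σ, Nat.mod_self]

/-- one marked plug: the mean of the LAST connector (the thick short link of `Σ₁`; TR5 + TR31) -/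
theorem pvsy_pin_last (h : IsPpp m μ) (hS : PvsyCycWF μ n sec) (hX : PvsyCycFld μ n sec X) {q : ℕ → ℝ≥0∞}
    (hF : PvsyCycForced μ n sec (Finset.Ioo 0 n) (Finset.range n) q) (r : ℕ) :
    ∫⁻ σ in (sec 0).G, ‖(sec (n - 1)).kin (sec 0) μ (X (n - 1)) σ‖ₑ ^ r ∂μ
      ≤ pvsyDc μ n sec (Finset.Ioo 0 n) (Finset.range n) q *
        ∫⁻ η in (sec 0).G ∩ pvsyEv n sec (Finset.Ioo 0 n) (Finset.range n), ‖X (n - 1) η‖ₑ ^ r ∂μ := by
  have hn := hS.two
  have hB : NullMeasurableSet (sec 0).G μ := hS.mG 0 (by omega)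
  have hBe : (sec 0).G ⊆ (pvsyCyc n sec).Ends (pvsyFin n (Finset.Ioo 0 n)) (pvsyFin n (Finset.range n)) :=
    fun σ hσ => pvsy_cyc_ends le_rfl hσ (by rwa [Nat.mod_self])
  have hBr : Conf.ReadsSet ((pvsyCyc n sec).R (pvsyFin n (Finset.Ioo 0 n)) (pvsyFin n (Finset.range n)))ᶜ (sec 0).G :=
    (hS.rG 0 (by omega)).mono (pvsy_cyc_O_sub hS (by omega) (by simp))
  have hl : n - 1 < n := by omega
  have key := pvsy_conn_ae h (pvsy_cyc_wf hS) (pvsy_cyc_fld hX) (pvsy_cyc_forced hF) r hB hBe hBr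
    (e := ⟨n - 1, hl⟩) (pvsy_mem_fin.2 (Finset.mem_range.2 hl))
  have hs : (pvsyCyc n sec).src ⟨n - 1, hl⟩ ∈ pvsyFin n (Finset.Ioo 0 n) := by
    rw [pvsy_mem_fin]
    show n - 1 ∈ _
    rw [Finset.mem_Ioo]
    omega
  have ht : (pvsyCyc n sec).tgt ⟨n - 1, hl⟩ ∉ pvsyFin n (Finset.Ioo 0 n) := by
    rw [pvsy_mem_fin]
    show (n - 1 + 1) % n ∉ _
    rw [show n - 1 + 1 = n by omega, Nat.mod_self, Finset.mem_Ioo]
    omega
  rw [pvsy_cyc_Ev, pvsy_cyc_Dc, pvsy_me_kin μ _ hs ht, pvsy_cyc_kin hS hX] at key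
  have e1 : (n - 1 + 1) % n = 0 := by rw [show n - 1 + 1 = n by omega, Nat.mod_self]
  simp only [e1] at key
  exact key

/-- the closing region of a chain `sec 0 → … → sec N` (`C0` of a pattern): inner plugs `0 < j < N`, connectors `j < N` -/
def pvsyC0 (N : ℕ) (sec : ℕ → PvsySec E) : Set E := (⋃ j ∈ Finset.Ioo 0 N, (sec j).O) ∪ ⋃ j ∈ Finset.range N, (sec j).K

/-- the mean of a chain, in normal form -/
noncomputable def pvsyChainY (μ : Measure (Conf E)) (N : ℕ) (sec : ℕ → PvsySec E) (X : ℕ → Conf E → ℂ) (σ : Conf E) : ℂ :=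
  (sec 0).kout (sec 1) μ (X 0) σ + ∑ j ∈ Finset.Ioo 0 (N - 1), (sec j).k (sec (j + 1)) μ (X j) + (sec (N - 1)).kin (sec N) μ (X (N - 1)) σ

theorem pvsy_eqns_cite5 : True := by
  have := @pvsyC0.eq_1.{0}; have := @pvsyChainY.eq_1.{0}
  trivial

/-- **INSTANCE 3: CHAIN = PATTERN** (TR23, TR30): `t = sec 0`, `s = sec N` marked (the connector of `sec N` is not used), family form.
`X₀ i`, `a i` (arcs `g`) do not read the closing region; `a i` vanishes off `G_t ∩ G_s`; `H` dominates the closed sums on the event. -/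
theorem pvsy_pattern {N : ℕ} (hN : 2 ≤ N) (h : IsPpp m μ) (hS : PvsyCycWF μ (N + 1) sec) (hX : PvsyCycFld μ (N + 1) sec X) {q : ℕ → ℝ≥0∞}
    (hF : PvsyCycForced μ (N + 1) sec (Finset.Ioo 0 N) (Finset.range N) q)
    (hfin : ∀ j < N, ∫⁻ η in (sec 0).G ∩ (sec N).G ∩ pvsyEv (N + 1) sec (Finset.Ioo 0 N) (Finset.range N), ‖X j η‖ₑ ∂μ ≠ ∞)
    {ι : Type*} {X₀ : ι → Conf E → ℂ} {a : ι → Conf E → ℝ≥0∞} {H : Conf E → ℝ≥0∞}
    (hXr : ∀ i, Conf.Reads (pvsyC0 N sec)ᶜ (X₀ i)) (har : ∀ i, Conf.Reads (pvsyC0 N sec)ᶜ (a i)) (hH : AEMeasurable H μ)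
    (ha : ∀ i σ, a i σ ≠ 0 → σ ∈ (sec 0).G ∧ σ ∈ (sec N).G)
    (hdom : ∀ᵐ η ∂μ, η ∈ pvsyEv (N + 1) sec (Finset.Ioo 0 N) (Finset.range N) → ∑' i, ‖X₀ i η + ∑ j ∈ Finset.range N, X j η‖ₑ ^ 2 * a i η ≤ H η) :
    ∫⁻ σ, ∑' i, ‖X₀ i σ + pvsyChainY μ N sec X σ‖ₑ ^ 2 * a i σ ∂μ
      ≤ pvsyDc μ (N + 1) sec (Finset.Ioo 0 N) (Finset.range N) q * ∫⁻ η in pvsyEv (N + 1) sec (Finset.Ioo 0 N) (Finset.range N), H η ∂μ := by
  have hmod : N % (N + 1) = N := Nat.mod_eq_of_lt (Nat.lt_succ_self N)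
  have eR : (pvsyCyc (N + 1) sec).R (pvsyFin (N + 1) (Finset.Ioo 0 N)) (pvsyFin (N + 1) (Finset.range N)) = pvsyC0 N sec := by
    ext z
    simp only [PvsySys.R, pvsyC0, mem_union, mem_iUnion, pvsy_mem_fin, exists_prop]
    constructor
    · rintro (⟨u, hu, hz⟩ | ⟨e, he, hz⟩)
      · exact Or.inl ⟨u.1, hu, hz⟩
      · exact Or.inr ⟨e.1, he, hz⟩
    · rintro (⟨u, hu, hz⟩ | ⟨e, he, hz⟩)
      · exact Or.inl ⟨⟨u, by have := Finset.mem_Ioo.1 hu; omega⟩, hu, hz⟩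
      · exact Or.inr ⟨⟨e, by have := Finset.mem_range.1 he; omega⟩, he, hz⟩
  have eF : (Finset.range N).filter (· < N + 1) = Finset.range N :=
    Finset.filter_true_of_mem fun j hj => by have := Finset.mem_range.1 hj; omega
  have hB : NullMeasurableSet ((sec 0).G ∩ (sec N).G) μ := (hS.mG 0 (by omega)).inter (hS.mG N (by omega))
  have hBe : (sec 0).G ∩ (sec N).G ⊆ (pvsyCyc (N + 1) sec).Ends (pvsyFin (N + 1) (Finset.Ioo 0 N)) (pvsyFin (N + 1) (Finset.range N)) :=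
    fun σ hσ => pvsy_cyc_ends (Nat.le_succ N) hσ.1 (by rw [hmod]; exact hσ.2)
  have hBr : Conf.ReadsSet ((pvsyCyc (N + 1) sec).R (pvsyFin (N + 1) (Finset.Ioo 0 N)) (pvsyFin (N + 1) (Finset.range N)))ᶜ ((sec 0).G ∩ (sec N).G) :=
    ((hS.rG 0 (by omega)).mono (pvsy_cyc_O_sub hS (by omega) (by simp))).inter ((hS.rG N (by omega)).mono (pvsy_cyc_O_sub hS (by omega) (by simp)))
  have key := pvsy_n1_fam_ae h (pvsy_cyc_wf hS) (pvsy_cyc_fld hX) (pvsy_cyc_forced hF) (X₀ := X₀) (a := a) (H := H)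
    (by rw [eR]; exact hXr) (by rw [eR]; exact har) hH (fun i σ hi => hBe (ha i σ hi))
    (by rw [pvsy_cyc_Ev]; simp_rw [pvsy_cyc_Y, eF]; exact hdom)
  have hy := pvsy_y_eq_ae h (pvsy_cyc_wf hS) (pvsy_cyc_fld hX) (pvsy_cyc_forced hF) hB hBe hBr
    (fun e he => by rw [pvsy_cyc_Ev]; exact hfin e (Finset.mem_range.1 (pvsy_mem_fin.1 he)))
  rw [pvsy_cyc_Ev, pvsy_cyc_Dc] at key
  refine le_trans (le_of_eq ?_) key
  refine lintegral_congr_ae ?_
  filter_upwards [hy] with σ hσ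
  by_cases hσB : σ ∈ (sec 0).G ∩ (sec N).G
  · rw [hσ hσB, pvsy_cyc_chain hS hX hN (Nat.le_succ N) σ, hmod]
    rfl
  · refine tsum_congr fun i => ?_
    have : a i σ = 0 := by
      by_contra hi
      exact hσB (ha i σ hi)
    rw [this, mul_zero, mul_zero]

end cyc

end Claimed.Agent.R289
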