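import Claimed.Agent.R289.Tr.CellHex
import Claimed.Agent.R289.S1P.Fin
import Claimed.Agent.R289.Tr.Eng
import Claimed.Agent.R289.S1P.IBes
import Claimed.Agent.R289.Tr.Sys

/-!
# Row 289 (S0537), the WALL, file Tr/Bes : THE BESSEL INSTANCES (lower half of `Tr/Sys`; post of 295, 08:52Z)      (owner helper223; prefix `pvbe_`, `pvbe`, `Pvbe`)

Blueprint `origin/helper295:notes/R289/TR_295.md`: I.BES, TR5, TR14, TR28 (ii), TR31;   `origin/helper140:notes/R289/wall_140.md` sec. 3 ("|a|, |k|/δ' ≤ C by Bessel on ONE normalised closed template", "|i_e|² ≤ D_thick C h²").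
THE ARGUMENT.   On a cycle event (all plugs usable, all connectors successful) the increment `X_e` of a connector is the mass `X_π(1_M)` of ONE rim `π` of the full plane configuration in a DETERMINISTIC mask `M` (TR13 + TR14).
So `|X_e|² 1_cycle ≤ ∑_λ |X_λ(1_M)|²`, whose mean is `≤ C_B |M|` (I.BES);   Jensen over the connector + insertion of the independent return connector (TR5) give the `L²` bound of the mean `i_e`, hence of the constants.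
Language: `Conf.Reads`, `Conf.spl`, `pvtiP`, `pvtiW`, `pvtiMean`, `pvti_n1_ae` of 141 (`Tr/Ind.lean`);   raw labels `pvqTag`, `pvqSum`, `pvqWQ`, `pvqWU`, `pvqBar` of 244 (`S1P/Raw.lean`);   the cell kit `PvthKit` of 251 (`Tr/CellHex.lean`).

* sec. 1 (generic `IsPpp`, PROVED)  `pvbeCE`;   **`pvbe_insert`** : `q' ∫ f ≤ ∫ f 1_{A'}` for `f` READING `O` (no measurability of `f`), `P(A' | σ) ≥ q'` where `f ≠ 0`.
* sec. 2 (generic `IsPpp`, PROVED)  `pvbe_W_norm`, `pvbe_W_le`;   **`pvbe_tr5`** = TR5 at the level of the Poisson process : `q q' ∫_Γ |i_e|² ≤ ∫ H` for any a.e. measurable majorant `H` of `|X_e|²` on `Γ ∩ A ∩ A'`.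
* sec. 3  TWO NAMED INTERFACES:   **`PvbeIn W C_B`** = I.BES in the only form the wall consumes (PRODUCER: S1P, 244 89 286);   **`PvbeRec ε W g Ev X`** = RECOGNITION (PRODUCER: TR13 + TR14, 202 195 3 225; `pvbe_rec_of_map` = the same in `PvMap` language);
          **`pvbe_one`**, **`pvbe_one_mask`** : `E[|X|² ; Ev] ≤ C_B |M|` (PROVED);   fields: `pvbeWV` (`V = U + Q`), `pvbeComb W W' c` (`Q - a V`): `PvbeIn.comb`, `PvbeIn.V`, `PvbeRec.comb`.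
* sec. 4  **`pvbe_conn`** (TR5 instance, PROVED), `pvbe_conn_cond` (normalised, `L²(μ_u × μ_u')`), `pvbe_conn_const` (`|k_e|²`), `pvbe_two_plugs`, **`pvbe_sigma1`** = THE `C h²` OF TR31.
* sec. 5  the kit of 251:   `pvbe_kit_hbes` = the hypothesis `hbes` of `pvth_bound`;   **`pvbe_kit_bound`**, **`pvbe_kit_delta`** = TR28 (ii) `|α|, |β_L|, |β_R| ≤ C δ`;   `pvbe_kit_a` (`|a| ≤ C`), `pvbe_kit_k`.
* sec. 6  UNIFORMITY BY SCALING:   `PvthKit.sc`, `pvbe_law_sc`, `pvbe_sc_wf`, `pvbe_sc_fld`, `pvbe_sc_forced`, `pvbe_sc_k`;   **`pvbe_unif`** (glue compiled): everything is asked of the REFERENCE kit at the meshes `ε' ≤ r₀`.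
* sec. 7  THE PRODUCER OF `PvbeIn` (bridge to `S1P/IBes.lean` of 244, PROVED):   `pvbe_en_one`, `pvbe_lab_eq`, `pvbe_in_K`;   **`pvbe_in_Q`**, **`pvbe_in_U`**, `pvbeCB` (`≠ ∞`), `pvbe_in_Q'`, **`pvbe_in_V`**, **`pvbe_in_QaV a : PvbeIn (pvbeComb pvqWQ pvbeWV (-a)) ((2 + 2 |a|²) C_B)`**.   So `PvbeIn` is no longer a hypothesis of the wall.
* sec. 8  ON THE GEOMETRIC SYSTEMS `PvsySys` OF 95 (`Tr/Sys.lean`; glue on `pvsy_conn`, `pvsy_const_one`, `pvsy_conn_L2`):   **`pvbe_sys_conn`** (`₀`: null-measurable form), `pvbe_sys_const`, `pvbe_sys_L2`, `pvbe_Dc_le`;   `pvbeCe`, **`pvbe_sys_thick`** = THE FIELD `thick` OF `PvhbLoc` (`Tr/Hub.lean`) on a system: `∫_B |me(XQ - a XV)|² ≤ ofReal (C_e h²)`, uniformly in `‖a‖ ≤ CA`, `ε`, the position.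
-/

set_option autoImplicit false
set_option linter.unusedSectionVars false

namespace Claimed.Agent.R289

open MeasureTheory ProbabilityTheory Set Filter Topology
open scoped ENNReal NNReal

/-! ## 1. generic: an independent forced event is inserted -/

section gen

variable {E : Type*} [MeasurableSpace E] {m : Measure E} {μ : Measure (Conf E)} {O K K' : Set E}

/-- the conditional mean of a nonnegative function given the restriction of `σ` to `O` (honest integral over the splice) -/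
noncomputable def pvbeCE (μ : Measure (Conf E)) (O : Set E) (f : Conf E → ℝ≥0∞) (σ : Conf E) : ℝ≥0∞ := ∫⁻ η, f (Conf.spl O (σ, η)) ∂μ

theorem pvbe_eqns_cite : True := by
  have := @pvbeCE.eq_1.{0}
  trivial

theorem pvbe_ce_reads (μ : Measure (Conf E)) (O : Set E) (f : Conf E → ℝ≥0∞) : Conf.Reads O (pvbeCE μ O f) := fun σ => by
  unfold pvbeCE
  simp_rw [Conf.spl_restr]

theorem pvbe_ce_measurable [SFinite μ] (hO : MeasurableSet O) {f : Conf E → ℝ≥0∞} (hf : Measurable f) : Measurable (pvbeCE μ O f) :=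
  (hf.comp (Conf.measurable_spl hO)).lintegral_prod_right'

theorem pvbe_ce_lintegral (h : IsPpp m μ) (hO : MeasurableSet O) {f : Conf E → ℝ≥0∞} (hf : Measurable f) :
    ∫⁻ σ, pvbeCE μ O f σ ∂μ = ∫⁻ η, f η ∂μ := (h.lintegral_spl hO hf).symm

/-- a minorant of a reader of `O` may be replaced by its conditional mean -/
theorem pvbe_ce_le [IsProbabilityMeasure μ] {f φ : Conf E → ℝ≥0∞} (hfr : Conf.Reads O f) (hφ : φ ≤ f) : pvbeCE μ O φ ≤ f := fun σ => by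
  unfold pvbeCE
  calc ∫⁻ η, φ (Conf.spl O (σ, η)) ∂μ ≤ ∫⁻ _η, f σ ∂μ := lintegral_mono fun η => (hφ _).trans (le_of_eq (hfr.spl_left subset_rfl σ η))
    _ = f σ := by simp

theorem pvbe_P_eq_ce (μ : Measure (Conf E)) (O : Set E) (S : Set (Conf E)) : pvtiP μ O S = pvbeCE μ O (S.indicator 1) := rfl

/-- `E[φ ; A'] = E[φ P(A' | σ)]` for a measurable reader `φ` of `O` -/
theorem pvbe_mul_ind (h : IsPpp m μ) (hO : MeasurableSet O) {φ : Conf E → ℝ≥0∞} (hφ : Measurable φ) (hφr : Conf.Reads O φ)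
    {A' : Set (Conf E)} (hA' : MeasurableSet A') :
    ∫⁻ η, φ η * A'.indicator 1 η ∂μ = ∫⁻ σ, φ σ * pvtiP μ O A' σ ∂μ := by
  have hF : Measurable fun η => φ η * A'.indicator (1 : Conf E → ℝ≥0∞) η := hφ.mul (measurable_one.indicator hA')
  rw [h.lintegral_spl hO hF]
  refine lintegral_congr fun σ => ?_
  have hsec : Measurable fun η => Conf.spl O (σ, η) := (Conf.measurable_spl hO).comp (measurable_const.prodMk measurable_id)
  have e : ∀ η, φ (Conf.spl O (σ, η)) * A'.indicator (1 : Conf E → ℝ≥0∞) (Conf.spl O (σ, η)) = φ σ * A'.indicator (1 : Conf E → ℝ≥0∞) (Conf.spl O (σ, η)) :=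
    fun η => by rw [hφr.spl_left subset_rfl]
  simp_rw [e]
  have hm : Measurable fun η => A'.indicator (1 : Conf E → ℝ≥0∞) (Conf.spl O (σ, η)) := (measurable_one.indicator hA').comp hsec
  rw [lintegral_const_mul _ hm]
  rfl

/-- **INSERTION** of an event of conditional probability `≥ q'` given the states.   `f` only has to READ `O`: NO measurability is asked of it (`∫⁻` is the lower integral). -/
theorem pvbe_insert (h : IsPpp m μ) (hO : MeasurableSet O) {f : Conf E → ℝ≥0∞} (hfr : Conf.Reads O f) {A' : Set (Conf E)} (hA' : MeasurableSet A')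
    {q' : ℝ≥0∞} (hq' : ∀ σ, f σ ≠ 0 → q' ≤ pvtiP μ O A' σ) :
    q' * ∫⁻ σ, f σ ∂μ ≤ ∫⁻ η, f η * A'.indicator 1 η ∂μ := by
  have := h.prob
  obtain ⟨φ, hφm, hφf, hφe⟩ := exists_measurable_le_lintegral_eq μ f
  have hψm := pvbe_ce_measurable (μ := μ) hO hφm
  have hψr := pvbe_ce_reads μ O φ
  have hψf : pvbeCE μ O φ ≤ f := pvbe_ce_le hfr hφf
  calc q' * ∫⁻ σ, f σ ∂μ = q' * ∫⁻ σ, pvbeCE μ O φ σ ∂μ := by rw [hφe, pvbe_ce_lintegral h hO hφm]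
    _ = ∫⁻ σ, q' * pvbeCE μ O φ σ ∂μ := (lintegral_const_mul _ hψm).symm
    _ ≤ ∫⁻ σ, pvbeCE μ O φ σ * pvtiP μ O A' σ ∂μ := by
        refine lintegral_mono fun σ => ?_
        by_cases h0 : pvbeCE μ O φ σ = 0
        · simp [h0]
        · have hf0 : f σ ≠ 0 := fun h1 => h0 (le_antisymm (h1 ▸ hψf σ) zero_le)
          rw [mul_comm]
          exact mul_le_mul_right (hq' σ hf0) _
    _ = ∫⁻ η, pvbeCE μ O φ η * A'.indicator 1 η ∂μ := (pvbe_mul_ind h hO hψm hψr hA').symm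
    _ ≤ ∫⁻ η, f η * A'.indicator 1 η ∂μ := lintegral_mono fun η => mul_le_mul_left (hψf η) _

/-! ## 2. generic: TR5 at the level of the Poisson process -/

theorem pvbe_W_measurable [SFinite μ] (hO : MeasurableSet O) {S : Set (Conf E)} (hS : MeasurableSet S) : Measurable (pvtiW μ O S) :=
  (measurable_one.indicator hS).div (pvti_P_measurable hO hS)

theorem pvbe_W_reads {W : Set E} (hOW : O ⊆ W) {S : Set (Conf E)} (hSr : Conf.Reads W (fun η => η ∈ S)) : Conf.Reads W (pvtiW μ O S) :=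
  (pvti_ind_reads hSr).map₂ ((pvti_P_reads μ O S).mono hOW) (fun x y => x / y)

/-- the weight `1_S / P(S | σ)` has conditional mass one wherever `P(S | σ) ≠ 0` -/
theorem pvbe_W_norm [IsProbabilityMeasure μ] (hO : MeasurableSet O) {S : Set (Conf E)} (hS : MeasurableSet S) {σ : Conf E} (hp0 : pvtiP μ O S σ ≠ 0) :
    ∫⁻ η, pvtiW μ O S (Conf.spl O (σ, η)) ∂μ = 1 := by
  have hp1 : pvtiP μ O S σ ≠ ∞ := ne_top_of_le_ne_top ENNReal.one_ne_top (pvti_P_le_one O S σ)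
  have e : ∀ η, pvtiW μ O S (Conf.spl O (σ, η)) = S.indicator 1 (Conf.spl O (σ, η)) * (pvtiP μ O S σ)⁻¹ := by
    intro η
    unfold pvtiW
    rw [(pvti_P_reads μ O S).spl_left subset_rfl, div_eq_mul_inv]
  simp_rw [e]
  have hsec : Measurable fun η => Conf.spl O (σ, η) := (Conf.measurable_spl hO).comp (measurable_const.prodMk measurable_id)
  have hm : Measurable fun η => S.indicator (1 : Conf E → ℝ≥0∞) (Conf.spl O (σ, η)) := (measurable_one.indicator hS).comp hsec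
  rw [lintegral_mul_const _ hm]
  exact ENNReal.mul_inv_cancel hp0 hp1

theorem pvbe_W_le {S : Set (Conf E)} {q : ℝ≥0∞} {η : Conf E} (hq : q ≤ pvtiP μ O S η) : pvtiW μ O S η ≤ q⁻¹ * S.indicator 1 η := by
  unfold pvtiW
  rw [div_eq_mul_inv, mul_comm]
  exact mul_le_mul_left (ENNReal.inv_le_inv.2 hq) _

/-- **TR5 AT THE LEVEL OF THE POISSON PROCESS** (`L²` norm of the mean `i_e(σ) = E[X_e | A_e, σ]` of a forced connector).
`O` = the region of the two plugs, `Γ = G_u ∩ G_u'` (reads `O`; no measurability asked), `K` = the region of `e : u → u'`, `K'` = the region of ANY forced return connector `e' : u' → u`;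
`H` = any a.e. measurable majorant of `|X_e|²` on the CYCLE EVENT `Γ ∩ A ∩ A'` (for the wall: the Bessel energy of the mask, sec. 3). -/
theorem pvbe_tr5 (h : IsPpp m μ) (hO : MeasurableSet O) (hK : MeasurableSet K) (hOK : Disjoint O K) (hK'K : Disjoint K' K)
    {X : Conf E → ℂ} {Γ A A' : Set (Conf E)} {H : Conf E → ℝ≥0∞} {q q' : ℝ≥0∞}
    (hX : AEMeasurable X μ) (hXr : Conf.Reads (O ∪ K) X) (hΓr : Conf.Reads O (fun η => η ∈ Γ))
    (hA : MeasurableSet A) (hAr : Conf.Reads (O ∪ K) (fun η => η ∈ A))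
    (hA' : MeasurableSet A') (hA'r : Conf.Reads (O ∪ K') (fun η => η ∈ A'))
    (hq0 : q ≠ 0) (hq : ∀ σ ∈ Γ, q ≤ pvtiP μ O A σ) (hq' : ∀ σ ∈ Γ, q' ≤ pvtiP μ O A' σ)
    (hH : AEMeasurable H μ) (hdom : ∀ᵐ η ∂μ, η ∈ Γ → η ∈ A → η ∈ A' → ‖X η‖ₑ ^ 2 ≤ H η) :
    q * q' * ∫⁻ σ, ‖pvtiMean μ O (pvtiW μ O A) X σ‖ₑ ^ 2 * Γ.indicator 1 σ ∂μ ≤ ∫⁻ η, H η ∂μ := by
  have := h.prob
  set i := pvtiMean μ O (pvtiW μ O A) X with hi
  have hir : Conf.Reads O i := pvti_mean_reads μ O _ X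
  have hΓi : Conf.Reads O (Γ.indicator (1 : Conf E → ℝ≥0∞)) := pvti_ind_reads hΓr
  have hfr : Conf.Reads O (fun σ => ‖i σ‖ₑ ^ 2 * Γ.indicator (1 : Conf E → ℝ≥0∞) σ) := hir.map₂ hΓi (fun x y => ‖x‖ₑ ^ 2 * y)
  have hmem : ∀ σ, Γ.indicator (1 : Conf E → ℝ≥0∞) σ ≠ 0 → σ ∈ Γ := fun σ h0 => by
    by_contra hn
    exact h0 (Set.indicator_of_notMem hn _)
  -- step 1: the return connector is inserted
  have s1 : q' * ∫⁻ σ, ‖i σ‖ₑ ^ 2 * Γ.indicator 1 σ ∂μ ≤ ∫⁻ η, ‖i η‖ₑ ^ 2 * Γ.indicator 1 η * A'.indicator 1 η ∂μ :=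
    pvbe_insert h hO hfr hA' fun σ h0 => hq' σ (hmem σ (right_ne_zero_of_mul h0))
  -- step 2: Jensen over the connector
  have hsub : O ∪ K' ⊆ Kᶜ := Set.subset_compl_iff_disjoint_right.2 (Set.disjoint_union_left.2 ⟨hOK, hK'K⟩)
  have har : Conf.Reads Kᶜ (fun η => Γ.indicator (1 : Conf E → ℝ≥0∞) η * A'.indicator (1 : Conf E → ℝ≥0∞) η) :=
    ((hΓi.mono subset_union_left).map₂ (pvti_ind_reads hA'r) (fun x y => x * y)).mono hsub
  have s2 : ∫⁻ σ, ‖(0 : ℂ) + i σ‖ₑ ^ 2 * (Γ.indicator 1 σ * A'.indicator 1 σ) ∂μ ≤ ∫⁻ η, q⁻¹ * H η ∂μ := by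
    refine pvti_n1_ae h hK hOK (X := fun _ => (0 : ℂ)) (fun _ => rfl) har hX (pvbe_W_measurable hO hA).aemeasurable (hH.const_mul _) hXr
      (pvbe_W_reads subset_union_left hAr) (ae_of_all _ fun σ h0 => ?_) ?_
    · have hσ : σ ∈ Γ := hmem σ (left_ne_zero_of_mul h0)
      exact pvbe_W_norm hO hA fun h1 => hq0 (le_antisymm (h1 ▸ hq σ hσ) zero_le)
    · filter_upwards [hdom] with η hη
      by_cases h1 : η ∈ Γ
      · by_cases h2 : η ∈ A'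
        · by_cases h3 : η ∈ A
          · calc ‖(0 : ℂ) + X η‖ₑ ^ 2 * (Γ.indicator 1 η * A'.indicator 1 η) * pvtiW μ O A η
                ≤ H η * (1 * 1) * (q⁻¹ * 1) := by
                  rw [zero_add]
                  refine mul_le_mul' (mul_le_mul' (hη h1 h3 h2) (mul_le_mul' ?_ ?_)) ((pvbe_W_le (hq η h1)).trans (mul_le_mul_right ?_ _))
                  · exact Set.indicator_le_self' (fun _ _ => zero_le) _
                  · exact Set.indicator_le_self' (fun _ _ => zero_le) _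
                  · exact Set.indicator_le_self' (fun _ _ => zero_le) _
              _ = q⁻¹ * H η := by ring
          · have : pvtiW μ O A η = 0 := by unfold pvtiW; rw [Set.indicator_of_notMem h3, ENNReal.zero_div]
            rw [this, mul_zero]; exact zero_le
        · rw [Set.indicator_of_notMem h2, mul_zero, mul_zero, zero_mul]; exact zero_le
      · rw [Set.indicator_of_notMem h1, zero_mul, mul_zero, zero_mul]; exact zero_le
  rw [lintegral_const_mul'' _ hH] at s2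
  calc q * q' * ∫⁻ σ, ‖i σ‖ₑ ^ 2 * Γ.indicator 1 σ ∂μ = q * (q' * ∫⁻ σ, ‖i σ‖ₑ ^ 2 * Γ.indicator 1 σ ∂μ) := mul_assoc _ _ _
    _ ≤ q * ∫⁻ η, ‖i η‖ₑ ^ 2 * Γ.indicator 1 η * A'.indicator 1 η ∂μ := mul_le_mul_right s1 _
    _ = q * ∫⁻ σ, ‖(0 : ℂ) + i σ‖ₑ ^ 2 * (Γ.indicator 1 σ * A'.indicator 1 σ) ∂μ := by
        congr 1
        refine lintegral_congr fun σ => ?_
        rw [zero_add, mul_assoc]
    _ ≤ q * (q⁻¹ * ∫⁻ η, H η ∂μ) := mul_le_mul_right s2 _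
    _ = (q * q⁻¹) * ∫⁻ η, H η ∂μ := (mul_assoc _ _ _).symm
    _ ≤ 1 * ∫⁻ η, H η ∂μ := mul_le_mul_left (ENNReal.mul_inv_le_one q) _
    _ = ∫⁻ η, H η ∂μ := one_mul _

end gen

/-! ## 3. the named input I.BES and the ONE LABEL bound -/

/-- the `V`-summand of a raw dart: the side vector `= U + Q` -/
noncomputable def pvbeWV (Y : Set ℂ) (x : ℂ × ℂ) : ℂ := pvqWU Y x + pvqWQ Y x

/-- the summand of the field `W + c W'` (for the wall: `Q - a V`) -/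
def pvbeComb (W W' : Set ℂ → ℂ × ℂ → ℂ) (c : ℂ) (Y : Set ℂ) (x : ℂ × ℂ) : ℂ := W Y x + c * W' Y x

/-- `x` is a tag of the full plane configuration `η` -/
def pvbeTag (η : Conf PvPt) (x : ℂ × ℂ) : Prop := pvqTag (DelTri (cfSites η)) (cfCol η) x

/-- `X_λ(g)`: the mass against `g` of the label `λ` of the raw tag `x`, full plane configuration `η`, field with the summand `W` (`Q`: `pvqWQ`, `U`: `pvqWU`, `V`: `pvbeWV`) -/
noncomputable def pvbeLab (W : Set ℂ → ℂ × ℂ → ℂ) (g : ℂ → ℂ) (η : Conf PvPt) (x : ℂ × ℂ) : ℂ :=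
  pvqSum (DelTri (cfSites η)) (cfCol η) (fun y => g (pvqBar (cfSites η) y) * W (cfSites η) y) x

/-- test functions of I.BES: Borel, bounded, bounded support -/
structure PvbeTest (g : ℂ → ℂ) : Prop where
  meas : Measurable g
  bdd : ∃ C : ℝ, ∀ z, ‖g z‖ ≤ C
  supp : ∃ R : ℝ, ∀ z, R < ‖z‖ → g z = 0

/-- **I.BES IN THE ONLY FORM THE WALL CONSUMES**: an a.e. measurable majorant `H` of `|X_λ(g)|²`, ALL labels `λ`, of mean `≤ C_B |g|₂²`, `C_B` independent of `ε`.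
(PRODUCER S1P, 244 + 89: `H η = pvqEn (cfSites η) (cfCol η) (g ∘ bar * W)`; first clause = 286; second = `pvq_en_ge` for ONE tag + `pvqf_raw_same_ae`; third = (5) of 244 / Campbell of 89.) -/
def PvbeIn (W : Set ℂ → ℂ × ℂ → ℂ) (CB : ℝ≥0∞) : Prop :=
  ∀ ε : ℝ, 0 < ε → ∀ g : ℂ → ℂ, PvbeTest g → ∃ H : Conf PvPt → ℝ≥0∞, AEMeasurable H (pvP ε) ∧
    (∀ᵐ η ∂(pvP ε), ∀ x, pvbeTag η x → ‖pvbeLab W g η x‖ₑ ^ 2 ≤ H η) ∧ ∫⁻ η, H η ∂(pvP ε) ≤ CB * ∫⁻ z, ‖g z‖ₑ ^ 2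

/-- **RECOGNITION** (the interface with TR13 + TR14, 195 3 225 202): on the event `Ev` the functional `X` is the mass against `g` of ONE label of the full plane configuration -/
def PvbeRec (ε : ℝ) (W : Set ℂ → ℂ × ℂ → ℂ) (g : ℂ → ℂ) (Ev : Set (Conf PvPt)) (X : Conf PvPt → ℂ) : Prop :=
  ∀ᵐ η ∂(pvP ε), η ∈ Ev → ∃ x, pvbeTag η x ∧ X η = pvbeLab W g η x

theorem pvbe_eqns_cite2 : True := by
  have := @pvbeWV.eq_1; have := @pvbeComb.eq_1; have := @pvbeTag.eq_1; have := @pvbeLab.eq_1; have := @PvbeIn.eq_1; have := @PvbeRec.eq_1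
  trivial

section model

variable {W W' : Set ℂ → ℂ × ℂ → ℂ} {CB CB' : ℝ≥0∞} {ε : ℝ} {g : ℂ → ℂ} {M : Set ℂ} {Ev : Set (Conf PvPt)} {X : Conf PvPt → ℂ}

theorem pvbe_test_ind (hM : MeasurableSet M) (hb : Bornology.IsBounded M) : PvbeTest (M.indicator 1) := by
  refine ⟨measurable_one.indicator hM, ⟨1, fun z => ?_⟩, ?_⟩
  · by_cases hz : z ∈ M
    · rw [Set.indicator_of_mem hz]; simp
    · rw [Set.indicator_of_notMem hz]; simp
  · obtain ⟨R, hR⟩ := hb.subset_closedBall 0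
    refine ⟨R, fun z hz => Set.indicator_of_notMem (fun hzM => ?_) _⟩
    have := hR hzM
    rw [mem_closedBall_zero_iff] at this
    exact absurd this (not_le.2 hz)

theorem pvbe_ind_sq (hM : MeasurableSet M) : ∫⁻ z, ‖M.indicator (1 : ℂ → ℂ) z‖ₑ ^ 2 = volume M := by
  have e : (fun z => ‖M.indicator (1 : ℂ → ℂ) z‖ₑ ^ 2) = M.indicator 1 := by
    funext z
    by_cases hz : z ∈ M
    · rw [Set.indicator_of_mem hz, Set.indicator_of_mem hz]; simp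
    · rw [Set.indicator_of_notMem hz, Set.indicator_of_notMem hz]; simp
  rw [e, lintegral_indicator_one hM]

/-- the majorant of I.BES dominates `|X|²` on the event of recognition -/
theorem pvbe_dom (hB : PvbeIn W CB) (hε : 0 < ε) (hg : PvbeTest g) : ∃ H : Conf PvPt → ℝ≥0∞, AEMeasurable H (pvP ε) ∧
    ∫⁻ η, H η ∂(pvP ε) ≤ CB * ∫⁻ z, ‖g z‖ₑ ^ 2 ∧
    ∀ (Ev : Set (Conf PvPt)) (X : Conf PvPt → ℂ), PvbeRec ε W g Ev X → ∀ᵐ η ∂(pvP ε), η ∈ Ev → ‖X η‖ₑ ^ 2 ≤ H η := by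
  obtain ⟨H, hH, h1, h2⟩ := hB ε hε g hg
  refine ⟨H, hH, h2, fun Ev X hrec => ?_⟩
  filter_upwards [h1, hrec] with η h3 h4 hη
  obtain ⟨x, hx, e⟩ := h4 hη
  rw [e]
  exact h3 x hx

/-- **THE ONE LABEL BOUND**: `E[|X|² ; Ev] ≤ C_B |g|₂²`.   No measurability of `X`, `Ev`. -/
theorem pvbe_one (hB : PvbeIn W CB) (hε : 0 < ε) (hg : PvbeTest g) (hrec : PvbeRec ε W g Ev X) :
    ∫⁻ η, ‖X η‖ₑ ^ 2 * Ev.indicator 1 η ∂(pvP ε) ≤ CB * ∫⁻ z, ‖g z‖ₑ ^ 2 := by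
  obtain ⟨H, -, h2, h3⟩ := pvbe_dom hB hε hg
  refine le_trans (lintegral_mono_ae ?_) h2
  filter_upwards [h3 Ev X hrec] with η hη
  by_cases h : η ∈ Ev
  · rw [Set.indicator_of_mem h]; simpa using hη h
  · rw [Set.indicator_of_notMem h, mul_zero]; exact zero_le

/-- the same for a deterministic MASK `M` (TR14): `E[|X_e|² ; cycle] ≤ C_B |M|` -/
theorem pvbe_one_mask (hB : PvbeIn W CB) (hε : 0 < ε) (hM : MeasurableSet M) (hb : Bornology.IsBounded M) (hrec : PvbeRec ε W (M.indicator 1) Ev X) :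
    ∫⁻ η, ‖X η‖ₑ ^ 2 * Ev.indicator 1 η ∂(pvP ε) ≤ CB * volume M := by
  rw [← pvbe_ind_sq hM]
  exact pvbe_one hB hε (pvbe_test_ind hM hb) hrec

theorem PvbeRec.mono {Ev' : Set (Conf PvPt)} (h : PvbeRec ε W g Ev X) (hs : Ev' ⊆ Ev) : PvbeRec ε W g Ev' X :=
  Filter.Eventually.mono h fun _ hη h' => hη (hs h')

theorem PvbeIn.mono (h : PvbeIn W CB) (hc : CB ≤ CB') : PvbeIn W CB' := fun ε hε g hg => by
  obtain ⟨H, h1, h2, h3⟩ := h ε hε g hg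
  exact ⟨H, h1, h2, h3.trans (mul_le_mul_left hc _)⟩

/-- additivity of a raw label sum, finite label -/
theorem pvbe_sum_comb {V : Type} (Tr : V → V → V → Prop) (s : V → Bool) (w w' : V × V → ℂ) (c : ℂ) (x : V × V) (hf : {y | pvqSame Tr s x y}.Finite) :
    pvqSum Tr s (fun y => w y + c * w' y) x = pvqSum Tr s w x + c * pvqSum Tr s w' x := by
  unfold pvqSum
  have h1 := finsum_mem_add_distrib (f := w) (g := fun y => c * w' y) hf
  have h2 := mul_finsum_mem (s := {y | pvqSame Tr s x y}) w' c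
  rw [← h2] at h1
  exact h1

/-- additivity of the label mass in the field (a.s. all labels are finite: `pvqf_raw_same_ae` of 274) -/
theorem pvbe_lab_comb (hε : 0 < ε) (c : ℂ) (g : ℂ → ℂ) :
    ∀ᵐ η ∂(pvP ε), ∀ x, pvbeLab (pvbeComb W W' c) g η x = pvbeLab W g η x + c * pvbeLab W' g η x := by
  filter_upwards [pvqf_raw_same_ae hε] with η hη x
  unfold pvbeLab
  rw [← pvbe_sum_comb _ _ _ _ c x (hη x)]
  congr 1
  funext y
  unfold pvbeComb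
  ring

/-- I.BES for a combination of two fields -/
theorem PvbeIn.comb (h : PvbeIn W CB) (h' : PvbeIn W' CB') (c : ℂ) : PvbeIn (pvbeComb W W' c) (2 * CB + 2 * ‖c‖ₑ ^ 2 * CB') := by
  intro ε hε g hg
  obtain ⟨H, h1, h2, h3⟩ := h ε hε g hg
  obtain ⟨H', h1', h2', h3'⟩ := h' ε hε g hg
  refine ⟨fun η => 2 * H η + 2 * ‖c‖ₑ ^ 2 * H' η, (h1.const_mul _).add (h1'.const_mul _), ?_, ?_⟩
  · filter_upwards [h2, h2', pvbe_lab_comb (W := W) (W' := W') hε c g] with η a b e x hx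
    rw [e x]
    calc ‖pvbeLab W g η x + c * pvbeLab W' g η x‖ₑ ^ 2 ≤ (‖pvbeLab W g η x‖ₑ + ‖c * pvbeLab W' g η x‖ₑ) ^ 2 := by
          gcongr; exact enorm_add_le _ _
      _ ≤ 2 * ‖pvbeLab W g η x‖ₑ ^ 2 + 2 * ‖c * pvbeLab W' g η x‖ₑ ^ 2 := pvte_add_sq _ _
      _ = 2 * ‖pvbeLab W g η x‖ₑ ^ 2 + 2 * ‖c‖ₑ ^ 2 * ‖pvbeLab W' g η x‖ₑ ^ 2 := by rw [enorm_mul, mul_pow, mul_assoc]
      _ ≤ 2 * H η + 2 * ‖c‖ₑ ^ 2 * H' η := by gcongr; exacts [a x hx, b x hx]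
  · rw [lintegral_add_left' (h1.const_mul _), lintegral_const_mul'' _ h1, lintegral_const_mul'' _ h1', add_mul, mul_assoc 2 CB, mul_assoc (2 * ‖c‖ₑ ^ 2)]
    exact add_le_add (mul_le_mul_right h3 _) (mul_le_mul_right h3' _)

/-- I.BES for `V = U + Q` -/
theorem PvbeIn.V (hU : PvbeIn pvqWU CB) (hQ : PvbeIn pvqWQ CB') : PvbeIn pvbeWV (2 * CB + 2 * CB') := by
  have e : pvbeWV = pvbeComb pvqWU pvqWQ 1 := by
    funext Y x
    unfold pvbeWV pvbeComb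
    rw [one_mul]
  have := PvbeIn.comb hU hQ 1
  rw [e]
  simpa using this

/-- recognition for a combination -/
theorem PvbeRec.comb {X' : Conf PvPt → ℂ} (hε : 0 < ε) (c : ℂ)
    (h : ∀ᵐ η ∂(pvP ε), η ∈ Ev → ∃ x, pvbeTag η x ∧ X η = pvbeLab W g η x ∧ X' η = pvbeLab W' g η x) :
    PvbeRec ε (pvbeComb W W' c) g Ev (fun η => X η + c * X' η) := by
  filter_upwards [h, pvbe_lab_comb (W := W) (W' := W') hε c g] with η h1 h2 hη
  obtain ⟨x, hx, e1, e2⟩ := h1 hη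
  exact ⟨x, hx, by rw [h2 x, e1, e2]⟩

/-- RECOGNITION IN THE LANGUAGE OF `PvMap` (what TR13 `pvt_c_recog` / `pvt_c_lsum` of 202 and TR14 produce): `X η` is the `lsum` of a tag of the Delaunay plane -/
theorem pvbe_rec_of_map
    (h : ∀ᵐ η ∂(pvP ε), η ∈ Ev → ∃ (hY : DelGood (cfSites η)) (d : (delPl hY).Dart), (delPl hY).toMap.Tag (cfCol η ∘ Subtype.val) d ∧
      X η = (delPl hY).toMap.lsum (cfCol η ∘ Subtype.val) (fun d' => g ((delPl hY).toMap.bary Subtype.val d') * W (cfSites η) (pvqCode d')) d) :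
    PvbeRec ε W g Ev X := by
  filter_upwards [h] with η h1 hη
  obtain ⟨hY, d, hd, e⟩ := h1 hη
  refine ⟨pvqCode d, (pvq_del_tag hY (cfCol η) d).2 hd, ?_⟩
  rw [e, pvbeLab, pvq_del_sum hY]
  rfl

end model

/-! ## 4. TR5 INSTANCE: the `L²` norm of the mean of a forced connector is `≤ C |mask|`;   the `C h²` of TR31 -/

section conn

variable {W : Set ℂ → ℂ × ℂ → ℂ} {CB : ℝ≥0∞} {ε : ℝ} {M : Set ℂ} {O K K' : Set PvPt} {X : Conf PvPt → ℂ} {Γ A A' G G' : Set (Conf PvPt)} {q q' β β' : ℝ≥0∞}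

/-- **TR5 INSTANCE** (unnormalised).   `hrec` = TR13 + TR14 on the two-connector cycle `u -e-> u' -e'-> u`: on `Γ ∩ A ∩ A'` the increment of `e` is the mass of ONE rim in the deterministic mask `M`. -/
theorem pvbe_conn (hB : PvbeIn W CB) (hε : 0 < ε) (hO : MeasurableSet O) (hK : MeasurableSet K) (hOK : Disjoint O K) (hK'K : Disjoint K' K)
    (hX : AEMeasurable X (pvP ε)) (hXr : Conf.Reads (O ∪ K) X) (hΓr : Conf.Reads O (fun η => η ∈ Γ))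
    (hA : MeasurableSet A) (hAr : Conf.Reads (O ∪ K) (fun η => η ∈ A)) (hA' : MeasurableSet A') (hA'r : Conf.Reads (O ∪ K') (fun η => η ∈ A'))
    (hq0 : q ≠ 0) (hq : ∀ σ ∈ Γ, q ≤ pvtiP (pvP ε) O A σ) (hq' : ∀ σ ∈ Γ, q' ≤ pvtiP (pvP ε) O A' σ)
    (hM : MeasurableSet M) (hb : Bornology.IsBounded M) (hrec : PvbeRec ε W (M.indicator 1) (Γ ∩ A ∩ A') X) :
    q * q' * ∫⁻ σ, ‖pvtiMean (pvP ε) O (pvtiW (pvP ε) O A) X σ‖ₑ ^ 2 * Γ.indicator 1 σ ∂(pvP ε) ≤ CB * volume M := by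
  obtain ⟨H, hH, h2, h3⟩ := pvbe_dom hB hε (pvbe_test_ind hM hb)
  rw [pvbe_ind_sq hM] at h2
  refine le_trans (pvbe_tr5 (pv_isPpp ε) hO hK hOK hK'K hX hXr hΓr hA hAr hA' hA'r hq0 hq hq' hH ?_) h2
  filter_upwards [h3 _ X hrec] with η hη a b c
  exact hη ⟨⟨a, b⟩, c⟩

/-- two plugs in disjoint regions: `ν(G ∩ G') = ν(G) ν(G')` -/
theorem pvbe_two_plugs {E : Type*} [MeasurableSpace E] {m : Measure E} {μ : Measure (Conf E)} (h : IsPpp m μ) {U U' : Set E} (hU : MeasurableSet U) (hU' : MeasurableSet U')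
    (hd : Disjoint U U') {G G' : Set (Conf E)} (hG : MeasurableSet G) (hG' : MeasurableSet G') (hGr : Conf.Reads U (fun η => η ∈ G)) (hG'r : Conf.Reads U' (fun η => η ∈ G')) :
    μ (G ∩ G') = μ G * μ G' := by
  have e := h.lintegral_mul_reads hU hU' hd (measurable_one.indicator hG) (measurable_one.indicator hG') (pvti_ind_reads hGr) (pvti_ind_reads hG'r)
  rw [lintegral_indicator_one hG, lintegral_indicator_one hG'] at e
  rw [← e, ← lintegral_indicator_one (hG.inter hG')]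
  refine lintegral_congr fun η => ?_
  rw [Set.inter_indicator_one]
  rfl

/-- **TR5 INSTANCE** (normalised: `L²(μ_u × μ_u')`, `μ_u = ν(· | G_u)`) -/
theorem pvbe_conn_cond (hB : PvbeIn W CB) (hε : 0 < ε) (hO : MeasurableSet O) (hK : MeasurableSet K) (hOK : Disjoint O K) (hK'K : Disjoint K' K)
    (hX : AEMeasurable X (pvP ε)) (hXr : Conf.Reads (O ∪ K) X) (hΓ : MeasurableSet Γ) (hΓr : Conf.Reads O (fun η => η ∈ Γ))
    (hA : MeasurableSet A) (hAr : Conf.Reads (O ∪ K) (fun η => η ∈ A)) (hA' : MeasurableSet A') (hA'r : Conf.Reads (O ∪ K') (fun η => η ∈ A'))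
    (hq0 : q ≠ 0) (hq'0 : q' ≠ 0) (hq : ∀ σ ∈ Γ, q ≤ pvtiP (pvP ε) O A σ) (hq' : ∀ σ ∈ Γ, q' ≤ pvtiP (pvP ε) O A' σ) (hβ0 : β ≠ 0) (hβ : β ≤ pvP ε Γ)
    (hM : MeasurableSet M) (hb : Bornology.IsBounded M) (hrec : PvbeRec ε W (M.indicator 1) (Γ ∩ A ∩ A') X) :
    ∫⁻ σ, ‖pvtiMean (pvP ε) O (pvtiW (pvP ε) O A) X σ‖ₑ ^ 2 ∂((pvP ε)[|Γ]) ≤ (β * q * q')⁻¹ * (CB * volume M) := by
  have := (pv_isPpp ε).prob
  have key := pvbe_conn hB hε hO hK hOK hK'K hX hXr hΓr hA hAr hA' hA'r hq0 hq hq' hM hb hrec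
  have hΓ0 : pvP ε Γ ≠ 0 := fun h0 => hβ0 (le_antisymm (h0 ▸ hβ) zero_le)
  obtain ⟨σ₀, hσ₀⟩ := nonempty_of_measure_ne_zero hΓ0
  have hq1 : q ≠ ∞ := ne_top_of_le_ne_top ENNReal.one_ne_top ((hq σ₀ hσ₀).trans (pvti_P_le_one O A σ₀))
  have hq'1 : q' ≠ ∞ := ne_top_of_le_ne_top ENNReal.one_ne_top ((hq' σ₀ hσ₀).trans (pvti_P_le_one O A' σ₀))
  have hβ1 : β ≠ ∞ := ne_top_of_le_ne_top (measure_ne_top _ _) hβ
  have e : ∫⁻ σ, ‖pvtiMean (pvP ε) O (pvtiW (pvP ε) O A) X σ‖ₑ ^ 2 * Γ.indicator 1 σ ∂(pvP ε)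
      = ∫⁻ σ in Γ, ‖pvtiMean (pvP ε) O (pvtiW (pvP ε) O A) X σ‖ₑ ^ 2 ∂(pvP ε) := by
    rw [← lintegral_indicator hΓ]
    refine lintegral_congr fun σ => ?_
    by_cases h : σ ∈ Γ
    · rw [Set.indicator_of_mem h, Set.indicator_of_mem h]; simp
    · rw [Set.indicator_of_notMem h, Set.indicator_of_notMem h, mul_zero]
  rw [e] at key
  have k2 := pvte_le_inv_mul (mul_ne_zero hq0 hq'0) (ENNReal.mul_ne_top hq1 hq'1) key
  simp only [ProbabilityTheory.cond, lintegral_smul_measure, smul_eq_mul]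
  calc (pvP ε Γ)⁻¹ * ∫⁻ σ in Γ, ‖pvtiMean (pvP ε) O (pvtiW (pvP ε) O A) X σ‖ₑ ^ 2 ∂(pvP ε)
      ≤ β⁻¹ * ((q * q')⁻¹ * (CB * volume M)) := mul_le_mul' (ENNReal.inv_le_inv.2 hβ) k2
    _ = (β * q * q')⁻¹ * (CB * volume M) := by
        rw [mul_assoc β, ENNReal.mul_inv (Or.inl hβ0) (Or.inl hβ1), mul_assoc]

theorem pvbe_vol_ball (z : ℂ) (L h : ℝ) : volume (Metric.closedBall z (L * h)) ≤ ENNReal.ofReal (Real.pi * L ^ 2) * ENNReal.ofReal (h ^ 2) := by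
  rw [Complex.volume_closedBall]
  have h1 : ENNReal.ofReal (L * h) ^ 2 ≤ ENNReal.ofReal (L ^ 2) * ENNReal.ofReal (h ^ 2) := by
    calc ENNReal.ofReal (L * h) ^ 2 ≤ ENNReal.ofReal |L * h| ^ 2 := by gcongr; exact le_abs_self _
      _ = ENNReal.ofReal ((L * h) ^ 2) := by rw [← ENNReal.ofReal_pow (abs_nonneg _), sq_abs]
      _ = _ := by rw [mul_pow, ENNReal.ofReal_mul (by positivity)]
  have h2 : (NNReal.pi : ℝ≥0∞) = ENNReal.ofReal Real.pi := by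
    rw [← NNReal.coe_real_pi, ENNReal.ofReal_coe_nnreal]
  rw [h2, ENNReal.ofReal_mul Real.pi_pos.le]
  calc ENNReal.ofReal (L * h) ^ 2 * ENNReal.ofReal Real.pi ≤ (ENNReal.ofReal (L ^ 2) * ENNReal.ofReal (h ^ 2)) * ENNReal.ofReal Real.pi := by gcongr
    _ = _ := by ring

/-- **THE `C h²` OF TR31** (`Σ_1`: `t -thick-> u -thick-> t`, both connectors forced with the UNIFORM constant `q` of TR21 (d), both plugs admitted with the uniform `β'`, the mask inside a disc of radius `L h`):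
`|i_e|²_{L²(μ_t × μ_u)} ≤ (β'² q²)⁻¹ C_B π L² h²`. -/
theorem pvbe_sigma1 (hB : PvbeIn W CB) (hε : 0 < ε) {U U' : Set PvPt} (hU : MeasurableSet U) (hU' : MeasurableSet U') (hUU' : Disjoint U U')
    (hK : MeasurableSet K) (hOK : Disjoint (U ∪ U') K) (hK'K : Disjoint K' K)
    (hX : AEMeasurable X (pvP ε)) (hXr : Conf.Reads (U ∪ U' ∪ K) X)
    (hG : MeasurableSet G) (hGr : Conf.Reads U (fun η => η ∈ G)) (hG' : MeasurableSet G') (hG'r : Conf.Reads U' (fun η => η ∈ G'))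
    (hA : MeasurableSet A) (hAr : Conf.Reads (U ∪ U' ∪ K) (fun η => η ∈ A)) (hA' : MeasurableSet A') (hA'r : Conf.Reads (U ∪ U' ∪ K') (fun η => η ∈ A'))
    (hq0 : q ≠ 0) (hq : ∀ σ ∈ G ∩ G', q ≤ pvtiP (pvP ε) (U ∪ U') A σ) (hq' : ∀ σ ∈ G ∩ G', q ≤ pvtiP (pvP ε) (U ∪ U') A' σ)
    (hβ0 : β' ≠ 0) (hβ : β' ≤ pvP ε G) (hβ' : β' ≤ pvP ε G')
    (hM : MeasurableSet M) {z : ℂ} {L h : ℝ} (hMs : M ⊆ Metric.closedBall z (L * h)) (hrec : PvbeRec ε W (M.indicator 1) (G ∩ G' ∩ A ∩ A') X) :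
    ∫⁻ σ, ‖pvtiMean (pvP ε) (U ∪ U') (pvtiW (pvP ε) (U ∪ U') A) X σ‖ₑ ^ 2 ∂((pvP ε)[|G ∩ G'])
      ≤ (β' ^ 2 * q ^ 2)⁻¹ * CB * ENNReal.ofReal (Real.pi * L ^ 2) * ENNReal.ofReal (h ^ 2) := by
  have hΓr : Conf.Reads (U ∪ U') (fun η => η ∈ G ∩ G') :=
    (hGr.mono subset_union_left).map₂ (hG'r.mono subset_union_right) (fun a b => a ∧ b)
  have hβΓ : β' ^ 2 ≤ pvP ε (G ∩ G') := by
    rw [pvbe_two_plugs (pv_isPpp ε) hU hU' hUU' hG hG' hGr hG'r, sq]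
    exact mul_le_mul' hβ hβ'
  have hb : Bornology.IsBounded M := Metric.isBounded_closedBall.subset hMs
  refine (pvbe_conn_cond hB hε (hU.union hU') hK hOK hK'K hX hXr (hG.inter hG') hΓr hA hAr hA' hA'r hq0 hq0 hq hq' (pow_ne_zero 2 hβ0) hβΓ hM hb hrec).trans ?_
  have hv : volume M ≤ ENNReal.ofReal (Real.pi * L ^ 2) * ENNReal.ofReal (h ^ 2) := (measure_mono hMs).trans (pvbe_vol_ball z L h)
  calc (β' ^ 2 * q * q)⁻¹ * (CB * volume M) ≤ (β' ^ 2 * q * q)⁻¹ * (CB * (ENNReal.ofReal (Real.pi * L ^ 2) * ENNReal.ofReal (h ^ 2))) := by gcongr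
    _ = _ := by rw [mul_assoc (β' ^ 2), ← sq]; ring

/-- Jensen without hypotheses: the square of the mean is below the mean of the square (a function which is not integrable has Bochner integral `0`) -/
theorem pvbe_mean_sq {Ω : Type*} [MeasurableSpace Ω] (P : Measure Ω) [IsProbabilityMeasure P] (f : Ω → ℂ) : ‖∫ ω, f ω ∂P‖ₑ ^ 2 ≤ ∫⁻ ω, ‖f ω‖ₑ ^ 2 ∂P := by
  by_cases hf : Integrable f P
  · simpa using pvti_jensen P 0 hf.aestronglyMeasurable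
  · rw [integral_undef hf]; simp

/-- the constant `k_e = ∫∫ i_e dμ_u dμ_u'` of a forced connector -/
theorem pvbe_conn_const (hB : PvbeIn W CB) (hε : 0 < ε) (hO : MeasurableSet O) (hK : MeasurableSet K) (hOK : Disjoint O K) (hK'K : Disjoint K' K)
    (hX : AEMeasurable X (pvP ε)) (hXr : Conf.Reads (O ∪ K) X) (hΓ : MeasurableSet Γ) (hΓr : Conf.Reads O (fun η => η ∈ Γ))
    (hA : MeasurableSet A) (hAr : Conf.Reads (O ∪ K) (fun η => η ∈ A)) (hA' : MeasurableSet A') (hA'r : Conf.Reads (O ∪ K') (fun η => η ∈ A'))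
    (hq0 : q ≠ 0) (hq'0 : q' ≠ 0) (hq : ∀ σ ∈ Γ, q ≤ pvtiP (pvP ε) O A σ) (hq' : ∀ σ ∈ Γ, q' ≤ pvtiP (pvP ε) O A' σ) (hβ0 : β ≠ 0) (hβ : β ≤ pvP ε Γ)
    (hM : MeasurableSet M) (hb : Bornology.IsBounded M) (hrec : PvbeRec ε W (M.indicator 1) (Γ ∩ A ∩ A') X) :
    ‖∫ σ, pvtiMean (pvP ε) O (pvtiW (pvP ε) O A) X σ ∂((pvP ε)[|Γ])‖ₑ ^ 2 ≤ (β * q * q')⁻¹ * (CB * volume M) := by
  have hΓ0 : pvP ε Γ ≠ 0 := fun h0 => hβ0 (le_antisymm (h0 ▸ hβ) zero_le)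
  have := (pv_isPpp ε).prob
  have : IsProbabilityMeasure ((pvP ε)[|Γ]) := cond_isProbabilityMeasure hΓ0
  exact (pvbe_mean_sq _ _).trans (pvbe_conn_cond hB hε hO hK hOK hK'K hX hXr hΓ hΓr hA hAr hA' hA'r hq0 hq'0 hq hq' hβ0 hβ hM hb hrec)

end conn

/-! ## 5. TR28 (ii): the cell constants are `O(δ)`, on the kit of 251 -/

section kit

variable {W : Set ℂ → ℂ × ℂ → ℂ} {CB : ℝ≥0∞} {kit : PvthKit} {ε : ℝ} {X₀ : PvtTurn → Conf PvPt → ℂ} {β' q : ℝ≥0∞} {M : Set ℂ}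

/-- the hypothesis `hbes` of `pvth_bound` -/
theorem pvbe_kit_hbes (hB : PvbeIn W CB) (hε : 0 < ε) {z d : ℂ} {l : List PvtTurn} {j : ℕ} (hM : MeasurableSet M) (hb : Bornology.IsBounded M)
    (hrec : PvbeRec ε W (M.indicator 1) (kit.Ev z d l) (kit.Xj X₀ z d l j)) :
    ∫⁻ η, ‖kit.Xj X₀ z d l j η‖ₑ ^ 2 * (kit.Ev z d l).indicator 1 η ∂(pvP ε) ≤ CB * volume M :=
  pvbe_one_mask hB hε hM hb hrec

/-- **TR28 (ii)** on a closed word -/
theorem pvbe_kit_bound (hB : PvbeIn W CB) (hε : 0 < ε) (hk : kit.WF) (hX : kit.Fld X₀) (hF : kit.Forced (pvP ε) β' q) {d : ℂ} (hd : d ^ 4 = 1) (z : ℂ)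
    {l : List PvtTurn} (hl : PvtClosed d l) (h2 : 2 ≤ l.length) (hdj : kit.Disj z d l) {j : ℕ} (hj : j < l.length)
    (hM : MeasurableSet M) (hb : Bornology.IsBounded M) (hrec : PvbeRec ε W (M.indicator 1) (kit.Ev z d l) (kit.Xj X₀ z d l j)) :
    ∫⁻ η, ‖X₀ (pvthL l j) η‖ₑ ^ 2 * kit.w2 (pvP ε) 0 1 (pvthL l j) η ∂(pvP ε) ≤ ((β' * q)⁻¹) ^ l.length * (CB * volume M) ∧
      ‖kit.k (pvP ε) X₀ (pvthL l j)‖ₑ ^ 2 ≤ ((β' * q)⁻¹) ^ l.length * (CB * volume M) :=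
  pvth_bound hk hX hF hd z hl h2 hdj hj (pvbe_kit_hbes hB hε hM hb hrec)

/-- from `ℝ≥0∞` to `ℝ` -/
theorem pvbe_norm_le_of_enorm_sq {x : ℂ} {c : ℝ} (hc : 0 ≤ c) (h : ‖x‖ₑ ^ 2 ≤ ENNReal.ofReal (c ^ 2)) : ‖x‖ ≤ c := by
  rw [← ofReal_norm, ← ENNReal.ofReal_pow (norm_nonneg _)] at h
  exact (abs_le_of_sq_le_sq' ((ENNReal.ofReal_le_ofReal_iff (by positivity)).1 h) hc).2

/-- **TR28 (ii), the form of the blueprint**: `|α|, |β_L|, |β_R| ≤ C δ` with `C² = (β' q)^{-N} C_B c`, as soon as every letter occurs in ONE closed word of length `N` (the hexagon) whose masks have area `≤ c δ²`.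
UNIFORM in `(ε, δ)` as soon as `β'`, `q` are (TR21 (a), TR22: sec. 6). -/
theorem pvbe_kit_delta (hB : PvbeIn W CB) (hε : 0 < ε) (hk : kit.WF) (hX : kit.Fld X₀) (hF : kit.Forced (pvP ε) β' q) {d : ℂ} (hd : d ^ 4 = 1) (z : ℂ)
    {l : List PvtTurn} (hl : PvtClosed d l) (h2 : 2 ≤ l.length) (hdj : kit.Disj z d l) (hall : ∀ τ, ∃ j < l.length, pvthL l j = τ)
    (Mk : ℕ → Set ℂ) (hM : ∀ j, MeasurableSet (Mk j)) (hb : ∀ j, Bornology.IsBounded (Mk j)) {c : ℝ≥0∞} (hc : ∀ j, volume (Mk j) ≤ c * ENNReal.ofReal (kit.δ ^ 2))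
    (hrec : ∀ j < l.length, PvbeRec ε W ((Mk j).indicator 1) (kit.Ev z d l) (kit.Xj X₀ z d l j)) (τ : PvtTurn) :
    ‖kit.k (pvP ε) X₀ τ‖ₑ ^ 2 ≤ ((β' * q)⁻¹) ^ l.length * CB * c * ENNReal.ofReal (kit.δ ^ 2) := by
  obtain ⟨j, hj, rfl⟩ := hall τ
  refine (pvbe_kit_bound hB hε hk hX hF hd z hl h2 hdj hj (hM j) (hb j) (hrec j hj)).2.trans ?_
  calc ((β' * q)⁻¹) ^ l.length * (CB * volume (Mk j)) ≤ ((β' * q)⁻¹) ^ l.length * (CB * (c * ENNReal.ofReal (kit.δ ^ 2))) := by gcongr; exact hc j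
    _ = _ := by ring

/-- `|a| ≤ C`, `a = α / δ` -/
theorem pvbe_kit_a (hk : kit.WF) {C : ℝ≥0∞} (h : ‖kit.k (pvP ε) X₀ PvtTurn.S‖ₑ ^ 2 ≤ C * ENNReal.ofReal (kit.δ ^ 2)) :
    ‖(kit.W (pvP ε) X₀).a / kit.δ‖ₑ ^ 2 ≤ C := by
  have hδ : (kit.δ : ℂ) ≠ 0 := by exact_mod_cast hk.δ0.ne'
  have e1 : ‖(kit.δ : ℂ)‖ₑ ^ 2 = ENNReal.ofReal (kit.δ ^ 2) := by
    rw [← ofReal_norm, Complex.norm_real, Real.norm_eq_abs, ← ENNReal.ofReal_pow (abs_nonneg _), sq_abs]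
  have h0 : ENNReal.ofReal (kit.δ ^ 2) ≠ 0 := by
    have : 0 < kit.δ ^ 2 := by have := hk.δ0; positivity
    exact (ENNReal.ofReal_pos.2 this).ne'
  show ‖kit.k (pvP ε) X₀ PvtTurn.S / kit.δ‖ₑ ^ 2 ≤ C
  rw [div_eq_mul_inv, enorm_mul, enorm_inv hδ, mul_pow, ← ENNReal.inv_pow, e1]
  calc ‖kit.k (pvP ε) X₀ PvtTurn.S‖ₑ ^ 2 * (ENNReal.ofReal (kit.δ ^ 2))⁻¹ ≤ C * ENNReal.ofReal (kit.δ ^ 2) * (ENNReal.ofReal (kit.δ ^ 2))⁻¹ := by gcongr
    _ = C := by rw [mul_assoc, ENNReal.mul_inv_cancel h0 ENNReal.ofReal_ne_top, mul_one]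

theorem pvbe_enorm_sq_le {x : ℂ} {c : ℝ≥0} : ‖x‖ₑ ^ 2 ≤ c ↔ ‖x‖ ^ 2 ≤ c := by
  rw [← ofReal_norm, ← ENNReal.ofReal_pow (norm_nonneg _), ← ENNReal.ofReal_coe_nnreal]
  exact ENNReal.ofReal_le_ofReal_iff c.coe_nonneg

/-- `|k| ≤ C δ` for the coboundary constant `k = ((1+i) β_L - i α)/2` -/
theorem pvbe_kit_k {C : ℝ≥0∞} (h : ∀ τ, ‖kit.k (pvP ε) X₀ τ‖ₑ ^ 2 ≤ C) : ‖(kit.W (pvP ε) X₀).k‖ₑ ^ 2 ≤ 2 * C := by
  rcases eq_or_ne C ∞ with rfl | hC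
  · simp
  lift C to ℝ≥0 using hC
  have h1 := pvbe_enorm_sq_le.1 (h PvtTurn.S)
  have h2 := pvbe_enorm_sq_le.1 (h PvtTurn.L)
  have e : (2 : ℝ≥0∞) * (C : ℝ≥0∞) = ((2 * C : ℝ≥0) : ℝ≥0∞) := by push_cast; rfl
  rw [e, pvbe_enorm_sq_le]
  show ‖((1 + Complex.I) * kit.k (pvP ε) X₀ PvtTurn.L - Complex.I * kit.k (pvP ε) X₀ PvtTurn.S) / 2‖ ^ 2 ≤ ((2 * C : ℝ≥0) : ℝ)
  set a := kit.k (pvP ε) X₀ PvtTurn.S
  set b := kit.k (pvP ε) X₀ PvtTurn.L
  have n0 : ‖(1 : ℂ) + Complex.I‖ ^ 2 = 2 := by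
    rw [Complex.sq_norm, Complex.normSq_apply]; simp; norm_num
  have n1 : ‖(1 + Complex.I) * b - Complex.I * a‖ ≤ ‖(1 + Complex.I) * b‖ + ‖a‖ := by
    calc ‖(1 + Complex.I) * b - Complex.I * a‖ ≤ ‖(1 + Complex.I) * b‖ + ‖Complex.I * a‖ := norm_sub_le _ _
      _ = _ := by rw [norm_mul Complex.I, Complex.norm_I, one_mul]
  have n5 : ‖(1 + Complex.I) * b‖ ^ 2 ≤ 2 * (C : ℝ) := by
    rw [norm_mul, mul_pow, n0]; linarith
  rw [norm_div, div_pow]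
  have n2 : ‖(2 : ℂ)‖ = 2 := by simp
  rw [n2]
  push_cast
  have n3 : ‖(1 + Complex.I) * b - Complex.I * a‖ ^ 2 ≤ (‖(1 + Complex.I) * b‖ + ‖a‖) ^ 2 := pow_le_pow_left₀ (norm_nonneg _) n1 2
  have n4 : (‖(1 + Complex.I) * b‖ + ‖a‖) ^ 2 ≤ 6 * (C : ℝ) := by nlinarith [sq_nonneg (‖(1 + Complex.I) * b‖ - ‖a‖)]
  have hC0 : (0 : ℝ) ≤ C := C.coe_nonneg
  linarith

end kit

/-! ## 6. UNIFORMITY BY SCALING: the kit at the scale `s`, mesh `s ε`, is the image of the reference kit at the mesh `ε` -/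

/-- the kit scaled by `s` (placement `w ↦ s w` of the reference data) -/
noncomputable def PvthKit.sc (kit : PvthKit) (s : ℝ) : PvthKit where
  δ := s * kit.δ
  O₀ := pvthSim 0 s '' kit.O₀
  K₀ τ := pvthSim 0 s '' kit.K₀ τ
  G₀ := kit.G 0 s
  A₀ τ := kit.A 0 s τ

theorem pvbe_eqns_cite3 : True := by
  have := @PvthKit.sc.eq_1
  trivial

section scale

variable {W : Set ℂ → ℂ × ℂ → ℂ} {CB : ℝ≥0∞} {kit : PvthKit} {ε s : ℝ} {X₀ : PvtTurn → Conf PvPt → ℂ} {β' q : ℝ≥0∞}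

/-- the law at the mesh `s ε`, pulled back by `w ↦ w / s`, is the law at the mesh `ε` -/
theorem pvbe_law_sc (hs : 0 < s) (ε : ℝ) : (pvP (s * ε)).map (cfMap (pvthInv 0 s)) = pvP ε := by
  have e : pvthInv 0 (s : ℂ) = fun z : ℂ => (s⁻¹ : ℝ) • z := by
    funext z
    unfold pvthInv
    rw [sub_zero, Complex.real_smul, Complex.ofReal_inv, div_eq_inv_mul]
  rw [e, pvP_scale (inv_ne_zero hs.ne') (s * ε), ← mul_assoc, inv_mul_cancel₀ hs.ne', one_mul]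

theorem pvbe_sc_reg (U : Set ℂ) (s : ℝ) (z d : ℂ) : pvthSim z d '' (pvthSim 0 s '' U) = pvthSim z (d * s) '' U := by
  rw [Set.image_image]
  refine Set.image_congr fun w _ => ?_
  simp only [pvthSim]
  ring

theorem pvbe_sc_O (kit : PvthKit) (s : ℝ) (z d : ℂ) : (kit.sc s).O z d = kit.O z (d * s) := by
  show (pvthSim z d '' (pvthSim 0 s '' kit.O₀)) ×ˢ univ = _
  rw [pvbe_sc_reg]
  rfl

theorem pvbe_sc_K (kit : PvthKit) (s : ℝ) (z d : ℂ) (τ : PvtTurn) : (kit.sc s).K z d τ = kit.K z (d * s) τ := by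
  show (pvthSim z d '' (pvthSim 0 s '' kit.K₀ τ)) ×ˢ univ = _
  rw [pvbe_sc_reg]
  rfl

theorem pvbe_sc_zo (kit : PvthKit) (s : ℝ) (z d : ℂ) (τ : PvtTurn) : (kit.sc s).zo z d τ = kit.zo z (d * s) τ := by
  show z + d * (((s * kit.δ : ℝ) : ℂ) * τ.mid) = z + d * s * (kit.δ * τ.mid)
  push_cast
  ring

theorem pvbe_sc_OO (kit : PvthKit) (s : ℝ) (z d : ℂ) (τ : PvtTurn) : (kit.sc s).OO z d τ = kit.OO z (d * s) τ := by
  unfold PvthKit.OO
  rw [pvbe_sc_O, pvbe_sc_O, pvbe_sc_zo, mul_right_comm]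

theorem pvbe_sc_G (kit : PvthKit) (s : ℝ) (z d : ℂ) (hd : d ≠ 0) : (kit.sc s).G z d = kit.G z (d * s) := by
  have := pvth_G_comp kit z d 0 s hd
  rw [mul_zero, add_zero] at this
  rw [this]
  rfl

theorem pvbe_sc_ne {s : ℝ} (hs : 0 < s) : (s : ℂ) ≠ 0 := Complex.ofReal_ne_zero.2 hs.ne'

theorem pvbe_sc_law {s : ℝ} (hs : 0 < s) (ε : ℝ) : (pvP ε).map (Conf.image (pvciAff (s : ℂ) 0 (pvbe_sc_ne hs))) = pvP (s * ε) := by
  rw [pvci_law_aff, Complex.norm_real, Real.norm_eq_abs, abs_of_pos hs]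

theorem pvbe_sim_image (hs : s ≠ 0) (U : Set ℂ) : pvthSim 0 s '' U = pvthInv 0 s ⁻¹' U := by
  have hc : (s : ℂ) ≠ 0 := Complex.ofReal_ne_zero.2 hs
  ext w
  constructor
  · rintro ⟨u, hu, rfl⟩
    show pvthInv 0 s (pvthSim 0 s u) ∈ U
    have : pvthInv 0 (s : ℂ) (pvthSim 0 s u) = u := by
      simp only [pvthInv, pvthSim]; field_simp; ring
    rwa [this]
  · intro hw
    refine ⟨pvthInv 0 s w, hw, ?_⟩
    simp only [pvthInv, pvthSim]; field_simp; ring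

theorem pvbe_sc_wf (hs : 0 < s) (hk : kit.WF) : (kit.sc s).WF := by
  have hc : (s : ℂ) ≠ 0 := Complex.ofReal_ne_zero.2 hs.ne'
  refine ⟨mul_pos hs hk.δ0, ?_, fun τ => ?_, pvth_mG hk 0 s, fun τ => pvth_mA hk 0 s τ, ?_, fun τ => ?_⟩
  · show MeasurableSet (pvthSim 0 s '' kit.O₀)
    rw [pvbe_sim_image hs.ne']
    exact pvth_measurable_inv 0 s hk.mO
  · show MeasurableSet (pvthSim 0 s '' kit.K₀ τ)
    rw [pvbe_sim_image hs.ne']
    exact pvth_measurable_inv 0 s (hk.mK τ)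
  · rw [pvbe_sc_O, one_mul]
    exact pvth_rG hk 0 s hc
  · rw [pvbe_sc_OO, pvbe_sc_K, one_mul]
    exact pvth_rA hk 0 s hc τ

theorem pvbe_sc_fld (hs : 0 < s) (hk : kit.WF) (hX : kit.Fld X₀) : (kit.sc s).Fld (pvthX X₀ 0 s) := by
  refine ⟨fun τ => ?_, fun τ => ?_⟩
  · exact ((hX.meas τ).comp (measurable_cfMap (pvth_measurable_inv 0 s))).const_mul _
  · rw [pvbe_sc_OO, pvbe_sc_K, one_mul, pvth_OO_place kit 0 s (pvbe_sc_ne hs), pvth_K_place kit 0 s (pvbe_sc_ne hs), ← Set.image_union]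
    exact (pvci_T_reads (pvciAff (s : ℂ) 0 (pvbe_sc_ne hs)).toEquiv (hX.reads τ)).comp (fun x => (s : ℂ) * x)

/-- the constants `β'`, `q` of TR21 (a), TR22 do not see the scale -/
theorem pvbe_sc_forced (hs : 0 < s) (hk : kit.WF) (hF : kit.Forced (pvP ε) β' q) : (kit.sc s).Forced (pvP (s * ε)) β' q := by
  have h0 := pvbe_sc_ne hs
  refine ⟨hF.β0, hF.q0, ?_, fun τ σ h1 h2 => ?_⟩
  · have e : pvP (s * ε) (kit.sc s).G₀ = pvP ε kit.G₀ := pvci_measure_T (pvciAff (s : ℂ) 0 h0) (pvbe_sc_law hs ε) kit.G₀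
    rw [e]
    exact hF.adm
  · rw [pvbe_sc_OO, one_mul, pvth_OO_place kit 0 s h0]
    have e := congrFun (pvci_P_T (pvciAff (s : ℂ) 0 h0) (pvbe_sc_law hs ε) (kit.OO 0 1 τ) (kit.A₀ τ)) σ
    refine le_trans ?_ (le_of_eq e.symm)
    refine hF.frc τ _ h1 ?_
    rw [pvbe_sc_G _ _ _ _ (pvt_rot_ne_zero τ), pvbe_sc_zo, one_mul, pvth_zo_place, mul_comm τ.rot, pvth_G_comp kit 0 s _ _ h0] at h2
    exact h2

theorem pvbe_sc_g (hs : 0 < s) (kit : PvthKit) (ε : ℝ) (z d : ℂ) (hd : d ≠ 0) (η : Conf PvPt) :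
    (kit.sc s).g (pvP (s * ε)) (s * z) d η = kit.g (pvP ε) z d (cfMap (pvthInv 0 s) η) := by
  have h0 := pvbe_sc_ne hs
  have e : pvP (s * ε) (kit.sc s).G₀ = pvP ε kit.G₀ := pvci_measure_T (pvciAff (s : ℂ) 0 h0) (pvbe_sc_law hs ε) kit.G₀
  unfold PvthKit.g
  rw [e, pvbe_sc_G _ _ _ _ hd, mul_comm d]
  have := pvth_G_comp kit 0 s z d h0
  rw [zero_add] at this
  rw [this]
  rfl

theorem pvbe_sc_w2 (hs : 0 < s) (kit : PvthKit) (ε : ℝ) (τ : PvtTurn) (η : Conf PvPt) :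
    (kit.sc s).w2 (pvP (s * ε)) 0 1 τ η = kit.w2 (pvP ε) 0 1 τ (cfMap (pvthInv 0 s) η) := by
  have h0 := pvbe_sc_ne hs
  unfold PvthKit.w2
  have e1 := pvbe_sc_g hs kit ε 0 1 one_ne_zero η
  rw [mul_zero] at e1
  have e2 := pvbe_sc_g hs kit ε (kit.zo 0 1 τ) (1 * τ.rot) (mul_ne_zero one_ne_zero (pvt_rot_ne_zero τ)) η
  have e3 : (kit.sc s).zo 0 1 τ = s * kit.zo 0 1 τ := by
    rw [pvbe_sc_zo, one_mul, pvth_zo_place, zero_add]
  have e4 : (kit.sc s).w (pvP (s * ε)) 0 1 τ η = kit.w (pvP ε) 0 1 τ (cfMap (pvthInv 0 s) η) := by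
    unfold PvthKit.w
    rw [pvbe_sc_OO, one_mul, pvth_OO_place kit 0 s h0, pvth_A_ref, pvth_A_ref]
    exact congrFun (pvci_W_T (pvciAff (s : ℂ) 0 h0) (pvbe_sc_law hs ε) (kit.OO 0 1 τ) (kit.A₀ τ)) η
  rw [e1, e3, e2, e4]

/-- the cell constants scale as lengths -/
theorem pvbe_sc_k (hs : 0 < s) (hk : kit.WF) (hX : kit.Fld X₀) (τ : PvtTurn) :
    (kit.sc s).k (pvP (s * ε)) (pvthX X₀ 0 s) τ = s * kit.k (pvP ε) X₀ τ := by
  have h0 := pvbe_sc_ne hs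
  obtain ⟨Φ, hΦ, hΦs⟩ := pvth_equiv (pvciAff (s : ℂ) 0 h0)
  have h1 := pvci_withDensity_map Φ (pvP ε) (kit.w2 (pvP ε) 0 1 τ)
  have h2 : (pvP ε).map Φ = pvP (s * ε) := by
    rw [show (Φ : Conf PvPt → Conf PvPt) = Conf.image (pvciAff (s : ℂ) 0 h0) from funext hΦ]
    exact pvbe_sc_law hs ε
  rw [h2] at h1
  have h3 : (kit.sc s).w2 (pvP (s * ε)) 0 1 τ = fun y => kit.w2 (pvP ε) 0 1 τ (Φ.symm y) := by
    funext y
    rw [pvbe_sc_w2 hs, hΦs, pvth_cfMap_inv 0 s h0]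
  unfold PvthKit.k
  rw [h3, h1, integral_map_equiv, ← integral_const_mul]
  refine integral_congr_ae (ae_of_all _ fun η => ?_)
  show (s : ℂ) * X₀ τ (cfMap (pvthInv 0 s) (Φ η)) = s * X₀ τ η
  rw [pvth_cfMap_inv 0 s h0, ← hΦs, Φ.symm_apply_apply]

/-- **TR28 (ii), UNIFORM IN `(ε, δ)`**.   Everything (forcing, recognition, masks) is asked of the REFERENCE kit only, at all meshes `ε' ≤ r₀`;   the conclusion holds for the kit at every scale `s` and every mesh `ε ≤ r₀ s`. -/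
theorem pvbe_unif (hB : PvbeIn W CB) (hk : kit.WF) (hX : kit.Fld X₀) {r₀ : ℝ} (hF : ∀ ε', 0 < ε' → ε' ≤ r₀ → kit.Forced (pvP ε') β' q) {d : ℂ} (hd : d ^ 4 = 1) (z : ℂ)
    {l : List PvtTurn} (hl : PvtClosed d l) (h2 : 2 ≤ l.length) (hdj : kit.Disj z d l) (hall : ∀ τ, ∃ j < l.length, pvthL l j = τ)
    (Mk : ℕ → Set ℂ) (hM : ∀ j, MeasurableSet (Mk j)) (hb : ∀ j, Bornology.IsBounded (Mk j)) {c : ℝ≥0∞} (hc : ∀ j, volume (Mk j) ≤ c * ENNReal.ofReal (kit.δ ^ 2))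
    (hrec : ∀ ε', 0 < ε' → ε' ≤ r₀ → ∀ j < l.length, PvbeRec ε' W ((Mk j).indicator 1) (kit.Ev z d l) (kit.Xj X₀ z d l j))
    (hs : 0 < s) (hε : 0 < ε) (hεs : ε ≤ r₀ * s) (τ : PvtTurn) :
    ‖(kit.sc s).k (pvP ε) (pvthX X₀ 0 s) τ‖ₑ ^ 2 ≤ ((β' * q)⁻¹) ^ l.length * CB * c * ENNReal.ofReal ((kit.sc s).δ ^ 2) := by
  have h1 : 0 < ε / s := div_pos hε hs
  have h2' : ε / s ≤ r₀ := (div_le_iff₀ hs).2 hεs
  have e : ε = s * (ε / s) := by field_simp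
  have key := pvbe_kit_delta hB h1 hk hX (hF _ h1 h2') hd z hl h2 hdj hall Mk hM hb hc (hrec _ h1 h2') τ
  have e2 : (kit.sc s).k (pvP ε) (pvthX X₀ 0 s) τ = s * kit.k (pvP (ε / s)) X₀ τ := by
    conv_lhs => rw [e]
    exact pvbe_sc_k hs hk hX τ
  have e3 : ENNReal.ofReal ((kit.sc s).δ ^ 2) = ‖(s : ℂ)‖ₑ ^ 2 * ENNReal.ofReal (kit.δ ^ 2) := by
    show ENNReal.ofReal ((s * kit.δ) ^ 2) = _
    rw [mul_pow, ENNReal.ofReal_mul (by positivity), ← ofReal_norm, Complex.norm_real, Real.norm_eq_abs, ← ENNReal.ofReal_pow (abs_nonneg _), sq_abs]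
  rw [e2, enorm_mul, mul_pow, e3]
  calc ‖(s : ℂ)‖ₑ ^ 2 * ‖kit.k (pvP (ε / s)) X₀ τ‖ₑ ^ 2 ≤ ‖(s : ℂ)‖ₑ ^ 2 * (((β' * q)⁻¹) ^ l.length * CB * c * ENNReal.ofReal (kit.δ ^ 2)) := by gcongr
    _ = _ := by ring

end scale

/-! ## 7. THE PRODUCER OF `PvbeIn` : I.BES of S1P (`S1P/IBes.lean`, 244) -/

section bridge

/-- ONE label is below the label energy (`pvq_en_ge` of 244 for the family of one tag), raw form -/
theorem pvbe_en_one {Y : Set ℂ} (h : DelGood Y) (s : ℂ → Bool) (w : ℂ × ℂ → ℂ) {x : ℂ × ℂ} (hx : pvqTag (DelTri Y) s x) (hf : {y | pvqSame (DelTri Y) s x y}.Finite) :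
    ‖pvqSum (DelTri Y) s w x‖ₑ ^ 2 ≤ pvqEn Y s w := by
  obtain ⟨d, rfl⟩ := pvq_del_tag_code h s hx
  have hfd : {d' | (delPl h).toMap.SameLab (s ∘ Subtype.val) d d'}.Finite := by
    have e : {d' | (delPl h).toMap.SameLab (s ∘ Subtype.val) d d'} = pvqCode ⁻¹' {y | pvqSame (DelTri Y) s (pvqCode d) y} := by
      ext d'
      exact (pvq_del_same' h s d d').symm
    rw [e]
    exact hf.preimage (pvq_code_inj h).injOn
  have k := pvq_en_ge h s w {d} (fun d' hd' => by rw [Finset.mem_singleton.1 hd']; exact (pvq_del_tag h s d).1 hx)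
    (fun d' hd' => by rw [Finset.mem_singleton.1 hd']; exact hfd) (fun d' hd' d'' hd'' _ => by rw [Finset.mem_singleton.1 hd', Finset.mem_singleton.1 hd''])
  rw [Finset.sum_singleton, ← pvq_del_sum h s w d] at k
  rwa [← ofReal_norm, ← ENNReal.ofReal_pow (norm_nonneg _)]

/-- on a label the mask without liveness is the LIVE weight of 244 (the tags are live) -/
theorem pvbe_lab_eq (u : Bool) (g : ℂ → ℂ) (η : Conf PvPt) (x : ℂ × ℂ) :
    pvbeLab (pvibK u) g η x = pvqSum (DelTri (cfSites η)) (cfCol η) (pvibW u g (cfSites η)) x := by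
  unfold pvbeLab pvqSum
  refine finsum_congr fun y => finsum_congr fun hy => ?_
  obtain ⟨c, hc, -⟩ := hy.2.1
  unfold pvibW
  rw [if_pos ⟨c, hc⟩]

theorem PvbeTest.supp_bdd {g : ℂ → ℂ} (hg : PvbeTest g) : Bornology.IsBounded (Function.support g) := by
  obtain ⟨R, hR⟩ := hg.supp
  refine (Metric.isBounded_closedBall (x := (0 : ℂ)) (r := R)).subset fun z hz => ?_
  rw [mem_closedBall_zero_iff]
  by_contra hn
  exact hz (hR z (not_le.1 hn))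

/-- **I.BES ⟹ `PvbeIn`**, `u = false`: `Q`, `u = true`: `U` -/
theorem pvbe_in_K (u : Bool) : PvbeIn (pvibK u) (4⁻¹ * pvibTh u) := by
  intro ε hε g hg
  refine ⟨fun η => pvqEn (cfSites η) (cfCol η) (pvibW u g (cfSites η)), pvib_en_aem u hg.meas ε, ?_, ?_⟩
  · filter_upwards [pvqf_good_ae ε hε.ne', pvqf_raw_same_ae hε] with η h1 h2 x hx
    rw [pvbe_lab_eq]
    exact pvbe_en_one h1.del _ _ hx (h2 x)
  · refine (pvib_bes u hε hg.meas hg.supp_bdd).trans (le_of_eq ?_)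
    congr 1
    refine lintegral_congr fun z => ?_
    rw [ENNReal.ofReal_pow (norm_nonneg _), ofReal_norm]

theorem pvbe_in_Q : PvbeIn pvqWQ (4⁻¹ * pvibTh false) := by
  have e : pvibK false = pvqWQ := by
    funext Y x
    unfold pvibK
    rw [if_neg (by decide)]
  rw [← e]
  exact pvbe_in_K false

theorem pvbe_in_U : PvbeIn pvqWU (4⁻¹ * pvibTh true) := by
  have e : pvibK true = pvqWU := by
    funext Y x
    unfold pvibK
    rw [if_pos rfl]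
  rw [← e]
  exact pvbe_in_K true

/-- THE CONSTANT `C_B` of the blueprint -/
noncomputable def pvbeCB : ℝ≥0∞ := pvibTh false + pvibTh true

theorem pvbe_eqns_cite4 : True := by
  have := @pvbeCB.eq_1
  trivial

theorem pvbe_CB_ne_top : pvbeCB ≠ ∞ := ENNReal.add_ne_top.2 ⟨pvib_Th_ne_top _, pvib_Th_ne_top _⟩

theorem pvbe_quarter_le (a : ℝ≥0∞) : 4⁻¹ * a ≤ a := by
  calc 4⁻¹ * a ≤ 1 * a := mul_le_mul_left (ENNReal.inv_le_one.2 (by norm_num)) _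
    _ = a := one_mul a

theorem pvbe_in_Q' : PvbeIn pvqWQ pvbeCB := pvbe_in_Q.mono ((pvbe_quarter_le _).trans le_self_add)

theorem pvbe_in_V : PvbeIn pvbeWV pvbeCB := by
  refine (PvbeIn.V pvbe_in_U pvbe_in_Q).mono ?_
  have e : ∀ a : ℝ≥0∞, 2 * (4⁻¹ * a) ≤ a := fun a => by
    have h4 : (2 : ℝ≥0∞) * 4⁻¹ ≤ 1 := by
      have h4' : (4 : ℝ≥0∞) = 2 * 2 := by norm_num
      rw [h4', ENNReal.mul_inv (Or.inl two_ne_zero) (Or.inl ENNReal.ofNat_ne_top), ← mul_assoc, ENNReal.mul_inv_cancel two_ne_zero ENNReal.ofNat_ne_top, one_mul]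
      exact ENNReal.inv_le_one.2 (by norm_num)
    calc 2 * (4⁻¹ * a) = (2 * 4⁻¹) * a := (mul_assoc _ _ _).symm
      _ ≤ 1 * a := mul_le_mul_left h4 _
      _ = a := one_mul a
  unfold pvbeCB
  rw [add_comm (pvibTh false)]
  exact add_le_add (e _) (e _)

/-- I.BES for the field `Q - a V` of the wall -/
theorem pvbe_in_QaV (a : ℂ) : PvbeIn (pvbeComb pvqWQ pvbeWV (-a)) ((2 + 2 * ‖a‖ₑ ^ 2) * pvbeCB) := by
  have := PvbeIn.comb pvbe_in_Q' pvbe_in_V (-a)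
  rw [enorm_neg] at this
  refine this.mono (le_of_eq ?_)
  ring

end bridge

/-! ## 8. THE BESSEL INSTANCES ON THE GEOMETRIC SYSTEMS OF 95 (`Tr/Sys.lean`) -/

section sys

variable {U C : Type*} [Fintype U] [Fintype C] [DecidableEq U] [DecidableEq C] {S : PvsySys PvPt U C} {X X' : C → Conf PvPt → ℂ} {Cu : Finset U} {Cf : Finset C} {q : C → ℝ≥0∞}
variable {W W' : Set ℂ → ℂ × ℂ → ℂ} {CB : ℝ≥0∞} {ε : ℝ} {M : Set ℂ} {B : Set (Conf PvPt)}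

theorem pvbe_set_eq_ind {Ω : Type*} [MeasurableSpace Ω] (μ : Measure Ω) {T : Set Ω} (hT : NullMeasurableSet T μ) (f : Ω → ℝ≥0∞) :
    ∫⁻ η in T, f η ∂μ = ∫⁻ η, f η * T.indicator 1 η ∂μ := by
  rw [← lintegral_indicator₀ hT]
  refine lintegral_congr fun η => ?_
  by_cases h : η ∈ T
  · rw [Set.indicator_of_mem h, Set.indicator_of_mem h]; simp
  · rw [Set.indicator_of_notMem h, Set.indicator_of_notMem h, mul_zero]

/-- **TR5 + I.BES, chain form**: the mean of ONE connector `e` of an experiment `(Cu, Cf)` (its ends in `Cu` integrated), on an event `B` of the marked states.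
`hrec` = TR13 + TR14: on `B ∩ Ev` the increment `X e` is the mass of ONE rim in the deterministic mask `M`. -/
theorem pvbe_sys_conn (hB : PvbeIn W CB) (hε : 0 < ε) (hS : S.WF) (hX : S.Fld X) (hF : S.Forced (pvP ε) Cu Cf q) (hBm : MeasurableSet B)
    (hBe : B ⊆ S.Ends Cu Cf) (hBr : Conf.ReadsSet (S.R Cu Cf)ᶜ B) {e : C} (he : e ∈ Cf) (hM : MeasurableSet M) (hb : Bornology.IsBounded M)
    (hrec : PvbeRec ε W (M.indicator 1) (B ∩ S.Ev Cu Cf) (X e)) :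
    ∫⁻ η in B, ‖S.me (pvP ε) X Cu e η‖ₑ ^ 2 ∂(pvP ε) ≤ S.Dc (pvP ε) Cu Cf q * (CB * volume M) := by
  refine (pvsy_conn (pv_isPpp ε) hS hX hF 2 hBm hBe hBr he).trans (mul_le_mul_right ?_ _)
  rw [pvbe_set_eq_ind _ (hBm.inter (pvsy_measurableSet_Ev hS Cu Cf)).nullMeasurableSet]
  exact pvbe_one_mask hB hε hM hb hrec

/-- the same for null-measurable events and a.e. measurable fields -/
theorem pvbe_sys_conn₀ (hB : PvbeIn W CB) (hε : 0 < ε) (hS : S.WF₀ (pvP ε)) (hX : S.Fld₀ (pvP ε) X) (hF : S.Forced (pvP ε) Cu Cf q) (hBm : NullMeasurableSet B (pvP ε))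
    (hBe : B ⊆ S.Ends Cu Cf) (hBr : Conf.ReadsSet (S.R Cu Cf)ᶜ B) {e : C} (he : e ∈ Cf) (hM : MeasurableSet M) (hb : Bornology.IsBounded M)
    (hEv : NullMeasurableSet (S.Ev Cu Cf) (pvP ε)) (hrec : PvbeRec ε W (M.indicator 1) (B ∩ S.Ev Cu Cf) (X e)) :
    ∫⁻ η in B, ‖S.me (pvP ε) X Cu e η‖ₑ ^ 2 ∂(pvP ε) ≤ S.Dc (pvP ε) Cu Cf q * (CB * volume M) := by
  refine (pvsy_conn₀ (pv_isPpp ε) hS hX hF 2 hBm hBe hBr he).trans (mul_le_mul_right ?_ _)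
  rw [pvbe_set_eq_ind _ (hBm.inter hEv)]
  exact pvbe_one_mask hB hε hM hb hrec

/-- **TR28 (a)**: one constant of a closed experiment -/
theorem pvbe_sys_const (hB : PvbeIn W CB) (hε : 0 < ε) (hS : S.WF) (hX : S.Fld X) (hF : S.Forced (pvP ε) Cu Cf q) (hcl : ∀ e ∈ Cf, S.src e ∈ Cu ∧ S.tgt e ∈ Cu)
    {e : C} (he : e ∈ Cf) (hM : MeasurableSet M) (hb : Bornology.IsBounded M) (hrec : PvbeRec ε W (M.indicator 1) (S.Ev Cu Cf) (X e)) :
    ‖S.k (pvP ε) X e‖ₑ ^ 2 ≤ S.Dc (pvP ε) Cu Cf q * (CB * volume M) := by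
  refine (pvsy_const_one (pv_isPpp ε) hS hX hF hcl he 2).trans (mul_le_mul_right ?_ _)
  rw [pvbe_set_eq_ind _ (pvsy_measurableSet_Ev hS Cu Cf).nullMeasurableSet]
  exact pvbe_one_mask hB hε hM hb hrec

/-- **TR5 in the form of the blueprint**: `‖i_e‖²_{L²(μ_u × μ_u')} ≤ D_c C_B |M|` -/
theorem pvbe_sys_L2 (hB : PvbeIn W CB) (hε : 0 < ε) (hS : S.WF) (hX : S.Fld X) (hF : S.Forced (pvP ε) Cu Cf q) (hcl : ∀ e ∈ Cf, S.src e ∈ Cu ∧ S.tgt e ∈ Cu)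
    {e : C} (he : e ∈ Cf) (hM : MeasurableSet M) (hb : Bornology.IsBounded M) (hrec : PvbeRec ε W (M.indicator 1) (S.Ev Cu Cf) (X e)) :
    ∫⁻ σ, ‖S.ii (pvP ε) X e σ‖ₑ ^ 2 * (S.g (pvP ε) (S.src e) σ * S.g (pvP ε) (S.tgt e) σ) ∂(pvP ε) ≤ S.Dc (pvP ε) Cu Cf q * (CB * volume M) := by
  refine (pvsy_conn_L2 (pv_isPpp ε) hS hX hF hcl he 2).trans (mul_le_mul_right ?_ _)
  rw [pvbe_set_eq_ind _ (pvsy_measurableSet_Ev hS Cu Cf).nullMeasurableSet]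
  exact pvbe_one_mask hB hε hM hb hrec

/-- the bound `D_c` is uniform as soon as the constants of admission and forcing are -/
theorem pvbe_Dc_le {E : Type*} [MeasurableSpace E] {U C : Type*} (S : PvsySys E U C) (μ : Measure (Conf E)) (Cu : Finset U) (Cf : Finset C) (q : C → ℝ≥0∞) {β' q₀ : ℝ≥0∞}
    (hβ : ∀ u ∈ Cu, β' ≤ μ (S.G u)) (hq : ∀ e ∈ Cf, q₀ ≤ q e) : S.Dc μ Cu Cf q ≤ (β'⁻¹) ^ Cu.card * (q₀⁻¹) ^ Cf.card := by
  unfold PvsySys.Dc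
  refine mul_le_mul' ?_ ?_
  · calc ∏ u ∈ Cu, (μ (S.G u))⁻¹ ≤ ∏ _u ∈ Cu, β'⁻¹ := Finset.prod_le_prod' fun u hu => ENNReal.inv_le_inv.2 (hβ u hu)
      _ = _ := by rw [Finset.prod_const]
  · calc ∏ e ∈ Cf, (q e)⁻¹ ≤ ∏ _e ∈ Cf, q₀⁻¹ := Finset.prod_le_prod' fun e he => ENNReal.inv_le_inv.2 (hq e he)
      _ = _ := by rw [Finset.prod_const]

/-- the constant `C_e` of the field `thick` of `PvhbLoc` (`Tr/Hub.lean`, 73) -/
noncomputable def pvbeCe (β' q₀ : ℝ≥0∞) (nu nf : ℕ) (CA L : ℝ) : ℝ :=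
  ((β'⁻¹) ^ nu * (q₀⁻¹) ^ nf * ((2 + 2 * ENNReal.ofReal (CA ^ 2)) * pvbeCB * ENNReal.ofReal (Real.pi * L ^ 2))).toReal

theorem pvbe_eqns_cite5 : True := by
  have := @pvbeCe.eq_1
  trivial

/-- **THE FIELD `thick` OF THE HUB, on a geometric system** (TR5 + I.BES + masks, UNIFORMLY in `‖a‖ ≤ CA`, in `ε`, in the position).
`(Cu, Cf)` = the closing experiment of the thick short link `e` (road of record: `Cu = {u}` the reference plug, `Cf = {e, e'}` the link and its thick return; any experiment will do);   `B` = the candidate is usable;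
field of record `y_a = XQ - a XV`;   `hrec` = TR13 + TR14 with ONE rim and ONE mask `M ⊆ B(z, L h)` for the two fields. -/
theorem pvbe_sys_thick (hε : 0 < ε) (hS : S.WF) {XQ XV : C → Conf PvPt → ℂ} (hQ : S.Fld XQ) (hV : S.Fld XV) (hF : S.Forced (pvP ε) Cu Cf q) (hBm : MeasurableSet B)
    (hBe : B ⊆ S.Ends Cu Cf) (hBr : Conf.ReadsSet (S.R Cu Cf)ᶜ B) {e : C} (he : e ∈ Cf) {β' q₀ : ℝ≥0∞} (hβ0 : β' ≠ 0) (hq0 : q₀ ≠ 0)
    (hβ : ∀ u ∈ Cu, β' ≤ pvP ε (S.G u)) (hq : ∀ e ∈ Cf, q₀ ≤ q e) (hM : MeasurableSet M) {z : ℂ} {L h : ℝ} (hMs : M ⊆ Metric.closedBall z (L * h))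
    (hrec : ∀ᵐ η ∂(pvP ε), η ∈ B ∩ S.Ev Cu Cf → ∃ x, pvbeTag η x ∧ XQ e η = pvbeLab pvqWQ (M.indicator 1) η x ∧ XV e η = pvbeLab pvbeWV (M.indicator 1) η x)
    {a : ℂ} {CA : ℝ} (ha : ‖a‖ ≤ CA) :
    ∫⁻ η in B, ‖S.me (pvP ε) (fun e η => XQ e η - a * XV e η) Cu e η‖ₑ ^ 2 ∂(pvP ε) ≤ ENNReal.ofReal (pvbeCe β' q₀ Cu.card Cf.card CA L * h ^ 2) := by
  have hb : Bornology.IsBounded M := Metric.isBounded_closedBall.subset hMs
  have hX : S.Fld (fun e η => XQ e η + (-a) * XV e η) :=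
    ⟨fun e => (hQ.meas e).add ((hV.meas e).const_mul _), fun e => (hQ.reads e).map₂ (hV.reads e) (fun x y => x + (-a) * y)⟩
  have e1 : (fun (e : C) (η : Conf PvPt) => XQ e η - a * XV e η) = fun e η => XQ e η + (-a) * XV e η := by
    funext e η; ring
  rw [e1]
  have k := pvbe_sys_conn (pvbe_in_QaV a) hε hS hX hF hBm hBe hBr he hM hb (PvbeRec.comb hε (-a) hrec)
  refine k.trans ?_
  have hv : volume M ≤ ENNReal.ofReal (Real.pi * L ^ 2) * ENNReal.ofReal (h ^ 2) := (measure_mono hMs).trans (pvbe_vol_ball z L h)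
  have ha2 : ‖a‖ₑ ^ 2 ≤ ENNReal.ofReal (CA ^ 2) := by
    rw [← ofReal_norm, ← ENNReal.ofReal_pow (norm_nonneg _)]
    exact ENNReal.ofReal_le_ofReal (pow_le_pow_left₀ (norm_nonneg _) ha 2)
  have hfin : (β'⁻¹) ^ Cu.card * (q₀⁻¹) ^ Cf.card * ((2 + 2 * ENNReal.ofReal (CA ^ 2)) * pvbeCB * ENNReal.ofReal (Real.pi * L ^ 2)) ≠ ∞ := by
    refine ENNReal.mul_ne_top (ENNReal.mul_ne_top (ENNReal.pow_ne_top (ENNReal.inv_ne_top.2 hβ0)) (ENNReal.pow_ne_top (ENNReal.inv_ne_top.2 hq0))) ?_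
    refine ENNReal.mul_ne_top (ENNReal.mul_ne_top ?_ pvbe_CB_ne_top) ENNReal.ofReal_ne_top
    exact ENNReal.add_ne_top.2 ⟨by norm_num, ENNReal.mul_ne_top (by norm_num) ENNReal.ofReal_ne_top⟩
  rw [pvbeCe, ENNReal.ofReal_mul ENNReal.toReal_nonneg, ENNReal.ofReal_toReal hfin]
  calc S.Dc (pvP ε) Cu Cf q * ((2 + 2 * ‖a‖ₑ ^ 2) * pvbeCB * volume M)
      ≤ ((β'⁻¹) ^ Cu.card * (q₀⁻¹) ^ Cf.card) * ((2 + 2 * ENNReal.ofReal (CA ^ 2)) * pvbeCB * (ENNReal.ofReal (Real.pi * L ^ 2) * ENNReal.ofReal (h ^ 2))) := by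
        refine mul_le_mul' (pvbe_Dc_le S _ Cu Cf q hβ hq) ?_
        gcongr
    _ = _ := by ring

end sys

end Claimed.Agent.R289
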