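import Claimed.Agent.R289.FkgQ
import Claimed.Agent.R289.PppQ
import Claimed.Agent.R289.Tr.Ind

/-!
# Row 289 (S0537), box TR-HOOK (WB5), file Tr/Hook : QUENCHED HARRIS IN A MIXED ORDER, FROZEN STATES, THE ABSTRACT BRIDGE      (owner helper5; author of the mathematics helper165 / helper140; prefix `pvhk_`, `pvhk`, `Pvhk`)

TEX[Cardy:plugs] Lemma 3.3 (conditional bridge) = TR21 of `TR_295.md`.      DESIGN-INDEPENDENT HALF: nothing here knows what a plug, a gate, a funnel or a lane is.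
* §1 COLOURS      `pvhkLe s` = the MIXED order on `PvColT` (`s i = some true`: black is up at the index `i`; `some false`: white is up; `none`: the index is not looked at), `PvhkUp s A`,
                  **`pvhk_up_up`**, `pvhk_up_list`, `pvhk_up_pow` (Harris for `pvCol`: from `pvfq_pi_total` of 103).
* §2 GEOMETRY     `PvhkUpAt g s 𝒜` (the colour section of `𝒜` at the geometry `g` is up), `pvhkSg g Kb Kw` (black is up on the sites of `Kb`, white on the sites of `Kw`),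
                  `pvhk_up_black` / `pvhk_up_white` (an increasing / decreasing event which, at `g`, looks only at the colours of the sites of `Kb` / `Kw`), **`pvhk_Qc_up_up`**, `pvhk_Qc_up_list`, **`pvhk_Qc_net`** (`q ^ n ≤ pvQc (all) g`).
* §3 FROZEN STATE `pvhkSec O σ 𝒜 = {η | spl O (σ, η) ∈ 𝒜}`;  **`pvhk_P_eq`** : `pvtiP (pvP ε) O 𝒜 σ = ∫⁻ g, pvQc (pvhkSec O σ 𝒜) g` (the conditional probability of 141 given the state = mean of the quenched probability of the section);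
                  calculus (`_inter _compl _mono _inc _dec`), `pvhk_P_mono`, `pvhk_P_split`.
* §4 THE BRIDGE   **`pvhk_bridge`** : `q * (β - δ) ≤ pvtiP (pvP ε) O 𝒮 σ` from `β ≤ P(𝒜 | σ)`, `P(ℰᶜ | σ) ≤ δ`, `ℰ` geometric, `q * Q(𝒜) ≤ Q(𝒜 ∩ 𝒦)` on `ℰ`, `𝒜 ∩ 𝒦 ∩ ℰ ⊆ 𝒮`;
                  **`pvhk_bridge_net`** : the same with `𝒦` = a list of events, each of quenched probability `≥ q` on `ℰ`, everything up in one mixed order: `q ^ n * (β - δ) ≤ P(𝒮 | σ)`;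
* §5 ANNEALED     NO QUENCHED BOX CROSSING: `pvhkK Nb Nw` (black points up over `Nb`, white points up over `Nw`), `PvhkAUp K 𝒜`, `pvhk_aup_black` / `pvhk_aup_white` (`PvInc` / `PvDec` + `ReadsSet` over `Nb` / `Nw`),
                  **`pvhk_ann_up_up`**, `pvhk_ann_up_list` (conditional annealed FKG given the state, from `pvf_fkg` of 159 with an arbitrary `K`), `pvhk_P_of_disjoint`, `pvhk_P_change`,
                  **`pvhk_bridge_ann`** : `∏ P(𝒦 i | σ) - δ ≤ P(𝒮 | σ)`.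
* §6 FROZEN INDICES (A B C C' D of 165, `w1_165.md` sec. 8)  `pvhkPa Fz a E = pvCol {x | pvfqMix Fz (a, x) ∈ E}`, `pvhk_Pa_split` (A), `pvhk_Pa_harris` (B), `pvhk_up_pow` + `pvhk_Pa_free` (C), `pvhk_Pa_couple` (C'), `pvhk_int` (D).
-/

set_option autoImplicit false
set_option linter.unusedSectionVars false
set_option linter.unusedVariables false

namespace Claimed.Agent.R289

open MeasureTheory ProbabilityTheory Set Filter Topology Claims.C0465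
open scoped ENNReal NNReal

/-! ## 1. the mixed order on colourings -/

/-- one coordinate: `some true` = the order of `Bool` (black is up), `some false` = the reversed order, `none` = the full relation -/
def pvhkLe1 (s : Option Bool) (x y : Bool) : Prop := (s = some true → x ≤ y) ∧ (s = some false → y ≤ x)

/-- the mixed order -/
def pvhkLe (s : PvIx → Option Bool) (c c' : PvColT) : Prop := ∀ i, pvhkLe1 (s i) (c i) (c' i)

/-- up-sets of the mixed order -/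
def PvhkUp (s : PvIx → Option Bool) (A : Set PvColT) : Prop := ∀ c c', pvhkLe s c c' → c ∈ A → c' ∈ A

theorem pvhk_eqns_cite : True := by
  have := @pvhkLe1.eq_1; have := @pvhkLe.eq_1; have := @PvhkUp.eq_1
  trivial

theorem pvhk_le1_total (s : Option Bool) (x y : Bool) : pvhkLe1 s x y ∨ pvhkLe1 s y x := by
  rcases s with _ | b
  · exact Or.inl ⟨fun h => by simp at h, fun h => by simp at h⟩
  · cases b
    · rcases le_total y x with h | h
      · exact Or.inl ⟨fun h' => by simp at h', fun _ => h⟩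
      · exact Or.inr ⟨fun h' => by simp at h', fun _ => h⟩
    · rcases le_total x y with h | h
      · exact Or.inl ⟨fun _ => h, fun h' => by simp at h'⟩
      · exact Or.inr ⟨fun _ => h, fun h' => by simp at h'⟩

theorem pvhk_le_refl (s : PvIx → Option Bool) (c : PvColT) : pvhkLe s c c := fun _ => ⟨fun _ => le_rfl, fun _ => le_rfl⟩

/-- positive association of the fair colours for every mixed order -/
theorem pvhk_def (s : PvIx → Option Bool) : PvfDef pvCol (pvhkLe s) univ 0 :=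
  pvfq_pi_total (fun _ : PvIx => pvCoin) (le := fun i => pvhkLe1 (s i)) fun i x y => pvhk_le1_total (s i) x y

theorem PvhkUp.inter {s : PvIx → Option Bool} {A B : Set PvColT} (hA : PvhkUp s A) (hB : PvhkUp s B) : PvhkUp s (A ∩ B) :=
  fun c c' h hc => ⟨hA c c' h hc.1, hB c c' h hc.2⟩

theorem PvhkUp.union {s : PvIx → Option Bool} {A B : Set PvColT} (hA : PvhkUp s A) (hB : PvhkUp s B) : PvhkUp s (A ∪ B) :=
  fun c c' h hc => hc.elim (fun x => Or.inl (hA c c' h x)) fun x => Or.inr (hB c c' h x)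

theorem PvhkUp.univ (s : PvIx → Option Bool) : PvhkUp s univ := fun _ _ _ _ => mem_univ _

/-- **HARRIS, mixed order** -/
theorem pvhk_up_up (s : PvIx → Option Bool) {A B : Set PvColT} (mA : MeasurableSet A) (mB : MeasurableSet B) (uA : PvhkUp s A) (uB : PvhkUp s B) :
    pvCol A * pvCol B ≤ pvCol (A ∩ B) :=
  (pvhk_def s).up_up (PvfEv.of_meas mA) (PvfEv.of_meas mB) (fun c _ c' _ h hc => uA c c' h hc) fun c _ c' _ h hc => uB c c' h hc

theorem pvhk_up_list (s : PvIx → Option Bool) {κ : Type*} (l : List κ) (A : κ → Set PvColT) (mA : ∀ i ∈ l, MeasurableSet (A i)) (uA : ∀ i ∈ l, PvhkUp s (A i)) :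
    (l.map fun i => pvCol (A i)).prod ≤ pvCol {c | ∀ i ∈ l, c ∈ A i} :=
  (pvhk_def s).up_list l A (fun i hi => PvfEv.of_meas (mA i hi)) fun i hi c _ c' _ h hc => uA i hi c c' h hc

theorem pvhk_up_pow (s : PvIx → Option Bool) {κ : Type*} (l : List κ) (A : κ → Set PvColT) (mA : ∀ i ∈ l, MeasurableSet (A i)) (uA : ∀ i ∈ l, PvhkUp s (A i))
    {q : ℝ≥0∞} (hq : ∀ i ∈ l, q ≤ pvCol (A i)) : q ^ l.length ≤ pvCol {c | ∀ i ∈ l, c ∈ A i} := by
  refine le_trans ?_ (pvhk_up_list s l A mA uA)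
  have := List.pow_card_le_prod (l.map fun i => pvCol (A i)) q (by
    intro x hx
    obtain ⟨i, hi, rfl⟩ := List.mem_map.1 hx
    exact hq i hi)
  simpa using this

theorem pvhk_list_meas {κ : Type*} (l : List κ) (A : κ → Set PvColT) (mA : ∀ i ∈ l, MeasurableSet (A i)) : MeasurableSet {c | ∀ i ∈ l, c ∈ A i} := by
  induction l with
  | nil => simp
  | cons i l ih =>
    have e : {c | ∀ j ∈ i :: l, c ∈ A j} = A i ∩ {c | ∀ j ∈ l, c ∈ A j} := by ext c; simp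
    rw [e]
    exact (mA i List.mem_cons_self).inter (ih fun j hj => mA j (List.mem_cons_of_mem _ hj))

theorem pvhk_list_up {s : PvIx → Option Bool} {κ : Type*} (l : List κ) (A : κ → Set PvColT) (uA : ∀ i ∈ l, PvhkUp s (A i)) : PvhkUp s {c | ∀ i ∈ l, c ∈ A i} :=
  fun c c' h hc i hi => uA i hi c c' h (hc i hi)

/-! ## 2. events of configurations at a fixed geometry -/

/-- the colour section of `𝒜` at the geometry `g` is an up-set of the mixed order `s` -/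
def PvhkUpAt (g : PvGeoT) (s : PvIx → Option Bool) (𝒜 : Set (Conf PvPt)) : Prop := PvhkUp s {c | pvConf (pvMerge (g, c)) ∈ 𝒜}

open Classical in
/-- black is up on the sites of `Kb`, white is up on the sites of `Kw`, the other sites are not looked at -/
noncomputable def pvhkSg (g : PvGeoT) (Kb Kw : Set ℂ) (i : PvIx) : Option Bool :=
  if pvgSite g i ∈ Kb then some true else if pvgSite g i ∈ Kw then some false else none

theorem pvhk_eqns_cite2 : True := by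
  have := @PvhkUpAt.eq_1; have := @pvhkSg.eq_1
  trivial

theorem PvhkUpAt.inter {g : PvGeoT} {s : PvIx → Option Bool} {𝒜 ℬ : Set (Conf PvPt)} (hA : PvhkUpAt g s 𝒜) (hB : PvhkUpAt g s ℬ) : PvhkUpAt g s (𝒜 ∩ ℬ) :=
  PvhkUp.inter hA hB

theorem PvhkUpAt.union {g : PvGeoT} {s : PvIx → Option Bool} {𝒜 ℬ : Set (Conf PvPt)} (hA : PvhkUpAt g s 𝒜) (hB : PvhkUpAt g s ℬ) : PvhkUpAt g s (𝒜 ∪ ℬ) :=
  PvhkUp.union hA hB

/-- more black colours = a larger configuration -/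
theorem pvhk_PvLe (g : PvGeoT) {c c' : PvColT} (h : ∀ i, c i = true → c' i = true) : PvLe (pvConf (pvMerge (g, c))) (pvConf (pvMerge (g, c'))) := by
  constructor
  · intro v hv
    obtain ⟨i, hi, e⟩ := pvqu_mem_conf.1 hv
    have e1 : v = pvgSite g i := congrArg Prod.fst e
    have e2 : true = c i := congrArg Prod.snd e
    exact pvqu_mem_conf.2 ⟨i, hi, by rw [e1, h i e2.symm]⟩
  · intro v hv
    obtain ⟨i, hi, e⟩ := pvqu_mem_conf.1 hv
    have e1 : v = pvgSite g i := congrArg Prod.fst e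
    have e2 : false = c' i := congrArg Prod.snd e
    have e3 : c i = false := by
      by_contra hc
      have := h i (by simpa using hc)
      rw [this] at e2
      exact Bool.false_ne_true e2
    exact pvqu_mem_conf.2 ⟨i, hi, by rw [e1, e3]⟩

/-- an INCREASING event which at `g` looks only at the colours of the sites of `Kb` -/
theorem pvhk_up_black {g : PvGeoT} (hg : PvgOk g) (Kb Kw : Set ℂ) {𝒜 : Set (Conf PvPt)} (hinc : PvInc 𝒜)
    (hloc : PvDep {i | pvgSite g i ∈ Kb} {c | pvConf (pvMerge (g, c)) ∈ 𝒜}) : PvhkUpAt g (pvhkSg g Kb Kw) 𝒜 := by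
  classical
  intro c c' h hc
  let c'' : PvColT := fun i => if pvgSite g i ∈ Kb then c' i else c i
  have hle : ∀ i, c i = true → c'' i = true := by
    intro i hi
    by_cases hK : pvgSite g i ∈ Kb
    · have h1 := (h i).1 (by simp [pvhkSg, hK])
      simp only [c'', if_pos hK]
      rw [hi] at h1
      exact top_le_iff.1 h1
    · simp only [c'', if_neg hK]
      exact hi
  have h1 : pvConf (pvMerge (g, c'')) ∈ 𝒜 := hinc _ _ (hg.ok c).pvlf (hg.ok c'').pvlf (pvhk_PvLe g hle) hc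
  exact hloc c'' c' (fun i hi => if_pos hi) h1

/-- a DECREASING event which at `g` looks only at the colours of the sites of `Kw` -/
theorem pvhk_up_white {g : PvGeoT} (hg : PvgOk g) {Kb Kw : Set ℂ} (hd : Disjoint Kb Kw) {𝒜 : Set (Conf PvPt)} (hdec : PvDec 𝒜)
    (hloc : PvDep {i | pvgSite g i ∈ Kw} {c | pvConf (pvMerge (g, c)) ∈ 𝒜}) : PvhkUpAt g (pvhkSg g Kb Kw) 𝒜 := by
  classical
  intro c c' h hc
  let c'' : PvColT := fun i => if pvgSite g i ∈ Kw then c' i else c i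
  have hle : ∀ i, c'' i = true → c i = true := by
    intro i hi
    by_cases hK : pvgSite g i ∈ Kw
    · have hKb : pvgSite g i ∉ Kb := fun hb => Set.disjoint_left.1 hd hb hK
      have h1 := (h i).2 (by simp [pvhkSg, hK, hKb])
      simp only [c'', if_pos hK] at hi
      rw [hi] at h1
      exact top_le_iff.1 h1
    · simp only [c'', if_neg hK] at hi
      exact hi
  have h1 : pvConf (pvMerge (g, c'')) ∈ 𝒜 := hdec _ _ (hg.ok c'').pvlf (hg.ok c).pvlf (pvhk_PvLe g hle) hc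
  exact hloc c'' c' (fun i hi => if_pos hi) h1

/-- an event that does not look at the colours at all -/
theorem pvhk_up_geo {g : PvGeoT} (s : PvIx → Option Bool) {𝒜 : Set (Conf PvPt)}
    (h : ∀ c c', pvConf (pvMerge (g, c)) ∈ 𝒜 → pvConf (pvMerge (g, c')) ∈ 𝒜) : PvhkUpAt g s 𝒜 := fun c c' _ hc => h c c' hc

/-- **QUENCHED HARRIS, mixed order** -/
theorem pvhk_Qc_up_up {g : PvGeoT} (s : PvIx → Option Bool) {𝒜 ℬ : Set (Conf PvPt)} (mA : MeasurableSet (pvConf ⁻¹' 𝒜)) (mB : MeasurableSet (pvConf ⁻¹' ℬ))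
    (uA : PvhkUpAt g s 𝒜) (uB : PvhkUpAt g s ℬ) : pvQc 𝒜 g * pvQc ℬ g ≤ pvQc (𝒜 ∩ ℬ) g :=
  pvhk_up_up s (pvqu_section_meas mA g) (pvqu_section_meas mB g) uA uB

theorem pvhk_Qc_up_list {g : PvGeoT} (s : PvIx → Option Bool) {κ : Type*} (l : List κ) (𝒦 : κ → Set (Conf PvPt)) (m : ∀ i ∈ l, MeasurableSet (pvConf ⁻¹' 𝒦 i))
    (u : ∀ i ∈ l, PvhkUpAt g s (𝒦 i)) : (l.map fun i => pvQc (𝒦 i) g).prod ≤ pvQc {η | ∀ i ∈ l, η ∈ 𝒦 i} g :=
  pvhk_up_list s l (fun i => {c | pvConf (pvMerge (g, c)) ∈ 𝒦 i}) (fun i hi => pvqu_section_meas (m i hi) g) u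

/-- **a NETWORK**: `n` events, each of quenched probability `≥ q`, all up in one mixed order -/
theorem pvhk_Qc_net {g : PvGeoT} (s : PvIx → Option Bool) {κ : Type*} (l : List κ) (𝒦 : κ → Set (Conf PvPt)) (m : ∀ i ∈ l, MeasurableSet (pvConf ⁻¹' 𝒦 i))
    (u : ∀ i ∈ l, PvhkUpAt g s (𝒦 i)) {q : ℝ≥0∞} (hq : ∀ i ∈ l, q ≤ pvQc (𝒦 i) g) : q ^ l.length ≤ pvQc {η | ∀ i ∈ l, η ∈ 𝒦 i} g :=
  pvhk_up_pow s l (fun i => {c | pvConf (pvMerge (g, c)) ∈ 𝒦 i}) (fun i hi => pvqu_section_meas (m i hi) g) u hq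

theorem pvhk_net_meas {κ : Type*} (l : List κ) (𝒦 : κ → Set (Conf PvPt)) (m : ∀ i ∈ l, MeasurableSet (𝒦 i)) : MeasurableSet {η | ∀ i ∈ l, η ∈ 𝒦 i} := by
  induction l with
  | nil => simp
  | cons i l ih =>
    have e : {η | ∀ j ∈ i :: l, η ∈ 𝒦 j} = 𝒦 i ∩ {η | ∀ j ∈ l, η ∈ 𝒦 j} := by ext c; simp
    rw [e]
    exact (m i List.mem_cons_self).inter (ih fun j hj => m j (List.mem_cons_of_mem _ hj))

theorem pvhk_net_up {g : PvGeoT} {s : PvIx → Option Bool} {κ : Type*} (l : List κ) (𝒦 : κ → Set (Conf PvPt)) (u : ∀ i ∈ l, PvhkUpAt g s (𝒦 i)) :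
    PvhkUpAt g s {η | ∀ i ∈ l, η ∈ 𝒦 i} := fun c c' h hc i hi => u i hi c c' h (hc i hi)

/-! ## 3. a frozen state -/

/-- the section of `𝒜` at the state `σ` kept in `O` -/
def pvhkSec (O : Set PvPt) (σ : Conf PvPt) (𝒜 : Set (Conf PvPt)) : Set (Conf PvPt) := {η | Conf.spl O (σ, η) ∈ 𝒜}

theorem pvhk_eqns_cite3 : True := by
  have := @pvhkSec.eq_1
  trivial

theorem pvhk_sec_meas {O : Set PvPt} (hO : MeasurableSet O) (σ : Conf PvPt) {𝒜 : Set (Conf PvPt)} (h : MeasurableSet 𝒜) : MeasurableSet (pvhkSec O σ 𝒜) :=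
  ((Conf.measurable_spl hO).comp (measurable_const.prodMk measurable_id)) h

theorem pvhk_sec_inter (O : Set PvPt) (σ : Conf PvPt) (𝒜 ℬ : Set (Conf PvPt)) : pvhkSec O σ (𝒜 ∩ ℬ) = pvhkSec O σ 𝒜 ∩ pvhkSec O σ ℬ := rfl

theorem pvhk_sec_compl (O : Set PvPt) (σ : Conf PvPt) (𝒜 : Set (Conf PvPt)) : pvhkSec O σ 𝒜ᶜ = (pvhkSec O σ 𝒜)ᶜ := rfl

theorem pvhk_sec_mono (O : Set PvPt) (σ : Conf PvPt) {𝒜 ℬ : Set (Conf PvPt)} (h : 𝒜 ⊆ ℬ) : pvhkSec O σ 𝒜 ⊆ pvhkSec O σ ℬ := fun _ hη => h hη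

theorem pvhk_sec_list (O : Set PvPt) (σ : Conf PvPt) {κ : Type*} (l : List κ) (𝒦 : κ → Set (Conf PvPt)) :
    pvhkSec O σ {η | ∀ i ∈ l, η ∈ 𝒦 i} = {η | ∀ i ∈ l, η ∈ pvhkSec O σ (𝒦 i)} := rfl

theorem pvhk_P_apply (μ : Measure (Conf PvPt)) {O : Set PvPt} (hO : MeasurableSet O) (σ : Conf PvPt) {𝒜 : Set (Conf PvPt)} (h : MeasurableSet 𝒜) :
    pvtiP μ O 𝒜 σ = μ (pvhkSec O σ 𝒜) := by
  unfold pvtiP
  have e : (fun η => 𝒜.indicator (1 : Conf PvPt → ℝ≥0∞) (Conf.spl O (σ, η))) = (pvhkSec O σ 𝒜).indicator 1 := by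
    funext η
    by_cases hη : Conf.spl O (σ, η) ∈ 𝒜
    · rw [Set.indicator_of_mem hη, Set.indicator_of_mem (show η ∈ pvhkSec O σ 𝒜 from hη)]
      rfl
    · rw [Set.indicator_of_notMem hη, Set.indicator_of_notMem (show η ∉ pvhkSec O σ 𝒜 from hη)]
  rw [e, lintegral_indicator_one (pvhk_sec_meas hO σ h)]

/-- **the conditional probability given the state = the mean of the quenched probability of the section** -/
theorem pvhk_P_eq (ε : ℝ) {O : Set PvPt} (hO : MeasurableSet O) (σ : Conf PvPt) {𝒜 : Set (Conf PvPt)} (h : MeasurableSet 𝒜) :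
    pvtiP (pvP ε) O 𝒜 σ = ∫⁻ g, pvQc (pvhkSec O σ 𝒜) g ∂(pvGeo ε) := by
  rw [pvhk_P_apply _ hO σ h, pvqu_Qc_lintegral ε (pvhk_sec_meas hO σ h)]

theorem pvhk_P_mono (μ : Measure (Conf PvPt)) (O : Set PvPt) (σ : Conf PvPt) {𝒜 ℬ : Set (Conf PvPt)} (h : 𝒜 ⊆ ℬ) : pvtiP μ O 𝒜 σ ≤ pvtiP μ O ℬ σ := by
  unfold pvtiP
  exact lintegral_mono fun η => Set.indicator_le_indicator_of_subset h (fun _ => zero_le) _

/-- `P(𝒜 | σ) ≤ P(𝒜 ∩ ℰ | σ) + P(ℰᶜ | σ)` -/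
theorem pvhk_P_split (μ : Measure (Conf PvPt)) {O : Set PvPt} (hO : MeasurableSet O) (σ : Conf PvPt) {𝒜 ℰ : Set (Conf PvPt)} (mA : MeasurableSet 𝒜) (mE : MeasurableSet ℰ) :
    pvtiP μ O 𝒜 σ ≤ pvtiP μ O (𝒜 ∩ ℰ) σ + pvtiP μ O ℰᶜ σ := by
  rw [pvhk_P_apply μ hO σ mA, pvhk_P_apply μ hO σ (mA.inter mE), pvhk_P_apply μ hO σ mE.compl]
  refine le_trans (measure_mono ?_) (measure_union_le _ _)
  intro η hη
  by_cases hE : Conf.spl O (σ, η) ∈ ℰ
  · exact Or.inl ⟨hη, hE⟩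
  · exact Or.inr hE

/-- the splice with a locally finite state is monotone -/
theorem pvhk_spl_le (O : Set PvPt) (σ : Conf PvPt) {η η' : Conf PvPt} (h : PvLe η η') : PvLe (Conf.spl O (σ, η)) (Conf.spl O (σ, η')) := by
  rw [pvLe_iff_cle] at h ⊢
  exact Conf.cle_union (Conf.cle_refl _ _) (Conf.cle_restr _ h)

theorem pvhk_spl_lf (O : Set PvPt) {σ η : Conf PvPt} (hσ : PvLF σ) (hη : PvLF η) : PvLF (Conf.spl O (σ, η)) := by
  intro k
  refine ((hσ k).union (hη k)).subset ?_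
  rintro p ⟨hp, hk⟩
  rcases hp with hp | hp
  · exact Or.inl ⟨hp.1, hk⟩
  · exact Or.inr ⟨hp.1, hk⟩

theorem pvhk_sec_inc (O : Set PvPt) {σ : Conf PvPt} (hσ : PvLF σ) {𝒜 : Set (Conf PvPt)} (h : PvInc 𝒜) : PvInc (pvhkSec O σ 𝒜) :=
  fun η η' a b c d => h _ _ (pvhk_spl_lf O hσ a) (pvhk_spl_lf O hσ b) (pvhk_spl_le O σ c) d

theorem pvhk_sec_dec (O : Set PvPt) {σ : Conf PvPt} (hσ : PvLF σ) {𝒜 : Set (Conf PvPt)} (h : PvDec 𝒜) : PvDec (pvhkSec O σ 𝒜) :=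
  fun η η' a b c d => h _ _ (pvhk_spl_lf O hσ a) (pvhk_spl_lf O hσ b) (pvhk_spl_le O σ c) d

/-! ## 4. the abstract bridge -/

/-- `ℰ` is GEOMETRIC given the state: its section does not look at the colours -/
def PvhkGeo (O : Set PvPt) (σ : Conf PvPt) (ℰ : Set (Conf PvPt)) : Prop :=
  ∀ g c c', pvConf (pvMerge (g, c)) ∈ pvhkSec O σ ℰ → pvConf (pvMerge (g, c')) ∈ pvhkSec O σ ℰ

/-- the geometry `g` is good: the section of `ℰ` holds (for all colourings) -/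
def PvhkGood (O : Set PvPt) (σ : Conf PvPt) (ℰ : Set (Conf PvPt)) (g : PvGeoT) : Prop := ∀ c, pvConf (pvMerge (g, c)) ∈ pvhkSec O σ ℰ

theorem pvhk_eqns_cite4 : True := by
  have := @PvhkGeo.eq_1; have := @PvhkGood.eq_1
  trivial

/-- **THE ABSTRACT BRIDGE** (Lemma 3.3) -/
theorem pvhk_bridge (ε : ℝ) {O : Set PvPt} (hO : MeasurableSet O) {𝒜 𝒦 ℰ 𝒮 : Set (Conf PvPt)} (mA : MeasurableSet 𝒜) (mK : MeasurableSet 𝒦) (mE : MeasurableSet ℰ)
    (σ : Conf PvPt) {β q δ : ℝ≥0∞} (hA : β ≤ pvtiP (pvP ε) O 𝒜 σ) (hE : pvtiP (pvP ε) O ℰᶜ σ ≤ δ) (hgeo : PvhkGeo O σ ℰ)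
    (hH : ∀ᵐ g ∂(pvGeo ε), PvhkGood O σ ℰ g → q * pvQc (pvhkSec O σ 𝒜) g ≤ pvQc (pvhkSec O σ (𝒜 ∩ 𝒦)) g)
    (hS : 𝒜 ∩ 𝒦 ∩ ℰ ⊆ 𝒮) : q * (β - δ) ≤ pvtiP (pvP ε) O 𝒮 σ := by
  refine le_trans ?_ (pvhk_P_mono _ O σ hS)
  have h1 : β - δ ≤ pvtiP (pvP ε) O (𝒜 ∩ ℰ) σ := by
    rw [tsub_le_iff_right]
    exact hA.trans ((pvhk_P_split _ hO σ mA mE).trans (by gcongr))
  refine le_trans (by gcongr) ?_ (b := q * pvtiP (pvP ε) O (𝒜 ∩ ℰ) σ)
  rw [pvhk_P_eq ε hO σ (mA.inter mE), pvhk_P_eq ε hO σ ((mA.inter mK).inter mE),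
    ← lintegral_const_mul q (pvqu_Qc_meas (pvhk_sec_meas hO σ (mA.inter mE)))]
  refine lintegral_mono_ae ?_
  filter_upwards [hH] with g hg
  by_cases hgood : PvhkGood O σ ℰ g
  · have e1 : pvQc (pvhkSec O σ (𝒜 ∩ ℰ)) g = pvQc (pvhkSec O σ 𝒜) g := by
      rw [pvqu_Qc_eq, pvqu_Qc_eq]
      congr 1
      ext c
      exact ⟨fun h => h.1, fun h => ⟨h, hgood c⟩⟩
    have e2 : pvQc (pvhkSec O σ (𝒜 ∩ 𝒦 ∩ ℰ)) g = pvQc (pvhkSec O σ (𝒜 ∩ 𝒦)) g := by
      rw [pvqu_Qc_eq, pvqu_Qc_eq]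
      congr 1
      ext c
      exact ⟨fun h => h.1, fun h => ⟨h, hgood c⟩⟩
    rw [e1, e2]
    exact hg hgood
  · have e1 : pvQc (pvhkSec O σ (𝒜 ∩ ℰ)) g = 0 := by
      rw [pvqu_Qc_eq]
      have : {c | pvConf (pvMerge (g, c)) ∈ pvhkSec O σ (𝒜 ∩ ℰ)} = ∅ := by
        ext c
        simp only [mem_ofPred_eq, mem_empty_iff_false, iff_false]
        intro h
        exact hgood fun c' => hgeo g c c' h.2
      rw [this, measure_empty]
    rw [e1, mul_zero]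
    exact zero_le

/-- **THE BRIDGE WITH A NETWORK**: side tests `𝒜`, network `𝒦 i` (`i ∈ l`); on the good geometries everything is up in one mixed order and every piece of the network has quenched probability `≥ q` -/
theorem pvhk_bridge_net (ε : ℝ) {O : Set PvPt} (hO : MeasurableSet O) {𝒜 ℰ 𝒮 : Set (Conf PvPt)} {κ : Type*} (l : List κ) (𝒦 : κ → Set (Conf PvPt))
    (mA : MeasurableSet 𝒜) (mK : ∀ i ∈ l, MeasurableSet (𝒦 i)) (mE : MeasurableSet ℰ)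
    (σ : Conf PvPt) {β q δ : ℝ≥0∞} (hA : β ≤ pvtiP (pvP ε) O 𝒜 σ) (hE : pvtiP (pvP ε) O ℰᶜ σ ≤ δ) (hgeo : PvhkGeo O σ ℰ)
    (hup : ∀ᵐ g ∂(pvGeo ε), PvhkGood O σ ℰ g → ∃ s : PvIx → Option Bool, PvhkUpAt g s (pvhkSec O σ 𝒜) ∧ ∀ i ∈ l, PvhkUpAt g s (pvhkSec O σ (𝒦 i)))
    (hq : ∀ᵐ g ∂(pvGeo ε), PvhkGood O σ ℰ g → ∀ i ∈ l, q ≤ pvQc (pvhkSec O σ (𝒦 i)) g)
    (hS : 𝒜 ∩ {η | ∀ i ∈ l, η ∈ 𝒦 i} ∩ ℰ ⊆ 𝒮) : q ^ l.length * (β - δ) ≤ pvtiP (pvP ε) O 𝒮 σ := by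
  refine pvhk_bridge ε hO mA (pvhk_net_meas l 𝒦 mK) mE σ hA hE hgeo ?_ hS
  filter_upwards [hup, hq] with g h1 h2 hgood
  obtain ⟨s, uA, uK⟩ := h1 hgood
  have m' : ∀ i ∈ l, MeasurableSet (pvConf ⁻¹' pvhkSec O σ (𝒦 i)) := fun i hi => measurable_pvConf (pvhk_sec_meas hO σ (mK i hi))
  have hn := pvhk_Qc_net s l (fun i => pvhkSec O σ (𝒦 i)) m' uK (h2 hgood)
  have hh := pvhk_Qc_up_up s (measurable_pvConf (pvhk_sec_meas hO σ mA))
    (measurable_pvConf (pvhk_net_meas l (fun i => pvhkSec O σ (𝒦 i)) fun i hi => pvhk_sec_meas hO σ (mK i hi))) uA (pvhk_net_up l _ uK)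
  rw [pvhk_sec_inter, pvhk_sec_list]
  calc q ^ l.length * pvQc (pvhkSec O σ 𝒜) g ≤ pvQc {η | ∀ i ∈ l, η ∈ pvhkSec O σ (𝒦 i)} g * pvQc (pvhkSec O σ 𝒜) g := by gcongr
    _ = pvQc (pvhkSec O σ 𝒜) g * pvQc {η | ∀ i ∈ l, η ∈ pvhkSec O σ (𝒦 i)} g := mul_comm _ _
    _ ≤ _ := hh

/-! ## 5. the ANNEALED form: no quenched box crossing is needed -/

/-- the annealed mixed order: black points are up over `Nb`, white points are up over `Nw` (all other points are down) -/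
def pvhkK (Nb Nw : Set ℂ) : Set PvPt := {p | (p.1 ∈ Nb ∧ p.2 = true) ∨ (p.1 ∈ Nw ∧ p.2 = false)}

/-- up-sets of `Conf.cle K` on the locally finite configurations -/
def PvhkAUp (K : Set PvPt) (𝒜 : Set (Conf PvPt)) : Prop := PvfUp (Conf.cle K) {η | PvLF η} 𝒜

theorem pvhk_eqns_cite5 : True := by
  have := @pvhkK.eq_1; have := @PvhkAUp.eq_1
  trivial

theorem pvhk_K_meas {Nb Nw : Set ℂ} (hb : MeasurableSet Nb) (hw : MeasurableSet Nw) : MeasurableSet (pvhkK Nb Nw) :=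
  ((measurable_fst hb).inter (measurable_snd (measurableSet_singleton true))).union ((measurable_fst hw).inter (measurable_snd (measurableSet_singleton false)))

/-- annealed positive association for EVERY measurable set `K` of up-points (159) -/
theorem pvhk_ann_def (ε : ℝ) {K : Set PvPt} (hK : MeasurableSet K) : PvfDef (pvP ε) (Conf.cle K) {η | PvLF η} 0 :=
  pvf_fkg (pv_isPpp ε) hK pvf_dom_LF (pvcn_LF_ae ε)

theorem PvhkAUp.inter {K : Set PvPt} {𝒜 ℬ : Set (Conf PvPt)} (hA : PvhkAUp K 𝒜) (hB : PvhkAUp K ℬ) : PvhkAUp K (𝒜 ∩ ℬ) := PvfUp.inter hA hB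

theorem pvhk_restr_lf (W : Set PvPt) {η : Conf PvPt} (h : PvLF η) : PvLF (Conf.restr W η) :=
  fun k => (h k).subset fun _ hp => ⟨hp.1.1, hp.2⟩

/-- an INCREASING event read over `Nb` -/
theorem pvhk_aup_black {Nb Nw : Set ℂ} (hd : Disjoint Nb Nw) {𝒜 : Set (Conf PvPt)} (hinc : PvInc 𝒜) (hloc : Conf.ReadsSet (Prod.fst ⁻¹' Nb) 𝒜) :
    PvhkAUp (pvhkK Nb Nw) 𝒜 := by
  intro η hη ξ hξ h hA
  rw [← hloc] at hA ⊢
  refine hinc _ _ (pvhk_restr_lf _ hη) (pvhk_restr_lf _ hξ) ⟨?_, ?_⟩ hA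
  · intro v hv
    exact ⟨h.1 ⟨hv.1, Or.inl ⟨hv.2, rfl⟩⟩, hv.2⟩
  · intro v hv
    refine ⟨h.2 ⟨hv.1, ?_⟩, hv.2⟩
    rintro (h1 | h1)
    · exact Bool.false_ne_true h1.2
    · exact Set.disjoint_left.1 hd hv.2 h1.1

/-- a DECREASING event read over `Nw` -/
theorem pvhk_aup_white {Nb Nw : Set ℂ} (hd : Disjoint Nb Nw) {𝒜 : Set (Conf PvPt)} (hdec : PvDec 𝒜) (hloc : Conf.ReadsSet (Prod.fst ⁻¹' Nw) 𝒜) :
    PvhkAUp (pvhkK Nb Nw) 𝒜 := by
  intro η hη ξ hξ h hA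
  rw [← hloc] at hA ⊢
  refine hdec _ _ (pvhk_restr_lf _ hξ) (pvhk_restr_lf _ hη) ⟨?_, ?_⟩ hA
  · intro v hv
    refine ⟨h.2 ⟨hv.1, ?_⟩, hv.2⟩
    rintro (h1 | h1)
    · exact Set.disjoint_left.1 hd h1.1 hv.2
    · exact Bool.false_ne_true h1.2.symm
  · intro v hv
    exact ⟨h.1 ⟨hv.1, Or.inr ⟨hv.2, rfl⟩⟩, hv.2⟩

theorem pvhk_sec_aup (K O : Set PvPt) {σ : Conf PvPt} (hσ : PvLF σ) {𝒜 : Set (Conf PvPt)} (h : PvhkAUp K 𝒜) : PvhkAUp K (pvhkSec O σ 𝒜) :=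
  fun η hη ξ hξ hle hA => h _ (pvhk_spl_lf O hσ hη) _ (pvhk_spl_lf O hσ hξ) (Conf.cle_union (Conf.cle_refl _ _) (Conf.cle_restr _ hle)) hA

/-- **CONDITIONAL ANNEALED FKG given the state, mixed order** -/
theorem pvhk_ann_up_up (ε : ℝ) {K O : Set PvPt} (hK : MeasurableSet K) (hO : MeasurableSet O) {σ : Conf PvPt} (hσ : PvLF σ) {𝒜 ℬ : Set (Conf PvPt)}
    (mA : MeasurableSet 𝒜) (mB : MeasurableSet ℬ) (uA : PvhkAUp K 𝒜) (uB : PvhkAUp K ℬ) :
    pvtiP (pvP ε) O 𝒜 σ * pvtiP (pvP ε) O ℬ σ ≤ pvtiP (pvP ε) O (𝒜 ∩ ℬ) σ := by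
  have := (pv_isPpp ε).prob
  rw [pvhk_P_apply _ hO σ mA, pvhk_P_apply _ hO σ mB, pvhk_P_apply _ hO σ (mA.inter mB)]
  exact (pvhk_ann_def ε hK).up_up (PvfEv.of_meas (pvhk_sec_meas hO σ mA)) (PvfEv.of_meas (pvhk_sec_meas hO σ mB)) (pvhk_sec_aup K O hσ uA) (pvhk_sec_aup K O hσ uB)

theorem pvhk_ann_up_list (ε : ℝ) {K O : Set PvPt} (hK : MeasurableSet K) (hO : MeasurableSet O) {σ : Conf PvPt} (hσ : PvLF σ) {κ : Type*} (l : List κ)
    (𝒦 : κ → Set (Conf PvPt)) (m : ∀ i ∈ l, MeasurableSet (𝒦 i)) (u : ∀ i ∈ l, PvhkAUp K (𝒦 i)) :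
    (l.map fun i => pvtiP (pvP ε) O (𝒦 i) σ).prod ≤ pvtiP (pvP ε) O {η | ∀ i ∈ l, η ∈ 𝒦 i} σ := by
  have := (pv_isPpp ε).prob
  rw [pvhk_P_apply _ hO σ (pvhk_net_meas l 𝒦 m)]
  have e : (l.map fun i => pvtiP (pvP ε) O (𝒦 i) σ) = l.map fun i => pvP ε (pvhkSec O σ (𝒦 i)) :=
    List.map_congr_left fun i hi => pvhk_P_apply _ hO σ (m i hi)
  rw [e]
  exact (pvhk_ann_def ε hK).up_list l (fun i => pvhkSec O σ (𝒦 i)) (fun i hi => PvfEv.of_meas (pvhk_sec_meas hO σ (m i hi))) fun i hi => pvhk_sec_aup K O hσ (u i hi)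

/-- an event read off the state region is not affected by the state -/
theorem pvhk_P_of_disjoint (μ : Measure (Conf PvPt)) {O W : Set PvPt} (hW : Disjoint W O) (σ : Conf PvPt) {𝒜 : Set (Conf PvPt)} (mA : MeasurableSet 𝒜)
    (h : Conf.ReadsSet W 𝒜) : pvtiP μ O 𝒜 σ = μ 𝒜 := by
  unfold pvtiP
  have e : (fun η => 𝒜.indicator (1 : Conf PvPt → ℝ≥0∞) (Conf.spl O (σ, η))) = 𝒜.indicator 1 := by
    funext η
    exact (pvti_ind_reads (Conf.readsSet_iff_reads.1 h)).spl_right hW σ η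
  rw [e, lintegral_indicator_one mA]

/-- an event which reads `O ∪ C`: keeping more than `O`, but nothing of `C`, does not change its conditional probability -/
theorem pvhk_P_change (μ : Measure (Conf PvPt)) {O U C : Set PvPt} (hOU : O ⊆ U) (hC : Disjoint C U) (σ : Conf PvPt) {𝒜 : Set (Conf PvPt)}
    (h : Conf.ReadsSet (O ∪ C) 𝒜) : pvtiP μ U 𝒜 σ = pvtiP μ O 𝒜 σ := by
  unfold pvtiP
  exact lintegral_congr fun η => (pvti_ind_reads (Conf.readsSet_iff_reads.1 h)).spl_change hOU hC σ η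

/-- **THE ANNEALED BRIDGE** (Lemma 3.3 without quenched input): all events `𝒦 i` (side tests AND pieces of the network) are up in one annealed mixed order;
the non monotone event `ℰ` (mesh) is subtracted at the end -/
theorem pvhk_bridge_ann (ε : ℝ) {K O : Set PvPt} (hK : MeasurableSet K) (hO : MeasurableSet O) {σ : Conf PvPt} (hσ : PvLF σ) {κ : Type*} (l : List κ)
    (𝒦 : κ → Set (Conf PvPt)) (m : ∀ i ∈ l, MeasurableSet (𝒦 i)) (u : ∀ i ∈ l, PvhkAUp K (𝒦 i)) {ℰ 𝒮 : Set (Conf PvPt)} (mE : MeasurableSet ℰ) {δ : ℝ≥0∞}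
    (hE : pvtiP (pvP ε) O ℰᶜ σ ≤ δ) (hS : {η | ∀ i ∈ l, η ∈ 𝒦 i} ∩ ℰ ⊆ 𝒮) :
    (l.map fun i => pvtiP (pvP ε) O (𝒦 i) σ).prod - δ ≤ pvtiP (pvP ε) O 𝒮 σ := by
  refine le_trans ?_ (pvhk_P_mono _ O σ hS)
  rw [tsub_le_iff_right]
  exact (pvhk_ann_up_list ε hK hO hσ l 𝒦 m u).trans ((pvhk_P_split _ hO σ (pvhk_net_meas l 𝒦 m) mE).trans (by gcongr))

/-! ## 6. a frozen set of INDICES (A, B, C, C', D of helper165, `w1_165.md` sec. 8; valid for `σ` and for the exploration state `σ*`) -/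

/-- the law of the colours given that the colours of `Fz` are those of `a` -/
noncomputable def pvhkPa (Fz : Set PvIx) (a : PvColT) (E : Set PvColT) : ℝ≥0∞ := pvCol {x | pvfqMix Fz (a, x) ∈ E}

/-- black is up on `Vb`, white is up on `Vw`, nothing else is looked at -/
noncomputable def pvhkSv (Vb Vw : Set PvIx) (i : PvIx) : Option Bool := by
  classical exact if i ∈ Vb then some true else if i ∈ Vw then some false else none

theorem pvhk_eqns_cite6 : True := by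
  have := @pvhkPa.eq_1; have := @pvhkSv.eq_1
  trivial

theorem pvhk_Pa_meas (Fz : Set PvIx) (a : PvColT) {E : Set PvColT} (h : MeasurableSet E) : MeasurableSet {x | pvfqMix Fz (a, x) ∈ E} :=
  ((measurable_pvfqMix Fz).comp (measurable_const.prodMk measurable_id)) h

theorem pvhk_Pa_mono (Fz : Set PvIx) (a : PvColT) {E E' : Set PvColT} (h : E ⊆ E') : pvhkPa Fz a E ≤ pvhkPa Fz a E' := measure_mono fun _ hx => h hx

/-- the section of an event which reads `Fz ∪ V` reads `V` -/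
theorem pvhk_Pa_dep {Fz V : Set PvIx} (a : PvColT) {E : Set PvColT} (h : PvDep (Fz ∪ V) E) : PvDep V {x | pvfqMix Fz (a, x) ∈ E} := by
  intro x x' hx hE
  refine h _ _ (fun i hi => ?_) hE
  by_cases hF : i ∈ Fz
  · rw [pvfqMix_of_mem hF, pvfqMix_of_mem hF]
  · rw [pvfqMix_of_notMem hF, pvfqMix_of_notMem hF]
    exact hx i (hi.resolve_left hF)

/-- **A (split)** -/
theorem pvhk_Pa_split {Fz : Set PvIx} {Vb Vw : Finset PvIx} (hd : Disjoint Vb Vw) (a : PvColT) {Eb Ew : Set PvColT}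
    (hb : PvDep (Fz ∪ Vb) Eb) (hw : PvDep (Fz ∪ Vw) Ew) : pvhkPa Fz a (Eb ∩ Ew) = pvhkPa Fz a Eb * pvhkPa Fz a Ew :=
  pvqu_dep_indep hd (pvhk_Pa_dep a hb) (pvhk_Pa_dep a hw)

/-- an upper set which reads `Fz ∪ Vb`: its section is up in the mixed order -/
theorem pvhk_Pa_up_black {Fz Vb : Set PvIx} (Vw : Set PvIx) (a : PvColT) {E : Set PvColT} (hu : IsUpperSet E) (hr : PvDep (Fz ∪ Vb) E) :
    PvhkUp (pvhkSv Vb Vw) {x | pvfqMix Fz (a, x) ∈ E} := by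
  classical
  intro x x' h hx
  let x'' : PvColT := fun i => if i ∈ Vb then x' i else x i
  have hle : x ≤ x'' := by
    intro i
    by_cases hV : i ∈ Vb
    · simp only [x'', if_pos hV]
      exact (h i).1 (by simp [pvhkSv, hV])
    · simp only [x'', if_neg hV]
      exact le_rfl
  have h1 : pvfqMix Fz (a, x'') ∈ E := by
    refine hu (fun i => ?_) hx
    by_cases hF : i ∈ Fz
    · rw [pvfqMix_of_mem hF, pvfqMix_of_mem hF]
    · rw [pvfqMix_of_notMem hF, pvfqMix_of_notMem hF]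
      exact hle i
  exact pvhk_Pa_dep a hr x'' x' (fun i hi => if_pos hi) h1

/-- a lower set which reads `Fz ∪ Vw`: its section is up in the mixed order -/
theorem pvhk_Pa_up_white {Fz Vb Vw : Set PvIx} (hd : Disjoint Vb Vw) (a : PvColT) {E : Set PvColT} (hl : IsLowerSet E) (hr : PvDep (Fz ∪ Vw) E) :
    PvhkUp (pvhkSv Vb Vw) {x | pvfqMix Fz (a, x) ∈ E} := by
  classical
  intro x x' h hx
  let x'' : PvColT := fun i => if i ∈ Vw then x' i else x i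
  have hle : x'' ≤ x := by
    intro i
    by_cases hV : i ∈ Vw
    · have hVb : i ∉ Vb := fun hb => Set.disjoint_left.1 hd hb hV
      simp only [x'', if_pos hV]
      exact (h i).2 (by simp [pvhkSv, hV, hVb])
    · simp only [x'', if_neg hV]
      exact le_rfl
  have h1 : pvfqMix Fz (a, x'') ∈ E := by
    refine hl (fun i => ?_) hx
    by_cases hF : i ∈ Fz
    · rw [pvfqMix_of_mem hF, pvfqMix_of_mem hF]
    · rw [pvfqMix_of_notMem hF, pvfqMix_of_notMem hF]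
      exact hle i
  exact pvhk_Pa_dep a hr x'' x' (fun i hi => if_pos hi) h1

/-- **B (mixed Harris)** -/
theorem pvhk_Pa_harris {Fz Vb Vw : Set PvIx} (hd : Disjoint Vb Vw) (a : PvColT) {Ab Kb Aw Kw : Set PvColT}
    (mAb : MeasurableSet Ab) (mKb : MeasurableSet Kb) (mAw : MeasurableSet Aw) (mKw : MeasurableSet Kw)
    (uAb : IsUpperSet Ab) (uKb : IsUpperSet Kb) (lAw : IsLowerSet Aw) (lKw : IsLowerSet Kw)
    (rAb : PvDep (Fz ∪ Vb) Ab) (rKb : PvDep (Fz ∪ Vb) Kb) (rAw : PvDep (Fz ∪ Vw) Aw) (rKw : PvDep (Fz ∪ Vw) Kw) :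
    pvhkPa Fz a (Ab ∩ Aw) * pvhkPa Fz a Kb * pvhkPa Fz a Kw ≤ pvhkPa Fz a (Ab ∩ Aw ∩ Kb ∩ Kw) := by
  have u1 := pvhk_Pa_up_black Vw a uAb rAb
  have u2 := pvhk_Pa_up_black Vw a uKb rKb
  have u3 := pvhk_Pa_up_white hd a lAw rAw
  have u4 := pvhk_Pa_up_white hd a lKw rKw
  have h1 := pvhk_up_up (pvhkSv Vb Vw) ((pvhk_Pa_meas Fz a mAb).inter (pvhk_Pa_meas Fz a mAw)) (pvhk_Pa_meas Fz a mKb) (u1.inter u3) u2
  have h2 := pvhk_up_up (pvhkSv Vb Vw) (((pvhk_Pa_meas Fz a mAb).inter (pvhk_Pa_meas Fz a mAw)).inter (pvhk_Pa_meas Fz a mKb)) (pvhk_Pa_meas Fz a mKw)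
    ((u1.inter u3).inter u2) u4
  exact le_trans (mul_le_mul_left h1 _) h2

/-- **C (second half)**: an event which reads a set disjoint from `Fz` does not see the frozen colours -/
theorem pvhk_Pa_free {Fz V : Set PvIx} (hd : Disjoint V Fz) (a : PvColT) {K : Set PvColT} (h : PvDep V K) : pvhkPa Fz a K = pvCol K := by
  unfold pvhkPa
  congr 1
  ext x
  exact h.iff fun i hi => pvfqMix_of_notMem (Set.disjoint_left.1 hd hi) _

/-- **C' (cylinder coupling)** -/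
theorem pvhk_Pa_couple (Fz : Set PvIx) (a : PvColT) {K S : Set PvColT} (h : ∀ x ∈ K, pvfqMix Fz (a, x) ∈ S) : pvCol K ≤ pvhkPa Fz a S := measure_mono h

/-- **D (integration over the outside geometry)** -/
theorem pvhk_int {Ω : Type*} [MeasurableSpace Ω] (m : Measure Ω) {f g : Ω → ℝ≥0∞} (hf : AEMeasurable f m) (hf1 : ∀ ω, f ω ≤ 1) {E : Set Ω} (mE : MeasurableSet E) {q : ℝ≥0∞}
    (h : ∀ᵐ ω ∂m, ω ∈ E → q * f ω ≤ g ω) : q * (∫⁻ ω, f ω ∂m - m Eᶜ) ≤ ∫⁻ ω, g ω ∂m := by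
  have h1 : ∫⁻ ω, f ω ∂m ≤ ∫⁻ ω, E.indicator f ω ∂m + m Eᶜ := by
    have hm : AEMeasurable (Eᶜ.indicator (1 : Ω → ℝ≥0∞)) m := (measurable_one.indicator mE.compl).aemeasurable
    rw [← lintegral_indicator_one mE.compl, ← lintegral_add_right' _ hm]
    refine lintegral_mono fun ω => ?_
    by_cases hω : ω ∈ E
    · simp [hω]
    · simp [hω, hf1 ω]
  have h2 : q * ∫⁻ ω, E.indicator f ω ∂m ≤ ∫⁻ ω, g ω ∂m := by
    rw [← lintegral_const_mul'' q (hf.indicator mE)]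
    refine lintegral_mono_ae ?_
    filter_upwards [h] with ω hω
    by_cases hE : ω ∈ E
    · simpa [hE] using hω hE
    · simp [hE]
  refine le_trans ?_ h2
  gcongr
  exact tsub_le_iff_right.2 h1

end Claimed.Agent.R289
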