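import Claimed.Agent.R289.Tr.CellNum
import Claimed.Agent.R289.Tr.Hook

/-!
# Row 289 (S0537), THE WALL, file Tr/Plug : THE CELL KIT INSTANCE, PART 1 = SOFT LOCALISATION (model free) + THE KIT OF A GLOBAL DATUM      (pen helper34; posts of 243 09:26Z, 82 09:33Z; prefix `pvpg_`, `pvpg`, `Pvpg`)

CONSUMER: `PvcnOk`, `PvcnFam` of 52 (`Tr/CellNum.lean`) over `PvthKit` of 251 (`Tr/CellHex.lean`): the fields `W A CA A_bdd cell_a rel_lim` of `PvhbNum` / `PvxAna`; the SAME kit is cited by `n1` (170), `cyc1 thick` (129 58).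

THREE FORMAL OBSTACLES of an instance of `PvthKit`:
 (a) `Conf.Reads W f` is asked at ALL configurations, also at the FINITE configuration `restr W η`, where the Delaunay plane `delbPl` is junk: "there is a gate in the plane map" does NOT read `O`;
 (b) `PvthKit.Forced.frc` is POINTWISE in the pair of states (also when `σ|O ∪ σ|O'` is not in general position: no good completion at all);
 (c) measurability of "for all completions".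
THE CURES (sec. 1-3, model free: any `IsPpp m μ`):
 (1) **SOFT LOCALISATION**      `pvpgSure μ W M = {σ | P(M | σ|W) = 1}`,   `pvpgThr μ W H b = {σ | b ≤ P(H | σ|W)}`,   `pvpgLoc μ W F σ = ∫ F (spl W (σ, ξ)) dμ(ξ)`:  measurable and READ FROM `W` for free.
      `Sure ⊆ M` a.e. always (`pvpg_sure_ae`);   `M ⊆ Sure` a.e. if `M` is A.S. LOCAL (`PvpgLocal`: `η ∈ M → spl W (η, ξ) ∈ M` for a.e. pair; in the model = a DETERMINISTIC lemma on two nice configurations which agree on `W`).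
 (2) **FORCED BY CONSTRUCTION**      `pvpgFix μ OO G2 A q = A ∪ {σ ∈ G2 | P(A | σ|OO) < q}`:  `q ≤ P(Fix | σ|OO)` at EVERY `σ ∈ G2` (`pvpg_fix_forced`);   the added set is null as soon as the bound holds a.e. (`pvpg_fix_ae`).
 (3) **SOFT ADMISSION**      `μ (H \ Thr μ W H b) ≤ b` (`pvpg_thr_le`): no independence.
THE KIT (sec. 4-6):  `𝔊 : PvpgGlob` = GLOBAL events and fields in the reference frame (door `0`, direction `1`): plug `C`, half lanes `H i`, links `A τ`, mass `XQ τ`, cut point `ζ`.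
 `𝔊.kit μ b q : PvthKit`,  `𝔊.fQ μ`, `𝔊.fV μ`, `𝔊.f μ`  (`XV` = TELESCOPED BY DEFINITION).      `PvpgGlob.Ok` = what the model owes (a.e. statements on GLOBAL objects only).      **`pvpg_ok`** : `𝔊.Ok .. → PvcnOk (𝔊.kit ..) ..`,  **`pvpg_tail`**.
-/

set_option autoImplicit false
set_option linter.unusedSectionVars false
set_option linter.unusedVariables false

namespace Claimed.Agent.R289

open MeasureTheory ProbabilityTheory Set Filter Topology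
open scoped ENNReal NNReal

/-! ## 1. soft localisation of events -/

section soft

variable {E : Type*} [MeasurableSpace E] {m : Measure E} {μ : Measure (Conf E)} {W O : Set E} {M M' H A G2 : Set (Conf E)}

/-- `M` is SURE given the restriction to `W` -/
def pvpgSure (μ : Measure (Conf E)) (W : Set E) (M : Set (Conf E)) : Set (Conf E) := {σ | pvtiP μ W M σ = 1}

/-- the conditional probability of `H` given the restriction to `W` is at least `b` -/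
def pvpgThr (μ : Measure (Conf E)) (W : Set E) (H : Set (Conf E)) (b : ℝ≥0∞) : Set (Conf E) := {σ | b ≤ pvtiP μ W H σ}

/-- **A.S. LOCALITY**: resampling off `W` does not leave `M` -/
def PvpgLocal (μ : Measure (Conf E)) (W : Set E) (M : Set (Conf E)) : Prop := ∀ᵐ p ∂(μ.prod μ), p.1 ∈ M → Conf.spl W p ∈ M

/-- the forced completion of the event `A` over the pairs of states `G2` -/
def pvpgFix (μ : Measure (Conf E)) (OO : Set E) (G2 A : Set (Conf E)) (q : ℝ≥0∞) : Set (Conf E) := A ∪ {σ | σ ∈ G2 ∧ pvtiP μ OO A σ < q}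

theorem pvpg_eqns_cite : True := by
  have := @pvpgSure.eq_1.{0}; have := @pvpgThr.eq_1.{0}; have := @PvpgLocal.eq_1.{0}; have := @pvpgFix.eq_1.{0}
  trivial

theorem pvpg_sure_meas [SFinite μ] (hW : MeasurableSet W) (hM : MeasurableSet M) : MeasurableSet (pvpgSure μ W M) :=
  (pvti_P_measurable hW hM) (measurableSet_singleton 1)

theorem pvpg_thr_meas [SFinite μ] (hW : MeasurableSet W) (hH : MeasurableSet H) (b : ℝ≥0∞) : MeasurableSet (pvpgThr μ W H b) :=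
  (pvti_P_measurable hW hH) measurableSet_Ici

theorem pvpg_sure_reads (μ : Measure (Conf E)) (W : Set E) (M : Set (Conf E)) : Conf.Reads W (fun η => η ∈ pvpgSure μ W M) :=
  (pvti_P_reads μ W M).comp (fun x => x = 1)

theorem pvpg_thr_reads (μ : Measure (Conf E)) (W : Set E) (H : Set (Conf E)) (b : ℝ≥0∞) : Conf.Reads W (fun η => η ∈ pvpgThr μ W H b) :=
  (pvti_P_reads μ W H).comp (fun x => b ≤ x)

/-- the master identity: `∫ 1_R(σ) P(M | σ) = μ (R ∩ M)` for `R` read from `W`.      Plan: `IsPpp.lintegral_spl` for `1_R 1_M`; `1_R (spl W (σ, ξ)) = 1_R σ` (`Conf.Reads.spl_left`). -/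
theorem pvpg_master (h : IsPpp m μ) (hW : MeasurableSet W) {R : Set (Conf E)} (hR : MeasurableSet R) (hRr : Conf.Reads W (fun η => η ∈ R)) (hM : MeasurableSet M) :
    ∫⁻ σ in R, pvtiP μ W M σ ∂μ = μ (R ∩ M) := by
  have e1 : μ (R ∩ M) = ∫⁻ η, (R ∩ M).indicator 1 η ∂μ := (lintegral_indicator_one (hR.inter hM)).symm
  rw [e1, h.lintegral_spl hW (measurable_one.indicator (hR.inter hM)), ← lintegral_indicator hR]
  refine lintegral_congr fun σ => ?_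
  by_cases hσ : σ ∈ R
  · rw [Set.indicator_of_mem hσ]
    unfold pvtiP
    refine lintegral_congr fun η => ?_
    have hs : Conf.spl W (σ, η) ∈ R := by
      have := hRr.spl_left Subset.rfl σ η
      exact this ▸ hσ
    by_cases hm : Conf.spl W (σ, η) ∈ M
    · have hm2 : Conf.spl W (σ, η) ∈ R ∩ M := ⟨hs, hm⟩
      rw [Set.indicator_of_mem hm, Set.indicator_of_mem hm2]
    · have hm2 : Conf.spl W (σ, η) ∉ R ∩ M := fun hc => hm hc.2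
      rw [Set.indicator_of_notMem hm, Set.indicator_of_notMem hm2]
  · rw [Set.indicator_of_notMem hσ]
    symm
    have hz : ∀ η, (R ∩ M).indicator (1 : Conf E → ℝ≥0∞) (Conf.spl W (σ, η)) = 0 := by
      intro η
      have hs : Conf.spl W (σ, η) ∉ R := by
        have := hRr.spl_left Subset.rfl σ η
        intro hc
        exact hσ (this ▸ hc)
      have hm2 : Conf.spl W (σ, η) ∉ R ∩ M := fun hc => hs hc.1
      exact Set.indicator_of_notMem hm2 _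
    simp only [hz, lintegral_zero]

/-- `Sure ⊆ M` almost everywhere.      Plan: `pvpg_master` with `R = Sure`: `μ (Sure ∩ M) = ∫_Sure 1 = μ Sure`. -/
theorem pvpg_sure_ae (h : IsPpp m μ) (hW : MeasurableSet W) (hM : MeasurableSet M) : ∀ᵐ η ∂μ, η ∈ pvpgSure μ W M → η ∈ M := by
  have := h.prob
  have hS : MeasurableSet (pvpgSure μ W M) := pvpg_sure_meas hW hM
  have e1 := pvpg_master h hW hS (pvpg_sure_reads μ W M) hM
  have e2 : ∫⁻ σ in pvpgSure μ W M, pvtiP μ W M σ ∂μ = μ (pvpgSure μ W M) := by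
    rw [setLIntegral_congr_fun hS (g := fun _ => 1) (fun σ hσ => hσ), setLIntegral_one]
  have e3 := measure_inter_add_sdiff (μ := μ) (pvpgSure μ W M) hM
  rw [← e1, e2] at e3
  have e4 : μ (pvpgSure μ W M \ M) = 0 := by
    have hfin : μ (pvpgSure μ W M) ≠ ∞ := measure_ne_top _ _
    have h5 : μ (pvpgSure μ W M) + μ (pvpgSure μ W M \ M) = μ (pvpgSure μ W M) + 0 := by rw [e3, add_zero]
    exact (ENNReal.add_right_inj hfin).1 h5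
  filter_upwards [measure_eq_zero_iff_ae_notMem.1 e4] with η hη h1
  by_contra h2
  exact hη ⟨h1, h2⟩

/-- `M ⊆ Sure` almost everywhere for an a.s. local event.      Plan: Fubini (`Measure.ae_ae_of_ae_prod`): for a.e. `σ`, for a.e. `ξ`, `σ ∈ M → spl W (σ, ξ) ∈ M`; so `pvtiP = ∫ 1 = 1`. -/
theorem pvpg_local_ae (h : IsPpp m μ) (hW : MeasurableSet W) (hM : MeasurableSet M) (hl : PvpgLocal μ W M) : ∀ᵐ η ∂μ, η ∈ M → η ∈ pvpgSure μ W M := by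
  have := h.prob
  filter_upwards [Measure.ae_ae_of_ae_prod hl] with σ hσ hm
  show pvtiP μ W M σ = 1
  unfold pvtiP
  rw [lintegral_congr_ae (g := fun _ => 1) (by
    filter_upwards [hσ] with ξ hξ
    exact Set.indicator_of_mem (hξ hm) _)]
  simp

/-- **SOFT ADMISSION**.      Plan: `pvpg_master` with `R = (Thr)ᶜ`: `μ (R ∩ H) = ∫_R P(H | σ) ≤ b μ R ≤ b`. -/
theorem pvpg_thr_le (h : IsPpp m μ) (hW : MeasurableSet W) (hH : MeasurableSet H) (b : ℝ≥0∞) : μ (H \ pvpgThr μ W H b) ≤ b := by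
  have := h.prob
  have hT : MeasurableSet (pvpgThr μ W H b) := pvpg_thr_meas hW hH b
  have hr : Conf.Reads W (fun η => η ∈ (pvpgThr μ W H b)ᶜ) := (pvpg_thr_reads μ W H b).comp Not
  have e1 := pvpg_master h hW hT.compl hr hH
  have e2 : H \ pvpgThr μ W H b = (pvpgThr μ W H b)ᶜ ∩ H := by
    ext η; exact ⟨fun hh => ⟨hh.2, hh.1⟩, fun hh => ⟨hh.2, hh.1⟩⟩
  rw [e2, ← e1]
  calc ∫⁻ σ in (pvpgThr μ W H b)ᶜ, pvtiP μ W H σ ∂μ ≤ ∫⁻ _σ in (pvpgThr μ W H b)ᶜ, b ∂μ :=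
        setLIntegral_mono' hT.compl fun σ hσ => le_of_lt (not_le.1 hσ)
    _ = b * μ (pvpgThr μ W H b)ᶜ := setLIntegral_const _ _
    _ ≤ b * 1 := by gcongr; exact prob_le_one
    _ = b := mul_one b

/-- conditional probabilities of a.e. equal events are a.e. equal.      Plan: `IsPpp.lintegral_spl` for the indicator of the symmetric difference: `∫ P(M Δ M' | σ) = 0`. -/
theorem pvpg_P_congr_ae (h : IsPpp m μ) (hW : MeasurableSet W) (hM : MeasurableSet M) (hM' : MeasurableSet M') (he : ∀ᵐ η ∂μ, η ∈ M ↔ η ∈ M') :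
    ∀ᵐ σ ∂μ, pvtiP μ W M σ = pvtiP μ W M' σ := by
  filter_upwards [h.ae_ae_splice hW he] with σ hσ
  unfold pvtiP
  refine lintegral_congr_ae ?_
  filter_upwards [hσ] with ξ hξ
  have hξ' : Conf.spl W (σ, ξ) ∈ M ↔ Conf.spl W (σ, ξ) ∈ M' := hξ
  by_cases hm : Conf.spl W (σ, ξ) ∈ M
  · rw [Set.indicator_of_mem hm, Set.indicator_of_mem (hξ'.1 hm)]
  · rw [Set.indicator_of_notMem hm, Set.indicator_of_notMem (fun hc => hm (hξ'.2 hc))]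

theorem pvpg_fix_meas [SFinite μ] (hO : MeasurableSet O) (hG : MeasurableSet G2) (hA : MeasurableSet A) (q : ℝ≥0∞) : MeasurableSet (pvpgFix μ O G2 A q) :=
  hA.union (hG.inter ((pvti_P_measurable hO hA) measurableSet_Iio))

/-- the forced completion reads what `A` reads.      Plan: `A` reads `W`; `G2` and `pvtiP μ O A` read `O ⊆ W` (`Conf.Reads.mono`); `Conf.Reads.map₂`. -/
theorem pvpg_fix_reads (hOW : O ⊆ W) (hG : Conf.Reads O (fun η => η ∈ G2)) (hA : Conf.Reads W (fun η => η ∈ A)) (q : ℝ≥0∞) :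
    Conf.Reads W (fun η => η ∈ pvpgFix μ O G2 A q) := by
  intro η
  have a1 : (Conf.restr W η ∈ A) = (η ∈ A) := hA η
  have a2 : (Conf.restr W η ∈ G2) = (η ∈ G2) := (hG.mono hOW) η
  have a3 : pvtiP μ O A (Conf.restr W η) = pvtiP μ O A η := ((pvti_P_reads μ O A).mono hOW) η
  show ((Conf.restr W η ∈ A) ∨ (Conf.restr W η ∈ G2 ∧ pvtiP μ O A (Conf.restr W η) < q)) = ((η ∈ A) ∨ (η ∈ G2 ∧ pvtiP μ O A η < q))
  rw [a1, a2, a3]

/-- **FORCED BY CONSTRUCTION**, at EVERY pair of states.      Plan: if `q ≤ P(A | σ)`: monotonicity (`pvhk_P_mono`-type).   Else every `spl O (σ, ξ)` lies in the added set (it reads `O`): the conditional probability is `1`. -/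
theorem pvpg_fix_forced [IsProbabilityMeasure μ] (hG : Conf.Reads O (fun η => η ∈ G2)) {q : ℝ≥0∞} (hq : q ≤ 1) {σ : Conf E} (hσ : σ ∈ G2) :
    q ≤ pvtiP μ O (pvpgFix μ O G2 A q) σ := by
  by_cases hc : q ≤ pvtiP μ O A σ
  · refine hc.trans ?_
    unfold pvtiP
    refine lintegral_mono fun ξ => ?_
    exact Set.indicator_le_indicator_of_subset Set.subset_union_left (fun _ => zero_le) _
  · have hall : ∀ ξ, Conf.spl O (σ, ξ) ∈ pvpgFix μ O G2 A q := by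
      intro ξ
      refine Or.inr ⟨?_, ?_⟩
      · have h1 := hG.spl_left (Set.Subset.refl _) σ ξ
        exact h1.mpr hσ
      · rw [(pvti_P_reads μ O A).spl_left (Set.Subset.refl _) σ ξ]
        exact not_le.1 hc
    unfold pvtiP
    have h2 : ∀ ξ, (pvpgFix μ O G2 A q).indicator (1 : Conf E → ℝ≥0∞) (Conf.spl O (σ, ξ)) = 1 := fun ξ => Set.indicator_of_mem (hall ξ) _
    simp only [h2, lintegral_const, measure_univ, mul_one]
    exact hq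

/-- the added set is null as soon as the bound holds almost everywhere -/
theorem pvpg_fix_ae {q : ℝ≥0∞} (hf : ∀ᵐ σ ∂μ, σ ∈ G2 → q ≤ pvtiP μ O A σ) : ∀ᵐ η ∂μ, η ∈ pvpgFix μ O G2 A q → η ∈ A := by
  filter_upwards [hf] with η h1 h2
  rcases h2 with h2 | ⟨h2, h3⟩
  · exact h2
  · exact absurd (h1 h2) (not_le.2 h3)

/-! ## 2. soft localisation of functions -/

/-- the mean of `F` over the resampling off `W` -/
noncomputable def pvpgLoc (μ : Measure (Conf E)) (W : Set E) (F : Conf E → ℂ) (σ : Conf E) : ℂ := ∫ ξ, F (Conf.spl W (σ, ξ)) ∂μ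

theorem pvpg_eqns_cite2 : True := by
  have := @pvpgLoc.eq_1.{0}
  trivial

/-- Plan: `(hF.comp (Conf.measurable_spl hW)).stronglyMeasurable.integral_prod_right'`. -/
theorem pvpg_loc_meas [SFinite μ] (hW : MeasurableSet W) {F : Conf E → ℂ} (hF : Measurable F) : Measurable (pvpgLoc μ W F) := by
  have h1 : Measurable (fun p : Conf E × Conf E => F (Conf.spl W p)) := hF.comp (Conf.measurable_spl hW)
  exact (h1.stronglyMeasurable.integral_prod_right').measurable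

theorem pvpg_loc_reads (μ : Measure (Conf E)) (W : Set E) (F : Conf E → ℂ) : Conf.Reads W (pvpgLoc μ W F) := fun σ => by
  unfold pvpgLoc
  simp_rw [Conf.spl_restr]

/-- Plan: `norm_integral_le_of_norm_le_const`. -/
theorem pvpg_loc_bound [IsProbabilityMeasure μ] {F : Conf E → ℂ} {B : ℝ} (hB : ∀ η, ‖F η‖ ≤ B) (σ : Conf E) : ‖pvpgLoc μ W F σ‖ ≤ B := by
  unfold pvpgLoc
  have := norm_integral_le_of_norm_le_const (μ := μ) (f := fun ξ => F (Conf.spl W (σ, ξ))) (C := B) (Eventually.of_forall fun ξ => hB _)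
  simpa using this

/-- `Loc F = F` a.e. on an event where `F` is a.s. local.      Plan: Fubini; the integrand is a.e. the constant `F σ`; `integral_const`, `μ univ = 1`. -/
theorem pvpg_loc_ae (h : IsPpp m μ) (hW : MeasurableSet W) {F : Conf E → ℂ} (hl : ∀ᵐ p ∂(μ.prod μ), p.1 ∈ M → F (Conf.spl W p) = F p.1) :
    ∀ᵐ η ∂μ, η ∈ M → pvpgLoc μ W F η = F η := by
  have := h.prob
  filter_upwards [Measure.ae_ae_of_ae_prod hl] with η hη hM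
  unfold pvpgLoc
  have h1 : (fun ξ => F (Conf.spl W (η, ξ))) =ᵐ[μ] fun _ => F η := by
    filter_upwards [hη] with ξ hξ
    exact hξ hM
  rw [integral_congr_ae h1, integral_const]
  simp

end soft

/-! ## 3. the global datum and its kit -/

/-- **GLOBAL DATUM OF A CELL KIT**, reference frame (door `0`, direction `1`, cell `[0,δ] × [-δ/2, δ/2]`).      All events and functions are GLOBAL (they may look at the whole configuration: plane map, `DelGood`, ..). -/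
structure PvpgGlob where
  /-- side of the cells -/
  δ : ℝ
  /-- region of the door plug -/
  O₀ : Set ℂ
  /-- exterior region of the connector -/
  K₀ : PvtTurn → Set ℂ
  /-- the plug: nice configuration, mesh, THE gate of the door with its inner strand -/
  C : Set (Conf PvPt)
  /-- the four half lanes `Hb⁺ Hw⁺ Hb⁻ Hw⁻` of the plug -/
  H : Fin 4 → Set (Conf PvPt)
  /-- the link of shape `τ` from the plug at the door `0` to the plug at the exit door -/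
  A : PvtTurn → Set (Conf PvPt)
  /-- the `Q`-mass of the link in the mask of the cell -/
  XQ : PvtTurn → Conf PvPt → ℂ
  /-- the cut point of the plug -/
  ζ : Conf PvPt → ℂ

namespace PvpgGlob

variable (𝔊 : PvpgGlob) (μ : Measure (Conf PvPt)) (b q : ℝ≥0∞)

/-- the regions only -/
def pre : PvthKit := ⟨𝔊.δ, 𝔊.O₀, 𝔊.K₀, ∅, fun _ => ∅⟩

/-- the window of the link of shape `τ` -/
noncomputable def win (τ : PvtTurn) : Set PvPt := 𝔊.pre.OO 0 1 τ ∪ 𝔊.pre.K 0 1 τ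

/-- **usable states**: the plug is sure, the four half lanes have propensity `≥ b` -/
noncomputable def G₀ : Set (Conf PvPt) := pvpgSure μ (𝔊.pre.O 0 1) 𝔊.C ∩ ⋂ i, pvpgThr μ (𝔊.pre.O 0 1) (𝔊.H i) b

/-- both plugs of the reference cell of shape `τ` are usable -/
noncomputable def G2 (τ : PvtTurn) : Set (Conf PvPt) := 𝔊.G₀ μ b ∩ cfMap (pvthInv (𝔊.pre.zo 0 1 τ) τ.rot) ⁻¹' 𝔊.G₀ μ b

/-- **success of the connector**: the link is sure given its window; forced by construction -/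
noncomputable def A₀ (τ : PvtTurn) : Set (Conf PvPt) := pvpgFix μ (𝔊.pre.OO 0 1 τ) (𝔊.G2 μ b τ) (pvpgSure μ (𝔊.win τ) (𝔊.A τ)) q

/-- **THE KIT** -/
noncomputable def kit : PvthKit := ⟨𝔊.δ, 𝔊.O₀, 𝔊.K₀, 𝔊.G₀ μ b, 𝔊.A₀ μ b q⟩

/-- the field `Q` -/
noncomputable def fQ (τ : PvtTurn) : Conf PvPt → ℂ := pvpgLoc μ (𝔊.win τ) (𝔊.XQ τ)

/-- the cut point -/
noncomputable def f : Conf PvPt → ℂ := pvpgLoc μ (𝔊.pre.O 0 1) 𝔊.ζ

/-- the field `V`: TELESCOPED BY DEFINITION -/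
noncomputable def fV (τ : PvtTurn) (η : Conf PvPt) : ℂ :=
  (𝔊.pre.zo 0 1 τ + τ.rot * 𝔊.f μ (cfMap (pvthInv (𝔊.pre.zo 0 1 τ) τ.rot) η)) - 𝔊.f μ η

/-- the global event placed at `(z, d)` -/
noncomputable def Cp (z d : ℂ) : Set (Conf PvPt) := cfMap (pvthInv z d) ⁻¹' 𝔊.C

/-- the global link placed at `(z, d)` -/
noncomputable def Ap (z d : ℂ) (τ : PvtTurn) : Set (Conf PvPt) := cfMap (pvthInv z d) ⁻¹' 𝔊.A τ

/-- all the GLOBAL plugs and links of the word `l` started at `(z, d)` -/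
noncomputable def EvG (z d : ℂ) (l : List PvtTurn) : Set (Conf PvPt) :=
  {η | ∀ j < l.length, η ∈ 𝔊.Cp (pvthZ 𝔊.δ z d l j) (pvthD d l j) ∧ η ∈ 𝔊.Ap (pvthZ 𝔊.δ z d l j) (pvthD d l j) (pvthL l j)}

/-- **WHAT THE MODEL OWES** at the mesh `ε`: statements on the GLOBAL objects, almost everywhere -/
structure Ok (ε : ℝ) (b q β' : ℝ≥0∞) (CB r : ℝ) : Prop where
  /-- [GEO] the regions -/
  ref : PvccKitRef 𝔊.pre r
  mO : MeasurableSet 𝔊.O₀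
  mK : ∀ τ, MeasurableSet (𝔊.K₀ τ)
  /-- [MEAS] global measurability on `Conf PvPt` -/
  mC : MeasurableSet 𝔊.C
  mH : ∀ i, MeasurableSet (𝔊.H i)
  mA : ∀ τ, MeasurableSet (𝔊.A τ)
  mX : ∀ τ, Measurable (𝔊.XQ τ)
  mζ : Measurable 𝔊.ζ
  /-- the cut point stays in the plug -/
  ζ_le : ∀ η, ‖𝔊.ζ η‖ ≤ 𝔊.δ
  /-- [LOC] a.s. locality (deterministic in the model: two nice configurations which agree on the window) -/
  lC : PvpgLocal (pvP ε) (𝔊.pre.O 0 1) 𝔊.C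
  lA : ∀ τ, PvpgLocal (pvP ε) (𝔊.win τ) (𝔊.A τ)
  lX : ∀ τ, ∀ᵐ p ∂((pvP ε).prod (pvP ε)), p.1 ∈ 𝔊.A τ → 𝔊.XQ τ (Conf.spl (𝔊.win τ) p) = 𝔊.XQ τ p.1
  /-- the constants -/
  b0 : b ≠ 0
  q0 : q ≠ 0
  q1 : q ≤ 1
  β0 : β' ≠ 0
  /-- [ADM] the explicit construction: a gate with its four half lanes -/
  adm : β' + 4 * b ≤ pvP ε (𝔊.C ∩ ⋂ i, 𝔊.H i)
  /-- [FRC] the bridge, for almost every pair of usable states: conditional probability of the GLOBAL link given the two plug regions -/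
  frc : ∀ τ, ∀ᵐ σ ∂(pvP ε), σ ∈ 𝔊.G2 (pvP ε) b τ → q ≤ pvtiP (pvP ε) (𝔊.pre.OO 0 1 τ) (𝔊.A τ) σ
  /-- [BES] Bessel on the hexagon loop, GLOBAL form -/
  CB0 : 0 ≤ CB
  bes : ∀ j < 8, ∫⁻ η, ‖pvthX 𝔊.XQ (pvthZ 𝔊.δ 0 1 pvcnHex j) (pvthD 1 pvcnHex j) (pvthL pvcnHex j) η‖ₑ ^ 2 * (𝔊.EvG 0 1 pvcnHex).indicator 1 η ∂(pvP ε) ≤ ENNReal.ofReal (CB * 𝔊.δ ^ 2)

end PvpgGlob

theorem pvpg_eqns_cite3 : True := by
  have := @PvpgGlob.pre.eq_1; have := @PvpgGlob.win.eq_1; have := @PvpgGlob.G₀.eq_1; have := @PvpgGlob.G2.eq_1; have := @PvpgGlob.A₀.eq_1; have := @PvpgGlob.kit.eq_1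
  have := @PvpgGlob.fQ.eq_1; have := @PvpgGlob.f.eq_1; have := @PvpgGlob.fV.eq_1; have := @PvpgGlob.Cp.eq_1; have := @PvpgGlob.Ap.eq_1; have := @PvpgGlob.EvG.eq_1
  trivial

/-! ## 4. from the global datum to `PvcnOk` -/

section glue

variable {𝔊 : PvpgGlob} {ε : ℝ} {b q β' : ℝ≥0∞} {CB r : ℝ}

/-- the regions of the kit are those of `pre` -/
theorem pvpg_kit_O (μ : Measure (Conf PvPt)) (z d : ℂ) : (𝔊.kit μ b q).O z d = 𝔊.pre.O z d := rfl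
theorem pvpg_kit_K (μ : Measure (Conf PvPt)) (z d : ℂ) (τ : PvtTurn) : (𝔊.kit μ b q).K z d τ = 𝔊.pre.K z d τ := rfl
theorem pvpg_kit_OO (μ : Measure (Conf PvPt)) (z d : ℂ) (τ : PvtTurn) : (𝔊.kit μ b q).OO z d τ = 𝔊.pre.OO z d τ := rfl
theorem pvpg_kit_zo (μ : Measure (Conf PvPt)) (z d : ℂ) (τ : PvtTurn) : (𝔊.kit μ b q).zo z d τ = 𝔊.pre.zo z d τ := rfl

/-- measurability of the placed regions of `pre`.      Plan: as `pvth_mO` (`pvth_O_place`, `pvth_sim_id`). -/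
theorem pvpg_mO (H : 𝔊.Ok ε b q β' CB r) (z d : ℂ) (hd : d ≠ 0) : MeasurableSet (𝔊.pre.O z d) := by
  rw [pvth_O_place 𝔊.pre z d hd, MeasurableEquiv.measurableSet_image]
  unfold PvthKit.O
  rw [pvth_sim_id, Set.image_id]
  exact H.mO.prod MeasurableSet.univ

theorem pvpg_mwin (H : 𝔊.Ok ε b q β' CB r) (τ : PvtTurn) : MeasurableSet (𝔊.win τ) := by
  have hK : MeasurableSet (𝔊.pre.K 0 1 τ) := by
    unfold PvthKit.K
    rw [pvth_sim_id, Set.image_id]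
    exact (H.mK τ).prod MeasurableSet.univ
  unfold PvpgGlob.win PvthKit.OO
  exact ((pvpg_mO H 0 1 one_ne_zero).union (pvpg_mO H _ _ (mul_ne_zero one_ne_zero (pvt_rot_ne_zero τ)))).union hK

theorem pvpg_mG0 (H : 𝔊.Ok ε b q β' CB r) : MeasurableSet (𝔊.G₀ (pvP ε) b) := by
  have hO := pvpg_mO H 0 1 one_ne_zero
  exact (pvpg_sure_meas hO H.mC).inter (MeasurableSet.iInter fun i => pvpg_thr_meas hO (H.mH i) b)

theorem pvpg_rG0 (μ : Measure (Conf PvPt)) : Conf.Reads (𝔊.pre.O 0 1) (fun η => η ∈ 𝔊.G₀ μ b) := by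
  intro η
  have h1 := pvpg_sure_reads μ (𝔊.pre.O 0 1) 𝔊.C η
  have h2 : ∀ i, _ := fun i => pvpg_thr_reads μ (𝔊.pre.O 0 1) (𝔊.H i) b η
  simp only [eq_iff_iff] at h1 h2 ⊢
  unfold PvpgGlob.G₀
  simp only [mem_inter_iff, mem_iInter]
  rw [h1]
  simp only [h2]

/-- both plugs: read from `OO`.      Plan: `pvpg_rG0`, `pvth_reads_map` + `pvth_sim_pre` for the placed plug, `Conf.Reads.mono`, `Conf.Reads.map₂`. -/
theorem pvpg_rG2 (μ : Measure (Conf PvPt)) (τ : PvtTurn) : Conf.Reads (𝔊.pre.OO 0 1 τ) (fun η => η ∈ 𝔊.G2 μ b τ) := by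
  have h1 : Conf.Reads (𝔊.pre.OO 0 1 τ) (fun η => η ∈ 𝔊.G₀ μ b) := (pvpg_rG0 μ).mono subset_union_left
  have h2 : Conf.Reads (𝔊.pre.OO 0 1 τ) (fun η => cfMap (pvthInv (𝔊.pre.zo 0 1 τ) τ.rot) η ∈ 𝔊.G₀ μ b) := by
    have h3 := pvth_reads_map (g := pvthInv (𝔊.pre.zo 0 1 τ) τ.rot) (pvpg_rG0 (𝔊 := 𝔊) (b := b) μ)
    refine h3.mono ?_
    have h4 := pvth_sim_pre (z := 𝔊.pre.zo 0 1 τ) (pvt_rot_ne_zero τ) 0 1 𝔊.pre.O₀
    rw [mul_zero, add_zero, mul_one] at h4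
    have h5 : 𝔊.pre.O (𝔊.pre.zo 0 1 τ) (1 * τ.rot) = Prod.map (pvthInv (𝔊.pre.zo 0 1 τ) τ.rot) id ⁻¹' 𝔊.pre.O 0 1 := by
      rw [one_mul]; exact h4
    rw [← h5]
    exact subset_union_right
  exact h1.map₂ h2 (fun a b => a ∧ b)

theorem pvpg_mG2 (H : 𝔊.Ok ε b q β' CB r) (τ : PvtTurn) : MeasurableSet (𝔊.G2 (pvP ε) b τ) :=
  (pvpg_mG0 H).inter (measurable_cfMap (pvth_measurable_inv _ _) (pvpg_mG0 H))

theorem pvpg_mOO (H : 𝔊.Ok ε b q β' CB r) (τ : PvtTurn) : MeasurableSet (𝔊.pre.OO 0 1 τ) :=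
  (pvpg_mO H 0 1 one_ne_zero).union (pvpg_mO H _ _ (mul_ne_zero one_ne_zero (pvt_rot_ne_zero τ)))

/-- **WF** -/
theorem pvpg_wf (H : 𝔊.Ok ε b q β' CB r) : (𝔊.kit (pvP ε) b q).WF where
  δ0 := H.ref.δ0
  mO := H.mO
  mK := H.mK
  mG := pvpg_mG0 H
  mA := fun τ => pvpg_fix_meas (pvpg_mOO H τ) (pvpg_mG2 H τ) (pvpg_sure_meas (pvpg_mwin H τ) (H.mA τ)) q
  rG := pvpg_rG0 _
  rA := fun τ => pvpg_fix_reads (W := 𝔊.win τ) subset_union_left (pvpg_rG2 _ τ) (pvpg_sure_reads _ _ _) q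

/-- **the field `Q`** -/
theorem pvpg_fldQ (H : 𝔊.Ok ε b q β' CB r) : (𝔊.kit (pvP ε) b q).Fld (𝔊.fQ (pvP ε)) where
  meas := fun τ => pvpg_loc_meas (pvpg_mwin H τ) (H.mX τ)
  reads := fun τ => pvpg_loc_reads _ _ _

/-- **the field `V`** -/
theorem pvpg_fldV (H : 𝔊.Ok ε b q β' CB r) : (𝔊.kit (pvP ε) b q).Fld (𝔊.fV (pvP ε)) where
  meas := fun τ => by
    have hf : Measurable (𝔊.f (pvP ε)) := pvpg_loc_meas (pvpg_mO H 0 1 one_ne_zero) H.mζ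
    unfold PvpgGlob.fV
    exact (((hf.comp (measurable_cfMap (pvth_measurable_inv _ _))).const_mul _).const_add _).sub hf
  reads := fun τ => by
    have hf : Conf.Reads (𝔊.pre.O 0 1) (𝔊.f (pvP ε)) := pvpg_loc_reads _ _ _
    have h1 : Conf.Reads (𝔊.pre.OO 0 1 τ ∪ 𝔊.pre.K 0 1 τ) (𝔊.f (pvP ε)) := hf.mono (subset_union_left.trans subset_union_left)
    have h2 : Conf.Reads (𝔊.pre.OO 0 1 τ ∪ 𝔊.pre.K 0 1 τ) (fun η => 𝔊.f (pvP ε) (cfMap (pvthInv (𝔊.pre.zo 0 1 τ) τ.rot) η)) := by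
      have h3 := pvth_reads_map (g := pvthInv (𝔊.pre.zo 0 1 τ) τ.rot) hf
      refine h3.mono ?_
      have h4 := pvth_sim_pre (z := 𝔊.pre.zo 0 1 τ) (pvt_rot_ne_zero τ) 0 1 𝔊.pre.O₀
      rw [mul_zero, add_zero, mul_one] at h4
      have h5 : 𝔊.pre.O (𝔊.pre.zo 0 1 τ) (1 * τ.rot) = Prod.map (pvthInv (𝔊.pre.zo 0 1 τ) τ.rot) id ⁻¹' 𝔊.pre.O 0 1 := by
        rw [one_mul]; exact h4
      rw [← h5]
      exact subset_union_right.trans subset_union_left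
    exact h2.map₂ h1 (fun a b => (𝔊.pre.zo 0 1 τ + τ.rot * a) - b)

/-- **ADMISSION**.      Plan: `C ∩ ⋂ H i ⊆ G₀ ∪ (C \ Sure) ∪ ⋃ i (H i \ Thr i)`; `pvpg_local_ae`, `pvpg_thr_le` four times. -/
theorem pvpg_adm (H : 𝔊.Ok ε b q β' CB r) : β' ≤ pvP ε (𝔊.G₀ (pvP ε) b) := by
  have h := pv_isPpp ε
  have hW : MeasurableSet (𝔊.pre.O 0 1) := pvpg_mO H 0 1 one_ne_zero
  have hsub : 𝔊.C ∩ ⋂ i, 𝔊.H i ⊆ 𝔊.G₀ (pvP ε) b ∪ ((𝔊.C \ pvpgSure (pvP ε) (𝔊.pre.O 0 1) 𝔊.C) ∪ ⋃ i, (𝔊.H i \ pvpgThr (pvP ε) (𝔊.pre.O 0 1) (𝔊.H i) b)) := by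
    rintro η ⟨hC, hH⟩
    by_cases h1 : η ∈ pvpgSure (pvP ε) (𝔊.pre.O 0 1) 𝔊.C
    · by_cases h2 : ∀ i, η ∈ pvpgThr (pvP ε) (𝔊.pre.O 0 1) (𝔊.H i) b
      · exact Or.inl ⟨h1, mem_iInter.2 h2⟩
      · push Not at h2
        obtain ⟨i, hi⟩ := h2
        exact Or.inr (Or.inr (mem_iUnion.2 ⟨i, mem_iInter.1 hH i, hi⟩))
    · exact Or.inr (Or.inl ⟨hC, h1⟩)
  have h0 : pvP ε (𝔊.C \ pvpgSure (pvP ε) (𝔊.pre.O 0 1) 𝔊.C) = 0 := by
    rw [measure_eq_zero_iff_ae_notMem]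
    filter_upwards [pvpg_local_ae h hW H.mC H.lC] with η h1 h2
    exact h2.2 (h1 h2.1)
  have h4 : pvP ε (⋃ i, (𝔊.H i \ pvpgThr (pvP ε) (𝔊.pre.O 0 1) (𝔊.H i) b)) ≤ 4 * b := by
    refine (measure_iUnion_fintype_le _ _).trans ?_
    refine (Finset.sum_le_sum fun i _ => pvpg_thr_le h hW (H.mH i) b).trans ?_
    simp
  have hb : 4 * b ≠ ∞ := by
    have h5 : 4 * b ≤ 1 := (le_add_self.trans H.adm).trans prob_le_one
    exact ne_top_of_le_ne_top ENNReal.one_ne_top h5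
  refine ENNReal.le_of_add_le_add_right hb (H.adm.trans ?_)
  calc pvP ε (𝔊.C ∩ ⋂ i, 𝔊.H i) ≤ pvP ε (𝔊.G₀ (pvP ε) b ∪ ((𝔊.C \ pvpgSure (pvP ε) (𝔊.pre.O 0 1) 𝔊.C) ∪ ⋃ i, (𝔊.H i \ pvpgThr (pvP ε) (𝔊.pre.O 0 1) (𝔊.H i) b))) := measure_mono hsub
    _ ≤ pvP ε (𝔊.G₀ (pvP ε) b) + (pvP ε (𝔊.C \ pvpgSure (pvP ε) (𝔊.pre.O 0 1) 𝔊.C) + pvP ε (⋃ i, (𝔊.H i \ pvpgThr (pvP ε) (𝔊.pre.O 0 1) (𝔊.H i) b))) :=
        (measure_union_le _ _).trans (add_le_add le_rfl (measure_union_le _ _))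
    _ ≤ pvP ε (𝔊.G₀ (pvP ε) b) + 4 * b := by
        rw [h0, zero_add]
        exact add_le_add le_rfl h4

theorem pvpg_w88_rot_ne (τ : PvtTurn) : τ.rot ≠ 0 := by
  cases τ <;> simp [PvtTurn.rot]

theorem pvpg_w88_mOO (H : 𝔊.Ok ε b q β' CB r) (τ : PvtTurn) : MeasurableSet (𝔊.pre.OO 0 1 τ) :=
  (pvpg_mO H 0 1 one_ne_zero).union (pvpg_mO H _ _ (mul_ne_zero one_ne_zero (pvpg_w88_rot_ne τ)))

/-- the bridge for the SOFT link.      Plan: `Sure (win) A = A` a.e. (`pvpg_sure_ae`, `pvpg_local_ae` with `H.lA`), `pvpg_P_congr_ae`, `H.frc`. -/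
theorem pvpg_frc_soft (H : 𝔊.Ok ε b q β' CB r) (τ : PvtTurn) :
    ∀ᵐ σ ∂(pvP ε), σ ∈ 𝔊.G2 (pvP ε) b τ → q ≤ pvtiP (pvP ε) (𝔊.pre.OO 0 1 τ) (pvpgSure (pvP ε) (𝔊.win τ) (𝔊.A τ)) σ := by
  have h := pv_isPpp ε
  have hwin := pvpg_mwin H τ
  have he : ∀ᵐ η ∂(pvP ε), η ∈ pvpgSure (pvP ε) (𝔊.win τ) (𝔊.A τ) ↔ η ∈ 𝔊.A τ := by
    filter_upwards [pvpg_sure_ae h hwin (H.mA τ), pvpg_local_ae h hwin (H.mA τ) (H.lA τ)] with η h1 h2
    exact ⟨h1, h2⟩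
  filter_upwards [H.frc τ, pvpg_P_congr_ae h (pvpg_w88_mOO H τ) (pvpg_sure_meas hwin (H.mA τ)) (H.mA τ) he] with σ h1 h2 h3
  rw [h2]
  exact h1 h3

/-- **FORCED** -/
theorem pvpg_forced (H : 𝔊.Ok ε b q β' CB r) : (𝔊.kit (pvP ε) b q).Forced (pvP ε) β' q := by
  refine ⟨H.β0, H.q0, pvpg_adm H, fun τ σ h1 h2 => ?_⟩
  exact pvpg_fix_forced (pvpg_rG2 (pvP ε) τ) H.q1 ⟨h1, h2⟩

/-- **(V)**: `tel` is `rfl` -/
theorem pvpg_V (H : 𝔊.Ok ε b q β' CB r) : PvcnV (𝔊.kit (pvP ε) b q) ε (𝔊.fV (pvP ε)) (𝔊.f (pvP ε)) := by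
  have hW : MeasurableSet (𝔊.pre.O 0 1) := pvpg_mO H 0 1 one_ne_zero
  have hm : Measurable (𝔊.f (pvP ε)) := pvpg_loc_meas hW H.mζ
  refine ⟨hm, pvpg_loc_reads _ _ _, ?_, fun τ η _ _ _ => rfl⟩
  have hG0 : pvP ε (𝔊.G₀ (pvP ε) b) ≠ 0 := fun h0 => H.β0 (le_antisymm ((pvpg_adm H).trans h0.le) bot_le)
  have hfin : ∫⁻ η, (𝔊.kit (pvP ε) b q).g (pvP ε) 0 1 η ∂(pvP ε) ≠ ∞ := by
    have hle : ∫⁻ η, (𝔊.kit (pvP ε) b q).g (pvP ε) 0 1 η ∂(pvP ε) ≤ ∫⁻ _, (pvP ε (𝔊.G₀ (pvP ε) b))⁻¹ ∂(pvP ε) := by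
      refine lintegral_mono fun η => ?_
      show ((𝔊.kit (pvP ε) b q).G 0 1).indicator 1 η / pvP ε (𝔊.G₀ (pvP ε) b) ≤ _
      rw [div_eq_mul_inv]
      calc ((𝔊.kit (pvP ε) b q).G 0 1).indicator 1 η * (pvP ε (𝔊.G₀ (pvP ε) b))⁻¹ ≤ 1 * (pvP ε (𝔊.G₀ (pvP ε) b))⁻¹ := by
            gcongr
            exact Set.indicator_le_self' (fun _ _ => zero_le) η
        _ = _ := one_mul _
    refine ne_top_of_le_ne_top ?_ hle
    rw [lintegral_const, measure_univ, mul_one]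
    exact ENNReal.inv_ne_top.2 hG0
  have := isFiniteMeasure_withDensity hfin
  exact Integrable.of_bound hm.aestronglyMeasurable 𝔊.δ (Eventually.of_forall fun η => pvpg_loc_bound H.ζ_le η)

/-- **THE DICTIONARY** soft ⟶ global in the reference frame: a.e., usable + usable + success ⟹ the global plug, the global link, and the soft mass is the global mass.
Plan: `pvpg_sure_ae` (`C`), `pvpg_fix_ae` (`pvpg_frc_soft`) then `pvpg_sure_ae` (`A`), `pvpg_loc_ae` (`H.lX`). -/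
theorem pvpg_dict0 (H : 𝔊.Ok ε b q β' CB r) (τ : PvtTurn) : ∀ᵐ η ∂(pvP ε), η ∈ 𝔊.G₀ (pvP ε) b → η ∈ 𝔊.A₀ (pvP ε) b q τ →
    η ∈ 𝔊.C ∧ η ∈ 𝔊.A τ ∧ 𝔊.fQ (pvP ε) τ η = 𝔊.XQ τ η := by
  have h := pv_isPpp ε
  have hW : MeasurableSet (𝔊.pre.O 0 1) := pvpg_mO H 0 1 one_ne_zero
  have hwin := pvpg_mwin H τ
  filter_upwards [pvpg_sure_ae h hW H.mC, pvpg_fix_ae (pvpg_frc_soft H τ), pvpg_sure_ae h hwin (H.mA τ), pvpg_loc_ae h hwin (M := 𝔊.A τ) (H.lX τ)] with η a1 a2 a3 a4 hG hA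
  have hA' := a3 (a2 hA)
  exact ⟨a1 hG.1, hA', a4 hA'⟩

/-- the law is invariant under the inverse placement -/
theorem pvpg_law_inv (z d : ℂ) (hd : ‖d‖ = 1) (ε : ℝ) : (pvP ε).map (cfMap (pvthInv z d)) = pvP ε := by
  have hd0 : d ≠ 0 := by rintro rfl; simp at hd
  have ha : d⁻¹ ≠ 0 := inv_ne_zero hd0
  have e : pvthInv z d = fun w => d⁻¹ * w + (-z / d) := by
    funext w; unfold pvthInv; field_simp; ring
  have := pvci_law_aff d⁻¹ (-z / d) ha ε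
  rw [pvci_aff_image, norm_inv, hd, inv_one, one_mul] at this
  rw [e]; exact this

/-- the dictionary in every frame.      Plan: `pvpg_dict0` transported by the isometry `pvciAff d z` (`pvci_law_frame`: the law is invariant). -/
theorem pvpg_dict (H : 𝔊.Ok ε b q β' CB r) (z d : ℂ) (hd : ‖d‖ = 1) (τ : PvtTurn) : ∀ᵐ η ∂(pvP ε), η ∈ (𝔊.kit (pvP ε) b q).G z d → η ∈ (𝔊.kit (pvP ε) b q).A z d τ →
    η ∈ 𝔊.Cp z d ∧ η ∈ 𝔊.Ap z d τ ∧ pvthX (𝔊.fQ (pvP ε)) z d τ η = pvthX 𝔊.XQ z d τ η := by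
  have h0 := pvpg_dict0 H τ
  have h1 : ∀ᵐ η ∂((pvP ε).map (cfMap (pvthInv z d))), η ∈ 𝔊.G₀ (pvP ε) b → η ∈ 𝔊.A₀ (pvP ε) b q τ →
      η ∈ 𝔊.C ∧ η ∈ 𝔊.A τ ∧ 𝔊.fQ (pvP ε) τ η = 𝔊.XQ τ η := by
    rw [pvpg_law_inv z d hd ε]; exact h0
  have h2 := ae_of_ae_map (measurable_cfMap (pvth_measurable_inv z d)).aemeasurable h1
  filter_upwards [h2] with η hη hG hA
  obtain ⟨a1, a2, a3⟩ := hη hG hA
  exact ⟨a1, a2, by unfold pvthX; rw [a3]⟩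

/-- the dictionary along a word -/
theorem pvpg_dict_word (H : 𝔊.Ok ε b q β' CB r) (z d : ℂ) (hd : ‖d‖ = 1) (l : List PvtTurn) : ∀ᵐ η ∂(pvP ε), η ∈ (𝔊.kit (pvP ε) b q).Ev z d l →
    η ∈ 𝔊.EvG z d l ∧ ∀ j < l.length, (𝔊.kit (pvP ε) b q).Xj (𝔊.fQ (pvP ε)) z d l j η = pvthX 𝔊.XQ (pvthZ 𝔊.δ z d l j) (pvthD d l j) (pvthL l j) η := by
  have hall : ∀ᵐ η ∂(pvP ε), ∀ j : ℕ, η ∈ (𝔊.kit (pvP ε) b q).G (pvthZ 𝔊.δ z d l j) (pvthD d l j) → η ∈ (𝔊.kit (pvP ε) b q).A (pvthZ 𝔊.δ z d l j) (pvthD d l j) (pvthL l j) →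
      η ∈ 𝔊.Cp (pvthZ 𝔊.δ z d l j) (pvthD d l j) ∧ η ∈ 𝔊.Ap (pvthZ 𝔊.δ z d l j) (pvthD d l j) (pvthL l j) ∧
        pvthX (𝔊.fQ (pvP ε)) (pvthZ 𝔊.δ z d l j) (pvthD d l j) (pvthL l j) η = pvthX 𝔊.XQ (pvthZ 𝔊.δ z d l j) (pvthD d l j) (pvthL l j) η := by
    rw [ae_all_iff]
    intro j
    exact pvpg_dict H _ _ (by unfold pvthD; rw [pvt_norm_dir, hd]) _
  filter_upwards [hall] with η hη hE
  refine ⟨fun j hj => ?_, fun j hj => ?_⟩
  · obtain ⟨a1, a2, -⟩ := hη j (hE j hj).1 (hE j hj).2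
    exact ⟨a1, a2⟩
  · exact (hη j (hE j hj).1 (hE j hj).2).2.2

/-- **(B) for `Q`** -/
theorem pvpg_besQ (H : 𝔊.Ok ε b q β' CB r) : ∀ j < 8, ∫⁻ η, ‖(𝔊.kit (pvP ε) b q).Xj (𝔊.fQ (pvP ε)) 0 1 pvcnHex j η‖ₑ ^ 2 * ((𝔊.kit (pvP ε) b q).Ev 0 1 pvcnHex).indicator 1 η ∂(pvP ε)
    ≤ ENNReal.ofReal (max CB 9 * 𝔊.δ ^ 2) := by
  intro j hj
  have hlen : pvcnHex.length = 8 := by decide
  refine le_trans (lintegral_mono_ae ?_) (le_trans (H.bes j hj) (ENNReal.ofReal_le_ofReal (mul_le_mul_of_nonneg_right (le_max_left _ _) (sq_nonneg _))))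
  filter_upwards [pvpg_dict_word H 0 1 (by simp) pvcnHex] with η hη
  by_cases hE : η ∈ (𝔊.kit (pvP ε) b q).Ev 0 1 pvcnHex
  · obtain ⟨a1, a2⟩ := hη hE
    rw [a2 j (by rw [hlen]; exact hj), Set.indicator_of_mem hE, Set.indicator_of_mem a1]
  · rw [Set.indicator_of_notMem hE, mul_zero]
    exact zero_le

theorem pvpg_norm_mid (τ : PvtTurn) : ‖τ.mid‖ ≤ 1 := by
  rw [pvt_mid_eq, norm_div]
  have h1 : ‖(1 : ℂ) + τ.rot‖ ≤ 2 := by
    refine le_trans (norm_add_le _ _) ?_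
    rw [pvt_norm_rot, norm_one]; norm_num
  have h2 : ‖(2 : ℂ)‖ = 2 := by simp
  rw [h2]
  linarith

/-- the field `V` is bounded by `3 δ` -/
theorem pvpg_fV_le (H : 𝔊.Ok ε b q β' CB r) (τ : PvtTurn) (η : Conf PvPt) : ‖𝔊.fV (pvP ε) τ η‖ ≤ 3 * 𝔊.δ := by
  have hδ : 0 < 𝔊.δ := H.ref.δ0
  have hf : ∀ σ, ‖𝔊.f (pvP ε) σ‖ ≤ 𝔊.δ := fun σ => pvpg_loc_bound H.ζ_le σ
  unfold PvpgGlob.fV
  have h1 : ‖𝔊.pre.zo 0 1 τ‖ ≤ 𝔊.δ := by
    unfold PvthKit.zo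
    rw [zero_add, one_mul, norm_mul]
    have : ‖((𝔊.pre.δ : ℝ) : ℂ)‖ = 𝔊.δ := by
      rw [Complex.norm_real, Real.norm_eq_abs]
      exact abs_of_pos hδ
    rw [this]
    have := pvpg_norm_mid τ
    nlinarith
  have h2 : ‖τ.rot * 𝔊.f (pvP ε) (cfMap (pvthInv (𝔊.pre.zo 0 1 τ) τ.rot) η)‖ ≤ 𝔊.δ := by
    rw [norm_mul, pvt_norm_rot, one_mul]; exact hf _
  calc _ ≤ ‖𝔊.pre.zo 0 1 τ + τ.rot * 𝔊.f (pvP ε) (cfMap (pvthInv (𝔊.pre.zo 0 1 τ) τ.rot) η)‖ + ‖𝔊.f (pvP ε) η‖ := norm_sub_le _ _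
    _ ≤ (‖𝔊.pre.zo 0 1 τ‖ + ‖τ.rot * 𝔊.f (pvP ε) (cfMap (pvthInv (𝔊.pre.zo 0 1 τ) τ.rot) η)‖) + ‖𝔊.f (pvP ε) η‖ := by
        gcongr; exact norm_add_le _ _
    _ ≤ 3 * 𝔊.δ := by have := hf η; linarith

/-- **(B) for `V`**: `‖XV‖ ≤ δ ‖mid‖ + 2 δ ≤ 3 δ` pointwise -/
theorem pvpg_besV (H : 𝔊.Ok ε b q β' CB r) : ∀ j < 8, ∫⁻ η, ‖(𝔊.kit (pvP ε) b q).Xj (𝔊.fV (pvP ε)) 0 1 pvcnHex j η‖ₑ ^ 2 * ((𝔊.kit (pvP ε) b q).Ev 0 1 pvcnHex).indicator 1 η ∂(pvP ε)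
    ≤ ENNReal.ofReal (max CB 9 * 𝔊.δ ^ 2) := by
  intro j hj
  have hδ : 0 < 𝔊.δ := H.ref.δ0
  have hpt : ∀ η, ‖(𝔊.kit (pvP ε) b q).Xj (𝔊.fV (pvP ε)) 0 1 pvcnHex j η‖ₑ ^ 2 * ((𝔊.kit (pvP ε) b q).Ev 0 1 pvcnHex).indicator 1 η ≤ ENNReal.ofReal (max CB 9 * 𝔊.δ ^ 2) := by
    intro η
    have h1 : ‖(𝔊.kit (pvP ε) b q).Xj (𝔊.fV (pvP ε)) 0 1 pvcnHex j η‖ ≤ 3 * 𝔊.δ := by
      unfold PvthKit.Xj pvthX
      rw [norm_mul]
      have : ‖pvthD 1 pvcnHex j‖ = 1 := by unfold pvthD; rw [pvt_norm_dir]; simp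
      rw [this, one_mul]
      exact pvpg_fV_le H _ _
    have h2 : ‖(𝔊.kit (pvP ε) b q).Xj (𝔊.fV (pvP ε)) 0 1 pvcnHex j η‖ₑ ^ 2 ≤ ENNReal.ofReal (max CB 9 * 𝔊.δ ^ 2) := by
      rw [← ofReal_norm, ← ENNReal.ofReal_pow (norm_nonneg _)]
      apply ENNReal.ofReal_le_ofReal
      have h3 : ‖(𝔊.kit (pvP ε) b q).Xj (𝔊.fV (pvP ε)) 0 1 pvcnHex j η‖ ^ 2 ≤ (3 * 𝔊.δ) ^ 2 := pow_le_pow_left₀ (norm_nonneg _) h1 2
      have h4 : (9 : ℝ) * 𝔊.δ ^ 2 ≤ max CB 9 * 𝔊.δ ^ 2 := mul_le_mul_of_nonneg_right (le_max_right _ _) (sq_nonneg _)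
      nlinarith
    refine le_trans (mul_le_mul' h2 ?_) (by rw [mul_one])
    exact Set.indicator_le_self' (fun _ _ => zero_le) η |>.trans (le_of_eq rfl)
  calc _ ≤ ∫⁻ _η, ENNReal.ofReal (max CB 9 * 𝔊.δ ^ 2) ∂(pvP ε) := lintegral_mono hpt
    _ = ENNReal.ofReal (max CB 9 * 𝔊.δ ^ 2) := by rw [lintegral_const, measure_univ, mul_one]

/-- **THE KIT OF A GLOBAL DATUM IS OK** (compiled glue) -/
theorem pvpg_ok (H : 𝔊.Ok ε b q β' CB r) :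
    PvcnOk (𝔊.kit (pvP ε) b q) ε (𝔊.fQ (pvP ε)) (𝔊.fV (pvP ε)) (𝔊.f (pvP ε)) β' q (ENNReal.ofReal (max CB 9 * 𝔊.δ ^ 2)) r where
  wf := pvpg_wf H
  ref := ⟨H.ref.δ0, H.ref.r_le, H.ref.O_sub, H.ref.K_cell, H.ref.K_off⟩
  fQ := pvpg_fldQ H
  fV := pvpg_fldV H
  frc := pvpg_forced H
  B_fin := ENNReal.ofReal_ne_top
  besQ := pvpg_besQ H
  besV := pvpg_besV H
  V := pvpg_V H

/-- **(T)**: the closed-sum tail of the kit is dominated by the GLOBAL one -/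
theorem pvpg_tail (H : 𝔊.Ok ε b q β' CB r) :
    ∫⁻ η, ‖(𝔊.kit (pvP ε) b q).Y (𝔊.fQ (pvP ε)) 0 1 pvcnHex η‖ₑ ^ 2 * ((𝔊.kit (pvP ε) b q).Ev 0 1 pvcnHex).indicator 1 η ∂(pvP ε) ≤
    ∫⁻ η, ‖∑ j ∈ Finset.range 8, pvthX 𝔊.XQ (pvthZ 𝔊.δ 0 1 pvcnHex j) (pvthD 1 pvcnHex j) (pvthL pvcnHex j) η‖ₑ ^ 2 * (𝔊.EvG 0 1 pvcnHex).indicator 1 η ∂(pvP ε) := by
  have hlen : pvcnHex.length = 8 := by decide
  refine lintegral_mono_ae ?_
  filter_upwards [pvpg_dict_word H 0 1 (by simp) pvcnHex] with η hη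
  by_cases hE : η ∈ (𝔊.kit (pvP ε) b q).Ev 0 1 pvcnHex
  · obtain ⟨a1, a2⟩ := hη hE
    rw [Set.indicator_of_mem hE, Set.indicator_of_mem a1]
    have : (𝔊.kit (pvP ε) b q).Y (𝔊.fQ (pvP ε)) 0 1 pvcnHex η = ∑ j ∈ Finset.range 8, pvthX 𝔊.XQ (pvthZ 𝔊.δ 0 1 pvcnHex j) (pvthD 1 pvcnHex j) (pvthL pvcnHex j) η := by
      unfold PvthKit.Y
      rw [hlen]
      refine Finset.sum_congr rfl fun j hj => a2 j (by rw [hlen]; exact Finset.mem_range.1 hj)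
    rw [this]
  · rw [Set.indicator_of_notMem hE, mul_zero]
    exact zero_le

end glue

/-! ## 5. the family: levels `m`, mesh `ε ↓ 0` -/

/-- **THE INPUT OF THE INSTANCE**: one global datum per level, constants UNIFORM in `(m, ε)` -/
structure PvpgFam (δ : ℕ → ℝ) where
  𝔊 : ℕ → PvpgGlob
  b : ℝ≥0∞
  q : ℝ≥0∞
  β' : ℝ≥0∞
  CB : ℝ
  r : ℕ → ℝ
  hδ : ∀ m, (𝔊 m).δ = δ m
  ok : ∀ m, ∀ᶠ ε in 𝓝[>] (0 : ℝ), (𝔊 m).Ok ε b q β' CB (r m)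
  /-- [TAIL] the closed-sum tail on the hexagon loop, GLOBAL form -/
  tail : ∀ m, Tendsto (fun ε => ∫⁻ η, ‖∑ j ∈ Finset.range 8, pvthX (𝔊 m).XQ (pvthZ (𝔊 m).δ 0 1 pvcnHex j) (pvthD 1 pvcnHex j) (pvthL pvcnHex j) η‖ₑ ^ 2 *
    ((𝔊 m).EvG 0 1 pvcnHex).indicator 1 η ∂(pvP ε)) (𝓝[>] (0 : ℝ)) (𝓝 0)

/-- **THE FAMILY OF CHAPTER E** (52) from the global data -/
noncomputable def PvpgFam.toFam {δ : ℕ → ℝ} (F : PvpgFam δ) : PvcnFam δ where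
  kit := fun m ε => (F.𝔊 m).kit (pvP ε) F.b F.q
  XQ := fun m ε => (F.𝔊 m).fQ (pvP ε)
  XV := fun m ε => (F.𝔊 m).fV (pvP ε)
  f := fun m ε => (F.𝔊 m).f (pvP ε)
  r := fun m _ => F.r m
  β' := F.β'
  q := F.q
  CB := max F.CB 9
  CB0 := le_trans (by norm_num) (le_max_right _ _)
  kδ := fun m _ => F.hδ m
  ok := fun m => by
    filter_upwards [F.ok m] with ε H
    have := pvpg_ok H
    rwa [F.hδ m] at this
  tail := fun m => by
    refine tendsto_of_tendsto_of_tendsto_of_le_of_le' tendsto_const_nhds (F.tail m) (Eventually.of_forall fun _ => zero_le) ?_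
    filter_upwards [F.ok m] with ε H
    exact pvpg_tail H

theorem pvpg_eqns_cite4 : True := by
  have := @PvpgFam.toFam.eq_1
  trivial

end Claimed.Agent.R289
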