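-- KEEP
import Claimed.Agent.R289.Tr.CellNum
import Claimed.Agent.R289.Tr.Bes
import Claimed.Agent.R289.S1.Closed
import Claimed.Agent.R289.Tr.Plug

/-!
# Row 289 (S0537), THE WALL, chapter E (cells), file Tr/CellRec : I.TAIL AND I.BES WIRED INTO THE EXIT OF CHAPTER E THROUGH ONE RECOGNITION STATEMENT      (helper52; prefix `pvcq_`, `pvcq`, `Pvcq`)

INPUTS ON MAIN (all proved): I.TAIL = `pvcl_closed`, `pvcl_le_sum`, `pvcl_tsum_ge` (104, `S1/Closed.lean`);   I.BES = `pvbe_in_Q'`, `pvbe_in_V`, `pvbe_one_mask` (223 244, `Tr/Bes.lean`);   `PvcnOk`, `PvcnFam` (`Tr/CellNum.lean`).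
* sec. 1  **`PvcqRec ε B a Ev Y`** = CLOSED RECOGNITION (TR13 + TR14): a.s. on `Ev` the functional `Y` is the FULL `Q`-mass of ONE label inside `B` of diameter `≥ a`.
          `pvcq_one` : `E[|Y|² ; Ev] ≤ E[pvclSum η B a]`;   **`pvcq_lim`** : `→ 0` as `ε ↓ 0`;   `pvcq_fam`, `pvcq_fam_lim` : families of DISTINCT labels (TR23);   no measurability of `Y`, `Ev`.
* sec. 2  masks: `pvcq_mask_sum` : the masses of a finite label against pairwise disjoint masks which cover its barycentres add up to its full mass.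
* sec. 3  **`PvcqLoop ε kit XQ XV z d l Mk B a`** = JOINT RECOGNITION ON A CLOSED WORD: a.s. on `kit.Ev z d l` there is ONE tag `x` (label inside `B`, diameter `≥ a`, barycentres in `⋃ Mk j`) such that
          the field of the cell number `j` is the mass of the label of `x` in the mask `Mk j`, for `Q` and for `V`.      EXITS `PvcqLoop.recQ`, `.recV` (`PvbeRec` of 223), `.closed` (`PvcqRec` for `kit.Y XQ`).
* sec. 4  `pvcq_V_int` : the cut point is bounded on the usable states, hence integrable.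
* sec. 5  **`PvcqOk`**, **`PvcqFam δ`**, **`PvcqFam.toFam : PvcnFam δ`** : the fields `besQ`, `besV`, `B_fin`, `tail`, `V.int` of chapter E are DISCHARGED.
          What is left under NUM: `WF`, `PvccKitRef`, `Fld`, `Forced β' q`, the telescoping of `V`, the masks, and ONE a.s. deterministic statement `PvcqLoop` on the hexagon word.
* sec. 7  **`PvcqRing`** (generic ring), `PvpgGlob.Close` = [CLOSE] of 34's global datum (`Tr/Plug.lean`), **`pvcq_plug_bes`**, **`pvcq_plug_tail`** = his fields [BES], [TAIL];   `pvcqNumPlug : PvtyNumQ τ c`.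
* sec. 6  **`Q` ALONE** (ruling 12): `PvcqLoopQ`, `PvcqOkQ`, `PvcqFamQ δ`, **`PvcqFamQ.toFam : PvcnFamQ δ`**, **`pvcqNumQ : PvtyNumQ τ c`** (record of 283).
-/

set_option autoImplicit false
set_option linter.unusedSectionVars false

namespace Claimed.Agent.R289

open MeasureTheory ProbabilityTheory Set Filter Topology
open scoped ENNReal NNReal

/-! ## 1. closed recognition and I.TAIL -/

/-- the full `Q`-mass of the label of the raw tag `x` -/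
noncomputable def pvcqQ (η : Conf PvPt) (x : ℂ × ℂ) : ℂ := pvqSum (DelTri (cfSites η)) (cfCol η) (pvqWQ (cfSites η)) x

/-- **CLOSED RECOGNITION**: a.s. on `Ev` the functional `Y` is the full `Q`-mass of one label inside `B` of diameter `≥ a` -/
def PvcqRec (ε : ℝ) (B : Set ℂ) (a : ℝ) (Ev : Set (Conf PvPt)) (Y : Conf PvPt → ℂ) : Prop :=
  ∀ᵐ η ∂(pvP ε), η ∈ Ev → ∃ x, pvbeTag η x ∧ pvclIn η B x ∧ pvclBig η a x ∧ Y η = pvcqQ η x

theorem pvcq_eqns_cite : True := by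
  have := @pvcqQ.eq_1; have := @PvcqRec.eq_1
  trivial

section tail

variable {ε : ℝ} {B : Set ℂ} {a : ℝ} {Ev : Set (Conf PvPt)} {Y : Conf PvPt → ℂ}

theorem pvcq_enorm_sq (z : ℂ) : ‖z‖ₑ ^ 2 = ENNReal.ofReal (‖z‖ ^ 2) := by
  rw [ENNReal.ofReal_pow (norm_nonneg z), ofReal_norm]

theorem PvcqRec.mono {Ev' : Set (Conf PvPt)} (h : PvcqRec ε B a Ev Y) (hs : Ev' ⊆ Ev) : PvcqRec ε B a Ev' Y :=
  Filter.Eventually.mono h fun _ hη h' => hη (hs h')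

theorem PvcqRec.mono_B {B' : Set ℂ} (h : PvcqRec ε B a Ev Y) (hs : B ⊆ B') : PvcqRec ε B' a Ev Y :=
  Filter.Eventually.mono h fun _ hη h' => by
    obtain ⟨x, h1, h2, h3, h4⟩ := hη h'
    exact ⟨x, h1, fun y hy => hs (h2 y hy), h3, h4⟩

theorem PvcqRec.mono_a {a' : ℝ} (h : PvcqRec ε B a Ev Y) (hs : a' ≤ a) : PvcqRec ε B a' Ev Y :=
  Filter.Eventually.mono h fun _ hη h' => by
    obtain ⟨x, h1, h2, ⟨y, y', k1, k2, k3⟩, h4⟩ := hη h'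
    exact ⟨x, h1, h2, ⟨y, y', k1, k2, hs.trans k3⟩, h4⟩

/-- **ONE CLOSED LABEL**: `E[|Y|² ; Ev] ≤ E[closed sum]`.   No measurability of `Y`, `Ev`. -/
theorem pvcq_one (hε : 0 < ε) (hB : Bornology.IsBounded B) (h : PvcqRec ε B a Ev Y) :
    ∫⁻ η, ‖Y η‖ₑ ^ 2 * Ev.indicator 1 η ∂(pvP ε) ≤ ∫⁻ η, pvclSum η B a ∂(pvP ε) := by
  refine lintegral_mono_ae ?_
  filter_upwards [h, pvqf_good_ae ε hε.ne'] with η h1 h2
  by_cases hη : η ∈ Ev
  · obtain ⟨x, hx, hin, hbig, e⟩ := h1 hη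
    rw [Set.indicator_of_mem hη, Pi.one_apply, mul_one, e, pvcq_enorm_sq]
    exact pvcl_le_sum h2.del hB hx hin hbig
  · rw [Set.indicator_of_notMem hη, mul_zero]; exact zero_le

/-- **I.TAIL IN THE FORM THE CYCLES CONSUME** (TR27, TR3', `htail` of `pvs1_cyc1`): events and functionals may depend on the mesh, `B` and `a` do not -/
theorem pvcq_lim (hB : Bornology.IsBounded B) (ha : 0 < a) {Evs : ℝ → Set (Conf PvPt)} {Ys : ℝ → Conf PvPt → ℂ}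
    (h : ∀ᶠ ε in 𝓝[>] (0 : ℝ), PvcqRec ε B a (Evs ε) (Ys ε)) :
    Tendsto (fun ε => ∫⁻ η, ‖Ys ε η‖ₑ ^ 2 * (Evs ε).indicator 1 η ∂(pvP ε)) (𝓝[>] (0 : ℝ)) (𝓝 0) := by
  refine tendsto_of_tendsto_of_tendsto_of_le_of_le' tendsto_const_nhds (pvcl_closed hB ha) (Eventually.of_forall fun _ => zero_le) ?_
  filter_upwards [h, self_mem_nhdsWithin] with ε h1 h2
  exact pvcq_one h2 hB h1

/-- **FAMILIES OF DISTINCT LABELS** (TR23): the index set is arbitrary -/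
theorem pvcq_fam (hε : 0 < ε) (hB : Bornology.IsBounded B) {ι : Type} (Evi : ι → Set (Conf PvPt)) (Yi : ι → Conf PvPt → ℂ)
    (h : ∀ᵐ η ∂(pvP ε), ∃ x : ι → ℂ × ℂ, (∀ i, η ∈ Evi i → pvbeTag η (x i) ∧ pvclIn η B (x i) ∧ pvclBig η a (x i) ∧ Yi i η = pvcqQ η (x i)) ∧
      ∀ i j, η ∈ Evi i → η ∈ Evi j → i ≠ j → ¬ pvqSame (DelTri (cfSites η)) (cfCol η) (x i) (x j)) :
    ∫⁻ η, ∑' i, ‖Yi i η‖ₑ ^ 2 * (Evi i).indicator 1 η ∂(pvP ε) ≤ ∫⁻ η, pvclSum η B a ∂(pvP ε) := by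
  classical
  refine lintegral_mono_ae ?_
  filter_upwards [h, pvqf_good_ae ε hε.ne'] with η h1 h2
  obtain ⟨x, hx, hne⟩ := h1
  rw [ENNReal.tsum_eq_iSup_sum]
  refine iSup_le fun t => ?_
  have e : ∑ i ∈ t, ‖Yi i η‖ₑ ^ 2 * (Evi i).indicator 1 η
      = ∑ i ∈ t.filter (fun i => η ∈ Evi i), ENNReal.ofReal (‖pvqSum (DelTri (cfSites η)) (cfCol η) (pvqWQ (cfSites η)) (x i)‖ ^ 2) := by
    rw [Finset.sum_filter]
    refine Finset.sum_congr rfl fun i _ => ?_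
    by_cases hi : η ∈ Evi i
    · rw [if_pos hi, Set.indicator_of_mem hi, Pi.one_apply, mul_one, (hx i hi).2.2.2, pvcq_enorm_sq]
      rfl
    · rw [if_neg hi, Set.indicator_of_notMem hi, mul_zero]
  rw [e]
  refine pvcl_sum_ge h2.del hB _ x (fun i hi => (hx i (Finset.mem_filter.1 hi).2).1) (fun i hi => (hx i (Finset.mem_filter.1 hi).2).2.1)
    (fun i hi => (hx i (Finset.mem_filter.1 hi).2).2.2.1) fun i hi j hj hij => hne i j (Finset.mem_filter.1 hi).2 (Finset.mem_filter.1 hj).2 hij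

theorem pvcq_fam_lim (hB : Bornology.IsBounded B) (ha : 0 < a) {ι : ℝ → Type} (Evi : ∀ ε, ι ε → Set (Conf PvPt)) (Yi : ∀ ε, ι ε → Conf PvPt → ℂ)
    (h : ∀ᶠ ε in 𝓝[>] (0 : ℝ), ∀ᵐ η ∂(pvP ε), ∃ x : ι ε → ℂ × ℂ,
      (∀ i, η ∈ Evi ε i → pvbeTag η (x i) ∧ pvclIn η B (x i) ∧ pvclBig η a (x i) ∧ Yi ε i η = pvcqQ η (x i)) ∧
      ∀ i j, η ∈ Evi ε i → η ∈ Evi ε j → i ≠ j → ¬ pvqSame (DelTri (cfSites η)) (cfCol η) (x i) (x j)) :
    Tendsto (fun ε => ∫⁻ η, ∑' i, ‖Yi ε i η‖ₑ ^ 2 * (Evi ε i).indicator 1 η ∂(pvP ε)) (𝓝[>] (0 : ℝ)) (𝓝 0) := by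
  refine tendsto_of_tendsto_of_tendsto_of_le_of_le' tendsto_const_nhds (pvcl_closed hB ha) (Eventually.of_forall fun _ => zero_le) ?_
  filter_upwards [h, self_mem_nhdsWithin] with ε h1 h2
  exact pvcq_fam h2 hB (Evi ε) (Yi ε) h1

/-- CLOSED RECOGNITION IN THE LANGUAGE OF `PvMap` (what TR13 produces): `Y η` is the `lsum` of `qpart` over the label of a tag of the Delaunay plane -/
theorem pvcq_rec_of_map
    (h : ∀ᵐ η ∂(pvP ε), η ∈ Ev → ∃ (hY : DelGood (cfSites η)) (d : (delPl hY).Dart), (delPl hY).toMap.Tag (cfCol η ∘ Subtype.val) d ∧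
      (∀ d', (delPl hY).toMap.SameLab (cfCol η ∘ Subtype.val) d d' → (((delPl hY).toMap.src d' : ↥(cfSites η)) : ℂ) ∈ B) ∧
      (∃ d' d'', (delPl hY).toMap.SameLab (cfCol η ∘ Subtype.val) d d' ∧ (delPl hY).toMap.SameLab (cfCol η ∘ Subtype.val) d d'' ∧
        a ≤ ‖(((delPl hY).toMap.src d' : ↥(cfSites η)) : ℂ) - (((delPl hY).toMap.src d'' : ↥(cfSites η)) : ℂ)‖) ∧
      Y η = (delPl hY).toMap.lsum (cfCol η ∘ Subtype.val) ((delPl hY).toMap.qpart Subtype.val) d) :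
    PvcqRec ε B a Ev Y := by
  filter_upwards [h] with η h1 hη
  obtain ⟨hY, d, hd, hin, ⟨d', d'', k1, k2, k3⟩, e⟩ := h1 hη
  refine ⟨pvqCode d, (pvq_del_tag hY _ d).2 hd, fun y hy => ?_, ⟨pvqCode d', pvqCode d'', (pvq_del_same' hY _ d d').2 k1, (pvq_del_same' hY _ d d'').2 k2, k3⟩, ?_⟩
  · obtain ⟨e', rfl, he'⟩ := (pvq_del_same hY _ d y).1 hy
    exact hin e' he'
  · rw [e, pvcqQ, pvq_del_sum]
    congr 1
    funext e'
    exact (pvq_del_qpart hY e').symm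

end tail

/-! ## 2. masks -/

/-- pairwise disjoint masks: the indicators add up to one on the union -/
theorem pvcq_ind_sum {N : ℕ} {Mk : ℕ → Set ℂ} (hd : ∀ i < N, ∀ j < N, i ≠ j → Disjoint (Mk i) (Mk j)) {b : ℂ} (hb : ∃ j < N, b ∈ Mk j) :
    ∑ j ∈ Finset.range N, (Mk j).indicator (1 : ℂ → ℂ) b = 1 := by
  obtain ⟨j, hj, hbj⟩ := hb
  rw [Finset.sum_eq_single j, Set.indicator_of_mem hbj, Pi.one_apply]
  · intro i hi hij
    exact Set.indicator_of_notMem (fun hbi => Set.disjoint_left.1 (hd i (Finset.mem_range.1 hi) j hj hij) hbi hbj) _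
  · intro h
    exact absurd (Finset.mem_range.2 hj) h

/-- **the masses of a finite label against pairwise disjoint masks which cover its barycentres add up to its full mass** -/
theorem pvcq_mask_sum (W : Set ℂ → ℂ × ℂ → ℂ) {η : Conf PvPt} {x : ℂ × ℂ} (hf : {y | pvqSame (DelTri (cfSites η)) (cfCol η) x y}.Finite) {N : ℕ} {Mk : ℕ → Set ℂ}
    (hd : ∀ i < N, ∀ j < N, i ≠ j → Disjoint (Mk i) (Mk j))
    (hc : ∀ y, pvqSame (DelTri (cfSites η)) (cfCol η) x y → ∃ j < N, pvqBar (cfSites η) y ∈ Mk j) :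
    ∑ j ∈ Finset.range N, pvbeLab W ((Mk j).indicator 1) η x = pvqSum (DelTri (cfSites η)) (cfCol η) (W (cfSites η)) x := by
  have e : ∀ w : ℂ × ℂ → ℂ, pvqSum (DelTri (cfSites η)) (cfCol η) w x = ∑ y ∈ hf.toFinset, w y := fun w => finsum_mem_eq_finite_toFinset_sum w hf
  unfold pvbeLab
  simp_rw [e]
  rw [Finset.sum_comm]
  refine Finset.sum_congr rfl fun y hy => ?_
  rw [← Finset.sum_mul, pvcq_ind_sum hd (hc y (by simpa using hy)), one_mul]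

/-! ## 3. joint recognition on a closed word -/

/-- **JOINT RECOGNITION ON A CLOSED WORD** (TR13 + TR14): a.s. on the cycle event there is ONE rim (label of the tag `x`), inside `B`, of diameter `≥ a`, whose barycentres lie in the masks,
such that the field of the cell number `j` is the mass of this rim in the DETERMINISTIC mask `Mk j`, for `Q` and for `V` -/
def PvcqLoop (ε : ℝ) (kit : PvthKit) (XQ XV : PvtTurn → Conf PvPt → ℂ) (z d : ℂ) (l : List PvtTurn) (Mk : ℕ → Set ℂ) (B : Set ℂ) (a : ℝ) : Prop :=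
  ∀ᵐ η ∂(pvP ε), η ∈ kit.Ev z d l → ∃ x, pvbeTag η x ∧ pvclIn η B x ∧ pvclBig η a x ∧
    (∀ y, pvqSame (DelTri (cfSites η)) (cfCol η) x y → ∃ j < l.length, pvqBar (cfSites η) y ∈ Mk j) ∧
    ∀ j < l.length, kit.Xj XQ z d l j η = pvbeLab pvqWQ ((Mk j).indicator 1) η x ∧ kit.Xj XV z d l j η = pvbeLab pvbeWV ((Mk j).indicator 1) η x

theorem pvcq_eqns_cite2 : True := by
  have := @PvcqLoop.eq_1
  trivial

section loop

variable {ε : ℝ} {kit : PvthKit} {XQ XV : PvtTurn → Conf PvPt → ℂ} {z d : ℂ} {l : List PvtTurn} {Mk : ℕ → Set ℂ} {B : Set ℂ} {a : ℝ}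

theorem PvcqLoop.recQ (h : PvcqLoop ε kit XQ XV z d l Mk B a) {j : ℕ} (hj : j < l.length) :
    PvbeRec ε pvqWQ ((Mk j).indicator 1) (kit.Ev z d l) (kit.Xj XQ z d l j) := by
  filter_upwards [h] with η h1 hη
  obtain ⟨x, hx, -, -, -, h2⟩ := h1 hη
  exact ⟨x, hx, (h2 j hj).1⟩

theorem PvcqLoop.recV (h : PvcqLoop ε kit XQ XV z d l Mk B a) {j : ℕ} (hj : j < l.length) :
    PvbeRec ε pvbeWV ((Mk j).indicator 1) (kit.Ev z d l) (kit.Xj XV z d l j) := by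
  filter_upwards [h] with η h1 hη
  obtain ⟨x, hx, -, -, -, h2⟩ := h1 hη
  exact ⟨x, hx, (h2 j hj).2⟩

/-- the sum of the `Q`-fields along the closed word is the full `Q`-mass of the rim -/
theorem PvcqLoop.closed (h : PvcqLoop ε kit XQ XV z d l Mk B a) (hε : 0 < ε) (hd : ∀ i < l.length, ∀ j < l.length, i ≠ j → Disjoint (Mk i) (Mk j)) :
    PvcqRec ε B a (kit.Ev z d l) (kit.Y XQ z d l) := by
  filter_upwards [h, pvqf_raw_same_ae hε] with η h1 hf hη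
  obtain ⟨x, hx, hin, hbig, hc, h2⟩ := h1 hη
  refine ⟨x, hx, hin, hbig, ?_⟩
  unfold PvthKit.Y pvcqQ
  rw [← pvcq_mask_sum pvqWQ (hf x) hd hc]
  exact Finset.sum_congr rfl fun j hj => (h2 j (Finset.mem_range.1 hj)).1

/-- the sum of the `V`-fields along the closed word is the full `V`-mass of the rim -/
theorem PvcqLoop.closedV (h : PvcqLoop ε kit XQ XV z d l Mk B a) (hε : 0 < ε) (hd : ∀ i < l.length, ∀ j < l.length, i ≠ j → Disjoint (Mk i) (Mk j)) :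
    ∀ᵐ η ∂(pvP ε), η ∈ kit.Ev z d l → ∃ x, pvbeTag η x ∧ kit.Y XV z d l η = pvqSum (DelTri (cfSites η)) (cfCol η) (pvbeWV (cfSites η)) x := by
  filter_upwards [h, pvqf_raw_same_ae hε] with η h1 hf hη
  obtain ⟨x, hx, -, -, hc, h2⟩ := h1 hη
  refine ⟨x, hx, ?_⟩
  unfold PvthKit.Y
  rw [← pvcq_mask_sum pvbeWV (hf x) hd hc]
  exact Finset.sum_congr rfl fun j hj => (h2 j (Finset.mem_range.1 hj)).2

/-- (B) for `Q` on the loop -/
theorem PvcqLoop.besQ (h : PvcqLoop ε kit XQ XV z d l Mk B a) (hε : 0 < ε) {j : ℕ} (hj : j < l.length) (hM : MeasurableSet (Mk j)) (hb : Bornology.IsBounded (Mk j)) :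
    ∫⁻ η, ‖kit.Xj XQ z d l j η‖ₑ ^ 2 * (kit.Ev z d l).indicator 1 η ∂(pvP ε) ≤ pvbeCB * volume (Mk j) :=
  pvbe_kit_hbes pvbe_in_Q' hε hM hb (h.recQ hj)

/-- (B) for `V` on the loop -/
theorem PvcqLoop.besV (h : PvcqLoop ε kit XQ XV z d l Mk B a) (hε : 0 < ε) {j : ℕ} (hj : j < l.length) (hM : MeasurableSet (Mk j)) (hb : Bornology.IsBounded (Mk j)) :
    ∫⁻ η, ‖kit.Xj XV z d l j η‖ₑ ^ 2 * (kit.Ev z d l).indicator 1 η ∂(pvP ε) ≤ pvbeCB * volume (Mk j) :=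
  pvbe_kit_hbes pvbe_in_V hε hM hb (h.recV hj)

/-- (T) on the loop, one mesh -/
theorem PvcqLoop.tail (h : PvcqLoop ε kit XQ XV z d l Mk B a) (hε : 0 < ε) (hB : Bornology.IsBounded B)
    (hd : ∀ i < l.length, ∀ j < l.length, i ≠ j → Disjoint (Mk i) (Mk j)) :
    ∫⁻ η, ‖kit.Y XQ z d l η‖ₑ ^ 2 * (kit.Ev z d l).indicator 1 η ∂(pvP ε) ≤ ∫⁻ η, pvclSum η B a ∂(pvP ε) :=
  pvcq_one hε hB (h.closed hε hd)

end loop

/-! ## 4. the cut point -/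

/-- a measurable cut point which is bounded on the usable states is integrable under the plug weight -/
theorem pvcq_V_int {kit : PvthKit} {ε : ℝ} {β' q : ℝ≥0∞} (hk : kit.WF) (hF : kit.Forced (pvP ε) β' q) {f : Conf PvPt → ℂ} (hf : Measurable f) {C : ℝ}
    (hC : ∀ η ∈ kit.G₀, ‖f η‖ ≤ C) : Integrable f ((pvP ε).withDensity (kit.g (pvP ε) 0 1)) := by
  refine ⟨hf.aestronglyMeasurable, ?_⟩
  unfold HasFiniteIntegral
  rw [lintegral_withDensity_eq_lintegral_mul _ (pvth_g_measurable hk _ 0 1) hf.enorm]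
  have h1 : ∀ η, (kit.g (pvP ε) 0 1 * fun η => ‖f η‖ₑ) η ≤ ENNReal.ofReal C * kit.g (pvP ε) 0 1 η := by
    intro η
    rw [Pi.mul_apply, mul_comm]
    by_cases hη : kit.g (pvP ε) 0 1 η = 0
    · rw [hη, mul_zero, mul_zero]
    · have h2 : η ∈ kit.G₀ := by
        have := pvth_g_ne_zero hη
        rwa [pvth_G_ref] at this
      gcongr
      rw [← ofReal_norm]
      exact ENNReal.ofReal_le_ofReal (hC η h2)
  calc ∫⁻ η, (kit.g (pvP ε) 0 1 * fun η => ‖f η‖ₑ) η ∂(pvP ε) ≤ ∫⁻ η, ENNReal.ofReal C * kit.g (pvP ε) 0 1 η ∂(pvP ε) := lintegral_mono h1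
    _ = ENNReal.ofReal C * 1 := by rw [lintegral_const_mul _ (pvth_g_measurable hk _ 0 1), pvth_g_mass hk hF 0 1 norm_one]
    _ < ∞ := by rw [mul_one]; exact ENNReal.ofReal_lt_top

/-! ## 5. the exit of chapter E from the recognition -/

/-- all the hypotheses on ONE kit at ONE mesh, in the primitive form: soft (`wf ref fQ fV`), probabilistic (`frc`), deterministic (`tel`, masks, `loop`) -/
structure PvcqOk (kit : PvthKit) (ε : ℝ) (XQ XV : PvtTurn → Conf PvPt → ℂ) (f : Conf PvPt → ℂ) (β' q : ℝ≥0∞) (r : ℝ) (Mk : ℕ → Set ℂ) (c : ℝ) (B : Set ℂ) (a : ℝ) : Prop where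
  wf : kit.WF
  ref : PvccKitRef kit r
  fQ : kit.Fld XQ
  fV : kit.Fld XV
  frc : kit.Forced (pvP ε) β' q
  f_meas : Measurable f
  f_reads : Conf.Reads (kit.O 0 1) f
  f_bdd : ∃ C : ℝ, ∀ η ∈ kit.G₀, ‖f η‖ ≤ C
  tel : ∀ τ, ∀ η ∈ kit.G₀, η ∈ kit.G (kit.zo 0 1 τ) τ.rot → η ∈ kit.A₀ τ →
    XV τ η = (kit.zo 0 1 τ + τ.rot * f (cfMap (pvthInv (kit.zo 0 1 τ) τ.rot) η)) - f η
  M_meas : ∀ j < 8, MeasurableSet (Mk j)
  M_bdd : ∀ j < 8, Bornology.IsBounded (Mk j)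
  M_disj : ∀ i < 8, ∀ j < 8, i ≠ j → Disjoint (Mk i) (Mk j)
  M_vol : ∀ j < 8, volume (Mk j) ≤ ENNReal.ofReal (c * kit.δ ^ 2)
  loop : PvcqLoop ε kit XQ XV 0 1 pvcnHex Mk B a

namespace PvcqOk

variable {kit : PvthKit} {ε : ℝ} {XQ XV : PvtTurn → Conf PvPt → ℂ} {f : Conf PvPt → ℂ} {β' q : ℝ≥0∞} {r : ℝ} {Mk : ℕ → Set ℂ} {c : ℝ} {B : Set ℂ} {a : ℝ}

/-- (B), (V) of `PvcnOk` are discharged -/
theorem toOk (H : PvcqOk kit ε XQ XV f β' q r Mk c B a) (hε : 0 < ε) : PvcnOk kit ε XQ XV f β' q (pvbeCB * ENNReal.ofReal (c * kit.δ ^ 2)) r where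
  wf := H.wf
  ref := H.ref
  fQ := H.fQ
  fV := H.fV
  frc := H.frc
  B_fin := ENNReal.mul_ne_top pvbe_CB_ne_top ENNReal.ofReal_ne_top
  besQ := fun j hj => (H.loop.besQ hε (by rw [pvcc_hex_length]; exact hj) (H.M_meas j hj) (H.M_bdd j hj)).trans (by gcongr; exact H.M_vol j hj)
  besV := fun j hj => (H.loop.besV hε (by rw [pvcc_hex_length]; exact hj) (H.M_meas j hj) (H.M_bdd j hj)).trans (by gcongr; exact H.M_vol j hj)
  V := by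
    obtain ⟨C, hC⟩ := H.f_bdd
    exact ⟨H.f_meas, H.f_reads, pvcq_V_int H.wf H.frc H.f_meas hC, H.tel⟩

/-- (T) at one mesh -/
theorem tail (H : PvcqOk kit ε XQ XV f β' q r Mk c B a) (hε : 0 < ε) : PvcqRec ε B a (kit.Ev 0 1 pvcnHex) (kit.Y XQ 0 1 pvcnHex) :=
  H.loop.closed hε (by rw [pvcc_hex_length]; exact H.M_disj)

end PvcqOk

/-- **THE INPUT OF CHAPTER E IN THE PRIMITIVE FORM**: kits, fields, cut points, masks of all levels and meshes;   constants `β'`, `q`, `c` UNIFORM;   the box `B m` and the diameter `a m` depend on the level only -/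
structure PvcqFam (δ : ℕ → ℝ) where
  kit : ℕ → ℝ → PvthKit
  XQ : ℕ → ℝ → PvtTurn → Conf PvPt → ℂ
  XV : ℕ → ℝ → PvtTurn → Conf PvPt → ℂ
  f : ℕ → ℝ → Conf PvPt → ℂ
  r : ℕ → ℝ → ℝ
  β' : ℝ≥0∞
  q : ℝ≥0∞
  Mk : ℕ → ℝ → ℕ → Set ℂ
  c : ℝ
  c0 : 0 ≤ c
  B : ℕ → Set ℂ
  a : ℕ → ℝ
  B_bdd : ∀ m, Bornology.IsBounded (B m)
  a0 : ∀ m, 0 < a m
  kδ : ∀ m ε, (kit m ε).δ = δ m
  ok : ∀ m, ∀ᶠ ε in 𝓝[>] (0 : ℝ), PvcqOk (kit m ε) ε (XQ m ε) (XV m ε) (f m ε) β' q (r m ε) (Mk m ε) c (B m) (a m)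

/-- **THE EXIT OF CHAPTER E** from the primitive form -/
noncomputable def PvcqFam.toFam {δ : ℕ → ℝ} (F : PvcqFam δ) : PvcnFam δ where
  kit := F.kit
  XQ := F.XQ
  XV := F.XV
  f := F.f
  r := F.r
  β' := F.β'
  q := F.q
  CB := pvbeCB.toReal * F.c
  CB0 := mul_nonneg ENNReal.toReal_nonneg F.c0
  kδ := F.kδ
  ok := fun m => by
    filter_upwards [F.ok m, self_mem_nhdsWithin] with ε H hε
    have e : ENNReal.ofReal (pvbeCB.toReal * F.c * δ m ^ 2) = pvbeCB * ENNReal.ofReal (F.c * (F.kit m ε).δ ^ 2) := by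
      rw [F.kδ, mul_assoc, ENNReal.ofReal_mul ENNReal.toReal_nonneg, ENNReal.ofReal_toReal pvbe_CB_ne_top]
    rw [e]
    exact H.toOk hε
  tail := fun m => pvcq_lim (F.B_bdd m) (F.a0 m) (by
    filter_upwards [F.ok m, self_mem_nhdsWithin] with ε H hε
    exact H.tail hε)

/-- **THE NUMBERS OF THE WALL** from the primitive form -/
noncomputable def pvcqNum {τ : Type} {c : ℝ} (c0 : 0 < c) (𝔐 : PvbMenu τ) (Γ : ℕ → PvtsGeo τ) (F : PvcqFam (fun m => (Γ m).δ)) (kin0 : ℕ → ℝ → ℂ → ℂ) : PvhbNum τ c :=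
  pvnoNum c0 𝔐 Γ F.toFam kin0

theorem pvcq_eqns_cite3 : True := by
  have := @PvcqFam.toFam.eq_1; have := @pvcqNum.eq_1
  trivial

/-! ## 6. `Q` ALONE      (ruling 12 of the arbiter 234; `PvcnFamQ`, `pvnoNumQ` of `Tr/CellNum.lean` sec. 4) -/

/-- **JOINT RECOGNITION ON A CLOSED WORD, `Q` ONLY** -/
def PvcqLoopQ (ε : ℝ) (kit : PvthKit) (XQ : PvtTurn → Conf PvPt → ℂ) (z d : ℂ) (l : List PvtTurn) (Mk : ℕ → Set ℂ) (B : Set ℂ) (a : ℝ) : Prop :=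
  ∀ᵐ η ∂(pvP ε), η ∈ kit.Ev z d l → ∃ x, pvbeTag η x ∧ pvclIn η B x ∧ pvclBig η a x ∧
    (∀ y, pvqSame (DelTri (cfSites η)) (cfCol η) x y → ∃ j < l.length, pvqBar (cfSites η) y ∈ Mk j) ∧
    ∀ j < l.length, kit.Xj XQ z d l j η = pvbeLab pvqWQ ((Mk j).indicator 1) η x

section loopQ

variable {ε : ℝ} {kit : PvthKit} {XQ XV : PvtTurn → Conf PvPt → ℂ} {z d : ℂ} {l : List PvtTurn} {Mk : ℕ → Set ℂ} {B : Set ℂ} {a : ℝ}

theorem PvcqLoop.toQ (h : PvcqLoop ε kit XQ XV z d l Mk B a) : PvcqLoopQ ε kit XQ z d l Mk B a := by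
  filter_upwards [h] with η h1 hη
  obtain ⟨x, hx, hin, hbig, hc, h2⟩ := h1 hη
  exact ⟨x, hx, hin, hbig, hc, fun j hj => (h2 j hj).1⟩

theorem PvcqLoopQ.rec (h : PvcqLoopQ ε kit XQ z d l Mk B a) {j : ℕ} (hj : j < l.length) :
    PvbeRec ε pvqWQ ((Mk j).indicator 1) (kit.Ev z d l) (kit.Xj XQ z d l j) := by
  filter_upwards [h] with η h1 hη
  obtain ⟨x, hx, -, -, -, h2⟩ := h1 hη
  exact ⟨x, hx, h2 j hj⟩

theorem PvcqLoopQ.closed (h : PvcqLoopQ ε kit XQ z d l Mk B a) (hε : 0 < ε) (hd : ∀ i < l.length, ∀ j < l.length, i ≠ j → Disjoint (Mk i) (Mk j)) :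
    PvcqRec ε B a (kit.Ev z d l) (kit.Y XQ z d l) := by
  filter_upwards [h, pvqf_raw_same_ae hε] with η h1 hf hη
  obtain ⟨x, hx, hin, hbig, hc, h2⟩ := h1 hη
  refine ⟨x, hx, hin, hbig, ?_⟩
  unfold PvthKit.Y pvcqQ
  rw [← pvcq_mask_sum pvqWQ (hf x) hd hc]
  exact Finset.sum_congr rfl fun j hj => h2 j (Finset.mem_range.1 hj)

theorem PvcqLoopQ.bes (h : PvcqLoopQ ε kit XQ z d l Mk B a) (hε : 0 < ε) {j : ℕ} (hj : j < l.length) (hM : MeasurableSet (Mk j)) (hb : Bornology.IsBounded (Mk j)) :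
    ∫⁻ η, ‖kit.Xj XQ z d l j η‖ₑ ^ 2 * (kit.Ev z d l).indicator 1 η ∂(pvP ε) ≤ pvbeCB * volume (Mk j) :=
  pvbe_kit_hbes pvbe_in_Q' hε hM hb (h.rec hj)

end loopQ

/-- all the hypotheses on ONE kit at ONE mesh, `Q` only, primitive form -/
structure PvcqOkQ (kit : PvthKit) (ε : ℝ) (XQ : PvtTurn → Conf PvPt → ℂ) (β' q : ℝ≥0∞) (r : ℝ) (Mk : ℕ → Set ℂ) (c : ℝ) (B : Set ℂ) (a : ℝ) : Prop where
  wf : kit.WF
  ref : PvccKitRef kit r
  fQ : kit.Fld XQ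
  frc : kit.Forced (pvP ε) β' q
  M_meas : ∀ j < 8, MeasurableSet (Mk j)
  M_bdd : ∀ j < 8, Bornology.IsBounded (Mk j)
  M_disj : ∀ i < 8, ∀ j < 8, i ≠ j → Disjoint (Mk i) (Mk j)
  M_vol : ∀ j < 8, volume (Mk j) ≤ ENNReal.ofReal (c * kit.δ ^ 2)
  loop : PvcqLoopQ ε kit XQ 0 1 pvcnHex Mk B a

namespace PvcqOkQ

variable {kit : PvthKit} {ε : ℝ} {XQ : PvtTurn → Conf PvPt → ℂ} {β' q : ℝ≥0∞} {r : ℝ} {Mk : ℕ → Set ℂ} {c : ℝ} {B : Set ℂ} {a : ℝ}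

theorem toOk (H : PvcqOkQ kit ε XQ β' q r Mk c B a) (hε : 0 < ε) : PvcnOkQ kit ε XQ β' q (pvbeCB * ENNReal.ofReal (c * kit.δ ^ 2)) r where
  wf := H.wf
  ref := H.ref
  fQ := H.fQ
  frc := H.frc
  B_fin := ENNReal.mul_ne_top pvbe_CB_ne_top ENNReal.ofReal_ne_top
  besQ := fun j hj => (H.loop.bes hε (by rw [pvcc_hex_length]; exact hj) (H.M_meas j hj) (H.M_bdd j hj)).trans (by gcongr; exact H.M_vol j hj)

theorem tail (H : PvcqOkQ kit ε XQ β' q r Mk c B a) (hε : 0 < ε) : PvcqRec ε B a (kit.Ev 0 1 pvcnHex) (kit.Y XQ 0 1 pvcnHex) :=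
  H.loop.closed hε (by rw [pvcc_hex_length]; exact H.M_disj)

end PvcqOkQ

/-- **THE INPUT OF CHAPTER E, `Q` ONLY, PRIMITIVE FORM** -/
structure PvcqFamQ (δ : ℕ → ℝ) where
  kit : ℕ → ℝ → PvthKit
  XQ : ℕ → ℝ → PvtTurn → Conf PvPt → ℂ
  r : ℕ → ℝ → ℝ
  β' : ℝ≥0∞
  q : ℝ≥0∞
  Mk : ℕ → ℝ → ℕ → Set ℂ
  c : ℝ
  c0 : 0 ≤ c
  B : ℕ → Set ℂ
  a : ℕ → ℝ
  B_bdd : ∀ m, Bornology.IsBounded (B m)
  a0 : ∀ m, 0 < a m
  kδ : ∀ m ε, (kit m ε).δ = δ m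
  ok : ∀ m, ∀ᶠ ε in 𝓝[>] (0 : ℝ), PvcqOkQ (kit m ε) ε (XQ m ε) β' q (r m ε) (Mk m ε) c (B m) (a m)

/-- **THE EXIT OF CHAPTER E, `Q` ONLY** -/
noncomputable def PvcqFamQ.toFam {δ : ℕ → ℝ} (F : PvcqFamQ δ) : PvcnFamQ δ where
  kit := F.kit
  XQ := F.XQ
  r := F.r
  β' := F.β'
  q := F.q
  CB := pvbeCB.toReal * F.c
  CB0 := mul_nonneg ENNReal.toReal_nonneg F.c0
  kδ := F.kδ
  ok := fun m => by
    filter_upwards [F.ok m, self_mem_nhdsWithin] with ε H hε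
    have e : ENNReal.ofReal (pvbeCB.toReal * F.c * δ m ^ 2) = pvbeCB * ENNReal.ofReal (F.c * (F.kit m ε).δ ^ 2) := by
      rw [F.kδ, mul_assoc, ENNReal.ofReal_mul ENNReal.toReal_nonneg, ENNReal.ofReal_toReal pvbe_CB_ne_top]
    rw [e]
    exact H.toOk hε
  tail := fun m => pvcq_lim (F.B_bdd m) (F.a0 m) (by
    filter_upwards [F.ok m, self_mem_nhdsWithin] with ε H hε
    exact H.tail hε)

/-- **THE NUMBERS OF THE WALL, `Q` ONLY**, from the primitive form -/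
noncomputable def pvcqNumQ {τ : Type} {c : ℝ} (c0 : 0 < c) (𝔐 : PvbMenu τ) (Γ : ℕ → PvtsGeo τ) (F : PvcqFamQ (fun m => (Γ m).δ)) (kin0 : ℕ → ℝ → ℂ) : PvtyNumQ τ c :=
  pvnoNumQ c0 𝔐 Γ F.toFam kin0

theorem pvcq_eqns_cite4 : True := by
  have := @PvcqLoopQ.eq_1; have := @PvcqFamQ.toFam.eq_1; have := @pvcqNumQ.eq_1
  trivial

/-! ## 7. THE GENERIC RING;   the fields [BES], [TAIL] of the GLOBAL datum of 34 (`Tr/Plug.lean`) from [CLOSE] -/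

/-- **THE RING** (generic form of `PvcqLoopQ`: any event, any `N` functionals): a.s. on `Ev` there is ONE rim (label of the tag `x`), inside `B`, of diameter `≥ a`, barycentres in the masks,
such that `X j` is the `Q`-mass of this rim in the mask `Mk j` -/
def PvcqRing (ε : ℝ) (N : ℕ) (Ev : Set (Conf PvPt)) (X : ℕ → Conf PvPt → ℂ) (Mk : ℕ → Set ℂ) (B : Set ℂ) (a : ℝ) : Prop :=
  ∀ᵐ η ∂(pvP ε), η ∈ Ev → ∃ x, pvbeTag η x ∧ pvclIn η B x ∧ pvclBig η a x ∧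
    (∀ y, pvqSame (DelTri (cfSites η)) (cfCol η) x y → ∃ j < N, pvqBar (cfSites η) y ∈ Mk j) ∧
    ∀ j < N, X j η = pvbeLab pvqWQ ((Mk j).indicator 1) η x

section ring

variable {ε : ℝ} {N : ℕ} {Ev : Set (Conf PvPt)} {X : ℕ → Conf PvPt → ℂ} {Mk : ℕ → Set ℂ} {B : Set ℂ} {a : ℝ}

theorem PvcqRing.mono {Ev' : Set (Conf PvPt)} (h : PvcqRing ε N Ev X Mk B a) (hs : Ev' ⊆ Ev) : PvcqRing ε N Ev' X Mk B a :=
  Filter.Eventually.mono h fun _ hη h' => hη (hs h')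

/-- the ring may be checked on an a.s. smaller event, for a.s. equal functionals (dictionary soft ⟶ global) -/
theorem PvcqRing.congr_ae {Ev' : Set (Conf PvPt)} {X' : ℕ → Conf PvPt → ℂ} (h : PvcqRing ε N Ev X Mk B a)
    (hd : ∀ᵐ η ∂(pvP ε), η ∈ Ev' → η ∈ Ev ∧ ∀ j < N, X' j η = X j η) : PvcqRing ε N Ev' X' Mk B a := by
  filter_upwards [h, hd] with η h1 h2 hη
  obtain ⟨h3, h4⟩ := h2 hη
  obtain ⟨x, hx, hin, hbig, hc, h5⟩ := h1 h3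
  exact ⟨x, hx, hin, hbig, hc, fun j hj => (h4 j hj).trans (h5 j hj)⟩

theorem PvcqRing.rec (h : PvcqRing ε N Ev X Mk B a) {j : ℕ} (hj : j < N) : PvbeRec ε pvqWQ ((Mk j).indicator 1) Ev (X j) := by
  filter_upwards [h] with η h1 hη
  obtain ⟨x, hx, -, -, -, h2⟩ := h1 hη
  exact ⟨x, hx, h2 j hj⟩

/-- [BES] -/
theorem PvcqRing.bes (h : PvcqRing ε N Ev X Mk B a) (hε : 0 < ε) {j : ℕ} (hj : j < N) (hM : MeasurableSet (Mk j)) (hb : Bornology.IsBounded (Mk j)) :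
    ∫⁻ η, ‖X j η‖ₑ ^ 2 * Ev.indicator 1 η ∂(pvP ε) ≤ pvbeCB * volume (Mk j) :=
  pvbe_one_mask pvbe_in_Q' hε hM hb (h.rec hj)

theorem PvcqRing.closed (h : PvcqRing ε N Ev X Mk B a) (hε : 0 < ε) (hd : ∀ i < N, ∀ j < N, i ≠ j → Disjoint (Mk i) (Mk j)) :
    PvcqRec ε B a Ev (fun η => ∑ j ∈ Finset.range N, X j η) := by
  filter_upwards [h, pvqf_raw_same_ae hε] with η h1 hf hη
  obtain ⟨x, hx, hin, hbig, hc, h2⟩ := h1 hη
  refine ⟨x, hx, hin, hbig, ?_⟩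
  unfold pvcqQ
  rw [← pvcq_mask_sum pvqWQ (hf x) hd hc]
  exact Finset.sum_congr rfl fun j hj => h2 j (Finset.mem_range.1 hj)

/-- [TAIL], one mesh -/
theorem PvcqRing.tail (h : PvcqRing ε N Ev X Mk B a) (hε : 0 < ε) (hB : Bornology.IsBounded B) (hd : ∀ i < N, ∀ j < N, i ≠ j → Disjoint (Mk i) (Mk j)) :
    ∫⁻ η, ‖∑ j ∈ Finset.range N, X j η‖ₑ ^ 2 * Ev.indicator 1 η ∂(pvP ε) ≤ ∫⁻ η, pvclSum η B a ∂(pvP ε) :=
  pvcq_one hε hB (h.closed hε hd)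

/-- the loop of a kit is a ring -/
theorem pvcq_loop_iff_ring {kit : PvthKit} {XQ : PvtTurn → Conf PvPt → ℂ} {z d : ℂ} {l : List PvtTurn} :
    PvcqLoopQ ε kit XQ z d l Mk B a ↔ PvcqRing ε l.length (kit.Ev z d l) (kit.Xj XQ z d l) Mk B a := Iff.rfl

end ring

/-- the placed GLOBAL mass of the cell number `j` of the hexagon word -/
noncomputable def PvpgGlob.Xh (𝔊 : PvpgGlob) (j : ℕ) : Conf PvPt → ℂ := pvthX 𝔊.XQ (pvthZ 𝔊.δ 0 1 pvcnHex j) (pvthD 1 pvcnHex j) (pvthL pvcnHex j)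

/-- **[CLOSE]** for the global datum: the ring on the hexagon word, a statement on GLOBAL objects of one nice configuration -/
def PvpgGlob.Close (𝔊 : PvpgGlob) (ε : ℝ) (Mk : ℕ → Set ℂ) (B : Set ℂ) (a : ℝ) : Prop := PvcqRing ε 8 (𝔊.EvG 0 1 pvcnHex) 𝔊.Xh Mk B a

theorem pvcq_eqns_cite5 : True := by
  have := @PvcqRing.eq_1; have := @PvpgGlob.Xh.eq_1; have := @PvpgGlob.Close.eq_1
  trivial

section plug

variable {𝔊 : PvpgGlob} {ε : ℝ} {Mk : ℕ → Set ℂ} {B : Set ℂ} {a c : ℝ}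

/-- **the field `bes` of `PvpgGlob.Ok`** from [CLOSE], with `CB = pvbeCB.toReal * c`, masks of area `≤ c δ²` -/
theorem pvcq_plug_bes (h : 𝔊.Close ε Mk B a) (hε : 0 < ε) (hM : ∀ j < 8, MeasurableSet (Mk j)) (hb : ∀ j < 8, Bornology.IsBounded (Mk j))
    (hv : ∀ j < 8, volume (Mk j) ≤ ENNReal.ofReal (c * 𝔊.δ ^ 2)) :
    ∀ j < 8, ∫⁻ η, ‖pvthX 𝔊.XQ (pvthZ 𝔊.δ 0 1 pvcnHex j) (pvthD 1 pvcnHex j) (pvthL pvcnHex j) η‖ₑ ^ 2 * (𝔊.EvG 0 1 pvcnHex).indicator 1 η ∂(pvP ε)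
      ≤ ENNReal.ofReal (pvbeCB.toReal * c * 𝔊.δ ^ 2) := by
  intro j hj
  rw [mul_assoc, ENNReal.ofReal_mul ENNReal.toReal_nonneg, ENNReal.ofReal_toReal pvbe_CB_ne_top]
  exact (PvcqRing.bes h hε hj (hM j hj) (hb j hj)).trans (by gcongr; exact hv j hj)

/-- **the field `tail` of `PvpgFam`** from [CLOSE]:   the datum, the box and the diameter depend on the level only, the masks may depend on the mesh -/
theorem pvcq_plug_tail {Mks : ℝ → ℕ → Set ℂ} (hB : Bornology.IsBounded B) (ha : 0 < a)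
    (h : ∀ᶠ ε in 𝓝[>] (0 : ℝ), 𝔊.Close ε (Mks ε) B a ∧ ∀ i < 8, ∀ j < 8, i ≠ j → Disjoint (Mks ε i) (Mks ε j)) :
    Tendsto (fun ε => ∫⁻ η, ‖∑ j ∈ Finset.range 8, pvthX 𝔊.XQ (pvthZ 𝔊.δ 0 1 pvcnHex j) (pvthD 1 pvcnHex j) (pvthL pvcnHex j) η‖ₑ ^ 2 *
      (𝔊.EvG 0 1 pvcnHex).indicator 1 η ∂(pvP ε)) (𝓝[>] (0 : ℝ)) (𝓝 0) := by
  refine pvcq_lim (Evs := fun _ => 𝔊.EvG 0 1 pvcnHex)
    (Ys := fun _ η => ∑ j ∈ Finset.range 8, pvthX 𝔊.XQ (pvthZ 𝔊.δ 0 1 pvcnHex j) (pvthD 1 pvcnHex j) (pvthL pvcnHex j) η) hB ha ?_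
  filter_upwards [h, self_mem_nhdsWithin] with ε h1 hε
  exact PvcqRing.closed h1.1 hε h1.2

end plug

/-- **NUM, `Q` ALONE, FROM THE GLOBAL DATA OF 34** -/
noncomputable def pvcqNumPlug {τ : Type} {c : ℝ} (c0 : 0 < c) (𝔐 : PvbMenu τ) (Γ : ℕ → PvtsGeo τ) (F : PvpgFam (fun m => (Γ m).δ)) (kin0 : ℕ → ℝ → ℂ) : PvtyNumQ τ c :=
  pvnoNumQ c0 𝔐 Γ F.toFam.toQ kin0

theorem pvcq_eqns_cite6 : True := by
  have := @pvcqNumPlug.eq_1
  trivial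

/-- what `W` is -/
theorem pvcq_numPlug_W {τ : Type} {c : ℝ} (c0 : 0 < c) (𝔐 : PvbMenu τ) (Γ : ℕ → PvtsGeo τ) (F : PvpgFam (fun m => (Γ m).δ)) (kin0 : ℕ → ℝ → ℂ) (m : ℕ) (ε : ℝ) :
    (pvcqNumPlug c0 𝔐 Γ F kin0).W m ε = ((F.𝔊 m).kit (pvP ε) F.b F.q).W (pvP ε) ((F.𝔊 m).fQ (pvP ε)) := rfl

end Claimed.Agent.R289
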