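-- KEEP
import Claimed.Agent.R289.Tr.CellRec
import Claimed.Agent.R289.Tr.OneWall
import Claimed.Agent.R289.Tr.StrandF
import Claimed.Agent.R289.Del.Bulk
import Claimed.Agent.R289.Tr.LaneDet
import Claimed.Agent.R289.Tr.GateB

/-!
# Row 289 (S0537), THE WALL, chapter E (cells), file Tr/KitI : [CLOSE] = THE RING ON A CLOSED WORD, DETERMINISTIC      (helper244; prefix `pvki_`, `pvki`, `Pvki`)

What the instance of the cell kit (pen 34) owes to `PvcqLoop` of 52 (`Tr/CellRec`), cut into a DETERMINISTIC statement on ONE nice configuration.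
* sec. 1  `PvkiRg T s n` : a CLOSED STRAND cut into `n` consecutive pieces (positions `a j`, lengths `N j`, `a n = a 0`) whose black layers meet at the starting points of the pieces only.
          `R.arc j` = `pvtArc` of 64 (loop erasure of the bank walk of the piece `j`).      **`pvki_ring`** : the arcs form ONE full label class and `lsum w = ∑_j psum_j w` for EVERY `w`.
          **`pvki_ring_mask`** : a mask which vanishes on the right triangles of the pieces outside `S` sees the pieces of `S` only.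
* sec. 2  the dictionary to the raw tags at a configuration `η` with `DelGood (cfSites η)`: `pvki_lab` : `pvbeLab W g η (pvqCode d) = lsum (g(bary) · W)`.
* sec. 3  **`PvkiAt`** = what must hold at `η` on the cycle event, **`pvki_loop`** : `PvkiAt` a.s. on `kit.Ev z d l`  ⟹  `PvcqLoop`.
* sec. 4  gates and runs: `PvkiGR` (n gates `Thru`, n runs `PvldRun` of 70 from `aOut` to `aIn` of the next gate, regions) ⟹ `PvkiRg T s (2 n)`.
* sec. 6  a run does not enter the gates: `pvki_first_in`, **`pvki_off_src`** (the gate left behind), **`pvki_off_tgt`** (the gate ahead), `pvki_fc_right`.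
* sec. 7  **`PvkiCell T s pos n Y Q`** = `n` CELLS AND `n` DOORS IN CYCLIC ORDER (gate `j` in the door square `Q j`, `Thru`, run `PvldRun T s {pos ∈ Y j} aOut aIn'`, F1: `g⁻(j) ∉ Y j`, `g⁺(j+1) ∉ Y j`), `PvkiGeo`, `PvkiCell.toGR`.
* sec. 8  `PvkiMask` (convex disjoint masks, `Y j ⊆ Mk j`, `Q j ⊆ Mk (j-1) ∪ Mk j`),  **`pvki_at_of_cell`** : `PvkiCell` at `η` + `PvkiMask` + `X c` = three masked `psum`s ⟹ `PvkiAt` (⟹ `PvcqRing` by `pvki_ringQ`).
* sec. 5  ROOMS: `pvki_room` (faces of a piece in a convex room ⟹ barycentres and vertices of its arc in the room), **`pvki_at_of_rooms`** : ring + convex rooms + masks ⟹ `PvkiAt`;   **`pvki_ringQ`** : `PvkiAt` a.s. on `Ev` ⟹ `PvcqRing` (= `PvpgGlob.Close`).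
-/

set_option autoImplicit false
set_option linter.unusedSectionVars false

namespace Claimed.Agent.R289

open MeasureTheory ProbabilityTheory Set Filter Topology
open scoped ENNReal NNReal

/-! ## 1. the ring of a closed strand -/

section ring

variable {V D : Type} [DecidableEq V] {T : PvMap V D} {s : V → Bool}

/-- **a closed strand cut into `n` pieces** whose black layers meet at the starting points of the pieces only -/
structure PvkiRg (T : PvMap V D) (s : V → Bool) (n : ℕ) where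
  /-- the position at which the piece `j` starts -/
  a : ℕ → D
  /-- the number of steps of the piece `j` -/
  N : ℕ → ℕ
  bw : pvasBW T s (a 0)
  step : ∀ j, j < n → pvasIt T s (a j) (N j) = a (j + 1)
  per : a n = a 0
  dis : ∀ i j, i < n → j < n → i ≠ j → ∀ v, v ∈ pvasLayB T s (a i) (N i) → v ∈ pvasLayB T s (a j) (N j) → v = T.src (a i) ∨ v = T.src (a j)

namespace PvkiRg

variable {n : ℕ} (R : PvkiRg T s n)

/-- the arc of the piece `j` -/
def arc (j : ℕ) : T.Pth := pvtArc T s (R.a j) (R.N j)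

/-- the list of the arcs -/
def arcs : List T.Pth := (List.range n).map R.arc

/-- all the darts of the ring -/
def darts : List D := pvowDarts R.arcs

end PvkiRg

theorem pvki_eqns_cite : True := by
  have := @PvkiRg.arc.eq_1; have := @PvkiRg.arcs.eq_1; have := @PvkiRg.darts.eq_1
  trivial

variable {n : ℕ} (R : PvkiRg T s n)

theorem pvki_bw {j : ℕ} (hj : j ≤ n) : pvasBW T s (R.a j) := by
  induction j with
  | zero => exact R.bw
  | succ k ih => rw [← R.step k (by omega)]; exact pvas_it_bw (ih (by omega)) _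

theorem pvki_wall {j : ℕ} (hj : j ≤ n) : T.Wall s (R.a 0) (R.a j) := by
  induction j with
  | zero => exact Relation.ReflTransGen.refl
  | succ k ih =>
    rw [← R.step k (by omega)]
    exact pl_ra_wall_trans (ih (by omega)) (pvt_s_it_wall (pvki_bw R (by omega)) _)

theorem pvki_arc_v0 (j : ℕ) : (R.arc j).v 0 = T.src (R.a j) := rfl

theorem pvki_arc_vn {j : ℕ} (hj : j < n) : (R.arc j).v (R.arc j).n = T.src (R.a (j + 1)) := by
  rw [← R.step j hj]; exact pvt_sf_arc_vn s _ _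

theorem pvki_arc_onwall {j : ℕ} (hj : j < n) : (R.arc j).OnWall s (R.a 0) :=
  pvow_onwall_trans (pvow_bank_onwall (pvki_bw R hj.le) (n := R.N j) fun _ hk => pvt_sf_arc_e_mem s _ _ hk) (pvki_wall R hj.le)

theorem pvki_arc_lay (j : ℕ) {k : ℕ} (hk : k ≤ (R.arc j).n) : (R.arc j).v k ∈ pvasLayB T s (R.a j) (R.N j) :=
  pvt_sf_arc_verts s _ _ ⟨k, hk, rfl⟩

theorem pvki_chain_aux (m k : ℕ) (h : k + m ≤ n) : pvowChain T ((List.range' k m).map R.arc) (T.src (R.a k)) (T.src (R.a (k + m))) := by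
  induction m generalizing k with
  | zero => rfl
  | succ m ih =>
    rw [List.range'_succ, List.map_cons]
    refine ⟨rfl, ?_⟩
    rw [pvki_arc_vn R (by omega)]
    have := ih (k + 1) (by omega)
    rwa [show k + 1 + m = k + (m + 1) by omega] at this

theorem pvki_chain : pvowChain T R.arcs (T.src (R.a 0)) (T.src (R.a 0)) := by
  have := pvki_chain_aux R n 0 (by omega)
  rw [Nat.zero_add, R.per, ← List.range_eq_range'] at this
  exact this

theorem pvki_heads {i j : ℕ} (hi : i < n) (hj : j < n) (hij : i ≠ j) (k l : ℕ) (hk : k < (R.arc i).n) (hl : l < (R.arc j).n) : (R.arc i).v (k + 1) ≠ (R.arc j).v (l + 1) := by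
  intro e
  rcases R.dis i j hi hj hij _ (pvki_arc_lay R i (k := k + 1) hk) (e ▸ pvki_arc_lay R j (k := l + 1) hl) with h | h
  · have := (R.arc i).inj (k + 1) 0 hk (Nat.zero_le _) h
    omega
  · have := (R.arc j).inj (l + 1) 0 hl (Nat.zero_le _) (e ▸ h)
    omega

theorem pvki_nodup : (R.darts.map T.tgt).Nodup := by
  refine pvow_nodup ?_
  unfold PvkiRg.arcs
  rw [List.pairwise_map]
  refine List.Pairwise.imp_of_mem ?_ (List.nodup_range (n := n))
  intro i j hi hj hij
  exact pvki_heads R (List.mem_range.1 hi) (List.mem_range.1 hj) hij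

theorem pvki_mem_darts {f : D} : f ∈ R.darts ↔ ∃ j, j < n ∧ ∃ k, k < (R.arc j).n ∧ (R.arc j).e k = f := by
  unfold PvkiRg.darts
  rw [pvow_mem_darts]
  constructor
  · rintro ⟨p, hp, k, hk, e⟩
    obtain ⟨j, hj, rfl⟩ := List.mem_map.1 hp
    exact ⟨j, List.mem_range.1 hj, k, hk, e⟩
  · rintro ⟨j, hj, k, hk, e⟩
    exact ⟨R.arc j, List.mem_map.2 ⟨j, List.mem_range.2 hj, rfl⟩, k, hk, e⟩

/-- **[CLOSE], abstract**: the arcs of a closed strand form ONE full label class -/
theorem pvki_ring (hT : T.IsSph) (hS : T.Simple) {g : D} (hg : g ∈ R.darts) :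
    T.Tag s (T.opp g) ∧ (∀ d', T.SameLab s (T.opp g) d' ↔ T.opp d' ∈ R.darts) ∧ ∀ w : D → ℂ, T.lsum s w (T.opp g) = ∑ j ∈ Finset.range n, (R.arc j).psum w := by
  have hw : ∀ p ∈ R.arcs, p.OnWall s (R.a 0) := by
    intro p hp
    obtain ⟨j, hj, rfl⟩ := List.mem_map.1 hp
    exact pvki_arc_onwall R (List.mem_range.1 hj)
  obtain ⟨h1, h2, h3⟩ := pvow_ring hT hS (pvki_chain R) (pvki_nodup R) hw hg
  refine ⟨h1, h2, fun w => ?_⟩
  rw [h3]
  unfold PvkiRg.arcs
  rw [List.map_map, List.range_eq_range', pvow_range_sum]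
  rfl

/-- **[MASK], abstract**: a mask which vanishes on the right triangles of the pieces outside `S` sees the pieces of `S` only -/
theorem pvki_ring_mask (hT : T.IsSph) (hS : T.Simple) {g : D} (hg : g ∈ R.darts) (w χ : D → ℂ) (S : Finset ℕ) (hSn : ∀ j ∈ S, j < n)
    (hχ : ∀ j, j < n → j ∉ S → ∀ k, k < (R.arc j).n → χ (T.opp ((R.arc j).e k)) = 0) :
    T.lsum s (fun d => χ d * w d) (T.opp g) = ∑ j ∈ S, (R.arc j).psum fun d => χ d * w d := by
  rw [(pvki_ring R hT hS hg).2.2]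
  refine (Finset.sum_subset (fun j hj => Finset.mem_range.2 (hSn j hj)) fun j hj hjS => ?_).symm
  unfold PvMap.Pth.psum
  exact Finset.sum_eq_zero fun k hk => by
    show χ (T.opp ((R.arc j).e k)) * w (T.opp ((R.arc j).e k)) = 0
    rw [hχ j (Finset.mem_range.1 hj) hjS k (Finset.mem_range.1 hk), zero_mul]

/-- a junction which is not degenerate is the head of a dart of the ring -/
theorem pvki_junction {j : ℕ} (hj : j < n) (hne : T.src (R.a j) ≠ T.src (R.a (j + 1))) : ∃ f ∈ R.darts, T.tgt f = T.src (R.a (j + 1)) := by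
  have h0 : (R.arc j).n ≠ 0 := by
    intro h0
    apply hne
    rw [← pvki_arc_vn R hj, h0]
    rfl
  refine ⟨(R.arc j).e ((R.arc j).n - 1), (pvki_mem_darts R).2 ⟨j, hj, _, by omega, rfl⟩, ?_⟩
  rw [(R.arc j).tgt_e _ (by omega), ← pvki_arc_vn R hj]
  congr 1
  omega

end ring

/-! ## 2. the dictionary to the raw tags -/

section dict

variable {Y : Set ℂ}

/-- the raw code of a dart of a triangulation with vertex set `Y` -/
def pvkiCode {P : PlTri ↥Y} (d : P.Dart) : ℂ × ℂ := (d.1.1.1, d.1.2.1)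

theorem pvki_eqns_cite2 : True := by
  have := @pvkiCode.eq_1
  trivial

theorem pvki_code_tag (h : DelGood Y) {P : PlTri ↥Y} (hP : P = delPl h) (s : ℂ → Bool) (d : P.Dart) : pvqTag (DelTri Y) s (pvkiCode d) ↔ P.toMap.Tag (s ∘ Subtype.val) d := by
  subst hP; exact pvq_del_tag h s d

theorem pvki_code_same (h : DelGood Y) {P : PlTri ↥Y} (hP : P = delPl h) (s : ℂ → Bool) (d : P.Dart) (y : ℂ × ℂ) :
    pvqSame (DelTri Y) s (pvkiCode d) y ↔ ∃ d', y = pvkiCode d' ∧ P.toMap.SameLab (s ∘ Subtype.val) d d' := by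
  subst hP; exact pvq_del_same h s d y

theorem pvki_code_sum (h : DelGood Y) {P : PlTri ↥Y} (hP : P = delPl h) (s : ℂ → Bool) (w : ℂ × ℂ → ℂ) (d : P.Dart) :
    pvqSum (DelTri Y) s w (pvkiCode d) = P.toMap.lsum (s ∘ Subtype.val) (fun d' => w (pvkiCode d')) d := by
  subst hP; exact pvq_del_sum h s w d

theorem pvki_code_qpart (h : DelGood Y) {P : PlTri ↥Y} (hP : P = delPl h) (d : P.Dart) : pvqWQ Y (pvkiCode d) = P.toMap.qpart Subtype.val d := by
  subst hP; exact pvq_del_qpart h d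

theorem pvki_code_bary (h : DelGood Y) {P : PlTri ↥Y} (hP : P = delPl h) (d : P.Dart) : pvqBar Y (pvkiCode d) = P.toMap.bary Subtype.val d := by
  subst hP; rfl

end dict

/-- the plane map of the configuration `η` (model of record: total Delaunay plane of 219) -/
noncomputable abbrev pvkiT (η : Conf PvPt) : PvMap ↥(cfSites η) (delbPl (cfSites η)).Dart := (delbPl (cfSites η)).toMap

/-- its colouring (`true` = black) -/
noncomputable abbrev pvkiS (η : Conf PvPt) : ↥(cfSites η) → Bool := cfCol η ∘ Subtype.val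

/-- the summand of `Q` masked by `M` (the mask tests the BARYCENTRE of the tag triangle) -/
noncomputable def pvkiW (η : Conf PvPt) (M : Set ℂ) (d : (delbPl (cfSites η)).Dart) : ℂ :=
  M.indicator (1 : ℂ → ℂ) ((pvkiT η).bary Subtype.val d) * (pvkiT η).qpart Subtype.val d

theorem pvki_eqns_cite3 : True := by
  have := @pvkiW.eq_1
  trivial

/-- the mass of a label against a mask, in the language of the plane map -/
theorem pvki_lab {η : Conf PvPt} (h : DelGood (cfSites η)) (M : Set ℂ) (d : (delbPl (cfSites η)).Dart) :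
    pvbeLab pvqWQ (M.indicator 1) η (pvkiCode d) = (pvkiT η).lsum (pvkiS η) (pvkiW η M) d := by
  unfold pvbeLab
  rw [pvki_code_sum h (delb_pl_eq h)]
  congr 1
  funext d'
  rw [pvki_code_qpart h (delb_pl_eq h), pvki_code_bary h (delb_pl_eq h)]
  rfl

/-! ## 3. from the ring at one configuration to `PvcqLoopQ` -/

/-- **WHAT MUST HOLD AT `η` ON THE CYCLE EVENT** (`L` cells, fields `X c`, masks `Mk c`, box `B`, diameter `a`): a ring (closed strand cut into pieces) inside `B`, of diameter `≥ a`, all its barycentres in the masks;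
the field of the cell `c` is the mass in `Mk c` of the arcs of a set `S` of pieces, and no other piece has a barycentre in `Mk c` -/
structure PvkiAt (η : Conf PvPt) (L : ℕ) (X : ℕ → ℂ) (Mk : ℕ → Set ℂ) (B : Set ℂ) (a : ℝ) : Prop where
  good : DelGood (cfSites η)
  ring : ∃ (n : ℕ) (R : PvkiRg (pvkiT η) (pvkiS η) n),
    (∀ f ∈ R.darts, (((pvkiT η).tgt f : ↥(cfSites η)) : ℂ) ∈ B) ∧
    (∃ f ∈ R.darts, ∃ f' ∈ R.darts, a ≤ ‖(((pvkiT η).tgt f : ↥(cfSites η)) : ℂ) - (((pvkiT η).tgt f' : ↥(cfSites η)) : ℂ)‖) ∧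
    (∀ f ∈ R.darts, ∃ c < L, (pvkiT η).bary Subtype.val ((pvkiT η).opp f) ∈ Mk c) ∧
    ∀ c < L, ∃ S : Finset ℕ, (∀ j ∈ S, j < n) ∧
      (∀ j, j < n → j ∉ S → ∀ k, k < (R.arc j).n → (pvkiT η).bary Subtype.val ((pvkiT η).opp ((R.arc j).e k)) ∉ Mk c) ∧
      X c = ∑ j ∈ S, (R.arc j).psum (pvkiW η (Mk c))

/-- [CLOSE] at one configuration, in the raw language of I.BES and I.TAIL -/
theorem PvkiAt.tag {η : Conf PvPt} {L : ℕ} {X : ℕ → ℂ} {Mk : ℕ → Set ℂ} {B : Set ℂ} {a : ℝ} (H : PvkiAt η L X Mk B a) :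
    ∃ x, pvbeTag η x ∧ pvclIn η B x ∧ pvclBig η a x ∧ (∀ y, pvqSame (DelTri (cfSites η)) (cfCol η) x y → ∃ j < L, pvqBar (cfSites η) y ∈ Mk j) ∧
      ∀ j < L, X j = pvbeLab pvqWQ ((Mk j).indicator 1) η x := by
  classical
  obtain ⟨h, n, R, hB, ⟨f, hf, f', hf', hbig⟩, hbar, hX⟩ := H
  have hT : (pvkiT η).IsSph := delb_plane_isSph h
  have hS : (pvkiT η).Simple := (delbPl (cfSites η)).toMap_simple
  obtain ⟨h1, h2, -⟩ := pvki_ring R hT hS hf
  have hP := delb_pl_eq h
  have key : ∀ f₁ ∈ R.darts, pvqSame (DelTri (cfSites η)) (cfCol η) (pvkiCode ((pvkiT η).opp f)) (pvkiCode ((pvkiT η).opp f₁)) := fun f₁ hf₁ =>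
    (pvki_code_same h hP _ _ _).2 ⟨_, rfl, (h2 _).2 (by rw [(pvkiT η).opp_opp]; exact hf₁)⟩
  refine ⟨pvkiCode ((pvkiT η).opp f), (pvki_code_tag h hP _ _).2 h1, ?_, ⟨_, _, key f hf, key f' hf', hbig⟩, ?_, ?_⟩
  · intro y hy
    obtain ⟨d', rfl, hd'⟩ := (pvki_code_same h hP _ _ _).1 hy
    have := hB _ ((h2 d').1 hd')
    rwa [(pvkiT η).tgt_opp] at this
  · intro y hy
    obtain ⟨d', rfl, hd'⟩ := (pvki_code_same h hP _ _ _).1 hy
    obtain ⟨c, hc, hm⟩ := hbar _ ((h2 d').1 hd')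
    rw [(pvkiT η).opp_opp] at hm
    exact ⟨c, hc, by rw [pvki_code_bary h hP]; exact hm⟩
  · intro c hc
    obtain ⟨S, hSn, hout, e⟩ := hX c hc
    rw [e, pvki_lab h]
    exact (pvki_ring_mask R hT hS hf ((pvkiT η).qpart Subtype.val) (fun d => (Mk c).indicator (1 : ℂ → ℂ) ((pvkiT η).bary Subtype.val d)) S hSn
      fun j hj hjS k hk => Set.indicator_of_notMem (hout j hj hjS k hk) _).symm

/-- **[CLOSE]**: the ring a.s. on the cycle event gives the joint recognition of 52 -/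
theorem pvki_loop {ε : ℝ} {kit : PvthKit} {XQ : PvtTurn → Conf PvPt → ℂ} {z d : ℂ} {l : List PvtTurn} {Mk : ℕ → Set ℂ} {B : Set ℂ} {a : ℝ}
    (h : ∀ᵐ η ∂(pvP ε), η ∈ kit.Ev z d l → PvkiAt η l.length (fun j => kit.Xj XQ z d l j η) Mk B a) : PvcqLoopQ ε kit XQ z d l Mk B a := by
  filter_upwards [h] with η h1 hη
  exact (h1 hη).tag

/-! ## 4. gates and runs -/

section gates

variable {V D : Type} [DecidableEq V] {T : PvMap V D} {s : V → Bool}

/-- **`n` gates and `n` runs in cyclic order**: the strand goes through the gate `j` (`Thru`), runs from its exit `aOut` to the entrance `aIn` of the gate `j + 1` inside the set of sites `K j` (`PvldRun` of 70);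
the sites of the runs lie on the closed outside of all the gates, two runs have no common black site, the closed insides of two gates are disjoint -/
structure PvkiGR (T : PvMap V D) (s : V → Bool) (n : ℕ) where
  g : ℕ → T.Gate s
  K : ℕ → Set V
  per : g n = g 0
  fin : ∀ j, j < n → (g j).c.Left.Finite
  thru : ∀ j, j < n → (g j).Thru
  run : ∀ j, j < n → PvldRun T s (K j) (g j).aOut (g (j + 1)).aIn
  out : ∀ i j, i < n → j < n → K j ⊆ T.VOf (g i).c.Right
  KK : ∀ i j, i < n → j < n → i ≠ j → ∀ v, v ∈ K i → v ∈ K j → s v = false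
  GG : ∀ i j, i < n → j < n → i ≠ j → Disjoint (T.VOf (g i).c.Left) (T.VOf (g j).c.Left)

namespace PvkiGR

variable {n : ℕ} (G : PvkiGR T s n)

/-- the positions: entrance and exit of the gates, alternately -/
def pos (k : ℕ) : D := if k % 2 = 0 then (G.g (k / 2)).aIn else (G.g (k / 2)).aOut

/-- the lengths: inner strands and runs, alternately -/
noncomputable def len (k : ℕ) : ℕ := if k % 2 = 0 then (G.g (k / 2)).len else pvasHit T s (G.g (k / 2)).aOut {(G.g (k / 2 + 1)).aIn}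

end PvkiGR

theorem pvki_eqns_cite4 : True := by
  have := @PvkiGR.pos.eq_1; have := @PvkiGR.len.eq_1
  trivial

variable {n : ℕ} (G : PvkiGR T s n)

theorem pvki_gr_pos_even (j : ℕ) : G.pos (2 * j) = (G.g j).aIn := by
  unfold PvkiGR.pos
  rw [if_pos (by omega), show 2 * j / 2 = j by omega]

theorem pvki_gr_pos_odd (j : ℕ) : G.pos (2 * j + 1) = (G.g j).aOut := by
  unfold PvkiGR.pos
  rw [if_neg (by omega), show (2 * j + 1) / 2 = j by omega]

theorem pvki_gr_len_even (j : ℕ) : G.len (2 * j) = (G.g j).len := by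
  unfold PvkiGR.len
  rw [if_pos (by omega), show 2 * j / 2 = j by omega]

theorem pvki_gr_len_odd (j : ℕ) : G.len (2 * j + 1) = pvasHit T s (G.g j).aOut {(G.g (j + 1)).aIn} := by
  unfold PvkiGR.len
  rw [if_neg (by omega), show (2 * j + 1) / 2 = j by omega]

theorem pvki_gr_lay_even (j : ℕ) : pvasLayB T s (G.pos (2 * j)) (G.len (2 * j)) = (G.g j).bank := by
  rw [pvki_gr_pos_even, pvki_gr_len_even]; rfl

theorem pvki_gr_lay_odd {j : ℕ} (hj : j < n) : pvasLayB T s (G.pos (2 * j + 1)) (G.len (2 * j + 1)) ⊆ G.K j := by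
  rw [pvki_gr_pos_odd, pvki_gr_len_odd]; exact (pvld_run_lay (G.run j hj)).1

theorem pvki_gr_vp_mem {j : ℕ} (hj : j < n) : (G.g j).vp ∈ G.K j := by
  refine (pvld_run_lay (G.run j hj)).1 ⟨0, Nat.zero_le _, ?_⟩
  exact pvtg_aOut_src _

/-- a site of the bank of the gate `i` which is a site of the run `j` is `g⁻` of the gate `i` or `g⁺` of the gate `j` -/
theorem pvki_gr_bank_run (hT : T.IsSph) {i j : ℕ} (hi : i < n) (hj : j < n) {v : V} (h1 : v ∈ (G.g i).bank) (h2 : v ∈ G.K j) : v = (G.g i).vm ∨ v = (G.g j).vp := by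
  obtain ⟨h3, h4⟩ := pvtg_bank_sub hT (G.g i) (G.fin i hi) h1
  rcases pvtg_meet hT (G.g i) h3 (G.out i j hi hj h2) h4 with h | h
  · exact Or.inl h
  · by_cases hij : i = j
    · subst hij; exact Or.inr h
    · have := G.KK i j hi hj hij v (h ▸ pvki_gr_vp_mem G hi) h2
      rw [h4] at this
      exact absurd this (by simp)

/-- **gates + runs ⟹ a closed strand cut into `2 n` pieces** -/
noncomputable def PvkiGR.toRg (hT : T.IsSph) : PvkiRg T s (2 * n) where
  a := G.pos
  N := G.len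
  bw := by
    have := pvki_gr_pos_even G 0
    rw [Nat.mul_zero] at this
    rw [this]; exact pvtg_aIn_bw _
  step := by
    intro k hk
    rcases Nat.even_or_odd' k with ⟨j, rfl | rfl⟩
    · rw [pvki_gr_pos_even, pvki_gr_len_even, pvki_gr_pos_odd]
      exact G.thru j (by omega)
    · rw [pvki_gr_pos_odd, pvki_gr_len_odd, show 2 * j + 1 + 1 = 2 * (j + 1) by omega, pvki_gr_pos_even]
      exact (pvld_run_hit (G.run j (by omega))).2.1
  per := by
    have := pvki_gr_pos_even G 0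
    rw [Nat.mul_zero] at this
    rw [pvki_gr_pos_even, this, G.per]
  dis := by
    intro i j hi hj hij v hv hv'
    rcases Nat.even_or_odd' i with ⟨i, rfl | rfl⟩ <;> rcases Nat.even_or_odd' j with ⟨j, rfl | rfl⟩
    · exfalso
      rw [pvki_gr_lay_even] at hv hv'
      exact Set.disjoint_left.1 (G.GG i j (by omega) (by omega) (by omega)) (pvtg_bank_sub hT _ (G.fin i (by omega)) hv).1 (pvtg_bank_sub hT _ (G.fin j (by omega)) hv').1
    · rw [pvki_gr_lay_even] at hv
      rw [pvki_gr_pos_even, pvki_gr_pos_odd, pvtg_aOut_src]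
      exact pvki_gr_bank_run G hT (by omega) (by omega) hv (pvki_gr_lay_odd G (by omega) hv')
    · rw [pvki_gr_lay_even] at hv'
      rw [pvki_gr_pos_even, pvki_gr_pos_odd, pvtg_aOut_src]
      exact (pvki_gr_bank_run G hT (by omega) (by omega) hv' (pvki_gr_lay_odd G (by omega) hv)).symm
    · exfalso
      have h1 := G.KK i j (by omega) (by omega) (by omega) v (pvki_gr_lay_odd G (by omega) hv) (pvki_gr_lay_odd G (by omega) hv')
      obtain ⟨t, -, rfl⟩ := hv
      have h2 : pvasBW T s (G.pos (2 * i + 1)) := by rw [pvki_gr_pos_odd]; exact pvtg_aOut_bw _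
      have h3 := (pvas_it_bw h2 t).1
      rw [h3] at h1
      exact absurd h1 (by simp)

theorem pvki_eqns_cite5 : True := by
  have := @PvkiGR.toRg.eq_1
  trivial

/-- the inner arc of the gate `j` (from `g⁻` to `g⁺`) and the arc of the run `j` (from `g⁺` of the gate `j` to `g⁻` of the gate `j + 1`) -/
theorem pvki_gr_arc_even (hT : T.IsSph) (j : ℕ) : (G.toRg hT).arc (2 * j) = pvtArc T s (G.g j).aIn (G.g j).len := by
  show pvtArc T s (G.pos (2 * j)) (G.len (2 * j)) = _
  rw [pvki_gr_pos_even, pvki_gr_len_even]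

theorem pvki_gr_arc_odd (hT : T.IsSph) (j : ℕ) : (G.toRg hT).arc (2 * j + 1) = pvtArc T s (G.g j).aOut (pvasHit T s (G.g j).aOut {(G.g (j + 1)).aIn}) := by
  show pvtArc T s (G.pos (2 * j + 1)) (G.len (2 * j + 1)) = _
  rw [pvki_gr_pos_odd, pvki_gr_len_odd]

/-- `g⁺` of every gate is the head of a dart of the ring -/
theorem pvki_gr_vp_head (hT : T.IsSph) {j : ℕ} (hj : j < n) : ∃ f ∈ (G.toRg hT).darts, T.tgt f = (G.g j).vp := by
  have h := pvki_junction (G.toRg hT) (j := 2 * j) (by omega)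
  have e1 : (G.toRg hT).a (2 * j) = (G.g j).aIn := pvki_gr_pos_even G j
  have e2 : (G.toRg hT).a (2 * j + 1) = (G.g j).aOut := pvki_gr_pos_odd G j
  rw [e1, e2, pvtg_aOut_src] at h
  exact h (pvtg_ne _)

end gates

/-! ## 5. rooms: where the barycentres of a piece are -/

theorem pvki_bary_convex {M : Set ℂ} (hM : Convex ℝ M) {x y z : ℂ} (hx : x ∈ M) (hy : y ∈ M) (hz : z ∈ M) : (x + y + z) / 3 ∈ M := by
  have h1 : (x + y + z) / 3 = (1 / 3 : ℝ) • x + (2 / 3 : ℝ) • ((1 / 2 : ℝ) • y + (1 / 2 : ℝ) • z) := by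
    simp only [Complex.real_smul]
    push_cast
    ring
  rw [h1]
  exact hM hx (hM hy hz (by norm_num) (by norm_num) (by norm_num)) (by norm_num) (by norm_num) (by norm_num)

section rooms

variable {V D : Type} [DecidableEq V] {T : PvMap V D} {s : V → Bool}

/-- the three vertices of a face crossed by a strand -/
theorem pvki_fc_verts {a : D} {N : ℕ} {d : D} (hd : d ∈ pvasFc T s a N) :
    T.src d ∈ T.VOf (pvasFc T s a N) ∧ T.tgt d ∈ T.VOf (pvasFc T s a N) ∧ T.apex d ∈ T.VOf (pvasFc T s a N) := by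
  obtain ⟨i, hi, hsf⟩ := hd
  exact ⟨⟨d, ⟨i, hi, hsf⟩, rfl⟩, ⟨T.nxt d, ⟨i, hi, T.sf_trans hsf (T.sf_nxt d)⟩, rfl⟩, ⟨T.nxt (T.nxt d), ⟨i, hi, T.sf_trans hsf (T.sf_nxt2 d)⟩, rfl⟩⟩

/-- **ROOM**: if the vertices of the faces crossed by the piece `j` lie in the convex set `Z`, so do the barycentres of the tags of its arc and the vertices of its arc -/
theorem pvki_room {n : ℕ} (R : PvkiRg T s n) (pos : V → ℂ) {j : ℕ} (hj : j < n) {Z : Set ℂ} (hZ : Convex ℝ Z)
    (h : ∀ v ∈ T.VOf (pvasFc T s (R.a j) (R.N j)), pos v ∈ Z) {k : ℕ} (hk : k < (R.arc j).n) :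
    T.bary pos (T.opp ((R.arc j).e k)) ∈ Z ∧ pos (T.tgt ((R.arc j).e k)) ∈ Z := by
  have h1 : T.opp ((R.arc j).e k) ∈ pvasFc T s (R.a j) (R.N j) := ((pvt_sf_arc_faced (pvki_bw R hj.le) (R.N j)).2 k hk).1
  obtain ⟨h2, h3, h4⟩ := pvki_fc_verts h1
  refine ⟨pvki_bary_convex hZ (h _ h2) (h _ h3) (h _ h4), ?_⟩
  have := h _ h2
  rwa [T.src_opp'] at this

end rooms

/-- **[CLOSE] FROM ROOMS**: a ring at `η`; the piece `i` lives in the convex room `Z i ⊆ B`, every room is covered by the masks, the rooms of the pieces outside `S c` miss the mask `Mk c` -/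
theorem pvki_at_of_rooms {η : Conf PvPt} (h : DelGood (cfSites η)) {n : ℕ} (R : PvkiRg (pvkiT η) (pvkiS η) n) {L : ℕ} {X : ℕ → ℂ} {Mk : ℕ → Set ℂ} {B : Set ℂ} {a : ℝ}
    (Z : ℕ → Set ℂ) (hZc : ∀ i, i < n → Convex ℝ (Z i))
    (hZ : ∀ i, i < n → ∀ v ∈ (pvkiT η).VOf (pvasFc (pvkiT η) (pvkiS η) (R.a i) (R.N i)), (v : ℂ) ∈ Z i)
    (hB : ∀ i, i < n → Z i ⊆ B) (hcov : ∀ i, i < n → ∀ z ∈ Z i, ∃ c < L, z ∈ Mk c)
    (S : ℕ → Finset ℕ) (hS : ∀ c, c < L → ∀ j ∈ S c, j < n) (hdis : ∀ c, c < L → ∀ i, i < n → i ∉ S c → Disjoint (Z i) (Mk c))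
    (hbig : ∃ f ∈ R.darts, ∃ f' ∈ R.darts, a ≤ ‖(((pvkiT η).tgt f : ↥(cfSites η)) : ℂ) - (((pvkiT η).tgt f' : ↥(cfSites η)) : ℂ)‖)
    (hX : ∀ c, c < L → X c = ∑ j ∈ S c, (R.arc j).psum (pvkiW η (Mk c))) : PvkiAt η L X Mk B a where
  good := h
  ring := by
    refine ⟨n, R, ?_, hbig, ?_, fun c hc => ⟨S c, hS c hc, ?_, hX c hc⟩⟩
    · intro f hf
      obtain ⟨j, hj, k, hk, rfl⟩ := (pvki_mem_darts R).1 hf
      exact hB j hj (pvki_room R Subtype.val hj (hZc j hj) (hZ j hj) hk).2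
    · intro f hf
      obtain ⟨j, hj, k, hk, rfl⟩ := (pvki_mem_darts R).1 hf
      exact hcov j hj _ (pvki_room R Subtype.val hj (hZc j hj) (hZ j hj) hk).1
    · intro j hj hjS k hk hm
      exact Set.disjoint_left.1 (hdis c hc j hj hjS) (pvki_room R Subtype.val hj (hZc j hj) (hZ j hj) hk).1 hm

/-- [CLOSE] in the generic form of 52 (`PvcqRing`, target of `PvpgGlob.Close`) -/
theorem pvki_ringQ {ε : ℝ} {N : ℕ} {Ev : Set (Conf PvPt)} {X : ℕ → Conf PvPt → ℂ} {Mk : ℕ → Set ℂ} {B : Set ℂ} {a : ℝ}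
    (h : ∀ᵐ η ∂(pvP ε), η ∈ Ev → PvkiAt η N (fun j => X j η) Mk B a) : PvcqRing ε N Ev X Mk B a := by
  filter_upwards [h] with η h1 hη
  exact (h1 hη).tag

/-! ## 6. a run does not enter the gates -/

section off

variable {V D : Type} {T : PvMap V D} {s : V → Bool}

/-- a strand which is outside the face set `A` and later inside passes an entrance of `A` -/
theorem pvki_first_in {A : Set D} (hA : T.FaceSet A) {a : D} (ha : pvasBW T s a) (h0 : a ∉ A) {i : ℕ} (hi : pvasIt T s a i ∈ A) :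
    ∃ k, 1 ≤ k ∧ k ≤ i ∧ pvasIn T A s (pvasIt T s a k) := by
  classical
  have hex : ∃ k, pvasIt T s a k ∈ A := ⟨i, hi⟩
  have hk := Nat.find_spec hex
  have hmin := fun m (hm : m < Nat.find hex) => Nat.find_min hex hm
  have hk0 : Nat.find hex ≠ 0 := by
    intro e
    rw [e] at hk
    exact h0 hk
  obtain ⟨j, hj⟩ : ∃ j, Nat.find hex = j + 1 := ⟨Nat.find hex - 1, by omega⟩
  refine ⟨Nat.find hex, by omega, Nat.find_min' hex hi, hk, ?_, pvas_it_bw ha _⟩
  rw [hj, pvas_it_succ, pvas_step_opp_mem hA]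
  exact hmin j (by omega)

/-- **the gate left behind**: a strand from `aOut` which reaches `a₁ ∉ Left` for the first time at the time `N` and whose black layer avoids `g⁻` does not come back into the gate -/
theorem pvki_off_src (hT : T.IsSph) (g : T.Gate s) (hfin : g.c.Left.Finite) {a₁ : D} {N : ℕ} (hN : pvasIt T s g.aOut N = a₁) (hfirst : ∀ i, i < N → pvasIt T s g.aOut i ≠ a₁)
    (hvm : g.vm ∉ pvasLayB T s g.aOut N) (ha₁ : a₁ ∉ g.c.Left) {i : ℕ} (hi : i ≤ N) : pvasIt T s g.aOut i ∉ g.c.Left := by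
  intro hin
  have hA := pl_left_face g.c
  have hout : pvasOut T g.c.Left s g.aOut := (pvtg_out_iff hT g _).2 (Or.inl rfl)
  obtain ⟨k, hk1, hki, hk⟩ := pvki_first_in hA (pvtg_aOut_bw g) hout.1 hin
  rcases (pvtg_in_iff hT g _).1 hk with e | e
  · exact hvm ⟨k, by omega, by rw [e]; rfl⟩
  · obtain ⟨h1, h2, h3⟩ := pvas_exit_spec hA hfin hk
    set n := pvasHit T s (pvasIt T s g.aOut k) g.c.Leftᶜ with hn
    have e3 : pvasExit T g.c.Left s (pvasIt T s g.aOut k) = pvasIt T s g.aOut (k + n) := by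
      unfold pvasExit
      rw [← hn, pvas_it_add]
    rw [e3] at h3
    by_cases hc : k + n ≤ N
    · rcases (pvtg_out_iff hT g _).1 h3 with e4 | e4
      · apply hfirst (N - (k + n)) (by omega)
        have : pvasIt T s g.aOut N = pvasIt T s (pvasIt T s g.aOut (k + n)) (N - (k + n)) := by
          rw [← pvas_it_add]; congr 1; omega
        rw [← hN, this, e4]
      · exact hvm ⟨k + n, hc, by rw [e4]; exact pvtg_bOut_src g⟩
    · apply ha₁
      have : pvasIt T s g.aOut N = pvasIt T s (pvasIt T s g.aOut k) (N - k) := by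
        rw [← pvas_it_add]; congr 1; omega
      rw [← hN, this]
      exact h2 _ (by omega)

/-- **the gate ahead**: before its first visit to `aIn` a strand which starts outside and whose black layer avoids `g⁺` is outside the gate -/
theorem pvki_off_tgt (hT : T.IsSph) (g : T.Gate s) {a : D} (ha : pvasBW T s a) (h0 : a ∉ g.c.Left) {N : ℕ} (hfirst : ∀ i, i < N → pvasIt T s a i ≠ g.aIn)
    (hvp : g.vp ∉ pvasLayB T s a N) {i : ℕ} (hi : i < N) : pvasIt T s a i ∉ g.c.Left := by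
  intro hin
  obtain ⟨k, -, hki, hk⟩ := pvki_first_in (pl_left_face g.c) ha h0 hin
  rcases (pvtg_in_iff hT g _).1 hk with e | e
  · exact hfirst k (by omega) e
  · exact hvp ⟨k, by omega, by rw [e]; rfl⟩

/-- the vertices of the faces crossed by a strand which stays outside a circuit lie on its closed outside -/
theorem pvki_fc_right (hT : T.IsSph) (c : T.Cyc) {a : D} {N : ℕ} (h : ∀ i, i < N → pvasIt T s a i ∉ c.Left) : T.VOf (pvasFc T s a N) ⊆ T.VOf c.Right := by
  rintro v ⟨f, ⟨i, hi, hsf⟩, rfl⟩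
  refine ⟨f, ?_, rfl⟩
  rw [(pl_jordan hT c).1]
  intro hf
  exact h i hi (((pl_left_face c).sf T hsf).1 hf)

end off

/-! ## 7. cells and doors -/

section cells

variable {V D : Type} [DecidableEq V] {T : PvMap V D} {s : V → Bool}

/-- **`n` CELLS AND `n` DOORS IN CYCLIC ORDER** (positions `pos`): the gate `j` lives in the door square `Q j`; the strand goes through it and runs to the entrance of the gate `j + 1` inside the room `Y j` of the cell `j`;
`g⁻` of the gate `j` and `g⁺` of the gate `j + 1` are NOT in the room `Y j` (F1 of 125: `g⁻` before the door line, `g⁺` behind it) -/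
structure PvkiCell (T : PvMap V D) (s : V → Bool) (pos : V → ℂ) (n : ℕ) (Y Q : ℕ → Set ℂ) where
  g : ℕ → T.Gate s
  per : g n = g 0
  fin : ∀ j, j < n → (g j).c.Left.Finite
  thru : ∀ j, j < n → (g j).Thru
  run : ∀ j, j < n → PvldRun T s {v | pos v ∈ Y j} (g j).aOut (g (j + 1)).aIn
  gate : ∀ j, j < n → ∀ v ∈ T.VOf (g j).c.Left, pos v ∈ Q j
  vm_off : ∀ j, j < n → pos (g j).vm ∉ Y j
  vp_off : ∀ j, j < n → pos (g (j + 1)).vp ∉ Y j

/-- the geometry of the rooms and of the door squares -/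
structure PvkiGeo (n : ℕ) (Y Q : ℕ → Set ℂ) : Prop where
  YY : ∀ i j, i < n → j < n → i ≠ j → Disjoint (Y i) (Y j)
  QQ : ∀ i j, i < n → j < n → i ≠ j → Disjoint (Q i) (Q j)
  QY : ∀ i j, i < n → j < n → i ≠ j → i ≠ (j + 1) % n → Disjoint (Q i) (Y j)

variable {pos : V → ℂ} {n : ℕ} {Y Q : ℕ → Set ℂ} (C : PvkiCell T s pos n Y Q)

/-- the time of the run `j` -/
noncomputable def PvkiCell.tm (j : ℕ) : ℕ := pvasHit T s (C.g j).aOut {(C.g (j + 1)).aIn}

/-- the sites of the faces crossed by the run `j` -/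
def PvkiCell.K (j : ℕ) : Set V := T.VOf (pvasFc T s (C.g j).aOut (C.tm j))

theorem pvki_eqns_cite6 : True := by
  have := @PvkiCell.tm.eq_1; have := @PvkiCell.K.eq_1
  trivial

theorem pvki_cell_mod {j : ℕ} (hj : j < n) : C.g ((j + 1) % n) = C.g (j + 1) := by
  by_cases h : j + 1 < n
  · rw [Nat.mod_eq_of_lt h]
  · have : j + 1 = n := by omega
    rw [this, Nat.mod_self, C.per]

theorem pvki_cell_K_sub {j : ℕ} (hj : j < n) : C.K j ⊆ {v | pos v ∈ Y j} := (pvld_run_hit (C.run j hj)).2.2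

theorem pvki_cell_lay {j : ℕ} (hj : j < n) : pvasLayB T s (C.g j).aOut (C.tm j) ⊆ {v | pos v ∈ Y j} := (pvld_run_lay (C.run j hj)).1

theorem pvki_cell_first {j : ℕ} {i : ℕ} (hi : i < C.tm j) : pvasIt T s (C.g j).aOut i ≠ (C.g (j + 1)).aIn :=
  fun e => pvas_hit_min (Z := {(C.g (j + 1)).aIn}) hi e

theorem pvki_cell_run {j : ℕ} (hj : j < n) : PvldRun T s (C.K j) (C.g j).aOut (C.g (j + 1)).aIn := by
  obtain ⟨h1, h2, -⟩ := pvld_run_hit (C.run j hj)
  exact ⟨C.tm j, h1, h2, fun i hi => pvki_cell_first C hi, Subset.rfl⟩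

theorem pvki_cell_gate' {j : ℕ} (hj : j < n) : ∀ v ∈ T.VOf (C.g (j + 1)).c.Left, pos v ∈ Q ((j + 1) % n) := by
  rw [← pvki_cell_mod C hj]
  exact C.gate _ (Nat.mod_lt _ (by omega))

/-- the closed insides of two different gates are disjoint -/
theorem pvki_cell_GG (hG : PvkiGeo n Y Q) {i j : ℕ} (hi : i < n) (hj : j < n) (hij : i ≠ j) : Disjoint (T.VOf (C.g i).c.Left) (T.VOf (C.g j).c.Left) :=
  Set.disjoint_left.2 fun v h1 h2 => Set.disjoint_left.1 (hG.QQ i j hi hj hij) (C.gate i hi v h1) (C.gate j hj v h2)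

/-- **the run `j` stays outside all the gates** -/
theorem pvki_cell_out (hT : T.IsSph) (hG : PvkiGeo n Y Q) (hn : 2 ≤ n) {i j : ℕ} (hi : i < n) (hj : j < n) : C.K j ⊆ T.VOf (C.g i).c.Right := by
  refine pvki_fc_right hT _ fun t ht => ?_
  obtain ⟨h1, h2, -⟩ := pvld_run_hit (C.run j hj)
  have hne : j ≠ (j + 1) % n := by
    by_cases h : j + 1 < n
    · rw [Nat.mod_eq_of_lt h]; omega
    · have : j + 1 = n := by omega
      rw [this, Nat.mod_self]; omega
  have hdj : Disjoint (T.VOf (C.g j).c.Left) (T.VOf (C.g (j + 1)).c.Left) := by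
    rw [← pvki_cell_mod C hj]
    exact pvki_cell_GG C hG hj (Nat.mod_lt _ (by omega)) hne
  by_cases hij : i = j
  · subst hij
    refine pvki_off_src hT (C.g i) (C.fin i hi) h2 (fun t ht => pvki_cell_first C ht) (fun hv => C.vm_off i hi (pvki_cell_lay C hi hv)) ?_ ht.le
    intro hin
    have k1 : (C.g (i + 1)).vm ∈ T.VOf (C.g i).c.Left := ⟨_, hin, rfl⟩
    have k2 : (C.g (i + 1)).vm ∈ T.VOf (C.g (i + 1)).c.Left := ⟨_, (pl_jordan hT _).2.1 0, rfl⟩
    exact Set.disjoint_left.1 hdj k1 k2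
  · by_cases hij' : i = (j + 1) % n
    · rw [hij', pvki_cell_mod C hj]
      refine pvki_off_tgt hT (C.g (j + 1)) (pvtg_aOut_bw _) ?_ (fun t ht => pvki_cell_first C ht) (fun hv => C.vp_off j hj (pvki_cell_lay C hj hv)) ht
      intro hin
      have k1 : (C.g j).vp ∈ T.VOf (C.g j).c.Left := ⟨(C.g j).c.e (C.g j).m, (pl_jordan hT _).2.1 _, rfl⟩
      have k2 : (C.g j).vp ∈ T.VOf (C.g (j + 1)).c.Left := ⟨_, hin, pvtg_aOut_src _⟩
      exact Set.disjoint_left.1 hdj k1 k2
    · intro hin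
      refine Set.disjoint_left.1 (hG.QY i j hi hj hij hij') (C.gate i hi _ ⟨_, hin, rfl⟩) ?_
      exact pvki_cell_lay C hj ⟨t, ht.le, rfl⟩

/-- **cells and doors ⟹ gates and runs** -/
noncomputable def PvkiCell.toGR (hT : T.IsSph) (hG : PvkiGeo n Y Q) (hn : 2 ≤ n) : PvkiGR T s n where
  g := C.g
  K := C.K
  per := C.per
  fin := C.fin
  thru := C.thru
  run := fun _ hj => pvki_cell_run C hj
  out := fun _ _ hi hj => pvki_cell_out C hT hG hn hi hj
  KK := fun i j hi hj hij _ h1 h2 => absurd (pvki_cell_K_sub C hj h2) (Set.disjoint_left.1 (hG.YY i j hi hj hij) (pvki_cell_K_sub C hi h1))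
  GG := fun _ _ hi hj hij => pvki_cell_GG C hG hi hj hij

theorem pvki_eqns_cite7 : True := by
  have := @PvkiCell.toGR.eq_1
  trivial

end cells

/-! ## 8. [CLOSE] for cells and doors at a configuration -/

/-- the index before `j` in the cyclic order of `n` indices -/
def pvkiPre (n j : ℕ) : ℕ := if j = 0 then n - 1 else j - 1

theorem pvki_eqns_cite8 : True := by
  have := @pvkiPre.eq_1
  trivial

theorem pvki_pre_lt {n j : ℕ} (hj : j < n) : pvkiPre n j < n := by
  unfold pvkiPre; split_ifs <;> omega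

theorem pvki_pre_eq {n j c : ℕ} (hj : j < n) (hc : c < n) (h : pvkiPre n j = c) : j = (c + 1) % n := by
  unfold pvkiPre at h
  split_ifs at h with h0
  · have : c + 1 = n := by omega
    rw [this, Nat.mod_self, h0]
  · rw [Nat.mod_eq_of_lt (by omega)]; omega

theorem pvki_succ_ne {n c : ℕ} (hn : 2 ≤ n) (hc : c < n) : c ≠ (c + 1) % n := by
  by_cases h : c + 1 < n
  · rw [Nat.mod_eq_of_lt h]; omega
  · have : c + 1 = n := by omega
    rw [this, Nat.mod_self]; omega

/-- the masks (convex, pairwise disjoint, inside `B`), the rooms `Y j ⊆ Mk j`, the door squares `Q j ⊆ Mk (j - 1) ∪ Mk j` (convex, pairwise disjoint) -/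
structure PvkiMask (n : ℕ) (Y Q Mk : ℕ → Set ℂ) (B : Set ℂ) : Prop where
  Mc : ∀ c, c < n → Convex ℝ (Mk c)
  Md : ∀ i j, i < n → j < n → i ≠ j → Disjoint (Mk i) (Mk j)
  MB : ∀ c, c < n → Mk c ⊆ B
  YM : ∀ j, j < n → Y j ⊆ Mk j
  Qc : ∀ j, j < n → Convex ℝ (Q j)
  QM : ∀ j, j < n → Q j ⊆ Mk (pvkiPre n j) ∪ Mk j
  QQ : ∀ i j, i < n → j < n → i ≠ j → Disjoint (Q i) (Q j)

theorem PvkiMask.disj {n : ℕ} {Y Q Mk : ℕ → Set ℂ} {B : Set ℂ} (H : PvkiMask n Y Q Mk B) {i c : ℕ} (hi : i < n) (hc : c < n) (h1 : i ≠ c) (h2 : i ≠ (c + 1) % n) : Disjoint (Q i) (Mk c) := by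
  refine Set.disjoint_left.2 fun z hz hm => ?_
  rcases H.QM i hi hz with h | h
  · exact Set.disjoint_left.1 (H.Md _ c (pvki_pre_lt hi) hc fun e => h2 (pvki_pre_eq hi hc e)) h hm
  · exact Set.disjoint_left.1 (H.Md i c hi hc h1) h hm

theorem PvkiMask.geo {n : ℕ} {Y Q Mk : ℕ → Set ℂ} {B : Set ℂ} (H : PvkiMask n Y Q Mk B) : PvkiGeo n Y Q where
  YY := fun i j hi hj hij => (H.Md i j hi hj hij).mono (H.YM i hi) (H.YM j hj)
  QQ := H.QQ
  QY := fun _ j hi hj h1 h2 => (H.disj hi hj h1 h2).mono_right (H.YM j hj)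

/-- **[CLOSE] FOR CELLS AND DOORS**: the field of the cell `c` = the mass in the mask `Mk c` of the inner arc of the gate `c`, of the arc of the run `c` and of the inner arc of the gate `c + 1` -/
theorem pvki_at_of_cell {η : Conf PvPt} (h : DelGood (cfSites η)) {n : ℕ} (hn : 2 ≤ n) {Y Q Mk : ℕ → Set ℂ} {B : Set ℂ} {a : ℝ} {X : ℕ → ℂ}
    (C : PvkiCell (pvkiT η) (pvkiS η) Subtype.val n Y Q) (H : PvkiMask n Y Q Mk B)
    (hbig : ∃ i j, i < n ∧ j < n ∧ a ≤ ‖(((C.g i).vp : ↥(cfSites η)) : ℂ) - (((C.g j).vp : ↥(cfSites η)) : ℂ)‖)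
    (hX : ∀ c, c < n → X c = (pvtArc (pvkiT η) (pvkiS η) (C.g c).aIn (C.g c).len).psum (pvkiW η (Mk c)) + (pvtArc (pvkiT η) (pvkiS η) (C.g c).aOut (C.tm c)).psum (pvkiW η (Mk c))
      + (pvtArc (pvkiT η) (pvkiS η) (C.g (c + 1)).aIn (C.g (c + 1)).len).psum (pvkiW η (Mk c))) : PvkiAt η n X Mk B a := by
  classical
  have hT : (pvkiT η).IsSph := delb_plane_isSph h
  set G := C.toGR hT H.geo hn with hGdef
  have hGg : G.g = C.g := rfl
  refine pvki_at_of_rooms h (G.toRg hT) (fun k => if k % 2 = 0 then Q (k / 2) else Mk (k / 2)) ?_ ?_ ?_ ?_ (fun c => {2 * c, 2 * c + 1, 2 * ((c + 1) % n)}) ?_ ?_ ?_ ?_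
  · intro k hk
    split_ifs
    · exact H.Qc _ (by omega)
    · exact H.Mc _ (by omega)
  · intro k hk v hv
    rcases Nat.even_or_odd' k with ⟨j, rfl | rfl⟩
    · have e1 : (G.toRg hT).a (2 * j) = (C.g j).aIn := pvki_gr_pos_even G j
      have e2 : (G.toRg hT).N (2 * j) = (C.g j).len := pvki_gr_len_even G j
      rw [e1, e2] at hv
      rw [if_pos (by omega), show 2 * j / 2 = j by omega]
      obtain ⟨f, hf, rfl⟩ := hv
      exact C.gate j (by omega) _ ⟨f, pvas_fc_sub (pl_left_face _) (pvtg_len hT (C.g j) (C.fin j (by omega))).2.1 hf, rfl⟩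
    · have e1 : (G.toRg hT).a (2 * j + 1) = (C.g j).aOut := pvki_gr_pos_odd G j
      have e2 : (G.toRg hT).N (2 * j + 1) = C.tm j := pvki_gr_len_odd G j
      rw [e1, e2] at hv
      rw [if_neg (by omega), show (2 * j + 1) / 2 = j by omega]
      exact H.YM j (by omega) (pvki_cell_K_sub C (by omega) hv)
  · intro k hk
    split_ifs
    · exact (H.QM _ (by omega)).trans (Set.union_subset (H.MB _ (pvki_pre_lt (by omega))) (H.MB _ (by omega)))
    · exact H.MB _ (by omega)
  · intro k hk z hz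
    split_ifs at hz
    · rcases H.QM _ (by omega) hz with h' | h'
      · exact ⟨_, pvki_pre_lt (by omega), h'⟩
      · exact ⟨_, by omega, h'⟩
    · exact ⟨_, by omega, hz⟩
  · intro c hc j hj
    have := Nat.mod_lt (c + 1) (show 0 < n by omega)
    simp only [Finset.mem_insert, Finset.mem_singleton] at hj
    omega
  · intro c hc k hk hkS
    simp only [Finset.mem_insert, Finset.mem_singleton, not_or] at hkS
    rcases Nat.even_or_odd' k with ⟨j, rfl | rfl⟩
    · rw [if_pos (by omega), show 2 * j / 2 = j by omega]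
      exact H.disj (by omega) hc (by omega) (by omega)
    · rw [if_neg (by omega), show (2 * j + 1) / 2 = j by omega]
      exact H.Md _ _ (by omega) hc (by omega)
  · obtain ⟨i, j, hi, hj, hij⟩ := hbig
    obtain ⟨f, hf, ef⟩ := pvki_gr_vp_head G hT hi
    obtain ⟨f', hf', ef'⟩ := pvki_gr_vp_head G hT hj
    exact ⟨f, hf, f', hf', by rw [ef, ef']; exact hij⟩
  · intro c hc
    have hne := pvki_succ_ne hn hc
    rw [Finset.sum_insert (by simp only [Finset.mem_insert, Finset.mem_singleton]; omega), Finset.sum_insert (by simp only [Finset.mem_singleton]; omega), Finset.sum_singleton,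
      pvki_gr_arc_even, pvki_gr_arc_odd, pvki_gr_arc_even, hX c hc, hGg, pvki_cell_mod C hc, add_assoc]
    rfl

end Claimed.Agent.R289
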