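import Claimed.Agent.R289.Tr.PinLocF
import Claimed.Agent.R289.Tr.PinLocB
import Claimed.Agent.R289.Del.Bulk
import Claimed.Agent.R289.Tr.CellHex

/-!
# Row 289 (S0537, Cardy for Poisson-Voronoi), THE WALL, file Tr/PinLocG : CONSUMER LAYER OF THE FIELD KIT `Tr/PinLocF`      (owner helper107; prefix `pvzf_`, `Pvzf`, `pvzf`)

* sec. 5  THE PLANE: `pvzfPl θ Ψ w η` = the field on the total Delaunay plane `(delbPl (cfSites η)).toMap`, marks `θ ∘ val`, colours `cfCol η ∘ val`;   **`PvzfRep.plane`** : `F η = pvzfPl θ Ψ w η` at a good configuration on the mesh event.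
          the same for events: `PvplRep.plane`.
* sec. 6  COVARIANCE: **`PvzfRep.sim`** (`F ∘ cfMap (vorSim α β)` represents the field with the moved tests and the moved summand);   `PvzfRep.placed` = the form met by `pvthX` of the cell kit (`cfMap (pvthInv z d)`).
* sec. 7  what the records of the cell kit ask: `PvzfRep.fld` (`PvthKit.Fld`), `PvzfRep.spl` (pointwise locality under resampling), `PvzfRep.clamp` (a bounded version: still measurable, read from the window, equal to the field where the field is bounded).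
-/

set_option autoImplicit false
set_option linter.unusedSectionVars false

namespace Claimed.Agent.R289

open MeasureTheory ProbabilityTheory Set Filter Topology Metric Claims.C0465
open scoped ENNReal

/-! ## 5. THE PLANE -/

section plane

variable {κ M : Type} [AddCommMonoid M] {E : Set ℂ} {ρ : ℝ} {θ : ℂ → κ} {K : Set κ}

/-- the darts of the Delaunay plane of `η` selected by `Ψ` -/
def pvzfPlS (θ : ℂ → κ) (Ψ : PvzfPred κ) (η : Conf PvPt) : Set (delbPl (cfSites η)).Dart :=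
  {d | Ψ _ _ (delbPl (cfSites η)).toMap (fun v => θ v.1) (fun v => cfCol η v.1) d}

/-- the three sites of the face of a dart of the Delaunay plane -/
noncomputable def pvzfPlPos (Y : Set ℂ) (d : (delbPl Y).Dart) : ℂ × ℂ × ℂ := (((delbPl Y).toMap.src d).1, ((delbPl Y).toMap.tgt d).1, ((delbPl Y).toMap.apex d).1)

/-- **the field on the Delaunay plane** -/
noncomputable def pvzfPl (θ : ℂ → κ) (Ψ : PvzfPred κ) (w : ℂ × ℂ × ℂ → M) (η : Conf PvPt) : M := ∑ᶠ d ∈ pvzfPlS θ Ψ η, w (pvzfPlPos (cfSites η) d)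

theorem pvzf_eqns_cite5 : True := by
  have := @pvzfPlS.eq_1; have := @pvzfPlPos.eq_1; have := @pvzfPl.eq_1
  trivial

theorem pvzf_sum_plane (θ : ℂ → κ) (Ψ : PvzfPred κ) (w : ℂ × ℂ × ℂ → M) (η : Conf PvPt) (ξ : Empty → Bool) (zi : ℂ) : pvzfSum delbPlane θ Ψ w η ξ zi = pvzfPl θ Ψ w η := rfl

/-- **the representative is the field of the Delaunay plane** -/
theorem PvzfRep.plane [MeasurableSpace M] {Ψ : PvzfPred κ} {w : ℂ × ℂ × ℂ → M} {F : Conf PvPt → M} (hF : PvzfRep θ Ψ K E ρ w F) {η : Conf PvPt} (h : DelGood (cfSites η))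
    (hfin : (η.pts ∩ E ×ˢ univ).Finite) (hm : PvtrMesh ρ E (cfSites η)) {zi : ℂ} (hzi : θ zi ∉ K) : F η = pvzfPl θ Ψ w η :=
  hF.2.2 Empty delbPlane η Empty.elim zi hfin ((delb_plane_ok h).mono (subset_univ _)) hm hzi

/-- the same for events -/
theorem PvplRep.plane {Φ : PvplPred κ} {B : Set (Conf PvPt)} (hB : PvplRep θ Φ K E ρ B) {η : Conf PvPt} (h : DelGood (cfSites η))
    (hfin : (η.pts ∩ E ×ˢ univ).Finite) (hm : PvtrMesh ρ E (cfSites η)) {zi : ℂ} (hzi : θ zi ∉ K) :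
    η ∈ B ↔ Φ _ _ (delbPl (cfSites η)).toMap (fun v => θ v.1) (fun v => cfCol η v.1) :=
  hB Empty delbPlane η Empty.elim zi hfin ((delb_plane_ok h).mono (subset_univ _)) hm hzi

end plane

/-! ## 6. COVARIANCE UNDER SIMILARITIES -/

section sim

variable {κ M : Type} [AddCommMonoid M] {E : Set ℂ} {ρ : ℝ} {θ : ℂ → κ} {K : Set κ}

/-- a map of the plane acting on triples -/
def pvzfMap3 (g : ℂ → ℂ) (p : ℂ × ℂ × ℂ) : ℂ × ℂ × ℂ := (g p.1, g p.2.1, g p.2.2)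

theorem pvzf_eqns_cite6 : True := by
  have := @pvzfMap3.eq_1
  trivial

theorem pvzf_restr_map (g : ℂ → ℂ) (E : Set ℂ) (η : Conf PvPt) : cfMap g (Conf.restr ((g ⁻¹' E) ×ˢ univ) η) = Conf.restr (E ×ˢ univ) (cfMap g η) := by
  ext p
  constructor
  · rintro ⟨q, ⟨hq, hqE⟩, rfl⟩
    exact ⟨⟨q, hq, rfl⟩, ⟨hqE.1, mem_univ _⟩⟩
  · rintro ⟨⟨q, hq, rfl⟩, hp⟩
    exact ⟨q, ⟨hq, ⟨hp.1, mem_univ _⟩⟩, rfl⟩

/-- **covariance**: `F ∘ cfMap (vorSim α β)` represents the field with the moved tests and the moved summand -/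
theorem PvzfRep.sim [MeasurableSpace M] {Ψ : PvzfPred κ} {w : ℂ × ℂ × ℂ → M} {F : Conf PvPt → M} (hF : PvzfRep θ Ψ K E ρ w F) {α : ℂ} (hα : α ≠ 0) (β : ℂ) :
    PvzfRep (θ ∘ vorSim α β) Ψ K (vorSim α β ⁻¹' E) (ρ / ‖α‖) (w ∘ pvzfMap3 (vorSim α β)) (fun η => F (cfMap (vorSim α β) η)) := by
  refine ⟨hF.1.comp (measurable_cfMap (pvcv_measurable α β)), fun η => ?_, ?_⟩
  · show F (cfMap (vorSim α β) (Conf.restr ((vorSim α β ⁻¹' E) ×ˢ univ) η)) = F (cfMap (vorSim α β) η)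
    rw [pvzf_restr_map, hF.2.1]
  intro X 𝔅 η ξ zi hf hok hm hzi
  have hsur : Function.Surjective (vorSim α β) := vorSim_surjective hα β
  have hn : ‖α‖ ≠ 0 := norm_ne_zero_iff.2 hα
  have e1 : cfSites (cfMap (vorSim α β) η) = vorSim α β '' cfSites η := pvcv_sites α β η
  have hK' : θ ⁻¹' K = vorSim α β '' ((θ ∘ vorSim α β) ⁻¹' K) := by
    rw [preimage_comp, image_preimage_eq _ hsur]
  have hok' : (pvgFam fun _ => 𝔅.mv (cfSites η) (vorSim α β)).Ok (cfSites (cfMap (vorSim α β) η)) (θ ⁻¹' K) := by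
    rw [pvg_w_fam_ok, e1, hK']
    exact pvplb_mv_ok hα β hok
  have hm' : PvtrMesh ρ E (cfSites (cfMap (vorSim α β) η)) := by
    have := (pvtr_mesh_sim (ρ := ρ / ‖α‖) (E := vorSim α β ⁻¹' E) (Y := cfSites η) hα β).2 hm
    rwa [image_preimage_eq _ hsur, mul_div_cancel₀ _ hn, ← e1] at this
  have hf' : ((cfMap (vorSim α β) η).pts ∩ E ×ˢ univ).Finite := by
    refine (hf.image (Prod.map (vorSim α β) id)).subset ?_
    rintro p ⟨⟨q, hq, rfl⟩, hp⟩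
    exact ⟨q, ⟨hq, ⟨hp.1, mem_univ _⟩⟩, rfl⟩
  have key := hF.2.2 X (pvgFam fun _ => 𝔅.mv (cfSites η) (vorSim α β)) (cfMap (vorSim α β) η) ξ (vorSim α β zi) hf' hok' hm' hzi
  have ep : ∀ v : 𝔅.V (cfSites η), (pvgFam fun _ => 𝔅.mv (cfSites η) (vorSim α β)).posF (cfSites (cfMap (vorSim α β) η)) (vorSim α β zi) v
      = vorSim α β (𝔅.posF (cfSites η) zi v) := by
    intro v
    show Sum.elim id (fun _ => vorSim α β zi) (Sum.map (vorSim α β) id (𝔅.lab (cfSites η) v)) = vorSim α β (Sum.elim id (fun _ => zi) (𝔅.lab (cfSites η) v))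
    cases 𝔅.lab (cfSites η) v <;> rfl
  have ec : ∀ v : 𝔅.V (cfSites η), (pvgFam fun _ => 𝔅.mv (cfSites η) (vorSim α β)).col (cfMap (vorSim α β) η) ξ v = 𝔅.col η ξ v := by
    intro v
    show Sum.elim (cfCol (cfMap (vorSim α β) η)) ξ (Sum.map (vorSim α β) id (𝔅.lab (cfSites η) v)) = Sum.elim (cfCol η) ξ (𝔅.lab (cfSites η) v)
    cases 𝔅.lab (cfSites η) v with
    | inl a => exact pvcv_col hα η a
    | inr x => rfl
  have cong : ∀ (m₁ m₂ : 𝔅.V (cfSites η) → κ) (s₁ s₂ : 𝔅.V (cfSites η) → Bool) (g₁ g₂ : 𝔅.D (cfSites η) → M), m₁ = m₂ → s₁ = s₂ → g₁ = g₂ →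
      ∑ᶠ d ∈ {d | Ψ _ _ (𝔅.T (cfSites η)) m₁ s₁ d}, g₁ d = ∑ᶠ d ∈ {d | Ψ _ _ (𝔅.T (cfSites η)) m₂ s₂ d}, g₂ d := by
    rintro m₁ _ s₁ _ g₁ _ rfl rfl rfl
    rfl
  refine key.trans (cong _ _ _ _ _ _ (funext fun v => congrArg θ (ep v)) (funext ec) (funext fun d => ?_))
  exact congrArg w (Prod.ext (ep ((𝔅.T (cfSites η)).src d)) (Prod.ext (ep ((𝔅.T (cfSites η)).tgt d)) (ep ((𝔅.T (cfSites η)).apex d))))

theorem pvzf_inv_eq (z d : ℂ) : pvthInv z d = vorSim d⁻¹ (-(d⁻¹ * z)) := by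
  funext w
  unfold pvthInv vorSim
  rw [div_eq_mul_inv]
  ring

/-- **the form met by the placed fields `pvthX` of the cell kit** -/
theorem PvzfRep.placed [MeasurableSpace M] {Ψ : PvzfPred κ} {w : ℂ × ℂ × ℂ → M} {F : Conf PvPt → M} (hF : PvzfRep θ Ψ K E ρ w F) (z : ℂ) {d : ℂ} (hd : d ≠ 0) :
    PvzfRep (θ ∘ pvthInv z d) Ψ K (pvthInv z d ⁻¹' E) (ρ * ‖d‖) (w ∘ pvzfMap3 (pvthInv z d)) (fun η => F (cfMap (pvthInv z d) η)) := by
  have h := hF.sim (inv_ne_zero hd) (-(d⁻¹ * z))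
  rw [← pvzf_inv_eq, norm_inv, div_inv_eq_mul] at h
  exact h

end sim

/-! ## 7. WHAT THE RECORDS OF THE CELL KIT ASK -/

section kit

variable {κ : Type} {ρ : ℝ}

/-- `PvthKit.Fld` -/
theorem pvzf_fld {kit : PvthKit} {θ : PvtTurn → ℂ → κ} {Ψ : PvtTurn → PvzfPred κ} {K : PvtTurn → Set κ} {E : PvtTurn → Set ℂ} {ρ : PvtTurn → ℝ} {w : PvtTurn → ℂ × ℂ × ℂ → ℂ}
    {F : PvtTurn → Conf PvPt → ℂ} (hF : ∀ τ, PvzfRep (θ τ) (Ψ τ) (K τ) (E τ) (ρ τ) (w τ) (F τ)) (hE : ∀ τ, E τ ×ˢ univ ⊆ kit.OO 0 1 τ ∪ kit.K 0 1 τ) : kit.Fld F where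
  meas τ := (hF τ).1
  reads τ := (hF τ).2.1.mono (hE τ)

variable {M : Type} [AddCommMonoid M] [MeasurableSpace M] {θ : ℂ → κ} {Ψ : PvzfPred κ} {K : Set κ} {E : Set ℂ} {w : ℂ × ℂ × ℂ → M} {F : Conf PvPt → M}

/-- POINTWISE locality under resampling off a window which contains `E` -/
theorem PvzfRep.spl (hF : PvzfRep θ Ψ K E ρ w F) {W : Set PvPt} (hW : E ×ˢ univ ⊆ W) (σ ξ : Conf PvPt) : F (Conf.spl W (σ, ξ)) = F σ :=
  hF.2.1.spl_left hW σ ξ

end kit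

section clamp

variable {κ : Type} {ρ : ℝ} {θ : ℂ → κ} {Ψ : PvzfPred κ} {K : Set κ} {E : Set ℂ} {w : ℂ × ℂ × ℂ → ℂ} {F : Conf PvPt → ℂ}

open Classical in
/-- the value `0` where the bound fails -/
noncomputable def pvzfClamp (B : ℝ) (F : Conf PvPt → ℂ) (η : Conf PvPt) : ℂ := if ‖F η‖ ≤ B then F η else 0

theorem pvzf_eqns_cite7 : True := by
  have := @pvzfClamp.eq_1
  trivial

theorem pvzf_clamp_le {B : ℝ} (hB : 0 ≤ B) (F : Conf PvPt → ℂ) (η : Conf PvPt) : ‖pvzfClamp B F η‖ ≤ B := by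
  unfold pvzfClamp
  split_ifs with h
  · exact h
  · rw [norm_zero]; exact hB

theorem pvzf_clamp_eq {B : ℝ} {F : Conf PvPt → ℂ} {η : Conf PvPt} (h : ‖F η‖ ≤ B) : pvzfClamp B F η = F η := if_pos h

theorem pvzf_clamp_meas (B : ℝ) {F : Conf PvPt → ℂ} (hF : Measurable F) : Measurable (pvzfClamp B F) :=
  Measurable.ite (measurableSet_le hF.norm measurable_const) hF measurable_const

theorem pvzf_clamp_reads (B : ℝ) {W : Set PvPt} {F : Conf PvPt → ℂ} (hF : Conf.Reads W F) : Conf.Reads W (pvzfClamp B F) := fun η => by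
  unfold pvzfClamp
  rw [hF η]

end clamp

end Claimed.Agent.R289
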