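-- KEEP
import Claimed.Agent.R289.Tr.Plug
import Claimed.Agent.R289.Tr.InstE
import Claimed.Agent.R289.Tr.GateB
import Claimed.Agent.R289.Tr.GateMin
import Claimed.Agent.R289.Tr.LaneDet
import Claimed.Agent.R289.Tr.Geo
import Claimed.Agent.R289.Tr.CellRec
import Claimed.Agent.R289.Tr.KitI
import Claimed.Agent.R289.Tr.PlugLoc
import Claimed.Agent.R289.Tr.PinLocG
import Claimed.Agent.R289.Arm.Stat

/-!
# Row 289 (S0537), THE WALL, file Tr/PlugK : THE DEFINITIONS OF THE CELL KIT INSTANCE      (helper34, pen of the definitions; RULING 14 of 234; defs `pvkd..`, `Pvkd..`, lemmas `pvkk_`)      v3 = FINAL FORM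

ALL OBJECTS ARE GLOBAL: events / functions of a configuration `η : Conf PvPt`, read on the PLANE MAP `pvkiT η` (244; `= pvieT η` of 161 by `rfl`), colouring `pvkiS η = cfCol η ∘ val` (black = `true`).
**POSITIONS ARE READ ONLY THROUGH MEMBERSHIP OF A SITE IN A FIXED REGION** (RULING 13 (2)): every predicate is a predicate of 173 (`Tr/PlugLoc`: `PvzlGt PvzlRun pvzlC pvzlA PvzlTi PvzlTr`, twins + uniqueness PROVED there) at the marks
`κ := ℂ`, `mk := Subtype.val`, mark sets := the regions.      Change of marks (`θ : ℂ → κ'` finite, regions `= θ ⁻¹' K'`): sec. 7, by `Iff.rfl`-type lemmas: so `pvplb_main` (238), `pvzf_main` (107) apply.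
No calm level, no block, no exploration state.

* sec. 1  GEOMETRY: `PvkdPlug` (mesh `ρ`, window `Ew`, round annulus `a < b`, rooms `Zm Zp` of `g⁻ g⁺`, straight tube `Tb`, rooms `Ln σ β` and targets `Dr σ β` of the four half lanes),  **`pvkdP r`** = THE plug of record (`r = δ/16`);
          `PvkdGeo` = plug + cell (`δ O₀ K₀`, room `Co τ` of the run, mask `Mk τ`).
* sec. 2  THE GATE OF RECORD `PvkdGate 𝔭 η z d g := PvzlGt .. (𝔭.pg z d) g` (LEAST gate of the annulus, `g⁻` West, `g⁺` East, through strand in the tube);  plug event **`PvkdPlug.C z d`**;  half lanes **`PvkdPlug.H z d σ β`**.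
* sec. 3  **THE TARGET OF [ADM]** (shared by the roads E and P): `PvkdAdm 𝔭`, roof `exit_pvkd_adm : PvkdAdm (pvkdP (1/16))`.
* sec. 4  THE LINK: event `PvkdGeo.A z d τ` (`pvzlA`), mass **`PvkdGeo.XQ z d τ`** = three fields `pvzfPl` of 107 (tags of the inner arc of `g`, of the run, of the inner arc of `g'`), CHOICE FREE;   `pvkdMass` = the three `psum`s of 244.
* sec. 5  the datum `PvkdGeo.glob Hf : PvpgGlob` (`Hf` = the half lanes in the form of [FRC]) and the NAMED sub-exits [COV] [SUM] [CLOSE] [HDICT].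
* sec. 6  THE DOOR END of a link of 161: `pvkdSt g : PvwSt`, `PvkdDoor`.
* sec. 7  change of marks.
ORIENTATION.   Travel = East (`d = 1`).  The strand has BLACK ON ITS LEFT (North), WHITE ON ITS RIGHT (South).  The circuit of a gate is counterclockwise from `g⁻` (West): `R` = South arc, `g⁺` = East, `L` = North arc.
-/

set_option autoImplicit false

namespace Claimed.Agent.R289

open Set MeasureTheory Filter Topology Claims.C0465
open scoped ENNReal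

/-! ## 1. geometry -/

/-- **GEOMETRY OF A PLUG** in the reference frame (door `0`, direction of travel `1`) -/
structure PvkdPlug where
  /-- mesh -/
  ρ : ℝ
  /-- the window: the mesh is `PvtrMesh ρ Ew` -/
  Ew : Set ℂ
  /-- inner radius of the annulus of the gate -/
  a : ℝ
  /-- outer radius -/
  b : ℝ
  /-- room of `g⁻` -/
  Zm : Set ℂ
  /-- room of `g⁺` -/
  Zp : Set ℂ
  /-- the straight tube: room of the faces crossed by the through strand -/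
  Tb : Set ℂ
  /-- room of the half lane of side `σ` (`true` = `+` = exit) and colour `β` (`true` = black) -/
  Ln : Bool → Bool → Set ℂ
  /-- its target -/
  Dr : Bool → Bool → Set ℂ

/-- mirror `x ↦ -x` for the entrance side -/
def pvkdRect (σ : Bool) (x0 x1 y0 y1 : ℝ) : Set ℂ := if σ then rswRect x0 x1 y0 y1 else rswRect (-x1) (-x0) y0 y1

/-- **THE PLUG OF RECORD**, unit `r` (`= δ/16`).      Window `[-3r,3r]²`, mesh `r/16`, annulus `r ≤ |w| < 2r`, tube `|y| ≤ r/2`, `g⁻` in the tube with `x ≤ -r/2`, `g⁺` with `x ≥ r/2`.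
Black lanes: `y ∈ [r/2, 3r/2]`, white lanes: `y ∈ [-3r/2, -r/2]`, from `|x| = 2r` to `|x| = 7r`, targets `|x| ∈ [6r, 7r]`;  for `|x| ∈ [r/2, 3r]` (inside the window) the rooms also contain the tube. -/
noncomputable def pvkdP (r : ℝ) : PvkdPlug where
  ρ := r / 16
  Ew := pvwSq 0 (3 * r)
  a := r
  b := 2 * r
  Zm := rswRect (-(2 * r)) (-(r / 2)) (-(r / 2)) (r / 2)
  Zp := rswRect (r / 2) (2 * r) (-(r / 2)) (r / 2)
  Tb := rswRect (-(2 * r)) (2 * r) (-(r / 2)) (r / 2)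
  Ln := fun σ β => if β then pvkdRect σ (r / 2) (3 * r) (-(r / 2)) (3 * r / 2) ∪ pvkdRect σ (2 * r) (7 * r) (r / 2) (3 * r / 2)
    else pvkdRect σ (r / 2) (3 * r) (-(3 * r / 2)) (r / 2) ∪ pvkdRect σ (2 * r) (7 * r) (-(3 * r / 2)) (-(r / 2))
  Dr := fun σ β => if β then pvkdRect σ (6 * r) (7 * r) (r / 2) (3 * r / 2) else pvkdRect σ (6 * r) (7 * r) (-(3 * r / 2)) (-(r / 2))

/-- **GEOMETRY OF THE CELL KIT**: plug + cell `[0,δ] × [-δ/2, δ/2]` -/
structure PvkdGeo extends PvkdPlug where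
  /-- side of the cells -/
  δ : ℝ
  /-- window of the plug (kit) -/
  O₀ : Set ℂ
  /-- window of the link (kit) -/
  K₀ : PvtTurn → Set ℂ
  /-- room of the run -/
  Co : PvtTurn → Set ℂ
  /-- mask -/
  Mk : PvtTurn → Set ℂ

/-- a region of the reference frame, placed -/
def pvkdAt (z d : ℂ) (S : Set ℂ) : Set ℂ := pvthSim z d '' S

/-! ## 2. the gate of record, the plug, the half lanes -/

/-- the foot of the half lane `(σ, β)` on the gate: `g⁺`, the last vertex of `R`, `g⁻`, the first vertex of `R` -/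
def pvkdFoot {V D : Type} {T : PvMap V D} {s : V → Bool} (g : T.Gate s) (σ β : Bool) : V :=
  if σ then (if β then g.vp else T.tgt g.aOut) else (if β then g.vm else T.tgt g.aIn)

namespace PvkdPlug

variable (𝔭 : PvkdPlug)

/-- the regions of the placed plug, as marks of 173 (`κ = ℂ`) -/
def pg (z d : ℂ) : PvzlPg ℂ where
  KI := Metric.ball z 𝔭.a
  KO := Metric.ball z 𝔭.b
  Km := pvkdAt z d 𝔭.Zm
  Kp := pvkdAt z d 𝔭.Zp
  KT := pvkdAt z d 𝔭.Tb

end PvkdPlug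

/-- **`g` IS THE GATE OF RECORD OF THE PLUG `𝔭` PLACED AT `(z,d)`**      (`PvzlGt` of 173: least gate between the two discs, `g⁻` West, `g⁺` East, through strand inside the gate, all the faces it crosses in the tube) -/
def PvkdGate (𝔭 : PvkdPlug) (η : Conf PvPt) (z d : ℂ) (g : (pvkiT η).Gate (pvkiS η)) : Prop := PvzlGt (pvkiT η) Subtype.val (pvkiS η) (𝔭.pg z d) g

namespace PvkdPlug

variable (𝔭 : PvkdPlug)

/-- nice configuration + mesh of the placed plug -/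
def N (z d : ℂ) : Set (Conf PvPt) := {η | PvatNice (cfSites η) ∧ PvtrMesh 𝔭.ρ (pvkdAt z d 𝔭.Ew) (cfSites η)}

/-- **THE PLUG `C₀`** -/
def C (z d : ℂ) : Set (Conf PvPt) := {η | η ∈ 𝔭.N z d ∧ ∃ g, PvkdGate 𝔭 η z d g}

/-- **THE HALF LANE** of side `σ` and colour `β`: from the foot on the gate of record to the target, through sites of colour `β` in the room -/
def H (z d : ℂ) (σ β : Bool) : Set (Conf PvPt) :=
  {η | η ∈ 𝔭.N z d ∧ ∃ g, PvkdGate 𝔭 η z d g ∧ ∃ v : ↥(cfSites η), (v : ℂ) ∈ pvkdAt z d (𝔭.Dr σ β) ∧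
    (pvkiT η).Join univ (pvldCol (pvkiS η) {u | (u : ℂ) ∈ pvkdAt z d (𝔭.Ln σ β)} β) (pvkdFoot g σ β) v}

/-- the plug with its four half lanes -/
def CH (z d : ℂ) : Set (Conf PvPt) := 𝔭.C z d ∩ ⋂ σ, ⋂ β, 𝔭.H z d σ β

end PvkdPlug

/-! ## 3. THE TARGET OF [ADM] -/

/-- **[ADM]**      (RULING 14: one target for the roads E and P) -/
def PvkdAdm (𝔭 : PvkdPlug) : Prop := ∃ p0 : ℝ≥0∞, 0 < p0 ∧ ∀ᶠ ε in 𝓝[>] (0 : ℝ), p0 ≤ pvP ε (𝔭.CH 0 1)

/- **THE ROOF OF [ADM]**, cell of side `1`:  `theorem exit_pvkd_adm : PvkdAdm (pvkdP (1 / 16))` stands in `Tr/AdmP.lean` (262), proved there from the deterministic exit `exit_pvko_inst`. -/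

/-! ## 4. the link -/

/-- the summand of `Q` masked by `M`, as a function of the three sites of the face of the tag -/
noncomputable def pvkdWt (M : Set ℂ) (t : ℂ × ℂ × ℂ) : ℂ := M.indicator (1 : ℂ → ℂ) ((t.1 + t.2.1 + t.2.2) / 3) * pvqq t.1 t.2.1 t.2.2

/-- **the mass in `M` of the rim arc `g⁻ → g'⁺`**: inner arc of `g`, arc of the run, inner arc of `g'`      (the three `psum`s of 244, `Tr/KitI`) -/
noncomputable def pvkdMass (η : Conf PvPt) (M : Set ℂ) (g g' : (pvkiT η).Gate (pvkiS η)) : ℂ :=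
  (pvtArc (pvkiT η) (pvkiS η) g.aIn g.len).psum (pvkiW η M) +
    (pvtArc (pvkiT η) (pvkiS η) g.aOut (pvasHit (pvkiT η) (pvkiS η) g.aOut {g'.aIn})).psum (pvkiW η M) +
    (pvtArc (pvkiT η) (pvkiS η) g'.aIn g'.len).psum (pvkiW η M)

namespace PvkdGeo

variable (𝔤 : PvkdGeo)

/-- exit door -/
noncomputable def zo (z d : ℂ) (τ : PvtTurn) : ℂ := z + d * (𝔤.δ * τ.mid)

/-- the window of the link, reference frame: the two plug windows and the tile -/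
noncomputable def Ea (τ : PvtTurn) : Set ℂ := 𝔤.O₀ ∪ 𝔤.K₀ τ ∪ pvkdAt (𝔤.zo 0 1 τ) τ.rot 𝔤.O₀

/-- nice configuration + mesh of the placed link -/
def NA (z d : ℂ) (τ : PvtTurn) : Set (Conf PvPt) := {η | PvatNice (cfSites η) ∧ PvtrMesh 𝔤.ρ (pvkdAt z d (𝔤.Ea τ)) (cfSites η)}

/-- **THE LINK** of shape `τ` of the cell placed at `(z,d)`: the two gates of record, the run of `N` steps (`PvzlRun` of 173 = `PvldRun` of 70 in the room `Co τ`, on the closed outside of both gates) -/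
def Link (η : Conf PvPt) (z d : ℂ) (τ : PvtTurn) (g g' : (pvkiT η).Gate (pvkiS η)) (N : ℕ) : Prop :=
  PvkdGate 𝔤.toPvkdPlug η z d g ∧ PvkdGate 𝔤.toPvkdPlug η (𝔤.zo z d τ) (d * τ.rot) g' ∧ PvzlRun (pvkiT η) Subtype.val (pvkiS η) (pvkdAt z d (𝔤.Co τ)) g g' N

/-- **SUCCESS OF THE LINK**      (`∃ g g' N, Link` is `pvzlA` of 173 by `Iff.rfl`) -/
def A (z d : ℂ) (τ : PvtTurn) : Set (Conf PvPt) := {η | η ∈ 𝔤.NA z d τ ∧ ∃ g g' N, 𝔤.Link η z d τ g g' N}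

/-- the tags of the inner arc of the gate of record at `(z,d)` -/
def Ti (z d : ℂ) : PvzfPred ℂ := fun _ _ T mk s e => PvzlTi T mk s (𝔤.pg z d) e

/-- the tags of the run -/
def Tr (z d : ℂ) (τ : PvtTurn) : PvzfPred ℂ := fun _ _ T mk s e => PvzlTr T mk s (𝔤.pg z d) (𝔤.pg (𝔤.zo z d τ) (d * τ.rot)) (pvkdAt z d (𝔤.Co τ)) e

open Classical in
/-- **THE MASS OF THE LINK** in the placed mask: three fields of 107, choice free; `0` off `A` -/
noncomputable def XQ (z d : ℂ) (τ : PvtTurn) (η : Conf PvPt) : ℂ :=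
  if η ∈ 𝔤.A z d τ then
    pvzfPl id (𝔤.Ti z d) (pvkdWt (pvkdAt z d (𝔤.Mk τ))) η + pvzfPl id (𝔤.Tr z d τ) (pvkdWt (pvkdAt z d (𝔤.Mk τ))) η +
      pvzfPl id (𝔤.Ti (𝔤.zo z d τ) (d * τ.rot)) (pvkdWt (pvkdAt z d (𝔤.Mk τ))) η
  else 0

/-! ## 5. the datum and the named sub-exits -/

/-- the four half lanes, numbered `Hb⁺ Hw⁺ Hb⁻ Hw⁻` -/
def H4 (i : Fin 4) : Set (Conf PvPt) := 𝔤.H 0 1 (decide (i.1 < 2)) (decide (i.1 % 2 = 0))

/-- **THE GLOBAL DATUM** of `Tr/Plug.lean`.      `Hf` = the four half lanes IN THE FORM OF [FRC] (monotone sections, exact readers: 52 `Tr/PlugFrc`, 229, 272); the graph form `H4` is the form of [ADM]; bridge = `HDict`. -/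
noncomputable def glob (Hf : Fin 4 → Set (Conf PvPt)) : PvpgGlob where
  δ := 𝔤.δ
  O₀ := 𝔤.O₀
  K₀ := 𝔤.K₀
  C := 𝔤.C 0 1
  H := Hf
  A := 𝔤.A 0 1
  XQ := 𝔤.XQ 0 1
  ζ := 0

/-- **[HDICT]**: up to `err`, the plug with its four half lanes in graph form has its four half lanes in the form of [FRC] -/
def HDict (Hf : Fin 4 → Set (Conf PvPt)) (ε : ℝ) (err : ℝ≥0∞) : Prop := pvP ε (𝔤.CH 0 1 \ ⋂ i, Hf i) ≤ err

/-- the mask number `j` of the hexagon loop -/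
noncomputable def MkJ (j : ℕ) : Set ℂ := pvkdAt (pvthZ 𝔤.δ 0 1 pvcnHex j) (pvthD 1 pvcnHex j) (𝔤.Mk (pvthL pvcnHex j))

/-- **[COV]** the objects are covariant under the frames `d ∈ {1, i, -1, -i}` -/
structure Cov : Prop where
  C : ∀ z d : ℂ, d ^ 4 = 1 → 𝔤.C z d = cfMap (pvthInv z d) ⁻¹' 𝔤.C 0 1
  A : ∀ (z d : ℂ) (τ : PvtTurn), d ^ 4 = 1 → 𝔤.A z d τ = cfMap (pvthInv z d) ⁻¹' 𝔤.A 0 1 τ
  X : ∀ (z d : ℂ) (τ : PvtTurn) (η : Conf PvPt), d ^ 4 = 1 → 𝔤.XQ z d τ η = d * 𝔤.XQ 0 1 τ (cfMap (pvthInv z d) η)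

/-- **[SUM]** the three fields are the three `psum`s at THE gates -/
def Sum : Prop :=
  ∀ (η : Conf PvPt) (z d : ℂ) (τ : PvtTurn) (g g' : (pvkiT η).Gate (pvkiS η)) (N : ℕ), η ∈ 𝔤.NA z d τ → 𝔤.Link η z d τ g g' N →
    𝔤.XQ z d τ η = pvkdMass η (pvkdAt z d (𝔤.Mk τ)) g g'

/-- **[CLOSE]**, DETERMINISTIC: the eight links of the hexagon loop close ONE label; its tags lie in the eight masks; the mass of the link `j` is the mass of the label in the mask `j`      (form `PvkiAt` of 244) -/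
def Close (B : Set ℂ) (a : ℝ) : Prop :=
  ∀ η : Conf PvPt, (∀ j < 8, η ∈ 𝔤.A (pvthZ 𝔤.δ 0 1 pvcnHex j) (pvthD 1 pvcnHex j) (pvthL pvcnHex j)) →
    PvkiAt η 8 (fun j => 𝔤.XQ (pvthZ 𝔤.δ 0 1 pvcnHex j) (pvthD 1 pvcnHex j) (pvthL pvcnHex j) η) 𝔤.MkJ B a

end PvkdGeo

/-! ## 6. the door end of a link of 161 -/

/-- **the state of a DOOR**: data of `PvwSt` with EMPTY stubs (`np = nm = 0`), no mark (`ip = 0`) -/
noncomputable def pvkdSt (𝔭 : PvkdPlug) (η : Conf PvPt) (z : ℂ) (g : (pvkiT η).Gate (pvkiS η)) : PvwSt (pvkiT η) where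
  dsc := {v | ‖(v : ℂ) - z‖ < 𝔭.b}
  S := g.c
  dp := g.aOut
  dm := g.aIn
  inn := pvtArc (pvkiT η) (pvkiS η) g.aIn g.len
  ip := 0
  np := 0
  ep := fun _ => g.aOut
  nm := 0
  em := fun _ => g.aIn

/-- `𝔖` is the state of the door plug `𝔭` placed at `(z,d)` -/
def PvkdDoor (𝔭 : PvkdPlug) (η : Conf PvPt) (z d : ℂ) (𝔖 : PvwSt (pvkiT η)) : Prop := η ∈ 𝔭.N z d ∧ ∃ g, PvkdGate 𝔭 η z d g ∧ 𝔖 = pvkdSt 𝔭 η z g

theorem pvkk_T (η : Conf PvPt) : pvieT η = pvkiT η := rfl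

theorem pvkk_col (η : Conf PvPt) : pvieCol η true = pvkiS η := by
  funext v
  simp only [pvieCol, beq_true]
  rfl

theorem pvkk_eqns_cite : True := by
  have := @pvkdRect.eq_1; have := @pvkdP.eq_1; have := @pvkdAt.eq_1; have := @pvkdFoot.eq_1; have := @PvkdPlug.pg.eq_1; have := @PvkdGate.eq_1
  have := @PvkdPlug.N.eq_1; have := @PvkdPlug.C.eq_1; have := @PvkdPlug.H.eq_1; have := @PvkdPlug.CH.eq_1; have := @PvkdAdm.eq_1; have := @PvkdGeo.zo.eq_1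
  have := @pvkdWt.eq_1; have := @pvkdMass.eq_1; have := @PvkdGeo.Ea.eq_1; have := @PvkdGeo.NA.eq_1; have := @PvkdGeo.Link.eq_1; have := @PvkdGeo.A.eq_1
  have := @PvkdGeo.Ti.eq_1; have := @PvkdGeo.Tr.eq_1; have := @PvkdGeo.XQ.eq_1; have := @PvkdGeo.H4.eq_1; have := @PvkdGeo.glob.eq_1; have := @PvkdGeo.HDict.eq_1
  have := @PvkdGeo.MkJ.eq_1; have := @PvkdGeo.Sum.eq_1; have := @PvkdGeo.Close.eq_1; have := @pvkdSt.eq_1; have := @PvkdDoor.eq_1
  trivial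

/-! ## 7. change of marks -/

section marks

variable {κ κ' : Type} {V D : Type} {T : PvMap V D} {mk : V → κ} {s : V → Bool} (θ : κ → κ')

/-- the marks of a plug pulled back by `θ` -/
def PvzlPg.comap (p : PvzlPg κ') : PvzlPg κ := ⟨θ ⁻¹' p.KI, θ ⁻¹' p.KO, θ ⁻¹' p.Km, θ ⁻¹' p.Kp, θ ⁻¹' p.KT⟩

theorem pvkk_in {KI KO : Set κ'} {c : T.Cyc} : PvzlIn T mk (θ ⁻¹' KI) (θ ⁻¹' KO) c ↔ PvzlIn T (θ ∘ mk) KI KO c :=
  ⟨fun h => ⟨h.inner, h.outer, h.rim⟩, fun h => ⟨h.inner, h.outer, h.rim⟩⟩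

theorem pvkk_least {KI KO : Set κ'} {g : T.Gate s} : PvzlLeast T mk s (θ ⁻¹' KI) (θ ⁻¹' KO) g ↔ PvzlLeast T (θ ∘ mk) s KI KO g :=
  ⟨fun h => ⟨(pvkk_in θ).1 h.reg, fun g₂ h₂ => h.least g₂ ((pvkk_in θ).2 h₂)⟩, fun h => ⟨(pvkk_in θ).2 h.reg, fun g₂ h₂ => h.least g₂ ((pvkk_in θ).1 h₂)⟩⟩

theorem pvkk_thru {KT : Set κ'} {g : T.Gate s} {N : ℕ} : PvzlThru T mk s (θ ⁻¹' KT) g N ↔ PvzlThru T (θ ∘ mk) s KT g N := Iff.rfl

theorem pvkk_gt {p : PvzlPg κ'} {g : T.Gate s} : PvzlGt T mk s (p.comap θ) g ↔ PvzlGt T (θ ∘ mk) s p g :=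
  ⟨fun h => ⟨(pvkk_least θ).1 h.least, h.vm, h.vp, h.thru⟩, fun h => ⟨(pvkk_least θ).2 h.least, h.vm, h.vp, h.thru⟩⟩

theorem pvkk_run {KE : Set κ'} {g g' : T.Gate s} {N : ℕ} : PvzlRun T mk s (θ ⁻¹' KE) g g' N ↔ PvzlRun T (θ ∘ mk) s KE g g' N := Iff.rfl

theorem pvkk_C {p : PvzlPg κ'} : pvzlC (p.comap θ) V D T mk s ↔ pvzlC p V D T (θ ∘ mk) s :=
  exists_congr fun _ => pvkk_gt θ

theorem pvkk_A {p p' : PvzlPg κ'} {KE : Set κ'} : pvzlA (p.comap θ) (p'.comap θ) (θ ⁻¹' KE) V D T mk s ↔ pvzlA p p' KE V D T (θ ∘ mk) s :=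
  exists_congr fun _ => exists_congr fun _ => exists_congr fun _ => and_congr (pvkk_gt θ) (and_congr (pvkk_gt θ) (pvkk_run θ))

theorem pvkk_Ti {p : PvzlPg κ'} {e : D} : PvzlTi T mk s (p.comap θ) e ↔ PvzlTi T (θ ∘ mk) s p e :=
  exists_congr fun _ => exists_congr fun _ => and_congr (pvkk_gt θ) Iff.rfl

theorem pvkk_Tr {p p' : PvzlPg κ'} {KE : Set κ'} {e : D} : PvzlTr T mk s (p.comap θ) (p'.comap θ) (θ ⁻¹' KE) e ↔ PvzlTr T (θ ∘ mk) s p p' KE e :=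
  exists_congr fun _ => exists_congr fun _ => exists_congr fun _ => and_congr (pvkk_gt θ) (and_congr (pvkk_gt θ) Iff.rfl)

theorem pvkk_eqns_cite2 : True := by
  have := @PvzlPg.comap.eq_1
  trivial

end marks

/-- the summand of 107 is the summand of 244 -/
theorem pvkk_W (η : Conf PvPt) (M : Set ℂ) (e : (delbPl (cfSites η)).Dart) : pvkdWt M (pvzfPlPos (cfSites η) e) = pvkiW η M e := by
  unfold pvkdWt pvkiW pvzfPlPos PvMap.bary PvMap.qpart PvMap.side pvqq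
  simp only [PvMap.tgt, PvMap.apex, PvMap.nxt3]

/-- `A` is `pvzlA` of 173 on the nice configurations with mesh -/
theorem pvkk_A_iff (𝔤 : PvkdGeo) (z d : ℂ) (τ : PvtTurn) (η : Conf PvPt) :
    η ∈ 𝔤.A z d τ ↔ η ∈ 𝔤.NA z d τ ∧ pvzlA (𝔤.pg z d) (𝔤.pg (𝔤.zo z d τ) (d * τ.rot)) (pvkdAt z d (𝔤.Co τ)) _ _ (pvkiT η) Subtype.val (pvkiS η) := Iff.rfl

/-- `C` is `pvzlC` of 173 on the nice configurations with mesh -/
theorem pvkk_C_iff (𝔭 : PvkdPlug) (z d : ℂ) (η : Conf PvPt) : η ∈ 𝔭.C z d ↔ η ∈ 𝔭.N z d ∧ pvzlC (𝔭.pg z d) _ _ (pvkiT η) Subtype.val (pvkiS η) := Iff.rfl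

end Claimed.Agent.R289
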