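import Claimed.Agent.R289.Tr.Ind

/-!
# Row 289 (S0537), box TR-SOFTADM, file Tr/SoftAdm : THE SOFT THRESHOLD FOR ARTIFICIAL PLUGS      (owner helper125; prefix `pvsa_`)

`CELLKIT_125.md` S1 (= form (P) of 294, paper Def. 3.2 + `pin:small-propensity`) ON `Conf E`, in the vocabulary of `Tr/Ind` (141): the engines on `Conf` (`PvthKit.Forced.frc` of 251, `PvsySys.Forced` of 95) ask
`q ≤ pvtiP μ O A σ` for EVERY full restriction state `σ ∈ G`;   a plug event `C` which only says "gate + stubs" cannot give that.   The plug of record for ARTIFICIAL plugs (small plugs, reference plug) is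
`pvsaG μ O C Hp Hm b := C ∩ {b ≤ pvtiP μ O Hp} ∩ {b ≤ pvtiP μ O Hm}`      (`Hp`, `Hm` = the two one-sided hooking events).
* `pvsa_small`  : `μ (A ∩ {pvtiP μ O A < t}) ≤ t`   (small propensity, no conditional expectation: product integral over the splice)
* `pvsa_soft`   : `μ (C ∩ Hp ∩ Hm) ≤ μ (pvsaG μ O C Hp Hm b) + 2 b`
* `pvsa_adm`    : `4 b ≤ μ (C ∩ Hp ∩ Hm) → 2 b ≤ μ (pvsaG ..)`      (ADMISSION)
* `pvsa_G_measurable`, `pvsa_G_reads` (the plug event is read from `O`), `pvsa_G_left/right/sub`.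
sec. 2 = THE MODEL-FREE LAYER OF THE INSTANCE (cures (1)(2)(3) of 34, msg 10:00Z): every event / field of the kit is a GLOBAL object on nice configurations and is made local SOFTLY.
* `pvsaSure μ W M = {σ | pvtiP μ W M σ = 1}` : `pvsa_sure_measurable`, `pvsa_sure_reads` FOR FREE;   `pvsa_sure_sub : μ (Sure \ M) = 0` always;   `pvsa_sure_sup : μ (M \ Sure) = 0` from A.S. LOCALITY;   `pvsa_sure_ae`
* `pvsa_pair_of_nice` : a.s. locality from a DETERMINISTIC lemma on nice configurations (`N` of full measure, no measurability of `N`);   `pvsa_pair_congr` : it passes to an a.e. equal event (so `toMeasurable μ M` may replace a null-measurable `M`)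
* `pvsaLoc μ W F σ = ∫ F (spl W (σ, ξ)) dμ(ξ)` : `pvsa_loc_measurable`, `pvsa_loc_reads`, `pvsa_loc_ae` (`= F` a.e. on `M`), `pvsa_pairF_of_nice`
* `pvsaFill μ O A Γ q = A ∪ (Γ ∩ {pvtiP μ O A < q})` : `pvsa_fill_frc` (`q ≤ P(Fill | σ)` at EVERY `σ ∈ Γ`), `pvsa_fill_null` (`μ (Fill \ A) = 0` from the a.e. bound), `pvsa_fill_measurable`, `pvsa_fill_reads`
* `pvsaGn μ O C s H b` (finite family of half lanes) : `pvsa_Gn_soft : μ (C ∩ all H) ≤ μ Gn + card * b`, `pvsa_Gn_adm`, `pvsa_Gn_measurable`, `pvsa_Gn_reads`, `pvsa_Gn_le`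
-/

set_option autoImplicit false
set_option linter.unusedSectionVars false

namespace Claimed.Agent.R289

open MeasureTheory ProbabilityTheory Set Filter Topology
open scoped ENNReal NNReal

variable {E : Type*} [MeasurableSpace E] {m : Measure E} {μ : Measure (Conf E)} {O : Set E}

/-- **small propensity** on `Conf E`: the event `A` together with `P(A | σ ∩ O) < t` has probability `≤ t` -/
theorem pvsa_small (h : IsPpp m μ) (hO : MeasurableSet O) {A : Set (Conf E)} (hA : MeasurableSet A) (t : ℝ≥0∞) :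
    μ (A ∩ {σ | pvtiP μ O A σ < t}) ≤ t := by
  have := h.prob
  have hPm : Measurable (pvtiP μ O A) := pvti_P_measurable hO hA
  have hB : MeasurableSet {σ | pvtiP μ O A σ < t} := measurableSet_lt hPm measurable_const
  have hBr : ∀ σ η, (Conf.spl O (σ, η) ∈ {σ | pvtiP μ O A σ < t}) ↔ σ ∈ {σ | pvtiP μ O A σ < t} := fun σ η => by
    simp only [Set.mem_ofPred_eq]
    rw [(pvti_P_reads μ O A).spl_left subset_rfl σ η]
  calc μ (A ∩ {σ | pvtiP μ O A σ < t}) = ∫⁻ η, (A ∩ {σ | pvtiP μ O A σ < t}).indicator 1 η ∂μ := (lintegral_indicator_one (hA.inter hB)).symm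
    _ = ∫⁻ σ, ∫⁻ η, (A ∩ {σ | pvtiP μ O A σ < t}).indicator 1 (Conf.spl O (σ, η)) ∂μ ∂μ := h.lintegral_spl hO (measurable_one.indicator (hA.inter hB))
    _ ≤ ∫⁻ _σ, t ∂μ := by
        refine lintegral_mono fun σ => ?_
        by_cases hσ : σ ∈ {σ | pvtiP μ O A σ < t}
        · calc ∫⁻ η, (A ∩ {σ | pvtiP μ O A σ < t}).indicator 1 (Conf.spl O (σ, η)) ∂μ ≤ ∫⁻ η, A.indicator 1 (Conf.spl O (σ, η)) ∂μ :=
                lintegral_mono fun η => Set.indicator_le_indicator_of_subset Set.inter_subset_left (fun _ => zero_le) _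
            _ ≤ t := le_of_lt hσ
        · have : ∀ η, (A ∩ {σ | pvtiP μ O A σ < t}).indicator (1 : Conf E → ℝ≥0∞) (Conf.spl O (σ, η)) = 0 := fun η =>
            Set.indicator_of_notMem (fun hx => hσ ((hBr σ η).1 hx.2)) _
          simp [this]
    _ = t := by simp

/-- the plug event of an ARTIFICIAL plug: the cylinder `C` with both one-sided propensities at least `b` -/
def pvsaG (μ : Measure (Conf E)) (O : Set E) (C Hp Hm : Set (Conf E)) (b : ℝ≥0∞) : Set (Conf E) :=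
  C ∩ {σ | b ≤ pvtiP μ O Hp σ} ∩ {σ | b ≤ pvtiP μ O Hm σ}

theorem pvsa_eqns_cite : True := by
  have := @pvsaG.eq_1.{0}
  trivial

theorem pvsa_G_sub (μ : Measure (Conf E)) (O : Set E) (C Hp Hm : Set (Conf E)) (b : ℝ≥0∞) : pvsaG μ O C Hp Hm b ⊆ C := fun _ h => h.1.1

theorem pvsa_G_left {C Hp Hm : Set (Conf E)} {b : ℝ≥0∞} {σ : Conf E} (h : σ ∈ pvsaG μ O C Hp Hm b) : b ≤ pvtiP μ O Hp σ := h.1.2

theorem pvsa_G_right {C Hp Hm : Set (Conf E)} {b : ℝ≥0∞} {σ : Conf E} (h : σ ∈ pvsaG μ O C Hp Hm b) : b ≤ pvtiP μ O Hm σ := h.2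

theorem pvsa_G_measurable [SFinite μ] (hO : MeasurableSet O) {C Hp Hm : Set (Conf E)} (hC : MeasurableSet C) (hHp : MeasurableSet Hp) (hHm : MeasurableSet Hm) (b : ℝ≥0∞) :
    MeasurableSet (pvsaG μ O C Hp Hm b) :=
  (hC.inter (measurableSet_le measurable_const (pvti_P_measurable hO hHp))).inter (measurableSet_le measurable_const (pvti_P_measurable hO hHm))

/-- the plug event is READ from `O` -/
theorem pvsa_G_reads {C : Set (Conf E)} (hCr : Conf.Reads O (fun η => η ∈ C)) (Hp Hm : Set (Conf E)) (b : ℝ≥0∞) :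
    Conf.Reads O (fun η => η ∈ pvsaG μ O C Hp Hm b) := fun η => by
  have e1 : (Conf.restr O η ∈ C) = (η ∈ C) := hCr η
  have e2 : pvtiP μ O Hp (Conf.restr O η) = pvtiP μ O Hp η := pvti_P_reads μ O Hp η
  have e3 : pvtiP μ O Hm (Conf.restr O η) = pvtiP μ O Hm η := pvti_P_reads μ O Hm η
  simp only [pvsaG, Set.mem_inter_iff, Set.mem_ofPred_eq, e1, e2, e3]

/-- **the soft threshold costs `2 b`** -/
theorem pvsa_soft (h : IsPpp m μ) (hO : MeasurableSet O) {Hp Hm : Set (Conf E)} (hHp : MeasurableSet Hp) (hHm : MeasurableSet Hm) (C : Set (Conf E)) (b : ℝ≥0∞) :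
    μ (C ∩ Hp ∩ Hm) ≤ μ (pvsaG μ O C Hp Hm b) + 2 * b := by
  have hsub : C ∩ Hp ∩ Hm ⊆ pvsaG μ O C Hp Hm b ∪ (Hp ∩ {σ | pvtiP μ O Hp σ < b}) ∪ (Hm ∩ {σ | pvtiP μ O Hm σ < b}) := by
    intro σ hσ
    by_cases h1 : pvtiP μ O Hp σ < b
    · exact Or.inl (Or.inr ⟨hσ.1.2, h1⟩)
    · by_cases h2 : pvtiP μ O Hm σ < b
      · exact Or.inr ⟨hσ.2, h2⟩
      · exact Or.inl (Or.inl ⟨⟨hσ.1.1, not_lt.1 h1⟩, not_lt.1 h2⟩)
  calc μ (C ∩ Hp ∩ Hm) ≤ μ (pvsaG μ O C Hp Hm b ∪ (Hp ∩ {σ | pvtiP μ O Hp σ < b}) ∪ (Hm ∩ {σ | pvtiP μ O Hm σ < b})) := measure_mono hsub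
    _ ≤ μ (pvsaG μ O C Hp Hm b) + μ (Hp ∩ {σ | pvtiP μ O Hp σ < b}) + μ (Hm ∩ {σ | pvtiP μ O Hm σ < b}) :=
        (measure_union_le _ _).trans (add_le_add_left (measure_union_le _ _) _)
    _ ≤ μ (pvsaG μ O C Hp Hm b) + b + b := add_le_add (add_le_add le_rfl (pvsa_small h hO hHp b)) (pvsa_small h hO hHm b)
    _ = μ (pvsaG μ O C Hp Hm b) + 2 * b := by rw [two_mul, add_assoc]

/-- **ADMISSION of an artificial plug**: if the explicit event `C ∩ Hp ∩ Hm` has probability `≥ 4 b`, the plug event has probability `≥ 2 b` -/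
theorem pvsa_adm (h : IsPpp m μ) (hO : MeasurableSet O) {Hp Hm : Set (Conf E)} (hHp : MeasurableSet Hp) (hHm : MeasurableSet Hm) (C : Set (Conf E)) {b : ℝ≥0∞}
    (hb : 4 * b ≤ μ (C ∩ Hp ∩ Hm)) : 2 * b ≤ μ (pvsaG μ O C Hp Hm b) := by
  have := h.prob
  have hbt : b ≠ ∞ := by
    intro e
    rw [e] at hb
    have h1 : μ (C ∩ Hp ∩ Hm) ≤ 1 := prob_le_one
    have : (4 : ℝ≥0∞) * ∞ = ∞ := ENNReal.mul_top (by norm_num)
    rw [this] at hb
    exact absurd (hb.trans h1) (by simp)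
  have h2 := hb.trans (pvsa_soft h hO hHp hHm C b)
  have e : (4 : ℝ≥0∞) * b = 2 * b + 2 * b := by rw [← add_mul]; norm_num
  rw [e] at h2
  exact (ENNReal.add_le_add_iff_right (ENNReal.mul_ne_top (by norm_num) hbt)).1 h2

/-! ## 2. the model-free layer of the instance: soft localisation, forcing by construction, many half lanes -/

theorem pvsa_P_mono (μ : Measure (Conf E)) (O : Set E) {S S' : Set (Conf E)} (hS : S ⊆ S') (σ : Conf E) : pvtiP μ O S σ ≤ pvtiP μ O S' σ :=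
  lintegral_mono fun _ => Set.indicator_le_indicator_of_subset hS (fun _ => zero_le) _

theorem pvsa_sec_measurable (hO : MeasurableSet O) (σ : Conf E) : Measurable fun ξ : Conf E => Conf.spl O (σ, ξ) :=
  (Conf.measurable_spl hO).comp (measurable_const.prodMk measurable_id)

theorem pvsa_P_add_compl [IsProbabilityMeasure μ] (hO : MeasurableSet O) {S : Set (Conf E)} (hS : MeasurableSet S) (σ : Conf E) :
    pvtiP μ O S σ + pvtiP μ O Sᶜ σ = 1 := by
  unfold pvtiP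
  have hm : Measurable fun ξ => S.indicator (1 : Conf E → ℝ≥0∞) (Conf.spl O (σ, ξ)) := (measurable_one.indicator hS).comp (pvsa_sec_measurable hO σ)
  rw [← lintegral_add_left hm]
  have e : ∀ ξ, S.indicator (1 : Conf E → ℝ≥0∞) (Conf.spl O (σ, ξ)) + Sᶜ.indicator (1 : Conf E → ℝ≥0∞) (Conf.spl O (σ, ξ)) = 1 := fun ξ => by
    by_cases hx : Conf.spl O (σ, ξ) ∈ S
    · rw [Set.indicator_of_mem hx, Set.indicator_of_notMem (show Conf.spl O (σ, ξ) ∉ Sᶜ from fun hc => hc hx)]; simp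
    · rw [Set.indicator_of_notMem hx, Set.indicator_of_mem (show Conf.spl O (σ, ξ) ∈ Sᶜ from hx)]; simp
  simp [e]

/-- `P(S | σ) = 1` as soon as the resampled configuration lies in `S` for a.e. seed -/
theorem pvsa_P_eq_one [IsProbabilityMeasure μ] {S : Set (Conf E)} {σ : Conf E} (hσ : ∀ᵐ ξ ∂μ, Conf.spl O (σ, ξ) ∈ S) : pvtiP μ O S σ = 1 := by
  unfold pvtiP
  have : ∀ᵐ ξ ∂μ, S.indicator (1 : Conf E → ℝ≥0∞) (Conf.spl O (σ, ξ)) = 1 := by
    filter_upwards [hσ] with ξ hξ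
    rw [Set.indicator_of_mem hξ]; rfl
  rw [lintegral_congr_ae this]
  simp

/-- the event `M` is SURE given the restriction to `W` -/
def pvsaSure (μ : Measure (Conf E)) (W : Set E) (M : Set (Conf E)) : Set (Conf E) := {σ | pvtiP μ W M σ = 1}

/-- the LOCALISED field: everything off `W` is integrated out -/
noncomputable def pvsaLoc (μ : Measure (Conf E)) (W : Set E) (F : Conf E → ℂ) (σ : Conf E) : ℂ := ∫ ξ, F (Conf.spl W (σ, ξ)) ∂μ

/-- the success event FILLED UP where its conditional probability is too small -/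
def pvsaFill (μ : Measure (Conf E)) (O : Set E) (A Γ : Set (Conf E)) (q : ℝ≥0∞) : Set (Conf E) := A ∪ (Γ ∩ {σ | pvtiP μ O A σ < q})

/-- the plug event with a finite family of propensities -/
def pvsaGn {ι : Type*} (μ : Measure (Conf E)) (O : Set E) (C : Set (Conf E)) (s : Finset ι) (H : ι → Set (Conf E)) (b : ℝ≥0∞) : Set (Conf E) :=
  C ∩ {σ | ∀ i ∈ s, b ≤ pvtiP μ O (H i) σ}

theorem pvsa_eqns_cite2 : True := by
  have := @pvsaSure.eq_1.{0}; have := @pvsaLoc.eq_1.{0}; have := @pvsaFill.eq_1.{0}; have := @pvsaGn.eq_1.{0, 0}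
  trivial

section sure

variable {W : Set E} {M M' N : Set (Conf E)}

theorem pvsa_sure_measurable [SFinite μ] (hW : MeasurableSet W) (hM : MeasurableSet M) : MeasurableSet (pvsaSure μ W M) :=
  (pvti_P_measurable hW hM) (measurableSet_singleton 1)

theorem pvsa_sure_reads (μ : Measure (Conf E)) (W : Set E) (M : Set (Conf E)) : Conf.Reads W (fun η => η ∈ pvsaSure μ W M) := fun η => by
  have e : pvtiP μ W M (Conf.restr W η) = pvtiP μ W M η := pvti_P_reads μ W M η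
  simp only [pvsaSure, Set.mem_ofPred_eq, e]

/-- a sure event holds a.s. -/
theorem pvsa_sure_sub (h : IsPpp m μ) (hW : MeasurableSet W) (hM : MeasurableSet M) : μ (pvsaSure μ W M \ M) = 0 := by
  have := h.prob
  have hS : MeasurableSet (pvsaSure μ W M) := pvsa_sure_measurable hW hM
  have hr : ∀ σ ξ, (Conf.spl W (σ, ξ) ∈ pvsaSure μ W M) = (σ ∈ pvsaSure μ W M) := fun σ ξ => (pvsa_sure_reads μ W M).spl_left subset_rfl σ ξ
  rw [← lintegral_indicator_one (hS.diff hM), h.lintegral_spl hW (measurable_one.indicator (hS.diff hM))]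
  refine lintegral_eq_zero_of_ae_eq_zero (Eventually.of_forall fun σ => ?_)
  by_cases hσ : σ ∈ pvsaSure μ W M
  · have h1 : pvtiP μ W Mᶜ σ = 0 := by
      have h2 := pvsa_P_add_compl (μ := μ) hW hM σ
      rw [show pvtiP μ W M σ = 1 from hσ] at h2
      exact (ENNReal.add_right_inj ENNReal.one_ne_top).1 (h2.trans (add_zero 1).symm)
    refine le_antisymm (le_trans (lintegral_mono fun ξ => ?_) h1.le) zero_le
    exact Set.indicator_le_indicator_of_subset (fun x hx => hx.2) (fun _ => zero_le) _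
  · have : ∀ ξ, (pvsaSure μ W M \ M).indicator (1 : Conf E → ℝ≥0∞) (Conf.spl W (σ, ξ)) = 0 := fun ξ =>
      Set.indicator_of_notMem (fun hx => hσ ((hr σ ξ) ▸ hx.1)) _
    simp [this]

/-- **A.S. LOCALITY ⟹ the event is a.s. sure** -/
theorem pvsa_sure_sup (h : IsPpp m μ) (hloc : ∀ᵐ σ ∂μ, ∀ᵐ ξ ∂μ, σ ∈ M → Conf.spl W (σ, ξ) ∈ M) : μ (M \ pvsaSure μ W M) = 0 := by
  have := h.prob
  rw [measure_eq_zero_iff_ae_notMem]
  filter_upwards [hloc] with σ hσ hx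
  exact hx.2 (pvsa_P_eq_one (hσ.mono fun ξ hξ => hξ hx.1))

theorem pvsa_sure_ae (h : IsPpp m μ) (hW : MeasurableSet W) (hM : MeasurableSet M) (hloc : ∀ᵐ σ ∂μ, ∀ᵐ ξ ∂μ, σ ∈ M → Conf.spl W (σ, ξ) ∈ M) :
    pvsaSure μ W M =ᵐ[μ] M := by
  have h1 := measure_eq_zero_iff_ae_notMem.1 (pvsa_sure_sub h hW hM)
  have h2 := measure_eq_zero_iff_ae_notMem.1 (pvsa_sure_sup (W := W) h hloc)
  filter_upwards [h1, h2] with σ a1 a2
  refine propext ⟨fun hs => ?_, fun hm => ?_⟩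
  · by_contra hc; exact a1 ⟨hs, hc⟩
  · by_contra hc; exact a2 ⟨hm, hc⟩

/-- a.s. locality from a DETERMINISTIC lemma: two NICE configurations which agree on `W` are both in `M` or both off `M` (one direction is enough).   `N` = nice configurations, of full measure; no measurability of `N`. -/
theorem pvsa_pair_of_nice (h : IsPpp m μ) (hW : MeasurableSet W) (hN : ∀ᵐ η ∂μ, η ∈ N)
    (hdet : ∀ σ η, σ ∈ N → η ∈ N → Conf.restr W σ = Conf.restr W η → σ ∈ M → η ∈ M) :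
    ∀ᵐ σ ∂μ, ∀ᵐ ξ ∂μ, σ ∈ M → Conf.spl W (σ, ξ) ∈ M := by
  have := h.prob
  filter_upwards [hN, pvti_rs_ae (Conf.measurable_spl hW) (h.splice hW) hN] with σ h1 h2
  filter_upwards [h2] with ξ h3 hσ
  exact hdet σ _ h1 h3 (Conf.restr_spl_of_subset subset_rfl σ ξ).symm hσ

/-- a.s. locality passes to an a.e. equal event -/
theorem pvsa_pair_congr (h : IsPpp m μ) (hW : MeasurableSet W) (hMM : M =ᵐ[μ] M') (hloc : ∀ᵐ σ ∂μ, ∀ᵐ ξ ∂μ, σ ∈ M → Conf.spl W (σ, ξ) ∈ M) :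
    ∀ᵐ σ ∂μ, ∀ᵐ ξ ∂μ, σ ∈ M' → Conf.spl W (σ, ξ) ∈ M' := by
  have := h.prob
  have hMM' : ∀ᵐ η ∂μ, (η ∈ M ↔ η ∈ M') := hMM.mono fun η hη => Iff.of_eq hη
  filter_upwards [hloc, hMM', pvti_rs_ae (Conf.measurable_spl hW) (h.splice hW) hMM'] with σ h1 h2 h3
  filter_upwards [h1, h3] with ξ a1 a3 hσ
  exact a3.1 (a1 (h2.2 hσ))

end sure

section loc

variable {W : Set E} {M N : Set (Conf E)} {F : Conf E → ℂ}

theorem pvsa_loc_reads (μ : Measure (Conf E)) (W : Set E) (F : Conf E → ℂ) : Conf.Reads W (pvsaLoc μ W F) := fun σ => by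
  unfold pvsaLoc
  simp_rw [Conf.spl_restr]

theorem pvsa_loc_measurable [SFinite μ] (hW : MeasurableSet W) (hF : Measurable F) : Measurable (pvsaLoc μ W F) :=
  ((hF.comp (Conf.measurable_spl hW)).stronglyMeasurable.integral_prod_right').measurable

/-- **the localised field is the field**, a.e. on an event on which the field is a.s. local -/
theorem pvsa_loc_ae (h : IsPpp m μ) (hloc : ∀ᵐ σ ∂μ, ∀ᵐ ξ ∂μ, σ ∈ M → F (Conf.spl W (σ, ξ)) = F σ) : ∀ᵐ σ ∂μ, σ ∈ M → pvsaLoc μ W F σ = F σ := by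
  have := h.prob
  filter_upwards [hloc] with σ hσ hM
  unfold pvsaLoc
  rw [integral_congr_ae (hσ.mono fun ξ hξ => hξ hM)]
  simp

theorem pvsa_pairF_of_nice (h : IsPpp m μ) (hW : MeasurableSet W) (hN : ∀ᵐ η ∂μ, η ∈ N)
    (hdet : ∀ σ η, σ ∈ N → η ∈ N → Conf.restr W σ = Conf.restr W η → σ ∈ M → F η = F σ) :
    ∀ᵐ σ ∂μ, ∀ᵐ ξ ∂μ, σ ∈ M → F (Conf.spl W (σ, ξ)) = F σ := by
  have := h.prob
  filter_upwards [hN, pvti_rs_ae (Conf.measurable_spl hW) (h.splice hW) hN] with σ h1 h2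
  filter_upwards [h2] with ξ h3 hσ
  exact hdet σ _ h1 h3 (Conf.restr_spl_of_subset subset_rfl σ ξ).symm hσ

end loc

section fill

variable {K : Set E} {A Γ : Set (Conf E)} {q : ℝ≥0∞}

theorem pvsa_fill_sub (μ : Measure (Conf E)) (O : Set E) (A Γ : Set (Conf E)) (q : ℝ≥0∞) : A ⊆ pvsaFill μ O A Γ q := Set.subset_union_left

/-- **FORCED BY CONSTRUCTION**, at EVERY state of `Γ` -/
theorem pvsa_fill_frc [IsProbabilityMeasure μ] (hΓ : Conf.Reads O (fun η => η ∈ Γ)) (hq : q ≤ 1) {σ : Conf E} (hσ : σ ∈ Γ) :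
    q ≤ pvtiP μ O (pvsaFill μ O A Γ q) σ := by
  by_cases hlt : pvtiP μ O A σ < q
  · refine hq.trans (le_of_eq (pvsa_P_eq_one (Eventually.of_forall fun ξ => Or.inr ⟨?_, ?_⟩)).symm)
    · have e : (Conf.spl O (σ, ξ) ∈ Γ) = (σ ∈ Γ) := hΓ.spl_left subset_rfl σ ξ
      exact e ▸ hσ
    · show pvtiP μ O A (Conf.spl O (σ, ξ)) < q
      rw [(pvti_P_reads μ O A).spl_left subset_rfl σ ξ]
      exact hlt
  · exact (not_lt.1 hlt).trans (pvsa_P_mono μ O (pvsa_fill_sub μ O A Γ q) σ)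

/-- nothing is added, up to a null set, if the bound holds a.e. -/
theorem pvsa_fill_null (hae : ∀ᵐ σ ∂μ, σ ∈ Γ → q ≤ pvtiP μ O A σ) : μ (pvsaFill μ O A Γ q \ A) = 0 := by
  rw [measure_eq_zero_iff_ae_notMem]
  filter_upwards [hae] with σ hσ hx
  rcases hx.1 with ha | ⟨hg, hlt⟩
  · exact hx.2 ha
  · exact absurd (hσ hg) (not_le.2 hlt)

theorem pvsa_fill_ae (hae : ∀ᵐ σ ∂μ, σ ∈ Γ → q ≤ pvtiP μ O A σ) : ∀ᵐ σ ∂μ, σ ∈ pvsaFill μ O A Γ q → σ ∈ A := by
  filter_upwards [measure_eq_zero_iff_ae_notMem.1 (pvsa_fill_null hae)] with σ hσ hx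
  by_contra hc
  exact hσ ⟨hx, hc⟩

theorem pvsa_fill_measurable [SFinite μ] (hO : MeasurableSet O) (hA : MeasurableSet A) (hΓ : MeasurableSet Γ) (q : ℝ≥0∞) : MeasurableSet (pvsaFill μ O A Γ q) :=
  hA.union (hΓ.inter (measurableSet_lt (pvti_P_measurable hO hA) measurable_const))

theorem pvsa_fill_reads (hA : Conf.Reads (O ∪ K) (fun η => η ∈ A)) (hΓ : Conf.Reads O (fun η => η ∈ Γ)) (q : ℝ≥0∞) :
    Conf.Reads (O ∪ K) (fun η => η ∈ pvsaFill μ O A Γ q) := fun η => by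
  have e1 : (Conf.restr (O ∪ K) η ∈ A) = (η ∈ A) := hA η
  have e2 : (Conf.restr (O ∪ K) η ∈ Γ) = (η ∈ Γ) := (hΓ.mono subset_union_left) η
  have e3 : pvtiP μ O A (Conf.restr (O ∪ K) η) = pvtiP μ O A η := ((pvti_P_reads μ O A).mono subset_union_left) η
  simp only [pvsaFill, Set.mem_union, Set.mem_inter_iff, Set.mem_ofPred_eq, e1, e2, e3]

end fill

section many

variable {ι : Type*} {C : Set (Conf E)} {s : Finset ι} {H : ι → Set (Conf E)} {b : ℝ≥0∞}

theorem pvsa_Gn_sub (μ : Measure (Conf E)) (O : Set E) (C : Set (Conf E)) (s : Finset ι) (H : ι → Set (Conf E)) (b : ℝ≥0∞) : pvsaGn μ O C s H b ⊆ C := fun _ h => h.1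

theorem pvsa_Gn_le {σ : Conf E} (h : σ ∈ pvsaGn μ O C s H b) {i : ι} (hi : i ∈ s) : b ≤ pvtiP μ O (H i) σ := h.2 i hi

theorem pvsa_Gn_measurable [SFinite μ] (hO : MeasurableSet O) (hC : MeasurableSet C) (hH : ∀ i ∈ s, MeasurableSet (H i)) (b : ℝ≥0∞) : MeasurableSet (pvsaGn μ O C s H b) := by
  have e : {σ | ∀ i ∈ s, b ≤ pvtiP μ O (H i) σ} = ⋂ i ∈ s, {σ | b ≤ pvtiP μ O (H i) σ} := by
    ext σ; simp
  unfold pvsaGn
  rw [e]
  exact hC.inter (Finset.measurableSet_biInter s fun i hi => measurableSet_le measurable_const (pvti_P_measurable hO (hH i hi)))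

theorem pvsa_Gn_reads (hCr : Conf.Reads O (fun η => η ∈ C)) (s : Finset ι) (H : ι → Set (Conf E)) (b : ℝ≥0∞) :
    Conf.Reads O (fun η => η ∈ pvsaGn μ O C s H b) := fun η => by
  have e1 : (Conf.restr O η ∈ C) = (η ∈ C) := hCr η
  have e2 : ∀ i, pvtiP μ O (H i) (Conf.restr O η) = pvtiP μ O (H i) η := fun i => pvti_P_reads μ O (H i) η
  simp only [pvsaGn, Set.mem_inter_iff, Set.mem_ofPred_eq, e1, e2]

/-- **the soft thresholds cost `card * b`**, NO independence -/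
theorem pvsa_Gn_soft (h : IsPpp m μ) (hO : MeasurableSet O) (hH : ∀ i ∈ s, MeasurableSet (H i)) (C : Set (Conf E)) (b : ℝ≥0∞) :
    μ (C ∩ {σ | ∀ i ∈ s, σ ∈ H i}) ≤ μ (pvsaGn μ O C s H b) + s.card * b := by
  have hsub : C ∩ {σ | ∀ i ∈ s, σ ∈ H i} ⊆ pvsaGn μ O C s H b ∪ ⋃ i ∈ s, (H i ∩ {σ | pvtiP μ O (H i) σ < b}) := by
    intro σ hσ
    by_cases hall : ∀ i ∈ s, b ≤ pvtiP μ O (H i) σ
    · exact Or.inl ⟨hσ.1, hall⟩
    · simp only [not_forall, not_le] at hall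
      obtain ⟨i, hi, hlt⟩ := hall
      exact Or.inr (Set.mem_biUnion hi ⟨hσ.2 i hi, hlt⟩)
  calc μ (C ∩ {σ | ∀ i ∈ s, σ ∈ H i}) ≤ μ (pvsaGn μ O C s H b ∪ ⋃ i ∈ s, (H i ∩ {σ | pvtiP μ O (H i) σ < b})) := measure_mono hsub
    _ ≤ μ (pvsaGn μ O C s H b) + μ (⋃ i ∈ s, (H i ∩ {σ | pvtiP μ O (H i) σ < b})) := measure_union_le _ _
    _ ≤ μ (pvsaGn μ O C s H b) + ∑ i ∈ s, μ (H i ∩ {σ | pvtiP μ O (H i) σ < b}) := add_le_add le_rfl (measure_biUnion_finset_le s _)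
    _ ≤ μ (pvsaGn μ O C s H b) + ∑ _i ∈ s, b := add_le_add le_rfl (Finset.sum_le_sum fun i hi => pvsa_small h hO (hH i hi) b)
    _ = μ (pvsaGn μ O C s H b) + s.card * b := by rw [Finset.sum_const, nsmul_eq_mul]

/-- **ADMISSION** with a finite family of half lanes -/
theorem pvsa_Gn_adm (h : IsPpp m μ) (hO : MeasurableSet O) (hH : ∀ i ∈ s, MeasurableSet (H i)) (C : Set (Conf E)) (hbt : b ≠ ∞)
    (hb : (s.card + 1 : ℕ) * b ≤ μ (C ∩ {σ | ∀ i ∈ s, σ ∈ H i})) : b ≤ μ (pvsaGn μ O C s H b) := by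
  have h2 := hb.trans (pvsa_Gn_soft h hO hH C b)
  have e : ((s.card + 1 : ℕ) : ℝ≥0∞) * b = b + s.card * b := by
    push_cast
    ring
  rw [e] at h2
  exact (ENNReal.add_le_add_iff_right (ENNReal.mul_ne_top (ENNReal.natCast_ne_top _) hbt)).1 h2

end many

end Claimed.Agent.R289
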