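import Claimed.Agent.R289.Tr.CellHex
import Claimed.Agent.R289.Tr.SoftAdm

/-!
# Row 289 (S0537), THE WALL, chapter E (cells), box TR-SURE, file Tr/Sure : THE MODEL-FREE SOFT LOCALISATION LAYER OF THE CELL KIT INSTANCE      (owner helper251, second of 34; prefix `pvsu_`, `Pvsu`)

FORMAL OBSTACLES (34): `Conf.Reads W f` is asked at ALL configurations (also at the finite `restr W η`, where the plane map is junk);   `PvthKit.Forced.frc` is POINTWISE in the state;   measurability of "for all completions".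
CURE: every event / field of the kit is a GLOBAL object (on the plane map of a NICE configuration) and is made local SOFTLY.   Sec. 1-5: any `IsPpp m μ` on `Conf E`.
* sec.1 `PvsuDet μ W S F` : `F` is a.s. determined by the window `W` on the event `S` (resampling the exterior of `W` a.s. does not change `F`; `F` of any type, events as `Prop`).
  **`pvsu_det_of_nice`** = THE DOOR for the deterministic locality lemmas: `N` a.s., and two configurations of `N` which agree on `W`, the first in `S`, have the same `F`.   `pvsu_det_of_reads`, `.mono`, `.comp`, `.map₂`, `.congr`.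
* sec.2 `pvtiP`: `pvsu_P_compl`, `pvsu_P_mono`, `pvsu_P_of_ae(_not)`, `pvsu_P_congr_on`, `pvsu_P_mono_on` (events compared a.s. on an event read from `W`), `pvsu_P_congr`.
* sec.3 **`pvsuSure μ W M`** `= {σ | P(M | σ on W) = 1}` (through `toMeasurable`): `MeasurableSet`, `Reads W` WITHOUT HYPOTHESIS;   `pvsu_sure_sub` (`Sure ⊆ M` a.s., `M` null measurable), **`pvsu_sure_iff`** (`Sure = M` a.s. on `S` under `PvsuDet`), `pvsu_sure_measure`.
* sec.4 **`pvsuLoc μ W F`** `= ∫ F(spl W (σ, ξ)) dμ(ξ)` (through `AEMeasurable.mk`): `Measurable`, `Reads W` WITHOUT HYPOTHESIS;   **`pvsu_loc_eq`** (`Loc F = F` a.s. on `S` under `PvsuDet`; no integrability).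
* sec.5 **`pvsuFrc μ O T A q`** `= A ∪ (T ∩ {P(A | σ on O) < q})`: `pvsu_frc_le` (`q ≤ P(Frc | σ)` at EVERY `σ ∈ T`, no hypothesis on `A`), `pvsu_frc_ae` (nothing is added under the a.e. bound), measurable, reads.
* sec.6 ANY `PvthKit`: `pvsu_ae_place` (a.e. properties pass to a frame), **`pvsu_cell_ae`** (one placed cell), **`pvsu_ev_ae`** (all the cells of a closed word, a.s. on `kit.Ev`).
* sec.7 **THE SOFT KIT**: `PvsuDat` = `(δ, O₀, K₀; C global plug event; H list of half lanes; b; A τ global success; q; X τ global field)`;   `D.kit μ : PvthKit` with `G₀ := Sure_O C ∩ {∀ H, b ≤ P(H | σ)}`,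
  `A₀ τ := Frc (Sure_{OO ∪ K} (A τ))`;   `D.fld μ τ := Loc_{OO ∪ K} (X τ)`.   `D.Pre` (sets and numbers) ⟹ **`pvsu_wf`**, **`pvsu_fld`**.   `D.Ok ε` = THE DEBT: [MEAS] `nC nA nX`, [LOC] `dC dA dX`, [ADM] `(#H + 1) b ≤ P(C ∩ all H)`,
  [FRC] the A.E. bound `q ≤ P(A τ | the two states)` on `G₀ × G'` (**`pvsu_frc_of_sub`**: from `C ∩ C' ∩ B τ ⊆ A τ` a.s. and the bound for the explicit event `B τ`, e.g. `pvpk_frc` of 229).
  EXITS: **`pvsu_forced`**, **`pvsu_cell`** (reference cell), **`pvsu_cell_place`** (one placed cell: chains), **`pvsu_ev`** (closed words): a.s. on the kit events, in the frame of every cell the GLOBAL `C`, `C'`, `A` hold and the placed soft field is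
  the placed global field.   So CLOSE / BES / TAIL are statements on global objects of ONE nice configuration.
-/

set_option autoImplicit false
set_option linter.unusedSectionVars false

namespace Claimed.Agent.R289

open MeasureTheory ProbabilityTheory Set Filter Topology
open scoped ENNReal NNReal

/-! ## 1. a.s. determined by a window -/

section gen

variable {E : Type*} [MeasurableSpace E] {m : Measure E} {μ : Measure (Conf E)} {W O : Set E} {β γ : Type*}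

/-- `F` is A.S. DETERMINED BY THE WINDOW `W` ON THE EVENT `S`: resampling the exterior of `W` a.s. does not change `F` -/
def PvsuDet (μ : Measure (Conf E)) (W : Set E) (S : Set (Conf E)) (F : Conf E → β) : Prop :=
  ∀ᵐ σ ∂μ, σ ∈ S → ∀ᵐ ξ ∂μ, F (Conf.spl W (σ, ξ)) = F σ

theorem pvsu_eqns_cite : True := by
  have := @PvsuDet.eq_1.{0, 0}
  trivial

/-- an a.e. property passes to the splice -/
theorem pvsu_ae_spl (h : IsPpp m μ) (hW : MeasurableSet W) {p : Conf E → Prop} (hp : ∀ᵐ η ∂μ, p η) : ∀ᵐ σ ∂μ, ∀ᵐ ξ ∂μ, p (Conf.spl W (σ, ξ)) := by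
  have := h.prob
  exact pvti_rs_ae (Conf.measurable_spl hW) (h.splice hW) hp

/-- **THE DOOR FOR THE DETERMINISTIC LOCALITY LEMMAS**: two NICE configurations which agree on `W`, the first one in `S`, give the same value -/
theorem pvsu_det_of_nice (h : IsPpp m μ) (hW : MeasurableSet W) {N S : Set (Conf E)} {F : Conf E → β} (hN : ∀ᵐ η ∂μ, η ∈ N)
    (hloc : ∀ η η', η ∈ N → η' ∈ N → η ∈ S → Conf.restr W η = Conf.restr W η' → F η = F η') : PvsuDet μ W S F := by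
  filter_upwards [hN, pvsu_ae_spl h hW hN] with σ h1 h2 hS
  filter_upwards [h2] with ξ h3
  exact (hloc σ _ h1 h3 hS (Conf.restr_spl_of_subset subset_rfl σ ξ).symm).symm

/-- a function which reads `W` is determined by `W` -/
theorem pvsu_det_of_reads {F : Conf E → β} (hF : Conf.Reads W F) (S : Set (Conf E)) : PvsuDet μ W S F :=
  Eventually.of_forall fun σ _ => Eventually.of_forall fun ξ => hF.spl_left subset_rfl σ ξ

theorem PvsuDet.mono {S S' : Set (Conf E)} {F : Conf E → β} (h : PvsuDet μ W S F) (hS : ∀ᵐ σ ∂μ, σ ∈ S' → σ ∈ S) : PvsuDet μ W S' F := by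
  filter_upwards [h, hS] with σ h1 h2 h3
  exact h1 (h2 h3)

theorem PvsuDet.comp {S : Set (Conf E)} {F : Conf E → β} (h : PvsuDet μ W S F) (g : β → γ) : PvsuDet μ W S (fun η => g (F η)) := by
  filter_upwards [h] with σ h1 h2
  filter_upwards [h1 h2] with ξ h3
  rw [h3]

theorem PvsuDet.map₂ {δ : Type*} {S : Set (Conf E)} {F : Conf E → β} {F' : Conf E → γ} (h : PvsuDet μ W S F) (h' : PvsuDet μ W S F') (g : β → γ → δ) :
    PvsuDet μ W S (fun η => g (F η) (F' η)) := by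
  filter_upwards [h, h'] with σ h1 h1' h2
  filter_upwards [h1 h2, h1' h2] with ξ h3 h3'
  rw [h3, h3']

/-- a.e. equal functions are determined together -/
theorem PvsuDet.congr (h : IsPpp m μ) (hW : MeasurableSet W) {S : Set (Conf E)} {F F' : Conf E → β} (hd : PvsuDet μ W S F) (e : ∀ᵐ η ∂μ, F η = F' η) :
    PvsuDet μ W S F' := by
  filter_upwards [hd, e, pvsu_ae_spl h hW e] with σ h1 h2 h3 hS
  filter_upwards [h1 hS, h3] with ξ h4 h5
  rw [← h5, h4, h2]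

/-! ## 2. the conditional probability -/

theorem pvsu_sec_measurable (hW : MeasurableSet W) (σ : Conf E) : Measurable fun ξ : Conf E => Conf.spl W (σ, ξ) :=
  (Conf.measurable_spl hW).comp (measurable_const.prodMk measurable_id)

theorem pvsu_P_compl [IsProbabilityMeasure μ] (hW : MeasurableSet W) {S : Set (Conf E)} (hS : MeasurableSet S) (σ : Conf E) :
    pvtiP μ W S σ + pvtiP μ W Sᶜ σ = 1 := by
  unfold pvtiP
  have hm : Measurable fun ξ => S.indicator (1 : Conf E → ℝ≥0∞) (Conf.spl W (σ, ξ)) := (measurable_one.indicator hS).comp (pvsu_sec_measurable hW σ)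
  rw [← lintegral_add_left hm]
  have e : ∀ ξ, S.indicator (1 : Conf E → ℝ≥0∞) (Conf.spl W (σ, ξ)) + Sᶜ.indicator 1 (Conf.spl W (σ, ξ)) = 1 := fun ξ => by
    by_cases hx : Conf.spl W (σ, ξ) ∈ S
    · rw [Set.indicator_of_mem hx, Set.indicator_of_notMem (show _ ∉ Sᶜ from fun hc => hc hx)]; simp
    · rw [Set.indicator_of_notMem hx, Set.indicator_of_mem (show _ ∈ Sᶜ from hx)]; simp
  simp [e]

theorem pvsu_P_mono (μ : Measure (Conf E)) (W : Set E) {S S' : Set (Conf E)} (h : S ⊆ S') (σ : Conf E) : pvtiP μ W S σ ≤ pvtiP μ W S' σ :=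
  lintegral_mono fun _ => Set.indicator_le_indicator_of_subset h (fun _ => zero_le) _

theorem pvsu_P_of_ae [IsProbabilityMeasure μ] {S : Set (Conf E)} {σ : Conf E} (h : ∀ᵐ ξ ∂μ, Conf.spl W (σ, ξ) ∈ S) : pvtiP μ W S σ = 1 := by
  unfold pvtiP
  have : (fun ξ => S.indicator (1 : Conf E → ℝ≥0∞) (Conf.spl W (σ, ξ))) =ᵐ[μ] fun _ => 1 := by
    filter_upwards [h] with ξ hξ
    rw [Set.indicator_of_mem hξ]; rfl
  rw [lintegral_congr_ae this]; simp

theorem pvsu_P_of_ae_not {S : Set (Conf E)} {σ : Conf E} (h : ∀ᵐ ξ ∂μ, Conf.spl W (σ, ξ) ∉ S) : pvtiP μ W S σ = 0 := by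
  unfold pvtiP
  have : (fun ξ => S.indicator (1 : Conf E → ℝ≥0∞) (Conf.spl W (σ, ξ))) =ᵐ[μ] fun _ => 0 := by
    filter_upwards [h] with ξ hξ
    rw [Set.indicator_of_notMem hξ]
  rw [lintegral_congr_ae this]; simp

/-- events which agree a.s. on an event `T` read from `W` have the same conditional probability on `T` -/
theorem pvsu_P_congr_on (h : IsPpp m μ) (hW : MeasurableSet W) {T S S' : Set (Conf E)} (hT : Conf.Reads W (fun η => η ∈ T))
    (e : ∀ᵐ η ∂μ, η ∈ T → (η ∈ S ↔ η ∈ S')) : ∀ᵐ σ ∂μ, σ ∈ T → pvtiP μ W S σ = pvtiP μ W S' σ := by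
  filter_upwards [pvsu_ae_spl h hW e] with σ h1 hσ
  unfold pvtiP
  refine lintegral_congr_ae ?_
  filter_upwards [h1] with ξ h2
  have hT' : Conf.spl W (σ, ξ) ∈ T := by
    have : (Conf.spl W (σ, ξ) ∈ T) = (σ ∈ T) := hT.spl_left subset_rfl σ ξ
    rw [this]; exact hσ
  by_cases hx : Conf.spl W (σ, ξ) ∈ S
  · rw [Set.indicator_of_mem hx, Set.indicator_of_mem ((h2 hT').1 hx)]
  · rw [Set.indicator_of_notMem hx, Set.indicator_of_notMem (fun hc => hx ((h2 hT').2 hc))]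

/-- events compared a.s. on an event `T` read from `W` -/
theorem pvsu_P_mono_on (h : IsPpp m μ) (hW : MeasurableSet W) {T S S' : Set (Conf E)} (hT : Conf.Reads W (fun η => η ∈ T))
    (e : ∀ᵐ η ∂μ, η ∈ T → η ∈ S → η ∈ S') : ∀ᵐ σ ∂μ, σ ∈ T → pvtiP μ W S σ ≤ pvtiP μ W S' σ := by
  filter_upwards [pvsu_ae_spl h hW e] with σ h1 hσ
  unfold pvtiP
  refine lintegral_mono_ae ?_
  filter_upwards [h1] with ξ h2
  have hT' : Conf.spl W (σ, ξ) ∈ T := by
    have : (Conf.spl W (σ, ξ) ∈ T) = (σ ∈ T) := hT.spl_left subset_rfl σ ξ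
    rw [this]; exact hσ
  by_cases hx : Conf.spl W (σ, ξ) ∈ S
  · rw [Set.indicator_of_mem hx, Set.indicator_of_mem (h2 hT' hx)]
  · rw [Set.indicator_of_notMem hx]; exact zero_le

theorem pvsu_P_congr (h : IsPpp m μ) (hW : MeasurableSet W) {S S' : Set (Conf E)} (e : ∀ᵐ η ∂μ, (η ∈ S ↔ η ∈ S')) :
    ∀ᵐ σ ∂μ, pvtiP μ W S σ = pvtiP μ W S' σ := by
  filter_upwards [pvsu_P_congr_on (T := univ) h hW (fun _ => rfl) (e.mono fun _ h _ => h)] with σ h1
  exact h1 (mem_univ _)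

/-! ## 3. `Sure` : the soft localisation of an event -/

/-- **the soft localisation of the event `M` in the window `W`**: given the restriction to `W`, the event is a.s. sure -/
def pvsuSure (μ : Measure (Conf E)) (W : Set E) (M : Set (Conf E)) : Set (Conf E) := {σ | pvtiP μ W (toMeasurable μ M) σ = 1}

theorem pvsu_eqns_cite2 : True := by
  have := @pvsuSure.eq_1.{0}
  trivial

theorem pvsu_sure_measurable [SFinite μ] (hW : MeasurableSet W) (M : Set (Conf E)) : MeasurableSet (pvsuSure μ W M) :=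
  pvti_P_measurable hW (measurableSet_toMeasurable μ M) (measurableSet_singleton 1)

theorem pvsu_sure_reads (μ : Measure (Conf E)) (W : Set E) (M : Set (Conf E)) : Conf.Reads W (fun η => η ∈ pvsuSure μ W M) := fun η => by
  show (pvtiP μ W (toMeasurable μ M) (Conf.restr W η) = 1) = (pvtiP μ W (toMeasurable μ M) η = 1)
  rw [pvti_P_reads μ W _ η]

theorem pvsu_toMeasurable_iff {M : Set (Conf E)} (hM : NullMeasurableSet M μ) : ∀ᵐ η ∂μ, (η ∈ toMeasurable μ M ↔ η ∈ M) := by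
  filter_upwards [hM.toMeasurable_ae_eq] with η hη
  exact iff_of_eq hη

/-- `μ (Sure \ M) = 0` ALWAYS -/
theorem pvsu_sure_sub (h : IsPpp m μ) (hW : MeasurableSet W) {M : Set (Conf E)} (hM : NullMeasurableSet M μ) : ∀ᵐ σ ∂μ, σ ∈ pvsuSure μ W M → σ ∈ M := by
  have := h.prob
  have hM' : MeasurableSet (toMeasurable μ M) := measurableSet_toMeasurable μ M
  have h0 : μ ((toMeasurable μ M)ᶜ ∩ pvsuSure μ W M) = 0 := by
    refine le_antisymm (ENNReal.le_of_forall_pos_le_add fun t ht _ => ?_) zero_le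
    rw [zero_add]
    refine (measure_mono ?_).trans (pvsa_small h hW hM'.compl (t : ℝ≥0∞))
    rintro σ ⟨h1, h2⟩
    refine ⟨h1, ?_⟩
    have e := pvsu_P_compl (μ := μ) hW hM' σ
    rw [show pvtiP μ W (toMeasurable μ M) σ = 1 from h2] at e
    have e0 : pvtiP μ W (toMeasurable μ M)ᶜ σ = 0 := by
      have := (ENNReal.add_right_inj (a := 1) ENNReal.one_ne_top).1 (e.trans (add_zero 1).symm)
      exact this
    show pvtiP μ W (toMeasurable μ M)ᶜ σ < t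
    rw [e0]; exact_mod_cast ht
  have h1 : ∀ᵐ σ ∂μ, σ ∉ (toMeasurable μ M)ᶜ ∩ pvsuSure μ W M := measure_eq_zero_iff_ae_notMem.1 h0
  filter_upwards [h1, pvsu_toMeasurable_iff hM] with σ h2 h3 h4
  by_contra hc
  exact h2 ⟨fun h5 => hc (h3.1 h5), h4⟩

/-- **`Sure = M` a.s. on `S`** as soon as `M` is a.s. determined by `W` on `S` -/
theorem pvsu_sure_iff (h : IsPpp m μ) (hW : MeasurableSet W) {M S : Set (Conf E)} (hM : NullMeasurableSet M μ) (hd : PvsuDet μ W S (fun η => η ∈ M)) :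
    ∀ᵐ σ ∂μ, σ ∈ S → (σ ∈ pvsuSure μ W M ↔ σ ∈ M) := by
  have := h.prob
  filter_upwards [pvsu_sure_sub h hW hM, hd, pvsu_ae_spl h hW (pvsu_toMeasurable_iff hM)] with σ h1 h2 h3 hS
  refine ⟨h1, fun hσ => pvsu_P_of_ae ?_⟩
  filter_upwards [h2 hS, h3] with ξ h4 h5
  exact h5.2 (h4 ▸ hσ)

/-- the measure of `Sure` -/
theorem pvsu_sure_measure (h : IsPpp m μ) (hW : MeasurableSet W) {M : Set (Conf E)} (hM : NullMeasurableSet M μ) (hd : PvsuDet μ W univ (fun η => η ∈ M)) :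
    μ (pvsuSure μ W M) = μ M := by
  refine measure_congr ?_
  filter_upwards [pvsu_sure_iff h hW hM hd] with σ h1
  exact propext (h1 (mem_univ _))

/-! ## 4. `Loc` : the soft localisation of a field -/

open Classical in
/-- a measurable version (`0` if there is none) -/
noncomputable def pvsuMk (μ : Measure (Conf E)) (F : Conf E → ℂ) : Conf E → ℂ := if h : AEMeasurable F μ then h.mk F else 0

theorem pvsu_mk_measurable (μ : Measure (Conf E)) (F : Conf E → ℂ) : Measurable (pvsuMk μ F) := by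
  unfold pvsuMk
  split_ifs with h
  · exact h.measurable_mk
  · exact measurable_zero

theorem pvsu_mk_ae {F : Conf E → ℂ} (h : AEMeasurable F μ) : ∀ᵐ η ∂μ, pvsuMk μ F η = F η := by
  unfold pvsuMk
  rw [dif_pos h]
  filter_upwards [h.ae_eq_mk] with η hη
  exact hη.symm

/-- **the soft localisation of the field `F` in the window `W`** -/
noncomputable def pvsuLoc (μ : Measure (Conf E)) (W : Set E) (F : Conf E → ℂ) (σ : Conf E) : ℂ := ∫ ξ, pvsuMk μ F (Conf.spl W (σ, ξ)) ∂μ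

theorem pvsu_eqns_cite3 : True := by
  have := @pvsuMk.eq_1.{0}
  have := @pvsuLoc.eq_1.{0}
  trivial

theorem pvsu_loc_measurable [SFinite μ] (hW : MeasurableSet W) (F : Conf E → ℂ) : Measurable (pvsuLoc μ W F) :=
  (((pvsu_mk_measurable μ F).comp (Conf.measurable_spl hW)).stronglyMeasurable.integral_prod_right').measurable

theorem pvsu_loc_reads (μ : Measure (Conf E)) (W : Set E) (F : Conf E → ℂ) : Conf.Reads W (pvsuLoc μ W F) := fun σ => by
  unfold pvsuLoc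
  simp_rw [Conf.spl_restr]

/-- **`Loc F = F` a.s. on `S`** as soon as `F` is a.s. determined by `W` on `S` -/
theorem pvsu_loc_eq (h : IsPpp m μ) (hW : MeasurableSet W) {F : Conf E → ℂ} {S : Set (Conf E)} (hF : AEMeasurable F μ) (hd : PvsuDet μ W S F) :
    ∀ᵐ σ ∂μ, σ ∈ S → pvsuLoc μ W F σ = F σ := by
  have := h.prob
  filter_upwards [hd, pvsu_ae_spl h hW (pvsu_mk_ae hF)] with σ h1 h2 hS
  unfold pvsuLoc
  have : (fun ξ => pvsuMk μ F (Conf.spl W (σ, ξ))) =ᵐ[μ] fun _ => F σ := by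
    filter_upwards [h1 hS, h2] with ξ h3 h4
    rw [h4, h3]
  rw [integral_congr_ae this]; simp

/-! ## 5. `Frc` : forced by construction -/

/-- **forced by construction**: where the conditional probability of `A` given the states is too small, success is declared -/
def pvsuFrc (μ : Measure (Conf E)) (O : Set E) (T A : Set (Conf E)) (q : ℝ≥0∞) : Set (Conf E) := A ∪ (T ∩ {σ | pvtiP μ O A σ < q})

theorem pvsu_eqns_cite4 : True := by
  have := @pvsuFrc.eq_1.{0}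
  trivial

theorem pvsu_frc_measurable [SFinite μ] (hO : MeasurableSet O) {T A : Set (Conf E)} (hT : MeasurableSet T) (hA : MeasurableSet A) (q : ℝ≥0∞) :
    MeasurableSet (pvsuFrc μ O T A q) :=
  hA.union (hT.inter (measurableSet_lt (pvti_P_measurable hO hA) measurable_const))

theorem pvsu_frc_reads {T A : Set (Conf E)} (hOW : O ⊆ W) (hT : Conf.Reads O (fun η => η ∈ T)) (hA : Conf.Reads W (fun η => η ∈ A)) (q : ℝ≥0∞) :
    Conf.Reads W (fun η => η ∈ pvsuFrc μ O T A q) := fun η => by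
  have e1 : (Conf.restr W η ∈ A) = (η ∈ A) := hA η
  have e2 : (Conf.restr W η ∈ T) = (η ∈ T) := (hT.mono hOW) η
  have e3 : pvtiP μ O A (Conf.restr W η) = pvtiP μ O A η := ((pvti_P_reads μ O A).mono hOW) η
  simp only [pvsuFrc, Set.mem_union, Set.mem_inter_iff, Set.mem_ofPred_eq, e1, e2, e3]

/-- the bound holds at EVERY state of `T`, without any hypothesis on `A` -/
theorem pvsu_frc_le [IsProbabilityMeasure μ] {T : Set (Conf E)} (hT : Conf.Reads O (fun η => η ∈ T)) (A : Set (Conf E)) {q : ℝ≥0∞} (hq : q ≤ 1) {σ : Conf E} (hσ : σ ∈ T) :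
    q ≤ pvtiP μ O (pvsuFrc μ O T A q) σ := by
  by_cases hc : pvtiP μ O A σ < q
  · rw [pvsu_P_of_ae (Eventually.of_forall fun ξ => ?_)]
    · exact hq
    · refine Or.inr ⟨?_, ?_⟩
      · have : (Conf.spl O (σ, ξ) ∈ T) = (σ ∈ T) := hT.spl_left subset_rfl σ ξ
        rw [this]; exact hσ
      · show pvtiP μ O A (Conf.spl O (σ, ξ)) < q
        rw [(pvti_P_reads μ O A).spl_left subset_rfl σ ξ]; exact hc
  · exact (not_lt.1 hc).trans (pvsu_P_mono μ O subset_union_left σ)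

/-- under the a.e. bound nothing was added -/
theorem pvsu_frc_ae {T A : Set (Conf E)} {q : ℝ≥0∞} (hb : ∀ᵐ σ ∂μ, σ ∈ T → q ≤ pvtiP μ O A σ) : ∀ᵐ σ ∂μ, σ ∈ pvsuFrc μ O T A q → σ ∈ A := by
  filter_upwards [hb] with σ h1 h2
  rcases h2 with h2 | ⟨h2, h3⟩
  · exact h2
  · exact absurd h3 (not_lt.2 (h1 h2))

end gen

/-! ## 6. a.e. transfer to the placed cells of a kit -/

section place

/-- an a.e. property passes to a frame -/
theorem pvsu_ae_place (ε : ℝ) (z d : ℂ) (hd : ‖d‖ = 1) {p : Conf PvPt → Prop} (hp : ∀ᵐ η ∂(pvP ε), p η) :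
    ∀ᵐ η ∂(pvP ε), p (cfMap (pvthInv z d) η) := by
  have h0 : pvP ε {η | ¬ p η} = 0 := ae_iff.1 hp
  have h1 := pvci_measure_T (pvciAff d z (pvth_ne_zero hd)) (pvci_law_frame z d hd ε) {η | ¬ p η}
  rw [h0] at h1
  exact ae_iff.2 h1

/-- **a.e. transfer to ONE placed cell**: an a.s. consequence `p` of `G₀ ∩ G' ∩ A₀ τ` in the reference frame holds in the frame of the cell -/
theorem pvsu_cell_ae (kit : PvthKit) (ε : ℝ) (z d : ℂ) (hd : ‖d‖ = 1) (τ : PvtTurn) {p : Conf PvPt → Prop}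
    (hp : ∀ᵐ η ∂(pvP ε), η ∈ kit.G₀ → η ∈ kit.G (kit.zo 0 1 τ) τ.rot → η ∈ kit.A₀ τ → p η) :
    ∀ᵐ η ∂(pvP ε), η ∈ kit.G z d → η ∈ kit.G (kit.zo z d τ) (d * τ.rot) → η ∈ kit.A z d τ → p (cfMap (pvthInv z d) η) := by
  filter_upwards [pvsu_ae_place ε z d hd hp] with η h1 h2 h3 h4
  rw [pvth_zo_place, pvth_G_comp kit _ _ _ _ (pvth_ne_zero hd)] at h3
  exact h1 h2 h3 h4

/-- **a.e. transfer to the cells of a closed word**: an a.s. consequence `p τ` of `G₀ ∩ G' ∩ A₀ τ` in the reference frame holds in the frame of every cell, a.s. on `Ev` -/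
theorem pvsu_ev_ae (kit : PvthKit) (ε : ℝ) {d : ℂ} (hd : d ^ 4 = 1) (z : ℂ) {l : List PvtTurn} (hl : PvtClosed d l) {p : PvtTurn → Conf PvPt → Prop}
    (hp : ∀ τ, ∀ᵐ η ∂(pvP ε), η ∈ kit.G₀ → η ∈ kit.G (kit.zo 0 1 τ) τ.rot → η ∈ kit.A₀ τ → p τ η) :
    ∀ᵐ η ∂(pvP ε), η ∈ kit.Ev z d l → ∀ j < l.length, p (pvthL l j) (cfMap (pvthInv (pvthZ kit.δ z d l j) (pvthD d l j)) η) := by
  filter_upwards [ae_all_iff.2 fun j : ℕ => pvsu_cell_ae kit ε (pvthZ kit.δ z d l j) (pvthD d l j) (pvthx_D_norm hd l j) (pvthL l j) (hp (pvthL l j))] with η h2 hη j hj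
  exact h2 j (hη j hj).1 (pvthx_exit_mem153 hl hη hj) (hη j hj).2

end place

/-! ## 7. THE SOFT KIT -/

/-- **GLOBAL DATA of a cell kit** in the reference frame: nothing is asked to read anything -/
structure PvsuDat where
  /-- side of the cells -/
  δ : ℝ
  /-- region of the door plug -/
  O₀ : Set ℂ
  /-- exterior region of the connector -/
  K₀ : PvtTurn → Set ℂ
  /-- the GLOBAL plug event (gate, stubs, .. on the plane map of a nice configuration) -/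
  C : Set (Conf PvPt)
  /-- the half lanes: events whose propensities are put in the usable event -/
  H : List (Set (Conf PvPt))
  /-- threshold of the propensities -/
  b : ℝ≥0∞
  /-- the GLOBAL success event of the connector -/
  A : PvtTurn → Set (Conf PvPt)
  /-- the forcing constant -/
  q : ℝ≥0∞
  /-- the GLOBAL field -/
  X : PvtTurn → Conf PvPt → ℂ

namespace PvsuDat

variable (D : PvsuDat)

/-- window of the entrance plug -/
def O : Set PvPt := (pvthSim 0 1 '' D.O₀) ×ˢ univ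

/-- the exit door -/
noncomputable def zo (τ : PvtTurn) : ℂ := 0 + 1 * (D.δ * τ.mid)

/-- window of the two plugs -/
noncomputable def OO (τ : PvtTurn) : Set PvPt := D.O ∪ (pvthSim (D.zo τ) (1 * τ.rot) '' D.O₀) ×ˢ univ

/-- window of the cell -/
noncomputable def Wd (τ : PvtTurn) : Set PvPt := D.OO τ ∪ (pvthSim 0 1 '' D.K₀ τ) ×ˢ univ

/-- the global plug event at the exit door -/
noncomputable def C' (τ : PvtTurn) : Set (Conf PvPt) := cfMap (pvthInv (D.zo τ) τ.rot) ⁻¹' D.C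

/-- all the half lanes -/
def HH : Set (Conf PvPt) := {η | ∀ H ∈ D.H, η ∈ H}

/-- **usable states**: the plug event is a.s. sure given the state, all the propensities are at least `b` -/
noncomputable def G₀ (μ : Measure (Conf PvPt)) : Set (Conf PvPt) := pvsuSure μ D.O D.C ∩ {σ | ∀ H ∈ D.H, D.b ≤ pvtiP μ D.O H σ}

/-- usable state at the exit door -/
noncomputable def G' (μ : Measure (Conf PvPt)) (τ : PvtTurn) : Set (Conf PvPt) := cfMap (pvthInv (D.zo τ) τ.rot) ⁻¹' D.G₀ μ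

/-- **success**: a.s. sure given the cell, forced by construction -/
noncomputable def A₀ (μ : Measure (Conf PvPt)) (τ : PvtTurn) : Set (Conf PvPt) :=
  pvsuFrc μ (D.OO τ) (D.G₀ μ ∩ D.G' μ τ) (pvsuSure μ (D.Wd τ) (D.A τ)) D.q

/-- **THE SOFT KIT** -/
noncomputable def kit (μ : Measure (Conf PvPt)) : PvthKit := ⟨D.δ, D.O₀, D.K₀, D.G₀ μ, D.A₀ μ⟩

/-- the same kit without connectors (a device: the placed plug objects) -/
noncomputable def pre (μ : Measure (Conf PvPt)) : PvthKit := ⟨D.δ, D.O₀, D.K₀, D.G₀ μ, fun _ => ∅⟩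

/-- **THE SOFT FIELD** -/
noncomputable def fld (μ : Measure (Conf PvPt)) (τ : PvtTurn) : Conf PvPt → ℂ := pvsuLoc μ (D.Wd τ) (D.X τ)

/-- what costs nothing: sets, numbers -/
structure Pre : Prop where
  δ0 : 0 < D.δ
  mO : MeasurableSet D.O₀
  mK : ∀ τ, MeasurableSet (D.K₀ τ)
  mH : ∀ H ∈ D.H, MeasurableSet H
  b0 : D.b ≠ 0
  q0 : D.q ≠ 0
  q1 : D.q ≤ 1

/-- **THE DEBT OF THE INSTANCE** at the mesh `ε` -/
structure Ok (ε : ℝ) : Prop extends D.Pre where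
  /-- [MEAS] -/
  nC : NullMeasurableSet D.C (pvP ε)
  nA : ∀ τ, NullMeasurableSet (D.A τ) (pvP ε)
  nX : ∀ τ, AEMeasurable (D.X τ) (pvP ε)
  /-- [LOC] -/
  dC : PvsuDet (pvP ε) D.O univ (fun η => η ∈ D.C)
  dA : ∀ τ, PvsuDet (pvP ε) (D.Wd τ) (D.C ∩ D.C' τ) (fun η => η ∈ D.A τ)
  dX : ∀ τ, PvsuDet (pvP ε) (D.Wd τ) (D.C ∩ D.C' τ ∩ D.A τ) (D.X τ)
  /-- [ADM] -/
  adm : (D.H.length + 1 : ℕ) * D.b ≤ pvP ε (D.C ∩ D.HH)
  /-- [FRC], a.e. -/
  frc : ∀ τ, ∀ᵐ σ ∂(pvP ε), σ ∈ D.G₀ (pvP ε) → σ ∈ D.G' (pvP ε) τ → D.q ≤ pvtiP (pvP ε) (D.OO τ) (D.A τ) σ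

end PvsuDat

theorem pvsu_eqns_cite5 : True := by
  have := @PvsuDat.O.eq_1; have := @PvsuDat.zo.eq_1; have := @PvsuDat.OO.eq_1; have := @PvsuDat.Wd.eq_1; have := @PvsuDat.C'.eq_1; have := @PvsuDat.HH.eq_1
  have := @PvsuDat.G₀.eq_1; have := @PvsuDat.G'.eq_1; have := @PvsuDat.A₀.eq_1; have := @PvsuDat.kit.eq_1; have := @PvsuDat.pre.eq_1; have := @PvsuDat.fld.eq_1
  trivial

section soft

variable {D : PvsuDat} {ε : ℝ}

theorem pvsu_kit_O (D : PvsuDat) (μ : Measure (Conf PvPt)) (z d : ℂ) : (D.kit μ).O z d = (D.pre μ).O z d := rfl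
theorem pvsu_kit_O_ref (D : PvsuDat) (μ : Measure (Conf PvPt)) : (D.kit μ).O 0 1 = D.O := rfl
theorem pvsu_kit_zo (D : PvsuDat) (μ : Measure (Conf PvPt)) (τ : PvtTurn) : (D.kit μ).zo 0 1 τ = D.zo τ := rfl
theorem pvsu_kit_OO (D : PvsuDat) (μ : Measure (Conf PvPt)) (τ : PvtTurn) : (D.kit μ).OO 0 1 τ = D.OO τ := rfl
theorem pvsu_kit_Wd (D : PvsuDat) (μ : Measure (Conf PvPt)) (τ : PvtTurn) : (D.kit μ).OO 0 1 τ ∪ (D.kit μ).K 0 1 τ = D.Wd τ := rfl
theorem pvsu_kit_G (D : PvsuDat) (μ : Measure (Conf PvPt)) (z d : ℂ) : (D.kit μ).G z d = (D.pre μ).G z d := rfl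
theorem pvsu_kit_G' (D : PvsuDat) (μ : Measure (Conf PvPt)) (τ : PvtTurn) : (D.kit μ).G ((D.kit μ).zo 0 1 τ) τ.rot = D.G' μ τ := rfl

theorem pvsu_mO (H : D.Pre) : MeasurableSet D.O := by
  unfold PvsuDat.O
  rw [pvth_sim_id, Set.image_id]
  exact H.mO.prod MeasurableSet.univ

theorem pvsu_mG₀ (H : D.Pre) (μ : Measure (Conf PvPt)) [SFinite μ] : MeasurableSet (D.G₀ μ) := by
  refine (pvsu_sure_measurable (pvsu_mO H) _).inter ?_
  have e : {σ | ∀ H ∈ D.H, D.b ≤ pvtiP μ D.O H σ} = ⋂ H ∈ {H | H ∈ D.H}, {σ | D.b ≤ pvtiP μ D.O H σ} := by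
    ext σ; simp
  rw [e]
  exact MeasurableSet.biInter (List.finite_toSet D.H).countable fun S hS => measurableSet_le measurable_const (pvti_P_measurable (pvsu_mO H) (H.mH S hS))

theorem pvsu_rG₀ (D : PvsuDat) (μ : Measure (Conf PvPt)) : Conf.Reads D.O (fun η => η ∈ D.G₀ μ) := fun η => by
  have e1 : (Conf.restr D.O η ∈ pvsuSure μ D.O D.C) = (η ∈ pvsuSure μ D.O D.C) := pvsu_sure_reads μ D.O D.C η
  have e2 : ∀ S, pvtiP μ D.O S (Conf.restr D.O η) = pvtiP μ D.O S η := fun S => pvti_P_reads μ D.O S η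
  simp only [PvsuDat.G₀, Set.mem_inter_iff, Set.mem_ofPred_eq, e1, e2]

theorem pvsu_pre_wf (H : D.Pre) (μ : Measure (Conf PvPt)) [SFinite μ] : (D.pre μ).WF where
  δ0 := H.δ0
  mO := H.mO
  mK := H.mK
  mG := pvsu_mG₀ H μ
  mA _ := MeasurableSet.empty
  rG := pvsu_rG₀ D μ
  rA _ _ := rfl

theorem pvsu_mOO (H : D.Pre) (τ : PvtTurn) : MeasurableSet (D.OO τ) := pvth_mOO (pvsu_pre_wf H (0 : Measure (Conf PvPt))) 0 1 one_ne_zero τ

theorem pvsu_mWd (H : D.Pre) (τ : PvtTurn) : MeasurableSet (D.Wd τ) :=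
  (pvsu_mOO H τ).union (pvth_mK (pvsu_pre_wf H (0 : Measure (Conf PvPt))) 0 1 one_ne_zero τ)

theorem pvsu_mG' (H : D.Pre) (μ : Measure (Conf PvPt)) [SFinite μ] (τ : PvtTurn) : MeasurableSet (D.G' μ τ) := pvth_mG (pvsu_pre_wf H μ) _ _

/-- the pair of states is read from the two plugs -/
theorem pvsu_rGG (H : D.Pre) (μ : Measure (Conf PvPt)) [SFinite μ] (τ : PvtTurn) : Conf.Reads (D.OO τ) (fun η => η ∈ D.G₀ μ ∩ D.G' μ τ) := by
  have h1 : Conf.Reads (D.OO τ) (fun η => η ∈ D.G₀ μ) := (pvsu_rG₀ D μ).mono subset_union_left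
  have h2 : Conf.Reads (D.OO τ) (fun η => η ∈ D.G' μ τ) := by
    have := pvth_rG (pvsu_pre_wf H μ) (D.zo τ) (1 * τ.rot) (mul_ne_zero one_ne_zero (pvt_rot_ne_zero τ))
    have h3 := this.mono (show (D.pre μ).O (D.zo τ) (1 * τ.rot) ⊆ D.OO τ from subset_union_right)
    rw [one_mul] at h3
    exact h3
  exact h1.map₂ h2 (fun a b => a ∧ b)

/-- **WF costs nothing** -/
theorem pvsu_wf (H : D.Pre) (μ : Measure (Conf PvPt)) [SFinite μ] : (D.kit μ).WF where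
  δ0 := H.δ0
  mO := H.mO
  mK := H.mK
  mG := pvsu_mG₀ H μ
  mA τ := pvsu_frc_measurable (pvsu_mOO H τ) ((pvsu_mG₀ H μ).inter (pvsu_mG' H μ τ)) (pvsu_sure_measurable (pvsu_mWd H τ) _) _
  rG := pvsu_rG₀ D μ
  rA τ := pvsu_frc_reads subset_union_left (pvsu_rGG H μ τ) (pvsu_sure_reads μ (D.Wd τ) (D.A τ)) _

/-- **Fld costs nothing** -/
theorem pvsu_fld (H : D.Pre) (μ : Measure (Conf PvPt)) [SFinite μ] : (D.kit μ).Fld (D.fld μ) where
  meas τ := pvsu_loc_measurable (pvsu_mWd H τ) _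
  reads τ := pvsu_loc_reads μ (D.Wd τ) (D.X τ)

/-- small propensity for a list of events -/
theorem pvsu_bad_le {E : Type*} [MeasurableSpace E] {m : Measure E} {μ : Measure (Conf E)} {O : Set E} (h : IsPpp m μ) (hO : MeasurableSet O) (b : ℝ≥0∞) :
    ∀ L : List (Set (Conf E)), (∀ S ∈ L, MeasurableSet S) → μ {σ | ∃ S ∈ L, σ ∈ S ∧ pvtiP μ O S σ < b} ≤ (L.length : ℕ) * b
  | [], _ => by simp
  | S :: L, hL => by
      have e : {σ | ∃ S' ∈ S :: L, σ ∈ S' ∧ pvtiP μ O S' σ < b} ⊆ (S ∩ {σ | pvtiP μ O S σ < b}) ∪ {σ | ∃ S' ∈ L, σ ∈ S' ∧ pvtiP μ O S' σ < b} := by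
        rintro σ ⟨S', hS', h1, h2⟩
        rcases List.mem_cons.1 hS' with rfl | hS'
        · exact Or.inl ⟨h1, h2⟩
        · exact Or.inr ⟨S', hS', h1, h2⟩
      calc μ {σ | ∃ S' ∈ S :: L, σ ∈ S' ∧ pvtiP μ O S' σ < b} ≤ μ (S ∩ {σ | pvtiP μ O S σ < b}) + μ {σ | ∃ S' ∈ L, σ ∈ S' ∧ pvtiP μ O S' σ < b} :=
            (measure_mono e).trans (measure_union_le _ _)
        _ ≤ b + (L.length : ℕ) * b := add_le_add (pvsa_small h hO (hL S List.mem_cons_self) b) (pvsu_bad_le h hO b L fun S' hS' => hL S' (List.mem_cons_of_mem _ hS'))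
        _ = ((S :: L).length : ℕ) * b := by rw [List.length_cons]; push_cast; ring

/-- **ADMISSION** -/
theorem pvsu_adm (H : D.Ok ε) : D.b ≤ pvP ε (D.G₀ (pvP ε)) := by
  have hP := pv_isPpp ε
  have := hP.prob
  have hO := pvsu_mO H.toPre
  have h1 : pvP ε (D.C ∩ D.HH) ≤ pvP ε (D.G₀ (pvP ε)) + (D.H.length : ℕ) * D.b := by
    have hsub : ∀ᵐ σ ∂(pvP ε), σ ∈ D.C ∩ D.HH → σ ∈ D.G₀ (pvP ε) ∪ {σ | ∃ S ∈ D.H, σ ∈ S ∧ pvtiP (pvP ε) D.O S σ < D.b} := by
      filter_upwards [pvsu_sure_iff hP hO H.nC H.dC] with σ h2 h3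
      by_cases hc : ∃ S ∈ D.H, σ ∈ S ∧ pvtiP (pvP ε) D.O S σ < D.b
      · exact Or.inr hc
      · refine Or.inl ⟨(h2 (mem_univ _)).2 h3.1, fun S hS => ?_⟩
        by_contra hlt
        exact hc ⟨S, hS, h3.2 S hS, not_le.1 hlt⟩
    calc pvP ε (D.C ∩ D.HH) ≤ pvP ε (D.G₀ (pvP ε) ∪ {σ | ∃ S ∈ D.H, σ ∈ S ∧ pvtiP (pvP ε) D.O S σ < D.b}) := measure_mono_ae hsub
      _ ≤ pvP ε (D.G₀ (pvP ε)) + pvP ε {σ | ∃ S ∈ D.H, σ ∈ S ∧ pvtiP (pvP ε) D.O S σ < D.b} := measure_union_le _ _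
      _ ≤ pvP ε (D.G₀ (pvP ε)) + (D.H.length : ℕ) * D.b := add_le_add le_rfl (pvsu_bad_le hP hO D.b D.H H.mH)
  have h2 := H.adm.trans h1
  have hbt : D.b ≠ ∞ := by
    intro e
    have h3 : ((D.H.length + 1 : ℕ) : ℝ≥0∞) * D.b ≤ 1 := H.adm.trans prob_le_one
    rw [e, ENNReal.mul_top (by simp)] at h3
    exact absurd h3 (by simp)
  have e : ((D.H.length + 1 : ℕ) : ℝ≥0∞) * D.b = D.b + (D.H.length : ℕ) * D.b := by push_cast; ring
  rw [e] at h2
  exact (ENNReal.add_le_add_iff_right (ENNReal.mul_ne_top (ENNReal.natCast_ne_top _) hbt)).1 h2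

/-- **FORCED**: `frc` by construction, `adm` by small propensity -/
theorem pvsu_forced (H : D.Ok ε) : (D.kit (pvP ε)).Forced (pvP ε) D.b D.q where
  β0 := H.b0
  q0 := H.q0
  adm := pvsu_adm H
  frc τ σ h0 h1 := by
    have := (pv_isPpp ε).prob
    exact pvsu_frc_le (pvsu_rGG H.toPre (pvP ε) τ) _ H.q1 ⟨h0, h1⟩

/-- a usable state carries the global plug event, a.s. -/
theorem pvsu_G_sub (H : D.Pre) (nC : NullMeasurableSet D.C (pvP ε)) : ∀ᵐ η ∂(pvP ε), η ∈ D.G₀ (pvP ε) → η ∈ D.C := by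
  filter_upwards [pvsu_sure_sub (pv_isPpp ε) (pvsu_mO H) nC] with η h1 h2
  exact h1 h2.1

theorem pvsu_G'_sub (H : D.Pre) (nC : NullMeasurableSet D.C (pvP ε)) (τ : PvtTurn) : ∀ᵐ η ∂(pvP ε), η ∈ D.G' (pvP ε) τ → η ∈ D.C' τ :=
  pvsu_ae_place ε (D.zo τ) τ.rot (pvt_norm_rot τ) (pvsu_G_sub H nC)

/-- **producer of [FRC]**: the global success contains a.s. `C ∩ C' ∩ B τ`, and the explicit event `B τ` is forced -/
theorem pvsu_frc_of_sub (H : D.Pre) (nC : NullMeasurableSet D.C (pvP ε)) (τ : PvtTurn) {B : Set (Conf PvPt)}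
    (hsub : ∀ᵐ η ∂(pvP ε), η ∈ D.C → η ∈ D.C' τ → η ∈ B → η ∈ D.A τ)
    (hB : ∀ᵐ σ ∂(pvP ε), σ ∈ D.G₀ (pvP ε) → σ ∈ D.G' (pvP ε) τ → D.q ≤ pvtiP (pvP ε) (D.OO τ) B σ) :
    ∀ᵐ σ ∂(pvP ε), σ ∈ D.G₀ (pvP ε) → σ ∈ D.G' (pvP ε) τ → D.q ≤ pvtiP (pvP ε) (D.OO τ) (D.A τ) σ := by
  have := (pv_isPpp ε).prob
  have e : ∀ᵐ η ∂(pvP ε), η ∈ D.G₀ (pvP ε) ∩ D.G' (pvP ε) τ → η ∈ B → η ∈ D.A τ := by
    filter_upwards [hsub, pvsu_G_sub H nC, pvsu_G'_sub H nC τ] with η h1 h2 h3 h4 h5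
    exact h1 (h2 h4.1) (h3 h4.2) h5
  filter_upwards [pvsu_P_mono_on (pv_isPpp ε) (pvsu_mOO H τ) (pvsu_rGG H (pvP ε) τ) e, hB] with σ h1 h2 h3 h4
  exact (h2 h3 h4).trans (h1 ⟨h3, h4⟩)

/-- **THE REFERENCE CELL**: a.s. on `G₀ ∩ G' ∩ A₀ τ` the GLOBAL objects are there and the soft field is the global field -/
theorem pvsu_cell (H : D.Ok ε) (τ : PvtTurn) : ∀ᵐ η ∂(pvP ε), η ∈ D.G₀ (pvP ε) → η ∈ D.G' (pvP ε) τ → η ∈ D.A₀ (pvP ε) τ →
    η ∈ D.C ∧ η ∈ D.C' τ ∧ η ∈ D.A τ ∧ D.fld (pvP ε) τ η = D.X τ η := by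
  have hP := pv_isPpp ε
  have := hP.prob
  have hW := pvsu_mWd H.toPre τ
  have hGC : ∀ᵐ η ∂(pvP ε), η ∈ D.G₀ (pvP ε) ∩ D.G' (pvP ε) τ → η ∈ D.C ∩ D.C' τ := by
    filter_upwards [pvsu_G_sub H.toPre H.nC, pvsu_G'_sub H.toPre H.nC τ] with η h1 h2 h3
    exact ⟨h1 h3.1, h2 h3.2⟩
  have hS : ∀ᵐ η ∂(pvP ε), η ∈ D.G₀ (pvP ε) ∩ D.G' (pvP ε) τ → (η ∈ pvsuSure (pvP ε) (D.Wd τ) (D.A τ) ↔ η ∈ D.A τ) :=
    pvsu_sure_iff hP hW (H.nA τ) ((H.dA τ).mono hGC)
  have hb : ∀ᵐ σ ∂(pvP ε), σ ∈ D.G₀ (pvP ε) ∩ D.G' (pvP ε) τ → D.q ≤ pvtiP (pvP ε) (D.OO τ) (pvsuSure (pvP ε) (D.Wd τ) (D.A τ)) σ := by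
    filter_upwards [pvsu_P_congr_on hP (pvsu_mOO H.toPre τ) (pvsu_rGG H.toPre (pvP ε) τ) hS, H.frc τ] with σ h1 h2 h3
    rw [h1 h3]; exact h2 h3.1 h3.2
  filter_upwards [hGC, hS, pvsu_frc_ae hb, pvsu_loc_eq hP hW (H.nX τ) (H.dX τ)] with η h1 h2 h3 h4 g0 g1 a0
  have hC := h1 ⟨g0, g1⟩
  have hA : η ∈ D.A τ := (h2 ⟨g0, g1⟩).1 (h3 a0)
  exact ⟨hC.1, hC.2, hA, h4 ⟨hC, hA⟩⟩

/-- **ONE PLACED CELL** (for the chains) -/
theorem pvsu_cell_place (H : D.Ok ε) (z d : ℂ) (hd : ‖d‖ = 1) (τ : PvtTurn) :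
    ∀ᵐ η ∂(pvP ε), η ∈ (D.kit (pvP ε)).G z d → η ∈ (D.kit (pvP ε)).G ((D.kit (pvP ε)).zo z d τ) (d * τ.rot) → η ∈ (D.kit (pvP ε)).A z d τ →
      cfMap (pvthInv z d) η ∈ D.C ∧ cfMap (pvthInv z d) η ∈ D.C' τ ∧ cfMap (pvthInv z d) η ∈ D.A τ ∧ pvthX (D.fld (pvP ε)) z d τ η = pvthX D.X z d τ η := by
  filter_upwards [pvsu_cell_ae (D.kit (pvP ε)) ε z d hd τ (pvsu_cell H τ)] with η h1 g0 g1 a0
  obtain ⟨h2, h3, h4, h5⟩ := h1 g0 g1 a0
  exact ⟨h2, h3, h4, congrArg (fun x => d * x) h5⟩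

/-- **THE EXIT**: a.s. on the event of a closed word, in the frame of every cell the GLOBAL plug events and the GLOBAL success hold, and the placed soft field is the placed global field -/
theorem pvsu_ev (H : D.Ok ε) {d : ℂ} (hd : d ^ 4 = 1) (z : ℂ) {l : List PvtTurn} (hl : PvtClosed d l) :
    ∀ᵐ η ∂(pvP ε), η ∈ (D.kit (pvP ε)).Ev z d l → ∀ j < l.length,
      cfMap (pvthInv (pvthZ D.δ z d l j) (pvthD d l j)) η ∈ D.C ∧ cfMap (pvthInv (pvthZ D.δ z d l j) (pvthD d l j)) η ∈ D.C' (pvthL l j) ∧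
      cfMap (pvthInv (pvthZ D.δ z d l j) (pvthD d l j)) η ∈ D.A (pvthL l j) ∧
      (D.kit (pvP ε)).Xj (D.fld (pvP ε)) z d l j η = pvthX D.X (pvthZ D.δ z d l j) (pvthD d l j) (pvthL l j) η := by
  filter_upwards [pvsu_ev_ae (D.kit (pvP ε)) ε hd z hl (p := fun τ η => η ∈ D.C ∧ η ∈ D.C' τ ∧ η ∈ D.A τ ∧ D.fld (pvP ε) τ η = D.X τ η) (pvsu_cell H)] with η h1 hη j hj
  obtain ⟨h2, h3, h4, h5⟩ := h1 hη j hj
  refine ⟨h2, h3, h4, ?_⟩
  exact congrArg (fun x => pvthD d l j * x) h5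

end soft

end Claimed.Agent.R289
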