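-- KEEP
import Claimed.Agent.R289.Tr.InstE
import Claimed.Agent.R289.Tr.ChainY
import Claimed.Agent.R289.Tr.Sure
import Claimed.Agent.R289.Tr.PlugK

/-!
# Row 289 (S0537), THE WALL, ROAD E, file Tr/InstL : `kout kin ke W kin0` v2 = LOCAL BY DEFINITION, INDEXED BY THE BASE DATA, `Q` ALONE      (helper168, fallback pen of `Tr/InstE` v2: T7 (3) of 24, RULING 18 (4) of 234; prefix `pvil`, `Pvil`)

DEFS ONLY.   The statements of the roofs live in `Exit/AnaDefs.lean` (271).      KEPT FROM `Tr/InstE` (161), cited, not retyped: `pvieY pvieT pviePos pvieCol pvieFl pvieSh`, `PviePl`, `PvxPar.pl`, **`PvieEng`** (no new field: `Defs/InstWf` stands), `pvieZo pvieZi pvieZu pvieDoor pvieGr pvieOr`,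
`pvieTiles PvieSimple pvieCc`.      REPLACED: `PvieAt` (half forms), `PvieLk` and its `Run Arc A val X`, `pvieFrO pvieFrI pvieP pvieWt`, `pvieLo .. pvieLr`, `pvieYo .. pvieWe`, `pvieKout pvieKin pvieKe pvieW pvieKin0`, `pvieYfc pvieWc pvieYc pvieHat`.
WHAT IS NEW, item by item:
* (H2, RULING 12)      `Q` ALONE: signature `(𝔓 𝔈 m ε z t ω)`; target record `PvyqQ 𝔓` of 283.      The value of a link is GENERIC IN THE WEIGHT `w : ∀ η, Dart → ℂ` (`pvilQ` = `qpart`, `pvilV` = `side`): the thick link with `pvilV` serves `cV_L2`.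
* (R16 (2), 6, 83)     the whole `Y` side reads HALF states: `PvilOut` = `AtOut + tip_p + mask_p`, `PvilIn` = `AtIn + tip_m + mask_m`;   `PvilAt` = the full state (both halves + `far_p far_m`), `pvilU`.
* (R17 (a), 146 M1)    masks of the two halves of the inner arc beyond `(m - 1) h`: `PvilOut.mask_i`, `PvilIn.mask_i`.
* (R18 (2), 246 M-ROT) `PvilPl` = `PviePl` + the frame `fr`;   the half states are read IN THE FRAME OF THE PLUG (`PvilPl.pos`, `PvilPl.zf`);   tip cells and masks stay ABSOLUTE sets.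
* (R16 (6), 125)       `PvilLk` has `Mk dr dr'`: a DOOR end is cut in space (mask), a marked / reference end at the mark with its cut-off ball: `PvilLk.msk`, `PvilLk.val` = the formula of 125.
                       Masks of record: closed half plane IN FRONT of a door `pvilHp z d`;   first link `(pvilHp (door 0))ᶜ`, last link `pvilHp (last door)`;   `Lr`, `Le`: see (v2.1).
                       [OWED by the kit (34 229): inside the door square the placed mask of the cell behind / in front of a door is the complement / the half plane.]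
* (R18 (3) L1, 141)    event and value of EVERY special link := soft localisation of 251 (`pvsuSure`, `pvsuLoc`) of the PLAIN event / value at the DETERMINISTIC window `Z⁺ ∪ mouth ∪ tile ∪ plug region(s)`, `Z` = `δ`-hull of the half state (`Z⁺ = pvtU δ (pvtN8 Z)`).
                       Measurable on `Conf PvPt`, `Conf.Reads (window ×ˢ univ)` EXACTLY: `pvsu_sure_measurable pvsu_sure_reads pvsu_loc_measurable pvsu_loc_reads`.      On `Fit`: `Z = π.Zt`, `π.Zs`.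
* (R18 (3) L2, 168)    inside one experiment EVERYTHING is indexed by the BASE DATA `(Z, F)` = (hull, frozen positions) of the half state of the base configuration: the recoloured set is the CONSTANT `mouth \ F`.
                       An end link at base data IS a `PvkyEnd` of 218 with constant `y`: `pvilEo pvilEi pvilEe`;   **`pvilKout := pvkyK ..`, `pvilKin := pvkyK ..`**, `pvilWc := pvkyWc ..`, `pvilYc := pvkyYc ..`: `PvkyChain.hat_eq / mass / le_ae / jensen` apply VERBATIM (STOP of `PvkyAg` is `Iff.rfl`).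
* (R18 (3) L3)         the forced modification is NOT in the definitions: on `Gd` it is a null modification of the funnel (SoftE of 141).
* ((d) of 161)         the `Σ₁` cycle as ONE experiment: `pvilCcyc pvilWcyc pvilYcyc pvilHatCyc`.
* **v2.2.1 (T17 of 24, 12:32Z) = TWO NUMERALS ONLY: `pvilRd = δ / 40` (34), `pvilMu = min δ (ρ'' h) / 1000` (168).      NAMES AND SHAPES DO NOT MOVE.**
* **v2.2 = ONE PATCH WINDOW (editor 163, order of 24 11:42Z; list = R21 (4) of 234), THEN FROZEN.**      (c) 234 M1 / 136 / 168: tips tested at the BLACK END of the tip dart; `lev0` in both halves (`PvilPl.lev`; base data empty below `m0`).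
                       (c) M2: the hull `Z` of record = cells of (frozen positions ∪ mouth ball round the GRID centre) `= π.Zt`, `π.Zs` on `Fit` (hull equalities of `pvxFit` v4).
                       (e) DEFECT W of 180 (= 282 D3, 161), form R21 (1) SIMPLIFIED of 234 (12:08Z): **A WINDOW IS A FUNCTION OF `Z` ALONE**: `pvilWz = Z⁺ ∩ (own-level box + δ)` `∪ mouth ∪ tile ∪ plug region` (the mouth ball contains doors and tiles of the chain: it must not enter a window).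
                           `A`, `X` depend on the base data THROUGH `Z` ONLY (`n1`: common `w`, `Y` at `π.Zt`, `π.Zs`; countable index), `F` enters `y` only.
                       (mesh) R20 (3), 55: the plain events `pvilMo Mi Me Mr` contain the mesh `pvilMu = min δ (ρ'' h) / 1000` of their window (`pvilMs`): barycentres of the tags.
                       (d) 7 D1: success `:= pvilSA ε Wn M F = Sure (M ∩ {F = Loc})`: a.s. on it the plain event holds and the plain value IS the soft value (no `PvsuDet`); so `A` depends on the weight `w` (`pvilAr pvilWr` take `w`).      7 D2: `pvilFin Z`: empty at an infinite `Z`.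
* (a)(b) (163; 234 11:02Z (3), 34 id 83925; 24; S1 of 273)      **A DOOR END IS NOT AN EXPLORATION STATE**: `PvilDoor 𝔭 b η z d 𝔖` = `PvkdDoor` of 34 (`Tr/PlugK` sec. 6) for the colour `b` (`pvil_door_true`): gate of record of the KIT PLUG `𝔭 = pvkdP r`, empty stubs, no mark.
                       `PvilLk.AtP`, `PvilLk.AtP'`: a door end (`dr`, `dr'`) reads of its `PvilPl` ONLY `z`, `fr` (= the direction `d`) and `h` (= THE UNIT `r` of the plug of record): `pvilPlug r z d`.      `𝔈.sp` IS DEAD.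
                       **THE REFERENCE PLUG IS A KIT PLUG** `pvkdP (𝔈.rp m).h` at `(zu, 1)` (of `𝔈.rp` only `h` is read; block of 1 / 166: `h = Δ/16`) = A DOOR IN EVERY RESPECT, cut IN SPACE by the line through its centre:
                       `Lr`: mask `Hp (last door) \ (rO ∩ Hp (0,1))`, `true true`;   `Le`: mask `(zu + rO \ Hp (zu,1))ᶜ` (LOCAL cut: the pin may lie behind the line), `true false`.      [ADM] of the reference plug = `exit_pvkd_adm` by scaling.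
COLOURS as in `Tr/InstE`: strand objects carry `b = 𝔓.col t`; the kit, the reference plug and the link into it (typed for black) are evaluated at `pvkyFl b η` (`= pvieFl b η`, same body).
-/

set_option autoImplicit false

namespace Claimed.Agent.R289

open Set MeasureTheory Filter Topology Claims.C0465
open scoped ENNReal ComplexConjugate

/-! ## 1. placed plugs with a frame, half states, base data -/

/-- **A PLACED PLUG WITH ITS FRAME**: centre, scale, type; tip cells and masks as ABSOLUTE sets; `fr ∈ {1, i, -1, -i}` = the direction of the first axis of the frame in which the type is read -/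
structure PvilPl where
  z : ℂ
  h : ℝ
  ty : PvwTy
  cp : Set ℂ
  cm : Set ℂ
  Mp : Set ℂ
  Mm : Set ℂ
  fr : ℂ
  /-- the level of the plug is admitted (`PvxAt.lev0` of TrModel v4: `m0 ≤ m`) -/
  lev : Prop

/-- a plug of `Tr/InstE` in the standard frame -/
def PviePl.std (p : PviePl) : PvilPl := ⟨p.z, p.h, p.ty, p.cp, p.cm, p.Mp, p.Mm, 1, p.lev⟩

namespace PvilPl

variable (p : PvilPl)

/-- the plug moved by the frame `w ↦ z + d w` -/
def mv (z d : ℂ) : PvilPl where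
  z := pvthSim z d p.z
  h := p.h
  ty := p.ty
  cp := pvthSim z d '' p.cp
  cm := pvthSim z d '' p.cm
  Mp := pvthSim z d '' p.Mp
  Mm := pvthSim z d '' p.Mm
  fr := d * p.fr
  lev := p.lev

/-- the positions IN THE FRAME OF THE PLUG -/
noncomputable def pos (η : Conf PvPt) : ↥(pvieY η) → ℂ := fun v => conj p.fr * pviePos η v

/-- the centre in the frame of the plug -/
noncomputable def zf : ℂ := conj p.fr * p.z

end PvilPl

/-- **`𝔖` CARRIES THE EXIT HALF STATE `Σ_out` OF THE PLACED PLUG `p`** in `η`, colour `b`      (of the record `𝔖` only `dsc S dp dm inn ip np ep` matter) -/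
structure PvilOut (N : PvwNum) (b : Bool) (p : PvilPl) (η : Conf PvPt) (𝔖 : PvwSt (pvieT η)) : Prop where
  good : DelGood (pvieY η)
  st : 𝔖.AtOut (p.pos η) N p.h p.zf p.ty (pvieCol η b)
  /-- the BLACK END of the tip dart (`PvxAt.tip_p` of TrModel v4) -/
  tip : pviePos η ((pvieT η).src (𝔖.ep 𝔖.np)) ∈ p.cp
  mask : ∀ y : (pvieT η).Pth, PvwLE (pvieT η) (fun i => (pvieT η).src (𝔖.ep i)) 𝔖.np y → ∀ v ∈ y.verts, pviePos η v ∈ p.Mp
  /-- the half `mark → g⁺` of the inner arc, beyond `(m - 1) h` -/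
  mask_i : ∀ i, 𝔖.ip ≤ i → i ≤ 𝔖.inn.n → (N.m - 1) * p.h < ‖pviePos η (𝔖.inn.v i) - p.z‖ → pviePos η (𝔖.inn.v i) ∈ p.Mp
  lev0 : p.lev

/-- **`𝔖` CARRIES THE ENTRANCE HALF STATE `Σ_in` OF THE PLACED PLUG `p`**      (only `dsc S dp dm inn ip nm em` matter) -/
structure PvilIn (N : PvwNum) (b : Bool) (p : PvilPl) (η : Conf PvPt) (𝔖 : PvwSt (pvieT η)) : Prop where
  good : DelGood (pvieY η)
  st : 𝔖.AtIn (p.pos η) N p.h p.zf p.ty (pvieCol η b)
  /-- the BLACK END of the tip dart (`PvxAt.tip_m` of TrModel v4) -/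
  tip : pviePos η ((pvieT η).src (𝔖.em 𝔖.nm)) ∈ p.cm
  mask : ∀ y : (pvieT η).Pth, PvwLE (pvieT η) (fun i => (pvieT η).src (𝔖.em i)) 𝔖.nm y → ∀ v ∈ y.verts, pviePos η v ∈ p.Mm
  /-- the half `g⁻ → mark` of the inner arc, beyond `(m - 1) h` -/
  mask_i : ∀ i, i ≤ 𝔖.ip → (N.m - 1) * p.h < ‖pviePos η (𝔖.inn.v i) - p.z‖ → pviePos η (𝔖.inn.v i) ∈ p.Mm
  lev0 : p.lev

/-- **`𝔖` IS THE FULL STATE OF THE PLACED PLUG `p`** (`= PvwSt.At` in the frame of the plug + tips + masks): the form of `U`, of the usable door / reference plugs (contract (4a) of R16 (6)) -/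
structure PvilAt (N : PvwNum) (b : Bool) (p : PvilPl) (η : Conf PvPt) (𝔖 : PvwSt (pvieT η)) : Prop where
  out : PvilOut N b p η 𝔖
  inn : PvilIn N b p η 𝔖
  far_p : ∀ v ∈ 𝔖.fzIn, 2 * N.rho * p.h < ‖p.pos η v - p.ty.cp p.h p.zf‖
  far_m : ∀ v ∈ 𝔖.fzOut, 2 * N.rho * p.h < ‖p.pos η v - p.ty.cm p.h p.zf‖

/-- the full state exists -/
def pvilU (N : PvwNum) (b : Bool) (p : PvilPl) : Set (Conf PvPt) := {η | ∃ 𝔖 : PvwSt (pvieT η), PvilAt N b p η 𝔖}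
/-- the exit half state exists -/
def pvilUo (N : PvwNum) (b : Bool) (p : PvilPl) : Set (Conf PvPt) := {η | ∃ 𝔖 : PvwSt (pvieT η), PvilOut N b p η 𝔖}
/-- the entrance half state exists -/
def pvilUi (N : PvwNum) (b : Bool) (p : PvilPl) : Set (Conf PvPt) := {η | ∃ 𝔖 : PvwSt (pvieT η), PvilIn N b p η 𝔖}

/-- **BASE DATUM `F`**: the positions of the sites frozen by `Σ_out`      (`∅` if the half state does not exist) -/
def pvilFzO (N : PvwNum) (b : Bool) (p : PvilPl) (η : Conf PvPt) : Set ℂ := {v | ∃ 𝔖 : PvwSt (pvieT η), PvilOut N b p η 𝔖 ∧ ∃ u ∈ 𝔖.fzOut, pviePos η u = v}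
/-- the positions of the sites frozen by `Σ_in` -/
def pvilFzI (N : PvwNum) (b : Bool) (p : PvilPl) (η : Conf PvPt) : Set ℂ := {v | ∃ 𝔖 : PvwSt (pvieT η), PvilIn N b p η 𝔖 ∧ ∃ u ∈ 𝔖.fzIn, pviePos η u = v}

/-- **BASE DATUM `Z`**: the `δ`-hull OF RECORD of `Σ_out`: the cells of the frozen positions and of the mouth ball `closedBall y⁺ r` round the GRID centre of the tip cell      (`= pvxHull δ 𝔖.fzOut (pvxYt ..) r` of TrModel v4: on `Fit`, `Z = π.Zt`) -/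
def pvilHuO (δ r : ℝ) (N : PvwNum) (b : Bool) (p : PvilPl) (η : Conf PvPt) : Set (ℤ × ℤ) :=
  {q | ∃ 𝔖 : PvwSt (pvieT η), PvilOut N b p η 𝔖 ∧ q ∈ pvtCells δ (pviePos η '' 𝔖.fzOut ∪ Metric.closedBall (p.ty.cp p.h p.z) r)}
/-- the `δ`-hull of record of `Σ_in`, mouth ball `closedBall y⁻ r`      (on `Fit`: `Z = π.Zs`) -/
def pvilHuI (δ r : ℝ) (N : PvwNum) (b : Bool) (p : PvilPl) (η : Conf PvPt) : Set (ℤ × ℤ) :=
  {q | ∃ 𝔖 : PvwSt (pvieT η), PvilIn N b p η 𝔖 ∧ q ∈ pvtCells δ (pviePos η '' 𝔖.fzIn ∪ Metric.closedBall (p.ty.cm p.h p.z) r)}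

/-- `Z⁺` = the cells of the hull with their collar -/
def pvilFat (δ : ℝ) (Z : Set (ℤ × ℤ)) : Set ℂ := pvtU δ (pvtN8 Z)

/-! ### the door end (kit plug) -/

/-- **the state of a KIT PLUG** (door, reference plug) for a colouring `s`: data of `PvwSt` with EMPTY stubs (`np = nm = 0`), no mark (`ip = 0`)      (`pvkdSt` of 34 at `s = pvkiS η`) -/
noncomputable def pvilStS (𝔭 : PvkdPlug) (η : Conf PvPt) (s : ↥(pvieY η) → Bool) (z : ℂ) (g : (pvieT η).Gate s) : PvwSt (pvieT η) where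
  dsc := {v | ‖(v : ℂ) - z‖ < 𝔭.b}
  S := g.c
  dp := g.aOut
  dm := g.aIn
  inn := pvtArc (pvieT η) s g.aIn g.len
  ip := 0
  np := 0
  ep := fun _ => g.aOut
  nm := 0
  em := fun _ => g.aIn

/-- `𝔖` is the state of the kit plug `𝔭` placed at `(z,d)`, for the colouring `s` -/
def PvilDoorS (𝔭 : PvkdPlug) (η : Conf PvPt) (s : ↥(pvieY η) → Bool) (z d : ℂ) (𝔖 : PvwSt (pvieT η)) : Prop :=
  η ∈ 𝔭.N z d ∧ ∃ g : (pvieT η).Gate s, PvzlGt (pvieT η) Subtype.val s (𝔭.pg z d) g ∧ 𝔖 = pvilStS 𝔭 η s z g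

/-- **`𝔖` IS THE STATE OF THE KIT PLUG `𝔭` PLACED AT `(z,d)`, colour `b`** -/
def PvilDoor (𝔭 : PvkdPlug) (b : Bool) (η : Conf PvPt) (z d : ℂ) (𝔖 : PvwSt (pvieT η)) : Prop := PvilDoorS 𝔭 η (pvieCol η b) z d 𝔖

/-- for black this is the door end of 34 -/
theorem pvil_door_true (𝔭 : PvkdPlug) (η : Conf PvPt) (z d : ℂ) (𝔖 : PvwSt (pvieT η)) : PvilDoor 𝔭 true η z d 𝔖 ↔ PvkdDoor 𝔭 η z d 𝔖 := by
  unfold PvilDoor
  rw [pvkk_col]
  exact Iff.rfl

/-- a junk type: a door end does not read it -/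
def pvilTy0 : PvwTy := ⟨0, 0, 0, 0, 0, true, 0, 0⟩

/-- **the kit plug `pvkdP r` placed at `(z,d)`, as an end of a link** -/
def pvilPlug (r : ℝ) (z d : ℂ) : PvilPl := ⟨z, r, pvilTy0, ∅, ∅, ∅, ∅, d, True⟩

/-! ## 2. the link in strand form: plain event, plain value -/

/-- the closed half plane IN FRONT of the door `(z, d)` -/
def pvilHp (z d : ℂ) : Set ℂ := {w | 0 ≤ ((w - z) * conj d).re}

/-- **A LINK**: from the EXIT of the plug `p` to the ENTRANCE of the plug `p'`;   `Yin` = the room of the new part of the strand, `Mk` = the mask of its tags, `dr` / `dr'` = the end `p` / `p'` is a DOOR = a KIT PLUG (`pvilPlug r z d`: only `z`, `fr = d`, `h = r` are read) -/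
structure PvilLk where
  p : PvilPl
  p' : PvilPl
  Yin : Set ℂ
  Mk : Set ℂ
  dr : Bool
  dr' : Bool

namespace PvilLk

variable (L : PvilLk)

/-- the strand continued from the exit gate edge of `𝔖` reaches the entry gate edge of `𝔖'` after `n` steps, FOR THE FIRST TIME; between the two stubs both ends of every position lie over `Yin`      (= `PvwDat.SYn`) -/
def Run (b : Bool) (η : Conf PvPt) (𝔖 𝔖' : PvwSt (pvieT η)) (n : ℕ) : Prop :=
  𝔖.np + 𝔖'.nm ≤ n ∧ pvasIt (pvieT η) (pvieCol η b) 𝔖.dp n = 𝔖'.dm ∧ (∀ i, i < n → pvasIt (pvieT η) (pvieCol η b) 𝔖.dp i ≠ 𝔖'.dm) ∧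
    ∀ i, 𝔖.np < i → i + 𝔖'.nm < n →
      pviePos η ((pvieT η).src (pvasIt (pvieT η) (pvieCol η b) 𝔖.dp i)) ∈ L.Yin ∧ pviePos η ((pvieT η).tgt (pvasIt (pvieT η) (pvieCol η b) 𝔖.dp i)) ∈ L.Yin

/-- **the state at the end `p`**: a marked end carries its EXIT HALF state, a door end the state of its kit plug -/
def AtP (N : PvwNum) (b : Bool) (η : Conf PvPt) (𝔖 : PvwSt (pvieT η)) : Prop :=
  if L.dr then PvilDoor (pvkdP L.p.h) b η L.p.z L.p.fr 𝔖 else PvilOut N b L.p η 𝔖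

/-- **the state at the end `p'`**: a marked end carries its ENTRANCE HALF state, a door end the state of its kit plug -/
def AtP' (N : PvwNum) (b : Bool) (η : Conf PvPt) (𝔖' : PvwSt (pvieT η)) : Prop :=
  if L.dr' then PvilDoor (pvkdP L.p'.h) b η L.p'.z L.p'.fr 𝔖' else PvilIn N b L.p' η 𝔖'

theorem atP_pin {L : PvilLk} (h : L.dr = false) (N : PvwNum) (b : Bool) (η : Conf PvPt) (𝔖 : PvwSt (pvieT η)) : L.AtP N b η 𝔖 ↔ PvilOut N b L.p η 𝔖 := by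
  unfold AtP; rw [h]; exact Iff.rfl
theorem atP_door {L : PvilLk} (h : L.dr = true) (N : PvwNum) (b : Bool) (η : Conf PvPt) (𝔖 : PvwSt (pvieT η)) : L.AtP N b η 𝔖 ↔ PvilDoor (pvkdP L.p.h) b η L.p.z L.p.fr 𝔖 := by
  unfold AtP; rw [h]; exact Iff.rfl
theorem atP'_pin {L : PvilLk} (h : L.dr' = false) (N : PvwNum) (b : Bool) (η : Conf PvPt) (𝔖 : PvwSt (pvieT η)) : L.AtP' N b η 𝔖 ↔ PvilIn N b L.p' η 𝔖 := by
  unfold AtP'; rw [h]; exact Iff.rfl
theorem atP'_door {L : PvilLk} (h : L.dr' = true) (N : PvwNum) (b : Bool) (η : Conf PvPt) (𝔖 : PvwSt (pvieT η)) : L.AtP' N b η 𝔖 ↔ PvilDoor (pvkdP L.p'.h) b η L.p'.z L.p'.fr 𝔖 := by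
  unfold AtP'; rw [h]; exact Iff.rfl

/-- the two end states exist, the link succeeds, `y` = the rim arc `g⁺(p) → g⁻(p')` = LE (black bank of the strand) -/
structure Arc (N : PvwNum) (b : Bool) (η : Conf PvPt) (𝔖 𝔖' : PvwSt (pvieT η)) (y : (pvieT η).Pth) : Prop where
  at_p : L.AtP N b η 𝔖
  at_p' : L.AtP' N b η 𝔖'
  run : ∃ n, L.Run b η 𝔖 𝔖' n ∧ PvwLE (pvieT η) (fun i => (pvieT η).src (pvasIt (pvieT η) (pvieCol η b) 𝔖.dp i)) n y

/-- **PLAIN SUCCESS OF THE LINK** (`SY`; an event of the global plane map) -/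
def A (N : PvwNum) (b : Bool) : Set (Conf PvPt) := {η | ∃ (𝔖 𝔖' : PvwSt (pvieT η)) (y : (pvieT η).Pth), L.Arc N b η 𝔖 𝔖' y}

/-- the cut-off ball of the end `p` -/
def ball (N : PvwNum) : Set ℂ := Metric.closedBall L.p.z (N.m * L.p.h)
/-- the cut-off ball of the end `p'` -/
def ball' (N : PvwNum) : Set ℂ := Metric.closedBall L.p'.z (N.m * L.p'.h)

/-- the mask minus the cut-off balls of the ends which are not doors -/
def msk (N : PvwNum) : Set ℂ := L.Mk \ ((if L.dr then ∅ else L.ball N) ∪ (if L.dr' then ∅ else L.ball' N))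

/-- **`I_X(p → p')`** (125): a marked end `p` gives the whole mass of its inner arc in its cut-off ball and the masked mass of `mark → g⁺`, a door end `p` the masked mass of its whole inner arc;   then the masked mass of `y`;
a marked end `p'` gives the masked mass of `g⁻ → mark`, a door end `p'` the masked mass of its whole inner arc -/
noncomputable def val (N : PvwNum) (η : Conf PvPt) (w : (delbPl (pvieY η)).Dart → ℂ) (𝔖 𝔖' : PvwSt (pvieT η)) (y : (pvieT η).Pth) : ℂ :=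
  (if L.dr then 0 else pvwMass (pvieT η) (pviePos η) w (L.ball N) 𝔖.inn 0 𝔖.inn.n) + pvwMass (pvieT η) (pviePos η) w (L.msk N) 𝔖.inn (if L.dr then 0 else 𝔖.ip) 𝔖.inn.n +
    pvwMass (pvieT η) (pviePos η) w (L.msk N) y 0 y.n + pvwMass (pvieT η) (pviePos η) w (L.msk N) 𝔖'.inn 0 (if L.dr' then 𝔖'.inn.n else 𝔖'.ip)

open Classical in
/-- **THE PLAIN VALUE OF THE LINK** for the weight `w` (`0` off the plain success) -/
noncomputable def X (N : PvwNum) (b : Bool) (w : ∀ η : Conf PvPt, (delbPl (pvieY η)).Dart → ℂ) (η : Conf PvPt) : ℂ :=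
  if h : ∃ (𝔖 𝔖' : PvwSt (pvieT η)) (y : (pvieT η).Pth), L.Arc N b η 𝔖 𝔖' y then
    L.val N η (w η) h.choose h.choose_spec.choose h.choose_spec.choose_spec.choose else 0

end PvilLk

/-- the weight of `Q` -/
noncomputable def pvilQ (η : Conf PvPt) : (delbPl (pvieY η)).Dart → ℂ := (pvieT η).qpart (pviePos η)
/-- the weight of `V` -/
noncomputable def pvilV (η : Conf PvPt) : (delbPl (pvieY η)).Dart → ℂ := (pvieT η).side (pviePos η)

/-! ## 3. soft localisation at a deterministic window -/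

/-- **SUCCESS, LOCAL BY DEFINITION**: given `η` on the window `Wn`, the plain event `M` is almost sure -/
def pvilSure (ε : ℝ) (Wn : Set ℂ) (M : Set (Conf PvPt)) : Set (Conf PvPt) := pvsuSure (pvP ε) (Wn ×ˢ univ) M

/-- **VALUE, LOCAL BY DEFINITION**: the mean of `F 1_M` given `η` on the window `Wn` -/
noncomputable def pvilLoc (ε : ℝ) (Wn : Set ℂ) (M : Set (Conf PvPt)) (F : Conf PvPt → ℂ) : Conf PvPt → ℂ := pvsuLoc (pvP ε) (Wn ×ˢ univ) (M.indicator F)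

/-- **SUCCESS OF A SPECIAL LINK** (7, D1): given `η` on the window, a.s. the plain event `M` holds AND THE PLAIN VALUE `F` IS THE SOFT VALUE.      So a.s. on it: `η ∈ M`, `F η = pvilLoc ε Wn M F η` (`pvsu_sure_sub`: no `PvsuDet`) -/
def pvilSA (ε : ℝ) (Wn : Set ℂ) (M : Set (Conf PvPt)) (F : Conf PvPt → ℂ) : Set (Conf PvPt) := pvilSure ε Wn (M ∩ {η | F η = pvilLoc ε Wn M F η})

open Classical in
/-- (7, D2) the ends are used at FINITE hulls only (a countable family of indices) -/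
def pvilFin (Z : Set (ℤ × ℤ)) (A : Set (Conf PvPt)) : Set (Conf PvPt) := if Z.Finite then A else ∅

/-! ## 4. the four special links at the data of record -/

section defs

variable {τ : Type} {c : ℝ} (𝔓 : PvxPar τ c) (𝔈 : PvieEng τ)

/-- the candidate `(z,t)` of level `m`, standard frame -/
noncomputable def pvilPin (m : ℕ) (z : ℂ) (t : τ) : PvilPl := (𝔓.pl m z t).std

/-- the unit `r = δ_m / 40` of the door plugs of level `m` (plug of record of 34; v2.2.1, T17 of 24: numeral of 34 12:12Z: the whole kit lies in the lanes of `Yin`) -/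
noncomputable def pvilRd (_𝔓 : PvxPar τ c) (m : ℕ) : ℝ := pvlmDel c m / 40
/-- the unit `r` of the reference plug of level `m`      (block of side `Δ` of 1 / 166: `r = Δ / 16`) -/
def pvilRu (m : ℕ) : ℝ := (𝔈.rp m).h

/-- first link `t → door plug` -/
noncomputable def pvilLo (m : ℕ) (z : ℂ) (t : τ) : PvilLk :=
  ⟨pvilPin 𝔓 m z t, pvilPlug (pvilRd 𝔓 m) (pvieZo 𝔓 m z t) ((𝔓.Γ m).dout t), pvieSh z (𝔈.oY m t), (pvilHp (pvieZo 𝔓 m z t) ((𝔓.Γ m).dout t))ᶜ, false, true⟩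
/-- last link `door plug → t` -/
noncomputable def pvilLi (m : ℕ) (z : ℂ) (t : τ) : PvilLk :=
  ⟨pvilPlug (pvilRd 𝔓 m) (pvieZi 𝔓 m z t) ((𝔓.Γ m).din t), pvilPin 𝔓 m z t, pvieSh z (𝔈.iY m t), pvilHp (pvieZi 𝔓 m z t) ((𝔓.Γ m).din t), true, false⟩
/-- thick short link `reference plug → t`: all the tags but those of the region of the reference plug BEHIND the line through its centre      (a LOCAL cut: the link may turn round the block, the pin may lie behind the line) -/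
noncomputable def pvilLe (m : ℕ) (z : ℂ) (t : τ) : PvilLk :=
  ⟨pvilPlug (pvilRu 𝔈 m) (pvieZu 𝔓 m z t) 1, pvilPin 𝔓 m z t, pvieSh z (𝔈.eY m t), (pvieSh (pvieZu 𝔓 m z t) (𝔈.rO m) \ pvilHp (pvieZu 𝔓 m z t) 1)ᶜ, true, false⟩
/-- last link of the thin chain `door plug → reference plug` (centre `0`, black form): the tags in front of the last door, but those of the region of the reference plug IN FRONT of the line through its centre -/
noncomputable def pvilLr (m : ℕ) : PvilLk :=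
  ⟨pvilPlug (pvilRd 𝔓 m) (𝔓.Γ m).pin0 (𝔓.Γ m).din0, pvilPlug (pvilRu 𝔈 m) 0 1, 𝔈.rY m, pvilHp (𝔓.Γ m).pin0 (𝔓.Γ m).din0 \ (𝔈.rO m ∩ pvilHp 0 1), true, true⟩

/-! ### base data of a candidate -/

/-- frozen positions of `Σ_out(z,t)` -/
noncomputable def pvilFo (m : ℕ) (z : ℂ) (t : τ) (η : Conf PvPt) : Set ℂ := pvilFzO 𝔓.num (𝔓.col t) (pvilPin 𝔓 m z t) η
/-- frozen positions of `Σ_in(z,t)` -/
noncomputable def pvilFi (m : ℕ) (z : ℂ) (t : τ) (η : Conf PvPt) : Set ℂ := pvilFzI 𝔓.num (𝔓.col t) (pvilPin 𝔓 m z t) η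
/-- hull of `Σ_out(z,t)`      (on `Fit`: `π.Zt`) -/
noncomputable def pvilZo (m : ℕ) (z : ℂ) (t : τ) (η : Conf PvPt) : Set (ℤ × ℤ) := pvilHuO (pvlmDel c m) (𝔓.num.rho * pvlmH m) 𝔓.num (𝔓.col t) (pvilPin 𝔓 m z t) η
/-- hull of `Σ_in(z,t)`      (on `Fit`: `π.Zs`) -/
noncomputable def pvilZi (m : ℕ) (z : ℂ) (t : τ) (η : Conf PvPt) : Set (ℤ × ℤ) := pvilHuI (pvlmDel c m) (𝔓.num.rho * pvlmH m) 𝔓.num (𝔓.col t) (pvilPin 𝔓 m z t) η

/-! ### windows -/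

/-- the OWN-LEVEL BOX of the candidate `(z,t)` with the collar `δ`      (`= z + pviwBox 𝔓 m t` of `Defs/InstWf`) -/
noncomputable def pvilBx (m : ℕ) (z : ℂ) (t : τ) : Set ℂ := pvwSq z (pvwRad 𝔓.num (pvlmH m) (𝔓.ty t) (𝔓.ty t).k + pvlmDel c m)

/-- the part of a window which carries the half state: `Z⁺` CUT BY THE OWN-LEVEL BOX (R21 (1) simplified of 234; DEFECT W of 180: the mouth ball contains doors and tiles of the chain).      A FUNCTION OF `Z` ALONE. -/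
noncomputable def pvilWz (m : ℕ) (z : ℂ) (t : τ) (Z : Set (ℤ × ℤ)) : Set ℂ := pvilFat (pvlmDel c m) Z ∩ pvilBx 𝔓 m z t

/-- window of the first link -/
noncomputable def pvilWno (m : ℕ) (ε : ℝ) (z : ℂ) (t : τ) (Z : Set (ℤ × ℤ)) : Set ℂ :=
  pvilWz 𝔓 m z t Z ∪ pvieSh z (𝔈.oM m t) ∪ pvieSh z (𝔈.oK m t) ∪ pvieDoor 𝔈 m ε (pvieZo 𝔓 m z t) ((𝔓.Γ m).dout t)
/-- window of the last link -/
noncomputable def pvilWni (m : ℕ) (ε : ℝ) (z : ℂ) (t : τ) (Z : Set (ℤ × ℤ)) : Set ℂ :=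
  pvilWz 𝔓 m z t Z ∪ pvieSh z (𝔈.iM m t) ∪ pvieSh z (𝔈.iK m t) ∪ pvieDoor 𝔈 m ε (pvieZi 𝔓 m z t) ((𝔓.Γ m).din t)
/-- window of the thick link -/
noncomputable def pvilWne (m : ℕ) (z : ℂ) (t : τ) (Z : Set (ℤ × ℤ)) : Set ℂ :=
  pvilWz 𝔓 m z t Z ∪ pvieSh z (𝔈.eM m t) ∪ pvieSh z (𝔈.eK m t) ∪ pvieSh (pvieZu 𝔓 m z t) (𝔈.rO m)
/-- window of the link into the reference plug (centre `0`) -/
def pvilWnr (m : ℕ) (ε : ℝ) : Set ℂ := 𝔈.rK m ∪ 𝔈.rO m ∪ pvieDoor 𝔈 m ε (𝔓.Γ m).pin0 (𝔓.Γ m).din0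

/-! ### plain events with the hull prescribed and the mesh of the window -/

/-- the mesh of the windows of level `m` (R20 (3), 55): `min δ_m (ρ'' h_m) / 1000`      (v2.2.1, T17 of 24: numeral of 168 12:27Z: a tag lies within `4 μ / 3 < r / 4 = δ / 160` of its dart; same body as `pviwMu` of `Defs/InstWf`) -/
noncomputable def pvilMu (_𝔓 : PvxPar τ c) (m : ℕ) : ℝ := min (pvlmDel c m) (_𝔓.num.rho3 * pvlmH m) / 1000

/-- the mesh event of a window (read in the window) -/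
def pvilMs (m : ℕ) (Wn : Set ℂ) : Set (Conf PvPt) := {η | PvtrMesh (pvilMu 𝔓 m) Wn (cfSites η)}

/-- the first link succeeds, the hull of `Σ_out(z,t)` is `Z`, mesh of the window -/
def pvilMo (m : ℕ) (ε : ℝ) (z : ℂ) (t : τ) (Z : Set (ℤ × ℤ)) : Set (Conf PvPt) :=
  (pvilLo 𝔓 𝔈 m z t).A 𝔓.num (𝔓.col t) ∩ {η | pvilZo 𝔓 m z t η = Z} ∩ pvilMs 𝔓 m (pvilWno 𝔓 𝔈 m ε z t Z)
/-- the last link succeeds, the hull of `Σ_in(z,t)` is `Z`, mesh of the window -/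
def pvilMi (m : ℕ) (ε : ℝ) (z : ℂ) (t : τ) (Z : Set (ℤ × ℤ)) : Set (Conf PvPt) :=
  (pvilLi 𝔓 𝔈 m z t).A 𝔓.num (𝔓.col t) ∩ {η | pvilZi 𝔓 m z t η = Z} ∩ pvilMs 𝔓 m (pvilWni 𝔓 𝔈 m ε z t Z)
/-- the thick link succeeds, the hull of `Σ_in(z,t)` is `Z`, mesh of the window -/
def pvilMe (m : ℕ) (z : ℂ) (t : τ) (Z : Set (ℤ × ℤ)) : Set (Conf PvPt) :=
  (pvilLe 𝔓 𝔈 m z t).A 𝔓.num (𝔓.col t) ∩ {η | pvilZi 𝔓 m z t η = Z} ∩ pvilMs 𝔓 m (pvilWne 𝔓 𝔈 m z t Z)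
/-- the link into the reference plug succeeds (centre `0`, black form), mesh of the window -/
def pvilMr (m : ℕ) (ε : ℝ) : Set (Conf PvPt) := (pvilLr 𝔓 𝔈 m).A 𝔓.num true ∩ pvilMs 𝔓 m (pvilWnr 𝔓 𝔈 m ε)

/-! ### the end links AT BASE DATA `(Z, F)`, in the record of 218 -/

/-- **the first link at the base data** -/
noncomputable def pvilEo (m : ℕ) (ε : ℝ) (w : ∀ η : Conf PvPt, (delbPl (pvieY η)).Dart → ℂ) (z : ℂ) (t : τ) (Z : Set (ℤ × ℤ)) (F : Set ℂ) : PvkyEnd where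
  K := pvieSh z (𝔈.oK m t)
  y := fun _ => pvieSh z (𝔈.oM m t) \ F
  A := pvilFin Z (pvilSA ε (pvilWno 𝔓 𝔈 m ε z t Z) (pvilMo 𝔓 𝔈 m ε z t Z) ((pvilLo 𝔓 𝔈 m z t).X 𝔓.num (𝔓.col t) w))
  X := pvilLoc ε (pvilWno 𝔓 𝔈 m ε z t Z) (pvilMo 𝔓 𝔈 m ε z t Z) ((pvilLo 𝔓 𝔈 m z t).X 𝔓.num (𝔓.col t) w)

/-- **the last link at the base data** -/
noncomputable def pvilEi (m : ℕ) (ε : ℝ) (w : ∀ η : Conf PvPt, (delbPl (pvieY η)).Dart → ℂ) (z : ℂ) (t : τ) (Z : Set (ℤ × ℤ)) (F : Set ℂ) : PvkyEnd where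
  K := pvieSh z (𝔈.iK m t)
  y := fun _ => pvieSh z (𝔈.iM m t) \ F
  A := pvilFin Z (pvilSA ε (pvilWni 𝔓 𝔈 m ε z t Z) (pvilMi 𝔓 𝔈 m ε z t Z) ((pvilLi 𝔓 𝔈 m z t).X 𝔓.num (𝔓.col t) w))
  X := pvilLoc ε (pvilWni 𝔓 𝔈 m ε z t Z) (pvilMi 𝔓 𝔈 m ε z t Z) ((pvilLi 𝔓 𝔈 m z t).X 𝔓.num (𝔓.col t) w)

/-- **the thick link at the base data** -/
noncomputable def pvilEe (m : ℕ) (ε : ℝ) (w : ∀ η : Conf PvPt, (delbPl (pvieY η)).Dart → ℂ) (z : ℂ) (t : τ) (Z : Set (ℤ × ℤ)) (F : Set ℂ) : PvkyEnd where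
  K := pvieSh z (𝔈.eK m t)
  y := fun _ => pvieSh z (𝔈.eM m t) \ F
  A := pvilFin Z (pvilSA ε (pvilWne 𝔓 𝔈 m z t Z) (pvilMe 𝔓 𝔈 m z t Z) ((pvilLe 𝔓 𝔈 m z t).X 𝔓.num (𝔓.col t) w))
  X := pvilLoc ε (pvilWne 𝔓 𝔈 m z t Z) (pvilMe 𝔓 𝔈 m z t Z) ((pvilLe 𝔓 𝔈 m z t).X 𝔓.num (𝔓.col t) w)

/-- the first link at the base data OF THE CONFIGURATION `η₀` -/
noncomputable def pvilEoAt (m : ℕ) (ε : ℝ) (w : ∀ η : Conf PvPt, (delbPl (pvieY η)).Dart → ℂ) (z : ℂ) (t : τ) (η₀ : Conf PvPt) : PvkyEnd :=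
  pvilEo 𝔓 𝔈 m ε w z t (pvilZo 𝔓 m z t η₀) (pvilFo 𝔓 m z t η₀)
/-- the last link at the base data of `η₀` -/
noncomputable def pvilEiAt (m : ℕ) (ε : ℝ) (w : ∀ η : Conf PvPt, (delbPl (pvieY η)).Dart → ℂ) (z : ℂ) (t : τ) (η₀ : Conf PvPt) : PvkyEnd :=
  pvilEi 𝔓 𝔈 m ε w z t (pvilZi 𝔓 m z t η₀) (pvilFi 𝔓 m z t η₀)
/-- the thick link at the base data of `η₀` -/
noncomputable def pvilEeAt (m : ℕ) (ε : ℝ) (w : ∀ η : Conf PvPt, (delbPl (pvieY η)).Dart → ℂ) (z : ℂ) (t : τ) (η₀ : Conf PvPt) : PvkyEnd :=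
  pvilEe 𝔓 𝔈 m ε w z t (pvilZi 𝔓 m z t η₀) (pvilFi 𝔓 m z t η₀)

/-- value of the link into the reference plug (centre `0`, black form) -/
noncomputable def pvilXr (m : ℕ) (ε : ℝ) (w : ∀ η : Conf PvPt, (delbPl (pvieY η)).Dart → ℂ) : Conf PvPt → ℂ :=
  pvilLoc ε (pvilWnr 𝔓 𝔈 m ε) (pvilMr 𝔓 𝔈 m ε) ((pvilLr 𝔓 𝔈 m).X 𝔓.num true w)
/-- success of the link into the reference plug -/
def pvilAr (m : ℕ) (ε : ℝ) (w : ∀ η : Conf PvPt, (delbPl (pvieY η)).Dart → ℂ) : Set (Conf PvPt) :=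
  pvilSA ε (pvilWnr 𝔓 𝔈 m ε) (pvilMr 𝔓 𝔈 m ε) ((pvilLr 𝔓 𝔈 m).X 𝔓.num true w)
/-- its weight `1_A / P(A | the two plugs)` -/
noncomputable def pvilWr (m : ℕ) (ε : ℝ) (w : ∀ η : Conf PvPt, (delbPl (pvieY η)).Dart → ℂ) : Conf PvPt → ℝ≥0∞ := pvtiW (pvP ε) (pvieOr 𝔓 𝔈 m ε) (pvilAr 𝔓 𝔈 m ε w)

/-! ## 5. THE DATA FIELDS (`Q` alone; generic forms with the weight `w`) -/

/-- `κ_out` for the weight `w` -/
noncomputable def pvilKoutW (w : ∀ η : Conf PvPt, (delbPl (pvieY η)).Dart → ℂ) (m : ℕ) (ε : ℝ) (z : ℂ) (t : τ) (ω : PVSample) : ℂ :=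
  pvkyK (𝔈.kit m ε) ε (𝔓.col t) (pvilEoAt 𝔓 𝔈 m ε w z t (pvConf ω)) (pvieZo 𝔓 m z t) ((𝔓.Γ m).dout t) (pvConf ω)

/-- `κ_in` for the weight `w` -/
noncomputable def pvilKinW (w : ∀ η : Conf PvPt, (delbPl (pvieY η)).Dart → ℂ) (m : ℕ) (ε : ℝ) (z : ℂ) (t : τ) (ω : PVSample) : ℂ :=
  pvkyK (𝔈.kit m ε) ε (𝔓.col t) (pvilEiAt 𝔓 𝔈 m ε w z t (pvConf ω)) (pvieZi 𝔓 m z t) ((𝔓.Γ m).din t) (pvConf ω)

/-- the weight of the thick link with the reference plug: `1_G / μ(G) * 1_A / P(A | kept)` -/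
noncomputable def pvilW1e (m : ℕ) (ε : ℝ) (z : ℂ) (t : τ) (e : PvkyEnd) (η : Conf PvPt) : ℝ≥0∞ :=
  pvieGr 𝔈 m ε (pvieZu 𝔓 m z t) (pvkyFl (𝔓.col t) η) * pvdyW ε e.K e.y e.A η

/-- mean of the thick short link for the weight `w` -/
noncomputable def pvilKeW (w : ∀ η : Conf PvPt, (delbPl (pvieY η)).Dart → ℂ) (m : ℕ) (ε : ℝ) (z : ℂ) (t : τ) (ω : PVSample) : ℂ :=
  pvdyHat ε ((pvilEeAt 𝔓 𝔈 m ε w z t (pvConf ω)).K ∪ pvieSh (pvieZu 𝔓 m z t) (𝔈.rO m)) (pvilEeAt 𝔓 𝔈 m ε w z t (pvConf ω)).y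
    (pvilW1e 𝔓 𝔈 m ε z t (pvilEeAt 𝔓 𝔈 m ε w z t (pvConf ω))) (pvilEeAt 𝔓 𝔈 m ε w z t (pvConf ω)).X (pvConf ω)

/-- the constant of the reference plug for the weight `w`: ALL coordinates integrated (black form, centre `0`) -/
noncomputable def pvilKin0W (w : ∀ η : Conf PvPt, (delbPl (pvieY η)).Dart → ℂ) (m : ℕ) (ε : ℝ) : ℂ :=
  ∫ η, pvilXr 𝔓 𝔈 m ε w η ∂((pvP ε).withDensity fun η => (𝔈.kit m ε).g (pvP ε) (𝔓.Γ m).pin0 (𝔓.Γ m).din0 η * pvieGr 𝔈 m ε 0 η * pvilWr 𝔓 𝔈 m ε w η)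

/-- **`κ_out`** -/
noncomputable def pvilKout : ℕ → ℝ → ℂ → τ → PVSample → ℂ := pvilKoutW 𝔓 𝔈 pvilQ
/-- **`κ_in`** -/
noncomputable def pvilKin : ℕ → ℝ → ℂ → τ → PVSample → ℂ := pvilKinW 𝔓 𝔈 pvilQ
/-- **mean of the thick short link** -/
noncomputable def pvilKe : ℕ → ℝ → ℂ → τ → PVSample → ℂ := pvilKeW 𝔓 𝔈 pvilQ
/-- **the constant of the reference plug** -/
noncomputable def pvilKin0 : ℕ → ℝ → ℂ := pvilKin0W 𝔓 𝔈 pvilQ
/-- **the three cell means of `Q`** -/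
noncomputable def pvilW (m : ℕ) (ε : ℝ) : PvtW := (𝔈.kit m ε).W (pvP ε) (𝔈.XQ m ε)

/-! ## 6. the whole chain of a pattern, at the base data of the base configuration -/

/-- the recoloured sites of the chain (CONSTANT in the experiment) -/
noncomputable def pvilYfc (m : ℕ) (π : PvtsPat τ) (η₀ : Conf PvPt) : Set ℂ :=
  (pvieSh π.zt (𝔈.oM m π.tt) \ pvilFo 𝔓 m π.zt π.tt η₀) ∪ (pvieSh π.zs (𝔈.iM m π.ts) \ pvilFi 𝔓 m π.zs π.ts η₀)

/-- **`W_c`** at the base data of `η₀` -/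
noncomputable def pvilWc (m : ℕ) (ε : ℝ) (π : PvtsPat τ) (η₀ : Conf PvPt) : Conf PvPt → ℝ≥0∞ :=
  pvkyWc (𝔈.kit m ε) ε (𝔓.col π.tt) (pvieZo 𝔓 m π.zt π.tt) ((𝔓.Γ m).dout π.tt) π.l (pvilEoAt 𝔓 𝔈 m ε pvilQ π.zt π.tt η₀) (pvilEiAt 𝔓 𝔈 m ε pvilQ π.zs π.ts η₀)

/-- **`Y_c`** at the base data of `η₀` -/
noncomputable def pvilYc (m : ℕ) (ε : ℝ) (π : PvtsPat τ) (η₀ : Conf PvPt) : Conf PvPt → ℂ :=
  pvkyYc (𝔈.kit m ε) (𝔓.col π.tt) (pvieZo 𝔓 m π.zt π.tt) ((𝔓.Γ m).dout π.tt) π.l (pvilEoAt 𝔓 𝔈 m ε pvilQ π.zt π.tt η₀) (pvilEiAt 𝔓 𝔈 m ε pvilQ π.zs π.ts η₀) (𝔈.XQ m ε)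

/-- all the plugs usable, all the links successful, at the base data of `η₀` -/
noncomputable def pvilEv (m : ℕ) (ε : ℝ) (π : PvtsPat τ) (η₀ : Conf PvPt) : Set (Conf PvPt) :=
  pvkyEv (𝔈.kit m ε) (𝔓.col π.tt) (pvieZo 𝔓 m π.zt π.tt) ((𝔓.Γ m).dout π.tt) π.l (pvilEoAt 𝔓 𝔈 m ε pvilQ π.zt π.tt η₀) (pvilEiAt 𝔓 𝔈 m ε pvilQ π.zs π.ts η₀)

/-- **`ŷ_c`** on the actual sample -/
noncomputable def pvilHat (m : ℕ) (ε : ℝ) (π : PvtsPat τ) (ω : PVSample) : ℂ :=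
  pvdyHat ε (pvieCc 𝔓 𝔈 m ε π) (fun _ => pvilYfc 𝔓 𝔈 m π (pvConf ω)) (pvilWc 𝔓 𝔈 m ε π (pvConf ω)) (pvilYc 𝔓 𝔈 m ε π (pvConf ω)) (pvConf ω)

/-! ## 7. the `Σ₁` cycle `t → door 0 → l1 → last door → reference plug → t` as ONE experiment -/

/-- the last door of the thin chain `l1 t` -/
noncomputable def pvilZn (m : ℕ) (ε : ℝ) (z : ℂ) (t : τ) : ℂ := pvthZ (𝔈.kit m ε).δ (pvieZo 𝔓 m z t) ((𝔓.Γ m).dout t) ((𝔓.Γ m).l1 t) ((𝔓.Γ m).l1 t).length
/-- its direction -/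
noncomputable def pvilDn (m : ℕ) (t : τ) : ℂ := pvthD ((𝔓.Γ m).dout t) ((𝔓.Γ m).l1 t) ((𝔓.Γ m).l1 t).length

/-- the configuration seen from the reference plug of `(z,t)`, black form -/
noncomputable def pvilRef (m : ℕ) (z : ℂ) (t : τ) (η : Conf PvPt) : Conf PvPt := cfMap (pvthInv (pvieZu 𝔓 m z t) 1) (pvkyFl (𝔓.col t) η)

/-- the RESAMPLED region of the cycle: first tile, doors and tiles of `l1`, tile of the link into the reference plug, reference region, thick tile -/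
noncomputable def pvilCcyc (m : ℕ) (ε : ℝ) (z : ℂ) (t : τ) : Set ℂ :=
  pvieSh z (𝔈.oK m t) ∪ pvieSh z (𝔈.eK m t) ∪ pvieSh (pvieZu 𝔓 m z t) (𝔈.rK m) ∪ pvieSh (pvieZu 𝔓 m z t) (𝔈.rO m) ∪
  (⋃ j ∈ Finset.range (((𝔓.Γ m).l1 t).length + 1), pvieDoor 𝔈 m ε (pvthZ (𝔈.kit m ε).δ (pvieZo 𝔓 m z t) ((𝔓.Γ m).dout t) ((𝔓.Γ m).l1 t) j) (pvthD ((𝔓.Γ m).dout t) ((𝔓.Γ m).l1 t) j)) ∪
  (⋃ j ∈ Finset.range ((𝔓.Γ m).l1 t).length,
    pvthSim (pvthZ (𝔈.kit m ε).δ (pvieZo 𝔓 m z t) ((𝔓.Γ m).dout t) ((𝔓.Γ m).l1 t) j) (pvthD ((𝔓.Γ m).dout t) ((𝔓.Γ m).l1 t) j) '' (𝔈.kit m ε).K₀ (pvthL ((𝔓.Γ m).l1 t) j))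

/-- the recoloured sites of the cycle (CONSTANT in the experiment) -/
noncomputable def pvilYfcyc (m : ℕ) (z : ℂ) (t : τ) (η₀ : Conf PvPt) : Set ℂ :=
  (pvieSh z (𝔈.oM m t) \ pvilFo 𝔓 m z t η₀) ∪ (pvieSh z (𝔈.eM m t) \ pvilFi 𝔓 m z t η₀)

/-- the weight of the cycle at the base data of `η₀` -/
noncomputable def pvilWcyc (m : ℕ) (ε : ℝ) (z : ℂ) (t : τ) (η₀ η : Conf PvPt) : ℝ≥0∞ :=
  pvdyW ε (pvilEoAt 𝔓 𝔈 m ε pvilQ z t η₀).K (pvilEoAt 𝔓 𝔈 m ε pvilQ z t η₀).y (pvilEoAt 𝔓 𝔈 m ε pvilQ z t η₀).A η *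
    (𝔈.kit m ε).Wt (pvP ε) (pvieZo 𝔓 m z t) ((𝔓.Γ m).dout t) ((𝔓.Γ m).l1 t) (pvkyFl (𝔓.col t) η) *
    ((𝔈.kit m ε).g (pvP ε) (pvilZn 𝔓 𝔈 m ε z t) (pvilDn 𝔓 m t) (pvkyFl (𝔓.col t) η) * pvilWr 𝔓 𝔈 m ε pvilQ (pvilRef 𝔓 m z t η)) *
    pvilW1e 𝔓 𝔈 m ε z t (pvilEeAt 𝔓 𝔈 m ε pvilQ z t η₀) η

/-- the value of the cycle at the base data of `η₀` -/
noncomputable def pvilYcyc (m : ℕ) (ε : ℝ) (z : ℂ) (t : τ) (η₀ η : Conf PvPt) : ℂ :=
  (pvilEoAt 𝔓 𝔈 m ε pvilQ z t η₀).X η + (𝔈.kit m ε).Y (𝔈.XQ m ε) (pvieZo 𝔓 m z t) ((𝔓.Γ m).dout t) ((𝔓.Γ m).l1 t) (pvkyFl (𝔓.col t) η) +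
    pvilXr 𝔓 𝔈 m ε pvilQ (pvilRef 𝔓 m z t η) + (pvilEeAt 𝔓 𝔈 m ε pvilQ z t η₀).X η

/-- **the mean of the whole cycle** on the actual sample -/
noncomputable def pvilHatCyc (m : ℕ) (ε : ℝ) (z : ℂ) (t : τ) (ω : PVSample) : ℂ :=
  pvdyHat ε (pvilCcyc 𝔓 𝔈 m ε z t) (fun _ => pvilYfcyc 𝔓 𝔈 m z t (pvConf ω)) (pvilWcyc 𝔓 𝔈 m ε z t (pvConf ω)) (pvilYcyc 𝔓 𝔈 m ε z t (pvConf ω)) (pvConf ω)

end defs

theorem pvil_eqns_cite : True := by
  have := @PviePl.std.eq_1; have := @PvilPl.mv.eq_1; have := @PvilPl.pos.eq_1; have := @PvilPl.zf.eq_1; have := @pvilU.eq_1; have := @pvilUo.eq_1; have := @pvilUi.eq_1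
  have := @pvilFzO.eq_1; have := @pvilFzI.eq_1; have := @pvilHuO.eq_1; have := @pvilHuI.eq_1; have := @pvilFat.eq_1; have := @pvilHp.eq_1
  have := @PvilLk.Run.eq_1; have := @PvilLk.A.eq_1; have := @PvilLk.ball.eq_1; have := @PvilLk.ball'.eq_1; have := @PvilLk.msk.eq_1; have := @PvilLk.val.eq_1; have := @PvilLk.X.eq_1
  have := @pvilQ.eq_1; have := @pvilV.eq_1; have := @pvilSure.eq_1; have := @pvilLoc.eq_1
  have := @pvilPin.eq_1; have := @pvilLo.eq_1; have := @pvilLi.eq_1; have := @pvilLe.eq_1; have := @pvilLr.eq_1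
  have := @pvilFo.eq_1; have := @pvilFi.eq_1; have := @pvilZo.eq_1; have := @pvilZi.eq_1
  have := @pvilWno.eq_1; have := @pvilWni.eq_1; have := @pvilWne.eq_1; have := @pvilWnr.eq_1; have := @pvilMo.eq_1; have := @pvilMi.eq_1; have := @pvilMe.eq_1
  have := @pvilEo.eq_1; have := @pvilEi.eq_1; have := @pvilEe.eq_1; have := @pvilEoAt.eq_1; have := @pvilEiAt.eq_1; have := @pvilEeAt.eq_1
  have := @pvilAr.eq_1; have := @pvilXr.eq_1; have := @pvilWr.eq_1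
  have := @pvilKoutW.eq_1; have := @pvilKinW.eq_1; have := @pvilW1e.eq_1; have := @pvilKeW.eq_1; have := @pvilKin0W.eq_1
  have := @pvilKout.eq_1; have := @pvilKin.eq_1; have := @pvilKe.eq_1; have := @pvilKin0.eq_1; have := @pvilW.eq_1
  have := @pvilYfc.eq_1; have := @pvilWc.eq_1; have := @pvilYc.eq_1; have := @pvilEv.eq_1; have := @pvilHat.eq_1
  have := @pvilBx.eq_1; have := @pvilWz.eq_1; have := @pvilMu.eq_1; have := @pvilMs.eq_1; have := @pvilMr.eq_1; have := @pvilSA.eq_1; have := @pvilFin.eq_1; have := @pvilStS.eq_1; have := @PvilDoorS.eq_1; have := @PvilDoor.eq_1; have := @pvilTy0.eq_1; have := @pvilPlug.eq_1; have := @PvilLk.AtP.eq_1; have := @PvilLk.AtP'.eq_1; have := @pvilRd.eq_1; have := @pvilRu.eq_1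
  have := @pvilZn.eq_1; have := @pvilDn.eq_1; have := @pvilRef.eq_1; have := @pvilCcyc.eq_1; have := @pvilYfcyc.eq_1; have := @pvilWcyc.eq_1; have := @pvilYcyc.eq_1; have := @pvilHatCyc.eq_1
  trivial

/-! ## 8. THE THICK RETURN `t → reference plug`      (APPEND of 168, ruling of 24 12:18Z; R20 (5), R21 (1) of 234; 7, 129, 223)

Mirror of the thick link `e` at the EXIT half state: data `𝔈.fM 𝔈.fK 𝔈.fY`, base data `(Z, F) = (pvilZo, pvilFo)`.      Read by NO number of the Hub: only by the good part of `thick`, by `V` (closed thick pair `u → t → u`) and by the proofs.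
MASK: all the tags but those of the region of the reference plug IN FRONT of the line through its centre: inside `zu + rO` the masks of `pvilLe` (front, closed) and `pvilLf` (behind, strict) are complementary, off `zu + rO` both are everything.
`pvilAf` = soft success WITHOUT the value (Bessel step of `thick`);   `pvilEf` = the end with its value (success `pvilSA`, as for `o i e`);   `(pvilEf ..).A ⊆ pvilAf ..` a.s. by monotonicity of `pvilSure`. -/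

section ret

variable {τ : Type} {c : ℝ} (𝔓 : PvxPar τ c) (𝔈 : PvieEng τ)

/-- thick return `t → reference plug` -/
noncomputable def pvilLf (m : ℕ) (z : ℂ) (t : τ) : PvilLk :=
  ⟨pvilPin 𝔓 m z t, pvilPlug (pvilRu 𝔈 m) (pvieZu 𝔓 m z t) 1, pvieSh z (𝔈.fY m t), (pvieSh (pvieZu 𝔓 m z t) (𝔈.rO m) ∩ pvilHp (pvieZu 𝔓 m z t) 1)ᶜ, false, true⟩

/-- window of the thick return -/
noncomputable def pvilWnf (m : ℕ) (z : ℂ) (t : τ) (Z : Set (ℤ × ℤ)) : Set ℂ :=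
  pvilWz 𝔓 m z t Z ∪ pvieSh z (𝔈.fM m t) ∪ pvieSh z (𝔈.fK m t) ∪ pvieSh (pvieZu 𝔓 m z t) (𝔈.rO m)

/-- the thick return succeeds, the hull of `Σ_out(z,t)` is `Z`, mesh of the window -/
def pvilMf (m : ℕ) (z : ℂ) (t : τ) (Z : Set (ℤ × ℤ)) : Set (Conf PvPt) :=
  (pvilLf 𝔓 𝔈 m z t).A 𝔓.num (𝔓.col t) ∩ {η | pvilZo 𝔓 m z t η = Z} ∩ pvilMs 𝔓 m (pvilWnf 𝔓 𝔈 m z t Z)

/-- SOFT SUCCESS of the thick return at the hull `Z`, without the value -/
def pvilAf (m : ℕ) (ε : ℝ) (z : ℂ) (t : τ) (Z : Set (ℤ × ℤ)) : Set (Conf PvPt) := pvilFin Z (pvilSure ε (pvilWnf 𝔓 𝔈 m z t Z) (pvilMf 𝔓 𝔈 m z t Z))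

/-- **the thick return at the base data** -/
noncomputable def pvilEf (m : ℕ) (ε : ℝ) (w : ∀ η : Conf PvPt, (delbPl (pvieY η)).Dart → ℂ) (z : ℂ) (t : τ) (Z : Set (ℤ × ℤ)) (F : Set ℂ) : PvkyEnd where
  K := pvieSh z (𝔈.fK m t)
  y := fun _ => pvieSh z (𝔈.fM m t) \ F
  A := pvilFin Z (pvilSA ε (pvilWnf 𝔓 𝔈 m z t Z) (pvilMf 𝔓 𝔈 m z t Z) ((pvilLf 𝔓 𝔈 m z t).X 𝔓.num (𝔓.col t) w))
  X := pvilLoc ε (pvilWnf 𝔓 𝔈 m z t Z) (pvilMf 𝔓 𝔈 m z t Z) ((pvilLf 𝔓 𝔈 m z t).X 𝔓.num (𝔓.col t) w)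

/-- the thick return at the base data of `η₀` -/
noncomputable def pvilEfAt (m : ℕ) (ε : ℝ) (w : ∀ η : Conf PvPt, (delbPl (pvieY η)).Dart → ℂ) (z : ℂ) (t : τ) (η₀ : Conf PvPt) : PvkyEnd :=
  pvilEf 𝔓 𝔈 m ε w z t (pvilZo 𝔓 m z t η₀) (pvilFo 𝔓 m z t η₀)

end ret

theorem pvil_eqns_cite2 : True := by
  have := @pvilLf.eq_1; have := @pvilWnf.eq_1; have := @pvilMf.eq_1; have := @pvilAf.eq_1; have := @pvilEf.eq_1; have := @pvilEfAt.eq_1
  trivial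

end Claimed.Agent.R289
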