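import Claimed.Agent.R289.Tr.Dom

/-!
# Row 289 (S0537), THE WALL, file Tr/DomFl : TR23 (CYLINDER DOMINATION OF 159) FOR RIMS OF EITHER COLOUR      (helper286, request of helper59 (defect D1 of `N1SYSP_59.md`); prefix `pvdf_`, `pvdf`, `Pvdf`)

`PvdmSys.Hyp` (159, `Tr/Dom.lean`) is typed for rims of colour `true`: the fields `stab`, `stabW` allow the moves `σ' z ≤ σ z` (more `false`).      For a rim of colour `false` the events `N_g`, `W` are increasing in `true`: `Hyp` is FALSE for them.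
Road E reads the flipped configuration; road P cannot (the states, the potentials and the preparation carry the colour inside).      HERE: the colour is a PARAMETER of the hypotheses, the conclusion is unchanged.

* sec. 1  `pvdfLe c a b` (`b ≠ c → a ≠ c`: the order on colours with top `c`);   **`PvdmSys.HypC c S ε`** = `PvdmSys.Hyp` with `pvdfLe c (σ' z) (σ z)` in `stab`, `stabW`;   `pvdf_hyp_true : HypC true ↔ Hyp`.
* sec. 2  the flip: `pvdfN σ = ! σ`, `pvdfFl : (ℂ → Bool) ≃ᵐ (ℂ → Bool)`, `pvdfCf : Conf PvPt ≃ᵐ Conf PvPt` (`= cfFlip`), both measure preserving;   `pvdf_flip_cfOf`, `pvdf_flip_spl`, `pvdf_flip_ov`, `pvdf_sites`.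
* sec. 3  `PvdmSys.fl` (everything precomposed with `cfFlip`), `pvdf_flip_R`, **`pvdf_hyp_false : S.HypC false ε → S.fl.Hyp ε`**.
* sec. 4  the upper integrals are invariant under a measure preserving equivalence: `pvdf_upint_equiv`, `pvdf_iter_flip`.
* sec. 5  EXITS, conclusions of 159 VERBATIM: **`pvdf_main_up`** (`= pvdm_main_up`), `pvdf_up_cheb` (`= pvdm_up_cheb`), `pvdf_main` (`= pvdm_main`), **`pvdf_n1`** (limit form: the field `n1ν` of road P).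
-/

set_option autoImplicit false
set_option linter.unusedSectionVars false

namespace Claimed.Agent.R289

open MeasureTheory Filter Topology Set
open scoped ENNReal

/-! ## 1. the hypotheses with a colour -/

/-- the order on colours with top `c`:   `c = true`: `a ≤ b`;   `c = false`: `b ≤ a` -/
def pvdfLe (c a b : Bool) : Prop := b ≠ c → a ≠ c

theorem pvdf_le_true {a b : Bool} : pvdfLe true a b ↔ a ≤ b := by
  cases a <;> cases b <;> simp [pvdfLe]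

theorem pvdf_le_false {a b : Bool} : pvdfLe false a b ↔ b ≤ a := by
  cases a <;> cases b <;> simp [pvdfLe]

theorem pvdf_le_not {c a b : Bool} : pvdfLe (!c) (!a) (!b) ↔ pvdfLe c a b := by
  cases a <;> cases b <;> cases c <;> simp [pvdfLe]

theorem pvdf_le_refl (c a : Bool) : pvdfLe c a a := fun h => h

variable {ι : Type*}

/-- **THE HYPOTHESES OF N1' FOR A RIM OF COLOUR `c`**: `PvdmSys.Hyp` of 159 with the moves "more of the colour `!c`" in `stab`, `stabW`;   all the other fields VERBATIM -/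
structure PvdmSys.HypC (c : Bool) (S : PvdmSys ι) (ε : ℝ) : Prop where
  ok_ae : ∀ᵐ ω ∂pvP ε, S.Ok (cfSites ω)
  mC : MeasurableSet S.C
  mw : ∀ Y, S.Ok Y → ∀ i σ, cfOf Y σ ∈ S.A i → cfOf Y σ ∈ S.WO i → Measurable fun p : (ℂ → Bool) × Conf PvPt => S.w (S.R i Y σ p.1 p.2)
  mY : ∀ Y, S.Ok Y → ∀ i σ, cfOf Y σ ∈ S.A i → cfOf Y σ ∈ S.WO i → Measurable fun p : (ℂ → Bool) × Conf PvPt => S.Y (S.R i Y σ p.1 p.2)
  mH : Measurable S.H
  cnt : ∀ Y, S.Ok Y → {i | ∃ σ, cfOf Y σ ∈ S.A i}.Countable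
  fin : ∀ Y, S.Ok Y → ∀ i σ, cfOf Y σ ∈ S.A i → (Y \ S.yf i (cfOf Y σ)).Finite
  dis : ∀ Y, S.Ok Y → ∀ i σ, cfOf Y σ ∈ S.A i → Disjoint (S.frz i (cfOf Y σ)) (S.yf i (cfOf Y σ))
  stab : ∀ Y, S.Ok Y → ∀ i σ σ', cfOf Y σ ∈ S.A i → (∀ z ∈ Y, z ∈ S.frz i (cfOf Y σ) → σ' z = σ z) → (∀ z ∈ Y, z ∉ S.yf i (cfOf Y σ) → pvdfLe c (σ' z) (σ z)) →
    cfOf Y σ' ∈ S.A i ∧ S.frz i (cfOf Y σ') = S.frz i (cfOf Y σ) ∧ S.yf i (cfOf Y σ') = S.yf i (cfOf Y σ) ∧
      S.X i (cfOf Y σ') = S.X i (cfOf Y σ) ∧ S.yh i (cfOf Y σ') = S.yh i (cfOf Y σ)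
  stabW : ∀ Y, S.Ok Y → ∀ i σ₀ σ σ', cfOf Y σ₀ ∈ S.A i → (∀ z ∈ Y, z ∈ S.frz i (cfOf Y σ₀) → σ z = σ₀ z) → (∀ z ∈ Y, z ∈ S.frz i (cfOf Y σ₀) → σ' z = σ₀ z) →
    (∀ z ∈ Y, z ∉ S.yf i (cfOf Y σ₀) → pvdfLe c (σ' z) (σ z)) → cfOf Y σ ∈ S.WO i → cfOf Y σ' ∈ S.WO i
  hq : ∀ Y, S.Ok Y → ∀ i σ, cfOf Y σ ∈ S.A i → S.q ≤ colLaw ℂ {κ | cfOf Y (pvdmOv (S.frz i (cfOf Y σ))ᶜ κ σ) ∈ S.WO i}
  rd : ∀ Y, S.Ok Y → ∀ σ, ∀ᵐ ω₂ ∂pvP ε, ∀ i, (Conf.spl (pvdmU S.C) (cfOf Y σ, ω₂) ∈ S.A i ↔ cfOf Y σ ∈ S.A i) ∧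
    (Conf.spl (pvdmU S.C) (cfOf Y σ, ω₂) ∈ S.WO i ↔ cfOf Y σ ∈ S.WO i) ∧ S.X i (Conf.spl (pvdmU S.C) (cfOf Y σ, ω₂)) = S.X i (cfOf Y σ)
  jen : ∀ Y, S.Ok Y → ∀ i σ, cfOf Y σ ∈ S.A i → cfOf Y σ ∈ S.WO i → ‖S.X i (cfOf Y σ) + S.yh i (cfOf Y σ)‖ₑ ^ 2 ≤
    ∫⁻ κ, ∫⁻ ω₂, S.w (S.R i Y σ κ ω₂) * ‖S.X i (cfOf Y σ) + S.Y (S.R i Y σ κ ω₂)‖ₑ ^ 2 ∂pvP ε ∂colLaw ℂ
  dom : ∀ᵐ ω ∂pvP ε, ∑' i, (S.A i ∩ S.WO i).indicator (fun ω => S.w ω * ‖S.X i ω + S.Y ω‖ₑ ^ 2) ω ≤ S.H ω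

theorem pvdf_fl_eqns_cite : True := by
  have := @pvdfLe.eq_1
  trivial

variable {S : PvdmSys ι} {ε : ℝ}

/-- colour `true` = the hypotheses of 159 -/
theorem pvdf_hyp_true : S.HypC true ε ↔ S.Hyp ε := by
  constructor
  · intro h
    exact ⟨h.ok_ae, h.mC, h.mw, h.mY, h.mH, h.cnt, h.fin, h.dis,
      fun Y hY i σ σ' hA h1 h2 => h.stab Y hY i σ σ' hA h1 fun z hz hn => pvdf_le_true.2 (h2 z hz hn),
      fun Y hY i σ₀ σ σ' hA h1 h2 h3 => h.stabW Y hY i σ₀ σ σ' hA h1 h2 fun z hz hn => pvdf_le_true.2 (h3 z hz hn),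
      h.hq, h.rd, h.jen, h.dom⟩
  · intro h
    exact ⟨h.ok_ae, h.mC, h.mw, h.mY, h.mH, h.cnt, h.fin, h.dis,
      fun Y hY i σ σ' hA h1 h2 => h.stab Y hY i σ σ' hA h1 fun z hz hn => pvdf_le_true.1 (h2 z hz hn),
      fun Y hY i σ₀ σ σ' hA h1 h2 h3 => h.stabW Y hY i σ₀ σ σ' hA h1 h2 fun z hz hn => pvdf_le_true.1 (h3 z hz hn),
      h.hq, h.rd, h.jen, h.dom⟩

/-! ## 2. the flip -/

/-- the opposite colouring -/
def pvdfN (σ : ℂ → Bool) : ℂ → Bool := fun z => !σ z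

theorem pvdf_N_N (σ : ℂ → Bool) : pvdfN (pvdfN σ) = σ := by
  funext z
  simp [pvdfN]

/-- the flip of the colourings of the plane, as a measurable equivalence -/
def pvdfFl : (ℂ → Bool) ≃ᵐ (ℂ → Bool) where
  toFun := pvdfN
  invFun := pvdfN
  left_inv := pvdf_N_N
  right_inv := pvdf_N_N
  measurable_toFun := measurable_pi_lambda _ fun i => (measurable_of_countable not).comp (measurable_pi_apply i)
  measurable_invFun := measurable_pi_lambda _ fun i => (measurable_of_countable not).comp (measurable_pi_apply i)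

theorem pvdf_fl_mp : MeasurePreserving pvdfFl (colLaw ℂ) (colLaw ℂ) := by
  refine ⟨pvdfFl.measurable, ?_⟩
  have h := Measure.infinitePi_map_pi (fun _ : ℂ => pvCoin) (f := fun _ => not) fun _ => measurable_of_countable _
  simp only [pvCoin_map_not] at h
  exact h

theorem pvdf_flip_flip (η : Conf PvPt) : cfFlip (cfFlip η) = η := by
  ext p
  simp only [cfFlip, Conf.image, mem_image]
  constructor
  · rintro ⟨_, ⟨q, hq, rfl⟩, rfl⟩
    obtain ⟨a, b⟩ := q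
    simpa using hq
  · intro hp
    obtain ⟨a, b⟩ := p
    exact ⟨(a, !b), ⟨(a, b), hp, rfl⟩, by simp⟩

/-- the colour switching of configurations, as a measurable equivalence -/
def pvdfCf : Conf PvPt ≃ᵐ Conf PvPt where
  toFun := cfFlip
  invFun := cfFlip
  left_inv := pvdf_flip_flip
  right_inv := pvdf_flip_flip
  measurable_toFun := measurable_cfFlip
  measurable_invFun := measurable_cfFlip

theorem pvdf_cf_mp (ε : ℝ) : MeasurePreserving pvdfCf (pvP ε) (pvP ε) := ⟨measurable_cfFlip, pvP_flip ε⟩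

theorem pvdf_fl_eqns_cite2 : True := by
  have := @pvdfN.eq_1; have := @pvdfFl.eq_1; have := @pvdfCf.eq_1
  trivial

theorem pvdf_mem_flip {η : Conf PvPt} {p : PvPt} : p ∈ (cfFlip η).pts ↔ (p.1, !p.2) ∈ η.pts := by
  simp only [cfFlip, Conf.image, mem_image]
  constructor
  · rintro ⟨q, hq, rfl⟩
    obtain ⟨a, b⟩ := q
    simpa using hq
  · intro hp
    exact ⟨(p.1, !p.2), hp, by simp⟩

theorem pvdf_flip_cfOf (Y : Set ℂ) (σ : ℂ → Bool) : cfFlip (cfOf Y σ) = cfOf Y (pvdfN σ) := by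
  ext p
  rw [pvdf_mem_flip]
  simp only [cfOf, mem_ofPred_eq, pvdfN]
  constructor
  · rintro ⟨h1, h2⟩
    exact ⟨h1, by rw [← h2]; simp⟩
  · rintro ⟨h1, h2⟩
    exact ⟨h1, by rw [h2]; simp⟩

theorem pvdf_flip_spl (C : Set ℂ) (a b : Conf PvPt) : cfFlip (Conf.spl (pvdmU C) (a, b)) = Conf.spl (pvdmU C) (cfFlip a, cfFlip b) := by
  ext p
  rw [pvdf_mem_flip]
  simp only [Conf.spl, Conf.union, Conf.restr, mem_union, mem_inter_iff, pvdf_mem_flip]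
  rfl

theorem pvdf_flip_ov (U : Set ℂ) (κ σ : ℂ → Bool) : pvdfN (pvdmOv U κ σ) = pvdmOv U (pvdfN κ) (pvdfN σ) := by
  funext z
  by_cases hz : z ∈ U
  · simp only [pvdfN, pvdm_ov_mem hz]
  · simp only [pvdfN, pvdm_ov_notMem hz]

theorem pvdf_sites (η : Conf PvPt) : cfSites (cfFlip η) = cfSites η := by
  ext z
  simp only [cfSites, mem_image]
  constructor
  · rintro ⟨p, hp, rfl⟩
    exact ⟨_, pvdf_mem_flip.1 hp, rfl⟩
  · rintro ⟨p, hp, rfl⟩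
    exact ⟨(p.1, !p.2), pvdf_mem_flip.2 (by simpa using hp), rfl⟩

/-! ## 3. the flipped system -/

/-- **THE SYSTEM READ ON THE FLIPPED CONFIGURATION** -/
def PvdmSys.fl (S : PvdmSys ι) : PvdmSys ι where
  Ok := S.Ok
  C := S.C
  A i := cfFlip ⁻¹' S.A i
  WO i := cfFlip ⁻¹' S.WO i
  frz i ω := S.frz i (cfFlip ω)
  yf i ω := S.yf i (cfFlip ω)
  X i ω := S.X i (cfFlip ω)
  yh i ω := S.yh i (cfFlip ω)
  w ω := S.w (cfFlip ω)
  Y ω := S.Y (cfFlip ω)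
  H ω := S.H (cfFlip ω)
  q := S.q

theorem pvdf_fl_eqns_cite3 : True := by
  have := @PvdmSys.fl.eq_1.{0}
  trivial

/-- the experiment of the flipped system is the flip of the experiment -/
theorem pvdf_flip_R (S : PvdmSys ι) (i : ι) (Y : Set ℂ) (σ κ : ℂ → Bool) (ω₂ : Conf PvPt) :
    cfFlip (S.fl.R i Y σ κ ω₂) = S.R i Y (pvdfN σ) (pvdfN κ) (cfFlip ω₂) := by
  show cfFlip (Conf.spl (pvdmU S.C) (cfOf Y (pvdmOv (S.yf i (cfFlip (cfOf Y σ))) κ σ), ω₂)) = _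
  rw [pvdf_flip_spl, pvdf_flip_cfOf, pvdf_flip_ov, pvdf_flip_cfOf]
  rfl

theorem pvdf_meas_pair : Measurable fun p : (ℂ → Bool) × Conf PvPt => (pvdfN p.1, cfFlip p.2) :=
  (pvdfFl.measurable.comp measurable_fst).prodMk (measurable_cfFlip.comp measurable_snd)

/-- an almost sure property passes to the flipped configuration -/
theorem pvdf_ae_flip {p : Conf PvPt → Prop} (h : ∀ᵐ ω ∂pvP ε, p ω) : ∀ᵐ ω ∂pvP ε, p (cfFlip ω) := by
  rw [← pvP_flip ε] at h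
  exact ae_of_ae_map measurable_cfFlip.aemeasurable h

theorem pvdf_lint_flip (F : Conf PvPt → ℝ≥0∞) : ∫⁻ ω, F (cfFlip ω) ∂pvP ε = ∫⁻ ω, F ω ∂pvP ε :=
  (pvdf_cf_mp ε).lintegral_comp_emb pvdfCf.measurableEmbedding F

theorem pvdf_lint_fl (F : (ℂ → Bool) → ℝ≥0∞) : ∫⁻ κ, F (pvdfN κ) ∂colLaw ℂ = ∫⁻ κ, F κ ∂colLaw ℂ :=
  pvdf_fl_mp.lintegral_comp_emb pvdfFl.measurableEmbedding F

/-- **colour `false`: the flipped system satisfies the hypotheses of 159** -/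
theorem pvdf_hyp_false (h : S.HypC false ε) : S.fl.Hyp ε where
  ok_ae := h.ok_ae
  mC := h.mC
  mw := fun Y hY i σ hA hW => by
    have hA' : cfOf Y (pvdfN σ) ∈ S.A i := by rw [← pvdf_flip_cfOf]; exact hA
    have hW' : cfOf Y (pvdfN σ) ∈ S.WO i := by rw [← pvdf_flip_cfOf]; exact hW
    have e : (fun p : (ℂ → Bool) × Conf PvPt => S.fl.w (S.fl.R i Y σ p.1 p.2)) = (fun p : (ℂ → Bool) × Conf PvPt => S.w (S.R i Y (pvdfN σ) p.1 p.2)) ∘ fun p => (pvdfN p.1, cfFlip p.2) := by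
      funext p
      show S.w (cfFlip (S.fl.R i Y σ p.1 p.2)) = _
      rw [pvdf_flip_R]
      rfl
    rw [e]
    exact (h.mw Y hY i (pvdfN σ) hA' hW').comp pvdf_meas_pair
  mY := fun Y hY i σ hA hW => by
    have hA' : cfOf Y (pvdfN σ) ∈ S.A i := by rw [← pvdf_flip_cfOf]; exact hA
    have hW' : cfOf Y (pvdfN σ) ∈ S.WO i := by rw [← pvdf_flip_cfOf]; exact hW
    have e : (fun p : (ℂ → Bool) × Conf PvPt => S.fl.Y (S.fl.R i Y σ p.1 p.2)) = (fun p : (ℂ → Bool) × Conf PvPt => S.Y (S.R i Y (pvdfN σ) p.1 p.2)) ∘ fun p => (pvdfN p.1, cfFlip p.2) := by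
      funext p
      show S.Y (cfFlip (S.fl.R i Y σ p.1 p.2)) = _
      rw [pvdf_flip_R]
      rfl
    rw [e]
    exact (h.mY Y hY i (pvdfN σ) hA' hW').comp pvdf_meas_pair
  mH := h.mH.comp measurable_cfFlip
  cnt := fun Y hY => (h.cnt Y hY).mono fun i hi => by
    obtain ⟨σ, hσ⟩ := hi
    exact ⟨pvdfN σ, by rw [← pvdf_flip_cfOf]; exact hσ⟩
  fin := fun Y hY i σ hA => by
    have hA' : cfOf Y (pvdfN σ) ∈ S.A i := by rw [← pvdf_flip_cfOf]; exact hA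
    have := h.fin Y hY i (pvdfN σ) hA'
    rw [← pvdf_flip_cfOf] at this
    exact this
  dis := fun Y hY i σ hA => by
    have hA' : cfOf Y (pvdfN σ) ∈ S.A i := by rw [← pvdf_flip_cfOf]; exact hA
    have := h.dis Y hY i (pvdfN σ) hA'
    rw [← pvdf_flip_cfOf] at this
    exact this
  stab := fun Y hY i σ σ' hA h1 h2 => by
    have hA' : cfOf Y (pvdfN σ) ∈ S.A i := by rw [← pvdf_flip_cfOf]; exact hA
    have key := h.stab Y hY i (pvdfN σ) (pvdfN σ') hA'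
      (fun z hz hf => by
        rw [← pvdf_flip_cfOf] at hf
        show (!σ' z) = !σ z
        rw [h1 z hz hf])
      (fun z hz hn => by
        rw [← pvdf_flip_cfOf] at hn
        exact pvdf_le_not.2 (pvdf_le_true.2 (h2 z hz hn)))
    rw [← pvdf_flip_cfOf, ← pvdf_flip_cfOf] at key
    exact key
  stabW := fun Y hY i σ₀ σ σ' hA h1 h2 h3 hW => by
    have hA' : cfOf Y (pvdfN σ₀) ∈ S.A i := by rw [← pvdf_flip_cfOf]; exact hA
    have hW' : cfOf Y (pvdfN σ) ∈ S.WO i := by rw [← pvdf_flip_cfOf]; exact hW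
    have key := h.stabW Y hY i (pvdfN σ₀) (pvdfN σ) (pvdfN σ') hA'
      (fun z hz hf => by
        rw [← pvdf_flip_cfOf] at hf
        show (!σ z) = !σ₀ z
        rw [h1 z hz hf])
      (fun z hz hf => by
        rw [← pvdf_flip_cfOf] at hf
        show (!σ' z) = !σ₀ z
        rw [h2 z hz hf])
      (fun z hz hn => by
        rw [← pvdf_flip_cfOf] at hn
        exact pvdf_le_not.2 (pvdf_le_true.2 (h3 z hz hn))) hW'
    rw [← pvdf_flip_cfOf] at key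
    exact key
  hq := fun Y hY i σ hA => by
    have hA' : cfOf Y (pvdfN σ) ∈ S.A i := by rw [← pvdf_flip_cfOf]; exact hA
    refine (h.hq Y hY i (pvdfN σ) hA').trans (le_of_eq ?_)
    rw [← pvdf_fl_mp.measure_preimage_equiv]
    congr 1
    ext κ
    show cfOf Y (pvdmOv (S.frz i (cfOf Y (pvdfN σ)))ᶜ (pvdfN κ) (pvdfN σ)) ∈ S.WO i ↔ cfFlip (cfOf Y (pvdmOv (S.frz i (cfFlip (cfOf Y σ)))ᶜ κ σ)) ∈ S.WO i
    rw [pvdf_flip_cfOf, pvdf_flip_ov, pvdf_flip_cfOf]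
  rd := fun Y hY σ => by
    filter_upwards [pvdf_ae_flip (h.rd Y hY (pvdfN σ))] with ω₂ hω i
    have := hω i
    rw [← pvdf_flip_cfOf, ← pvdf_flip_spl] at this
    exact this
  jen := fun Y hY i σ hA hW => by
    have hA' : cfOf Y (pvdfN σ) ∈ S.A i := by rw [← pvdf_flip_cfOf]; exact hA
    have hW' : cfOf Y (pvdfN σ) ∈ S.WO i := by rw [← pvdf_flip_cfOf]; exact hW
    have key := h.jen Y hY i (pvdfN σ) hA' hW'
    rw [← pvdf_lint_fl] at key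
    simp only [← pvdf_lint_flip (ε := ε) (fun ω₂ => S.w (S.R i Y (pvdfN σ) _ ω₂) * ‖S.X i (cfOf Y (pvdfN σ)) + S.Y (S.R i Y (pvdfN σ) _ ω₂)‖ₑ ^ 2)] at key
    simp only [← pvdf_flip_R, ← pvdf_flip_cfOf] at key
    exact key
  dom := by
    filter_upwards [pvdf_ae_flip h.dom] with ω hω
    refine le_trans (le_of_eq (tsum_congr fun i => ?_)) hω
    by_cases hm : cfFlip ω ∈ S.A i ∩ S.WO i
    · rw [indicator_of_mem hm, indicator_of_mem (show ω ∈ S.fl.A i ∩ S.fl.WO i from hm)]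
      rfl
    · rw [indicator_of_notMem hm, indicator_of_notMem (show ω ∉ S.fl.A i ∩ S.fl.WO i from hm)]

/-! ## 4. upper integrals and measure preserving equivalences -/

theorem pvdf_upint_le {α : Type} [MeasurableSpace α] {μ : Measure α} (e : α ≃ᵐ α) (he : MeasurePreserving e μ μ) (F : α → ℝ≥0∞) : pvUpInt μ (fun a => F (e a)) ≤ pvUpInt μ F := by
  refine le_iInf fun φ => ?_
  refine (pvup_int_le μ (φ := fun a => φ.1 (e a)) (φ.2.1.comp e.measurable) fun a => φ.2.2 (e a)).trans (le_of_eq ?_)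
  exact he.lintegral_comp_emb e.measurableEmbedding φ.1

/-- the upper integral is invariant under a measure preserving equivalence -/
theorem pvdf_upint_equiv {α : Type} [MeasurableSpace α] {μ : Measure α} (e : α ≃ᵐ α) (he : MeasurePreserving e μ μ) (F : α → ℝ≥0∞) : pvUpInt μ (fun a => F (e a)) = pvUpInt μ F := by
  refine le_antisymm (pvdf_upint_le e he F) ?_
  have h := pvdf_upint_le e.symm (he.symm e) (fun a => F (e a))
  simpa using h

/-- the two-level upper expectation is invariant under the colour flip -/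
theorem pvdf_iter_flip (ε : ℝ) (F : Conf PvPt → ℝ≥0∞) :
    (PvUp.iter (pvGeo ε) pvCol).E (fun p => F (cfFlip (pvConf (pvMerge p)))) = (PvUp.iter (pvGeo ε) pvCol).E (fun p => F (pvConf (pvMerge p))) := by
  show pvUpInt (pvGeo ε) (fun g => pvUpInt pvCol fun k => F (cfFlip (pvConf (pvMerge (g, k))))) = pvUpInt (pvGeo ε) (fun g => pvUpInt pvCol fun k => F (pvConf (pvMerge (g, k))))
  congr 1
  funext g
  simp only [pvqu_flip_conf]
  exact pvdf_upint_equiv pvColFlip pvqu_col_flip fun k => F (pvConf (pvMerge (g, k)))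

/-- **THE TWO-LEVEL UPPER EXPECTATION IS INVARIANT UNDER THE COLOUR FLIP OF THE SAMPLE**: ALL integrands, no measurability -/
theorem pvdf_up_flip_E (ε : ℝ) (F : PvGeoT × PvColT → ℝ≥0∞) :
    (PvUp.iter (pvGeo ε) pvCol).E (fun q => F (q.1, pvColFlip q.2)) = (PvUp.iter (pvGeo ε) pvCol).E F := by
  show pvUpInt (pvGeo ε) (fun g => pvUpInt pvCol fun k => F (g, pvColFlip k)) = pvUpInt (pvGeo ε) (fun g => pvUpInt pvCol fun k => F (g, k))
  congr 1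
  funext g
  exact pvdf_upint_equiv pvColFlip pvqu_col_flip fun k => F (g, k)

/-- the same for events -/
theorem pvdf_up_flip_P (ε : ℝ) (A : Set (PvGeoT × PvColT)) :
    (PvUp.iter (pvGeo ε) pvCol).P {q | (q.1, pvColFlip q.2) ∈ A} = (PvUp.iter (pvGeo ε) pvCol).P A :=
  pvdf_up_flip_E ε (A.indicator fun _ => 1)

/-! ## 5. the exits -/

/-- the integrand of TR23 of the flipped system is the flipped integrand -/
theorem pvdf_sum_flip (S : PvdmSys ι) (ω : Conf PvPt) :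
    ∑' i, (S.fl.A i).indicator (fun ω => ‖S.fl.X i ω + S.fl.yh i ω‖ₑ ^ 2) ω = ∑' i, (S.A i).indicator (fun ω => ‖S.X i ω + S.yh i ω‖ₑ ^ 2) (cfFlip ω) := by
  refine tsum_congr fun i => ?_
  by_cases hm : cfFlip ω ∈ S.A i
  · rw [indicator_of_mem hm, indicator_of_mem (show ω ∈ S.fl.A i from hm)]
    rfl
  · rw [indicator_of_notMem hm, indicator_of_notMem (show ω ∉ S.fl.A i from hm)]

/-- **UPPER EXPECTATION FORM OF TR23 FOR RIMS OF EITHER COLOUR**: the conclusion of `pvdm_main_up` VERBATIM -/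
theorem pvdf_main_up {c : Bool} (h : S.HypC c ε) :
    S.q * (PvUp.iter (pvGeo ε) pvCol).E (fun p => ∑' i, (S.A i).indicator (fun ω => ‖S.X i ω + S.yh i ω‖ₑ ^ 2) (pvConf (pvMerge p))) ≤ ∫⁻ ω, S.H ω ∂pvP ε := by
  cases c
  · have key := pvdm_main_up (pvdf_hyp_false h)
    simp only [pvdf_sum_flip] at key
    rw [pvdf_iter_flip ε fun ω => ∑' i, (S.A i).indicator (fun ω => ‖S.X i ω + S.yh i ω‖ₑ ^ 2) ω] at key
    refine key.trans (le_of_eq ?_)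
    exact pvdf_lint_flip S.H
  · exact pvdm_main_up (pvdf_hyp_true.1 h)

/-- **TR23 FOR RIMS OF EITHER COLOUR**: the conclusion of `pvdm_main` VERBATIM -/
theorem pvdf_main {c : Bool} (h : S.HypC c ε) :
    S.q * ∫⁻ ω, ∑' i, (S.A i).indicator (fun ω => ‖S.X i ω + S.yh i ω‖ₑ ^ 2) ω ∂pvP ε ≤ ∫⁻ ω, S.H ω ∂pvP ε := by
  cases c
  · have key := pvdm_main (pvdf_hyp_false h)
    simp only [pvdf_sum_flip] at key
    rw [pvdf_lint_flip fun ω => ∑' i, (S.A i).indicator (fun ω => ‖S.X i ω + S.yh i ω‖ₑ ^ 2) ω] at key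
    refine key.trans (le_of_eq ?_)
    exact pvdf_lint_flip S.H
  · exact pvdm_main (pvdf_hyp_true.1 h)

/-- **UPPER PROBABILITY FORM**: the conclusion of `pvdm_up_cheb` VERBATIM -/
theorem pvdf_up_cheb {c : Bool} (h : S.HypC c ε) {B : Set (PvGeoT × PvColT)} {u : ℝ≥0∞}
    (hBu : ∀ p ∈ B, ∃ i, pvConf (pvMerge p) ∈ S.A i ∧ u ≤ ‖S.X i (pvConf (pvMerge p)) + S.yh i (pvConf (pvMerge p))‖ₑ) :
    S.q * (u ^ 2 * (PvUp.iter (pvGeo ε) pvCol).P B) ≤ ∫⁻ ω, S.H ω ∂pvP ε := by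
  refine le_trans ?_ (pvdf_main_up h)
  gcongr
  by_cases h0 : u ^ 2 = 0
  · rw [h0, zero_mul]; exact zero_le
  by_cases ht : u ^ 2 = ⊤
  · have hB : B = ∅ := by
      refine eq_empty_of_forall_notMem fun p hp => ?_
      obtain ⟨i, _, hu⟩ := hBu p hp
      have hu' : u = ⊤ := by
        by_contra hn
        exact ENNReal.pow_ne_top hn ht
      rw [hu', top_le_iff] at hu
      exact enorm_ne_top hu
    rw [hB, PvUp.P_empty, mul_zero]
    exact zero_le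
  have k := (PvUp.iter (pvGeo ε) pvCol).markov (fun p => ∑' i, (S.A i).indicator (fun ω => ‖S.X i ω + S.yh i ω‖ₑ ^ 2) (pvConf (pvMerge p))) h0 ht
  have hsub : B ⊆ {p | u ^ 2 ≤ ∑' i, (S.A i).indicator (fun ω => ‖S.X i ω + S.yh i ω‖ₑ ^ 2) (pvConf (pvMerge p))} := by
    intro p hp
    obtain ⟨i, hi, hu⟩ := hBu p hp
    refine le_trans ?_ (ENNReal.le_tsum i)
    rw [indicator_of_mem hi]
    gcongr
  have k2 := ((PvUp.iter (pvGeo ε) pvCol).P_mono hsub).trans k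
  rw [ENNReal.le_div_iff_mul_le (Or.inl h0) (Or.inl ht), mul_comm] at k2
  exact k2

/-- **THE LIMIT FORM** (field `n1ν` of road P: `pvru_n1` of `Tr/RoadPU.lean` for rims of either colour):   `q_W` bounded below, `E[H] → 0` -/
theorem pvdf_n1 (S : ℝ → PvdmSys ι) (c : ℝ → Bool) (hS : ∀ᶠ ε in 𝓝[>] (0 : ℝ), (S ε).HypC (c ε) ε) {q0 : ℝ≥0∞} (hq0 : q0 ≠ 0) (hq1 : q0 ≠ ∞)
    (hq : ∀ᶠ ε in 𝓝[>] (0 : ℝ), q0 ≤ (S ε).q) (hH : Tendsto (fun ε => ∫⁻ ω, (S ε).H ω ∂pvP ε) (𝓝[>] (0 : ℝ)) (𝓝 0)) :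
    Tendsto (fun ε => (PvUp.iter (pvGeo ε) pvCol).E (fun p => ∑' i, ((S ε).A i).indicator (fun ω => ‖(S ε).X i ω + (S ε).yh i ω‖ₑ ^ 2) (pvConf (pvMerge p)))) (𝓝[>] (0 : ℝ)) (𝓝 0) := by
  have hlim : Tendsto (fun ε => (∫⁻ ω, (S ε).H ω ∂pvP ε) / q0) (𝓝[>] (0 : ℝ)) (𝓝 0) := by
    have h2 := ENNReal.Tendsto.div_const hH (Or.inr hq0)
    rwa [ENNReal.zero_div] at h2
  refine tendsto_of_tendsto_of_tendsto_of_le_of_le' tendsto_const_nhds hlim (Eventually.of_forall fun ε => zero_le) ?_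
  filter_upwards [hS, hq] with ε h1 h2
  rw [ENNReal.le_div_iff_mul_le (Or.inl hq0) (Or.inl hq1), mul_comm]
  exact (mul_le_mul_left h2 _).trans (pvdf_main_up h1)

end Claimed.Agent.R289
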