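import Claimed.Agent.R289.Tr.PrepU
import Claimed.Agent.R289.Tr.Dom
import Claimed.Agent.R289.Tr.Lin

/-!
# Row 289 (S0537, Cardy for Poisson-Voronoi), THE WALL, ROAD P, file Tr/RoadPU : THE ROOF OF ROAD P OVER UPPER EXPECTATIONS      (helper286; prefix `pvru_`, `Pvru`; record `PvrpInU`)

U-port of `Tr/RoadP.lean` (273: `PvrpIn`, `pvrp_loc`) to the record `PvhbLocU` of the hub (73, ruling H1).      NOTHING of `Tr/RoadP.lean` is changed; its model free lemmas (`pvrp_point`, `pvrp_nrm_le`, `pvrp_nrm_add`, `pvrp_nrm_const`) carry the proof.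

WHY.   In the Measure form the record asks: `G_meas` (the usable states `Gq_τ`: annealed and quenched propensities), `kout0_meas`, `ke0_meas`, measurable versions `U kout ke`, `dom2_ae` and (through `dom2`, `n1ν`) the JOINT measurability of the
integrand `Z_π` of the free arc (a sum over all arcs `g`).      Over an upper expectation none of them is needed:
* `U := {Hg, 1/2 ≤ K(·,G)}`, `kout := Nrm G kout0 ∘ cf`, `ke := Nrm G ke0 ∘ cf`, `kin := Nrm G kin0 ∘ cf` are DEFINED (no versions);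
* `dom1` (all `F`), `dom2` : `Tr/PrepU.lean` (`pvnz_K_dom1`, `pvnz_K_dom2`), for ARBITRARY functions;
* `n1ν` : `pvdm_main_up` of 159 (`Tr/Dom.lean` sec. 3).

* sec. 1  `PvrpInU N Pr rims x R Ξ ι`  (`Pr : ℝ → PvUp Ω`): THE INTERFACE RECORD OF ROAD P, U-FORM.
* sec. 2  `pvru_l2`, `pvru_arc`, **`pvru_loc : PvrpInU N Pr rims x R Ξ ι → Nonempty (PvhbLocU N Pr rims x R)`**.
* sec. 3  the sample space of the node: `Pr ε = PvUp.iter (pvGeo ε) pvCol`, `cf q = pvConf (pvMerge q)`, `Ok = {q | DelgpOk (pvMerge q)}`: `pvru_ok` (field `Ok_ae`), `pvru_E_le_law` (a `ν`-statement with a measurable integrand gives the U-form),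
          `pvru_n1` (field `n1ν` from the hypotheses `PvdmSys.Hyp` of 159 and the tail).
* sec. 4  **THE Q-FORM** (P4 (1) (2) of 273): `PvrpBaseQ N Pr Ξ ι` (data + `dom1`), potentials `B.kout B.kin B.ke B.cV := B.pot ..` (normalised averages), `B.U`, `B.FitU`, events `B.BadN1 B.BadTel`;   EVERY FIELD OF `PvtyLocQ` SEPARATELY:
          `pvru_q_n1` (from `B.Stab`, `B.Bl`, `dom2`, `n1ν`; small `ε` only), `pvru_q_cyc1`, `pvru_q_thick`, `pvru_q_cVL2`, `pvru_q_tel` (probability `0`; `pvru_nrm_eq`, `pvru_q_cV_eq`), `pvru_q_cover`;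
          `PvrpBaseQ.toLocQ` (modular roof: plug ANY proof of any field), record **`PvrpInQ N kV Pr rims x R Ξ ι`** (extends the base), **`PvrpInQ.toLocQ`**, `pvru_locQ`, **`pvru_exit : (∀ x R, 0 < R → Nonempty (PvrpInQ ..)) → L9ExitTR c`**.
* sec. 5  THE CONTRACT OF ONE PATTERN `B.N1In rims m π ε S` (`S : PvdmSys κ` of 159: `hyp` TR23, `yh` TR2 exact, `act` STAB + ACT in the K-free words `B.Mv2`), `pvru_q_stab` (⟹ `B.Stab .. (pvruZ S)`), **`pvru_q_n1_sys`** (⟹ field `n1`).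
-/

set_option autoImplicit false
set_option linter.unusedSectionVars false

namespace Claimed.Agent.R289

open MeasureTheory Filter Topology Set
open scoped ENNReal

/-! ## 1. the record -/

section rec

variable {Ω : Type}

/-- **THE INTERFACE RECORD OF ROAD P, OVER UPPER EXPECTATIONS** (`ROADP_273.md` sec.4; `PvrpIn` of 273 without its measurability fields).
`Ξ` = configurations (`Conf PvPt`), `cf q = pvConf (pvMerge q)`, `ι = Finset ℂ` (repaintings of the strip).      A candidate is `(z,t)` at level `m`, mesh `ε`. -/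
structure PvrpInU {τ : Type} {c : ℝ} (N : PvhbNum τ c) (Pr : ℝ → PvUp Ω) (rims : Ω → Set PvbRim) (x : ℂ) (R : ℝ) (Ξ ι : Type) where
  /-- the configuration of a sample -/
  cf : Ω → Ξ
  /-- the samples in general position (the deterministic field `stab` is asked on them only) -/
  Ok : Set Ω
  Ok_ae : ∀ ε, (Pr ε).P Okᶜ = 0
  /-- P6: the preparation operator of the candidate   [263 59: `pvprK`] -/
  K : ℕ → ℝ → ℂ → τ → PvrpK Ξ ι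
  /-- P5: the usable states `Gq_τ` -/
  G : ℕ → ℝ → ℂ → τ → Set Ξ
  /-- the geometries with `P^η(A_κ) ≥ p_*` (not F3) -/
  Hg : ℕ → ℝ → ℂ → τ → Set Ξ
  /-- `κ_out`, `κ_in`, mean of the thick short link for the field `y_a`: functions of the STATE;   arguments `m ε a z t ξ` -/
  kout0 : ℕ → ℝ → ℂ → ℂ → τ → Ξ → ℂ
  kin0 : ℕ → ℝ → ℂ → ℂ → τ → Ξ → ℂ
  ke0 : ℕ → ℝ → ℂ → ℂ → τ → Ξ → ℂ
  /-- P7: the qualified pins -/
  pins : ℕ → ℝ → Ω → PvbRim → Set (PvbPin τ)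
  /-- part of P7: not F3, `gam ≥ 1/2` -/
  pin_U : ∀ m ε o P, ∀ s ∈ pins m ε o P, cf o ∈ Hg m ε s.ctr s.typ ∧ 1 / 2 ≤ (K m ε s.ctr s.typ).gam (G m ε s.ctr s.typ) (cf o)
  Pat : ℕ → Type
  Pat_fin : ∀ m, Finite (Pat m)
  pat : ∀ m, Pat m → PvtsPat τ
  pat_ok : ∀ m π, (N.Γ m).Ok (pat m π)
  Fit : ∀ m : ℕ, ℝ → Ω → PvbRim → PvbPin τ → PvbPin τ → Pat m → Prop
  fit_s : ∀ m ε o P s t π, Fit m ε o P s t π → s.ctr = (pat m π).zs ∧ s.typ = (pat m π).ts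
  fit_t : ∀ m ε o P s t π, Fit m ε o P s t π → t.ctr = (pat m π).zt ∧ t.typ = (pat m π).tt
  /-- P8 P9 P14 P15: DI-P + DENSE-P -/
  pinsOK : PvhbOrd (fun m ε => ((Pr ε).P {o | ¬ ∀ P ∈ rims o,
    (∀ s ∈ pins m ε o P, PvbIsPin N.𝔐 (N.h m) P s ∧ ∃ p : ℤ × ℤ, s.ctr = l9Pt (N.h m) p) ∧
    (∀ i i', i ≤ i' → i' ≤ P.len → (∀ k, i ≤ k → k ≤ i' → ‖P.v k - x‖ ≤ 2 * R) → N.r m ≤ ‖P.v i' - P.v i‖ → ∃ s ∈ pins m ε o P, i ≤ s.idx ∧ s.idx ≤ i')}).toReal)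
  /-- TR20 COVER with the tentacled obstacles (P10 = M8) -/
  cover : PvhbOrd (fun m ε => ((Pr ε).P {o | ¬ ∀ P ∈ rims o, ∀ s ∈ pins m ε o P, ∀ t ∈ pins m ε o P, s.idx < t.idx →
    (∀ k, s.idx ≤ k → k ≤ t.idx → ‖P.v k - x‖ ≤ 2 * R) → R / 3 ≤ ‖s.ctr - t.ctr‖ → ∃ π : Pat m, Fit m ε o P s t π}).toReal)
  /-- P17: the integrand `Z_π` of the free arc   (ANY function) -/
  Z : ∀ m : ℕ, ℝ → ℂ → Pat m → Ξ → ℝ≥0∞
  /-- **P12 STAB + P17 (b)** (deterministic; VERBATIM the field of `PvrpIn`) -/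
  stab : ∀ (a : ℂ) (m : ℕ) (ε : ℝ) (o : Ω), o ∈ Ok → ∀ P ∈ rims o, ∀ s ∈ pins m ε o P, ∀ t ∈ pins m ε o P, ∀ π : Pat m, Fit m ε o P s t π →
    ∀ i ∈ (K m ε s.ctr s.typ).I (cf o), (K m ε s.ctr s.typ).wt (cf o) i ≠ 0 →
    ∀ j ∈ (K m ε t.ctr t.typ).I ((K m ε s.ctr s.typ).mv (cf o) i), (K m ε t.ctr t.typ).wt ((K m ε s.ctr s.typ).mv (cf o) i) j ≠ 0 →
      (K m ε t.ctr t.typ).mv ((K m ε s.ctr s.typ).mv (cf o) i) j ∈ G m ε s.ctr s.typ → (K m ε t.ctr t.typ).mv ((K m ε s.ctr s.typ).mv (cf o) i) j ∈ G m ε t.ctr t.typ →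
      ‖pvbArcI N.𝔐 (N.h m) P (fun k => P.xQ k - a * P.xV k) s t +
        (kout0 m ε a t.ctr t.typ ((K m ε t.ctr t.typ).mv ((K m ε s.ctr s.typ).mv (cf o) i) j) + pvtSum (N.W m ε a) ((N.Γ m).dout (pat m π).tt) (pat m π).l +
          kin0 m ε a s.ctr s.typ ((K m ε t.ctr t.typ).mv ((K m ε s.ctr s.typ).mv (cf o) i) j))‖ₑ ^ 2 ≤ Z m ε a π ((K m ε t.ctr t.typ).mv ((K m ε s.ctr s.typ).mv (cf o) i) j)
  /-- the two candidates of a pattern are far apart: blindness -/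
  bl_G : ∀ m ε (π : Pat m), (K m ε (pat m π).zt (pat m π).tt).BlindS (G m ε (pat m π).zs (pat m π).ts)
  bl_kin : ∀ m ε a (π : Pat m), (K m ε (pat m π).zt (pat m π).tt).Blind (kin0 m ε a (pat m π).zs (pat m π).ts)
  bl_gam : ∀ m ε (π : Pat m), (K m ε (pat m π).zs (pat m π).ts).Blind ((K m ε (pat m π).zt (pat m π).tt).gam (G m ε (pat m π).zt (pat m π).tt))
  bl_av : ∀ m ε a (π : Pat m), (K m ε (pat m π).zs (pat m π).ts).Blind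
    ((K m ε (pat m π).zt (pat m π).tt).Av ((G m ε (pat m π).zt (pat m π).tt).indicator (kout0 m ε a (pat m π).zt (pat m π).tt)))
  /-- `C_prep = 1/p_*`, UNIFORM (a number of the menu) -/
  Cp : ℝ
  /-- **TR18.1 DOM**, one strip, ALL `F`   [`pvnz_K_dom1`] -/
  dom1 : ∀ m ε z t (F : Ξ → ℝ≥0∞),
    (Pr ε).E (fun o => (Hg m ε z t).indicator ((K m ε z t).Op F) (cf o)) ≤ ENNReal.ofReal Cp * (Pr ε).E (fun o => F (cf o))
  /-- **TR18.1 DOM**, the two strips of a pattern   [`pvnz_K_dom2`] -/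
  dom2 : ∀ m ε a (π : Pat m),
    (Pr ε).E (fun o => (Hg m ε (pat m π).zs (pat m π).ts ∩ Hg m ε (pat m π).zt (pat m π).tt).indicator
        ((K m ε (pat m π).zs (pat m π).ts).Op ((K m ε (pat m π).zt (pat m π).tt).Op (Z m ε a π))) (cf o))
      ≤ ENNReal.ofReal (Cp ^ 2) * (Pr ε).E (fun o => Z m ε a π (cf o))
  /-- **P17 (a)** = N1''/N1' = TR23 for region states   [`pvdm_main_up`] -/
  n1ν : ∀ (a : ℂ) (m : ℕ) (π : Pat m), Tendsto (fun ε => (Pr ε).E (fun o => Z m ε a π (cf o))) (𝓝[>] (0 : ℝ)) (𝓝 0)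
  /-- TR3' + TR2 + TR25 on `G` -/
  cyc1ν : ∀ (a : ℂ) (m : ℕ) (p : ℤ × ℤ) (t : τ), ‖l9Pt (N.h m) p - x‖ ≤ 2 * R → Tendsto (fun ε => (Pr ε).E (fun o => (G m ε (l9Pt (N.h m) p) t).indicator (fun ζ =>
    ‖kout0 m ε a (l9Pt (N.h m) p) t ζ + pvtSum (N.W m ε a) ((N.Γ m).dout t) ((N.Γ m).l1 t) + N.kin0 m ε a + ke0 m ε a (l9Pt (N.h m) p) t ζ‖ₑ ^ 2) (cf o))) (𝓝[>] (0 : ℝ)) (𝓝 0)
  Ce0 : ℝ
  /-- TR5 + I.BES + the deterministic masks `U_e` (FIT-IN) on `G` -/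
  thickν : ∀ (a : ℂ), ‖a‖ ≤ N.CA → ∀ (m : ℕ) (p : ℤ × ℤ) (t : τ), ‖l9Pt (N.h m) p - x‖ ≤ 2 * R → ∀ᶠ ε in 𝓝[>] (0 : ℝ),
    (Pr ε).E (fun o => (G m ε (l9Pt (N.h m) p) t).indicator (fun ζ => ‖ke0 m ε a (l9Pt (N.h m) p) t ζ‖ₑ ^ 2) (cf o)) ≤ ENNReal.ofReal (Ce0 * N.h m ^ 2)
  Cp0 : 0 ≤ Cp
  Ce00 : 0 ≤ Ce0

/-! ## 2. the roof -/

variable {τ : Type} {c : ℝ} {N : PvhbNum τ c} {Pr : ℝ → PvUp Ω} {rims : Ω → Set PvbRim} {x : ℂ} {R : ℝ} {Ξ ι : Type}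

/-- the candidate is usable: not F3, `K(·,G) ≥ 1/2` -/
def PvrpInU.U (L : PvrpInU N Pr rims x R Ξ ι) (m : ℕ) (ε : ℝ) (z : ℂ) (t : τ) : Set Ω :=
  {o | L.cf o ∈ L.Hg m ε z t ∧ 1 / 2 ≤ (L.K m ε z t).gam (L.G m ε z t) (L.cf o)}

/-- the potentials of road P: normalised averages, functions of the actual sample -/
noncomputable def PvrpInU.kout (L : PvrpInU N Pr rims x R Ξ ι) (m : ℕ) (ε : ℝ) (a z : ℂ) (t : τ) (o : Ω) : ℂ :=
  (L.K m ε z t).Nrm (L.G m ε z t) (L.kout0 m ε a z t) (L.cf o)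

noncomputable def PvrpInU.kin (L : PvrpInU N Pr rims x R Ξ ι) (m : ℕ) (ε : ℝ) (a z : ℂ) (t : τ) (o : Ω) : ℂ :=
  (L.K m ε z t).Nrm (L.G m ε z t) (L.kin0 m ε a z t) (L.cf o)

noncomputable def PvrpInU.ke (L : PvrpInU N Pr rims x R Ξ ι) (m : ℕ) (ε : ℝ) (a z : ℂ) (t : τ) (o : Ω) : ℂ :=
  (L.K m ε z t).Nrm (L.G m ε z t) (L.ke0 m ε a z t) (L.cf o)

/-- the doubly averaged integrand of a pattern, on the good geometries -/
noncomputable def PvrpInU.W (L : PvrpInU N Pr rims x R Ξ ι) (m : ℕ) (ε : ℝ) (a : ℂ) (π : L.Pat m) (o : Ω) : ℝ≥0∞ :=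
  (L.Hg m ε (L.pat m π).zs (L.pat m π).ts ∩ L.Hg m ε (L.pat m π).zt (L.pat m π).tt).indicator
    ((L.K m ε (L.pat m π).zs (L.pat m π).ts).Op ((L.K m ε (L.pat m π).zt (L.pat m π).tt).Op (L.Z m ε a π))) (L.cf o)

theorem pvru_eqns_cite : True := by
  have := @PvrpInU.U.eq_1; have := @PvrpInU.kout.eq_1; have := @PvrpInU.kin.eq_1; have := @PvrpInU.ke.eq_1; have := @PvrpInU.W.eq_1
  trivial

/-- **L2 TRANSFER**: the normalised average on `U` is dominated by the upper expectation on `G`;   ANY `ψ` -/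
theorem pvru_l2 (L : PvrpInU N Pr rims x R Ξ ι) (m : ℕ) (ε : ℝ) (z : ℂ) (t : τ) (ψ : Ξ → ℂ) :
    (Pr ε).E ((L.U m ε z t).indicator fun o => ‖(L.K m ε z t).Nrm (L.G m ε z t) ψ (L.cf o)‖ₑ ^ 2)
      ≤ ENNReal.ofReal (4 * L.Cp) * (Pr ε).E (fun o => (L.G m ε z t).indicator (fun ζ => ‖ψ ζ‖ₑ ^ 2) (L.cf o)) := by
  set F : Ξ → ℝ≥0∞ := (L.G m ε z t).indicator fun ζ => ‖ψ ζ‖ₑ ^ 2 with hF
  have h1 : (Pr ε).E ((L.U m ε z t).indicator fun o => ‖(L.K m ε z t).Nrm (L.G m ε z t) ψ (L.cf o)‖ₑ ^ 2)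
      ≤ (Pr ε).E (fun o => 4 * (L.Hg m ε z t).indicator ((L.K m ε z t).Op F) (L.cf o)) := by
    refine (Pr ε).mono fun o => ?_
    by_cases hU : o ∈ L.U m ε z t
    · obtain ⟨hH, hg⟩ := hU
      rw [Set.indicator_of_mem (show o ∈ L.U m ε z t from ⟨hH, hg⟩), Set.indicator_of_mem hH]
      exact pvrp_nrm_le _ hg ψ
    · rw [Set.indicator_of_notMem hU]
      exact zero_le
  refine h1.trans (((Pr ε).smul_le 4 _ (by norm_num)).trans ?_)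
  calc 4 * (Pr ε).E (fun o => (L.Hg m ε z t).indicator ((L.K m ε z t).Op F) (L.cf o))
      ≤ 4 * (ENNReal.ofReal L.Cp * (Pr ε).E (fun o => F (L.cf o))) := by
        gcongr
        exact L.dom1 m ε z t F
    _ = ENNReal.ofReal (4 * L.Cp) * (Pr ε).E (fun o => F (L.cf o)) := by
      rw [ENNReal.ofReal_mul (by norm_num), ← mul_assoc]
      norm_num

/-- **P17 (b), pointwise**: on `Ok` the error of a fitting arc is dominated by the doubly averaged integrand -/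
theorem pvru_arc (L : PvrpInU N Pr rims x R Ξ ι) (a : ℂ) (m : ℕ) (ε : ℝ) (π : L.Pat m) {o : Ω} (ho : o ∈ L.Ok) {P : PvbRim} (hP : P ∈ rims o)
    {s t : PvbPin τ} (hs : s ∈ L.pins m ε o P) (ht : t ∈ L.pins m ε o P) (hF : L.Fit m ε o P s t π) :
    ‖pvbArcI N.𝔐 (N.h m) P (fun k => P.xQ k - a * P.xV k) s t +
      (L.kout m ε a t.ctr t.typ o + pvtSum (N.W m ε a) ((N.Γ m).dout (L.pat m π).tt) (L.pat m π).l + L.kin m ε a s.ctr s.typ o)‖ₑ ^ 2 ≤ 16 * L.W m ε a π o := by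
  obtain ⟨hs1, hs2⟩ := L.fit_s m ε o P s t π hF
  obtain ⟨ht1, ht2⟩ := L.fit_t m ε o P s t π hF
  obtain ⟨hHs, hgs⟩ := L.pin_U m ε o P s hs
  obtain ⟨hHt, hgt⟩ := L.pin_U m ε o P t ht
  have hst := L.stab a m ε o ho P hP s hs t ht π hF
  unfold PvrpInU.kout PvrpInU.kin PvrpInU.W
  rw [← hs1, ← hs2, ← ht1, ← ht2, Set.indicator_of_mem (Set.mem_inter hHs hHt)]
  have hb1 := L.bl_G m ε π
  have hb2 := L.bl_kin m ε a π
  have hb3 := L.bl_gam m ε π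
  have hb4 := L.bl_av m ε a π
  rw [← hs1, ← hs2, ← ht1, ← ht2] at hb1 hb2 hb3 hb4
  have key := pvrp_point (pvbArcI N.𝔐 (N.h m) P (fun k => P.xQ k - a * P.xV k) s t + pvtSum (N.W m ε a) ((N.Γ m).dout t.typ) (L.pat m π).l)
    hb1 hb2 hb3 hb4 hgs hgt (Z := L.Z m ε a π) (fun i hi hi0 j hj hj0 h1 h2 => by
      have h3 := hst i hi hi0 j hj hj0 h1 h2
      rw [← ht2] at h3
      refine le_trans (le_of_eq ?_) h3
      congr 2
      ring)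
  refine le_trans (le_of_eq ?_) key
  congr 2
  ring

/-- **THE ROOF OF ROAD P OVER UPPER EXPECTATIONS** -/
theorem pvru_loc (L : PvrpInU N Pr rims x R Ξ ι) : Nonempty (PvhbLocU N Pr rims x R) := by
  refine ⟨{
    pins := L.pins
    U := L.U
    kout := L.kout
    kin := L.kin
    ke := L.ke
    Pat := L.Pat
    Pat_fin := L.Pat_fin
    pat := L.pat
    pat_ok := L.pat_ok
    Fit := fun m ε o P s t π => L.Fit m ε o P s t π ∧ o ∈ L.U m ε t.ctr t.typ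
    fit_s := fun m ε o P s t π h => L.fit_s m ε o P s t π h.1
    fit_t := fun m ε o P s t π h => L.fit_t m ε o P s t π h.1
    fit_U := fun m ε o P s t π h => h.2
    pinsOK := L.pinsOK
    cover := ?_
    n1 := ?_
    cyc1 := ?_
    Ce := 4 * L.Cp * L.Ce0
    thick := ?_ }⟩
  · -- cover
    refine L.cover.mono fun m ε => le_of_eq ?_
    congr 2
    ext o
    show (¬ _) ↔ (¬ _)
    rw [not_iff_not]
    constructor
    · intro h P hP s hs t ht h1 h2 h3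
      obtain ⟨π, hπ⟩ := h P hP s hs t ht h1 h2 h3
      exact ⟨π, hπ.1⟩
    · intro h P hP s hs t ht h1 h2 h3
      obtain ⟨π, hπ⟩ := h P hP s hs t ht h1 h2 h3
      exact ⟨π, hπ, L.pin_U m ε o P t ht⟩
  · -- n1
    intro a m π u hu
    have hc0 : ENNReal.ofReal (u ^ 2 / 16) ≠ 0 := by
      rw [Ne, ENNReal.ofReal_eq_zero, not_le]
      positivity
    have hbound : ∀ ε, (Pr ε).P {o | ∃ P ∈ rims o, ∃ s ∈ L.pins m ε o P, ∃ t ∈ L.pins m ε o P, (L.Fit m ε o P s t π ∧ o ∈ L.U m ε t.ctr t.typ) ∧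
        u < ‖pvbArcI N.𝔐 (N.h m) P (fun k => P.xQ k - a * P.xV k) s t +
          (L.kout m ε a t.ctr t.typ o + pvtSum (N.W m ε a) ((N.Γ m).dout (L.pat m π).tt) (L.pat m π).l + L.kin m ε a s.ctr s.typ o)‖}
        ≤ (ENNReal.ofReal (L.Cp ^ 2) * (Pr ε).E (fun o => L.Z m ε a π (L.cf o))) / ENNReal.ofReal (u ^ 2 / 16) := by
      intro ε
      have h1 : (Pr ε).P {o | ENNReal.ofReal (u ^ 2 / 16) ≤ L.W m ε a π o} ≤ (Pr ε).E (L.W m ε a π) / ENNReal.ofReal (u ^ 2 / 16) :=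
        (Pr ε).markov _ hc0 ENNReal.ofReal_ne_top
      have h2 : (Pr ε).E (L.W m ε a π) ≤ ENNReal.ofReal (L.Cp ^ 2) * (Pr ε).E (fun o => L.Z m ε a π (L.cf o)) := L.dom2 m ε a π
      refine le_trans ?_ (h1.trans (ENNReal.div_le_div_right h2 _))
      have h0 : (Pr ε).P (L.Okᶜ ∪ {o | ENNReal.ofReal (u ^ 2 / 16) ≤ L.W m ε a π o}) ≤ (Pr ε).P {o | ENNReal.ofReal (u ^ 2 / 16) ≤ L.W m ε a π o} := by
        refine ((Pr ε).P_union_le _ _).trans ?_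
        rw [L.Ok_ae ε, zero_add]
      refine le_trans ((Pr ε).P_mono ?_) h0
      rintro o ⟨P, hP, s, hs, t, ht, ⟨hF, -⟩, hlt⟩
      by_cases ho : o ∈ L.Ok
      · right
        have h3 := pvru_arc L a m ε π ho hP hs ht hF
        rw [pvrp_enorm_sq] at h3
        show ENNReal.ofReal (u ^ 2 / 16) ≤ L.W m ε a π o
        have h4 : ENNReal.ofReal (u ^ 2) ≤ 16 * L.W m ε a π o :=
          (ENNReal.ofReal_le_ofReal (pow_le_pow_left₀ hu.le hlt.le 2)).trans h3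
        have h5 : ENNReal.ofReal (u ^ 2 / 16) = ENNReal.ofReal (u ^ 2) / 16 := by
          rw [ENNReal.ofReal_div_of_pos (by norm_num)]
          norm_num
        rw [h5]
        refine ENNReal.div_le_of_le_mul ?_
        rwa [mul_comm]
      · exact Or.inl ho
    have hlim : Tendsto (fun ε => (ENNReal.ofReal (L.Cp ^ 2) * (Pr ε).E (fun o => L.Z m ε a π (L.cf o))) / ENNReal.ofReal (u ^ 2 / 16)) (𝓝[>] (0 : ℝ)) (𝓝 0) := by
      have h1 := ENNReal.Tendsto.const_mul (a := ENNReal.ofReal (L.Cp ^ 2)) (L.n1ν a m π) (Or.inr ENNReal.ofReal_ne_top)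
      rw [mul_zero] at h1
      have h2 := ENNReal.Tendsto.div_const h1 (Or.inr hc0)
      rwa [ENNReal.zero_div] at h2
    have hlim2 := tendsto_of_tendsto_of_tendsto_of_le_of_le tendsto_const_nhds hlim (fun ε => zero_le) hbound
    exact (ENNReal.tendsto_toReal ENNReal.zero_ne_top).comp hlim2
  · -- cyc1
    intro a m p t hp
    have hb : ∀ ε, (Pr ε).E ((L.U m ε (l9Pt (N.h m) p) t).indicator fun o =>
        ‖L.kout m ε a (l9Pt (N.h m) p) t o + pvtSum (N.W m ε a) ((N.Γ m).dout t) ((N.Γ m).l1 t) + N.kin0 m ε a + L.ke m ε a (l9Pt (N.h m) p) t o‖ₑ ^ 2)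
        ≤ ENNReal.ofReal (4 * L.Cp) * (Pr ε).E (fun o => (L.G m ε (l9Pt (N.h m) p) t).indicator (fun ζ =>
          ‖L.kout0 m ε a (l9Pt (N.h m) p) t ζ + pvtSum (N.W m ε a) ((N.Γ m).dout t) ((N.Γ m).l1 t) + N.kin0 m ε a + L.ke0 m ε a (l9Pt (N.h m) p) t ζ‖ₑ ^ 2) (L.cf o)) := by
      intro ε
      refine le_trans ((Pr ε).mono fun o => ?_) (pvru_l2 L m ε (l9Pt (N.h m) p) t
        (fun ζ => L.kout0 m ε a (l9Pt (N.h m) p) t ζ + pvtSum (N.W m ε a) ((N.Γ m).dout t) ((N.Γ m).l1 t) + N.kin0 m ε a + L.ke0 m ε a (l9Pt (N.h m) p) t ζ))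
      by_cases hU : o ∈ L.U m ε (l9Pt (N.h m) p) t
      · have hg0 : (L.K m ε (l9Pt (N.h m) p) t).gam (L.G m ε (l9Pt (N.h m) p) t) (L.cf o) ≠ 0 := by
          have := hU.2
          linarith
        rw [Set.indicator_of_mem hU, Set.indicator_of_mem hU, pvrp_nrm_add, pvrp_nrm_add, pvrp_nrm_add, pvrp_nrm_const _ hg0, pvrp_nrm_const _ hg0]
        exact le_rfl
      · rw [Set.indicator_of_notMem hU]
        exact zero_le
    have h1 := ENNReal.Tendsto.const_mul (a := ENNReal.ofReal (4 * L.Cp)) (L.cyc1ν a m p t hp) (Or.inr ENNReal.ofReal_ne_top)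
    rw [mul_zero] at h1
    exact tendsto_of_tendsto_of_tendsto_of_le_of_le tendsto_const_nhds h1 (fun ε => zero_le) hb
  · -- thick
    intro a ha m p t hp
    filter_upwards [L.thickν a ha m p t hp] with ε hε
    refine (pvru_l2 L m ε (l9Pt (N.h m) p) t (L.ke0 m ε a (l9Pt (N.h m) p) t)).trans ?_
    calc ENNReal.ofReal (4 * L.Cp) * (Pr ε).E (fun o => (L.G m ε (l9Pt (N.h m) p) t).indicator (fun ζ => ‖L.ke0 m ε a (l9Pt (N.h m) p) t ζ‖ₑ ^ 2) (L.cf o))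
        ≤ ENNReal.ofReal (4 * L.Cp) * ENNReal.ofReal (L.Ce0 * N.h m ^ 2) := by gcongr
      _ = ENNReal.ofReal (4 * L.Cp * L.Ce0 * N.h m ^ 2) := by
        rw [← ENNReal.ofReal_mul (mul_nonneg (by norm_num) L.Cp0)]
        congr 1
        ring

end rec

/-! ## 3. the sample space of the node: `PvUp.iter (pvGeo ε) pvCol` on `PvGeoT × PvColT` -/

section node

open Claims.C0465

/-- field `Ok_ae`: general position -/
theorem pvru_ok (ε : ℝ) : (PvUp.iter (pvGeo ε) pvCol).P {q : PvGeoT × PvColT | DelgpOk (pvMerge q)}ᶜ = 0 := by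
  rw [pvup_iter_P]
  refine le_antisymm ?_ zero_le
  have h0 : pvUpInt (pvGeo ε) (fun _ => 0) = 0 := by
    rw [pvup_int_of_meas _ measurable_const]
    simp
  rw [← h0]
  refine pvnz_int_mono_ae (pvGeo ε) ?_
  filter_upwards [pvqu_ok_ae ε] with g hg
  have e : {k : PvColT | (g, k) ∈ {q : PvGeoT × PvColT | DelgpOk (pvMerge q)}ᶜ} = ∅ := by
    ext k
    simp only [mem_ofPred_eq, mem_compl_iff, mem_empty_iff_false, iff_false, not_not]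
    exact hg.ok k
  rw [e, measure_empty]

/-- an almost sure property of the sample holds off a set of upper probability `0` -/
theorem pvru_P_of_ae (ε : ℝ) {A : Set PVSample} (hA : ∀ᵐ ω ∂(pvLaw ε), ω ∈ A) : (PvUp.iter (pvGeo ε) pvCol).P {q : PvGeoT × PvColT | pvMerge q ∈ A}ᶜ = 0 := by
  refine le_antisymm ((pvup_iter_P_le (pvGeo ε) pvCol _).trans (le_of_eq ?_)) zero_le
  have h1 : ∀ᵐ q ∂((pvGeo ε).prod pvCol), pvMerge q ∈ A := by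
    rw [pvqu_law] at hA
    exact ae_of_ae_map measurable_pvMerge.aemeasurable hA
  exact ae_iff.1 h1

/-- **a `ν`-level bound with an integrand of the stable class of 263 gives the U-form** -/
theorem pvru_E_le_law (ε : ℝ) {F : Conf PvPt → ℝ≥0∞} (hF : PvpMs F) :
    (PvUp.iter (pvGeo ε) pvCol).E (fun q => F (pvConf (pvMerge q))) ≤ ∫⁻ ω, F (pvConf ω) ∂(pvLaw ε) := by
  rw [hF.lintegral_eq ε]
  obtain ⟨Φ, hΦ, hE⟩ := hF
  have hw : Measurable fun g : PvGeoT => ∫⁻ c, Φ (pvMerge (g, c)) ∂pvCol := (hΦ.comp measurable_pvMerge).lintegral_prod_right'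
  have e : ∫⁻ g, ∫⁻ c, F (pvConf (pvMerge (g, c))) ∂pvCol ∂(pvGeo ε) = ∫⁻ g, ∫⁻ c, Φ (pvMerge (g, c)) ∂pvCol ∂(pvGeo ε) := by
    refine lintegral_congr_ae ?_
    filter_upwards [pvqu_ok_ae ε] with g hg
    simp only [hE _ (hg.ok _)]
  rw [e]
  refine pvnz_iter_quenched_ae (pvGeo ε) pvCol hw ?_
  filter_upwards [pvqu_ok_ae ε] with g hg
  have hm : Measurable fun c : PvColT => Φ (pvMerge (g, c)) := hΦ.comp (measurable_pvMerge.comp (measurable_const.prodMk measurable_id))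
  have e2 : (fun k : PvColT => F (pvConf (pvMerge (g, k)))) = fun c => Φ (pvMerge (g, c)) := by
    funext c
    rw [hE _ (hg.ok c)]
  rw [e2, pvup_int_of_meas pvCol hm]

/-- the integrand of the free arc attached to the data of 159 -/
noncomputable def pvruZ {ι : Type*} (S : PvdmSys ι) (ξ : Conf PvPt) : ℝ≥0∞ := ∑' i, (S.A i).indicator (fun ω => ‖S.X i ω + S.yh i ω‖ₑ ^ 2) ξ

theorem pvru_eqns_cite2 : True := by
  have := @pvruZ.eq_1.{0}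
  trivial

/-- `Z_π` dominates the square of every present datum -/
theorem pvru_le_Z {ι : Type*} (S : PvdmSys ι) {ξ : Conf PvPt} {i : ι} (hi : ξ ∈ S.A i) : ‖S.X i ξ + S.yh i ξ‖ₑ ^ 2 ≤ pvruZ S ξ := by
  unfold pvruZ
  refine le_trans (le_of_eq ?_) (ENNReal.le_tsum i)
  rw [indicator_of_mem hi]

/-- **field `n1ν` from TR23 of 159 + the tail**:   `q_W` bounded below, `E[H] → 0` (`H = D_c Θ`, I.TAIL) -/
theorem pvru_n1 {ι : Type*} (S : ℝ → PvdmSys ι) (hS : ∀ᶠ ε in 𝓝[>] (0 : ℝ), (S ε).Hyp ε) {q0 : ℝ≥0∞} (hq0 : q0 ≠ 0) (hq1 : q0 ≠ ∞)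
    (hq : ∀ᶠ ε in 𝓝[>] (0 : ℝ), q0 ≤ (S ε).q) (hH : Tendsto (fun ε => ∫⁻ ω, (S ε).H ω ∂pvP ε) (𝓝[>] (0 : ℝ)) (𝓝 0)) :
    Tendsto (fun ε => (PvUp.iter (pvGeo ε) pvCol).E (fun q => pvruZ (S ε) (pvConf (pvMerge q)))) (𝓝[>] (0 : ℝ)) (𝓝 0) := by
  have hlim : Tendsto (fun ε => (∫⁻ ω, (S ε).H ω ∂pvP ε) / q0) (𝓝[>] (0 : ℝ)) (𝓝 0) := by
    have h2 := ENNReal.Tendsto.div_const hH (Or.inr hq0)
    rwa [ENNReal.zero_div] at h2
  refine tendsto_of_tendsto_of_tendsto_of_le_of_le' tendsto_const_nhds hlim (Eventually.of_forall fun ε => zero_le) ?_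
  filter_upwards [hS, hq] with ε h1 h2
  rw [ENNReal.le_div_iff_mul_le (Or.inl hq0) (Or.inl hq1), mul_comm]
  exact (mul_le_mul_left h2 _).trans (pvdm_main_up h1)

end node

/-! ## 4. THE Q-FORM (ruling P4 (2) of 273, H2 of 73, ruling 12 of 234): `a := 0` everywhere, `V` through the cut point -/

section qform

variable {Ω : Type}

/-- **THE BASE OF ROAD P, Q-FORM**: the data (operator, usable states, potentials of the STATE, pins, patterns) and the ONE analytic fact `dom1`.      Every field of `PvtyLocQ` is a SEPARATE lemma over this base (`pvru_q_n1`, `pvru_q_cyc1`,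
`pvru_q_thick`, `pvru_q_tel`, `pvru_q_cVL2`, `pvru_q_cover`), at the explicit potentials `B.kout B.kin B.ke B.cV` (normalised averages). -/
structure PvrpBaseQ {τ : Type} {c : ℝ} (N : PvtyNumQ τ c) (Pr : ℝ → PvUp Ω) (Ξ ι : Type) where
  /-- the configuration of a sample -/
  cf : Ω → Ξ
  /-- the samples in general position (the deterministic fields `stab stabV telP` are asked on them only) -/
  Ok : Set Ω
  Ok_ae : ∀ ε, (Pr ε).P Okᶜ = 0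
  /-- P6: the preparation operator of the candidate   [`pvprK`] -/
  K : ℕ → ℝ → ℂ → τ → PvrpK Ξ ι
  /-- P5: the usable states `Gq_τ` -/
  G : ℕ → ℝ → ℂ → τ → Set Ξ
  /-- the geometries with `P^η(A_κ) ≥ p_*` (not F3) -/
  Hg : ℕ → ℝ → ℂ → τ → Set Ξ
  /-- `κ_out`, `κ_in`, mean of the thick short link for the field `Q`: functions of the STATE;   arguments `m ε z t ξ` -/
  kout0 : ℕ → ℝ → ℂ → τ → Ξ → ℂ
  kin0 : ℕ → ℝ → ℂ → τ → Ξ → ℂ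
  ke0 : ℕ → ℝ → ℂ → τ → Ξ → ℂ
  /-- the CUT POINT: a function of the STATE   [263, `Tr/CutP.lean`] -/
  cV0 : ℕ → ℝ → ℂ → τ → Ξ → ℂ
  /-- P7: the qualified pins -/
  pins : ℕ → ℝ → Ω → PvbRim → Set (PvbPin τ)
  /-- part of P7: not F3, `gam ≥ 1/2` -/
  pin_U : ∀ m ε o P, ∀ s ∈ pins m ε o P, cf o ∈ Hg m ε s.ctr s.typ ∧ 1 / 2 ≤ (K m ε s.ctr s.typ).gam (G m ε s.ctr s.typ) (cf o)
  Pat : ℕ → Type
  Pat_fin : ∀ m, Finite (Pat m)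
  pat : ∀ m, Pat m → PvtsPat τ
  pat_ok : ∀ m π, (N.Γ m).Ok (pat m π)
  Fit : ∀ m : ℕ, ℝ → Ω → PvbRim → PvbPin τ → PvbPin τ → Pat m → Prop
  fit_s : ∀ m ε o P s t π, Fit m ε o P s t π → s.ctr = (pat m π).zs ∧ s.typ = (pat m π).ts
  fit_t : ∀ m ε o P s t π, Fit m ε o P s t π → t.ctr = (pat m π).zt ∧ t.typ = (pat m π).tt
  /-- `C_prep = 1/p_*`, UNIFORM (a number of the menu) -/
  Cp : ℝ
  Cp0 : 0 ≤ Cp
  /-- **TR18.1 DOM**, one strip, ALL `F`   [`pvnz_K_dom1`] -/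
  dom1 : ∀ m ε z t (F : Ξ → ℝ≥0∞),
    (Pr ε).E (fun o => (Hg m ε z t).indicator ((K m ε z t).Op F) (cf o)) ≤ ENNReal.ofReal Cp * (Pr ε).E (fun o => F (cf o))

variable {τ : Type} {c : ℝ} {N : PvtyNumQ τ c} {Pr : ℝ → PvUp Ω} {Ξ ι : Type}

/-- the candidate is usable: not F3, `K(·,G) ≥ 1/2` -/
def PvrpBaseQ.U (B : PvrpBaseQ N Pr Ξ ι) (m : ℕ) (ε : ℝ) (z : ℂ) (t : τ) : Set Ω :=
  {o | B.cf o ∈ B.Hg m ε z t ∧ 1 / 2 ≤ (B.K m ε z t).gam (B.G m ε z t) (B.cf o)}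

/-- the normalised average of a function of the state, read on the actual sample -/
noncomputable def PvrpBaseQ.pot (B : PvrpBaseQ N Pr Ξ ι) (ψ : ℕ → ℝ → ℂ → τ → Ξ → ℂ) (m : ℕ) (ε : ℝ) (z : ℂ) (t : τ) (o : Ω) : ℂ :=
  (B.K m ε z t).Nrm (B.G m ε z t) (ψ m ε z t) (B.cf o)

/-- the potentials of road P -/
noncomputable def PvrpBaseQ.kout (B : PvrpBaseQ N Pr Ξ ι) : ℕ → ℝ → ℂ → τ → Ω → ℂ := B.pot B.kout0

noncomputable def PvrpBaseQ.kin (B : PvrpBaseQ N Pr Ξ ι) : ℕ → ℝ → ℂ → τ → Ω → ℂ := B.pot B.kin0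

noncomputable def PvrpBaseQ.ke (B : PvrpBaseQ N Pr Ξ ι) : ℕ → ℝ → ℂ → τ → Ω → ℂ := B.pot B.ke0

/-- the cut point of the candidate: THE SAME normalised average -/
noncomputable def PvrpBaseQ.cV (B : PvrpBaseQ N Pr Ξ ι) : ℕ → ℝ → ℂ → τ → Ω → ℂ := B.pot B.cV0

/-- the doubly averaged integrand of a pattern, on the good geometries -/
noncomputable def PvrpBaseQ.W (B : PvrpBaseQ N Pr Ξ ι) (m : ℕ) (ε : ℝ) (π : B.Pat m) (Z : Ξ → ℝ≥0∞) (o : Ω) : ℝ≥0∞ :=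
  (B.Hg m ε (B.pat m π).zs (B.pat m π).ts ∩ B.Hg m ε (B.pat m π).zt (B.pat m π).tt).indicator
    ((B.K m ε (B.pat m π).zs (B.pat m π).ts).Op ((B.K m ε (B.pat m π).zt (B.pat m π).tt).Op Z)) (B.cf o)

/-- the patterns fit AND the end candidate is usable (field `Fit` of `PvtyLocQ`) -/
def PvrpBaseQ.FitU (B : PvrpBaseQ N Pr Ξ ι) (m : ℕ) (ε : ℝ) (o : Ω) (P : PvbRim) (s t : PvbPin τ) (π : B.Pat m) : Prop :=
  B.Fit m ε o P s t π ∧ o ∈ B.U m ε t.ctr t.typ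

theorem pvru_eqns_cite3 : True := by
  have := @PvrpBaseQ.U.eq_1; have := @PvrpBaseQ.pot.eq_1; have := @PvrpBaseQ.kout.eq_1; have := @PvrpBaseQ.kin.eq_1; have := @PvrpBaseQ.ke.eq_1
  have := @PvrpBaseQ.cV.eq_1; have := @PvrpBaseQ.W.eq_1; have := @PvrpBaseQ.FitU.eq_1
  trivial

/-- **ONE VALUE**: if all the moves of non zero weight which land in `G` give the same value of `ψ`, the normalised average is this value -/
theorem pvru_nrm_eq (K : PvrpK Ξ ι) {G : Set Ξ} {ξ : Ξ} (hg : K.gam G ξ ≠ 0) {ψ : Ξ → ℂ} {v : ℂ}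
    (h : ∀ i ∈ K.I ξ, K.wt ξ i ≠ 0 → K.mv ξ i ∈ G → ψ (K.mv ξ i) = v) : K.Nrm G ψ ξ = v := by
  have e : K.Av (G.indicator ψ) ξ = K.Av (G.indicator fun _ => v) ξ := by
    unfold PvrpK.Av
    refine Finset.sum_congr rfl fun i hi => ?_
    by_cases h0 : K.wt ξ i = 0
    · rw [h0]
      simp
    · by_cases hG : K.mv ξ i ∈ G
      · rw [Set.indicator_of_mem hG, Set.indicator_of_mem hG, h i hi h0 hG]
      · rw [Set.indicator_of_notMem hG, Set.indicator_of_notMem hG]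
  have e2 : K.Nrm G ψ ξ = K.Nrm G (fun _ => v) ξ := by
    unfold PvrpK.Nrm
    rw [e]
  rw [e2, pvrp_nrm_const _ hg]

/-- **L2 TRANSFER** over the base;   ANY `ψ` -/
theorem pvru_q_l2 (B : PvrpBaseQ N Pr Ξ ι) (m : ℕ) (ε : ℝ) (z : ℂ) (t : τ) (ψ : Ξ → ℂ) :
    (Pr ε).E ((B.U m ε z t).indicator fun o => ‖(B.K m ε z t).Nrm (B.G m ε z t) ψ (B.cf o)‖ₑ ^ 2)
      ≤ ENNReal.ofReal (4 * B.Cp) * (Pr ε).E (fun o => (B.G m ε z t).indicator (fun ζ => ‖ψ ζ‖ₑ ^ 2) (B.cf o)) := by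
  set F : Ξ → ℝ≥0∞ := (B.G m ε z t).indicator fun ζ => ‖ψ ζ‖ₑ ^ 2 with hF
  have h1 : (Pr ε).E ((B.U m ε z t).indicator fun o => ‖(B.K m ε z t).Nrm (B.G m ε z t) ψ (B.cf o)‖ₑ ^ 2)
      ≤ (Pr ε).E (fun o => 4 * (B.Hg m ε z t).indicator ((B.K m ε z t).Op F) (B.cf o)) := by
    refine (Pr ε).mono fun o => ?_
    by_cases hU : o ∈ B.U m ε z t
    · obtain ⟨hH, hg⟩ := hU
      rw [Set.indicator_of_mem (show o ∈ B.U m ε z t from ⟨hH, hg⟩), Set.indicator_of_mem hH]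
      exact pvrp_nrm_le _ hg ψ
    · rw [Set.indicator_of_notMem hU]
      exact zero_le
  refine h1.trans (((Pr ε).smul_le 4 _ (by norm_num)).trans ?_)
  calc 4 * (Pr ε).E (fun o => (B.Hg m ε z t).indicator ((B.K m ε z t).Op F) (B.cf o))
      ≤ 4 * (ENNReal.ofReal B.Cp * (Pr ε).E (fun o => F (B.cf o))) := by
        gcongr
        exact B.dom1 m ε z t F
    _ = ENNReal.ofReal (4 * B.Cp) * (Pr ε).E (fun o => F (B.cf o)) := by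
      rw [ENNReal.ofReal_mul (by norm_num), ← mul_assoc]
      norm_num

/-- an `O(h²)` bound on `G` passes to the normalised average on `U` -/
theorem pvru_q_l2_le (B : PvrpBaseQ N Pr Ξ ι) (m : ℕ) (ε : ℝ) (z : ℂ) (t : τ) (ψ : Ξ → ℂ) {C : ℝ}
    (h : (Pr ε).E (fun o => (B.G m ε z t).indicator (fun ζ => ‖ψ ζ‖ₑ ^ 2) (B.cf o)) ≤ ENNReal.ofReal (C * N.h m ^ 2)) :
    (Pr ε).E ((B.U m ε z t).indicator fun o => ‖(B.K m ε z t).Nrm (B.G m ε z t) ψ (B.cf o)‖ₑ ^ 2) ≤ ENNReal.ofReal (4 * B.Cp * C * N.h m ^ 2) := by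
  refine (pvru_q_l2 B m ε z t ψ).trans ?_
  calc ENNReal.ofReal (4 * B.Cp) * (Pr ε).E (fun o => (B.G m ε z t).indicator (fun ζ => ‖ψ ζ‖ₑ ^ 2) (B.cf o))
      ≤ ENNReal.ofReal (4 * B.Cp) * ENNReal.ofReal (C * N.h m ^ 2) := by gcongr
    _ = ENNReal.ofReal (4 * B.Cp * C * N.h m ^ 2) := by
      rw [← ENNReal.ofReal_mul (mul_nonneg (by norm_num) B.Cp0)]
      congr 1
      ring

/-- the hypothesis **P12 STAB + P17 (b)** of one pattern at one mesh (deterministic) -/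
def PvrpBaseQ.Stab (B : PvrpBaseQ N Pr Ξ ι) (rims : Ω → Set PvbRim) (m : ℕ) (ε : ℝ) (π : B.Pat m) (Z : Ξ → ℝ≥0∞) : Prop :=
  ∀ o ∈ B.Ok, ∀ P ∈ rims o, ∀ s ∈ B.pins m ε o P, ∀ t ∈ B.pins m ε o P, B.Fit m ε o P s t π →
    ∀ i ∈ (B.K m ε s.ctr s.typ).I (B.cf o), (B.K m ε s.ctr s.typ).wt (B.cf o) i ≠ 0 →
    ∀ j ∈ (B.K m ε t.ctr t.typ).I ((B.K m ε s.ctr s.typ).mv (B.cf o) i), (B.K m ε t.ctr t.typ).wt ((B.K m ε s.ctr s.typ).mv (B.cf o) i) j ≠ 0 →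
      (B.K m ε t.ctr t.typ).mv ((B.K m ε s.ctr s.typ).mv (B.cf o) i) j ∈ B.G m ε s.ctr s.typ → (B.K m ε t.ctr t.typ).mv ((B.K m ε s.ctr s.typ).mv (B.cf o) i) j ∈ B.G m ε t.ctr t.typ →
      ‖pvbArcI N.𝔐 (N.h m) P P.xQ s t +
        (B.kout0 m ε t.ctr t.typ ((B.K m ε t.ctr t.typ).mv ((B.K m ε s.ctr s.typ).mv (B.cf o) i) j) + pvtSum (N.W m ε) ((N.Γ m).dout (B.pat m π).tt) (B.pat m π).l +
          B.kin0 m ε s.ctr s.typ ((B.K m ε t.ctr t.typ).mv ((B.K m ε s.ctr s.typ).mv (B.cf o) i) j))‖ₑ ^ 2 ≤ Z ((B.K m ε t.ctr t.typ).mv ((B.K m ε s.ctr s.typ).mv (B.cf o) i) j)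

/-- the two candidates of a pattern are far apart: the four blindness facts -/
structure PvrpBaseQ.Bl (B : PvrpBaseQ N Pr Ξ ι) (m : ℕ) (ε : ℝ) (π : B.Pat m) : Prop where
  bl_G : (B.K m ε (B.pat m π).zt (B.pat m π).tt).BlindS (B.G m ε (B.pat m π).zs (B.pat m π).ts)
  bl_kin : (B.K m ε (B.pat m π).zt (B.pat m π).tt).Blind (B.kin0 m ε (B.pat m π).zs (B.pat m π).ts)
  bl_gam : (B.K m ε (B.pat m π).zs (B.pat m π).ts).Blind ((B.K m ε (B.pat m π).zt (B.pat m π).tt).gam (B.G m ε (B.pat m π).zt (B.pat m π).tt))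
  bl_av : (B.K m ε (B.pat m π).zs (B.pat m π).ts).Blind
    ((B.K m ε (B.pat m π).zt (B.pat m π).tt).Av ((B.G m ε (B.pat m π).zt (B.pat m π).tt).indicator (B.kout0 m ε (B.pat m π).zt (B.pat m π).tt)))

theorem pvru_eqns_cite4 : True := by
  have := @PvrpBaseQ.Stab.eq_1
  trivial

/-- **P17 (b), pointwise**: on `Ok` the error of a fitting arc is dominated by the doubly averaged integrand -/
theorem pvru_q_arc (B : PvrpBaseQ N Pr Ξ ι) {rims : Ω → Set PvbRim} {m : ℕ} {ε : ℝ} {π : B.Pat m} {Z : Ξ → ℝ≥0∞} (hst : B.Stab rims m ε π Z) (hbl : B.Bl m ε π)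
    {o : Ω} (ho : o ∈ B.Ok) {P : PvbRim} (hP : P ∈ rims o) {s t : PvbPin τ} (hs : s ∈ B.pins m ε o P) (ht : t ∈ B.pins m ε o P) (hF : B.Fit m ε o P s t π) :
    ‖pvbArcI N.𝔐 (N.h m) P P.xQ s t +
      (B.kout m ε t.ctr t.typ o + pvtSum (N.W m ε) ((N.Γ m).dout (B.pat m π).tt) (B.pat m π).l + B.kin m ε s.ctr s.typ o)‖ₑ ^ 2 ≤ 16 * B.W m ε π Z o := by
  obtain ⟨hs1, hs2⟩ := B.fit_s m ε o P s t π hF
  obtain ⟨ht1, ht2⟩ := B.fit_t m ε o P s t π hF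
  obtain ⟨hHs, hgs⟩ := B.pin_U m ε o P s hs
  obtain ⟨hHt, hgt⟩ := B.pin_U m ε o P t ht
  have hst := hst o ho P hP s hs t ht hF
  unfold PvrpBaseQ.kout PvrpBaseQ.kin PvrpBaseQ.pot PvrpBaseQ.W
  rw [← hs1, ← hs2, ← ht1, ← ht2, Set.indicator_of_mem (Set.mem_inter hHs hHt)]
  have hb1 := hbl.bl_G
  have hb2 := hbl.bl_kin
  have hb3 := hbl.bl_gam
  have hb4 := hbl.bl_av
  rw [← hs1, ← hs2, ← ht1, ← ht2] at hb1 hb2 hb3 hb4
  have key := pvrp_point (pvbArcI N.𝔐 (N.h m) P P.xQ s t + pvtSum (N.W m ε) ((N.Γ m).dout t.typ) (B.pat m π).l)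
    hb1 hb2 hb3 hb4 hgs hgt (Z := Z) (fun i hi hi0 j hj hj0 h1 h2 => by
      have h3 := hst i hi hi0 j hj hj0 h1 h2
      rw [← ht2] at h3
      refine le_trans (le_of_eq ?_) h3
      congr 2
      ring)
  refine le_trans (le_of_eq ?_) key
  congr 2
  ring

/-- the event of field `n1` of `PvtyLocQ` at the explicit potentials -/
def PvrpBaseQ.BadN1 (B : PvrpBaseQ N Pr Ξ ι) (rims : Ω → Set PvbRim) (m : ℕ) (π : B.Pat m) (u ε : ℝ) : Set Ω :=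
  {o | ∃ P ∈ rims o, ∃ s ∈ B.pins m ε o P, ∃ t ∈ B.pins m ε o P, B.FitU m ε o P s t π ∧
    u < ‖pvbArcI N.𝔐 (N.h m) P P.xQ s t +
      (B.kout m ε t.ctr t.typ o + pvtSum (N.W m ε) ((N.Γ m).dout (B.pat m π).tt) (B.pat m π).l + B.kin m ε s.ctr s.typ o)‖}

/-- **field `n1` at one mesh**: Chebyshev + DOM of the two strips -/
theorem pvru_q_n1_le (B : PvrpBaseQ N Pr Ξ ι) {rims : Ω → Set PvbRim} {m : ℕ} {ε : ℝ} {π : B.Pat m} {Z : Ξ → ℝ≥0∞} (hst : B.Stab rims m ε π Z) (hbl : B.Bl m ε π)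
    (dom2 : (Pr ε).E (B.W m ε π Z) ≤ ENNReal.ofReal (B.Cp ^ 2) * (Pr ε).E (fun o => Z (B.cf o))) {u : ℝ} (hu : 0 < u) :
    (Pr ε).P (B.BadN1 rims m π u ε) ≤ (ENNReal.ofReal (B.Cp ^ 2) * (Pr ε).E (fun o => Z (B.cf o))) / ENNReal.ofReal (u ^ 2 / 16) := by
  have hc0 : ENNReal.ofReal (u ^ 2 / 16) ≠ 0 := by
    rw [Ne, ENNReal.ofReal_eq_zero, not_le]
    positivity
  have h1 : (Pr ε).P {o | ENNReal.ofReal (u ^ 2 / 16) ≤ B.W m ε π Z o} ≤ (Pr ε).E (B.W m ε π Z) / ENNReal.ofReal (u ^ 2 / 16) :=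
    (Pr ε).markov _ hc0 ENNReal.ofReal_ne_top
  refine le_trans ?_ (h1.trans (ENNReal.div_le_div_right dom2 _))
  have h0 : (Pr ε).P (B.Okᶜ ∪ {o | ENNReal.ofReal (u ^ 2 / 16) ≤ B.W m ε π Z o}) ≤ (Pr ε).P {o | ENNReal.ofReal (u ^ 2 / 16) ≤ B.W m ε π Z o} := by
    refine ((Pr ε).P_union_le _ _).trans ?_
    rw [B.Ok_ae ε, zero_add]
  refine le_trans ((Pr ε).P_mono ?_) h0
  rintro o ⟨P, hP, s, hs, t, ht, ⟨hF, -⟩, hlt⟩
  by_cases ho : o ∈ B.Ok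
  · right
    have h3 := pvru_q_arc B hst hbl ho hP hs ht hF
    rw [pvrp_enorm_sq] at h3
    show ENNReal.ofReal (u ^ 2 / 16) ≤ B.W m ε π Z o
    have h4 : ENNReal.ofReal (u ^ 2) ≤ 16 * B.W m ε π Z o :=
      (ENNReal.ofReal_le_ofReal (pow_le_pow_left₀ hu.le hlt.le 2)).trans h3
    have h5 : ENNReal.ofReal (u ^ 2 / 16) = ENNReal.ofReal (u ^ 2) / 16 := by
      rw [ENNReal.ofReal_div_of_pos (by norm_num)]
      norm_num
    rw [h5]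
    refine ENNReal.div_le_of_le_mul ?_
    rwa [mul_comm]
  · exact Or.inl ho

/-- **FIELD `n1` of `PvtyLocQ`, SEPARATELY** (all hypotheses asked for small `ε` only) -/
theorem pvru_q_n1 (B : PvrpBaseQ N Pr Ξ ι) {rims : Ω → Set PvbRim} {m : ℕ} {π : B.Pat m} {Z : ℝ → Ξ → ℝ≥0∞}
    (hst : ∀ᶠ ε in 𝓝[>] (0 : ℝ), B.Stab rims m ε π (Z ε)) (hbl : ∀ᶠ ε in 𝓝[>] (0 : ℝ), B.Bl m ε π)
    (dom2 : ∀ᶠ ε in 𝓝[>] (0 : ℝ), (Pr ε).E (B.W m ε π (Z ε)) ≤ ENNReal.ofReal (B.Cp ^ 2) * (Pr ε).E (fun o => Z ε (B.cf o)))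
    (n1ν : Tendsto (fun ε => (Pr ε).E (fun o => Z ε (B.cf o))) (𝓝[>] (0 : ℝ)) (𝓝 0)) {u : ℝ} (hu : 0 < u) :
    Tendsto (fun ε => ((Pr ε).P (B.BadN1 rims m π u ε)).toReal) (𝓝[>] (0 : ℝ)) (𝓝 0) := by
  have hc0 : ENNReal.ofReal (u ^ 2 / 16) ≠ 0 := by
    rw [Ne, ENNReal.ofReal_eq_zero, not_le]
    positivity
  have hlim : Tendsto (fun ε => (ENNReal.ofReal (B.Cp ^ 2) * (Pr ε).E (fun o => Z ε (B.cf o))) / ENNReal.ofReal (u ^ 2 / 16)) (𝓝[>] (0 : ℝ)) (𝓝 0) := by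
    have h1 := ENNReal.Tendsto.const_mul (a := ENNReal.ofReal (B.Cp ^ 2)) n1ν (Or.inr ENNReal.ofReal_ne_top)
    rw [mul_zero] at h1
    have h2 := ENNReal.Tendsto.div_const h1 (Or.inr hc0)
    rwa [ENNReal.zero_div] at h2
  have hlim2 : Tendsto (fun ε => (Pr ε).P (B.BadN1 rims m π u ε)) (𝓝[>] (0 : ℝ)) (𝓝 0) := by
    refine tendsto_of_tendsto_of_tendsto_of_le_of_le' tendsto_const_nhds hlim (Eventually.of_forall fun ε => zero_le) ?_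
    filter_upwards [hst, hbl, dom2] with ε h1 h2 h3
    exact pvru_q_n1_le B h1 h2 h3 hu
  exact (ENNReal.tendsto_toReal ENNReal.zero_ne_top).comp hlim2

/-- **FIELD `cyc1` of `PvtyLocQ`, SEPARATELY** -/
theorem pvru_q_cyc1 (B : PvrpBaseQ N Pr Ξ ι) (m : ℕ) (z : ℂ) (t : τ)
    (cyc1ν : Tendsto (fun ε => (Pr ε).E (fun o => (B.G m ε z t).indicator (fun ζ =>
      ‖B.kout0 m ε z t ζ + pvtSum (N.W m ε) ((N.Γ m).dout t) ((N.Γ m).l1 t) + N.kin0 m ε + B.ke0 m ε z t ζ‖ₑ ^ 2) (B.cf o))) (𝓝[>] (0 : ℝ)) (𝓝 0)) :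
    Tendsto (fun ε => (Pr ε).E ((B.U m ε z t).indicator fun o =>
      ‖B.kout m ε z t o + pvtSum (N.W m ε) ((N.Γ m).dout t) ((N.Γ m).l1 t) + N.kin0 m ε + B.ke m ε z t o‖ₑ ^ 2)) (𝓝[>] (0 : ℝ)) (𝓝 0) := by
  have hb : ∀ ε, (Pr ε).E ((B.U m ε z t).indicator fun o =>
      ‖B.kout m ε z t o + pvtSum (N.W m ε) ((N.Γ m).dout t) ((N.Γ m).l1 t) + N.kin0 m ε + B.ke m ε z t o‖ₑ ^ 2)
      ≤ ENNReal.ofReal (4 * B.Cp) * (Pr ε).E (fun o => (B.G m ε z t).indicator (fun ζ =>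
        ‖B.kout0 m ε z t ζ + pvtSum (N.W m ε) ((N.Γ m).dout t) ((N.Γ m).l1 t) + N.kin0 m ε + B.ke0 m ε z t ζ‖ₑ ^ 2) (B.cf o)) := by
    intro ε
    refine le_trans ((Pr ε).mono fun o => ?_) (pvru_q_l2 B m ε z t
      (fun ζ => B.kout0 m ε z t ζ + pvtSum (N.W m ε) ((N.Γ m).dout t) ((N.Γ m).l1 t) + N.kin0 m ε + B.ke0 m ε z t ζ))
    by_cases hU : o ∈ B.U m ε z t
    · have hg0 : (B.K m ε z t).gam (B.G m ε z t) (B.cf o) ≠ 0 := by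
        have := hU.2
        linarith
      rw [Set.indicator_of_mem hU, Set.indicator_of_mem hU, pvrp_nrm_add, pvrp_nrm_add, pvrp_nrm_add, pvrp_nrm_const _ hg0, pvrp_nrm_const _ hg0]
      exact le_rfl
    · rw [Set.indicator_of_notMem hU]
      exact zero_le
  have h1 := ENNReal.Tendsto.const_mul (a := ENNReal.ofReal (4 * B.Cp)) cyc1ν (Or.inr ENNReal.ofReal_ne_top)
  rw [mul_zero] at h1
  exact tendsto_of_tendsto_of_tendsto_of_le_of_le tendsto_const_nhds h1 (fun ε => zero_le) hb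

/-- **FIELD `thick` of `PvtyLocQ`, SEPARATELY** -/
theorem pvru_q_thick (B : PvrpBaseQ N Pr Ξ ι) (m : ℕ) (z : ℂ) (t : τ) {Ce0 : ℝ}
    (thickν : ∀ᶠ ε in 𝓝[>] (0 : ℝ), (Pr ε).E (fun o => (B.G m ε z t).indicator (fun ζ => ‖B.ke0 m ε z t ζ‖ₑ ^ 2) (B.cf o)) ≤ ENNReal.ofReal (Ce0 * N.h m ^ 2)) :
    ∀ᶠ ε in 𝓝[>] (0 : ℝ), (Pr ε).E ((B.U m ε z t).indicator fun o => ‖B.ke m ε z t o‖ₑ ^ 2) ≤ ENNReal.ofReal (4 * B.Cp * Ce0 * N.h m ^ 2) := by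
  filter_upwards [thickν] with ε hε
  exact pvru_q_l2_le B m ε z t (B.ke0 m ε z t) hε

/-- **FIELD `cV_L2` of `PvtyLocQ`, SEPARATELY**: the normalised average of `cV0 - const` is `cV - const` on `U` -/
theorem pvru_q_cVL2 (B : PvrpBaseQ N Pr Ξ ι) (kV : ℕ → ℝ → ℂ) (m : ℕ) (z : ℂ) (t : τ) {CV0 : ℝ}
    (thickVν : ∀ᶠ ε in 𝓝[>] (0 : ℝ), (Pr ε).E (fun o => (B.G m ε z t).indicator (fun ζ => ‖B.cV0 m ε z t ζ - z - (N.Γ m).zu t - kV m ε‖ₑ ^ 2) (B.cf o)) ≤ ENNReal.ofReal (CV0 * N.h m ^ 2)) :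
    ∀ᶠ ε in 𝓝[>] (0 : ℝ), (Pr ε).E ((B.U m ε z t).indicator fun o => ‖B.cV m ε z t o - z - (N.Γ m).zu t - kV m ε‖ₑ ^ 2) ≤ ENNReal.ofReal (4 * B.Cp * CV0 * N.h m ^ 2) := by
  filter_upwards [thickVν] with ε hε
  refine le_trans ((Pr ε).mono fun o => ?_) (pvru_q_l2_le B m ε z t (fun ζ => B.cV0 m ε z t ζ + (- z - (N.Γ m).zu t - kV m ε)) (by
    refine le_trans (le_of_eq ?_) hε
    congr 1
    funext o
    congr 1
    funext ζ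
    congr 2
    ring))
  by_cases hU : o ∈ B.U m ε z t
  · have hg0 : (B.K m ε z t).gam (B.G m ε z t) (B.cf o) ≠ 0 := by
      have := hU.2
      linarith
    rw [Set.indicator_of_mem hU, Set.indicator_of_mem hU, pvrp_nrm_add, pvrp_nrm_const _ hg0]
    refine le_of_eq ?_
    congr 2
    show B.cV m ε z t o - z - (N.Γ m).zu t - kV m ε = B.cV m ε z t o + (- z - (N.Γ m).zu t - kV m ε)
    ring
  · rw [Set.indicator_of_notMem hU]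
    exact zero_le

/-- on a pin the normalised average of the cut point of the state IS the cut point of the rim -/
theorem pvru_q_cV_eq (B : PvrpBaseQ N Pr Ξ ι) {m : ℕ} {ε : ℝ} {o : Ω} {P : PvbRim} {s : PvbPin τ} (hs : s ∈ B.pins m ε o P) {v : ℂ}
    (h : ∀ i ∈ (B.K m ε s.ctr s.typ).I (B.cf o), (B.K m ε s.ctr s.typ).wt (B.cf o) i ≠ 0 → (B.K m ε s.ctr s.typ).mv (B.cf o) i ∈ B.G m ε s.ctr s.typ →
      B.cV0 m ε s.ctr s.typ ((B.K m ε s.ctr s.typ).mv (B.cf o) i) = v) : B.cV m ε s.ctr s.typ o = v := by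
  have hg0 : (B.K m ε s.ctr s.typ).gam (B.G m ε s.ctr s.typ) (B.cf o) ≠ 0 := by
    have := (B.pin_U m ε o P s hs).2
    linarith
  exact pvru_nrm_eq _ hg0 h

/-- the event of field `tel` of `PvtyLocQ` at the explicit cut point -/
def PvrpBaseQ.BadTel (B : PvrpBaseQ N Pr Ξ ι) (rims : Ω → Set PvbRim) (m : ℕ) (π : B.Pat m) (u ε : ℝ) : Set Ω :=
  {o | ∃ P ∈ rims o, ∃ s ∈ B.pins m ε o P, ∃ t ∈ B.pins m ε o P, B.FitU m ε o P s t π ∧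
    u < ‖pvbArcI N.𝔐 (N.h m) P P.xV s t - (B.cV m ε t.ctr t.typ o - B.cV m ε s.ctr s.typ o)‖}

theorem pvru_eqns_cite5 : True := by
  have := @PvrpBaseQ.BadN1.eq_1; have := @PvrpBaseQ.BadTel.eq_1
  trivial

/-- **FIELD `tel` of `PvtyLocQ`, SEPARATELY**: probability `0`.      `cP m ε o P s` = the cut point of the pin `s` of the rim `P` (ANY function; in the model: marked vertex − `V`-mass of the cut-off disc before the pin) -/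
theorem pvru_q_tel (B : PvrpBaseQ N Pr Ξ ι) {rims : Ω → Set PvbRim} {m : ℕ} {π : B.Pat m} (cP : ℝ → Ω → PvbRim → PvbPin τ → ℂ)
    (stabV : ∀ᶠ ε in 𝓝[>] (0 : ℝ), ∀ o ∈ B.Ok, ∀ P ∈ rims o, ∀ s ∈ B.pins m ε o P, ∀ i ∈ (B.K m ε s.ctr s.typ).I (B.cf o), (B.K m ε s.ctr s.typ).wt (B.cf o) i ≠ 0 →
      (B.K m ε s.ctr s.typ).mv (B.cf o) i ∈ B.G m ε s.ctr s.typ → B.cV0 m ε s.ctr s.typ ((B.K m ε s.ctr s.typ).mv (B.cf o) i) = cP ε o P s)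
    (telP : ∀ᶠ ε in 𝓝[>] (0 : ℝ), ∀ o ∈ B.Ok, ∀ P ∈ rims o, ∀ s ∈ B.pins m ε o P, ∀ t ∈ B.pins m ε o P, B.Fit m ε o P s t π →
      pvbArcI N.𝔐 (N.h m) P P.xV s t = cP ε o P t - cP ε o P s) {u : ℝ} (hu : 0 < u) :
    Tendsto (fun ε => ((Pr ε).P (B.BadTel rims m π u ε)).toReal) (𝓝[>] (0 : ℝ)) (𝓝 0) := by
  refine (tendsto_const_nhds (x := (0 : ℝ))).congr' ?_
  filter_upwards [stabV, telP] with ε h1 h2
  have h0 : (Pr ε).P (B.BadTel rims m π u ε) = 0 := by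
    refine le_antisymm (le_trans ((Pr ε).P_mono ?_) (le_of_eq (B.Ok_ae ε))) zero_le
    rintro o ⟨P, hP, s, hs, t, ht, ⟨hF, -⟩, hlt⟩ ho
    rw [pvru_q_cV_eq B hs (h1 o ho P hP s hs), pvru_q_cV_eq B ht (h1 o ho P hP t ht), h2 o ho P hP s hs t ht hF, sub_self, norm_zero] at hlt
    exact absurd hlt (not_lt.2 hu.le)
  rw [h0]
  rfl

/-- **FIELD `cover` of `PvtyLocQ`, SEPARATELY**: `FitU` costs nothing (the end pin is usable) -/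
theorem pvru_q_cover (B : PvrpBaseQ N Pr Ξ ι) {rims : Ω → Set PvbRim} {x : ℂ} {R : ℝ}
    (cover : PvhbOrd (fun m ε => ((Pr ε).P {o | ¬ ∀ P ∈ rims o, ∀ s ∈ B.pins m ε o P, ∀ t ∈ B.pins m ε o P, s.idx < t.idx →
      (∀ k, s.idx ≤ k → k ≤ t.idx → ‖P.v k - x‖ ≤ 2 * R) → R / 3 ≤ ‖s.ctr - t.ctr‖ → ∃ π : B.Pat m, B.Fit m ε o P s t π}).toReal)) :
    PvhbOrd (fun m ε => ((Pr ε).P {o | ¬ ∀ P ∈ rims o, ∀ s ∈ B.pins m ε o P, ∀ t ∈ B.pins m ε o P, s.idx < t.idx →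
      (∀ k, s.idx ≤ k → k ≤ t.idx → ‖P.v k - x‖ ≤ 2 * R) → R / 3 ≤ ‖s.ctr - t.ctr‖ → ∃ π : B.Pat m, B.FitU m ε o P s t π}).toReal) := by
  refine cover.mono fun m ε => le_of_eq ?_
  congr 2
  ext o
  show (¬ _) ↔ (¬ _)
  rw [not_iff_not]
  constructor
  · intro h P hP s hs t ht h1 h2 h3
    obtain ⟨π, hπ⟩ := h P hP s hs t ht h1 h2 h3
    exact ⟨π, hπ.1⟩
  · intro h P hP s hs t ht h1 h2 h3
    obtain ⟨π, hπ⟩ := h P hP s hs t ht h1 h2 h3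
    exact ⟨π, hπ, B.pin_U m ε o P t ht⟩

/-- **THE ROOF, MODULAR FORM**: the record of 283 from the base and the seven fields, each AT THE EXPLICIT POTENTIALS (any proof of any field may be plugged: `pvru_q_*` above, or `pvnq_n1` of 279 for `n1`) -/
noncomputable def PvrpBaseQ.toLocQ (B : PvrpBaseQ N Pr Ξ ι) (kV : ℕ → ℝ → ℂ) (rims : Ω → Set PvbRim) (x : ℂ) (R : ℝ)
    (pinsOK : PvhbOrd (fun m ε => ((Pr ε).P {o | ¬ ∀ P ∈ rims o,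
      (∀ s ∈ B.pins m ε o P, PvbIsPin N.𝔐 (N.h m) P s ∧ ∃ p : ℤ × ℤ, s.ctr = l9Pt (N.h m) p) ∧
      (∀ i i', i ≤ i' → i' ≤ P.len → (∀ k, i ≤ k → k ≤ i' → ‖P.v k - x‖ ≤ 2 * R) → N.r m ≤ ‖P.v i' - P.v i‖ → ∃ s ∈ B.pins m ε o P, i ≤ s.idx ∧ s.idx ≤ i')}).toReal))
    (cover : PvhbOrd (fun m ε => ((Pr ε).P {o | ¬ ∀ P ∈ rims o, ∀ s ∈ B.pins m ε o P, ∀ t ∈ B.pins m ε o P, s.idx < t.idx →
      (∀ k, s.idx ≤ k → k ≤ t.idx → ‖P.v k - x‖ ≤ 2 * R) → R / 3 ≤ ‖s.ctr - t.ctr‖ → ∃ π : B.Pat m, B.Fit m ε o P s t π}).toReal))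
    (n1 : ∀ (m : ℕ) (π : B.Pat m) (u : ℝ), 0 < u → Tendsto (fun ε => ((Pr ε).P (B.BadN1 rims m π u ε)).toReal) (𝓝[>] (0 : ℝ)) (𝓝 0))
    (cyc1 : ∀ (m : ℕ) (p : ℤ × ℤ) (t : τ), ‖l9Pt (N.h m) p - x‖ ≤ 2 * R → Tendsto (fun ε => (Pr ε).E ((B.U m ε (l9Pt (N.h m) p) t).indicator fun o =>
      ‖B.kout m ε (l9Pt (N.h m) p) t o + pvtSum (N.W m ε) ((N.Γ m).dout t) ((N.Γ m).l1 t) + N.kin0 m ε + B.ke m ε (l9Pt (N.h m) p) t o‖ₑ ^ 2)) (𝓝[>] (0 : ℝ)) (𝓝 0))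
    (Ce : ℝ)
    (thick : ∀ (m : ℕ) (p : ℤ × ℤ) (t : τ), ‖l9Pt (N.h m) p - x‖ ≤ 2 * R → ∀ᶠ ε in 𝓝[>] (0 : ℝ),
      (Pr ε).E ((B.U m ε (l9Pt (N.h m) p) t).indicator fun o => ‖B.ke m ε (l9Pt (N.h m) p) t o‖ₑ ^ 2) ≤ ENNReal.ofReal (Ce * N.h m ^ 2))
    (tel : ∀ (m : ℕ) (π : B.Pat m) (u : ℝ), 0 < u → Tendsto (fun ε => ((Pr ε).P (B.BadTel rims m π u ε)).toReal) (𝓝[>] (0 : ℝ)) (𝓝 0))
    (CV : ℝ)
    (cV_L2 : ∀ (m : ℕ) (p : ℤ × ℤ) (t : τ), ‖l9Pt (N.h m) p - x‖ ≤ 2 * R → ∀ᶠ ε in 𝓝[>] (0 : ℝ),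
      (Pr ε).E ((B.U m ε (l9Pt (N.h m) p) t).indicator fun o => ‖B.cV m ε (l9Pt (N.h m) p) t o - l9Pt (N.h m) p - (N.Γ m).zu t - kV m ε‖ₑ ^ 2) ≤ ENNReal.ofReal (CV * N.h m ^ 2)) :
    PvtyLocQ N kV Pr rims x R where
  pins := B.pins
  U := B.U
  kout := B.kout
  kin := B.kin
  ke := B.ke
  Pat := B.Pat
  Pat_fin := B.Pat_fin
  pat := B.pat
  pat_ok := B.pat_ok
  Fit := B.FitU
  fit_s := fun m ε o P s t π h => B.fit_s m ε o P s t π h.1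
  fit_t := fun m ε o P s t π h => B.fit_t m ε o P s t π h.1
  fit_U := fun _ _ _ _ _ _ _ h => h.2
  pinsOK := pinsOK
  cover := pvru_q_cover B cover
  n1 := n1
  cyc1 := cyc1
  Ce := Ce
  thick := thick
  cV := B.cV
  tel := tel
  CV := CV
  cV_L2 := cV_L2

/-- **THE INTERFACE RECORD OF ROAD P, Q-FORM, OVER UPPER EXPECTATIONS** (P4 (1) (2) of 273): `PvrpInU` at `a := 0` over `PvtyNumQ` + the four `V` fields `cV0` (in the base) `stabV telP thickVν`.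
`cP` (the cut point of a pin of a rim) is a FREE field: in the model `cP m ε o P s = P.v s.idx - ∑_{k < s.idx, tag in the cut-off ball of s} P.xV k`. -/
structure PvrpInQ {τ : Type} {c : ℝ} (N : PvtyNumQ τ c) (kV : ℕ → ℝ → ℂ) (Pr : ℝ → PvUp Ω) (rims : Ω → Set PvbRim) (x : ℂ) (R : ℝ) (Ξ ι : Type) extends PvrpBaseQ N Pr Ξ ι where
  /-- P8 P9 P14 P15: DI-P + DENSE-P -/
  pinsOK : PvhbOrd (fun m ε => ((Pr ε).P {o | ¬ ∀ P ∈ rims o,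
    (∀ s ∈ pins m ε o P, PvbIsPin N.𝔐 (N.h m) P s ∧ ∃ p : ℤ × ℤ, s.ctr = l9Pt (N.h m) p) ∧
    (∀ i i', i ≤ i' → i' ≤ P.len → (∀ k, i ≤ k → k ≤ i' → ‖P.v k - x‖ ≤ 2 * R) → N.r m ≤ ‖P.v i' - P.v i‖ → ∃ s ∈ pins m ε o P, i ≤ s.idx ∧ s.idx ≤ i')}).toReal)
  /-- TR20 COVER with the tentacled obstacles (P10 = M8) -/
  cover : PvhbOrd (fun m ε => ((Pr ε).P {o | ¬ ∀ P ∈ rims o, ∀ s ∈ pins m ε o P, ∀ t ∈ pins m ε o P, s.idx < t.idx →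
    (∀ k, s.idx ≤ k → k ≤ t.idx → ‖P.v k - x‖ ≤ 2 * R) → R / 3 ≤ ‖s.ctr - t.ctr‖ → ∃ π : Pat m, Fit m ε o P s t π}).toReal)
  /-- P17: the integrand `Z_π` of the free arc   (ANY function) -/
  Z : ∀ m : ℕ, ℝ → Pat m → Ξ → ℝ≥0∞
  /-- **P12 STAB + P17 (b)** (deterministic), for `Q` alone -/
  stab : ∀ (m : ℕ) (ε : ℝ) (π : Pat m), toPvrpBaseQ.Stab rims m ε π (Z m ε π)
  /-- the two candidates of a pattern are far apart: blindness -/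
  bl : ∀ (m : ℕ) (ε : ℝ) (π : Pat m), toPvrpBaseQ.Bl m ε π
  /-- **TR18.1 DOM**, the two strips of a pattern   [`pvnz_K_dom2`] -/
  dom2 : ∀ m ε (π : Pat m), (Pr ε).E (toPvrpBaseQ.W m ε π (Z m ε π)) ≤ ENNReal.ofReal (Cp ^ 2) * (Pr ε).E (fun o => Z m ε π (cf o))
  /-- **P17 (a)** = N1''/N1' = TR23 for region states   [`pvdm_main_up`, `pvru_n1`] -/
  n1ν : ∀ (m : ℕ) (π : Pat m), Tendsto (fun ε => (Pr ε).E (fun o => Z m ε π (cf o))) (𝓝[>] (0 : ℝ)) (𝓝 0)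
  /-- TR3' + TR2 + TR25 on `G` -/
  cyc1ν : ∀ (m : ℕ) (p : ℤ × ℤ) (t : τ), ‖l9Pt (N.h m) p - x‖ ≤ 2 * R → Tendsto (fun ε => (Pr ε).E (fun o => (G m ε (l9Pt (N.h m) p) t).indicator (fun ζ =>
    ‖kout0 m ε (l9Pt (N.h m) p) t ζ + pvtSum (N.W m ε) ((N.Γ m).dout t) ((N.Γ m).l1 t) + N.kin0 m ε + ke0 m ε (l9Pt (N.h m) p) t ζ‖ₑ ^ 2) (cf o))) (𝓝[>] (0 : ℝ)) (𝓝 0)
  Ce0 : ℝ
  /-- TR5 + I.BES + the deterministic masks `U_e` (FIT-IN) on `G` -/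
  thickν : ∀ (m : ℕ) (p : ℤ × ℤ) (t : τ), ‖l9Pt (N.h m) p - x‖ ≤ 2 * R → ∀ᶠ ε in 𝓝[>] (0 : ℝ),
    (Pr ε).E (fun o => (G m ε (l9Pt (N.h m) p) t).indicator (fun ζ => ‖ke0 m ε (l9Pt (N.h m) p) t ζ‖ₑ ^ 2) (cf o)) ≤ ENNReal.ofReal (Ce0 * N.h m ^ 2)
  /-- the cut point of a pin of a rim -/
  cP : ℕ → ℝ → Ω → PvbRim → PvbPin τ → ℂ
  /-- RIM => STATE for the cut point: every usable prepared state carries the cut point of the rim   [263] -/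
  stabV : ∀ (m : ℕ) (ε : ℝ), ∀ o ∈ Ok, ∀ P ∈ rims o, ∀ s ∈ pins m ε o P, ∀ i ∈ (K m ε s.ctr s.typ).I (cf o), (K m ε s.ctr s.typ).wt (cf o) i ≠ 0 →
    (K m ε s.ctr s.typ).mv (cf o) i ∈ G m ε s.ctr s.typ → cV0 m ε s.ctr s.typ ((K m ε s.ctr s.typ).mv (cf o) i) = cP m ε o P s
  /-- (A4), deterministic: TRAP + far apart + mesh (`pvdc_V_enc` of 195; the mesh goes into `Fit`)   [263] -/
  telP : ∀ (m : ℕ) (ε : ℝ) (π : Pat m), ∀ o ∈ Ok, ∀ P ∈ rims o, ∀ s ∈ pins m ε o P, ∀ t ∈ pins m ε o P, Fit m ε o P s t π →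
    pvbArcI N.𝔐 (N.h m) P P.xV s t = cP m ε o P t - cP m ε o P s
  CV0 : ℝ
  /-- `thick` for the weight `side`, pathwise, mask `M-`   [263 58] -/
  thickVν : ∀ (m : ℕ) (p : ℤ × ℤ) (t : τ), ‖l9Pt (N.h m) p - x‖ ≤ 2 * R → ∀ᶠ ε in 𝓝[>] (0 : ℝ),
    (Pr ε).E (fun o => (G m ε (l9Pt (N.h m) p) t).indicator (fun ζ => ‖cV0 m ε (l9Pt (N.h m) p) t ζ - l9Pt (N.h m) p - (N.Γ m).zu t - kV m ε‖ₑ ^ 2) (cf o)) ≤ ENNReal.ofReal (CV0 * N.h m ^ 2)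

/-- **THE ROOF OF ROAD P, Q-FORM** -/
noncomputable def PvrpInQ.toLocQ {kV : ℕ → ℝ → ℂ} {rims : Ω → Set PvbRim} {x : ℂ} {R : ℝ} (L : PvrpInQ N kV Pr rims x R Ξ ι) : PvtyLocQ N kV Pr rims x R :=
  L.toPvrpBaseQ.toLocQ kV rims x R L.pinsOK L.cover
    (fun m π _ hu => pvru_q_n1 L.toPvrpBaseQ (Z := fun ε => L.Z m ε π) (Eventually.of_forall fun ε => L.stab m ε π) (Eventually.of_forall fun ε => L.bl m ε π)
      (Eventually.of_forall fun ε => L.dom2 m ε π) (L.n1ν m π) hu)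
    (fun m p t hp => pvru_q_cyc1 L.toPvrpBaseQ m _ t (L.cyc1ν m p t hp))
    (4 * L.Cp * L.Ce0)
    (fun m p t hp => pvru_q_thick L.toPvrpBaseQ m _ t (L.thickν m p t hp))
    (fun m π _ hu => pvru_q_tel L.toPvrpBaseQ (fun ε => L.cP m ε) (Eventually.of_forall fun ε => L.stabV m ε) (Eventually.of_forall fun ε => L.telP m ε π) hu)
    (4 * L.Cp * L.CV0)
    (fun m p t hp => pvru_q_cVL2 L.toPvrpBaseQ kV m _ t (L.thickVν m p t hp))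

theorem pvru_eqns_cite6 : True := by
  have := @PvrpBaseQ.toLocQ.eq_1; have := @PvrpInQ.toLocQ.eq_1
  trivial

theorem pvru_locQ {kV : ℕ → ℝ → ℂ} {rims : Ω → Set PvbRim} {x : ℂ} {R : ℝ} (L : PvrpInQ N kV Pr rims x R Ξ ι) : Nonempty (PvtyLocQ N kV Pr rims x R) := ⟨L.toLocQ⟩

end qform

/-- **THE LAST LINE OF ROAD P**: the wall from one term of `PvrpInQ` per patch, over the plain two-level space -/
theorem pvru_exit {c : ℝ} (c0 : 0 < c) (τ : Type) [Fintype τ] [Nonempty τ] (N : PvtyNumQ τ c) (kV : ℕ → ℝ → ℂ) (Ξ ι : Type)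
    (H : ∀ (x : ℂ) (R : ℝ), 0 < R → Nonempty (PvrpInQ N kV pvhbUp (fun q => pvhbAll x R (pvMerge q)) x R Ξ ι)) : L9ExitTR c :=
  pvty_exit_Q c0 τ N kV fun x R hR => by
    obtain ⟨L⟩ := H x R hR
    exact ⟨L.toLocQ⟩

/-! ## 5. field `n1` of the Q-form from the system of 159: THE CONTRACT OF ONE PATTERN (target of `Tr/N1SysP.lean`) -/

section n1sys

open Claims.C0465

variable {τ : Type} {c : ℝ} {N : PvtyNumQ τ c} {ι : Type}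

/-- `ζ` is reached from the sample `o` by a move of non zero weight of the preparation of `(z,t)`, then one of `(z',t')` -/
def PvrpBaseQ.Mv2 {Ω Ξ : Type} {Pr : ℝ → PvUp Ω} (B : PvrpBaseQ N Pr Ξ ι) (m : ℕ) (ε : ℝ) (z : ℂ) (t : τ) (z' : ℂ) (t' : τ) (o : Ω) (ζ : Ξ) : Prop :=
  ∃ i ∈ (B.K m ε z t).I (B.cf o), (B.K m ε z t).wt (B.cf o) i ≠ 0 ∧
    ∃ j ∈ (B.K m ε z' t').I ((B.K m ε z t).mv (B.cf o) i), (B.K m ε z' t').wt ((B.K m ε z t).mv (B.cf o) i) j ≠ 0 ∧ ζ = (B.K m ε z' t').mv ((B.K m ε z t).mv (B.cf o) i) j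

/-- **THE CONTRACT OF ONE PATTERN AT ONE MESH**: `S` = the cylinder domination system of 159 (index = the free arcs `g`).
* `hyp`  TR23 (`Tr/N1Q.lean` of 279: `pvnw_hyp`);   * `yh`  TR2, exact: the mean of the closing chain = `kout0(t) + ∑ W + kin0(s)` (58: `pvyp_pattern`);
* `act`  P12 STAB + ACT (212 191 97): after the two preparations, in a state usable at both ends, the ACTUAL arc is a present datum with the SAME `Q`-mass. -/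
structure PvrpBaseQ.N1In {Ω : Type} {Pr : ℝ → PvUp Ω} (B : PvrpBaseQ N Pr (Conf PvPt) ι) (rims : Ω → Set PvbRim) (m : ℕ) (π : B.Pat m) (ε : ℝ) {κ : Type*} (S : PvdmSys κ) : Prop where
  hyp : S.Hyp ε
  yh : ∀ g ζ, ζ ∈ S.A g → S.yh g ζ = B.kout0 m ε (B.pat m π).zt (B.pat m π).tt ζ + pvtSum (N.W m ε) ((N.Γ m).dout (B.pat m π).tt) (B.pat m π).l + B.kin0 m ε (B.pat m π).zs (B.pat m π).ts ζ
  act : ∀ o ∈ B.Ok, ∀ P ∈ rims o, ∀ s ∈ B.pins m ε o P, ∀ t ∈ B.pins m ε o P, B.Fit m ε o P s t π → ∀ ζ, B.Mv2 m ε s.ctr s.typ t.ctr t.typ o ζ →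
    ζ ∈ B.G m ε s.ctr s.typ → ζ ∈ B.G m ε t.ctr t.typ → ∃ g, ζ ∈ S.A g ∧ S.X g ζ = pvbArcI N.𝔐 (N.h m) P P.xQ s t

theorem pvru_eqns_cite7 : True := by
  have := @PvrpBaseQ.Mv2.eq_1
  trivial

/-- the contract gives the deterministic field `stab` with `Z := pvruZ S` -/
theorem pvru_q_stab {Ω : Type} {Pr : ℝ → PvUp Ω} (B : PvrpBaseQ N Pr (Conf PvPt) ι) {rims : Ω → Set PvbRim} {m : ℕ} {π : B.Pat m} {ε : ℝ} {κ : Type*} {S : PvdmSys κ}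
    (h : B.N1In rims m π ε S) : B.Stab rims m ε π (pvruZ S) := by
  intro o ho P hP s hs t ht hF i hi hi0 j hj hj0 h1 h2
  obtain ⟨hs1, hs2⟩ := B.fit_s m ε o P s t π hF
  obtain ⟨ht1, ht2⟩ := B.fit_t m ε o P s t π hF
  obtain ⟨g, hg, hX⟩ := h.act o ho P hP s hs t ht hF _ ⟨i, hi, hi0, j, hj, hj0, rfl⟩ h1 h2
  refine le_trans (le_of_eq ?_) (pvru_le_Z S hg)
  rw [hX, h.yh g _ hg, ← hs1, ← hs2, ← ht1, ← ht2]

/-- **FIELD `n1` OF `PvtyLocQ` FROM THE CONTRACTS** (one pattern): TR23 + tail + lower bound of the white lane + blindness + DOM of the two strips -/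
theorem pvru_q_n1_sys (B : PvrpBaseQ N pvhbUp (Conf PvPt) ι) (hcf : ∀ q, B.cf q = pvConf (pvMerge q)) {rims : PvGeoT × PvColT → Set PvbRim} {m : ℕ} {π : B.Pat m}
    {κ : Type*} (S : ℝ → PvdmSys κ) (hS : ∀ᶠ ε in 𝓝[>] (0 : ℝ), B.N1In rims m π ε (S ε)) {q0 : ℝ≥0∞} (hq0 : q0 ≠ 0) (hq1 : q0 ≠ ∞)
    (hq : ∀ᶠ ε in 𝓝[>] (0 : ℝ), q0 ≤ (S ε).q) (tail : Tendsto (fun ε => ∫⁻ ω, (S ε).H ω ∂pvP ε) (𝓝[>] (0 : ℝ)) (𝓝 0))
    (hbl : ∀ᶠ ε in 𝓝[>] (0 : ℝ), B.Bl m ε π)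
    (dom2 : ∀ᶠ ε in 𝓝[>] (0 : ℝ), (pvhbUp ε).E (B.W m ε π (pvruZ (S ε))) ≤ ENNReal.ofReal (B.Cp ^ 2) * (pvhbUp ε).E (fun o => pvruZ (S ε) (B.cf o)))
    {u : ℝ} (hu : 0 < u) : Tendsto (fun ε => ((pvhbUp ε).P (B.BadN1 rims m π u ε)).toReal) (𝓝[>] (0 : ℝ)) (𝓝 0) := by
  refine pvru_q_n1 B (Z := fun ε => pvruZ (S ε)) (hS.mono fun ε h => pvru_q_stab B h) hbl dom2 ?_ hu
  have h1 := pvru_n1 S (hS.mono fun ε h => h.hyp) hq0 hq1 hq tail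
  refine h1.congr fun ε => ?_
  show (pvhbUp ε).E _ = (pvhbUp ε).E _
  congr 1
  funext q
  rw [hcf q]

end n1sys

end Claimed.Agent.R289
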