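-- KEEP
import Claimed.Agent.R289.Tr.Lin
import Claimed.Agent.R289.Tr.LocalF
import Claimed.Agent.R289.Tr.DomFl
import Claimed.Agent.R289.Tr.RoadPU

/-!
# Row 289 (S0537, Cardy for Poisson-Voronoi), THE WALL, file Tr/Dbl : THE COLOUR DOUBLING      (helper273, ruling P10; prefix `pvdb_`, `pvdb`, `Pvdb`)

`PvMap.Cyc.IsRim` is colour blind: `pvhbAll x R ω` contains the rims of BOTH colours.      The cell kit, the funnels, the links, CLOSE are typed for rims of colour `true`.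
HERE: the record `PvtyLocQ` (283, `Tr/Lin.lean`) is asked for the BLACK rims only, and the white rims come for free:
* sec. 1  the doubled menu `τ × Bool`: `pvdbMenu`, `pvdbGeo`, `pvdbNum` (same `W kin0 CA`), `pvdbDn` (a pin of the doubled menu read in the menu), `pvdbPat`.
* sec. 2  MODEL FREE: `PvdbFlip Pr rimsB rims` (an `E`-invariant map `φ` of the sample space, a set `Good` of full measure on which every rim of `o` is a black rim of `o` or of `φ o`);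
          **`pvdbLoc : PvtyLocQ N kV Pr rimsB x R → PvdbFlip Pr rimsB rims → PvtyLocQ (pvdbNum N) kV Pr rims x R`**: every object of the type `(t, false)` is the object of the type `t` read at `φ o`.
* sec. 3  THE MODEL: `pvdbBlk x R ω` (the rims of `pvhbAll x R ω` whose vertices in `clB(x,6R)` are black), `pvdb_blk_sub`, `pvdb_split`, `pvdbFl x R hR : PvdbFlip pvhbUp ..`,
          **`pvdb_exit`** `= pvty_exit_Q` with `pvdbBlk` in the place of `pvhbAll`.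
-/

set_option autoImplicit false
set_option linter.unusedSectionVars false
set_option linter.unusedVariables false

namespace Claimed.Agent.R289

open MeasureTheory Set Filter Topology Metric Claims.C0465
open scoped ENNReal

/-! ## 1. the doubled menu -/

section menu

variable {τ : Type} {c : ℝ}

/-- the doubled menu -/
def pvdbMenu (𝔐 : PvbMenu τ) : PvbMenu (τ × Bool) where
  mc := fun t => 𝔐.mc t.1
  b2 := fun t => 𝔐.b2 t.1
  a3 := fun t => 𝔐.a3 t.1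
  L := 𝔐.L
  mc_gt := fun t => 𝔐.mc_gt t.1
  mc_lt := fun t => 𝔐.mc_lt t.1
  a3_gt := fun t => 𝔐.a3_gt t.1
  a3_le := fun t => 𝔐.a3_le t.1

/-- the doors of the doubled menu -/
def pvdbGeo (Γ : PvtsGeo τ) : PvtsGeo (τ × Bool) where
  δ := Γ.δ
  pout := fun t => Γ.pout t.1
  pin := fun t => Γ.pin t.1
  dout := fun t => Γ.dout t.1
  din := fun t => Γ.din t.1
  pin0 := Γ.pin0
  din0 := Γ.din0
  zu := fun t => Γ.zu t.1
  l1 := fun t => Γ.l1 t.1
  δ0 := Γ.δ0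
  dout1 := fun t => Γ.dout1 t.1
  l1_disp := fun t => Γ.l1_disp t.1
  l1_dir := fun t => Γ.l1_dir t.1

/-- the numbers of the doubled menu: the SAME cell means, the SAME constant of the reference plug -/
def pvdbNum (N : PvtyNumQ τ c) : PvtyNumQ (τ × Bool) c where
  𝔐 := pvdbMenu N.𝔐
  h := N.h
  r := N.r
  h0 := N.h0
  h_lim := N.h_lim
  r_lim := N.r_lim
  Lh_r := N.Lh_r
  lim2 := N.lim2
  Γ := fun m => pvdbGeo (N.Γ m)
  W := N.W
  kin0 := N.kin0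
  CA := N.CA
  a_bdd := N.a_bdd
  rel_lim := N.rel_lim

/-- a pin of the doubled menu, read in the menu -/
def pvdbDn (s : PvbPin (τ × Bool)) : PvbPin τ := ⟨s.idx, s.ctr, s.typ.1⟩

/-- a pin of the menu with a colour bit -/
def pvdbLift (s : PvbPin τ) (b : Bool) : PvbPin (τ × Bool) := ⟨s.idx, s.ctr, (s.typ, b)⟩

/-- a pattern with a colour bit -/
def pvdbPat (π : PvtsPat τ) (b : Bool) : PvtsPat (τ × Bool) := ⟨π.zs, (π.ts, b), π.zt, (π.tt, b), π.l⟩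

theorem pvdb_eqns_cite : True := by
  have := @pvdbMenu.eq_1; have := @pvdbGeo.eq_1; have := @pvdbNum.eq_1; have := @pvdbDn.eq_1; have := @pvdbLift.eq_1; have := @pvdbPat.eq_1
  trivial

theorem pvdb_isPin {𝔐 : PvbMenu τ} {h : ℝ} {P : PvbRim} {s : PvbPin (τ × Bool)} (H : PvbIsPin 𝔐 h P (pvdbDn s)) : PvbIsPin (pvdbMenu 𝔐) h P s :=
  ⟨H.idx_lt, H.near, H.trap⟩

theorem pvdb_arcI (𝔐 : PvbMenu τ) (h : ℝ) (P : PvbRim) (x : ℕ → ℂ) (s t : PvbPin (τ × Bool)) :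
    pvbArcI (pvdbMenu 𝔐) h P x s t = pvbArcI 𝔐 h P x (pvdbDn s) (pvdbDn t) := rfl

theorem pvdb_pat_ok {Γ : PvtsGeo τ} {π : PvtsPat τ} (H : Γ.Ok π) (b : Bool) : (pvdbGeo Γ).Ok (pvdbPat π b) := H

end menu

/-! ## 2. the doubling, model free -/

section dbl

variable {Ω : Type}

/-- **THE FLIP**: an `E`-invariant map of the sample space which exchanges the two colours of rims -/
structure PvdbFlip (Pr : ℝ → PvUp Ω) (rimsB rims : Ω → Set PvbRim) where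
  φ : Ω → Ω
  inv : ∀ (ε : ℝ) (F : Ω → ℝ≥0∞), (Pr ε).E (fun o => F (φ o)) = (Pr ε).E F
  Good : Set Ω
  good : ∀ ε, (Pr ε).P Goodᶜ = 0
  split : ∀ o ∈ Good, ∀ P ∈ rims o, P ∈ rimsB o ∨ P ∈ rimsB (φ o)

variable {Pr : ℝ → PvUp Ω} {rimsB rims : Ω → Set PvbRim}

/-- the sample read by the objects of colour `b` -/
def PvdbFlip.at (Φ : PvdbFlip Pr rimsB rims) (b : Bool) (o : Ω) : Ω := if b then o else Φ.φ o

theorem pvdb_eqns_cite2 : True := by
  have := @PvdbFlip.at.eq_1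
  trivial

theorem pvdb_at_true (Φ : PvdbFlip Pr rimsB rims) (o : Ω) : Φ.at true o = o := rfl

theorem pvdb_at_false (Φ : PvdbFlip Pr rimsB rims) (o : Ω) : Φ.at false o = Φ.φ o := rfl

theorem pvdb_E_at (Φ : PvdbFlip Pr rimsB rims) (b : Bool) (ε : ℝ) (F : Ω → ℝ≥0∞) : (Pr ε).E (fun o => F (Φ.at b o)) = (Pr ε).E F := by
  cases b
  · exact Φ.inv ε F
  · rfl

theorem pvdb_P_at (Φ : PvdbFlip Pr rimsB rims) (b : Bool) (ε : ℝ) (A : Set Ω) : (Pr ε).P {o | Φ.at b o ∈ A} = (Pr ε).P A := by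
  unfold PvUp.P
  rw [← pvdb_E_at Φ b ε (A.indicator fun _ => 1)]
  rfl

/-- an event contained in the exceptional set, an event and its flip -/
theorem pvdb_P_le (Φ : PvdbFlip Pr rimsB rims) (ε : ℝ) {A B : Set Ω} (h : ∀ o ∈ Φ.Good, o ∉ B → Φ.φ o ∉ B → o ∉ A) :
    ((Pr ε).P A).toReal ≤ ((Pr ε).P B).toReal + ((Pr ε).P B).toReal := by
  have h1 : A ⊆ Φ.Goodᶜ ∪ (B ∪ {o | Φ.at false o ∈ B}) := by
    intro o ho
    by_contra hc
    simp only [mem_union, mem_compl_iff, mem_setOf_eq, not_or, not_not] at hc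
    exact h o hc.1 hc.2.1 hc.2.2 ho
  have h2 : (Pr ε).P A ≤ (Pr ε).P B + (Pr ε).P B := by
    refine ((Pr ε).P_mono h1).trans (((Pr ε).P_union_le _ _).trans ?_)
    rw [Φ.good ε, zero_add]
    refine ((Pr ε).P_union_le _ _).trans ?_
    rw [pvdb_P_at]
  rw [← ENNReal.toReal_add ((Pr ε).P_ne_top _) ((Pr ε).P_ne_top _)]
  exact ENNReal.toReal_mono (ENNReal.add_ne_top.2 ⟨(Pr ε).P_ne_top _, (Pr ε).P_ne_top _⟩) h2

/-- a limit in probability survives the flip -/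
theorem pvdb_tendsto (Φ : PvdbFlip Pr rimsB rims) (b : Bool) {A B : ℝ → Set Ω} (h : ∀ ε o, o ∈ A ε → Φ.at b o ∈ B ε)
    (hB : Tendsto (fun ε => ((Pr ε).P (B ε)).toReal) (𝓝[>] (0 : ℝ)) (𝓝 0)) : Tendsto (fun ε => ((Pr ε).P (A ε)).toReal) (𝓝[>] (0 : ℝ)) (𝓝 0) := by
  refine tendsto_of_tendsto_of_tendsto_of_le_of_le tendsto_const_nhds hB (fun ε => ENNReal.toReal_nonneg) fun ε => ?_
  refine ENNReal.toReal_mono ((Pr ε).P_ne_top _) ?_
  rw [← pvdb_P_at Φ b ε (B ε)]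
  exact (Pr ε).P_mono fun o ho => h ε o ho

variable {τ : Type} {c : ℝ} {N : PvtyNumQ τ c} {kV : ℕ → ℝ → ℂ} {x : ℂ} {R : ℝ}

/-- the pins of the doubled record: a black rim of `o` carries its pins with the bit `true`; a rim of `o` which is not black carries the pins it has as a black rim of `φ o`, with the bit `false` -/
def pvdbPins (L : PvtyLocQ N kV Pr rimsB x R) (Φ : PvdbFlip Pr rimsB rims) (m : ℕ) (ε : ℝ) (o : Ω) (P : PvbRim) : Set (PvbPin (τ × Bool)) :=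
  {s | o ∈ Φ.Good ∧ P ∈ rimsB (Φ.at s.typ.2 o) ∧ (s.typ.2 = false → P ∉ rimsB o) ∧ pvdbDn s ∈ L.pins m ε (Φ.at s.typ.2 o) P}

theorem pvdb_eqns_cite3 : True := by
  have := @pvdbPins.eq_1
  trivial

/-- two pins of one rim carry the same bit -/
theorem pvdb_same {L : PvtyLocQ N kV Pr rimsB x R} {Φ : PvdbFlip Pr rimsB rims} {m : ℕ} {ε : ℝ} {o : Ω} {P : PvbRim} {s t : PvbPin (τ × Bool)}
    (hs : s ∈ pvdbPins L Φ m ε o P) (ht : t ∈ pvdbPins L Φ m ε o P) : s.typ.2 = t.typ.2 := by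
  obtain ⟨-, s1, s2, -⟩ := hs
  obtain ⟨-, t1, t2, -⟩ := ht
  cases hb : s.typ.2 <;> cases hb' : t.typ.2
  · rfl
  · rw [hb'] at t1
    exact absurd t1 (s2 hb)
  · rw [hb] at s1
    exact absurd s1 (t2 hb')
  · rfl

/-- an indicator read at the flipped sample -/
theorem pvdb_ind (Φ : PvdbFlip Pr rimsB rims) (b : Bool) (U : Set Ω) (F : Ω → ℝ≥0∞) :
    ({o | Φ.at b o ∈ U}.indicator fun o => F (Φ.at b o)) = fun o => U.indicator F (Φ.at b o) := by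
  funext o
  by_cases h : Φ.at b o ∈ U
  · rw [indicator_of_mem h, indicator_of_mem (show o ∈ {o | Φ.at b o ∈ U} from h)]
  · rw [indicator_of_notMem h, indicator_of_notMem (show o ∉ {o | Φ.at b o ∈ U} from h)]

theorem pvdb_E_ind (Φ : PvdbFlip Pr rimsB rims) (b : Bool) (ε : ℝ) (U : Set Ω) (F : Ω → ℝ≥0∞) :
    (Pr ε).E ({o | Φ.at b o ∈ U}.indicator fun o => F (Φ.at b o)) = (Pr ε).E (U.indicator F) := by
  rw [pvdb_ind]
  exact pvdb_E_at Φ b ε (U.indicator F)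

/-- **THE COLOUR DOUBLING** -/
noncomputable def pvdbLoc (L : PvtyLocQ N kV Pr rimsB x R) (Φ : PvdbFlip Pr rimsB rims) : PvtyLocQ (pvdbNum N) kV Pr rims x R where
  pins := pvdbPins L Φ
  U := fun m ε z t => {o | Φ.at t.2 o ∈ L.U m ε z t.1}
  kout := fun m ε z t o => L.kout m ε z t.1 (Φ.at t.2 o)
  kin := fun m ε z t o => L.kin m ε z t.1 (Φ.at t.2 o)
  ke := fun m ε z t o => L.ke m ε z t.1 (Φ.at t.2 o)
  Pat := fun m => L.Pat m × Bool
  Pat_fin := fun m => by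
    have := L.Pat_fin m
    infer_instance
  pat := fun m π => pvdbPat (L.pat m π.1) π.2
  pat_ok := fun m π => pvdb_pat_ok (L.pat_ok m π.1) π.2
  Fit := fun m ε o P s t π => s.typ.2 = π.2 ∧ t.typ.2 = π.2 ∧ L.Fit m ε (Φ.at π.2 o) P (pvdbDn s) (pvdbDn t) π.1
  fit_s := fun m ε o P s t π h => by
    obtain ⟨h1, h2⟩ := L.fit_s m ε _ P _ _ π.1 h.2.2
    exact ⟨h1, Prod.ext h2 h.1⟩
  fit_t := fun m ε o P s t π h => by
    obtain ⟨h1, h2⟩ := L.fit_t m ε _ P _ _ π.1 h.2.2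
    exact ⟨h1, Prod.ext h2 h.2.1⟩
  fit_U := fun m ε o P s t π h => by
    have h1 := L.fit_U m ε _ P _ _ π.1 h.2.2
    show Φ.at t.typ.2 o ∈ L.U m ε t.ctr t.typ.1
    rw [h.2.1]
    exact h1
  pinsOK := by
    refine (L.pinsOK.add L.pinsOK).mono fun m ε => pvdb_P_le Φ ε fun o hG h1 h2 => ?_
    simp only [mem_setOf_eq, not_not] at h1 h2 ⊢
    intro P hP
    refine ⟨fun s hs => ?_, fun i i' hi hi' hk hr => ?_⟩
    · obtain ⟨-, s1, -, s3⟩ := hs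
      have key : ∀ P ∈ rimsB (Φ.at s.typ.2 o), ∀ s' ∈ L.pins m ε (Φ.at s.typ.2 o) P, PvbIsPin N.𝔐 (N.h m) P s' ∧ ∃ p : ℤ × ℤ, s'.ctr = l9Pt (N.h m) p := by
        cases s.typ.2
        · exact fun P hP => (h2 P hP).1
        · exact fun P hP => (h1 P hP).1
      obtain ⟨k1, k2⟩ := key P s1 _ s3
      exact ⟨pvdb_isPin k1, k2⟩
    · by_cases hb : P ∈ rimsB o
      · obtain ⟨s, hs, k1, k2⟩ := (h1 P hb).2 i i' hi hi' hk hr
        exact ⟨pvdbLift s true, ⟨hG, hb, fun h => by simp [pvdbLift] at h, hs⟩, k1, k2⟩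
      · have hw : P ∈ rimsB (Φ.φ o) := (Φ.split o hG P hP).resolve_left hb
        obtain ⟨s, hs, k1, k2⟩ := (h2 P hw).2 i i' hi hi' hk hr
        exact ⟨pvdbLift s false, ⟨hG, hw, fun _ => hb, hs⟩, k1, k2⟩
  cover := by
    refine (L.cover.add L.cover).mono fun m ε => pvdb_P_le Φ ε fun o hG h1 h2 => ?_
    simp only [mem_setOf_eq, not_not] at h1 h2 ⊢
    intro P hP s hs t ht hst hk hr
    have hb := pvdb_same hs ht
    obtain ⟨-, s1, -, s3⟩ := hs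
    obtain ⟨-, -, -, t3⟩ := ht
    rw [← hb] at t3
    have key : ∀ P ∈ rimsB (Φ.at s.typ.2 o), ∀ s' ∈ L.pins m ε (Φ.at s.typ.2 o) P, ∀ t' ∈ L.pins m ε (Φ.at s.typ.2 o) P, s'.idx < t'.idx →
        (∀ k, s'.idx ≤ k → k ≤ t'.idx → ‖P.v k - x‖ ≤ 2 * R) → R / 3 ≤ ‖s'.ctr - t'.ctr‖ → ∃ π : L.Pat m, L.Fit m ε (Φ.at s.typ.2 o) P s' t' π := by
      cases s.typ.2
      · exact h2
      · exact h1
    obtain ⟨π, hπ⟩ := key P s1 _ s3 _ t3 hst hk hr
    exact ⟨(π, s.typ.2), rfl, hb.symm, hπ⟩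
  n1 := fun m π u hu => by
    refine pvdb_tendsto Φ π.2 (fun ε o ho => ?_) (L.n1 m π.1 u hu)
    obtain ⟨P, -, s, hs, t, ht, hF, hlt⟩ := ho
    obtain ⟨-, s1, -, s3⟩ := hs
    obtain ⟨-, -, -, t3⟩ := ht
    rw [hF.1] at s1 s3
    rw [hF.2.1] at t3
    refine ⟨P, s1, _, s3, _, t3, hF.2.2, ?_⟩
    have e1 : L.kout m ε t.ctr t.typ.1 (Φ.at t.typ.2 o) = L.kout m ε t.ctr t.typ.1 (Φ.at π.2 o) := by rw [hF.2.1]
    have e2 : L.kin m ε s.ctr s.typ.1 (Φ.at s.typ.2 o) = L.kin m ε s.ctr s.typ.1 (Φ.at π.2 o) := by rw [hF.1]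
    have hlt' : u < ‖pvbArcI N.𝔐 (N.h m) P P.xQ (pvdbDn s) (pvdbDn t) +
      (L.kout m ε t.ctr t.typ.1 (Φ.at t.typ.2 o) + pvtSum (N.W m ε) ((N.Γ m).dout (L.pat m π.1).tt) (L.pat m π.1).l + L.kin m ε s.ctr s.typ.1 (Φ.at s.typ.2 o))‖ := hlt
    rw [e1, e2] at hlt'
    exact hlt'
  cyc1 := fun m p t hp => by
    refine (L.cyc1 m p t.1 hp).congr fun ε => ?_
    exact (pvdb_E_ind Φ t.2 ε (L.U m ε (l9Pt (N.h m) p) t.1) (fun o =>
      ‖L.kout m ε (l9Pt (N.h m) p) t.1 o + pvtSum (N.W m ε) ((N.Γ m).dout t.1) ((N.Γ m).l1 t.1) + N.kin0 m ε + L.ke m ε (l9Pt (N.h m) p) t.1 o‖ₑ ^ 2)).symm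
  Ce := L.Ce
  thick := fun m p t hp => by
    filter_upwards [L.thick m p t.1 hp] with ε hε
    exact le_trans (le_of_eq (pvdb_E_ind Φ t.2 ε (L.U m ε (l9Pt (N.h m) p) t.1) (fun o => ‖L.ke m ε (l9Pt (N.h m) p) t.1 o‖ₑ ^ 2))) hε
  cV := fun m ε z t o => L.cV m ε z t.1 (Φ.at t.2 o)
  tel := fun m π u hu => by
    refine pvdb_tendsto Φ π.2 (fun ε o ho => ?_) (L.tel m π.1 u hu)
    obtain ⟨P, -, s, hs, t, ht, hF, hlt⟩ := ho
    obtain ⟨-, s1, -, s3⟩ := hs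
    obtain ⟨-, -, -, t3⟩ := ht
    rw [hF.1] at s1 s3
    rw [hF.2.1] at t3
    refine ⟨P, s1, _, s3, _, t3, hF.2.2, ?_⟩
    have e1 : L.cV m ε t.ctr t.typ.1 (Φ.at t.typ.2 o) = L.cV m ε t.ctr t.typ.1 (Φ.at π.2 o) := by rw [hF.2.1]
    have e2 : L.cV m ε s.ctr s.typ.1 (Φ.at s.typ.2 o) = L.cV m ε s.ctr s.typ.1 (Φ.at π.2 o) := by rw [hF.1]
    have hlt' : u < ‖pvbArcI N.𝔐 (N.h m) P P.xV (pvdbDn s) (pvdbDn t) - (L.cV m ε t.ctr t.typ.1 (Φ.at t.typ.2 o) - L.cV m ε s.ctr s.typ.1 (Φ.at s.typ.2 o))‖ := hlt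
    rw [e1, e2] at hlt'
    exact hlt'
  CV := L.CV
  cV_L2 := fun m p t hp => by
    filter_upwards [L.cV_L2 m p t.1 hp] with ε hε
    exact le_trans (le_of_eq (pvdb_E_ind Φ t.2 ε (L.U m ε (l9Pt (N.h m) p) t.1) (fun o =>
      ‖L.cV m ε (l9Pt (N.h m) p) t.1 o - l9Pt (N.h m) p - (N.Γ m).zu t.1 - kV m ε‖ₑ ^ 2))) hε

end dbl

/-! ## 3. the model -/

section model

/-- **THE BLACK RIMS**: the reaching rims of the completions of `ω` whose vertices in the agreement ball are black -/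
def pvdbBlk (x : ℂ) (R : ℝ) (ω : PVSample) : Set PvbRim :=
  {P | P ∈ pvhbAll x R ω ∧ ∀ k, ‖P.v k - x‖ ≤ 6 * R → cfCol (pvConf ω) (P.v k) = true}

theorem pvdb_eqns_cite4 : True := by
  have := @pvdbBlk.eq_1
  trivial

theorem pvdb_blk_sub (x : ℂ) (R : ℝ) (ω : PVSample) : pvdbBlk x R ω ⊆ pvhbAll x R ω := fun _ h => h.1

theorem pvdb_blk_col {x : ℂ} {R : ℝ} {ω : PVSample} {P : PvbRim} (h : P ∈ pvdbBlk x R ω) {k : ℕ} (hk : ‖P.v k - x‖ ≤ 6 * R) : cfCol (pvConf ω) (P.v k) = true := h.2 k hk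

/-- in general position a site has one colour -/
theorem pvdb_one {ω : PVSample} (h : DelgpOk ω) {z : ℂ} (h1 : (z, true) ∈ (pvConf ω).pts) (h2 : (z, false) ∈ (pvConf ω).pts) : False := by
  obtain ⟨i, -, ei⟩ := delgp_mem_conf.1 h1
  obtain ⟨j, -, ej⟩ := delgp_mem_conf.1 h2
  simp only [Prod.mk.injEq] at ei ej
  by_cases hij : i = j
  · subst hij
    rw [← ei.2] at ej
    simp at ej
  · exact h.inj i j hij (ei.1.symm.trans ej.1)

theorem pvdb_col_iff (η : Conf PvPt) (z : ℂ) : cfCol η z = true ↔ (z, true) ∈ η.pts := by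
  classical
  unfold cfCol
  exact decide_eq_true_iff

/-- the colour of a site of the flipped configuration -/
theorem pvdb_col_flip {ω : PVSample} (h : DelgpOk ω) {z : ℂ} (hz : z ∈ cfSites (pvConf ω)) : cfCol (cfFlip (pvConf ω)) z = !cfCol (pvConf ω) z := by
  obtain ⟨⟨z, β⟩, hp, rfl⟩ := hz
  have e1 : cfCol (cfFlip (pvConf ω)) z = true ↔ (z, false) ∈ (pvConf ω).pts := by
    rw [pvdb_col_iff, pvdf_mem_flip]
    rfl
  have e2 := pvdb_col_iff (pvConf ω) z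
  show cfCol (cfFlip (pvConf ω)) z = !cfCol (pvConf ω) z
  cases β
  · have h2 : (z, true) ∉ (pvConf ω).pts := fun h3 => pvdb_one h h3 hp
    rw [e1.2 hp, Bool.eq_false_iff.2 fun h3 => h2 (e2.1 h3)]
    rfl
  · have h2 : (z, false) ∉ (pvConf ω).pts := fun h3 => pvdb_one h hp h3
    rw [e2.2 hp, Bool.eq_false_iff.2 fun h3 => h2 (e1.1 h3)]
    rfl

/-- the rims of a completion do not see the exchange of the colours -/
theorem pvdb_rimsAt {X : Type} (𝔅 : PvBulk X) {η η' : Conf PvPt} (hY : cfSites η' = cfSites η) (hcol : ∀ p ∈ cfSites η, cfCol η' p = !cfCol η p) (ξ : X → Bool)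
    {K : Set ℂ} (hOk : 𝔅.Ok (cfSites η) K) {x : ℂ} {R : ℝ} {P : PvbRim} (hP : P ∈ 𝔅.rimsAt (cfSites η) (𝔅.col η ξ) x R) :
    P ∈ 𝔅.rimsAt (cfSites η') (𝔅.col η' fun i => !ξ i) x R := by
  show P ∈ 𝔅.rimsAt (cfSites η') (fun v => Sum.elim (cfCol η') (fun i => !ξ i) (𝔅.lab (cfSites η') v)) x R
  rw [hY]
  have e : (fun v => Sum.elim (cfCol η') (fun i => !ξ i) (𝔅.lab (cfSites η) v)) = pvasNot (𝔅.col η ξ) := by
    funext v
    unfold pvasNot PvBulk.col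
    rcases hl : 𝔅.lab (cfSites η) v with p | i
    · exact hcol p (hOk.site v p hl)
    · rfl
  rw [e]
  obtain ⟨c, hc, h4, rfl⟩ := hP
  exact ⟨c, pvlf_rim_not.2 hc, h4, rfl⟩

/-- the reaching rims do not see the exchange of the colours -/
theorem pvdb_all_flip {ω ω' : PVSample} (h : DelgpOk ω) (hf : pvConf ω' = cfFlip (pvConf ω)) {x : ℂ} {R : ℝ} {P : PvbRim} (hP : P ∈ pvhbAll x R ω) : P ∈ pvhbAll x R ω' := by
  obtain ⟨X, hX, 𝔅, ξ, hA, hO, hR⟩ := hP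
  refine ⟨X, hX, 𝔅, fun i => !ξ i, ?_⟩
  have hY : cfSites (pvConf ω') = cfSites (pvConf ω) := by rw [hf, pvdf_sites]
  have hcol : ∀ p ∈ cfSites (pvConf ω), cfCol (pvConf ω') p = !cfCol (pvConf ω) p := fun p hp => by rw [hf]; exact pvdb_col_flip h hp
  refine ⟨?_, ?_, pvdb_rimsAt 𝔅 hY hcol ξ hO hR⟩
  · show 𝔅.Adm (cfSites (pvConf ω'))
    rw [hY]; exact hA
  · show 𝔅.Ok (cfSites (pvConf ω')) _
    rw [hY]; exact hO

/-- **a rim is black or becomes black after the flip** -/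
theorem pvdb_split {ω ω' : PVSample} (h : DelgpOk ω) (hf : pvConf ω' = cfFlip (pvConf ω)) {x : ℂ} {R : ℝ} (hR : 0 < R) {P : PvbRim} (hP : P ∈ pvhbAll x R ω) :
    P ∈ pvdbBlk x R ω ∨ P ∈ pvdbBlk x R ω' := by
  have hP' := pvdb_all_flip h hf hP
  obtain ⟨X, hX, 𝔅, ξ, hA, hO, c, hc, h4, rfl⟩ := hP
  -- a vertex of the rim in the agreement ball is a site, its colour is the colour of the rim
  have key : ∀ k, ‖(𝔅.enc (cfSites (pvConf ω)) (x + 7 * R) c).v k - x‖ ≤ 6 * R →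
      (𝔅.enc (cfSites (pvConf ω)) (x + 7 * R) c).v k ∈ cfSites (pvConf ω) ∧
      cfCol (pvConf ω) ((𝔅.enc (cfSites (pvConf ω)) (x + 7 * R) c).v k) = 𝔅.col (pvConf ω) ξ ((𝔅.T _).src (c.e 0)) := by
    intro k hk
    have hv : (𝔅.enc (cfSites (pvConf ω)) (x + 7 * R) c).v k = Sum.elim id (fun _ => x + 7 * R) (𝔅.lab _ ((𝔅.T _).src (c.e k))) := rfl
    rcases hl : 𝔅.lab _ ((𝔅.T (cfSites (pvConf ω))).src (c.e k)) with p | i
    · rw [hv, hl]
      refine ⟨hO.site _ p hl, ?_⟩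
      rw [← pl_rim_col hc k 0]
      show cfCol (pvConf ω) p = Sum.elim (cfCol (pvConf ω)) ξ (𝔅.lab _ ((𝔅.T _).src (c.e k)))
      rw [hl]
      rfl
    · exfalso
      rw [hv, hl] at hk
      have e : ‖(Sum.elim id (fun _ => x + 7 * (R : ℂ)) (Sum.inr i : ℂ ⊕ X)) - x‖ = 7 * R := by
        show ‖x + 7 * (R : ℂ) - x‖ = 7 * R
        rw [add_sub_cancel_left, norm_mul, Complex.norm_real, Real.norm_of_nonneg hR.le]
        norm_num
      rw [e] at hk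
      linarith
  cases hb : 𝔅.col (pvConf ω) ξ ((𝔅.T _).src (c.e 0))
  · refine Or.inr ⟨hP', fun k hk => ?_⟩
    obtain ⟨k1, k2⟩ := key k hk
    rw [hf, pvdb_col_flip h k1, k2, hb]
    rfl
  · exact Or.inl ⟨⟨X, hX, 𝔅, ξ, hA, hO, c, hc, h4, rfl⟩, fun k hk => ((key k hk).2).trans hb⟩

/-- the two-level upper expectation is invariant under the colour flip of the sample space -/
theorem pvdb_up_flip (ε : ℝ) (F : PvGeoT × PvColT → ℝ≥0∞) : (pvhbUp ε).E (fun q => F (q.1, pvColFlip q.2)) = (pvhbUp ε).E F := by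
  show pvUpInt (pvGeo ε) (fun g => pvUpInt pvCol fun k => F (g, pvColFlip k)) = pvUpInt (pvGeo ε) (fun g => pvUpInt pvCol fun k => F (g, k))
  congr 1
  funext g
  exact pvdf_upint_equiv pvColFlip pvqu_col_flip fun k => F (g, k)

/-- **THE FLIP OF THE MODEL** -/
noncomputable def pvdbFl (x : ℂ) (R : ℝ) (hR : 0 < R) : PvdbFlip pvhbUp (fun q => pvdbBlk x R (pvMerge q)) (fun q => pvhbAll x R (pvMerge q)) where
  φ := fun q => (q.1, pvColFlip q.2)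
  inv := pvdb_up_flip
  Good := {q | DelgpOk (pvMerge q)}
  good := pvru_ok
  split := fun q hq P hP => pvdb_split hq (pvqu_flip_conf q.1 q.2).symm hR hP

/-- **EXIT OF THE WALL FROM THE BLACK RIMS ALONE** (`Q` alone + (A4)) -/
theorem pvdb_exit {c : ℝ} (c0 : 0 < c) (τ : Type) [Fintype τ] [Nonempty τ] (N : PvtyNumQ τ c) (kV : ℕ → ℝ → ℂ)
    (H : ∀ (x : ℂ) (R : ℝ), 0 < R → Nonempty (PvtyLocQ N kV pvhbUp (fun q => pvdbBlk x R (pvMerge q)) x R)) : L9ExitTR c :=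
  pvty_exit_Q c0 (τ × Bool) (pvdbNum N) kV fun x R hR => by
    obtain ⟨L⟩ := H x R hR
    exact ⟨pvdbLoc L (pvdbFl x R hR)⟩

end model

end Claimed.Agent.R289
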