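import Claimed.Agent.R289.Brg.Win
import Claimed.Agent.R289.Tr.Di
import Claimed.Agent.R289.Tr.S5Kit
import Claimed.Agent.R289.Rsw.VerMeas
import Claimed.Agent.R289.Cr.Inst

/-!
# Row 289 (S0537, Cardy for Poisson-Voronoi), chapter C of the TR blueprint, TR16 part (P4), file Tr/PinLoc : LOCALITY AND MEASURABILITY OF FLAGS, GATES, PINS      (owner helper238; prefix `pvpl_`, `Pvpl`, `pvpl`)

Blueprint: (P4) of `origin/helper7:notes/R289/LM_7.md` sec. 3;  `origin/helper273:notes/R289/PIN_273.md` (C5: every flag is a function of the marked PPP in `B(z, C L h)`), ruling C1 of 273;  `Flag_z` of `origin/helper281:notes/R289/A6_281.md` sec. 5.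
DEFINITION INDEPENDENT: nothing here knows what a flag, a state or a plug type is.   Vocabulary: `Conf.Reads ReadsSet IsPpp` (`Ppp/Ind`, 256), `PvRet PvtrMesh pvtrCore` (`Tr/Ret`, 220), `PvBulk.Ok` (`Defs/Bulk`, 163), `posF l9Law` (`Cr/Inst`, 161),
`PvgCross` (`S2/Gate`, 190), `pvdiB PvdiClean` (`Tr/Di`, 212), `pv5_peierls pv5_trials pv5_block_markov` (`Tr/S5Kit`, 3), `pvcn_enum` (`PppCnt`), `Brg/Win` sec. 4 (297).

* sec. 1  OUTER LOCALITY: **no measurability is needed for an upper bound**.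
          **`pvpl_hull`** : an ARBITRARY event read from a window `W` has a measurable hull which is read from `W` (same outer measure);   **`pvpl_outer_biInter`** : `μ (⋂ A i) ≤ ∏ μ (A i)` for ARBITRARY events read from disjoint windows.
          `PvplLocOn W G F` (local on the a.s. good set `G`: `DelGood` is not read from a window), its saturation `pvplSat` (read from `W` literally, `= F` on `G`), calculus, `PvplLocOn.hull`, `pvpl_locOn_biInter`;
          consumer forms: `pvpl_hind`, `pvpl_peierls` (Peierls of helper3 at the PPP level), `pvpl_trials`, `pvpl_markov`, `pvpl_l9_le` (sample space of a bulk family).      Translations: `PvtsFr.measure_ev` of `Tr/Sym` (218) holds for arbitrary sets.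
* sec. 2  **`PvplIso T mk s T' mk' s' K R`** : THE NOTION OF "THE TWO MAPS AGREE NEAR `K`" (marks `mk : V → κ`: positions, or position TESTS).   `symm refl mono comap`, dart correspondence `PvplRD` (`nxt`, `opp`, functional, injective),
          transfer of face sets `pvplB` (`= pvdiB`), `EdgeIn`, `BdV`, `PvplStar` (mesh), **`PvplIso.cross`** (`PvgCross`), **`PvplIso.clean`** (`PvdiClean` of 212 in marks form `PvplClean`).
* sec. 3  `PvplPred κ`, `Φ.Local K` (predicates on marked coloured maps which are read at the vertices marked in `K`);  Boolean calculus, quantifiers, `comap`;  `pvpl_star_local`, `pvpl_clean_local`.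
* sec. 4  bulk families: `pvpl_iso_of_sites` (isomorphism from a correspondence of the sites of the window), `pvpl_iso_of_ok`, **`PvplPred.Local.congr_ok`** = (P4): same value for all completions and all configurations with the same points in the window.
* sec. 5  combinatorial types `pvplTy`, Borel fibres, `pvpl_iso_of_ty` (same type ⟹ isomorphic),  **`pvpl_main`** : ONE measurable event, read from `E ×ˢ univ`, which on the mesh event is `Φ` for EVERY completion.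
-/

set_option autoImplicit false
set_option linter.unusedSectionVars false

namespace Claimed.Agent.R289

open MeasureTheory ProbabilityTheory Set Filter Topology Metric Claims.C0465
open scoped ENNReal

/-! ## 1. OUTER LOCALITY -/

section outer

variable {E : Type*} [MeasurableSpace E] {m : Measure E} {μ : Measure (Conf E)}

/-- **HULL**: an ARBITRARY event read from the window `W` has a measurable hull which is read from `W` -/
theorem pvpl_hull (h : IsPpp m μ) {W : Set E} (hW : MeasurableSet W) {A : Set (Conf E)} (hA : Conf.ReadsSet W A) :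
    ∃ B, MeasurableSet B ∧ A ⊆ B ∧ Conf.ReadsSet W B ∧ μ B = μ A := by
  have := h.prob
  set C := toMeasurable μ A with hC
  have hCm : MeasurableSet C := measurableSet_toMeasurable μ A
  have e : (μ.prod μ).map (Conf.spl W) = μ := h.splice hW
  have hS : MeasurableSet (Conf.spl W ⁻¹' C) := Conf.measurable_spl hW hCm
  have e1 : μ C = ∫⁻ η, μ ((fun σ => (σ, η)) ⁻¹' (Conf.spl W ⁻¹' C)) ∂μ := by
    conv_lhs => rw [← e]
    rw [Measure.map_apply (Conf.measurable_spl hW) hCm, Measure.prod_apply_symm hS]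
  obtain ⟨η₀, hη₀⟩ := exists_le_lintegral (μ := μ) (f := fun η => μ ((fun σ => (σ, η)) ⁻¹' (Conf.spl W ⁻¹' C)))
    (measurable_measure_prodMk_right hS).aemeasurable
  rw [← e1] at hη₀
  refine ⟨(fun σ => (σ, η₀)) ⁻¹' (Conf.spl W ⁻¹' C), (measurable_id.prodMk measurable_const) hS, ?_, ?_, ?_⟩
  · intro σ hσ
    show Conf.spl W (σ, η₀) ∈ C
    refine subset_toMeasurable μ A ?_
    rw [← hA, Conf.restr_spl, hA]
    exact hσ
  · intro σ
    show Conf.spl W (Conf.restr W σ, η₀) ∈ C ↔ Conf.spl W (σ, η₀) ∈ C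
    rw [Conf.spl_restr]
  · refine le_antisymm (hη₀.trans (measure_toMeasurable A).le) (measure_mono ?_)
    intro σ hσ
    show Conf.spl W (σ, η₀) ∈ C
    refine subset_toMeasurable μ A ?_
    rw [← hA, Conf.restr_spl, hA]
    exact hσ

/-- **OUTER INDEPENDENCE**: ARBITRARY events read from pairwise disjoint windows -/
theorem pvpl_outer_biInter {ι : Type*} (h : IsPpp m μ) {O : ι → Set E} (s : Finset ι) (hO : ∀ i ∈ s, MeasurableSet (O i))
    (hd : (s : Set ι).PairwiseDisjoint O) {A : ι → Set (Conf E)} (hr : ∀ i ∈ s, Conf.ReadsSet (O i) (A i)) :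
    μ (⋂ i ∈ s, A i) ≤ ∏ i ∈ s, μ (A i) := by
  have hex : ∀ i ∈ s, ∃ B, MeasurableSet B ∧ A i ⊆ B ∧ Conf.ReadsSet (O i) B ∧ μ B = μ (A i) := fun i hi => pvpl_hull h (hO i hi) (hr i hi)
  choose! B hBm hAB hBr hBe using hex
  calc μ (⋂ i ∈ s, A i) ≤ μ (⋂ i ∈ s, B i) := measure_mono (iInter₂_mono hAB)
    _ = ∏ i ∈ s, μ (B i) := h.measure_iInter_reads s hO hd (fun i hi => (hBm i hi).nullMeasurableSet) hBr
    _ = ∏ i ∈ s, μ (A i) := Finset.prod_congr rfl hBe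

/-- two ARBITRARY events read from disjoint windows -/
theorem pvpl_outer_inter (h : IsPpp m μ) {O O' : Set E} (hO : MeasurableSet O) (hO' : MeasurableSet O') (hd : Disjoint O O')
    {A B : Set (Conf E)} (hA : Conf.ReadsSet O A) (hB : Conf.ReadsSet O' B) : μ (A ∩ B) ≤ μ A * μ B := by
  obtain ⟨A', hA'm, hAA', hA'r, hA'e⟩ := pvpl_hull h hO hA
  obtain ⟨B', hB'm, hBB', hB'r, hB'e⟩ := pvpl_hull h hO' hB
  calc μ (A ∩ B) ≤ μ (A' ∩ B') := measure_mono (inter_subset_inter hAA' hBB')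
    _ = μ A' * μ B' := h.measure_inter_reads hO hO' hd hA'm.nullMeasurableSet hB'm.nullMeasurableSet hA'r hB'r
    _ = μ A * μ B := by rw [hA'e, hB'e]

/-- the event `F` is LOCAL ON THE GOOD SET `G`: two good configurations with the same points in `W` are both in `F` or both outside -/
def PvplLocOn (W : Set E) (G F : Set (Conf E)) : Prop :=
  ∀ η ∈ G, ∀ η' ∈ G, Conf.restr W η = Conf.restr W η' → (η ∈ F ↔ η' ∈ F)

/-- the SATURATION of `F ∩ G`: the configurations which have the same points in `W` as some good configuration of `F` -/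
def pvplSat (W : Set E) (G F : Set (Conf E)) : Set (Conf E) := {η | ∃ η' ∈ G, Conf.restr W η' = Conf.restr W η ∧ η' ∈ F}

theorem pvpl_eqns_cite : True := by
  have := @PvplLocOn.eq_1.{0}; have := @pvplSat.eq_1.{0}
  trivial

omit [MeasurableSpace E] in
theorem pvpl_sat_reads (W : Set E) (G F : Set (Conf E)) : Conf.ReadsSet W (pvplSat W G F) := fun η => by
  unfold pvplSat
  simp only [mem_ofPred_eq, pvi_restr_idem]

omit [MeasurableSpace E] in
theorem pvpl_sub_sat (W : Set E) (G F : Set (Conf E)) : F ∩ G ⊆ pvplSat W G F := fun η hη => ⟨η, hη.2, rfl, hη.1⟩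

omit [MeasurableSpace E] in
theorem PvplLocOn.sat_sub {W : Set E} {G F : Set (Conf E)} (h : PvplLocOn W G F) : pvplSat W G F ∩ G ⊆ F := by
  rintro η ⟨⟨η', hG', e, hF⟩, hG⟩
  exact (h η' hG' η hG e).1 hF

omit [MeasurableSpace E] in
theorem PvplLocOn.sat_iff {W : Set E} {G F : Set (Conf E)} (h : PvplLocOn W G F) {η : Conf E} (hη : η ∈ G) : η ∈ pvplSat W G F ↔ η ∈ F :=
  ⟨fun h' => h.sat_sub ⟨h', hη⟩, fun h' => pvpl_sub_sat W G F ⟨h', hη⟩⟩

omit [MeasurableSpace E] in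
theorem PvplLocOn.of_reads {W : Set E} {F : Set (Conf E)} (h : Conf.ReadsSet W F) (G : Set (Conf E)) : PvplLocOn W G F :=
  fun η _ η' _ e => by rw [← h η, ← h η', e]

omit [MeasurableSpace E] in
theorem PvplLocOn.mono {W W' : Set E} {G F : Set (Conf E)} (h : PvplLocOn W G F) (hW : W ⊆ W') : PvplLocOn W' G F :=
  fun η hη η' hη' e => h η hη η' hη' (by rw [← pvi_restr_of_subset hW η, ← pvi_restr_of_subset hW η', e])

omit [MeasurableSpace E] in
theorem PvplLocOn.anti {W : Set E} {G G' F : Set (Conf E)} (h : PvplLocOn W G F) (hG : G' ⊆ G) : PvplLocOn W G' F :=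
  fun η hη η' hη' e => h η (hG hη) η' (hG hη') e

omit [MeasurableSpace E] in
theorem PvplLocOn.compl {W : Set E} {G F : Set (Conf E)} (h : PvplLocOn W G F) : PvplLocOn W G Fᶜ :=
  fun η hη η' hη' e => not_congr (h η hη η' hη' e)

omit [MeasurableSpace E] in
theorem PvplLocOn.inter {W : Set E} {G F F' : Set (Conf E)} (h : PvplLocOn W G F) (h' : PvplLocOn W G F') : PvplLocOn W G (F ∩ F') :=
  fun η hη η' hη' e => and_congr (h η hη η' hη' e) (h' η hη η' hη' e)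

omit [MeasurableSpace E] in
theorem PvplLocOn.union {W : Set E} {G F F' : Set (Conf E)} (h : PvplLocOn W G F) (h' : PvplLocOn W G F') : PvplLocOn W G (F ∪ F') :=
  fun η hη η' hη' e => or_congr (h η hη η' hη' e) (h' η hη η' hη' e)

omit [MeasurableSpace E] in
theorem PvplLocOn.iInter {ι : Sort*} {W : Set E} {G : Set (Conf E)} {F : ι → Set (Conf E)} (h : ∀ i, PvplLocOn W G (F i)) : PvplLocOn W G (⋂ i, F i) :=
  fun η hη η' hη' e => by
    simp only [mem_iInter]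
    exact forall_congr' fun i => h i η hη η' hη' e

omit [MeasurableSpace E] in
theorem PvplLocOn.iUnion {ι : Sort*} {W : Set E} {G : Set (Conf E)} {F : ι → Set (Conf E)} (h : ∀ i, PvplLocOn W G (F i)) : PvplLocOn W G (⋃ i, F i) :=
  fun η hη η' hη' e => by
    simp only [mem_iUnion]
    exact exists_congr fun i => h i η hη η' hη' e

/-- local on `G ∩ M`, `M` read from the window (the MESH event): `Mᶜ ∪ F` and `M ∩ F` are local on `G` -/
theorem PvplLocOn.of_inter {W : Set E} {G M F : Set (Conf E)} (hM : Conf.ReadsSet W M) (h : PvplLocOn W (G ∩ M) F) : PvplLocOn W G (M ∩ F) := by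
  intro η hη η' hη' e
  have hMM : η ∈ M ↔ η' ∈ M := by rw [← hM η, ← hM η', e]
  constructor
  · rintro ⟨h1, h2⟩
    exact ⟨hMM.1 h1, (h η ⟨hη, h1⟩ η' ⟨hη', hMM.1 h1⟩ e).1 h2⟩
  · rintro ⟨h1, h2⟩
    exact ⟨hMM.2 h1, (h η ⟨hη, hMM.2 h1⟩ η' ⟨hη', h1⟩ e).2 h2⟩

/-- the saturation has the same outer measure -/
theorem PvplLocOn.measure_sat {W : Set E} {G F : Set (Conf E)} (h : PvplLocOn W G F) (hG : μ Gᶜ = 0) : μ (pvplSat W G F) = μ F := by
  have key : ∀ S : Set (Conf E), μ S = μ (S ∩ G) := fun S => by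
    refine le_antisymm ?_ (measure_mono inter_subset_left)
    calc μ S ≤ μ (S ∩ G ∪ Gᶜ) := measure_mono fun η hη => by
          by_cases hg : η ∈ G
          · exact Or.inl ⟨hη, hg⟩
          · exact Or.inr hg
      _ ≤ μ (S ∩ G) + μ Gᶜ := measure_union_le _ _
      _ = μ (S ∩ G) := by rw [hG, add_zero]
  refine le_antisymm ?_ ?_
  · rw [key (pvplSat W G F)]
    exact measure_mono h.sat_sub
  · rw [key F]
    exact measure_mono (pvpl_sub_sat W G F)

/-- **HULL** of an event which is local on an a.s. good set -/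
theorem PvplLocOn.hull (hp : IsPpp m μ) {W : Set E} (hW : MeasurableSet W) {G F : Set (Conf E)} (h : PvplLocOn W G F) (hG : μ Gᶜ = 0) :
    ∃ B, MeasurableSet B ∧ F ∩ G ⊆ B ∧ Conf.ReadsSet W B ∧ μ B = μ F := by
  obtain ⟨B, h1, h2, h3, h4⟩ := pvpl_hull hp hW (pvpl_sat_reads W G F)
  exact ⟨B, h1, (pvpl_sub_sat W G F).trans h2, h3, h4.trans (h.measure_sat hG)⟩

/-- **OUTER INDEPENDENCE** for events which are local on an a.s. good set -/
theorem pvpl_locOn_biInter {ι : Type*} (h : IsPpp m μ) {O : ι → Set E} (s : Finset ι) (hO : ∀ i ∈ s, MeasurableSet (O i))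
    (hd : (s : Set ι).PairwiseDisjoint O) {G : Set (Conf E)} (hG : μ Gᶜ = 0) {A : ι → Set (Conf E)} (hr : ∀ i ∈ s, PvplLocOn (O i) G (A i)) :
    μ (⋂ i ∈ s, A i) ≤ ∏ i ∈ s, μ (A i) := by
  have h1 : μ (⋂ i ∈ s, A i) ≤ μ ((⋂ i ∈ s, pvplSat (O i) G (A i)) ∪ Gᶜ) := measure_mono fun η hη => by
    by_cases hg : η ∈ G
    · refine Or.inl (mem_iInter₂.2 fun i hi => pvpl_sub_sat _ _ _ ⟨mem_iInter₂.1 hη i hi, hg⟩)
    · exact Or.inr hg
  calc μ (⋂ i ∈ s, A i) ≤ μ ((⋂ i ∈ s, pvplSat (O i) G (A i)) ∪ Gᶜ) := h1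
    _ ≤ μ (⋂ i ∈ s, pvplSat (O i) G (A i)) + μ Gᶜ := measure_union_le _ _
    _ = μ (⋂ i ∈ s, pvplSat (O i) G (A i)) := by rw [hG, add_zero]
    _ ≤ ∏ i ∈ s, μ (pvplSat (O i) G (A i)) := pvpl_outer_biInter h s hO hd fun i _ => pvpl_sat_reads _ _ _
    _ = ∏ i ∈ s, μ (A i) := Finset.prod_congr rfl fun i hi => (hr i hi).measure_sat hG

/-- **the hypothesis `hind` of `pv5_peierls`** (helper3) for ARBITRARY block events which are local on an a.s. good set: no measurability -/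
theorem pvpl_hind (h : IsPpp m μ) (Bad : ℤ × ℤ → Set (Conf E)) (Wd : ℤ × ℤ → Set E) (hW : ∀ x, MeasurableSet (Wd x)) (D : ℕ)
    (hdis : ∀ x y, (D : ℤ) ≤ pv5Dist x y → Disjoint (Wd x) (Wd y)) {G : Set (Conf E)} (hG : μ Gᶜ = 0) (hloc : ∀ x, PvplLocOn (Wd x) G (Bad x))
    (q : ℝ≥0∞) (hq : ∀ x, μ (Bad x) ≤ q) (T : Finset (ℤ × ℤ)) (hT : ∀ x ∈ T, ∀ y ∈ T, x ≠ y → (D : ℤ) ≤ pv5Dist x y) :
    μ (⋂ x ∈ T, Bad x) ≤ q ^ T.card := by
  refine (pvpl_locOn_biInter h T (fun x _ => hW x) (fun x hx y hy hxy => hdis x y (hT x hx y hy hxy)) hG fun x _ => hloc x).trans ?_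
  rw [← Finset.prod_const]
  exact Finset.prod_le_prod' fun x _ => hq x

/-- **PEIERLS at the level of the Poisson process**, no measurability (`pv5_peierls_exp` of helper3) -/
theorem pvpl_peierls (h : IsPpp m μ) (Bad : ℤ × ℤ → Set (Conf E)) (Wd : ℤ × ℤ → Set E) (hW : ∀ x, MeasurableSet (Wd x)) (D : ℕ) (hD : 0 < D)
    (hdis : ∀ x y, (D : ℤ) ≤ pv5Dist x y → Disjoint (Wd x) (Wd y)) {G : Set (Conf E)} (hG : μ Gᶜ = 0) (hloc : ∀ x, PvplLocOn (Wd x) G (Bad x))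
    (q : ℝ≥0∞) (hq : ∀ x, μ (Bad x) ≤ q) (hq' : q ≤ ((16 : ℝ≥0∞) ^ D ^ 2)⁻¹) (Start : Finset (ℤ × ℤ)) (k : ℕ) :
    μ {ω | ∃ c, Pv5Chain k c ∧ c 0 ∈ Start ∧ ∀ i ≤ k, ω ∈ Bad (c i)} ≤ Start.card * (16 ^ D ^ 2 * (2⁻¹ : ℝ≥0∞) ^ k) :=
  pv5_peierls_exp μ Bad D hD q hq' (pvpl_hind h Bad Wd hW D hdis hG hloc q hq) Start k

/-- **(5.1) independent trials**, no measurability (`pv5_trials` of helper3) -/
theorem pvpl_trials {ι : Type*} [Fintype ι] [DecidableEq ι] (h : IsPpp m μ) (T : ι → Set (Conf E)) (O : ι → Set E) (hO : ∀ i, MeasurableSet (O i))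
    (hd : Pairwise (Function.onFun Disjoint O)) {G : Set (Conf E)} (hG : μ Gᶜ = 0) (hloc : ∀ i, PvplLocOn (O i) G (T i))
    (p : ℝ≥0∞) (hp : ∀ i, μ (T i) ≤ p) (j : ℕ) :
    μ {ω | ∀ S : Finset ι, (∀ i ∈ S, ω ∉ T i) → S.card ≤ j} ≤ (Fintype.card ι).choose (Fintype.card ι - j) * p ^ (Fintype.card ι - j) := by
  refine (measure_mono (pv5_trials_sub T j)).trans ((measure_biUnion_finset_le _ _).trans ?_)
  have h' : ∀ S ∈ Finset.powersetCard (Fintype.card ι - j) (Finset.univ : Finset ι), μ (⋂ i ∈ S, T i) ≤ p ^ (Fintype.card ι - j) := by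
    intro S hS
    refine (pvpl_locOn_biInter h S (fun i _ => hO i) (fun i _ i' _ hii => hd hii) hG fun i _ => hloc i).trans ?_
    rw [← (Finset.mem_powersetCard.1 hS).2, ← Finset.prod_const]
    exact Finset.prod_le_prod' fun i _ => hp i
  refine (Finset.sum_le_sum h').trans ?_
  rw [Finset.sum_const, Finset.card_powersetCard, Finset.card_univ, nsmul_eq_mul]

end outer

/-- **(5.4) Markov for the number of flagged centres**, no measurability (`pv5_block_markov` of helper3) -/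
theorem pvpl_markov {Ω ι : Type*} [MeasurableSpace Ω] (μ : Measure Ω) (S : Finset ι) (F : ι → Set Ω) (k : ℕ) (hk : 0 < k) :
    μ {ω | ∃ U ⊆ S, k ≤ U.card ∧ ∀ i ∈ U, ω ∈ F i} ≤ (∑ i ∈ S, μ (F i)) / k := by
  have h1 := pv5_block_markov μ S (fun i => toMeasurable μ (F i)) (fun i _ => measurableSet_toMeasurable μ (F i)) k hk
  simp only [measure_toMeasurable] at h1
  refine (measure_mono ?_).trans h1
  rintro ω ⟨U, hU, hk', hF⟩
  exact ⟨U, hU, hk', fun i hi => subset_toMeasurable μ (F i) (hF i hi)⟩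

/-- an event of the configuration, seen on the sample space of a bulk family (two-level upper probability `l9Up` of `Cr/Inst`): OUTER measure on the right -/
theorem pvpl_l9_le (X : Type) [Fintype X] (ε : ℝ) (A : Set (Conf PvPt)) : (l9Up X ε).P {w | pvConf (l9Sm w).1 ∈ A} ≤ pvP ε A :=
  (l9_up_le X ε (pvConf ⁻¹' A)).trans (Measure.le_map_apply measurable_pvConf.aemeasurable A)

/-! ## 2. LOCAL ISOMORPHISMS OF MARKED COLOURED MAPS -/

section iso

variable {κ : Type} {V D V' D' : Type}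

/-- **AGREEMENT**: `R` is an isomorphism between the stars of the vertices with a mark in `K` of the two marked coloured maps.
`mk : V → κ` = MARKS (`κ = ℂ`, `mk = pos`: same positions;   `κ` countable, `mk = θ ∘ pos`: same position TESTS). -/
structure PvplIso (T : PvMap V D) (mk : V → κ) (s : V → Bool) (T' : PvMap V' D') (mk' : V' → κ) (s' : V' → Bool) (K : Set κ) (R : V → V' → Prop) : Prop where
  mark : ∀ u u', R u u' → mk' u' = mk u
  col : ∀ u u', R u u' → s' u' = s u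
  fn : ∀ u u' u'', R u u' → R u u'' → u' = u''
  inj : ∀ u v u', R u u' → R v u' → u = v
  ex : ∀ d, mk (T.src d) ∈ K → ∃ d', R (T.src d) (T'.src d') ∧ R (T.tgt d) (T'.tgt d') ∧ R (T.apex d) (T'.apex d')
  ex' : ∀ d', mk' (T'.src d') ∈ K → ∃ d, R (T.src d) (T'.src d') ∧ R (T.tgt d) (T'.tgt d') ∧ R (T.apex d) (T'.apex d')

/-- the induced correspondence of darts (= of faces with a marked side) -/
def PvplRD (T : PvMap V D) (T' : PvMap V' D') (R : V → V' → Prop) (d : D) (d' : D') : Prop :=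
  R (T.src d) (T'.src d') ∧ R (T.tgt d) (T'.tgt d') ∧ R (T.apex d) (T'.apex d')

/-- the faces with a vertex which satisfies `P` (`pvdiB T pos z ρ = pvplB T fun v => ‖pos v - z‖ ≤ ρ`) -/
def pvplB (T : PvMap V D) (P : V → Prop) : Set D := {d | P (T.src d) ∨ P (T.tgt d) ∨ P (T.apex d)}

theorem pvpl_eqns_cite2 : True := by
  have := @PvplRD.eq_1; have := @pvplB.eq_1
  trivial

variable {T : PvMap V D} {mk : V → κ} {s : V → Bool} {T' : PvMap V' D'} {mk' : V' → κ} {s' : V' → Bool} {K : Set κ} {R : V → V' → Prop}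

theorem pvpl_B_eq (T : PvMap V D) (pos : V → ℂ) (z : ℂ) (ρ : ℝ) : pvdiB T pos z ρ = pvplB T fun v => ‖pos v - z‖ ≤ ρ := rfl

theorem PvplIso.symm (h : PvplIso T mk s T' mk' s' K R) : PvplIso T' mk' s' T mk s K (fun u' u => R u u') where
  mark u' u hu := (h.mark u u' hu).symm
  col u' u hu := (h.col u u' hu).symm
  fn u' u v hu hv := h.inj u v u' hu hv
  inj u' v' u hu hv := h.fn u u' v' hu hv
  ex d' hd' := h.ex' d' hd'
  ex' d hd := h.ex d hd

theorem PvplIso.refl (T : PvMap V D) (mk : V → κ) (s : V → Bool) (K : Set κ) : PvplIso T mk s T mk s K Eq where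
  mark _ _ h := by rw [h]
  col _ _ h := by rw [h]
  fn _ _ _ h h' := h.symm.trans h'
  inj _ _ _ h h' := h.trans h'.symm
  ex d _ := ⟨d, rfl, rfl, rfl⟩
  ex' d _ := ⟨d, rfl, rfl, rfl⟩

theorem PvplIso.mono (h : PvplIso T mk s T' mk' s' K R) {K' : Set κ} (hK : K' ⊆ K) : PvplIso T mk s T' mk' s' K' R :=
  ⟨h.mark, h.col, h.fn, h.inj, fun d hd => h.ex d (hK hd), fun d hd => h.ex' d (hK hd)⟩

/-- coarser marks -/
theorem PvplIso.comap {κ' : Type} (h : PvplIso T mk s T' mk' s' K R) (g : κ → κ') {K' : Set κ'} (hK : g ⁻¹' K' ⊆ K) :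
    PvplIso T (g ∘ mk) s T' (g ∘ mk') s' K' R :=
  ⟨fun u u' hu => congrArg g (h.mark u u' hu), h.col, h.fn, h.inj, fun d hd => h.ex d (hK hd), fun d hd => h.ex' d (hK hd)⟩

theorem PvplRD.nxt {d : D} {d' : D'} (h : PvplRD T T' R d d') : PvplRD T T' R (T.nxt d) (T'.nxt d') := by
  obtain ⟨h1, h2, h3⟩ := h
  refine ⟨?_, ?_, ?_⟩
  · rw [T.src_nxt, T'.src_nxt]; exact h2
  · rw [T.tgt_nxt, T'.tgt_nxt]; exact h3
  · rw [T.apex_nxt, T'.apex_nxt]; exact h1

/-- the correspondence commutes with `opp` at the edges whose head has a mark in `K` -/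
theorem PvplIso.opp (h : PvplIso T mk s T' mk' s' K R) (hS' : T'.Simple) {d : D} {d' : D'} (hd : PvplRD T T' R d d') (hK : mk (T.tgt d) ∈ K) :
    PvplRD T T' R (T.opp d) (T'.opp d') := by
  obtain ⟨e', h1, h2, h3⟩ := h.ex (T.opp d) (by rw [T.src_opp']; exact hK)
  rw [T.src_opp'] at h1
  rw [T.tgt_opp] at h2
  have e1 : T'.src e' = T'.src (T'.opp d') := by rw [T'.src_opp']; exact h.fn _ _ _ h1 hd.2.1
  have e2 : T'.tgt e' = T'.tgt (T'.opp d') := by rw [T'.tgt_opp]; exact h.fn _ _ _ h2 hd.1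
  have e3 : e' = T'.opp d' := hS' _ _ e1 e2
  subst e3
  exact ⟨by rw [T.src_opp']; exact h1, by rw [T.tgt_opp]; exact h2, h3⟩

theorem PvplIso.rd_fn (h : PvplIso T mk s T' mk' s' K R) (hS' : T'.Simple) {d : D} {d₁ d₂ : D'} (h1 : PvplRD T T' R d d₁) (h2 : PvplRD T T' R d d₂) : d₁ = d₂ :=
  hS' _ _ (h.fn _ _ _ h1.1 h2.1) (h.fn _ _ _ h1.2.1 h2.2.1)

theorem PvplIso.rd_inj (h : PvplIso T mk s T' mk' s' K R) (hS : T.Simple) {d₁ d₂ : D} {d' : D'} (h1 : PvplRD T T' R d₁ d') (h2 : PvplRD T T' R d₂ d') : d₁ = d₂ :=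
  hS _ _ (h.inj _ _ _ h1.1 h2.1) (h.inj _ _ _ h1.2.1 h2.2.1)

/-- corresponding darts lie in corresponding face sets -/
theorem PvplIso.mem_B (h : PvplIso T mk s T' mk' s' K R) (P : κ → Prop) {d : D} {d' : D'} (hd : PvplRD T T' R d d') :
    d ∈ pvplB T (fun v => P (mk v)) ↔ d' ∈ pvplB T' (fun v => P (mk' v)) := by
  unfold pvplB
  simp only [mem_ofPred_eq]
  rw [h.mark _ _ hd.1, h.mark _ _ hd.2.1, h.mark _ _ hd.2.2]

/-! ### transfer of face sets, edges, boundaries, crossings, clean annuli -/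

/-- the faces at the vertices with `P` have all their vertices marked in `K` (a MESH condition, read at the vertices with `P`) -/
def PvplStar (T : PvMap V D) (mk : V → κ) (P : κ → Prop) (K : Set κ) : Prop := ∀ d, P (mk (T.src d)) → mk (T.tgt d) ∈ K ∧ mk (T.apex d) ∈ K

/-- `PvdiClean` of helper212 in terms of marks -/
def PvplClean (T : PvMap V D) (mk : V → κ) (s : V → Bool) (c : Bool) (Pa Pb : κ → Prop) : Prop :=
  ¬ ∃ F : Fin 3 → List V, (∀ i, PvgCross T s c (pvplB T fun v => Pa (mk v)) (pvplB T fun v => Pb (mk v)) (F i)) ∧ ∀ i j, i ≠ j → ∀ v ∈ F i, v ∉ F j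

theorem pvpl_eqns_cite3 : True := by
  have := @PvplStar.eq_1; have := @PvplClean.eq_1
  trivial

theorem pvpl_clean_eq (T : PvMap V D) (pos : V → ℂ) (s : V → Bool) (c : Bool) (z : ℂ) (a b : ℝ) :
    PvdiClean T pos s c z a b ↔ PvplClean T pos s c (fun p => ‖p - z‖ ≤ a) (fun p => ‖p - z‖ ≤ b) := Iff.rfl

theorem pvpl_B_face (T : PvMap V D) (P : V → Prop) : T.FaceSet (pvplB T P) := by
  intro d
  unfold pvplB
  simp only [mem_ofPred_eq]
  rw [T.src_nxt, T.tgt_nxt, T.apex_nxt]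
  tauto

theorem pvpl_B_mono (T : PvMap V D) {P Q : V → Prop} (h : ∀ v, P v → Q v) : pvplB T P ⊆ pvplB T Q := by
  rintro d (h1 | h1 | h1)
  · exact Or.inl (h _ h1)
  · exact Or.inr (Or.inl (h _ h1))
  · exact Or.inr (Or.inr (h _ h1))

theorem PvplStar.src_mem {P : κ → Prop} (hst : PvplStar T mk P K) (hP : ∀ k, P k → k ∈ K) {d : D} (hd : d ∈ pvplB T fun v => P (mk v)) : mk (T.src d) ∈ K := by
  rcases hd with h1 | h1 | h1
  · exact hP _ h1
  · have := (hst (T.nxt d) (by rw [T.src_nxt]; exact h1)).2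
    rwa [T.apex_nxt] at this
  · have := (hst (T.nxt (T.nxt d)) h1).1
    rwa [T.tgt_nxt2] at this

theorem PvplStar.tgt_mem {P : κ → Prop} (hst : PvplStar T mk P K) (hP : ∀ k, P k → k ∈ K) {d : D} (hd : d ∈ pvplB T fun v => P (mk v)) : mk (T.tgt d) ∈ K := by
  have := hst.src_mem hP ((pvpl_B_face T _ d).2 hd)
  rwa [T.src_nxt] at this

theorem PvplStar.VOf_mem {P : κ → Prop} (hst : PvplStar T mk P K) (hP : ∀ k, P k → k ∈ K) {v : V} (hv : v ∈ T.VOf (pvplB T fun v => P (mk v))) : mk v ∈ K := by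
  obtain ⟨d, hd, rfl⟩ := hv
  exact hst.src_mem hP hd

/-- the star condition is transferred -/
theorem PvplIso.star (h : PvplIso T mk s T' mk' s' K R) {P : κ → Prop} (hP : ∀ k, P k → k ∈ K) (hst : PvplStar T mk P K) : PvplStar T' mk' P K := by
  intro d' hd'
  obtain ⟨d, h1, h2, h3⟩ := h.ex' d' (hP _ hd')
  rw [h.mark _ _ h1] at hd'
  rw [h.mark _ _ h2, h.mark _ _ h3]
  exact hst d hd'

theorem PvplIso.edgeIn (h : PvplIso T mk s T' mk' s' K R) (hS' : T'.Simple) {A : Set D} {A' : Set D'} (hA : ∀ d d', PvplRD T T' R d d' → (d ∈ A ↔ d' ∈ A'))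
    {u v : V} {u' v' : V'} (hu : R u u') (hv : R v v') (hKu : mk u ∈ K) (hKv : mk v ∈ K) (he : T.EdgeIn A u v) : T'.EdgeIn A' u' v' := by
  obtain ⟨d, hd, rfl, rfl⟩ := he
  obtain ⟨d', hd'⟩ := h.ex d hKu
  refine ⟨d', ?_, h.fn _ _ _ hd'.1 hu, h.fn _ _ _ hd'.2.1 hv⟩
  rcases hd with hd | hd
  · exact Or.inl ((hA d d' hd').1 hd)
  · exact Or.inr ((hA _ _ (h.opp hS' hd' hKv)).1 hd)

theorem PvplIso.bdV (h : PvplIso T mk s T' mk' s' K R) (hS' : T'.Simple) {A : Set D} {A' : Set D'} (hA : ∀ d d', PvplRD T T' R d d' → (d ∈ A ↔ d' ∈ A'))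
    (hK : ∀ d, T.Bd A d → mk (T.src d) ∈ K ∧ mk (T.tgt d) ∈ K) {u : V} {u' : V'} (hu : R u u') (hb : u ∈ T.BdV A) : u' ∈ T'.BdV A' := by
  obtain ⟨d, rfl, hd⟩ := hb
  obtain ⟨d', hd'⟩ := h.ex d (hK d hd).1
  refine ⟨d', h.fn _ _ _ hd'.1 hu, ?_⟩
  unfold PvMap.Bd at hd ⊢
  rwa [← hA d d' hd', ← hA _ _ (h.opp hS' hd' (hK d hd).2)]

/-- the ends of a boundary edge of a face set are vertices of the face set -/
theorem pvpl_bd_VOf {A : Set D} (hA : T.FaceSet A) {d : D} (hd : T.Bd A d) : T.src d ∈ T.VOf A ∧ T.tgt d ∈ T.VOf A := by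
  by_cases h1 : d ∈ A
  · exact ⟨⟨d, h1, rfl⟩, ⟨T.nxt d, (hA d).2 h1, rfl⟩⟩
  · have h2 : T.opp d ∈ A := by
      by_contra h2
      exact hd ⟨fun h => absurd h h1, fun h => absurd h h2⟩
    exact ⟨⟨T.nxt (T.opp d), (hA _).2 h2, by rw [T.src_nxt, T.tgt_opp]⟩, ⟨T.opp d, h2, T.src_opp' d⟩⟩

theorem pvpl_edgeIn_VOf {A : Set D} (hA : T.FaceSet A) {u v : V} (he : T.EdgeIn A u v) : u ∈ T.VOf A ∧ v ∈ T.VOf A := by
  obtain ⟨d, hd, rfl, rfl⟩ := he
  rcases hd with hd | hd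
  · exact ⟨⟨d, hd, rfl⟩, ⟨T.nxt d, (hA d).2 hd, rfl⟩⟩
  · exact ⟨⟨T.nxt (T.opp d), (hA _).2 hd, by rw [T.src_nxt, T.tgt_opp]⟩, ⟨T.opp d, hd, T.src_opp' d⟩⟩

/-- the vertices of a crossing are vertices of faces of `O` -/
theorem pvpl_cross_VOf {c : Bool} {I O : Set D} (hI : T.FaceSet I) (hO : T.FaceSet O) (hIO : I ⊆ O) {l : List V} (hl : PvgCross T s c I O l) : ∀ v ∈ l, v ∈ T.VOf O := by
  obtain ⟨h1, -, -, ⟨a, ha, hh⟩, -⟩ := hl
  have hOI : T.FaceSet (O \ I) := fun d => and_congr (hO d) (not_congr (hI d))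
  cases l with
  | nil => simp
  | cons x t =>
    have hx : x = a := by simpa using hh
    subst hx
    intro v hv
    rcases List.mem_cons.1 hv with rfl | hv
    · obtain ⟨d, rfl, hd⟩ := ha
      exact pvdi_VOf_mono hIO (pvpl_bd_VOf hI hd).1
    · exact pvg_chain_tail (P := fun v => v ∈ T.VOf O) t x (h1.imp fun u w he => pvdi_VOf_mono sdiff_subset (pvpl_edgeIn_VOf hOI he).2) v hv

/-- **transfer of a crossing** -/
theorem PvplIso.cross (h : PvplIso T mk s T' mk' s' K R) (hS' : T'.Simple) {Pa Pb : κ → Prop} (hab : ∀ k, Pa k → Pb k) (hbK : ∀ k, Pb k → k ∈ K)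
    (hst : PvplStar T mk Pb K) {f : V → V'} (hf : ∀ v, (∃ v', R v v') → R v (f v)) {c : Bool} {l : List V}
    (hl : PvgCross T s c (pvplB T fun v => Pa (mk v)) (pvplB T fun v => Pb (mk v)) l) :
    PvgCross T' s' c (pvplB T' fun v => Pa (mk' v)) (pvplB T' fun v => Pb (mk' v)) (l.map f) := by
  have hI := pvpl_B_face T fun v => Pa (mk v)
  have hO := pvpl_B_face T fun v => Pb (mk v)
  have hIO : pvplB T (fun v => Pa (mk v)) ⊆ pvplB T fun v => Pb (mk v) := pvpl_B_mono T fun v => hab _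
  have hV := pvpl_cross_VOf hI hO hIO hl
  -- vertices of faces of `O` have partners
  have hR : ∀ v ∈ T.VOf (pvplB T fun v => Pb (mk v)), mk v ∈ K ∧ R v (f v) := by
    intro v hv
    have hk := hst.VOf_mem hbK hv
    obtain ⟨d, -, rfl⟩ := hv
    obtain ⟨d', hd'⟩ := h.ex d hk
    exact ⟨hk, hf _ ⟨_, hd'.1⟩⟩
  have hAI : ∀ d d', PvplRD T T' R d d' → (d ∈ pvplB T (fun v => Pa (mk v)) ↔ d' ∈ pvplB T' fun v => Pa (mk' v)) := fun d d' => h.mem_B Pa
  have hAO : ∀ d d', PvplRD T T' R d d' → (d ∈ pvplB T (fun v => Pb (mk v)) ↔ d' ∈ pvplB T' fun v => Pb (mk' v)) := fun d d' => h.mem_B Pb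
  have hAD : ∀ d d', PvplRD T T' R d d' → (d ∈ pvplB T (fun v => Pb (mk v)) \ pvplB T (fun v => Pa (mk v)) ↔
      d' ∈ pvplB T' (fun v => Pb (mk' v)) \ pvplB T' fun v => Pa (mk' v)) := fun d d' hd => and_congr (hAO d d' hd) (not_congr (hAI d d' hd))
  have hOI : T.FaceSet (pvplB T (fun v => Pb (mk v)) \ pvplB T fun v => Pa (mk v)) := fun d => and_congr (hO d) (not_congr (hI d))
  obtain ⟨h1, h2, h3, ⟨a, ha, hha⟩, ⟨b, hb, hhb⟩⟩ := hl
  refine ⟨?_, ?_, ?_, ⟨f a, ?_, ?_⟩, ⟨f b, ?_, ?_⟩⟩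
  · rw [List.isChain_map]
    refine h1.imp fun u v he => ?_
    have hu := hR u (pvdi_VOf_mono sdiff_subset (pvpl_edgeIn_VOf hOI he).1)
    have hv := hR v (pvdi_VOf_mono sdiff_subset (pvpl_edgeIn_VOf hOI he).2)
    exact h.edgeIn hS' hAD hu.2 hv.2 hu.1 hv.1 he
  · intro v' hv'
    obtain ⟨v, hv, rfl⟩ := List.mem_map.1 hv'
    rw [h.col _ _ (hR v (hV v hv)).2]
    exact h2 v hv
  · refine h3.map_on fun x hx y hy e => ?_
    have hy' := (hR y (hV y hy)).2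
    rw [← e] at hy'
    exact h.inj _ _ _ (hR x (hV x hx)).2 hy'
  · have haO : a ∈ T.VOf (pvplB T fun v => Pb (mk v)) := hV a (List.mem_of_mem_head? (by rw [hha]; rfl))
    refine h.bdV hS' hAI (fun d hd => ?_) (hR a haO).2 ha
    exact ⟨(hR _ (pvdi_VOf_mono hIO (pvpl_bd_VOf hI hd).1)).1, (hR _ (pvdi_VOf_mono hIO (pvpl_bd_VOf hI hd).2)).1⟩
  · rw [List.head?_map, hha]; rfl
  · have hbO : b ∈ T.VOf (pvplB T fun v => Pb (mk v)) := hV b (List.mem_of_getLast? hhb)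
    refine h.bdV hS' hAO (fun d hd => ?_) (hR b hbO).2 hb
    exact ⟨(hR _ (pvpl_bd_VOf hO hd).1).1, (hR _ (pvpl_bd_VOf hO hd).2).1⟩
  · rw [List.getLast?_map, hhb]; rfl

/-- **transfer of `PvdiClean`** (marks form) -/
theorem PvplIso.clean (h : PvplIso T mk s T' mk' s' K R) (hS : T.Simple) (hS' : T'.Simple) {Pa Pb : κ → Prop} (hab : ∀ k, Pa k → Pb k) (hbK : ∀ k, Pb k → k ∈ K)
    (hst : PvplStar T mk Pb K) (c : Bool) : PvplClean T mk s c Pa Pb ↔ PvplClean T' mk' s' c Pa Pb := by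
  classical
  -- one direction, for any isomorphism
  have key : ∀ {V D V' D' : Type} {T : PvMap V D} {mk : V → κ} {s : V → Bool} {T' : PvMap V' D'} {mk' : V' → κ} {s' : V' → Bool} {R : V → V' → Prop},
      PvplIso T mk s T' mk' s' K R → T'.Simple → PvplStar T mk Pb K → PvplClean T' mk' s' c Pa Pb → PvplClean T mk s c Pa Pb := by
    intro V D V' D' T mk s T' mk' s' R h hS' hst hcl
    rintro ⟨F, hF, hdis⟩
    have hI := pvpl_B_face T fun v => Pa (mk v)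
    have hO := pvpl_B_face T fun v => Pb (mk v)
    have hIO : pvplB T (fun v => Pa (mk v)) ⊆ pvplB T fun v => Pb (mk v) := pvpl_B_mono T fun v => hab _
    have hRex : ∀ v ∈ T.VOf (pvplB T fun v => Pb (mk v)), ∃ v', R v v' := by
      intro v hv
      have hk := hst.VOf_mem hbK hv
      obtain ⟨d, -, rfl⟩ := hv
      obtain ⟨d', hd'⟩ := h.ex d hk
      exact ⟨_, hd'.1⟩
    -- `V'` is inhabited
    obtain ⟨a, -, hha⟩ := (hF 0).2.2.2.1
    have ha0 : a ∈ F 0 := List.mem_of_mem_head? (by rw [hha]; rfl)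
    obtain ⟨a', -⟩ := hRex a (pvpl_cross_VOf hI hO hIO (hF 0) a ha0)
    set f : V → V' := fun v => if hv : ∃ v', R v v' then hv.choose else a' with hfdef
    have hf : ∀ v, (∃ v', R v v') → R v (f v) := by
      intro v hv
      simp only [hfdef, dif_pos hv]
      exact hv.choose_spec
    refine hcl ⟨fun i => (F i).map f, fun i => h.cross hS' hab hbK hst hf (hF i), ?_⟩
    intro i j hij v' hv' hv''
    obtain ⟨v, hv, rfl⟩ := List.mem_map.1 hv'
    obtain ⟨w, hw, e⟩ := List.mem_map.1 hv''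
    have h1 := hf v (hRex v (pvpl_cross_VOf hI hO hIO (hF i) v hv))
    have h2 := hf w (hRex w (pvpl_cross_VOf hI hO hIO (hF j) w hw))
    rw [e] at h2
    have : v = w := h.inj _ _ _ h1 h2
    subst this
    exact hdis i j hij v hv hw
  exact ⟨key h.symm hS (h.star hbK hst), key h hS' hst⟩

end iso

/-! ## 3. LOCAL PREDICATES ON MARKED COLOURED MAPS -/

/-- a predicate on marked coloured maps -/
def PvplPred (κ : Type) : Type 1 := ∀ V D : Type, PvMap V D → (V → κ) → (V → Bool) → Prop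

/-- `Φ` is READ AT THE VERTICES WITH A MARK IN `K`: it is invariant under the local isomorphisms of simple maps -/
def PvplPred.Local {κ : Type} (Φ : PvplPred κ) (K : Set κ) : Prop :=
  ∀ (V D V' D' : Type) (T : PvMap V D) (mk : V → κ) (s : V → Bool) (T' : PvMap V' D') (mk' : V' → κ) (s' : V' → Bool) (R : V → V' → Prop),
    T.Simple → T'.Simple → PvplIso T mk s T' mk' s' K R → (Φ V D T mk s ↔ Φ V' D' T' mk' s')

theorem pvpl_eqns_cite4 : True := by
  have := @PvplPred.eq_1; have := @PvplPred.Local.eq_1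
  trivial

section pred

variable {κ : Type} {K : Set κ}

theorem PvplPred.Local.mono {Φ : PvplPred κ} (h : Φ.Local K) {K' : Set κ} (hK : K ⊆ K') : Φ.Local K' :=
  fun V D V' D' T mk s T' mk' s' R hS hS' hi => h V D V' D' T mk s T' mk' s' R hS hS' (hi.mono hK)

theorem PvplPred.Local.not {Φ : PvplPred κ} (h : Φ.Local K) : PvplPred.Local (fun V D T mk s => ¬ Φ V D T mk s) K :=
  fun V D V' D' T mk s T' mk' s' R hS hS' hi => not_congr (h V D V' D' T mk s T' mk' s' R hS hS' hi)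

theorem PvplPred.Local.and {Φ Ψ : PvplPred κ} (h : Φ.Local K) (h' : Ψ.Local K) : PvplPred.Local (fun V D T mk s => Φ V D T mk s ∧ Ψ V D T mk s) K :=
  fun V D V' D' T mk s T' mk' s' R hS hS' hi => and_congr (h V D V' D' T mk s T' mk' s' R hS hS' hi) (h' V D V' D' T mk s T' mk' s' R hS hS' hi)

theorem PvplPred.Local.or {Φ Ψ : PvplPred κ} (h : Φ.Local K) (h' : Ψ.Local K) : PvplPred.Local (fun V D T mk s => Φ V D T mk s ∨ Ψ V D T mk s) K :=
  fun V D V' D' T mk s T' mk' s' R hS hS' hi => or_congr (h V D V' D' T mk s T' mk' s' R hS hS' hi) (h' V D V' D' T mk s T' mk' s' R hS hS' hi)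

theorem PvplPred.Local.forall {ι : Sort*} {Φ : ι → PvplPred κ} (h : ∀ i, (Φ i).Local K) : PvplPred.Local (fun V D T mk s => ∀ i, Φ i V D T mk s) K :=
  fun V D V' D' T mk s T' mk' s' R hS hS' hi => forall_congr' fun i => h i V D V' D' T mk s T' mk' s' R hS hS' hi

theorem PvplPred.Local.exists {ι : Sort*} {Φ : ι → PvplPred κ} (h : ∀ i, (Φ i).Local K) : PvplPred.Local (fun V D T mk s => ∃ i, Φ i V D T mk s) K :=
  fun V D V' D' T mk s T' mk' s' R hS hS' hi => exists_congr fun i => h i V D V' D' T mk s T' mk' s' R hS hS' hi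

/-- `Ψ` is local as soon as it is local where the local predicate `M` (mesh) holds -/
theorem PvplPred.Local.and_of {M Φ : PvplPred κ} (hM : M.Local K)
    (h : ∀ (V D V' D' : Type) (T : PvMap V D) (mk : V → κ) (s : V → Bool) (T' : PvMap V' D') (mk' : V' → κ) (s' : V' → Bool) (R : V → V' → Prop),
      T.Simple → T'.Simple → PvplIso T mk s T' mk' s' K R → M V D T mk s → (Φ V D T mk s ↔ Φ V' D' T' mk' s')) :
    PvplPred.Local (fun V D T mk s => M V D T mk s ∧ Φ V D T mk s) K := by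
  intro V D V' D' T mk s T' mk' s' R hS hS' hi
  have hMM := hM V D V' D' T mk s T' mk' s' R hS hS' hi
  constructor
  · rintro ⟨h1, h2⟩
    exact ⟨hMM.1 h1, (h V D V' D' T mk s T' mk' s' R hS hS' hi h1).1 h2⟩
  · rintro ⟨h1, h2⟩
    exact ⟨hMM.2 h1, (h V D V' D' T mk s T' mk' s' R hS hS' hi (hMM.2 h1)).2 h2⟩

/-- finer marks -/
theorem PvplPred.Local.comap {κ' : Type} {Φ : PvplPred κ'} {K' : Set κ'} (h : Φ.Local K') (g : κ → κ') (hK : g ⁻¹' K' ⊆ K) :
    PvplPred.Local (fun V D T mk s => Φ V D T (g ∘ mk) s) K :=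
  fun V D V' D' T mk s T' mk' s' R hS hS' hi => h V D V' D' T _ s T' _ s' R hS hS' (hi.comap g hK)

/-- the star (mesh) condition is local -/
theorem pvpl_star_local {P : κ → Prop} (hP : ∀ k, P k → k ∈ K) : PvplPred.Local (fun _ _ T mk _ => PvplStar T mk P K) K :=
  fun _ _ _ _ _ _ _ _ _ _ _ _ _ hi => ⟨hi.star hP, hi.symm.star hP⟩

/-- **`mesh ∧ clean` is local** -/
theorem pvpl_clean_local {Pa Pb : κ → Prop} (hab : ∀ k, Pa k → Pb k) (hbK : ∀ k, Pb k → k ∈ K) (c : Bool) :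
    PvplPred.Local (fun _ _ T mk s => PvplStar T mk Pb K ∧ PvplClean T mk s c Pa Pb) K :=
  PvplPred.Local.and_of (pvpl_star_local hbK) fun _ _ _ _ _ _ _ _ _ _ _ hS hS' hi hst => hi.clean hS hS' hab hbK hst c

end pred

/-! ## 4. BULK FAMILIES: the isomorphism from a correspondence of the sites of the window -/

section bulk

variable {κ : Type} {X X' : Type} {𝔅 : PvBulk X} {𝔅' : PvBulk X'} {E : Set ℂ} {ρ : ℝ}

/-- one direction of the correspondence of the faces -/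
theorem pvpl_iso_ex_aux (θ : ℂ → κ) {K : Set κ} (hρ : 0 < ρ) {Y Y' : Set ℂ} {zi : ℂ}
    (hok : 𝔅.Ok Y (θ ⁻¹' K)) (hok' : 𝔅'.Ok Y' (θ ⁻¹' K)) (hm : PvtrMesh ρ E Y)
    (hK : θ ⁻¹' K ⊆ pvtrCore (3 * ρ) E) (hzi : θ zi ∉ K) (Rs : ℂ → ℂ → Prop)
    (h1 : ∀ a a', Rs a a' → θ a' = θ a)
    (h5 : ∀ a b c, PvRet ρ E Y a b c → ∃ a' b' c', Rs a a' ∧ Rs b b' ∧ Rs c c' ∧ PvRet ρ E Y' a' b' c')
    (d : 𝔅.D Y) (hd : θ (𝔅.posF Y zi ((𝔅.T Y).src d)) ∈ K) :
    ∃ d', (∃ a a', Rs a a' ∧ 𝔅.lab Y ((𝔅.T Y).src d) = Sum.inl a ∧ 𝔅'.lab Y' ((𝔅'.T Y').src d') = Sum.inl a') ∧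
      (∃ a a', Rs a a' ∧ 𝔅.lab Y ((𝔅.T Y).tgt d) = Sum.inl a ∧ 𝔅'.lab Y' ((𝔅'.T Y').tgt d') = Sum.inl a') ∧
      (∃ a a', Rs a a' ∧ 𝔅.lab Y ((𝔅.T Y).apex d) = Sum.inl a ∧ 𝔅'.lab Y' ((𝔅'.T Y').apex d') = Sum.inl a') := by
  rcases hl : 𝔅.lab Y ((𝔅.T Y).src d) with a | x
  · rw [l9_posF_inl 𝔅 hl] at hd
    obtain ⟨b, c, hb, hc, htri⟩ := hok.del d a hl hd
    obtain ⟨a', b', c', ra, rb, rc, hret⟩ := h5 a b c (pvtr_of_mesh_vertex hρ hm (hK hd) htri)
    have ha' : a' ∈ θ ⁻¹' K := by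
      show θ a' ∈ K
      rw [h1 a a' ra]; exact hd
    obtain ⟨d', e1, e2, e3⟩ := hok'.face a' b' c' hret.tri ha'
    exact ⟨d', ⟨a, a', ra, rfl, e1⟩, ⟨b, b', rb, hb, e2⟩, ⟨c, c', rc, hc, e3⟩⟩
  · exfalso
    apply hzi
    have : 𝔅.posF Y zi ((𝔅.T Y).src d) = zi := by unfold PvBulk.posF; rw [hl]; rfl
    rwa [this] at hd

/-- **the isomorphism of two surfaces from a correspondence `Rs` of the sites of the window `E`** which preserves the tests `θ`, the colours and the retained triangles -/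
theorem pvpl_iso_of_sites (θ : ℂ → κ) {K : Set κ} (hρ : 0 < ρ) {η η' : Conf PvPt} {ξ : X → Bool} {ξ' : X' → Bool} {zi zi' : ℂ}
    (hok : 𝔅.Ok (cfSites η) (θ ⁻¹' K)) (hok' : 𝔅'.Ok (cfSites η') (θ ⁻¹' K)) (hm : PvtrMesh ρ E (cfSites η)) (hm' : PvtrMesh ρ E (cfSites η'))
    (hK : θ ⁻¹' K ⊆ pvtrCore (3 * ρ) E) (hzi : θ zi ∉ K) (hzi' : θ zi' ∉ K) (Rs : ℂ → ℂ → Prop)
    (h1 : ∀ a a', Rs a a' → θ a' = θ a) (h2 : ∀ a a', Rs a a' → cfCol η' a' = cfCol η a)
    (h3 : ∀ a a' a'', Rs a a' → Rs a a'' → a' = a'') (h4 : ∀ a b a', Rs a a' → Rs b a' → a = b)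
    (h5 : ∀ a b c, PvRet ρ E (cfSites η) a b c → ∃ a' b' c', Rs a a' ∧ Rs b b' ∧ Rs c c' ∧ PvRet ρ E (cfSites η') a' b' c')
    (h6 : ∀ a' b' c', PvRet ρ E (cfSites η') a' b' c' → ∃ a b c, Rs a a' ∧ Rs b b' ∧ Rs c c' ∧ PvRet ρ E (cfSites η) a b c) :
    PvplIso (𝔅.T (cfSites η)) (fun v => θ (𝔅.posF _ zi v)) (𝔅.col η ξ) (𝔅'.T (cfSites η')) (fun v => θ (𝔅'.posF _ zi' v)) (𝔅'.col η' ξ') K
      (fun u u' => ∃ a a', Rs a a' ∧ 𝔅.lab _ u = Sum.inl a ∧ 𝔅'.lab _ u' = Sum.inl a') := by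
  refine ⟨?_, ?_, ?_, ?_, ?_, ?_⟩
  · rintro u u' ⟨a, a', r, e, e'⟩
    show θ (𝔅'.posF _ zi' u') = θ (𝔅.posF _ zi u)
    rw [l9_posF_inl 𝔅 e, l9_posF_inl 𝔅' e']
    exact h1 a a' r
  · rintro u u' ⟨a, a', r, e, e'⟩
    unfold PvBulk.col
    rw [e, e']
    exact h2 a a' r
  · rintro u u' u'' ⟨a, a', r, e, e'⟩ ⟨b, b', r2, f, f'⟩
    have hab : a = b := Sum.inl.inj (e.symm.trans f)
    subst hab
    have := h3 a a' b' r r2
    subst this
    exact hok'.inj (e'.trans f'.symm)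
  · rintro u v u' ⟨a, a', r, e, e'⟩ ⟨b, b', r2, f, f'⟩
    have hab : a' = b' := Sum.inl.inj (e'.symm.trans f')
    subst hab
    have := h4 a b a' r r2
    subst this
    exact hok.inj (e.trans f.symm)
  · intro d hd
    exact pvpl_iso_ex_aux θ hρ hok hok' hm hK hzi Rs h1 h5 d hd
  · intro d' hd'
    obtain ⟨d, ⟨a', a, r, e', e⟩, ⟨b', b, r2, f', f⟩, ⟨c', c, r3, g', g⟩⟩ :=
      pvpl_iso_ex_aux θ hρ hok' hok hm' hK hzi' (fun a' a => Rs a a') (fun a' a r => (h1 a a' r).symm) h6 d' hd'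
    exact ⟨d, ⟨a, a', r, e, e'⟩, ⟨b, b', r2, f, f'⟩, ⟨c, c', r3, g, g'⟩⟩

theorem pvpl_col_congr_aux {η η' : Conf PvPt} {a a' : ℂ} (h : (a, true) ∈ η.pts ↔ (a', true) ∈ η'.pts) : cfCol η' a' = cfCol η a := by
  unfold cfCol
  exact decide_eq_decide.2 h.symm

/-- **(P4), two completions / two configurations with the same points in the window** -/
theorem pvpl_iso_of_ok (θ : ℂ → κ) {K : Set κ} (hρ : 0 < ρ) {η η' : Conf PvPt} {ξ : X → Bool} {ξ' : X' → Bool} {zi zi' : ℂ}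
    (hok : 𝔅.Ok (cfSites η) (θ ⁻¹' K)) (hok' : 𝔅'.Ok (cfSites η') (θ ⁻¹' K)) (hm : PvtrMesh ρ E (cfSites η))
    (hK : θ ⁻¹' K ⊆ pvtrCore (3 * ρ) E) (hzi : θ zi ∉ K) (hzi' : θ zi' ∉ K) (hηη : Conf.restr (E ×ˢ univ) η = Conf.restr (E ×ˢ univ) η') :
    PvplIso (𝔅.T (cfSites η)) (fun v => θ (𝔅.posF _ zi v)) (𝔅.col η ξ) (𝔅'.T (cfSites η')) (fun v => θ (𝔅'.posF _ zi' v)) (𝔅'.col η' ξ') K
      (fun u u' => ∃ a a', (a ∈ E ∧ a' = a) ∧ 𝔅.lab _ u = Sum.inl a ∧ 𝔅'.lab _ u' = Sum.inl a') := by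
  have hYY : cfSites η ∩ E = cfSites η' ∩ E := by rw [← pvtr_sites_restr, ← pvtr_sites_restr, hηη]
  refine pvpl_iso_of_sites θ hρ hok hok' hm ((pvtr_mesh_congr hYY).1 hm) hK hzi hzi' (fun a a' => a ∈ E ∧ a' = a) ?_ ?_ ?_ ?_ ?_ ?_
  · rintro a a' ⟨_, rfl⟩; rfl
  · rintro a a' ⟨ha, rfl⟩
    refine pvpl_col_congr_aux ?_
    have e1 := pvtr_reads_col ha true η
    have e2 := pvtr_reads_col ha true η'
    simp only at e1 e2
    rw [← e1, ← e2, hηη]
  · rintro a a' a'' ⟨_, rfl⟩ ⟨_, rfl⟩; rfl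
  · rintro a b a' ⟨_, rfl⟩ ⟨_, h⟩; exact h
  · intro a b c h
    exact ⟨a, b, c, ⟨h.mem_a.2, rfl⟩, ⟨h.mem_b.2, rfl⟩, ⟨h.mem_c.2, rfl⟩, (pvtr_congr hYY).1 h⟩
  · intro a b c h
    exact ⟨a, b, c, ⟨h.mem_a.2, rfl⟩, ⟨h.mem_b.2, rfl⟩, ⟨h.mem_c.2, rfl⟩, (pvtr_congr hYY).2 h⟩

/-- **(P4) LOCALITY**: a local predicate has the same value on all the completions and on all the configurations with the same points in the window -/
theorem PvplPred.Local.congr_ok {Φ : PvplPred κ} {K : Set κ} (hΦ : Φ.Local K) (θ : ℂ → κ) (hρ : 0 < ρ) {η η' : Conf PvPt} {ξ : X → Bool} {ξ' : X' → Bool} {zi zi' : ℂ}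
    (hok : 𝔅.Ok (cfSites η) (θ ⁻¹' K)) (hok' : 𝔅'.Ok (cfSites η') (θ ⁻¹' K)) (hm : PvtrMesh ρ E (cfSites η))
    (hK : θ ⁻¹' K ⊆ pvtrCore (3 * ρ) E) (hzi : θ zi ∉ K) (hzi' : θ zi' ∉ K) (hηη : Conf.restr (E ×ˢ univ) η = Conf.restr (E ×ˢ univ) η') :
    Φ _ _ (𝔅.T (cfSites η)) (fun v => θ (𝔅.posF _ zi v)) (𝔅.col η ξ) ↔ Φ _ _ (𝔅'.T (cfSites η')) (fun v => θ (𝔅'.posF _ zi' v)) (𝔅'.col η' ξ') :=
  hΦ _ _ _ _ _ _ _ _ _ _ _ hok.simple hok'.simple (pvpl_iso_of_ok θ hρ hok hok' hm hK hzi hzi' hηη)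

end bulk

/-! ## 5. COMBINATORIAL TYPES OF THE WINDOW;  THE MAIN THEOREM -/

section types

variable {κ : Type}

/-- the combinatorial type of the first `n` points of `y`: retained triangles, black sites, tests, coincidences of sites -/
def pvplTy (ρ : ℝ) (E : Set ℂ) (θ : ℂ → κ) (n : ℕ) (y : ℕ → PvPt) :
    (Fin n → Fin n → Fin n → Prop) × (Fin n → Prop) × (Fin n → κ) × (Fin n → Fin n → Prop) :=
  (fun i j k => PvRet ρ E (cfSites (Conf.cell (n, y))) (y i).1 (y j).1 (y k).1, fun i => ((y i).1, true) ∈ (Conf.cell (n, y)).pts,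
    fun i => θ (y i).1, fun i j => (y i).1 = (y j).1)

theorem pvpl_eqns_cite5 : True := by
  have := @pvplTy.eq_1
  trivial

/-- the windows for which "the closed disc lies in `E`" is a Borel condition -/
def PvplWin (E : Set ℂ) : Prop := MeasurableSet E ∧ MeasurableSet {q : ℂ × ℝ | closedBall q.1 q.2 ⊆ E}

theorem pvpl_eqns_cite6 : True := by
  have := @PvplWin.eq_1
  trivial

/-- inclusion of closed discs of the plane -/
theorem pvpl_ball_sub_aux (w z : ℂ) (s r : ℝ) : closedBall w s ⊆ closedBall z r ↔ s < 0 ∨ ‖w - z‖ + s ≤ r := by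
  constructor
  · intro h
    by_contra hc
    rw [not_or, not_lt, not_le] at hc
    obtain ⟨hs, hr⟩ := hc
    by_cases hwz : w = z
    · subst hwz
      have h1 : w + (s : ℂ) ∈ closedBall w s := by
        rw [mem_closedBall, dist_eq_norm, add_sub_cancel_left, Complex.norm_real, Real.norm_of_nonneg hs]
      have h2 := h h1
      rw [mem_closedBall, dist_eq_norm, add_sub_cancel_left, Complex.norm_real, Real.norm_of_nonneg hs] at h2
      rw [sub_self, norm_zero, zero_add] at hr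
      linarith
    · have hn : 0 < ‖w - z‖ := norm_pos_iff.2 (sub_ne_zero.2 hwz)
      set t : ℝ := s / ‖w - z‖ with ht
      have ht0 : 0 ≤ t := div_nonneg hs hn.le
      have htn : t * ‖w - z‖ = s := by rw [ht]; field_simp
      have h1 : w + (t : ℂ) * (w - z) ∈ closedBall w s := by
        rw [mem_closedBall, dist_eq_norm, add_sub_cancel_left, norm_mul, Complex.norm_real, Real.norm_of_nonneg ht0, htn]
      have h2 := h h1
      have e : w + (t : ℂ) * (w - z) - z = ((1 + t : ℝ) : ℂ) * (w - z) := by push_cast; ring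
      rw [mem_closedBall, dist_eq_norm, e, norm_mul, Complex.norm_real, Real.norm_of_nonneg (by linarith)] at h2
      nlinarith
  · rintro (h | h)
    · rw [closedBall_eq_empty.2 h]; exact empty_subset _
    · refine closedBall_subset_closedBall' ?_
      rw [dist_eq_norm]; linarith

theorem pvpl_win_ball (z : ℂ) (r : ℝ) : PvplWin (closedBall z r) := by
  refine ⟨measurableSet_closedBall, ?_⟩
  have e : {q : ℂ × ℝ | closedBall q.1 q.2 ⊆ closedBall z r} = {q : ℂ × ℝ | q.2 < 0} ∪ {q : ℂ × ℝ | ‖q.1 - z‖ + q.2 ≤ r} := by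
    ext q
    exact pvpl_ball_sub_aux q.1 z q.2 r
  rw [e]
  exact (measurableSet_lt measurable_snd measurable_const).union
    (measurableSet_le (((measurable_fst.sub_const z).norm).add measurable_snd) measurable_const)

/-- the circumcentre is a measurable function (copy of `delm_measurable_O` of `Del/Meas`, which is not imported here) -/
theorem pvpl_meas_O_aux {α : Type*} [MeasurableSpace α] {f g h : α → ℂ} (hf : Measurable f) (hg : Measurable g) (hh : Measurable h) :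
    Measurable fun x => delO (f x) (g x) (h x) := by
  have hre := Complex.measurable_re
  have him := Complex.measurable_im
  have hP : Measurable fun x => delP (f x) (g x) (h x) := by
    unfold delP
    fun_prop
  have hS : Measurable fun x => delS (f x) (g x) (h x) := by
    unfold delS
    exact hP.div ((delgp_meas_det hf hg hh).const_mul 2)
  unfold delO delBis
  exact ((hf.add hg).div_const 2).add ((Complex.measurable_ofReal.comp hS).mul ((hg.sub hf).const_mul Complex.I))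

/-- the retained triangles are Borel in the enumeration -/
theorem pvpl_meas_ret {ρ : ℝ} {E : Set ℂ} (hE : PvplWin E) (n : ℕ) (i j k : Fin n) :
    MeasurableSet {y : ℕ → PvPt | PvRet ρ E (cfSites (Conf.cell (n, y))) (y i).1 (y j).1 (y k).1} := by
  have hs : ∀ l : ℕ, Measurable fun y : ℕ → PvPt => (y l).1 := fun l => (measurable_pi_apply l).fst
  have hO : Measurable fun y : ℕ → PvPt => delO (y i).1 (y j).1 (y k).1 := pvpl_meas_O_aux (hs i) (hs j) (hs k)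
  have hr : Measurable fun y : ℕ → PvPt => ‖delO (y i).1 (y j).1 (y k).1 - (y i).1‖ := (hO.sub (hs i)).norm
  have e : {y : ℕ → PvPt | PvRet ρ E (cfSites (Conf.cell (n, y))) (y i).1 (y j).1 (y k).1}
      = (fun y : ℕ → PvPt => (y i).1) ⁻¹' E ∩ ((fun y : ℕ → PvPt => (y j).1) ⁻¹' E ∩ ((fun y : ℕ → PvPt => (y k).1) ⁻¹' E ∩
        ({y : ℕ → PvPt | 0 < vorDet (y i).1 (y j).1 (y k).1} ∩ ({y : ℕ → PvPt | ‖delO (y i).1 (y j).1 (y k).1 - (y i).1‖ ≤ ρ} ∩
        ((fun y : ℕ → PvPt => (delO (y i).1 (y j).1 (y k).1, ‖delO (y i).1 (y j).1 (y k).1 - (y i).1‖)) ⁻¹' {q : ℂ × ℝ | closedBall q.1 q.2 ⊆ E} ∩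
        ⋂ l : Fin n, (((fun y : ℕ → PvPt => (y l).1) ⁻¹' E)ᶜ ∪
          {y : ℕ → PvPt | ‖delO (y i).1 (y j).1 (y k).1 - (y i).1‖ ≤ ‖delO (y i).1 (y j).1 (y k).1 - (y l).1‖})))))) := by
    ext y
    have hmem : ∀ l : Fin n, (y l).1 ∈ cfSites (Conf.cell (n, y)) := fun l => ⟨y l, ⟨l, l.2, rfl⟩, rfl⟩
    simp only [PvRet, mem_ofPred_eq, mem_inter_iff, mem_preimage, mem_iInter, mem_union, mem_compl_iff, hmem, true_and]
    refine and_congr_right fun _ => and_congr_right fun _ => and_congr_right fun _ => and_congr_right fun _ => and_congr_right fun _ => and_congr_right fun _ => ?_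
    constructor
    · intro h l
      by_cases hl : (y l).1 ∈ E
      · exact Or.inr (h _ ⟨hmem l, hl⟩)
      · exact Or.inl hl
    · rintro h w ⟨⟨p, ⟨l, hl, rfl⟩, rfl⟩, hw⟩
      rcases h ⟨l, hl⟩ with h' | h'
      · exact absurd hw h'
      · exact h'
  rw [e]
  refine (hs i hE.1).inter ((hs j hE.1).inter ((hs k hE.1).inter ((measurableSet_lt measurable_const (delgp_meas_det (hs i) (hs j) (hs k))).inter
    ((measurableSet_le hr measurable_const).inter (((hO.prodMk hr) hE.2).inter (MeasurableSet.iInter fun l => ?_))))))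
  exact (hs l hE.1).compl.union (measurableSet_le hr (hO.sub (hs l)).norm)

/-- `{x | p x ↔ q}` is measurable -/
theorem pvpl_meas_iff_aux {α : Type*} [MeasurableSpace α] {p : α → Prop} (hp : MeasurableSet {x | p x}) (q : Prop) : MeasurableSet {x | p x = q} := by
  by_cases hq : q
  · have : {x | p x = q} = {x | p x} := by
      ext x; simp only [mem_ofPred_eq, hq, eq_iff_iff, iff_true]
    rw [this]; exact hp
  · have : {x | p x = q} = {x | p x}ᶜ := by
      ext x; simp only [mem_ofPred_eq, hq, eq_iff_iff, iff_false, mem_compl_iff]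
    rw [this]; exact hp.compl

/-- the fibres of the type map are Borel -/
theorem pvpl_meas_ty [Countable κ] [MeasurableSpace κ] [MeasurableSingletonClass κ] {ρ : ℝ} {E : Set ℂ} (hE : PvplWin E) {θ : ℂ → κ} (hθ : Measurable θ) (n : ℕ)
    (t : (Fin n → Fin n → Fin n → Prop) × (Fin n → Prop) × (Fin n → κ) × (Fin n → Fin n → Prop)) :
    MeasurableSet {y : ℕ → PvPt | pvplTy ρ E θ n y = t} := by
  have hs : ∀ l : ℕ, Measurable fun y : ℕ → PvPt => (y l).1 := fun l => (measurable_pi_apply l).fst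
  have e : {y : ℕ → PvPt | pvplTy ρ E θ n y = t}
      = (⋂ i : Fin n, ⋂ j : Fin n, ⋂ k : Fin n, {y : ℕ → PvPt | PvRet ρ E (cfSites (Conf.cell (n, y))) (y i).1 (y j).1 (y k).1 = t.1 i j k}) ∩
        ((⋂ i : Fin n, {y : ℕ → PvPt | (((y i).1, true) ∈ (Conf.cell (n, y)).pts) = t.2.1 i}) ∩
        ((⋂ i : Fin n, {y : ℕ → PvPt | θ (y i).1 = t.2.2.1 i}) ∩
        (⋂ i : Fin n, ⋂ j : Fin n, {y : ℕ → PvPt | ((y i).1 = (y j).1) = t.2.2.2 i j}))) := by
    ext y
    obtain ⟨t1, t2, t3, t4⟩ := t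
    simp only [pvplTy, mem_ofPred_eq, Prod.mk.injEq, mem_inter_iff, mem_iInter, funext_iff]
  rw [e]
  refine (MeasurableSet.iInter fun i => MeasurableSet.iInter fun j => MeasurableSet.iInter fun k => pvpl_meas_iff_aux (pvpl_meas_ret hE n i j k) _).inter
    ((MeasurableSet.iInter fun i => pvpl_meas_iff_aux ?_ _).inter ((MeasurableSet.iInter fun i => ?_).inter
      (MeasurableSet.iInter fun i => MeasurableSet.iInter fun j => pvpl_meas_iff_aux (measurableSet_eq_fun (hs i) (hs j)) _)))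
  · have e2 : {y : ℕ → PvPt | ((y i).1, true) ∈ (Conf.cell (n, y)).pts} = ⋃ l : Fin n, ({y : ℕ → PvPt | (y i).1 = (y l).1} ∩ (fun y : ℕ → PvPt => (y l).2) ⁻¹' {true}) := by
      ext y
      simp only [Conf.cell, mem_ofPred_eq, mem_iUnion, mem_inter_iff, mem_preimage, mem_singleton_iff]
      constructor
      · rintro ⟨l, hl, h⟩
        exact ⟨⟨l, hl⟩, (Prod.ext_iff.1 h).1, (Prod.ext_iff.1 h).2.symm⟩
      · rintro ⟨l, h1, h2⟩
        exact ⟨l, l.2, Prod.ext h1 h2.symm⟩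
    rw [e2]
    exact MeasurableSet.iUnion fun l => (measurableSet_eq_fun (hs i) (hs l)).inter ((measurable_pi_apply (l : ℕ)).snd (measurableSet_singleton true))
  · exact (hθ.comp (hs i)) (measurableSet_singleton _)

variable {X X' : Type} {𝔅 : PvBulk X} {𝔅' : PvBulk X'} {E : Set ℂ} {ρ : ℝ}

/-- **same type ⟹ isomorphic** -/
theorem pvpl_iso_of_ty (θ : ℂ → κ) {K : Set κ} (hρ : 0 < ρ) {η η' : Conf PvPt} {ξ : X → Bool} {ξ' : X' → Bool} {zi zi' : ℂ}
    (hok : 𝔅.Ok (cfSites η) (θ ⁻¹' K)) (hok' : 𝔅'.Ok (cfSites η') (θ ⁻¹' K)) (hm : PvtrMesh ρ E (cfSites η)) (hm' : PvtrMesh ρ E (cfSites η'))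
    (hK : θ ⁻¹' K ⊆ pvtrCore (3 * ρ) E) (hzi : θ zi ∉ K) (hzi' : θ zi' ∉ K) {n : ℕ} {y y' : ℕ → PvPt}
    (hy : Conf.restr (E ×ˢ univ) η = Conf.cell (n, y)) (hy' : Conf.restr (E ×ˢ univ) η' = Conf.cell (n, y')) (hty : pvplTy ρ E θ n y = pvplTy ρ E θ n y') :
    PvplIso (𝔅.T (cfSites η)) (fun v => θ (𝔅.posF _ zi v)) (𝔅.col η ξ) (𝔅'.T (cfSites η')) (fun v => θ (𝔅'.posF _ zi' v)) (𝔅'.col η' ξ') K
      (fun u u' => ∃ a a', (∃ i : Fin n, a = (y i).1 ∧ a' = (y' i).1) ∧ 𝔅.lab _ u = Sum.inl a ∧ 𝔅'.lab _ u' = Sum.inl a') := by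
  classical
  -- sites of the window
  have hsE : ∀ {ζ : Conf PvPt} {m : ℕ} {w : ℕ → PvPt}, Conf.restr (E ×ˢ univ) ζ = Conf.cell (m, w) → cfSites ζ ∩ E = cfSites (Conf.cell (m, w)) := by
    intro ζ m w h
    rw [← h, pvtr_sites_restr]
  have hmemE : ∀ {ζ : Conf PvPt} {m : ℕ} {w : ℕ → PvPt}, Conf.restr (E ×ˢ univ) ζ = Conf.cell (m, w) → ∀ i : Fin m, w i ∈ ζ.pts ∧ (w i).1 ∈ E := by
    intro ζ m w h i
    have h1 : w i ∈ (Conf.cell (m, w)).pts := ⟨i, i.2, rfl⟩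
    rw [← h] at h1
    exact ⟨h1.1, h1.2.1⟩
  have hret : ∀ {ζ : Conf PvPt} {m : ℕ} {w : ℕ → PvPt}, Conf.restr (E ×ˢ univ) ζ = Conf.cell (m, w) → ∀ a b c,
      (PvRet ρ E (cfSites ζ) a b c ↔ PvRet ρ E (cfSites (Conf.cell (m, w))) a b c) := by
    intro ζ m w h a b c
    refine pvtr_congr ?_
    rw [← hsE h, inter_assoc, inter_self]
  have hidx : ∀ {ζ : Conf PvPt} {m : ℕ} {w : ℕ → PvPt}, Conf.restr (E ×ˢ univ) ζ = Conf.cell (m, w) → ∀ a, a ∈ cfSites ζ ∩ E → ∃ i : Fin m, a = (w i).1 := by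
    intro ζ m w h a ha
    rw [hsE h] at ha
    obtain ⟨p, ⟨j, hj, rfl⟩, rfl⟩ := ha
    exact ⟨⟨j, hj⟩, rfl⟩
  have hcol : ∀ {ζ : Conf PvPt} {m : ℕ} {w : ℕ → PvPt}, Conf.restr (E ×ˢ univ) ζ = Conf.cell (m, w) → ∀ i : Fin m,
      (((w i).1, true) ∈ ζ.pts ↔ ((w i).1, true) ∈ (Conf.cell (m, w)).pts) := by
    intro ζ m w h i
    rw [← h]
    exact ⟨fun h1 => ⟨h1, (hmemE h i).2, mem_univ _⟩, fun h1 => h1.1⟩
  have t1 : ∀ i j k : Fin n, PvRet ρ E (cfSites (Conf.cell (n, y))) (y i).1 (y j).1 (y k).1 ↔ PvRet ρ E (cfSites (Conf.cell (n, y'))) (y' i).1 (y' j).1 (y' k).1 :=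
    fun i j k => iff_of_eq (congrFun (congrFun (congrFun (congrArg Prod.fst hty) i) j) k)
  have t2 : ∀ i : Fin n, ((y i).1, true) ∈ (Conf.cell (n, y)).pts ↔ ((y' i).1, true) ∈ (Conf.cell (n, y')).pts :=
    fun i => iff_of_eq (congrFun (congrArg (fun t => t.2.1) hty) i)
  have t3 : ∀ i : Fin n, θ (y i).1 = θ (y' i).1 := fun i => congrFun (congrArg (fun t => t.2.2.1) hty) i
  have t4 : ∀ i j : Fin n, (y i).1 = (y j).1 ↔ (y' i).1 = (y' j).1 := fun i j => iff_of_eq (congrFun (congrFun (congrArg (fun t => t.2.2.2) hty) i) j)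
  refine pvpl_iso_of_sites θ hρ hok hok' hm hm' hK hzi hzi' (fun a a' => ∃ i : Fin n, a = (y i).1 ∧ a' = (y' i).1) ?_ ?_ ?_ ?_ ?_ ?_
  · rintro a a' ⟨i, rfl, rfl⟩
    exact (t3 i).symm
  · rintro a a' ⟨i, rfl, rfl⟩
    unfold cfCol
    exact decide_eq_decide.2 (((hcol hy' i).trans (t2 i).symm).trans (hcol hy i).symm)
  · rintro a a' a'' ⟨i, rfl, rfl⟩ ⟨j, h1, rfl⟩
    exact (t4 i j).1 h1
  · rintro a b a' ⟨i, rfl, rfl⟩ ⟨j, rfl, h1⟩
    exact (t4 i j).2 h1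
  · intro a b c h
    obtain ⟨i, rfl⟩ := hidx hy a h.1
    obtain ⟨j, rfl⟩ := hidx hy b h.2.1
    obtain ⟨k, rfl⟩ := hidx hy c h.2.2.1
    exact ⟨_, _, _, ⟨i, rfl, rfl⟩, ⟨j, rfl, rfl⟩, ⟨k, rfl, rfl⟩, (hret hy' _ _ _).2 ((t1 i j k).1 ((hret hy _ _ _).1 h))⟩
  · intro a b c h
    obtain ⟨i, rfl⟩ := hidx hy' a h.1
    obtain ⟨j, rfl⟩ := hidx hy' b h.2.1
    obtain ⟨k, rfl⟩ := hidx hy' c h.2.2.1
    exact ⟨_, _, _, ⟨i, rfl, rfl⟩, ⟨j, rfl, rfl⟩, ⟨k, rfl, rfl⟩, (hret hy _ _ _).2 ((t1 i j k).2 ((hret hy' _ _ _).1 h))⟩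

/-- **MAIN THEOREM (locality + measurability + independence of the completion)**.   `θ` = countably many Borel position tests, `Φ` a predicate on marked coloured maps which is read at the vertices with a mark in `K`,
`E` a bounded window whose `3ρ`-core contains `θ⁻¹ K`.      There is ONE measurable event `B`, read from `E ×ˢ univ`, which on the mesh event is the event `Φ` for EVERY completion. -/
theorem pvpl_main [Countable κ] [MeasurableSpace κ] [MeasurableSingletonClass κ] {θ : ℂ → κ} (hθ : Measurable θ) {Φ : PvplPred κ} {K : Set κ} (hΦ : Φ.Local K)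
    (hE : PvplWin E) (hρ : 0 < ρ) (hK : θ ⁻¹' K ⊆ pvtrCore (3 * ρ) E) :
    ∃ B : Set (Conf PvPt), MeasurableSet B ∧ Conf.ReadsSet (E ×ˢ univ) B ∧
      ∀ (X : Type) (𝔅 : PvBulk X) (η : Conf PvPt) (ξ : X → Bool) (zi : ℂ), (η.pts ∩ E ×ˢ univ).Finite → 𝔅.Ok (cfSites η) (θ ⁻¹' K) → PvtrMesh ρ E (cfSites η) → θ zi ∉ K →
        (η ∈ B ↔ Φ _ _ (𝔅.T (cfSites η)) (fun v => θ (𝔅.posF _ zi v)) (𝔅.col η ξ)) := by
  classical
  have hO : MeasurableSet (E ×ˢ (univ : Set Bool)) := hE.1.prod MeasurableSet.univ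
  obtain ⟨Y, hY, hYe⟩ := pvcn_enum hO
  -- the good types
  let Good : ∀ n : ℕ, ((Fin n → Fin n → Fin n → Prop) × (Fin n → Prop) × (Fin n → κ) × (Fin n → Fin n → Prop)) → Prop := fun n t =>
    ∃ (X : Type) (𝔅 : PvBulk X) (η : Conf PvPt) (ξ : X → Bool) (zi : ℂ) (y : ℕ → PvPt), Conf.restr (E ×ˢ univ) η = Conf.cell (n, y) ∧ pvplTy ρ E θ n y = t ∧
      𝔅.Ok (cfSites η) (θ ⁻¹' K) ∧ PvtrMesh ρ E (cfSites η) ∧ θ zi ∉ K ∧ Φ _ _ (𝔅.T (cfSites η)) (fun v => θ (𝔅.posF _ zi v)) (𝔅.col η ξ)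
  let G2 : ℕ → (ℕ → PvPt) → Prop := fun n y => Good n (pvplTy ρ E θ n y)
  have hpts : ∀ η : Conf PvPt, (Conf.restr (E ×ˢ univ) η).pts ∩ E ×ˢ univ = η.pts ∩ E ×ˢ univ := by
    intro η
    show (η.pts ∩ E ×ˢ univ) ∩ E ×ˢ univ = _
    rw [inter_assoc, inter_self]
  have hcell : ∀ η : Conf PvPt, (η.pts ∩ E ×ˢ univ).Finite →
      Conf.restr (E ×ˢ univ) η = Conf.cell ((η.pts ∩ E ×ˢ univ).ncard, Y (Conf.restr (E ×ˢ univ) η)) := by
    intro η hfin
    have := hYe (Conf.restr (E ×ˢ univ) η) (by rw [hpts]; exact hfin)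
    rwa [pvi_restr_idem, hpts] at this
  refine ⟨{η | (η.pts ∩ E ×ˢ univ).Finite ∧ G2 (η.pts ∩ E ×ˢ univ).ncard (Y (Conf.restr (E ×ˢ univ) η))}, ?_, ?_, ?_⟩
  · -- measurability
    have e : {η : Conf PvPt | (η.pts ∩ E ×ˢ univ).Finite ∧ G2 (η.pts ∩ E ×ˢ univ).ncard (Y (Conf.restr (E ×ˢ univ) η))}
        = ⋃ n : ℕ, ({η : Conf PvPt | (η.pts ∩ E ×ˢ univ).Finite} ∩ ({η : Conf PvPt | (η.pts ∩ E ×ˢ univ).ncard = n} ∩
            (fun η => Y (Conf.restr (E ×ˢ univ) η)) ⁻¹' (⋃ t ∈ {t | Good n t}, {y : ℕ → PvPt | pvplTy ρ E θ n y = t}))) := by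
      ext η
      simp only [mem_ofPred_eq, mem_iUnion, mem_inter_iff, mem_preimage, exists_prop]
      constructor
      · rintro ⟨h1, h2⟩
        exact ⟨_, h1, rfl, _, h2, rfl⟩
      · rintro ⟨n, h1, rfl, t, h2, rfl⟩
        exact ⟨h1, h2⟩
    rw [e]
    refine MeasurableSet.iUnion fun n => (pvcn_fin hO).inter (((pvcn_ncard hO) (measurableSet_singleton n)).inter ?_)
    refine (hY.comp (Conf.measurable_restr hO)) ?_
    exact MeasurableSet.biUnion (Set.to_countable _) fun t _ => pvpl_meas_ty hE hθ n t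
  · intro η
    simp only [mem_ofPred_eq, hpts, pvi_restr_idem]
  · intro X 𝔅 η ξ zi hfin hok hm hzi
    constructor
    · rintro ⟨-, X', 𝔅', η', ξ', zi', y', hy', hty, hok', hm', hzi', hΦ'⟩
      exact (hΦ _ _ _ _ _ _ _ _ _ _ _ hok.simple hok'.simple (pvpl_iso_of_ty θ hρ hok hok' hm hm' hK hzi hzi' (hcell η hfin) hy' hty.symm)).2 hΦ'
    · intro h
      exact ⟨hfin, X, 𝔅, η, ξ, zi, _, hcell η hfin, rfl, hok, hm, hzi, h⟩

end types

end Claimed.Agent.R289
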