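import Claimed.Agent.R289.PppQ
import Claimed.Agent.R289.FkgQ
import Claimed.Agent.R289.Ppp.Ind

/-!
# Row 289 (S0537), box TR, block WB7 = TR18 : THE LOCAL PREPARATION (X4 of S5), WITHOUT SEEDS AND WITHOUT KERNELS      (owner helper263; squad 230 71; prefix `pvp`, `Pvp`, `cfStrip`, `cfPaint`)
TEX: 05-pins.tex l.440-490 (local preparations), 06-actual-arcs.tex (domination `law <= C_prep nu`); notes: origin/helper6:notes/R289/W2c_6.md sec.6, origin/helper140:notes/R289/wall_140.md F5, origin/helper263:notes/R289/prep_263.md.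

MODEL FREE in the pair (strip `S : Set ℂ`, event `𝒜 : Set (Conf PvPt)`), colour `b` = the colour that is FORCED (`false` = white for black rims).
The paper recolours the sites of the strip by a monotone coupling `unif -> unif(. | 𝒜)` driven by an auxiliary seed.   Here the seed is INTEGRATED OUT: we only use the averaging operator
      `(pvpOp S b 𝒜 F) ξ = ∑_{B'} K(B(ξ), B') F(ξ repainted: colour b exactly on B')`,        `B(ξ)` = sites of the strip of colour `b`,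
so that prepared potentials are honest FUNCTIONS of the sample (`pvpAv`, `pvpPot`).      What the consumers get:
* A. the kernel `pvpK J U B B'` on finite tables (`J` finite set of labels, `U` an up-set of subsets of `J`): rows sum to 1, support in `{B ⊆ B', U B'}`, columns `= 2^#J / #U`,
     and it is LABEL INVARIANT (`pvpK_map`): average of the explicit sequential kernels `pvpSeq` over all orderings of `J`.      Hence `pvpOp` is a function of the configuration, and it is LOCAL (`pvpOp_reads`).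
* B. pointwise calculus: `pvpOp_one`, `pvpOp_le_of_supp` (only `B' ⊇ B(ξ)` with `𝒜` count: b-increasing events are kept), `pvpOp_mul_blind`, `pvp_jensen`, `pvpOp_reads`.
* C. integrals: `pvp_resample`, `pvp_op_aemeas`, **`pvp_dom`** : `∫ H 1{p ≤ Q} (pvpOp F) ≤ p⁻¹ ∫ H 1{p ≤ Q} 1_𝒜 F` (`H` blind to the colours of the strip, `Q = pvpQ` the quenched probability of `𝒜`).
* D. the package for pins: `pvp_flag` (Markov for flags), `pvpPot` (prepared potential), `pvp_pot_L2`, `pvp_pot_jensen`, `pvp_transfer2` (two disjoint strips).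
-/

set_option autoImplicit false
set_option linter.unusedSectionVars false

namespace Claimed.Agent.R289

open MeasureTheory ProbabilityTheory Set Filter Topology Claims.C0465
open scoped ENNReal NNReal

/-! ## A. the label invariant monotone kernel on finite tables -/

section kernel

variable {α β : Type} [DecidableEq α] [DecidableEq β]

open Classical in
/-- number of subsets `C` of `s` with `U C` -/
noncomputable def pvpCnt (s : Finset α) (U : Finset α → Prop) : ℕ := (s.powerset.filter U).card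

/-- `U` is an up-set among the subsets of `s` -/
def PvpUp (s : Finset α) (U : Finset α → Prop) : Prop := ∀ C C' : Finset α, C ⊆ C' → C' ⊆ s → U C → U C'

/-- the transition weight of one site: `N0`, `N1` = numbers of admissible continuations with the site off / on -/
noncomputable def pvpBit (N0 N1 : ℕ) : Bool → Bool → ℝ
  | true, true => 1
  | true, false => 0
  | false, true => ((N1 - N0 : ℕ) : ℝ) / ((N1 + N0 : ℕ) : ℝ)
  | false, false => 1 - ((N1 - N0 : ℕ) : ℝ) / ((N1 + N0 : ℕ) : ℝ)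

open Classical in
/-- the sequential monotone kernel along the list `l` (T2 of 208, as a formula) -/
noncomputable def pvpSeq : List α → (Finset α → Prop) → Finset α → Finset α → ℝ
  | [], _, _, _ => 1
  | a :: l, U, B, B' =>
      pvpBit (pvpCnt l.toFinset U) (pvpCnt l.toFinset fun C => U (insert a C)) (decide (a ∈ B)) (decide (a ∈ B')) *
        pvpSeq l (fun C => U (if a ∈ B' then insert a C else C)) B B'

/-- all orderings of `J` -/
def pvpOrd (J : Finset α) : Finset (List α) := ⟨Multiset.lists J.val, Multiset.lists_nodup_finset J⟩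

/-- THE KERNEL: average of the sequential kernels over all orderings of `J` -/
noncomputable def pvpK (J : Finset α) (U : Finset α → Prop) (B B' : Finset α) : ℝ :=
  (∑ l ∈ pvpOrd J, pvpSeq l U B B') / (pvpOrd J).card

theorem pvp_eqns_cite : True := by
  have := @pvpCnt.eq_1; have := @PvpUp.eq_1; have := @pvpBit.eq_1; have := @pvpSeq.eq_1; have := @pvpOrd.eq_1; have := @pvpK.eq_1
  trivial

theorem pvp_mem_ord {J : Finset α} {l : List α} : l ∈ pvpOrd J ↔ J.val = (l : Multiset α) := by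
  unfold pvpOrd
  rw [Finset.mem_mk, Multiset.mem_lists_iff]
  rfl

theorem pvp_ord_spec {J : Finset α} {l : List α} (h : l ∈ pvpOrd J) : l.Nodup ∧ l.toFinset = J := by
  rw [pvp_mem_ord] at h
  have h1 : l.Nodup := by
    have := J.nodup
    rw [h] at this
    exact Multiset.coe_nodup.1 this
  refine ⟨h1, ?_⟩
  apply Finset.val_injective
  rw [List.toFinset_val, h, List.dedup_eq_self.2 h1]

theorem pvp_ord_nonempty (J : Finset α) : (pvpOrd J).Nonempty := by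
  refine ⟨J.toList, ?_⟩
  rw [pvp_mem_ord]
  exact (Finset.coe_toList J).symm

theorem pvpCnt_insert {a : α} {s : Finset α} (ha : a ∉ s) (U : Finset α → Prop) :
    pvpCnt (insert a s) U = pvpCnt s U + pvpCnt s fun C => U (insert a C) := by
  classical
  unfold pvpCnt
  rw [Finset.powerset_insert, Finset.filter_union, Finset.card_union_of_disjoint, Finset.filter_image, Finset.card_image_of_injOn]
  · intro C hC C' hC' h
    have h1 : a ∉ C := fun h' => ha (Finset.mem_powerset.1 (Finset.mem_filter.1 hC).1 h')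
    have h2 : a ∉ C' := fun h' => ha (Finset.mem_powerset.1 (Finset.mem_filter.1 hC').1 h')
    have := congrArg (fun X => Finset.erase X a) h
    simpa [Finset.erase_insert h1, Finset.erase_insert h2] using this
  · rw [Finset.disjoint_left]
    intro C hC hC'
    have h1 : a ∉ C := fun h' => ha (Finset.mem_powerset.1 (Finset.mem_filter.1 hC).1 h')
    obtain ⟨C'', -, rfl⟩ := Finset.mem_image.1 (Finset.mem_filter.1 hC').1
    exact h1 (Finset.mem_insert_self _ _)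

theorem pvpCnt_le_of_up {a : α} {s : Finset α} {U : Finset α → Prop} (hU : PvpUp (insert a s) U) :
    pvpCnt s U ≤ pvpCnt s fun C => U (insert a C) := by
  classical
  unfold pvpCnt
  apply Finset.card_le_card
  intro C hC
  rw [Finset.mem_filter] at hC ⊢
  exact ⟨hC.1, hU C (insert a C) (Finset.subset_insert _ _) (Finset.insert_subset_insert _ (Finset.mem_powerset.1 hC.1)) hC.2⟩

theorem pvpCnt_congr {s : Finset α} {U U' : Finset α → Prop} (h : ∀ C, C ⊆ s → (U C ↔ U' C)) : pvpCnt s U = pvpCnt s U' := by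
  classical
  unfold pvpCnt
  congr 1
  exact Finset.filter_congr fun C hC => h C (Finset.mem_powerset.1 hC)

theorem pvpCnt_image {f : α → β} (hf : Function.Injective f) (s : Finset α) (U' : Finset β → Prop) :
    pvpCnt (s.image f) U' = pvpCnt s fun C => U' (C.image f) := by
  classical
  unfold pvpCnt
  have hinj : Function.Injective (Finset.image f) := Finset.image_injective hf
  have e : (s.image f).powerset.filter U' = (s.powerset.filter fun C => U' (C.image f)).image (Finset.image f) := by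
    ext C
    simp only [Finset.mem_filter, Finset.mem_powerset, Finset.mem_image]
    constructor
    · rintro ⟨h1, h2⟩
      obtain ⟨C0, hC0, rfl⟩ := Finset.subset_image_iff.1 h1
      exact ⟨C0, ⟨hC0, h2⟩, rfl⟩
    · rintro ⟨C0, ⟨h1, h2⟩, rfl⟩
      exact ⟨Finset.image_subset_image h1, h2⟩
  rw [e, Finset.card_image_of_injective _ hinj]

theorem pvpBit_nonneg (N0 N1 : ℕ) (x y : Bool) : 0 ≤ pvpBit N0 N1 x y := by
  cases x <;> cases y
  · show 0 ≤ 1 - ((N1 - N0 : ℕ) : ℝ) / ((N1 + N0 : ℕ) : ℝ)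
    have h1 : ((N1 - N0 : ℕ) : ℝ) ≤ ((N1 + N0 : ℕ) : ℝ) := by
      exact_mod_cast (by omega : N1 - N0 ≤ N1 + N0)
    have h2 : ((N1 - N0 : ℕ) : ℝ) / ((N1 + N0 : ℕ) : ℝ) ≤ 1 := div_le_one_of_le₀ h1 (Nat.cast_nonneg _)
    linarith
  · show 0 ≤ ((N1 - N0 : ℕ) : ℝ) / ((N1 + N0 : ℕ) : ℝ)
    exact div_nonneg (Nat.cast_nonneg _) (Nat.cast_nonneg _)
  · exact le_refl _
  · exact zero_le_one

theorem pvpBit_row (N0 N1 : ℕ) (x : Bool) : pvpBit N0 N1 x false + pvpBit N0 N1 x true = 1 := by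
  cases x
  · show 1 - ((N1 - N0 : ℕ) : ℝ) / ((N1 + N0 : ℕ) : ℝ) + ((N1 - N0 : ℕ) : ℝ) / ((N1 + N0 : ℕ) : ℝ) = 1
    ring
  · show (0 : ℝ) + 1 = 1
    ring

theorem pvpSeq_nonneg (l : List α) (U : Finset α → Prop) (B B' : Finset α) : 0 ≤ pvpSeq l U B B' := by
  induction l generalizing U with
  | nil => exact zero_le_one
  | cons a l ih =>
    rw [pvpSeq]
    exact mul_nonneg (pvpBit_nonneg _ _ _ _) (ih _)

/-- only the memberships of the elements of `l` matter -/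
theorem pvpSeq_congr (l : List α) {U U' : Finset α → Prop} {B B1 B' B1' : Finset α} (hU : ∀ C, C ⊆ l.toFinset → (U C ↔ U' C))
    (hB : ∀ x ∈ l, (x ∈ B ↔ x ∈ B1)) (hB' : ∀ x ∈ l, (x ∈ B' ↔ x ∈ B1')) : pvpSeq l U B B' = pvpSeq l U' B1 B1' := by
  induction l generalizing U U' with
  | nil => rfl
  | cons a l ih =>
    have hsub : l.toFinset ⊆ (a :: l).toFinset := by
      rw [List.toFinset_cons]
      exact Finset.subset_insert _ _
    have e1 : pvpCnt l.toFinset U = pvpCnt l.toFinset U' := pvpCnt_congr fun C hC => hU C (hC.trans hsub)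
    have e2 : (pvpCnt l.toFinset fun C => U (insert a C)) = pvpCnt l.toFinset fun C => U' (insert a C) :=
      pvpCnt_congr fun C hC => hU _ (by rw [List.toFinset_cons]; exact Finset.insert_subset_insert a hC)
    have e3 : decide (a ∈ B) = decide (a ∈ B1) := decide_eq_decide.2 (hB a List.mem_cons_self)
    have e4 : decide (a ∈ B') = decide (a ∈ B1') := decide_eq_decide.2 (hB' a List.mem_cons_self)
    rw [pvpSeq, pvpSeq, e1, e2, e3, e4]
    congr 1
    refine ih (fun C hC => ?_) (fun x hx => hB x (List.mem_cons_of_mem a hx)) (fun x hx => hB' x (List.mem_cons_of_mem a hx))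
    by_cases h : a ∈ B'
    · rw [if_pos h, if_pos ((hB' a List.mem_cons_self).1 h)]
      exact hU _ (by rw [List.toFinset_cons]; exact Finset.insert_subset_insert a hC)
    · rw [if_neg h, if_neg (fun h' => h ((hB' a List.mem_cons_self).2 h'))]
      exact hU C (hC.trans hsub)

theorem pvpSeq_row {l : List α} (hl : l.Nodup) (U : Finset α → Prop) (B : Finset α) : ∑ B' ∈ l.toFinset.powerset, pvpSeq l U B B' = 1 := by
  induction l generalizing U with
  | nil =>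
    simp [pvpSeq]
  | cons a l ih =>
    have ha : a ∉ l.toFinset := by
      rw [List.mem_toFinset]
      exact (List.nodup_cons.1 hl).1
    have hl' : l.Nodup := (List.nodup_cons.1 hl).2
    rw [List.toFinset_cons, Finset.sum_powerset_insert ha]
    have s1 : ∑ t ∈ l.toFinset.powerset, pvpSeq (a :: l) U B t =
        pvpBit (pvpCnt l.toFinset U) (pvpCnt l.toFinset fun C => U (insert a C)) (decide (a ∈ B)) false := by
      have : ∀ t ∈ l.toFinset.powerset, pvpSeq (a :: l) U B t =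
          pvpBit (pvpCnt l.toFinset U) (pvpCnt l.toFinset fun C => U (insert a C)) (decide (a ∈ B)) false * pvpSeq l U B t := by
        intro t ht
        have hat : a ∉ t := fun h => ha (Finset.mem_powerset.1 ht h)
        rw [pvpSeq, decide_eq_false hat]
        simp only [if_neg hat]
      rw [Finset.sum_congr rfl this, ← Finset.mul_sum, ih hl', mul_one]
    have s2 : ∑ t ∈ l.toFinset.powerset, pvpSeq (a :: l) U B (insert a t) =
        pvpBit (pvpCnt l.toFinset U) (pvpCnt l.toFinset fun C => U (insert a C)) (decide (a ∈ B)) true := by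
      have : ∀ t ∈ l.toFinset.powerset, pvpSeq (a :: l) U B (insert a t) =
          pvpBit (pvpCnt l.toFinset U) (pvpCnt l.toFinset fun C => U (insert a C)) (decide (a ∈ B)) true * pvpSeq l (fun C => U (insert a C)) B t := by
        intro t ht
        have hat : a ∈ insert a t := Finset.mem_insert_self a t
        rw [pvpSeq, decide_eq_true hat]
        simp only [if_pos hat]
        congr 1
        refine pvpSeq_congr l (fun _ _ => Iff.rfl) (fun _ _ => Iff.rfl) (fun x hx => ?_)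
        have hxa : x ≠ a := fun h => ha (by rw [List.mem_toFinset]; exact h ▸ hx)
        rw [Finset.mem_insert]
        exact ⟨fun h => h.resolve_left hxa, Or.inr⟩
      rw [Finset.sum_congr rfl this, ← Finset.mul_sum, ih hl', mul_one]
    rw [s1, s2]
    exact pvpBit_row _ _ _

theorem pvpSeq_supp {l : List α} {U : Finset α → Prop} {B B' : Finset α} (h : pvpSeq l U B B' ≠ 0) : ∀ x ∈ l, x ∈ B → x ∈ B' := by
  classical
  induction l generalizing U with
  | nil => intro x hx; exact absurd hx (List.not_mem_nil)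
  | cons a l ih =>
    rw [pvpSeq] at h
    obtain ⟨h1, h2⟩ := mul_ne_zero_iff.1 h
    intro x hx hxB
    rcases List.mem_cons.1 hx with rfl | hx
    · by_contra hxB'
      apply h1
      rw [decide_eq_true hxB, decide_eq_false hxB']
      rfl
    · exact ih h2 x hx hxB

theorem pvpSeq_supp_U {l : List α} (hl : l.Nodup) {U : Finset α → Prop} (hU : PvpUp l.toFinset U) (hne : pvpCnt l.toFinset U ≠ 0) {B B' : Finset α}
    (hB' : B' ⊆ l.toFinset) (h : pvpSeq l U B B' ≠ 0) : U B' := by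
  classical
  induction l generalizing U B' with
  | nil =>
    have hB0 : B' = ∅ := Finset.subset_empty.1 (by simpa using hB')
    subst hB0
    by_contra hn
    apply hne
    unfold pvpCnt
    rw [Finset.card_eq_zero, Finset.filter_eq_empty_iff]
    intro C hC
    have : C = ∅ := by simpa using hC
    rw [this]
    exact hn
  | cons a l ih =>
    obtain ⟨hal, hl'⟩ := List.nodup_cons.1 hl
    have haL : a ∉ l.toFinset := by simpa using hal
    rw [List.toFinset_cons] at hU hne hB'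
    rw [pvpSeq] at h
    obtain ⟨h1, h2⟩ := mul_ne_zero_iff.1 h
    have hle := pvpCnt_le_of_up hU
    rw [pvpCnt_insert haL] at hne
    have hcongr : pvpSeq l (fun C => U (if a ∈ B' then insert a C else C)) B B' = pvpSeq l (fun C => U (if a ∈ B' then insert a C else C)) B (B'.erase a) :=
      pvpSeq_congr l (fun _ _ => Iff.rfl) (fun _ _ => Iff.rfl) fun x hx => by
        have : x ≠ a := fun e => hal (e ▸ hx)
        simp [this]
    rw [hcongr] at h2
    have hsub : B'.erase a ⊆ l.toFinset := by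
      intro x hx
      obtain ⟨hxa, hxB⟩ := Finset.mem_erase.1 hx
      exact (Finset.mem_insert.1 (hB' hxB)).resolve_left hxa
    by_cases haB : a ∈ B'
    · simp only [if_pos haB] at h2
      have hup : PvpUp l.toFinset fun C => U (insert a C) := fun C C' hCC hC' hUC =>
        hU _ _ (Finset.insert_subset_insert a hCC) (Finset.insert_subset_insert a hC') hUC
      have := ih hl' hup (by omega) hsub h2
      rwa [Finset.insert_erase haB] at this
    · simp only [if_neg haB] at h2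
      have hup : PvpUp l.toFinset U := fun C C' hCC hC' hUC => hU _ _ hCC (hC'.trans (Finset.subset_insert a _)) hUC
      have hN0 : pvpCnt l.toFinset U ≠ 0 := by
        intro h0
        apply h1
        rw [decide_eq_false haB, h0]
        have hN1 : ((pvpCnt l.toFinset fun C => U (insert a C) : ℕ) : ℝ) ≠ 0 := by
          have : pvpCnt l.toFinset (fun C => U (insert a C)) ≠ 0 := by omega
          exact_mod_cast this
        cases decide (a ∈ B) with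
        | true => rfl
        | false =>
          show 1 - ((pvpCnt l.toFinset (fun C => U (insert a C)) - 0 : ℕ) : ℝ) / ((pvpCnt l.toFinset (fun C => U (insert a C)) + 0 : ℕ) : ℝ) = 0
          rw [Nat.sub_zero, Nat.add_zero, div_self hN1, sub_self]
      have := ih hl' hup hN0 hsub h2
      rwa [Finset.erase_eq_of_notMem haB] at this

open Classical in
theorem pvpSeq_col {l : List α} (hl : l.Nodup) {U : Finset α → Prop} (hU : PvpUp l.toFinset U) (hne : pvpCnt l.toFinset U ≠ 0) {B' : Finset α}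
    (hB' : B' ⊆ l.toFinset) : ∑ B ∈ l.toFinset.powerset, pvpSeq l U B B' = if U B' then (2 : ℝ) ^ l.length / pvpCnt l.toFinset U else 0 := by
  induction l generalizing U B' with
  | nil =>
    have hB0 : B' = ∅ := Finset.subset_empty.1 (by simpa using hB')
    subst hB0
    have hU0 : U ∅ := by
      by_contra hn
      apply hne
      unfold pvpCnt
      rw [Finset.card_eq_zero, Finset.filter_eq_empty_iff]
      intro C hC
      have : C = ∅ := by simpa using hC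
      rw [this]
      exact hn
    have hc : pvpCnt ([] : List α).toFinset U = 1 := by
      unfold pvpCnt
      rw [List.toFinset_nil, Finset.powerset_empty, Finset.filter_singleton, if_pos hU0, Finset.card_singleton]
    rw [if_pos hU0, hc]
    simp [pvpSeq]
  | cons a l ih =>
    obtain ⟨hal, hl'⟩ := List.nodup_cons.1 hl
    have haL : a ∉ l.toFinset := by simpa using hal
    rw [List.toFinset_cons] at hU hne hB' ⊢
    have hle := pvpCnt_le_of_up hU
    rw [pvpCnt_insert haL] at hne ⊢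
    obtain ⟨N0, hN0⟩ : ∃ N0, N0 = pvpCnt l.toFinset U := ⟨_, rfl⟩
    obtain ⟨N1, hN1⟩ : ∃ N1, N1 = pvpCnt l.toFinset fun C => U (insert a C) := ⟨_, rfl⟩
    rw [← hN0, ← hN1] at hle hne ⊢
    have hsub : B'.erase a ⊆ l.toFinset := by
      intro x hx
      obtain ⟨hxa, hxB⟩ := Finset.mem_erase.1 hx
      exact (Finset.mem_insert.1 (hB' hxB)).resolve_left hxa
    -- the sum over `B` splits
    have hsplit : ∑ B ∈ (insert a l.toFinset).powerset, pvpSeq (a :: l) U B B'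
        = (pvpBit N0 N1 false (decide (a ∈ B')) + pvpBit N0 N1 true (decide (a ∈ B')))
          * ∑ B ∈ l.toFinset.powerset, pvpSeq l (fun C => U (if a ∈ B' then insert a C else C)) B (B'.erase a) := by
      rw [Finset.sum_powerset_insert haL, ← Finset.sum_add_distrib, Finset.mul_sum]
      refine Finset.sum_congr rfl fun B hB => ?_
      have haB : a ∉ B := fun h => haL (Finset.mem_powerset.1 hB h)
      have c1 : pvpSeq l (fun C => U (if a ∈ B' then insert a C else C)) B B' = pvpSeq l (fun C => U (if a ∈ B' then insert a C else C)) B (B'.erase a) :=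
        pvpSeq_congr l (fun _ _ => Iff.rfl) (fun _ _ => Iff.rfl) fun x hx => by
          have : x ≠ a := fun e => hal (e ▸ hx)
          simp [this]
      have c2 : pvpSeq l (fun C => U (if a ∈ B' then insert a C else C)) (insert a B) B' = pvpSeq l (fun C => U (if a ∈ B' then insert a C else C)) B (B'.erase a) :=
        pvpSeq_congr l (fun _ _ => Iff.rfl) (fun x hx => by
          have : x ≠ a := fun e => hal (e ▸ hx)
          simp [this]) fun x hx => by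
          have : x ≠ a := fun e => hal (e ▸ hx)
          simp [this]
      rw [pvpSeq, pvpSeq, c1, c2, decide_eq_false haB, decide_eq_true (Finset.mem_insert_self a B), ← hN0, ← hN1]
      ring
    rw [hsplit]
    have hsum0 : ((N1 + N0 : ℕ) : ℝ) ≠ 0 := by
      have : N1 + N0 ≠ 0 := by omega
      exact_mod_cast this
    have hcast : ((N1 - N0 : ℕ) : ℝ) = (N1 : ℝ) - N0 := Nat.cast_sub hle
    by_cases haB : a ∈ B'
    · simp only [if_pos haB]
      have hup : PvpUp l.toFinset fun C => U (insert a C) := fun C C' hCC hC' hUC =>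
        hU _ _ (Finset.insert_subset_insert a hCC) (Finset.insert_subset_insert a hC') hUC
      have hN1' : N1 ≠ 0 := by omega
      rw [ih hl' hup (by rw [← hN1]; exact hN1') hsub, Finset.insert_erase haB, decide_eq_true haB, ← hN1]
      by_cases hUB : U B'
      · rw [if_pos hUB, if_pos hUB]
        show (((N1 - N0 : ℕ) : ℝ) / ((N1 + N0 : ℕ) : ℝ) + 1) * _ = _
        have hN1r : (N1 : ℝ) ≠ 0 := by exact_mod_cast hN1'
        rw [hcast, List.length_cons, pow_succ]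
        push_cast at hsum0 ⊢
        have h0 : (N0 : ℝ) + N1 ≠ 0 := by rwa [add_comm]
        field_simp
        ring
      · rw [if_neg hUB, if_neg hUB, mul_zero]
    · simp only [if_neg haB]
      rw [Finset.erase_eq_of_notMem haB, decide_eq_false haB]
      have hup : PvpUp l.toFinset U := fun C C' hCC hC' hUC => hU _ _ hCC (hC'.trans (Finset.subset_insert a _)) hUC
      have hB'' : B' ⊆ l.toFinset := by rwa [Finset.erase_eq_of_notMem haB] at hsub
      have hbit : pvpBit N0 N1 false false + pvpBit N0 N1 true false = 1 - ((N1 - N0 : ℕ) : ℝ) / ((N1 + N0 : ℕ) : ℝ) := by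
        show 1 - ((N1 - N0 : ℕ) : ℝ) / ((N1 + N0 : ℕ) : ℝ) + 0 = _
        rw [add_zero]
      rw [hbit]
      by_cases hz : N0 = 0
      · have hnU : ¬ U B' := by
          intro hUB
          have : 0 < pvpCnt l.toFinset U := Finset.card_pos.2 ⟨B', Finset.mem_filter.2 ⟨Finset.mem_powerset.2 hB'', hUB⟩⟩
          omega
        rw [if_neg hnU, hz, Nat.sub_zero, Nat.add_zero, div_self (by rw [hz, Nat.add_zero] at hsum0; exact hsum0), sub_self, zero_mul]
      · rw [ih hl' hup (by rw [← hN0]; exact hz) hB'', ← hN0]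
        by_cases hUB : U B'
        · rw [if_pos hUB, if_pos hUB]
          have hN0r : (N0 : ℝ) ≠ 0 := by exact_mod_cast hz
          rw [hcast, List.length_cons, pow_succ]
          push_cast at hsum0 ⊢
          have h0 : (N0 : ℝ) + N1 ≠ 0 := by rwa [add_comm]
          field_simp
          ring
        · rw [if_neg hUB, if_neg hUB, mul_zero]

theorem pvpSeq_map {f : α → β} (hf : Function.Injective f) (l : List α) (U' : Finset β → Prop) (B B' : Finset α) :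
    pvpSeq (l.map f) U' (B.image f) (B'.image f) = pvpSeq l (fun C => U' (C.image f)) B B' := by
  classical
  induction l generalizing U' with
  | nil => rfl
  | cons a l ih =>
    have e0 : (l.map f).toFinset = l.toFinset.image f := by
      ext x
      simp only [List.mem_toFinset, List.mem_map, Finset.mem_image]
    rw [List.map_cons, pvpSeq, pvpSeq, ih, e0, pvpCnt_image hf, pvpCnt_image hf]
    have e1 : decide (f a ∈ B.image f) = decide (a ∈ B) := by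
      simp only [hf.mem_finset_image]
    have e2 : decide (f a ∈ B'.image f) = decide (a ∈ B') := by
      simp only [hf.mem_finset_image]
    have e3 : (fun C : Finset α => U' (insert (f a) (C.image f))) = fun C => U' ((insert a C).image f) := by
      funext C
      rw [Finset.image_insert]
    have e4 : (fun C : Finset α => U' (if f a ∈ B'.image f then insert (f a) (C.image f) else C.image f))
        = fun C => U' ((if a ∈ B' then insert a C else C).image f) := by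
      funext C
      by_cases h : a ∈ B'
      · rw [if_pos h, if_pos (hf.mem_finset_image.2 h), Finset.image_insert]
      · rw [if_neg h, if_neg (fun h' => h (hf.mem_finset_image.1 h'))]
    rw [e1, e2, e3, e4]

theorem pvpK_nonneg (J : Finset α) (U : Finset α → Prop) (B B' : Finset α) : 0 ≤ pvpK J U B B' := by
  unfold pvpK
  exact div_nonneg (Finset.sum_nonneg fun l _ => pvpSeq_nonneg l U B B') (Nat.cast_nonneg _)

theorem pvpK_congr {J : Finset α} {U U' : Finset α → Prop} {B B1 B' B1' : Finset α} (hU : ∀ C, C ⊆ J → (U C ↔ U' C))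
    (hB : ∀ x ∈ J, (x ∈ B ↔ x ∈ B1)) (hB' : ∀ x ∈ J, (x ∈ B' ↔ x ∈ B1')) : pvpK J U B B' = pvpK J U' B1 B1' := by
  unfold pvpK
  congr 1
  refine Finset.sum_congr rfl fun l hl => ?_
  obtain ⟨-, hJ⟩ := pvp_ord_spec hl
  have hmem : ∀ x, x ∈ l → x ∈ J := fun x hx => by rw [← hJ]; exact List.mem_toFinset.2 hx
  exact pvpSeq_congr l (fun C hC => hU C (by rw [← hJ]; exact hC)) (fun x hx => hB x (hmem x hx)) fun x hx => hB' x (hmem x hx)

/-- (K2) rows -/
theorem pvpK_row (J : Finset α) (U : Finset α → Prop) (B : Finset α) : ∑ B' ∈ J.powerset, pvpK J U B B' = 1 := by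
  unfold pvpK
  rw [← Finset.sum_div, Finset.sum_comm]
  have h1 : ∀ l ∈ pvpOrd J, ∑ B' ∈ J.powerset, pvpSeq l U B B' = 1 := by
    intro l hl
    obtain ⟨hn, hJ⟩ := pvp_ord_spec hl
    have := pvpSeq_row hn U B
    rwa [hJ] at this
  rw [Finset.sum_congr rfl h1]
  have hc : ((pvpOrd J).card : ℝ) ≠ 0 := by
    have := (pvp_ord_nonempty J).card_pos
    positivity
  simp [hc]

/-- (K3a) the kernel only ADDS sites -/
theorem pvpK_supp {J : Finset α} {U : Finset α → Prop} {B B' : Finset α} (h : pvpK J U B B' ≠ 0) : ∀ x ∈ J, x ∈ B → x ∈ B' := by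
  unfold pvpK at h
  have h1 : ∑ l ∈ pvpOrd J, pvpSeq l U B B' ≠ 0 := by
    intro h0
    exact h (by rw [h0, zero_div])
  obtain ⟨l, hl, hne⟩ := Finset.exists_ne_zero_of_sum_ne_zero h1
  obtain ⟨_, hJ⟩ := pvp_ord_spec hl
  intro x hx hxB
  exact pvpSeq_supp hne x (by rw [← hJ] at hx; exact List.mem_toFinset.1 hx) hxB

/-- (K3b) the kernel lands in `U` -/
theorem pvpK_supp_U {J : Finset α} {U : Finset α → Prop} (hU : PvpUp J U) (hne : pvpCnt J U ≠ 0) {B B' : Finset α} (hB' : B' ⊆ J)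
    (h : pvpK J U B B' ≠ 0) : U B' := by
  unfold pvpK at h
  have h1 : ∑ l ∈ pvpOrd J, pvpSeq l U B B' ≠ 0 := by
    intro h0
    exact h (by rw [h0, zero_div])
  obtain ⟨l, hl, hne'⟩ := Finset.exists_ne_zero_of_sum_ne_zero h1
  obtain ⟨hn, hJ⟩ := pvp_ord_spec hl
  subst hJ
  exact pvpSeq_supp_U hn hU hne hB' hne'

open Classical in
/-- (K4) columns: uniform `∘ K` = uniform on `U` -/
theorem pvpK_col {J : Finset α} {U : Finset α → Prop} (hU : PvpUp J U) (hne : pvpCnt J U ≠ 0) {B' : Finset α} (hB' : B' ⊆ J) :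
    ∑ B ∈ J.powerset, pvpK J U B B' = if U B' then (2 : ℝ) ^ J.card / pvpCnt J U else 0 := by
  unfold pvpK
  rw [← Finset.sum_div, Finset.sum_comm]
  have h1 : ∀ l ∈ pvpOrd J, ∑ B ∈ J.powerset, pvpSeq l U B B' = if U B' then (2 : ℝ) ^ J.card / pvpCnt J U else 0 := by
    intro l hl
    obtain ⟨hn, hJ⟩ := pvp_ord_spec hl
    subst hJ
    rw [pvpSeq_col hn hU hne hB', List.toFinset_card_of_nodup hn]
  rw [Finset.sum_congr rfl h1]
  have hc : ((pvpOrd J).card : ℝ) ≠ 0 := by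
    have := (pvp_ord_nonempty J).card_pos
    positivity
  rw [Finset.sum_const, nsmul_eq_mul, mul_comm, mul_div_assoc, div_self hc, mul_one]

/-- (K5) LABEL INVARIANCE -/
theorem pvpK_map {f : α → β} (hf : Function.Injective f) (J : Finset α) (U' : Finset β → Prop) (B B' : Finset α) :
    pvpK (J.image f) U' (B.image f) (B'.image f) = pvpK J (fun C => U' (C.image f)) B B' := by
  have himg : pvpOrd (J.image f) = (pvpOrd J).image (List.map f) := by
    ext l'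
    rw [pvp_mem_ord, Finset.mem_image, Finset.image_val_of_injOn hf.injOn]
    constructor
    · intro h
      have hl' : ∀ y ∈ l', ∃ x, f x = y := by
        intro y hy
        have : y ∈ Multiset.map f J.val := by rw [h]; exact hy
        obtain ⟨x, _, hx⟩ := Multiset.mem_map.1 this
        exact ⟨x, hx⟩
      obtain ⟨l, rfl⟩ : ∃ l : List α, l.map f = l' := by
        clear h
        induction l' with
        | nil => exact ⟨[], rfl⟩
        | cons y t ih =>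
          obtain ⟨x, hx⟩ := hl' y (by simp)
          obtain ⟨l, hl⟩ := ih (fun z hz => hl' z (by simp [hz]))
          exact ⟨x :: l, by simp [hx, hl]⟩
      refine ⟨l, pvp_mem_ord.2 ?_, rfl⟩
      apply Multiset.map_injective hf
      rw [h, Multiset.map_coe]
    · rintro ⟨l, hl, rfl⟩
      rw [pvp_mem_ord.1 hl, Multiset.map_coe]
  unfold pvpK
  rw [himg, Finset.sum_image (fun a _ b _ h => List.map_injective_iff.2 hf h),
    Finset.card_image_of_injective _ (List.map_injective_iff.2 hf)]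
  congr 1
  exact Finset.sum_congr rfl fun l _ => pvpSeq_map hf l U' B B'

end kernel

/-! ## B. the operator on configurations: pointwise calculus -/

section op

open Classical in
/-- the sites of `ξ` in the strip `S` (`∅` if there are infinitely many) -/
noncomputable def cfStrip (S : Set ℂ) (ξ : Conf PvPt) : Finset ℂ := if h : (cfSites ξ ∩ S).Finite then h.toFinset else ∅

open Classical in
/-- the sites of the strip which carry the colour `b` -/
noncomputable def cfStripOn (S : Set ℂ) (b : Bool) (ξ : Conf PvPt) : Finset ℂ := (cfStrip S ξ).filter fun z => (z, b) ∈ ξ.pts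

open Classical in
/-- repaint the strip: colour `b` on `B`, the other colour on the rest of the strip; nothing changes off the strip; the points do not move -/
noncomputable def cfPaint (S : Set ℂ) (b : Bool) (B : Finset ℂ) (ξ : Conf PvPt) : Conf PvPt :=
  ⟨{p | (p ∈ ξ.pts ∧ p.1 ∉ S) ∨ (p.1 ∈ cfSites ξ ∧ p.1 ∈ S ∧ p.2 = if p.1 ∈ B then b else !b)}⟩

/-- every site has one colour, the strip has finitely many sites -/
structure CfNice (S : Set ℂ) (ξ : Conf PvPt) : Prop where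
  col : ∀ z c c', (z, c) ∈ ξ.pts → (z, c') ∈ ξ.pts → c = c'
  fin : (cfSites ξ ∩ S).Finite

/-- the truth table of the event `𝒜` on the strip -/
def pvpTab (S : Set ℂ) (b : Bool) (𝒜 : Set (Conf PvPt)) (ξ : Conf PvPt) (B : Finset ℂ) : Prop := cfPaint S b B ξ ∈ 𝒜

/-- `𝒜` is increasing in the set of sites of the strip of colour `b` -/
def PvpInc (S : Set ℂ) (b : Bool) (𝒜 : Set (Conf PvPt)) : Prop := ∀ ξ (B B' : Finset ℂ), B ⊆ B' → cfPaint S b B ξ ∈ 𝒜 → cfPaint S b B' ξ ∈ 𝒜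

/-- `f` does not see the colours of the strip -/
def PvpBlind {γ : Type*} (S : Set ℂ) (f : Conf PvPt → γ) : Prop := ∀ (b : Bool) (B : Finset ℂ) ξ, f (cfPaint S b B ξ) = f ξ

/-- the quenched probability of `𝒜` when the colours of the strip are resampled -/
noncomputable def pvpQ (S : Set ℂ) (b : Bool) (𝒜 : Set (Conf PvPt)) (ξ : Conf PvPt) : ℝ :=
  (pvpCnt (cfStrip S ξ) (pvpTab S b 𝒜 ξ) : ℝ) / 2 ^ (cfStrip S ξ).card

/-- the weight of the repainting `B'` -/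
noncomputable def pvpWt (S : Set ℂ) (b : Bool) (𝒜 : Set (Conf PvPt)) (ξ : Conf PvPt) (B' : Finset ℂ) : ℝ :=
  pvpK (cfStrip S ξ) (pvpTab S b 𝒜 ξ) (cfStripOn S b ξ) B'

/-- **THE PREPARATION OPERATOR** (`ℝ≥0∞` valued functions) -/
noncomputable def pvpOp (S : Set ℂ) (b : Bool) (𝒜 : Set (Conf PvPt)) (F : Conf PvPt → ℝ≥0∞) (ξ : Conf PvPt) : ℝ≥0∞ :=
  ∑ B' ∈ (cfStrip S ξ).powerset, ENNReal.ofReal (pvpWt S b 𝒜 ξ B') * F (cfPaint S b B' ξ)

/-- the preparation operator, complex valued functions -/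
noncomputable def pvpAv (S : Set ℂ) (b : Bool) (𝒜 : Set (Conf PvPt)) (Y : Conf PvPt → ℂ) (ξ : Conf PvPt) : ℂ :=
  ∑ B' ∈ (cfStrip S ξ).powerset, (pvpWt S b 𝒜 ξ B' : ℂ) * Y (cfPaint S b B' ξ)

theorem pvp_eqns_cite2 : True := by
  have := @cfStrip.eq_1; have := @cfStripOn.eq_1; have := @cfPaint.eq_1; have := @pvpTab.eq_1; have := @PvpInc.eq_1; have := @PvpBlind.eq_1.{0}
  have := @pvpQ.eq_1; have := @pvpWt.eq_1; have := @pvpOp.eq_1; have := @pvpAv.eq_1
  trivial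

variable {S S' : Set ℂ} {b b' : Bool} {𝒜 : Set (Conf PvPt)} {ξ : Conf PvPt}

theorem cfPaint_sites (S : Set ℂ) (b : Bool) (B : Finset ℂ) (ξ : Conf PvPt) : cfSites (cfPaint S b B ξ) = cfSites ξ := by
  classical
  ext z
  unfold cfSites cfPaint
  constructor
  · rintro ⟨p, hp | hp, rfl⟩
    · exact ⟨p, hp.1, rfl⟩
    · exact hp.1
  · rintro ⟨p, hp, rfl⟩
    by_cases hS : p.1 ∈ S
    · exact ⟨(p.1, if p.1 ∈ B then b else !b), Or.inr ⟨⟨p, hp, rfl⟩, hS, rfl⟩, rfl⟩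
    · exact ⟨p, Or.inl ⟨hp, hS⟩, rfl⟩

theorem pvp_mem_paint {S : Set ℂ} {b : Bool} {B : Finset ℂ} {ξ : Conf PvPt} {p : PvPt} :
    p ∈ (cfPaint S b B ξ).pts ↔ (p ∈ ξ.pts ∧ p.1 ∉ S) ∨ (p.1 ∈ cfSites ξ ∧ p.1 ∈ S ∧ p.2 = if p.1 ∈ B then b else !b) := Iff.rfl

theorem pvp_mem_stripOn {S : Set ℂ} {b : Bool} {ξ : Conf PvPt} {z : ℂ} : z ∈ cfStripOn S b ξ ↔ z ∈ cfStrip S ξ ∧ (z, b) ∈ ξ.pts := by
  classical
  unfold cfStripOn
  rw [Finset.mem_filter]

theorem pvp_mem_strip_of {S : Set ℂ} {ξ : Conf PvPt} {z : ℂ} (h : z ∈ cfStrip S ξ) : z ∈ cfSites ξ ∧ z ∈ S := by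
  unfold cfStrip at h
  split_ifs at h with hf
  · exact hf.mem_toFinset.1 h
  · exact absurd h (Finset.notMem_empty _)

theorem cfPaint_strip (S : Set ℂ) (b : Bool) (B : Finset ℂ) (ξ : Conf PvPt) : cfStrip S (cfPaint S b B ξ) = cfStrip S ξ := by
  unfold cfStrip
  rw [cfPaint_sites]

theorem cfPaint_stripOn (S : Set ℂ) (b : Bool) {B : Finset ℂ} (ξ : Conf PvPt) (hB : B ⊆ cfStrip S ξ) : cfStripOn S b (cfPaint S b B ξ) = B := by
  ext z
  rw [pvp_mem_stripOn, cfPaint_strip]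
  constructor
  · rintro ⟨hz, hp⟩
    have hzS := pvp_mem_strip_of hz
    rcases hp with ⟨-, h2⟩ | ⟨-, -, h3⟩
    · exact absurd hzS.2 h2
    · by_contra hn
      simp only [if_neg hn] at h3
      cases b <;> simp at h3
  · intro hz
    have hzS := pvp_mem_strip_of (hB hz)
    exact ⟨hB hz, Or.inr ⟨hzS.1, hzS.2, by simp only [if_pos hz]⟩⟩

/-- repainting twice = repainting once -/
theorem cfPaint_paint (S : Set ℂ) (b b' : Bool) (B B' : Finset ℂ) (ξ : Conf PvPt) : cfPaint S b B (cfPaint S b' B' ξ) = cfPaint S b B ξ := by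
  apply Conf.ext
  ext p
  rw [pvp_mem_paint, pvp_mem_paint, cfPaint_sites, pvp_mem_paint]
  constructor
  · rintro (⟨h1 | h1, h2⟩ | h)
    · exact Or.inl h1
    · exact absurd h1.2.1 h2
    · exact Or.inr h
  · rintro (h | h)
    · exact Or.inl ⟨Or.inl h, h.2⟩
    · exact Or.inr h

/-- a nice configuration is its own repainting -/
theorem cfPaint_self (h : CfNice S ξ) (b : Bool) : cfPaint S b (cfStripOn S b ξ) ξ = ξ := by
  have hst : ∀ z, z ∈ cfStrip S ξ ↔ z ∈ cfSites ξ ∧ z ∈ S := by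
    intro z
    unfold cfStrip
    rw [dif_pos h.fin, Set.Finite.mem_toFinset]; rfl
  apply Conf.ext
  ext ⟨z, c⟩
  rw [pvp_mem_paint]
  simp only
  constructor
  · rintro (h1 | ⟨⟨⟨z', c'⟩, hp, rfl⟩, h2, h3⟩)
    · exact h1.1
    · simp only at h2 h3 ⊢
      by_cases hon : z' ∈ cfStripOn S b ξ
      · rw [if_pos hon] at h3
        rw [h3]
        exact (pvp_mem_stripOn.1 hon).2
      · rw [if_neg hon] at h3
        have hne : c' ≠ b := by
          rintro rfl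
          exact hon (pvp_mem_stripOn.2 ⟨(hst z').2 ⟨⟨_, hp, rfl⟩, h2⟩, hp⟩)
        have : c = c' := by
          rw [h3]; cases b <;> cases c' <;> simp_all
        rw [this]; exact hp
  · intro hp
    by_cases hS : z ∈ S
    · refine Or.inr ⟨⟨_, hp, rfl⟩, hS, ?_⟩
      by_cases hon : z ∈ cfStripOn S b ξ
      · rw [if_pos hon]
        exact h.col z c b hp (pvp_mem_stripOn.1 hon).2
      · rw [if_neg hon]
        have hne : c ≠ b := by
          rintro rfl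
          exact hon (pvp_mem_stripOn.2 ⟨(hst z).2 ⟨⟨_, hp, rfl⟩, hS⟩, hp⟩)
        cases b <;> cases c <;> simp_all
    · exact Or.inl ⟨hp, hS⟩

theorem cfPaint_nice (h : CfNice S ξ) (b : Bool) (B : Finset ℂ) : CfNice S (cfPaint S b B ξ) := by
  refine ⟨fun z c c' h1 h2 => ?_, by rw [cfPaint_sites]; exact h.fin⟩
  rcases h1 with ⟨h1, n1⟩ | ⟨-, s1, e1⟩ <;> rcases h2 with ⟨h2, n2⟩ | ⟨-, s2, e2⟩
  · exact h.col z c c' h1 h2
  · exact absurd s2 n1
  · exact absurd s1 n2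
  · simp only at e1 e2
    rw [e1, e2]

/-- only `B ∩ strip` matters -/
theorem cfPaint_congr (S : Set ℂ) (b : Bool) {B B' : Finset ℂ} (ξ : Conf PvPt) (h : ∀ z ∈ cfSites ξ ∩ S, (z ∈ B ↔ z ∈ B')) : cfPaint S b B ξ = cfPaint S b B' ξ := by
  apply Conf.ext
  ext p
  rw [pvp_mem_paint, pvp_mem_paint]
  refine or_congr Iff.rfl ?_
  constructor
  · rintro ⟨h1, h2, h3⟩
    refine ⟨h1, h2, ?_⟩
    rw [h3]
    simp only [h p.1 ⟨h1, h2⟩]
  · rintro ⟨h1, h2, h3⟩
    refine ⟨h1, h2, ?_⟩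
    rw [h3]
    simp only [h p.1 ⟨h1, h2⟩]

/-- disjoint strips commute -/
theorem cfPaint_comm (hd : Disjoint S S') (b b' : Bool) (B B' : Finset ℂ) (ξ : Conf PvPt) :
    cfPaint S b B (cfPaint S' b' B' ξ) = cfPaint S' b' B' (cfPaint S b B ξ) := by
  have hd' : ∀ z, z ∈ S → z ∈ S' → False := fun z h1 h2 => Set.disjoint_left.1 hd h1 h2
  apply Conf.ext
  ext p
  simp only [pvp_mem_paint, cfPaint_sites]
  constructor
  · rintro (⟨h1 | h1, h2⟩ | h)
    · exact Or.inl ⟨Or.inl ⟨h1.1, h2⟩, h1.2⟩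
    · exact Or.inr h1
    · exact Or.inl ⟨Or.inr h, fun h' => hd' _ h.2.1 h'⟩
  · rintro (⟨h1 | h1, h2⟩ | h)
    · exact Or.inl ⟨Or.inl ⟨h1.1, h2⟩, h1.2⟩
    · exact Or.inr h1
    · exact Or.inl ⟨Or.inr h, fun h' => hd' _ h' h.2.1⟩

/-- repainting commutes with the restriction to a window which contains the strip -/
theorem cfPaint_restr {W : Set PvPt} (hW : Prod.fst ⁻¹' S ⊆ W) (b : Bool) (B : Finset ℂ) (ξ : Conf PvPt) :
    cfPaint S b B (Conf.restr W ξ) = Conf.restr W (cfPaint S b B ξ) := by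
  apply Conf.ext
  ext p
  rw [pvp_mem_paint]
  show _ ↔ p ∈ (cfPaint S b B ξ).pts ∩ W
  rw [Set.mem_inter_iff, pvp_mem_paint]
  constructor
  · rintro (⟨h1, h2⟩ | ⟨⟨p', hp', e⟩, h2, h3⟩)
    · exact ⟨Or.inl ⟨h1.1, h2⟩, h1.2⟩
    · exact ⟨Or.inr ⟨⟨p', hp'.1, e⟩, h2, h3⟩, hW h2⟩
  · rintro ⟨⟨h1, h2⟩ | ⟨⟨p', hp', e⟩, h2, h3⟩, hw⟩
    · exact Or.inl ⟨⟨h1, hw⟩, h2⟩
    · refine Or.inr ⟨⟨p', ⟨hp', hW ?_⟩, e⟩, h2, h3⟩
      show p'.1 ∈ S
      rw [e]; exact h2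

/-- repainting is invisible in a window which misses the strip -/
theorem cfPaint_restr_disj {W : Set PvPt} (hW : Disjoint (Prod.fst ⁻¹' S) W) (b : Bool) (B : Finset ℂ) (ξ : Conf PvPt) :
    Conf.restr W (cfPaint S b B ξ) = Conf.restr W ξ := by
  ext p
  simp only [Conf.restr, cfPaint, mem_inter_iff, mem_ofPred_eq]
  constructor
  · rintro ⟨(h | h), hp⟩
    · exact ⟨h.1, hp⟩
    · exact absurd hp (Set.disjoint_left.1 hW h.2.1)
  · rintro ⟨h, hp⟩
    exact ⟨Or.inl ⟨h, fun hS => Set.disjoint_left.1 hW hS hp⟩, hp⟩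

theorem Conf.Reads.pvpBlind {γ : Type*} {W : Set PvPt} {f : Conf PvPt → γ} (h : Conf.Reads W f) (hW : Disjoint (Prod.fst ⁻¹' S) W) : PvpBlind S f := by
  intro b B ξ
  rw [← h (cfPaint S b B ξ), cfPaint_restr_disj hW, h ξ]

theorem pvpTab_up (h : PvpInc S b 𝒜) (ξ : Conf PvPt) : PvpUp (cfStrip S ξ) (pvpTab S b 𝒜 ξ) := by
  intro C C' hCC' _ hC
  exact h ξ C C' hCC' hC

theorem pvpTab_paint (S : Set ℂ) (b b' : Bool) (𝒜 : Set (Conf PvPt)) (B' : Finset ℂ) (ξ : Conf PvPt) : pvpTab S b 𝒜 (cfPaint S b' B' ξ) = pvpTab S b 𝒜 ξ := by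
  funext B
  unfold pvpTab
  rw [cfPaint_paint]

theorem pvpQ_blind (S : Set ℂ) (b : Bool) (𝒜 : Set (Conf PvPt)) : PvpBlind S (pvpQ S b 𝒜) := by
  intro b' B ξ
  unfold pvpQ
  rw [cfPaint_strip, pvpTab_paint]

theorem pvpQ_nonneg (S : Set ℂ) (b : Bool) (𝒜 : Set (Conf PvPt)) (ξ : Conf PvPt) : 0 ≤ pvpQ S b 𝒜 ξ := by
  unfold pvpQ
  positivity

theorem pvpQ_le_one (S : Set ℂ) (b : Bool) (𝒜 : Set (Conf PvPt)) (ξ : Conf PvPt) : pvpQ S b 𝒜 ξ ≤ 1 := by
  classical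
  unfold pvpQ
  rw [div_le_one (by positivity)]
  have h : pvpCnt (cfStrip S ξ) (pvpTab S b 𝒜 ξ) ≤ 2 ^ (cfStrip S ξ).card := by
    unfold pvpCnt
    exact (Finset.card_filter_le _ _).trans (le_of_eq (Finset.card_powerset _))
  exact_mod_cast h

theorem pvpWt_nonneg (S : Set ℂ) (b : Bool) (𝒜 : Set (Conf PvPt)) (ξ : Conf PvPt) (B' : Finset ℂ) : 0 ≤ pvpWt S b 𝒜 ξ B' := by
  exact pvpK_nonneg _ _ _ _

theorem pvpWt_sum (S : Set ℂ) (b : Bool) (𝒜 : Set (Conf PvPt)) (ξ : Conf PvPt) : ∑ B' ∈ (cfStrip S ξ).powerset, pvpWt S b 𝒜 ξ B' = 1 := by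
  exact pvpK_row _ _ _

/-- SUPPORT: the repaintings of positive weight only ADD the colour `b`, and they satisfy `𝒜` as soon as `𝒜` is possible -/
theorem pvpWt_supp (h : PvpInc S b 𝒜) (hQ : 0 < pvpQ S b 𝒜 ξ) {B' : Finset ℂ} (hB' : B' ⊆ cfStrip S ξ) (hw : pvpWt S b 𝒜 ξ B' ≠ 0) :
    cfStripOn S b ξ ⊆ B' ∧ cfPaint S b B' ξ ∈ 𝒜 := by
  have hne : pvpCnt (cfStrip S ξ) (pvpTab S b 𝒜 ξ) ≠ 0 := by
    intro h0
    unfold pvpQ at hQ
    rw [h0] at hQ
    simp at hQ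
  refine ⟨fun x hx => pvpK_supp hw x ?_ hx, ?_⟩
  · classical
    unfold cfStripOn at hx
    exact Finset.mem_of_mem_filter x hx
  · exact pvpK_supp_U (pvpTab_up h ξ) hne hB' hw

/-- (P1) Markov -/
theorem pvpOp_one (S : Set ℂ) (b : Bool) (𝒜 : Set (Conf PvPt)) (ξ : Conf PvPt) : pvpOp S b 𝒜 (fun _ => 1) ξ = 1 := by
  unfold pvpOp
  simp only [mul_one]
  rw [← ENNReal.ofReal_sum_of_nonneg (fun B' _ => pvpWt_nonneg S b 𝒜 ξ B'), pvpWt_sum, ENNReal.ofReal_one]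

theorem pvpOp_add (S : Set ℂ) (b : Bool) (𝒜 : Set (Conf PvPt)) (F G : Conf PvPt → ℝ≥0∞) (ξ : Conf PvPt) :
    pvpOp S b 𝒜 (fun ζ => F ζ + G ζ) ξ = pvpOp S b 𝒜 F ξ + pvpOp S b 𝒜 G ξ := by
  unfold pvpOp
  rw [← Finset.sum_add_distrib]
  exact Finset.sum_congr rfl fun B' _ => mul_add _ _ _

theorem pvpOp_tsum {ι : Type*} [Countable ι] (S : Set ℂ) (b : Bool) (𝒜 : Set (Conf PvPt)) (F : ι → Conf PvPt → ℝ≥0∞) (ξ : Conf PvPt) :
    pvpOp S b 𝒜 (fun ζ => ∑' i, F i ζ) ξ = ∑' i, pvpOp S b 𝒜 (F i) ξ := by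
  unfold pvpOp
  rw [Summable.tsum_finsetSum (fun _ _ => ENNReal.summable)]
  exact Finset.sum_congr rfl fun B' _ => ENNReal.tsum_mul_left.symm

/-- (P2) comparison ON THE SUPPORT: this is how b-increasing events (`B_g ∩ NB_g^T`, `P is still a rim`, the gates) pass through the preparation -/
theorem pvpOp_le_of_supp (h : PvpInc S b 𝒜) (hQ : 0 < pvpQ S b 𝒜 ξ) {F G : Conf PvPt → ℝ≥0∞}
    (hFG : ∀ B', cfStripOn S b ξ ⊆ B' → B' ⊆ cfStrip S ξ → cfPaint S b B' ξ ∈ 𝒜 → F (cfPaint S b B' ξ) ≤ G (cfPaint S b B' ξ)) :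
    pvpOp S b 𝒜 F ξ ≤ pvpOp S b 𝒜 G ξ := by
  unfold pvpOp
  refine Finset.sum_le_sum fun B' hB' => ?_
  by_cases hw : pvpWt S b 𝒜 ξ B' = 0
  · rw [hw]; simp
  · obtain ⟨h1, h2⟩ := pvpWt_supp h hQ (Finset.mem_powerset.1 hB') hw
    exact mul_le_mul_right (hFG B' h1 (Finset.mem_powerset.1 hB') h2) _

theorem pvpOp_mono (S : Set ℂ) (b : Bool) (𝒜 : Set (Conf PvPt)) {F G : Conf PvPt → ℝ≥0∞} (hFG : ∀ ζ, F ζ ≤ G ζ) (ξ : Conf PvPt) :
    pvpOp S b 𝒜 F ξ ≤ pvpOp S b 𝒜 G ξ := by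
  unfold pvpOp
  exact Finset.sum_le_sum fun B' _ => mul_le_mul_right (hFG _) _

/-- a constant (at `ξ`) bound on the support -/
theorem pvp_le_op_of_supp (h : PvpInc S b 𝒜) (hQ : 0 < pvpQ S b 𝒜 ξ) {G : Conf PvPt → ℝ≥0∞} {a : ℝ≥0∞}
    (hG : ∀ B', cfStripOn S b ξ ⊆ B' → B' ⊆ cfStrip S ξ → cfPaint S b B' ξ ∈ 𝒜 → a ≤ G (cfPaint S b B' ξ)) : a ≤ pvpOp S b 𝒜 G ξ := by
  have h1 : pvpOp S b 𝒜 (fun _ => a) ξ = a := by
    have h0 := pvpOp_one S b 𝒜 ξ
    unfold pvpOp at h0 ⊢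
    rw [← Finset.sum_mul]
    simp only [mul_one] at h0
    rw [h0, one_mul]
  calc a = pvpOp S b 𝒜 (fun _ => a) ξ := h1.symm
    _ ≤ pvpOp S b 𝒜 G ξ := pvpOp_le_of_supp h hQ hG

/-- (P3) blind factors come out -/
theorem pvpOp_mul_blind {H : Conf PvPt → ℝ≥0∞} (hH : PvpBlind S H) (b : Bool) (𝒜 : Set (Conf PvPt)) (F : Conf PvPt → ℝ≥0∞) (ξ : Conf PvPt) :
    pvpOp S b 𝒜 (fun ζ => H ζ * F ζ) ξ = H ξ * pvpOp S b 𝒜 F ξ := by
  unfold pvpOp
  rw [Finset.mul_sum]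
  refine Finset.sum_congr rfl fun B' _ => ?_
  show ENNReal.ofReal (pvpWt S b 𝒜 ξ B') * (H (cfPaint S b B' ξ) * F (cfPaint S b B' ξ)) = _
  rw [hH b B' ξ]
  ring

theorem pvpAv_blind {Y : Conf PvPt → ℂ} (hY : PvpBlind S Y) (b : Bool) (𝒜 : Set (Conf PvPt)) (ξ : Conf PvPt) : pvpAv S b 𝒜 Y ξ = Y ξ := by
  unfold pvpAv
  have h1 : ∀ B' ∈ (cfStrip S ξ).powerset, (pvpWt S b 𝒜 ξ B' : ℂ) * Y (cfPaint S b B' ξ) = (pvpWt S b 𝒜 ξ B' : ℂ) * Y ξ := fun B' _ => by rw [hY b B' ξ]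
  rw [Finset.sum_congr rfl h1, ← Finset.sum_mul, ← Complex.ofReal_sum, pvpWt_sum, Complex.ofReal_one, one_mul]

theorem pvpAv_add (S : Set ℂ) (b : Bool) (𝒜 : Set (Conf PvPt)) (Y Z : Conf PvPt → ℂ) (ξ : Conf PvPt) :
    pvpAv S b 𝒜 (fun ζ => Y ζ + Z ζ) ξ = pvpAv S b 𝒜 Y ξ + pvpAv S b 𝒜 Z ξ := by
  unfold pvpAv
  rw [← Finset.sum_add_distrib]
  exact Finset.sum_congr rfl fun B' _ => mul_add _ _ _

/-- (P4) Jensen -/
theorem pvp_jensen (S : Set ℂ) (b : Bool) (𝒜 : Set (Conf PvPt)) (Y : Conf PvPt → ℂ) (ξ : Conf PvPt) :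
    ENNReal.ofReal (‖pvpAv S b 𝒜 Y ξ‖ ^ 2) ≤ pvpOp S b 𝒜 (fun ζ => ENNReal.ofReal (‖Y ζ‖ ^ 2)) ξ := by
  have hw0 : ∀ B' ∈ (cfStrip S ξ).powerset, 0 ≤ pvpWt S b 𝒜 ξ B' := fun B' _ => pvpWt_nonneg S b 𝒜 ξ B'
  have hw1 := pvpWt_sum S b 𝒜 ξ
  have h1 : ‖pvpAv S b 𝒜 Y ξ‖ ≤ ∑ B' ∈ (cfStrip S ξ).powerset, pvpWt S b 𝒜 ξ B' * ‖Y (cfPaint S b B' ξ)‖ := by
    unfold pvpAv
    refine (norm_sum_le _ _).trans (le_of_eq (Finset.sum_congr rfl fun B' hB' => ?_))
    rw [norm_mul, Complex.norm_real, Real.norm_eq_abs, abs_of_nonneg (hw0 B' hB')]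
  have h2 : (∑ B' ∈ (cfStrip S ξ).powerset, pvpWt S b 𝒜 ξ B' * ‖Y (cfPaint S b B' ξ)‖) ^ 2
      ≤ ∑ B' ∈ (cfStrip S ξ).powerset, pvpWt S b 𝒜 ξ B' * ‖Y (cfPaint S b B' ξ)‖ ^ 2 := by
    have := (convexOn_pow 2).map_sum_le (t := (cfStrip S ξ).powerset) (w := fun B' => pvpWt S b 𝒜 ξ B')
      (p := fun B' => ‖Y (cfPaint S b B' ξ)‖) hw0 hw1 (fun B' _ => norm_nonneg _)
    simpa only [smul_eq_mul] using this
  have h3 : ‖pvpAv S b 𝒜 Y ξ‖ ^ 2 ≤ ∑ B' ∈ (cfStrip S ξ).powerset, pvpWt S b 𝒜 ξ B' * ‖Y (cfPaint S b B' ξ)‖ ^ 2 :=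
    (pow_le_pow_left₀ (norm_nonneg _) h1 2).trans h2
  refine (ENNReal.ofReal_le_ofReal h3).trans (le_of_eq ?_)
  unfold pvpOp
  rw [ENNReal.ofReal_sum_of_nonneg (fun B' hB' => mul_nonneg (hw0 B' hB') (sq_nonneg _))]
  exact Finset.sum_congr rfl fun B' hB' => ENNReal.ofReal_mul (hw0 B' hB')

theorem pvp_sites_restr {W : Set PvPt} (hW : Prod.fst ⁻¹' S ⊆ W) (ξ : Conf PvPt) : cfSites (Conf.restr W ξ) ∩ S = cfSites ξ ∩ S := by
  ext z
  constructor
  · rintro ⟨⟨p, hp, rfl⟩, hz⟩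
    exact ⟨⟨p, hp.1, rfl⟩, hz⟩
  · rintro ⟨⟨p, hp, rfl⟩, hz⟩
    exact ⟨⟨p, ⟨hp, hW hz⟩, rfl⟩, hz⟩

theorem pvp_strip_restr {W : Set PvPt} (hW : Prod.fst ⁻¹' S ⊆ W) (ξ : Conf PvPt) : cfStrip S (Conf.restr W ξ) = cfStrip S ξ := by
  have h := pvp_sites_restr hW ξ
  unfold cfStrip
  by_cases hf : (cfSites ξ ∩ S).Finite
  · have hf' : (cfSites (Conf.restr W ξ) ∩ S).Finite := h ▸ hf
    rw [dif_pos hf, dif_pos hf']
    ext z
    rw [Set.Finite.mem_toFinset, Set.Finite.mem_toFinset, h]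
  · have hf' : ¬ (cfSites (Conf.restr W ξ) ∩ S).Finite := h ▸ hf
    rw [dif_neg hf, dif_neg hf']

theorem pvp_mem_strip {z : ℂ} (hz : z ∈ cfStrip S ξ) : z ∈ S := by
  unfold cfStrip at hz
  split_ifs at hz with h
  · exact ((Set.Finite.mem_toFinset h).1 hz).2
  · exact absurd hz (Finset.notMem_empty z)

theorem pvp_stripOn_restr {W : Set PvPt} (hW : Prod.fst ⁻¹' S ⊆ W) (b : Bool) (ξ : Conf PvPt) : cfStripOn S b (Conf.restr W ξ) = cfStripOn S b ξ := by
  classical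
  unfold cfStripOn
  rw [pvp_strip_restr hW]
  refine Finset.filter_congr fun z hz => ?_
  constructor
  · intro h; exact h.1
  · intro h; exact ⟨h, hW (pvp_mem_strip hz)⟩

theorem pvp_tab_restr {W : Set PvPt} (hW : Prod.fst ⁻¹' S ⊆ W) (hA : Conf.ReadsSet W 𝒜) (b : Bool) (ξ : Conf PvPt) :
    pvpTab S b 𝒜 (Conf.restr W ξ) = pvpTab S b 𝒜 ξ := by
  funext B
  unfold pvpTab
  rw [cfPaint_restr hW]
  exact propext (hA _)

theorem pvp_wt_restr {W : Set PvPt} (hW : Prod.fst ⁻¹' S ⊆ W) (hA : Conf.ReadsSet W 𝒜) {b : Bool} (ξ : Conf PvPt) :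
    pvpWt S b 𝒜 (Conf.restr W ξ) = pvpWt S b 𝒜 ξ := by
  funext B'
  unfold pvpWt
  rw [pvp_strip_restr hW, pvp_tab_restr hW hA, pvp_stripOn_restr hW]

/-- (P5) LOCALITY: the prepared quantities are read in any window which contains the strip and in which `𝒜` and `F` are read -/
theorem pvpOp_reads {W : Set PvPt} (hW : Prod.fst ⁻¹' S ⊆ W) (hA : Conf.ReadsSet W 𝒜) {F : Conf PvPt → ℝ≥0∞} (hF : Conf.Reads W F) (b : Bool) :
    Conf.Reads W (pvpOp S b 𝒜 F) := by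
  intro ξ
  unfold pvpOp
  rw [pvp_strip_restr hW, pvp_wt_restr hW hA]
  refine Finset.sum_congr rfl fun B' _ => ?_
  rw [cfPaint_restr hW, hF]

theorem pvpAv_reads {W : Set PvPt} (hW : Prod.fst ⁻¹' S ⊆ W) (hA : Conf.ReadsSet W 𝒜) {Y : Conf PvPt → ℂ} (hY : Conf.Reads W Y) (b : Bool) :
    Conf.Reads W (pvpAv S b 𝒜 Y) := by
  intro ξ
  unfold pvpAv
  rw [pvp_strip_restr hW, pvp_wt_restr hW hA]
  refine Finset.sum_congr rfl fun B' _ => ?_
  rw [cfPaint_restr hW, hY]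

/-- the strip only depends on the sites in `S` -/
theorem cfStrip_congr {ξ ξ' : Conf PvPt} (h : cfSites ξ' ∩ S = cfSites ξ ∩ S) : cfStrip S ξ' = cfStrip S ξ := by
  unfold cfStrip
  by_cases hf : (cfSites ξ ∩ S).Finite
  · have hf' : (cfSites ξ' ∩ S).Finite := h ▸ hf
    rw [dif_pos hf, dif_pos hf']
    ext z
    rw [hf.mem_toFinset, hf'.mem_toFinset, h]
  · have hf' : ¬ (cfSites ξ' ∩ S).Finite := h ▸ hf
    rw [dif_neg hf, dif_neg hf']

theorem cfStrip_mem {z : ℂ} (h : z ∈ cfStrip S ξ) : z ∈ cfSites ξ ∧ z ∈ S := by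
  unfold cfStrip at h
  split_ifs at h with hf
  · exact hf.mem_toFinset.1 h
  · exact absurd h (Finset.notMem_empty z)

theorem cfStrip_restr {W : Set PvPt} (hW : Prod.fst ⁻¹' S ⊆ W) (η : Conf PvPt) : cfStrip S (Conf.restr W η) = cfStrip S η := by
  refine cfStrip_congr ?_
  ext z
  constructor
  · rintro ⟨⟨p, hp, rfl⟩, hz⟩
    exact ⟨⟨p, hp.1, rfl⟩, hz⟩
  · rintro ⟨⟨p, hp, rfl⟩, hz⟩
    exact ⟨⟨p, ⟨hp, hW hz⟩, rfl⟩, hz⟩

theorem pvpTab_restr {W : Set PvPt} (hW : Prod.fst ⁻¹' S ⊆ W) (hA : Conf.ReadsSet W 𝒜) (b : Bool) (η : Conf PvPt) :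
    pvpTab S b 𝒜 (Conf.restr W η) = pvpTab S b 𝒜 η := by
  funext B
  unfold pvpTab
  rw [cfPaint_restr hW]
  exact propext (hA _)

/-- a repainting of a disjoint strip does not change the sites of colour `b` of the strip -/
theorem cfStripOn_paint_disj (hd : Disjoint S S') (b b' : Bool) (B : Finset ℂ) (ξ : Conf PvPt) : cfStripOn S b (cfPaint S' b' B ξ) = cfStripOn S b ξ := by
  unfold cfStripOn
  rw [cfStrip_congr (S := S) (ξ' := cfPaint S' b' B ξ) (ξ := ξ) (by rw [cfPaint_sites])]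
  ext z
  simp only [Finset.mem_filter]
  refine and_congr_right fun hz => ?_
  have hzS' : z ∉ S' := fun h => Set.disjoint_left.1 hd (cfStrip_mem hz).2 h
  constructor
  · rintro (h | h)
    · exact h.1
    · exact absurd h.2.1 hzS'
  · intro h
    exact Or.inl ⟨h, hzS'⟩

theorem pvpTab_paint_disj (hd : Disjoint S S') (hA : PvpBlind S' (fun ζ => ζ ∈ 𝒜)) (b b' : Bool) (B : Finset ℂ) (ξ : Conf PvPt) :
    pvpTab S b 𝒜 (cfPaint S' b' B ξ) = pvpTab S b 𝒜 ξ := by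
  funext C
  unfold pvpTab
  rw [cfPaint_comm hd]
  exact hA b' B _

theorem pvpWt_paint_disj (hd : Disjoint S S') (hA : PvpBlind S' (fun ζ => ζ ∈ 𝒜)) (b b' : Bool) (B : Finset ℂ) (ξ : Conf PvPt) :
    pvpWt S b 𝒜 (cfPaint S' b' B ξ) = pvpWt S b 𝒜 ξ := by
  funext C
  unfold pvpWt
  rw [cfStrip_congr (S := S) (ξ' := cfPaint S' b' B ξ) (ξ := ξ) (by rw [cfPaint_sites]), pvpTab_paint_disj hd hA, cfStripOn_paint_disj hd]

theorem pvpQ_reads {W : Set PvPt} (hW : Prod.fst ⁻¹' S ⊆ W) (hA : Conf.ReadsSet W 𝒜) (b : Bool) : Conf.Reads W (pvpQ S b 𝒜) := by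
  intro η
  unfold pvpQ
  rw [cfStrip_restr hW, pvpTab_restr hW hA]

/-- (P6) a preparation in a disjoint strip which `𝒜` and `F` do not see is not seen by the prepared quantity -/
theorem pvpOp_blind (hd : Disjoint S S') (hA : PvpBlind S' (fun ζ => ζ ∈ 𝒜)) {F : Conf PvPt → ℝ≥0∞} (hF : PvpBlind S' F) (b : Bool) :
    PvpBlind S' (pvpOp S b 𝒜 F) := by
  intro b' B ξ
  unfold pvpOp
  rw [cfStrip_congr (S := S) (ξ' := cfPaint S' b' B ξ) (ξ := ξ) (by rw [cfPaint_sites]), pvpWt_paint_disj hd hA]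
  refine Finset.sum_congr rfl fun C _ => ?_
  rw [cfPaint_comm hd, hF]

theorem pvpAv_blind' (hd : Disjoint S S') (hA : PvpBlind S' (fun ζ => ζ ∈ 𝒜)) {Y : Conf PvPt → ℂ} (hY : PvpBlind S' Y) (b : Bool) :
    PvpBlind S' (pvpAv S b 𝒜 Y) := by
  intro b' B ξ
  unfold pvpAv
  rw [cfStrip_congr (S := S) (ξ' := cfPaint S' b' B ξ) (ξ := ξ) (by rw [cfPaint_sites]), pvpWt_paint_disj hd hA]
  refine Finset.sum_congr rfl fun C _ => ?_
  rw [cfPaint_comm hd, hY]

end op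

/-! ## C. integrals: resampling, measurability, DOMINATION -/

section int

variable {S : Set ℂ} {b : Bool} {𝒜 : Set (Conf PvPt)}

open Classical in
/-- repaint the colours of the indices of `I`: colour `b` on `C`, the other colour on `I \ C` -/
noncomputable def pvpPaintI (I : Finset PvIx) (b : Bool) (C : Finset PvIx) (c : PvColT) : PvColT := fun i => if i ∈ I then (if i ∈ C then b else !b) else c i

open Classical in
/-- the indices of the active points in the strip -/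
noncomputable def pvpIdx (S : Set ℂ) (g : PvGeoT) : Finset PvIx := if h : {i | i ∈ pvgAct g ∧ pvgSite g i ∈ S}.Finite then h.toFinset else ∅

theorem pvp_eqns_cite3 : True := by
  have := @pvpPaintI.eq_1; have := @pvpIdx.eq_1
  trivial

theorem measurable_pvpPaintI (I : Finset PvIx) (b : Bool) (C : Finset PvIx) : Measurable (pvpPaintI I b C) := by
  refine measurable_pi_lambda _ fun i => ?_
  unfold pvpPaintI
  by_cases h : i ∈ I
  · simp only [if_pos h]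
    exact measurable_const
  · simp only [if_neg h]
    exact measurable_pi_apply i

/-- **RESAMPLING**: the colours of finitely many indices are fair bits independent of the rest -/
theorem pvp_resample (I : Finset PvIx) (b : Bool) {Φ : PvColT → ℝ≥0∞} (hΦ : Measurable Φ) :
    ∫⁻ c, Φ c ∂pvCol = ∫⁻ c, (2⁻¹ : ℝ≥0∞) ^ I.card * ∑ C ∈ I.powerset, Φ (pvpPaintI I b C c) ∂pvCol := by
  classical
  have hsplit : (pvCol.prod pvCol).map (pvfqMix (I : Set PvIx)) = pvCol := pvfq_split (fun _ : PvIx => pvCoin) (I : Set PvIx)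
  have hmix : Measurable (pvfqMix (I : Set PvIx) : PvColT × PvColT → PvColT) := measurable_pvfqMix (X := fun _ : PvIx => Bool) (I : Set PvIx)
  conv_lhs => rw [← hsplit]
  rw [lintegral_map hΦ hmix, lintegral_prod_symm (fun a => Φ (pvfqMix (I : Set PvIx) a)) (hΦ.comp hmix).aemeasurable]
  refine lintegral_congr fun c => ?_
  have hinner : ∫⁻ c1, Φ (pvfqMix (I : Set PvIx) (c1, c)) ∂pvCol = ∫⁻ x, Φ (fun i => if h : i ∈ I then x ⟨i, h⟩ else c i) ∂(pvBits I) := by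
    rw [← pvqu_col_map (ι := I) (e := Subtype.val) Subtype.val_injective, lintegral_map (Measurable.of_discrete) (by fun_prop)]
    refine lintegral_congr fun c1 => ?_
    congr 1
    funext i
    by_cases h : i ∈ I
    · rw [dif_pos h]
      exact pvfqMix_of_mem (s := (I : Set PvIx)) (Finset.mem_coe.2 h) (c1, c)
    · rw [dif_neg h]
      exact pvfqMix_of_notMem (s := (I : Set PvIx)) (fun h' => h (Finset.mem_coe.1 h')) (c1, c)
  rw [hinner, pvqu_bits_lintegral, Fintype.card_coe, mul_comm]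
  congr 1
  symm
  refine Finset.sum_bij' (fun C _ => fun k : I => if k.1 ∈ C then b else !b) (fun x _ => I.filter fun k => ∃ h : k ∈ I, x ⟨k, h⟩ = b)
    (fun _ _ => Finset.mem_univ _) (fun _ _ => Finset.mem_powerset.2 (Finset.filter_subset _ _)) ?_ ?_ ?_
  · intro C hC
    have hCI := Finset.mem_powerset.1 hC
    ext k
    simp only [Finset.mem_filter]
    constructor
    · rintro ⟨_, _, h2⟩
      by_contra hk
      rw [if_neg hk] at h2
      cases b <;> simp at h2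
    · intro hk
      exact ⟨hCI hk, hCI hk, if_pos hk⟩
  · intro x _
    funext k
    by_cases hx : x k = b
    · rw [if_pos (Finset.mem_filter.2 ⟨k.2, k.2, hx⟩), hx]
    · rw [if_neg (fun h => hx (Finset.mem_filter.1 h).2.2)]
      cases hb : b <;> cases hxk : x k <;> simp_all
  · intro C _
    have e : pvpPaintI I b C c = fun i => if h : i ∈ I then (fun k : I => if k.1 ∈ C then b else !b) ⟨i, h⟩ else c i := by
      funext k
      unfold pvpPaintI
      by_cases hk : k ∈ I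
      · rw [if_pos hk, dif_pos hk]
      · rw [if_neg hk, dif_neg hk]
    rw [e]

theorem pvp_idx_meas (hS : MeasurableSet S) (I : Finset PvIx) : MeasurableSet {g : PvGeoT | pvpIdx S g = I} := by
  classical
  have hmem : ∀ i : PvIx, MeasurableSet {g : PvGeoT | i ∈ pvgAct g ∧ pvgSite g i ∈ S} := by
    intro i
    have h1 : MeasurableSet {g : PvGeoT | i ∈ pvgAct g} := by
      have : Measurable fun g : PvGeoT => g.1 i.1 := (measurable_pi_apply i.1).comp measurable_fst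
      exact this (measurableSet_Ioi (a := i.2))
    exact h1.inter (measurable_pvgSite i hS)
  have hM : ∀ J : Finset PvIx, MeasurableSet {g : PvGeoT | {i | i ∈ pvgAct g ∧ pvgSite g i ∈ S} = (J : Set PvIx)} := by
    intro J
    have e : {g : PvGeoT | {i | i ∈ pvgAct g ∧ pvgSite g i ∈ S} = (J : Set PvIx)}
        = ⋂ i : PvIx, (if i ∈ J then {g : PvGeoT | i ∈ pvgAct g ∧ pvgSite g i ∈ S} else {g : PvGeoT | i ∈ pvgAct g ∧ pvgSite g i ∈ S}ᶜ) := by
      ext g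
      simp only [mem_iInter, Set.ext_iff, Set.mem_ofPred_eq, Finset.mem_coe]
      refine forall_congr' fun i => ?_
      by_cases hi : i ∈ J
      · simp [hi]
      · simp [hi]
    rw [e]
    refine MeasurableSet.iInter fun i => ?_
    by_cases hi : i ∈ J
    · rw [if_pos hi]; exact hmem i
    · rw [if_neg hi]; exact (hmem i).compl
  have hidx : ∀ (g : PvGeoT) (J : Finset PvIx), {i | i ∈ pvgAct g ∧ pvgSite g i ∈ S} = (J : Set PvIx) → pvpIdx S g = J := by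
    intro g J h
    have hf : {i | i ∈ pvgAct g ∧ pvgSite g i ∈ S}.Finite := h ▸ J.finite_toSet
    unfold pvpIdx
    rw [dif_pos hf]
    ext i
    rw [hf.mem_toFinset, h, Finset.mem_coe]
  have hfin : ∀ g : PvGeoT, {i | i ∈ pvgAct g ∧ pvgSite g i ∈ S}.Finite → {i | i ∈ pvgAct g ∧ pvgSite g i ∈ S} = ((pvpIdx S g : Finset PvIx) : Set PvIx) := by
    intro g hf
    unfold pvpIdx
    rw [dif_pos hf, hf.coe_toFinset]
  have hinf : ∀ g : PvGeoT, ¬ {i | i ∈ pvgAct g ∧ pvgSite g i ∈ S}.Finite → pvpIdx S g = ∅ := by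
    intro g hf
    unfold pvpIdx
    rw [dif_neg hf]
  have hFin : MeasurableSet {g : PvGeoT | {i | i ∈ pvgAct g ∧ pvgSite g i ∈ S}.Finite} := by
    have e : {g : PvGeoT | {i | i ∈ pvgAct g ∧ pvgSite g i ∈ S}.Finite} = ⋃ J : Finset PvIx, {g : PvGeoT | {i | i ∈ pvgAct g ∧ pvgSite g i ∈ S} = (J : Set PvIx)} := by
      ext g
      simp only [mem_iUnion, Set.mem_ofPred_eq]
      constructor
      · intro hf
        exact ⟨_, hfin g hf⟩
      · rintro ⟨J, hJ⟩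
        rw [hJ]; exact J.finite_toSet
    rw [e]
    exact MeasurableSet.iUnion hM
  by_cases hI : I = ∅
  · have e : {g : PvGeoT | pvpIdx S g = I} = {g : PvGeoT | {i | i ∈ pvgAct g ∧ pvgSite g i ∈ S} = (I : Set PvIx)} ∪ {g : PvGeoT | {i | i ∈ pvgAct g ∧ pvgSite g i ∈ S}.Finite}ᶜ := by
      ext g
      simp only [mem_union, Set.mem_ofPred_eq, mem_compl_iff]
      constructor
      · intro h
        by_cases hf : {i | i ∈ pvgAct g ∧ pvgSite g i ∈ S}.Finite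
        · left; rw [hfin g hf, h]
        · right; exact hf
      · rintro (h | h)
        · exact hidx g I h
        · rw [hinf g h, hI]
    rw [e]
    exact (hM I).union hFin.compl
  · have e : {g : PvGeoT | pvpIdx S g = I} = {g : PvGeoT | {i | i ∈ pvgAct g ∧ pvgSite g i ∈ S} = (I : Set PvIx)} := by
      ext g
      simp only [Set.mem_ofPred_eq]
      constructor
      · intro h
        by_cases hf : {i | i ∈ pvgAct g ∧ pvgSite g i ∈ S}.Finite
        · rw [hfin g hf, h]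
        · exact absurd ((hinf g hf).symm.trans h).symm hI
      · exact hidx g I
    rw [e]
    exact hM I

theorem pvp_idx_fin {g : PvGeoT} (hg : PvgOk g) (hS : Bornology.IsBounded S) : {i | i ∈ pvgAct g ∧ pvgSite g i ∈ S}.Finite := by
  rw [← pvqu_in_fst]
  exact hg.in_finite (hS.subset (by rintro _ ⟨p, hp, rfl⟩; exact hp))

theorem pvp_mem_idx {g : PvGeoT} (hg : PvgOk g) (hS : Bornology.IsBounded S) {i : PvIx} : i ∈ pvpIdx S g ↔ i ∈ pvgAct g ∧ pvgSite g i ∈ S := by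
  unfold pvpIdx
  rw [dif_pos (pvp_idx_fin hg hS)]
  simp

theorem pvp_sites_fin {g : PvGeoT} (hg : PvgOk g) (hS : Bornology.IsBounded S) : (pvgSites g ∩ S).Finite := by
  refine ((pvp_idx_fin hg hS).image (pvgSite g)).subset ?_
  rintro _ ⟨⟨i, hi, rfl⟩, hz⟩
  exact ⟨i, ⟨hi, hz⟩, rfl⟩

/-- dictionary labels <-> positions -/
theorem pvp_strip_eq {g : PvGeoT} (hg : PvgOk g) (hS : Bornology.IsBounded S) (c : PvColT) :
    cfStrip S (pvConf (pvMerge (g, c))) = (pvpIdx S g).image (pvgSite g) := by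
  classical
  unfold cfStrip
  rw [dif_pos (by rw [pvqu_cfSites]; exact pvp_sites_fin hg hS)]
  ext z
  simp only [Set.Finite.mem_toFinset, Finset.mem_image, pvp_mem_idx hg hS, pvqu_cfSites]
  constructor
  · rintro ⟨⟨i, hi, rfl⟩, hz⟩
    exact ⟨i, ⟨hi, hz⟩, rfl⟩
  · rintro ⟨i, ⟨hi, hz⟩, rfl⟩
    exact ⟨⟨i, hi, rfl⟩, hz⟩

open Classical in
theorem pvp_stripOn_eq {g : PvGeoT} (hg : PvgOk g) (hS : Bornology.IsBounded S) (b : Bool) (c : PvColT) :
    cfStripOn S b (pvConf (pvMerge (g, c))) = ((pvpIdx S g).filter fun i => c i = b).image (pvgSite g) := by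
  unfold cfStripOn
  rw [pvp_strip_eq hg hS]
  ext z
  simp only [Finset.mem_filter, Finset.mem_image]
  constructor
  · rintro ⟨⟨i, hi, rfl⟩, hz⟩
    exact ⟨i, ⟨hi, (hg.col_iff ((pvp_mem_idx hg hS).1 hi).1 c b).1 hz⟩, rfl⟩
  · rintro ⟨i, ⟨hi, hz⟩, rfl⟩
    exact ⟨⟨i, hi, rfl⟩, (hg.col_iff ((pvp_mem_idx hg hS).1 hi).1 c b).2 hz⟩

theorem pvp_paint_eq {g : PvGeoT} (hg : PvgOk g) (hS : Bornology.IsBounded S) (b : Bool) (C : Finset PvIx) (c : PvColT) :
    cfPaint S b (C.image (pvgSite g)) (pvConf (pvMerge (g, c))) = pvConf (pvMerge (g, pvpPaintI (pvpIdx S g) b C c)) := by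
  classical
  ext p
  rw [pvqu_mem_conf]
  simp only [cfPaint, mem_ofPred_eq, pvqu_cfSites, pvqu_mem_conf]
  have hC : ∀ i, pvgSite g i ∈ C.image (pvgSite g) ↔ i ∈ C := by
    intro i
    rw [Finset.mem_image]
    constructor
    · rintro ⟨j, hj, hij⟩
      rwa [← hg.inj hij]
    · intro hi
      exact ⟨i, hi, rfl⟩
  constructor
  · rintro (⟨⟨i, hi, rfl⟩, hp⟩ | ⟨⟨i, hi, hip⟩, hpS, hp2⟩)
    · refine ⟨i, hi, ?_⟩
      have : i ∉ pvpIdx S g := fun h => hp ((pvp_mem_idx hg hS).1 h).2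
      simp [pvpPaintI, this]
    · refine ⟨i, hi, ?_⟩
      have h1 : i ∈ pvpIdx S g := (pvp_mem_idx hg hS).2 ⟨hi, by rw [hip]; exact hpS⟩
      refine Prod.ext hip.symm ?_
      rw [hp2, ← hip]
      simp only [hC, pvpPaintI, h1, if_true]
  · rintro ⟨i, hi, rfl⟩
    by_cases h1 : i ∈ pvpIdx S g
    · right
      refine ⟨⟨i, hi, rfl⟩, ((pvp_mem_idx hg hS).1 h1).2, ?_⟩
      simp only [hC, pvpPaintI, h1, if_true]
    · left
      refine ⟨⟨i, hi, ?_⟩, fun h => h1 ((pvp_mem_idx hg hS).2 ⟨hi, h⟩)⟩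
      simp [pvpPaintI, h1]

theorem pvp_nice {g : PvGeoT} (hg : PvgOk g) (hS : Bornology.IsBounded S) (c : PvColT) : CfNice S (pvConf (pvMerge (g, c))) := by
  refine ⟨?_, by rw [pvqu_cfSites]; exact pvp_sites_fin hg hS⟩
  intro z c1 c2 h1 h2
  obtain ⟨i, hi, hi'⟩ := pvqu_mem_conf.1 h1
  obtain ⟨j, hj, hj'⟩ := pvqu_mem_conf.1 h2
  have hij : i = j := hg.inj ((congrArg Prod.fst hi').symm.trans (congrArg Prod.fst hj'))
  subst hij
  exact (congrArg Prod.snd hi').trans (congrArg Prod.snd hj').symm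

theorem pvp_nice_ae (ε : ℝ) (hS : Bornology.IsBounded S) : ∀ᵐ ω ∂(pvLaw ε), CfNice S (pvConf ω) := by
  filter_upwards [pvqu_ae_geo ε (pvqu_ok_ae ε)] with ω hω
  exact pvp_nice hω hS (pvColOf ω)

/-- a function of finitely many measurable events is measurable -/
theorem pvp_meas_of_pattern {Ω γ κ : Type*} [MeasurableSpace Ω] [MeasurableSpace γ] [Finite κ] (E : κ → Set Ω) (hE : ∀ k, MeasurableSet (E k))
    (f : Ω → γ) (hf : ∀ ω ω', (∀ k, ω ∈ E k ↔ ω' ∈ E k) → f ω = f ω') : Measurable f := by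
  let T : Ω → κ → Prop := fun ω k => ω ∈ E k
  have hT : Measurable T := measurable_pi_iff.2 fun k => measurable_mem.2 (hE k)
  intro s _
  have e : f ⁻¹' s = T ⁻¹' (T '' (f ⁻¹' s)) := by
    apply Set.Subset.antisymm (Set.subset_preimage_image _ _)
    rintro ω ⟨ω', hω', h⟩
    have h2 : f ω = f ω' := hf ω ω' fun k => (iff_of_eq (congrFun h k)).symm
    show f ω ∈ s
    rw [h2]
    exact hω'
  rw [e]
  exact hT MeasurableSet.of_discrete

/-- repaint a sample along the labels of `I` -/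
noncomputable def pvpRe (I : Finset PvIx) (b : Bool) (C : Finset PvIx) (ω : PVSample) : PVSample := pvMerge (pvGeoOf ω, pvpPaintI I b C (pvColOf ω))

/-- the weight in labels -/
noncomputable def pvpWtI (I : Finset PvIx) (b : Bool) (𝒜 : Set (Conf PvPt)) (ω : PVSample) (C : Finset PvIx) : ℝ :=
  pvpK I (fun C' => pvConf (pvpRe I b C' ω) ∈ 𝒜) (I.filter fun i => pvColOf ω i = b) C

theorem pvp_eqns_cite4 : True := by
  have := @pvpRe.eq_1; have := @pvpWtI.eq_1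
  trivial

theorem measurable_pvpRe (I : Finset PvIx) (b : Bool) (C : Finset PvIx) : Measurable (pvpRe I b C) :=
  measurable_pvMerge.comp (measurable_pvGeoOf.prodMk ((measurable_pvpPaintI I b C).comp measurable_pvColOf))

theorem pvp_wtI_meas (I : Finset PvIx) (b : Bool) (hA : MeasurableSet (pvConf ⁻¹' 𝒜)) (C : Finset PvIx) : Measurable fun ω => pvpWtI I b 𝒜 ω C := by
  refine pvp_meas_of_pattern (κ := {C' // C' ∈ I.powerset} ⊕ {i // i ∈ I})
    (fun k => Sum.elim (fun C' => {ω | pvConf (pvpRe I b C'.1 ω) ∈ 𝒜}) (fun i => {ω | pvColOf ω i.1 = b}) k) ?_ _ ?_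
  · rintro (C' | i)
    · exact (measurable_pvpRe I b C'.1) hA
    · exact ((measurable_pi_apply i.1).comp measurable_pvColOf) (measurableSet_singleton b)
  · intro ω ω' h
    unfold pvpWtI
    refine pvpK_congr (fun C' hC' => h (Sum.inl ⟨C', Finset.mem_powerset.2 hC'⟩)) (fun i hi => ?_) (fun _ _ => Iff.rfl)
    have h2 : pvColOf ω i = b ↔ pvColOf ω' i = b := h (Sum.inr ⟨i, hi⟩)
    simp only [Finset.mem_filter, h2]

theorem pvp_cntI_meas (I : Finset PvIx) (b : Bool) (hA : MeasurableSet (pvConf ⁻¹' 𝒜)) :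
    Measurable fun ω => pvpCnt I (fun C' => pvConf (pvpRe I b C' ω) ∈ 𝒜) := by
  refine pvp_meas_of_pattern (κ := {C' // C' ∈ I.powerset}) (fun C' => {ω | pvConf (pvpRe I b C'.1 ω) ∈ 𝒜}) ?_ _ ?_
  · intro C'
    exact (measurable_pvpRe I b C'.1) hA
  · intro ω ω' h
    exact pvpCnt_congr fun C' hC' => h ⟨C', Finset.mem_powerset.2 hC'⟩

theorem pvp_re_conf {ω : PVSample} (hω : DelgpOk ω) (hSb : Bornology.IsBounded S) (b : Bool) (C : Finset PvIx) :
    pvConf (pvpRe (pvpIdx S (pvGeoOf ω)) b C ω) = cfPaint S b (C.image (pvgSite (pvGeoOf ω))) (pvConf ω) :=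
  (pvp_paint_eq (pvqu_ok_of (g := pvGeoOf ω) (c := pvColOf ω) hω) hSb b C (pvColOf ω)).symm

theorem pvp_wt_eq {ω : PVSample} (hω : DelgpOk ω) (hSb : Bornology.IsBounded S) (b : Bool) (𝒜 : Set (Conf PvPt)) (C : Finset PvIx) :
    pvpWt S b 𝒜 (pvConf ω) (C.image (pvgSite (pvGeoOf ω))) = pvpWtI (pvpIdx S (pvGeoOf ω)) b 𝒜 ω C := by
  have hg : PvgOk (pvGeoOf ω) := pvqu_ok_of (c := pvColOf ω) hω
  have e1 : cfStrip S (pvConf ω) = _ := pvp_strip_eq hg hSb (pvColOf ω)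
  have e2 : cfStripOn S b (pvConf ω) = _ := pvp_stripOn_eq hg hSb b (pvColOf ω)
  unfold pvpWt pvpWtI
  rw [e1, e2, pvpK_map hg.inj]
  refine pvpK_congr (fun C' _ => ?_) (fun i _ => ?_) (fun _ _ => Iff.rfl)
  · unfold pvpTab
    rw [pvp_re_conf hω hSb]
  · simp only [Finset.mem_filter]

theorem pvp_sum_powerset_image {α β M : Type*} [DecidableEq α] [DecidableEq β] [AddCommMonoid M] {f : α → β} (hf : Function.Injective f)
    (I : Finset α) (φ : Finset β → M) : ∑ B ∈ (I.image f).powerset, φ B = ∑ C ∈ I.powerset, φ (C.image f) := by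
  have e : (I.image f).powerset = I.powerset.image (Finset.image f) := by
    ext C
    simp only [Finset.mem_powerset, Finset.mem_image]
    constructor
    · intro h1
      obtain ⟨C0, hC0, rfl⟩ := Finset.subset_image_iff.1 h1
      exact ⟨C0, hC0, rfl⟩
    · rintro ⟨C0, h1, rfl⟩
      exact Finset.image_subset_image h1
  rw [e, Finset.sum_image fun a _ c _ h => Finset.image_injective hf h]

theorem pvp_op_eq {ω : PVSample} (hω : DelgpOk ω) (hSb : Bornology.IsBounded S) (b : Bool) (𝒜 : Set (Conf PvPt)) (F : Conf PvPt → ℝ≥0∞) :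
    pvpOp S b 𝒜 F (pvConf ω) = ∑ C ∈ (pvpIdx S (pvGeoOf ω)).powerset,
      ENNReal.ofReal (pvpWtI (pvpIdx S (pvGeoOf ω)) b 𝒜 ω C) * F (pvConf (pvpRe (pvpIdx S (pvGeoOf ω)) b C ω)) := by
  have hg : PvgOk (pvGeoOf ω) := pvqu_ok_of (c := pvColOf ω) hω
  have e1 : cfStrip S (pvConf ω) = _ := pvp_strip_eq hg hSb (pvColOf ω)
  unfold pvpOp
  rw [e1, pvp_sum_powerset_image hg.inj]
  exact Finset.sum_congr rfl fun C _ => by rw [pvp_wt_eq hω hSb, pvp_re_conf hω hSb]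

theorem pvp_av_eq {ω : PVSample} (hω : DelgpOk ω) (hSb : Bornology.IsBounded S) (b : Bool) (𝒜 : Set (Conf PvPt)) (Y : Conf PvPt → ℂ) :
    pvpAv S b 𝒜 Y (pvConf ω) = ∑ C ∈ (pvpIdx S (pvGeoOf ω)).powerset,
      (pvpWtI (pvpIdx S (pvGeoOf ω)) b 𝒜 ω C : ℂ) * Y (pvConf (pvpRe (pvpIdx S (pvGeoOf ω)) b C ω)) := by
  have hg : PvgOk (pvGeoOf ω) := pvqu_ok_of (c := pvColOf ω) hω
  have e1 : cfStrip S (pvConf ω) = _ := pvp_strip_eq hg hSb (pvColOf ω)
  unfold pvpAv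
  rw [e1, pvp_sum_powerset_image hg.inj]
  exact Finset.sum_congr rfl fun C _ => by rw [pvp_wt_eq hω hSb, pvp_re_conf hω hSb]

theorem pvp_Q_eq {ω : PVSample} (hω : DelgpOk ω) (hSb : Bornology.IsBounded S) (b : Bool) (𝒜 : Set (Conf PvPt)) :
    pvpQ S b 𝒜 (pvConf ω) = (pvpCnt (pvpIdx S (pvGeoOf ω)) (fun C' => pvConf (pvpRe (pvpIdx S (pvGeoOf ω)) b C' ω) ∈ 𝒜) : ℝ) /
      2 ^ (pvpIdx S (pvGeoOf ω)).card := by
  have hg : PvgOk (pvGeoOf ω) := pvqu_ok_of (c := pvColOf ω) hω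
  have e1 : cfStrip S (pvConf ω) = _ := pvp_strip_eq hg hSb (pvColOf ω)
  unfold pvpQ
  rw [e1, pvpCnt_image hg.inj, Finset.card_image_of_injective _ hg.inj]
  congr 2
  refine pvpCnt_congr fun C' _ => ?_
  unfold pvpTab
  rw [pvp_re_conf hω hSb]

theorem pvp_glue_meas {γ : Type*} [MeasurableSpace γ] (hS : MeasurableSet S) {Ψ : Finset PvIx → PVSample → γ} (hΨ : ∀ I, Measurable (Ψ I)) :
    Measurable fun ω => Ψ (pvpIdx S (pvGeoOf ω)) ω := by
  intro s hs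
  have e : (fun ω => Ψ (pvpIdx S (pvGeoOf ω)) ω) ⁻¹' s = ⋃ I : Finset PvIx, (pvGeoOf ⁻¹' {g | pvpIdx S g = I}) ∩ (Ψ I ⁻¹' s) := by
    ext ω
    simp
  rw [e]
  exact MeasurableSet.iUnion fun I => (measurable_pvGeoOf (pvp_idx_meas hS I)).inter (hΨ I hs)

/-- MEASURABILITY (checked on the frozen sample space; use `pvcn_bridge_fun` to come back to `Conf PvPt`) -/
theorem pvp_op_meas (hS : MeasurableSet S) (hSb : Bornology.IsBounded S) (b : Bool) (hA : MeasurableSet (pvConf ⁻¹' 𝒜)) {F : Conf PvPt → ℝ≥0∞}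
    (hF : Measurable fun ω => F (pvConf ω)) : ∃ Φ : PVSample → ℝ≥0∞, Measurable Φ ∧ ∀ ω, DelgpOk ω → Φ ω = pvpOp S b 𝒜 F (pvConf ω) := by
  refine ⟨fun ω => ∑ C ∈ (pvpIdx S (pvGeoOf ω)).powerset,
      ENNReal.ofReal (pvpWtI (pvpIdx S (pvGeoOf ω)) b 𝒜 ω C) * F (pvConf (pvpRe (pvpIdx S (pvGeoOf ω)) b C ω)), ?_, fun ω hω => (pvp_op_eq hω hSb b 𝒜 F).symm⟩
  refine pvp_glue_meas (Ψ := fun I ω => ∑ C ∈ I.powerset, ENNReal.ofReal (pvpWtI I b 𝒜 ω C) * F (pvConf (pvpRe I b C ω))) hS fun I => ?_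
  refine Finset.measurable_sum _ fun C _ => ?_
  exact (ENNReal.measurable_ofReal.comp (pvp_wtI_meas I b hA C)).mul (hF.comp (measurable_pvpRe I b C))

theorem pvp_op_aemeas (ε : ℝ) (hS : MeasurableSet S) (hSb : Bornology.IsBounded S) (b : Bool) (hA : MeasurableSet (pvConf ⁻¹' 𝒜)) {F : Conf PvPt → ℝ≥0∞}
    (hF : Measurable fun ω => F (pvConf ω)) : AEMeasurable (fun ω => pvpOp S b 𝒜 F (pvConf ω)) (pvLaw ε) := by
  obtain ⟨Φ, hΦ, hE⟩ := pvp_op_meas hS hSb b hA hF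
  refine ⟨Φ, hΦ, ?_⟩
  filter_upwards [delgp_ae ε] with ω hω
  exact (hE ω hω).symm

theorem pvp_av_meas (hS : MeasurableSet S) (hSb : Bornology.IsBounded S) (b : Bool) (hA : MeasurableSet (pvConf ⁻¹' 𝒜)) {Y : Conf PvPt → ℂ}
    (hY : Measurable fun ω => Y (pvConf ω)) : ∃ Φ : PVSample → ℂ, Measurable Φ ∧ ∀ ω, DelgpOk ω → Φ ω = pvpAv S b 𝒜 Y (pvConf ω) := by
  refine ⟨fun ω => ∑ C ∈ (pvpIdx S (pvGeoOf ω)).powerset,
      (pvpWtI (pvpIdx S (pvGeoOf ω)) b 𝒜 ω C : ℂ) * Y (pvConf (pvpRe (pvpIdx S (pvGeoOf ω)) b C ω)), ?_, fun ω hω => (pvp_av_eq hω hSb b 𝒜 Y).symm⟩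
  refine pvp_glue_meas (Ψ := fun I ω => ∑ C ∈ I.powerset, (pvpWtI I b 𝒜 ω C : ℂ) * Y (pvConf (pvpRe I b C ω))) hS fun I => ?_
  refine Finset.measurable_sum _ fun C _ => ?_
  exact (Complex.measurable_ofReal.comp (pvp_wtI_meas I b hA C)).mul (hY.comp (measurable_pvpRe I b C))

theorem pvp_Q_meas (hS : MeasurableSet S) (hSb : Bornology.IsBounded S) (b : Bool) (hA : MeasurableSet (pvConf ⁻¹' 𝒜)) :
    ∃ Φ : PVSample → ℝ, Measurable Φ ∧ ∀ ω, DelgpOk ω → Φ ω = pvpQ S b 𝒜 (pvConf ω) := by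
  refine ⟨fun ω => (pvpCnt (pvpIdx S (pvGeoOf ω)) (fun C' => pvConf (pvpRe (pvpIdx S (pvGeoOf ω)) b C' ω) ∈ 𝒜) : ℝ) /
      2 ^ (pvpIdx S (pvGeoOf ω)).card, ?_, fun ω hω => (pvp_Q_eq hω hSb b 𝒜).symm⟩
  refine pvp_glue_meas (Ψ := fun I ω => (pvpCnt I (fun C' => pvConf (pvpRe I b C' ω) ∈ 𝒜) : ℝ) / 2 ^ I.card) hS fun I => ?_
  exact (measurable_from_top.comp (pvp_cntI_meas I b hA)).div_const _

/-- the column sums on configurations -/
theorem pvp_col_sum (hinc : PvpInc S b 𝒜) {ξ : Conf PvPt} (hQ : 0 < pvpQ S b 𝒜 ξ) (F : Conf PvPt → ℝ≥0∞) :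
    ∑ B ∈ (cfStrip S ξ).powerset, pvpOp S b 𝒜 F (cfPaint S b B ξ)
      = (ENNReal.ofReal (pvpQ S b 𝒜 ξ))⁻¹ * ∑ B' ∈ (cfStrip S ξ).powerset, 𝒜.indicator F (cfPaint S b B' ξ) := by
  classical
  set J := cfStrip S ξ with hJ
  set U := pvpTab S b 𝒜 ξ with hU
  have hup : PvpUp J U := pvpTab_up hinc ξ
  have hcnt : pvpCnt J U ≠ 0 := by
    intro h0
    rw [pvpQ, ← hJ, ← hU, h0] at hQ
    simp at hQ
  have h1 : ∀ B ∈ J.powerset, pvpOp S b 𝒜 F (cfPaint S b B ξ)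
      = ∑ B' ∈ J.powerset, ENNReal.ofReal (pvpK J U B B') * F (cfPaint S b B' ξ) := by
    intro B hB
    have hB' : B ⊆ cfStrip S ξ := Finset.mem_powerset.1 hB
    unfold pvpOp pvpWt
    rw [cfPaint_strip, pvpTab_paint, cfPaint_stripOn S b ξ hB']
    refine Finset.sum_congr rfl fun B' _ => ?_
    rw [cfPaint_paint]
  rw [Finset.sum_congr rfl h1, Finset.sum_comm, Finset.mul_sum]
  refine Finset.sum_congr rfl fun B' hB' => ?_
  rw [← Finset.sum_mul, ← ENNReal.ofReal_sum_of_nonneg (fun B _ => pvpK_nonneg J U B B'), pvpK_col hup hcnt (Finset.mem_powerset.1 hB')]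
  by_cases hUB : U B'
  · have hmem : cfPaint S b B' ξ ∈ 𝒜 := hUB
    rw [if_pos hUB, Set.indicator_of_mem hmem]
    congr 1
    rw [← ENNReal.ofReal_inv_of_pos hQ]
    congr 1
    rw [pvpQ, ← hJ, ← hU, inv_div]
  · have hmem : cfPaint S b B' ξ ∉ 𝒜 := hUB
    rw [if_neg hUB, Set.indicator_of_notMem hmem]
    simp

/-- sums over the subsets of the index set = sums over the subsets of the strip -/
theorem pvp_sum_idx {g : PvGeoT} (hg : PvgOk g) (hSb : Bornology.IsBounded S) (b : Bool) (c : PvColT) (Φ : Conf PvPt → ℝ≥0∞) :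
    ∑ C ∈ (pvpIdx S g).powerset, Φ (pvConf (pvMerge (g, pvpPaintI (pvpIdx S g) b C c)))
      = ∑ B ∈ (cfStrip S (pvConf (pvMerge (g, c)))).powerset, Φ (cfPaint S b B (pvConf (pvMerge (g, c)))) := by
  classical
  rw [pvp_strip_eq hg hSb c, Finset.powerset_image, Finset.sum_image]
  · refine Finset.sum_congr rfl fun C _ => ?_
    rw [pvp_paint_eq hg hSb]
  · intro C _ C' _ h
    exact Finset.image_injective hg.inj h

theorem pvp_ind_meas (hA : MeasurableSet (pvConf ⁻¹' 𝒜)) {F : Conf PvPt → ℝ≥0∞} (hF : Measurable fun ω => F (pvConf ω)) :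
    Measurable fun ω => 𝒜.indicator F (pvConf ω) := by
  have : (fun ω => 𝒜.indicator F (pvConf ω)) = (pvConf ⁻¹' 𝒜).indicator fun ω => F (pvConf ω) := by
    ext ω
    by_cases h : pvConf ω ∈ 𝒜
    · rw [Set.indicator_of_mem h, Set.indicator_of_mem (show ω ∈ pvConf ⁻¹' 𝒜 from h)]
    · rw [Set.indicator_of_notMem h, Set.indicator_of_notMem (show ω ∉ pvConf ⁻¹' 𝒜 from h)]
  rw [this]
  exact hF.indicator hA

/-- the quenched identity: one geometry, the colours off the strip fixed by Fubini -/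
theorem pvp_quenched {g : PvGeoT} (hg : PvgOk g) (hS : MeasurableSet S) (hSb : Bornology.IsBounded S) (hinc : PvpInc S b 𝒜) (hA : MeasurableSet (pvConf ⁻¹' 𝒜))
    {F H : Conf PvPt → ℝ≥0∞} (hF : Measurable fun ω => F (pvConf ω)) (hH : Measurable fun ω => H (pvConf ω)) (hHb : PvpBlind S H)
    (hH0 : ∀ ξ, pvpQ S b 𝒜 ξ = 0 → H ξ = 0) :
    ∫⁻ c, H (pvConf (pvMerge (g, c))) * pvpOp S b 𝒜 F (pvConf (pvMerge (g, c))) ∂pvCol
      = ∫⁻ c, H (pvConf (pvMerge (g, c))) * (ENNReal.ofReal (pvpQ S b 𝒜 (pvConf (pvMerge (g, c)))))⁻¹ *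
          (𝒜.indicator F (pvConf (pvMerge (g, c)))) ∂pvCol := by
  classical
  have hm : Measurable fun c : PvColT => pvMerge (g, c) := measurable_pvMerge.comp (measurable_const.prodMk measurable_id)
  obtain ⟨Φo, hΦo, hΦo'⟩ := pvp_op_meas hS hSb b hA hF
  obtain ⟨Φq, hΦq, hΦq'⟩ := pvp_Q_meas (𝒜 := 𝒜) hS hSb b hA
  have hind : Measurable fun ω => 𝒜.indicator F (pvConf ω) := by
    have : (fun ω => 𝒜.indicator F (pvConf ω)) = (pvConf ⁻¹' 𝒜).indicator fun ω => F (pvConf ω) := by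
      ext ω
      by_cases h : pvConf ω ∈ 𝒜
      · rw [Set.indicator_of_mem h, Set.indicator_of_mem (show ω ∈ pvConf ⁻¹' 𝒜 from h)]
      · rw [Set.indicator_of_notMem h, Set.indicator_of_notMem (show ω ∉ pvConf ⁻¹' 𝒜 from h)]
    rw [this]
    exact hF.indicator hA
  have m1 : Measurable fun c => H (pvConf (pvMerge (g, c))) * pvpOp S b 𝒜 F (pvConf (pvMerge (g, c))) := by
    have : (fun c => H (pvConf (pvMerge (g, c))) * pvpOp S b 𝒜 F (pvConf (pvMerge (g, c))))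
        = fun c => H (pvConf (pvMerge (g, c))) * Φo (pvMerge (g, c)) := by
      ext c; rw [hΦo' _ (hg.ok c)]
    rw [this]
    exact (hH.comp hm).mul (hΦo.comp hm)
  have m2 : Measurable fun c => H (pvConf (pvMerge (g, c))) * (ENNReal.ofReal (pvpQ S b 𝒜 (pvConf (pvMerge (g, c)))))⁻¹ *
          (𝒜.indicator F (pvConf (pvMerge (g, c)))) := by
    have : (fun c => H (pvConf (pvMerge (g, c))) * (ENNReal.ofReal (pvpQ S b 𝒜 (pvConf (pvMerge (g, c)))))⁻¹ *
          (𝒜.indicator F (pvConf (pvMerge (g, c)))))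
        = fun c => H (pvConf (pvMerge (g, c))) * (ENNReal.ofReal (Φq (pvMerge (g, c))))⁻¹ * (𝒜.indicator F (pvConf (pvMerge (g, c)))) := by
      ext c; rw [hΦq' _ (hg.ok c)]
    rw [this]
    exact ((hH.comp hm).mul (hΦq.comp hm).ennreal_ofReal.inv).mul (hind.comp hm)
  rw [pvp_resample (pvpIdx S g) b m1, pvp_resample (pvpIdx S g) b m2]
  refine lintegral_congr fun c => ?_
  congr 1
  rw [pvp_sum_idx hg hSb b c (fun ξ => H ξ * pvpOp S b 𝒜 F ξ),
    pvp_sum_idx hg hSb b c (fun ξ => H ξ * (ENNReal.ofReal (pvpQ S b 𝒜 ξ))⁻¹ * 𝒜.indicator F ξ)]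
  set ξ := pvConf (pvMerge (g, c)) with hξ
  have e1 : ∀ B, H (cfPaint S b B ξ) = H ξ := fun B => hHb b B ξ
  have e2 : ∀ B, pvpQ S b 𝒜 (cfPaint S b B ξ) = pvpQ S b 𝒜 ξ := fun B => pvpQ_blind S b 𝒜 b B ξ
  simp only [e1, e2]
  rcases (pvpQ_nonneg S b 𝒜 ξ).eq_or_lt with h0 | hpos
  · rw [hH0 ξ h0.symm]
    simp
  · simp only [mul_assoc]
    rw [← Finset.mul_sum, ← Finset.mul_sum, ← Finset.mul_sum, pvp_col_sum hinc hpos]

/-- **THE IDENTITY OF THE PREPARATION**: `law(prepared) = 1_𝒜 / Q · ν` tested against blind weights -/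
theorem pvp_identity (ε : ℝ) (hS : MeasurableSet S) (hSb : Bornology.IsBounded S) (hinc : PvpInc S b 𝒜) (hA : MeasurableSet (pvConf ⁻¹' 𝒜))
    {F H : Conf PvPt → ℝ≥0∞} (hF : Measurable fun ω => F (pvConf ω)) (hH : Measurable fun ω => H (pvConf ω)) (hHb : PvpBlind S H)
    (hH0 : ∀ ξ, pvpQ S b 𝒜 ξ = 0 → H ξ = 0) :
    ∫⁻ ω, H (pvConf ω) * pvpOp S b 𝒜 F (pvConf ω) ∂(pvLaw ε)
      = ∫⁻ ω, H (pvConf ω) * (ENNReal.ofReal (pvpQ S b 𝒜 (pvConf ω)))⁻¹ * (𝒜.indicator F (pvConf ω)) ∂(pvLaw ε) := by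
  obtain ⟨Φo, hΦo, hΦo'⟩ := pvp_op_meas hS hSb b hA hF
  obtain ⟨Φq, hΦq, hΦq'⟩ := pvp_Q_meas (𝒜 := 𝒜) hS hSb b hA
  have hind := pvp_ind_meas hA hF
  have e1 : ∫⁻ ω, H (pvConf ω) * pvpOp S b 𝒜 F (pvConf ω) ∂(pvLaw ε) = ∫⁻ ω, H (pvConf ω) * Φo ω ∂(pvLaw ε) := by
    refine lintegral_congr_ae ?_
    filter_upwards [delgp_ae ε] with ω hω
    rw [hΦo' ω hω]
  have e2 : ∫⁻ ω, H (pvConf ω) * (ENNReal.ofReal (pvpQ S b 𝒜 (pvConf ω)))⁻¹ * (𝒜.indicator F (pvConf ω)) ∂(pvLaw ε)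
      = ∫⁻ ω, H (pvConf ω) * (ENNReal.ofReal (Φq ω))⁻¹ * (𝒜.indicator F (pvConf ω)) ∂(pvLaw ε) := by
    refine lintegral_congr_ae ?_
    filter_upwards [delgp_ae ε] with ω hω
    rw [hΦq' ω hω]
  have m1 : Measurable fun ω => H (pvConf ω) * Φo ω := hH.mul hΦo
  have m2 : Measurable fun ω => H (pvConf ω) * (ENNReal.ofReal (Φq ω))⁻¹ * (𝒜.indicator F (pvConf ω)) := (hH.mul hΦq.ennreal_ofReal.inv).mul hind
  rw [e1, e2, pvqu_lintegral ε m1, pvqu_lintegral ε m2]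
  refine lintegral_congr_ae ?_
  filter_upwards [pvqu_ok_ae ε] with g hg
  have := pvp_quenched hg hS hSb hinc hA hF hH hHb hH0
  simp only [hΦo' _ (hg.ok _), hΦq' _ (hg.ok _)]
  exact this

/-- **DOMINATION** (`law(η, σ^prep) ≤ p⁻¹ ν` of the paper, X4 (3)): `H` blind, supported on the geometries with `Q ≥ p` -/
theorem pvp_dom (ε : ℝ) (hS : MeasurableSet S) (hSb : Bornology.IsBounded S) (hinc : PvpInc S b 𝒜) (hA : MeasurableSet (pvConf ⁻¹' 𝒜))
    {F H : Conf PvPt → ℝ≥0∞} (hF : Measurable fun ω => F (pvConf ω)) (hH : Measurable fun ω => H (pvConf ω)) (hHb : PvpBlind S H)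
    {p : ℝ} (hp : 0 < p) (hHp : ∀ ξ, pvpQ S b 𝒜 ξ < p → H ξ = 0) :
    ∫⁻ ω, H (pvConf ω) * pvpOp S b 𝒜 F (pvConf ω) ∂(pvLaw ε) ≤ (ENNReal.ofReal p)⁻¹ * ∫⁻ ω, H (pvConf ω) * 𝒜.indicator F (pvConf ω) ∂(pvLaw ε) := by
  have hH0 : ∀ ξ, pvpQ S b 𝒜 ξ = 0 → H ξ = 0 := fun ξ h => hHp ξ (by rw [h]; exact hp)
  rw [pvp_identity ε hS hSb hinc hA hF hH hHb hH0]
  have hpt : (ENNReal.ofReal p)⁻¹ ≠ ∞ := by
    rw [Ne, ENNReal.inv_eq_top, ENNReal.ofReal_eq_zero, not_le]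
    exact hp
  rw [← lintegral_const_mul' _ _ hpt]
  refine lintegral_mono fun ω => ?_
  by_cases hq : pvpQ S b 𝒜 (pvConf ω) < p
  · rw [hHp _ hq]
    simp
  · have h1 : (ENNReal.ofReal (pvpQ S b 𝒜 (pvConf ω)))⁻¹ ≤ (ENNReal.ofReal p)⁻¹ :=
      ENNReal.inv_le_inv.2 (ENNReal.ofReal_le_ofReal (not_lt.1 hq))
    calc H (pvConf ω) * (ENNReal.ofReal (pvpQ S b 𝒜 (pvConf ω)))⁻¹ * 𝒜.indicator F (pvConf ω)
        ≤ H (pvConf ω) * (ENNReal.ofReal p)⁻¹ * 𝒜.indicator F (pvConf ω) := by gcongr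
      _ = (ENNReal.ofReal p)⁻¹ * (H (pvConf ω) * 𝒜.indicator F (pvConf ω)) := by ring

end int

/-! ## C'. the STABLE measurability class: the operators can be composed -/

section stable

variable {S : Set ℂ} {b : Bool} {𝒜 : Set (Conf PvPt)}

/-- measurable on the good samples.   This class is STABLE under the preparation operators (`PvpMs.op`, `PvpMs.av`, `pvpQ_ms`), so that they can be iterated (two strips) -/
def PvpMs {γ : Type} [MeasurableSpace γ] (F : Conf PvPt → γ) : Prop := ∃ Φ : PVSample → γ, Measurable Φ ∧ ∀ ω, DelgpOk ω → Φ ω = F (pvConf ω)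

theorem pvp_eqns_cite6 : True := by
  have := @PvpMs.eq_1
  trivial

theorem PvpMs.of_meas {γ : Type} [MeasurableSpace γ] {F : Conf PvPt → γ} (h : Measurable fun ω => F (pvConf ω)) : PvpMs F := ⟨_, h, fun _ _ => rfl⟩

theorem PvpMs.of_set (h : MeasurableSet (pvConf ⁻¹' 𝒜)) : PvpMs fun ξ => ξ ∈ 𝒜 := PvpMs.of_meas (measurableSet_setOfPred.1 h)

theorem PvpMs.const {γ : Type} [MeasurableSpace γ] (a : γ) : PvpMs fun _ => a := ⟨fun _ => a, measurable_const, fun _ _ => rfl⟩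

theorem PvpMs.comp {γ δ : Type} [MeasurableSpace γ] [MeasurableSpace δ] {F : Conf PvPt → γ} (h : PvpMs F) {φ : γ → δ} (hφ : Measurable φ) : PvpMs fun ξ => φ (F ξ) := by
  obtain ⟨Φ, hΦ, hE⟩ := h
  exact ⟨fun ω => φ (Φ ω), hφ.comp hΦ, fun ω hω => by show φ (Φ ω) = _; rw [hE ω hω]⟩

theorem PvpMs.prodMk {γ δ : Type} [MeasurableSpace γ] [MeasurableSpace δ] {F : Conf PvPt → γ} {G : Conf PvPt → δ} (hF : PvpMs F) (hG : PvpMs G) :
    PvpMs fun ξ => (F ξ, G ξ) := by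
  obtain ⟨Φ, hΦ, hE⟩ := hF
  obtain ⟨Ψ, hΨ, hE'⟩ := hG
  exact ⟨fun ω => (Φ ω, Ψ ω), hΦ.prodMk hΨ, fun ω hω => by show (Φ ω, Ψ ω) = _; rw [hE ω hω, hE' ω hω]⟩

theorem PvpMs.aemeasurable {γ : Type} [MeasurableSpace γ] {F : Conf PvPt → γ} (h : PvpMs F) (ε : ℝ) : AEMeasurable (fun ω => F (pvConf ω)) (pvLaw ε) := by
  obtain ⟨Φ, hΦ, hE⟩ := h
  refine ⟨Φ, hΦ, ?_⟩
  filter_upwards [delgp_ae ε] with ω hω
  exact (hE ω hω).symm

theorem PvpMs.sec {γ : Type} [MeasurableSpace γ] {F : Conf PvPt → γ} (h : PvpMs F) {g : PvGeoT} (hg : PvgOk g) :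
    Measurable fun c : PvColT => F (pvConf (pvMerge (g, c))) := by
  obtain ⟨Φ, hΦ, hE⟩ := h
  have hm : Measurable fun c : PvColT => pvMerge (g, c) := measurable_pvMerge.comp (measurable_const.prodMk measurable_id)
  have : (fun c : PvColT => F (pvConf (pvMerge (g, c)))) = fun c => Φ (pvMerge (g, c)) := by
    ext c; rw [hE _ (hg.ok c)]
  rw [this]
  exact hΦ.comp hm

theorem PvpMs.mul {F G : Conf PvPt → ℝ≥0∞} (hF : PvpMs F) (hG : PvpMs G) : PvpMs fun ξ => F ξ * G ξ :=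
  (hF.prodMk hG).comp (measurable_fst.mul measurable_snd)

theorem PvpMs.add {F G : Conf PvPt → ℝ≥0∞} (hF : PvpMs F) (hG : PvpMs G) : PvpMs fun ξ => F ξ + G ξ :=
  (hF.prodMk hG).comp (measurable_fst.add measurable_snd)

theorem PvpMs.indicator {γ : Type} [MeasurableSpace γ] [Zero γ] {F : Conf PvPt → γ} (hF : PvpMs F) {G : Set (Conf PvPt)} (hG : PvpMs fun ξ => ξ ∈ G) :
    PvpMs (G.indicator F) := by
  obtain ⟨Φ, hΦ, hE⟩ := hF
  obtain ⟨φ, hφ, hE'⟩ := hG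
  refine ⟨{ω | φ ω}.indicator Φ, hΦ.indicator (measurableSet_setOfPred.2 hφ), fun ω hω => ?_⟩
  have h1 : φ ω = (pvConf ω ∈ G) := hE' ω hω
  by_cases h : pvConf ω ∈ G
  · rw [Set.indicator_of_mem h, Set.indicator_of_mem (show ω ∈ {ω | φ ω} by show φ ω; rw [h1]; exact h), hE ω hω]
  · rw [Set.indicator_of_notMem h, Set.indicator_of_notMem (show ω ∉ {ω | φ ω} by show ¬ φ ω; rw [h1]; exact h)]

theorem PvpMs.lintegral_eq {F : Conf PvPt → ℝ≥0∞} (h : PvpMs F) (ε : ℝ) :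
    ∫⁻ ω, F (pvConf ω) ∂(pvLaw ε) = ∫⁻ g, ∫⁻ c, F (pvConf (pvMerge (g, c))) ∂pvCol ∂(pvGeo ε) := by
  obtain ⟨Φ, hΦ, hE⟩ := h
  have e1 : ∫⁻ ω, F (pvConf ω) ∂(pvLaw ε) = ∫⁻ ω, Φ ω ∂(pvLaw ε) := by
    refine lintegral_congr_ae ?_
    filter_upwards [delgp_ae ε] with ω hω
    rw [hE ω hω]
  rw [e1, pvqu_lintegral ε hΦ]
  refine lintegral_congr_ae ?_
  filter_upwards [pvqu_ok_ae ε] with g hg
  simp only [hE _ (hg.ok _)]

theorem pvpRe_ok {ω : PVSample} (hω : DelgpOk ω) (I : Finset PvIx) (b : Bool) (C : Finset PvIx) : DelgpOk (pvpRe I b C ω) :=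
  (pvqu_ok_of (g := pvGeoOf ω) (c := pvColOf ω) (by rw [pvqu_merge_of]; exact hω)).ok _

open Classical in
/-- the weight in labels, for an event `A'` of samples -/
noncomputable def pvpWtA (A' : Set PVSample) (I : Finset PvIx) (b : Bool) (C' : Finset PvIx) (ω : PVSample) : ℝ :=
  pvpK I (fun C => pvpRe I b C ω ∈ A') (I.filter fun i => pvColOf ω i = b) C'

theorem pvp_eqns_cite7 : True := by
  have := @pvpWtA.eq_1
  trivial

/-- gluing along a countably valued selector -/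
theorem pvp_meas_glue {α β γ : Type*} [MeasurableSpace α] [MeasurableSpace γ] [Countable β] (T : α → β) (hT : ∀ x, MeasurableSet (T ⁻¹' {x}))
    (Θ : β → α → γ) (hΘ : ∀ x, Measurable (Θ x)) : Measurable fun a => Θ (T a) a := by
  intro s hs
  have : (fun a => Θ (T a) a) ⁻¹' s = ⋃ x, T ⁻¹' {x} ∩ Θ x ⁻¹' s := by
    ext a
    simp only [mem_preimage, mem_iUnion, mem_inter_iff, mem_singleton_iff]
    exact ⟨fun h => ⟨T a, rfl, h⟩, fun ⟨x, hx, h⟩ => by rw [hx]; exact h⟩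
  rw [this]
  exact MeasurableSet.iUnion fun x => (hT x).inter (hΘ x hs)

theorem measurable_pvpWtA {A' : Set PVSample} (hA : MeasurableSet A') (I : Finset PvIx) (b : Bool) (C' : Finset PvIx) : Measurable (pvpWtA A' I b C') := by
  classical
  let D : PVSample → Finset (Finset PvIx) × Finset PvIx := fun ω => (I.powerset.filter fun C => pvpRe I b C ω ∈ A', I.filter fun i => pvColOf ω i = b)
  have hD : ∀ d, MeasurableSet (D ⁻¹' {d}) := by
    rintro ⟨𝒱, B⟩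
    have e : D ⁻¹' {(𝒱, B)} = (⋂ C : Finset PvIx, {ω | (C ∈ I.powerset ∧ pvpRe I b C ω ∈ A') ↔ C ∈ 𝒱}) ∩
        ⋂ i : PvIx, {ω | (i ∈ I ∧ pvColOf ω i = b) ↔ i ∈ B} := by
      ext ω
      simp only [D, mem_preimage, mem_singleton_iff, Prod.mk.injEq, Finset.ext_iff, Finset.mem_filter, mem_inter_iff, mem_iInter, mem_ofPred_eq]
    rw [e]
    refine (MeasurableSet.iInter fun C => ?_).inter (MeasurableSet.iInter fun i => ?_)
    · have h1 : MeasurableSet {ω | pvpRe I b C ω ∈ A'} := measurable_pvpRe I b C hA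
      by_cases hC : C ∈ I.powerset <;> by_cases hV : C ∈ 𝒱
      · have : {ω | (C ∈ I.powerset ∧ pvpRe I b C ω ∈ A') ↔ C ∈ 𝒱} = {ω | pvpRe I b C ω ∈ A'} := by ext ω; simp [hC, hV]
        rw [this]; exact h1
      · have : {ω | (C ∈ I.powerset ∧ pvpRe I b C ω ∈ A') ↔ C ∈ 𝒱} = {ω | pvpRe I b C ω ∈ A'}ᶜ := by ext ω; simp [hC, hV]
        rw [this]; exact h1.compl
      · have : {ω | (C ∈ I.powerset ∧ pvpRe I b C ω ∈ A') ↔ C ∈ 𝒱} = ∅ := by ext ω; simp [hC, hV]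
        rw [this]; exact MeasurableSet.empty
      · have : {ω | (C ∈ I.powerset ∧ pvpRe I b C ω ∈ A') ↔ C ∈ 𝒱} = univ := by ext ω; simp [hC, hV]
        rw [this]; exact MeasurableSet.univ
    · have h1 : MeasurableSet {ω | pvColOf ω i = b} :=
        ((measurable_pi_apply i).comp measurable_pvColOf) (measurableSet_singleton b)
      by_cases hi : i ∈ I <;> by_cases hB : i ∈ B
      · have : {ω | (i ∈ I ∧ pvColOf ω i = b) ↔ i ∈ B} = {ω | pvColOf ω i = b} := by ext ω; simp [hi, hB]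
        rw [this]; exact h1
      · have : {ω | (i ∈ I ∧ pvColOf ω i = b) ↔ i ∈ B} = {ω | pvColOf ω i = b}ᶜ := by ext ω; simp [hi, hB]
        rw [this]; exact h1.compl
      · have : {ω | (i ∈ I ∧ pvColOf ω i = b) ↔ i ∈ B} = ∅ := by ext ω; simp [hi, hB]
        rw [this]; exact MeasurableSet.empty
      · have : {ω | (i ∈ I ∧ pvColOf ω i = b) ↔ i ∈ B} = univ := by ext ω; simp [hi, hB]
        rw [this]; exact MeasurableSet.univ
  have key : pvpWtA A' I b C' = fun ω => (fun (d : Finset (Finset PvIx) × Finset PvIx) (_ : PVSample) => pvpK I (fun C => C ∈ d.1) d.2 C') (D ω) ω := by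
    ext ω
    unfold pvpWtA
    refine pvpK_congr (fun C hC => ?_) (fun _ _ => Iff.rfl) (fun _ _ => Iff.rfl)
    simp only [D, Finset.mem_filter, Finset.mem_powerset]
    exact ⟨fun h => ⟨hC, h⟩, fun h => h.2⟩
  rw [key]
  exact pvp_meas_glue D hD (fun (d : Finset (Finset PvIx) × Finset PvIx) (_ : PVSample) => pvpK I (fun C => C ∈ d.1) d.2 C') fun _ => measurable_const

/-- dictionary for the weights -/
theorem pvp_wtA_eq {ω : PVSample} (hω : DelgpOk ω) (hSb : Bornology.IsBounded S) (b : Bool) {A' : Set PVSample}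
    (hA' : ∀ ω, DelgpOk ω → (ω ∈ A' ↔ pvConf ω ∈ 𝒜)) (C' : Finset PvIx) :
    pvpWt S b 𝒜 (pvConf ω) (C'.image (pvgSite (pvGeoOf ω))) = pvpWtA A' (pvpIdx S (pvGeoOf ω)) b C' ω := by
  classical
  have hg : PvgOk (pvGeoOf ω) := pvqu_ok_of (g := pvGeoOf ω) (c := pvColOf ω) (by rw [pvqu_merge_of]; exact hω)
  have hω' : pvConf ω = pvConf (pvMerge (pvGeoOf ω, pvColOf ω)) := by rw [pvqu_merge_of]
  unfold pvpWt pvpWtA
  rw [hω', pvp_strip_eq hg hSb, pvp_stripOn_eq hg hSb, pvpK_map hg.inj]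
  refine pvpK_congr (fun C _ => ?_) (fun _ _ => Iff.rfl) (fun _ _ => Iff.rfl)
  unfold pvpTab
  rw [pvp_paint_eq hg hSb, hA' _ (pvpRe_ok hω _ b C)]
  rfl

theorem pvp_idx_fib (hS : MeasurableSet S) (I : Finset PvIx) : MeasurableSet ((fun ω : PVSample => pvpIdx S (pvGeoOf ω)) ⁻¹' {I}) :=
  measurable_pvGeoOf (pvp_idx_meas hS I)

theorem PvpMs.set_spec (hA : PvpMs fun ξ => ξ ∈ 𝒜) : ∃ A' : Set PVSample, MeasurableSet A' ∧ ∀ ω, DelgpOk ω → (ω ∈ A' ↔ pvConf ω ∈ 𝒜) := by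
  obtain ⟨φ, hφ, hE⟩ := hA
  exact ⟨{ω | φ ω}, measurableSet_setOfPred.2 hφ, fun ω hω => by show φ ω ↔ _; rw [hE ω hω]⟩

theorem pvp_paint_re {ω : PVSample} (hω : DelgpOk ω) (hSb : Bornology.IsBounded S) (b : Bool) (C : Finset PvIx) :
    cfPaint S b (C.image (pvgSite (pvGeoOf ω))) (pvConf ω) = pvConf (pvpRe (pvpIdx S (pvGeoOf ω)) b C ω) := by
  have hg : PvgOk (pvGeoOf ω) := pvqu_ok_of (g := pvGeoOf ω) (c := pvColOf ω) (by rw [pvqu_merge_of]; exact hω)
  have := pvp_paint_eq hg hSb b C (pvColOf ω)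
  rw [pvqu_merge_of] at this
  rw [this]
  rfl

theorem pvp_strip_re {ω : PVSample} (hω : DelgpOk ω) (hSb : Bornology.IsBounded S) :
    cfStrip S (pvConf ω) = (pvpIdx S (pvGeoOf ω)).image (pvgSite (pvGeoOf ω)) := by
  have hg : PvgOk (pvGeoOf ω) := pvqu_ok_of (g := pvGeoOf ω) (c := pvColOf ω) (by rw [pvqu_merge_of]; exact hω)
  have := pvp_strip_eq hg hSb (pvColOf ω)
  rwa [pvqu_merge_of] at this

/-- **STABILITY** of the class under the preparation operator -/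
theorem PvpMs.op (hS : MeasurableSet S) (hSb : Bornology.IsBounded S) (b : Bool) (hA : PvpMs fun ξ => ξ ∈ 𝒜) {F : Conf PvPt → ℝ≥0∞}
    (hF : PvpMs F) : PvpMs (pvpOp S b 𝒜 F) := by
  classical
  obtain ⟨ΦF, hΦF, hEF⟩ := hF
  obtain ⟨A', hA'm, hA'⟩ := hA.set_spec
  let Θ : Finset PvIx → PVSample → ℝ≥0∞ := fun I ω => ∑ C' ∈ I.powerset, ENNReal.ofReal (pvpWtA A' I b C' ω) * ΦF (pvpRe I b C' ω)
  refine ⟨fun ω => Θ (pvpIdx S (pvGeoOf ω)) ω, pvp_meas_glue (fun ω : PVSample => pvpIdx S (pvGeoOf ω)) (pvp_idx_fib hS) Θ fun I => ?_, ?_⟩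
  · exact Finset.measurable_fun_sum _ fun C' _ => (measurable_pvpWtA hA'm I b C').ennreal_ofReal.mul (hΦF.comp (measurable_pvpRe I b C'))
  · intro ω hω
    have hg : PvgOk (pvGeoOf ω) := pvqu_ok_of (g := pvGeoOf ω) (c := pvColOf ω) (by rw [pvqu_merge_of]; exact hω)
    show ∑ C' ∈ (pvpIdx S (pvGeoOf ω)).powerset, _ = _
    unfold pvpOp
    rw [pvp_strip_re hω hSb, Finset.powerset_image, Finset.sum_image (fun C _ C' _ h => Finset.image_injective hg.inj h)]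
    refine Finset.sum_congr rfl fun C' _ => ?_
    rw [pvp_wtA_eq hω hSb b hA', hEF _ (pvpRe_ok hω _ b C'), pvp_paint_re hω hSb]

theorem PvpMs.av (hS : MeasurableSet S) (hSb : Bornology.IsBounded S) (b : Bool) (hA : PvpMs fun ξ => ξ ∈ 𝒜) {Y : Conf PvPt → ℂ}
    (hY : PvpMs Y) : PvpMs (pvpAv S b 𝒜 Y) := by
  classical
  obtain ⟨ΦF, hΦF, hEF⟩ := hY
  obtain ⟨A', hA'm, hA'⟩ := hA.set_spec
  let Θ : Finset PvIx → PVSample → ℂ := fun I ω => ∑ C' ∈ I.powerset, ((pvpWtA A' I b C' ω : ℝ) : ℂ) * ΦF (pvpRe I b C' ω)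
  refine ⟨fun ω => Θ (pvpIdx S (pvGeoOf ω)) ω, pvp_meas_glue (fun ω : PVSample => pvpIdx S (pvGeoOf ω)) (pvp_idx_fib hS) Θ fun I => ?_, ?_⟩
  · exact Finset.measurable_fun_sum _ fun C' _ => (Complex.measurable_ofReal.comp (measurable_pvpWtA hA'm I b C')).mul (hΦF.comp (measurable_pvpRe I b C'))
  · intro ω hω
    have hg : PvgOk (pvGeoOf ω) := pvqu_ok_of (g := pvGeoOf ω) (c := pvColOf ω) (by rw [pvqu_merge_of]; exact hω)
    show ∑ C' ∈ (pvpIdx S (pvGeoOf ω)).powerset, _ = _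
    unfold pvpAv
    rw [pvp_strip_re hω hSb, Finset.powerset_image, Finset.sum_image (fun C _ C' _ h => Finset.image_injective hg.inj h)]
    refine Finset.sum_congr rfl fun C' _ => ?_
    rw [pvp_wtA_eq hω hSb b hA', hEF _ (pvpRe_ok hω _ b C'), pvp_paint_re hω hSb]

theorem pvpQ_ms (hS : MeasurableSet S) (hSb : Bornology.IsBounded S) (b : Bool) (hA : PvpMs fun ξ => ξ ∈ 𝒜) : PvpMs (pvpQ S b 𝒜) := by
  classical
  obtain ⟨A', hA'm, hA'⟩ := hA.set_spec
  let Θ : Finset PvIx → PVSample → ℝ := fun I ω => (∑ C ∈ I.powerset, (pvpRe I b C ⁻¹' A').indicator (fun _ => (1 : ℝ)) ω) / 2 ^ I.card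
  refine ⟨fun ω => Θ (pvpIdx S (pvGeoOf ω)) ω, pvp_meas_glue (fun ω : PVSample => pvpIdx S (pvGeoOf ω)) (pvp_idx_fib hS) Θ fun I => ?_, ?_⟩
  · exact (Finset.measurable_fun_sum _ fun C _ => measurable_const.indicator (measurable_pvpRe I b C hA'm)).div_const _
  · intro ω hω
    have hg : PvgOk (pvGeoOf ω) := pvqu_ok_of (g := pvGeoOf ω) (c := pvColOf ω) (by rw [pvqu_merge_of]; exact hω)
    show (∑ C ∈ (pvpIdx S (pvGeoOf ω)).powerset, _) / _ = _
    unfold pvpQ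
    rw [pvp_strip_re hω hSb, pvpCnt_image hg.inj, Finset.card_image_of_injective _ hg.inj]
    congr 1
    unfold pvpCnt
    rw [Finset.card_filter, Nat.cast_sum]
    refine Finset.sum_congr rfl fun C _ => ?_
    have hiff : pvpTab S b 𝒜 (pvConf ω) (C.image (pvgSite (pvGeoOf ω))) ↔ ω ∈ pvpRe (pvpIdx S (pvGeoOf ω)) b C ⁻¹' A' := by
      unfold pvpTab
      rw [pvp_paint_re hω hSb, mem_preimage, hA' _ (pvpRe_ok hω _ b C)]
    by_cases h : pvpTab S b 𝒜 (pvConf ω) (C.image (pvgSite (pvGeoOf ω)))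
    · rw [Set.indicator_of_mem (hiff.1 h), if_pos h]; simp
    · rw [Set.indicator_of_notMem (fun h' => h (hiff.2 h')), if_neg h]; simp

theorem pvpQ_inv_ms (hS : MeasurableSet S) (hSb : Bornology.IsBounded S) (b : Bool) (hA : PvpMs fun ξ => ξ ∈ 𝒜) :
    PvpMs fun ξ => (ENNReal.ofReal (pvpQ S b 𝒜 ξ))⁻¹ :=
  (pvpQ_ms hS hSb b hA).comp (φ := fun x => (ENNReal.ofReal x)⁻¹) ENNReal.measurable_ofReal.inv

/-- the quenched identity, stable class -/
theorem pvp_quenched_w {g : PvGeoT} (hg : PvgOk g) (hS : MeasurableSet S) (hSb : Bornology.IsBounded S) (hinc : PvpInc S b 𝒜) (hA : PvpMs fun ξ => ξ ∈ 𝒜)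
    {F H : Conf PvPt → ℝ≥0∞} (hF : PvpMs F) (hH : PvpMs H) (hHb : PvpBlind S H) (hH0 : ∀ ξ, pvpQ S b 𝒜 ξ = 0 → H ξ = 0) :
    ∫⁻ c, H (pvConf (pvMerge (g, c))) * pvpOp S b 𝒜 F (pvConf (pvMerge (g, c))) ∂pvCol
      = ∫⁻ c, H (pvConf (pvMerge (g, c))) * (ENNReal.ofReal (pvpQ S b 𝒜 (pvConf (pvMerge (g, c)))))⁻¹ *
          (𝒜.indicator F (pvConf (pvMerge (g, c)))) ∂pvCol := by
  classical
  have m1 := (hH.mul (PvpMs.op hS hSb b hA hF)).sec hg
  have m2 := ((hH.mul (pvpQ_inv_ms hS hSb b hA)).mul (hF.indicator hA)).sec hg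
  rw [pvp_resample (pvpIdx S g) b m1, pvp_resample (pvpIdx S g) b m2]
  refine lintegral_congr fun c => ?_
  congr 1
  rw [pvp_sum_idx hg hSb b c (fun ξ => H ξ * pvpOp S b 𝒜 F ξ),
    pvp_sum_idx hg hSb b c (fun ξ => H ξ * (ENNReal.ofReal (pvpQ S b 𝒜 ξ))⁻¹ * 𝒜.indicator F ξ)]
  set ξ := pvConf (pvMerge (g, c)) with hξ
  have e1 : ∀ B, H (cfPaint S b B ξ) = H ξ := fun B => hHb b B ξ
  have e2 : ∀ B, pvpQ S b 𝒜 (cfPaint S b B ξ) = pvpQ S b 𝒜 ξ := fun B => pvpQ_blind S b 𝒜 b B ξ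
  simp only [e1, e2]
  rcases (pvpQ_nonneg S b 𝒜 ξ).eq_or_lt with h0 | hpos
  · rw [hH0 ξ h0.symm]
    simp
  · simp only [mul_assoc]
    rw [← Finset.mul_sum, ← Finset.mul_sum, ← Finset.mul_sum, pvp_col_sum hinc hpos]

/-- **THE IDENTITY OF THE PREPARATION**, stable class -/
theorem pvp_identity_w (ε : ℝ) (hS : MeasurableSet S) (hSb : Bornology.IsBounded S) (hinc : PvpInc S b 𝒜) (hA : PvpMs fun ξ => ξ ∈ 𝒜)
    {F H : Conf PvPt → ℝ≥0∞} (hF : PvpMs F) (hH : PvpMs H) (hHb : PvpBlind S H) (hH0 : ∀ ξ, pvpQ S b 𝒜 ξ = 0 → H ξ = 0) :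
    ∫⁻ ω, H (pvConf ω) * pvpOp S b 𝒜 F (pvConf ω) ∂(pvLaw ε)
      = ∫⁻ ω, H (pvConf ω) * (ENNReal.ofReal (pvpQ S b 𝒜 (pvConf ω)))⁻¹ * (𝒜.indicator F (pvConf ω)) ∂(pvLaw ε) := by
  rw [(hH.mul (PvpMs.op hS hSb b hA hF)).lintegral_eq ε,
    ((hH.mul (pvpQ_inv_ms hS hSb b hA)).mul (hF.indicator hA)).lintegral_eq ε]
  refine lintegral_congr_ae ?_
  filter_upwards [pvqu_ok_ae ε] with g hg
  exact pvp_quenched_w hg hS hSb hinc hA hF hH hHb hH0

/-- **DOMINATION**, stable class (so that `F` may itself be a prepared quantity) -/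
theorem pvp_dom_w (ε : ℝ) (hS : MeasurableSet S) (hSb : Bornology.IsBounded S) (hinc : PvpInc S b 𝒜) (hA : PvpMs fun ξ => ξ ∈ 𝒜)
    {F H : Conf PvPt → ℝ≥0∞} (hF : PvpMs F) (hH : PvpMs H) (hHb : PvpBlind S H) {p : ℝ} (hp : 0 < p) (hHp : ∀ ξ, pvpQ S b 𝒜 ξ < p → H ξ = 0) :
    ∫⁻ ω, H (pvConf ω) * pvpOp S b 𝒜 F (pvConf ω) ∂(pvLaw ε) ≤ (ENNReal.ofReal p)⁻¹ * ∫⁻ ω, H (pvConf ω) * 𝒜.indicator F (pvConf ω) ∂(pvLaw ε) := by
  have hH0 : ∀ ξ, pvpQ S b 𝒜 ξ = 0 → H ξ = 0 := fun ξ h => hHp ξ (by rw [h]; exact hp)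
  rw [pvp_identity_w ε hS hSb hinc hA hF hH hHb hH0]
  have hpt : (ENNReal.ofReal p)⁻¹ ≠ ∞ := by
    rw [Ne, ENNReal.inv_eq_top, ENNReal.ofReal_eq_zero, not_le]
    exact hp
  rw [← lintegral_const_mul' _ _ hpt]
  refine lintegral_mono fun ω => ?_
  by_cases hq : pvpQ S b 𝒜 (pvConf ω) < p
  · rw [hHp _ hq]
    simp
  · have h1 : (ENNReal.ofReal (pvpQ S b 𝒜 (pvConf ω)))⁻¹ ≤ (ENNReal.ofReal p)⁻¹ :=
      ENNReal.inv_le_inv.2 (ENNReal.ofReal_le_ofReal (not_lt.1 hq))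
    calc H (pvConf ω) * (ENNReal.ofReal (pvpQ S b 𝒜 (pvConf ω)))⁻¹ * 𝒜.indicator F (pvConf ω)
        ≤ H (pvConf ω) * (ENNReal.ofReal p)⁻¹ * 𝒜.indicator F (pvConf ω) := by gcongr
      _ = (ENNReal.ofReal p)⁻¹ * (H (pvConf ω) * 𝒜.indicator F (pvConf ω)) := by ring

end stable

/-! ## E. two disjoint strips: commutation, product formula, Jensen, DOMINATION with `p⁻¹ p'⁻¹` -/

section two

variable {S S' : Set ℂ} {b b' : Bool} {𝒜 𝒜' : Set (Conf PvPt)}

theorem cfStrip_paint_any (S S' : Set ℂ) (b' : Bool) (B : Finset ℂ) (ξ : Conf PvPt) : cfStrip S (cfPaint S' b' B ξ) = cfStrip S ξ :=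
  cfStrip_congr (S := S) (ξ' := cfPaint S' b' B ξ) (ξ := ξ) (by rw [cfPaint_sites])

theorem pvpQ_blind' (hd : Disjoint S S') (hA : PvpBlind S' (fun ζ => ζ ∈ 𝒜)) (b : Bool) : PvpBlind S' (pvpQ S b 𝒜) := by
  intro b' B ξ
  unfold pvpQ
  rw [cfStrip_paint_any, pvpTab_paint_disj hd hA]

/-- the preparations of two disjoint strips commute -/
theorem pvpOp_comm (hd : Disjoint S S') (hA : PvpBlind S' (fun ζ => ζ ∈ 𝒜)) (hA' : PvpBlind S (fun ζ => ζ ∈ 𝒜')) (b b' : Bool)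
    (F : Conf PvPt → ℝ≥0∞) (ξ : Conf PvPt) : pvpOp S b 𝒜 (pvpOp S' b' 𝒜' F) ξ = pvpOp S' b' 𝒜' (pvpOp S b 𝒜 F) ξ := by
  unfold pvpOp
  simp only [cfStrip_paint_any, pvpWt_paint_disj hd hA, pvpWt_paint_disj hd.symm hA', Finset.mul_sum]
  rw [Finset.sum_comm]
  refine Finset.sum_congr rfl fun B' _ => Finset.sum_congr rfl fun B _ => ?_
  rw [cfPaint_comm hd]
  ring

theorem pvpAv_comm (hd : Disjoint S S') (hA : PvpBlind S' (fun ζ => ζ ∈ 𝒜)) (hA' : PvpBlind S (fun ζ => ζ ∈ 𝒜')) (b b' : Bool)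
    (Y : Conf PvPt → ℂ) (ξ : Conf PvPt) : pvpAv S b 𝒜 (pvpAv S' b' 𝒜' Y) ξ = pvpAv S' b' 𝒜' (pvpAv S b 𝒜 Y) ξ := by
  unfold pvpAv
  simp only [cfStrip_paint_any, pvpWt_paint_disj hd hA, pvpWt_paint_disj hd.symm hA', Finset.mul_sum]
  rw [Finset.sum_comm]
  refine Finset.sum_congr rfl fun B' _ => Finset.sum_congr rfl fun B _ => ?_
  rw [cfPaint_comm hd]
  ring

theorem pvpAv_mul_blind {H : Conf PvPt → ℂ} (hH : PvpBlind S H) (b : Bool) (𝒜 : Set (Conf PvPt)) (Y : Conf PvPt → ℂ) (ξ : Conf PvPt) :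
    pvpAv S b 𝒜 (fun ζ => H ζ * Y ζ) ξ = H ξ * pvpAv S b 𝒜 Y ξ := by
  unfold pvpAv
  rw [Finset.mul_sum]
  refine Finset.sum_congr rfl fun B' _ => ?_
  show (pvpWt S b 𝒜 ξ B' : ℂ) * (H (cfPaint S b B' ξ) * Y (cfPaint S b B' ξ)) = _
  rw [hH b B' ξ]
  ring

/-- PRODUCT FORMULA: the two prepared strips are independent -/
theorem pvpOp_prod (hd : Disjoint S S') (hA' : PvpBlind S (fun ζ => ζ ∈ 𝒜')) {F G : Conf PvPt → ℝ≥0∞} (hF : PvpBlind S' F) (hG : PvpBlind S G)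
    (b b' : Bool) (𝒜 : Set (Conf PvPt)) (ξ : Conf PvPt) :
    pvpOp S b 𝒜 (pvpOp S' b' 𝒜' fun ζ => F ζ * G ζ) ξ = pvpOp S b 𝒜 F ξ * pvpOp S' b' 𝒜' G ξ := by
  have h1 : (pvpOp S' b' 𝒜' fun ζ => F ζ * G ζ) = fun ζ => pvpOp S' b' 𝒜' G ζ * F ζ := by
    funext ζ
    rw [pvpOp_mul_blind hF, mul_comm]
  rw [h1, pvpOp_mul_blind (pvpOp_blind hd.symm hA' hG b'), mul_comm]

theorem pvpAv_prod (hd : Disjoint S S') (hA' : PvpBlind S (fun ζ => ζ ∈ 𝒜')) {Y Z : Conf PvPt → ℂ} (hY : PvpBlind S' Y) (hZ : PvpBlind S Z)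
    (b b' : Bool) (𝒜 : Set (Conf PvPt)) (ξ : Conf PvPt) :
    pvpAv S b 𝒜 (pvpAv S' b' 𝒜' fun ζ => Y ζ * Z ζ) ξ = pvpAv S b 𝒜 Y ξ * pvpAv S' b' 𝒜' Z ξ := by
  have h1 : (pvpAv S' b' 𝒜' fun ζ => Y ζ * Z ζ) = fun ζ => pvpAv S' b' 𝒜' Z ζ * Y ζ := by
    funext ζ
    rw [pvpAv_mul_blind hY, mul_comm]
  rw [h1, pvpAv_mul_blind (pvpAv_blind' hd.symm hA' hZ b'), mul_comm]

/-- Jensen for the double average -/
theorem pvp_jensen2 (S S' : Set ℂ) (b b' : Bool) (𝒜 𝒜' : Set (Conf PvPt)) (Y : Conf PvPt → ℂ) (ξ : Conf PvPt) :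
    ENNReal.ofReal (‖pvpAv S b 𝒜 (pvpAv S' b' 𝒜' Y) ξ‖ ^ 2) ≤ pvpOp S b 𝒜 (pvpOp S' b' 𝒜' fun ζ => ENNReal.ofReal (‖Y ζ‖ ^ 2)) ξ :=
  (pvp_jensen S b 𝒜 _ ξ).trans (pvpOp_mono S b 𝒜 (fun ζ => pvp_jensen S' b' 𝒜' Y ζ) ξ)

theorem PvpBlind.mul {H G : Conf PvPt → ℝ≥0∞} (hH : PvpBlind S H) (hG : PvpBlind S G) : PvpBlind S fun ξ => H ξ * G ξ := by
  intro b B ξ
  show H _ * G _ = _
  rw [hH, hG]

theorem PvpBlind.indicator_one {G : Set (Conf PvPt)} (hG : PvpBlind S fun ζ => ζ ∈ G) : PvpBlind S (G.indicator fun _ => (1 : ℝ≥0∞)) := by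
  intro b B ξ
  have h : (cfPaint S b B ξ ∈ G) = (ξ ∈ G) := hG b B ξ
  by_cases hξ : ξ ∈ G
  · rw [Set.indicator_of_mem hξ, Set.indicator_of_mem (h ▸ hξ)]
  · rw [Set.indicator_of_notMem hξ, Set.indicator_of_notMem (h ▸ hξ)]

/-- **DOMINATION FOR TWO STRIPS** -/
theorem pvp_dom2_w (ε : ℝ) (hS : MeasurableSet S) (hSb : Bornology.IsBounded S) (hinc : PvpInc S b 𝒜) (hA : PvpMs fun ξ => ξ ∈ 𝒜)
    (hS' : MeasurableSet S') (hSb' : Bornology.IsBounded S') (hinc' : PvpInc S' b' 𝒜') (hA' : PvpMs fun ξ => ξ ∈ 𝒜')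
    (hAb : PvpBlind S' (fun ζ => ζ ∈ 𝒜))
    {F H : Conf PvPt → ℝ≥0∞} (hF : PvpMs F) (hH : PvpMs H) (hHb : PvpBlind S H) (hHb' : PvpBlind S' H) {p p' : ℝ} (hp : 0 < p) (hp' : 0 < p')
    (hHp : ∀ ξ, pvpQ S b 𝒜 ξ < p → H ξ = 0) (hHp' : ∀ ξ, pvpQ S' b' 𝒜' ξ < p' → H ξ = 0) :
    ∫⁻ ω, H (pvConf ω) * pvpOp S b 𝒜 (pvpOp S' b' 𝒜' F) (pvConf ω) ∂(pvLaw ε)
      ≤ (ENNReal.ofReal p)⁻¹ * ((ENNReal.ofReal p')⁻¹ * ∫⁻ ω, H (pvConf ω) * (𝒜 ∩ 𝒜').indicator F (pvConf ω) ∂(pvLaw ε)) := by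
  refine (pvp_dom_w ε hS hSb hinc hA (PvpMs.op hS' hSb' b' hA' hF) hH hHb hp hHp).trans ?_
  gcongr
  have e1 : ∀ ω, H (pvConf ω) * 𝒜.indicator (pvpOp S' b' 𝒜' F) (pvConf ω)
      = (H (pvConf ω) * 𝒜.indicator (fun _ => (1 : ℝ≥0∞)) (pvConf ω)) * pvpOp S' b' 𝒜' F (pvConf ω) := by
    intro ω
    by_cases h : pvConf ω ∈ 𝒜
    · rw [Set.indicator_of_mem h, Set.indicator_of_mem h, mul_one]
    · rw [Set.indicator_of_notMem h, Set.indicator_of_notMem h, mul_zero, zero_mul]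
  simp only [e1]
  refine (pvp_dom_w (H := fun ξ => H ξ * 𝒜.indicator (fun _ => (1 : ℝ≥0∞)) ξ) ε hS' hSb' hinc' hA' hF (hH.mul ((PvpMs.const 1).indicator hA))
    (hHb'.mul (PvpBlind.indicator_one hAb)) hp' (fun ξ h => by show H ξ * _ = 0; rw [hHp' ξ h, zero_mul])).trans ?_
  refine mul_le_mul' le_rfl (lintegral_mono fun ω => le_of_eq ?_)
  show H (pvConf ω) * 𝒜.indicator (fun _ => (1 : ℝ≥0∞)) (pvConf ω) * 𝒜'.indicator F (pvConf ω) = _
  by_cases h : pvConf ω ∈ 𝒜 <;> by_cases h' : pvConf ω ∈ 𝒜'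
  · rw [Set.indicator_of_mem h, Set.indicator_of_mem h', Set.indicator_of_mem (show pvConf ω ∈ 𝒜 ∩ 𝒜' from ⟨h, h'⟩), mul_one]
  · rw [Set.indicator_of_notMem h', Set.indicator_of_notMem (show pvConf ω ∉ 𝒜 ∩ 𝒜' from fun x => h' x.2), mul_zero, mul_zero]
  · rw [Set.indicator_of_notMem h, Set.indicator_of_notMem (show pvConf ω ∉ 𝒜 ∩ 𝒜' from fun x => h x.1), mul_zero, zero_mul]
  · rw [Set.indicator_of_notMem h, Set.indicator_of_notMem (show pvConf ω ∉ 𝒜 ∩ 𝒜' from fun x => h x.1), mul_zero, zero_mul]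

end two

end Claimed.Agent.R289
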