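import Claimed.Agent.R289.Tr.RetMeas

/-!
# Row 289 (S0537), box TR-IND (IND.7 bis), file Tr/RetNat : THE NATURALITY PRINCIPLE = measurability FOR FREE of everything combinatorial that is read from retained triangles      (owner helper220; prefix `pvtn_`, `pvtn`, `Pvtn`)

WHY: the states / gates / connector events `G_u`, `A_e`, `B_g`, `NB_g^T`, "the unique arc", "rim" of the TR blueprint (295) are COMBINATORIAL properties of the finite set `Z = pvtrSet ρ E η` of coloured retained triangles and of finitely many deterministic regions.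
Proving their measurability by hand (quantifier by quantifier, `Tr/RetMeas`) is long.   Here: it is enough that the property is NATURAL, i.e. stable under every permutation `φ` of `PvPt` which keeps the labels `lam` (colour, membership in the regions):
      `PvtnNat lam Φ  :=  ∀ φ : Perm PvPt, (∀ p, lam (φ p) = lam p) → ∀ Z l, Φ Z l → Φ (pvtnMap φ '' Z) (l.map φ)`            (`l` = a list of marked points; ONE implication is asked).
PROOF: on `{S ω finite}` the sample space splits into countably many measurable pieces (index set `T` of the triangles, labels and coincidences of the indices of `T` and `L`); two samples of one piece differ by a label preserving permutation (`pvtn_perm`).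
* §1 `pvtn_perm` (a finite label preserving partial injection extends to a label preserving permutation)      * §2 `pvtnT`, `pvtn_image`, `pvtn_meas_T_eq`, `pvtn_meas_finite`      * §3 `pvtn_transport`, **`pvtn_main`**
* §4 **`pvtn_measurable_sum_list`**: sums over a random set of LISTS (arcs, circuits) of points of the configuration (no naturality needed: index-list sections measurable)
* §5 `pvtn_ms_nat` (triangles selected by a natural rule form a `PvtmMS`), `pvtn_measurable_sum_nat`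
* §6 EXITS on `Conf PvPt`, `E` bounded: **`pvtn_cf_event`** (`MeasurableSet {η | Φ (pvtrSet ρ E η) ∧ PvLF η}`), **`pvtn_null_event`**, `pvtn_cf_fun` (countably many values), **`pvtn_cf_sum_list`**, `pvtn_cf_sum_list_ind`, **`pvtn_cf_sum_X`** (`∑_{g : Φ Z g} x(g)`), `pvtn_reads_sum_list`
* §7 calculus: `PvtnNat.iff .and .or .not .imp .all .ex .mono .comp .ex_pt .all_pt`, two lists `PvtnNat₂ .ex_list .all_list .and .or .not .imp`, `PvtnNat.left .right .append`; atoms `pvtn_nat_chain _nodup _verts _tri _all _head _last _path`, equivariance `pvtn_mem_map`, `pvtn_adj_map`, `pvtn_V_map`, `pvtn_chain_map`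
* §8 standard labels `pvtnLab Ts p = (colour, membership in Ts k)`, `pvtn_lab_meas`, `pvtn_lab_col`, `pvtn_lab_mem`.
* §9 LOCAL exits (for `Tr/Soft`, `Tr/Sys`: TRULY measurable AND `Conf.Reads (E ×ˢ univ)`): `PvtnFin E η` (finitely many points in the window; a.s., measurable, read from the window), `pvtn_local_meas`, `pvtn_local_fun`, `pvtn_local_reads`, `pvtn_local_ae`, **`pvtn_loc_event`**, **`pvtn_loc_sum_list`**.
-/

set_option autoImplicit false
set_option linter.unusedSectionVars false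

namespace Claimed.Agent.R289

open MeasureTheory Set Metric Claims.C0465

/-! ## 0. definitions -/

/-- the action of a map of coloured points on triples -/
def pvtnMap (φ : PvPt → PvPt) (t : PvPt × PvPt × PvPt) : PvPt × PvPt × PvPt := (φ t.1, φ t.2.1, φ t.2.2)

/-- **natural predicate** of (set of triangles, list of marked points) for the labels `lam`: stable under every permutation of the coloured points which keeps the labels -/
def PvtnNat {Λ : Type*} (lam : PvPt → Λ) (Φ : Set (PvPt × PvPt × PvPt) → List PvPt → Prop) : Prop :=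
  ∀ φ : Equiv.Perm PvPt, (∀ p, lam (φ p) = lam p) → ∀ Z l, Φ Z l → Φ (pvtnMap φ '' Z) (l.map φ)

/-- the index triples (first indices) of the triangles of `S ω` -/
def pvtnT (S : PVSample → Set (PvPt × PvPt × PvPt)) (ω : PVSample) : Set (DelgpIx × DelgpIx × DelgpIx) :=
  {q | PvtmFst ω q.1 ∧ PvtmFst ω q.2.1 ∧ PvtmFst ω q.2.2 ∧ pvtmP3 ω q ∈ S ω}

/-- the indices of a finite set of index triples -/
noncomputable def pvtnJ (T : Finset (DelgpIx × DelgpIx × DelgpIx)) : List DelgpIx := T.toList.flatMap fun q => [q.1, q.2.1, q.2.2]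

/-- two samples have the same labels and the same coincidences on the indices of `J` -/
def PvtnSame {Λ : Type*} (lam : PvPt → Λ) (J : List DelgpIx) (ω ω' : PVSample) : Prop :=
  (∀ i ∈ J, lam (pvtmP ω i) = lam (pvtmP ω' i)) ∧ ∀ i ∈ J, ∀ j ∈ J, (pvtmP ω i = pvtmP ω j ↔ pvtmP ω' i = pvtmP ω' j)

open Classical in
/-- the (countably valued) type of a sample on `J` -/
noncomputable def pvtnTy {Λ : Type*} (lam : PvPt → Λ) (J : List DelgpIx) (ω : PVSample) : List Λ × List (List Bool) :=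
  (J.map fun i => lam (pvtmP ω i), J.map fun i => J.map fun j => decide (pvtmP ω i = pvtmP ω j))

/-! ## 1. extension of a finite label preserving partial injection to a permutation -/

theorem pvtn_swap_lam {X Λ : Type*} [DecidableEq X] (lam : X → Λ) {c d : X} (h : lam c = lam d) (x : X) : lam (Equiv.swap c d x) = lam x := by
  by_cases h1 : x = c
  · subst h1; rw [Equiv.swap_apply_left]; exact h.symm
  · by_cases h2 : x = d
    · subst h2; rw [Equiv.swap_apply_right]; exact h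
    · rw [Equiv.swap_apply_of_ne_of_ne h1 h2]

theorem pvtn_perm {X ι Λ : Type*} (lam : X → Λ) (a b : ι → X) (J : List ι)
    (he : ∀ i ∈ J, ∀ j ∈ J, (a i = a j ↔ b i = b j)) (hl : ∀ i ∈ J, lam (a i) = lam (b i)) :
    ∃ φ : Equiv.Perm X, (∀ x, lam (φ x) = lam x) ∧ ∀ i ∈ J, φ (a i) = b i := by
  classical
  induction J with
  | nil => exact ⟨1, fun _ => rfl, by simp⟩
  | cons i J ih =>
    obtain ⟨φ, h1, h2⟩ := ih (fun j hj k hk => he j (List.mem_cons_of_mem _ hj) k (List.mem_cons_of_mem _ hk)) fun j hj => hl j (List.mem_cons_of_mem _ hj)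
    by_cases hex : ∃ j ∈ J, a j = a i
    · obtain ⟨j, hj, e⟩ := hex
      refine ⟨φ, h1, fun k hk => ?_⟩
      rcases List.mem_cons.1 hk with rfl | hk
      · rw [← e, h2 j hj]
        exact (he j (List.mem_cons_of_mem _ hj) k List.mem_cons_self).1 e
      · exact h2 k hk
    · have hne : ∀ j ∈ J, a j ≠ a i := fun j hj e => hex ⟨j, hj, e⟩
      have hc : lam (φ (a i)) = lam (b i) := by rw [h1]; exact hl i List.mem_cons_self
      refine ⟨Equiv.swap (φ (a i)) (b i) * φ, fun x => ?_, fun k hk => ?_⟩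
      · rw [Equiv.Perm.mul_apply, pvtn_swap_lam lam hc, h1]
      · rw [Equiv.Perm.mul_apply]
        rcases List.mem_cons.1 hk with rfl | hk
        · rw [Equiv.swap_apply_left]
        · rw [h2 k hk]
          refine Equiv.swap_apply_of_ne_of_ne ?_ ?_
          · intro e
            rw [← h2 k hk] at e
            exact hne k hk (φ.injective e)
          · intro e
            exact hne k hk ((he k (List.mem_cons_of_mem _ hk) i List.mem_cons_self).2 e)

/-! ## 2. the index set of a random set of triangles -/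

variable {ρ : ℝ} {E T A B : Set ℂ} {S : PVSample → Set (PvPt × PvPt × PvPt)}

theorem pvtn_image (hS : PvtmMS S) (ω : PVSample) : pvtmP3 ω '' pvtnT S ω = S ω := by
  ext ⟨a, b, c⟩
  constructor
  · rintro ⟨q, hq, h⟩
    rw [← h]; exact hq.2.2.2
  · intro hv
    obtain ⟨i, hi, rfl⟩ := pvtm_fst_surj (hS.sub ω _ hv).1
    obtain ⟨j, hj, rfl⟩ := pvtm_fst_surj (hS.sub ω _ hv).2.1
    obtain ⟨k, hk, rfl⟩ := pvtm_fst_surj (hS.sub ω _ hv).2.2
    exact ⟨(i, j, k), ⟨hi, hj, hk, hv⟩, rfl⟩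

theorem pvtn_injOn (S : PVSample → Set (PvPt × PvPt × PvPt)) (ω : PVSample) : InjOn (pvtmP3 ω) (pvtnT S ω) := fun _ hq _ hr h =>
  Prod.ext (pvtm_fst_inj hq.1 hr.1 (congrArg Prod.fst h))
    (Prod.ext (pvtm_fst_inj hq.2.1 hr.2.1 (congrArg (fun t => t.2.1) h)) (pvtm_fst_inj hq.2.2.1 hr.2.2.1 (congrArg (fun t => t.2.2) h)))

theorem pvtn_finite_iff (hS : PvtmMS S) (ω : PVSample) : (pvtnT S ω).Finite ↔ (S ω).Finite := by
  rw [← pvtn_image hS ω]
  exact (finite_image_iff (pvtn_injOn S ω)).symm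

theorem pvtn_meas_T_mem (hS : PvtmMS S) (q : DelgpIx × DelgpIx × DelgpIx) : MeasurableSet {ω | q ∈ pvtnT S ω} :=
  delm_meas_and (pvtm_meas_fst q.1) (delm_meas_and (pvtm_meas_fst q.2.1) (delm_meas_and (pvtm_meas_fst q.2.2) (hS.meas q)))

theorem pvtn_meas_T_eq (hS : PvtmMS S) (T : Set (DelgpIx × DelgpIx × DelgpIx)) : MeasurableSet {ω | pvtnT S ω = T} := by
  simp only [Set.ext_iff]
  refine delm_meas_all fun q => ?_
  by_cases hq : q ∈ T
  · simp only [hq, iff_true]; exact pvtn_meas_T_mem hS q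
  · simp only [hq, iff_false]; exact (pvtn_meas_T_mem hS q).compl

theorem pvtn_meas_finite (hS : PvtmMS S) : MeasurableSet {ω | (S ω).Finite} := by
  have e : {ω | (S ω).Finite} = ⋃ T : Finset (DelgpIx × DelgpIx × DelgpIx), {ω | pvtnT S ω = ↑T} := by
    ext ω
    simp only [mem_ofPred_eq, mem_iUnion]
    rw [← pvtn_finite_iff hS]
    constructor
    · intro h; exact ⟨h.toFinset, h.coe_toFinset.symm⟩
    · rintro ⟨T, hT⟩; rw [hT]; exact T.finite_toSet
  rw [e]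
  exact MeasurableSet.iUnion fun T => pvtn_meas_T_eq hS _

theorem pvtn_mem_J {T : Finset (DelgpIx × DelgpIx × DelgpIx)} {q : DelgpIx × DelgpIx × DelgpIx} (hq : q ∈ T) : q.1 ∈ pvtnJ T ∧ q.2.1 ∈ pvtnJ T ∧ q.2.2 ∈ pvtnJ T := by
  have h : ∀ i ∈ [q.1, q.2.1, q.2.2], i ∈ pvtnJ T := fun i hi => List.mem_flatMap.2 ⟨q, Finset.mem_toList.2 hq, hi⟩
  exact ⟨h _ (by simp), h _ (by simp), h _ (by simp)⟩

/-! ## 3. types -/

section types

variable {Λ : Type*} {lam : PvPt → Λ}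

theorem pvtn_same_of_ty {J : List DelgpIx} {ω ω' : PVSample} (h : pvtnTy lam J ω = pvtnTy lam J ω') : PvtnSame lam J ω ω' := by
  classical
  have h1 := congrArg Prod.fst h
  have h2 := congrArg Prod.snd h
  simp only [pvtnTy] at h1 h2
  rw [List.map_inj_left] at h1 h2
  refine ⟨h1, fun i hi j hj => ?_⟩
  have h3 := h2 i hi
  rw [List.map_inj_left] at h3
  have h4 := h3 j hj
  exact decide_eq_decide.1 h4

theorem pvtn_meas_same (hlam : ∀ c : Λ, MeasurableSet (lam ⁻¹' {c})) (J : List DelgpIx) (ω' : PVSample) : MeasurableSet {ω | PvtnSame lam J ω ω'} := by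
  refine delm_meas_and ?_ ?_
  · refine delm_meas_all fun i => delm_meas_imp (MeasurableSet.const _) ?_
    exact pvtm_measurable_P i (hlam _)
  · refine delm_meas_all fun i => delm_meas_imp (MeasurableSet.const _) (delm_meas_all fun j => delm_meas_imp (MeasurableSet.const _) ?_)
    by_cases h : pvtmP ω' i = pvtmP ω' j
    · simp only [h, iff_true]; exact pvtm_meas_eq i j
    · simp only [h, iff_false]; exact (pvtm_meas_eq i j).compl

/-- **transport**: same index set, same labels, same coincidences ⟹ same natural properties -/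
theorem pvtn_transport (hS : PvtmMS S) {Φ : Set (PvPt × PvPt × PvPt) → List PvPt → Prop} (hΦ : PvtnNat lam Φ) {T : Finset (DelgpIx × DelgpIx × DelgpIx)} {L : List DelgpIx} {ω ω' : PVSample}
    (hT : pvtnT S ω = ↑T) (hT' : pvtnT S ω' = ↑T) (h : PvtnSame lam (L ++ pvtnJ T) ω ω') (hW : Φ (S ω') (L.map (pvtmP ω'))) : Φ (S ω) (L.map (pvtmP ω)) := by
  obtain ⟨φ, h1, h2⟩ := pvtn_perm lam (pvtmP ω') (pvtmP ω) (L ++ pvtnJ T) (fun i hi j hj => (h.2 i hi j hj).symm) fun i hi => (h.1 i hi).symm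
  have e1 : S ω = pvtnMap φ '' S ω' := by
    rw [← pvtn_image hS ω, ← pvtn_image hS ω', hT, hT', image_image]
    refine image_congr fun q hq => ?_
    obtain ⟨m1, m2, m3⟩ := pvtn_mem_J (Finset.mem_coe.1 hq)
    simp only [pvtnMap, pvtmP3]
    rw [h2 _ (List.mem_append_right _ m1), h2 _ (List.mem_append_right _ m2), h2 _ (List.mem_append_right _ m3)]
  have e2 : L.map (pvtmP ω) = (L.map (pvtmP ω')).map φ := by
    rw [List.map_map, List.map_inj_left]
    intro i hi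
    exact (h2 i (List.mem_append_left _ hi)).symm
  rw [e1, e2]
  exact hΦ φ h1 _ _ hW

/-- **THE NATURALITY PRINCIPLE**: a natural property of the (finite) random set of triangles and of the points of an index list is measurable -/
theorem pvtn_main [Countable Λ] (hlam : ∀ c : Λ, MeasurableSet (lam ⁻¹' {c})) (hS : PvtmMS S) {Φ : Set (PvPt × PvPt × PvPt) → List PvPt → Prop} (hΦ : PvtnNat lam Φ)
    (L : List DelgpIx) : MeasurableSet {ω | (S ω).Finite ∧ Φ (S ω) (L.map (pvtmP ω))} := by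
  have e : {ω | (S ω).Finite ∧ Φ (S ω) (L.map (pvtmP ω))} = ⋃ T : Finset (DelgpIx × DelgpIx × DelgpIx), {ω | pvtnT S ω = ↑T ∧ Φ (S ω) (L.map (pvtmP ω))} := by
    ext ω
    simp only [mem_ofPred_eq, mem_iUnion]
    rw [← pvtn_finite_iff hS]
    constructor
    · rintro ⟨h, h'⟩; exact ⟨h.toFinset, h.coe_toFinset.symm, h'⟩
    · rintro ⟨T, hT, h'⟩; exact ⟨by rw [hT]; exact T.finite_toSet, h'⟩
  rw [e]
  refine MeasurableSet.iUnion fun T => ?_
  set W : Set PVSample := {ω | pvtnT S ω = ↑T ∧ Φ (S ω) (L.map (pvtmP ω))} with hWdef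
  set J := L ++ pvtnJ T with hJ
  have hch : ∀ k : List Λ × List (List Bool), ∃ ω' : PVSample, k ∈ pvtnTy lam J '' W → ω' ∈ W ∧ pvtnTy lam J ω' = k := by
    intro k
    by_cases hk : k ∈ pvtnTy lam J '' W
    · obtain ⟨ω', h1, h2⟩ := hk
      exact ⟨ω', fun _ => ⟨h1, h2⟩⟩
    · exact ⟨Classical.arbitrary _, fun h => absurd h hk⟩
  choose g hg using hch
  have e2 : W = ⋃ k ∈ pvtnTy lam J '' W, ({ω | pvtnT S ω = ↑T} ∩ {ω | PvtnSame lam J ω (g k)}) := by
    ext ω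
    simp only [mem_iUnion, mem_inter_iff, mem_ofPred_eq, exists_prop]
    constructor
    · intro hω
      refine ⟨pvtnTy lam J ω, mem_image_of_mem _ hω, hω.1, ?_⟩
      exact pvtn_same_of_ty (hg _ (mem_image_of_mem _ hω)).2.symm
    · rintro ⟨k, hk, h1, h2⟩
      exact ⟨h1, pvtn_transport hS hΦ h1 (hg k hk).1.1 h2 (hg k hk).1.2⟩
  rw [e2]
  exact MeasurableSet.biUnion (to_countable _) fun k _ => (pvtn_meas_T_eq hS _).inter (pvtn_meas_same hlam J (g k))

end types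


/-! ## 4. sums over lists of points of the configuration -/

theorem pvtn_list_inj {ω : PVSample} : ∀ {L L' : List DelgpIx}, (∀ i ∈ L, PvtmFst ω i) → (∀ i ∈ L', PvtmFst ω i) → L.map (pvtmP ω) = L'.map (pvtmP ω) → L = L'
  | [], [], _, _, _ => rfl
  | [], _ :: _, _, _, h => by simp at h
  | _ :: _, [], _, _, h => by simp at h
  | i :: L, j :: L', h1, h2, h => by
    rw [List.map_cons, List.map_cons, List.cons.injEq] at h
    rw [pvtm_fst_inj (h1 i List.mem_cons_self) (h2 j List.mem_cons_self) h.1,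
      pvtn_list_inj (fun k hk => h1 k (List.mem_cons_of_mem _ hk)) (fun k hk => h2 k (List.mem_cons_of_mem _ hk)) h.2]

theorem pvtn_list_surj {ω : PVSample} : ∀ l : List PvPt, (∀ p ∈ l, p ∈ (pvConf ω).pts) → ∃ L : List DelgpIx, (∀ i ∈ L, PvtmFst ω i) ∧ L.map (pvtmP ω) = l
  | [], _ => ⟨[], by simp, rfl⟩
  | a :: l, h => by
    obtain ⟨L, hL, e⟩ := pvtn_list_surj l fun q hq => h q (List.mem_cons_of_mem _ hq)
    obtain ⟨i, hi, e'⟩ := pvtm_fst_surj (h a List.mem_cons_self)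
    refine ⟨i :: L, ?_, by rw [List.map_cons, e, e']⟩
    intro j hj
    rcases List.mem_cons.1 hj with rfl | hj
    · exact hi
    · exact hL j hj

theorem pvtn_meas_list_fst (L : List DelgpIx) : MeasurableSet {ω : PVSample | ∀ i ∈ L, PvtmFst ω i} :=
  delm_meas_all fun i => delm_meas_imp (MeasurableSet.const _) (pvtm_meas_fst i)

section listsums

variable {M : Type*} [AddCommMonoid M] [TopologicalSpace M]

/-- a sum over a set of lists of points of the configuration is a sum over the index lists -/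
theorem pvtn_tsum_list (ω : PVSample) {Z : Set (List PvPt)} (hZ : ∀ l ∈ Z, ∀ p ∈ l, p ∈ (pvConf ω).pts) (F : List PvPt → M) :
    ∑' l : Z, F l = ∑' L : List DelgpIx, {L | (∀ i ∈ L, PvtmFst ω i) ∧ L.map (pvtmP ω) ∈ Z}.indicator (fun L => F (L.map (pvtmP ω))) L := by
  have e : Z = List.map (pvtmP ω) '' {L | (∀ i ∈ L, PvtmFst ω i) ∧ L.map (pvtmP ω) ∈ Z} := by
    ext l
    constructor
    · intro hl
      obtain ⟨L, hL, rfl⟩ := pvtn_list_surj l (hZ l hl)
      exact ⟨L, ⟨hL, hl⟩, rfl⟩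
    · rintro ⟨L, hL, rfl⟩
      exact hL.2
  have hinj : InjOn (List.map (pvtmP ω)) {L | (∀ i ∈ L, PvtmFst ω i) ∧ L.map (pvtmP ω) ∈ Z} := fun _ hL _ hL' h => pvtn_list_inj hL.1 hL'.1 h
  rw [← tsum_subtype, ← tsum_image F hinj]
  exact tsum_congr_set_coe F e

variable [TopologicalSpace.IsCompletelyPseudoMetrizableSpace M] [SecondCountableTopology M] [MeasurableSpace M] [BorelSpace M] [MeasurableAdd₂ M]

/-- **sums over a random set of lists (paths, arcs, circuits) of points of the configuration** -/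
theorem pvtn_measurable_sum_list {Z : PVSample → Set (List PvPt)} (hsub : ∀ ω, ∀ l ∈ Z ω, ∀ p ∈ l, p ∈ (pvConf ω).pts) (hZ : ∀ L : List DelgpIx, MeasurableSet {ω | L.map (pvtmP ω) ∈ Z ω})
    {F : PVSample → List PvPt → M} (hF : ∀ L : List DelgpIx, Measurable fun ω => F ω (L.map (pvtmP ω))) : Measurable fun ω => ∑' l : Z ω, F ω l := by
  have e : (fun ω => ∑' l : Z ω, F ω l)
      = fun ω => ∑' L : List DelgpIx, {L | (∀ i ∈ L, PvtmFst ω i) ∧ L.map (pvtmP ω) ∈ Z ω}.indicator (fun L => F ω (L.map (pvtmP ω))) L := by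
    funext ω; exact pvtn_tsum_list ω (hsub ω) (F ω)
  rw [e]
  exact delm_measurable_tsum (P := fun L ω => (∀ i ∈ L, PvtmFst ω i) ∧ L.map (pvtmP ω) ∈ Z ω) (f := fun L ω => F ω (L.map (pvtmP ω)))
    (fun L => delm_meas_and (pvtn_meas_list_fst L) (hZ L)) hF

end listsums

/-! ## 5. consequences of naturality on the sample space -/

section nat

variable {Λ : Type*} {lam : PvPt → Λ} {Φ : Set (PvPt × PvPt × PvPt) → List PvPt → Prop}

/-- the triangles selected by a natural rule -/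
theorem pvtn_ms_nat [Countable Λ] (hlam : ∀ c : Λ, MeasurableSet (lam ⁻¹' {c})) (hS : PvtmMS S) (hΦ : PvtnNat lam Φ) :
    PvtmMS fun ω => {t | t ∈ S ω ∧ (S ω).Finite ∧ Φ (S ω) [t.1, t.2.1, t.2.2]} :=
  hS.sep (p := fun ω t => (S ω).Finite ∧ Φ (S ω) [t.1, t.2.1, t.2.2]) fun q => pvtn_main hlam hS hΦ [q.1, q.2.1, q.2.2]

variable {M : Type*} [AddCommMonoid M] [TopologicalSpace M] [TopologicalSpace.IsCompletelyPseudoMetrizableSpace M] [SecondCountableTopology M] [MeasurableSpace M] [BorelSpace M] [MeasurableAdd₂ M]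

/-- sums over the lists of vertices selected by a natural rule -/
theorem pvtn_measurable_sum_nat [Countable Λ] (hlam : ∀ c : Λ, MeasurableSet (lam ⁻¹' {c})) (hS : PvtmMS S) (hΦ : PvtnNat lam Φ) (hV : ∀ Z l, Φ Z l → ∀ p ∈ l, p ∈ pvtmV Z)
    {F : PVSample → List PvPt → M} (hF : ∀ L : List DelgpIx, Measurable fun ω => F ω (L.map (pvtmP ω))) : Measurable fun ω => ∑' l : {l | (S ω).Finite ∧ Φ (S ω) l}, F ω l :=
  pvtn_measurable_sum_list (Z := fun ω => {l | (S ω).Finite ∧ Φ (S ω) l}) (fun ω _ hl p hp => pvtm_V_sub hS ω (hV _ _ hl.2 p hp)) (fun L => pvtn_main hlam hS hΦ L) hF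

end nat


/-! ## 6. exits on `Conf PvPt`: bounded window `E`, `S = pvtrSet ρ E` -/

section exits

variable {Λ : Type*} {lam : PvPt → Λ}

/-- **a natural event of the coloured retained triangles is measurable on the locally finite configurations** -/
theorem pvtn_cf_event [Countable Λ] (hlam : ∀ c : Λ, MeasurableSet (lam ⁻¹' {c})) (hE : MeasurableSet (pvtmIn E)) (hb : Bornology.IsBounded E) (ρ : ℝ)
    {Φ : Set (PvPt × PvPt × PvPt) → Prop} (hΦ : PvtnNat lam fun Z _ => Φ Z) : MeasurableSet {η : Conf PvPt | Φ (pvtrSet ρ E η) ∧ PvLF η} := by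
  have h := pvcn_bridge (A := {η : Conf PvPt | (pvtrSet ρ E η).Finite ∧ Φ (pvtrSet ρ E η)}) (pvtn_main hlam (pvtm_ms_set hE ρ) hΦ [])
  have e : {η : Conf PvPt | Φ (pvtrSet ρ E η) ∧ PvLF η} = {η : Conf PvPt | (pvtrSet ρ E η).Finite ∧ Φ (pvtrSet ρ E η)} ∩ {η | PvLF η} := by
    ext η
    exact ⟨fun h => ⟨⟨pvtm_set_finite h.2 hb ρ, h.1⟩, h.2⟩, fun h => ⟨h.1.2, h.2⟩⟩
  rw [e]
  exact h

theorem pvtn_null_event [Countable Λ] (hlam : ∀ c : Λ, MeasurableSet (lam ⁻¹' {c})) (hE : MeasurableSet (pvtmIn E)) (hb : Bornology.IsBounded E) (ρ : ℝ)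
    {Φ : Set (PvPt × PvPt × PvPt) → Prop} (hΦ : PvtnNat lam fun Z _ => Φ Z) (ε : ℝ) : NullMeasurableSet {η : Conf PvPt | Φ (pvtrSet ρ E η)} (pvP ε) := by
  refine (pvtn_cf_event hlam hE hb ρ hΦ).nullMeasurableSet.congr ?_
  filter_upwards [pvcn_LF_ae ε] with η hη
  exact propext ⟨fun h => h.1, fun h => ⟨h, hη⟩⟩

/-- a natural function with countably many values -/
theorem pvtn_cf_fun [Countable Λ] (hlam : ∀ c : Λ, MeasurableSet (lam ⁻¹' {c})) (hE : MeasurableSet (pvtmIn E)) (hb : Bornology.IsBounded E) (ρ : ℝ)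
    {K : Type*} [Countable K] [MeasurableSpace K] {f : Set (PvPt × PvPt × PvPt) → K} (hf : ∀ φ : Equiv.Perm PvPt, (∀ p, lam (φ p) = lam p) → ∀ Z, f (pvtnMap φ '' Z) = f Z) (ε : ℝ) :
    AEMeasurable (fun η : Conf PvPt => f (pvtrSet ρ E η)) (pvP ε) := by
  classical
  have hm : Measurable fun ω : PVSample => if (pvtrSet ρ E (pvConf ω)).Finite then f (pvtrSet ρ E (pvConf ω)) else f ∅ := by
    refine measurable_to_countable' fun k => ?_
    have e : (fun ω : PVSample => if (pvtrSet ρ E (pvConf ω)).Finite then f (pvtrSet ρ E (pvConf ω)) else f ∅) ⁻¹' {k}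
        = {ω | (pvtrSet ρ E (pvConf ω)).Finite ∧ f (pvtrSet ρ E (pvConf ω)) = k} ∪ ({ω | (pvtrSet ρ E (pvConf ω)).Finite}ᶜ ∩ {_ω | f ∅ = k}) := by
      ext ω
      simp only [mem_preimage, mem_singleton_iff, mem_union, mem_ofPred_eq, mem_inter_iff, mem_compl_iff]
      by_cases h : (pvtrSet ρ E (pvConf ω)).Finite
      · simp [h]
      · simp [h]
    rw [e]
    refine (pvtn_main hlam (pvtm_ms_set hE ρ) (Φ := fun Z _ => f Z = k) (fun φ hφ Z _ h => (hf φ hφ Z).trans h) []).union ?_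
    exact (pvtn_meas_finite (pvtm_ms_set hE ρ)).compl.inter (MeasurableSet.const _)
  refine (pvcn_bridge_fun (f := fun η : Conf PvPt => if (pvtrSet ρ E η).Finite then f (pvtrSet ρ E η) else f ∅) hm ε).congr ?_
  filter_upwards [pvcn_LF_ae ε] with η hη
  exact if_pos (pvtm_set_finite hη hb ρ)

variable {M : Type*} [AddCommMonoid M] [TopologicalSpace M] [TopologicalSpace.IsCompletelyPseudoMetrizableSpace M] [SecondCountableTopology M] [MeasurableSpace M] [BorelSpace M] [MeasurableAdd₂ M]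

/-- **sums over the lists of vertices (arcs, circuits) selected by a natural rule** of a summand which is measurable for every index list (e.g. `pvtmX`) -/
theorem pvtn_cf_sum_list [Countable Λ] (hlam : ∀ c : Λ, MeasurableSet (lam ⁻¹' {c})) (hE : MeasurableSet (pvtmIn E)) (hb : Bornology.IsBounded E) (ρ : ℝ)
    {Φ : Set (PvPt × PvPt × PvPt) → List PvPt → Prop} (hΦ : PvtnNat lam Φ) (hV : ∀ Z l, Φ Z l → ∀ p ∈ l, p ∈ pvtmV Z)
    {F : Set (PvPt × PvPt × PvPt) → List PvPt → M} (hF : ∀ L : List DelgpIx, Measurable fun ω => F (pvtrSet ρ E (pvConf ω)) (L.map (pvtmP ω))) (ε : ℝ) :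
    AEMeasurable (fun η : Conf PvPt => ∑' l : {l | Φ (pvtrSet ρ E η) l}, F (pvtrSet ρ E η) l) (pvP ε) := by
  have h := pvcn_bridge_fun (f := fun η : Conf PvPt => ∑' l : {l | (pvtrSet ρ E η).Finite ∧ Φ (pvtrSet ρ E η) l}, F (pvtrSet ρ E η) l)
    (pvtn_measurable_sum_nat hlam (pvtm_ms_set hE ρ) hΦ hV (F := fun ω l => F (pvtrSet ρ E (pvConf ω)) l) hF) ε
  refine h.congr ?_
  filter_upwards [pvcn_LF_ae ε] with η hη
  have e : {l | (pvtrSet ρ E η).Finite ∧ Φ (pvtrSet ρ E η) l} = {l | Φ (pvtrSet ρ E η) l} := by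
    ext l
    exact ⟨fun h => h.2, fun h => ⟨pvtm_set_finite hη hb ρ, h⟩⟩
  exact tsum_congr_set_coe _ e

/-- the truly measurable version -/
theorem pvtn_cf_sum_list_ind [Countable Λ] (hlam : ∀ c : Λ, MeasurableSet (lam ⁻¹' {c})) (hE : MeasurableSet (pvtmIn E)) (hb : Bornology.IsBounded E) (ρ : ℝ)
    {Φ : Set (PvPt × PvPt × PvPt) → List PvPt → Prop} (hΦ : PvtnNat lam Φ) (hV : ∀ Z l, Φ Z l → ∀ p ∈ l, p ∈ pvtmV Z)
    {F : Set (PvPt × PvPt × PvPt) → List PvPt → M} (hF : ∀ L : List DelgpIx, Measurable fun ω => F (pvtrSet ρ E (pvConf ω)) (L.map (pvtmP ω))) :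
    Measurable ({η : Conf PvPt | PvLF η}.indicator fun η : Conf PvPt => ∑' l : {l | Φ (pvtrSet ρ E η) l}, F (pvtrSet ρ E η) l) := by
  have h := pvtm_bridge_ind (f := fun η : Conf PvPt => ∑' l : {l | (pvtrSet ρ E η).Finite ∧ Φ (pvtrSet ρ E η) l}, F (pvtrSet ρ E η) l)
    (pvtn_measurable_sum_nat hlam (pvtm_ms_set hE ρ) hΦ hV (F := fun ω l => F (pvtrSet ρ E (pvConf ω)) l) hF)
  have e : ({η : Conf PvPt | PvLF η}.indicator fun η : Conf PvPt => ∑' l : {l | Φ (pvtrSet ρ E η) l}, F (pvtrSet ρ E η) l)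
      = {η : Conf PvPt | PvLF η}.indicator fun η : Conf PvPt => ∑' l : {l | (pvtrSet ρ E η).Finite ∧ Φ (pvtrSet ρ E η) l}, F (pvtrSet ρ E η) l := by
    funext η
    by_cases hη : η ∈ {η : Conf PvPt | PvLF η}
    · rw [indicator_of_mem hη, indicator_of_mem hη]
      have e : {l | Φ (pvtrSet ρ E η) l} = {l | (pvtrSet ρ E η).Finite ∧ Φ (pvtrSet ρ E η) l} := by
        ext l
        exact ⟨fun h => ⟨pvtm_set_finite hη hb ρ, h⟩, fun h => h.2⟩
      exact tsum_congr_set_coe _ e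
    · rw [indicator_of_notMem hη, indicator_of_notMem hη]
  rw [e]
  exact h

/-- `x(g)` summed over the arcs `g` selected by a natural rule -/
theorem pvtn_cf_sum_X [Countable Λ] (hlam : ∀ c : Λ, MeasurableSet (lam ⁻¹' {c})) (hE : MeasurableSet (pvtmIn E)) (hb : Bornology.IsBounded E) (ρ : ℝ)
    {Φ : Set (PvPt × PvPt × PvPt) → List PvPt → Prop} (hΦ : PvtnNat lam Φ) (hV : ∀ Z l, Φ Z l → ∀ p ∈ l, p ∈ pvtmV Z) {κ : PvPt × PvPt × PvPt → M} (hκ : Measurable κ) (ε : ℝ) :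
    AEMeasurable (fun η : Conf PvPt => ∑' l : {l | Φ (pvtrSet ρ E η) l}, pvtmX (pvtrSet ρ E η) κ l) (pvP ε) :=
  pvtn_cf_sum_list hlam hE hb ρ hΦ hV (F := fun Z l => pvtmX Z κ l) (fun L => pvtm_measurable_X (pvtm_ms_set hE ρ) hκ L) ε

theorem pvtn_reads_sum_list (ρ : ℝ) (E : Set ℂ) (Φ : Set (PvPt × PvPt × PvPt) → List PvPt → Prop) (F : Set (PvPt × PvPt × PvPt) → List PvPt → M) :
    Conf.Reads (E ×ˢ (univ : Set Bool)) fun η : Conf PvPt => ∑' l : {l | Φ (pvtrSet ρ E η) l}, F (pvtrSet ρ E η) l :=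
  pvtr_reads_of_set ρ E fun Z => ∑' l : {l | Φ Z l}, F Z l

end exits


/-! ## 7. calculus of natural predicates -/

section natcalc

variable {Λ : Type*} {lam : PvPt → Λ} {Φ Ψ : Set (PvPt × PvPt × PvPt) → List PvPt → Prop}

theorem pvtn_map_map (φ ψ : PvPt → PvPt) (Z : Set (PvPt × PvPt × PvPt)) : pvtnMap φ '' (pvtnMap ψ '' Z) = pvtnMap (φ ∘ ψ) '' Z := by
  rw [image_image]; rfl

theorem pvtn_map_id (Z : Set (PvPt × PvPt × PvPt)) : pvtnMap id '' Z = Z := by
  have : pvtnMap id = id := by funext t; rfl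
  rw [this, image_id]

theorem pvtn_map_inv (φ : Equiv.Perm PvPt) (Z : Set (PvPt × PvPt × PvPt)) : pvtnMap ⇑φ⁻¹ '' (pvtnMap ⇑φ '' Z) = Z := by
  rw [pvtn_map_map]
  have : (⇑φ⁻¹ ∘ ⇑φ) = id := by funext p; simp
  rw [this, pvtn_map_id]

theorem pvtn_map_inv' (φ : Equiv.Perm PvPt) (Z : Set (PvPt × PvPt × PvPt)) : pvtnMap ⇑φ '' (pvtnMap ⇑φ⁻¹ '' Z) = Z := by
  rw [pvtn_map_map]
  have : (⇑φ ∘ ⇑φ⁻¹) = id := by funext p; simp
  rw [this, pvtn_map_id]

theorem pvtn_list_inv (φ : Equiv.Perm PvPt) (l : List PvPt) : (l.map ⇑φ).map ⇑φ⁻¹ = l := by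
  rw [List.map_map]
  have : (⇑φ⁻¹ ∘ ⇑φ) = id := by funext p; simp
  rw [this, List.map_id]

theorem pvtn_list_inv' (φ : Equiv.Perm PvPt) (l : List PvPt) : (l.map ⇑φ⁻¹).map ⇑φ = l := by
  rw [List.map_map]
  have : (⇑φ ∘ ⇑φ⁻¹) = id := by funext p; simp
  rw [this, List.map_id]

theorem pvtn_lam_inv {φ : Equiv.Perm PvPt} (h : ∀ p, lam (φ p) = lam p) (p : PvPt) : lam (φ⁻¹ p) = lam p := by
  rw [← h (φ⁻¹ p)]; simp

theorem pvtn_mem_map (φ : Equiv.Perm PvPt) {Z : Set (PvPt × PvPt × PvPt)} {a b c : PvPt} : (φ a, φ b, φ c) ∈ pvtnMap φ '' Z ↔ (a, b, c) ∈ Z := by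
  constructor
  · rintro ⟨⟨a', b', c'⟩, h, e⟩
    simp only [pvtnMap, Prod.mk.injEq, EmbeddingLike.apply_eq_iff_eq] at e
    obtain ⟨rfl, rfl, rfl⟩ := e
    exact h
  · exact fun h => ⟨_, h, rfl⟩

theorem pvtn_mem_map' (φ : Equiv.Perm PvPt) {Z : Set (PvPt × PvPt × PvPt)} {a b c : PvPt} : (a, b, c) ∈ pvtnMap φ '' Z ↔ (φ⁻¹ a, φ⁻¹ b, φ⁻¹ c) ∈ Z := by
  have := pvtn_mem_map φ (Z := Z) (a := φ⁻¹ a) (b := φ⁻¹ b) (c := φ⁻¹ c)
  have e : ∀ x, φ (φ⁻¹ x) = x := fun x => by simp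
  rwa [e, e, e] at this

theorem PvtnNat.iff (h : PvtnNat lam Φ) {φ : Equiv.Perm PvPt} (hφ : ∀ p, lam (φ p) = lam p) (Z : Set (PvPt × PvPt × PvPt)) (l : List PvPt) : Φ (pvtnMap φ '' Z) (l.map φ) ↔ Φ Z l := by
  refine ⟨fun h' => ?_, h φ hφ Z l⟩
  have := h φ⁻¹ (pvtn_lam_inv hφ) _ _ h'
  rwa [pvtn_map_inv, pvtn_list_inv] at this

theorem pvtn_nat_const (P : Prop) : PvtnNat lam fun _ _ => P := fun _ _ _ _ h => h

theorem PvtnNat.and (h : PvtnNat lam Φ) (h' : PvtnNat lam Ψ) : PvtnNat lam fun Z l => Φ Z l ∧ Ψ Z l := fun φ hφ Z l H => ⟨h φ hφ Z l H.1, h' φ hφ Z l H.2⟩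

theorem PvtnNat.or (h : PvtnNat lam Φ) (h' : PvtnNat lam Ψ) : PvtnNat lam fun Z l => Φ Z l ∨ Ψ Z l := fun φ hφ Z l H => H.imp (h φ hφ Z l) (h' φ hφ Z l)

theorem PvtnNat.not (h : PvtnNat lam Φ) : PvtnNat lam fun Z l => ¬ Φ Z l := fun _ hφ Z l H H' => H ((h.iff hφ Z l).1 H')

theorem PvtnNat.imp (h : PvtnNat lam Φ) (h' : PvtnNat lam Ψ) : PvtnNat lam fun Z l => Φ Z l → Ψ Z l := fun φ hφ Z l H H' => h' φ hφ Z l (H ((h.iff hφ Z l).1 H'))

theorem PvtnNat.all {ι : Sort*} {Φ : ι → Set (PvPt × PvPt × PvPt) → List PvPt → Prop} (h : ∀ i, PvtnNat lam (Φ i)) : PvtnNat lam fun Z l => ∀ i, Φ i Z l := fun φ hφ Z l H i => h i φ hφ Z l (H i)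

theorem PvtnNat.ex {ι : Sort*} {Φ : ι → Set (PvPt × PvPt × PvPt) → List PvPt → Prop} (h : ∀ i, PvtnNat lam (Φ i)) : PvtnNat lam fun Z l => ∃ i, Φ i Z l := fun φ hφ Z l ⟨i, H⟩ => ⟨i, h i φ hφ Z l H⟩

/-- finer labels: more natural predicates -/
theorem PvtnNat.mono {Λ' : Type*} {lam' : PvPt → Λ'} (h : PvtnNat lam Φ) (hl : ∀ p q, lam' p = lam' q → lam p = lam q) : PvtnNat lam' Φ := fun φ hφ Z l H => h φ (fun p => hl _ _ (hφ p)) Z l H

/-- reindexing of the marked points by a natural operation on lists (`tail`, `take n`, `drop n`, `reverse`, ...) -/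
theorem PvtnNat.comp (h : PvtnNat lam Φ) {g : List PvPt → List PvPt} (hg : ∀ (φ : PvPt → PvPt) (l : List PvPt), g (l.map φ) = (g l).map φ) : PvtnNat lam fun Z l => Φ Z (g l) := fun φ hφ Z l H => by
  show Φ _ (g (l.map φ))
  rw [hg]; exact h φ hφ Z _ H

theorem PvtnNat.ex_pt (h : PvtnNat lam Φ) : PvtnNat lam fun Z l => ∃ p, Φ Z (p :: l) := fun φ hφ Z l ⟨p, H⟩ => ⟨φ p, h φ hφ Z (p :: l) H⟩

theorem PvtnNat.all_pt (h : PvtnNat lam Φ) : PvtnNat lam fun Z l => ∀ p, Φ Z (p :: l) := fun φ hφ Z l H p => by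
  have := h φ hφ Z (φ⁻¹ p :: l) (H _)
  simpa using this

/-- natural predicates of two lists -/
def PvtnNat₂ (lam : PvPt → Λ) (Θ : Set (PvPt × PvPt × PvPt) → List PvPt → List PvPt → Prop) : Prop :=
  ∀ φ : Equiv.Perm PvPt, (∀ p, lam (φ p) = lam p) → ∀ Z l' l, Θ Z l' l → Θ (pvtnMap φ '' Z) (l'.map φ) (l.map φ)

theorem PvtnNat₂.ex_list {Θ : Set (PvPt × PvPt × PvPt) → List PvPt → List PvPt → Prop} (h : PvtnNat₂ lam Θ) : PvtnNat lam fun Z l => ∃ l', Θ Z l' l :=
  fun φ hφ Z l ⟨l', H⟩ => ⟨l'.map φ, h φ hφ Z l' l H⟩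

theorem PvtnNat₂.all_list {Θ : Set (PvPt × PvPt × PvPt) → List PvPt → List PvPt → Prop} (h : PvtnNat₂ lam Θ) : PvtnNat lam fun Z l => ∀ l', Θ Z l' l := fun φ hφ Z l H l' => by
  have := h φ hφ Z (l'.map ⇑φ⁻¹) l (H _)
  rwa [pvtn_list_inv'] at this

theorem PvtnNat.left (h : PvtnNat lam Φ) : PvtnNat₂ lam fun Z l' _ => Φ Z l' := fun φ hφ Z l' _ H => h φ hφ Z l' H

theorem PvtnNat.right (h : PvtnNat lam Φ) : PvtnNat₂ lam fun Z _ l => Φ Z l := fun φ hφ Z _ l H => h φ hφ Z l H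

theorem PvtnNat.append (h : PvtnNat lam Φ) : PvtnNat₂ lam fun Z l' l => Φ Z (l' ++ l) := fun φ hφ Z l' l H => by
  show Φ _ (l'.map φ ++ l.map φ)
  rw [← List.map_append]; exact h φ hφ Z _ H

theorem PvtnNat₂.iff {Θ : Set (PvPt × PvPt × PvPt) → List PvPt → List PvPt → Prop} (h : PvtnNat₂ lam Θ) {φ : Equiv.Perm PvPt} (hφ : ∀ p, lam (φ p) = lam p) (Z : Set (PvPt × PvPt × PvPt)) (l' l : List PvPt) :
    Θ (pvtnMap φ '' Z) (l'.map φ) (l.map φ) ↔ Θ Z l' l := by
  refine ⟨fun h' => ?_, h φ hφ Z l' l⟩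
  have := h φ⁻¹ (pvtn_lam_inv hφ) _ _ _ h'
  rwa [pvtn_map_inv, pvtn_list_inv, pvtn_list_inv] at this

theorem PvtnNat₂.and {Θ Θ' : Set (PvPt × PvPt × PvPt) → List PvPt → List PvPt → Prop} (h : PvtnNat₂ lam Θ) (h' : PvtnNat₂ lam Θ') : PvtnNat₂ lam fun Z l' l => Θ Z l' l ∧ Θ' Z l' l :=
  fun φ hφ Z l' l H => ⟨h φ hφ Z l' l H.1, h' φ hφ Z l' l H.2⟩

theorem PvtnNat₂.or {Θ Θ' : Set (PvPt × PvPt × PvPt) → List PvPt → List PvPt → Prop} (h : PvtnNat₂ lam Θ) (h' : PvtnNat₂ lam Θ') : PvtnNat₂ lam fun Z l' l => Θ Z l' l ∨ Θ' Z l' l :=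
  fun φ hφ Z l' l H => H.imp (h φ hφ Z l' l) (h' φ hφ Z l' l)

theorem PvtnNat₂.not {Θ : Set (PvPt × PvPt × PvPt) → List PvPt → List PvPt → Prop} (h : PvtnNat₂ lam Θ) : PvtnNat₂ lam fun Z l' l => ¬ Θ Z l' l :=
  fun _ hφ Z l' l H H' => H ((h.iff hφ Z l' l).1 H')

theorem PvtnNat₂.imp {Θ Θ' : Set (PvPt × PvPt × PvPt) → List PvPt → List PvPt → Prop} (h : PvtnNat₂ lam Θ) (h' : PvtnNat₂ lam Θ') : PvtnNat₂ lam fun Z l' l => Θ Z l' l → Θ' Z l' l :=
  fun φ hφ Z l' l H H' => h' φ hφ Z l' l (H ((h.iff hφ Z l' l).1 H'))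

/-! ### atoms -/

theorem pvtn_adj_map (φ : Equiv.Perm PvPt) {Z : Set (PvPt × PvPt × PvPt)} {p q : PvPt} : PvtmAdj (pvtnMap φ '' Z) (φ p) (φ q) ↔ PvtmAdj Z p q := by
  constructor
  · rintro ⟨r, h⟩
    refine ⟨φ⁻¹ r, ?_⟩
    rw [pvtn_mem_map', pvtn_mem_map'] at h
    simpa using h
  · rintro ⟨r, h⟩
    exact ⟨φ r, by rw [pvtn_mem_map, pvtn_mem_map]; exact h⟩

theorem pvtn_V_map (φ : Equiv.Perm PvPt) {Z : Set (PvPt × PvPt × PvPt)} {p : PvPt} : φ p ∈ pvtmV (pvtnMap φ '' Z) ↔ p ∈ pvtmV Z := by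
  constructor
  · rintro ⟨q, r, h⟩
    refine ⟨φ⁻¹ q, φ⁻¹ r, ?_⟩
    rw [pvtn_mem_map', pvtn_mem_map', pvtn_mem_map'] at h
    simpa using h
  · rintro ⟨q, r, h⟩
    exact ⟨φ q, φ r, by rw [pvtn_mem_map, pvtn_mem_map, pvtn_mem_map]; exact h⟩

theorem pvtn_chain_map (φ : Equiv.Perm PvPt) {Z : Set (PvPt × PvPt × PvPt)} {l : List PvPt} : (l.map φ).IsChain (PvtmAdj (pvtnMap φ '' Z)) ↔ l.IsChain (PvtmAdj Z) := by
  rw [List.isChain_map]
  exact List.IsChain.iff fun _ _ => pvtn_adj_map φ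

theorem pvtn_nat_chain : PvtnNat lam fun Z l => l.IsChain (PvtmAdj Z) := fun φ _ _ _ H => (pvtn_chain_map φ).2 H

theorem pvtn_nat_nodup : PvtnNat lam fun _ l => l.Nodup := fun φ _ _ _ H => H.map φ.injective

theorem pvtn_nat_verts : PvtnNat lam fun Z l => ∀ p ∈ l, p ∈ pvtmV Z := fun φ _ _ _ H p hp => by
  obtain ⟨q, hq, rfl⟩ := List.mem_map.1 hp
  exact (pvtn_V_map φ).2 (H q hq)

/-- the marked triple is a triangle -/
theorem pvtn_nat_tri : PvtnNat lam fun Z l => ∃ a b c, l = [a, b, c] ∧ (a, b, c) ∈ Z := fun φ _ _ _ ⟨a, b, c, e, H⟩ => ⟨φ a, φ b, φ c, by rw [e]; rfl, (pvtn_mem_map φ).2 H⟩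

theorem pvtn_nat_all {P : PvPt → Prop} (hP : ∀ p q, lam p = lam q → (P p ↔ P q)) : PvtnNat lam fun _ l => ∀ p ∈ l, P p := fun φ hφ _ _ H p hp => by
  obtain ⟨q, hq, rfl⟩ := List.mem_map.1 hp
  exact (hP _ _ (hφ q)).2 (H q hq)

theorem pvtn_nat_head {P : PvPt → Prop} (hP : ∀ p q, lam p = lam q → (P p ↔ P q)) : PvtnNat lam fun _ l => ∃ a ∈ l.head?, P a := fun φ hφ _ l ⟨a, ha, H⟩ =>
  ⟨φ a, by rw [List.head?_map]; exact Option.mem_map_of_mem _ ha, (hP _ _ (hφ a)).2 H⟩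

theorem pvtn_nat_last {P : PvPt → Prop} (hP : ∀ p q, lam p = lam q → (P p ↔ P q)) : PvtnNat lam fun _ l => ∃ a ∈ l.getLast?, P a := fun φ hφ _ l ⟨a, ha, H⟩ =>
  ⟨φ a, by rw [List.getLast?_map]; exact Option.mem_map_of_mem _ ha, (hP _ _ (hφ a)).2 H⟩

theorem pvtn_nat_path (hc : ∀ p q, lam p = lam q → p.2 = q.2) (hT : ∀ p q, lam p = lam q → (p.1 ∈ T ↔ q.1 ∈ T)) (c : Bool) : PvtnNat lam fun Z l => PvtmPath Z c T l := fun φ hφ Z l H => by
  refine ⟨(pvtn_chain_map φ).2 H.1, fun p hp => ?_⟩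
  obtain ⟨q, hq, rfl⟩ := List.mem_map.1 hp
  obtain ⟨h1, h2, h3⟩ := H.2 q hq
  exact ⟨(pvtn_V_map φ).2 h1, by rw [hc _ _ (hφ q)]; exact h2, (hT _ _ (hφ q)).2 h3⟩

end natcalc

/-! ## 8. the standard labels: the colour and the membership in finitely many deterministic regions -/

open Classical in
/-- colour + membership of the site in the regions `Ts k` -/
noncomputable def pvtnLab {n : ℕ} (Ts : Fin n → Set ℂ) (p : PvPt) : Bool × (Fin n → Bool) := (p.2, fun k => decide (p.1 ∈ Ts k))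

theorem pvtn_lab_col {n : ℕ} {Ts : Fin n → Set ℂ} (p q : PvPt) (h : pvtnLab Ts p = pvtnLab Ts q) : p.2 = q.2 := congrArg Prod.fst h

theorem pvtn_lab_mem {n : ℕ} {Ts : Fin n → Set ℂ} (k : Fin n) (p q : PvPt) (h : pvtnLab Ts p = pvtnLab Ts q) : p.1 ∈ Ts k ↔ q.1 ∈ Ts k := by
  classical
  have := congrFun (congrArg Prod.snd h) k
  exact decide_eq_decide.1 this

theorem pvtn_lab_meas {n : ℕ} {Ts : Fin n → Set ℂ} (hTs : ∀ k, MeasurableSet (Ts k)) (c : Bool × (Fin n → Bool)) : MeasurableSet (pvtnLab Ts ⁻¹' {c}) := by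
  classical
  have e : pvtnLab Ts ⁻¹' {c} = {p : PvPt | p.2 = c.1} ∩ ⋂ k, {p : PvPt | decide (p.1 ∈ Ts k) = c.2 k} := by
    ext p
    simp only [mem_preimage, mem_singleton_iff, mem_inter_iff, mem_ofPred_eq, mem_iInter, pvtnLab, Prod.ext_iff, funext_iff]
  rw [e]
  refine (measurable_snd (measurableSet_singleton _)).inter (MeasurableSet.iInter fun k => ?_)
  have hk : MeasurableSet {p : PvPt | p.1 ∈ Ts k} := measurable_fst (hTs k)
  cases hc : c.2 k with
  | true =>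
    have e : {p : PvPt | decide (p.1 ∈ Ts k) = true} = {p : PvPt | p.1 ∈ Ts k} := by ext p; simp
    rw [e]; exact hk
  | false =>
    have e : {p : PvPt | decide (p.1 ∈ Ts k) = false} = {p : PvPt | p.1 ∈ Ts k}ᶜ := by ext p; simp
    rw [e]; exact hk.compl

theorem pvtn_eqns_cite : True := by
  have := @pvtnMap.eq_1
  have := @PvtnNat.eq_1.{0}
  have := @pvtnT.eq_1
  have := @pvtnJ.eq_1
  have := @PvtnSame.eq_1.{0}
  have := @pvtnTy.eq_1.{0}
  have := @PvtnNat₂.eq_1.{0}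
  have := @pvtnLab.eq_1
  trivial

/-! ## 9. LOCAL exits: measurable AND read from the window -/

/-- the configuration has finitely many points in the window `E` -/
def PvtnFin (E : Set ℂ) (η : Conf PvPt) : Prop := (η.pts ∩ E ×ˢ (univ : Set Bool)).Finite

theorem pvtn_eqns_cite9 : True := by
  have := @PvtnFin.eq_1
  trivial

theorem pvtn_fin_of_lf {η : Conf PvPt} (hη : PvLF η) (hb : Bornology.IsBounded E) : PvtnFin E η :=
  (pvtm_pts_finite hη hb).subset fun _ hp => ⟨hp.1, hp.2.1⟩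

theorem pvtn_lf_restr (hb : Bornology.IsBounded E) (η : Conf PvPt) : PvLF (Conf.restr (E ×ˢ univ) η) ↔ PvtnFin E η := by
  constructor
  · intro h
    refine (pvtn_fin_of_lf h hb).subset fun p hp => ⟨hp, hp.2⟩
  · intro h k
    exact h.subset fun p hp => hp.1

theorem pvtn_fin_ae (hb : Bornology.IsBounded E) (ε : ℝ) : ∀ᵐ η ∂(pvP ε), PvtnFin E η := by
  filter_upwards [pvcn_LF_ae ε] with η hη
  exact pvtn_fin_of_lf hη hb

theorem pvtn_reads_fin (E : Set ℂ) : Conf.ReadsSet (E ×ˢ (univ : Set Bool)) {η | PvtnFin E η} := fun η => by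
  show ((η.pts ∩ E ×ˢ univ) ∩ E ×ˢ univ).Finite ↔ (η.pts ∩ E ×ˢ univ).Finite
  rw [inter_assoc, inter_self]

/-- **from "measurable on the locally finite configurations" to "measurable and read from the window"** -/
theorem pvtn_local_eq (hb : Bornology.IsBounded E) {C : Set (Conf PvPt)} (hr : Conf.ReadsSet (E ×ˢ univ) C) :
    C ∩ {η | PvtnFin E η} = Conf.restr (E ×ˢ univ) ⁻¹' (C ∩ {η | PvLF η}) := by
  ext η
  simp only [mem_inter_iff, mem_ofPred_eq, mem_preimage]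
  rw [hr η, pvtn_lf_restr hb]

theorem pvtn_local_meas (hEm : MeasurableSet E) (hb : Bornology.IsBounded E) {C : Set (Conf PvPt)} (hC : MeasurableSet (C ∩ {η | PvLF η})) (hr : Conf.ReadsSet (E ×ˢ univ) C) :
    MeasurableSet (C ∩ {η | PvtnFin E η}) := by
  rw [pvtn_local_eq hb hr]
  exact Conf.measurable_restr (hEm.prod MeasurableSet.univ) hC

theorem pvtn_meas_fin (hEm : MeasurableSet E) (hb : Bornology.IsBounded E) : MeasurableSet {η : Conf PvPt | PvtnFin E η} := by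
  have := pvtn_local_meas hEm hb (C := univ) (by rw [univ_inter]; exact pvcn_LF_meas) (fun _ => Iff.rfl)
  rwa [univ_inter] at this

theorem pvtn_local_fun {β : Type*} [MeasurableSpace β] [Zero β] (hEm : MeasurableSet E) (hb : Bornology.IsBounded E) {f : Conf PvPt → β} (hf : Measurable ({η : Conf PvPt | PvLF η}.indicator f))
    (hr : Conf.Reads (E ×ˢ univ) f) : Measurable ({η : Conf PvPt | PvtnFin E η}.indicator f) := by
  have e : {η : Conf PvPt | PvtnFin E η}.indicator f = fun η => {η : Conf PvPt | PvLF η}.indicator f (Conf.restr (E ×ˢ univ) η) := by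
    funext η
    by_cases h : PvtnFin E η
    · rw [indicator_of_mem (show η ∈ {η : Conf PvPt | PvtnFin E η} from h), indicator_of_mem (show Conf.restr (E ×ˢ univ) η ∈ {η : Conf PvPt | PvLF η} from (pvtn_lf_restr hb η).2 h), hr η]
    · rw [indicator_of_notMem (show η ∉ {η : Conf PvPt | PvtnFin E η} from h), indicator_of_notMem (show Conf.restr (E ×ˢ univ) η ∉ {η : Conf PvPt | PvLF η} from fun h' => h ((pvtn_lf_restr hb η).1 h'))]
  rw [e]
  exact hf.comp (Conf.measurable_restr (hEm.prod MeasurableSet.univ))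

theorem pvtn_local_reads {β : Type*} [Zero β] {f : Conf PvPt → β} (hr : Conf.Reads (E ×ˢ univ) f) : Conf.Reads (E ×ˢ univ) ({η : Conf PvPt | PvtnFin E η}.indicator f) :=
  (pvtn_reads_fin E).indicator hr

theorem pvtn_local_ae {β : Type*} [Zero β] (hb : Bornology.IsBounded E) (f : Conf PvPt → β) (ε : ℝ) : {η : Conf PvPt | PvtnFin E η}.indicator f =ᵐ[pvP ε] f := by
  filter_upwards [pvtn_fin_ae hb ε] with η hη
  exact indicator_of_mem (s := {η : Conf PvPt | PvtnFin E η}) hη f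

section locexits

variable {Λ : Type*} {lam : PvPt → Λ}

/-- **a natural event of the coloured retained triangles: ONE measurable event, read from `E ×ˢ univ`** -/
theorem pvtn_loc_event [Countable Λ] (hlam : ∀ c : Λ, MeasurableSet (lam ⁻¹' {c})) (hEm : MeasurableSet E) (hE : MeasurableSet (pvtmIn E)) (hb : Bornology.IsBounded E) (ρ : ℝ)
    {Φ : Set (PvPt × PvPt × PvPt) → Prop} (hΦ : PvtnNat lam fun Z _ => Φ Z) :
    MeasurableSet {η : Conf PvPt | Φ (pvtrSet ρ E η) ∧ PvtnFin E η} ∧ Conf.ReadsSet (E ×ˢ univ) {η : Conf PvPt | Φ (pvtrSet ρ E η) ∧ PvtnFin E η} := by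
  have hr : Conf.ReadsSet (E ×ˢ univ) {η : Conf PvPt | Φ (pvtrSet ρ E η)} := fun η => by
    show Φ (pvtrSet ρ E (Conf.restr (E ×ˢ univ) η)) ↔ Φ (pvtrSet ρ E η)
    rw [pvtr_reads_set ρ E η]
  exact ⟨pvtn_local_meas hEm hb (C := {η : Conf PvPt | Φ (pvtrSet ρ E η)}) (pvtn_cf_event hlam hE hb ρ hΦ) hr, hr.inter (pvtn_reads_fin E)⟩

variable {M : Type*} [AddCommMonoid M] [TopologicalSpace M] [TopologicalSpace.IsCompletelyPseudoMetrizableSpace M] [SecondCountableTopology M] [MeasurableSpace M] [BorelSpace M] [MeasurableAdd₂ M]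

/-- **sums over the arcs selected by a natural rule: ONE measurable function, read from `E ×ˢ univ`** -/
theorem pvtn_loc_sum_list [Countable Λ] (hlam : ∀ c : Λ, MeasurableSet (lam ⁻¹' {c})) (hEm : MeasurableSet E) (hE : MeasurableSet (pvtmIn E)) (hb : Bornology.IsBounded E) (ρ : ℝ)
    {Φ : Set (PvPt × PvPt × PvPt) → List PvPt → Prop} (hΦ : PvtnNat lam Φ) (hV : ∀ Z l, Φ Z l → ∀ p ∈ l, p ∈ pvtmV Z)
    {F : Set (PvPt × PvPt × PvPt) → List PvPt → M} (hF : ∀ L : List DelgpIx, Measurable fun ω => F (pvtrSet ρ E (pvConf ω)) (L.map (pvtmP ω))) :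
    Measurable ({η : Conf PvPt | PvtnFin E η}.indicator fun η : Conf PvPt => ∑' l : {l | Φ (pvtrSet ρ E η) l}, F (pvtrSet ρ E η) l) ∧
      Conf.Reads (E ×ˢ univ) ({η : Conf PvPt | PvtnFin E η}.indicator fun η : Conf PvPt => ∑' l : {l | Φ (pvtrSet ρ E η) l}, F (pvtrSet ρ E η) l) :=
  ⟨pvtn_local_fun hEm hb (pvtn_cf_sum_list_ind hlam hE hb ρ hΦ hV hF) (pvtn_reads_sum_list ρ E Φ F), pvtn_local_reads (pvtn_reads_sum_list ρ E Φ F)⟩

end locexits

end Claimed.Agent.R289
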