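-- KEEP
import Claimed.Agent.R289.Tr.Hub

/-!
# Row 289 (S0537, Cardy for Poisson-Voronoi), THE WALL, ROAD P, file Tr/RoadP : THE ROOF OF ROAD P      (helper273; prefix `pvrp_`, `Pvrp`)

Master note: `origin/helper273:notes/R289/ROADP_273.md` (P19).      Road P = region states + LOCAL PREPARATION in the AVERAGED form of 59 / 263 (`TR18_59.md`, `Tr/Prep.lean`): no seeds, the sample space is not extended.

WHAT THIS FILE DOES.   All statements of chapters D, E (free arc `N1`, the cycle `Σ₁`, the thick short link) are typed ONCE, for the ORDINARY law `ν = Pr ε` and for functions of the state on the event `G` (usable state).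
On road P the actual state of a pin is NOT usable: it becomes usable after the white strip of the candidate has been prepared by a monotone kernel `K`.      The roof turns the `ν`-level statements into the record `PvhbLoc` of the hub (73):

* `PvrpK Ξ ι`      a finite weight operator on the configurations `Ξ` (moves `mv ξ i`, `i ∈ I ξ`, weights `wt ξ i ≥ 0` of sum `1`).      Instance: `pvpWt`, `cfPaint` of 263 (`ι = Finset ℂ`).      Identity operator = road E.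
* `K.Op F`, `K.Av Y`      the averages (`ℝ≥0∞`, `ℂ`);      `K.gam G ξ = K(ξ, G)`;      `K.Nrm G ψ ξ = K(ξ,G)⁻¹ K[1_G ψ](ξ)`      (the potentials of road P: FUNCTIONS OF THE ACTUAL SAMPLE).
* `pvrp_jensen`, `pvrp_nrm_le` (TR18.3), `pvrp_two` (TR18.2: product structure of two far candidates), `pvrp_point` (POINTWISE JENSEN).
* `PvrpIn N Pr rims x R Ξ ι`      THE INTERFACE RECORD OF ROAD P.
* `pvrp_loc : PvrpIn N Pr rims x R Ξ ι → Nonempty (PvhbLoc N Pr rims x R)`.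
-/

set_option autoImplicit false

namespace Claimed.Agent.R289

open MeasureTheory Filter Topology Set
open scoped ENNReal

/-! ## 1. finite weight operators -/

/-- a finite weight operator (Markov kernel with finite support, moves indexed by `ι`) -/
structure PvrpK (Ξ ι : Type) where
  I : Ξ → Finset ι
  mv : Ξ → ι → Ξ
  wt : Ξ → ι → ℝ
  wt0 : ∀ ξ i, 0 ≤ wt ξ i
  wt1 : ∀ ξ, ∑ i ∈ I ξ, wt ξ i = 1

namespace PvrpK

variable {Ξ ι : Type} (K : PvrpK Ξ ι)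

/-- the average of a `ℝ≥0∞` valued function -/
noncomputable def Op (F : Ξ → ℝ≥0∞) (ξ : Ξ) : ℝ≥0∞ := ∑ i ∈ K.I ξ, ENNReal.ofReal (K.wt ξ i) * F (K.mv ξ i)

/-- the average of a complex valued function -/
noncomputable def Av (Y : Ξ → ℂ) (ξ : Ξ) : ℂ := ∑ i ∈ K.I ξ, (K.wt ξ i : ℂ) * Y (K.mv ξ i)

/-- `K(ξ, G)` -/
noncomputable def gam (G : Set Ξ) (ξ : Ξ) : ℝ := ∑ i ∈ K.I ξ, K.wt ξ i * G.indicator (fun _ => (1 : ℝ)) (K.mv ξ i)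

/-- the normalised average on `G` -/
noncomputable def Nrm (G : Set Ξ) (ψ : Ξ → ℂ) (ξ : Ξ) : ℂ := ((K.gam G ξ : ℝ) : ℂ)⁻¹ * K.Av (G.indicator ψ) ξ

/-- `f` is not changed by the moves -/
def Blind {γ : Type} (f : Ξ → γ) : Prop := ∀ ξ, ∀ i ∈ K.I ξ, f (K.mv ξ i) = f ξ

/-- the event `A` is not changed by the moves -/
def BlindS (A : Set Ξ) : Prop := ∀ ξ, ∀ i ∈ K.I ξ, (K.mv ξ i ∈ A ↔ ξ ∈ A)

end PvrpK

theorem pvrp_eqns_cite : True := by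
  have := @PvrpK.Op.eq_1; have := @PvrpK.Av.eq_1; have := @PvrpK.gam.eq_1; have := @PvrpK.Nrm.eq_1; have := @PvrpK.Blind.eq_1; have := @PvrpK.BlindS.eq_1
  trivial

section op

variable {Ξ ι : Type} (K : PvrpK Ξ ι)

theorem pvrp_av_add (Y Z : Ξ → ℂ) (ξ : Ξ) : K.Av (fun ζ => Y ζ + Z ζ) ξ = K.Av Y ξ + K.Av Z ξ := by
  unfold PvrpK.Av
  rw [← Finset.sum_add_distrib]
  exact Finset.sum_congr rfl fun i _ => by ring

theorem pvrp_av_mul_blind {f : Ξ → ℂ} (hf : K.Blind f) (Y : Ξ → ℂ) (ξ : Ξ) : K.Av (fun ζ => f ζ * Y ζ) ξ = f ξ * K.Av Y ξ := by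
  unfold PvrpK.Av
  rw [Finset.mul_sum]
  exact Finset.sum_congr rfl fun i hi => by
    show (K.wt ξ i : ℂ) * (f (K.mv ξ i) * Y (K.mv ξ i)) = _
    rw [hf ξ i hi]; ring

theorem pvrp_av_congr {Y Z : Ξ → ℂ} {ξ : Ξ} (h : ∀ i ∈ K.I ξ, Y (K.mv ξ i) = Z (K.mv ξ i)) : K.Av Y ξ = K.Av Z ξ := by
  unfold PvrpK.Av
  exact Finset.sum_congr rfl fun i hi => by rw [h i hi]

theorem pvrp_av_const (G : Set Ξ) (c : ℂ) (ξ : Ξ) : K.Av (G.indicator fun _ => c) ξ = (K.gam G ξ : ℂ) * c := by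
  unfold PvrpK.Av PvrpK.gam
  push_cast
  rw [Finset.sum_mul]
  refine Finset.sum_congr rfl fun i _ => ?_
  by_cases h : K.mv ξ i ∈ G
  · simp [h]
  · simp [h]

theorem pvrp_gam_nonneg (G : Set Ξ) (ξ : Ξ) : 0 ≤ K.gam G ξ := by
  unfold PvrpK.gam
  exact Finset.sum_nonneg fun i _ => mul_nonneg (K.wt0 ξ i) (Set.indicator_nonneg (fun _ _ => zero_le_one) _)

theorem pvrp_gam_le_one (G : Set Ξ) (ξ : Ξ) : K.gam G ξ ≤ 1 := by
  unfold PvrpK.gam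
  refine le_trans (Finset.sum_le_sum fun i _ => ?_) (le_of_eq (K.wt1 ξ))
  have h1 : G.indicator (fun _ => (1 : ℝ)) (K.mv ξ i) ≤ 1 := Set.indicator_le_self' (fun _ _ => zero_le_one) _
  exact mul_le_of_le_one_right (K.wt0 ξ i) h1

theorem pvrp_op_le {F F' : Ξ → ℝ≥0∞} {ξ : Ξ} (h : ∀ i ∈ K.I ξ, K.wt ξ i ≠ 0 → F (K.mv ξ i) ≤ F' (K.mv ξ i)) : K.Op F ξ ≤ K.Op F' ξ := by
  unfold PvrpK.Op
  refine Finset.sum_le_sum fun i hi => ?_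
  by_cases h0 : K.wt ξ i = 0
  · rw [h0]
    simp
  · gcongr
    exact h i hi h0

/-- JENSEN, real form -/
theorem pvrp_jensen_real (Y : Ξ → ℂ) (ξ : Ξ) : ‖K.Av Y ξ‖ ^ 2 ≤ ∑ i ∈ K.I ξ, K.wt ξ i * ‖Y (K.mv ξ i)‖ ^ 2 := by
  have h1 : ‖K.Av Y ξ‖ ≤ ∑ i ∈ K.I ξ, K.wt ξ i * ‖Y (K.mv ξ i)‖ := by
    unfold PvrpK.Av
    refine (norm_sum_le _ _).trans (le_of_eq (Finset.sum_congr rfl fun i _ => ?_))
    rw [norm_mul, Complex.norm_real, Real.norm_of_nonneg (K.wt0 ξ i)]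
  have h2 := (convexOn_pow (𝕜 := ℝ) 2).map_sum_le (t := K.I ξ) (w := K.wt ξ) (p := fun i => ‖Y (K.mv ξ i)‖)
    (fun i _ => K.wt0 ξ i) (K.wt1 ξ) (fun i _ => norm_nonneg _)
  simp only [smul_eq_mul] at h2
  exact (pow_le_pow_left₀ (norm_nonneg _) h1 2).trans h2

theorem pvrp_enorm_sq (z : ℂ) : ‖z‖ₑ ^ 2 = ENNReal.ofReal (‖z‖ ^ 2) := by
  rw [ENNReal.ofReal_pow (norm_nonneg z), ofReal_norm]

/-- **JENSEN** -/
theorem pvrp_jensen (Y : Ξ → ℂ) (ξ : Ξ) : ‖K.Av Y ξ‖ₑ ^ 2 ≤ K.Op (fun ζ => ‖Y ζ‖ₑ ^ 2) ξ := by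
  rw [pvrp_enorm_sq]
  refine (ENNReal.ofReal_le_ofReal (pvrp_jensen_real K Y ξ)).trans (le_of_eq ?_)
  unfold PvrpK.Op
  rw [ENNReal.ofReal_sum_of_nonneg fun i _ => mul_nonneg (K.wt0 ξ i) (by positivity)]
  exact Finset.sum_congr rfl fun i _ => by
    show _ = ENNReal.ofReal (K.wt ξ i) * ‖Y (K.mv ξ i)‖ₑ ^ 2
    rw [ENNReal.ofReal_mul (K.wt0 ξ i), pvrp_enorm_sq]


theorem pvrp_nrm_add (G : Set Ξ) (ψ φ : Ξ → ℂ) (ξ : Ξ) : K.Nrm G (fun ζ => ψ ζ + φ ζ) ξ = K.Nrm G ψ ξ + K.Nrm G φ ξ := by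
  unfold PvrpK.Nrm
  have h : G.indicator (fun ζ => ψ ζ + φ ζ) = fun ζ => G.indicator ψ ζ + G.indicator φ ζ := by
    funext ζ
    exact Set.indicator_add G ψ φ ▸ rfl
  rw [h, pvrp_av_add, mul_add]

theorem pvrp_nrm_const {G : Set Ξ} {ξ : Ξ} (h : K.gam G ξ ≠ 0) (c : ℂ) : K.Nrm G (fun _ => c) ξ = c := by
  unfold PvrpK.Nrm
  rw [pvrp_av_const, ← mul_assoc, inv_mul_cancel₀ (by exact_mod_cast h), one_mul]

theorem pvrp_inv_le {g : ℝ} {b : ℝ} (hb : 0 < b) (hg : b ≤ g) : ‖((g : ℝ) : ℂ)⁻¹‖ₑ ^ 2 ≤ ENNReal.ofReal ((b⁻¹) ^ 2) := by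
  rw [pvrp_enorm_sq]
  refine ENNReal.ofReal_le_ofReal ?_
  rw [norm_inv, Complex.norm_real, Real.norm_of_nonneg (hb.le.trans hg)]
  exact pow_le_pow_left₀ (inv_nonneg.2 (hb.le.trans hg)) (inv_anti₀ hb hg) 2

theorem pvrp_ind_enorm (G : Set Ξ) (ψ : Ξ → ℂ) (ζ : Ξ) : ‖G.indicator ψ ζ‖ₑ ^ 2 = G.indicator (fun ζ => ‖ψ ζ‖ₑ ^ 2) ζ := by
  by_cases h : ζ ∈ G
  · simp [h]
  · simp [h]

/-- **TR18.3**: the normalised average is dominated by the average of the square on `G` -/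
theorem pvrp_nrm_le {G : Set Ξ} {ξ : Ξ} (h : 1 / 2 ≤ K.gam G ξ) (ψ : Ξ → ℂ) : ‖K.Nrm G ψ ξ‖ₑ ^ 2 ≤ 4 * K.Op (G.indicator fun ζ => ‖ψ ζ‖ₑ ^ 2) ξ := by
  unfold PvrpK.Nrm
  rw [enorm_mul, mul_pow]
  have h1 := pvrp_inv_le (g := K.gam G ξ) (b := 1 / 2) (by norm_num) h
  have h2 : ENNReal.ofReal (((1 / 2 : ℝ)⁻¹) ^ 2) = 4 := by
    norm_num
  rw [h2] at h1
  have h3 := pvrp_jensen K (G.indicator ψ) ξ
  have h4 : (fun ζ => ‖G.indicator ψ ζ‖ₑ ^ 2) = G.indicator fun ζ => ‖ψ ζ‖ₑ ^ 2 := funext (pvrp_ind_enorm G ψ)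
  rw [h4] at h3
  exact mul_le_mul' h1 h3

end op

/-! ## 2. two far candidates -/

section two

variable {Ξ ι : Type} (Ks Kt : PvrpK Ξ ι) (Gs Gt : Set Ξ) (ks kt : Ξ → ℂ) (c0 : ℂ)

/-- the integrand of the double average -/
noncomputable def pvrpY (ζ : Ξ) : ℂ := Gs.indicator (Gt.indicator fun ζ => c0 + kt ζ + ks ζ) ζ

theorem pvrp_eqns_cite2 : True := by
  have := @pvrpY.eq_1
  trivial

variable {Ks Kt Gs Gt ks kt}

theorem pvrp_inner (hGs : Kt.BlindS Gs) (hks : Kt.Blind ks) (ζ : Ξ) :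
    Kt.Av (pvrpY Gs Gt ks kt c0) ζ = Gs.indicator (fun ζ => (Kt.gam Gt ζ : ℂ) * (c0 + ks ζ) + Kt.Av (Gt.indicator kt) ζ) ζ := by
  by_cases h : ζ ∈ Gs
  · rw [Set.indicator_of_mem h, ← pvrp_av_const, ← pvrp_av_add]
    refine pvrp_av_congr Kt fun j hj => ?_
    have h1 : Kt.mv ζ j ∈ Gs := (hGs ζ j hj).2 h
    unfold pvrpY
    rw [Set.indicator_of_mem h1]
    by_cases h2 : Kt.mv ζ j ∈ Gt
    · rw [Set.indicator_of_mem h2, Set.indicator_of_mem h2, Set.indicator_of_mem h2, hks ζ j hj]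
      ring
    · rw [Set.indicator_of_notMem h2, Set.indicator_of_notMem h2, Set.indicator_of_notMem h2, add_zero]
  · rw [Set.indicator_of_notMem h]
    unfold PvrpK.Av
    refine Finset.sum_eq_zero fun j hj => ?_
    have h1 : Kt.mv ζ j ∉ Gs := fun h' => h ((hGs ζ j hj).1 h')
    unfold pvrpY
    rw [Set.indicator_of_notMem h1, mul_zero]

/-- **TR18.2, product structure**: the double average of `1_{G_s} 1_{G_t} (c₀ + k_t + k_s)` -/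
theorem pvrp_two (hGs : Kt.BlindS Gs) (hks : Kt.Blind ks) (hgam : Ks.Blind (Kt.gam Gt)) (hav : Ks.Blind (Kt.Av (Gt.indicator kt))) (ξ : Ξ) :
    Ks.Av (Kt.Av (pvrpY Gs Gt ks kt c0)) ξ
      = (Kt.gam Gt ξ : ℂ) * ((Ks.gam Gs ξ : ℂ) * c0 + Ks.Av (Gs.indicator ks) ξ) + (Ks.gam Gs ξ : ℂ) * Kt.Av (Gt.indicator kt) ξ := by
  have h1 : Ks.Av (Kt.Av (pvrpY Gs Gt ks kt c0)) ξ
      = Ks.Av (fun ζ => ((Kt.gam Gt ξ : ℂ) * Gs.indicator (fun _ => c0) ζ + (Kt.gam Gt ξ : ℂ) * Gs.indicator ks ζ) + Gs.indicator (fun _ => Kt.Av (Gt.indicator kt) ξ) ζ) ξ := by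
    refine pvrp_av_congr Ks fun i hi => ?_
    rw [pvrp_inner c0 hGs hks]
    by_cases h : Ks.mv ξ i ∈ Gs
    · rw [Set.indicator_of_mem h, Set.indicator_of_mem h, Set.indicator_of_mem h, Set.indicator_of_mem h, hgam ξ i hi, hav ξ i hi]
      ring
    · rw [Set.indicator_of_notMem h, Set.indicator_of_notMem h, Set.indicator_of_notMem h, Set.indicator_of_notMem h]
      ring
  have hc : ∀ (b : ℂ) (Y : Ξ → ℂ), Ks.Av (fun ζ => b * Y ζ) ξ = b * Ks.Av Y ξ := fun b Y =>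
    pvrp_av_mul_blind Ks (f := fun _ => b) (fun _ _ _ => rfl) Y ξ
  rw [h1, pvrp_av_add, pvrp_av_add, hc, hc, pvrp_av_const, pvrp_av_const]
  ring

/-- the same, normalised -/
theorem pvrp_two_nrm (hGs : Kt.BlindS Gs) (hks : Kt.Blind ks) (hgam : Ks.Blind (Kt.gam Gt)) (hav : Ks.Blind (Kt.Av (Gt.indicator kt))) {ξ : Ξ}
    (hs : Ks.gam Gs ξ ≠ 0) (ht : Kt.gam Gt ξ ≠ 0) :
    c0 + Kt.Nrm Gt kt ξ + Ks.Nrm Gs ks ξ = ((Ks.gam Gs ξ : ℝ) : ℂ)⁻¹ * (((Kt.gam Gt ξ : ℝ) : ℂ)⁻¹ * Ks.Av (Kt.Av (pvrpY Gs Gt ks kt c0)) ξ) := by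
  rw [pvrp_two c0 hGs hks hgam hav]
  unfold PvrpK.Nrm
  have h1 : ((Ks.gam Gs ξ : ℝ) : ℂ) ≠ 0 := by exact_mod_cast hs
  have h2 : ((Kt.gam Gt ξ : ℝ) : ℂ) ≠ 0 := by exact_mod_cast ht
  field_simp
  ring

/-- **TR18.2, POINTWISE JENSEN** -/
theorem pvrp_point (hGs : Kt.BlindS Gs) (hks : Kt.Blind ks) (hgam : Ks.Blind (Kt.gam Gt)) (hav : Ks.Blind (Kt.Av (Gt.indicator kt))) {ξ : Ξ}
    (hs : 1 / 2 ≤ Ks.gam Gs ξ) (ht : 1 / 2 ≤ Kt.gam Gt ξ) {Z : Ξ → ℝ≥0∞}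
    (hZ : ∀ i ∈ Ks.I ξ, Ks.wt ξ i ≠ 0 → ∀ j ∈ Kt.I (Ks.mv ξ i), Kt.wt (Ks.mv ξ i) j ≠ 0 → Kt.mv (Ks.mv ξ i) j ∈ Gs → Kt.mv (Ks.mv ξ i) j ∈ Gt →
      ‖c0 + kt (Kt.mv (Ks.mv ξ i) j) + ks (Kt.mv (Ks.mv ξ i) j)‖ₑ ^ 2 ≤ Z (Kt.mv (Ks.mv ξ i) j)) :
    ‖c0 + Kt.Nrm Gt kt ξ + Ks.Nrm Gs ks ξ‖ₑ ^ 2 ≤ 16 * Ks.Op (Kt.Op Z) ξ := by
  rw [pvrp_two_nrm c0 hGs hks hgam hav (by linarith) (by linarith), enorm_mul, enorm_mul, mul_pow, mul_pow]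
  have h1 := pvrp_inv_le (g := Ks.gam Gs ξ) (b := 1 / 2) (by norm_num) hs
  have h1' := pvrp_inv_le (g := Kt.gam Gt ξ) (b := 1 / 2) (by norm_num) ht
  have h2 : ENNReal.ofReal (((1 / 2 : ℝ)⁻¹) ^ 2) = 4 := by
    norm_num
  rw [h2] at h1 h1'
  have h3 : ‖Ks.Av (Kt.Av (pvrpY Gs Gt ks kt c0)) ξ‖ₑ ^ 2 ≤ Ks.Op (Kt.Op Z) ξ := by
    refine (pvrp_jensen Ks _ ξ).trans (pvrp_op_le Ks fun i hi hi0 => ?_)
    refine (pvrp_jensen Kt _ _).trans (pvrp_op_le Kt fun j hj hj0 => ?_)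
    unfold pvrpY
    by_cases ha : Kt.mv (Ks.mv ξ i) j ∈ Gs
    · by_cases hb : Kt.mv (Ks.mv ξ i) j ∈ Gt
      · rw [Set.indicator_of_mem ha, Set.indicator_of_mem hb]
        exact hZ i hi hi0 j hj hj0 ha hb
      · rw [Set.indicator_of_mem ha, Set.indicator_of_notMem hb]
        simp
    · rw [Set.indicator_of_notMem ha]
      simp
  calc ‖((Ks.gam Gs ξ : ℝ) : ℂ)⁻¹‖ₑ ^ 2 * (‖((Kt.gam Gt ξ : ℝ) : ℂ)⁻¹‖ₑ ^ 2 * ‖Ks.Av (Kt.Av (pvrpY Gs Gt ks kt c0)) ξ‖ₑ ^ 2)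
      ≤ 4 * (4 * Ks.Op (Kt.Op Z) ξ) := mul_le_mul' h1 (mul_le_mul' h1' h3)
    _ = 16 * Ks.Op (Kt.Op Z) ξ := by
      rw [← mul_assoc]
      norm_num

end two

/-! ## 3. the interface record of road P -/

section rec

variable {Ω : Type} [MeasurableSpace Ω]

/-- **THE INTERFACE RECORD OF ROAD P** (`ROADP_273.md`, sec.4).      `Ξ` = configurations (`Conf PvPt`), `cf = pvConf`, `ι = Finset ℂ` (repaintings of the strip).      A candidate is `(z,t)` at level `m`, mesh `ε`.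
Every `ν`-level field (`n1ν cyc1ν thickν`) is an ORDINARY statement on the law `Pr ε`, on the event `G` = "the state of the candidate is usable" (P5: `Gq_τ`).      Road E is the case `K = identity`. -/
structure PvrpIn {τ : Type} {c : ℝ} (N : PvhbNum τ c) (Pr : ℝ → Measure Ω) (rims : Ω → Set PvbRim) (x : ℂ) (R : ℝ) (Ξ ι : Type) where
  /-- the configuration of a sample -/
  cf : Ω → Ξ
  /-- the samples on which the measurable versions are exact (general position) -/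
  Ok : Set Ω
  Ok_ae : ∀ ε, ∀ᵐ o ∂(Pr ε), o ∈ Ok
  /-- P6: the preparation operator of the candidate   [263 59: `pvpWt`, `cfPaint`] -/
  K : ℕ → ℝ → ℂ → τ → PvrpK Ξ ι
  /-- P5: the usable states `Gq_τ`   [Tr/StateP] -/
  G : ℕ → ℝ → ℂ → τ → Set Ξ
  /-- the geometries with `P^η(A_κ) ≥ p_*` (not F3) -/
  Hg : ℕ → ℝ → ℂ → τ → Set Ξ
  /-- `κ_out`, `κ_in`, mean of the thick short link for the field `y_a`: functions of the STATE;   arguments `m ε a z t ξ` -/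
  kout0 : ℕ → ℝ → ℂ → ℂ → τ → Ξ → ℂ
  kin0 : ℕ → ℝ → ℂ → ℂ → τ → Ξ → ℂ
  ke0 : ℕ → ℝ → ℂ → ℂ → τ → Ξ → ℂ
  /-- measurable versions of `{Hg, K(·,G) ≥ 1/2}` and of the normalised averages   [P13 sec.4: 59 263 238] -/
  U : ℕ → ℝ → ℂ → τ → Set Ω
  U_meas : ∀ m ε z t, MeasurableSet (U m ε z t)
  U_iff : ∀ m ε z t, ∀ o ∈ Ok, (o ∈ U m ε z t ↔ cf o ∈ Hg m ε z t ∧ 1 / 2 ≤ (K m ε z t).gam (G m ε z t) (cf o))
  kout : ℕ → ℝ → ℂ → ℂ → τ → Ω → ℂ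
  kout_meas : ∀ m ε a z t, Measurable (kout m ε a z t)
  kout_eq : ∀ m ε a z t, ∀ o ∈ Ok, kout m ε a z t o = (K m ε z t).Nrm (G m ε z t) (kout0 m ε a z t) (cf o)
  ke : ℕ → ℝ → ℂ → ℂ → τ → Ω → ℂ
  ke_meas : ∀ m ε a z t, Measurable (ke m ε a z t)
  ke_eq : ∀ m ε a z t, ∀ o ∈ Ok, ke m ε a z t o = (K m ε z t).Nrm (G m ε z t) (ke0 m ε a z t) (cf o)
  G_meas : ∀ m ε z t, MeasurableSet (cf ⁻¹' G m ε z t)
  kout0_meas : ∀ m ε a z t, Measurable fun o => kout0 m ε a z t (cf o)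
  ke0_meas : ∀ m ε a z t, Measurable fun o => ke0 m ε a z t (cf o)
  /-- P7: the qualified pins -/
  pins : ℕ → ℝ → Ω → PvbRim → Set (PvbPin τ)
  /-- part of P7: `gam ≥ 1/2`, not F3 -/
  pin_U : ∀ m ε o P, ∀ s ∈ pins m ε o P, o ∈ U m ε s.ctr s.typ
  Pat : ℕ → Type
  Pat_fin : ∀ m, Finite (Pat m)
  pat : ∀ m, Pat m → PvtsPat τ
  pat_ok : ∀ m π, (N.Γ m).Ok (pat m π)
  Fit : ∀ m : ℕ, ℝ → Ω → PvbRim → PvbPin τ → PvbPin τ → Pat m → Prop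
  fit_s : ∀ m ε o P s t π, Fit m ε o P s t π → s.ctr = (pat m π).zs ∧ s.typ = (pat m π).ts
  fit_t : ∀ m ε o P s t π, Fit m ε o P s t π → t.ctr = (pat m π).zt ∧ t.typ = (pat m π).tt
  /-- P8 P9 P14 P15: DI-P + DENSE-P -/
  pinsOK : PvhbOrd (fun m ε => (Pr ε {o | ¬ ∀ P ∈ rims o,
    (∀ s ∈ pins m ε o P, PvbIsPin N.𝔐 (N.h m) P s ∧ ∃ p : ℤ × ℤ, s.ctr = l9Pt (N.h m) p) ∧
    (∀ i i', i ≤ i' → i' ≤ P.len → (∀ k, i ≤ k → k ≤ i' → ‖P.v k - x‖ ≤ 2 * R) → N.r m ≤ ‖P.v i' - P.v i‖ → ∃ s ∈ pins m ε o P, i ≤ s.idx ∧ s.idx ≤ i')}).toReal)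
  /-- TR20 COVER with the tentacled obstacles (P10 = M8) -/
  cover : PvhbOrd (fun m ε => (Pr ε {o | ¬ ∀ P ∈ rims o, ∀ s ∈ pins m ε o P, ∀ t ∈ pins m ε o P, s.idx < t.idx →
    (∀ k, s.idx ≤ k → k ≤ t.idx → ‖P.v k - x‖ ≤ 2 * R) → R / 3 ≤ ‖s.ctr - t.ctr‖ → ∃ π : Pat m, Fit m ε o P s t π}).toReal)
  /-- P17: the integrand `Z_π` of the free arc -/
  Z : ∀ m : ℕ, ℝ → ℂ → Pat m → Ξ → ℝ≥0∞
  /-- **P12 STAB + P17 (b)** (deterministic): after ANY preparation of the two strips (moves of positive weight: whitenings which realise the strip events) which makes both states usable, the actual arc is one of the arcs `g` counted by `Z_π` -/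
  stab : ∀ (a : ℂ) (m : ℕ) (ε : ℝ) (o : Ω), o ∈ Ok → ∀ P ∈ rims o, ∀ s ∈ pins m ε o P, ∀ t ∈ pins m ε o P, ∀ π : Pat m, Fit m ε o P s t π →
    ∀ i ∈ (K m ε s.ctr s.typ).I (cf o), (K m ε s.ctr s.typ).wt (cf o) i ≠ 0 →
    ∀ j ∈ (K m ε t.ctr t.typ).I ((K m ε s.ctr s.typ).mv (cf o) i), (K m ε t.ctr t.typ).wt ((K m ε s.ctr s.typ).mv (cf o) i) j ≠ 0 →
      (K m ε t.ctr t.typ).mv ((K m ε s.ctr s.typ).mv (cf o) i) j ∈ G m ε s.ctr s.typ → (K m ε t.ctr t.typ).mv ((K m ε s.ctr s.typ).mv (cf o) i) j ∈ G m ε t.ctr t.typ →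
      ‖pvbArcI N.𝔐 (N.h m) P (fun k => P.xQ k - a * P.xV k) s t +
        (kout0 m ε a t.ctr t.typ ((K m ε t.ctr t.typ).mv ((K m ε s.ctr s.typ).mv (cf o) i) j) + pvtSum (N.W m ε a) ((N.Γ m).dout (pat m π).tt) (pat m π).l +
          kin0 m ε a s.ctr s.typ ((K m ε t.ctr t.typ).mv ((K m ε s.ctr s.typ).mv (cf o) i) j))‖ₑ ^ 2 ≤ Z m ε a π ((K m ε t.ctr t.typ).mv ((K m ε s.ctr s.typ).mv (cf o) i) j)
  /-- the two candidates of a pattern are far apart: blindness   [263: `pvpOp_blind`, `pvpAv_blind'`, `Conf.Reads.pvpBlind`] -/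
  bl_G : ∀ m ε (π : Pat m), (K m ε (pat m π).zt (pat m π).tt).BlindS (G m ε (pat m π).zs (pat m π).ts)
  bl_kin : ∀ m ε a (π : Pat m), (K m ε (pat m π).zt (pat m π).tt).Blind (kin0 m ε a (pat m π).zs (pat m π).ts)
  bl_gam : ∀ m ε (π : Pat m), (K m ε (pat m π).zs (pat m π).ts).Blind ((K m ε (pat m π).zt (pat m π).tt).gam (G m ε (pat m π).zt (pat m π).tt))
  bl_av : ∀ m ε a (π : Pat m), (K m ε (pat m π).zs (pat m π).ts).Blind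
    ((K m ε (pat m π).zt (pat m π).tt).Av ((G m ε (pat m π).zt (pat m π).tt).indicator (kout0 m ε a (pat m π).zt (pat m π).tt)))
  /-- `C_prep = 1/p_*`, UNIFORM (a number of the menu) -/
  Cp : ℝ
  /-- **TR18.1 DOM**, one strip   [263: `pvp_dom`] -/
  dom1 : ∀ m ε z t (F : Ξ → ℝ≥0∞), (Measurable fun o => F (cf o)) →
    ∫⁻ o, (Hg m ε z t).indicator ((K m ε z t).Op F) (cf o) ∂(Pr ε) ≤ ENNReal.ofReal Cp * ∫⁻ o, F (cf o) ∂(Pr ε)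
  /-- **TR18.1 DOM**, the two strips of a pattern -/
  dom2 : ∀ m ε a (π : Pat m),
    ∫⁻ o, (Hg m ε (pat m π).zs (pat m π).ts ∩ Hg m ε (pat m π).zt (pat m π).tt).indicator
        ((K m ε (pat m π).zs (pat m π).ts).Op ((K m ε (pat m π).zt (pat m π).tt).Op (Z m ε a π))) (cf o) ∂(Pr ε)
      ≤ ENNReal.ofReal (Cp ^ 2) * ∫⁻ o, Z m ε a π (cf o) ∂(Pr ε)
  dom2_ae : ∀ m ε a (π : Pat m), AEMeasurable (fun o => (Hg m ε (pat m π).zs (pat m π).ts ∩ Hg m ε (pat m π).zt (pat m π).tt).indicator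
        ((K m ε (pat m π).zs (pat m π).ts).Op ((K m ε (pat m π).zt (pat m π).tt).Op (Z m ε a π))) (cf o)) (Pr ε)
  /-- **P17 (a)** = N1''/N1' = TR23 for region states, an ordinary `ν`-statement -/
  n1ν : ∀ (a : ℂ) (m : ℕ) (π : Pat m), Tendsto (fun ε => ∫⁻ o, Z m ε a π (cf o) ∂(Pr ε)) (𝓝[>] (0 : ℝ)) (𝓝 0)
  /-- TR3' + TR2 + TR25 on `G` -/
  cyc1ν : ∀ (a : ℂ) (m : ℕ) (p : ℤ × ℤ) (t : τ), ‖l9Pt (N.h m) p - x‖ ≤ 2 * R → Tendsto (fun ε => ∫⁻ o in cf ⁻¹' G m ε (l9Pt (N.h m) p) t,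
    ‖kout0 m ε a (l9Pt (N.h m) p) t (cf o) + pvtSum (N.W m ε a) ((N.Γ m).dout t) ((N.Γ m).l1 t) + N.kin0 m ε a + ke0 m ε a (l9Pt (N.h m) p) t (cf o)‖ₑ ^ 2 ∂(Pr ε)) (𝓝[>] (0 : ℝ)) (𝓝 0)
  Ce0 : ℝ
  /-- TR5 + I.BES + the deterministic masks `U_e` (FIT-IN) on `G` -/
  thickν : ∀ (a : ℂ), ‖a‖ ≤ N.CA → ∀ (m : ℕ) (p : ℤ × ℤ) (t : τ), ‖l9Pt (N.h m) p - x‖ ≤ 2 * R → ∀ᶠ ε in 𝓝[>] (0 : ℝ),
    ∫⁻ o in cf ⁻¹' G m ε (l9Pt (N.h m) p) t, ‖ke0 m ε a (l9Pt (N.h m) p) t (cf o)‖ₑ ^ 2 ∂(Pr ε) ≤ ENNReal.ofReal (Ce0 * N.h m ^ 2)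
  Cp0 : 0 ≤ Cp
  Ce00 : 0 ≤ Ce0

variable {τ : Type} {c : ℝ} {N : PvhbNum τ c} {Pr : ℝ → Measure Ω} {rims : Ω → Set PvbRim} {x : ℂ} {R : ℝ} {Ξ ι : Type}

/-- **L2 TRANSFER**: the normalised average on `U` is dominated by the `ν`-integral on `G` -/
theorem pvrp_l2 (L : PvrpIn N Pr rims x R Ξ ι) (m : ℕ) (ε : ℝ) (z : ℂ) (t : τ) (Ψ : Ω → ℂ) (ψ : Ξ → ℂ) (hψ : Measurable fun o => ψ (L.cf o))
    (hΨ : ∀ o ∈ L.Ok, o ∈ L.U m ε z t → Ψ o = (L.K m ε z t).Nrm (L.G m ε z t) ψ (L.cf o)) :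
    ∫⁻ o in L.U m ε z t, ‖Ψ o‖ₑ ^ 2 ∂(Pr ε) ≤ ENNReal.ofReal (4 * L.Cp) * ∫⁻ o in L.cf ⁻¹' L.G m ε z t, ‖ψ (L.cf o)‖ₑ ^ 2 ∂(Pr ε) := by
  set F : Ξ → ℝ≥0∞ := (L.G m ε z t).indicator fun ζ => ‖ψ ζ‖ₑ ^ 2 with hF
  have hFe : (fun o => F (L.cf o)) = (L.cf ⁻¹' L.G m ε z t).indicator fun o => ‖ψ (L.cf o)‖ₑ ^ 2 := by
    funext o
    by_cases h : L.cf o ∈ L.G m ε z t
    · rw [hF, Set.indicator_of_mem h, Set.indicator_of_mem (show o ∈ L.cf ⁻¹' L.G m ε z t from h)]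
    · rw [hF, Set.indicator_of_notMem h, Set.indicator_of_notMem (show o ∉ L.cf ⁻¹' L.G m ε z t from h)]
  have hFm : Measurable fun o => F (L.cf o) := by
    rw [hFe]
    exact (hψ.enorm.pow_const 2).indicator (L.G_meas m ε z t)
  have h1 : ∫⁻ o in L.U m ε z t, ‖Ψ o‖ₑ ^ 2 ∂(Pr ε) ≤ ∫⁻ o, 4 * (L.Hg m ε z t).indicator ((L.K m ε z t).Op F) (L.cf o) ∂(Pr ε) := by
    rw [← lintegral_indicator (L.U_meas m ε z t)]
    refine lintegral_mono_ae ?_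
    filter_upwards [L.Ok_ae ε] with o ho
    by_cases hU : o ∈ L.U m ε z t
    · obtain ⟨hH, hg⟩ := (L.U_iff m ε z t o ho).1 hU
      rw [Set.indicator_of_mem hU, Set.indicator_of_mem hH, hΨ o ho hU]
      exact pvrp_nrm_le _ hg ψ
    · rw [Set.indicator_of_notMem hU]
      exact zero_le
  refine h1.trans ?_
  rw [lintegral_const_mul' _ _ (by norm_num)]
  have h2 := L.dom1 m ε z t F hFm
  rw [hFe, lintegral_indicator (L.G_meas m ε z t)] at h2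
  calc 4 * ∫⁻ o, (L.Hg m ε z t).indicator ((L.K m ε z t).Op F) (L.cf o) ∂(Pr ε)
      ≤ 4 * (ENNReal.ofReal L.Cp * ∫⁻ o in L.cf ⁻¹' L.G m ε z t, ‖ψ (L.cf o)‖ₑ ^ 2 ∂(Pr ε)) := by gcongr
    _ = ENNReal.ofReal (4 * L.Cp) * ∫⁻ o in L.cf ⁻¹' L.G m ε z t, ‖ψ (L.cf o)‖ₑ ^ 2 ∂(Pr ε) := by
      rw [ENNReal.ofReal_mul (by norm_num), ← mul_assoc]
      norm_num

/-- the entrance potential (no measurability is asked of it) -/
noncomputable def PvrpIn.kin (L : PvrpIn N Pr rims x R Ξ ι) (m : ℕ) (ε : ℝ) (a z : ℂ) (t : τ) (o : Ω) : ℂ :=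
  (L.K m ε z t).Nrm (L.G m ε z t) (L.kin0 m ε a z t) (L.cf o)

/-- the doubly averaged integrand of a pattern, on the good geometries -/
noncomputable def PvrpIn.W (L : PvrpIn N Pr rims x R Ξ ι) (m : ℕ) (ε : ℝ) (a : ℂ) (π : L.Pat m) (o : Ω) : ℝ≥0∞ :=
  (L.Hg m ε (L.pat m π).zs (L.pat m π).ts ∩ L.Hg m ε (L.pat m π).zt (L.pat m π).tt).indicator
    ((L.K m ε (L.pat m π).zs (L.pat m π).ts).Op ((L.K m ε (L.pat m π).zt (L.pat m π).tt).Op (L.Z m ε a π))) (L.cf o)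

theorem pvrp_eqns_cite3 : True := by
  have := @PvrpIn.kin.eq_1; have := @PvrpIn.W.eq_1
  trivial

/-- **P17 (b), pointwise**: on `Ok` the error of a fitting arc is dominated by the doubly averaged integrand -/
theorem pvrp_arc (L : PvrpIn N Pr rims x R Ξ ι) (a : ℂ) (m : ℕ) (ε : ℝ) (π : L.Pat m) {o : Ω} (ho : o ∈ L.Ok) {P : PvbRim} (hP : P ∈ rims o)
    {s t : PvbPin τ} (hs : s ∈ L.pins m ε o P) (ht : t ∈ L.pins m ε o P) (hF : L.Fit m ε o P s t π) :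
    ‖pvbArcI N.𝔐 (N.h m) P (fun k => P.xQ k - a * P.xV k) s t +
      (L.kout m ε a t.ctr t.typ o + pvtSum (N.W m ε a) ((N.Γ m).dout (L.pat m π).tt) (L.pat m π).l + L.kin m ε a s.ctr s.typ o)‖ₑ ^ 2 ≤ 16 * L.W m ε a π o := by
  obtain ⟨hs1, hs2⟩ := L.fit_s m ε o P s t π hF
  obtain ⟨ht1, ht2⟩ := L.fit_t m ε o P s t π hF
  obtain ⟨hHs, hgs⟩ := (L.U_iff m ε s.ctr s.typ o ho).1 (L.pin_U m ε o P s hs)
  obtain ⟨hHt, hgt⟩ := (L.U_iff m ε t.ctr t.typ o ho).1 (L.pin_U m ε o P t ht)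
  have hst := L.stab a m ε o ho P hP s hs t ht π hF
  rw [L.kout_eq m ε a t.ctr t.typ o ho]
  unfold PvrpIn.kin PvrpIn.W
  rw [← hs1, ← hs2, ← ht1, ← ht2, Set.indicator_of_mem (Set.mem_inter hHs hHt)]
  have hb1 := L.bl_G m ε π
  have hb2 := L.bl_kin m ε a π
  have hb3 := L.bl_gam m ε π
  have hb4 := L.bl_av m ε a π
  rw [← hs1, ← hs2, ← ht1, ← ht2] at hb1 hb2 hb3 hb4
  have key := pvrp_point (pvbArcI N.𝔐 (N.h m) P (fun k => P.xQ k - a * P.xV k) s t + pvtSum (N.W m ε a) ((N.Γ m).dout t.typ) (L.pat m π).l)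
    hb1 hb2 hb3 hb4 hgs hgt (Z := L.Z m ε a π) (fun i hi hi0 j hj hj0 h1 h2 => by
      have h3 := hst i hi hi0 j hj hj0 h1 h2
      rw [← ht2] at h3
      refine le_trans (le_of_eq ?_) h3
      congr 2
      ring)
  refine le_trans (le_of_eq ?_) key
  congr 2
  ring

/-- **THE ROOF OF ROAD P** -/
theorem pvrp_loc (L : PvrpIn N Pr rims x R Ξ ι) : Nonempty (PvhbLoc N Pr rims x R) := by
  refine ⟨{
    pins := L.pins
    U := L.U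
    kout := L.kout
    kin := L.kin
    ke := L.ke
    Pat := L.Pat
    Pat_fin := L.Pat_fin
    pat := L.pat
    pat_ok := L.pat_ok
    Fit := fun m ε o P s t π => L.Fit m ε o P s t π ∧ o ∈ L.U m ε t.ctr t.typ
    fit_s := fun m ε o P s t π h => L.fit_s m ε o P s t π h.1
    fit_t := fun m ε o P s t π h => L.fit_t m ε o P s t π h.1
    fit_U := fun m ε o P s t π h => h.2
    pinsOK := L.pinsOK
    cover := ?_
    n1 := ?_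
    cyc1 := ?_
    Ce := 4 * L.Cp * L.Ce0
    thick := ?_
    U_meas := L.U_meas
    kout_meas := L.kout_meas
    ke_meas := L.ke_meas }⟩
  · -- cover
    refine L.cover.mono fun m ε => le_of_eq ?_
    congr 2
    ext o
    show (¬ _) ↔ (¬ _)
    rw [not_iff_not]
    constructor
    · intro h P hP s hs t ht h1 h2 h3
      obtain ⟨π, hπ⟩ := h P hP s hs t ht h1 h2 h3
      exact ⟨π, hπ.1⟩
    · intro h P hP s hs t ht h1 h2 h3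
      obtain ⟨π, hπ⟩ := h P hP s hs t ht h1 h2 h3
      exact ⟨π, hπ, L.pin_U m ε o P t ht⟩
  · -- n1
    intro a m π u hu
    have hc0 : ENNReal.ofReal (u ^ 2 / 16) ≠ 0 := by
      rw [Ne, ENNReal.ofReal_eq_zero, not_le]
      positivity
    have hbound : ∀ ε, Pr ε {o | ∃ P ∈ rims o, ∃ s ∈ L.pins m ε o P, ∃ t ∈ L.pins m ε o P, (L.Fit m ε o P s t π ∧ o ∈ L.U m ε t.ctr t.typ) ∧
        u < ‖pvbArcI N.𝔐 (N.h m) P (fun k => P.xQ k - a * P.xV k) s t +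
          (L.kout m ε a t.ctr t.typ o + pvtSum (N.W m ε a) ((N.Γ m).dout (L.pat m π).tt) (L.pat m π).l + L.kin m ε a s.ctr s.typ o)‖}
        ≤ (ENNReal.ofReal (L.Cp ^ 2) * ∫⁻ o, L.Z m ε a π (L.cf o) ∂(Pr ε)) / ENNReal.ofReal (u ^ 2 / 16) := by
      intro ε
      have h1 : Pr ε {o | ENNReal.ofReal (u ^ 2 / 16) ≤ L.W m ε a π o} ≤ (∫⁻ o, L.W m ε a π o ∂(Pr ε)) / ENNReal.ofReal (u ^ 2 / 16) :=
        meas_ge_le_lintegral_div (L.dom2_ae m ε a π) hc0 ENNReal.ofReal_ne_top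
      have h2 : ∫⁻ o, L.W m ε a π o ∂(Pr ε) ≤ ENNReal.ofReal (L.Cp ^ 2) * ∫⁻ o, L.Z m ε a π (L.cf o) ∂(Pr ε) := L.dom2 m ε a π
      refine le_trans ?_ (h1.trans (ENNReal.div_le_div_right h2 _))
      refine measure_mono_ae ?_
      filter_upwards [L.Ok_ae ε] with o ho
      rintro ⟨P, hP, s, hs, t, ht, ⟨hF, -⟩, hlt⟩
      have h3 := pvrp_arc L a m ε π ho hP hs ht hF
      rw [pvrp_enorm_sq] at h3
      show ENNReal.ofReal (u ^ 2 / 16) ≤ L.W m ε a π o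
      have h4 : ENNReal.ofReal (u ^ 2) ≤ 16 * L.W m ε a π o :=
        (ENNReal.ofReal_le_ofReal (pow_le_pow_left₀ hu.le hlt.le 2)).trans h3
      have h5 : ENNReal.ofReal (u ^ 2 / 16) = ENNReal.ofReal (u ^ 2) / 16 := by
        rw [ENNReal.ofReal_div_of_pos (by norm_num)]
        norm_num
      rw [h5]
      refine ENNReal.div_le_of_le_mul ?_
      rwa [mul_comm]
    have hlim : Tendsto (fun ε => (ENNReal.ofReal (L.Cp ^ 2) * ∫⁻ o, L.Z m ε a π (L.cf o) ∂(Pr ε)) / ENNReal.ofReal (u ^ 2 / 16)) (𝓝[>] (0 : ℝ)) (𝓝 0) := by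
      have h1 := ENNReal.Tendsto.const_mul (a := ENNReal.ofReal (L.Cp ^ 2)) (L.n1ν a m π) (Or.inr ENNReal.ofReal_ne_top)
      rw [mul_zero] at h1
      have h2 := ENNReal.Tendsto.div_const h1 (Or.inr hc0)
      rwa [ENNReal.zero_div] at h2
    have hlim2 := tendsto_of_tendsto_of_tendsto_of_le_of_le tendsto_const_nhds hlim (fun ε => zero_le) hbound
    exact (ENNReal.tendsto_toReal ENNReal.zero_ne_top).comp hlim2
  · -- cyc1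
    intro a m p t hp
    have hb : ∀ ε, ∫⁻ o in L.U m ε (l9Pt (N.h m) p) t,
        ‖L.kout m ε a (l9Pt (N.h m) p) t o + pvtSum (N.W m ε a) ((N.Γ m).dout t) ((N.Γ m).l1 t) + N.kin0 m ε a + L.ke m ε a (l9Pt (N.h m) p) t o‖ₑ ^ 2 ∂(Pr ε)
        ≤ ENNReal.ofReal (4 * L.Cp) * ∫⁻ o in L.cf ⁻¹' L.G m ε (l9Pt (N.h m) p) t,
          ‖L.kout0 m ε a (l9Pt (N.h m) p) t (L.cf o) + pvtSum (N.W m ε a) ((N.Γ m).dout t) ((N.Γ m).l1 t) + N.kin0 m ε a + L.ke0 m ε a (l9Pt (N.h m) p) t (L.cf o)‖ₑ ^ 2 ∂(Pr ε) := by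
      intro ε
      refine pvrp_l2 L m ε (l9Pt (N.h m) p) t _
        (fun ζ => L.kout0 m ε a (l9Pt (N.h m) p) t ζ + pvtSum (N.W m ε a) ((N.Γ m).dout t) ((N.Γ m).l1 t) + N.kin0 m ε a + L.ke0 m ε a (l9Pt (N.h m) p) t ζ)
        ((((L.kout0_meas m ε a _ t).add_const _).add_const _).add (L.ke0_meas m ε a _ t)) ?_
      intro o ho hU
      obtain ⟨-, hg⟩ := (L.U_iff m ε _ t o ho).1 hU
      have hg0 : (L.K m ε (l9Pt (N.h m) p) t).gam (L.G m ε (l9Pt (N.h m) p) t) (L.cf o) ≠ 0 := by linarith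
      rw [pvrp_nrm_add, pvrp_nrm_add, pvrp_nrm_add, pvrp_nrm_const _ hg0, pvrp_nrm_const _ hg0, L.kout_eq m ε a _ t o ho, L.ke_eq m ε a _ t o ho]
    have h1 := ENNReal.Tendsto.const_mul (a := ENNReal.ofReal (4 * L.Cp)) (L.cyc1ν a m p t hp) (Or.inr ENNReal.ofReal_ne_top)
    rw [mul_zero] at h1
    exact tendsto_of_tendsto_of_tendsto_of_le_of_le tendsto_const_nhds h1 (fun ε => zero_le) hb
  · -- thick
    intro a ha m p t hp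
    filter_upwards [L.thickν a ha m p t hp] with ε hε
    refine (pvrp_l2 L m ε (l9Pt (N.h m) p) t _ (L.ke0 m ε a (l9Pt (N.h m) p) t) (L.ke0_meas m ε a _ t) (fun o ho _ => L.ke_eq m ε a _ t o ho)).trans ?_
    calc ENNReal.ofReal (4 * L.Cp) * ∫⁻ o in L.cf ⁻¹' L.G m ε (l9Pt (N.h m) p) t, ‖L.ke0 m ε a (l9Pt (N.h m) p) t (L.cf o)‖ₑ ^ 2 ∂(Pr ε)
        ≤ ENNReal.ofReal (4 * L.Cp) * ENNReal.ofReal (L.Ce0 * N.h m ^ 2) := by gcongr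
      _ = ENNReal.ofReal (4 * L.Cp * L.Ce0 * N.h m ^ 2) := by
        rw [← ENNReal.ofReal_mul (mul_nonneg (by norm_num) L.Cp0)]
        congr 1
        ring

end rec

end Claimed.Agent.R289
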