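-- KEEP
import Claimed.Agent.R289.Tr.PinLoc
import Claimed.Agent.R289.Tr.Prep
import Claimed.Agent.R289.Tr.GateB
import Claimed.Agent.R289.Tr.Defs
import Claimed.Agent.R289.Tr.RetNat
import Claimed.Agent.R289.Del.Bulk
import Claimed.Agent.R289.Tr.RoadP
import Claimed.Agent.R289.Tr.StrandD
import Claimed.Agent.R289.Pl.Bond
import Claimed.Agent.R289.Tr.DiA
import Claimed.Agent.R289.Del.Seam

/-!
# Row 289 (S0537, Cardy for Poisson-Voronoi), THE WALL, ROAD P, file Tr/StateP : REGION STATES, GATES OF A STATE, SIDE EVENTS, USABLE STATES, QUALIFIED PINS      (architect + prover helper185; prefix `pvsp_`, `pvsp`, `Pvsp`)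

Blueprint: `origin/helper273:notes/R289/ROADP_273.md` P2-P7 (head of road P: 273), `origin/helper205:notes/R289/MENU_205.md` (type, derived sets), `ref_131.md` sec. 2 (side events, quenched event `Hq`), `TR18_59.md` (averaged kernel).

THREE LEVELS.
* LEVEL A (sec. 1-2), DETERMINISTIC, MODEL FREE, IN MARKS FORM: `T : PvMap V D`, marks `mk : V → κ` (`κ = ℂ`, `mk = pos`: positions;  `κ = PvspIx → Bool`: the twelve position TESTS), colouring `s` with `true` = THE COLOUR OF THE RIM.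
     `PvspReg κ`          the twelve regions of a candidate `(z, τ)`:  `I1 O1 I2 O2` (balls `a₁ b₁ a₂ b₂`), `C1` (ball `b₁+1`), `S2` (ball `b₂+1`: star zone), tubes `Np Nm`, white lanes `Mp Mm`, doors `Dp Dm`
     `PvspSel T s I O g`  P3: `g : T.Gate s` (260) is THE SELECTED gate between the face sets `I ⊆ O`: INNERMOST (canonical: no choice, `Tr/GateMin` of 150 gives existence), with its inner strand (`g.Thru`)
     `PvspSt T s`, `𝔖.At mk 𝔯`      P2 + P3 + FIT-IN of P5: the two selected gates, the inner rim arc of `S₂` (loop erasure of the black bank of the inner strand), the marked vertex `p(σ) = v₁⁺`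
     `PvspPath`, `𝔖.Side mk 𝔯 k`    P4: the four side paths `L^{±,b}`, `L^{±,w}`
     `PvspPred 𝔯 c k : PvplPred κ`  the five predicates on marked coloured maps (vocabulary of 238, `Tr/PinLoc`);   **`pvsp_pred_local`** : they are LOCAL (read at the vertices marked in `𝔯.K k`)
* LEVEL B (sec. 3-5), EVENTS ON `Conf PvPt`: `pvspEv θ Φ K E ρ` = THE measurable event, read from the window `E ×ˢ univ`, which on the mesh event is `Φ` for EVERY completion (`pvpl_main` of 238);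
     `PvspNum`, `PvspTy` (the PLACED geometry of a candidate: ABSOLUTE subsets of `ℂ`, no scaling in this file), `t.reg N z h`, windows `t.win N z h k`, `pvspEvt N t z h k`;      `pvspLp`, `pvspLm` (= `L^+`, `L^-`),
     `pvspLane` (= `A_κ`, in RETAINED form: monotone for ALL configurations), strip `pvspJ`, `pvspKer S b 𝒜 : PvrpK (Conf PvPt) (Finset ℂ)` (the operator of 263 as a finite weight operator of 273), `pvspK N t z h`
     `pvspProp ε O 𝒜 ξ` = `ν(𝒜 | σ)` as an honest product integral over the splice;   **`pvspG`** (= `G_τ`), **`pvspHq`**, **`pvspGq`** (= field `G` of `PvrpIn`), **`pvspHg`** (= field `Hg`: not F3), `γ_τ = (pvspK ..).gam (pvspGq ..)`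
* LEVEL C (sec. 5): **`PvspQual`** = P7, QUALIFIED PIN of an encoded rim `P : PvbRim` of ANY completion;   `pvspPins` (= field `pins`), `pvsp_pin_U` (= field `pin_U`).
* sec. 6 (ALL PROVED): measurability, reading, dictionary: `pvsp_evt_meas _reads _dict _plane`, `pvsp_evt_sub_has`, `pvsp_lane_inc _reads _meas _meas_cf`, `pvsp_prop_reads _meas _lintegral`, `pvsp_G_reads _meas`, `pvsp_Hq_reads`, `pvsp_Gq_reads` (form of 79), `pvsp_Hg_reads _blind`.
* sec. 7 (PROVED): `pvsp_prop_ti` (`pvspProp = pvtiP`), `pvsp_small`, **`pvsp_adm`** `ν(state ∩ L⁺ ∩ L⁻) ≤ ν(G_τ) + 2β`, `pvsp_adm_ge`;   regular states `pvspRg` (kit only: NOT a clause of `G_τ`).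
v3 (THE FOOT, cure (F') of 68, ruling P13 of 273): `.pw` / `.mw` start AT THE FEET `T.tgt g2.aOut` / `T.tgt g2.aIn`;   `PvspTy` has the rooms `Tp Tm`;   `t.reg N z h .Mp = t.Mp ∪ t.Tp ∩ clB(z, (b₁+1) h)` (mirror `.Mm`);   strip, lane, windows, `K`, `Hq`, `Hg` untouched.
v2 (ruling P7 (1) of 273, M-A of 8): THREE FIXED ANNULI `N.a N.b : Fin 3 → ℝ` (units of `h`, the answer of A6), no trial grid;   `PvspQual.gates / .pass` in the FAMILY-FREE form of 212 (`Tr/DiA.lean`: `PvdaGate`, `PvdaPass`).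
WHAT IS ABSTRACT HERE: the cells.   A type enters only through `PvspTy` (regions + windows as subsets of `ℂ`) with the explicit conditions `PvspTy.Wf`;   `Tr/Menu.lean` (205) + `Tr/MenuGeo.lean` (222: `pvmgPl z dlt E`) instantiate it.   `Fit` (exact fit M6 + NR₀ + NR₁ + "leaves the box") and `QB` (QBX-good geometry) are fields of the model `PvspMod τ`.
-/

set_option autoImplicit false
set_option linter.unusedSectionVars false
set_option linter.unusedVariables false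

namespace Claimed.Agent.R289

open MeasureTheory ProbabilityTheory Set Filter Topology Metric Claims.C0465
open scoped ENNReal

/-! ## 1. LEVEL A: regions, selected gates, states -/

/-- the names of the twelve regions of a candidate -/
inductive PvspIx
  | I1 | O1 | I2 | O2 | C1 | S2 | Np | Nm | Mp | Mm | Dp | Dm
  deriving DecidableEq

instance pvspIxFintype : Fintype PvspIx :=
  ⟨{.I1, .O1, .I2, .O2, .C1, .S2, .Np, .Nm, .Mp, .Mm, .Dp, .Dm}, fun x => by cases x <;> decide⟩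

/-- the twelve regions, as sets of marks -/
abbrev PvspReg (κ : Type) := PvspIx → Set κ

/-- pull back of the regions along a map of marks -/
def PvspReg.comap {κ κ' : Type} (𝔯 : PvspReg κ') (g : κ → κ') : PvspReg κ := fun i => g ⁻¹' 𝔯 i

/-- the regions are NESTED: `I₁ ⊆ O₁ ⊆ O₂ ⊆ S₂`, `I₂ ⊆ O₂` (76: without this the predicates are not local) -/
def PvspReg.Nest {κ : Type} (𝔯 : PvspReg κ) : Prop := 𝔯 .I1 ⊆ 𝔯 .O1 ∧ 𝔯 .O1 ⊆ 𝔯 .O2 ∧ 𝔯 .I2 ⊆ 𝔯 .O2 ∧ 𝔯 .O2 ⊆ 𝔯 .S2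

/-- the universal regions on the space of the twelve tests, NESTED by construction -/
def pvspRegB : PvspReg (PvspIx → Bool)
  | .I1 => {f | f .I1 = true ∧ f .O1 = true ∧ f .O2 = true ∧ f .S2 = true}
  | .O1 => {f | f .O1 = true ∧ f .O2 = true ∧ f .S2 = true}
  | .I2 => {f | f .I2 = true ∧ f .O2 = true ∧ f .S2 = true}
  | .O2 => {f | f .O2 = true ∧ f .S2 = true}
  | .C1 => {f | f .C1 = true}
  | .S2 => {f | f .S2 = true}
  | .Np => {f | f .Np = true}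
  | .Nm => {f | f .Nm = true}
  | .Mp => {f | f .Mp = true}
  | .Mm => {f | f .Mm = true}
  | .Dp => {f | f .Dp = true}
  | .Dm => {f | f .Dm = true}

open Classical in
/-- the twelve tests of a point -/
noncomputable def pvspTest {κ : Type} (𝔯 : PvspReg κ) (w : κ) : PvspIx → Bool := fun i => decide (w ∈ 𝔯 i)

/-- the colouring in which `true` = the colour `c` -/
def pvspS {V : Type} (c : Bool) (s : V → Bool) (v : V) : Bool := s v == c

/-- the five predicates: the state alone, the four side paths -/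
inductive PvspKind
  | has | pb | pw | mb | mw
  deriving DecidableEq

instance pvspKindFintype : Fintype PvspKind := ⟨{.has, .pb, .pw, .mb, .mw}, fun x => by cases x <;> decide⟩

section levelA

variable {V D κ : Type}

/-- **P3**: `g` is THE SELECTED GATE between the face sets `I ⊆ O`: the innermost gate, and its inner strand runs from the entrance to the exit.
`on` (the circuit borders its left side) is free in a sphere: `(pl_jordan hT g.c).2.1`;   it is a field because `Local` of 238 quantifies over ALL simple maps (76) -/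
structure PvspSel (T : PvMap V D) (s : V → Bool) (I O : Set D) (g : T.Gate s) : Prop where
  on : ∀ i, g.c.e i ∈ g.c.Left
  inner : I ⊆ g.c.Left
  outer : g.c.Left ⊆ O
  thru : g.Thru
  least : ∀ g' : T.Gate s, (∀ i, g'.c.e i ∈ g'.c.Left) → I ⊆ g'.c.Left → g'.c.Left ⊆ O → g.c.Left ⊆ g'.c.Left

/-- **the DATA of a region state**: the two gates, the inner rim arc of `S₂`, the places on it of `v₁⁻` and of the marked vertex `p = v₁⁺` -/
structure PvspSt (T : PvMap V D) (s : V → Bool) where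
  g1 : T.Gate s
  g2 : T.Gate s
  inn : T.Pth
  im : ℕ
  ip : ℕ

/-- **P2 + P3 + FIT-IN**: `𝔖` is the state of the marked coloured map -/
structure PvspSt.At {T : PvMap V D} {s : V → Bool} (𝔖 : PvspSt T s) (mk : V → κ) (𝔯 : PvspReg κ) : Prop where
  sel1 : PvspSel T s (pvplB T fun v => mk v ∈ 𝔯 .I1) (pvplB T fun v => mk v ∈ 𝔯 .O1) 𝔖.g1
  sel2 : PvspSel T s (pvplB T fun v => mk v ∈ 𝔯 .I2) (pvplB T fun v => mk v ∈ 𝔯 .O2) 𝔖.g2
  /-- the inner rim arc `v₂⁻ → v₂⁺` = loop erasure of the black bank of the inner strand of `S₂` -/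
  arc : PvwLE T (fun i => T.src (pvasIt T s 𝔖.g2.aIn i)) 𝔖.g2.len 𝔖.inn
  im_lt : 𝔖.im < 𝔖.ip
  ip_le : 𝔖.ip ≤ 𝔖.inn.n
  im_eq : 𝔖.inn.v 𝔖.im = 𝔖.g1.vm
  ip_eq : 𝔖.inn.v 𝔖.ip = 𝔖.g1.vp
  /-- FIT-IN ((e1) of 140) -/
  fit_p : ∀ i, 𝔖.ip ≤ i → i ≤ 𝔖.inn.n → mk (𝔖.inn.v i) ∈ 𝔯 .C1 ∪ 𝔯 .Np
  fit_m : ∀ i, i ≤ 𝔖.ip → mk (𝔖.inn.v i) ∈ 𝔯 .C1 ∪ 𝔯 .Nm
  vp : mk 𝔖.g2.vp ∈ 𝔯 .Np
  vm : mk 𝔖.g2.vm ∈ 𝔯 .Nm

/-- a simple path of colour `c` from `A`, inside `N`, to the door `Dr` -/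
def PvspPath (T : PvMap V D) (mk : V → κ) (s : V → Bool) (c : Bool) (A : Set V) (N Dr : Set κ) : Prop :=
  ∃ q : T.Pth, q.v 0 ∈ A ∧ mk (q.v q.n) ∈ Dr ∧ ∀ x ∈ q.verts, s x = c ∧ mk x ∈ N

/-- **P4**: the side paths of a state.      v3 (THE FOOT: defect + cure (F') of 68, ruling P13 of 273): the WHITE side paths start AT THE FEET of the gate `S₂` (`T.tgt g2.aOut` = the last vertex of the right arc, beside `v₂⁺`;
`T.tgt g2.aIn` = its first vertex, beside `v₂⁻`), not at SOME vertex of the right arc: the stretch of the arc between that vertex and the foot is not controlled at a general usable state (pockets) -/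
def PvspSt.Side {T : PvMap V D} {s : V → Bool} (𝔖 : PvspSt T s) (mk : V → κ) (𝔯 : PvspReg κ) : PvspKind → Prop
  | .has => True
  | .pb => PvspPath T mk s true {𝔖.g2.vp} (𝔯 .Np) (𝔯 .Dp)
  | .pw => PvspPath T mk s false {T.tgt 𝔖.g2.aOut} (𝔯 .Mp) (𝔯 .Dp)
  | .mb => PvspPath T mk s true {𝔖.g2.vm} (𝔯 .Nm) (𝔯 .Dm)
  | .mw => PvspPath T mk s false {T.tgt 𝔖.g2.aIn} (𝔯 .Mm) (𝔯 .Dm)

end levelA

/-- the five predicates on marked coloured maps (`c` = the colour of the rim);   the STAR condition = mesh at the gates -/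
def PvspPred {κ : Type} (𝔯 : PvspReg κ) (c : Bool) (k : PvspKind) : PvplPred κ := fun _ _ T mk s =>
  PvplStar T mk (fun x => x ∈ 𝔯 .O2) (𝔯 .S2) ∧ ∃ 𝔖 : PvspSt T (pvspS c s), 𝔖.At mk 𝔯 ∧ 𝔖.Side mk 𝔯 k

/-- the marks at which the predicate number `k` is read -/
def PvspReg.K {κ : Type} (𝔯 : PvspReg κ) : PvspKind → Set κ
  | .has => 𝔯 .S2
  | .pb => 𝔯 .S2 ∪ 𝔯 .Np
  | .pw => 𝔯 .S2 ∪ 𝔯 .Mp
  | .mb => 𝔯 .S2 ∪ 𝔯 .Nm
  | .mw => 𝔯 .S2 ∪ 𝔯 .Mm

theorem pvsp_eqns_cite : True := by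
  have := @PvspReg.comap.eq_1; have := @PvspReg.Nest.eq_1; have := @pvspRegB.eq_1; have := @pvspTest.eq_1; have := @pvspS.eq_1; have := @PvspPath.eq_1
  have := @PvspSt.Side.eq_1; have := @PvspPred.eq_1; have := @PvspReg.K.eq_1
  trivial

/-! ## 2. LEVEL A: first facts -/

section factsA

variable {V D κ κ' : Type}

/-- the universal regions are nested -/
theorem pvsp_regB_nest : pvspRegB.Nest :=
  ⟨fun _ h => h.2, fun _ h => h.2, fun _ h => h.2, fun _ h => h.2⟩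

/-- nested regions are the pull back of the universal regions along their tests -/
theorem pvsp_reg_test {𝔯 : PvspReg κ} (h : 𝔯.Nest) : pvspRegB.comap (pvspTest 𝔯) = 𝔯 := by
  obtain ⟨h1, h2, h3, h4⟩ := h
  funext i
  ext w
  cases i
  · simp only [PvspReg.comap, pvspRegB, pvspTest, mem_preimage, mem_ofPred_eq, decide_eq_true_eq]
    exact ⟨fun h => h.1, fun h => ⟨h, h1 h, h2 (h1 h), h4 (h2 (h1 h))⟩⟩
  · simp only [PvspReg.comap, pvspRegB, pvspTest, mem_preimage, mem_ofPred_eq, decide_eq_true_eq]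
    exact ⟨fun h => h.1, fun h => ⟨h, h2 h, h4 (h2 h)⟩⟩
  · simp only [PvspReg.comap, pvspRegB, pvspTest, mem_preimage, mem_ofPred_eq, decide_eq_true_eq]
    exact ⟨fun h => h.1, fun h => ⟨h, h3 h, h4 (h3 h)⟩⟩
  · simp only [PvspReg.comap, pvspRegB, pvspTest, mem_preimage, mem_ofPred_eq, decide_eq_true_eq]
    exact ⟨fun h => h.1, fun h => ⟨h, h4 h⟩⟩
  all_goals simp [PvspReg.comap, pvspRegB, pvspTest]

theorem pvsp_K_comap (𝔯 : PvspReg κ') (g : κ → κ') (k : PvspKind) : (𝔯.comap g).K k = g ⁻¹' (𝔯.K k) := by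
  cases k <;> rfl

theorem pvsp_K_test (𝔯 : PvspReg κ) (k : PvspKind) : pvspTest 𝔯 ⁻¹' (pvspRegB.K k) = 𝔯.K k := by
  ext w
  cases k <;> simp [PvspReg.K, pvspRegB, pvspTest]

theorem pvsp_S2_sub_K (𝔯 : PvspReg κ) (k : PvspKind) : 𝔯 .S2 ⊆ 𝔯.K k := by
  cases k
  · exact Subset.rfl
  all_goals exact subset_union_left

/-- MARKS FORM ⟷ TEST FORM: definitional -/
theorem pvsp_pred_comap (𝔯 : PvspReg κ') (g : κ → κ') (c : Bool) (k : PvspKind) (T : PvMap V D) (mk : V → κ) (s : V → Bool) :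
    PvspPred (𝔯.comap g) c k V D T mk s ↔ PvspPred 𝔯 c k V D T (g ∘ mk) s := by
  have hAt : ∀ 𝔖 : PvspSt T (pvspS c s), 𝔖.At mk (𝔯.comap g) ↔ 𝔖.At (g ∘ mk) 𝔯 := fun 𝔖 =>
    ⟨fun h => ⟨h.sel1, h.sel2, h.arc, h.im_lt, h.ip_le, h.im_eq, h.ip_eq, h.fit_p, h.fit_m, h.vp, h.vm⟩,
      fun h => ⟨h.sel1, h.sel2, h.arc, h.im_lt, h.ip_le, h.im_eq, h.ip_eq, h.fit_p, h.fit_m, h.vp, h.vm⟩⟩
  have hSide : ∀ 𝔖 : PvspSt T (pvspS c s), 𝔖.Side mk (𝔯.comap g) k ↔ 𝔖.Side (g ∘ mk) 𝔯 k := fun 𝔖 => by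
    cases k <;> exact Iff.rfl
  constructor
  · rintro ⟨h1, 𝔖, h2, h3⟩
    exact ⟨h1, 𝔖, (hAt 𝔖).1 h2, (hSide 𝔖).1 h3⟩
  · rintro ⟨h1, 𝔖, h2, h3⟩
    exact ⟨h1, 𝔖, (hAt 𝔖).2 h2, (hSide 𝔖).2 h3⟩

/-- positions ⟷ tests -/
theorem pvsp_pred_test {𝔯 : PvspReg κ} (h : 𝔯.Nest) (c : Bool) (k : PvspKind) (T : PvMap V D) (mk : V → κ) (s : V → Bool) :
    PvspPred pvspRegB c k V D T (fun v => pvspTest 𝔯 (mk v)) s ↔ PvspPred 𝔯 c k V D T mk s := by
  have := pvsp_pred_comap pvspRegB (pvspTest 𝔯) c k T mk s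
  rw [pvsp_reg_test h] at this
  exact this.symm

/-- every side predicate contains the state predicate -/
theorem PvspPred.has {𝔯 : PvspReg κ} {c : Bool} {k : PvspKind} {T : PvMap V D} {mk : V → κ} {s : V → Bool} (h : PvspPred 𝔯 c k V D T mk s) :
    PvspPred 𝔯 c .has V D T mk s := by
  obtain ⟨h1, 𝔖, h2, -⟩ := h
  exact ⟨h1, 𝔖, h2, trivial⟩

/-- the two selected gates between the same face sets have the same inside -/
theorem PvspSel.left_eq {T : PvMap V D} {s : V → Bool} {I O : Set D} {g g' : T.Gate s} (h : PvspSel T s I O g) (h' : PvspSel T s I O g') : g.c.Left = g'.c.Left :=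
  Subset.antisymm (h.least g' h'.on h'.inner h'.outer) (h'.least g h.on h.inner h.outer)

/-- a path may be enlarged -/
theorem PvspPath.mono {T : PvMap V D} {mk : V → κ} {s : V → Bool} {c : Bool} {A A' : Set V} {N N' Dr Dr' : Set κ} (h : PvspPath T mk s c A N Dr)
    (hA : A ⊆ A') (hN : N ⊆ N') (hD : Dr ⊆ Dr') : PvspPath T mk s c A' N' Dr' := by
  obtain ⟨q, h1, h2, h3⟩ := h
  exact ⟨q, hA h1, hD h2, fun x hx => ⟨(h3 x hx).1, hN (h3 x hx).2⟩⟩

/-- a path survives every recolouring which keeps the colour `c` on the sites of colour `c` marked in `N` -/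
theorem PvspPath.recolor {T : PvMap V D} {mk : V → κ} {s s' : V → Bool} {c : Bool} {A : Set V} {N Dr : Set κ} (h : PvspPath T mk s c A N Dr)
    (hs : ∀ x, mk x ∈ N → s x = c → s' x = c) : PvspPath T mk s' c A N Dr := by
  obtain ⟨q, h1, h2, h3⟩ := h
  exact ⟨q, h1, h2, fun x hx => ⟨hs x (h3 x hx).2 (h3 x hx).1, (h3 x hx).2⟩⟩

/-- two gates with the same inside have the same pair of black vertices -/
theorem pvsp_un_black {T : PvMap V D} {s : V → Bool} (hT : T.IsSph) {g g' : T.Gate s} (hL : g.c.Left = g'.c.Left) : (g'.vm = g.vm ∨ g'.vm = g.vp) ∧ (g'.vp = g.vm ∨ g'.vp = g.vp) := by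
  have hsub : ∀ i, g'.c.e i ∈ g.c.darts := fun i => by
    rw [pl_cyc_darts_iff hT, hL, ← pl_cyc_darts_iff hT]
    exact ⟨i, rfl⟩
  constructor
  · obtain ⟨j, hj⟩ := hsub 0
    exact pvtg_black g ⟨j, by rw [hj]; rfl⟩ (pvtg_vm g')
  · obtain ⟨j, hj⟩ := hsub g'.m
    exact pvtg_black g ⟨j, by rw [hj]; rfl⟩ (pvtg_vp g')

/-- two gates with the same inside and the same entry vertex are the same circuit with the same marks -/
theorem pvsp_un_gate {T : PvMap V D} {s : V → Bool} (hT : T.IsSph) {g g' : T.Gate s} (hL : g.c.Left = g'.c.Left) (hv : g'.vm = g.vm) : (∀ i, g'.c.e i = g.c.e i) ∧ g'.c.n = g.c.n ∧ g'.m = g.m := by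
  have hsub : ∀ i, g'.c.e i ∈ g.c.darts := fun i => by
    rw [pl_cyc_darts_iff hT, hL, ← pl_cyc_darts_iff hT]
    exact ⟨i, rfl⟩
  have he : ∀ i, g'.c.e i = g.c.e i := by
    intro i
    induction i with
    | zero =>
      obtain ⟨j, hj⟩ := hsub 0
      rw [← hj]
      refine pl_cyc_eq_of_src g.c ?_
      rw [hj]
      exact hv
    | succ i ih =>
      obtain ⟨j, hj⟩ := hsub (i + 1)
      rw [← hj]
      refine pl_cyc_eq_of_src g.c ?_
      rw [hj, ← g'.c.chain, ih, g.c.chain]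
  have hn : g'.c.n = g.c.n := by
    have h1 : ¬ g.c.n < g'.c.n := fun hlt => by
      have e : T.src (g'.c.e 0) = T.src (g'.c.e g.c.n) := by
        rw [he, he]
        have := g.c.per 0
        rw [Nat.zero_add] at this
        rw [this]
      have := g'.c.inj 0 g.c.n (pl_cyc_pos g'.c) hlt e
      have := pl_cyc_pos g.c
      omega
    have h2 : ¬ g'.c.n < g.c.n := fun hlt => by
      have e : T.src (g.c.e 0) = T.src (g.c.e g'.c.n) := by
        rw [← he, ← he]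
        have := g'.c.per 0
        rw [Nat.zero_add] at this
        rw [this]
      have := g.c.inj 0 g'.c.n (pl_cyc_pos g.c) hlt e
      have := pl_cyc_pos g'.c
      omega
    omega
  refine ⟨he, hn, ?_⟩
  have hvp : g'.vp = g.vp := by
    rcases (pvsp_un_black hT hL).2 with h | h
    · exact absurd (hv.trans h.symm) (pvtg_ne g')
    · exact h
  have e : T.src (g.c.e g'.m) = T.src (g.c.e g.m) := by
    rw [← he]
    exact hvp
  exact g.c.inj _ _ (by have := g'.hmn; omega) (by have := g.hmn; omega) e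

/-- **UNIQUENESS OF THE STATE** (what the consumers read of it): the insides of the gates, the four black gate vertices, the right arc of `S₂`, the inner arc, the marked vertex.
`Np`, `Nm` are disjoint on the gate `S₂` (T7 of the menu: the two tubes meet only near the centre). -/
theorem pvsp_at_unique {T : PvMap V D} {s : V → Bool} {mk : V → κ} {𝔯 : PvspReg κ} (hT : T.IsSph) (hS : T.Simple) (hd : ∀ v, mk v ∈ 𝔯 .Np → mk v ∈ 𝔯 .Nm → mk v ∈ 𝔯 .I2)
    {𝔖 𝔖' : PvspSt T s} (h : 𝔖.At mk 𝔯) (h' : 𝔖'.At mk 𝔯) :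
    𝔖.g1.c.Left = 𝔖'.g1.c.Left ∧ 𝔖.g2.c.Left = 𝔖'.g2.c.Left ∧ 𝔖.g2.vp = 𝔖'.g2.vp ∧ 𝔖.g2.vm = 𝔖'.g2.vm ∧ 𝔖.g2.R = 𝔖'.g2.R ∧
      𝔖.inn.n = 𝔖'.inn.n ∧ (∀ i, i ≤ 𝔖.inn.n → 𝔖.inn.v i = 𝔖'.inn.v i) ∧ 𝔖.ip = 𝔖'.ip ∧ 𝔖.im = 𝔖'.im := by
  have hL1 := h.sel1.left_eq h'.sel1
  have hL2 := h.sel2.left_eq h'.sel2
  -- the entry vertex of `S₂`
  have hvm : 𝔖'.g2.vm = 𝔖.g2.vm := by
    rcases (pvsp_un_black hT hL2).1 with e | e
    · exact e
    · exfalso
      have h1 : mk 𝔖.g2.vp ∈ 𝔯 .I2 := hd _ h.vp (e ▸ h'.vm)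
      have h2 : 𝔖.g2.aOut ∈ 𝔖.g2.c.Left := h.sel2.inner (Or.inl (by rw [pvtg_aOut_src]; exact h1))
      exact ((pvtg_out_iff hT 𝔖.g2 _).2 (Or.inl rfl)).1 h2
  obtain ⟨he, hn, hm⟩ := pvsp_un_gate hT hL2 hvm
  have hvp : 𝔖.g2.vp = 𝔖'.g2.vp := by
    show T.src (𝔖.g2.c.e 𝔖.g2.m) = T.src (𝔖'.g2.c.e 𝔖'.g2.m)
    rw [he, hm]
  have hR : 𝔖.g2.R = 𝔖'.g2.R := by
    unfold PvMap.Gate.R
    simp only [he, hm]
  have hin : 𝔖'.g2.aIn = 𝔖.g2.aIn := he 0
  have hlen : 𝔖'.g2.len = 𝔖.g2.len := by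
    unfold PvMap.Gate.len
    rw [hin, hL2]
  have harc := h'.arc
  rw [hin, hlen] at harc
  obtain ⟨u1, u2, -⟩ := pvt_sd_unique hS h.arc harc
  -- the two black vertices of `S₁` in their order on the arc
  have hb := pvsp_un_black hT hL1
  have hidx : ∀ {i j : ℕ}, i ≤ 𝔖.inn.n → j ≤ 𝔖.inn.n → 𝔖.inn.v i = 𝔖'.inn.v j → i = j := fun {i j} hi hj e => by
    rw [← u2 j hj] at e
    exact 𝔖.inn.inj i j hi hj e
  have a1 := h.im_lt
  have a2 := h.ip_le
  have b1 := h'.im_lt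
  have b2 := h'.ip_le
  rw [← u1] at b2
  have hvm1 : 𝔖'.g1.vm = 𝔖.g1.vm := by
    rcases hb.1 with e | e
    · exact e
    · exfalso
      -- then also `vp' = vm`
      have e' : 𝔖'.g1.vp = 𝔖.g1.vm := by
        rcases hb.2 with e' | e'
        · exact e'
        · exact absurd (e.trans e'.symm) (pvtg_ne 𝔖'.g1)
      have c1 : 𝔖.ip = 𝔖'.im := hidx a2 (by omega) (by rw [h.ip_eq, h'.im_eq, e])
      have c2 : 𝔖.im = 𝔖'.ip := hidx (by omega) b2 (by rw [h.im_eq, h'.ip_eq, e'])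
      omega
  have hvp1 : 𝔖'.g1.vp = 𝔖.g1.vp := by
    rcases hb.2 with e | e
    · exact absurd (hvm1.trans e.symm) (pvtg_ne 𝔖'.g1)
    · exact e
  exact ⟨hL1, hL2, hvp, hvm.symm, hR, u1, u2, hidx a2 b2 (by rw [h.ip_eq, h'.ip_eq, hvp1]), hidx (by omega) (by omega) (by rw [h.im_eq, h'.im_eq, hvm1])⟩

/-- **UNIQUENESS OF THE STATE, THE FEET** (v3): the entrance and the exit dart of `S₂` (hence the two feet, the start vertices of the white side paths) -/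
theorem pvsp_at_feet {T : PvMap V D} {s : V → Bool} {mk : V → κ} {𝔯 : PvspReg κ} (hT : T.IsSph) (hd : ∀ v, mk v ∈ 𝔯 .Np → mk v ∈ 𝔯 .Nm → mk v ∈ 𝔯 .I2)
    {𝔖 𝔖' : PvspSt T s} (h : 𝔖.At mk 𝔯) (h' : 𝔖'.At mk 𝔯) : 𝔖.g2.aOut = 𝔖'.g2.aOut ∧ 𝔖.g2.aIn = 𝔖'.g2.aIn := by
  have hL2 := h.sel2.left_eq h'.sel2
  have hvm : 𝔖'.g2.vm = 𝔖.g2.vm := by
    rcases (pvsp_un_black hT hL2).1 with e | e
    · exact e
    · exfalso
      have h1 : mk 𝔖.g2.vp ∈ 𝔯 .I2 := hd _ h.vp (e ▸ h'.vm)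
      have h2 : 𝔖.g2.aOut ∈ 𝔖.g2.c.Left := h.sel2.inner (Or.inl (by rw [pvtg_aOut_src]; exact h1))
      exact ((pvtg_out_iff hT 𝔖.g2 _).2 (Or.inl rfl)).1 h2
  obtain ⟨he, hn, hm⟩ := pvsp_un_gate hT hL2 hvm
  refine ⟨?_, (he 0).symm⟩
  show T.opp (𝔖.g2.c.e (𝔖.g2.m - 1)) = T.opp (𝔖'.g2.c.e (𝔖'.g2.m - 1))
  rw [he, hm]

/-- the exit foot is the last vertex of the right arc -/
theorem pvsp_foot_out {T : PvMap V D} {s : V → Bool} (g : T.Gate s) : T.tgt g.aOut = T.src (g.c.e (g.m - 1)) ∧ T.tgt g.aOut ∈ g.R := by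
  have e : T.tgt g.aOut = T.src (g.c.e (g.m - 1)) := T.tgt_opp _
  have := g.hm
  exact ⟨e, g.m - 1, by omega, by omega, e.symm⟩

/-- the entrance foot is the first vertex of the right arc -/
theorem pvsp_foot_in {T : PvMap V D} {s : V → Bool} (g : T.Gate s) : T.tgt g.aIn = T.src (g.c.e 1) ∧ T.tgt g.aIn ∈ g.R := by
  have e : T.tgt g.aIn = T.src (g.c.e 1) := g.c.chain 0
  have := g.hm
  exact ⟨e, 1, by omega, by omega, e.symm⟩

end factsA

/-! ### TRANSFER along a local isomorphism (76): circuits, left sides, gates, strands, paths, loop erasures -/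

section transfer

open Relation

variable {κ : Type} {V D V' D' : Type} {T : PvMap V D} {mk : V → κ} {s : V → Bool} {T' : PvMap V' D'} {mk' : V' → κ} {s' : V' → Bool} {K : Set κ} {R : V → V' → Prop}

/-- the three vertices of a face of the zone are marked in `K` -/
theorem pvsp_zone {P : κ → Prop} (hst : PvplStar T mk P K) (hP : ∀ k, P k → k ∈ K) {d : D} (hd : d ∈ pvplB T fun v => P (mk v)) :
    mk (T.src d) ∈ K ∧ mk (T.tgt d) ∈ K ∧ mk (T.apex d) ∈ K := by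
  refine ⟨hst.src_mem hP hd, hst.tgt_mem hP hd, ?_⟩
  have := hst.tgt_mem hP ((pvpl_B_face T _ d).2 hd)
  rwa [T.tgt_nxt] at this

/-- transfer of a circuit all of whose darts have partners -/
theorem pvsp_tr_cyc (h : PvplIso T mk s T' mk' s' K R) (hS' : T'.Simple) (c : T.Cyc) (hc : ∀ i, ∃ d', PvplRD T T' R (c.e i) d') :
    ∃ c' : T'.Cyc, c'.n = c.n ∧ ∀ i, PvplRD T T' R (c.e i) (c'.e i) := by
  choose e' he' using hc
  refine ⟨⟨c.n, e', c.three, fun i => ?_, fun i => ?_, fun i j hi hj hij => ?_⟩, rfl, he'⟩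
  · have h1 := he' (i + c.n)
    rw [c.per] at h1
    exact h.rd_fn hS' h1 (he' i)
  · have h1 := (he' i).2.1
    rw [c.chain] at h1
    exact h.fn _ _ _ h1 (he' (i + 1)).1
  · have h1 := (he' i).1
    rw [hij] at h1
    exact c.inj i j hi hj (h.inj _ _ _ h1 (he' j).1)

/-- the left side goes forwards -/
theorem pvsp_tr_left_fwd (h : PvplIso T mk s T' mk' s' K R) (hS : T.Simple) (hS' : T'.Simple) {c : T.Cyc} {c' : T'.Cyc} (hc : ∀ i, PvplRD T T' R (c.e i) (c'.e i))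
    (hK : ∀ d ∈ c.Left, mk (T.tgt d) ∈ K) {d : D} (hd : d ∈ c.Left) : ∃ d', PvplRD T T' R d d' ∧ d' ∈ c'.Left := by
  have hd' : ReflTransGen (T.DStep c.darts) (c.e 0) d := hd
  induction hd' with
  | refl => exact ⟨c'.e 0, hc 0, ReflTransGen.refl⟩
  | @tail a b hab hstep ih =>
    obtain ⟨a', ha', hL'⟩ := ih hab
    rcases hstep with rfl | ⟨rfl, hne⟩
    · exact ⟨T'.nxt a', ha'.nxt, ReflTransGen.tail hL' (Or.inl rfl)⟩
    · have hopp := h.opp hS' ha' (hK _ hab)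
      refine ⟨T'.opp a', hopp, ReflTransGen.tail hL' (Or.inr ⟨rfl, ?_⟩)⟩
      rintro (⟨i, hi⟩ | ⟨i, hi⟩)
      · exact hne (Or.inl ⟨i, h.rd_inj hS (hc i) (hi ▸ ha')⟩)
      · exact hne (Or.inr ⟨i, h.rd_inj hS (hc i) (hi ▸ hopp)⟩)

/-- the left side goes backwards -/
theorem pvsp_tr_left_bwd (h : PvplIso T mk s T' mk' s' K R) (hS : T.Simple) (hS' : T'.Simple) {c : T.Cyc} {c' : T'.Cyc} (hc : ∀ i, PvplRD T T' R (c.e i) (c'.e i))
    (hK : ∀ d ∈ c.Left, mk (T.tgt d) ∈ K) {d' : D'} (hd : d' ∈ c'.Left) : ∃ d, PvplRD T T' R d d' ∧ d ∈ c.Left := by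
  have hd' : ReflTransGen (T'.DStep c'.darts) (c'.e 0) d' := hd
  induction hd' with
  | refl => exact ⟨c.e 0, hc 0, ReflTransGen.refl⟩
  | @tail a' b' hab hstep ih =>
    obtain ⟨a, ha, hL⟩ := ih hab
    rcases hstep with rfl | ⟨rfl, hne⟩
    · exact ⟨T.nxt a, ha.nxt, ReflTransGen.tail hL (Or.inl rfl)⟩
    · have hopp := h.opp hS' ha (hK _ hL)
      refine ⟨T.opp a, hopp, ReflTransGen.tail hL (Or.inr ⟨rfl, ?_⟩)⟩
      rintro (⟨i, hi⟩ | ⟨i, hi⟩)
      · exact hne (Or.inl ⟨i, h.rd_fn hS' (hc i) (hi ▸ ha)⟩)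
      · exact hne (Or.inr ⟨i, h.rd_fn hS' (hc i) (hi ▸ hopp)⟩)

/-- corresponding darts lie on corresponding left sides -/
theorem pvsp_tr_left_iff (h : PvplIso T mk s T' mk' s' K R) (hS : T.Simple) (hS' : T'.Simple) {c : T.Cyc} {c' : T'.Cyc} (hc : ∀ i, PvplRD T T' R (c.e i) (c'.e i))
    (hK : ∀ d ∈ c.Left, mk (T.tgt d) ∈ K) {d : D} {d' : D'} (hdd : PvplRD T T' R d d') : d ∈ c.Left ↔ d' ∈ c'.Left := by
  constructor
  · intro hd
    obtain ⟨d'', h1, h2⟩ := pvsp_tr_left_fwd h hS hS' hc hK hd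
    rwa [h.rd_fn hS' hdd h1]
  · intro hd
    obtain ⟨d'', h1, h2⟩ := pvsp_tr_left_bwd h hS hS' hc hK hd
    rwa [h.rd_inj hS hdd h1]

/-- transfer of a gate all of whose darts have partners -/
theorem pvsp_tr_gate (h : PvplIso T mk s T' mk' s' K R) (hS' : T'.Simple) (g : T.Gate s) (hc : ∀ i, ∃ d', PvplRD T T' R (g.c.e i) d') :
    ∃ g' : T'.Gate s', g'.m = g.m ∧ g'.c.n = g.c.n ∧ ∀ i, PvplRD T T' R (g.c.e i) (g'.c.e i) := by
  obtain ⟨c', hn, hc'⟩ := pvsp_tr_cyc h hS' g.c hc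
  refine ⟨⟨c', g.m, g.hm, by rw [hn]; exact g.hmn, fun i hi => ?_⟩, rfl, hn, hc'⟩
  rw [h.col _ _ (hc' i).1]
  exact g.col i (hn ▸ hi)

/-- one step of a strand -/
theorem pvsp_tr_step (h : PvplIso T mk s T' mk' s' K R) (hS' : T'.Simple) {d : D} {d' : D'} (hd : PvplRD T T' R d d') (h1 : mk (T.src d) ∈ K) (h2 : mk (T.apex d) ∈ K) :
    PvplRD T T' R (pvasStep T s d) (pvasStep T' s' d') := by
  unfold pvasStep
  rw [h.col _ _ hd.2.2]
  split_ifs
  · exact h.opp hS' hd.nxt (by rw [T.tgt_nxt]; exact h2)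
  · exact h.opp hS' hd.nxt.nxt (by rw [T.tgt_nxt2]; exact h1)

/-- the positions of a strand, as long as it stays in the zone -/
theorem pvsp_tr_it (h : PvplIso T mk s T' mk' s' K R) (hS' : T'.Simple) {a : D} {a' : D'} (ha : PvplRD T T' R a a') {A : Set D}
    (hA : ∀ d ∈ A, mk (T.src d) ∈ K ∧ mk (T.apex d) ∈ K) (n : ℕ) (hn : ∀ j, j < n → pvasIt T s a j ∈ A) :
    PvplRD T T' R (pvasIt T s a n) (pvasIt T' s' a' n) := by
  induction n with
  | zero => exact ha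
  | succ n ih =>
    have h1 := ih fun j hj => hn j (by omega)
    have h2 := hA _ (hn n (by omega))
    have e1 : pvasIt T s a (n + 1) = pvasStep T s (pvasIt T s a n) := Function.iterate_succ_apply' _ _ _
    have e2 : pvasIt T' s' a' (n + 1) = pvasStep T' s' (pvasIt T' s' a' n) := Function.iterate_succ_apply' _ _ _
    rw [e1, e2]
    exact pvsp_tr_step h hS' h1 h2.1 h2.2

/-- two sets of integers which agree up to the first element of the first have the same first element -/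
theorem pvsp_sInf_congr {S S' : Set ℕ} (h : ∀ n, (∀ j, j < n → j ∉ S) → (n ∈ S ↔ n ∈ S')) : sInf S = sInf S' := by
  have key : ∀ n, (∀ j, j < n → j ∉ S) → ∀ j, j < n → j ∉ S' := by
    intro n hn j hj hj'
    exact hn j hj ((h j fun i hi => hn i (hi.trans hj)).2 hj')
  by_cases hne : S.Nonempty
  · have h1 := Nat.sInf_mem hne
    have h2 : ∀ j, j < sInf S → j ∉ S := fun j hj => Nat.notMem_of_lt_sInf hj
    have h3 : sInf S ∈ S' := (h _ h2).1 h1
    apply le_antisymm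
    · by_contra hlt
      push Not at hlt
      exact key _ h2 _ hlt (Nat.sInf_mem ⟨_, h3⟩)
    · exact Nat.sInf_le h3
  · rw [Set.not_nonempty_iff_eq_empty] at hne
    have h' : S' = ∅ := by
      ext n
      simp only [Set.mem_empty_iff_false, iff_false]
      exact key (n + 1) (by simp [hne]) n (by omega)
    rw [hne, h']

/-- **the inner strand of a gate is transferred** -/
theorem pvsp_tr_strand (h : PvplIso T mk s T' mk' s' K R) (hS : T.Simple) (hS' : T'.Simple) {g : T.Gate s} {g' : T'.Gate s'} (hm : g'.m = g.m)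
    (hc : ∀ i, PvplRD T T' R (g.c.e i) (g'.c.e i)) (hon : ∀ i, g.c.e i ∈ g.c.Left)
    (hK : ∀ d ∈ g.c.Left, mk (T.src d) ∈ K ∧ mk (T.tgt d) ∈ K ∧ mk (T.apex d) ∈ K) :
    g'.len = g.len ∧ (∀ i, i ≤ g.len → PvplRD T T' R (pvasIt T s g.aIn i) (pvasIt T' s' g'.aIn i)) ∧ (g.Thru → g'.Thru) := by
  have hiff : ∀ {d : D} {d' : D'}, PvplRD T T' R d d' → (d ∈ g.c.Left ↔ d' ∈ g'.c.Left) := fun hdd => pvsp_tr_left_iff h hS hS' hc (fun d hd => (hK d hd).2.1) hdd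
  have hit : ∀ n, (∀ j, j < n → pvasIt T s g.aIn j ∈ g.c.Left) → PvplRD T T' R (pvasIt T s g.aIn n) (pvasIt T' s' g'.aIn n) := fun n hn =>
    pvsp_tr_it h hS' (hc 0) (fun d hd => ⟨(hK d hd).1, (hK d hd).2.2⟩) n hn
  have hlen : g'.len = g.len := by
    unfold PvMap.Gate.len pvasHit
    refine (pvsp_sInf_congr fun n hn => ?_).symm
    have h1 := hit n fun j hj => not_not.1 (hn j hj)
    exact not_congr (hiff h1)
  have hlt : ∀ j, j < g.len → pvasIt T s g.aIn j ∈ g.c.Left := fun j hj => not_not.1 (Nat.notMem_of_lt_sInf hj)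
  refine ⟨hlen, fun i hi => hit i fun j hj => hlt j (by omega), fun ht => ?_⟩
  have h1 : PvplRD T T' R (pvasIt T s g.aIn g.len) (pvasIt T' s' g'.aIn g.len) := hit _ hlt
  have h2 : pvasIt T s g.aIn g.len = g.aOut := ht
  have h3 : PvplRD T T' R g.aOut g'.aOut := by
    unfold PvMap.Gate.aOut
    rw [hm]
    exact h.opp hS' (hc _) (hK _ (hon _)).2.1
  rw [h2] at h1
  show pvasIt T' s' g'.aIn g'.len = g'.aOut
  rw [hlen]
  exact h.rd_fn hS' h1 h3

/-- transfer of a simple path whose vertices (but the last) are marked in `K` -/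
theorem pvsp_tr_pth (h : PvplIso T mk s T' mk' s' K R) (hD : Nonempty D') (q : T.Pth) (hq : ∀ i, i < q.n → mk (q.v i) ∈ K) (h0 : ∃ v', R (q.v 0) v') :
    ∃ q' : T'.Pth, q'.n = q.n ∧ ∀ i, i ≤ q.n → R (q.v i) (q'.v i) := by
  obtain ⟨d0⟩ := hD
  have hex : ∀ i, ∃ d', i < q.n → (R (q.v i) (T'.src d') ∧ R (q.v (i + 1)) (T'.tgt d')) := by
    intro i
    by_cases hi : i < q.n
    · obtain ⟨d', h1, h2, -⟩ := h.ex (q.e i) (by rw [q.src_e i hi]; exact hq i hi)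
      rw [q.src_e i hi] at h1
      rw [q.tgt_e i hi] at h2
      exact ⟨d', fun _ => ⟨h1, h2⟩⟩
    · exact ⟨d0, fun h => absurd h hi⟩
  choose e' he' using hex
  obtain ⟨v0, hv0⟩ := h0
  have hv : ∀ i, i ≤ q.n → R (q.v i) ((fun i => Nat.casesOn i v0 fun k => T'.tgt (e' k) : ℕ → V') i) := by
    intro i hi
    cases i with
    | zero => exact hv0
    | succ k => exact (he' k (by omega)).2
  refine ⟨⟨q.n, fun i => Nat.casesOn i v0 fun k => T'.tgt (e' k), e', fun i hi => ?_, fun i hi => rfl, fun i j hi hj hij => ?_⟩, rfl, hv⟩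
  · exact h.fn _ _ _ (he' i hi).1 (hv i hi.le)
  · have h1 : R (q.v i) (Nat.casesOn i v0 fun k => T'.tgt (e' k)) := hv i hi
    rw [hij] at h1
    exact q.inj i j hi hj (h.inj _ _ _ h1 (hv j hj))

/-- transfer of a loop erasure -/
theorem pvsp_tr_le (h : PvplIso T mk s T' mk' s' K R) {b : ℕ → V} {b' : ℕ → V'} {n : ℕ} (hb : ∀ i, i ≤ n → R (b i) (b' i)) {y : T.Pth} {y' : T'.Pth} (hn : y'.n = y.n)
    (hy' : ∀ i, i ≤ y.n → R (y.v i) (y'.v i)) (hy : PvwLE T b n y) : PvwLE T' b' n y' := by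
  obtain ⟨j, h0, hj, h1, h2⟩ := hy
  refine ⟨j, ?_, by rw [hn]; exact hj, fun k hk => ?_, fun k hk => ?_⟩
  · have h3 := hy' 0 (Nat.zero_le _)
    rw [h0] at h3
    exact h.fn _ _ _ h3 (hb 0 (Nat.zero_le _))
  · rw [hn] at hk
    obtain ⟨a1, a2, a3⟩ := h1 k hk
    refine ⟨a1, ?_, fun i hi hin e => ?_⟩
    · have h3 := hy' k hk
      rw [a2] at h3
      exact h.fn _ _ _ h3 (hb _ a1)
    · have e1 := hb i hin
      rw [e] at e1
      exact a3 i hi hin (h.inj _ _ _ e1 (hb _ a1))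
  · rw [hn] at hk
    have h3 := hy' (k + 1) hk
    rw [h2 k hk] at h3
    have a1 := (h1 k hk.le).1
    have hne : j k ≠ n := fun e => by
      have e1 := (h1 k hk.le).2.1
      have e2 := (h1 y.n le_rfl).2.1
      rw [hj] at e2
      rw [e] at e1
      have := y.inj k y.n hk.le le_rfl (e1.trans e2.symm)
      omega
    exact h.fn _ _ _ h3 (hb _ (by omega))

end transfer

section transfer2

variable {κ : Type} {V D V' D' : Type} {T : PvMap V D} {mk : V → κ} {s : V → Bool} {T' : PvMap V' D'} {mk' : V' → κ} {s' : V' → Bool} {K : Set κ} {R : V → V' → Prop}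

/-- the isomorphism in the colours "`true` = the colour `c`" -/
theorem pvsp_tr_S (h : PvplIso T mk s T' mk' s' K R) (c : Bool) : PvplIso T mk (pvspS c s) T' mk' (pvspS c s') K R :=
  ⟨h.mark, fun u u' hu => by unfold pvspS; rw [h.col u u' hu], h.fn, h.inj, h.ex, h.ex'⟩

/-- **transfer of the selected gate** -/
theorem pvsp_tr_sel (h : PvplIso T mk s T' mk' s' K R) (hS : T.Simple) (hS' : T'.Simple) {P : κ → Prop} (hP : ∀ k, P k → k ∈ K) (hst : PvplStar T mk P K)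
    {PI PO : κ → Prop} (hI : ∀ k, PI k → P k) (hO : ∀ k, PO k → P k) {g : T.Gate s} {g' : T'.Gate s'} (hm : g'.m = g.m) (hc : ∀ i, PvplRD T T' R (g.c.e i) (g'.c.e i))
    (hg : PvspSel T s (pvplB T fun v => PI (mk v)) (pvplB T fun v => PO (mk v)) g) :
    PvspSel T' s' (pvplB T' fun v => PI (mk' v)) (pvplB T' fun v => PO (mk' v)) g' := by
  have hst' : PvplStar T' mk' P K := h.star hP hst
  have hz : ∀ d ∈ g.c.Left, mk (T.src d) ∈ K ∧ mk (T.tgt d) ∈ K ∧ mk (T.apex d) ∈ K := fun d hd =>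
    pvsp_zone hst hP (pvpl_B_mono T (fun v => hO _) (hg.outer hd))
  have hiff : ∀ {d : D} {d' : D'}, PvplRD T T' R d d' → (d ∈ g.c.Left ↔ d' ∈ g'.c.Left) := fun hdd =>
    pvsp_tr_left_iff h hS hS' hc (fun d hd => (hz d hd).2.1) hdd
  have hbwd : ∀ {d' : D'}, d' ∈ g'.c.Left → ∃ d, PvplRD T T' R d d' ∧ d ∈ g.c.Left := fun hd' =>
    pvsp_tr_left_bwd h hS hS' hc (fun d hd => (hz d hd).2.1) hd'
  refine ⟨fun i => (hiff (hc i)).1 (hg.on i), ?_, ?_, (pvsp_tr_strand h hS hS' hm hc hg.on hz).2.2 hg.thru, ?_⟩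
  · intro d' hd'
    have hz' := pvsp_zone hst' hP (pvpl_B_mono T' (fun v => hI _) hd')
    obtain ⟨d, hd⟩ := h.ex' d' hz'.1
    exact (hiff hd).1 (hg.inner ((h.mem_B PI hd).2 hd'))
  · intro d' hd'
    obtain ⟨d, hd, hL⟩ := hbwd hd'
    exact (h.mem_B PO hd).1 (hg.outer hL)
  · intro γ' hon' hin' hout'
    have hz' : ∀ d' ∈ γ'.c.Left, mk' (T'.src d') ∈ K ∧ mk' (T'.tgt d') ∈ K ∧ mk' (T'.apex d') ∈ K := fun d' hd' =>
      pvsp_zone hst' hP (pvpl_B_mono T' (fun v => hO _) (hout' hd'))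
    obtain ⟨γ, -, -, hγ⟩ := pvsp_tr_gate h.symm hS γ' fun i => by
      obtain ⟨d, hd⟩ := h.ex' (γ'.c.e i) (hz' _ (hon' i)).1
      exact ⟨d, hd⟩
    have hiff' : ∀ {d' : D'} {d : D}, PvplRD T T' R d d' → (d' ∈ γ'.c.Left ↔ d ∈ γ.c.Left) := fun hdd =>
      pvsp_tr_left_iff h.symm hS' hS hγ (fun d hd => (hz' d hd).2.1) hdd
    have hsub : g.c.Left ⊆ γ.c.Left := by
      refine hg.least γ (fun i => (hiff' (hγ i)).1 (hon' i)) ?_ ?_
      · intro d hd
        have hzd := pvsp_zone hst hP (pvpl_B_mono T (fun v => hI _) hd)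
        obtain ⟨d', hd'⟩ := h.ex d hzd.1
        exact (hiff' hd').1 (hin' ((h.mem_B PI hd').1 hd))
      · intro d hd
        obtain ⟨d', hd', hL'⟩ := pvsp_tr_left_bwd h.symm hS' hS hγ (fun d hd => (hz' d hd).2.1) hd
        exact (h.mem_B PO hd').2 (hout' hL')
    intro d' hd'
    obtain ⟨d, hd, hL⟩ := hbwd hd'
    exact (hiff' hd).2 (hsub hL)

/-- transfer of a side path -/
theorem pvsp_tr_path (h : PvplIso T mk s T' mk' s' K R) (hD : Nonempty D') {c : Bool} {A : Set V} {A' : Set V'} {N Dr : Set κ} (hN : N ⊆ K) (hA : ∀ a ∈ A, ∃ a' ∈ A', R a a')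
    (hp : PvspPath T mk s c A N Dr) : PvspPath T' mk' s' c A' N Dr := by
  obtain ⟨q, h1, h2, h3⟩ := hp
  obtain ⟨a', ha', hR⟩ := hA _ h1
  obtain ⟨q', hn, hq'⟩ := pvsp_tr_pth h hD q (fun i hi => hN (h3 _ ⟨i, hi.le, rfl⟩).2) ⟨a', hR⟩
  refine ⟨q', ?_, ?_, ?_⟩
  · rw [h.fn _ _ _ (hq' 0 (Nat.zero_le _)) hR]; exact ha'
  · rw [hn, h.mark _ _ (hq' _ le_rfl)]; exact h2
  · rintro x ⟨i, hi, rfl⟩
    rw [hn] at hi
    rw [h.col _ _ (hq' i hi), h.mark _ _ (hq' i hi)]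
    exact h3 _ ⟨i, hi, rfl⟩

/-- **transfer of the state**, with what the side events read of it -/
theorem pvsp_tr_at {𝔯 : PvspReg κ} (hN : 𝔯.Nest) (h : PvplIso T mk s T' mk' s' (𝔯 .S2) R) (hS : T.Simple) (hS' : T'.Simple)
    (hst : PvplStar T mk (fun x => x ∈ 𝔯 .O2) (𝔯 .S2)) {𝔖 : PvspSt T s} (hA : 𝔖.At mk 𝔯) :
    ∃ 𝔖' : PvspSt T' s', 𝔖'.At mk' 𝔯 ∧ 𝔖'.g2.m = 𝔖.g2.m ∧ ∀ i, PvplRD T T' R (𝔖.g2.c.e i) (𝔖'.g2.c.e i) := by
  obtain ⟨n1, n2, n3, n4⟩ := hN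
  have hP : ∀ k, k ∈ 𝔯 .O2 → k ∈ 𝔯 .S2 := fun k hk => n4 hk
  have hz1 : ∀ d ∈ 𝔖.g1.c.Left, mk (T.src d) ∈ 𝔯 .S2 ∧ mk (T.tgt d) ∈ 𝔯 .S2 ∧ mk (T.apex d) ∈ 𝔯 .S2 := fun d hd =>
    pvsp_zone hst hP (pvpl_B_mono T (fun v hv => n2 hv) (hA.sel1.outer hd))
  have hz2 : ∀ d ∈ 𝔖.g2.c.Left, mk (T.src d) ∈ 𝔯 .S2 ∧ mk (T.tgt d) ∈ 𝔯 .S2 ∧ mk (T.apex d) ∈ 𝔯 .S2 := fun d hd =>
    pvsp_zone hst hP (hA.sel2.outer hd)
  obtain ⟨g1', hm1, -, hc1⟩ := pvsp_tr_gate h hS' 𝔖.g1 fun i => h.ex _ (hz1 _ (hA.sel1.on i)).1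
  obtain ⟨g2', hm2, -, hc2⟩ := pvsp_tr_gate h hS' 𝔖.g2 fun i => h.ex _ (hz2 _ (hA.sel2.on i)).1
  obtain ⟨hlen, hit, -⟩ := pvsp_tr_strand h hS hS' hm2 hc2 hA.sel2.on hz2
  have hlt : ∀ j, j < 𝔖.g2.len → pvasIt T s 𝔖.g2.aIn j ∈ 𝔖.g2.c.Left := fun j hj => not_not.1 (Nat.notMem_of_lt_sInf hj)
  -- the marks on the inner arc
  have hmk : ∀ i, i < 𝔖.inn.n → mk (𝔖.inn.v i) ∈ 𝔯 .S2 := by
    intro i hi
    obtain ⟨j, h0, hj, h1, h2⟩ := hA.arc
    obtain ⟨a1, a2, -⟩ := h1 i hi.le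
    have hne : j i ≠ 𝔖.g2.len := fun e => by
      have e2 := (h1 𝔖.inn.n le_rfl).2.1
      rw [hj] at e2
      rw [e] at a2
      have := 𝔖.inn.inj i 𝔖.inn.n hi.le le_rfl (a2.trans e2.symm)
      omega
    rw [a2]
    exact (hz2 _ (hlt _ (by omega))).1
  have h0 : ∃ v', R (𝔖.inn.v 0) v' := by
    obtain ⟨j, h0, -⟩ := hA.arc
    rw [h0]
    exact ⟨_, (hc2 0).1⟩
  obtain ⟨inn', hn, hv⟩ := pvsp_tr_pth h ⟨g2'.c.e 0⟩ 𝔖.inn hmk h0
  refine ⟨⟨g1', g2', inn', 𝔖.im, 𝔖.ip⟩, ⟨?_, ?_, ?_, hA.im_lt, by rw [hn]; exact hA.ip_le, ?_, ?_, ?_, ?_, ?_, ?_⟩, hm2, hc2⟩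
  · exact pvsp_tr_sel h hS hS' hP hst (PI := fun x => x ∈ 𝔯 .I1) (PO := fun x => x ∈ 𝔯 .O1) (fun k hk => n2 (n1 hk)) (fun k hk => n2 hk) hm1 hc1 hA.sel1
  · exact pvsp_tr_sel h hS hS' hP hst (PI := fun x => x ∈ 𝔯 .I2) (PO := fun x => x ∈ 𝔯 .O2) (fun k hk => n3 hk) (fun k hk => hk) hm2 hc2 hA.sel2
  · show PvwLE T' (fun i => T'.src (pvasIt T' s' g2'.aIn i)) g2'.len inn'
    rw [hlen]
    exact pvsp_tr_le h (fun i hi => (hit i hi).1) hn hv hA.arc
  · have h1 := hv 𝔖.im (hA.im_lt.le.trans hA.ip_le)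
    rw [hA.im_eq] at h1
    exact h.fn _ _ _ h1 (hc1 0).1
  · have h1 := hv 𝔖.ip hA.ip_le
    rw [hA.ip_eq] at h1
    show inn'.v 𝔖.ip = T'.src (g1'.c.e g1'.m)
    rw [hm1]
    exact h.fn _ _ _ h1 (hc1 _).1
  · intro i hi hin
    rw [hn] at hin
    show mk' (inn'.v i) ∈ _
    rw [h.mark _ _ (hv i hin)]
    exact hA.fit_p i hi hin
  · intro i hi
    show mk' (inn'.v i) ∈ _
    rw [h.mark _ _ (hv i (hi.trans hA.ip_le))]
    exact hA.fit_m i hi
  · show mk' (T'.src (g2'.c.e g2'.m)) ∈ _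
    rw [hm2, h.mark _ _ (hc2 _).1]
    exact hA.vp
  · show mk' (T'.src (g2'.c.e 0)) ∈ _
    rw [h.mark _ _ (hc2 _).1]
    exact hA.vm

/-- one direction of the locality -/
theorem pvsp_tr_pred {𝔯 : PvspReg κ} (hN : 𝔯.Nest) (c : Bool) (k : PvspKind) (h : PvplIso T mk s T' mk' s' (𝔯.K k) R) (hS : T.Simple) (hS' : T'.Simple)
    (hp : PvspPred 𝔯 c k V D T mk s) : PvspPred 𝔯 c k V' D' T' mk' s' := by
  obtain ⟨hst, 𝔖, hA, hs⟩ := hp
  have hc := pvsp_tr_S h c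
  have h2 := hc.mono (pvsp_S2_sub_K 𝔯 k)
  obtain ⟨𝔖', hA', hm, hcc⟩ := pvsp_tr_at hN h2 hS hS' hst hA
  refine ⟨h2.star (fun k hk => hN.2.2.2 hk) hst, 𝔖', hA', ?_⟩
  have hD : Nonempty D' := ⟨𝔖'.g2.c.e 0⟩
  have hvp : ∀ a ∈ ({𝔖.g2.vp} : Set V), ∃ a' ∈ ({𝔖'.g2.vp} : Set V'), R a a' := by
    rintro a rfl
    refine ⟨_, rfl, ?_⟩
    show R (T.src (𝔖.g2.c.e 𝔖.g2.m)) (T'.src (𝔖'.g2.c.e 𝔖'.g2.m))
    rw [hm]
    exact (hcc _).1
  have hvm : ∀ a ∈ ({𝔖.g2.vm} : Set V), ∃ a' ∈ ({𝔖'.g2.vm} : Set V'), R a a' := by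
    rintro a rfl
    exact ⟨_, rfl, (hcc 0).1⟩
  have hfo : ∀ a ∈ ({T.tgt 𝔖.g2.aOut} : Set V), ∃ a' ∈ ({T'.tgt 𝔖'.g2.aOut} : Set V'), R a a' := by
    rintro a rfl
    refine ⟨_, rfl, ?_⟩
    show R (T.tgt (T.opp (𝔖.g2.c.e (𝔖.g2.m - 1)))) (T'.tgt (T'.opp (𝔖'.g2.c.e (𝔖'.g2.m - 1))))
    rw [hm, T.tgt_opp, T'.tgt_opp]
    exact (hcc _).1
  have hfi : ∀ a ∈ ({T.tgt 𝔖.g2.aIn} : Set V), ∃ a' ∈ ({T'.tgt 𝔖'.g2.aIn} : Set V'), R a a' := by
    rintro a rfl
    exact ⟨_, rfl, (hcc 0).2.1⟩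
  cases k
  · trivial
  · exact pvsp_tr_path hc hD subset_union_right hvp hs
  · exact pvsp_tr_path hc hD subset_union_right hfo hs
  · exact pvsp_tr_path hc hD subset_union_right hvm hs
  · exact pvsp_tr_path hc hD subset_union_right hfi hs

/-- **LOCALITY (P4 of LM_7 in the vocabulary of 238)**: the five predicates are read at the vertices with a mark in `𝔯.K k` -/
theorem pvsp_pred_local {𝔯 : PvspReg κ} (h : 𝔯.Nest) (c : Bool) (k : PvspKind) : (PvspPred 𝔯 c k).Local (𝔯.K k) :=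
  fun _ _ _ _ _ _ _ _ _ _ _ hS hS' hi => ⟨pvsp_tr_pred h c k hi hS hS', pvsp_tr_pred h c k hi.symm hS' hS⟩

end transfer2

/-! ## 3. LEVEL B: THE event of a local predicate -/

section ev

variable {κ : Type}

/-- `B` is AN EVENT OF THE PREDICATE `Φ` in the window `E`: measurable, read from the window, and on the mesh event it is `Φ` for EVERY completion -/
structure PvspIsEv (θ : ℂ → κ) (Φ : PvplPred κ) (K : Set κ) (E : Set ℂ) (ρ : ℝ) (B : Set (Conf PvPt)) : Prop where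
  meas : MeasurableSet B
  reads : Conf.ReadsSet (E ×ˢ univ) B
  dict : ∀ (X : Type) (𝔅 : PvBulk X) (η : Conf PvPt) (ξ : X → Bool) (zi : ℂ), (η.pts ∩ E ×ˢ univ).Finite → 𝔅.Ok (cfSites η) (θ ⁻¹' K) → PvtrMesh ρ E (cfSites η) → θ zi ∉ K →
    (η ∈ B ↔ Φ _ _ (𝔅.T (cfSites η)) (fun v => θ (𝔅.posF _ zi v)) (𝔅.col η ξ))

open Classical in
/-- THE event of the predicate `Φ` (`∅` if there is none) -/
noncomputable def pvspEv (θ : ℂ → κ) (Φ : PvplPred κ) (K : Set κ) (E : Set ℂ) (ρ : ℝ) : Set (Conf PvPt) :=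
  if h : ∃ B, PvspIsEv θ Φ K E ρ B then h.choose else ∅

/-- `pvpl_main` of 238 -/
theorem pvsp_ev_spec [Countable κ] [MeasurableSpace κ] [MeasurableSingletonClass κ] {θ : ℂ → κ} (hθ : Measurable θ) {Φ : PvplPred κ} {K : Set κ} (hΦ : Φ.Local K)
    {E : Set ℂ} {ρ : ℝ} (hE : PvplWin E) (hρ : 0 < ρ) (hK : θ ⁻¹' K ⊆ pvtrCore (3 * ρ) E) : PvspIsEv θ Φ K E ρ (pvspEv θ Φ K E ρ) := by
  have hex : ∃ B, PvspIsEv θ Φ K E ρ B := by
    obtain ⟨B, h1, h2, h3⟩ := pvpl_main hθ hΦ hE hρ hK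
    exact ⟨B, h1, h2, h3⟩
  unfold pvspEv
  rw [dif_pos hex]
  exact hex.choose_spec

end ev

/-! ## 4. LEVEL B: numbers, placed geometry of a candidate, the events of a candidate -/

/-- the numbers of road P -/
structure PvspNum where
  /-- inner radii of the THREE FIXED gate annuli (A6 of 281), in units of `h` -/
  a : Fin 3 → ℝ
  /-- outer radii of the three gate annuli, in units of `h` -/
  b : Fin 3 → ℝ
  /-- the mesh, in units of `h` -/
  mu : ℝ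
  /-- the propensity threshold `β` -/
  β : ℝ
  /-- the lower bound `p_*` of the quenched probability of the lane event (M12) -/
  pst : ℝ

/-- **the PLACED GEOMETRY OF A CANDIDATE** `(z, τ)` at the scale `h`: ABSOLUTE subsets of the plane (P1: derived sets of `τ`, placed by `pvmgPl z (dl h)` of 222) -/
structure PvspTy where
  /-- the colour of the rim -/
  col : Bool
  /-- black tubes -/
  Np : Set ℂ
  Nm : Set ℂ
  /-- white lanes (the two parts of the strip `M`) -/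
  Mp : Set ℂ
  Mm : Set ℂ
  /-- THE FOOT (v3, P13): the rooms between the black tube and the white lane;   only their parts in the star zone of `S₂` count (`t.reg`): FROZEN, inside `O` -/
  Tp : Set ℂ
  Tm : Set ℂ
  /-- end doors -/
  Dp : Set ℂ
  Dm : Set ℂ
  /-- windows of `L^+`, `L^-`, `A_κ` -/
  Ep : Set ℂ
  Em : Set ℂ
  EJ : Set ℂ

namespace PvspTy

/-- inner radius of the gate annulus number `k`, in units of `h` -/
def a (_t : PvspTy) (N : PvspNum) (k : Fin 3) : ℝ := N.a k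
/-- outer radius of the gate annulus number `k`, in units of `h` -/
def b (_t : PvspTy) (N : PvspNum) (k : Fin 3) : ℝ := N.b k
/-- radius of the region `O` of the state, in units of `h` -/
def rO (t : PvspTy) (N : PvspNum) : ℝ := 2 * t.b N 1

end PvspTy

/-- the twelve regions of the candidate -/
noncomputable def PvspTy.reg (t : PvspTy) (N : PvspNum) (z : ℂ) (h : ℝ) : PvspReg ℂ
  | .I1 => closedBall z (t.a N 0 * h)
  | .O1 => closedBall z (t.b N 0 * h)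
  | .I2 => closedBall z (t.a N 1 * h)
  | .O2 => closedBall z (t.b N 1 * h)
  | .C1 => closedBall z ((t.b N 0 + 1) * h)
  | .S2 => closedBall z ((t.b N 1 + 1) * h)
  | .Np => t.Np
  | .Nm => t.Nm
  | .Mp => t.Mp ∪ t.Tp ∩ closedBall z ((t.b N 1 + 1) * h)
  | .Mm => t.Mm ∪ t.Tm ∩ closedBall z ((t.b N 1 + 1) * h)
  | .Dp => t.Dp
  | .Dm => t.Dm

theorem pvsp_reg_Mp (t : PvspTy) (N : PvspNum) (z : ℂ) (h : ℝ) : t.reg N z h .Mp = t.Mp ∪ t.Tp ∩ t.reg N z h .S2 := rfl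
theorem pvsp_reg_Mm (t : PvspTy) (N : PvspNum) (z : ℂ) (h : ℝ) : t.reg N z h .Mm = t.Mm ∪ t.Tm ∩ t.reg N z h .S2 := rfl
theorem pvsp_Mp_sub_reg (t : PvspTy) (N : PvspNum) (z : ℂ) (h : ℝ) : t.Mp ⊆ t.reg N z h .Mp := subset_union_left
theorem pvsp_Mm_sub_reg (t : PvspTy) (N : PvspNum) (z : ℂ) (h : ℝ) : t.Mm ⊆ t.reg N z h .Mm := subset_union_left

/-- the reading zones of the white side events are not changed by the rooms `Tp`, `Tm` -/
theorem pvsp_K_pw (t : PvspTy) (N : PvspNum) (z : ℂ) (h : ℝ) : (t.reg N z h).K .pw = t.reg N z h .S2 ∪ t.Mp := by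
  show t.reg N z h .S2 ∪ (t.Mp ∪ t.Tp ∩ t.reg N z h .S2) = _
  ext x
  simp only [mem_union, mem_inter_iff]
  tauto

theorem pvsp_K_mw (t : PvspTy) (N : PvspNum) (z : ℂ) (h : ℝ) : (t.reg N z h).K .mw = t.reg N z h .S2 ∪ t.Mm := by
  show t.reg N z h .S2 ∪ (t.Mm ∪ t.Tm ∩ t.reg N z h .S2) = _
  ext x
  simp only [mem_union, mem_inter_iff]
  tauto

/-- **P2**: the region `z + h O` of the state;   the STATE of `ξ` is `Conf.restr (pvspO N t z h ×ˢ univ) ξ` -/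
noncomputable def pvspO (N : PvspNum) (t : PvspTy) (z : ℂ) (h : ℝ) : Set ℂ := closedBall z (t.rO N * h)

/-- the windows of the five events -/
noncomputable def PvspTy.win (t : PvspTy) (N : PvspNum) (z : ℂ) (h : ℝ) : PvspKind → Set ℂ
  | .has => pvspO N t z h
  | .pb => t.Ep
  | .pw => t.Ep
  | .mb => t.Em
  | .mw => t.Em

/-- the explicit conditions on the placed geometry of a candidate -/
structure PvspTy.Wf (t : PvspTy) (N : PvspNum) (z : ℂ) (h : ℝ) : Prop where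
  h0 : 0 < h
  mu0 : 0 < N.mu
  a_pos : 30 ≤ N.a 0
  /-- room for the POCKETS of the star of a ball (97): the gates of the plane are asked in `[a, b - 2μ]` -/
  ab : ∀ k, N.a k ≤ N.b k - 2 * N.mu
  nest01 : 100 * (N.b 0 + 1) ≤ N.a 1
  nest12 : 100 * (N.b 1 + 1) ≤ N.a 2
  mNp : MeasurableSet t.Np
  mNm : MeasurableSet t.Nm
  mMp : MeasurableSet t.Mp
  mMm : MeasurableSet t.Mm
  mTp : MeasurableSet t.Tp
  mTm : MeasurableSet t.Tm
  mDp : MeasurableSet t.Dp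
  mDm : MeasurableSet t.Dm
  wEp : PvplWin t.Ep
  wEm : PvplWin t.Em
  wEJ : PvplWin t.EJ
  bEp : Bornology.IsBounded t.Ep
  bEm : Bornology.IsBounded t.Em
  bEJ : Bornology.IsBounded t.EJ
  /-- the star zone of `S₂` lies deep in `O` -/
  rO : t.b N 1 + 1 + 3 * N.mu ≤ t.rO N
  /-- the windows of the side events contain `O` -/
  O_p : pvspO N t z h ⊆ t.Ep
  O_m : pvspO N t z h ⊆ t.Em
  /-- tubes and lanes lie deep in their windows -/
  core_p : t.Np ∪ t.Mp ⊆ pvtrCore (3 * (N.mu * h)) t.Ep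
  core_m : t.Nm ∪ t.Mm ⊆ pvtrCore (3 * (N.mu * h)) t.Em
  core_J : t.Mm ∪ t.Mp ⊆ pvtrCore (3 * (N.mu * h)) t.EJ
  /-- (T7) the two tubes meet only near the centre -/
  tubes : t.Np ∩ t.Nm ⊆ closedBall z (t.a N 1 * h)

/-- **the five events of the candidate** (`.has` = Mesh(O) + gates + FIT-IN;  `.pb .pw .mb .mw` = `L^{+,b} L^{+,w} L^{-,b} L^{-,w}`, each WITH the mesh of its window) -/
noncomputable def pvspEvt (N : PvspNum) (t : PvspTy) (z : ℂ) (h : ℝ) (k : PvspKind) : Set (Conf PvPt) :=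
  {η | PvtnFin (t.win N z h k) η ∧ PvtrMesh (N.mu * h) (t.win N z h k) (cfSites η) ∧
    η ∈ pvspEv (pvspTest (t.reg N z h)) (PvspPred pvspRegB t.col k) (pvspRegB.K k) (t.win N z h k) (N.mu * h)}

/-- **P4**: `L^+` -/
noncomputable def pvspLp (N : PvspNum) (t : PvspTy) (z : ℂ) (h : ℝ) : Set (Conf PvPt) := pvspEvt N t z h .pb ∩ pvspEvt N t z h .pw
/-- **P4**: `L^-` -/
noncomputable def pvspLm (N : PvspNum) (t : PvspTy) (z : ℂ) (h : ℝ) : Set (Conf PvPt) := pvspEvt N t z h .mb ∩ pvspEvt N t z h .mw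

/-- **P6**: the strip `J_κ` -/
def pvspJ (t : PvspTy) : Set ℂ := t.Mm ∪ t.Mp

/-- **P6**: `A_κ` = a walk of the other colour through the strip, door to door, in the RETAINED triangles of the window (monotone for ALL configurations) -/
def pvspLane (N : PvspNum) (t : PvspTy) (h : ℝ) : Set (Conf PvPt) :=
  {η | PvtmCross (pvtrSet (N.mu * h) t.EJ η) (!t.col) (pvspJ t) t.Dm t.Dp}

/-- the preparation operator of 263 (`Tr/Prep.lean`) as a finite weight operator of 273 (`Tr/RoadP.lean`) -/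
noncomputable def pvspKer (S : Set ℂ) (b : Bool) (𝒜 : Set (Conf PvPt)) : PvrpK (Conf PvPt) (Finset ℂ) where
  I ξ := (cfStrip S ξ).powerset
  mv ξ B := cfPaint S b B ξ
  wt ξ B := pvpWt S b 𝒜 ξ B
  wt0 ξ B := pvpWt_nonneg S b 𝒜 ξ B
  wt1 ξ := pvpWt_sum S b 𝒜 ξ

/-- **P6**: `K_κ` (= field `K` of `PvrpIn`) -/
noncomputable def pvspK (N : PvspNum) (t : PvspTy) (h : ℝ) : PvrpK (Conf PvPt) (Finset ℂ) := pvspKer (pvspJ t) (!t.col) (pvspLane N t h)

/-- the geometries with `P^η(A_κ) ≥ p_*`: not F3 (= field `Hg` of `PvrpIn`) -/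
noncomputable def pvspHg (N : PvspNum) (t : PvspTy) (h : ℝ) : Set (Conf PvPt) := {ξ | N.pst ≤ pvpQ (pvspJ t) (!t.col) (pvspLane N t h) ξ}

/-- `ν(𝒜 | σ)`, `σ = ξ|O`: honest product integral over the splice -/
noncomputable def pvspProp (ε : ℝ) (O : Set ℂ) (𝒜 : Set (Conf PvPt)) (ξ : Conf PvPt) : ℝ≥0∞ := pvP ε {η | Conf.spl (O ×ˢ univ) (ξ, η) ∈ 𝒜}

/-- **REGULAR STATES** (272): almost every completion of the state by an independent copy outside `O` is in general position.      Read from `O`, blind to all colours, of full measure.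
NOT a clause of `G_τ` (95: the engine asks the forcing for a.e. state only;  272: `pvpgFix` of 34). -/
def pvspRg (ε : ℝ) (O : Set ℂ) : Set (Conf PvPt) := {ξ | ∀ᵐ η ∂(pvP ε), DelGood (cfSites (Conf.spl (O ×ˢ univ) (ξ, η)))}

/-- **P5: THE USABLE STATES `G_τ`** -/
noncomputable def pvspG (N : PvspNum) (ε : ℝ) (t : PvspTy) (z : ℂ) (h : ℝ) : Set (Conf PvPt) :=
  {ξ | ξ ∈ pvspEvt N t z h .has ∧ ENNReal.ofReal N.β ≤ pvspProp ε (pvspO N t z h) (pvspLp N t z h) ξ ∧ ENNReal.ofReal N.β ≤ pvspProp ε (pvspO N t z h) (pvspLm N t z h) ξ}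

/-- **P5 (D2 of 131): THE QUENCHED EVENT `Hq_τ`**: the colours of the lane outside `O` are resampled at fixed geometry (`pvpQ` of 263);   `QB` = QBX-good geometry -/
noncomputable def pvspHq (N : PvspNum) (QB : Set (Conf PvPt)) (t : PvspTy) (z : ℂ) (h : ℝ) : Set (Conf PvPt) :=
  {ξ | N.β ≤ pvpQ (t.Mp \ pvspO N t z h) (!t.col) (pvspEvt N t z h .pw) ξ ∧ N.β ≤ pvpQ (t.Mm \ pvspO N t z h) (!t.col) (pvspEvt N t z h .mw) ξ ∧ ξ ∈ QB}

/-- **P5**: `Gq_τ = G_τ ∩ Hq_τ` (= field `G` of `PvrpIn`) -/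
noncomputable def pvspGq (N : PvspNum) (QB : Set (Conf PvPt)) (ε : ℝ) (t : PvspTy) (z : ℂ) (h : ℝ) : Set (Conf PvPt) := pvspG N ε t z h ∩ pvspHq N QB t z h

theorem pvsp_eqns_cite2 : True := by
  have := @pvspEv.eq_1; have := @PvspTy.a.eq_1; have := @PvspTy.b.eq_1; have := @PvspTy.rO.eq_1; have := @PvspTy.reg.eq_1; have := @pvspO.eq_1
  have := @PvspTy.win.eq_1; have := @pvspEvt.eq_1; have := @pvspLp.eq_1; have := @pvspLm.eq_1; have := @pvspJ.eq_1; have := @pvspLane.eq_1; have := @pvspProp.eq_1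
  have := @pvspRg.eq_1; have := @pvspG.eq_1; have := @pvspHq.eq_1; have := @pvspGq.eq_1; have := @pvspKer.eq_1; have := @pvspK.eq_1; have := @pvspHg.eq_1
  trivial

/-! ## 5. LEVEL C: the model, QUALIFIED PINS -/

/-- **the model of road P** over a finite menu `τ` -/
structure PvspMod (τ : Type) where
  N : PvspNum
  /-- the placed geometry of the candidate `(z, t)` at the scale `h`:   `ty h z t` -/
  ty : ℝ → ℂ → τ → PvspTy
  /-- QBX-good geometry near the candidate: `QB h z` (blind to all colours) -/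
  QB : ℝ → ℂ → Set (Conf PvPt)
  /-- EXACT FIT (M6) + (NR₀) + (NR₁) in `B(z, 8 b₃ h)` + `P` leaves `B(z, 8 b₃ h)`:   `Fit h P k z t` -/
  Fit : ℝ → PvbRim → ℕ → ℂ → τ → Prop

namespace PvspMod

variable {τ : Type} (𝔐 : PvspMod τ)

/-- field `G` of `PvrpIn` at the scale `h` -/
noncomputable def G (ε h : ℝ) (z : ℂ) (t : τ) : Set (Conf PvPt) := pvspGq 𝔐.N (𝔐.QB h z) ε (𝔐.ty h z t) z h
/-- field `K` of `PvrpIn` at the scale `h` -/
noncomputable def K (h : ℝ) (z : ℂ) (t : τ) : PvrpK (Conf PvPt) (Finset ℂ) := pvspK 𝔐.N (𝔐.ty h z t) h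
/-- field `Hg` of `PvrpIn` at the scale `h` -/
noncomputable def Hg (h : ℝ) (z : ℂ) (t : τ) : Set (Conf PvPt) := pvspHg 𝔐.N (𝔐.ty h z t) h

end PvspMod

/-- **P7: QUALIFIED PIN** of the encoded rim `P` (a reaching rim of SOME completion of the sample `ω` for the ball `B(x,R)`) -/
structure PvspQual {τ : Type} (𝔐 : PvspMod τ) (ε h : ℝ) (x : ℂ) (R : ℝ) (ω : PVSample) (P : PvbRim) (s : PvbPin τ) : Prop where
  /-- general position -/
  ok : DelgpOk ω
  idx_lt : s.idx < P.len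
  near : ‖P.v s.idx - s.ctr‖ ≤ h
  /-- the colour of the rim is the colour of the type -/
  col : cfCol (pvConf ω) (P.v s.idx) = (𝔐.ty h s.ctr s.typ).col
  /-- P9 (A6): two-site gates of the Delaunay PLANE in the three fixed annuli (family-free form of 212, `Tr/DiA.lean`: no completion inside the definition) -/
  gates : ∀ k : Fin 3, PvdaGate (cfSites (pvConf ω)) (cfCol (pvConf ω)) (𝔐.ty h s.ctr s.typ).col s.ctr (𝔐.N.a k * h) ((𝔐.N.b k - 2 * 𝔐.N.mu) * h)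
  /-- P8: the ordered passages, read on the encoded rim -/
  pass : ∃ lo hi : Fin 3 → ℕ, PvdaPass P s.ctr (𝔐.N.mu * h) s.idx (fun k => 𝔐.N.a k * h) (fun k => 𝔐.N.b k * h) lo hi
  fit : 𝔐.Fit h P s.idx s.ctr s.typ
  /-- not F3 -/
  hg : pvConf ω ∈ 𝔐.Hg h s.ctr s.typ
  /-- `γ_τ(ω) ≥ 1/2` -/
  gam : 1 / 2 ≤ (𝔐.K h s.ctr s.typ).gam (𝔐.G ε h s.ctr s.typ) (pvConf ω)

/-- the qualified pins of an encoded rim (field `pins` of `PvrpIn`: `fun m ε ω P => pvspPins 𝔐 ε (N.h m) x R ω P`) -/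
def pvspPins {τ : Type} (𝔐 : PvspMod τ) (ε h : ℝ) (x : ℂ) (R : ℝ) (ω : PVSample) (P : PvbRim) : Set (PvbPin τ) := {s | PvspQual 𝔐 ε h x R ω P s}

theorem pvsp_eqns_cite3 : True := by
  have := @pvspPins.eq_1; have := @PvspMod.G.eq_1; have := @PvspMod.K.eq_1; have := @PvspMod.Hg.eq_1
  trivial

/-- **field `pin_U` of `PvrpIn`**, for ANY measurable version `U` which is exact on the samples in general position -/
theorem pvsp_pin_U {τ : Type} (𝔐 : PvspMod τ) {ε h : ℝ} {x : ℂ} {R : ℝ} {ω : PVSample} {P : PvbRim} {s : PvbPin τ} (hs : s ∈ pvspPins 𝔐 ε h x R ω P) {U : Set PVSample}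
    (hU : ∀ o, DelgpOk o → (o ∈ U ↔ pvConf o ∈ 𝔐.Hg h s.ctr s.typ ∧ 1 / 2 ≤ (𝔐.K h s.ctr s.typ).gam (𝔐.G ε h s.ctr s.typ) (pvConf o))) : ω ∈ U :=
  (hU ω hs.ok).2 ⟨hs.hg, hs.gam⟩

/-! ## 6. measurability, reading, dictionary -/

section sec6

variable {N : PvspNum} {t : PvspTy} {z : ℂ} {h : ℝ}

/-- the tests are Borel -/
theorem pvsp_test_meas {𝔯 : PvspReg ℂ} (hr : ∀ i, MeasurableSet (𝔯 i)) : Measurable (pvspTest 𝔯) := by
  refine measurable_pi_iff.2 fun i => measurable_to_bool ?_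
  have : (fun w => pvspTest 𝔯 w i) ⁻¹' {true} = 𝔯 i := by
    ext w
    simp [pvspTest]
  rw [this]
  exact hr i

theorem PvspTy.Wf.reg_meas (hW : t.Wf N z h) (i : PvspIx) : MeasurableSet (t.reg N z h i) := by
  cases i
  case Np => exact hW.mNp
  case Nm => exact hW.mNm
  case Mp => exact hW.mMp.union (hW.mTp.inter measurableSet_closedBall)
  case Mm => exact hW.mMm.union (hW.mTm.inter measurableSet_closedBall)
  case Dp => exact hW.mDp
  case Dm => exact hW.mDm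
  all_goals exact measurableSet_closedBall

theorem PvspTy.Wf.rho0 (hW : t.Wf N z h) : 0 < N.mu * h := mul_pos hW.mu0 hW.h0

theorem PvspTy.Wf.ab' (hW : t.Wf N z h) (k : Fin 3) : N.a k ≤ N.b k := by
  have := hW.ab k
  have := hW.mu0
  linarith

theorem PvspTy.Wf.win_win (hW : t.Wf N z h) (k : PvspKind) : PvplWin (t.win N z h k) := by
  cases k
  case has => exact pvpl_win_ball _ _
  case pb => exact hW.wEp
  case pw => exact hW.wEp
  case mb => exact hW.wEm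
  case mw => exact hW.wEm

theorem PvspTy.Wf.win_bdd (hW : t.Wf N z h) (k : PvspKind) : Bornology.IsBounded (t.win N z h k) := by
  cases k
  case has => exact isBounded_closedBall
  case pb => exact hW.bEp
  case pw => exact hW.bEp
  case mb => exact hW.bEm
  case mw => exact hW.bEm

/-- `O` is contained in all the windows -/
theorem PvspTy.Wf.O_sub_win (hW : t.Wf N z h) (k : PvspKind) : pvspO N t z h ⊆ t.win N z h k := by
  cases k
  case has => exact Subset.rfl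
  case pb => exact hW.O_p
  case pw => exact hW.O_p
  case mb => exact hW.O_m
  case mw => exact hW.O_m

/-- the regions of a candidate are nested -/
theorem PvspTy.Wf.nest (hW : t.Wf N z h) : (t.reg N z h).Nest := by
  have hh := hW.h0.le
  have h0 := hW.a_pos
  have h1 := hW.ab 0
  have h2 := hW.ab 1
  have h3 := hW.nest01
  have h4 := hW.mu0
  exact ⟨closedBall_subset_closedBall (mul_le_mul_of_nonneg_right (show N.a 0 ≤ N.b 0 by linarith) hh),
    closedBall_subset_closedBall (mul_le_mul_of_nonneg_right (show N.b 0 ≤ N.b 1 by linarith) hh),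
    closedBall_subset_closedBall (mul_le_mul_of_nonneg_right (show N.a 1 ≤ N.b 1 by linarith) hh),
    closedBall_subset_closedBall (mul_le_mul_of_nonneg_right (by linarith) hh)⟩

/-- the star zone lies deep in `O` -/
theorem PvspTy.Wf.S2_core (hW : t.Wf N z h) : t.reg N z h .S2 ⊆ pvtrCore (3 * (N.mu * h)) (pvspO N t z h) := by
  intro w hw y hy
  have h1 : dist w z ≤ (t.b N 1 + 1) * h := hw
  have h2 : dist y w ≤ 3 * (N.mu * h) := hy
  show dist y z ≤ t.rO N * h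
  have h3 := mul_le_mul_of_nonneg_right hW.rO hW.h0.le
  calc dist y z ≤ dist y w + dist w z := dist_triangle _ _ _
    _ ≤ 3 * (N.mu * h) + (t.b N 1 + 1) * h := add_le_add h2 h1
    _ = (t.b N 1 + 1 + 3 * N.mu) * h := by ring
    _ ≤ t.rO N * h := h3

/-- the reading zone lies deep in the window -/
theorem PvspTy.Wf.K_core (hW : t.Wf N z h) (k : PvspKind) : (t.reg N z h).K k ⊆ pvtrCore (3 * (N.mu * h)) (t.win N z h k) := by
  have hS : t.reg N z h .S2 ⊆ pvtrCore (3 * (N.mu * h)) (t.win N z h k) := hW.S2_core.trans (pvtr_core_mono (hW.O_sub_win k))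
  cases k
  case has => exact hS
  case pb => exact union_subset hS (subset_union_left.trans hW.core_p)
  case pw => exact union_subset hS (union_subset (subset_union_right.trans hW.core_p) (inter_subset_right.trans hS))
  case mb => exact union_subset hS (subset_union_left.trans hW.core_m)
  case mw => exact union_subset hS (union_subset (subset_union_right.trans hW.core_m) (inter_subset_right.trans hS))

/-- the event of the predicate number `k` -/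
theorem PvspTy.Wf.isEv (hW : t.Wf N z h) (k : PvspKind) :
    PvspIsEv (pvspTest (t.reg N z h)) (PvspPred pvspRegB t.col k) (pvspRegB.K k) (t.win N z h k) (N.mu * h)
      (pvspEv (pvspTest (t.reg N z h)) (PvspPred pvspRegB t.col k) (pvspRegB.K k) (t.win N z h k) (N.mu * h)) :=
  pvsp_ev_spec (pvsp_test_meas hW.reg_meas) (pvsp_pred_local pvsp_regB_nest t.col k) (hW.win_win k) hW.rho0 (by rw [pvsp_K_test]; exact hW.K_core k)

/-- mesh + finiteness of a bounded Borel window: a measurable event read from the window -/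
theorem pvsp_mesh_meas {E : Set ℂ} (hE : MeasurableSet E) (hb : Bornology.IsBounded E) (ρ : ℝ) : MeasurableSet {η : Conf PvPt | PvtnFin E η ∧ PvtrMesh ρ E (cfSites η)} := by
  have h1 := pvtn_local_meas hE hb (C := {η : Conf PvPt | PvtrMesh ρ E (cfSites η)}) (pvtm_cf_mesh ρ E)
    (Conf.readsSet_iff_reads.2 (pvtr_reads_mesh ρ E))
  have e : {η : Conf PvPt | PvtnFin E η ∧ PvtrMesh ρ E (cfSites η)} = {η : Conf PvPt | PvtrMesh ρ E (cfSites η)} ∩ {η | PvtnFin E η} := by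
    ext η
    exact and_comm
  rw [e]
  exact h1

/-- **the five events are MEASURABLE** (on `Conf PvPt`) -/
theorem pvsp_evt_meas (hW : t.Wf N z h) (k : PvspKind) : MeasurableSet (pvspEvt N t z h k) := by
  have e : pvspEvt N t z h k = {η : Conf PvPt | PvtnFin (t.win N z h k) η ∧ PvtrMesh (N.mu * h) (t.win N z h k) (cfSites η)} ∩
      pvspEv (pvspTest (t.reg N z h)) (PvspPred pvspRegB t.col k) (pvspRegB.K k) (t.win N z h k) (N.mu * h) := by
    ext η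
    exact ⟨fun h => ⟨⟨h.1, h.2.1⟩, h.2.2⟩, fun h => ⟨h.1.1, h.1.2, h.2⟩⟩
  rw [e]
  exact (pvsp_mesh_meas (hW.win_win k).1 (hW.win_bdd k) _).inter (hW.isEv k).meas

/-- **the five events are READ FROM THEIR WINDOWS** (literally) -/
theorem pvsp_evt_reads (hW : t.Wf N z h) (k : PvspKind) : Conf.ReadsSet (t.win N z h k ×ˢ univ) (pvspEvt N t z h k) := by
  intro η
  have h1 := pvtn_reads_fin (t.win N z h k) η
  have h2 : PvtrMesh (N.mu * h) (t.win N z h k) (cfSites (Conf.restr (t.win N z h k ×ˢ univ) η)) = PvtrMesh (N.mu * h) (t.win N z h k) (cfSites η) :=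
    pvtr_reads_mesh (N.mu * h) (t.win N z h k) η
  have h3 := (hW.isEv k).reads η
  show (PvtnFin _ _ ∧ PvtrMesh _ _ _ ∧ _ ∈ _) ↔ (PvtnFin _ _ ∧ PvtrMesh _ _ _ ∧ _ ∈ _)
  rw [h2, h3]
  exact and_congr h1 Iff.rfl

/-- **DICTIONARY**: for EVERY completion which agrees with Delaunay on the reading zone, the event is the predicate IN POSITIONS -/
theorem pvsp_evt_dict (hW : t.Wf N z h) (k : PvspKind) {X : Type} (𝔅 : PvBulk X) (η : Conf PvPt) (ξ : X → Bool) {zi : ℂ} (hok : 𝔅.Ok (cfSites η) ((t.reg N z h).K k))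
    (hzi : zi ∉ (t.reg N z h).K k) :
    η ∈ pvspEvt N t z h k ↔ PvtnFin (t.win N z h k) η ∧ PvtrMesh (N.mu * h) (t.win N z h k) (cfSites η) ∧
      PvspPred (t.reg N z h) t.col k _ _ (𝔅.T (cfSites η)) (𝔅.posF _ zi) (𝔅.col η ξ) := by
  refine and_congr_right fun hf => and_congr_right fun hm => ?_
  have hd := (hW.isEv k).dict X 𝔅 η ξ zi hf (by rw [pvsp_K_test]; exact hok) hm (by
    intro hc
    have : zi ∈ pvspTest (t.reg N z h) ⁻¹' (pvspRegB.K k) := hc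
    rw [pvsp_K_test] at this
    exact hzi this)
  rw [hd]
  exact pvsp_pred_test hW.nest t.col k _ _ _

/-- a point outside the reading zone -/
theorem PvspTy.Wf.exists_far (hW : t.Wf N z h) (k : PvspKind) : ∃ zi : ℂ, zi ∉ (t.reg N z h).K k := by
  have hb : Bornology.IsBounded ((t.reg N z h).K k) :=
    (hW.win_bdd k).subset ((hW.K_core k).trans (pvtr_core_subset (by have := hW.rho0; positivity)))
  by_contra hcon
  have hu : (t.reg N z h).K k = univ := eq_univ_of_forall fun w => by_contra fun hw => hcon ⟨w, hw⟩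
  rw [hu] at hb
  exact (NormedSpace.unbounded_univ ℝ ℂ) hb

/-- **DICTIONARY IN THE DELAUNAY PLANE** -/
theorem pvsp_evt_plane (hW : t.Wf N z h) (k : PvspKind) {η : Conf PvPt} (hη : DelGood (cfSites η)) :
    η ∈ pvspEvt N t z h k ↔ PvtnFin (t.win N z h k) η ∧ PvtrMesh (N.mu * h) (t.win N z h k) (cfSites η) ∧
      PvspPred (t.reg N z h) t.col k _ _ (delbPlane.T (cfSites η)) (delbPlane.pos (cfSites η)) (delbPlane.col η Empty.elim) := by
  obtain ⟨zi, hzi⟩ := hW.exists_far k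
  have h1 := pvsp_evt_dict hW k delbPlane η Empty.elim (delb_ok_mono (subset_univ _) (delb_plane_ok hη)) hzi
  have e : delbPlane.posF (cfSites η) zi = delbPlane.pos (cfSites η) := rfl
  rw [e] at h1
  exact h1

/-- the windows grow: mesh and finiteness go down to `O` -/
theorem pvsp_mesh_mono {E E' : Set ℂ} (hE : E ⊆ E') {ρ : ℝ} {η : Conf PvPt} (h1 : PvtnFin E' η) (h2 : PvtrMesh ρ E' (cfSites η)) : PvtnFin E η ∧ PvtrMesh ρ E (cfSites η) :=
  ⟨h1.subset (inter_subset_inter_right _ (prod_mono hE Subset.rfl)), VorDense.mono h2 Subset.rfl (pvtr_core_mono hE) le_rfl⟩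

/-- every side event is contained in the state event (in general position) -/
theorem pvsp_evt_sub_has (hW : t.Wf N z h) (k : PvspKind) {η : Conf PvPt} (hη : DelGood (cfSites η)) (he : η ∈ pvspEvt N t z h k) : η ∈ pvspEvt N t z h .has := by
  obtain ⟨h1, h2, h3⟩ := (pvsp_evt_plane hW k hη).1 he
  obtain ⟨h4, h5⟩ := pvsp_mesh_mono (hW.O_sub_win k) h1 h2
  exact (pvsp_evt_plane hW .has hη).2 ⟨h4, h5, h3.has⟩

end sec6

section lane

variable {N : PvspNum} {t : PvspTy} {z : ℂ} {h : ℝ}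

theorem pvsp_exists_pt {η η' : Conf PvPt} (hs : cfSites η' = cfSites η) {r : PvPt} (hr : r ∈ η.pts) : ∃ r' ∈ η'.pts, r'.1 = r.1 := by
  have : r.1 ∈ cfSites η' := by rw [hs]; exact ⟨r, hr, rfl⟩
  obtain ⟨r', hr', e⟩ := this
  exact ⟨r', hr', e⟩

/-- adjacency in the retained triangles: only the colours of the two ends matter -/
theorem pvsp_adj_sites {ρ : ℝ} {E : Set ℂ} {η η' : Conf PvPt} (hs : cfSites η' = cfSites η) {p q : PvPt} (hp : p ∈ η'.pts) (hq : q ∈ η'.pts)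
    (hpq : PvtmAdj (pvtrSet ρ E η) p q) : PvtmAdj (pvtrSet ρ E η') p q := by
  obtain ⟨r, ⟨-, -, h3, h4⟩ | ⟨-, -, h3, h4⟩⟩ := hpq
  · obtain ⟨r', hr', e⟩ := pvsp_exists_pt hs h3
    exact ⟨r', Or.inl ⟨hp, hq, hr', by rw [hs]; show PvRet ρ E (cfSites η) p.1 q.1 r'.1; rw [e]; exact h4⟩⟩
  · obtain ⟨r', hr', e⟩ := pvsp_exists_pt hs h3
    exact ⟨r', Or.inr ⟨hq, hp, hr', by rw [hs]; show PvRet ρ E (cfSites η) q.1 p.1 r'.1; rw [e]; exact h4⟩⟩

/-- vertices of the retained triangles: only the colour of the vertex matters -/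
theorem pvsp_V_sites {ρ : ℝ} {E : Set ℂ} {η η' : Conf PvPt} (hs : cfSites η' = cfSites η) {p : PvPt} (hp : p ∈ η'.pts)
    (hV : p ∈ pvtmV (pvtrSet ρ E η)) : p ∈ pvtmV (pvtrSet ρ E η') := by
  obtain ⟨q, r, ⟨-, h2, h3, h4⟩ | ⟨h2, -, h3, h4⟩ | ⟨h2, h3, -, h4⟩⟩ := hV
  · obtain ⟨q', hq', e⟩ := pvsp_exists_pt hs h2
    obtain ⟨r', hr', e'⟩ := pvsp_exists_pt hs h3
    exact ⟨q', r', Or.inl ⟨hp, hq', hr', by rw [hs]; show PvRet ρ E (cfSites η) p.1 q'.1 r'.1; rw [e, e']; exact h4⟩⟩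
  · obtain ⟨q', hq', e⟩ := pvsp_exists_pt hs h2
    obtain ⟨r', hr', e'⟩ := pvsp_exists_pt hs h3
    exact ⟨q', r', Or.inr (Or.inl ⟨hq', hp, hr', by rw [hs]; show PvRet ρ E (cfSites η) q'.1 p.1 r'.1; rw [e, e']; exact h4⟩)⟩
  · obtain ⟨q', hq', e⟩ := pvsp_exists_pt hs h2
    obtain ⟨r', hr', e'⟩ := pvsp_exists_pt hs h3
    exact ⟨q', r', Or.inr (Or.inr ⟨hq', hr', hp, by rw [hs]; show PvRet ρ E (cfSites η) q'.1 r'.1 p.1; rw [e, e']; exact h4⟩)⟩

theorem pvsp_V_pts {ρ : ℝ} {E : Set ℂ} {η : Conf PvPt} {p : PvPt} (hV : p ∈ pvtmV (pvtrSet ρ E η)) : p ∈ η.pts := by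
  obtain ⟨q, r, h | h | h⟩ := hV
  · exact h.1
  · exact h.2.1
  · exact h.2.2.1

/-- a retained crossing of colour `b` inside the strip is INCREASING in the set of the sites of the strip of colour `b`: for ALL configurations -/
theorem pvsp_cross_inc (ρ : ℝ) (E S A B : Set ℂ) (b : Bool) : PvpInc S b {η | PvtmCross (pvtrSet ρ E η) b S A B} := by
  intro ξ C C' hCC hξ
  obtain ⟨l, ⟨hc, hl⟩, hA, hB⟩ := hξ
  have hs : cfSites (cfPaint S b C' ξ) = cfSites (cfPaint S b C ξ) := by rw [cfPaint_sites, cfPaint_sites]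
  have hmem : ∀ p ∈ l, p ∈ (cfPaint S b C' ξ).pts := by
    intro p hp
    obtain ⟨h1, h2, h3⟩ := hl p hp
    have h4 : p ∈ (cfPaint S b C ξ).pts := pvsp_V_pts h1
    rcases h4 with ⟨-, h5⟩ | ⟨h5, -, h7⟩
    · exact absurd h3 h5
    · refine Or.inr ⟨h5, h3, ?_⟩
      have h8 : p.1 ∈ C := by
        by_contra hn
        rw [if_neg hn, h2] at h7
        cases b <;> simp at h7
      rw [if_pos (hCC h8)]
      exact h2
  exact ⟨l, ⟨hc.imp_of_mem_imp fun p q hp hq hpq => pvsp_adj_sites hs (hmem p hp) (hmem q hq) hpq,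
    fun p hp => ⟨pvsp_V_sites hs (hmem p hp) (hl p hp).1, (hl p hp).2⟩⟩, hA, hB⟩

/-- **`A_κ` is increasing** (hypothesis `PvpInc` of 263) -/
theorem pvsp_lane_inc (N : PvspNum) (t : PvspTy) (h : ℝ) : PvpInc (pvspJ t) (!t.col) (pvspLane N t h) :=
  pvsp_cross_inc _ _ _ _ _ _

/-- **`A_κ` is read from its window** -/
theorem pvsp_lane_reads (N : PvspNum) (t : PvspTy) (h : ℝ) : Conf.ReadsSet (t.EJ ×ˢ univ) (pvspLane N t h) :=
  Conf.readsSet_iff_reads.2 (pvtm_reads_cross _ _ _ _ _ _)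

/-- **`A_κ` is measurable on the sample space** -/
theorem pvsp_lane_meas (hW : t.Wf N z h) : MeasurableSet (pvConf ⁻¹' pvspLane N t h) :=
  pvtm_meas_cross (pvtm_ms_set hW.wEJ.2 _) _ (hW.mMm.union hW.mMp) hW.mDm hW.mDp

/-- `A_κ` with the finiteness of the window: measurable on `Conf PvPt` -/
theorem pvsp_lane_meas_cf (hW : t.Wf N z h) : MeasurableSet (pvspLane N t h ∩ {η | PvtnFin t.EJ η}) :=
  pvtn_local_meas hW.wEJ.1 hW.bEJ (pvtm_cf_cross hW.wEJ.2 _ _ (hW.mMm.union hW.mMp) hW.mDm hW.mDp) (pvsp_lane_reads N t h)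

theorem pvsp_J_meas (hW : t.Wf N z h) : MeasurableSet (pvspJ t) := hW.mMm.union hW.mMp

theorem pvsp_J_bdd (hW : t.Wf N z h) : Bornology.IsBounded (pvspJ t) :=
  hW.bEJ.subset (hW.core_J.trans (pvtr_core_subset (by have := mul_pos hW.mu0 hW.h0; positivity)))

end lane

section prop

variable {N : PvspNum} {t : PvspTy} {z : ℂ} {h ε : ℝ}

/-- the propensity is a function of the state -/
theorem pvsp_prop_reads (ε : ℝ) (O : Set ℂ) (𝒜 : Set (Conf PvPt)) : Conf.Reads (O ×ˢ univ) (pvspProp ε O 𝒜) := fun ξ => by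
  unfold pvspProp
  simp only [Conf.spl_restr]

/-- the propensity is measurable -/
theorem pvsp_prop_meas (ε : ℝ) {O : Set ℂ} (hO : MeasurableSet O) {𝒜 : Set (Conf PvPt)} (hA : MeasurableSet 𝒜) : Measurable (pvspProp ε O 𝒜) := by
  have := (pv_isPpp ε).prob
  have hS : MeasurableSet (Conf.spl (O ×ˢ (univ : Set Bool)) ⁻¹' 𝒜) := Conf.measurable_spl (hO.prod MeasurableSet.univ) hA
  exact measurable_measure_prodMk_left hS

theorem pvsp_prop_le_one (ε : ℝ) (O : Set ℂ) (𝒜 : Set (Conf PvPt)) (ξ : Conf PvPt) : pvspProp ε O 𝒜 ξ ≤ 1 := by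
  have := (pv_isPpp ε).prob
  exact prob_le_one

theorem pvsp_prop_mono (ε : ℝ) (O : Set ℂ) {𝒜 ℬ : Set (Conf PvPt)} (hAB : 𝒜 ⊆ ℬ) (ξ : Conf PvPt) : pvspProp ε O 𝒜 ξ ≤ pvspProp ε O ℬ ξ :=
  measure_mono fun _ hη => hAB hη

/-- **"given the state" is an honest product integral**: `∫_A ν(𝒜 | σ) dν = ν(A ∩ 𝒜)` for every event `A` of the state -/
theorem pvsp_prop_lintegral (ε : ℝ) {O : Set ℂ} (hO : MeasurableSet O) {𝒜 A : Set (Conf PvPt)} (hA : MeasurableSet 𝒜) (hAm : MeasurableSet A)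
    (hAr : Conf.ReadsSet (O ×ˢ univ) A) : ∫⁻ ξ in A, pvspProp ε O 𝒜 ξ ∂(pvP ε) = pvP ε (A ∩ 𝒜) := by
  have := (pv_isPpp ε).prob
  have hOO : MeasurableSet (O ×ˢ (univ : Set Bool)) := hO.prod MeasurableSet.univ
  have hspl := Conf.measurable_spl hOO
  have e : ((pvP ε).prod (pvP ε)).map (Conf.spl (O ×ˢ univ)) = pvP ε := (pv_isPpp ε).splice hOO
  have h1 : pvP ε (A ∩ 𝒜) = ((pvP ε).prod (pvP ε)) (Conf.spl (O ×ˢ univ) ⁻¹' (A ∩ 𝒜)) := by
    conv_lhs => rw [← e]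
    rw [Measure.map_apply hspl (hAm.inter hA)]
  rw [h1, Measure.prod_apply (hspl (hAm.inter hA)), ← lintegral_indicator hAm]
  refine lintegral_congr fun ξ => ?_
  by_cases hξ : ξ ∈ A
  · rw [indicator_of_mem hξ]
    unfold pvspProp
    congr 1
    ext η
    have : Conf.spl (O ×ˢ univ) (ξ, η) ∈ A := by
      rw [← hAr, Conf.restr_spl, hAr]
      exact hξ
    exact ⟨fun h => ⟨this, h⟩, fun h => h.2⟩
  · rw [indicator_of_notMem hξ]
    symm
    have : Prod.mk ξ ⁻¹' (Conf.spl (O ×ˢ univ) ⁻¹' (A ∩ 𝒜)) = ∅ := by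
      ext η
      simp only [mem_preimage, mem_inter_iff, mem_empty_iff_false, iff_false, not_and]
      intro hc
      exfalso
      apply hξ
      rw [← hAr, Conf.restr_spl, hAr] at hc
      exact hc
    rw [this, measure_empty]

end prop

section G

variable {N : PvspNum} {t : PvspTy} {z : ℂ} {h ε : ℝ}

theorem pvsp_Lp_meas (hW : t.Wf N z h) : MeasurableSet (pvspLp N t z h) := (pvsp_evt_meas hW .pb).inter (pvsp_evt_meas hW .pw)
theorem pvsp_Lm_meas (hW : t.Wf N z h) : MeasurableSet (pvspLm N t z h) := (pvsp_evt_meas hW .mb).inter (pvsp_evt_meas hW .mw)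
theorem pvsp_Lp_reads (hW : t.Wf N z h) : Conf.ReadsSet (t.Ep ×ˢ univ) (pvspLp N t z h) := (pvsp_evt_reads hW .pb).inter (pvsp_evt_reads hW .pw)
theorem pvsp_Lm_reads (hW : t.Wf N z h) : Conf.ReadsSet (t.Em ×ˢ univ) (pvspLm N t z h) := (pvsp_evt_reads hW .mb).inter (pvsp_evt_reads hW .mw)

/-- the sites of a splice -/
theorem pvsp_sites_spl (O : Set ℂ) (ξ η : Conf PvPt) : cfSites (Conf.spl (O ×ˢ univ) (ξ, η)) = cfSites ξ ∩ O ∪ cfSites η \ O := by
  ext w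
  constructor
  · rintro ⟨p, hp, rfl⟩
    rcases hp with ⟨h1, h2⟩ | ⟨h1, h2⟩
    · exact Or.inl ⟨⟨p, h1, rfl⟩, h2.1⟩
    · exact Or.inr ⟨⟨p, h1, rfl⟩, fun hc => h2 ⟨hc, mem_univ _⟩⟩
  · rintro (⟨⟨p, hp, rfl⟩, h2⟩ | ⟨⟨p, hp, rfl⟩, h2⟩)
    · exact ⟨p, Or.inl ⟨hp, h2, mem_univ _⟩, rfl⟩
    · exact ⟨p, Or.inr ⟨hp, fun hc => h2 hc.1⟩, rfl⟩

/-- regularity depends on the sites of the state only -/
theorem pvsp_Rg_congr (ε : ℝ) {O : Set ℂ} {ξ ξ' : Conf PvPt} (h : cfSites ξ' ∩ O = cfSites ξ ∩ O) : ξ' ∈ pvspRg ε O ↔ ξ ∈ pvspRg ε O := by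
  unfold pvspRg
  simp only [mem_ofPred_eq, pvsp_sites_spl, h]

/-- regularity is read from `O` -/
theorem pvsp_Rg_reads (ε : ℝ) (O : Set ℂ) : Conf.ReadsSet (O ×ˢ univ) (pvspRg ε O) := fun ξ => by
  unfold pvspRg
  simp only [mem_ofPred_eq, Conf.spl_restr]

/-- regularity is blind to all colours -/
theorem pvsp_Rg_blind (ε : ℝ) (O S : Set ℂ) : PvpBlind S (fun ξ => ξ ∈ pvspRg ε O) := fun b B ξ =>
  propext (pvsp_Rg_congr ε (by rw [cfPaint_sites]))

/-- **almost every state is regular** -/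
theorem pvsp_Rg_ae {ε : ℝ} (hε : 0 < ε) {O : Set ℂ} (hO : MeasurableSet O) : ∀ᵐ ξ ∂(pvP ε), ξ ∈ pvspRg ε O :=
  (pv_isPpp ε).ae_ae_splice (hO.prod MeasurableSet.univ) ((dls_ae_conf hε).mono fun _ h => h.del)

theorem pvsp_Rg_null {ε : ℝ} (hε : 0 < ε) {O : Set ℂ} (hO : MeasurableSet O) : NullMeasurableSet (pvspRg ε O) (pvP ε) :=
  NullMeasurableSet.of_compl (NullMeasurableSet.of_null (ae_iff.1 (pvsp_Rg_ae hε hO)))

theorem pvsp_G_eq (N : PvspNum) (ε : ℝ) (t : PvspTy) (z : ℂ) (h : ℝ) : pvspG N ε t z h = pvspEvt N t z h .has ∩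
    (pvspProp ε (pvspO N t z h) (pvspLp N t z h) ⁻¹' Ici (ENNReal.ofReal N.β) ∩ pvspProp ε (pvspO N t z h) (pvspLm N t z h) ⁻¹' Ici (ENNReal.ofReal N.β)) := rfl

/-- **`G_τ` is an event OF THE STATE** -/
theorem pvsp_G_reads (hW : t.Wf N z h) (ε : ℝ) : Conf.ReadsSet (pvspO N t z h ×ˢ univ) (pvspG N ε t z h) := by
  rw [pvsp_G_eq]
  exact (pvsp_evt_reads hW .has).inter (((pvsp_prop_reads ε _ _).preimage _).inter ((pvsp_prop_reads ε _ _).preimage _))

/-- **`G_τ` is measurable** (on `Conf PvPt`) -/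
theorem pvsp_G_meas (hW : t.Wf N z h) (ε : ℝ) : MeasurableSet (pvspG N ε t z h) := by
  rw [pvsp_G_eq]
  exact (pvsp_evt_meas hW .has).inter (((pvsp_prop_meas ε measurableSet_closedBall (pvsp_Lp_meas hW)) measurableSet_Ici).inter
    ((pvsp_prop_meas ε measurableSet_closedBall (pvsp_Lm_meas hW)) measurableSet_Ici))

theorem pvsp_G_sub_has (N : PvspNum) (ε : ℝ) (t : PvspTy) (z : ℂ) (h : ℝ) : pvspG N ε t z h ⊆ pvspEvt N t z h .has := fun _ h => h.1

theorem pvsp_Gq_sub_G (N : PvspNum) (QB : Set (Conf PvPt)) (ε : ℝ) (t : PvspTy) (z : ℂ) (h : ℝ) : pvspGq N QB ε t z h ⊆ pvspG N ε t z h := inter_subset_left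

theorem PvspTy.Wf.Mp_sub (hW : t.Wf N z h) : t.Mp ⊆ t.Ep :=
  (subset_union_right.trans hW.core_p).trans (pvtr_core_subset (by have := hW.rho0; positivity))
theorem PvspTy.Wf.Mm_sub (hW : t.Wf N z h) : t.Mm ⊆ t.Em :=
  (subset_union_right.trans hW.core_m).trans (pvtr_core_subset (by have := hW.rho0; positivity))
theorem PvspTy.Wf.Np_sub (hW : t.Wf N z h) : t.Np ⊆ t.Ep :=
  (subset_union_left.trans hW.core_p).trans (pvtr_core_subset (by have := hW.rho0; positivity))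
theorem PvspTy.Wf.Nm_sub (hW : t.Wf N z h) : t.Nm ⊆ t.Em :=
  (subset_union_left.trans hW.core_m).trans (pvtr_core_subset (by have := hW.rho0; positivity))
theorem PvspTy.Wf.J_sub (hW : t.Wf N z h) : pvspJ t ⊆ t.EJ :=
  hW.core_J.trans (pvtr_core_subset (by have := hW.rho0; positivity))

/-- **`Hq_τ` is read from any zone which contains the two windows** -/
theorem pvsp_Hq_reads (hW : t.Wf N z h) {QB : Set (Conf PvPt)} {W : Set PvPt} (hp : Prod.fst ⁻¹' t.Ep ⊆ W) (hm : Prod.fst ⁻¹' t.Em ⊆ W) (hQ : Conf.ReadsSet W QB) :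
    Conf.ReadsSet W (pvspHq N QB t z h) := by
  have h1 : Conf.Reads W (pvpQ (t.Mp \ pvspO N t z h) (!t.col) (pvspEvt N t z h .pw)) :=
    pvpQ_reads ((preimage_mono (sdiff_subset.trans hW.Mp_sub)).trans hp) ((pvsp_evt_reads hW .pw).mono (by rw [prod_univ]; exact hp)) _
  have h2 : Conf.Reads W (pvpQ (t.Mm \ pvspO N t z h) (!t.col) (pvspEvt N t z h .mw)) :=
    pvpQ_reads ((preimage_mono (sdiff_subset.trans hW.Mm_sub)).trans hm) ((pvsp_evt_reads hW .mw).mono (by rw [prod_univ]; exact hm)) _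
  exact (h1.preimage (Ici N.β)).inter ((h2.preimage (Ici N.β)).inter hQ)

/-- **`Gq_τ` is read from any zone which contains the two windows** (form of 79: `W = Prod.fst ⁻¹' closedBall z (Lr * h)`) -/
theorem pvsp_Gq_reads (hW : t.Wf N z h) (ε : ℝ) {QB : Set (Conf PvPt)} {W : Set PvPt} (hp : Prod.fst ⁻¹' t.Ep ⊆ W) (hm : Prod.fst ⁻¹' t.Em ⊆ W) (hQ : Conf.ReadsSet W QB) :
    Conf.ReadsSet W (pvspGq N QB ε t z h) :=
  ((pvsp_G_reads hW ε).mono (by rw [prod_univ]; exact (preimage_mono hW.O_p).trans hp)).inter (pvsp_Hq_reads hW hp hm hQ)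

/-- `Hg` is read from any zone which contains the window of the lane -/
theorem pvsp_Hg_reads (hW : t.Wf N z h) {W : Set PvPt} (hJ : Prod.fst ⁻¹' t.EJ ⊆ W) : Conf.ReadsSet W (pvspHg N t h) :=
  (pvpQ_reads ((preimage_mono hW.J_sub).trans hJ) ((pvsp_lane_reads N t h).mono (by rw [prod_univ]; exact hJ)) (!t.col)).preimage (Ici N.pst)

/-- `Hg` is blind to the colours of the strip -/
theorem pvsp_Hg_blind (N : PvspNum) (t : PvspTy) (h : ℝ) : PvpBlind (pvspJ t) (fun ξ => ξ ∈ pvspHg N t h) := fun b B ξ => by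
  show (N.pst ≤ pvpQ (pvspJ t) (!t.col) (pvspLane N t h) (cfPaint (pvspJ t) b B ξ)) = (N.pst ≤ pvpQ (pvspJ t) (!t.col) (pvspLane N t h) ξ)
  rw [pvpQ_blind]

end G

/-! ## 7. the propensity in the form of `Tr/Ind`, SMALL PROPENSITY, reduction of the ADMISSION to one event -/

section adm

variable {N : PvspNum} {t : PvspTy} {z : ℂ} {h ε : ℝ}

/-- the propensity in the form of `Tr/Ind.lean` -/
theorem pvsp_prop_ti (ε : ℝ) {O : Set ℂ} (hO : MeasurableSet O) {𝒜 : Set (Conf PvPt)} (hA : MeasurableSet 𝒜) (ξ : Conf PvPt) :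
    pvspProp ε O 𝒜 ξ = pvtiP (pvP ε) (O ×ˢ univ) 𝒜 ξ := by
  unfold pvspProp pvtiP
  have hm : MeasurableSet {η | Conf.spl (O ×ˢ (univ : Set Bool)) (ξ, η) ∈ 𝒜} :=
    ((Conf.measurable_spl (hO.prod MeasurableSet.univ)).comp (measurable_const.prodMk measurable_id)) hA
  rw [← lintegral_indicator_one hm]
  rfl

/-- **SMALL PROPENSITY**: success together with a propensity `< b` has probability `≤ b` -/
theorem pvsp_small (ε : ℝ) {O : Set ℂ} (hO : MeasurableSet O) {𝒜 : Set (Conf PvPt)} (hA : MeasurableSet 𝒜) (b : ℝ≥0∞) :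
    pvP ε ({ξ | pvspProp ε O 𝒜 ξ < b} ∩ 𝒜) ≤ b := by
  have := (pv_isPpp ε).prob
  have hm : MeasurableSet {ξ | pvspProp ε O 𝒜 ξ < b} := (pvsp_prop_meas ε hO hA) measurableSet_Iio
  have hr : Conf.ReadsSet (O ×ˢ univ) {ξ | pvspProp ε O 𝒜 ξ < b} := (pvsp_prop_reads ε O 𝒜).preimage (Iio b)
  rw [← pvsp_prop_lintegral ε hO hA hm hr]
  calc ∫⁻ ξ in {ξ | pvspProp ε O 𝒜 ξ < b}, pvspProp ε O 𝒜 ξ ∂(pvP ε) ≤ ∫⁻ _ in {ξ | pvspProp ε O 𝒜 ξ < b}, b ∂(pvP ε) :=
        setLIntegral_mono' hm fun ξ hξ => le_of_lt hξ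
    _ ≤ b := by
        rw [setLIntegral_const]
        calc b * pvP ε {ξ | pvspProp ε O 𝒜 ξ < b} ≤ b * 1 := by gcongr; exact prob_le_one
          _ = b := mul_one b

/-- **ADMISSION, reduction to ONE event** (P18): `ν(state ∩ L⁺ ∩ L⁻) ≤ ν(G_τ) + 2 β` -/
theorem pvsp_adm (hW : t.Wf N z h) (ε : ℝ) :
    pvP ε (pvspEvt N t z h .has ∩ pvspLp N t z h ∩ pvspLm N t z h) ≤ pvP ε (pvspG N ε t z h) + 2 * ENNReal.ofReal N.β := by
  have hO : MeasurableSet (pvspO N t z h) := measurableSet_closedBall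
  have hsub : pvspEvt N t z h .has ∩ pvspLp N t z h ∩ pvspLm N t z h ⊆ pvspG N ε t z h ∪
      (({ξ | pvspProp ε (pvspO N t z h) (pvspLp N t z h) ξ < ENNReal.ofReal N.β} ∩ pvspLp N t z h) ∪
        ({ξ | pvspProp ε (pvspO N t z h) (pvspLm N t z h) ξ < ENNReal.ofReal N.β} ∩ pvspLm N t z h)) := by
    rintro ξ ⟨⟨h1, h2⟩, h3⟩
    by_cases a1 : pvspProp ε (pvspO N t z h) (pvspLp N t z h) ξ < ENNReal.ofReal N.β
    · exact Or.inr (Or.inl ⟨a1, h2⟩)
    by_cases a2 : pvspProp ε (pvspO N t z h) (pvspLm N t z h) ξ < ENNReal.ofReal N.β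
    · exact Or.inr (Or.inr ⟨a2, h3⟩)
    exact Or.inl ⟨h1, not_lt.1 a1, not_lt.1 a2⟩
  calc pvP ε (pvspEvt N t z h .has ∩ pvspLp N t z h ∩ pvspLm N t z h) ≤ pvP ε (pvspG N ε t z h) + (ENNReal.ofReal N.β + ENNReal.ofReal N.β) :=
        (measure_mono hsub).trans ((measure_union_le _ _).trans (add_le_add le_rfl ((measure_union_le _ _).trans
          (add_le_add (pvsp_small ε hO (pvsp_Lp_meas hW) _) (pvsp_small ε hO (pvsp_Lm_meas hW) _)))))
    _ = _ := by rw [two_mul]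

/-- admission: `b' + 2 β ≤ ν(state ∩ L⁺ ∩ L⁻) ⟹ b' ≤ ν(G_τ)` -/
theorem pvsp_adm_ge (hW : t.Wf N z h) (ε : ℝ) {b' : ℝ≥0∞} (hb : b' + 2 * ENNReal.ofReal N.β ≤ pvP ε (pvspEvt N t z h .has ∩ pvspLp N t z h ∩ pvspLm N t z h)) :
    b' ≤ pvP ε (pvspG N ε t z h) :=
  (ENNReal.add_le_add_iff_right (by finiteness)).1 (hb.trans (pvsp_adm hW ε))

end adm

end Claimed.Agent.R289
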