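import Claimed.Agent.R289.Tr.StKit
import Claimed.Agent.R289.Tr.StrandD
import Claimed.Agent.R289.Tr.GateLat
import Claimed.Agent.R289.Tr.GateFr
import Claimed.Agent.R289.Defs.TrModel

/-!
# Row 289 (S0537, Cardy for Poisson-Voronoi), THE WALL, file Tr/AtUniq : THE STATE OF A CANDIDATE IS UNIQUE      (owner helper150, order of helper24 10:04Z; prefix `pvuq_`, record `PvuqSame`)

`PvwSt T` (`Tr/Defs`) is a record of DATA with junk (the parametrisation of the circuit `S`, the values of `ep em inn.v inn.e` beyond their ranges): two states of one candidate are never EQUAL as records.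
`PvuqSame 𝔖 𝔖'` = they agree on everything a consumer sees (`PvuqG` gate part, `PvuqP` exit stub, `PvuqM` entrance stub).      Consumers: `Tr/InstE` (161: `kout kin ke` read "the" state), INJ (194), `Exit/TrV` (283: `(inn, ip)`), MEAS (247 T1).
`Tr/Defs` v3 (T5 (i) of 24): `Inmost := S.Left = pvgnRule ..`, so the inside of the gate is unique by `rfl`: NO hypothesis on the gates in sec. 4, 6.      Twin records of 72 (`Tr/BrDat`: `PvjdG PvjdOut PvjdIn`, with the transport of `Gate At Ok NB ..`): `PvuqG` has their fields.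
* sec. 1  `PvuqG PvuqP PvuqM PvuqSame`: equivalence relations;   the derived data agree (`gp gm core ins bkP whP bkM whM fzOut fzIn fz xp xm ap am`, vertices and darts of `inn`, marked vertex, `pvwMass`)
* sec. 2  circuits: a dart of a circuit is determined by its source, by its target
* sec. 3  **`pvuq_gate`**: two `Gate`s of one `(z, τ, s)` with the same inside have the same gate edges, inner arc, marked vertex      (`pos` injective: the orientation bit);   `pvuq_time` (the time of the inner strand)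
* sec. 4  **`pvuq_atOut`, `pvuq_atIn`, `pvuq_at`**: uniqueness of the half states and of the state
* sec. 6  AT THE MODEL: `pvuq_del(_out, _in)` (any good set of sites), **`pvuq_model`** (`PvxAt` twice => `PvuqSame`)
-/

set_option autoImplicit false
set_option linter.unusedSectionVars false

namespace Claimed.Agent.R289

open Set Claims.C0465

variable {V D : Type} {T : PvMap V D}

/-! ## 1. the relations -/

/-- the two states have the same GATE part: inside of the gate, gate edges, inner arc, marked vertex -/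
structure PvuqG (𝔖 𝔖' : PvwSt T) : Prop where
  dsc : 𝔖.dsc = 𝔖'.dsc
  left : 𝔖.S.Left = 𝔖'.S.Left
  darts : 𝔖.S.darts = 𝔖'.S.darts
  verts : 𝔖.S.verts = 𝔖'.S.verts
  right : 𝔖.S.Right = 𝔖'.S.Right
  dp : 𝔖.dp = 𝔖'.dp
  dm : 𝔖.dm = 𝔖'.dm
  inn_n : 𝔖.inn.n = 𝔖'.inn.n
  inn_v : ∀ k, k ≤ 𝔖.inn.n → 𝔖.inn.v k = 𝔖'.inn.v k
  inn_e : ∀ k, k < 𝔖.inn.n → 𝔖.inn.e k = 𝔖'.inn.e k
  ip : 𝔖.ip = 𝔖'.ip

/-- the same EXIT stub -/
structure PvuqP (𝔖 𝔖' : PvwSt T) : Prop where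
  np : 𝔖.np = 𝔖'.np
  ep : ∀ i, i ≤ 𝔖.np → 𝔖.ep i = 𝔖'.ep i

/-- the same ENTRANCE stub -/
structure PvuqM (𝔖 𝔖' : PvwSt T) : Prop where
  nm : 𝔖.nm = 𝔖'.nm
  em : ∀ i, i ≤ 𝔖.nm → 𝔖.em i = 𝔖'.em i

/-- **the two states agree on everything a consumer sees** -/
structure PvuqSame (𝔖 𝔖' : PvwSt T) : Prop where
  g : PvuqG 𝔖 𝔖'
  p : PvuqP 𝔖 𝔖'
  m : PvuqM 𝔖 𝔖'

variable {𝔖 𝔖' 𝔖'' : PvwSt T}

namespace PvuqG

theorem refl (𝔖 : PvwSt T) : PvuqG 𝔖 𝔖 := ⟨rfl, rfl, rfl, rfl, rfl, rfl, rfl, rfl, fun _ _ => rfl, fun _ _ => rfl, rfl⟩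

theorem symm (h : PvuqG 𝔖 𝔖') : PvuqG 𝔖' 𝔖 :=
  ⟨h.dsc.symm, h.left.symm, h.darts.symm, h.verts.symm, h.right.symm, h.dp.symm, h.dm.symm, h.inn_n.symm, fun k hk => (h.inn_v k (h.inn_n ▸ hk)).symm, fun k hk => (h.inn_e k (h.inn_n ▸ hk)).symm, h.ip.symm⟩

theorem trans (h : PvuqG 𝔖 𝔖') (h' : PvuqG 𝔖' 𝔖'') : PvuqG 𝔖 𝔖'' :=
  ⟨h.dsc.trans h'.dsc, h.left.trans h'.left, h.darts.trans h'.darts, h.verts.trans h'.verts, h.right.trans h'.right, h.dp.trans h'.dp, h.dm.trans h'.dm, h.inn_n.trans h'.inn_n,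
    fun k hk => (h.inn_v k hk).trans (h'.inn_v k (h.inn_n ▸ hk)), fun k hk => (h.inn_e k hk).trans (h'.inn_e k (h.inn_n ▸ hk)), h.ip.trans h'.ip⟩

theorem gp (h : PvuqG 𝔖 𝔖') : 𝔖.gp = 𝔖'.gp := by unfold PvwSt.gp; rw [h.dp]

theorem gm (h : PvuqG 𝔖 𝔖') : 𝔖.gm = 𝔖'.gm := by unfold PvwSt.gm; rw [h.dm]

theorem core (h : PvuqG 𝔖 𝔖') : 𝔖.core = 𝔖'.core := h.dsc

theorem ins (h : PvuqG 𝔖 𝔖') : 𝔖.ins = 𝔖'.ins := by unfold PvwSt.ins; rw [h.left]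

theorem inn_verts (h : PvuqG 𝔖 𝔖') : 𝔖.inn.verts = 𝔖'.inn.verts := by
  ext v
  exact ⟨fun ⟨i, hi, e⟩ => ⟨i, h.inn_n ▸ hi, by rw [← h.inn_v i hi]; exact e⟩, fun ⟨i, hi, e⟩ => ⟨i, h.inn_n ▸ hi, by rw [h.inn_v i (h.inn_n ▸ hi)]; exact e⟩⟩

theorem inn_inner (h : PvuqG 𝔖 𝔖') : 𝔖.inn.inner = 𝔖'.inn.inner := by
  ext v
  exact ⟨fun ⟨i, h0, hi, e⟩ => ⟨i, h0, h.inn_n ▸ hi, by rw [← h.inn_v i hi.le]; exact e⟩, fun ⟨i, h0, hi, e⟩ => ⟨i, h0, h.inn_n ▸ hi, by rw [h.inn_v i (h.inn_n ▸ hi).le]; exact e⟩⟩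

theorem inn_darts (h : PvuqG 𝔖 𝔖') : 𝔖.inn.darts = 𝔖'.inn.darts := by
  ext v
  exact ⟨fun ⟨i, hi, e⟩ => ⟨i, h.inn_n ▸ hi, by rw [← h.inn_e i hi]; exact e⟩, fun ⟨i, hi, e⟩ => ⟨i, h.inn_n ▸ hi, by rw [h.inn_e i (h.inn_n ▸ hi)]; exact e⟩⟩

/-- the marked vertex -/
theorem mark (h : PvuqG 𝔖 𝔖') (hip : 𝔖.ip ≤ 𝔖.inn.n) : 𝔖.inn.v 𝔖.ip = 𝔖'.inn.v 𝔖'.ip := by rw [h.inn_v _ hip, h.ip]

/-- the masses of the inner arc -/
theorem mass (h : PvuqG 𝔖 𝔖') (pos : V → ℂ) (w : D → ℂ) (K : Set ℂ) {i j : ℕ} (hj : j ≤ 𝔖.inn.n) : pvwMass T pos w K 𝔖.inn i j = pvwMass T pos w K 𝔖'.inn i j := by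
  unfold pvwMass
  refine Finset.sum_congr rfl fun k hk => ?_
  rw [h.inn_e k (by have := (Finset.mem_Ico.1 hk).2; omega)]

end PvuqG

namespace PvuqP

theorem refl (𝔖 : PvwSt T) : PvuqP 𝔖 𝔖 := ⟨rfl, fun _ _ => rfl⟩

theorem symm (h : PvuqP 𝔖 𝔖') : PvuqP 𝔖' 𝔖 := ⟨h.np.symm, fun i hi => (h.ep i (h.np ▸ hi)).symm⟩

theorem trans (h : PvuqP 𝔖 𝔖') (h' : PvuqP 𝔖' 𝔖'') : PvuqP 𝔖 𝔖'' := ⟨h.np.trans h'.np, fun i hi => (h.ep i hi).trans (h'.ep i (h.np ▸ hi))⟩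

theorem bkP (h : PvuqP 𝔖 𝔖') : 𝔖.bkP = 𝔖'.bkP := by
  ext v
  exact ⟨fun ⟨i, hi, e⟩ => ⟨i, h.np ▸ hi, by rw [← h.ep i hi]; exact e⟩, fun ⟨i, hi, e⟩ => ⟨i, h.np ▸ hi, by rw [h.ep i (h.np ▸ hi)]; exact e⟩⟩

theorem whP (h : PvuqP 𝔖 𝔖') : 𝔖.whP = 𝔖'.whP := by
  ext v
  exact ⟨fun ⟨i, hi, e⟩ => ⟨i, h.np ▸ hi, by rw [← h.ep i hi]; exact e⟩, fun ⟨i, hi, e⟩ => ⟨i, h.np ▸ hi, by rw [h.ep i (h.np ▸ hi)]; exact e⟩⟩

theorem last (h : PvuqP 𝔖 𝔖') : 𝔖.ep 𝔖.np = 𝔖'.ep 𝔖'.np := by rw [h.ep _ le_rfl, h.np]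

theorem xp (h : PvuqP 𝔖 𝔖') (pos : V → ℂ) : 𝔖.xp pos = 𝔖'.xp pos := by unfold PvwSt.xp; rw [h.last]; rfl

theorem ap (h : PvuqP 𝔖 𝔖') : 𝔖.ap = 𝔖'.ap := by unfold PvwSt.ap; rw [h.last]

end PvuqP

namespace PvuqM

theorem refl (𝔖 : PvwSt T) : PvuqM 𝔖 𝔖 := ⟨rfl, fun _ _ => rfl⟩

theorem symm (h : PvuqM 𝔖 𝔖') : PvuqM 𝔖' 𝔖 := ⟨h.nm.symm, fun i hi => (h.em i (h.nm ▸ hi)).symm⟩

theorem trans (h : PvuqM 𝔖 𝔖') (h' : PvuqM 𝔖' 𝔖'') : PvuqM 𝔖 𝔖'' := ⟨h.nm.trans h'.nm, fun i hi => (h.em i hi).trans (h'.em i (h.nm ▸ hi))⟩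

theorem bkM (h : PvuqM 𝔖 𝔖') : 𝔖.bkM = 𝔖'.bkM := by
  ext v
  exact ⟨fun ⟨i, hi, e⟩ => ⟨i, h.nm ▸ hi, by rw [← h.em i hi]; exact e⟩, fun ⟨i, hi, e⟩ => ⟨i, h.nm ▸ hi, by rw [h.em i (h.nm ▸ hi)]; exact e⟩⟩

theorem whM (h : PvuqM 𝔖 𝔖') : 𝔖.whM = 𝔖'.whM := by
  ext v
  exact ⟨fun ⟨i, hi, e⟩ => ⟨i, h.nm ▸ hi, by rw [← h.em i hi]; exact e⟩, fun ⟨i, hi, e⟩ => ⟨i, h.nm ▸ hi, by rw [h.em i (h.nm ▸ hi)]; exact e⟩⟩

theorem last (h : PvuqM 𝔖 𝔖') : 𝔖.em 𝔖.nm = 𝔖'.em 𝔖'.nm := by rw [h.em _ le_rfl, h.nm]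

theorem xm (h : PvuqM 𝔖 𝔖') (pos : V → ℂ) : 𝔖.xm pos = 𝔖'.xm pos := by unfold PvwSt.xm; rw [h.last]; rfl

theorem am (h : PvuqM 𝔖 𝔖') : 𝔖.am = 𝔖'.am := by unfold PvwSt.am; rw [h.last]

end PvuqM

theorem PvuqG.fzOut (h : PvuqG 𝔖 𝔖') (hp : PvuqP 𝔖 𝔖') : 𝔖.fzOut = 𝔖'.fzOut := by unfold PvwSt.fzOut; rw [h.core, hp.bkP, hp.whP]

theorem PvuqG.fzIn (h : PvuqG 𝔖 𝔖') (hm : PvuqM 𝔖 𝔖') : 𝔖.fzIn = 𝔖'.fzIn := by unfold PvwSt.fzIn; rw [h.core, hm.bkM, hm.whM]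

namespace PvuqSame

theorem refl (𝔖 : PvwSt T) : PvuqSame 𝔖 𝔖 := ⟨.refl 𝔖, .refl 𝔖, .refl 𝔖⟩

theorem symm (h : PvuqSame 𝔖 𝔖') : PvuqSame 𝔖' 𝔖 := ⟨h.g.symm, h.p.symm, h.m.symm⟩

theorem trans (h : PvuqSame 𝔖 𝔖') (h' : PvuqSame 𝔖' 𝔖'') : PvuqSame 𝔖 𝔖'' := ⟨h.g.trans h'.g, h.p.trans h'.p, h.m.trans h'.m⟩

theorem fzOut (h : PvuqSame 𝔖 𝔖') : 𝔖.fzOut = 𝔖'.fzOut := h.g.fzOut h.p

theorem fzIn (h : PvuqSame 𝔖 𝔖') : 𝔖.fzIn = 𝔖'.fzIn := h.g.fzIn h.m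

theorem fz (h : PvuqSame 𝔖 𝔖') : 𝔖.fz = 𝔖'.fz := by unfold PvwSt.fz; rw [h.fzOut, h.fzIn]

end PvuqSame

/-! ## 2. circuits -/

/-- a dart of a circuit is determined by its source -/
theorem pvuq_cyc_src (c : T.Cyc) {d d' : D} (hd : d ∈ c.darts) (hd' : d' ∈ c.darts) (h : T.src d = T.src d') : d = d' := by
  obtain ⟨i, rfl⟩ := hd
  obtain ⟨j, rfl⟩ := hd'
  rw [← pl_cyc_mod c i, ← pl_cyc_mod c j, pl_cyc_src_inj c h]

/-- a dart of a circuit is determined by its target -/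
theorem pvuq_cyc_tgt (c : T.Cyc) {d d' : D} (hd : d ∈ c.darts) (hd' : d' ∈ c.darts) (h : T.tgt d = T.tgt d') : d = d' := by
  obtain ⟨i, rfl⟩ := hd
  obtain ⟨j, rfl⟩ := hd'
  rw [c.chain, c.chain] at h
  have h1 := pl_cyc_src_inj c h
  have hn : 0 < c.n := by have := c.three; omega
  have h2 : i % c.n = j % c.n := by
    have e1 : (i + 1) ≡ (j + 1) [MOD c.n] := h1
    exact Nat.ModEq.add_right_cancel' 1 e1
  rw [← pl_cyc_mod c i, ← pl_cyc_mod c j, h2]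

/-! ## 3. two gates with the same inside -/

section gate

variable {pos : V → ℂ} {h : ℝ} {z : ℂ} {τ : PvwTy} {s : V → Bool}

/-- the lexicographic order of the plane is asymmetric -/
theorem pvuq_lex_asymm {a b : ℂ} (h : a.re < b.re ∨ (a.re = b.re ∧ a.im < b.im)) : ¬ (b.re < a.re ∨ (b.re = a.re ∧ b.im < a.im)) := by
  rintro (h' | ⟨h1, h2⟩)
  · rcases h with h | ⟨h, -⟩
    · exact lt_asymm h h'
    · exact absurd h.symm h'.ne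
  · rcases h with h | ⟨-, h⟩
    · exact absurd h1.symm h.ne
    · exact lt_asymm h h2

/-- the lexicographic order of the plane is total -/
theorem pvuq_lex_total {a b : ℂ} (hab : a ≠ b) : (a.re < b.re ∨ (a.re = b.re ∧ a.im < b.im)) ∨ (b.re < a.re ∨ (b.re = a.re ∧ b.im < a.im)) := by
  rcases lt_trichotomy a.re b.re with h | h | h
  · exact Or.inl (Or.inl h)
  · rcases lt_trichotomy a.im b.im with h' | h' | h'
    · exact Or.inl (Or.inr ⟨h, h'⟩)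
    · exact absurd (Complex.ext h h') hab
    · exact Or.inr (Or.inr ⟨h.symm, h'⟩)
  · exact Or.inr (Or.inl h)

/-- the two black sites of a gate, on the circuit -/
theorem pvuq_gate_mem (hg : 𝔖.Gate pos h z τ s) : 𝔖.gp ∈ 𝔖.S.verts ∧ 𝔖.gm ∈ 𝔖.S.verts ∧ s 𝔖.gp = true ∧ s 𝔖.gm = true := by
  refine ⟨?_, (pvlt_tgt_mem 𝔖.S hg.dm_on).1, hg.bw_p.1, hg.bw_m.1⟩
  have := (pvlt_tgt_mem 𝔖.S hg.dp_on).2
  rwa [T.tgt_opp] at this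

/-- the exit gate edge is not inside -/
theorem pvuq_dp_out (hT : T.IsSph) (hg : 𝔖.Gate pos h z τ s) : 𝔖.dp ∉ 𝔖.S.Left := by
  have := ((pl_cyc_darts_iff hT 𝔖.S _).1 hg.dp_on).2
  rwa [T.opp_opp] at this

/-- the two black sites are determined by the vertices of the circuit and the orientation bit -/
theorem pvuq_ends (hpos : Function.Injective pos) (hg : 𝔖.Gate pos h z τ s) (hg' : 𝔖'.Gate pos h z τ s) (hV : 𝔖.S.verts = 𝔖'.S.verts) : 𝔖.gp = 𝔖'.gp ∧ 𝔖.gm = 𝔖'.gm := by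
  obtain ⟨a1, a2, a3, a4⟩ := pvuq_gate_mem hg
  rcases hg'.two _ (hV ▸ a1) a3 with e1 | e1 <;> rcases hg'.two _ (hV ▸ a2) a4 with e2 | e2
  · exact absurd (e1.trans e2.symm) hg.ne
  · exact ⟨e1, e2⟩
  · exfalso
    have h1 := hg.ori
    have h2 := hg'.ori
    rw [← e1, ← e2] at h2
    have hne : pos 𝔖.gm ≠ pos 𝔖.gp := fun e => hg.ne (hpos e).symm
    rcases pvuq_lex_total hne with h3 | h3
    · exact pvuq_lex_asymm h3 (h2.1 (h1.2 h3))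
    · exact pvuq_lex_asymm h3 (h1.1 (h2.2 h3))
  · exact absurd (e1.trans e2.symm) hg.ne

/-- the time of the inner strand = the first exit from the inside -/
theorem pvuq_time (hT : T.IsSph) (hg : 𝔖.Gate pos h z τ s) {n n' : ℕ} (h1 : pvasIt T s 𝔖.dm n = 𝔖.dp) (h2 : ∀ i, i < n → pvasIt T s 𝔖.dm i ∈ 𝔖.S.Left)
    (h1' : pvasIt T s 𝔖.dm n' = 𝔖.dp) (h2' : ∀ i, i < n' → pvasIt T s 𝔖.dm i ∈ 𝔖.S.Left) : n = n' := by
  have ho := pvuq_dp_out hT hg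
  rcases lt_trichotomy n n' with hlt | he | hlt
  · exact absurd (h1 ▸ h2' n hlt) ho
  · exact he
  · exact absurd (h1' ▸ h2 n' hlt) ho

/-- **two gates of one `(z, τ, s)` with the same inside have the same gate part** -/
theorem pvuq_gate (hT : T.IsSph) (hS : T.Simple) (hpos : Function.Injective pos) (hg : 𝔖.Gate pos h z τ s) (hg' : 𝔖'.Gate pos h z τ s) (hL : 𝔖.S.Left = 𝔖'.S.Left) : PvuqG 𝔖 𝔖' := by
  obtain ⟨hd, hV, hR⟩ := pvlt_left_ext hT hL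
  obtain ⟨e1, e2⟩ := pvuq_ends hpos hg hg' hV
  have hdm : 𝔖.dm = 𝔖'.dm := pvuq_cyc_src 𝔖'.S (hd ▸ hg.dm_on) hg'.dm_on e2
  have hdp : 𝔖.dp = 𝔖'.dp := by
    have := pvuq_cyc_tgt 𝔖'.S (hd ▸ hg.dp_on) hg'.dp_on (by rw [T.tgt_opp, T.tgt_opp]; exact e1)
    rw [← T.opp_opp 𝔖.dp, this, T.opp_opp]
  obtain ⟨n, a1, a2, a3⟩ := hg.strand
  obtain ⟨n', b1, b2, b3⟩ := hg'.strand
  rw [← hdm, ← hdp] at b1
  rw [← hdm, ← hL] at b2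
  rw [← hdm] at b3
  obtain rfl := pvuq_time hT hg a1 a2 b1 b2
  obtain ⟨c1, c2, c3⟩ := pvt_sd_unique hS a3 b3
  refine ⟨hg.dsc_eq.trans hg'.dsc_eq.symm, hL, hd, hV, hR, hdp, hdm, c1, c2, c3, ?_⟩
  rcases lt_trichotomy 𝔖.ip 𝔖'.ip with hlt | he | hlt
  · have := hg'.ip_first _ hlt
    rw [← c2 _ hg.ip_le] at this
    exact absurd hg.ip_near (not_le.2 this)
  · exact he
  · have := hg.ip_first _ hlt
    rw [c2 _ (c1 ▸ hg'.ip_le)] at this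
    exact absurd hg'.ip_near (not_le.2 this)

end gate

/-! ## 4. uniqueness of the half states and of the state -/

section state

variable {pos : V → ℂ} {N : PvwNum} {h : ℝ} {z : ℂ} {τ : PvwTy} {s : V → Bool}

/-- **the exit half state is unique** -/
theorem pvuq_atOut (hT : T.IsSph) (hS : T.Simple) (hpos : Function.Injective pos) (ha : 𝔖.AtOut pos N h z τ s) (ha' : 𝔖'.AtOut pos N h z τ s) :
    PvuqG 𝔖 𝔖' ∧ PvuqP 𝔖 𝔖' := by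
  have hG := pvuq_gate hT hS hpos ha.gate ha'.gate (ha.inmost.trans ha'.inmost.symm)
  obtain ⟨h1, h2⟩ := pvwk_stub_unique_p ha.stub ha'.stub hG.dp
  exact ⟨hG, h1, h2⟩

/-- **the entrance half state is unique** -/
theorem pvuq_atIn (hT : T.IsSph) (hS : T.Simple) (hpos : Function.Injective pos) (ha : 𝔖.AtIn pos N h z τ s) (ha' : 𝔖'.AtIn pos N h z τ s) :
    PvuqG 𝔖 𝔖' ∧ PvuqM 𝔖 𝔖' := by
  have hG := pvuq_gate hT hS hpos ha.gate ha'.gate (ha.inmost.trans ha'.inmost.symm)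
  obtain ⟨h1, h2⟩ := pvwk_stub_unique_m ha.stub ha'.stub hG.dm
  exact ⟨hG, h1, h2⟩

/-- **the state is unique** -/
theorem pvuq_at (hT : T.IsSph) (hS : T.Simple) (hpos : Function.Injective pos) (ha : 𝔖.At pos N h z τ s) (ha' : 𝔖'.At pos N h z τ s) : PvuqSame 𝔖 𝔖' :=
  ⟨(pvuq_atOut hT hS hpos ha.out ha'.out).1, (pvuq_atOut hT hS hpos ha.out ha'.out).2, (pvuq_atIn hT hS hpos ha.inn ha'.inn).2⟩

end state

/-! ## 6. at the model -/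

section model

variable {Y : Set ℂ} {N : PvwNum} {h : ℝ} {z : ℂ} {τ : PvwTy} {s : Y → Bool}

/-- **uniqueness of the state in the Delaunay plane map of a good set of sites**      (`pvxT ω`, `pvxPos ω` of `Defs/TrModel`;   `pvieT η`, `pviePos η` of `Tr/InstE`: by `rfl`) -/
theorem pvuq_del (hY : DelGood Y) {𝔖 𝔖' : PvwSt (delbPl Y).toMap} (ha : 𝔖.At Subtype.val N h z τ s) (ha' : 𝔖'.At Subtype.val N h z τ s) : PvuqSame 𝔖 𝔖' :=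
  pvuq_at (delb_plane_isSph hY) (pvgy_m_simple Y) Subtype.val_injective ha ha'

theorem pvuq_del_out (hY : DelGood Y) {𝔖 𝔖' : PvwSt (delbPl Y).toMap} (ha : 𝔖.AtOut Subtype.val N h z τ s) (ha' : 𝔖'.AtOut Subtype.val N h z τ s) :
    PvuqG 𝔖 𝔖' ∧ PvuqP 𝔖 𝔖' :=
  pvuq_atOut (delb_plane_isSph hY) (pvgy_m_simple Y) Subtype.val_injective ha ha'

theorem pvuq_del_in (hY : DelGood Y) {𝔖 𝔖' : PvwSt (delbPl Y).toMap} (ha : 𝔖.AtIn Subtype.val N h z τ s) (ha' : 𝔖'.AtIn Subtype.val N h z τ s) :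
    PvuqG 𝔖 𝔖' ∧ PvuqM 𝔖 𝔖' :=
  pvuq_atIn (delb_plane_isSph hY) (pvgy_m_simple Y) Subtype.val_injective ha ha'

/-- **THE STATE OF A CANDIDATE IS UNIQUE** -/
theorem pvuq_model {τ' : Type} {c : ℝ} (𝔓 : PvxPar τ' c) {m : ℕ} {ω : PVSample} {z : ℂ} {t : τ'} {𝔖 𝔖' : PvwSt (pvxT ω)} (ha : PvxAt 𝔓 m ω z t 𝔖) (ha' : PvxAt 𝔓 m ω z t 𝔖') :
    PvuqSame 𝔖 𝔖' :=
  pvuq_del ha.good ha.st ha'.st

end model

end Claimed.Agent.R289
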