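-- KEEP
import Claimed.Agent.R289.Del.Bulk
import Claimed.Agent.R289.Tr.Nb
import Claimed.Agent.R289.Cr.All

/-!
# Row 289 (S0537), TR-blueprint TR24 = LOCALITY, file Tr/Loc : ARCS OF A RIM OF ANY BULK FAMILY ARE ARCS OF THE DELAUNAY PLANE      (helper278, post of 187, second of 22; prefix `pvlo_`)

DIRECT on the dictionary `DelbRel` of helper219 (`Del/Bulk.lean`) and the arc events of helper105 (`Tr/Nb.lean`).      `T = 𝔅.T Y` (any bulk family, `𝔅.Ok Y K`), `T' = (delPl h).toMap` (the Delaunay plane of the same site set).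
* sec.1  KIT: `pvlo_rot_iter`, `pvlo_osec` (open sectors at a site of `K`), `pvlo_walk_up` / `pvlo_walk_down` (walks through sites of `K`), `pvlo_plane_adj`
* sec.2  twin paths `PvloTwin g g'`: `pvlo_twin_rel`, `pvlo_twin_rs`, `pvlo_twin_byp`, `pvlo_twin_nb` (`NB^U` is THE SAME event in `T` and in `T'` for `U` = sites of `K`), `pvlo_twin_col`
* sec.3  **TR24** `pvlo_arc`: an arc of a rim of `T` all of whose vertices are sites of `K` has a twin plane path: same points, colour, white right apexes (tags), `NB^U` for every `U ⊆ K`, same `bary qpart side`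
* sec.4  (D) `pvlo_nb_univ`: `NB^U` + a circuit of the other colour round `g` with `VOf Left ⊆ U`  ⟹  `NB^univ`
* sec.5  the `PvbRim` form: **`pvlo_all`** for `P ∈ l9All x R ω` (115, `Cr/All.lean`): a window of `P` inside `closedBall x (6R)` IS a plane path of the sample with all the properties of sec.3
-/

set_option autoImplicit false

namespace Claimed.Agent.R289

open Set Relation Claims.C0465

/-! ## 1. Kit -/

section kit

variable {X : Type} {𝔅 : PvBulk X} {Y K : Set ℂ} {h : DelGood Y}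

theorem pvlo_plane_adj {u w : ↥Y} : (delPl h).toMap.Adj u w ↔ DelAdj Y u w := by
  constructor
  · rintro ⟨d, rfl, rfl⟩
    exact d.2
  · intro hab
    exact ⟨⟨(u, w), hab⟩, rfl, rfl⟩

/-- the dictionary commutes with the rotation round a site of `K` -/
theorem pvlo_rot_iter (hOk : 𝔅.Ok Y K) {d : 𝔅.D Y} {e : (delPl h).Dart} (h1 : DelbRel 𝔅 h d e) (hK : ((delPl h).toMap.src e : ℂ) ∈ K) (j : ℕ) :
    DelbRel 𝔅 h ((𝔅.T Y).rot^[j] d) ((delPl h).toMap.rot^[j] e) := by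
  induction j with
  | zero => exact h1
  | succ j ih =>
    rw [Function.iterate_succ_apply', Function.iterate_succ_apply']
    refine delb_rel_rot hOk ih (delb_emb_of_src hOk (a := ((delPl h).toMap.src e : ℂ)) ?_ hK)
    rw [PvMap.src_rot_iter]
    exact h1.1

/-- open sectors at a site of `K` -/
theorem pvlo_osec (hOk : 𝔅.Ok Y K) {x y d : 𝔅.D Y} {x' y' d' : (delPl h).Dart} (hx : DelbRel 𝔅 h x x') (hy : DelbRel 𝔅 h y y') (hd : DelbRel 𝔅 h d d')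
    (hK : ((delPl h).toMap.src x' : ℂ) ∈ K) : d ∈ (𝔅.T Y).OSec x y ↔ d' ∈ (delPl h).toMap.OSec x' y' := by
  constructor
  · rintro ⟨j, hj, rfl, hne⟩
    refine ⟨j, hj, delb_rel_fun (pvlo_rot_iter hOk hx hK j) hd, fun i hi hij he => hne i hi hij ?_⟩
    have := pvlo_rot_iter hOk hx hK i
    rw [he] at this
    exact delb_rel_inj hOk this hy
  · rintro ⟨j, hj, rfl, hne⟩
    refine ⟨j, hj, delb_rel_inj hOk (pvlo_rot_iter hOk hx hK j) hd, fun i hi hij he => hne i hi hij ?_⟩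
    have := pvlo_rot_iter hOk hx hK i
    rw [he] at this
    exact delb_rel_fun this hy

/-- a dart of the plane sector has a twin in the bulk sector -/
theorem pvlo_osec_up (hOk : 𝔅.Ok Y K) {x y : 𝔅.D Y} {x' y' d' : (delPl h).Dart} (hx : DelbRel 𝔅 h x x') (hy : DelbRel 𝔅 h y y')
    (hK : ((delPl h).toMap.src x' : ℂ) ∈ K) (hd : d' ∈ (delPl h).toMap.OSec x' y') : ∃ d, DelbRel 𝔅 h d d' ∧ d ∈ (𝔅.T Y).OSec x y := by
  obtain ⟨j, hj, rfl, hne⟩ := hd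
  have hr := pvlo_rot_iter hOk hx hK j
  exact ⟨_, hr, (pvlo_osec hOk hx hy hr hK).2 ⟨j, hj, rfl, hne⟩⟩

/-- a dart of the bulk sector has a twin in the plane sector -/
theorem pvlo_osec_down (hOk : 𝔅.Ok Y K) {x y d : 𝔅.D Y} {x' y' : (delPl h).Dart} (hx : DelbRel 𝔅 h x x') (hy : DelbRel 𝔅 h y y')
    (hK : ((delPl h).toMap.src x' : ℂ) ∈ K) (hd : d ∈ (𝔅.T Y).OSec x y) : ∃ d', DelbRel 𝔅 h d d' ∧ d' ∈ (delPl h).toMap.OSec x' y' := by
  obtain ⟨j, hj, rfl, hne⟩ := hd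
  have hr := pvlo_rot_iter hOk hx hK j
  exact ⟨_, hr, (pvlo_osec hOk hx hy hr hK).1 ⟨j, hj, rfl, hne⟩⟩

/-- the bulk vertices over a set of sites -/
def pvloUp (𝔅 : PvBulk X) (Y : Set ℂ) (U : Set ↥Y) : Set (𝔅.V Y) := {v | ∃ a ∈ U, 𝔅.lab Y v = Sum.inl (a : ℂ)}

theorem pvlo_eqns_cite : True := by
  have := @pvloUp.eq_1
  trivial

/-- a plane walk through sites of `K` lifts to the bulk family -/
theorem pvlo_walk_up (hOk : 𝔅.Ok Y K) {U : Set ↥Y} (hU : ∀ v ∈ U, (v : ℂ) ∈ K) {u w : ↥Y}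
    (hw : ReflTransGen (fun x y => (delPl h).toMap.Adj x y ∧ x ∈ U) u w) {u₀ : 𝔅.V Y} (hu : 𝔅.lab Y u₀ = Sum.inl (u : ℂ)) :
    ∃ w₀, 𝔅.lab Y w₀ = Sum.inl (w : ℂ) ∧ ReflTransGen (fun x y => (𝔅.T Y).Adj x y ∧ x ∈ pvloUp 𝔅 Y U) u₀ w₀ := by
  induction hw with
  | refl => exact ⟨u₀, hu, ReflTransGen.refl⟩
  | @tail b c _ hbc ih =>
    obtain ⟨b₀, hb, hp⟩ := ih
    have hab : DelAdj Y b c := pvlo_plane_adj.1 hbc.1
    obtain ⟨d, k1, k2, -, -⟩ := delb_dart_of_adj h hOk hab (Or.inl (hU b hbc.2))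
    refine ⟨(𝔅.T Y).tgt d, k2, ReflTransGen.tail hp ⟨⟨d, hOk.inj (k1.trans hb.symm), rfl⟩, b, hbc.2, hb⟩⟩

/-- a bulk walk through sites of `K` comes down to the plane -/
theorem pvlo_walk_down (hOk : 𝔅.Ok Y K) {U : Set ↥Y} (hU : ∀ v ∈ U, (v : ℂ) ∈ K) {u₀ w₀ : 𝔅.V Y}
    (hw : ReflTransGen (fun x y => (𝔅.T Y).Adj x y ∧ x ∈ pvloUp 𝔅 Y U) u₀ w₀) {u : ↥Y} (hu : 𝔅.lab Y u₀ = Sum.inl (u : ℂ)) :
    ∃ w : ↥Y, 𝔅.lab Y w₀ = Sum.inl (w : ℂ) ∧ ReflTransGen (fun x y => (delPl h).toMap.Adj x y ∧ x ∈ U) u w := by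
  induction hw with
  | refl => exact ⟨u, hu, ReflTransGen.refl⟩
  | @tail b₀ c₀ _ hbc ih =>
    obtain ⟨b, hb, hp⟩ := ih
    obtain ⟨b', hb'U, hb'⟩ := hbc.2
    have e : b' = b := Subtype.ext (Sum.inl_injective (hb'.symm.trans hb))
    subst e
    obtain ⟨c, hc, hab⟩ := (delb_adj_iff h hOk hb (hU b' hb'U)).1 hbc.1
    exact ⟨⟨c, hab.2.1⟩, hc, ReflTransGen.tail hp ⟨pvlo_plane_adj.2 hab, hb'U⟩⟩

end kit

/-! ## 2. Twin paths -/

section twin

variable {X : Type} {𝔅 : PvBulk X} {Y K : Set ℂ} {h : DelGood Y}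

/-- the plane path `g'` is the twin of the bulk path `g`: same length, same points, all of them sites of `K` -/
structure PvloTwin (𝔅 : PvBulk X) (h : DelGood Y) (K : Set ℂ) (g : (𝔅.T Y).Pth) (g' : (delPl h).toMap.Pth) : Prop where
  n : g'.n = g.n
  v : ∀ k, k ≤ g.n → 𝔅.lab Y (g.v k) = Sum.inl (g'.v k : ℂ)
  inK : ∀ k, k ≤ g.n → (g'.v k : ℂ) ∈ K

variable {g : (𝔅.T Y).Pth} {g' : (delPl h).toMap.Pth}

theorem pvlo_twin_rel (H : PvloTwin 𝔅 h K g g') {k : ℕ} (hk : k < g.n) : DelbRel 𝔅 h (g.e k) (g'.e k) := by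
  refine ⟨?_, ?_⟩
  · rw [g.src_e k hk, g'.src_e k (by rw [H.n]; exact hk)]
    exact H.v k hk.le
  · rw [g.tgt_e k hk, g'.tgt_e k (by rw [H.n]; exact hk)]
    exact H.v (k + 1) hk

theorem pvlo_twin_verts (H : PvloTwin 𝔅 h K g g') {v : 𝔅.V Y} {a : ↥Y} (hv : 𝔅.lab Y v = Sum.inl (a : ℂ)) (hOk : 𝔅.Ok Y K) : v ∈ g.verts ↔ a ∈ g'.verts := by
  constructor
  · rintro ⟨i, hi, rfl⟩
    exact ⟨i, by rw [H.n]; exact hi, Subtype.ext (Sum.inl_injective ((H.v i hi).symm.trans hv))⟩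
  · rintro ⟨i, hi, rfl⟩
    rw [H.n] at hi
    exact ⟨i, hi, hOk.inj ((H.v i hi).trans hv.symm)⟩

/-- the two reference darts of the right sector number `k` are twins, and the sector sits at a site of `K` -/
theorem pvlo_twin_rs_aux (H : PvloTwin 𝔅 h K g g') {a0 a1 : 𝔅.D Y} {a0' a1' : (delPl h).Dart} (h0 : DelbRel 𝔅 h a0 a0') (h1 : DelbRel 𝔅 h a1 a1')
    (h0K : ((delPl h).toMap.src a0' : ℂ) ∈ K) {k : ℕ} (hk : k ≤ g.n) :
    DelbRel 𝔅 h (if k = 0 then a0 else (𝔅.T Y).opp (g.e (k - 1))) (if k = 0 then a0' else (delPl h).toMap.opp (g'.e (k - 1))) ∧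
      DelbRel 𝔅 h (if k = g.n then a1 else g.e k) (if k = g'.n then a1' else g'.e k) ∧
      ((delPl h).toMap.src (if k = 0 then a0' else (delPl h).toMap.opp (g'.e (k - 1))) : ℂ) ∈ K := by
  refine ⟨?_, ?_, ?_⟩
  · by_cases hk0 : k = 0
    · rw [if_pos hk0, if_pos hk0]; exact h0
    · rw [if_neg hk0, if_neg hk0]; exact delb_rel_opp (pvlo_twin_rel H (by omega))
  · rw [H.n]
    by_cases hkn : k = g.n
    · rw [if_pos hkn, if_pos hkn]; exact h1
    · rw [if_neg hkn, if_neg hkn]; exact pvlo_twin_rel H (by omega)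
  · by_cases hk0 : k = 0
    · rw [if_pos hk0]; exact h0K
    · rw [if_neg hk0, PvMap.src_opp', g'.tgt_e (k - 1) (by rw [H.n]; omega), Nat.sub_add_cancel (by omega)]
      exact H.inK k hk

/-- right sectors of twin paths -/
theorem pvlo_twin_rs (hOk : 𝔅.Ok Y K) (H : PvloTwin 𝔅 h K g g') {a0 a1 : 𝔅.D Y} {a0' a1' : (delPl h).Dart} (h0 : DelbRel 𝔅 h a0 a0') (h1 : DelbRel 𝔅 h a1 a1')
    (h0K : ((delPl h).toMap.src a0' : ℂ) ∈ K) {k : ℕ} (hk : k ≤ g.n) {d : 𝔅.D Y} {d' : (delPl h).Dart} (hd : DelbRel 𝔅 h d d') :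
    d ∈ g.RS a0 a1 k ↔ d' ∈ g'.RS a0' a1' k := by
  obtain ⟨hx, hy, hK⟩ := pvlo_twin_rs_aux H h0 h1 h0K hk
  exact pvlo_osec hOk hx hy hd hK

/-- **right bypasses of twin paths** through sites of `K` -/
theorem pvlo_twin_byp (hOk : 𝔅.Ok Y K) (H : PvloTwin 𝔅 h K g g') {a0 a1 : 𝔅.D Y} {a0' a1' : (delPl h).Dart} (h0 : DelbRel 𝔅 h a0 a0') (h1 : DelbRel 𝔅 h a1 a1')
    (h0K : ((delPl h).toMap.src a0' : ℂ) ∈ K) {U : Set ↥Y} (hU : ∀ v ∈ U, (v : ℂ) ∈ K) : g.Byp a0 a1 (pvloUp 𝔅 Y U) ↔ g'.Byp a0' a1' U := by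
  constructor
  · rintro ⟨k, l, hk, hl, hkl, d, hd, hw⟩
    obtain ⟨hx, hy, hK⟩ := pvlo_twin_rs_aux H h0 h1 h0K hk
    obtain ⟨d', hdd, hd'⟩ := pvlo_osec_down hOk hx hy hK hd
    obtain ⟨w, hw1, hw2⟩ := pvlo_walk_down (h := h) hOk hU hw hdd.2
    have e : w = g'.v l := Subtype.ext (Sum.inl_injective (hw1.symm.trans (H.v l hl)))
    subst e
    exact ⟨k, l, by rw [H.n]; exact hk, by rw [H.n]; exact hl, hkl, d', hd', hw2⟩
  · rintro ⟨k, l, hk, hl, hkl, d', hd', hw⟩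
    rw [H.n] at hk hl
    obtain ⟨hx, hy, hK⟩ := pvlo_twin_rs_aux H h0 h1 h0K hk
    obtain ⟨d, hdd, hd⟩ := pvlo_osec_up hOk hx hy hK hd'
    obtain ⟨w₀, hw1, hw2⟩ := pvlo_walk_up hOk hU hw hdd.2
    have e : w₀ = g.v l := hOk.inj (hw1.trans (H.v l hl).symm)
    subst e
    exact ⟨k, l, hk, hl, hkl, d, hd, hw2⟩

/-- **`NB^U` is the same event in the bulk family and in the plane**, `U` = a set of sites of `K` -/
theorem pvlo_twin_nb (hOk : 𝔅.Ok Y K) (H : PvloTwin 𝔅 h K g g') {s : 𝔅.V Y → Bool} {σ : ℂ → Bool} (hs : DelbCol 𝔅 s σ) (b : Bool)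
    {a0 a1 : 𝔅.D Y} {a0' a1' : (delPl h).Dart} (h0 : DelbRel 𝔅 h a0 a0') (h1 : DelbRel 𝔅 h a1 a1')
    (h0K : ((delPl h).toMap.src a0' : ℂ) ∈ K) {U : Set ↥Y} (hU : ∀ v ∈ U, (v : ℂ) ∈ K) :
    g.NB s b (pvloUp 𝔅 Y U) a0 a1 ↔ g'.NB (fun v => σ v) b U a0' a1' := by
  have e : {v | v ∈ pvloUp 𝔅 Y U ∧ v ∉ g.verts ∧ s v = b} = pvloUp 𝔅 Y {v | v ∈ U ∧ v ∉ g'.verts ∧ σ v = b} := by
    ext v
    constructor
    · rintro ⟨⟨a, haU, ha⟩, hv, hb⟩
      exact ⟨a, ⟨haU, fun hh => hv ((pvlo_twin_verts H ha hOk).2 hh), by rw [← hs v a ha]; exact hb⟩, ha⟩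
    · rintro ⟨a, ⟨haU, hv, hb⟩, ha⟩
      exact ⟨⟨a, haU, ha⟩, fun hh => hv ((pvlo_twin_verts H ha hOk).1 hh), by rw [hs v a ha]; exact hb⟩
  unfold PvMap.Pth.NB
  rw [e, pvlo_twin_byp hOk H h0 h1 h0K (fun v hv => hU v hv.1)]

theorem pvlo_twin_col (H : PvloTwin 𝔅 h K g g') {s : 𝔅.V Y → Bool} {σ : ℂ → Bool} (hs : DelbCol 𝔅 s σ) (b : Bool) : g.Col s b ↔ g'.Col (fun v => σ v) b := by
  unfold PvMap.Pth.Col
  rw [H.n]
  refine forall_congr' fun k => forall_congr' fun hk => ?_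
  rw [hs _ _ (H.v k hk)]

end twin

/-! ## 3. TR24: arcs of a rim -/

section arc

variable {X : Type} {𝔅 : PvBulk X} {Y K : Set ℂ}

/-- a bulk path through sites of `K` has a twin in the plane -/
theorem pvlo_twin_exists (hOk : 𝔅.Ok Y K) (h : DelGood Y) (g : (𝔅.T Y).Pth) {a : ℕ → ℂ} (ha : ∀ k, k ≤ g.n → 𝔅.lab Y (g.v k) = Sum.inl (a k))
    (haK : ∀ k, k ≤ g.n → a k ∈ K) : ∃ g' : (delPl h).toMap.Pth, PvloTwin 𝔅 h K g g' ∧ ∀ k, k ≤ g.n → (g'.v k : ℂ) = a k := by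
  classical
  have hY : ∀ k, k ≤ g.n → a k ∈ Y := fun k hk => hOk.site _ _ (ha k hk)
  have hadj : ∀ k, k < g.n → DelAdj Y (a k) (a (k + 1)) := by
    intro k hk
    obtain ⟨b, hb, hab⟩ := (delb_adj_iff h hOk (ha k hk.le) (haK k hk.le)).1 ⟨g.e k, g.src_e k hk, g.tgt_e k hk⟩
    rwa [Sum.inl_injective (hb.symm.trans (ha (k + 1) hk))] at hab
  obtain ⟨b0, hab0⟩ := del_exists_adj h.lf (hY 0 (Nat.zero_le _)) (h.bdd (a 0))
  refine ⟨{ n := g.n
            v := fun k => if hk : k ≤ g.n then ⟨a k, hY k hk⟩ else ⟨a 0, hY 0 (Nat.zero_le _)⟩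
            e := fun k => if hk : k < g.n then delbP h (hadj k hk) else delbP h hab0
            src_e := ?_
            tgt_e := ?_
            inj := ?_ }, ⟨rfl, ?_, ?_⟩, ?_⟩
  · intro i hi
    simp only [dif_pos hi, dif_pos hi.le]
    rfl
  · intro i hi
    simp only [dif_pos hi, dif_pos (Nat.succ_le_of_lt hi)]
    rfl
  · intro i j hi hj hij
    simp only [dif_pos hi, dif_pos hj] at hij
    have e : a i = a j := congrArg Subtype.val hij
    exact g.inj i j hi hj (hOk.inj ((ha i hi).trans (by rw [e]; exact (ha j hj).symm)))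
  · intro k hk
    simp only [dif_pos hk]
    exact ha k hk
  · intro k hk
    simp only [dif_pos hk]
    exact haK k hk
  · intro k hk
    simp only [dif_pos hk]

/-- **TR24 (LOCALITY OF THE ARCS)**.      `c` a rim of ANY bulk family, the vertices number `i, …, i + m` are sites `a 0, …, a m` of `K`.      Then the plane path `g'` through these sites is monochromatic, its right triangles are tags
(white apexes), they carry the same `bary qpart side`, and `g'` has NO RIGHT BYPASS through sites of `K`, the gate darts being ANY darts of the two right sectors cut out by the previous edge `p0` and the next edge `p1` of the rim. -/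
theorem pvlo_arc (hOk : 𝔅.Ok Y K) (h : DelGood Y) {s : 𝔅.V Y → Bool} {σ : ℂ → Bool} (hs : DelbCol 𝔅 s σ) {c : (𝔅.T Y).Cyc} (hc : c.IsRim s) {i m : ℕ}
    (hm0 : 0 < m) (hm : m < c.n) {a : ℕ → ℂ} (ha : ∀ k, k ≤ m → 𝔅.lab Y ((𝔅.T Y).src (c.e (i + k))) = Sum.inl (a k)) (haK : ∀ k, k ≤ m → a k ∈ K) :
    ∃ (g' : (delPl h).toMap.Pth) (p0 p1 : (delPl h).Dart), g'.n = m ∧ (∀ k, k ≤ m → (g'.v k : ℂ) = a k) ∧ PvloTwin 𝔅 h K (c.pth i m) g' ∧
      DelbRel 𝔅 h (c.e (i + c.n - 1)) p0 ∧ DelbRel 𝔅 h (c.e (i + m)) p1 ∧ (delPl h).toMap.tgt p0 = g'.v 0 ∧ (delPl h).toMap.src p1 = g'.v m ∧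
      σ ((delPl h).toMap.src p0) = σ (a 0) ∧ σ ((delPl h).toMap.tgt p1) = σ (a 0) ∧
      g'.Col (fun v => σ v) (σ (a 0)) ∧
      (∀ k, k < m → (delPl h).toMap.Tag (fun v => σ v) ((delPl h).toMap.opp (g'.e k))) ∧
      (∀ k, k < m → 𝔅.Emb Y ((𝔅.T Y).opp (c.e (i + k))) ∧
        (𝔅.T Y).bary (𝔅.pos Y) ((𝔅.T Y).opp (c.e (i + k))) = (delPl h).toMap.bary Subtype.val ((delPl h).toMap.opp (g'.e k)) ∧
        (𝔅.T Y).qpart (𝔅.pos Y) ((𝔅.T Y).opp (c.e (i + k))) = (delPl h).toMap.qpart Subtype.val ((delPl h).toMap.opp (g'.e k)) ∧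
        (𝔅.T Y).side (𝔅.pos Y) ((𝔅.T Y).opp (c.e (i + k))) = (delPl h).toMap.side Subtype.val ((delPl h).toMap.opp (g'.e k))) ∧
      ∀ a0' ∈ (delPl h).toMap.OSec ((delPl h).toMap.opp p0) (g'.e 0), ∀ a1' ∈ (delPl h).toMap.OSec ((delPl h).toMap.opp (g'.e (m - 1))) p1,
        ∀ U : Set ↥Y, (∀ v ∈ U, (v : ℂ) ∈ K) → g'.NB (fun v => σ v) (σ (a 0)) U a0' a1' := by
  have hT := hOk.sph
  have hn : (c.pth i m).n = m := by
    show min m (c.n - 1) = m
    omega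
  obtain ⟨g', H, hv⟩ := pvlo_twin_exists hOk h (c.pth i m) (a := a) (fun k hk => ha k (by rw [hn] at hk; exact hk)) (fun k hk => haK k (by rw [hn] at hk; exact hk))
  rw [hn] at hv
  have hg'n : g'.n = m := by rw [H.n, hn]
  have hrel : ∀ k, k < m → DelbRel 𝔅 h (c.e (i + k)) (g'.e k) := fun k hk => pvlo_twin_rel H (by rw [hn]; exact hk)
  -- the previous and the next edge
  have hper : c.e (i + c.n - 1 + 1) = c.e i := by
    have hp := pl_cyc_pos c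
    rw [show i + c.n - 1 + 1 = i + c.n by omega, c.per]
  have ha0 : 𝔅.lab Y ((𝔅.T Y).src (c.e (i + c.n - 1 + 1))) = Sum.inl (a 0) := by rw [hper]; exact ha 0 (Nat.zero_le _)
  obtain ⟨ap, wp, kp1, -, htp, hcolp, -⟩ := delb_rim_step' hOk hc (i + c.n - 1) ha0 (haK 0 (Nat.zero_le _))
  obtain ⟨an, wn, kn1, -, htn, hcoln, -⟩ := delb_rim_step hOk hc (i + m) (ha m le_rfl) (haK m le_rfl)
  have hadjp : DelAdj Y ap (a 0) := htp.adj.symm
  have hadjn : DelAdj Y (a m) an := htn.adj.symm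
  have hrp : DelbRel 𝔅 h (c.e (i + c.n - 1)) (delbP h hadjp) := ⟨kp1, by rw [c.chain]; exact ha0⟩
  have hrn : DelbRel 𝔅 h (c.e (i + m)) (delbP h hadjn) := ⟨ha m le_rfl, by rw [c.chain]; exact kn1⟩
  have hcol0 : ∀ j, s ((𝔅.T Y).src (c.e j)) = σ (a 0) := fun j => by
    rw [pl_rim_col hc j (i + 0)]; exact hs _ _ (ha 0 (Nat.zero_le _))
  refine ⟨g', delbP h hadjp, delbP h hadjn, hg'n, hv, H, hrp, hrn, Subtype.ext (hv 0 (Nat.zero_le _)).symm, Subtype.ext (hv m le_rfl).symm, ?_, ?_, ?_, ?_, ?_, ?_⟩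
  · show σ ap = σ (a 0)
    rw [← hs _ _ kp1]; exact hcol0 _
  · show σ an = σ (a 0)
    rw [← hs _ _ kn1]; exact hcol0 _
  · intro k hk
    rw [hg'n] at hk
    show σ (g'.v k) = σ (a 0)
    rw [hv k hk, ← hs _ _ (ha k hk)]; exact hcol0 _
  · intro k hk
    exact (delb_tag_iff hOk hs (delb_rel_opp (hrel k hk)) (delb_rim_emb hOk (i + k) (ha k hk.le) (haK k hk.le)).1).1 (pl_rim_tag hc (i + k))
  · intro k hk
    have hE := (delb_rim_emb hOk (i + k) (ha k hk.le) (haK k hk.le)).1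
    have hr := delb_rel_opp (hrel k hk)
    exact ⟨hE, delb_rel_bary hOk hr hE, delb_rel_qpart hOk hr hE, delb_rel_side hr⟩
  · intro a0' h0' a1' h1' U hU
    have hK0 : ((delPl h).toMap.src ((delPl h).toMap.opp (delbP h hadjp)) : ℂ) ∈ K := by
      rw [PvMap.src_opp']; exact haK 0 (Nat.zero_le _)
    have hKm : ((delPl h).toMap.src ((delPl h).toMap.opp (g'.e (m - 1))) : ℂ) ∈ K := by
      rw [PvMap.src_opp', g'.tgt_e (m - 1) (by omega), Nat.sub_add_cancel hm0, hv m le_rfl]; exact haK m le_rfl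
    obtain ⟨a0, hr0, hs0⟩ := pvlo_osec_up hOk (delb_rel_opp hrp) (hrel 0 hm0) hK0 h0'
    obtain ⟨a1, hr1, hs1⟩ := pvlo_osec_up hOk (delb_rel_opp (hrel (m - 1) (by omega))) hrn hKm h1'
    have e0 : c.e (i + 0) = c.e (i + c.n - 1 + 1) := hper.symm
    rw [e0] at hs0
    have e1 : c.e (i + m) = c.e (i + (m - 1) + 1) := by rw [show i + (m - 1) + 1 = i + m by omega]
    rw [e1] at hs1
    have q0 := (pvnb_sec_cyc hT c _ _).1 hs0
    have q1 := (pvnb_sec_cyc hT c _ _).1 hs1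
    rw [hper] at q0
    rw [← e1] at q1
    have hact := pvnb_act hT hc (g := c.pth i m) (i := i) (by rw [hn]; exact hm0) (fun k _ => rfl) (a0 := a0) (a1 := a1) q0 (by rw [hn]; exact q1) (pvloUp 𝔅 Y U)
    have hsrc0 : ((delPl h).toMap.src a0' : ℂ) ∈ K := by
      rw [pvnb_sec_src h0']; exact hK0
    have := (pvlo_twin_nb hOk H hs (s ((𝔅.T Y).src (c.e 0))) hr0 hr1 hsrc0 hU).1 hact.2
    rwa [hcol0 0] at this

end arc

/-! ## 4. (D): a circuit of the other colour makes `NB^U` global -/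

section circ

variable {V D : Type} {T : PvMap V D}

/-- **(D)**: `Z` a circuit none of whose vertices has the colour `b`, `g` strictly inside, all inner vertices of `Z` in `U`: then `NB^U` is `NB^univ` -/
theorem pvlo_nb_univ (hT : T.IsSph) {g : T.Pth} {s : V → Bool} {b : Bool} {U : Set V} {a0 a1 : D} (h0 : T.src a0 = g.v 0) (Z : T.Cyc)
    (hZ : ∀ i, s (T.src (Z.e i)) ≠ b) (hg : ∀ k, k ≤ g.n → g.v k ∈ T.Int Z.Left) (hU : T.Int Z.Left ⊆ U) (hNB : g.NB s b U a0 a1) : g.NB s b Set.univ a0 a1 := by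
  rintro ⟨k, l, hk, hl, hkl, d, hd, hw⟩
  refine hNB ⟨k, l, hk, hl, hkl, d, hd, ?_⟩
  have hsrc : T.src d = g.v k := by
    rw [pvnb_sec_src hd]
    by_cases hk0 : k = 0
    · rw [if_pos hk0, hk0]; exact h0
    · rw [if_neg hk0, T.src_opp', g.tgt_e (k - 1) (by omega), Nat.sub_add_cancel (by omega)]
  have hstart : T.tgt d ∈ T.VOf Z.Left := (pl_int_edge hT Z (d := d) (by rw [hsrc]; exact hg k hk)).2.2
  have key : ∀ u w, ReflTransGen (fun x y => T.Adj x y ∧ x ∈ {v | v ∈ Set.univ ∧ v ∉ g.verts ∧ s v = b}) u w → u ∈ T.VOf Z.Left →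
      ReflTransGen (fun x y => T.Adj x y ∧ x ∈ {v | v ∈ U ∧ v ∉ g.verts ∧ s v = b}) u w ∧ w ∈ T.VOf Z.Left := by
    intro u w huw hu
    induction huw with
    | refl => exact ⟨ReflTransGen.refl, hu⟩
    | @tail x y _ hxy ih =>
      obtain ⟨ih1, ih2⟩ := ih
      rw [pl_VOf_left hT Z] at ih2
      have hxI : x ∈ T.Int Z.Left := by
        rcases ih2 with ⟨j, hj⟩ | hx
        · exact absurd (by rw [hj]; exact hxy.2.2.2) (hZ j)
        · exact hx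
      obtain ⟨e, he1, he2⟩ := hxy.1
      refine ⟨ReflTransGen.tail ih1 ⟨hxy.1, hU hxI, hxy.2.2.1, hxy.2.2.2⟩, ?_⟩
      rw [← he2]
      exact (pl_int_edge hT Z (d := e) (by rw [he1]; exact hxI)).2.2
  exact (key _ _ hw hstart).1

end circ

/-! ## 5. The `PvbRim` form -/

section enc

variable {X : Type} (𝔅 : PvBulk X) {Y : Set ℂ}

/-- a vertex whose encoded position is within `6R` of `x` is a site -/
theorem pvlo_lab_of_near {x : ℂ} {R : ℝ} (hR : 0 < R) {v : 𝔅.V Y} (hv : ‖𝔅.posF Y (x + 7 * R) v - x‖ ≤ 6 * R) :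
    𝔅.lab Y v = Sum.inl (𝔅.posF Y (x + 7 * R) v) := by
  unfold PvBulk.posF at hv ⊢
  cases hl : 𝔅.lab Y v with
  | inl a => rfl
  | inr e =>
    exfalso
    rw [hl] at hv
    simp only [Sum.elim_inr, add_sub_cancel_left] at hv
    rw [norm_mul, Complex.norm_real, Real.norm_eq_abs, abs_of_pos hR] at hv
    norm_num at hv
    linarith

theorem pvlo_posF_inl {zi : ℂ} {v : 𝔅.V Y} {a : ℂ} (h : 𝔅.lab Y v = Sum.inl a) : 𝔅.posF Y zi v = a := by
  unfold PvBulk.posF; rw [h]; rfl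

end enc

/-- **LOCALITY, in the form consumed by the wall** (`Exit/Tr.lean`, 187).      `P` = an encoded reaching rim of ANY completion of the sample `ω`; the vertices number `i, …, i + m` lie in `closedBall x (6R)`.
Then they form a path `g` of the DELAUNAY PLANE of the sample: monochromatic, right triangles = tags with the field values of `P`, previous edge `p0`, next edge `p1` of the same colour, and NO RIGHT BYPASS through sites of
`closedBall x (6R)`, for all gate darts in the two end sectors. -/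
theorem pvlo_all {x : ℂ} {R : ℝ} (hR : 0 < R) {ω : PVSample} (h : DelGood (cfSites (pvConf ω))) {P : PvbRim} (hP : P ∈ l9All x R ω) {i m : ℕ}
    (hm0 : 0 < m) (hm : m < P.len) (hin : ∀ k, k ≤ m → ‖P.v (i + k) - x‖ ≤ 6 * R) :
    ∃ (g : (delPl h).toMap.Pth) (p0 p1 : (delPl h).Dart), g.n = m ∧ (∀ k, k ≤ m → (g.v k : ℂ) = P.v (i + k)) ∧
      (delPl h).toMap.tgt p0 = g.v 0 ∧ (delPl h).toMap.src p1 = g.v m ∧
      ((delPl h).toMap.src p0 : ℂ) = P.v (i + P.len - 1) ∧ ((delPl h).toMap.tgt p1 : ℂ) = P.v (i + m + 1) ∧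
      cfCol (pvConf ω) ((delPl h).toMap.src p0) = cfCol (pvConf ω) (P.v i) ∧ cfCol (pvConf ω) ((delPl h).toMap.tgt p1) = cfCol (pvConf ω) (P.v i) ∧
      g.Col (fun v => cfCol (pvConf ω) v) (cfCol (pvConf ω) (P.v i)) ∧
      (∀ k, k < m → (delPl h).toMap.Tag (fun v => cfCol (pvConf ω) v) ((delPl h).toMap.opp (g.e k))) ∧
      (∀ k, k < m → P.z (i + k) = (delPl h).toMap.bary Subtype.val ((delPl h).toMap.opp (g.e k)) ∧
        P.xQ (i + k) = (delPl h).toMap.qpart Subtype.val ((delPl h).toMap.opp (g.e k)) ∧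
        P.xV (i + k) = (delPl h).toMap.side Subtype.val ((delPl h).toMap.opp (g.e k))) ∧
      ∀ a0 ∈ (delPl h).toMap.OSec ((delPl h).toMap.opp p0) (g.e 0), ∀ a1 ∈ (delPl h).toMap.OSec ((delPl h).toMap.opp (g.e (m - 1))) p1,
        ∀ U : Set ↥(cfSites (pvConf ω)), (∀ v ∈ U, (v : ℂ) ∈ Metric.closedBall x (6 * R)) →
          g.NB (fun v => cfCol (pvConf ω) v) (cfCol (pvConf ω) (P.v i)) U a0 a1 := by
  obtain ⟨X, _, 𝔅, ξ, -, hOk, c, hc, -, rfl⟩ := l9a_mem hP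
  have ha : ∀ k, k ≤ m → 𝔅.lab (cfSites (pvConf ω)) ((𝔅.T (cfSites (pvConf ω))).src (c.e (i + k))) =
      Sum.inl ((fun k => (𝔅.enc (cfSites (pvConf ω)) (x + 7 * R) c).v (i + k)) k) := fun k hk => pvlo_lab_of_near 𝔅 hR (hin k hk)
  have haK : ∀ k, k ≤ m → (fun k => (𝔅.enc (cfSites (pvConf ω)) (x + 7 * R) c).v (i + k)) k ∈ Metric.closedBall x (6 * R) := fun k hk => by
    rw [mem_closedBall_iff_norm]; exact hin k hk
  obtain ⟨g, p0, p1, h1, h2, -, h3, h4, h5, h6, h7, h8, h9, h10, h11, h12⟩ := pvlo_arc hOk h (delb_col 𝔅 (pvConf ω) ξ) hc hm0 hm ha haK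
  refine ⟨g, p0, p1, h1, h2, h5, h6, ?_, ?_, h7, h8, h9, h10, ?_, h12⟩
  · exact (pvlo_posF_inl 𝔅 h3.1).symm
  · have := h4.2
    rw [c.chain] at this
    exact (pvlo_posF_inl 𝔅 this).symm
  · intro k hk
    obtain ⟨hE, e1, e2, e3⟩ := h11 k hk
    refine ⟨?_, ?_, ?_⟩
    · rw [← e1]; unfold PvBulk.enc; exact if_pos hE
    · rw [← e2]; unfold PvBulk.enc; exact if_pos hE
    · rw [← e3]; unfold PvBulk.enc; exact if_pos hE

end Claimed.Agent.R289
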