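-- KEEP
import Claimed.Agent.R289.Cr.Inst
import Claimed.Agent.R289.Tr.Di
import Claimed.Agent.R289.Tr.Close
import Claimed.Agent.R289.Tr.Defs
import Claimed.Agent.R289.Tr.Loc
import Claimed.Agent.R289.Tr.OneWall
import Claimed.Agent.R289.Tr.AtUniq
import Claimed.Agent.R289.Defs.TrModel

/-!
# Row 289 (S0537, Cardy for Poisson-Voronoi), unit TR, file Tr/Dict : THE DICTIONARY `Act_g ⟹ pvbArcI (enc P; s,t) = X_g`, TR14 (MASK), THE EXACT `V` IDENTITY (A4)      (owner helper195; prefix `pvdc_`, `Pvdc`, `pvdc`)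

Blueprint: `origin/helper295:notes/R289/TR_295.md` (R5, TR13, TR14, TR28, TR32), `origin/helper6:notes/R289/W2c_6.md` sec. 1 (`X_g`, `m_s`, `Act_g`) and D4, `origin/helper7:notes/R289/LM_7.md` (D.5, (A1), (A4)).
Vocabulary: `PvbRim PvbPin PvbInCut pvbArcI PvbRealArc PvbRimGood` (`S6b/Det.lean`, 210), `𝔅.enc 𝔅.posF 𝔅.rimsAt` (`Cr/Inst.lean`, 161 139 56), `PvdiGates PvdiPass pvdiMenu` (`Tr/Di.lean`, 212), `Pth psum` (`Pl/Path.lean`, `Tr/Close.lean`, 57 202).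
DETERMINISTIC, MODEL FREE.   No probability, no planarity: planarity enters through `PvdiGates` (212) and through the export of TR13 (a hypothesis `hclose` here).

* sec. 1  INDEX FORM.   `PvdcWin 𝔐 h P s l2 l1 r1 r2` = the WINDOWS of the pin `s` on the rim `P`: `[l1,r1)` = the edges of the passage through the first gate (their tags lie in the cut-off disc),
          `[l2,r2)` = the edges of the passage through the second gate (they carry ALL the tags of `P` in the cut-off disc).   `pvdcM` (mass of a cut-off disc on an index interval), `pvdcA` (mass of an index interval off both discs).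
          **`pvdc_idx`** : `pvbArcI = pvdcM s [l2,r2) + pvdcA [r1(s), l1(t))`.      **`pvdc_split`** : `pvbArcI = ∑_{[idx s, idx t)} x + pvdcM s [l2(s), idx s) - pvdcM t [l2(t), idx t)`.
* sec. 2  (A4).   `pvdcPhi` (the potential of a pin),  **`pvdc_V`** : `I_V(P;s,t) = (ctr t - ctr s) + Φ(t) - Φ(s)` EXACTLY (`a^V = 1`);   `pvdc_lin`;   **`pvdc_realArc`** : the `Q`-form of (A1) with the term `a (ctr t - ctr s)` + (A4) ⟹ `PvbRealArc` for `xQ - a xV`.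
* sec. 3  GATES ⟹ WINDOWS.   **`pvdc_win_of_gates`** : the three gates of 212 give the windows `(lo 1, lo 0, hi 0, hi 1)` for the menu `pvdiMenu`;   `pvdc_order` : the passages of two separated pins are ordered.
* sec. 4  PATHS.   `pvdcW` (masked dart weight), `pvdcCut` (cut-off disc), `pvdcX` = **`X_g`**, `PvdcArc c p a b` (`p` = the arc `[a,b]` of the cycle `c`), `PvdcAct` = **`Act_g`**;   **`pvdc_dict`** : `Act_g ⟹ pvbArcI = X_g`;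
          `pvdc_arc_of_darts` (an arc is recognised by its two ends),  `pvdc_act_of_gates`.
* sec. 5  THE ENCODING.   `pvdcZ pvdcQ pvdcV` (dart functions of a bulk family),  **`pvdc_dict_enc`** (`Q`, `V`, `Q - aV`),  `pvdc_enc_xV` (`xV k = v (k+1) - v k` near the patch),  **`pvdc_V_enc`**.
* sec. 6  TR14.   `pvdcTot` (sum over a closed chain of arcs),  **`pvdc_mask`** (regrouping),  `pvdc_whole_cyc`, `pvdc_whole_lsum` (D4: the whole mass of the rim in a cut-off disc is `m_s`),  **`pvdc_tr14`** : `Q_π(1) = ∑_e X_e`,  **`pvdc_X_mask`** : `X_e = Q_π(1_M)`, `M = B_s ∪ (T_e \ (B_s ∪ B_t))`.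
* sec. 7  `V` on paths and cycles: `pvdc_psum_side` (telescoping), `pvdc_cyc_side` (`V_π(1) = 0`).
* sec. 8  THE DATUM OF RECORD (`Tr/Defs.lean`, 216 / 208).   **`pvdc_X_dat`** : the three windows of `P` are read on `s.inn`, `g₀`, `t.inn` (output of `pvlo_all`) + `hcut` ⟹ `pvbArcI (P;s,t) = 𝔇.X pos w N h π` for every `w`;
          **`pvdc_XY_dat`** : `𝔇.X + 𝔇.Yof y = ` plain sum of `w` over the four pieces (TR14 for the datum).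
* sec. 9  GATE TRAP.   `pvdc_gate_sep`, `PvdcWindow` (window property), **`pvdc_gate_trap`** (encoded rim of ANY completion, gate `PvwSt.Gate` of the plane map), **`pvdc_hcut`**.
* sec. 10 THE MODEL OF RECORD (`Defs/TrModel.lean`, 187; `pvlo_all`, 278).   `pvdc_all_win pvdc_all_col pvdc_all_inj pvdc_all_mesh pvdc_all_window` (encoded rims of ALL completions against the plane map `pvxT ω`), `pvdc_inn_facts`,
          **`pvdc_X_model`** : `P ∈ pvhbAll x R ω`, `PvxActual 𝔇 N h π b P j`, arc in `clB(x,6R)`, mesh ⟹ `pvbArcI 𝔐 h P (xQ - a xV) s t = 𝔇.X (pvxPos ω) (qpart - a side) N h π`.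
* sec. 11 PINS, READINGS, CUT POINTS AT THE MODEL.   `PvdcMesh` (`pvdc_mesh_of_fine`), `pvdc_trap_model`, `pvdc_cut_model`, `pvdc_isPin_gate`, `pvdc_read_path`, `PvdcRun`, `pvdc_run_read`, `pvdcCV` (= `cV` of 283, ruling 12 of 234), `pvdc_CV_off`, `pvdc_CV_congr`,
          **`pvdc_tel_model`** (`I_V = cV(Σ(t)) - cV(Σ(s))` exactly), `pvdc_X_run pvdc_XQ_run pvdc_XV_run`;   AT `PvxPar`: **`pvdc_isPin_model`** (`s ∈ pvxPins ⟹ PvbIsPin`, deterministic half of roof PINS), **`pvdc_fit_model`** (`pvxFit ⟹ ∃ 𝔇 j, I_Q = X(D) ∧ I_V = cV - cV`).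
* sec. 12 LINKS, CHAINS, CYCLES (TR14 for chains of plugs; model free).   `pvdcVal pos w B B' 𝔖 𝔖' y` (= `PvwDat.X`, `PvwDat.Yof`, `PvieLk.val`), `pvdcEnt`, masks `PvdcLk` (`pvdc_lk_of_far`), **`pvdc_val_eq`** (value = Ent − Ent' + PLAIN sum mark → mark'),
          `pvdc_val_side` (`V`: value = cV' − cV), `pvdc_chain`, **`pvdc_cycle`** (closed chain: ∑ values = ∑ plain sums of the pieces), **`pvdc_split_link`** (a long link = the sum of the short links through intermediate plugs), `pvdcRing`, **`pvdc_cycle_lsum`** (`T.lsum = ∑ values`, over `pvow_ring`).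
* sec. 13 THE FIELD `tel` OF `PvtyLocQ` AT THE MODEL.   `pvdcCVm 𝔓 m z t ω` (cut point of THE state; `pvdc_CVm_eq` over `pvuq_model` of 150), `pvdc_tel_det`, `pvdc_fine_lim`, **`pvdc_tel_prob`** (= `tel` verbatim over `pvhbUp`, `pvhbAll`, `pvxPins`, `pvxFit`, at the levels with `L h_m < R`).
          TrModel v4 (clause (b2) of `pvxPatSet`): `pvdc_pat_b`, `pvdc_fit_model_b`, `pvdc_tel_det_b`, **`pvdc_tel_prob_b`** = THE FIELD `tel` OF `PvnaV` / `PvnaVL` (271) VERBATIM, every level, every patch, any good part; only hypothesis `∀ t, (𝔓.ty t).b ≤ (𝔓.ty t).b2` (true at `pvxParOf`).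
-/

set_option autoImplicit false

namespace Claimed.Agent.R289

open Finset

/-! ## 1. The index form -/

section idx

variable {τ : Type}

/-- **WINDOWS** of the pin `s` on the rim `P` -/
structure PvdcWin (𝔐 : PvbMenu τ) (h : ℝ) (P : PvbRim) (s : PvbPin τ) (l2 l1 r1 r2 : ℕ) : Prop where
  l21 : l2 ≤ l1
  l1i : l1 ≤ s.idx
  ir1 : s.idx ≤ r1
  r12 : r1 ≤ r2
  r2n : r2 ≤ P.len
  /-- all the tags of the rim in the cut-off disc belong to the second passage -/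
  cut_in : ∀ k, k < P.len → PvbInCut 𝔐 h s.ctr s.typ (P.z k) → l2 ≤ k ∧ k < r2
  /-- the tags of the first passage lie in the cut-off disc -/
  in_cut : ∀ k, l1 ≤ k → k < r1 → PvbInCut 𝔐 h s.ctr s.typ (P.z k)

open Classical in
/-- the mass of the cut-off disc of `s` on the edges number `a ≤ k < b` -/
noncomputable def pvdcM (𝔐 : PvbMenu τ) (h : ℝ) (P : PvbRim) (x : ℕ → ℂ) (s : PvbPin τ) (a b : ℕ) : ℂ :=
  ∑ k ∈ (Ico a b).filter (fun k => PvbInCut 𝔐 h s.ctr s.typ (P.z k)), x k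

open Classical in
/-- the mass of the edges number `a ≤ k < b` with tag outside both cut-off discs -/
noncomputable def pvdcA (𝔐 : PvbMenu τ) (h : ℝ) (P : PvbRim) (x : ℕ → ℂ) (s t : PvbPin τ) (a b : ℕ) : ℂ :=
  ∑ k ∈ (Ico a b).filter (fun k => ¬ PvbInCut 𝔐 h s.ctr s.typ (P.z k) ∧ ¬ PvbInCut 𝔐 h t.ctr t.typ (P.z k)), x k

/-- the potential of a pin for the field `x`: `v_idx - ctr - (mass of the cut-off disc before the pin)` -/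
noncomputable def pvdcPhi (𝔐 : PvbMenu τ) (h : ℝ) (P : PvbRim) (x : ℕ → ℂ) (s : PvbPin τ) (l2 : ℕ) : ℂ :=
  P.v s.idx - s.ctr - pvdcM 𝔐 h P x s l2 s.idx

theorem pvdc_eqns_cite1 : True := by
  have := @pvdcM.eq_1; have := @pvdcA.eq_1; have := @pvdcPhi.eq_1
  trivial

variable {𝔐 : PvbMenu τ} {h : ℝ} {P : PvbRim}

theorem pvdc_arcI_eq (x : ℕ → ℂ) (s t : PvbPin τ) : pvbArcI 𝔐 h P x s t = pvdcM 𝔐 h P x s 0 P.len + pvdcA 𝔐 h P x s t s.idx t.idx := by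
  unfold pvbArcI pvdcM pvdcA
  rw [range_eq_Ico]

/-- the mass of a cut-off disc only sees the indices of its tags -/
theorem pvdc_M_restrict (x : ℕ → ℂ) (s : PvbPin τ) {a b a' b' : ℕ} (ha : a ≤ a') (hb : b' ≤ b)
    (hc : ∀ k, a ≤ k → k < b → PvbInCut 𝔐 h s.ctr s.typ (P.z k) → a' ≤ k ∧ k < b') : pvdcM 𝔐 h P x s a b = pvdcM 𝔐 h P x s a' b' := by
  unfold pvdcM
  refine sum_congr ?_ fun _ _ => rfl
  ext k
  simp only [mem_filter, mem_Ico]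
  constructor
  · rintro ⟨⟨h1, h2⟩, h3⟩
    exact ⟨hc k h1 h2 h3, h3⟩
  · rintro ⟨⟨h1, h2⟩, h3⟩
    exact ⟨⟨ha.trans h1, h2.trans_le hb⟩, h3⟩

theorem pvdc_M_add (x : ℕ → ℂ) (s : PvbPin τ) {a b c : ℕ} (hab : a ≤ b) (hbc : b ≤ c) :
    pvdcM 𝔐 h P x s a c = pvdcM 𝔐 h P x s a b + pvdcM 𝔐 h P x s b c := by
  unfold pvdcM
  rw [sum_filter, sum_filter, sum_filter, sum_Ico_consecutive _ hab hbc]

/-- three masks: the disc of `s`, the disc of `t`, the rest -/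
theorem pvdc_three (x : ℕ → ℂ) (s t : PvbPin τ) {a b : ℕ}
    (hd : ∀ k, a ≤ k → k < b → PvbInCut 𝔐 h s.ctr s.typ (P.z k) → PvbInCut 𝔐 h t.ctr t.typ (P.z k) → False) :
    ∑ k ∈ Ico a b, x k = pvdcM 𝔐 h P x s a b + pvdcM 𝔐 h P x t a b + pvdcA 𝔐 h P x s t a b := by
  unfold pvdcM pvdcA
  rw [sum_filter, sum_filter, sum_filter, ← sum_add_distrib, ← sum_add_distrib]
  refine sum_congr rfl fun k hk => ?_
  obtain ⟨h1, h2⟩ := mem_Ico.1 hk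
  by_cases hs : PvbInCut 𝔐 h s.ctr s.typ (P.z k)
  · have ht : ¬ PvbInCut 𝔐 h t.ctr t.typ (P.z k) := fun ht => hd k h1 h2 hs ht
    simp [hs, ht]
  · by_cases ht : PvbInCut 𝔐 h t.ctr t.typ (P.z k) <;> simp [hs, ht]

/-- D4, index form: the WHOLE mass of the rim in the cut-off disc is read on the second passage -/
theorem pvdc_whole {s : PvbPin τ} {l2 l1 r1 r2 : ℕ} (w : PvdcWin 𝔐 h P s l2 l1 r1 r2) (x : ℕ → ℂ) :
    pvdcM 𝔐 h P x s 0 P.len = pvdcM 𝔐 h P x s l2 r2 :=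
  pvdc_M_restrict x s (Nat.zero_le _) w.r2n fun k _ h2 h3 => w.cut_in k h2 h3

/-- the forward arc off both discs starts at the exit of the first gate of `s` and ends at the entry of the first gate of `t` -/
theorem pvdc_arc {s t : PvbPin τ} {l2 l1 r1 r2 l2' l1' r1' r2' : ℕ} (ws : PvdcWin 𝔐 h P s l2 l1 r1 r2) (wt : PvdcWin 𝔐 h P t l2' l1' r1' r2')
    (x : ℕ → ℂ) : pvdcA 𝔐 h P x s t s.idx t.idx = pvdcA 𝔐 h P x s t r1 l1' := by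
  unfold pvdcA
  refine sum_congr ?_ fun _ _ => rfl
  ext k
  simp only [mem_filter, mem_Ico]
  constructor
  · rintro ⟨⟨h1, h2⟩, h3, h4⟩
    refine ⟨⟨?_, ?_⟩, h3, h4⟩
    · by_contra hn
      exact h3 (ws.in_cut k (ws.l1i.trans h1) (not_le.1 hn))
    · by_contra hn
      exact h4 (wt.in_cut k (not_lt.1 hn) (h2.trans_le wt.ir1))
  · rintro ⟨⟨h1, h2⟩, h3, h4⟩
    exact ⟨⟨ws.ir1.trans h1, h2.trans_le wt.l1i⟩, h3, h4⟩

/-- **THE DICTIONARY, index form** -/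
theorem pvdc_idx {s t : PvbPin τ} {l2 l1 r1 r2 l2' l1' r1' r2' : ℕ} (ws : PvdcWin 𝔐 h P s l2 l1 r1 r2) (wt : PvdcWin 𝔐 h P t l2' l1' r1' r2')
    (x : ℕ → ℂ) : pvbArcI 𝔐 h P x s t = pvdcM 𝔐 h P x s l2 r2 + pvdcA 𝔐 h P x s t r1 l1' := by
  rw [pvdc_arcI_eq, pvdc_whole ws, pvdc_arc ws wt]

/-- **SPLIT**: `I_x(P;s,t)` = the plain sum over the arc from `s` to `t`, corrected by two terms which are local at `s` and at `t` -/
theorem pvdc_split {s t : PvbPin τ} {l2 l1 r1 r2 l2' l1' r1' r2' : ℕ} (ws : PvdcWin 𝔐 h P s l2 l1 r1 r2) (wt : PvdcWin 𝔐 h P t l2' l1' r1' r2')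
    (hst : r2 ≤ l2') (x : ℕ → ℂ) :
    pvbArcI 𝔐 h P x s t = ∑ k ∈ Ico s.idx t.idx, x k + pvdcM 𝔐 h P x s l2 s.idx - pvdcM 𝔐 h P x t l2' t.idx := by
  have hlen : t.idx ≤ P.len := wt.ir1.trans (wt.r12.trans wt.r2n)
  have h1 : s.idx ≤ r2 := ws.ir1.trans ws.r12
  have h2 : l2' ≤ t.idx := wt.l21.trans wt.l1i
  have e1 : pvdcM 𝔐 h P x s s.idx t.idx = pvdcM 𝔐 h P x s s.idx r2 :=
    pvdc_M_restrict x s le_rfl (hst.trans h2) fun k a1 a2 a3 => ⟨a1, (ws.cut_in k (a2.trans_le hlen) a3).2⟩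
  have e2 : pvdcM 𝔐 h P x t s.idx t.idx = pvdcM 𝔐 h P x t l2' t.idx :=
    pvdc_M_restrict x t (h1.trans hst) le_rfl fun k _ a2 a3 => ⟨(wt.cut_in k (a2.trans_le hlen) a3).1, a2⟩
  have e3 := pvdc_three (𝔐 := 𝔐) (h := h) (P := P) x s t (a := s.idx) (b := t.idx) fun k _ a2 a3 a4 => by
    have b1 := (ws.cut_in k (a2.trans_le hlen) a3).2
    have b2 := (wt.cut_in k (a2.trans_le hlen) a4).1
    omega
  rw [pvdc_arcI_eq, pvdc_whole ws, pvdc_M_add x s (ws.l21.trans ws.l1i) h1, e3, e1, e2]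
  ring

end idx

/-! ## 2. The exact `V` identity (A4), linearity, the real arc -/

section vid

variable {τ : Type} {𝔐 : PvbMenu τ} {h : ℝ} {P : PvbRim}

/-- telescoping -/
theorem pvdc_tele (v x : ℕ → ℂ) {a b : ℕ} (hab : a ≤ b) (hx : ∀ k, a ≤ k → k < b → x k = v (k + 1) - v k) : ∑ k ∈ Ico a b, x k = v b - v a := by
  induction b, hab using Nat.le_induction with
  | base => simp
  | succ b hb ih =>
    rw [sum_Ico_succ_top hb, ih fun k h1 h2 => hx k h1 (h2.trans (Nat.lt_succ_self b)), hx b hb (Nat.lt_succ_self b)]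
    ring

/-- **(A4), THE EXACT `V` IDENTITY**: for a field which is the edge vector along the arc from `s` to `t`, `I(P;s,t) = (ctr t - ctr s) + Φ(t) - Φ(s)`; the coefficient of the displacement is EXACTLY `1` -/
theorem pvdc_V {s t : PvbPin τ} {l2 l1 r1 r2 l2' l1' r1' r2' : ℕ} (ws : PvdcWin 𝔐 h P s l2 l1 r1 r2) (wt : PvdcWin 𝔐 h P t l2' l1' r1' r2')
    (hst : r2 ≤ l2') (x : ℕ → ℂ) (hx : ∀ k, s.idx ≤ k → k < t.idx → x k = P.v (k + 1) - P.v k) :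
    pvbArcI 𝔐 h P x s t = (t.ctr - s.ctr) + pvdcPhi 𝔐 h P x t l2' - pvdcPhi 𝔐 h P x s l2 := by
  have hle : s.idx ≤ t.idx := (ws.ir1.trans ws.r12).trans (hst.trans (wt.l21.trans wt.l1i))
  rw [pvdc_split ws wt hst, pvdc_tele P.v x hle hx]
  unfold pvdcPhi
  ring

/-- `I_x` is linear in the field -/
theorem pvdc_lin (x y : ℕ → ℂ) (a : ℂ) (s t : PvbPin τ) :
    pvbArcI 𝔐 h P (fun k => x k - a * y k) s t = pvbArcI 𝔐 h P x s t - a * pvbArcI 𝔐 h P y s t := by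
  unfold pvbArcI
  rw [sum_sub_distrib, sum_sub_distrib, ← mul_sum, ← mul_sum]
  ring

/-- **REAL ARC from its `Q`-form and (A4)**: upstream proves `I_Q = a (ctr t - ctr s) + βQ(s) + ΨQ(t) ± Err` and the exact identity `I_V = (ctr t - ctr s) + ΦV(t) - βV(s)`; the displacement disappears -/
theorem pvdc_realArc {x : ℂ} {R : ℝ} {pins : Set (PvbPin τ)} (a : ℂ) (βQ βV : PvbPin τ → ℂ) (ΨQ ΦV : ℂ → τ → ℂ) (Err : ℝ)
    (hQ : ∀ s ∈ pins, ∀ t ∈ pins, s.idx < t.idx → (∀ k, s.idx ≤ k → k ≤ t.idx → ‖P.v k - x‖ ≤ 2 * R) → R / 3 ≤ ‖s.ctr - t.ctr‖ →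
      ‖pvbArcI 𝔐 h P P.xQ s t - a * (t.ctr - s.ctr) - βQ s - ΨQ t.ctr t.typ‖ ≤ Err)
    (hV : ∀ s ∈ pins, ∀ t ∈ pins, s.idx < t.idx → (∀ k, s.idx ≤ k → k ≤ t.idx → ‖P.v k - x‖ ≤ 2 * R) → R / 3 ≤ ‖s.ctr - t.ctr‖ →
      pvbArcI 𝔐 h P P.xV s t = (t.ctr - s.ctr) + ΦV t.ctr t.typ - βV s) :
    PvbRealArc 𝔐 x R h P pins (fun k => P.xQ k - a * P.xV k) (fun s => βQ s + a * βV s) (fun g u => ΨQ g u - a * ΦV g u) Err := by
  intro s hs t ht hst hin hsep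
  have h1 := hQ s hs t ht hst hin hsep
  have h2 := hV s hs t ht hst hin hsep
  rw [pvdc_lin, h2]
  have e : pvbArcI 𝔐 h P P.xQ s t - a * (t.ctr - s.ctr + ΦV t.ctr t.typ - βV s) - (βQ s + a * βV s) - (ΨQ t.ctr t.typ - a * ΦV t.ctr t.typ)
      = pvbArcI 𝔐 h P P.xQ s t - a * (t.ctr - s.ctr) - βQ s - ΨQ t.ctr t.typ := by ring
  rw [e]
  exact h1

end vid

/-! ## 3. The gates of helper212 give the windows -/

section gates

variable {V D : Type} {T : PvMap V D} {pos : V → ℂ} {col : V → Bool} {b : Bool}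

/-- **GATES ⟹ WINDOWS**: first gate = trial `t.idx 0` (inside the cut-off disc of radius `100 B_{i₁} h`), second gate = trial `t.idx 1` (it contains the disc of radius `A_{i₂} h ≥ 10⁴ B_{i₁} h`) -/
theorem pvdc_win_of_gates {z : ℂ} {h M μ : ℝ} {γ : T.Cyc} {i₀ n : ℕ} {t : PvdiTri n} {G : Fin 3 → Set D} {X : Fin 3 → Finset V} {lo hi : Fin 3 → ℕ}
    (hM : 1 ≤ M) (hh : 0 < h) (hμh : μ ≤ h) (H : PvdiGates T pos col b z h M μ γ i₀ t.idx G X lo hi) (P : PvbRim) (hlen : P.len = γ.n)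
    (hv : ∀ k, P.v k = pos (T.src (γ.e k)))
    (hz : ∀ k, k < P.len → (‖P.v k - z‖ ≤ 100 * pvdiO M (t.idx 0) * h ∨ ‖P.z k - z‖ ≤ 100 * pvdiO M (t.idx 0) * h) → ‖P.z k - P.v k‖ ≤ μ) :
    PvdcWin (pvdiMenu M n hM) h P ⟨i₀, z, t⟩ (lo 1) (lo 0) (hi 0) (hi 1) := by
  have hO : 30 ≤ pvdiO M (t.idx 0) := (pvdi_A_ge hM _).trans (pvdi_O_ge hM _)
  have hOA := pvdi_O_lt_A hM t.lt01
  have hOh : 30 * h ≤ pvdiO M (t.idx 0) * h := mul_le_mul_of_nonneg_right hO hh.le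
  have hAh : 10 ^ 4 * pvdiO M (t.idx 0) * h ≤ pvdiA M (t.idx 1) * h := mul_le_mul_of_nonneg_right hOA hh.le
  refine ⟨H.lo10.le, (H.pass 0).lo_lt.le, (H.pass 0).lt_hi.le, H.hi01.le, by rw [hlen]; exact (H.pass 1).hi_lt.le, ?_, ?_⟩
  · intro k hk hc
    have hc' : ‖P.z k - z‖ ≤ 100 * pvdiO M (t.idx 0) * h := hc
    have h1 := hz k hk (Or.inr hc')
    have h2 : ‖P.v k - z‖ ≤ pvdiA M (t.idx 1) * h := by
      calc ‖P.v k - z‖ = ‖(P.z k - z) - (P.z k - P.v k)‖ := by ring_nf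
        _ ≤ ‖P.z k - z‖ + ‖P.z k - P.v k‖ := norm_sub_le _ _
        _ ≤ pvdiA M (t.idx 1) * h := by linarith
    rw [hv] at h2
    have h3 := H.visit 1 k (by rw [← hlen]; exact hk.le) h2
    exact ⟨h3.1.le, h3.2⟩
  · intro k h1 h2
    have h3 := H.diam 0 k h1 h2.le
    rw [← hv] at h3
    have hk : k < P.len := by
      rw [hlen]
      exact h2.trans (H.hi01.trans (H.pass 1).hi_lt)
    have h4 := hz k hk (Or.inl (by linarith))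
    show ‖P.z k - z‖ ≤ 100 * pvdiO M (t.idx 0) * h
    calc ‖P.z k - z‖ = ‖(P.z k - P.v k) + (P.v k - z)‖ := by ring_nf
      _ ≤ ‖P.z k - P.v k‖ + ‖P.v k - z‖ := norm_add_le _ _
      _ ≤ 100 * pvdiO M (t.idx 0) * h := by linarith

/-- the mesh hypothesis of `pvdc_win_of_gates` on a good rim, for a pin near `clB(x,2R)` -/
theorem pvdc_mesh_of_good {τ : Type} {𝔐 : PvbMenu τ} {x : ℂ} {R h r μ : ℝ} {P : PvbRim} {pins : Set (PvbPin τ)} (hP : PvbRimGood 𝔐 x R h r μ P pins)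
    {z : ℂ} {ρ : ℝ} (hzx : ‖z - x‖ + ρ ≤ 5 * R) (k : ℕ) (hk : k < P.len) (hn : ‖P.v k - z‖ ≤ ρ ∨ ‖P.z k - z‖ ≤ ρ) : ‖P.z k - P.v k‖ ≤ μ := by
  refine hP.mesh_z k hk ?_
  rcases hn with hn | hn
  · left
    calc ‖P.v k - x‖ = ‖(P.v k - z) + (z - x)‖ := by ring_nf
      _ ≤ ‖P.v k - z‖ + ‖z - x‖ := norm_add_le _ _
      _ ≤ 5 * R := by linarith
  · right
    calc ‖P.z k - x‖ = ‖(P.z k - z) + (z - x)‖ := by ring_nf
      _ ≤ ‖P.z k - z‖ + ‖z - x‖ := norm_add_le _ _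
      _ ≤ 5 * R := by linarith

/-- **ORDER**: the passages of two pins through gates which are too far apart to meet are ordered as the pins -/
theorem pvdc_order {γ : T.Cyc} {z z' : ℂ} {ρ ρ' : ℝ} {i₀ i₁ lo hi lo' hi' : ℕ} (h1 : lo ≤ i₀) (h2 : i₀ ≤ hi) (h1' : lo' ≤ i₁) (h2' : i₁ ≤ hi') (hlt : i₀ < i₁)
    (hd : ∀ k, lo ≤ k → k ≤ hi → ‖pos (T.src (γ.e k)) - z‖ ≤ ρ) (hd' : ∀ k, lo' ≤ k → k ≤ hi' → ‖pos (T.src (γ.e k)) - z'‖ ≤ ρ')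
    (hsep : ρ + ρ' < ‖z - z'‖) : hi < lo' := by
  by_contra hn
  have hn' : lo' ≤ hi := not_lt.1 hn
  have key : ∀ k, lo ≤ k → k ≤ hi → lo' ≤ k → k ≤ hi' → False := by
    intro k a1 a2 a3 a4
    have b1 := hd k a1 a2
    have b2 := hd' k a3 a4
    have : ‖z - z'‖ ≤ ρ + ρ' := by
      calc ‖z - z'‖ = ‖(pos (T.src (γ.e k)) - z') - (pos (T.src (γ.e k)) - z)‖ := by ring_nf
        _ ≤ ‖pos (T.src (γ.e k)) - z'‖ + ‖pos (T.src (γ.e k)) - z‖ := norm_sub_le _ _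
        _ ≤ ρ + ρ' := by linarith
    linarith
  rcases Nat.le_total lo lo' with h | h
  · exact key lo' h hn' le_rfl (h1'.trans h2')
  · exact key i₀ h1 h2 (h.trans h1) (hlt.le.trans h2')

/-- the second passages of two pins with three gates each -/
theorem pvdc_order_gates {z z' : ℂ} {h M μ : ℝ} {γ : T.Cyc} {i₀ i₁ : ℕ} {idx idx' : Fin 3 → ℕ} {G G' : Fin 3 → Set D} {X X' : Fin 3 → Finset V}
    {lo hi lo' hi' : Fin 3 → ℕ} (H : PvdiGates T pos col b z h M μ γ i₀ idx G X lo hi) (H' : PvdiGates T pos col b z' h M μ γ i₁ idx' G' X' lo' hi')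
    (hlt : i₀ < i₁) (k : Fin 3) (hsep : (pvdiO M (idx k) * h + μ) + (pvdiO M (idx' k) * h + μ) < ‖z - z'‖) : hi k < lo' k :=
  pvdc_order (H.pass k).lo_lt.le (H.pass k).lt_hi.le (H'.pass k).lo_lt.le (H'.pass k).lt_hi.le hlt (H.diam k) (H'.diam k) hsep

end gates

/-! ## 4. Paths: `X_g`, `Act_g`, the dictionary -/

section paths

variable {V D : Type} {T : PvMap V D} {τ : Type}

open Classical in
/-- masked dart weight: `xD d` if the tag point `zD d` lies in `B`, else `0` -/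
noncomputable def pvdcW (zD xD : D → ℂ) (B : Set ℂ) (d : D) : ℂ := if zD d ∈ B then xD d else 0

/-- the cut-off disc of a pin -/
def pvdcCut (𝔐 : PvbMenu τ) (h : ℝ) (s : PvbPin τ) : Set ℂ := {w | PvbInCut 𝔐 h s.ctr s.typ w}

/-- **`X_g`** `= m_s + ∑_{e ∈ g} x(e) 1[tag of e outside both cut-off discs]`, `m_s = ∑_{e ∈ in₂(s)} x(e) 1[tag of e in the disc of s]`: a function of the geometry (`zD`, `xD`), of the two discs, of the inner arc `in2` of the state of `s`, and of `g` -/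
noncomputable def pvdcX (zD xD : D → ℂ) (Bs Bt : Set ℂ) (in2 g : T.Pth) : ℂ := in2.psum (pvdcW zD xD Bs) + g.psum (pvdcW zD xD (Bs ∪ Bt)ᶜ)

/-- the path `p` is the arc of the cycle `c` from the vertex number `a` to the vertex number `b` -/
structure PvdcArc (c : T.Cyc) (p : T.Pth) (a b : ℕ) : Prop where
  le : a ≤ b
  n_eq : p.n = b - a
  v0 : p.v 0 = T.src (c.e a)
  e_eq : ∀ k, k < p.n → p.e k = c.e (a + k)

/-- **`Act_g`**: the rim `c` (cut at its vertex number `0`, encoded by `P`) passes the two gates of `s` and of `t` in order, its passage through the second gate of `s` is `in2`,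
its arc from the exit of the first gate of `s` to the entry of the first gate of `t` is `g` -/
def PvdcAct (𝔐 : PvbMenu τ) (h : ℝ) (P : PvbRim) (c : T.Cyc) (s t : PvbPin τ) (in2 g : T.Pth) : Prop :=
  ∃ l2 l1 r1 r2 l2' l1' r1' r2' : ℕ, PvdcWin 𝔐 h P s l2 l1 r1 r2 ∧ PvdcWin 𝔐 h P t l2' l1' r1' r2' ∧ PvdcArc c in2 l2 r2 ∧ PvdcArc c g r1 l1'

theorem pvdc_eqns_cite4 : True := by
  have := @pvdcW.eq_1; have := @pvdcCut.eq_1; have := @pvdcX.eq_1; have := @PvdcAct.eq_1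
  trivial

theorem pvdc_arc_psum {c : T.Cyc} {p : T.Pth} {a b : ℕ} (h : PvdcArc c p a b) (w : D → ℂ) : p.psum w = ∑ k ∈ Ico a b, w (T.opp (c.e k)) := by
  unfold PvMap.Pth.psum
  rw [sum_Ico_eq_sum_range, ← h.n_eq]
  exact sum_congr rfl fun k hk => by rw [h.e_eq k (mem_range.1 hk)]

theorem pvdc_arc_pth (c : T.Cyc) (a : ℕ) {m : ℕ} (hm : m < c.n) : PvdcArc c (c.pth a m) a (a + m) :=
  ⟨Nat.le_add_right _ _, by show min m (c.n - 1) = a + m - a; omega, rfl, fun _ _ => rfl⟩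

theorem pvdc_arc_pth' (c : T.Cyc) {a b : ℕ} (hab : a ≤ b) (hb : b < a + c.n) : PvdcArc c (c.pth a (b - a)) a b := by
  have := pvdc_arc_pth c a (m := b - a) (by omega)
  rwa [Nat.add_sub_cancel' hab] at this

/-- the vertices of an arc -/
theorem pvdc_arc_v {c : T.Cyc} {p : T.Pth} {a b : ℕ} (h : PvdcArc c p a b) {k : ℕ} (hk : k ≤ p.n) : p.v k = T.src (c.e (a + k)) := by
  rcases Nat.eq_zero_or_pos k with rfl | hpos
  · exact h.v0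
  · obtain ⟨k, rfl⟩ : ∃ k', k = k' + 1 := ⟨k - 1, by omega⟩
    rw [← p.tgt_e k (by omega), h.e_eq k (by omega), c.chain]
    rfl

/-- **an arc of a cycle is recognised by its darts and its two ends** (`P[v₁⁺(s) → v₁⁻(t)] = g`) -/
theorem pvdc_arc_of_darts (c : T.Cyc) (p : T.Pth) {a b : ℕ} (hab : a ≤ b) (hb : b < a + c.n) (hd : ∀ k, k < p.n → p.e k ∈ c.darts)
    (h0 : p.v 0 = T.src (c.e a)) (h1 : p.v p.n = T.src (c.e b)) : PvdcArc c p a b := by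
  have hv : ∀ k, k ≤ p.n → p.v k = T.src (c.e (a + k)) := by
    intro k
    induction k with
    | zero => intro _; exact h0
    | succ k ih =>
      intro hk
      obtain ⟨i, hi⟩ := hd k (by omega)
      have e1 : T.src (c.e i) = T.src (c.e (a + k)) := by rw [hi, p.src_e k (by omega), ih (by omega)]
      have e2 : p.e k = c.e (a + k) := by rw [← hi]; exact pl_cyc_eq_of_src c e1
      rw [← p.tgt_e k (by omega), e2, c.chain]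
      rfl
  have he : ∀ k, k < p.n → p.e k = c.e (a + k) := by
    intro k hk
    obtain ⟨i, hi⟩ := hd k hk
    have e1 : T.src (c.e i) = T.src (c.e (a + k)) := by rw [hi, p.src_e k hk, hv k hk.le]
    rw [← hi]; exact pl_cyc_eq_of_src c e1
  have hn : p.n < c.n := by
    by_contra hn
    have hn' : c.n ≤ p.n := not_lt.1 hn
    have e1 : p.v c.n = p.v 0 := by rw [hv c.n hn', c.per, h0]
    have := p.inj c.n 0 hn' (Nat.zero_le _) e1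
    have := pl_cyc_pos c
    omega
  have e2 : T.src (c.e (a + p.n)) = T.src (c.e b) := by rw [← hv p.n le_rfl, h1]
  have e3 : a + p.n = b := by
    rcases Nat.le_total (a + p.n) b with h | h
    · exact pl_cyc_idx c e2 h (by omega)
    · exact (pl_cyc_idx c e2.symm h (by omega)).symm
  exact ⟨hab, by omega, h0, he⟩

variable {𝔐 : PvbMenu τ} {h : ℝ} {P : PvbRim} {c : T.Cyc}

/-- the mass of a cut-off disc on an arc, as a masked path sum -/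
theorem pvdc_M_psum (zD xD : D → ℂ) (x : ℕ → ℂ) (hz : ∀ k, P.z k = zD (T.opp (c.e k))) (hx : ∀ k, x k = xD (T.opp (c.e k))) (s : PvbPin τ) {p : T.Pth} {a b : ℕ}
    (hp : PvdcArc c p a b) : pvdcM 𝔐 h P x s a b = p.psum (pvdcW zD xD (pvdcCut 𝔐 h s)) := by
  rw [pvdc_arc_psum hp]
  unfold pvdcM pvdcW
  rw [sum_filter]
  refine sum_congr rfl fun k _ => ?_
  by_cases hc : PvbInCut 𝔐 h s.ctr s.typ (P.z k)
  · rw [if_pos hc, if_pos (show zD (T.opp (c.e k)) ∈ pvdcCut 𝔐 h s by rw [← hz]; exact hc), hx]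
  · rw [if_neg hc, if_neg (show zD (T.opp (c.e k)) ∉ pvdcCut 𝔐 h s by rw [← hz]; exact hc)]

/-- the mass of an arc off both discs, as a masked path sum -/
theorem pvdc_A_psum (zD xD : D → ℂ) (x : ℕ → ℂ) (hz : ∀ k, P.z k = zD (T.opp (c.e k))) (hx : ∀ k, x k = xD (T.opp (c.e k))) (s t : PvbPin τ) {p : T.Pth} {a b : ℕ}
    (hp : PvdcArc c p a b) : pvdcA 𝔐 h P x s t a b = p.psum (pvdcW zD xD (pvdcCut 𝔐 h s ∪ pvdcCut 𝔐 h t)ᶜ) := by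
  rw [pvdc_arc_psum hp]
  unfold pvdcA pvdcW
  rw [sum_filter]
  refine sum_congr rfl fun k _ => ?_
  have e : zD (T.opp (c.e k)) ∈ (pvdcCut 𝔐 h s ∪ pvdcCut 𝔐 h t)ᶜ ↔ ¬ PvbInCut 𝔐 h s.ctr s.typ (P.z k) ∧ ¬ PvbInCut 𝔐 h t.ctr t.typ (P.z k) := by
    rw [← hz, Set.mem_compl_iff, Set.mem_union, not_or]
    exact Iff.rfl
  by_cases hc : ¬ PvbInCut 𝔐 h s.ctr s.typ (P.z k) ∧ ¬ PvbInCut 𝔐 h t.ctr t.typ (P.z k)
  · rw [if_pos hc, if_pos (e.2 hc), hx]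
  · rw [if_neg hc, if_neg fun h' => hc (e.1 h')]

/-- **THE DICTIONARY**: `Act_g ⟹ pvbArcI (P; s,t) = X_g`, for every field `x` which is read from a dart function on the right-hand tags -/
theorem pvdc_dict (zD xD : D → ℂ) (x : ℕ → ℂ) (hz : ∀ k, P.z k = zD (T.opp (c.e k))) (hx : ∀ k, x k = xD (T.opp (c.e k))) {s t : PvbPin τ} {in2 g : T.Pth}
    (hA : PvdcAct 𝔐 h P c s t in2 g) : pvbArcI 𝔐 h P x s t = pvdcX zD xD (pvdcCut 𝔐 h s) (pvdcCut 𝔐 h t) in2 g := by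
  obtain ⟨l2, l1, r1, r2, l2', l1', r1', r2', ws, wt, h1, h2⟩ := hA
  rw [pvdc_idx ws wt, pvdc_M_psum zD xD x hz hx s h1, pvdc_A_psum zD xD x hz hx s t h2]
  rfl

/-- on `Act_g` the pair `(in2, g)` is determined by the rim: two candidates which are both actual have the same darts -/
theorem pvdc_arc_unique {p p' : T.Pth} {a b : ℕ} (h : PvdcArc c p a b) (h' : PvdcArc c p' a b) : p.n = p'.n ∧ (∀ k, k < p.n → p.e k = p'.e k) ∧ ∀ k, k ≤ p.n → p.v k = p'.v k := by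
  have hn : p.n = p'.n := h.n_eq.trans h'.n_eq.symm
  refine ⟨hn, fun k hk => ?_, fun k hk => ?_⟩
  · rw [h.e_eq k hk, h'.e_eq k (hn ▸ hk)]
  · rw [pvdc_arc_v h hk, pvdc_arc_v h' (hn ▸ hk)]

/-- **`Act_g` from the gates of 212**: the actual inner arc and the actual arc -/
theorem pvdc_act_of_gates {pos : V → ℂ} {col : V → Bool} {b : Bool} {zs zt : ℂ} {M μ : ℝ} {γ : T.Cyc} {i₀ i₁ n : ℕ} {ts tt : PvdiTri n}
    {Gs Gt : Fin 3 → Set D} {Xs Xt : Fin 3 → Finset V} {los his lot hit : Fin 3 → ℕ} (hM : 1 ≤ M) (hh : 0 < h) (hμh : μ ≤ h)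
    (Hs : PvdiGates T pos col b zs h M μ γ i₀ ts.idx Gs Xs los his) (Ht : PvdiGates T pos col b zt h M μ γ i₁ tt.idx Gt Xt lot hit) (hlt : i₀ < i₁)
    (hsep : (pvdiO M (ts.idx 0) * h + μ) + (pvdiO M (tt.idx 0) * h + μ) < ‖zs - zt‖) (hlen : P.len = γ.n) (hv : ∀ k, P.v k = pos (T.src (γ.e k)))
    (hzs : ∀ k, k < P.len → (‖P.v k - zs‖ ≤ 100 * pvdiO M (ts.idx 0) * h ∨ ‖P.z k - zs‖ ≤ 100 * pvdiO M (ts.idx 0) * h) → ‖P.z k - P.v k‖ ≤ μ)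
    (hzt : ∀ k, k < P.len → (‖P.v k - zt‖ ≤ 100 * pvdiO M (tt.idx 0) * h ∨ ‖P.z k - zt‖ ≤ 100 * pvdiO M (tt.idx 0) * h) → ‖P.z k - P.v k‖ ≤ μ) :
    PvdcAct (pvdiMenu M n hM) h P γ ⟨i₀, zs, ts⟩ ⟨i₁, zt, tt⟩ (γ.pth (los 1) (his 1 - los 1)) (γ.pth (his 0) (lot 0 - his 0)) := by
  have ws := pvdc_win_of_gates hM hh hμh Hs P hlen hv hzs
  have wt := pvdc_win_of_gates hM hh hμh Ht P hlen hv hzt
  have h1 := pvdc_order_gates Hs Ht hlt 0 hsep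
  have a1 := (Hs.pass 1).lo_lt
  have a2 := (Hs.pass 1).lt_hi
  have a3 := (Hs.pass 1).hi_lt
  have a4 := (Ht.pass 0).lo_lt
  have a5 := (Ht.pass 0).lt_hi
  have a6 := (Ht.pass 0).hi_lt
  exact ⟨_, _, _, _, _, _, _, _, ws, wt, pvdc_arc_pth' γ (by omega) (by omega), pvdc_arc_pth' γ h1.le (by omega)⟩

end paths

/-! ## 5. The encoding of the rims of a bulk family -/

section enc

variable {X : Type} (𝔅 : PvBulk X) {Y : Set ℂ} {zi : ℂ}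

open Classical in
/-- the tag point of a dart: the barycentre of its face, the far point `zi` for a face with an extra vertex -/
noncomputable def pvdcZ (Y : Set ℂ) (zi : ℂ) (d : 𝔅.D Y) : ℂ := if 𝔅.Emb Y d then (𝔅.T Y).bary (𝔅.pos Y) d else zi

open Classical in
/-- the `Q`-value of a dart -/
noncomputable def pvdcQ (Y : Set ℂ) (d : 𝔅.D Y) : ℂ := if 𝔅.Emb Y d then (𝔅.T Y).qpart (𝔅.pos Y) d else 0

open Classical in
/-- the `V`-value of a dart -/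
noncomputable def pvdcV (Y : Set ℂ) (d : 𝔅.D Y) : ℂ := if 𝔅.Emb Y d then (𝔅.T Y).side (𝔅.pos Y) d else 0

theorem pvdc_eqns_cite5 : True := by
  have := @pvdcZ.eq_1; have := @pvdcQ.eq_1; have := @pvdcV.eq_1
  trivial

theorem pvdc_enc_z (c : (𝔅.T Y).Cyc) (k : ℕ) : (𝔅.enc Y zi c).z k = pvdcZ 𝔅 Y zi ((𝔅.T Y).opp (c.e k)) := rfl
theorem pvdc_enc_xQ (c : (𝔅.T Y).Cyc) (k : ℕ) : (𝔅.enc Y zi c).xQ k = pvdcQ 𝔅 Y ((𝔅.T Y).opp (c.e k)) := rfl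
theorem pvdc_enc_xV (c : (𝔅.T Y).Cyc) (k : ℕ) : (𝔅.enc Y zi c).xV k = pvdcV 𝔅 Y ((𝔅.T Y).opp (c.e k)) := rfl
theorem pvdc_enc_v (c : (𝔅.T Y).Cyc) (k : ℕ) : (𝔅.enc Y zi c).v k = 𝔅.posF Y zi ((𝔅.T Y).src (c.e k)) := rfl
theorem pvdc_enc_len (c : (𝔅.T Y).Cyc) : (𝔅.enc Y zi c).len = c.n := rfl

/-- the summands of `PvTransport` in terms of the dart functions -/
theorem pvdc_wQ (f : ℂ → ℂ) (d : 𝔅.D Y) : 𝔅.wQ Y f d = f (pvdcZ 𝔅 Y zi d) * pvdcQ 𝔅 Y d := by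
  unfold PvBulk.wQ pvdcZ pvdcQ
  split_ifs <;> simp

theorem pvdc_wV (f : ℂ → ℂ) (d : 𝔅.D Y) : 𝔅.wV Y f d = f (pvdcZ 𝔅 Y zi d) * pvdcV 𝔅 Y d := by
  unfold PvBulk.wV pvdcZ pvdcV
  split_ifs <;> simp

/-- the masked weights are the summands of `Q_λ(1_B)`, `V_λ(1_B)` -/
theorem pvdc_W_wQ (B : Set ℂ) (d : 𝔅.D Y) : pvdcW (pvdcZ 𝔅 Y zi) (pvdcQ 𝔅 Y) B d = 𝔅.wQ Y (B.indicator 1) d := by
  classical
  rw [pvdc_wQ 𝔅 (zi := zi)]
  unfold pvdcW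
  by_cases h : pvdcZ 𝔅 Y zi d ∈ B
  · rw [if_pos h, Set.indicator_of_mem h]; simp
  · rw [if_neg h, Set.indicator_of_notMem h]; simp

theorem pvdc_W_wV (B : Set ℂ) (d : 𝔅.D Y) : pvdcW (pvdcZ 𝔅 Y zi) (pvdcV 𝔅 Y) B d = 𝔅.wV Y (B.indicator 1) d := by
  classical
  rw [pvdc_wV 𝔅 (zi := zi)]
  unfold pvdcW
  by_cases h : pvdcZ 𝔅 Y zi d ∈ B
  · rw [if_pos h, Set.indicator_of_mem h]; simp
  · rw [if_neg h, Set.indicator_of_notMem h]; simp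

variable {τ : Type} {𝔐 : PvbMenu τ} {h : ℝ}

/-- **THE DICTIONARY for the encoding D.5**, field `Q` -/
theorem pvdc_dict_encQ (c : (𝔅.T Y).Cyc) {s t : PvbPin τ} {in2 g : (𝔅.T Y).Pth} (hA : PvdcAct 𝔐 h (𝔅.enc Y zi c) c s t in2 g) :
    pvbArcI 𝔐 h (𝔅.enc Y zi c) (𝔅.enc Y zi c).xQ s t = pvdcX (pvdcZ 𝔅 Y zi) (pvdcQ 𝔅 Y) (pvdcCut 𝔐 h s) (pvdcCut 𝔐 h t) in2 g :=
  pvdc_dict _ _ _ (pvdc_enc_z 𝔅 c) (pvdc_enc_xQ 𝔅 c) hA

/-- **THE DICTIONARY for the encoding D.5**, field `V` -/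
theorem pvdc_dict_encV (c : (𝔅.T Y).Cyc) {s t : PvbPin τ} {in2 g : (𝔅.T Y).Pth} (hA : PvdcAct 𝔐 h (𝔅.enc Y zi c) c s t in2 g) :
    pvbArcI 𝔐 h (𝔅.enc Y zi c) (𝔅.enc Y zi c).xV s t = pvdcX (pvdcZ 𝔅 Y zi) (pvdcV 𝔅 Y) (pvdcCut 𝔐 h s) (pvdcCut 𝔐 h t) in2 g :=
  pvdc_dict _ _ _ (pvdc_enc_z 𝔅 c) (pvdc_enc_xV 𝔅 c) hA

/-- **THE DICTIONARY for the encoding D.5**, field `Q - a V` (the field of `PvbRealArc`) -/
theorem pvdc_dict_encY (a : ℂ) (c : (𝔅.T Y).Cyc) {s t : PvbPin τ} {in2 g : (𝔅.T Y).Pth} (hA : PvdcAct 𝔐 h (𝔅.enc Y zi c) c s t in2 g) :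
    pvbArcI 𝔐 h (𝔅.enc Y zi c) (fun k => (𝔅.enc Y zi c).xQ k - a * (𝔅.enc Y zi c).xV k) s t
      = pvdcX (pvdcZ 𝔅 Y zi) (pvdcQ 𝔅 Y) (pvdcCut 𝔐 h s) (pvdcCut 𝔐 h t) in2 g - a * pvdcX (pvdcZ 𝔅 Y zi) (pvdcV 𝔅 Y) (pvdcCut 𝔐 h s) (pvdcCut 𝔐 h t) in2 g := by
  rw [pvdc_lin, pvdc_dict_encQ 𝔅 c hA, pvdc_dict_encV 𝔅 c hA]

/-- near the patch the `V`-value of an edge of the rim is its edge vector -/
theorem pvdc_enc_edge {x : ℂ} {R : ℝ} (hR : 0 < R) (hOk : 𝔅.Ok Y (Metric.closedBall x (6 * R))) (c : (𝔅.T Y).Cyc) (k : ℕ)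
    (hn : ‖(𝔅.enc Y (x + 7 * R) c).v k - x‖ ≤ 5 * R) :
    (𝔅.enc Y (x + 7 * R) c).xV k = (𝔅.enc Y (x + 7 * R) c).v (k + 1) - (𝔅.enc Y (x + 7 * R) c).v k := by
  classical
  rw [pvdc_enc_v] at hn
  obtain ⟨a, ha, haK⟩ := l9_posF_near 𝔅 hR hn
  have hs : (𝔅.T Y).src ((𝔅.T Y).nxt ((𝔅.T Y).opp (c.e k))) = (𝔅.T Y).src (c.e k) := by rw [(𝔅.T Y).src_nxt, (𝔅.T Y).tgt_opp]
  obtain ⟨b, c', hb, hc', -⟩ := hOk.del ((𝔅.T Y).nxt ((𝔅.T Y).opp (c.e k))) a (by rw [hs]; exact ha) haK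
  rw [(𝔅.T Y).tgt_nxt] at hb
  rw [(𝔅.T Y).apex_nxt] at hc'
  have ha' : 𝔅.lab Y ((𝔅.T Y).tgt ((𝔅.T Y).opp (c.e k))) = Sum.inl a := by rw [(𝔅.T Y).tgt_opp]; exact ha
  have hE : 𝔅.Emb Y ((𝔅.T Y).opp (c.e k)) := ⟨c', a, b, hc', ha', hb⟩
  have hc2 : 𝔅.lab Y ((𝔅.T Y).src (c.e (k + 1))) = Sum.inl c' := by rw [← c.chain, ← (𝔅.T Y).src_opp']; exact hc'
  rw [pvdc_enc_xV, pvdc_enc_v, pvdc_enc_v, l9_posF_inl 𝔅 ha, l9_posF_inl 𝔅 hc2]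
  unfold pvdcV PvMap.side
  rw [if_pos hE, l9_pos_inl 𝔅 hc', l9_pos_inl 𝔅 ha']

/-- **(A4) for the encoding D.5**: `I_V(P;s,t) = (ctr t - ctr s) + Φ_V(t) - Φ_V(s)` for two pins whose arc stays in `clB(x,5R)` -/
theorem pvdc_V_enc {x : ℂ} {R : ℝ} (hR : 0 < R) (hOk : 𝔅.Ok Y (Metric.closedBall x (6 * R))) (c : (𝔅.T Y).Cyc) {s t : PvbPin τ} {l2 l1 r1 r2 l2' l1' r1' r2' : ℕ}
    (ws : PvdcWin 𝔐 h (𝔅.enc Y (x + 7 * R) c) s l2 l1 r1 r2) (wt : PvdcWin 𝔐 h (𝔅.enc Y (x + 7 * R) c) t l2' l1' r1' r2') (hst : r2 ≤ l2')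
    (hin : ∀ k, s.idx ≤ k → k ≤ t.idx → ‖(𝔅.enc Y (x + 7 * R) c).v k - x‖ ≤ 5 * R) :
    pvbArcI 𝔐 h (𝔅.enc Y (x + 7 * R) c) (𝔅.enc Y (x + 7 * R) c).xV s t
      = (t.ctr - s.ctr) + pvdcPhi 𝔐 h (𝔅.enc Y (x + 7 * R) c) (𝔅.enc Y (x + 7 * R) c).xV t l2' - pvdcPhi 𝔐 h (𝔅.enc Y (x + 7 * R) c) (𝔅.enc Y (x + 7 * R) c).xV s l2 :=
  pvdc_V ws wt hst _ fun k h1 h2 => pvdc_enc_edge 𝔅 hR hOk c k (hin k h1 h2.le)

end enc

/-! ## 6. TR14: the masks on a closed chain -/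

section mask

variable {V D : Type} {T : PvMap V D}

theorem pvdc_psum_congr (p : T.Pth) {w w' : D → ℂ} (h : ∀ k, k < p.n → w (T.opp (p.e k)) = w' (T.opp (p.e k))) : p.psum w = p.psum w' :=
  sum_congr rfl fun k hk => h k (mem_range.1 hk)

theorem pvdc_psum_add (p : T.Pth) (w w' : D → ℂ) : p.psum (fun d => w d + w' d) = p.psum w + p.psum w' := sum_add_distrib

theorem pvdc_psum_sub (p : T.Pth) (w w' : D → ℂ) : p.psum (fun d => w d - w' d) = p.psum w - p.psum w' := sum_sub_distrib _ _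

theorem pvdc_psum_smul (p : T.Pth) (a : ℂ) (w : D → ℂ) : p.psum (fun d => a * w d) = a * p.psum w := (mul_sum _ _ _).symm

theorem pvdc_psum_sum {ι : Type} (S : Finset ι) (p : T.Pth) (w : ι → D → ℂ) : ∑ j ∈ S, p.psum (w j) = p.psum fun d => ∑ j ∈ S, w j d := sum_comm

theorem pvdc_W_sub (zD xD yD : D → ℂ) (a : ℂ) (B : Set ℂ) (d : D) : pvdcW zD (fun d => xD d - a * yD d) B d = pvdcW zD xD B d - a * pvdcW zD yD B d := by
  unfold pvdcW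
  split_ifs <;> simp

/-- `X_g` is linear in the field -/
theorem pvdc_X_lin (zD xD yD : D → ℂ) (a : ℂ) (Bs Bt : Set ℂ) (in2 g : T.Pth) :
    pvdcX zD (fun d => xD d - a * yD d) Bs Bt in2 g = pvdcX zD xD Bs Bt in2 g - a * pvdcX zD yD Bs Bt in2 g := by
  unfold pvdcX
  have e : ∀ (B : Set ℂ) (p : T.Pth), p.psum (pvdcW zD (fun d => xD d - a * yD d) B) = p.psum (pvdcW zD xD B) - a * p.psum (pvdcW zD yD B) := by
    intro B p
    rw [← pvdc_psum_smul, ← pvdc_psum_sub]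
    exact pvdc_psum_congr p fun k _ => pvdc_W_sub zD xD yD a B _
  rw [e, e]
  ring

/-- three masks on a path -/
theorem pvdc_psum_three (zD xD : D → ℂ) {Bs Bt : Set ℂ} (hd : Disjoint Bs Bt) (p : T.Pth) :
    p.psum xD = p.psum (pvdcW zD xD Bs) + p.psum (pvdcW zD xD Bt) + p.psum (pvdcW zD xD (Bs ∪ Bt)ᶜ) := by
  rw [← pvdc_psum_add, ← pvdc_psum_add]
  refine pvdc_psum_congr p fun k _ => ?_
  unfold pvdcW
  by_cases hs : zD (T.opp (p.e k)) ∈ Bs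
  · have ht : zD (T.opp (p.e k)) ∉ Bt := fun ht => Set.disjoint_left.1 hd hs ht
    simp [hs, ht]
  · by_cases ht : zD (T.opp (p.e k)) ∈ Bt <;> simp [hs, ht]

variable {ι : Type} [Fintype ι]

/-- the sum of a dart function over the right-hand tags of a closed chain: inner arcs `inn j` (through the first gate of the plug `j`) and arcs `g j` (from the plug `j` to the plug `σ j`) -/
def pvdcTot (g inn : ι → T.Pth) (w : D → ℂ) : ℂ := ∑ j, ((inn j).psum w + (g j).psum w)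

theorem pvdc_eqns_cite6 : True := by
  have := @pvdcTot.eq_1
  trivial

theorem pvdc_sumW (zD xD : D → ℂ) {B : ι → Set ℂ} (hdis : ∀ i j, i ≠ j → Disjoint (B i) (B j)) {d : D} {i : ι} (hi : zD d ∈ B i) : ∑ j, pvdcW zD xD (B j) d = xD d := by
  classical
  rw [sum_eq_single i]
  · unfold pvdcW; rw [if_pos hi]
  · intro j _ hj
    unfold pvdcW
    rw [if_neg fun h => Set.disjoint_left.1 (hdis i j hj.symm) hi h]
  · intro h; exact absurd (mem_univ i) h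

theorem pvdc_sumW0 (zD xD : D → ℂ) {B : ι → Set ℂ} {d : D} (h : ∀ i, zD d ∉ B i) : ∑ j, pvdcW zD xD (B j) d = 0 :=
  sum_eq_zero fun j _ => by unfold pvdcW; rw [if_neg (h j)]

/-- **TR14 (MASK)**: on a closed chain, `∑_j (x(inn_j) + x(g_j))` regrouped `= ∑_j ( [whole mass in the disc B_j] + [mass of g_j off B_j ∪ B_{σ j}] )` -/
theorem pvdc_mask (σ : ι → ι) (g inn : ι → T.Pth) (zD xD : D → ℂ) (B : ι → Set ℂ) (hdis : ∀ i j, i ≠ j → Disjoint (B i) (B j))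
    (hinn : ∀ j k, k < (inn j).n → zD (T.opp ((inn j).e k)) ∈ B j)
    (hg : ∀ j k, k < (g j).n → ∀ i, zD (T.opp ((g j).e k)) ∈ B i → i = j ∨ i = σ j) :
    pvdcTot g inn xD = ∑ j, (pvdcTot g inn (pvdcW zD xD (B j)) + (g j).psum (pvdcW zD xD (B j ∪ B (σ j))ᶜ)) := by
  classical
  have e1 : ∑ j, pvdcTot g inn (pvdcW zD xD (B j)) = ∑ i, ((inn i).psum (fun d => ∑ j, pvdcW zD xD (B j) d) + (g i).psum fun d => ∑ j, pvdcW zD xD (B j) d) := by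
    unfold pvdcTot
    rw [sum_comm]
    refine sum_congr rfl fun i _ => ?_
    rw [sum_add_distrib, pvdc_psum_sum, pvdc_psum_sum]
  rw [sum_add_distrib, e1, ← sum_add_distrib]
  unfold pvdcTot
  refine sum_congr rfl fun i _ => ?_
  have a1 : (inn i).psum xD = (inn i).psum fun d => ∑ j, pvdcW zD xD (B j) d :=
    pvdc_psum_congr _ fun k hk => (pvdc_sumW zD xD hdis (hinn i k hk)).symm
  have a2 : (g i).psum xD = (g i).psum (fun d => ∑ j, pvdcW zD xD (B j) d) + (g i).psum (pvdcW zD xD (B i ∪ B (σ i))ᶜ) := by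
    rw [← pvdc_psum_add]
    refine pvdc_psum_congr _ fun k hk => ?_
    by_cases hex : ∃ l, zD (T.opp ((g i).e k)) ∈ B l
    · obtain ⟨l, hl⟩ := hex
      have hmem : zD (T.opp ((g i).e k)) ∈ B i ∪ B (σ i) := by
        rcases hg i k hk l hl with rfl | rfl
        · exact Or.inl hl
        · exact Or.inr hl
      rw [pvdc_sumW zD xD hdis hl]
      unfold pvdcW
      rw [if_neg fun h => h hmem, add_zero]
    · have hno : ∀ l, zD (T.opp ((g i).e k)) ∉ B l := fun l hl => hex ⟨l, hl⟩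
      rw [pvdc_sumW0 zD xD hno]
      unfold pvdcW
      rw [if_pos (show zD (T.opp ((g i).e k)) ∈ (B i ∪ B (σ i))ᶜ from fun h => h.elim (hno _) (hno _)), zero_add]
  rw [a1, a2]
  ring

/-- a sum over one period does not depend on the starting point -/
theorem pvdc_sum_shift (c : T.Cyc) (w : D → ℂ) (j : ℕ) : ∑ k ∈ range c.n, w (c.e (j + k)) = ∑ k ∈ range c.n, w (c.e k) := by
  induction j with
  | zero => simp
  | succ j ih =>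
    rw [← ih]
    have h1 := sum_range_succ (fun k => w (c.e (j + k))) c.n
    have h2 := sum_range_succ' (fun k => w (c.e (j + k))) c.n
    rw [h1] at h2
    have h3 : w (c.e (j + c.n)) = w (c.e (j + 0)) := by rw [c.per, Nat.add_zero]
    rw [h3] at h2
    have h4 := add_right_cancel h2
    rw [h4]
    refine sum_congr rfl fun k _ => ?_
    congr 2
    omega

/-- the sum over a label is the sum round its rim -/
theorem pvdc_lsum (c : T.Cyc) {s : V → Bool} {d : D} (h : ∀ d', T.SameLab s d d' ↔ ∃ i, d' = T.opp (c.e i)) (w : D → ℂ) :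
    T.lsum s w d = ∑ k ∈ range c.n, w (T.opp (c.e k)) := by
  classical
  unfold PvMap.lsum
  have hS : {d' | T.SameLab s d d'} = ↑((range c.n).image fun i => T.opp (c.e i)) := by
    ext d'
    simp only [Set.mem_ofPred_eq, coe_image, coe_range, Set.mem_image, Set.mem_Iio]
    rw [h d']
    constructor
    · rintro ⟨i, rfl⟩
      exact ⟨i % c.n, Nat.mod_lt _ (pl_cyc_pos c), by rw [pl_cyc_mod]⟩
    · rintro ⟨i, -, rfl⟩
      exact ⟨i, rfl⟩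
  have h1 : (∑ᶠ (d' : D) (_ : T.SameLab s d d'), w d') = ∑ᶠ d' ∈ {d' | T.SameLab s d d'}, w d' := rfl
  rw [h1, hS, finsum_mem_coe_finset, sum_image]
  intro i hi i' hi' hii
  exact c.inj i i' (mem_range.1 hi) (mem_range.1 hi') (by rw [T.opp_injective hii])

/-- D4, cycle form: a dart function which vanishes on the tags of a cycle off the arc `p` -/
theorem pvdc_whole_cyc (c : T.Cyc) (w : D → ℂ) {p : T.Pth} {a b : ℕ} (hp : PvdcArc c p a b) (hb : b ≤ a + c.n)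
    (h0 : ∀ k, b ≤ k → k < a + c.n → w (T.opp (c.e k)) = 0) : ∑ k ∈ range c.n, w (T.opp (c.e k)) = p.psum w := by
  rw [pvdc_arc_psum hp, ← pvdc_sum_shift c (fun e => w (T.opp e)) a]
  have e1 : ∑ k ∈ range c.n, w (T.opp (c.e (a + k))) = ∑ k ∈ Ico a (a + c.n), w (T.opp (c.e k)) := by
    rw [sum_Ico_eq_sum_range, Nat.add_sub_cancel_left]
  rw [e1, ← sum_Ico_consecutive _ hp.le hb, sum_eq_zero (s := Ico b (a + c.n)) fun k hk => h0 k (mem_Ico.1 hk).1 (mem_Ico.1 hk).2, add_zero]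

/-- **D4**: the WHOLE mass of a rim in the cut-off disc `B` is `m_s`, the masked sum over the passage `in2` through the second gate -/
theorem pvdc_whole_lsum {s : V → Bool} {d : D} (c : T.Cyc) (hlab : ∀ d', T.SameLab s d d' ↔ ∃ i, d' = T.opp (c.e i)) (zD xD : D → ℂ) (B : Set ℂ) {in2 : T.Pth} {a b : ℕ}
    (hp : PvdcArc c in2 a b) (hb : b ≤ a + c.n) (h0 : ∀ k, b ≤ k → k < a + c.n → zD (T.opp (c.e k)) ∉ B) :
    T.lsum s (pvdcW zD xD B) d = in2.psum (pvdcW zD xD B) := by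
  rw [pvdc_lsum c hlab]
  exact pvdc_whole_cyc c _ hp hb fun k h1 h2 => by unfold pvdcW; rw [if_neg (h0 k h1 h2)]

/-- **TR14, final form**: `X_π(1) = ∑_e X_e`.   `hclose` = the export of TR13 (CLOSE), `hD4` = `pvdc_whole_lsum` -/
theorem pvdc_tr14 (σ : ι → ι) (g inn in2 : ι → T.Pth) (zD xD : D → ℂ) (B : ι → Set ℂ) (hdis : ∀ i j, i ≠ j → Disjoint (B i) (B j))
    (hinn : ∀ j k, k < (inn j).n → zD (T.opp ((inn j).e k)) ∈ B j)
    (hg : ∀ j k, k < (g j).n → ∀ i, zD (T.opp ((g j).e k)) ∈ B i → i = j ∨ i = σ j)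
    {s : V → Bool} {d : D} (hclose : ∀ w : D → ℂ, T.lsum s w d = pvdcTot g inn w)
    (hD4 : ∀ j, T.lsum s (pvdcW zD xD (B j)) d = (in2 j).psum (pvdcW zD xD (B j))) :
    T.lsum s xD d = ∑ j, pvdcX zD xD (B j) (B (σ j)) (in2 j) (g j) := by
  rw [hclose, pvdc_mask σ g inn zD xD B hdis hinn hg]
  refine sum_congr rfl fun j _ => ?_
  rw [← hclose, hD4]
  rfl

theorem pvdc_W_ind (zD xD : D → ℂ) (B : Set ℂ) (d : D) : pvdcW zD xD B d = B.indicator 1 (zD d) * xD d := by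
  classical
  unfold pvdcW
  by_cases h : zD d ∈ B
  · rw [if_pos h, Set.indicator_of_mem h]; simp
  · rw [if_neg h, Set.indicator_of_notMem h]; simp

theorem pvdc_W_union (zD xD : D → ℂ) {A B : Set ℂ} (hd : Disjoint A B) (d : D) : pvdcW zD xD (A ∪ B) d = pvdcW zD xD A d + pvdcW zD xD B d := by
  unfold pvdcW
  by_cases hA : zD d ∈ A
  · have hB : zD d ∉ B := fun hB => Set.disjoint_left.1 hd hA hB
    simp [hA, hB]
  · by_cases hB : zD d ∈ B <;> simp [hA, hB]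

theorem pvdc_psum_zero (p : T.Pth) {w : D → ℂ} (h : ∀ k, k < p.n → w (T.opp (p.e k)) = 0) : p.psum w = 0 :=
  sum_eq_zero fun k hk => h k (mem_range.1 hk)

theorem pvdc_tot_add (g inn : ι → T.Pth) (w w' : D → ℂ) : pvdcTot g inn (fun d => w d + w' d) = pvdcTot g inn w + pvdcTot g inn w' := by
  unfold pvdcTot
  rw [← sum_add_distrib]
  refine sum_congr rfl fun j _ => ?_
  rw [pvdc_psum_add, pvdc_psum_add]
  ring

theorem pvdc_tot_congr (g inn : ι → T.Pth) {w w' : D → ℂ} (h : ∀ d, w d = w' d) : pvdcTot g inn w = pvdcTot g inn w' := by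
  have : w = w' := funext h
  rw [this]

/-- **TR14, mask form** (the form of the Bessel instances of 223): on a closed chain `X_e = X_π(1_M)` with the DETERMINISTIC mask `M = B_s ∪ (T_e \ (B_s ∪ B_t))`, `T_e` = the region of the connector `e` -/
theorem pvdc_X_mask (σ : ι → ι) (g inn in2 : ι → T.Pth) (zD xD : D → ℂ) (B Te : ι → Set ℂ)
    (hT1 : ∀ j k, k < (g j).n → zD (T.opp ((g j).e k)) ∉ B j ∪ B (σ j) → zD (T.opp ((g j).e k)) ∈ Te j)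
    (hT2 : ∀ i j, i ≠ j → ∀ k, k < (g i).n → zD (T.opp ((g i).e k)) ∈ Te j → zD (T.opp ((g i).e k)) ∈ B j ∪ B (σ j))
    (hT3 : ∀ i j k, k < (inn i).n → zD (T.opp ((inn i).e k)) ∈ Te j → zD (T.opp ((inn i).e k)) ∈ B j ∪ B (σ j))
    {s : V → Bool} {d : D} (hclose : ∀ w : D → ℂ, T.lsum s w d = pvdcTot g inn w)
    (hD4 : ∀ j, T.lsum s (pvdcW zD xD (B j)) d = (in2 j).psum (pvdcW zD xD (B j))) (j : ι) :
    pvdcX zD xD (B j) (B (σ j)) (in2 j) (g j) = T.lsum s (pvdcW zD xD (B j ∪ (Te j \ (B j ∪ B (σ j))))) d := by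
  classical
  have hdj : Disjoint (B j) (Te j \ (B j ∪ B (σ j))) := Set.disjoint_left.2 fun z h1 h2 => h2.2 (Or.inl h1)
  have hzero : ∀ e : D, (zD e ∈ Te j → zD e ∈ B j ∪ B (σ j)) → pvdcW zD xD (Te j \ (B j ∪ B (σ j))) e = 0 := by
    intro e he
    unfold pvdcW
    rw [if_neg fun h => h.2 (he h.1)]
  have e2 : pvdcTot g inn (pvdcW zD xD (Te j \ (B j ∪ B (σ j)))) = (g j).psum (pvdcW zD xD (B j ∪ B (σ j))ᶜ) := by
    unfold pvdcTot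
    rw [sum_eq_single j]
    · rw [pvdc_psum_zero (inn j) fun k hk => hzero _ (hT3 j j k hk), zero_add]
      refine pvdc_psum_congr _ fun k hk => ?_
      unfold pvdcW
      by_cases hc : zD (T.opp ((g j).e k)) ∈ B j ∪ B (σ j)
      · rw [if_neg fun h => h.2 hc, if_neg fun h => h hc]
      · rw [if_pos (show zD (T.opp ((g j).e k)) ∈ Te j \ (B j ∪ B (σ j)) from ⟨hT1 j k hk hc, hc⟩), if_pos (show zD (T.opp ((g j).e k)) ∈ (B j ∪ B (σ j))ᶜ from hc)]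
    · intro i _ hi
      rw [pvdc_psum_zero (inn i) fun k hk => hzero _ (hT3 i j k hk), pvdc_psum_zero (g i) fun k hk => hzero _ (hT2 i j hi k hk), add_zero]
    · intro h; exact absurd (mem_univ j) h
  rw [hclose, pvdc_tot_congr g inn (pvdc_W_union zD xD hdj), pvdc_tot_add, ← hclose, hD4, e2]
  rfl

end mask

/-! ## 7. `V` on paths and cycles -/

section vpath

variable {V D : Type} {T : PvMap V D} (pos : V → ℂ)

theorem pvdc_side_opp (e : D) : T.side pos (T.opp e) = pos (T.tgt e) - pos (T.src e) := by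
  unfold PvMap.side
  rw [T.src_opp', T.tgt_opp]

/-- telescoping along a path -/
theorem pvdc_psum_side (p : T.Pth) : p.psum (T.side pos) = pos (p.v p.n) - pos (p.v 0) := by
  unfold PvMap.Pth.psum
  rw [← sum_range_sub (fun k => pos (p.v k))]
  refine sum_congr rfl fun k hk => ?_
  rw [pvdc_side_opp, p.tgt_e k (mem_range.1 hk), p.src_e k (mem_range.1 hk)]

/-- `V_π(1) = 0` -/
theorem pvdc_cyc_side (c : T.Cyc) : ∑ k ∈ range c.n, T.side pos (T.opp (c.e k)) = 0 := by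
  have e : ∑ k ∈ range c.n, T.side pos (T.opp (c.e k)) = ∑ k ∈ range c.n, (pos (T.src (c.e (k + 1))) - pos (T.src (c.e k))) :=
    sum_congr rfl fun k _ => by rw [pvdc_side_opp, c.chain]
  rw [e, sum_range_sub (fun k => pos (T.src (c.e k)))]
  have := c.per 0
  rw [Nat.zero_add] at this
  rw [this, sub_self]

theorem pvdc_lsum_side {s : V → Bool} {d : D} (c : T.Cyc) (hlab : ∀ d', T.SameLab s d d' ↔ ∃ i, d' = T.opp (c.e i)) : T.lsum s (T.side pos) d = 0 := by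
  rw [pvdc_lsum c hlab, pvdc_cyc_side]

/-- **(A4), path form**: `X_g` for the field `V` = displacement of `g` + a term which is local at `s` - a term which is local at `t` -/
theorem pvdc_X_V (zD : D → ℂ) {Bs Bt : Set ℂ} (hd : Disjoint Bs Bt) (in2 g : T.Pth) :
    pvdcX zD (T.side pos) Bs Bt in2 g
      = pos (g.v g.n) - pos (g.v 0) + (in2.psum (pvdcW zD (T.side pos) Bs) - g.psum (pvdcW zD (T.side pos) Bs)) - g.psum (pvdcW zD (T.side pos) Bt) := by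
  have h1 := pvdc_psum_three zD (T.side pos) hd g
  rw [pvdc_psum_side] at h1
  unfold pvdcX
  rw [h1]
  ring

end vpath

/-! ## 8. The datum of record (`Tr/Defs.lean`, 216 / 208): `pvbArcI = 𝔇.X` -/

section dat

variable {V D : Type} {T : PvMap V D} {τ : Type} {𝔐 : PvbMenu τ} {h : ℝ} {P : PvbRim}

theorem pvdc_A_add (x : ℕ → ℂ) (s t : PvbPin τ) {a b c : ℕ} (hab : a ≤ b) (hbc : b ≤ c) :
    pvdcA 𝔐 h P x s t a c = pvdcA 𝔐 h P x s t a b + pvdcA 𝔐 h P x s t b c := by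
  unfold pvdcA
  rw [sum_filter, sum_filter, sum_filter, sum_Ico_consecutive _ hab hbc]

/-- the mass of a cut-off disc on a window of the rim which is read on the path `p` -/
theorem pvdc_M_mass (pos : V → ℂ) (w : D → ℂ) (x : ℕ → ℂ) (s : PvbPin τ) (p : T.Pth) (o a b : ℕ)
    (hp : ∀ i, a ≤ i → i < b → P.z (o + i) = T.bary pos (T.opp (p.e i)) ∧ x (o + i) = w (T.opp (p.e i))) :
    pvdcM 𝔐 h P x s (o + a) (o + b) = pvwMass T pos w (Metric.closedBall s.ctr (𝔐.mc s.typ * h)) p a b := by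
  unfold pvdcM pvwMass
  rw [sum_filter, Nat.add_comm o a, Nat.add_comm o b, ← sum_Ico_add]
  refine sum_congr rfl fun i hi => ?_
  obtain ⟨h1, h2⟩ := mem_Ico.1 hi
  obtain ⟨e1, e2⟩ := hp i h1 h2
  have e : T.bary pos (T.opp (p.e i)) ∈ Metric.closedBall s.ctr (𝔐.mc s.typ * h) ↔ PvbInCut 𝔐 h s.ctr s.typ (P.z (o + i)) := by
    rw [← e1, mem_closedBall_iff_norm]
    exact Iff.rfl
  by_cases hc : PvbInCut 𝔐 h s.ctr s.typ (P.z (o + i))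
  · rw [if_pos hc, if_pos (e.2 hc), e2]
  · rw [if_neg hc, if_neg fun h' => hc (e.1 h')]

/-- the mass off both cut-off discs of a window of the rim which is read on the path `p` -/
theorem pvdc_A_mass (pos : V → ℂ) (w : D → ℂ) (x : ℕ → ℂ) (s t : PvbPin τ) (p : T.Pth) (o a b : ℕ)
    (hp : ∀ i, a ≤ i → i < b → P.z (o + i) = T.bary pos (T.opp (p.e i)) ∧ x (o + i) = w (T.opp (p.e i))) :
    pvdcA 𝔐 h P x s t (o + a) (o + b)
      = pvwMass T pos w (Metric.closedBall s.ctr (𝔐.mc s.typ * h) ∪ Metric.closedBall t.ctr (𝔐.mc t.typ * h))ᶜ p a b := by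
  unfold pvdcA pvwMass
  rw [sum_filter, Nat.add_comm o a, Nat.add_comm o b, ← sum_Ico_add]
  refine sum_congr rfl fun i hi => ?_
  obtain ⟨h1, h2⟩ := mem_Ico.1 hi
  obtain ⟨e1, e2⟩ := hp i h1 h2
  have e : T.bary pos (T.opp (p.e i)) ∈ (Metric.closedBall s.ctr (𝔐.mc s.typ * h) ∪ Metric.closedBall t.ctr (𝔐.mc t.typ * h))ᶜ ↔
      ¬ PvbInCut 𝔐 h s.ctr s.typ (P.z (o + i)) ∧ ¬ PvbInCut 𝔐 h t.ctr t.typ (P.z (o + i)) := by
    rw [← e1, Set.mem_compl_iff, Set.mem_union, not_or, mem_closedBall_iff_norm, mem_closedBall_iff_norm]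
    exact Iff.rfl
  by_cases hc : ¬ PvbInCut 𝔐 h s.ctr s.typ (P.z (o + i)) ∧ ¬ PvbInCut 𝔐 h t.ctr t.typ (P.z (o + i))
  · rw [if_pos hc, if_pos (e.2 hc), e2]
  · rw [if_neg hc, if_neg fun h' => hc (e.1 h')]

/-- **THE DICTIONARY FOR THE DATUM OF RECORD**: `j` = the place of `g⁻(s)` on the encoded rim `P`; the three windows of `P` (inner arc of `s`, `g₀`, inner arc of `t` up to its marked vertex) are read on the paths of the datum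
(= the output of `pvlo_all`, 278); `hcut` = all the tags of `P` in the cut-off disc of `s` belong to the inner arc of `s` (sec. 9).      Then `pvbArcI (P; s,t) = X(D)`, for EVERY dart weight `w` -/
theorem pvdc_X_dat (𝔇 : PvwDat T) (pos : V → ℂ) (w : D → ℂ) (N : PvwNum) (π : PvwPat) (x : ℕ → ℂ) (s t : PvbPin τ) (j : ℕ)
    (hcs : s.ctr = π.zs) (hct : t.ctr = π.zt) (hms : 𝔐.mc s.typ = N.m) (hmt : 𝔐.mc t.typ = N.m)
    (his : s.idx = j + 𝔇.s.ip) (hit : t.idx = j + 𝔇.s.inn.n + 𝔇.g.n + 𝔇.t.ip) (hips : 𝔇.s.ip ≤ 𝔇.s.inn.n) (hlen : j + 𝔇.s.inn.n ≤ P.len)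
    (hs : ∀ i, i < 𝔇.s.inn.n → P.z (j + i) = T.bary pos (T.opp (𝔇.s.inn.e i)) ∧ x (j + i) = w (T.opp (𝔇.s.inn.e i)))
    (hg : ∀ i, i < 𝔇.g.n → P.z (j + 𝔇.s.inn.n + i) = T.bary pos (T.opp (𝔇.g.e i)) ∧ x (j + 𝔇.s.inn.n + i) = w (T.opp (𝔇.g.e i)))
    (ht : ∀ i, i < 𝔇.t.ip → P.z (j + 𝔇.s.inn.n + 𝔇.g.n + i) = T.bary pos (T.opp (𝔇.t.inn.e i)) ∧ x (j + 𝔇.s.inn.n + 𝔇.g.n + i) = w (T.opp (𝔇.t.inn.e i)))
    (hcut : ∀ k, k < P.len → PvbInCut 𝔐 h s.ctr s.typ (P.z k) → j ≤ k ∧ k < j + 𝔇.s.inn.n) :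
    pvbArcI 𝔐 h P x s t = 𝔇.X pos w N h π := by
  have e0 : pvdcM 𝔐 h P x s 0 P.len = pvdcM 𝔐 h P x s (j + 0) (j + 𝔇.s.inn.n) :=
    pvdc_M_restrict x s (Nat.zero_le _) hlen fun k _ h2 h3 => hcut k h2 h3
  have e1 := pvdc_M_mass (𝔐 := 𝔐) (h := h) (P := P) pos w x s 𝔇.s.inn j 0 𝔇.s.inn.n fun i _ h2 => hs i h2
  have e2 := pvdc_A_mass (𝔐 := 𝔐) (h := h) (P := P) pos w x s t 𝔇.s.inn j 𝔇.s.ip 𝔇.s.inn.n fun i _ h2 => hs i h2
  have e3 := pvdc_A_mass (𝔐 := 𝔐) (h := h) (P := P) pos w x s t 𝔇.g (j + 𝔇.s.inn.n) 0 𝔇.g.n fun i _ h2 => hg i h2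
  have e4 := pvdc_A_mass (𝔐 := 𝔐) (h := h) (P := P) pos w x s t 𝔇.t.inn (j + 𝔇.s.inn.n + 𝔇.g.n) 0 𝔇.t.ip fun i _ h2 => ht i h2
  rw [Nat.add_zero] at e3 e4
  rw [pvdc_arcI_eq, e0, e1, his, hit,
    pvdc_A_add x s t (show j + 𝔇.s.ip ≤ j + 𝔇.s.inn.n by omega) (show j + 𝔇.s.inn.n ≤ j + 𝔇.s.inn.n + 𝔇.g.n + 𝔇.t.ip by omega),
    pvdc_A_add x s t (show j + 𝔇.s.inn.n ≤ j + 𝔇.s.inn.n + 𝔇.g.n by omega) (show j + 𝔇.s.inn.n + 𝔇.g.n ≤ j + 𝔇.s.inn.n + 𝔇.g.n + 𝔇.t.ip by omega),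
    e2, e3, e4, hcs, hct, hms, hmt]
  unfold PvwDat.X PvwDat.offCut
  ring

theorem pvdc_mass_psum (pos : V → ℂ) (w : D → ℂ) (K : Set ℂ) (p : T.Pth) : pvwMass T pos w K p 0 p.n = p.psum (pvdcW (T.bary pos) w K) := by
  unfold pvwMass PvMap.Pth.psum pvdcW
  rw [range_eq_Ico]

theorem pvdc_mass_add (pos : V → ℂ) (w : D → ℂ) (K : Set ℂ) (p : T.Pth) {i j k : ℕ} (hij : i ≤ j) (hjk : j ≤ k) :
    pvwMass T pos w K p i k = pvwMass T pos w K p i j + pvwMass T pos w K p j k := by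
  unfold pvwMass
  rw [sum_Ico_consecutive _ hij hjk]

/-- **TR14 for the datum of record**: `X(D) + Y = ` the plain sum of `w` over the right-hand tags of the four pieces `inner(s) . g₀ . inner(t) . y` (`= X_{P'}(1)` by (C2)) -/
theorem pvdc_XY_dat (𝔇 : PvwDat T) (pos : V → ℂ) (w : D → ℂ) (N : PvwNum) (π : PvwPat) (y : T.Pth)
    (hd : Disjoint (Metric.closedBall π.zs (N.m * h)) (Metric.closedBall π.zt (N.m * h))) (hips : 𝔇.s.ip ≤ 𝔇.s.inn.n) (hipt : 𝔇.t.ip ≤ 𝔇.t.inn.n)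
    (hg : ∀ k, k < 𝔇.g.n → T.bary pos (T.opp (𝔇.g.e k)) ∈ PvwDat.offCut N h π) (hy : ∀ k, k < y.n → T.bary pos (T.opp (y.e k)) ∈ PvwDat.offCut N h π)
    (hs : ∀ k, k < 𝔇.s.inn.n → T.bary pos (T.opp (𝔇.s.inn.e k)) ∉ Metric.closedBall π.zt (N.m * h))
    (ht : ∀ k, k < 𝔇.t.inn.n → T.bary pos (T.opp (𝔇.t.inn.e k)) ∉ Metric.closedBall π.zs (N.m * h)) :
    𝔇.X pos w N h π + 𝔇.Yof pos w N h π y = 𝔇.s.inn.psum w + 𝔇.g.psum w + 𝔇.t.inn.psum w + y.psum w := by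
  have z0 : ∀ (p : T.Pth) (K : Set ℂ), (∀ k, k < p.n → T.bary pos (T.opp (p.e k)) ∉ K) → p.psum (pvdcW (T.bary pos) w K) = 0 := by
    intro p K hK
    refine pvdc_psum_zero p fun k hk => ?_
    unfold pvdcW
    rw [if_neg (hK k hk)]
  have a1 := pvdc_psum_three (T.bary pos) w hd 𝔇.s.inn
  have a2 := pvdc_psum_three (T.bary pos) w hd 𝔇.g
  have a3 := pvdc_psum_three (T.bary pos) w hd 𝔇.t.inn
  have a4 := pvdc_psum_three (T.bary pos) w hd y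
  rw [z0 𝔇.s.inn _ hs] at a1
  rw [z0 𝔇.g _ fun k hk hin => hg k hk (Or.inl hin), z0 𝔇.g _ fun k hk hin => hg k hk (Or.inr hin)] at a2
  rw [z0 𝔇.t.inn _ ht] at a3
  rw [z0 y _ fun k hk hin => hy k hk (Or.inl hin), z0 y _ fun k hk hin => hy k hk (Or.inr hin)] at a4
  have b1 := pvdc_mass_add pos w (PvwDat.offCut N h π) 𝔇.s.inn (Nat.zero_le _) hips
  have b2 := pvdc_mass_add pos w (PvwDat.offCut N h π) 𝔇.t.inn (Nat.zero_le _) hipt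
  rw [pvdc_mass_psum] at b1 b2
  unfold PvwDat.X PvwDat.Yof
  rw [pvdc_mass_psum, pvdc_mass_psum, pvdc_mass_psum, pvdc_mass_psum, a1, a2, a3, a4]
  unfold PvwDat.offCut at b1 b2 ⊢
  rw [b1, b2]
  ring

end dat

/-! ## 9. The gate of record traps the rim: `hcut` -/

section trap

variable {V D : Type} {T : PvMap V D}

theorem pvdc_gm_mem (𝔖 : PvwSt T) (h : 𝔖.dm ∈ 𝔖.S.darts) : 𝔖.gm ∈ 𝔖.S.verts := by
  obtain ⟨i, hi⟩ := h
  exact ⟨i, by rw [hi]; rfl⟩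

theorem pvdc_gp_mem (𝔖 : PvwSt T) (h : T.opp 𝔖.dp ∈ 𝔖.S.darts) : 𝔖.gp ∈ 𝔖.S.verts := by
  obtain ⟨i, hi⟩ := h
  refine ⟨i + 1, ?_⟩
  rw [← 𝔖.S.chain, hi, T.tgt_opp]
  rfl

/-- a black path which starts in the inner disc of a gate and ends off its closed inside visits `g⁺` or `g⁻` -/
theorem pvdc_gate_sep (hT : T.IsSph) (𝔖 : PvwSt T) {pos : V → ℂ} {h : ℝ} {z : ℂ} {τ : PvwTy} {s : V → Bool} (hG : 𝔖.Gate pos h z τ s) (p : T.Pth)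
    (hb : ∀ i, i ≤ p.n → s (p.v i) = true) (h0 : ‖pos (p.v 0) - z‖ < τ.a * h) (h1 : p.v p.n ∉ 𝔖.ins) : ∃ i, i ≤ p.n ∧ (p.v i = 𝔖.gp ∨ p.v i = 𝔖.gm) := by
  by_contra hno
  have hno' : ∀ i, i ≤ p.n → p.v i ≠ 𝔖.gp ∧ p.v i ≠ 𝔖.gm := fun i hi => ⟨fun h => hno ⟨i, hi, Or.inl h⟩, fun h => hno ⟨i, hi, Or.inr h⟩⟩
  have hint : ∀ i, i ≤ p.n → p.v i ∈ T.Int 𝔖.S.Left := by
    intro i
    induction i with
    | zero =>
      intro _
      obtain ⟨d, hd, hsrc⟩ := hG.round _ h0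
      have hv : T.src d ∉ 𝔖.S.verts := by
        rw [hsrc]
        intro hv
        exact absurd (hG.ann _ hv).1 (not_le.2 h0)
      rw [← hsrc]
      exact pvt_c_int_of_left hT 𝔖.S hd hv
    | succ i ih =>
      intro hi
      refine pl_int_adj hT (pl_left_face 𝔖.S) (ih (by omega)) ⟨p.e i, p.src_e i (by omega), p.tgt_e i (by omega)⟩ ?_
      intro d hd hB
      have hv : p.v (i + 1) ∈ 𝔖.S.verts := by
        rw [← hd]
        exact pl_cyc_edg_src 𝔖.S (pl_left_bd_sub 𝔖.S hB)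
      rcases hG.two _ hv (hb _ hi) with h | h
      · exact (hno' _ hi).1 h
      · exact (hno' _ hi).2 h
  rcases Nat.eq_zero_or_pos p.n with hn | hn
  · rw [hn] at h1
    exact h1 (hG.round _ h0)
  · have e : T.src (T.opp (p.e (p.n - 1))) = p.v p.n := by
      rw [T.src_opp', p.tgt_e _ (by omega), Nat.sub_add_cancel hn]
    exact h1 ⟨_, hint p.n le_rfl _ e, e⟩

/-- **THE WINDOW PROPERTY** of an encoded rim (= `pvlo_all`, 278): every window of `P` inside `clB(x,ρ)` is a black path of the map `T` -/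
def PvdcWindow (T : PvMap V D) (pos : V → ℂ) (s : V → Bool) (x : ℂ) (ρ : ℝ) (P : PvbRim) : Prop :=
  ∀ i m, 0 < m → m < P.len → (∀ k, k ≤ m → ‖P.v (i + k) - x‖ ≤ ρ) →
    ∃ g : T.Pth, g.n = m ∧ (∀ k, k ≤ m → pos (g.v k) = P.v (i + k)) ∧ ∀ k, k ≤ m → s (g.v k) = true

theorem pvdc_eqns_cite9 : True := by
  have := @PvdcWindow.eq_1
  trivial

/-- **GATE TRAP, encoded form**: a rim (of any completion) which runs through the gate from `g⁻` (place `j`) to `g⁺` (place `j + n`) and is cut beyond the gate visits the inner disc `B(z, a h)` only between these two places -/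
theorem pvdc_gate_trap (hT : T.IsSph) (𝔖 : PvwSt T) {pos : V → ℂ} {h : ℝ} {z : ℂ} {τ : PvwTy} {s : V → Bool} (hG : 𝔖.Gate pos h z τ s) {x : ℂ} {ρ μ : ℝ} {P : PvbRim}
    (hW : PvdcWindow T pos s x ρ P) (hinj : ∀ i i', i < P.len → i' < P.len → P.v i = P.v i' → ‖P.v i - x‖ ≤ ρ → i = i')
    (hcl : P.v P.len = P.v 0) (hfar : τ.b * h < ‖P.v 0 - z‖) (hμ : 0 ≤ μ) (hball : ∀ w, ‖w - z‖ ≤ τ.b * h + μ → ‖w - x‖ ≤ ρ)
    (hmesh : ∀ k, k < P.len → (‖P.v k - z‖ ≤ τ.b * h ∨ ‖P.v (k + 1) - z‖ ≤ τ.b * h) → ‖P.v (k + 1) - P.v k‖ ≤ μ)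
    {j n : ℕ} (hj : j + n < P.len) (hrun0 : P.v j = pos 𝔖.gm) (hrun1 : P.v (j + n) = pos 𝔖.gp)
    {k : ℕ} (hk : k < P.len) (hnear : ‖P.v k - z‖ < τ.a * h) : j < k ∧ k < j + n := by
  have hgm := hG.ann _ (pvdc_gm_mem 𝔖 hG.dm_on)
  have hgp := hG.ann _ (pvdc_gp_mem 𝔖 hG.dp_on)
  have hab : τ.a * h ≤ τ.b * h := hgm.1.trans hgm.2.le
  have hkb : ¬ τ.b * h < ‖P.v k - z‖ := not_lt.2 (hnear.le.trans hab)
  -- an index whose vertex is `g⁺` or `g⁻`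
  have hidx : ∀ i, i < P.len → ∀ v : V, pos v = P.v i → (v = 𝔖.gp ∨ v = 𝔖.gm) → i = j + n ∨ i = j := by
    intro i hi v hv hvg
    rcases hvg with rfl | rfl
    · left
      refine hinj i (j + n) hi hj (by rw [← hv, hrun1]) (hball _ ?_)
      rw [← hv]; linarith [hgp.2]
    · right
      refine hinj i j hi (by omega) (by rw [← hv, hrun0]) (hball _ ?_)
      rw [← hv]; linarith [hgm.2]
  have hne1 : k ≠ j := by
    rintro rfl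
    rw [hrun0] at hnear
    exact absurd hgm.1 (not_le.2 hnear)
  have hne2 : k ≠ j + n := by
    rintro rfl
    rw [hrun1] at hnear
    exact absurd hgp.1 (not_le.2 hnear)
  constructor
  · -- backwards to the cut vertex
    by_contra hcon
    have hkj : k < j := by omega
    obtain ⟨t, -, t2, t3, t4⟩ := pvb_last (p := fun i => τ.b * h < ‖P.v i - z‖) (Nat.zero_le k) hfar
    have htk : t < k := by
      rcases Nat.lt_or_ge t k with h1 | h1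
      · exact h1
      · have : t = k := le_antisymm t2 h1
        rw [this] at t3
        exact absurd t3 hkb
    have hin : ∀ i, t < i → i ≤ k → ‖P.v i - z‖ ≤ τ.b * h := fun i h1 h2 => not_lt.1 (t4 i h1 h2)
    have hwin : ∀ i, i ≤ k - t → ‖P.v (t + i) - x‖ ≤ ρ := by
      intro i hi
      rcases Nat.eq_zero_or_pos i with rfl | hpos
      · have h1 := hin (t + 1) (by omega) (by omega)
        have h2 := hmesh t (by omega) (Or.inr h1)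
        refine hball _ ?_
        calc ‖P.v (t + 0) - z‖ = ‖(P.v (t + 1) - z) - (P.v (t + 1) - P.v t)‖ := by rw [Nat.add_zero]; ring_nf
          _ ≤ ‖P.v (t + 1) - z‖ + ‖P.v (t + 1) - P.v t‖ := norm_sub_le _ _
          _ ≤ τ.b * h + μ := add_le_add h1 h2
      · exact hball _ (by linarith [hin (t + i) (by omega) (by omega)])
    obtain ⟨g, g1, g2, g3⟩ := hW t (k - t) (by omega) (by omega) hwin
    have r0 : ‖pos (g.rev.v 0) - z‖ < τ.a * h := by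
      show ‖pos (g.v (g.n - 0)) - z‖ < τ.a * h
      rw [Nat.sub_zero, g1, g2 _ le_rfl, Nat.add_sub_cancel' htk.le]
      exact hnear
    have r1 : g.rev.v g.rev.n ∉ 𝔖.ins := by
      show g.v (g.n - g.n) ∉ 𝔖.ins
      rw [Nat.sub_self]
      intro hc
      have := hG.inside _ hc
      rw [g2 0 (Nat.zero_le _), Nat.add_zero] at this
      exact absurd t3 (not_lt.2 this.le)
    obtain ⟨i, hi, hv⟩ := pvdc_gate_sep hT 𝔖 hG g.rev (fun i _ => g3 _ (by rw [g1]; omega)) r0 r1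
    have hi' : i ≤ k - t := by rw [← g1]; exact hi
    have e : pos (g.rev.v i) = P.v (t + (k - t - i)) := by
      show pos (g.v (g.n - i)) = _
      rw [g1, g2 _ (Nat.sub_le _ _)]
    rcases hidx _ (by omega) _ e hv with h1 | h1 <;> omega
  · -- forwards to the cut vertex
    by_contra hcon
    have hkj : j + n < k := by omega
    have hfar' : τ.b * h < ‖P.v P.len - z‖ := by rw [hcl]; exact hfar
    obtain ⟨t, t1, t2, t3, t4⟩ := pvb_first (p := fun i => τ.b * h < ‖P.v i - z‖) hk.le hfar'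
    have htk : k < t := by
      rcases Nat.lt_or_ge k t with h1 | h1
      · exact h1
      · have : t = k := le_antisymm h1 t1
        rw [this] at t3
        exact absurd t3 hkb
    have hin : ∀ i, k ≤ i → i < t → ‖P.v i - z‖ ≤ τ.b * h := fun i h1 h2 => not_lt.1 (t4 i h1 h2)
    have hwin : ∀ i, i ≤ t - k → ‖P.v (k + i) - x‖ ≤ ρ := by
      intro i hi
      rcases Nat.lt_or_ge i (t - k) with hlt | hge
      · exact hball _ (by linarith [hin (k + i) (by omega) (by omega)])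
      · have hi' : k + i = (t - 1) + 1 := by omega
        have h1 := hin (t - 1) (by omega) (by omega)
        have h2 := hmesh (t - 1) (by omega) (Or.inl h1)
        refine hball _ ?_
        rw [hi']
        calc ‖P.v (t - 1 + 1) - z‖ = ‖(P.v (t - 1) - z) + (P.v (t - 1 + 1) - P.v (t - 1))‖ := by ring_nf
          _ ≤ ‖P.v (t - 1) - z‖ + ‖P.v (t - 1 + 1) - P.v (t - 1)‖ := norm_add_le _ _
          _ ≤ τ.b * h + μ := add_le_add h1 h2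
    obtain ⟨g, g1, g2, g3⟩ := hW k (t - k) (by omega) (by omega) hwin
    have r0 : ‖pos (g.v 0) - z‖ < τ.a * h := by
      rw [g2 0 (Nat.zero_le _), Nat.add_zero]
      exact hnear
    have r1 : g.v g.n ∉ 𝔖.ins := by
      intro hc
      have := hG.inside _ hc
      rw [g1, g2 _ le_rfl, Nat.add_sub_cancel' htk.le] at this
      exact absurd t3 (not_lt.2 this.le)
    obtain ⟨i, hi, hv⟩ := pvdc_gate_sep hT 𝔖 hG g (fun i hi => g3 i (by rw [← g1]; exact hi)) r0 r1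
    have hi' : i ≤ t - k := by rw [← g1]; exact hi
    have e : pos (g.v i) = P.v (k + i) := g2 i hi'
    have hlt : k + i < t := by
      by_contra hge
      have h1 : k + i = t := by omega
      rw [h1] at e
      have h2 : ‖pos (g.v i) - z‖ ≤ τ.b * h := by
        rcases hv with h | h <;> rw [h]
        · exact hgp.2.le
        · exact hgm.2.le
      rw [e] at h2
      exact absurd t3 (not_lt.2 h2)
    rcases hidx _ (by omega) _ e hv with h1 | h1 <;> omega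

/-- **`hcut`** of `pvdc_X_dat`: all the tags of the rim in the cut-off disc belong to the inner arc of the gate -/
theorem pvdc_hcut (hT : T.IsSph) (𝔖 : PvwSt T) {pos : V → ℂ} {h : ℝ} {z : ℂ} {τ : PvwTy} {s : V → Bool} (hG : 𝔖.Gate pos h z τ s) {x : ℂ} {ρ μ : ℝ} {P : PvbRim}
    (hW : PvdcWindow T pos s x ρ P) (hinj : ∀ i i', i < P.len → i' < P.len → P.v i = P.v i' → ‖P.v i - x‖ ≤ ρ → i = i')
    (hcl : P.v P.len = P.v 0) (hfar : τ.b * h < ‖P.v 0 - z‖) (hμ : 0 ≤ μ) (hball : ∀ w, ‖w - z‖ ≤ τ.b * h + μ → ‖w - x‖ ≤ ρ)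
    (hmesh : ∀ k, k < P.len → (‖P.v k - z‖ ≤ τ.b * h ∨ ‖P.v (k + 1) - z‖ ≤ τ.b * h) → ‖P.v (k + 1) - P.v k‖ ≤ μ)
    {j n : ℕ} (hj : j + n < P.len) (hrun0 : P.v j = pos 𝔖.gm) (hrun1 : P.v (j + n) = pos 𝔖.gp)
    {σ : Type} (𝔐 : PvbMenu σ) (u : σ) (hnum : 𝔐.mc u * h + μ < τ.a * h)
    (hmz : ∀ k, k < P.len → ‖P.z k - z‖ ≤ 𝔐.mc u * h → ‖P.z k - P.v k‖ ≤ μ) :
    ∀ k, k < P.len → PvbInCut 𝔐 h z u (P.z k) → j ≤ k ∧ k < j + n := by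
  intro k hk hc
  have hc' : ‖P.z k - z‖ ≤ 𝔐.mc u * h := hc
  have h1 := hmz k hk hc'
  have h2 : ‖P.v k - z‖ < τ.a * h := by
    calc ‖P.v k - z‖ = ‖(P.z k - z) - (P.z k - P.v k)‖ := by ring_nf
      _ ≤ ‖P.z k - z‖ + ‖P.z k - P.v k‖ := norm_sub_le _ _
      _ < τ.a * h := by linarith
  have h3 := pvdc_gate_trap hT 𝔖 hG hW hinj hcl hfar hμ hball hmesh hj hrun0 hrun1 hk h2
  exact ⟨h3.1.le, h3.2⟩

end trap

/-! ## 10. The model of record (`Defs/TrModel.lean`, 187): encoded rims of ALL completions against the plane map of the sample -/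

section model

open Claims.C0465

variable {x : ℂ} {R : ℝ} {ω : PVSample} {P : PvbRim}

theorem pvdc_all_iff : P ∈ pvhbAll x R ω ↔ P ∈ l9All x R ω := Iff.rfl

/-- `pvlo_all` (278) in the names of the model of record -/
theorem pvdc_all_win (hR : 0 < R) (hY : DelGood (pvxY ω)) (hP : P ∈ pvhbAll x R ω) {i m : ℕ} (hm0 : 0 < m) (hm : m < P.len)
    (hin : ∀ k, k ≤ m → ‖P.v (i + k) - x‖ ≤ 6 * R) :
    ∃ g : (pvxT ω).Pth, g.n = m ∧ (∀ k, k ≤ m → pvxPos ω (g.v k) = P.v (i + k)) ∧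
      (∀ k, k ≤ m → cfCol (pvConf ω) (g.v k).1 = cfCol (pvConf ω) (P.v i)) ∧
      ∀ k, k < m → P.z (i + k) = (pvxT ω).bary (pvxPos ω) ((pvxT ω).opp (g.e k)) ∧
        P.xQ (i + k) = (pvxT ω).qpart (pvxPos ω) ((pvxT ω).opp (g.e k)) ∧ P.xV (i + k) = (pvxT ω).side (pvxPos ω) ((pvxT ω).opp (g.e k)) := by
  obtain ⟨g, -, -, h1, h2, -, -, -, -, -, -, h3, -, h4, -⟩ := pvlo_all hR hY hP hm0 hm hin
  unfold pvxT pvxPos
  rw [delb_pl_eq hY]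
  exact ⟨g, h1, h2, fun k hk => h3 k (by rw [h1]; exact hk), h4⟩

/-- the near vertices of an encoded rim have ONE colour -/
theorem pvdc_all_col (hR : 0 < R) (hP : P ∈ pvhbAll x R ω) {i i' : ℕ} (h1 : ‖P.v i - x‖ ≤ 6 * R) (h2 : ‖P.v i' - x‖ ≤ 6 * R) :
    cfCol (pvConf ω) (P.v i) = cfCol (pvConf ω) (P.v i') := by
  obtain ⟨X, _, 𝔅, ξ, -, -, c, hc, -, rfl⟩ := l9a_mem hP
  have a1 := pvlo_lab_of_near 𝔅 hR h1
  have a2 := pvlo_lab_of_near 𝔅 hR h2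
  have h3 := pl_rim_col hc i i'
  unfold PvBulk.col at h3
  rw [a1, a2] at h3
  exact h3

/-- an encoded rim visits a site of the patch once -/
theorem pvdc_all_inj (hR : 0 < R) (hP : P ∈ pvhbAll x R ω) {i i' : ℕ} (hi : i < P.len) (hi' : i' < P.len) (he : P.v i = P.v i') (h1 : ‖P.v i - x‖ ≤ 6 * R) : i = i' := by
  obtain ⟨X, _, 𝔅, ξ, -, hOk, c, -, -, rfl⟩ := l9a_mem hP
  have h2 : ‖(𝔅.enc (cfSites (pvConf ω)) (x + 7 * R) c).v i' - x‖ ≤ 6 * R := by rw [← he]; exact h1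
  have a1 := pvlo_lab_of_near 𝔅 hR h1
  have a2 := pvlo_lab_of_near 𝔅 hR h2
  have he' : 𝔅.posF (cfSites (pvConf ω)) (x + 7 * R) ((𝔅.T (cfSites (pvConf ω))).src (c.e i)) = 𝔅.posF (cfSites (pvConf ω)) (x + 7 * R) ((𝔅.T (cfSites (pvConf ω))).src (c.e i')) := he
  exact c.inj i i' hi hi' (hOk.inj (by rw [a1, a2, he']))

/-- closed, far, mesh on the fine event -/
theorem pvdc_all_mesh (hR : 0 < R) {μ : ℝ} (hμ : μ ≤ R) (hF : L9Fine (pvxY ω) (Metric.closedBall x (6 * R)) μ) (hP : P ∈ pvhbAll x R ω) :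
    P.v P.len = P.v 0 ∧ 4 * R ≤ ‖P.v 0 - x‖ ∧
      (∀ k < P.len, (‖P.v k - x‖ ≤ 5 * R ∨ ‖P.v (k + 1) - x‖ ≤ 5 * R) → ‖P.v (k + 1) - P.v k‖ ≤ μ) ∧
      (∀ k < P.len, (‖P.v k - x‖ ≤ 5 * R ∨ ‖P.z k - x‖ ≤ 5 * R) → ‖P.z k - P.v k‖ ≤ μ) := by
  obtain ⟨X, _, 𝔅, ξ, -, hOk, hrim⟩ := hP
  exact l9_enc_mesh 𝔅 hR hμ hOk hF hrim

/-- the window property for the colouring in which `true` = the colour of the rim -/
theorem pvdc_all_window (hR : 0 < R) (hY : DelGood (pvxY ω)) (hP : P ∈ pvhbAll x R ω) {b : Bool} {i₀ : ℕ} (h0 : ‖P.v i₀ - x‖ ≤ 6 * R)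
    (hb : cfCol (pvConf ω) (P.v i₀) = b) : PvdcWindow (pvxT ω) (pvxPos ω) (pvxCol ω b) x (6 * R) P := by
  intro i m hm0 hm hin
  obtain ⟨g, g1, g2, g3, -⟩ := pvdc_all_win hR hY hP hm0 hm hin
  refine ⟨g, g1, g2, fun k hk => ?_⟩
  show (cfCol (pvConf ω) (g.v k).1 == b) = true
  rw [g3 k hk, pvdc_all_col hR hP (by have := hin 0 (Nat.zero_le _); rwa [Nat.add_zero] at this) h0, hb]
  exact beq_self_eq_true b

end model

section model2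

variable {V D : Type} {T : PvMap V D}

/-- the ends and the vertices of the inner arc of a gate -/
theorem pvdc_inn_facts (hT : T.IsSph) (𝔖 : PvwSt T) {pos : V → ℂ} {h : ℝ} {z : ℂ} {τ : PvwTy} {s : V → Bool} (hG : 𝔖.Gate pos h z τ s) :
    𝔖.inn.v 0 = 𝔖.gm ∧ 𝔖.inn.v 𝔖.inn.n = 𝔖.gp ∧ ∀ i, i ≤ 𝔖.inn.n → 𝔖.inn.v i ∈ 𝔖.ins := by
  obtain ⟨n, h1, h2, jj, a0, a1, a2, -⟩ := hG.strand
  have hgp : T.src (pvasIt T s 𝔖.dm n) = 𝔖.gp := by rw [h1]; rfl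
  refine ⟨a0, ?_, fun i hi => ?_⟩
  · rw [(a2 _ le_rfl).2.1, a1]
    exact hgp
  · obtain ⟨b1, b2, -⟩ := a2 i hi
    rw [b2]
    rcases Nat.lt_or_ge (jj i) n with hlt | hge
    · exact ⟨_, h2 _ hlt, rfl⟩
    · have e : jj i = n := le_antisymm b1 hge
      show T.src (pvasIt T s 𝔖.dm (jj i)) ∈ T.VOf 𝔖.S.Left
      rw [e, hgp, pl_VOf_left hT]
      exact Or.inl (pvdc_gp_mem 𝔖 hG.dp_on)

/-- in a simple map a dart of a path is determined by its two ends -/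
theorem pvdc_dart_eq (hS : T.Simple) (p q : T.Pth) {i k : ℕ} (hi : i < p.n) (hk : k < q.n) (h0 : p.v i = q.v k) (h1 : p.v (i + 1) = q.v (k + 1)) : p.e i = q.e k :=
  hS _ _ (by rw [p.src_e i hi, q.src_e k hk, h0]) (by rw [p.tgt_e i hi, q.tgt_e k hk, h1])

end model2

section model3

open Claims.C0465

variable {x : ℂ} {R : ℝ} {ω : PVSample} {P : PvbRim}

/-- **THE DICTIONARY AT THE MODEL OF RECORD**: `P` = an encoded reaching rim of ANY completion of the sample, `𝔇` = a datum of the PLANE map which is actual for `P` (`PvxActual`), the arc `g⁻(s) → g⁺(t)` of `P` inside `clB(x,6R)`, mesh `μ`.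
Then `pvbArcI (P; s,t) = X(D)` for the field `Q - a V` -/
theorem pvdc_X_model {τ : Type} (𝔐 : PvbMenu τ) (hR : 0 < R) (hY : DelGood (pvxY ω)) (hP : P ∈ pvhbAll x R ω) {μ : ℝ} (hμ0 : 0 ≤ μ)
    (hcl : P.v P.len = P.v 0) (hfar : 4 * R ≤ ‖P.v 0 - x‖)
    (hmv : ∀ k < P.len, (‖P.v k - x‖ ≤ 5 * R ∨ ‖P.v (k + 1) - x‖ ≤ 5 * R) → ‖P.v (k + 1) - P.v k‖ ≤ μ)
    (hmz : ∀ k < P.len, (‖P.v k - x‖ ≤ 5 * R ∨ ‖P.z k - x‖ ≤ 5 * R) → ‖P.z k - P.v k‖ ≤ μ)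
    (𝔇 : PvwDat (pvxT ω)) (N : PvwNum) (h : ℝ) (π : PvwPat) (b : Bool) (j : ℕ) (hn : 0 < 𝔇.g.n) (hipt : 𝔇.t.ip ≤ 𝔇.t.inn.n)
    (hG : 𝔇.s.Gate (pvxPos ω) h π.zs π.ts (pvxCol ω b)) (hA : PvxActual 𝔇 N h π b P j)
    (hin : ∀ k, k ≤ 𝔇.s.inn.n + 𝔇.g.n + 𝔇.t.inn.n → ‖P.v (j + k) - x‖ ≤ 6 * R)
    (hzs : ‖π.zs - x‖ ≤ 3 * R) (hbR : π.ts.b * h + μ < R) (hnum : N.m * h + μ < π.ts.a * h)
    (s t : PvbPin τ) (hcs : s.ctr = π.zs) (hct : t.ctr = π.zt) (hms : 𝔐.mc s.typ = N.m) (hmt : 𝔐.mc t.typ = N.m)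
    (his : s.idx = j + 𝔇.s.ip) (hit : t.idx = j + 𝔇.s.inn.n + 𝔇.g.n + 𝔇.t.ip) (a : ℂ) :
    pvbArcI 𝔐 h P (fun k => P.xQ k - a * P.xV k) s t
      = 𝔇.X (pvxPos ω) (fun d => (pvxT ω).qpart (pvxPos ω) d - a * (pvxT ω).side (pvxPos ω) d) N h π := by
  have hT : (pvxT ω).IsSph := delb_plane_isSph hY
  have hS : (pvxT ω).Simple := (delbPl (pvxY ω)).toMap_simple
  have hposinj : ∀ u v : ↥(pvxY ω), pvxPos ω u = pvxPos ω v → u = v := fun u v e => Subtype.ext e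
  obtain ⟨f0, f1, -⟩ := pvdc_inn_facts hT 𝔇.s hG
  have hgm := hG.ann _ (pvdc_gm_mem 𝔇.s hG.dm_on)
  have hab : π.ts.a * h ≤ π.ts.b * h := hgm.1.trans hgm.2.le
  -- the whole window
  have hlen := hA.pin_t.le
  obtain ⟨G, G1, G2, -, G4⟩ := pvdc_all_win hR hY hP (i := j) (m := 𝔇.s.inn.n + 𝔇.g.n + 𝔇.t.inn.n) (by omega) (by omega) hin
  have vs : ∀ i, i ≤ 𝔇.s.inn.n → 𝔇.s.inn.v i = G.v i := fun i hi => hposinj _ _ (by rw [← hA.pin_s.run i hi, G2 i (by omega)])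
  have vg : ∀ i, i ≤ 𝔇.g.n → 𝔇.g.v i = G.v (𝔇.s.inn.n + i) := fun i hi => hposinj _ _ (by rw [← hA.arc i hi, G2 _ (by omega), Nat.add_assoc])
  have vt : ∀ i, i ≤ 𝔇.t.inn.n → 𝔇.t.inn.v i = G.v (𝔇.s.inn.n + 𝔇.g.n + i) := fun i hi => hposinj _ _ (by
    rw [← hA.pin_t.run i hi, G2 _ (by omega)]
    congr 1
    omega)
  have es : ∀ i, i < 𝔇.s.inn.n → 𝔇.s.inn.e i = G.e i := fun i hi => pvdc_dart_eq hS _ _ hi (by omega) (vs i hi.le) (vs (i + 1) hi)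
  have eg : ∀ i, i < 𝔇.g.n → 𝔇.g.e i = G.e (𝔇.s.inn.n + i) := fun i hi => pvdc_dart_eq hS _ _ hi (by omega) (vg i hi.le) (vg (i + 1) hi)
  have et : ∀ i, i < 𝔇.t.inn.n → 𝔇.t.inn.e i = G.e (𝔇.s.inn.n + 𝔇.g.n + i) := fun i hi => pvdc_dart_eq hS _ _ hi (by omega) (vt i hi.le) (vt (i + 1) hi)
  -- the colour of the rim
  have hcolb : cfCol (pvConf ω) (P.v (j + 𝔇.s.inn.n)) = b := by
    have h1 : pvxCol ω b (𝔇.g.v 0) = true := hA.cyl.2.1 _ ⟨0, Nat.zero_le _, rfl⟩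
    have h2 := hA.arc 0 (Nat.zero_le _)
    rw [Nat.add_zero] at h2
    rw [h2]
    exact beq_iff_eq.1 h1
  have hW := pvdc_all_window hR hY hP (hin 𝔇.s.inn.n (by omega)) hcolb
  -- `hcut`
  have tri : ∀ w : ℂ, ‖w - x‖ ≤ ‖w - π.zs‖ + 3 * R := by
    intro w
    calc ‖w - x‖ = ‖(w - π.zs) + (π.zs - x)‖ := by ring_nf
      _ ≤ ‖w - π.zs‖ + ‖π.zs - x‖ := norm_add_le _ _
      _ ≤ ‖w - π.zs‖ + 3 * R := by linarith
  have hfar' : π.ts.b * h < ‖P.v 0 - π.zs‖ := by linarith [tri (P.v 0)]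
  have hcut : ∀ k, k < P.len → PvbInCut 𝔐 h s.ctr s.typ (P.z k) → j ≤ k ∧ k < j + 𝔇.s.inn.n := by
    rw [hcs]
    refine pvdc_hcut hT 𝔇.s hG hW (fun i i' hi hi' he h1 => pvdc_all_inj hR hP hi hi' he h1) hcl hfar' hμ0 (fun w hw => by linarith [tri w])
      (fun k hk hor => hmv k hk (hor.imp (fun h1 => by linarith [tri (P.v k)]) fun h1 => by linarith [tri (P.v (k + 1))])) hA.pin_s.le
      (by have := hA.pin_s.run 0 (Nat.zero_le _); rw [Nat.add_zero, f0] at this; exact this)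
      (by have := hA.pin_s.run _ le_rfl; rw [f1] at this; exact this) 𝔐 s.typ (by rw [hms]; exact hnum)
      (fun k hk h1 => hmz k hk (Or.inr (by rw [hms] at h1; linarith [tri (P.z k)])))
  refine pvdc_X_dat 𝔇 (pvxPos ω) _ N π _ s t j hcs hct hms hmt his hit hG.ip_le hA.pin_s.le.le ?_ ?_ ?_ hcut
  · intro i hi
    obtain ⟨c1, c2, c3⟩ := G4 i (by omega)
    rw [es i hi]
    exact ⟨c1, by rw [c2, c3]⟩
  · intro i hi
    obtain ⟨c1, c2, c3⟩ := G4 (𝔇.s.inn.n + i) (by omega)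
    rw [eg i hi, Nat.add_assoc]
    exact ⟨c1, by rw [c2, c3]⟩
  · intro i hi
    obtain ⟨c1, c2, c3⟩ := G4 (𝔇.s.inn.n + 𝔇.g.n + i) (by omega)
    rw [et i (by omega), show j + 𝔇.s.inn.n + 𝔇.g.n + i = j + (𝔇.s.inn.n + 𝔇.g.n + i) by omega]
    exact ⟨c1, by rw [c2, c3]⟩

end model3

/-! ## 11. Pins, readings, cut points at the model of record -/

section model4

open Claims.C0465

/-- the mesh facts on one encoded rim = the fields `closed far mesh_v mesh_z` of `PvbRimGood` (producer: `pvdc_mesh_of_fine`) -/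
structure PvdcMesh (x : ℂ) (R μ : ℝ) (P : PvbRim) : Prop where
  mu0 : 0 ≤ μ
  closed : P.v P.len = P.v 0
  far : 4 * R ≤ ‖P.v 0 - x‖
  mesh_v : ∀ k < P.len, (‖P.v k - x‖ ≤ 5 * R ∨ ‖P.v (k + 1) - x‖ ≤ 5 * R) → ‖P.v (k + 1) - P.v k‖ ≤ μ
  mesh_z : ∀ k < P.len, (‖P.v k - x‖ ≤ 5 * R ∨ ‖P.z k - x‖ ≤ 5 * R) → ‖P.z k - P.v k‖ ≤ μ

variable {x : ℂ} {R : ℝ} {ω : PVSample} {P : PvbRim}

theorem pvdc_mesh_of_fine (hR : 0 < R) {μ : ℝ} (hμ0 : 0 ≤ μ) (hμ : μ ≤ R) (hF : L9Fine (pvxY ω) (Metric.closedBall x (6 * R)) μ) (hP : P ∈ pvhbAll x R ω) :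
    PvdcMesh x R μ P := by
  obtain ⟨h1, h2, h3, h4⟩ := pvdc_all_mesh hR hμ hF hP
  exact ⟨hμ0, h1, h2, h3, h4⟩

/-- **GATE TRAP AT THE MODEL** (vertices): an encoded rim of ANY completion which runs through a gate of the PLANE map along its inner arc (place `j`) visits `B(z, a h)` only on this arc -/
theorem pvdc_trap_model (hR : 0 < R) (hY : DelGood (pvxY ω)) (hP : P ∈ pvhbAll x R ω) {μ : ℝ} (hM : PvdcMesh x R μ P)
    (𝔖 : PvwSt (pvxT ω)) {h : ℝ} {z : ℂ} {ty : PvwTy} {b : Bool} (hG : 𝔖.Gate (pvxPos ω) h z ty (pvxCol ω b))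
    {j : ℕ} (hle : j + 𝔖.inn.n < P.len) (hrun : ∀ i, i ≤ 𝔖.inn.n → P.v (j + i) = pvxPos ω (𝔖.inn.v i))
    (hz : ‖z - x‖ ≤ 3 * R) (hbR : ty.b * h + μ < R) {k : ℕ} (hk : k < P.len) (hnear : ‖P.v k - z‖ < ty.a * h) : j < k ∧ k < j + 𝔖.inn.n := by
  have hT : (pvxT ω).IsSph := delb_plane_isSph hY
  obtain ⟨f0, f1, -⟩ := pvdc_inn_facts hT 𝔖 hG
  have hgm := hG.ann _ (pvdc_gm_mem 𝔖 hG.dm_on)
  have hμ0 := hM.mu0
  have tri : ∀ w : ℂ, ‖w - x‖ ≤ ‖w - z‖ + 3 * R := by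
    intro w
    calc ‖w - x‖ = ‖(w - z) + (z - x)‖ := by ring_nf
      _ ≤ ‖w - z‖ + ‖z - x‖ := norm_add_le _ _
      _ ≤ ‖w - z‖ + 3 * R := by linarith
  have r0 : P.v j = pvxPos ω 𝔖.gm := by
    have := hrun 0 (Nat.zero_le _)
    rwa [Nat.add_zero, f0] at this
  have r1 : P.v (j + 𝔖.inn.n) = pvxPos ω 𝔖.gp := by
    have := hrun _ le_rfl
    rwa [f1] at this
  have hcolb : cfCol (pvConf ω) (P.v j) = b := by
    rw [r0]
    exact beq_iff_eq.1 hG.bw_m.1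
  have hj6 : ‖P.v j - x‖ ≤ 6 * R := by
    rw [r0]
    linarith [tri (pvxPos ω 𝔖.gm), hgm.2]
  have hW := pvdc_all_window hR hY hP hj6 hcolb
  exact pvdc_gate_trap hT 𝔖 hG hW (fun i i' hi hi' he h1 => pvdc_all_inj hR hP hi hi' he h1) hM.closed (by linarith [tri (P.v 0), hM.far]) hμ0 (fun w hw => by linarith [tri w])
    (fun k hk hor => hM.mesh_v k hk (hor.imp (fun h1 => by linarith [tri (P.v k)]) fun h1 => by linarith [tri (P.v (k + 1))])) hle r0 r1 hk hnear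

/-- **GATE TRAP AT THE MODEL** (tags): all the tags of the rim in `clB(z, ρ)`, `ρ + μ < a h`, belong to the edges of the inner arc -/
theorem pvdc_cut_model (hR : 0 < R) (hY : DelGood (pvxY ω)) (hP : P ∈ pvhbAll x R ω) {μ : ℝ} (hM : PvdcMesh x R μ P)
    (𝔖 : PvwSt (pvxT ω)) {h : ℝ} {z : ℂ} {ty : PvwTy} {b : Bool} (hG : 𝔖.Gate (pvxPos ω) h z ty (pvxCol ω b))
    {j : ℕ} (hle : j + 𝔖.inn.n < P.len) (hrun : ∀ i, i ≤ 𝔖.inn.n → P.v (j + i) = pvxPos ω (𝔖.inn.v i))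
    (hz : ‖z - x‖ ≤ 3 * R) (hbR : ty.b * h + μ < R) {ρ : ℝ} (hnum : ρ + μ < ty.a * h) {k : ℕ} (hk : k < P.len) (hc : ‖P.z k - z‖ ≤ ρ) : j ≤ k ∧ k < j + 𝔖.inn.n := by
  have hgm := hG.ann _ (pvdc_gm_mem 𝔖 hG.dm_on)
  have hμ0 := hM.mu0
  have h0 : ‖P.z k - x‖ ≤ 5 * R := by
    calc ‖P.z k - x‖ = ‖(P.z k - z) + (z - x)‖ := by ring_nf
      _ ≤ ‖P.z k - z‖ + ‖z - x‖ := norm_add_le _ _
      _ ≤ 5 * R := by linarith
  have h1 := hM.mesh_z k hk (Or.inr h0)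
  have h2 : ‖P.v k - z‖ < ty.a * h := by
    calc ‖P.v k - z‖ = ‖(P.z k - z) - (P.z k - P.v k)‖ := by ring_nf
      _ ≤ ‖P.z k - z‖ + ‖P.z k - P.v k‖ := norm_sub_le _ _
      _ < ty.a * h := by linarith
  have h3 := pvdc_trap_model hR hY hP hM 𝔖 hG hle hrun hz hbR hk h2
  exact ⟨h3.1.le, h3.2⟩

/-- **A GATE OF THE PLANE MAP PASSED ALONG ITS INNER ARC IS A PIN OF S6b** (`PvbIsPin`), window `[j, j + n]` -/
theorem pvdc_isPin_gate {τ : Type} (𝔐 : PvbMenu τ) (hR : 0 < R) (hY : DelGood (pvxY ω)) (hP : P ∈ pvhbAll x R ω) {μ : ℝ} (hM : PvdcMesh x R μ P)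
    (𝔖 : PvwSt (pvxT ω)) {h : ℝ} (hh : 0 < h) {z : ℂ} {ty : PvwTy} {b : Bool} (hG : 𝔖.Gate (pvxPos ω) h z ty (pvxCol ω b))
    {j : ℕ} (hle : j + 𝔖.inn.n < P.len) (hrun : ∀ i, i ≤ 𝔖.inn.n → P.v (j + i) = pvxPos ω (𝔖.inn.v i))
    (hz : ‖z - x‖ ≤ 3 * R) (hbR : ty.b * h + μ < R) (s : PvbPin τ) (hc : s.ctr = z) (hi : s.idx = j + 𝔖.ip)
    (ha3 : 𝔐.a3 s.typ ≤ ty.a) (hbL : ty.b ≤ 𝔐.L) : PvbIsPin 𝔐 h P s := by
  have hT : (pvxT ω).IsSph := delb_plane_isSph hY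
  obtain ⟨-, -, f2⟩ := pvdc_inn_facts hT 𝔖 hG
  have hgm := hG.ann _ (pvdc_gm_mem 𝔖 hG.dm_on)
  have hμ0 := hM.mu0
  have hip := hG.ip_le
  have hin : ∀ i, j ≤ i → i ≤ j + 𝔖.inn.n → ‖P.v i - z‖ ≤ 𝔐.L * h := by
    intro i h1 h2
    have e : i = j + (i - j) := by omega
    rw [e, hrun _ (by omega)]
    exact (hG.inside _ (f2 _ (by omega))).le.trans (mul_le_mul_of_nonneg_right hbL hh.le)
  refine ⟨by omega, ?_, j, j + 𝔖.inn.n, by omega, by omega, hle.le, ?_, ?_⟩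
  · rw [hi, hrun _ hip, hc]
    exact hG.ip_near
  · intro i hi' hnear
    rw [hc] at hnear
    have hnear' : ‖P.v i - z‖ < ty.a * h := hnear.trans_le (mul_le_mul_of_nonneg_right ha3 hh.le)
    rcases Nat.lt_or_ge i P.len with hlt | hge
    · have := pvdc_trap_model hR hY hP hM 𝔖 hG hle hrun hz hbR hlt hnear'
      exact ⟨this.1.le, this.2.le⟩
    · exfalso
      have e : i = P.len := le_antisymm hi' hge
      rw [e, hM.closed] at hnear'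
      have h1 : ‖P.v 0 - x‖ ≤ ‖P.v 0 - z‖ + ‖z - x‖ := by
        calc ‖P.v 0 - x‖ = ‖(P.v 0 - z) + (z - x)‖ := by ring_nf
          _ ≤ _ := norm_add_le _ _
      linarith [hM.far]
  · intro i i' h1 h2 h3 h4
    calc ‖P.v i - P.v i'‖ = ‖(P.v i - z) - (P.v i' - z)‖ := by ring_nf
      _ ≤ ‖P.v i - z‖ + ‖P.v i' - z‖ := norm_sub_le _ _
      _ ≤ 2 * 𝔐.L * h := by linarith [hin i h1 h2, hin i' h3 h4]

/-- **READING**: a window of an encoded rim (of ANY completion) inside `clB(x,6R)` whose vertices are those of the path `p` of the PLANE map carries the tags and the fields of the right-hand triangles of `p` -/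
theorem pvdc_read_path (hR : 0 < R) (hY : DelGood (pvxY ω)) (hP : P ∈ pvhbAll x R ω) (p : (pvxT ω).Pth) {o : ℕ} (hlen : p.n < P.len)
    (hrun : ∀ i, i ≤ p.n → P.v (o + i) = pvxPos ω (p.v i)) (hin : ∀ i, i ≤ p.n → ‖P.v (o + i) - x‖ ≤ 6 * R) {i : ℕ} (hi : i < p.n) :
    P.z (o + i) = (pvxT ω).bary (pvxPos ω) ((pvxT ω).opp (p.e i)) ∧ P.xQ (o + i) = (pvxT ω).qpart (pvxPos ω) ((pvxT ω).opp (p.e i)) ∧
      P.xV (o + i) = (pvxT ω).side (pvxPos ω) ((pvxT ω).opp (p.e i)) ∧ P.xV (o + i) = P.v (o + i + 1) - P.v (o + i) := by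
  have hS : (pvxT ω).Simple := (delbPl (pvxY ω)).toMap_simple
  obtain ⟨G, G1, G2, -, G4⟩ := pvdc_all_win hR hY hP (i := o) (m := p.n) (by omega) hlen hin
  have vs : ∀ k, k ≤ p.n → p.v k = G.v k := fun k hk => Subtype.ext (by
    have h1 := hrun k hk
    have h2 := G2 k hk
    unfold pvxPos at h1 h2
    rw [← h1, h2])
  have es : p.e i = G.e i := pvdc_dart_eq hS _ _ hi (by omega) (vs i hi.le) (vs (i + 1) hi)
  obtain ⟨c1, c2, c3⟩ := G4 i hi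
  rw [es]
  refine ⟨c1, c2, c3, ?_⟩
  rw [c3, pvdc_side_opp, G.tgt_e i (by omega), G.src_e i (by omega), G2 _ hi.le, G2 (i + 1) hi, Nat.add_assoc]

/-- the arc `g⁻(s) → g⁺(t)` of the encoded rim `P` (place `j`) runs along `inner(s) . g₀ . inner(t)` and stays in `clB(x,6R)` -/
structure PvdcRun (x : ℂ) (R : ℝ) {ω : PVSample} (𝔇 : PvwDat (pvxT ω)) (P : PvbRim) (j : ℕ) : Prop where
  le : j + 𝔇.s.inn.n + 𝔇.g.n + 𝔇.t.inn.n < P.len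
  run_s : ∀ i, i ≤ 𝔇.s.inn.n → P.v (j + i) = pvxPos ω (𝔇.s.inn.v i)
  arc : ∀ i, i ≤ 𝔇.g.n → P.v (j + 𝔇.s.inn.n + i) = pvxPos ω (𝔇.g.v i)
  run_t : ∀ i, i ≤ 𝔇.t.inn.n → P.v (j + 𝔇.s.inn.n + 𝔇.g.n + i) = pvxPos ω (𝔇.t.inn.v i)
  near : ∀ k, j ≤ k → k ≤ j + 𝔇.s.inn.n + 𝔇.g.n + 𝔇.t.inn.n → ‖P.v k - x‖ ≤ 6 * R

theorem pvdc_run_of_actual {𝔇 : PvwDat (pvxT ω)} {N : PvwNum} {h : ℝ} {π : PvwPat} {b : Bool} {j : ℕ} (hA : PvxActual 𝔇 N h π b P j)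
    (hin : ∀ k, j ≤ k → k ≤ j + 𝔇.s.inn.n + 𝔇.g.n + 𝔇.t.inn.n → ‖P.v k - x‖ ≤ 6 * R) : PvdcRun x R 𝔇 P j :=
  ⟨hA.pin_t.le, hA.pin_s.run, hA.arc, hA.pin_t.run, hin⟩

/-- the three readings of a run -/
theorem pvdc_run_read (hR : 0 < R) (hY : DelGood (pvxY ω)) (hP : P ∈ pvhbAll x R ω) {𝔇 : PvwDat (pvxT ω)} {j : ℕ} (hr : PvdcRun x R 𝔇 P j) :
    (∀ i, i < 𝔇.s.inn.n → P.z (j + i) = (pvxT ω).bary (pvxPos ω) ((pvxT ω).opp (𝔇.s.inn.e i)) ∧ P.xQ (j + i) = (pvxT ω).qpart (pvxPos ω) ((pvxT ω).opp (𝔇.s.inn.e i)) ∧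
      P.xV (j + i) = (pvxT ω).side (pvxPos ω) ((pvxT ω).opp (𝔇.s.inn.e i))) ∧
    (∀ i, i < 𝔇.g.n → P.z (j + 𝔇.s.inn.n + i) = (pvxT ω).bary (pvxPos ω) ((pvxT ω).opp (𝔇.g.e i)) ∧ P.xQ (j + 𝔇.s.inn.n + i) = (pvxT ω).qpart (pvxPos ω) ((pvxT ω).opp (𝔇.g.e i)) ∧
      P.xV (j + 𝔇.s.inn.n + i) = (pvxT ω).side (pvxPos ω) ((pvxT ω).opp (𝔇.g.e i))) ∧
    (∀ i, i < 𝔇.t.inn.n → P.z (j + 𝔇.s.inn.n + 𝔇.g.n + i) = (pvxT ω).bary (pvxPos ω) ((pvxT ω).opp (𝔇.t.inn.e i)) ∧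
      P.xQ (j + 𝔇.s.inn.n + 𝔇.g.n + i) = (pvxT ω).qpart (pvxPos ω) ((pvxT ω).opp (𝔇.t.inn.e i)) ∧ P.xV (j + 𝔇.s.inn.n + 𝔇.g.n + i) = (pvxT ω).side (pvxPos ω) ((pvxT ω).opp (𝔇.t.inn.e i))) ∧
    ∀ k, j ≤ k → k < j + 𝔇.s.inn.n + 𝔇.g.n + 𝔇.t.inn.n → P.xV k = P.v (k + 1) - P.v k := by
  have hle := hr.le
  have a1 := fun i (hi : i < 𝔇.s.inn.n) => pvdc_read_path hR hY hP 𝔇.s.inn (o := j) (by omega) hr.run_s (fun i hi => hr.near _ (by omega) (by omega)) hi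
  have a2 := fun i (hi : i < 𝔇.g.n) => pvdc_read_path hR hY hP 𝔇.g (o := j + 𝔇.s.inn.n) (by omega) hr.arc (fun i hi => hr.near _ (by omega) (by omega)) hi
  have a3 := fun i (hi : i < 𝔇.t.inn.n) => pvdc_read_path hR hY hP 𝔇.t.inn (o := j + 𝔇.s.inn.n + 𝔇.g.n) (by omega) hr.run_t (fun i hi => hr.near _ (by omega) (by omega)) hi
  refine ⟨fun i hi => ⟨(a1 i hi).1, (a1 i hi).2.1, (a1 i hi).2.2.1⟩, fun i hi => ⟨(a2 i hi).1, (a2 i hi).2.1, (a2 i hi).2.2.1⟩, fun i hi => ⟨(a3 i hi).1, (a3 i hi).2.1, (a3 i hi).2.2.1⟩, ?_⟩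
  intro k h1 h2
  rcases Nat.lt_or_ge k (j + 𝔇.s.inn.n) with c1 | c1
  · have := (a1 (k - j) (by omega)).2.2.2
    rwa [show j + (k - j) = k by omega] at this
  · rcases Nat.lt_or_ge k (j + 𝔇.s.inn.n + 𝔇.g.n) with c2 | c2
    · have := (a2 (k - (j + 𝔇.s.inn.n)) (by omega)).2.2.2
      rwa [show j + 𝔇.s.inn.n + (k - (j + 𝔇.s.inn.n)) = k by omega] at this
    · have := (a3 (k - (j + 𝔇.s.inn.n + 𝔇.g.n)) (by omega)).2.2.2
      rwa [show j + 𝔇.s.inn.n + 𝔇.g.n + (k - (j + 𝔇.s.inn.n + 𝔇.g.n)) = k by omega] at this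

end model4

section cutpt

variable {V D : Type} {T : PvMap V D}

/-- **THE CUT POINT OF A STATE** (`cV` of 283, ruling 12 of 234): the marked vertex minus the `V`-mass of the edges of the inner arc BEFORE the marked vertex with tag in the cut-off disc `clB(z,ρ)`.      Reads `(inn, ip)` only. -/
noncomputable def pvdcCV (𝔖 : PvwSt T) (pos : V → ℂ) (z : ℂ) (ρ : ℝ) : ℂ :=
  pos (𝔖.inn.v 𝔖.ip) - pvwMass T pos (T.side pos) (Metric.closedBall z ρ) 𝔖.inn 0 𝔖.ip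

theorem pvdc_eqns_cite11 : True := by
  have := @pvdcCV.eq_1
  trivial

/-- the cut point = `g⁻` + the `V`-mass of the edges before the marked vertex with tag OFF the cut-off disc (the form of the correction of 234: a mask sum on the entrance side) -/
theorem pvdc_CV_off (𝔖 : PvwSt T) (pos : V → ℂ) (z : ℂ) (ρ : ℝ) (hip : 𝔖.ip ≤ 𝔖.inn.n) :
    pvdcCV 𝔖 pos z ρ = pos (𝔖.inn.v 0) + pvwMass T pos (T.side pos) (Metric.closedBall z ρ)ᶜ 𝔖.inn 0 𝔖.ip := by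
  classical
  have h1 : pvwMass T pos (T.side pos) (Metric.closedBall z ρ) 𝔖.inn 0 𝔖.ip + pvwMass T pos (T.side pos) (Metric.closedBall z ρ)ᶜ 𝔖.inn 0 𝔖.ip
      = pos (𝔖.inn.v 𝔖.ip) - pos (𝔖.inn.v 0) := by
    unfold pvwMass
    rw [← sum_add_distrib, ← pvdc_tele (fun k => pos (𝔖.inn.v k)) (fun k => T.side pos (T.opp (𝔖.inn.e k))) (Nat.zero_le _) fun k _ hk => by
      rw [pvdc_side_opp, 𝔖.inn.tgt_e k (by omega), 𝔖.inn.src_e k (by omega)]]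
    refine sum_congr rfl fun k _ => ?_
    by_cases hc : T.bary pos (T.opp (𝔖.inn.e k)) ∈ Metric.closedBall z ρ
    · rw [if_pos hc, if_neg (fun h' => h' hc), add_zero]
    · rw [if_neg hc, if_pos (show T.bary pos (T.opp (𝔖.inn.e k)) ∈ (Metric.closedBall z ρ)ᶜ from hc), zero_add]
  unfold pvdcCV
  linear_combination -h1

end cutpt

section model5

open Claims.C0465

variable {x : ℂ} {R : ℝ} {ω : PVSample} {P : PvbRim}

/-- **(A4) AT THE MODEL OF RECORD = `tel` of `PvtyLocQ`, EXACT**: `I_V(P;s,t) = cV(Σ(t)) - cV(Σ(s))` -/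
theorem pvdc_tel_model {τ : Type} (𝔐 : PvbMenu τ) (hR : 0 < R) (hY : DelGood (pvxY ω)) (hP : P ∈ pvhbAll x R ω) {μ : ℝ} (hM : PvdcMesh x R μ P)
    (𝔇 : PvwDat (pvxT ω)) {h : ℝ} {zs zt : ℂ} {ts tt : PvwTy} {b : Bool} {j : ℕ}
    (hGs : 𝔇.s.Gate (pvxPos ω) h zs ts (pvxCol ω b)) (hGt : 𝔇.t.Gate (pvxPos ω) h zt tt (pvxCol ω b)) (hr : PvdcRun x R 𝔇 P j)
    (hzs : ‖zs - x‖ ≤ 3 * R) (hzt : ‖zt - x‖ ≤ 3 * R) (hbs : ts.b * h + μ < R) (hbt : tt.b * h + μ < R)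
    (s t : PvbPin τ) (hcs : s.ctr = zs) (hct : t.ctr = zt) (hns : 𝔐.mc s.typ * h + μ < ts.a * h) (hnt : 𝔐.mc t.typ * h + μ < tt.a * h)
    (his : s.idx = j + 𝔇.s.ip) (hit : t.idx = j + 𝔇.s.inn.n + 𝔇.g.n + 𝔇.t.ip) :
    pvbArcI 𝔐 h P P.xV s t = pvdcCV 𝔇.t (pvxPos ω) zt (𝔐.mc t.typ * h) - pvdcCV 𝔇.s (pvxPos ω) zs (𝔐.mc s.typ * h) := by
  have hle := hr.le
  have hips := hGs.ip_le
  have hipt := hGt.ip_le
  obtain ⟨a1, -, a3, a4⟩ := pvdc_run_read hR hY hP hr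
  have ws : PvdcWin 𝔐 h P s j s.idx s.idx (j + 𝔇.s.inn.n) :=
    ⟨by omega, le_rfl, le_rfl, by omega, by omega,
      fun k hk hc => pvdc_cut_model hR hY hP hM 𝔇.s hGs (by omega) hr.run_s hzs hbs hns hk (by rw [← hcs]; exact hc), fun k h1 h2 => by omega⟩
  have wt : PvdcWin 𝔐 h P t (j + 𝔇.s.inn.n + 𝔇.g.n) t.idx t.idx (j + 𝔇.s.inn.n + 𝔇.g.n + 𝔇.t.inn.n) :=
    ⟨by omega, le_rfl, le_rfl, by omega, by omega,
      fun k hk hc => pvdc_cut_model hR hY hP hM 𝔇.t hGt (by omega) hr.run_t hzt hbt hnt hk (by rw [← hct]; exact hc), fun k h1 h2 => by omega⟩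
  have e1 := pvdc_M_mass (𝔐 := 𝔐) (h := h) (P := P) (pvxPos ω) ((pvxT ω).side (pvxPos ω)) P.xV s 𝔇.s.inn j 0 𝔇.s.ip fun i _ h2 => ⟨(a1 i (by omega)).1, (a1 i (by omega)).2.2⟩
  have e2 := pvdc_M_mass (𝔐 := 𝔐) (h := h) (P := P) (pvxPos ω) ((pvxT ω).side (pvxPos ω)) P.xV t 𝔇.t.inn (j + 𝔇.s.inn.n + 𝔇.g.n) 0 𝔇.t.ip
    fun i _ h2 => ⟨(a3 i (by omega)).1, (a3 i (by omega)).2.2⟩
  rw [Nat.add_zero] at e1 e2
  rw [pvdc_V ws wt (by omega) P.xV fun k h1 h2 => a4 k (by omega) (by omega)]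
  unfold pvdcPhi pvdcCV
  rw [his, hit, e1, e2, hr.run_s _ hips, hr.run_t _ hipt, hcs, hct]
  ring

/-- **THE DICTIONARY AT THE MODEL, EVERY LINEAR COMBINATION OF THE TWO FIELDS** -/
theorem pvdc_X_run {τ : Type} (𝔐 : PvbMenu τ) (hR : 0 < R) (hY : DelGood (pvxY ω)) (hP : P ∈ pvhbAll x R ω) {μ : ℝ} (hM : PvdcMesh x R μ P)
    (𝔇 : PvwDat (pvxT ω)) (N : PvwNum) {h : ℝ} (π : PvwPat) {b : Bool} {j : ℕ}
    (hGs : 𝔇.s.Gate (pvxPos ω) h π.zs π.ts (pvxCol ω b)) (hipt : 𝔇.t.ip ≤ 𝔇.t.inn.n) (hr : PvdcRun x R 𝔇 P j)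
    (hzs : ‖π.zs - x‖ ≤ 3 * R) (hbs : π.ts.b * h + μ < R) (hns : N.m * h + μ < π.ts.a * h)
    (s t : PvbPin τ) (hcs : s.ctr = π.zs) (hct : t.ctr = π.zt) (hms : 𝔐.mc s.typ = N.m) (hmt : 𝔐.mc t.typ = N.m)
    (his : s.idx = j + 𝔇.s.ip) (hit : t.idx = j + 𝔇.s.inn.n + 𝔇.g.n + 𝔇.t.ip) (α β : ℂ) :
    pvbArcI 𝔐 h P (fun k => α * P.xQ k + β * P.xV k) s t
      = 𝔇.X (pvxPos ω) (fun d => α * (pvxT ω).qpart (pvxPos ω) d + β * (pvxT ω).side (pvxPos ω) d) N h π := by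
  have hle := hr.le
  obtain ⟨a1, a2, a3, -⟩ := pvdc_run_read hR hY hP hr
  refine pvdc_X_dat 𝔇 (pvxPos ω) _ N π _ s t j hcs hct hms hmt his hit hGs.ip_le (by omega) (fun i hi => ?_) (fun i hi => ?_) (fun i hi => ?_) ?_
  · obtain ⟨c1, c2, c3⟩ := a1 i hi
    exact ⟨c1, by rw [c2, c3]⟩
  · obtain ⟨c1, c2, c3⟩ := a2 i hi
    exact ⟨c1, by rw [c2, c3]⟩
  · obtain ⟨c1, c2, c3⟩ := a3 i (by omega)
    exact ⟨c1, by rw [c2, c3]⟩
  · intro k hk hc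
    exact pvdc_cut_model hR hY hP hM 𝔇.s hGs (by omega) hr.run_s hzs hbs hns hk (by rw [← hcs, ← hms]; exact hc)

/-- the field `Q` alone (ruling 12 of 234) -/
theorem pvdc_XQ_run {τ : Type} (𝔐 : PvbMenu τ) (hR : 0 < R) (hY : DelGood (pvxY ω)) (hP : P ∈ pvhbAll x R ω) {μ : ℝ} (hM : PvdcMesh x R μ P)
    (𝔇 : PvwDat (pvxT ω)) (N : PvwNum) {h : ℝ} (π : PvwPat) {b : Bool} {j : ℕ}
    (hGs : 𝔇.s.Gate (pvxPos ω) h π.zs π.ts (pvxCol ω b)) (hipt : 𝔇.t.ip ≤ 𝔇.t.inn.n) (hr : PvdcRun x R 𝔇 P j)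
    (hzs : ‖π.zs - x‖ ≤ 3 * R) (hbs : π.ts.b * h + μ < R) (hns : N.m * h + μ < π.ts.a * h)
    (s t : PvbPin τ) (hcs : s.ctr = π.zs) (hct : t.ctr = π.zt) (hms : 𝔐.mc s.typ = N.m) (hmt : 𝔐.mc t.typ = N.m)
    (his : s.idx = j + 𝔇.s.ip) (hit : t.idx = j + 𝔇.s.inn.n + 𝔇.g.n + 𝔇.t.ip) :
    pvbArcI 𝔐 h P P.xQ s t = 𝔇.X (pvxPos ω) ((pvxT ω).qpart (pvxPos ω)) N h π := by
  have := pvdc_X_run 𝔐 hR hY hP hM 𝔇 N π hGs hipt hr hzs hbs hns s t hcs hct hms hmt his hit 1 0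
  simpa only [one_mul, zero_mul, add_zero] using this

/-- the field `V` alone -/
theorem pvdc_XV_run {τ : Type} (𝔐 : PvbMenu τ) (hR : 0 < R) (hY : DelGood (pvxY ω)) (hP : P ∈ pvhbAll x R ω) {μ : ℝ} (hM : PvdcMesh x R μ P)
    (𝔇 : PvwDat (pvxT ω)) (N : PvwNum) {h : ℝ} (π : PvwPat) {b : Bool} {j : ℕ}
    (hGs : 𝔇.s.Gate (pvxPos ω) h π.zs π.ts (pvxCol ω b)) (hipt : 𝔇.t.ip ≤ 𝔇.t.inn.n) (hr : PvdcRun x R 𝔇 P j)
    (hzs : ‖π.zs - x‖ ≤ 3 * R) (hbs : π.ts.b * h + μ < R) (hns : N.m * h + μ < π.ts.a * h)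
    (s t : PvbPin τ) (hcs : s.ctr = π.zs) (hct : t.ctr = π.zt) (hms : 𝔐.mc s.typ = N.m) (hmt : 𝔐.mc t.typ = N.m)
    (his : s.idx = j + 𝔇.s.ip) (hit : t.idx = j + 𝔇.s.inn.n + 𝔇.g.n + 𝔇.t.ip) :
    pvbArcI 𝔐 h P P.xV s t = 𝔇.X (pvxPos ω) ((pvxT ω).side (pvxPos ω)) N h π := by
  have := pvdc_X_run 𝔐 hR hY hP hM 𝔇 N π hGs hipt hr hzs hbs hns s t hcs hct hms hmt his hit 0 1
  simpa only [one_mul, zero_mul, zero_add] using this

end model5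

section cutpt2

variable {V D : Type} {T : PvMap V D}

/-- the cut point reads the vertices `0..ip` of the inner arc only (input of the uniqueness of the state, 150) -/
theorem pvdc_CV_congr (hS : T.Simple) (𝔖 𝔖' : PvwSt T) (pos : V → ℂ) (z : ℂ) (ρ : ℝ) (hip : 𝔖.ip ≤ 𝔖.inn.n) (hip' : 𝔖'.ip ≤ 𝔖'.inn.n)
    (e : 𝔖.ip = 𝔖'.ip) (hv : ∀ i, i ≤ 𝔖.ip → 𝔖.inn.v i = 𝔖'.inn.v i) : pvdcCV 𝔖 pos z ρ = pvdcCV 𝔖' pos z ρ := by
  unfold pvdcCV pvwMass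
  rw [← e, hv _ le_rfl]
  congr 1
  refine sum_congr rfl fun k hk => ?_
  have hk' := (mem_Ico.1 hk).2
  rw [pvdc_dart_eq hS 𝔖.inn 𝔖'.inn (i := k) (k := k) (by omega) (by omega) (hv k hk'.le) (hv (k + 1) hk')]

end cutpt2

section model6

open Claims.C0465

variable {x : ℂ} {R : ℝ} {ω : PVSample} {P : PvbRim} {τ : Type} {c : ℝ}

/-- the numbers of `WfB` + `PvbMenu`: the cut-off disc with a collar of one mesh lies inside the gate -/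
theorem pvdc_wf_num (𝔓 : PvxPar τ c) (hW : 𝔓.WfB) (t : τ) {h μ : ℝ} (hh : 0 < h) (hμh : μ ≤ h) : 𝔓.num.m * h + μ < (𝔓.ty t).a * h := by
  have h1 := 𝔓.𝔐.mc_gt t
  have h2 := 𝔓.𝔐.mc_lt t
  have h3 := 𝔓.𝔐.a3_gt t
  have h4 := hW.a3_le t
  have h5 := hW.mc_eq t
  have h6 : 𝔓.num.m + 1 < (𝔓.ty t).a := by rw [← h5]; linarith
  nlinarith [mul_lt_mul_of_pos_right h6 hh]

theorem pvdc_wf_b (𝔓 : PvxPar τ c) (hW : 𝔓.WfB) (t : τ) {h μ : ℝ} (hh : 0 < h) (hLR : 𝔓.𝔐.L * h + μ < R) : (𝔓.ty t).b * h + μ < R := by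
  have := mul_le_mul_of_nonneg_right (hW.b_le t) hh.le
  linarith

/-- the gate of the state of a candidate -/
theorem pvdc_at_gate {𝔓 : PvxPar τ c} {m : ℕ} {z : ℂ} {t : τ} {𝔖 : PvwSt (pvxT ω)} (hA : PvxAt 𝔓 m ω z t 𝔖) :
    𝔖.Gate (pvxPos ω) (pvlmH m) z (𝔓.ty t) (pvxCol ω (𝔓.col t)) := by
  exact hA.st.out.gate

/-- **ROOF PINS, THE DETERMINISTIC HALF**: on the mesh event every qualified pin of record of every encoded rim of every completion is a pin of S6b with a grid centre -/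
theorem pvdc_isPin_model (𝔓 : PvxPar τ c) (hW : 𝔓.WfB) (hR : 0 < R) (hP : P ∈ pvhbAll x R ω) {μ : ℝ} (hM : PvdcMesh x R μ P) {m : ℕ}
    (hLR : 𝔓.𝔐.L * pvlmH m + μ < R) {s : PvbPin τ} (hs : s ∈ pvxPins 𝔓 x R m ω P) :
    PvbIsPin 𝔓.𝔐 (pvlmH m) P s ∧ ∃ p : ℤ × ℤ, s.ctr = l9Pt (pvlmH m) p := by
  obtain ⟨hz, hp, 𝔖, j, hA, hpin, hi, -⟩ := hs
  exact ⟨pvdc_isPin_gate 𝔓.𝔐 hR hA.good hP hM 𝔖 (pvlm_H_pos m) (pvdc_at_gate hA) hpin.le hpin.run hz (pvdc_wf_b 𝔓 hW _ (pvlm_H_pos m) hLR) s rfl hi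
    (hW.a3_le _) (hW.b_le _), hp⟩

/-- **ROOF N1 / TEL, THE DETERMINISTIC HALF**: on the mesh event an arc which fits a pattern of record carries a datum of the plane map with `I_Q = X(D)` (also for `Q - aV`) and `I_V = cV(Σ(t)) - cV(Σ(s))`, EXACTLY -/
theorem pvdc_fit_model_b (𝔓 : PvxPar τ c) (hW : 𝔓.Wf) (hR : 0 < R) (hP : P ∈ pvhbAll x R ω) {μ : ℝ} (hM : PvdcMesh x R μ P) {m : ℕ} (hμh : μ ≤ pvlmH m)
    {π : PvxIx τ} (hbs : (𝔓.ty π.p.ts).b * pvlmH m + μ < R) (hbt : (𝔓.ty π.p.tt).b * pvlmH m + μ < R) (hπ : π ∈ pvxPatSet 𝔓 x R m) {s t : PvbPin τ} (hF : pvxFit 𝔓 x R m ω P s t π) :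
    ∃ (𝔇 : PvwDat (pvxT ω)) (j : ℕ), 𝔇.Ok (pvxPos ω) 𝔓.num (pvlmH m) (𝔓.reg m π) ∧ PvxActual 𝔇 𝔓.num (pvlmH m) (𝔓.reg m π) (𝔓.col π.p.ts) P j ∧
      PvxAt 𝔓 m ω s.ctr s.typ 𝔇.s ∧ PvxAt 𝔓 m ω t.ctr t.typ 𝔇.t ∧
      pvbArcI 𝔓.𝔐 (pvlmH m) P P.xQ s t = 𝔇.X (pvxPos ω) ((pvxT ω).qpart (pvxPos ω)) 𝔓.num (pvlmH m) (𝔓.reg m π) ∧
      (∀ a : ℂ, pvbArcI 𝔓.𝔐 (pvlmH m) P (fun k => P.xQ k - a * P.xV k) s t
        = 𝔇.X (pvxPos ω) (fun d => (pvxT ω).qpart (pvxPos ω) d - a * (pvxT ω).side (pvxPos ω) d) 𝔓.num (pvlmH m) (𝔓.reg m π)) ∧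
      pvbArcI 𝔓.𝔐 (pvlmH m) P P.xV s t = pvdcCV 𝔇.t (pvxPos ω) t.ctr (𝔓.num.m * pvlmH m) - pvdcCV 𝔇.s (pvxPos ω) s.ctr (𝔓.num.m * pvlmH m) := by
  obtain ⟨⟨hs1, hs2⟩, ⟨ht1, ht2⟩, -, -, 𝔇, j, hOk, hA, hAs, hAt, his, hit, h5, -, -⟩ := hF
  obtain ⟨⟨-, -, -, hzs, hzt, hcol, -⟩, -⟩ := hπ
  have hh := pvlm_H_pos m
  have hB := hW.toWfB
  have hY := hAs.good
  have hGs := pvdc_at_gate hAs
  have hGt := pvdc_at_gate hAt
  rw [← hcol] at hGt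
  have hr : PvdcRun x R 𝔇 P j := pvdc_run_of_actual hA fun k h1 h2 => (h5 k h1 h2).trans (by linarith)
  have hGs' : 𝔇.s.Gate (pvxPos ω) (pvlmH m) (𝔓.reg m π).zs (𝔓.reg m π).ts (pvxCol ω (𝔓.col π.p.ts)) := by
    rw [hW.reg_zs, hW.reg_ts]
    exact hGs
  have X := pvdc_X_run 𝔓.𝔐 hR hY hP hM 𝔇 𝔓.num (𝔓.reg m π) hGs' hGt.ip_le hr (by rw [hW.reg_zs]; exact hzs)
    (by rw [hW.reg_ts]; exact hbs) (by rw [hW.reg_ts]; exact pvdc_wf_num 𝔓 hB _ hh hμh) s t (by rw [hW.reg_zs]; exact hs1) (by rw [hW.reg_zt]; exact ht1)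
    (hB.mc_eq _) (hB.mc_eq _) his hit
  refine ⟨𝔇, j, hOk, hA, by rw [hs1, hs2]; exact hAs, by rw [ht1, ht2]; exact hAt, ?_, fun a => ?_, ?_⟩
  · simpa only [one_mul, zero_mul, add_zero] using X 1 0
  · simpa only [one_mul, neg_mul, ← sub_eq_add_neg] using X 1 (-a)
  · have := pvdc_tel_model 𝔓.𝔐 hR hY hP hM 𝔇 hGs hGt hr hzs hzt hbs hbt s t hs1 ht1
      (by rw [hB.mc_eq]; exact pvdc_wf_num 𝔓 hB _ hh hμh) (by rw [hB.mc_eq]; exact pvdc_wf_num 𝔓 hB _ hh hμh) his hit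
    rw [this, hB.mc_eq, hB.mc_eq, hs1, ht1]

/-- the same with the hypothesis `L h_m + μ < R` (form of v3) -/
theorem pvdc_fit_model (𝔓 : PvxPar τ c) (hW : 𝔓.Wf) (hR : 0 < R) (hP : P ∈ pvhbAll x R ω) {μ : ℝ} (hM : PvdcMesh x R μ P) {m : ℕ} (hμh : μ ≤ pvlmH m)
    (hLR : 𝔓.𝔐.L * pvlmH m + μ < R) {π : PvxIx τ} (hπ : π ∈ pvxPatSet 𝔓 x R m) {s t : PvbPin τ} (hF : pvxFit 𝔓 x R m ω P s t π) :
    ∃ (𝔇 : PvwDat (pvxT ω)) (j : ℕ), 𝔇.Ok (pvxPos ω) 𝔓.num (pvlmH m) (𝔓.reg m π) ∧ PvxActual 𝔇 𝔓.num (pvlmH m) (𝔓.reg m π) (𝔓.col π.p.ts) P j ∧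
      PvxAt 𝔓 m ω s.ctr s.typ 𝔇.s ∧ PvxAt 𝔓 m ω t.ctr t.typ 𝔇.t ∧
      pvbArcI 𝔓.𝔐 (pvlmH m) P P.xQ s t = 𝔇.X (pvxPos ω) ((pvxT ω).qpart (pvxPos ω)) 𝔓.num (pvlmH m) (𝔓.reg m π) ∧
      (∀ a : ℂ, pvbArcI 𝔓.𝔐 (pvlmH m) P (fun k => P.xQ k - a * P.xV k) s t
        = 𝔇.X (pvxPos ω) (fun d => (pvxT ω).qpart (pvxPos ω) d - a * (pvxT ω).side (pvxPos ω) d) 𝔓.num (pvlmH m) (𝔓.reg m π)) ∧
      pvbArcI 𝔓.𝔐 (pvlmH m) P P.xV s t = pvdcCV 𝔇.t (pvxPos ω) t.ctr (𝔓.num.m * pvlmH m) - pvdcCV 𝔇.s (pvxPos ω) s.ctr (𝔓.num.m * pvlmH m) :=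
  pvdc_fit_model_b 𝔓 hW hR hP hM hμh (pvdc_wf_b 𝔓 hW.toWfB _ (pvlm_H_pos m) hLR) (pvdc_wf_b 𝔓 hW.toWfB _ (pvlm_H_pos m) hLR) hπ hF

/-- **TrModel v4, clause (b2)**: the gate discs of the two pins of a pattern of record are small against the patch (`b ≤ b₂`: true at `pvxParOf`) -/
theorem pvdc_pat_b (𝔓 : PvxPar τ c) (hW : 𝔓.WfB) (hb : ∀ t, (𝔓.ty t).b ≤ (𝔓.ty t).b2) {m : ℕ} {π : PvxIx τ} (hπ : π ∈ pvxPatSet 𝔓 x R m) {μ : ℝ} (hμh : μ ≤ pvlmH m) :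
    (𝔓.ty π.p.ts).b * pvlmH m + μ < R ∧ (𝔓.ty π.p.tt).b * pvlmH m + μ < R := by
  obtain ⟨-, -, h1, h2, -⟩ := hπ
  have hh := pvlm_H_pos m
  have hρ : 0 ≤ (𝔓.num.K : ℝ) * 𝔓.num.rho1 := mul_nonneg (Nat.cast_nonneg _) (hW.rho0.trans hW.rho1).le
  have key : ∀ t, 2 * pvwRad 𝔓.num (pvlmH m) (𝔓.ty t) 𝔓.num.K + pvlmH m ≤ R → (𝔓.ty t).b * pvlmH m + μ < R := by
    intro t ht
    unfold pvwRad at ht
    have hb0 : 0 < (𝔓.ty t).b := (hW.a0 t).trans (hW.ab t)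
    have h3 : (𝔓.ty t).b * pvlmH m ≤ (𝔓.ty t).b2 * pvlmH m := mul_le_mul_of_nonneg_right (hb t) hh.le
    have h4 : 0 < (𝔓.ty t).b * pvlmH m := mul_pos hb0 hh
    have h5 : 0 ≤ (𝔓.num.K : ℝ) * 𝔓.num.rho1 * pvlmH m := mul_nonneg hρ hh.le
    nlinarith
  exact ⟨key _ h1, key _ h2⟩

end model6

/-! ## 12. The value of a link;  chains and cycles of links (TR14 for chains of plugs) -/

section link

variable {V D : Type} {T : PvMap V D}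

/-- **THE VALUE OF A LINK** from the plug `𝔖` (cut-off disc `B`) to the plug `𝔖'` (cut-off disc `B'`) along the arc `y : g⁺(𝔖) → g⁻(𝔖')`: the whole mass of the inner arc of `𝔖` in `B` + the mass off `B ∪ B'` of the arc `mark(𝔖) → g⁺(𝔖) → g⁻(𝔖') → mark(𝔖')`.
`PvwDat.X`, `PvwDat.Yof` (`Tr/Defs`), `PvieLk.val` (`Tr/InstE`) are instances. -/
noncomputable def pvdcVal (pos : V → ℂ) (w : D → ℂ) (B B' : Set ℂ) (𝔖 𝔖' : PvwSt T) (y : T.Pth) : ℂ :=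
  pvwMass T pos w B 𝔖.inn 0 𝔖.inn.n + pvwMass T pos w (B ∪ B')ᶜ 𝔖.inn 𝔖.ip 𝔖.inn.n + pvwMass T pos w (B ∪ B')ᶜ y 0 y.n + pvwMass T pos w (B ∪ B')ᶜ 𝔖'.inn 0 𝔖'.ip

/-- the ENTRANCE MASS of a plug: the mass in its cut-off disc of the edges of the inner arc before the marked vertex -/
noncomputable def pvdcEnt (pos : V → ℂ) (w : D → ℂ) (B : Set ℂ) (𝔖 : PvwSt T) : ℂ := pvwMass T pos w B 𝔖.inn 0 𝔖.ip

theorem pvdc_eqns_cite12 : True := by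
  have := @pvdcVal.eq_1; have := @pvdcEnt.eq_1
  trivial

theorem pvdc_X_val (𝔇 : PvwDat T) (pos : V → ℂ) (w : D → ℂ) (N : PvwNum) (h : ℝ) (π : PvwPat) :
    𝔇.X pos w N h π = pvdcVal pos w (Metric.closedBall π.zs (N.m * h)) (Metric.closedBall π.zt (N.m * h)) 𝔇.s 𝔇.t 𝔇.g := rfl

theorem pvdc_Yof_val (𝔇 : PvwDat T) (pos : V → ℂ) (w : D → ℂ) (N : PvwNum) (h : ℝ) (π : PvwPat) (y : T.Pth) :
    𝔇.Yof pos w N h π y = pvdcVal pos w (Metric.closedBall π.zt (N.m * h)) (Metric.closedBall π.zs (N.m * h)) 𝔇.t 𝔇.s y := by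
  unfold PvwDat.Yof PvwDat.offCut pvdcVal
  rw [Set.union_comm]

theorem pvdc_CV_ent (𝔖 : PvwSt T) (pos : V → ℂ) (z : ℂ) (ρ : ℝ) : pvdcCV 𝔖 pos z ρ = pos (𝔖.inn.v 𝔖.ip) - pvdcEnt pos (T.side pos) (Metric.closedBall z ρ) 𝔖 := rfl

/-- the plain sum -/
theorem pvdc_mass_univ (pos : V → ℂ) (w : D → ℂ) (p : T.Pth) (i j : ℕ) : pvwMass T pos w Set.univ p i j = ∑ k ∈ Ico i j, w (T.opp (p.e k)) := by
  unfold pvwMass
  exact sum_congr rfl fun k _ => if_pos (Set.mem_univ _)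

theorem pvdc_mass_univ_psum (pos : V → ℂ) (w : D → ℂ) (p : T.Pth) : pvwMass T pos w Set.univ p 0 p.n = p.psum w := by
  rw [pvdc_mass_univ]
  unfold PvMap.Pth.psum
  rw [range_eq_Ico]

/-- on a window whose tags avoid `B'`: mass off `B ∪ B'` = plain sum − mass in `B` -/
theorem pvdc_mass_compl (pos : V → ℂ) (w : D → ℂ) (B B' : Set ℂ) (p : T.Pth) {i j : ℕ} (h : ∀ k, i ≤ k → k < j → T.bary pos (T.opp (p.e k)) ∉ B') :
    pvwMass T pos w (B ∪ B')ᶜ p i j = pvwMass T pos w Set.univ p i j - pvwMass T pos w B p i j := by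
  classical
  unfold pvwMass
  rw [← sum_sub_distrib]
  refine sum_congr rfl fun k hk => ?_
  obtain ⟨h1, h2⟩ := mem_Ico.1 hk
  have h3 := h k h1 h2
  rw [if_pos (Set.mem_univ _)]
  by_cases hB : T.bary pos (T.opp (p.e k)) ∈ B
  · rw [if_pos hB, if_neg (fun hc => hc (Or.inl hB)), sub_self]
  · rw [if_neg hB, if_pos (show T.bary pos (T.opp (p.e k)) ∈ (B ∪ B')ᶜ from fun hc => hc.elim hB h3), sub_zero]

/-- on a window whose tags avoid `K`: no mass in `K` -/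
theorem pvdc_mass_zero (pos : V → ℂ) (w : D → ℂ) (K : Set ℂ) (p : T.Pth) {i j : ℕ} (h : ∀ k, i ≤ k → k < j → T.bary pos (T.opp (p.e k)) ∉ K) : pvwMass T pos w K p i j = 0 := by
  unfold pvwMass
  refine sum_eq_zero fun k hk => ?_
  obtain ⟨h1, h2⟩ := mem_Ico.1 hk
  exact if_neg (h k h1 h2)

/-- **MASKS of a link**: the exit half of `𝔖` misses `B'`, the arc `y` misses both discs, the entrance half of `𝔖'` misses `B` -/
structure PvdcLk (pos : V → ℂ) (B B' : Set ℂ) (𝔖 𝔖' : PvwSt T) (y : T.Pth) : Prop where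
  ip : 𝔖.ip ≤ 𝔖.inn.n
  out : ∀ k, 𝔖.ip ≤ k → k < 𝔖.inn.n → T.bary pos (T.opp (𝔖.inn.e k)) ∉ B'
  arc : ∀ k, k < y.n → T.bary pos (T.opp (y.e k)) ∉ B ∧ T.bary pos (T.opp (y.e k)) ∉ B'
  ent : ∀ k, k < 𝔖'.ip → T.bary pos (T.opp (𝔖'.inn.e k)) ∉ B

/-- **THE LINK FORMULA**: value = entrance mass of the start − entrance mass of the end + the PLAIN sum over the arc `mark(𝔖) → mark(𝔖')` -/
theorem pvdc_val_eq {pos : V → ℂ} (w : D → ℂ) {B B' : Set ℂ} {𝔖 𝔖' : PvwSt T} {y : T.Pth} (H : PvdcLk pos B B' 𝔖 𝔖' y) :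
    pvdcVal pos w B B' 𝔖 𝔖' y = pvdcEnt pos w B 𝔖 - pvdcEnt pos w B' 𝔖' +
      (pvwMass T pos w Set.univ 𝔖.inn 𝔖.ip 𝔖.inn.n + y.psum w + pvwMass T pos w Set.univ 𝔖'.inn 0 𝔖'.ip) := by
  have e1 := pvdc_mass_add pos w B 𝔖.inn (Nat.zero_le _) H.ip
  have e2 := pvdc_mass_compl pos w B B' 𝔖.inn H.out
  have e3 := pvdc_mass_compl pos w B B' y (i := 0) (j := y.n) fun k _ hk => (H.arc k hk).2
  have e3' := pvdc_mass_zero pos w B y (i := 0) (j := y.n) fun k _ hk => (H.arc k hk).1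
  have e4 := pvdc_mass_compl pos w B' B 𝔖'.inn (i := 0) (j := 𝔖'.ip) fun k _ hk => H.ent k hk
  rw [Set.union_comm] at e4
  unfold pvdcVal pvdcEnt
  rw [e1, e2, e3, e3', e4, pvdc_mass_univ_psum]
  ring

/-- **(A4) for a link**: for the field `V` the value of a link is the difference of the two cut points -/
theorem pvdc_val_side {pos : V → ℂ} {z z' : ℂ} {ρ ρ' : ℝ} {𝔖 𝔖' : PvwSt T} {y : T.Pth} (H : PvdcLk pos (Metric.closedBall z ρ) (Metric.closedBall z' ρ') 𝔖 𝔖' y)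
    (hip' : 𝔖'.ip ≤ 𝔖'.inn.n) (h0 : y.v 0 = 𝔖.inn.v 𝔖.inn.n) (h1 : y.v y.n = 𝔖'.inn.v 0) :
    pvdcVal pos (T.side pos) (Metric.closedBall z ρ) (Metric.closedBall z' ρ') 𝔖 𝔖' y = pvdcCV 𝔖' pos z' ρ' - pvdcCV 𝔖 pos z ρ := by
  have t1 : pvwMass T pos (T.side pos) Set.univ 𝔖.inn 𝔖.ip 𝔖.inn.n = pos (𝔖.inn.v 𝔖.inn.n) - pos (𝔖.inn.v 𝔖.ip) := by
    rw [pvdc_mass_univ]
    exact pvdc_tele (fun k => pos (𝔖.inn.v k)) _ H.ip fun k _ hk => by rw [pvdc_side_opp, 𝔖.inn.tgt_e k hk, 𝔖.inn.src_e k hk]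
  have t2 : pvwMass T pos (T.side pos) Set.univ 𝔖'.inn 0 𝔖'.ip = pos (𝔖'.inn.v 𝔖'.ip) - pos (𝔖'.inn.v 0) := by
    rw [pvdc_mass_univ]
    exact pvdc_tele (fun k => pos (𝔖'.inn.v k)) _ (Nat.zero_le _) fun k _ hk => by rw [pvdc_side_opp, 𝔖'.inn.tgt_e k (by omega), 𝔖'.inn.src_e k (by omega)]
  rw [pvdc_val_eq _ H, t1, t2, pvdc_psum_side, h0, h1, pvdc_CV_ent, pvdc_CV_ent]
  ring

/-- **A CHAIN OF LINKS** `𝔖 0 → 𝔖 1 → ⋯ → 𝔖 n`: the entrance masses telescope -/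
theorem pvdc_chain {pos : V → ℂ} (w : D → ℂ) (B : ℕ → Set ℂ) (𝔖 : ℕ → PvwSt T) (y : ℕ → T.Pth) (n : ℕ)
    (H : ∀ j, j < n → PvdcLk pos (B j) (B (j + 1)) (𝔖 j) (𝔖 (j + 1)) (y j)) :
    ∑ j ∈ range n, pvdcVal pos w (B j) (B (j + 1)) (𝔖 j) (𝔖 (j + 1)) (y j) = pvdcEnt pos w (B 0) (𝔖 0) - pvdcEnt pos w (B n) (𝔖 n) +
      ∑ j ∈ range n, (pvwMass T pos w Set.univ (𝔖 j).inn (𝔖 j).ip (𝔖 j).inn.n + (y j).psum w + pvwMass T pos w Set.univ (𝔖 (j + 1)).inn 0 (𝔖 (j + 1)).ip) := by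
  induction n with
  | zero => simp
  | succ n ih =>
    rw [sum_range_succ, sum_range_succ, ih fun j hj => H j (by omega), pvdc_val_eq w (H n (Nat.lt_succ_self n))]
    ring

/-- the plain sums of a chain, regrouped plug by plug -/
theorem pvdc_chain_plain {pos : V → ℂ} (w : D → ℂ) (𝔖 : ℕ → PvwSt T) (y : ℕ → T.Pth) (n : ℕ) (hip : ∀ j, j ≤ n → (𝔖 j).ip ≤ (𝔖 j).inn.n) :
    ∑ j ∈ range n, (pvwMass T pos w Set.univ (𝔖 j).inn (𝔖 j).ip (𝔖 j).inn.n + (y j).psum w + pvwMass T pos w Set.univ (𝔖 (j + 1)).inn 0 (𝔖 (j + 1)).ip)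
      = ∑ j ∈ range n, ((𝔖 j).inn.psum w + (y j).psum w) + pvwMass T pos w Set.univ (𝔖 n).inn 0 (𝔖 n).ip - pvwMass T pos w Set.univ (𝔖 0).inn 0 (𝔖 0).ip := by
  induction n with
  | zero => simp
  | succ n ih =>
    rw [sum_range_succ, sum_range_succ, ih fun j hj => hip j (by omega), ← pvdc_mass_univ_psum pos w (𝔖 n).inn,
      pvdc_mass_add pos w Set.univ (𝔖 n).inn (Nat.zero_le _) (hip n (by omega))]
    ring

/-- **TR14 FOR A CYCLE OF LINKS**: the values of the links of a closed chain of plugs add up to the PLAIN sum of `w` over all the pieces (`= Q_{P'}(1)` by TR13 / (C2): `pvow_ring`) -/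
theorem pvdc_cycle {pos : V → ℂ} (w : D → ℂ) (B : ℕ → Set ℂ) (𝔖 : ℕ → PvwSt T) (y : ℕ → T.Pth) (n : ℕ)
    (H : ∀ j, j < n → PvdcLk pos (B j) (B (j + 1)) (𝔖 j) (𝔖 (j + 1)) (y j)) (hB : B n = B 0) (hS : 𝔖 n = 𝔖 0) :
    ∑ j ∈ range n, pvdcVal pos w (B j) (B (j + 1)) (𝔖 j) (𝔖 (j + 1)) (y j) = ∑ j ∈ range n, ((𝔖 j).inn.psum w + (y j).psum w) := by
  rcases Nat.eq_zero_or_pos n with rfl | hn
  · simp
  have hip : ∀ j, j ≤ n → (𝔖 j).ip ≤ (𝔖 j).inn.n := by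
    intro j hj
    rcases Nat.lt_or_ge j n with h | h
    · exact (H j h).ip
    · have e : j = n := le_antisymm hj h
      rw [e, hS]
      exact (H 0 hn).ip
  rw [pvdc_chain w B 𝔖 y n H, pvdc_chain_plain w 𝔖 y n hip, hB, hS]
  ring

/-- **SPLIT OF A LONG LINK ALONG INTERMEDIATE PLUGS**: if the plain sum over the long arc `Y : g⁺(𝔖 0) → g⁻(𝔖 n)` is the plain sum over the pieces `y 0 . inn(𝔖 1) . y 1 ⋯ inn(𝔖 (n-1)) . y (n-1)`,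
then the value of the long link is the sum of the values of the short links -/
theorem pvdc_split_link {pos : V → ℂ} (w : D → ℂ) (B : ℕ → Set ℂ) (𝔖 : ℕ → PvwSt T) (y : ℕ → T.Pth) (n : ℕ)
    (H : ∀ j, j < n → PvdcLk pos (B j) (B (j + 1)) (𝔖 j) (𝔖 (j + 1)) (y j)) (hipn : (𝔖 n).ip ≤ (𝔖 n).inn.n) {Y : T.Pth} (HY : PvdcLk pos (B 0) (B n) (𝔖 0) (𝔖 n) Y)
    (hY : Y.psum w + (𝔖 0).inn.psum w = ∑ j ∈ range n, ((𝔖 j).inn.psum w + (y j).psum w)) :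
    pvdcVal pos w (B 0) (B n) (𝔖 0) (𝔖 n) Y = ∑ j ∈ range n, pvdcVal pos w (B j) (B (j + 1)) (𝔖 j) (𝔖 (j + 1)) (y j) := by
  have hip : ∀ j, j ≤ n → (𝔖 j).ip ≤ (𝔖 j).inn.n := by
    intro j hj
    rcases Nat.lt_or_ge j n with h | h
    · exact (H j h).ip
    · have e : j = n := le_antisymm hj h
      rw [e]
      exact hipn
  have e0 := pvdc_mass_add pos w Set.univ (𝔖 0).inn (Nat.zero_le _) (hip 0 (Nat.zero_le _))
  rw [pvdc_mass_univ_psum] at e0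
  rw [pvdc_chain w B 𝔖 y n H, pvdc_chain_plain w 𝔖 y n hip, pvdc_val_eq w HY, ← hY, e0]
  ring

/-- the pieces of a closed chain of plugs, in order: `inn(𝔖 0), y 0, inn(𝔖 1), y 1, …` -/
def pvdcRing (𝔖 : ℕ → PvwSt T) (y : ℕ → T.Pth) (n : ℕ) : List T.Pth := (List.range n).flatMap fun j => [(𝔖 j).inn, y j]

theorem pvdc_eqns_cite12b : True := by
  have := @pvdcRing.eq_1
  trivial

theorem pvdc_ring_sum (w : D → ℂ) (𝔖 : ℕ → PvwSt T) (y : ℕ → T.Pth) (n : ℕ) :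
    ((pvdcRing 𝔖 y n).map fun p => p.psum w).sum = ∑ j ∈ range n, ((𝔖 j).inn.psum w + (y j).psum w) := by
  unfold pvdcRing
  induction n with
  | zero => simp
  | succ n ih =>
    rw [List.range_succ, List.flatMap_append, List.map_append, List.sum_append, ih, sum_range_succ]
    simp

/-- **TR13 + TR14 FOR A CYCLE OF LINKS**: when the pieces form a ring of ONE wall (`pvow_ring`, 194), the label sum of the closed rim `P'` is the sum of the values of the links -/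
theorem pvdc_cycle_lsum (hT : T.IsSph) (hS : T.Simple) {s : V → Bool} {d₀ : D} {u : V} {pos : V → ℂ} (w : D → ℂ) (B : ℕ → Set ℂ) (𝔖 : ℕ → PvwSt T) (y : ℕ → T.Pth) (n : ℕ)
    (hc : pvowChain T (pvdcRing 𝔖 y n) u u) (hn : ((pvowDarts (pvdcRing 𝔖 y n)).map T.tgt).Nodup) (hw : ∀ p ∈ pvdcRing 𝔖 y n, p.OnWall s d₀)
    {g : D} (hg : g ∈ pvowDarts (pvdcRing 𝔖 y n))
    (H : ∀ j, j < n → PvdcLk pos (B j) (B (j + 1)) (𝔖 j) (𝔖 (j + 1)) (y j)) (hB : B n = B 0) (hSn : 𝔖 n = 𝔖 0) :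
    T.lsum s w (T.opp g) = ∑ j ∈ range n, pvdcVal pos w (B j) (B (j + 1)) (𝔖 j) (𝔖 (j + 1)) (y j) := by
  rw [(pvow_ring hT hS hc hn hw hg).2.2 w, pvdc_ring_sum, pvdc_cycle w B 𝔖 y n H hB hSn]

/-- a tag within `μ` of a vertex at distance `> ρ + μ` of `z` is off `clB(z,ρ)` -/
theorem pvdc_tag_off {a v z : ℂ} {ρ μ : ℝ} (h1 : ‖a - v‖ ≤ μ) (h2 : ρ + μ < ‖v - z‖) : a ∉ Metric.closedBall z ρ := by
  intro hc
  rw [mem_closedBall_iff_norm] at hc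
  have : ‖v - z‖ ≤ ‖a - z‖ + ‖a - v‖ := by
    calc ‖v - z‖ = ‖(a - z) - (a - v)‖ := by ring_nf
      _ ≤ _ := norm_sub_le _ _
  linarith

/-- **MASKS FROM DISTANCES**: mesh `μ` along the three pieces + the vertices of the pieces are far from the discs they must miss -/
theorem pvdc_lk_of_far {pos : V → ℂ} {z z' : ℂ} {ρ ρ' μ : ℝ} {𝔖 𝔖' : PvwSt T} {y : T.Pth} (hip : 𝔖.ip ≤ 𝔖.inn.n)
    (m1 : ∀ k, 𝔖.ip ≤ k → k < 𝔖.inn.n → ‖T.bary pos (T.opp (𝔖.inn.e k)) - pos (𝔖.inn.v k)‖ ≤ μ ∧ ρ' + μ < ‖pos (𝔖.inn.v k) - z'‖)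
    (m2 : ∀ k, k < y.n → ‖T.bary pos (T.opp (y.e k)) - pos (y.v k)‖ ≤ μ ∧ ρ + μ < ‖pos (y.v k) - z‖ ∧ ρ' + μ < ‖pos (y.v k) - z'‖)
    (m3 : ∀ k, k < 𝔖'.ip → ‖T.bary pos (T.opp (𝔖'.inn.e k)) - pos (𝔖'.inn.v k)‖ ≤ μ ∧ ρ + μ < ‖pos (𝔖'.inn.v k) - z‖) :
    PvdcLk pos (Metric.closedBall z ρ) (Metric.closedBall z' ρ') 𝔖 𝔖' y :=
  ⟨hip, fun k h1 h2 => pvdc_tag_off (m1 k h1 h2).1 (m1 k h1 h2).2, fun k hk => ⟨pvdc_tag_off (m2 k hk).1 (m2 k hk).2.1, pvdc_tag_off (m2 k hk).1 (m2 k hk).2.2⟩,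
    fun k hk => pvdc_tag_off (m3 k hk).1 (m3 k hk).2⟩

end link

/-! ## 13. The field `tel` of `PvtyLocQ` (283, ruling 12 of 234) at the model of record -/

section tel

open Claims.C0465 MeasureTheory Filter Topology

variable {τ : Type} {c : ℝ}

open Classical in
/-- **THE CUT POINT OF THE CANDIDATE `(z,t)`** in the sample `ω`, level `m`: the cut point of THE state (`0` if the candidate is not usable) -/
noncomputable def pvdcCVm (𝔓 : PvxPar τ c) (m : ℕ) (z : ℂ) (t : τ) (ω : PVSample) : ℂ :=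
  if h : ∃ 𝔖 : PvwSt (pvxT ω), PvxAt 𝔓 m ω z t 𝔖 then pvdcCV h.choose (pvxPos ω) z (𝔓.num.m * pvlmH m) else 0

theorem pvdc_eqns_cite13 : True := by
  have := @pvdcCVm.eq_1
  trivial

/-- the cut point is read on ANY state of the candidate (uniqueness of the state: `pvuq_model`, 150) -/
theorem pvdc_CVm_eq {𝔓 : PvxPar τ c} {m : ℕ} {z : ℂ} {t : τ} {ω : PVSample} {𝔖 : PvwSt (pvxT ω)} (hA : PvxAt 𝔓 m ω z t 𝔖) :
    pvdcCVm 𝔓 m z t ω = pvdcCV 𝔖 (pvxPos ω) z (𝔓.num.m * pvlmH m) := by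
  have hex : ∃ 𝔖 : PvwSt (pvxT ω), PvxAt 𝔓 m ω z t 𝔖 := ⟨𝔖, hA⟩
  unfold pvdcCVm
  rw [dif_pos hex]
  have hs := (pvuq_model 𝔓 hex.choose_spec hA).g
  have hip := (pvdc_at_gate hex.choose_spec).ip_le
  unfold pvdcCV
  rw [hs.mark hip, hs.mass (pvxPos ω) _ _ hip, hs.ip]

variable {x : ℂ} {R : ℝ} {ω : PVSample} {P : PvbRim}

/-- **`tel`, DETERMINISTIC**: on the mesh event `I_V(P;s,t) = cV(t) - cV(s)` EXACTLY for every arc which fits a pattern of record -/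
theorem pvdc_tel_det (𝔓 : PvxPar τ c) (hW : 𝔓.Wf) (hR : 0 < R) (hP : P ∈ pvhbAll x R ω) {μ : ℝ} (hM : PvdcMesh x R μ P) {m : ℕ} (hμh : μ ≤ pvlmH m)
    (hLR : 𝔓.𝔐.L * pvlmH m + μ < R) {π : PvxIx τ} (hπ : π ∈ pvxPatSet 𝔓 x R m) {s t : PvbPin τ} (hF : pvxFit 𝔓 x R m ω P s t π) :
    pvbArcI 𝔓.𝔐 (pvlmH m) P P.xV s t = pvdcCVm 𝔓 m t.ctr t.typ ω - pvdcCVm 𝔓 m s.ctr s.typ ω := by
  obtain ⟨𝔇, j, -, -, hAs, hAt, -, -, hV⟩ := pvdc_fit_model 𝔓 hW hR hP hM hμh hLR hπ hF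
  rw [hV, pvdc_CVm_eq hAs, pvdc_CVm_eq hAt]

/-- the mesh is fine with high probability under the two-level upper expectation -/
theorem pvdc_fine_lim (x : ℂ) {R : ℝ} (hR : 0 < R) {μ : ℝ} (hμ : 0 < μ) :
    Tendsto (fun ε => ((pvhbUp ε).P {q | ¬ L9Fine (pvxY (pvMerge q)) (Metric.closedBall x (6 * R)) μ}).toReal) (𝓝[>] (0 : ℝ)) (𝓝 0) := by
  have h1 : Tendsto (fun ε => (pvLaw ε {o | ¬ L9Fine (cfSites (pvConf o)) (Metric.closedBall x (6 * R)) μ}).toReal) (𝓝[>] (0 : ℝ)) (𝓝 0) :=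
    (pvhb_tendsto_iff _ _).2 fun es h0 he => l9_fine_prob es h0 he x hR hμ
  refine squeeze_zero (fun _ => ENNReal.toReal_nonneg) (fun ε => ?_) h1
  exact ENNReal.toReal_mono (measure_ne_top _ _) (pvhb_up_P_law ε {o | ¬ L9Fine (cfSites (pvConf o)) (Metric.closedBall x (6 * R)) μ})

/-- **THE FIELD `tel` OF `PvtyLocQ` AT THE DATA OF RECORD**, at every level which is fine enough for the patch (`L h_m < R`) -/
theorem pvdc_tel_prob (𝔓 : PvxPar τ c) (hW : 𝔓.Wf) (x : ℂ) {R : ℝ} (hR : 0 < R) {m : ℕ} (hm : 𝔓.𝔐.L * pvlmH m < R) {π : PvxIx τ} (hπ : π ∈ pvxPatSet 𝔓 x R m) (u : ℝ) (hu : 0 < u) :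
    Tendsto (fun ε => ((pvhbUp ε).P {q | ∃ P ∈ pvhbAll x R (pvMerge q), ∃ s ∈ pvxPins 𝔓 x R m (pvMerge q) P, ∃ t ∈ pvxPins 𝔓 x R m (pvMerge q) P, pvxFit 𝔓 x R m (pvMerge q) P s t π ∧
      u < ‖pvbArcI 𝔓.𝔐 (pvlmH m) P P.xV s t - (pvdcCVm 𝔓 m t.ctr t.typ (pvMerge q) - pvdcCVm 𝔓 m s.ctr s.typ (pvMerge q))‖}).toReal) (𝓝[>] (0 : ℝ)) (𝓝 0) := by
  set μ : ℝ := min (pvlmH m) (min R ((R - 𝔓.𝔐.L * pvlmH m) / 2)) with hμ
  have hμ0 : 0 < μ := lt_min (pvlm_H_pos m) (lt_min hR (by linarith))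
  have hμh : μ ≤ pvlmH m := min_le_left _ _
  have hμR : μ ≤ R := (min_le_right _ _).trans (min_le_left _ _)
  have hμL : 𝔓.𝔐.L * pvlmH m + μ < R := by
    have : μ ≤ (R - 𝔓.𝔐.L * pvlmH m) / 2 := (min_le_right _ _).trans (min_le_right _ _)
    linarith
  refine squeeze_zero (fun _ => ENNReal.toReal_nonneg) (fun ε => ?_) (pvdc_fine_lim x hR hμ0)
  refine ENNReal.toReal_mono ((pvhbUp ε).P_ne_top _) ((pvhbUp ε).P_mono ?_)
  rintro q ⟨P, hP, s, -, t, -, hF, hlt⟩ hfine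
  rw [pvdc_tel_det 𝔓 hW hR hP (pvdc_mesh_of_fine hR hμ0.le hμR hfine hP) hμh hμL hπ hF, sub_self, norm_zero] at hlt
  exact absurd hlt (not_lt.2 hu.le)

/-- `tel`, deterministic, TrModel v4: no hypothesis on the level -/
theorem pvdc_tel_det_b (𝔓 : PvxPar τ c) (hW : 𝔓.Wf) (hb : ∀ t, (𝔓.ty t).b ≤ (𝔓.ty t).b2) (hR : 0 < R) (hP : P ∈ pvhbAll x R ω) {μ : ℝ} (hM : PvdcMesh x R μ P) {m : ℕ} (hμh : μ ≤ pvlmH m)
    {π : PvxIx τ} (hπ : π ∈ pvxPatSet 𝔓 x R m) {s t : PvbPin τ} (hF : pvxFit 𝔓 x R m ω P s t π) :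
    pvbArcI 𝔓.𝔐 (pvlmH m) P P.xV s t = pvdcCVm 𝔓 m t.ctr t.typ ω - pvdcCVm 𝔓 m s.ctr s.typ ω := by
  obtain ⟨h1, h2⟩ := pvdc_pat_b 𝔓 hW.toWfB hb hπ hμh
  obtain ⟨𝔇, j, -, -, hAs, hAt, -, -, hV⟩ := pvdc_fit_model_b 𝔓 hW hR hP hM hμh h1 h2 hπ hF
  rw [hV, pvdc_CVm_eq hAs, pvdc_CVm_eq hAt]

/-- **THE FIELD `tel` OF `PvnaV` (271, `Exit/AnaDefs`) AT EVERY LEVEL, EVERY PATCH, ANY GOOD PART** (TrModel v4: clause (b2) of `pvxPatSet` pays `b h_m + μ < R`);   `hb` holds at `pvxParOf` (`b₁ < b₂`) -/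
theorem pvdc_tel_prob_b (𝔓 : PvxPar τ c) (hW : 𝔓.Wf) (hb : ∀ t, (𝔓.ty t).b ≤ (𝔓.ty t).b2) (Gd : ℕ → ℝ → ℂ → τ → Set PVSample) (x : ℂ) (R : ℝ) (hR : 0 < R) (m : ℕ) (π : PvxIx τ)
    (hπ : π ∈ pvxPatSet 𝔓 x R m) (u : ℝ) (hu : 0 < u) :
    Tendsto (fun ε => ((pvhbUp ε).P {q | ∃ P ∈ pvhbAll x R (pvMerge q), ∃ s ∈ pvxPins 𝔓 x R m (pvMerge q) P, ∃ t ∈ pvxPins 𝔓 x R m (pvMerge q) P, pvxFit 𝔓 x R m (pvMerge q) P s t π ∧
      pvMerge q ∈ Gd m ε t.ctr t.typ ∧ pvMerge q ∈ Gd m ε s.ctr s.typ ∧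
      u < ‖pvbArcI 𝔓.𝔐 (pvlmH m) P P.xV s t - (pvdcCVm 𝔓 m t.ctr t.typ (pvMerge q) - pvdcCVm 𝔓 m s.ctr s.typ (pvMerge q))‖}).toReal) (𝓝[>] (0 : ℝ)) (𝓝 0) := by
  set μ : ℝ := min (pvlmH m) R with hμ
  have hμ0 : 0 < μ := lt_min (pvlm_H_pos m) hR
  refine squeeze_zero (fun _ => ENNReal.toReal_nonneg) (fun ε => ?_) (pvdc_fine_lim x hR hμ0)
  refine ENNReal.toReal_mono ((pvhbUp ε).P_ne_top _) ((pvhbUp ε).P_mono ?_)
  rintro q ⟨P, hP, s, -, t, -, hF, -, -, hlt⟩ hfine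
  rw [pvdc_tel_det_b 𝔓 hW hb hR hP (pvdc_mesh_of_fine hR hμ0.le (min_le_right _ _) hfine hP) (min_le_left _ _) hπ hF, sub_self, norm_zero] at hlt
  exact absurd hlt (not_lt.2 hu.le)

end tel

end Claimed.Agent.R289
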