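import Claimed.Agent.R289.Tr.BesIn
import Claimed.Agent.R289.Tr.Dict
import Claimed.Agent.R289.S1.Closed
import Claimed.Agent.R289.Cr.All
import Claimed.Agent.R289.Exit.Arm
import Claimed.Agent.R289.Arm.TopGlue
import Claimed.Agent.R289.Exit.Qbx
import Claimed.Agent.R289.Qbx.Rect
import Claimed.Agent.R289.Tr.CellInv
import Claimed.Agent.R289.Tr.LocalF
import Claimed.Agent.R289.Defs.TrModel

/-!
# Row 289 (S0537), the WALL, file Tr/In : THE NAMED INPUTS OF THE WALL, TYPED ONCE      (owner helper43; post of 295; prefix `pvin_`, `pvin`, `Pvin`)      0 own sorry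

Blueprint `origin/helper295:notes/R289/TR_295.md` sec. 1.      ONE import gives every roof of the wall (both roads: `Exit/Tr.lean` 187, `Exit/TrP.lean` 79, `Tr/RoadP.lean` 273; N1 170 279, CYC1 / THICK 129 58, COVER 143, PINS 12, LOW 147 21)
all the probabilistic inputs, in the vocabulary of `Defs/TrModel.lean` (map `pvxT ω`, positions `pvxPos ω`, colouring `pvxCol ω b`, law `pvLaw ε`, rims of all completions `pvhbAll x R ω = l9All x R ω`), limits along `ε ↓ 0` (`𝓝[>] 0`) as in `Tr/Hub.lean`.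
DEBTS UPSTREAM: NONE (ARM closed: `armt_near`; S1P/IBes closed; QBX closed).

| input   | here                                                                                          | producer (file)                                             |
| I.RIM   | cite `pl_rim pl_rim_unique pl_no_bypass pl_rim_conv` with `delb_plane_isSph h`, `(delbPl Y).toMap_simple`; walls finite: `pvin_ok_ae` | 180 156 113 57 (`Pl/Rim*`), 219 (`Del/Bulk`), 274 (`S1P/Fin`) |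
| I.BES   | **`pvin_bes_model`**, **`pvin_bes_mask`** (field `Q - a V`, ALL rims of the plane map at once, a.e. measurable majorant, constant `(2 + 2|a|²) pvbeCB`); raw: `pvbe_in_QaV`, `pvbx_exists` | 244 (`S1P/IBes`), 223 (`Tr/Bes`), 181 (`Tr/BesIn`) |
| I.TAIL  | functional **`pvinTh B a₀`**: `pvin_th_aem`, **`pvin_th_lim`** (mean `→ 0`), **`pvin_th_ge`** (families of pairwise different rims, either colour, field `Q - a V`: closed `V` sums vanish); on `Conf`: `pvin_tail_rims`, `pvin_tail_lim` | 104 (`S1/Closed`), 195 (`Tr/Dict`) |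
| I.ARM1  | **`pvin_arm1`** (all `ε ≤ s`, not asymptotic); vertex form `pvr_arm1_vertex`                     | 262 (`Exit/Arm1`), 33 (`Exit/Arm`)                          |
| I.ARM6  | **`pvin_arm6`** (`∀ᶠ ε in 𝓝[>] 0`, from `PvNearExit`), `pvin_armA`, `pvin_armA_main : ∃ c > 0, ∀ c' ∈ (0,c], L9ExitArmA c'`.      CENTRES `‖y - x‖ ≤ 2R` ONLY | 33, 186 (`Arm/Top`), 115 (`Cr/All`) |
| I.QBX   | **`pvin_qbx_rect`**, **`pvin_qbx_circ`**, `pvin_qbx_blk`, `pvin_qbx_family`, `pvin_qbx_list` (fixed finite family, `ε ↓ 0`): UNCONDITIONAL, no rate, uniform in position and scale | 167 (`Exit/Qbx`), 298 (`Qbx/Rect`) |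
| I.FKG   | cite: annealed `pvf_fkg`, `pv_fkg_def` (159 `Fkg`); quenched `pvfq_harris`, `pvfq_up_finset`, `pvqy_harris` (103 `FkgQ`, 298); given a frozen state `pvhk_Qc_net`, `pvhk_bridge_net`, `pvhk_bridge_ann` (5 `Tr/Hook`) | |
| I.MESH  | `pvin_mesh_prob`, `pvin_mesh_lim`, `pvin_mesh_mom`; deterministic: `pvmt_good_dense`, `pvmt_good_side`, `pvmt_tsum_sq`, `pvm_good_loc` | 127 223 (`Mesh/*`) |
| I.IND   | `pvin_ppp ε : IsPpp (pvInt ε) (pvP ε)`; then `IsPpp.*` of 256 (`Ppp/Ind`), `pvti_*` of 141 (`Tr/Ind`), retained triangles `Tr/Ret`, `Tr/RetMeas` (220) | |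
| I.INV   | `pvin_aff` (`z ↦ a z + b` maps mesh `ε` to mesh `‖a‖ ε`), `pvin_flip`                             | 52 (`Tr/CellInv`), 218 (`Tr/Sym`) |
TRANSFER `Conf ↔ PVSample`: `pvin_law_le` (outer measures), `pvin_lint_conf`, `pvin_ae_conf`;   sequences `→` filter: `pvin_ev_of_seq`;   `delPl h ↔ delbPl Y`: state the lemma for `P : PlTri ↥Y` with `hP : P = delPl h`, `subst hP` (see `pvin_tail_rimsP`).
-/

set_option autoImplicit false
set_option linter.unusedSectionVars false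

namespace Claimed.Agent.R289

open MeasureTheory ProbabilityTheory Set Filter Topology Metric
open scoped ENNReal NNReal
open Claims.C0465

/-! ## 0. from sequences to the filter `ε ↓ 0` -/

/-- a property which holds eventually along every positive sequence `→ 0` holds eventually as `ε ↓ 0` -/
theorem pvin_ev_of_seq {p : ℝ → Prop} (h : ∀ εs : ℕ → ℝ, (∀ n, 0 < εs n) → Tendsto εs atTop (𝓝 0) → ∀ᶠ n in atTop, p (εs n)) :
    ∀ᶠ ε in 𝓝[>] (0 : ℝ), p ε := by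
  rw [Filter.eventually_iff_seq_eventually]
  intro x hx
  have hpos : ∀ᶠ n in atTop, 0 < x n := hx.eventually (eventually_mem_nhdsWithin)
  set y : ℕ → ℝ := fun n => if 0 < x n then x n else 1 / ((n : ℝ) + 1) with hy
  have hy0 : ∀ n, 0 < y n := by
    intro n
    by_cases hn : 0 < x n
    · simp only [hy, if_pos hn]; exact hn
    · simp only [hy, if_neg hn]; positivity
  have hxy : ∀ᶠ n in atTop, y n = x n := hpos.mono fun n hn => by simp only [hy, if_pos hn]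
  have hx0 : Tendsto x atTop (𝓝 0) := tendsto_nhds_of_tendsto_nhdsWithin hx
  have hyl : Tendsto y atTop (𝓝 0) := hx0.congr' (hxy.mono fun n hn => hn.symm)
  filter_upwards [h y hy0 hyl, hxy] with n h1 h2
  rwa [h2] at h1

/-- the law of the sample against the law of the configuration, OUTER measures -/
theorem pvin_law_le (ε : ℝ) {B : Set PVSample} {A : Set (Conf PvPt)} (h : ∀ ω ∈ B, pvConf ω ∈ A) : pvLaw ε B ≤ pvP ε A :=
  (measure_mono fun ω hω => h ω hω).trans (Measure.le_map_apply measurable_pvConf.aemeasurable A)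

theorem pvin_law_le_real (ε : ℝ) {B : Set PVSample} {A : Set (Conf PvPt)} (h : ∀ ω ∈ B, pvConf ω ∈ A) : (pvLaw ε B).toReal ≤ (pvP ε A).toReal :=
  ENNReal.toReal_mono (measure_ne_top _ _) (pvin_law_le ε h)

/-! ## 2. I.TAIL in the language of rims of the plane map, field `Q - a V` -/

section tail

variable {η : Conf PvPt}

/-- the closed sum of the field `Q - a V` round a cycle of the full plane Delaunay map (tags `opp (c.e k)`, as in `PvBulk.enc`) -/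
noncomputable def pvinCl (h : DelGood (cfSites η)) (a : ℂ) (c : (delPl h).toMap.Cyc) : ℂ :=
  ∑ k ∈ Finset.range c.n, ((delPl h).toMap.qpart Subtype.val ((delPl h).toMap.opp (c.e k)) - a * (delPl h).toMap.side Subtype.val ((delPl h).toMap.opp (c.e k)))

theorem pvin_eqns_cite : True := by
  have := @pvinCl.eq_1
  trivial

/-- closed `V` sums vanish: the closed sum of `Q - a V` round a rim is the label sum of `Q` -/
theorem pvin_cl_eq (h : DelGood (cfSites η)) (a : ℂ) {s : ↥(cfSites η) → Bool} {c : (delPl h).toMap.Cyc} (hc : c.IsRim s) :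
    pvinCl h a c = (delPl h).toMap.lsum s ((delPl h).toMap.qpart Subtype.val) ((delPl h).toMap.opp (c.e 0)) := by
  have h1 := l9_lsum_rim hc ((delPl h).toMap.qpart Subtype.val)
  have h2 := l9_lsum_rim hc ((delPl h).toMap.side Subtype.val)
  rw [pvdc_lsum_side (pos := Subtype.val) c hc.2.2] at h2
  unfold pvinCl
  rw [Finset.sum_sub_distrib, ← Finset.mul_sum, ← h2, mul_zero, sub_zero, h1]

/-- the raw tag of a rim -/
theorem pvin_rim_sum (h : DelGood (cfSites η)) (a : ℂ) {c : (delPl h).toMap.Cyc} (hc : c.IsRim (cfCol η ∘ Subtype.val)) :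
    pvinCl h a c = pvqSum (DelTri (cfSites η)) (cfCol η) (pvqWQ (cfSites η)) (pvqCode ((delPl h).toMap.opp (c.e 0))) := by
  rw [pvin_cl_eq h a hc, pvq_del_sum]
  congr 1
  funext d'
  exact (pvq_del_qpart h d').symm

/-- the source of the raw tag `opp (c.e k)` is the next vertex of the cycle -/
theorem pvin_code_fst (h : DelGood (cfSites η)) (c : (delPl h).toMap.Cyc) (k : ℕ) :
    (pvqCode ((delPl h).toMap.opp (c.e k))).1 = (((delPl h).toMap.src (c.e (k + 1)) : ↥(cfSites η)) : ℂ) := by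
  rw [← c.chain k, ← (delPl h).toMap.src_opp' (c.e k)]
  rfl

/-- every vertex of a cycle is the source of one of its raw tags -/
theorem pvin_code_fst' (h : DelGood (cfSites η)) (c : (delPl h).toMap.Cyc) (k : ℕ) :
    ∃ k', (pvqCode ((delPl h).toMap.opp (c.e k'))).1 = (((delPl h).toMap.src (c.e k) : ↥(cfSites η)) : ℂ) := by
  refine ⟨k + (c.n - 1), ?_⟩
  rw [pvin_code_fst]
  have e : k + (c.n - 1) + 1 = k + c.n := by have := pl_cyc_pos c; omega
  rw [e, c.per]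

/-- **I.TAIL, DETERMINISTIC HALF, FAMILIES OF RIMS** (consumer: `hrec` / `hC2` of `pvti_pattern`, `pvti_core_cyl`; `hclose` of TR27):
pairwise different rims of the full plane map, vertices in `B`, diameter `≥ a₀`:   `∑ |(Q - a V)_P(1)|² ≤ pvclSum η B a₀`. -/
theorem pvin_tail_rims (h : DelGood (cfSites η)) {B : Set ℂ} (hB : Bornology.IsBounded B) {a₀ : ℝ} (a : ℂ) {ι : Type} (c : ι → (delPl h).toMap.Cyc)
    (hrim : ∀ i, (c i).IsRim (cfCol η ∘ Subtype.val))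
    (hin : ∀ i k, (((delPl h).toMap.src ((c i).e k) : ↥(cfSites η)) : ℂ) ∈ B)
    (hbig : ∀ i, ∃ k k', a₀ ≤ ‖(((delPl h).toMap.src ((c i).e k) : ↥(cfSites η)) : ℂ) - (((delPl h).toMap.src ((c i).e k') : ↥(cfSites η)) : ℂ)‖)
    (hne : ∀ i j, i ≠ j → (c j).e 0 ∉ (c i).darts) :
    ∑' i, ‖pvinCl h a (c i)‖ₑ ^ 2 ≤ pvclSum η B a₀ := by
  have e : ∀ i, ‖pvinCl h a (c i)‖ₑ ^ 2
      = ENNReal.ofReal (‖pvqSum (DelTri (cfSites η)) (cfCol η) (pvqWQ (cfSites η)) (pvqCode ((delPl h).toMap.opp ((c i).e 0)))‖ ^ 2) := by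
    intro i
    rw [pvin_rim_sum h a (hrim i), pvbx_enorm_sq]
  simp only [e]
  refine pvcl_tsum_ge h hB (fun i => pvqCode ((delPl h).toMap.opp ((c i).e 0))) (fun i => ?_) (fun i y hy => ?_) (fun i => ?_) (fun i j hij hs => ?_)
  · exact (pvq_del_tag h _ _).2 (pl_rim_tag (hrim i) 0)
  · obtain ⟨d', rfl, hd'⟩ := (pvq_del_same h _ _ y).1 hy
    obtain ⟨k, rfl⟩ := ((hrim i).2.2 d').1 hd'
    rw [pvin_code_fst]
    exact hin i _
  · obtain ⟨k, k', hk⟩ := hbig i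
    obtain ⟨m, hm⟩ := pvin_code_fst' h (c i) k
    obtain ⟨m', hm'⟩ := pvin_code_fst' h (c i) k'
    refine ⟨pvqCode ((delPl h).toMap.opp ((c i).e m)), pvqCode ((delPl h).toMap.opp ((c i).e m')), ?_, ?_, ?_⟩
    · exact (pvq_del_same' h _ _ _).2 (pl_rim_lab (hrim i) m)
    · exact (pvq_del_same' h _ _ _).2 (pl_rim_lab (hrim i) m')
    · rw [hm, hm']; exact hk
  · have h1 := (pvq_del_same' h _ _ _).1 hs
    obtain ⟨k, hk⟩ := ((hrim i).2.2 _).1 h1
    exact hne i j hij ⟨k, ((delPl h).toMap.opp_injective hk).symm⟩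

/-- **I.TAIL, PROBABILISTIC HALF**: the closed-sum functional `Θ = pvclSum · B a₀` is a.e. measurable and its mean tends to `0` with the mesh -/
theorem pvin_tail_aem (ε : ℝ) {B : Set ℂ} (hB : MeasurableSet B) (a₀ : ℝ) : AEMeasurable (fun η => pvclSum η B a₀) (pvP ε) := pvcl_sum_aem ε hB a₀

theorem pvin_tail_lim {B : Set ℂ} (hB : Bornology.IsBounded B) {a₀ : ℝ} (ha : 0 < a₀) :
    Tendsto (fun ε => ∫⁻ η, pvclSum η B a₀ ∂(pvP ε)) (𝓝[>] 0) (𝓝 0) := pvcl_closed hB ha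


end tail

/-! ## 3. I.ARM1, I.ARM6 for the rims of ALL completions (`l9All`, 115), plain sample space, OUTER measure -/

/-- **I.ARM1**, NOT asymptotic: all meshes `ε ≤ s` -/
theorem pvin_arm1 : ∃ C a : ℝ, 1 ≤ C ∧ 0 < a ∧ ∀ c : ℝ, 0 < c → c ≤ a → ∀ (x : ℂ) (R : ℝ), 0 < R → ∀ (y : ℂ) (s : ℝ), ‖y - x‖ ≤ 2 * R → 0 < s →
    ∀ ε : ℝ, 0 < ε → ε ≤ s → (pvLaw ε {ω | ∃ P ∈ l9All x R ω, PvbVisits P y s}).toReal ≤ C * (s / R) ^ c := by
  obtain ⟨C, a, hC, ha, h⟩ := pvr_arm1_vertex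
  refine ⟨max (2 * C) 1, a, le_max_right _ _, ha, ?_⟩
  intro c hc hca x R hR y s hy hs ε hε hεs
  rcases le_or_gt s R with hsR | hsR
  · have hsub : ∀ ω ∈ {ω : PVSample | ∃ P ∈ l9All x R ω, PvbVisits P y s}, pvConf ω ∈ {η | PvArm1 η true y s R} ∪ {η | PvArm1 η false y s R} := by
      rintro ω ⟨P, ⟨X, _, 𝔅, ξ, -, hOk, hP⟩, hv⟩
      obtain ⟨b, hb⟩ := pvxa_visit_arm 𝔅 hR hy hsR hOk hP hv
      cases b
      · exact Or.inr hb
      · exact Or.inl hb
    refine (pvin_law_le_real ε hsub).trans ?_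
    have h1 := h ε s R y true hε hεs hsR
    have h2 := h ε s R y false hε hεs hsR
    have hnn : 0 ≤ C * (s / R) ^ a := by positivity
    have h3 : pvP ε ({η | PvArm1 η true y s R} ∪ {η | PvArm1 η false y s R}) ≤ ENNReal.ofReal (2 * (C * (s / R) ^ a)) := by
      refine (measure_union_le _ _).trans ?_
      rw [two_mul, ENNReal.ofReal_add hnn hnn]
      exact add_le_add h1 h2
    have h4 : (pvP ε ({η | PvArm1 η true y s R} ∪ {η | PvArm1 η false y s R})).toReal ≤ 2 * (C * (s / R) ^ a) := by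
      have := ENNReal.toReal_mono ENNReal.ofReal_ne_top h3
      rwa [ENNReal.toReal_ofReal (by positivity)] at this
    have h5 : (s / R) ^ a ≤ (s / R) ^ c := pvxa_rpow_le (by positivity) ((div_le_one hR).2 hsR) hca
    have h6 : 0 ≤ (s / R) ^ c := by positivity
    calc _ ≤ 2 * (C * (s / R) ^ a) := h4
      _ = 2 * C * (s / R) ^ a := by ring
      _ ≤ 2 * C * (s / R) ^ c := mul_le_mul_of_nonneg_left h5 (by positivity)
      _ ≤ max (2 * C) 1 * (s / R) ^ c := mul_le_mul_of_nonneg_right (le_max_left _ _) h6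
  · have h1 : (pvLaw ε {ω | ∃ P ∈ l9All x R ω, PvbVisits P y s}).toReal ≤ 1 := by
      have := ENNReal.toReal_mono ENNReal.one_ne_top (prob_le_one (μ := pvLaw ε) (s := {ω | ∃ P ∈ l9All x R ω, PvbVisits P y s}))
      simpa using this
    have h2 : (1 : ℝ) ≤ (s / R) ^ c := Real.one_le_rpow (by rw [le_div_iff₀ hR]; linarith) hc.le
    have h3 : (1 : ℝ) ≤ max (2 * C) 1 := le_max_right _ _
    calc _ ≤ (1 : ℝ) := h1
      _ ≤ max (2 * C) 1 * (s / R) ^ c := by nlinarith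

/-- **I.ARM6** (near return `×` one arm = LM IN.5) as `ε ↓ 0`, from the interface `PvNearExit` of 33 / 186.      WARNING: centres `‖y - x‖ ≤ 2R` only (take the nets INSIDE `closedBall x (2R)`). -/
theorem pvin_arm6 {c : ℝ} (N : PvNearExit c) {c' : ℝ} (hc : c' ≤ c) (x : ℂ) (R : ℝ) (y : ℂ) (s S : ℝ) (hy : ‖y - x‖ ≤ 2 * R) (hs : 0 < s) (hsS : s ≤ S) (hSR : S ≤ R) :
    ∀ᶠ ε in 𝓝[>] (0 : ℝ), (pvLaw ε {ω | ∃ P ∈ l9All x R ω, PvbNearRet P y s S}).toReal ≤ max N.C 1 * (s / S) ^ (2 + c') * (S / R) ^ c' := by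
  refine pvin_ev_of_seq fun εs h0 hε => ?_
  filter_upwards [pvxa_near_le N hc εs h0 hε y s S R hs hsS hSR] with n hn
  refine (pvin_law_le_real (εs n) (A := N.F y s S R) ?_).trans hn
  rintro ω ⟨P, ⟨X, _, 𝔅, ξ, hAdm, hOk, hP⟩, hret⟩
  exact N.det X 𝔅 (pvConf ω) ξ x y s S R hy hs hsS hSR hAdm hOk P hP hret

/-- **EXIT OF ARM IN THE FAMILY-FREE FORM OF 115**, all small exponents at once -/
theorem pvin_armA {c₀ : ℝ} (hc₀ : 0 < c₀) (N : PvNearExit c₀) : ∃ c : ℝ, 0 < c ∧ ∀ c' : ℝ, 0 < c' → c' ≤ c → L9ExitArmA c' := by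
  obtain ⟨C, a, hC, ha, h1⟩ := pvin_arm1
  refine ⟨min a c₀, lt_min ha hc₀, ?_⟩
  intro c' hc' hle εs h0 hε x R hR
  have hm : (0 : ℝ) ≤ max N.C 1 := le_trans zero_le_one (le_max_right _ _)
  have hes : Tendsto εs atTop (𝓝[>] (0 : ℝ)) := tendsto_nhdsWithin_iff.2 ⟨hε, Eventually.of_forall h0⟩
  refine ⟨⟨max C (max N.C 1), ?_, ?_⟩⟩
  · intro y s hy hs
    have hev : ∀ᶠ n in atTop, εs n ≤ s := (hε.eventually (gt_mem_nhds hs)).mono fun n hn => le_of_lt hn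
    filter_upwards [hev] with n hn
    refine (h1 c' hc' (hle.trans (min_le_left _ _)) x R hR y s hy hs (εs n) (h0 n) hn).trans (mul_le_mul_of_nonneg_right (le_max_left _ _) (by positivity))
  · intro y s S hy hs hsS hSR
    have hS : 0 < S := lt_of_lt_of_le hs hsS
    filter_upwards [hes.eventually (pvin_arm6 N (hle.trans (min_le_right _ _)) x R y s S hy hs hsS hSR)] with n hn
    refine hn.trans ?_
    have p1 : 0 ≤ (s / S) ^ (2 + c') := by positivity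
    have p2 : 0 ≤ (S / R) ^ c' := by positivity
    exact mul_le_mul_of_nonneg_right (mul_le_mul_of_nonneg_right (le_max_right _ _) p1) p2

/-- UNCONDITIONAL (ARM is closed: `armt_near`, 186 `Arm/TopGlue.lean`) -/
theorem pvin_armA_main : ∃ c : ℝ, 0 < c ∧ ∀ c' : ℝ, 0 < c' → c' ≤ c → L9ExitArmA c' := by
  obtain ⟨c₀, hc₀, ⟨N⟩⟩ := armt_near
  exact pvin_armA hc₀ N


/-- the rims of all completions: the two names (115, 73) are the same set -/
theorem pvin_all_eq : pvhbAll = l9All := rfl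

/-! ## 4. I.QBX, UNCONDITIONAL (QBX is closed: `Exit/Qbx.lean` of 167, `Qbx/Rect.lean` of 298).      NO RATE, but UNIFORM in the position and in the scale: `scale ≥ U(δ) · mesh` -/

/-- **I.QBX, rectangles**: aspect ratio `≤ ρ`, short side `≥ U ε`; crossing in the long direction, both directions, both colours -/
theorem pvin_qbx_rect (ρ : ℝ) : ∃ q : ℝ, 0 < q ∧ ∀ δ : ℝ, 0 < δ → ∃ U : ℝ, 0 < U ∧ ∀ ε : ℝ, 0 < ε → ∀ x0 x1 y0 y1 : ℝ,
    (x0 ≤ x1 → U * ε ≤ y1 - y0 → x1 - x0 ≤ ρ * (y1 - y0) →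
      pvGeo ε {g | pvQc (pvrEv (rswLR x0 x1 y0 y1)) g < ENNReal.ofReal q} ≤ ENNReal.ofReal δ ∧
      pvGeo ε {g | pvQc (pvrEvW (rswLR x0 x1 y0 y1)) g < ENNReal.ofReal q} ≤ ENNReal.ofReal δ) ∧
    (y0 ≤ y1 → U * ε ≤ x1 - x0 → y1 - y0 ≤ ρ * (x1 - x0) →
      pvGeo ε {g | pvQc (pvrEv (rswTB x0 x1 y0 y1)) g < ENNReal.ofReal q} ≤ ENNReal.ofReal δ ∧
      pvGeo ε {g | pvQc (pvrEvW (rswTB x0 x1 y0 y1)) g < ENNReal.ofReal q} ≤ ENNReal.ofReal δ) :=
  pvqy_rect exit_pv_qbx_s1 ρ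

/-- **I.QBX, circuits**: the four crossings `pvreAnn cx cy t` of the square annulus `(t, 2t)` at once -/
theorem pvin_qbx_circ : ∃ q : ℝ, 0 < q ∧ ∀ δ : ℝ, 0 < δ → ∃ U : ℝ, 0 < U ∧ ∀ ε : ℝ, 0 < ε → ∀ t : ℝ, U * ε ≤ t → ∀ cx cy : ℝ,
    pvGeo ε {g | pvQc {η | ∀ e ∈ pvreAnn cx cy t, e.Holds (cfB η)} g < ENNReal.ofReal q} ≤ ENNReal.ofReal δ ∧
    pvGeo ε {g | pvQc {η | ∀ e ∈ pvreAnn cx cy t, e.Holds (cfW η)} g < ENNReal.ofReal q} ≤ ENNReal.ofReal δ :=
  pvqy_circ exit_pv_qbx_s1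

/-- **I.QBX, blocking**: no arm across the square annulus `(u/2, 5u/2)` -/
theorem pvin_qbx_blk : ∃ q : ℝ, 0 < q ∧ ∀ δ : ℝ, 0 < δ → ∃ U : ℝ, 0 < U ∧ ∀ ε : ℝ, 0 < ε → ∀ u : ℝ, U * ε ≤ u → ∀ z : ℂ,
    pvGeo ε {g | pvQc {η | ¬ (rswArm z.re z.im (u / 2) (5 * u / 2)).Holds (cfB η)} g < ENNReal.ofReal q} ≤ ENNReal.ofReal δ ∧
    pvGeo ε {g | pvQc {η | ¬ (rswArm z.re z.im (u / 2) (5 * u / 2)).Holds (cfW η)} g < ENNReal.ofReal q} ≤ ENNReal.ofReal δ :=
  exit_pv_qbx_unif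

/-- **I.QBX, GENERAL FORM**: any event forced (on `PvrOk`) by "no white arm across `K` square annuli `(u/2, 5u/2)` of arbitrary centres" -/
theorem pvin_qbx_family : ∃ q : ℝ, 0 < q ∧ ∀ (K : ℕ) (δ : ℝ), 0 < δ → ∃ U : ℝ, 0 < U ∧ ∀ ε : ℝ, 0 < ε → ∀ u : ℝ, U * ε ≤ u →
    ∀ (z : ℕ → ℂ) (𝒯 : Set (Conf PvPt)), (∀ η, PvrOk η → (∀ i < K, η ∈ pvqyNoW (rswArm (z i).re (z i).im (u / 2) (5 * u / 2))) → η ∈ 𝒯) →
      pvGeo ε {g | pvQc 𝒯 g < ENNReal.ofReal (q ^ K)} ≤ ENNReal.ofReal δ :=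
  pvqy_family exit_pv_qbx_s1

/-- **I.QBX FOR A FIXED FINITE FAMILY OF BLACK PATTERNS** (R9 of the blueprint): if every pattern of the list has quenched probability `≥ q` off a set of geometries which is small as `ε ↓ 0`, then ALL the patterns hold at once
with quenched probability `≥ q ^ length` off a small set (quenched Harris of 103 inside `pvqy_all`) -/
theorem pvin_qbx_list (l : List RswTri) (he : ∀ e ∈ l, e.Nice) {q : ℝ} (hq : 0 ≤ q)
    (h : ∀ e ∈ l, Tendsto (fun ε : ℝ => pvGeo ε {g | pvQc (pvrEv e) g < ENNReal.ofReal q}) (𝓝[>] 0) (𝓝 0)) :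
    Tendsto (fun ε : ℝ => pvGeo ε {g | pvQc {η | ∀ e ∈ l, e.Holds (cfB η)} g < ENNReal.ofReal (q ^ l.length)}) (𝓝[>] 0) (𝓝 0) := by
  have hsum : Tendsto (fun ε : ℝ => (l.map fun e => pvGeo ε {g | pvQc (pvrEv e) g < ENNReal.ofReal q}).sum) (𝓝[>] 0) (𝓝 0) := by
    induction l with
    | nil => simp
    | cons e l ih =>
      simp only [List.map_cons, List.sum_cons]
      have h1 := h e (by simp)
      have h2 := ih (fun e' he' => he e' (by simp [he'])) (fun e' he' => h e' (by simp [he']))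
      simpa using h1.add h2
  exact tendsto_of_tendsto_of_tendsto_of_le_of_le tendsto_const_nhds hsum (fun _ => zero_le) fun ε => pvqy_all ε l he hq

/-! ## 5. I.IND, I.INV, I.MESH, the standing almost sure event -/

/-- **I.IND**: the model is a Poisson process; everything of `Ppp/Ind.lean` (256), `Tr/Ind.lean` (141), `Tr/Sys.lean` (95), `Tr/Bes.lean` (223) applies with `h := pvin_ppp ε` -/
theorem pvin_ppp (ε : ℝ) : IsPpp (pvInt ε) (pvP ε) := pv_isPpp ε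

/-- **I.INV + SCALE**: the image of the model at mesh `ε` under `z ↦ a z + b` is the model at mesh `‖a‖ ε`      (52) -/
theorem pvin_aff (a b : ℂ) (ha : a ≠ 0) (ε : ℝ) : (pvP ε).map (Conf.image (pvciAff a b ha)) = pvP (‖a‖ * ε) := pvci_law_aff a b ha ε

/-- **I.INV, colours** -/
theorem pvin_flip (ε : ℝ) : (pvP ε).map cfFlip = pvP ε := pvP_flip ε

/-- **I.MESH, the event**: `pvmGood univ ρ w L` (measurable, does not depend on `ε`, local: `pvm_good_loc`, gives a `ρ`-net of the square `pvmSq w L`: `pvmt_good_dense`, sides `≤ 2ρ`: `pvmt_good_side`) -/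
theorem pvin_mesh_prob {ε ρ L : ℝ} (hρ : 0 < ρ) (hL : 0 ≤ L) (w : ℂ) :
    pvP ε (pvmGood univ ρ w L)ᶜ ≤ ENNReal.ofReal ((4 * L / ρ + 5) ^ 2 * Real.exp (-(ρ ^ 2 / (8 * ε ^ 2)))) :=
  pvm_good_prob hρ hL (pv_isPpp ε) univ_nonempty w

theorem pvin_mesh_lim {ρ L : ℝ} (hρ : 0 < ρ) (hL : 0 ≤ L) (w : ℂ) : Tendsto (fun ε => pvP ε (pvmGood univ ρ w L)ᶜ) (𝓝[>] 0) (𝓝 0) :=
  pvm_good_tendsto hρ hL (fun ε _ => pv_isPpp ε) univ_nonempty w

/-- **I.MESH, the moments**: `∑ diam(t)^k` over the triangles attached to the square `pvmSq w s` is `≤ pvmZS k 3 3 ε w s η` (`pvmt_tsum_sq`), a measurable function with `E Z^p ≤ K (ε^k ((s+ε)/ε)²)^p` -/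
theorem pvin_mesh_mom {p : ℕ} (hp : p ≠ 0) (k : ℕ) : ∃ K : ℝ, 0 ≤ K ∧ ∀ (ε : ℝ), 0 < ε → ∀ (w : ℂ) (s : ℝ), 0 ≤ s →
    ∫⁻ η, pvmZS k 3 3 ε w s η ^ p ∂(pvP ε) ≤ ENNReal.ofReal (K * (ε ^ k * ((s + ε) / ε) ^ 2) ^ p) := by
  obtain ⟨K, hK, h⟩ := pvmt_mom hp k
  exact ⟨K, hK, fun ε hε w s hs => h ε hε (pvP ε) (pv_isPpp ε) w s hs⟩


/-! ## 6. THE INPUTS IN THE MODEL OF RECORD (`Defs/TrModel.lean`, 187): map `pvxT ω`, positions `pvxPos ω`, colouring `pvxCol ω b`, law `pvLaw ε` on `PVSample` -/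

section model

/-- the mass against `g` of the field `Q - a V` round a cycle of the plane map of the sample (tags `opp (c.e k)`, as in `PvBulk.enc`) -/
noncomputable def pvinMs (ω : PVSample) (a : ℂ) (g : ℂ → ℂ) (c : (pvxT ω).Cyc) : ℂ :=
  ∑ k ∈ Finset.range c.n, g ((pvxT ω).bary (pvxPos ω) ((pvxT ω).opp (c.e k))) *
    ((pvxT ω).qpart (pvxPos ω) ((pvxT ω).opp (c.e k)) - a * (pvxT ω).side (pvxPos ω) ((pvxT ω).opp (c.e k)))

/-- **THE CLOSED-SUM FUNCTIONAL** `Θ` of I.TAIL on the sample -/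
noncomputable def pvinTh (B : Set ℂ) (a₀ : ℝ) (ω : PVSample) : ℝ≥0∞ := pvclSum (pvConf ω) B a₀

theorem pvin_eqns_cite2 : True := by
  have := @pvinMs.eq_1; have := @pvinTh.eq_1
  trivial

/-- the colouring of record is the colouring of the configuration, the colour `b` being called `true` -/
theorem pvin_col_eq (ω : PVSample) (b : Bool) : pvxCol ω b = pvlfFl b (cfCol (pvConf ω) ∘ Subtype.val) := rfl

theorem pvin_th_aem (ε : ℝ) {B : Set ℂ} (hB : MeasurableSet B) (a₀ : ℝ) : AEMeasurable (pvinTh B a₀) (pvLaw ε) :=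
  (pvcl_sum_aem ε hB a₀).comp_measurable measurable_pvConf

/-- the mean of a function of the configuration -/
theorem pvin_lint_conf (ε : ℝ) {F : Conf PvPt → ℝ≥0∞} (hF : AEMeasurable F (pvP ε)) : ∫⁻ ω, F (pvConf ω) ∂(pvLaw ε) = ∫⁻ η, F η ∂(pvP ε) :=
  (lintegral_map' hF measurable_pvConf.aemeasurable).symm

/-- an almost sure property of the configuration -/
theorem pvin_ae_conf (ε : ℝ) {p : Conf PvPt → Prop} (h : ∀ᵐ η ∂(pvP ε), p η) : ∀ᵐ ω ∂(pvLaw ε), p (pvConf ω) :=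
  ae_of_ae_map measurable_pvConf.aemeasurable h

/-- **I.TAIL, PROBABILISTIC HALF** -/
theorem pvin_th_lim {B : Set ℂ} (hB : Bornology.IsBounded B) (hBm : MeasurableSet B) {a₀ : ℝ} (ha : 0 < a₀) :
    Tendsto (fun ε => ∫⁻ ω, pvinTh B a₀ ω ∂(pvLaw ε)) (𝓝[>] 0) (𝓝 0) := by
  have e : (fun ε => ∫⁻ ω, pvinTh B a₀ ω ∂(pvLaw ε)) = fun ε => ∫⁻ η, pvclSum η B a₀ ∂(pvP ε) :=
    funext fun ε => pvin_lint_conf ε (pvcl_sum_aem ε hBm a₀)
  rw [e]
  exact pvcl_closed hB ha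

/-- transport along `delb_pl_eq` -/
theorem pvin_tail_rimsP {η : Conf PvPt} (h : DelGood (cfSites η)) (P : PlTri ↥(cfSites η)) (hP : P = delPl h) {B : Set ℂ} (hB : Bornology.IsBounded B) {a₀ : ℝ} (a : ℂ)
    {ι : Type} (c : ι → P.toMap.Cyc) (b : ι → Bool) (hrim : ∀ i, (c i).IsRim (pvlfFl (b i) (cfCol η ∘ Subtype.val)))
    (hin : ∀ i k, ((P.toMap.src ((c i).e k) : ↥(cfSites η)) : ℂ) ∈ B)
    (hbig : ∀ i, ∃ k k', a₀ ≤ ‖((P.toMap.src ((c i).e k) : ↥(cfSites η)) : ℂ) - ((P.toMap.src ((c i).e k') : ↥(cfSites η)) : ℂ)‖)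
    (hne : ∀ i j, i ≠ j → (c j).e 0 ∉ (c i).darts) :
    ∑' i, ‖∑ k ∈ Finset.range (c i).n, (1 : ℂ → ℂ) (P.toMap.bary Subtype.val (P.toMap.opp ((c i).e k))) *
      (P.toMap.qpart Subtype.val (P.toMap.opp ((c i).e k)) - a * P.toMap.side Subtype.val (P.toMap.opp ((c i).e k)))‖ₑ ^ 2 ≤ pvclSum η B a₀ := by
  subst hP
  simp only [Pi.one_apply, one_mul]
  exact pvin_tail_rims h hB a c (fun i => (pvlf_rim_fl (b i)).1 (hrim i)) hin hbig hne

/-- **I.TAIL, DETERMINISTIC HALF, MODEL OF RECORD**: pairwise different rims (either colour) of the plane map of the sample, vertices in `B`, diameter `≥ a₀` -/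
theorem pvin_th_ge {ω : PVSample} (h : DelGood (pvxY ω)) {B : Set ℂ} (hB : Bornology.IsBounded B) {a₀ : ℝ} (a : ℂ) {ι : Type} (c : ι → (pvxT ω).Cyc) (b : ι → Bool)
    (hrim : ∀ i, (c i).IsRim (pvxCol ω (b i))) (hin : ∀ i k, pvxPos ω ((pvxT ω).src ((c i).e k)) ∈ B)
    (hbig : ∀ i, ∃ k k', a₀ ≤ ‖pvxPos ω ((pvxT ω).src ((c i).e k)) - pvxPos ω ((pvxT ω).src ((c i).e k'))‖)
    (hne : ∀ i j, i ≠ j → (c j).e 0 ∉ (c i).darts) :
    ∑' i, ‖pvinMs ω a 1 (c i)‖ₑ ^ 2 ≤ pvinTh B a₀ ω :=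
  pvin_tail_rimsP (η := pvConf ω) h (delbPl (pvxY ω)) (delb_pl_eq h) hB a c b hrim hin hbig hne

/-- RECOGNITION for a rim: its mass against `g` is the mass of ONE label of the full plane configuration -/
theorem pvin_bes_rimP {η : Conf PvPt} (h : DelGood (cfSites η)) (P : PlTri ↥(cfSites η)) (hP : P = delPl h) (a : ℂ) (g : ℂ → ℂ) (c : P.toMap.Cyc) (b : Bool)
    (hrim : c.IsRim (pvlfFl b (cfCol η ∘ Subtype.val))) :
    ∃ x, pvbeTag η x ∧ ∑ k ∈ Finset.range c.n, g (P.toMap.bary Subtype.val (P.toMap.opp (c.e k))) *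
      (P.toMap.qpart Subtype.val (P.toMap.opp (c.e k)) - a * P.toMap.side Subtype.val (P.toMap.opp (c.e k))) = pvbeLab (pvbeComb pvqWQ pvbeWV (-a)) g η x := by
  subst hP
  have hr := (pvlf_rim_fl b).1 hrim
  refine ⟨pvqCode ((delPl h).toMap.opp (c.e 0)), (pvq_del_tag h _ _).2 (pl_rim_tag hr 0), ?_⟩
  rw [pvbeLab, pvq_del_sum h, l9_lsum_rim hr]
  refine Finset.sum_congr rfl fun k _ => ?_
  rw [pvq_del_bary]
  congr 1
  unfold pvbeComb pvbeWV
  rw [pvq_del_qpart, pvq_del_upart, PvMap.upart_add_qpart]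
  ring

/-- **I.BES, MODEL OF RECORD, field `Q - a V`**: an a.e. measurable majorant of `|X_P(g)|²`, ALL rims `P` (either colour) of the plane map of the sample, of mean `≤ (2 + 2|a|²) C_B |g|₂²`; `C_B = pvbeCB ≠ ∞` does not depend on `ε` -/
theorem pvin_bes_model (a : ℂ) {ε : ℝ} (hε : 0 < ε) {g : ℂ → ℂ} (hg : PvbeTest g) : ∃ H : PVSample → ℝ≥0∞, AEMeasurable H (pvLaw ε) ∧
    (∀ᵐ ω ∂(pvLaw ε), ∀ (b : Bool) (c : (pvxT ω).Cyc), c.IsRim (pvxCol ω b) → ‖pvinMs ω a g c‖ₑ ^ 2 ≤ H ω) ∧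
    ∫⁻ ω, H ω ∂(pvLaw ε) ≤ (2 + 2 * ‖a‖ₑ ^ 2) * pvbeCB * ∫⁻ z, ‖g z‖ₑ ^ 2 := by
  obtain ⟨H, hH, h1, h2⟩ := pvbe_in_QaV a ε hε g hg
  refine ⟨fun ω => H (pvConf ω), hH.comp_measurable measurable_pvConf, ?_, ?_⟩
  · filter_upwards [pvin_ae_conf ε h1, pvin_ae_conf ε (pvqf_good_ae ε hε.ne')] with ω h3 h4 b c hc
    obtain ⟨x, hx, e⟩ := pvin_bes_rimP (η := pvConf ω) h4.del (delbPl (pvxY ω)) (delb_pl_eq h4.del) a g c b hc
    have e' : pvinMs ω a g c = pvbeLab (pvbeComb pvqWQ pvbeWV (-a)) g (pvConf ω) x := e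
    rw [e']
    exact h3 x hx
  · rw [pvin_lint_conf ε hH]
    exact h2

/-- **I.BES for a deterministic mask** `M` (TR14): `E sup_P |X_P(1_M)|² ≤ (2 + 2|a|²) C_B |M|` -/
theorem pvin_bes_mask (a : ℂ) {ε : ℝ} (hε : 0 < ε) {M : Set ℂ} (hM : MeasurableSet M) (hb : Bornology.IsBounded M) : ∃ H : PVSample → ℝ≥0∞, AEMeasurable H (pvLaw ε) ∧
    (∀ᵐ ω ∂(pvLaw ε), ∀ (b : Bool) (c : (pvxT ω).Cyc), c.IsRim (pvxCol ω b) → ‖pvinMs ω a (M.indicator 1) c‖ₑ ^ 2 ≤ H ω) ∧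
    ∫⁻ ω, H ω ∂(pvLaw ε) ≤ (2 + 2 * ‖a‖ₑ ^ 2) * pvbeCB * volume M := by
  have := pvin_bes_model a hε (pvbe_test_ind hM hb)
  rwa [pvbe_ind_sq hM] at this

/-- transport of the finiteness of the walls -/
theorem pvin_wall_finP {Y : Set ℂ} (h : DelGood Y) (P : PlTri ↥Y) (hP : P = delPl h) {σ : ↥Y → Bool} (hf : ∀ d, {d' | (delPl h).toMap.Wall σ d d'}.Finite) (b : Bool) (d : P.Dart) :
    {d' | P.toMap.Wall (pvlfFl b σ) d d'}.Finite := by
  subst hP
  cases b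
  · rw [pvlf_fl_false, pvlf_wall_not]; exact hf d
  · rw [pvlf_fl_true]; exact hf d

/-- **THE STANDING ALMOST SURE EVENT**: the Delaunay plane exists, one colour per site, locally finite, all walls finite -/
theorem pvin_ok_ae {ε : ℝ} (hε : 0 < ε) : ∀ᵐ ω ∂(pvLaw ε), PvqfGood (pvConf ω) ∧ DelGood (pvxY ω) ∧ ∀ (b : Bool) (d : (delbPl (pvxY ω)).Dart), {d' | (pvxT ω).Wall (pvxCol ω b) d d'}.Finite := by
  filter_upwards [pvqf_good_ae_law ε hε.ne', pvqf_fin_ae_law hε] with ω h1 h2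
  obtain ⟨h, hf⟩ := h2
  exact ⟨h1, h, fun b d => pvin_wall_finP h (delbPl (pvxY ω)) (delb_pl_eq h) hf b d⟩


end model

end Claimed.Agent.R289
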