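-- KEEP
import Claimed.Agent.R289.Exit.N1
import Claimed.Agent.R289.Tr.In
import Claimed.Agent.R289.Tr.InstE
import Claimed.Agent.R289.Tr.OneWall

/-!
# Row 289 (S0537), THE WALL, ROAD E, file Tr/DomE : THE FIELD `dom` OF `PvdmSys.Hyp` AT THE MODEL, UPPER HALF      (helper37, post T4 (4) of 24; prefix `pvde_`, `pvde`, `Pvde`)

`dom : ∀ᵐ ω ∂pvP ε, ∑' i, (S.A i ∩ S.WO i).indicator (fun ω => S.w ω * ‖S.X i ω + S.Y ω‖ₑ ^ 2) ω ≤ S.H ω`      (159, `Tr/Dom`),   `H = pvxnH ε hB a₀ Dc = Dc · pvclSum · B a₀`   (170, `Exit/N1` sec. 4; tail = `pvxn_H_lim`).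
WHY `pvclSum` AND NOT `labEn`: the label energy of the full plane field has infinite mean; the tail which is proved (I.TAIL, `pvcl_closed`) is the sum over the labels INSIDE `B` of diameter `≥ a₀`; the `V` part dies round a CYCLE only.
* sec. 1  `PvdmSys.Pr S η i` (the datum `i` is present), **`PvdeRim S a B a₀ Dc η`** = THE CLOSING CONTRACT at one configuration, on the model of `Tr/InstE` (`pvieT pviePos pvieCol pvieFld`)
* sec. 2  `pvde_sum_le` (deterministic, one good configuration), **`pvde_dom`** = the field `dom` VERBATIM, `pvde_dom_H` (any `H` which dominates `Dc · pvclSum` a.e.)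
* sec. 3  THE RING FORM = THE SEAM WITH 78 (`Tr/C2Dom`: no `PvwDat`, no route: faced `NB`, sector `NBsec`, `NBon M` all end in it): `pvde_tags_le` (tags of the plane map, raw I.TAIL), `PvdeRing` (a ring `g :: L₀` = a full label class),
          **`PvdeRings S b a B a₀ Dc η`** (contract: `w_le`, rings, common ends, `g.lst` determines the index), **`pvde_sum_le_rings`**, **`pvde_dom_rings`** = `dom` verbatim.      INJ = `pvde_inj` (= `pvc4_inj` of 78, copied here with `pvde_back`, `pvde_lst_eq`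
          so that this file does not import `Tr/C12`: it depends on `Tr/Defs` through `Tr/InstE` only).      `pvde_big_of_gate` : a ring through a gate has diameter `≥ (a₁ - 1) h` (so `a₀` depends on the level only).
* sec. 4  **`pvde_dom_sys`** = THE FIELD `dom` OF `PvxnOk` (170, `Exit/N1` sec. 6) VERBATIM from `PvdeRings` at the system of record `pvxnSys`.      The contract at `pvxnSys` = 104, `Tr/DomEB.lean` (`pvdf_`).
THE DATA FORM (names of `Tr/Defs`, via `pvwc_C2_rim` of 194): `Tr/DomED.lean`.      THIS FILE: 0 sorry, axioms clean.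
-/

set_option autoImplicit false
set_option linter.unusedVariables false

namespace Claimed.Agent.R289

open MeasureTheory Set Claims.C0465
open scoped ENNReal

/-! ## 1. the closing contract -/

section contract

variable {ι : Type}

/-- the datum `i` is PRESENT and closed off by `WO` in the configuration `η` -/
def PvdmSys.Pr (S : PvdmSys ι) (η : Conf PvPt) (i : ι) : Prop := η ∈ S.A i ∧ η ∈ S.WO i

/-- **`c` IS A CLOSED RIM OF THE PATCH WITH MASS `z`**: a rim (either colour) of the plane map of `η`, vertices in `B`, two vertices `a₀` apart, `z` = its mass for the field `y_a = qpart - a side` -/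
structure PvdeCl (a : ℂ) (B : Set ℂ) (a₀ : ℝ) (η : Conf PvPt) (c : (pvieT η).Cyc) (z : ℂ) : Prop where
  rim : ∃ b, c.IsRim (pvieCol η b)
  inB : ∀ k, pviePos η ((pvieT η).src (c.e k)) ∈ B
  big : ∃ k k', a₀ ≤ ‖pviePos η ((pvieT η).src (c.e k)) - pviePos η ((pvieT η).src (c.e k'))‖
  mass : z = ∑ k ∈ Finset.range c.n, pvieFld η a ((pvieT η).opp (c.e k))

/-- **THE CLOSING CONTRACT OF `dom` AT ONE CONFIGURATION**.
* `w_le`  the cycle weight is bounded on the present data (soft thresholds: `P(A | states) ≥ q` for the hybrid links sits in `A i`)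
* `cl`    (C2): when the chain succeeds (`w ≠ 0`) a present datum is closed to a rim of the patch of mass `X i + Y`;   `Cl i c` = "`c` is the ring of the datum `i`"
* INJ     two present data with the same ring are equal -/
structure PvdeRim (S : PvdmSys ι) (a : ℂ) (B : Set ℂ) (a₀ : ℝ) (Dc : ℝ≥0∞) (η : Conf PvPt) : Prop where
  w_le : ∀ i, S.Pr η i → S.w η ≤ Dc
  cl : S.w η ≠ 0 → ∃ Cl : ι → (pvieT η).Cyc → Prop, (∀ i, S.Pr η i → ∃ c, Cl i c) ∧
    (∀ i c, S.Pr η i → Cl i c → PvdeCl a B a₀ η c (S.X i η + S.Y η)) ∧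
    ∀ i j c c', S.Pr η i → S.Pr η j → Cl i c → Cl j c' → c'.e 0 ∈ c.darts → i = j

theorem pvde_eqns_cite : True := by
  have := @PvdmSys.Pr.eq_1
  trivial

end contract

/-! ## 2. the field `dom` -/

section dom

variable {ι : Type} {S : PvdmSys ι} {a : ℂ} {B : Set ℂ} {a₀ : ℝ} {Dc : ℝ≥0∞} {η : Conf PvPt}

/-- the sum of `dom` as a sum over the present data -/
theorem pvde_sum_eq (S : PvdmSys ι) (η : Conf PvPt) :
    ∑' i, (S.A i ∩ S.WO i).indicator (fun ω => S.w ω * ‖S.X i ω + S.Y ω‖ₑ ^ 2) η = S.w η * ∑' i : {i // S.Pr η i}, ‖S.X i.1 η + S.Y η‖ₑ ^ 2 := by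
  classical
  rw [← ENNReal.tsum_mul_left]
  have e : ∀ i, (S.A i ∩ S.WO i).indicator (fun ω => S.w ω * ‖S.X i ω + S.Y ω‖ₑ ^ 2) η
      = ({i | S.Pr η i} : Set ι).indicator (fun i => S.w η * ‖S.X i η + S.Y η‖ₑ ^ 2) i := by
    intro i
    by_cases hi : S.Pr η i
    · rw [indicator_of_mem (show η ∈ S.A i ∩ S.WO i from hi), indicator_of_mem (show i ∈ {i | S.Pr η i} from hi)]
    · rw [indicator_of_notMem (show η ∉ S.A i ∩ S.WO i from hi), indicator_of_notMem (show i ∉ {i | S.Pr η i} from hi)]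
  simp only [e]
  exact (tsum_subtype ({i | S.Pr η i} : Set ι) fun i => S.w η * ‖S.X i η + S.Y η‖ₑ ^ 2).symm

/-- **DETERMINISTIC HALF**: at a good configuration the closing contract bounds the sum of `dom` by `Dc · (closed sum)` -/
theorem pvde_sum_le (h : DelGood (cfSites η)) (hB : Bornology.IsBounded B) (hc : PvdeRim S a B a₀ Dc η) :
    ∑' i, (S.A i ∩ S.WO i).indicator (fun ω => S.w ω * ‖S.X i ω + S.Y ω‖ₑ ^ 2) η ≤ Dc * pvclSum η B a₀ := by
  classical
  rw [pvde_sum_eq]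
  by_cases hw : S.w η = 0
  · rw [hw, zero_mul]; exact zero_le
  by_cases hne : Nonempty {i // S.Pr η i}
  swap
  · have : IsEmpty {i // S.Pr η i} := not_nonempty_iff.1 hne
    rw [tsum_empty, mul_zero]; exact zero_le
  obtain ⟨i₀⟩ := hne
  obtain ⟨Cl, h1, h2, h3⟩ := hc.cl hw
  choose c hcl using fun i : {i // S.Pr η i} => h1 i.1 i.2
  have hC : ∀ i : {i // S.Pr η i}, PvdeCl a B a₀ η (c i) (S.X i.1 η + S.Y η) := fun i => h2 i.1 (c i) i.2 (hcl i)
  choose b hb using fun i => (hC i).rim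
  have key := pvin_tail_rimsP (η := η) h (delbPl (cfSites η)) (delb_pl_eq h) hB (a₀ := a₀) a c b hb (fun i k => (hC i).inB k) (fun i => (hC i).big)
    (fun i j hij hm => hij (Subtype.ext (h3 i.1 j.1 (c i) (c j) i.2 j.2 (hcl i) (hcl j) hm)))
  refine mul_le_mul' (hc.w_le i₀.1 i₀.2) (le_trans (le_of_eq ?_) key)
  refine tsum_congr fun i => ?_
  rw [(hC i).mass]
  congr 2
  refine Finset.sum_congr rfl fun k _ => ?_
  rw [Pi.one_apply, one_mul]
  rfl

/-- **THE FIELD `dom`** for any majorant which dominates `Dc · (closed sum)` almost surely -/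
theorem pvde_dom_H {ε : ℝ} (hε : 0 < ε) (hB : Bornology.IsBounded B) (hc : ∀ᵐ η ∂pvP ε, PvdeRim S a B a₀ Dc η) (hH : ∀ᵐ η ∂pvP ε, Dc * pvclSum η B a₀ ≤ S.H η) :
    ∀ᵐ ω ∂pvP ε, ∑' i, (S.A i ∩ S.WO i).indicator (fun ω => S.w ω * ‖S.X i ω + S.Y ω‖ₑ ^ 2) ω ≤ S.H ω := by
  filter_upwards [hc, hH, pvqf_good_ae ε hε.ne'] with η h1 h2 h3
  exact (pvde_sum_le h3.del hB h1).trans h2

/-- **THE FIELD `dom` OF `PvdmSys.Hyp`, VERBATIM**, for the majorant of record -/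
theorem pvde_dom {ε : ℝ} (hε : 0 < ε) (hBm : MeasurableSet B) (hB : Bornology.IsBounded B) (hH : S.H = pvxnH ε hBm a₀ Dc) (hc : ∀ᵐ η ∂pvP ε, PvdeRim S a B a₀ Dc η) :
    ∀ᵐ ω ∂pvP ε, ∑' i, (S.A i ∩ S.WO i).indicator (fun ω => S.w ω * ‖S.X i ω + S.Y ω‖ₑ ^ 2) ω ≤ S.H ω := by
  refine pvde_dom_H hε hB hc ?_
  filter_upwards [pvxn_H_ae ε hBm a₀ Dc] with η h
  rw [hH, h]

end dom

/-! ## 3. the ring form -/

section rings

theorem pvde_tag_fl {V D : Type} {T : PvMap V D} (b : Bool) (s : V → Bool) : T.Tag (pvlfFl b s) = T.Tag s := by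
  cases b
  · rw [pvlf_fl_false]; exact pvlf_tag_not s
  · rw [pvlf_fl_true]

theorem pvde_samelab_fl {V D : Type} {T : PvMap V D} (b : Bool) (s : V → Bool) : T.SameLab (pvlfFl b s) = T.SameLab s := by
  cases b
  · rw [pvlf_fl_false]; exact pvlf_samelab_not s
  · rw [pvlf_fl_true]

theorem pvde_lsum_fl {V D : Type} {T : PvMap V D} (b : Bool) (s : V → Bool) : T.lsum (pvlfFl b s) = T.lsum s := by
  funext w d
  unfold PvMap.lsum
  rw [pvde_samelab_fl]

section inj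

variable {V D : Type} {T : PvMap V D}

/-- backwards induction: the last `k` darts agree -/
theorem pvde_back {S : Set D} (hS : ∀ a ∈ S, ∀ b ∈ S, T.tgt a = T.tgt b → a = b) (g g' : T.Pth) (h : ∀ k, k < g.n → g.e k ∈ S) (h' : ∀ k, k < g'.n → g'.e k ∈ S)
    (h1 : g.v g.n = g'.v g'.n) : ∀ k, k ≤ g.n → k ≤ g'.n → g.v (g.n - k) = g'.v (g'.n - k) ∧ ∀ j, j < k → g.e (g.n - 1 - j) = g'.e (g'.n - 1 - j) := by
  intro k
  induction k with
  | zero => exact fun _ _ => ⟨h1, fun j hj => absurd hj (Nat.not_lt_zero _)⟩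
  | succ k ih =>
    intro hk hk'
    obtain ⟨e1, e2⟩ := ih (by omega) (by omega)
    have ha : g.n - 1 - k < g.n := by omega
    have hb : g'.n - 1 - k < g'.n := by omega
    have e : g.e (g.n - 1 - k) = g'.e (g'.n - 1 - k) := by
      refine hS _ (h _ ha) _ (h' _ hb) ?_
      rw [g.tgt_e _ ha, g'.tgt_e _ hb, show g.n - 1 - k + 1 = g.n - k by omega, show g'.n - 1 - k + 1 = g'.n - k by omega, e1]
    refine ⟨?_, fun j hj => ?_⟩
    · rw [show g.n - (k + 1) = g.n - 1 - k by omega, show g'.n - (k + 1) = g'.n - 1 - k by omega, ← g.src_e _ ha, ← g'.src_e _ hb, e]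
    · rcases Nat.lt_or_ge j k with hlt | hge
      · exact e2 j hlt
      · obtain rfl : j = k := by omega
        exact e

/-- **two simple paths with the same ends inside a set of darts with pairwise different heads have the same darts** -/
theorem pvde_lst_eq {S : Set D} (hS : ∀ a ∈ S, ∀ b ∈ S, T.tgt a = T.tgt b → a = b) (g g' : T.Pth) (h : ∀ k, k < g.n → g.e k ∈ S) (h' : ∀ k, k < g'.n → g'.e k ∈ S)
    (h0 : g.v 0 = g'.v 0) (h1 : g.v g.n = g'.v g'.n) : g.lst = g'.lst := by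
  have hn : g.n = g'.n := by
    rcases Nat.lt_trichotomy g.n g'.n with hlt | heq | hgt
    · exfalso
      have e := (pvde_back hS g g' h h' h1 g.n le_rfl hlt.le).1
      rw [Nat.sub_self, h0] at e
      have := g'.inj 0 (g'.n - g.n) (Nat.zero_le _) (Nat.sub_le _ _) e
      omega
    · exact heq
    · exfalso
      have e := (pvde_back hS g g' h h' h1 g'.n hgt.le le_rfl).1
      rw [Nat.sub_self, ← h0] at e
      have := g.inj (g.n - g'.n) 0 (Nat.sub_le _ _) (Nat.zero_le _) e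
      omega
  have he : ∀ k, k < g.n → g.e k = g'.e k := by
    intro k hk
    have e := (pvde_back hS g g' h h' h1 g.n le_rfl hn.le).2 (g.n - 1 - k) (by omega)
    rwa [← hn, show g.n - 1 - (g.n - 1 - k) = k by omega] at e
  unfold PvMap.Pth.lst
  rw [← hn]
  refine List.map_congr_left fun k hk => he k ?_
  have := List.mem_range'_1.1 hk
  omega

/-- **INJ (E3)**: `L = g :: L₀`, `L' = g' :: L₀'` are full label classes of one colouring, the heads of the darts of `L` are pairwise different, the two classes are the same, `g` and `g'` have the same ends.   Then `g`, `g'` have the same darts. -/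
theorem pvde_inj {σ : V → Bool} {g g' : T.Pth} {L₀ L₀' : List T.Pth} (hn : ((pvowDarts (g :: L₀)).map T.tgt).Nodup) (hg : 0 < g.n) (hg' : 0 < g'.n)
    (hc : ∀ d', T.SameLab σ (T.opp (g.e 0)) d' ↔ T.opp d' ∈ pvowDarts (g :: L₀)) (hc' : ∀ d', T.SameLab σ (T.opp (g'.e 0)) d' ↔ T.opp d' ∈ pvowDarts (g' :: L₀'))
    (hlab : T.SameLab σ (T.opp (g.e 0)) (T.opp (g'.e 0))) (h0 : g.v 0 = g'.v 0) (h1 : g.v g.n = g'.v g'.n) : g.lst = g'.lst := by
  have hS : ∀ a ∈ {f | f ∈ pvowDarts (g :: L₀)}, ∀ b ∈ {f | f ∈ pvowDarts (g :: L₀)}, T.tgt a = T.tgt b → a = b :=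
    fun a ha b hb e => List.inj_on_of_nodup_map hn ha hb e
  refine pvde_lst_eq hS g g' (fun k hk => pvow_mem_darts.2 ⟨g, List.mem_cons_self, k, hk, rfl⟩) (fun k hk => ?_) h0 h1
  have h2 : T.SameLab σ (T.opp (g'.e 0)) (T.opp (g'.e k)) := by
    rw [hc', T.opp_opp]
    exact pvow_mem_darts.2 ⟨g', List.mem_cons_self, k, hk, rfl⟩
  have h3 := (hc _).1 (T.sameLab_trans σ hlab h2)
  rwa [T.opp_opp] at h3

/-- a label class which is listed is finite -/
theorem pvde_class_finite {σ : V → Bool} {d : D} {l : List D} (hc : ∀ d', T.SameLab σ d d' ↔ T.opp d' ∈ l) : {d' | T.SameLab σ d d'}.Finite := by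
  refine (List.finite_toSet (l.map T.opp)).subset fun d' hd' => ?_
  exact List.mem_map.2 ⟨T.opp d', (hc d').1 hd', T.opp_opp d'⟩

end inj

/-- the field `big` for free: the inner arc of a gate runs from `g⁻` (at distance `≥ a₁ h` of the centre) to the marked vertex (within `h`): `a₀ = (a₁ - 1) h` depends on the level only -/
theorem pvde_big_of_gate {V D : Type} {T : PvMap V D} (𝔖 : PvwSt T) {pos : V → ℂ} {h : ℝ} {z : ℂ} {τ : PvwTy} {s : V → Bool} (hG : 𝔖.Gate pos h z τ s) (hh : 0 < h) (ha : 1 < τ.a) :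
    ∃ k k', k < 𝔖.inn.n ∧ k' < 𝔖.inn.n ∧ (τ.a - 1) * h ≤ ‖pos (T.src (𝔖.inn.e k)) - pos (T.src (𝔖.inn.e k'))‖ := by
  obtain ⟨n, h1, -, jj, a0, a1, a2, -⟩ := hG.strand
  have e0 : 𝔖.inn.v 0 = 𝔖.gm := a0
  have en : 𝔖.inn.v 𝔖.inn.n = 𝔖.gp := by
    rw [(a2 _ le_rfl).2.1, a1]
    show T.src (pvasIt T s 𝔖.dm n) = 𝔖.gp
    rw [h1]; rfl
  have hgm : 𝔖.gm ∈ 𝔖.S.verts := by
    obtain ⟨i, hi⟩ := hG.dm_on
    exact ⟨i, by rw [hi]; rfl⟩
  have hgp : 𝔖.gp ∈ 𝔖.S.verts := by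
    obtain ⟨i, hi⟩ := hG.dp_on
    refine ⟨i + 1, ?_⟩
    rw [← 𝔖.S.chain i, hi, T.tgt_opp]; rfl
  have hlt : h < τ.a * h := by nlinarith
  have hip : 𝔖.ip < 𝔖.inn.n := by
    refine lt_of_le_of_ne hG.ip_le fun e => ?_
    have := hG.ip_near
    rw [e, en] at this
    linarith [(hG.ann _ hgp).1]
  have hpos : 0 < 𝔖.inn.n := lt_of_le_of_lt (Nat.zero_le _) hip
  refine ⟨0, 𝔖.ip, hpos, hip, ?_⟩
  rw [𝔖.inn.src_e 0 hpos, 𝔖.inn.src_e _ hip, e0]
  have t1 := (hG.ann _ hgm).1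
  have t2 := hG.ip_near
  have t3 : ‖pos 𝔖.gm - z‖ ≤ ‖pos 𝔖.gm - pos (𝔖.inn.v 𝔖.ip)‖ + ‖pos (𝔖.inn.v 𝔖.ip) - z‖ := by
    have := norm_add_le (pos 𝔖.gm - pos (𝔖.inn.v 𝔖.ip)) (pos (𝔖.inn.v 𝔖.ip) - z)
    simpa using this
  linarith

/-- transport along `delb_pl_eq` -/
theorem pvde_tags_leP {η : Conf PvPt} (h : DelGood (cfSites η)) (P : PlTri ↥(cfSites η)) (hP : P = delPl h) {B : Set ℂ} (hB : Bornology.IsBounded B) {a₀ : ℝ} (a : ℂ) (b : Bool)
    {κ : Type} (d : κ → P.Dart) (hTag : ∀ i, P.toMap.Tag (pvlfFl b (cfCol η ∘ Subtype.val)) (d i))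
    (hfin : ∀ i, {d' | P.toMap.SameLab (pvlfFl b (cfCol η ∘ Subtype.val)) (d i) d'}.Finite)
    (hin : ∀ i d', P.toMap.SameLab (pvlfFl b (cfCol η ∘ Subtype.val)) (d i) d' → ((P.toMap.src d' : ↥(cfSites η)) : ℂ) ∈ B)
    (hbig : ∀ i, ∃ y y', P.toMap.SameLab (pvlfFl b (cfCol η ∘ Subtype.val)) (d i) y ∧ P.toMap.SameLab (pvlfFl b (cfCol η ∘ Subtype.val)) (d i) y' ∧
      a₀ ≤ ‖((P.toMap.src y : ↥(cfSites η)) : ℂ) - ((P.toMap.src y' : ↥(cfSites η)) : ℂ)‖)
    (hV : a = 0 ∨ ∀ i, P.toMap.lsum (pvlfFl b (cfCol η ∘ Subtype.val)) (P.toMap.side Subtype.val) (d i) = 0)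
    (hne : ∀ i j, i ≠ j → ¬ P.toMap.SameLab (pvlfFl b (cfCol η ∘ Subtype.val)) (d i) (d j)) :
    ∑' i, ‖P.toMap.lsum (pvlfFl b (cfCol η ∘ Subtype.val)) (fun f => P.toMap.qpart Subtype.val f - a * P.toMap.side Subtype.val f) (d i)‖ₑ ^ 2 ≤ pvclSum η B a₀ := by
  subst hP
  rw [pvde_tag_fl] at hTag
  rw [pvde_samelab_fl] at hfin hin hbig hne
  rw [pvde_lsum_fl] at hV ⊢
  have e : ∀ i, ‖(delPl h).toMap.lsum (cfCol η ∘ Subtype.val) (fun f => (delPl h).toMap.qpart Subtype.val f - a * (delPl h).toMap.side Subtype.val f) (d i)‖ₑ ^ 2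
      = ENNReal.ofReal (‖pvqSum (DelTri (cfSites η)) (cfCol η) (pvqWQ (cfSites η)) (pvqCode (d i))‖ ^ 2) := by
    intro i
    have e1 : (delPl h).toMap.lsum (cfCol η ∘ Subtype.val) (fun f => (delPl h).toMap.qpart Subtype.val f - a * (delPl h).toMap.side Subtype.val f) (d i)
        = (delPl h).toMap.lsum (cfCol η ∘ Subtype.val) ((delPl h).toMap.qpart Subtype.val) (d i) := by
      have e2 : (fun f => (delPl h).toMap.qpart Subtype.val f - a * (delPl h).toMap.side Subtype.val f)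
          = fun f => (delPl h).toMap.qpart Subtype.val f + (-a) * (delPl h).toMap.side Subtype.val f := by
        funext f; ring
      rw [e2, pvf_lsum_add (hfin i), pvf_lsum_smul]
      rcases hV with h0 | h0
      · rw [h0]; simp
      · rw [h0 i]; simp
    have e3 : (delPl h).toMap.lsum (cfCol η ∘ Subtype.val) ((delPl h).toMap.qpart Subtype.val) (d i)
        = pvqSum (DelTri (cfSites η)) (cfCol η) (pvqWQ (cfSites η)) (pvqCode (d i)) := by
      rw [pvq_del_sum]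
      congr 1
      funext d'
      exact (pvq_del_qpart h d').symm
    rw [e1, e3, pvbx_enorm_sq]
  simp only [e]
  refine pvcl_tsum_ge h hB (fun i => pvqCode (d i)) (fun i => (pvq_del_tag h _ _).2 (hTag i)) (fun i y hy => ?_) (fun i => ?_) (fun i j hij hs => ?_)
  · obtain ⟨d', rfl, hd'⟩ := (pvq_del_same h _ _ y).1 hy
    exact hin i d' hd'
  · obtain ⟨y, y', h1, h2, h3⟩ := hbig i
    exact ⟨pvqCode y, pvqCode y', (pvq_del_same' h _ _ _).2 h1, (pvq_del_same' h _ _ _).2 h2, h3⟩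
  · exact hne i j hij ((pvq_del_same' h _ _ _).1 hs)

variable {η : Conf PvPt} {B : Set ℂ} {a₀ : ℝ}

/-- **I.TAIL, DETERMINISTIC HALF, TAGS OF THE MODEL OF `Tr/InstE`**: pairwise different finite labels inside `B` of diameter `≥ a₀`, field `y_a` (`a = 0`, or labels with vanishing `V` sum) -/
theorem pvde_tags_le (h : DelGood (cfSites η)) (hB : Bornology.IsBounded B) (a : ℂ) (b : Bool) {κ : Type} (d : κ → (delbPl (pvieY η)).Dart)
    (hTag : ∀ i, (pvieT η).Tag (pvieCol η b) (d i)) (hfin : ∀ i, {d' | (pvieT η).SameLab (pvieCol η b) (d i) d'}.Finite)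
    (hin : ∀ i d', (pvieT η).SameLab (pvieCol η b) (d i) d' → pviePos η ((pvieT η).src d') ∈ B)
    (hbig : ∀ i, ∃ y y', (pvieT η).SameLab (pvieCol η b) (d i) y ∧ (pvieT η).SameLab (pvieCol η b) (d i) y' ∧ a₀ ≤ ‖pviePos η ((pvieT η).src y) - pviePos η ((pvieT η).src y')‖)
    (hV : a = 0 ∨ ∀ i, (pvieT η).lsum (pvieCol η b) ((pvieT η).side (pviePos η)) (d i) = 0)
    (hne : ∀ i j, i ≠ j → ¬ (pvieT η).SameLab (pvieCol η b) (d i) (d j)) :
    ∑' i, ‖(pvieT η).lsum (pvieCol η b) (pvieFld η a) (d i)‖ₑ ^ 2 ≤ pvclSum η B a₀ :=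
  pvde_tags_leP h (delbPl (cfSites η)) (delb_pl_eq h) hB a b d hTag hfin hin hbig hV hne

/-- **A RING**: `g :: L₀` lists a full label class of the colouring `pvieCol η b` (the exit of (C2), any route), inside `B`, of diameter `≥ a₀`, of mass `z` for the field `y_a` -/
structure PvdeRing (b : Bool) (a : ℂ) (B : Set ℂ) (a₀ : ℝ) (η : Conf PvPt) (g : (pvieT η).Pth) (L₀ : List (pvieT η).Pth) (z : ℂ) : Prop where
  pos_n : 0 < g.n
  nd : ((pvowDarts (g :: L₀)).map (pvieT η).tgt).Nodup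
  tag : (pvieT η).Tag (pvieCol η b) ((pvieT η).opp (g.e 0))
  cls : ∀ d', (pvieT η).SameLab (pvieCol η b) ((pvieT η).opp (g.e 0)) d' ↔ (pvieT η).opp d' ∈ pvowDarts (g :: L₀)
  sum : (pvieT η).lsum (pvieCol η b) (pvieFld η a) ((pvieT η).opp (g.e 0)) = z
  side0 : a = 0 ∨ (pvieT η).lsum (pvieCol η b) ((pvieT η).side (pviePos η)) ((pvieT η).opp (g.e 0)) = 0
  inB : ∀ f ∈ pvowDarts (g :: L₀), pviePos η ((pvieT η).tgt f) ∈ B
  big : ∃ f f', f ∈ pvowDarts (g :: L₀) ∧ f' ∈ pvowDarts (g :: L₀) ∧ a₀ ≤ ‖pviePos η ((pvieT η).tgt f) - pviePos η ((pvieT η).tgt f')‖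

variable {ι : Type}

/-- **THE CONTRACT OF `dom` IN THE RING FORM**, at one configuration.      `Rg i g L₀` = "`g :: L₀` is the ring of the datum number `i`".
* `w_le`  thresholds      * `ring`  (C2) + CHAIN, any route      * `ends`  the arcs `g₀` of the present data have common ends (gate rule: the states at `(z_s, τ_s)`, `(z_t, τ_t)` are functions of the colouring)
* `idx`   the index is read from the darts of `g₀` (78: records carry junk beyond their lengths) -/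
structure PvdeRings (S : PvdmSys ι) (b : Bool) (a : ℂ) (B : Set ℂ) (a₀ : ℝ) (Dc : ℝ≥0∞) (η : Conf PvPt) : Prop where
  w_le : ∀ i, S.Pr η i → S.w η ≤ Dc
  ring : S.w η ≠ 0 → ∃ Rg : ι → (pvieT η).Pth → List (pvieT η).Pth → Prop, (∀ i, S.Pr η i → ∃ g L₀, Rg i g L₀ ∧ PvdeRing b a B a₀ η g L₀ (S.X i η + S.Y η)) ∧
    ∀ i j g L₀ g' L₀', S.Pr η i → S.Pr η j → Rg i g L₀ → Rg j g' L₀' → g.v 0 = g'.v 0 ∧ g.v g.n = g'.v g'.n ∧ (g.lst = g'.lst → i = j)

variable {S : PvdmSys ι} {b : Bool} {a : ℂ} {Dc : ℝ≥0∞}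

/-- **DETERMINISTIC HALF, RING FORM** -/
theorem pvde_sum_le_rings (h : DelGood (cfSites η)) (hB : Bornology.IsBounded B) (hc : PvdeRings S b a B a₀ Dc η) :
    ∑' i, (S.A i ∩ S.WO i).indicator (fun ω => S.w ω * ‖S.X i ω + S.Y ω‖ₑ ^ 2) η ≤ Dc * pvclSum η B a₀ := by
  classical
  rw [pvde_sum_eq]
  by_cases hw : S.w η = 0
  · rw [hw, zero_mul]; exact zero_le
  by_cases hne : Nonempty {i // S.Pr η i}
  swap
  · have : IsEmpty {i // S.Pr η i} := not_nonempty_iff.1 hne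
    rw [tsum_empty, mul_zero]; exact zero_le
  obtain ⟨i₀⟩ := hne
  obtain ⟨Rg, h1, h2⟩ := hc.ring hw
  choose g L₀ hRg hR using fun i : {i // S.Pr η i} => h1 i.1 i.2
  have key := pvde_tags_le h hB a b (a₀ := a₀) (fun i : {i // S.Pr η i} => (pvieT η).opp ((g i).e 0)) (fun i => (hR i).tag) (fun i => pvde_class_finite (hR i).cls)
    (fun i d' hd' => by
      have := (hR i).inB _ (((hR i).cls d').1 hd')
      rwa [(pvieT η).tgt_opp] at this)
    (fun i => by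
      obtain ⟨f, f', hf, hf', hff⟩ := (hR i).big
      exact ⟨(pvieT η).opp f, (pvieT η).opp f', ((hR i).cls _).2 (by rwa [(pvieT η).opp_opp]), ((hR i).cls _).2 (by rwa [(pvieT η).opp_opp]),
        by rwa [(pvieT η).src_opp', (pvieT η).src_opp']⟩)
    (by
      by_cases ha : a = 0
      · exact Or.inl ha
      · exact Or.inr fun i => (hR i).side0.resolve_left ha)
    (fun i j hij hlab => by
      obtain ⟨k1, k2, k3⟩ := h2 i.1 j.1 _ _ _ _ i.2 j.2 (hRg i) (hRg j)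
      exact hij (Subtype.ext (k3 (pvde_inj (hR i).nd (hR i).pos_n (hR j).pos_n (hR i).cls (hR j).cls hlab k1 k2))))
  refine mul_le_mul' (hc.w_le i₀.1 i₀.2) (le_trans (le_of_eq ?_) key)
  exact tsum_congr fun i => by rw [(hR i).sum]

/-- **THE FIELD `dom` OF `PvdmSys.Hyp`, VERBATIM, FROM THE RING FORM** -/
theorem pvde_dom_rings {ε : ℝ} (hε : 0 < ε) (hBm : MeasurableSet B) (hB : Bornology.IsBounded B) (hH : S.H = pvxnH ε hBm a₀ Dc)
    (hc : ∀ᵐ η ∂pvP ε, PvdeRings S b a B a₀ Dc η) :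
    ∀ᵐ ω ∂pvP ε, ∑' i, (S.A i ∩ S.WO i).indicator (fun ω => S.w ω * ‖S.X i ω + S.Y ω‖ₑ ^ 2) ω ≤ S.H ω := by
  filter_upwards [hc, pvxn_H_ae ε hBm a₀ Dc, pvqf_good_ae ε hε.ne'] with η h1 h2 h3
  rw [hH, h2]
  exact pvde_sum_le_rings h3.del hB h1

end rings

/-! ## 4. the system of record -/

section record

open Filter Topology

variable {τ : Type} {c : ℝ} {𝔓 : PvxPar τ c} {m : ℕ} {π : PvxIx τ} {a : ℂ} {𝔜 : PvxnYd} {𝔎s : ℝ → PvxnKit}

/-- **THE FIELD `dom` OF `PvxnOk` (170, `Exit/N1` sec. 6), VERBATIM**, from the ring contract at the system of record `pvxnSys` (colour `b = true`: the system is typed for black rims), `B = (𝔎s ε).B` bounded, `a₀ = h_m`, `Dc = 𝔜.D` -/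
theorem pvde_dom_sys (hB : ∀ᶠ ε in 𝓝[>] (0 : ℝ), Bornology.IsBounded (𝔎s ε).B)
    (hc : ∀ᶠ ε in 𝓝[>] (0 : ℝ), ∀ᵐ η ∂pvP ε, PvdeRings (pvxnSys 𝔓 m π a (𝔎s ε) 𝔜 ε) true a (𝔎s ε).B (pvlmH m) 𝔜.D η) :
    ∀ᶠ ε in 𝓝[>] (0 : ℝ), ∀ᵐ ω ∂pvP ε, ∑' i, ((pvxnSys 𝔓 m π a (𝔎s ε) 𝔜 ε).A i ∩ (pvxnSys 𝔓 m π a (𝔎s ε) 𝔜 ε).WO i).indicator (fun ω => 𝔜.w ε ω * ‖i.X + 𝔜.Y ε ω‖ₑ ^ 2) ω
      ≤ 𝔜.D * pvclSum ω (𝔎s ε).B (pvlmH m) := by
  filter_upwards [hB, hc, self_mem_nhdsWithin] with ε h1 h2 hε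
  have hε' : (0 : ℝ) < ε := hε
  filter_upwards [h2, pvqf_good_ae ε hε'.ne'] with η k1 k2
  exact pvde_sum_le_rings k2.del h1 k1

end record

end Claimed.Agent.R289
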