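import Claimed.Agent.R289.Tr.LaneQ
import Claimed.Agent.R289.Tr.Prep
import Claimed.Agent.R289.Tr.RetNat
import Claimed.Agent.R289.Del.Tile
import Claimed.Agent.R289.Exit.Qbx

/-!
# Row 289 (S0537, Cardy for Poisson-Voronoi), THE WALL, ROAD P, item M12 of `MENU_205.md` = cost of the flag F3 of `ROADP_273.md` (P11, P14), file Tr/LaneW : THE WALK EVENT `A_κ` OF THE PREPARATION AND ITS QUENCHED PROBABILITY      (helper277, post of helper82; prefix `pvmw_`, defs `pvmw*`, `Pvmw*`)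

STATUS: 0 sorry.      "`P^η(A_κ) ≥ p_*` on QBX-good geometry": `A_κ` = white walk through the strip `M` from door to door; `K_κ` = the preparation operator `pvpOp S b 𝒜` of helper263 (`Tr/Prep`), whose normalisation is `pvpQ S b 𝒜 ξ` =
probability of `𝒜` when the colours of the sites of the strip `S` are resampled and everything else is kept.

* §0 **`pvmwEv ρ E c S A B`** `= {η | PvtmCross (pvtrSet ρ E η) c S A B}` : a path of RETAINED Delaunay edges (helper220: `Tr/Ret`, `Tr/RetMeas`; window `E`, radius `ρ`), all sites of colour `c` and in the strip `S`, from a site of the door `A` to a site of the door `B`.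
* §1 what the preparation asks from `𝒜`:  `pvmw_meas` (`MeasurableSet (pvConf ⁻¹' 𝒜)`), `pvmw_reads` (`Conf.ReadsSet (E ×ˢ univ) 𝒜`), **`pvmw_inc`** (`PvpInc S c 𝒜`), `pvmw_mono` (only the sites and the set of sites of `S` of colour `c` matter; increasing), `pvmw_dep` (`PvDep (pvpIdx S g)`), `pvmw_ev_mono`.
* §2 **`pvmw_Q_ge`** (general): `𝒜` looks only at the colours of the strip, `ℰ ⊆ 𝒜` at the geometry `g`  ⟹  `pvQc ℰ g ≤ pvpQ S b 𝒜 (conf (g, x))` for EVERY colouring `x`.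
* §3 deterministic: `pvmw_vertex`, `pvmw_edge`, `pvmw_path_of_chain`, **`pvmw_of_joined`** : a path in the region of colour `c` (`pvlnReg c η ∩ U`), mesh of 220 on `E`, `W ⊇ U^{+r}` in the `3ρ`-core of `E`  ⟹  retained walk in `W`.
* §4 `pvmwE δ L` (squares of half side `2δ` round the cells of the lane; closed, bounded), `pvmw_W_core`, `pvmw_mesh`, **`pvmw_of_lane`** : lane event `pvlnLaneEv δ c L` of helper229 ⟹ walk in `pvlnW δ L` between the windows of ANY two cells of the lane.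
* §5 **`PvmwGood p δ c L g`** (good labelled geometry),  **`PvmwGood.Q_ge`** : `p ≤ pvpQ S c (pvmwEv ρ E c S A B) (conf (g, x))` for all `x`, all `S ⊇ pvlnW δ L` bounded, `E ⊇ pvmwE δ L`, `ρ ≥ δ/4`, `A ⊇ pvlnW δ [k]`, `B ⊇ pvlnW δ [k']`, `k k' ∈ L`;
     **`pvmw_good_prob`** : `pvGeo ε {g | ¬ PvmwGood (q^(15n)/2) δ c L g} ≤ θ` for lanes of `≤ n` cells of side `δ ≥ U(n, θ) ε` (on `pvlq_lane` of helper21).
* §6 EXITS without hypothesis (QBX is closed: `Exit/Qbx`): **`pvmw_exit`**, the flag `pvmwF3 p ρ E c S A B = {ξ | pvpQ .. ξ < p}`: `pvmw_F3_reads`, `pvmw_F3_ms`, **`pvmw_F3_law`** (`pvLaw ε (pvConf ⁻¹' F3) ≤ θ`), **`pvmw_F3_tendsto`** (fixed lane, `ε ↓ 0`), `pvmw_walk_del` (the walk is a path of the Delaunay triangulation of the FULL configuration).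

USE (road P).   `δ` := side of the refined squares (`dl h / 5`), `L` := the refined corridor in `M` (chain of squares sharing sides, `n_M` squares), placed so that `pvlnW δ L ⊆ S := z + h U(M)` (collar `δ/8`), first / last cell with its collar inside the doors;   `p_* := q^(15 n_M)/2`.
The cells `pvlnC δ k` are those of the grid `δ ℤ²` (so `z ∈ h ℤ²` is a grid point as soon as `h/δ ∈ ℕ`).
-/

set_option autoImplicit false
set_option linter.unusedSectionVars false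
set_option linter.unusedVariables false

namespace Claimed.Agent.R289

open MeasureTheory ProbabilityTheory Set Filter Topology Metric Claims.C0465
open scoped ENNReal NNReal

/-! ## 0. the event -/

/-- **THE WALK EVENT** `A_κ`: a path of RETAINED Delaunay edges (window `E`, radius `ρ`), all its sites of colour `c` and in the strip `S`, from a site of the door `A` to a site of the door `B` -/
def pvmwEv (ρ : ℝ) (E : Set ℂ) (c : Bool) (S A B : Set ℂ) : Set (Conf PvPt) := {η | PvtmCross (pvtrSet ρ E η) c S A B}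

theorem pvmw_eqns_cite : True := by
  have := @pvmwEv.eq_1
  trivial

variable {ρ ρ' : ℝ} {E E' S S' A A' B B' : Set ℂ} {c : Bool}

/-! ## 1. measurability, locality, monotonicity -/

theorem pvmw_meas (hE : MeasurableSet (pvtmIn E)) (ρ : ℝ) (c : Bool) (hS : MeasurableSet S) (hA : MeasurableSet A) (hB : MeasurableSet B) :
    MeasurableSet (pvConf ⁻¹' pvmwEv ρ E c S A B) :=
  pvtm_meas_cross (pvtm_ms_set hE ρ) c hS hA hB

theorem pvmw_reads (ρ : ℝ) (E : Set ℂ) (c : Bool) (S A B : Set ℂ) : Conf.ReadsSet (E ×ˢ (univ : Set Bool)) (pvmwEv ρ E c S A B) :=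
  fun η => iff_of_eq (pvtm_reads_cross ρ E c S A B η)

theorem pvmw_chain_imp {α : Type*} {R R' : α → α → Prop} : ∀ l : List α, (∀ a ∈ l, ∀ b ∈ l, R a b → R' a b) → l.IsChain R → l.IsChain R'
  | [], _, _ => List.IsChain.nil
  | [a], _, _ => List.IsChain.singleton a
  | a :: b :: t, h, hc => by
    rw [List.isChain_cons_cons] at hc ⊢
    exact ⟨h a (by simp) b (by simp) hc.1, pvmw_chain_imp (b :: t) (fun x hx y hy => h x (List.mem_cons_of_mem _ hx) y (List.mem_cons_of_mem _ hy)) hc.2⟩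

/-- the crossing is monotone in the set of triangles, in the strip and in the doors -/
theorem pvmw_cross_mono {Z Z' : Set (PvPt × PvPt × PvPt)} (hZ : Z ⊆ Z') (hS : S ⊆ S') (hA : A ⊆ A') (hB : B ⊆ B') (h : PvtmCross Z c S A B) : PvtmCross Z' c S' A' B' := by
  obtain ⟨l, ⟨h1, h2⟩, ⟨a, ha, haA⟩, b, hb, hbB⟩ := h
  refine ⟨l, ⟨h1.imp ?_, fun p hp => ?_⟩, ⟨a, ha, hA haA⟩, b, hb, hB hbB⟩
  · rintro p q ⟨r, hr | hr⟩
    · exact ⟨r, Or.inl (hZ hr)⟩
    · exact ⟨r, Or.inr (hZ hr)⟩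
  · obtain ⟨⟨q, r, hqr⟩, h3, h4⟩ := h2 p hp
    exact ⟨⟨q, r, hqr.imp (fun h => hZ h) (Or.imp (fun h => hZ h) fun h => hZ h)⟩, h3, hS h4⟩

theorem pvmw_ev_mono (hρ : ρ ≤ ρ') (hE : E ⊆ E') (hS : S ⊆ S') (hA : A ⊆ A') (hB : B ⊆ B') : pvmwEv ρ E c S A B ⊆ pvmwEv ρ' E' c S' A' B' :=
  fun η h => pvmw_cross_mono (pvtr_set_mono hE hρ η) hS hA hB h

/-- **the event looks only at the sites and at the set of the sites of the strip which have the colour `c`, and increases with this set** -/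
theorem pvmw_mono {η η' : Conf PvPt} (hs : cfSites η = cfSites η') (hc : ∀ z ∈ S, (z, c) ∈ η.pts → (z, c) ∈ η'.pts) (h : η ∈ pvmwEv ρ E c S A B) :
    η' ∈ pvmwEv ρ E c S A B := by
  obtain ⟨l, ⟨h1, h2⟩, hA, hB⟩ := h
  -- a point of `η` has a twin in `η'`
  have tw : ∀ r ∈ η.pts, ∃ r' ∈ η'.pts, r'.1 = r.1 := by
    intro r hr
    have : r.1 ∈ cfSites η' := hs ▸ ⟨r, hr, rfl⟩
    obtain ⟨r', hr', e⟩ := this
    exact ⟨r', hr', e⟩
  have hV : ∀ p, p ∈ pvtmV (pvtrSet ρ E η) → p ∈ η.pts := by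
    rintro p ⟨q, r, h | h | h⟩
    · exact h.1
    · exact h.2.1
    · exact h.2.2.1
  have keep : ∀ p ∈ l, p ∈ η'.pts := by
    intro p hp
    obtain ⟨h3, h4, h5⟩ := h2 p hp
    have e : p = (p.1, c) := Prod.ext rfl h4
    have := hV p h3
    rw [e] at this ⊢
    exact hc p.1 h5 this
  refine ⟨l, ⟨pvmw_chain_imp l ?_ h1, fun p hp => ⟨?_, (h2 p hp).2⟩⟩, hA, hB⟩
  · rintro p hp q hq ⟨r, hr | hr⟩
    · obtain ⟨r', hr', e⟩ := tw r hr.2.2.1
      exact ⟨r', Or.inl ⟨keep p hp, keep q hq, hr', by rw [← hs]; show PvRet ρ E (cfSites η) p.1 q.1 r'.1; rw [e]; exact hr.2.2.2⟩⟩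
    · obtain ⟨r', hr', e⟩ := tw r hr.2.2.1
      exact ⟨r', Or.inr ⟨keep q hq, keep p hp, hr', by rw [← hs]; show PvRet ρ E (cfSites η) q.1 p.1 r'.1; rw [e]; exact hr.2.2.2⟩⟩
  · obtain ⟨q, r, h | h | h⟩ := (h2 p hp).1
    · obtain ⟨q', hq', eq⟩ := tw q h.2.1
      obtain ⟨r', hr', er⟩ := tw r h.2.2.1
      exact ⟨q', r', Or.inl ⟨keep p hp, hq', hr', by rw [← hs]; show PvRet ρ E (cfSites η) p.1 q'.1 r'.1; rw [eq, er]; exact h.2.2.2⟩⟩
    · obtain ⟨q', hq', eq⟩ := tw q h.1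
      obtain ⟨r', hr', er⟩ := tw r h.2.2.1
      exact ⟨q', r', Or.inr (Or.inl ⟨hq', keep p hp, hr', by rw [← hs]; show PvRet ρ E (cfSites η) q'.1 p.1 r'.1; rw [eq, er]; exact h.2.2.2⟩)⟩
    · obtain ⟨q', hq', eq⟩ := tw q h.1
      obtain ⟨r', hr', er⟩ := tw r h.2.1
      exact ⟨q', r', Or.inr (Or.inr ⟨hq', hr', keep p hp, by rw [← hs]; show PvRet ρ E (cfSites η) q'.1 r'.1 p.1; rw [eq, er]; exact h.2.2.2⟩)⟩

/-- the hypothesis `PvpInc` of the preparation (263, `Tr/Prep`) -/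
theorem pvmw_inc (ρ : ℝ) (E : Set ℂ) (c : Bool) (S A B : Set ℂ) : PvpInc S c (pvmwEv ρ E c S A B) := by
  intro ξ C C' hCC h
  refine pvmw_mono (by rw [cfPaint_sites, cfPaint_sites]) ?_ h
  intro z hz hzc
  rcases pvp_mem_paint.1 hzc with h1 | ⟨h1, h2, h3⟩
  · exact absurd hz h1.2
  · refine pvp_mem_paint.2 (Or.inr ⟨h1, h2, ?_⟩)
    have hzC : z ∈ C := by
      by_contra hn
      simp only [hn, if_false] at h3
      cases c <;> simp at h3
    show c = if z ∈ C' then c else !c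
    rw [if_pos (hCC hzC)]

/-- at a fixed geometry the event looks only at the colours of the indices of the strip -/
theorem pvmw_dep {g : PvGeoT} (hg : PvgOk g) (hSb : Bornology.IsBounded S) (ρ : ℝ) (E : Set ℂ) (c : Bool) (A B : Set ℂ) :
    PvDep (pvpIdx S g) {x | pvConf (pvMerge (g, x)) ∈ pvmwEv ρ E c S A B} := by
  intro x x' hx h
  refine pvmw_mono (by rw [pvqu_cfSites, pvqu_cfSites]) ?_ h
  intro z hz hzc
  obtain ⟨i, hi, e⟩ := pvqu_mem_conf.1 hzc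
  have e1 : z = pvgSite g i := congrArg Prod.fst e
  have e2 : c = x i := congrArg Prod.snd e
  refine pvqu_mem_conf.2 ⟨i, hi, ?_⟩
  rw [← hx i (Finset.mem_coe.2 ((pvp_mem_idx hg hSb).2 ⟨hi, e1 ▸ hz⟩)), ← e1, ← e2]

/-! ## 2. the quenched probability of the preparation is the quenched probability -/

/-- **KEY**: `𝒜` looks only at the colours of the strip, `ℰ ⊆ 𝒜` at the geometry `g`: the probability `pvpQ` of `𝒜` under the resampling of the colours of the strip (at ANY colouring `x`) is at least the quenched probability of `ℰ` -/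
theorem pvmw_Q_ge {g : PvGeoT} (hg : PvgOk g) (hSb : Bornology.IsBounded S) (b : Bool) {𝒜 ℰ : Set (Conf PvPt)}
    (hℰ : MeasurableSet {x | pvConf (pvMerge (g, x)) ∈ ℰ}) (hsub : ∀ x, pvConf (pvMerge (g, x)) ∈ ℰ → pvConf (pvMerge (g, x)) ∈ 𝒜)
    (hdep : PvDep (pvpIdx S g) {x | pvConf (pvMerge (g, x)) ∈ 𝒜}) (x : PvColT) :
    pvQc ℰ g ≤ ENNReal.ofReal (pvpQ S b 𝒜 (pvConf (pvMerge (g, x)))) := by
  classical
  set I := pvpIdx S g with hI
  have hQ := pvp_Q_eq (S := S) (ω := pvMerge (g, x)) (hg.ok x) hSb b 𝒜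
  have e0 : pvGeoOf (pvMerge (g, x)) = g := rfl
  rw [e0, ← hI] at hQ
  set N : ℕ := pvpCnt I (fun C' => pvConf (pvpRe I b C' (pvMerge (g, x))) ∈ 𝒜) with hN
  have h1 : pvQc ℰ g = ∫⁻ y, {y | pvConf (pvMerge (g, y)) ∈ ℰ}.indicator 1 y ∂pvCol := by
    rw [lintegral_indicator_one hℰ]; rfl
  rw [h1, pvp_resample I b (measurable_one.indicator hℰ), hQ]
  have h2 : ∀ y : PvColT, (2⁻¹ : ℝ≥0∞) ^ I.card * ∑ C ∈ I.powerset, {y | pvConf (pvMerge (g, y)) ∈ ℰ}.indicator (1 : PvColT → ℝ≥0∞) (pvpPaintI I b C y)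
      ≤ (2⁻¹ : ℝ≥0∞) ^ I.card * N := by
    intro y
    refine mul_le_mul' le_rfl ?_
    have h3 : (N : ℝ≥0∞) = ∑ C ∈ I.powerset, if pvConf (pvpRe I b C (pvMerge (g, x))) ∈ 𝒜 then (1 : ℝ≥0∞) else 0 := by
      rw [hN, pvpCnt, Finset.card_filter]
      push_cast
      rfl
    rw [h3]
    refine Finset.sum_le_sum fun C _ => ?_
    by_cases hy : pvConf (pvMerge (g, pvpPaintI I b C y)) ∈ ℰ
    · have h4 : pvConf (pvMerge (g, pvpPaintI I b C x)) ∈ 𝒜 := by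
        refine hdep (pvpPaintI I b C y) (pvpPaintI I b C x) ?_ (hsub _ hy)
        intro i hi
        have hi' : i ∈ I := Finset.mem_coe.1 hi
        simp only [pvpPaintI, hi', if_true]
      have h5 : pvConf (pvpRe I b C (pvMerge (g, x))) ∈ 𝒜 := h4
      rw [if_pos h5]
      exact Set.indicator_le_self' (fun _ _ => zero_le) _
    · rw [Set.indicator_of_notMem (show pvpPaintI I b C y ∉ {y | pvConf (pvMerge (g, y)) ∈ ℰ} from hy)]
      exact zero_le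
  calc ∫⁻ y, (2⁻¹ : ℝ≥0∞) ^ I.card * ∑ C ∈ I.powerset, {y | pvConf (pvMerge (g, y)) ∈ ℰ}.indicator (1 : PvColT → ℝ≥0∞) (pvpPaintI I b C y) ∂pvCol
      ≤ ∫⁻ _y, (2⁻¹ : ℝ≥0∞) ^ I.card * N ∂pvCol := lintegral_mono h2
    _ = (2⁻¹ : ℝ≥0∞) ^ I.card * N := by rw [lintegral_const, measure_univ, mul_one]
    _ = ENNReal.ofReal ((N : ℝ) / 2 ^ I.card) := by
        rw [div_eq_mul_inv, ENNReal.ofReal_mul (by positivity), ENNReal.ofReal_natCast, ENNReal.ofReal_inv_of_pos (by positivity),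
          ENNReal.ofReal_pow (by norm_num), ENNReal.ofReal_ofNat, ENNReal.inv_pow, mul_comm]

/-! ## 3. deterministic: a path in the region of the colour `c` gives a retained walk -/

/-- the sites of the colour `c` -/
def pvmwCl (c : Bool) (η : Conf PvPt) : Set ℂ := {v | (v, c) ∈ η.pts}

theorem pvmw_eqns_cite2 : True := by
  have := @pvmwCl.eq_1
  trivial

theorem pvmw_cl_sub (c : Bool) (η : Conf PvPt) : pvmwCl c η ⊆ cfSites η := fun v hv => ⟨(v, c), hv, rfl⟩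

theorem pvmw_reg_eq {η : Conf PvPt} (h : PvLF η) (c : Bool) : pvlnReg c η = vorUn (cfSites η) (pvmwCl c η) := by
  cases c
  · exact pvr_W_eq_un h
  · exact pvr_B_eq_un h

section det

variable {η : Conf PvPt} {W U : Set ℂ}

/-- on the mesh event every site of the `3ρ`-core is a vertex of a retained triangle -/
theorem pvmw_vertex (hG : DelGood (cfSites η)) (hρ : 0 < ρ) (hm : PvtrMesh ρ E (cfSites η)) {p : PvPt} (hp : p ∈ η.pts) (hc : p.1 ∈ pvtrCore (3 * ρ) E) :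
    p ∈ pvtmV (pvtrSet ρ E η) := by
  obtain ⟨b, hb⟩ := del_exists_adj hG.lf (a := p.1) ⟨p, hp, rfl⟩ (hG.bdd p.1)
  have ht := delp_apex_spec hG hb
  obtain ⟨q, hq, eq⟩ := ht.2.1
  obtain ⟨r, hr, er⟩ := ht.2.2.1
  exact ⟨q, r, Or.inl (pvtr_mem_set hρ hm hp hq hr (by rw [eq, er]; exact ht) hc)⟩

/-- on the mesh event two sites whose cells touch, the first one in the `3ρ`-core, are joined by a retained edge -/
theorem pvmw_edge (hG : DelGood (cfSites η)) (hρ : 0 < ρ) (hm : PvtrMesh ρ E (cfSites η)) {p q : PvPt} (hp : p ∈ η.pts) (hq : q ∈ η.pts) (hc : p.1 ∈ pvtrCore (3 * ρ) E)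
    (hne : p.1 ≠ q.1) (ht : (vorCell (cfSites η) p.1 ∩ vorCell (cfSites η) q.1).Nonempty) : PvtmAdj (pvtrSet ρ E η) p q := by
  have hab : DelAdj (cfSites η) p.1 q.1 := ⟨⟨p, hp, rfl⟩, ⟨q, hq, rfl⟩, hne, ht⟩
  have h3 := delp_apex_spec hG hab
  obtain ⟨r, hr, er⟩ := h3.2.2.1
  exact ⟨r, Or.inl (pvtr_mem_set hρ hm hp hq hr (by rw [er]; exact h3) hc)⟩

/-- a chain of sites of colour `c` of `W` with touching cells is a retained path -/
theorem pvmw_path_of_chain (hG : DelGood (cfSites η)) (hρ : 0 < ρ) (hm : PvtrMesh ρ E (cfSites η)) (hW : W ⊆ pvtrCore (3 * ρ) E) {a b : ℂ}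
    (hb : b ∈ pvmwCl c η ∧ b ∈ W)
    (h : Relation.ReflTransGen (fun v w => (v ∈ pvmwCl c η ∧ v ∈ W) ∧ (vorCell (cfSites η) v ∩ vorCell (cfSites η) w).Nonempty) a b) :
    ∃ t : List PvPt, PvtmPath (pvtrSet ρ E η) c W ((a, c) :: t) ∧ ((a, c) :: t).getLast? = some (b, c) := by
  induction h using Relation.ReflTransGen.head_induction_on with
  | refl =>
    refine ⟨[], ⟨List.IsChain.singleton _, ?_⟩, rfl⟩
    intro p hp
    rw [List.mem_singleton] at hp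
    subst hp
    exact ⟨pvmw_vertex hG hρ hm hb.1 (hW hb.2), rfl, hb.2⟩
  | @head v w hvw _ ih =>
    obtain ⟨t, ⟨h1, h2⟩, h3⟩ := ih
    by_cases e : v = w
    · subst e
      exact ⟨t, ⟨h1, h2⟩, h3⟩
    · refine ⟨(w, c) :: t, ⟨?_, ?_⟩, ?_⟩
      · rw [List.isChain_cons_cons]
        have hw := h2 (w, c) (by simp)
        have hwp : (w, c) ∈ η.pts := by
          rcases hw.1 with ⟨q, r, h | h | h⟩
          · exact h.1
          · exact h.2.1
          · exact h.2.2.1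
        exact ⟨pvmw_edge hG hρ hm hvw.1.1 hwp (hW hvw.1.2) e hvw.2, h1⟩
      · intro p hp
        rcases List.mem_cons.1 hp with rfl | hp
        · exact ⟨pvmw_vertex hG hρ hm hvw.1.1 (hW hvw.1.2), rfl, hvw.1.2⟩
        · exact h2 p hp
      · rw [List.getLast?_cons_cons]
        exact h3

/-- **from a path in the region of the colour `c` to a retained walk** -/
theorem pvmw_of_joined (hLF : PvLF η) (hG : DelGood (cfSites η)) (hρ : 0 < ρ) (hm : PvtrMesh ρ E (cfSites η)) (hW : W ⊆ pvtrCore (3 * ρ) E) {r : ℝ}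
    (hnet : ∀ z ∈ U, ∃ s ∈ cfSites η, ‖s - z‖ < r) (hUW : ∀ z ∈ U, ∀ w : ℂ, ‖w - z‖ < r → w ∈ W) {x y : ℂ} (h : JoinedIn (pvlnReg c η ∩ U) x y)
    (hA : ∀ w : ℂ, ‖w - x‖ < r → w ∈ A) (hB : ∀ w : ℂ, ‖w - y‖ < r → w ∈ B) : η ∈ pvmwEv ρ E c W A B := by
  have lf : VorLF (cfSites η) := pvr_lf hLF
  obtain ⟨γ, hγ⟩ := h
  have hsub : range γ ⊆ vorUn (cfSites η) (pvmwCl c η) ∩ U := by
    rintro _ ⟨t, rfl⟩
    rw [← pvmw_reg_eq hLF]
    exact hγ t
  obtain ⟨a, ha, b, hb, hxa, hyb, hch⟩ := vorch_chain_of_preconnected lf (pvmw_cl_sub c η) (isPreconnected_range γ.continuous) hsub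
    (x := x) (y := y) ⟨0, γ.source⟩ ⟨1, γ.target⟩
  have hclose : ∀ v z : ℂ, z ∈ vorCell (cfSites η) v → z ∈ U → ‖v - z‖ < r := by
    intro v z hzv hzU
    obtain ⟨s, hs, hsz⟩ := hnet z hzU
    calc ‖v - z‖ = ‖z - v‖ := norm_sub_rev _ _
      _ ≤ ‖z - s‖ := hzv s hs
      _ = ‖s - z‖ := norm_sub_rev _ _
      _ < r := hsz
  have hch' : Relation.ReflTransGen (fun v w => (v ∈ pvmwCl c η ∧ v ∈ W) ∧ (vorCell (cfSites η) v ∩ vorCell (cfSites η) w).Nonempty) a b := by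
    refine Relation.ReflTransGen.mono ?_ _ _ hch
    rintro v w ⟨hv, -, z, ⟨hzv, hzw⟩, hzU⟩
    exact ⟨⟨hv, hUW z hzU v (hclose v z hzv hzU)⟩, z, hzv, hzw⟩
  obtain ⟨t, h1, h2⟩ := pvmw_path_of_chain hG hρ hm hW ⟨hb, hUW y hyb.2 b (hclose b y hyb.1 hyb.2)⟩ hch'
  exact ⟨(a, c) :: t, h1, ⟨(a, c), rfl, hA a (hclose a x hxa.1 hxa.2)⟩, (b, c), h2, hB b (hclose b y hyb.1 hyb.2)⟩

end det

/-! ## 4. the lane event gives the walk -/

/-- the window of the retained triangles of a lane: the squares of half side `2δ` round the centres of the cells -/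
def pvmwE (δ : ℝ) (L : List (ℤ × ℤ)) : Set ℂ := ⋃ k ∈ {k | k ∈ L}, pvmSq (pvlnCtr δ k) (2 * δ)

theorem pvmw_eqns_cite3 : True := by
  have := @pvmwE.eq_1
  trivial

section lane

variable {δ : ℝ} {L : List (ℤ × ℤ)} {η : Conf PvPt}

theorem pvmw_sq_closed (w : ℂ) (r : ℝ) : IsClosed (pvmSq w r) := by
  have : pvmSq w r = {z : ℂ | |z.re - w.re| ≤ r} ∩ {z : ℂ | |z.im - w.im| ≤ r} := rfl
  rw [this]
  exact (isClosed_le ((Complex.continuous_re.sub continuous_const).abs) continuous_const).inter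
    (isClosed_le ((Complex.continuous_im.sub continuous_const).abs) continuous_const)

theorem pvmw_E_closed (δ : ℝ) (L : List (ℤ × ℤ)) : IsClosed (pvmwE δ L) :=
  (List.finite_toSet L).isClosed_biUnion fun k _ => pvmw_sq_closed _ _

theorem pvmw_E_meas_in (δ : ℝ) (L : List (ℤ × ℤ)) : MeasurableSet (pvtmIn (pvmwE δ L)) := pvtm_meas_in_closed (pvmw_E_closed δ L)

theorem pvmw_E_bdd (δ : ℝ) (L : List (ℤ × ℤ)) : Bornology.IsBounded (pvmwE δ L) := by
  unfold pvmwE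
  refine (Bornology.isBounded_biUnion (List.finite_toSet L)).2 fun k _ => ?_
  refine (Metric.isBounded_closedBall (x := pvlnCtr δ k) (r := 2 * (2 * δ))).subset fun z hz => ?_
  rw [mem_closedBall, Complex.dist_eq]
  have h1 := Complex.norm_le_abs_re_add_abs_im (z - pvlnCtr δ k)
  have h2 : |(z - pvlnCtr δ k).re| ≤ 2 * δ := hz.1
  have h3 : |(z - pvlnCtr δ k).im| ≤ 2 * δ := hz.2
  linarith

/-- the window of the lane lies in the `3δ/4`-core of the window of the triangles -/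
theorem pvmw_W_core (hδ : 0 < δ) (L : List (ℤ × ℤ)) : pvlnW δ L ⊆ pvtrCore (3 * (δ / 4)) (pvmwE δ L) := by
  intro w hw z hz
  obtain ⟨k, hk, hwk⟩ := mem_iUnion₂.1 hw
  rw [mem_closedBall, dist_eq_norm] at hz
  refine mem_biUnion (show k ∈ {k | k ∈ L} from hk) ⟨?_, ?_⟩
  · have h1 := (Complex.abs_re_le_norm (z - w)).trans hz
    have e1 : z.re - (pvlnCtr δ k).re = (z - w).re + (w.re - (pvlnCtr δ k).re) := by simp
    rw [e1]
    have := abs_add_le (z - w).re (w.re - (pvlnCtr δ k).re)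
    have := hwk.1
    linarith
  · have h1 := (Complex.abs_im_le_norm (z - w)).trans hz
    have e1 : z.im - (pvlnCtr δ k).im = (z - w).im + (w.im - (pvlnCtr δ k).im) := by simp
    rw [e1]
    have := abs_add_le (z - w).im (w.im - (pvlnCtr δ k).im)
    have := hwk.2
    linarith

/-- the mesh event of the squares of half side `2δ` gives the mesh event of 220 -/
theorem pvmw_mesh (hδ : 0 < δ) (h : η ∈ pvlnG (L.map (pvlnCtr δ)) (2 * δ)) : PvtrMesh (δ / 4) (pvmwE δ L) (cfSites η) := by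
  intro z hz
  have hzE : z ∈ pvmwE δ L := pvtr_core_subset (by positivity) hz
  obtain ⟨k, hk, hzk⟩ := mem_iUnion₂.1 hzE
  obtain ⟨p, hp, -, hpz⟩ := pvm_good_net (by positivity) (h (pvlnCtr δ k) (List.mem_map_of_mem hk)) z hzk
  refine ⟨p.1, ⟨p, hp, rfl⟩, ?_⟩
  rw [norm_sub_rev]
  have e : 2 * δ / 8 = δ / 4 := by ring
  rw [e] at hpz
  exact hpz.le

/-- **LANE ⟹ WALK** (deterministic): on the lane event of 229, at a good site set with the mesh, there is a retained walk of colour `c` in the window of the lane between the windows of any two cells of the lane -/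
theorem pvmw_of_lane (hδ : 0 < δ) (hne : L ≠ []) (hc : L.IsChain PvlnAdj) (hLF : PvLF η) (hG : DelGood (cfSites η)) (hm : PvtrMesh (δ / 4) (pvmwE δ L) (cfSites η))
    (h : η ∈ pvlnLaneEv δ c L) {k k' : ℤ × ℤ} (hk : k ∈ L) (hk' : k' ∈ L) :
    η ∈ pvmwEv (δ / 4) (pvmwE δ L) c (pvlnW δ L) (pvlnW δ [k]) (pvlnW δ [k']) := by
  obtain ⟨x0, hx0⟩ := pvln_lane_hub hδ hne hc h rfl
  obtain ⟨a, -, -, -, ⟨haC, -⟩, -, -, -, hja, -, -, -⟩ := pvln_hub_sides (pvln_C_sub_U hk) (hx0 k hk)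
  obtain ⟨a', -, -, -, ⟨haC', -⟩, -, -, -, hja', -, -, -⟩ := pvln_hub_sides (pvln_C_sub_U hk') (hx0 k' hk')
  refine pvmw_of_joined hLF hG (by positivity) hm (pvmw_W_core hδ L) (r := δ / 2 / 8) (U := pvlnU δ L)
    (fun z hz => pvln_lane_net hδ hc h rfl hz) (fun z hz w hw => pvln_lane_nbd hδ hz hw) (hja.symm.trans hja') ?_ ?_
  · exact fun w hw => pvln_lane_nbd hδ (L := [k]) (pvln_C_sub_U List.mem_cons_self haC) hw
  · exact fun w hw => pvln_lane_nbd hδ (L := [k']) (pvln_C_sub_U List.mem_cons_self haC') hw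

end lane

/-! ## 5. good geometries -/

/-- **GOOD GEOMETRY FOR THE LANE** `L` (colour `c`, level `p`) -/
structure PvmwGood (p δ : ℝ) (c : Bool) (L : List (ℤ × ℤ)) (g : PvGeoT) : Prop where
  ok : PvgOk g
  del : DelGood (pvgSites g)
  mesh : PvtrMesh (δ / 4) (pvmwE δ L) (pvgSites g)
  lane : ENNReal.ofReal p ≤ pvQc (pvlnLaneEv δ c L) g

/-- **M12, deterministic half**: at a good geometry, for EVERY colouring `x`, EVERY strip `S ⊇` window of the lane, every window `E ⊇ pvmwE δ L`, radius `ρ ≥ δ/4`, doors `A ⊇` window of a cell `k`, `B ⊇` window of a cell `k'`: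
the probability of the walk event under the resampling of the colours of the strip is `≥ p` -/
theorem PvmwGood.Q_ge {p δ : ℝ} {L : List (ℤ × ℤ)} {g : PvGeoT} (hg : PvmwGood p δ c L g) (hδ : 0 < δ) (hne : L ≠ []) (hc : L.IsChain PvlnAdj)
    (hρ : δ / 4 ≤ ρ) (hE : pvmwE δ L ⊆ E) (hSb : Bornology.IsBounded S) (hS : pvlnW δ L ⊆ S) {k k' : ℤ × ℤ} (hk : k ∈ L) (hk' : k' ∈ L)
    (hA : pvlnW δ [k] ⊆ A) (hB : pvlnW δ [k'] ⊆ B) (x : PvColT) : p ≤ pvpQ S c (pvmwEv ρ E c S A B) (pvConf (pvMerge (g, x))) := by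
  have hmeas : MeasurableSet {y | pvConf (pvMerge (g, y)) ∈ pvlnLaneEv δ c L} := (measurable_pvConf.comp (measurable_pvMerge.comp (measurable_const.prodMk measurable_id))) (pvln_loc_meas (pvln_lane_fit hδ hc) c)
  have hsub : ∀ y, pvConf (pvMerge (g, y)) ∈ pvlnLaneEv δ c L → pvConf (pvMerge (g, y)) ∈ pvmwEv ρ E c S A B := by
    intro y hy
    refine pvmw_ev_mono hρ hE hS hA hB (pvmw_of_lane hδ hne hc (pvcn_LF_conf _ (hg.ok.ok y).sq) ?_ ?_ hy hk hk')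
    · rw [pvqu_cfSites]; exact hg.del
    · rw [pvqu_cfSites]; exact hg.mesh
  have h1 := hg.lane.trans (pvmw_Q_ge hg.ok hSb c hmeas hsub (pvmw_dep hg.ok hSb ρ E c A B) x)
  exact (ENNReal.ofReal_le_ofReal_iff (pvpQ_nonneg _ _ _ _)).1 h1

/-- **M12, probability half**: the bad geometries of a lane of at most `n` cells of side `δ ≥ U(n, θ) ε` have probability `≤ θ` (outer measure) -/
theorem pvmw_good_prob {q : ℝ} (hq0 : 0 < q) (hq1 : q ≤ 1) (hQ : PvlqQbx q) (n : ℕ) {θ : ℝ} (hθ : 0 < θ) :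
    ∃ U : ℝ, 1 ≤ U ∧ ∀ ε : ℝ, 0 < ε → ∀ δ : ℝ, U * ε ≤ δ → ∀ (c : Bool) (L : List (ℤ × ℤ)), L ≠ [] → L.IsChain PvlnAdj → L.length ≤ n →
      pvGeo ε {g | ¬ PvmwGood (q ^ (15 * n) / 2) δ c L g} ≤ ENNReal.ofReal θ := by
  obtain ⟨U1, hU1, H1⟩ := pvlq_lane hq0 hq1 hQ n (θ := θ / 2) (by positivity)
  obtain ⟨U2, hU2, H2⟩ := pvln_err n (a := θ / 2) (by positivity)
  refine ⟨max U1 U2, hU1.trans (le_max_left _ _), fun ε hε δ hδU c L hne hc hn => ?_⟩
  have hδ1 : U1 * ε ≤ δ := (mul_le_mul_of_nonneg_right (le_max_left _ _) hε.le).trans hδU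
  have hδ2 : U2 * ε ≤ δ := (mul_le_mul_of_nonneg_right (le_max_right _ _) hε.le).trans hδU
  have hδ : 0 < δ := lt_of_lt_of_le (by positivity) hδ1
  set cen := L.map (pvlnCtr δ) with hcen
  have hsub : {g | ¬ PvmwGood (q ^ (15 * n) / 2) δ c L g} ⊆
      {g | ¬ (PvgOk g ∧ DelGood (pvgSites g))} ∪ {g | (1 : ℝ≥0∞) ≤ pvQc (pvlqM cen (2 * δ))ᶜ g} ∪ {g | pvQc (pvlnLaneEv δ c L) g < ENNReal.ofReal (q ^ (15 * n) / 2)} := by
    intro g hg
    by_contra hcon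
    simp only [mem_union, mem_ofPred_eq, not_or, not_not, not_lt, not_le] at hcon
    obtain ⟨⟨⟨hok, hdel⟩, hM⟩, hl⟩ := hcon
    refine hg ⟨hok, hdel, ?_, hl⟩
    -- some colouring lies in the mesh event
    have hex : ∃ y : PvColT, pvConf (pvMerge (g, y)) ∈ pvlqM cen (2 * δ) := by
      by_contra hno
      have hall : {y : PvColT | pvConf (pvMerge (g, y)) ∈ (pvlqM cen (2 * δ))ᶜ} = univ := by
        ext y
        simp only [mem_ofPred_eq, mem_compl_iff, mem_univ, iff_true]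
        exact fun hy => hno ⟨y, hy⟩
      have : pvQc (pvlqM cen (2 * δ))ᶜ g = 1 := by
        rw [pvqu_Qc_eq, hall, measure_univ]
      rw [this] at hM
      exact lt_irrefl _ hM
    obtain ⟨y, hy⟩ := hex
    have := pvmw_mesh (L := L) hδ hy.2
    rwa [pvqu_cfSites] at this
  have m1 : pvGeo ε {g | ¬ (PvgOk g ∧ DelGood (pvgSites g))} = 0 := ae_iff.1 ((pvqu_ok_ae ε).and (dls_ae_geo hε))
  have m2 : pvGeo ε {g | (1 : ℝ≥0∞) ≤ pvQc (pvlqM cen (2 * δ))ᶜ g} ≤ ENNReal.ofReal (θ / 2) := by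
    refine (pvlq_bad_mesh ε cen (v := 2 * δ) (by positivity) one_ne_zero ENNReal.one_ne_top).trans ?_
    rw [div_one]
    refine ENNReal.ofReal_le_ofReal (H2 ε hε (2 * δ) (by linarith) cen.length ?_)
    rw [hcen, List.length_map]
    exact hn
  calc pvGeo ε {g | ¬ PvmwGood (q ^ (15 * n) / 2) δ c L g}
      ≤ pvGeo ε {g | ¬ (PvgOk g ∧ DelGood (pvgSites g))} + pvGeo ε {g | (1 : ℝ≥0∞) ≤ pvQc (pvlqM cen (2 * δ))ᶜ g}
          + pvGeo ε {g | pvQc (pvlnLaneEv δ c L) g < ENNReal.ofReal (q ^ (15 * n) / 2)} :=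
        (measure_mono hsub).trans ((measure_union_le _ _).trans (add_le_add (measure_union_le _ _) le_rfl))
    _ ≤ 0 + ENNReal.ofReal (θ / 2) + ENNReal.ofReal (θ / 2) := add_le_add (add_le_add m1.le m2) (H1 ε hε δ hδ1 c L hne hc hn)
    _ = ENNReal.ofReal θ := by
        rw [zero_add, ← ENNReal.ofReal_add (by positivity) (by positivity)]
        congr 1
        ring

/-! ## 6. exits -/

/-- **M12** (no hypothesis): the constant `q` of QBX; a lane of at most `n` cells of side `δ ≥ U(n, θ) ε`: off a set of labelled geometries of probability `≤ θ` the geometry is good at the level `p_* = q^(15n)/2` -/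
theorem pvmw_exit : ∃ q : ℝ, 0 < q ∧ q ≤ 1 ∧ ∀ (n : ℕ) (θ : ℝ), 0 < θ →
    ∃ U : ℝ, 1 ≤ U ∧ ∀ ε : ℝ, 0 < ε → ∀ δ : ℝ, U * ε ≤ δ → ∀ (c : Bool) (L : List (ℤ × ℤ)), L ≠ [] → L.IsChain PvlnAdj → L.length ≤ n →
      pvGeo ε {g | ¬ PvmwGood (q ^ (15 * n) / 2) δ c L g} ≤ ENNReal.ofReal θ := by
  obtain ⟨q, hq0, hq1, hQ⟩ := pvlq_main exit_pv_qbx_lay exit_pv_qbx_rev
  exact ⟨q, hq0, hq1, fun n θ hθ => pvmw_good_prob hq0 hq1 hQ n hθ⟩

/-- **THE FLAG F3**: the walk event has a small probability under the resampling of the colours of the strip -/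
def pvmwF3 (p ρ : ℝ) (E : Set ℂ) (c : Bool) (S A B : Set ℂ) : Set (Conf PvPt) := {ξ | pvpQ S c (pvmwEv ρ E c S A B) ξ < p}

theorem pvmw_eqns_cite4 : True := by
  have := @pvmwF3.eq_1
  trivial

/-- the flag is read in the window `E ⊇ S` -/
theorem pvmw_F3_reads (p ρ : ℝ) (c : Bool) (hSE : S ⊆ E) (A B : Set ℂ) : Conf.ReadsSet (E ×ˢ (univ : Set Bool)) (pvmwF3 p ρ E c S A B) := by
  intro η
  have h := pvpQ_reads (S := S) (W := E ×ˢ (univ : Set Bool)) (fun q hq => ⟨hSE hq, mem_univ _⟩) (pvmw_reads ρ E c S A B) c η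
  show pvpQ S c (pvmwEv ρ E c S A B) (Conf.restr (E ×ˢ univ) η) < p ↔ pvpQ S c (pvmwEv ρ E c S A B) η < p
  rw [h]

/-- the normalisation belongs to the stable measurability class of 263 -/
theorem pvmw_F3_ms (hE : MeasurableSet (pvtmIn E)) (ρ : ℝ) (c : Bool) (hS : MeasurableSet S) (hSb : Bornology.IsBounded S) (hA : MeasurableSet A) (hB : MeasurableSet B) :
    PvpMs (pvpQ S c (pvmwEv ρ E c S A B)) :=
  pvpQ_ms hS hSb c (PvpMs.of_set (pvmw_meas hE ρ c hS hA hB))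

/-- the flag does not occur at a good geometry -/
theorem pvmw_F3_sub {p δ : ℝ} {L : List (ℤ × ℤ)} (hδ : 0 < δ) (hne : L ≠ []) (hc : L.IsChain PvlnAdj)
    (hρ : δ / 4 ≤ ρ) (hE : pvmwE δ L ⊆ E) (hSb : Bornology.IsBounded S) (hS : pvlnW δ L ⊆ S) {k k' : ℤ × ℤ} (hk : k ∈ L) (hk' : k' ∈ L)
    (hA : pvlnW δ [k] ⊆ A) (hB : pvlnW δ [k'] ⊆ B) :
    pvConf ⁻¹' pvmwF3 p ρ E c S A B ⊆ {ω | pvGeoOf ω ∈ {g | ¬ PvmwGood p δ c L g}} := by
  intro ω hω hg
  have h1 := hg.Q_ge hδ hne hc hρ hE hSb hS hk hk' hA hB (pvColOf ω)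
  rw [pvqu_merge_of] at h1
  exact absurd h1 (not_le.2 hω)

/-- **COST OF F3**, uniform in the scale -/
theorem pvmw_F3_law : ∃ q : ℝ, 0 < q ∧ q ≤ 1 ∧ ∀ (n : ℕ) (θ : ℝ), 0 < θ →
    ∃ U : ℝ, 1 ≤ U ∧ ∀ ε : ℝ, 0 < ε → ∀ δ : ℝ, U * ε ≤ δ → ∀ (c : Bool) (L : List (ℤ × ℤ)), L ≠ [] → L.IsChain PvlnAdj → L.length ≤ n →
      ∀ (ρ : ℝ) (E S A B : Set ℂ) (k k' : ℤ × ℤ), δ / 4 ≤ ρ → pvmwE δ L ⊆ E → Bornology.IsBounded S → pvlnW δ L ⊆ S → k ∈ L → k' ∈ L → pvlnW δ [k] ⊆ A → pvlnW δ [k'] ⊆ B →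
        pvLaw ε (pvConf ⁻¹' pvmwF3 (q ^ (15 * n) / 2) ρ E c S A B) ≤ ENNReal.ofReal θ := by
  obtain ⟨q, hq0, hq1, H⟩ := pvmw_exit
  refine ⟨q, hq0, hq1, fun n θ hθ => ?_⟩
  obtain ⟨U, hU1, HU⟩ := H n θ hθ
  refine ⟨U, hU1, fun ε hε δ hδU c L hne hc hn ρ E S A B k k' hρ hE hSb hS hk hk' hA hB => ?_⟩
  have hδ : 0 < δ := lt_of_lt_of_le (by positivity) hδU
  exact ((measure_mono (pvmw_F3_sub hδ hne hc hρ hE hSb hS hk hk' hA hB)).trans (pvax_geo_le ε _)).trans (HU ε hε δ hδU c L hne hc hn)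

/-- **COST OF F3**, a fixed lane, `ε ↓ 0` -/
theorem pvmw_F3_tendsto : ∃ q : ℝ, 0 < q ∧ q ≤ 1 ∧ ∀ (δ : ℝ), 0 < δ → ∀ (c : Bool) (L : List (ℤ × ℤ)), L ≠ [] → L.IsChain PvlnAdj →
    ∀ (ρ : ℝ) (E S A B : Set ℂ) (k k' : ℤ × ℤ), δ / 4 ≤ ρ → pvmwE δ L ⊆ E → Bornology.IsBounded S → pvlnW δ L ⊆ S → k ∈ L → k' ∈ L → pvlnW δ [k] ⊆ A → pvlnW δ [k'] ⊆ B →
      Tendsto (fun ε : ℝ => pvLaw ε (pvConf ⁻¹' pvmwF3 (q ^ (15 * L.length) / 2) ρ E c S A B)) (𝓝[>] 0) (𝓝 0) := by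
  obtain ⟨q, hq0, hq1, H⟩ := pvmw_F3_law
  refine ⟨q, hq0, hq1, fun δ hδ c L hne hc ρ E S A B k k' hρ hE hSb hS hk hk' hA hB => ?_⟩
  rw [ENNReal.tendsto_nhds_zero]
  intro θ hθ
  obtain ⟨r, -, hr1, hr2⟩ := ENNReal.lt_iff_exists_real_btwn.1 hθ
  obtain ⟨U, hU1, HU⟩ := H L.length r (ENNReal.ofReal_pos.1 hr1)
  have hU : 0 < U := by linarith
  have ev : ∀ᶠ ε : ℝ in 𝓝[>] 0, ε < δ / U := by
    have : ∀ᶠ ε : ℝ in 𝓝 0, ε < δ / U := eventually_lt_nhds (by positivity)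
    exact this.filter_mono nhdsWithin_le_nhds
  filter_upwards [ev, self_mem_nhdsWithin] with ε e1 hε
  refine (HU ε hε δ ?_ c L hne hc le_rfl ρ E S A B k k' hρ hE hSb hS hk hk' hA hB).trans hr2.le
  rw [lt_div_iff₀ hU] at e1
  linarith

/-- **the walk is a path of the Delaunay triangulation of the full configuration**: sites of colour `c` in `S`, consecutive ones are Delaunay neighbours -/
theorem pvmw_walk_del {η : Conf PvPt} (h : η ∈ pvmwEv ρ E c S A B) :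
    ∃ l : List PvPt, l.IsChain (fun p q => DelAdj (cfSites η) p.1 q.1) ∧ (∀ p ∈ l, p ∈ η.pts ∧ p.2 = c ∧ p.1 ∈ S ∧ p.1 ∈ E) ∧ (∃ a ∈ l.head?, a.1 ∈ A) ∧ ∃ b ∈ l.getLast?, b.1 ∈ B := by
  obtain ⟨l, ⟨h1, h2⟩, hA, hB⟩ := h
  refine ⟨l, h1.imp ?_, fun p hp => ?_, hA, hB⟩
  · rintro p q ⟨r, hr | hr⟩
    · exact hr.2.2.2.tri.adj
    · exact hr.2.2.2.tri.adj.symm
  · obtain ⟨h3, h4, h5⟩ := h2 p hp
    rcases h3 with ⟨q, r, h | h | h⟩
    · exact ⟨h.1, h4, h5, h.2.2.2.mem_a.2⟩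
    · exact ⟨h.2.1, h4, h5, h.2.2.2.mem_b.2⟩
    · exact ⟨h.2.2.1, h4, h5, h.2.2.2.mem_c.2⟩

end Claimed.Agent.R289
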