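import Claimed.Agent.R289.Tr.N1P

/-!
# Row 289 (S0537), THE WALL, ROAD P, file Tr/N1Q : THE INSTANCE OF P17 (a)  =  regions + engine system of 95  ⟹  `PvdmSys.Hyp` of 159  ⟹  `PvnqPat.Ok` of `Tr/N1P`      (pen helper279, second helper286; prefix `pvnw_`, `Pvnw`)

`Tr/N1P` reduces the field `n1` of `PvhbLocU` (road P) to `PvnqPat.Ok` (the `ν`-side) + `PvnqPat.Stab` (the actual side) + I.TAIL.      THIS FILE cuts `PvnqPat.Ok` down to the contracts of the geometric boxes.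
## THE RECORD `PvnwGeo ι U C` (one pattern `π`, one mesh)
* `Sy Cu Cf X qf`   the chain `c : t → … → s` as a geometric system of 95 (`Tr/Sys`): inner plugs `Cu`, links `Cf`, field `X` (`= y_a`), forcing constants `qf`      [P16, TR21, TR22]
* `C0`   the corridor (the region resampled by the engine: `Sy.R Cu Cf = C0 × Bool`);   `O2 = O_s ∪ O_t` (the marked plugs);   `T` = bounded region: ALL the sites whose colour the `X` side reads (`O2 ⊆ T`, `T` misses `C0`)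
* `ι`, `V g`, `E g`, `Xg g`   the arc candidates: vertices, event `B_g ∩ N_g ∩ {g : v_1^+(σ_s) → v_1^-(σ_t) path of the retained triangulation, fits π} ∩ Hq_s ∩ Hq_t ∩ Mesh`, tag sum `X_g`      [W2c_6 V2.0]
* `W`   the white lane `T_w` is crossed      [P16']      * `Θ`   the closed-sum functional of I.TAIL      * `qW`.
## HYPOTHESES `PvnwGeo.Hyp ε` : who owes what
 `wf fld frc` 95 + P16 (193 103) ;  `stabE` = `B_g` frozen, `N_g` increasing in white, `X_g` geometric (6: `pvta_N_mono`, `pvta_N_congr`) ;  `stabW` `rW` lane (229) ;  **`hq`** = P16' (D2 + D4 of 131) ;  `rE rX` locality of the retained triangulation (141 MESH/TR-IND) ;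
 **`close`** = TR13 CLOSE + TR12 injectivity + TR14 MASK (6 202 105) ;  `cnt finT` local finiteness.
## EXITS      `pvnw_hyp : 𝔊.Hyp ε → (𝔊.toDom ε).Hyp ε`,      `pvnw_ok : 𝔊.Hyp ε → 𝔊.Chain … → (𝔊.toPat …).Ok ε`.      So: field `n1` (road P) ⟸ `PvnwGeo.Hyp` + `PvnwGeo.Chain` + `PvnqPat.Stab` + I.TAIL + TR25.
## ADAPTERS (sec. 3, PROVED) to the record of road P (`PvrpInU` of 286, `PvrxArc` of 79):   `PvnwGeo.Z` = the integrand of record,   **`pvnw_n1nu`** = field `n1ν`,   **`pvnw_stab_le`** = the `ν`-half of field `stab`.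
-/

set_option autoImplicit false
set_option linter.unusedSectionVars false
set_option linter.unusedVariables false

namespace Claimed.Agent.R289

open MeasureTheory ProbabilityTheory Set Filter Topology Claims.C0465
open scoped ENNReal NNReal

/-- **THE GEOMETRIC DATA OF ONE PATTERN OF ROAD P** -/
structure PvnwGeo (ι : Type*) (U : Type*) (C : Type*) where
  Sy : PvsySys PvPt U C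
  Cu : Finset U
  Cf : Finset C
  X : C → Conf PvPt → ℂ
  qf : C → ℝ≥0∞
  C0 : Set ℂ
  O2 : Set ℂ
  T : Set ℂ
  Ok : Set ℂ → Prop
  V : ι → Set ℂ
  E : ι → Set (Conf PvPt)
  W : Set (Conf PvPt)
  Xg : ι → Conf PvPt → ℂ
  Θ : Conf PvPt → ℝ≥0∞
  qW : ℝ≥0∞

variable {ι : Type*} {U : Type*} {C : Type*}

/-- the cylinder domination system of 159 -/
noncomputable def PvnwGeo.toDom (𝔊 : PvnwGeo ι U C) (ε : ℝ) : PvdmSys ι where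
  Ok := 𝔊.Ok
  C := 𝔊.C0
  A g := 𝔊.Sy.Ends 𝔊.Cu 𝔊.Cf ∩ 𝔊.E g
  WO _ := 𝔊.W
  frz g _ := 𝔊.V g ∪ 𝔊.O2
  yf _ _ := 𝔊.Tᶜ
  X := 𝔊.Xg
  yh _ := 𝔊.Sy.y (pvP ε) 𝔊.X 𝔊.Cu 𝔊.Cf
  w := 𝔊.Sy.Wt (pvP ε) 𝔊.Cu 𝔊.Cf
  Y := pvsyY 𝔊.X 𝔊.Cf
  H ω := 𝔊.Sy.Dc (pvP ε) 𝔊.Cu 𝔊.Cf 𝔊.qf * 𝔊.Θ ω
  q := 𝔊.qW

/-- **THE CONTRACTS** -/
structure PvnwGeo.Hyp (𝔊 : PvnwGeo ι U C) (ε : ℝ) : Prop where
  ok_ae : ∀ᵐ ω ∂pvP ε, 𝔊.Ok (cfSites ω)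
  mC0 : MeasurableSet 𝔊.C0
  wf : 𝔊.Sy.WF
  fld : 𝔊.Sy.Fld 𝔊.X
  frc : 𝔊.Sy.Forced (pvP ε) 𝔊.Cu 𝔊.Cf 𝔊.qf
  mΘ : Measurable 𝔊.Θ
  /-- the region resampled by the engine is the corridor -/
  hR : 𝔊.Sy.R 𝔊.Cu 𝔊.Cf = Prod.fst ⁻¹' 𝔊.C0
  /-- the marked plugs live over `O2` -/
  hMk : 𝔊.Sy.Mk 𝔊.Cu 𝔊.Cf ⊆ Prod.fst ⁻¹' 𝔊.O2
  O2T : 𝔊.O2 ⊆ 𝔊.T
  cntY : ∀ Y, 𝔊.Ok Y → Y.Countable
  cnt : ∀ Y, 𝔊.Ok Y → {g | ∃ σ, cfOf Y σ ∈ 𝔊.E g}.Countable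
  finT : ∀ Y, 𝔊.Ok Y → (Y ∩ 𝔊.T).Finite
  VT : ∀ Y, 𝔊.Ok Y → ∀ g σ, cfOf Y σ ∈ 𝔊.E g → 𝔊.V g ⊆ 𝔊.T
  /-- `B_g` is frozen, `N_g` is increasing in white and reads `T`, `X_g` is a function of the geometry and of the two states -/
  stabE : ∀ Y, 𝔊.Ok Y → ∀ g σ σ', cfOf Y σ ∈ 𝔊.E g → (∀ z ∈ Y, z ∈ 𝔊.V g ∪ 𝔊.O2 → σ' z = σ z) → (∀ z ∈ Y, z ∈ 𝔊.T → σ' z ≤ σ z) →
    cfOf Y σ' ∈ 𝔊.E g ∧ 𝔊.Xg g (cfOf Y σ') = 𝔊.Xg g (cfOf Y σ)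
  /-- the lane event is increasing in white and reads the colours of `T` only -/
  stabW : ∀ Y, 𝔊.Ok Y → ∀ σ σ', (∀ z ∈ Y, z ∈ 𝔊.T → σ' z ≤ σ z) → cfOf Y σ ∈ 𝔊.W → cfOf Y σ' ∈ 𝔊.W
  /-- **P16' (WHITE LANE)**: given the geometry, the two states and the colours of `g` -/
  hq : ∀ Y, 𝔊.Ok Y → ∀ g σ, cfOf Y σ ∈ 𝔊.Sy.Ends 𝔊.Cu 𝔊.Cf → cfOf Y σ ∈ 𝔊.E g →
    𝔊.qW ≤ colLaw ℂ {κ | cfOf Y (pvdmOv (𝔊.V g ∪ 𝔊.O2)ᶜ κ σ) ∈ 𝔊.W}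
  /-- the `X` side does not read the corridor -/
  rE : ∀ g, Conf.ReadsSet (pvdmU 𝔊.C0) (𝔊.E g)
  rW : Conf.ReadsSet (pvdmU 𝔊.C0) 𝔊.W
  rX : ∀ g, Conf.Reads (pvdmU 𝔊.C0) (𝔊.Xg g)
  /-- **TR13 + TR12 + TR14 (CLOSE, injectivity, masks)** -/
  close : ∀ᵐ ω ∂pvP ε, ω ∈ 𝔊.Sy.Ev 𝔊.Cu 𝔊.Cf →
    ∑' g, (𝔊.Sy.Ends 𝔊.Cu 𝔊.Cf ∩ 𝔊.E g ∩ 𝔊.W).indicator (fun ω => ‖𝔊.Xg g ω + pvsyY 𝔊.X 𝔊.Cf ω‖ₑ ^ 2) ω ≤ 𝔊.Θ ω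

theorem pvnw_eqns_cite : True := by
  have := @PvnwGeo.toDom.eq_1.{0, 0, 0}
  trivial

section hyp

variable [Fintype U] [Fintype C] [DecidableEq U] [DecidableEq C] {𝔊 : PvnwGeo ι U C} {ε : ℝ}

/-- two colourings which agree over `O` give the same restriction to any window over `O` -/
theorem pvnw_restr_cfOf {Y O : Set ℂ} {M : Set PvPt} (hM : M ⊆ Prod.fst ⁻¹' O) {σ σ' : ℂ → Bool} (h : ∀ z ∈ Y, z ∈ O → σ' z = σ z) :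
    Conf.restr M (cfOf Y σ') = Conf.restr M (cfOf Y σ) := by
  ext p
  simp only [Conf.restr, cfOf, mem_inter_iff, mem_ofPred_eq]
  constructor
  · rintro ⟨⟨h1, h2⟩, h3⟩
    exact ⟨⟨h1, by rw [h2, h _ h1 (hM h3)]⟩, h3⟩
  · rintro ⟨⟨h1, h2⟩, h3⟩
    exact ⟨⟨h1, by rw [h2, h _ h1 (hM h3)]⟩, h3⟩

/-- `(R)ᶜ` is the window of 159 -/
theorem PvnwGeo.Hyp.compl_R (h : 𝔊.Hyp ε) : (𝔊.Sy.R 𝔊.Cu 𝔊.Cf)ᶜ = pvdmU 𝔊.C0 := by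
  rw [h.hR]; rfl

/-- "the marked plugs are usable" reads the marked regions only -/
theorem pvnw_reads_Ends {E : Type*} [MeasurableSpace E] {S : PvsySys E U C} (hS : S.WF) (Cu : Finset U) (Cf : Finset C) :
    Conf.ReadsSet (S.Mk Cu Cf) (S.Ends Cu Cf) := by
  have out : ∀ u : U, u ∉ Cu → S.O u ⊆ (S.R Cu Cf)ᶜ := by
    intro u hu z hz hR
    rcases hR with hR | hR
    · obtain ⟨v, hv, hzv⟩ := mem_iUnion₂.1 hR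
      exact Set.disjoint_left.1 (hS.dOO (fun h : u = v => hu (h ▸ hv))) hz hzv
    · obtain ⟨e, -, hze⟩ := mem_iUnion₂.1 hR
      exact Set.disjoint_left.1 (hS.dOK u e) hz hze
  intro η
  refine forall₂_congr fun e he => and_congr (imp_congr_right fun h => ((hS.rG _).mono ?_) η) (imp_congr_right fun h => ((hS.rG _).mono ?_) η)
  · exact fun z hz => ⟨mem_iUnion₂.2 ⟨e, he, Or.inl hz⟩, out _ h hz⟩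
  · exact fun z hz => ⟨mem_iUnion₂.2 ⟨e, he, Or.inr hz⟩, out _ h hz⟩

/-- field `stab` -/
theorem pvnw_stab (h : 𝔊.Hyp ε) {Y : Set ℂ} (hY : 𝔊.Ok Y) (g : ι) (σ σ' : ℂ → Bool) (hA : cfOf Y σ ∈ 𝔊.Sy.Ends 𝔊.Cu 𝔊.Cf ∩ 𝔊.E g)
    (h1 : ∀ z ∈ Y, z ∈ 𝔊.V g ∪ 𝔊.O2 → σ' z = σ z) (h2 : ∀ z ∈ Y, z ∉ 𝔊.Tᶜ → σ' z ≤ σ z) :
    cfOf Y σ' ∈ 𝔊.Sy.Ends 𝔊.Cu 𝔊.Cf ∩ 𝔊.E g ∧ 𝔊.Xg g (cfOf Y σ') = 𝔊.Xg g (cfOf Y σ) ∧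
      𝔊.Sy.y (pvP ε) 𝔊.X 𝔊.Cu 𝔊.Cf (cfOf Y σ') = 𝔊.Sy.y (pvP ε) 𝔊.X 𝔊.Cu 𝔊.Cf (cfOf Y σ) := by
  have e1 : Conf.restr (𝔊.Sy.Mk 𝔊.Cu 𝔊.Cf) (cfOf Y σ') = Conf.restr (𝔊.Sy.Mk 𝔊.Cu 𝔊.Cf) (cfOf Y σ) :=
    pvnw_restr_cfOf h.hMk fun z hz hO => h1 z hz (Or.inr hO)
  obtain ⟨a1, a2⟩ := h.stabE Y hY g σ σ' hA.2 h1 (fun z hz hT => h2 z hz (fun hn => hn hT))
  refine ⟨⟨?_, a1⟩, a2, (pvsy_reads_y h.wf h.fld (pvP ε) 𝔊.Cu 𝔊.Cf).congr e1⟩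
  rw [← pvnw_reads_Ends h.wf 𝔊.Cu 𝔊.Cf (cfOf Y σ'), e1, pvnw_reads_Ends h.wf 𝔊.Cu 𝔊.Cf (cfOf Y σ)]
  exact hA.1

/-- field `rd` (for EVERY `ω₂`) -/
theorem pvnw_rd (h : 𝔊.Hyp ε) (ω ω₂ : Conf PvPt) (g : ι) :
    (Conf.spl (pvdmU 𝔊.C0) (ω, ω₂) ∈ 𝔊.Sy.Ends 𝔊.Cu 𝔊.Cf ∩ 𝔊.E g ↔ ω ∈ 𝔊.Sy.Ends 𝔊.Cu 𝔊.Cf ∩ 𝔊.E g) ∧
    (Conf.spl (pvdmU 𝔊.C0) (ω, ω₂) ∈ 𝔊.W ↔ ω ∈ 𝔊.W) ∧ 𝔊.Xg g (Conf.spl (pvdmU 𝔊.C0) (ω, ω₂)) = 𝔊.Xg g ω := by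
  have key : ∀ {A : Set (Conf PvPt)}, Conf.ReadsSet (pvdmU 𝔊.C0) A → (Conf.spl (pvdmU 𝔊.C0) (ω, ω₂) ∈ A ↔ ω ∈ A) := by
    intro A hA
    rw [← hA (Conf.spl (pvdmU 𝔊.C0) (ω, ω₂)), Conf.restr_spl, hA ω]
  have hE : Conf.ReadsSet (pvdmU 𝔊.C0) (𝔊.Sy.Ends 𝔊.Cu 𝔊.Cf) := by
    rw [← h.compl_R]
    exact pvsy_reads_Ends h.wf 𝔊.Cu 𝔊.Cf
  exact ⟨key (hE.inter (h.rE g)), key h.rW, (h.rX g).spl_left subset_rfl ω ω₂⟩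

/-- **TR3 POINTWISE** (TR1 + Jensen for the probability `W_c dν`), any `x`, any usable marked states -/
theorem pvnw_jensen (h : 𝔊.Hyp ε) {ω : Conf PvPt} (hω : ω ∈ 𝔊.Sy.Ends 𝔊.Cu 𝔊.Cf) (x : ℂ) :
    ‖x + 𝔊.Sy.y (pvP ε) 𝔊.X 𝔊.Cu 𝔊.Cf ω‖ₑ ^ 2 ≤ ∫⁻ ω₂, 𝔊.Sy.Wt (pvP ε) 𝔊.Cu 𝔊.Cf (Conf.spl (pvdmU 𝔊.C0) (ω, ω₂)) *
      ‖x + pvsyY 𝔊.X 𝔊.Cf (Conf.spl (pvdmU 𝔊.C0) (ω, ω₂))‖ₑ ^ 2 ∂pvP ε := by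
  have hP := pv_isPpp ε
  have := hP.prob
  have hmC : MeasurableSet (pvdmU 𝔊.C0) := pvdm_measurableSet_U h.mC0
  have hspl : Measurable fun ω₂ : Conf PvPt => Conf.spl (pvdmU 𝔊.C0) (ω, ω₂) := (Conf.measurable_spl hmC).comp (measurable_const.prodMk measurable_id)
  have hW : Measurable fun ω₂ : Conf PvPt => 𝔊.Sy.Wt (pvP ε) 𝔊.Cu 𝔊.Cf (Conf.spl (pvdmU 𝔊.C0) (ω, ω₂)) := (pvsy_measurable_Wt h.wf 𝔊.Cu 𝔊.Cf).comp hspl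
  have hY : Measurable fun ω₂ : Conf PvPt => pvsyY 𝔊.X 𝔊.Cf (Conf.spl (pvdmU 𝔊.C0) (ω, ω₂)) := (pvsy_measurable_Y h.fld 𝔊.Cf).comp hspl
  have hmass := pvsy_mass hP h.wf h.frc hω
  rw [h.compl_R] at hmass
  have hprob : IsProbabilityMeasure ((pvP ε).withDensity fun ω₂ => 𝔊.Sy.Wt (pvP ε) 𝔊.Cu 𝔊.Cf (Conf.spl (pvdmU 𝔊.C0) (ω, ω₂))) :=
    ⟨by rw [withDensity_apply _ MeasurableSet.univ, Measure.restrict_univ]; exact hmass⟩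
  have hj := pvti_jensen ((pvP ε).withDensity fun ω₂ => 𝔊.Sy.Wt (pvP ε) 𝔊.Cu 𝔊.Cf (Conf.spl (pvdmU 𝔊.C0) (ω, ω₂))) x hY.aestronglyMeasurable
  have hm2 : Measurable fun ω₂ : Conf PvPt => ‖x + pvsyY 𝔊.X 𝔊.Cf (Conf.spl (pvdmU 𝔊.C0) (ω, ω₂))‖ₑ ^ 2 := (hY.const_add x).enorm.pow_const 2
  rw [lintegral_withDensity_eq_lintegral_mul _ hW hm2] at hj
  have e : 𝔊.Sy.y (pvP ε) 𝔊.X 𝔊.Cu 𝔊.Cf ω = ∫ ω₂, pvsyY 𝔊.X 𝔊.Cf (Conf.spl (pvdmU 𝔊.C0) (ω, ω₂)) ∂((pvP ε).withDensity fun ω₂ => 𝔊.Sy.Wt (pvP ε) 𝔊.Cu 𝔊.Cf (Conf.spl (pvdmU 𝔊.C0) (ω, ω₂))) := by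
    unfold PvsySys.y pvtiMean
    rw [h.compl_R]
  rw [e]
  exact hj

/-- field `jen`: the colours off `T` are not read by the `Y` side either -/
theorem pvnw_jen (h : 𝔊.Hyp ε) {Y : Set ℂ} (hY : 𝔊.Ok Y) (g : ι) (σ : ℂ → Bool) (hA : cfOf Y σ ∈ 𝔊.Sy.Ends 𝔊.Cu 𝔊.Cf ∩ 𝔊.E g) :
    ‖𝔊.Xg g (cfOf Y σ) + 𝔊.Sy.y (pvP ε) 𝔊.X 𝔊.Cu 𝔊.Cf (cfOf Y σ)‖ₑ ^ 2 ≤
      ∫⁻ κ, ∫⁻ ω₂, 𝔊.Sy.Wt (pvP ε) 𝔊.Cu 𝔊.Cf (Conf.spl (pvdmU 𝔊.C0) (cfOf Y (pvdmOv 𝔊.Tᶜ κ σ), ω₂)) *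
        ‖𝔊.Xg g (cfOf Y σ) + pvsyY 𝔊.X 𝔊.Cf (Conf.spl (pvdmU 𝔊.C0) (cfOf Y (pvdmOv 𝔊.Tᶜ κ σ), ω₂))‖ₑ ^ 2 ∂pvP ε ∂colLaw ℂ := by
  have hpt : ∀ κ : ℂ → Bool, ‖𝔊.Xg g (cfOf Y σ) + 𝔊.Sy.y (pvP ε) 𝔊.X 𝔊.Cu 𝔊.Cf (cfOf Y σ)‖ₑ ^ 2 ≤
      ∫⁻ ω₂, 𝔊.Sy.Wt (pvP ε) 𝔊.Cu 𝔊.Cf (Conf.spl (pvdmU 𝔊.C0) (cfOf Y (pvdmOv 𝔊.Tᶜ κ σ), ω₂)) *
        ‖𝔊.Xg g (cfOf Y σ) + pvsyY 𝔊.X 𝔊.Cf (Conf.spl (pvdmU 𝔊.C0) (cfOf Y (pvdmOv 𝔊.Tᶜ κ σ), ω₂))‖ₑ ^ 2 ∂pvP ε := by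
    intro κ
    have hT : ∀ z, z ∈ 𝔊.T → pvdmOv 𝔊.Tᶜ κ σ z = σ z := fun z hz => pvdm_ov_notMem (U := 𝔊.Tᶜ) (fun hn : z ∈ 𝔊.Tᶜ => hn hz) κ σ
    obtain ⟨a1, -, a3⟩ := pvnw_stab h hY g σ (pvdmOv 𝔊.Tᶜ κ σ) hA
      (fun z _ hz => hT z (by
        rcases hz with hz | hz
        · exact h.VT Y hY g σ hA.2 hz
        · exact h.O2T hz))
      (fun z _ hz => le_of_eq (hT z (by by_contra hn; exact hz hn)))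
    rw [← a3]
    exact pvnw_jensen h a1.1 _
  calc _ = ∫⁻ _κ, ‖𝔊.Xg g (cfOf Y σ) + 𝔊.Sy.y (pvP ε) 𝔊.X 𝔊.Cu 𝔊.Cf (cfOf Y σ)‖ₑ ^ 2 ∂colLaw ℂ := by
        rw [lintegral_const, measure_univ, mul_one]
    _ ≤ _ := lintegral_mono hpt

/-- field `dom`: `W_c ≤ D_c 1_Ev` + CLOSE -/
theorem pvnw_dom (h : 𝔊.Hyp ε) : ∀ᵐ ω ∂pvP ε, ∑' g, (𝔊.Sy.Ends 𝔊.Cu 𝔊.Cf ∩ 𝔊.E g ∩ 𝔊.W).indicator
    (fun ω => 𝔊.Sy.Wt (pvP ε) 𝔊.Cu 𝔊.Cf ω * ‖𝔊.Xg g ω + pvsyY 𝔊.X 𝔊.Cf ω‖ₑ ^ 2) ω ≤ 𝔊.Sy.Dc (pvP ε) 𝔊.Cu 𝔊.Cf 𝔊.qf * 𝔊.Θ ω := by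
  filter_upwards [h.close] with ω hω
  by_cases hE : ω ∈ 𝔊.Sy.Ev 𝔊.Cu 𝔊.Cf
  · refine le_trans ?_ (mul_le_mul_right (hω hE) _)
    rw [← ENNReal.tsum_mul_left]
    refine ENNReal.tsum_le_tsum fun g => ?_
    by_cases hm : ω ∈ 𝔊.Sy.Ends 𝔊.Cu 𝔊.Cf ∩ 𝔊.E g ∩ 𝔊.W
    · rw [Set.indicator_of_mem hm, Set.indicator_of_mem hm]
      have := pvsy_Wt_le h.frc hm.1.1
      rw [Set.indicator_of_mem hE] at this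
      exact mul_le_mul_left this _
    · rw [Set.indicator_of_notMem hm]
      exact zero_le
  · have : ∀ g, (𝔊.Sy.Ends 𝔊.Cu 𝔊.Cf ∩ 𝔊.E g ∩ 𝔊.W).indicator
        (fun ω => 𝔊.Sy.Wt (pvP ε) 𝔊.Cu 𝔊.Cf ω * ‖𝔊.Xg g ω + pvsyY 𝔊.X 𝔊.Cf ω‖ₑ ^ 2) ω = 0 := by
      intro g
      by_cases hm : ω ∈ 𝔊.Sy.Ends 𝔊.Cu 𝔊.Cf ∩ 𝔊.E g ∩ 𝔊.W
      · rw [Set.indicator_of_mem hm]
        have := pvsy_Wt_le h.frc hm.1.1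
        rw [Set.indicator_of_notMem hE] at this
        rw [le_antisymm this zero_le, zero_mul]
      · rw [Set.indicator_of_notMem hm]
    simp_rw [this]
    rw [tsum_zero]
    exact zero_le

/-- **P17 (a) : THE HYPOTHESES OF N1' HOLD FOR A PATTERN OF ROAD P** -/
theorem pvnw_hyp (h : 𝔊.Hyp ε) : (𝔊.toDom ε).Hyp ε where
  ok_ae := h.ok_ae
  mC := h.mC0
  mw := fun Y hY g σ _ _ => by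
    have := (pv_isPpp ε).prob
    exact (pvsy_measurable_Wt h.wf 𝔊.Cu 𝔊.Cf).comp ((𝔊.toDom ε).measurable_R h.mC0 (h.cntY Y hY) g σ)
  mY := fun Y hY g σ _ _ =>
    (show Measurable (pvsyY 𝔊.X 𝔊.Cf) from Finset.measurable_sum _ fun e _ => h.fld.meas e).comp ((𝔊.toDom ε).measurable_R h.mC0 (h.cntY Y hY) g σ)
  mH := h.mΘ.const_mul _
  cnt := fun Y hY => (h.cnt Y hY).mono (by
    rintro g ⟨σ, hσ⟩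
    exact ⟨σ, hσ.2⟩)
  fin := fun Y hY g σ _ => by
    refine (h.finT Y hY).subset fun z hz => ⟨hz.1, ?_⟩
    by_contra hn
    exact hz.2 hn
  dis := fun Y hY g σ hA => by
    refine Set.disjoint_left.2 fun z hz hz' => hz' ?_
    rcases hz with hz | hz
    · exact h.VT Y hY g σ hA.2 hz
    · exact h.O2T hz
  stab := fun Y hY g σ σ' hA h1 h2 => by
    obtain ⟨a1, a2, a3⟩ := pvnw_stab h hY g σ σ' hA h1 h2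
    exact ⟨a1, rfl, rfl, a2, a3⟩
  stabW := fun Y hY g σ₀ σ σ' _ _ _ h2 hW => h.stabW Y hY σ σ' (fun z hz hT => h2 z hz (fun hn => hn hT)) hW
  hq := fun Y hY g σ hA => h.hq Y hY g σ hA.1 hA.2
  rd := fun Y hY σ => Eventually.of_forall fun ω₂ g => pvnw_rd h (cfOf Y σ) ω₂ g
  jen := fun Y hY g σ hA _ => pvnw_jen h hY g σ hA
  dom := pvnw_dom h

end hyp

/-! ## 2. the record of `Tr/N1P` -/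

section pat

variable [DecidableEq U] [DecidableEq C]

/-- the record `PvnqPat` of the pattern: strips `Js Jt`, walks `𝒜s 𝒜t`, QUENCHED events `Hs Ht` (`Hq_τ` of P5: `Gq_τ = G_τ ∩ Hq_τ`; they read the geometry beyond `O`, so they are NOT part of the engine's `G`; they sit in `E g`),
marked plugs `us ut`, first link `ff : ut → …`, last link `fl : … → us` -/
noncomputable def PvnwGeo.toPat (𝔊 : PvnwGeo ι U C) (ε : ℝ) (b : Bool) (Js Jt : Set ℂ) (𝒜s 𝒜t Hs Ht : Set (Conf PvPt)) (us ut : U) (ff fl : C) : PvnqPat ι where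
  b := b
  s := ⟨Js, 𝒜s, 𝔊.Sy.G us ∩ Hs⟩
  t := ⟨Jt, 𝒜t, 𝔊.Sy.G ut ∩ Ht⟩
  kin := 𝔊.Sy.kin (pvP ε) 𝔊.X fl
  kout := 𝔊.Sy.kout (pvP ε) 𝔊.X ff
  cst := ∑ e ∈ (𝔊.Cf.erase ff).erase fl, 𝔊.Sy.k (pvP ε) 𝔊.X e
  D := 𝔊.toDom ε

/-- the chain `c : t = src ff → … → tgt fl = s` (`n ≥ 2` links) and the two strips -/
structure PvnwGeo.Chain (𝔊 : PvnwGeo ι U C) (ε : ℝ) (b : Bool) (Js Jt : Set ℂ) (𝒜s 𝒜t Hs Ht : Set (Conf PvPt)) (us ut : U) (ff fl : C) : Prop where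
  ff_mem : ff ∈ 𝔊.Cf
  fl_mem : fl ∈ 𝔊.Cf
  ne : ff ≠ fl
  src_ff : 𝔊.Sy.src ff = ut
  tgt_fl : 𝔊.Sy.tgt fl = us
  ut_out : ut ∉ 𝔊.Cu
  us_out : us ∉ 𝔊.Cu
  tgt_ff : 𝔊.Sy.tgt ff ∈ 𝔊.Cu
  src_fl : 𝔊.Sy.src fl ∈ 𝔊.Cu
  inner : ∀ e ∈ 𝔊.Cf, e ≠ ff → e ≠ fl → 𝔊.Sy.src e ∈ 𝔊.Cu ∧ 𝔊.Sy.tgt e ∈ 𝔊.Cu
  /-- integrability of the links under the weight, at the usable marked states which carry a datum (put it into `G` : it is a condition on each state separately, by TR2) -/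
  int : ∀ g ω, ω ∈ 𝔊.Sy.Ends 𝔊.Cu 𝔊.Cf ∩ 𝔊.E g → ∀ e ∈ 𝔊.Cf, Integrable (fun η => 𝔊.X e (Conf.spl (𝔊.Sy.R 𝔊.Cu 𝔊.Cf)ᶜ (ω, η)))
    ((pvP ε).withDensity fun η => 𝔊.Sy.Wt (pvP ε) 𝔊.Cu 𝔊.Cf (Conf.spl (𝔊.Sy.R 𝔊.Cu 𝔊.Cf)ᶜ (ω, η)))
  mJs : MeasurableSet Js
  mJt : MeasurableSet Jt
  bJs : Bornology.IsBounded Js
  bJt : Bornology.IsBounded Jt
  incs : PvpInc Js b 𝒜s
  inct : PvpInc Jt b 𝒜t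
  mAs : MeasurableSet (pvConf ⁻¹' 𝒜s)
  mAt : MeasurableSet (pvConf ⁻¹' 𝒜t)
  dJ : Disjoint Js Jt
  /-- each walk is blind to the colours of the other strip -/
  bAs : PvpBlind Jt (fun ζ => ζ ∈ 𝒜s)
  bAt : PvpBlind Js (fun ζ => ζ ∈ 𝒜t)
  bHs : PvpBlind Jt (fun ζ => ζ ∈ Hs)
  bHt : PvpBlind Js (fun ζ => ζ ∈ Ht)
  /-- `J_s` misses `O_t`, `J_t` misses `O_s` (TR18.2) -/
  Js_Ot : Disjoint (Prod.fst ⁻¹' Js) (𝔊.Sy.O ut)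
  Jt_Os : Disjoint (Prod.fst ⁻¹' Jt) (𝔊.Sy.O us)

theorem pvnw_eqns_cite2 : True := by
  have := @PvnwGeo.toPat.eq_1.{0, 0, 0}
  trivial

variable [Fintype U] [Fintype C] {𝔊 : PvnwGeo ι U C} {ε : ℝ} {b : Bool} {Js Jt : Set ℂ} {𝒜s 𝒜t Hs Ht : Set (Conf PvPt)} {us ut : U} {ff fl : C}

/-- **TR2, EXACT, for the chain**: `y_c = κ_out(σ_t) + ∑ k_f + κ_in(σ_s)`   (`pvsy_y_eq`, `pvsy_me_kout`, `pvsy_me_kin`, `pvsy_me_k`) -/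
theorem pvnw_yh (h : 𝔊.Hyp ε) (hc : 𝔊.Chain ε b Js Jt 𝒜s 𝒜t Hs Ht us ut ff fl) (g : ι) {ω : Conf PvPt} (hω : ω ∈ 𝔊.Sy.Ends 𝔊.Cu 𝔊.Cf ∩ 𝔊.E g) :
    𝔊.Sy.y (pvP ε) 𝔊.X 𝔊.Cu 𝔊.Cf ω = 𝔊.Sy.kout (pvP ε) 𝔊.X ff ω + ∑ e ∈ (𝔊.Cf.erase ff).erase fl, 𝔊.Sy.k (pvP ε) 𝔊.X e + 𝔊.Sy.kin (pvP ε) 𝔊.X fl ω := by
  rw [pvsy_y_eq (pv_isPpp ε) h.wf h.fld h.frc hω.1 (hc.int g ω hω)]
  have hfl : fl ∈ 𝔊.Cf.erase ff := Finset.mem_erase.2 ⟨hc.ne.symm, hc.fl_mem⟩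
  rw [← Finset.add_sum_erase _ _ hc.ff_mem, ← Finset.add_sum_erase _ _ hfl]
  rw [pvsy_me_kout (pvP ε) 𝔊.X (by rw [hc.src_ff]; exact hc.ut_out) hc.tgt_ff, pvsy_me_kin (pvP ε) 𝔊.X hc.src_fl (by rw [hc.tgt_fl]; exact hc.us_out)]
  have : ∑ e ∈ (𝔊.Cf.erase ff).erase fl, 𝔊.Sy.me (pvP ε) 𝔊.X 𝔊.Cu e ω = ∑ e ∈ (𝔊.Cf.erase ff).erase fl, 𝔊.Sy.k (pvP ε) 𝔊.X e := by
    refine Finset.sum_congr rfl fun e he => ?_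
    obtain ⟨h1, he⟩ := Finset.mem_erase.1 he
    obtain ⟨h2, he⟩ := Finset.mem_erase.1 he
    obtain ⟨a1, a2⟩ := hc.inner e he h2 h1
    exact pvsy_me_k h.wf h.fld (pvP ε) a1 a2 ω
  rw [this]
  ring

/-- `κ_in` of the last link reads `O_s`, `κ_out` of the first link reads `O_t` -/
theorem pvnw_reads_kin (h : 𝔊.Hyp ε) (hc : 𝔊.Chain ε b Js Jt 𝒜s 𝒜t Hs Ht us ut ff fl) : Conf.Reads (𝔊.Sy.O us) (𝔊.Sy.kin (pvP ε) 𝔊.X fl) := by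
  unfold PvsySys.kin
  refine (pvsy_reads_y h.wf h.fld (pvP ε) {𝔊.Sy.src fl} {fl}).mono ?_
  rintro p ⟨hp, hn⟩
  simp only [Finset.mem_singleton, Set.iUnion_iUnion_eq_left] at hp
  rcases hp with hp | hp
  · exact absurd (Or.inl (by simpa using hp)) hn
  · rw [← hc.tgt_fl]; exact hp

theorem pvnw_reads_kout (h : 𝔊.Hyp ε) (hc : 𝔊.Chain ε b Js Jt 𝒜s 𝒜t Hs Ht us ut ff fl) : Conf.Reads (𝔊.Sy.O ut) (𝔊.Sy.kout (pvP ε) 𝔊.X ff) := by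
  unfold PvsySys.kout
  refine (pvsy_reads_y h.wf h.fld (pvP ε) {𝔊.Sy.tgt ff} {ff}).mono ?_
  rintro p ⟨hp, hn⟩
  simp only [Finset.mem_singleton, Set.iUnion_iUnion_eq_left] at hp
  rcases hp with hp | hp
  · rw [← hc.src_ff]; exact hp
  · exact absurd (Or.inl (by simpa using hp)) hn

/-- an event which reads a window off the strip is blind -/
theorem pvnw_blind_set {S : Set ℂ} {M : Set PvPt} {A : Set (Conf PvPt)} (hA : Conf.ReadsSet M A) (hd : Disjoint (Prod.fst ⁻¹' S) M) : PvpBlind S (fun ζ => ζ ∈ A) := by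
  have h1 : Conf.Reads M (fun ζ => ζ ∈ A) := fun η => propext (hA η)
  exact h1.pvpBlind hd

theorem pvnw_blind_inter {S : Set ℂ} {A B : Set (Conf PvPt)} (hA : PvpBlind S (fun ζ => ζ ∈ A)) (hB : PvpBlind S (fun ζ => ζ ∈ B)) :
    PvpBlind S (fun ζ => ζ ∈ A ∩ B) := by
  intro b F ξ
  have h1 : (cfPaint S b F ξ ∈ A) = (ξ ∈ A) := hA b F ξ
  have h2 : (cfPaint S b F ξ ∈ B) = (ξ ∈ B) := hB b F ξ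
  show (cfPaint S b F ξ ∈ A ∧ cfPaint S b F ξ ∈ B) = (ξ ∈ A ∧ ξ ∈ B)
  rw [h1, h2]

/-- **THE `ν`-SIDE OF P17 FROM THE CONTRACTS** -/
theorem pvnw_ok (h : 𝔊.Hyp ε) (hc : 𝔊.Chain ε b Js Jt 𝒜s 𝒜t Hs Ht us ut ff fl) : (𝔊.toPat ε b Js Jt 𝒜s 𝒜t Hs Ht us ut ff fl).Ok ε where
  ws := ⟨hc.mJs, hc.bJs, hc.incs, hc.mAs⟩
  wt := ⟨hc.mJt, hc.bJt, hc.inct, hc.mAt⟩
  st := ⟨hc.dJ, hc.bAt, pvnw_blind_inter (pvnw_blind_set (h.wf.rG ut) hc.Js_Ot) hc.bHt⟩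
  ts := ⟨hc.dJ.symm, hc.bAs, pvnw_blind_inter (pvnw_blind_set (h.wf.rG us) hc.Jt_Os) hc.bHs⟩
  bkin := (pvnw_reads_kin h hc).pvpBlind hc.Jt_Os
  bkout := (pvnw_reads_kout h hc).pvpBlind hc.Js_Ot
  hyp := pvnw_hyp h
  yh := fun g ω hω => pvnw_yh h hc g hω

end pat

/-! ## 3. ADAPTERS to the record of road P (`PvrpInU` of 286, `PvrxArc` of 79): fields `Z`, `n1ν`, the `ν`-half of `stab` -/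

section adapt

variable {ι : Type*} {U : Type*} {C : Type*}

/-- **THE INTEGRAND `Z_π` OF RECORD** -/
noncomputable def PvnwGeo.Z (𝔊 : PvnwGeo ι U C) (ε : ℝ) (ζ : Conf PvPt) : ℝ≥0∞ :=
  ∑' g, (𝔊.Sy.Ends 𝔊.Cu 𝔊.Cf ∩ 𝔊.E g).indicator (fun ω => ‖𝔊.Xg g ω + 𝔊.Sy.y (pvP ε) 𝔊.X 𝔊.Cu 𝔊.Cf ω‖ₑ ^ 2) ζ

theorem pvnw_eqns_cite3 : True := by
  have := @PvnwGeo.Z.eq_1.{0, 0, 0}
  trivial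

variable [Fintype U] [Fintype C] [DecidableEq U] [DecidableEq C]

/-- P17 (a), one mesh: `q_W E*[Z_π] ≤ D_c E[Θ]` -/
theorem pvnw_first {𝔊 : PvnwGeo ι U C} {ε : ℝ} (h : 𝔊.Hyp ε) :
    𝔊.qW * (pvhbUp ε).E (fun q => 𝔊.Z ε (pvConf (pvMerge q))) ≤ 𝔊.Sy.Dc (pvP ε) 𝔊.Cu 𝔊.Cf 𝔊.qf * ∫⁻ ω, 𝔊.Θ ω ∂pvP ε := by
  have k := pvdm_main_up (pvnw_hyp h)
  have e : ∫⁻ ω, (𝔊.toDom ε).H ω ∂pvP ε = 𝔊.Sy.Dc (pvP ε) 𝔊.Cu 𝔊.Cf 𝔊.qf * ∫⁻ ω, 𝔊.Θ ω ∂pvP ε :=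
    lintegral_const_mul _ h.mΘ
  rw [e] at k
  exact k

/-- **THE FIELD `n1ν`** of `PvrpInU` / `PvrxArc` for one `(a, m, π)`:   `q_W ≥ q₀ > 0`, `D_c ≤ D₀` eventually (fixed `h`, `δ`), I.TAIL -/
theorem pvnw_n1nu (𝔊 : ℝ → PvnwGeo ι U C) {q0 D0 : ℝ} (hq0 : 0 < q0)
    (hyp : ∀ᶠ ε in 𝓝[>] (0 : ℝ), (𝔊 ε).Hyp ε) (hq : ∀ᶠ ε in 𝓝[>] (0 : ℝ), ENNReal.ofReal q0 ≤ (𝔊 ε).qW)
    (hD : ∀ᶠ ε in 𝓝[>] (0 : ℝ), (𝔊 ε).Sy.Dc (pvP ε) (𝔊 ε).Cu (𝔊 ε).Cf (𝔊 ε).qf ≤ ENNReal.ofReal D0)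
    (tail : Tendsto (fun ε => ∫⁻ ω, (𝔊 ε).Θ ω ∂pvP ε) (𝓝[>] (0 : ℝ)) (𝓝 0)) :
    Tendsto (fun ε => (pvhbUp ε).E (fun q => (𝔊 ε).Z ε (pvConf (pvMerge q)))) (𝓝[>] (0 : ℝ)) (𝓝 0) := by
  have hq1 : ENNReal.ofReal q0 ≠ 0 := by
    rw [Ne, ENNReal.ofReal_eq_zero, not_le]; exact hq0
  have hlim : Tendsto (fun ε => (ENNReal.ofReal q0)⁻¹ * (ENNReal.ofReal D0 * ∫⁻ ω, (𝔊 ε).Θ ω ∂pvP ε)) (𝓝[>] (0 : ℝ)) (𝓝 0) := by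
    have h1 : Tendsto (fun ε => ENNReal.ofReal D0 * ∫⁻ ω, (𝔊 ε).Θ ω ∂pvP ε) (𝓝[>] (0 : ℝ)) (𝓝 (ENNReal.ofReal D0 * 0)) :=
      ENNReal.Tendsto.const_mul tail (Or.inr ENNReal.ofReal_ne_top)
    have h2 := ENNReal.Tendsto.const_mul (a := (ENNReal.ofReal q0)⁻¹) h1 (Or.inr (ENNReal.inv_ne_top.2 hq1))
    simpa using h2
  refine tendsto_of_tendsto_of_tendsto_of_le_of_le' tendsto_const_nhds hlim (Eventually.of_forall fun _ => zero_le) ?_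
  filter_upwards [hyp, hq, hD] with ε h1 h2 h3
  have key : ENNReal.ofReal q0 * (pvhbUp ε).E (fun q => (𝔊 ε).Z ε (pvConf (pvMerge q))) ≤ ENNReal.ofReal D0 * ∫⁻ ω, (𝔊 ε).Θ ω ∂pvP ε := by
    calc ENNReal.ofReal q0 * (pvhbUp ε).E (fun q => (𝔊 ε).Z ε (pvConf (pvMerge q)))
        ≤ (𝔊 ε).qW * (pvhbUp ε).E (fun q => (𝔊 ε).Z ε (pvConf (pvMerge q))) := by gcongr
      _ ≤ (𝔊 ε).Sy.Dc (pvP ε) (𝔊 ε).Cu (𝔊 ε).Cf (𝔊 ε).qf * ∫⁻ ω, (𝔊 ε).Θ ω ∂pvP ε := pvnw_first h1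
      _ ≤ _ := by gcongr
  calc (pvhbUp ε).E (fun q => (𝔊 ε).Z ε (pvConf (pvMerge q)))
      = (ENNReal.ofReal q0)⁻¹ * (ENNReal.ofReal q0 * (pvhbUp ε).E (fun q => (𝔊 ε).Z ε (pvConf (pvMerge q)))) := by
        rw [← mul_assoc, ENNReal.inv_mul_cancel hq1 ENNReal.ofReal_ne_top, one_mul]
    _ ≤ _ := by gcongr

/-- **THE `ν`-HALF OF `stab`**: a present datum is counted by `Z_π`, with `y_c` in the normal form of TR2.      (The other half = ACT: "the actual arc is a present datum of the prepared configuration with `X_g = pvbArcI`", 212 113.) -/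
theorem pvnw_stab_le {𝔊 : PvnwGeo ι U C} {ε : ℝ} {b : Bool} {Js Jt : Set ℂ} {𝒜s 𝒜t Hs Ht : Set (Conf PvPt)} {us ut : U} {ff fl : C}
    (h : 𝔊.Hyp ε) (hc : 𝔊.Chain ε b Js Jt 𝒜s 𝒜t Hs Ht us ut ff fl) (g : ι) {ζ : Conf PvPt} (hζ : ζ ∈ 𝔊.Sy.Ends 𝔊.Cu 𝔊.Cf ∩ 𝔊.E g) :
    ‖𝔊.Xg g ζ + (𝔊.Sy.kout (pvP ε) 𝔊.X ff ζ + ∑ e ∈ (𝔊.Cf.erase ff).erase fl, 𝔊.Sy.k (pvP ε) 𝔊.X e + 𝔊.Sy.kin (pvP ε) 𝔊.X fl ζ)‖ₑ ^ 2 ≤ 𝔊.Z ε ζ := by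
  rw [← pvnw_yh h hc g hζ]
  unfold PvnwGeo.Z
  refine le_trans (le_of_eq ?_) (ENNReal.le_tsum g)
  rw [indicator_of_mem hζ]

end adapt

end Claimed.Agent.R289
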