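import Claimed.Agent.R289.Tr.SysCell
import Claimed.Agent.R289.Tr.Hub

/-!
# Row 289 (S0537, Cardy for Poisson-Voronoi), THE WALL, ROAD P, file Tr/SysP : THE CONCRETE SECTOR SYSTEM OF ROAD P      (pen helper58; post of 273, table P3; prefix `pvyp_`, `pvyp`, `Pvyp`)

Road P works with REGION STATES: the state of a candidate `(z,t)` is the restriction of the configuration to a deterministic region `O m ε z t`, usable states `G m ε z t` (185, `Tr/StateP`).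
So chapter E of the wall is EXACTLY the engine of 95 (`Tr/Sys`: sectors `PvsySec`, cyclic lists) fed with the cells of 251 (`Tr/CellHex`: `PvthKit`) through `Tr/SysCell` (58).

* `PvypDat τ`      THE DATA: cell kit, big plugs, exit funnel `o`, entrance funnel `i`, reference plug `u = u(z,t)` with its entrance funnel `r`, thick link `e : u → t`, thick return link `b : t → u`.
* `kout0 kin0 ke0 kref`      THE POTENTIALS OF ROAD P = fields `kout0 kin0 ke0` of `PvrpIn` (273) and the constant `kin0` of the numbers.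
* `pvyp_*_reads`, `pvyp_*_meas`      locality (for `bl_kin` of 79) and measurability (fields `kout0_meas ke0_meas`).
* `PvypCyc`  ⟹  **`pvyp_cyc1`**, **`pvyp_cyc1_law`** = field `cyc1ν` of `PvrpIn`.
* `PvypThk`  ⟹  **`pvyp_thick`**, **`pvyp_thick_law`** = field `thickν` of `PvrpIn`      (the SHORT cycle `t -b-> u -e-> t`: constants uniform in the level).
* `PvypPat`  ⟹  **`pvyp_pattern`** = the `c`-side of `n1ν` (279 286): `y_c = kout0(t) + pvtSum W + kin0(s)`.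
-/

set_option autoImplicit false

namespace Claimed.Agent.R289

open MeasureTheory Filter Topology Set Claims.C0465
open scoped ENNReal

/-! ## 1. the data and the potentials -/

/-- **THE DATA OF CHAPTER E ON ROAD P.**      Arguments: level `m`, mesh `ε`, (scalar `a` of the field `y_a = Q - a V`), centre `z`, type `t`. -/
structure PvypDat (τ : Type) where
  /-- the cell kit of level `m`   [251 52; instance 294 34] -/
  kit : ℕ → ℝ → PvthKit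
  /-- the field of a cell -/
  X₀ : ℕ → ℝ → ℂ → PvtTurn → Conf PvPt → ℂ
  /-- the region of the big plug `(z,t)` and its usable states   [185] -/
  O : ℕ → ℝ → ℂ → τ → Set PvPt
  G : ℕ → ℝ → ℂ → τ → Set (Conf PvPt)
  /-- the exit funnel: big plug `(z,t)` → door `(z + pout t, dout t)` -/
  Ko : ℕ → ℝ → ℂ → τ → Set PvPt
  Ao : ℕ → ℝ → ℂ → τ → Set (Conf PvPt)
  Xo : ℕ → ℝ → ℂ → ℂ → τ → Conf PvPt → ℂ
  /-- the entrance funnel: door `(z + pin t, din t)` → big plug `(z,t)` -/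
  Ki : ℕ → ℝ → ℂ → τ → Set PvPt
  Ai : ℕ → ℝ → ℂ → τ → Set (Conf PvPt)
  Xi : ℕ → ℝ → ℂ → ℂ → τ → Conf PvPt → ℂ
  /-- the reference plug `u(z,t)` (centre `z + zu t`, reference type) -/
  Ou : ℕ → ℝ → ℂ → τ → Set PvPt
  Gu : ℕ → ℝ → ℂ → τ → Set (Conf PvPt)
  /-- the entrance funnel of the reference plug: door `(z + zu t + pin0, din0)` → `u` -/
  Kr : ℕ → ℝ → ℂ → τ → Set PvPt
  Ar : ℕ → ℝ → ℂ → τ → Set (Conf PvPt)
  Xr : ℕ → ℝ → ℂ → ℂ → τ → Conf PvPt → ℂ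
  /-- the thick short link `e : u → t` -/
  Ke : ℕ → ℝ → ℂ → τ → Set PvPt
  Ae : ℕ → ℝ → ℂ → τ → Set (Conf PvPt)
  Xe : ℕ → ℝ → ℂ → ℂ → τ → Conf PvPt → ℂ
  /-- the thick return link `b : t → u` -/
  Kb : ℕ → ℝ → ℂ → τ → Set PvPt
  Ab : ℕ → ℝ → ℂ → τ → Set (Conf PvPt)
  Xb : ℕ → ℝ → ℂ → ℂ → τ → Conf PvPt → ℂ

namespace PvypDat

variable {τ : Type} (D : PvypDat τ) (Γ : ℕ → PvtsGeo τ)

/-- the big plug with its exit funnel -/
def sOut (m : ℕ) (ε : ℝ) (z : ℂ) (t : τ) : PvsySec PvPt := ⟨D.O m ε z t, D.G m ε z t, D.Ko m ε z t, D.Ao m ε z t⟩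

/-- the big plug with the thick return link -/
def sBack (m : ℕ) (ε : ℝ) (z : ℂ) (t : τ) : PvsySec PvPt := ⟨D.O m ε z t, D.G m ε z t, D.Kb m ε z t, D.Ab m ε z t⟩

/-- the bare big plug -/
def sPl (m : ℕ) (ε : ℝ) (z : ℂ) (t : τ) : PvsySec PvPt := ⟨D.O m ε z t, D.G m ε z t, ∅, univ⟩

/-- the reference plug with the thick link -/
def sRef (m : ℕ) (ε : ℝ) (z : ℂ) (t : τ) : PvsySec PvPt := ⟨D.Ou m ε z t, D.Gu m ε z t, D.Ke m ε z t, D.Ae m ε z t⟩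

/-- **`κ_out`** : mean of the exit funnel given the state of `(z,t)` -/
noncomputable def kout0 (m : ℕ) (ε : ℝ) (a z : ℂ) (t : τ) : Conf PvPt → ℂ :=
  (D.sOut m ε z t).kout (pvskBare (D.kit m ε) (z + (Γ m).pout t) ((Γ m).dout t)) (pvP ε) (D.Xo m ε a z t)

/-- **`κ_in`** : mean of the entrance funnel given the state of `(z,t)` -/
noncomputable def kin0 (m : ℕ) (ε : ℝ) (a z : ℂ) (t : τ) : Conf PvPt → ℂ :=
  (pvskDoor (D.kit m ε) (z + (Γ m).pin t) ((Γ m).din t) (D.Ki m ε z t) (D.Ai m ε z t)).kin (D.sPl m ε z t) (pvP ε) (D.Xi m ε a z t)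

/-- **`κ_e`** : mean of the thick link `u → t` given the state of `(z,t)` (the state of `u` is integrated) -/
noncomputable def ke0 (m : ℕ) (ε : ℝ) (a z : ℂ) (t : τ) : Conf PvPt → ℂ :=
  (D.sRef m ε z t).kin (D.sPl m ε z t) (pvP ε) (D.Xe m ε a z t)

/-- the constant of the reference plug: mean of its entrance funnel, both plugs integrated -/
noncomputable def kref (m : ℕ) (ε : ℝ) (a z : ℂ) (t : τ) : ℂ :=
  (pvskDoor (D.kit m ε) (z + (Γ m).zu t + (Γ m).pin0) (Γ m).din0 (D.Kr m ε z t) (D.Ar m ε z t)).k (D.sRef m ε z t) (pvP ε) (D.Xr m ε a z t)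

/-- the short cycle `t -b-> u -e-> t` -/
def cyc2 (m : ℕ) (ε : ℝ) (z : ℂ) (t : τ) (j : ℕ) : PvsySec PvPt := if j = 0 then D.sBack m ε z t else D.sRef m ε z t

/-- its fields -/
def fld2 (m : ℕ) (ε : ℝ) (a z : ℂ) (t : τ) (j : ℕ) : Conf PvPt → ℂ := if j = 0 then D.Xb m ε a z t else D.Xe m ε a z t

end PvypDat

/-- the forcing constants of the short cycle -/
def pvypQ2 (qb qe : ℝ≥0∞) (j : ℕ) : ℝ≥0∞ := if j = 0 then qb else qe

theorem pvyp_eqns_cite : True := by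
  have := @PvypDat.sOut.eq_1; have := @PvypDat.sBack.eq_1; have := @PvypDat.sPl.eq_1; have := @PvypDat.sRef.eq_1
  have := @PvypDat.kout0.eq_1; have := @PvypDat.kin0.eq_1; have := @PvypDat.ke0.eq_1; have := @PvypDat.kref.eq_1
  have := @PvypDat.cyc2.eq_1; have := @PvypDat.fld2.eq_1; have := @pvypQ2.eq_1
  trivial

/-! ## 2. locality, measurability, transfer to the law of the samples -/

section loc

variable {τ : Type} (D : PvypDat τ) (Γ : ℕ → PvtsGeo τ)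

theorem pvyp_kout0_reads (m : ℕ) (ε : ℝ) (a z : ℂ) (t : τ) : Conf.Reads (D.O m ε z t) (D.kout0 Γ m ε a z t) := by
  unfold PvypDat.kout0 PvsySec.kout
  exact pvti_mean_reads (pvP ε) (D.O m ε z t) _ _

theorem pvyp_kin0_reads (m : ℕ) (ε : ℝ) (a z : ℂ) (t : τ) : Conf.Reads (D.O m ε z t) (D.kin0 Γ m ε a z t) := by
  unfold PvypDat.kin0 PvsySec.kin
  exact pvti_mean_reads (pvP ε) (D.O m ε z t) _ _

theorem pvyp_ke0_reads (m : ℕ) (ε : ℝ) (a z : ℂ) (t : τ) : Conf.Reads (D.O m ε z t) (D.ke0 m ε a z t) := by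
  unfold PvypDat.ke0 PvsySec.kin
  exact pvti_mean_reads (pvP ε) (D.O m ε z t) _ _

/-- a conditional mean is measurable -/
theorem pvyp_mean_meas {μ : Measure (Conf PvPt)} [SFinite μ] {O : Set PvPt} (hO : MeasurableSet O) {w : Conf PvPt → ℝ≥0∞} (hw : Measurable w)
    {Y : Conf PvPt → ℂ} (hY : Measurable Y) : Measurable (pvtiMean μ O w Y) := by
  have hspl : Measurable (Conf.spl O : Conf PvPt × Conf PvPt → Conf PvPt) := Conf.measurable_spl hO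
  have h1 : Measurable (Function.uncurry fun σ η : Conf PvPt => w (Conf.spl O (σ, η))) := hw.comp hspl
  have h2 : StronglyMeasurable fun p : Conf PvPt × Conf PvPt => Y (Conf.spl O p) := (hY.comp hspl).stronglyMeasurable
  exact (pvsy_stronglyMeasurable_mean μ h1 h2).measurable

theorem pvyp_sec_g_meas {μ : Measure (Conf PvPt)} {a : PvsySec PvPt} (hG : MeasurableSet a.G) : Measurable (a.g μ) :=
  (measurable_one.indicator hG).div_const _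

theorem pvyp_sec_w_meas {μ : Measure (Conf PvPt)} [SFinite μ] {a b : PvsySec PvPt} (hOa : MeasurableSet a.O) (hOb : MeasurableSet b.O) (hA : MeasurableSet a.A) :
    Measurable (a.w b μ) :=
  (measurable_one.indicator hA).div (pvti_P_measurable (hOa.union hOb) hA)

/-- measurability of `kout` of a sector -/
theorem pvyp_sec_kout_meas {μ : Measure (Conf PvPt)} [SFinite μ] {a b : PvsySec PvPt} (hOa : MeasurableSet a.O) (hOb : MeasurableSet b.O) (hGb : MeasurableSet b.G)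
    (hA : MeasurableSet a.A) {X : Conf PvPt → ℂ} (hX : Measurable X) : Measurable (a.kout b μ X) :=
  pvyp_mean_meas hOa ((pvyp_sec_g_meas hGb).mul (pvyp_sec_w_meas hOa hOb hA)) hX

/-- measurability of `kin` of a sector -/
theorem pvyp_sec_kin_meas {μ : Measure (Conf PvPt)} [SFinite μ] {a b : PvsySec PvPt} (hOa : MeasurableSet a.O) (hOb : MeasurableSet b.O) (hGa : MeasurableSet a.G)
    (hA : MeasurableSet a.A) {X : Conf PvPt → ℂ} (hX : Measurable X) : Measurable (a.kin b μ X) :=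
  pvyp_mean_meas hOb ((pvyp_sec_g_meas hGa).mul (pvyp_sec_w_meas hOa hOb hA)) hX

/-- **transfer** `pvP ε` ↔ `pvLaw ε` of a set integral -/
theorem pvyp_law (ε : ℝ) {G : Set (Conf PvPt)} (hG : MeasurableSet G) {F : Conf PvPt → ℝ≥0∞} (hF : Measurable F) :
    ∫⁻ o in pvConf ⁻¹' G, F (pvConf o) ∂(pvLaw ε) = ∫⁻ σ in G, F σ ∂(pvP ε) :=
  (setLIntegral_map hG hF measurable_pvConf).symm

end loc

/-! ## 3. doors -/

section door

variable {τ : Type}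

/-- the last door of the reference word -/
theorem pvyp_door_ref (Γ : PvtsGeo τ) {δ : ℝ} (hδ : δ = Γ.δ) (z : ℂ) (t : τ) :
    pvthZ δ (z + Γ.pout t) (Γ.dout t) (Γ.l1 t) (Γ.l1 t).length = z + Γ.zu t + Γ.pin0 ∧ pvthD (Γ.dout t) (Γ.l1 t) (Γ.l1 t).length = Γ.din0 := by
  unfold pvthZ pvthD
  rw [List.take_length, hδ, Γ.l1_disp, Γ.l1_dir]
  exact ⟨by ring, rfl⟩

/-- the last door of the word of a pattern -/
theorem pvyp_door_pat (Γ : PvtsGeo τ) {δ : ℝ} (hδ : δ = Γ.δ) {π : PvtsPat τ} (hπ : Γ.Ok π) :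
    pvthZ δ (π.zt + Γ.pout π.tt) (Γ.dout π.tt) π.l π.l.length = π.zs + Γ.pin π.ts ∧ pvthD (Γ.dout π.tt) π.l π.l.length = Γ.din π.ts := by
  unfold pvthZ pvthD
  rw [List.take_length, hδ, hπ.1, hπ.2]
  exact ⟨by ring, rfl⟩

end door

/-! ## 4. field `cyc1ν` -/

section cyc1

variable {τ : Type} {c : ℝ}

/-- **WHAT `cyc1ν` OWES** at one candidate `(z,t)` of level `m`, field `y_a`.      The cycle   `t -o-> cells of l1 t -r-> u -e-> t`.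
Producers: `d4 del` 34 (numbers);   `W_eq kin0_eq` NUM (34 259 52; `kin0_eq` = I.INV);   `wf fld` 251 294;   `for_ forX` geometry of the regions + locality/measurability (185 113 166);
`frc` = admission + forcing (127 272);   `fin` integrability;   `tail` = CLOSE-P (113) + I.TAIL (43 `pvin_th_lim`). -/
structure PvypCyc (D : PvypDat τ) (Γ : ℕ → PvtsGeo τ) (W : ℝ → PvtW) (k0 : ℝ → ℂ) (a : ℂ) (m : ℕ) (z : ℂ) (t : τ) : Prop where
  d4 : ((Γ m).dout t) ^ 4 = 1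
  del : ∀ᶠ ε in 𝓝[>] (0 : ℝ), (D.kit m ε).δ = (Γ m).δ
  W_eq : ∀ᶠ ε in 𝓝[>] (0 : ℝ), W ε = (D.kit m ε).W (pvP ε) (D.X₀ m ε a)
  kin0_eq : ∀ᶠ ε in 𝓝[>] (0 : ℝ), D.kref Γ m ε a z t = k0 ε
  wf : ∀ᶠ ε in 𝓝[>] (0 : ℝ), (D.kit m ε).WF
  fld : ∀ᶠ ε in 𝓝[>] (0 : ℝ), (D.kit m ε).Fld (D.X₀ m ε a)
  for_ : ∀ᶠ ε in 𝓝[>] (0 : ℝ), PvskFor (pvP ε) (D.sOut m ε z t) (D.kit m ε) (z + (Γ m).pout t) ((Γ m).dout t) ((Γ m).l1 t) (D.Kr m ε z t) (D.Ar m ε z t) (D.sRef m ε z t)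
  forX : ∀ᶠ ε in 𝓝[>] (0 : ℝ), PvskForFld (pvP ε) (D.sOut m ε z t) (D.kit m ε) (z + (Γ m).pout t) ((Γ m).dout t) ((Γ m).l1 t) (D.Kr m ε z t) (D.sRef m ε z t)
    (D.Xo m ε a z t) (D.Xr m ε a z t) (D.Xe m ε a z t)
  frc : ∃ β' βc qa qk qf qc : ℝ≥0∞, β' ≠ 0 ∧ βc ≠ 0 ∧ qa ≠ 0 ∧ qk ≠ 0 ∧ qf ≠ 0 ∧ qc ≠ 0 ∧
    (∀ᶠ ε in 𝓝[>] (0 : ℝ), β' ≤ pvP ε (D.kit m ε).G₀) ∧ (∀ᶠ ε in 𝓝[>] (0 : ℝ), βc ≤ pvP ε (D.Gu m ε z t)) ∧
    ∀ᶠ ε in 𝓝[>] (0 : ℝ), PvsyCycForced (pvP ε) (((Γ m).l1 t).length + 3)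
      (pvskList (D.sOut m ε z t) (D.kit m ε) (z + (Γ m).pout t) ((Γ m).dout t) ((Γ m).l1 t) (D.Kr m ε z t) (D.Ar m ε z t) (D.sRef m ε z t))
      (Finset.Ioo 0 (((Γ m).l1 t).length + 3)) (Finset.range (((Γ m).l1 t).length + 3)) (pvskQ qa qk qf qc ((Γ m).l1 t).length)
  fin : ∀ᶠ ε in 𝓝[>] (0 : ℝ), ∀ j < ((Γ m).l1 t).length + 3, ∫⁻ η in D.G m ε z t ∩ pvsyEv (((Γ m).l1 t).length + 3)
      (pvskList (D.sOut m ε z t) (D.kit m ε) (z + (Γ m).pout t) ((Γ m).dout t) ((Γ m).l1 t) (D.Kr m ε z t) (D.Ar m ε z t) (D.sRef m ε z t))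
      (Finset.Ioo 0 (((Γ m).l1 t).length + 3)) (Finset.range (((Γ m).l1 t).length + 3)),
    ‖pvskFld (D.Xo m ε a z t) (D.kit m ε) (D.X₀ m ε a) (z + (Γ m).pout t) ((Γ m).dout t) ((Γ m).l1 t) (D.Xr m ε a z t) (D.Xe m ε a z t) j η‖ₑ ∂(pvP ε) ≠ ∞
  tail : Tendsto (fun ε => ∫⁻ η in D.G m ε z t ∩ pvsyEv (((Γ m).l1 t).length + 3)
      (pvskList (D.sOut m ε z t) (D.kit m ε) (z + (Γ m).pout t) ((Γ m).dout t) ((Γ m).l1 t) (D.Kr m ε z t) (D.Ar m ε z t) (D.sRef m ε z t))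
      (Finset.Ioo 0 (((Γ m).l1 t).length + 3)) (Finset.range (((Γ m).l1 t).length + 3)),
    ‖∑ j ∈ Finset.range (((Γ m).l1 t).length + 3),
      pvskFld (D.Xo m ε a z t) (D.kit m ε) (D.X₀ m ε a) (z + (Γ m).pout t) ((Γ m).dout t) ((Γ m).l1 t) (D.Xr m ε a z t) (D.Xe m ε a z t) j η‖ₑ ^ 2 ∂(pvP ε)) (𝓝[>] (0 : ℝ)) (𝓝 0)

variable {D : PvypDat τ} {Γ : ℕ → PvtsGeo τ} {W : ℝ → PvtW} {k0 : ℝ → ℂ} {a : ℂ} {m : ℕ} {z : ℂ} {t : τ}

/-- **FIELD `cyc1ν`, on `Conf PvPt`** -/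
theorem pvyp_cyc1 (h : PvypCyc D Γ W k0 a m z t) :
    Tendsto (fun ε => ∫⁻ σ in D.G m ε z t, ‖D.kout0 Γ m ε a z t σ + pvtSum (W ε) ((Γ m).dout t) ((Γ m).l1 t) + k0 ε + D.ke0 m ε a z t σ‖ₑ ^ 2 ∂(pvP ε))
      (𝓝[>] (0 : ℝ)) (𝓝 0) := by
  obtain ⟨β', βc, qa, qk, qf, qc, h1, h2, h3, h4, h5, h6, h7, h8, h9⟩ := h.frc
  have key := pvsk_cyc1 (fl := 𝓝[>] (0 : ℝ)) (z := z + (Γ m).pout t) (d := (Γ m).dout t) (l := (Γ m).l1 t) (fun ε => ε) (fun ε => D.kit m ε)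
    (fun ε => D.sOut m ε z t) (fun ε => D.sRef m ε z t) (fun ε => D.Kr m ε z t) (fun ε => D.Ar m ε z t) (fun ε => D.Xo m ε a z t) (fun ε => D.Xr m ε a z t)
    (fun ε => D.Xe m ε a z t) (fun ε => D.X₀ m ε a) h.d4 h.wf h.fld h.for_ h.forX h1 h2 h3 h4 h5 h6 h7 h8 h9 h.fin h.tail
  refine key.congr' ?_
  filter_upwards [h.del, h.W_eq, h.kin0_eq] with ε e1 e2 e3
  obtain ⟨d1, d2⟩ := pvyp_door_ref (Γ m) e1 z t
  rw [d1, d2, e2, ← e3]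
  rfl

end cyc1

/-! ## 5. field `thickν` -/

section thick

variable {τ : Type} {c : ℝ}

/-- **WHAT `thickν` OWES** at one candidate: the SHORT cycle `t -b-> u -e-> t`.      The constants `βu qb qe CB` are numbers of the menu (UNIFORM in `m z t a`, `‖a‖ ≤ CA`).
Producers: `wf fld` geometry + locality (185 113);   `frc adm` P16 (d) thick short links (272), P18 (127);   `bes` = CLOSE-P with the deterministic mask `U_e` (113) + I.BES (223 181 43). -/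
structure PvypThk (D : PvypDat τ) (h : ℝ) (βu qb qe CB : ℝ≥0∞) (a : ℂ) (m : ℕ) (z : ℂ) (t : τ) : Prop where
  wf : ∀ᶠ ε in 𝓝[>] (0 : ℝ), PvsyCycWF (pvP ε) 2 (D.cyc2 m ε z t)
  fld : ∀ᶠ ε in 𝓝[>] (0 : ℝ), PvsyCycFld (pvP ε) 2 (D.cyc2 m ε z t) (D.fld2 m ε a z t)
  frc : ∀ᶠ ε in 𝓝[>] (0 : ℝ), PvsyCycForced (pvP ε) 2 (D.cyc2 m ε z t) (Finset.Ioo 0 2) (Finset.range 2) (pvypQ2 qb qe)
  adm : ∀ᶠ ε in 𝓝[>] (0 : ℝ), βu ≤ pvP ε (D.Gu m ε z t)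
  bes : ∀ᶠ ε in 𝓝[>] (0 : ℝ), ∫⁻ η in D.G m ε z t ∩ pvsyEv 2 (D.cyc2 m ε z t) (Finset.Ioo 0 2) (Finset.range 2), ‖D.Xe m ε a z t η‖ₑ ^ 2 ∂(pvP ε) ≤ CB * ENNReal.ofReal (h ^ 2)

variable {D : PvypDat τ} {h : ℝ} {βu qb qe CB : ℝ≥0∞} {a : ℂ} {m : ℕ} {z : ℂ} {t : τ}

/-- the constant of the short cycle -/
theorem pvyp_Dc2 (D : PvypDat τ) (m : ℕ) (ε : ℝ) (z : ℂ) (t : τ) (qb qe : ℝ≥0∞) :
    pvsyDc (pvP ε) 2 (D.cyc2 m ε z t) (Finset.Ioo 0 2) (Finset.range 2) (pvypQ2 qb qe) = (pvP ε (D.Gu m ε z t))⁻¹ * (qb⁻¹ * qe⁻¹) := by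
  have e1 : (Finset.Ioo 0 2).filter (· < 2) = {1} := by decide
  have e2 : (Finset.range 2).filter (· < 2) = {0, 1} := by decide
  unfold pvsyDc
  rw [e1, e2, Finset.prod_singleton, Finset.prod_pair (by norm_num)]
  rfl

/-- **FIELD `thickν`, on `Conf PvPt`** -/
theorem pvyp_thick (H : PvypThk D h βu qb qe CB a m z t) :
    ∀ᶠ ε in 𝓝[>] (0 : ℝ), ∫⁻ σ in D.G m ε z t, ‖D.ke0 m ε a z t σ‖ₑ ^ 2 ∂(pvP ε) ≤ βu⁻¹ * (qb⁻¹ * qe⁻¹) * (CB * ENNReal.ofReal (h ^ 2)) := by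
  filter_upwards [H.wf, H.fld, H.frc, H.adm, H.bes] with ε h1 h2 h3 h4 h5
  have key := pvsy_pin_last (pv_isPpp ε) h1 h2 h3 2
  rw [pvyp_Dc2] at key
  refine le_trans key ?_
  gcongr
  exact h5

end thick

/-! ## 6. the `c`-side of `n1ν` -/

section pat

variable {τ : Type} {c : ℝ}

/-- **WHAT THE `c`-SIDE OF A PATTERN OWES**: the chain   `t -o-> cells of π.l -i-> s`. -/
structure PvypPat (D : PvypDat τ) (Γ : ℕ → PvtsGeo τ) (W : PvtW) (a : ℂ) (m : ℕ) (ε : ℝ) (π : PvtsPat τ) (q : ℕ → ℝ≥0∞) : Prop where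
  ok : (Γ m).Ok π
  d4 : ((Γ m).dout π.tt) ^ 4 = 1
  del : (D.kit m ε).δ = (Γ m).δ
  W_eq : W = (D.kit m ε).W (pvP ε) (D.X₀ m ε a)
  wf : (D.kit m ε).WF
  fld : (D.kit m ε).Fld (D.X₀ m ε a)
  for_ : PvskFor (pvP ε) (D.sOut m ε π.zt π.tt) (D.kit m ε) (π.zt + (Γ m).pout π.tt) ((Γ m).dout π.tt) π.l (D.Ki m ε π.zs π.ts) (D.Ai m ε π.zs π.ts) (D.sPl m ε π.zs π.ts)
  forX : PvskForFld (pvP ε) (D.sOut m ε π.zt π.tt) (D.kit m ε) (π.zt + (Γ m).pout π.tt) ((Γ m).dout π.tt) π.l (D.Ki m ε π.zs π.ts) (D.sPl m ε π.zs π.ts)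
    (D.Xo m ε a π.zt π.tt) (D.Xi m ε a π.zs π.ts) 0
  frc : PvsyCycForced (pvP ε) (π.l.length + 2 + 1)
    (pvskList (D.sOut m ε π.zt π.tt) (D.kit m ε) (π.zt + (Γ m).pout π.tt) ((Γ m).dout π.tt) π.l (D.Ki m ε π.zs π.ts) (D.Ai m ε π.zs π.ts) (D.sPl m ε π.zs π.ts))
    (Finset.Ioo 0 (π.l.length + 2)) (Finset.range (π.l.length + 2)) q
  fin : ∀ j < π.l.length + 2, ∫⁻ η in D.G m ε π.zt π.tt ∩ D.G m ε π.zs π.ts ∩ pvsyEv (π.l.length + 2 + 1)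
      (pvskList (D.sOut m ε π.zt π.tt) (D.kit m ε) (π.zt + (Γ m).pout π.tt) ((Γ m).dout π.tt) π.l (D.Ki m ε π.zs π.ts) (D.Ai m ε π.zs π.ts) (D.sPl m ε π.zs π.ts))
      (Finset.Ioo 0 (π.l.length + 2)) (Finset.range (π.l.length + 2)),
    ‖pvskFld (D.Xo m ε a π.zt π.tt) (D.kit m ε) (D.X₀ m ε a) (π.zt + (Γ m).pout π.tt) ((Γ m).dout π.tt) π.l (D.Xi m ε a π.zs π.ts) 0 j η‖ₑ ∂(pvP ε) ≠ ∞

variable {D : PvypDat τ} {Γ : ℕ → PvtsGeo τ} {W : PvtW} {a : ℂ} {m : ℕ} {ε : ℝ} {π : PvtsPat τ} {q : ℕ → ℝ≥0∞}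

/-- **THE `c`-SIDE OF `n1ν`** (TR23 for region states, family form of 95): the closing sum of the chain may be replaced by   `kout0(t) + pvtSum W + kin0(s)`. -/
theorem pvyp_pattern (h : PvypPat D Γ W a m ε π q)
    {ι : Type*} {Xg : ι → Conf PvPt → ℂ} {ag : ι → Conf PvPt → ℝ≥0∞} {H : Conf PvPt → ℝ≥0∞}
    (hXr : ∀ i, Conf.Reads (pvsyC0 (π.l.length + 2)
      (pvskList (D.sOut m ε π.zt π.tt) (D.kit m ε) (π.zt + (Γ m).pout π.tt) ((Γ m).dout π.tt) π.l (D.Ki m ε π.zs π.ts) (D.Ai m ε π.zs π.ts) (D.sPl m ε π.zs π.ts)))ᶜ (Xg i))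
    (har : ∀ i, Conf.Reads (pvsyC0 (π.l.length + 2)
      (pvskList (D.sOut m ε π.zt π.tt) (D.kit m ε) (π.zt + (Γ m).pout π.tt) ((Γ m).dout π.tt) π.l (D.Ki m ε π.zs π.ts) (D.Ai m ε π.zs π.ts) (D.sPl m ε π.zs π.ts)))ᶜ (ag i))
    (hH : AEMeasurable H (pvP ε)) (ha : ∀ i σ, ag i σ ≠ 0 → σ ∈ D.G m ε π.zt π.tt ∧ σ ∈ D.G m ε π.zs π.ts)
    (hdom : ∀ᵐ η ∂(pvP ε), η ∈ pvsyEv (π.l.length + 2 + 1)
        (pvskList (D.sOut m ε π.zt π.tt) (D.kit m ε) (π.zt + (Γ m).pout π.tt) ((Γ m).dout π.tt) π.l (D.Ki m ε π.zs π.ts) (D.Ai m ε π.zs π.ts) (D.sPl m ε π.zs π.ts))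
        (Finset.Ioo 0 (π.l.length + 2)) (Finset.range (π.l.length + 2)) →
      ∑' i, ‖Xg i η + ∑ j ∈ Finset.range (π.l.length + 2),
        pvskFld (D.Xo m ε a π.zt π.tt) (D.kit m ε) (D.X₀ m ε a) (π.zt + (Γ m).pout π.tt) ((Γ m).dout π.tt) π.l (D.Xi m ε a π.zs π.ts) 0 j η‖ₑ ^ 2 * ag i η ≤ H η) :
    ∫⁻ σ, ∑' i, ‖Xg i σ + (D.kout0 Γ m ε a π.zt π.tt σ + pvtSum W ((Γ m).dout π.tt) π.l + D.kin0 Γ m ε a π.zs π.ts σ)‖ₑ ^ 2 * ag i σ ∂(pvP ε)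
      ≤ pvsyDc (pvP ε) (π.l.length + 2 + 1)
          (pvskList (D.sOut m ε π.zt π.tt) (D.kit m ε) (π.zt + (Γ m).pout π.tt) ((Γ m).dout π.tt) π.l (D.Ki m ε π.zs π.ts) (D.Ai m ε π.zs π.ts) (D.sPl m ε π.zs π.ts))
          (Finset.Ioo 0 (π.l.length + 2)) (Finset.range (π.l.length + 2)) q *
        ∫⁻ η in pvsyEv (π.l.length + 2 + 1)
          (pvskList (D.sOut m ε π.zt π.tt) (D.kit m ε) (π.zt + (Γ m).pout π.tt) ((Γ m).dout π.tt) π.l (D.Ki m ε π.zs π.ts) (D.Ai m ε π.zs π.ts) (D.sPl m ε π.zs π.ts))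
          (Finset.Ioo 0 (π.l.length + 2)) (Finset.range (π.l.length + 2)), H η ∂(pvP ε) := by
  have key := pvsk_pattern h.wf h.fld h.d4 h.for_ h.forX h.frc h.fin hXr har hH ha hdom
  obtain ⟨d1, d2⟩ := pvyp_door_pat (Γ m) h.del h.ok
  rw [d1, d2, ← h.W_eq] at key
  exact key

end pat

/-! ## 7. the fields of `PvrpIn` (273), `cf := pvConf`, `Pr := pvLaw` -/

section law

variable {τ : Type} {c : ℝ}

/-- **strict measurability of the data of one candidate** (fields `G_meas kout0_meas ke0_meas` of `PvrpIn`; producers 185 238 220 263) -/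
structure PvypMeas (D : PvypDat τ) (Γ : ℕ → PvtsGeo τ) (a : ℂ) (m : ℕ) (ε : ℝ) (z : ℂ) (t : τ) : Prop where
  mO : MeasurableSet (D.O m ε z t)
  mG : MeasurableSet (D.G m ε z t)
  mOd : MeasurableSet ((D.kit m ε).O (z + (Γ m).pout t) ((Γ m).dout t))
  mGd : MeasurableSet ((D.kit m ε).G (z + (Γ m).pout t) ((Γ m).dout t))
  mAo : MeasurableSet (D.Ao m ε z t)
  mXo : Measurable (D.Xo m ε a z t)
  mOu : MeasurableSet (D.Ou m ε z t)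
  mGu : MeasurableSet (D.Gu m ε z t)
  mAe : MeasurableSet (D.Ae m ε z t)
  mXe : Measurable (D.Xe m ε a z t)

variable {D : PvypDat τ} {Γ : ℕ → PvtsGeo τ} {W : ℝ → PvtW} {k0 : ℝ → ℂ} {h : ℝ} {a : ℂ} {m : ℕ} {ε : ℝ} {z : ℂ} {t : τ}

theorem pvyp_kout0_meas (h : PvypMeas D Γ a m ε z t) : Measurable (D.kout0 Γ m ε a z t) := by
  have := (pv_isPpp ε).prob
  exact pvyp_sec_kout_meas (a := D.sOut m ε z t) (b := pvskBare (D.kit m ε) (z + (Γ m).pout t) ((Γ m).dout t)) h.mO h.mOd h.mGd h.mAo h.mXo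

theorem pvyp_ke0_meas (h : PvypMeas D Γ a m ε z t) : Measurable (D.ke0 m ε a z t) := by
  have := (pv_isPpp ε).prob
  exact pvyp_sec_kin_meas (a := D.sRef m ε z t) (b := D.sPl m ε z t) h.mOu h.mO h.mGu h.mAe h.mXe

/-- field `kout0_meas` -/
theorem pvyp_kout0_meas_law (h : PvypMeas D Γ a m ε z t) : Measurable fun o => D.kout0 Γ m ε a z t (pvConf o) := (pvyp_kout0_meas h).comp measurable_pvConf

/-- field `ke0_meas` -/
theorem pvyp_ke0_meas_law (h : PvypMeas D Γ a m ε z t) : Measurable fun o => D.ke0 m ε a z t (pvConf o) := (pvyp_ke0_meas h).comp measurable_pvConf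

/-- field `G_meas` -/
theorem pvyp_G_meas_law (h : PvypMeas D Γ a m ε z t) : MeasurableSet (pvConf ⁻¹' D.G m ε z t) := measurable_pvConf h.mG

/-- **FIELD `cyc1ν` OF `PvrpIn`** -/
theorem pvyp_cyc1_law (h : PvypCyc D Γ W k0 a m z t) (hm : ∀ᶠ ε in 𝓝[>] (0 : ℝ), PvypMeas D Γ a m ε z t) :
    Tendsto (fun ε => ∫⁻ o in pvConf ⁻¹' D.G m ε z t,
      ‖D.kout0 Γ m ε a z t (pvConf o) + pvtSum (W ε) ((Γ m).dout t) ((Γ m).l1 t) + k0 ε + D.ke0 m ε a z t (pvConf o)‖ₑ ^ 2 ∂(pvLaw ε)) (𝓝[>] (0 : ℝ)) (𝓝 0) := by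
  refine (pvyp_cyc1 h).congr' ?_
  filter_upwards [hm] with ε hε
  exact (pvyp_law ε hε.mG (F := fun σ => ‖D.kout0 Γ m ε a z t σ + pvtSum (W ε) ((Γ m).dout t) ((Γ m).l1 t) + k0 ε + D.ke0 m ε a z t σ‖ₑ ^ 2)
    (((((pvyp_kout0_meas hε).add_const _).add_const _).add (pvyp_ke0_meas hε)).enorm.pow_const 2)).symm

/-- **FIELD `thickν` OF `PvrpIn`** -/
theorem pvyp_thick_law {βu qb qe CB : ℝ≥0∞} (H : PvypThk D h βu qb qe CB a m z t) (hm : ∀ᶠ ε in 𝓝[>] (0 : ℝ), PvypMeas D Γ a m ε z t)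
    {Ce0 : ℝ} (hC : βu⁻¹ * (qb⁻¹ * qe⁻¹) * CB ≤ ENNReal.ofReal Ce0) :
    ∀ᶠ ε in 𝓝[>] (0 : ℝ), ∫⁻ o in pvConf ⁻¹' D.G m ε z t, ‖D.ke0 m ε a z t (pvConf o)‖ₑ ^ 2 ∂(pvLaw ε) ≤ ENNReal.ofReal (Ce0 * h ^ 2) := by
  filter_upwards [pvyp_thick H, hm] with ε h1 hε
  rw [pvyp_law ε hε.mG (F := fun σ => ‖D.ke0 m ε a z t σ‖ₑ ^ 2) ((pvyp_ke0_meas hε).enorm.pow_const 2)]
  refine h1.trans ?_
  by_cases h0 : 0 ≤ Ce0
  · rw [ENNReal.ofReal_mul h0, ← mul_assoc]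
    gcongr
  · have e0 : ENNReal.ofReal Ce0 = 0 := ENNReal.ofReal_of_nonpos (le_of_not_ge h0)
    rw [e0, nonpos_iff_eq_zero] at hC
    rw [← mul_assoc, hC, zero_mul]
    exact zero_le

end law

/-! ## 8. the U-form (`PvrpInU` of 286, `PvrxAna` of 79): upper expectations over `pvhbUp ε`, NULL-measurable data only -/

section aem

variable {m₀ : Measure PvPt} {μ : Measure (Conf PvPt)}

/-- a conditional mean of a.e. measurable data is a.e. measurable -/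
theorem pvyp_mean_aem (h : IsPpp m₀ μ) {O : Set PvPt} (hO : MeasurableSet O) {w : Conf PvPt → ℝ≥0∞} (hw : AEMeasurable w μ)
    {Y : Conf PvPt → ℂ} (hY : AEMeasurable Y μ) : AEMeasurable (pvtiMean μ O w Y) μ := by
  have := h.prob
  exact ⟨pvtiMean μ O (hw.mk w) (hY.mk Y), pvyp_mean_meas hO hw.measurable_mk hY.measurable_mk, (pvsy_mean_congr h hO hw.ae_eq_mk.symm hY.ae_eq_mk.symm).symm⟩

theorem pvyp_sec_g_aem {a : PvsySec PvPt} (hG : NullMeasurableSet a.G μ) : AEMeasurable (a.g μ) μ :=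
  (aemeasurable_const.indicator₀ hG).div_const _

theorem pvyp_P_aem (h : IsPpp m₀ μ) {O : Set PvPt} (hO : MeasurableSet O) {A : Set (Conf PvPt)} (hA : NullMeasurableSet A μ) : AEMeasurable (pvtiP μ O A) μ := by
  have := h.prob
  exact ⟨pvtiP μ O (toMeasurable μ A), pvti_P_measurable hO (measurableSet_toMeasurable μ A), (pvsy_P_congr h hO hA.toMeasurable_ae_eq).symm⟩

theorem pvyp_sec_w_aem (h : IsPpp m₀ μ) {a b : PvsySec PvPt} (hOa : MeasurableSet a.O) (hOb : MeasurableSet b.O) (hA : NullMeasurableSet a.A μ) : AEMeasurable (a.w b μ) μ :=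
  (aemeasurable_const.indicator₀ hA).div (pvyp_P_aem h (hOa.union hOb) hA)

theorem pvyp_sec_kout_aem (h : IsPpp m₀ μ) {a b : PvsySec PvPt} (hOa : MeasurableSet a.O) (hOb : MeasurableSet b.O) (hGb : NullMeasurableSet b.G μ)
    (hA : NullMeasurableSet a.A μ) {X : Conf PvPt → ℂ} (hX : AEMeasurable X μ) : AEMeasurable (a.kout b μ X) μ :=
  pvyp_mean_aem h hOa ((pvyp_sec_g_aem hGb).mul (pvyp_sec_w_aem h hOa hOb hA)) hX

theorem pvyp_sec_kin_aem (h : IsPpp m₀ μ) {a b : PvsySec PvPt} (hOa : MeasurableSet a.O) (hOb : MeasurableSet b.O) (hGa : NullMeasurableSet a.G μ)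
    (hA : NullMeasurableSet a.A μ) {X : Conf PvPt → ℂ} (hX : AEMeasurable X μ) : AEMeasurable (a.kin b μ X) μ :=
  pvyp_mean_aem h hOb ((pvyp_sec_g_aem hGa).mul (pvyp_sec_w_aem h hOa hOb hA)) hX

/-- **transfer to the upper expectation of the hub** -/
theorem pvyp_up (ε : ℝ) {G : Set (Conf PvPt)} (hG : NullMeasurableSet G (pvP ε)) {F : Conf PvPt → ℝ≥0∞} (hF : AEMeasurable F (pvP ε)) :
    (pvhbUp ε).E (fun q => G.indicator F (pvConf (pvMerge q))) ≤ ∫⁻ σ in G, F σ ∂(pvP ε) := by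
  refine (pvhb_up_E_conf ε (F := G.indicator F) (hF.indicator₀ hG) (Eventually.of_forall fun _ => le_rfl)).trans (le_of_eq ?_)
  exact lintegral_indicator₀ hG F

end aem

section up

variable {τ : Type} {D : PvypDat τ} {Γ : ℕ → PvtsGeo τ} {W : ℝ → PvtW} {k0 : ℝ → ℂ} {h : ℝ} {a : ℂ} {m : ℕ} {z : ℂ} {t : τ}

/-- **FIELD `cyc1ν`, U-FORM** (`PvrpInU`, `PvrxAna`) -/
theorem pvyp_cyc1_up (h : PvypCyc D Γ W k0 a m z t) :
    Tendsto (fun ε => (pvhbUp ε).E (fun q => (D.G m ε z t).indicator (fun ξ =>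
      ‖D.kout0 Γ m ε a z t ξ + pvtSum (W ε) ((Γ m).dout t) ((Γ m).l1 t) + k0 ε + D.ke0 m ε a z t ξ‖ₑ ^ 2) (pvConf (pvMerge q)))) (𝓝[>] (0 : ℝ)) (𝓝 0) := by
  refine tendsto_of_tendsto_of_tendsto_of_le_of_le' tendsto_const_nhds (pvyp_cyc1 h) (Eventually.of_forall fun _ => zero_le) ?_
  filter_upwards [h.wf, h.for_, h.forX] with ε hk hS hX
  have hd0 : (Γ m).dout t ≠ 0 := pvth_ne_zero (pvth_norm_of_pow h.d4)
  have k1 : AEMeasurable (D.kout0 Γ m ε a z t) (pvP ε) :=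
    pvyp_sec_kout_aem (pv_isPpp ε) (a := D.sOut m ε z t) (b := pvskBare (D.kit m ε) (z + (Γ m).pout t) ((Γ m).dout t)) hS.mOa (pvth_mO hk _ _ hd0)
      (pvth_mG hk _ _).nullMeasurableSet hS.mAa hX.mXa
  have k2 : AEMeasurable (D.ke0 m ε a z t) (pvP ε) :=
    pvyp_sec_kin_aem (pv_isPpp ε) (a := D.sRef m ε z t) (b := D.sPl m ε z t) hS.mOc hS.mOa hS.mGc hS.mAc hX.mXc
  exact pvyp_up ε hS.mGa ((((k1.add_const _).add_const _).add k2).enorm.pow_const 2)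

/-- **FIELD `thickν`, U-FORM** -/
theorem pvyp_thick_up {βu qb qe CB : ℝ≥0∞} (H : PvypThk D h βu qb qe CB a m z t) {Ce0 : ℝ} (hC : βu⁻¹ * (qb⁻¹ * qe⁻¹) * CB ≤ ENNReal.ofReal Ce0) :
    ∀ᶠ ε in 𝓝[>] (0 : ℝ), (pvhbUp ε).E (fun q => (D.G m ε z t).indicator (fun ξ => ‖D.ke0 m ε a z t ξ‖ₑ ^ 2) (pvConf (pvMerge q))) ≤ ENNReal.ofReal (Ce0 * h ^ 2) := by
  filter_upwards [pvyp_thick H, H.wf, H.fld] with ε h1 hS hX
  have k2 : AEMeasurable (D.ke0 m ε a z t) (pvP ε) :=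
    pvyp_sec_kin_aem (pv_isPpp ε) (a := D.sRef m ε z t) (b := D.sPl m ε z t) (hS.mO 1 (by norm_num)) (hS.mO 0 (by norm_num)) (hS.mG 1 (by norm_num)) (hS.mA 1 (by norm_num))
      (hX.meas 1 (by norm_num))
  refine (pvyp_up ε (hS.mG 0 (by norm_num)) (k2.enorm.pow_const 2)).trans (h1.trans ?_)
  by_cases h0 : 0 ≤ Ce0
  · rw [ENNReal.ofReal_mul h0, ← mul_assoc]
    gcongr
  · have e0 : ENNReal.ofReal Ce0 = 0 := ENNReal.ofReal_of_nonpos (le_of_not_ge h0)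
    rw [e0, nonpos_iff_eq_zero] at hC
    rw [← mul_assoc, hC, zero_mul]
    exact zero_le

end up

end Claimed.Agent.R289
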