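import Claimed.Agent.R289.Tr.N1Q
import Claimed.Agent.R289.Tr.RoadPU
import Claimed.Agent.R289.Tr.SysP
import Claimed.Agent.R289.Tr.DomFl

/-!
# Row 289 (S0537), THE WALL, ROAD P, file Tr/N1R : P17 (a) FOR NULL-MEASURABLE SYSTEMS AND FOR RIMS OF EITHER COLOUR, AND THE ADAPTER TO THE RECORD OF ROAD P      (pen helper279; prefix `pvny_`, `pvny`, `Pvny`)

WHY (1) MEASURABILITY.   The model gives the chain `c : t → … → s` only as a NULL-measurable system forced at a.e. pair of states (`PvsySys.WF₀`, `Fld₀`, `Forced₀`: 58 `Tr/SysP`, 95 `PvsyCycWF`), TR2 (normal form of the mean) only ALMOST EVERYWHERE (`pvsy_y_eq_ae`), `Θ` only a.e. measurable;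
`PvdmSys.Hyp` (`mw mY mH`), `PvnwGeo.Hyp` (`wf fld mΘ`) and `PvrpBaseQ.N1In.yh` ask the exact / pointwise forms.      CURE: the integrand of record is written with the NORMAL FORM `yN` from the start,
`Z₀ ζ = ∑_g 1_{Ends ∩ E g}(ζ) ‖X_g ζ + yN ζ‖²`,   so the deterministic field `stab` is trivial from ACT, and `n1ν` is proved by REGULARISATION (`pvsy_reg_ae`, `pvsy_kern` of 95) + TR23 + a.e. monotonicity of the upper expectation.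
WHY (2) COLOUR AND CYLINDER (defects D1 D2 of 59, `N1SYSP_59.md`; 147).   `PvnwGeo.Hyp.stabE/stabW` of `Tr/N1Q` are ORIENTED (`σ' z ≤ σ z`: true for a rim of colour `true` only) and `stabW` is asked off the cylinder (false for a lane which starts at the gates of the STATES).
CURE: the order `pvdfLe c` and `PvdmSys.HypC c`, `pvdf_main_up` of 286 (`Tr/DomFl`);   `stabW` at frozen colours of `V g ∪ O2`.      `PvnwGeo.Hyp` of `Tr/N1Q` = the special case `c = true`, lane monotone everywhere.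
* sec. 1  `pvny_E_mono_ae`, `pvny_reg` (regularisation with `G' ⊆ G`).
* sec. 2  `PvnwGeo.HypB ε c` (exact measurability, colour `c`), `pvny_dom_hyp` (⟹ `PvdmSys.HypC c`), `pvny_firstB`;   `PvnwGeo.Hyp₀ ε c yN`, `PvnwGeo.Z₀ yN`, **`pvny_regGeo`** (regularised term + null set), **`pvny_first`**, **`pvny_n1nu`** (= field `n1ν` of `PvrpInQ` at `Z := Z₀`).
* sec. 3  THE ARC SIDE ALONE: record `PvnyArc ι` (field `col` = colour of the rim), contracts `PvnyArc.Hyp ε En Ev Yc`, integrand `PvnyArc.Z En yN`.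
* sec. 4  cyclic lists (95), thin chains (58), data of road P (58): `pvny_cyc_yN`, **`pvny_pattern`**, **`pvny_sk_pattern`**, contract **`PvnyPat`**, **`pvny_yp_first`**.
* sec. 5  **`pvny_yp_n1nu`** (= field `n1ν` of `PvrxArc` of 79), **`pvny_yp_stab`** (= the `ν`-half of field `stab`, pointwise).
-/

set_option autoImplicit false
set_option linter.unusedSectionVars false
set_option linter.unusedVariables false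

namespace Claimed.Agent.R289

open MeasureTheory ProbabilityTheory Set Filter Topology Claims.C0465
open scoped ENNReal NNReal

/-! ## 1. tools -/

/-- the two-level upper expectation of a function of the configuration is monotone for `pvP`-a.e. inequalities -/
theorem pvny_E_mono_ae (ε : ℝ) {F G : Conf PvPt → ℝ≥0∞} (h : ∀ᵐ ζ ∂pvP ε, F ζ ≤ G ζ) :
    (pvhbUp ε).E (fun q => F (pvConf (pvMerge q))) ≤ (pvhbUp ε).E (fun q => G (pvConf (pvMerge q))) := by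
  have h1 : ∀ᵐ ω ∂pvLaw ε, F (pvConf ω) ≤ G (pvConf ω) := ae_of_ae_map measurable_pvConf.aemeasurable h
  have h2 := pvqu_ae ε h1
  exact pvnz_int_mono_ae (pvGeo ε) (h2.mono fun g hg => pvnz_int_mono_ae pvCol hg)

/-- **REGULARISATION** (`pvsy_reg_ae` of 95) with the inclusion `G' ⊆ G` -/
theorem pvny_reg {E : Type*} [MeasurableSpace E] {U C : Type*} [Fintype U] [Fintype C] [DecidableEq U] [DecidableEq C] {m : Measure E} {μ : Measure (Conf E)} {S : PvsySys E U C} {X : C → Conf E → ℂ}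
    {Cu : Finset U} {Cf : Finset C} {q : C → ℝ≥0∞} (h : IsPpp m μ) (hS : S.WF₀ μ) (hX : S.Fld₀ μ X) (hF : S.Forced₀ μ Cu Cf q) :
    ∃ (S' : PvsySys E U C) (X' : C → Conf E → ℂ), S.AE μ S' ∧ (∀ e, X' e =ᵐ[μ] X e) ∧ S'.WF ∧ S'.Fld X' ∧ S'.Forced μ Cu Cf q ∧ ∀ u, S'.G u ⊆ S.G u := by
  obtain ⟨S1, X', hA, hXX, hS1, hX1, hF1⟩ := pvsy_reg_ae h hS hX hF
  choose Gk k1 k2 k3 k4 using fun u => pvsy_kern h (hS.mO u) (hS.mG u) (hS.rG u)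
  have hGG : ∀ u, (S1.G u ∩ Gk u : Set (Conf E)) =ᵐ[μ] S.G u := fun u => by
    have := (hA.G u).inter (k4 u)
    rwa [inter_self] at this
  refine ⟨{ S1 with G := fun u => S1.G u ∩ Gk u }, X', ⟨hA.O, hA.K, hA.src, hA.tgt, hGG, hA.A⟩, hXX,
    ⟨hS1.mO, hS1.mK, hS1.dj, hS1.ne, fun u => (hS1.mG u).inter (k1 u), hS1.mA, fun u => (hS1.rG u).inter (by rw [hA.O]; exact k2 u), hS1.rA⟩,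
    ⟨hX1.meas, hX1.reads⟩, ⟨fun u hu => ?_, hF1.q_pos, hF1.q_le, fun e he σ h1 h2 => hF1.frc e he σ h1.1 h2.1⟩, fun u => inter_subset_right.trans (k3 u)⟩
  show μ (S1.G u ∩ Gk u) ≠ 0
  rw [measure_congr (hGG u)]
  exact hF.G_pos u hu

/-! ## 2. the contracts in the null-measurable form -/

variable {ι : Type*} {U : Type*} {C : Type*}

/-- **THE CONTRACTS, EXACT MEASURABILITY, RIM OF COLOUR `b`** = `PvnwGeo.Hyp` of `Tr/N1Q` with the order `pvdfLe b` in `stabE`, `stabW` -/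
structure PvnwGeo.HypB (𝔊 : PvnwGeo ι U C) (ε : ℝ) (b : Bool) : Prop where
  ok_ae : ∀ᵐ ω ∂pvP ε, 𝔊.Ok (cfSites ω)
  mC0 : MeasurableSet 𝔊.C0
  wf : 𝔊.Sy.WF
  fld : 𝔊.Sy.Fld 𝔊.X
  frc : 𝔊.Sy.Forced (pvP ε) 𝔊.Cu 𝔊.Cf 𝔊.qf
  mΘ : Measurable 𝔊.Θ
  hR : 𝔊.Sy.R 𝔊.Cu 𝔊.Cf = Prod.fst ⁻¹' 𝔊.C0
  hMk : 𝔊.Sy.Mk 𝔊.Cu 𝔊.Cf ⊆ Prod.fst ⁻¹' 𝔊.O2
  O2T : 𝔊.O2 ⊆ 𝔊.T
  cntY : ∀ Y, 𝔊.Ok Y → Y.Countable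
  cnt : ∀ Y, 𝔊.Ok Y → {g | ∃ σ, cfOf Y σ ∈ 𝔊.E g}.Countable
  finT : ∀ Y, 𝔊.Ok Y → (Y ∩ 𝔊.T).Finite
  VT : ∀ Y, 𝔊.Ok Y → ∀ g σ, cfOf Y σ ∈ 𝔊.E g → 𝔊.V g ⊆ 𝔊.T
  stabE : ∀ Y, 𝔊.Ok Y → ∀ g σ σ', cfOf Y σ ∈ 𝔊.E g → (∀ z ∈ Y, z ∈ 𝔊.V g ∪ 𝔊.O2 → σ' z = σ z) → (∀ z ∈ Y, z ∈ 𝔊.T → pvdfLe b (σ' z) (σ z)) →
    cfOf Y σ' ∈ 𝔊.E g ∧ 𝔊.Xg g (cfOf Y σ') = 𝔊.Xg g (cfOf Y σ)
  stabW : ∀ Y, 𝔊.Ok Y → ∀ g σ₀ σ σ', cfOf Y σ₀ ∈ 𝔊.E g → (∀ z ∈ Y, z ∈ 𝔊.V g ∪ 𝔊.O2 → σ z = σ₀ z) → (∀ z ∈ Y, z ∈ 𝔊.V g ∪ 𝔊.O2 → σ' z = σ₀ z) →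
    (∀ z ∈ Y, z ∈ 𝔊.T → pvdfLe b (σ' z) (σ z)) → cfOf Y σ ∈ 𝔊.W → cfOf Y σ' ∈ 𝔊.W
  hq : ∀ Y, 𝔊.Ok Y → ∀ g σ, cfOf Y σ ∈ 𝔊.Sy.Ends 𝔊.Cu 𝔊.Cf → cfOf Y σ ∈ 𝔊.E g →
    𝔊.qW ≤ colLaw ℂ {κ | cfOf Y (pvdmOv (𝔊.V g ∪ 𝔊.O2)ᶜ κ σ) ∈ 𝔊.W}
  rE : ∀ g, Conf.ReadsSet (pvdmU 𝔊.C0) (𝔊.E g)
  rW : Conf.ReadsSet (pvdmU 𝔊.C0) 𝔊.W
  rX : ∀ g, Conf.Reads (pvdmU 𝔊.C0) (𝔊.Xg g)
  close : ∀ᵐ ω ∂pvP ε, ω ∈ 𝔊.Sy.Ev 𝔊.Cu 𝔊.Cf →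
    ∑' g, (𝔊.Sy.Ends 𝔊.Cu 𝔊.Cf ∩ 𝔊.E g ∩ 𝔊.W).indicator (fun ω => ‖𝔊.Xg g ω + pvsyY 𝔊.X 𝔊.Cf ω‖ₑ ^ 2) ω ≤ 𝔊.Θ ω

section hypB

variable [Fintype U] [Fintype C] [DecidableEq U] [DecidableEq C] {𝔊 : PvnwGeo ι U C} {ε : ℝ} {b : Bool}

/-- the chain alone (no arc, no lane) satisfies the contracts of `Tr/N1Q`: the lemmas of `Tr/N1Q` on the chain side apply -/
theorem PvnwGeo.HypB.base (h : 𝔊.HypB ε b) : PvnwGeo.Hyp ({ 𝔊 with E := fun _ => ∅, W := ∅ } : PvnwGeo ι U C) ε where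
  ok_ae := h.ok_ae
  mC0 := h.mC0
  wf := h.wf
  fld := h.fld
  frc := h.frc
  mΘ := h.mΘ
  hR := h.hR
  hMk := h.hMk
  O2T := h.O2T
  cntY := h.cntY
  cnt := fun Y hY => by
    have : {g : ι | ∃ σ : ℂ → Bool, cfOf Y σ ∈ (∅ : Set (Conf PvPt))} = ∅ := by
      ext g; simp
    show {g : ι | ∃ σ : ℂ → Bool, cfOf Y σ ∈ (∅ : Set (Conf PvPt))}.Countable
    rw [this]
    exact countable_empty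
  finT := h.finT
  VT := fun Y hY g σ hσ => absurd hσ (notMem_empty _)
  stabE := fun Y hY g σ σ' hσ _ _ => absurd hσ (notMem_empty _)
  stabW := fun Y hY σ σ' _ hW => absurd hW (notMem_empty _)
  hq := fun Y hY g σ _ h2 => absurd h2 (notMem_empty _)
  rE := fun g η => Iff.rfl
  rW := fun η => Iff.rfl
  rX := h.rX
  close := Eventually.of_forall fun ω _ => by
    show ∑' g, (𝔊.Sy.Ends 𝔊.Cu 𝔊.Cf ∩ ∅ ∩ ∅).indicator (fun ω => ‖𝔊.Xg g ω + pvsyY 𝔊.X 𝔊.Cf ω‖ₑ ^ 2) ω ≤ 𝔊.Θ ω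
    simp

theorem PvnwGeo.HypB.compl_R (h : 𝔊.HypB ε b) : (𝔊.Sy.R 𝔊.Cu 𝔊.Cf)ᶜ = pvdmU 𝔊.C0 := by
  rw [h.hR]; rfl

/-- field `stab` -/
theorem pvny_stab (h : 𝔊.HypB ε b) {Y : Set ℂ} (hY : 𝔊.Ok Y) (g : ι) (σ σ' : ℂ → Bool) (hA : cfOf Y σ ∈ 𝔊.Sy.Ends 𝔊.Cu 𝔊.Cf ∩ 𝔊.E g)
    (h1 : ∀ z ∈ Y, z ∈ 𝔊.V g ∪ 𝔊.O2 → σ' z = σ z) (h2 : ∀ z ∈ Y, z ∉ 𝔊.Tᶜ → pvdfLe b (σ' z) (σ z)) :
    cfOf Y σ' ∈ 𝔊.Sy.Ends 𝔊.Cu 𝔊.Cf ∩ 𝔊.E g ∧ 𝔊.Xg g (cfOf Y σ') = 𝔊.Xg g (cfOf Y σ) ∧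
      𝔊.Sy.y (pvP ε) 𝔊.X 𝔊.Cu 𝔊.Cf (cfOf Y σ') = 𝔊.Sy.y (pvP ε) 𝔊.X 𝔊.Cu 𝔊.Cf (cfOf Y σ) := by
  have e1 : Conf.restr (𝔊.Sy.Mk 𝔊.Cu 𝔊.Cf) (cfOf Y σ') = Conf.restr (𝔊.Sy.Mk 𝔊.Cu 𝔊.Cf) (cfOf Y σ) :=
    pvnw_restr_cfOf h.hMk fun z hz hO => h1 z hz (Or.inr hO)
  obtain ⟨a1, a2⟩ := h.stabE Y hY g σ σ' hA.2 h1 (fun z hz hT => h2 z hz (fun hn => hn hT))
  refine ⟨⟨?_, a1⟩, a2, (pvsy_reads_y h.wf h.fld (pvP ε) 𝔊.Cu 𝔊.Cf).congr e1⟩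
  rw [← pvnw_reads_Ends h.wf 𝔊.Cu 𝔊.Cf (cfOf Y σ'), e1, pvnw_reads_Ends h.wf 𝔊.Cu 𝔊.Cf (cfOf Y σ)]
  exact hA.1

/-- field `rd` (for EVERY `ω₂`) -/
theorem pvny_rd (h : 𝔊.HypB ε b) (ω ω₂ : Conf PvPt) (g : ι) :
    (Conf.spl (pvdmU 𝔊.C0) (ω, ω₂) ∈ 𝔊.Sy.Ends 𝔊.Cu 𝔊.Cf ∩ 𝔊.E g ↔ ω ∈ 𝔊.Sy.Ends 𝔊.Cu 𝔊.Cf ∩ 𝔊.E g) ∧
    (Conf.spl (pvdmU 𝔊.C0) (ω, ω₂) ∈ 𝔊.W ↔ ω ∈ 𝔊.W) ∧ 𝔊.Xg g (Conf.spl (pvdmU 𝔊.C0) (ω, ω₂)) = 𝔊.Xg g ω := by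
  have key : ∀ {A : Set (Conf PvPt)}, Conf.ReadsSet (pvdmU 𝔊.C0) A → (Conf.spl (pvdmU 𝔊.C0) (ω, ω₂) ∈ A ↔ ω ∈ A) := by
    intro A hA
    rw [← hA (Conf.spl (pvdmU 𝔊.C0) (ω, ω₂)), Conf.restr_spl, hA ω]
  have hE : Conf.ReadsSet (pvdmU 𝔊.C0) (𝔊.Sy.Ends 𝔊.Cu 𝔊.Cf) := by
    rw [← h.compl_R]
    exact pvsy_reads_Ends h.wf 𝔊.Cu 𝔊.Cf
  exact ⟨key (hE.inter (h.rE g)), key h.rW, (h.rX g).spl_left subset_rfl ω ω₂⟩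

/-- field `jen` -/
theorem pvny_jen (h : 𝔊.HypB ε b) {Y : Set ℂ} (hY : 𝔊.Ok Y) (g : ι) (σ : ℂ → Bool) (hA : cfOf Y σ ∈ 𝔊.Sy.Ends 𝔊.Cu 𝔊.Cf ∩ 𝔊.E g) :
    ‖𝔊.Xg g (cfOf Y σ) + 𝔊.Sy.y (pvP ε) 𝔊.X 𝔊.Cu 𝔊.Cf (cfOf Y σ)‖ₑ ^ 2 ≤
      ∫⁻ κ, ∫⁻ ω₂, 𝔊.Sy.Wt (pvP ε) 𝔊.Cu 𝔊.Cf (Conf.spl (pvdmU 𝔊.C0) (cfOf Y (pvdmOv 𝔊.Tᶜ κ σ), ω₂)) *
        ‖𝔊.Xg g (cfOf Y σ) + pvsyY 𝔊.X 𝔊.Cf (Conf.spl (pvdmU 𝔊.C0) (cfOf Y (pvdmOv 𝔊.Tᶜ κ σ), ω₂))‖ₑ ^ 2 ∂pvP ε ∂colLaw ℂ := by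
  have hpt : ∀ κ : ℂ → Bool, ‖𝔊.Xg g (cfOf Y σ) + 𝔊.Sy.y (pvP ε) 𝔊.X 𝔊.Cu 𝔊.Cf (cfOf Y σ)‖ₑ ^ 2 ≤
      ∫⁻ ω₂, 𝔊.Sy.Wt (pvP ε) 𝔊.Cu 𝔊.Cf (Conf.spl (pvdmU 𝔊.C0) (cfOf Y (pvdmOv 𝔊.Tᶜ κ σ), ω₂)) *
        ‖𝔊.Xg g (cfOf Y σ) + pvsyY 𝔊.X 𝔊.Cf (Conf.spl (pvdmU 𝔊.C0) (cfOf Y (pvdmOv 𝔊.Tᶜ κ σ), ω₂))‖ₑ ^ 2 ∂pvP ε := by
    intro κ
    have hT : ∀ z, z ∈ 𝔊.T → pvdmOv 𝔊.Tᶜ κ σ z = σ z := fun z hz => pvdm_ov_notMem (U := 𝔊.Tᶜ) (fun hn : z ∈ 𝔊.Tᶜ => hn hz) κ σ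
    obtain ⟨a1, -, a3⟩ := pvny_stab h hY g σ (pvdmOv 𝔊.Tᶜ κ σ) hA
      (fun z _ hz => hT z (by
        rcases hz with hz | hz
        · exact h.VT Y hY g σ hA.2 hz
        · exact h.O2T hz))
      (fun z _ hz => (by rw [hT z (by by_contra hn; exact hz hn)]; exact pvdf_le_refl _ _))
    rw [← a3]
    exact pvnw_jensen h.base a1.1 _
  calc _ = ∫⁻ _κ, ‖𝔊.Xg g (cfOf Y σ) + 𝔊.Sy.y (pvP ε) 𝔊.X 𝔊.Cu 𝔊.Cf (cfOf Y σ)‖ₑ ^ 2 ∂colLaw ℂ := by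
        rw [lintegral_const, measure_univ, mul_one]
    _ ≤ _ := lintegral_mono hpt

/-- field `dom`: `W_c ≤ D_c 1_Ev` + CLOSE -/
theorem pvny_dom (h : 𝔊.HypB ε b) : ∀ᵐ ω ∂pvP ε, ∑' g, (𝔊.Sy.Ends 𝔊.Cu 𝔊.Cf ∩ 𝔊.E g ∩ 𝔊.W).indicator
    (fun ω => 𝔊.Sy.Wt (pvP ε) 𝔊.Cu 𝔊.Cf ω * ‖𝔊.Xg g ω + pvsyY 𝔊.X 𝔊.Cf ω‖ₑ ^ 2) ω ≤ 𝔊.Sy.Dc (pvP ε) 𝔊.Cu 𝔊.Cf 𝔊.qf * 𝔊.Θ ω := by
  filter_upwards [h.close] with ω hω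
  by_cases hE : ω ∈ 𝔊.Sy.Ev 𝔊.Cu 𝔊.Cf
  · refine le_trans ?_ (mul_le_mul_right (hω hE) _)
    rw [← ENNReal.tsum_mul_left]
    refine ENNReal.tsum_le_tsum fun g => ?_
    by_cases hm : ω ∈ 𝔊.Sy.Ends 𝔊.Cu 𝔊.Cf ∩ 𝔊.E g ∩ 𝔊.W
    · rw [Set.indicator_of_mem hm, Set.indicator_of_mem hm]
      have := pvsy_Wt_le h.frc hm.1.1
      rw [Set.indicator_of_mem hE] at this
      exact mul_le_mul_left this _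
    · rw [Set.indicator_of_notMem hm]
      exact zero_le
  · have : ∀ g, (𝔊.Sy.Ends 𝔊.Cu 𝔊.Cf ∩ 𝔊.E g ∩ 𝔊.W).indicator
        (fun ω => 𝔊.Sy.Wt (pvP ε) 𝔊.Cu 𝔊.Cf ω * ‖𝔊.Xg g ω + pvsyY 𝔊.X 𝔊.Cf ω‖ₑ ^ 2) ω = 0 := by
      intro g
      by_cases hm : ω ∈ 𝔊.Sy.Ends 𝔊.Cu 𝔊.Cf ∩ 𝔊.E g ∩ 𝔊.W
      · rw [Set.indicator_of_mem hm]
        have := pvsy_Wt_le h.frc hm.1.1
        rw [Set.indicator_of_notMem hE] at this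
        rw [le_antisymm this zero_le, zero_mul]
      · rw [Set.indicator_of_notMem hm]
    simp_rw [this]
    rw [tsum_zero]
    exact zero_le

/-- **P17 (a) : THE HYPOTHESES OF N1' HOLD FOR A PATTERN OF ROAD P, RIM OF COLOUR `b`** -/
theorem pvny_dom_hyp (h : 𝔊.HypB ε b) : (𝔊.toDom ε).HypC b ε where
  ok_ae := h.ok_ae
  mC := h.mC0
  mw := fun Y hY g σ _ _ => by
    have := (pv_isPpp ε).prob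
    exact (pvsy_measurable_Wt h.wf 𝔊.Cu 𝔊.Cf).comp ((𝔊.toDom ε).measurable_R h.mC0 (h.cntY Y hY) g σ)
  mY := fun Y hY g σ _ _ =>
    (show Measurable (pvsyY 𝔊.X 𝔊.Cf) from Finset.measurable_sum _ fun e _ => h.fld.meas e).comp ((𝔊.toDom ε).measurable_R h.mC0 (h.cntY Y hY) g σ)
  mH := h.mΘ.const_mul _
  cnt := fun Y hY => (h.cnt Y hY).mono (by
    rintro g ⟨σ, hσ⟩
    exact ⟨σ, hσ.2⟩)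
  fin := fun Y hY g σ _ => by
    refine (h.finT Y hY).subset fun z hz => ⟨hz.1, ?_⟩
    by_contra hn
    exact hz.2 hn
  dis := fun Y hY g σ hA => by
    refine Set.disjoint_left.2 fun z hz hz' => hz' ?_
    rcases hz with hz | hz
    · exact h.VT Y hY g σ hA.2 hz
    · exact h.O2T hz
  stab := fun Y hY g σ σ' hA h1 h2 => by
    obtain ⟨a1, a2, a3⟩ := pvny_stab h hY g σ σ' hA h1 h2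
    exact ⟨a1, rfl, rfl, a2, a3⟩
  stabW := fun Y hY g σ₀ σ σ' hA h0 h1 h2 hW => h.stabW Y hY g σ₀ σ σ' hA.2 h0 h1 (fun z hz hT => h2 z hz (fun hn => hn hT)) hW
  hq := fun Y hY g σ hA => h.hq Y hY g σ hA.1 hA.2
  rd := fun Y hY σ => Eventually.of_forall fun ω₂ g => pvny_rd h (cfOf Y σ) ω₂ g
  jen := fun Y hY g σ hA _ => pvny_jen h hY g σ hA
  dom := pvny_dom h

/-- P17 (a), one mesh, exact measurability, either colour: `q_W E*[Z_π] ≤ D_c E[Θ]` -/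
theorem pvny_firstB (h : 𝔊.HypB ε b) :
    𝔊.qW * (pvhbUp ε).E (fun q => 𝔊.Z ε (pvConf (pvMerge q))) ≤ 𝔊.Sy.Dc (pvP ε) 𝔊.Cu 𝔊.Cf 𝔊.qf * ∫⁻ ω, 𝔊.Θ ω ∂pvP ε := by
  have k := pvdf_main_up (pvny_dom_hyp h)
  have e : ∫⁻ ω, (𝔊.toDom ε).H ω ∂pvP ε = 𝔊.Sy.Dc (pvP ε) 𝔊.Cu 𝔊.Cf 𝔊.qf * ∫⁻ ω, 𝔊.Θ ω ∂pvP ε :=
    lintegral_const_mul _ h.mΘ
  rw [e] at k
  exact k

end hypB

/-- **THE CONTRACTS, NULL-MEASURABLE FORM, RIM OF COLOUR `b`**.      Differences with `PvnwGeo.HypB`: `wf fld frc` in the `₀` form of 95 (null-measurable, forced at a.e. pair of states), `mΘ` a.e., NEW field `yN` (TR2 a.e.: `pvsy_y_eq_ae`, `pvny_cyc_yN`). -/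
structure PvnwGeo.Hyp₀ (𝔊 : PvnwGeo ι U C) (ε : ℝ) (b : Bool) (yN : Conf PvPt → ℂ) : Prop where
  ok_ae : ∀ᵐ ω ∂pvP ε, 𝔊.Ok (cfSites ω)
  mC0 : MeasurableSet 𝔊.C0
  wf : 𝔊.Sy.WF₀ (pvP ε)
  fld : 𝔊.Sy.Fld₀ (pvP ε) 𝔊.X
  frc : 𝔊.Sy.Forced₀ (pvP ε) 𝔊.Cu 𝔊.Cf 𝔊.qf
  mΘ : AEMeasurable 𝔊.Θ (pvP ε)
  hR : 𝔊.Sy.R 𝔊.Cu 𝔊.Cf = Prod.fst ⁻¹' 𝔊.C0
  hMk : 𝔊.Sy.Mk 𝔊.Cu 𝔊.Cf ⊆ Prod.fst ⁻¹' 𝔊.O2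
  O2T : 𝔊.O2 ⊆ 𝔊.T
  cntY : ∀ Y, 𝔊.Ok Y → Y.Countable
  cnt : ∀ Y, 𝔊.Ok Y → {g | ∃ σ, cfOf Y σ ∈ 𝔊.E g}.Countable
  finT : ∀ Y, 𝔊.Ok Y → (Y ∩ 𝔊.T).Finite
  VT : ∀ Y, 𝔊.Ok Y → ∀ g σ, cfOf Y σ ∈ 𝔊.E g → 𝔊.V g ⊆ 𝔊.T
  stabE : ∀ Y, 𝔊.Ok Y → ∀ g σ σ', cfOf Y σ ∈ 𝔊.E g → (∀ z ∈ Y, z ∈ 𝔊.V g ∪ 𝔊.O2 → σ' z = σ z) → (∀ z ∈ Y, z ∈ 𝔊.T → pvdfLe b (σ' z) (σ z)) →
    cfOf Y σ' ∈ 𝔊.E g ∧ 𝔊.Xg g (cfOf Y σ') = 𝔊.Xg g (cfOf Y σ)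
  stabW : ∀ Y, 𝔊.Ok Y → ∀ g σ₀ σ σ', cfOf Y σ₀ ∈ 𝔊.E g → (∀ z ∈ Y, z ∈ 𝔊.V g ∪ 𝔊.O2 → σ z = σ₀ z) → (∀ z ∈ Y, z ∈ 𝔊.V g ∪ 𝔊.O2 → σ' z = σ₀ z) →
    (∀ z ∈ Y, z ∈ 𝔊.T → pvdfLe b (σ' z) (σ z)) → cfOf Y σ ∈ 𝔊.W → cfOf Y σ' ∈ 𝔊.W
  hq : ∀ Y, 𝔊.Ok Y → ∀ g σ, cfOf Y σ ∈ 𝔊.Sy.Ends 𝔊.Cu 𝔊.Cf → cfOf Y σ ∈ 𝔊.E g →
    𝔊.qW ≤ colLaw ℂ {κ | cfOf Y (pvdmOv (𝔊.V g ∪ 𝔊.O2)ᶜ κ σ) ∈ 𝔊.W}
  rE : ∀ g, Conf.ReadsSet (pvdmU 𝔊.C0) (𝔊.E g)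
  rW : Conf.ReadsSet (pvdmU 𝔊.C0) 𝔊.W
  rX : ∀ g, Conf.Reads (pvdmU 𝔊.C0) (𝔊.Xg g)
  close : ∀ᵐ ω ∂pvP ε, ω ∈ 𝔊.Sy.Ev 𝔊.Cu 𝔊.Cf →
    ∑' g, (𝔊.Sy.Ends 𝔊.Cu 𝔊.Cf ∩ 𝔊.E g ∩ 𝔊.W).indicator (fun ω => ‖𝔊.Xg g ω + pvsyY 𝔊.X 𝔊.Cf ω‖ₑ ^ 2) ω ≤ 𝔊.Θ ω
  /-- **TR2, a.e.**: the mean of the closing chain is `yN` (normal form `κ_out(σ_t) + ∑ k + κ_in(σ_s)`) -/
  yN : ∀ᵐ ζ ∂pvP ε, ζ ∈ 𝔊.Sy.Ends 𝔊.Cu 𝔊.Cf → 𝔊.Sy.y (pvP ε) 𝔊.X 𝔊.Cu 𝔊.Cf ζ = yN ζ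

/-- **THE INTEGRAND OF RECORD, NORMAL FORM** -/
noncomputable def PvnwGeo.Z₀ (𝔊 : PvnwGeo ι U C) (yN : Conf PvPt → ℂ) (ζ : Conf PvPt) : ℝ≥0∞ :=
  ∑' g, (𝔊.Sy.Ends 𝔊.Cu 𝔊.Cf ∩ 𝔊.E g).indicator (fun ω => ‖𝔊.Xg g ω + yN ω‖ₑ ^ 2) ζ

theorem pvny_eqns_cite : True := by
  have := @PvnwGeo.Z₀.eq_1.{0, 0, 0}
  trivial

/-- a present datum is counted -/
theorem pvny_le_Z (𝔊 : PvnwGeo ι U C) (yN : Conf PvPt → ℂ) {g : ι} {ζ : Conf PvPt} (hζ : ζ ∈ 𝔊.Sy.Ends 𝔊.Cu 𝔊.Cf ∩ 𝔊.E g) :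
    ‖𝔊.Xg g ζ + yN ζ‖ₑ ^ 2 ≤ 𝔊.Z₀ yN ζ := by
  unfold PvnwGeo.Z₀
  refine le_trans (le_of_eq ?_) (ENNReal.le_tsum g)
  rw [indicator_of_mem hζ]

section first

variable [Fintype U] [Fintype C] [DecidableEq U] [DecidableEq C]

/-- **THE REGULARISED TERM**: a term which satisfies the null-measurable contracts is, off a null set `Nl`, a term with exact measurability: same arcs, same lane, same numbers, smaller `Ends`, mean `= yN` -/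
theorem pvny_regGeo {𝔊 : PvnwGeo ι U C} {ε : ℝ} {b : Bool} {yN : Conf PvPt → ℂ} (h : 𝔊.Hyp₀ ε b yN) :
    ∃ (S' : PvsySys PvPt U C) (X' : C → Conf PvPt → ℂ) (Θ' : Conf PvPt → ℝ≥0∞) (Nl : Set (Conf PvPt)),
      PvnwGeo.HypB ({ 𝔊 with Sy := S', X := X', Θ := Θ' } : PvnwGeo ι U C) ε b ∧ pvP ε Nl = 0 ∧
      S'.Dc (pvP ε) 𝔊.Cu 𝔊.Cf 𝔊.qf = 𝔊.Sy.Dc (pvP ε) 𝔊.Cu 𝔊.Cf 𝔊.qf ∧ ∫⁻ ω, Θ' ω ∂pvP ε = ∫⁻ ω, 𝔊.Θ ω ∂pvP ε ∧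
      S'.Ends 𝔊.Cu 𝔊.Cf ⊆ 𝔊.Sy.Ends 𝔊.Cu 𝔊.Cf ∧
      ∀ ζ, ζ ∉ Nl → ζ ∈ 𝔊.Sy.Ends 𝔊.Cu 𝔊.Cf → ζ ∈ S'.Ends 𝔊.Cu 𝔊.Cf ∧ S'.y (pvP ε) X' 𝔊.Cu 𝔊.Cf ζ = yN ζ := by
  obtain ⟨S', X', hA, hXX, hS', hX', hF', hG⟩ := pvny_reg (pv_isPpp ε) h.wf h.fld h.frc
  have hEnds : S'.Ends 𝔊.Cu 𝔊.Cf ⊆ 𝔊.Sy.Ends 𝔊.Cu 𝔊.Cf := by
    intro η hη e he
    obtain ⟨a1, a2⟩ := hη e he
    rw [hA.src] at a1
    rw [hA.tgt] at a2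
    exact ⟨fun k => hG _ (a1 k), fun k => hG _ (a2 k)⟩
  have hMk : S'.Mk 𝔊.Cu 𝔊.Cf = 𝔊.Sy.Mk 𝔊.Cu 𝔊.Cf := by
    unfold PvsySys.Mk PvsySys.OO
    rw [pvsy_ae_R hA, hA.O, hA.src, hA.tgt]
  have h' : PvnwGeo.HypB ({ 𝔊 with Sy := S', X := X', Θ := h.mΘ.mk 𝔊.Θ } : PvnwGeo ι U C) ε b :=
    { ok_ae := h.ok_ae
      mC0 := h.mC0
      wf := hS'
      fld := hX'
      frc := hF'
      mΘ := h.mΘ.measurable_mk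
      hR := (pvsy_ae_R hA 𝔊.Cu 𝔊.Cf).trans h.hR
      hMk := hMk ▸ h.hMk
      O2T := h.O2T
      cntY := h.cntY
      cnt := h.cnt
      finT := h.finT
      VT := h.VT
      stabE := h.stabE
      stabW := h.stabW
      hq := fun Y hY g σ h1 h2 => h.hq Y hY g σ (hEnds h1) h2
      rE := h.rE
      rW := h.rW
      rX := h.rX
      close := by
        filter_upwards [h.close, pvsy_ae_Ev hA 𝔊.Cu 𝔊.Cf, pvsy_ae_Y hXX 𝔊.Cf, h.mΘ.ae_eq_mk] with ω h1 h2 h3 h4 h5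
        have h6 : ω ∈ 𝔊.Sy.Ev 𝔊.Cu 𝔊.Cf := (iff_of_eq h2).1 h5
        show _ ≤ h.mΘ.mk 𝔊.Θ ω
        rw [← h4]
        refine le_trans (ENNReal.tsum_le_tsum fun g => ?_) (h1 h6)
        by_cases hm : ω ∈ S'.Ends 𝔊.Cu 𝔊.Cf ∩ 𝔊.E g ∩ 𝔊.W
        · have hm' : ω ∈ 𝔊.Sy.Ends 𝔊.Cu 𝔊.Cf ∩ 𝔊.E g ∩ 𝔊.W := ⟨⟨hEnds hm.1.1, hm.1.2⟩, hm.2⟩
          rw [indicator_of_mem hm', show (S'.Ends 𝔊.Cu 𝔊.Cf ∩ 𝔊.E g ∩ 𝔊.W).indicator (fun ω => ‖𝔊.Xg g ω + pvsyY X' 𝔊.Cf ω‖ₑ ^ 2) ω = _ from indicator_of_mem hm _, h3]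
        · rw [show (S'.Ends 𝔊.Cu 𝔊.Cf ∩ 𝔊.E g ∩ 𝔊.W).indicator (fun ω => ‖𝔊.Xg g ω + pvsyY X' 𝔊.Cf ω‖ₑ ^ 2) ω = _ from indicator_of_notMem hm _]
          exact zero_le }
  have hae : ∀ᵐ ζ ∂pvP ε, ζ ∈ 𝔊.Sy.Ends 𝔊.Cu 𝔊.Cf → ζ ∈ S'.Ends 𝔊.Cu 𝔊.Cf ∧ S'.y (pvP ε) X' 𝔊.Cu 𝔊.Cf ζ = yN ζ := by
    filter_upwards [pvsy_ae_Ends hA 𝔊.Cu 𝔊.Cf, pvsy_ae_y (pv_isPpp ε) h.wf hA hXX 𝔊.Cu 𝔊.Cf, h.yN] with ζ h1 h2 h3 h4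
    exact ⟨(iff_of_eq h1).2 h4, h2.trans (h3 h4)⟩
  refine ⟨S', X', h.mΘ.mk 𝔊.Θ, {ζ | ¬ (ζ ∈ 𝔊.Sy.Ends 𝔊.Cu 𝔊.Cf → ζ ∈ S'.Ends 𝔊.Cu 𝔊.Cf ∧ S'.y (pvP ε) X' 𝔊.Cu 𝔊.Cf ζ = yN ζ)}, h', ae_iff.1 hae,
    pvsy_ae_Dc hA 𝔊.Cu 𝔊.Cf 𝔊.qf, lintegral_congr_ae h.mΘ.ae_eq_mk.symm, hEnds, fun ζ hζ => ?_⟩
  by_contra hn
  exact hζ hn

/-- **THE SAME AT THE LEVEL OF THE SYSTEMS OF 159** = what the contract `PvraPat` of 286 (`Exit/ArcP`) consumes -/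
theorem pvny_regSys {𝔊 : PvnwGeo ι U C} {ε : ℝ} {b : Bool} {yN : Conf PvPt → ℂ} (h : 𝔊.Hyp₀ ε b yN) :
    ∃ (S : PvdmSys ι) (Nl : Set (Conf PvPt)), S.HypC b ε ∧ pvP ε Nl = 0 ∧ S.q = 𝔊.qW ∧
      ∫⁻ ω, S.H ω ∂pvP ε = 𝔊.Sy.Dc (pvP ε) 𝔊.Cu 𝔊.Cf 𝔊.qf * ∫⁻ ω, 𝔊.Θ ω ∂pvP ε ∧ S.X = 𝔊.Xg ∧
      (∀ g, S.A g ⊆ 𝔊.Sy.Ends 𝔊.Cu 𝔊.Cf ∩ 𝔊.E g) ∧ (∀ g ζ, ζ ∈ S.A g → ζ ∉ Nl → S.yh g ζ = yN ζ) ∧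
      ∀ g ζ, ζ ∉ Nl → ζ ∈ 𝔊.Sy.Ends 𝔊.Cu 𝔊.Cf → ζ ∈ 𝔊.E g → ζ ∈ S.A g := by
  obtain ⟨S', X', Θ', Nl, h1, h2, h3, h4, h5, h6⟩ := pvny_regGeo h
  refine ⟨PvnwGeo.toDom ({ 𝔊 with Sy := S', X := X', Θ := Θ' } : PvnwGeo ι U C) ε, Nl, pvny_dom_hyp h1, h2, rfl, ?_, rfl,
    fun g ζ hζ => ⟨h5 hζ.1, hζ.2⟩, fun g ζ hζ hN => (h6 ζ hN (h5 hζ.1)).2, fun g ζ hN hE hg => ⟨(h6 ζ hN hE).1, hg⟩⟩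
  rw [← h3, ← h4]
  exact lintegral_const_mul _ h1.mΘ

open Classical in
/-- the system of record of a term (the regularised one when the contracts hold) -/
noncomputable def PvnwGeo.sys₀ (𝔊 : PvnwGeo ι U C) (ε : ℝ) (b : Bool) (yN : Conf PvPt → ℂ) : PvdmSys ι :=
  if h : 𝔊.Hyp₀ ε b yN then (pvny_regSys h).choose else 𝔊.toDom ε

open Classical in
/-- its null set -/
noncomputable def PvnwGeo.nul₀ (𝔊 : PvnwGeo ι U C) (ε : ℝ) (b : Bool) (yN : Conf PvPt → ℂ) : Set (Conf PvPt) :=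
  if h : 𝔊.Hyp₀ ε b yN then (pvny_regSys h).choose_spec.choose else ∅

theorem pvny_eqns_cite1 : True := by
  have := @PvnwGeo.sys₀.eq_1.{0, 0, 0}; have := @PvnwGeo.nul₀.eq_1.{0, 0, 0}
  trivial

/-- **SPECIFICATION of `sys₀`, `nul₀`** -/
theorem pvny_sys_spec {𝔊 : PvnwGeo ι U C} {ε : ℝ} {b : Bool} {yN : Conf PvPt → ℂ} (h : 𝔊.Hyp₀ ε b yN) :
    (𝔊.sys₀ ε b yN).HypC b ε ∧ pvP ε (𝔊.nul₀ ε b yN) = 0 ∧ (𝔊.sys₀ ε b yN).q = 𝔊.qW ∧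
      ∫⁻ ω, (𝔊.sys₀ ε b yN).H ω ∂pvP ε = 𝔊.Sy.Dc (pvP ε) 𝔊.Cu 𝔊.Cf 𝔊.qf * ∫⁻ ω, 𝔊.Θ ω ∂pvP ε ∧ (𝔊.sys₀ ε b yN).X = 𝔊.Xg ∧
      (∀ g, (𝔊.sys₀ ε b yN).A g ⊆ 𝔊.Sy.Ends 𝔊.Cu 𝔊.Cf ∩ 𝔊.E g) ∧ (∀ g ζ, ζ ∈ (𝔊.sys₀ ε b yN).A g → ζ ∉ 𝔊.nul₀ ε b yN → (𝔊.sys₀ ε b yN).yh g ζ = yN ζ) ∧
      ∀ g ζ, ζ ∉ 𝔊.nul₀ ε b yN → ζ ∈ 𝔊.Sy.Ends 𝔊.Cu 𝔊.Cf → ζ ∈ 𝔊.E g → ζ ∈ (𝔊.sys₀ ε b yN).A g := by
  unfold PvnwGeo.sys₀ PvnwGeo.nul₀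
  rw [dif_pos h, dif_pos h]
  exact (pvny_regSys h).choose_spec.choose_spec

/-- **P17 (a), one mesh, null-measurable form**: `q_W E*[Z₀] ≤ D_c E[Θ]` -/
theorem pvny_first {𝔊 : PvnwGeo ι U C} {ε : ℝ} {b : Bool} {yN : Conf PvPt → ℂ} (h : 𝔊.Hyp₀ ε b yN) :
    𝔊.qW * (pvhbUp ε).E (fun q => 𝔊.Z₀ yN (pvConf (pvMerge q))) ≤ 𝔊.Sy.Dc (pvP ε) 𝔊.Cu 𝔊.Cf 𝔊.qf * ∫⁻ ω, 𝔊.Θ ω ∂pvP ε := by
  obtain ⟨S, Nl, h1, h2, h3, h4, h5, h6, h7, h8⟩ := pvny_regSys h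
  have k := pvdf_main_up h1
  rw [h3, h4] at k
  have k2 : (pvhbUp ε).E (fun q => 𝔊.Z₀ yN (pvConf (pvMerge q))) ≤ (pvhbUp ε).E (fun q => (fun ζ => ∑' i, (S.A i).indicator (fun ω => ‖S.X i ω + S.yh i ω‖ₑ ^ 2) ζ) (pvConf (pvMerge q))) := by
    refine pvny_E_mono_ae ε (F := fun ζ => 𝔊.Z₀ yN ζ) (G := fun ζ => ∑' i, (S.A i).indicator (fun ω => ‖S.X i ω + S.yh i ω‖ₑ ^ 2) ζ) ?_
    filter_upwards [measure_eq_zero_iff_ae_notMem.1 h2] with ζ hζ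
    unfold PvnwGeo.Z₀
    refine ENNReal.tsum_le_tsum fun g => ?_
    by_cases hm : ζ ∈ 𝔊.Sy.Ends 𝔊.Cu 𝔊.Cf ∩ 𝔊.E g
    · have hm' := h8 g ζ hζ hm.1 hm.2
      rw [indicator_of_mem hm, indicator_of_mem hm', h7 g ζ hm' hζ, h5]
    · rw [indicator_of_notMem hm]
      exact zero_le
  exact le_trans (mul_le_mul_right k2 _) k

/-- **THE FIELD `n1ν`** of `PvrpInQ` for one `(m, π)` at `Z := Z₀`:   `q_W ≥ q₀ > 0`, `D_c ≤ D₀` eventually, I.TAIL -/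
theorem pvny_n1nu (𝔊 : ℝ → PvnwGeo ι U C) (b : Bool) (yN : ℝ → Conf PvPt → ℂ) {q0 D0 : ℝ} (hq0 : 0 < q0)
    (hyp : ∀ᶠ ε in 𝓝[>] (0 : ℝ), (𝔊 ε).Hyp₀ ε b (yN ε)) (hq : ∀ᶠ ε in 𝓝[>] (0 : ℝ), ENNReal.ofReal q0 ≤ (𝔊 ε).qW)
    (hD : ∀ᶠ ε in 𝓝[>] (0 : ℝ), (𝔊 ε).Sy.Dc (pvP ε) (𝔊 ε).Cu (𝔊 ε).Cf (𝔊 ε).qf ≤ ENNReal.ofReal D0)
    (tail : Tendsto (fun ε => ∫⁻ ω, (𝔊 ε).Θ ω ∂pvP ε) (𝓝[>] (0 : ℝ)) (𝓝 0)) :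
    Tendsto (fun ε => (pvhbUp ε).E (fun q => (𝔊 ε).Z₀ (yN ε) (pvConf (pvMerge q)))) (𝓝[>] (0 : ℝ)) (𝓝 0) := by
  have hq1 : ENNReal.ofReal q0 ≠ 0 := by
    rw [Ne, ENNReal.ofReal_eq_zero, not_le]; exact hq0
  have hlim : Tendsto (fun ε => (ENNReal.ofReal q0)⁻¹ * (ENNReal.ofReal D0 * ∫⁻ ω, (𝔊 ε).Θ ω ∂pvP ε)) (𝓝[>] (0 : ℝ)) (𝓝 0) := by
    have h1 : Tendsto (fun ε => ENNReal.ofReal D0 * ∫⁻ ω, (𝔊 ε).Θ ω ∂pvP ε) (𝓝[>] (0 : ℝ)) (𝓝 (ENNReal.ofReal D0 * 0)) :=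
      ENNReal.Tendsto.const_mul tail (Or.inr ENNReal.ofReal_ne_top)
    have h2 := ENNReal.Tendsto.const_mul (a := (ENNReal.ofReal q0)⁻¹) h1 (Or.inr (ENNReal.inv_ne_top.2 hq1))
    simpa using h2
  refine tendsto_of_tendsto_of_tendsto_of_le_of_le' tendsto_const_nhds hlim (Eventually.of_forall fun _ => zero_le) ?_
  filter_upwards [hyp, hq, hD] with ε h1 h2 h3
  have key : ENNReal.ofReal q0 * (pvhbUp ε).E (fun q => (𝔊 ε).Z₀ (yN ε) (pvConf (pvMerge q))) ≤ ENNReal.ofReal D0 * ∫⁻ ω, (𝔊 ε).Θ ω ∂pvP ε := by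
    calc ENNReal.ofReal q0 * (pvhbUp ε).E (fun q => (𝔊 ε).Z₀ (yN ε) (pvConf (pvMerge q)))
        ≤ (𝔊 ε).qW * (pvhbUp ε).E (fun q => (𝔊 ε).Z₀ (yN ε) (pvConf (pvMerge q))) := by gcongr
      _ ≤ (𝔊 ε).Sy.Dc (pvP ε) (𝔊 ε).Cu (𝔊 ε).Cf (𝔊 ε).qf * ∫⁻ ω, (𝔊 ε).Θ ω ∂pvP ε := pvny_first h1
      _ ≤ _ := by gcongr
  calc (pvhbUp ε).E (fun q => (𝔊 ε).Z₀ (yN ε) (pvConf (pvMerge q)))
      = (ENNReal.ofReal q0)⁻¹ * (ENNReal.ofReal q0 * (pvhbUp ε).E (fun q => (𝔊 ε).Z₀ (yN ε) (pvConf (pvMerge q)))) := by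
        rw [← mul_assoc, ENNReal.inv_mul_cancel hq1 ENNReal.ofReal_ne_top, one_mul]
    _ ≤ _ := by gcongr

end first

/-! ## 3. the arc side alone -/

/-- **THE ARC SIDE OF ONE PATTERN** (everything of `PvnwGeo` which is not the chain) -/
structure PvnyArc (ι : Type*) where
  /-- the colour of the rim (`!col` = "white") -/
  col : Bool := true
  C0 : Set ℂ
  O2 : Set ℂ
  T : Set ℂ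
  Ok : Set ℂ → Prop
  V : ι → Set ℂ
  E : ι → Set (Conf PvPt)
  W : Set (Conf PvPt)
  Xg : ι → Conf PvPt → ℂ
  Θ : Conf PvPt → ℝ≥0∞
  qW : ℝ≥0∞

/-- **THE CONTRACTS OF THE ARC SIDE**;   of the chain they see only `En` (both marked states usable), `Ev` (the chain succeeds), `Yc` (the closing sum) -/
structure PvnyArc.Hyp (𝔄 : PvnyArc ι) (ε : ℝ) (En Ev : Set (Conf PvPt)) (Yc : Conf PvPt → ℂ) : Prop where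
  ok_ae : ∀ᵐ ω ∂pvP ε, 𝔄.Ok (cfSites ω)
  mC0 : MeasurableSet 𝔄.C0
  mΘ : AEMeasurable 𝔄.Θ (pvP ε)
  O2T : 𝔄.O2 ⊆ 𝔄.T
  cntY : ∀ Y, 𝔄.Ok Y → Y.Countable
  cnt : ∀ Y, 𝔄.Ok Y → {g | ∃ σ, cfOf Y σ ∈ 𝔄.E g}.Countable
  finT : ∀ Y, 𝔄.Ok Y → (Y ∩ 𝔄.T).Finite
  VT : ∀ Y, 𝔄.Ok Y → ∀ g σ, cfOf Y σ ∈ 𝔄.E g → 𝔄.V g ⊆ 𝔄.T
  /-- `B_g` is frozen, `N_g` is increasing in white (`pvdfLe b x y` : `x = y` or `x` is white) and reads `T`, `X_g` is a function of the geometry and of the two states -/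
  stabE : ∀ Y, 𝔄.Ok Y → ∀ g σ σ', cfOf Y σ ∈ 𝔄.E g → (∀ z ∈ Y, z ∈ 𝔄.V g ∪ 𝔄.O2 → σ' z = σ z) → (∀ z ∈ Y, z ∈ 𝔄.T → pvdfLe 𝔄.col (σ' z) (σ z)) →
    cfOf Y σ' ∈ 𝔄.E g ∧ 𝔄.Xg g (cfOf Y σ') = 𝔄.Xg g (cfOf Y σ)
  /-- the lane event is increasing in white AT FROZEN colours of `V g ∪ O2` (it starts at the gates of the two states) and reads the colours of `T` only -/
  stabW : ∀ Y, 𝔄.Ok Y → ∀ g σ₀ σ σ', cfOf Y σ₀ ∈ 𝔄.E g → (∀ z ∈ Y, z ∈ 𝔄.V g ∪ 𝔄.O2 → σ z = σ₀ z) → (∀ z ∈ Y, z ∈ 𝔄.V g ∪ 𝔄.O2 → σ' z = σ₀ z) →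
    (∀ z ∈ Y, z ∈ 𝔄.T → pvdfLe 𝔄.col (σ' z) (σ z)) → cfOf Y σ ∈ 𝔄.W → cfOf Y σ' ∈ 𝔄.W
  /-- **P16' (WHITE LANE)** -/
  hq : ∀ Y, 𝔄.Ok Y → ∀ g σ, cfOf Y σ ∈ En → cfOf Y σ ∈ 𝔄.E g → 𝔄.qW ≤ colLaw ℂ {κ | cfOf Y (pvdmOv (𝔄.V g ∪ 𝔄.O2)ᶜ κ σ) ∈ 𝔄.W}
  rE : ∀ g, Conf.ReadsSet (pvdmU 𝔄.C0) (𝔄.E g)
  rW : Conf.ReadsSet (pvdmU 𝔄.C0) 𝔄.W
  rX : ∀ g, Conf.Reads (pvdmU 𝔄.C0) (𝔄.Xg g)
  /-- **TR13 + TR12 + TR14 (CLOSE, injectivity, masks)** -/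
  close : ∀ᵐ ω ∂pvP ε, ω ∈ Ev → ∑' g, (En ∩ 𝔄.E g ∩ 𝔄.W).indicator (fun ω => ‖𝔄.Xg g ω + Yc ω‖ₑ ^ 2) ω ≤ 𝔄.Θ ω

/-- the integrand of record -/
noncomputable def PvnyArc.Z (𝔄 : PvnyArc ι) (En : Set (Conf PvPt)) (yN : Conf PvPt → ℂ) (ζ : Conf PvPt) : ℝ≥0∞ :=
  ∑' g, (En ∩ 𝔄.E g).indicator (fun ω => ‖𝔄.Xg g ω + yN ω‖ₑ ^ 2) ζ

/-- arc side + chain -/
def PvnyArc.toGeo (𝔄 : PvnyArc ι) (Sy : PvsySys PvPt U C) (Cu : Finset U) (Cf : Finset C) (X : C → Conf PvPt → ℂ) (qf : C → ℝ≥0∞) : PvnwGeo ι U C where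
  Sy := Sy
  Cu := Cu
  Cf := Cf
  X := X
  qf := qf
  C0 := 𝔄.C0
  O2 := 𝔄.O2
  T := 𝔄.T
  Ok := 𝔄.Ok
  V := 𝔄.V
  E := 𝔄.E
  W := 𝔄.W
  Xg := 𝔄.Xg
  Θ := 𝔄.Θ
  qW := 𝔄.qW

theorem pvny_eqns_cite2 : True := by
  have := @PvnyArc.Z.eq_1.{0}; have := @PvnyArc.toGeo.eq_1.{0, 0, 0}
  trivial

theorem pvny_le_ZA (𝔄 : PvnyArc ι) (En : Set (Conf PvPt)) (yN : Conf PvPt → ℂ) {g : ι} {ζ : Conf PvPt} (h1 : ζ ∈ En) (h2 : ζ ∈ 𝔄.E g) :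
    ‖𝔄.Xg g ζ + yN ζ‖ₑ ^ 2 ≤ 𝔄.Z En yN ζ := by
  unfold PvnyArc.Z
  refine le_trans (le_of_eq ?_) (ENNReal.le_tsum g)
  rw [indicator_of_mem (show ζ ∈ En ∩ 𝔄.E g from ⟨h1, h2⟩)]

/-- repackaging -/
theorem pvny_geo_hyp {𝔄 : PvnyArc ι} {ε : ℝ} {Sy : PvsySys PvPt U C} {Cu : Finset U} {Cf : Finset C} {X : C → Conf PvPt → ℂ} {qf : C → ℝ≥0∞} {yN : Conf PvPt → ℂ}
    (wf : Sy.WF₀ (pvP ε)) (fld : Sy.Fld₀ (pvP ε) X) (frc : Sy.Forced₀ (pvP ε) Cu Cf qf) (hR : Sy.R Cu Cf = Prod.fst ⁻¹' 𝔄.C0) (hMk : Sy.Mk Cu Cf ⊆ Prod.fst ⁻¹' 𝔄.O2)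
    (hy : ∀ᵐ ζ ∂pvP ε, ζ ∈ Sy.Ends Cu Cf → Sy.y (pvP ε) X Cu Cf ζ = yN ζ) (h : 𝔄.Hyp ε (Sy.Ends Cu Cf) (Sy.Ev Cu Cf) (pvsyY X Cf)) :
    (𝔄.toGeo Sy Cu Cf X qf).Hyp₀ ε 𝔄.col yN where
  ok_ae := h.ok_ae
  mC0 := h.mC0
  wf := wf
  fld := fld
  frc := frc
  mΘ := h.mΘ
  hR := hR
  hMk := hMk
  O2T := h.O2T
  cntY := h.cntY
  cnt := h.cnt
  finT := h.finT
  VT := h.VT
  stabE := h.stabE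
  stabW := h.stabW
  hq := h.hq
  rE := h.rE
  rW := h.rW
  rX := h.rX
  close := h.close
  yN := hy

/-! ## 4. cyclic lists (95), thin chains (58), the data of road P (58) -/

section cyc

variable {E : Type*} [MeasurableSpace E] {sec : ℕ → PvsySec E} {m : Measure E} {μ : Measure (Conf E)} {X : ℕ → Conf E → ℂ}

/-- the marked plugs of a chain `0 → … → N` are `sec 0` and `sec N` -/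
theorem pvny_cyc_ends {N : ℕ} (hN : 1 ≤ N) :
    (pvsyCyc (N + 1) sec).Ends (pvsyFin (N + 1) (Finset.Ioo 0 N)) (pvsyFin (N + 1) (Finset.range N)) = (sec 0).G ∩ (sec N).G := by
  have hmod : N % (N + 1) = N := Nat.mod_eq_of_lt (Nat.lt_succ_self N)
  refine Subset.antisymm (fun σ hσ => ⟨?_, ?_⟩) fun σ hσ => pvsy_cyc_ends (Nat.le_succ N) hσ.1 (by rw [hmod]; exact hσ.2)
  · have h0 := (hσ ⟨0, by omega⟩ (pvsy_mem_fin.2 (Finset.mem_range.2 (by show 0 < N; omega)))).1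
    refine h0 fun hc => ?_
    have := Finset.mem_Ioo.1 (pvsy_mem_fin.1 hc)
    exact absurd this.1 (lt_irrefl 0)
  · have h0 := (hσ ⟨N - 1, by omega⟩ (pvsy_mem_fin.2 (Finset.mem_range.2 (by show N - 1 < N; omega)))).2
    have e : (N - 1 + 1) % (N + 1) = N := by rw [show N - 1 + 1 = N by omega, hmod]
    have h1 : σ ∈ (sec ((N - 1 + 1) % (N + 1))).G := by
      refine h0 fun hc => ?_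
      have h2 := Finset.mem_Ioo.1 (pvsy_mem_fin.1 hc)
      have h3 : (N - 1 + 1) % (N + 1) < N := h2.2
      omega
    rwa [e] at h1

/-- the resampled region of a chain -/
theorem pvny_cyc_R (N : ℕ) (sec : ℕ → PvsySec E) :
    (pvsyCyc (N + 1) sec).R (pvsyFin (N + 1) (Finset.Ioo 0 N)) (pvsyFin (N + 1) (Finset.range N)) = pvsyC0 N sec := by
  ext z
  simp only [PvsySys.R, pvsyC0, mem_union, mem_iUnion, pvsy_mem_fin, exists_prop]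
  constructor
  · rintro (⟨u, hu, hz⟩ | ⟨e, he, hz⟩)
    · exact Or.inl ⟨u.1, hu, hz⟩
    · exact Or.inr ⟨e.1, he, hz⟩
  · rintro (⟨u, hu, hz⟩ | ⟨e, he, hz⟩)
    · exact Or.inl ⟨⟨u, by have := Finset.mem_Ioo.1 hu; omega⟩, hu, hz⟩
    · exact Or.inr ⟨⟨e, by have := Finset.mem_range.1 he; omega⟩, he, hz⟩

/-- the marked regions of a chain -/
theorem pvny_cyc_Mk (N : ℕ) (sec : ℕ → PvsySec E) :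
    (pvsyCyc (N + 1) sec).Mk (pvsyFin (N + 1) (Finset.Ioo 0 N)) (pvsyFin (N + 1) (Finset.range N)) ⊆ (sec 0).O ∪ (sec N).O := by
  rintro z ⟨hz, hn⟩
  obtain ⟨e, he, hze⟩ := mem_iUnion₂.1 hz
  have heN : e.1 < N := Finset.mem_range.1 (pvsy_mem_fin.1 he)
  have key : ∀ j : ℕ, j ≤ N → z ∈ (sec j).O → z ∈ (sec 0).O ∪ (sec N).O := by
    intro j hj hzj
    rcases Nat.eq_zero_or_pos j with h0 | h0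
    · left; rwa [h0] at hzj
    · rcases Nat.lt_or_ge j N with h1 | h1
      · exact absurd (Or.inl (mem_iUnion₂.2 ⟨⟨j, by omega⟩, pvsy_mem_fin.2 (Finset.mem_Ioo.2 ⟨h0, h1⟩), hzj⟩)) hn
      · right; rwa [show j = N by omega] at hzj
  rcases hze with hze | hze
  · exact key e.1 (by omega) hze
  · have hze' : z ∈ (sec ((e.1 + 1) % (N + 1))).O := hze
    rw [Nat.mod_eq_of_lt (by omega)] at hze'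
    exact key (e.1 + 1) (by omega) hze'

/-- **TR2 a.e. for a chain, normal form of 95** = field `yN` of `PvnwGeo.Hyp₀` -/
theorem pvny_cyc_yN {N : ℕ} (hN : 2 ≤ N) (h : IsPpp m μ) (hS : PvsyCycWF μ (N + 1) sec) (hX : PvsyCycFld μ (N + 1) sec X) {q : ℕ → ℝ≥0∞}
    (hF : PvsyCycForced μ (N + 1) sec (Finset.Ioo 0 N) (Finset.range N) q)
    (hfin : ∀ j < N, ∫⁻ η in (sec 0).G ∩ (sec N).G ∩ pvsyEv (N + 1) sec (Finset.Ioo 0 N) (Finset.range N), ‖X j η‖ₑ ∂μ ≠ ∞) :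
    ∀ᵐ σ ∂μ, σ ∈ (pvsyCyc (N + 1) sec).Ends (pvsyFin (N + 1) (Finset.Ioo 0 N)) (pvsyFin (N + 1) (Finset.range N)) →
      (pvsyCyc (N + 1) sec).y μ (fun j => X j) (pvsyFin (N + 1) (Finset.Ioo 0 N)) (pvsyFin (N + 1) (Finset.range N)) σ = pvsyChainY μ N sec X σ := by
  have hmod : N % (N + 1) = N := Nat.mod_eq_of_lt (Nat.lt_succ_self N)
  have hB : NullMeasurableSet ((sec 0).G ∩ (sec N).G) μ := (hS.mG 0 (by omega)).inter (hS.mG N (by omega))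
  have hBe : (sec 0).G ∩ (sec N).G ⊆ (pvsyCyc (N + 1) sec).Ends (pvsyFin (N + 1) (Finset.Ioo 0 N)) (pvsyFin (N + 1) (Finset.range N)) :=
    (pvny_cyc_ends (by omega)).symm.subset
  have hBr : Conf.ReadsSet ((pvsyCyc (N + 1) sec).R (pvsyFin (N + 1) (Finset.Ioo 0 N)) (pvsyFin (N + 1) (Finset.range N)))ᶜ ((sec 0).G ∩ (sec N).G) :=
    ((hS.rG 0 (by omega)).mono (pvsy_cyc_O_sub hS (by omega) (by simp))).inter ((hS.rG N (by omega)).mono (pvsy_cyc_O_sub hS (by omega) (by simp)))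
  have hy := pvsy_y_eq_ae h (pvsy_cyc_wf hS) (pvsy_cyc_fld hX) (pvsy_cyc_forced hF) hB hBe hBr
    (fun e he => by rw [pvsy_cyc_Ev]; exact hfin e (Finset.mem_range.1 (pvsy_mem_fin.1 he)))
  filter_upwards [hy] with σ hσ hσE
  rw [pvny_cyc_ends (by omega)] at hσE
  rw [hσ hσE, pvsy_cyc_chain hS hX hN (Nat.le_succ N) σ, hmod]
  rfl

end cyc

/-- **P17 (a) FOR A CHAIN = CYCLIC LIST OF 95** (the U-form, with the white lane, of `pvsy_pattern`) -/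
theorem pvny_pattern {𝔄 : PvnyArc ι} {ε : ℝ} {sec : ℕ → PvsySec PvPt} {X : ℕ → Conf PvPt → ℂ} {N : ℕ} (hN : 2 ≤ N)
    (hS : PvsyCycWF (pvP ε) (N + 1) sec) (hX : PvsyCycFld (pvP ε) (N + 1) sec X) {q : ℕ → ℝ≥0∞}
    (hF : PvsyCycForced (pvP ε) (N + 1) sec (Finset.Ioo 0 N) (Finset.range N) q)
    (hfin : ∀ j < N, ∫⁻ η in (sec 0).G ∩ (sec N).G ∩ pvsyEv (N + 1) sec (Finset.Ioo 0 N) (Finset.range N), ‖X j η‖ₑ ∂(pvP ε) ≠ ∞)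
    (hC0 : pvsyC0 N sec = Prod.fst ⁻¹' 𝔄.C0) (hO : (sec 0).O ∪ (sec N).O ⊆ Prod.fst ⁻¹' 𝔄.O2)
    (hA : 𝔄.Hyp ε ((sec 0).G ∩ (sec N).G) (pvsyEv (N + 1) sec (Finset.Ioo 0 N) (Finset.range N)) (fun η => ∑ j ∈ Finset.range N, X j η)) :
    𝔄.qW * (pvhbUp ε).E (fun o => 𝔄.Z ((sec 0).G ∩ (sec N).G) (pvsyChainY (pvP ε) N sec X) (pvConf (pvMerge o)))
      ≤ pvsyDc (pvP ε) (N + 1) sec (Finset.Ioo 0 N) (Finset.range N) q * ∫⁻ ω, 𝔄.Θ ω ∂pvP ε := by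
  have eF : (Finset.range N).filter (· < N + 1) = Finset.range N :=
    Finset.filter_true_of_mem fun j hj => by have := Finset.mem_range.1 hj; omega
  have eY : pvsyY (fun j : Fin (N + 1) => X j) (pvsyFin (N + 1) (Finset.range N)) = fun η => ∑ j ∈ Finset.range N, X j η := by
    funext η
    rw [pvsy_cyc_Y, eF]
  have k := pvny_first (pvny_geo_hyp (𝔄 := 𝔄) (qf := fun j : Fin (N + 1) => q j) (pvsy_cyc_wf hS) (pvsy_cyc_fld hX) (pvsy_cyc_forced hF)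
    ((pvny_cyc_R N sec).trans hC0) ((pvny_cyc_Mk N sec).trans hO) (pvny_cyc_yN hN (pv_isPpp ε) hS hX hF hfin)
    (by rw [pvny_cyc_ends (by omega), pvsy_cyc_Ev, eY]; exact hA))
  have e1 : ∀ ζ, (𝔄.toGeo (pvsyCyc (N + 1) sec) (pvsyFin (N + 1) (Finset.Ioo 0 N)) (pvsyFin (N + 1) (Finset.range N)) (fun j => X j) (fun j => q j)).Z₀
      (pvsyChainY (pvP ε) N sec X) ζ = 𝔄.Z ((sec 0).G ∩ (sec N).G) (pvsyChainY (pvP ε) N sec X) ζ := by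
    intro ζ
    unfold PvnwGeo.Z₀ PvnyArc.Z
    show ∑' g, ((pvsyCyc (N + 1) sec).Ends (pvsyFin (N + 1) (Finset.Ioo 0 N)) (pvsyFin (N + 1) (Finset.range N)) ∩ 𝔄.E g).indicator _ ζ = _
    rw [pvny_cyc_ends (by omega)]
    rfl
  simp only [e1] at k
  have e2 : (𝔄.toGeo (pvsyCyc (N + 1) sec) (pvsyFin (N + 1) (Finset.Ioo 0 N)) (pvsyFin (N + 1) (Finset.range N)) (fun j => X j) (fun j => q j)).Sy.Dc (pvP ε)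
      (pvsyFin (N + 1) (Finset.Ioo 0 N)) (pvsyFin (N + 1) (Finset.range N)) (fun j => q j) = pvsyDc (pvP ε) (N + 1) sec (Finset.Ioo 0 N) (Finset.range N) q :=
    pvsy_cyc_Dc (pvP ε) (N + 1) sec _ _ q
  exact e2 ▸ k

/-- **P17 (a) FOR A THIN CHAIN OF 58** `a = t -funnel-> cells of l -funnel-> c = s` (the U-form, with the white lane, of `pvsk_pattern`) -/
theorem pvny_sk_pattern {𝔄 : PvnyArc ι} {ε : ℝ} {kit : PvthKit} {X₀ : PvtTurn → Conf PvPt → ℂ} {a c : PvsySec PvPt} {z d : ℂ} {l : List PvtTurn} {Kf : Set PvPt} {Af : Set (Conf PvPt)}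
    {Xa Xf Xc : Conf PvPt → ℂ} (hk : kit.WF) (hX : kit.Fld X₀) (hd : d ^ 4 = 1) (hS : PvskFor (pvP ε) a kit z d l Kf Af c) (hXf : PvskForFld (pvP ε) a kit z d l Kf c Xa Xf Xc)
    {q : ℕ → ℝ≥0∞} (hF : PvsyCycForced (pvP ε) (l.length + 2 + 1) (pvskList a kit z d l Kf Af c) (Finset.Ioo 0 (l.length + 2)) (Finset.range (l.length + 2)) q)
    (hfin : ∀ j < l.length + 2, ∫⁻ η in a.G ∩ c.G ∩ pvsyEv (l.length + 2 + 1) (pvskList a kit z d l Kf Af c) (Finset.Ioo 0 (l.length + 2)) (Finset.range (l.length + 2)),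
      ‖pvskFld Xa kit X₀ z d l Xf Xc j η‖ₑ ∂(pvP ε) ≠ ∞)
    (hC0 : pvsyC0 (l.length + 2) (pvskList a kit z d l Kf Af c) = Prod.fst ⁻¹' 𝔄.C0) (hO : a.O ∪ c.O ⊆ Prod.fst ⁻¹' 𝔄.O2)
    (hA : 𝔄.Hyp ε (a.G ∩ c.G) (pvsyEv (l.length + 2 + 1) (pvskList a kit z d l Kf Af c) (Finset.Ioo 0 (l.length + 2)) (Finset.range (l.length + 2)))
      (fun η => ∑ j ∈ Finset.range (l.length + 2), pvskFld Xa kit X₀ z d l Xf Xc j η)) :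
    𝔄.qW * (pvhbUp ε).E (fun o => 𝔄.Z (a.G ∩ c.G) (fun σ => a.kout (pvskBare kit z d) (pvP ε) Xa σ + pvtSum (kit.W (pvP ε) X₀) d l
        + (pvskDoor kit (pvthZ kit.δ z d l l.length) (pvthD d l l.length) Kf Af).kin c (pvP ε) Xf σ) (pvConf (pvMerge o)))
      ≤ pvsyDc (pvP ε) (l.length + 2 + 1) (pvskList a kit z d l Kf Af c) (Finset.Ioo 0 (l.length + 2)) (Finset.range (l.length + 2)) q * ∫⁻ ω, 𝔄.Θ ω ∂pvP ε := by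
  have key := pvny_pattern (𝔄 := 𝔄) (N := l.length + 2) (by omega) (pvsk_wf hk hd hS) (pvsk_fld (Af := Af) hX hd hXf) hF
    (by rw [pvsk_list_zero, pvsk_list_last]; exact hfin) hC0 (by rw [pvsk_list_zero, pvsk_list_last]; exact hO) (by rw [pvsk_list_zero, pvsk_list_last]; exact hA)
  have e : pvsyChainY (pvP ε) (l.length + 2) (pvskList a kit z d l Kf Af c) (pvskFld Xa kit X₀ z d l Xf Xc) = fun σ => a.kout (pvskBare kit z d) (pvP ε) Xa σ + pvtSum (kit.W (pvP ε) X₀) d l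
        + (pvskDoor kit (pvthZ kit.δ z d l l.length) (pvthD d l l.length) Kf Af).kin c (pvP ε) Xf σ := funext fun σ => pvsk_chainY hk hX hd σ
  rw [e, pvsk_list_zero, pvsk_list_last] at key
  exact key

section dat

variable {τ : Type}

/-- the list of sectors of the closing chain of a pattern, at the data of 58 -/
noncomputable def pvnyLst (D : PvypDat τ) (Γ : ℕ → PvtsGeo τ) (m : ℕ) (ε : ℝ) (π : PvtsPat τ) : ℕ → PvsySec PvPt :=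
  pvskList (D.sOut m ε π.zt π.tt) (D.kit m ε) (π.zt + (Γ m).pout π.tt) ((Γ m).dout π.tt) π.l (D.Ki m ε π.zs π.ts) (D.Ai m ε π.zs π.ts) (D.sPl m ε π.zs π.ts)

/-- the event "the closing chain succeeds" -/
noncomputable def pvnyEv (D : PvypDat τ) (Γ : ℕ → PvtsGeo τ) (m : ℕ) (ε : ℝ) (π : PvtsPat τ) : Set (Conf PvPt) :=
  pvsyEv (π.l.length + 2 + 1) (pvnyLst D Γ m ε π) (Finset.Ioo 0 (π.l.length + 2)) (Finset.range (π.l.length + 2))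

/-- the closing sum `Y_c` -/
noncomputable def pvnyYc (D : PvypDat τ) (Γ : ℕ → PvtsGeo τ) (a : ℂ) (m : ℕ) (ε : ℝ) (π : PvtsPat τ) (η : Conf PvPt) : ℂ :=
  ∑ j ∈ Finset.range (π.l.length + 2), pvskFld (D.Xo m ε a π.zt π.tt) (D.kit m ε) (D.X₀ m ε a) (π.zt + (Γ m).pout π.tt) ((Γ m).dout π.tt) π.l (D.Xi m ε a π.zs π.ts) 0 j η

/-- the bound `D_c` of the weight -/
noncomputable def pvnyDc (D : PvypDat τ) (Γ : ℕ → PvtsGeo τ) (m : ℕ) (ε : ℝ) (π : PvtsPat τ) (q : ℕ → ℝ≥0∞) : ℝ≥0∞ :=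
  pvsyDc (pvP ε) (π.l.length + 2 + 1) (pvnyLst D Γ m ε π) (Finset.Ioo 0 (π.l.length + 2)) (Finset.range (π.l.length + 2)) q

/-- both marked states are usable -/
def pvnyEn (D : PvypDat τ) (m : ℕ) (ε : ℝ) (π : PvtsPat τ) : Set (Conf PvPt) := D.G m ε π.zt π.tt ∩ D.G m ε π.zs π.ts

/-- **THE NORMAL FORM** `κ_out(σ_t) + ∑ W + κ_in(σ_s)` -/
noncomputable def pvnyYN (D : PvypDat τ) (Γ : ℕ → PvtsGeo τ) (W : PvtW) (a : ℂ) (m : ℕ) (ε : ℝ) (π : PvtsPat τ) (σ : Conf PvPt) : ℂ :=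
  D.kout0 Γ m ε a π.zt π.tt σ + pvtSum W ((Γ m).dout π.tt) π.l + D.kin0 Γ m ε a π.zs π.ts σ

theorem pvny_eqns_cite3 : True := by
  have := @pvnyLst.eq_1; have := @pvnyEv.eq_1; have := @pvnyYc.eq_1; have := @pvnyDc.eq_1; have := @pvnyEn.eq_1; have := @pvnyYN.eq_1
  trivial

/-- **THE CONTRACT OF P17 (a) AT THE DATA OF 58** (one pattern, one mesh):   `pat` the chain (58 95 272 68 113),   `hC0 hO` regions (205),   `arc` the arc side (59 + 6 147 43 141) -/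
structure PvnyPat (D : PvypDat τ) (Γ : ℕ → PvtsGeo τ) (W : PvtW) (a : ℂ) (m : ℕ) (ε : ℝ) (π : PvtsPat τ) (q : ℕ → ℝ≥0∞) (𝔄 : PvnyArc ι) : Prop where
  pat : PvypPat D Γ W a m ε π q
  hC0 : pvsyC0 (π.l.length + 2) (pvnyLst D Γ m ε π) = Prod.fst ⁻¹' 𝔄.C0
  hO : D.O m ε π.zt π.tt ∪ D.O m ε π.zs π.ts ⊆ Prod.fst ⁻¹' 𝔄.O2
  arc : 𝔄.Hyp ε (pvnyEn D m ε π) (pvnyEv D Γ m ε π) (pvnyYc D Γ a m ε π)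

/-- **P17 (a) AT THE DATA OF 58, one mesh** -/
theorem pvny_yp_first {D : PvypDat τ} {Γ : ℕ → PvtsGeo τ} {W : PvtW} {a : ℂ} {m : ℕ} {ε : ℝ} {π : PvtsPat τ} {q : ℕ → ℝ≥0∞} {𝔄 : PvnyArc ι} (h : PvnyPat D Γ W a m ε π q 𝔄) :
    𝔄.qW * (pvhbUp ε).E (fun o => 𝔄.Z (pvnyEn D m ε π) (pvnyYN D Γ W a m ε π) (pvConf (pvMerge o))) ≤ pvnyDc D Γ m ε π q * ∫⁻ ω, 𝔄.Θ ω ∂pvP ε := by
  have key := pvny_sk_pattern (𝔄 := 𝔄) h.pat.wf h.pat.fld h.pat.d4 h.pat.for_ h.pat.forX h.pat.frc h.pat.fin h.hC0 h.hO h.arc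
  obtain ⟨d1, d2⟩ := pvyp_door_pat (Γ m) h.pat.del h.pat.ok
  rw [d1, d2, ← h.pat.W_eq] at key
  exact key

end dat

/-! ## 5. limits, and the fields `Z stab n1ν` of the record of road P -/

/-- from `q_W F ≤ D_c T` to `F → 0` -/
theorem pvny_tendsto {F T qW Dc : ℝ → ℝ≥0∞} {q0 D0 : ℝ} (hq0 : 0 < q0) (h : ∀ᶠ ε in 𝓝[>] (0 : ℝ), qW ε * F ε ≤ Dc ε * T ε)
    (hq : ∀ᶠ ε in 𝓝[>] (0 : ℝ), ENNReal.ofReal q0 ≤ qW ε) (hD : ∀ᶠ ε in 𝓝[>] (0 : ℝ), Dc ε ≤ ENNReal.ofReal D0) (tail : Tendsto T (𝓝[>] (0 : ℝ)) (𝓝 0)) :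
    Tendsto F (𝓝[>] (0 : ℝ)) (𝓝 0) := by
  have hq1 : ENNReal.ofReal q0 ≠ 0 := by
    rw [Ne, ENNReal.ofReal_eq_zero, not_le]; exact hq0
  have hlim : Tendsto (fun ε => (ENNReal.ofReal q0)⁻¹ * (ENNReal.ofReal D0 * T ε)) (𝓝[>] (0 : ℝ)) (𝓝 0) := by
    have h1 : Tendsto (fun ε => ENNReal.ofReal D0 * T ε) (𝓝[>] (0 : ℝ)) (𝓝 (ENNReal.ofReal D0 * 0)) :=
      ENNReal.Tendsto.const_mul tail (Or.inr ENNReal.ofReal_ne_top)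
    have h2 := ENNReal.Tendsto.const_mul (a := (ENNReal.ofReal q0)⁻¹) h1 (Or.inr (ENNReal.inv_ne_top.2 hq1))
    simpa using h2
  refine tendsto_of_tendsto_of_tendsto_of_le_of_le' tendsto_const_nhds hlim (Eventually.of_forall fun _ => zero_le) ?_
  filter_upwards [h, hq, hD] with ε h1 h2 h3
  have key : ENNReal.ofReal q0 * F ε ≤ ENNReal.ofReal D0 * T ε := by
    calc ENNReal.ofReal q0 * F ε ≤ qW ε * F ε := by gcongr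
      _ ≤ Dc ε * T ε := h1
      _ ≤ _ := by gcongr
  calc F ε = (ENNReal.ofReal q0)⁻¹ * (ENNReal.ofReal q0 * F ε) := by
        rw [← mul_assoc, ENNReal.inv_mul_cancel hq1 ENNReal.ofReal_ne_top, one_mul]
    _ ≤ _ := by gcongr

/-- **THE FIELD `n1ν`** of `PvrxArc` (79) / `PvrpInQ` (286) for one `(m, π)` at the data of 58, `Z m ε π := (𝔄 ε).Z (pvnyEn ..) (pvnyYN ..)` -/
theorem pvny_yp_n1nu {τ : Type} {D : PvypDat τ} {Γ : ℕ → PvtsGeo τ} {W : ℝ → PvtW} {a : ℂ} {m : ℕ} {π : PvtsPat τ} {q : ℝ → ℕ → ℝ≥0∞} {𝔄 : ℝ → PvnyArc ι} {q0 D0 : ℝ} (hq0 : 0 < q0)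
    (h : ∀ᶠ ε in 𝓝[>] (0 : ℝ), PvnyPat D Γ (W ε) a m ε π (q ε) (𝔄 ε)) (hq : ∀ᶠ ε in 𝓝[>] (0 : ℝ), ENNReal.ofReal q0 ≤ (𝔄 ε).qW)
    (hD : ∀ᶠ ε in 𝓝[>] (0 : ℝ), pvnyDc D Γ m ε π (q ε) ≤ ENNReal.ofReal D0) (tail : Tendsto (fun ε => ∫⁻ ω, (𝔄 ε).Θ ω ∂pvP ε) (𝓝[>] (0 : ℝ)) (𝓝 0)) :
    Tendsto (fun ε => (pvhbUp ε).E (fun o => (𝔄 ε).Z (pvnyEn D m ε π) (pvnyYN D Γ (W ε) a m ε π) (pvConf (pvMerge o)))) (𝓝[>] (0 : ℝ)) (𝓝 0) :=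
  pvny_tendsto hq0 (h.mono fun _ hε => pvny_yp_first hε) hq hD tail

/-- **THE `ν`-HALF OF THE FIELD `stab`** (pointwise, no hypothesis): a present datum is counted -/
theorem pvny_yp_stab {τ : Type} (D : PvypDat τ) (Γ : ℕ → PvtsGeo τ) (W : PvtW) (a : ℂ) (m : ℕ) (ε : ℝ) (π : PvtsPat τ) (𝔄 : PvnyArc ι) {ζ : Conf PvPt} {g : ι} {I : ℂ}
    (ht : ζ ∈ D.G m ε π.zt π.tt) (hs : ζ ∈ D.G m ε π.zs π.ts) (hg : ζ ∈ 𝔄.E g) (hI : 𝔄.Xg g ζ = I) :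
    ‖I + (D.kout0 Γ m ε a π.zt π.tt ζ + pvtSum W ((Γ m).dout π.tt) π.l + D.kin0 Γ m ε a π.zs π.ts ζ)‖ₑ ^ 2 ≤ 𝔄.Z (pvnyEn D m ε π) (pvnyYN D Γ W a m ε π) ζ := by
  rw [← hI]
  exact pvny_le_ZA 𝔄 _ _ ⟨ht, hs⟩ hg

end Claimed.Agent.R289
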