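import Claimed.Agent.R289.Tr.DiA
import Claimed.Agent.R289.Tr.Prep

/-!
# Row 289 (S0537, Cardy for Poisson-Voronoi), THE WALL, ROAD P, item P12, file Tr/Stab : STABILITY OF RIMS, GATES AND PINS UNDER THE LOCAL PREPARATION      (owner helper212, with helper113; prefix `pvsb_`, `Pvsb`, `pvsb`)

Master note: `origin/helper273:notes/R289/ROADP_273.md` (P12), `origin/helper59:notes/R289/TR18_59.md` sec. 3.      Consumers: field `stab` of `PvrpIn` (helper273, `Tr/RoadP.lean`), P15 DI-P (helper12, `Exit/Pins.lean`), P17 (b) (helper191).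
The preparation of a candidate repaints a strip `S` which the rim misses: sites of the strip receive the colour `b` OPPOSITE to the colour of the rim (`cfPaint S b B ξ` of helper263 with `cfStripOn S b ξ ⊆ B`: `pvpWt_supp`).

THE REDUCTION.      **`pvsb_paint`**: an encoded reaching rim of a completion of `ξ` IS an encoded reaching rim of the same completion of the repainted configuration.      So every deterministic statement on
"all rims of all completions of a configuration" (`pvdaAll x R η`: TRAP, ordered passages through the gates, TR24 = arcs are paths of the plane with `Col`, tags, `NB`) applies VERBATIM to the prepared configuration: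
nothing else has to be "stable".

* sec. 1  MODEL FREE: `PvsbW b S s s'` (recolouring `b → !b` off `S`);  `pvsb_noByp`;  **`pvsb_rim`** (L1.5 converse of helper113: no new vertex of the colour of the rim ⟹ no new bypass);  `pvsb_W_trans`
* sec. 2  CONFIGURATIONS: `pvsbAt x R Y σ`, `pvsb_at`, **`pvsb_all`**
* sec. 3  REPAINTINGS: colours of `cfPaint`, **`pvsb_paint`**, `pvsb_paint2` (the two strips of a pattern), `pvsb_move` (moves of positive weight of the preparation operator)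
* sec. 4  AFTER THE PREPARATION: `pvsb_trap`, `pvsb_gates` (every family of gates of the PREPARED configuration in the fixed annuli is passed in order, at its black sites);  `pvsb_fine`
-/

set_option autoImplicit false

namespace Claimed.Agent.R289

open Relation Claims.C0465

/-! ## 1. Model free: rims survive the recolouring of vertices off the rim to the other colour -/

section rim

variable {V D : Type} {T : PvMap V D}

/-- `s'` is obtained from `s` by giving the colour `!b` to some vertices off `S` -/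
structure PvsbW (b : Bool) (S : Set V) (s s' : V → Bool) : Prop where
  anti : ∀ v, s' v = b → s v = b
  keep : ∀ v ∈ S, s' v = s v

theorem PvsbW.refl (b : Bool) (S : Set V) (s : V → Bool) : PvsbW b S s s := ⟨fun _ h => h, fun _ _ => rfl⟩

theorem PvsbW.trans {b : Bool} {S : Set V} {s s' s'' : V → Bool} (h : PvsbW b S s s') (h' : PvsbW b S s' s'') : PvsbW b S s s'' :=
  ⟨fun v hv => h.anti v (h'.anti v hv), fun v hv => (h'.keep v hv).trans (h.keep v hv)⟩

theorem PvsbW.mono {b : Bool} {S S' : Set V} {s s' : V → Bool} (h : PvsbW b S s s') (hS : S' ⊆ S) : PvsbW b S' s s' := ⟨h.anti, fun v hv => h.keep v (hS hv)⟩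

/-- the other colour is kept -/
theorem PvsbW.other {b : Bool} {S : Set V} {s s' : V → Bool} (h : PvsbW b S s s') {v : V} (hv : s v ≠ b) : s' v ≠ b := fun h' => hv (h.anti v h')

/-- a walk of unoccupied edges of `s'` from a vertex of colour `b` is a walk of unoccupied edges of `s` -/
theorem pvsb_walk {b : Bool} {S : Set V} {s s' : V → Bool} (h : PvsbW b S s s') (c : T.Cyc) {u w : V} (hu : s' u = b) (hw : ReflTransGen (c.RStep s') u w) :
    s' w = b ∧ ReflTransGen (c.RStep s) u w := by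
  induction hw with
  | refl => exact ⟨hu, ReflTransGen.refl⟩
  | @tail y z _ hyz ih =>
    obtain ⟨e, rfl, rfl, ho, h1, h2⟩ := hyz
    have hz : s' (T.tgt e) = b := by
      have : s' (T.src e) = s' (T.tgt e) := not_not.1 ho
      rw [← this]; exact ih.1
    refine ⟨hz, ih.2.tail ⟨e, rfl, rfl, ?_, h1, h2⟩⟩
    intro hocc
    exact hocc ((h.anti _ ih.1).trans (h.anti _ hz).symm)

/-- no new vertex of the colour of the cycle ⟹ no new bypass -/
theorem pvsb_noByp {b : Bool} {s s' : V → Bool} {c : T.Cyc} (h : PvsbW b c.verts s s') (hb : ∀ i, s (T.src (c.e i)) = b) (hnb : c.NoByp s) : c.NoByp s' := by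
  intro u hu w hw huw
  have hub : s' u = b := by
    obtain ⟨i, rfl⟩ := hu
    rw [h.keep _ ⟨i, rfl⟩]; exact hb i
  exact hnb u hu w hw (pvsb_walk h c hub huw).2

/-- **STAB (a)**: a rim survives -/
theorem pvsb_rim (hT : T.IsSph) (hS : T.Simple) {c : T.Cyc} {s s' : V → Bool} (hc : c.IsRim s) (h : PvsbW (s (T.src (c.e 0))) c.verts s s') (hfin : c.Right.Finite) : c.IsRim s' := by
  have hb : ∀ i, s (T.src (c.e i)) = s (T.src (c.e 0)) := pl_rc_mono_of_rim hc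
  have hk : ∀ i, s' (T.src (c.e i)) = s (T.src (c.e 0)) := fun i => (h.keep _ ⟨i, rfl⟩).trans (hb i)
  refine pl_rim_conv_fin hT hS (fun i => (hk i).trans (hk 0).symm) (pvsb_noByp h hb (pl_rc_noByp hT hc)) ?_ hfin
  obtain ⟨v, hv, hne⟩ := pl_rc_white_of_rim hT hc
  exact ⟨v, hv, by rw [hk 0]; exact h.other hne⟩

/-- the tags on the right of the rim are the same darts, the colours of their three vertices do not change -/
theorem pvsb_tag {c : T.Cyc} {s s' : V → Bool} (hc : c.IsRim s) (h : PvsbW (s (T.src (c.e 0))) c.verts s s') (i : ℕ) :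
    s' (T.apex (T.opp (c.e i))) = s (T.apex (T.opp (c.e i))) := by
  have h1 : s (T.apex (T.opp (c.e i))) ≠ s (T.src (c.e 0)) := by
    rw [← pl_rim_col hc i 0]; exact pl_rim_facing_col hc i
  have h2 := h.other h1
  cases hA : s (T.apex (T.opp (c.e i))) <;> cases hB : s' (T.apex (T.opp (c.e i))) <;> cases hC : s (T.src (c.e 0)) <;> simp_all

end rim

/-! ## 2. Configurations -/

section conf

/-- all encoded reaching rims of all completions of the site set `Y` coloured by `σ` -/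
def pvsbAt (x : ℂ) (R : ℝ) (Y : Set ℂ) (σ : ℂ → Bool) : Set PvbRim :=
  {P | ∃ (X : Type) (_ : Fintype X) (𝔅 : PvBulk X) (ξ : X → Bool), 𝔅.Adm Y ∧ 𝔅.Ok Y (Metric.closedBall x (6 * R)) ∧ P ∈ 𝔅.rimsAt Y (fun v => Sum.elim σ ξ (𝔅.lab Y v)) x R}

theorem pvsb_eqns_cite : True := by
  have := @pvsbAt.eq_1
  trivial

theorem pvsb_at_eq (x : ℂ) (R : ℝ) (η : Conf PvPt) : pvdaAll x R η = pvsbAt x R (cfSites η) (cfCol η) := rfl

/-- the rims of all completions survive: site set fixed, colouring `σ'` = `σ` with some sites off the rim recoloured from `b` (the colour of the rim) to `!b` -/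
theorem pvsb_at {x : ℂ} {R : ℝ} (hR : 0 < R) {Y : Set ℂ} {σ σ' : ℂ → Bool} {P : PvbRim} (hP : P ∈ pvsbAt x R Y σ) {b : Bool} {k : ℕ} (hk : ‖P.v k - x‖ ≤ 6 * R) (hb : σ (P.v k) = b)
    (h1 : ∀ p ∈ Y, σ' p = b → σ p = b) (h2 : ∀ j, P.v j ∈ Y → σ' (P.v j) = σ (P.v j)) : P ∈ pvsbAt x R Y σ' := by
  obtain ⟨X, hX, 𝔅, ξ, hA, hOk, c, hc, h4, rfl⟩ := hP
  refine ⟨X, hX, 𝔅, ξ, hA, hOk, c, ?_, h4, rfl⟩
  have : Finite (𝔅.D Y) := hA.2
  have hcol : Sum.elim σ ξ (𝔅.lab Y ((𝔅.T Y).src (c.e 0))) = b := by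
    have e1 : Sum.elim σ ξ (𝔅.lab Y ((𝔅.T Y).src (c.e 0))) = Sum.elim σ ξ (𝔅.lab Y ((𝔅.T Y).src (c.e k))) := pl_rim_col hc 0 k
    rw [e1, pvloc_posF hR hk]
    exact hb
  refine pvsb_rim hOk.sph hOk.simple hc ⟨?_, ?_⟩ (Set.toFinite _)
  · intro v hv
    have hv' : Sum.elim σ' ξ (𝔅.lab Y v) = b := hv.trans hcol
    show Sum.elim σ ξ (𝔅.lab Y v) = Sum.elim σ ξ (𝔅.lab Y ((𝔅.T Y).src (c.e 0)))
    rw [hcol]
    rcases hl : 𝔅.lab Y v with p | e
    · rw [hl] at hv'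
      exact h1 p (hOk.site v p hl) hv'
    · rw [hl] at hv'
      exact hv'
  · rintro v ⟨j, rfl⟩
    show Sum.elim σ' ξ (𝔅.lab Y ((𝔅.T Y).src (c.e j))) = Sum.elim σ ξ (𝔅.lab Y ((𝔅.T Y).src (c.e j)))
    rcases hl : 𝔅.lab Y ((𝔅.T Y).src (c.e j)) with p | e
    · have hp : (𝔅.enc Y (x + 7 * R) c).v j = p := l9_posF_inl 𝔅 hl
      have := h2 j (by rw [hp]; exact hOk.site _ p hl)
      rwa [hp] at this
    · rfl

/-- **STAB (a), family-free form** -/
theorem pvsb_all {x : ℂ} {R : ℝ} (hR : 0 < R) {η η' : Conf PvPt} (hY : cfSites η' = cfSites η) {P : PvbRim} (hP : P ∈ pvdaAll x R η) {b : Bool} {k : ℕ} (hk : ‖P.v k - x‖ ≤ 6 * R)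
    (hb : cfCol η (P.v k) = b) (h1 : ∀ p ∈ cfSites η, cfCol η' p = b → cfCol η p = b) (h2 : ∀ j, P.v j ∈ cfSites η → cfCol η' (P.v j) = cfCol η (P.v j)) : P ∈ pvdaAll x R η' := by
  rw [pvsb_at_eq, hY]
  exact pvsb_at hR (by rwa [pvsb_at_eq] at hP) hk hb h1 h2

end conf

/-! ## 3. Repaintings of a strip -/

section paint

variable {S S' : Set ℂ} {b : Bool} {B B' : Finset ℂ} {ξ : Conf PvPt}

/-- off the strip the colours do not change -/
theorem pvsb_col_off {p : ℂ} (hp : p ∉ S) : cfCol (cfPaint S b B ξ) p = cfCol ξ p := by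
  unfold cfCol
  congr 1
  rw [pvp_mem_paint]
  exact propext ⟨fun h => h.elim (fun h => h.1) fun h => absurd h.2.1 hp, fun h => Or.inl ⟨h, hp⟩⟩

/-- in the strip: colour `b` on `B`, the other colour on the rest -/
theorem pvsb_col_in {p : ℂ} (hp : p ∈ cfSites ξ) (hS : p ∈ S) : cfCol (cfPaint S b B ξ) p = if p ∈ B then b else !b := by
  have h1 : ((p, true) ∈ (cfPaint S b B ξ).pts) ↔ true = if p ∈ B then b else !b := by
    rw [pvp_mem_paint]
    exact ⟨fun h => h.elim (fun h => absurd hS h.2) fun h => h.2.2, fun h => Or.inr ⟨hp, hS, h⟩⟩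
  unfold cfCol
  by_cases hB : p ∈ B <;> cases b <;> simp [h1, hB]

theorem pvsb_mem_strip (hN : CfNice S ξ) {p : ℂ} (hp : p ∈ cfSites ξ) (hS : p ∈ S) : p ∈ cfStrip S ξ := by
  unfold cfStrip
  rw [dif_pos hN.fin]
  exact hN.fin.mem_toFinset.2 ⟨hp, hS⟩

/-- a site which does not carry the colour `b` has the colour `!b` -/
theorem pvsb_col_of_not {p : ℂ} (hp : p ∈ cfSites ξ) (h : (p, b) ∉ ξ.pts) : cfCol ξ p = !b := by
  obtain ⟨⟨q, c⟩, hq, rfl⟩ := hp
  have hc : c = !b := by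
    cases c <;> cases b <;> first | rfl | exact absurd hq h
  subst hc
  unfold cfCol
  cases b
  · simpa using hq
  · simpa using h

/-- a repainting which only ADDS the colour `b` creates no site of the colour `!b` -/
theorem pvsb_col_anti (hN : CfNice S ξ) (hB : cfStripOn S b ξ ⊆ B) {p : ℂ} (hp : p ∈ cfSites ξ) (h : cfCol (cfPaint S b B ξ) p = !b) : cfCol ξ p = !b := by
  by_cases hS : p ∈ S
  · rw [pvsb_col_in hp hS] at h
    have hpB : p ∉ B := by
      intro hpB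
      rw [if_pos hpB] at h
      cases b <;> simp at h
    refine pvsb_col_of_not hp fun hpb => hpB (hB ?_)
    exact pvp_mem_stripOn.2 ⟨pvsb_mem_strip hN hp hS, hpb⟩
  · rwa [pvsb_col_off hS] at h

/-- **STAB (a) FOR THE PREPARATION**: an encoded reaching rim (of colour `!b`) of a completion of `ξ` which misses the strip is an encoded reaching rim of the same completion of the repainted configuration -/
theorem pvsb_paint {x : ℂ} {R : ℝ} (hR : 0 < R) (hN : CfNice S ξ) (hB : cfStripOn S b ξ ⊆ B) {P : PvbRim} (hP : P ∈ pvdaAll x R ξ) {k : ℕ} (hk : ‖P.v k - x‖ ≤ 6 * R)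
    (hb : cfCol ξ (P.v k) = !b) (hoff : ∀ j, P.v j ∉ S) : P ∈ pvdaAll x R (cfPaint S b B ξ) :=
  pvsb_all hR (cfPaint_sites S b B ξ) hP hk hb (fun _ hp => pvsb_col_anti hN hB hp) fun j _ => pvsb_col_off (hoff j)

theorem pvsb_nice (hN : CfNice S ξ) (hN' : CfNice S' ξ) : CfNice S' (cfPaint S b B ξ) :=
  ⟨(cfPaint_nice hN b B).col, by rw [cfPaint_sites]; exact hN'.fin⟩

/-- the two strips of a pattern, one after the other -/
theorem pvsb_paint2 {x : ℂ} {R : ℝ} (hR : 0 < R) (hN : CfNice S ξ) (hN' : CfNice S' ξ) (hB : cfStripOn S b ξ ⊆ B) (hB' : cfStripOn S' b (cfPaint S b B ξ) ⊆ B') {P : PvbRim}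
    (hP : P ∈ pvdaAll x R ξ) {k : ℕ} (hk : ‖P.v k - x‖ ≤ 6 * R) (hb : cfCol ξ (P.v k) = !b) (hoff : ∀ j, P.v j ∉ S) (hoff' : ∀ j, P.v j ∉ S') :
    P ∈ pvdaAll x R (cfPaint S' b B' (cfPaint S b B ξ)) :=
  pvsb_paint hR (pvsb_nice hN hN') hB' (pvsb_paint hR hN hB hP hk hb hoff) hk (by rw [pvsb_col_off (hoff k)]; exact hb) hoff'

/-- the moves of positive weight of the preparation operator of helper263 -/
theorem pvsb_move {x : ℂ} {R : ℝ} (hR : 0 < R) (hN : CfNice S ξ) {𝒜 : Set (Conf PvPt)} (hI : PvpInc S b 𝒜) (hQ : 0 < pvpQ S b 𝒜 ξ) (hB : B ⊆ cfStrip S ξ) (hw : pvpWt S b 𝒜 ξ B ≠ 0)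
    {P : PvbRim} (hP : P ∈ pvdaAll x R ξ) {k : ℕ} (hk : ‖P.v k - x‖ ≤ 6 * R) (hb : cfCol ξ (P.v k) = !b) (hoff : ∀ j, P.v j ∉ S) :
    P ∈ pvdaAll x R (cfPaint S b B ξ) ∧ cfPaint S b B ξ ∈ 𝒜 :=
  ⟨pvsb_paint hR hN (pvpWt_supp hI hQ hB hw).1 hP hk hb hoff, (pvpWt_supp hI hQ hB hw).2⟩

end paint

/-! ## 4. After the preparation -/

section after

variable {S : Set ℂ} {b : Bool} {B : Finset ℂ} {ξ : Conf PvPt}

/-- the mesh event does not see the colours -/
theorem pvsb_fine {K : Set ℂ} {μ : ℝ} (h : L9Fine (cfSites ξ) K μ) : L9Fine (cfSites (cfPaint S b B ξ)) K μ := by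
  rw [cfPaint_sites]; exact h

/-- **STAB (b), TRAP**: every gate of the PREPARED configuration (for the colour of the rim) in the annulus traps the rim -/
theorem pvsb_trap {τ : Type} (𝔐 : PvbMenu τ) {x z : ℂ} {R h a₀ b₀ μ : ℝ} (hR : 0 < R) (hμ : 0 ≤ μ) (hf : L9Fine (cfSites ξ) (Metric.closedBall x (6 * R)) μ) (hz : ‖z - x‖ + b₀ + μ < 4 * R)
    (hN : CfNice S ξ) (hB : cfStripOn S b ξ ⊆ B) {P : PvbRim} (hP : P ∈ pvdaAll x R ξ) (hoff : ∀ j, P.v j ∉ S) {k : ℕ} (hk : k < P.len) (hb : cfCol ξ (P.v k) = !b)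
    (hnear : ‖P.v k - z‖ ≤ h) (hha : h ≤ a₀) (hab : a₀ ≤ b₀) (t : τ) (ha : 𝔐.a3 t * h ≤ a₀) (hb₀ : b₀ + μ ≤ 𝔐.L * h)
    (hg : PvdaGate (cfSites (cfPaint S b B ξ)) (cfCol (cfPaint S b B ξ)) (!b) z a₀ b₀) : PvbIsPin 𝔐 h P ⟨k, z, t⟩ := by
  have hkx : ‖P.v k - x‖ ≤ 6 * R := pvda_ball_sub (z := z) (ρ := b₀) (by linarith) (hnear.trans (hha.trans hab))
  refine pvda_trap_cf 𝔐 hR hμ (pvsb_fine hf) hz (pvsb_paint hR hN hB hP hkx hb hoff) hk hnear hha hab t ha hb₀ ?_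
  rw [pvsb_col_off (hoff k), hb]
  exact hg

/-- **STAB (b), GATES**: every family of gates of the PREPARED configuration in fixed nested annuli is passed in order by the rim; their exceptional sites are exactly the sites `P.v (lo j)`, `P.v (hi j)` -/
theorem pvsb_gates {x z : ℂ} {R μ : ℝ} (hR : 0 < R) (hμ : 0 ≤ μ) (hf : L9Fine (cfSites ξ) (Metric.closedBall x (6 * R)) μ) (hN : CfNice S ξ) (hB : cfStripOn S b ξ ⊆ B)
    {P : PvbRim} (hP : P ∈ pvdaAll x R ξ) (hoff : ∀ j, P.v j ∉ S) {k : ℕ} (hk : k < P.len) (hkx : ‖P.v k - x‖ ≤ 6 * R) (hb : cfCol ξ (P.v k) = !b) {g : ℕ} {a₀ b₀ : Fin g → ℝ}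
    (hab : ∀ j, a₀ j ≤ b₀ j) (hord : ∀ j j', j < j' → b₀ j + μ ≤ a₀ j') (hz : ∀ j, ‖z - x‖ + b₀ j + μ < 4 * R) (hnear : ∀ j, ‖P.v k - z‖ ≤ a₀ j)
    (h : DelGood (cfSites (cfPaint S b B ξ))) {G : Fin g → Set (delPl h).Dart} {X : Fin g → Finset ↥(cfSites (cfPaint S b B ξ))}
    (hg : ∀ j, PvgGate (delPl h).toMap (fun v => cfCol (cfPaint S b B ξ) v) (!b) (pvdiB (delPl h).toMap Subtype.val z (a₀ j)) (pvdiB (delPl h).toMap Subtype.val z (b₀ j)) (G j) (X j)) :
    ∃ lo hi : Fin g → ℕ, PvdaPass P z μ k a₀ b₀ lo hi ∧ ∀ j, (∃ v ∈ X j, (v : ℂ) = P.v (lo j)) ∧ (∃ v ∈ X j, (v : ℂ) = P.v (hi j)) ∧ (∀ v ∈ X j, (v : ℂ) = P.v (lo j) ∨ (v : ℂ) = P.v (hi j)) ∧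
      P.v (lo j) ≠ P.v (hi j) ∧ ∀ i, lo j < i → i < hi j → ∃ v ∈ (delPl h).toMap.Int (G j), (v : ℂ) = P.v i := by
  refine pvda_gates_cf hR hμ (pvsb_fine hf) (pvsb_paint hR hN hB hP hkx hb hoff) hk hkx hab hord hz hnear h ?_
  rw [pvsb_col_off (hoff k), hb]
  exact hg

/-- **STAB (b'), THE GATES OF THE ACTUAL CONFIGURATION SURVIVE**: gates of `ξ` in fixed nested annuli, for the colour of a rim which passes them and misses the strip, are gates of the prepared configuration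
(same face sets, same exceptional sites) -/
theorem pvsb_gate_keep {x z : ℂ} {R μ : ℝ} (hR : 0 < R) (hμ : 0 ≤ μ) (hf : L9Fine (cfSites ξ) (Metric.closedBall x (6 * R)) μ) (hN : CfNice S ξ) (hB : cfStripOn S b ξ ⊆ B)
    {P : PvbRim} (hP : P ∈ pvdaAll x R ξ) (hoff : ∀ j, P.v j ∉ S) {k : ℕ} (hk : k < P.len) (hkx : ‖P.v k - x‖ ≤ 6 * R) (hb : cfCol ξ (P.v k) = !b) {g : ℕ} {a₀ b₀ : Fin g → ℝ}
    (hab : ∀ j, a₀ j ≤ b₀ j) (hord : ∀ j j', j < j' → b₀ j + μ ≤ a₀ j') (hz : ∀ j, ‖z - x‖ + b₀ j + μ < 4 * R) (hnear : ∀ j, ‖P.v k - z‖ ≤ a₀ j)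
    (h : DelGood (cfSites ξ)) {G : Fin g → Set (delPl h).Dart} {X : Fin g → Finset ↥(cfSites ξ)}
    (hg : ∀ j, PvgGate (delPl h).toMap (fun v => cfCol ξ v) (!b) (pvdiB (delPl h).toMap Subtype.val z (a₀ j)) (pvdiB (delPl h).toMap Subtype.val z (b₀ j)) (G j) (X j)) (j : Fin g) :
    PvgGate (delPl h).toMap (fun v => cfCol (cfPaint S b B ξ) v) (!b) (pvdiB (delPl h).toMap Subtype.val z (a₀ j)) (pvdiB (delPl h).toMap Subtype.val z (b₀ j)) (G j) (X j) := by
  obtain ⟨lo, hi, -, H⟩ := pvda_gates_cf hR hμ hf hP hk hkx hab hord hz hnear h (by rw [hb]; exact hg)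
  refine (hg j).recolor (fun v hv => pvsb_col_anti hN hB v.2 hv) fun v hv => ?_
  show cfCol (cfPaint S b B ξ) v = !b
  have hvS : (v : ℂ) ∉ S := by
    rcases (H j).2.2.1 v hv with e | e <;> rw [e] <;> exact hoff _
  rw [pvsb_col_off hvS]
  exact (hg j).col v hv

/-- the same in the family-free vocabulary -/
theorem pvsb_gate_keep' {x z : ℂ} {R μ : ℝ} (hR : 0 < R) (hμ : 0 ≤ μ) (hf : L9Fine (cfSites ξ) (Metric.closedBall x (6 * R)) μ) (hN : CfNice S ξ) (hB : cfStripOn S b ξ ⊆ B)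
    {P : PvbRim} (hP : P ∈ pvdaAll x R ξ) (hoff : ∀ j, P.v j ∉ S) {k : ℕ} (hk : k < P.len) (hkx : ‖P.v k - x‖ ≤ 6 * R) (hb : cfCol ξ (P.v k) = !b) {a₀ b₀ : ℝ}
    (hab : a₀ ≤ b₀) (hz : ‖z - x‖ + b₀ + μ < 4 * R) (hnear : ‖P.v k - z‖ ≤ a₀) (hg : PvdaGate (cfSites ξ) (cfCol ξ) (!b) z a₀ b₀) :
    PvdaGate (cfSites (cfPaint S b B ξ)) (cfCol (cfPaint S b B ξ)) (!b) z a₀ b₀ := by
  obtain ⟨h, G, X, hg'⟩ := hg
  rw [cfPaint_sites]
  exact ⟨h, G, X, pvsb_gate_keep (g := 1) (a₀ := fun _ => a₀) (b₀ := fun _ => b₀) (G := fun _ => G) (X := fun _ => X) hR hμ hf hN hB hP hoff hk hkx hb (fun _ => hab)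
    (fun j j' hjj => absurd hjj (by rw [Subsingleton.elim j j']; exact lt_irrefl _)) (fun _ => hz) (fun _ => hnear) h (fun _ => hg') 0⟩

end after

/-! ## 5. The arcs of the rims are monochromatic Delaunay paths with the other colour on their right: family-free form, before and after the preparation -/

section arcs

/-- one step of an encoded rim from a site of the ball of agreement: a Delaunay edge, same colour, and the Delaunay triangle on its RIGHT has its third vertex of the other colour -/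
theorem pvsb_step {x : ℂ} {R : ℝ} (hR : 0 < R) {η : Conf PvPt} {P : PvbRim} (hP : P ∈ pvdaAll x R η) {i : ℕ} (hi : ‖P.v i - x‖ ≤ 6 * R) :
    DelAdj (cfSites η) (P.v i) (P.v (i + 1)) ∧ cfCol η (P.v (i + 1)) = cfCol η (P.v i) ∧ ∃ w, DelTri (cfSites η) (P.v i) w (P.v (i + 1)) ∧ cfCol η w ≠ cfCol η (P.v i) := by
  obtain ⟨X, hX, 𝔅, ξ, -, hOk, c, hc, -, rfl⟩ := pvda_all_mem hP
  have hK : 𝔅.posF (cfSites η) (x + 7 * R) ((𝔅.T (cfSites η)).src (c.e i)) ∈ Metric.closedBall x (6 * R) := mem_closedBall_iff_norm.2 hi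
  have hl := pvloc_posF hR hi
  obtain ⟨p, q, k1, -, k3⟩ := hOk.del (c.e i) _ hl hK
  have hl1 : 𝔅.lab (cfSites η) ((𝔅.T (cfSites η)).src (c.e (i + 1))) = Sum.inl p := by rw [← c.chain i]; exact k1
  have e1 : (𝔅.enc (cfSites η) (x + 7 * R) c).v (i + 1) = p := l9_posF_inl 𝔅 hl1
  have hl' : 𝔅.lab (cfSites η) ((𝔅.T (cfSites η)).src ((𝔅.T (cfSites η)).nxt ((𝔅.T (cfSites η)).opp (c.e i)))) =
      Sum.inl (𝔅.posF (cfSites η) (x + 7 * R) ((𝔅.T (cfSites η)).src (c.e i))) := by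
    rw [(𝔅.T (cfSites η)).src_nxt, (𝔅.T (cfSites η)).tgt_opp]; exact hl
  obtain ⟨w, q', m1, m2, m3⟩ := hOk.del _ _ hl' hK
  rw [(𝔅.T (cfSites η)).tgt_nxt] at m1
  rw [(𝔅.T (cfSites η)).apex_nxt, (𝔅.T (cfSites η)).src_opp', k1] at m2
  have hq : p = q' := Sum.inl_injective m2
  subst hq
  have c0 : 𝔅.col η ξ ((𝔅.T (cfSites η)).src (c.e i)) = cfCol η ((𝔅.enc (cfSites η) (x + 7 * R) c).v i) := delb_col_inl 𝔅 η ξ hl
  have c1 : 𝔅.col η ξ ((𝔅.T (cfSites η)).src (c.e (i + 1))) = cfCol η p := delb_col_inl 𝔅 η ξ hl1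
  have c2 : 𝔅.col η ξ ((𝔅.T (cfSites η)).apex ((𝔅.T (cfSites η)).opp (c.e i))) = cfCol η w := delb_col_inl 𝔅 η ξ m1
  rw [e1]
  refine ⟨k3.adj, ?_, w, m3, ?_⟩
  · rw [← c1, ← c0]; exact pl_rim_col hc (i + 1) i
  · rw [← c2, ← c0]; exact pl_rim_facing_col hc i

/-- all the sites of an arc inside the ball of agreement have the colour of its first site -/
theorem pvsb_arc_col {x : ℂ} {R : ℝ} (hR : 0 < R) {η : Conf PvPt} {P : PvbRim} (hP : P ∈ pvdaAll x R η) {i : ℕ} (n : ℕ) (hi : ∀ k, k < n → ‖P.v (i + k) - x‖ ≤ 6 * R) :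
    cfCol η (P.v (i + n)) = cfCol η (P.v i) := by
  induction n with
  | zero => rfl
  | succ n ih =>
    rw [← ih fun k hk => hi k (Nat.lt_succ_of_lt hk)]
    exact (pvsb_step hR hP (hi n (Nat.lt_succ_self n))).2.1

/-- **STAB (d), black side**: after the preparation the arc `P[i, i+n]` is still a Delaunay path of the colour `!b`, with the colour `b` at the third vertices of the triangles on its right -/
theorem pvsb_arc {S : Set ℂ} {b : Bool} {B : Finset ℂ} {ξ : Conf PvPt} {x : ℂ} {R : ℝ} (hR : 0 < R) (hN : CfNice S ξ) (hB : cfStripOn S b ξ ⊆ B) {P : PvbRim} (hP : P ∈ pvdaAll x R ξ)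
    (hoff : ∀ j, P.v j ∉ S) {i n : ℕ} (hi : ∀ k, k ≤ n → ‖P.v (i + k) - x‖ ≤ 6 * R) (hb : cfCol ξ (P.v i) = !b) (k : ℕ) (hk : k ≤ n) :
    cfCol (cfPaint S b B ξ) (P.v (i + k)) = !b ∧ DelAdj (cfSites ξ) (P.v (i + k)) (P.v (i + k + 1)) ∧
      ∃ w, DelTri (cfSites ξ) (P.v (i + k)) w (P.v (i + k + 1)) ∧ cfCol (cfPaint S b B ξ) w = b := by
  have hP' := pvsb_paint hR hN hB hP (hi 0 (Nat.zero_le n)) hb hoff
  have h0 : cfCol (cfPaint S b B ξ) (P.v (i + k)) = !b := by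
    rw [pvsb_col_off (hoff _), pvsb_arc_col hR hP k fun j hj => hi j (hj.le.trans hk)]
    exact hb
  obtain ⟨h1, -, w, h3, h4⟩ := pvsb_step hR hP' (hi k hk)
  rw [cfPaint_sites] at h1 h3
  refine ⟨h0, h1, w, h3, ?_⟩
  rw [h0] at h4
  cases hw : cfCol (cfPaint S b B ξ) w <;> cases b <;> simp_all

end arcs

end Claimed.Agent.R289
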