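-- KEEP
import Claimed.Agent.R289.Tr.StateP
import Claimed.Agent.R289.Tr.GateN
import Claimed.Agent.R289.Tr.GateMin
import Claimed.Agent.R289.Tr.StrandD

/-!
# Row 289 (S0537, Cardy for Poisson-Voronoi), THE WALL, ROAD P, item P12 STAB, file Tr/StabFit : A RIM WHICH FITS THE TUBES CARRIES THE STATE AND ITS FOUR SIDE PATHS      (helper97, second of helper212; prefix `pvsq_`, `Pvsq`)

Blueprint: `origin/helper273:notes/R289/ROADP_273.md` P12 (third and fourth sentence), P5 (FIT-IN), P4 (side events), P15 (consumer).      DETERMINISTIC, MODEL FREE, LEVEL A of `Tr/StateP` (185).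
`Tr/Stab.lean` (212) proves that the rim `P` of the actual colouring is still a rim of the PREPARED colouring `s` (whitened inside the strip) and that gates survive.      THIS FILE starts from there:
`T : PvMap V D`, marks `mk : V → κ`, regions `𝔯 : PvspReg κ`, `s` = the prepared colouring (`true` = the colour of the rim), `P : T.Cyc` a rim of `s`.

* sec. 1  `pvsq_inn_le`      BRIDGE `g.IsInn p` (260, faced passage) ⟹ `PvwLE` (216, loop erasure of the black bank of the inner strand): the form asked by `PvspSt.At.arc`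
* sec. 2  `PvsqWF` (WEAK FRAME: no hypothesis on the complement of `O`; for `O` = star of the sites of a ball `PvgnFr.connO` FAILS: pockets), `pvsqFill`, `pvsq_fill_frame`;
          `pvsq_sel`         THE SELECTED GATE EXISTS (innermost gate of 150 for the FILLED frame seen from a far dart of `P`) and `P` passes it in the positive sense: `PvspSel T s I O g ∧ g.Pass P lo hi`
* sec. 3  `PvsqRun`          the run of `P` through the candidate: indices `em ≤ k0 ≤ ep`, tube `Nm` before the pin vertex, tube `Np` after it, doors at the two ends (= P10 (i) in index form)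
          `pvsq_nest`, `pvsq_idx`      the four gate indices `em < lo₂ < lo₁ ≤ k0 ≤ hi₁ < hi₂ < ep`
          **`pvsq_state`**   P2 + P3 + FIT-IN: `∃ 𝔖, 𝔖.At mk 𝔯` with `𝔖.inn` = the arc `Δ(S₂,P)`
* sec. 4  **`pvsq_black`**   `L^{+,b}`, `L^{-,b}`: the rim itself
* sec. 5  **`pvsq_white`**   `L^{+,w}`, `L^{-,w}`: the tail / the head of a white door-to-door path (walk split of 15 + ORIENTATION P11' of 291 as hypotheses)
* sec. 6  **`pvsq_pred`**    `PvspPred 𝔯 c k V D T mk s₀` for the five kinds = what `PvspIsEv.dict` asks (consumer: P15 DI-P).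
-/

set_option autoImplicit false
set_option linter.unusedSectionVars false
set_option linter.unusedVariables false

namespace Claimed.Agent.R289

open Relation

variable {V D κ : Type} {T : PvMap V D} {s : V → Bool}

/-! ## 1. the inner path of a gate is the loop erasure of record -/

/-- `PvwLE` only reads the length and the vertices of the path -/
theorem pvsq_le_path_congr {b : ℕ → V} {n : ℕ} {y y' : T.Pth} (hn : y.n = y'.n) (hv : ∀ i, i ≤ y.n → y.v i = y'.v i) (h : PvwLE T b n y) : PvwLE T b n y' := by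
  obtain ⟨j, h0, h1, h2, h3⟩ := h
  refine ⟨j, ?_, ?_, ?_, ?_⟩
  · rw [← hv 0 (Nat.zero_le _)]; exact h0
  · rw [← hn]; exact h1
  · intro k hk
    rw [← hn] at hk
    rw [← hv k hk]
    exact h2 k hk
  · intro k hk
    rw [← hn] at hk
    rw [← hv (k + 1) (by omega)]
    exact h3 k hk

/-- two paths with the same darts and the same first vertex have the same vertices -/
theorem pvsq_path_verts {y y' : T.Pth} (hn : y.n = y'.n) (he : ∀ i, i < y.n → y.e i = y'.e i) (h0 : y.v 0 = y'.v 0) : ∀ i, i ≤ y.n → y.v i = y'.v i := by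
  intro i hi
  rcases Nat.eq_zero_or_pos i with rfl | hpos
  · exact h0
  · obtain ⟨k, rfl⟩ : ∃ k, i = k + 1 := ⟨i - 1, by omega⟩
    rw [← y.tgt_e k (by omega), ← y'.tgt_e k (by omega), he k (by omega)]

/-- the inner strand does not come back to the entrance -/
theorem pvsq_no_return (hT : T.IsSph) (g : T.Gate s) (hfin : g.c.Left.Finite) : ∀ k, 0 < k → k < g.len → pvasIt T s g.aIn k ≠ g.aIn := by
  intro k h0 hk he
  obtain ⟨-, hin, -⟩ := pvtg_len hT g hfin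
  have hI : pvasIn T g.c.Left s g.aIn := (pvtg_in_iff hT g _).2 (Or.inl rfl)
  obtain ⟨j, rfl⟩ : ∃ j, k = j + 1 := ⟨k - 1, by omega⟩
  have h1 : pvasIt T s g.aIn j ∈ g.c.Left := hin j (by omega)
  have h2 : T.SF (pvasIt T s g.aIn j) (T.opp (pvasStep T s (pvasIt T s g.aIn j))) := pvas_step_sf s _
  have h3 : pvasStep T s (pvasIt T s g.aIn j) = pvasIt T s g.aIn (j + 1) := by
    unfold pvasIt
    rw [Function.iterate_succ_apply']
  rw [h3, he] at h2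
  exact hI.2.1 ((PvMap.FaceSet.sf T (pl_left_face g.c) h2).2 h1)

/-- **BRIDGE**: the inner path of a gate (faced passage, 260) is the loop erasure of the black bank of the inner strand (216) -/
theorem pvsq_inn_le (hT : T.IsSph) (hS : T.Simple) (g : T.Gate s) (hfin : g.c.Left.Finite) {p : T.Pth} (h : g.IsInn p) :
    PvwLE T (fun i => T.src (pvasIt T s g.aIn i)) g.len p := by
  classical
  have hthru : g.Thru := pvgz_thru_of_psg hT g hfin h.1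
  have ha : pvasBW T s g.aIn := pvtg_aIn_bw g
  have hy := pvt_sd_le hT hS ha (pvt_sd_inj ha (pvsq_no_return hT g hfin))
  have e0 : (pvtArc T s g.aIn g.len).v 0 = p.v 0 := by
    rw [pvt_sd_v0 hy, h.1.h0]; rfl
  have e1 : (pvtArc T s g.aIn g.len).v (pvtArc T s g.aIn g.len).n = p.v p.n := by
    rw [pvt_sd_vn hy, h.1.h1, (pvtg_len hT g hfin).2.2, hthru, pvtg_aOut_src]
  obtain ⟨hn, he⟩ := pvt_c_unique hT hS s _ _ p (pvt_sd_gfaced hS ha hy) h.2.gfaced e0 e1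
  exact pvsq_le_path_congr hn (pvsq_path_verts hn he e0) hy

/-! ## 2. the selected gate exists and the rim passes it -/

/-- the selected gate may be read from its other black vertex -/
theorem PvspSel.swap (hT : T.IsSph) {I O : Set D} {g : T.Gate s} (hfin : g.c.Left.Finite) (h : PvspSel T s I O g) : PvspSel T s I O g.swap where
  on := (pl_jordan hT g.swap.c).2.1
  inner := by rw [pvgz_swap_left hT]; exact h.inner
  outer := by rw [pvgz_swap_left hT]; exact h.outer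
  thru := (pvgz_swap_thru hT g hfin).2 h.thru
  least g' h0 h1 h2 := by rw [pvgz_swap_left hT]; exact h.least g' h0 h1 h2

/-- **WEAK FRAME** of an annulus: NO hypothesis on the complement of `O` (for `O` = the star of the sites of a ball the complement has POCKETS: `PvgnFr.connO` fails) -/
structure PvsqWF (T : PvMap V D) (I O : Set D) : Prop where
  faceI : T.FaceSet I
  faceO : T.FaceSet O
  sub : I ⊆ O
  ne : I.Nonempty
  connI : ∀ a ∈ I, ∀ b ∈ I, T.DJoin {d | T.Bd I d} a b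
  fin : Finite D

/-- `O` with its pockets, seen from the far face `o` -/
def pvsqFill (T : PvMap V D) (O : Set D) (o : D) : Set D := {d | ¬ T.DJoin {e | T.Bd O e} o d}

theorem pvsq_eqns_cite0 : True := by
  have := @pvsqFill.eq_1
  trivial

/-- a dual path off the boundary of `O` which starts outside `O` stays outside -/
theorem pvsq_join_out {O : Set D} (hO : T.FaceSet O) {o d : D} (ho : o ∉ O) (h : T.DJoin {e | T.Bd O e} o d) : d ∉ O := by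
  induction h with
  | refl => exact ho
  | @tail a b _ hab ih =>
    rcases hab with rfl | ⟨rfl, h2⟩
    · exact fun h => ih ((hO a).1 h)
    · intro h
      exact h2 (Or.inl (fun hiff => ih (hiff.2 h)))

theorem pvsq_sub_fill {O : Set D} (hO : T.FaceSet O) {o : D} (ho : o ∉ O) : O ⊆ pvsqFill T O o := fun _ hd hj => pvsq_join_out hO ho hj hd

theorem pvsq_fill_face (O : Set D) (o : D) : T.FaceSet (pvsqFill T O o) := by
  intro d
  refine not_congr ⟨fun h => ?_, fun h => h.tail (Or.inl rfl)⟩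
  have := (h.tail (Or.inl rfl)).tail (Or.inl rfl)
  rwa [T.nxt3] at this

/-- the boundary of the filled set is a part of the boundary of `O` -/
theorem pvsq_fill_bd {O : Set D} {o d : D} (h : T.Bd (pvsqFill T O o) d) : T.Bd O d := by
  by_contra hn
  have hn' : ¬ T.Edg {e | T.Bd O e} d := by
    rintro (h1 | h1)
    · exact hn h1
    · exact hn (T.bd_opp.1 h1)
  have hn'' : ¬ T.Edg {e | T.Bd O e} (T.opp d) := fun h1 => hn' (T.edg_opp.1 h1)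
  refine h ⟨fun h1 h2 => h1 ?_, fun h1 h2 => h1 ?_⟩
  · have := h2.tail (Or.inr ⟨rfl, hn''⟩)
    rwa [T.opp_opp] at this
  · exact h2.tail (Or.inr ⟨rfl, hn'⟩)

/-- **the filled frame** -/
theorem pvsq_fill_frame {I O : Set D} (hF : PvsqWF T I O) {o : D} (ho : o ∉ O) : PvgnFr T I (pvsqFill T O o) o where
  faceI := hF.faceI
  faceO := pvsq_fill_face O o
  sub := hF.sub.trans (pvsq_sub_fill hF.faceO ho)
  ne := hF.ne
  connI := hF.connI
  fin := by have := hF.fin; exact Set.toFinite _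
  far := fun h => h ReflTransGen.refl
  connO := fun b hb => T.djoin_mono (fun e he => pvsq_fill_bd he) (not_not.1 hb)

/-- **THE SELECTED GATE EXISTS**, and the cycle passes it from `g⁻` to `g⁺` -/
theorem pvsq_sel (hT : T.IsSph) (hS : T.Simple) {I O : Set D} (hF : PvsqWF T I O) (hne : ∃ g₀ : T.Gate s, I ⊆ g₀.c.Left ∧ g₀.c.Left ⊆ O)
    {P : T.Cyc} (hP : PvgnThru T s I O P) : ∃ g : T.Gate s, PvspSel T s I O g ∧ ∃ lo hi, g.Pass P lo hi := by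
  obtain ⟨g₀, a1, a2⟩ := hne
  obtain ⟨i, hi⟩ := hP.inn
  obtain ⟨j, hj⟩ := hP.out
  have ho : P.e j ∉ O := hj _ rfl
  have hF' := pvsq_fill_frame hF ho
  have hsub := pvsq_sub_fill (T := T) hF.faceO ho
  have hj2 : T.src (P.e j) ∈ T.Int (pvsqFill T O (P.e j))ᶜ := fun d hd => not_not.2 (by
    have := pl_star_round hT (A := Oᶜ) hj hF.faceO.compl (d := P.e j) (d' := d) rfl hd
    have e : {d | T.Bd Oᶜ d} = {d | T.Bd O d} := by ext d; exact T.bd_compl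
    rwa [e] at this)
  have hP' : PvgnThru T s I (pvsqFill T O (P.e j)) P := ⟨hP.black, ⟨i, hi⟩, ⟨j, hj2⟩⟩
  obtain ⟨g, g1, g2, g3, -⟩ := pvgn_gate hT hS hF' ⟨_, pvgn_of_gate hT g₀ a1 (a2.trans hsub)⟩ hP'
  have hleast : ∀ g' : T.Gate s, I ⊆ g'.c.Left → g'.c.Left ⊆ O → g.c.Left ⊆ g'.c.Left := fun g' h1 h2 => by
    rw [g1]; exact pvgn_innermost hT hF' g' h1 (h2.trans hsub)
  have g3' : g.c.Left ⊆ O := (hleast g₀ a1 a2).trans a2
  have hfin : g.c.Left.Finite := by have := hF.fin; exact Set.toFinite _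
  have hi' : T.src (P.e i) ∈ T.Int g.c.Left := pvgn_int_mono g2 hi
  have hj' : T.src (P.e j) ∈ T.Int g.c.Right := by
    rw [(pl_jordan hT g.c).1]
    exact pvgn_int_mono (Set.compl_subset_compl.2 g3') hj
  have key : ∀ g' : T.Gate s, g'.c.Left = g.c.Left → (∃ lo hi, g'.Pass P lo hi) → ∃ g : T.Gate s, PvspSel T s I O g ∧ ∃ lo hi, g.Pass P lo hi := by
    rintro g' e ⟨lo, hi, hp⟩
    exact ⟨g', ⟨(pl_jordan hT g'.c).2.1, e ▸ g2, e ▸ g3', pvgz_thru_of_psg hT g' (e ▸ hfin) (pvgz_pass_psg hT g' hP.black hp), fun g'' _ h1 h2 => e ▸ hleast g'' h1 h2⟩, lo, hi, hp⟩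
  rcases pvgz_pass hT g P hP.black ⟨i, rfl⟩ ⟨j, rfl⟩ hi' hj' with h | h
  · exact key g rfl h
  · exact key g.swap (pvgz_swap_left hT g) h

/-! ## 3. the run of the rim through the candidate, the state -/

/-- the four face sets of the two annuli -/
def pvsqI (T : PvMap V D) (mk : V → κ) (𝔯 : PvspReg κ) (i : PvspIx) : Set D := pvplB T fun v => mk v ∈ 𝔯 i

/-- **the frame of a candidate in the marked map**: the WEAK frames of the two annuli, nesting, the star zones, the doors lie outside -/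
structure PvsqFr (T : PvMap V D) (mk : V → κ) (𝔯 : PvspReg κ) : Prop where
  fr1 : PvsqWF T (pvsqI T mk 𝔯 .I1) (pvsqI T mk 𝔯 .O1)
  fr2 : PvsqWF T (pvsqI T mk 𝔯 .I2) (pvsqI T mk 𝔯 .O2)
  nest : T.VOf (pvsqI T mk 𝔯 .O1) ⊆ T.Int (pvsqI T mk 𝔯 .I2)
  c1 : ∀ v ∈ T.VOf (pvsqI T mk 𝔯 .O1), mk v ∈ 𝔯 .C1
  star : PvplStar T mk (fun x => x ∈ 𝔯 .O2) (𝔯 .S2)
  door_p : ∀ v, mk v ∈ 𝔯 .Dp → v ∈ T.Int (pvsqI T mk 𝔯 .O2)ᶜ
  door_m : ∀ v, mk v ∈ 𝔯 .Dm → v ∈ T.Int (pvsqI T mk 𝔯 .O2)ᶜ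

/-- **the run of the cycle `P` through the candidate** (P10 (i) in index form): pin vertex number `k0`, tube `Nm` on `em..k0`, tube `Np` on `k0..ep`, doors at `em`, `ep` -/
structure PvsqRun (T : PvMap V D) (mk : V → κ) (𝔯 : PvspReg κ) (P : T.Cyc) (em k0 ep : ℕ) : Prop where
  le_m : em ≤ k0
  le_p : k0 ≤ ep
  lt : ep < em + P.n
  pin : T.src (P.e k0) ∈ T.Int (pvsqI T mk 𝔯 .I1)
  tube_p : ∀ k, k0 ≤ k → k ≤ ep → mk (T.src (P.e k)) ∈ 𝔯 .Np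
  tube_m : ∀ k, em ≤ k → k ≤ k0 → mk (T.src (P.e k)) ∈ 𝔯 .Nm
  door_p : mk (T.src (P.e ep)) ∈ 𝔯 .Dp
  door_m : mk (T.src (P.e em)) ∈ 𝔯 .Dm

theorem pvsq_eqns_cite : True := by
  have := @pvsqI.eq_1
  trivial

/-- the run may be read one turn later -/
theorem PvsqRun.shift {mk : V → κ} {𝔯 : PvspReg κ} {P : T.Cyc} {em k0 ep : ℕ} (h : PvsqRun T mk 𝔯 P em k0 ep) (q : ℕ) :
    PvsqRun T mk 𝔯 P (em + q * P.n) (k0 + q * P.n) (ep + q * P.n) where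
  le_m := by have := h.le_m; omega
  le_p := by have := h.le_p; omega
  lt := by have := h.lt; omega
  pin := by rw [pl_cyc_per]; exact h.pin
  tube_p k h1 h2 := by
    obtain ⟨r, rfl⟩ : ∃ r, k = r + q * P.n := ⟨k - q * P.n, by omega⟩
    rw [pl_cyc_per]; exact h.tube_p r (by omega) (by omega)
  tube_m k h1 h2 := by
    obtain ⟨r, rfl⟩ : ∃ r, k = r + q * P.n := ⟨k - q * P.n, by omega⟩
    rw [pl_cyc_per]; exact h.tube_m r (by omega) (by omega)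
  door_p := by rw [pl_cyc_per]; exact h.door_p
  door_m := by rw [pl_cyc_per]; exact h.door_m

/-- the passage may be read one turn later -/
theorem pvsq_pass_shift {g : T.Gate s} {P : T.Cyc} {lo hi : ℕ} (h : g.Pass P lo hi) (q : ℕ) : g.Pass P (lo + q * P.n) (hi + q * P.n) where
  lt := by have := h.lt; omega
  lt' := by have := h.lt'; omega
  hlo := by rw [pl_cyc_per]; exact h.hlo
  hhi := by rw [pl_cyc_per]; exact h.hhi
  inn k h1 h2 := by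
    obtain ⟨r, rfl⟩ : ∃ r, k = r + q * P.n := ⟨k - q * P.n, by omega⟩
    rw [pl_cyc_per]; exact h.inn r (by omega) (by omega)
  out k h1 h2 := by
    obtain ⟨r, rfl⟩ : ∃ r, k = r + q * P.n := ⟨k - q * P.n, by omega⟩
    rw [pl_cyc_per]; exact h.out r (by omega) (by omega)

/-- a vertex of a circuit is not strictly inside -/
theorem pvsq_verts_not_int (hT : T.IsSph) (c : T.Cyc) {v : V} (hv : v ∈ c.verts) : v ∉ T.Int c.Left := fun h =>
  pvgn_int_not_bdV (pl_left_face c) h (by rw [pvgn_bdV_left hT c]; exact hv)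

/-- strictly outside and in the closed inside exclude each other -/
theorem pvsq_out_not_VOf (hT : T.IsSph) (c : T.Cyc) {v : V} (hv : v ∈ T.Int c.Right) : v ∉ T.VOf c.Left := by
  rintro ⟨d, hd, rfl⟩
  have := hv d rfl
  rw [(pl_jordan hT c).1] at this
  exact this hd

/-- the vertices of `Δ(S,P)` lie in the closed inside -/
theorem pvsq_pass_VOf (hT : T.IsSph) {g : T.Gate s} {P : T.Cyc} {lo hi : ℕ} (h : g.Pass P lo hi) {k : ℕ} (h1 : lo ≤ k) (h2 : k ≤ hi) : T.src (P.e k) ∈ T.VOf g.c.Left := by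
  rcases Nat.eq_or_lt_of_le h1 with rfl | h1
  · rw [h.hlo]; exact ⟨g.c.e 0, (pl_jordan hT g.c).2.1 0, rfl⟩
  rcases Nat.eq_or_lt_of_le h2 with rfl | h2
  · rw [h.hhi]; exact ⟨g.c.e g.m, (pl_jordan hT g.c).2.1 _, rfl⟩
  · exact ⟨P.e k, h.inn k h1 h2 _ rfl, rfl⟩

/-- **normalisation**: a vertex of `P` strictly inside the gate lies on `Δ(S,P)`, read at the right turn -/
theorem pvsq_pass_at (hT : T.IsSph) {g : T.Gate s} {P : T.Cyc} {lo hi : ℕ} (h : g.Pass P lo hi) {k : ℕ} (hk : lo ≤ k) (hin : T.src (P.e k) ∈ T.Int g.c.Left) :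
    ∃ q, lo + q * P.n < k ∧ k < hi + q * P.n := by
  have hn := pl_cyc_pos P
  obtain ⟨q, r, hr', hk'⟩ : ∃ q r, r < P.n ∧ k = lo + r + q * P.n := ⟨(k - lo) / P.n, (k - lo) % P.n, Nat.mod_lt _ hn, by
    have := Nat.mod_add_div (k - lo) P.n
    rw [Nat.mul_comm] at this
    omega⟩
  refine ⟨q, ?_⟩
  have he : P.e k = P.e (lo + r) := by rw [hk', pl_cyc_per]
  rw [he] at hin
  have h1 := h.lt
  have h2 := h.lt'
  have c0 : r ≠ 0 := by
    intro h0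
    rw [h0, Nat.add_zero, h.hlo] at hin
    exact pvsq_verts_not_int hT g.c ⟨0, rfl⟩ hin
  have c1 : lo + r ≠ hi := by
    intro h0
    rw [h0, h.hhi] at hin
    exact pvsq_verts_not_int hT g.c ⟨g.m, rfl⟩ hin
  have c2 : ¬ hi < lo + r := by
    intro h0
    have := h.out (lo + r) h0 (by omega)
    exact pvsq_out_not_VOf hT g.c this ⟨P.e (lo + r), hin _ rfl, rfl⟩
  omega

/-- **the four gate indices**: after a common shift, `em < lo₂ < lo₁ < k0 < hi₁ < hi₂ < ep` -/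
theorem pvsq_idx (hT : T.IsSph) {mk : V → κ} {𝔯 : PvspReg κ} (hF : PvsqFr T mk 𝔯) {P : T.Cyc} {em k0 ep : ℕ} (hR : PvsqRun T mk 𝔯 P em k0 ep)
    {g₁ g₂ : T.Gate s} (s1 : PvspSel T s (pvsqI T mk 𝔯 .I1) (pvsqI T mk 𝔯 .O1) g₁) (s2 : PvspSel T s (pvsqI T mk 𝔯 .I2) (pvsqI T mk 𝔯 .O2) g₂)
    (p1 : ∃ lo hi, g₁.Pass P lo hi) (p2 : ∃ lo hi, g₂.Pass P lo hi) :
    ∃ em' k0' ep' lo₁ hi₁ lo₂ hi₂, PvsqRun T mk 𝔯 P em' k0' ep' ∧ g₁.Pass P lo₁ hi₁ ∧ g₂.Pass P lo₂ hi₂ ∧ em' < lo₂ ∧ lo₂ < lo₁ ∧ lo₁ < k0' ∧ k0' < hi₁ ∧ hi₁ < hi₂ ∧ hi₂ < ep' := by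
  obtain ⟨a1, b1, p1⟩ := p1
  obtain ⟨a2, b2, p2⟩ := p2
  have hn := pl_cyc_pos P
  -- shift the run beyond the two entrances
  have hR' := hR.shift (a1 + a2)
  set em' := em + (a1 + a2) * P.n with e1
  set k0' := k0 + (a1 + a2) * P.n with e2
  set ep' := ep + (a1 + a2) * P.n with e3
  have hbig : a1 + a2 ≤ (a1 + a2) * P.n := Nat.le_mul_of_pos_right _ hn
  have sub12 : pvsqI T mk 𝔯 .O1 ⊆ pvsqI T mk 𝔯 .I2 := fun d hd => hF.nest ⟨d, hd, rfl⟩ d rfl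
  have in1 : T.src (P.e k0') ∈ T.Int g₁.c.Left := pvgn_int_mono s1.inner hR'.pin
  have in2 : T.src (P.e k0') ∈ T.Int g₂.c.Left :=
    pvgn_int_mono ((hF.fr1.sub.trans sub12).trans s2.inner) hR'.pin
  obtain ⟨q1, u1, u2⟩ := pvsq_pass_at hT p1 (by omega) in1
  obtain ⟨q2, w1, w2⟩ := pvsq_pass_at hT p2 (by omega) in2
  have P1 := pvsq_pass_shift p1 q1
  have P2 := pvsq_pass_shift p2 q2
  set lo₁ := a1 + q1 * P.n
  set hi₁ := b1 + q1 * P.n
  set lo₂ := a2 + q2 * P.n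
  set hi₂ := b2 + q2 * P.n
  -- the closed inside of the first gate lies strictly inside the second
  have deep : ∀ k, lo₁ ≤ k → k ≤ hi₁ → T.src (P.e k) ∈ T.Int g₂.c.Left := fun k h1 h2 =>
    pvgn_int_mono s2.inner (hF.nest (pvgn_VOf_mono s1.outer (pvsq_pass_VOf hT P1 h1 h2)))
  have out2 : ∀ v, v ∈ T.Int (pvsqI T mk 𝔯 .O2)ᶜ → v ∈ T.Int g₂.c.Right := fun v hv => by
    rw [(pl_jordan hT g₂.c).1]
    exact pvgn_int_mono (Set.compl_subset_compl.2 s2.outer) hv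
  refine ⟨em', k0', ep', lo₁, hi₁, lo₂, hi₂, hR', P1, P2, ?_, ?_, u1, u2, ?_, ?_⟩
  · by_contra hc
    exact pvsq_out_not_VOf hT g₂.c (out2 _ (hF.door_m _ hR'.door_m)) (pvsq_pass_VOf hT P2 (by omega) (by have := hR'.le_m; omega))
  · by_contra hc
    have := deep lo₂ (by omega) (by omega)
    rw [P2.hlo] at this
    exact pvsq_verts_not_int hT g₂.c ⟨0, rfl⟩ this
  · by_contra hc
    have := deep hi₂ (by omega) (by omega)
    rw [P2.hhi] at this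
    exact pvsq_verts_not_int hT g₂.c ⟨g₂.m, rfl⟩ this
  · by_contra hc
    exact pvsq_out_not_VOf hT g₂.c (out2 _ (hF.door_p _ hR'.door_p)) (pvsq_pass_VOf hT P2 (by have := hR'.le_p; omega) (by omega))

/-- the state carried by the rim -/
def pvsqSt (g₁ g₂ : T.Gate s) (P : T.Cyc) (lo₁ hi₁ lo₂ hi₂ : ℕ) : PvspSt T s where
  g1 := g₁
  g2 := g₂
  inn := P.pth lo₂ (hi₂ - lo₂)
  im := lo₁ - lo₂
  ip := hi₁ - lo₂

theorem pvsq_eqns_cite2 : True := by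
  have := @pvsqSt.eq_1
  trivial

/-- **P2 + P3 + FIT-IN**: the state of the prepared colouring, read on the rim -/
theorem pvsq_at (hT : T.IsSph) (hS : T.Simple) {mk : V → κ} {𝔯 : PvspReg κ} (hF : PvsqFr T mk 𝔯) {P : T.Cyc} (hP : P.IsRim s) (hb : s (T.src (P.e 0)) = true)
    {em k0 ep : ℕ} (hR : PvsqRun T mk 𝔯 P em k0 ep) {g₁ g₂ : T.Gate s} (s1 : PvspSel T s (pvsqI T mk 𝔯 .I1) (pvsqI T mk 𝔯 .O1) g₁)
    (s2 : PvspSel T s (pvsqI T mk 𝔯 .I2) (pvsqI T mk 𝔯 .O2) g₂) {lo₁ hi₁ lo₂ hi₂ : ℕ} (P1 : g₁.Pass P lo₁ hi₁) (P2 : g₂.Pass P lo₂ hi₂)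
    (h1 : em < lo₂) (h2 : lo₂ < lo₁) (h3 : lo₁ < k0) (h4 : k0 < hi₁) (h5 : hi₁ < hi₂) (h6 : hi₂ < ep) : (pvsqSt g₁ g₂ P lo₁ hi₁ lo₂ hi₂).At mk 𝔯 := by
  have hfin : g₂.c.Left.Finite := by have := hF.fr2.fin; exact Set.toFinite _
  have hn : (P.pth lo₂ (hi₂ - lo₂)).n = hi₂ - lo₂ := by
    show min (hi₂ - lo₂) (P.n - 1) = _
    have := P2.lt'
    omega
  refine ⟨s1, s2, pvsq_inn_le hT hS g₂ hfin (pvgz_pass_rim hT g₂ hP hb P2).1, ?_, ?_, ?_, ?_, ?_, ?_, ?_, ?_⟩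
  · show lo₁ - lo₂ < hi₁ - lo₂
    omega
  · show hi₁ - lo₂ ≤ (P.pth lo₂ (hi₂ - lo₂)).n
    rw [hn]; omega
  · show T.src (P.e (lo₂ + (lo₁ - lo₂))) = _
    rw [show lo₂ + (lo₁ - lo₂) = lo₁ by omega]; exact P1.hlo
  · show T.src (P.e (lo₂ + (hi₁ - lo₂))) = _
    rw [show lo₂ + (hi₁ - lo₂) = hi₁ by omega]; exact P1.hhi
  · intro i a b
    have a' : hi₁ - lo₂ ≤ i := a
    have b' : i ≤ hi₂ - lo₂ := hn ▸ b
    exact Or.inr (hR.tube_p (lo₂ + i) (by omega) (by omega))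
  · intro i a
    have a' : i ≤ hi₁ - lo₂ := a
    show mk (T.src (P.e (lo₂ + i))) ∈ _
    rcases Nat.lt_or_ge k0 (lo₂ + i) with c | c
    · exact Or.inl (hF.c1 _ (pvgn_VOf_mono s1.outer (pvsq_pass_VOf hT P1 (by omega) (by omega))))
    · exact Or.inr (hR.tube_m _ (by omega) c)
  · show mk g₂.vp ∈ _
    rw [← P2.hhi]; exact hR.tube_p _ (by omega) (by omega)
  · show mk g₂.vm ∈ _
    rw [← P2.hlo]; exact hR.tube_m _ (by omega) (by omega)

/-! ## 4. the black sides: the rim itself -/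

theorem pvsq_side_pb {mk : V → κ} {𝔯 : PvspReg κ} {P : T.Cyc} (hbl : ∀ k, s (T.src (P.e k)) = true) {em k0 ep : ℕ} (hR : PvsqRun T mk 𝔯 P em k0 ep)
    {g₂ : T.Gate s} {lo₂ hi₂ : ℕ} (P2 : g₂.Pass P lo₂ hi₂) (h1 : em < lo₂) (h4 : k0 < hi₂) (h6 : hi₂ < ep) : PvspPath T mk s true {g₂.vp} (𝔯 .Np) (𝔯 .Dp) := by
  have hn : (P.pth hi₂ (ep - hi₂)).n = ep - hi₂ := by
    show min (ep - hi₂) (P.n - 1) = _
    have := hR.lt; have := P2.lt
    omega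
  refine ⟨P.pth hi₂ (ep - hi₂), ?_, ?_, ?_⟩
  · show T.src (P.e (hi₂ + 0)) = _
    exact P2.hhi
  · rw [hn]
    show mk (T.src (P.e (hi₂ + (ep - hi₂)))) ∈ _
    rw [show hi₂ + (ep - hi₂) = ep by omega]; exact hR.door_p
  · rintro x ⟨i, hi, rfl⟩
    rw [hn] at hi
    exact ⟨hbl _, hR.tube_p _ (by omega) (by omega)⟩

theorem pvsq_side_mb {mk : V → κ} {𝔯 : PvspReg κ} {P : T.Cyc} (hbl : ∀ k, s (T.src (P.e k)) = true) {em k0 ep : ℕ} (hR : PvsqRun T mk 𝔯 P em k0 ep)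
    {g₂ : T.Gate s} {lo₂ hi₂ : ℕ} (P2 : g₂.Pass P lo₂ hi₂) (h1 : em < lo₂) (h3 : lo₂ < k0) : PvspPath T mk s true {g₂.vm} (𝔯 .Nm) (𝔯 .Dm) := by
  have hn : (P.pth em (lo₂ - em)).n = lo₂ - em := by
    show min (lo₂ - em) (P.n - 1) = _
    have := hR.lt; have := hR.le_p
    omega
  refine ⟨(P.pth em (lo₂ - em)).rev, ?_, ?_, ?_⟩
  · show T.src (P.e (em + ((P.pth em (lo₂ - em)).n - 0))) = _
    rw [hn, show em + (lo₂ - em - 0) = lo₂ by omega]; exact P2.hlo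
  · show mk (T.src (P.e (em + ((P.pth em (lo₂ - em)).n - (P.pth em (lo₂ - em)).n)))) ∈ _
    rw [Nat.sub_self, Nat.add_zero]; exact hR.door_m
  · rintro x ⟨i, hi, rfl⟩
    have hi' : i ≤ lo₂ - em := hn ▸ hi
    show s (T.src (P.e (em + ((P.pth em (lo₂ - em)).n - i)))) = true ∧ mk (T.src (P.e (em + ((P.pth em (lo₂ - em)).n - i)))) ∈ _
    rw [hn]
    exact ⟨hbl _, hR.tube_m _ (by omega) (by omega)⟩

/-! ## 5. the white sides: the tail and the head of a white door-to-door path -/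

/-- **a white door-to-door path through the strip, split at the centre** (walk split of 15: `pvlp_split_fwd`, `pvlp_split_bwd`) -/
structure PvsqLane (T : PvMap V D) (mk : V → κ) (𝔯 : PvspReg κ) (s : V → Bool) (ω : T.Pth) (Jm Jp : ℕ) : Prop where
  pos : 0 < ω.n
  white : ∀ j, j ≤ ω.n → s (ω.v j) = false
  door_m : mk (ω.v 0) ∈ 𝔯 .Dm
  door_p : mk (ω.v ω.n) ∈ 𝔯 .Dp
  Jm_le : Jm ≤ ω.n
  Jp_le : Jp ≤ ω.n
  head : ∀ j, j ≤ Jm → mk (ω.v j) ∈ 𝔯 .Mm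
  tail : ∀ j, Jp ≤ j → j ≤ ω.n → mk (ω.v j) ∈ 𝔯 .Mp
  mid_m : ω.v Jm ∈ T.Int (pvsqI T mk 𝔯 .I2)
  mid_p : ω.v Jp ∈ T.Int (pvsqI T mk 𝔯 .I2)

theorem pvsq_pth_adj (ω : T.Pth) {k : ℕ} (hk : k < ω.n) : T.Adj (ω.v k) (ω.v (k + 1)) := ⟨ω.e k, ω.src_e k hk, ω.tgt_e k hk⟩

theorem pvsq_side_pw (hT : T.IsSph) {mk : V → κ} {𝔯 : PvspReg κ} (hF : PvsqFr T mk 𝔯) {ω : T.Pth} {Jm Jp : ℕ} (hω : PvsqLane T mk 𝔯 s ω Jm Jp)
    {g₂ : T.Gate s} (s2 : PvspSel T s (pvsqI T mk 𝔯 .I2) (pvsqI T mk 𝔯 .O2) g₂) (hor : ∀ j, j ≤ ω.n → ω.v j ∈ g₂.c.verts → ω.v j ∈ g₂.R) :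
    PvspPath T mk s false g₂.R (𝔯 .Mp) (𝔯 .Dp) := by
  have hin : ω.v Jp ∈ T.Int g₂.c.Left := pvgn_int_mono s2.inner hω.mid_p
  have hout : ω.v ω.n ∈ T.Int g₂.c.Right := by
    rw [(pl_jordan hT g₂.c).1]
    exact pvgn_int_mono (Set.compl_subset_compl.2 s2.outer) (hF.door_p _ hω.door_p)
  obtain ⟨j, j1, j2, hj⟩ : ∃ j, Jp < j ∧ j ≤ ω.n ∧ ω.v j ∈ g₂.c.verts := by
    by_contra hc
    have := pvgn_walk hT (pl_left_face g₂.c) (f := ω.v) hin ω.n hω.Jp_le (fun k _ hk => pvsq_pth_adj ω hk)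
      (fun k h1 h2 => by rw [pvgn_bdV_left hT g₂.c]; exact fun h3 => hc ⟨k, h1, h2, h3⟩)
    have h0 := hω.pos
    have hd : T.src (T.opp (ω.e (ω.n - 1))) = ω.v ω.n := by
      rw [T.src_opp', ω.tgt_e _ (by omega)]; congr 1; omega
    exact pvsq_out_not_VOf hT g₂.c hout ⟨_, this _ hd, hd⟩
  have hn : (ω.seg j ω.n).n = ω.n - j := by
    show min ω.n ω.n - j = _
    rw [Nat.min_self]
  refine ⟨ω.seg j ω.n, ?_, ?_, ?_⟩
  · show ω.v (j + 0) ∈ _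
    exact hor j j2 hj
  · rw [hn]
    show mk (ω.v (j + (ω.n - j))) ∈ _
    rw [show j + (ω.n - j) = ω.n by omega]; exact hω.door_p
  · rintro x ⟨i, hi, rfl⟩
    rw [hn] at hi
    exact ⟨hω.white _ (by omega), hω.tail _ (by omega) (by omega)⟩

theorem pvsq_side_mw (hT : T.IsSph) {mk : V → κ} {𝔯 : PvspReg κ} (hF : PvsqFr T mk 𝔯) {ω : T.Pth} {Jm Jp : ℕ} (hω : PvsqLane T mk 𝔯 s ω Jm Jp)
    {g₂ : T.Gate s} (s2 : PvspSel T s (pvsqI T mk 𝔯 .I2) (pvsqI T mk 𝔯 .O2) g₂) (hor : ∀ j, j ≤ ω.n → ω.v j ∈ g₂.c.verts → ω.v j ∈ g₂.R) :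
    PvspPath T mk s false g₂.R (𝔯 .Mm) (𝔯 .Dm) := by
  have hin : ω.v Jm ∈ T.Int g₂.c.Left := pvgn_int_mono s2.inner hω.mid_m
  have hout : ω.v 0 ∈ T.Int g₂.c.Right := by
    rw [(pl_jordan hT g₂.c).1]
    exact pvgn_int_mono (Set.compl_subset_compl.2 s2.outer) (hF.door_m _ hω.door_m)
  obtain ⟨j, j2, hj⟩ : ∃ j, j < Jm ∧ ω.v j ∈ g₂.c.verts := by
    by_contra hc
    have := pvgn_walk_back hT (pl_left_face g₂.c) (f := ω.v) hin Jm 0 (by omega) (fun k _ hk => pvsq_pth_adj ω (by have := hω.Jm_le; omega))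
      (fun k _ h2 => by rw [pvgn_bdV_left hT g₂.c]; exact fun h3 => hc ⟨k, h2, h3⟩)
    exact pvsq_out_not_VOf hT g₂.c hout ⟨ω.e 0, this _ (ω.src_e 0 hω.pos), ω.src_e 0 hω.pos⟩
  have hn : (ω.seg 0 j).n = j := by
    show min j ω.n - 0 = _
    have := hω.Jm_le
    omega
  refine ⟨(ω.seg 0 j).rev, ?_, ?_, ?_⟩
  · show ω.v (0 + ((ω.seg 0 j).n - 0)) ∈ _
    rw [hn, show 0 + (j - 0) = j by omega]
    exact hor j (by have := hω.Jm_le; omega) hj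
  · show mk (ω.v (0 + ((ω.seg 0 j).n - (ω.seg 0 j).n))) ∈ _
    rw [Nat.sub_self]; exact hω.door_m
  · rintro x ⟨i, hi, rfl⟩
    have hi' : i ≤ j := hn ▸ hi
    show s (ω.v (0 + ((ω.seg 0 j).n - i))) = false ∧ mk (ω.v (0 + ((ω.seg 0 j).n - i))) ∈ _
    rw [hn]
    exact ⟨hω.white _ (by have := hω.Jm_le; omega), hω.head _ (by omega)⟩

/-! ## 6. the five predicates -/

/-- the rim passes through the two annuli -/
theorem pvsq_thru {mk : V → κ} {𝔯 : PvspReg κ} (hF : PvsqFr T mk 𝔯) {P : T.Cyc} (hbl : ∀ k, s (T.src (P.e k)) = true) {em k0 ep : ℕ} (hR : PvsqRun T mk 𝔯 P em k0 ep) :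
    PvgnThru T s (pvsqI T mk 𝔯 .I1) (pvsqI T mk 𝔯 .O1) P ∧ PvgnThru T s (pvsqI T mk 𝔯 .I2) (pvsqI T mk 𝔯 .O2) P := by
  have sub12 : pvsqI T mk 𝔯 .O1 ⊆ pvsqI T mk 𝔯 .I2 := fun d hd => hF.nest ⟨d, hd, rfl⟩ d rfl
  have hout := hF.door_p _ hR.door_p
  exact ⟨⟨hbl, ⟨k0, hR.pin⟩, ⟨ep, pvgn_int_mono (Set.compl_subset_compl.2 (sub12.trans hF.fr2.sub)) hout⟩⟩,
    ⟨hbl, ⟨k0, pvgn_int_mono (hF.fr1.sub.trans sub12) hR.pin⟩, ⟨ep, hout⟩⟩⟩

/-- **gates survive the preparation**: a gate of the actual colouring `s` which the black cycle `P` passes is (as a circuit) a gate of every colouring `s'` obtained by whitening sites off `P` -/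
theorem pvsq_gate_prep (hT : T.IsSph) {s' : V → Bool} {I O : Set D} (hg : ∃ g₀ : T.Gate s, I ⊆ g₀.c.Left ∧ g₀.c.Left ⊆ O) {P : T.Cyc} (hP : PvgnThru T s I O P)
    (hw : ∀ v, s' v = true → s v = true) (hPs : ∀ k, s' (T.src (P.e k)) = s (T.src (P.e k))) : ∃ g : T.Gate s', I ⊆ g.c.Left ∧ g.c.Left ⊆ O := by
  obtain ⟨g₀, a1, a2⟩ := hg
  obtain ⟨i, hi⟩ := hP.inn
  obtain ⟨j, hj⟩ := hP.out
  have hi' : T.src (P.e i) ∈ T.Int g₀.c.Left := pvgn_int_mono a1 hi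
  have hj' : T.src (P.e j) ∈ T.Int g₀.c.Right := by
    rw [(pl_jordan hT g₀.c).1]
    exact pvgn_int_mono (Set.compl_subset_compl.2 a2) hj
  rcases pvgz_pass hT g₀ P hP.black ⟨i, rfl⟩ ⟨j, rfl⟩ hi' hj' with ⟨lo, hi, h⟩ | ⟨lo, hi, h⟩
  · exact ⟨g₀.tr s' (pvgz_pass_recolor g₀ h hw hPs), a1, a2⟩
  · refine ⟨g₀.swap.tr s' (pvgz_pass_recolor g₀.swap h hw hPs), ?_, ?_⟩
    · show I ⊆ g₀.swap.c.Left
      rw [pvgz_swap_left hT]; exact a1
    · show g₀.swap.c.Left ⊆ O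
      rw [pvgz_swap_left hT]; exact a2

/-- **ORIENTATION (P11' of 291), as consumed**: the white path meets every gate of the second annulus passed by `P` in vertices of its RIGHT arc -/
def PvsqOrient (T : PvMap V D) (mk : V → κ) (𝔯 : PvspReg κ) (s : V → Bool) (P : T.Cyc) (ω : T.Pth) : Prop :=
  ∀ g : T.Gate s, (∃ lo hi, g.Pass P lo hi) → pvsqI T mk 𝔯 .I2 ⊆ g.c.Left → g.c.Left ⊆ pvsqI T mk 𝔯 .O2 → ∀ j, j ≤ ω.n → ω.v j ∈ g.c.verts → ω.v j ∈ g.R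

theorem pvsq_eqns_cite3 : True := by
  have := @PvsqOrient.eq_1
  trivial

/-- **P12, STATE HALF**: a rim of the (prepared) colouring which runs through the tubes of the candidate carries the state, FIT-IN, the two black sides;   with a white door-to-door path also the two white sides -/
theorem pvsq_main (hT : T.IsSph) (hS : T.Simple) {mk : V → κ} {𝔯 : PvspReg κ} (hF : PvsqFr T mk 𝔯) {P : T.Cyc} (hP : P.IsRim s) (hb : s (T.src (P.e 0)) = true)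
    {em k0 ep : ℕ} (hR : PvsqRun T mk 𝔯 P em k0 ep) (hg1 : ∃ g₀ : T.Gate s, pvsqI T mk 𝔯 .I1 ⊆ g₀.c.Left ∧ g₀.c.Left ⊆ pvsqI T mk 𝔯 .O1)
    (hg2 : ∃ g₀ : T.Gate s, pvsqI T mk 𝔯 .I2 ⊆ g₀.c.Left ∧ g₀.c.Left ⊆ pvsqI T mk 𝔯 .O2) :
    ∃ 𝔖 : PvspSt T s, 𝔖.At mk 𝔯 ∧ 𝔖.Side mk 𝔯 .pb ∧ 𝔖.Side mk 𝔯 .mb ∧
      (∃ lo hi, 𝔖.g1.Pass P lo hi) ∧ (∃ lo hi, 𝔖.g2.Pass P lo hi ∧ 𝔖.inn = P.pth lo (hi - lo)) ∧
      ∀ (ω : T.Pth) (Jm Jp : ℕ), PvsqLane T mk 𝔯 s ω Jm Jp → PvsqOrient T mk 𝔯 s P ω → PvspPath T mk s false 𝔖.g2.R (𝔯 .Mp) (𝔯 .Dp) ∧ PvspPath T mk s false 𝔖.g2.R (𝔯 .Mm) (𝔯 .Dm) := by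
  have hbl : ∀ k, s (T.src (P.e k)) = true := fun k => (pl_rim_col hP k 0).trans hb
  obtain ⟨t1, t2⟩ := pvsq_thru hF hbl hR
  obtain ⟨g₁, s1, p1⟩ := pvsq_sel hT hS hF.fr1 hg1 t1
  obtain ⟨g₂, s2, p2⟩ := pvsq_sel hT hS hF.fr2 hg2 t2
  obtain ⟨em', k0', ep', lo₁, hi₁, lo₂, hi₂, hR', P1, P2, h1, h2, h3, h4, h5, h6⟩ := pvsq_idx hT hF hR s1 s2 p1 p2
  refine ⟨pvsqSt g₁ g₂ P lo₁ hi₁ lo₂ hi₂, pvsq_at hT hS hF hP hb hR' s1 s2 P1 P2 h1 h2 h3 h4 h5 h6, pvsq_side_pb hbl hR' P2 h1 (by omega) h6,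
    pvsq_side_mb hbl hR' P2 h1 (by omega), ⟨lo₁, hi₁, P1⟩, ⟨lo₂, hi₂, P2, rfl⟩, fun ω Jm Jp hω hor => ?_⟩
  have hor' := hor g₂ ⟨lo₂, hi₂, P2⟩ s2.inner s2.outer
  exact ⟨pvsq_side_pw hT hF hω s2 hor', pvsq_side_mw hT hF hω s2 hor'⟩

/-- **P12 in the form of `PvspIsEv.dict`** (consumer: P15 DI-P): the predicates `.has .pb .mb` -/
theorem pvsq_pred (hT : T.IsSph) (hS : T.Simple) {mk : V → κ} {𝔯 : PvspReg κ} (hF : PvsqFr T mk 𝔯) (c : Bool) (s₀ : V → Bool) {P : T.Cyc} (hP : P.IsRim (pvspS c s₀))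
    (hb : s₀ (T.src (P.e 0)) = c) {em k0 ep : ℕ} (hR : PvsqRun T mk 𝔯 P em k0 ep)
    (hg1 : ∃ g₀ : T.Gate (pvspS c s₀), pvsqI T mk 𝔯 .I1 ⊆ g₀.c.Left ∧ g₀.c.Left ⊆ pvsqI T mk 𝔯 .O1)
    (hg2 : ∃ g₀ : T.Gate (pvspS c s₀), pvsqI T mk 𝔯 .I2 ⊆ g₀.c.Left ∧ g₀.c.Left ⊆ pvsqI T mk 𝔯 .O2) :
    PvspPred 𝔯 c .has V D T mk s₀ ∧ PvspPred 𝔯 c .pb V D T mk s₀ ∧ PvspPred 𝔯 c .mb V D T mk s₀ := by
  have hb' : pvspS c s₀ (T.src (P.e 0)) = true := by
    unfold pvspS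
    rw [hb]; exact beq_self_eq_true c
  obtain ⟨𝔖, h1, h2, h3, -, -, -⟩ := pvsq_main hT hS hF hP hb' hR hg1 hg2
  exact ⟨⟨hF.star, 𝔖, h1, trivial⟩, ⟨hF.star, 𝔖, h1, h2⟩, ⟨hF.star, 𝔖, h1, h3⟩⟩

end Claimed.Agent.R289
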