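import Claimed.Agent.R289.Tr.StateP
import Claimed.Agent.R289.Tr.Dict
import Claimed.Agent.R289.Tr.Stab
import Claimed.Agent.R289.Tr.GateN
import Claimed.Agent.R289.Tr.StabFit
import Claimed.Agent.R289.Tr.LocalF

/-!
# Row 289 (S0537, Cardy for Poisson-Voronoi), THE WALL, ROAD P, file Tr/CutP : THE CUT POINT OF A CANDIDATE = THE `V`-FIELDS OF ROAD P      (pen helper263, post (3) of ruling P4 of 273; prefix `pvkv_`, `pvkv`, `Pvkv`)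
TEX: 06-actual-arcs.tex (A4: `I_V(P;s,t) = c(t) - c(s)`), 05-pins.tex (cut-off disc of a pin); notes: origin/helper273:notes/R289/ROADP_273.md P3 P5 P12 P19, ruling P4 (2)(3) of 273 (msg 79608), `Tr/Lin.lean` sec.9 (`PvtyLocQ`: fields `cV tel cV_L2`).

CONSUMER: the four `V`-fields of the record of road P (`PvrpInU` of 286 in the Q-form):  `cV0`, `stabV`, `telP`, `thickVν`.      `cV := Nrm G cV0 ∘ cf`.
* sec.1  ON A RIM (model free, `PvbRim`):  `pvkvC 𝔐 h P u = P.v u.idx - ∑_{k < u.idx, tag k in the cut-off ball of u} P.xV k`;   **`pvkv_tel`** (= `telP`): `pvbArcI 𝔐 h P P.xV s t = pvkvC t - pvkvC s` (TRAP + far apart + mesh + `xV k = v (k+1) - v k`);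
         `pvkv_C_shift`: the index of the pin may be moved along an arc whose tags lie in the cut-off ball.
* sec.2  ON A STATE (marks `= ` positions):  `𝔖.cut mk B` (marked vertex − `V`-mass of the edges of `inn` before `ip` with tag in `B`), `𝔖.ent mk B` (mass of the ENTRANCE ARC off `B`), `pvkv_cut_ent`: `cut = mk v₂⁻ + ent`;
         the predicate `PvkvPred 𝔯 c B w` (`the state exists and its cut point is w`), **`pvkv_pred_local`**, **`pvkv_pred_unique`**.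
* sec.3  ON A CONFIGURATION:  `PvkvIs N t z h mc ζ w` (read on SOME completion), **`pvkvC0`** (= field `cV0`), `pvkvA0`, `pvkvE0`; `pvkv_is_unique` (all completions give the same value), `pvkv_C0_eq`, `pvkv_C0_reads` (a function of the STATE on the mesh event).
* sec.4  RIM ⟹ CUT POINT:  `pvkv_rim_cut` (map level: 260's RIM ⟹ STATE + TRAP), **`pvkv_act`** (`ν`-level, K-free: every rim of `ζ` pinned at the candidate reads `pvkvC0 ζ`), **`pvkv_stabV`** (= `stabV` = `pvkv_act ∘ pvsb_move`).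
* sec.5  **`pvkv_thick`** (= `thickVν`) from the thick bound, generic in the weight, of 58 (`Tr/SysP.lean`) for the entrance mass `pvkvE0` (deterministic mask `M⁻(τ)`).
-/

set_option autoImplicit false
set_option linter.unusedSectionVars false
set_option linter.unusedVariables false

namespace Claimed.Agent.R289

open MeasureTheory Set Filter Topology Metric Claims.C0465
open scoped ENNReal

/-! ## 1. the cut point read on a rim -/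

section rim

variable {τ : Type}

open Classical in
/-- **the cut point of the pin `u` read on the rim `P`**: marked vertex − `V`-mass of the cut-off ball before the pin -/
noncomputable def pvkvC (𝔐 : PvbMenu τ) (h : ℝ) (P : PvbRim) (u : PvbPin τ) : ℂ :=
  P.v u.idx - ∑ k ∈ (Finset.range u.idx).filter (fun k => PvbInCut 𝔐 h u.ctr u.typ (P.z k)), P.xV k

theorem pvkv_eqns_cite : True := by
  have := @pvkvC.eq_1
  trivial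

variable {𝔐 : PvbMenu τ} {h : ℝ} {P : PvbRim}

/-- the windows of 195 from the TRAP and the mesh at the tags of the cut-off ball -/
theorem pvkv_win {s : PvbPin τ} (hs : PvbIsPin 𝔐 h P s) (h0 : 0 < h) {μ : ℝ} (hμ : μ ≤ h)
    (hz : ∀ k < P.len, PvbInCut 𝔐 h s.ctr s.typ (P.z k) → ‖P.z k - P.v k‖ ≤ μ) :
    ∃ lo hi, lo ≤ s.idx ∧ s.idx ≤ hi ∧ hi ≤ P.len ∧ PvdcWin 𝔐 h P s lo s.idx s.idx (min (hi + 1) P.len) ∧
      (∀ i i', lo ≤ i → i ≤ hi → lo ≤ i' → i' ≤ hi → ‖P.v i - P.v i'‖ ≤ 2 * 𝔐.L * h) := by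
  obtain ⟨lo, hi, h1, h2, h3, h4, h5⟩ := hs.trap
  refine ⟨lo, hi, h1, h2, h3, ⟨h1, le_rfl, le_rfl, ?_, min_le_right _ _, ?_, ?_⟩, h5⟩
  · exact le_min (by omega) hs.idx_lt.le
  · intro k hk hc
    have hc' : ‖P.z k - s.ctr‖ ≤ 𝔐.mc s.typ * h := hc
    have a1 := hz k hk hc
    have m1 := 𝔐.mc_gt s.typ
    have m2 := 𝔐.mc_lt s.typ
    have m3 := 𝔐.a3_gt s.typ
    have a2 : ‖P.v k - s.ctr‖ < 𝔐.a3 s.typ * h := by
      have e1 : ‖P.v k - s.ctr‖ ≤ ‖P.z k - s.ctr‖ + ‖P.z k - P.v k‖ := by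
        calc ‖P.v k - s.ctr‖ = ‖(P.z k - s.ctr) - (P.z k - P.v k)‖ := by ring_nf
          _ ≤ _ := norm_sub_le _ _
      have e2 : (𝔐.mc s.typ + 1) * h < 𝔐.a3 s.typ * h := mul_lt_mul_of_pos_right (by linarith) h0
      linarith
    obtain ⟨b1, b2⟩ := h4 k hk.le a2
    exact ⟨b1, lt_min (by omega) hk⟩
  · intro k c1 c2
    omega

/-- the potential of 195 is the cut point -/
theorem pvkv_phi {s : PvbPin τ} {l2 l1 r1 r2 : ℕ} (w : PvdcWin 𝔐 h P s l2 l1 r1 r2) : s.ctr + pvdcPhi 𝔐 h P P.xV s l2 = pvkvC 𝔐 h P s := by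
  have hlen : s.idx ≤ P.len := w.ir1.trans (w.r12.trans w.r2n)
  have e : pvdcM 𝔐 h P P.xV s 0 s.idx = pvdcM 𝔐 h P P.xV s l2 s.idx :=
    pvdc_M_restrict P.xV s (Nat.zero_le _) le_rfl fun k _ a2 a3 => ⟨(w.cut_in k (a2.trans_le hlen) a3).1, a2⟩
  unfold pvdcPhi pvkvC
  rw [← e]
  unfold pvdcM
  rw [Finset.range_eq_Ico]
  ring

/-- **`telP`** (A4, exact) -/
theorem pvkv_tel {s t : PvbPin τ} (hs : PvbIsPin 𝔐 h P s) (ht : PvbIsPin 𝔐 h P t) (hst : s.idx < t.idx) (h0 : 0 < h) {μ : ℝ} (hμ : μ ≤ h)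
    (hzs : ∀ k < P.len, PvbInCut 𝔐 h s.ctr s.typ (P.z k) → ‖P.z k - P.v k‖ ≤ μ) (hzt : ∀ k < P.len, PvbInCut 𝔐 h t.ctr t.typ (P.z k) → ‖P.z k - P.v k‖ ≤ μ)
    (hfar : (4 * 𝔐.L + 2) * h < ‖s.ctr - t.ctr‖) (hx : ∀ k, s.idx ≤ k → k < t.idx → P.xV k = P.v (k + 1) - P.v k) :
    pvbArcI 𝔐 h P P.xV s t = pvkvC 𝔐 h P t - pvkvC 𝔐 h P s := by
  obtain ⟨lo, hi, a1, a2, a3, ws, a5⟩ := pvkv_win hs h0 hμ hzs
  obtain ⟨lo', hi', b1, b2, b3, wt, b5⟩ := pvkv_win ht h0 hμ hzt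
  have key : hi < lo' := by
    by_contra hn
    have hn' : lo' ≤ hi := not_lt.1 hn
    -- a common index
    have c1 : ‖P.v s.idx - P.v t.idx‖ ≤ 4 * 𝔐.L * h := by
      rcases Nat.lt_or_ge s.idx lo' with c | c
      · -- `lo'` lies in both
        have d1 := a5 s.idx lo' a1 a2 (by omega) hn'
        have d2 := b5 lo' t.idx le_rfl (by omega) b1 b2
        calc ‖P.v s.idx - P.v t.idx‖ = ‖(P.v s.idx - P.v lo') + (P.v lo' - P.v t.idx)‖ := by ring_nf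
          _ ≤ ‖P.v s.idx - P.v lo'‖ + ‖P.v lo' - P.v t.idx‖ := norm_add_le _ _
          _ ≤ 4 * 𝔐.L * h := by linarith
      · have d2 := b5 s.idx t.idx c (by omega) b1 b2
        have hL : 0 ≤ 𝔐.L * h := by
          have := norm_nonneg (P.v s.idx - P.v t.idx)
          linarith
        linarith
    have c2 := hs.near
    have c3 := ht.near
    have c4 : ‖s.ctr - t.ctr‖ ≤ ‖P.v s.idx - s.ctr‖ + ‖P.v s.idx - P.v t.idx‖ + ‖P.v t.idx - t.ctr‖ := by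
      calc ‖s.ctr - t.ctr‖ = ‖-(P.v s.idx - s.ctr) + (P.v s.idx - P.v t.idx) + (P.v t.idx - t.ctr)‖ := by ring_nf
        _ ≤ ‖-(P.v s.idx - s.ctr) + (P.v s.idx - P.v t.idx)‖ + ‖P.v t.idx - t.ctr‖ := norm_add_le _ _
        _ ≤ ‖-(P.v s.idx - s.ctr)‖ + ‖P.v s.idx - P.v t.idx‖ + ‖P.v t.idx - t.ctr‖ := by gcongr; exact norm_add_le _ _
        _ = _ := by rw [norm_neg]
    nlinarith
  have hst' : min (hi + 1) P.len ≤ lo' := (min_le_left _ _).trans key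
  rw [pvdc_V ws wt hst' P.xV hx, ← pvkv_phi ws, ← pvkv_phi wt]
  ring

/-- the marked index may be moved along an arc all of whose tags lie in the cut-off ball (R5: SPATIAL masks) -/
theorem pvkv_C_shift {z : ℂ} {t : τ} {i j : ℕ} (hij : i ≤ j) (hx : ∀ k, i ≤ k → k < j → P.xV k = P.v (k + 1) - P.v k)
    (hc : ∀ k, i ≤ k → k < j → PvbInCut 𝔐 h z t (P.z k)) : pvkvC 𝔐 h P ⟨j, z, t⟩ = pvkvC 𝔐 h P ⟨i, z, t⟩ := by
  classical
  unfold pvkvC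
  simp only
  have e1 : ∑ k ∈ (Finset.range j).filter (fun k => PvbInCut 𝔐 h z t (P.z k)), P.xV k
      = ∑ k ∈ (Finset.range i).filter (fun k => PvbInCut 𝔐 h z t (P.z k)), P.xV k + ∑ k ∈ Finset.Ico i j, P.xV k := by
    rw [Finset.sum_filter, Finset.sum_filter, Finset.range_eq_Ico, Finset.range_eq_Ico, ← Finset.sum_Ico_consecutive _ (Nat.zero_le i) hij]
    congr 1
    refine Finset.sum_congr rfl fun k hk => ?_
    obtain ⟨k1, k2⟩ := Finset.mem_Ico.1 hk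
    rw [if_pos (hc k k1 k2)]
  have e2 := pvdc_tele P.v P.xV hij hx
  rw [e1, e2]
  ring

end rim

/-! ## 2. the cut point of a state -/

section state

variable {V D : Type} {T : PvMap V D} {s : V → Bool}

open Classical in
/-- **the cut point of a state**: marked vertex − `V`-mass of the edges of the inner arc before the marked vertex with (right) tag in `B` -/
noncomputable def PvspSt.cut (𝔖 : PvspSt T s) (mk : V → ℂ) (B : Set ℂ) : ℂ :=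
  mk (𝔖.inn.v 𝔖.ip) - ∑ i ∈ (Finset.range 𝔖.ip).filter (fun i => T.bary mk (T.opp (𝔖.inn.e i)) ∈ B), T.side mk (T.opp (𝔖.inn.e i))

open Classical in
/-- the `V`-mass of the ENTRANCE ARC `v₂⁻ → p` off `B` -/
noncomputable def PvspSt.ent (𝔖 : PvspSt T s) (mk : V → ℂ) (B : Set ℂ) : ℂ :=
  ∑ i ∈ (Finset.range 𝔖.ip).filter (fun i => T.bary mk (T.opp (𝔖.inn.e i)) ∉ B), T.side mk (T.opp (𝔖.inn.e i))

/-- the state exists and its cut point is `w`, its entrance vertex is at `a` -/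
def PvkvPred (𝔯 : PvspReg ℂ) (c : Bool) (B : Set ℂ) (w a : ℂ) : PvplPred ℂ := fun _ _ T mk s =>
  PvplStar T mk (fun x => x ∈ 𝔯 .O2) (𝔯 .S2) ∧ ∃ 𝔖 : PvspSt T (pvspS c s), 𝔖.At mk 𝔯 ∧ 𝔖.cut mk B = w ∧ mk (𝔖.inn.v 0) = a

theorem pvkv_eqns_cite2 : True := by
  have := @PvspSt.cut.eq_1; have := @PvspSt.ent.eq_1; have := @PvkvPred.eq_1
  trivial

/-- telescoping along the entrance arc -/
theorem pvkv_cut_ent (𝔖 : PvspSt T s) (hip : 𝔖.ip ≤ 𝔖.inn.n) (mk : V → ℂ) (B : Set ℂ) : 𝔖.cut mk B = mk (𝔖.inn.v 0) + 𝔖.ent mk B := by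
  classical
  have h1 : ∑ i ∈ (Finset.range 𝔖.ip).filter (fun i => T.bary mk (T.opp (𝔖.inn.e i)) ∈ B), T.side mk (T.opp (𝔖.inn.e i))
      + ∑ i ∈ (Finset.range 𝔖.ip).filter (fun i => T.bary mk (T.opp (𝔖.inn.e i)) ∉ B), T.side mk (T.opp (𝔖.inn.e i))
      = mk (𝔖.inn.v 𝔖.ip) - mk (𝔖.inn.v 0) := by
    rw [Finset.sum_filter_add_sum_filter_not, Finset.range_eq_Ico]
    exact pvdc_tele (fun k => mk (𝔖.inn.v k)) (fun k => T.side mk (T.opp (𝔖.inn.e k))) (Nat.zero_le _) fun k _ hk => by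
      rw [pvdc_side_opp, 𝔖.inn.tgt_e k (by omega), 𝔖.inn.src_e k (by omega)]
  unfold PvspSt.cut PvspSt.ent
  linear_combination -h1

/-- **transfer of the state with its inner arc** (the proof of `pvsp_tr_at` of 76, keeping the arc and the marked index) -/
theorem pvkv_tr_at {κ : Type} {V D V' D' : Type} {T : PvMap V D} {mk : V → κ} {s : V → Bool} {T' : PvMap V' D'} {mk' : V' → κ} {s' : V' → Bool} {R : V → V' → Prop}
    {𝔯 : PvspReg κ} (hN : 𝔯.Nest) (h : PvplIso T mk s T' mk' s' (𝔯 .S2) R) (hS : T.Simple) (hS' : T'.Simple)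
    (hst : PvplStar T mk (fun x => x ∈ 𝔯 .O2) (𝔯 .S2)) {𝔖 : PvspSt T s} (hA : 𝔖.At mk 𝔯) :
    ∃ 𝔖' : PvspSt T' s', 𝔖'.At mk' 𝔯 ∧ 𝔖'.ip = 𝔖.ip ∧ 𝔖'.inn.n = 𝔖.inn.n ∧ (∀ i, i ≤ 𝔖.inn.n → R (𝔖.inn.v i) (𝔖'.inn.v i)) ∧
      ∀ i, i ≤ 𝔖.ip → mk (𝔖.inn.v i) ∈ 𝔯 .S2 := by
  obtain ⟨n1, n2, n3, n4⟩ := hN
  have hP : ∀ k, k ∈ 𝔯 .O2 → k ∈ 𝔯 .S2 := fun k hk => n4 hk
  have hz1 : ∀ d ∈ 𝔖.g1.c.Left, mk (T.src d) ∈ 𝔯 .S2 ∧ mk (T.tgt d) ∈ 𝔯 .S2 ∧ mk (T.apex d) ∈ 𝔯 .S2 := fun d hd =>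
    pvsp_zone hst hP (pvpl_B_mono T (fun v hv => n2 hv) (hA.sel1.outer hd))
  have hz2 : ∀ d ∈ 𝔖.g2.c.Left, mk (T.src d) ∈ 𝔯 .S2 ∧ mk (T.tgt d) ∈ 𝔯 .S2 ∧ mk (T.apex d) ∈ 𝔯 .S2 := fun d hd =>
    pvsp_zone hst hP (hA.sel2.outer hd)
  obtain ⟨g1', hm1, -, hc1⟩ := pvsp_tr_gate h hS' 𝔖.g1 fun i => h.ex _ (hz1 _ (hA.sel1.on i)).1
  obtain ⟨g2', hm2, -, hc2⟩ := pvsp_tr_gate h hS' 𝔖.g2 fun i => h.ex _ (hz2 _ (hA.sel2.on i)).1
  obtain ⟨hlen, hit, -⟩ := pvsp_tr_strand h hS hS' hm2 hc2 hA.sel2.on hz2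
  have hlt : ∀ j, j < 𝔖.g2.len → pvasIt T s 𝔖.g2.aIn j ∈ 𝔖.g2.c.Left := fun j hj => not_not.1 (Nat.notMem_of_lt_sInf hj)
  have hmk : ∀ i, i < 𝔖.inn.n → mk (𝔖.inn.v i) ∈ 𝔯 .S2 := by
    intro i hi
    obtain ⟨j, h0, hj, h1, h2⟩ := hA.arc
    obtain ⟨a1, a2, -⟩ := h1 i hi.le
    have hne : j i ≠ 𝔖.g2.len := fun e => by
      have e2 := (h1 𝔖.inn.n le_rfl).2.1
      rw [hj] at e2
      rw [e] at a2
      have := 𝔖.inn.inj i 𝔖.inn.n hi.le le_rfl (a2.trans e2.symm)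
      omega
    rw [a2]
    exact (hz2 _ (hlt _ (by omega))).1
  have h0 : ∃ v', R (𝔖.inn.v 0) v' := by
    obtain ⟨j, h0, -⟩ := hA.arc
    rw [h0]
    exact ⟨_, (hc2 0).1⟩
  obtain ⟨inn', hn, hv⟩ := pvsp_tr_pth h ⟨g2'.c.e 0⟩ 𝔖.inn hmk h0
  refine ⟨⟨g1', g2', inn', 𝔖.im, 𝔖.ip⟩, ⟨?_, ?_, ?_, hA.im_lt, by rw [hn]; exact hA.ip_le, ?_, ?_, ?_, ?_, ?_, ?_⟩, rfl, hn, hv, ?_⟩
  · exact pvsp_tr_sel h hS hS' hP hst (PI := fun x => x ∈ 𝔯 .I1) (PO := fun x => x ∈ 𝔯 .O1) (fun k hk => n2 (n1 hk)) (fun k hk => n2 hk) hm1 hc1 hA.sel1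
  · exact pvsp_tr_sel h hS hS' hP hst (PI := fun x => x ∈ 𝔯 .I2) (PO := fun x => x ∈ 𝔯 .O2) (fun k hk => n3 hk) (fun k hk => hk) hm2 hc2 hA.sel2
  · show PvwLE T' (fun i => T'.src (pvasIt T' s' g2'.aIn i)) g2'.len inn'
    rw [hlen]
    exact pvsp_tr_le h (fun i hi => (hit i hi).1) hn hv hA.arc
  · have h1 := hv 𝔖.im (hA.im_lt.le.trans hA.ip_le)
    rw [hA.im_eq] at h1
    exact h.fn _ _ _ h1 (hc1 0).1
  · have h1 := hv 𝔖.ip hA.ip_le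
    rw [hA.ip_eq] at h1
    show inn'.v 𝔖.ip = T'.src (g1'.c.e g1'.m)
    rw [hm1]
    exact h.fn _ _ _ h1 (hc1 _).1
  · intro i hi hin
    rw [hn] at hin
    show mk' (inn'.v i) ∈ _
    rw [h.mark _ _ (hv i hin)]
    exact hA.fit_p i hi hin
  · intro i hi
    show mk' (inn'.v i) ∈ _
    rw [h.mark _ _ (hv i (hi.trans hA.ip_le))]
    exact hA.fit_m i hi
  · show mk' (T'.src (g2'.c.e g2'.m)) ∈ _
    rw [hm2, h.mark _ _ (hc2 _).1]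
    exact hA.vp
  · show mk' (T'.src (g2'.c.e 0)) ∈ _
    rw [h.mark _ _ (hc2 _).1]
    exact hA.vm
  · intro i hi
    rcases Nat.lt_or_ge i 𝔖.ip with c | c
    · exact hmk i (c.trans_le hA.ip_le)
    · have e : i = 𝔖.ip := le_antisymm hi c
      rw [e, hA.ip_eq]
      exact (hz1 _ (hA.sel1.on 𝔖.g1.m)).1

/-- one direction of the locality of the cut point -/
theorem pvkv_tr_pred {V D V' D' : Type} {T : PvMap V D} {mk : V → ℂ} {s : V → Bool} {T' : PvMap V' D'} {mk' : V' → ℂ} {s' : V' → Bool} {R : V → V' → Prop}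
    {𝔯 : PvspReg ℂ} (hN : 𝔯.Nest) (c : Bool) (B : Set ℂ) (w a : ℂ) (h : PvplIso T mk s T' mk' s' (𝔯 .S2) R) (hS : T.Simple) (hS' : T'.Simple)
    (hp : PvkvPred 𝔯 c B w a V D T mk s) : PvkvPred 𝔯 c B w a V' D' T' mk' s' := by
  classical
  obtain ⟨hst, 𝔖, hA, hw, ha⟩ := hp
  have hc := pvsp_tr_S h c
  obtain ⟨𝔖', hA', hip, hn, hv, hmk⟩ := pvkv_tr_at hN hc hS hS' hst hA
  have hle := hA.ip_le
  have hrd : ∀ i, i < 𝔖.ip → PvplRD T T' R (T.opp (𝔖.inn.e i)) (T'.opp (𝔖'.inn.e i)) := by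
    intro i hi
    obtain ⟨d', d1, d2, d3⟩ := hc.ex (𝔖.inn.e i) (by rw [𝔖.inn.src_e i (by omega)]; exact hmk i hi.le)
    have e1 : T'.src d' = 𝔖'.inn.v i := by
      rw [𝔖.inn.src_e i (by omega)] at d1
      exact hc.fn _ _ _ d1 (hv i (by omega))
    have e2 : T'.tgt d' = 𝔖'.inn.v (i + 1) := by
      rw [𝔖.inn.tgt_e i (by omega)] at d2
      exact hc.fn _ _ _ d2 (hv (i + 1) (by omega))
    have e3 : d' = 𝔖'.inn.e i := hS' _ _ (by rw [e1, 𝔖'.inn.src_e i (by omega)]) (by rw [e2, 𝔖'.inn.tgt_e i (by omega)])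
    rw [← e3]
    exact hc.opp hS' ⟨d1, d2, d3⟩ (by rw [𝔖.inn.tgt_e i (by omega)]; exact hmk (i + 1) hi)
  have hb : ∀ i, i < 𝔖.ip → T'.bary mk' (T'.opp (𝔖'.inn.e i)) = T.bary mk (T.opp (𝔖.inn.e i)) := by
    intro i hi
    obtain ⟨r1, r2, r3⟩ := hrd i hi
    unfold PvMap.bary
    rw [hc.mark _ _ r1, hc.mark _ _ r2, hc.mark _ _ r3]
  have hsd : ∀ i, i < 𝔖.ip → T'.side mk' (T'.opp (𝔖'.inn.e i)) = T.side mk (T.opp (𝔖.inn.e i)) := by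
    intro i hi
    obtain ⟨r1, r2, r3⟩ := hrd i hi
    unfold PvMap.side
    rw [hc.mark _ _ r1, hc.mark _ _ r2]
  refine ⟨hc.star (fun k hk => hN.2.2.2 hk) hst, 𝔖', hA', ?_, ?_⟩
  · rw [← hw]
    unfold PvspSt.cut
    rw [hip, hc.mark _ _ (hv _ hle), Finset.sum_filter, Finset.sum_filter]
    congr 1
    refine Finset.sum_congr rfl fun i hi => ?_
    have hi' := Finset.mem_range.1 hi
    rw [hb i hi', hsd i hi']
  · rw [← ha]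
    exact hc.mark _ _ (hv 0 (Nat.zero_le _))

/-- **LOCALITY**: same proof as `pvsp_pred_local` (the state is carried by the local isomorphism; marks = positions are preserved, so are tags and side vectors) -/
theorem pvkv_pred_local (𝔯 : PvspReg ℂ) (c : Bool) (B : Set ℂ) (w a : ℂ) (h : 𝔯.Nest) : (PvkvPred 𝔯 c B w a).Local (𝔯 .S2) := by
  exact fun _ _ _ _ _ _ _ _ _ _ _ hS hS' hi => ⟨pvkv_tr_pred h c B w a hi hS hS', pvkv_tr_pred h c B w a hi.symm hS' hS⟩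

/-- **UNIQUENESS** on one map (`pvsp_at_unique`; in a simple map the darts of a path are determined by its vertices) -/
theorem pvkv_pred_unique {𝔯 : PvspReg ℂ} {c : Bool} {B : Set ℂ} {w w' a a' : ℂ} {mk : V → ℂ} (hSph : T.IsSph) (hT : T.Simple) (hd : ∀ v, mk v ∈ 𝔯 .Np → mk v ∈ 𝔯 .Nm → mk v ∈ 𝔯 .I2)
    (h : PvkvPred 𝔯 c B w a V D T mk s) (h' : PvkvPred 𝔯 c B w' a' V D T mk s) : w = w' ∧ a = a' := by
  obtain ⟨-, 𝔖, hA, hw, ha⟩ := h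
  obtain ⟨-, 𝔖', hA', hw', ha'⟩ := h'
  obtain ⟨-, -, -, -, -, un, uv, uip, -⟩ := pvsp_at_unique hSph hT hd hA hA'
  have ue : ∀ i, i < 𝔖.inn.n → 𝔖.inn.e i = 𝔖'.inn.e i := fun i hi =>
    hT _ _ (by rw [𝔖.inn.src_e i hi, 𝔖'.inn.src_e i (un ▸ hi), uv i hi.le]) (by rw [𝔖.inn.tgt_e i hi, 𝔖'.inn.tgt_e i (un ▸ hi), uv (i + 1) hi])
  constructor
  · rw [← hw, ← hw']
    unfold PvspSt.cut
    rw [← uip, uv _ hA.ip_le, Finset.sum_filter, Finset.sum_filter]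
    congr 1
    refine Finset.sum_congr rfl fun i hi => ?_
    rw [ue i (lt_of_lt_of_le (Finset.mem_range.1 hi) hA.ip_le)]
  · rw [← ha, ← ha', uv 0 (Nat.zero_le _)]

/-- the state predicate of 185 gives a cut point -/
theorem pvkv_pred_of_has {𝔯 : PvspReg ℂ} {c : Bool} {mk : V → ℂ} (B : Set ℂ) (h : PvspPred 𝔯 c .has V D T mk s) : ∃ w a, PvkvPred 𝔯 c B w a V D T mk s := by
  obtain ⟨h1, 𝔖, h2, -⟩ := h
  exact ⟨_, _, h1, 𝔖, h2, rfl, rfl⟩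

end state

/-! ## 3. the cut point of a configuration -/

section conf

/-- `w` is the cut point, `a` the entrance vertex of the candidate `(z, t)` in the configuration `ζ`, read on SOME completion -/
def PvkvIs (N : PvspNum) (t : PvspTy) (z : ℂ) (h mc : ℝ) (ζ : Conf PvPt) (w a : ℂ) : Prop :=
  ∃ (X : Type) (𝔅 : PvBulk X) (ξ : X → Bool) (zi : ℂ), 𝔅.Ok (cfSites ζ) (t.reg N z h .S2) ∧ zi ∉ t.reg N z h .S2 ∧
    PvkvPred (t.reg N z h) t.col (closedBall z (mc * h)) w a _ _ (𝔅.T (cfSites ζ)) (𝔅.posF _ zi) (𝔅.col ζ ξ)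

open Classical in
/-- **field `cV0`**: the cut point of the candidate, a function of the state (`z` if there is no state) -/
noncomputable def pvkvC0 (N : PvspNum) (t : PvspTy) (z : ℂ) (h mc : ℝ) (ζ : Conf PvPt) : ℂ :=
  if hh : ∃ w a, PvkvIs N t z h mc ζ w a then hh.choose else z

open Classical in
/-- the entrance vertex `v₂⁻(σ)` -/
noncomputable def pvkvA0 (N : PvspNum) (t : PvspTy) (z : ℂ) (h mc : ℝ) (ζ : Conf PvPt) : ℂ :=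
  if hh : ∃ w a, PvkvIs N t z h mc ζ w a then hh.choose_spec.choose else z

/-- the `V`-mass of the entrance arc off the cut-off ball -/
noncomputable def pvkvE0 (N : PvspNum) (t : PvspTy) (z : ℂ) (h mc : ℝ) (ζ : Conf PvPt) : ℂ := pvkvC0 N t z h mc ζ - pvkvA0 N t z h mc ζ

theorem pvkv_eqns_cite3 : True := by
  have := @PvkvIs.eq_1; have := @pvkvC0.eq_1; have := @pvkvA0.eq_1; have := @pvkvE0.eq_1
  trivial

variable {N : PvspNum} {t : PvspTy} {z : ℂ} {h mc : ℝ}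

/-- **all the completions, and all the configurations with the same state, read the same cut point** (`PvplPred.Local.congr_ok` of 238 with `θ = id`, then `pvkv_pred_unique`) -/
theorem pvkv_is_unique (W : t.Wf N z h) {ζ ζ' : Conf PvPt} (hm : PvtrMesh (N.mu * h) (pvspO N t z h) (cfSites ζ))
    (hζ : Conf.restr (pvspO N t z h ×ˢ univ) ζ = Conf.restr (pvspO N t z h ×ˢ univ) ζ') {w w' a a' : ℂ}
    (hw : PvkvIs N t z h mc ζ w a) (hw' : PvkvIs N t z h mc ζ' w' a') : w = w' ∧ a = a' := by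
  obtain ⟨X, 𝔅, ξ, zi, hok, hzi, hp⟩ := hw
  obtain ⟨X', 𝔅', ξ', zi', hok', hzi', hp'⟩ := hw'
  have hloc := pvkv_pred_local (t.reg N z h) t.col (closedBall z (mc * h)) w a W.nest
  have hiff := hloc.congr_ok (E := pvspO N t z h) (𝔅 := 𝔅) (𝔅' := 𝔅') id W.rho0 (ξ := ξ) (ξ' := ξ') (zi := zi) (zi' := zi') hok hok' hm W.S2_core hzi hzi' hζ
  have hp2 : PvkvPred (t.reg N z h) t.col (closedBall z (mc * h)) w a _ _ (𝔅'.T (cfSites ζ')) (𝔅'.posF _ zi') (𝔅'.col ζ' ξ') := hiff.1 hp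
  exact pvkv_pred_unique hok'.sph hok'.simple (fun v h1 h2 => W.tubes ⟨h1, h2⟩) hp2 hp'

theorem pvkv_C0_eq (W : t.Wf N z h) {ζ : Conf PvPt} (hm : PvtrMesh (N.mu * h) (pvspO N t z h) (cfSites ζ)) {w a : ℂ} (hw : PvkvIs N t z h mc ζ w a) :
    pvkvC0 N t z h mc ζ = w ∧ pvkvA0 N t z h mc ζ = a := by
  have hh : ∃ w a, PvkvIs N t z h mc ζ w a := ⟨w, a, hw⟩
  unfold pvkvC0 pvkvA0
  rw [dif_pos hh, dif_pos hh]
  exact pvkv_is_unique W hm rfl hh.choose_spec.choose_spec hw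

/-- on the mesh event the cut point is a function of the STATE `ζ|O` -/
theorem pvkv_C0_reads (W : t.Wf N z h) {ζ ζ' : Conf PvPt} (hm : PvtrMesh (N.mu * h) (pvspO N t z h) (cfSites ζ))
    (hζ : Conf.restr (pvspO N t z h ×ˢ univ) ζ = Conf.restr (pvspO N t z h ×ˢ univ) ζ') (hex : ∃ w a, PvkvIs N t z h mc ζ w a) (hex' : ∃ w a, PvkvIs N t z h mc ζ' w a) :
    pvkvC0 N t z h mc ζ = pvkvC0 N t z h mc ζ' ∧ pvkvA0 N t z h mc ζ = pvkvA0 N t z h mc ζ' := by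
  unfold pvkvC0 pvkvA0
  rw [dif_pos hex, dif_pos hex', dif_pos hex, dif_pos hex']
  exact pvkv_is_unique W hm hζ hex.choose_spec.choose_spec hex'.choose_spec.choose_spec

/-- the entrance vertex lies on the gate `S₂` -/
theorem pvkv_A0_le (W : t.Wf N z h) {ζ : Conf PvPt} (hm : PvtrMesh (N.mu * h) (pvspO N t z h) (cfSites ζ)) : ‖pvkvA0 N t z h mc ζ - z‖ ≤ (t.b N 1 + 1) * h := by
  have hb : 0 ≤ (t.b N 1 + 1) * h := by
    have h1 := W.rO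
    have h2 := W.mu0
    have h3 := W.h0
    unfold PvspTy.rO at h1
    have : 0 ≤ t.b N 1 + 1 := by linarith
    positivity
  unfold pvkvA0
  split_ifs with hh
  · obtain ⟨X, 𝔅, ξ, zi, hok, hzi, hst, 𝔖, hA, -, ha⟩ := hh.choose_spec.choose_spec
    rw [← ha]
    have h0 : 𝔖.inn.v 0 = (𝔅.T (cfSites ζ)).src (𝔖.g2.c.e 0) := hA.arc.choose_spec.1
    have h1 := hA.sel2.outer (hA.sel2.on 0)
    have h2 := (pvsp_zone hst (fun k hk => W.nest.2.2.2 hk) h1).1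
    rw [h0]
    exact mem_closedBall_iff_norm.1 h2
  · simpa using hb

end conf

/-! ## 4. RIM ⟹ CUT POINT -/

section act

variable {V D : Type} {T : PvMap V D} {s : V → Bool}

/-- the indices of a passage are vertices of the closed inside of the gate -/
theorem pvkv_pass_vof (hT : T.IsSph) (g : T.Gate s) {c : T.Cyc} {lo hi : ℕ} (P : g.Pass c lo hi) {k : ℕ} (h1 : lo ≤ k) (h2 : k ≤ hi) : T.src (c.e k) ∈ T.VOf g.c.Left := by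
  rcases Nat.eq_or_lt_of_le h1 with rfl | h1
  · rw [P.hlo]; exact pvgz_vm_mem hT g
  · rcases Nat.eq_or_lt_of_le h2 with rfl | h2
    · rw [P.hhi]; exact ⟨g.c.e g.m, (pl_jordan hT g.c).2.1 _, rfl⟩
    · exact ⟨c.e k, P.inn k h1 h2 _ rfl, rfl⟩

/-- a passage is normalised to the window `[0, c.n)` of a cycle which starts off the closed inside of the gate -/
theorem pvkv_pass_norm (hT : T.IsSph) (g : T.Gate s) {c : T.Cyc} {lo hi : ℕ} (h : g.Pass c lo hi) (h0 : T.src (c.e 0) ∉ T.VOf g.c.Left) {k₀ : ℕ} (hk₀n : k₀ < c.n)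
    (hk₀ : T.src (c.e k₀) ∈ T.Int g.c.Left) : ∃ lo' hi', g.Pass c lo' hi' ∧ lo' < k₀ ∧ k₀ < hi' ∧ hi' < c.n := by
  have hn := pl_cyc_pos c
  have hlo : lo % c.n < c.n := Nat.mod_lt _ hn
  have P := pvgz_pass_shift g h (lo' := lo % c.n) (Nat.mod_mod _ _)
  set lo' := lo % c.n with hlo'
  set hi' := lo' + (hi - lo) with hhi'
  have hper : ∀ k, T.src (c.e (k + c.n)) = T.src (c.e k) := fun k => by rw [c.per]
  have hdis := (pl_jordan_vert_disj hT g.c).2.2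
  have hhin : hi' < c.n := by
    by_contra hcon
    apply h0
    have := pvkv_pass_vof hT g P (k := c.n) hlo.le (by omega)
    have e := hper 0
    rw [Nat.zero_add] at e
    rwa [e] at this
  have h1 : lo' < k₀ := by
    by_contra hcon
    rcases Nat.eq_or_lt_of_le (Nat.le_of_not_lt hcon) with e | e
    · rw [e, P.hlo] at hk₀
      exact pvgz_verts_not_int hT g.c 0 hk₀
    · have := P.out (k₀ + c.n) (by omega) (by omega)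
      rw [hper] at this
      exact Set.disjoint_left.1 hdis hk₀ this
  have h2 : k₀ < hi' := by
    by_contra hcon
    rcases Nat.eq_or_lt_of_le (Nat.le_of_not_lt hcon) with e | e
    · rw [← e, P.hhi] at hk₀
      exact pvgz_verts_not_int hT g.c g.m hk₀
    · exact Set.disjoint_left.1 hdis hk₀ (P.out k₀ e (by omega))
  exact ⟨lo', hi', P, h1, h2, hhin⟩

/-- **RIM ⟹ STATE, positions** (no marks): a black rim which starts off the closed inside of `S₂`, visits the open inside of `S₁` at `k₀ < c.n`, was off the closed inside of `S₂` at `j₀ ≤ k₀` and does not visit `v₂⁺` between `j₀` and `k₀`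
runs through `S₂` along the inner arc of the state -/
theorem pvkv_rim_pos (hT : T.IsSph) (hS : T.Simple) {κ : Type} {mk : V → κ} {𝔯 : PvspReg κ} {𝔖 : PvspSt T s} (hA : 𝔖.At mk 𝔯) (hin : 𝔖.g1.c.Left ⊆ 𝔖.g2.c.Left)
    (hf2 : 𝔖.g2.c.Left.Finite) {c : T.Cyc} (hc : c.IsRim s) (hb : ∀ k, s (T.src (c.e k)) = true) (h0 : T.src (c.e 0) ∉ T.VOf 𝔖.g2.c.Left)
    {k₀ j₀ : ℕ} (hk₀n : k₀ < c.n) (hk₀ : T.src (c.e k₀) ∈ T.Int 𝔖.g1.c.Left) (hj₀ : j₀ ≤ k₀) (hj₀o : T.src (c.e j₀) ∉ T.VOf 𝔖.g2.c.Left)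
    (hdir : ∀ k, j₀ ≤ k → k < k₀ → T.src (c.e k) ≠ 𝔖.g2.vp) :
    ∃ lo, lo + 𝔖.inn.n < c.n ∧ 𝔖.g2.Pass c lo (lo + 𝔖.inn.n) ∧ 𝔖.g1.Pass c (lo + 𝔖.im) (lo + 𝔖.ip) ∧ (∀ i, i < 𝔖.inn.n → 𝔖.inn.e i = c.e (lo + i)) ∧
      (∀ i, i ≤ 𝔖.inn.n → 𝔖.inn.v i = T.src (c.e (lo + i))) ∧ lo + 𝔖.im < k₀ ∧ k₀ < lo + 𝔖.ip ∧
      (∀ k, lo + 𝔖.im ≤ k → k < lo + 𝔖.ip → c.e k ∈ 𝔖.g1.c.Left ∧ T.opp (c.e k) ∈ 𝔖.g1.c.Left) ∧ ∀ k, k < lo → T.src (c.e k) ∈ T.Int 𝔖.g2.c.Right := by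
  have hn := pl_cyc_pos c
  have hper : ∀ k, T.src (c.e (k + c.n)) = T.src (c.e k) := fun k => by rw [c.per]
  have hk2 : T.src (c.e k₀) ∈ T.Int 𝔖.g2.c.Left := fun d hd => hin (hk₀ d hd)
  have h01 : T.src (c.e 0) ∉ T.VOf 𝔖.g1.c.Left := fun ⟨d, hd, e⟩ => h0 ⟨d, hin hd, e⟩
  have hR : ∀ g : T.Gate s, T.src (c.e 0) ∉ T.VOf g.c.Left → T.src (c.e 0) ∈ T.Int g.c.Right := by
    intro g hg d hd
    rw [(pl_jordan hT g.c).1]
    exact fun hdl => hg ⟨d, hdl, hd⟩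
  -- the passage of `S₂`
  obtain ⟨lo, hi, P2, l1, l2, l3⟩ : ∃ lo hi, 𝔖.g2.Pass c lo hi ∧ lo < k₀ ∧ k₀ < hi ∧ hi < c.n := by
    rcases pvgz_pass hT 𝔖.g2 c hb ⟨k₀, rfl⟩ ⟨0, rfl⟩ hk2 (hR _ h0) with ⟨lo, hi, P⟩ | ⟨lo, hi, P⟩
    · exact pvkv_pass_norm hT 𝔖.g2 P h0 hk₀n hk2
    · exfalso
      obtain ⟨lo', hi', P', a1, a2, -⟩ := pvkv_pass_norm hT 𝔖.g2.swap P (by rw [pvgz_swap_left hT]; exact h0) hk₀n (by rw [pvgz_swap_left hT]; exact hk2)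
      have a3 : j₀ ≤ lo' := by
        by_contra hcon
        have := pvkv_pass_vof hT 𝔖.g2.swap P' (k := j₀) (by omega) (by omega)
        rw [pvgz_swap_left hT] at this
        exact hj₀o this
      exact hdir lo' a3 a1 (by rw [P'.hlo, pvgz_swap_vm])
  obtain ⟨-, hle⟩ := pvgz_pass_rim_le hT hS 𝔖.g2 hf2 hc (hb 0) P2
  obtain ⟨u1, u2, u3⟩ := pvt_sd_unique hS hA.arc hle
  rw [pvgz_pass_n 𝔖.g2 P2] at u1
  have hhi : hi = lo + 𝔖.inn.n := by have := P2.lt; omega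
  subst hhi
  have uv : ∀ i, i ≤ 𝔖.inn.n → 𝔖.inn.v i = T.src (c.e (lo + i)) := u2
  have ue : ∀ i, i < 𝔖.inn.n → 𝔖.inn.e i = c.e (lo + i) := u3
  have a1 := hA.im_lt
  have a2 := hA.ip_le
  -- the passage of `S₁`
  obtain ⟨lo₁, hi₁, P1, m1, m2, m3⟩ : ∃ lo₁ hi₁, 𝔖.g1.Pass c lo₁ hi₁ ∧ lo₁ < k₀ ∧ k₀ < hi₁ ∧ hi₁ < c.n := by
    rcases pvgz_pass hT 𝔖.g1 c hb ⟨k₀, rfl⟩ ⟨0, rfl⟩ hk₀ (hR _ h01) with ⟨lo₁, hi₁, P⟩ | ⟨lo₁, hi₁, P⟩
    · exact pvkv_pass_norm hT 𝔖.g1 P h01 hk₀n hk₀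
    · exfalso
      obtain ⟨lo', hi', P', b1, b2, b3⟩ := pvkv_pass_norm hT 𝔖.g1.swap P (by rw [pvgz_swap_left hT]; exact h01) hk₀n (by rw [pvgz_swap_left hT]; exact hk₀)
      have e1 : lo' = lo + 𝔖.ip := c.inj _ _ (by omega) (by omega) (by rw [P'.hlo, pvgz_swap_vm, ← hA.ip_eq, uv _ a2])
      have e2 : hi' = lo + 𝔖.im := c.inj _ _ b3 (by omega) (by rw [P'.hhi, pvgz_swap_vp, ← hA.im_eq, uv _ (by omega)])
      omega
  have e1 : lo₁ = lo + 𝔖.im := c.inj _ _ (by omega) (by omega) (by rw [P1.hlo, ← hA.im_eq, uv _ (by omega)])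
  have e2 : hi₁ = lo + 𝔖.ip := c.inj _ _ m3 (by omega) (by rw [P1.hhi, ← hA.ip_eq, uv _ a2])
  subst e1 e2
  refine ⟨lo, l3, P2, P1, ue, uv, m1, m2, ?_, ?_⟩
  · intro k k1 k2
    have hp := pvgz_pass_psg hT 𝔖.g1 hb P1
    have := hp.ins (k - (lo + 𝔖.im)) (by rw [pvgz_pass_n 𝔖.g1 P1]; omega)
    have e : (c.pth (lo + 𝔖.im) (lo + 𝔖.ip - (lo + 𝔖.im))).e (k - (lo + 𝔖.im)) = c.e k := by
      show c.e (lo + 𝔖.im + (k - (lo + 𝔖.im))) = c.e k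
      congr 1
      omega
    rwa [e] at this
  · intro k hk
    have := P2.out (k + c.n) (by omega) (by omega)
    rwa [hper] at this

open Classical in
/-- the arithmetic of the cut point: the tags before the gate do not count, the tags between `k₀` and the marked vertex all count and telescope -/
theorem pvkv_sum_core {c : T.Cyc} {p : T.Pth} {lo k₀ ip : ℕ} (mk : V → ℂ) (In : D → Prop) (w : D → ℂ) (hip : ip ≤ p.n) (ue : ∀ i, i < p.n → p.e i = c.e (lo + i))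
    (uv : ∀ i, i ≤ p.n → p.v i = T.src (c.e (lo + i))) (h1 : lo ≤ k₀) (h2 : k₀ ≤ lo + ip) (hlo : ∀ k, k < lo → ¬ In (T.opp (c.e k)))
    (hin : ∀ k, k₀ ≤ k → k < lo + ip → In (T.opp (c.e k)) ∧ w (T.opp (c.e k)) = mk (T.src (c.e (k + 1))) - mk (T.src (c.e k))) :
    mk (T.src (c.e k₀)) - ∑ k ∈ (Finset.range k₀).filter (fun k => In (T.opp (c.e k))), w (T.opp (c.e k)) =
      mk (p.v ip) - ∑ i ∈ (Finset.range ip).filter (fun i => In (T.opp (p.e i))), w (T.opp (p.e i)) := by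
  obtain ⟨a, rfl⟩ := Nat.exists_eq_add_of_le h1
  obtain ⟨b, rfl⟩ : ∃ b, ip = a + b := ⟨ip - a, by omega⟩
  rw [Finset.sum_filter, Finset.sum_filter, Finset.sum_range_add, Finset.sum_range_add]
  have z1 : ∑ k ∈ Finset.range lo, (if In (T.opp (c.e k)) then w (T.opp (c.e k)) else 0) = 0 :=
    Finset.sum_eq_zero fun k hk => if_neg (hlo k (Finset.mem_range.1 hk))
  have z2 : ∑ x ∈ Finset.range a, (if In (T.opp (p.e x)) then w (T.opp (p.e x)) else 0) = ∑ x ∈ Finset.range a, (if In (T.opp (c.e (lo + x))) then w (T.opp (c.e (lo + x))) else 0) :=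
    Finset.sum_congr rfl fun x hx => by rw [ue x (by have := Finset.mem_range.1 hx; omega)]
  have z3 : ∑ x ∈ Finset.range b, (if In (T.opp (p.e (a + x))) then w (T.opp (p.e (a + x))) else 0) =
      ∑ x ∈ Finset.range b, (mk (T.src (c.e (lo + a + (x + 1)))) - mk (T.src (c.e (lo + a + x)))) :=
    Finset.sum_congr rfl fun x hx => by
      have hx' := Finset.mem_range.1 hx
      obtain ⟨i1, i2⟩ := hin (lo + a + x) (by omega) (by omega)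
      rw [ue (a + x) (by omega), ← Nat.add_assoc, if_pos i1, i2]
      rfl
  rw [z1, z2, z3, Finset.sum_range_sub (fun x => mk (T.src (c.e (lo + a + x)))), uv _ hip, ← Nat.add_assoc]
  simp only [Nat.add_zero]
  ring

open Classical in
/-- **map level, v2** (260: `pvgz_pass`, `pvgz_pass_shift`, `pvgz_pass_trap`, `pvgz_pass_rim_le`; 97: `pvsq_pass_at`, `pvsq_pass_VOf`, `pvsq_out_not_VOf`; 216: `pvt_sd_unique`).
`c` a rim of colour `true`, cut at a vertex off the closed inside of `S₂`;  `𝔖` the state;  `k₀ < c.n` an index whose vertex is marked in `I1`;  SENSE: backwards from `k₀` the rim runs in the tube `Nm` up to a vertex `j₀` off the closed inside of `S₂`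
(v1 was FALSE: a rim which runs `v₂⁺ → v₂⁻` reads the other bank);  `zD xD` = tag point and `V`-value of a dart (`pvdcZ`, `pvdcV` of 195), honest inside `S₂`;  a tag of the rim in `B` sits at a vertex marked in `I2`;  the faces inside `S₁` have their barycentre in `B`.
PROOF. (1) `k₀` is strictly inside both gates, `0` strictly outside: `pvgz_pass` for `g2`; normalise `0 < lo₂ < k₀ < hi₂ < c.n`.  (2) `j₀ < lo₂ ≤ k₀`, so `c lo₂` is marked in `Nm`; in the swapped sense it is `g2.vp`, marked in `Np`, hence in `I2`, hence strictly inside: absurd.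
(3) `pvgz_pass_rim_le` + `pvt_sd_unique`: `𝔖.inn = c[lo₂, hi₂]`.  (4) the same for `g1`: `lo₂ < lo₁ < k₀ < hi₁ < hi₂`, sense by `im < ip`; `hi₁ = lo₂ + ip`.  (5) no tag in `B` before `lo₂` (TRAP), all the tags of `[k₀, hi₁)` in `B`, telescoping. -/
theorem pvkv_rim_cut (hT : T.IsSph) (hS : T.Simple) {mk : V → ℂ} {𝔯 : PvspReg ℂ} {𝔖 : PvspSt T s} (hA : 𝔖.At mk 𝔯)
    (hI : 𝔯 .I1 ⊆ 𝔯 .O1) (h12 : 𝔯 .O1 ⊆ 𝔯 .I2) (hd : ∀ v, mk v ∈ 𝔯 .Np → mk v ∈ 𝔯 .Nm → mk v ∈ 𝔯 .I2)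
    (hf1 : 𝔖.g1.c.Left.Finite) (hf2 : 𝔖.g2.c.Left.Finite) {c : T.Cyc} (hc : c.IsRim s) (hb : s (T.src (c.e 0)) = true) {B : Set ℂ} (zD xD : D → ℂ)
    (hzx : ∀ d ∈ 𝔖.g2.c.Left, zD d = T.bary mk d ∧ xD d = T.side mk d)
    (hB2 : ∀ k, zD (T.opp (c.e k)) ∈ B → mk (T.src (c.e k)) ∈ 𝔯 .I2) (hB1 : ∀ d ∈ 𝔖.g1.c.Left, T.bary mk d ∈ B)
    {k₀ j₀ : ℕ} (hk₀ : mk (T.src (c.e k₀)) ∈ 𝔯 .I1) (hk₀n : k₀ < c.n) (h0 : T.src (c.e 0) ∉ T.VOf 𝔖.g2.c.Left)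
    (hj₀ : j₀ ≤ k₀) (hj₀o : T.src (c.e j₀) ∉ T.VOf 𝔖.g2.c.Left) (hNm : ∀ i, j₀ ≤ i → i ≤ k₀ → T.src (c.e i) ∈ T.VOf 𝔖.g2.c.Left → mk (T.src (c.e i)) ∈ 𝔯 .Nm) :
    mk (T.src (c.e k₀)) - ∑ k ∈ (Finset.range k₀).filter (fun k => zD (T.opp (c.e k)) ∈ B), xD (T.opp (c.e k)) = 𝔖.cut mk B := by
  have hb' : ∀ k, s (T.src (c.e k)) = true := fun k => (pl_rim_col hc k 0).trans hb
  have hint2 : ∀ v, mk v ∈ 𝔯 .I2 → v ∈ T.Int 𝔖.g2.c.Left := fun v hv d hd => hA.sel2.inner (Or.inl (by rw [hd]; exact hv))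
  have hint1 : ∀ v, mk v ∈ 𝔯 .I1 → v ∈ T.Int 𝔖.g1.c.Left := fun v hv d hd => hA.sel1.inner (Or.inl (by rw [hd]; exact hv))
  have hin : 𝔖.g1.c.Left ⊆ 𝔖.g2.c.Left := fun d hd => hA.sel2.inner (by
    rcases hA.sel1.outer hd with h | h | h
    · exact Or.inl (h12 h)
    · exact Or.inr (Or.inl (h12 h))
    · exact Or.inr (Or.inr (h12 h)))
  have hdir : ∀ k, j₀ ≤ k → k < k₀ → T.src (c.e k) ≠ 𝔖.g2.vp := by
    intro k k1 k2 e
    have h1 := hNm k k1 k2.le (by rw [e]; exact ⟨_, hA.sel2.on 𝔖.g2.m, rfl⟩)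
    rw [e] at h1
    exact pvgz_verts_not_int hT 𝔖.g2.c 𝔖.g2.m (hint2 _ (hd _ hA.vp h1))
  obtain ⟨lo, q1, P2, P1, ue, uv, q2, q3, q4, q5⟩ := pvkv_rim_pos hT hS hA hin hf2 hc hb' h0 hk₀n (hint1 _ hk₀) hj₀ hj₀o hdir
  have hp2 := pvgz_pass_psg hT 𝔖.g2 hb' P2
  have hL2 : ∀ i, i < 𝔖.inn.n → T.opp (𝔖.inn.e i) ∈ 𝔖.g2.c.Left := by
    intro i hi
    have := (hp2.ins i (by rw [pvgz_pass_n 𝔖.g2 P2]; omega)).2
    rw [ue i hi]
    exact this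
  have hcut : 𝔖.cut mk B = mk (𝔖.inn.v 𝔖.ip) - ∑ i ∈ (Finset.range 𝔖.ip).filter (fun i => zD (T.opp (𝔖.inn.e i)) ∈ B), xD (T.opp (𝔖.inn.e i)) := by
    unfold PvspSt.cut
    rw [Finset.sum_filter, Finset.sum_filter]
    congr 1
    refine Finset.sum_congr rfl fun i hi => ?_
    obtain ⟨e1, e2⟩ := hzx _ (hL2 i (lt_of_lt_of_le (Finset.mem_range.1 hi) hA.ip_le))
    rw [e1, e2]
  rw [hcut]
  refine pvkv_sum_core mk (fun d => zD d ∈ B) xD hA.ip_le ue uv (by omega) q3.le ?_ ?_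
  · intro k hk hB
    exact Set.disjoint_left.1 (pl_jordan_vert_disj hT 𝔖.g2.c).2.2 (hint2 _ (hB2 k hB)) (q5 k hk)
  · intro k k1 k2
    have h1 := (q4 k (by omega) k2).2
    obtain ⟨e1, e2⟩ := hzx _ (hin h1)
    refine ⟨by show zD _ ∈ B; rw [e1]; exact hB1 _ h1, ?_⟩
    rw [e2]
    unfold PvMap.side
    rw [T.src_opp', T.tgt_opp, c.chain]

/-- the faces of a completion with a vertex in the zone of agreement are Delaunay triangles, their tags are honest -/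
theorem pvkv_face {X : Type} {𝔅 : PvBulk X} {Y K : Set ℂ} {zi : ℂ} (hok : 𝔅.Ok Y K) (hzi : zi ∉ K) {d : 𝔅.D Y} (hd : d ∈ pvplB (𝔅.T Y) fun v => 𝔅.posF Y zi v ∈ K) :
    DelTri Y (𝔅.posF Y zi ((𝔅.T Y).src d)) (𝔅.posF Y zi ((𝔅.T Y).tgt d)) (𝔅.posF Y zi ((𝔅.T Y).apex d)) ∧
      pvdcZ 𝔅 Y zi d = (𝔅.T Y).bary (𝔅.posF Y zi) d ∧ pvdcV 𝔅 Y d = (𝔅.T Y).side (𝔅.posF Y zi) d := by
  classical
  have hin : ∀ v, 𝔅.posF Y zi v ∈ K → ∃ a, 𝔅.lab Y v = Sum.inl a ∧ a ∈ K := by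
    intro v hv
    rcases hl : 𝔅.lab Y v with a | q
    · refine ⟨a, rfl, ?_⟩
      rwa [l9_posF_inl 𝔅 hl] at hv
    · exfalso
      have : 𝔅.posF Y zi v = zi := by unfold PvBulk.posF; rw [hl]; rfl
      rw [this] at hv
      exact hzi hv
  have key : ∃ a b c, 𝔅.lab Y ((𝔅.T Y).src d) = Sum.inl a ∧ 𝔅.lab Y ((𝔅.T Y).tgt d) = Sum.inl b ∧ 𝔅.lab Y ((𝔅.T Y).apex d) = Sum.inl c := by
    rcases hd with h | h | h
    · obtain ⟨a, ha, haK⟩ := hin _ h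
      obtain ⟨b, c, hb, hc, -⟩ := hok.del d a ha haK
      exact ⟨a, b, c, ha, hb, hc⟩
    · obtain ⟨a, ha, haK⟩ := hin _ h
      obtain ⟨b, c, hb, hc, -⟩ := hok.del ((𝔅.T Y).nxt d) a ha haK
      rw [(𝔅.T Y).tgt_nxt] at hb
      rw [(𝔅.T Y).apex_nxt] at hc
      exact ⟨c, a, b, hc, ha, hb⟩
    · obtain ⟨a, ha, haK⟩ := hin _ h
      obtain ⟨b, c, hb, hc, -⟩ := hok.del ((𝔅.T Y).nxt ((𝔅.T Y).nxt d)) a ha haK
      rw [(𝔅.T Y).tgt_nxt2] at hb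
      rw [(𝔅.T Y).apex_nxt2] at hc
      exact ⟨b, c, a, hb, hc, ha⟩
  obtain ⟨a, b, c, ha, hb, hc⟩ := key
  have hE : 𝔅.Emb Y d := ⟨a, b, c, ha, hb, hc⟩
  refine ⟨?_, ?_, ?_⟩
  · rw [l9_posF_inl 𝔅 ha, l9_posF_inl 𝔅 hb, l9_posF_inl 𝔅 hc]
    exact hok.emb d a b c ha hb hc
  · unfold pvdcZ
    rw [if_pos hE]
    unfold PvMap.bary
    rw [l9_pos_inl 𝔅 ha, l9_pos_inl 𝔅 hb, l9_pos_inl 𝔅 hc, l9_posF_inl 𝔅 ha, l9_posF_inl 𝔅 hb, l9_posF_inl 𝔅 hc]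
  · unfold pvdcV
    rw [if_pos hE]
    unfold PvMap.side
    rw [l9_pos_inl 𝔅 ha, l9_pos_inl 𝔅 hb, l9_posF_inl 𝔅 ha, l9_posF_inl 𝔅 hb]

/-- a Delaunay triangle with a vertex in the core of the mesh window is small -/
theorem pvkv_small {Y E : Set ℂ} {ρ : ℝ} (hρ : 0 < ρ) (hm : PvtrMesh ρ E Y) {a b c : ℂ} (h : DelTri Y a b c)
    (ha : a ∈ pvtrCore (3 * ρ) E ∨ b ∈ pvtrCore (3 * ρ) E ∨ c ∈ pvtrCore (3 * ρ) E) : ‖b - a‖ ≤ 2 * ρ ∧ ‖c - a‖ ≤ 2 * ρ ∧ ‖c - b‖ ≤ 2 * ρ := by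
  have key : PvRet ρ E Y a b c := by
    rcases ha with ha | ha | ha
    · exact pvtr_of_mesh_vertex hρ hm ha h
    · exact (pvtr_of_mesh_vertex hρ hm ha (del_tri_cyc h)).cyc.cyc
    · exact (pvtr_of_mesh_vertex hρ hm ha (del_tri_cyc (del_tri_cyc h))).cyc
  refine ⟨?_, ?_, ?_⟩
  · rw [norm_sub_rev]; exact key.side_le
  · exact key.cyc.cyc.side_le
  · rw [norm_sub_rev]; exact key.cyc.side_le

/-- a tag point of a completion in the core of the mesh window belongs to an embedded small Delaunay triangle (`Ok.emb`, `pvtr_of_mesh_hull`) -/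
theorem pvkv_tag {X : Type} {𝔅 : PvBulk X} {Y K E : Set ℂ} {zi : ℂ} {ρ : ℝ} (hρ : 0 < ρ) (hok : 𝔅.Ok Y K) (hm : PvtrMesh ρ E Y) (hzi : zi ∉ pvtrCore (3 * ρ) E)
    {d : 𝔅.D Y} (hd : pvdcZ 𝔅 Y zi d ∈ pvtrCore (3 * ρ) E) :
    ‖𝔅.posF Y zi ((𝔅.T Y).src d) - pvdcZ 𝔅 Y zi d‖ ≤ 2 * ρ ∧ ‖𝔅.posF Y zi ((𝔅.T Y).tgt d) - pvdcZ 𝔅 Y zi d‖ ≤ 2 * ρ ∧ ‖𝔅.posF Y zi ((𝔅.T Y).apex d) - pvdcZ 𝔅 Y zi d‖ ≤ 2 * ρ := by
  classical
  by_cases hE : 𝔅.Emb Y d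
  · obtain ⟨a, b, c, ha, hb, hc⟩ := hE
    have hE : 𝔅.Emb Y d := ⟨a, b, c, ha, hb, hc⟩
    have hz : pvdcZ 𝔅 Y zi d = (a + b + c) / 3 := by
      unfold pvdcZ
      rw [if_pos hE]
      unfold PvMap.bary
      rw [l9_pos_inl 𝔅 ha, l9_pos_inl 𝔅 hb, l9_pos_inl 𝔅 hc]
    rw [hz] at hd ⊢
    have hD := hok.emb d a b c ha hb hc
    have hull : (a + b + c) / 3 ∈ convexHull ℝ ({a, b, c} : Set ℂ) := by
      have hcv := convex_convexHull ℝ ({a, b, c} : Set ℂ)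
      have ma : a ∈ convexHull ℝ ({a, b, c} : Set ℂ) := subset_convexHull ℝ _ (by simp)
      have mb : b ∈ convexHull ℝ ({a, b, c} : Set ℂ) := subset_convexHull ℝ _ (by simp)
      have mc : c ∈ convexHull ℝ ({a, b, c} : Set ℂ) := subset_convexHull ℝ _ (by simp)
      have m1 : (1 / 2 : ℝ) • b + (1 / 2 : ℝ) • c ∈ convexHull ℝ ({a, b, c} : Set ℂ) := hcv mb mc (by norm_num) (by norm_num) (by norm_num)
      have m2 : (1 / 3 : ℝ) • a + (2 / 3 : ℝ) • ((1 / 2 : ℝ) • b + (1 / 2 : ℝ) • c) ∈ convexHull ℝ ({a, b, c} : Set ℂ) :=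
        hcv ma m1 (by norm_num) (by norm_num) (by norm_num)
      convert m2 using 1
      simp only [Complex.real_smul]
      push_cast
      ring
    have hR := pvtr_of_mesh_hull hρ hm hd hD hull
    have hdisc := pvtr_hull_disc hD.left.ne' hull
    have hv := pvtr_vertices_disc (a := a) (b := b) (c := c) hD.left.ne'
    have hr := hR.rad_le
    have gen : ∀ w ∈ ({a, b, c} : Set ℂ), ‖w - (a + b + c) / 3‖ ≤ 2 * ρ := by
      intro w hw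
      have h1 := hv hw
      rw [mem_closedBall, dist_eq_norm] at h1 hdisc
      calc ‖w - (a + b + c) / 3‖ = ‖(w - delO a b c) - ((a + b + c) / 3 - delO a b c)‖ := by congr 1; ring
        _ ≤ ‖w - delO a b c‖ + ‖(a + b + c) / 3 - delO a b c‖ := norm_sub_le _ _
        _ ≤ 2 * ρ := by linarith
    rw [l9_posF_inl 𝔅 ha, l9_posF_inl 𝔅 hb, l9_posF_inl 𝔅 hc]
    exact ⟨gen a (by simp), gen b (by simp), gen c (by simp)⟩
  · exfalso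
    unfold pvdcZ at hd
    rw [if_neg hE] at hd
    exact hzi hd

/-- an encoded rim is periodic -/
theorem pvkv_off {x : ℂ} {R : ℝ} {η : Conf PvPt} {P : PvbRim} (hP : P ∈ pvdaAll x R η) {S : Set ℂ} (h : ∀ j ≤ P.len, P.v j ∉ S) : ∀ j, P.v j ∉ S := by
  obtain ⟨X, hX, 𝔅, ξ, -, -, c, -, -, rfl⟩ := pvda_all_mem hP
  intro j
  have e : (𝔅.enc (cfSites η) (x + 7 * R) c).v j = (𝔅.enc (cfSites η) (x + 7 * R) c).v (j % c.n) := by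
    rw [pvdc_enc_v, pvdc_enc_v, pl_cyc_mod]
  rw [e]
  exact h _ (Nat.mod_lt _ (pl_cyc_pos c)).le

variable {τ : Type}

/-- what the numbers, the placed geometry and the exact fit owe for the cut point -/
structure PvkvWf (𝔐 : PvspMod τ) (Mn : PvbMenu τ) (h : ℝ) (x : ℂ) (R : ℝ) (z : ℂ) (t : τ) : Prop where
  R0 : 0 < R
  wf : (𝔐.ty h z t).Wf 𝔐.N z h
  mu1 : 2 * 𝔐.N.mu ≤ 1
  /-- the gate `S₁` lies in the cut-off ball, the cut-off ball inside the gate `S₂`, with room for the mesh -/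
  mc_lo : (𝔐.ty h z t).b 𝔐.N 0 + 2 * 𝔐.N.mu ≤ Mn.mc t
  mc_hi : Mn.mc t + 2 * 𝔐.N.mu ≤ (𝔐.ty h z t).a 𝔐.N 1
  a1 : 1 ≤ (𝔐.ty h z t).a 𝔐.N 0
  /-- the third gate gives the TRAP of the menu -/
  a3 : Mn.a3 t ≤ (𝔐.ty h z t).a 𝔐.N 2
  L : (𝔐.ty h z t).b 𝔐.N 2 + 𝔐.N.mu ≤ Mn.L
  /-- the region of the state lies in the patch -/
  patch : closedBall z (((𝔐.ty h z t).rO 𝔐.N + 1) * h) ⊆ closedBall x (3 * R)
  /-- SENSE (FIT-IN backward, `pvmh_in_Nm` of 8 + the door `Dm` lies off the star zone of `S₂`) -/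
  sense : ∀ (P : PvbRim) (k : ℕ), 𝔐.Fit h P k z t → ∃ j ≤ k, P.v j ∉ closedBall z (((𝔐.ty h z t).b 𝔐.N 1 + 1) * h) ∧ ∀ i, j ≤ i → i ≤ k → P.v i ∈ (𝔐.ty h z t).Nm
  /-- the rim misses the strip (`pvmh_miss` of 8) -/
  miss : ∀ (P : PvbRim) (k : ℕ), 𝔐.Fit h P k z t → ∀ j ≤ P.len, P.v j ∉ pvspJ (𝔐.ty h z t)

/-! ### helpers of `pvkv_act` (48) -/

theorem pvkv_bar_mem (a b c : ℂ) : (a + b + c) / 3 ∈ convexHull ℝ ({a, b, c} : Set ℂ) := by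
  have hc := convex_convexHull ℝ ({a, b, c} : Set ℂ)
  have ha : a ∈ convexHull ℝ ({a, b, c} : Set ℂ) := subset_convexHull ℝ _ (by simp)
  have hb : b ∈ convexHull ℝ ({a, b, c} : Set ℂ) := subset_convexHull ℝ _ (by simp)
  have hcc : c ∈ convexHull ℝ ({a, b, c} : Set ℂ) := subset_convexHull ℝ _ (by simp)
  have h1 : (1 / 2 : ℝ) • a + (1 / 2 : ℝ) • b ∈ convexHull ℝ ({a, b, c} : Set ℂ) := hc ha hb (by norm_num) (by norm_num) (by norm_num)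
  have h2 : (2 / 3 : ℝ) • ((1 / 2 : ℝ) • a + (1 / 2 : ℝ) • b) + (1 / 3 : ℝ) • c ∈ convexHull ℝ ({a, b, c} : Set ℂ) :=
    hc h1 hcc (by norm_num) (by norm_num) (by norm_num)
  have e : (2 / 3 : ℝ) • ((1 / 2 : ℝ) • a + (1 / 2 : ℝ) • b) + (1 / 3 : ℝ) • c = (a + b + c) / 3 := by
    simp only [Complex.real_smul]; push_cast; ring
  rwa [e] at h2

/-- the barycentre of a retained triangle is close to its first vertex -/
theorem pvkv_ret_bary {ρ : ℝ} {E Y : Set ℂ} {a b c : ℂ} (h : PvRet ρ E Y a b c) : ‖(a + b + c) / 3 - a‖ ≤ 2 * ρ := by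
  have h1 : ‖a - b‖ ≤ 2 * ρ := h.side_le
  have h2 : ‖c - a‖ ≤ 2 * ρ := h.cyc.cyc.side_le
  have e : (a + b + c) / 3 - a = (1 / 3 : ℂ) * ((c - a) - (a - b)) := by ring
  have h3 : ‖(c - a) - (a - b)‖ ≤ ‖c - a‖ + ‖a - b‖ := norm_sub_le _ _
  have h4 : ‖(1 / 3 : ℂ)‖ = 1 / 3 := by norm_num
  rw [e, norm_mul, h4]
  have := norm_nonneg (a - b)
  linarith

theorem pvkv_posF_inl {X : Type} (𝔅 : PvBulk X) {Y : Set ℂ} (zi : ℂ) {v : 𝔅.V Y} {p : ℂ} (h : 𝔅.lab Y v = Sum.inl p) : 𝔅.posF Y zi v = p := by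
  unfold PvBulk.posF; rw [h]; rfl

theorem pvkv_pos_inl {X : Type} (𝔅 : PvBulk X) {Y : Set ℂ} {v : 𝔅.V Y} {p : ℂ} (h : 𝔅.lab Y v = Sum.inl p) : 𝔅.pos Y v = p := by
  unfold PvBulk.pos; rw [h]; rfl

/-- position with a far point = position + (`0` or the far point) -/
theorem pvkv_posF_cases {X : Type} (𝔅 : PvBulk X) {Y : Set ℂ} (zi : ℂ) (v : 𝔅.V Y) :
    (∃ p, 𝔅.lab Y v = Sum.inl p ∧ 𝔅.posF Y zi v = 𝔅.pos Y v + (0 : ℝ) * zi) ∨ ((∀ p, 𝔅.lab Y v ≠ Sum.inl p) ∧ 𝔅.posF Y zi v = 𝔅.pos Y v + (1 : ℝ) * zi) := by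
  rcases hl : 𝔅.lab Y v with p | q
  · left
    refine ⟨p, rfl, ?_⟩
    rw [pvkv_posF_inl 𝔅 zi hl, pvkv_pos_inl 𝔅 hl]; simp
  · right
    refine ⟨fun p hp => by simp at hp, ?_⟩
    unfold PvBulk.posF PvBulk.pos
    rw [hl]; simp

/-- **a far point**: in a finite completion the extra vertices may be placed so far that no face with an extra vertex has its barycentre in a given ball -/
theorem pvkv_far {X : Type} (𝔅 : PvBulk X) {Y : Set ℂ} (hfin : Finite (𝔅.D Y)) (z : ℂ) (r : ℝ) :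
    ∃ zi : ℂ, r < ‖zi - z‖ ∧ ∀ d : 𝔅.D Y, ¬ 𝔅.Emb Y d → r < ‖(𝔅.T Y).bary (𝔅.posF Y zi) d - z‖ := by
  obtain ⟨M, hM⟩ := (Set.finite_range fun d : 𝔅.D Y => ‖𝔅.pos Y ((𝔅.T Y).src d) + 𝔅.pos Y ((𝔅.T Y).tgt d) + 𝔅.pos Y ((𝔅.T Y).apex d)‖).bddAbove
  have hM' : ∀ d : 𝔅.D Y, ‖𝔅.pos Y ((𝔅.T Y).src d) + 𝔅.pos Y ((𝔅.T Y).tgt d) + 𝔅.pos Y ((𝔅.T Y).apex d)‖ ≤ M := fun d => hM ⟨d, rfl⟩
  set L : ℝ := 3 * (|r| + ‖z‖) + |M| + 1 with hL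
  have hL0 : 0 ≤ L := by positivity
  have hnL : ‖(L : ℂ)‖ = L := by rw [Complex.norm_real, Real.norm_of_nonneg hL0]
  have hz0 := norm_nonneg z
  refine ⟨(L : ℂ), ?_, fun d hd => ?_⟩
  · have h1 : ‖(L : ℂ)‖ ≤ ‖(L : ℂ) - z‖ + ‖z‖ := by
      have := norm_add_le ((L : ℂ) - z) z
      rwa [sub_add_cancel] at this
    rw [hnL] at h1
    have := le_abs_self r
    have := abs_nonneg M
    have := abs_nonneg r
    linarith
  · obtain ⟨m, hm1, hm⟩ : ∃ m : ℝ, 1 ≤ m ∧ (𝔅.T Y).bary (𝔅.posF Y (L : ℂ)) d =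
        ((𝔅.pos Y ((𝔅.T Y).src d) + 𝔅.pos Y ((𝔅.T Y).tgt d) + 𝔅.pos Y ((𝔅.T Y).apex d)) + (m : ℂ) * (L : ℂ)) / 3 := by
      unfold PvMap.bary
      rcases pvkv_posF_cases 𝔅 (L : ℂ) ((𝔅.T Y).src d) with ⟨p1, l1, e1⟩ | ⟨l1, e1⟩ <;>
      rcases pvkv_posF_cases 𝔅 (L : ℂ) ((𝔅.T Y).tgt d) with ⟨p2, l2, e2⟩ | ⟨l2, e2⟩ <;>
      rcases pvkv_posF_cases 𝔅 (L : ℂ) ((𝔅.T Y).apex d) with ⟨p3, l3, e3⟩ | ⟨l3, e3⟩
      · exact absurd ⟨p1, p2, p3, l1, l2, l3⟩ hd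
      · exact ⟨0 + 0 + 1, by norm_num, by rw [e1, e2, e3]; push_cast; ring⟩
      · exact ⟨0 + 1 + 0, by norm_num, by rw [e1, e2, e3]; push_cast; ring⟩
      · exact ⟨0 + 1 + 1, by norm_num, by rw [e1, e2, e3]; push_cast; ring⟩
      · exact ⟨1 + 0 + 0, by norm_num, by rw [e1, e2, e3]; push_cast; ring⟩
      · exact ⟨1 + 0 + 1, by norm_num, by rw [e1, e2, e3]; push_cast; ring⟩
      · exact ⟨1 + 1 + 0, by norm_num, by rw [e1, e2, e3]; push_cast; ring⟩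
      · exact ⟨1 + 1 + 1, by norm_num, by rw [e1, e2, e3]; push_cast; ring⟩
    rw [hm]
    set S := 𝔅.pos Y ((𝔅.T Y).src d) + 𝔅.pos Y ((𝔅.T Y).tgt d) + 𝔅.pos Y ((𝔅.T Y).apex d) with hS
    have hSM : ‖S‖ ≤ M := hM' d
    have e : (m : ℂ) * (L : ℂ) = 3 * ((S + (m : ℂ) * (L : ℂ)) / 3 - z) + (3 * z - S) := by ring
    have h1 : ‖(m : ℂ) * (L : ℂ)‖ ≤ 3 * ‖(S + (m : ℂ) * (L : ℂ)) / 3 - z‖ + (3 * ‖z‖ + ‖S‖) := by
      calc ‖(m : ℂ) * (L : ℂ)‖ = ‖3 * ((S + (m : ℂ) * (L : ℂ)) / 3 - z) + (3 * z - S)‖ := by rw [← e]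
        _ ≤ ‖3 * ((S + (m : ℂ) * (L : ℂ)) / 3 - z)‖ + ‖3 * z - S‖ := norm_add_le _ _
        _ ≤ 3 * ‖(S + (m : ℂ) * (L : ℂ)) / 3 - z‖ + (3 * ‖z‖ + ‖S‖) := by
          have a1 : ‖3 * ((S + (m : ℂ) * (L : ℂ)) / 3 - z)‖ = 3 * ‖(S + (m : ℂ) * (L : ℂ)) / 3 - z‖ := by rw [norm_mul]; norm_num
          have a2 : ‖3 * z - S‖ ≤ ‖3 * z‖ + ‖S‖ := norm_sub_le _ _
          have a3 : ‖3 * z‖ = 3 * ‖z‖ := by rw [norm_mul]; norm_num
          linarith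
    have h2 : ‖(m : ℂ) * (L : ℂ)‖ = m * L := by rw [norm_mul, hnL, Complex.norm_real, Real.norm_of_nonneg (by linarith)]
    have h3 : L ≤ m * L := by nlinarith
    have := le_abs_self r
    have := le_abs_self M
    have := abs_nonneg r
    linarith

theorem pvkv_rim_S {V D : Type} {T : PvMap V D} {c : T.Cyc} (b : Bool) (s : V → Bool) : c.IsRim (pvspS b s) ↔ c.IsRim s := by
  cases b
  · have e : pvspS false s = pvasNot s := by funext v; unfold pvspS pvasNot; cases s v <;> rfl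
    rw [e]; exact pvlf_rim_not
  · have e : pvspS true s = s := by funext v; unfold pvspS; cases s v <;> rfl
    rw [e]

/-- **ACT for `V`, v2** (`ν`-level, no kernel): every reaching rim of ANY completion of `ζ`, of the colour of the type, which comes within `h` of the centre at the index `k` and runs backwards in the tube `Nm` up to a vertex off the star zone of `S₂`,
reads the cut point of the state of `ζ`.      PROOF: `pvda_all_mem`; `pvsp_evt_dict` on THIS completion (`delb_ok_mono`, patch) gives the state `𝔖`; `pvkv_C0_eq`; `pvkv_rim_cut` with `s := pvspS col (𝔅.col ζ ξ)` (`pvlf_rim_not`), `zD := pvdcZ`, `xD := pvdcV`,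
`hzx` by `pvkv_face`, `hB2` by `pvkv_tag`, `hB1` by `pvkv_face` + `pvkv_small`, `h0` `hj₀o` by `pvsp_zone`. -/
theorem pvkv_act (𝔐 : PvspMod τ) (Mn : PvbMenu τ) {h : ℝ} {x : ℂ} {R : ℝ} {z : ℂ} {t : τ} (W : PvkvWf 𝔐 Mn h x R z t) {ζ : Conf PvPt}
    (hζ : ζ ∈ pvspEvt 𝔐.N (𝔐.ty h z t) z h .has) {P : PvbRim} (hP : P ∈ pvdaAll x R ζ) {k : ℕ} (hk : k < P.len) (hn : ‖P.v k - z‖ ≤ h) (hcol : cfCol ζ (P.v k) = (𝔐.ty h z t).col)
    {j : ℕ} (hj : j ≤ k) (hjo : P.v j ∉ closedBall z (((𝔐.ty h z t).b 𝔐.N 1 + 1) * h)) (hNm : ∀ i, j ≤ i → i ≤ k → P.v i ∈ (𝔐.ty h z t).Nm) :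
    pvkvC Mn h P ⟨k, z, t⟩ = pvkvC0 𝔐.N (𝔐.ty h z t) z h (Mn.mc t) ζ := by
  classical
  obtain ⟨X, hX, 𝔅, ξ, hAdm, hOk, c, hc, h4, rfl⟩ := pvda_all_mem hP
  have hW := W.wf
  have h0 := hW.h0
  have mu0 := hW.mu0
  have hR := W.R0
  have hρ := hW.rho0
  obtain ⟨n1, n2, n3, n4⟩ := hW.nest
  -- the numbers
  have hab1 : (𝔐.ty h z t).a 𝔐.N 1 ≤ (𝔐.ty h z t).b 𝔐.N 1 := hW.ab' 1
  have hmc0 : 0 < Mn.mc t := by have := Mn.mc_gt t; linarith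
  have hmcb : Mn.mc t ≤ (𝔐.ty h z t).b 𝔐.N 1 := by have := W.mc_hi; linarith
  have hbO : (𝔐.ty h z t).b 𝔐.N 1 + 1 ≤ (𝔐.ty h z t).rO 𝔐.N + 1 := by have := hW.rO; linarith
  have hb1 : 0 ≤ (𝔐.ty h z t).b 𝔐.N 1 := by linarith
  -- balls
  have hS2x : (𝔐.ty h z t).reg 𝔐.N z h .S2 ⊆ closedBall x (3 * R) :=
    (closedBall_subset_closedBall (mul_le_mul_of_nonneg_right hbO h0.le)).trans W.patch
  have hBS2 : closedBall z (Mn.mc t * h) ⊆ (𝔐.ty h z t).reg 𝔐.N z h .S2 :=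
    closedBall_subset_closedBall (mul_le_mul_of_nonneg_right (by linarith) h0.le)
  have h36 : closedBall x (3 * R) ⊆ closedBall x (6 * R) := closedBall_subset_closedBall (by linarith)
  have h7 : x + 7 * R ∉ closedBall x (3 * R) := by
    rw [mem_closedBall, dist_eq_norm]
    have : ‖x + 7 * (R : ℂ) - x‖ = 7 * R := by
      have e : x + 7 * (R : ℂ) - x = ((7 * R : ℝ) : ℂ) := by push_cast; ring
      rw [e, Complex.norm_real, Real.norm_of_nonneg (by linarith)]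
    rw [this]; linarith
  -- the far point
  obtain ⟨zi, hzi1, hzi2⟩ := pvkv_far 𝔅 hAdm.2 z (((𝔐.ty h z t).b 𝔐.N 1 + 1) * h)
  have hziS2 : zi ∉ (𝔐.ty h z t).reg 𝔐.N z h .S2 := fun hc => by
    have : ‖zi - z‖ ≤ ((𝔐.ty h z t).b 𝔐.N 1 + 1) * h := mem_closedBall_iff_norm.1 hc
    linarith
  have hok : 𝔅.Ok (cfSites ζ) ((𝔐.ty h z t).reg 𝔐.N z h .S2) := delb_ok_mono (hS2x.trans h36) hOk
  obtain ⟨hfin, hm, hst, 𝔖, hA, -⟩ := (pvsp_evt_dict hW .has 𝔅 ζ ξ hok hziS2).1 hζ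
  have hm' : PvtrMesh (𝔐.N.mu * h) (pvspO 𝔐.N (𝔐.ty h z t) z h) (cfSites ζ) := hm
  have hIs : PvkvIs 𝔐.N (𝔐.ty h z t) z h (Mn.mc t) ζ (𝔖.cut (𝔅.posF _ zi) (closedBall z (Mn.mc t * h))) (𝔅.posF _ zi (𝔖.inn.v 0)) :=
    ⟨X, 𝔅, ξ, zi, hok, hziS2, hst, 𝔖, hA, rfl, rfl⟩
  rw [(pvkv_C0_eq hW hm' hIs).1]
  -- a vertex marked in `S₂` is a site
  have hsite : ∀ (w : ℂ) (v : 𝔅.V (cfSites ζ)), w ∉ (𝔐.ty h z t).reg 𝔐.N z h .S2 → 𝔅.posF _ w v ∈ (𝔐.ty h z t).reg 𝔐.N z h .S2 → 𝔅.lab _ v = Sum.inl (𝔅.posF _ w v) := by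
    intro w v hw hv
    rcases hl : 𝔅.lab _ v with p | q
    · rw [pvkv_posF_inl 𝔅 w hl]
    · exfalso
      apply hw
      have : 𝔅.posF _ w v = w := by unfold PvBulk.posF; rw [hl]; rfl
      rwa [this] at hv
  have h7S2 : x + 7 * (R : ℂ) ∉ (𝔐.ty h z t).reg 𝔐.N z h .S2 := fun hc => h7 (hS2x hc)
  -- the vertex number `k`
  have hkS2 : 𝔅.posF _ (x + 7 * R) ((𝔅.T _).src (c.e k)) ∈ (𝔐.ty h z t).reg 𝔐.N z h .S2 := by
    refine mem_closedBall_iff_norm.2 (hn.trans ?_)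
    nlinarith
  have hlk := hsite _ _ h7S2 hkS2
  have hvk : 𝔅.posF _ zi ((𝔅.T _).src (c.e k)) = 𝔅.posF _ (x + 7 * R) ((𝔅.T _).src (c.e k)) := pvkv_posF_inl 𝔅 zi hlk
  -- embedded faces
  have hemb : ∀ d : 𝔅.D (cfSites ζ), 𝔅.Emb _ d → (𝔅.T _).bary (𝔅.posF _ zi) d = (𝔅.T _).bary (𝔅.pos _) d ∧ (𝔅.T _).side (𝔅.posF _ zi) d = (𝔅.T _).side (𝔅.pos _) d := by
    intro d hd
    obtain ⟨l1, l2, l3⟩ := delb_emb_lab 𝔅 hd
    unfold PvMap.bary PvMap.side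
    rw [pvkv_posF_inl 𝔅 zi l1, pvkv_posF_inl 𝔅 zi l2, pvkv_posF_inl 𝔅 zi l3]
    exact ⟨rfl, rfl⟩
  have hnemb : ∀ d : 𝔅.D (cfSites ζ), (𝔅.T _).bary (𝔅.posF _ zi) d ∈ closedBall z (Mn.mc t * h) → 𝔅.Emb _ d := by
    intro d hd
    by_contra hne
    have h1 := hzi2 d hne
    have h2 : ‖(𝔅.T _).bary (𝔅.posF _ zi) d - z‖ ≤ ((𝔐.ty h z t).b 𝔐.N 1 + 1) * h := mem_closedBall_iff_norm.1 (hBS2 hd)
    linarith
  -- the hypotheses of the map level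
  have hc' : c.IsRim (pvspS (𝔐.ty h z t).col (𝔅.col ζ ξ)) := (pvkv_rim_S _ _).2 hc
  have hb : ∀ j, pvspS (𝔐.ty h z t).col (𝔅.col ζ ξ) ((𝔅.T _).src (c.e j)) = true := by
    intro j
    have e1 : 𝔅.col ζ ξ ((𝔅.T _).src (c.e j)) = 𝔅.col ζ ξ ((𝔅.T _).src (c.e k)) := pl_rim_col hc j k
    have e2 : 𝔅.col ζ ξ ((𝔅.T _).src (c.e k)) = cfCol ζ (𝔅.posF _ (x + 7 * R) ((𝔅.T _).src (c.e k))) := by
      unfold PvBulk.col; rw [hlk]; rfl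
    have e3 : cfCol ζ (𝔅.posF _ (x + 7 * R) ((𝔅.T _).src (c.e k))) = (𝔐.ty h z t).col := hcol
    unfold pvspS
    rw [e1, e2, e3]
    exact beq_self_eq_true _
  have hB2 : ∀ d : 𝔅.D (cfSites ζ), (𝔅.T _).bary (𝔅.posF _ zi) d ∈ closedBall z (Mn.mc t * h) → 𝔅.posF _ zi ((𝔅.T _).src d) ∈ (𝔐.ty h z t).reg 𝔐.N z h .I2 := by
    intro d hd
    have hE := hnemb d hd
    obtain ⟨l1, l2, l3⟩ := delb_emb_lab 𝔅 hE
    have htri := delb_tri hOk hE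
    rw [(hemb d hE).1] at hd
    have hret := pvtr_of_mesh_hull hρ hm' (hW.S2_core (hBS2 hd)) htri (pvkv_bar_mem _ _ _)
    have h1 := pvkv_ret_bary hret
    have h2 : ‖(𝔅.T _).bary (𝔅.pos _) d - z‖ ≤ Mn.mc t * h := mem_closedBall_iff_norm.1 hd
    rw [pvkv_posF_inl 𝔅 zi l1]
    refine mem_closedBall_iff_norm.2 ?_
    have h3 : ‖𝔅.pos _ ((𝔅.T _).src d) - z‖ ≤ ‖(𝔅.T _).bary (𝔅.pos _) d - z‖ + ‖(𝔅.T _).bary (𝔅.pos _) d - 𝔅.pos _ ((𝔅.T _).src d)‖ := by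
      have e : 𝔅.pos _ ((𝔅.T _).src d) - z = ((𝔅.T _).bary (𝔅.pos _) d - z) - ((𝔅.T _).bary (𝔅.pos _) d - 𝔅.pos _ ((𝔅.T _).src d)) := by ring
      rw [e]; exact norm_sub_le _ _
    have h4 : ‖(𝔅.T _).bary (𝔅.pos _) d - 𝔅.pos _ ((𝔅.T _).src d)‖ ≤ 2 * (𝔐.N.mu * h) := h1
    have h5 := W.mc_hi
    nlinarith
  have hB1 : ∀ d : 𝔅.D (cfSites ζ), 𝔅.posF _ zi ((𝔅.T _).src d) ∈ (𝔐.ty h z t).reg 𝔐.N z h .O1 → (𝔅.T _).bary (𝔅.posF _ zi) d ∈ closedBall z (Mn.mc t * h) := by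
    intro d hd
    have hS2 := n4 (n2 hd)
    have l1 := hsite _ _ hziS2 hS2
    obtain ⟨b', c', l2, l3, htri⟩ := hok.del d _ l1 hS2
    have hret := pvtr_of_mesh_vertex hρ hm' (hW.S2_core hS2) htri
    have h1 := pvkv_ret_bary hret
    have e : (𝔅.T _).bary (𝔅.posF _ zi) d = (𝔅.posF _ zi ((𝔅.T _).src d) + b' + c') / 3 := by
      unfold PvMap.bary
      rw [pvkv_posF_inl 𝔅 zi l2, pvkv_posF_inl 𝔅 zi l3]
    rw [e]
    refine mem_closedBall_iff_norm.2 ?_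
    have h2 : ‖𝔅.posF _ zi ((𝔅.T _).src d) - z‖ ≤ (𝔐.ty h z t).b 𝔐.N 0 * h := mem_closedBall_iff_norm.1 hd
    have h3 : ‖(𝔅.posF _ zi ((𝔅.T _).src d) + b' + c') / 3 - z‖ ≤ ‖(𝔅.posF _ zi ((𝔅.T _).src d) + b' + c') / 3 - 𝔅.posF _ zi ((𝔅.T _).src d)‖ + ‖𝔅.posF _ zi ((𝔅.T _).src d) - z‖ := by
      have e : (𝔅.posF _ zi ((𝔅.T _).src d) + b' + c') / 3 - z = ((𝔅.posF _ zi ((𝔅.T _).src d) + b' + c') / 3 - 𝔅.posF _ zi ((𝔅.T _).src d)) + (𝔅.posF _ zi ((𝔅.T _).src d) - z) := by ring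
      rw [e]; exact norm_add_le _ _
    have h5 := W.mc_lo
    nlinarith
  have hk0 : 𝔅.posF _ zi ((𝔅.T _).src (c.e k)) ∈ (𝔐.ty h z t).reg 𝔐.N z h .I1 := by
    rw [hvk]
    refine mem_closedBall_iff_norm.2 (hn.trans ?_)
    have := W.a1
    nlinarith
  have hzone : ∀ v ∈ (𝔅.T _).VOf 𝔖.g2.c.Left, 𝔅.posF _ zi v ∈ (𝔐.ty h z t).reg 𝔐.N z h .S2 := by
    rintro v ⟨d, hd, rfl⟩
    exact (pvsp_zone hst (fun k hk => n4 hk) (hA.sel2.outer hd)).1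
  have hsame : ∀ v ∈ (𝔅.T _).VOf 𝔖.g2.c.Left, 𝔅.posF _ (x + 7 * R) v = 𝔅.posF _ zi v := fun v hv =>
    pvkv_posF_inl 𝔅 (x + 7 * R) (hsite _ _ hziS2 (hzone v hv))
  have h00 : (𝔅.T _).src (c.e 0) ∉ (𝔅.T _).VOf 𝔖.g2.c.Left := by
    intro hcon
    rw [hsame _ hcon] at h4
    have : ‖𝔅.posF _ zi ((𝔅.T _).src (c.e 0)) - x‖ ≤ 3 * R := mem_closedBall_iff_norm.1 (hS2x (hzone _ hcon))
    linarith
  have hj0 : (𝔅.T _).src (c.e j) ∉ (𝔅.T _).VOf 𝔖.g2.c.Left := by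
    intro hcon
    apply hjo
    show 𝔅.posF _ (x + 7 * R) ((𝔅.T _).src (c.e j)) ∈ _
    rw [hsame _ hcon]
    exact hzone _ hcon
  have hNm' : ∀ i, j ≤ i → i ≤ k → (𝔅.T _).src (c.e i) ∈ (𝔅.T _).VOf 𝔖.g2.c.Left → 𝔅.posF _ zi ((𝔅.T _).src (c.e i)) ∈ (𝔐.ty h z t).reg 𝔐.N z h .Nm := by
    intro i h1 h2 h3
    rw [← hsame _ h3]
    exact hNm i h1 h2
  have hbn : ∀ d : 𝔅.D (cfSites ζ), (𝔅.T _).bary (𝔅.posF _ zi) ((𝔅.T _).nxt d) = (𝔅.T _).bary (𝔅.posF _ zi) d := by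
    intro d
    unfold PvMap.bary
    rw [(𝔅.T _).src_nxt, (𝔅.T _).tgt_nxt, (𝔅.T _).apex_nxt]
    ring
  have hB2' : ∀ k', (𝔅.T _).bary (𝔅.posF _ zi) ((𝔅.T _).opp (c.e k')) ∈ closedBall z (Mn.mc t * h) → 𝔅.posF _ zi ((𝔅.T _).src (c.e k')) ∈ (𝔐.ty h z t).reg 𝔐.N z h .I2 := by
    intro k' hk'
    have := hB2 ((𝔅.T _).nxt ((𝔅.T _).opp (c.e k'))) (by rw [hbn]; exact hk')
    rwa [(𝔅.T _).src_nxt, (𝔅.T _).tgt_opp] at this
  have hB1' : ∀ d ∈ 𝔖.g1.c.Left, (𝔅.T _).bary (𝔅.posF _ zi) d ∈ closedBall z (Mn.mc t * h) := by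
    intro d hd
    rcases hA.sel1.outer hd with h1 | h1 | h1
    · exact hB1 d h1
    · have := hB1 ((𝔅.T _).nxt d) (by rw [(𝔅.T _).src_nxt]; exact h1)
      rwa [hbn] at this
    · have := hB1 ((𝔅.T _).nxt ((𝔅.T _).nxt d)) (by rw [(𝔅.T _).src_nxt, (𝔅.T _).tgt_nxt]; exact h1)
      rwa [hbn, hbn] at this
  have h12 : (𝔐.ty h z t).reg 𝔐.N z h .O1 ⊆ (𝔐.ty h z t).reg 𝔐.N z h .I2 :=
    closedBall_subset_closedBall (mul_le_mul_of_nonneg_right (by have := W.mc_lo; have := W.mc_hi; linarith) h0.le)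
  have : Finite (𝔅.D (cfSites ζ)) := hAdm.2
  have hcut := pvkv_rim_cut hOk.sph hOk.simple hA n1 h12 (fun v h1 h2 => hW.tubes ⟨h1, h2⟩) (Set.toFinite _) (Set.toFinite _) hc' (hb 0)
    ((𝔅.T _).bary (𝔅.posF _ zi)) ((𝔅.T _).side (𝔅.posF _ zi)) (fun _ _ => ⟨rfl, rfl⟩) hB2' hB1' hk0 hk h00 hj hj0 hNm'
  rw [← hcut]
  unfold pvkvC
  show 𝔅.posF _ (x + 7 * R) ((𝔅.T _).src (c.e k)) - _ = _
  rw [hvk]
  congr 1
  have hfil : ∀ j, PvbInCut Mn h z t ((𝔅.enc (cfSites ζ) (x + 7 * R) c).z j) ↔ (𝔅.T _).bary (𝔅.posF _ zi) ((𝔅.T _).opp (c.e j)) ∈ closedBall z (Mn.mc t * h) := by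
    intro j
    by_cases hE : 𝔅.Emb _ ((𝔅.T _).opp (c.e j))
    · have e : (𝔅.enc (cfSites ζ) (x + 7 * R) c).z j = (𝔅.T _).bary (𝔅.pos _) ((𝔅.T _).opp (c.e j)) := if_pos hE
      rw [e, (hemb _ hE).1]
      exact mem_closedBall_iff_norm.symm
    · have e : (𝔅.enc (cfSites ζ) (x + 7 * R) c).z j = x + 7 * R := if_neg hE
      rw [e]
      constructor
      · intro hin
        exact absurd (hBS2 (mem_closedBall_iff_norm.2 hin)) h7S2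
      · intro hin
        exact absurd (hnemb _ hin) hE
  rw [Finset.filter_congr (fun j _ => hfil j)]
  refine Finset.sum_congr rfl fun j hj => ?_
  have hE := hnemb _ (Finset.mem_filter.1 hj).2
  have e : (𝔅.enc (cfSites ζ) (x + 7 * R) c).xV j = (𝔅.T _).side (𝔅.pos _) ((𝔅.T _).opp (c.e j)) := if_pos hE
  rw [e, (hemb _ hE).2]

/-- **field `stabV`** = `pvkv_act ∘ pvsb_move` (212) -/
theorem pvkv_stabV (𝔐 : PvspMod τ) (Mn : PvbMenu τ) {ε h : ℝ} {x : ℂ} {R : ℝ} {ω : PVSample} {P : PvbRim} (hP : P ∈ pvdaAll x R (pvConf ω)) {s : PvbPin τ}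
    (hs : s ∈ pvspPins 𝔐 ε h x R ω P) (W : PvkvWf 𝔐 Mn h x R s.ctr s.typ) (hp : 0 < 𝔐.N.pst)
    {B : Finset ℂ} (hB : B ∈ (𝔐.K h s.ctr s.typ).I (pvConf ω)) (hw : (𝔐.K h s.ctr s.typ).wt (pvConf ω) B ≠ 0)
    (hG : (𝔐.K h s.ctr s.typ).mv (pvConf ω) B ∈ 𝔐.G ε h s.ctr s.typ) :
    pvkvC Mn h P s = pvkvC0 𝔐.N (𝔐.ty h s.ctr s.typ) s.ctr h (Mn.mc s.typ) ((𝔐.K h s.ctr s.typ).mv (pvConf ω) B) := by
  obtain ⟨ok, hidx, hnear, hcol, hgates, hpass, hfit, hhg, -⟩ := hs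
  have hoff : ∀ j, P.v j ∉ pvspJ (𝔐.ty h s.ctr s.typ) := pvkv_off hP (W.miss P s.idx hfit)
  obtain ⟨j, hj, hjo, hNm⟩ := W.sense P s.idx hfit
  have hW := W.wf
  have hR := W.R0
  have hN : CfNice (pvspJ (𝔐.ty h s.ctr s.typ)) (pvConf ω) :=
    pvp_nice (pvqu_ok_of (g := pvGeoOf ω) (c := pvColOf ω) ok) (pvsp_J_bdd hW) (pvColOf ω)
  have hkx : ‖P.v s.idx - x‖ ≤ 6 * R := by
    have h1 : P.v s.idx ∈ closedBall s.ctr (((𝔐.ty h s.ctr s.typ).rO 𝔐.N + 1) * h) := by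
      rw [mem_closedBall_iff_norm]
      have h2 := hW.rO
      have h3 := hW.mu0
      have h4 := hW.h0
      have h5 : (𝔐.ty h s.ctr s.typ).rO 𝔐.N = 2 * (𝔐.ty h s.ctr s.typ).b 𝔐.N 1 := rfl
      have h6 : 0 ≤ (𝔐.ty h s.ctr s.typ).rO 𝔐.N := by linarith
      nlinarith
    have h2 := W.patch h1
    rw [mem_closedBall_iff_norm] at h2
    linarith
  have hmv := pvsb_move (S := pvspJ (𝔐.ty h s.ctr s.typ)) (b := !(𝔐.ty h s.ctr s.typ).col) (B := B) hR hN (pvsp_lane_inc 𝔐.N (𝔐.ty h s.ctr s.typ) h)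
    (lt_of_lt_of_le hp hhg) (Finset.mem_powerset.1 hB) hw hP hkx (by rw [Bool.not_not]; exact hcol) hoff
  exact pvkv_act 𝔐 Mn W (ζ := (𝔐.K h s.ctr s.typ).mv (pvConf ω) B) hG.1.1 hmv.1 hidx hnear
    ((pvsb_col_off (S := pvspJ (𝔐.ty h s.ctr s.typ)) (hoff s.idx)).trans hcol) hj hjo hNm

/-- a qualified pin has the mesh of its region (a move of positive weight lands in `G`; the moves do not touch the sites) -/
theorem pvkv_mesh_pin (𝔐 : PvspMod τ) {ε h : ℝ} {x : ℂ} {R : ℝ} {ω : PVSample} {P : PvbRim} {s : PvbPin τ} (hs : s ∈ pvspPins 𝔐 ε h x R ω P) :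
    PvtrMesh (𝔐.N.mu * h) (pvspO 𝔐.N (𝔐.ty h s.ctr s.typ) s.ctr h) (cfSites (pvConf ω)) := by
  classical
  have hg := hs.gam
  have hex : ∃ B ∈ (𝔐.K h s.ctr s.typ).I (pvConf ω), (𝔐.K h s.ctr s.typ).mv (pvConf ω) B ∈ 𝔐.G ε h s.ctr s.typ := by
    by_contra hn
    push Not at hn
    have h0 : (𝔐.K h s.ctr s.typ).gam (𝔐.G ε h s.ctr s.typ) (pvConf ω) = 0 := by
      unfold PvrpK.gam
      refine Finset.sum_eq_zero fun B hB => ?_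
      rw [Set.indicator_of_notMem (hn B hB), mul_zero]
    rw [h0] at hg
    norm_num at hg
  obtain ⟨B, -, hB⟩ := hex
  have h1 := hB.1.1.2.1
  have e : cfSites ((𝔐.K h s.ctr s.typ).mv (pvConf ω) B) = cfSites (pvConf ω) := cfPaint_sites _ _ _ _
  rw [e] at h1
  exact h1

/-- a qualified pin is a pin of the menu, DETERMINISTICALLY (third gate of `PvdiGates`: `visit 2`, `diam 2`) -/
theorem pvkv_isPin (𝔐 : PvspMod τ) (Mn : PvbMenu τ) {ε h : ℝ} {x : ℂ} {R : ℝ} {ω : PVSample} {P : PvbRim} {s : PvbPin τ} (hs : s ∈ pvspPins 𝔐 ε h x R ω P)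
    (W : PvkvWf 𝔐 Mn h x R s.ctr s.typ) : PvbIsPin Mn h P s := by
  obtain ⟨lo, hi, H⟩ := hs.pass
  have h0 := W.wf.h0
  have ha : Mn.a3 s.typ * h ≤ 𝔐.N.a 2 * h := mul_le_mul_of_nonneg_right W.a3 h0.le
  have hb : 𝔐.N.b 2 * h + 𝔐.N.mu * h ≤ Mn.L * h := by
    have := mul_le_mul_of_nonneg_right W.L h0.le
    have e : ((𝔐.ty h s.ctr s.typ).b 𝔐.N 2 + 𝔐.N.mu) * h = 𝔐.N.b 2 * h + 𝔐.N.mu * h := by
      show (𝔐.N.b 2 + 𝔐.N.mu) * h = _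
      ring
    rwa [e] at this
  exact H.isPin Mn 2 s.typ hs.near ha hb

/-- the tags of the rim in the cut-off ball of a qualified pin are within `h` of their vertices (`pvkv_mesh_pin`, `pvkv_tag`) -/
theorem pvkv_tag_pin (𝔐 : PvspMod τ) (Mn : PvbMenu τ) {ε h : ℝ} {x : ℂ} {R : ℝ} {ω : PVSample} {P : PvbRim} (hP : P ∈ pvdaAll x R (pvConf ω)) {s : PvbPin τ} (hs : s ∈ pvspPins 𝔐 ε h x R ω P)
    (W : PvkvWf 𝔐 Mn h x R s.ctr s.typ) : ∀ k < P.len, PvbInCut Mn h s.ctr s.typ (P.z k) → ‖P.z k - P.v k‖ ≤ h := by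
  intro k hk hc
  have hm := pvkv_mesh_pin 𝔐 hs
  obtain ⟨X, hX, 𝔅, ξ, -, hOk, c, -, -, rfl⟩ := pvda_all_mem hP
  have hW := W.wf
  have h0 := hW.h0
  have mu0 := hW.mu0
  have hR := W.R0
  have hρ : 0 < 𝔐.N.mu * h := mul_pos mu0 h0
  have hsub : pvtrCore (3 * (𝔐.N.mu * h)) (pvspO 𝔐.N (𝔐.ty h s.ctr s.typ) s.ctr h) ⊆ closedBall x (3 * R) := by
    intro w hw
    have h1 : w ∈ pvspO 𝔐.N (𝔐.ty h s.ctr s.typ) s.ctr h := pvtr_core_subset (by positivity) hw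
    refine W.patch (closedBall_subset_closedBall ?_ h1)
    nlinarith
  have hzi : x + 7 * (R : ℂ) ∉ pvtrCore (3 * (𝔐.N.mu * h)) (pvspO 𝔐.N (𝔐.ty h s.ctr s.typ) s.ctr h) := by
    intro hw
    have h1 := hsub hw
    rw [mem_closedBall_iff_norm] at h1
    have h2 : ‖x + 7 * (R : ℂ) - x‖ = 7 * R := by
      have : x + 7 * (R : ℂ) - x = ((7 * R : ℝ) : ℂ) := by push_cast; ring
      rw [this, Complex.norm_real, Real.norm_of_nonneg (by positivity)]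
    rw [h2] at h1
    linarith
  have hc' : ‖(𝔅.enc (cfSites (pvConf ω)) (x + 7 * R) c).z k - s.ctr‖ ≤ Mn.mc s.typ * h := hc
  have hd : pvdcZ 𝔅 (cfSites (pvConf ω)) (x + 7 * R) ((𝔅.T (cfSites (pvConf ω))).opp (c.e k)) ∈ pvtrCore (3 * (𝔐.N.mu * h)) (pvspO 𝔐.N (𝔐.ty h s.ctr s.typ) s.ctr h) := by
    rw [pvdc_enc_z] at hc'
    intro w hw
    rw [mem_closedBall_iff_norm] at hw
    unfold pvspO
    rw [mem_closedBall_iff_norm]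
    have e1 : ‖w - s.ctr‖ ≤ ‖w - pvdcZ 𝔅 (cfSites (pvConf ω)) (x + 7 * R) ((𝔅.T (cfSites (pvConf ω))).opp (c.e k))‖
        + ‖pvdcZ 𝔅 (cfSites (pvConf ω)) (x + 7 * R) ((𝔅.T (cfSites (pvConf ω))).opp (c.e k)) - s.ctr‖ := by
      have := norm_add_le (w - pvdcZ 𝔅 (cfSites (pvConf ω)) (x + 7 * R) ((𝔅.T (cfSites (pvConf ω))).opp (c.e k)))
        (pvdcZ 𝔅 (cfSites (pvConf ω)) (x + 7 * R) ((𝔅.T (cfSites (pvConf ω))).opp (c.e k)) - s.ctr)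
      rwa [sub_add_sub_cancel] at this
    have a1 := W.mc_hi
    have a2 : (𝔐.ty h s.ctr s.typ).a 𝔐.N 1 ≤ (𝔐.ty h s.ctr s.typ).b 𝔐.N 1 := hW.ab' 1
    have a3 := hW.rO
    have a4 : (Mn.mc s.typ + 3 * 𝔐.N.mu) * h ≤ (𝔐.ty h s.ctr s.typ).rO 𝔐.N * h := mul_le_mul_of_nonneg_right (by linarith) h0.le
    nlinarith
  have ht := (pvkv_tag hρ hOk hm hzi hd).2.1
  rw [(𝔅.T (cfSites (pvConf ω))).tgt_opp] at ht
  rw [pvdc_enc_z, pvdc_enc_v, norm_sub_rev]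
  have a5 := W.mu1
  have a6 : 2 * (𝔐.N.mu * h) ≤ 1 * h := by
    have := mul_le_mul_of_nonneg_right a5 h0.le
    linarith
  linarith

/-- **field `telP`** at the model, DETERMINISTIC: two qualified pins of the patch, far apart, the arc between them in `clB(x,5R)` -/
theorem pvkv_telP (𝔐 : PvspMod τ) (Mn : PvbMenu τ) {ε h : ℝ} {x : ℂ} {R : ℝ} {ω : PVSample} {P : PvbRim} (hP : P ∈ pvdaAll x R (pvConf ω)) {s t : PvbPin τ}
    (hs : s ∈ pvspPins 𝔐 ε h x R ω P) (ht : t ∈ pvspPins 𝔐 ε h x R ω P) (Ws : PvkvWf 𝔐 Mn h x R s.ctr s.typ) (Wt : PvkvWf 𝔐 Mn h x R t.ctr t.typ) (hst : s.idx < t.idx)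
    (hfar : (4 * Mn.L + 2) * h < ‖s.ctr - t.ctr‖) (harc : ∀ k, s.idx ≤ k → k < t.idx → ‖P.v k - x‖ ≤ 5 * R) :
    pvbArcI Mn h P P.xV s t = pvkvC Mn h P t - pvkvC Mn h P s := by
  refine pvkv_tel (pvkv_isPin 𝔐 Mn hs Ws) (pvkv_isPin 𝔐 Mn ht Wt) hst Ws.wf.h0 le_rfl (pvkv_tag_pin 𝔐 Mn hP hs Ws) (pvkv_tag_pin 𝔐 Mn hP ht Wt) hfar ?_
  obtain ⟨X, hX, 𝔅, ξ, -, hOk, c, -, -, rfl⟩ := pvda_all_mem hP
  exact fun k h1 h2 => pvdc_enc_edge 𝔅 Ws.R0 hOk c k (harc k h1 h2)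

end act

/-! ## 5. `thickVν` -/

section thick

variable {Ω τ : Type}

/-- **field `thickVν`** from the thick bound for the entrance mass (58, `Tr/SysP.lean`, instance 2: weight `side`, deterministic mask `M⁻(τ)`) -/
theorem pvkv_thick (𝔐 : PvspMod τ) (Mn : PvbMenu τ) (Pr : ℝ → PvUp Ω) (cf : Ω → Conf PvPt) {h : ℝ} (h0 : 0 < h) {z zu : ℂ} {t : τ} (W : (𝔐.ty h z t).Wf 𝔐.N z h) {C1 C2 : ℝ} (hC1 : 0 ≤ C1)
    (hb : (𝔐.ty h z t).b 𝔐.N 1 + 1 ≤ C2) (hzu : ‖zu‖ ≤ C2 * h)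
    (hE : ∀ᶠ ε in 𝓝[>] (0 : ℝ), (Pr ε).E (fun o => (𝔐.G ε h z t).indicator (fun ζ => ‖pvkvE0 𝔐.N (𝔐.ty h z t) z h (Mn.mc t) ζ‖ₑ ^ 2) (cf o)) ≤ ENNReal.ofReal (C1 * h ^ 2)) :
    ∀ᶠ ε in 𝓝[>] (0 : ℝ), (Pr ε).E (fun o => (𝔐.G ε h z t).indicator (fun ζ => ‖pvkvC0 𝔐.N (𝔐.ty h z t) z h (Mn.mc t) ζ - z - zu‖ₑ ^ 2) (cf o))
      ≤ ENNReal.ofReal ((3 * C1 + 6 * C2 ^ 2) * h ^ 2) := by
  filter_upwards [hE] with ε hε
  have hpt : ∀ o, (𝔐.G ε h z t).indicator (fun ζ => ‖pvkvC0 𝔐.N (𝔐.ty h z t) z h (Mn.mc t) ζ - z - zu‖ₑ ^ 2) (cf o) ≤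
      3 * (𝔐.G ε h z t).indicator (fun ζ => ‖pvkvE0 𝔐.N (𝔐.ty h z t) z h (Mn.mc t) ζ‖ₑ ^ 2) (cf o) + ENNReal.ofReal (6 * C2 ^ 2 * h ^ 2) * 1 := by
    intro o
    by_cases ho : cf o ∈ 𝔐.G ε h z t
    · rw [indicator_of_mem ho, indicator_of_mem ho]
      have hm : PvtrMesh (𝔐.N.mu * h) (pvspO 𝔐.N (𝔐.ty h z t) z h) (cfSites (cf o)) := ho.1.1.2.1
      have hA := pvkv_A0_le (mc := Mn.mc t) W hm
      set c0 := pvkvC0 𝔐.N (𝔐.ty h z t) z h (Mn.mc t) (cf o) with hc0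
      set a0 := pvkvA0 𝔐.N (𝔐.ty h z t) z h (Mn.mc t) (cf o) with ha0
      have hE0 : pvkvE0 𝔐.N (𝔐.ty h z t) z h (Mn.mc t) (cf o) = c0 - a0 := rfl
      rw [hE0]
      have hA' : ‖a0 - z‖ ≤ C2 * h := hA.trans (mul_le_mul_of_nonneg_right hb h0.le)
      have h1 : ‖c0 - z - zu‖ ≤ ‖c0 - a0‖ + ‖a0 - z‖ + ‖zu‖ := by
        have e : c0 - z - zu = (c0 - a0) + (a0 - z) - zu := by ring
        rw [e]
        exact (norm_sub_le _ _).trans (add_le_add_left (norm_add_le _ _) _)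
      have h2 : ‖c0 - z - zu‖ ^ 2 ≤ 3 * ‖c0 - a0‖ ^ 2 + 6 * C2 ^ 2 * h ^ 2 := by
        have n0 := norm_nonneg (c0 - z - zu)
        have n1 := norm_nonneg (c0 - a0)
        have n2 := norm_nonneg (a0 - z)
        have n3 := norm_nonneg zu
        have s1 : ‖c0 - z - zu‖ ^ 2 ≤ (‖c0 - a0‖ + ‖a0 - z‖ + ‖zu‖) ^ 2 := pow_le_pow_left₀ n0 h1 2
        have s2 : ‖a0 - z‖ ^ 2 ≤ (C2 * h) ^ 2 := pow_le_pow_left₀ n2 hA' 2
        have s3 : ‖zu‖ ^ 2 ≤ (C2 * h) ^ 2 := pow_le_pow_left₀ n3 hzu 2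
        nlinarith [sq_nonneg (‖c0 - a0‖ - ‖a0 - z‖), sq_nonneg (‖c0 - a0‖ - ‖zu‖), sq_nonneg (‖a0 - z‖ - ‖zu‖)]
      have e1 : ∀ x : ℂ, ‖x‖ₑ ^ 2 = ENNReal.ofReal (‖x‖ ^ 2) := fun x => by
        rw [ENNReal.ofReal_pow (norm_nonneg _), ofReal_norm]
      rw [e1, e1, mul_one]
      have e3 : (3 : ENNReal) = ENNReal.ofReal 3 := by norm_num
      rw [e3, ← ENNReal.ofReal_mul (by norm_num), ← ENNReal.ofReal_add (by positivity) (by positivity)]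
      exact ENNReal.ofReal_le_ofReal h2
    · rw [indicator_of_notMem ho]
      exact zero_le
  refine ((Pr ε).mono hpt).trans (((Pr ε).add_le _ _).trans ?_)
  have a1 := (Pr ε).smul_le 3 (fun o => (𝔐.G ε h z t).indicator (fun ζ => ‖pvkvE0 𝔐.N (𝔐.ty h z t) z h (Mn.mc t) ζ‖ₑ ^ 2) (cf o)) (by norm_num)
  have a2 := (Pr ε).smul_le (ENNReal.ofReal (6 * C2 ^ 2 * h ^ 2)) (fun _ => 1) ENNReal.ofReal_ne_top
  have a3 : ENNReal.ofReal (6 * C2 ^ 2 * h ^ 2) * (Pr ε).E (fun _ => 1) ≤ ENNReal.ofReal (6 * C2 ^ 2 * h ^ 2) := by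
    calc _ ≤ ENNReal.ofReal (6 * C2 ^ 2 * h ^ 2) * 1 := by gcongr; exact (Pr ε).one_le
      _ = _ := mul_one _
  have a4 : (3 : ENNReal) * ENNReal.ofReal (C1 * h ^ 2) + ENNReal.ofReal (6 * C2 ^ 2 * h ^ 2) = ENNReal.ofReal ((3 * C1 + 6 * C2 ^ 2) * h ^ 2) := by
    have e3 : (3 : ENNReal) = ENNReal.ofReal 3 := by norm_num
    rw [e3, ← ENNReal.ofReal_mul (by norm_num), ← ENNReal.ofReal_add (by positivity) (by positivity)]
    congr 1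
    ring
  rw [← a4]
  exact add_le_add (a1.trans (by gcongr)) (a2.trans a3)

end thick

end Claimed.Agent.R289
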