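import Claimed.Agent.R289.Tr.CutP
import Claimed.Agent.R289.Tr.PinLocG
import Claimed.Agent.R289.Tr.SysP

/-!
# Row 289 (S0537, Cardy for Poisson-Voronoi), THE WALL, ROAD P, file Tr/CutT : `thickVν` BY THE TWO-PLUG TRICK; THE CUT POINT IS A MEASURABLE FUNCTION OF THE STATE      (pen helper263; prefix `pvvt_`, `pvvt`, `Pvvt`)
TEX: 03-plugs.tex (l.484-527: cutoff masses, conditional mean of the cutoff mass given the state), 04-affine.tex (thick links), 06-actual-arcs.tex (A4).      CONSUMER: `PvyaV 𝔓` of 58 (`Exit/AnaP.lean`) through `Exit/CutVP.lean`.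

WHY.   `thickVν` asks `E 1_G |cV0 - z - zu - kV|² ≤ C h²`.   A deterministic mask has TWO ends, so Bessel (`pvbe_in_V`) only bounds DIFFERENCES of cut points; there is no pathwise bound of the entrance mass `pvkvE0`.
The record leaves `kV m ε` FREE: on the SHORT cycle `t -b-> u -e-> t` of 58 take the field `X := C_t - C_u` (`C_t = cV0` = function of the state of `t`, `C_u` = cut point of the reference plug = function of the state of `u`).
Its mean given the state of `t` is `C_t - E[C_u | G_u]` (`pvvt_kin`), so TR5 (`pvsy_pin_last` of 95) gives   `∫_G |C_t - E[C_u | G_u]|² ≤ D_c ∫_{G ∩ cycle} |C_t - C_u|²`   (`pvvt_core`), and on the cycle event `C_t - C_u = V_λ(1_M)` (A4 + recognition), `≤ C_B |M|` by Bessel.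
* sec.1  `pvvtAv`, **`pvvt_kin`**, **`pvvt_core`** (generic `IsPpp`, cyclic list of two sectors).
* sec.2  the dart rules `pvvtRule 𝔯 c J` (`d` is the reversed dart number `i < ip`, `J ip i`, of the inner arc of THE state): `pvvt_rule_local`, `pvvt_rule_supp`, `pvvt_rule_sum`.
* sec.3  **`pvvt_rep`** : ONE measurable `F`, read from `O ×ˢ univ`, `= ` the cut point read on EVERY completion on the mesh event (field kit of 107);   `pvvt_rep_C0` : `F = pvkvC0` on `pvspEvt .has` at a good configuration.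
* sec.4  `PvvtThk`, **`pvvt_thick`** : the bound on `Conf PvPt` at one candidate of a datum `D : PvypDat τ`.
-/

set_option autoImplicit false
set_option linter.unusedSectionVars false
set_option linter.unusedVariables false

namespace Claimed.Agent.R289

open MeasureTheory Set Filter Topology Metric Claims.C0465
open scoped ENNReal

/-! ## 1. the two-plug trick -/

section core

variable {E : Type*} [MeasurableSpace E] {m : Measure E} {μ : Measure (Conf E)}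

/-- the mean of `C` over the usable states of the plug of the sector `a` -/
noncomputable def pvvtAv (a : PvsySec E) (μ : Measure (Conf E)) (C : Conf E → ℂ) : ℂ := ∫ η, C η ∂(μ.withDensity (a.g μ))

theorem pvvt_eqns_cite : True := by
  have := @pvvtAv.eq_1.{0}
  trivial

theorem pvvt_spl_spl (O0 O1 : Set E) (σ η ξ : Conf E) : Conf.spl O0 (σ, Conf.spl O1 (η, ξ)) = Conf.spl (O1 ∪ O0) (Conf.spl O0 (σ, η), ξ) := by
  ext p
  simp only [Conf.restr, Conf.spl, Conf.union, mem_inter_iff, mem_union, mem_compl_iff]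
  tauto

/-- **the mean of a difference of functions of the two states**: the state of `sec 1` is integrated, the weight of the connector has conditional mass one given the two states -/
theorem pvvt_kin (h : IsPpp m μ) {sec : ℕ → PvsySec E} (hS : PvsyCycWF μ 2 sec) {q : ℕ → ℝ≥0∞}
    (hF : PvsyCycForced μ 2 sec (Finset.Ioo 0 2) (Finset.range 2) q) {C0 C1 : Conf E → ℂ} (r0 : Conf.Reads (sec 0).O C0)
    (m1 : Measurable C1) (r1 : Conf.Reads (sec 1).O C1) (i1 : Integrable C1 (μ.withDensity ((sec 1).g μ))) :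
    ∀ᵐ σ ∂μ, σ ∈ (sec 0).G → (sec 1).kin (sec 0) μ (fun η => C0 η - C1 η) σ = C0 σ - pvvtAv (sec 1) μ C1 := by
  have := h.prob
  have mO0 := hS.mO 0 (by norm_num)
  have mO1 := hS.mO 1 (by norm_num)
  have mK1 := hS.mK 1 (by norm_num)
  have d01 : Disjoint (sec 1).O (sec 0).O := hS.dOO 1 (by norm_num) 0 (by norm_num) (by norm_num)
  have rA : Conf.ReadsSet ((sec 1).O ∪ (sec 0).O ∪ (sec 1).K) (sec 1).A := hS.rA 1 (by norm_num)
  have hfrc : ∀ᵐ σ ∂μ, σ ∈ (sec 1).G → σ ∈ (sec 0).G → q 1 ≤ pvtiP μ ((sec 1).O ∪ (sec 0).O) (sec 1).A σ := hF.frc 1 (by simp) (by norm_num)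
  have hq0 : q 1 ≠ 0 := hF.q_pos 1 (by simp) (by norm_num)
  have hG0 : μ (sec 1).G ≠ 0 := hF.G_pos 1 (by simp) (by norm_num)
  obtain ⟨G', hG1, hG2, hG3, hG4⟩ := pvsy_kern h mO1 (hS.mG 1 (by norm_num)) (hS.rG 1 (by norm_num))
  obtain ⟨A', hA1, hA2, hA3, hA4⟩ := pvsy_hull h ((mO1.union mO0).union mK1) (hS.mA 1 (by norm_num)) rA
  have mOO : MeasurableSet ((sec 1).O ∪ (sec 0).O) := mO1.union mO0
  let g' : Conf E → ℝ≥0∞ := fun η => G'.indicator 1 η / μ (sec 1).G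
  let P' : Conf E → ℝ≥0∞ := pvtiP μ ((sec 1).O ∪ (sec 0).O) A'
  let W' : Conf E → ℝ≥0∞ := fun η => g' η * (A'.indicator 1 η / P' η)
  have hg'm : Measurable g' := (measurable_one.indicator hG1).div_const _
  have hP'm : Measurable P' := pvti_P_measurable mOO hA1
  have hW'm : Measurable W' := hg'm.mul ((measurable_one.indicator hA1).div hP'm)
  have hg'r : Conf.Reads (sec 1).O g' := pvsy_sec_reads_g hG2 _
  have hP'r : Conf.Reads ((sec 1).O ∪ (sec 0).O) P' := pvti_P_reads μ _ A'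
  have hind : ∀ {B B' : Set (Conf E)}, B' =ᵐ[μ] B → ∀ᵐ η ∂μ, B'.indicator (1 : Conf E → ℝ≥0∞) η = B.indicator 1 η := by
    intro B B' hB
    filter_upwards [hB] with η hη
    have : η ∈ B' ↔ η ∈ B := iff_of_eq hη
    by_cases h1 : η ∈ B
    · rw [indicator_of_mem h1, indicator_of_mem (this.2 h1)]
    · rw [indicator_of_notMem h1, indicator_of_notMem (fun h2 => h1 (this.1 h2))]
  have hg'e : g' =ᵐ[μ] (sec 1).g μ := by
    filter_upwards [hind hG4] with η hη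
    show G'.indicator 1 η / μ (sec 1).G = (sec 1).G.indicator 1 η / μ (sec 1).G
    rw [hη]
  have hPe : P' =ᵐ[μ] pvtiP μ ((sec 1).O ∪ (sec 0).O) (sec 1).A := pvsy_P_congr h mOO hA4
  have hW'e : W' =ᵐ[μ] fun η => (sec 1).g μ η * (sec 1).w (sec 0) μ η := by
    filter_upwards [hg'e, hPe, hind hA4] with η h1 h2 h3
    show g' η * (A'.indicator 1 η / P' η) = (sec 1).g μ η * ((sec 1).A.indicator 1 η / pvtiP μ ((sec 1).O ∪ (sec 0).O) (sec 1).A η)
    rw [h1, h2, h3]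
  have hmean := pvsy_mean_congr h mO0 hW'e (Filter.EventuallyEq.refl _ (fun η => C0 η - C1 η))
  have hgood : ∀ᵐ τ ∂μ, τ ∈ G' → τ ∈ (sec 0).G → q 1 ≤ P' τ := by
    filter_upwards [hfrc, hPe] with τ h1 h2 h3 h4
    rw [h2]; exact h1 (hG3 h3) h4
  filter_upwards [hmean, h.ae_ae_splice mO0 hgood] with σ hσ1 hσ2 hσG
  have hσ2' : ∀ᵐ η ∂μ, η ∈ G' → q 1 ≤ P' (Conf.spl (sec 0).O (σ, η)) := by
    filter_upwards [hσ2] with η hη hηG
    refine hη ?_ ?_
    · have := (Conf.readsSet_iff_reads.1 hG2).spl_right d01 σ η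
      exact this.mpr hηG
    · have := (Conf.readsSet_iff_reads.1 (hS.rG 0 (by norm_num))).spl_left Subset.rfl σ η
      exact this.mpr hσG
  unfold PvsySec.kin
  rw [← hσ1]
  have hsec : Measurable fun η => Conf.spl (sec 0).O (σ, η) := (Conf.measurable_spl mO0).comp (measurable_const.prodMk measurable_id)
  have hWs : Measurable fun η => W' (Conf.spl (sec 0).O (σ, η)) := hW'm.comp hsec
  have key : ∀ F : Conf E → ℝ≥0∞, Measurable F → Conf.Reads (sec 1).O F →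
      ∫⁻ η, F η ∂(μ.withDensity fun η => W' (Conf.spl (sec 0).O (σ, η))) = ∫⁻ η, F η ∂(μ.withDensity ((sec 1).g μ)) := by
    intro F hFm hFr
    rw [← withDensity_congr_ae hg'e, lintegral_withDensity_eq_lintegral_mul _ hWs hFm, lintegral_withDensity_eq_lintegral_mul _ hg'm hFm,
      h.lintegral_spl mO1 (hWs.mul hFm)]
    refine lintegral_congr_ae ?_
    filter_upwards [hσ2'] with η hη
    have e : ∀ ξ, ((fun η => W' (Conf.spl (sec 0).O (σ, η))) * F) (Conf.spl (sec 1).O (η, ξ))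
        = g' η * F η * (P' (Conf.spl (sec 0).O (σ, η)))⁻¹ * A'.indicator 1 (Conf.spl ((sec 1).O ∪ (sec 0).O) (Conf.spl (sec 0).O (σ, η), ξ)) := by
      intro ξ
      show g' (Conf.spl (sec 0).O (σ, Conf.spl (sec 1).O (η, ξ))) * (A'.indicator 1 (Conf.spl (sec 0).O (σ, Conf.spl (sec 1).O (η, ξ))) / P' (Conf.spl (sec 0).O (σ, Conf.spl (sec 1).O (η, ξ))))
        * F (Conf.spl (sec 1).O (η, ξ)) = _
      rw [hFr.spl_left Subset.rfl, hg'r.spl_right d01, hg'r.spl_left Subset.rfl, pvvt_spl_spl, hP'r.spl_left Subset.rfl, div_eq_mul_inv]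
      ring
    simp_rw [e]
    have hsec2 : Measurable fun ξ => Conf.spl ((sec 1).O ∪ (sec 0).O) (Conf.spl (sec 0).O (σ, η), ξ) := (Conf.measurable_spl mOO).comp (measurable_const.prodMk measurable_id)
    have hm2 : Measurable fun ξ => A'.indicator (1 : Conf E → ℝ≥0∞) (Conf.spl ((sec 1).O ∪ (sec 0).O) (Conf.spl (sec 0).O (σ, η), ξ)) := (measurable_one.indicator hA1).comp hsec2
    rw [lintegral_const_mul _ hm2]
    have e2 : ∫⁻ ξ, A'.indicator 1 (Conf.spl ((sec 1).O ∪ (sec 0).O) (Conf.spl (sec 0).O (σ, η), ξ)) ∂μ = P' (Conf.spl (sec 0).O (σ, η)) := rfl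
    rw [e2]
    by_cases hηG : η ∈ G'
    · have hp0 : P' (Conf.spl (sec 0).O (σ, η)) ≠ 0 := fun h0 => hq0 (le_antisymm (h0 ▸ hη hηG) zero_le)
      have hp1 : P' (Conf.spl (sec 0).O (σ, η)) ≠ ∞ := ne_top_of_le_ne_top ENNReal.one_ne_top (pvti_P_le_one _ _ _)
      rw [mul_assoc, ENNReal.inv_mul_cancel hp0 hp1, mul_one]
      rfl
    · have : g' η = 0 := by
        show G'.indicator 1 η / μ (sec 1).G = 0
        rw [indicator_of_notMem hηG, ENNReal.zero_div]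
      show _ = g' η * F η
      rw [this]; simp
  have hmass : (μ.withDensity fun η => W' (Conf.spl (sec 0).O (σ, η))) univ = 1 := by
    have k1 := key (fun _ => 1) measurable_const (fun _ => rfl)
    simp only [lintegral_const, one_mul] at k1
    rw [k1, ← withDensity_congr_ae hg'e, withDensity_apply _ MeasurableSet.univ, Measure.restrict_univ]
    show ∫⁻ η, G'.indicator 1 η / μ (sec 1).G ∂μ = 1
    simp_rw [div_eq_mul_inv]
    rw [lintegral_mul_const _ (measurable_one.indicator hG1), lintegral_indicator_one hG1, measure_congr hG4]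
    exact ENNReal.mul_inv_cancel hG0 (measure_ne_top _ _)
  have hprob : IsProbabilityMeasure (μ.withDensity fun η => W' (Conf.spl (sec 0).O (σ, η))) := ⟨hmass⟩
  have hint : Integrable C1 (μ.withDensity fun η => W' (Conf.spl (sec 0).O (σ, η))) := by
    refine ⟨m1.aestronglyMeasurable, ?_⟩
    show ∫⁻ η, ‖C1 η‖ₑ ∂_ < ∞
    rw [key _ m1.enorm (r1.comp _)]
    exact i1.2
  have hC1 : ∫ η, C1 η ∂(μ.withDensity fun η => W' (Conf.spl (sec 0).O (σ, η))) = pvvtAv (sec 1) μ C1 := pvsy_transfer mO1 key m1 r1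
  unfold pvtiMean
  have e3 : ∀ η, C0 (Conf.spl (sec 0).O (σ, η)) - C1 (Conf.spl (sec 0).O (σ, η)) = C0 σ - C1 η := by
    intro η
    rw [r0.spl_left Subset.rfl, r1.spl_right d01]
  simp_rw [e3]
  rw [integral_sub (integrable_const _) hint, hC1, integral_const]
  simp

/-- **THE TWO-PLUG TRICK** -/
theorem pvvt_core (h : IsPpp m μ) {sec : ℕ → PvsySec E} (hS : PvsyCycWF μ 2 sec) {q : ℕ → ℝ≥0∞}
    (hF : PvsyCycForced μ 2 sec (Finset.Ioo 0 2) (Finset.range 2) q) {C0 C1 : Conf E → ℂ} (m0 : AEMeasurable C0 μ) (r0 : Conf.Reads (sec 0).O C0)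
    (m1 : Measurable C1) (r1 : Conf.Reads (sec 1).O C1) (i1 : Integrable C1 (μ.withDensity ((sec 1).g μ))) :
    ∫⁻ σ in (sec 0).G, ‖C0 σ - pvvtAv (sec 1) μ C1‖ₑ ^ 2 ∂μ
      ≤ pvsyDc μ 2 sec (Finset.Ioo 0 2) (Finset.range 2) q *
        ∫⁻ η in (sec 0).G ∩ pvsyEv 2 sec (Finset.Ioo 0 2) (Finset.range 2), ‖C0 η - C1 η‖ₑ ^ 2 ∂μ := by
  set X : ℕ → Conf E → ℂ := fun j => if j = 0 then fun _ => 0 else fun η => C0 η - C1 η with hXd
  have hX : PvsyCycFld μ 2 sec X := by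
    refine ⟨fun j hj => ?_, fun j hj => ?_⟩
    · by_cases h0 : j = 0
      · simp only [hXd, h0, if_true]; exact aemeasurable_const
      · simp only [hXd, h0, if_false]; exact m0.sub m1.aemeasurable
    · by_cases h0 : j = 0
      · simp only [hXd, h0, if_true]; exact fun _ => rfl
      · have h1 : j = 1 := by omega
        subst h1
        simp only [hXd, if_false, one_ne_zero]
        have e : (1 + 1) % 2 = 0 := rfl
        rw [e]
        exact (r0.mono (subset_union_left.trans' subset_union_right)).map₂ (r1.mono (subset_union_left.trans' subset_union_left)) (fun x y => x - y)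
  have key := pvsy_pin_last h hS hX hF 2
  have e1 : X (2 - 1) = fun η => C0 η - C1 η := by simp [hXd]
  rw [e1] at key
  refine le_trans (le_of_eq ?_) key
  refine lintegral_congr_ae ((ae_restrict_iff'₀ (hS.mG 0 (by norm_num))).2 ?_)
  filter_upwards [pvvt_kin h hS hF r0 m1 r1 i1] with σ hσ hσG
  rw [show (2 - 1 : ℕ) = 1 from rfl, hσ hσG]

end core

/-! ## 2. the dart rules of the inner arc -/

section rule

variable {κ : Type}

/-- **the rule**: `d` is the reversed dart number `i` of the inner arc of THE state, `i < ip`, `J ip i` -/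
def pvvtRule (𝔯 : PvspReg κ) (c : Bool) (J : ℕ → ℕ → Prop) : PvzfPred κ := fun _ _ T mk s d =>
  mk (T.src d) ∈ 𝔯 .S2 ∧ PvplStar T mk (fun x => x ∈ 𝔯 .O2) (𝔯 .S2) ∧
    ∃ 𝔖 : PvspSt T (pvspS c s), 𝔖.At mk 𝔯 ∧ ∃ i, i < 𝔖.ip ∧ J 𝔖.ip i ∧ d = T.opp (𝔖.inn.e i)

theorem pvvt_eqns_cite2 : True := by
  have := @pvvtRule.eq_1
  trivial

theorem pvvt_rule_supp (𝔯 : PvspReg κ) (c : Bool) (J : ℕ → ℕ → Prop) : (pvvtRule 𝔯 c J).Supp (𝔯 .S2) := fun _ _ _ _ _ _ h => h.1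

/-- one direction of the locality -/
theorem pvvt_rule_tr {V D V' D' : Type} {T : PvMap V D} {mk : V → κ} {s : V → Bool} {T' : PvMap V' D'} {mk' : V' → κ} {s' : V' → Bool} {R : V → V' → Prop}
    {𝔯 : PvspReg κ} (hN : 𝔯.Nest) (c : Bool) (J : ℕ → ℕ → Prop) (h : PvplIso T mk s T' mk' s' (𝔯 .S2) R) (hS : T.Simple) (hS' : T'.Simple)
    {d : D} {d' : D'} (hd : PvplRD T T' R d d') (hp : pvvtRule 𝔯 c J V D T mk s d) : pvvtRule 𝔯 c J V' D' T' mk' s' d' := by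
  obtain ⟨h0, hst, 𝔖, hA, i, hi, hJ, rfl⟩ := hp
  have hc := pvsp_tr_S h c
  obtain ⟨𝔖', hA', hip, hn, hv, hmk⟩ := pvkv_tr_at hN hc hS hS' hst hA
  have hle := hA.ip_le
  have hrd : PvplRD T T' R (T.opp (𝔖.inn.e i)) (T'.opp (𝔖'.inn.e i)) := by
    obtain ⟨d'', d1, d2, d3⟩ := hc.ex (𝔖.inn.e i) (by rw [𝔖.inn.src_e i (by omega)]; exact hmk i hi.le)
    have e1 : T'.src d'' = 𝔖'.inn.v i := by
      rw [𝔖.inn.src_e i (by omega)] at d1
      exact hc.fn _ _ _ d1 (hv i (by omega))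
    have e2 : T'.tgt d'' = 𝔖'.inn.v (i + 1) := by
      rw [𝔖.inn.tgt_e i (by omega)] at d2
      exact hc.fn _ _ _ d2 (hv (i + 1) (by omega))
    have e3 : d'' = 𝔖'.inn.e i := hS' _ _ (by rw [e1, 𝔖'.inn.src_e i (by omega)]) (by rw [e2, 𝔖'.inn.tgt_e i (by omega)])
    rw [← e3]
    exact hc.opp hS' ⟨d1, d2, d3⟩ (by rw [𝔖.inn.tgt_e i (by omega)]; exact hmk (i + 1) hi)
  have e : d' = T'.opp (𝔖'.inn.e i) := hS' _ _ (hc.fn _ _ _ hd.1 hrd.1) (hc.fn _ _ _ hd.2.1 hrd.2.1)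
  refine ⟨by rw [h.mark _ _ hd.1]; exact h0, hc.star (fun k hk => hN.2.2.2 hk) hst, 𝔖', hA', i, by rw [hip]; exact hi, by rw [hip]; exact hJ, e⟩

/-- **LOCALITY of the rule** -/
theorem pvvt_rule_local {𝔯 : PvspReg κ} (hN : 𝔯.Nest) (c : Bool) (J : ℕ → ℕ → Prop) : (pvvtRule 𝔯 c J).Local (𝔯 .S2) :=
  fun _ _ _ _ _ _ _ _ _ _ _ hS hS' hi _ _ hd => ⟨pvvt_rule_tr hN c J hi hS hS' hd, pvvt_rule_tr hN c J hi.symm hS' hS ⟨hd.1, hd.2.1, hd.2.2⟩⟩

/-- **the sum over the selected darts is the sum along the inner arc of the state** -/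
theorem pvvt_rule_sum {V D : Type} {T : PvMap V D} {s : V → Bool} {mk : V → κ} {𝔯 : PvspReg κ} {c : Bool} (hSph : T.IsSph) (hT : T.Simple) (hN : 𝔯.Nest)
    (hd : ∀ v, mk v ∈ 𝔯 .Np → mk v ∈ 𝔯 .Nm → mk v ∈ 𝔯 .I2) (hst : PvplStar T mk (fun x => x ∈ 𝔯 .O2) (𝔯 .S2)) {𝔖 : PvspSt T (pvspS c s)} (hA : 𝔖.At mk 𝔯)
    (J : ℕ → ℕ → Prop) [∀ a b, Decidable (J a b)] {M : Type} [AddCommMonoid M] (f : D → M) :
    ∑ᶠ d ∈ {d | pvvtRule 𝔯 c J V D T mk s d}, f d = ∑ i ∈ (Finset.range 𝔖.ip).filter (J 𝔖.ip), f (T.opp (𝔖.inn.e i)) := by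
  have hle := hA.ip_le
  obtain ⟨-, -, -, -, -, hmk⟩ := pvkv_tr_at hN (PvplIso.refl T mk (pvspS c s) (𝔯 .S2)) hT hT hst hA
  have hset : {d | pvvtRule 𝔯 c J V D T mk s d} = (fun i => T.opp (𝔖.inn.e i)) '' (↑((Finset.range 𝔖.ip).filter (J 𝔖.ip)) : Set ℕ) := by
    ext d
    constructor
    · rintro ⟨-, -, 𝔖', hA', i, hi, hJ, rfl⟩
      obtain ⟨-, -, -, -, -, un, uv, uip, -⟩ := pvsp_at_unique hSph hT hd hA hA'
      have hi' : i < 𝔖.ip := by rw [uip]; exact hi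
      have ue : 𝔖.inn.e i = 𝔖'.inn.e i :=
        hT _ _ (by rw [𝔖.inn.src_e i (by omega), 𝔖'.inn.src_e i (by omega), uv i (by omega)]) (by rw [𝔖.inn.tgt_e i (by omega), 𝔖'.inn.tgt_e i (by omega), uv (i + 1) (by omega)])
      refine ⟨i, ?_, congrArg T.opp ue⟩
      rw [Finset.coe_filter]
      exact ⟨Finset.mem_range.2 hi', by rw [uip]; exact hJ⟩
    · rintro ⟨i, hi, rfl⟩
      rw [Finset.coe_filter] at hi
      have hi' := Finset.mem_range.1 hi.1
      refine ⟨?_, hst, 𝔖, hA, i, hi', hi.2, rfl⟩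
      rw [T.src_opp', 𝔖.inn.tgt_e i (by omega)]
      exact hmk (i + 1) hi'
  have hinj : InjOn (fun i => T.opp (𝔖.inn.e i)) (↑((Finset.range 𝔖.ip).filter (J 𝔖.ip)) : Set ℕ) := by
    intro i hi j hj hij
    rw [Finset.coe_filter] at hi hj
    have hi' := Finset.mem_range.1 hi.1
    have hj' := Finset.mem_range.1 hj.1
    have e1 : T.tgt (T.opp (𝔖.inn.e i)) = T.tgt (T.opp (𝔖.inn.e j)) := congrArg T.tgt hij
    rw [T.tgt_opp, T.tgt_opp, 𝔖.inn.src_e i (by omega), 𝔖.inn.src_e j (by omega)] at e1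
    exact 𝔖.inn.inj i j (by omega) (by omega) e1
  rw [hset, finsum_mem_image hinj, finsum_mem_coe_finset]

end rule

/-! ## 3. the measurable representative of the cut point -/

section rep

open Classical in
/-- the summand of the `V`-mass of `B`: the side vector of the dart if the barycentre of its face lies in `B` -/
noncomputable def pvvtW1 (B : Set ℂ) (p : ℂ × ℂ × ℂ) : ℂ := if (p.1 + p.2.1 + p.2.2) / 3 ∈ B then p.1 - p.2.1 else 0

theorem pvvt_eqns_cite3 : True := by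
  have := @pvvtW1.eq_1
  trivial

theorem pvvt_W1_meas {B : Set ℂ} (hB : MeasurableSet B) : Measurable (pvvtW1 B) := by
  classical
  unfold pvvtW1
  refine Measurable.ite ?_ (measurable_fst.sub (measurable_fst.comp measurable_snd)) measurable_const
  have hm : Measurable fun p : ℂ × ℂ × ℂ => (p.1 + p.2.1 + p.2.2) / 3 :=
    ((measurable_fst.add (measurable_fst.comp measurable_snd)).add (measurable_snd.comp measurable_snd)).div_const 3
  exact hm hB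

/-- tests ⟷ positions, one region -/
theorem pvvt_mem_test {κ : Type} {𝔯 : PvspReg κ} (hN : 𝔯.Nest) (i : PvspIx) (x : κ) : pvspTest 𝔯 x ∈ pvspRegB i ↔ x ∈ 𝔯 i :=
  Set.ext_iff.1 (congrFun (pvsp_reg_test hN) i) x

/-- positions → tests for the state -/
theorem pvvt_at_test {V D κ : Type} {T : PvMap V D} {s : V → Bool} {mk : V → κ} {𝔯 : PvspReg κ} (hN : 𝔯.Nest) {𝔖 : PvspSt T s} (hA : 𝔖.At mk 𝔯) :
    𝔖.At (fun v => pvspTest 𝔯 (mk v)) pvspRegB := by
  have hA' : 𝔖.At mk (pvspRegB.comap (pvspTest 𝔯)) := by rw [pvsp_reg_test hN]; exact hA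
  exact ⟨hA'.sel1, hA'.sel2, hA'.arc, hA'.im_lt, hA'.ip_le, hA'.im_eq, hA'.ip_eq, hA'.fit_p, hA'.fit_m, hA'.vp, hA'.vm⟩

variable {N : PvspNum} {t : PvspTy} {z : ℂ} {h : ℝ}

/-- **THE CUT POINT IS A MEASURABLE FUNCTION OF THE STATE**: one `F`, measurable, read from `O ×ˢ univ`, equal on the mesh event to the cut point read on EVERY completion -/
theorem pvvt_rep (W : t.Wf N z h) (mc : ℝ) : ∃ F : Conf PvPt → ℂ, Measurable F ∧ Conf.Reads (pvspO N t z h ×ˢ univ) F ∧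
    ∀ ζ : Conf PvPt, PvtnFin (pvspO N t z h) ζ → PvtrMesh (N.mu * h) (pvspO N t z h) (cfSites ζ) → ∀ w a, PvkvIs N t z h mc ζ w a → F ζ = w := by
  classical
  have hθ : Measurable (pvspTest (t.reg N z h)) := pvsp_test_meas W.reg_meas
  have eK : pvspTest (t.reg N z h) ⁻¹' (pvspRegB .S2) = t.reg N z h .S2 := pvsp_K_test (t.reg N z h) .has
  have hK : pvspTest (t.reg N z h) ⁻¹' (pvspRegB .S2) ⊆ pvtrCore (3 * (N.mu * h)) (pvspO N t z h) := by rw [eK]; exact W.S2_core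
  have hwin : PvplWin (pvspO N t z h) := W.win_win .has
  obtain ⟨F1, hF1⟩ := pvzf_main hθ (pvvt_rule_local pvsp_regB_nest t.col (fun _ _ => True)) (pvvt_rule_supp _ _ _) hwin W.rho0 hK
    (pvvt_W1_meas (B := closedBall z (mc * h)) measurableSet_closedBall)
  obtain ⟨F2, hF2⟩ := pvzf_main hθ (pvvt_rule_local pvsp_regB_nest t.col (fun ip i => i + 1 = ip)) (pvvt_rule_supp _ _ _) hwin W.rho0 hK
    (w := fun p : ℂ × ℂ × ℂ => p.1) measurable_fst
  refine ⟨fun ζ => F2 ζ - F1 ζ, hF2.1.sub hF1.1, hF2.2.1.map₂ hF1.2.1 (fun x y => x - y), ?_⟩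
  rintro ζ hfin hm w a ⟨X, 𝔅, ξ, zi, hok, hzi, hst, 𝔖, hA, hw, -⟩
  have hok' : 𝔅.Ok (cfSites ζ) (pvspTest (t.reg N z h) ⁻¹' (pvspRegB .S2)) := by rw [eK]; exact hok
  have hzi' : pvspTest (t.reg N z h) zi ∉ pvspRegB .S2 := fun hc => hzi ((pvvt_mem_test W.nest .S2 zi).1 hc)
  have hA' := pvvt_at_test W.nest hA
  have hst' : PvplStar (𝔅.T (cfSites ζ)) (fun v => pvspTest (t.reg N z h) (𝔅.posF _ zi v)) (fun x => x ∈ pvspRegB .O2) (pvspRegB .S2) := fun d hd => by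
    have h1 := hst d ((pvvt_mem_test W.nest .O2 _).1 hd)
    exact ⟨(pvvt_mem_test W.nest .S2 _).2 h1.1, (pvvt_mem_test W.nest .S2 _).2 h1.2⟩
  have hd' : ∀ v, pvspTest (t.reg N z h) (𝔅.posF (cfSites ζ) zi v) ∈ pvspRegB .Np → pvspTest (t.reg N z h) (𝔅.posF (cfSites ζ) zi v) ∈ pvspRegB .Nm →
      pvspTest (t.reg N z h) (𝔅.posF (cfSites ζ) zi v) ∈ pvspRegB .I2 := fun v h1 h2 =>
    (pvvt_mem_test W.nest .I2 _).2 (W.tubes ⟨(pvvt_mem_test W.nest .Np _).1 h1, (pvvt_mem_test W.nest .Nm _).1 h2⟩)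
  show F2 ζ - F1 ζ = w
  rw [hF2.2.2 X 𝔅 ζ ξ zi hfin hok' hm hzi', hF1.2.2 X 𝔅 ζ ξ zi hfin hok' hm hzi']
  unfold pvzfSum pvzfS
  rw [pvvt_rule_sum hok.sph hok.simple pvsp_regB_nest hd' hst' hA' (fun ip i => i + 1 = ip) _,
    pvvt_rule_sum hok.sph hok.simple pvsp_regB_nest hd' hst' hA' (fun _ _ => True) _]
  have hip : 0 < 𝔖.ip := lt_of_le_of_lt (Nat.zero_le _) hA.im_lt
  have hle := hA.ip_le
  have e1 : (Finset.range 𝔖.ip).filter (fun i => i + 1 = 𝔖.ip) = {𝔖.ip - 1} := by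
    ext i
    simp only [Finset.mem_filter, Finset.mem_range, Finset.mem_singleton]
    omega
  have e2 : (Finset.range 𝔖.ip).filter (fun _ => True) = Finset.range 𝔖.ip := Finset.filter_true_of_mem fun _ _ => trivial
  rw [e1, e2, Finset.sum_singleton, ← hw]
  unfold PvspSt.cut
  rw [Finset.sum_filter]
  congr 1
  show 𝔅.posF _ zi ((𝔅.T (cfSites ζ)).src ((𝔅.T (cfSites ζ)).opp (𝔖.inn.e (𝔖.ip - 1)))) = _
  rw [(𝔅.T (cfSites ζ)).src_opp', 𝔖.inn.tgt_e _ (by omega), Nat.sub_add_cancel hip]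

/-- the representative is `pvkvC0` on the event of the state, at a configuration in general position -/
theorem pvvt_rep_C0 (W : t.Wf N z h) (mc : ℝ) : ∃ F : Conf PvPt → ℂ, Measurable F ∧ Conf.Reads (pvspO N t z h ×ˢ univ) F ∧
    ∀ ζ ∈ pvspEvt N t z h .has, DelGood (cfSites ζ) → F ζ = pvkvC0 N t z h mc ζ := by
  obtain ⟨F, h1, h2, h3⟩ := pvvt_rep W mc
  refine ⟨F, h1, h2, fun ζ hζ hg => ?_⟩
  obtain ⟨hfin, hm, hp⟩ := (pvsp_evt_plane W .has hg).1 hζ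
  obtain ⟨zi, hzi⟩ := W.exists_far .has
  obtain ⟨w, a, hwa⟩ := pvkv_pred_of_has (closedBall z (mc * h)) hp
  have hIs : PvkvIs N t z h mc ζ w a := ⟨Empty, delbPlane, Empty.elim, zi, delb_ok_mono (subset_univ _) (delb_plane_ok hg), hzi, hwa⟩
  rw [h3 ζ hfin hm w a hIs, (pvkv_C0_eq W hm hIs).1]

end rep

/-! ## 4. the bound at one candidate of a datum of 58 -/

section thick

variable {τ : Type}

/-- **WHAT `thickVν` OWES** at one candidate `(z,t)` of level `m`: the SHORT cycle `t -b-> u -e-> t` of 58 (`wf frc adm` = the fields of the same names of `PvypThk`), and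
`C_t` = a function of the state of `t`, `C_u` = a function of the state of `u` (cut point of the reference plug: `PvcnV` of 52 34: `meas reads int`), `k` = its mean over `G_u`,
`bes` = CLOSE-P with the deterministic mask (113) + (A4) on the ring rim (`pvkv_tel`, `pvkv_act`) + I.BES for `V` (`pvbe_in_V`, `pvbe_one_mask` of 223). -/
structure PvvtThk (D : PvypDat τ) (h : ℝ) (βu qb qe CB : ℝ≥0∞) (Ct Cu : ℝ → Conf PvPt → ℂ) (k : ℝ → ℂ) (m : ℕ) (z : ℂ) (t : τ) : Prop where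
  wf : ∀ᶠ ε in 𝓝[>] (0 : ℝ), PvsyCycWF (pvP ε) 2 (D.cyc2 m ε z t)
  frc : ∀ᶠ ε in 𝓝[>] (0 : ℝ), PvsyCycForced (pvP ε) 2 (D.cyc2 m ε z t) (Finset.Ioo 0 2) (Finset.range 2) (pvypQ2 qb qe)
  adm : ∀ᶠ ε in 𝓝[>] (0 : ℝ), βu ≤ pvP ε (D.Gu m ε z t)
  mCt : ∀ᶠ ε in 𝓝[>] (0 : ℝ), AEMeasurable (Ct ε) (pvP ε)
  rCt : ∀ᶠ ε in 𝓝[>] (0 : ℝ), Conf.Reads (D.O m ε z t) (Ct ε)
  mCu : ∀ᶠ ε in 𝓝[>] (0 : ℝ), Measurable (Cu ε)
  rCu : ∀ᶠ ε in 𝓝[>] (0 : ℝ), Conf.Reads (D.Ou m ε z t) (Cu ε)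
  iCu : ∀ᶠ ε in 𝓝[>] (0 : ℝ), Integrable (Cu ε) ((pvP ε).withDensity ((D.sRef m ε z t).g (pvP ε)))
  mean : ∀ᶠ ε in 𝓝[>] (0 : ℝ), pvvtAv (D.sRef m ε z t) (pvP ε) (Cu ε) = k ε
  bes : ∀ᶠ ε in 𝓝[>] (0 : ℝ), ∫⁻ η in D.G m ε z t ∩ pvsyEv 2 (D.cyc2 m ε z t) (Finset.Ioo 0 2) (Finset.range 2), ‖Ct ε η - Cu ε η‖ₑ ^ 2 ∂(pvP ε) ≤ CB * ENNReal.ofReal (h ^ 2)

variable {D : PvypDat τ} {h : ℝ} {βu qb qe CB : ℝ≥0∞} {Ct Cu : ℝ → Conf PvPt → ℂ} {k : ℝ → ℂ} {m : ℕ} {z : ℂ} {t : τ}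

/-- **`thickVν` ON `Conf PvPt`** -/
theorem pvvt_thick (H : PvvtThk D h βu qb qe CB Ct Cu k m z t) :
    ∀ᶠ ε in 𝓝[>] (0 : ℝ), ∫⁻ σ in D.G m ε z t, ‖Ct ε σ - k ε‖ₑ ^ 2 ∂(pvP ε) ≤ βu⁻¹ * (qb⁻¹ * qe⁻¹) * (CB * ENNReal.ofReal (h ^ 2)) := by
  filter_upwards [H.wf, H.frc, H.adm, H.mCt, H.rCt, H.mCu, H.rCu, H.iCu, H.mean, H.bes] with ε h1 h2 h3 h4 h5 h6 h7 h8 h9 h10
  have key := pvvt_core (pv_isPpp ε) h1 h2 (C0 := Ct ε) (C1 := Cu ε) h4 h5 h6 h7 h8
  rw [pvyp_Dc2] at key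
  have e : pvvtAv (D.cyc2 m ε z t 1) (pvP ε) (Cu ε) = k ε := h9
  rw [e] at key
  refine le_trans key ?_
  gcongr
  exact h10

end thick

end Claimed.Agent.R289
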