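import Claimed.Agent.R289.Tr.SysP
import Claimed.Agent.R289.Tr.CellRec

/-!
# Row 289 (S0537, Cardy for Poisson-Voronoi), THE WALL, ROAD P, file Tr/CycP : THE PRODUCERS OF THE RECORDS OF `Tr/SysP`      (helper95; split proposed by 58; prefix `pvcp_`, `pvcp`, `Pvcp`)

`Tr/SysP` (58) proves `cyc1ν`, `thickν` of road P from the records `PvypCyc`, `PvypThk`.      This file discharges their ANALYTIC fields from ONE deterministic statement per cycle, in the vocabulary of 52 (`Tr/CellRec`):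

* **CLOSE-P** = `PvcqRing ε N Ev X Mk B a₀` of 52 at the event and the fields of the cycle: a.s. on the event of the cycle the pieces close to ONE rim of the full plane map (label of a raw tag), inside `B`, of diameter `≥ a₀`,
  and the field number `j` is the `Q`-mass of this rim in the DETERMINISTIC mask `Mk j`.      (ruling 12: `Q` alone; the scalar `a` of `PvypDat` is a dummy index: the consumer takes the fields of `Q`.)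
* sec. 1  events of a cyclic list are null-measurable; `∫⁻ in Ev` against `∫⁻ · * 1_Ev`.
* sec. 2  generic cyclic list:   **`pvcp_ring_tail`** (I.TAIL), **`pvcp_ring_fin`**, **`pvcp_ring_bes`** (I.BES).
* sec. 3  `PvcpClose1` (long cycle `t -o-> cells of l1 t -r-> u -e-> t`)  ⟹  **`pvcp_tail`**, **`pvcp_fin`** = fields `tail`, `fin` of `PvypCyc` verbatim;
          `PvcpClose2` (short cycle `t -b-> u -e-> t`)  ⟹  **`pvcp_bes`** = field `bes` of `PvypThk` verbatim.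
* sec. 4  forcing: `PvcpFrc1`, `PvcpFrc2` (bounds on the four foreign connectors at ALMOST EVERY pair of states + `kit.Forced`)  ⟹  **`pvcp_frc1`**, **`pvcp_frc2`** = fields `frc` verbatim.
* sec. 5  **`pvcp_cyc`**, **`pvcp_thk`** : the records of 58 from the smaller records.
-/

set_option autoImplicit false

namespace Claimed.Agent.R289

open MeasureTheory Filter Topology Set Claims.C0465
open scoped ENNReal

/-! ## 1. events of a cyclic list -/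

section ev

variable {E : Type*} [MeasurableSpace E] {n : ℕ} {sec : ℕ → PvsySec E} {μ : Measure (Conf E)}

/-- the event of a cyclic list is null-measurable -/
theorem pvcp_ev_null (h : PvsyCycWF μ n sec) (a b : Finset ℕ) : NullMeasurableSet (pvsyEv n sec a b) μ := by
  have e : pvsyEv n sec a b = (⋂ j ∈ (a.filter (· < n) : Finset ℕ), (sec j).G) ∩ ⋂ j ∈ (b.filter (· < n) : Finset ℕ), (sec j).A := by
    ext η
    simp only [pvsyEv, mem_setOf_eq, mem_inter_iff, mem_iInter, Finset.mem_filter, and_imp]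
  rw [e]
  refine NullMeasurableSet.inter ?_ ?_
  · exact NullMeasurableSet.biInter (Finset.countable_toSet _) fun j hj => h.mG j (Finset.mem_filter.1 hj).2
  · exact NullMeasurableSet.biInter (Finset.countable_toSet _) fun j hj => h.mA j (Finset.mem_filter.1 hj).2

/-- the event of a cycle through the plug `0` -/
theorem pvcp_ev0_null (h : PvsyCycWF μ n sec) (a b : Finset ℕ) : NullMeasurableSet ((sec 0).G ∩ pvsyEv n sec a b) μ :=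
  (h.mG 0 (by have := h.two; omega)).inter (pvcp_ev_null h a b)

/-- set integral against the integral of the product with the indicator -/
theorem pvcp_set_eq {α : Type*} [MeasurableSpace α] {ν : Measure α} {S : Set α} (hS : NullMeasurableSet S ν) (f : α → ℝ≥0∞) :
    ∫⁻ x in S, f x ∂ν = ∫⁻ x, f x * S.indicator 1 x ∂ν := by
  rw [← lintegral_indicator₀ hS]
  refine lintegral_congr fun x => ?_
  by_cases hx : x ∈ S
  · rw [Set.indicator_of_mem hx, Set.indicator_of_mem hx, Pi.one_apply, mul_one]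
  · rw [Set.indicator_of_notMem hx, Set.indicator_of_notMem hx, mul_zero]

end ev

/-! ## 2. a ring on a generic event -/

section ring

variable {N : ℕ}

/-- **I.TAIL for a ring which depends on the mesh** (`B`, `a₀` do not) -/
theorem pvcp_ring_tail {Ev : ℝ → Set (Conf PvPt)} {X : ℝ → ℕ → Conf PvPt → ℂ} {Mk : ℝ → ℕ → Set ℂ} {B : Set ℂ} {a₀ : ℝ} (hB : Bornology.IsBounded B) (ha : 0 < a₀)
    (hEv : ∀ᶠ ε in 𝓝[>] (0 : ℝ), NullMeasurableSet (Ev ε) (pvP ε))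
    (hd : ∀ᶠ ε in 𝓝[>] (0 : ℝ), ∀ i < N, ∀ j < N, i ≠ j → Disjoint (Mk ε i) (Mk ε j))
    (h : ∀ᶠ ε in 𝓝[>] (0 : ℝ), PvcqRing ε N (Ev ε) (X ε) (Mk ε) B a₀) :
    Tendsto (fun ε => ∫⁻ η in Ev ε, ‖∑ j ∈ Finset.range N, X ε j η‖ₑ ^ 2 ∂(pvP ε)) (𝓝[>] (0 : ℝ)) (𝓝 0) := by
  have key := pvcq_lim hB ha (Evs := Ev) (Ys := fun ε η => ∑ j ∈ Finset.range N, X ε j η) (by
    filter_upwards [h, hd, self_mem_nhdsWithin] with ε h1 h2 h3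
    exact h1.closed h3 h2)
  refine key.congr' ?_
  filter_upwards [hEv] with ε h1
  exact (pvcp_set_eq h1 _).symm

/-- **I.BES for one piece of a ring** -/
theorem pvcp_ring_bes {ε : ℝ} (hε : 0 < ε) {Ev : Set (Conf PvPt)} {X : ℕ → Conf PvPt → ℂ} {Mk : ℕ → Set ℂ} {B : Set ℂ} {a₀ : ℝ}
    (hEv : NullMeasurableSet Ev (pvP ε)) (h : PvcqRing ε N Ev X Mk B a₀) {j : ℕ} (hj : j < N) (hM : MeasurableSet (Mk j)) (hb : Bornology.IsBounded (Mk j)) :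
    ∫⁻ η in Ev, ‖X j η‖ₑ ^ 2 ∂(pvP ε) ≤ pvbeCB * volume (Mk j) := by
  rw [pvcp_set_eq hEv]
  exact h.bes hε hj hM hb

/-- the pieces of a ring are integrable on the event -/
theorem pvcp_ring_fin {ε : ℝ} (hε : 0 < ε) {Ev : Set (Conf PvPt)} {X : ℕ → Conf PvPt → ℂ} {Mk : ℕ → Set ℂ} {B : Set ℂ} {a₀ : ℝ}
    (hEv : NullMeasurableSet Ev (pvP ε)) (h : PvcqRing ε N Ev X Mk B a₀) {j : ℕ} (hj : j < N) (hM : MeasurableSet (Mk j)) (hb : Bornology.IsBounded (Mk j)) :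
    ∫⁻ η in Ev, ‖X j η‖ₑ ∂(pvP ε) ≠ ∞ := by
  have := (pv_isPpp ε).prob
  have h1 : ∫⁻ η in Ev, ‖X j η‖ₑ ∂(pvP ε) ≤ ∫⁻ η in Ev, (1 + ‖X j η‖ₑ ^ 2) ∂(pvP ε) := by
    refine lintegral_mono fun η => ?_
    rcases le_total ‖X j η‖ₑ 1 with h0 | h0
    · exact h0.trans le_self_add
    · refine le_trans ?_ le_add_self
      calc ‖X j η‖ₑ = ‖X j η‖ₑ * 1 := (mul_one _).symm
        _ ≤ ‖X j η‖ₑ * ‖X j η‖ₑ := by gcongr
        _ = ‖X j η‖ₑ ^ 2 := (sq _).symm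
  have h2 : ∫⁻ η in Ev, (1 + ‖X j η‖ₑ ^ 2) ∂(pvP ε) ≤ 1 + pvbeCB * volume (Mk j) := by
    rw [lintegral_add_left measurable_const]
    refine add_le_add ?_ (pvcp_ring_bes hε hEv h hj hM hb)
    rw [lintegral_const, one_mul, Measure.restrict_apply_univ]
    exact prob_le_one
  refine ne_top_of_le_ne_top ?_ (h1.trans h2)
  exact ENNReal.add_ne_top.2 ⟨ENNReal.one_ne_top, ENNReal.mul_ne_top pvbe_CB_ne_top hb.measure_lt_top.ne⟩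

end ring

/-! ## 3. CLOSE-P for the two cycles of a candidate -/

section close

variable {τ : Type}

/-- the list of the long cycle   `t -o-> cells of l1 t -r-> u -e-> t` -/
noncomputable def pvcpLst (D : PvypDat τ) (Γ : ℕ → PvtsGeo τ) (m : ℕ) (ε : ℝ) (z : ℂ) (t : τ) : ℕ → PvsySec PvPt :=
  pvskList (D.sOut m ε z t) (D.kit m ε) (z + (Γ m).pout t) ((Γ m).dout t) ((Γ m).l1 t) (D.Kr m ε z t) (D.Ar m ε z t) (D.sRef m ε z t)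

/-- its fields -/
noncomputable def pvcpFld (D : PvypDat τ) (Γ : ℕ → PvtsGeo τ) (m : ℕ) (ε : ℝ) (a z : ℂ) (t : τ) : ℕ → Conf PvPt → ℂ :=
  pvskFld (D.Xo m ε a z t) (D.kit m ε) (D.X₀ m ε a) (z + (Γ m).pout t) ((Γ m).dout t) ((Γ m).l1 t) (D.Xr m ε a z t) (D.Xe m ε a z t)

/-- its event: all the plugs usable, all the connectors successful -/
def pvcpEv1 (D : PvypDat τ) (Γ : ℕ → PvtsGeo τ) (m : ℕ) (ε : ℝ) (z : ℂ) (t : τ) : Set (Conf PvPt) :=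
  D.G m ε z t ∩ pvsyEv (((Γ m).l1 t).length + 3) (pvcpLst D Γ m ε z t) (Finset.Ioo 0 (((Γ m).l1 t).length + 3)) (Finset.range (((Γ m).l1 t).length + 3))

/-- the event of the short cycle   `t -b-> u -e-> t` -/
def pvcpEv2 (D : PvypDat τ) (m : ℕ) (ε : ℝ) (z : ℂ) (t : τ) : Set (Conf PvPt) :=
  D.G m ε z t ∩ pvsyEv 2 (D.cyc2 m ε z t) (Finset.Ioo 0 2) (Finset.range 2)

theorem pvcp_eqns_cite : True := by
  have := @pvcpLst.eq_1; have := @pvcpFld.eq_1; have := @pvcpEv1.eq_1; have := @pvcpEv2.eq_1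
  trivial

/-- **CLOSE-P, LONG CYCLE** (deterministic, a.s.; producers: 113 `Tr/ConnP`, 244 `pvki_ring`, 202 `pvt_c_close`).      `Mk ε j` = the deterministic mask of the piece number `j`
(`0` exit funnel, `1 + i` cell number `i` of the word `l1 t`, `|l1 t| + 1` entrance funnel of the reference plug, `|l1 t| + 2` thick link);   `B`, `a₀` do NOT depend on the mesh. -/
structure PvcpClose1 (D : PvypDat τ) (Γ : ℕ → PvtsGeo τ) (a : ℂ) (m : ℕ) (z : ℂ) (t : τ) (Mk : ℝ → ℕ → Set ℂ) (B : Set ℂ) (a₀ : ℝ) : Prop where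
  bB : Bornology.IsBounded B
  a0 : 0 < a₀
  mM : ∀ᶠ ε in 𝓝[>] (0 : ℝ), ∀ j < ((Γ m).l1 t).length + 3, MeasurableSet (Mk ε j)
  bM : ∀ᶠ ε in 𝓝[>] (0 : ℝ), ∀ j < ((Γ m).l1 t).length + 3, Bornology.IsBounded (Mk ε j)
  dM : ∀ᶠ ε in 𝓝[>] (0 : ℝ), ∀ i < ((Γ m).l1 t).length + 3, ∀ j < ((Γ m).l1 t).length + 3, i ≠ j → Disjoint (Mk ε i) (Mk ε j)
  ring : ∀ᶠ ε in 𝓝[>] (0 : ℝ), PvcqRing ε (((Γ m).l1 t).length + 3) (pvcpEv1 D Γ m ε z t) (pvcpFld D Γ m ε a z t) (Mk ε) B a₀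

/-- **CLOSE-P, SHORT CYCLE** : on the event of the short cycle the field of the thick link is the `Q`-mass of ONE rim in the deterministic mask `M ε` of area `≤ cM h²`      (`cM` = a number of the menu) -/
structure PvcpClose2 (D : PvypDat τ) (a : ℂ) (m : ℕ) (z : ℂ) (t : τ) (M : ℝ → Set ℂ) (cM h : ℝ) : Prop where
  c0 : 0 ≤ cM
  mM : ∀ᶠ ε in 𝓝[>] (0 : ℝ), MeasurableSet (M ε)
  bM : ∀ᶠ ε in 𝓝[>] (0 : ℝ), Bornology.IsBounded (M ε)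
  vol : ∀ᶠ ε in 𝓝[>] (0 : ℝ), volume (M ε) ≤ ENNReal.ofReal (cM * h ^ 2)
  recg : ∀ᶠ ε in 𝓝[>] (0 : ℝ), PvbeRec ε pvqWQ ((M ε).indicator 1) (pvcpEv2 D m ε z t) (D.Xe m ε a z t)

variable {D : PvypDat τ} {Γ : ℕ → PvtsGeo τ} {a : ℂ} {m : ℕ} {z : ℂ} {t : τ}

/-- the event of the long cycle is null-measurable -/
theorem pvcp_ev1_null {ε : ℝ} (hd : ((Γ m).dout t) ^ 4 = 1) (hk : (D.kit m ε).WF)
    (hS : PvskFor (pvP ε) (D.sOut m ε z t) (D.kit m ε) (z + (Γ m).pout t) ((Γ m).dout t) ((Γ m).l1 t) (D.Kr m ε z t) (D.Ar m ε z t) (D.sRef m ε z t)) :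
    NullMeasurableSet (pvcpEv1 D Γ m ε z t) (pvP ε) :=
  hS.mGa.inter (pvcp_ev_null (pvsk_wf hk hd hS) _ _)

/-- **FIELD `tail` OF `PvypCyc`, verbatim** -/
theorem pvcp_tail {Mk : ℝ → ℕ → Set ℂ} {B : Set ℂ} {a₀ : ℝ} (h : PvcpClose1 D Γ a m z t Mk B a₀) (hd : ((Γ m).dout t) ^ 4 = 1)
    (hk : ∀ᶠ ε in 𝓝[>] (0 : ℝ), (D.kit m ε).WF)
    (hS : ∀ᶠ ε in 𝓝[>] (0 : ℝ), PvskFor (pvP ε) (D.sOut m ε z t) (D.kit m ε) (z + (Γ m).pout t) ((Γ m).dout t) ((Γ m).l1 t) (D.Kr m ε z t) (D.Ar m ε z t) (D.sRef m ε z t)) :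
    Tendsto (fun ε => ∫⁻ η in D.G m ε z t ∩ pvsyEv (((Γ m).l1 t).length + 3)
      (pvskList (D.sOut m ε z t) (D.kit m ε) (z + (Γ m).pout t) ((Γ m).dout t) ((Γ m).l1 t) (D.Kr m ε z t) (D.Ar m ε z t) (D.sRef m ε z t))
      (Finset.Ioo 0 (((Γ m).l1 t).length + 3)) (Finset.range (((Γ m).l1 t).length + 3)),
    ‖∑ j ∈ Finset.range (((Γ m).l1 t).length + 3),
      pvskFld (D.Xo m ε a z t) (D.kit m ε) (D.X₀ m ε a) (z + (Γ m).pout t) ((Γ m).dout t) ((Γ m).l1 t) (D.Xr m ε a z t) (D.Xe m ε a z t) j η‖ₑ ^ 2 ∂(pvP ε)) (𝓝[>] (0 : ℝ)) (𝓝 0) :=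
  pvcp_ring_tail (Ev := fun ε => pvcpEv1 D Γ m ε z t) (X := fun ε => pvcpFld D Γ m ε a z t) h.bB h.a0
    (by filter_upwards [hk, hS] with ε h1 h2 using pvcp_ev1_null hd h1 h2) h.dM h.ring

/-- **FIELD `fin` OF `PvypCyc`, verbatim** -/
theorem pvcp_fin {Mk : ℝ → ℕ → Set ℂ} {B : Set ℂ} {a₀ : ℝ} (h : PvcpClose1 D Γ a m z t Mk B a₀) (hd : ((Γ m).dout t) ^ 4 = 1)
    (hk : ∀ᶠ ε in 𝓝[>] (0 : ℝ), (D.kit m ε).WF)
    (hS : ∀ᶠ ε in 𝓝[>] (0 : ℝ), PvskFor (pvP ε) (D.sOut m ε z t) (D.kit m ε) (z + (Γ m).pout t) ((Γ m).dout t) ((Γ m).l1 t) (D.Kr m ε z t) (D.Ar m ε z t) (D.sRef m ε z t)) :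
    ∀ᶠ ε in 𝓝[>] (0 : ℝ), ∀ j < ((Γ m).l1 t).length + 3, ∫⁻ η in D.G m ε z t ∩ pvsyEv (((Γ m).l1 t).length + 3)
      (pvskList (D.sOut m ε z t) (D.kit m ε) (z + (Γ m).pout t) ((Γ m).dout t) ((Γ m).l1 t) (D.Kr m ε z t) (D.Ar m ε z t) (D.sRef m ε z t))
      (Finset.Ioo 0 (((Γ m).l1 t).length + 3)) (Finset.range (((Γ m).l1 t).length + 3)),
    ‖pvskFld (D.Xo m ε a z t) (D.kit m ε) (D.X₀ m ε a) (z + (Γ m).pout t) ((Γ m).dout t) ((Γ m).l1 t) (D.Xr m ε a z t) (D.Xe m ε a z t) j η‖ₑ ∂(pvP ε) ≠ ∞ := by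
  filter_upwards [hk, hS, h.mM, h.bM, h.ring, self_mem_nhdsWithin] with ε h1 h2 h3 h4 h5 h6 j hj
  exact pvcp_ring_fin (Ev := pvcpEv1 D Γ m ε z t) (X := pvcpFld D Γ m ε a z t) h6 (pvcp_ev1_null hd h1 h2) h5 hj (h3 j hj) (h4 j hj)

/-- **FIELD `bes` OF `PvypThk`, verbatim**, with `CB := pvbeCB * cM` -/
theorem pvcp_bes {M : ℝ → Set ℂ} {cM h : ℝ} (H : PvcpClose2 D a m z t M cM h) (hwf : ∀ᶠ ε in 𝓝[>] (0 : ℝ), PvsyCycWF (pvP ε) 2 (D.cyc2 m ε z t)) :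
    ∀ᶠ ε in 𝓝[>] (0 : ℝ), ∫⁻ η in D.G m ε z t ∩ pvsyEv 2 (D.cyc2 m ε z t) (Finset.Ioo 0 2) (Finset.range 2), ‖D.Xe m ε a z t η‖ₑ ^ 2 ∂(pvP ε)
      ≤ pvbeCB * ENNReal.ofReal cM * ENNReal.ofReal (h ^ 2) := by
  filter_upwards [hwf, H.mM, H.bM, H.vol, H.recg, self_mem_nhdsWithin] with ε h1 h2 h3 h4 h5 h6
  have hEv : NullMeasurableSet (D.G m ε z t ∩ pvsyEv 2 (D.cyc2 m ε z t) (Finset.Ioo 0 2) (Finset.range 2)) (pvP ε) := pvcp_ev0_null h1 _ _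
  rw [pvcp_set_eq hEv, mul_assoc, ← ENNReal.ofReal_mul H.c0]
  exact (pvbe_one_mask pvbe_in_Q' h6 h2 h3 h5).trans (by gcongr)

/-- a ring on the short cycle gives `PvcpClose2` -/
theorem pvcp_close2_of_ring {Mk : ℝ → ℕ → Set ℂ} {B : Set ℂ} {a₀ cM h : ℝ} (c0 : 0 ≤ cM) (mM : ∀ᶠ ε in 𝓝[>] (0 : ℝ), MeasurableSet (Mk ε 1))
    (bM : ∀ᶠ ε in 𝓝[>] (0 : ℝ), Bornology.IsBounded (Mk ε 1)) (vol : ∀ᶠ ε in 𝓝[>] (0 : ℝ), volume (Mk ε 1) ≤ ENNReal.ofReal (cM * h ^ 2))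
    (ring : ∀ᶠ ε in 𝓝[>] (0 : ℝ), PvcqRing ε 2 (pvcpEv2 D m ε z t) (D.fld2 m ε a z t) (Mk ε) B a₀) : PvcpClose2 D a m z t (fun ε => Mk ε 1) cM h where
  c0 := c0
  mM := mM
  bM := bM
  vol := vol
  recg := by
    filter_upwards [ring] with ε h1
    exact h1.rec (j := 1) (by norm_num)

end close

/-! ## 4. forcing -/

section frc

variable {τ : Type}

/-- **FORCING ALONG THE LONG CYCLE**: the kit (TR21 (a), TR22: 34 229 244), admission of the reference plug (P18: 18 47 127), and bounds for the three foreign connectors at ALMOST EVERY pair of states (P16: 272 134; the engine does not see degenerate states: `pvsy_reg_ae`).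
All the constants are numbers: they do not depend on the mesh. -/
structure PvcpFrc1 (D : PvypDat τ) (Γ : ℕ → PvtsGeo τ) (m : ℕ) (z : ℂ) (t : τ) (β' βc qa qk qf qc : ℝ≥0∞) : Prop where
  βc0 : βc ≠ 0
  qa0 : qa ≠ 0
  qa1 : qa ≤ 1
  qk1 : qk ≤ 1
  qf0 : qf ≠ 0
  qf1 : qf ≤ 1
  qc0 : qc ≠ 0
  qc1 : qc ≤ 1
  kit : ∀ᶠ ε in 𝓝[>] (0 : ℝ), (D.kit m ε).Forced (pvP ε) β' qk
  adm : ∀ᶠ ε in 𝓝[>] (0 : ℝ), βc ≤ pvP ε (D.Gu m ε z t)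
  /-- the exit funnel -/
  out : ∀ᶠ ε in 𝓝[>] (0 : ℝ), ∀ᵐ σ ∂(pvP ε), σ ∈ D.G m ε z t → σ ∈ (D.kit m ε).G (z + (Γ m).pout t) ((Γ m).dout t) →
    qa ≤ pvtiP (pvP ε) (D.O m ε z t ∪ (D.kit m ε).O (z + (Γ m).pout t) ((Γ m).dout t)) (D.Ao m ε z t) σ
  /-- the entrance funnel of the reference plug -/
  ref : ∀ᶠ ε in 𝓝[>] (0 : ℝ), ∀ᵐ σ ∂(pvP ε), σ ∈ (D.kit m ε).G (z + (Γ m).zu t + (Γ m).pin0) (Γ m).din0 → σ ∈ D.Gu m ε z t →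
    qf ≤ pvtiP (pvP ε) ((D.kit m ε).O (z + (Γ m).zu t + (Γ m).pin0) (Γ m).din0 ∪ D.Ou m ε z t) (D.Ar m ε z t) σ
  /-- the thick link -/
  thk : ∀ᶠ ε in 𝓝[>] (0 : ℝ), ∀ᵐ σ ∂(pvP ε), σ ∈ D.Gu m ε z t → σ ∈ D.G m ε z t → qc ≤ pvtiP (pvP ε) (D.Ou m ε z t ∪ D.O m ε z t) (D.Ae m ε z t) σ

variable {D : PvypDat τ} {Γ : ℕ → PvtsGeo τ} {m : ℕ} {z : ℂ} {t : τ} {β' βc qa qk qf qc : ℝ≥0∞}

/-- **FIELD `frc` OF `PvypCyc`, verbatim** -/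
theorem pvcp_frc1 (h : PvcpFrc1 D Γ m z t β' βc qa qk qf qc) (hd : ((Γ m).dout t) ^ 4 = 1) (hdel : ∀ᶠ ε in 𝓝[>] (0 : ℝ), (D.kit m ε).δ = (Γ m).δ) :
    ∃ β' βc qa qk qf qc : ℝ≥0∞, β' ≠ 0 ∧ βc ≠ 0 ∧ qa ≠ 0 ∧ qk ≠ 0 ∧ qf ≠ 0 ∧ qc ≠ 0 ∧
    (∀ᶠ ε in 𝓝[>] (0 : ℝ), β' ≤ pvP ε (D.kit m ε).G₀) ∧ (∀ᶠ ε in 𝓝[>] (0 : ℝ), βc ≤ pvP ε (D.Gu m ε z t)) ∧
    ∀ᶠ ε in 𝓝[>] (0 : ℝ), PvsyCycForced (pvP ε) (((Γ m).l1 t).length + 3)
      (pvskList (D.sOut m ε z t) (D.kit m ε) (z + (Γ m).pout t) ((Γ m).dout t) ((Γ m).l1 t) (D.Kr m ε z t) (D.Ar m ε z t) (D.sRef m ε z t))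
      (Finset.Ioo 0 (((Γ m).l1 t).length + 3)) (Finset.range (((Γ m).l1 t).length + 3)) (pvskQ qa qk qf qc ((Γ m).l1 t).length) := by
  obtain ⟨ε₀, hε₀⟩ := h.kit.exists
  refine ⟨β', βc, qa, qk, qf, qc, hε₀.β0, h.βc0, h.qa0, hε₀.q0, h.qf0, h.qc0, h.kit.mono fun ε hε => hε.adm, h.adm, ?_⟩
  filter_upwards [h.kit, h.adm, h.out, h.ref, h.thk, hdel] with ε h1 h2 h3 h4 h5 h6
  obtain ⟨d1, d2⟩ := pvyp_door_ref (Γ m) h6 z t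
  refine pvsk_forced h1 h.qk1 hd (by simp) (fun _ => ?_) h.qa0 h.qa1 h3 h.qf0 h.qf1 ?_ (fun _ => ⟨h.qc0, h.qc1, h5⟩)
  · exact fun h0 => h.βc0 (le_antisymm (h0 ▸ h2) zero_le)
  · rw [d1, d2]
    exact h4

/-- **FORCING ALONG THE SHORT CYCLE** (P16 (d): thick short links; constants of the menu, UNIFORM in the level) -/
structure PvcpFrc2 (D : PvypDat τ) (m : ℕ) (z : ℂ) (t : τ) (βu qb qe : ℝ≥0∞) : Prop where
  βu0 : βu ≠ 0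
  qb0 : qb ≠ 0
  qb1 : qb ≤ 1
  qe0 : qe ≠ 0
  qe1 : qe ≤ 1
  adm : ∀ᶠ ε in 𝓝[>] (0 : ℝ), βu ≤ pvP ε (D.Gu m ε z t)
  /-- the thick return link -/
  bck : ∀ᶠ ε in 𝓝[>] (0 : ℝ), ∀ᵐ σ ∂(pvP ε), σ ∈ D.G m ε z t → σ ∈ D.Gu m ε z t → qb ≤ pvtiP (pvP ε) (D.O m ε z t ∪ D.Ou m ε z t) (D.Ab m ε z t) σ
  /-- the thick link -/
  thk : ∀ᶠ ε in 𝓝[>] (0 : ℝ), ∀ᵐ σ ∂(pvP ε), σ ∈ D.Gu m ε z t → σ ∈ D.G m ε z t → qe ≤ pvtiP (pvP ε) (D.Ou m ε z t ∪ D.O m ε z t) (D.Ae m ε z t) σ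

variable {βu qb qe : ℝ≥0∞}

/-- **FIELD `frc` OF `PvypThk`, verbatim** -/
theorem pvcp_frc2 (h : PvcpFrc2 D m z t βu qb qe) :
    ∀ᶠ ε in 𝓝[>] (0 : ℝ), PvsyCycForced (pvP ε) 2 (D.cyc2 m ε z t) (Finset.Ioo 0 2) (Finset.range 2) (pvypQ2 qb qe) := by
  filter_upwards [h.adm, h.bck, h.thk] with ε h1 h2 h3
  have c0 : D.cyc2 m ε z t 0 = D.sBack m ε z t := rfl
  have c1 : D.cyc2 m ε z t 1 = D.sRef m ε z t := rfl
  have two : ∀ {P : ℕ → Prop}, P 0 → P 1 → ∀ j, j < 2 → P j := by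
    intro P p0 p1 j hj
    interval_cases j
    · exact p0
    · exact p1
  refine ⟨fun j hj hj2 => ?_, fun j _ hj2 => ?_, fun j _ hj2 => ?_, fun j _ hj2 => ?_⟩
  · have e : j = 1 := by have := Finset.mem_Ioo.1 hj; omega
    subst e
    rw [c1]
    exact fun h0 => h.βu0 (le_antisymm ((show pvP ε (D.Gu m ε z t) = 0 from h0) ▸ h1) zero_le)
  · exact two (P := fun j => pvypQ2 qb qe j ≠ 0) h.qb0 h.qe0 j hj2
  · exact two (P := fun j => pvypQ2 qb qe j ≤ 1) h.qb1 h.qe1 j hj2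
  · exact two (P := fun j => ∀ᵐ σ ∂(pvP ε), σ ∈ (D.cyc2 m ε z t j).G → σ ∈ (D.cyc2 m ε z t ((j + 1) % 2)).G →
      pvypQ2 qb qe j ≤ pvtiP (pvP ε) ((D.cyc2 m ε z t j).O ∪ (D.cyc2 m ε z t ((j + 1) % 2)).O) (D.cyc2 m ε z t j).A σ) h2 h3 j hj2

end frc

/-! ## 5. the records of 58 -/

section rec58

variable {τ : Type} {D : PvypDat τ} {Γ : ℕ → PvtsGeo τ} {W : ℝ → PvtW} {k0 : ℝ → ℂ} {h : ℝ} {a : ℂ} {m : ℕ} {z : ℂ} {t : τ}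

/-- **THE RECORD `PvypCyc`** from: numbers (`d4 del W_eq kin0_eq`), well-formedness (`wf fld for_ forX`), FORCING (`PvcpFrc1`), CLOSE-P (`PvcpClose1`) -/
theorem pvcp_cyc {β' βc qa qk qf qc : ℝ≥0∞} {Mk : ℝ → ℕ → Set ℂ} {B : Set ℂ} {a₀ : ℝ}
    (d4 : ((Γ m).dout t) ^ 4 = 1) (del : ∀ᶠ ε in 𝓝[>] (0 : ℝ), (D.kit m ε).δ = (Γ m).δ)
    (W_eq : ∀ᶠ ε in 𝓝[>] (0 : ℝ), W ε = (D.kit m ε).W (pvP ε) (D.X₀ m ε a))
    (kin0_eq : ∀ᶠ ε in 𝓝[>] (0 : ℝ), D.kref Γ m ε a z t = k0 ε)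
    (wf : ∀ᶠ ε in 𝓝[>] (0 : ℝ), (D.kit m ε).WF) (fld : ∀ᶠ ε in 𝓝[>] (0 : ℝ), (D.kit m ε).Fld (D.X₀ m ε a))
    (for_ : ∀ᶠ ε in 𝓝[>] (0 : ℝ), PvskFor (pvP ε) (D.sOut m ε z t) (D.kit m ε) (z + (Γ m).pout t) ((Γ m).dout t) ((Γ m).l1 t) (D.Kr m ε z t) (D.Ar m ε z t) (D.sRef m ε z t))
    (forX : ∀ᶠ ε in 𝓝[>] (0 : ℝ), PvskForFld (pvP ε) (D.sOut m ε z t) (D.kit m ε) (z + (Γ m).pout t) ((Γ m).dout t) ((Γ m).l1 t) (D.Kr m ε z t) (D.sRef m ε z t)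
      (D.Xo m ε a z t) (D.Xr m ε a z t) (D.Xe m ε a z t))
    (F : PvcpFrc1 D Γ m z t β' βc qa qk qf qc) (C : PvcpClose1 D Γ a m z t Mk B a₀) : PvypCyc D Γ W k0 a m z t where
  d4 := d4
  del := del
  W_eq := W_eq
  kin0_eq := kin0_eq
  wf := wf
  fld := fld
  for_ := for_
  forX := forX
  frc := pvcp_frc1 F d4 del
  fin := pvcp_fin C d4 wf for_
  tail := pvcp_tail C d4 wf for_

/-- **THE RECORD `PvypThk`**, `CB := pvbeCB * cM` -/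
theorem pvcp_thk {βu qb qe : ℝ≥0∞} {M : ℝ → Set ℂ} {cM : ℝ}
    (wf : ∀ᶠ ε in 𝓝[>] (0 : ℝ), PvsyCycWF (pvP ε) 2 (D.cyc2 m ε z t)) (fld : ∀ᶠ ε in 𝓝[>] (0 : ℝ), PvsyCycFld (pvP ε) 2 (D.cyc2 m ε z t) (D.fld2 m ε a z t))
    (F : PvcpFrc2 D m z t βu qb qe) (C : PvcpClose2 D a m z t M cM h) : PvypThk D h βu qb qe (pvbeCB * ENNReal.ofReal cM) a m z t where
  wf := wf
  fld := fld
  frc := pvcp_frc2 F
  adm := F.adm
  bes := pvcp_bes C wf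

end rec58

end Claimed.Agent.R289
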