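import Claimed.Agent.R289.Rsw.Exports
import Claimed.Agent.R289.Ppp.Ind
import Claimed.Agent.R289.Vor.Chain

/-!
# Row 289 (S0537), unit TR (TR21 lower bounds, tool), file Tr/Lane : LOCAL TWO-COLOUR PATTERN PACKAGES, LANES OF CELLS      (owner helper229; prefix `pvln_`, defs `pvln*`, `Pvln*`)

Post of 234 (ruling 5): TR21 (a) cell connectors, (d) thick short connectors = "FKG + chains of rectangles in polyomino lanes".      Everything here is ANNEALED (law `pvP ε`), and independent of the final shape of the states `G` and of the connector events `A_e`.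

* §1 LOCAL PACKAGE.  `pvlnReg c η` = region of the colour `c` (`true` = black: `cfB η`, `false` = white: `cfW η`).   `pvlnAll c l` = all the patterns of the list `l` hold in that region.
  `pvlnG cen u` = mesh event (`u/8`-net in the squares of half side `u` centred at `cen`).   `pvlnLoc N c l cen u` = `restr (N ×ˢ univ) ⁻¹' (pvlnAll ∩ LF ∩ pvlnG)`.   `PvlnFit N l cen u` = the geometry fits.
  `pvln_loc_meas`, `pvln_loc_reads` (read from `N ×ˢ univ`), **`pvln_loc_robust`** (if `η ∈ pvlnLoc` then the patterns hold in EVERY configuration that agrees with `η` on `N`),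
  `pvln_loc_prob` (`P(all) ≤ P(loc) + #cen · 37² exp(-(u/8)²/(8ε²))`), `pvln_fkg`, **`pvln_loc_ge`**, `pvln_err`, **`pvln_loc_half`** (`P(loc) ≥ q^{#l}/2` as soon as `u ≥ U ε`).
* §2 SEVERAL WINDOWS.  `pvln_two` (black window, white window, disjoint: product), `pvln_many`.
* §3 LANES (deterministic).  `pvlnC δ k` closed cell (`= pvtSq δ k` of `Tr/Poly` by `rfl`), `PvlnAdj` (share a side), `pvlnLane δ L` = patterns of the lane `L : List (ℤ × ℤ)`: LR + TB crossing of every cell, long crossing of every domino.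
  `PvlnHub B U δ k x0` : `x0` is joined in `B ∩ U` to an LR and a TB crossing of the cell `k`.   **`pvln_lane_det`** : all patterns hold in `B` ⟹ ONE `x0` is a hub of EVERY cell of the lane (`U = pvlnU δ L`).
  **`pvln_hook_H`, `pvln_hook_V`** : any path of `B` which crosses the strip of a cell from one side of the cell to the other is joined to the hub.
* §4 PROBABILITY.  `pvlnW δ L` window (collar `δ/8`), `pvlnLaneEv δ c L` local event of the lane, `pvln_lane_fit`, `pvln_lane_q` (RSW constant), **`pvln_lane_prob`** : `P ≥ q^(3n)/2` for `≤ n` cells of side `δ ≥ U(n) ε`, either colour.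
* §5 USE.  **`pvln_lane_hub`**, `pvln_lane_net` (hubs and `δ/16`-net in EVERY configuration which agrees with `η` on the window), `pvln_lane_nbd`, `pvln_hub_sides`;
  **`pvln_joined_vc`**, `pvln_joined_VC` : a path in `cfB η ∩ U` ⟹ a chain of black sites lying in `W ⊇ U^{+ρ}` with touching cells (`PvVC` of `Defs/Top`; then `dls_vc_iff` of `Del/Seam` gives a `Join` of the Delaunay `PvMap`);
  `pvln_W_disj`, **`pvln_corridor_prob`** (black lane + white lane, no touching cells: `P ≥ (q^(3n)/2)²`).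
-/

set_option autoImplicit false
set_option linter.unusedSectionVars false
set_option linter.unusedVariables false

namespace Claimed.Agent.R289

open MeasureTheory ProbabilityTheory Set Filter Topology Metric
open scoped ENNReal NNReal

/-! ## 1. the local package -/

/-- region of the colour `c` (`true` = black), monotone form -/
def pvlnReg (c : Bool) (η : Conf PvPt) : Set ℂ := pvrbM (cond c (cfBk η) (cfWh η)) (cond c (cfWh η) (cfBk η))

/-- all the patterns of the list hold in the region of the colour `c` -/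
def pvlnAll (c : Bool) (l : List RswTri) : Set (Conf PvPt) := {η | ∀ e ∈ l, e.Holds (pvlnReg c η)}

/-- the mesh event: every square of half side `u` centred at a point of `cen` has a `u/8`-net of sites -/
def pvlnG (cen : List ℂ) (u : ℝ) : Set (Conf PvPt) := {η | ∀ w ∈ cen, η ∈ pvmGood univ (u / 8) w u}

/-- patterns + local finiteness + mesh -/
def pvlnCore (c : Bool) (l : List RswTri) (cen : List ℂ) (u : ℝ) : Set (Conf PvPt) := pvlnAll c l ∩ {η | PvLF η} ∩ pvlnG cen u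

/-- **the local event**: the core, read on the configuration restricted to the window `N` -/
def pvlnLoc (N : Set ℂ) (c : Bool) (l : List RswTri) (cen : List ℂ) (u : ℝ) : Set (Conf PvPt) :=
  Conf.restr (N ×ˢ univ) ⁻¹' pvlnCore c l cen u

/-- the geometry of a package -/
structure PvlnFit (N : Set ℂ) (l : List RswTri) (cen : List ℂ) (u : ℝ) : Prop where
  pos : 0 < u
  meas : MeasurableSet N
  nice : ∀ e ∈ l, e.Nice
  cover : ∀ e ∈ l, ∀ z ∈ e.K, ∃ w ∈ cen, z ∈ pvmSq w u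
  sub : ∀ w ∈ cen, pvmSq w (u + 2 * (u / 8)) ⊆ N

theorem pvln_eqns_cite : True := by
  have := @pvlnReg.eq_1; have := @pvlnAll.eq_1; have := @pvlnG.eq_1; have := @pvlnCore.eq_1; have := @pvlnLoc.eq_1
  trivial

theorem pvln_reg_black (η : Conf PvPt) : pvlnReg true η = cfB η := rfl
theorem pvln_reg_white (η : Conf PvPt) : pvlnReg false η = cfW η := rfl

theorem pvln_all_black (l : List RswTri) : pvlnAll true l = {η | ∀ e ∈ l, e.Holds (cfB η)} := rfl
theorem pvln_all_white (l : List RswTri) : pvlnAll false l = {η | ∀ e ∈ l, e.Holds (cfW η)} := rfl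

section pack
variable {N : Set ℂ} {c : Bool} {l : List RswTri} {cen : List ℂ} {u : ℝ}

theorem pvln_nbd (hF : PvlnFit N l cen u) {e : RswTri} (he : e ∈ l) {z w : ℂ} (hz : z ∈ e.K) (hw : ‖w - z‖ < u / 8) : w ∈ N := by
  obtain ⟨w0, hw0, hz0⟩ := hF.cover e he z hz
  refine hF.sub w0 hw0 ⟨?_, ?_⟩
  · have h1 := (Complex.abs_re_le_norm (w - z)).trans hw.le
    have h2 := hz0.1
    have e1 : w.re - w0.re = (w - z).re + (z.re - w0.re) := by simp
    rw [e1]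
    have := abs_add_le (w - z).re (z.re - w0.re)
    have := hF.pos
    linarith
  · have h1 := (Complex.abs_im_le_norm (w - z)).trans hw.le
    have h2 := hz0.2
    have e1 : w.im - w0.im = (w - z).im + (z.im - w0.im) := by simp
    rw [e1]
    have := abs_add_le (w - z).im (z.im - w0.im)
    have := hF.pos
    linarith

theorem pvln_net (hF : PvlnFit N l cen u) {η : Conf PvPt} (h : η ∈ pvlnG cen u) {e : RswTri} (he : e ∈ l) {z : ℂ} (hz : z ∈ e.K) :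
    ∃ s ∈ cfWh η ∪ cfBk η, ‖s - z‖ < u / 8 := by
  obtain ⟨w, hw, hzw⟩ := hF.cover e he z hz
  have hu := hF.pos
  obtain ⟨p, hp, -, hpz⟩ := pvm_good_net (by positivity) (h w hw) z hzw
  exact ⟨p.1, by rw [← pvra_sites]; exact ⟨p, hp, rfl⟩, hpz⟩

/-- the mesh event is local -/
theorem pvln_G_loc (hF : PvlnFit N l cen u) {η η' : Conf PvPt} (hη : Conf.restr (N ×ˢ univ) η = Conf.restr (N ×ˢ univ) η') :
    η ∈ pvlnG cen u ↔ η' ∈ pvlnG cen u := by
  unfold pvlnG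
  simp only [mem_ofPred_eq]
  have hu := hF.pos
  refine forall₂_congr fun w hw => ?_
  refine pvm_good_loc (by positivity) hu.le fun p hp => ?_
  have hpN : p ∈ N ×ˢ (univ : Set Bool) := ⟨hF.sub w hw hp, mem_univ _⟩
  have h1 : p ∈ (Conf.restr (N ×ˢ univ) η).pts ↔ p ∈ (Conf.restr (N ×ˢ univ) η').pts := by rw [hη]
  simp only [Conf.restr, mem_inter_iff] at h1
  exact ⟨fun h => (h1.1 ⟨h, hpN⟩).1, fun h => (h1.2 ⟨h, hpN⟩).1⟩

theorem pvln_restr_restr (N : Set ℂ) (η : Conf PvPt) :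
    Conf.restr (N ×ˢ univ) (Conf.restr (N ×ˢ (univ : Set Bool)) η) = Conf.restr (N ×ˢ univ) η := pvra_restr_restr subset_rfl η

/-- on the mesh event the region of each colour inside the patterns is read from the window -/
theorem pvln_reg_loc (hF : PvlnFit N l cen u) {η : Conf PvPt} (h : η ∈ pvlnG cen u) {e : RswTri} (he : e ∈ l) :
    pvlnReg c (Conf.restr (N ×ˢ univ) η) ∩ e.K = pvlnReg c η ∩ e.K := by
  unfold pvlnReg
  rw [pvra_Wh_restr, pvra_Bk_restr]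
  cases c
  · exact pvra_loc_set (fun z hz w hw => pvln_nbd hF he hz hw) fun z hz => pvln_net hF h he hz
  · exact pvra_loc_set (fun z hz w hw => pvln_nbd hF he hz hw) fun z hz => by
      obtain ⟨s, hs, hsz⟩ := pvln_net hF h he hz
      exact ⟨s, hs.symm, hsz⟩

theorem pvln_all_loc (hF : PvlnFit N l cen u) {η : Conf PvPt} (h : η ∈ pvlnG cen u) :
    Conf.restr (N ×ˢ univ) η ∈ pvlnAll c l ↔ η ∈ pvlnAll c l := by
  unfold pvlnAll
  simp only [mem_ofPred_eq]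
  exact forall₂_congr fun e he => pvra_holds_congr (pvln_reg_loc hF h he)

/-- **robustness**: on the local event the patterns hold, and the mesh is good, in EVERY configuration which agrees with `η` on the window -/
theorem pvln_loc_robust (hF : PvlnFit N l cen u) {η η' : Conf PvPt} (h : η ∈ pvlnLoc N c l cen u)
    (hη : Conf.restr (N ×ˢ univ) η' = Conf.restr (N ×ˢ univ) η) : η' ∈ pvlnAll c l ∧ η' ∈ pvlnG cen u := by
  obtain ⟨⟨h1, -⟩, h3⟩ := h
  have h4 : η' ∈ pvlnG cen u := (pvln_G_loc hF (by rw [pvln_restr_restr, hη])).1 h3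
  refine ⟨(pvln_all_loc hF h4).1 ?_, h4⟩
  rw [hη]; exact h1

theorem pvln_loc_sub (hF : PvlnFit N l cen u) : pvlnLoc N c l cen u ⊆ pvlnAll c l ∩ pvlnG cen u :=
  fun _ h => pvln_loc_robust hF h rfl

theorem pvln_sub_loc (hF : PvlnFit N l cen u) : pvlnCore c l cen u ⊆ pvlnLoc N c l cen u := by
  rintro η ⟨⟨h1, h2⟩, h3⟩
  exact ⟨⟨(pvln_all_loc hF h3).2 h1, pvra_LF_restr h2 _⟩, (pvln_G_loc hF (pvln_restr_restr N η)).2 h3⟩

/-- the local event is read from the window -/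
theorem pvln_loc_reads (N : Set ℂ) (c : Bool) (l : List RswTri) (cen : List ℂ) (u : ℝ) :
    Conf.ReadsSet (N ×ˢ univ) (pvlnLoc N c l cen u) := by
  intro η
  show Conf.restr (N ×ˢ univ) (Conf.restr (N ×ˢ univ) η) ∈ pvlnCore c l cen u ↔ Conf.restr (N ×ˢ univ) η ∈ pvlnCore c l cen u
  rw [pvln_restr_restr]

theorem pvln_G_meas (cen : List ℂ) (u : ℝ) : MeasurableSet (pvlnG cen u) := by
  have : pvlnG cen u = ⋂ w ∈ {w | w ∈ cen}, pvmGood univ (u / 8) w u := by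
    ext η; simp [pvlnG]
  rw [this]
  exact MeasurableSet.biInter (List.finite_toSet _).countable fun w _ => pvm_good_meas _ _ _ _

theorem pvln_core_meas (hl : ∀ e ∈ l, e.Nice) (c : Bool) (cen : List ℂ) (u : ℝ) : MeasurableSet (pvlnCore c l cen u) := by
  refine MeasurableSet.inter ?_ (pvln_G_meas cen u)
  have hm : ∀ e ∈ l, MeasurableSet ({η : Conf PvPt | e.Holds (pvlnReg c η)} ∩ {η | PvLF η}) := by
    intro e he
    cases c
    · exact pv_conn_meas_white (hl e he)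
    · exact pv_conn_meas (hl e he)
  have : pvlnAll c l ∩ {η | PvLF η} = (⋂ e ∈ {e | e ∈ l}, ({η : Conf PvPt | e.Holds (pvlnReg c η)} ∩ {η | PvLF η})) ∩ {η | PvLF η} := by
    ext η
    simp only [pvlnAll, mem_inter_iff, mem_ofPred_eq, mem_iInter]
    exact ⟨fun h => ⟨fun e he => ⟨h.1 e he, h.2⟩, h.2⟩, fun h => ⟨fun e he => (h.1 e he).1, h.2⟩⟩
  rw [this]
  exact (MeasurableSet.biInter (List.finite_toSet _).countable hm).inter pvcn_LF_meas

theorem pvln_win_meas (hN : MeasurableSet N) : MeasurableSet (N ×ˢ (univ : Set Bool)) := hN.prod MeasurableSet.univ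

theorem pvln_loc_meas (hF : PvlnFit N l cen u) (c : Bool) : MeasurableSet (pvlnLoc N c l cen u) :=
  Conf.measurable_restr (pvln_win_meas hF.meas) (pvln_core_meas hF.nice c cen u)

/-- the bad mesh event -/
theorem pvln_G_prob (ε : ℝ) (cen : List ℂ) (hu : 0 < u) :
    pvP ε (pvlnG cen u)ᶜ ≤ ENNReal.ofReal (cen.length * (37 ^ 2 * Real.exp (-((u / 8) ^ 2 / (8 * ε ^ 2))))) := by
  have hsub : (pvlnG cen u)ᶜ ⊆ ⋃ w ∈ cen.toFinset, (pvmGood univ (u / 8) w u)ᶜ := by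
    intro η hη
    simp only [pvlnG, mem_compl_iff, mem_ofPred_eq, not_forall] at hη
    obtain ⟨w, hw, hη⟩ := hη
    exact mem_biUnion (List.mem_toFinset.2 hw) hη
  have hone : ∀ w : ℂ, pvP ε (pvmGood univ (u / 8) w u)ᶜ ≤ ENNReal.ofReal (37 ^ 2 * Real.exp (-((u / 8) ^ 2 / (8 * ε ^ 2)))) := by
    intro w
    have := pvm_good_prob (ρ := u / 8) (L := u) (by positivity) hu.le (pv_isPpp ε) (c := univ) univ_nonempty w
    have e : 4 * u / (u / 8) + 5 = 37 := by field_simp; norm_num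
    rwa [e] at this
  calc pvP ε (pvlnG cen u)ᶜ ≤ ∑ w ∈ cen.toFinset, pvP ε (pvmGood univ (u / 8) w u)ᶜ := (measure_mono hsub).trans (measure_biUnion_finset_le _ _)
    _ ≤ ∑ _w ∈ cen.toFinset, ENNReal.ofReal (37 ^ 2 * Real.exp (-((u / 8) ^ 2 / (8 * ε ^ 2)))) := Finset.sum_le_sum fun w _ => hone w
    _ = (cen.toFinset.card : ℝ≥0∞) * ENNReal.ofReal (37 ^ 2 * Real.exp (-((u / 8) ^ 2 / (8 * ε ^ 2)))) := by
        rw [Finset.sum_const, nsmul_eq_mul]
    _ ≤ (cen.length : ℝ≥0∞) * ENNReal.ofReal (37 ^ 2 * Real.exp (-((u / 8) ^ 2 / (8 * ε ^ 2)))) := by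
        gcongr
        exact List.toFinset_card_le _
    _ = ENNReal.ofReal (cen.length * (37 ^ 2 * Real.exp (-((u / 8) ^ 2 / (8 * ε ^ 2))))) := by
        rw [ENNReal.ofReal_mul (p := (cen.length : ℝ)) (by positivity), ENNReal.ofReal_natCast]

/-- the probability of the local event -/
theorem pvln_loc_prob (hF : PvlnFit N l cen u) (c : Bool) (ε : ℝ) :
    pvP ε (pvlnAll c l) ≤ pvP ε (pvlnLoc N c l cen u) + ENNReal.ofReal (cen.length * (37 ^ 2 * Real.exp (-((u / 8) ^ 2 / (8 * ε ^ 2))))) := by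
  have hLF : pvP ε {η | PvLF η}ᶜ = 0 := pvcn_LF_ae ε
  have hsub : pvlnAll c l ⊆ pvlnLoc N c l cen u ∪ ((pvlnG cen u)ᶜ ∪ {η | PvLF η}ᶜ) := by
    intro η hη
    by_cases h1 : η ∈ pvlnG cen u
    · by_cases h2 : PvLF η
      · exact Or.inl (pvln_sub_loc hF ⟨⟨hη, h2⟩, h1⟩)
      · exact Or.inr (Or.inr h2)
    · exact Or.inr (Or.inl h1)
  calc pvP ε (pvlnAll c l) ≤ pvP ε (pvlnLoc N c l cen u) + (pvP ε (pvlnG cen u)ᶜ + pvP ε {η | PvLF η}ᶜ) :=
        (measure_mono hsub).trans ((measure_union_le _ _).trans (add_le_add le_rfl (measure_union_le _ _)))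
    _ ≤ _ := by
        rw [hLF, add_zero]
        exact add_le_add le_rfl (pvln_G_prob ε cen hF.pos)

/-- annealed FKG for the patterns of one colour; the probabilities are those of the BLACK patterns (colour flip) -/
theorem pvln_fkg (ε : ℝ) (c : Bool) (hl : ∀ e ∈ l, e.Nice) : (l.map fun e => pvP ε (pvrEv e)).prod ≤ pvP ε (pvlnAll c l) := by
  cases c
  · have := pvr_fkg_listW ε l hl
    simp only [pvr_flip_ev] at this
    exact this
  · exact pvr_fkg_list ε l hl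

theorem pvln_prod_ge {α : Type*} (l : List α) (f : α → ℝ≥0∞) (q : ℝ≥0∞) (h : ∀ e ∈ l, q ≤ f e) : q ^ l.length ≤ (l.map f).prod := by
  induction l with
  | nil => simp
  | cons a t ih =>
    rw [List.length_cons, pow_succ', List.map_cons, List.prod_cons]
    exact mul_le_mul' (h a List.mem_cons_self) (ih fun e he => h e (List.mem_cons_of_mem _ he))

/-- **lower bound for the local event** -/
theorem pvln_loc_ge (hF : PvlnFit N l cen u) (c : Bool) (ε : ℝ) {q : ℝ} (hq0 : 0 ≤ q) (hq : ∀ e ∈ l, ENNReal.ofReal q ≤ pvP ε (pvrEv e)) :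
    ENNReal.ofReal (q ^ l.length) ≤ pvP ε (pvlnLoc N c l cen u) + ENNReal.ofReal (cen.length * (37 ^ 2 * Real.exp (-((u / 8) ^ 2 / (8 * ε ^ 2))))) := by
  rw [ENNReal.ofReal_pow hq0]
  exact ((pvln_prod_ge l _ _ hq).trans (pvln_fkg ε c hF.nice)).trans (pvln_loc_prob hF c ε)

/-- the error term is small at the scales `u ≥ U ε` -/
theorem pvln_err (n : ℕ) {a : ℝ} (ha : 0 < a) :
    ∃ U : ℝ, 1 ≤ U ∧ ∀ ε : ℝ, 0 < ε → ∀ u : ℝ, U * ε ≤ u → ∀ k : ℕ, k ≤ n → (k : ℝ) * (37 ^ 2 * Real.exp (-((u / 8) ^ 2 / (8 * ε ^ 2)))) ≤ a := by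
  refine ⟨max 1 (n * 37 ^ 2 * 512 / a), le_max_left _ _, fun ε hε u hu k hk => ?_⟩
  set U : ℝ := max 1 (n * 37 ^ 2 * 512 / a) with hU
  have hU1 : 1 ≤ U := le_max_left _ _
  have hU2 : n * 37 ^ 2 * 512 / a ≤ U := le_max_right _ _
  have hupos : 0 < u := lt_of_lt_of_le (by positivity) hu
  set x : ℝ := (u / 8) ^ 2 / (8 * ε ^ 2) with hx
  have hxpos : 0 < x := by positivity
  have hxU : U ^ 2 / 512 ≤ x := by
    rw [hx, div_le_div_iff₀ (by norm_num) (by positivity)]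
    have : (U * ε) ^ 2 ≤ u ^ 2 := pow_le_pow_left₀ (by positivity) hu 2
    nlinarith
  have hexp : Real.exp (-x) ≤ 1 / x := by
    rw [Real.exp_neg, one_div]
    exact inv_anti₀ hxpos (by have := Real.add_one_le_exp x; linarith)
  have h1 : 1 / x ≤ 512 / U := by
    rw [div_le_div_iff₀ hxpos (by positivity)]
    have : U ≤ U ^ 2 := by nlinarith
    have h2 : U ^ 2 ≤ 512 * x := by linarith [(div_le_iff₀ (by norm_num : (0:ℝ) < 512)).1 hxU]
    linarith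
  have h3 : (n : ℝ) * 37 ^ 2 * 512 ≤ U * a := (div_le_iff₀ ha).1 hU2
  have hkn : (k : ℝ) ≤ n := by exact_mod_cast hk
  calc (k : ℝ) * (37 ^ 2 * Real.exp (-x)) ≤ (n : ℝ) * (37 ^ 2 * (512 / U)) := by
        have := hexp.trans h1
        gcongr
    _ = (n * 37 ^ 2 * 512) / U := by ring
    _ ≤ a := by rw [div_le_iff₀ (by positivity)]; linarith

/-- **the local event has probability `≥ q^{#l} / 2`** at the scales `u ≥ U ε`; `U` depends only on `q`, on a bound for the number of patterns and of squares -/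
theorem pvln_loc_half {q : ℝ} (hq0 : 0 < q) (hq1 : q ≤ 1) (n : ℕ) :
    ∃ U : ℝ, 1 ≤ U ∧ ∀ (ε : ℝ), 0 < ε → ∀ (N : Set ℂ) (c : Bool) (l : List RswTri) (cen : List ℂ) (u : ℝ), PvlnFit N l cen u → U * ε ≤ u →
      l.length ≤ n → cen.length ≤ n → (∀ e ∈ l, ENNReal.ofReal q ≤ pvP ε (pvrEv e)) → ENNReal.ofReal (q ^ n / 2) ≤ pvP ε (pvlnLoc N c l cen u) := by
  obtain ⟨U, hU1, hU⟩ := pvln_err n (a := q ^ n / 2) (by positivity)
  refine ⟨U, hU1, fun ε hε N c l cen u hF hu hl hc hq => ?_⟩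
  have h1 := pvln_loc_ge hF c ε hq0.le hq
  have h2 := hU ε hε u hu cen.length hc
  have h3 : q ^ n ≤ q ^ l.length := pow_le_pow_of_le_one hq0.le hq1 hl
  have hsplit : ENNReal.ofReal (q ^ n) = ENNReal.ofReal (q ^ n / 2) + ENNReal.ofReal (q ^ n / 2) := by
    rw [← ENNReal.ofReal_add (by positivity) (by positivity)]; congr 1; ring
  have hchain : ENNReal.ofReal (q ^ n / 2) + ENNReal.ofReal (q ^ n / 2) ≤ pvP ε (pvlnLoc N c l cen u) + ENNReal.ofReal (q ^ n / 2) := by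
    rw [← hsplit]
    exact ((ENNReal.ofReal_le_ofReal h3).trans h1).trans (add_le_add le_rfl (ENNReal.ofReal_le_ofReal h2))
  exact (ENNReal.add_le_add_iff_right ENNReal.ofReal_ne_top).1 hchain

end pack

/-! ## 2. several windows -/

theorem pvln_win_disj {N N' : Set ℂ} (h : Disjoint N N') : Disjoint (N ×ˢ (univ : Set Bool)) (N' ×ˢ (univ : Set Bool)) :=
  Set.disjoint_left.2 fun _ hp hp' => Set.disjoint_left.1 h hp.1 hp'.1

/-- two packages in disjoint windows are independent -/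
theorem pvln_two (ε : ℝ) {N N' : Set ℂ} {c c' : Bool} {l l' : List RswTri} {cen cen' : List ℂ} {u u' : ℝ} (hF : PvlnFit N l cen u)
    (hF' : PvlnFit N' l' cen' u') (hd : Disjoint N N') :
    pvP ε (pvlnLoc N c l cen u ∩ pvlnLoc N' c' l' cen' u') = pvP ε (pvlnLoc N c l cen u) * pvP ε (pvlnLoc N' c' l' cen' u') :=
  (pv_isPpp ε).measure_inter_reads (pvln_win_meas hF.meas) (pvln_win_meas hF'.meas) (pvln_win_disj hd)
    (pvln_loc_meas hF c).nullMeasurableSet (pvln_loc_meas hF' c').nullMeasurableSet (pvln_loc_reads _ _ _ _ _) (pvln_loc_reads _ _ _ _ _)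

/-- a package: window, colour, patterns, centres, scale -/
structure PvlnPk where
  N : Set ℂ
  c : Bool
  l : List RswTri
  cen : List ℂ
  u : ℝ

/-- the local event of a package -/
def PvlnPk.Loc (P : PvlnPk) : Set (Conf PvPt) := pvlnLoc P.N P.c P.l P.cen P.u
/-- the geometry of the package fits -/
def PvlnPk.Fit (P : PvlnPk) : Prop := PvlnFit P.N P.l P.cen P.u

theorem pvln_eqns_cite2 : True := by
  have := @PvlnPk.Loc.eq_1; have := @PvlnPk.Fit.eq_1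
  trivial

/-- finitely many packages in pairwise disjoint windows are independent -/
theorem pvln_many (ε : ℝ) {ι : Type*} (s : Finset ι) (P : ι → PvlnPk) (hF : ∀ i ∈ s, (P i).Fit)
    (hd : (s : Set ι).PairwiseDisjoint fun i => (P i).N) : pvP ε (⋂ i ∈ s, (P i).Loc) = ∏ i ∈ s, pvP ε (P i).Loc :=
  (pv_isPpp ε).measure_iInter_reads (O := fun i => (P i).N ×ˢ (univ : Set Bool)) s (fun i hi => pvln_win_meas (hF i hi).meas)
    (fun i hi j hj hij => pvln_win_disj (hd hi hj hij)) (fun i hi => (pvln_loc_meas (hF i hi) _).nullMeasurableSet)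
    fun i _ => pvln_loc_reads _ _ _ _ _

/-- a package is independent of every (null measurable) event read off its window -/
theorem pvln_indep_off (ε : ℝ) {N : Set ℂ} {c : Bool} {l : List RswTri} {cen : List ℂ} {u : ℝ} (hF : PvlnFit N l cen u) {O : Set PvPt}
    (hO : MeasurableSet O) (hd : Disjoint (N ×ˢ (univ : Set Bool)) O) {A : Set (Conf PvPt)} (hA : NullMeasurableSet A (pvP ε)) (hr : Conf.ReadsSet O A) :
    pvP ε (pvlnLoc N c l cen u ∩ A) = pvP ε (pvlnLoc N c l cen u) * pvP ε A :=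
  (pv_isPpp ε).measure_inter_reads (pvln_win_meas hF.meas) hO hd (pvln_loc_meas hF c).nullMeasurableSet hA (pvln_loc_reads _ _ _ _ _) hr

/-! ## 3. lanes of cells -/

/-- the closed cell `k` of the grid of mesh `δ` (`= pvtSq δ k` of `Tr/Poly`, by `rfl`) -/
def pvlnC (δ : ℝ) (k : ℤ × ℤ) : Set ℂ := rswRect ((k.1 : ℝ) * δ) (((k.1 : ℝ) + 1) * δ) ((k.2 : ℝ) * δ) (((k.2 : ℝ) + 1) * δ)

/-- left-right crossing of the cell -/
def pvlnH (δ : ℝ) (k : ℤ × ℤ) : RswTri := rswLR ((k.1 : ℝ) * δ) (((k.1 : ℝ) + 1) * δ) ((k.2 : ℝ) * δ) (((k.2 : ℝ) + 1) * δ)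
/-- bottom-top crossing of the cell -/
def pvlnV (δ : ℝ) (k : ℤ × ℤ) : RswTri := rswTB ((k.1 : ℝ) * δ) (((k.1 : ℝ) + 1) * δ) ((k.2 : ℝ) * δ) (((k.2 : ℝ) + 1) * δ)

/-- long crossing of the horizontal domino `k`, `k + (1,0)` -/
def pvlnDH (δ : ℝ) (k : ℤ × ℤ) : RswTri := rswLR ((k.1 : ℝ) * δ) (((k.1 : ℝ) + 2) * δ) ((k.2 : ℝ) * δ) (((k.2 : ℝ) + 1) * δ)
/-- long crossing of the vertical domino `k`, `k + (0,1)` -/
def pvlnDV (δ : ℝ) (k : ℤ × ℤ) : RswTri := rswTB ((k.1 : ℝ) * δ) (((k.1 : ℝ) + 1) * δ) ((k.2 : ℝ) * δ) (((k.2 : ℝ) + 2) * δ)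

/-- two cells which share a side (`= pvtG4.Adj` of `Tr/Poly`) -/
def PvlnAdj (k k' : ℤ × ℤ) : Prop := (k'.2 = k.2 ∧ (k'.1 = k.1 + 1 ∨ k'.1 = k.1 - 1)) ∨ (k'.1 = k.1 ∧ (k'.2 = k.2 + 1 ∨ k'.2 = k.2 - 1))

/-- the long crossing of the domino made of two adjacent cells -/
def pvlnD (δ : ℝ) (k k' : ℤ × ℤ) : RswTri :=
  if k'.2 = k.2 then pvlnDH δ (min k.1 k'.1, k.2) else pvlnDV δ (k.1, min k.2 k'.2)

/-- the patterns of a lane: both crossings of every cell, the long crossing of every domino -/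
def pvlnLane (δ : ℝ) : List (ℤ × ℤ) → List RswTri
  | [] => []
  | [k] => [pvlnH δ k, pvlnV δ k]
  | k :: k' :: t => pvlnH δ k :: pvlnV δ k :: pvlnD δ k k' :: pvlnLane δ (k' :: t)

/-- the union of the cells of a lane -/
def pvlnU (δ : ℝ) (L : List (ℤ × ℤ)) : Set ℂ := ⋃ k ∈ {k | k ∈ L}, pvlnC δ k

/-- **hub**: `x0` is joined inside `B ∩ U` to a left-right and to a bottom-top crossing of the cell `k` (crossings inside `B ∩ cell`) -/
def PvlnHub (B U : Set ℂ) (δ : ℝ) (k : ℤ × ℤ) (x0 : ℂ) : Prop :=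
  ∃ a b c d : ℂ, a.re = (k.1 : ℝ) * δ ∧ b.re = ((k.1 : ℝ) + 1) * δ ∧ c.im = (k.2 : ℝ) * δ ∧ d.im = ((k.2 : ℝ) + 1) * δ ∧
    JoinedIn (B ∩ pvlnC δ k) a b ∧ JoinedIn (B ∩ pvlnC δ k) c d ∧ JoinedIn (B ∩ U) x0 a ∧ JoinedIn (B ∩ U) x0 c

theorem pvln_eqns_cite3 : True := by
  have := @pvlnC.eq_1; have := @pvlnH.eq_1; have := @pvlnV.eq_1; have := @pvlnDH.eq_1; have := @pvlnDV.eq_1; have := @PvlnAdj.eq_1
  have := @pvlnD.eq_1; have := @pvlnLane.eq_1; have := @pvlnLane.eq_2; have := @pvlnLane.eq_3; have := @pvlnU.eq_1; have := @PvlnHub.eq_1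
  trivial

section lane
variable {B U U' : Set ℂ} {δ : ℝ} {k k' : ℤ × ℤ} {x0 : ℂ}

theorem pvln_hub_mono (hU : U ⊆ U') (h : PvlnHub B U δ k x0) : PvlnHub B U' δ k x0 := by
  obtain ⟨a, b, c, d, h1, h2, h3, h4, h5, h6, h7, h8⟩ := h
  exact ⟨a, b, c, d, h1, h2, h3, h4, h5, h6, h7.mono (inter_subset_inter_right _ hU), h8.mono (inter_subset_inter_right _ hU)⟩

theorem pvln_H_holds (h : (pvlnH δ k).Holds B) : ∃ a b : ℂ, a.re = (k.1 : ℝ) * δ ∧ b.re = ((k.1 : ℝ) + 1) * δ ∧ JoinedIn (B ∩ pvlnC δ k) a b := by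
  obtain ⟨a, ha, b, hb, hab⟩ := h
  exact ⟨a, b, le_antisymm ha.2.1 ha.1, le_antisymm hb.2.1 hb.1, hab⟩

theorem pvln_V_holds (h : (pvlnV δ k).Holds B) : ∃ c d : ℂ, c.im = (k.2 : ℝ) * δ ∧ d.im = ((k.2 : ℝ) + 1) * δ ∧ JoinedIn (B ∩ pvlnC δ k) c d := by
  obtain ⟨a, ha, b, hb, hab⟩ := h
  exact ⟨a, b, le_antisymm ha.2.2.2 ha.2.2.1, le_antisymm hb.2.2.2 hb.2.2.1, hab⟩

/-- in one cell: the two crossings meet -/
theorem pvln_cell_meet {a b c d : ℂ} (ha : a.re = (k.1 : ℝ) * δ) (hb : b.re = ((k.1 : ℝ) + 1) * δ) (hc : c.im = (k.2 : ℝ) * δ)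
    (hd : d.im = ((k.2 : ℝ) + 1) * δ) (h : JoinedIn (B ∩ pvlnC δ k) a b) (h' : JoinedIn (B ∩ pvlnC δ k) c d) : JoinedIn (B ∩ pvlnC δ k) a c := by
  obtain ⟨z, k1, k2⟩ := rsw_meet h h' (fun z hz => by rw [ha, hb]; exact ⟨hz.2.1, hz.2.2.1⟩)
    (fun z hz => by rw [hc, hd]; exact ⟨hz.2.2.2.1, hz.2.2.2.2⟩)
  exact k1.trans k2.symm

/-- a single cell with its two crossings is a hub -/
theorem pvln_hub_self (hC : pvlnC δ k ⊆ U) (h1 : (pvlnH δ k).Holds B) (h2 : (pvlnV δ k).Holds B) : ∃ x0, PvlnHub B U δ k x0 := by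
  obtain ⟨a, b, ha, hb, hab⟩ := pvln_H_holds h1
  obtain ⟨c, d, hc, hd, hcd⟩ := pvln_V_holds h2
  have hm : B ∩ pvlnC δ k ⊆ B ∩ U := inter_subset_inter_right _ hC
  exact ⟨a, a, b, c, d, ha, hb, hc, hd, hab, hcd, JoinedIn.refl (hm hab.source_mem), (pvln_cell_meet ha hb hc hd hab hcd).mono hm⟩

/-- **hooking, horizontal**: a path of `B` which runs, inside the horizontal strip of the cell, from the left of the cell to its right, is joined to the hub -/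
theorem pvln_hook_H {A : Set ℂ} {p q : ℂ} (hC : pvlnC δ k ⊆ U) (hA : A ⊆ U) (h : PvlnHub B U δ k x0) (hpq : JoinedIn (B ∩ A) p q)
    (hp : p.re ≤ (k.1 : ℝ) * δ) (hq : ((k.1 : ℝ) + 1) * δ ≤ q.re) (hs : ∀ z ∈ A, (k.2 : ℝ) * δ ≤ z.im ∧ z.im ≤ ((k.2 : ℝ) + 1) * δ) :
    JoinedIn (B ∩ U) x0 p := by
  obtain ⟨a, b, c, d, h1, h2, h3, h4, h5, h6, h7, h8⟩ := h
  obtain ⟨z, k1, k2⟩ := rsw_meet hpq h6 (fun z hz => ⟨hp.trans hz.2.1, hz.2.2.1.trans hq⟩) (fun z hz => by rw [h3, h4]; exact hs z hz.2)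
  exact (h8.trans (k2.mono (inter_subset_inter_right _ hC))).trans (k1.mono (inter_subset_inter_right _ hA)).symm

/-- **hooking, vertical** -/
theorem pvln_hook_V {A : Set ℂ} {p q : ℂ} (hC : pvlnC δ k ⊆ U) (hA : A ⊆ U) (h : PvlnHub B U δ k x0) (hpq : JoinedIn (B ∩ A) p q)
    (hp : p.im ≤ (k.2 : ℝ) * δ) (hq : ((k.2 : ℝ) + 1) * δ ≤ q.im) (hs : ∀ z ∈ A, (k.1 : ℝ) * δ ≤ z.re ∧ z.re ≤ ((k.1 : ℝ) + 1) * δ) :
    JoinedIn (B ∩ U) x0 p := by
  obtain ⟨a, b, c, d, h1, h2, h3, h4, h5, h6, h7, h8⟩ := h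
  obtain ⟨z, k1, k2⟩ := rsw_meet h5 hpq (fun z hz => by rw [h1, h2]; exact hs z hz.2) (fun z hz => ⟨hp.trans hz.2.2.2.1, hz.2.2.2.2.trans hq⟩)
  exact (h7.trans (k1.mono (inter_subset_inter_right _ hC))).trans (k2.mono (inter_subset_inter_right _ hA)).symm


theorem pvln_hub_trans {x1 : ℂ} (h01 : JoinedIn (B ∩ U) x1 x0) (h : PvlnHub B U δ k x0) : PvlnHub B U δ k x1 := by
  obtain ⟨a, b, c, d, h1, h2, h3, h4, h5, h6, h7, h8⟩ := h
  exact ⟨a, b, c, d, h1, h2, h3, h4, h5, h6, h01.trans h7, h01.trans h8⟩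

/-- the hubs of the two cells of a horizontal domino are joined by its long crossing -/
theorem pvln_step_H {x1 : ℂ} (hδ : 0 ≤ δ) (m y : ℤ) (hk : pvlnC δ (m, y) ⊆ U) (hk' : pvlnC δ (m + 1, y) ⊆ U) (hD : (pvlnDH δ (m, y)).Holds B)
    (h : PvlnHub B U δ (m, y) x0) (h' : PvlnHub B U δ (m + 1, y) x1) : JoinedIn (B ∩ U) x0 x1 := by
  obtain ⟨p, hp, q, hq, hpq⟩ := hD
  have hA : rswRect ((m : ℝ) * δ) (((m : ℝ) + 2) * δ) ((y : ℝ) * δ) (((y : ℝ) + 1) * δ) ⊆ U := by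
    intro z hz
    by_cases hz1 : z.re ≤ ((m : ℝ) + 1) * δ
    · exact hk ⟨hz.1, hz1, hz.2.2.1, hz.2.2.2⟩
    · refine hk' ⟨?_, ?_, hz.2.2.1, hz.2.2.2⟩
      · push_cast; exact (not_le.1 hz1).le
      · push_cast; have := hz.2.1; linarith
  have hs : ∀ z ∈ rswRect ((m : ℝ) * δ) (((m : ℝ) + 2) * δ) ((y : ℝ) * δ) (((y : ℝ) + 1) * δ), (y : ℝ) * δ ≤ z.im ∧ z.im ≤ ((y : ℝ) + 1) * δ :=
    fun z hz => ⟨hz.2.2.1, hz.2.2.2⟩
  have e1 : JoinedIn (B ∩ U) x0 p := pvln_hook_H hk hA h hpq hp.2.1 (by have := hq.1; show ((m : ℝ) + 1) * δ ≤ q.re; nlinarith) hs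
  have e2 : JoinedIn (B ∩ U) x1 p := pvln_hook_H hk' hA h' hpq (by have := hp.2.1; show p.re ≤ (((m + 1 : ℤ)) : ℝ) * δ; push_cast; nlinarith)
    (by have := hq.1; show ((((m + 1 : ℤ)) : ℝ) + 1) * δ ≤ q.re; push_cast; linarith) hs
  exact e1.trans e2.symm

/-- the hubs of the two cells of a vertical domino are joined by its long crossing -/
theorem pvln_step_V {x1 : ℂ} (hδ : 0 ≤ δ) (m y : ℤ) (hk : pvlnC δ (m, y) ⊆ U) (hk' : pvlnC δ (m, y + 1) ⊆ U) (hD : (pvlnDV δ (m, y)).Holds B)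
    (h : PvlnHub B U δ (m, y) x0) (h' : PvlnHub B U δ (m, y + 1) x1) : JoinedIn (B ∩ U) x0 x1 := by
  obtain ⟨p, hp, q, hq, hpq⟩ := hD
  have hA : rswRect ((m : ℝ) * δ) (((m : ℝ) + 1) * δ) ((y : ℝ) * δ) (((y : ℝ) + 2) * δ) ⊆ U := by
    intro z hz
    by_cases hz1 : z.im ≤ ((y : ℝ) + 1) * δ
    · exact hk ⟨hz.1, hz.2.1, hz.2.2.1, hz1⟩
    · refine hk' ⟨hz.1, hz.2.1, ?_, ?_⟩
      · push_cast; exact (not_le.1 hz1).le
      · push_cast; have := hz.2.2.2; linarith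
  have hs : ∀ z ∈ rswRect ((m : ℝ) * δ) (((m : ℝ) + 1) * δ) ((y : ℝ) * δ) (((y : ℝ) + 2) * δ), (m : ℝ) * δ ≤ z.re ∧ z.re ≤ ((m : ℝ) + 1) * δ :=
    fun z hz => ⟨hz.1, hz.2.1⟩
  have e1 : JoinedIn (B ∩ U) x0 p := pvln_hook_V hk hA h hpq hp.2.2.2 (by have := hq.2.2.1; show ((y : ℝ) + 1) * δ ≤ q.im; nlinarith) hs
  have e2 : JoinedIn (B ∩ U) x1 p := pvln_hook_V hk' hA h' hpq (by have := hp.2.2.2; show p.im ≤ (((y + 1 : ℤ)) : ℝ) * δ; push_cast; nlinarith)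
    (by have := hq.2.2.1; show ((((y + 1 : ℤ)) : ℝ) + 1) * δ ≤ q.im; push_cast; linarith) hs
  exact e1.trans e2.symm

/-- the hubs of two adjacent cells are joined by the long crossing of their domino -/
theorem pvln_step {x1 : ℂ} (hδ : 0 ≤ δ) (hadj : PvlnAdj k k') (hk : pvlnC δ k ⊆ U) (hk' : pvlnC δ k' ⊆ U) (hD : (pvlnD δ k k').Holds B)
    (h : PvlnHub B U δ k x0) (h' : PvlnHub B U δ k' x1) : JoinedIn (B ∩ U) x0 x1 := by
  obtain ⟨m, y⟩ := k
  obtain ⟨m', y'⟩ := k'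
  unfold pvlnD at hD
  simp only [PvlnAdj] at hadj hD
  rcases hadj with ⟨rfl, rfl | rfl⟩ | ⟨rfl, rfl | rfl⟩
  · rw [if_pos rfl, min_eq_left (by omega)] at hD
    exact pvln_step_H hδ m y' hk hk' hD h h'
  · rw [if_pos rfl, min_eq_right (by omega)] at hD
    have e : m = m - 1 + 1 := by ring
    rw [e] at hk h
    exact (pvln_step_H hδ (m - 1) y' hk' hk hD h' h).symm
  · rw [if_neg (by omega), min_eq_left (by omega)] at hD
    exact pvln_step_V hδ m' y hk hk' hD h h'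
  · rw [if_neg (by omega), min_eq_right (by omega)] at hD
    have e : y = y - 1 + 1 := by ring
    rw [e] at hk h
    exact (pvln_step_V hδ m' (y - 1) hk' hk hD h' h).symm

theorem pvln_C_sub_U {L : List (ℤ × ℤ)} (hk : k ∈ L) : pvlnC δ k ⊆ pvlnU δ L := fun _ hz => mem_biUnion (show k ∈ {k | k ∈ L} from hk) hz

theorem pvln_U_cons (L : List (ℤ × ℤ)) : pvlnU δ L ⊆ pvlnU δ (k :: L) := by
  intro z hz
  obtain ⟨j, hj, hzj⟩ := mem_iUnion₂.1 hz
  exact mem_biUnion (show j ∈ {k' | k' ∈ k :: L} from List.mem_cons_of_mem _ hj) hzj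

/-- **LANE LEMMA (deterministic)**: if all the patterns of a lane hold in `B`, ONE path component of `B ∩ lane` contains a left-right and a bottom-top crossing of every cell of the lane -/
theorem pvln_lane_det (hδ : 0 ≤ δ) : ∀ L : List (ℤ × ℤ), L ≠ [] → L.IsChain PvlnAdj → (∀ e ∈ pvlnLane δ L, e.Holds B) →
    ∃ x0, ∀ k ∈ L, PvlnHub B (pvlnU δ L) δ k x0
  | [], h, _, _ => absurd rfl h
  | [k], _, _, hB => by
    obtain ⟨x0, hx0⟩ := pvln_hub_self (U := pvlnU δ [k]) (pvln_C_sub_U List.mem_cons_self) (hB _ (by simp [pvlnLane])) (hB _ (by simp [pvlnLane]))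
    exact ⟨x0, fun j hj => by rw [List.mem_singleton.1 hj]; exact hx0⟩
  | k :: k' :: t, _, hc, hB => by
    obtain ⟨hadj, hc'⟩ := List.isChain_cons_cons.1 hc
    obtain ⟨x0, hx0⟩ := pvln_lane_det hδ (k' :: t) (by simp) hc' fun e he => hB e (by simp only [pvlnLane, List.mem_cons]; right; right; right; exact he)
    have hsub : pvlnU δ (k' :: t) ⊆ pvlnU δ (k :: k' :: t) := pvln_U_cons _
    have hCk : pvlnC δ k ⊆ pvlnU δ (k :: k' :: t) := pvln_C_sub_U List.mem_cons_self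
    have hCk' : pvlnC δ k' ⊆ pvlnU δ (k :: k' :: t) := pvln_C_sub_U (List.mem_cons_of_mem _ List.mem_cons_self)
    obtain ⟨x1, hx1⟩ := pvln_hub_self hCk (hB _ (by simp [pvlnLane])) (hB _ (by simp [pvlnLane]))
    have hk' := pvln_hub_mono hsub (hx0 k' List.mem_cons_self)
    have hj := pvln_step hδ hadj hCk hCk' (hB _ (by simp [pvlnLane])) hx1 hk'
    refine ⟨x0, fun j hj' => ?_⟩
    rcases List.mem_cons.1 hj' with rfl | hj'
    · exact pvln_hub_trans hj.symm hx1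
    · exact pvln_hub_mono hsub (hx0 j hj')

end lane

/-! ## 4. the probability of a lane -/

/-- the centre of the cell -/
noncomputable def pvlnCtr (δ : ℝ) (k : ℤ × ℤ) : ℂ := ⟨((k.1 : ℝ) + 1 / 2) * δ, ((k.2 : ℝ) + 1 / 2) * δ⟩

/-- the window of a lane: the cells with a collar of width `δ/8` -/
def pvlnW (δ : ℝ) (L : List (ℤ × ℤ)) : Set ℂ := ⋃ k ∈ {k | k ∈ L}, pvmSq (pvlnCtr δ k) (δ / 2 + 2 * (δ / 2 / 8))

/-- the local event of a lane -/
def pvlnLaneEv (δ : ℝ) (c : Bool) (L : List (ℤ × ℤ)) : Set (Conf PvPt) :=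
  pvlnLoc (pvlnW δ L) c (pvlnLane δ L) (L.map (pvlnCtr δ)) (δ / 2)

theorem pvln_eqns_cite4 : True := by
  have := @pvlnCtr.eq_1; have := @pvlnW.eq_1; have := @pvlnLaneEv.eq_1
  trivial

section prob
variable {δ : ℝ} {k k' : ℤ × ℤ}

theorem pvln_C_eq_sq (δ : ℝ) (k : ℤ × ℤ) : pvlnC δ k = pvmSq (pvlnCtr δ k) (δ / 2) := by
  ext z
  simp only [pvlnC, rswRect, pvmSq, pvlnCtr, mem_ofPred_eq, abs_le]
  constructor
  · rintro ⟨h1, h2, h3, h4⟩
    refine ⟨⟨?_, ?_⟩, ⟨?_, ?_⟩⟩ <;> linarith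
  · rintro ⟨⟨h1, h2⟩, ⟨h3, h4⟩⟩
    refine ⟨?_, ?_, ?_, ?_⟩ <;> linarith

theorem pvln_sq_meas (w : ℂ) (L : ℝ) : MeasurableSet (pvmSq w L) := by
  have : pvmSq w L = {z : ℂ | |z.re - w.re| ≤ L} ∩ {z : ℂ | |z.im - w.im| ≤ L} := rfl
  rw [this]
  exact (measurableSet_le ((Complex.measurable_re.sub_const _).abs) measurable_const).inter
    (measurableSet_le ((Complex.measurable_im.sub_const _).abs) measurable_const)

theorem pvln_W_meas (δ : ℝ) (L : List (ℤ × ℤ)) : MeasurableSet (pvlnW δ L) :=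
  MeasurableSet.biUnion (List.finite_toSet L).countable fun _ _ => pvln_sq_meas _ _

theorem pvln_D_nice (δ : ℝ) (k k' : ℤ × ℤ) : (pvlnD δ k k').Nice := by
  unfold pvlnD
  split_ifs
  · exact rsw_nice_LR _ _ _ _
  · exact rsw_nice_TB _ _ _ _

theorem pvln_lane_nice (δ : ℝ) : ∀ L : List (ℤ × ℤ), ∀ e ∈ pvlnLane δ L, e.Nice
  | [], e, he => by simp [pvlnLane] at he
  | [k], e, he => by
    simp only [pvlnLane, List.mem_cons, List.not_mem_nil, or_false] at he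
    rcases he with rfl | rfl
    · exact rsw_nice_LR _ _ _ _
    · exact rsw_nice_TB _ _ _ _
  | k :: k' :: t, e, he => by
    simp only [pvlnLane, List.mem_cons] at he
    rcases he with rfl | rfl | rfl | he
    · exact rsw_nice_LR _ _ _ _
    · exact rsw_nice_TB _ _ _ _
    · exact pvln_D_nice _ _ _
    · exact pvln_lane_nice δ (k' :: t) e he

theorem pvln_D_sub (hδ : 0 ≤ δ) (hadj : PvlnAdj k k') : (pvlnD δ k k').K ⊆ pvlnC δ k ∪ pvlnC δ k' := by
  obtain ⟨m, y⟩ := k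
  obtain ⟨m', y'⟩ := k'
  unfold pvlnD
  simp only [PvlnAdj] at hadj ⊢
  have hH : ∀ (m y : ℤ), (pvlnDH δ (m, y)).K ⊆ pvlnC δ (m, y) ∪ pvlnC δ (m + 1, y) := by
    intro m y z hz
    by_cases hz1 : z.re ≤ ((m : ℝ) + 1) * δ
    · exact Or.inl ⟨hz.1, hz1, hz.2.2.1, hz.2.2.2⟩
    · refine Or.inr ⟨?_, ?_, hz.2.2.1, hz.2.2.2⟩
      · push_cast; exact (not_le.1 hz1).le
      · push_cast; have := hz.2.1; simp only at this; linarith
  have hV : ∀ (m y : ℤ), (pvlnDV δ (m, y)).K ⊆ pvlnC δ (m, y) ∪ pvlnC δ (m, y + 1) := by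
    intro m y z hz
    by_cases hz1 : z.im ≤ ((y : ℝ) + 1) * δ
    · exact Or.inl ⟨hz.1, hz.2.1, hz.2.2.1, hz1⟩
    · refine Or.inr ⟨hz.1, hz.2.1, ?_, ?_⟩
      · push_cast; exact (not_le.1 hz1).le
      · push_cast; have := hz.2.2.2; simp only at this; linarith
  rcases hadj with ⟨rfl, rfl | rfl⟩ | ⟨rfl, rfl | rfl⟩
  · rw [if_pos rfl, min_eq_left (by omega)]
    exact hH m y'
  · rw [if_pos rfl, min_eq_right (by omega), union_comm]
    have := hH (m - 1) y'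
    rwa [show m - 1 + 1 = m by ring] at this
  · rw [if_neg (by omega), min_eq_left (by omega)]
    exact hV m' y
  · rw [if_neg (by omega), min_eq_right (by omega), union_comm]
    have := hV m' (y - 1)
    rwa [show y - 1 + 1 = y by ring] at this

/-- the patterns of a lane live in the cells of the lane -/
theorem pvln_lane_sub (hδ : 0 ≤ δ) : ∀ L : List (ℤ × ℤ), L.IsChain PvlnAdj → ∀ e ∈ pvlnLane δ L, e.K ⊆ pvlnU δ L
  | [], _, e, he => by simp [pvlnLane] at he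
  | [k], _, e, he => by
    simp only [pvlnLane, List.mem_cons, List.not_mem_nil, or_false] at he
    rcases he with rfl | rfl <;> exact pvln_C_sub_U List.mem_cons_self
  | k :: k' :: t, hc, e, he => by
    obtain ⟨hadj, hc'⟩ := List.isChain_cons_cons.1 hc
    simp only [pvlnLane, List.mem_cons] at he
    rcases he with rfl | rfl | rfl | he
    · exact pvln_C_sub_U List.mem_cons_self
    · exact pvln_C_sub_U List.mem_cons_self
    · exact (pvln_D_sub hδ hadj).trans (union_subset (pvln_C_sub_U List.mem_cons_self) (pvln_C_sub_U (List.mem_cons_of_mem _ List.mem_cons_self)))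
    · exact (pvln_lane_sub hδ (k' :: t) hc' e he).trans (pvln_U_cons _)

/-- the geometry of a lane fits -/
theorem pvln_lane_fit (hδ : 0 < δ) {L : List (ℤ × ℤ)} (hc : L.IsChain PvlnAdj) :
    PvlnFit (pvlnW δ L) (pvlnLane δ L) (L.map (pvlnCtr δ)) (δ / 2) where
  pos := by positivity
  meas := pvln_W_meas δ L
  nice := pvln_lane_nice δ L
  cover := by
    intro e he z hz
    obtain ⟨k, hk, hzk⟩ := mem_iUnion₂.1 (pvln_lane_sub hδ.le L hc e he hz)
    exact ⟨pvlnCtr δ k, List.mem_map_of_mem hk, by rw [← pvln_C_eq_sq]; exact hzk⟩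
  sub := by
    intro w hw
    obtain ⟨k, hk, rfl⟩ := List.mem_map.1 hw
    exact fun z hz => mem_biUnion (show k ∈ {k | k ∈ L} from hk) hz

theorem pvln_lane_length (δ : ℝ) : ∀ L : List (ℤ × ℤ), (pvlnLane δ L).length ≤ 3 * L.length
  | [] => by simp [pvlnLane]
  | [k] => by simp [pvlnLane]
  | k :: k' :: t => by
    have := pvln_lane_length δ (k' :: t)
    simp only [pvlnLane, List.length_cons] at this ⊢
    omega

/-- every pattern of a lane is a translate / rotation of the crossing of a square or of the long crossing of a `2 × 1` rectangle -/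
theorem pvln_lane_pat (ε δ : ℝ) : ∀ L : List (ℤ × ℤ), ∀ e ∈ pvlnLane δ L,
    pvP ε (pvrEv e) = pvP ε (pvrEv (rswLR 0 (1 * δ) 0 δ)) ∨ pvP ε (pvrEv e) = pvP ε (pvrEv (rswLR 0 (2 * δ) 0 δ)) := by
  have hH : ∀ k : ℤ × ℤ, pvP ε (pvrEv (pvlnH δ k)) = pvP ε (pvrEv (rswLR 0 (1 * δ) 0 δ)) := by
    intro k
    unfold pvlnH
    rw [pvre_LR]; congr 3 <;> ring
  have hV : ∀ k : ℤ × ℤ, pvP ε (pvrEv (pvlnV δ k)) = pvP ε (pvrEv (rswLR 0 (1 * δ) 0 δ)) := by
    intro k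
    unfold pvlnV
    rw [pvre_TB]; congr 3 <;> ring
  have hD : ∀ k k' : ℤ × ℤ, pvP ε (pvrEv (pvlnD δ k k')) = pvP ε (pvrEv (rswLR 0 (2 * δ) 0 δ)) := by
    intro k k'
    unfold pvlnD
    split_ifs
    · unfold pvlnDH
      rw [pvre_LR]; congr 3 <;> ring
    · unfold pvlnDV
      rw [pvre_TB]; congr 3 <;> ring
  intro L
  induction L with
  | nil => intro e he; simp [pvlnLane] at he
  | cons k t ih =>
    cases t with
    | nil =>
      intro e he
      simp only [pvlnLane, List.mem_cons, List.not_mem_nil, or_false] at he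
      rcases he with rfl | rfl
      · exact Or.inl (hH k)
      · exact Or.inl (hV k)
    | cons k' t =>
      intro e he
      simp only [pvlnLane, List.mem_cons] at he
      rcases he with rfl | rfl | rfl | he
      · exact Or.inl (hH k)
      · exact Or.inl (hV k)
      · exact Or.inr (hD k k')
      · exact ih e he

/-- **the RSW constant of the lanes** -/
theorem pvln_lane_q : ∃ q : ℝ, 0 < q ∧ q ≤ 1 ∧ ∀ ε : ℝ, 0 < ε → ∀ δ : ℝ, 0 < δ → ∀ L : List (ℤ × ℤ), ∀ e ∈ pvlnLane δ L,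
    ENNReal.ofReal q ≤ pvP ε (pvrEv e) := by
  obtain ⟨c1, hc1, h1⟩ := pvr_rsw 1 one_pos
  obtain ⟨c2, hc2, h2⟩ := pvr_rsw 2 two_pos
  refine ⟨min (min c1 c2) 1, by positivity, min_le_right _ _, fun ε hε δ hδ L e he => ?_⟩
  have a1 := h1 ε hε δ hδ 0
  have a2 := h2 ε hε δ hδ 0
  rw [pvr_inv_tr] at a1 a2
  rcases pvln_lane_pat ε δ L e he with h | h
  · rw [h]; exact (ENNReal.ofReal_le_ofReal ((min_le_left _ _).trans (min_le_left _ _))).trans a1
  · rw [h]; exact (ENNReal.ofReal_le_ofReal ((min_le_left _ _).trans (min_le_right _ _))).trans a2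

/-- **PROBABILITY OF A LANE** (annealed; either colour): a lane of at most `n` cells of side `δ ≥ U ε` has its local event with probability `≥ q^(3n)/2`; `q` is absolute, `U = U(n)` -/
theorem pvln_lane_prob : ∃ q : ℝ, 0 < q ∧ q ≤ 1 ∧ ∀ n : ℕ, ∃ U : ℝ, 1 ≤ U ∧ ∀ ε : ℝ, 0 < ε → ∀ δ : ℝ, U * ε ≤ δ → ∀ (c : Bool) (L : List (ℤ × ℤ)),
    L.IsChain PvlnAdj → L.length ≤ n → ENNReal.ofReal (q ^ (3 * n) / 2) ≤ pvP ε (pvlnLaneEv δ c L) := by
  obtain ⟨q, hq0, hq1, hq⟩ := pvln_lane_q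
  refine ⟨q, hq0, hq1, fun n => ?_⟩
  obtain ⟨U, hU1, hU⟩ := pvln_loc_half hq0 hq1 (3 * n)
  refine ⟨2 * U, by linarith, fun ε hε δ hδU c L hc hn => ?_⟩
  have hδ : 0 < δ := lt_of_lt_of_le (by positivity) hδU
  exact hU ε hε _ c _ _ _ (pvln_lane_fit hδ hc) (by linarith) ((pvln_lane_length δ L).trans (by omega))
    (by rw [List.length_map]; omega) (hq ε hε δ hδ L)

end prob

/-! ## 5. what a lane event gives: hubs in every configuration that agrees on the window; vertex chains; two colours -/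

section use
variable {δ : ℝ} {c : Bool} {L : List (ℤ × ℤ)}

/-- **the lane event gives the hubs**, in EVERY configuration which agrees with `η` on the window of the lane -/
theorem pvln_lane_hub (hδ : 0 < δ) (hne : L ≠ []) (hc : L.IsChain PvlnAdj) {η η' : Conf PvPt} (h : η ∈ pvlnLaneEv δ c L)
    (hη : Conf.restr (pvlnW δ L ×ˢ univ) η' = Conf.restr (pvlnW δ L ×ˢ univ) η) :
    ∃ x0, ∀ k ∈ L, PvlnHub (pvlnReg c η') (pvlnU δ L) δ k x0 :=
  pvln_lane_det hδ.le L hne hc (pvln_loc_robust (pvln_lane_fit hδ hc) h hη).1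

/-- on the lane event every point of the lane has a site within `δ/16`, in every configuration which agrees with `η` on the window -/
theorem pvln_lane_net (hδ : 0 < δ) (hc : L.IsChain PvlnAdj) {η η' : Conf PvPt} (h : η ∈ pvlnLaneEv δ c L)
    (hη : Conf.restr (pvlnW δ L ×ˢ univ) η' = Conf.restr (pvlnW δ L ×ˢ univ) η) {z : ℂ} (hz : z ∈ pvlnU δ L) :
    ∃ s ∈ cfSites η', ‖s - z‖ < δ / 2 / 8 := by
  have hG := (pvln_loc_robust (pvln_lane_fit hδ hc) h hη).2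
  obtain ⟨k, hk, hzk⟩ := mem_iUnion₂.1 hz
  rw [pvln_C_eq_sq] at hzk
  obtain ⟨p, hp, -, hpz⟩ := pvm_good_net (by positivity) (hG (pvlnCtr δ k) (List.mem_map_of_mem hk)) z hzk
  exact ⟨p.1, ⟨p, hp, rfl⟩, hpz⟩

/-- the `δ/16`-neighbourhood of the lane lies in the window -/
theorem pvln_lane_nbd (hδ : 0 < δ) {z w : ℂ} (hz : z ∈ pvlnU δ L) (hw : ‖w - z‖ < δ / 2 / 8) : w ∈ pvlnW δ L := by
  obtain ⟨k, hk, hzk⟩ := mem_iUnion₂.1 hz
  rw [pvln_C_eq_sq] at hzk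
  refine mem_biUnion (show k ∈ {k | k ∈ L} from hk) ⟨?_, ?_⟩
  · have h1 := (Complex.abs_re_le_norm (w - z)).trans hw.le
    have e1 : w.re - (pvlnCtr δ k).re = (w - z).re + (z.re - (pvlnCtr δ k).re) := by simp
    rw [e1]
    have := abs_add_le (w - z).re (z.re - (pvlnCtr δ k).re)
    have := hzk.1
    linarith
  · have h1 := (Complex.abs_im_le_norm (w - z)).trans hw.le
    have e1 : w.im - (pvlnCtr δ k).im = (w - z).im + (z.im - (pvlnCtr δ k).im) := by simp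
    rw [e1]
    have := abs_add_le (w - z).im (z.im - (pvlnCtr δ k).im)
    have := hzk.2
    linarith

end use

/-- **from a path in the black region to a chain of black sites**: `U` any set, `ρ`-net on `U`, the `ρ`-neighbourhood of `U` inside `W` -/
theorem pvln_joined_vc {η : Conf PvPt} (hLF : PvLF η) {U W : Set ℂ} {ρ : ℝ} (hnet : ∀ z ∈ U, ∃ s ∈ cfSites η, ‖s - z‖ < ρ)
    (hW : ∀ z ∈ U, ∀ w : ℂ, ‖w - z‖ < ρ → w ∈ W) {x y : ℂ} (h : JoinedIn (cfB η ∩ U) x y) :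
    ∃ u v : ℂ, PvBk η W u ∧ PvBk η W v ∧ x ∈ cfCell η u ∧ y ∈ cfCell η v ∧ ‖u - x‖ < ρ ∧ ‖v - y‖ < ρ ∧
      Relation.ReflTransGen (fun a b => PvBk η W b ∧ (cfCell η a ∩ cfCell η b).Nonempty) u v := by
  have lf : VorLF (cfSites η) := pvr_lf hLF
  obtain ⟨γ, hγ⟩ := h
  have hsub : range γ ⊆ vorUn (cfSites η) (cfBk η) ∩ U := by
    rintro _ ⟨t, rfl⟩
    rw [← pvr_B_eq_un hLF]
    exact hγ t
  obtain ⟨a, ha, b, hb, hxa, hyb, hch⟩ := vorch_chain_of_preconnected lf (pvr_Bk_sub η) (isPreconnected_range γ.continuous) hsub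
    (x := x) (y := y) ⟨0, γ.source⟩ ⟨1, γ.target⟩
  -- a site whose cell meets `U` is close to the meeting point
  have hclose : ∀ v z : ℂ, z ∈ vorCell (cfSites η) v → z ∈ U → ‖v - z‖ < ρ := by
    intro v z hzv hzU
    obtain ⟨s, hs, hsz⟩ := hnet z hzU
    calc ‖v - z‖ = ‖z - v‖ := norm_sub_rev _ _
      _ ≤ ‖z - s‖ := hzv s hs
      _ = ‖s - z‖ := norm_sub_rev _ _
      _ < ρ := hsz
  have hbk : ∀ v z : ℂ, v ∈ cfBk η → z ∈ vorCell (cfSites η) v → z ∈ U → PvBk η W v :=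
    fun v z hv hzv hzU => ⟨hv, hW z hzU v (hclose v z hzv hzU)⟩
  refine ⟨a, b, hbk a x ha hxa.1 hxa.2, hbk b y hb hyb.1 hyb.2, by rw [cfCell_eq_vor]; exact hxa.1, by rw [cfCell_eq_vor]; exact hyb.1,
    hclose a x hxa.1 hxa.2, hclose b y hyb.1 hyb.2, ?_⟩
  refine Relation.ReflTransGen.mono ?_ _ _ hch
  rintro v w ⟨-, hw, z, ⟨hzv, hzw⟩, hzU⟩
  exact ⟨hbk w z hw hzw hzU, ⟨z, by rw [cfCell_eq_vor]; exact hzv, by rw [cfCell_eq_vor]; exact hzw⟩⟩

/-- vertex crossing from a path -/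
theorem pvln_joined_VC {η : Conf PvPt} (hLF : PvLF η) {U W A B : Set ℂ} {ρ : ℝ} (hnet : ∀ z ∈ U, ∃ s ∈ cfSites η, ‖s - z‖ < ρ)
    (hW : ∀ z ∈ U, ∀ w : ℂ, ‖w - z‖ < ρ → w ∈ W) {x y : ℂ} (h : JoinedIn (cfB η ∩ U) x y) (hA : ∀ w : ℂ, ‖w - x‖ < ρ → w ∈ A)
    (hB : ∀ w : ℂ, ‖w - y‖ < ρ → w ∈ B) : PvVC η W A B := by
  obtain ⟨u, v, hu, -, -, -, hux, hvy, hch⟩ := pvln_joined_vc hLF hnet hW h
  exact ⟨u, v, hA u hux, hB v hvy, hu, hch⟩

section sides
variable {B U : Set ℂ} {δ : ℝ} {k : ℤ × ℤ} {x0 : ℂ}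

/-- the hub is joined to a point of each of the four sides of the cell -/
theorem pvln_hub_sides (hC : pvlnC δ k ⊆ U) (h : PvlnHub B U δ k x0) :
    ∃ a b c d : ℂ, (a ∈ pvlnC δ k ∧ a.re = (k.1 : ℝ) * δ) ∧ (b ∈ pvlnC δ k ∧ b.re = ((k.1 : ℝ) + 1) * δ) ∧ (c ∈ pvlnC δ k ∧ c.im = (k.2 : ℝ) * δ) ∧
      (d ∈ pvlnC δ k ∧ d.im = ((k.2 : ℝ) + 1) * δ) ∧ JoinedIn (B ∩ U) x0 a ∧ JoinedIn (B ∩ U) x0 b ∧ JoinedIn (B ∩ U) x0 c ∧ JoinedIn (B ∩ U) x0 d := by
  obtain ⟨a, b, c, d, h1, h2, h3, h4, h5, h6, h7, h8⟩ := h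
  have hm : B ∩ pvlnC δ k ⊆ B ∩ U := inter_subset_inter_right _ hC
  exact ⟨a, b, c, d, ⟨h5.source_mem.2, h1⟩, ⟨h5.target_mem.2, h2⟩, ⟨h6.source_mem.2, h3⟩, ⟨h6.target_mem.2, h4⟩, h7, h7.trans (h5.mono hm), h8,
    h8.trans (h6.mono hm)⟩

end sides

/-! ### two lanes, two colours -/

/-- two lanes without touching cells have disjoint windows -/
theorem pvln_W_disj {δ : ℝ} (hδ : 0 < δ) {L L' : List (ℤ × ℤ)}
    (h : ∀ k ∈ L, ∀ k' ∈ L', 2 ≤ |k.1 - k'.1| ∨ 2 ≤ |k.2 - k'.2|) : Disjoint (pvlnW δ L) (pvlnW δ L') := by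
  refine Set.disjoint_left.2 fun z hz hz' => ?_
  obtain ⟨k, hk, hzk⟩ := mem_iUnion₂.1 hz
  obtain ⟨k', hk', hzk'⟩ := mem_iUnion₂.1 hz'
  have key : ∀ (a b : ℤ) (t : ℝ), |t - ((a : ℝ) + 1 / 2) * δ| ≤ δ / 2 + 2 * (δ / 2 / 8) → |t - ((b : ℝ) + 1 / 2) * δ| ≤ δ / 2 + 2 * (δ / 2 / 8) → ¬ 2 ≤ |a - b| := by
    intro a b t h1 h2 h3
    have h4 : |((a : ℝ) - b) * δ| ≤ 2 * (δ / 2 + 2 * (δ / 2 / 8)) := by
      have e : ((a : ℝ) - b) * δ = (t - ((b : ℝ) + 1 / 2) * δ) - (t - ((a : ℝ) + 1 / 2) * δ) := by ring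
      rw [e]
      exact (abs_sub _ _).trans (by linarith)
    rw [abs_mul, abs_of_pos hδ] at h4
    have h5 : (2 : ℝ) ≤ |(a : ℝ) - b| := by exact_mod_cast h3
    nlinarith
  rcases h k hk k' hk' with h1 | h1
  · exact key _ _ _ hzk.1 hzk'.1 h1
  · exact key _ _ _ hzk.2 hzk'.2 h1

/-- **TWO-COLOUR CORRIDOR** (annealed): a black lane and a white lane (at most `n` cells each, no touching cells): both local events with probability `≥ (q^(3n)/2)²` -/
theorem pvln_corridor_prob : ∃ q : ℝ, 0 < q ∧ q ≤ 1 ∧ ∀ n : ℕ, ∃ U : ℝ, 1 ≤ U ∧ ∀ ε : ℝ, 0 < ε → ∀ δ : ℝ, U * ε ≤ δ → ∀ (c c' : Bool) (L L' : List (ℤ × ℤ)),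
    L.IsChain PvlnAdj → L'.IsChain PvlnAdj → L.length ≤ n → L'.length ≤ n → (∀ k ∈ L, ∀ k' ∈ L', 2 ≤ |k.1 - k'.1| ∨ 2 ≤ |k.2 - k'.2|) →
    ENNReal.ofReal ((q ^ (3 * n) / 2) ^ 2) ≤ pvP ε (pvlnLaneEv δ c L ∩ pvlnLaneEv δ c' L') := by
  obtain ⟨q, hq0, hq1, hq⟩ := pvln_lane_prob
  refine ⟨q, hq0, hq1, fun n => ?_⟩
  obtain ⟨U, hU1, hU⟩ := hq n
  refine ⟨U, hU1, fun ε hε δ hδU c c' L L' hc hc' hn hn' hd => ?_⟩
  have hδ : 0 < δ := lt_of_lt_of_le (by positivity) hδU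
  have h2 : pvP ε (pvlnLaneEv δ c L ∩ pvlnLaneEv δ c' L') = pvP ε (pvlnLaneEv δ c L) * pvP ε (pvlnLaneEv δ c' L') :=
    pvln_two ε (pvln_lane_fit hδ hc) (pvln_lane_fit hδ hc') (pvln_W_disj hδ hd)
  rw [h2, sq, ENNReal.ofReal_mul (by positivity)]
  exact mul_le_mul' (hU ε hε δ hδU c L hc hn) (hU ε hε δ hδU c' L' hc' hn')

end Claimed.Agent.R289
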