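import Claimed.Agent.R289.Tr.CellHex
import Claimed.Agent.R289.Tr.Hook
import Claimed.Agent.R289.Tr.Lane

/-!
# Row 289 (S0537), THE WALL, chapter E / TR21 (a) + TR22, file Tr/PropKit : THE ABSTRACT PROPENSITY KIT      (owner helper229; prefix `pvpk_`, `Pvpk`)

Consumer: `PvthKit.WF`, `PvthKit.Forced` of 251 (`Tr/CellHex.lean`), i.e. the fields `wf`, `frc` of `PvcnOk` of 52 (`Tr/CellNum.lean`).      Tools: `pvtiP` of 141, annealed mixed-order FKG of 159 / 5 (`pvhk_ann_def`), covariance of 52 (`pvci_P_T`).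

TEX[Cardy:plugs] Def. 3.2 + Lemma 3.3: with REGION states `σ = ω|O₀` a connector cannot be forced on a usable event which only says "the gate and the stubs reach the boundary of `O₀`".      Sound form:
      `G₀ := G00 ∩ {β ≤ P(L⁺ | ω|O₀)} ∩ {β ≤ P(L⁻ | ω|O₀)}`        (the PROPENSITIES are functions of the state),
      `A₀ τ := L⁺ ∩ (L⁻ placed at the exit door) ∩ (all the bars of the tile) ∩ (mesh of the tile)`.
NOTHING here knows what `G00`, `L⁺`, `L⁻`, the bars are.      `PvpkDat` = the data,  `D.kit μ : PvthKit`,  `D.Ok ε q err` = what the instance owes: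
* measurability, windows (`L⁺` reads `O₀ ∪ T⁺`, `L⁻` reads `O₀ ∪ T⁻`, bars and mesh read the tile; `T⁺` and the placed `T⁻` lie in the tile of every shape),
* ONE annealed mixed order `Kup τ` per shape in which the SECTIONS of `L⁺`, of the placed `L⁻` at a frozen state, and the bars are up (no monotonicity in the state is asked),
* numbers: `3 β ≤ P(G00 ∩ L⁺ ∩ L⁻)` (ONE explicit construction), `q ≤ ∏ P(bar)`, `P(mesh fails) ≤ err < β² q`.
EXITS: **`pvpk_wf`**, **`pvpk_adm`** (`β ≤ P(G₀)`: small propensity), **`pvpk_frc`** (`β² q - err ≤ P(A₀ τ | the two states)` on `G₀ × G'`), **`pvpk_forced`**.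
HELPERS for the producers: `pvpk_aup_change` (an up-set which reads `W` sees only the up-points of `W`), `pvpk_aup_image`, `pvpk_lf_image` (covariance of up-sets / of local finiteness under a frame),
`pvpk_uLm_of_ref` (the hypothesis `uLm` from a statement in the reference frame), `pvpk_small` (small propensity for `pvtiP`), `pvpk_up_list` (FKG for sections).
SEC. 7: BARS AND MESH FROM THE PACKAGES OF `Tr/Lane`.   `P.Bar` (monotone part of the local event of a package), `P.Ms` (mesh part), `P.Loc = P.Bar ∩ P.Ms` by `rfl`;   `pvpkMs Pk`;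
**`pvpk_pk_fields`** : `D.Bar τ = (Pk τ).map Bar`, `D.M τ = pvpkMs (Pk τ)`, windows in the tile, `Kup τ` = the colour of the package over its window  ⟹  the fields `mBar rBar mM rM uBar` of `Ok`;
`pvpkLane s c L` (the package of a lane), **`pvpk_lane_numbers`** : `q₀` absolute; for `≤ k` lanes of `≤ n` cells of side `s ≥ U(n,k,a) ε`:  `(q₀^(3n)/2)^k ≤ ∏ P(Bar)` and `P(mesh fails) ≤ a`  (fields `bar`, `mesh`).
-/

set_option autoImplicit false
set_option linter.unusedSectionVars false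
set_option linter.unusedVariables false

namespace Claimed.Agent.R289

open MeasureTheory ProbabilityTheory Set Filter Topology
open scoped ENNReal NNReal

/-! ## 0. tools -/

/-- an up-set which reads `W` sees only the up-points of `W` -/
theorem pvpk_aup_change {K K' W : Set PvPt} {𝒜 : Set (Conf PvPt)} (h : PvhkAUp K 𝒜) (hr : Conf.ReadsSet W 𝒜) (hK : K ∩ W = K' ∩ W) : PvhkAUp K' 𝒜 := by
  intro η hη ξ hξ hle hA
  rw [← hr] at hA ⊢
  refine h _ (pvhk_restr_lf _ hη) _ (pvhk_restr_lf _ hξ) ⟨?_, ?_⟩ hA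
  · rintro p ⟨⟨hp, hpW⟩, hpK⟩
    have : p ∈ K' ∩ W := hK ▸ ⟨hpK, hpW⟩
    exact ⟨hle.1 ⟨hp, this.1⟩, hpW⟩
  · rintro p ⟨⟨hp, hpW⟩, hpK⟩
    refine ⟨hle.2 ⟨hp, fun hK' => hpK ?_⟩, hpW⟩
    have : p ∈ K ∩ W := hK.symm ▸ ⟨hK', hpW⟩
    exact this.1

/-- keeping more than `O`, but nothing of `C`, does not change the section of an event which reads `O ∪ C` -/
theorem pvpk_sec_change {O U C : Set PvPt} (hOU : O ⊆ U) (hC : Disjoint C U) (σ : Conf PvPt) {𝒜 : Set (Conf PvPt)} (h : Conf.ReadsSet (O ∪ C) 𝒜) :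
    pvhkSec U σ 𝒜 = pvhkSec O σ 𝒜 := by
  ext η
  exact iff_of_eq ((Conf.readsSet_iff_reads.1 h).spl_change hOU hC σ η)

/-- the section depends on the kept part of the state only -/
theorem pvpk_sec_restr (O : Set PvPt) (σ : Conf PvPt) (𝒜 : Set (Conf PvPt)) : pvhkSec O (Conf.restr O σ) 𝒜 = pvhkSec O σ 𝒜 := by
  ext η
  show Conf.spl O (Conf.restr O σ, η) ∈ 𝒜 ↔ Conf.spl O (σ, η) ∈ 𝒜
  rw [Conf.spl_restr]

/-- the section depends on the kept part of the state only (two states which agree on `O`) -/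
theorem pvpk_sec_congr {O : Set PvPt} {σ σ' : Conf PvPt} (h : Conf.restr O σ = Conf.restr O σ') (𝒜 : Set (Conf PvPt)) : pvhkSec O σ 𝒜 = pvhkSec O σ' 𝒜 := by
  rw [← pvpk_sec_restr O σ, h, pvpk_sec_restr]

theorem pvpk_lf_of_finite {η : Conf PvPt} (h : η.pts.Finite) : PvLF η := fun _ => h.subset inter_subset_left

/-- **FKG for the sections at a frozen state**: only the SECTIONS have to be up -/
theorem pvpk_up_list (ε : ℝ) {K O : Set PvPt} (hK : MeasurableSet K) (hO : MeasurableSet O) (σ : Conf PvPt) (l : List (Set (Conf PvPt)))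
    (m : ∀ A ∈ l, MeasurableSet A) (u : ∀ A ∈ l, PvhkAUp K (pvhkSec O σ A)) :
    (l.map fun A => pvtiP (pvP ε) O A σ).prod ≤ pvtiP (pvP ε) O {η | ∀ A ∈ l, η ∈ A} σ := by
  have := (pv_isPpp ε).prob
  have hm : MeasurableSet {η : Conf PvPt | ∀ A ∈ l, η ∈ A} := pvhk_net_meas l id m
  rw [pvhk_P_apply _ hO σ hm]
  have e : (l.map fun A => pvtiP (pvP ε) O A σ) = l.map fun A => pvP ε (pvhkSec O σ A) :=
    List.map_congr_left fun A hA => pvhk_P_apply _ hO σ (m A hA)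
  rw [e]
  exact (pvhk_ann_def ε hK).up_list l (fun A => pvhkSec O σ A) (fun A hA => PvfEv.of_meas (pvhk_sec_meas hO σ (m A hA))) u

/-- **SMALL PROPENSITY** ((5.3) of the paper, for `pvtiP`) -/
theorem pvpk_small {E : Type*} [MeasurableSpace E] {m : Measure E} {μ : Measure (Conf E)} (h : IsPpp m μ) {O : Set E} (hO : MeasurableSet O)
    {L : Set (Conf E)} (hL : MeasurableSet L) (β : ℝ≥0∞) : μ (L ∩ {σ | pvtiP μ O L σ < β}) ≤ β := by
  have := h.prob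
  have hP : Measurable (pvtiP μ O L) := pvti_P_measurable hO hL
  have hS : MeasurableSet {σ | pvtiP μ O L σ < β} := measurableSet_lt hP measurable_const
  rw [← lintegral_indicator_one (hL.inter hS), h.lintegral_spl hO (measurable_one.indicator (hL.inter hS))]
  calc ∫⁻ σ, ∫⁻ η, (L ∩ {σ | pvtiP μ O L σ < β}).indicator 1 (Conf.spl O (σ, η)) ∂μ ∂μ ≤ ∫⁻ _, β ∂μ := by
        refine lintegral_mono fun σ => ?_
        by_cases hσ : pvtiP μ O L σ < β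
        · refine le_trans ?_ hσ.le
          unfold pvtiP
          exact lintegral_mono fun η => Set.indicator_le_indicator_of_subset inter_subset_left (fun _ => zero_le) _
        · have : ∀ η, (L ∩ {σ | pvtiP μ O L σ < β}).indicator (1 : Conf E → ℝ≥0∞) (Conf.spl O (σ, η)) = 0 := by
            intro η
            refine Set.indicator_of_notMem (fun hm => hσ ?_) _
            have h2 : pvtiP μ O L (Conf.spl O (σ, η)) < β := hm.2
            rwa [(pvti_P_reads μ O L).spl_left subset_rfl] at h2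
          simp [this]
    _ = β := by simp

/-! ## 1. the data, the kit -/

/-- **DATA OF A PROPENSITY KIT** (reference frame: door `0`, frame `1`) -/
structure PvpkDat where
  /-- side of the cells -/
  δ : ℝ
  /-- region of the door plug -/
  O₀ : Set ℂ
  /-- the tiles -/
  K₀ : PvtTurn → Set ℂ
  /-- the structure event of the plug (mesh, gates, inner arc, …): reads `O₀` -/
  G00 : Set (Conf PvPt)
  /-- exit side test: reads `O₀ ∪ Tp` -/
  Lp : Set (Conf PvPt)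
  /-- entrance side test: reads `O₀ ∪ Tm` -/
  Lm : Set (Conf PvPt)
  Tp : Set ℂ
  Tm : Set ℂ
  /-- the bars (pieces of the network) of the tile: monotone events -/
  Bar : PvtTurn → List (Set (Conf PvPt))
  /-- the non monotone event of the tile (mesh) -/
  M : PvtTurn → Set (Conf PvPt)
  /-- the up-points of the annealed mixed order of the tile -/
  Kup : PvtTurn → Set PvPt
  /-- the threshold of the propensities -/
  β : ℝ≥0∞

namespace PvpkDat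

variable (D : PvpkDat)

/-- the plug region -/
def O : Set PvPt := (pvthSim 0 1 '' D.O₀) ×ˢ univ

/-- position of the exit door -/
noncomputable def zo (τ : PvtTurn) : ℂ := 0 + 1 * (D.δ * τ.mid)

/-- the region of the plug of the exit door -/
noncomputable def O' (τ : PvtTurn) : Set PvPt := (pvthSim (D.zo τ) τ.rot '' D.O₀) ×ˢ univ

/-- the entrance side test of the plug of the exit door -/
noncomputable def LmP (τ : PvtTurn) : Set (Conf PvPt) := cfMap (pvthInv (D.zo τ) τ.rot) ⁻¹' D.Lm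

/-- the region of the tile -/
def K (τ : PvtTurn) : Set PvPt := (pvthSim 0 1 '' D.K₀ τ) ×ˢ univ

/-- usable states: structure + the two propensities -/
noncomputable def G₀ (μ : Measure (Conf PvPt)) : Set (Conf PvPt) := D.G00 ∩ {σ | D.β ≤ pvtiP μ D.O D.Lp σ} ∩ {σ | D.β ≤ pvtiP μ D.O D.Lm σ}

/-- all the bars -/
def Bars (τ : PvtTurn) : Set (Conf PvPt) := {η | ∀ B ∈ D.Bar τ, η ∈ B}

/-- success of the connector -/
noncomputable def A₀ (τ : PvtTurn) : Set (Conf PvPt) := D.Lp ∩ D.LmP τ ∩ D.Bars τ ∩ D.M τ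

/-- **THE KIT** -/
noncomputable def kit (μ : Measure (Conf PvPt)) : PvthKit where
  δ := D.δ
  O₀ := D.O₀
  K₀ := D.K₀
  G₀ := D.G₀ μ
  A₀ := D.A₀

/-- **WHAT THE INSTANCE OWES** at the mesh `ε` -/
structure Ok (ε : ℝ) (q err : ℝ≥0∞) : Prop where
  δ0 : 0 < D.δ
  mO : MeasurableSet D.O₀
  mK : ∀ τ, MeasurableSet (D.K₀ τ)
  /-- the tile does not meet the two plugs -/
  K_O : ∀ τ, Disjoint (D.K τ) D.O
  K_O' : ∀ τ, Disjoint (D.K τ) (D.O' τ)
  /-- the exit tube and the placed entrance tube lie in the tile of every shape -/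
  Tp_sub : ∀ τ, D.Tp ⊆ D.K₀ τ
  Tm_sub : ∀ τ, pvthSim (D.zo τ) τ.rot '' D.Tm ⊆ D.K₀ τ
  mG : MeasurableSet D.G00
  rG : Conf.ReadsSet D.O D.G00
  /-- a usable state has finitely many points -/
  fin : ∀ σ ∈ D.G00, (σ.pts ∩ D.O).Finite
  mLp : MeasurableSet D.Lp
  mLm : MeasurableSet D.Lm
  rLp : Conf.ReadsSet (D.O ∪ D.Tp ×ˢ univ) D.Lp
  rLm : Conf.ReadsSet (D.O ∪ D.Tm ×ˢ univ) D.Lm
  mBar : ∀ τ, ∀ B ∈ D.Bar τ, MeasurableSet B
  rBar : ∀ τ, ∀ B ∈ D.Bar τ, Conf.ReadsSet (D.K τ) B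
  mM : ∀ τ, MeasurableSet (D.M τ)
  rM : ∀ τ, Conf.ReadsSet (D.K τ) (D.M τ)
  /-- ONE annealed mixed order per shape -/
  mKup : ∀ τ, MeasurableSet (D.Kup τ)
  uLp : ∀ τ σ, PvLF σ → PvhkAUp (D.Kup τ) (pvhkSec D.O σ D.Lp)
  uLm : ∀ τ σ, PvLF σ → PvhkAUp (D.Kup τ) (pvhkSec (D.O' τ) σ (D.LmP τ))
  uBar : ∀ τ, ∀ B ∈ D.Bar τ, PvhkAUp (D.Kup τ) B
  /-- numbers -/
  β0 : D.β ≠ 0
  β_top : D.β ≠ ∞
  adm : 3 * D.β ≤ pvP ε (D.G00 ∩ D.Lp ∩ D.Lm)
  bar : ∀ τ, q ≤ ((D.Bar τ).map fun B => pvP ε B).prod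
  mesh : ∀ τ, pvP ε (D.M τ)ᶜ ≤ err
  pos : err < D.β * D.β * q

end PvpkDat

theorem pvpk_eqns_cite : True := by
  have := @PvpkDat.O.eq_1; have := @PvpkDat.zo.eq_1; have := @PvpkDat.O'.eq_1; have := @PvpkDat.LmP.eq_1; have := @PvpkDat.K.eq_1
  have := @PvpkDat.G₀.eq_1; have := @PvpkDat.Bars.eq_1; have := @PvpkDat.A₀.eq_1; have := @PvpkDat.kit.eq_1
  trivial

variable {D : PvpkDat} {ε : ℝ} {q err : ℝ≥0∞}

/-! ## 2. dictionary -/

theorem pvpk_kit_O (D : PvpkDat) (μ : Measure (Conf PvPt)) : (D.kit μ).O 0 1 = D.O := rfl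

theorem pvpk_kit_K (D : PvpkDat) (μ : Measure (Conf PvPt)) (τ : PvtTurn) : (D.kit μ).K 0 1 τ = D.K τ := rfl

theorem pvpk_kit_zo (D : PvpkDat) (μ : Measure (Conf PvPt)) (τ : PvtTurn) : (D.kit μ).zo 0 1 τ = D.zo τ := rfl

theorem pvpk_kit_O' (D : PvpkDat) (μ : Measure (Conf PvPt)) (τ : PvtTurn) : (D.kit μ).O ((D.kit μ).zo 0 1 τ) τ.rot = D.O' τ := rfl

theorem pvpk_kit_OO (D : PvpkDat) (μ : Measure (Conf PvPt)) (τ : PvtTurn) : (D.kit μ).OO 0 1 τ = D.O ∪ D.O' τ := by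
  unfold PvthKit.OO
  rw [one_mul]
  rfl

theorem pvpk_O_eq (D : PvpkDat) : D.O = D.O₀ ×ˢ univ := by
  unfold PvpkDat.O
  rw [pvth_sim_id, Set.image_id]

theorem pvpk_K_eq (D : PvpkDat) (τ : PvtTurn) : D.K τ = D.K₀ τ ×ˢ univ := by
  unfold PvpkDat.K
  rw [pvth_sim_id, Set.image_id]

theorem pvpk_rot_norm (τ : PvtTurn) : ‖τ.rot‖ = 1 := by
  cases τ <;> simp [PvtTurn.rot]

theorem pvpk_O'_eq (D : PvpkDat) (τ : PvtTurn) : D.O' τ = pvciAff τ.rot (D.zo τ) (pvt_rot_ne_zero τ) '' D.O :=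
  pvth_O_place (D.kit 0) (D.zo τ) τ.rot (pvt_rot_ne_zero τ)

theorem pvpk_mO (H : D.Ok ε q err) : MeasurableSet D.O := by
  rw [pvpk_O_eq]
  exact H.mO.prod MeasurableSet.univ

theorem pvpk_mO' (H : D.Ok ε q err) (τ : PvtTurn) : MeasurableSet (D.O' τ) := by
  rw [pvpk_O'_eq, MeasurableEquiv.measurableSet_image]
  exact pvpk_mO H

theorem pvpk_mLmP (H : D.Ok ε q err) (τ : PvtTurn) : MeasurableSet (D.LmP τ) := measurable_cfMap (pvth_measurable_inv _ _) H.mLm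

theorem pvpk_mBars (H : D.Ok ε q err) (τ : PvtTurn) : MeasurableSet (D.Bars τ) := pvhk_net_meas (D.Bar τ) id (H.mBar τ)

theorem pvpk_rBars (H : D.Ok ε q err) (τ : PvtTurn) : Conf.ReadsSet (D.K τ) (D.Bars τ) := fun η =>
  ⟨fun h B hB => (H.rBar τ B hB η).1 (h B hB), fun h B hB => (H.rBar τ B hB η).2 (h B hB)⟩

/-- the exit side test reads the plug and the tile -/
theorem pvpk_rLp' (H : D.Ok ε q err) (τ : PvtTurn) : Conf.ReadsSet (D.O ∪ D.K τ) D.Lp :=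
  H.rLp.mono (union_subset_union_right _ (by rw [pvpk_K_eq]; exact prod_mono (H.Tp_sub τ) subset_rfl))

/-- the placed entrance side test reads the plug of the exit door and the placed tube -/
theorem pvpk_rLmP (H : D.Ok ε q err) (τ : PvtTurn) : Conf.ReadsSet (D.O' τ ∪ D.K τ) (D.LmP τ) := by
  have h1 : Conf.Reads (pvciAff τ.rot (D.zo τ) (pvt_rot_ne_zero τ) '' (D.O ∪ D.Tm ×ˢ univ)) (fun η => η ∈ D.LmP τ) :=
    pvci_T_reads (pvciAff τ.rot (D.zo τ) (pvt_rot_ne_zero τ)).toEquiv (Conf.readsSet_iff_reads.1 H.rLm)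
  refine (Conf.readsSet_iff_reads.2 h1).mono ?_
  rw [Set.image_union, ← pvpk_O'_eq]
  refine union_subset_union_right _ ?_
  rintro _ ⟨p, ⟨hp, -⟩, rfl⟩
  rw [pvpk_K_eq]
  refine ⟨H.Tm_sub τ ⟨p.1, hp, ?_⟩, trivial⟩
  show D.zo τ + τ.rot * p.1 = τ.rot * p.1 + D.zo τ
  ring

/-! ## 3. `WF` -/

theorem pvpk_mG₀ (H : D.Ok ε q err) : MeasurableSet (D.G₀ (pvP ε)) := by
  have := (pv_isPpp ε).prob
  exact (H.mG.inter (measurableSet_le measurable_const (pvti_P_measurable (pvpk_mO H) H.mLp))).inter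
    (measurableSet_le measurable_const (pvti_P_measurable (pvpk_mO H) H.mLm))

theorem pvpk_rG₀ (H : D.Ok ε q err) (μ : Measure (Conf PvPt)) : Conf.ReadsSet D.O (D.G₀ μ) :=
  (H.rG.inter ((pvti_P_reads μ D.O D.Lp).preimage (Ici D.β))).inter ((pvti_P_reads μ D.O D.Lm).preimage (Ici D.β))

theorem pvpk_mA₀ (H : D.Ok ε q err) (τ : PvtTurn) : MeasurableSet (D.A₀ τ) :=
  ((H.mLp.inter (pvpk_mLmP H τ)).inter (pvpk_mBars H τ)).inter (H.mM τ)

theorem pvpk_rA₀ (H : D.Ok ε q err) (τ : PvtTurn) : Conf.ReadsSet (D.O ∪ D.O' τ ∪ D.K τ) (D.A₀ τ) := by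
  refine ((((pvpk_rLp' H τ).mono ?_).inter ((pvpk_rLmP H τ).mono ?_)).inter ((pvpk_rBars H τ).mono subset_union_right)).inter
    ((H.rM τ).mono subset_union_right)
  · exact union_subset_union_left _ subset_union_left
  · exact union_subset_union_left _ subset_union_right

/-- **the kit is well formed** -/
theorem pvpk_wf (H : D.Ok ε q err) : (D.kit (pvP ε)).WF where
  δ0 := H.δ0
  mO := H.mO
  mK := H.mK
  mG := pvpk_mG₀ H
  mA := pvpk_mA₀ H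
  rG := Conf.readsSet_iff_reads.1 (pvpk_rG₀ H _)
  rA := fun τ => by
    rw [pvpk_kit_OO, pvpk_kit_K]
    exact Conf.readsSet_iff_reads.1 (pvpk_rA₀ H τ)

/-! ## 4. admission: small propensity -/

/-- **TR22**: `β ≤ P(G₀)` -/
theorem pvpk_adm (H : D.Ok ε q err) : D.β ≤ pvP ε (D.G₀ (pvP ε)) := by
  have hsub : D.G00 ∩ D.Lp ∩ D.Lm ⊆ D.G₀ (pvP ε) ∪ (D.Lp ∩ {σ | pvtiP (pvP ε) D.O D.Lp σ < D.β}) ∪ (D.Lm ∩ {σ | pvtiP (pvP ε) D.O D.Lm σ < D.β}) := by
    rintro σ ⟨⟨h0, h1⟩, h2⟩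
    by_cases hp : pvtiP (pvP ε) D.O D.Lp σ < D.β
    · exact Or.inl (Or.inr ⟨h1, hp⟩)
    · by_cases hm : pvtiP (pvP ε) D.O D.Lm σ < D.β
      · exact Or.inr ⟨h2, hm⟩
      · exact Or.inl (Or.inl ⟨⟨h0, not_lt.1 hp⟩, not_lt.1 hm⟩)
  have h1 : 3 * D.β ≤ pvP ε (D.G₀ (pvP ε)) + D.β + D.β :=
    calc 3 * D.β ≤ pvP ε (D.G00 ∩ D.Lp ∩ D.Lm) := H.adm
      _ ≤ _ := measure_mono hsub
      _ ≤ pvP ε (D.G₀ (pvP ε) ∪ (D.Lp ∩ {σ | pvtiP (pvP ε) D.O D.Lp σ < D.β})) + pvP ε (D.Lm ∩ {σ | pvtiP (pvP ε) D.O D.Lm σ < D.β}) := measure_union_le _ _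
      _ ≤ pvP ε (D.G₀ (pvP ε)) + pvP ε (D.Lp ∩ {σ | pvtiP (pvP ε) D.O D.Lp σ < D.β}) + pvP ε (D.Lm ∩ {σ | pvtiP (pvP ε) D.O D.Lm σ < D.β}) := by
          gcongr
          exact measure_union_le _ _
      _ ≤ pvP ε (D.G₀ (pvP ε)) + D.β + D.β := by
          gcongr
          · exact pvpk_small (pv_isPpp ε) (pvpk_mO H) H.mLp D.β
          · exact pvpk_small (pv_isPpp ε) (pvpk_mO H) H.mLm D.β
  have h2 : D.β + D.β + D.β ≤ pvP ε (D.G₀ (pvP ε)) + D.β + D.β := by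
    have e : 3 * D.β = D.β + D.β + D.β := by ring
    rwa [e] at h1
  exact (ENNReal.add_le_add_iff_right H.β_top).1 ((ENNReal.add_le_add_iff_right H.β_top).1 h2)

/-! ## 5. the connectors are forced -/

theorem pvpk_K_OO (H : D.Ok ε q err) (τ : PvtTurn) : Disjoint (D.K τ) (D.O ∪ D.O' τ) := Set.disjoint_union_right.2 ⟨H.K_O τ, H.K_O' τ⟩

/-- the state of the exit door, read in the reference frame -/
theorem pvpk_fin' (H : D.Ok ε q err) (τ : PvtTurn) {σ : Conf PvPt} (h : cfMap (pvthInv (D.zo τ) τ.rot) σ ∈ D.G00) : (σ.pts ∩ D.O' τ).Finite := by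
  have h1 := H.fin _ h
  refine (h1.image (pvciAff τ.rot (D.zo τ) (pvt_rot_ne_zero τ))).subset ?_
  rintro p ⟨hp, hpO⟩
  rw [pvpk_O'_eq] at hpO
  obtain ⟨x, hx, rfl⟩ := hpO
  refine ⟨x, ⟨?_, hx⟩, rfl⟩
  rw [pvth_cfMap_inv _ _ (pvt_rot_ne_zero τ)]
  exact ⟨_, hp, (pvciAff τ.rot (D.zo τ) (pvt_rot_ne_zero τ)).toEquiv.symm_apply_apply x⟩

/-- the propensity of the placed entrance side test -/
theorem pvpk_P_LmP (D : PvpkDat) (ε : ℝ) (τ : PvtTurn) (σ : Conf PvPt) :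
    pvtiP (pvP ε) (D.O' τ) (D.LmP τ) σ = pvtiP (pvP ε) D.O D.Lm (cfMap (pvthInv (D.zo τ) τ.rot) σ) := by
  rw [pvpk_O'_eq]
  exact congrFun (pvci_P_T (pvciAff τ.rot (D.zo τ) (pvt_rot_ne_zero τ)) (pvci_law_frame (D.zo τ) τ.rot (pvpk_rot_norm τ) ε) D.O D.Lm) σ

/-- **TR21 (a)**: `β² q - err ≤ P(A₀ τ | the two states)` on `G₀ × G'` -/
theorem pvpk_frc (H : D.Ok ε q err) (τ : PvtTurn) {σ : Conf PvPt} (h0 : σ ∈ D.G₀ (pvP ε)) (h1 : cfMap (pvthInv (D.zo τ) τ.rot) σ ∈ D.G₀ (pvP ε)) :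
    D.β * D.β * q - err ≤ pvtiP (pvP ε) (D.O ∪ D.O' τ) (D.A₀ τ) σ := by
  have hOO : MeasurableSet (D.O ∪ D.O' τ) := (pvpk_mO H).union (pvpk_mO' H τ)
  have hKd := pvpk_K_OO H τ
  have f0 : (σ.pts ∩ D.O).Finite := H.fin σ h0.1.1
  have f1 : (σ.pts ∩ D.O' τ).Finite := pvpk_fin' H τ h1.1.1
  have lf0 : PvLF (Conf.restr D.O σ) := pvpk_lf_of_finite f0
  have lf1 : PvLF (Conf.restr (D.O' τ) σ) := pvpk_lf_of_finite f1
  have lf2 : PvLF (Conf.restr (D.O ∪ D.O' τ) σ) := pvpk_lf_of_finite (by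
    show (σ.pts ∩ (D.O ∪ D.O' τ)).Finite
    rw [Set.inter_union_distrib_left]
    exact f0.union f1)
  set l : List (Set (Conf PvPt)) := D.Lp :: D.LmP τ :: D.Bar τ with hl
  have ml : ∀ A ∈ l, MeasurableSet A := by
    intro A hA
    rcases List.mem_cons.1 hA with rfl | hA
    · exact H.mLp
    rcases List.mem_cons.1 hA with rfl | hA
    · exact pvpk_mLmP H τ
    · exact H.mBar τ A hA
  have ul : ∀ A ∈ l, PvhkAUp (D.Kup τ) (pvhkSec (D.O ∪ D.O' τ) σ A) := by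
    intro A hA
    rcases List.mem_cons.1 hA with rfl | hA
    · rw [pvpk_sec_change subset_union_left hKd σ (pvpk_rLp' H τ), ← pvpk_sec_restr]
      exact H.uLp τ _ lf0
    rcases List.mem_cons.1 hA with rfl | hA
    · rw [pvpk_sec_change subset_union_right hKd σ (pvpk_rLmP H τ), ← pvpk_sec_restr]
      exact H.uLm τ _ lf1
    · rw [← pvpk_sec_restr]
      exact pvhk_sec_aup _ _ lf2 (H.uBar τ A hA)
  have s1 := pvpk_up_list ε (H.mKup τ) hOO σ l ml ul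
  have v0 : D.β ≤ pvtiP (pvP ε) (D.O ∪ D.O' τ) D.Lp σ := by
    rw [pvhk_P_change _ subset_union_left hKd σ (pvpk_rLp' H τ)]
    exact h0.1.2
  have v1 : D.β ≤ pvtiP (pvP ε) (D.O ∪ D.O' τ) (D.LmP τ) σ := by
    rw [pvhk_P_change _ subset_union_right hKd σ (pvpk_rLmP H τ), pvpk_P_LmP]
    exact h1.2
  have v2 : ((D.Bar τ).map fun A => pvtiP (pvP ε) (D.O ∪ D.O' τ) A σ) = (D.Bar τ).map fun B => pvP ε B :=
    List.map_congr_left fun B hB => pvhk_P_of_disjoint _ hKd σ (H.mBar τ B hB) (H.rBar τ B hB)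
  have s2 : D.β * D.β * q ≤ (l.map fun A => pvtiP (pvP ε) (D.O ∪ D.O' τ) A σ).prod := by
    rw [hl, List.map_cons, List.map_cons, List.prod_cons, List.prod_cons, v2, mul_assoc]
    exact mul_le_mul' v0 (mul_le_mul' v1 (H.bar τ))
  have mX : MeasurableSet {η : Conf PvPt | ∀ A ∈ l, η ∈ A} := pvhk_net_meas l id ml
  have s3 := pvhk_P_split (pvP ε) hOO σ mX (H.mM τ)
  have s4 : pvtiP (pvP ε) (D.O ∪ D.O' τ) (D.M τ)ᶜ σ ≤ err := by
    rw [pvhk_P_of_disjoint _ hKd σ (H.mM τ).compl (H.rM τ).compl]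
    exact H.mesh τ
  have s5 : {η : Conf PvPt | ∀ A ∈ l, η ∈ A} ∩ D.M τ ⊆ D.A₀ τ := by
    rintro η ⟨hη, hM⟩
    exact ⟨⟨⟨hη _ (List.mem_cons_self), hη _ (List.mem_cons_of_mem _ List.mem_cons_self)⟩,
      fun B hB => hη B (List.mem_cons_of_mem _ (List.mem_cons_of_mem _ hB))⟩, hM⟩
  rw [tsub_le_iff_right]
  calc D.β * D.β * q ≤ _ := s2
    _ ≤ _ := s1
    _ ≤ _ := s3
    _ ≤ pvtiP (pvP ε) (D.O ∪ D.O' τ) (D.A₀ τ) σ + err := add_le_add (pvhk_P_mono _ _ σ s5) s4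

/-- **THE KIT IS FORCED AND ADMITTED** (fields `wf`, `frc` of `PvcnOk`) -/
theorem pvpk_forced (H : D.Ok ε q err) : (D.kit (pvP ε)).Forced (pvP ε) D.β (D.β * D.β * q - err) where
  β0 := H.β0
  q0 := (tsub_pos_of_lt H.pos).ne'
  adm := pvpk_adm H
  frc := fun τ σ h0 h1 => by
    rw [pvpk_kit_OO]
    exact pvpk_frc H τ h0 h1

/-! ## 6. helpers for the producers of `Ok` -/

/-- local finiteness = finitely many points in every ball -/
theorem pvpk_lf_iff (η : Conf PvPt) : PvLF η ↔ ∀ R : ℝ, (η.pts ∩ {p | ‖p.1‖ ≤ R}).Finite := by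
  constructor
  · intro h R
    obtain ⟨N, hN⟩ := exists_nat_gt R
    have hfin : (⋃ k ∈ (Finset.Icc (-(N : ℤ) - 1) N ×ˢ Finset.Icc (-(N : ℤ) - 1) N : Finset (ℤ × ℤ)), η.pts ∩ pvBox k).Finite :=
      Set.Finite.biUnion (Finset.finite_toSet _) fun k _ => h k
    refine hfin.subset ?_
    rintro p ⟨hp, hpR⟩
    have hpR' : ‖p.1‖ ≤ R := hpR
    have h1 := (Complex.abs_re_le_norm p.1).trans hpR'
    have h2 := (Complex.abs_im_le_norm p.1).trans hpR'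
    rw [abs_le] at h1 h2
    have key : ∀ x : ℝ, -R ≤ x → x ≤ R → ⌊x⌋ ∈ Finset.Icc (-(N : ℤ) - 1) N := by
      intro x hx1 hx2
      rw [Finset.mem_Icc]
      constructor
      · rw [Int.le_floor]
        push_cast
        linarith
      · have : (⌊x⌋ : ℝ) ≤ x := Int.floor_le x
        have h3 : (⌊x⌋ : ℝ) < (N : ℝ) := by linarith
        have h4 : ⌊x⌋ < (N : ℤ) := by exact_mod_cast h3
        exact h4.le
    refine Set.mem_biUnion (x := (⌊p.1.re⌋, ⌊p.1.im⌋)) ?_ ⟨hp, ⟨Int.floor_le _, Int.lt_floor_add_one _⟩, ⟨Int.floor_le _, Int.lt_floor_add_one _⟩⟩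
    rw [Finset.mem_coe, Finset.mem_product]
    exact ⟨key _ h1.1 h1.2, key _ h2.1 h2.2⟩
  · intro h k
    refine (h (|(k.1 : ℝ)| + |(k.2 : ℝ)| + 2)).subset ?_
    rintro p ⟨hp, ⟨h1, h1'⟩, ⟨h2, h2'⟩⟩
    refine ⟨hp, ?_⟩
    show ‖p.1‖ ≤ _
    have h3 := Complex.norm_le_abs_re_add_abs_im p.1
    have h4 : |p.1.re| ≤ |(k.1 : ℝ)| + 1 := by
      rw [abs_le]
      constructor
      · linarith [neg_abs_le (k.1 : ℝ)]
      · linarith [le_abs_self (k.1 : ℝ)]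
    have h5 : |p.1.im| ≤ |(k.2 : ℝ)| + 1 := by
      rw [abs_le]
      constructor
      · linarith [neg_abs_le (k.2 : ℝ)]
      · linarith [le_abs_self (k.2 : ℝ)]
    linarith

/-- local finiteness is preserved by the affine maps -/
theorem pvpk_lf_image (a b : ℂ) (ha : a ≠ 0) {η : Conf PvPt} (h : PvLF η) : PvLF (Conf.image (pvciAff a b ha) η) := by
  rw [pvpk_lf_iff] at h ⊢
  intro R
  refine ((h ((R + ‖b‖) / ‖a‖)).image (pvciAff a b ha)).subset ?_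
  rintro _ ⟨⟨p, hp, rfl⟩, hR⟩
  refine ⟨p, ⟨hp, ?_⟩, rfl⟩
  have hR' : ‖a * p.1 + b‖ ≤ R := hR
  show ‖p.1‖ ≤ _
  rw [le_div_iff₀ (norm_pos_iff.2 ha), mul_comm, ← norm_mul]
  have : a * p.1 = (a * p.1 + b) - b := by ring
  rw [this]
  exact (norm_sub_le _ _).trans (by linarith)

theorem pvpk_lf_image_symm (a b : ℂ) (ha : a ≠ 0) {η : Conf PvPt} (h : PvLF η) : PvLF (Conf.image (pvciAff a b ha).toEquiv.symm η) := by
  rw [pvpk_lf_iff] at h ⊢
  intro R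
  refine ((h (‖a‖ * R + ‖b‖)).image (pvciAff a b ha).toEquiv.symm).subset ?_
  rintro _ ⟨⟨p, hp, rfl⟩, hR⟩
  refine ⟨p, ⟨hp, ?_⟩, rfl⟩
  have hR' : ‖(p.1 - b) / a‖ ≤ R := hR
  show ‖p.1‖ ≤ _
  rw [norm_div, div_le_iff₀ (norm_pos_iff.2 ha)] at hR'
  have : p.1 = (p.1 - b) + b := by ring
  rw [this]
  exact (norm_add_le _ _).trans (by linarith)

/-- covariance of the up-sets -/
theorem pvpk_aup_image (a b : ℂ) (ha : a ≠ 0) {K : Set PvPt} {𝒜 : Set (Conf PvPt)} (h : PvhkAUp K 𝒜) :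
    PvhkAUp (pvciAff a b ha '' K) (Conf.image (pvciAff a b ha).toEquiv.symm ⁻¹' 𝒜) := by
  intro η hη ξ hξ hle hA
  refine h _ (pvpk_lf_image_symm a b ha hη) _ (pvpk_lf_image_symm a b ha hξ) ⟨?_, ?_⟩ hA
  · rintro _ ⟨⟨p, hp, rfl⟩, hK⟩
    exact ⟨p, hle.1 ⟨hp, ⟨_, hK, (pvciAff a b ha).toEquiv.apply_symm_apply p⟩⟩, rfl⟩
  · rintro _ ⟨⟨p, hp, rfl⟩, hK⟩
    refine ⟨p, hle.2 ⟨hp, ?_⟩, rfl⟩
    rintro ⟨x, hx, rfl⟩
    exact hK (by rwa [show (pvciAff a b ha).toEquiv.symm ((pvciAff a b ha) x) = x from (pvciAff a b ha).toEquiv.symm_apply_apply x])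

/-- covariance of the sections -/
theorem pvpk_sec_image (a b : ℂ) (ha : a ≠ 0) (O : Set PvPt) (σ : Conf PvPt) (𝒜 : Set (Conf PvPt)) :
    pvhkSec (pvciAff a b ha '' O) σ (Conf.image (pvciAff a b ha).toEquiv.symm ⁻¹' 𝒜) =
      Conf.image (pvciAff a b ha).toEquiv.symm ⁻¹' pvhkSec O (Conf.image (pvciAff a b ha).toEquiv.symm σ) 𝒜 := by
  ext η
  show Conf.image (pvciAff a b ha).toEquiv.symm (Conf.spl (pvciAff a b ha '' O) (σ, η)) ∈ 𝒜 ↔
    Conf.spl O (Conf.image (pvciAff a b ha).toEquiv.symm σ, Conf.image (pvciAff a b ha).toEquiv.symm η) ∈ 𝒜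
  rw [pvci_image_spl (pvciAff a b ha).toEquiv.symm]
  have : (pvciAff a b ha).toEquiv.symm '' (pvciAff a b ha '' O) = O := by
    rw [← Set.image_comp]
    have e : ((pvciAff a b ha).toEquiv.symm ∘ (pvciAff a b ha)) = id := funext fun x => (pvciAff a b ha).toEquiv.symm_apply_apply x
    rw [e, Set.image_id]
  rw [this]

/-- the section at a state frozen in `O` of an event which reads `O ∪ C` reads `C` -/
theorem pvpk_sec_reads {O C : Set PvPt} (σ : Conf PvPt) {𝒜 : Set (Conf PvPt)} (h : Conf.ReadsSet (O ∪ C) 𝒜) : Conf.ReadsSet C (pvhkSec O σ 𝒜) := by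
  intro η
  show Conf.spl O (σ, Conf.restr C η) ∈ 𝒜 ↔ Conf.spl O (σ, η) ∈ 𝒜
  rw [← h (Conf.spl O (σ, Conf.restr C η)), ← h (Conf.spl O (σ, η))]
  have : Conf.restr (O ∪ C) (Conf.spl O (σ, Conf.restr C η)) = Conf.restr (O ∪ C) (Conf.spl O (σ, η)) := by
    ext p
    simp only [Conf.restr, Conf.spl, Conf.union, mem_inter_iff, mem_union, mem_compl_iff]
    tauto
  rw [this]

/-- **the hypothesis `uLp`** from an order `Kp` which agrees with `Kup τ` over the exit tube -/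
theorem pvpk_uLp_of {D : PvpkDat} {Kp : Set PvPt} (rLp : Conf.ReadsSet (D.O ∪ D.Tp ×ˢ univ) D.Lp) (u : ∀ σ, PvLF σ → PvhkAUp Kp (pvhkSec D.O σ D.Lp)) (τ : PvtTurn)
    (hK : Kp ∩ D.Tp ×ˢ univ = D.Kup τ ∩ D.Tp ×ˢ univ) (σ : Conf PvPt) (hσ : PvLF σ) : PvhkAUp (D.Kup τ) (pvhkSec D.O σ D.Lp) :=
  pvpk_aup_change (u σ hσ) (pvpk_sec_reads σ rLp) hK

/-- **the hypothesis `uLm`** from a statement in the REFERENCE frame: an order `Km` whose image agrees with `Kup τ` over the placed entrance tube -/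
theorem pvpk_uLm_of_ref {D : PvpkDat} {Km : Set PvPt} (rLm : Conf.ReadsSet (D.O ∪ D.Tm ×ˢ univ) D.Lm) (u : ∀ σ, PvLF σ → PvhkAUp Km (pvhkSec D.O σ D.Lm)) (τ : PvtTurn)
    (hK : pvciAff τ.rot (D.zo τ) (pvt_rot_ne_zero τ) '' Km ∩ pvciAff τ.rot (D.zo τ) (pvt_rot_ne_zero τ) '' (D.Tm ×ˢ univ) =
      D.Kup τ ∩ pvciAff τ.rot (D.zo τ) (pvt_rot_ne_zero τ) '' (D.Tm ×ˢ univ)) (σ : Conf PvPt) (hσ : PvLF σ) :
    PvhkAUp (D.Kup τ) (pvhkSec (D.O' τ) σ (D.LmP τ)) := by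
  have e : pvhkSec (D.O' τ) σ (D.LmP τ) = Conf.image (pvciAff τ.rot (D.zo τ) (pvt_rot_ne_zero τ)).toEquiv.symm ⁻¹'
      pvhkSec D.O (Conf.image (pvciAff τ.rot (D.zo τ) (pvt_rot_ne_zero τ)).toEquiv.symm σ) D.Lm := by
    rw [pvpk_O'_eq]
    exact pvpk_sec_image _ _ _ D.O σ D.Lm
  rw [e]
  refine pvpk_aup_change (pvpk_aup_image _ _ _ (u _ (pvpk_lf_image_symm _ _ _ hσ))) ?_ hK
  exact Conf.readsSet_iff_reads.2 (pvci_T_reads (pvciAff τ.rot (D.zo τ) (pvt_rot_ne_zero τ)).toEquiv (Conf.readsSet_iff_reads.1 (pvpk_sec_reads _ rLm)))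

/-- a black bar: an increasing event read over `N`, when `Kup` is "black up" over `N` -/
theorem pvpk_bar_black {K : Set PvPt} {N : Set ℂ} {B : Set (Conf PvPt)} (hinc : PvInc B) (hloc : Conf.ReadsSet (Prod.fst ⁻¹' N) B)
    (hK : ∀ p : PvPt, p.1 ∈ N → (p ∈ K ↔ p.2 = true)) : PvhkAUp K B := by
  refine pvpk_aup_change (pvhk_aup_black (Nb := N) (Nw := ∅) (Set.disjoint_empty _) hinc hloc) hloc ?_
  ext p
  constructor
  · rintro ⟨h1, h2⟩
    rcases h1 with h1 | h1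
    · exact ⟨(hK p h2).2 h1.2, h2⟩
    · exact absurd h1.1 (Set.notMem_empty _)
  · rintro ⟨h1, h2⟩
    exact ⟨Or.inl ⟨h2, (hK p h2).1 h1⟩, h2⟩

/-- a white bar: a decreasing event read over `N`, when `Kup` is "white up" over `N` -/
theorem pvpk_bar_white {K : Set PvPt} {N : Set ℂ} {B : Set (Conf PvPt)} (hdec : PvDec B) (hloc : Conf.ReadsSet (Prod.fst ⁻¹' N) B)
    (hK : ∀ p : PvPt, p.1 ∈ N → (p ∈ K ↔ p.2 = false)) : PvhkAUp K B := by
  refine pvpk_aup_change (pvhk_aup_white (Nb := ∅) (Nw := N) (Set.empty_disjoint _) hdec hloc) hloc ?_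
  ext p
  constructor
  · rintro ⟨h1, h2⟩
    rcases h1 with h1 | h1
    · exact absurd h1.1 (Set.notMem_empty _)
    · exact ⟨(hK p h2).2 h1.2, h2⟩
  · rintro ⟨h1, h2⟩
    exact ⟨Or.inr ⟨h2, (hK p h2).1 h1⟩, h2⟩

/-! ## 7. bars and mesh from the packages of `Tr/Lane` -/

/-- the MONOTONE part of the local event of a package -/
def PvlnPk.Bar (P : PvlnPk) : Set (Conf PvPt) := Conf.restr (P.N ×ˢ univ) ⁻¹' (pvlnAll P.c P.l ∩ {η | PvLF η})

/-- the MESH part of the local event of a package -/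
def PvlnPk.Ms (P : PvlnPk) : Set (Conf PvPt) := Conf.restr (P.N ×ˢ univ) ⁻¹' pvlnG P.cen P.u

/-- the mesh event of a list of packages -/
def pvpkMs (Pk : List PvlnPk) : Set (Conf PvPt) := {η | ∀ P ∈ Pk, η ∈ P.Ms}

/-- the package of a lane -/
noncomputable def pvpkLane (s : ℝ) (c : Bool) (L : List (ℤ × ℤ)) : PvlnPk := ⟨pvlnW s L, c, pvlnLane s L, L.map (pvlnCtr s), s / 2⟩

theorem pvpk_eqns_cite2 : True := by
  have := @PvlnPk.Bar.eq_1; have := @PvlnPk.Ms.eq_1; have := @pvpkMs.eq_1; have := @pvpkLane.eq_1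
  trivial

theorem pvpk_pk_loc (P : PvlnPk) : P.Loc = P.Bar ∩ P.Ms := rfl

theorem pvpk_lane_loc (s : ℝ) (c : Bool) (L : List (ℤ × ℤ)) : (pvpkLane s c L).Loc = pvlnLaneEv s c L := rfl

theorem pvpk_lane_fit {s : ℝ} (hs : 0 < s) (c : Bool) {L : List (ℤ × ℤ)} (hc : L.IsChain PvlnAdj) : (pvpkLane s c L).Fit := pvln_lane_fit hs hc

theorem pvpk_pk_bar_meas {P : PvlnPk} (hF : P.Fit) : MeasurableSet P.Bar := by
  have e : pvlnAll P.c P.l ∩ {η | PvLF η} = pvlnCore P.c P.l [] 0 := by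
    ext η
    simp [pvlnCore, pvlnG]
  unfold PvlnPk.Bar
  rw [e]
  exact Conf.measurable_restr (pvln_win_meas hF.meas) (pvln_core_meas hF.nice P.c [] 0)

theorem pvpk_pk_bar_reads (P : PvlnPk) : Conf.ReadsSet (P.N ×ˢ univ) P.Bar := Conf.readsSet_preimage _ _

theorem pvpk_pk_ms_meas {P : PvlnPk} (hF : P.Fit) : MeasurableSet P.Ms :=
  Conf.measurable_restr (pvln_win_meas hF.meas) (pvln_G_meas P.cen P.u)

theorem pvpk_pk_ms_reads (P : PvlnPk) : Conf.ReadsSet (P.N ×ˢ univ) P.Ms := Conf.readsSet_preimage _ _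

theorem pvpk_pk_ms_eq {P : PvlnPk} (hF : P.Fit) : P.Ms = pvlnG P.cen P.u := by
  ext η
  exact pvln_G_loc hF (pvln_restr_restr P.N η)

theorem pvpk_restr_le (O : Set PvPt) {η η' : Conf PvPt} (h : PvLe η η') : PvLe (Conf.restr O η) (Conf.restr O η') := by
  rw [pvLe_iff_cle] at h ⊢
  exact Conf.cle_restr _ h

theorem pvpk_W_anti {η η' : Conf PvPt} (h : PvLe η η') : cfW η' ⊆ cfW η := by
  rintro z ⟨v, hv, hz⟩
  exact ⟨v, h.2 hv, fun w hw => hz w (h.1 hw)⟩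

/-- the bar of a black package is increasing -/
theorem pvpk_pk_bar_inc {P : PvlnPk} (hc : P.c = true) : PvInc P.Bar := by
  intro η η' hη hη' hle h
  refine ⟨?_, pvra_LF_restr hη' _⟩
  have h1 := h.1
  rw [hc] at h1 ⊢
  exact fun e he => rsw_det_mono (pvr_B_mono (pvpk_restr_le _ hle)) Subset.rfl Subset.rfl Subset.rfl (h1 e he)

/-- the bar of a white package is decreasing -/
theorem pvpk_pk_bar_dec {P : PvlnPk} (hc : P.c = false) : PvDec P.Bar := by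
  intro η η' hη hη' hle h
  refine ⟨?_, pvra_LF_restr hη _⟩
  have h1 := h.1
  rw [hc] at h1 ⊢
  exact fun e he => rsw_det_mono (pvpk_W_anti (pvpk_restr_le _ hle)) Subset.rfl Subset.rfl Subset.rfl (h1 e he)

/-- the bar of a package is up in every mixed order which is "the colour of the package is up" over its window -/
theorem pvpk_pk_bar_up {K : Set PvPt} {P : PvlnPk} (hK : ∀ p : PvPt, p.1 ∈ P.N → (p ∈ K ↔ p.2 = P.c)) : PvhkAUp K P.Bar := by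
  have hr : Conf.ReadsSet (Prod.fst ⁻¹' P.N) P.Bar := by
    have := pvpk_pk_bar_reads P
    rwa [Set.prod_univ] at this
  rcases hc : P.c with _ | _
  · exact pvpk_bar_white (pvpk_pk_bar_dec hc) hr fun p hp => by rw [hK p hp, hc]
  · exact pvpk_bar_black (pvpk_pk_bar_inc hc) hr fun p hp => by rw [hK p hp, hc]

theorem pvpk_pk_bar_ge (ε : ℝ) (P : PvlnPk) : pvP ε P.Loc ≤ pvP ε P.Bar := measure_mono fun _ h => h.1

theorem pvpk_pk_ms_prob (ε : ℝ) {P : PvlnPk} (hF : P.Fit) :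
    pvP ε P.Msᶜ ≤ ENNReal.ofReal (P.cen.length * (37 ^ 2 * Real.exp (-((P.u / 8) ^ 2 / (8 * ε ^ 2))))) := by
  rw [pvpk_pk_ms_eq hF]
  exact pvln_G_prob ε P.cen hF.pos

theorem pvpk_ms_meas {Pk : List PvlnPk} (hF : ∀ P ∈ Pk, P.Fit) : MeasurableSet (pvpkMs Pk) :=
  pvhk_net_meas Pk PvlnPk.Ms fun P hP => pvpk_pk_ms_meas (hF P hP)

theorem pvpk_ms_reads {Pk : List PvlnPk} {W : Set PvPt} (hW : ∀ P ∈ Pk, P.N ×ˢ univ ⊆ W) : Conf.ReadsSet W (pvpkMs Pk) := fun η =>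
  ⟨fun h P hP => (((pvpk_pk_ms_reads P).mono (hW P hP)) η).1 (h P hP), fun h P hP => (((pvpk_pk_ms_reads P).mono (hW P hP)) η).2 (h P hP)⟩

theorem pvpk_ms_prob (ε : ℝ) : ∀ Pk : List PvlnPk, pvP ε (pvpkMs Pk)ᶜ ≤ (Pk.map fun P => pvP ε P.Msᶜ).sum
  | [] => by
    have : (pvpkMs [])ᶜ = ∅ := by
      ext η
      simp [pvpkMs]
    rw [this]
    simp
  | P :: t => by
    have hsub : (pvpkMs (P :: t))ᶜ ⊆ P.Msᶜ ∪ (pvpkMs t)ᶜ := by
      intro η hη
      by_contra hcon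
      rw [mem_union, not_or] at hcon
      refine hη fun Q hQ => ?_
      rcases List.mem_cons.1 hQ with rfl | hQ
      · exact not_not.1 hcon.1
      · exact (not_not.1 hcon.2) Q hQ
    rw [List.map_cons, List.sum_cons]
    exact (measure_mono hsub).trans ((measure_union_le _ _).trans (add_le_add le_rfl (pvpk_ms_prob ε t)))

/-- **the fields `mBar rBar mM rM uBar` of `Ok`** when the bars and the mesh of the tiles come from packages -/
theorem pvpk_pk_fields {D : PvpkDat} (Pk : PvtTurn → List PvlnPk) (hBar : ∀ τ, D.Bar τ = (Pk τ).map PvlnPk.Bar) (hM : ∀ τ, D.M τ = pvpkMs (Pk τ))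
    (fit : ∀ τ, ∀ P ∈ Pk τ, P.Fit) (sub : ∀ τ, ∀ P ∈ Pk τ, P.N ⊆ D.K₀ τ) (col : ∀ τ, ∀ P ∈ Pk τ, ∀ p : PvPt, p.1 ∈ P.N → (p ∈ D.Kup τ ↔ p.2 = P.c)) :
    (∀ τ, ∀ B ∈ D.Bar τ, MeasurableSet B) ∧ (∀ τ, ∀ B ∈ D.Bar τ, Conf.ReadsSet (D.K τ) B) ∧ (∀ τ, MeasurableSet (D.M τ)) ∧
      (∀ τ, Conf.ReadsSet (D.K τ) (D.M τ)) ∧ ∀ τ, ∀ B ∈ D.Bar τ, PvhkAUp (D.Kup τ) B := by
  have hsub : ∀ τ, ∀ P ∈ Pk τ, P.N ×ˢ (univ : Set Bool) ⊆ D.K τ := fun τ P hP => by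
    rw [pvpk_K_eq]
    exact prod_mono (sub τ P hP) subset_rfl
  refine ⟨fun τ B hB => ?_, fun τ B hB => ?_, fun τ => ?_, fun τ => ?_, fun τ B hB => ?_⟩
  · rw [hBar] at hB
    obtain ⟨P, hP, rfl⟩ := List.mem_map.1 hB
    exact pvpk_pk_bar_meas (fit τ P hP)
  · rw [hBar] at hB
    obtain ⟨P, hP, rfl⟩ := List.mem_map.1 hB
    exact (pvpk_pk_bar_reads P).mono (hsub τ P hP)
  · rw [hM]
    exact pvpk_ms_meas (fit τ)
  · rw [hM]
    exact pvpk_ms_reads (hsub τ)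
  · rw [hBar] at hB
    obtain ⟨P, hP, rfl⟩ := List.mem_map.1 hB
    exact pvpk_pk_bar_up (col τ P hP)

/-- on the bars and the mesh all the local events of the packages hold -/
theorem pvpk_pk_all {Pk : List PvlnPk} {η : Conf PvPt} (h1 : ∀ B ∈ Pk.map PvlnPk.Bar, η ∈ B) (h2 : η ∈ pvpkMs Pk) : ∀ P ∈ Pk, η ∈ P.Loc :=
  fun P hP => ⟨h1 _ (List.mem_map_of_mem hP), h2 P hP⟩

/-- **THE NUMBERS OF THE LANES** (fields `bar`, `mesh` of `Ok`): `q₀` is absolute; `U` depends on the number of lanes, of cells, and on the error allowed -/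
theorem pvpk_lane_numbers : ∃ q₀ : ℝ, 0 < q₀ ∧ q₀ ≤ 1 ∧ ∀ (n k : ℕ) (a : ℝ), 0 < a → ∃ U : ℝ, 1 ≤ U ∧ ∀ ε : ℝ, 0 < ε → ∀ s : ℝ, U * ε ≤ s →
    ∀ Λ : List (Bool × List (ℤ × ℤ)), Λ.length ≤ k → (∀ x ∈ Λ, x.2.IsChain PvlnAdj ∧ x.2.length ≤ n) →
      ENNReal.ofReal ((q₀ ^ (3 * n) / 2) ^ k) ≤ ((Λ.map fun x => (pvpkLane s x.1 x.2).Bar).map fun B => pvP ε B).prod ∧
        pvP ε (pvpkMs (Λ.map fun x => pvpkLane s x.1 x.2))ᶜ ≤ ENNReal.ofReal a := by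
  obtain ⟨q₀, h0, h1, hq⟩ := pvln_lane_prob
  refine ⟨q₀, h0, h1, fun n k a ha => ?_⟩
  obtain ⟨U1, hU1, hP⟩ := hq n
  obtain ⟨U2, hU2, hE⟩ := pvln_err n (a := a / (k + 1)) (by positivity)
  refine ⟨max U1 (2 * U2), le_max_of_le_left hU1, fun ε hε s hs Λ hk hΛ => ?_⟩
  have hs1 : U1 * ε ≤ s := (mul_le_mul_of_nonneg_right (le_max_left _ _) hε.le).trans hs
  have hs2 : U2 * ε ≤ s / 2 := by
    have := (mul_le_mul_of_nonneg_right (le_max_right U1 (2 * U2)) hε.le).trans hs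
    linarith
  have hspos : 0 < s := lt_of_lt_of_le (by positivity) hs1
  set r : ℝ := q₀ ^ (3 * n) / 2 with hr
  have hr0 : 0 < r := by positivity
  have hr1 : r ≤ 1 := by
    have : q₀ ^ (3 * n) ≤ 1 := pow_le_one₀ h0.le h1
    linarith
  constructor
  · rw [List.map_map]
    have h2 : ENNReal.ofReal r ^ Λ.length ≤ (Λ.map ((fun B => pvP ε B) ∘ fun x => (pvpkLane s x.1 x.2).Bar)).prod :=
      pvln_prod_ge Λ _ _ fun x hx => (hP ε hε s hs1 x.1 x.2 (hΛ x hx).1 (hΛ x hx).2).trans (pvpk_pk_bar_ge ε (pvpkLane s x.1 x.2))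
    refine le_trans ?_ h2
    rw [← ENNReal.ofReal_pow hr0.le]
    exact ENNReal.ofReal_le_ofReal (pow_le_pow_of_le_one hr0.le hr1 hk)
  · refine (pvpk_ms_prob ε _).trans ?_
    rw [List.map_map]
    have h3 : ∀ x ∈ Λ, ((fun P : PvlnPk => pvP ε P.Msᶜ) ∘ fun x : Bool × List (ℤ × ℤ) => pvpkLane s x.1 x.2) x ≤ ENNReal.ofReal (a / (k + 1)) := by
      intro x hx
      refine (pvpk_pk_ms_prob ε (pvpk_lane_fit hspos x.1 (hΛ x hx).1)).trans (ENNReal.ofReal_le_ofReal ?_)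
      have := hE ε hε (s / 2) hs2 (x.2.map (pvlnCtr s)).length (by rw [List.length_map]; exact (hΛ x hx).2)
      exact this
    calc (Λ.map ((fun P : PvlnPk => pvP ε P.Msᶜ) ∘ fun x : Bool × List (ℤ × ℤ) => pvpkLane s x.1 x.2)).sum
        ≤ Λ.length • ENNReal.ofReal (a / (k + 1)) := List.sum_le_card_nsmul _ _ (by
          intro y hy
          obtain ⟨x, hx, rfl⟩ := List.mem_map.1 hy
          exact h3 x hx) |>.trans (by rw [List.length_map])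
      _ ≤ ENNReal.ofReal a := by
          rw [nsmul_eq_mul, ← ENNReal.ofReal_natCast, ← ENNReal.ofReal_mul (by positivity)]
          refine ENNReal.ofReal_le_ofReal ?_
          have hk' : (Λ.length : ℝ) ≤ k := by exact_mod_cast hk
          have : (Λ.length : ℝ) * (a / (k + 1)) ≤ (k + 1) * (a / (k + 1)) := by
            gcongr
            linarith
          refine this.trans (le_of_eq ?_)
          field_simp

end Claimed.Agent.R289
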