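-- KEEP
import Claimed.Agent.R289.Tr.PropKit
import Claimed.Agent.R289.Exit.LaneQ

/-!
# Row 289 (S0537), THE WALL, ROAD P, P16 (forced connectors), file Tr/ForceN : PRODUCT, SECTIONS, QUENCHED UP-NESS OF THE LOCAL PACKAGES, NUMBERS      (owner helper68, split of helper272; prefix `pvfn_`)

Consumer: `Tr/ForceP.lean` of 272 (`pvfp_bridge`, `pvfp_forced`), `Tr/ForceW.lean` of 147, `Tr/SysP.lean` of 124 (field `frc` of `PvsySys.Forced`, fields `thickν`, `cyc1ν` of `PvrpIn`).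
* §1 SECTIONS.   `pvfn_sec_off` (an event read off `O` is its own section), `pvfn_P_off`, `pvfn_sec_diff`, **`pvfn_prod`** :
     `P(L ∩ L' | σ on O ∪ O') = P(L | σ on O) P(L' | σ on O')` for `L` read in `O ∪ T`, `L'` read in `O' ∪ T'`, `(O ∪ T) ∩ (O' ∪ T') = ∅`;   `pvfn_prod_ge` (`β β' ≤ …`).
* §2 QUENCHED UP-NESS.   At a fixed good geometry the local package `pvlnLoc N c l cen u` is an up-set of the mixed order "black up on `Kb`, white up on `Kw`" as soon as `N ⊆ Kb` (`c = true`), `N ⊆ Kw` (`c = false`).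
     It is NOT `PvInc`: the mesh part is only colour blind (`pvfn_G_blind`).      `pvfn_loc_up`, `pvfn_lane_up`, `pvfn_walks_up`, and the same for SECTIONS at a frozen state (`pvfn_sec_lane`).
* §3 NUMBERS = P16 (d).   ONE constant `q₀` and, for walks of `≤ n` cells and `θ > 0`, ONE threshold: `pvfn_walks` (all placements, all walks at once), `pvfn_walks_ev` (eventually in `ε` at a fixed mesh),
     `pvfn_half`, `pvfn_const` (the final constant `q_e = (q₀^(15n)/2)² β²/2`), **`pvfn_forced_ev`** (from the bridge inequality of 272 to "eventually forced with a constant which depends on `(n, β)` only").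
-/

set_option autoImplicit false
set_option linter.unusedSectionVars false
set_option linter.unusedVariables false

namespace Claimed.Agent.R289

open MeasureTheory ProbabilityTheory Set Filter Topology
open scoped ENNReal NNReal

/-! ## 1. sections, the product lemma -/

/-- **SECTION**: an event which is read off `O` is its own section -/
theorem pvfn_sec_off {O W : Set PvPt} (hd : Disjoint W O) (σ : Conf PvPt) {𝒦 : Set (Conf PvPt)} (h : Conf.ReadsSet W 𝒦) : pvhkSec O σ 𝒦 = 𝒦 := by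
  ext η
  exact iff_of_eq ((Conf.readsSet_iff_reads.1 h).spl_right hd σ η)

/-- the conditional probability of an event which is read off `O` -/
theorem pvfn_P_off (μ : Measure (Conf PvPt)) {O W : Set PvPt} (hO : MeasurableSet O) (hd : Disjoint W O) (σ : Conf PvPt) {𝒦 : Set (Conf PvPt)} (m : MeasurableSet 𝒦)
    (h : Conf.ReadsSet W 𝒦) : pvtiP μ O 𝒦 σ = μ 𝒦 := by
  rw [pvhk_P_apply μ hO σ m, pvfn_sec_off hd σ h]

/-- the window of a side test may be taken off the plug -/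
theorem pvfn_reads_diff {O T : Set PvPt} {L : Set (Conf PvPt)} (h : Conf.ReadsSet (O ∪ T) L) : Conf.ReadsSet (O ∪ T \ O) L := by
  rwa [union_sdiff_self]

/-- the section of a side test is read in its tube, off the plug -/
theorem pvfn_sec_diff {O T : Set PvPt} (σ : Conf PvPt) {L : Set (Conf PvPt)} (h : Conf.ReadsSet (O ∪ T) L) : Conf.ReadsSet (T \ O) (pvhkSec O σ L) :=
  pvpk_sec_reads σ (pvfn_reads_diff h)

/-- keeping the second plug as well does not change the section of the first side test -/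
theorem pvfn_sec_left {O O' T : Set PvPt} (hd : Disjoint (O ∪ T) O') (σ : Conf PvPt) {L : Set (Conf PvPt)} (h : Conf.ReadsSet (O ∪ T) L) :
    pvhkSec (O ∪ O') σ L = pvhkSec O σ L := by
  refine pvpk_sec_change subset_union_left ?_ σ (pvfn_reads_diff h)
  rw [Set.disjoint_union_right]
  exact ⟨disjoint_sdiff_left, (hd.mono_left subset_union_right).mono_left sdiff_subset⟩

theorem pvfn_sec_right {O O' T' : Set PvPt} (hd : Disjoint O (O' ∪ T')) (σ : Conf PvPt) {L' : Set (Conf PvPt)} (h : Conf.ReadsSet (O' ∪ T') L') :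
    pvhkSec (O ∪ O') σ L' = pvhkSec O' σ L' := by
  rw [union_comm O O']
  exact pvfn_sec_left hd.symm σ h

/-- **(B) THE PRODUCT LEMMA**: two side tests with disjoint exteriors are conditionally independent given the two states -/
theorem pvfn_prod (ε : ℝ) {O O' T T' : Set PvPt} (mO : MeasurableSet O) (mO' : MeasurableSet O') (mT : MeasurableSet T) (mT' : MeasurableSet T')
    (hd : Disjoint (O ∪ T) (O' ∪ T')) {L L' : Set (Conf PvPt)} (mL : MeasurableSet L) (mL' : MeasurableSet L')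
    (rL : Conf.ReadsSet (O ∪ T) L) (rL' : Conf.ReadsSet (O' ∪ T') L') (σ : Conf PvPt) :
    pvtiP (pvP ε) (O ∪ O') (L ∩ L') σ = pvtiP (pvP ε) O L σ * pvtiP (pvP ε) O' L' σ := by
  rw [pvhk_P_apply _ (mO.union mO') σ (mL.inter mL'), pvhk_P_apply _ mO σ mL, pvhk_P_apply _ mO' σ mL', pvhk_sec_inter,
    pvfn_sec_left (hd.mono_right subset_union_left) σ rL, pvfn_sec_right (hd.mono_left subset_union_left) σ rL']
  refine (pv_isPpp ε).measure_inter_reads (mT.diff mO) (mT'.diff mO') ?_ (pvhk_sec_meas mO σ mL).nullMeasurableSet (pvhk_sec_meas mO' σ mL').nullMeasurableSet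
    (pvfn_sec_diff σ rL) (pvfn_sec_diff σ rL')
  exact (hd.mono subset_union_right subset_union_right).mono sdiff_subset sdiff_subset

/-- the form consumed by the bridge -/
theorem pvfn_prod_ge (ε : ℝ) {O O' T T' : Set PvPt} (mO : MeasurableSet O) (mO' : MeasurableSet O') (mT : MeasurableSet T) (mT' : MeasurableSet T')
    (hd : Disjoint (O ∪ T) (O' ∪ T')) {L L' : Set (Conf PvPt)} (mL : MeasurableSet L) (mL' : MeasurableSet L')
    (rL : Conf.ReadsSet (O ∪ T) L) (rL' : Conf.ReadsSet (O' ∪ T') L') {σ : Conf PvPt} {β β' : ℝ≥0∞} (h : β ≤ pvtiP (pvP ε) O L σ) (h' : β' ≤ pvtiP (pvP ε) O' L' σ) :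
    β * β' ≤ pvtiP (pvP ε) (O ∪ O') (L ∩ L') σ := by
  rw [pvfn_prod ε mO mO' mT mT' hd mL mL' rL rL' σ]
  exact mul_le_mul' h h'

/-- the propensity of a plug does not see the state of a far plug -/
theorem pvfn_P_left (μ : Measure (Conf PvPt)) {O O' T : Set PvPt} (hd : Disjoint (O ∪ T) O') (σ : Conf PvPt) {L : Set (Conf PvPt)} (h : Conf.ReadsSet (O ∪ T) L) :
    pvtiP μ (O ∪ O') L σ = pvtiP μ O L σ := by
  refine pvhk_P_change μ subset_union_left ?_ σ (pvfn_reads_diff h)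
  rw [Set.disjoint_union_right]
  exact ⟨disjoint_sdiff_left, (hd.mono_left subset_union_right).mono_left sdiff_subset⟩

/-! ## 2. quenched up-ness of the local packages -/

/-- the sites of the restriction to a window `N ×ˢ univ` at a fixed geometry -/
theorem pvfn_mem_restr {g : PvGeoT} {c : PvColT} {N : Set ℂ} {p : PvPt} :
    p ∈ (Conf.restr (N ×ˢ univ) (pvConf (pvMerge (g, c)))).pts ↔ ∃ i ∈ pvgAct g, pvgSite g i ∈ N ∧ p = (pvgSite g i, c i) := by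
  constructor
  · rintro ⟨hp, hN⟩
    obtain ⟨i, hi, rfl⟩ := pvqu_mem_conf.1 hp
    exact ⟨i, hi, hN.1, rfl⟩
  · rintro ⟨i, hi, hN, rfl⟩
    exact ⟨pvqu_mem_conf.2 ⟨i, hi, rfl⟩, hN, mem_univ _⟩

/-- black up on the window: the restriction grows -/
theorem pvfn_restr_le_black {g : PvGeoT} {Kb Kw N : Set ℂ} (hN : N ⊆ Kb) {c c' : PvColT} (h : pvhkLe (pvhkSg g Kb Kw) c c') :
    PvLe (Conf.restr (N ×ˢ univ) (pvConf (pvMerge (g, c)))) (Conf.restr (N ×ˢ univ) (pvConf (pvMerge (g, c')))) := by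
  have key : ∀ i, pvgSite g i ∈ N → c i ≤ c' i := fun i hi => (h i).1 (by simp [pvhkSg, hN hi])
  constructor
  · intro v hv
    obtain ⟨i, hi, hiN, e⟩ := pvfn_mem_restr.1 hv
    have e1 : v = pvgSite g i := congrArg Prod.fst e
    have e2 : true = c i := congrArg Prod.snd e
    have e3 : c' i = true := by
      have := key i hiN
      rw [← e2] at this
      exact top_le_iff.1 this
    exact pvfn_mem_restr.2 ⟨i, hi, hiN, by rw [e1, e3]⟩
  · intro v hv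
    obtain ⟨i, hi, hiN, e⟩ := pvfn_mem_restr.1 hv
    have e1 : v = pvgSite g i := congrArg Prod.fst e
    have e2 : false = c' i := congrArg Prod.snd e
    have e3 : c i = false := by
      have := key i hiN
      rw [← e2] at this
      exact le_bot_iff.1 this
    exact pvfn_mem_restr.2 ⟨i, hi, hiN, by rw [e1, e3]⟩

/-- white up on the window: the restriction decreases -/
theorem pvfn_restr_le_white {g : PvGeoT} {Kb Kw N : Set ℂ} (hd : Disjoint Kb Kw) (hN : N ⊆ Kw) {c c' : PvColT} (h : pvhkLe (pvhkSg g Kb Kw) c c') :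
    PvLe (Conf.restr (N ×ˢ univ) (pvConf (pvMerge (g, c')))) (Conf.restr (N ×ˢ univ) (pvConf (pvMerge (g, c)))) := by
  have key : ∀ i, pvgSite g i ∈ N → c' i ≤ c i := fun i hi => (h i).2 (by
    have h1 : pvgSite g i ∉ Kb := fun hb => Set.disjoint_left.1 hd hb (hN hi)
    simp [pvhkSg, hN hi, h1])
  constructor
  · intro v hv
    obtain ⟨i, hi, hiN, e⟩ := pvfn_mem_restr.1 hv
    have e1 : v = pvgSite g i := congrArg Prod.fst e
    have e2 : true = c' i := congrArg Prod.snd e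
    have e3 : c i = true := by
      have := key i hiN
      rw [← e2] at this
      exact top_le_iff.1 this
    exact pvfn_mem_restr.2 ⟨i, hi, hiN, by rw [e1, e3]⟩
  · intro v hv
    obtain ⟨i, hi, hiN, e⟩ := pvfn_mem_restr.1 hv
    have e1 : v = pvgSite g i := congrArg Prod.fst e
    have e2 : false = c i := congrArg Prod.snd e
    have e3 : c' i = false := by
      have := key i hiN
      rw [← e2] at this
      exact le_bot_iff.1 this
    exact pvfn_mem_restr.2 ⟨i, hi, hiN, by rw [e1, e3]⟩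

/-- the occupation events with all colours are colour blind -/
theorem pvfn_occ_blind {g : PvGeoT} (N Q : Set ℂ) (c c' : PvColT) (h : Conf.restr (N ×ˢ univ) (pvConf (pvMerge (g, c))) ∈ pvmOcc (Q ×ˢ (univ : Set Bool))) :
    Conf.restr (N ×ˢ univ) (pvConf (pvMerge (g, c'))) ∈ pvmOcc (Q ×ˢ (univ : Set Bool)) := by
  obtain ⟨p, hp, hpQ⟩ := h
  obtain ⟨i, hi, hiN, rfl⟩ := pvfn_mem_restr.1 hp
  exact ⟨(pvgSite g i, c' i), pvfn_mem_restr.2 ⟨i, hi, hiN, rfl⟩, hpQ.1, mem_univ _⟩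

/-- **the mesh part of a package is colour blind** -/
theorem pvfn_G_blind {g : PvGeoT} (N : Set ℂ) (cen : List ℂ) (u : ℝ) (c c' : PvColT) (h : Conf.restr (N ×ˢ univ) (pvConf (pvMerge (g, c))) ∈ pvlnG cen u) :
    Conf.restr (N ×ˢ univ) (pvConf (pvMerge (g, c'))) ∈ pvlnG cen u := by
  intro w hw
  have h1 := h w hw
  unfold pvmGood pvmGrid at h1 ⊢
  simp only [mem_iInter] at h1 ⊢
  exact fun k hk => pvfn_occ_blind N _ c c' (h1 k hk)

/-- **QUENCHED UP-NESS OF A BLACK PACKAGE** -/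
theorem pvfn_loc_up_black {g : PvGeoT} (hg : PvgOk g) {Kb Kw N : Set ℂ} (hN : N ⊆ Kb) (l : List RswTri) (cen : List ℂ) (u : ℝ) :
    PvhkUpAt g (pvhkSg g Kb Kw) (pvlnLoc N true l cen u) := by
  intro c c' h hc
  obtain ⟨⟨h1, -⟩, h3⟩ := hc
  refine ⟨⟨fun e he => ?_, pvhk_restr_lf _ (hg.ok c').pvlf⟩, pvfn_G_blind N cen u c c' h3⟩
  exact pvlq_holds_mono (pvlq_reg_mono (pvfn_restr_le_black hN h)).1 (h1 e he)

/-- **QUENCHED UP-NESS OF A WHITE PACKAGE** -/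
theorem pvfn_loc_up_white {g : PvGeoT} (hg : PvgOk g) {Kb Kw N : Set ℂ} (hd : Disjoint Kb Kw) (hN : N ⊆ Kw) (l : List RswTri) (cen : List ℂ) (u : ℝ) :
    PvhkUpAt g (pvhkSg g Kb Kw) (pvlnLoc N false l cen u) := by
  intro c c' h hc
  obtain ⟨⟨h1, -⟩, h3⟩ := hc
  refine ⟨⟨fun e he => ?_, pvhk_restr_lf _ (hg.ok c').pvlf⟩, pvfn_G_blind N cen u c c' h3⟩
  exact pvlq_holds_mono (pvlq_reg_mono (pvfn_restr_le_white hd hN h)).2 (h1 e he)

/-- both colours -/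
theorem pvfn_loc_up {g : PvGeoT} (hg : PvgOk g) {Kb Kw N : Set ℂ} (hd : Disjoint Kb Kw) (b : Bool) (hN : N ⊆ cond b Kb Kw) (l : List RswTri) (cen : List ℂ) (u : ℝ) :
    PvhkUpAt g (pvhkSg g Kb Kw) (pvlnLoc N b l cen u) := by
  cases b
  · exact pvfn_loc_up_white hg hd hN l cen u
  · exact pvfn_loc_up_black hg hN l cen u

/-- the event of a walk of cells -/
theorem pvfn_lane_up {g : PvGeoT} (hg : PvgOk g) {Kb Kw : Set ℂ} (hd : Disjoint Kb Kw) (δ : ℝ) (b : Bool) (L : List (ℤ × ℤ)) (hN : pvlnW δ L ⊆ cond b Kb Kw) :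
    PvhkUpAt g (pvhkSg g Kb Kw) (pvlnLaneEv δ b L) := pvfn_loc_up hg hd b hN _ _ _

/-- **the network of a connector**: black walk and white walk, ONE mixed order -/
theorem pvfn_walks_up {g : PvGeoT} (hg : PvgOk g) {Kb Kw : Set ℂ} (hd : Disjoint Kb Kw) (δ : ℝ) (Lb Lw : List (ℤ × ℤ)) (hb : pvlnW δ Lb ⊆ Kb) (hw : pvlnW δ Lw ⊆ Kw) :
    PvhkUpAt g (pvhkSg g Kb Kw) (pvlnLaneEv δ true Lb ∩ pvlnLaneEv δ false Lw) :=
  (pvfn_lane_up hg hd δ true Lb hb).inter (pvfn_lane_up hg hd δ false Lw hw)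

/-- the section of a walk event whose window misses the plugs is the walk event -/
theorem pvfn_sec_lane {O : Set PvPt} (σ : Conf PvPt) (δ : ℝ) (b : Bool) (L : List (ℤ × ℤ)) (hd : Disjoint (pvlnW δ L ×ˢ (univ : Set Bool)) O) :
    pvhkSec O σ (pvlnLaneEv δ b L) = pvlnLaneEv δ b L := pvfn_sec_off hd σ (pvlq_lane_reads δ b L)

theorem pvfn_lane_meas {δ : ℝ} (hδ : 0 < δ) (b : Bool) {L : List (ℤ × ℤ)} (hc : L.IsChain PvlnAdj) : MeasurableSet (pvlnLaneEv δ b L) :=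
  pvln_loc_meas (pvln_lane_fit hδ hc) b

/-! ## 3. numbers = P16 (d) -/

/-- **P16 (d), UNIFORM FORM**: ONE constant `q₀`; for walks of `≤ n` cells and `θ > 0` ONE threshold `U`, good for ALL walks (= all types of the menu, all placements, all meshes `δ ≥ U ε`) -/
theorem pvfn_walks : ∃ q₀ : ℝ, 0 < q₀ ∧ q₀ ≤ 1 ∧ ∀ (n : ℕ) (θ : ℝ), 0 < θ → ∃ U : ℝ, 1 ≤ U ∧ ∀ ε : ℝ, 0 < ε → ∀ δ : ℝ, U * ε ≤ δ →
    ∀ Lb Lw : List (ℤ × ℤ), Lb ≠ [] → Lw ≠ [] → Lb.IsChain PvlnAdj → Lw.IsChain PvlnAdj → Lb.length ≤ n → Lw.length ≤ n → Disjoint (pvlnW δ Lb) (pvlnW δ Lw) →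
      pvGeo ε {g | pvQc (pvlnLaneEv δ true Lb ∩ pvlnLaneEv δ false Lw) g < ENNReal.ofReal ((q₀ ^ (15 * n) / 2) ^ 2)} ≤ ENNReal.ofReal θ := by
  obtain ⟨q, h0, h1, hQ⟩ := exit_pvlq_q
  refine ⟨q, h0, h1, fun n θ hθ => ?_⟩
  obtain ⟨U, hU, H⟩ := pvlq_corridor h0 h1 hQ n hθ
  exact ⟨U, hU, fun ε hε δ hδ Lb Lw a b c d e f k => H ε hε δ hδ true false Lb Lw a b c d e f k⟩

/-- a threshold `U ε ≤ δ` holds eventually -/
theorem pvfn_ev_of_U {U δ : ℝ} (hU : 1 ≤ U) (hδ : 0 < δ) : ∀ᶠ ε in 𝓝[>] (0 : ℝ), 0 < ε ∧ U * ε ≤ δ := by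
  have hU0 : 0 < U := by linarith
  have hmem : Ioo (0 : ℝ) (δ / U) ∈ 𝓝[>] (0 : ℝ) := Ioo_mem_nhdsGT (by positivity)
  filter_upwards [hmem] with ε hε
  refine ⟨hε.1, ?_⟩
  have := hε.2
  rw [lt_div_iff₀ hU0] at this
  linarith

/-- **P16 (d), EVENTUAL FORM**: at a fixed mesh `δ`, eventually in `ε`, for ALL walks of `≤ n` cells at once -/
theorem pvfn_walks_ev : ∃ q₀ : ℝ, 0 < q₀ ∧ q₀ ≤ 1 ∧ ∀ (n : ℕ) (θ : ℝ), 0 < θ → ∀ δ : ℝ, 0 < δ → ∀ᶠ ε in 𝓝[>] (0 : ℝ),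
    ∀ Lb Lw : List (ℤ × ℤ), Lb ≠ [] → Lw ≠ [] → Lb.IsChain PvlnAdj → Lw.IsChain PvlnAdj → Lb.length ≤ n → Lw.length ≤ n → Disjoint (pvlnW δ Lb) (pvlnW δ Lw) →
      pvGeo ε {g | pvQc (pvlnLaneEv δ true Lb ∩ pvlnLaneEv δ false Lw) g < ENNReal.ofReal ((q₀ ^ (15 * n) / 2) ^ 2)} ≤ ENNReal.ofReal θ := by
  obtain ⟨q, h0, h1, H⟩ := pvfn_walks
  refine ⟨q, h0, h1, fun n θ hθ δ hδ => ?_⟩
  obtain ⟨U, hU, HU⟩ := H n θ hθ
  filter_upwards [pvfn_ev_of_U hU hδ] with ε hε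
  exact HU ε hε.1 δ hε.2

/-- the same for ONE walk (white lane of P16') -/
theorem pvfn_walk_ev : ∃ q₀ : ℝ, 0 < q₀ ∧ q₀ ≤ 1 ∧ ∀ (n : ℕ) (θ : ℝ), 0 < θ → ∀ δ : ℝ, 0 < δ → ∀ᶠ ε in 𝓝[>] (0 : ℝ),
    ∀ (b : Bool) (L : List (ℤ × ℤ)), L ≠ [] → L.IsChain PvlnAdj → L.length ≤ n →
      pvGeo ε {g | pvQc (pvlnLaneEv δ b L) g < ENNReal.ofReal (q₀ ^ (15 * n) / 2)} ≤ ENNReal.ofReal θ := by
  obtain ⟨q, h0, h1, hQ⟩ := exit_pvlq_q
  refine ⟨q, h0, h1, fun n θ hθ δ hδ => ?_⟩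
  obtain ⟨U, hU, HU⟩ := pvlq_lane h0 h1 hQ n hθ
  filter_upwards [pvfn_ev_of_U hU hδ] with ε hε
  exact HU ε hε.1 δ hε.2

/-- subtracting at most one half -/
theorem pvfn_half {B err : ℝ≥0∞} (hB : B ≠ ∞) (h : err ≤ B / 2) : B / 2 ≤ B - err := by
  have h2 : B / 2 + B / 2 = B := ENNReal.add_halves B
  have hne : B / 2 ≠ ∞ := fun e => hB (by rw [← h2, e]; simp)
  have h3 : B / 2 = B - B / 2 := by
    nth_rewrite 2 [← h2]
    exact (ENNReal.add_sub_cancel_right hne).symm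
  calc B / 2 = B - B / 2 := h3
    _ ≤ B - err := tsub_le_tsub_left h _

/-- **the final constant** `q_e = (q₀^(15n)/2)² β²/2` of a connector made of two walks of `≤ n` cells: it depends on `(q₀, n, β)` only -/
noncomputable def pvfnQ (q₀ : ℝ) (n : ℕ) (β : ℝ≥0∞) : ℝ≥0∞ := ENNReal.ofReal ((q₀ ^ (15 * n) / 2) ^ 2) * (β * β / 2)

theorem pvfn_eqns_cite : True := by
  have := @pvfnQ.eq_1
  trivial

theorem pvfn_Q_ne_zero {q₀ : ℝ} (h0 : 0 < q₀) (n : ℕ) {β : ℝ≥0∞} (hβ : β ≠ 0) : pvfnQ q₀ n β ≠ 0 := by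
  unfold pvfnQ
  refine mul_ne_zero ?_ ?_
  · rw [Ne, ENNReal.ofReal_eq_zero, not_le]
    positivity
  · exact (ENNReal.div_pos (mul_ne_zero hβ hβ) (by norm_num)).ne'

theorem pvfn_Q_le_one {q₀ : ℝ} (h0 : 0 < q₀) (h1 : q₀ ≤ 1) (n : ℕ) {β : ℝ≥0∞} (hβ : β ≤ 1) : pvfnQ q₀ n β ≤ 1 := by
  unfold pvfnQ
  have a1 : ENNReal.ofReal ((q₀ ^ (15 * n) / 2) ^ 2) ≤ 1 := by
    rw [← ENNReal.ofReal_one]
    refine ENNReal.ofReal_le_ofReal ?_
    have : q₀ ^ (15 * n) ≤ 1 := pow_le_one₀ h0.le h1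
    have h3 : 0 ≤ q₀ ^ (15 * n) := by positivity
    exact pow_le_one₀ (by positivity) (by linarith)
  have a2 : β * β / 2 ≤ 1 := by
    refine (ENNReal.div_le_iff (by norm_num) (by norm_num)).2 ?_
    calc β * β ≤ 1 * 1 := mul_le_mul' hβ hβ
      _ ≤ 1 * 2 := by norm_num
  calc _ ≤ (1 : ℝ≥0∞) * 1 := mul_le_mul' a1 a2
    _ = 1 := one_mul _

/-- more cells: a smaller constant -/
theorem pvfn_Q_anti {q₀ : ℝ} (h0 : 0 < q₀) (h1 : q₀ ≤ 1) {n n' : ℕ} (h : n ≤ n') (β : ℝ≥0∞) : pvfnQ q₀ n' β ≤ pvfnQ q₀ n β := by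
  unfold pvfnQ
  refine mul_le_mul' (ENNReal.ofReal_le_ofReal ?_) le_rfl
  have : q₀ ^ (15 * n') ≤ q₀ ^ (15 * n) := pow_le_pow_of_le_one h0.le h1 (by omega)
  have h3 : 0 ≤ q₀ ^ (15 * n') := by positivity
  exact pow_le_pow_left₀ (by positivity) (by linarith) 2

/-- **FROM THE BRIDGE TO "EVENTUALLY FORCED"**: `p ε i` = the success probabilities of a family of (connector, pair of usable states); the bridge gives `Q (β² - err ε) ≤ p ε i` with `err → 0` -/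
theorem pvfn_forced_ev {ι : Type*} {p : ℝ → ι → ℝ≥0∞} {Q β : ℝ≥0∞} {err : ℝ → ℝ≥0∞} (hβ : β ≠ 0) (hβ' : β ≠ ∞)
    (h : ∀ᶠ ε in 𝓝[>] (0 : ℝ), ∀ i, Q * (β * β - err ε) ≤ p ε i) (herr : Tendsto err (𝓝[>] (0 : ℝ)) (𝓝 0)) :
    ∀ᶠ ε in 𝓝[>] (0 : ℝ), ∀ i, Q * (β * β / 2) ≤ p ε i := by
  have hpos : 0 < β * β / 2 := ENNReal.div_pos (mul_ne_zero hβ hβ) (by norm_num)
  filter_upwards [h, (ENNReal.tendsto_nhds_zero.1 herr) _ hpos] with ε h1 h2 i
  exact (mul_le_mul' le_rfl (pvfn_half (ENNReal.mul_ne_top hβ' hβ') h2)).trans (h1 i)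

/-- a finite family of thresholds (finite menu `×` finitely many placements), when the thresholds are NOT uniform -/
theorem pvfn_ev_finite {ι : Type*} [Finite ι] {P : ι → ℝ → Prop} (h : ∀ i, ∀ᶠ ε in 𝓝[>] (0 : ℝ), P i ε) : ∀ᶠ ε in 𝓝[>] (0 : ℝ), ∀ i, P i ε :=
  Filter.eventually_all.2 h

/-- a finite family of positive constants has a positive lower bound -/
theorem pvfn_min_finite {ι : Type*} [Finite ι] (q : ι → ℝ≥0∞) (h : ∀ i, q i ≠ 0) : ∃ q₁ : ℝ≥0∞, q₁ ≠ 0 ∧ q₁ ≤ 1 ∧ ∀ i, q₁ ≤ q i := by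
  classical
  cases nonempty_fintype ι
  refine ⟨Finset.univ.inf (fun i => q i) ⊓ 1, ?_, inf_le_right, fun i => inf_le_left.trans (Finset.inf_le (Finset.mem_univ i))⟩
  intro h0
  have h1 : ¬ (0 : ℝ≥0∞) < Finset.univ.inf (fun i => q i) ⊓ 1 := by rw [h0]; exact lt_irrefl _
  refine h1 (lt_inf_iff.2 ⟨?_, one_pos⟩)
  rw [Finset.lt_inf_iff (by simp)]
  exact fun i _ => pos_iff_ne_zero.2 (h i)

end Claimed.Agent.R289
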