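import Claimed.Agent.R289.Exit.LaneQ
import Claimed.Agent.R289.Tr.Dom
import Claimed.Agent.R289.Del.Seam
import Claimed.Agent.R289.Pl.Hex

/-!
# Row 289 (S0537), THE WALL, E10 = LINK BOUND, file Tr/LinkQ : THE QUENCHED PROBABILITY OF THE PATTERNS OF A LINK      (pen helper21, post of helper24; second helper221; prefix `pvkq_`, defs `pvkq*`, `Pvkq*`)

DESIGN.   THE PATTERNS OF A LINK ARE LANE EVENTS OF CHAINS OF CELLS, NOTHING ELSE.   A landing "circuit" round a tip is a C-SHAPED CHAIN of cells of the same grid (from the cell just below the ray, round through the box, to the cell just above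
the ray), continued by the lane, continued by the C-shape at the other tip: ONE list `L : List (ℤ × ℤ)`, `L.IsChain PvlnAdj` (repeats allowed).   The lanes of the other colour pass through the OPENING of the C.
* `SY`-patterns `pvkqSY δ Lb Lw = pvlnLaneEv δ true Lb ∩ pvlnLaneEv δ false Lw` (windows disjoint),      `WO`-pattern `pvkqWO δ Lo = pvlnLaneEv δ false Lo`.
* the events are events of the COPY colouring `κ` (ALL sites resampled); the deterministic halves (`Tr/HookY` 23, `Tr/HookW` 53) prove `cfOf Y κ ∈ patterns → link event for (frozen colours, κ elsewhere)`.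

* sec.1  LABEL FREE  `pvkqP 𝒜 Y = colLaw ℂ {κ | cfOf Y κ ∈ 𝒜}` (the shape of `hq` of `PvdmSys.Hyp`, 159), **`pvkq_P_eq`** (`= pvQc 𝒜 g` at `Y = pvgSites g`), `pvkq_P_le`, `pvkq_P_congr` (reads the sites of the window only), `pvkq_P_mono`,
         **`pvkq_hq`** (a deterministic inclusion turns the bound on the patterns into the field `hq` VERBATIM);   bad geometries: `pvkq_bad_geo` (`pvGeo ε`), `pvkq_bad_law` (`pvLaw ε`, outer), `pvkq_bad_up` (`PvUp.iter (pvGeo ε) pvCol`)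
* sec.2  THE BOUNDS  **`pvkq_link`** : ONE `q ∈ (0,1]`;  chains of `≤ n` cells of side `δ ≥ U(n,θ) ε`:  `pvkqP (WO) ≥ q^(15n)/2`,  `pvkqP (SY) ≥ (q^(15n)/2)^2` off geometries of mass `≤ θ`;   `pvkq_link_lim` (fixed chains, `ε ↓ 0`), `pvkq_link_up`
* sec.3  VERTEX FORM  `pvkqV Y κ c W` (sites of colour `c` in `W`), **`pvkq_join_of_path`**, **`pvkq_join`** : on the lane event every contiguous part `L'` of the chain carries a `Join` of the Delaunay map, through sites of colour `c` of the window of `L'`,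
         from (a site within `δ/16` of) any side of its first cell to any side of its last cell
* sec.4  CHAINS ALONG PATHS  `pvkqCell δ z`, **`pvkq_chain_of_path`** (chain without repeats from the cell of `x` to the cell of `y`, window within `4 δ` of the path, `≤ (2M+3)²` cells), **`pvkq_chain_of_joined`** (`JoinedIn {z | closedBall z (4 δ) ⊆ R} x y`:
         window `⊆ R`, `≤ (2M+1)²` cells if `R ⊆ closedBall z0 (M δ)`), `pvkq_count`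
* sec.5  REGION FORM = THE CELLS ARE HIDDEN  `PvkqCore δ R x y`, chain of record `pvkqL δ R x y`, **pattern of record `pvkqEv δ c R x y`** (no `ε`), `pvkq_Ev_meas`, `pvkq_Ev_reads` (reads `R`), **`pvkq_Ev_det`** (`PvkqDet`: sites within `2 δ` of `x`, `y` joined in the
         Delaunay map through sites of colour `c` of `R`), **`pvkq_region`** (one region `q^(15(2M+1)²)/2`, two disjoint regions: square), **`pvkq_region_up`** (fixed regions, `ε ↓ 0`, upper probability of the wall)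
* sec.6  FINITE FAMILIES OF LANES  `pvkqFam δ l` (`= {η | ∀ x ∈ l, η ∈ pvlnLaneEv δ x.1 x.2}`), `pvkq_fam_meas`, `pvkq_fam_reads`, **`pvkq_fam_Qc`** (product at a good geometry), **`pvkq_fam_geo`** (uniform bound, power `l.length`)
* sec.7  THE POINTS OF THE CELLS  **`pvkq_pts`**, **`pvkq_pts_ev`**: ONE point `p k` and ONE site `A k` per cell, joined (continuum: in `region ∩ cells of L'`; vertices: `Join` through the window of `L'`) for EVERY contiguous part `L'`;   `pvkq_join_both`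
* sec.8  ROUTES  legs `(R, x, y)` which follow each other: `PvkqRoute δ ℓ`, chain `pvkqRt δ ℓ`, pattern `pvkqRtEv δ c ℓ`, region `pvkqRtR ℓ`, cells of a leg `pvkqU δ R x y`;   **`pvkq_rt_det`** (ONE point `P x` and ONE site `A x` per way point, every leg joined inside ITS region)
* sec.9  PATTERNS = finite families of routes  `pvkqPat δ F`, `pvkqPatR F`, **`PvkqFit δ M K F`** (`.meas`, `.reads`, `.bdd`), **`pvkq_pat_geo`** (`pvQc`), `pvkq_pat_P` (label free), **`pvkq_pat_lim`** (fixed pattern, `ε ↓ 0`: `pvGeo` and upper probability of the wall)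
* sec.10 MESH INSIDE THE TEST  `pvkqMs μ L` (mesh event of ANY list of cells: `μ/16`-net, colour blind, read in `pvlnW μ L`), `pvkqBox k0 M`, `pvkqMsB μ z0 M` (**`pvkq_msB_dense`**: `VorDense (cfSites η) (closedBall z0 (M μ)) (μ/16)`), `pvkq_ms_prob`, `pvkq_ms_lim`;
         **`pvkq_with`**, `pvkq_with_lim` (ANY measurable event of high probability may be put inside the test: Markov, threshold `t - s`), `PvkqFit.test`, **`pvkq_patM_lim`**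
-/

set_option autoImplicit false
set_option linter.unusedSectionVars false
set_option linter.unusedVariables false

namespace Claimed.Agent.R289

open MeasureTheory Filter Topology Set Claims.C0465
open scoped ENNReal

/-! ## 1. the label free quenched probability -/

/-- **the quenched probability of `𝒜` at the set of sites `Y`**, label free: fair independent colours `κ : ℂ → Bool` -/
noncomputable def pvkqP (𝒜 : Set (Conf PvPt)) (Y : Set ℂ) : ℝ≥0∞ := colLaw ℂ {κ | cfOf Y κ ∈ 𝒜}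

/-- the patterns of `SY`: a black chain and a white chain -/
def pvkqSY (δ : ℝ) (Lb Lw : List (ℤ × ℤ)) : Set (Conf PvPt) := pvlnLaneEv δ true Lb ∩ pvlnLaneEv δ false Lw

/-- the pattern of `WO`: a white chain -/
def pvkqWO (δ : ℝ) (Lo : List (ℤ × ℤ)) : Set (Conf PvPt) := pvlnLaneEv δ false Lo

/-- the sites of colour `c` (for `κ`) lying in `W`, as vertices of the Delaunay map -/
def pvkqV (Y : Set ℂ) (κ : ℂ → Bool) (c : Bool) (W : Set ℂ) : Set ↥Y := {v | κ v = c ∧ (v : ℂ) ∈ W}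

theorem pvkq_eqns_cite : True := by
  have := @pvkqP.eq_1; have := @pvkqSY.eq_1; have := @pvkqWO.eq_1; have := @pvkqV.eq_1
  trivial

theorem pvkq_conf_comp {g : PvGeoT} (hg : PvgOk g) (κ : ℂ → Bool) : pvConf (pvMerge (g, κ ∘ pvgSite g)) = cfOf (pvgSites g) κ := by
  rw [hg.conf_eq]
  refine pvdm_cfOf_congr fun z hz => ?_
  obtain ⟨h1, h2⟩ := pvqu_idx_spec hz
  show κ (pvgSite g (pvgIdx g z)) = κ z
  rw [h2]

theorem pvkq_P_mono {𝒜 ℬ : Set (Conf PvPt)} (h : 𝒜 ⊆ ℬ) (Y : Set ℂ) : pvkqP 𝒜 Y ≤ pvkqP ℬ Y := measure_mono fun _ hκ => h hκ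

/-- ANY event: the label free probability is at most the quenched probability -/
theorem pvkq_P_le {g : PvGeoT} (hg : PvgOk g) (𝒜 : Set (Conf PvPt)) : pvkqP 𝒜 (pvgSites g) ≤ pvQc 𝒜 g := by
  have hm : Measurable fun κ : ℂ → Bool => κ ∘ pvgSite g := measurable_pi_lambda _ fun j => measurable_pi_apply _
  have e := pvf_colLaw_comp (pvgSite g) hg.inj
  rw [pvqu_Qc_eq]
  show _ ≤ colLaw PvIx {c | pvConf (pvMerge (g, c)) ∈ 𝒜}
  rw [← e]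
  refine le_trans (measure_mono ?_) (Measure.le_map_apply hm.aemeasurable _)
  intro κ hκ
  show pvConf (pvMerge (g, κ ∘ pvgSite g)) ∈ 𝒜
  rw [pvkq_conf_comp hg]
  exact hκ

/-- **LABEL FREE = QUENCHED** -/
theorem pvkq_P_eq {g : PvGeoT} (hg : PvgOk g) {𝒜 : Set (Conf PvPt)} (m : MeasurableSet 𝒜) : pvkqP 𝒜 (pvgSites g) = pvQc 𝒜 g := by
  have hm : Measurable fun κ : ℂ → Bool => κ ∘ pvgSite g := measurable_pi_lambda _ fun j => measurable_pi_apply _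
  have e := pvf_colLaw_comp (pvgSite g) hg.inj
  rw [pvqu_Qc_eq]
  show _ = colLaw PvIx {c | pvConf (pvMerge (g, c)) ∈ 𝒜}
  have hs : MeasurableSet {c : PvColT | pvConf (pvMerge (g, c)) ∈ 𝒜} := pvqu_section_meas (measurable_pvConf m) g
  rw [← e, Measure.map_apply hm hs]
  unfold pvkqP
  congr 1
  ext κ
  show cfOf (pvgSites g) κ ∈ 𝒜 ↔ pvConf (pvMerge (g, κ ∘ pvgSite g)) ∈ 𝒜
  rw [pvkq_conf_comp hg]

/-- an event read in the window `O` sees only the sites of `O` -/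
theorem pvkq_P_congr {O : Set ℂ} {𝒜 : Set (Conf PvPt)} (h : Conf.ReadsSet (O ×ˢ univ) 𝒜) {Y Y' : Set ℂ} (hY : Y ∩ O = Y' ∩ O) : pvkqP 𝒜 Y = pvkqP 𝒜 Y' := by
  unfold pvkqP
  congr 1
  ext κ
  have e : Conf.restr (O ×ˢ univ) (cfOf Y κ) = Conf.restr (O ×ˢ univ) (cfOf Y' κ) := by
    ext p
    simp only [Conf.restr, cfOf, mem_inter_iff, mem_ofPred_eq, mem_prod, mem_univ, and_true]
    constructor
    · rintro ⟨⟨h1, h2⟩, h3⟩
      exact ⟨⟨(hY ▸ (⟨h1, h3⟩ : p.1 ∈ Y ∩ O) : p.1 ∈ Y' ∩ O).1, h2⟩, h3⟩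
    · rintro ⟨⟨h1, h2⟩, h3⟩
      exact ⟨⟨(hY.symm ▸ (⟨h1, h3⟩ : p.1 ∈ Y' ∩ O) : p.1 ∈ Y ∩ O).1, h2⟩, h3⟩
  show cfOf Y κ ∈ 𝒜 ↔ cfOf Y' κ ∈ 𝒜
  rw [← h (cfOf Y κ), ← h (cfOf Y' κ), e]

/-- **THE FIELD `hq`**: if the patterns of the COPY colouring force the link event of (colours `σ` on the frozen sites `F`, copy elsewhere), the bound on the patterns is the bound on the link event -/
theorem pvkq_hq {𝒜 𝒲 : Set (Conf PvPt)} {Y F : Set ℂ} {σ : ℂ → Bool} (hdet : ∀ κ : ℂ → Bool, cfOf Y κ ∈ 𝒜 → cfOf Y (pvdmOv Fᶜ κ σ) ∈ 𝒲) :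
    pvkqP 𝒜 Y ≤ colLaw ℂ {κ | cfOf Y (pvdmOv Fᶜ κ σ) ∈ 𝒲} := measure_mono fun κ hκ => hdet κ hκ

/-- bad geometries, `pvGeo ε` -/
theorem pvkq_bad_geo (ε : ℝ) {𝒜 : Set (Conf PvPt)} (m : MeasurableSet 𝒜) (p : ℝ≥0∞) :
    pvGeo ε {g | pvkqP 𝒜 (pvgSites g) < p} ≤ pvGeo ε {g | pvQc 𝒜 g < p} := by
  have h0 : pvGeo ε {g | ¬ PvgOk g} = 0 := pvqu_ok_ae ε
  have hsub : {g | pvkqP 𝒜 (pvgSites g) < p} ⊆ {g | ¬ PvgOk g} ∪ {g | pvQc 𝒜 g < p} := by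
    intro g hg
    by_cases hok : PvgOk g
    · right
      show pvQc 𝒜 g < p
      rw [← pvkq_P_eq hok m]
      exact hg
    · exact Or.inl hok
  calc pvGeo ε {g | pvkqP 𝒜 (pvgSites g) < p} ≤ pvGeo ε {g | ¬ PvgOk g} + pvGeo ε {g | pvQc 𝒜 g < p} := (measure_mono hsub).trans (measure_union_le _ _)
    _ = _ := by rw [h0, zero_add]

/-- bad geometries, `pvLaw ε` (outer measure) -/
theorem pvkq_bad_law (ε : ℝ) {𝒜 : Set (Conf PvPt)} (m : MeasurableSet 𝒜) (p : ℝ≥0∞) :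
    pvLaw ε {ω | pvkqP 𝒜 (cfSites (pvConf ω)) < p} ≤ pvGeo ε {g | pvQc 𝒜 g < p} := by
  set N : Set PvGeoT := toMeasurable (pvGeo ε) {g | pvkqP 𝒜 (pvgSites g) < p} with hN
  have hsub : {ω | pvkqP 𝒜 (cfSites (pvConf ω)) < p} ⊆ pvGeoOf ⁻¹' N := by
    intro ω hω
    refine subset_toMeasurable _ _ ?_
    show pvkqP 𝒜 (pvgSites (pvGeoOf ω)) < p
    rw [← pvqu_cfSites (pvGeoOf ω) (pvColOf ω), pvqu_merge_of]
    exact hω
  calc pvLaw ε {ω | pvkqP 𝒜 (cfSites (pvConf ω)) < p} ≤ pvLaw ε (pvGeoOf ⁻¹' N) := measure_mono hsub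
    _ = (pvLaw ε).map pvGeoOf N := (Measure.map_apply measurable_pvGeoOf (measurableSet_toMeasurable _ _)).symm
    _ = pvGeo ε N := by rw [pvqu_law_geo]
    _ = pvGeo ε {g | pvkqP 𝒜 (pvgSites g) < p} := measure_toMeasurable _
    _ ≤ _ := pvkq_bad_geo ε m p

/-- bad geometries, upper probability of the wall -/
theorem pvkq_bad_up (ε : ℝ) {𝒜 : Set (Conf PvPt)} (m : MeasurableSet 𝒜) (p : ℝ≥0∞) :
    (PvUp.iter (pvGeo ε) pvCol).P {x | pvkqP 𝒜 (cfSites (pvConf (pvMerge x))) < p} ≤ pvGeo ε {g | pvQc 𝒜 g < p} := by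
  set N : Set PvGeoT := toMeasurable (pvGeo ε) {g | pvkqP 𝒜 (pvgSites g) < p} with hN
  have hsub : {x : PvGeoT × PvColT | pvkqP 𝒜 (cfSites (pvConf (pvMerge x))) < p} ⊆ N ×ˢ univ := by
    rintro ⟨g, c⟩ hx
    refine ⟨subset_toMeasurable _ _ ?_, mem_univ _⟩
    show pvkqP 𝒜 (pvgSites g) < p
    rw [← pvqu_cfSites g c]
    exact hx
  calc (PvUp.iter (pvGeo ε) pvCol).P {x | pvkqP 𝒜 (cfSites (pvConf (pvMerge x))) < p}
      ≤ ((pvGeo ε).prod pvCol) {x | pvkqP 𝒜 (cfSites (pvConf (pvMerge x))) < p} := pvup_iter_P_le _ _ _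
    _ ≤ ((pvGeo ε).prod pvCol) (N ×ˢ univ) := measure_mono hsub
    _ = pvGeo ε N := by rw [Measure.prod_prod, measure_univ, mul_one]
    _ = pvGeo ε {g | pvkqP 𝒜 (pvgSites g) < p} := measure_toMeasurable _
    _ ≤ _ := pvkq_bad_geo ε m p

/-! ## 2. the bounds -/

theorem pvkq_lane_meas {δ : ℝ} (hδ : 0 < δ) (c : Bool) {L : List (ℤ × ℤ)} (hc : L.IsChain PvlnAdj) : MeasurableSet (pvlnLaneEv δ c L) :=
  pvln_loc_meas (pvln_lane_fit hδ hc) c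

theorem pvkq_SY_meas {δ : ℝ} (hδ : 0 < δ) {Lb Lw : List (ℤ × ℤ)} (hb : Lb.IsChain PvlnAdj) (hw : Lw.IsChain PvlnAdj) : MeasurableSet (pvkqSY δ Lb Lw) :=
  (pvkq_lane_meas hδ true hb).inter (pvkq_lane_meas hδ false hw)

theorem pvkq_WO_reads (δ : ℝ) (Lo : List (ℤ × ℤ)) : Conf.ReadsSet (pvlnW δ Lo ×ˢ univ) (pvkqWO δ Lo) := pvlq_lane_reads δ false Lo

/-- **THE LINK BOUND, UNIFORM FORM** -/
theorem pvkq_link : ∃ q : ℝ, 0 < q ∧ q ≤ 1 ∧ ∀ (n : ℕ) (θ : ℝ), 0 < θ → ∃ U : ℝ, 1 ≤ U ∧ ∀ ε : ℝ, 0 < ε → ∀ δ : ℝ, U * ε ≤ δ →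
    (∀ Lo : List (ℤ × ℤ), Lo ≠ [] → Lo.IsChain PvlnAdj → Lo.length ≤ n →
      pvGeo ε {g | pvkqP (pvkqWO δ Lo) (pvgSites g) < ENNReal.ofReal (q ^ (15 * n) / 2)} ≤ ENNReal.ofReal θ) ∧
    (∀ Lb Lw : List (ℤ × ℤ), Lb ≠ [] → Lw ≠ [] → Lb.IsChain PvlnAdj → Lw.IsChain PvlnAdj → Lb.length ≤ n → Lw.length ≤ n → Disjoint (pvlnW δ Lb) (pvlnW δ Lw) →
      pvGeo ε {g | pvkqP (pvkqSY δ Lb Lw) (pvgSites g) < ENNReal.ofReal ((q ^ (15 * n) / 2) ^ 2)} ≤ ENNReal.ofReal θ) := by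
  obtain ⟨q, h0, h1, hQ⟩ := exit_pvlq_q
  refine ⟨q, h0, h1, fun n θ hθ => ?_⟩
  obtain ⟨U1, hU1, H1⟩ := pvlq_lane h0 h1 hQ n hθ
  obtain ⟨U2, hU2, H2⟩ := pvlq_corridor h0 h1 hQ n hθ
  refine ⟨max U1 U2, le_max_of_le_left hU1, fun ε hε δ hδ => ?_⟩
  have hδ1 : U1 * ε ≤ δ := le_trans (by gcongr; exact le_max_left _ _) hδ
  have hδ2 : U2 * ε ≤ δ := le_trans (by gcongr; exact le_max_right _ _) hδ
  have hδ0 : 0 < δ := lt_of_lt_of_le (by positivity) hδ1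
  refine ⟨fun Lo hne hc hn => ?_, fun Lb Lw hb hw cb cw nb nw hd => ?_⟩
  · exact (pvkq_bad_geo ε (pvkq_lane_meas hδ0 false hc) _).trans (H1 ε hε δ hδ1 false Lo hne hc hn)
  · exact (pvkq_bad_geo ε (pvkq_SY_meas hδ0 cb cw) _).trans (H2 ε hε δ hδ2 true false Lb Lw hb hw cb cw nb nw hd)

/-- **THE LINK BOUND, LIMIT FORM, UPPER PROBABILITY OF THE WALL**: fixed chains, `ε ↓ 0` -/
theorem pvkq_link_up : ∃ q : ℝ, 0 < q ∧ q ≤ 1 ∧ ∀ δ : ℝ, 0 < δ →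
    (∀ Lo : List (ℤ × ℤ), Lo ≠ [] → Lo.IsChain PvlnAdj →
      Tendsto (fun ε : ℝ => (PvUp.iter (pvGeo ε) pvCol).P {x | pvkqP (pvkqWO δ Lo) (cfSites (pvConf (pvMerge x))) < ENNReal.ofReal (q ^ (15 * Lo.length) / 2)}) (𝓝[>] (0 : ℝ)) (𝓝 0)) ∧
    (∀ (n : ℕ) (Lb Lw : List (ℤ × ℤ)), Lb ≠ [] → Lw ≠ [] → Lb.IsChain PvlnAdj → Lw.IsChain PvlnAdj → Lb.length ≤ n → Lw.length ≤ n → Disjoint (pvlnW δ Lb) (pvlnW δ Lw) →
      Tendsto (fun ε : ℝ => (PvUp.iter (pvGeo ε) pvCol).P {x | pvkqP (pvkqSY δ Lb Lw) (cfSites (pvConf (pvMerge x))) < ENNReal.ofReal ((q ^ (15 * n) / 2) ^ 2)}) (𝓝[>] (0 : ℝ)) (𝓝 0)) := by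
  obtain ⟨q, h0, h1, hQ⟩ := exit_pvlq_q
  refine ⟨q, h0, h1, fun δ hδ => ⟨fun Lo hne hc => exit_pvlq_lim_of_unif hδ fun θ hθ => ?_, fun n Lb Lw hb hw cb cw nb nw hd => exit_pvlq_lim_of_unif hδ fun θ hθ => ?_⟩⟩
  · obtain ⟨U, hU, H⟩ := pvlq_lane h0 h1 hQ Lo.length hθ
    exact ⟨U, hU, fun ε hε hle => (pvkq_bad_up ε (pvkq_lane_meas hδ false hc) _).trans (H ε hε δ hle false Lo hne hc le_rfl)⟩
  · obtain ⟨U, hU, H⟩ := pvlq_corridor h0 h1 hQ n hθ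
    exact ⟨U, hU, fun ε hε hle => (pvkq_bad_up ε (pvkq_SY_meas hδ cb cw) _).trans (H ε hε δ hle true false Lb Lw hb hw cb cw nb nw hd)⟩

/-! ## 3. the vertex form -/

theorem pvkq_reg_eq {Y : Set ℂ} (lf : VorLF Y) (κ : ℂ → Bool) (c : Bool) : pvlnReg c (cfOf Y κ) = vorUn Y {v | v ∈ Y ∧ κ v = c} := by
  have eB : cfBk (cfOf Y κ) = {v | v ∈ Y ∧ κ v = true} := by
    ext v; exact ⟨fun h => ⟨h.1, h.2.symm⟩, fun h => ⟨h.1, h.2.symm⟩⟩
  have eW : cfWh (cfOf Y κ) = {v | v ∈ Y ∧ κ v = false} := by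
    ext v; exact ⟨fun h => ⟨h.1, h.2.symm⟩, fun h => ⟨h.1, h.2.symm⟩⟩
  have eU : {v | v ∈ Y ∧ κ v = true} ∪ {v | v ∈ Y ∧ κ v = false} = Y := by
    ext v
    constructor
    · rintro (h | h) <;> exact h.1
    · intro h
      cases hk : κ v
      · exact Or.inr ⟨h, hk⟩
      · exact Or.inl ⟨h, hk⟩
  unfold pvlnReg
  rw [eB, eW]
  cases c
  · show pvrbM {v | v ∈ Y ∧ κ v = false} {v | v ∈ Y ∧ κ v = true} = _
    rw [pvrb_M_eq (by rw [union_comm, eU]; exact lf), union_comm, eU]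
  · show pvrbM {v | v ∈ Y ∧ κ v = true} {v | v ∈ Y ∧ κ v = false} = _
    rw [pvrb_M_eq (by rw [eU]; exact lf), eU]

/-- **FROM A PATH IN THE REGION OF THE COLOUR `c` TO A JOIN OF THE DELAUNAY MAP**: `U` any set, `ρ`-net on `U`, the `ρ`-neighbourhood of `U` inside `W` -/
theorem pvkq_join_of_path {Y : Set ℂ} (h : DelGood Y) (κ : ℂ → Bool) (c : Bool) {U W : Set ℂ} {ρ : ℝ} (hnet : ∀ z ∈ U, ∃ s ∈ Y, ‖s - z‖ < ρ)
    (hW : ∀ z ∈ U, ∀ w : ℂ, ‖w - z‖ < ρ → w ∈ W) {x y : ℂ} (hxy : JoinedIn (pvlnReg c (cfOf Y κ) ∩ U) x y) :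
    ∃ a b : Y, x ∈ vorCell Y a ∧ y ∈ vorCell Y b ∧ ‖(a : ℂ) - x‖ < ρ ∧ ‖(b : ℂ) - y‖ < ρ ∧ (delMap h).Join univ (pvkqV Y κ c W) a b := by
  obtain ⟨γ, hγ⟩ := hxy
  set A : Set ℂ := {v | v ∈ Y ∧ κ v = c} with hA
  have hAY : A ⊆ Y := fun v hv => hv.1
  have hsub : range γ ⊆ vorUn Y A ∩ U := by
    rintro _ ⟨t, rfl⟩
    rw [← pvkq_reg_eq h.lf κ c]
    exact hγ t
  obtain ⟨a, ha, b, hb, hxa, hyb, hch⟩ := vorch_chain_of_preconnected h.lf hAY (isPreconnected_range γ.continuous) hsub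
    (x := x) (y := y) ⟨0, γ.source⟩ ⟨1, γ.target⟩
  have hclose : ∀ v z : ℂ, z ∈ vorCell Y v → z ∈ U → ‖v - z‖ < ρ := by
    intro v z hzv hzU
    obtain ⟨s, hs, hsz⟩ := hnet z hzU
    calc ‖v - z‖ = ‖z - v‖ := norm_sub_rev _ _
      _ ≤ ‖z - s‖ := hzv s hs
      _ = ‖s - z‖ := norm_sub_rev _ _
      _ < ρ := hsz
  have key : ∀ b' : ℂ, Relation.ReflTransGen (VorchR Y A U) a b' →
      ∃ hb' : b' ∈ Y, Relation.ReflTransGen (fun u v => (delMap h).EdgeIn univ u v ∧ v ∈ pvkqV Y κ c W) (⟨a, ha.1⟩ : Y) ⟨b', hb'⟩ := by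
    intro b' hb'
    induction hb' with
    | refl => exact ⟨ha.1, Relation.ReflTransGen.refl⟩
    | @tail v w _ hvw ih =>
      obtain ⟨hv, hch'⟩ := ih
      obtain ⟨hvA, hwA, z, ⟨hzv, hzw⟩, hzU⟩ := hvw
      refine ⟨hwA.1, ?_⟩
      by_cases e : v = w
      · subst e; exact hch'
      · exact hch'.tail ⟨(dls_edgeIn_univ h _ _).2 ⟨hv, hwA.1, e, ⟨z, hzv, hzw⟩⟩, hwA.2, hW z hzU w (hclose w z hzw hzU)⟩
  obtain ⟨hbY, hch'⟩ := key b hch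
  exact ⟨⟨a, ha.1⟩, ⟨b, hbY⟩, hxa.1, hyb.1, hclose a x hxa.1 hxa.2, hclose b y hyb.1 hyb.2, ⟨ha.2, hW x hxa.2 a (hclose a x hxa.1 hxa.2)⟩, hch'⟩

/-- the same from a PRESCRIBED first vertex: any site of colour `c` whose cell contains the first end of the path -/
theorem pvkq_join_from {Y : Set ℂ} (h : DelGood Y) (κ : ℂ → Bool) (c : Bool) {U W : Set ℂ} {ρ : ℝ} (hnet : ∀ z ∈ U, ∃ s ∈ Y, ‖s - z‖ < ρ)
    (hW : ∀ z ∈ U, ∀ w : ℂ, ‖w - z‖ < ρ → w ∈ W) {x y : ℂ} (hxy : JoinedIn (pvlnReg c (cfOf Y κ) ∩ U) x y) (a0 : Y) (ha0 : κ a0 = c) (hx : x ∈ vorCell Y a0) :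
    ∃ b : Y, y ∈ vorCell Y b ∧ ‖(b : ℂ) - y‖ < ρ ∧ (delMap h).Join univ (pvkqV Y κ c W) a0 b := by
  obtain ⟨a, b, hxa, hyb, hax, hby, hj⟩ := pvkq_join_of_path h κ c hnet hW hxy
  have hxU : x ∈ U := hxy.source_mem.2
  have ha0W : (a0 : ℂ) ∈ W := by
    obtain ⟨s, hs, hsz⟩ := hnet x hxU
    refine hW x hxU a0 ?_
    calc ‖(a0 : ℂ) - x‖ = ‖x - a0‖ := norm_sub_rev _ _
      _ ≤ ‖x - s‖ := hx s hs
      _ = ‖s - x‖ := norm_sub_rev _ _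
      _ < ρ := hsz
  refine ⟨b, hyb, hby, ⟨ha0, ha0W⟩, ?_⟩
  by_cases e : (a0 : ℂ) = a
  · have e' : a0 = a := Subtype.ext e
    rw [e']; exact hj.2
  · exact Relation.ReflTransGen.head ⟨(dls_edgeIn_univ h _ _).2 ⟨a0.2, a.2, e, ⟨x, hx, hxa⟩⟩, hj.1⟩ hj.2

/-- the patterns of a contiguous part of a chain are patterns of the chain -/
theorem pvkq_lane_suffix (δ : ℝ) (k : ℤ × ℤ) (L : List (ℤ × ℤ)) : ∀ e ∈ pvlnLane δ L, e ∈ pvlnLane δ (k :: L) := by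
  intro e he
  cases L with
  | nil => simp [pvlnLane] at he
  | cons k' t =>
    simp only [pvlnLane, List.mem_cons]
    right; right; right
    exact he

theorem pvkq_lane_append_left (δ : ℝ) (L₁ L : List (ℤ × ℤ)) : ∀ e ∈ pvlnLane δ L, e ∈ pvlnLane δ (L₁ ++ L) := by
  induction L₁ with
  | nil => exact fun e he => he
  | cons k t ih => exact fun e he => pvkq_lane_suffix δ k (t ++ L) e (ih e he)

theorem pvkq_lane_append_right (δ : ℝ) : ∀ (L L₂ : List (ℤ × ℤ)), ∀ e ∈ pvlnLane δ L, e ∈ pvlnLane δ (L ++ L₂)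
  | [], _, e, he => by simp [pvlnLane] at he
  | [k], [], e, he => by simpa using he
  | [k], k' :: t, e, he => by
    simp only [pvlnLane, List.mem_cons, List.not_mem_nil, or_false] at he
    simp only [List.singleton_append, pvlnLane, List.mem_cons]
    rcases he with rfl | rfl
    · exact Or.inl rfl
    · exact Or.inr (Or.inl rfl)
  | k :: k' :: t, L₂, e, he => by
    simp only [pvlnLane, List.mem_cons] at he
    simp only [List.cons_append, pvlnLane, List.mem_cons]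
    rcases he with rfl | rfl | rfl | he
    · exact Or.inl rfl
    · exact Or.inr (Or.inl rfl)
    · exact Or.inr (Or.inr (Or.inl rfl))
    · exact Or.inr (Or.inr (Or.inr (pvkq_lane_append_right δ (k' :: t) L₂ e he)))

theorem pvkq_lane_infix (δ : ℝ) (L₁ L L₂ : List (ℤ × ℤ)) : ∀ e ∈ pvlnLane δ L, e ∈ pvlnLane δ (L₁ ++ L ++ L₂) := by
  intro e he
  rw [List.append_assoc]
  exact pvkq_lane_append_left δ L₁ (L ++ L₂) e (pvkq_lane_append_right δ L L₂ e he)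

/-- **THE VERTEX FORM OF A LANE EVENT**.   `L = L₁ ++ L' ++ L₂`.   On the lane event of `L` (copy colouring `κ`): ONE point `x0` and, for every cell `k` of the part `L'` and every side of `k`, a site within `δ/16` of a point of that side;
all these sites are joined to each other in the Delaunay map through sites of colour `c` of the window of `L'`. -/
theorem pvkq_join {Y : Set ℂ} (h : DelGood Y) (κ : ℂ → Bool) {c : Bool} {δ : ℝ} (hδ : 0 < δ) {L₁ L' L₂ : List (ℤ × ℤ)} (hne : L' ≠ []) (hc : (L₁ ++ L' ++ L₂).IsChain PvlnAdj)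
    (hev : cfOf Y κ ∈ pvlnLaneEv δ c (L₁ ++ L' ++ L₂)) :
    ∃ v0 : Y, v0 ∈ pvkqV Y κ c (pvlnW δ L') ∧ ∀ k ∈ L', ∃ a b c' d : ℂ, ∃ va vb vc vd : Y,
      (a ∈ pvlnC δ k ∧ a.re = (k.1 : ℝ) * δ ∧ ‖(va : ℂ) - a‖ < δ / 16) ∧ (b ∈ pvlnC δ k ∧ b.re = ((k.1 : ℝ) + 1) * δ ∧ ‖(vb : ℂ) - b‖ < δ / 16) ∧
      (c' ∈ pvlnC δ k ∧ c'.im = (k.2 : ℝ) * δ ∧ ‖(vc : ℂ) - c'‖ < δ / 16) ∧ (d ∈ pvlnC δ k ∧ d.im = ((k.2 : ℝ) + 1) * δ ∧ ‖(vd : ℂ) - d‖ < δ / 16) ∧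
      (delMap h).Join univ (pvkqV Y κ c (pvlnW δ L')) v0 va ∧ (delMap h).Join univ (pvkqV Y κ c (pvlnW δ L')) v0 vb ∧
      (delMap h).Join univ (pvkqV Y κ c (pvlnW δ L')) v0 vc ∧ (delMap h).Join univ (pvkqV Y κ c (pvlnW δ L')) v0 vd := by
  have hc' : L'.IsChain PvlnAdj := hc.infix ⟨L₁, L₂, rfl⟩
  have hall := (pvln_loc_robust (pvln_lane_fit hδ hc) hev rfl).1
  obtain ⟨x0, hx0⟩ := pvln_lane_det (B := pvlnReg c (cfOf Y κ)) hδ.le L' hne hc' fun e he => hall e (pvkq_lane_infix δ L₁ L' L₂ e he)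
  have hUsub : pvlnU δ L' ⊆ pvlnU δ (L₁ ++ L' ++ L₂) := by
    intro z hz
    obtain ⟨k, hk, hzk⟩ := mem_iUnion₂.1 hz
    exact mem_biUnion (show k ∈ {k | k ∈ L₁ ++ L' ++ L₂} from List.mem_append_left _ (List.mem_append_right _ hk)) hzk
  have hnet : ∀ z ∈ pvlnU δ L', ∃ s ∈ Y, ‖s - z‖ < δ / 16 := by
    intro z hz
    obtain ⟨s, hs, hsz⟩ := pvln_lane_net hδ hc hev rfl (hUsub hz)
    rw [cfOf_sites] at hs
    exact ⟨s, hs, by linarith⟩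
  have hW : ∀ z ∈ pvlnU δ L', ∀ w : ℂ, ‖w - z‖ < δ / 16 → w ∈ pvlnW δ L' := fun z hz w hw => pvln_lane_nbd hδ hz (by linarith)
  obtain ⟨k0, hk0⟩ := List.exists_mem_of_ne_nil L' hne
  obtain ⟨a, -, -, -, -, -, -, -, hja, -, -, -⟩ := pvln_hub_sides (pvln_C_sub_U hk0) (hx0 k0 hk0)
  have hx0m := hja.source_mem
  rw [pvkq_reg_eq h.lf κ c] at hx0m
  obtain ⟨⟨v, hv, hxv⟩, hx0U⟩ := hx0m
  have hv0W : v ∈ pvlnW δ L' := by
    obtain ⟨s, hs, hsz⟩ := hnet x0 hx0U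
    refine hW x0 hx0U v ?_
    calc ‖v - x0‖ = ‖x0 - v‖ := norm_sub_rev _ _
      _ ≤ ‖x0 - s‖ := hxv s hs
      _ = ‖s - x0‖ := norm_sub_rev _ _
      _ < δ / 16 := hsz
  refine ⟨⟨v, hv.1⟩, ⟨hv.2, hv0W⟩, fun k hk => ?_⟩
  obtain ⟨a, b, c', d, ha, hb, hc2, hd, ja, jb, jc, jd⟩ := pvln_hub_sides (pvln_C_sub_U hk) (hx0 k hk)
  obtain ⟨va, -, h1, j1⟩ := pvkq_join_from h κ c hnet hW ja ⟨v, hv.1⟩ hv.2 hxv
  obtain ⟨vb, -, h2, j2⟩ := pvkq_join_from h κ c hnet hW jb ⟨v, hv.1⟩ hv.2 hxv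
  obtain ⟨vc, -, h3, j3⟩ := pvkq_join_from h κ c hnet hW jc ⟨v, hv.1⟩ hv.2 hxv
  obtain ⟨vd, -, h4, j4⟩ := pvkq_join_from h κ c hnet hW jd ⟨v, hv.1⟩ hv.2 hxv
  exact ⟨a, b, c', d, va, vb, vc, vd, ⟨ha.1, ha.2, h1⟩, ⟨hb.1, hb.2, h2⟩, ⟨hc2.1, hc2.2, h3⟩, ⟨hd.1, hd.2, h4⟩, j1, j2, j3, j4⟩

/-! ## 4. chains of cells along a path -/

/-- the cell of the grid of mesh `δ` holding `z` -/
noncomputable def pvkqCell (δ : ℝ) (z : ℂ) : ℤ × ℤ := (⌊z.re / δ⌋, ⌊z.im / δ⌋)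

/-- cells at sup-distance `≤ 1` -/
def PvkqNear (k k' : ℤ × ℤ) : Prop := |k.1 - k'.1| ≤ 1 ∧ |k.2 - k'.2| ≤ 1

theorem pvkq_eqns_cite2 : True := by
  have := @pvkqCell.eq_1; have := @PvkqNear.eq_1
  trivial

theorem pvkq_mem_cell {δ : ℝ} (hδ : 0 < δ) (z : ℂ) : z ∈ pvlnC δ (pvkqCell δ z) := by
  have h1 := Int.floor_le (z.re / δ)
  have h2 := Int.lt_floor_add_one (z.re / δ)
  have h3 := Int.floor_le (z.im / δ)
  have h4 := Int.lt_floor_add_one (z.im / δ)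
  rw [le_div_iff₀ hδ] at h1 h3
  rw [div_lt_iff₀ hδ] at h2 h4
  exact ⟨h1, h2.le, h3, h4.le⟩

theorem pvkq_floor_near {a b : ℝ} {M : ℤ} (h : |a - b| ≤ M) : |⌊a⌋ - ⌊b⌋| ≤ M := by
  obtain ⟨h1, h2⟩ := abs_le.1 h
  rw [abs_le]
  constructor
  · have : ⌊b⌋ ≤ ⌊a + M⌋ := Int.floor_le_floor (by linarith)
    rw [Int.floor_add_intCast] at this
    omega
  · have : ⌊a⌋ ≤ ⌊b + M⌋ := Int.floor_le_floor (by linarith)
    rw [Int.floor_add_intCast] at this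
    omega

theorem pvkq_cell_dist {δ : ℝ} (hδ : 0 < δ) {z w : ℂ} {M : ℤ} (h : ‖z - w‖ ≤ M * δ) :
    |(pvkqCell δ z).1 - (pvkqCell δ w).1| ≤ M ∧ |(pvkqCell δ z).2 - (pvkqCell δ w).2| ≤ M := by
  have h1 : |(z - w).re| ≤ M * δ := (Complex.abs_re_le_norm _).trans h
  have h2 : |(z - w).im| ≤ M * δ := (Complex.abs_im_le_norm _).trans h
  constructor
  · refine pvkq_floor_near ?_
    rw [← sub_div, abs_div, abs_of_pos hδ, div_le_iff₀ hδ]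
    exact h1
  · refine pvkq_floor_near ?_
    rw [← sub_div, abs_div, abs_of_pos hδ, div_le_iff₀ hδ]
    exact h2

theorem pvkq_cell_near {δ : ℝ} (hδ : 0 < δ) {z w : ℂ} (h : ‖z - w‖ ≤ δ) : PvkqNear (pvkqCell δ z) (pvkqCell δ w) := by
  have := pvkq_cell_dist hδ (z := z) (w := w) (M := 1) (by simpa using h)
  exact this

theorem pvkq_adj_symm {k k' : ℤ × ℤ} (h : PvlnAdj k k') : PvlnAdj k' k := by
  unfold PvlnAdj at *
  omega

theorem pvkq_adj_irrefl (k : ℤ × ℤ) : ¬ PvlnAdj k k := by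
  unfold PvlnAdj
  omega

/-- the window of a cell near the cell of `w` lies in the ball of radius `4 δ` round `w` -/
theorem pvkq_win_ball {δ : ℝ} (hδ : 0 < δ) {w : ℂ} {k : ℤ × ℤ} (h : PvkqNear k (pvkqCell δ w)) {z : ℂ} (hz : z ∈ pvmSq (pvlnCtr δ k) (δ / 2 + 2 * (δ / 2 / 8))) : ‖z - w‖ ≤ 4 * δ := by
  obtain ⟨w1, w2, w3, w4⟩ := pvkq_mem_cell hδ w
  obtain ⟨h1, h2⟩ := h
  obtain ⟨z1, z2⟩ := hz
  have c1 : (pvlnCtr δ k).re = ((k.1 : ℝ) + 1 / 2) * δ := rfl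
  have c2 : (pvlnCtr δ k).im = ((k.2 : ℝ) + 1 / 2) * δ := rfl
  rw [c1] at z1
  rw [c2] at z2
  have key : ∀ (a b : ℤ) (s t : ℝ), |a - b| ≤ 1 → (b : ℝ) * δ ≤ t → t ≤ ((b : ℝ) + 1) * δ → |s - ((a : ℝ) + 1 / 2) * δ| ≤ δ / 2 + 2 * (δ / 2 / 8) → |s - t| ≤ 5 / 2 * δ := by
    intro a b s t hab h3 h4 h5
    obtain ⟨h6, h7⟩ := abs_le.1 hab
    have h6' : (-1 : ℝ) ≤ (a : ℝ) - b := by exact_mod_cast h6
    have h7' : (a : ℝ) - b ≤ 1 := by exact_mod_cast h7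
    obtain ⟨h8, h9⟩ := abs_le.1 h5
    rw [abs_le]
    constructor <;> nlinarith
  have e1 := key _ _ _ _ h1 w1 w2 z1
  have e2 := key _ _ _ _ h2 w3 w4 z2
  have r1 : (z - w).re = z.re - w.re := rfl
  have r2 : (z - w).im = z.im - w.im := rfl
  have hsq : ‖z - w‖ ^ 2 ≤ (4 * δ) ^ 2 := by
    rw [Complex.sq_norm, Complex.normSq_apply, r1, r2]
    have s1 : (z.re - w.re) * (z.re - w.re) ≤ (5 / 2 * δ) * (5 / 2 * δ) := by
      rw [← abs_mul_abs_self (z.re - w.re)]; exact mul_self_le_mul_self (abs_nonneg _) e1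
    have s2 : (z.im - w.im) * (z.im - w.im) ≤ (5 / 2 * δ) * (5 / 2 * δ) := by
      rw [← abs_mul_abs_self (z.im - w.im)]; exact mul_self_le_mul_self (abs_nonneg _) e2
    nlinarith [mul_pos hδ hδ]
  exact (sq_le_sq₀ (norm_nonneg _) (by positivity)).1 hsq

/-- two points of one cell -/
theorem pvkq_cell_diam {δ : ℝ} (hδ : 0 < δ) {k : ℤ × ℤ} {z w : ℂ} (hz : z ∈ pvlnC δ k) (hw : w ∈ pvlnC δ k) : ‖z - w‖ ≤ 3 / 2 * δ := by
  obtain ⟨z1, z2, z3, z4⟩ := hz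
  obtain ⟨w1, w2, w3, w4⟩ := hw
  have r1 : (z - w).re = z.re - w.re := rfl
  have r2 : (z - w).im = z.im - w.im := rfl
  have e1 : |z.re - w.re| ≤ δ := abs_le.2 ⟨by linarith, by linarith⟩
  have e2 : |z.im - w.im| ≤ δ := abs_le.2 ⟨by linarith, by linarith⟩
  have hsq : ‖z - w‖ ^ 2 ≤ (3 / 2 * δ) ^ 2 := by
    rw [Complex.sq_norm, Complex.normSq_apply, r1, r2]
    have s1 : (z.re - w.re) * (z.re - w.re) ≤ δ * δ := by
      rw [← abs_mul_abs_self (z.re - w.re)]; exact mul_self_le_mul_self (abs_nonneg _) e1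
    have s2 : (z.im - w.im) * (z.im - w.im) ≤ δ * δ := by
      rw [← abs_mul_abs_self (z.im - w.im)]; exact mul_self_le_mul_self (abs_nonneg _) e2
    nlinarith [mul_pos hδ hδ]
  exact (sq_le_sq₀ (norm_nonneg _) (by positivity)).1 hsq

/-- one step: near cells are joined by a chain of at most two steps through cells near the first one -/
theorem pvkq_step {S : Set (ℤ × ℤ)} {k k' : ℤ × ℤ} (h : PvkqNear k k') (hS : ∀ j, PvkqNear j k → j ∈ S) (hk' : k' ∈ S) :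
    Relation.ReflTransGen (fun a b => PvlnAdj a b ∧ a ∈ S ∧ b ∈ S) k k' := by
  obtain ⟨h1, h2⟩ := h
  rw [abs_le] at h1 h2
  have hk : k ∈ S := hS k ⟨by simp, by simp⟩
  have hm : ((k'.1, k.2) : ℤ × ℤ) ∈ S := hS _ ⟨by rw [abs_le]; constructor <;> simp <;> omega, by simp⟩
  have s1 : Relation.ReflTransGen (fun a b => PvlnAdj a b ∧ a ∈ S ∧ b ∈ S) k (k'.1, k.2) := by
    by_cases e : k'.1 = k.1
    · have : ((k'.1, k.2) : ℤ × ℤ) = k := by rw [e]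
      rw [this]
    · refine Relation.ReflTransGen.single ⟨Or.inl ⟨rfl, ?_⟩, hk, hm⟩
      show k'.1 = k.1 + 1 ∨ k'.1 = k.1 - 1
      omega
  have s2 : Relation.ReflTransGen (fun a b => PvlnAdj a b ∧ a ∈ S ∧ b ∈ S) (k'.1, k.2) k' := by
    by_cases e : k'.2 = k.2
    · have : ((k'.1, k.2) : ℤ × ℤ) = k' := by rw [← e]
      rw [this]
    · refine Relation.ReflTransGen.single ⟨Or.inr ⟨rfl, ?_⟩, hm, hk'⟩
      show k'.2 = k.2 + 1 ∨ k'.2 = k.2 - 1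
      omega
  exact s1.trans s2


/-- the cells allowed along a path: at sup-distance `≤ 1` of the cell of a point of the path -/
def pvkqS (δ : ℝ) {x y : ℂ} (γ : Path x y) : Set (ℤ × ℤ) := {k | ∃ t, PvkqNear k (pvkqCell δ (γ t))}

theorem pvkq_near_refl (k : ℤ × ℤ) : PvkqNear k k := ⟨by simp, by simp⟩

theorem pvkq_near_symm {k k' : ℤ × ℤ} (h : PvkqNear k k') : PvkqNear k' k := ⟨by rw [abs_sub_comm]; exact h.1, by rw [abs_sub_comm]; exact h.2⟩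

/-- the cells of the two ends of a path are joined through the allowed cells -/
theorem pvkq_path_rtg {δ : ℝ} (hδ : 0 < δ) {x y : ℂ} (γ : Path x y) :
    Relation.ReflTransGen (fun a b => PvlnAdj a b ∧ a ∈ pvkqS δ γ ∧ b ∈ pvkqS δ γ) (pvkqCell δ x) (pvkqCell δ y) := by
  set r : ℤ × ℤ → ℤ × ℤ → Prop := fun a b => PvlnAdj a b ∧ a ∈ pvkqS δ γ ∧ b ∈ pvkqS δ γ with hr
  have hloc : ∀ t : unitInterval, ∀ᶠ s in 𝓝 t, Relation.ReflTransGen r (pvkqCell δ (γ t)) (pvkqCell δ (γ s)) ∧ Relation.ReflTransGen r (pvkqCell δ (γ s)) (pvkqCell δ (γ t)) := by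
    intro t
    have hc : ContinuousAt γ t := γ.continuous.continuousAt
    have h1 : ∀ᶠ s in 𝓝 t, dist (γ s) (γ t) < δ := hc.eventually (Metric.ball_mem_nhds _ hδ)
    filter_upwards [h1] with s hs
    rw [Complex.dist_eq] at hs
    have n1 : PvkqNear (pvkqCell δ (γ s)) (pvkqCell δ (γ t)) := pvkq_cell_near hδ hs.le
    exact ⟨pvkq_step (pvkq_near_symm n1) (fun j hj => ⟨t, hj⟩) ⟨s, pvkq_near_refl _⟩, pvkq_step n1 (fun j hj => ⟨s, hj⟩) ⟨t, pvkq_near_refl _⟩⟩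
  set T : Set unitInterval := {t | Relation.ReflTransGen r (pvkqCell δ (γ 0)) (pvkqCell δ (γ t))} with hT
  have hopen : IsOpen T := by
    rw [isOpen_iff_mem_nhds]
    intro t ht
    filter_upwards [hloc t] with s hs
    exact Relation.ReflTransGen.trans ht hs.1
  have hclosed : IsClosed T := by
    rw [← isOpen_compl_iff, isOpen_iff_mem_nhds]
    intro t ht
    filter_upwards [hloc t] with s hs
    intro hsT
    exact ht (Relation.ReflTransGen.trans hsT hs.2)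
  have huniv : T = univ := IsClopen.eq_univ ⟨hclosed, hopen⟩ ⟨0, Relation.ReflTransGen.refl⟩
  have h1 : (1 : unitInterval) ∈ T := huniv ▸ mem_univ _
  have h2 : Relation.ReflTransGen r (pvkqCell δ (γ 0)) (pvkqCell δ (γ 1)) := h1
  rwa [γ.source, γ.target] at h2

/-- from `ReflTransGen` to a chain WITHOUT REPEATS -/
theorem pvkq_nodup_chain {S : Set (ℤ × ℤ)} {a b : ℤ × ℤ} (ha : a ∈ S) (h : Relation.ReflTransGen (fun u v => PvlnAdj u v ∧ u ∈ S ∧ v ∈ S) a b) :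
    ∃ L : List (ℤ × ℤ), L ≠ [] ∧ L.IsChain PvlnAdj ∧ L.Nodup ∧ L.head? = some a ∧ L.getLast? = some b ∧ ∀ k ∈ L, k ∈ S := by
  classical
  let G : SimpleGraph (ℤ × ℤ) :=
    { Adj := fun u v => PvlnAdj u v ∧ u ∈ S ∧ v ∈ S
      symm := ⟨fun u v huv => ⟨pvkq_adj_symm huv.1, huv.2.2, huv.2.1⟩⟩
      loopless := ⟨fun u hu => pvkq_adj_irrefl u hu.1⟩ }
  have hreach : G.Reachable a b := (SimpleGraph.reachable_iff_reflTransGen a b).2 h
  obtain ⟨w⟩ := hreach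
  have hmem : ∀ {u v : ℤ × ℤ} (p : G.Walk u v), u ∈ S → ∀ k ∈ p.support, k ∈ S := by
    intro u v p
    induction p with
    | nil => intro hu k hk; simp at hk; rw [hk]; exact hu
    | cons hadj p ih =>
      intro hu k hk
      rw [SimpleGraph.Walk.support_cons, List.mem_cons] at hk
      rcases hk with rfl | hk
      · exact hu
      · exact ih hadj.2.2 k hk
  refine ⟨w.toPath.1.support, SimpleGraph.Walk.support_ne_nil _, ?_, w.toPath.2.support_nodup, ?_, ?_, hmem _ ha⟩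
  · exact (SimpleGraph.Walk.isChain_adj_support w.toPath.1).imp fun u v huv => huv.1
  · rw [List.head?_eq_some_head (SimpleGraph.Walk.support_ne_nil _), SimpleGraph.Walk.head_support]
  · rw [List.getLast?_eq_some_getLast (SimpleGraph.Walk.support_ne_nil _), SimpleGraph.Walk.getLast_support]

/-- a list of cells without repeats inside a box of `(2 M + 1)²` cells -/
theorem pvkq_count {L : List (ℤ × ℤ)} (hn : L.Nodup) (k0 : ℤ × ℤ) (M : ℕ) (h : ∀ k ∈ L, |k.1 - k0.1| ≤ M ∧ |k.2 - k0.2| ≤ M) : L.length ≤ (2 * M + 1) ^ 2 := by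
  classical
  have h1 : L.toFinset ⊆ Finset.Icc (k0.1 - M) (k0.1 + M) ×ˢ Finset.Icc (k0.2 - M) (k0.2 + M) := by
    intro k hk
    obtain ⟨h2, h3⟩ := h k (List.mem_toFinset.1 hk)
    rw [abs_le] at h2 h3
    rw [Finset.mem_product, Finset.mem_Icc, Finset.mem_Icc]
    omega
  have h2 := Finset.card_le_card h1
  rw [List.toFinset_card_of_nodup hn, Finset.card_product, Int.card_Icc, Int.card_Icc] at h2
  have e1 : (k0.1 + M + 1 - (k0.1 - M)).toNat = 2 * M + 1 := by omega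
  have e2 : (k0.2 + M + 1 - (k0.2 - M)).toNat = 2 * M + 1 := by omega
  rw [e1, e2] at h2
  rw [sq]
  exact h2

/-- **A CHAIN OF CELLS ALONG A PATH**: no repeats, from the cell of `x` to the cell of `y`, every cell at sup-distance `≤ 1` of the cell of a point of the path; the window lies within `4 δ` of the path;
at most `(2 M + 3)²` cells if the path stays within `M δ` of a point `z0` -/
theorem pvkq_chain_of_path {δ : ℝ} (hδ : 0 < δ) {x y : ℂ} (γ : Path x y) :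
    ∃ L : List (ℤ × ℤ), L ≠ [] ∧ L.IsChain PvlnAdj ∧ L.Nodup ∧ L.head? = some (pvkqCell δ x) ∧ L.getLast? = some (pvkqCell δ y) ∧ (∀ k ∈ L, ∃ t, PvkqNear k (pvkqCell δ (γ t))) ∧
      (∀ z ∈ pvlnW δ L, ∃ t, ‖z - γ t‖ ≤ 4 * δ) ∧ ∀ (z0 : ℂ) (M : ℕ), (∀ t, ‖γ t - z0‖ ≤ M * δ) → L.length ≤ (2 * M + 3) ^ 2 := by
  obtain ⟨L, h1, h2, h3, h4, h5, h6⟩ := pvkq_nodup_chain (S := pvkqS δ γ) ⟨0, by rw [γ.source]; exact pvkq_near_refl _⟩ (pvkq_path_rtg hδ γ)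
  refine ⟨L, h1, h2, h3, h4, h5, h6, fun z hz => ?_, fun z0 M hM => ?_⟩
  · obtain ⟨k, hk, hzk⟩ := mem_iUnion₂.1 hz
    obtain ⟨t, ht⟩ := h6 k hk
    exact ⟨t, pvkq_win_ball hδ ht hzk⟩
  · have := pvkq_count h3 (pvkqCell δ z0) (M + 1) fun k hk => by
      obtain ⟨t, ht1, ht2⟩ := h6 k hk
      obtain ⟨d1, d2⟩ := pvkq_cell_dist hδ (z := γ t) (w := z0) (M := (M : ℤ)) (by exact_mod_cast hM t)
      rw [abs_le] at ht1 ht2 d1 d2 ⊢
      rw [abs_le]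
      push_cast
      omega
    calc L.length ≤ (2 * (M + 1) + 1) ^ 2 := this
      _ = (2 * M + 3) ^ 2 := by ring


theorem pvkq_ctr_mem_W {δ : ℝ} (hδ : 0 < δ) {L : List (ℤ × ℤ)} {k : ℤ × ℤ} (hk : k ∈ L) : pvlnCtr δ k ∈ pvlnW δ L := by
  refine mem_biUnion (show k ∈ {k | k ∈ L} from hk) ⟨?_, ?_⟩ <;> · rw [sub_self, abs_zero]; positivity

/-- the cells whose centre lies within `M δ` of `z0` -/
theorem pvkq_ctr_dist {δ : ℝ} (hδ : 0 < δ) {z0 : ℂ} {k : ℤ × ℤ} {M : ℕ} (h : ‖pvlnCtr δ k - z0‖ ≤ M * δ) :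
    |k.1 - (pvkqCell δ z0).1| ≤ M ∧ |k.2 - (pvkqCell δ z0).2| ≤ M := by
  obtain ⟨w1, w2, w3, w4⟩ := pvkq_mem_cell hδ z0
  have h1 : |(pvlnCtr δ k - z0).re| ≤ M * δ := (Complex.abs_re_le_norm _).trans h
  have h2 : |(pvlnCtr δ k - z0).im| ≤ M * δ := (Complex.abs_im_le_norm _).trans h
  have r1 : (pvlnCtr δ k - z0).re = ((k.1 : ℝ) + 1 / 2) * δ - z0.re := rfl
  have r2 : (pvlnCtr δ k - z0).im = ((k.2 : ℝ) + 1 / 2) * δ - z0.im := rfl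
  rw [r1] at h1
  rw [r2] at h2
  have key : ∀ (a b : ℤ) (t : ℝ), (b : ℝ) * δ ≤ t → t ≤ ((b : ℝ) + 1) * δ → |((a : ℝ) + 1 / 2) * δ - t| ≤ M * δ → |a - b| ≤ M := by
    intro a b t h3 h4 h5
    obtain ⟨h6, h7⟩ := abs_le.1 h5
    rw [abs_le]
    constructor
    · have : (-(M : ℝ) - 1) < (a : ℝ) - b := by
        by_contra hcon
        rw [not_lt] at hcon
        nlinarith
      have h8 : (-(M : ℤ) - 1) < a - b := by exact_mod_cast this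
      omega
    · have : (a : ℝ) - b < (M : ℝ) + 1 := by
        by_contra hcon
        rw [not_lt] at hcon
        nlinarith
      have h8 : a - b < (M : ℤ) + 1 := by exact_mod_cast this
      omega
  exact ⟨key _ _ _ w1 w2 h1, key _ _ _ w3 w4 h2⟩

/-- **A CHAIN OF CELLS IN A REGION**: the two ends joined in the `4 δ`-core of `R` -/
theorem pvkq_chain_of_joined {δ : ℝ} (hδ : 0 < δ) {R : Set ℂ} {x y : ℂ} (h : JoinedIn {z | Metric.closedBall z (4 * δ) ⊆ R} x y) :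
    ∃ L : List (ℤ × ℤ), L ≠ [] ∧ L.IsChain PvlnAdj ∧ L.Nodup ∧ L.head? = some (pvkqCell δ x) ∧ L.getLast? = some (pvkqCell δ y) ∧ pvlnW δ L ⊆ R ∧
      ∀ (z0 : ℂ) (M : ℕ), R ⊆ Metric.closedBall z0 (M * δ) → L.length ≤ (2 * M + 1) ^ 2 := by
  obtain ⟨γ, hγ⟩ := h
  obtain ⟨L, h1, h2, h3, h4, h5, -, h7, -⟩ := pvkq_chain_of_path hδ γ
  have hW : pvlnW δ L ⊆ R := by
    intro z hz
    obtain ⟨t, ht⟩ := h7 z hz
    exact hγ t (by rw [Metric.mem_closedBall, Complex.dist_eq]; exact ht)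
  refine ⟨L, h1, h2, h3, h4, h5, hW, fun z0 M hM => pvkq_count h3 (pvkqCell δ z0) M fun k hk => pvkq_ctr_dist hδ ?_⟩
  have := hM (hW (pvkq_ctr_mem_W hδ hk))
  rwa [Metric.mem_closedBall, Complex.dist_eq] at this


/-! ## 5. the region form: the cells are hidden -/

/-- `x` and `y` are joined in the `4 δ`-core of the region `R` -/
def PvkqCore (δ : ℝ) (R : Set ℂ) (x y : ℂ) : Prop := 0 < δ ∧ JoinedIn {z | Metric.closedBall z (4 * δ) ⊆ R} x y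

open Classical in
/-- **the chain of record** of the region `R` from `x` to `y` (mesh `δ`) -/
noncomputable def pvkqL (δ : ℝ) (R : Set ℂ) (x y : ℂ) : List (ℤ × ℤ) :=
  if h : PvkqCore δ R x y then Classical.choose (pvkq_chain_of_joined h.1 h.2) else [pvkqCell δ x]

/-- **THE PATTERN OF RECORD** of colour `c` in the region `R` from `x` to `y`: does not depend on `ε` -/
noncomputable def pvkqEv (δ : ℝ) (c : Bool) (R : Set ℂ) (x y : ℂ) : Set (Conf PvPt) := pvlnLaneEv δ c (pvkqL δ R x y)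

/-- the deterministic content of a pattern: sites within `2 δ` of the two ends, joined in the Delaunay map through sites of colour `c` of the region -/
def PvkqDet (δ : ℝ) (c : Bool) (R : Set ℂ) (x y : ℂ) (𝒜 : Set (Conf PvPt)) : Prop :=
  ∀ (Y : Set ℂ) (h : DelGood Y) (κ : ℂ → Bool), cfOf Y κ ∈ 𝒜 → ∃ a b : Y, ‖(a : ℂ) - x‖ < 2 * δ ∧ ‖(b : ℂ) - y‖ < 2 * δ ∧ (delMap h).Join univ (pvkqV Y κ c R) a b

theorem pvkq_eqns_cite3 : True := by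
  have := @PvkqCore.eq_1; have := @pvkqL.eq_1; have := @pvkqEv.eq_1; have := @PvkqDet.eq_1; have := @pvkqS.eq_1
  trivial

theorem pvkq_L_spec {δ : ℝ} {R : Set ℂ} {x y : ℂ} (h : PvkqCore δ R x y) :
    pvkqL δ R x y ≠ [] ∧ (pvkqL δ R x y).IsChain PvlnAdj ∧ (pvkqL δ R x y).Nodup ∧ (pvkqL δ R x y).head? = some (pvkqCell δ x) ∧ (pvkqL δ R x y).getLast? = some (pvkqCell δ y) ∧
      pvlnW δ (pvkqL δ R x y) ⊆ R ∧ ∀ (z0 : ℂ) (M : ℕ), R ⊆ Metric.closedBall z0 (M * δ) → (pvkqL δ R x y).length ≤ (2 * M + 1) ^ 2 := by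
  unfold pvkqL
  rw [dif_pos h]
  exact Classical.choose_spec (pvkq_chain_of_joined h.1 h.2)

theorem pvkq_L_ne (δ : ℝ) (R : Set ℂ) (x y : ℂ) : pvkqL δ R x y ≠ [] := by
  by_cases h : PvkqCore δ R x y
  · exact (pvkq_L_spec h).1
  · unfold pvkqL; rw [dif_neg h]; simp

theorem pvkq_L_chain (δ : ℝ) (R : Set ℂ) (x y : ℂ) : (pvkqL δ R x y).IsChain PvlnAdj := by
  by_cases h : PvkqCore δ R x y
  · exact (pvkq_L_spec h).2.1
  · unfold pvkqL; rw [dif_neg h]; simp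

theorem pvkq_Ev_meas {δ : ℝ} (hδ : 0 < δ) (c : Bool) (R : Set ℂ) (x y : ℂ) : MeasurableSet (pvkqEv δ c R x y) := pvkq_lane_meas hδ c (pvkq_L_chain δ R x y)

theorem pvkq_Ev_reads {δ : ℝ} {R : Set ℂ} {x y : ℂ} (h : PvkqCore δ R x y) (c : Bool) : Conf.ReadsSet (R ×ˢ univ) (pvkqEv δ c R x y) :=
  (pvlq_lane_reads δ c _).mono (prod_mono (pvkq_L_spec h).2.2.2.2.2.1 le_rfl)

/-- **DET**: the pattern of record joins the two ends -/
theorem pvkq_Ev_det {δ : ℝ} {R : Set ℂ} {x y : ℂ} (h : PvkqCore δ R x y) (c : Bool) : PvkqDet δ c R x y (pvkqEv δ c R x y) := by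
  intro Y hY κ hev
  obtain ⟨hne, hc, -, hh, hl, hW, -⟩ := pvkq_L_spec h
  have hδ := h.1
  set L := pvkqL δ R x y with hL
  obtain ⟨v0, -, H⟩ := pvkq_join hY κ (c := c) hδ (L₁ := []) (L' := L) (L₂ := []) hne (by simpa using hc) (by simpa using (show cfOf Y κ ∈ pvlnLaneEv δ c L from hev))
  have m1 : pvkqCell δ x ∈ L := List.mem_of_mem_head? (by rw [hh]; rfl)
  have m2 : pvkqCell δ y ∈ L := List.mem_of_mem_getLast? (by rw [hl]; rfl)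
  obtain ⟨a, -, -, -, va, -, -, -, ⟨ha1, -, ha2⟩, -, -, -, ja, -, -, -⟩ := H _ m1
  obtain ⟨b, -, -, -, vb, -, -, -, ⟨hb1, -, hb2⟩, -, -, -, jb, -, -, -⟩ := H _ m2
  refine ⟨va, vb, ?_, ?_, pl_hx_join_mono le_rfl (X := pvkqV Y κ c (pvlnW δ L)) (X' := pvkqV Y κ c R) (fun v hv => ⟨hv.1, hW hv.2⟩) (pl_hx_join_trans (pl_hx_join_symm ja) jb)⟩
  · calc ‖(va : ℂ) - x‖ ≤ ‖(va : ℂ) - a‖ + ‖a - x‖ := norm_sub_le_norm_sub_add_norm_sub _ _ _
      _ < δ / 16 + 3 / 2 * δ := add_lt_add_of_lt_of_le ha2 (pvkq_cell_diam hδ ha1 (pvkq_mem_cell hδ x))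
      _ < 2 * δ := by linarith
  · calc ‖(vb : ℂ) - y‖ ≤ ‖(vb : ℂ) - b‖ + ‖b - y‖ := norm_sub_le_norm_sub_add_norm_sub _ _ _
      _ < δ / 16 + 3 / 2 * δ := add_lt_add_of_lt_of_le hb2 (pvkq_cell_diam hδ hb1 (pvkq_mem_cell hδ y))
      _ < 2 * δ := by linarith

/-- **THE LINK BOUND, REGION FORM**.   ONE `q`.   `M` = size of the regions in cells.   One region (`WO`), two disjoint regions (`SY`, any colours). -/
theorem pvkq_region : ∃ q : ℝ, 0 < q ∧ q ≤ 1 ∧ ∀ (M : ℕ) (θ : ℝ), 0 < θ → ∃ U : ℝ, 1 ≤ U ∧ ∀ ε : ℝ, 0 < ε → ∀ δ : ℝ, U * ε ≤ δ →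
    (∀ (c : Bool) (R : Set ℂ) (z0 x y : ℂ), R ⊆ Metric.closedBall z0 (M * δ) → PvkqCore δ R x y →
      pvGeo ε {g | pvkqP (pvkqEv δ c R x y) (pvgSites g) < ENNReal.ofReal (q ^ (15 * (2 * M + 1) ^ 2) / 2)} ≤ ENNReal.ofReal θ) ∧
    (∀ (c c' : Bool) (R R' : Set ℂ) (z0 z0' x y x' y' : ℂ), R ⊆ Metric.closedBall z0 (M * δ) → R' ⊆ Metric.closedBall z0' (M * δ) → PvkqCore δ R x y → PvkqCore δ R' x' y' → Disjoint R R' →
      pvGeo ε {g | pvkqP (pvkqEv δ c R x y ∩ pvkqEv δ c' R' x' y') (pvgSites g) < ENNReal.ofReal ((q ^ (15 * (2 * M + 1) ^ 2) / 2) ^ 2)} ≤ ENNReal.ofReal θ) := by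
  obtain ⟨q, h0, h1, hQ⟩ := exit_pvlq_q
  refine ⟨q, h0, h1, fun M θ hθ => ?_⟩
  obtain ⟨U1, hU1, H1⟩ := pvlq_lane h0 h1 hQ ((2 * M + 1) ^ 2) hθ
  obtain ⟨U2, hU2, H2⟩ := pvlq_corridor h0 h1 hQ ((2 * M + 1) ^ 2) hθ
  refine ⟨max U1 U2, le_max_of_le_left hU1, fun ε hε δ hδ => ?_⟩
  have hδ1 : U1 * ε ≤ δ := le_trans (by gcongr; exact le_max_left _ _) hδ
  have hδ2 : U2 * ε ≤ δ := le_trans (by gcongr; exact le_max_right _ _) hδ
  have hδ0 : 0 < δ := lt_of_lt_of_le (by positivity) hδ1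
  refine ⟨fun c R z0 x y hR hc => ?_, fun c c' R R' z0 z0' x y x' y' hR hR' hc hc' hd => ?_⟩
  · obtain ⟨s1, s2, -, -, -, -, s7⟩ := pvkq_L_spec hc
    exact (pvkq_bad_geo ε (pvkq_Ev_meas hδ0 c R x y) _).trans (H1 ε hε δ hδ1 c _ s1 s2 (s7 z0 M hR))
  · obtain ⟨s1, s2, -, -, -, s6, s7⟩ := pvkq_L_spec hc
    obtain ⟨t1, t2, -, -, -, t6, t7⟩ := pvkq_L_spec hc'
    exact (pvkq_bad_geo ε ((pvkq_Ev_meas hδ0 c R x y).inter (pvkq_Ev_meas hδ0 c' R' x' y')) _).trans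
      (H2 ε hε δ hδ2 c c' _ _ s1 t1 s2 t2 (s7 z0 M hR) (t7 z0' M hR') (hd.mono s6 t6))

/-- **REGION FORM, LIMIT, UPPER PROBABILITY OF THE WALL**: fixed regions, `ε ↓ 0` -/
theorem pvkq_region_up : ∃ q : ℝ, 0 < q ∧ q ≤ 1 ∧ ∀ (M : ℕ) (δ : ℝ),
    (∀ (c : Bool) (R : Set ℂ) (z0 x y : ℂ), R ⊆ Metric.closedBall z0 (M * δ) → PvkqCore δ R x y →
      Tendsto (fun ε : ℝ => (PvUp.iter (pvGeo ε) pvCol).P {p | pvkqP (pvkqEv δ c R x y) (cfSites (pvConf (pvMerge p))) < ENNReal.ofReal (q ^ (15 * (2 * M + 1) ^ 2) / 2)}) (𝓝[>] (0 : ℝ)) (𝓝 0)) ∧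
    (∀ (c c' : Bool) (R R' : Set ℂ) (z0 z0' x y x' y' : ℂ), R ⊆ Metric.closedBall z0 (M * δ) → R' ⊆ Metric.closedBall z0' (M * δ) → PvkqCore δ R x y → PvkqCore δ R' x' y' → Disjoint R R' →
      Tendsto (fun ε : ℝ => (PvUp.iter (pvGeo ε) pvCol).P {p | pvkqP (pvkqEv δ c R x y ∩ pvkqEv δ c' R' x' y') (cfSites (pvConf (pvMerge p))) < ENNReal.ofReal ((q ^ (15 * (2 * M + 1) ^ 2) / 2) ^ 2)})
        (𝓝[>] (0 : ℝ)) (𝓝 0)) := by
  obtain ⟨q, h0, h1, hQ⟩ := exit_pvlq_q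
  refine ⟨q, h0, h1, fun M δ => ⟨fun c R z0 x y hR hc => exit_pvlq_lim_of_unif hc.1 fun θ hθ => ?_,
    fun c c' R R' z0 z0' x y x' y' hR hR' hc hc' hd => exit_pvlq_lim_of_unif hc.1 fun θ hθ => ?_⟩⟩
  · obtain ⟨U, hU, H⟩ := pvlq_lane h0 h1 hQ ((2 * M + 1) ^ 2) hθ
    obtain ⟨s1, s2, -, -, -, -, s7⟩ := pvkq_L_spec hc
    exact ⟨U, hU, fun ε hε hle => (pvkq_bad_up ε (pvkq_Ev_meas hc.1 c R x y) _).trans (H ε hε δ hle c _ s1 s2 (s7 z0 M hR))⟩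
  · obtain ⟨U, hU, H⟩ := pvlq_corridor h0 h1 hQ ((2 * M + 1) ^ 2) hθ
    obtain ⟨s1, s2, -, -, -, s6, s7⟩ := pvkq_L_spec hc
    obtain ⟨t1, t2, -, -, -, t6, t7⟩ := pvkq_L_spec hc'
    exact ⟨U, hU, fun ε hε hle => (pvkq_bad_up ε ((pvkq_Ev_meas hc.1 c R x y).inter (pvkq_Ev_meas hc.1 c' R' x' y')) _).trans
      (H ε hε δ hle c c' _ _ s1 t1 s2 t2 (s7 z0 M hR) (t7 z0' M hR') (hd.mono s6 t6))⟩

/-! ## 6. finite families of lanes with pairwise disjoint windows -/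

/-- the intersection of a finite family of lane events (colour, chain) -/
def pvkqFam (δ : ℝ) (l : List (Bool × List (ℤ × ℤ))) : Set (Conf PvPt) := {η | ∀ x ∈ l, η ∈ pvlnLaneEv δ x.1 x.2}

/-- the union of the windows of the family -/
def pvkqFW (δ : ℝ) (l : List (Bool × List (ℤ × ℤ))) : Set ℂ := ⋃ x ∈ {x | x ∈ l}, pvlnW δ x.2

theorem pvkq_eqns_cite4 : True := by
  have := @pvkqFam.eq_1; have := @pvkqFW.eq_1
  trivial

theorem pvkq_fam_nil (δ : ℝ) : pvkqFam δ [] = univ := by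
  ext η; simp [pvkqFam]

theorem pvkq_fam_cons (δ : ℝ) (x : Bool × List (ℤ × ℤ)) (t : List (Bool × List (ℤ × ℤ))) : pvkqFam δ (x :: t) = pvlnLaneEv δ x.1 x.2 ∩ pvkqFam δ t := by
  ext η
  simp only [pvkqFam, List.mem_cons, forall_eq_or_imp, mem_ofPred_eq, mem_inter_iff]

theorem pvkq_fam_meas {δ : ℝ} (hδ : 0 < δ) : ∀ {l : List (Bool × List (ℤ × ℤ))}, (∀ x ∈ l, x.2.IsChain PvlnAdj) → MeasurableSet (pvkqFam δ l)
  | [], _ => by rw [pvkq_fam_nil]; exact MeasurableSet.univ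
  | x :: t, h => by
    rw [pvkq_fam_cons]
    exact (pvkq_lane_meas hδ x.1 (h x List.mem_cons_self)).inter (pvkq_fam_meas hδ fun y hy => h y (List.mem_cons_of_mem _ hy))

theorem pvkq_fam_reads (δ : ℝ) (l : List (Bool × List (ℤ × ℤ))) : Conf.ReadsSet (pvkqFW δ l ×ˢ univ) (pvkqFam δ l) := by
  intro η
  have key : ∀ x ∈ l, (Conf.restr (pvkqFW δ l ×ˢ univ) η ∈ pvlnLaneEv δ x.1 x.2 ↔ η ∈ pvlnLaneEv δ x.1 x.2) := fun x hx =>
    ((pvlq_lane_reads δ x.1 x.2).mono (prod_mono (subset_biUnion_of_mem (u := fun x : Bool × List (ℤ × ℤ) => pvlnW δ x.2) (show x ∈ {x | x ∈ l} from hx)) le_rfl)) η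
  constructor
  · intro h x hx; exact (key x hx).1 (h x hx)
  · intro h x hx; exact (key x hx).2 (h x hx)

theorem pvkq_FW_bdd (δ : ℝ) (l : List (Bool × List (ℤ × ℤ))) : Bornology.IsBounded (pvkqFW δ l) :=
  (Bornology.isBounded_biUnion (List.finite_toSet l)).2 fun x _ => pvlq_W_bdd δ x.2

/-- **PRODUCT**: at a good labelled geometry the quenched probability of the family is at least the product of the bounds -/
theorem pvkq_fam_Qc {δ : ℝ} {g : PvGeoT} (hg : PvgOk g) {t : ℝ≥0∞} : ∀ {l : List (Bool × List (ℤ × ℤ))}, l.Pairwise (fun x y => Disjoint (pvlnW δ x.2) (pvlnW δ y.2)) →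
    (∀ x ∈ l, t ≤ pvQc (pvlnLaneEv δ x.1 x.2) g) → t ^ l.length ≤ pvQc (pvkqFam δ l) g
  | [], _, _ => by rw [pvkq_fam_nil, pvqu_Qc_univ]; simp
  | x :: r, hd, h => by
    obtain ⟨h1, h2⟩ := List.pairwise_cons.1 hd
    have hdis : Disjoint (pvlnW δ x.2) (pvkqFW δ r) := by
      refine Set.disjoint_left.2 fun z hz hz' => ?_
      obtain ⟨y, hy, hzy⟩ := mem_iUnion₂.1 hz'
      exact Set.disjoint_left.1 (h1 y hy) hz hzy
    rw [pvkq_fam_cons, pvqu_loc_indep (pvlq_W_bdd δ x.2) (pvkq_FW_bdd δ r) hdis (pvlq_lane_reads δ x.1 x.2) (pvkq_fam_reads δ r) hg, List.length_cons, pow_succ, mul_comm]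
    exact mul_le_mul' (h x List.mem_cons_self) (pvkq_fam_Qc hg h2 fun y hy => h y (List.mem_cons_of_mem _ hy))

/-- union bound along a list -/
theorem pvkq_list_union {α β : Type*} [MeasurableSpace α] (μ : Measure α) (S : β → Set α) (a : ℝ≥0∞) : ∀ l : List β, (∀ x ∈ l, μ (S x) ≤ a) → μ {g | ∃ x ∈ l, g ∈ S x} ≤ l.length * a
  | [], _ => by simp
  | x :: r, h => by
    have e : {g | ∃ y ∈ x :: r, g ∈ S y} = S x ∪ {g | ∃ y ∈ r, g ∈ S y} := by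
      ext g; simp
    rw [e, List.length_cons]
    calc μ (S x ∪ {g | ∃ y ∈ r, g ∈ S y}) ≤ μ (S x) + μ {g | ∃ y ∈ r, g ∈ S y} := measure_union_le _ _
      _ ≤ a + r.length * a := add_le_add (h x List.mem_cons_self) (pvkq_list_union μ S a r fun y hy => h y (List.mem_cons_of_mem _ hy))
      _ = ((r.length + 1 : ℕ) : ℝ≥0∞) * a := by push_cast; ring

/-- **THE LINK BOUND FOR A FINITE FAMILY** (at most `N` lanes of at most `n` cells, any colours, pairwise disjoint windows), labelled form `pvQc` -/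
theorem pvkq_fam_geo {q : ℝ} (hq0 : 0 < q) (hq1 : q ≤ 1) (hQ : PvlqQbx q) (n N : ℕ) {θ : ℝ} (hθ : 0 < θ) :
    ∃ U : ℝ, 1 ≤ U ∧ ∀ ε : ℝ, 0 < ε → ∀ δ : ℝ, U * ε ≤ δ → ∀ l : List (Bool × List (ℤ × ℤ)), l.length ≤ N → (∀ x ∈ l, x.2 ≠ [] ∧ x.2.IsChain PvlnAdj ∧ x.2.length ≤ n) →
      l.Pairwise (fun x y => Disjoint (pvlnW δ x.2) (pvlnW δ y.2)) →
      pvGeo ε {g | pvQc (pvkqFam δ l) g < ENNReal.ofReal ((q ^ (15 * n) / 2) ^ l.length)} ≤ ENNReal.ofReal θ := by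
  obtain ⟨U, hU1, H⟩ := pvlq_lane hq0 hq1 hQ n (θ := θ / (N + 1)) (by positivity)
  refine ⟨U, hU1, fun ε hε δ hδU l hN hl hd => ?_⟩
  have hA : 0 ≤ q ^ (15 * n) / 2 := by positivity
  set t : ℝ≥0∞ := ENNReal.ofReal (q ^ (15 * n) / 2) with ht
  have hsub : {g | pvQc (pvkqFam δ l) g < ENNReal.ofReal ((q ^ (15 * n) / 2) ^ l.length)} ⊆ {g | ¬ PvgOk g} ∪ {g | ∃ x ∈ l, g ∈ {g | pvQc (pvlnLaneEv δ x.1 x.2) g < t}} := by
    intro g hg
    by_contra hcon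
    simp only [mem_union, mem_ofPred_eq, not_or, not_not, not_exists, not_and, not_lt] at hcon
    obtain ⟨hok, h1⟩ := hcon
    have hg' : pvQc (pvkqFam δ l) g < ENNReal.ofReal ((q ^ (15 * n) / 2) ^ l.length) := hg
    rw [ENNReal.ofReal_pow hA] at hg'
    exact absurd (pvkq_fam_Qc hok hd h1) (not_le.2 hg')
  have h0 : pvGeo ε {g | ¬ PvgOk g} = 0 := pvqu_ok_ae ε
  calc pvGeo ε {g | pvQc (pvkqFam δ l) g < ENNReal.ofReal ((q ^ (15 * n) / 2) ^ l.length)}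
      ≤ pvGeo ε {g | ¬ PvgOk g} + pvGeo ε {g | ∃ x ∈ l, g ∈ {g | pvQc (pvlnLaneEv δ x.1 x.2) g < t}} := (measure_mono hsub).trans (measure_union_le _ _)
    _ ≤ 0 + l.length * ENNReal.ofReal (θ / (N + 1)) := by
        rw [h0]
        exact add_le_add le_rfl (pvkq_list_union (pvGeo ε) (fun x : Bool × List (ℤ × ℤ) => {g | pvQc (pvlnLaneEv δ x.1 x.2) g < t}) _ l
          fun x hx => H ε hε δ hδU x.1 x.2 (hl x hx).1 (hl x hx).2.1 (hl x hx).2.2)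
    _ = ENNReal.ofReal (l.length * (θ / (N + 1))) := by
        rw [zero_add, ENNReal.ofReal_mul (Nat.cast_nonneg _), ENNReal.ofReal_natCast]
    _ ≤ ENNReal.ofReal θ := by
        refine ENNReal.ofReal_le_ofReal ?_
        have h1 : (l.length : ℝ) ≤ N + 1 := by exact_mod_cast hN.trans (Nat.le_succ N)
        have h2 : 0 < (N : ℝ) + 1 := by positivity
        calc (l.length : ℝ) * (θ / (N + 1)) ≤ (N + 1) * (θ / (N + 1)) := by gcongr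
          _ = θ := by field_simp

/-! ## 7. the points of the cells: ONE choice for all the parts of a chain -/

/-- **THE POINTS OF THE CELLS** (continuum form): if all the patterns of the chain `L` hold in `B`, there is ONE point `p k ∈ B ∩ cell k` for every cell of `L` such that, for EVERY contiguous part `L'` of `L`,
the points of the cells of `L'` are joined to each other inside `B ∩ (cells of L')` -/
theorem pvkq_pts {B : Set ℂ} {δ : ℝ} (hδ : 0 ≤ δ) {L : List (ℤ × ℤ)} (hc : L.IsChain PvlnAdj) (hB : ∀ e ∈ pvlnLane δ L, e.Holds B) :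
    ∃ p : ℤ × ℤ → ℂ, (∀ k ∈ L, p k ∈ B ∩ pvlnC δ k) ∧ ∀ L' : List (ℤ × ℤ), L' <:+: L → ∀ k ∈ L', ∀ k' ∈ L', JoinedIn (B ∩ pvlnU δ L') (p k) (p k') := by
  classical
  have hH : ∀ k ∈ L, ∃ a b : ℂ, a.re = (k.1 : ℝ) * δ ∧ b.re = ((k.1 : ℝ) + 1) * δ ∧ JoinedIn (B ∩ pvlnC δ k) a b := by
    intro k hk
    obtain ⟨L₁, L₂, rfl⟩ := List.append_of_mem hk
    refine pvln_H_holds (hB _ ?_)
    have := pvkq_lane_infix δ L₁ [k] L₂ (pvlnH δ k) (by simp [pvlnLane])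
    simpa using this
  choose! a b ha hb hab using hH
  refine ⟨a, fun k hk => (hab k hk).source_mem, ?_⟩
  rintro L' ⟨L₁, L₂, rfl⟩ k hk k' hk'
  have hne : L' ≠ [] := List.ne_nil_of_mem hk
  have hc' : L'.IsChain PvlnAdj := hc.infix ⟨L₁, L₂, rfl⟩
  obtain ⟨x0, hx0⟩ := pvln_lane_det hδ L' hne hc' fun e he => hB e (pvkq_lane_infix δ L₁ L' L₂ e he)
  have key : ∀ j ∈ L', JoinedIn (B ∩ pvlnU δ L') x0 (a j) := by
    intro j hj
    have hjL : j ∈ L₁ ++ L' ++ L₂ := List.mem_append_left _ (List.mem_append_right _ hj)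
    obtain ⟨a', b', c', d', h1, h2, h3, h4, h5, h6, h7, h8⟩ := hx0 j hj
    have hm : B ∩ pvlnC δ j ⊆ B ∩ pvlnU δ L' := inter_subset_inter_right _ (pvln_C_sub_U hj)
    exact h8.trans ((pvln_cell_meet (ha j hjL) (hb j hjL) h3 h4 (hab j hjL) h6).mono hm).symm
  exact (key k hk).symm.trans (key k' hk')

/-- a path in the region of the colour `c`, PRESCRIBED vertices at both ends -/
theorem pvkq_join_both {Y : Set ℂ} (h : DelGood Y) (κ : ℂ → Bool) (c : Bool) {U W : Set ℂ} {ρ : ℝ} (hnet : ∀ z ∈ U, ∃ s ∈ Y, ‖s - z‖ < ρ)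
    (hW : ∀ z ∈ U, ∀ w : ℂ, ‖w - z‖ < ρ → w ∈ W) {x y : ℂ} (hxy : JoinedIn (pvlnReg c (cfOf Y κ) ∩ U) x y) (a0 b0 : Y) (ha0 : κ a0 = c) (hx : x ∈ vorCell Y a0) (hb0 : κ b0 = c) (hy : y ∈ vorCell Y b0) :
    (delMap h).Join univ (pvkqV Y κ c W) a0 b0 := by
  obtain ⟨b, hyb, -, hj⟩ := pvkq_join_from h κ c hnet hW hxy a0 ha0 hx
  have hyU : y ∈ U := hxy.target_mem.2
  have hb0W : (b0 : ℂ) ∈ W := by
    obtain ⟨s, hs, hsz⟩ := hnet y hyU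
    refine hW y hyU b0 ?_
    calc ‖(b0 : ℂ) - y‖ = ‖y - b0‖ := norm_sub_rev _ _
      _ ≤ ‖y - s‖ := hy s hs
      _ = ‖s - y‖ := norm_sub_rev _ _
      _ < ρ := hsz
  by_cases e : (b : ℂ) = b0
  · have e' : b = b0 := Subtype.ext e
    rw [← e']; exact hj
  · exact pl_hx_join_tail hj ((dls_edgeIn_univ h _ _).2 ⟨b.2, b0.2, e, ⟨y, hyb, hy⟩⟩) ⟨hb0, hb0W⟩

/-- **THE POINTS AND THE SITES OF THE CELLS** on a lane event of the copy colouring: `p k ∈ cell k`, in the region of the colour `c`, in the Voronoi cell of the site `A k` of colour `c`, `‖A k - p k‖ < δ/16`;   for every contiguous part `L'`: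
the points are joined in `region ∩ cells of L'`, the sites are joined in the Delaunay map through the sites of colour `c` of the window of `L'`;   `δ/16`-net on all the cells -/
theorem pvkq_pts_ev {Y : Set ℂ} (h : DelGood Y) (κ : ℂ → Bool) {c : Bool} {δ : ℝ} (hδ : 0 < δ) {L : List (ℤ × ℤ)} (hc : L.IsChain PvlnAdj) (hev : cfOf Y κ ∈ pvlnLaneEv δ c L) :
    (∀ z ∈ pvlnU δ L, ∃ s ∈ Y, ‖s - z‖ < δ / 16) ∧
    ∃ (p : ℤ × ℤ → ℂ) (A : ℤ × ℤ → Y), (∀ k ∈ L, p k ∈ pvlnC δ k ∧ p k ∈ vorCell Y (A k) ∧ κ (A k) = c ∧ ‖(A k : ℂ) - p k‖ < δ / 16) ∧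
      ∀ L' : List (ℤ × ℤ), L' <:+: L → ∀ k ∈ L', ∀ k' ∈ L', JoinedIn (pvlnReg c (cfOf Y κ) ∩ pvlnU δ L') (p k) (p k') ∧ (delMap h).Join univ (pvkqV Y κ c (pvlnW δ L')) (A k) (A k') := by
  classical
  have hall := (pvln_loc_robust (pvln_lane_fit hδ hc) hev rfl).1
  have hnet : ∀ z ∈ pvlnU δ L, ∃ s ∈ Y, ‖s - z‖ < δ / 16 := by
    intro z hz
    obtain ⟨s, hs, hsz⟩ := pvln_lane_net hδ hc hev rfl hz
    rw [cfOf_sites] at hs
    exact ⟨s, hs, by linarith⟩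
  obtain ⟨p, hp, hJ⟩ := pvkq_pts (B := pvlnReg c (cfOf Y κ)) hδ.le hc hall
  have hA : ∀ k ∈ L, ∃ v : Y, p k ∈ vorCell Y v ∧ κ v = c := by
    intro k hk
    have := (hp k hk).1
    rw [pvkq_reg_eq h.lf κ c] at this
    obtain ⟨v, hv, hpv⟩ := this
    exact ⟨⟨v, hv.1⟩, hpv, hv.2⟩
  have hYne : Nonempty Y := ⟨⟨_, h.ne.some_mem⟩⟩
  choose! A hA1 hA2 using hA
  refine ⟨hnet, p, A, fun k hk => ⟨(hp k hk).2, hA1 k hk, hA2 k hk, ?_⟩, ?_⟩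
  · obtain ⟨s, hs, hsz⟩ := hnet (p k) (pvln_C_sub_U hk (hp k hk).2)
    calc ‖(A k : ℂ) - p k‖ = ‖p k - A k‖ := norm_sub_rev _ _
      _ ≤ ‖p k - s‖ := hA1 k hk s hs
      _ = ‖s - p k‖ := norm_sub_rev _ _
      _ < δ / 16 := hsz
  · intro L' hL' k hk k' hk'
    have hsubL : ∀ j ∈ L', j ∈ L := fun j hj => hL'.subset hj
    have hUsub : pvlnU δ L' ⊆ pvlnU δ L := by
      intro z hz
      obtain ⟨j, hj, hzj⟩ := mem_iUnion₂.1 hz
      exact mem_biUnion (show j ∈ {k | k ∈ L} from hsubL j hj) hzj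
    refine ⟨hJ L' hL' k hk k' hk', pvkq_join_both h κ c (fun z hz => hnet z (hUsub hz)) (fun z hz w hw => pvln_lane_nbd hδ hz (by linarith)) (hJ L' hL' k hk k' hk') _ _
      (hA2 k (hsubL k hk)) (hA1 k (hsubL k hk)) (hA2 k' (hsubL k' hk')) (hA1 k' (hsubL k' hk'))⟩


/-! ## 8. ROUTES: legs `(R, x, y)` which follow each other, ONE chain, ONE lane event -/

/-- the chain of a route (the first cell of a leg = the last cell of the previous one, written once) -/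
noncomputable def pvkqRt (δ : ℝ) : List (Set ℂ × ℂ × ℂ) → List (ℤ × ℤ)
  | [] => []
  | e :: t => pvkqL δ e.1 e.2.1 e.2.2 ++ (pvkqRt δ t).tail

/-- **a route**: every leg `(R, x, y)` has its core path, the legs follow each other -/
def PvkqRoute (δ : ℝ) (ℓ : List (Set ℂ × ℂ × ℂ)) : Prop := (∀ e ∈ ℓ, PvkqCore δ e.1 e.2.1 e.2.2) ∧ ℓ.IsChain (fun e e' => e.2.2 = e'.2.1)

/-- **THE PATTERN OF RECORD OF A ROUTE**, colour `c` -/
noncomputable def pvkqRtEv (δ : ℝ) (c : Bool) (ℓ : List (Set ℂ × ℂ × ℂ)) : Set (Conf PvPt) := pvlnLaneEv δ c (pvkqRt δ ℓ)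

/-- the region of a route -/
def pvkqRtR (ℓ : List (Set ℂ × ℂ × ℂ)) : Set ℂ := ⋃ e ∈ {e | e ∈ ℓ}, e.1

/-- the cells of a leg -/
noncomputable def pvkqU (δ : ℝ) (R : Set ℂ) (x y : ℂ) : Set ℂ := pvlnU δ (pvkqL δ R x y)

theorem pvkq_eqns_cite5 : True := by
  have := @pvkqRt.eq_1; have := @pvkqRt.eq_2; have := @PvkqRoute.eq_1; have := @pvkqRtEv.eq_1; have := @pvkqRtR.eq_1; have := @pvkqU.eq_1
  trivial

theorem PvkqRoute.tail {δ : ℝ} {e : Set ℂ × ℂ × ℂ} {t : List (Set ℂ × ℂ × ℂ)} (h : PvkqRoute δ (e :: t)) : PvkqRoute δ t :=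
  ⟨fun e' he' => h.1 e' (List.mem_cons_of_mem _ he'), h.2.tail⟩

theorem pvkq_rt_head {δ : ℝ} {e : Set ℂ × ℂ × ℂ} {t : List (Set ℂ × ℂ × ℂ)} (h : PvkqRoute δ (e :: t)) : (pvkqRt δ (e :: t)).head? = some (pvkqCell δ e.2.1) := by
  have h1 := pvkq_L_spec (h.1 e List.mem_cons_self)
  show (pvkqL δ e.1 e.2.1 e.2.2 ++ (pvkqRt δ t).tail).head? = _
  rw [List.head?_append_of_ne_nil _ h1.1]
  exact h1.2.2.2.1

/-- the other way to write the chain: drop the LAST cell of the first leg -/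
theorem pvkq_rt_eq {δ : ℝ} {e e' : Set ℂ × ℂ × ℂ} {t : List (Set ℂ × ℂ × ℂ)} (h : PvkqRoute δ (e :: e' :: t)) :
    pvkqRt δ (e :: e' :: t) = (pvkqL δ e.1 e.2.1 e.2.2).dropLast ++ pvkqRt δ (e' :: t) := by
  have h1 := pvkq_L_spec (h.1 e List.mem_cons_self)
  have h2 := pvkq_rt_head h.tail
  have h3 : e.2.2 = e'.2.1 := (List.isChain_cons_cons.1 h.2).1
  show pvkqL δ e.1 e.2.1 e.2.2 ++ (pvkqRt δ (e' :: t)).tail = _
  generalize pvkqRt δ (e' :: t) = T at h2 ⊢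
  obtain ⟨hne, -, -, -, hl, -, -⟩ := h1
  generalize pvkqL δ e.1 e.2.1 e.2.2 = L at hne hl ⊢
  cases T with
  | nil => simp at h2
  | cons a r =>
    simp only [List.head?_cons, Option.some.injEq] at h2
    have e1 : L = L.dropLast ++ [pvkqCell δ e.2.2] := by
      have := List.dropLast_append_getLast hne
      rw [List.getLast?_eq_some_getLast hne, Option.some.injEq] at hl
      rw [hl] at this
      exact this.symm
    rw [h2, ← h3, List.tail_cons]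
    conv_lhs => rw [e1]
    simp

theorem pvkq_rt_ne {δ : ℝ} {ℓ : List (Set ℂ × ℂ × ℂ)} (hne : ℓ ≠ []) : pvkqRt δ ℓ ≠ [] := by
  cases ℓ with
  | nil => exact absurd rfl hne
  | cons e t =>
    show pvkqL δ e.1 e.2.1 e.2.2 ++ (pvkqRt δ t).tail ≠ []
    exact List.append_ne_nil_of_left_ne_nil (pvkq_L_ne _ _ _ _) _

theorem pvkq_rt_chain {δ : ℝ} : ∀ {ℓ : List (Set ℂ × ℂ × ℂ)}, PvkqRoute δ ℓ → (pvkqRt δ ℓ).IsChain PvlnAdj
  | [], _ => by simp [pvkqRt]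
  | [e], h => by
    show (pvkqL δ e.1 e.2.1 e.2.2 ++ (pvkqRt δ []).tail).IsChain PvlnAdj
    simpa [pvkqRt] using pvkq_L_chain δ e.1 e.2.1 e.2.2
  | e :: e' :: t, h => by
    have ih := pvkq_rt_chain h.tail
    have h1 := pvkq_L_spec (h.1 e List.mem_cons_self)
    have h2 := pvkq_rt_head h.tail
    have h3 : e.2.2 = e'.2.1 := (List.isChain_cons_cons.1 h.2).1
    show (pvkqL δ e.1 e.2.1 e.2.2 ++ (pvkqRt δ (e' :: t)).tail).IsChain PvlnAdj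
    generalize pvkqRt δ (e' :: t) = T at h2 ih ⊢
    cases T with
    | nil => simp at h2
    | cons a r =>
      simp only [List.head?_cons, Option.some.injEq] at h2
      rw [List.tail_cons]
      refine List.IsChain.append h1.2.1 ih.tail ?_
      intro x hx y hy
      rw [h1.2.2.2.2.1] at hx
      have hx' : x = pvkqCell δ e.2.2 := (Option.mem_some_iff.1 hx).symm
      cases r with
      | nil => simp at hy
      | cons b r' =>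
        have hy' : y = b := by simpa using hy.symm
        rw [hx', hy', h3, ← h2]
        exact (List.isChain_cons_cons.1 ih).1

/-- the chain of every leg is a contiguous part of the chain of the route -/
theorem pvkq_rt_infix {δ : ℝ} : ∀ {ℓ : List (Set ℂ × ℂ × ℂ)}, PvkqRoute δ ℓ → ∀ e ∈ ℓ, pvkqL δ e.1 e.2.1 e.2.2 <:+: pvkqRt δ ℓ
  | [], _, e, he => by simp at he
  | [e0], h, e, he => by
    rw [List.mem_singleton.1 he]
    exact (List.prefix_append _ _).isInfix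
  | e0 :: e' :: t, h, e, he => by
    rcases List.mem_cons.1 he with rfl | he
    · exact (List.prefix_append _ _).isInfix
    · rw [pvkq_rt_eq h]
      exact (pvkq_rt_infix h.tail e he).trans (List.suffix_append _ _).isInfix

theorem pvkq_rt_mem {δ : ℝ} : ∀ {ℓ : List (Set ℂ × ℂ × ℂ)} {k : ℤ × ℤ}, k ∈ pvkqRt δ ℓ → ∃ e ∈ ℓ, k ∈ pvkqL δ e.1 e.2.1 e.2.2
  | [], k, hk => by simp [pvkqRt] at hk
  | e :: t, k, hk => by
    rcases List.mem_append.1 (show k ∈ pvkqL δ e.1 e.2.1 e.2.2 ++ (pvkqRt δ t).tail from hk) with h | h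
    · exact ⟨e, List.mem_cons_self, h⟩
    · obtain ⟨e', he', hk'⟩ := pvkq_rt_mem (List.mem_of_mem_tail h)
      exact ⟨e', List.mem_cons_of_mem _ he', hk'⟩

theorem pvkq_rt_W {δ : ℝ} {ℓ : List (Set ℂ × ℂ × ℂ)} (h : PvkqRoute δ ℓ) : pvlnW δ (pvkqRt δ ℓ) ⊆ pvkqRtR ℓ := by
  intro z hz
  obtain ⟨k, hk, hzk⟩ := mem_iUnion₂.1 hz
  obtain ⟨e, he, hke⟩ := pvkq_rt_mem hk
  exact mem_biUnion (show e ∈ {e | e ∈ ℓ} from he) ((pvkq_L_spec (h.1 e he)).2.2.2.2.2.1 (mem_biUnion (show k ∈ {k | k ∈ pvkqL δ e.1 e.2.1 e.2.2} from hke) hzk))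

theorem pvkq_rt_length {δ : ℝ} {M : ℕ} : ∀ {ℓ : List (Set ℂ × ℂ × ℂ)}, PvkqRoute δ ℓ → (∀ e ∈ ℓ, ∃ z0 : ℂ, e.1 ⊆ Metric.closedBall z0 (M * δ)) → (pvkqRt δ ℓ).length ≤ ℓ.length * (2 * M + 1) ^ 2
  | [], _, _ => by simp [pvkqRt]
  | e :: t, h, hM => by
    obtain ⟨z0, hz0⟩ := hM e List.mem_cons_self
    have h1 := (pvkq_L_spec (h.1 e List.mem_cons_self)).2.2.2.2.2.2 z0 M hz0
    have ih := pvkq_rt_length h.tail fun e' he' => hM e' (List.mem_cons_of_mem _ he')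
    show (pvkqL δ e.1 e.2.1 e.2.2 ++ (pvkqRt δ t).tail).length ≤ _
    rw [List.length_append, List.length_tail, List.length_cons, add_mul, one_mul]
    omega

theorem pvkq_RtEv_meas {δ : ℝ} {ℓ : List (Set ℂ × ℂ × ℂ)} (h : PvkqRoute δ ℓ) (hδ : 0 < δ) (c : Bool) : MeasurableSet (pvkqRtEv δ c ℓ) := pvkq_lane_meas hδ c (pvkq_rt_chain h)

theorem pvkq_RtEv_reads {δ : ℝ} {ℓ : List (Set ℂ × ℂ × ℂ)} (h : PvkqRoute δ ℓ) (c : Bool) : Conf.ReadsSet (pvkqRtR ℓ ×ˢ univ) (pvkqRtEv δ c ℓ) :=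
  (pvlq_lane_reads δ c _).mono (prod_mono (pvkq_rt_W h) le_rfl)

/-- the `δ/16`-neighbourhood of the cells of a leg lies in its region -/
theorem pvkq_U_nbd {δ : ℝ} {R : Set ℂ} {x y : ℂ} (h : PvkqCore δ R x y) {z w : ℂ} (hz : z ∈ pvkqU δ R x y) (hw : ‖w - z‖ < δ / 16) : w ∈ R :=
  (pvkq_L_spec h).2.2.2.2.2.1 (pvln_lane_nbd h.1 hz (by linarith))

/-- **DET OF A ROUTE**.   On the pattern of the route (copy colouring `κ`): ONE point `P x` and ONE site `A x` for every end `x` of a leg (`‖P x - x‖ ≤ 3δ/2`, `P x` in the Voronoi cell of `A x`, `A x` of colour `c`, `‖A x - P x‖ < δ/16`);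
for EVERY leg `(R, x, y)`:  `P x`, `P y` are joined inside (region of the colour `c`) `∩` (cells of the leg),   `A x`, `A y` are joined in the Delaunay map through sites of colour `c` lying in `R`,   the cells of the leg carry a `δ/16`-net of sites -/
theorem pvkq_rt_det {δ : ℝ} {ℓ : List (Set ℂ × ℂ × ℂ)} (hr : PvkqRoute δ ℓ) (hδ : 0 < δ) {c : Bool} {Y : Set ℂ} (h : DelGood Y) (κ : ℂ → Bool) (hev : cfOf Y κ ∈ pvkqRtEv δ c ℓ) :
    ∃ (P : ℂ → ℂ) (A : ℂ → Y), ∀ e ∈ ℓ,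
      (‖P e.2.1 - e.2.1‖ ≤ 3 / 2 * δ ∧ P e.2.1 ∈ vorCell Y (A e.2.1) ∧ κ (A e.2.1) = c ∧ ‖(A e.2.1 : ℂ) - P e.2.1‖ < δ / 16) ∧
      (‖P e.2.2 - e.2.2‖ ≤ 3 / 2 * δ ∧ P e.2.2 ∈ vorCell Y (A e.2.2) ∧ κ (A e.2.2) = c ∧ ‖(A e.2.2 : ℂ) - P e.2.2‖ < δ / 16) ∧
      JoinedIn (pvlnReg c (cfOf Y κ) ∩ pvkqU δ e.1 e.2.1 e.2.2) (P e.2.1) (P e.2.2) ∧ (delMap h).Join univ (pvkqV Y κ c e.1) (A e.2.1) (A e.2.2) ∧
      ∀ z ∈ pvkqU δ e.1 e.2.1 e.2.2, ∃ s ∈ Y, ‖s - z‖ < δ / 16 := by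
  obtain ⟨hnet, p, A, hp, hJ⟩ := pvkq_pts_ev h κ hδ (pvkq_rt_chain hr) hev
  refine ⟨fun x => p (pvkqCell δ x), fun x => A (pvkqCell δ x), fun e he => ?_⟩
  have hinf := pvkq_rt_infix hr e he
  obtain ⟨-, -, -, hh, hl, hW, -⟩ := pvkq_L_spec (hr.1 e he)
  have m1 : pvkqCell δ e.2.1 ∈ pvkqL δ e.1 e.2.1 e.2.2 := List.mem_of_mem_head? (by rw [hh]; rfl)
  have m2 : pvkqCell δ e.2.2 ∈ pvkqL δ e.1 e.2.1 e.2.2 := List.mem_of_mem_getLast? (by rw [hl]; rfl)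
  obtain ⟨a1, a2, a3, a4⟩ := hp _ (hinf.subset m1)
  obtain ⟨b1, b2, b3, b4⟩ := hp _ (hinf.subset m2)
  obtain ⟨j1, j2⟩ := hJ _ hinf _ m1 _ m2
  refine ⟨⟨pvkq_cell_diam hδ a1 (pvkq_mem_cell hδ _), a2, a3, a4⟩, ⟨pvkq_cell_diam hδ b1 (pvkq_mem_cell hδ _), b2, b3, b4⟩, j1,
    pl_hx_join_mono le_rfl (X := pvkqV Y κ c (pvlnW δ (pvkqL δ e.1 e.2.1 e.2.2))) (X' := pvkqV Y κ c e.1) (fun v hv => ⟨hv.1, hW hv.2⟩) j2, fun z hz => hnet z ?_⟩
  obtain ⟨j, hj, hzj⟩ := mem_iUnion₂.1 hz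
  exact mem_biUnion (show j ∈ {k | k ∈ pvkqRt δ ℓ} from hinf.subset hj) hzj


/-! ## 9. PATTERNS = finite families of routes with pairwise disjoint regions -/

/-- **THE PATTERN OF RECORD OF A LINK**: a finite family of routes (colour, legs) -/
noncomputable def pvkqPat (δ : ℝ) (F : List (Bool × List (Set ℂ × ℂ × ℂ))) : Set (Conf PvPt) := {η | ∀ x ∈ F, η ∈ pvkqRtEv δ x.1 x.2}

/-- the region of a pattern -/
def pvkqPatR (F : List (Bool × List (Set ℂ × ℂ × ℂ))) : Set ℂ := ⋃ x ∈ {x | x ∈ F}, pvkqRtR x.2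

/-- **a pattern fits**: routes of at most `K` legs, every leg in a ball of `M` cells, pairwise disjoint regions -/
structure PvkqFit (δ : ℝ) (M K : ℕ) (F : List (Bool × List (Set ℂ × ℂ × ℂ))) : Prop where
  pos : 0 < δ
  route : ∀ x ∈ F, PvkqRoute δ x.2
  ne : ∀ x ∈ F, x.2 ≠ []
  legs : ∀ x ∈ F, x.2.length ≤ K
  size : ∀ x ∈ F, ∀ e ∈ x.2, ∃ z0 : ℂ, e.1 ⊆ Metric.closedBall z0 (M * δ)
  disj : F.Pairwise fun x y => Disjoint (pvkqRtR x.2) (pvkqRtR y.2)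

theorem pvkq_eqns_cite6 : True := by
  have := @pvkqPat.eq_1; have := @pvkqPatR.eq_1
  trivial

theorem pvkq_pat_eq (δ : ℝ) (F : List (Bool × List (Set ℂ × ℂ × ℂ))) : pvkqPat δ F = pvkqFam δ (F.map fun x => (x.1, pvkqRt δ x.2)) := by
  ext η
  constructor
  · intro h y hy
    obtain ⟨x, hx, rfl⟩ := List.mem_map.1 hy
    exact h x hx
  · intro h x hx
    exact h (x.1, pvkqRt δ x.2) (List.mem_map.2 ⟨x, hx, rfl⟩)

theorem PvkqFit.meas {δ : ℝ} {M K : ℕ} {F : List (Bool × List (Set ℂ × ℂ × ℂ))} (h : PvkqFit δ M K F) : MeasurableSet (pvkqPat δ F) := by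
  rw [pvkq_pat_eq]
  refine pvkq_fam_meas h.pos ?_
  intro y hy
  obtain ⟨x, hx, rfl⟩ := List.mem_map.1 hy
  exact pvkq_rt_chain (h.route x hx)

theorem PvkqFit.reads {δ : ℝ} {M K : ℕ} {F : List (Bool × List (Set ℂ × ℂ × ℂ))} (h : PvkqFit δ M K F) : Conf.ReadsSet (pvkqPatR F ×ˢ univ) (pvkqPat δ F) := by
  intro η
  have key : ∀ x ∈ F, (Conf.restr (pvkqPatR F ×ˢ univ) η ∈ pvkqRtEv δ x.1 x.2 ↔ η ∈ pvkqRtEv δ x.1 x.2) := fun x hx =>
    ((pvkq_RtEv_reads (h.route x hx) x.1).mono (prod_mono (subset_biUnion_of_mem (u := fun x : Bool × List (Set ℂ × ℂ × ℂ) => pvkqRtR x.2) (show x ∈ {x | x ∈ F} from hx)) le_rfl)) η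
  constructor
  · intro h' x hx; exact (key x hx).1 (h' x hx)
  · intro h' x hx; exact (key x hx).2 (h' x hx)

theorem PvkqFit.bdd {δ : ℝ} {M K : ℕ} {F : List (Bool × List (Set ℂ × ℂ × ℂ))} (h : PvkqFit δ M K F) : Bornology.IsBounded (pvkqPatR F) :=
  (Bornology.isBounded_biUnion (List.finite_toSet F)).2 fun x hx => (Bornology.isBounded_biUnion (List.finite_toSet x.2)).2 fun e he => by
    obtain ⟨z0, hz0⟩ := h.size x hx e he
    exact Metric.isBounded_closedBall.subset hz0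

/-- **THE LINK BOUND, FINAL FORM** (labelled `pvQc`): ONE `q`;  patterns of at most `N` routes of at most `K` legs of size `M` cells, mesh `δ ≥ U(M,K,N,θ) ε`: off geometries of mass `≤ θ` the quenched probability is `≥ (q^(15 K (2M+1)²)/2)^(number of routes)` -/
theorem pvkq_pat_geo : ∃ q : ℝ, 0 < q ∧ q ≤ 1 ∧ ∀ (M K N : ℕ) (θ : ℝ), 0 < θ → ∃ U : ℝ, 1 ≤ U ∧ ∀ ε : ℝ, 0 < ε → ∀ δ : ℝ, U * ε ≤ δ →
    ∀ F : List (Bool × List (Set ℂ × ℂ × ℂ)), F.length ≤ N → PvkqFit δ M K F →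
      pvGeo ε {g | pvQc (pvkqPat δ F) g < ENNReal.ofReal ((q ^ (15 * (K * (2 * M + 1) ^ 2)) / 2) ^ F.length)} ≤ ENNReal.ofReal θ := by
  obtain ⟨q, h0, h1, hQ⟩ := exit_pvlq_q
  refine ⟨q, h0, h1, fun M K N θ hθ => ?_⟩
  obtain ⟨U, hU, H⟩ := pvkq_fam_geo h0 h1 hQ (K * (2 * M + 1) ^ 2) N hθ
  refine ⟨U, hU, fun ε hε δ hδ F hN hF => ?_⟩
  have := H ε hε δ hδ (F.map fun x => (x.1, pvkqRt δ x.2)) (by rw [List.length_map]; exact hN) (by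
    intro y hy
    obtain ⟨x, hx, rfl⟩ := List.mem_map.1 hy
    exact ⟨pvkq_rt_ne (hF.ne x hx), pvkq_rt_chain (hF.route x hx), (pvkq_rt_length (hF.route x hx) (hF.size x hx)).trans (Nat.mul_le_mul_right _ (hF.legs x hx))⟩) (by
    rw [List.pairwise_map]
    refine List.Pairwise.imp_of_mem ?_ hF.disj
    intro x y hx hy hd
    exact hd.mono (pvkq_rt_W (hF.route x hx)) (pvkq_rt_W (hF.route y hy)))
  rw [List.length_map, ← pvkq_pat_eq] at this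
  exact this

/-- the same, label free -/
theorem pvkq_pat_P : ∃ q : ℝ, 0 < q ∧ q ≤ 1 ∧ ∀ (M K N : ℕ) (θ : ℝ), 0 < θ → ∃ U : ℝ, 1 ≤ U ∧ ∀ ε : ℝ, 0 < ε → ∀ δ : ℝ, U * ε ≤ δ →
    ∀ F : List (Bool × List (Set ℂ × ℂ × ℂ)), F.length ≤ N → PvkqFit δ M K F →
      pvGeo ε {g | pvkqP (pvkqPat δ F) (pvgSites g) < ENNReal.ofReal ((q ^ (15 * (K * (2 * M + 1) ^ 2)) / 2) ^ F.length)} ≤ ENNReal.ofReal θ := by
  obtain ⟨q, h0, h1, H⟩ := pvkq_pat_geo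
  refine ⟨q, h0, h1, fun M K N θ hθ => ?_⟩
  obtain ⟨U, hU, H'⟩ := H M K N θ hθ
  exact ⟨U, hU, fun ε hε δ hδ F hN hF => (pvkq_bad_geo ε hF.meas _).trans (H' ε hε δ hδ F hN hF)⟩

/-- **FIXED PATTERN, `ε ↓ 0`**: labelled geometries, and the upper probability of the wall -/
theorem pvkq_pat_lim : ∃ q : ℝ, 0 < q ∧ q ≤ 1 ∧ ∀ (M K : ℕ) (δ : ℝ) (F : List (Bool × List (Set ℂ × ℂ × ℂ))), PvkqFit δ M K F →
    Tendsto (fun ε : ℝ => pvGeo ε {g | pvQc (pvkqPat δ F) g < ENNReal.ofReal ((q ^ (15 * (K * (2 * M + 1) ^ 2)) / 2) ^ F.length)}) (𝓝[>] (0 : ℝ)) (𝓝 0) ∧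
    Tendsto (fun ε : ℝ => (PvUp.iter (pvGeo ε) pvCol).P {p | pvkqP (pvkqPat δ F) (cfSites (pvConf (pvMerge p))) < ENNReal.ofReal ((q ^ (15 * (K * (2 * M + 1) ^ 2)) / 2) ^ F.length)}) (𝓝[>] (0 : ℝ)) (𝓝 0) := by
  obtain ⟨q, h0, h1, H⟩ := pvkq_pat_geo
  refine ⟨q, h0, h1, fun M K δ F hF => ⟨exit_pvlq_lim_of_unif hF.pos fun θ hθ => ?_, exit_pvlq_lim_of_unif hF.pos fun θ hθ => ?_⟩⟩
  · obtain ⟨U, hU, H'⟩ := H M K F.length θ hθ
    exact ⟨U, hU, fun ε hε hle => H' ε hε δ hle F le_rfl hF⟩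
  · obtain ⟨U, hU, H'⟩ := H M K F.length θ hθ
    exact ⟨U, hU, fun ε hε hle => (pvkq_bad_up ε hF.meas _).trans (H' ε hε δ hle F le_rfl hF)⟩

/-! ## 10. a mesh clause, or any event of high probability, INSIDE the test -/

/-- the cells at sup-distance `≤ M` of `k0` -/
def pvkqBox (k0 : ℤ × ℤ) (M : ℕ) : List (ℤ × ℤ) := (List.range (2 * M + 1) ×ˢ List.range (2 * M + 1)).map fun p => (k0.1 - M + p.1, k0.2 - M + p.2)

/-- **THE MESH EVENT** of a list of cells (ANY list): `δ/16`-net of sites on all the cells, local finiteness in the window;   colour blind, read in the window `pvlnW δ L` -/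
def pvkqMs (δ : ℝ) (L : List (ℤ × ℤ)) : Set (Conf PvPt) := pvlnLoc (pvlnW δ L) true [] (L.map (pvlnCtr δ)) (δ / 2)

/-- the mesh event of the ball `closedBall z0 (M δ)` -/
noncomputable def pvkqMsB (δ : ℝ) (z0 : ℂ) (M : ℕ) : Set (Conf PvPt) := pvkqMs δ (pvkqBox (pvkqCell δ z0) M)

theorem pvkq_eqns_cite7 : True := by
  have := @pvkqBox.eq_1; have := @pvkqMs.eq_1; have := @pvkqMsB.eq_1
  trivial

theorem pvkq_box_mem {k0 k : ℤ × ℤ} {M : ℕ} (h1 : |k.1 - k0.1| ≤ M) (h2 : |k.2 - k0.2| ≤ M) : k ∈ pvkqBox k0 M := by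
  rw [abs_le] at h1 h2
  refine List.mem_map.2 ⟨((k.1 - k0.1 + M).toNat, (k.2 - k0.2 + M).toNat), ?_, ?_⟩
  · rw [List.mem_product, List.mem_range, List.mem_range]
    omega
  · ext
    · show k0.1 - M + ((k.1 - k0.1 + M).toNat : ℤ) = k.1
      rw [Int.toNat_of_nonneg (by omega)]; ring
    · show k0.2 - M + ((k.2 - k0.2 + M).toNat : ℤ) = k.2
      rw [Int.toNat_of_nonneg (by omega)]; ring

theorem pvkq_box_near {k0 k : ℤ × ℤ} {M : ℕ} (h : k ∈ pvkqBox k0 M) : |k.1 - k0.1| ≤ M ∧ |k.2 - k0.2| ≤ M := by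
  obtain ⟨p, hp, rfl⟩ := List.mem_map.1 h
  rw [List.mem_product, List.mem_range, List.mem_range] at hp
  constructor <;> rw [abs_le] <;> constructor <;> simp <;> omega

theorem pvkq_box_length (k0 : ℤ × ℤ) (M : ℕ) : (pvkqBox k0 M).length = (2 * M + 1) ^ 2 := by
  unfold pvkqBox
  rw [List.length_map, List.length_product, List.length_range, sq]

theorem pvkq_ms_fit {δ : ℝ} (hδ : 0 < δ) (L : List (ℤ × ℤ)) : PvlnFit (pvlnW δ L) [] (L.map (pvlnCtr δ)) (δ / 2) where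
  pos := by positivity
  meas := pvln_W_meas δ L
  nice := by simp
  cover := by simp
  sub := by
    intro w hw
    obtain ⟨k, hk, rfl⟩ := List.mem_map.1 hw
    exact fun z hz => mem_biUnion (show k ∈ {k | k ∈ L} from hk) hz

theorem pvkq_ms_meas {δ : ℝ} (hδ : 0 < δ) (L : List (ℤ × ℤ)) : MeasurableSet (pvkqMs δ L) := pvln_loc_meas (pvkq_ms_fit hδ L) true

theorem pvkq_ms_reads (δ : ℝ) (L : List (ℤ × ℤ)) : Conf.ReadsSet (pvlnW δ L ×ˢ univ) (pvkqMs δ L) := pvln_loc_reads _ _ _ _ _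

/-- the net -/
theorem pvkq_ms_net {δ : ℝ} (hδ : 0 < δ) {L : List (ℤ × ℤ)} {η : Conf PvPt} (h : η ∈ pvkqMs δ L) {z : ℂ} (hz : z ∈ pvlnU δ L) : ∃ s ∈ cfSites η, ‖s - z‖ < δ / 16 := by
  have hG := (pvln_loc_robust (pvkq_ms_fit hδ L) h rfl).2
  obtain ⟨k, hk, hzk⟩ := mem_iUnion₂.1 hz
  rw [pvln_C_eq_sq] at hzk
  obtain ⟨p, hp, -, hpz⟩ := pvm_good_net (by positivity) (hG (pvlnCtr δ k) (List.mem_map_of_mem hk)) z hzk
  exact ⟨p.1, ⟨p, hp, rfl⟩, by linarith⟩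

theorem pvkq_ms_prob (ε : ℝ) {δ : ℝ} (hδ : 0 < δ) (L : List (ℤ × ℤ)) :
    pvP ε (pvkqMs δ L)ᶜ ≤ ENNReal.ofReal (L.length * (37 ^ 2 * Real.exp (-((δ / 2 / 8) ^ 2 / (8 * ε ^ 2))))) := by
  have hsub : (pvkqMs δ L)ᶜ ⊆ {η | PvLF η}ᶜ ∪ (pvlnG (L.map (pvlnCtr δ)) (δ / 2))ᶜ := by
    intro η hη
    by_cases h : PvLF η
    · refine Or.inr fun h2 => hη (pvln_sub_loc (pvkq_ms_fit hδ L) ⟨⟨?_, h⟩, h2⟩)
      intro e he; simp at he
    · exact Or.inl h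
  have hLF : pvP ε {η | PvLF η}ᶜ = 0 := pvcn_LF_ae ε
  calc pvP ε (pvkqMs δ L)ᶜ ≤ pvP ε {η | PvLF η}ᶜ + pvP ε (pvlnG (L.map (pvlnCtr δ)) (δ / 2))ᶜ := (measure_mono hsub).trans (measure_union_le _ _)
    _ ≤ _ := by
      rw [hLF, zero_add]
      have := pvln_G_prob ε (L.map (pvlnCtr δ)) (u := δ / 2) (by positivity)
      rwa [List.length_map] at this

theorem pvkq_ms_lim {δ : ℝ} (hδ : 0 < δ) (L : List (ℤ × ℤ)) : Tendsto (fun ε : ℝ => pvP ε (pvkqMs δ L)ᶜ) (𝓝[>] (0 : ℝ)) (𝓝 0) := by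
  refine exit_pvlq_lim_of_unif (δ := δ / 2) (by positivity) fun θ hθ => ?_
  obtain ⟨U, hU, H⟩ := pvln_err L.length hθ
  exact ⟨U, hU, fun ε hε hle => (pvkq_ms_prob ε hδ L).trans (ENNReal.ofReal_le_ofReal (H ε hε (δ / 2) hle L.length le_rfl))⟩

/-- the ball is covered by the cells of the box -/
theorem pvkq_ball_sub_box {δ : ℝ} (hδ : 0 < δ) (z0 : ℂ) (M : ℕ) : Metric.closedBall z0 (M * δ) ⊆ pvlnU δ (pvkqBox (pvkqCell δ z0) M) := by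
  intro z hz
  rw [Metric.mem_closedBall, Complex.dist_eq] at hz
  obtain ⟨h1, h2⟩ := pvkq_cell_dist hδ (z := z) (w := z0) (M := (M : ℤ)) (by exact_mod_cast hz)
  exact mem_biUnion (show pvkqCell δ z ∈ {k | k ∈ pvkqBox (pvkqCell δ z0) M} from pvkq_box_mem (by exact_mod_cast h1) (by exact_mod_cast h2)) (pvkq_mem_cell hδ z)

/-- **the mesh on a ball** -/
theorem pvkq_msB_dense {δ : ℝ} (hδ : 0 < δ) {z0 : ℂ} {M : ℕ} {η : Conf PvPt} (h : η ∈ pvkqMsB δ z0 M) : VorDense (cfSites η) (Metric.closedBall z0 (M * δ)) (δ / 16) := by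
  intro z hz
  obtain ⟨s, hs, hsz⟩ := pvkq_ms_net hδ h (pvkq_ball_sub_box hδ z0 M hz)
  exact ⟨s, hs, by rw [norm_sub_rev]; exact hsz.le⟩

/-- the same at `cfOf Y κ` -/
theorem pvkq_msB_dense_of {δ : ℝ} (hδ : 0 < δ) {z0 : ℂ} {M : ℕ} {Y : Set ℂ} {κ : ℂ → Bool} (h : cfOf Y κ ∈ pvkqMsB δ z0 M) : VorDense Y (Metric.closedBall z0 (M * δ)) (δ / 16) := by
  have := pvkq_msB_dense hδ h
  rwa [cfOf_sites] at this

/-- the window of the mesh event of a ball -/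
theorem pvkq_box_W {δ : ℝ} (hδ : 0 < δ) (z0 : ℂ) (M : ℕ) : pvlnW δ (pvkqBox (pvkqCell δ z0) M) ⊆ Metric.closedBall z0 (2 * (M + 2) * δ) := by
  intro z hz
  obtain ⟨k, hk, z1, z2⟩ := mem_iUnion₂.1 hz
  obtain ⟨h1, h2⟩ := pvkq_box_near hk
  obtain ⟨w1, w2, w3, w4⟩ := pvkq_mem_cell hδ z0
  have c1 : (pvlnCtr δ k).re = ((k.1 : ℝ) + 1 / 2) * δ := rfl
  have c2 : (pvlnCtr δ k).im = ((k.2 : ℝ) + 1 / 2) * δ := rfl
  rw [c1] at z1
  rw [c2] at z2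
  have key : ∀ (a b : ℤ) (s t : ℝ), |a - b| ≤ (M : ℤ) → (b : ℝ) * δ ≤ t → t ≤ ((b : ℝ) + 1) * δ → |s - ((a : ℝ) + 1 / 2) * δ| ≤ δ / 2 + 2 * (δ / 2 / 8) → |s - t| ≤ (M + 2) * δ := by
    intro a b s t hab h3 h4 h5
    obtain ⟨h6, h7⟩ := abs_le.1 hab
    have h6' : (-(M : ℝ)) ≤ (a : ℝ) - b := by exact_mod_cast h6
    have h7' : (a : ℝ) - b ≤ M := by exact_mod_cast h7
    obtain ⟨h8, h9⟩ := abs_le.1 h5
    rw [abs_le]
    constructor <;> nlinarith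
  have e1 := key _ _ _ _ h1 w1 w2 z1
  have e2 := key _ _ _ _ h2 w3 w4 z2
  rw [Metric.mem_closedBall, Complex.dist_eq]
  have := Complex.norm_le_abs_re_add_abs_im (z - z0)
  have r1 : (z - z0).re = z.re - z0.re := rfl
  have r2 : (z - z0).im = z.im - z0.im := rfl
  rw [r1, r2] at this
  linarith

/-- **ANY EVENT OF HIGH PROBABILITY MAY BE PUT INSIDE THE TEST** (Markov; no independence, no monotonicity) -/
theorem pvkq_with (ε : ℝ) (𝒜 : Set (Conf PvPt)) {ℳ : Set (Conf PvPt)} (hM : MeasurableSet ℳ) (t : ℝ≥0∞) {s : ℝ≥0∞} (hs : s ≠ 0) (hs' : s ≠ ∞) :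
    pvGeo ε {g | pvQc (𝒜 ∩ ℳ) g < t - s} ≤ pvGeo ε {g | pvQc 𝒜 g < t} + pvP ε ℳᶜ / s := by
  have hsub : {g | pvQc (𝒜 ∩ ℳ) g < t - s} ⊆ {g | pvQc 𝒜 g < t} ∪ {g | s ≤ pvQc ℳᶜ g} := by
    intro g hg
    by_contra hcon
    simp only [mem_union, mem_ofPred_eq, not_or, not_lt, not_le] at hcon
    obtain ⟨h1, h2⟩ := hcon
    have h3 : pvQc 𝒜 g ≤ pvQc (𝒜 ∩ ℳ) g + pvQc ℳᶜ g := by
      refine (pvqu_Qc_mono ?_ g).trans (pvqu_Qc_union_le _ _ g)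
      intro η hη
      by_cases h : η ∈ ℳ
      · exact Or.inl ⟨hη, h⟩
      · exact Or.inr h
    have h4 : t - s ≤ pvQc (𝒜 ∩ ℳ) g := tsub_le_iff_right.2 (h1.trans (h3.trans (add_le_add le_rfl h2.le)))
    exact absurd h4 (not_le.2 hg)
  have hmk := meas_ge_le_lintegral_div (μ := pvGeo ε) (pvqu_Qc_meas hM.compl).aemeasurable hs hs'
  rw [pvqu_Qc_lintegral ε hM.compl] at hmk
  exact (measure_mono hsub).trans ((measure_union_le _ _).trans (add_le_add le_rfl hmk))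

/-- limit form -/
theorem pvkq_with_lim {𝒜 ℳ : Set (Conf PvPt)} (hM : MeasurableSet ℳ) {t : ℝ≥0∞} (ht : t ≠ 0) (ht' : t ≠ ∞)
    (hA : Tendsto (fun ε : ℝ => pvGeo ε {g | pvQc 𝒜 g < t}) (𝓝[>] (0 : ℝ)) (𝓝 0)) (hP : Tendsto (fun ε : ℝ => pvP ε ℳᶜ) (𝓝[>] (0 : ℝ)) (𝓝 0)) :
    Tendsto (fun ε : ℝ => pvGeo ε {g | pvQc (𝒜 ∩ ℳ) g < t / 2}) (𝓝[>] (0 : ℝ)) (𝓝 0) := by
  have h2 : t / 2 ≠ 0 := (ENNReal.half_pos ht).ne'
  have h2' : t / 2 ≠ ∞ := (ENNReal.half_lt_self ht ht').ne_top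
  have hlim : Tendsto (fun ε : ℝ => pvGeo ε {g | pvQc 𝒜 g < t} + pvP ε ℳᶜ / (t / 2)) (𝓝[>] (0 : ℝ)) (𝓝 0) := by
    have h3 : Tendsto (fun ε : ℝ => pvP ε ℳᶜ / (t / 2)) (𝓝[>] (0 : ℝ)) (𝓝 (0 / (t / 2))) := ENNReal.Tendsto.div_const hP (Or.inr h2)
    rw [ENNReal.zero_div] at h3
    simpa using hA.add h3
  refine tendsto_of_tendsto_of_tendsto_of_le_of_le tendsto_const_nhds hlim (fun _ => zero_le) fun ε => ?_
  have := pvkq_with ε 𝒜 hM t h2 h2'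
  rwa [ENNReal.sub_half ht'] at this

/-- the test `pattern ∩ mesh` is measurable, read in the union of the two windows, which is bounded -/
theorem PvkqFit.test {δ : ℝ} {M K : ℕ} {F : List (Bool × List (Set ℂ × ℂ × ℂ))} (h : PvkqFit δ M K F) {μ : ℝ} (hμ : 0 < μ) (Lm : List (ℤ × ℤ)) :
    MeasurableSet (pvkqPat δ F ∩ pvkqMs μ Lm) ∧ Conf.ReadsSet ((pvkqPatR F ∪ pvlnW μ Lm) ×ˢ univ) (pvkqPat δ F ∩ pvkqMs μ Lm) ∧ Bornology.IsBounded (pvkqPatR F ∪ pvlnW μ Lm) :=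
  ⟨h.meas.inter (pvkq_ms_meas hμ Lm), (h.reads.mono (prod_mono subset_union_left le_rfl)).inter ((pvkq_ms_reads μ Lm).mono (prod_mono subset_union_right le_rfl)),
    h.bdd.union (pvlq_W_bdd μ Lm)⟩

/-- **A FIXED PATTERN WITH A MESH CLAUSE**, `ε ↓ 0`: `Lm` ANY list of cells of ANY mesh `μ` -/
theorem pvkq_patM_lim : ∃ q : ℝ, 0 < q ∧ q ≤ 1 ∧ ∀ (M K : ℕ) (δ : ℝ) (F : List (Bool × List (Set ℂ × ℂ × ℂ))), PvkqFit δ M K F → ∀ (μ : ℝ) (Lm : List (ℤ × ℤ)), 0 < μ →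
    Tendsto (fun ε : ℝ => pvGeo ε {g | pvQc (pvkqPat δ F ∩ pvkqMs μ Lm) g < ENNReal.ofReal ((q ^ (15 * (K * (2 * M + 1) ^ 2)) / 2) ^ F.length) / 2}) (𝓝[>] (0 : ℝ)) (𝓝 0) := by
  obtain ⟨q, h0, h1, H⟩ := pvkq_pat_lim
  refine ⟨q, h0, h1, fun M K δ F hF μ Lm hμ => ?_⟩
  exact pvkq_with_lim (pvkq_ms_meas hμ Lm) (ENNReal.ofReal_pos.2 (by positivity)).ne' ENNReal.ofReal_ne_top (H M K δ F hF).1 (pvkq_ms_lim hμ Lm)

end Claimed.Agent.R289
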