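import Claimed.Agent.R289.Tr.ForceP
import Claimed.Agent.R289.Tr.ForceN
import Claimed.Agent.R289.Tr.Plug
import Claimed.Agent.R289.Tr.LinkQ

/-!
# Row 289 (S0537), THE WALL, ROAD P, P16 = Tr/ForceI : THE CONNECTOR BETWEEN TWO ENDS (event, forcing POINTWISE, deterministic LINK)      (pen helper272; prefix `pvnk_`, defs `pvnk*`, `Pvnk*`)

On `Tr/ForceP.lean` (abstract P16: `pvfp_forced_ev`, hook / zone / glue kit), `Tr/ForceN.lean` (68), `Tr/Plug.lean` sec. 1 (34: `pvpgFix`, FORCED BY CONSTRUCTION), `Tr/LinkQ.lean` sec. 3 (21: `pvkq_join_of_path`).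
Consumers: the connectors next to a big plug in `PvypDat` of 58 (`Tr/SysP.lean`: exit funnel `Ao`, entrance funnel `Ai`, thick link `Ae`, return link `Ab`, funnel `Ar` of the reference plug): fields `frc` of `PvypCyc`, `PvypThk`, `PvypPat` (`PvsyCycForced`);   CLOSE-P (`Tr/ConnP`).

* §1 REGULAR STATES.   `pvnkRg ε O` = the states `σ` such that a.e. splice `spl O (σ, η)` is nice (`CfOK`).   It reads `O`, it has full measure (`pvnk_rg_reads`, `pvnk_rg_full`), `pvnk_rg_geo` (quenched form).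
     WHY: the side events of `Tr/StateP` are known only through the dictionary at nice configurations; a degenerate state (4 cocircular sites) has no nice splice.
* §2 ENDS.   `PvnkEnd` = a plug seen from one of its two sides: state region `O`, window `E`, side event `L`, colour `c`, the two sets `A₁ A₂` in which the side paths run, where they start (`X₁ X₂`, sites `S₁ η`, `S₂ η`) and end (doors `Y₁ Y₂`).
     `PvnkEnd.Ok` (measurable, read in the window, PATHS: on `L`, at a nice configuration, the two side paths exist in the continuum form),   `PvnkEnd.Up ε K₁ K₂ σ` (quenched up-ness of the section at the frozen state).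
     Producers: big plugs = `pvspLp`, `pvspLm` of 185 through `Tr/ForceS.lean` of 68;   small plugs = the half lanes of the cell kit (34 52 294).
* §3 LINKS.   `PvnkLink` = two ends + two FULL walks of fine cells + the zones of the mixed order;   `Λ.Geo` = the explicit geometric conditions;   `Λ.conn : PvfpConn` (`E := univ`, `A := L⁺ ∩ L⁻ ∩ Net`),   **`pvnk_ok`** : `Λ.Geo → Λ.conn.Ok`.
* §4 THE EVENT OF RECORD   **`Λ.A ε q G G'`** `:= pvpgFix (pvP ε) OO (G ∩ G') (L⁺ ∩ L⁻ ∩ Net) q`.   `pvnk_A_meas`, `pvnk_A_reads`, **`pvnk_A_forced`** (POINTWISE on `G ∩ G'`, by construction), **`pvnk_A_ae`** (a.e. `A = L⁺ ∩ L⁻ ∩ Net`: this is P16, from `pvfp_forced_ev`).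
* §5 **`pvnk_link`** (DETERMINISTIC LINK, continuum form), **`pvnk_link_join`** (`Join` of the Delaunay map through sites of one colour) = the inputs BLACK LANE / WHITE LANE of `pvld_exist` (70) and LINK (6) of 260.
-/

set_option autoImplicit false
set_option linter.unusedSectionVars false
set_option linter.unusedVariables false

namespace Claimed.Agent.R289

open MeasureTheory ProbabilityTheory Set Filter Topology Metric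
open scoped ENNReal NNReal

/-! ## 1. regular states -/

/-- **REGULAR STATES**: almost every splice is nice -/
def pvnkRg (ε : ℝ) (O : Set ℂ) : Set (Conf PvPt) := {σ | ∀ᵐ η ∂(pvP ε), CfOK (Conf.spl (O ×ˢ univ) (σ, η))}

theorem pvnk_eqns_cite : True := by
  have := @pvnkRg.eq_1
  trivial

theorem pvnk_rg_reads (ε : ℝ) (O : Set ℂ) : Conf.ReadsSet (O ×ˢ univ) (pvnkRg ε O) := by
  intro σ
  show (∀ᵐ η ∂(pvP ε), CfOK (Conf.spl (O ×ˢ univ) (Conf.restr (O ×ˢ univ) σ, η))) ↔ ∀ᵐ η ∂(pvP ε), CfOK (Conf.spl (O ×ˢ univ) (σ, η))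
  simp only [Conf.spl_restr]

/-- almost every state is regular -/
theorem pvnk_rg_full {ε : ℝ} (hε : 0 < ε) {O : Set ℂ} (hO : MeasurableSet O) : ∀ᵐ σ ∂(pvP ε), σ ∈ pvnkRg ε O := by
  exact (pv_isPpp ε).ae_ae_splice (hO.prod MeasurableSet.univ) (dls_ae_conf hε)

/-- the points of a splice along a region of the plane -/
theorem pvnk_mem_spl {O : Set ℂ} {σ η : Conf PvPt} {p : PvPt} :
    p ∈ (Conf.spl (O ×ˢ univ) (σ, η)).pts ↔ (p ∈ σ.pts ∧ p.1 ∈ O) ∨ (p ∈ η.pts ∧ p.1 ∉ O) := by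
  show (p ∈ σ.pts ∧ p ∈ O ×ˢ (univ : Set Bool)) ∨ (p ∈ η.pts ∧ p ∈ (O ×ˢ (univ : Set Bool))ᶜ) ↔ _
  simp only [mem_prod, mem_univ, and_true, mem_compl_iff]

/-- niceness of a splice does not see the colours of the outer configuration, if it is a coloured site set -/
theorem pvnk_spl_ok {O : Set ℂ} {σ : Conf PvPt} {Y : Set ℂ} {κ κ' : ℂ → Bool} (h : CfOK (Conf.spl (O ×ˢ univ) (σ, cfOf Y κ))) : CfOK (Conf.spl (O ×ˢ univ) (σ, cfOf Y κ')) := by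
  have hs : cfSites (Conf.spl (O ×ˢ univ) (σ, cfOf Y κ')) = cfSites (Conf.spl (O ×ˢ univ) (σ, cfOf Y κ)) := by
    ext z
    simp only [cfSites, mem_image, pvnk_mem_spl]
    constructor
    · rintro ⟨p, (hp | hp), rfl⟩
      · exact ⟨p, Or.inl hp, rfl⟩
      · exact ⟨(p.1, κ p.1), Or.inr ⟨⟨hp.1.1, rfl⟩, hp.2⟩, rfl⟩
    · rintro ⟨p, (hp | hp), rfl⟩
      · exact ⟨p, Or.inl hp, rfl⟩
      · exact ⟨(p.1, κ' p.1), Or.inr ⟨⟨hp.1.1, rfl⟩, hp.2⟩, rfl⟩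
  refine ⟨by rw [hs]; exact h.del, fun p hp q hq e => ?_⟩
  rcases pvnk_mem_spl.1 hp with hp | hp <;> rcases pvnk_mem_spl.1 hq with hq | hq
  · exact h.col p (pvnk_mem_spl.2 (Or.inl hp)) q (pvnk_mem_spl.2 (Or.inl hq)) e
  · exact absurd (e ▸ hp.2) hq.2
  · exact absurd (e ▸ hq.2) hp.2
  · refine Prod.ext e ?_
    rw [hp.1.2, hq.1.2, e]

/-- quenched form: at almost every geometry ALL the colourings give a nice splice -/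
theorem pvnk_rg_geo {ε : ℝ} {O : Set ℂ} {σ : Conf PvPt} (h : σ ∈ pvnkRg ε O) :
    ∀ᵐ g ∂(pvGeo ε), ∀ c : PvColT, CfOK (Conf.spl (O ×ˢ univ) (σ, pvConf (pvMerge (g, c)))) := by
  have h1 : ∀ᵐ ω ∂(Claims.C0465.pvLaw ε), CfOK (Conf.spl (O ×ˢ univ) (σ, pvConf ω)) := ae_of_ae_map measurable_pvConf.aemeasurable h
  filter_upwards [pvqu_ae ε h1, pvqu_ok_ae ε] with g hg hok c
  obtain ⟨c₀, hc₀⟩ := hg.exists
  rw [hok.conf_eq] at hc₀ ⊢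
  exact pvnk_spl_ok hc₀

/-! ## 2. ends -/

/-- **an END of a connector**: a plug seen from one of its two sides -/
structure PvnkEnd where
  /-- state region -/
  O : Set ℂ
  /-- window of the side event -/
  E : Set ℂ
  /-- the side event -/
  L : Set (Conf PvPt)
  /-- colour of the rim -/
  c : Bool
  /-- the sets in which the side path of the colour `c`, resp. `!c`, runs (tube, lane; thickened by the mesh) -/
  A₁ : Set ℂ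
  A₂ : Set ℂ
  /-- deterministic sets which contain the starting points -/
  X₁ : Set ℂ
  X₂ : Set ℂ
  /-- the doors -/
  Y₁ : Set ℂ
  Y₂ : Set ℂ
  /-- the admissible starting SITES (`{v₂^±}`;  the right arc of the gate `S₂`) -/
  S₁ : Conf PvPt → Set ℂ
  S₂ : Conf PvPt → Set ℂ

/-- what the producer of an end owes -/
structure PvnkEnd.Ok (e : PvnkEnd) : Prop where
  mO : MeasurableSet e.O
  mE : MeasurableSet e.E
  mL : MeasurableSet e.L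
  rL : Conf.ReadsSet (e.E ×ˢ univ) e.L
  /-- the side path of the colour of the rim -/
  path₁ : ∀ η ∈ e.L, CfOK η → ∃ x ∈ e.S₁ η, ∃ y ∈ e.Y₁, x ∈ e.X₁ ∧ JoinedIn (pvlnReg e.c η ∩ e.A₁) x y
  /-- the side path of the other colour -/
  path₂ : ∀ η ∈ e.L, CfOK η → ∃ x ∈ e.S₂ η, ∃ y ∈ e.Y₂, x ∈ e.X₂ ∧ JoinedIn (pvlnReg (!e.c) η ∩ e.A₂) x y

/-- the section of the side event at the frozen state `σ` is up, at almost every geometry, in the mixed order (`c` up on `K₁`, `!c` up on `K₂`) -/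
def PvnkEnd.Up (e : PvnkEnd) (ε : ℝ) (K₁ K₂ : Set ℂ) (σ : Conf PvPt) : Prop :=
  ∀ᵐ g ∂(pvGeo ε), PvhkUpAt g (pvfpSg g e.c K₁ K₂) (pvhkSec (e.O ×ˢ univ) σ e.L)

/-! ## 3. links -/

/-- **a LINK** `u → u'` : the exit end of `u`, the entrance end of `u'`, two walks of fine cells -/
structure PvnkLink where
  e : PvnkEnd
  e' : PvnkEnd
  δ : ℝ
  L₁ : List (ℤ × ℤ)
  L₂ : List (ℤ × ℤ)
  K₁ : Set ℂ
  K₂ : Set ℂ

namespace PvnkLink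

variable (Λ : PvnkLink)

/-- the network -/
def Net : Set (Conf PvPt) := pvlnLaneEv Λ.δ Λ.e.c Λ.L₁ ∩ pvlnLaneEv Λ.δ (!Λ.e.c) Λ.L₂

/-- the bare success event -/
def A₀ : Set (Conf PvPt) := Λ.e.L ∩ Λ.e'.L ∩ Λ.Net

/-- the two state regions -/
def OO : Set PvPt := Λ.e.O ×ˢ univ ∪ Λ.e'.O ×ˢ univ

/-- everything that the connector reads -/
def Rd : Set PvPt := (Λ.e.E ∪ Λ.e'.E ∪ pvlnW Λ.δ Λ.L₁ ∪ pvlnW Λ.δ Λ.L₂ ∪ Λ.e.O ∪ Λ.e'.O) ×ˢ univ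

/-- the abstract connector of `Tr/ForceP` -/
def conn : PvfpConn where
  O := Λ.e.O ×ˢ univ
  O' := Λ.e'.O ×ˢ univ
  T := Λ.e.E ×ˢ univ
  T' := Λ.e'.E ×ˢ univ
  Lp := Λ.e.L
  Lm := Λ.e'.L
  E := univ
  A := Λ.A₀
  c := Λ.e.c
  K₁ := Λ.K₁
  K₂ := Λ.K₂
  δ := Λ.δ
  L₁ := Λ.L₁
  L₂ := Λ.L₂

/-- **the explicit geometric conditions on a link** -/
structure Geo : Prop where
  col : Λ.e'.c = Λ.e.c
  /-- the two plugs with their windows are apart -/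
  dj : Disjoint (Λ.e.O ∪ Λ.e.E) (Λ.e'.O ∪ Λ.e'.E)
  δ_pos : 0 < Λ.δ
  ne₁ : Λ.L₁ ≠ []
  ne₂ : Λ.L₂ ≠ []
  ch₁ : Λ.L₁.IsChain PvlnAdj
  ch₂ : Λ.L₂.IsChain PvlnAdj
  full₁ : PvfpFull Λ.L₁
  full₂ : PvfpFull Λ.L₂
  djK : Disjoint Λ.K₁ Λ.K₂
  w₁ : pvlnW Λ.δ Λ.L₁ ⊆ Λ.K₁
  w₂ : pvlnW Λ.δ Λ.L₂ ⊆ Λ.K₂
  /-- the walks keep off the two state regions -/
  off₁ : Disjoint (pvlnW Λ.δ Λ.L₁) (Λ.e.O ∪ Λ.e'.O)
  off₂ : Disjoint (pvlnW Λ.δ Λ.L₂) (Λ.e.O ∪ Λ.e'.O)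
  /-- the four hook zones -/
  z₁ : PvfpZone Λ.δ {k | k ∈ Λ.L₁} Λ.e.A₁ Λ.e.X₁ Λ.e.Y₁
  z₁' : PvfpZone Λ.δ {k | k ∈ Λ.L₁} Λ.e'.A₁ Λ.e'.X₁ Λ.e'.Y₁
  z₂ : PvfpZone Λ.δ {k | k ∈ Λ.L₂} Λ.e.A₂ Λ.e.X₂ Λ.e.Y₂
  z₂' : PvfpZone Λ.δ {k | k ∈ Λ.L₂} Λ.e'.A₂ Λ.e'.X₂ Λ.e'.Y₂

/-- **THE EVENT OF RECORD OF THE CONNECTOR**: the bare event, FORCED BY CONSTRUCTION (34) over the pairs of usable states -/
def A (ε : ℝ) (q : ℝ≥0∞) (G G' : Set (Conf PvPt)) : Set (Conf PvPt) := pvpgFix (pvP ε) Λ.OO (G ∩ G') Λ.A₀ q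

end PvnkLink

theorem pvnk_eqns_cite2 : True := by
  have := @PvnkEnd.Up.eq_1; have := @PvnkLink.Net.eq_1; have := @PvnkLink.A₀.eq_1; have := @PvnkLink.OO.eq_1; have := @PvnkLink.Rd.eq_1; have := @PvnkLink.conn.eq_1
  have := @PvnkLink.A.eq_1
  trivial

section link

variable {Λ : PvnkLink}

theorem pvnk_net_meas (hG : Λ.Geo) : MeasurableSet Λ.Net := by
  exact (pvfn_lane_meas hG.δ_pos _ hG.ch₁).inter (pvfn_lane_meas hG.δ_pos _ hG.ch₂)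

theorem pvnk_A₀_meas (he : Λ.e.Ok) (he' : Λ.e'.Ok) (hG : Λ.Geo) : MeasurableSet Λ.A₀ :=
  (he.mL.inter he'.mL).inter (pvnk_net_meas hG)

theorem pvnk_A₀_reads (he : Λ.e.Ok) (he' : Λ.e'.Ok) : Conf.ReadsSet Λ.Rd Λ.A₀ := by
  have m : ∀ {W : Set ℂ}, W ⊆ Λ.e.E ∪ Λ.e'.E ∪ pvlnW Λ.δ Λ.L₁ ∪ pvlnW Λ.δ Λ.L₂ ∪ Λ.e.O ∪ Λ.e'.O → W ×ˢ (univ : Set Bool) ⊆ Λ.Rd := fun h =>
    prod_mono h Subset.rfl
  refine ((he.rL.mono (m ?_)).inter (he'.rL.mono (m ?_))).inter (((pvlq_lane_reads _ _ _).mono (m ?_)).inter ((pvlq_lane_reads _ _ _).mono (m ?_)))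
  · exact fun x hx => Or.inl (Or.inl (Or.inl (Or.inl (Or.inl hx))))
  · exact fun x hx => Or.inl (Or.inl (Or.inl (Or.inl (Or.inr hx))))
  · exact fun x hx => Or.inl (Or.inl (Or.inl (Or.inr hx)))
  · exact fun x hx => Or.inl (Or.inl (Or.inr hx))

theorem pvnk_prod_disj {A B : Set ℂ} (h : Disjoint A B) : Disjoint (A ×ˢ (univ : Set Bool)) (B ×ˢ (univ : Set Bool)) :=
  Set.disjoint_left.2 fun _ hp hp' => Set.disjoint_left.1 h hp.1 hp'.1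

/-- **the abstract connector is well formed** -/
theorem pvnk_ok (he : Λ.e.Ok) (he' : Λ.e'.Ok) (hG : Λ.Geo) : Λ.conn.Ok where
  mO := he.mO.prod MeasurableSet.univ
  mO' := he'.mO.prod MeasurableSet.univ
  mT := he.mE.prod MeasurableSet.univ
  mT' := he'.mE.prod MeasurableSet.univ
  dj := by
    show Disjoint (Λ.e.O ×ˢ univ ∪ Λ.e.E ×ˢ univ) (Λ.e'.O ×ˢ univ ∪ Λ.e'.E ×ˢ univ)
    rw [← Set.union_prod, ← Set.union_prod]
    exact pvnk_prod_disj hG.dj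
  mLp := he.mL
  mLm := he'.mL
  mE := MeasurableSet.univ
  rLp := he.rL.mono subset_union_right
  rLm := he'.rL.mono subset_union_right
  δ_pos := hG.δ_pos
  ne₁ := hG.ne₁
  ne₂ := hG.ne₂
  ch₁ := hG.ch₁
  ch₂ := hG.ch₂
  djK := hG.djK
  w₁ := hG.w₁
  w₂ := hG.w₂
  off₁ := by
    show Disjoint (pvlnW Λ.δ Λ.L₁ ×ˢ univ) (Λ.e.O ×ˢ univ ∪ Λ.e'.O ×ˢ univ)
    rw [← Set.union_prod]
    exact pvnk_prod_disj hG.off₁
  off₂ := by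
    show Disjoint (pvlnW Λ.δ Λ.L₂ ×ˢ univ) (Λ.e.O ×ˢ univ ∪ Λ.e'.O ×ˢ univ)
    rw [← Set.union_prod]
    exact pvnk_prod_disj hG.off₂
  geo := fun σ g c c' _ => mem_univ _
  glue := fun η hη => hη.1

/-- up-ness of the two ends gives the up-ness of the connector -/
theorem pvnk_up (he : Λ.e.Ok) (he' : Λ.e'.Ok) (hG : Λ.Geo) {ε : ℝ} {σ : Conf PvPt} (hu : Λ.e.Up ε Λ.K₁ Λ.K₂ σ) (hu' : Λ.e'.Up ε Λ.K₁ Λ.K₂ σ) : Λ.conn.Up ε σ := by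
  have hOk := pvnk_ok he he' hG
  have s1 : pvhkSec Λ.conn.OO σ Λ.conn.Lp = pvhkSec (Λ.e.O ×ˢ univ) σ Λ.e.L :=
    pvfn_sec_left (hOk.dj.mono_right subset_union_left) σ hOk.rLp
  have s2 : pvhkSec Λ.conn.OO σ Λ.conn.Lm = pvhkSec (Λ.e'.O ×ˢ univ) σ Λ.e'.L :=
    pvfn_sec_right (hOk.dj.mono_left subset_union_left) σ hOk.rLm
  unfold PvnkEnd.Up at hu hu'
  rw [hG.col] at hu'
  unfold PvfpConn.Up
  filter_upwards [hu, hu'] with g h1 h2 _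
  rw [s1, s2]
  exact ⟨h1, h2⟩

/-! ## 4. the event of record -/

theorem pvnk_A_meas (he : Λ.e.Ok) (he' : Λ.e'.Ok) (hG : Λ.Geo) (ε : ℝ) (q : ℝ≥0∞) {G G' : Set (Conf PvPt)} (mG : MeasurableSet G) (mG' : MeasurableSet G') :
    MeasurableSet (Λ.A ε q G G') := by
  exact pvpg_fix_meas ((he.mO.prod MeasurableSet.univ).union (he'.mO.prod MeasurableSet.univ)) (mG.inter mG') (pvnk_A₀_meas he he' hG) q

theorem pvnk_A_reads (he : Λ.e.Ok) (he' : Λ.e'.Ok) (ε : ℝ) (q : ℝ≥0∞) {G G' : Set (Conf PvPt)} (rG : Conf.ReadsSet (Λ.e.O ×ˢ univ) G)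
    (rG' : Conf.ReadsSet (Λ.e'.O ×ˢ univ) G') : Conf.ReadsSet Λ.Rd (Λ.A ε q G G') := by
  have hOW : Λ.OO ⊆ Λ.Rd := by
    rintro p (hp | hp)
    · exact ⟨Or.inl (Or.inr hp.1), mem_univ _⟩
    · exact ⟨Or.inr hp.1, mem_univ _⟩
  have h1 : Conf.ReadsSet Λ.OO (G ∩ G') := (rG.mono subset_union_left).inter (rG'.mono subset_union_right)
  have h2 := pvpg_fix_reads (μ := pvP ε) hOW (fun η => propext (h1 η)) (fun η => propext (pvnk_A₀_reads he he' η)) q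
  exact fun η => iff_of_eq (h2 η)

/-- **FORCED, POINTWISE** (by construction) -/
theorem pvnk_A_forced (ε : ℝ) {q : ℝ≥0∞} (hq : q ≤ 1) {G G' : Set (Conf PvPt)} (rG : Conf.ReadsSet (Λ.e.O ×ˢ univ) G) (rG' : Conf.ReadsSet (Λ.e'.O ×ˢ univ) G')
    {σ : Conf PvPt} (h : σ ∈ G) (h' : σ ∈ G') : q ≤ pvtiP (pvP ε) Λ.OO (Λ.A ε q G G') σ := by
  have h1 : Conf.ReadsSet Λ.OO (G ∩ G') := (rG.mono subset_union_left).inter (rG'.mono subset_union_right)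
  exact pvpg_fix_forced (fun η => propext (h1 η)) hq ⟨h, h'⟩

/-- **P16**: eventually in `ε`, uniformly over all links whose walks have at most `n` cells: the event of record is a.e. the bare event.
`G`, `G'` = usable states: propensities `≥ β`;   up-ness is asked at ALMOST EVERY state only. -/
theorem pvnk_A_ae {q0 : ℝ} (hq0 : 0 < q0) (hq1 : q0 ≤ 1) (hQ : PvlqQbx q0) (n : ℕ) {β : ℝ} (hβ : 0 < β) :
    ∃ U : ℝ, 1 ≤ U ∧ ∀ ε : ℝ, 0 < ε → ∀ Λ : PvnkLink, Λ.e.Ok → Λ.e'.Ok → Λ.Geo → U * ε ≤ Λ.δ → Λ.L₁.length ≤ n → Λ.L₂.length ≤ n → ∀ G G' : Set (Conf PvPt),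
      (∀ σ ∈ G, ENNReal.ofReal β ≤ pvtiP (pvP ε) (Λ.e.O ×ˢ univ) Λ.e.L σ) → (∀ σ ∈ G', ENNReal.ofReal β ≤ pvtiP (pvP ε) (Λ.e'.O ×ˢ univ) Λ.e'.L σ) →
      (∀ᵐ σ ∂(pvP ε), Λ.e.Up ε Λ.K₁ Λ.K₂ σ ∧ Λ.e'.Up ε Λ.K₁ Λ.K₂ σ) →
      ∀ᵐ η ∂(pvP ε), η ∈ Λ.A ε (ENNReal.ofReal ((q0 ^ (15 * n) / 2) ^ 2 * (β ^ 2 / 2))) G G' → η ∈ Λ.A₀ := by
  obtain ⟨U, hU1, hU⟩ := pvfp_forced_ev hq0 hq1 hQ n hβ
  refine ⟨U, hU1, fun ε hε Λ he he' hG hδ n1 n2 G G' hp hm hup => ?_⟩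
  refine pvpg_fix_ae ?_
  filter_upwards [hup] with σ hσ hGG
  refine hU ε hε Λ.conn (pvnk_ok he he' hG) hδ n1 n2 σ (pvnk_up he he' hG hσ.1 hσ.2) (hp σ hGG.1) (hm σ hGG.2) ?_
  have : pvtiP (pvP ε) Λ.conn.OO Λ.conn.Eᶜ σ = 0 := by
    show pvtiP (pvP ε) Λ.conn.OO (univ : Set (Conf PvPt))ᶜ σ = 0
    rw [compl_univ]
    simp [pvtiP]
  rw [this]
  exact zero_le

/-! ## 5. the deterministic link -/

/-- **LINK, continuum form** -/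
theorem pvnk_link (he : Λ.e.Ok) (he' : Λ.e'.Ok) (hG : Λ.Geo) {η : Conf PvPt} (hη : η ∈ Λ.A₀) (hn : CfOK η) :
    (∃ x ∈ Λ.e.S₁ η, ∃ x' ∈ Λ.e'.S₁ η, JoinedIn (pvlnReg Λ.e.c η ∩ (Λ.e.A₁ ∪ pvlnU Λ.δ Λ.L₁ ∪ Λ.e'.A₁)) x x') ∧
    (∃ x ∈ Λ.e.S₂ η, ∃ x' ∈ Λ.e'.S₂ η, JoinedIn (pvlnReg (!Λ.e.c) η ∩ (Λ.e.A₂ ∪ pvlnU Λ.δ Λ.L₂ ∪ Λ.e'.A₂)) x x') := by
  obtain ⟨⟨hL, hL'⟩, hN1, hN2⟩ := hη
  obtain ⟨x, hxS, y, hy, hx, hxy⟩ := he.path₁ η hL hn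
  obtain ⟨x', hxS', y', hy', hx', hxy'⟩ := he'.path₁ η hL' hn
  obtain ⟨u, huS, v, hv, hu, huv⟩ := he.path₂ η hL hn
  obtain ⟨u', huS', v', hv', hu', huv'⟩ := he'.path₂ η hL' hn
  rw [hG.col] at hxy' huv'
  exact ⟨⟨x, hxS, x', hxS', pvfp_lane_glue hG.δ_pos hG.ne₁ hG.ch₁ hG.full₁ hN1 rfl hG.z₁ hG.z₁' hxy hx hy hxy' hx' hy'⟩,
    ⟨u, huS, u', huS', pvfp_lane_glue hG.δ_pos hG.ne₂ hG.ch₂ hG.full₂ hN2 rfl hG.z₂ hG.z₂' huv hu hv huv' hu' hv'⟩⟩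

/-- a nice configuration is the coloured site set -/
theorem pvnk_cfOf {η : Conf PvPt} (hn : CfOK η) : η = cfOf (cfSites η) (cfCol η) := by
  classical
  ext ⟨z, b⟩
  rw [cfOf_mem]
  constructor
  · intro h
    refine ⟨⟨(z, b), h, rfl⟩, ?_⟩
    unfold cfCol
    cases b
    · symm
      refine decide_eq_false fun h' => ?_
      have := hn.col _ h _ h' rfl
      simp at this
    · exact (decide_eq_true h).symm
  · rintro ⟨⟨⟨z', b'⟩, hp, rfl⟩, hb⟩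
    unfold cfCol at hb
    cases b'
    · have : b = false := by
        rw [hb]
        refine decide_eq_false fun h' => ?_
        have := hn.col _ hp _ h' rfl
        simp at this
      rw [this]; exact hp
    · have : b = true := by
        rw [hb]
        exact decide_eq_true hp
      rw [this]; exact hp

/-- a path of the colour `c` between two SITES gives a `Join` between these two sites -/
theorem pvnk_join_sites {η : Conf PvPt} (hn : CfOK η) (c : Bool) {U W : Set ℂ} {ρ : ℝ} (hnet : ∀ z ∈ U, ∃ s ∈ cfSites η, ‖s - z‖ < ρ)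
    (hW : ∀ z ∈ U, ∀ w : ℂ, ‖w - z‖ < ρ → w ∈ W) {x y : ℂ} (hx : x ∈ cfSites η) (hy : y ∈ cfSites η) (hxy : JoinedIn (pvlnReg c η ∩ U) x y) :
    (delMap hn.del).Join univ (pvkqV (cfSites η) (cfCol η) c W) ⟨x, hx⟩ ⟨y, hy⟩ := by
  have hreg : pvlnReg c η = pvlnReg c (cfOf (cfSites η) (cfCol η)) := congrArg _ (pvnk_cfOf hn)
  rw [hreg] at hxy
  obtain ⟨a, b, hxa, hyb, -, -, hj⟩ := pvkq_join_of_path hn.del (cfCol η) c hnet hW hxy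
  have hown : ∀ (s : ℂ) (v : cfSites η), s ∈ cfSites η → s ∈ vorCell (cfSites η) v → (v : ℂ) = s := by
    intro s v hs hsv
    have h0 := hsv s hs
    rw [sub_self, norm_zero] at h0
    exact (sub_eq_zero.1 (norm_le_zero_iff.1 h0)).symm
  have ea : a = ⟨x, hx⟩ := Subtype.ext (hown x a hx hxa)
  have eb : b = ⟨y, hy⟩ := Subtype.ext (hown y b hy hyb)
  rw [ea, eb] at hj
  exact hj

/-- **LINK, `Join` form**: `ρ`-net on the two regions, `W₁ W₂` contain their `ρ`-neighbourhoods, the starting points are sites -/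
theorem pvnk_link_join (he : Λ.e.Ok) (he' : Λ.e'.Ok) (hG : Λ.Geo) {η : Conf PvPt} (hη : η ∈ Λ.A₀) (hn : CfOK η) {ρ : ℝ} {W₁ W₂ : Set ℂ}
    (hs : ∀ x, x ∈ Λ.e.S₁ η ∪ Λ.e.S₂ η ∪ Λ.e'.S₁ η ∪ Λ.e'.S₂ η → x ∈ cfSites η)
    (net₁ : ∀ z ∈ Λ.e.A₁ ∪ pvlnU Λ.δ Λ.L₁ ∪ Λ.e'.A₁, ∃ s ∈ cfSites η, ‖s - z‖ < ρ) (net₂ : ∀ z ∈ Λ.e.A₂ ∪ pvlnU Λ.δ Λ.L₂ ∪ Λ.e'.A₂, ∃ s ∈ cfSites η, ‖s - z‖ < ρ)
    (hW₁ : ∀ z ∈ Λ.e.A₁ ∪ pvlnU Λ.δ Λ.L₁ ∪ Λ.e'.A₁, ∀ w : ℂ, ‖w - z‖ < ρ → w ∈ W₁) (hW₂ : ∀ z ∈ Λ.e.A₂ ∪ pvlnU Λ.δ Λ.L₂ ∪ Λ.e'.A₂, ∀ w : ℂ, ‖w - z‖ < ρ → w ∈ W₂) :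
    (∃ a b : cfSites η, (a : ℂ) ∈ Λ.e.S₁ η ∧ (b : ℂ) ∈ Λ.e'.S₁ η ∧ (delMap hn.del).Join univ (pvkqV (cfSites η) (cfCol η) Λ.e.c W₁) a b) ∧
    (∃ a b : cfSites η, (a : ℂ) ∈ Λ.e.S₂ η ∧ (b : ℂ) ∈ Λ.e'.S₂ η ∧ (delMap hn.del).Join univ (pvkqV (cfSites η) (cfCol η) (!Λ.e.c) W₂) a b) := by
  obtain ⟨⟨x, hx, x', hx', h1⟩, ⟨u, hu, u', hu', h2⟩⟩ := pvnk_link he he' hG hη hn
  exact ⟨⟨⟨x, hs x (Or.inl (Or.inl (Or.inl hx)))⟩, ⟨x', hs x' (Or.inl (Or.inr hx'))⟩, hx, hx', pvnk_join_sites hn _ net₁ hW₁ _ _ h1⟩,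
    ⟨⟨u, hs u (Or.inl (Or.inl (Or.inr hu)))⟩, ⟨u', hs u' (Or.inr hu')⟩, hu, hu', pvnk_join_sites hn _ net₂ hW₂ _ _ h2⟩⟩

end link

end Claimed.Agent.R289
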