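import Claimed.Agent.R289.Tr.PlugK
import Claimed.Agent.R289.S1P.Cov

/-!
# Row 289 (S0537), THE WALL, chapter E (cells), box TR-COV, file Tr/FrameIso : **[COV]** = THE OBJECTS OF THE CELL KIT INSTANCE ARE COVARIANT UNDER THE FRAMES      (owner helper251; prefix `pvco_`, `pvco`, `Pvco`)

CONSUMER: the named sub-exit `PvkdGeo.Cov` of 34 (`Tr/PlugK.lean`): `𝔤.C z d = cfMap (pvthInv z d) ⁻¹' 𝔤.C 0 1`, the same for `𝔤.A z d τ`, and `𝔤.XQ z d τ η = d * 𝔤.XQ 0 1 τ (cfMap (pvthInv z d) η)`, `d ^ 4 = 1`.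
WHY IT IS NOT FREE: the gate / run / mass of the cell number `j` of `EvG` live in the plane map of `cfMap inv_j η`: another vertex TYPE.      METHOD: a GLOBAL isomorphism of dart structures (`PvIso` of 107, `S1P/Cov.lean`) + iff-transports.
* sec.1  ANY `I : PvIso T T'`: `pvcoSymm`;   sets of darts / vertices go to their images: `pvco_faceSet bd bd_set edg djoin VOf BdV edgeIn join`;   `pvcoCyc` (`darts`, `Left`), `pvcoPth`, `pvco_le` (`PvwLE`), `pvco_mass` (`pvwMass` of `qpart`: factor `a`);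
         colours `hs : s' (I.fV v) = s v`: `pvco_bw step it hit exit layB layW fc`, **`pvco_run`** (`PvldRun` of 70), `pvco_col`;   `pvcoGate` (`vm vp aIn aOut Left Thru len bank wbank`);   `pvco_X G min`, **`pvco_hull`** (`pvgnHull` of 150).
* sec.2  **`pvcoIso (ha : a ≠ 0) (hY : Y' = vorSim a b '' Y) : PvIso (delbPl Y).toMap (delbPl Y').toMap`** (cast free).
* sec.3  `PvcoFr η η' a b` (`η'` = image of `η` under `w ↦ a w + b`, `a ^ 4 = 1`): `pvco_fr_map`, `.symm`, `.iso`, `.pos`, `.hs`, `.nice` (`PvatNice`, incl. `VorQuad`: `pvco_quad`), `.dense`;   `pvco_at` (placed regions).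
* sec.4  THE PREDICATES OF 173 (`Tr/PlugLoc`) along ANY `I : PvIso T T'`, marks in correspondence (`PvcoMk I mk mk' K K' := ∀ v, mk' (I.fV v) ∈ K' ↔ mk v ∈ K`, `PvcoPg`): `pvco_Int`, `pvco_in least zthru gt ks zrun`, lists `pvco_bank aft LE`, `pvco_zarc`,
         **`pvco_Ti`, `pvco_Tr`, `pvco_zC`, `pvco_zA`** (iff).
* sec.5  the objects of `Tr/PlugK` v3 under a frame: `pvco_ball cball core qq W`, `PvcoFr.isoK hsK mkK pgK atK mesh gate posK`, **`PvcoFr.pl`** (a field `pvzfPl` of 107: factor `a`), `pvco_N NA gate C foot H link A` (+ `_iff`), **`pvco_XQ`**.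
* sec.6  **`pvco_cov_N C H CH NA A X`**, **`pvco_cov (𝔤 : PvkdGeo) : 𝔤.Cov`**: NO HYPOTHESIS (v3 is choice free: [UNIQ] is not needed here).
-/

set_option autoImplicit false
set_option linter.unusedSectionVars false

namespace Claimed.Agent.R289

open Relation Set

/-! ## 1. transports along an isomorphism of dart structures -/

section abs

variable {V D V' D' : Type} {T : PvMap V D} {T' : PvMap V' D'} (I : PvIso T T')

/-- the inverse isomorphism -/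
def pvcoSymm : PvIso T' T where
  fV := I.fV.symm
  fD := I.fD.symm
  src d := by rw [Equiv.eq_symm_apply, ← I.src, Equiv.apply_symm_apply]
  nxt d := by rw [Equiv.eq_symm_apply, ← I.nxt, Equiv.apply_symm_apply]
  opp d := by rw [Equiv.eq_symm_apply, ← I.opp, Equiv.apply_symm_apply]

theorem pvco_mem (A : Set D) (d : D) : I.fD d ∈ I.fD '' A ↔ d ∈ A := I.fD.injective.mem_set_image

theorem pvco_memV (X : Set V) (v : V) : I.fV v ∈ I.fV '' X ↔ v ∈ X := I.fV.injective.mem_set_image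

theorem pvco_setOf {P : D → Prop} {P' : D' → Prop} (h : ∀ d, P' (I.fD d) ↔ P d) : {e | P' e} = I.fD '' {e | P e} := by
  ext e
  obtain ⟨d, rfl⟩ := I.fD.surjective e
  rw [pvco_mem]
  exact h d

theorem pvco_setOfV {P : V → Prop} {P' : V' → Prop} (h : ∀ v, P' (I.fV v) ↔ P v) : {e | P' e} = I.fV '' {e | P e} := by
  ext e
  obtain ⟨d, rfl⟩ := I.fV.surjective e
  rw [pvco_memV]
  exact h d

theorem pvco_compl (A : Set D) : (I.fD '' A)ᶜ = I.fD '' Aᶜ := (Set.image_compl_eq I.fD.bijective).symm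

theorem pvco_univ : I.fD '' univ = univ := Set.image_univ_of_surjective I.fD.surjective

theorem pvco_rot (d : D) : T'.rot (I.fD d) = I.fD (T.rot d) := by
  unfold PvMap.rot; rw [I.nxt, I.nxt, I.opp]

theorem pvco_faceSet (A : Set D) : T'.FaceSet (I.fD '' A) ↔ T.FaceSet A := by
  unfold PvMap.FaceSet
  rw [I.fD.surjective.forall]
  simp only [I.nxt, pvco_mem]

theorem pvco_bd (A : Set D) (d : D) : T'.Bd (I.fD '' A) (I.fD d) ↔ T.Bd A d := by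
  unfold PvMap.Bd; rw [I.opp, pvco_mem, pvco_mem]

theorem pvco_bd_set (A : Set D) : {e | T'.Bd (I.fD '' A) e} = I.fD '' {e | T.Bd A e} := pvco_setOf I (pvco_bd I A)

theorem pvco_edg (Z : Set D) (d : D) : T'.Edg (I.fD '' Z) (I.fD d) ↔ T.Edg Z d := by
  unfold PvMap.Edg; rw [I.opp, pvco_mem, pvco_mem]

theorem pvco_djoin (Z : Set D) (a b : D) : T'.DJoin (I.fD '' Z) (I.fD a) (I.fD b) ↔ T.DJoin Z a b := by
  unfold PvMap.DJoin
  refine pvcv_rtg I.fD (fun x y => ?_) a b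
  unfold PvMap.DStep
  rw [I.nxt, I.opp, pvco_edg]
  simp only [EmbeddingLike.apply_eq_iff_eq]

theorem pvco_VOf (A : Set D) : T'.VOf (I.fD '' A) = I.fV '' T.VOf A := by
  refine pvco_setOfV I fun v => ?_
  constructor
  · rintro ⟨_, ⟨d, hd, rfl⟩, h⟩
    rw [I.src] at h
    exact ⟨d, hd, I.fV.injective h⟩
  · rintro ⟨d, hd, rfl⟩
    exact ⟨I.fD d, ⟨d, hd, rfl⟩, I.src d⟩

theorem pvco_BdV (A : Set D) : T'.BdV (I.fD '' A) = I.fV '' T.BdV A := by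
  refine pvco_setOfV I fun v => ?_
  rw [I.fD.surjective.exists]
  simp only [I.src, pvco_bd, EmbeddingLike.apply_eq_iff_eq]

theorem pvco_edgeIn (A : Set D) (a b : V) : T'.EdgeIn (I.fD '' A) (I.fV a) (I.fV b) ↔ T.EdgeIn A a b := by
  unfold PvMap.EdgeIn
  rw [I.fD.surjective.exists]
  simp only [I.src, I.tgt, I.opp, pvco_mem, EmbeddingLike.apply_eq_iff_eq]

theorem pvco_join (A : Set D) (X : Set V) (a b : V) : T'.Join (I.fD '' A) (I.fV '' X) (I.fV a) (I.fV b) ↔ T.Join A X a b := by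
  unfold PvMap.Join
  rw [pvco_memV]
  refine and_congr Iff.rfl (pvcv_rtg I.fV (fun x y => ?_) a b)
  rw [pvco_edgeIn, pvco_memV]

/-- the image of a cycle -/
def pvcoCyc (c : T.Cyc) : T'.Cyc where
  n := c.n
  e i := I.fD (c.e i)
  three := c.three
  per i := by rw [c.per]
  chain i := by rw [I.tgt, I.src, c.chain]
  inj i j hi hj h := c.inj i j hi hj (I.fV.injective (by rwa [I.src, I.src] at h))

theorem pvco_cyc_darts (c : T.Cyc) : (pvcoCyc I c).darts = I.fD '' c.darts := by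
  unfold PvMap.Cyc.darts
  exact Set.range_comp I.fD c.e

theorem pvco_cyc_left (c : T.Cyc) : (pvcoCyc I c).Left = I.fD '' c.Left := by
  unfold PvMap.Cyc.Left
  rw [pvco_cyc_darts]
  exact pvco_setOf I fun d => pvco_djoin I c.darts (c.e 0) d

/-- the image of a path -/
def pvcoPth (p : T.Pth) : T'.Pth where
  n := p.n
  v i := I.fV (p.v i)
  e i := I.fD (p.e i)
  src_e i hi := by rw [I.src, p.src_e i hi]
  tgt_e i hi := by rw [I.tgt, p.tgt_e i hi]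
  inj i j hi hj h := p.inj i j hi hj (I.fV.injective h)

theorem pvco_le {b : ℕ → V} {n : ℕ} {y : T.Pth} (h : PvwLE T b n y) : PvwLE T' (fun i => I.fV (b i)) n (pvcoPth I y) := by
  obtain ⟨j, h0, hn, h1, h2⟩ := h
  refine ⟨j, congrArg I.fV h0, hn, fun k hk => ?_, fun k hk => congrArg I.fV (h2 k hk)⟩
  obtain ⟨h3, h4, h5⟩ := h1 k hk
  exact ⟨h3, congrArg I.fV h4, fun i hi hi' he => h5 i hi hi' (I.fV.injective he)⟩

theorem pvco_mass {pos : V → ℂ} {pos' : V' → ℂ} {a b : ℂ} (hp : ∀ v, pos' (I.fV v) = a * pos v + b) {K K' : Set ℂ} (hK : ∀ w, a * w + b ∈ K' ↔ w ∈ K)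
    (p : T.Pth) (i j : ℕ) : pvwMass T' pos' (T'.qpart pos') K' (pvcoPth I p) i j = a * pvwMass T pos (T.qpart pos) K p i j := by
  classical
  unfold pvwMass
  rw [Finset.mul_sum]
  refine Finset.sum_congr rfl fun k _ => ?_
  show (if T'.bary pos' (T'.opp (I.fD (p.e k))) ∈ K' then T'.qpart pos' (T'.opp (I.fD (p.e k))) else 0) = _
  rw [I.opp, I.bary hp, I.qpart hp]
  by_cases h : T.bary pos (T.opp (p.e k)) ∈ K
  · rw [if_pos h, if_pos ((hK _).2 h)]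
  · rw [if_neg h, if_neg (fun h' => h ((hK _).1 h')), mul_zero]

/-! ### strands -/

variable {s : V → Bool} {s' : V' → Bool} (hs : ∀ v, s' (I.fV v) = s v)
include hs

theorem pvco_bw (d : D) : pvasBW T' s' (I.fD d) ↔ pvasBW T s d := by
  unfold pvasBW; rw [I.src, I.tgt, hs, hs]

theorem pvco_step (d : D) : pvasStep T' s' (I.fD d) = I.fD (pvasStep T s d) := by
  unfold pvasStep
  rw [I.apex, hs]
  split_ifs
  · rw [I.nxt, I.opp]
  · rw [I.nxt, I.nxt, I.opp]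

theorem pvco_it (d : D) (n : ℕ) : pvasIt T' s' (I.fD d) n = I.fD (pvasIt T s d n) := by
  unfold pvasIt
  induction n with
  | zero => rfl
  | succ n ih => rw [Function.iterate_succ_apply', ih, pvco_step I hs, ← Function.iterate_succ_apply' (pvasStep T s)]

theorem pvco_hit (d : D) (Z : Set D) : pvasHit T' s' (I.fD d) (I.fD '' Z) = pvasHit T s d Z := by
  unfold pvasHit
  simp only [pvco_it I hs, pvco_mem]

theorem pvco_exit (A : Set D) (d : D) : pvasExit T' (I.fD '' A) s' (I.fD d) = I.fD (pvasExit T A s d) := by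
  unfold pvasExit
  rw [pvco_compl, pvco_hit I hs, pvco_it I hs]

theorem pvco_layB (d : D) (n : ℕ) : pvasLayB T' s' (I.fD d) n = I.fV '' pvasLayB T s d n := by
  refine pvco_setOfV I fun v => ?_
  simp only [pvco_it I hs, I.src, EmbeddingLike.apply_eq_iff_eq]

theorem pvco_layW (d : D) (n : ℕ) : pvasLayW T' s' (I.fD d) n = I.fV '' pvasLayW T s d n := by
  refine pvco_setOfV I fun v => ?_
  simp only [pvco_it I hs, I.tgt, EmbeddingLike.apply_eq_iff_eq]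

theorem pvco_fc (d : D) (n : ℕ) : pvasFc T' s' (I.fD d) n = I.fD '' pvasFc T s d n := by
  refine pvco_setOf I fun f => ?_
  simp only [pvco_it I hs, I.sf]

theorem pvco_run (K : Set V) (a₀ a₁ : D) : PvldRun T' s' (I.fV '' K) (I.fD a₀) (I.fD a₁) ↔ PvldRun T s K a₀ a₁ := by
  unfold PvldRun
  simp only [pvco_it I hs, pvco_fc I hs, pvco_VOf, EmbeddingLike.apply_eq_iff_eq, ne_eq, Set.image_subset_image_iff I.fV.injective]

theorem pvco_col (K : Set V) (β : Bool) : pvldCol s' (I.fV '' K) β = I.fV '' pvldCol s K β := by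
  refine pvco_setOfV I fun v => ?_
  rw [pvco_memV, hs]

/-! ### gates -/

/-- the image of a gate -/
def pvcoGate (g : T.Gate s) : T'.Gate s' where
  c := pvcoCyc I g.c
  m := g.m
  hm := g.hm
  hmn := g.hmn
  col i hi := by
    show s' (T'.src (I.fD (g.c.e i))) = true ↔ _
    rw [I.src, hs]
    exact g.col i hi

theorem pvco_gate_vm (g : T.Gate s) : (pvcoGate I hs g).vm = I.fV g.vm := I.src _

theorem pvco_gate_vp (g : T.Gate s) : (pvcoGate I hs g).vp = I.fV g.vp := I.src _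

theorem pvco_gate_aIn (g : T.Gate s) : (pvcoGate I hs g).aIn = I.fD g.aIn := rfl

theorem pvco_gate_aOut (g : T.Gate s) : (pvcoGate I hs g).aOut = I.fD g.aOut := I.opp _

theorem pvco_gate_left (g : T.Gate s) : (pvcoGate I hs g).c.Left = I.fD '' g.c.Left := pvco_cyc_left I g.c

theorem pvco_gate_thru (g : T.Gate s) : (pvcoGate I hs g).Thru ↔ g.Thru := by
  unfold PvMap.Gate.Thru
  rw [pvco_gate_left, pvco_gate_aIn, pvco_gate_aOut, pvco_exit I hs]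
  exact I.fD.injective.eq_iff

theorem pvco_gate_len (g : T.Gate s) : (pvcoGate I hs g).len = g.len := by
  unfold PvMap.Gate.len
  rw [pvco_gate_left, pvco_gate_aIn, pvco_compl, pvco_hit I hs]

theorem pvco_gate_bank (g : T.Gate s) : (pvcoGate I hs g).bank = I.fV '' g.bank := by
  unfold PvMap.Gate.bank
  rw [pvco_gate_len, pvco_gate_aIn, pvco_layB I hs]

theorem pvco_gate_wbank (g : T.Gate s) : (pvcoGate I hs g).wbank = I.fV '' g.wbank := by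
  unfold PvMap.Gate.wbank
  rw [pvco_gate_len, pvco_gate_aIn, pvco_layW I hs]

theorem pvco_X (G : Set D) : pvgnX T' s' (I.fD '' G) = I.fV '' pvgnX T s G := by
  refine pvco_setOfV I fun v => ?_
  rw [pvco_BdV, pvco_memV, hs]

theorem pvco_G (A B G : Set D) : PvgnG T' s' (I.fD '' A) (I.fD '' B) (I.fD '' G) ↔ PvgnG T s A B G := by
  constructor
  · intro h
    refine ⟨(pvco_faceSet I G).1 h.face, (Set.image_subset_image_iff I.fD.injective).1 h.inner, (Set.image_subset_image_iff I.fD.injective).1 h.outer, ?_, fun d hd => ?_⟩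
    · have := h.two
      rwa [pvco_X I hs, I.fV.injective.encard_image] at this
    · have := h.nobb (I.fD d) ((pvco_bd I G d).2 hd)
      rwa [I.src, I.tgt, hs, hs] at this
  · intro h
    refine ⟨(pvco_faceSet I G).2 h.face, Set.image_mono h.inner, Set.image_mono h.outer, ?_, fun d' hd => ?_⟩
    · rw [pvco_X I hs, I.fV.injective.encard_image]; exact h.two
    · obtain ⟨d, rfl⟩ := I.fD.surjective d'
      rw [I.src, I.tgt, hs, hs]
      exact h.nobb d ((pvco_bd I G d).1 hd)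

theorem pvco_min (A B : Set D) : pvgnMin T' s' (I.fD '' A) (I.fD '' B) = I.fD '' pvgnMin T s A B := by
  refine pvco_setOf I fun d => ?_
  constructor
  · intro h G hG
    exact (pvco_mem I G d).1 (h _ ((pvco_G I hs A B G).2 hG))
  · intro h G' hG'
    have e : I.fD '' (I.fD ⁻¹' G') = G' := Set.image_preimage_eq _ I.fD.surjective
    rw [← e] at hG' ⊢
    exact (pvco_mem I _ d).2 (h _ ((pvco_G I hs A B _).1 hG'))

theorem pvco_hull (A B : Set D) (o : D) : pvgnHull T' s' (I.fD '' A) (I.fD '' B) (I.fD o) = I.fD '' pvgnHull T s A B o := by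
  refine pvco_setOf I fun d => ?_
  rw [pvco_min I hs, pvco_bd_set, pvco_djoin]

end abs

/-! ## 2. the isomorphism of the Delaunay planes of two similar site sets -/

section inst

variable {a b : ℂ} {Y Y' : Set ℂ}

/-- the bijection of the sites -/
noncomputable def pvcoV (ha : a ≠ 0) (hY : Y' = vorSim a b '' Y) : ↥Y ≃ ↥Y' :=
  Equiv.ofBijective (fun v => (⟨vorSim a b v.1, (pvcv_mem ha hY v.1).2 v.2⟩ : ↥Y'))
    ⟨fun v w h => Subtype.ext (vorSim_injective ha b (congrArg Subtype.val h)), fun w => by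
      obtain ⟨v, hv, e⟩ : w.1 ∈ vorSim a b '' Y := hY ▸ w.2
      exact ⟨⟨v, hv⟩, Subtype.ext e⟩⟩

theorem pvco_V_val (ha : a ≠ 0) (hY : Y' = vorSim a b '' Y) (v : ↥Y) : ((pvcoV ha hY v : ↥Y') : ℂ) = vorSim a b v.1 := rfl

/-- **the isomorphism of the two Delaunay planes** -/
noncomputable def pvcoIso (ha : a ≠ 0) (hY : Y' = vorSim a b '' Y) : PvIso (delbPl Y).toMap (delbPl Y').toMap where
  fV := pvcoV ha hY
  fD := Equiv.subtypeEquiv (Equiv.prodCongr (pvcoV ha hY) (pvcoV ha hY)) (fun p =>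
    (and_congr (pvcv_good_iff ha hY) (pvcv_adj ha hY p.1.1 p.2.1)).symm)
  src _ := rfl
  nxt d := Subtype.ext (Prod.ext rfl (Subtype.ext (pvcv_apex ha hY d.2.1.gp d.1.1.1 d.1.2.1)))
  opp _ := rfl

end inst

theorem pvco_eqns_cite : True := by
  have := @pvcoSymm.eq_1; have := @pvcoCyc.eq_1; have := @pvcoPth.eq_1; have := @pvcoGate.eq_1; have := @pvcoV.eq_1; have := @pvcoIso.eq_1
  trivial

/-! ## 3. two configurations related by a frame -/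

/-- `η'` is the image of `η` under `w ↦ a w + b`, `a ∈ {1, i, -1, -i}` -/
structure PvcoFr (η η' : Conf PvPt) (a b : ℂ) : Prop where
  a4 : a ^ 4 = 1
  Y : cfSites η' = vorSim a b '' cfSites η
  col : ∀ p, cfCol η' (vorSim a b p) = cfCol η p

theorem pvco_ne {a : ℂ} (h : a ^ 4 = 1) : a ≠ 0 := pvth_ne_zero (pvth_norm_of_pow h)

theorem pvco_fr_map {a : ℂ} (h : a ^ 4 = 1) (b : ℂ) (η : Conf PvPt) : PvcoFr η (cfMap (vorSim a b) η) a b :=
  ⟨h, pvcv_sites a b η, pvcv_col (pvco_ne h) η⟩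

theorem PvcoFr.symm {η η' : Conf PvPt} {a b : ℂ} (F : PvcoFr η η' a b) : PvcoFr η' η a⁻¹ (-(a⁻¹ * b)) where
  a4 := by rw [inv_pow, F.a4, inv_one]
  Y := by
    rw [F.Y, image_image]
    simp only [vorSim_inv_left (pvco_ne F.a4) b, image_id']
  col p := by
    rw [← F.col, vorSim_inv_right (pvco_ne F.a4) b]

theorem pvco_quad {Y : Set ℂ} {a : ℂ} (h : a ^ 4 = 1) (b : ℂ) (hY : VorQuad Y) : VorQuad (vorSim a b '' Y) := by
  intro z
  obtain ⟨w, rfl⟩ := vorSim_surjective (pvco_ne h) b z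
  obtain ⟨⟨s1, h1, h1a, h1b⟩, ⟨s2, h2, h2a, h2b⟩, ⟨s3, h3, h3a, h3b⟩, ⟨s4, h4, h4a, h4b⟩⟩ := hY w
  rcases pvt_fourth_root h with rfl | rfl | rfl | rfl
  · refine ⟨⟨_, ⟨s1, h1, rfl⟩, ?_, ?_⟩, ⟨_, ⟨s2, h2, rfl⟩, ?_, ?_⟩, ⟨_, ⟨s3, h3, rfl⟩, ?_, ?_⟩, ⟨_, ⟨s4, h4, rfl⟩, ?_, ?_⟩⟩ <;> simp [vorSim] <;> linarith
  · refine ⟨⟨_, ⟨s4, h4, rfl⟩, ?_, ?_⟩, ⟨_, ⟨s1, h1, rfl⟩, ?_, ?_⟩, ⟨_, ⟨s2, h2, rfl⟩, ?_, ?_⟩, ⟨_, ⟨s3, h3, rfl⟩, ?_, ?_⟩⟩ <;> simp [vorSim] <;> linarith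
  · refine ⟨⟨_, ⟨s3, h3, rfl⟩, ?_, ?_⟩, ⟨_, ⟨s4, h4, rfl⟩, ?_, ?_⟩, ⟨_, ⟨s1, h1, rfl⟩, ?_, ?_⟩, ⟨_, ⟨s2, h2, rfl⟩, ?_, ?_⟩⟩ <;> simp [vorSim] <;> linarith
  · refine ⟨⟨_, ⟨s2, h2, rfl⟩, ?_, ?_⟩, ⟨_, ⟨s3, h3, rfl⟩, ?_, ?_⟩, ⟨_, ⟨s4, h4, rfl⟩, ?_, ?_⟩, ⟨_, ⟨s1, h1, rfl⟩, ?_, ?_⟩⟩ <;> simp [vorSim] <;> linarith

theorem pvco_at (a b z d : ℂ) (S : Set ℂ) : pvkdAt (vorSim a b z) (a * d) S = vorSim a b '' pvkdAt z d S := by
  unfold pvkdAt
  rw [image_image]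
  refine image_congr fun w _ => ?_
  simp only [pvthSim, vorSim]; ring

namespace PvcoFr

variable {η η' : Conf PvPt} {a b : ℂ} (F : PvcoFr η η' a b)
include F

theorem a0 : a ≠ 0 := pvco_ne F.a4

theorem na : ‖a‖ = 1 := pvth_norm_of_pow F.a4

/-- the isomorphism of the plane maps -/
noncomputable def iso : PvIso (pvieT η) (pvieT η') := pvcoIso F.a0 F.Y

theorem pos (v : ↥(pvieY η)) : pviePos η' (F.iso.fV v) = a * pviePos η v + b := rfl

theorem pos' (v : ↥(pvieY η)) : pviePos η' (F.iso.fV v) = vorSim a b (pviePos η v) := rfl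

theorem hs (v : ↥(pvieY η)) : pvieCol η' true (F.iso.fV v) = pvieCol η true v := by
  show (cfCol η' (vorSim a b v.1) == true) = (cfCol η v.1 == true)
  rw [F.col]

theorem pos_mem (v : ↥(pvieY η)) (X : Set ℂ) : pviePos η' (F.iso.fV v) ∈ vorSim a b '' X ↔ pviePos η v ∈ X := by
  rw [F.pos']; exact (vorSim_injective F.a0 b).mem_set_image

theorem nice (h : PvatNice (pvieY η)) : PvatNice (pvieY η') := by
  have e : pvieY η' = vorSim a b '' pvieY η := F.Y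
  rw [e]
  exact ⟨vorc_lf_image (vorc_sim_vorSim a b F.a0) h.1, pvcv_gp F.a0 rfl h.2.1, pvco_quad F.a4 b h.2.2⟩

theorem dense {K : Set ℂ} {ρ : ℝ} (h : VorDense (pvieY η) K ρ) : VorDense (pvieY η') (vorSim a b '' K) ρ := by
  have e : pvieY η' = vorSim a b '' pvieY η := F.Y
  rw [e]
  have := (vorc_dense (vorc_sim_vorSim a b F.a0) (Y := pvieY η) (K := K) (ρ := ρ)).2 h
  rwa [F.na, one_mul] at this

end PvcoFr

theorem pvco_eqns_cite2 : True := by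
  have := @PvcoFr.iso.eq_1
  trivial

/-! ## 4. the predicates of 173 (`Tr/PlugLoc`) along an isomorphism of dart structures, marks in correspondence -/

section marks

variable {κ κ' : Type} {V D V' D' : Type} {T : PvMap V D} {T' : PvMap V' D'} (I : PvIso T T')

/-- the mark set `K'` on `T'` corresponds to the mark set `K` on `T` -/
def PvcoMk (mk : V → κ) (mk' : V' → κ') (K : Set κ) (K' : Set κ') : Prop := ∀ v, mk' (I.fV v) ∈ K' ↔ mk v ∈ K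

/-- the marks of two plugs correspond -/
structure PvcoPg (mk : V → κ) (mk' : V' → κ') (p : PvzlPg κ) (p' : PvzlPg κ') : Prop where
  KI : PvcoMk I mk mk' p.KI p'.KI
  KO : PvcoMk I mk mk' p.KO p'.KO
  Km : PvcoMk I mk mk' p.Km p'.Km
  Kp : PvcoMk I mk mk' p.Kp p'.Kp
  KT : PvcoMk I mk mk' p.KT p'.KT

theorem pvco_eqns_cite4 : True := by
  have := @PvcoMk.eq_1
  trivial

variable {I} {mk : V → κ} {mk' : V' → κ'}

theorem PvcoMk.symm {K : Set κ} {K' : Set κ'} (h : PvcoMk I mk mk' K K') : PvcoMk (pvcoSymm I) mk' mk K' K := fun v' => by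
  have := h (I.fV.symm v')
  rw [Equiv.apply_symm_apply] at this
  exact this.symm

theorem PvcoPg.symm {p : PvzlPg κ} {p' : PvzlPg κ'} (h : PvcoPg I mk mk' p p') : PvcoPg (pvcoSymm I) mk' mk p' p :=
  ⟨h.KI.symm, h.KO.symm, h.Km.symm, h.Kp.symm, h.KT.symm⟩

theorem PvcoMk.set {K : Set κ} {K' : Set κ'} (h : PvcoMk I mk mk' K K') : {v' | mk' v' ∈ K'} = I.fV '' {v | mk v ∈ K} := pvco_setOfV I h

theorem PvcoMk.B {K : Set κ} {K' : Set κ'} (h : PvcoMk I mk mk' K K') : (pvplB T' fun v => mk' v ∈ K') = I.fD '' pvplB T fun v => mk v ∈ K := by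
  refine pvco_setOf I fun d => ?_
  rw [I.src, I.tgt, I.apex]
  exact or_congr (h _) (or_congr (h _) (h _))

variable (I)

theorem pvco_symm_fD (d : D) : (pvcoSymm I).fD (I.fD d) = d := I.fD.symm_apply_apply d

theorem pvco_symm_image (A : Set D') : I.fD '' ((pvcoSymm I).fD '' A) = A := by
  rw [image_image]
  simp only [pvcoSymm, Equiv.apply_symm_apply, image_id']

theorem pvco_Int (A : Set D) : T'.Int (I.fD '' A) = I.fV '' T.Int A := by
  refine pvco_setOfV I fun v => ⟨fun h d hd => ?_, fun h d' hd' => ?_⟩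
  · exact (pvco_mem I A d).1 (h _ (by rw [I.src, hd]))
  · obtain ⟨d, rfl⟩ := I.fD.surjective d'
    rw [I.src] at hd'
    exact (pvco_mem I A d).2 (h d (I.fV.injective hd'))

variable {I}

theorem pvco_in {KI KO : Set κ} {KI' KO' : Set κ'} (hI : PvcoMk I mk mk' KI KI') (hO : PvcoMk I mk mk' KO KO') {c : T.Cyc} (h : PvzlIn T mk KI KO c) :
    PvzlIn T' mk' KI' KO' (pvcoCyc I c) where
  inner := by
    rw [hI.B, pvco_cyc_left]
    exact image_mono h.inner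
  outer := by
    rw [pvco_cyc_left]
    rintro _ ⟨d, hd, rfl⟩
    rw [I.src, hO]
    exact h.outer d hd
  rim k := by
    show mk' (T'.src (I.fD (c.e k))) ∈ KO'
    rw [I.src, hO]
    exact h.rim k

variable {s : V → Bool} {s' : V' → Bool} (hs : ∀ v, s' (I.fV v) = s v)
include hs

theorem pvco_hs_symm (v' : V') : s ((pvcoSymm I).fV v') = s' v' := by
  rw [← hs]
  exact congrArg s' (I.fV.apply_symm_apply v')

theorem pvco_least {KI KO : Set κ} {KI' KO' : Set κ'} (hI : PvcoMk I mk mk' KI KI') (hO : PvcoMk I mk mk' KO KO') {g : T.Gate s} (h : PvzlLeast T mk s KI KO g) :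
    PvzlLeast T' mk' s' KI' KO' (pvcoGate I hs g) where
  reg := pvco_in hI hO h.reg
  least g₂ h₂ := by
    have h3 := h.least (pvcoGate (pvcoSymm I) (pvco_hs_symm hs) g₂) (pvco_in hI.symm hO.symm h₂)
    rw [pvco_gate_left] at h3 ⊢
    have := image_mono (f := I.fD) h3
    rwa [pvco_symm_image] at this

theorem pvco_zthru {KT : Set κ} {KT' : Set κ'} (hT : PvcoMk I mk mk' KT KT') (g : T.Gate s) (N : ℕ) :
    PvzlThru T' mk' s' KT' (pvcoGate I hs g) N ↔ PvzlThru T mk s KT g N := by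
  unfold PvzlThru
  simp only [pvco_gate_aIn, pvco_gate_aOut, pvco_gate_left, pvco_it I hs, pvco_fc I hs, pvco_VOf, hT.set, EmbeddingLike.apply_eq_iff_eq, ne_eq, pvco_mem,
    Set.image_subset_image_iff I.fV.injective]

theorem pvco_gt {p : PvzlPg κ} {p' : PvzlPg κ'} (hp : PvcoPg I mk mk' p p') {g : T.Gate s} (h : PvzlGt T mk s p g) : PvzlGt T' mk' s' p' (pvcoGate I hs g) where
  least := pvco_least hs hp.KI hp.KO h.least
  vm := by rw [pvco_gate_vm, hp.Km]; exact h.vm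
  vp := by rw [pvco_gate_vp, hp.Kp]; exact h.vp
  thru := h.thru.imp fun N hN => (pvco_zthru hs hp.KT g N).2 hN

theorem pvco_ks {KE : Set κ} {KE' : Set κ'} (hE : PvcoMk I mk mk' KE KE') (g g₁ : T.Gate s) :
    pvzlKS T' mk' KE' (pvcoGate I hs g) (pvcoGate I hs g₁) = I.fV '' pvzlKS T mk KE g g₁ := by
  refine pvco_setOfV I fun v => ?_
  rw [hE, pvco_gate_left, pvco_gate_left, pvco_Int, pvco_Int, pvco_memV, pvco_memV]

theorem pvco_zrun {KE : Set κ} {KE' : Set κ'} (hE : PvcoMk I mk mk' KE KE') (g g₁ : T.Gate s) (N : ℕ) :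
    PvzlRun T' mk' s' KE' (pvcoGate I hs g) (pvcoGate I hs g₁) N ↔ PvzlRun T mk s KE g g₁ N := by
  unfold PvzlRun
  simp only [pvco_gate_aIn, pvco_gate_aOut, pvco_ks hs hE, pvco_it I hs, pvco_fc I hs, pvco_VOf, EmbeddingLike.apply_eq_iff_eq, ne_eq,
    Set.image_subset_image_iff I.fV.injective]

theorem pvco_bank (N : ℕ) : ∀ a : D, pvtBank T' s' (I.fD a) N = (pvtBank T s a N).map I.fD := by
  induction N with
  | zero => intro a; rfl
  | succ n ih =>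
    intro a
    simp only [pvtBank]
    rw [I.apex, hs, pvco_step I hs, ih, pvco_rot]
    split_ifs <;> rfl

omit hs in
theorem pvco_aft [DecidableEq V] [DecidableEq V'] (x : V) (l : List D) : pvtAft T' (I.fV x) (l.map I.fD) = (pvtAft T x l).map I.fD := by
  induction l with
  | nil => rfl
  | cons f p ih =>
    simp only [List.map_cons, pvtAft]
    rw [I.tgt, ih]
    simp only [EmbeddingLike.apply_eq_iff_eq]
    split_ifs <;> rfl

omit hs in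
theorem pvco_LE [DecidableEq V] [DecidableEq V'] (l : List D) : pvtLE T' (l.map I.fD) = (pvtLE T l).map I.fD := by
  induction l with
  | nil => rfl
  | cons e l ih =>
    simp only [List.map_cons, pvtLE]
    rw [ih, I.src, pvco_aft]
    have e1 : I.fV (T.src e) ∈ ((pvtLE T l).map I.fD).map T'.tgt ↔ T.src e ∈ (pvtLE T l).map T.tgt := by
      simp only [List.mem_map, exists_exists_and_eq_and, I.tgt, EmbeddingLike.apply_eq_iff_eq]
    by_cases h : T.src e ∈ (pvtLE T l).map T.tgt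
    · rw [if_pos h, if_pos (e1.2 h)]
    · rw [if_neg h, if_neg fun h' => h (e1.1 h')]
      rfl

theorem pvco_zarc (a : D) (N : ℕ) (d : D) : PvzlArc T' s' (I.fD a) N (I.fD d) ↔ PvzlArc T s a N d := by
  classical
  rw [pvzl_arc_iff, pvzl_arc_iff, pvco_bank hs, pvco_LE]
  simp only [List.mem_map, exists_exists_and_eq_and, I.opp, EmbeddingLike.apply_eq_iff_eq]

theorem pvco_Ti_fwd {p : PvzlPg κ} {p' : PvzlPg κ'} (hp : PvcoPg I mk mk' p p') {d : D} (h : PvzlTi T mk s p d) : PvzlTi T' mk' s' p' (I.fD d) := by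
  obtain ⟨g, N, h1, h2, h3⟩ := h
  exact ⟨pvcoGate I hs g, N, pvco_gt hs hp h1, (pvco_zthru hs hp.KT g N).2 h2, (pvco_zarc hs _ N d).2 h3⟩

theorem pvco_Tr_fwd {p p₁ : PvzlPg κ} {p' p₁' : PvzlPg κ'} {KE : Set κ} {KE' : Set κ'} (hp : PvcoPg I mk mk' p p') (hp₁ : PvcoPg I mk mk' p₁ p₁') (hE : PvcoMk I mk mk' KE KE')
    {d : D} (h : PvzlTr T mk s p p₁ KE d) : PvzlTr T' mk' s' p' p₁' KE' (I.fD d) := by
  obtain ⟨g, g₁, N, h1, h2, h3, h4⟩ := h
  refine ⟨pvcoGate I hs g, pvcoGate I hs g₁, N, pvco_gt hs hp h1, pvco_gt hs hp₁ h2, (pvco_zrun hs hE g g₁ N).2 h3, ?_⟩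
  rw [pvco_gate_aOut]
  exact (pvco_zarc hs _ N d).2 h4

theorem pvco_zC_fwd {p : PvzlPg κ} {p' : PvzlPg κ'} (hp : PvcoPg I mk mk' p p') (h : pvzlC p V D T mk s) : pvzlC p' V' D' T' mk' s' := by
  obtain ⟨g, h1⟩ := h
  exact ⟨pvcoGate I hs g, pvco_gt hs hp h1⟩

theorem pvco_zA_fwd {p p₁ : PvzlPg κ} {p' p₁' : PvzlPg κ'} {KE : Set κ} {KE' : Set κ'} (hp : PvcoPg I mk mk' p p') (hp₁ : PvcoPg I mk mk' p₁ p₁') (hE : PvcoMk I mk mk' KE KE')
    (h : pvzlA p p₁ KE V D T mk s) : pvzlA p' p₁' KE' V' D' T' mk' s' := by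
  obtain ⟨g, g₁, N, h1, h2, h3⟩ := h
  exact ⟨pvcoGate I hs g, pvcoGate I hs g₁, N, pvco_gt hs hp h1, pvco_gt hs hp₁ h2, (pvco_zrun hs hE g g₁ N).2 h3⟩

theorem pvco_Ti {p : PvzlPg κ} {p' : PvzlPg κ'} (hp : PvcoPg I mk mk' p p') (d : D) : PvzlTi T' mk' s' p' (I.fD d) ↔ PvzlTi T mk s p d :=
  ⟨fun h => by have := pvco_Ti_fwd (pvco_hs_symm hs) hp.symm h; rwa [pvco_symm_fD] at this, pvco_Ti_fwd hs hp⟩

theorem pvco_Tr {p p₁ : PvzlPg κ} {p' p₁' : PvzlPg κ'} {KE : Set κ} {KE' : Set κ'} (hp : PvcoPg I mk mk' p p') (hp₁ : PvcoPg I mk mk' p₁ p₁') (hE : PvcoMk I mk mk' KE KE')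
    (d : D) : PvzlTr T' mk' s' p' p₁' KE' (I.fD d) ↔ PvzlTr T mk s p p₁ KE d :=
  ⟨fun h => by have := pvco_Tr_fwd (pvco_hs_symm hs) hp.symm hp₁.symm hE.symm h; rwa [pvco_symm_fD] at this, pvco_Tr_fwd hs hp hp₁ hE⟩

theorem pvco_zC {p : PvzlPg κ} {p' : PvzlPg κ'} (hp : PvcoPg I mk mk' p p') : pvzlC p' V' D' T' mk' s' ↔ pvzlC p V D T mk s :=
  ⟨pvco_zC_fwd (pvco_hs_symm hs) hp.symm, pvco_zC_fwd hs hp⟩

theorem pvco_zA {p p₁ : PvzlPg κ} {p' p₁' : PvzlPg κ'} {KE : Set κ} {KE' : Set κ'} (hp : PvcoPg I mk mk' p p') (hp₁ : PvcoPg I mk mk' p₁ p₁') (hE : PvcoMk I mk mk' KE KE') :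
    pvzlA p' p₁' KE' V' D' T' mk' s' ↔ pvzlA p p₁ KE V D T mk s :=
  ⟨pvco_zA_fwd (pvco_hs_symm hs) hp.symm hp₁.symm hE.symm, pvco_zA_fwd hs hp hp₁ hE⟩

end marks

/-! ## 5. the objects of `Tr/PlugK` (v3) under a frame -/

section plugk

theorem pvco_sub (a b u z : ℂ) : vorSim a b u - vorSim a b z = a * (u - z) := by
  simp only [vorSim]; ring

theorem pvco_ball {a : ℂ} (ha : ‖a‖ = 1) (b z : ℂ) (r : ℝ) : Metric.ball (vorSim a b z) r = vorSim a b '' Metric.ball z r := by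
  have a0 : a ≠ 0 := pvth_ne_zero ha
  ext w
  obtain ⟨u, rfl⟩ := vorSim_surjective a0 b w
  rw [(vorSim_injective a0 b).mem_set_image, Metric.mem_ball, Metric.mem_ball, dist_eq_norm, dist_eq_norm, pvco_sub, norm_mul, ha, one_mul]

theorem pvco_cball {a : ℂ} (ha : ‖a‖ = 1) (b z : ℂ) (r : ℝ) : Metric.closedBall (vorSim a b z) r = vorSim a b '' Metric.closedBall z r := by
  have a0 : a ≠ 0 := pvth_ne_zero ha
  ext w
  obtain ⟨u, rfl⟩ := vorSim_surjective a0 b w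
  rw [(vorSim_injective a0 b).mem_set_image, Metric.mem_closedBall, Metric.mem_closedBall, dist_eq_norm, dist_eq_norm, pvco_sub, norm_mul, ha, one_mul]

theorem pvco_core {a : ℂ} (ha : ‖a‖ = 1) (b : ℂ) (r : ℝ) (E : Set ℂ) : pvtrCore r (vorSim a b '' E) = vorSim a b '' pvtrCore r E := by
  have a0 : a ≠ 0 := pvth_ne_zero ha
  ext w
  obtain ⟨u, rfl⟩ := vorSim_surjective a0 b w
  rw [(vorSim_injective a0 b).mem_set_image, pvtr_mem_core, pvtr_mem_core, pvco_cball ha, Set.image_subset_image_iff (vorSim_injective a0 b)]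

theorem pvco_qq (a b x y z : ℂ) : pvqq (vorSim a b x) (vorSim a b y) (vorSim a b z) = a * pvqq x y z := by
  simp only [pvqq, vorSim]; ring

/-- the masked summand of `Q` under a similarity -/
theorem pvco_W {a : ℂ} (ha : a ≠ 0) (b : ℂ) (M : Set ℂ) (t : ℂ × ℂ × ℂ) :
    pvkdWt (vorSim a b '' M) (vorSim a b t.1, vorSim a b t.2.1, vorSim a b t.2.2) = a * pvkdWt M t := by
  unfold pvkdWt
  have e : (vorSim a b t.1 + vorSim a b t.2.1 + vorSim a b t.2.2) / 3 = vorSim a b ((t.1 + t.2.1 + t.2.2) / 3) := by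
    simp only [vorSim]; ring
  simp only []
  rw [e, pvco_qq]
  by_cases h : (t.1 + t.2.1 + t.2.2) / 3 ∈ M
  · rw [indicator_of_mem h, indicator_of_mem ((vorSim_injective ha b).mem_set_image.2 h)]
    simp only [Pi.one_apply]; ring
  · rw [indicator_of_notMem h, indicator_of_notMem fun h' => h ((vorSim_injective ha b).mem_set_image.1 h')]
    ring

variable {η η' : Conf PvPt} {a b : ℂ}

namespace PvcoFr

variable (F : PvcoFr η η' a b)
include F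

/-- the isomorphism of the plane maps, vocabulary of 244 -/
noncomputable def isoK : PvIso (pvkiT η) (pvkiT η') := pvcoIso F.a0 F.Y

theorem valK (v : ↥(cfSites η)) : ((F.isoK.fV v : ↥(cfSites η')) : ℂ) = vorSim a b v.1 := rfl

theorem hsK (v : ↥(cfSites η)) : pvkiS η' (F.isoK.fV v) = pvkiS η v := F.col v.1

theorem mkK (X : Set ℂ) : PvcoMk F.isoK Subtype.val Subtype.val X (vorSim a b '' X) := fun v => by
  rw [F.valK]; exact (vorSim_injective F.a0 b).mem_set_image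

theorem pgK (𝔭 : PvkdPlug) (z d : ℂ) : PvcoPg F.isoK Subtype.val Subtype.val (𝔭.pg z d) (𝔭.pg (vorSim a b z) (a * d)) where
  KI := by
    show PvcoMk _ _ _ (Metric.ball z 𝔭.a) (Metric.ball (vorSim a b z) 𝔭.a)
    rw [pvco_ball F.na]; exact F.mkK _
  KO := by
    show PvcoMk _ _ _ (Metric.ball z 𝔭.b) (Metric.ball (vorSim a b z) 𝔭.b)
    rw [pvco_ball F.na]; exact F.mkK _
  Km := by
    show PvcoMk _ _ _ (pvkdAt z d 𝔭.Zm) (pvkdAt (vorSim a b z) (a * d) 𝔭.Zm)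
    rw [pvco_at]; exact F.mkK _
  Kp := by
    show PvcoMk _ _ _ (pvkdAt z d 𝔭.Zp) (pvkdAt (vorSim a b z) (a * d) 𝔭.Zp)
    rw [pvco_at]; exact F.mkK _
  KT := by
    show PvcoMk _ _ _ (pvkdAt z d 𝔭.Tb) (pvkdAt (vorSim a b z) (a * d) 𝔭.Tb)
    rw [pvco_at]; exact F.mkK _

theorem atK (z d : ℂ) (S : Set ℂ) : PvcoMk F.isoK Subtype.val Subtype.val (pvkdAt z d S) (pvkdAt (vorSim a b z) (a * d) S) := by
  rw [pvco_at]; exact F.mkK _

theorem mesh {ρ : ℝ} {z d : ℂ} {E : Set ℂ} (h : PvtrMesh ρ (pvkdAt z d E) (cfSites η)) : PvtrMesh ρ (pvkdAt (vorSim a b z) (a * d) E) (cfSites η') := by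
  unfold PvtrMesh at h ⊢
  rw [pvco_at, pvco_core F.na]
  exact F.dense h

/-- the image of a gate -/
noncomputable def gate (g : (pvkiT η).Gate (pvkiS η)) : (pvkiT η').Gate (pvkiS η') := pvcoGate F.isoK F.hsK g

theorem posK (e : (delbPl (cfSites η)).Dart) :
    pvzfPlPos (cfSites η') (F.isoK.fD e) = (vorSim a b (pvzfPlPos (cfSites η) e).1, vorSim a b (pvzfPlPos (cfSites η) e).2.1, vorSim a b (pvzfPlPos (cfSites η) e).2.2) := by
  unfold pvzfPlPos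
  have h1 := F.isoK.src e
  have h2 := F.isoK.tgt e
  have h3 := F.isoK.apex e
  rw [h1, h2, h3]
  rfl

/-- **a field of 107 under a frame** -/
theorem pl {Ψ Ψ' : PvzfPred ℂ}
    (h : ∀ e, Ψ' _ _ (pvkiT η') Subtype.val (pvkiS η') (F.isoK.fD e) ↔ Ψ _ _ (pvkiT η) Subtype.val (pvkiS η) e) (M : Set ℂ) :
    pvzfPl id Ψ' (pvkdWt (vorSim a b '' M)) η' = a * pvzfPl id Ψ (pvkdWt M) η := by
  unfold pvzfPl
  have e : pvzfPlS id Ψ' η' = F.isoK.fD '' pvzfPlS id Ψ η := pvco_setOf F.isoK h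
  rw [e, finsum_mem_image F.isoK.fD.injective.injOn, mul_finsum_mem]
  refine finsum_mem_congr rfl fun x _ => ?_
  rw [F.posK, pvco_W F.a0]

end PvcoFr

theorem pvco_eqns_cite3 : True := by
  have := @PvcoFr.gate.eq_1; have := @PvcoFr.isoK.eq_1
  trivial

theorem pvco_zo (𝔤 : PvkdGeo) (a b z d : ℂ) (τ : PvtTurn) : vorSim a b (𝔤.zo z d τ) = 𝔤.zo (vorSim a b z) (a * d) τ := by
  simp only [PvkdGeo.zo, vorSim]; ring

theorem pvco_N (F : PvcoFr η η' a b) (𝔭 : PvkdPlug) (z d : ℂ) (h : η ∈ 𝔭.N z d) : η' ∈ 𝔭.N (vorSim a b z) (a * d) := ⟨F.nice h.1, F.mesh h.2⟩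

theorem pvco_NA (F : PvcoFr η η' a b) (𝔤 : PvkdGeo) (z d : ℂ) (τ : PvtTurn) (h : η ∈ 𝔤.NA z d τ) : η' ∈ 𝔤.NA (vorSim a b z) (a * d) τ := ⟨F.nice h.1, F.mesh h.2⟩

theorem pvco_gate (F : PvcoFr η η' a b) (𝔭 : PvkdPlug) (z d : ℂ) {g : (pvkiT η).Gate (pvkiS η)} (h : PvkdGate 𝔭 η z d g) :
    PvkdGate 𝔭 η' (vorSim a b z) (a * d) (F.gate g) := pvco_gt F.hsK (F.pgK 𝔭 z d) h

/-- the second plug of a link -/
theorem pvco_pg1 (F : PvcoFr η η' a b) (𝔤 : PvkdGeo) (z d : ℂ) (τ : PvtTurn) :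
    PvcoPg F.isoK Subtype.val Subtype.val (𝔤.pg (𝔤.zo z d τ) (d * τ.rot)) (𝔤.pg (𝔤.zo (vorSim a b z) (a * d) τ) (a * d * τ.rot)) := by
  have := F.pgK 𝔤.toPvkdPlug (𝔤.zo z d τ) (d * τ.rot)
  rwa [pvco_zo, ← mul_assoc] at this

theorem pvco_C (F : PvcoFr η η' a b) (𝔭 : PvkdPlug) (z d : ℂ) (h : η ∈ 𝔭.C z d) : η' ∈ 𝔭.C (vorSim a b z) (a * d) := by
  obtain ⟨h1, g, hg⟩ := h
  exact ⟨pvco_N F 𝔭 z d h1, F.gate g, pvco_gate F 𝔭 z d hg⟩

theorem pvco_foot (F : PvcoFr η η' a b) (g : (pvkiT η).Gate (pvkiS η)) (σ β : Bool) : pvkdFoot (F.gate g) σ β = F.isoK.fV (pvkdFoot g σ β) := by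
  unfold pvkdFoot
  cases σ <;> cases β
  · show (pvkiT η').tgt (pvcoGate F.isoK F.hsK g).aIn = _
    rw [pvco_gate_aIn, F.isoK.tgt]; rfl
  · exact pvco_gate_vm F.isoK F.hsK g
  · show (pvkiT η').tgt (pvcoGate F.isoK F.hsK g).aOut = _
    rw [pvco_gate_aOut, F.isoK.tgt]; rfl
  · exact pvco_gate_vp F.isoK F.hsK g

theorem pvco_H (F : PvcoFr η η' a b) (𝔭 : PvkdPlug) (z d : ℂ) (σ β : Bool) (h : η ∈ 𝔭.H z d σ β) : η' ∈ 𝔭.H (vorSim a b z) (a * d) σ β := by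
  obtain ⟨h1, g, hg, v, hv, hj⟩ := h
  refine ⟨pvco_N F 𝔭 z d h1, F.gate g, pvco_gate F 𝔭 z d hg, F.isoK.fV v, (F.atK z d _ v).2 hv, ?_⟩
  have e : {u : ↥(cfSites η') | (u : ℂ) ∈ pvkdAt (vorSim a b z) (a * d) (𝔭.Ln σ β)} = F.isoK.fV '' {u : ↥(cfSites η) | (u : ℂ) ∈ pvkdAt z d (𝔭.Ln σ β)} := (F.atK z d _).set
  rw [e, pvco_col F.isoK F.hsK, pvco_foot, ← pvco_univ F.isoK]
  exact (pvco_join F.isoK _ _ _ _).2 hj

theorem pvco_link (F : PvcoFr η η' a b) (𝔤 : PvkdGeo) (z d : ℂ) (τ : PvtTurn) {g g' : (pvkiT η).Gate (pvkiS η)} {N : ℕ} (h : 𝔤.Link η z d τ g g' N) :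
    𝔤.Link η' (vorSim a b z) (a * d) τ (F.gate g) (F.gate g') N :=
  ⟨pvco_gate F _ z d h.1, pvco_gt F.hsK (pvco_pg1 F 𝔤 z d τ) h.2.1, (pvco_zrun F.hsK (F.atK z d _) g g' N).2 h.2.2⟩

theorem pvco_A (F : PvcoFr η η' a b) (𝔤 : PvkdGeo) (z d : ℂ) (τ : PvtTurn) (h : η ∈ 𝔤.A z d τ) : η' ∈ 𝔤.A (vorSim a b z) (a * d) τ := by
  obtain ⟨h1, g, g', N, hl⟩ := h
  exact ⟨pvco_NA F 𝔤 z d τ h1, F.gate g, F.gate g', N, pvco_link F 𝔤 z d τ hl⟩

/-- back to the first frame -/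
theorem pvco_back {a : ℂ} (ha : a ≠ 0) (b z d : ℂ) : vorSim a⁻¹ (-(a⁻¹ * b)) (vorSim a b z) = z ∧ a⁻¹ * (a * d) = d :=
  ⟨vorSim_inv_left ha b z, inv_mul_cancel_left₀ ha d⟩

theorem pvco_N_iff (F : PvcoFr η η' a b) (𝔭 : PvkdPlug) (z d : ℂ) : η' ∈ 𝔭.N (vorSim a b z) (a * d) ↔ η ∈ 𝔭.N z d := by
  refine ⟨fun h => ?_, pvco_N F 𝔭 z d⟩
  have := pvco_N F.symm 𝔭 _ _ h
  rwa [(pvco_back F.a0 b z d).1, (pvco_back F.a0 b z d).2] at this

theorem pvco_C_iff (F : PvcoFr η η' a b) (𝔭 : PvkdPlug) (z d : ℂ) : η' ∈ 𝔭.C (vorSim a b z) (a * d) ↔ η ∈ 𝔭.C z d := by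
  refine ⟨fun h => ?_, pvco_C F 𝔭 z d⟩
  have := pvco_C F.symm 𝔭 _ _ h
  rwa [(pvco_back F.a0 b z d).1, (pvco_back F.a0 b z d).2] at this

theorem pvco_H_iff (F : PvcoFr η η' a b) (𝔭 : PvkdPlug) (z d : ℂ) (σ β : Bool) : η' ∈ 𝔭.H (vorSim a b z) (a * d) σ β ↔ η ∈ 𝔭.H z d σ β := by
  refine ⟨fun h => ?_, pvco_H F 𝔭 z d σ β⟩
  have := pvco_H F.symm 𝔭 _ _ σ β h
  rwa [(pvco_back F.a0 b z d).1, (pvco_back F.a0 b z d).2] at this

theorem pvco_NA_iff (F : PvcoFr η η' a b) (𝔤 : PvkdGeo) (z d : ℂ) (τ : PvtTurn) : η' ∈ 𝔤.NA (vorSim a b z) (a * d) τ ↔ η ∈ 𝔤.NA z d τ := by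
  refine ⟨fun h => ?_, pvco_NA F 𝔤 z d τ⟩
  have := pvco_NA F.symm 𝔤 _ _ τ h
  rwa [(pvco_back F.a0 b z d).1, (pvco_back F.a0 b z d).2] at this

theorem pvco_A_iff (F : PvcoFr η η' a b) (𝔤 : PvkdGeo) (z d : ℂ) (τ : PvtTurn) : η' ∈ 𝔤.A (vorSim a b z) (a * d) τ ↔ η ∈ 𝔤.A z d τ := by
  refine ⟨fun h => ?_, pvco_A F 𝔤 z d τ⟩
  have := pvco_A F.symm 𝔤 _ _ τ h
  rwa [(pvco_back F.a0 b z d).1, (pvco_back F.a0 b z d).2] at this

/-- **the mass of the link under a frame**      (v3: choice free, no uniqueness needed) -/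
theorem pvco_XQ (F : PvcoFr η η' a b) (𝔤 : PvkdGeo) (z d : ℂ) (τ : PvtTurn) : 𝔤.XQ (vorSim a b z) (a * d) τ η' = a * 𝔤.XQ z d τ η := by
  unfold PvkdGeo.XQ
  by_cases h : η ∈ 𝔤.A z d τ
  · rw [if_pos h, if_pos ((pvco_A_iff F 𝔤 z d τ).2 h), pvco_at, mul_add, mul_add]
    congr 1
    · congr 1
      · exact F.pl (fun e => pvco_Ti F.hsK (F.pgK 𝔤.toPvkdPlug z d) e) _
      · exact F.pl (fun e => pvco_Tr F.hsK (F.pgK 𝔤.toPvkdPlug z d) (pvco_pg1 F 𝔤 z d τ) (F.atK z d _) e) _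
    · exact F.pl (fun e => pvco_Ti F.hsK (pvco_pg1 F 𝔤 z d τ) e) _
  · rw [if_neg h, if_neg fun h' => h ((pvco_A_iff F 𝔤 z d τ).1 h'), mul_zero]

end plugk

/-! ## 6. [COV] -/

theorem pvco_inv_eq (z d : ℂ) : pvthInv z d = vorSim d⁻¹ (-(d⁻¹ * z)) := by
  funext w
  simp only [pvthInv, vorSim]
  rw [div_eq_mul_inv]; ring

/-- the frame `η ↦ cfMap (pvthInv z d) η` -/
theorem pvco_fr_inv {d : ℂ} (hd : d ^ 4 = 1) (z : ℂ) (η : Conf PvPt) : PvcoFr η (cfMap (pvthInv z d) η) d⁻¹ (-(d⁻¹ * z)) := by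
  rw [pvco_inv_eq]
  exact pvco_fr_map (by rw [inv_pow, hd, inv_one]) _ η

theorem pvco_ref {d : ℂ} (hd : d ≠ 0) (z : ℂ) : vorSim d⁻¹ (-(d⁻¹ * z)) z = 0 ∧ d⁻¹ * d = 1 :=
  ⟨by simp only [vorSim]; ring, inv_mul_cancel₀ hd⟩

/-- nice + mesh of the plug -/
theorem pvco_cov_N (𝔭 : PvkdPlug) (z : ℂ) {d : ℂ} (hd : d ^ 4 = 1) : 𝔭.N z d = cfMap (pvthInv z d) ⁻¹' 𝔭.N 0 1 := by
  ext η
  have h := pvco_N_iff (pvco_fr_inv hd z η) 𝔭 z d
  rw [(pvco_ref (pvco_ne hd) z).1, (pvco_ref (pvco_ne hd) z).2] at h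
  exact h.symm

/-- the plug -/
theorem pvco_cov_C (𝔭 : PvkdPlug) (z : ℂ) {d : ℂ} (hd : d ^ 4 = 1) : 𝔭.C z d = cfMap (pvthInv z d) ⁻¹' 𝔭.C 0 1 := by
  ext η
  have h := pvco_C_iff (pvco_fr_inv hd z η) 𝔭 z d
  rw [(pvco_ref (pvco_ne hd) z).1, (pvco_ref (pvco_ne hd) z).2] at h
  exact h.symm

/-- the half lanes -/
theorem pvco_cov_H (𝔭 : PvkdPlug) (z : ℂ) {d : ℂ} (hd : d ^ 4 = 1) (σ β : Bool) : 𝔭.H z d σ β = cfMap (pvthInv z d) ⁻¹' 𝔭.H 0 1 σ β := by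
  ext η
  have h := pvco_H_iff (pvco_fr_inv hd z η) 𝔭 z d σ β
  rw [(pvco_ref (pvco_ne hd) z).1, (pvco_ref (pvco_ne hd) z).2] at h
  exact h.symm

/-- the plug with its four half lanes -/
theorem pvco_cov_CH (𝔭 : PvkdPlug) (z : ℂ) {d : ℂ} (hd : d ^ 4 = 1) : 𝔭.CH z d = cfMap (pvthInv z d) ⁻¹' 𝔭.CH 0 1 := by
  unfold PvkdPlug.CH
  rw [pvco_cov_C 𝔭 z hd, preimage_inter, preimage_iInter]
  congr 1
  refine iInter_congr fun σ => ?_
  rw [preimage_iInter]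
  exact iInter_congr fun β => pvco_cov_H 𝔭 z hd σ β

/-- nice + mesh of the link -/
theorem pvco_cov_NA (𝔤 : PvkdGeo) (z : ℂ) {d : ℂ} (hd : d ^ 4 = 1) (τ : PvtTurn) : 𝔤.NA z d τ = cfMap (pvthInv z d) ⁻¹' 𝔤.NA 0 1 τ := by
  ext η
  have h := pvco_NA_iff (pvco_fr_inv hd z η) 𝔤 z d τ
  rw [(pvco_ref (pvco_ne hd) z).1, (pvco_ref (pvco_ne hd) z).2] at h
  exact h.symm

/-- the link -/
theorem pvco_cov_A (𝔤 : PvkdGeo) (z : ℂ) {d : ℂ} (hd : d ^ 4 = 1) (τ : PvtTurn) : 𝔤.A z d τ = cfMap (pvthInv z d) ⁻¹' 𝔤.A 0 1 τ := by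
  ext η
  have h := pvco_A_iff (pvco_fr_inv hd z η) 𝔤 z d τ
  rw [(pvco_ref (pvco_ne hd) z).1, (pvco_ref (pvco_ne hd) z).2] at h
  exact h.symm

/-- the mass -/
theorem pvco_cov_X (𝔤 : PvkdGeo) (z : ℂ) {d : ℂ} (hd : d ^ 4 = 1) (τ : PvtTurn) (η : Conf PvPt) : 𝔤.XQ z d τ η = d * 𝔤.XQ 0 1 τ (cfMap (pvthInv z d) η) := by
  have h := pvco_XQ (pvco_fr_inv hd z η) 𝔤 z d τ
  rw [(pvco_ref (pvco_ne hd) z).1, (pvco_ref (pvco_ne hd) z).2] at h
  rw [h, mul_inv_cancel_left₀ (pvco_ne hd)]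

/-- **[COV]** of `Tr/PlugK` (v3), NO HYPOTHESIS -/
theorem pvco_cov (𝔤 : PvkdGeo) : 𝔤.Cov where
  C z _ hd := pvco_cov_C 𝔤.toPvkdPlug z hd
  A z _ τ hd := pvco_cov_A 𝔤 z hd τ
  X z _ τ η hd := pvco_cov_X 𝔤 z hd τ η

end Claimed.Agent.R289
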