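import Claimed.Agent.R289.Tr.LaneQ
import Claimed.Agent.R289.Tr.Sys

/-!
# Row 289 (S0537), THE WALL, ROAD P, P16 = Tr/ForceP : FORCED CONNECTORS      (pen helper272; squad 68 `Tr/ForceN` (numbers, product), 147 `Tr/ForceW` (P16'); prefix `pvfp_`, defs `pvfp*`, `Pvfp*`)

Text of record: `origin/helper273:notes/R289/ROADP_273.md` P16 (= TR21 in the P form = D3 of `ref_131` = TEX[Cardy:plugs] Lemma 3.3, conditional bridge).
Consumer: the field `frc` of `PvsySys.Forced` (`Tr/Sys.lean` of 95; concrete system `Tr/SysP.lean` of 124):   `q e ≤ pvtiP (pvP ε) (O_u ∪ O_u') (A e) σ`   for `σ ∈ G_u ∩ G_u'`.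

DESIGN.   Everything is QUENCHED (5's `Tr/Hook`, 21's `Tr/LaneQ`, 229's `Tr/Lane`).   THE THICK BARS OF THE TEXT (risk R2 of ROADP) ARE REMOVED:
the network of a lane is ONE event `pvlnLaneEv δ c L` of 229 in which `L` is a WALK (`IsChain PvlnAdj`, repeats allowed) through ALL the adjacencies of a polyomino of fine cells (`PvfpFull L`).
* §1 HOOK (deterministic, continuum).   `PvfpNet B U δ W x0` (hubs in all cells of `W`, long crossings of all dominoes of `W`);   `pvfp_row3`, `pvfp_col3` (crossings of the 3 x 1 rectangles, joined to the hub);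
     **`pvfp_hook`** : ANY path in `B` from a point of the cell `k` which leaves the open 3 x 3 block of `k` is joined to the hub inside `B ∩ U`  (only `rsw_first_exit` + `rsw_meet`).
     `pvfp_net_of_walk` (a full walk gives a net), `pvfp_walk_exists` (every finite connected set of cells has a full walk).
* §2 GLUE.   `PvfpZone δ W A X Y` : every path of `A` from `X` to `Y` passes through a cell whose block lies in `W`, and ends off that block;   `pvfp_pass`, `pvfp_zone_of_cells` (producer: three sets of cells `E₁, Z, E₂`, `E₁` and `E₂` not adjacent);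
     **`pvfp_glue`**, **`pvfp_lane_glue`** : two side paths + the network  ⟹  one path of the colour `c` from the start of the first to the start of the second;   `pvfp_chain` : back to a chain of sites.
* §3 PROBABILITY, abstract.   `pvfp_prod` (disjoint exteriors: `P(L⁺ ∩ L⁻ | σ, σ') = P(L⁺ | σ) P(L⁻ | σ')`),   **`pvfp_bridge`** (= `pvhk_bridge` of 5 with a BAD SET OF GEOMETRIES = failure of QBX),   `pvfp_loc_up` (quenched up-ness of a local package), `pvfp_sec_off`.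
* §4 **`pvfp_forced`** (record `PvfpConn`, `PvfpConn.Ok`),   **`pvfp_forced_ev`** (EVENTUALLY in `ε`, uniform over all connectors whose walks have `≤ n` cells: this is (d): finite menu x placements),   `pvfp_sys_frc` (the field `frc`).
-/

set_option autoImplicit false
set_option linter.unusedSectionVars false
set_option linter.unusedVariables false

namespace Claimed.Agent.R289

open MeasureTheory ProbabilityTheory Set Filter Topology Metric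
open scoped ENNReal NNReal

/-! ## 1. HOOK -/

/-- the 3 x 3 block of cells round `k` -/
def pvfpBlk (k : ℤ × ℤ) : Set (ℤ × ℤ) := {k' | |k'.1 - k.1| ≤ 1 ∧ |k'.2 - k.2| ≤ 1}

/-- the OPEN 3 x 3 block round the cell `k` -/
def pvfpI3 (δ : ℝ) (k : ℤ × ℤ) : Set ℂ :=
  {z | ((k.1 : ℝ) - 1) * δ < z.re ∧ z.re < ((k.1 : ℝ) + 2) * δ ∧ ((k.2 : ℝ) - 1) * δ < z.im ∧ z.im < ((k.2 : ℝ) + 2) * δ}

/-- union of the cells of a set -/
def pvfpU (δ : ℝ) (W : Set (ℤ × ℤ)) : Set ℂ := ⋃ k ∈ W, pvlnC δ k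

/-- **a NET** on the set `W` of cells: one hub for all cells, long crossings of all dominoes -/
structure PvfpNet (B U : Set ℂ) (δ : ℝ) (W : Set (ℤ × ℤ)) (x0 : ℂ) : Prop where
  sub : ∀ k ∈ W, pvlnC δ k ⊆ U
  hub : ∀ k ∈ W, PvlnHub B U δ k x0
  dom : ∀ k ∈ W, ∀ k' ∈ W, PvlnAdj k k' → (pvlnD δ k k').Holds B

/-- the walk `L` runs through all the adjacencies of its set of cells -/
def PvfpFull (L : List (ℤ × ℤ)) : Prop := ∀ k ∈ L, ∀ k' ∈ L, PvlnAdj k k' → [k, k'] <:+: L ∨ [k', k] <:+: L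

theorem pvfp_eqns_cite : True := by
  have := @pvfpBlk.eq_1; have := @pvfpI3.eq_1; have := @pvfpU.eq_1; have := @PvfpFull.eq_1
  trivial

section hook
variable {B U : Set ℂ} {δ : ℝ} {W : Set (ℤ × ℤ)} {x0 : ℂ}

/-- left-right crossing of a 3 x 1 row of the net, joined to the hub -/
theorem pvfp_row3 (hδ : 0 ≤ δ) (h : PvfpNet B U δ W x0) (m y : ℤ) (h0 : (m - 1, y) ∈ W) (h1 : (m, y) ∈ W) (h2 : (m + 1, y) ∈ W) :
    ∃ a b : ℂ, a.re = ((m : ℝ) - 1) * δ ∧ b.re = ((m : ℝ) + 2) * δ ∧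
      JoinedIn (B ∩ rswRect (((m : ℝ) - 1) * δ) (((m : ℝ) + 2) * δ) ((y : ℝ) * δ) (((y : ℝ) + 1) * δ)) a b ∧ JoinedIn (B ∩ U) x0 a := by
  have a1 : PvlnAdj (m - 1, y) (m, y) := Or.inl ⟨rfl, Or.inl (by simp)⟩
  have a2 : PvlnAdj (m, y) (m + 1, y) := Or.inl ⟨rfl, Or.inl rfl⟩
  have d1 := h.dom _ h0 _ h1 a1
  have d2 := h.dom _ h1 _ h2 a2
  have s1 := pvln_D_sub hδ a1
  have e1 : pvlnD δ (m - 1, y) (m, y) = pvlnDH δ (m - 1, y) := by simp [pvlnD]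
  have e2 : pvlnD δ (m, y) (m + 1, y) = pvlnDH δ (m, y) := by simp [pvlnD]
  rw [e1] at d1 s1; rw [e2] at d2
  obtain ⟨a, ha, b', hb', hab'⟩ := d1
  obtain ⟨a', ha', b, hb, hab⟩ := d2
  obtain ⟨_, _, c, d, _, _, hc, hd, _, hcd, _, hx0c⟩ := h.hub _ h1
  simp only [pvlnDH, rswLR, rswRect, mem_ofPred_eq, Int.cast_sub, Int.cast_one] at ha hb' ha' hb
  have hδm : ((m : ℝ) - 1) * δ ≤ (m : ℝ) * δ := by nlinarith
  have hδm1 : (m : ℝ) * δ ≤ ((m : ℝ) + 1) * δ := by nlinarith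
  have hδm2 : ((m : ℝ) + 1) * δ ≤ ((m : ℝ) + 2) * δ := by nlinarith
  have hare : a.re = ((m : ℝ) - 1) * δ := le_antisymm ha.2.1 ha.1
  have hb're : b'.re = ((m : ℝ) + 1) * δ := by
    have := le_antisymm hb'.2.1 hb'.1
    rw [this]; ring
  have ha're : a'.re = (m : ℝ) * δ := le_antisymm ha'.2.1 ha'.1
  have hbre : b.re = ((m : ℝ) + 2) * δ := le_antisymm hb.2.1 hb.1
  obtain ⟨z1, k1, k2⟩ := rsw_meet hab' hcd (fun z hz => by
      have := hz.2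
      simp only [pvlnC, rswRect, mem_ofPred_eq] at this
      rw [hare, hb're]; exact ⟨by linarith [this.1], this.2.1⟩) (fun z hz => by
      have := hz.2
      simp only [pvlnDH, rswLR, rswRect, mem_ofPred_eq] at this
      rw [hc, hd]; exact ⟨this.2.2.1, this.2.2.2⟩)
  obtain ⟨z2, k3, k4⟩ := rsw_meet hab hcd (fun z hz => by
      have := hz.2
      simp only [pvlnC, rswRect, mem_ofPred_eq] at this
      rw [ha're, hbre]; exact ⟨this.1, by linarith [this.2.1]⟩) (fun z hz => by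
      have := hz.2
      simp only [pvlnDH, rswLR, rswRect, mem_ofPred_eq] at this
      rw [hc, hd]; exact ⟨this.2.2.1, this.2.2.2⟩)
  set R3 := rswRect (((m : ℝ) - 1) * δ) (((m : ℝ) + 2) * δ) ((y : ℝ) * δ) (((y : ℝ) + 1) * δ) with hR3
  have i1 : (pvlnDH δ (m - 1, y)).K ⊆ R3 := by
    intro z hz
    simp only [pvlnDH, rswLR, rswRect, mem_ofPred_eq, Int.cast_sub, Int.cast_one] at hz
    exact ⟨hz.1, by nlinarith [hz.2.1], hz.2.2.1, hz.2.2.2⟩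
  have i2 : (pvlnDH δ (m, y)).K ⊆ R3 := by
    intro z hz
    simp only [pvlnDH, rswLR, rswRect, mem_ofPred_eq] at hz
    exact ⟨by linarith [hz.1], hz.2.1, hz.2.2.1, hz.2.2.2⟩
  have i3 : pvlnC δ (m, y) ⊆ R3 := by
    intro z hz
    simp only [pvlnC, rswRect, mem_ofPred_eq] at hz
    exact ⟨by linarith [hz.1], by linarith [hz.2.1], hz.2.2.1, hz.2.2.2⟩
  refine ⟨a, b, hare, hbre, ?_, ?_⟩
  · exact (((k1.mono (inter_subset_inter_right _ i1)).trans (k2.symm.mono (inter_subset_inter_right _ i3))).trans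
      ((k4.mono (inter_subset_inter_right _ i3)).trans (k3.symm.mono (inter_subset_inter_right _ i2)))).trans (hab.mono (inter_subset_inter_right _ i2))
  · have u1 : (pvlnDH δ (m - 1, y)).K ⊆ U := s1.trans (union_subset (h.sub _ h0) (h.sub _ h1))
    exact (hx0c.trans (k2.mono (inter_subset_inter_right _ (h.sub _ h1)))).trans (k1.symm.mono (inter_subset_inter_right _ u1))

/-- bottom-top crossing of a 1 x 3 column of the net, joined to the hub -/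
theorem pvfp_col3 (hδ : 0 ≤ δ) (h : PvfpNet B U δ W x0) (m y : ℤ) (h0 : (m, y - 1) ∈ W) (h1 : (m, y) ∈ W) (h2 : (m, y + 1) ∈ W) :
    ∃ c d : ℂ, c.im = ((y : ℝ) - 1) * δ ∧ d.im = ((y : ℝ) + 2) * δ ∧
      JoinedIn (B ∩ rswRect ((m : ℝ) * δ) (((m : ℝ) + 1) * δ) (((y : ℝ) - 1) * δ) (((y : ℝ) + 2) * δ)) c d ∧ JoinedIn (B ∩ U) x0 c := by
  have a1 : PvlnAdj (m, y - 1) (m, y) := Or.inr ⟨rfl, Or.inl (by simp)⟩
  have a2 : PvlnAdj (m, y) (m, y + 1) := Or.inr ⟨rfl, Or.inl rfl⟩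
  have d1 := h.dom _ h0 _ h1 a1
  have d2 := h.dom _ h1 _ h2 a2
  have s1 := pvln_D_sub hδ a1
  have e1 : pvlnD δ (m, y - 1) (m, y) = pvlnDV δ (m, y - 1) := by
    have : ¬ (y = y - 1) := by omega
    simp [pvlnD, this]
  have e2 : pvlnD δ (m, y) (m, y + 1) = pvlnDV δ (m, y) := by simp [pvlnD]
  rw [e1] at d1 s1; rw [e2] at d2
  obtain ⟨a, ha, b', hb', hab'⟩ := d1
  obtain ⟨a', ha', b, hb, hab⟩ := d2
  obtain ⟨c, d, _, _, hc, hd, _, _, hcd, _, hx0c, _⟩ := h.hub _ h1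
  simp only [pvlnDV, rswTB, rswRect, mem_ofPred_eq, Int.cast_sub, Int.cast_one] at ha hb' ha' hb
  have hδm : ((y : ℝ) - 1) * δ ≤ (y : ℝ) * δ := by nlinarith
  have hδm1 : (y : ℝ) * δ ≤ ((y : ℝ) + 1) * δ := by nlinarith
  have hδm2 : ((y : ℝ) + 1) * δ ≤ ((y : ℝ) + 2) * δ := by nlinarith
  have hare : a.im = ((y : ℝ) - 1) * δ := le_antisymm ha.2.2.2 ha.2.2.1
  have hb're : b'.im = ((y : ℝ) + 1) * δ := by
    have := le_antisymm hb'.2.2.2 hb'.2.2.1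
    rw [this]; ring
  have ha're : a'.im = (y : ℝ) * δ := le_antisymm ha'.2.2.2 ha'.2.2.1
  have hbre : b.im = ((y : ℝ) + 2) * δ := le_antisymm hb.2.2.2 hb.2.2.1
  obtain ⟨z1, k2, k1⟩ := rsw_meet hcd hab' (fun z hz => by
      have := hz.2
      simp only [pvlnDV, rswTB, rswRect, mem_ofPred_eq] at this
      rw [hc, hd]; exact ⟨this.1, this.2.1⟩) (fun z hz => by
      have := hz.2
      simp only [pvlnC, rswRect, mem_ofPred_eq] at this
      rw [hare, hb're]; exact ⟨by linarith [this.2.2.1], this.2.2.2⟩)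
  obtain ⟨z2, k4, k3⟩ := rsw_meet hcd hab (fun z hz => by
      have := hz.2
      simp only [pvlnDV, rswTB, rswRect, mem_ofPred_eq] at this
      rw [hc, hd]; exact ⟨this.1, this.2.1⟩) (fun z hz => by
      have := hz.2
      simp only [pvlnC, rswRect, mem_ofPred_eq] at this
      rw [ha're, hbre]; exact ⟨this.2.2.1, by linarith [this.2.2.2]⟩)
  set R3 := rswRect ((m : ℝ) * δ) (((m : ℝ) + 1) * δ) (((y : ℝ) - 1) * δ) (((y : ℝ) + 2) * δ) with hR3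
  have i1 : (pvlnDV δ (m, y - 1)).K ⊆ R3 := by
    intro z hz
    simp only [pvlnDV, rswTB, rswRect, mem_ofPred_eq, Int.cast_sub, Int.cast_one] at hz
    exact ⟨hz.1, hz.2.1, hz.2.2.1, by nlinarith [hz.2.2.2]⟩
  have i2 : (pvlnDV δ (m, y)).K ⊆ R3 := by
    intro z hz
    simp only [pvlnDV, rswTB, rswRect, mem_ofPred_eq] at hz
    exact ⟨hz.1, hz.2.1, by linarith [hz.2.2.1], hz.2.2.2⟩
  have i3 : pvlnC δ (m, y) ⊆ R3 := by
    intro z hz
    simp only [pvlnC, rswRect, mem_ofPred_eq] at hz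
    exact ⟨hz.1, hz.2.1, by linarith [hz.2.2.1], by linarith [hz.2.2.2]⟩
  refine ⟨a, b, hare, hbre, ?_, ?_⟩
  · exact (((k1.mono (inter_subset_inter_right _ i1)).trans (k2.symm.mono (inter_subset_inter_right _ i3))).trans
      ((k4.mono (inter_subset_inter_right _ i3)).trans (k3.symm.mono (inter_subset_inter_right _ i2)))).trans (hab.mono (inter_subset_inter_right _ i2))
  · have u1 : (pvlnDV δ (m, y - 1)).K ⊆ U := s1.trans (union_subset (h.sub _ h0) (h.sub _ h1))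
    exact (hx0c.trans (k2.mono (inter_subset_inter_right _ (h.sub _ h1)))).trans (k1.symm.mono (inter_subset_inter_right _ u1))

/-- the closed block is covered by its nine cells -/
theorem pvfp_block_sub (hδ : 0 ≤ δ) (h : PvfpNet B U δ W x0) {k : ℤ × ℤ} (hk : pvfpBlk k ⊆ W) :
    rswRect (((k.1 : ℝ) - 1) * δ) (((k.1 : ℝ) + 2) * δ) (((k.2 : ℝ) - 1) * δ) (((k.2 : ℝ) + 2) * δ) ⊆ U := by
  rintro z ⟨z1, z2, z3, z4⟩
  obtain ⟨i, hi, hi1, hi2⟩ : ∃ i : ℤ, |i - k.1| ≤ 1 ∧ (i : ℝ) * δ ≤ z.re ∧ z.re ≤ ((i : ℝ) + 1) * δ := by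
    by_cases c1 : z.re ≤ (k.1 : ℝ) * δ
    · exact ⟨k.1 - 1, by simp, by push_cast; exact z1, by push_cast; linarith⟩
    by_cases c2 : z.re ≤ ((k.1 : ℝ) + 1) * δ
    · exact ⟨k.1, by simp, by linarith, c2⟩
    · exact ⟨k.1 + 1, by simp, by push_cast; linarith, by push_cast; linarith⟩
  obtain ⟨j, hj, hj1, hj2⟩ : ∃ j : ℤ, |j - k.2| ≤ 1 ∧ (j : ℝ) * δ ≤ z.im ∧ z.im ≤ ((j : ℝ) + 1) * δ := by
    by_cases c1 : z.im ≤ (k.2 : ℝ) * δ
    · exact ⟨k.2 - 1, by simp, by push_cast; exact z3, by push_cast; linarith⟩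
    by_cases c2 : z.im ≤ ((k.2 : ℝ) + 1) * δ
    · exact ⟨k.2, by simp, by linarith, c2⟩
    · exact ⟨k.2 + 1, by simp, by push_cast; linarith, by push_cast; linarith⟩
  exact h.sub (i, j) (hk ⟨hi, hj⟩) ⟨hi1, hi2, hj1, hj2⟩

/-- **HOOK**: a path in `B` from a point of the cell `k` which leaves the open block of `k` is joined to the hub -/
theorem pvfp_hook (hδ : 0 ≤ δ) (h : PvfpNet B U δ W x0) {k : ℤ × ℤ} (hk : pvfpBlk k ⊆ W) {p q : ℂ} (hp : p ∈ pvlnC δ k) (hpq : JoinedIn B p q)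
    (hq : q ∉ pvfpI3 δ k) : JoinedIn (B ∩ U) x0 p := by
  obtain ⟨m, y⟩ := k
  have hblk := pvfp_block_sub hδ h hk
  simp only at hblk
  obtain ⟨p1, p2, p3, p4⟩ := hp
  simp only at p1 p2 p3 p4
  have e1 : ((m : ℝ) - 1) * δ ≤ (m : ℝ) * δ := by nlinarith
  have e2 : ((m : ℝ) + 1) * δ ≤ ((m : ℝ) + 2) * δ := by nlinarith
  have e3 : ((y : ℝ) - 1) * δ ≤ (y : ℝ) * δ := by nlinarith
  have e4 : ((y : ℝ) + 1) * δ ≤ ((y : ℝ) + 2) * δ := by nlinarith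
  obtain ⟨z, hz, hzb⟩ := rsw_first_exit (x0 := ((m : ℝ) - 1) * δ) (x1 := ((m : ℝ) + 2) * δ) (y0 := ((y : ℝ) - 1) * δ) (y1 := ((y : ℝ) + 2) * δ) hpq
    ⟨by linarith, by linarith, by linarith, by linarith⟩ hq
  have mem : ∀ i j : ℤ, |i - m| ≤ 1 → |j - y| ≤ 1 → (i, j) ∈ W := fun i j hi hj => hk ⟨hi, hj⟩
  have hU : B ∩ rswRect (((m : ℝ) - 1) * δ) (((m : ℝ) + 2) * δ) (((y : ℝ) - 1) * δ) (((y : ℝ) + 2) * δ) ⊆ B ∩ U := inter_subset_inter_right _ hblk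
  rcases hzb with hz0 | hz0 | hz0 | hz0
  · -- exit on the left
    obtain ⟨c, d, hc, hd, hcd, hx⟩ := pvfp_col3 hδ h (m - 1) y (mem _ _ (by simp) (by simp)) (mem _ _ (by simp) (by simp)) (mem _ _ (by simp) (by simp))
    push_cast at hcd
    obtain ⟨w, k1, k2⟩ := rsw_meet hz.symm hcd (fun v hv => by rw [hz0]; exact ⟨hv.2.1, by linarith [hv.2.2.1]⟩)
      (fun v hv => by rw [hc, hd]; exact ⟨hv.2.2.2.1, hv.2.2.2.2⟩)
    have i1 : rswRect (((m : ℝ) - 1) * δ) (((m : ℝ) - 1 + 1) * δ) (((y : ℝ) - 1) * δ) (((y : ℝ) + 2) * δ) ⊆ U := by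
      refine Subset.trans ?_ hblk
      rintro v ⟨v1, v2, v3, v4⟩
      exact ⟨v1, by linarith, v3, v4⟩
    exact (hx.trans (k2.mono (inter_subset_inter_right _ i1))).trans ((k1.symm.trans hz.symm).mono hU)
  · -- exit on the right
    obtain ⟨c, d, hc, hd, hcd, hx⟩ := pvfp_col3 hδ h (m + 1) y (mem _ _ (by simp) (by simp)) (mem _ _ (by simp) (by simp)) (mem _ _ (by simp) (by simp))
    push_cast at hcd
    obtain ⟨w, k1, k2⟩ := rsw_meet hz hcd (fun v hv => by rw [hz0]; exact ⟨by linarith [hv.2.1], by linarith [hv.2.2.1]⟩)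
      (fun v hv => by rw [hc, hd]; exact ⟨hv.2.2.2.1, hv.2.2.2.2⟩)
    have i1 : rswRect (((m : ℝ) + 1) * δ) (((m : ℝ) + 1 + 1) * δ) (((y : ℝ) - 1) * δ) (((y : ℝ) + 2) * δ) ⊆ U := by
      refine Subset.trans ?_ hblk
      rintro v ⟨v1, v2, v3, v4⟩
      exact ⟨by linarith, by linarith, v3, v4⟩
    exact (hx.trans (k2.mono (inter_subset_inter_right _ i1))).trans (k1.symm.mono hU)
  · -- exit at the bottom
    obtain ⟨a, b, ha, hb, hab, hx⟩ := pvfp_row3 hδ h m (y - 1) (mem _ _ (by simp) (by simp)) (mem _ _ (by simp) (by simp)) (mem _ _ (by simp) (by simp))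
    push_cast at hab
    obtain ⟨w, k1, k2⟩ := rsw_meet hab hz.symm (fun v hv => by rw [ha, hb]; exact ⟨hv.2.1, hv.2.2.1⟩)
      (fun v hv => by rw [hz0]; exact ⟨hv.2.2.2.1, by linarith [hv.2.2.2.2]⟩)
    have i1 : rswRect (((m : ℝ) - 1) * δ) (((m : ℝ) + 2) * δ) (((y : ℝ) - 1) * δ) (((y : ℝ) - 1 + 1) * δ) ⊆ U := by
      refine Subset.trans ?_ hblk
      rintro v ⟨v1, v2, v3, v4⟩
      exact ⟨v1, v2, v3, by linarith⟩
    exact (hx.trans (k1.mono (inter_subset_inter_right _ i1))).trans ((k2.symm.trans hz.symm).mono hU)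
  · -- exit at the top
    obtain ⟨a, b, ha, hb, hab, hx⟩ := pvfp_row3 hδ h m (y + 1) (mem _ _ (by simp) (by simp)) (mem _ _ (by simp) (by simp)) (mem _ _ (by simp) (by simp))
    push_cast at hab
    obtain ⟨w, k1, k2⟩ := rsw_meet hab hz (fun v hv => by rw [ha, hb]; exact ⟨hv.2.1, hv.2.2.1⟩)
      (fun v hv => by rw [hz0]; exact ⟨by linarith [hv.2.2.2.1], by linarith [hv.2.2.2.2]⟩)
    have i1 : rswRect (((m : ℝ) - 1) * δ) (((m : ℝ) + 2) * δ) (((y : ℝ) + 1) * δ) (((y : ℝ) + 1 + 1) * δ) ⊆ U := by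
      refine Subset.trans ?_ hblk
      rintro v ⟨v1, v2, v3, v4⟩
      exact ⟨v1, v2, by linarith, by linarith⟩
    exact (hx.trans (k1.mono (inter_subset_inter_right _ i1))).trans (k2.symm.mono hU)

/-- the pattern of a domino which the walk runs through -/
theorem pvfp_D_mem (δ : ℝ) {L : List (ℤ × ℤ)} {k k' : ℤ × ℤ} (hadj : PvlnAdj k k') (h : [k, k'] <:+: L ∨ [k', k] <:+: L) : pvlnD δ k k' ∈ pvlnLane δ L := by
  have hsymm : pvlnD δ k k' = pvlnD δ k' k := by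
    obtain ⟨k1, k2⟩ := k
    obtain ⟨m1, m2⟩ := k'
    unfold pvlnD
    simp only [PvlnAdj] at hadj
    rcases hadj with ⟨h1, _⟩ | ⟨h1, h2⟩
    · subst h1
      simp [min_comm]
    · subst h1
      by_cases e : m2 = k2
      · subst e
        simp
      · have e' : ¬ k2 = m2 := fun h => e h.symm
        simp [e, e', min_comm]
  have key : ∀ (a b : ℤ × ℤ) (s t : List (ℤ × ℤ)), pvlnD δ a b ∈ pvlnLane δ (s ++ a :: b :: t) := by
    intro a b s t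
    induction s with
    | nil => simp [pvlnLane]
    | cons c s ih =>
      cases s with
      | nil =>
        simp only [List.nil_append] at ih
        simp only [List.cons_append, List.nil_append, pvlnLane, List.mem_cons]
        right; right; right
        simpa only [pvlnLane, List.mem_cons] using ih
      | cons d s =>
        simp only [List.cons_append] at ih
        simp only [List.cons_append, pvlnLane, List.mem_cons]
        right; right; right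
        exact ih
  rcases h with ⟨s, t, rfl⟩ | ⟨s, t, rfl⟩
  · have := key k k' s t
    simpa using this
  · rw [hsymm]
    have := key k' k s t
    simpa using this

/-- a full walk whose patterns hold gives a net -/
theorem pvfp_net_of_walk (hδ : 0 ≤ δ) {L : List (ℤ × ℤ)} (hne : L ≠ []) (hc : L.IsChain PvlnAdj) (hf : PvfpFull L) (hB : ∀ e ∈ pvlnLane δ L, e.Holds B) :
    ∃ x0, PvfpNet B (pvlnU δ L) δ {k | k ∈ L} x0 := by
  obtain ⟨x0, hx0⟩ := pvln_lane_det hδ L hne hc hB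
  exact ⟨x0, fun k hk => pvln_C_sub_U hk, fun k hk => hx0 k hk, fun k hk k' hk' hadj => hB _ (pvfp_D_mem δ hadj (hf k hk k' hk' hadj))⟩

/-- every finite connected set of cells carries a full walk -/
theorem pvfp_walk_exists {W : Set (ℤ × ℤ)} (hfin : W.Finite) (hne : W.Nonempty)
    (hconn : ∀ a ∈ W, ∀ b ∈ W, Relation.ReflTransGen (fun x y => PvlnAdj x y ∧ y ∈ W) a b) :
    ∃ L : List (ℤ × ℤ), L ≠ [] ∧ L.IsChain PvlnAdj ∧ PvfpFull L ∧ {k | k ∈ L} = W := by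
  have hsymm : ∀ a b : ℤ × ℤ, PvlnAdj a b → PvlnAdj b a := by
    rintro ⟨a1, a2⟩ ⟨b1, b2⟩ h
    simp only [PvlnAdj] at h ⊢
    omega
  have ext : ∀ (e : ℤ × ℤ) (t : List (ℤ × ℤ)), (e :: t).IsChain PvlnAdj → (∀ x ∈ e :: t, x ∈ W) → ∀ b ∈ W,
      ∃ t', (b :: t').IsChain PvlnAdj ∧ (∀ x ∈ b :: t', x ∈ W) ∧ (e :: t) <:+ (b :: t') := by
    intro e t hc hW b hb
    have hr := hconn e (hW e List.mem_cons_self) b hb
    induction hr with
    | refl => exact ⟨t, hc, hW, List.suffix_refl _⟩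
    | @tail b c hab hbc ih =>
      have hbW : b ∈ W := by
        rcases Relation.ReflTransGen.cases_tail hab with h | ⟨d, _, hd⟩
        · rw [h]; exact hW e List.mem_cons_self
        · exact hd.2
      obtain ⟨t', h1, h2, h3⟩ := ih hbW
      refine ⟨b :: t', List.isChain_cons_cons.2 ⟨hsymm _ _ hbc.1, h1⟩, ?_, h3.trans (List.suffix_cons _ _)⟩
      intro x hx
      rcases List.mem_cons.1 hx with rfl | hx
      · exact hbc.2
      · exact h2 x hx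
  have aux : ∀ F : Finset ((ℤ × ℤ) × (ℤ × ℤ)), (∀ p ∈ F, p.1 ∈ W ∧ p.2 ∈ W) →
      ∃ (e : ℤ × ℤ) (t : List (ℤ × ℤ)), (e :: t).IsChain PvlnAdj ∧ (∀ x ∈ e :: t, x ∈ W) ∧
        ∀ p ∈ F, p.1 ∈ e :: t ∧ (PvlnAdj p.1 p.2 → [p.2, p.1] <:+: e :: t) := by
    intro F
    induction F using Finset.induction_on with
    | empty =>
      intro _
      obtain ⟨e, he⟩ := hne
      exact ⟨e, [], List.isChain_singleton _, fun x hx => by rw [List.mem_singleton.1 hx]; exact he, fun p hp => absurd hp (by simp)⟩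
    | insert p F hp ih =>
      intro hF
      obtain ⟨e, t, h1, h2, h3⟩ := ih (fun q hq => hF q (Finset.mem_insert_of_mem hq))
      obtain ⟨hp1, hp2⟩ := hF p (Finset.mem_insert_self _ _)
      obtain ⟨t', g1, g2, g3⟩ := ext e t h1 h2 p.1 hp1
      by_cases hadj : PvlnAdj p.1 p.2
      · refine ⟨p.2, p.1 :: t', List.isChain_cons_cons.2 ⟨hsymm _ _ hadj, g1⟩, ?_, ?_⟩
        · intro x hx
          rcases List.mem_cons.1 hx with rfl | hx
          · exact hp2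
          · exact g2 x hx
        · have g4 : (e :: t) <:+ (p.2 :: p.1 :: t') := g3.trans (List.suffix_cons _ _)
          intro q hq
          rcases Finset.mem_insert.1 hq with rfl | hq
          · exact ⟨by simp, fun _ => ⟨[], t', by simp⟩⟩
          · exact ⟨g4.subset (h3 q hq).1, fun ha => ((h3 q hq).2 ha).trans g4.isInfix⟩
      · refine ⟨p.1, t', g1, g2, ?_⟩
        intro q hq
        rcases Finset.mem_insert.1 hq with rfl | hq
        · exact ⟨by simp, fun ha => absurd ha hadj⟩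
        · exact ⟨g3.subset (h3 q hq).1, fun ha => ((h3 q hq).2 ha).trans g3.isInfix⟩
  obtain ⟨e, t, h1, h2, h3⟩ := aux (hfin.toFinset ×ˢ hfin.toFinset) (fun p hp => by
    rw [Finset.mem_product] at hp
    exact ⟨hfin.mem_toFinset.1 hp.1, hfin.mem_toFinset.1 hp.2⟩)
  refine ⟨e :: t, by simp, h1, ?_, ?_⟩
  · intro k hk k' hk' hadj
    exact Or.inr ((h3 (k, k') (Finset.mem_product.2 ⟨hfin.mem_toFinset.2 (h2 k hk), hfin.mem_toFinset.2 (h2 k' hk')⟩)).2 hadj)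
  · ext k
    constructor
    · intro hk
      exact h2 k hk
    · intro hk
      exact (h3 (k, k) (Finset.mem_product.2 ⟨hfin.mem_toFinset.2 hk, hfin.mem_toFinset.2 hk⟩)).1

end hook

/-! ## 2. GLUE -/

/-- **a HOOK ZONE** for the paths of `A` from `X` to `Y` : they pass through a cell whose block lies in `W` and they end off the open block -/
def PvfpZone (δ : ℝ) (W : Set (ℤ × ℤ)) (A X Y : Set ℂ) : Prop :=
  ∀ S : Set ℂ, S ⊆ A → ∀ x ∈ X, ∀ y ∈ Y, JoinedIn S x y → ∃ (k : ℤ × ℤ) (p : ℂ), pvfpBlk k ⊆ W ∧ p ∈ pvlnC δ k ∧ JoinedIn S x p ∧ JoinedIn S p y ∧ y ∉ pvfpI3 δ k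

/-- chain of sites of the colour `c` inside `W`, consecutive cells touch -/
def PvfpCh (η : Conf PvPt) (c : Bool) (W : Set ℂ) (u v : ℂ) : Prop :=
  Relation.ReflTransGen (fun a b => ((b, c) ∈ η.pts ∧ b ∈ W) ∧ (cfCell η a ∩ cfCell η b).Nonempty) u v

theorem pvfp_eqns_cite2 : True := by
  have := @PvfpZone.eq_1; have := @PvfpCh.eq_1
  trivial

/-- a path from a closed set to a disjoint closed set leaves their union -/
theorem pvfp_pass {S F₁ F₂ Z : Set ℂ} {x y : ℂ} (h : JoinedIn S x y) (hS : S ⊆ F₁ ∪ Z ∪ F₂) (c1 : IsClosed F₁) (c2 : IsClosed F₂) (hd : Disjoint F₁ F₂)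
    (hx : x ∈ F₁) (hy : y ∈ F₂) : ∃ p ∈ Z, JoinedIn S x p ∧ JoinedIn S p y := by
  set γ := h.somePath with hγ
  have hmem : ∀ t, γ t ∈ S := h.somePath_mem
  have hrange : range γ ⊆ S := by
    rintro _ ⟨t, rfl⟩
    exact hmem t
  have : PathConnectedSpace unitInterval := isPathConnected_iff_pathConnectedSpace.1 ((convex_Icc (0:ℝ) 1).isPathConnected ⟨0, by simp⟩)
  have hpc : IsPathConnected (range γ) := isPathConnected_range γ.continuous
  have hj : ∀ s t, JoinedIn S (γ s) (γ t) := fun s t => (hpc.joinedIn _ (mem_range_self s) _ (mem_range_self t)).mono hrange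
  by_contra hcon
  push Not at hcon
  have hall : ∀ t, γ t ∈ F₁ ∪ F₂ := by
    intro t
    rcases hS (hmem t) with (h1 | h1) | h1
    · exact Or.inl h1
    · exfalso
      have a := hj 0 t
      have b := hj t 1
      rw [γ.source] at a
      rw [γ.target] at b
      exact hcon _ h1 a b
    · exact Or.inr h1
  have hpre : IsPreconnected (univ : Set unitInterval) := isPreconnected_univ
  rw [isPreconnected_closed_iff] at hpre
  obtain ⟨t, -, ht1, ht2⟩ := hpre (γ ⁻¹' F₁) (γ ⁻¹' F₂) (c1.preimage γ.continuous) (c2.preimage γ.continuous)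
    (fun t _ => hall t) ⟨0, mem_univ _, by simpa using hx⟩ ⟨1, mem_univ _, by simpa using hy⟩
  exact (disjoint_left.1 hd) ht1 ht2

/-- **producer of zones**: `A` is covered by three finite sets of cells `E₁, Z, E₂`; no cell of `E₁` touches a cell of `E₂`; the blocks of `Z` lie in `W`; the target lies in cells off the blocks of `Z` -/
theorem pvfp_zone_of_cells {δ : ℝ} (hδ : 0 < δ) {W E₁ Z E₂ Ey : Set (ℤ × ℤ)} (f1 : E₁.Finite) (f2 : E₂.Finite)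
    (hfar : ∀ k ∈ E₁, ∀ k' ∈ E₂, k' ∉ pvfpBlk k) (hZ : ∀ k ∈ Z, pvfpBlk k ⊆ W) (hY : ∀ k ∈ Z, ∀ k' ∈ Ey, k' ∉ pvfpBlk k) (hEy : Ey ⊆ E₂) :
    PvfpZone δ W (pvfpU δ (E₁ ∪ Z ∪ E₂)) (pvfpU δ E₁) (pvfpU δ Ey) := by
  have lemA : ∀ (k k' : ℤ × ℤ) (y : ℂ), k' ∉ pvfpBlk k → y ∈ pvlnC δ k' → y ∉ pvfpI3 δ k := by
    rintro ⟨k1, k2⟩ ⟨m1, m2⟩ y hk ⟨y1, y2, y3, y4⟩ ⟨z1, z2, z3, z4⟩
    simp only at y1 y2 y3 y4 z1 z2 z3 z4
    apply hk
    have a1 : ((k1 : ℝ) - 1) * δ < ((m1 : ℝ) + 1) * δ := lt_of_lt_of_le z1 y2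
    have a2 : (m1 : ℝ) * δ < ((k1 : ℝ) + 2) * δ := lt_of_le_of_lt y1 z2
    have a3 : ((k2 : ℝ) - 1) * δ < ((m2 : ℝ) + 1) * δ := lt_of_lt_of_le z3 y4
    have a4 : (m2 : ℝ) * δ < ((k2 : ℝ) + 2) * δ := lt_of_le_of_lt y3 z4
    have b1 : ((k1 - 1 : ℤ) : ℝ) < ((m1 + 1 : ℤ) : ℝ) := by push_cast; exact lt_of_mul_lt_mul_right a1 hδ.le
    have b2 : ((m1 : ℤ) : ℝ) < ((k1 + 2 : ℤ) : ℝ) := by push_cast; exact lt_of_mul_lt_mul_right a2 hδ.le
    have b3 : ((k2 - 1 : ℤ) : ℝ) < ((m2 + 1 : ℤ) : ℝ) := by push_cast; exact lt_of_mul_lt_mul_right a3 hδ.le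
    have b4 : ((m2 : ℤ) : ℝ) < ((k2 + 2 : ℤ) : ℝ) := by push_cast; exact lt_of_mul_lt_mul_right a4 hδ.le
    rw [Int.cast_lt] at b1 b2 b3 b4
    exact ⟨abs_le.2 ⟨by simp only; omega, by simp only; omega⟩, abs_le.2 ⟨by simp only; omega, by simp only; omega⟩⟩
  have lemB : ∀ (k : ℤ × ℤ) (y : ℂ), y ∈ pvlnC δ k → y ∈ pvfpI3 δ k := by
    rintro ⟨k1, k2⟩ y ⟨y1, y2, y3, y4⟩
    simp only at y1 y2 y3 y4
    exact ⟨by simp only; nlinarith, by simp only; nlinarith, by simp only; nlinarith, by simp only; nlinarith⟩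
  have hcl : ∀ E : Set (ℤ × ℤ), E.Finite → IsClosed (pvfpU δ E) := fun E hE =>
    hE.isClosed_biUnion (fun k _ => rsw_rect_closed _ _ _ _)
  intro S hS x hx y hy hxy
  obtain ⟨ky, hky, hyk⟩ := mem_iUnion₂.1 hy
  have hd : Disjoint (pvfpU δ E₁) (pvfpU δ E₂) := by
    rw [disjoint_left]
    intro z hz1 hz2
    obtain ⟨a, ha, hza⟩ := mem_iUnion₂.1 hz1
    obtain ⟨b, hb, hzb⟩ := mem_iUnion₂.1 hz2
    exact lemA a b z (hfar a ha b hb) hzb (lemB a z hza)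
  have hS' : S ⊆ pvfpU δ E₁ ∪ pvfpU δ Z ∪ pvfpU δ E₂ := by
    intro z hz
    obtain ⟨a, ha, hza⟩ := mem_iUnion₂.1 (hS hz)
    rcases ha with (ha | ha) | ha
    · exact Or.inl (Or.inl (mem_biUnion ha hza))
    · exact Or.inl (Or.inr (mem_biUnion ha hza))
    · exact Or.inr (mem_biUnion ha hza)
  obtain ⟨p, hp, j1, j2⟩ := pvfp_pass hxy hS' (hcl _ f1) (hcl _ f2) hd hx (mem_biUnion (hEy hky) hyk)
  obtain ⟨k, hk, hpk⟩ := mem_iUnion₂.1 hp
  exact ⟨k, p, hZ k hk, hpk, j1, j2, lemA k ky y (hY k hk ky hky) hyk⟩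

/-- **GLUE**: two side paths and a net -/
theorem pvfp_glue {B U A A' X Y X' Y' : Set ℂ} {δ : ℝ} {W : Set (ℤ × ℤ)} {x0 : ℂ} (hδ : 0 ≤ δ) (h : PvfpNet B U δ W x0)
    (hz : PvfpZone δ W A X Y) (hz' : PvfpZone δ W A' X' Y') {x y x' y' : ℂ} (h1 : JoinedIn (B ∩ A) x y) (hx : x ∈ X) (hy : y ∈ Y)
    (h2 : JoinedIn (B ∩ A') x' y') (hx' : x' ∈ X') (hy' : y' ∈ Y') : JoinedIn (B ∩ (A ∪ U ∪ A')) x x' := by
  obtain ⟨k, p, hk, hp, a1, a2, a3⟩ := hz (B ∩ A) inter_subset_right x hx y hy h1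
  obtain ⟨k', p', hk', hp', b1, b2, b3⟩ := hz' (B ∩ A') inter_subset_right x' hx' y' hy' h2
  have c1 := pvfp_hook hδ h hk hp (a2.mono inter_subset_left) a3
  have c2 := pvfp_hook hδ h hk' hp' (b2.mono inter_subset_left) b3
  have m1 : B ∩ A ⊆ B ∩ (A ∪ U ∪ A') := inter_subset_inter_right _ (fun z hz => Or.inl (Or.inl hz))
  have m2 : B ∩ U ⊆ B ∩ (A ∪ U ∪ A') := inter_subset_inter_right _ (fun z hz => Or.inl (Or.inr hz))
  have m3 : B ∩ A' ⊆ B ∩ (A ∪ U ∪ A') := inter_subset_inter_right _ (fun z hz => Or.inr hz)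
  exact ((a1.mono m1).trans (c1.symm.mono m2)).trans ((c2.mono m2).trans (b1.symm.mono m3))

/-- **GLUE on the event of a full walk** (robust: `η'` is any configuration which agrees with `η` in the window) -/
theorem pvfp_lane_glue {δ : ℝ} (hδ : 0 < δ) {c : Bool} {L : List (ℤ × ℤ)} (hne : L ≠ []) (hc : L.IsChain PvlnAdj) (hf : PvfpFull L) {η η' : Conf PvPt}
    (hη : η ∈ pvlnLaneEv δ c L) (hη' : Conf.restr (pvlnW δ L ×ˢ univ) η' = Conf.restr (pvlnW δ L ×ˢ univ) η) {A A' X Y X' Y' : Set ℂ}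
    (hz : PvfpZone δ {k | k ∈ L} A X Y) (hz' : PvfpZone δ {k | k ∈ L} A' X' Y') {x y x' y' : ℂ} (h1 : JoinedIn (pvlnReg c η' ∩ A) x y) (hx : x ∈ X) (hy : y ∈ Y)
    (h2 : JoinedIn (pvlnReg c η' ∩ A') x' y') (hx' : x' ∈ X') (hy' : y' ∈ Y') : JoinedIn (pvlnReg c η' ∩ (A ∪ pvlnU δ L ∪ A')) x x' := by
  have hB := (pvln_loc_robust (pvln_lane_fit hδ hc) hη hη').1
  obtain ⟨x0, hnet⟩ := pvfp_net_of_walk hδ.le hne hc hf hB
  exact pvfp_glue hδ.le hnet hz hz' h1 hx hy h2 hx' hy'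

/-- **back to the sites**: a path of the colour `c` between two sites gives a chain of sites of the colour `c` -/
theorem pvfp_chain {η : Conf PvPt} (hLF : PvLF η) (c : Bool) {U W : Set ℂ} {ρ : ℝ} (hnet : ∀ z ∈ U, ∃ s ∈ cfSites η, ‖s - z‖ < ρ)
    (hW : ∀ z ∈ U, ∀ w : ℂ, ‖w - z‖ < ρ → w ∈ W) {x y : ℂ} (hx : x ∈ cfSites η) (hy : y ∈ cfSites η) (h : JoinedIn (pvlnReg c η ∩ U) x y) :
    (x, c) ∈ η.pts ∧ x ∈ W ∧ PvfpCh η c W x y := by
  have lf : VorLF (cfSites η) := pvr_lf hLF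
  -- the sites of the colour `c`
  set A : Set ℂ := {v | (v, c) ∈ η.pts} with hA
  have hAsub : A ⊆ cfSites η := fun v hv => ⟨(v, c), hv, rfl⟩
  have hreg : pvlnReg c η = vorUn (cfSites η) A := by
    cases c
    · exact pvr_W_eq_un hLF
    · exact pvr_B_eq_un hLF
  obtain ⟨γ, hγ⟩ := h
  have hsub : range γ ⊆ vorUn (cfSites η) A ∩ U := by
    rintro _ ⟨t, rfl⟩
    rw [← hreg]
    exact hγ t
  obtain ⟨a, ha, b, hb, hxa, hyb, hch⟩ := vorch_chain_of_preconnected lf hAsub (isPreconnected_range γ.continuous) hsub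
    (x := x) (y := y) ⟨0, γ.source⟩ ⟨1, γ.target⟩
  have hclose : ∀ v z : ℂ, z ∈ vorCell (cfSites η) v → z ∈ U → ‖v - z‖ < ρ := by
    intro v z hzv hzU
    obtain ⟨s, hs, hsz⟩ := hnet z hzU
    calc ‖v - z‖ = ‖z - v‖ := norm_sub_rev _ _
      _ ≤ ‖z - s‖ := hzv s hs
      _ = ‖s - z‖ := norm_sub_rev _ _
      _ < ρ := hsz
  -- a site lies only in its own cell
  have hown : ∀ s v : ℂ, s ∈ cfSites η → s ∈ vorCell (cfSites η) v → v = s := by
    intro s v hs hsv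
    have h0 := hsv s hs
    rw [sub_self, norm_zero] at h0
    exact (sub_eq_zero.1 (norm_le_zero_iff.1 h0)).symm
  have eax : a = x := hown x a hx hxa.1
  have eby : b = y := hown y b hy hyb.1
  subst eax; subst eby
  refine ⟨ha, hW a hxa.2 a (hclose a a hxa.1 hxa.2), ?_⟩
  refine Relation.ReflTransGen.mono ?_ _ _ hch
  rintro v w ⟨-, hw, z, ⟨hzv, hzw⟩, hzU⟩
  exact ⟨⟨hw, hW z hzU w (hclose w z hzw hzU)⟩, ⟨z, by rw [cfCell_eq_vor]; exact hzv, by rw [cfCell_eq_vor]; exact hzw⟩⟩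

/-! ## 3. probability, abstract -/

/-- **disjoint exteriors** -/
theorem pvfp_prod (ε : ℝ) {O O' T T' : Set PvPt} (mO : MeasurableSet O) (mO' : MeasurableSet O') (mT : MeasurableSet T) (mT' : MeasurableSet T')
    (hd : Disjoint (O ∪ T) (O' ∪ T')) {𝒜 𝒜' : Set (Conf PvPt)} (mA : MeasurableSet 𝒜) (mA' : MeasurableSet 𝒜')
    (rA : Conf.ReadsSet (O ∪ T) 𝒜) (rA' : Conf.ReadsSet (O' ∪ T') 𝒜') (σ : Conf PvPt) :
    pvtiP (pvP ε) (O ∪ O') (𝒜 ∩ 𝒜') σ = pvtiP (pvP ε) O 𝒜 σ * pvtiP (pvP ε) O' 𝒜' σ := by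
  have hdl := Set.disjoint_left.1 hd
  -- the two sections
  have e1 : ∀ η, Conf.restr (O ∪ T) (Conf.spl (O ∪ O') (σ, η)) = Conf.restr (O ∪ T) (Conf.spl O (σ, η)) := by
    intro η
    ext p
    simp only [Conf.restr, Conf.spl, Conf.union, mem_inter_iff, mem_union, mem_compl_iff]
    constructor
    · rintro ⟨h | h, hp⟩
      · rcases h.2 with h2 | h2
        · exact ⟨Or.inl ⟨h.1, h2⟩, hp⟩
        · exact absurd (Or.inl h2) (hdl hp)
      · exact ⟨Or.inr ⟨h.1, fun h2 => h.2 (Or.inl h2)⟩, hp⟩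
    · rintro ⟨h | h, hp⟩
      · exact ⟨Or.inl ⟨h.1, Or.inl h.2⟩, hp⟩
      · refine ⟨Or.inr ⟨h.1, ?_⟩, hp⟩
        rintro (h2 | h2)
        · exact h.2 h2
        · exact hdl hp (Or.inl h2)
  have e2 : ∀ η, Conf.restr (O' ∪ T') (Conf.spl (O ∪ O') (σ, η)) = Conf.restr (O' ∪ T') (Conf.spl O' (σ, η)) := by
    intro η
    ext p
    simp only [Conf.restr, Conf.spl, Conf.union, mem_inter_iff, mem_union, mem_compl_iff]
    constructor
    · rintro ⟨h | h, hp⟩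
      · rcases h.2 with h2 | h2
        · exact absurd hp (hdl (Or.inl h2))
        · exact ⟨Or.inl ⟨h.1, h2⟩, hp⟩
      · exact ⟨Or.inr ⟨h.1, fun h2 => h.2 (Or.inr h2)⟩, hp⟩
    · rintro ⟨h | h, hp⟩
      · exact ⟨Or.inl ⟨h.1, Or.inr h.2⟩, hp⟩
      · refine ⟨Or.inr ⟨h.1, ?_⟩, hp⟩
        rintro (h2 | h2)
        · exact hdl (Or.inl h2) hp
        · exact h.2 h2
  have s1 : pvhkSec (O ∪ O') σ 𝒜 = pvhkSec O σ 𝒜 := by
    ext η
    show Conf.spl (O ∪ O') (σ, η) ∈ 𝒜 ↔ Conf.spl O (σ, η) ∈ 𝒜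
    rw [← rA (Conf.spl (O ∪ O') (σ, η)), e1, rA]
  have s2 : pvhkSec (O ∪ O') σ 𝒜' = pvhkSec O' σ 𝒜' := by
    ext η
    show Conf.spl (O ∪ O') (σ, η) ∈ 𝒜' ↔ Conf.spl O' (σ, η) ∈ 𝒜'
    rw [← rA' (Conf.spl (O ∪ O') (σ, η)), e2, rA']
  -- the sections read `T`, `T'`
  have r1 : Conf.ReadsSet T (pvhkSec O σ 𝒜) := by
    intro η
    show Conf.spl O (σ, Conf.restr T η) ∈ 𝒜 ↔ Conf.spl O (σ, η) ∈ 𝒜
    rw [← rA (Conf.spl O (σ, Conf.restr T η)), ← rA (Conf.spl O (σ, η))]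
    have : Conf.restr (O ∪ T) (Conf.spl O (σ, Conf.restr T η)) = Conf.restr (O ∪ T) (Conf.spl O (σ, η)) := by
      ext p
      simp only [Conf.restr, Conf.spl, Conf.union, mem_inter_iff, mem_union, mem_compl_iff]
      constructor
      · rintro ⟨h | h, hp⟩
        · exact ⟨Or.inl h, hp⟩
        · exact ⟨Or.inr ⟨h.1.1, h.2⟩, hp⟩
      · rintro ⟨h | h, hp⟩
        · exact ⟨Or.inl h, hp⟩
        · exact ⟨Or.inr ⟨⟨h.1, hp.resolve_left h.2⟩, h.2⟩, hp⟩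
    rw [this]
  have r2 : Conf.ReadsSet T' (pvhkSec O' σ 𝒜') := by
    intro η
    show Conf.spl O' (σ, Conf.restr T' η) ∈ 𝒜' ↔ Conf.spl O' (σ, η) ∈ 𝒜'
    rw [← rA' (Conf.spl O' (σ, Conf.restr T' η)), ← rA' (Conf.spl O' (σ, η))]
    have : Conf.restr (O' ∪ T') (Conf.spl O' (σ, Conf.restr T' η)) = Conf.restr (O' ∪ T') (Conf.spl O' (σ, η)) := by
      ext p
      simp only [Conf.restr, Conf.spl, Conf.union, mem_inter_iff, mem_union, mem_compl_iff]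
      constructor
      · rintro ⟨h | h, hp⟩
        · exact ⟨Or.inl h, hp⟩
        · exact ⟨Or.inr ⟨h.1.1, h.2⟩, hp⟩
      · rintro ⟨h | h, hp⟩
        · exact ⟨Or.inl h, hp⟩
        · exact ⟨Or.inr ⟨⟨h.1, hp.resolve_left h.2⟩, h.2⟩, hp⟩
    rw [this]
  have hTT : Disjoint T T' := hd.mono subset_union_right subset_union_right
  rw [pvhk_P_apply _ (mO.union mO') σ (mA.inter mA'), pvhk_P_apply _ mO σ mA, pvhk_P_apply _ mO' σ mA', pvhk_sec_inter, s1, s2]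
  exact (pv_isPpp ε).measure_inter_reads mT mT' hTT (pvhk_sec_meas mO σ mA).nullMeasurableSet (pvhk_sec_meas mO' σ mA').nullMeasurableSet r1 r2

/-- **THE BRIDGE with a bad set of geometries** -/
theorem pvfp_bridge (ε : ℝ) {O : Set PvPt} (hO : MeasurableSet O) {𝒜 𝒦 ℰ 𝒮 : Set (Conf PvPt)} (mA : MeasurableSet 𝒜) (mK : MeasurableSet 𝒦) (mE : MeasurableSet ℰ)
    (σ : Conf PvPt) {β q d θ : ℝ≥0∞} (hA : β ≤ pvtiP (pvP ε) O 𝒜 σ) (hE : pvtiP (pvP ε) O ℰᶜ σ ≤ d) (hgeo : PvhkGeo O σ ℰ)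
    {Bad : Set PvGeoT} (hBad : pvGeo ε Bad ≤ θ)
    (hH : ∀ᵐ g ∂(pvGeo ε), PvhkGood O σ ℰ g → g ∉ Bad → q * pvQc (pvhkSec O σ 𝒜) g ≤ pvQc (pvhkSec O σ (𝒜 ∩ 𝒦)) g)
    (hS : 𝒜 ∩ 𝒦 ∩ ℰ ⊆ 𝒮) : q * (β - d - θ) ≤ pvtiP (pvP ε) O 𝒮 σ := by
  refine le_trans ?_ (pvhk_P_mono _ O σ hS)
  have h1 : β - d ≤ pvtiP (pvP ε) O (𝒜 ∩ ℰ) σ := by
    rw [tsub_le_iff_right]
    exact hA.trans ((pvhk_P_split _ hO σ mA mE).trans (by gcongr))
  set Bm := toMeasurable (pvGeo ε) Bad with hBm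
  have mB : MeasurableSet Bm := measurableSet_toMeasurable _ _
  have hBm' : pvGeo ε Bm ≤ θ := by rw [hBm, measure_toMeasurable]; exact hBad
  have hsub : Bad ⊆ Bm := subset_toMeasurable _ _
  set f : PvGeoT → ℝ≥0∞ := fun g => pvQc (pvhkSec O σ (𝒜 ∩ ℰ)) g with hf
  have mf : Measurable f := pvqu_Qc_meas (pvhk_sec_meas hO σ (mA.inter mE))
  have h2 : β - d - θ ≤ ∫⁻ g, Bmᶜ.indicator f g ∂(pvGeo ε) := by
    rw [tsub_le_iff_right]
    refine h1.trans ?_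
    rw [pvhk_P_eq ε hO σ (mA.inter mE), lintegral_indicator mB.compl, ← lintegral_add_compl f mB.compl, compl_compl]
    gcongr
    calc ∫⁻ g in Bm, f g ∂(pvGeo ε) ≤ ∫⁻ g in Bm, 1 ∂(pvGeo ε) := lintegral_mono fun g => pvqu_Qc_le_one _ g
      _ = pvGeo ε Bm := by rw [lintegral_one, Measure.restrict_apply_univ]
      _ ≤ θ := hBm'
  refine le_trans (by gcongr) ?_ (b := q * ∫⁻ g, Bmᶜ.indicator f g ∂(pvGeo ε))
  rw [pvhk_P_eq ε hO σ ((mA.inter mK).inter mE), ← lintegral_const_mul q (mf.indicator mB.compl)]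
  refine lintegral_mono_ae ?_
  filter_upwards [hH] with g hg
  by_cases hgB : g ∈ Bm
  · rw [indicator_of_notMem (by simpa using hgB), mul_zero]
    exact zero_le
  rw [indicator_of_mem (show g ∈ Bmᶜ from hgB)]
  by_cases hgood : PvhkGood O σ ℰ g
  · have e1 : pvQc (pvhkSec O σ (𝒜 ∩ ℰ)) g = pvQc (pvhkSec O σ 𝒜) g := by
      rw [pvqu_Qc_eq, pvqu_Qc_eq]
      congr 1
      ext c
      exact ⟨fun h => h.1, fun h => ⟨h, hgood c⟩⟩
    have e2 : pvQc (pvhkSec O σ (𝒜 ∩ 𝒦 ∩ ℰ)) g = pvQc (pvhkSec O σ (𝒜 ∩ 𝒦)) g := by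
      rw [pvqu_Qc_eq, pvqu_Qc_eq]
      congr 1
      ext c
      exact ⟨fun h => h.1, fun h => ⟨h, hgood c⟩⟩
    rw [hf]
    simp only
    rw [e1, e2]
    exact hg hgood fun hb => hgB (hsub hb)
  · have e1 : pvQc (pvhkSec O σ (𝒜 ∩ ℰ)) g = 0 := by
      rw [pvqu_Qc_eq]
      have : {c | pvConf (pvMerge (g, c)) ∈ pvhkSec O σ (𝒜 ∩ ℰ)} = ∅ := by
        ext c
        simp only [mem_ofPred_eq, mem_empty_iff_false, iff_false]
        intro h
        exact hgood fun c' => hgeo g c c' h.2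
      rw [this, measure_empty]
    rw [hf]
    simp only
    rw [e1, mul_zero]
    exact zero_le

/-- the mixed order of a connector: the colour `c` is up on the sites of `K₁`, the other colour on the sites of `K₂` -/
noncomputable def pvfpSg (g : PvGeoT) (c : Bool) (K₁ K₂ : Set ℂ) : PvIx → Option Bool := cond c (pvhkSg g K₁ K₂) (pvhkSg g K₂ K₁)

theorem pvfp_eqns_cite3 : True := by
  have := @pvfpSg.eq_1
  trivial

/-- one colour `b`, window in the zone in which `b` is up -/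
theorem pvfp_loc_up_aux {g : PvGeoT} (hg : PvgOk g) (b : Bool) {Kb Kw N : Set ℂ} (hd : Disjoint Kb Kw) (hN : N ⊆ cond b Kb Kw) (l : List RswTri) (cen : List ℂ) (u : ℝ) :
    PvhkUpAt g (pvhkSg g Kb Kw) (pvlnLoc N b l cen u) := by
  have hle : ∀ {η η' : Conf PvPt}, PvLe η η' → PvLe (Conf.restr (N ×ˢ univ) η) (Conf.restr (N ×ˢ univ) η') := by
    intro η η' h
    refine ⟨?_, ?_⟩
    · rw [pvra_Bk_restr, pvra_Bk_restr]; exact inter_subset_inter_left _ h.1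
    · rw [pvra_Wh_restr, pvra_Wh_restr]; exact inter_subset_inter_left _ h.2
  have hreads : ∀ η, Conf.restr (N ×ˢ univ) η ∈ (Conf.restr (N ×ˢ (univ : Set Bool)) ⁻¹' pvlnAll b l) ↔ η ∈ (Conf.restr (N ×ˢ (univ : Set Bool)) ⁻¹' pvlnAll b l) := by
    intro η
    show Conf.restr (N ×ˢ univ) (Conf.restr (N ×ˢ univ) η) ∈ pvlnAll b l ↔ Conf.restr (N ×ˢ univ) η ∈ pvlnAll b l
    rw [pvln_restr_restr]
  have hdep : PvDep {i | pvgSite g i ∈ cond b Kb Kw} {c | pvConf (pvMerge (g, c)) ∈ (Conf.restr (N ×ˢ (univ : Set Bool)) ⁻¹' pvlnAll b l)} := by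
    intro c c' h hc
    exact pvqu_loc_dep hreads g c c' (fun i hi => by
      obtain ⟨-, b', hb'⟩ := hi
      exact h i (hN hb'.1)) hc
  have h1 : PvhkUpAt g (pvhkSg g Kb Kw) (Conf.restr (N ×ˢ (univ : Set Bool)) ⁻¹' pvlnAll b l) := by
    cases b
    · refine pvhk_up_white hg hd ?_ hdep
      intro η η' _ _ h hη' e he
      exact pvlq_holds_mono (pvlq_reg_mono (hle h)).2 (hη' e he)
    · refine pvhk_up_black hg Kb Kw ?_ hdep
      intro η η' _ _ h hη e he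
      exact pvlq_holds_mono (pvlq_reg_mono (hle h)).1 (hη e he)
  have h2 : PvhkUpAt g (pvhkSg g Kb Kw) (Conf.restr (N ×ˢ (univ : Set Bool)) ⁻¹' {η | PvLF η}) :=
    pvhk_up_geo _ fun c c' _ => pvra_LF_restr (hg.ok c').pvlf _
  have h3 : PvhkUpAt g (pvhkSg g Kb Kw) (Conf.restr (N ×ˢ (univ : Set Bool)) ⁻¹' pvlnG cen u) := by
    refine pvhk_up_geo _ fun c c' h w hw => ?_
    have h0 := h w hw
    simp only [pvmGood, pvmGrid, mem_iInter] at h0 ⊢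
    intro k hk
    obtain ⟨p, hp, hpQ⟩ := h0 k hk
    obtain ⟨i, hi, rfl⟩ := pvqu_mem_conf.1 hp.1
    exact ⟨(pvgSite g i, c' i), ⟨pvqu_mem_conf.2 ⟨i, hi, rfl⟩, ⟨hp.2.1, mem_univ _⟩⟩, ⟨hpQ.1, mem_univ _⟩⟩
  exact (h1.inter h2).inter h3

/-- quenched up-ness of a local package of the colour `c` in the window `N ⊆ K₁` -/
theorem pvfp_loc_up {g : PvGeoT} (hg : PvgOk g) (c : Bool) {K₁ K₂ N : Set ℂ} (hd : Disjoint K₁ K₂) (hN : N ⊆ K₁) (l : List RswTri) (cen : List ℂ) (u : ℝ) :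
    PvhkUpAt g (pvfpSg g c K₁ K₂) (pvlnLoc N c l cen u) := by
  cases c
  · exact pvfp_loc_up_aux hg false hd.symm hN l cen u
  · exact pvfp_loc_up_aux hg true hd hN l cen u

/-- quenched up-ness of a local package of the other colour in the window `N ⊆ K₂` -/
theorem pvfp_loc_up' {g : PvGeoT} (hg : PvgOk g) (c : Bool) {K₁ K₂ N : Set ℂ} (hd : Disjoint K₁ K₂) (hN : N ⊆ K₂) (l : List RswTri) (cen : List ℂ) (u : ℝ) :
    PvhkUpAt g (pvfpSg g c K₁ K₂) (pvlnLoc N (!c) l cen u) := by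
  cases c
  · exact pvfp_loc_up_aux hg true hd.symm hN l cen u
  · exact pvfp_loc_up_aux hg false hd hN l cen u

/-- the section of an event which is read off the state region -/
theorem pvfp_sec_off {O W : Set PvPt} (hW : Disjoint W O) (σ : Conf PvPt) {𝒦 : Set (Conf PvPt)} (h : Conf.ReadsSet W 𝒦) : pvhkSec O σ 𝒦 = 𝒦 := by
  ext η
  show Conf.spl O (σ, η) ∈ 𝒦 ↔ η ∈ 𝒦
  rw [← h (Conf.spl O (σ, η)), Conf.restr_spl_of_disjoint hW, h]

/-! ## 4. forced connectors -/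

/-- **the data of a connector** `u → u'` -/
structure PvfpConn where
  /-- state regions of the two plugs -/
  O : Set PvPt
  O' : Set PvPt
  /-- exterior regions of the two side events (`T⁺(τ_u) ∖ O_u`, `T⁻(τ_u') ∖ O_u'`) -/
  T : Set PvPt
  T' : Set PvPt
  /-- side events `L⁺_u`, `L⁻_u'` -/
  Lp : Set (Conf PvPt)
  Lm : Set (Conf PvPt)
  /-- mesh (colour blind) -/
  E : Set (Conf PvPt)
  /-- success of the connector -/
  A : Set (Conf PvPt)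
  /-- colour of the rim -/
  c : Bool
  /-- the zones in which the colour `c`, resp. `!c`, is up -/
  K₁ : Set ℂ
  K₂ : Set ℂ
  /-- size of the fine cells, the two walks -/
  δ : ℝ
  L₁ : List (ℤ × ℤ)
  L₂ : List (ℤ × ℤ)

/-- the network of a connector -/
def PvfpConn.Net (D : PvfpConn) : Set (Conf PvPt) := pvlnLaneEv D.δ D.c D.L₁ ∩ pvlnLaneEv D.δ (!D.c) D.L₂

/-- the two state regions -/
def PvfpConn.OO (D : PvfpConn) : Set PvPt := D.O ∪ D.O'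

/-- **the pair of states `σ` is REGULAR**: at almost every geometry (the two states being frozen) the side events are up in the mixed order.
(Only a.e. `g`, and only for the given `σ`: a degenerate state, e.g. four cocircular sites, has no Delaunay triangulation and nothing can be said of the side events.) -/
def PvfpConn.Up (D : PvfpConn) (ε : ℝ) (σ : Conf PvPt) : Prop :=
  ∀ᵐ g ∂(pvGeo ε), PvhkGood D.OO σ D.E g →
    PvhkUpAt g (pvfpSg g D.c D.K₁ D.K₂) (pvhkSec D.OO σ D.Lp) ∧ PvhkUpAt g (pvfpSg g D.c D.K₁ D.K₂) (pvhkSec D.OO σ D.Lm)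

theorem pvfp_eqns_cite4 : True := by
  have := @PvfpConn.Net.eq_1; have := @PvfpConn.OO.eq_1; have := @PvfpConn.Up.eq_1
  trivial

/-- what the instance owes -/
structure PvfpConn.Ok (D : PvfpConn) : Prop where
  mO : MeasurableSet D.O
  mO' : MeasurableSet D.O'
  mT : MeasurableSet D.T
  mT' : MeasurableSet D.T'
  dj : Disjoint (D.O ∪ D.T) (D.O' ∪ D.T')
  mLp : MeasurableSet D.Lp
  mLm : MeasurableSet D.Lm
  mE : MeasurableSet D.E
  rLp : Conf.ReadsSet (D.O ∪ D.T) D.Lp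
  rLm : Conf.ReadsSet (D.O' ∪ D.T') D.Lm
  δ_pos : 0 < D.δ
  ne₁ : D.L₁ ≠ []
  ne₂ : D.L₂ ≠ []
  ch₁ : D.L₁.IsChain PvlnAdj
  ch₂ : D.L₂.IsChain PvlnAdj
  djK : Disjoint D.K₁ D.K₂
  w₁ : pvlnW D.δ D.L₁ ⊆ D.K₁
  w₂ : pvlnW D.δ D.L₂ ⊆ D.K₂
  off₁ : Disjoint (pvlnW D.δ D.L₁ ×ˢ (univ : Set Bool)) D.OO
  off₂ : Disjoint (pvlnW D.δ D.L₂ ×ˢ (univ : Set Bool)) D.OO
  /-- the mesh event does not look at the colours -/
  geo : ∀ σ, PvhkGeo D.OO σ D.E
  /-- DETERMINISTIC (`pvfp_lane_glue`, `pvfp_chain`) -/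
  glue : D.Lp ∩ D.Lm ∩ D.Net ∩ D.E ⊆ D.A

/-- **P16, FORCED CONNECTORS** (one `ε`) -/
theorem pvfp_forced (D : PvfpConn) (h : D.Ok) (ε : ℝ) (σ : Conf PvPt) (hu : D.Up ε σ) {β q d θ : ℝ≥0∞}
    (hp : β ≤ pvtiP (pvP ε) D.O D.Lp σ) (hm : β ≤ pvtiP (pvP ε) D.O' D.Lm σ) (hE : pvtiP (pvP ε) D.OO D.Eᶜ σ ≤ d)
    (hq : pvGeo ε {g | pvQc D.Net g < q} ≤ θ) : q * (β * β - d - θ) ≤ pvtiP (pvP ε) D.OO D.A σ := by
  have mOO : MeasurableSet D.OO := h.mO.union h.mO'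
  have f1 := pvln_lane_fit h.δ_pos h.ch₁
  have f2 := pvln_lane_fit h.δ_pos h.ch₂
  have m1 : MeasurableSet (pvlnLaneEv D.δ D.c D.L₁) := pvln_loc_meas f1 _
  have m2 : MeasurableSet (pvlnLaneEv D.δ (!D.c) D.L₂) := pvln_loc_meas f2 _
  have mN : MeasurableSet D.Net := m1.inter m2
  have hA : β * β ≤ pvtiP (pvP ε) D.OO (D.Lp ∩ D.Lm) σ := by
    have := pvfp_prod ε h.mO h.mO' h.mT h.mT' h.dj h.mLp h.mLm h.rLp h.rLm σ
    rw [PvfpConn.OO, this]
    gcongr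
  refine pvfp_bridge ε mOO (h.mLp.inter h.mLm) mN h.mE σ hA hE (h.geo σ) hq ?_ h.glue
  filter_upwards [pvqu_ok_ae ε, hu] with g hg hug hgood hbad
  have hq' : q ≤ pvQc D.Net g := not_lt.1 hbad
  have s1 : pvhkSec D.OO σ (pvlnLaneEv D.δ D.c D.L₁) = pvlnLaneEv D.δ D.c D.L₁ := pvfp_sec_off h.off₁ σ (pvlq_lane_reads _ _ _)
  have s2 : pvhkSec D.OO σ (pvlnLaneEv D.δ (!D.c) D.L₂) = pvlnLaneEv D.δ (!D.c) D.L₂ := pvfp_sec_off h.off₂ σ (pvlq_lane_reads _ _ _)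
  have sN : pvhkSec D.OO σ D.Net = D.Net := by rw [PvfpConn.Net, pvhk_sec_inter, s1, s2]
  have uN : PvhkUpAt g (pvfpSg g D.c D.K₁ D.K₂) D.Net :=
    (pvfp_loc_up hg D.c h.djK h.w₁ _ _ _).inter (pvfp_loc_up' hg D.c h.djK h.w₂ _ _ _)
  have uA : PvhkUpAt g (pvfpSg g D.c D.K₁ D.K₂) (pvhkSec D.OO σ (D.Lp ∩ D.Lm)) := by
    rw [pvhk_sec_inter]
    exact (hug hgood).1.inter (hug hgood).2
  have hh := pvhk_Qc_up_up (pvfpSg g D.c D.K₁ D.K₂) (measurable_pvConf (pvhk_sec_meas mOO σ (h.mLp.inter h.mLm))) (measurable_pvConf mN) uA uN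
  rw [pvhk_sec_inter _ _ (D.Lp ∩ D.Lm) D.Net, sN]
  calc q * pvQc (pvhkSec D.OO σ (D.Lp ∩ D.Lm)) g ≤ pvQc D.Net g * pvQc (pvhkSec D.OO σ (D.Lp ∩ D.Lm)) g := by gcongr
    _ = pvQc (pvhkSec D.OO σ (D.Lp ∩ D.Lm)) g * pvQc D.Net g := mul_comm _ _
    _ ≤ _ := hh

/-- **P16 + (d), EVENTUALLY IN `ε`**, uniformly over all connectors whose walks have at most `n` cells (finite menu x placements) -/
theorem pvfp_forced_ev {q0 : ℝ} (hq0 : 0 < q0) (hq1 : q0 ≤ 1) (hQ : PvlqQbx q0) (n : ℕ) {β : ℝ} (hβ : 0 < β) :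
    ∃ U : ℝ, 1 ≤ U ∧ ∀ ε : ℝ, 0 < ε → ∀ D : PvfpConn, D.Ok → U * ε ≤ D.δ → D.L₁.length ≤ n → D.L₂.length ≤ n → ∀ σ : Conf PvPt, D.Up ε σ →
      ENNReal.ofReal β ≤ pvtiP (pvP ε) D.O D.Lp σ → ENNReal.ofReal β ≤ pvtiP (pvP ε) D.O' D.Lm σ → pvtiP (pvP ε) D.OO D.Eᶜ σ ≤ ENNReal.ofReal (β ^ 2 / 4) →
      ENNReal.ofReal ((q0 ^ (15 * n) / 2) ^ 2 * (β ^ 2 / 2)) ≤ pvtiP (pvP ε) D.OO D.A σ := by
  obtain ⟨U, hU1, hU⟩ := pvlq_corridor hq0 hq1 hQ n (θ := β ^ 2 / 4) (by positivity)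
  refine ⟨U, hU1, fun ε hε D h hδ n1 n2 σ hu hp hm hE => ?_⟩
  have hd : Disjoint (pvlnW D.δ D.L₁) (pvlnW D.δ D.L₂) := h.djK.mono h.w₁ h.w₂
  have hq := hU ε hε D.δ hδ D.c (!D.c) D.L₁ D.L₂ h.ne₁ h.ne₂ h.ch₁ h.ch₂ n1 n2 hd
  have := pvfp_forced D h ε σ hu hp hm hE hq
  refine le_trans (le_of_eq ?_) this
  rw [← ENNReal.ofReal_mul hβ.le, ← ENNReal.ofReal_sub _ (by positivity), ← ENNReal.ofReal_sub _ (by positivity), ← ENNReal.ofReal_mul (by positivity)]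
  congr 1
  ring

/-- **the field `frc` of `PvsySys.Forced`** -/
theorem pvfp_sys_frc {q0 : ℝ} (hq0 : 0 < q0) (hq1 : q0 ≤ 1) (hQ : PvlqQbx q0) (n : ℕ) {β : ℝ} (hβ : 0 < β) :
    ∃ U : ℝ, 1 ≤ U ∧ ∀ ε : ℝ, 0 < ε → ∀ {Uu Cc : Type} (S : PvsySys PvPt Uu Cc) (D : Cc → PvfpConn) (e : Cc), (D e).Ok → U * ε ≤ (D e).δ →
      (D e).L₁.length ≤ n → (D e).L₂.length ≤ n → (D e).O = S.O (S.src e) → (D e).O' = S.O (S.tgt e) → (D e).A ⊆ S.A e →
      (∀ σ ∈ S.G (S.src e), ENNReal.ofReal β ≤ pvtiP (pvP ε) (D e).O (D e).Lp σ) → (∀ σ ∈ S.G (S.tgt e), ENNReal.ofReal β ≤ pvtiP (pvP ε) (D e).O' (D e).Lm σ) →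
      (∀ σ ∈ S.G (S.src e), σ ∈ S.G (S.tgt e) → (D e).Up ε σ ∧ pvtiP (pvP ε) (D e).OO (D e).Eᶜ σ ≤ ENNReal.ofReal (β ^ 2 / 4)) →
      ∀ σ ∈ S.G (S.src e), σ ∈ S.G (S.tgt e) → ENNReal.ofReal ((q0 ^ (15 * n) / 2) ^ 2 * (β ^ 2 / 2)) ≤ S.p (pvP ε) e σ := by
  obtain ⟨U, hU1, hU⟩ := pvfp_forced_ev hq0 hq1 hQ n hβ
  refine ⟨U, hU1, fun ε hε Uu Cc S D e hOk hδ n1 n2 hO hO' hA hp hm hE σ h1 h2 => ?_⟩
  have := hU ε hε (D e) hOk hδ n1 n2 σ (hE σ h1 h2).1 (hp σ h1) (hm σ h2) (hE σ h1 h2).2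
  refine this.trans ?_
  have e1 : (D e).OO = S.OO e := by rw [PvfpConn.OO, PvsySys.OO, hO, hO']
  rw [PvsySys.p, e1]
  exact pvhk_P_mono _ _ σ hA

end Claimed.Agent.R289
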