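-- KEEP
import Claimed.Agent.R289.Tr.Plug
import Claimed.Agent.R289.Tr.PropKit

/-!
# Row 289 (S0537), THE WALL, chapter E (cells), file Tr/PlugFrc : **[FRC]** = THE A.E. BRIDGE OF THE GLOBAL DATUM OF 34 (`Tr/Plug.lean`), ABSTRACT FORM      (helper52; prefix `pvcf_`, `Pvcf`)

CONSUMER: the field `frc` of `PvpgGlob.Ok`:   for a.e. `σ ∈ 𝔊.G2 μ b τ` (both plugs SURE, the four half lanes of both plugs of propensity `≥ b`):   `q ≤ P(𝔊.A τ | σ on the two plug regions)`.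
TOOLS: annealed conditional FKG in ONE mixed order (`pvpk_up_list` of 229 over `pvhk_ann_def` of 5 / 159), `pvhk_P_change`, `pvhk_P_of_disjoint`, `pvhk_P_split` (5), covariance `pvci_P_T`, `pvci_law_frame` (52), `pvpg_sure_ae`, `pvpg_rG2` (34).

DATA `Br : PvcfBr` : the bars `Br.Bar τ` (monotone pieces of the network in the tile), the mesh event `Br.M τ` of the tile, the up-points `Br.Kup τ` of the mixed order.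
WHAT THE MODEL OWES = `PvcfOk 𝔊 Br ε r qb err`:
* windows:   the EXIT half lanes `H 0`, `H 1` read (plug `∪` tile), the ENTRANCE half lanes `H 2`, `H 3` PLACED at the exit door read (exit plug `∪` tile), bars and mesh read the tile;
* monotonicity of the SECTIONS at a frozen locally finite state (no monotonicity in the state);
* numbers:   `qb ≤ ∏ P(bar)`,   `P(mesh fails) ≤ err`;
* **(DET)**, ALMOST EVERYWHERE:   plug `∩` exit plug `∩` 2 exit half lanes `∩` 2 placed entrance half lanes `∩` bars `∩` mesh `⊆ 𝔊.A τ`.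
EXIT: **`pvcf_frc`** : `∀ τ, ∀ᵐ σ, σ ∈ 𝔊.G2 (pvP ε) b τ → b ^ 4 * qb - err ≤ pvtiP (pvP ε) (𝔊.pre.OO 0 1 τ) (𝔊.A τ) σ`.
-/

set_option autoImplicit false
set_option linter.unusedSectionVars false

namespace Claimed.Agent.R289

open MeasureTheory ProbabilityTheory Set Filter Topology
open scoped ENNReal NNReal

/-! ## 0. tools -/

/-- the law is invariant under the inverse of a frame -/
theorem pvcf_law_inv (z d : ℂ) (hd : ‖d‖ = 1) (ε : ℝ) : (pvP ε).map (cfMap (pvthInv z d)) = pvP ε := by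
  have h0 : d ≠ 0 := pvth_ne_zero hd
  obtain ⟨Φ, hΦ, hΦs⟩ := pvth_equiv (pvciAff d z h0)
  have e1 : cfMap (pvthInv z d) = Φ.symm := by
    funext η
    rw [pvth_cfMap_inv z d h0, hΦs]
  have e2 : (pvP ε).map Φ = pvP ε := by
    have : (Φ : Conf PvPt → Conf PvPt) = Conf.image (pvciAff d z h0) := funext hΦ
    rw [this]
    exact pvci_law_frame z d hd ε
  rw [e1]
  conv_lhs => rw [← e2]
  rw [Measure.map_map Φ.symm.measurable Φ.measurable]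
  simp

/-- an a.s. property holds a.s. in every frame -/
theorem pvcf_ae_frame (z d : ℂ) (hd : ‖d‖ = 1) {ε : ℝ} {p : Conf PvPt → Prop} (h : ∀ᵐ η ∂(pvP ε), p η) : ∀ᵐ η ∂(pvP ε), p (cfMap (pvthInv z d) η) := by
  refine ae_of_ae_map (measurable_cfMap (pvth_measurable_inv z d)).aemeasurable ?_
  rw [pvcf_law_inv z d hd ε]
  exact h

/-- conditional probabilities are monotone under an inclusion which holds for almost every completion -/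
theorem pvcf_P_mono_ae (μ : Measure (Conf PvPt)) (O : Set PvPt) (σ : Conf PvPt) {𝒜 ℬ : Set (Conf PvPt)} (h : ∀ᵐ ξ ∂μ, Conf.spl O (σ, ξ) ∈ 𝒜 → Conf.spl O (σ, ξ) ∈ ℬ) :
    pvtiP μ O 𝒜 σ ≤ pvtiP μ O ℬ σ := by
  unfold pvtiP
  refine lintegral_mono_ae ?_
  filter_upwards [h] with ξ hξ
  by_cases hA : Conf.spl O (σ, ξ) ∈ 𝒜
  · rw [Set.indicator_of_mem hA, Set.indicator_of_mem (hξ hA)]
  · rw [Set.indicator_of_notMem hA]; exact zero_le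

/-! ## 1. the data and what the model owes -/

/-- the data of the bridge: bars, mesh event, up-points of the mixed order, for every shape -/
structure PvcfBr where
  Bar : PvtTurn → List (Set (Conf PvPt))
  M : PvtTurn → Set (Conf PvPt)
  Kup : PvtTurn → Set PvPt

/-- the region of the plug of the exit door of the reference cell of shape `τ` -/
noncomputable def PvpgGlob.Ox (𝔊 : PvpgGlob) (τ : PvtTurn) : Set PvPt := 𝔊.pre.O (𝔊.pre.zo 0 1 τ) τ.rot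

/-- the half lane `i` of the plug of the exit door -/
noncomputable def PvpgGlob.Hx (𝔊 : PvpgGlob) (τ : PvtTurn) (i : Fin 4) : Set (Conf PvPt) := cfMap (pvthInv (𝔊.pre.zo 0 1 τ) τ.rot) ⁻¹' 𝔊.H i

/-- **WHAT THE MODEL OWES FOR [FRC]** at the mesh `ε`.      Half lanes `0 1` = EXIT (`Hb⁺ Hw⁺`), `2 3` = ENTRANCE (`Hb⁻ Hw⁻`). -/
structure PvcfOk (𝔊 : PvpgGlob) (Br : PvcfBr) (ε r : ℝ) (qb err : ℝ≥0∞) : Prop where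
  ref : PvccKitRef 𝔊.pre r
  mO : MeasurableSet 𝔊.O₀
  mC : MeasurableSet 𝔊.C
  mH : ∀ i, MeasurableSet (𝔊.H i)
  /-- windows -/
  rHp : ∀ τ (i : Fin 4), (i : ℕ) < 2 → Conf.ReadsSet (𝔊.pre.O 0 1 ∪ 𝔊.pre.K 0 1 τ) (𝔊.H i)
  rHm : ∀ τ (i : Fin 4), 2 ≤ (i : ℕ) → Conf.ReadsSet (𝔊.Ox τ ∪ 𝔊.pre.K 0 1 τ) (𝔊.Hx τ i)
  /-- ONE mixed order per shape; only the SECTIONS at a frozen state have to be up -/
  mKup : ∀ τ, MeasurableSet (Br.Kup τ)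
  uHp : ∀ τ (i : Fin 4), (i : ℕ) < 2 → ∀ σ, PvLF σ → PvhkAUp (Br.Kup τ) (pvhkSec (𝔊.pre.O 0 1) σ (𝔊.H i))
  uHm : ∀ τ (i : Fin 4), 2 ≤ (i : ℕ) → ∀ σ, PvLF σ → PvhkAUp (Br.Kup τ) (pvhkSec (𝔊.Ox τ) σ (𝔊.Hx τ i))
  /-- the bars -/
  mBar : ∀ τ, ∀ A ∈ Br.Bar τ, MeasurableSet A
  rBar : ∀ τ, ∀ A ∈ Br.Bar τ, Conf.ReadsSet (𝔊.pre.K 0 1 τ) A
  uBar : ∀ τ, ∀ A ∈ Br.Bar τ, PvhkAUp (Br.Kup τ) A
  /-- the mesh of the tile -/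
  mM : ∀ τ, MeasurableSet (Br.M τ)
  rM : ∀ τ, Conf.ReadsSet (𝔊.pre.K 0 1 τ) (Br.M τ)
  /-- numbers -/
  bar : ∀ τ, qb ≤ ((Br.Bar τ).map fun A => pvP ε A).prod
  mesh : ∀ τ, pvP ε (Br.M τ)ᶜ ≤ err
  /-- **(DET)**, almost everywhere -/
  det : ∀ τ, ∀ᵐ η ∂(pvP ε), η ∈ 𝔊.C → η ∈ 𝔊.Cp (𝔊.pre.zo 0 1 τ) τ.rot → η ∈ 𝔊.H 0 → η ∈ 𝔊.H 1 → η ∈ 𝔊.Hx τ 2 → η ∈ 𝔊.Hx τ 3 →
    (∀ A ∈ Br.Bar τ, η ∈ A) → η ∈ Br.M τ → η ∈ 𝔊.A τ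

theorem pvcf_eqns_cite : True := by
  have := @PvpgGlob.Ox.eq_1; have := @PvpgGlob.Hx.eq_1
  trivial

/-! ## 2. the bridge -/

section bridge

variable {𝔊 : PvpgGlob} {Br : PvcfBr} {ε r : ℝ} {qb err : ℝ≥0∞}

theorem pvcf_mO (hO : MeasurableSet 𝔊.O₀) (z d : ℂ) (hd : d ≠ 0) : MeasurableSet (𝔊.pre.O z d) := by
  rw [pvth_O_place 𝔊.pre z d hd, MeasurableEquiv.measurableSet_image]
  unfold PvthKit.O
  rw [pvth_sim_id, Set.image_id]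
  exact hO.prod MeasurableSet.univ

theorem pvcf_OO_eq (𝔊 : PvpgGlob) (τ : PvtTurn) : 𝔊.pre.OO 0 1 τ = 𝔊.pre.O 0 1 ∪ 𝔊.Ox τ := by
  unfold PvthKit.OO PvpgGlob.Ox
  rw [one_mul]

/-- covariance of the propensity of a half lane -/
theorem pvcf_P_Hx (𝔊 : PvpgGlob) (ε : ℝ) (τ : PvtTurn) (i : Fin 4) (σ : Conf PvPt) :
    pvtiP (pvP ε) (𝔊.Ox τ) (𝔊.Hx τ i) σ = pvtiP (pvP ε) (𝔊.pre.O 0 1) (𝔊.H i) (cfMap (pvthInv (𝔊.pre.zo 0 1 τ) τ.rot) σ) := by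
  unfold PvpgGlob.Ox
  rw [pvth_O_place 𝔊.pre (𝔊.pre.zo 0 1 τ) τ.rot (pvt_rot_ne_zero τ)]
  exact congrFun (pvci_P_T (pvciAff τ.rot (𝔊.pre.zo 0 1 τ) (pvt_rot_ne_zero τ)) (pvci_law_frame (𝔊.pre.zo 0 1 τ) τ.rot (pvpk_rot_norm τ) ε) (𝔊.pre.O 0 1) (𝔊.H i)) σ

/-- the net of the bridge -/
noncomputable def pvcfNet (𝔊 : PvpgGlob) (Br : PvcfBr) (τ : PvtTurn) : List (Set (Conf PvPt)) := 𝔊.H 0 :: 𝔊.H 1 :: 𝔊.Hx τ 2 :: 𝔊.Hx τ 3 :: Br.Bar τ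

theorem pvcf_eqns_cite2 : True := by
  have := @pvcfNet.eq_1
  trivial

/-- **the monotone part**, at EVERY locally finite pair of usable states -/
theorem pvcf_net (H : PvcfOk 𝔊 Br ε r qb err) (b : ℝ≥0∞) (τ : PvtTurn) {σ : Conf PvPt} (hLF : PvLF σ) (hσ : σ ∈ 𝔊.G2 (pvP ε) b τ) :
    b ^ 4 * qb - err ≤ pvtiP (pvP ε) (𝔊.pre.OO 0 1 τ) ({η | ∀ A ∈ pvcfNet 𝔊 Br τ, η ∈ A} ∩ Br.M τ) σ := by
  have hKd : Disjoint (𝔊.pre.K 0 1 τ) (𝔊.pre.OO 0 1 τ) := (pvcc_kit_cell H.ref τ).2.symm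
  have mO0 : MeasurableSet (𝔊.pre.O 0 1) := pvcf_mO H.mO 0 1 one_ne_zero
  have mOx : MeasurableSet (𝔊.Ox τ) := pvcf_mO H.mO _ _ (pvt_rot_ne_zero τ)
  have hOO : MeasurableSet (𝔊.pre.OO 0 1 τ) := by rw [pvcf_OO_eq]; exact mO0.union mOx
  have sub0 : 𝔊.pre.O 0 1 ⊆ 𝔊.pre.OO 0 1 τ := by rw [pvcf_OO_eq]; exact subset_union_left
  have subx : 𝔊.Ox τ ⊆ 𝔊.pre.OO 0 1 τ := by rw [pvcf_OO_eq]; exact subset_union_right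
  have mHx : ∀ i, MeasurableSet (𝔊.Hx τ i) := fun i => measurable_cfMap (pvth_measurable_inv _ _) (H.mH i)
  have lf0 : PvLF (Conf.restr (𝔊.pre.O 0 1) σ) := pvhk_restr_lf _ hLF
  have lfx : PvLF (Conf.restr (𝔊.Ox τ) σ) := pvhk_restr_lf _ hLF
  have ml : ∀ A ∈ pvcfNet 𝔊 Br τ, MeasurableSet A := by
    intro A hA
    rcases List.mem_cons.1 hA with rfl | hA
    · exact H.mH 0
    rcases List.mem_cons.1 hA with rfl | hA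
    · exact H.mH 1
    rcases List.mem_cons.1 hA with rfl | hA
    · exact mHx 2
    rcases List.mem_cons.1 hA with rfl | hA
    · exact mHx 3
    · exact H.mBar τ A hA
  have up : ∀ i : Fin 4, (i : ℕ) < 2 → PvhkAUp (Br.Kup τ) (pvhkSec (𝔊.pre.OO 0 1 τ) σ (𝔊.H i)) := by
    intro i hi
    rw [pvpk_sec_change sub0 hKd σ (H.rHp τ i hi), ← pvpk_sec_restr]
    exact H.uHp τ i hi _ lf0
  have um : ∀ i : Fin 4, 2 ≤ (i : ℕ) → PvhkAUp (Br.Kup τ) (pvhkSec (𝔊.pre.OO 0 1 τ) σ (𝔊.Hx τ i)) := by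
    intro i hi
    rw [pvpk_sec_change subx hKd σ (H.rHm τ i hi), ← pvpk_sec_restr]
    exact H.uHm τ i hi _ lfx
  have ul : ∀ A ∈ pvcfNet 𝔊 Br τ, PvhkAUp (Br.Kup τ) (pvhkSec (𝔊.pre.OO 0 1 τ) σ A) := by
    intro A hA
    rcases List.mem_cons.1 hA with rfl | hA
    · exact up 0 (by norm_num)
    rcases List.mem_cons.1 hA with rfl | hA
    · exact up 1 (by norm_num)
    rcases List.mem_cons.1 hA with rfl | hA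
    · exact um 2 (by norm_num)
    rcases List.mem_cons.1 hA with rfl | hA
    · exact um 3 (by norm_num)
    · exact pvhk_sec_aup _ _ hLF (H.uBar τ A hA)
  have s1 := pvpk_up_list ε (H.mKup τ) hOO σ (pvcfNet 𝔊 Br τ) ml ul
  have vp : ∀ i : Fin 4, (i : ℕ) < 2 → b ≤ pvtiP (pvP ε) (𝔊.pre.OO 0 1 τ) (𝔊.H i) σ := by
    intro i hi
    rw [pvhk_P_change _ sub0 hKd σ (H.rHp τ i hi)]
    exact Set.mem_iInter.1 hσ.1.2 i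
  have vm : ∀ i : Fin 4, 2 ≤ (i : ℕ) → b ≤ pvtiP (pvP ε) (𝔊.pre.OO 0 1 τ) (𝔊.Hx τ i) σ := by
    intro i hi
    rw [pvhk_P_change _ subx hKd σ (H.rHm τ i hi), pvcf_P_Hx]
    exact Set.mem_iInter.1 hσ.2.2 i
  have v2 : ((Br.Bar τ).map fun A => pvtiP (pvP ε) (𝔊.pre.OO 0 1 τ) A σ) = (Br.Bar τ).map fun A => pvP ε A :=
    List.map_congr_left fun A hA => pvhk_P_of_disjoint _ hKd σ (H.mBar τ A hA) (H.rBar τ A hA)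
  have s2 : b ^ 4 * qb ≤ ((pvcfNet 𝔊 Br τ).map fun A => pvtiP (pvP ε) (𝔊.pre.OO 0 1 τ) A σ).prod := by
    unfold pvcfNet
    rw [List.map_cons, List.map_cons, List.map_cons, List.map_cons, List.prod_cons, List.prod_cons, List.prod_cons, List.prod_cons, v2]
    have e : b ^ 4 * qb = b * (b * (b * (b * qb))) := by ring
    rw [e]
    exact mul_le_mul' (vp 0 (by norm_num)) (mul_le_mul' (vp 1 (by norm_num)) (mul_le_mul' (vm 2 (by norm_num)) (mul_le_mul' (vm 3 (by norm_num)) (H.bar τ))))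
  have mX : MeasurableSet {η : Conf PvPt | ∀ A ∈ pvcfNet 𝔊 Br τ, η ∈ A} := pvhk_net_meas (pvcfNet 𝔊 Br τ) id ml
  have s3 := pvhk_P_split (pvP ε) hOO σ mX (H.mM τ)
  have s4 : pvtiP (pvP ε) (𝔊.pre.OO 0 1 τ) (Br.M τ)ᶜ σ ≤ err := by
    rw [pvhk_P_of_disjoint _ hKd σ (H.mM τ).compl (H.rM τ).compl]
    exact H.mesh τ
  rw [tsub_le_iff_right]
  calc b ^ 4 * qb ≤ _ := s2
    _ ≤ _ := s1
    _ ≤ _ := s3
    _ ≤ _ := by gcongr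

/-- **[FRC]** = the field `frc` of `PvpgGlob.Ok` with `q := b ^ 4 * qb - err` -/
theorem pvcf_frc (H : PvcfOk 𝔊 Br ε r qb err) (b : ℝ≥0∞) (τ : PvtTurn) :
    ∀ᵐ σ ∂(pvP ε), σ ∈ 𝔊.G2 (pvP ε) b τ → b ^ 4 * qb - err ≤ pvtiP (pvP ε) (𝔊.pre.OO 0 1 τ) (𝔊.A τ) σ := by
  have hp := pv_isPpp ε
  have mO0 : MeasurableSet (𝔊.pre.O 0 1) := pvcf_mO H.mO 0 1 one_ne_zero
  have mOx : MeasurableSet (𝔊.Ox τ) := pvcf_mO H.mO _ _ (pvt_rot_ne_zero τ)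
  have hOO : MeasurableSet (𝔊.pre.OO 0 1 τ) := by rw [pvcf_OO_eq]; exact mO0.union mOx
  have a1 : ∀ᵐ η ∂(pvP ε), η ∈ pvpgSure (pvP ε) (𝔊.pre.O 0 1) 𝔊.C → η ∈ 𝔊.C := pvpg_sure_ae hp mO0 H.mC
  have a2 := pvcf_ae_frame (𝔊.pre.zo 0 1 τ) τ.rot (pvpk_rot_norm τ) a1
  have all : ∀ᵐ η ∂(pvP ε), (η ∈ pvpgSure (pvP ε) (𝔊.pre.O 0 1) 𝔊.C → η ∈ 𝔊.C) ∧
      (cfMap (pvthInv (𝔊.pre.zo 0 1 τ) τ.rot) η ∈ pvpgSure (pvP ε) (𝔊.pre.O 0 1) 𝔊.C → cfMap (pvthInv (𝔊.pre.zo 0 1 τ) τ.rot) η ∈ 𝔊.C) ∧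
      (η ∈ 𝔊.C → η ∈ 𝔊.Cp (𝔊.pre.zo 0 1 τ) τ.rot → η ∈ 𝔊.H 0 → η ∈ 𝔊.H 1 → η ∈ 𝔊.Hx τ 2 → η ∈ 𝔊.Hx τ 3 → (∀ A ∈ Br.Bar τ, η ∈ A) → η ∈ Br.M τ → η ∈ 𝔊.A τ) := by
    filter_upwards [a1, a2, H.det τ] with η b1 b2 b3
    exact ⟨b1, b2, b3⟩
  filter_upwards [hp.ae_ae_splice hOO all, pvcn_LF_ae ε] with σ hσ hLF hG2
  refine (pvcf_net H b τ hLF hG2).trans (pvcf_P_mono_ae _ _ σ ?_)
  filter_upwards [hσ] with ξ hξ hnet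
  have hξ' : (Conf.spl (𝔊.pre.OO 0 1 τ) (σ, ξ) ∈ pvpgSure (pvP ε) (𝔊.pre.O 0 1) 𝔊.C → Conf.spl (𝔊.pre.OO 0 1 τ) (σ, ξ) ∈ 𝔊.C) ∧
      (cfMap (pvthInv (𝔊.pre.zo 0 1 τ) τ.rot) (Conf.spl (𝔊.pre.OO 0 1 τ) (σ, ξ)) ∈ pvpgSure (pvP ε) (𝔊.pre.O 0 1) 𝔊.C →
        cfMap (pvthInv (𝔊.pre.zo 0 1 τ) τ.rot) (Conf.spl (𝔊.pre.OO 0 1 τ) (σ, ξ)) ∈ 𝔊.C) ∧
      (Conf.spl (𝔊.pre.OO 0 1 τ) (σ, ξ) ∈ 𝔊.C → Conf.spl (𝔊.pre.OO 0 1 τ) (σ, ξ) ∈ 𝔊.Cp (𝔊.pre.zo 0 1 τ) τ.rot → Conf.spl (𝔊.pre.OO 0 1 τ) (σ, ξ) ∈ 𝔊.H 0 →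
        Conf.spl (𝔊.pre.OO 0 1 τ) (σ, ξ) ∈ 𝔊.H 1 → Conf.spl (𝔊.pre.OO 0 1 τ) (σ, ξ) ∈ 𝔊.Hx τ 2 → Conf.spl (𝔊.pre.OO 0 1 τ) (σ, ξ) ∈ 𝔊.Hx τ 3 →
        (∀ A ∈ Br.Bar τ, Conf.spl (𝔊.pre.OO 0 1 τ) (σ, ξ) ∈ A) → Conf.spl (𝔊.pre.OO 0 1 τ) (σ, ξ) ∈ Br.M τ → Conf.spl (𝔊.pre.OO 0 1 τ) (σ, ξ) ∈ 𝔊.A τ) := hξ
  obtain ⟨b1, b2, b3⟩ := hξ'
  have hg : Conf.spl (𝔊.pre.OO 0 1 τ) (σ, ξ) ∈ 𝔊.G2 (pvP ε) b τ := ((pvpg_rG2 (𝔊 := 𝔊) (b := b) (pvP ε) τ).spl_left (Set.Subset.refl _) σ ξ).mpr hG2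
  obtain ⟨hl, hM⟩ := hnet
  have m0 : 𝔊.H 0 ∈ pvcfNet 𝔊 Br τ := List.mem_cons_self
  have m1 : 𝔊.H 1 ∈ pvcfNet 𝔊 Br τ := List.mem_cons_of_mem _ List.mem_cons_self
  have m2 : 𝔊.Hx τ 2 ∈ pvcfNet 𝔊 Br τ := List.mem_cons_of_mem _ (List.mem_cons_of_mem _ List.mem_cons_self)
  have m3 : 𝔊.Hx τ 3 ∈ pvcfNet 𝔊 Br τ := List.mem_cons_of_mem _ (List.mem_cons_of_mem _ (List.mem_cons_of_mem _ List.mem_cons_self))
  exact b3 (b1 hg.1.1) (b2 hg.2.1) (hl _ m0) (hl _ m1) (hl _ m2) (hl _ m3)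
    (fun A hA => hl A (List.mem_cons_of_mem _ (List.mem_cons_of_mem _ (List.mem_cons_of_mem _ (List.mem_cons_of_mem _ hA))))) hM

end bridge

/-! ## 3. helpers for the producers: everything may be stated in the REFERENCE FRAME of the plug -/

section ref

variable {𝔊 : PvpgGlob} {Br : PvcfBr}

/-- the exit half lanes: the zone `Tp` of the lane lies in the tile -/
theorem pvcf_rHp_of_ref {i : Fin 4} {Tp : Set ℂ} (rH : Conf.ReadsSet (𝔊.pre.O 0 1 ∪ Tp ×ˢ univ) (𝔊.H i)) (τ : PvtTurn) (hsub : Tp ⊆ 𝔊.K₀ τ) :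
    Conf.ReadsSet (𝔊.pre.O 0 1 ∪ 𝔊.pre.K 0 1 τ) (𝔊.H i) := by
  refine rH.mono (union_subset_union_right _ ?_)
  rintro p ⟨hp, -⟩
  refine ⟨⟨p.1, hsub hp, ?_⟩, trivial⟩
  show 0 + 1 * p.1 = p.1
  ring

/-- the entrance half lanes: the zone `Tm` of the lane, PLACED at the exit door, lies in the tile -/
theorem pvcf_rHm_of_ref {i : Fin 4} {Tm : Set ℂ} (rH : Conf.ReadsSet (𝔊.pre.O 0 1 ∪ Tm ×ˢ univ) (𝔊.H i)) (τ : PvtTurn)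
    (hsub : pvthSim (𝔊.pre.zo 0 1 τ) τ.rot '' Tm ⊆ 𝔊.K₀ τ) : Conf.ReadsSet (𝔊.Ox τ ∪ 𝔊.pre.K 0 1 τ) (𝔊.Hx τ i) := by
  have h1 : Conf.Reads (pvciAff τ.rot (𝔊.pre.zo 0 1 τ) (pvt_rot_ne_zero τ) '' (𝔊.pre.O 0 1 ∪ Tm ×ˢ univ)) (fun η => η ∈ 𝔊.Hx τ i) :=
    pvci_T_reads (pvciAff τ.rot (𝔊.pre.zo 0 1 τ) (pvt_rot_ne_zero τ)).toEquiv (Conf.readsSet_iff_reads.1 rH)
  refine (Conf.readsSet_iff_reads.2 h1).mono ?_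
  rw [Set.image_union, ← pvth_O_place 𝔊.pre (𝔊.pre.zo 0 1 τ) τ.rot (pvt_rot_ne_zero τ)]
  refine union_subset_union_right _ ?_
  rintro _ ⟨p, ⟨hp, -⟩, rfl⟩
  refine ⟨⟨_, hsub ⟨p.1, hp, rfl⟩, ?_⟩, trivial⟩
  show 0 + 1 * (𝔊.pre.zo 0 1 τ + τ.rot * p.1) = τ.rot * p.1 + 𝔊.pre.zo 0 1 τ
  ring

/-- the auxiliary datum of 229 whose entrance side test is the half lane `i` -/
def pvcfD (𝔊 : PvpgGlob) (Br : PvcfBr) (i : Fin 4) (Tm : Set ℂ) : PvpkDat := ⟨𝔊.δ, 𝔊.O₀, 𝔊.K₀, ∅, ∅, 𝔊.H i, ∅, Tm, Br.Bar, Br.M, Br.Kup, 0⟩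

/-- the entrance half lanes: sections up in a reference order `Km` which, placed at the exit door, agrees with `Kup τ` on the placed zone      (`pvpk_uLm_of_ref` of 229) -/
theorem pvcf_uHm_of_ref {i : Fin 4} {Tm : Set ℂ} {Km : Set PvPt} (rH : Conf.ReadsSet (𝔊.pre.O 0 1 ∪ Tm ×ˢ univ) (𝔊.H i))
    (u : ∀ σ, PvLF σ → PvhkAUp Km (pvhkSec (𝔊.pre.O 0 1) σ (𝔊.H i))) (τ : PvtTurn)
    (hK : pvciAff τ.rot (𝔊.pre.zo 0 1 τ) (pvt_rot_ne_zero τ) '' Km ∩ pvciAff τ.rot (𝔊.pre.zo 0 1 τ) (pvt_rot_ne_zero τ) '' (Tm ×ˢ univ) =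
      Br.Kup τ ∩ pvciAff τ.rot (𝔊.pre.zo 0 1 τ) (pvt_rot_ne_zero τ) '' (Tm ×ˢ univ)) (σ : Conf PvPt) (hσ : PvLF σ) :
    PvhkAUp (Br.Kup τ) (pvhkSec (𝔊.Ox τ) σ (𝔊.Hx τ i)) :=
  pvpk_uLm_of_ref (D := pvcfD 𝔊 Br i Tm) rH u τ hK σ hσ

/-- a half lane which is up at EVERY configuration has up sections -/
theorem pvcf_uH_of_up {K O : Set PvPt} {𝒜 : Set (Conf PvPt)} (h : PvhkAUp K 𝒜) (σ : Conf PvPt) (hσ : PvLF σ) : PvhkAUp K (pvhkSec O σ 𝒜) := pvhk_sec_aup K O hσ h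

theorem pvcf_eqns_cite3 : True := by
  have := @pvcfD.eq_1
  trivial

end ref

/-! ## 4. the constants -/

/-- the constant of the bridge is positive and `≤ 1` -/
theorem pvcf_q_pos {b qb err : ℝ≥0∞} (h : err < b ^ 4 * qb) : b ^ 4 * qb - err ≠ 0 := (tsub_pos_of_lt h).ne'

theorem pvcf_q_le_one {b qb err : ℝ≥0∞} (hb : b ≤ 1) (hq : qb ≤ 1) : b ^ 4 * qb - err ≤ 1 :=
  tsub_le_self.trans (mul_le_one' (pow_le_one₀ zero_le hb) hq)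

end Claimed.Agent.R289
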