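-- KEEP
import Claimed.Agent.R289.Tr.PlugFrc
import Claimed.Agent.R289.Tr.ForceP
import Claimed.Agent.R289.Tr.PlugK
import Claimed.Agent.R289.Exit.LaneQ

/-!
# Row 289 (S0537), THE WALL, chapter E (cells), file Tr/PlugFrcQ : **[FRC] BY THE QUENCHED ROUTE**, ABSTRACT ADAPTOR      (helper52; prefix `pvcj_`, `Pvcj`)

CONSUMER: the fields `frc`, `adm` of `PvpgGlob.Ok` (34, `Tr/Plug.lean`) at the datum `𝔤.glob Hf` of `Tr/PlugK.lean` v3.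
TOOLS (0 sorry on main): `pvfp_forced`, `pvfp_forced_ev` (272, `Tr/ForceP.lean`: quenched Harris at a frozen pair of states + bad set of geometries), `exit_pvlq_q` (QBX, `Exit/LaneQ.lean`), `pvcf_P_Hx`, `pvcf_ae_frame`, `pvcf_P_mono_ae` (52).

WHY NOT `PvcfOk` (annealed mixed order): the lanes of `PlugK` v3 are GRAPH events (Join through sites of one colour with position in a room): they are not up-sets of the annealed order, and have no exact reader in region form.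
AT A FIXED GEOMETRY they are trivially monotone in the colours.      So:  `Hf 0 = Hf 1 := S⁺` (exit side event: plug + black lane + white lane + mesh of its window, EXACT READER by `pvplb_main` of 238),  `Hf 2 = Hf 3 := S⁻`  (JOINT events: two annealed thresholds cannot be multiplied by a quenched inequality).
* sec. 1  `PvcjOk 𝔊 D ε` : a family `D τ : PvfpConn` of connectors of 272 fitted on the global datum `𝔊`:  `O O'` = the two plug regions, `Lp = 𝔊.H 0`, `Lm = 𝔊.H 2` placed at the exit door, `Up` at a.e. pair of states, **(DET)** a.e.:  `C ∩ C' ∩ (D τ).A ⊆ 𝔊.A τ`.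
* sec. 2  **`pvcj_frc1`** (one `ε`),   **`pvcj_frc`** (EVENTUALLY in `ε`, constants `q₀` of QBX, `n` = length of the walks, `β` = threshold),   `pvcj_frc_exit` (with `exit_pvlq_q`).
* sec. 3  `pvcj_E_off` (a mesh event read in the tile: its conditional probability is its probability).
* sec. 4  **`pvcj_adm`** : `PvkdAdm` + `HDict` ⟹ the field `adm`.
-/

set_option autoImplicit false
set_option linter.unusedSectionVars false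

namespace Claimed.Agent.R289

open MeasureTheory ProbabilityTheory Set Filter Topology
open scoped ENNReal NNReal

/-! ## 1. connectors fitted on a global datum -/

/-- **WHAT THE MODEL OWES FOR [FRC], QUENCHED ROUTE**, at the mesh `ε` -/
structure PvcjOk (𝔊 : PvpgGlob) (D : PvtTurn → PvfpConn) (ε : ℝ) : Prop where
  mO : MeasurableSet 𝔊.O₀
  mC : MeasurableSet 𝔊.C
  /-- the connectors of 272 are well formed -/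
  ok : ∀ τ, (D τ).Ok
  /-- the two state regions are the two plug regions -/
  O_eq : ∀ τ, (D τ).O = 𝔊.pre.O 0 1
  O'_eq : ∀ τ, (D τ).O' = 𝔊.Ox τ
  /-- the exit side event is the half lane `0`, the entrance side event is the half lane `2` placed at the exit door -/
  Lp_eq : ∀ τ, (D τ).Lp = 𝔊.H 0
  Lm_eq : ∀ τ, (D τ).Lm = 𝔊.Hx τ 2
  /-- quenched up-ness, at almost every pair of states -/
  up : ∀ τ, ∀ᵐ σ ∂(pvP ε), (D τ).Up ε σ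
  /-- **(DET)**, almost everywhere -/
  det : ∀ τ, ∀ᵐ η ∂(pvP ε), η ∈ 𝔊.C → η ∈ 𝔊.Cp (𝔊.pre.zo 0 1 τ) τ.rot → η ∈ (D τ).A → η ∈ 𝔊.A τ

section frc

variable {𝔊 : PvpgGlob} {D : PvtTurn → PvfpConn} {ε : ℝ}

theorem pvcj_OO (H : PvcjOk 𝔊 D ε) (τ : PvtTurn) : (D τ).OO = 𝔊.pre.OO 0 1 τ := by
  rw [PvfpConn.OO, H.O_eq, H.O'_eq, pvcf_OO_eq]

/-- the two propensities of a pair of usable states -/
theorem pvcj_prop (H : PvcjOk 𝔊 D ε) (b : ℝ≥0∞) (τ : PvtTurn) {σ : Conf PvPt} (hσ : σ ∈ 𝔊.G2 (pvP ε) b τ) :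
    b ≤ pvtiP (pvP ε) (D τ).O (D τ).Lp σ ∧ b ≤ pvtiP (pvP ε) (D τ).O' (D τ).Lm σ := by
  constructor
  · rw [H.O_eq, H.Lp_eq]
    exact Set.mem_iInter.1 hσ.1.2 0
  · rw [H.O'_eq, H.Lm_eq, pvcf_P_Hx]
    exact Set.mem_iInter.1 hσ.2.2 2

/-- the bare event of the connector is, given a.e. pair of usable states, inside the GLOBAL link -/
theorem pvcj_mono (H : PvcjOk 𝔊 D ε) (b : ℝ≥0∞) (τ : PvtTurn) :
    ∀ᵐ σ ∂(pvP ε), σ ∈ 𝔊.G2 (pvP ε) b τ → pvtiP (pvP ε) (𝔊.pre.OO 0 1 τ) (D τ).A σ ≤ pvtiP (pvP ε) (𝔊.pre.OO 0 1 τ) (𝔊.A τ) σ := by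
  have hp := pv_isPpp ε
  have mO0 : MeasurableSet (𝔊.pre.O 0 1) := pvcf_mO H.mO 0 1 one_ne_zero
  have mOx : MeasurableSet (𝔊.Ox τ) := pvcf_mO H.mO _ _ (pvt_rot_ne_zero τ)
  have hOO : MeasurableSet (𝔊.pre.OO 0 1 τ) := by rw [pvcf_OO_eq]; exact mO0.union mOx
  have a1 : ∀ᵐ η ∂(pvP ε), η ∈ pvpgSure (pvP ε) (𝔊.pre.O 0 1) 𝔊.C → η ∈ 𝔊.C := pvpg_sure_ae hp mO0 H.mC
  have a2 := pvcf_ae_frame (𝔊.pre.zo 0 1 τ) τ.rot (pvpk_rot_norm τ) a1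
  have all : ∀ᵐ η ∂(pvP ε), (η ∈ pvpgSure (pvP ε) (𝔊.pre.O 0 1) 𝔊.C → η ∈ 𝔊.C) ∧
      (cfMap (pvthInv (𝔊.pre.zo 0 1 τ) τ.rot) η ∈ pvpgSure (pvP ε) (𝔊.pre.O 0 1) 𝔊.C → cfMap (pvthInv (𝔊.pre.zo 0 1 τ) τ.rot) η ∈ 𝔊.C) ∧
      (η ∈ 𝔊.C → η ∈ 𝔊.Cp (𝔊.pre.zo 0 1 τ) τ.rot → η ∈ (D τ).A → η ∈ 𝔊.A τ) := by
    filter_upwards [a1, a2, H.det τ] with η b1 b2 b3
    exact ⟨b1, b2, b3⟩
  filter_upwards [hp.ae_ae_splice hOO all] with σ hσ hG2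
  refine pvcf_P_mono_ae _ _ σ ?_
  filter_upwards [hσ] with ξ hξ hA
  have hξ' : (Conf.spl (𝔊.pre.OO 0 1 τ) (σ, ξ) ∈ pvpgSure (pvP ε) (𝔊.pre.O 0 1) 𝔊.C → Conf.spl (𝔊.pre.OO 0 1 τ) (σ, ξ) ∈ 𝔊.C) ∧
      (cfMap (pvthInv (𝔊.pre.zo 0 1 τ) τ.rot) (Conf.spl (𝔊.pre.OO 0 1 τ) (σ, ξ)) ∈ pvpgSure (pvP ε) (𝔊.pre.O 0 1) 𝔊.C →
        cfMap (pvthInv (𝔊.pre.zo 0 1 τ) τ.rot) (Conf.spl (𝔊.pre.OO 0 1 τ) (σ, ξ)) ∈ 𝔊.C) ∧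
      (Conf.spl (𝔊.pre.OO 0 1 τ) (σ, ξ) ∈ 𝔊.C → Conf.spl (𝔊.pre.OO 0 1 τ) (σ, ξ) ∈ 𝔊.Cp (𝔊.pre.zo 0 1 τ) τ.rot →
        Conf.spl (𝔊.pre.OO 0 1 τ) (σ, ξ) ∈ (D τ).A → Conf.spl (𝔊.pre.OO 0 1 τ) (σ, ξ) ∈ 𝔊.A τ) := hξ
  obtain ⟨b1, b2, b3⟩ := hξ'
  have hg : Conf.spl (𝔊.pre.OO 0 1 τ) (σ, ξ) ∈ 𝔊.G2 (pvP ε) b τ := ((pvpg_rG2 (𝔊 := 𝔊) (b := b) (pvP ε) τ).spl_left (Set.Subset.refl _) σ ξ).mpr hG2
  exact b3 (b1 hg.1.1) (b2 hg.2.1) hA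

/-! ## 2. the bridge -/

/-- **[FRC], one `ε`** -/
theorem pvcj_frc1 (H : PvcjOk 𝔊 D ε) (τ : PvtTurn) {b q d θ : ℝ≥0∞}
    (hE : ∀ᵐ σ ∂(pvP ε), σ ∈ 𝔊.G2 (pvP ε) b τ → pvtiP (pvP ε) (D τ).OO (D τ).Eᶜ σ ≤ d) (hq : pvGeo ε {g | pvQc (D τ).Net g < q} ≤ θ) :
    ∀ᵐ σ ∂(pvP ε), σ ∈ 𝔊.G2 (pvP ε) b τ → q * (b * b - d - θ) ≤ pvtiP (pvP ε) (𝔊.pre.OO 0 1 τ) (𝔊.A τ) σ := by
  filter_upwards [H.up τ, pvcj_mono H b τ, hE] with σ hu hm hE' hσ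
  obtain ⟨p1, p2⟩ := pvcj_prop H b τ hσ
  have := pvfp_forced (D τ) (H.ok τ) ε σ hu p1 p2 (hE' hσ) hq
  rw [pvcj_OO H τ] at this
  exact this.trans (hm hσ)

/-- **[FRC], EVENTUALLY IN `ε`**, uniformly over all data whose walks have at most `n` cells -/
theorem pvcj_frc {q0 : ℝ} (hq0 : 0 < q0) (hq1 : q0 ≤ 1) (hQ : PvlqQbx q0) (n : ℕ) {β : ℝ} (hβ : 0 < β) :
    ∃ U : ℝ, 1 ≤ U ∧ ∀ ε : ℝ, 0 < ε → ∀ (𝔊 : PvpgGlob) (D : PvtTurn → PvfpConn), PvcjOk 𝔊 D ε → ∀ τ, U * ε ≤ (D τ).δ → (D τ).L₁.length ≤ n → (D τ).L₂.length ≤ n →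
      (∀ᵐ σ ∂(pvP ε), σ ∈ 𝔊.G2 (pvP ε) (ENNReal.ofReal β) τ → pvtiP (pvP ε) (D τ).OO (D τ).Eᶜ σ ≤ ENNReal.ofReal (β ^ 2 / 4)) →
      ∀ᵐ σ ∂(pvP ε), σ ∈ 𝔊.G2 (pvP ε) (ENNReal.ofReal β) τ →
        ENNReal.ofReal ((q0 ^ (15 * n) / 2) ^ 2 * (β ^ 2 / 2)) ≤ pvtiP (pvP ε) (𝔊.pre.OO 0 1 τ) (𝔊.A τ) σ := by
  obtain ⟨U, hU1, hU⟩ := pvfp_forced_ev hq0 hq1 hQ n hβ
  refine ⟨U, hU1, fun ε hε 𝔊 D H τ hδ n1 n2 hE => ?_⟩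
  filter_upwards [H.up τ, pvcj_mono H (ENNReal.ofReal β) τ, hE] with σ hu hm hE' hσ
  obtain ⟨p1, p2⟩ := pvcj_prop H (ENNReal.ofReal β) τ hσ
  have := hU ε hε (D τ) (H.ok τ) hδ n1 n2 σ hu p1 p2 (hE' hσ)
  rw [pvcj_OO H τ] at this
  exact this.trans (hm hσ)

/-- the same with the QBX of record -/
theorem pvcj_frc_exit : ∃ q0 : ℝ, 0 < q0 ∧ q0 ≤ 1 ∧ ∀ (n : ℕ) (β : ℝ), 0 < β →
    ∃ U : ℝ, 1 ≤ U ∧ ∀ ε : ℝ, 0 < ε → ∀ (𝔊 : PvpgGlob) (D : PvtTurn → PvfpConn), PvcjOk 𝔊 D ε → ∀ τ, U * ε ≤ (D τ).δ → (D τ).L₁.length ≤ n → (D τ).L₂.length ≤ n →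
      (∀ᵐ σ ∂(pvP ε), σ ∈ 𝔊.G2 (pvP ε) (ENNReal.ofReal β) τ → pvtiP (pvP ε) (D τ).OO (D τ).Eᶜ σ ≤ ENNReal.ofReal (β ^ 2 / 4)) →
      ∀ᵐ σ ∂(pvP ε), σ ∈ 𝔊.G2 (pvP ε) (ENNReal.ofReal β) τ →
        ENNReal.ofReal ((q0 ^ (15 * n) / 2) ^ 2 * (β ^ 2 / 2)) ≤ pvtiP (pvP ε) (𝔊.pre.OO 0 1 τ) (𝔊.A τ) σ := by
  obtain ⟨q0, h0, h1, hQ⟩ := exit_pvlq_q
  exact ⟨q0, h0, h1, fun n β hβ => pvcj_frc h0 h1 hQ n hβ⟩

/-! ## 3. the mesh event of the tile -/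

/-- a mesh event which is read off the two plug regions: its conditional probability is its probability -/
theorem pvcj_E_off (H : PvcjOk 𝔊 D ε) (τ : PvtTurn) {W : Set PvPt} (hW : Disjoint W (𝔊.pre.OO 0 1 τ)) (rE : Conf.ReadsSet W (D τ).E) {d : ℝ≥0∞} (hd : pvP ε (D τ).Eᶜ ≤ d)
    (σ : Conf PvPt) : pvtiP (pvP ε) (D τ).OO (D τ).Eᶜ σ ≤ d := by
  rw [pvcj_OO H τ, pvhk_P_of_disjoint _ hW σ (H.ok τ).mE.compl rE.compl]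
  exact hd

end frc

/-! ## 4. admission -/

/-- **[ADM]** for the datum `𝔤.glob Hf`: the target of ruling 14 minus the cost of the dictionary -/
theorem pvcj_adm (𝔤 : PvkdGeo) (Hf : Fin 4 → Set (Conf PvPt)) {ε : ℝ} {p0 err β' b : ℝ≥0∞} (hp : p0 ≤ pvP ε (𝔤.CH 0 1)) (hD : 𝔤.HDict Hf ε err)
    (hb : β' + 4 * b + err ≤ p0) : β' + 4 * b ≤ pvP ε ((𝔤.glob Hf).C ∩ ⋂ i, (𝔤.glob Hf).H i) := by
  have h1 : 𝔤.CH 0 1 ⊆ ((𝔤.glob Hf).C ∩ ⋂ i, (𝔤.glob Hf).H i) ∪ (𝔤.CH 0 1 \ ⋂ i, Hf i) := by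
    intro η hη
    by_cases h : η ∈ ⋂ i, Hf i
    · exact Or.inl ⟨hη.1, h⟩
    · exact Or.inr ⟨hη, h⟩
  have h2 : p0 ≤ pvP ε ((𝔤.glob Hf).C ∩ ⋂ i, (𝔤.glob Hf).H i) + err :=
    hp.trans ((measure_mono h1).trans ((measure_union_le _ _).trans (add_le_add le_rfl hD)))
  have herr : err ≠ ∞ := by
    have : err ≤ 1 := (le_add_self.trans hb).trans (hp.trans prob_le_one)
    exact ne_top_of_le_ne_top ENNReal.one_ne_top this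
  exact ENNReal.le_of_add_le_add_right herr (hb.trans h2)

end Claimed.Agent.R289
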