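import Claimed.Agent.R289.Tr.Ret
import Claimed.Agent.R289.Del.Meas

/-!
# Row 289 (S0537), box TR-IND (IND.7), file Tr/RetMeas : MEASURABILITY KIT OF WHAT IS READ FROM RETAINED TRIANGLES      (head helper220, second typist helper282, post of helper141; prefix `pvtm_`, `pvtm`, `Pvtm`)

WHY: (N1) (`pvti_n1`, `pvti_n1_fam`, `Tr/Ind`) and `Tr/Soft` need `Y` (sum of increments along the closing chain), `W_c` (indicators of connector events) measurable for `pvP ε`.
ROUTE: `pvcn_bridge`, `pvcn_bridge_null`, `pvcn_bridge_fun` (`PppCnt`): it is enough that `ω ↦ f (pvConf ω)` is `Measurable` on `PVSample`, a countable product; indices `DelgpIx = (ℤ × ℤ) × ℕ`, geometric kit `Del/Meas` (120).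
* §0 `pvtmP ω i` (coloured point of index `i`), `PvtmAct ω i`, `pvtmP3`, `pvtmIn E = {(z, r) | closedBall z r ⊆ E}`, **`PvtmMS S`** (a random set of coloured triples with measurable index sections: EVERYTHING below is stated for such an `S`),
     `PvtmAdj S`, `PvtmPath S c T l`, `PvtmCross S c T A B`, `PvtmCrossS` (simple), `pvtmR S κ p q` (`κ` of the triangle on the right of the oriented edge), `pvtmX S κ l` (sum along a path).
* §1 index kit: quantifiers over the points of the configuration, over lists of points; colours, membership, equality.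
* §2 (M1) `pvtm_meas_in_closed`, `pvtm_meas_in_open`, `pvtm_meas_ret`, `pvtm_pv_ret`;   (M2) `pvtm_pv_set`, **`pvtm_ms_set`** (`pvtrSet ρ E ∘ pvConf` is a `PvtmMS`), `PvtmMS.sep` (sub-families).
* §3 (M4) `pvtm_tsum3`, **`pvtm_measurable_sum`**, `pvtm_measurable_R`, `pvtm_measurable_X`, finiteness.
* §4 (M3) `pvtm_meas_chain`, `pvtm_meas_path`, **`pvtm_meas_cross`**, `pvtm_meas_crossS`, `pvtm_meas_reach`.
* §5 (M5) `pvtm_pv_mesh`.
* §6 (M6) exits on `Conf PvPt`: `MeasurableSet (A ∩ PvLF)`, `NullMeasurableSet`, `AEMeasurable`, `Measurable (indicator)`, next to the `Conf.Reads`.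
-/

set_option autoImplicit false
set_option linter.unusedSectionVars false

namespace Claimed.Agent.R289

open MeasureTheory Set Metric Claims.C0465

/-! ## 0. definitions -/

/-- the coloured point of index `i` -/
def pvtmP (ω : PVSample) (i : DelgpIx) : PvPt := (delgpW ω i, (ω.2 i).2)

/-- the index `i` is active -/
def PvtmAct (ω : PVSample) (i : DelgpIx) : Prop := i.2 < ω.1 i.1

/-- the coloured triple of an index triple -/
def pvtmP3 (ω : PVSample) (q : DelgpIx × DelgpIx × DelgpIx) : PvPt × PvPt × PvPt := (pvtmP ω q.1, pvtmP ω q.2.1, pvtmP ω q.2.2)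

/-- the closed discs (centre, radius) inside `E` -/
def pvtmIn (E : Set ℂ) : Set (ℂ × ℝ) := {q | closedBall q.1 q.2 ⊆ E}

/-- a random set of coloured triples of points of the configuration, with measurable index sections -/
structure PvtmMS (S : PVSample → Set (PvPt × PvPt × PvPt)) : Prop where
  sub : ∀ ω, ∀ t ∈ S ω, t.1 ∈ (pvConf ω).pts ∧ t.2.1 ∈ (pvConf ω).pts ∧ t.2.2 ∈ (pvConf ω).pts
  meas : ∀ q : DelgpIx × DelgpIx × DelgpIx, MeasurableSet {ω | pvtmP3 ω q ∈ S ω}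

/-- `p q` is an edge (in one of the two orientations) of a triangle of `S` (`S` stable under cyclic rotation, as `pvtrSet`) -/
def PvtmAdj (S : Set (PvPt × PvPt × PvPt)) (p q : PvPt) : Prop := ∃ r, (p, q, r) ∈ S ∨ (q, p, r) ∈ S

/-- the vertices of the triangles of `S` -/
def pvtmV (S : Set (PvPt × PvPt × PvPt)) : Set PvPt := {p | ∃ q r, (p, q, r) ∈ S ∨ (q, p, r) ∈ S ∨ (q, r, p) ∈ S}

/-- a path of the graph of `S`, of colour `c`, all sites in `T` -/
def PvtmPath (S : Set (PvPt × PvPt × PvPt)) (c : Bool) (T : Set ℂ) (l : List PvPt) : Prop :=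
  l.IsChain (PvtmAdj S) ∧ ∀ p ∈ l, p ∈ pvtmV S ∧ p.2 = c ∧ p.1 ∈ T

/-- there is a path of colour `c` in `T` from `A` to `B` -/
def PvtmCross (S : Set (PvPt × PvPt × PvPt)) (c : Bool) (T A B : Set ℂ) : Prop :=
  ∃ l : List PvPt, PvtmPath S c T l ∧ (∃ a ∈ l.head?, a.1 ∈ A) ∧ ∃ b ∈ l.getLast?, b.1 ∈ B

/-- the same with a simple path -/
def PvtmCrossS (S : Set (PvPt × PvPt × PvPt)) (c : Bool) (T A B : Set ℂ) : Prop :=
  ∃ l : List PvPt, l.Nodup ∧ PvtmPath S c T l ∧ (∃ a ∈ l.head?, a.1 ∈ A) ∧ ∃ b ∈ l.getLast?, b.1 ∈ B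

section defsum

variable {M : Type*} [AddCommMonoid M] [TopologicalSpace M]

/-- `κ` of the triangle of `S` on the RIGHT of the oriented edge `p → q`, i.e. of `(q, p, r) ∈ S` (sum over all such `r`: one in general position, `0` if there is none) -/
noncomputable def pvtmR (S : Set (PvPt × PvPt × PvPt)) (κ : PvPt × PvPt × PvPt → M) (p q : PvPt) : M :=
  ∑' t : {t : PvPt × PvPt × PvPt | t ∈ S ∧ t.1 = q ∧ t.2.1 = p}, κ t

/-- `x(g)`: the sum over the oriented edges of the path `l` of `κ` of the right triangle -/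
noncomputable def pvtmX (S : Set (PvPt × PvPt × PvPt)) (κ : PvPt × PvPt × PvPt → M) (l : List PvPt) : M :=
  ((l.zip l.tail).map fun e => pvtmR S κ e.1 e.2).sum

end defsum

theorem pvtm_eqns_cite : True := by
  have := @pvtmP.eq_1
  have := @PvtmAct.eq_1
  have := @pvtmP3.eq_1
  have := @pvtmIn.eq_1
  have := @PvtmAdj.eq_1
  have := @pvtmV.eq_1
  have := @PvtmPath.eq_1
  have := @PvtmCross.eq_1
  have := @PvtmCrossS.eq_1
  have := @pvtmR.eq_1.{0}
  have := @pvtmX.eq_1.{0}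
  trivial

variable {ρ : ℝ} {E T A B : Set ℂ} {S : PVSample → Set (PvPt × PvPt × PvPt)}

/-! ## 1. index kit -/

theorem pvtm_measurable_P (i : DelgpIx) : Measurable fun ω : PVSample => pvtmP ω i := by
  exact (delgp_measurable_W i).prodMk (measurable_snd.comp ((measurable_pi_apply i).comp measurable_snd))

theorem pvtm_measurable_P3 (q : DelgpIx × DelgpIx × DelgpIx) : Measurable fun ω : PVSample => pvtmP3 ω q := by
  exact (pvtm_measurable_P q.1).prodMk ((pvtm_measurable_P q.2.1).prodMk (pvtm_measurable_P q.2.2))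

theorem pvtm_meas_act (i : DelgpIx) : MeasurableSet {ω : PVSample | PvtmAct ω i} := by
  exact delm_pv_act i

theorem pvtm_mem_conf {ω : PVSample} {p : PvPt} : p ∈ (pvConf ω).pts ↔ ∃ i, PvtmAct ω i ∧ p = pvtmP ω i := by
  exact delgp_mem_conf

theorem pvtm_mem_of_act {ω : PVSample} {i : DelgpIx} (h : PvtmAct ω i) : pvtmP ω i ∈ (pvConf ω).pts := by
  exact pvtm_mem_conf.2 ⟨i, h, rfl⟩

theorem pvtm_forall_pt {ω : PVSample} {p : PvPt → Prop} : (∀ q ∈ (pvConf ω).pts, p q) ↔ ∀ i, PvtmAct ω i → p (pvtmP ω i) := by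
  constructor
  · exact fun h i hi => h _ (pvtm_mem_of_act hi)
  · intro h q hq
    obtain ⟨i, hi, rfl⟩ := pvtm_mem_conf.1 hq
    exact h i hi

theorem pvtm_exists_pt {ω : PVSample} {p : PvPt → Prop} : (∃ q ∈ (pvConf ω).pts, p q) ↔ ∃ i, PvtmAct ω i ∧ p (pvtmP ω i) := by
  constructor
  · rintro ⟨q, hq, h⟩
    obtain ⟨i, hi, rfl⟩ := pvtm_mem_conf.1 hq
    exact ⟨i, hi, h⟩
  · rintro ⟨i, hi, h⟩
    exact ⟨_, pvtm_mem_of_act hi, h⟩

/-- lists of points of the configuration = images of lists of active indices -/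
theorem pvtm_exists_list {ω : PVSample} {p : List PvPt → Prop} :
    (∃ l : List PvPt, (∀ q ∈ l, q ∈ (pvConf ω).pts) ∧ p l) ↔ ∃ L : List DelgpIx, (∀ i ∈ L, PvtmAct ω i) ∧ p (L.map (pvtmP ω)) := by
  constructor
  · rintro ⟨l, hl, h⟩
    have key : ∀ l : List PvPt, (∀ q ∈ l, q ∈ (pvConf ω).pts) → ∃ L : List DelgpIx, (∀ i ∈ L, PvtmAct ω i) ∧ L.map (pvtmP ω) = l := by
      intro l
      induction l with
      | nil => exact fun _ => ⟨[], by simp, rfl⟩
      | cons a l ih =>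
        intro hl
        obtain ⟨L, hL, e⟩ := ih fun q hq => hl q (List.mem_cons_of_mem _ hq)
        obtain ⟨i, hi, e'⟩ := pvtm_mem_conf.1 (hl a List.mem_cons_self)
        refine ⟨i :: L, ?_, by rw [List.map_cons, e, e']⟩
        intro j hj
        rcases List.mem_cons.1 hj with rfl | hj
        · exact hi
        · exact hL j hj
    obtain ⟨L, hL, rfl⟩ := key l hl
    exact ⟨L, hL, h⟩
  · rintro ⟨L, hL, h⟩
    refine ⟨_, ?_, h⟩
    intro q hq
    obtain ⟨i, hi, rfl⟩ := List.mem_map.1 hq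
    exact pvtm_mem_of_act (hL i hi)

theorem pvtm_meas_forall_pt {p : PVSample → PvPt → Prop} (h : ∀ i, MeasurableSet {ω | p ω (pvtmP ω i)}) : MeasurableSet {ω | ∀ q ∈ (pvConf ω).pts, p ω q} := by
  simp only [pvtm_forall_pt]
  exact delm_meas_all fun i => delm_meas_imp (pvtm_meas_act i) (h i)

theorem pvtm_meas_exists_pt {p : PVSample → PvPt → Prop} (h : ∀ i, MeasurableSet {ω | p ω (pvtmP ω i)}) : MeasurableSet {ω | ∃ q ∈ (pvConf ω).pts, p ω q} := by
  simp only [pvtm_exists_pt]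
  exact delm_meas_exi fun i => delm_meas_and (pvtm_meas_act i) (h i)

theorem pvtm_meas_exists_list {p : PVSample → List PvPt → Prop} (h : ∀ L : List DelgpIx, MeasurableSet {ω | p ω (L.map (pvtmP ω))}) :
    MeasurableSet {ω | ∃ l : List PvPt, (∀ q ∈ l, q ∈ (pvConf ω).pts) ∧ p ω l} := by
  simp only [pvtm_exists_list]
  refine delm_meas_exi fun L => delm_meas_and ?_ (h L)
  exact delm_meas_all fun i => delm_meas_imp (MeasurableSet.const _) (pvtm_meas_act i)

theorem pvtm_meas_mem {U : Set PvPt} (hU : MeasurableSet U) (i : DelgpIx) : MeasurableSet {ω : PVSample | pvtmP ω i ∈ U} := by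
  exact pvtm_measurable_P i hU

theorem pvtm_meas_col (c : Bool) (i : DelgpIx) : MeasurableSet {ω : PVSample | (pvtmP ω i).2 = c} := by
  exact (measurable_snd.comp (pvtm_measurable_P i)) (measurableSet_singleton c)

theorem pvtm_meas_site (hT : MeasurableSet T) (i : DelgpIx) : MeasurableSet {ω : PVSample | (pvtmP ω i).1 ∈ T} := by
  exact (measurable_fst.comp (pvtm_measurable_P i)) hT

theorem pvtm_meas_eq (i j : DelgpIx) : MeasurableSet {ω : PVSample | pvtmP ω i = pvtmP ω j} := by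
  exact measurableSet_eq_fun (pvtm_measurable_P i) (pvtm_measurable_P j)

theorem pvtm_meas_pts (i : DelgpIx) : MeasurableSet {ω : PVSample | pvtmP ω i ∈ (pvConf ω).pts} := by
  simp only [pvtm_mem_conf]
  exact delm_meas_exi fun j => delm_meas_and (pvtm_meas_act j) (pvtm_meas_eq i j)


/-! ## 2. (M1), (M2): retained triangles -/

theorem pvtm_in_iff {z : ℂ} {r : ℝ} (hr : 0 ≤ r) : closedBall z r ⊆ E ↔ ∀ u ∈ closedBall (0 : ℂ) 1, z + (r : ℂ) * u ∈ E := by
  constructor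
  · intro h u hu
    refine h ?_
    rw [mem_closedBall_zero_iff] at hu
    rw [mem_closedBall, dist_eq_norm, add_sub_cancel_left, norm_mul, Complex.norm_real, Real.norm_of_nonneg hr]
    exact mul_le_of_le_one_right hr hu
  · intro h w hw
    rw [mem_closedBall, dist_eq_norm] at hw
    rcases hr.eq_or_lt with rfl | hr'
    · have : w = z := by
        have := norm_le_zero_iff.1 hw
        exact sub_eq_zero.1 this
      have h0 := h 0 (by simp)
      simpa [this] using h0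
    · have h1 := h ((w - z) / (r : ℂ)) (by
        rw [mem_closedBall_zero_iff, norm_div, Complex.norm_real, Real.norm_of_nonneg hr]
        exact (div_le_one hr').2 hw)
      have hne : (r : ℂ) ≠ 0 := by exact_mod_cast hr'.ne'
      rw [mul_div_cancel₀ _ hne] at h1
      simpa using h1

theorem pvtm_in_eq (E : Set ℂ) : pvtmIn E = {q : ℂ × ℝ | q.2 < 0} ∪ {q : ℂ × ℝ | ∀ u ∈ closedBall (0 : ℂ) 1, q.1 + (q.2 : ℂ) * u ∈ E} := by
  ext q
  simp only [pvtmIn, mem_ofPred_eq, mem_union]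
  rcases lt_or_ge q.2 0 with h | h
  · simp [h]
  · rw [pvtm_in_iff h]
    simp [not_lt.2 h]

theorem pvtm_closed_in (hE : IsClosed E) : IsClosed {q : ℂ × ℝ | 0 ≤ q.2 ∧ closedBall q.1 q.2 ⊆ E} := by
  have e : {q : ℂ × ℝ | 0 ≤ q.2 ∧ closedBall q.1 q.2 ⊆ E} = {q : ℂ × ℝ | 0 ≤ q.2} ∩ ⋂ u ∈ closedBall (0 : ℂ) 1, {q : ℂ × ℝ | q.1 + (q.2 : ℂ) * u ∈ E} := by
    ext q
    simp only [mem_ofPred_eq, mem_inter_iff, mem_iInter]
    constructor
    · rintro ⟨h, h'⟩; exact ⟨h, (pvtm_in_iff h).1 h'⟩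
    · rintro ⟨h, h'⟩; exact ⟨h, (pvtm_in_iff h).2 h'⟩
  rw [e]
  refine (isClosed_le continuous_const continuous_snd).inter (isClosed_biInter fun u _ => ?_)
  exact hE.preimage (by fun_prop)

theorem pvtm_meas_in_closed (hE : IsClosed E) : MeasurableSet (pvtmIn E) := by
  have e : pvtmIn E = {q : ℂ × ℝ | q.2 < 0} ∪ {q : ℂ × ℝ | 0 ≤ q.2 ∧ closedBall q.1 q.2 ⊆ E} := by
    ext q
    simp only [pvtmIn, mem_ofPred_eq, mem_union]
    rcases lt_or_ge q.2 0 with h | h
    · simp [h]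
    · simp [h, not_lt.2 h]
  rw [e]
  exact (isOpen_lt continuous_snd continuous_const).measurableSet.union (pvtm_closed_in hE).measurableSet

theorem pvtm_open_in (hE : IsOpen E) : IsOpen (pvtmIn E) := by
  rw [pvtm_in_eq]
  refine (isOpen_lt continuous_snd continuous_const).union ?_
  rw [isOpen_iff_eventually]
  intro q hq
  refine (isCompact_closedBall (0 : ℂ) 1).eventually_forall_of_forall_eventually fun u hu => ?_
  have hc : Continuous fun z : (ℂ × ℝ) × ℂ => z.1.1 + (z.1.2 : ℂ) * z.2 := by fun_prop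
  exact hc.continuousAt.eventually_mem (hE.mem_nhds (hq u hu))

theorem pvtm_meas_in_open (hE : IsOpen E) : MeasurableSet (pvtmIn E) := by
  exact (pvtm_open_in hE).measurableSet

theorem pvtm_in_iInter {ι : Type*} (F : ι → Set ℂ) : pvtmIn (⋂ n, F n) = ⋂ n, pvtmIn (F n) := by
  ext q
  simp only [pvtmIn, mem_ofPred_eq, mem_iInter, subset_iInter_iff]

theorem pvtm_meas_in_inter {E' : Set ℂ} (hE : MeasurableSet (pvtmIn E)) (hE' : MeasurableSet (pvtmIn E')) : MeasurableSet (pvtmIn (E ∩ E')) := by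
  have e : pvtmIn (E ∩ E') = pvtmIn E ∩ pvtmIn E' := by
    ext q
    simp only [pvtmIn, mem_ofPred_eq, mem_inter_iff, subset_inter_iff]
  rw [e]
  exact hE.inter hE'

/-- (M1) on the geometric sample space of `Del/Meas` -/
theorem pvtm_meas_ret (hE : MeasurableSet (pvtmIn E)) (ρ : ℝ) (i j k : DelgpIx) : MeasurableSet {x : DelmT | PvRet ρ E (delmY x) (x.2 i) (x.2 j) (x.2 k)} := by
  simp only [pvtr_iff]
  have hO : Measurable fun x : DelmT => delO (x.2 i) (x.2 j) (x.2 k) := delm_measurable_O (delm_measurable_site i) (delm_measurable_site j) (delm_measurable_site k)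
  have hr : Measurable fun x : DelmT => ‖delO (x.2 i) (x.2 j) (x.2 k) - x.2 i‖ := (hO.sub (delm_measurable_site i)).norm
  exact delm_meas_and (delm_meas_tri i j k) (delm_meas_and (measurableSet_le hr measurable_const) ((hO.prodMk hr) hE))

/-- (M1) -/
theorem pvtm_pv_ret (hE : MeasurableSet (pvtmIn E)) (ρ : ℝ) (i j k : DelgpIx) :
    MeasurableSet {ω : PVSample | PvRet ρ E (cfSites (pvConf ω)) (delgpW ω i) (delgpW ω j) (delgpW ω k)} := by
  simp only [delm_sites]
  exact delm_pull (pvtm_meas_ret hE ρ i j k)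

/-- (M2) -/
theorem pvtm_pv_set (hE : MeasurableSet (pvtmIn E)) (ρ : ℝ) (q : DelgpIx × DelgpIx × DelgpIx) : MeasurableSet {ω : PVSample | pvtmP3 ω q ∈ pvtrSet ρ E (pvConf ω)} := by
  exact delm_meas_and (pvtm_meas_pts q.1) (delm_meas_and (pvtm_meas_pts q.2.1) (delm_meas_and (pvtm_meas_pts q.2.2) (pvtm_pv_ret hE ρ q.1 q.2.1 q.2.2)))

/-- (M2) **the coloured retained triangles are a random set of triples with measurable sections** -/
theorem pvtm_ms_set (hE : MeasurableSet (pvtmIn E)) (ρ : ℝ) : PvtmMS fun ω => pvtrSet ρ E (pvConf ω) := by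
  exact ⟨fun ω t ht => ⟨ht.1, ht.2.1, ht.2.2.1⟩, pvtm_pv_set hE ρ⟩

/-- sub-families -/
theorem PvtmMS.sep (hS : PvtmMS S) {p : PVSample → PvPt × PvPt × PvPt → Prop} (hp : ∀ q, MeasurableSet {ω | p ω (pvtmP3 ω q)}) : PvtmMS fun ω => {t | t ∈ S ω ∧ p ω t} := by
  exact ⟨fun ω t ht => hS.sub ω t ht.1, fun q => delm_meas_and (hS.meas q) (hp q)⟩

theorem PvtmMS.sep_set (hS : PvtmMS S) {U : Set (PvPt × PvPt × PvPt)} (hU : MeasurableSet U) : PvtmMS fun ω => {t | t ∈ S ω ∧ t ∈ U} := by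
  exact hS.sep (p := fun _ t => t ∈ U) fun q => pvtm_measurable_P3 q hU

theorem PvtmMS.inter {S' : PVSample → Set (PvPt × PvPt × PvPt)} (hS : PvtmMS S) (hS' : PvtmMS S') : PvtmMS fun ω => S ω ∩ S' ω := by
  exact ⟨fun ω t ht => hS.sub ω t ht.1, fun q => (hS.meas q).inter (hS'.meas q)⟩

theorem PvtmMS.union {S' : PVSample → Set (PvPt × PvPt × PvPt)} (hS : PvtmMS S) (hS' : PvtmMS S') : PvtmMS fun ω => S ω ∪ S' ω := by
  exact ⟨fun ω t ht => ht.elim (hS.sub ω t) (hS'.sub ω t), fun q => (hS.meas q).union (hS'.meas q)⟩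

theorem PvtmMS.exists_iff (hS : PvtmMS S) {ω : PVSample} {p : PvPt × PvPt × PvPt → Prop} : (∃ t ∈ S ω, p t) ↔ ∃ q, pvtmP3 ω q ∈ S ω ∧ p (pvtmP3 ω q) := by
  constructor
  · rintro ⟨⟨a, b, c⟩, ht, h⟩
    obtain ⟨h1, h2, h3⟩ := hS.sub ω _ ht
    obtain ⟨i, -, rfl⟩ := pvtm_mem_conf.1 h1
    obtain ⟨j, -, rfl⟩ := pvtm_mem_conf.1 h2
    obtain ⟨k, -, rfl⟩ := pvtm_mem_conf.1 h3
    exact ⟨(i, j, k), ht, h⟩
  · rintro ⟨q, h1, h2⟩
    exact ⟨_, h1, h2⟩

theorem PvtmMS.forall_iff (hS : PvtmMS S) {ω : PVSample} {p : PvPt × PvPt × PvPt → Prop} : (∀ t ∈ S ω, p t) ↔ ∀ q, pvtmP3 ω q ∈ S ω → p (pvtmP3 ω q) := by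
  constructor
  · exact fun h q hq => h _ hq
  · rintro h ⟨a, b, c⟩ ht
    obtain ⟨h1, h2, h3⟩ := hS.sub ω _ ht
    obtain ⟨i, -, rfl⟩ := pvtm_mem_conf.1 h1
    obtain ⟨j, -, rfl⟩ := pvtm_mem_conf.1 h2
    obtain ⟨k, -, rfl⟩ := pvtm_mem_conf.1 h3
    exact h (i, j, k) ht

/-- quantifiers over the triangles of `S` -/
theorem PvtmMS.meas_exists (hS : PvtmMS S) {p : PVSample → PvPt × PvPt × PvPt → Prop} (hp : ∀ q, MeasurableSet {ω | p ω (pvtmP3 ω q)}) : MeasurableSet {ω | ∃ t ∈ S ω, p ω t} := by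
  simp only [hS.exists_iff]
  exact delm_meas_exi fun q => delm_meas_and (hS.meas q) (hp q)

theorem PvtmMS.meas_forall (hS : PvtmMS S) {p : PVSample → PvPt × PvPt × PvPt → Prop} (hp : ∀ q, MeasurableSet {ω | p ω (pvtmP3 ω q)}) : MeasurableSet {ω | ∀ t ∈ S ω, p ω t} := by
  simp only [hS.forall_iff]
  exact delm_meas_all fun q => delm_meas_imp (hS.meas q) (hp q)


/-! ## 3. (M4): sums -/

/-- `i` is the first active index of its coloured point -/
def PvtmFst (ω : PVSample) (i : DelgpIx) : Prop := PvtmAct ω i ∧ ∀ j : DelgpIx, PvtmAct ω j → pvtmP ω j = pvtmP ω i → Encodable.encode i ≤ Encodable.encode j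

theorem pvtm_meas_fst (i : DelgpIx) : MeasurableSet {ω : PVSample | PvtmFst ω i} := by
  exact delm_meas_and (pvtm_meas_act i) (delm_meas_all fun j => delm_meas_imp (pvtm_meas_act j) (delm_meas_imp (pvtm_meas_eq j i) (MeasurableSet.const _)))

theorem pvtm_fst_inj {ω : PVSample} {i j : DelgpIx} (hi : PvtmFst ω i) (hj : PvtmFst ω j) (h : pvtmP ω i = pvtmP ω j) : i = j := by
  exact Encodable.encode_injective (le_antisymm (hi.2 j hj.1 h.symm) (hj.2 i hi.1 h))

theorem pvtm_fst_surj {ω : PVSample} {p : PvPt} (hp : p ∈ (pvConf ω).pts) : ∃ i, PvtmFst ω i ∧ pvtmP ω i = p := by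
  classical
  obtain ⟨i0, h0, e0⟩ := pvtm_mem_conf.1 hp
  have hex : ∃ n : ℕ, ∃ i : DelgpIx, Encodable.encode i = n ∧ PvtmAct ω i ∧ pvtmP ω i = p := ⟨_, i0, rfl, h0, e0.symm⟩
  obtain ⟨i, hi, ha, e⟩ := Nat.find_spec hex
  refine ⟨i, ⟨ha, fun j hj hji => ?_⟩, e⟩
  rw [hi]
  exact Nat.find_min' hex ⟨j, rfl, hj, hji.trans e⟩

section sums

variable {M : Type*} [AddCommMonoid M] [TopologicalSpace M]

/-- a sum over a set of triples of points of the configuration is a sum over the index triples -/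
theorem pvtm_tsum3 (ω : PVSample) {Z : Set (PvPt × PvPt × PvPt)} (hZ : ∀ t ∈ Z, t.1 ∈ (pvConf ω).pts ∧ t.2.1 ∈ (pvConf ω).pts ∧ t.2.2 ∈ (pvConf ω).pts) (F : PvPt × PvPt × PvPt → M) :
    ∑' t : Z, F t = ∑' q : DelgpIx × DelgpIx × DelgpIx, {q | PvtmFst ω q.1 ∧ PvtmFst ω q.2.1 ∧ PvtmFst ω q.2.2 ∧ pvtmP3 ω q ∈ Z}.indicator (fun q => F (pvtmP3 ω q)) q := by
  have e : Z = pvtmP3 ω '' {q | PvtmFst ω q.1 ∧ PvtmFst ω q.2.1 ∧ PvtmFst ω q.2.2 ∧ pvtmP3 ω q ∈ Z} := by
    ext ⟨a, b, c⟩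
    constructor
    · intro hv
      obtain ⟨i, hi, rfl⟩ := pvtm_fst_surj (hZ _ hv).1
      obtain ⟨j, hj, rfl⟩ := pvtm_fst_surj (hZ _ hv).2.1
      obtain ⟨k, hk, rfl⟩ := pvtm_fst_surj (hZ _ hv).2.2
      exact ⟨(i, j, k), ⟨hi, hj, hk, hv⟩, rfl⟩
    · rintro ⟨q, hq, h⟩
      rw [← h]; exact hq.2.2.2
  have hinj : InjOn (pvtmP3 ω) {q | PvtmFst ω q.1 ∧ PvtmFst ω q.2.1 ∧ PvtmFst ω q.2.2 ∧ pvtmP3 ω q ∈ Z} := fun q hq r hr h =>
    Prod.ext (pvtm_fst_inj hq.1 hr.1 (congrArg Prod.fst h))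
      (Prod.ext (pvtm_fst_inj hq.2.1 hr.2.1 (congrArg (fun t => t.2.1) h)) (pvtm_fst_inj hq.2.2.1 hr.2.2.1 (congrArg (fun t => t.2.2) h)))
  rw [← tsum_subtype, ← tsum_image F hinj]
  exact tsum_congr_set_coe F e

variable [TopologicalSpace.IsCompletelyPseudoMetrizableSpace M] [SecondCountableTopology M] [MeasurableSpace M] [BorelSpace M] [MeasurableAdd₂ M]

/-- (M4) **sums over the triangles of `S`**, summand depending on the sample -/
theorem pvtm_measurable_sum' (hS : PvtmMS S) {F : PVSample → PvPt × PvPt × PvPt → M} (hF : ∀ q, Measurable fun ω => F ω (pvtmP3 ω q)) : Measurable fun ω => ∑' t : S ω, F ω t := by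
  have e : (fun ω => ∑' t : S ω, F ω t)
      = fun ω => ∑' q : DelgpIx × DelgpIx × DelgpIx, {q | PvtmFst ω q.1 ∧ PvtmFst ω q.2.1 ∧ PvtmFst ω q.2.2 ∧ pvtmP3 ω q ∈ S ω}.indicator (fun q => F ω (pvtmP3 ω q)) q := by
    funext ω; exact pvtm_tsum3 ω (hS.sub ω) (F ω)
  rw [e]
  exact delm_measurable_tsum (P := fun q ω => PvtmFst ω q.1 ∧ PvtmFst ω q.2.1 ∧ PvtmFst ω q.2.2 ∧ pvtmP3 ω q ∈ S ω) (f := fun q ω => F ω (pvtmP3 ω q))
    (fun q => delm_meas_and (pvtm_meas_fst q.1) (delm_meas_and (pvtm_meas_fst q.2.1) (delm_meas_and (pvtm_meas_fst q.2.2) (hS.meas q)))) hF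

/-- (M4) **sums over the triangles of `S`** -/
theorem pvtm_measurable_sum (hS : PvtmMS S) {F : PvPt × PvPt × PvPt → M} (hF : Measurable F) : Measurable fun ω => ∑' t : S ω, F t := by
  exact pvtm_measurable_sum' hS (F := fun _ => F) fun q => hF.comp (pvtm_measurable_P3 q)

/-- (M4) `κ` of the right triangle of the oriented edge of indices `i → j` -/
theorem pvtm_measurable_R (hS : PvtmMS S) {κ : PvPt × PvPt × PvPt → M} (hκ : Measurable κ) (i j : DelgpIx) : Measurable fun ω => pvtmR (S ω) κ (pvtmP ω i) (pvtmP ω j) := by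
  exact pvtm_measurable_sum (hS.sep (p := fun ω t => t.1 = pvtmP ω j ∧ t.2.1 = pvtmP ω i) fun q => delm_meas_and (pvtm_meas_eq q.1 j) (pvtm_meas_eq q.2.1 i)) hκ

end sums

section sumsdet

variable {M : Type*} [AddCommMonoid M] [TopologicalSpace M] {Z : Set (PvPt × PvPt × PvPt)} {κ : PvPt × PvPt × PvPt → M} {p q r : PvPt}

theorem pvtm_R_eq (h : (q, p, r) ∈ Z) (hu : ∀ r', (q, p, r') ∈ Z → r' = r) : pvtmR Z κ p q = κ (q, p, r) := by
  have e : {t : PvPt × PvPt × PvPt | t ∈ Z ∧ t.1 = q ∧ t.2.1 = p} = {(q, p, r)} := by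
    ext ⟨a, b, c⟩
    simp only [mem_ofPred_eq, mem_singleton_iff, Prod.mk.injEq]
    constructor
    · rintro ⟨h1, rfl, rfl⟩
      exact ⟨rfl, rfl, hu c h1⟩
    · rintro ⟨rfl, rfl, rfl⟩
      exact ⟨h, rfl, rfl⟩
  unfold pvtmR
  rw [tsum_congr_set_coe κ e, tsum_singleton (q, p, r) κ]

theorem pvtm_R_zero (h : ∀ r, (q, p, r) ∉ Z) : pvtmR Z κ p q = 0 := by
  have e : {t : PvPt × PvPt × PvPt | t ∈ Z ∧ t.1 = q ∧ t.2.1 = p} = ∅ := by
    ext ⟨a, b, c⟩
    simp only [mem_ofPred_eq, mem_empty_iff_false, iff_false]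
    rintro ⟨h1, rfl, rfl⟩
    exact h c h1
  unfold pvtmR
  rw [tsum_congr_set_coe κ e, tsum_empty]

theorem pvtm_X_nil : pvtmX Z κ [] = 0 := by
  simp [pvtmX]

theorem pvtm_X_single : pvtmX Z κ [p] = 0 := by
  simp [pvtmX]

theorem pvtm_X_cons (l : List PvPt) : pvtmX Z κ (p :: q :: l) = pvtmR Z κ p q + pvtmX Z κ (q :: l) := by
  simp [pvtmX]

end sumsdet

section sums2

variable {M : Type*} [AddCommMonoid M] [TopologicalSpace M] [TopologicalSpace.IsCompletelyPseudoMetrizableSpace M] [SecondCountableTopology M] [MeasurableSpace M] [BorelSpace M] [MeasurableAdd₂ M]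

/-- (M4) `x(g)` for `g` given by an index list -/
theorem pvtm_measurable_X (hS : PvtmMS S) {κ : PvPt × PvPt × PvPt → M} (hκ : Measurable κ) (L : List DelgpIx) : Measurable fun ω => pvtmX (S ω) κ (L.map (pvtmP ω)) := by
  induction L with
  | nil => simp only [List.map_nil, pvtm_X_nil]; exact measurable_const
  | cons i L ih =>
    cases L with
    | nil => simp only [List.map_cons, List.map_nil, pvtm_X_single]; exact measurable_const
    | cons j L =>
      simp only [List.map_cons, pvtm_X_cons] at ih ⊢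
      exact (pvtm_measurable_R hS hκ i j).add ih

end sums2

/-- the points of a locally finite configuration in a bounded window are finitely many -/
theorem pvtm_pts_finite {η : Conf PvPt} (hη : PvLF η) (hE : Bornology.IsBounded E) : {p | p ∈ η.pts ∧ p.1 ∈ E}.Finite := by
  obtain ⟨R, hR⟩ := hE.subset_closedBall (0 : ℂ)
  have h1 := delgp_lf_of_pvlf hη R
  refine (h1.prod (finite_univ : (univ : Set Bool).Finite)).subset ?_
  rintro p ⟨hp, hpE⟩
  exact ⟨⟨⟨p, hp, rfl⟩, hR hpE⟩, mem_univ _⟩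

/-- the retained triangles of a bounded window of a locally finite configuration are finitely many -/
theorem pvtm_set_finite {η : Conf PvPt} (hη : PvLF η) (hE : Bornology.IsBounded E) (ρ : ℝ) : (pvtrSet ρ E η).Finite := by
  have h := pvtm_pts_finite hη hE
  refine (h.prod (h.prod h)).subset ?_
  rintro ⟨a, b, c⟩ ⟨h1, h2, h3, h4⟩
  exact ⟨⟨h1, h4.mem_a.2⟩, ⟨h2, h4.mem_b.2⟩, ⟨h3, h4.mem_c.2⟩⟩

/-- uniqueness of the right triangle in general position (colours determined by the sites) -/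
theorem pvtm_set_unique {η : Conf PvPt} (gp : VorGP (cfSites η)) (hc : ∀ p ∈ η.pts, ∀ p' ∈ η.pts, p.1 = p'.1 → p = p') {p q r r' : PvPt}
    (h : (p, q, r) ∈ pvtrSet ρ E η) (h' : (p, q, r') ∈ pvtrSet ρ E η) : r' = r := by
  exact hc _ h'.2.2.1 _ h.2.2.1 (PvRet.unique gp h'.2.2.2 h.2.2.2)

theorem pvtm_set_cyc {η : Conf PvPt} {p q r : PvPt} (h : (p, q, r) ∈ pvtrSet ρ E η) : (q, r, p) ∈ pvtrSet ρ E η := by
  exact ⟨h.2.1, h.2.2.1, h.1, h.2.2.2.cyc⟩

/-! ## 4. (M3): paths -/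

theorem pvtm_meas_chain {R : PVSample → PvPt → PvPt → Prop} (h : ∀ i j, MeasurableSet {ω | R ω (pvtmP ω i) (pvtmP ω j)}) (L : List DelgpIx) :
    MeasurableSet {ω | (L.map (pvtmP ω)).IsChain (R ω)} := by
  induction L with
  | nil => simp
  | cons a L ih =>
    cases L with
    | nil => simp
    | cons b L =>
      simp only [List.map_cons, List.isChain_cons_cons] at ih ⊢
      exact (h a b).inter ih

theorem pvtm_meas_list_all {p : PVSample → PvPt → Prop} (h : ∀ i, MeasurableSet {ω | p ω (pvtmP ω i)}) (L : List DelgpIx) : MeasurableSet {ω | ∀ q ∈ L.map (pvtmP ω), p ω q} := by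
  induction L with
  | nil => simp
  | cons a L ih =>
    have e : {ω | ∀ q ∈ (a :: L).map (pvtmP ω), p ω q} = {ω | p ω (pvtmP ω a)} ∩ {ω | ∀ q ∈ L.map (pvtmP ω), p ω q} := by
      ext ω; simp
    rw [e]; exact (h a).inter ih

theorem pvtm_meas_nodup (L : List DelgpIx) : MeasurableSet {ω : PVSample | (L.map (pvtmP ω)).Nodup} := by
  induction L with
  | nil => simp
  | cons a L ih =>
    have e : {ω : PVSample | ((a :: L).map (pvtmP ω)).Nodup} = {ω | ∀ q ∈ L.map (pvtmP ω), q ≠ pvtmP ω a} ∩ {ω | (L.map (pvtmP ω)).Nodup} := by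
      ext ω
      simp only [List.map_cons, List.nodup_cons, mem_setOf_eq, mem_inter_iff]
      refine and_congr_left fun _ => ⟨fun h q hq hqa => h (hqa ▸ hq), fun h hm => h _ hm rfl⟩
    rw [e]
    exact (pvtm_meas_list_all (p := fun ω q => q ≠ pvtmP ω a) (fun i => (pvtm_meas_eq i a).compl) L).inter ih

theorem pvtm_meas_head {p : PVSample → PvPt → Prop} (h : ∀ i, MeasurableSet {ω | p ω (pvtmP ω i)}) (L : List DelgpIx) : MeasurableSet {ω | ∃ a ∈ (L.map (pvtmP ω)).head?, p ω a} := by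
  cases L with
  | nil => simp
  | cons a L => simpa using h a

theorem pvtm_meas_last {p : PVSample → PvPt → Prop} (h : ∀ i, MeasurableSet {ω | p ω (pvtmP ω i)}) (L : List DelgpIx) : MeasurableSet {ω | ∃ a ∈ (L.map (pvtmP ω)).getLast?, p ω a} := by
  simp only [List.getLast?_map]
  cases L.getLast? with
  | none => simp
  | some a => simpa using h a

theorem pvtm_meas_adj (hS : PvtmMS S) (i j : DelgpIx) : MeasurableSet {ω | PvtmAdj (S ω) (pvtmP ω i) (pvtmP ω j)} := by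
  have : {ω | PvtmAdj (S ω) (pvtmP ω i) (pvtmP ω j)} = ⋃ k : DelgpIx, ({ω | pvtmP3 ω (i, j, k) ∈ S ω} ∪ {ω | pvtmP3 ω (j, i, k) ∈ S ω}) := by
    ext ω
    simp only [PvtmAdj, mem_ofPred_eq, mem_iUnion, mem_union]
    constructor
    · rintro ⟨r, h | h⟩
      · obtain ⟨k, -, rfl⟩ := pvtm_mem_conf.1 (hS.sub ω _ h).2.2
        exact ⟨k, Or.inl h⟩
      · obtain ⟨k, -, rfl⟩ := pvtm_mem_conf.1 (hS.sub ω _ h).2.2
        exact ⟨k, Or.inr h⟩
    · rintro ⟨k, h | h⟩
      · exact ⟨pvtmP ω k, Or.inl h⟩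
      · exact ⟨pvtmP ω k, Or.inr h⟩
  rw [this]
  exact MeasurableSet.iUnion fun k => (hS.meas _).union (hS.meas _)

theorem pvtm_meas_V (hS : PvtmMS S) (i : DelgpIx) : MeasurableSet {ω | pvtmP ω i ∈ pvtmV (S ω)} := by
  have : {ω | pvtmP ω i ∈ pvtmV (S ω)} = ⋃ j : DelgpIx, ⋃ k : DelgpIx,
      ({ω | pvtmP3 ω (i, j, k) ∈ S ω} ∪ ({ω | pvtmP3 ω (j, i, k) ∈ S ω} ∪ {ω | pvtmP3 ω (j, k, i) ∈ S ω})) := by
    ext ω
    simp only [pvtmV, mem_ofPred_eq, mem_iUnion, mem_union]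
    constructor
    · rintro ⟨q, r, h | h | h⟩
      · obtain ⟨j, -, rfl⟩ := pvtm_mem_conf.1 (hS.sub ω _ h).2.1
        obtain ⟨k, -, rfl⟩ := pvtm_mem_conf.1 (hS.sub ω _ h).2.2
        exact ⟨j, k, Or.inl h⟩
      · obtain ⟨j, -, rfl⟩ := pvtm_mem_conf.1 (hS.sub ω _ h).1
        obtain ⟨k, -, rfl⟩ := pvtm_mem_conf.1 (hS.sub ω _ h).2.2
        exact ⟨j, k, Or.inr (Or.inl h)⟩
      · obtain ⟨j, -, rfl⟩ := pvtm_mem_conf.1 (hS.sub ω _ h).1
        obtain ⟨k, -, rfl⟩ := pvtm_mem_conf.1 (hS.sub ω _ h).2.1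
        exact ⟨j, k, Or.inr (Or.inr h)⟩
    · rintro ⟨j, k, h | h | h⟩
      · exact ⟨_, _, Or.inl h⟩
      · exact ⟨_, _, Or.inr (Or.inl h)⟩
      · exact ⟨_, _, Or.inr (Or.inr h)⟩
  rw [this]
  exact MeasurableSet.iUnion fun j => MeasurableSet.iUnion fun k => (hS.meas _).union ((hS.meas _).union (hS.meas _))

theorem pvtm_V_sub (hS : PvtmMS S) (ω : PVSample) : pvtmV (S ω) ⊆ (pvConf ω).pts := by
  rintro p ⟨q, r, h | h | h⟩
  · exact (hS.sub ω _ h).1
  · exact (hS.sub ω _ h).2.1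
  · exact (hS.sub ω _ h).2.2

/-- (M3) an index list is a path of colour `c` in `T` -/
theorem pvtm_meas_path (hS : PvtmMS S) (c : Bool) (hT : MeasurableSet T) (L : List DelgpIx) : MeasurableSet {ω | PvtmPath (S ω) c T (L.map (pvtmP ω))} := by
  have h1 := pvtm_meas_chain (R := fun ω => PvtmAdj (S ω)) (fun i j => pvtm_meas_adj hS i j) L
  have h2 := pvtm_meas_list_all (p := fun ω p => p ∈ pvtmV (S ω) ∧ p.2 = c ∧ p.1 ∈ T)
    (fun i => (pvtm_meas_V hS i).inter ((pvtm_meas_col c i).inter (pvtm_meas_site hT i))) L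
  exact h1.inter h2

/-- (M3) general form: existence of a path with a measurable property of the list (e.g. a closed chain, a prescribed value of `x(g)`) -/
theorem pvtm_meas_exists_path (hS : PvtmMS S) (c : Bool) (hT : MeasurableSet T) {p : PVSample → List PvPt → Prop} (h : ∀ L : List DelgpIx, MeasurableSet {ω | p ω (L.map (pvtmP ω))}) :
    MeasurableSet {ω | ∃ l : List PvPt, PvtmPath (S ω) c T l ∧ p ω l} := by
  have key := pvtm_meas_exists_list (p := fun ω l => PvtmPath (S ω) c T l ∧ p ω l) (fun L => (pvtm_meas_path hS c hT L).inter (h L))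
  convert key using 1
  ext ω
  simp only [mem_ofPred_eq]
  constructor
  · rintro ⟨l, h1, h2⟩
    exact ⟨l, fun q hq => pvtm_V_sub hS ω (h1.2 q hq).1, h1, h2⟩
  · rintro ⟨l, -, h1, h2⟩
    exact ⟨l, h1, h2⟩

/-- (M3) **there is a path of colour `c` in `T` from `A` to `B`** -/
theorem pvtm_meas_cross (hS : PvtmMS S) (c : Bool) (hT : MeasurableSet T) (hA : MeasurableSet A) (hB : MeasurableSet B) : MeasurableSet {ω | PvtmCross (S ω) c T A B} :=
  pvtm_meas_exists_path hS c hT (p := fun _ l => (∃ a ∈ l.head?, a.1 ∈ A) ∧ ∃ b ∈ l.getLast?, b.1 ∈ B)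
    fun L => (pvtm_meas_head (p := fun _ a => a.1 ∈ A) (fun i => pvtm_meas_site hA i) L).inter
      (pvtm_meas_last (p := fun _ a => a.1 ∈ B) (fun i => pvtm_meas_site hB i) L)

/-- (M3) the same with a simple path -/
theorem pvtm_meas_crossS (hS : PvtmMS S) (c : Bool) (hT : MeasurableSet T) (hA : MeasurableSet A) (hB : MeasurableSet B) : MeasurableSet {ω | PvtmCrossS (S ω) c T A B} := by
  have key := pvtm_meas_exists_path hS c hT (p := fun _ l => l.Nodup ∧ (∃ a ∈ l.head?, a.1 ∈ A) ∧ ∃ b ∈ l.getLast?, b.1 ∈ B)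
    fun L => (pvtm_meas_nodup L).inter ((pvtm_meas_head (p := fun _ a => a.1 ∈ A) (fun i => pvtm_meas_site hA i) L).inter
      (pvtm_meas_last (p := fun _ a => a.1 ∈ B) (fun i => pvtm_meas_site hB i) L))
  convert key using 1
  ext ω
  simp only [mem_ofPred_eq, PvtmCrossS]
  constructor
  · rintro ⟨l, h1, h2, h3⟩
    exact ⟨l, h2, h1, h3⟩
  · rintro ⟨l, h2, h1, h3⟩
    exact ⟨l, h1, h2, h3⟩

/-- loop erasure: a chain contains a simple chain with the same ends -/
theorem pvtm_simple_chain {α : Type*} (R : α → α → Prop) : ∀ l : List α, l.IsChain R →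
    ∃ l' : List α, l'.Nodup ∧ l'.IsChain R ∧ (∀ x ∈ l', x ∈ l) ∧ l'.head? = l.head? ∧ l'.getLast? = l.getLast? := by
  classical
  intro l
  induction l with
  | nil => intro _; exact ⟨[], List.nodup_nil, List.isChain_nil, fun x hx => hx, rfl, rfl⟩
  | cons a l₀ ih =>
    intro hl
    obtain ⟨l₀', hn, hc, hsub, hh, hlast⟩ := ih hl.tail
    by_cases ha : a ∈ l₀'
    · obtain ⟨u, v, huv⟩ := List.append_of_mem ha
      refine ⟨a :: v, ?_, ?_, ?_, rfl, ?_⟩
      · rw [huv] at hn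
        exact (List.nodup_append.1 hn).2.1
      · rw [huv] at hc
        exact (List.isChain_append.1 hc).2.1
      · intro x hx
        rcases List.mem_cons.1 hx with rfl | hx
        · exact List.mem_cons_self
        · exact List.mem_cons_of_mem _ (hsub x (by rw [huv]; simp [hx]))
      · rw [List.getLast?_cons (l := l₀), ← hlast, huv]
        simp [List.getLast?_cons]
    · refine ⟨a :: l₀', List.nodup_cons.2 ⟨ha, hn⟩, ?_, ?_, rfl, ?_⟩
      · rw [List.isChain_cons]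
        refine ⟨?_, hc⟩
        rw [hh]
        exact (List.isChain_cons.1 hl).1
      · intro x hx
        rcases List.mem_cons.1 hx with rfl | hx
        · exact List.mem_cons_self
        · exact List.mem_cons_of_mem _ (hsub x hx)
      · rw [List.getLast?_cons, List.getLast?_cons, hlast]

/-- a path contains a simple path with the same ends -/
theorem pvtm_crossS_iff (Z : Set (PvPt × PvPt × PvPt)) (c : Bool) (T A B : Set ℂ) : PvtmCrossS Z c T A B ↔ PvtmCross Z c T A B := by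
  constructor
  · rintro ⟨l, -, h⟩
    exact ⟨l, h⟩
  · rintro ⟨l, ⟨h1, h2⟩, h3, h4⟩
    obtain ⟨l', hn, hc, hsub, hh, hlast⟩ := pvtm_simple_chain _ l h1
    exact ⟨l', hn, ⟨hc, fun p hp => h2 p (hsub p hp)⟩, hh ▸ h3, hlast ▸ h4⟩

/-! ## 5. (M5): the mesh event -/

theorem pvtm_pv_mesh (ρ : ℝ) (E : Set ℂ) : MeasurableSet {ω : PVSample | VorLF (cfSites (pvConf ω)) ∧ PvtrMesh ρ E (cfSites (pvConf ω))} := by
  exact delm_pv_dense (pvtrCore ρ E) ρ

theorem pvtm_cf_mesh (ρ : ℝ) (E : Set ℂ) : MeasurableSet {η : Conf PvPt | PvtrMesh ρ E (cfSites η) ∧ PvLF η} := by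
  exact delm_cf_dense (pvtrCore ρ E) ρ

theorem pvtm_null_mesh (ρ : ℝ) (E : Set ℂ) (ε : ℝ) : NullMeasurableSet {η : Conf PvPt | PvtrMesh ρ E (cfSites η)} (pvP ε) := by
  refine (pvtm_cf_mesh ρ E).nullMeasurableSet.congr ?_
  filter_upwards [pvcn_LF_ae ε] with η hη
  apply propext
  exact ⟨fun h => h.1, fun h => ⟨h, hη⟩⟩

/-! ## 6. (M6): exits on `Conf PvPt` -/

/-- truly measurable version of `pvcn_bridge_fun`: cut off the non locally finite configurations -/
theorem pvtm_bridge_ind {β : Type*} [MeasurableSpace β] [Zero β] {f : Conf PvPt → β} (h : Measurable fun ω => f (pvConf ω)) : Measurable ({η : Conf PvPt | PvLF η}.indicator f) := by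
  obtain ⟨s, hs, hs'⟩ := pvcn_section
  have : {η : Conf PvPt | PvLF η}.indicator f = {η : Conf PvPt | PvLF η}.indicator (fun η => f (pvConf (s η))) := by
    funext η
    by_cases hη : η ∈ {η : Conf PvPt | PvLF η}
    · rw [Set.indicator_of_mem hη, Set.indicator_of_mem hη, hs' η hη]
    · rw [Set.indicator_of_notMem hη, Set.indicator_of_notMem hη]
  rw [this]
  exact (h.comp hs).indicator pvcn_LF_meas

theorem pvtm_bridge_ind_ae {β : Type*} [Zero β] (f : Conf PvPt → β) (ε : ℝ) : {η : Conf PvPt | PvLF η}.indicator f =ᵐ[pvP ε] f := by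
  filter_upwards [pvcn_LF_ae ε] with η hη
  exact Set.indicator_of_mem (s := {η : Conf PvPt | PvLF η}) hη f

section exits

variable {Φ : Set (PvPt × PvPt × PvPt) → Prop}

/-- an event of the coloured retained triangles: measurable on the locally finite configurations -/
theorem pvtm_cf_event (h : MeasurableSet {ω : PVSample | Φ (pvtrSet ρ E (pvConf ω))}) : MeasurableSet {η : Conf PvPt | Φ (pvtrSet ρ E η) ∧ PvLF η} := by
  exact pvcn_bridge (A := {η : Conf PvPt | Φ (pvtrSet ρ E η)}) h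

theorem pvtm_null_event (h : MeasurableSet {ω : PVSample | Φ (pvtrSet ρ E (pvConf ω))}) (ε : ℝ) : NullMeasurableSet {η : Conf PvPt | Φ (pvtrSet ρ E η)} (pvP ε) := by
  exact pvcn_bridge_null ε (A := {η : Conf PvPt | Φ (pvtrSet ρ E η)}) h

theorem pvtm_cf_cross (hE : MeasurableSet (pvtmIn E)) (ρ : ℝ) (c : Bool) (hT : MeasurableSet T) (hA : MeasurableSet A) (hB : MeasurableSet B) :
    MeasurableSet {η : Conf PvPt | PvtmCross (pvtrSet ρ E η) c T A B ∧ PvLF η} := by
  exact pvtm_cf_event (Φ := fun Z => PvtmCross Z c T A B) (pvtm_meas_cross (pvtm_ms_set hE ρ) c hT hA hB)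

theorem pvtm_null_cross (hE : MeasurableSet (pvtmIn E)) (ρ : ℝ) (c : Bool) (hT : MeasurableSet T) (hA : MeasurableSet A) (hB : MeasurableSet B) (ε : ℝ) :
    NullMeasurableSet {η : Conf PvPt | PvtmCross (pvtrSet ρ E η) c T A B} (pvP ε) := by
  exact pvtm_null_event (Φ := fun Z => PvtmCross Z c T A B) (pvtm_meas_cross (pvtm_ms_set hE ρ) c hT hA hB) ε

theorem pvtm_reads_cross (ρ : ℝ) (E : Set ℂ) (c : Bool) (T A B : Set ℂ) : Conf.Reads (E ×ˢ (univ : Set Bool)) fun η : Conf PvPt => PvtmCross (pvtrSet ρ E η) c T A B := by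
  exact pvtr_reads_of_set ρ E (fun Z => PvtmCross Z c T A B)

variable {M : Type*} [AddCommMonoid M] [TopologicalSpace M] [TopologicalSpace.IsCompletelyPseudoMetrizableSpace M] [SecondCountableTopology M] [MeasurableSpace M] [BorelSpace M] [MeasurableAdd₂ M]

theorem pvtm_cf_sum (hE : MeasurableSet (pvtmIn E)) (ρ : ℝ) {F : PvPt × PvPt × PvPt → M} (hF : Measurable F) (ε : ℝ) :
    AEMeasurable (fun η : Conf PvPt => ∑' t : pvtrSet ρ E η, F t) (pvP ε) := by
  exact pvcn_bridge_fun (f := fun η : Conf PvPt => ∑' t : pvtrSet ρ E η, F t) (pvtm_measurable_sum (pvtm_ms_set hE ρ) hF) ε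

theorem pvtm_cf_sum_ind (hE : MeasurableSet (pvtmIn E)) (ρ : ℝ) {F : PvPt × PvPt × PvPt → M} (hF : Measurable F) :
    Measurable ({η : Conf PvPt | PvLF η}.indicator fun η : Conf PvPt => ∑' t : pvtrSet ρ E η, F t) := by
  exact pvtm_bridge_ind (f := fun η : Conf PvPt => ∑' t : pvtrSet ρ E η, F t) (pvtm_measurable_sum (pvtm_ms_set hE ρ) hF)

theorem pvtm_cf_sum_sep (hE : MeasurableSet (pvtmIn E)) (ρ : ℝ) {U : Set (PvPt × PvPt × PvPt)} (hU : MeasurableSet U) {F : PvPt × PvPt × PvPt → M} (hF : Measurable F) (ε : ℝ) :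
    AEMeasurable (fun η : Conf PvPt => ∑' t : {t | t ∈ pvtrSet ρ E η ∧ t ∈ U}, F t) (pvP ε) := by
  exact pvcn_bridge_fun (f := fun η : Conf PvPt => ∑' t : {t | t ∈ pvtrSet ρ E η ∧ t ∈ U}, F t) (pvtm_measurable_sum ((pvtm_ms_set hE ρ).sep_set hU) hF) ε

theorem pvtm_reads_sum (ρ : ℝ) (E : Set ℂ) (F : PvPt × PvPt × PvPt → M) : Conf.Reads (E ×ˢ (univ : Set Bool)) fun η : Conf PvPt => ∑' t : pvtrSet ρ E η, F t := by
  exact pvtr_reads_of_set ρ E (fun Z => ∑' t : Z, F t)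

end exits

theorem pvtm_eqns_cite2 : True := by
  have := @PvtmFst.eq_1
  trivial

end Claimed.Agent.R289
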