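-- KEEP
import Claimed.Agent.R289.Tr.PlugFrcQ
import Claimed.Agent.R289.Tr.ForceI
import Claimed.Agent.R289.Tr.FrameIso
import Claimed.Agent.R289.Tr.RetMeas

/-!
# Row 289 (S0537), THE WALL, chapter E (cells), file Tr/PlugFrcR : **[FRC] BY THE QUENCHED ROUTE, THE ASSEMBLY**      (helper52; prefix `pvjo_`, `Pvjo`)

CONSUMER: `PvkuFrc (𝔤.glob Hf)`, `mH` of `PvkuK` (258, `Exit/NumQ.lean`).      RESULT: **`pvjo_frc : I.Ok 𝔤 → PvkuFrc (𝔤.glob I.Hf)`** (statement verbatim), `pvjo_mH`.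
ON: `Tr/PlugFrcQ.lean` (52: `PvcjOk`, `pvcj_frc_exit`, `pvcj_E_off`), `Tr/ForceI.lean` (272: `PvnkEnd`, `PvnkLink`, `pvnk_ok`, `pvnk_up`, `pvnkRg`), `Tr/FrameIso.lean` (251), `S1P/Cov.lean`.

**THE CONTRACT `PvjoIn.Ok I 𝔤`** (sec. 5) = ALL that the model owes for [FRC].   EVERYTHING IS ASKED IN THE REFERENCE FRAME AND DETERMINISTICALLY:
* 174 : the two ends `ep em : PvnkEnd` of THE plug (door `0`, direction `1`; `O := 𝔤.O₀`, `L := S^±`), `PvnkEnd.Ok` (measurable, exact reader of the window, the two side paths in continuum form at the nice configurations),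
        **`PvjoMono L c O₀ Z₁ Z₂`** : `η ∈ L`, `η'` = `η` recoloured (same sites, both nice, colours kept on `O₀`, colour `c` kept on `Z₁`, colour `!c` kept on `Z₂`, the rest FREE) ⟹ `η' ∈ L`.      NO `Up`, NO frame, NO law: sec. 1-3 do it.
* 278 : `PvnkLink.Geo` of `I.lk 𝔤 τ = ⟨ep, pvjoAt em (zo τ) (rot τ), s, L₁ τ, L₂ τ, K₁ τ, K₂ τ⟩`, the four inclusions `Z ⊆ O₀ ∪ K`.
* 258 : `Et τ` (window of the mesh of the tile): Borel, bounded, off the two plug regions.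
* 204 : `det` at `CfOK η`, `PvatNice (cfSites η)`:   `C ∩ C' ∩ S⁺ ∩ placed S⁻ ∩ Net ∩ mesh(Et τ) ⊆ 𝔤.A 0 1 τ`.

* sec. 1  RECOLOURINGS: `PvjoRc`, `PvjoMono`, `pvjo_rc_spl` (two colourings of one geometry comparable in the mixed order, spliced with a frozen state), **`pvjo_up`** (monotone ⟹ quenched up-ness at every REGULAR state `pvnkRg`).
* sec. 2  FRAMES: sites, colours, niceness, regions of the colours, paths, restrictions, readers under `cfMap (pvthInv z d)`;   **`pvjo_mono_at`**.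
* sec. 3  PLACED ENDS: `pvjoAt e z d`, **`pvjo_at_ok`**, `pvjo_end_up`, **`pvjo_at_up`**.
* sec. 4  THE MESH EVENT OF A WINDOW AS AN EXACT READER: `pvjoMesh ρ E`: measurable, read in `E`, colour blind (`PvhkGeo`), `pvjo_mesh_lim`.
* sec. 5  `PvjoIn`, `Hf`, `lk`, `D`, `PvjoIn.Ok`, `pvjo_D_ok`, `pvjo_D_up`, **`pvjo_cj : PvcjOk (𝔤.glob I.Hf) (I.D 𝔤) ε`**, **`pvjo_frc`**.
-/

set_option autoImplicit false
set_option linter.unusedSectionVars false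
set_option linter.unusedVariables false

namespace Claimed.Agent.R289

open MeasureTheory ProbabilityTheory Set Filter Topology Metric Claims.C0465
open scoped ENNReal NNReal

/-! ## 1. recolourings -/

/-- **`η'` IS A RECOLOURING OF `η`**: both nice, same sites; the colours are kept on `F` (frozen); the colour `c` is kept on `Z₁`, the colour `!c` is kept on `Z₂`; the other colours are free -/
structure PvjoRc (c : Bool) (F Z₁ Z₂ : Set ℂ) (η η' : Conf PvPt) : Prop where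
  ok : CfOK η
  ok' : CfOK η'
  Y : cfSites η' = cfSites η
  fz : ∀ a ∈ F, cfCol η' a = cfCol η a
  k₁ : ∀ a ∈ Z₁, a ∈ cfSites η → cfCol η a = c → cfCol η' a = c
  k₂ : ∀ a ∈ Z₂, a ∈ cfSites η → cfCol η a = (!c) → cfCol η' a = (!c)

/-- **`L` IS MONOTONE UNDER RECOLOURINGS** (DETERMINISTIC; this is what the producer of a side event owes for the quenched up-ness) -/
def PvjoMono (L : Set (Conf PvPt)) (c : Bool) (F Z₁ Z₂ : Set ℂ) : Prop := ∀ η η', PvjoRc c F Z₁ Z₂ η η' → η ∈ L → η' ∈ L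

theorem pvjo_eqns_cite : True := by
  have := @PvjoMono.eq_1
  trivial

section splice

variable {F : Set ℂ} {σ η : Conf PvPt} {g : PvGeoT} {c c' : PvColT}

theorem pvjo_sites_spl (F : Set ℂ) (σ η : Conf PvPt) : cfSites (Conf.spl (F ×ˢ (univ : Set Bool)) (σ, η)) = cfSites σ ∩ F ∪ cfSites η \ F := by
  ext a
  constructor
  · rintro ⟨p, hp, rfl⟩
    rcases pvnk_mem_spl.1 hp with h | h
    · exact Or.inl ⟨⟨p, h.1, rfl⟩, h.2⟩
    · exact Or.inr ⟨⟨p, h.1, rfl⟩, h.2⟩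
  · rintro (⟨⟨p, hp, rfl⟩, h⟩ | ⟨⟨p, hp, rfl⟩, h⟩)
    · exact ⟨p, pvnk_mem_spl.2 (Or.inl ⟨hp, h⟩), rfl⟩
    · exact ⟨p, pvnk_mem_spl.2 (Or.inr ⟨hp, h⟩), rfl⟩

theorem pvjo_sites_blind (F : Set ℂ) (σ : Conf PvPt) (g : PvGeoT) (c c' : PvColT) :
    cfSites (Conf.spl (F ×ˢ (univ : Set Bool)) (σ, pvConf (pvMerge (g, c')))) = cfSites (Conf.spl (F ×ˢ (univ : Set Bool)) (σ, pvConf (pvMerge (g, c)))) := by
  rw [pvjo_sites_spl, pvjo_sites_spl, pvqu_cfSites, pvqu_cfSites]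

theorem pvjo_col_in {a : ℂ} (ha : a ∈ F) (σ η : Conf PvPt) : cfCol (Conf.spl (F ×ˢ (univ : Set Bool)) (σ, η)) a = cfCol σ a := by
  unfold cfCol
  refine decide_eq_decide.2 ?_
  rw [pvnk_mem_spl]
  exact ⟨fun h => h.elim (fun h => h.1) fun h => absurd ha h.2, fun h => Or.inl ⟨h, ha⟩⟩

theorem pvjo_col_out {a : ℂ} (ha : a ∉ F) (σ η : Conf PvPt) : cfCol (Conf.spl (F ×ˢ (univ : Set Bool)) (σ, η)) a = cfCol η a := by
  unfold cfCol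
  refine decide_eq_decide.2 ?_
  rw [pvnk_mem_spl]
  exact ⟨fun h => h.elim (fun h => absurd h.2 ha) fun h => h.1, fun h => Or.inr ⟨h, ha⟩⟩

theorem pvjo_col_site (hg : PvgOk g) {i : PvIx} (hi : i ∈ pvgAct g) (c : PvColT) : cfCol (pvConf (pvMerge (g, c))) (pvgSite g i) = c i := by
  unfold cfCol
  cases hc : c i
  · rw [decide_eq_false_iff_not]
    intro h
    have := (hg.col_iff hi c true).1 h
    rw [hc] at this
    exact Bool.false_ne_true this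
  · simp only [decide_eq_true_eq]
    exact (hg.col_iff hi c true).2 hc

theorem pvjo_le_K1 {b : Bool} {K₁ K₂ : Set ℂ} (hd : Disjoint K₁ K₂) (h : pvhkLe (pvfpSg g b K₁ K₂) c c') {i : PvIx} (hi : pvgSite g i ∈ K₁) (hc : c i = b) : c' i = b := by
  have hi2 : pvgSite g i ∉ K₂ := fun h2 => Set.disjoint_left.1 hd hi h2
  cases b
  · have h1 := (h i).2 (by simp [pvfpSg, pvhkSg, hi, hi2])
    rw [hc] at h1
    exact le_bot_iff.1 h1
  · have h1 := (h i).1 (by simp [pvfpSg, pvhkSg, hi])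
    rw [hc] at h1
    exact top_le_iff.1 h1

theorem pvjo_le_K2 {b : Bool} {K₁ K₂ : Set ℂ} (hd : Disjoint K₁ K₂) (h : pvhkLe (pvfpSg g b K₁ K₂) c c') {i : PvIx} (hi : pvgSite g i ∈ K₂) (hc : c i = !b) : c' i = !b := by
  have hi1 : pvgSite g i ∉ K₁ := fun h1 => Set.disjoint_left.1 hd h1 hi
  cases b
  · have h1 := (h i).1 (by simp [pvfpSg, pvhkSg, hi])
    rw [hc] at h1
    exact top_le_iff.1 h1
  · have h1 := (h i).2 (by simp [pvfpSg, pvhkSg, hi, hi1])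
    rw [hc] at h1
    exact le_bot_iff.1 h1

/-- two colourings of one geometry, comparable in the mixed order, spliced with one frozen state: a recolouring -/
theorem pvjo_rc_spl {b : Bool} {K₁ K₂ Z₁ Z₂ : Set ℂ} (hd : Disjoint K₁ K₂) (h₁ : Z₁ ⊆ F ∪ K₁) (h₂ : Z₂ ⊆ F ∪ K₂) (hg : PvgOk g)
    (hok : ∀ c : PvColT, CfOK (Conf.spl (F ×ˢ univ) (σ, pvConf (pvMerge (g, c))))) (hc : pvhkLe (pvfpSg g b K₁ K₂) c c') :
    PvjoRc b F Z₁ Z₂ (Conf.spl (F ×ˢ univ) (σ, pvConf (pvMerge (g, c)))) (Conf.spl (F ×ˢ univ) (σ, pvConf (pvMerge (g, c')))) where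
  ok := hok c
  ok' := hok c'
  Y := pvjo_sites_blind F σ g c c'
  fz a ha := by rw [pvjo_col_in ha, pvjo_col_in ha]
  k₁ a ha haY := by
    by_cases haF : a ∈ F
    · rw [pvjo_col_in haF, pvjo_col_in haF]
      exact id
    · rw [pvjo_col_out haF, pvjo_col_out haF]
      have haK : a ∈ K₁ := (h₁ ha).resolve_left haF
      rw [pvjo_sites_spl, pvqu_cfSites] at haY
      obtain ⟨i, hi, rfl⟩ : a ∈ pvgSites g := haY.elim (fun h => absurd h.2 haF) fun h => h.1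
      rw [pvjo_col_site hg hi, pvjo_col_site hg hi]
      exact pvjo_le_K1 hd hc haK
  k₂ a ha haY := by
    by_cases haF : a ∈ F
    · rw [pvjo_col_in haF, pvjo_col_in haF]
      exact id
    · rw [pvjo_col_out haF, pvjo_col_out haF]
      have haK : a ∈ K₂ := (h₂ ha).resolve_left haF
      rw [pvjo_sites_spl, pvqu_cfSites] at haY
      obtain ⟨i, hi, rfl⟩ : a ∈ pvgSites g := haY.elim (fun h => absurd h.2 haF) fun h => h.1
      rw [pvjo_col_site hg hi, pvjo_col_site hg hi]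
      exact pvjo_le_K2 hd hc haK

end splice

/-- **MONOTONE UNDER RECOLOURINGS ⟹ QUENCHED UP-NESS** at every regular state -/
theorem pvjo_up {L : Set (Conf PvPt)} {b : Bool} {F Z₁ Z₂ K₁ K₂ : Set ℂ} (hL : PvjoMono L b F Z₁ Z₂) (hd : Disjoint K₁ K₂) (h₁ : Z₁ ⊆ F ∪ K₁) (h₂ : Z₂ ⊆ F ∪ K₂)
    {ε : ℝ} {σ : Conf PvPt} (hσ : σ ∈ pvnkRg ε F) : ∀ᵐ g ∂(pvGeo ε), PvhkUpAt g (pvfpSg g b K₁ K₂) (pvhkSec (F ×ˢ univ) σ L) := by
  filter_upwards [pvqu_ok_ae ε, pvnk_rg_geo hσ] with g hg hok c c' hc hm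
  exact hL _ _ (pvjo_rc_spl hd h₁ h₂ hg hok hc) hm

/-! ## 2. frames -/

section frame

variable {z d : ℂ}

theorem pvjo_sim_inv (hd : d ≠ 0) (w : ℂ) : pvthSim z d (pvthInv z d w) = w := by
  unfold pvthSim pvthInv
  field_simp
  ring

theorem pvjo_inv_sim (hd : d ≠ 0) (w : ℂ) : pvthInv z d (pvthSim z d w) = w := by
  unfold pvthSim pvthInv
  field_simp
  ring

theorem pvjo_mem_at (hd : d ≠ 0) (S : Set ℂ) (w : ℂ) : w ∈ pvkdAt z d S ↔ pvthInv z d w ∈ S := by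
  constructor
  · rintro ⟨u, hu, rfl⟩
    rwa [pvjo_inv_sim hd]
  · intro h
    exact ⟨_, h, pvjo_sim_inv hd w⟩

theorem pvjo_at_eq (hd : d ≠ 0) (S : Set ℂ) : pvkdAt z d S = pvthInv z d ⁻¹' S := by
  ext w
  exact pvjo_mem_at hd S w

theorem pvjo_at_meas (hd : d ≠ 0) {S : Set ℂ} (hS : MeasurableSet S) : MeasurableSet (pvkdAt z d S) := by
  rw [pvjo_at_eq hd]
  exact pvth_measurable_inv z d hS

theorem pvjo_at_ref (S : Set ℂ) : pvkdAt 0 1 S = S := by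
  unfold pvkdAt
  rw [pvth_sim_id, image_id]

theorem pvjo_at_mono {S S' : Set ℂ} (h : S ⊆ S') : pvkdAt z d S ⊆ pvkdAt z d S' := image_mono h

theorem pvjo_at_union (S S' : Set ℂ) : pvkdAt z d (S ∪ S') = pvkdAt z d S ∪ pvkdAt z d S' := image_union _ _ _

/-- the sites in the frame -/
theorem pvjo_sites_inv (hd : d ≠ 0) (η : Conf PvPt) (w : ℂ) : w ∈ cfSites (cfMap (pvthInv z d) η) ↔ pvthSim z d w ∈ cfSites η := by
  rw [pvco_inv_eq, pvcv_sites, ← pvco_inv_eq]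
  constructor
  · rintro ⟨u, hu, rfl⟩
    rwa [pvjo_sim_inv hd]
  · intro h
    exact ⟨_, h, pvjo_inv_sim hd w⟩

/-- the colours in the frame -/
theorem pvjo_col_inv (hd : d ≠ 0) (η : Conf PvPt) (w : ℂ) : cfCol (cfMap (pvthInv z d) η) w = cfCol η (pvthSim z d w) := by
  have h := pvcv_col (a := d⁻¹) (b := -(d⁻¹ * z)) (inv_ne_zero hd) η (pvthSim z d w)
  rw [← pvco_inv_eq, pvjo_inv_sim hd] at h
  exact h

/-- niceness in the frame -/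
theorem pvjo_ok_inv (hd : d ≠ 0) {η : Conf PvPt} (h : CfOK η) : CfOK (cfMap (pvthInv z d) η) := by
  refine ⟨?_, ?_⟩
  · refine pvcv_good (a := d⁻¹) (b := -(d⁻¹ * z)) (inv_ne_zero hd) ?_ h.del
    rw [pvco_inv_eq, pvcv_sites]
  · rintro _ ⟨p, hp, rfl⟩ _ ⟨q, hq, rfl⟩ e
    have e' : p.1 = q.1 := by
      have := congrArg (pvthSim z d) e
      simpa only [Prod.map_fst, pvjo_sim_inv hd] using this
    rw [h.col p hp q hq e']

/-- a recolouring seen in the frame -/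
theorem pvjo_rc_inv (hd : d ≠ 0) {c : Bool} {F Z₁ Z₂ : Set ℂ} {η η' : Conf PvPt} (h : PvjoRc c (pvkdAt z d F) (pvkdAt z d Z₁) (pvkdAt z d Z₂) η η') :
    PvjoRc c F Z₁ Z₂ (cfMap (pvthInv z d) η) (cfMap (pvthInv z d) η') where
  ok := pvjo_ok_inv hd h.ok
  ok' := pvjo_ok_inv hd h.ok'
  Y := by
    ext w
    rw [pvjo_sites_inv hd, pvjo_sites_inv hd, h.Y]
  fz a ha := by
    rw [pvjo_col_inv hd, pvjo_col_inv hd]
    exact h.fz _ ⟨a, ha, rfl⟩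
  k₁ a ha haY := by
    rw [pvjo_col_inv hd, pvjo_col_inv hd]
    exact h.k₁ _ ⟨a, ha, rfl⟩ ((pvjo_sites_inv hd η a).1 haY)
  k₂ a ha haY := by
    rw [pvjo_col_inv hd, pvjo_col_inv hd]
    exact h.k₂ _ ⟨a, ha, rfl⟩ ((pvjo_sites_inv hd η a).1 haY)

/-- **monotonicity under recolourings is covariant** -/
theorem pvjo_mono_at (hd : d ≠ 0) {L : Set (Conf PvPt)} {c : Bool} {F Z₁ Z₂ : Set ℂ} (h : PvjoMono L c F Z₁ Z₂) :
    PvjoMono (cfMap (pvthInv z d) ⁻¹' L) c (pvkdAt z d F) (pvkdAt z d Z₁) (pvkdAt z d Z₂) :=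
  fun η η' hr hη => h _ _ (pvjo_rc_inv hd hr) hη

/-- the region of a colour in the frame -/
theorem pvjo_reg_inv (hd : ‖d‖ = 1) (c : Bool) (η : Conf PvPt) (w : ℂ) : w ∈ pvlnReg c (cfMap (pvthInv z d) η) ↔ pvthSim z d w ∈ pvlnReg c η := by
  have hd0 : d ≠ 0 := pvth_ne_zero hd
  have hn : ∀ u v : ℂ, ‖pvthSim z d u - pvthSim z d v‖ = ‖u - v‖ := fun u v => by
    have : pvthSim z d u - pvthSim z d v = d * (u - v) := by unfold pvthSim; ring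
    rw [this, norm_mul, hd, one_mul]
  have hm : ∀ (b : Bool) (v : ℂ), (v, b) ∈ (cfMap (pvthInv z d) η).pts ↔ (pvthSim z d v, b) ∈ η.pts := by
    intro b v
    constructor
    · rintro ⟨p, hp, e⟩
      have e1 : pvthInv z d p.1 = v := congrArg Prod.fst e
      have e2 : p.2 = b := congrArg Prod.snd e
      rw [← e1, pvjo_sim_inv hd0, ← e2]
      exact hp
    · intro h
      exact ⟨_, h, Prod.ext (pvjo_inv_sim hd0 v) rfl⟩
  have key : ∀ b : Bool, w ∈ pvrbM {v | (v, b) ∈ (cfMap (pvthInv z d) η).pts} {v | (v, !b) ∈ (cfMap (pvthInv z d) η).pts} ↔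
      pvthSim z d w ∈ pvrbM {v | (v, b) ∈ η.pts} {v | (v, !b) ∈ η.pts} := by
    intro b
    constructor
    · rintro ⟨a, ha, h⟩
      refine ⟨pvthSim z d a, (hm b a).1 ha, fun v hv => ?_⟩
      have h1 := h (pvthInv z d v) ((hm (!b) _).2 (by rw [pvjo_sim_inv hd0]; exact hv))
      rw [← hn w a, ← hn w (pvthInv z d v), pvjo_sim_inv hd0] at h1
      exact h1
    · rintro ⟨a, ha, h⟩
      refine ⟨pvthInv z d a, (hm b _).2 (by rw [pvjo_sim_inv hd0]; exact ha), fun v hv => ?_⟩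
      have h1 := h (pvthSim z d v) ((hm (!b) v).1 hv)
      rw [← hn w (pvthInv z d a), ← hn w v, pvjo_sim_inv hd0]
      exact h1
  cases c
  · exact key false
  · exact key true

/-- a path seen from the frame -/
theorem pvjo_joined_sim {S S' : Set ℂ} (h : ∀ w ∈ S, pvthSim z d w ∈ S') {x y : ℂ} (hxy : JoinedIn S x y) : JoinedIn S' (pvthSim z d x) (pvthSim z d y) := by
  have hc : Continuous (pvthSim z d) := by unfold pvthSim; fun_prop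
  exact (hxy.map_continuousOn hc.continuousOn).mono (by rintro _ ⟨w, hw, rfl⟩; exact h w hw)

/-- restriction commutes with the frame -/
theorem pvjo_restr_inv (hd : d ≠ 0) (E : Set ℂ) (η : Conf PvPt) :
    cfMap (pvthInv z d) (Conf.restr (pvkdAt z d E ×ˢ univ) η) = Conf.restr (E ×ˢ univ) (cfMap (pvthInv z d) η) := by
  ext p
  constructor
  · rintro ⟨q, ⟨hq, hqE⟩, rfl⟩
    exact ⟨⟨q, hq, rfl⟩, (pvjo_mem_at hd E q.1).1 hqE.1, mem_univ _⟩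
  · rintro ⟨⟨q, hq, rfl⟩, hE, -⟩
    exact ⟨q, ⟨hq, (pvjo_mem_at hd E q.1).2 hE, mem_univ _⟩, rfl⟩

theorem pvjo_reads_at (hd : d ≠ 0) {E : Set ℂ} {L : Set (Conf PvPt)} (h : Conf.ReadsSet (E ×ˢ univ) L) : Conf.ReadsSet (pvkdAt z d E ×ˢ univ) (cfMap (pvthInv z d) ⁻¹' L) := by
  intro η
  show cfMap (pvthInv z d) (Conf.restr (pvkdAt z d E ×ˢ univ) η) ∈ L ↔ cfMap (pvthInv z d) η ∈ L
  rw [pvjo_restr_inv hd]
  exact h _

end frame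

/-! ## 3. placed ends -/

/-- **an end, PLACED at `(z,d)`** -/
noncomputable def pvjoAt (e : PvnkEnd) (z d : ℂ) : PvnkEnd where
  O := pvkdAt z d e.O
  E := pvkdAt z d e.E
  L := cfMap (pvthInv z d) ⁻¹' e.L
  c := e.c
  A₁ := pvkdAt z d e.A₁
  A₂ := pvkdAt z d e.A₂
  X₁ := pvkdAt z d e.X₁
  X₂ := pvkdAt z d e.X₂
  Y₁ := pvkdAt z d e.Y₁
  Y₂ := pvkdAt z d e.Y₂
  S₁ := fun η => pvkdAt z d (e.S₁ (cfMap (pvthInv z d) η))
  S₂ := fun η => pvkdAt z d (e.S₂ (cfMap (pvthInv z d) η))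

theorem pvjo_eqns_cite2 : True := by
  have := @pvjoAt.eq_1
  trivial

/-- **a placed end is well formed** -/
theorem pvjo_at_ok {e : PvnkEnd} (h : e.Ok) (z : ℂ) {d : ℂ} (hd : ‖d‖ = 1) : (pvjoAt e z d).Ok where
  mO := pvjo_at_meas (pvth_ne_zero hd) h.mO
  mE := pvjo_at_meas (pvth_ne_zero hd) h.mE
  mL := measurable_cfMap (pvth_measurable_inv z d) h.mL
  rL := pvjo_reads_at (pvth_ne_zero hd) h.rL
  path₁ η hη hn := by
    obtain ⟨x, hx, y, hy, hxX, hxy⟩ := h.path₁ _ hη (pvjo_ok_inv (pvth_ne_zero hd) hn)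
    refine ⟨pvthSim z d x, ⟨x, hx, rfl⟩, pvthSim z d y, ⟨y, hy, rfl⟩, ⟨x, hxX, rfl⟩, pvjo_joined_sim (fun w hw => ?_) hxy⟩
    exact ⟨(pvjo_reg_inv hd _ η w).1 hw.1, ⟨w, hw.2, rfl⟩⟩
  path₂ η hη hn := by
    obtain ⟨x, hx, y, hy, hxX, hxy⟩ := h.path₂ _ hη (pvjo_ok_inv (pvth_ne_zero hd) hn)
    refine ⟨pvthSim z d x, ⟨x, hx, rfl⟩, pvthSim z d y, ⟨y, hy, rfl⟩, ⟨x, hxX, rfl⟩, pvjo_joined_sim (fun w hw => ?_) hxy⟩
    exact ⟨(pvjo_reg_inv hd _ η w).1 hw.1, ⟨w, hw.2, rfl⟩⟩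

/-- **quenched up-ness of an end** from the deterministic monotonicity -/
theorem pvjo_end_up {e : PvnkEnd} {Z₁ Z₂ K₁ K₂ : Set ℂ} (hL : PvjoMono e.L e.c e.O Z₁ Z₂) (hd : Disjoint K₁ K₂) (h₁ : Z₁ ⊆ e.O ∪ K₁) (h₂ : Z₂ ⊆ e.O ∪ K₂)
    {ε : ℝ} {σ : Conf PvPt} (hσ : σ ∈ pvnkRg ε e.O) : e.Up ε K₁ K₂ σ := pvjo_up hL hd h₁ h₂ hσ

/-- **quenched up-ness of a placed end** -/
theorem pvjo_at_up {e : PvnkEnd} {Z₁ Z₂ K₁ K₂ : Set ℂ} (hL : PvjoMono e.L e.c e.O Z₁ Z₂) (z : ℂ) {d : ℂ} (hd0 : d ≠ 0) (hd : Disjoint K₁ K₂)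
    (h₁ : pvkdAt z d Z₁ ⊆ pvkdAt z d e.O ∪ K₁) (h₂ : pvkdAt z d Z₂ ⊆ pvkdAt z d e.O ∪ K₂)
    {ε : ℝ} {σ : Conf PvPt} (hσ : σ ∈ pvnkRg ε (pvkdAt z d e.O)) : (pvjoAt e z d).Up ε K₁ K₂ σ :=
  pvjo_up (L := (pvjoAt e z d).L) (F := (pvjoAt e z d).O) (pvjo_mono_at hd0 hL) hd h₁ h₂ hσ

/-! ## 4. the mesh event of the tile -/

/-- **the mesh event of a window, EXACT READER**: mesh + local finiteness of the configuration restricted to the window -/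
def pvjoMesh (ρ : ℝ) (E : Set ℂ) : Set (Conf PvPt) := Conf.restr (E ×ˢ univ) ⁻¹' {η : Conf PvPt | PvtrMesh ρ E (cfSites η) ∧ PvLF η}

theorem pvjo_eqns_cite3 : True := by
  have := @pvjoMesh.eq_1
  trivial

section mesh

variable {ρ : ℝ} {E : Set ℂ}

theorem pvjo_mesh_meas (ρ : ℝ) (hE : MeasurableSet E) : MeasurableSet (pvjoMesh ρ E) :=
  Conf.measurable_restr (hE.prod MeasurableSet.univ) (pvtm_cf_mesh ρ E)

theorem pvjo_mesh_reads (ρ : ℝ) (E : Set ℂ) : Conf.ReadsSet (E ×ˢ univ) (pvjoMesh ρ E) := by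
  intro η
  unfold pvjoMesh
  rw [mem_preimage, mem_preimage, pvi_restr_idem]

theorem pvjo_mesh_iff (ρ : ℝ) (E : Set ℂ) (η : Conf PvPt) : η ∈ pvjoMesh ρ E ↔ PvtrMesh ρ E (cfSites η) ∧ PvLF (Conf.restr (E ×ˢ univ) η) := by
  have h : PvtrMesh ρ E (cfSites (Conf.restr (E ×ˢ univ) η)) = PvtrMesh ρ E (cfSites η) := pvtr_reads_mesh ρ E η
  show PvtrMesh ρ E (cfSites (Conf.restr (E ×ˢ univ) η)) ∧ PvLF (Conf.restr (E ×ˢ univ) η) ↔ _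
  rw [h]

theorem pvjo_mesh_of {η : Conf PvPt} (h : η ∈ pvjoMesh ρ E) : PvtrMesh ρ E (cfSites η) := ((pvjo_mesh_iff ρ E η).1 h).1

theorem pvjo_mesh_mk {η : Conf PvPt} (h : PvtrMesh ρ E (cfSites η)) (hl : PvLF η) : η ∈ pvjoMesh ρ E := (pvjo_mesh_iff ρ E η).2 ⟨h, pvra_LF_restr hl _⟩

/-- the mesh event does not look at the colours -/
theorem pvjo_mesh_blind (ρ : ℝ) (E : Set ℂ) (g : PvGeoT) (c c' : PvColT) (h : pvConf (pvMerge (g, c)) ∈ pvjoMesh ρ E) : pvConf (pvMerge (g, c')) ∈ pvjoMesh ρ E := by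
  rw [pvjo_mesh_iff] at h ⊢
  rw [pvqu_cfSites] at h ⊢
  refine ⟨h.1, fun k => ?_⟩
  refine (((h.2 k).image Prod.fst).prod (Set.finite_univ (α := Bool))).subset ?_
  rintro p ⟨⟨hp, hpE⟩, hk⟩
  obtain ⟨i, hi, rfl⟩ := pvqu_mem_conf.1 hp
  exact ⟨⟨(pvgSite g i, c i), ⟨⟨pvqu_mem_conf.2 ⟨i, hi, rfl⟩, ⟨hpE.1, mem_univ _⟩⟩, hk⟩, rfl⟩, mem_univ _⟩

/-- the mesh event of a window off the frozen region is GEOMETRIC -/
theorem pvjo_mesh_geo (ρ : ℝ) {E : Set ℂ} {O : Set PvPt} (hd : Disjoint (E ×ˢ (univ : Set Bool)) O) (σ : Conf PvPt) : PvhkGeo O σ (pvjoMesh ρ E) := by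
  intro g c c' h
  rw [pvfp_sec_off hd σ (pvjo_mesh_reads ρ E)] at h ⊢
  exact pvjo_mesh_blind ρ E g c c' h

/-- the mesh event fails with probability `o(1)` -/
theorem pvjo_mesh_lim (hρ : 0 < ρ) (hE : Bornology.IsBounded E) : Tendsto (fun ε : ℝ => pvP ε (pvjoMesh ρ E)ᶜ) (𝓝[>] 0) (𝓝 0) := by
  have h1 : ∀ ε : ℝ, pvP ε (pvjoMesh ρ E)ᶜ ≤ pvP ε (vormG E ρ)ᶜ := by
    intro ε
    refine measure_mono_ae ?_
    filter_upwards [pvcn_LF_ae ε] with η hl hη hG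
    refine hη (pvjo_mesh_mk (fun w hw => ?_) hl)
    exact vorm_G_dense hρ hG w (hw (mem_closedBall_self hρ.le))
  exact tendsto_of_tendsto_of_tendsto_of_le_of_le tendsto_const_nhds (vorm_G_tendsto hE hρ) (fun _ => zero_le) h1

end mesh

/-! ## 5. the connectors of the cell kit -/

/-- **THE DATA OF [FRC], ROUTE Q** -/
structure PvjoIn where
  /-- the exit end and the entrance end of THE plug, REFERENCE FRAME (door `0`, direction `1`) -/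
  ep : PvnkEnd
  em : PvnkEnd
  /-- the zones of the recolourings: rooms of the lane of the colour of the rim / of the other colour, exit side, entrance side (reference frame) -/
  Zp₁ : Set ℂ
  Zp₂ : Set ℂ
  Zm₁ : Set ℂ
  Zm₂ : Set ℂ
  /-- side of the fine cells -/
  s : ℝ
  /-- the two full walks of the cell of shape `τ` (reference cell) -/
  L₁ : PvtTurn → List (ℤ × ℤ)
  L₂ : PvtTurn → List (ℤ × ℤ)
  /-- the zones of the mixed order -/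
  K₁ : PvtTurn → Set ℂ
  K₂ : PvtTurn → Set ℂ
  /-- window of the mesh event of the tile -/
  Et : PvtTurn → Set ℂ

namespace PvjoIn

variable (I : PvjoIn) (𝔤 : PvkdGeo)

/-- **the four half lanes in the form of [FRC]**: `S⁺ S⁺ S⁻ S⁻` -/
def Hf (i : Fin 4) : Set (Conf PvPt) := if i.1 < 2 then I.ep.L else I.em.L

/-- the link of 272 of the reference cell of shape `τ` -/
noncomputable def lk (τ : PvtTurn) : PvnkLink := ⟨I.ep, pvjoAt I.em (𝔤.zo 0 1 τ) τ.rot, I.s, I.L₁ τ, I.L₂ τ, I.K₁ τ, I.K₂ τ⟩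

/-- **the connector of the reference cell of shape `τ`** -/
noncomputable def D (τ : PvtTurn) : PvfpConn :=
  { (I.lk 𝔤 τ).conn with
    E := pvjoMesh 𝔤.ρ (I.Et τ)
    A := (I.lk 𝔤 τ).A₀ ∩ pvjoMesh 𝔤.ρ (I.Et τ) }

/-- **WHAT THE MODEL OWES FOR [FRC]**      (`okp okm monop monom` : 174;   `geo zp zm` : 278;   `Et` : 258;   `det` : 204) -/
structure Ok : Prop where
  ρ0 : 0 < 𝔤.ρ
  mC : MeasurableSet (𝔤.C 0 1)
  /-- the two ends -/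
  Op : I.ep.O = 𝔤.O₀
  Om : I.em.O = 𝔤.O₀
  okp : I.ep.Ok
  okm : I.em.Ok
  /-- DETERMINISTIC monotonicity of the two side events under the recolourings which keep the colours in `O₀`, the colour of the lanes in their rooms -/
  monop : PvjoMono I.ep.L I.ep.c I.ep.O I.Zp₁ I.Zp₂
  monom : PvjoMono I.em.L I.em.c I.em.O I.Zm₁ I.Zm₂
  /-- the layout -/
  geo : ∀ τ, (I.lk 𝔤 τ).Geo
  zp₁ : ∀ τ, I.Zp₁ ⊆ 𝔤.O₀ ∪ I.K₁ τ
  zp₂ : ∀ τ, I.Zp₂ ⊆ 𝔤.O₀ ∪ I.K₂ τ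
  zm₁ : ∀ τ, pvkdAt (𝔤.zo 0 1 τ) τ.rot I.Zm₁ ⊆ pvkdAt (𝔤.zo 0 1 τ) τ.rot 𝔤.O₀ ∪ I.K₁ τ
  zm₂ : ∀ τ, pvkdAt (𝔤.zo 0 1 τ) τ.rot I.Zm₂ ⊆ pvkdAt (𝔤.zo 0 1 τ) τ.rot 𝔤.O₀ ∪ I.K₂ τ
  /-- the window of the mesh of the tile -/
  mEt : ∀ τ, MeasurableSet (I.Et τ)
  bEt : ∀ τ, Bornology.IsBounded (I.Et τ)
  dEt : ∀ τ, Disjoint (I.Et τ) (𝔤.O₀ ∪ pvkdAt (𝔤.zo 0 1 τ) τ.rot 𝔤.O₀)
  /-- **(DET)**, DETERMINISTIC, at the nice configurations -/
  det : ∀ (τ : PvtTurn) (η : Conf PvPt), CfOK η → PvatNice (cfSites η) → η ∈ 𝔤.C 0 1 → η ∈ 𝔤.C (𝔤.zo 0 1 τ) τ.rot → η ∈ (I.lk 𝔤 τ).A₀ →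
    PvtrMesh 𝔤.ρ (I.Et τ) (cfSites η) → η ∈ 𝔤.A 0 1 τ

end PvjoIn

theorem pvjo_eqns_cite4 : True := by
  have := @PvjoIn.Hf.eq_1; have := @PvjoIn.lk.eq_1; have := @PvjoIn.D.eq_1
  trivial

section conn

variable {I : PvjoIn} {𝔤 : PvkdGeo}

theorem pvjo_okm (H : I.Ok 𝔤) (τ : PvtTurn) : (I.lk 𝔤 τ).e'.Ok := pvjo_at_ok H.okm _ (pvpk_rot_norm τ)

theorem pvjo_OO (H : I.Ok 𝔤) (τ : PvtTurn) : (I.D 𝔤 τ).OO = (𝔤.O₀ ∪ pvkdAt (𝔤.zo 0 1 τ) τ.rot 𝔤.O₀) ×ˢ univ := by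
  show I.ep.O ×ˢ univ ∪ pvkdAt (𝔤.zo 0 1 τ) τ.rot I.em.O ×ˢ univ = _
  rw [H.Op, H.Om, Set.union_prod]

/-- the connectors are well formed -/
theorem pvjo_D_ok (H : I.Ok 𝔤) (τ : PvtTurn) : (I.D 𝔤 τ).Ok := by
  have h := pvnk_ok H.okp (pvjo_okm H τ) (H.geo τ)
  exact
    { mO := h.mO
      mO' := h.mO'
      mT := h.mT
      mT' := h.mT'
      dj := h.dj
      mLp := h.mLp
      mLm := h.mLm
      mE := pvjo_mesh_meas _ (H.mEt τ)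
      rLp := h.rLp
      rLm := h.rLm
      δ_pos := h.δ_pos
      ne₁ := h.ne₁
      ne₂ := h.ne₂
      ch₁ := h.ch₁
      ch₂ := h.ch₂
      djK := h.djK
      w₁ := h.w₁
      w₂ := h.w₂
      off₁ := h.off₁
      off₂ := h.off₂
      geo := fun σ => pvjo_mesh_geo _ (by rw [pvjo_OO H τ]; exact pvnk_prod_disj (H.dEt τ)) σ
      glue := fun η hη => ⟨hη.1, hη.2⟩ }

/-- quenched up-ness at every pair of regular states -/
theorem pvjo_D_up (H : I.Ok 𝔤) (τ : PvtTurn) {ε : ℝ} {σ : Conf PvPt} (h1 : σ ∈ pvnkRg ε 𝔤.O₀) (h2 : σ ∈ pvnkRg ε (pvkdAt (𝔤.zo 0 1 τ) τ.rot 𝔤.O₀)) : (I.D 𝔤 τ).Up ε σ := by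
  have u1 : (I.lk 𝔤 τ).e.Up ε (I.K₁ τ) (I.K₂ τ) σ :=
    pvjo_end_up H.monop (H.geo τ).djK (by rw [H.Op]; exact H.zp₁ τ) (by rw [H.Op]; exact H.zp₂ τ) (by rw [H.Op]; exact h1)
  have u2 : (I.lk 𝔤 τ).e'.Up ε (I.K₁ τ) (I.K₂ τ) σ :=
    pvjo_at_up H.monom _ (pvt_rot_ne_zero τ) (H.geo τ).djK (by rw [H.Om]; exact H.zm₁ τ) (by rw [H.Om]; exact H.zm₂ τ) (by rw [H.Om]; exact h2)
  have h := pvnk_up H.okp (pvjo_okm H τ) (H.geo τ) u1 u2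
  unfold PvfpConn.Up at h ⊢
  filter_upwards [h] with g hg _
  exact hg fun c => mem_univ _

/-- **the connectors are fitted on the datum `𝔤.glob I.Hf`** -/
theorem pvjo_cj (H : I.Ok 𝔤) {ε : ℝ} (hε : 0 < ε) : PvcjOk (𝔤.glob I.Hf) (I.D 𝔤) ε where
  mO := by
    show MeasurableSet 𝔤.O₀
    rw [← H.Op]
    exact H.okp.mO
  mC := H.mC
  ok := pvjo_D_ok H
  O_eq τ := by
    show I.ep.O ×ˢ univ = pvkdAt 0 1 𝔤.O₀ ×ˢ univ
    rw [H.Op, pvjo_at_ref]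
  O'_eq τ := by
    show pvkdAt (𝔤.zo 0 1 τ) τ.rot I.em.O ×ˢ univ = pvkdAt (𝔤.zo 0 1 τ) τ.rot 𝔤.O₀ ×ˢ univ
    rw [H.Om]
  Lp_eq τ := rfl
  Lm_eq τ := rfl
  up τ := by
    have m0 : MeasurableSet 𝔤.O₀ := by rw [← H.Op]; exact H.okp.mO
    filter_upwards [pvnk_rg_full hε m0, pvnk_rg_full hε (pvjo_at_meas (z := 𝔤.zo 0 1 τ) (pvt_rot_ne_zero τ) m0)] with σ h1 h2
    exact pvjo_D_up H τ h1 h2
  det τ := by
    filter_upwards [dls_ae_conf hε, pvat_nice_ae hε.ne'] with η h1 h2 hC hC' hA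
    refine H.det τ η h1 h2 hC ?_ hA.1 (pvjo_mesh_of hA.2)
    rw [pvco_cov_C _ _ (pvt_rot_pow_four τ)]
    exact hC'

/-- **[MEAS]** of the four half lanes -/
theorem pvjo_mH (H : I.Ok 𝔤) (i : Fin 4) : MeasurableSet (I.Hf i) := by
  unfold PvjoIn.Hf
  split_ifs
  · exact H.okp.mL
  · exact H.okm.mL

theorem pvjo_iInter_Hf (I : PvjoIn) : ⋂ i, I.Hf i = I.ep.L ∩ I.em.L := by
  ext η
  simp only [mem_iInter, mem_inter_iff]
  exact ⟨fun h => ⟨h 0, h 2⟩, fun h i => by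
    unfold PvjoIn.Hf
    split_ifs
    · exact h.1
    · exact h.2⟩

/-- the mesh of the tile fails with small conditional probability -/
theorem pvjo_E_small (H : I.Ok 𝔤) {θ : ℝ≥0∞} (hθ : θ ≠ 0) : ∀ᶠ ε in 𝓝[>] (0 : ℝ), ∀ τ, pvP ε (I.D 𝔤 τ).Eᶜ ≤ θ := by
  have h : ∀ τ, ∀ᶠ ε in 𝓝[>] (0 : ℝ), pvP ε (I.D 𝔤 τ).Eᶜ ≤ θ := fun τ =>
    ((pvjo_mesh_lim H.ρ0 (H.bEt τ)).eventually (gt_mem_nhds (pos_iff_ne_zero.2 hθ))).mono fun ε h => h.le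
  filter_upwards [h .S, h .L, h .R] with ε h1 h2 h3 τ
  cases τ
  · exact h1
  · exact h2
  · exact h3

/-- **[FRC]**, consumer form of 258 (`PvkuFrc (𝔤.glob I.Hf)` of `Exit/NumQ.lean`, verbatim) -/
theorem pvjo_frc (H : I.Ok 𝔤) : ∀ b : ℝ≥0∞, b ≠ 0 → b ≤ 1 → ∃ q : ℝ≥0∞, q ≠ 0 ∧ q ≤ 1 ∧ ∀ᶠ ε in 𝓝[>] (0 : ℝ), ∀ τ, ∀ᵐ σ ∂(pvP ε),
    σ ∈ (𝔤.glob I.Hf).G2 (pvP ε) b τ → q ≤ pvtiP (pvP ε) ((𝔤.glob I.Hf).pre.OO 0 1 τ) ((𝔤.glob I.Hf).A τ) σ := by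
  intro b hb0 hb1
  obtain ⟨q0, hq0, hq1, hQ⟩ := pvcj_frc_exit
  have hbt : b ≠ ∞ := ne_top_of_le_ne_top ENNReal.one_ne_top hb1
  set β : ℝ := b.toReal with hβdef
  have hβ : 0 < β := ENNReal.toReal_pos hb0 hbt
  have hβ1 : β ≤ 1 := by
    have := ENNReal.toReal_mono ENNReal.one_ne_top hb1
    simpa using this
  have hbβ : ENNReal.ofReal β = b := ENNReal.ofReal_toReal hbt
  -- the number of cells
  set n : ℕ := (I.L₁ .S).length + (I.L₁ .L).length + (I.L₁ .R).length + (I.L₂ .S).length + (I.L₂ .L).length + (I.L₂ .R).length with hn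
  have n1 : ∀ τ, (I.D 𝔤 τ).L₁.length ≤ n := fun τ => by
    show (I.L₁ τ).length ≤ n
    cases τ <;> omega
  have n2 : ∀ τ, (I.D 𝔤 τ).L₂.length ≤ n := fun τ => by
    show (I.L₂ τ).length ≤ n
    cases τ <;> omega
  obtain ⟨U, hU1, hU⟩ := hQ n β hβ
  have hs : 0 < I.s := (H.geo .S).δ_pos
  have hx0 : 0 < (q0 ^ (15 * n) / 2) ^ 2 * (β ^ 2 / 2) := by positivity
  have hx1 : (q0 ^ (15 * n) / 2) ^ 2 * (β ^ 2 / 2) ≤ 1 := by
    have a1 : q0 ^ (15 * n) ≤ 1 := pow_le_one₀ hq0.le hq1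
    have a0 : 0 < q0 ^ (15 * n) := by positivity
    have a2 : (q0 ^ (15 * n) / 2) ^ 2 ≤ 1 := by nlinarith
    have a3 : β ^ 2 / 2 ≤ 1 := by nlinarith
    calc (q0 ^ (15 * n) / 2) ^ 2 * (β ^ 2 / 2) ≤ 1 * 1 := mul_le_mul a2 a3 (by positivity) zero_le_one
      _ = 1 := one_mul 1
  refine ⟨ENNReal.ofReal ((q0 ^ (15 * n) / 2) ^ 2 * (β ^ 2 / 2)), (ENNReal.ofReal_pos.2 hx0).ne', ?_, ?_⟩
  · rw [← ENNReal.ofReal_one]
    exact ENNReal.ofReal_le_ofReal hx1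
  have hθ : ENNReal.ofReal (β ^ 2 / 4) ≠ 0 := (ENNReal.ofReal_pos.2 (by positivity)).ne'
  filter_upwards [pvfn_ev_of_U hU1 hs, pvjo_E_small H hθ] with ε hε hE τ
  have hcj := pvjo_cj H hε.1
  have hW : Disjoint (I.Et τ ×ˢ (univ : Set Bool)) ((𝔤.glob I.Hf).pre.OO 0 1 τ) := by
    rw [← pvcj_OO hcj τ, pvjo_OO H τ]
    exact pvnk_prod_disj (H.dEt τ)
  have := hU ε hε.1 (𝔤.glob I.Hf) (I.D 𝔤) hcj τ hε.2 (n1 τ) (n2 τ)
    (Eventually.of_forall fun σ _ => pvcj_E_off hcj τ hW (pvjo_mesh_reads _ _) (hE τ) σ)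
  rw [hbβ] at this
  exact this

end conn

end Claimed.Agent.R289
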