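-- KEEP
import Claimed.Agent.R289.Tr.PlugFrcR

/-!
# Row 289 (S0537), THE WALL, ROAD P, P16 = Tr/ForceM : A LINK WITH THE WINDOW OF ITS CORRIDOR AND A GUARD      (pen + prover helper272; prefix `pvnh_`, defs `pvnh*`, `Pvnh*`)

WHY (seam M1 / M2 of 272, 12:45Z).   `Λ.Rd` of `Tr/ForceI` = the windows of the two ends + the windows of the two walks.   The two walks are at least one row of fine cells apart (`W(L_i) ⊆ K_i`, `K₁ ∩ K₂ = ∅`) and THE RIM RUNS BETWEEN THE TWO LANES: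
its sites are not read by `Λ.Rd`;   and `Λ.A₀ = L⁺ ∩ L⁻ ∩ Net` contains no mesh of the corridor, so the guard of the window of the connector of 113 (`pvkjA C`) does not follow.
CURE = the one of 52 for the cells of the kit (`Tr/PlugFrcR`): the slot `E` of `PvfpConn`.      `PvnkLink`, `Tr/ForceI` are UNTOUCHED.
DATA (generic form asked by 58): `Et` = the window of the corridor (Borel, OFF the two state regions; it may overlap the windows of the ends),   `M` = THE GUARD, any event read in `Et`, blind to the colours, of probability `1 - o(1)`.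
INSTANCES: `M = pvjoMesh ρ Et` (one mesh: thick links), `M = pvjoMesh ρ₁ E₁ ∩ pvjoMesh ρ₂ E₂`, `Et = E₁ ∪ E₂` (two meshes: funnels).
* §1 `pvnhA₀ Λ M = Λ.A₀ ∩ M`, `pvnhRd Λ Et = Λ.Rd ∪ Et ×ˢ univ`, `pvnhKp Λ Et` (planar exterior region), `pvnhConn`, **`pvnhA Λ M ε q G G'`** (THE EVENT OF RECORD, forced by construction);   `PvnhWin Et M` (measurable, read), `PvnhOff Λ Et M` (off the plugs, geometric).
* §2 regions: `pvnh_rd` (`O ∪ O' ∪ Kp = Rd`), measurability, `pvnh_Kp_off`.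
* §3 the events: `pvnh_A₀_meas _reads`, `pvnh_ok`, `pvnh_up`, `pvnh_A_meas _reads _reads' _forced`, `pvnh_X_reads _meas`, `pvnh_loc_eq` (a field which is read in the window is its own soft localisation).
* §4 P16: `pvnh_cond`, **`pvnh_forced_ae`** (a.e. form, SAME constant as without the guard), `PvnhP16`, **`pvnh_link_frc`**, **`pvnh_link_ae`** (families, eventually in the mesh).
* §5 the two instances of the guard: `pvnh_mesh_win _off _lim`, `pvnh_mesh2_win _off _lim`.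
-/

set_option autoImplicit false
set_option linter.unusedSectionVars false
set_option linter.unusedVariables false

namespace Claimed.Agent.R289

open MeasureTheory ProbabilityTheory Set Filter Topology Metric
open scoped ENNReal NNReal

/-! ## 1. definitions -/

/-- the bare success event WITH the guard of the window of the corridor -/
def pvnhA₀ (Λ : PvnkLink) (M : Set (Conf PvPt)) : Set (Conf PvPt) := Λ.A₀ ∩ M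

/-- everything that the connector reads -/
def pvnhRd (Λ : PvnkLink) (Et : Set ℂ) : Set PvPt := Λ.Rd ∪ Et ×ˢ univ

/-- all that the connector reads off its two plugs (planar set) -/
def pvnhKp (Λ : PvnkLink) (Et : Set ℂ) : Set ℂ := (Λ.e.E ∪ Λ.e'.E ∪ pvlnW Λ.δ Λ.L₁ ∪ pvlnW Λ.δ Λ.L₂ ∪ Et) \ (Λ.e.O ∪ Λ.e'.O)

/-- the abstract connector of `Tr/ForceP`, the guard in the slot `E` -/
def pvnhConn (Λ : PvnkLink) (M : Set (Conf PvPt)) : PvfpConn :=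
  { Λ.conn with
    E := M
    A := pvnhA₀ Λ M }

/-- **THE EVENT OF RECORD OF THE CONNECTOR**: bare event + guard, FORCED BY CONSTRUCTION (34) over the pairs of usable states -/
def pvnhA (Λ : PvnkLink) (M : Set (Conf PvPt)) (ε : ℝ) (q : ℝ≥0∞) (G G' : Set (Conf PvPt)) : Set (Conf PvPt) := pvpgFix (pvP ε) Λ.OO (G ∩ G') (pvnhA₀ Λ M) q

/-- **what the window and the guard owe to measurability and reading** -/
structure PvnhWin (Et : Set ℂ) (M : Set (Conf PvPt)) : Prop where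
  mEt : MeasurableSet Et
  mM : MeasurableSet M
  rM : Conf.ReadsSet (Et ×ˢ univ) M

/-- **what the window and the guard owe to P16**: the window is off the two state regions, the guard does not look at the colours -/
structure PvnhOff (Λ : PvnkLink) (Et : Set ℂ) (M : Set (Conf PvPt)) : Prop where
  off : Disjoint Et (Λ.e.O ∪ Λ.e'.O)
  geo : ∀ σ, PvhkGeo Λ.OO σ M

theorem pvnh_eqns_cite : True := by
  have := @pvnhA₀.eq_1; have := @pvnhRd.eq_1; have := @pvnhKp.eq_1; have := @pvnhConn.eq_1; have := @pvnhA.eq_1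
  trivial

variable {Λ : PvnkLink} {Et : Set ℂ} {M : Set (Conf PvPt)}

/-! ## 2. regions -/

/-- the two plugs and the exterior region make up all that the connector reads -/
theorem pvnh_rd (Λ : PvnkLink) (Et : Set ℂ) : Λ.e.O ×ˢ (univ : Set Bool) ∪ Λ.e'.O ×ˢ univ ∪ pvnhKp Λ Et ×ˢ univ = pvnhRd Λ Et := by
  ext p
  simp only [pvnhRd, PvnkLink.Rd, pvnhKp, mem_union, mem_prod, mem_univ, and_true, Set.mem_sdiff]
  tauto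

theorem pvnh_rd_meas (he : Λ.e.Ok) (he' : Λ.e'.Ok) (mEt : MeasurableSet Et) : MeasurableSet (pvnhRd Λ Et) :=
  ((((((he.mE.union he'.mE).union (pvln_W_meas _ _)).union (pvln_W_meas _ _)).union he.mO).union he'.mO).prod MeasurableSet.univ).union (mEt.prod MeasurableSet.univ)

theorem pvnh_Kp_meas (he : Λ.e.Ok) (he' : Λ.e'.Ok) (mEt : MeasurableSet Et) : MeasurableSet (pvnhKp Λ Et) :=
  ((((he.mE.union he'.mE).union (pvln_W_meas _ _)).union (pvln_W_meas _ _)).union mEt).diff (he.mO.union he'.mO)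

/-- the exterior region is off the two state regions -/
theorem pvnh_Kp_off (Λ : PvnkLink) (Et : Set ℂ) : Disjoint (Λ.e.O ∪ Λ.e'.O) (pvnhKp Λ Et) :=
  Set.disjoint_left.2 fun _ hp hq => hq.2 hp

theorem pvnh_Rd_sub (Λ : PvnkLink) (Et : Set ℂ) : Λ.Rd ⊆ pvnhRd Λ Et := subset_union_left

theorem pvnh_Et_sub (Λ : PvnkLink) (Et : Set ℂ) : Et ×ˢ (univ : Set Bool) ⊆ pvnhRd Λ Et := subset_union_right

theorem pvnh_OO_sub (Λ : PvnkLink) (Et : Set ℂ) : Λ.OO ⊆ pvnhRd Λ Et := by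
  rintro p (hp | hp)
  · exact Or.inl ⟨Or.inl (Or.inr hp.1), mem_univ _⟩
  · exact Or.inl ⟨Or.inr hp.1, mem_univ _⟩

/-- a planar window which is covered by the windows of the link is read by the link -/
theorem pvnh_win_sub {E : Set ℂ} (h : E ⊆ Λ.e.O ∪ Λ.e'.O ∪ Λ.e.E ∪ Λ.e'.E ∪ Et) : E ×ˢ (univ : Set Bool) ⊆ pvnhRd Λ Et := by
  rintro p ⟨hp, -⟩
  rcases h hp with (((h1 | h1) | h1) | h1) | h1
  · exact Or.inl ⟨Or.inl (Or.inr h1), mem_univ _⟩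
  · exact Or.inl ⟨Or.inr h1, mem_univ _⟩
  · exact Or.inl ⟨Or.inl (Or.inl (Or.inl (Or.inl (Or.inl h1)))), mem_univ _⟩
  · exact Or.inl ⟨Or.inl (Or.inl (Or.inl (Or.inl (Or.inr h1)))), mem_univ _⟩
  · exact Or.inr ⟨h1, mem_univ _⟩

/-! ## 3. the events -/

theorem pvnh_A₀_meas (he : Λ.e.Ok) (he' : Λ.e'.Ok) (hG : Λ.Geo) (mM : MeasurableSet M) : MeasurableSet (pvnhA₀ Λ M) :=
  (pvnk_A₀_meas he he' hG).inter mM

theorem pvnh_A₀_reads (he : Λ.e.Ok) (he' : Λ.e'.Ok) (rM : Conf.ReadsSet (Et ×ˢ univ) M) : Conf.ReadsSet (pvnhRd Λ Et) (pvnhA₀ Λ M) :=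
  ((pvnk_A₀_reads he he').mono (pvnh_Rd_sub Λ Et)).inter (rM.mono (pvnh_Et_sub Λ Et))

/-- **the abstract connector is well formed** -/
theorem pvnh_ok (he : Λ.e.Ok) (he' : Λ.e'.Ok) (hG : Λ.Geo) (mM : MeasurableSet M) (gM : ∀ σ, PvhkGeo Λ.OO σ M) : (pvnhConn Λ M).Ok := by
  have h := pvnk_ok he he' hG
  exact
    { mO := h.mO
      mO' := h.mO'
      mT := h.mT
      mT' := h.mT'
      dj := h.dj
      mLp := h.mLp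
      mLm := h.mLm
      mE := mM
      rLp := h.rLp
      rLm := h.rLm
      δ_pos := h.δ_pos
      ne₁ := h.ne₁
      ne₂ := h.ne₂
      ch₁ := h.ch₁
      ch₂ := h.ch₂
      djK := h.djK
      w₁ := h.w₁
      w₂ := h.w₂
      off₁ := h.off₁
      off₂ := h.off₂
      geo := gM
      glue := fun η hη => ⟨hη.1, hη.2⟩ }

/-- up-ness of the two ends gives the up-ness of the connector -/
theorem pvnh_up (he : Λ.e.Ok) (he' : Λ.e'.Ok) (hG : Λ.Geo) (M : Set (Conf PvPt)) {ε : ℝ} {σ : Conf PvPt} (hu : Λ.e.Up ε Λ.K₁ Λ.K₂ σ) (hu' : Λ.e'.Up ε Λ.K₁ Λ.K₂ σ) :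
    (pvnhConn Λ M).Up ε σ := by
  have h := pvnk_up he he' hG hu hu'
  unfold PvfpConn.Up at h ⊢
  filter_upwards [h] with g hg _
  exact hg fun c => mem_univ _

theorem pvnh_A_meas (he : Λ.e.Ok) (he' : Λ.e'.Ok) (hG : Λ.Geo) (mM : MeasurableSet M) (ε : ℝ) (q : ℝ≥0∞) {G G' : Set (Conf PvPt)} (mG : MeasurableSet G)
    (mG' : MeasurableSet G') : MeasurableSet (pvnhA Λ M ε q G G') :=
  pvpg_fix_meas ((he.mO.prod MeasurableSet.univ).union (he'.mO.prod MeasurableSet.univ)) (mG.inter mG') (pvnh_A₀_meas he he' hG mM) q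

theorem pvnh_A_reads (he : Λ.e.Ok) (he' : Λ.e'.Ok) (rM : Conf.ReadsSet (Et ×ˢ univ) M) (ε : ℝ) (q : ℝ≥0∞) {G G' : Set (Conf PvPt)} (rG : Conf.ReadsSet (Λ.e.O ×ˢ univ) G)
    (rG' : Conf.ReadsSet (Λ.e'.O ×ˢ univ) G') : Conf.ReadsSet (pvnhRd Λ Et) (pvnhA Λ M ε q G G') := by
  have h1 : Conf.ReadsSet Λ.OO (G ∩ G') := (rG.mono subset_union_left).inter (rG'.mono subset_union_right)
  have h2 := pvpg_fix_reads (μ := pvP ε) (pvnh_OO_sub Λ Et) (fun η => propext (h1 η)) (fun η => propext (pvnh_A₀_reads he he' rM η)) q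
  exact fun η => iff_of_eq (h2 η)

/-- the same, in the regions of the engine -/
theorem pvnh_A_reads' (he : Λ.e.Ok) (he' : Λ.e'.Ok) (rM : Conf.ReadsSet (Et ×ˢ univ) M) (ε : ℝ) (q : ℝ≥0∞) {G G' : Set (Conf PvPt)} (rG : Conf.ReadsSet (Λ.e.O ×ˢ univ) G)
    (rG' : Conf.ReadsSet (Λ.e'.O ×ˢ univ) G') : Conf.ReadsSet (Λ.e.O ×ˢ univ ∪ Λ.e'.O ×ˢ univ ∪ pvnhKp Λ Et ×ˢ univ) (pvnhA Λ M ε q G G') := by
  rw [pvnh_rd]
  exact pvnh_A_reads he he' rM ε q rG rG'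

/-- **FORCED, POINTWISE** (by construction) -/
theorem pvnh_A_forced (M : Set (Conf PvPt)) (ε : ℝ) {q : ℝ≥0∞} (hq : q ≤ 1) {G G' : Set (Conf PvPt)} (rG : Conf.ReadsSet (Λ.e.O ×ˢ univ) G) (rG' : Conf.ReadsSet (Λ.e'.O ×ˢ univ) G')
    {σ : Conf PvPt} (h : σ ∈ G) (h' : σ ∈ G') : q ≤ pvtiP (pvP ε) Λ.OO (pvnhA Λ M ε q G G') σ := by
  have h1 : Conf.ReadsSet Λ.OO (G ∩ G') := (rG.mono subset_union_left).inter (rG'.mono subset_union_right)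
  exact pvpg_fix_forced (fun η => propext (h1 η)) hq ⟨h, h'⟩

theorem pvnh_X_reads (Λ : PvnkLink) (Et : Set ℂ) (ε : ℝ) (X : Conf PvPt → ℂ) :
    Conf.Reads (Λ.e.O ×ˢ univ ∪ Λ.e'.O ×ˢ univ ∪ pvnhKp Λ Et ×ˢ univ) (pvpgLoc (pvP ε) (pvnhRd Λ Et) X) := by
  rw [pvnh_rd]
  exact pvpg_loc_reads _ _ _

theorem pvnh_X_meas (he : Λ.e.Ok) (he' : Λ.e'.Ok) (mEt : MeasurableSet Et) (ε : ℝ) {X : Conf PvPt → ℂ} (hX : Measurable X) : Measurable (pvpgLoc (pvP ε) (pvnhRd Λ Et) X) :=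
  pvpg_loc_meas (pvnh_rd_meas he he' mEt) hX

/-- a field which is read inside the window is its own soft localisation, EVERYWHERE -/
theorem pvnh_loc_eq {W W' : Set PvPt} (hW : W' ⊆ W) {F : Conf PvPt → ℂ} (hF : Conf.Reads W' F) (ε : ℝ) (σ : Conf PvPt) : pvpgLoc (pvP ε) W F σ = F σ := by
  unfold pvpgLoc
  have h : ∀ ξ, F (Conf.spl W (σ, ξ)) = F σ := fun ξ => by
    rw [← hF (Conf.spl W (σ, ξ)), Conf.restr_spl_of_subset hW, hF]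
  simp only [h]
  rw [integral_const]
  simp

/-! ## 4. P16 -/

/-- the guard fails with the same conditional probability at EVERY pair of states -/
theorem pvnh_cond (W : PvnhWin Et M) (hoff : Disjoint Et (Λ.e.O ∪ Λ.e'.O)) (ε : ℝ) (σ : Conf PvPt) : pvtiP (pvP ε) Λ.OO Mᶜ σ = pvP ε Mᶜ := by
  have hd : Disjoint (Et ×ˢ (univ : Set Bool)) Λ.OO := by
    show Disjoint (Et ×ˢ (univ : Set Bool)) (Λ.e.O ×ˢ univ ∪ Λ.e'.O ×ˢ univ)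
    rw [← Set.union_prod]
    exact pvnk_prod_disj hoff
  exact pvhk_P_of_disjoint _ hd σ W.mM.compl W.rM.compl

/-- **P16, A.E. FORM, WITH THE GUARD**: the bare event `L⁺ ∩ L⁻ ∩ Net ∩ M` is forced, SAME constant.      Uniformly over all links whose walks have at most `n` cells. -/
theorem pvnh_forced_ae {q0 : ℝ} (hq0 : 0 < q0) (hq1 : q0 ≤ 1) (hQ : PvlqQbx q0) (n : ℕ) {β : ℝ} (hβ : 0 < β) :
    ∃ U : ℝ, 1 ≤ U ∧ ∀ ε : ℝ, 0 < ε → ∀ (Λ : PvnkLink) (Et : Set ℂ) (M : Set (Conf PvPt)), Λ.e.Ok → Λ.e'.Ok → Λ.Geo → PvnhWin Et M → PvnhOff Λ Et M →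
      U * ε ≤ Λ.δ → Λ.L₁.length ≤ n → Λ.L₂.length ≤ n → pvP ε Mᶜ ≤ ENNReal.ofReal (β ^ 2 / 4) →
      (∀ᵐ σ ∂(pvP ε), Λ.e.Up ε Λ.K₁ Λ.K₂ σ) → (∀ᵐ σ ∂(pvP ε), Λ.e'.Up ε Λ.K₁ Λ.K₂ σ) →
      ∀ᵐ σ ∂(pvP ε), ENNReal.ofReal β ≤ pvtiP (pvP ε) (Λ.e.O ×ˢ univ) Λ.e.L σ → ENNReal.ofReal β ≤ pvtiP (pvP ε) (Λ.e'.O ×ˢ univ) Λ.e'.L σ →
        ENNReal.ofReal ((q0 ^ (15 * n) / 2) ^ 2 * (β ^ 2 / 2)) ≤ pvtiP (pvP ε) Λ.OO (pvnhA₀ Λ M) σ := by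
  obtain ⟨U, hU1, hU⟩ := pvfp_forced_ev hq0 hq1 hQ n hβ
  refine ⟨U, hU1, fun ε hε Λ Et M he he' hG W F hδ n1 n2 hm u1 u2 => ?_⟩
  filter_upwards [u1, u2] with σ hσ hσ' h1 h2
  refine hU ε hε (pvnhConn Λ M) (pvnh_ok he he' hG W.mM F.geo) hδ n1 n2 σ (pvnh_up he he' hG M hσ hσ') h1 h2 ?_
  show pvtiP (pvP ε) Λ.OO Mᶜ σ ≤ _
  rw [pvnh_cond W F.off]
  exact hm

/-- **ALL THAT P16 ASKS OF ONE LINK WITH ITS WINDOW AT THE MESH `ε`** -/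
structure PvnhP16 (Λ : PvnkLink) (Et : Set ℂ) (M : Set (Conf PvPt)) (ε δ₀ : ℝ) (n : ℕ) : Prop where
  ok : Λ.e.Ok
  ok' : Λ.e'.Ok
  geo : Λ.Geo
  win : PvnhWin Et M
  off : PvnhOff Λ Et M
  δ_eq : Λ.δ = δ₀
  n₁ : Λ.L₁.length ≤ n
  n₂ : Λ.L₂.length ≤ n
  up : ∀ᵐ σ ∂(pvP ε), Λ.e.Up ε Λ.K₁ Λ.K₂ σ
  up' : ∀ᵐ σ ∂(pvP ε), Λ.e'.Up ε Λ.K₁ Λ.K₂ σ

/-- **ONE LINK (which may depend on the mesh through its regions), EVENTUALLY IN THE MESH**: the bound of `PvsyCycForced.frc` for the bare event with the guard -/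
theorem pvnh_link_frc {q0 : ℝ} (hq0 : 0 < q0) (hq1 : q0 ≤ 1) (hQ : PvlqQbx q0) {n : ℕ} {β δ₀ : ℝ} (hβ : 0 < β) {Λ : ℝ → PvnkLink} {Et : ℝ → Set ℂ} {M : ℝ → Set (Conf PvPt)}
    (H : ∀ᶠ ε in 𝓝[>] (0 : ℝ), PvnhP16 (Λ ε) (Et ε) (M ε) ε δ₀ n) (lM : Tendsto (fun ε : ℝ => pvP ε (M ε)ᶜ) (𝓝[>] 0) (𝓝 0))
    {G G' : ℝ → Set (Conf PvPt)}
    (hp : ∀ᶠ ε in 𝓝[>] (0 : ℝ), ∀ᵐ σ ∂(pvP ε), σ ∈ G ε → ENNReal.ofReal β ≤ pvtiP (pvP ε) ((Λ ε).e.O ×ˢ univ) (Λ ε).e.L σ)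
    (hp' : ∀ᶠ ε in 𝓝[>] (0 : ℝ), ∀ᵐ σ ∂(pvP ε), σ ∈ G' ε → ENNReal.ofReal β ≤ pvtiP (pvP ε) ((Λ ε).e'.O ×ˢ univ) (Λ ε).e'.L σ) :
    ∀ᶠ ε in 𝓝[>] (0 : ℝ), ∀ᵐ σ ∂(pvP ε), σ ∈ G ε → σ ∈ G' ε →
      ENNReal.ofReal ((q0 ^ (15 * n) / 2) ^ 2 * (β ^ 2 / 2)) ≤ pvtiP (pvP ε) (Λ ε).OO (pvnhA₀ (Λ ε) (M ε)) σ := by
  obtain ⟨U, hU1, hU⟩ := pvnh_forced_ae hq0 hq1 hQ n hβ
  have hδ₀ : 0 < δ₀ := by
    obtain ⟨ε, hε⟩ := H.exists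
    rw [← hε.δ_eq]
    exact hε.geo.δ_pos
  have hsmall : ∀ᶠ ε in 𝓝[>] (0 : ℝ), U * ε ≤ δ₀ := by
    have h1 : ∀ᶠ ε in 𝓝 (0 : ℝ), ε < δ₀ / U := gt_mem_nhds (div_pos hδ₀ (by linarith))
    filter_upwards [nhdsWithin_le_nhds h1] with ε hε
    rw [lt_div_iff₀ (by linarith)] at hε
    linarith
  have hθ : (0 : ℝ≥0∞) < ENNReal.ofReal (β ^ 2 / 4) := ENNReal.ofReal_pos.2 (by positivity)
  have hm : ∀ᶠ ε in 𝓝[>] (0 : ℝ), pvP ε (M ε)ᶜ ≤ ENNReal.ofReal (β ^ 2 / 4) := (lM.eventually (gt_mem_nhds hθ)).mono fun ε h => h.le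
  filter_upwards [hp, hp', H, hsmall, hm, self_mem_nhdsWithin] with ε a1 a2 a3 a5 a7 a6
  have key := hU ε a6 (Λ ε) (Et ε) (M ε) a3.ok a3.ok' a3.geo a3.win a3.off (by rw [a3.δ_eq]; exact a5) a3.n₁ a3.n₂ a7 a3.up a3.up'
  filter_upwards [key, a1, a2] with σ k1 k2 k3 g1 g2
  exact k1 (k2 g1) (k3 g2)

/-- **THE A.E. DICTIONARY OF THE EVENT OF RECORD**: eventually in the mesh the event forced by construction is a.e. the bare event `L⁺ ∩ L⁻ ∩ Net ∩ M` -/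
theorem pvnh_link_ae {q0 : ℝ} (hq0 : 0 < q0) (hq1 : q0 ≤ 1) (hQ : PvlqQbx q0) {n : ℕ} {β δ₀ : ℝ} (hβ : 0 < β) {Λ : ℝ → PvnkLink} {Et : ℝ → Set ℂ} {M : ℝ → Set (Conf PvPt)}
    (H : ∀ᶠ ε in 𝓝[>] (0 : ℝ), PvnhP16 (Λ ε) (Et ε) (M ε) ε δ₀ n) (lM : Tendsto (fun ε : ℝ => pvP ε (M ε)ᶜ) (𝓝[>] 0) (𝓝 0))
    {G G' : ℝ → Set (Conf PvPt)}
    (hp : ∀ᶠ ε in 𝓝[>] (0 : ℝ), ∀ᵐ σ ∂(pvP ε), σ ∈ G ε → ENNReal.ofReal β ≤ pvtiP (pvP ε) ((Λ ε).e.O ×ˢ univ) (Λ ε).e.L σ)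
    (hp' : ∀ᶠ ε in 𝓝[>] (0 : ℝ), ∀ᵐ σ ∂(pvP ε), σ ∈ G' ε → ENNReal.ofReal β ≤ pvtiP (pvP ε) ((Λ ε).e'.O ×ˢ univ) (Λ ε).e'.L σ)
    {q : ℝ≥0∞} (hq : q ≤ ENNReal.ofReal ((q0 ^ (15 * n) / 2) ^ 2 * (β ^ 2 / 2))) :
    ∀ᶠ ε in 𝓝[>] (0 : ℝ), ∀ᵐ η ∂(pvP ε), η ∈ pvnhA (Λ ε) (M ε) ε q (G ε) (G' ε) → η ∈ pvnhA₀ (Λ ε) (M ε) := by
  filter_upwards [pvnh_link_frc hq0 hq1 hQ hβ H lM hp hp'] with ε h1
  refine pvpg_fix_ae ?_
  filter_upwards [h1] with σ h2 h3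
  exact hq.trans (h2 h3.1 h3.2)

/-! ## 5. the two instances of the guard -/

section inst

variable {ρ ρ₁ ρ₂ : ℝ} {E₁ E₂ : Set ℂ}

theorem pvnh_mesh_win (ρ : ℝ) (mEt : MeasurableSet Et) : PvnhWin Et (pvjoMesh ρ Et) := ⟨mEt, pvjo_mesh_meas ρ mEt, pvjo_mesh_reads ρ Et⟩

theorem pvnh_off_prod (hoff : Disjoint Et (Λ.e.O ∪ Λ.e'.O)) : Disjoint (Et ×ˢ (univ : Set Bool)) Λ.OO := by
  show Disjoint (Et ×ˢ (univ : Set Bool)) (Λ.e.O ×ˢ univ ∪ Λ.e'.O ×ˢ univ)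
  rw [← Set.union_prod]
  exact pvnk_prod_disj hoff

theorem pvnh_mesh_off (ρ : ℝ) (hoff : Disjoint Et (Λ.e.O ∪ Λ.e'.O)) : PvnhOff Λ Et (pvjoMesh ρ Et) := ⟨hoff, fun σ => pvjo_mesh_geo ρ (pvnh_off_prod hoff) σ⟩

theorem pvnh_mesh_lim (hρ : 0 < ρ) (hE : Bornology.IsBounded Et) : Tendsto (fun ε : ℝ => pvP ε (pvjoMesh ρ Et)ᶜ) (𝓝[>] 0) (𝓝 0) := pvjo_mesh_lim hρ hE

theorem pvnh_mesh2_win (ρ₁ ρ₂ : ℝ) (m₁ : MeasurableSet E₁) (m₂ : MeasurableSet E₂) : PvnhWin (E₁ ∪ E₂) (pvjoMesh ρ₁ E₁ ∩ pvjoMesh ρ₂ E₂) :=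
  ⟨m₁.union m₂, (pvjo_mesh_meas ρ₁ m₁).inter (pvjo_mesh_meas ρ₂ m₂),
    ((pvjo_mesh_reads ρ₁ E₁).mono (prod_mono subset_union_left Subset.rfl)).inter ((pvjo_mesh_reads ρ₂ E₂).mono (prod_mono subset_union_right Subset.rfl))⟩

theorem pvnh_mesh2_off (ρ₁ ρ₂ : ℝ) (hoff : Disjoint (E₁ ∪ E₂) (Λ.e.O ∪ Λ.e'.O)) : PvnhOff Λ (E₁ ∪ E₂) (pvjoMesh ρ₁ E₁ ∩ pvjoMesh ρ₂ E₂) := by
  refine ⟨hoff, fun σ g c c' h => ?_⟩
  rw [pvhk_sec_inter] at h ⊢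
  exact ⟨pvjo_mesh_geo ρ₁ (pvnh_off_prod (hoff.mono_left subset_union_left)) σ g c c' h.1, pvjo_mesh_geo ρ₂ (pvnh_off_prod (hoff.mono_left subset_union_right)) σ g c c' h.2⟩

theorem pvnh_mesh2_lim (h₁ : 0 < ρ₁) (h₂ : 0 < ρ₂) (b₁ : Bornology.IsBounded E₁) (b₂ : Bornology.IsBounded E₂) :
    Tendsto (fun ε : ℝ => pvP ε (pvjoMesh ρ₁ E₁ ∩ pvjoMesh ρ₂ E₂)ᶜ) (𝓝[>] 0) (𝓝 0) := by
  have h := (pvjo_mesh_lim h₁ b₁).add (pvjo_mesh_lim h₂ b₂)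
  rw [add_zero] at h
  refine tendsto_of_tendsto_of_tendsto_of_le_of_le tendsto_const_nhds h (fun _ => zero_le) fun ε => ?_
  show pvP ε (pvjoMesh ρ₁ E₁ ∩ pvjoMesh ρ₂ E₂)ᶜ ≤ pvP ε (pvjoMesh ρ₁ E₁)ᶜ + pvP ε (pvjoMesh ρ₂ E₂)ᶜ
  rw [compl_inter]
  exact measure_union_le _ _

end inst

end Claimed.Agent.R289
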