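-- KEEP
import Claimed.Agent.R289.Tr.StateP
import Claimed.Agent.R289.Tr.ForceP
import Claimed.Agent.R289.Tr.ForceN
import Claimed.Agent.R289.Tr.ForceI

/-!
# Row 289 (S0537), THE WALL, ROAD P, P16 instance, file Tr/ForceS : THE SIDE EVENTS OF A FROZEN STATE ARE UP IN THE MIXED ORDER      (pen + prover helper68; prefix `pvfv_`, defs `pvfv*`)

Consumer: `PvfpConn.Up` of 272 (`Tr/ForceP.lean`, instance `Tr/ForceI.lean`): at a.e. geometry `g`, the state `σ` being frozen in `O`, the colour sections of `L⁺ = pvspLp`, `L⁻ = pvspLm` (185, `Tr/StateP.lean`)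
are up-sets of the mixed order `pvfpSg g t.col K₁ K₂` (the colour of the rim is up on `K₁ ⊇ N^± ∖ O`, the other colour on `K₂ ⊇ M^± ∖ O`, all the other colours are not looked at).

* sec. 1 LEVEL A (deterministic, model free): `pvfv_iso` (the identity is a `PvplIso` as soon as the two colourings agree on the stars of the vertices marked in `K`), **`pvfv_pred_mono`**: the five predicates `PvspPred 𝔯 c k` survive every
     recolouring which (i) keeps the colours on the stars of the vertices marked in `S₂`, (ii) keeps the colour of the side path (`pvfvCol c k`) in its tube (`pvfvZone 𝔯 k`).   Uses the transfer of the state `pvsp_tr_at` (76).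
* sec. 2 LEVEL B (configurations with the same sites): `pvfv_fin`, **`pvfv_evt_mono`** : the same for the five events `pvspEvt N t z h k`, in general position (`DelGood`), through `pvsp_evt_plane` (185).
* sec. 3 SPLICES: points, sites, colours of `Conf.spl (F ×ˢ univ) (σ, pvConf (pvMerge (g, c)))`;   the mixed order in words (`pvfv_le_K1`, `pvfv_le_K2`).
* sec. 4 **`pvfv_evt_up`**, **`pvfv_Lp_up`**, **`pvfv_Lm_up`** (one geometry; any frozen region `F ⊇ O`), `pvfv_good_ae`, **`pvfv_Lp_up_ae`**, **`pvfv_Lm_up_ae`** (a.e. geometry, REGULAR state).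
* sec. 5 CONTINUUM FORM: `pvfv_edge_joined` (a retained Delaunay edge is a broken line site - circumcentre - site in the two cells), **`pvfv_pth_joined`** (a path of the Delaunay plane through sites of `A` placed in `Nn` is a path in `vorUn Y A ∩ cthickening ρ Nn`), `pvfv_reg_eq`.
* sec. 6 THE TWO ENDS OF A BIG PLUG in the vocabulary of 272 (`Tr/ForceI.lean`): `pvfvEndP N t z h`, `pvfvEndM N t z h : PvnkEnd` (starting sites `pvfvVp`, `pvfvVm` = `v₂⁺`, `v₂⁻` of THE state in the Delaunay plane;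
     **RULING P13 (THE FOOT)**: the white paths start at THE FEET `pvfvFp`, `pvfvFm` = `tgt aOut`, `tgt aIn` of `S₂` (no more "somewhere on the right arc" `pvfvR`), and their room is `t.reg N z h .Mp/.Mm` = lane + frozen foot room `Tp/Tm ∩ S2`);
     **`pvfv_endP_ok`**, **`pvfv_endM_ok`** (`PvnkEnd.Ok`), **`pvfv_endP_up`**, **`pvfv_endM_up`** (`PvnkEnd.Up` at every state of `pvnkRg`), `pvfv_endP_up_ae`, `pvfv_endM_up_ae` (hypothesis of `pvnk_A_ae`), `pvfv_start_sites`.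
-/

set_option autoImplicit false
set_option linter.unusedSectionVars false
set_option linter.unusedVariables false

namespace Claimed.Agent.R289

open MeasureTheory ProbabilityTheory Set Filter Topology Metric Claims.C0465
open scoped ENNReal

/-! ## 1. LEVEL A -/

/-- the tube of the side path number `k` -/
def pvfvZone {κ : Type} (𝔯 : PvspReg κ) : PvspKind → Set κ
  | .has => ∅
  | .pb => 𝔯 .Np
  | .pw => 𝔯 .Mp
  | .mb => 𝔯 .Nm
  | .mw => 𝔯 .Mm

/-- the colour of the side path number `k` (`c` = the colour of the rim) -/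
def pvfvCol (c : Bool) : PvspKind → Bool
  | .has => c
  | .pb => c
  | .pw => !c
  | .mb => c
  | .mw => !c

theorem pvfv_eqns_cite : True := by
  have := @pvfvZone.eq_1; have := @pvfvCol.eq_1
  trivial

section levelA

variable {V D κ : Type} {T : PvMap V D} {mk : V → κ} {s s' : V → Bool}

/-- the identity is an isomorphism near `K` as soon as the two colourings agree on the stars of the vertices marked in `K` -/
theorem pvfv_iso (T : PvMap V D) (mk : V → κ) {s s' : V → Bool} {K : Set κ}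
    (h : ∀ d, mk (T.src d) ∈ K → s' (T.src d) = s (T.src d) ∧ s' (T.tgt d) = s (T.tgt d) ∧ s' (T.apex d) = s (T.apex d)) :
    PvplIso T mk s T mk s' K (fun u u' => u = u' ∧ s' u = s u) where
  mark u u' hu := by rw [hu.1]
  col u u' hu := by rw [← hu.1]; exact hu.2
  fn u u' u'' hu hu' := hu.1.symm.trans hu'.1
  inj u v u' hu hv := hu.1.trans hv.1.symm
  ex d hd := ⟨d, ⟨rfl, (h d hd).1⟩, ⟨rfl, (h d hd).2.1⟩, ⟨rfl, (h d hd).2.2⟩⟩
  ex' d hd := ⟨d, ⟨rfl, (h d hd).1⟩, ⟨rfl, (h d hd).2.1⟩, ⟨rfl, (h d hd).2.2⟩⟩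

theorem pvfv_S_true {c : Bool} {s : V → Bool} {x : V} : pvspS c s x = true ↔ s x = c := by
  unfold pvspS
  exact beq_iff_eq

theorem pvfv_S_false {c : Bool} {s : V → Bool} {x : V} : pvspS c s x = false ↔ s x = !c := by
  unfold pvspS
  cases s x <;> cases c <;> simp

/-- **MONOTONICITY OF THE FIVE PREDICATES** -/
theorem pvfv_pred_mono {𝔯 : PvspReg κ} (hN : 𝔯.Nest) (c : Bool) (k : PvspKind) (hS : T.Simple)
    (hfix : ∀ d, mk (T.src d) ∈ 𝔯 .S2 → s' (T.src d) = s (T.src d) ∧ s' (T.tgt d) = s (T.tgt d) ∧ s' (T.apex d) = s (T.apex d))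
    (hup : ∀ x, mk x ∈ pvfvZone 𝔯 k → s x = pvfvCol c k → s' x = pvfvCol c k)
    (hp : PvspPred 𝔯 c k V D T mk s) : PvspPred 𝔯 c k V D T mk s' := by
  obtain ⟨hst, 𝔖, hA, hs⟩ := hp
  have hiso : PvplIso T mk (pvspS c s) T mk (pvspS c s') (𝔯 .S2) (fun u u' => u = u' ∧ pvspS c s' u = pvspS c s u) :=
    pvfv_iso T mk fun d hd => by
      obtain ⟨h1, h2, h3⟩ := hfix d hd
      unfold pvspS
      rw [h1, h2, h3]
      exact ⟨rfl, rfl, rfl⟩
  obtain ⟨𝔖', hA', hm, hcc⟩ := pvsp_tr_at hN hiso hS hS hst hA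
  refine ⟨hst, 𝔖', hA', ?_⟩
  have hvp : 𝔖.g2.vp = 𝔖'.g2.vp := by
    show T.src (𝔖.g2.c.e 𝔖.g2.m) = T.src (𝔖'.g2.c.e 𝔖'.g2.m)
    rw [hm]
    exact (hcc _).1.1
  have hvm : 𝔖.g2.vm = 𝔖'.g2.vm := (hcc 0).1.1
  have hfo : T.tgt 𝔖.g2.aOut = T.tgt 𝔖'.g2.aOut := by
    rw [pvtg_aOut_tgt, pvtg_aOut_tgt, hm]
    exact (hcc _).1.1
  have hfi : T.tgt 𝔖.g2.aIn = T.tgt 𝔖'.g2.aIn := by
    rw [pvtg_aIn_tgt, pvtg_aIn_tgt]
    exact (hcc 1).1.1
  have hb : ∀ x, mk x ∈ pvfvZone 𝔯 k → pvfvCol c k = c → pvspS c s x = true → pvspS c s' x = true := fun x hx e h1 => by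
    rw [pvfv_S_true] at h1 ⊢
    have := hup x hx (by rw [e]; exact h1)
    rwa [e] at this
  have hw : ∀ x, mk x ∈ pvfvZone 𝔯 k → pvfvCol c k = (!c) → pvspS c s x = false → pvspS c s' x = false := fun x hx e h1 => by
    rw [pvfv_S_false] at h1 ⊢
    have := hup x hx (by rw [e]; exact h1)
    rwa [e] at this
  cases k
  · trivial
  · exact (PvspPath.recolor hs fun x hx => hb x hx rfl).mono (by rw [hvp]) Subset.rfl Subset.rfl
  · exact (PvspPath.recolor hs fun x hx => hw x hx rfl).mono (by rw [hfo]) Subset.rfl Subset.rfl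
  · exact (PvspPath.recolor hs fun x hx => hb x hx rfl).mono (by rw [hvm]) Subset.rfl Subset.rfl
  · exact (PvspPath.recolor hs fun x hx => hw x hx rfl).mono (by rw [hfi]) Subset.rfl Subset.rfl

end levelA

/-! ## 2. LEVEL B: configurations with the same sites -/

section levelB

variable {N : PvspNum} {t : PvspTy} {z : ℂ} {h : ℝ}

/-- finiteness in a window only depends on the sites -/
theorem pvfv_fin {E : Set ℂ} {η η' : Conf PvPt} (hY : cfSites η' = cfSites η) (hf : PvtnFin E η) : PvtnFin E η' := by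
  have h1 : (Prod.fst '' (η.pts ∩ E ×ˢ (univ : Set Bool))).Finite := hf.image _
  have h2 : ((Prod.fst '' (η.pts ∩ E ×ˢ (univ : Set Bool))) ×ˢ (univ : Set Bool)).Finite := h1.prod finite_univ
  refine h2.subset ?_
  rintro p ⟨hp, hpE⟩
  have h3 : p.1 ∈ cfSites η := by rw [← hY]; exact ⟨p, hp, rfl⟩
  obtain ⟨q, hq, e⟩ := h3
  exact ⟨⟨q, ⟨hq, ⟨by rw [e]; exact hpE.1, mem_univ _⟩⟩, e⟩, mem_univ _⟩

/-- the predicate in the Delaunay plane, as a function of the site set and of the colouring of the plane -/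
theorem pvfv_plane_mono (hW : t.Wf N z h) (k : PvspKind) {Y : Set ℂ} (hY : DelGood Y) (hm : PvtrMesh (N.mu * h) (pvspO N t z h) Y) {κ₁ κ₂ : ℂ → Bool}
    (hO : ∀ a ∈ pvspO N t z h, κ₂ a = κ₁ a)
    (hup : ∀ a ∈ pvfvZone (t.reg N z h) k, a ∈ Y → κ₁ a = pvfvCol t.col k → κ₂ a = pvfvCol t.col k)
    (hp : PvspPred (t.reg N z h) t.col k _ _ (delbPlane.T Y) (delbPlane.pos Y) (fun v => Sum.elim κ₁ Empty.elim (delbPlane.lab Y v))) :
    PvspPred (t.reg N z h) t.col k _ _ (delbPlane.T Y) (delbPlane.pos Y) (fun v => Sum.elim κ₂ Empty.elim (delbPlane.lab Y v)) := by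
  refine pvfv_pred_mono hW.nest t.col k (delb_plane_ok hY).simple ?_ ?_ hp
  · intro d hd
    have hret := pvtr_of_mesh_vertex hW.rho0 hm (hW.S2_core hd) (delb_plane_face d)
    exact ⟨hO _ hret.mem_a.2, hO _ hret.mem_b.2, hO _ hret.mem_c.2⟩
  · intro x hx
    exact hup _ hx x.2

/-- **MONOTONICITY OF THE FIVE EVENTS** (general position): same sites, same colours in `O`, the colour of the side path is kept in its tube -/
theorem pvfv_evt_mono (hW : t.Wf N z h) (k : PvspKind) {η η' : Conf PvPt} (hY : cfSites η' = cfSites η) (hη : DelGood (cfSites η))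
    (hO : ∀ a ∈ pvspO N t z h, cfCol η' a = cfCol η a)
    (hup : ∀ a ∈ pvfvZone (t.reg N z h) k, a ∈ cfSites η → cfCol η a = pvfvCol t.col k → cfCol η' a = pvfvCol t.col k)
    (he : η ∈ pvspEvt N t z h k) : η' ∈ pvspEvt N t z h k := by
  obtain ⟨hf, hm, hp⟩ := (pvsp_evt_plane hW k hη).1 he
  have hη' : DelGood (cfSites η') := by rw [hY]; exact hη
  refine (pvsp_evt_plane hW k hη').2 ⟨pvfv_fin hY hf, by rw [hY]; exact hm, ?_⟩
  have h1 := pvfv_plane_mono hW k hη (pvsp_mesh_mono (hW.O_sub_win k) hf hm).2 hO hup hp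
  show PvspPred (t.reg N z h) t.col k _ _ (delbPlane.T (cfSites η')) (delbPlane.pos (cfSites η')) (fun v => Sum.elim (cfCol η') Empty.elim (delbPlane.lab (cfSites η') v))
  rw [hY]
  exact h1

end levelB

/-! ## 3. splices of a frozen state with a sample -/

section splice

variable {F : Set ℂ} {σ η : Conf PvPt} {g : PvGeoT} {c c' : PvColT}

theorem pvfv_mem_spl {p : PvPt} : p ∈ (Conf.spl (F ×ˢ (univ : Set Bool)) (σ, η)).pts ↔ (p ∈ σ.pts ∧ p.1 ∈ F) ∨ (p ∈ η.pts ∧ p.1 ∉ F) := by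
  simp only [Conf.spl, Conf.union, Conf.restr, mem_union, mem_inter_iff, mem_prod, mem_univ, and_true, mem_compl_iff]

/-- the sites of a splice -/
theorem pvfv_sites_spl (F : Set ℂ) (σ η : Conf PvPt) : cfSites (Conf.spl (F ×ˢ (univ : Set Bool)) (σ, η)) = cfSites σ ∩ F ∪ cfSites η \ F := by
  ext a
  constructor
  · rintro ⟨p, hp, rfl⟩
    rcases pvfv_mem_spl.1 hp with h | h
    · exact Or.inl ⟨⟨p, h.1, rfl⟩, h.2⟩
    · exact Or.inr ⟨⟨p, h.1, rfl⟩, h.2⟩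
  · rintro (⟨⟨p, hp, rfl⟩, h⟩ | ⟨⟨p, hp, rfl⟩, h⟩)
    · exact ⟨p, pvfv_mem_spl.2 (Or.inl ⟨hp, h⟩), rfl⟩
    · exact ⟨p, pvfv_mem_spl.2 (Or.inr ⟨hp, h⟩), rfl⟩

/-- the sites of a splice with a sample do not depend on the colours -/
theorem pvfv_sites_blind (F : Set ℂ) (σ : Conf PvPt) (g : PvGeoT) (c c' : PvColT) :
    cfSites (Conf.spl (F ×ˢ (univ : Set Bool)) (σ, pvConf (pvMerge (g, c')))) = cfSites (Conf.spl (F ×ˢ (univ : Set Bool)) (σ, pvConf (pvMerge (g, c)))) := by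
  rw [pvfv_sites_spl, pvfv_sites_spl, pvqu_cfSites, pvqu_cfSites]

/-- in the frozen region the colours are those of the state -/
theorem pvfv_col_in {a : ℂ} (ha : a ∈ F) (σ η : Conf PvPt) : cfCol (Conf.spl (F ×ˢ (univ : Set Bool)) (σ, η)) a = cfCol σ a := by
  unfold cfCol
  refine decide_eq_decide.2 ?_
  rw [pvfv_mem_spl]
  exact ⟨fun h => h.elim (fun h => h.1) fun h => absurd ha h.2, fun h => Or.inl ⟨h, ha⟩⟩

/-- off the frozen region the colours are those of the sample -/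
theorem pvfv_col_out {a : ℂ} (ha : a ∉ F) (σ η : Conf PvPt) : cfCol (Conf.spl (F ×ˢ (univ : Set Bool)) (σ, η)) a = cfCol η a := by
  unfold cfCol
  refine decide_eq_decide.2 ?_
  rw [pvfv_mem_spl]
  exact ⟨fun h => h.elim (fun h => absurd h.2 ha) fun h => h.1, fun h => Or.inr ⟨h, ha⟩⟩

/-- at a good geometry the colour of a site is the bit of its index -/
theorem pvfv_col_site (hg : PvgOk g) {i : PvIx} (hi : i ∈ pvgAct g) (c : PvColT) : cfCol (pvConf (pvMerge (g, c))) (pvgSite g i) = c i := by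
  unfold cfCol
  cases hc : c i
  · rw [decide_eq_false_iff_not]
    intro h
    have := (hg.col_iff hi c true).1 h
    rw [hc] at this
    exact Bool.false_ne_true this
  · simp only [decide_eq_true_eq]
    exact (hg.col_iff hi c true).2 hc

/-- the mixed order in words: the colour `b` of the rim is kept on `K₁` -/
theorem pvfv_le_K1 {b : Bool} {K₁ K₂ : Set ℂ} (hd : Disjoint K₁ K₂) (h : pvhkLe (pvfpSg g b K₁ K₂) c c') {i : PvIx} (hi : pvgSite g i ∈ K₁) (hc : c i = b) : c' i = b := by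
  have hi2 : pvgSite g i ∉ K₂ := fun h2 => Set.disjoint_left.1 hd hi h2
  cases b
  · have h1 := (h i).2 (by simp [pvfpSg, pvhkSg, hi, hi2])
    rw [hc] at h1
    exact le_bot_iff.1 h1
  · have h1 := (h i).1 (by simp [pvfpSg, pvhkSg, hi])
    rw [hc] at h1
    exact top_le_iff.1 h1

/-- the mixed order in words: the other colour is kept on `K₂` -/
theorem pvfv_le_K2 {b : Bool} {K₁ K₂ : Set ℂ} (hd : Disjoint K₁ K₂) (h : pvhkLe (pvfpSg g b K₁ K₂) c c') {i : PvIx} (hi : pvgSite g i ∈ K₂) (hc : c i = !b) : c' i = !b := by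
  have hi1 : pvgSite g i ∉ K₁ := fun h1 => Set.disjoint_left.1 hd h1 hi
  cases b
  · have h1 := (h i).1 (by simp [pvfpSg, pvhkSg, hi])
    rw [hc] at h1
    exact top_le_iff.1 h1
  · have h1 := (h i).2 (by simp [pvfpSg, pvhkSg, hi, hi1])
    rw [hc] at h1
    exact le_bot_iff.1 h1

end splice

/-! ## 4. UP-NESS -/

/-- the zone of the mixed order in which the colour of the side path number `k` is up -/
def pvfvK (K₁ K₂ : Set ℂ) : PvspKind → Set ℂ
  | .has => ∅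
  | .pb => K₁
  | .pw => K₂
  | .mb => K₁
  | .mw => K₂

theorem pvfv_eqns_cite2 : True := by
  have := @pvfvK.eq_1
  trivial

section up

variable {N : PvspNum} {t : PvspTy} {z : ℂ} {h : ℝ} {F K₁ K₂ : Set ℂ} {σ : Conf PvPt} {g : PvGeoT}

/-- the mixed order keeps the colour of the side path number `k` in its zone -/
theorem pvfv_le_K {b : Bool} (hd : Disjoint K₁ K₂) {c c' : PvColT} (hc : pvhkLe (pvfpSg g b K₁ K₂) c c') (k : PvspKind) {i : PvIx} (hi : pvgSite g i ∈ pvfvK K₁ K₂ k)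
    (e : c i = pvfvCol b k) : c' i = pvfvCol b k := by
  cases k
  · exact absurd hi (notMem_empty _)
  · exact pvfv_le_K1 hd hc hi e
  · exact pvfv_le_K2 hd hc hi e
  · exact pvfv_le_K1 hd hc hi e
  · exact pvfv_le_K2 hd hc hi e

/-- **UP-NESS OF THE FIVE EVENTS AT A FROZEN STATE** (one good geometry; `F ⊇ O` = the frozen region) -/
theorem pvfv_evt_up (hW : t.Wf N z h) (k : PvspKind) (hd : Disjoint K₁ K₂) (hF : pvspO N t z h ⊆ F) (hz : pvfvZone (t.reg N z h) k ⊆ F ∪ pvfvK K₁ K₂ k) (hg : PvgOk g)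
    (hgood : ∀ c, DelGood (cfSites (Conf.spl (F ×ˢ (univ : Set Bool)) (σ, pvConf (pvMerge (g, c)))))) :
    PvhkUpAt g (pvfpSg g t.col K₁ K₂) (pvhkSec (F ×ˢ univ) σ (pvspEvt N t z h k)) := by
  intro c c' hc he
  refine pvfv_evt_mono hW k (pvfv_sites_blind F σ g c c') (hgood c) ?_ ?_ he
  · intro a ha
    rw [pvfv_col_in (hF ha), pvfv_col_in (hF ha)]
  · intro a ha haY
    by_cases haF : a ∈ F
    · rw [pvfv_col_in haF, pvfv_col_in haF]
      exact id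
    · rw [pvfv_col_out haF, pvfv_col_out haF]
      have haK : a ∈ pvfvK K₁ K₂ k := (hz ha).resolve_left haF
      rw [pvfv_sites_spl, pvqu_cfSites] at haY
      obtain ⟨i, hi, rfl⟩ : a ∈ pvgSites g := haY.elim (fun h => absurd h.2 haF) fun h => h.1
      rw [pvfv_col_site hg hi, pvfv_col_site hg hi]
      exact pvfv_le_K hd hc k haK

/-- the star zone of `S₂` lies in the region of the state -/
theorem pvfv_S2_sub_O (hW : t.Wf N z h) : t.reg N z h .S2 ⊆ pvspO N t z h :=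
  hW.S2_core.trans (pvtr_core_subset (by have := hW.rho0; positivity))

/-- THE FOOT (P13): the room of the white exit path = lane + FROZEN foot room -/
theorem pvfv_room_p (hW : t.Wf N z h) (hF : pvspO N t z h ⊆ F) (hMp : t.Mp ⊆ F ∪ K₂) : t.reg N z h .Mp ⊆ F ∪ K₂ :=
  union_subset hMp (inter_subset_right.trans ((pvfv_S2_sub_O hW).trans (hF.trans subset_union_left)))

/-- THE FOOT (P13): the room of the white entrance path -/
theorem pvfv_room_m (hW : t.Wf N z h) (hF : pvspO N t z h ⊆ F) (hMm : t.Mm ⊆ F ∪ K₂) : t.reg N z h .Mm ⊆ F ∪ K₂ :=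
  union_subset hMm (inter_subset_right.trans ((pvfv_S2_sub_O hW).trans (hF.trans subset_union_left)))

/-- **`L⁺` IS UP** (one good geometry) -/
theorem pvfv_Lp_up (hW : t.Wf N z h) (hd : Disjoint K₁ K₂) (hF : pvspO N t z h ⊆ F) (hNp : t.Np ⊆ F ∪ K₁) (hMp : t.Mp ⊆ F ∪ K₂) (hg : PvgOk g)
    (hgood : ∀ c, DelGood (cfSites (Conf.spl (F ×ˢ (univ : Set Bool)) (σ, pvConf (pvMerge (g, c)))))) :
    PvhkUpAt g (pvfpSg g t.col K₁ K₂) (pvhkSec (F ×ˢ univ) σ (pvspLp N t z h)) := by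
  unfold pvspLp
  rw [pvhk_sec_inter]
  exact (pvfv_evt_up hW .pb hd hF hNp hg hgood).inter (pvfv_evt_up hW .pw hd hF (pvfv_room_p hW hF hMp) hg hgood)

/-- **`L⁻` IS UP** (one good geometry) -/
theorem pvfv_Lm_up (hW : t.Wf N z h) (hd : Disjoint K₁ K₂) (hF : pvspO N t z h ⊆ F) (hNm : t.Nm ⊆ F ∪ K₁) (hMm : t.Mm ⊆ F ∪ K₂) (hg : PvgOk g)
    (hgood : ∀ c, DelGood (cfSites (Conf.spl (F ×ˢ (univ : Set Bool)) (σ, pvConf (pvMerge (g, c)))))) :
    PvhkUpAt g (pvfpSg g t.col K₁ K₂) (pvhkSec (F ×ˢ univ) σ (pvspLm N t z h)) := by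
  unfold pvspLm
  rw [pvhk_sec_inter]
  exact (pvfv_evt_up hW .mb hd hF hNm hg hgood).inter (pvfv_evt_up hW .mw hd hF (pvfv_room_m hW hF hMm) hg hgood)

/-- a REGULAR state: at almost every geometry all the splices are in general position -/
theorem pvfv_good_ae (ε : ℝ) (F : Set ℂ) {σ : Conf PvPt} (hσ : ∀ᵐ η ∂(pvP ε), DelGood (cfSites (Conf.spl (F ×ˢ (univ : Set Bool)) (σ, η)))) :
    ∀ᵐ g ∂(pvGeo ε), ∀ c, DelGood (cfSites (Conf.spl (F ×ˢ (univ : Set Bool)) (σ, pvConf (pvMerge (g, c))))) := by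
  have h1 : ∀ᵐ ω ∂(pvLaw ε), DelGood (cfSites (Conf.spl (F ×ˢ (univ : Set Bool)) (σ, pvConf ω))) := ae_of_ae_map measurable_pvConf.aemeasurable hσ
  filter_upwards [pvqu_ae ε h1] with g hg c
  obtain ⟨c0, hc0⟩ := hg.exists
  rw [pvfv_sites_blind F σ g c0 c]
  exact hc0

/-- **`L⁺` IS UP at almost every geometry, the state being regular** (shape asked by 272) -/
theorem pvfv_Lp_up_ae (hW : t.Wf N z h) (hd : Disjoint K₁ K₂) (hF : pvspO N t z h ⊆ F) (hNp : t.Np ⊆ F ∪ K₁) (hMp : t.Mp ⊆ F ∪ K₂) (ε : ℝ)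
    (hσ : ∀ᵐ η ∂(pvP ε), DelGood (cfSites (Conf.spl (F ×ˢ (univ : Set Bool)) (σ, η)))) :
    ∀ᵐ g ∂(pvGeo ε), PvhkUpAt g (pvfpSg g t.col K₁ K₂) (pvhkSec (F ×ˢ univ) σ (pvspLp N t z h)) := by
  filter_upwards [pvqu_ok_ae ε, pvfv_good_ae ε F hσ] with g hg hgood
  exact pvfv_Lp_up hW hd hF hNp hMp hg hgood

/-- **`L⁻` IS UP at almost every geometry, the state being regular** -/
theorem pvfv_Lm_up_ae (hW : t.Wf N z h) (hd : Disjoint K₁ K₂) (hF : pvspO N t z h ⊆ F) (hNm : t.Nm ⊆ F ∪ K₁) (hMm : t.Mm ⊆ F ∪ K₂) (ε : ℝ)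
    (hσ : ∀ᵐ η ∂(pvP ε), DelGood (cfSites (Conf.spl (F ×ˢ (univ : Set Bool)) (σ, η)))) :
    ∀ᵐ g ∂(pvGeo ε), PvhkUpAt g (pvfpSg g t.col K₁ K₂) (pvhkSec (F ×ˢ univ) σ (pvspLm N t z h)) := by
  filter_upwards [pvqu_ok_ae ε, pvfv_good_ae ε F hσ] with g hg hgood
  exact pvfv_Lm_up hW hd hF hNm hMm hg hgood

end up

/-! ## 5. side paths in the continuum form -/

section cont

variable {Y E A U : Set ℂ} {ρ : ℝ}

theorem pvfv_self_cell (Y : Set ℂ) (a : ℂ) : a ∈ vorCell Y a := fun u _ => by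
  rw [sub_self, norm_zero]
  exact norm_nonneg _

/-- the two ends of a retained Delaunay edge are joined in the union of their two cells, within `ρ` of the two ends -/
theorem pvfv_edge_joined {a b c : ℂ} (hr : PvRet ρ E Y a b c) (ht : DelTri Y a b c) (ha : a ∈ A) (hb : b ∈ A) (hUa : closedBall a ρ ⊆ U) (hUb : closedBall b ρ ⊆ U) :
    JoinedIn (vorUn Y A ∩ U) a b := by
  have hρ : 0 ≤ ρ := (norm_nonneg _).trans hr.2.2.2.2.1
  have hOa : delO a b c ∈ closedBall a ρ := by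
    rw [mem_closedBall, dist_eq_norm]
    exact hr.2.2.2.2.1
  have hOb : delO a b c ∈ closedBall b ρ := by
    rw [mem_closedBall, dist_eq_norm]
    exact (ht.O_mem_b a hr.mem_a.1).trans hr.2.2.2.2.1
  have h1 : JoinedIn (vorUn Y A ∩ U) a (delO a b c) := by
    refine JoinedIn.of_segment_subset ((((vor_convex_cell Y a).inter (convex_closedBall a ρ)).segment_subset
      ⟨pvfv_self_cell Y a, mem_closedBall_self hρ⟩ ⟨ht.O_mem_a, hOa⟩).trans ?_)
    exact fun w hw => ⟨⟨a, ha, hw.1⟩, hUa hw.2⟩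
  have h2 : JoinedIn (vorUn Y A ∩ U) (delO a b c) b := by
    refine JoinedIn.of_segment_subset ((((vor_convex_cell Y b).inter (convex_closedBall b ρ)).segment_subset
      ⟨ht.O_mem_b, hOb⟩ ⟨pvfv_self_cell Y b, mem_closedBall_self hρ⟩).trans ?_)
    exact fun w hw => ⟨⟨b, hb, hw.1⟩, hUb hw.2⟩
  exact h1.trans h2

/-- **a path of the Delaunay plane through sites of `A` placed in `Nn` (deep in the window) is a path of the continuum** in the union of the cells of `A`, within `ρ` of `Nn` -/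
theorem pvfv_pth_joined (hρ : 0 < ρ) (hm : PvtrMesh ρ E Y) {Nn : Set ℂ} (hN : Nn ⊆ pvtrCore (3 * ρ) E) (q : (delbPlane.T Y).Pth)
    (hq : ∀ x ∈ q.verts, delbPlane.pos Y x ∈ A ∧ delbPlane.pos Y x ∈ Nn) :
    JoinedIn (vorUn Y A ∩ cthickening ρ Nn) (delbPlane.pos Y (q.v 0)) (delbPlane.pos Y (q.v q.n)) := by
  have hball : ∀ a ∈ Nn, closedBall a ρ ⊆ cthickening ρ Nn := fun a ha => closedBall_subset_cthickening ha ρ
  have key : ∀ i, i ≤ q.n → JoinedIn (vorUn Y A ∩ cthickening ρ Nn) (delbPlane.pos Y (q.v 0)) (delbPlane.pos Y (q.v i)) := by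
    intro i
    induction i with
    | zero =>
      intro _
      have h0 := hq (q.v 0) ⟨0, Nat.zero_le _, rfl⟩
      exact JoinedIn.refl ⟨⟨_, h0.1, pvfv_self_cell Y _⟩, hball _ h0.2 (mem_closedBall_self hρ.le)⟩
    | succ i ih =>
      intro hi
      have h1 := hq (q.v i) ⟨i, by omega, rfl⟩
      have h2 := hq (q.v (i + 1)) ⟨i + 1, hi, rfl⟩
      have ht := delb_plane_face (q.e i)
      have e1 : (delbPl Y).toMap.src (q.e i) = q.v i := q.src_e i (by omega)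
      have e2 : (delbPl Y).toMap.tgt (q.e i) = q.v (i + 1) := q.tgt_e i (by omega)
      rw [e1, e2] at ht
      have hr := pvtr_of_mesh_vertex hρ hm (hN h1.2) ht
      exact (ih (by omega)).trans (pvfv_edge_joined hr ht h1.1 h2.1 (hball _ h1.2) (hball _ h2.2))
  exact key q.n le_rfl

/-- the region of the colour `c` of a nice configuration -/
theorem pvfv_reg_eq {η : Conf PvPt} (hn : CfOK η) (c : Bool) : pvlnReg c η = vorUn (cfSites η) {v | v ∈ cfSites η ∧ cfCol η v = c} := by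
  conv_lhs => rw [pvnk_cfOf hn]
  exact pvkq_reg_eq hn.del.lf _ c

end cont

/-! ## 6. THE TWO ENDS OF A BIG PLUG (`PvnkEnd` of 272) -/

/-- the states of the configuration `η` at the candidate, in the Delaunay plane (at most one up to what is read of it: `pvsp_at_unique`) -/
def pvfvSt (N : PvspNum) (t : PvspTy) (z : ℂ) (h : ℝ) (η : Conf PvPt) : Set (PvspSt (delbPlane.T (cfSites η)) (pvspS t.col (delbPlane.col η Empty.elim))) :=
  {𝔖 | 𝔖.At (delbPlane.pos (cfSites η)) (t.reg N z h)}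

/-- the site `v₂⁺` -/
def pvfvVp (N : PvspNum) (t : PvspTy) (z : ℂ) (h : ℝ) (η : Conf PvPt) : Set ℂ := {x | ∃ 𝔖 ∈ pvfvSt N t z h η, x = delbPlane.pos (cfSites η) 𝔖.g2.vp}

/-- the site `v₂⁻` -/
def pvfvVm (N : PvspNum) (t : PvspTy) (z : ℂ) (h : ℝ) (η : Conf PvPt) : Set ℂ := {x | ∃ 𝔖 ∈ pvfvSt N t z h η, x = delbPlane.pos (cfSites η) 𝔖.g2.vm}

/-- the sites of the right arc of the gate `S₂` -/
def pvfvR (N : PvspNum) (t : PvspTy) (z : ℂ) (h : ℝ) (η : Conf PvPt) : Set ℂ := {x | ∃ 𝔖 ∈ pvfvSt N t z h η, ∃ v ∈ 𝔖.g2.R, x = delbPlane.pos (cfSites η) v}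

/-- THE FOOT (P13): the exit foot of `S₂` = the last site of its right arc, beside `v₂⁺` -/
def pvfvFp (N : PvspNum) (t : PvspTy) (z : ℂ) (h : ℝ) (η : Conf PvPt) : Set ℂ :=
  {x | ∃ 𝔖 ∈ pvfvSt N t z h η, x = delbPlane.pos (cfSites η) ((delbPlane.T (cfSites η)).tgt 𝔖.g2.aOut)}

/-- THE FOOT (P13): the entrance foot of `S₂` = the first site of its right arc, beside `v₂⁻` -/
def pvfvFm (N : PvspNum) (t : PvspTy) (z : ℂ) (h : ℝ) (η : Conf PvPt) : Set ℂ :=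
  {x | ∃ 𝔖 ∈ pvfvSt N t z h η, x = delbPlane.pos (cfSites η) ((delbPlane.T (cfSites η)).tgt 𝔖.g2.aIn)}

/-- **the EXIT end of the big plug** -/
noncomputable def pvfvEndP (N : PvspNum) (t : PvspTy) (z : ℂ) (h : ℝ) : PvnkEnd where
  O := pvspO N t z h
  E := t.Ep
  L := pvspLp N t z h
  c := t.col
  A₁ := cthickening (N.mu * h) t.Np
  A₂ := cthickening (N.mu * h) (t.reg N z h .Mp)
  X₁ := t.Np ∩ t.reg N z h .S2
  X₂ := t.reg N z h .Mp ∩ t.reg N z h .S2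
  Y₁ := t.Dp ∩ t.Np
  Y₂ := t.Dp ∩ t.reg N z h .Mp
  S₁ := pvfvVp N t z h
  S₂ := pvfvFp N t z h

/-- **the ENTRANCE end of the big plug** -/
noncomputable def pvfvEndM (N : PvspNum) (t : PvspTy) (z : ℂ) (h : ℝ) : PvnkEnd where
  O := pvspO N t z h
  E := t.Em
  L := pvspLm N t z h
  c := t.col
  A₁ := cthickening (N.mu * h) t.Nm
  A₂ := cthickening (N.mu * h) (t.reg N z h .Mm)
  X₁ := t.Nm ∩ t.reg N z h .S2
  X₂ := t.reg N z h .Mm ∩ t.reg N z h .S2
  Y₁ := t.Dm ∩ t.Nm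
  Y₂ := t.Dm ∩ t.reg N z h .Mm
  S₁ := pvfvVm N t z h
  S₂ := pvfvFm N t z h

theorem pvfv_eqns_cite3 : True := by
  have := @pvfvSt.eq_1; have := @pvfvVp.eq_1; have := @pvfvVm.eq_1; have := @pvfvR.eq_1; have := @pvfvFp.eq_1; have := @pvfvFm.eq_1; have := @pvfvEndP.eq_1; have := @pvfvEndM.eq_1
  trivial

section ends

variable {N : PvspNum} {t : PvspTy} {z : ℂ} {h : ℝ} {K₁ K₂ : Set ℂ} {σ : Conf PvPt}

/-- a regular state of 272 is regular in the sense of sec. 4 -/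
theorem pvfv_rg {ε : ℝ} {O : Set ℂ} (hσ : σ ∈ pvnkRg ε O) : ∀ᵐ η ∂(pvP ε), DelGood (cfSites (Conf.spl (O ×ˢ (univ : Set Bool)) (σ, η))) := by
  have h1 : ∀ᵐ η ∂(pvP ε), CfOK (Conf.spl (O ×ˢ univ) (σ, η)) := hσ
  filter_upwards [h1] with η hη
  exact hη.del

/-- **`PvnkEnd.Up` for the exit end, at every regular state** -/
theorem pvfv_endP_up (hW : t.Wf N z h) (hd : Disjoint K₁ K₂) (hNp : t.Np ⊆ pvspO N t z h ∪ K₁) (hMp : t.Mp ⊆ pvspO N t z h ∪ K₂) {ε : ℝ}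
    (hσ : σ ∈ pvnkRg ε (pvspO N t z h)) : (pvfvEndP N t z h).Up ε K₁ K₂ σ :=
  pvfv_Lp_up_ae hW hd Subset.rfl hNp hMp ε (pvfv_rg hσ)

/-- **`PvnkEnd.Up` for the entrance end, at every regular state** -/
theorem pvfv_endM_up (hW : t.Wf N z h) (hd : Disjoint K₁ K₂) (hNm : t.Nm ⊆ pvspO N t z h ∪ K₁) (hMm : t.Mm ⊆ pvspO N t z h ∪ K₂) {ε : ℝ}
    (hσ : σ ∈ pvnkRg ε (pvspO N t z h)) : (pvfvEndM N t z h).Up ε K₁ K₂ σ :=
  pvfv_Lm_up_ae hW hd Subset.rfl hNm hMm ε (pvfv_rg hσ)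

/-- up-ness at almost every state (the hypothesis of `pvnk_A_ae`) -/
theorem pvfv_endP_up_ae (hW : t.Wf N z h) (hd : Disjoint K₁ K₂) (hNp : t.Np ⊆ pvspO N t z h ∪ K₁) (hMp : t.Mp ⊆ pvspO N t z h ∪ K₂) {ε : ℝ} (hε : 0 < ε) :
    ∀ᵐ σ ∂(pvP ε), (pvfvEndP N t z h).Up ε K₁ K₂ σ := by
  filter_upwards [pvnk_rg_full hε (measurableSet_closedBall : MeasurableSet (pvspO N t z h))] with σ hσ
  exact pvfv_endP_up hW hd hNp hMp hσ

theorem pvfv_endM_up_ae (hW : t.Wf N z h) (hd : Disjoint K₁ K₂) (hNm : t.Nm ⊆ pvspO N t z h ∪ K₁) (hMm : t.Mm ⊆ pvspO N t z h ∪ K₂) {ε : ℝ} (hε : 0 < ε) :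
    ∀ᵐ σ ∂(pvP ε), (pvfvEndM N t z h).Up ε K₁ K₂ σ := by
  filter_upwards [pvnk_rg_full hε (measurableSet_closedBall : MeasurableSet (pvspO N t z h))] with σ hσ
  exact pvfv_endM_up hW hd hNm hMm hσ

/-- the vertices of the gate `S₂` of a state are placed in the star zone -/
theorem pvfv_gate_S2 {V D : Type} {T : PvMap V D} {s : V → Bool} {mk : V → ℂ} {𝔯 : PvspReg ℂ} (hN : 𝔯.Nest) (hst : PvplStar T mk (fun x => x ∈ 𝔯 .O2) (𝔯 .S2))
    {𝔖 : PvspSt T s} (hA : 𝔖.At mk 𝔯) (i : ℕ) : mk (T.src (𝔖.g2.c.e i)) ∈ 𝔯 .S2 :=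
  (pvsp_zone hst (fun k hk => hN.2.2.2 hk) (hA.sel2.outer (hA.sel2.on i))).1

/-- **a side path in the continuum form** -/
theorem pvfv_side_joined (hW : t.Wf N z h) (k : PvspKind) {η : Conf PvPt} (hn : CfOK η) (hm : PvtrMesh (N.mu * h) (t.win N z h k) (cfSites η)) {b : Bool} {Nn Dr : Set ℂ}
    (hNn : Nn ⊆ pvtrCore (3 * (N.mu * h)) (t.win N z h k)) {Aa : Set (delbPlane.V (cfSites η))}
    (hp : PvspPath (delbPlane.T (cfSites η)) (delbPlane.pos (cfSites η)) (pvspS t.col (delbPlane.col η Empty.elim)) b Aa Nn Dr) :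
    ∃ v ∈ Aa, ∃ y ∈ Dr ∩ Nn, delbPlane.pos (cfSites η) v ∈ Nn ∧
      JoinedIn (pvlnReg (cond b t.col (!t.col)) η ∩ cthickening (N.mu * h) Nn) (delbPlane.pos (cfSites η) v) y := by
  obtain ⟨q, h1, h2, h3⟩ := hp
  refine ⟨q.v 0, h1, _, ⟨h2, (h3 _ ⟨q.n, le_rfl, rfl⟩).2⟩, (h3 _ ⟨0, Nat.zero_le _, rfl⟩).2, ?_⟩
  rw [pvfv_reg_eq hn]
  refine pvfv_pth_joined hW.rho0 hm hNn q fun x hx => ⟨⟨x.2, ?_⟩, (h3 x hx).2⟩
  have h4 := (h3 x hx).1
  cases b
  · exact pvfv_S_false.1 h4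
  · exact pvfv_S_true.1 h4

/-- **`PvnkEnd.Ok` for the exit end** -/
theorem pvfv_endP_ok (hW : t.Wf N z h) : (pvfvEndP N t z h).Ok where
  mO := measurableSet_closedBall
  mE := hW.wEp.1
  mL := pvsp_Lp_meas hW
  rL := pvsp_Lp_reads hW
  path₁ := by
    intro η hη hn
    obtain ⟨-, hm, hst, 𝔖, hA, hs⟩ := (pvsp_evt_plane hW .pb hn.del).1 hη.1
    obtain ⟨v, rfl, y, hy, hv, hj⟩ := pvfv_side_joined hW .pb hn hm (subset_union_left.trans hW.core_p) hs
    exact ⟨_, ⟨𝔖, hA, rfl⟩, y, hy, ⟨hv, pvfv_gate_S2 hW.nest hst hA _⟩, hj⟩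
  path₂ := by
    intro η hη hn
    obtain ⟨-, hm, hst, 𝔖, hA, hs⟩ := (pvsp_evt_plane hW .pw hn.del).1 hη.2
    obtain ⟨v, rfl, y, hy, hv, hj⟩ := pvfv_side_joined hW .pw hn hm (subset_union_right.trans (hW.K_core .pw)) hs
    refine ⟨_, ⟨𝔖, hA, rfl⟩, y, hy, ⟨hv, ?_⟩, hj⟩
    rw [pvtg_aOut_tgt]
    exact pvfv_gate_S2 hW.nest hst hA _

/-- **`PvnkEnd.Ok` for the entrance end** -/
theorem pvfv_endM_ok (hW : t.Wf N z h) : (pvfvEndM N t z h).Ok where
  mO := measurableSet_closedBall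
  mE := hW.wEm.1
  mL := pvsp_Lm_meas hW
  rL := pvsp_Lm_reads hW
  path₁ := by
    intro η hη hn
    obtain ⟨-, hm, hst, 𝔖, hA, hs⟩ := (pvsp_evt_plane hW .mb hn.del).1 hη.1
    obtain ⟨v, rfl, y, hy, hv, hj⟩ := pvfv_side_joined hW .mb hn hm (subset_union_left.trans hW.core_m) hs
    exact ⟨_, ⟨𝔖, hA, rfl⟩, y, hy, ⟨hv, pvfv_gate_S2 hW.nest hst hA _⟩, hj⟩
  path₂ := by
    intro η hη hn
    obtain ⟨-, hm, hst, 𝔖, hA, hs⟩ := (pvsp_evt_plane hW .mw hn.del).1 hη.2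
    obtain ⟨v, rfl, y, hy, hv, hj⟩ := pvfv_side_joined hW .mw hn hm (subset_union_right.trans (hW.K_core .mw)) hs
    refine ⟨_, ⟨𝔖, hA, rfl⟩, y, hy, ⟨hv, ?_⟩, hj⟩
    rw [pvtg_aIn_tgt]
    exact pvfv_gate_S2 hW.nest hst hA _

/-- the feet are sites of the right arc -/
theorem pvfv_Fp_sub_R (N : PvspNum) (t : PvspTy) (z : ℂ) (h : ℝ) (η : Conf PvPt) : pvfvFp N t z h η ⊆ pvfvR N t z h η := by
  rintro x ⟨𝔖, hA, rfl⟩
  exact ⟨𝔖, hA, _, pvtg_aOut_tgt_R _, rfl⟩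

theorem pvfv_Fm_sub_R (N : PvspNum) (t : PvspTy) (z : ℂ) (h : ℝ) (η : Conf PvPt) : pvfvFm N t z h η ⊆ pvfvR N t z h η := by
  rintro x ⟨𝔖, hA, rfl⟩
  exact ⟨𝔖, hA, _, pvtg_aIn_tgt_R _, rfl⟩

/-- the starting points are sites (hypothesis `hs` of `pvnk_link_join`) -/
theorem pvfv_start_sites (N : PvspNum) (t : PvspTy) (z : ℂ) (h : ℝ) (η : Conf PvPt) {x : ℂ} (hx : x ∈ pvfvVp N t z h η ∪ pvfvVm N t z h η ∪ pvfvR N t z h η) : x ∈ cfSites η := by
  rcases hx with (⟨𝔖, -, rfl⟩ | ⟨𝔖, -, rfl⟩) | ⟨𝔖, -, v, -, rfl⟩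
  · exact (𝔖.g2.vp : ↥(cfSites η)).2
  · exact (𝔖.g2.vm : ↥(cfSites η)).2
  · exact (v : ↥(cfSites η)).2

/-- the feet are sites -/
theorem pvfv_foot_sites (N : PvspNum) (t : PvspTy) (z : ℂ) (h : ℝ) (η : Conf PvPt) {x : ℂ} (hx : x ∈ pvfvFp N t z h η ∪ pvfvFm N t z h η) : x ∈ cfSites η :=
  pvfv_start_sites N t z h η (Or.inr (hx.elim (fun h1 => pvfv_Fp_sub_R N t z h η h1) fun h1 => pvfv_Fm_sub_R N t z h η h1))

end ends

end Claimed.Agent.R289
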