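import Claimed.Agent.R289.Tr.Poly

/-!
# Row 289 (S0537, Cardy for Poisson-Voronoi), unit TR (TR19 = WB3 FIT), Tr/Tower : THE TOWER OF FILLED NEIGHBOURHOODS      (owner helper206; prefix `pvtw_`, defs `pvtw*`)

Vocabulary of `Tr/Poly` (39): cells `ℤ × ℤ`, `tscG`, `pvtOut`, `pvtHull`, `pvtLayO`, `pvtN8`, `pvtSq`, `pvtU`, `pvtCells`.

* §1 `pvtwN k E` = sup-norm `k`-neighbourhood (`pvtwN 1 = pvtN8`, semigroup law, finite, connected, boxes)
* §2 THE TOWER COLLAPSES: `pvtN8 (pvtHull S) ⊆ pvtHull S ∪ pvtN8 S`, so `K_j := fill (K_{j-1}^+) = pvtHull (pvtwN j E) =: pvtwK j E`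
* §3 LAYERS `pvtwL j E := pvtLayO (pvtwK j E) ⊆ pvtwN (j+1) E \ pvtwK j E`: connected, inside `K_{j+1}`, layers `i`, `j` with `i + 2 ≤ j` do not touch
     (the RING `K_{j+1} \ K_j` may contain a whole fjord, far from `E`: lanes are arcs of LAYERS)
* §4 CO-CONNECTED CUT: `HxFree K`, every cell of `X` joined to the outside inside `X ∪ Kᶜ`  ⟹  `HxFree (K \ X)`
* §5 plane ↔ cells: metric bridges, ESCAPE lemma
* §6 the PUSH map off a rectangle (a curve which hugs a plug is pushed off its `ρ`-neighbourhood)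
-/

set_option autoImplicit false
set_option linter.unusedSectionVars false
set_option linter.unusedVariables false
set_option linter.unusedSimpArgs false

namespace Claimed.Agent.R289

open Relation Claims.C0467 Claimed.Agent.R291

/-! ## §1 sup-norm neighbourhoods -/

/-- the sup-norm `k`-neighbourhood of a set of cells -/
def pvtwN (k : ℕ) (E : Set (ℤ × ℤ)) : Set (ℤ × ℤ) :=
  {w | ∃ z ∈ E, w.1 ≤ z.1 + k ∧ z.1 ≤ w.1 + k ∧ w.2 ≤ z.2 + k ∧ z.2 ≤ w.2 + k}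

section nbhd

variable {E E' S : Set (ℤ × ℤ)} {k k' i j : ℕ} {z w : ℤ × ℤ}

theorem pvtw_N_zero : pvtwN 0 E = E := by
  ext w
  constructor
  · rintro ⟨z, hz, h1, h2, h3, h4⟩
    have : w = z := Prod.ext (by push_cast at h1 h2; omega) (by push_cast at h3 h4; omega)
    rw [this]; exact hz
  · intro hw
    exact ⟨w, hw, by omega, by omega, by omega, by omega⟩

theorem pvtw_N_one : pvtwN 1 E = pvtN8 E := by
  ext w
  constructor
  · rintro ⟨z, hz, h1, h2, h3, h4⟩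
    push_cast at h1 h2 h3 h4
    by_cases e : w = z
    · exact ⟨z, hz, Or.inl e⟩
    · exact ⟨z, hz, Or.inr ⟨fun e' => e e'.symm, h1, h2, h3, h4⟩⟩
  · rintro ⟨z, hz, rfl | h⟩
    · exact ⟨w, hz, by omega, by omega, by omega, by omega⟩
    · obtain ⟨_, h1, h2, h3, h4⟩ := h
      exact ⟨z, hz, by push_cast; omega, by push_cast; omega, by push_cast; omega, by push_cast; omega⟩

theorem pvtw_N_mono (hk : k ≤ k') (hE : E ⊆ E') : pvtwN k E ⊆ pvtwN k' E' := by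
  rintro w ⟨z, hz, h1, h2, h3, h4⟩
  exact ⟨z, hE hz, by omega, by omega, by omega, by omega⟩

theorem pvtw_N_sub : E ⊆ pvtwN k E := fun w hw => ⟨w, hw, by omega, by omega, by omega, by omega⟩

theorem pvtw_N_union : pvtwN k (E ∪ E') = pvtwN k E ∪ pvtwN k E' := by
  ext w
  constructor
  · rintro ⟨z, hz | hz, h⟩
    · exact Or.inl ⟨z, hz, h⟩
    · exact Or.inr ⟨z, hz, h⟩
  · rintro (⟨z, hz, h⟩ | ⟨z, hz, h⟩)
    · exact ⟨z, Or.inl hz, h⟩
    · exact ⟨z, Or.inr hz, h⟩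

/-- one coordinate of the semigroup law -/
theorem pvtw_aux_mid (a b : ℕ) (x y : ℤ) (h1 : x ≤ y + (a + b : ℕ)) (h2 : y ≤ x + (a + b : ℕ)) :
    ∃ m : ℤ, x ≤ m + a ∧ m ≤ x + a ∧ m ≤ y + b ∧ y ≤ m + b := by
  push_cast at h1 h2
  by_cases c1 : y + b ≤ x
  · exact ⟨y + b, by omega, by omega, by omega, by omega⟩
  · by_cases c2 : x ≤ y - b
    · exact ⟨y - b, by omega, by omega, by omega, by omega⟩
    · exact ⟨x, by omega, by omega, by omega, by omega⟩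

/-- **semigroup law** -/
theorem pvtw_N_add : pvtwN i (pvtwN j E) = pvtwN (i + j) E := by
  ext w
  constructor
  · rintro ⟨m, ⟨z, hz, h1, h2, h3, h4⟩, k1, k2, k3, k4⟩
    exact ⟨z, hz, by push_cast; omega, by push_cast; omega, by push_cast; omega, by push_cast; omega⟩
  · rintro ⟨z, hz, h1, h2, h3, h4⟩
    obtain ⟨m1, a1, a2, a3, a4⟩ := pvtw_aux_mid i j w.1 z.1 h1 h2
    obtain ⟨m2, b1, b2, b3, b4⟩ := pvtw_aux_mid i j w.2 z.2 h3 h4
    exact ⟨(m1, m2), ⟨z, hz, a3, a4, b3, b4⟩, a1, a2, b1, b2⟩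

theorem pvtw_N_succ : pvtwN (k + 1) E = pvtN8 (pvtwN k E) := by
  rw [← pvtw_N_one, pvtw_N_add, add_comm]

theorem pvtw_N_finite (hE : E.Finite) : (pvtwN k E).Finite := by
  induction k with
  | zero => rwa [pvtw_N_zero]
  | succ k ih => rw [pvtw_N_succ]; exact pvt_N8_finite ih

theorem pvtw_N_conn (hE : TscConn tscG E) : TscConn tscG (pvtwN k E) := by
  induction k with
  | zero => rwa [pvtw_N_zero]
  | succ k ih => rw [pvtw_N_succ]; exact pvt_N8_conn ih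

theorem pvtw_N_box {a b c d : ℤ} (hE : E ⊆ tscBox a b c d) : pvtwN k E ⊆ tscBox (a - k) (b + k) (c - k) (d + k) := by
  rintro w ⟨z, hz, h1, h2, h3, h4⟩
  have := hE hz
  simp only [tscBox, Set.mem_ofPred_eq] at this ⊢
  omega

theorem pvtw_N_symm (h : w ∈ pvtwN k {z}) : z ∈ pvtwN k {w} := by
  obtain ⟨z', rfl, h1, h2, h3, h4⟩ := h
  exact ⟨w, rfl, h2, h1, h4, h3⟩

theorem pvtw_N_iff : w ∈ pvtwN k E ↔ ∃ z ∈ E, w ∈ pvtwN k {z} := by
  constructor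
  · rintro ⟨z, hz, h⟩
    exact ⟨z, hz, z, rfl, h⟩
  · rintro ⟨z, hz, z', rfl, h⟩
    exact ⟨z', hz, h⟩

/-- the complement of a neighbourhood, fattened, misses the set -/
theorem pvtw_N_compl (hw : w ∈ pvtwN i (pvtwN (i + j) E)ᶜ) : w ∉ pvtwN j E := by
  intro h
  obtain ⟨y, hy, h1, h2, h3, h4⟩ := hw
  apply hy
  rw [← pvtw_N_add]
  exact ⟨w, h, h2, h1, h4, h3⟩

end nbhd

/-! ## §2 the tower -/

/-- level `j` of the tower: the filled `j`-neighbourhood -/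
def pvtwK (j : ℕ) (E : Set (ℤ × ℤ)) : Set (ℤ × ℤ) := pvtHull (pvtwN j E)

/-- the outer layer of level `j` -/
def pvtwL (j : ℕ) (E : Set (ℤ × ℤ)) : Set (ℤ × ℤ) := pvtLayO (pvtwK j E)

theorem pvtw_eqns_cite : True := by
  have := @pvtwN.eq_1
  have := @pvtwK.eq_1
  have := @pvtwL.eq_1
  trivial

section tower

variable {E E' S : Set (ℤ × ℤ)} {k k' i j m : ℕ} {z w x y : ℤ × ℤ}

/-- two cells off `S` which touch are joined off `S`, or one of them touches `S` -/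
theorem pvtw_touch (hz : z ∉ S) (hw : w ∉ S) (h : pvtG8.Adj z w) : TscR tscG Sᶜ z w ∨ w ∈ pvtN8 S := by
  obtain ⟨hne, h1, h2, h3, h4⟩ := h
  have hne' : ¬ (z.1 = w.1 ∧ z.2 = w.2) := fun h => hne (Prod.ext h.1 h.2)
  by_cases ht : triAdj z w
  · exact Or.inl (tsc_R_step (G := tscG) ht hz hw)
  · rw [tsc_adj_iff] at ht
    by_cases hm : (z.1, w.2) ∈ S
    · refine Or.inr ⟨(z.1, w.2), hm, Or.inr ⟨fun e => ?_, ?_, ?_, ?_, ?_⟩⟩
      · have := congrArg Prod.fst e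
        simp only at this
        omega
      all_goals (simp only; omega)
    · left
      refine tsc_R_trans (tsc_R_step (G := tscG) ?_ hz hm) (tsc_R_step (G := tscG) ?_ hm hw)
      · show triAdj z (z.1, w.2)
        rw [tsc_adj_iff]
        show (z.1 = z.1 + 1 ∧ w.2 = z.2) ∨ (z.1 = z.1 ∧ w.2 = z.2 + 1) ∨ (z.1 = z.1 - 1 ∧ w.2 = z.2 + 1) ∨
          (z.1 = z.1 - 1 ∧ w.2 = z.2) ∨ (z.1 = z.1 ∧ w.2 = z.2 - 1) ∨ (z.1 = z.1 + 1 ∧ w.2 = z.2 - 1)
        omega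
      · show triAdj (z.1, w.2) w
        rw [tsc_adj_iff]
        show (w.1 = z.1 + 1 ∧ w.2 = w.2) ∨ (w.1 = z.1 ∧ w.2 = w.2 + 1) ∨ (w.1 = z.1 - 1 ∧ w.2 = w.2 + 1) ∨
          (w.1 = z.1 - 1 ∧ w.2 = w.2) ∨ (w.1 = z.1 ∧ w.2 = w.2 - 1) ∨ (w.1 = z.1 + 1 ∧ w.2 = w.2 - 1)
        omega

/-- **the collar of the hull is in the hull or in the collar** -/
theorem pvtw_N8_hull : pvtN8 (pvtHull S) ⊆ pvtHull S ∪ pvtN8 S := by
  rintro w ⟨z, hz, rfl | h⟩
  · exact Or.inl hz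
  · by_cases hzS : z ∈ S
    · exact Or.inr ⟨z, hzS, Or.inr h⟩
    by_cases hwS : w ∈ S
    · exact Or.inl (pvt_hull_sub hwS)
    rcases pvtw_touch hzS hwS h with hR | hN
    · exact Or.inl (fun hw => hz (pvt_out_R hw (tsc_R_symm hR)))
    · exact Or.inr hN

theorem pvtw_N8_hull' : pvtN8 (pvtHull S) ⊆ pvtHull (pvtN8 S) :=
  pvtw_N8_hull.trans (Set.union_subset (pvt_hull_mono pvt_N8_sub) pvt_hull_sub)

/-- **the tower collapses** -/
theorem pvtw_hull_N8_hull : pvtHull (pvtN8 (pvtHull S)) = pvtHull (pvtN8 S) := by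
  apply Set.Subset.antisymm
  · have := pvt_hull_mono (pvtw_N8_hull' (S := S))
    rwa [pvt_hull_idem] at this
  · exact pvt_hull_mono (pvt_N8_mono pvt_hull_sub)

theorem pvtw_K_zero : pvtwK 0 E = pvtHull E := by rw [pvtwK, pvtw_N_zero]

/-- `K_{j+1} = fill (K_j^+)` -/
theorem pvtw_K_succ : pvtwK (j + 1) E = pvtHull (pvtN8 (pvtwK j E)) := by
  rw [pvtwK, pvtwK, pvtw_hull_N8_hull, pvtw_N_succ]

theorem pvtw_K_mono (hk : k ≤ k') (hE : E ⊆ E') : pvtwK k E ⊆ pvtwK k' E' := pvt_hull_mono (pvtw_N_mono hk hE)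

theorem pvtw_N_sub_K : pvtwN j E ⊆ pvtwK j E := pvt_hull_sub

theorem pvtw_sub_K : E ⊆ pvtwK j E := pvtw_N_sub.trans pvt_hull_sub

theorem pvtw_K_N8 : pvtN8 (pvtwK j E) ⊆ pvtwK (j + 1) E := by
  rw [pvtw_K_succ]; exact pvt_hull_sub

/-- the `i`-neighbourhood of level `j` is inside level `i + j` -/
theorem pvtw_K_N : pvtwN i (pvtwK j E) ⊆ pvtwK (i + j) E := by
  induction i with
  | zero => rw [pvtw_N_zero, Nat.zero_add]
  | succ i ih =>
    rw [pvtw_N_succ]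
    have : i + 1 + j = (i + j) + 1 := by omega
    rw [this]
    exact (pvt_N8_mono ih).trans pvtw_K_N8

theorem pvtw_K_K : pvtwK i (pvtwK j E) = pvtwK (i + j) E := by
  apply Set.Subset.antisymm
  · have := pvt_hull_mono (pvtw_K_N (i := i) (j := j) (E := E))
    rw [pvtwK, pvtwK, pvt_hull_idem] at this
    exact this
  · rw [pvtwK, ← pvtw_N_add]
    exact pvt_hull_mono (pvtw_N_mono le_rfl pvt_hull_sub)

theorem pvtw_K_finite (hE : E.Finite) : (pvtwK j E).Finite := pvt_hull_finite (pvtw_N_finite hE)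

theorem pvtw_K_conn (hE : TscConn tscG E) : TscConn tscG (pvtwK j E) := pvt_hull_conn (pvtw_N_conn hE)

theorem pvtw_K_free : HxFree (pvtwK j E) := pvt_hull_free

theorem pvtw_K_sc (hE : E.Finite) : TriSCOn (ZMod 2) tscG (pvtwK j E) := pvt_hull_sc (pvtw_N_finite hE)

theorem pvtw_K_compl : (pvtwK j E)ᶜ = pvtOut (pvtwN j E) := compl_compl _

theorem pvtw_K_compl_conn (hE : E.Finite) : TscConn tscG (pvtwK j E)ᶜ := by
  rw [pvtw_K_compl]; exact pvt_out_conn (pvtw_N_finite hE)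

theorem pvtw_K_box {a b c d : ℤ} (hE : E ⊆ tscBox a b c d) : pvtwK j E ⊆ tscBox (a - j) (b + j) (c - j) (d + j) :=
  pvt_hull_box (pvtw_N_box hE)

theorem pvtw_out_K : pvtOut (pvtwK j E) = pvtOut (pvtwN j E) := pvt_out_hull

/-- the outside of level `i + m` is at sup-distance `> m` from level `i` -/
theorem pvtw_out_far (hy : y ∈ pvtOut (pvtwN (m + i) E)) : y ∉ pvtwN m (pvtwK i E) :=
  fun h => pvtw_K_N h hy

/-! ## §3 layers -/

theorem pvtw_L_eq : pvtwL j E = pvtLayO (pvtwN j E) := pvt_layO_hull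

theorem pvtw_L_out : pvtwL j E ⊆ pvtOut (pvtwN j E) := by
  rw [pvtw_L_eq]; exact fun w hw => hw.1

theorem pvtw_L_off : pvtwL j E ⊆ (pvtwK j E)ᶜ := by
  rw [pvtw_K_compl]; exact pvtw_L_out

/-- **the layer stays near `E`** (the ring `K_{j+1} \ K_j` does not) -/
theorem pvtw_L_near : pvtwL j E ⊆ pvtwN (j + 1) E := by
  rw [pvtw_L_eq, pvtw_N_succ]
  rintro w ⟨_, z, hz, h⟩
  exact ⟨z, hz, Or.inr (pvt_tri_g8 (hx_tri_symm _ _ h))⟩

theorem pvtw_L_sub_K : pvtwL j E ⊆ pvtwK (j + 1) E := pvtw_L_near.trans pvtw_N_sub_K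

theorem pvtw_L_finite (hE : E.Finite) : (pvtwL j E).Finite := (pvtw_N_finite hE).subset pvtw_L_near

/-- **the layer is connected** (Timar) -/
theorem pvtw_L_conn (hE : E.Finite) (hc : TscConn tscG E) : TscConn tscG (pvtwL j E) := by
  rw [pvtw_L_eq]; exact pvt_layO_conn (pvtw_N_finite hE) (pvtw_N_conn hc)

/-- the layer `j` is at sup-distance `> m` from level `i` when `m + i ≤ j` -/
theorem pvtw_L_far_K (hij : m + i ≤ j) (hy : y ∈ pvtwL j E) : y ∉ pvtwN m (pvtwK i E) :=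
  pvtw_out_far (pvt_out_anti (pvtw_N_mono hij le_rfl) (pvtw_L_out hy))

/-- **two layers**: sup-distance `≥ j - i` -/
theorem pvtw_L_far (hij : m + (i + 1) ≤ j) (hx : x ∈ pvtwL i E) (hy : y ∈ pvtwL j E) : y ∉ pvtwN m {x} :=
  fun h => pvtw_L_far_K hij hy (pvtw_N_mono le_rfl (Set.singleton_subset_iff.2 (pvtw_L_sub_K hx)) h)

/-- layers `i`, `j` with `i + 2 ≤ j` neither meet nor touch -/
theorem pvtw_L_apart (hij : i + 2 ≤ j) (hx : x ∈ pvtwL i E) (hy : y ∈ pvtwL j E) : x ≠ y ∧ ¬ pvtG8.Adj x y := by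
  have h := pvtw_L_far (m := 1) (by omega) hx hy
  rw [pvtw_N_one] at h
  exact ⟨fun e => h ⟨x, rfl, Or.inl e.symm⟩, fun e => h ⟨x, rfl, Or.inr e⟩⟩

/-- every path from level `j` to its outside visits the layer -/
theorem pvtw_L_meets {Q : Set (ℤ × ℤ)} (hw : w ∈ pvtOut (pvtwN j E)) (hz : z ∈ pvtwK j E) (h : TscR tscG Q w z) : ∃ x ∈ Q, x ∈ pvtwL j E := by
  rw [pvtw_L_eq]
  exact pvt_layO_meets hw hz h

end tower

/-! ## §4 co-connected cuts -/

section cut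

variable {K X S : Set (ℤ × ℤ)} {z w x y : ℤ × ℤ}

theorem pvtw_free_iff : HxFree S ↔ pvtHull S = S :=
  ⟨pvt_hull_eq_of_free, fun h => h ▸ pvt_hull_free⟩

theorem pvtw_free_out (h : HxFree S) : pvtOut S = Sᶜ := by
  have := pvt_hull_eq_of_free h
  rw [pvtHull] at this
  exact (compl_compl _).symm.trans (congrArg compl this)

theorem pvtw_free_of_out (h : Sᶜ ⊆ pvtOut S) : HxFree S := by
  rw [pvtw_free_iff]
  exact Set.Subset.antisymm (fun z hz => by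
    by_contra hzS
    exact hz (h hzS)) pvt_hull_sub

/-- **co-connected cut**: remove from a set without hole a set `X` every cell of which is joined to the outside inside `X ∪ Kᶜ` -/
theorem pvtw_free_diff (hK : HxFree K) (hX : ∀ x ∈ X, x ∈ K → ∃ y, y ∉ K ∧ TscR tscG (X ∪ Kᶜ) x y) : HxFree (K \ X) := by
  apply pvtw_free_of_out
  have e : (K \ X)ᶜ = X ∪ Kᶜ := by
    ext v
    simp only [Set.mem_compl_iff, Set.mem_sdiff, Set.mem_union, not_and, not_not]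
    tauto
  have hout : ∀ y, y ∉ K → y ∈ pvtOut (K \ X) := by
    intro y hy
    apply pvt_out_anti (Set.sdiff_subset (s := K) (t := X))
    rw [pvtw_free_out hK]
    exact hy
  intro s hs
  by_cases hsK : s ∈ K
  · have hsX : s ∈ X := by
      by_contra h
      exact hs ⟨hsK, h⟩
    obtain ⟨y, hy, hR⟩ := hX s hsX hsK
    rw [← e] at hR
    exact pvt_out_R (hout y hy) (tsc_R_symm hR)
  · exact hout s hsK

/-- the complement of a finite set without hole is connected -/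
theorem pvtw_free_compl_conn (hS : S.Finite) (h : HxFree S) : TscConn tscG Sᶜ := by
  rw [← pvtw_free_out h]; exact pvt_out_conn hS

theorem pvtw_free_sc (hS : S.Finite) (h : HxFree S) : TriSCOn (ZMod 2) tscG S := hxp_sc_free hS h

/-- add to a set without hole a set `Y` of cells of the outside such that the rest of the outside stays joined to infinity: stated through the complement -/
theorem pvtw_free_union_of_compl (hS : (K ∪ X).Finite) (hc : TscConn tscG (K ∪ X)ᶜ) : HxFree (K ∪ X) :=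
  pvt_free_of_compl_conn hS hc

/-- a set without hole, a connected piece `Q` of its complement which reaches the outside of a box: `Q` is free to go to infinity -/
theorem pvtw_out_of_R (hw : w ∈ pvtOut S) (h : TscR tscG Sᶜ z w) : z ∈ pvtOut S := pvt_out_R hw (tsc_R_symm h)

end cut

/-! ## §5 plane and cells -/

section plane

variable {δ : ℝ} {z w : ℤ × ℤ} {p q : ℂ} {E S : Set (ℤ × ℤ)} {C K K' : Set ℂ} {k : ℕ}

/-- two squares at sup-distance `> k` are at distance `≥ k δ` -/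
theorem pvtw_sq_far (hδ : 0 < δ) (h : w ∉ pvtwN k {z}) (hp : p ∈ pvtSq δ z) (hq : q ∈ pvtSq δ w) : (k : ℝ) * δ ≤ ‖p - q‖ := by
  obtain ⟨h1, h2, h3, h4⟩ := hp
  obtain ⟨k1, k2, k3, k4⟩ := hq
  have h' : ¬ (w.1 ≤ z.1 + k ∧ z.1 ≤ w.1 + k ∧ w.2 ≤ z.2 + k ∧ z.2 ≤ w.2 + k) := fun hh => h ⟨z, rfl, hh⟩
  have hre := Complex.abs_re_le_norm (p - q)
  have him := Complex.abs_im_le_norm (p - q)
  rw [Complex.sub_re] at hre
  rw [Complex.sub_im] at him
  have cases4 : z.1 + k + 1 ≤ w.1 ∨ w.1 + k + 1 ≤ z.1 ∨ z.2 + k + 1 ≤ w.2 ∨ w.2 + k + 1 ≤ z.2 := by omega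
  rcases cases4 with c | c | c | c
  · have c' : (z.1 : ℝ) + k + 1 ≤ (w.1 : ℝ) := by exact_mod_cast c
    have := mul_le_mul_of_nonneg_right c' hδ.le
    have := neg_abs_le (p.re - q.re)
    nlinarith
  · have c' : (w.1 : ℝ) + k + 1 ≤ (z.1 : ℝ) := by exact_mod_cast c
    have := mul_le_mul_of_nonneg_right c' hδ.le
    have := le_abs_self (p.re - q.re)
    nlinarith
  · have c' : (z.2 : ℝ) + k + 1 ≤ (w.2 : ℝ) := by exact_mod_cast c
    have := mul_le_mul_of_nonneg_right c' hδ.le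
    have := neg_abs_le (p.im - q.im)
    nlinarith
  · have c' : (w.2 : ℝ) + k + 1 ≤ (z.2 : ℝ) := by exact_mod_cast c
    have := mul_le_mul_of_nonneg_right c' hδ.le
    have := le_abs_self (p.im - q.im)
    nlinarith

/-- off the `k`-neighbourhood one is at distance `≥ k δ` -/
theorem pvtw_U_far (hδ : 0 < δ) (hp : p ∈ pvtU δ E) (hq : q ∈ pvtU δ (pvtwN k E)ᶜ) : (k : ℝ) * δ ≤ ‖p - q‖ := by
  obtain ⟨z, hz, hpz⟩ := Set.mem_iUnion₂.1 hp
  obtain ⟨w, hw, hqw⟩ := Set.mem_iUnion₂.1 hq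
  exact pvtw_sq_far hδ (fun h => hw (pvtw_N_iff.2 ⟨z, hz, h⟩)) hpz hqw

/-- two squares with points at distance `< k δ` are at sup-distance `≤ k` -/
theorem pvtw_sq_near (hδ : 0 < δ) (hp : p ∈ pvtSq δ z) (hq : q ∈ pvtSq δ w) (h : ‖p - q‖ < (k : ℝ) * δ) : w ∈ pvtwN k {z} := by
  by_contra hc
  exact absurd (pvtw_sq_far hδ hc hp hq) (not_le.2 h)

/-- one coordinate of `pvtw_U_near` -/
theorem pvtw_aux_1d (hδ : 0 < δ) (k : ℕ) (a : ℤ) (x y : ℝ) (h1 : (a : ℝ) * δ ≤ x) (h2 : x ≤ ((a : ℝ) + 1) * δ) (h : |y - x| ≤ (k : ℝ) * δ) :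
    ∃ b : ℤ, b ≤ a + k ∧ a ≤ b + k ∧ (b : ℝ) * δ ≤ y ∧ y ≤ ((b : ℝ) + 1) * δ := by
  obtain ⟨l, u⟩ := abs_le.1 h
  have f1 : ((⌊y / δ⌋ : ℤ) : ℝ) * δ ≤ y := (le_div_iff₀ hδ).1 (Int.floor_le _)
  have f2 : y ≤ (((⌊y / δ⌋ : ℤ) : ℝ) + 1) * δ := (div_le_iff₀ hδ).1 (Int.lt_floor_add_one _).le
  have g1 : a - k ≤ ⌊y / δ⌋ := by
    apply Int.le_floor.2
    rw [le_div_iff₀ hδ]
    push_cast
    nlinarith
  have g2 : ⌊y / δ⌋ ≤ a + k + 1 := by
    have : ((⌊y / δ⌋ : ℤ) : ℝ) * δ ≤ ((a + k + 1 : ℤ) : ℝ) * δ := by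
      push_cast
      nlinarith
    exact_mod_cast le_of_mul_le_mul_right this hδ
  by_cases c : ⌊y / δ⌋ ≤ a + k
  · exact ⟨⌊y / δ⌋, c, by omega, f1, f2⟩
  · have e : ⌊y / δ⌋ = a + k + 1 := by omega
    rw [e] at f1
    push_cast at f1
    refine ⟨a + k, le_refl _, by omega, ?_, ?_⟩
    · push_cast; nlinarith
    · push_cast; nlinarith

/-- the `k`-neighbourhood contains the `k δ`-neighbourhood -/
theorem pvtw_U_near (hδ : 0 < δ) (hp : p ∈ pvtU δ E) (hq : ‖q - p‖ ≤ (k : ℝ) * δ) : q ∈ pvtU δ (pvtwN k E) := by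
  obtain ⟨z, hz, h1, h2, h3, h4⟩ := Set.mem_iUnion₂.1 hp
  have hre := (Complex.abs_re_le_norm (q - p)).trans hq
  have him := (Complex.abs_im_le_norm (q - p)).trans hq
  rw [Complex.sub_re] at hre
  rw [Complex.sub_im] at him
  obtain ⟨b1, l1, u1, m1, n1⟩ := pvtw_aux_1d hδ k z.1 p.re q.re h1 h2 hre
  obtain ⟨b2, l2, u2, m2, n2⟩ := pvtw_aux_1d hδ k z.2 p.im q.im h3 h4 him
  exact Set.mem_iUnion₂.2 ⟨(b1, b2), ⟨z, hz, l1, u1, l2, u2⟩, ⟨m1, n1, m2, n2⟩⟩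

/-- the cells met by a set which stays `< k δ`-close to `K` -/
theorem pvtw_cells_near (hδ : 0 < δ) (h : ∀ q ∈ K', ∃ p ∈ K, ‖p - q‖ < (k : ℝ) * δ) : pvtCells δ K' ⊆ pvtwN k (pvtCells δ K) := by
  rintro w ⟨q, hqw, hqK⟩
  obtain ⟨p, hp, hpq⟩ := h q hqK
  obtain ⟨z, hz⟩ := pvt_sq_cover hδ p
  exact pvtw_N_iff.2 ⟨z, ⟨p, hz, hp⟩, pvtw_sq_near hδ hz hqw hpq⟩

/-- all points of `K'` are `> 2 (k+1) δ`-far from `K`  ⟹  the cells of `K'` are off the `k`-neighbourhood of the cells of `K` -/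
theorem pvtw_cells_far (hδ : 0 < δ) (h : ∀ q ∈ K', ∀ p ∈ K, 2 * ((k : ℝ) + 1) * δ < ‖p - q‖) : pvtCells δ K' ⊆ (pvtwN k (pvtCells δ K))ᶜ := by
  rintro w ⟨q, hqw, hqK⟩ ⟨z, ⟨p, hpz, hpK⟩, h1, h2, h3, h4⟩
  have hlt := h q hqK p hpK
  have h0 := Complex.norm_le_abs_re_add_abs_im (p - q)
  rw [Complex.sub_re, Complex.sub_im] at h0
  obtain ⟨a1, a2, a3, a4⟩ := hpz
  obtain ⟨b1, b2, b3, b4⟩ := hqw
  have c1 : (w.1 : ℝ) ≤ z.1 + k := by exact_mod_cast h1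
  have c2 : (z.1 : ℝ) ≤ w.1 + k := by exact_mod_cast h2
  have c3 : (w.2 : ℝ) ≤ z.2 + k := by exact_mod_cast h3
  have c4 : (z.2 : ℝ) ≤ w.2 + k := by exact_mod_cast h4
  have d1 := mul_le_mul_of_nonneg_right c1 hδ.le
  have d2 := mul_le_mul_of_nonneg_right c2 hδ.le
  have d3 := mul_le_mul_of_nonneg_right c3 hδ.le
  have d4 := mul_le_mul_of_nonneg_right c4 hδ.le
  have hr : |p.re - q.re| ≤ ((k : ℝ) + 1) * δ := abs_le.2 ⟨by nlinarith, by nlinarith⟩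
  have hi : |p.im - q.im| ≤ ((k : ℝ) + 1) * δ := abs_le.2 ⟨by nlinarith, by nlinarith⟩
  nlinarith

/-- **ESCAPE**: a bounded connected set which misses the squares of `S` and meets a square of the outside of `S` meets only squares of the outside -/
theorem pvtw_escape (hδ : 0 < δ) (hC : IsPreconnected C) (hb : Bornology.IsBounded C) (hd : Disjoint C (pvtU δ S)) (hw : w ∈ pvtOut S)
    (h2 : (pvtSq δ w ∩ C).Nonempty) : pvtCells δ C ⊆ pvtOut S := by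
  intro z hz
  by_contra hzo
  obtain ⟨x, hxC, hxU⟩ := pvt_sep hδ hC hb (show z ∈ pvtHull S from hzo) hw hz h2
  exact Set.disjoint_left.1 hd hxC hxU

/-- the same with a box -/
theorem pvtw_escape_box (hδ : 0 < δ) (hC : IsPreconnected C) (hb : Bornology.IsBounded C) (hd : Disjoint C (pvtU δ S)) {a b c d : ℤ}
    (hS : S ⊆ tscBox a b c d) (hw : w ∉ tscBox a b c d) (h2 : (pvtSq δ w ∩ C).Nonempty) : pvtCells δ C ⊆ pvtOut S :=
  pvtw_escape hδ hC hb hd (pvt_out_of_box hS hw) h2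

end plane

end Claimed.Agent.R289
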