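-- KEEP
import Claimed.Agent.R289.S6b.Det
import Claimed.Agent.R289.Tr.Tower

/-!
# Row 289 (S0537, Cardy for Poisson-Voronoi), unit TR, item TR17 = PORT      (typist + prover helper164; prefix `pvtp_`, defs `Pvtp*`, `pvtp*`)

TR17 of `origin/helper295:notes/R289/TR_295.md`, in the TRUE FORM of helper205 (msg 08:49Z) and of ruling 7 (a) of 234: the obstacle `H` has TENTACLES,
`H = fill( gridball(z, rB) ∪ tube(K⁺) ∪ tube(K⁻) )`,   `K = K⁻ Δ K⁺ = P[m⁻, m⁺]`,   `m^±` = the MARKS = first / last vertex of `P` at radius `≥ rH` after / before the pin vertex.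

VOCABULARY = the geometry-free one of `R289/S6b/Det.lean` (`PvbRim`, `PvbNearRet`), as in `Tr/Cover.lean` (TR20, 236), + the polyomino kit `Tr/Poly.lean` (39) for the instance.     All radii are ABSOLUTE lengths (multiples of `h` in the application).

* §1 `PvtpDiam` (diameter of an arc of the cut rim), `PvtpNR` = `NR(d,e)`: two vertices at distance `≤ d`, one of them in the window `B(z,ρ)` ⟹ the arc between them has diameter `≤ e`;   from `¬ PvbNearRet` (flag F2 / `arm2`)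
* §2 `PvtpMarks`, existence;   `PvtpTrap` (= L2 (a)(b) of `PIN_273.md`: gate `S3`), the trap arc lies strictly between the marks
* §3 `pvtpBody` = the metric body `B(z,rB) ∪ N_d(K)`;   vertices of `P` in the body and off `K` hang at the marks (arcs of diameter `≤ e0`)
* §4 `PvtpScreen A U z ρ μ`: every `μ`-chain from `A` to radius `≥ ρ` has a point in `U`  (what `fill` means for a mesh path)
* §5 **PORT**: `PvtpPort`, `pvtp_port`:   (ii) `P` meets `A = U(H^{+})` only along `P[x⁻, x⁺] ⊇ K`, the two overhangs `P[m⁺,x⁺]`, `P[x⁻,m⁻]` have diameter `≤ e0`;   (iii) the two continuations are `d1`-separated in the window;   polygon form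
* §6 PAIRS of pins as in (A1): order `x⁻(s) ≤ … ≤ x⁺(s) < x⁻(t) ≤ … ≤ x⁺(t)`; the forward continuation of `t` and the backward continuation of `s` miss BOTH obstacles; the arc meets them only in its two end pieces       [input (OUT) of TR19 / TR20]
* §7 INSTANCE on the polyomino kit: `pvtp_hull_adj`, the HULL LEMMA `N8 (Hull S) ⊆ Hull (N8 S)`, `pvtp_screen_hull`, `pvtp_port_poly`
-/

set_option autoImplicit false
set_option linter.unusedSectionVars false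
set_option linter.unusedVariables false

namespace Claimed.Agent.R289

open Claims.C0467 Claimed.Agent.R291

/-! ## §1 diameters of arcs, near returns in arc form -/

/-- the arc `[i,j]` of the cut rim has diameter `≤ e` -/
def PvtpDiam (P : PvbRim) (i j : ℕ) (e : ℝ) : Prop :=
  ∀ k k', i ≤ k → k ≤ j → i ≤ k' → k' ≤ j → ‖P.v k - P.v k'‖ ≤ e

/-- `NR(d,e)` in the window `B(z,ρ)`: two vertices at distance `≤ d`, one of them in the window: the arc between them (the one which avoids the cut vertex) has diameter `≤ e` -/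
def PvtpNR (P : PvbRim) (z : ℂ) (ρ d e : ℝ) : Prop :=
  ∀ i j, i ≤ j → j ≤ P.len → (‖P.v i - z‖ ≤ ρ ∨ ‖P.v j - z‖ ≤ ρ) → ‖P.v i - P.v j‖ ≤ d → PvtpDiam P i j e

theorem pvtp_tri (a b c : ℂ) : ‖a - c‖ ≤ ‖a - b‖ + ‖b - c‖ := by
  calc ‖a - c‖ = ‖(a - b) + (b - c)‖ := by ring_nf
    _ ≤ _ := norm_add_le _ _

section arcs

variable {P : PvbRim} {z : ℂ} {i j i' j' : ℕ} {e e' d d' ρ ρ' : ℝ}

theorem PvtpDiam.sub (H : PvtpDiam P i j e) (h1 : i ≤ i') (h2 : j' ≤ j) : PvtpDiam P i' j' e :=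
  fun k k' a b c d => H k k' (h1.trans a) (b.trans h2) (h1.trans c) (d.trans h2)

theorem PvtpDiam.mono (H : PvtpDiam P i j e) (h : e ≤ e') : PvtpDiam P i j e' :=
  fun k k' a b c d => (H k k' a b c d).trans h

theorem PvtpNR.mono (H : PvtpNR P z ρ d e) (hρ : ρ' ≤ ρ) (hd : d' ≤ d) (he : e ≤ e') : PvtpNR P z ρ' d' e' :=
  fun i j h1 h2 h3 h4 => (H i j h1 h2 (h3.imp (fun h => h.trans hρ) (fun h => h.trans hρ)) (h4.trans hd)).mono he

/-- between two visits to `B(c,d)` the rim stays in `B(c,e)` unless there is a near return -/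
theorem pvtp_nr_aux {c : ℂ} (hj : j ≤ P.len) (hi : ‖P.v i - c‖ ≤ d) (hjc : ‖P.v j - c‖ ≤ d) (hde : d ≤ e) (hno : ¬ PvbNearRet P c d e)
    {k : ℕ} (h1 : i ≤ k) (h2 : k ≤ j) : ‖P.v k - c‖ ≤ e := by
  rcases Nat.eq_or_lt_of_le h1 with h | h
  · rw [← h]; exact hi.trans hde
  rcases Nat.eq_or_lt_of_le h2 with h' | h'
  · rw [h']; exact hjc.trans hde
  by_contra hc
  exact hno ⟨i, k, j, h, h', hj, hi, hjc, not_le.1 hc⟩

/-- **`NR(d,e)` from the absence of near returns `(d, e/2)`** at the centres of the window (flag F2 of the pin, or `arm2` + union bound: `pvtv_union` of `Tr/Cover.lean`) -/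
theorem pvtp_nr_of_not (hd : 0 ≤ d) (hde : 2 * d ≤ e) (hno : ∀ w, ‖w - z‖ ≤ ρ → ¬ PvbNearRet P w d (e / 2)) : PvtpNR P z ρ d e := by
  intro i j hij hj hw hdist k k' a1 a2 b1 b2
  have hde' : d ≤ e / 2 := by linarith
  rcases hw with hw | hw
  · have h0 : ‖P.v i - P.v i‖ ≤ d := by simpa using hd
    have h1 : ‖P.v j - P.v i‖ ≤ d := by rw [norm_sub_rev]; exact hdist
    have A := pvtp_nr_aux hj h0 h1 hde' (hno _ hw) a1 a2
    have B := pvtp_nr_aux hj h0 h1 hde' (hno _ hw) b1 b2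
    have := pvtp_tri (P.v k) (P.v i) (P.v k')
    rw [norm_sub_rev (P.v i) (P.v k')] at this
    linarith
  · have h0 : ‖P.v j - P.v j‖ ≤ d := by simpa using hd
    have A := pvtp_nr_aux hj hdist h0 hde' (hno _ hw) a1 a2
    have B := pvtp_nr_aux hj hdist h0 hde' (hno _ hw) b1 b2
    have := pvtp_tri (P.v k) (P.v j) (P.v k')
    rw [norm_sub_rev (P.v j) (P.v k')] at this
    linarith

end arcs

/-! ## §2 marks and trap -/

/-- **the marks** of the pin vertex `i0`, centre `z`: `mp` = first index `≥ i0` at radius `≥ rH`, `mm` = last index `≤ i0` at radius `≥ rH` -/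
structure PvtpMarks (P : PvbRim) (z : ℂ) (i0 : ℕ) (rH : ℝ) (mm mp : ℕ) : Prop where
  mm_le : mm ≤ i0
  le_mp : i0 ≤ mp
  mp_le : mp ≤ P.len
  mp_far : rH ≤ ‖P.v mp - z‖
  mm_far : rH ≤ ‖P.v mm - z‖
  mp_first : ∀ k, i0 ≤ k → k < mp → ‖P.v k - z‖ < rH
  mm_last : ∀ k, mm < k → k ≤ i0 → ‖P.v k - z‖ < rH

/-- **TRAP** by a gate in the annulus `(ra, rb)` (L2 (a), (b) of `PIN_273.md`; produced by `Tr/Di.lean`): the arc `[lo,hi]` through `i0` contains all the vertices of `P` in `B(z,ra)` and stays in `B(z,rb)` -/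
structure PvtpTrap (P : PvbRim) (z : ℂ) (i0 : ℕ) (ra rb : ℝ) (lo hi : ℕ) : Prop where
  lo_le : lo ≤ i0
  le_hi : i0 ≤ hi
  hi_le : hi ≤ P.len
  all : ∀ i ≤ P.len, ‖P.v i - z‖ < ra → lo ≤ i ∧ i ≤ hi
  ins : ∀ i, lo ≤ i → i ≤ hi → ‖P.v i - z‖ < rb

section marks

variable {P : PvbRim} {z : ℂ} {i0 mm mp lo hi : ℕ} {rH ra rb hh μ ρ : ℝ}

theorem pvtp_marks_exists (hi0 : i0 ≤ P.len) (h0 : rH ≤ ‖P.v 0 - z‖) (hL : rH ≤ ‖P.v P.len - z‖) : ∃ mm mp, PvtpMarks P z i0 rH mm mp := by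
  obtain ⟨mp, a1, a2, a3, a4⟩ := pvb_first (p := fun k => rH ≤ ‖P.v k - z‖) hi0 hL
  obtain ⟨mm, b1, b2, b3, b4⟩ := pvb_last (p := fun k => rH ≤ ‖P.v k - z‖) (Nat.zero_le i0) h0
  exact ⟨mm, mp, b2, a1, a2, a3, b3, fun k h1 h2 => not_le.1 (a4 k h1 h2), fun k h1 h2 => not_le.1 (b4 k h1 h2)⟩

theorem PvtpMarks.unique {mm' mp' : ℕ} (M : PvtpMarks P z i0 rH mm mp) (M' : PvtpMarks P z i0 rH mm' mp') : mm = mm' ∧ mp = mp' := by
  constructor
  · rcases Nat.lt_trichotomy mm mm' with h | h | h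
    · exact absurd M'.mm_far (not_le.2 (M.mm_last mm' h M'.mm_le))
    · exact h
    · exact absurd M.mm_far (not_le.2 (M'.mm_last mm h M.mm_le))
  · rcases Nat.lt_trichotomy mp mp' with h | h | h
    · exact absurd M.mp_far (not_le.2 (M'.mp_first mp M.le_mp h))
    · exact h
    · exact absurd M'.mp_far (not_le.2 (M.mp_first mp' M'.le_mp h))

/-- strictly between the marks the rim stays in `B(z,rH)` -/
theorem PvtpMarks.ins (M : PvtpMarks P z i0 rH mm mp) {k : ℕ} (h1 : mm < k) (h2 : k < mp) : ‖P.v k - z‖ < rH := by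
  rcases Nat.lt_or_ge k i0 with h | h
  · exact M.mm_last k h1 h.le
  · exact M.mp_first k h h2

theorem PvtpMarks.lt_mp (M : PvtpMarks P z i0 rH mm mp) (hn : ‖P.v i0 - z‖ < rH) : i0 < mp := by
  rcases Nat.eq_or_lt_of_le M.le_mp with h | h
  · exact absurd M.mp_far (not_le.2 (h ▸ hn))
  · exact h

theorem PvtpMarks.mm_lt (M : PvtpMarks P z i0 rH mm mp) (hn : ‖P.v i0 - z‖ < rH) : mm < i0 := by
  rcases Nat.eq_or_lt_of_le M.mm_le with h | h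
  · exact absurd M.mm_far (not_le.2 (h ▸ hn))
  · exact h

/-- the mark `m⁺` overshoots the radius `rH` by at most one step -/
theorem PvtpMarks.mp_rad (M : PvtpMarks P z i0 rH mm mp) (hn : ‖P.v i0 - z‖ < rH) (hρ : rH ≤ ρ)
    (mesh : ∀ k < P.len, (‖P.v k - z‖ ≤ ρ ∨ ‖P.v (k + 1) - z‖ ≤ ρ) → ‖P.v (k + 1) - P.v k‖ ≤ μ) : ‖P.v mp - z‖ ≤ rH + μ := by
  have h1 := M.lt_mp hn
  obtain ⟨q, rfl⟩ : ∃ q, mp = q + 1 := ⟨mp - 1, by omega⟩
  have h2 : ‖P.v q - z‖ < rH := M.mp_first q (by omega) (by omega)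
  have h3 := mesh q (by have := M.mp_le; omega) (Or.inl (h2.le.trans hρ))
  have := pvtp_tri (P.v (q + 1)) (P.v q) z
  linarith

/-- the mark `m⁻` overshoots the radius `rH` by at most one step -/
theorem PvtpMarks.mm_rad (M : PvtpMarks P z i0 rH mm mp) (hn : ‖P.v i0 - z‖ < rH) (hρ : rH ≤ ρ)
    (mesh : ∀ k < P.len, (‖P.v k - z‖ ≤ ρ ∨ ‖P.v (k + 1) - z‖ ≤ ρ) → ‖P.v (k + 1) - P.v k‖ ≤ μ) : ‖P.v mm - z‖ ≤ rH + μ := by
  have h1 := M.mm_lt hn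
  have h2 : ‖P.v (mm + 1) - z‖ < rH := M.mm_last (mm + 1) (by omega) (by omega)
  have h3 := mesh mm (by have := M.le_mp; have := M.mp_le; omega) (Or.inr (h2.le.trans hρ))
  have := pvtp_tri (P.v mm) (P.v (mm + 1)) z
  rw [norm_sub_rev (P.v mm) (P.v (mm + 1))] at this
  linarith

/-- all of `K = P[m⁻,m⁺]` lies in `B(z, rH + μ)` -/
theorem PvtpMarks.K_rad (M : PvtpMarks P z i0 rH mm mp) (hn : ‖P.v i0 - z‖ < rH) (hρ : rH ≤ ρ) (hμ : 0 ≤ μ)
    (mesh : ∀ k < P.len, (‖P.v k - z‖ ≤ ρ ∨ ‖P.v (k + 1) - z‖ ≤ ρ) → ‖P.v (k + 1) - P.v k‖ ≤ μ) {k : ℕ} (h1 : mm ≤ k) (h2 : k ≤ mp) :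
    ‖P.v k - z‖ ≤ rH + μ := by
  rcases Nat.eq_or_lt_of_le h1 with h | h
  · rw [← h]; exact M.mm_rad hn hρ mesh
  rcases Nat.eq_or_lt_of_le h2 with h' | h'
  · rw [h']; exact M.mp_rad hn hρ mesh
  have := M.ins h h'
  linarith

/-- the trap arc lies strictly between the marks -/
theorem PvtpTrap.between (T : PvtpTrap P z i0 ra rb lo hi) (M : PvtpMarks P z i0 rH mm mp) (hb : rb ≤ rH) : mm < lo ∧ hi < mp := by
  constructor
  · by_contra hc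
    exact absurd M.mm_far (not_le.2 ((T.ins mm (not_lt.1 hc) (M.mm_le.trans T.le_hi)).trans_le hb))
  · by_contra hc
    exact absurd M.mp_far (not_le.2 ((T.ins mp (T.lo_le.trans M.le_mp) (not_lt.1 hc)).trans_le hb))

/-- the trap of `PvbIsPin` from a gate trap -/
theorem PvtpTrap.diam (T : PvtpTrap P z i0 ra rb lo hi) : PvtpDiam P lo hi (2 * rb) := by
  intro k k' a1 a2 b1 b2
  have A := T.ins k a1 a2
  have B := T.ins k' b1 b2
  have := pvtp_tri (P.v k) z (P.v k')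
  rw [norm_sub_rev z (P.v k')] at this
  linarith

end marks

/-! ## §3 the metric body of the obstacle -/

/-- the metric body: the ball `B(z,rB)` and the `d`-neighbourhood of the vertices of `K = P[mm,mp]` -/
def pvtpBody (P : PvbRim) (z : ℂ) (rB d : ℝ) (mm mp : ℕ) : Set ℂ := {w | ‖w - z‖ < rB ∨ ∃ i, mm ≤ i ∧ i ≤ mp ∧ ‖w - P.v i‖ ≤ d}

theorem pvtp_eqns_cite : True := by
  have := @PvtpDiam.eq_1; have := @PvtpNR.eq_1; have := @pvtpBody.eq_1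
  trivial

section body

variable {P : PvbRim} {z : ℂ} {i0 mm mp lo hi : ℕ} {rH ra rb rB hh μ ρ d0 e0 : ℝ}

theorem pvtp_K_body (hd : 0 ≤ d0) {k : ℕ} (h1 : mm ≤ k) (h2 : k ≤ mp) : P.v k ∈ pvtpBody P z rB d0 mm mp :=
  Or.inr ⟨k, h1, h2, by simpa using hd⟩

/-- a vertex of `P` after `m⁺` in the body hangs at `m⁺` -/
theorem pvtp_body_fwd (M : PvtpMarks P z i0 rH mm mp) (T : PvtpTrap P z i0 ra rb lo hi) (hb : rb ≤ rH) (hB : rB ≤ ra)
    (hK : ∀ k, mm ≤ k → k ≤ mp → ‖P.v k - z‖ ≤ ρ) (nr : PvtpNR P z ρ d0 e0) {j : ℕ} (h1 : mp ≤ j) (h2 : j ≤ P.len)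
    (hj : P.v j ∈ pvtpBody P z rB d0 mm mp) : PvtpDiam P mp j e0 := by
  rcases hj with hj | ⟨i, a1, a2, a3⟩
  · have := (T.all j h2 (hj.trans_le hB)).2
    have := (T.between M hb).2
    omega
  · rw [norm_sub_rev] at a3
    exact (nr i j (a2.trans h1) h2 (Or.inl (hK i a1 a2)) a3).sub a2 le_rfl

/-- a vertex of `P` before `m⁻` in the body hangs at `m⁻` -/
theorem pvtp_body_bwd (M : PvtpMarks P z i0 rH mm mp) (T : PvtpTrap P z i0 ra rb lo hi) (hb : rb ≤ rH) (hB : rB ≤ ra)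
    (hK : ∀ k, mm ≤ k → k ≤ mp → ‖P.v k - z‖ ≤ ρ) (nr : PvtpNR P z ρ d0 e0) {j : ℕ} (h1 : j ≤ mm)
    (hj : P.v j ∈ pvtpBody P z rB d0 mm mp) : PvtpDiam P j mm e0 := by
  have hlen : mp ≤ P.len := M.mp_le
  have hmm : mm ≤ mp := M.mm_le.trans M.le_mp
  rcases hj with hj | ⟨i, a1, a2, a3⟩
  · have := (T.all j (by omega) (hj.trans_le hB)).1
    have := (T.between M hb).1
    omega
  · exact (nr j i (h1.trans a1) (a2.trans hlen) (Or.inr (hK i a1 a2)) a3).sub le_rfl a1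

end body

/-! ## §4 screens -/

/-- `U` SCREENS `A` at mesh `μ`: every `μ`-chain which starts in `A` and ends at radius `≥ ρ` has a point in `U`.     (`A` = the filled obstacle, `U` = a neighbourhood of the unfilled one.) -/
def PvtpScreen (A U : Set ℂ) (z : ℂ) (ρ μ : ℝ) : Prop :=
  ∀ (n : ℕ) (w : ℕ → ℂ), (∀ k < n, ‖w (k + 1) - w k‖ ≤ μ) → w 0 ∈ A → ρ ≤ ‖w n - z‖ → ∃ k ≤ n, w k ∈ U

theorem pvtp_eqns_cite2 : True := by
  have := @PvtpScreen.eq_1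
  trivial

section screen

variable {A A' U U' : Set ℂ} {z : ℂ} {ρ ρ' μ μ' : ℝ}

theorem PvtpScreen.mono (H : PvtpScreen A U z ρ μ) (hA : A' ⊆ A) (hU : U ⊆ U') (hρ : ρ ≤ ρ') (hμ : μ' ≤ μ) : PvtpScreen A' U' z ρ' μ' := by
  intro n w h1 h2 h3
  obtain ⟨k, hk, hw⟩ := H n w (fun k hk => (h1 k hk).trans hμ) (hA h2) (hρ.trans h3)
  exact ⟨k, hk, hU hw⟩

theorem pvtp_screen_self : PvtpScreen A A z ρ μ := fun _ _ _ h _ => ⟨0, Nat.zero_le _, h⟩

theorem PvtpScreen.union {B V : Set ℂ} (H : PvtpScreen A U z ρ μ) (H' : PvtpScreen B V z ρ μ) : PvtpScreen (A ∪ B) (U ∪ V) z ρ μ := by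
  intro n w h1 h2 h3
  rcases h2 with h2 | h2
  · obtain ⟨k, hk, hw⟩ := H n w h1 h2 h3
    exact ⟨k, hk, Or.inl hw⟩
  · obtain ⟨k, hk, hw⟩ := H' n w h1 h2 h3
    exact ⟨k, hk, Or.inr hw⟩

variable {P : PvbRim}

/-- forward form for a rim: from a vertex in `A` the rim meets `U` at that time or later -/
theorem PvtpScreen.fwd (H : PvtpScreen A U z ρ μ) (hL : ρ ≤ ‖P.v P.len - z‖)
    (mesh : ∀ k < P.len, (‖P.v k - z‖ ≤ ρ ∨ ‖P.v (k + 1) - z‖ ≤ ρ) → ‖P.v (k + 1) - P.v k‖ ≤ μ) {j : ℕ} (hj : j ≤ P.len) (hA : P.v j ∈ A) :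
    ∃ k, j ≤ k ∧ k ≤ P.len ∧ P.v k ∈ U := by
  obtain ⟨t, a1, a2, a3, a4⟩ := pvb_first (p := fun k => ρ ≤ ‖P.v k - z‖) hj hL
  obtain ⟨k, hk, hw⟩ := H (t - j) (fun k => P.v (j + k)) (fun k hk => by
    have h1 : ‖P.v (j + k) - z‖ ≤ ρ := (not_le.1 (a4 (j + k) (by omega) (by omega))).le
    exact mesh (j + k) (by omega) (Or.inl h1)) hA (by
    have : j + (t - j) = t := by omega
    show ρ ≤ ‖P.v (j + (t - j)) - z‖
    rw [this]; exact a3)
  exact ⟨j + k, by omega, by omega, hw⟩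

/-- backward form for a rim: from a vertex in `A` the rim has met `U` at that time or earlier -/
theorem PvtpScreen.bwd (H : PvtpScreen A U z ρ μ) (h0 : ρ ≤ ‖P.v 0 - z‖)
    (mesh : ∀ k < P.len, (‖P.v k - z‖ ≤ ρ ∨ ‖P.v (k + 1) - z‖ ≤ ρ) → ‖P.v (k + 1) - P.v k‖ ≤ μ) {j : ℕ} (hj : j ≤ P.len) (hA : P.v j ∈ A) :
    ∃ k, k ≤ j ∧ P.v k ∈ U := by
  obtain ⟨t, a1, a2, a3, a4⟩ := pvb_last (p := fun k => ρ ≤ ‖P.v k - z‖) (Nat.zero_le j) h0
  obtain ⟨k, hk, hw⟩ := H (j - t) (fun k => P.v (j - k)) (fun k hk => by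
    have h1 : ‖P.v (j - k) - z‖ ≤ ρ := (not_le.1 (a4 (j - k) (by omega) (by omega))).le
    have h2 : j - k = (j - (k + 1)) + 1 := by omega
    have h3 := mesh (j - (k + 1)) (by omega) (Or.inr (by rw [← h2]; exact h1))
    show ‖P.v (j - (k + 1)) - P.v (j - k)‖ ≤ μ
    rw [norm_sub_rev, h2]
    simpa using h3) (by simpa using hA) (by
    have : j - (j - t) = t := by omega
    show ρ ≤ ‖P.v (j - (j - t)) - z‖
    rw [this]; exact a3)
  exact ⟨j - k, by omega, hw⟩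

end screen

/-! ## §5 PORT -/

/-- **PORT** at one pin, for the obstacle `A` (= the points of `H^{+}`): `P` meets `A` only along `P[xm,xp] ⊇ K = P[mm,mp]`; the overhangs `P[mp,xp]`, `P[xm,mm]` have diameter `≤ e0` (the ports are the WINDOWS `B(v mp, e0)`, `B(v mm, e0)`);
the two continuations are `d1`-separated as long as one of them is in the window `B(z,ρ)` -/
structure PvtpPort (P : PvbRim) (z : ℂ) (i0 : ℕ) (A : Set ℂ) (rH μ e0 d1 ρ : ℝ) (xm mm mp xp : ℕ) : Prop where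
  marks : PvtpMarks P z i0 rH mm mp
  xm_le : xm ≤ mm
  le_xp : mp ≤ xp
  xp_le : xp ≤ P.len
  mp_rad : ‖P.v mp - z‖ ≤ rH + μ
  mm_rad : ‖P.v mm - z‖ ≤ rH + μ
  winp : PvtpDiam P mp xp e0
  winm : PvtpDiam P xm mm e0
  only : ∀ j ≤ P.len, P.v j ∈ A → xm ≤ j ∧ j ≤ xp
  sep : ∀ j' j, j' ≤ mm → mp ≤ j → j ≤ P.len → (‖P.v j' - z‖ ≤ ρ ∨ ‖P.v j - z‖ ≤ ρ) → d1 < ‖P.v j' - P.v j‖

section port

variable {P : PvbRim} {z : ℂ} {i0 mm mp lo hi xm xp : ℕ} {A : Set ℂ} {rH ra rb rB hh μ ρ d0 e0 d1 e1 : ℝ}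

/-- **(iii), general form**: a vertex before the pin and a vertex after the pin, one of them in the window and one of them at radius `> e1 + hh`, are `d1`-separated -/
theorem pvtp_sep (near : ‖P.v i0 - z‖ ≤ hh) (nr1 : PvtpNR P z ρ d1 e1) {j' j : ℕ} (h1 : j' ≤ i0) (h2 : i0 ≤ j) (h3 : j ≤ P.len)
    (hw : ‖P.v j' - z‖ ≤ ρ ∨ ‖P.v j - z‖ ≤ ρ) (hfar : e1 + hh < ‖P.v j' - z‖ ∨ e1 + hh < ‖P.v j - z‖) : d1 < ‖P.v j' - P.v j‖ := by
  by_contra hc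
  have D := nr1 j' j (h1.trans h2) h3 hw (not_lt.1 hc)
  rcases hfar with hf | hf
  · have a := D j' i0 le_rfl (h1.trans h2) h1 h2
    have := pvtp_tri (P.v j') (P.v i0) z
    linarith
  · have a := D j i0 (h1.trans h2) le_rfl h1 h2
    have := pvtp_tri (P.v j) (P.v i0) z
    linarith

/-- **TR17 = PORT** (true form).   Inputs: marks, TRAP by the gate `S3` in `(ra,rb)`, `rB ≤ ra`, `rb ≤ rH`; mesh `μ` in the window `B(z,ρ)`; the cut vertex outside the window; `NR(d0,e0)`, `NR(d1,e1)`; the body SCREENS the obstacle. -/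
theorem pvtp_port (M : PvtpMarks P z i0 rH mm mp) (T : PvtpTrap P z i0 ra rb lo hi) (near : ‖P.v i0 - z‖ ≤ hh)
    (h0 : ρ ≤ ‖P.v 0 - z‖) (hL : ρ ≤ ‖P.v P.len - z‖)
    (mesh : ∀ k < P.len, (‖P.v k - z‖ ≤ ρ ∨ ‖P.v (k + 1) - z‖ ≤ ρ) → ‖P.v (k + 1) - P.v k‖ ≤ μ)
    (nr0 : PvtpNR P z ρ d0 e0) (nr1 : PvtpNR P z ρ d1 e1)
    (hμ : 0 ≤ μ) (hd0 : 0 ≤ d0) (he1 : 0 ≤ e1) (hb : rb ≤ rH) (hB : rB ≤ ra) (hρ : rH + μ ≤ ρ) (hH : e1 + hh < rH)
    (scr : PvtpScreen A (pvtpBody P z rB d0 mm mp) z ρ μ) :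
    ∃ xm xp, PvtpPort P z i0 A rH μ e0 d1 ρ xm mm mp xp := by
  have hn : ‖P.v i0 - z‖ < rH := by linarith
  have hρ' : rH ≤ ρ := by linarith
  have hK : ∀ k, mm ≤ k → k ≤ mp → ‖P.v k - z‖ ≤ ρ := fun k h1 h2 => (M.K_rad hn hρ' hμ mesh h1 h2).trans hρ
  have hmm : mm ≤ mp := M.mm_le.trans M.le_mp
  obtain ⟨xp, a1, a2, a3, a4⟩ := pvb_last (p := fun k => P.v k ∈ pvtpBody P z rB d0 mm mp) M.mp_le (pvtp_K_body hd0 hmm le_rfl)
  obtain ⟨xm, b1, b2, b3, b4⟩ := pvb_first (p := fun k => P.v k ∈ pvtpBody P z rB d0 mm mp) (Nat.zero_le mm) (pvtp_K_body hd0 le_rfl hmm)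
  refine ⟨xm, xp, M, b2, a1, a2, M.mp_rad hn hρ' mesh, M.mm_rad hn hρ' mesh, pvtp_body_fwd M T hb hB hK nr0 a1 a2 a3,
    pvtp_body_bwd M T hb hB hK nr0 b2 b3, ?_, ?_⟩
  · intro j hj hA
    constructor
    · obtain ⟨k, k1, k2⟩ := scr.bwd h0 mesh hj hA
      by_contra hc
      exact b4 k (Nat.zero_le k) (by omega) k2
    · obtain ⟨k, k1, k2, k3⟩ := scr.fwd hL mesh hj hA
      by_contra hc
      exact a4 k (by omega) k2 k3
  · intro j' j h1 h2 h3 hw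
    by_contra hc
    have D := nr1 j' j (h1.trans (hmm.trans h2)) h3 hw (not_lt.1 hc)
    have a := D mp i0 (h1.trans hmm) h2 (h1.trans M.mm_le) (M.le_mp.trans h2)
    have := pvtp_tri (P.v mp) (P.v i0) z
    have := M.mp_far
    linarith

namespace PvtpPort

variable (H : PvtpPort P z i0 A rH μ e0 d1 ρ xm mm mp xp)
include H

theorem e0_nonneg : 0 ≤ e0 := by
  have := H.winp mp mp le_rfl H.le_xp le_rfl H.le_xp
  simpa using this

theorem xm_le_i0 : xm ≤ i0 := H.xm_le.trans H.marks.mm_le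

theorem i0_le_xp : i0 ≤ xp := H.marks.le_mp.trans H.le_xp

/-- the whole visit `P[xm,xp]` stays in `B(z, rH + μ + e0)` -/
theorem rad (hμ : 0 ≤ μ) {j : ℕ} (h1 : xm ≤ j) (h2 : j ≤ xp) : ‖P.v j - z‖ ≤ rH + μ + e0 := by
  have he := H.e0_nonneg
  rcases Nat.lt_or_ge mp j with h | h
  · have a := H.winp j mp h.le h2 le_rfl H.le_xp
    have := pvtp_tri (P.v j) (P.v mp) z
    have := H.mp_rad
    linarith
  rcases Nat.lt_or_ge j mm with h' | h'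
  · have a := H.winm j mm h1 h'.le H.xm_le le_rfl
    have := pvtp_tri (P.v j) (P.v mm) z
    have := H.mm_rad
    linarith
  rcases Nat.eq_or_lt_of_le h with e | e
  · rw [e]; have := H.mp_rad; linarith
  rcases Nat.eq_or_lt_of_le h' with e' | e'
  · rw [← e']; have := H.mm_rad; linarith
  have := H.marks.ins e' e
  linarith

/-- after `xp` the rim never meets the obstacle -/
theorem after {j : ℕ} (h1 : xp < j) (h2 : j ≤ P.len) : P.v j ∉ A := fun h => by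
  have := (H.only j h2 h).2
  omega

/-- before `xm` the rim never meets the obstacle -/
theorem before {j : ℕ} (h1 : j < xm) : P.v j ∉ A := fun h => by
  have := (H.only j (by have := H.xm_le_i0; have := H.i0_le_xp; have := H.xp_le; omega) h).1
  omega

/-- a vertex of `P` in the obstacle and after the mark `m⁺` lies in the exit window -/
theorem exit_win {j : ℕ} (h1 : mp ≤ j) (h2 : j ≤ P.len) (hA : P.v j ∈ A) : ‖P.v j - P.v mp‖ ≤ e0 :=
  H.winp j mp h1 (H.only j h2 hA).2 le_rfl H.le_xp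

/-- a vertex of `P` in the obstacle and before the mark `m⁻` lies in the entry window -/
theorem entry_win {j : ℕ} (h1 : j ≤ mm) (hA : P.v j ∈ A) : ‖P.v j - P.v mm‖ ≤ e0 :=
  H.winm j mm (H.only j (by have := H.marks.mm_le; have := H.i0_le_xp; have := H.xp_le; omega) hA).1 h1 H.xm_le le_rfl

/-- the two marks are `d1`-separated -/
theorem marks_sep (hρ : rH + μ ≤ ρ) : d1 < ‖P.v mm - P.v mp‖ :=
  H.sep mm mp le_rfl le_rfl H.marks.mp_le (Or.inl (H.mm_rad.trans hρ))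

/-- the two windows are `(d1 - 2 e0)`-separated -/
theorem win_sep (hρ : rH + μ ≤ ρ) {p q : ℂ} (hp : ‖p - P.v mm‖ ≤ e0) (hq : ‖q - P.v mp‖ ≤ e0) : d1 - 2 * e0 < ‖p - q‖ := by
  have h1 := H.marks_sep hρ
  have h2 := pvtp_tri (P.v mm) p (P.v mp)
  have h3 := pvtp_tri p q (P.v mp)
  rw [norm_sub_rev (P.v mm) p] at h2
  linarith

/-- smaller obstacle -/
theorem mono {A' : Set ℂ} (hA : A' ⊆ A) : PvtpPort P z i0 A' rH μ e0 d1 ρ xm mm mp xp :=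
  { H with only := fun j hj h => H.only j hj (hA h) }

/-- **polygon form**: an edge of `P` of length `≤ μ` which meets the core `A0` (`A0^{+μ} ⊆ A`) is an edge of `P[xm,xp]` -/
theorem only_seg {A0 : Set ℂ} (hA : ∀ p ∈ A0, ∀ q, ‖q - p‖ ≤ μ → q ∈ A) {j : ℕ} (hj : j < P.len) (hstep : ‖P.v (j + 1) - P.v j‖ ≤ μ) {p : ℂ}
    (hp : p ∈ segment ℝ (P.v j) (P.v (j + 1))) (hpA : p ∈ A0) : xm ≤ j ∧ j + 1 ≤ xp := by
  have h1 : ‖P.v j - p‖ ≤ μ := by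
    rw [norm_sub_rev]; exact (norm_sub_le_of_mem_segment hp).trans hstep
  have h2 : ‖P.v (j + 1) - p‖ ≤ μ := by
    rw [segment_symm] at hp
    rw [norm_sub_rev]
    refine (norm_sub_le_of_mem_segment hp).trans ?_
    rw [norm_sub_rev]; exact hstep
  exact ⟨(H.only j hj.le (hA p hpA _ h1)).1, (H.only (j + 1) hj (hA p hpA _ h2)).2⟩

end PvtpPort

end port

/-! ## §6 pairs of pins -/

section pair

variable {P : PvbRim} {zs zt : ℂ} {is it xms mms mps xps xmt mmt mpt xpt : ℕ} {As At : Set ℂ} {rHs rHt μ e0s e0t d1s d1t ρs ρt : ℝ}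

/-- **order of the two visits**: the visit of `s` ends before the visit of `t` begins -/
theorem pvtp_pair_order (Hs : PvtpPort P zs is As rHs μ e0s d1s ρs xms mms mps xps) (Ht : PvtpPort P zt it At rHt μ e0t d1t ρt xmt mmt mpt xpt)
    (hμ : 0 ≤ μ) (hlt : is < it) (hfar : (rHs + μ + e0s) + (rHt + μ + e0t) < ‖zs - zt‖) : xps < xmt := by
  have key : ∀ j, xms ≤ j → j ≤ xps → xmt ≤ j → j ≤ xpt → False := by
    intro j a1 a2 b1 b2
    have A := Hs.rad hμ a1 a2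
    have B := Ht.rad hμ b1 b2
    have := pvtp_tri zs (P.v j) zt
    rw [norm_sub_rev zs (P.v j)] at this
    linarith
  have h1 := Hs.xm_le_i0
  have h2 := Hs.i0_le_xp
  have h3 := Ht.xm_le_i0
  have h4 := Ht.i0_le_xp
  by_contra hc
  rcases Nat.lt_or_ge xps it with c1 | c1
  · rcases Nat.lt_or_ge is xmt with c2 | c2
    · exact key xmt (by omega) (by omega) le_rfl (by omega)
    · exact key is h1 h2 c2 (by omega)
  · exact key it (by omega) c1 h3 h4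

/-- the forward continuation of `t` misses both obstacles -/
theorem pvtp_pair_fwd (Hs : PvtpPort P zs is As rHs μ e0s d1s ρs xms mms mps xps) (Ht : PvtpPort P zt it At rHt μ e0t d1t ρt xmt mmt mpt xpt)
    (hord : xps < xmt) {j : ℕ} (h1 : xpt < j) (h2 : j ≤ P.len) : P.v j ∉ As ∧ P.v j ∉ At :=
  ⟨Hs.after (by have := Ht.xm_le_i0; have := Ht.i0_le_xp; omega) h2, Ht.after h1 h2⟩

/-- the backward continuation of `s` misses both obstacles -/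
theorem pvtp_pair_bwd (Hs : PvtpPort P zs is As rHs μ e0s d1s ρs xms mms mps xps) (Ht : PvtpPort P zt it At rHt μ e0t d1t ρt xmt mmt mpt xpt)
    (hord : xps < xmt) {j : ℕ} (h1 : j < xms) : P.v j ∉ As ∧ P.v j ∉ At :=
  ⟨Hs.before h1, Ht.before (by have := Hs.xm_le_i0; have := Hs.i0_le_xp; omega)⟩

/-- the middle of the arc `s → t` misses both obstacles -/
theorem pvtp_pair_mid (Hs : PvtpPort P zs is As rHs μ e0s d1s ρs xms mms mps xps) (Ht : PvtpPort P zt it At rHt μ e0t d1t ρt xmt mmt mpt xpt)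
    {j : ℕ} (h1 : xps < j) (h2 : j < xmt) : P.v j ∉ As ∧ P.v j ∉ At :=
  ⟨Hs.after h1 (by have := Ht.xm_le_i0; have := Ht.i0_le_xp; have := Ht.xp_le; omega), Ht.before h2⟩

end pair

/-! ## §7 the instance on the polyomino kit -/

section poly

variable {S S' E : Set (ℤ × ℤ)} {c c' : ℤ × ℤ} {δ μ ρ : ℝ} {z p q : ℂ}

/-- a cell of the hull which TOUCHES (8-adjacency) a cell of the outside: both lie in the collar of `S` -/
theorem pvtp_hull_adj (hc : c ∈ pvtHull S) (hc' : c' ∈ pvtOut S) (h : pvtG8.Adj c c') : c ∈ pvtN8 S ∧ c' ∈ pvtN8 S := by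
  by_cases ht : triAdj c c'
  · have hS := pvt_hull_bd hc hc' ht
    exact ⟨pvt_N8_sub hS, c, hS, Or.inr h⟩
  · have h' : c ≠ c' ∧ c'.1 ≤ c.1 + 1 ∧ c.1 ≤ c'.1 + 1 ∧ c'.2 ≤ c.2 + 1 ∧ c.2 ≤ c'.2 + 1 := h
    have hne : c.1 ≠ c'.1 ∨ c.2 ≠ c'.2 := by
      by_contra hcon
      rw [not_or, not_not, not_not] at hcon
      exact h'.1 (Prod.ext hcon.1 hcon.2)
    rw [tsc_adj_iff] at ht
    have t1 : triAdj c (c'.1, c.2) := by
      rw [tsc_adj_iff]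
      show (c'.1 = c.1 + 1 ∧ c.2 = c.2) ∨ (c'.1 = c.1 ∧ c.2 = c.2 + 1) ∨ (c'.1 = c.1 - 1 ∧ c.2 = c.2 + 1) ∨
        (c'.1 = c.1 - 1 ∧ c.2 = c.2) ∨ (c'.1 = c.1 ∧ c.2 = c.2 - 1) ∨ (c'.1 = c.1 + 1 ∧ c.2 = c.2 - 1)
      omega
    have t2 : triAdj (c'.1, c.2) c' := by
      rw [tsc_adj_iff]
      show (c'.1 = c'.1 + 1 ∧ c'.2 = c.2) ∨ (c'.1 = c'.1 ∧ c'.2 = c.2 + 1) ∨ (c'.1 = c'.1 - 1 ∧ c'.2 = c.2 + 1) ∨
        (c'.1 = c'.1 - 1 ∧ c'.2 = c.2) ∨ (c'.1 = c'.1 ∧ c'.2 = c.2 - 1) ∨ (c'.1 = c'.1 + 1 ∧ c'.2 = c.2 - 1)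
      omega
    by_cases he : (c'.1, c.2) ∈ pvtOut S
    · have hS := pvt_hull_bd hc he t1
      exact ⟨pvt_N8_sub hS, c, hS, Or.inr h⟩
    · have hS := pvt_hull_bd (show (c'.1, c.2) ∈ pvtHull S from he) hc' t2
      exact ⟨⟨_, hS, Or.inr (pvt_tri_g8 t1).symm⟩, ⟨_, hS, Or.inr (pvt_tri_g8 t2)⟩⟩

/-- **HULL LEMMA**: the collar of the hull lies in the hull of the collar -/
theorem pvtp_N8_hull : pvtN8 (pvtHull S) ⊆ pvtHull (pvtN8 S) := by
  rintro w ⟨c, hc, hw⟩ hout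
  have hwS : w ∈ pvtOut S := pvt_out_anti pvt_N8_sub hout
  have hnot : w ∉ pvtN8 S := pvt_out_sub hout
  rcases hw with rfl | hadj
  · exact hc hwS
  · exact hnot (pvtp_hull_adj hc hwS hadj).2

/-- iterated form of the hull lemma -/
theorem pvtp_fat_hull (k : ℕ) : pvtN8^[k] (pvtHull S) ⊆ pvtHull (pvtN8^[k] S) := by
  induction k with
  | zero => exact le_rfl
  | succ k ih =>
    rw [Function.iterate_succ_apply', Function.iterate_succ_apply']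
    exact (pvt_N8_mono ih).trans pvtp_N8_hull

theorem pvtp_fat_mono (k : ℕ) (h : S ⊆ S') : pvtN8^[k] S ⊆ pvtN8^[k] S' := by
  induction k with
  | zero => exact h
  | succ k ih =>
    rw [Function.iterate_succ_apply', Function.iterate_succ_apply']
    exact pvt_N8_mono ih

theorem pvtp_fat_sub (k : ℕ) : S ⊆ pvtN8^[k] S := by
  induction k with
  | zero => exact le_rfl
  | succ k ih =>
    rw [Function.iterate_succ_apply']
    exact ih.trans pvt_N8_sub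

theorem pvtp_N8_union : pvtN8 (S ∪ S') = pvtN8 S ∪ pvtN8 S' := by
  ext w
  constructor
  · rintro ⟨c, hc | hc, hw⟩
    · exact Or.inl ⟨c, hc, hw⟩
    · exact Or.inr ⟨c, hc, hw⟩
  · rintro (⟨c, hc, hw⟩ | ⟨c, hc, hw⟩)
    · exact ⟨c, Or.inl hc, hw⟩
    · exact ⟨c, Or.inr hc, hw⟩

theorem pvtp_fat_union (k : ℕ) : pvtN8^[k] (S ∪ S') = pvtN8^[k] S ∪ pvtN8^[k] S' := by
  induction k with
  | zero => rfl
  | succ k ih =>
    rw [Function.iterate_succ_apply', Function.iterate_succ_apply', Function.iterate_succ_apply', ih, pvtp_N8_union]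

/-- filling a part first changes nothing -/
theorem pvtp_hull_union_hull : pvtHull (S ∪ pvtHull S') = pvtHull (S ∪ S') := by
  apply Set.Subset.antisymm
  · have h : S ∪ pvtHull S' ⊆ pvtHull (S ∪ S') :=
      Set.union_subset (Set.subset_union_left.trans pvt_hull_sub) (pvt_hull_mono Set.subset_union_right)
    calc pvtHull (S ∪ pvtHull S') ⊆ pvtHull (pvtHull (S ∪ S')) := pvt_hull_mono h
      _ = pvtHull (S ∪ S') := pvt_hull_idem
  · exact pvt_hull_mono (Set.union_subset_union_right S pvt_hull_sub)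

/-- a point of the collar is within `2δ` of a point of the set -/
theorem pvtp_N8_near (hδ : 0 < δ) (hp : p ∈ pvtU δ (pvtN8 E)) : ∃ q ∈ pvtU δ E, ‖p - q‖ ≤ 2 * δ := by
  obtain ⟨w, ⟨c, hc, hw⟩, hpw⟩ := Set.mem_iUnion₂.1 hp
  obtain ⟨r, hr1, hr2⟩ := (pvt_sq_meet (z := c) (w := w) hδ).2 (hw.imp Eq.symm id)
  exact ⟨r, Set.mem_iUnion₂.2 ⟨c, hc, hr1⟩, pvt_sq_diam hpw hr2⟩

/-- a point of the `k`-th collar is within `2kδ` of a point of the set -/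
theorem pvtp_fat_near (hδ : 0 < δ) (k : ℕ) (hp : p ∈ pvtU δ (pvtN8^[k] E)) : ∃ q ∈ pvtU δ E, ‖p - q‖ ≤ 2 * k * δ := by
  induction k generalizing p with
  | zero => exact ⟨p, hp, by simp⟩
  | succ k ih =>
    rw [Function.iterate_succ_apply'] at hp
    obtain ⟨q, hq, h1⟩ := pvtp_N8_near hδ hp
    obtain ⟨q', hq', h2⟩ := ih hq
    refine ⟨q', hq', ?_⟩
    have := pvtp_tri p q q'
    push_cast
    linarith

/-- **the collar of `S` screens the hull of `S`** at every mesh `μ ≤ δ` -/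
theorem pvtp_screen_hull (hδ : 0 < δ) (hμ : μ ≤ δ) (hin : ∀ p ∈ pvtU δ (pvtHull S), ‖p - z‖ < ρ) :
    PvtpScreen (pvtU δ (pvtHull S)) (pvtU δ (pvtN8 S)) z ρ μ := by
  intro n w hstep h0 hn
  obtain ⟨t, -, t2, t3, t4⟩ := pvb_last (p := fun k => w k ∈ pvtU δ (pvtHull S)) (Nat.zero_le n) h0
  have htn : t < n := by
    rcases Nat.eq_or_lt_of_le t2 with h | h
    · rw [h] at t3
      exact absurd hn (not_le.2 (hin _ t3))
    · exact h
  obtain ⟨c, hc, hwc⟩ := Set.mem_iUnion₂.1 t3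
  obtain ⟨c', hcc, hwc'⟩ := pvt_sq_ball hδ hwc ((hstep t htn).trans hμ)
  have hc' : c' ∈ pvtOut S := by
    by_contra hcon
    exact t4 (t + 1) (by omega) htn (Set.mem_iUnion₂.2 ⟨c', hcon, hwc'⟩)
  rcases hcc with rfl | hadj
  · exact absurd hc' hc
  · exact ⟨t, t2, Set.mem_iUnion₂.2 ⟨c, (pvtp_hull_adj hc hc' hadj).1, hwc⟩⟩

/-- the same for the `k`-th collar of the hull -/
theorem pvtp_screen_fat (hδ : 0 < δ) (hμ : μ ≤ δ) (k : ℕ) (hin : ∀ p ∈ pvtU δ (pvtHull (pvtN8^[k] S)), ‖p - z‖ < ρ) :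
    PvtpScreen (pvtU δ (pvtN8^[k] (pvtHull S))) (pvtU δ (pvtN8^[k + 1] S)) z ρ μ := by
  have := pvtp_screen_hull (S := pvtN8^[k] S) hδ hμ hin
  rw [Function.iterate_succ_apply']
  exact this.mono (pvt_U_mono (pvtp_fat_hull k)) le_rfl le_rfl le_rfl

end poly

section polyport

variable {P : PvbRim} {z : ℂ} {i0 mm mp lo hi : ℕ} {rH ra rb rB hh μ ρ d0 e0 d1 e1 δ : ℝ} {S : Set (ℤ × ℤ)}

/-- **PORT for a polyomino obstacle** `H = Hull S`, fattened `k` times: it is enough that the `(k+1)`-st collar of the UNFILLED set `S` lies in the metric body -/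
theorem pvtp_port_poly (M : PvtpMarks P z i0 rH mm mp) (T : PvtpTrap P z i0 ra rb lo hi) (near : ‖P.v i0 - z‖ ≤ hh)
    (h0 : ρ ≤ ‖P.v 0 - z‖) (hL : ρ ≤ ‖P.v P.len - z‖)
    (mesh : ∀ k < P.len, (‖P.v k - z‖ ≤ ρ ∨ ‖P.v (k + 1) - z‖ ≤ ρ) → ‖P.v (k + 1) - P.v k‖ ≤ μ)
    (nr0 : PvtpNR P z ρ d0 e0) (nr1 : PvtpNR P z ρ d1 e1)
    (hμ : 0 ≤ μ) (hd0 : 0 ≤ d0) (he1 : 0 ≤ e1) (hb : rb ≤ rH) (hB : rB ≤ ra) (hρ : rH + μ ≤ ρ) (hH : e1 + hh < rH)
    (hδ : 0 < δ) (hμδ : μ ≤ δ) (k : ℕ) (hin : ∀ p ∈ pvtU δ (pvtHull (pvtN8^[k] S)), ‖p - z‖ < ρ)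
    (hbody : pvtU δ (pvtN8^[k + 1] S) ⊆ pvtpBody P z rB d0 mm mp) :
    ∃ xm xp, PvtpPort P z i0 (pvtU δ (pvtN8^[k] (pvtHull S))) rH μ e0 d1 ρ xm mm mp xp :=
  pvtp_port M T near h0 hL mesh nr0 nr1 hμ hd0 he1 hb hB hρ hH ((pvtp_screen_fat hδ hμδ k hin).mono le_rfl hbody le_rfl le_rfl)

end polyport

/-! ## §8 polygons, collars in metric form      (k1)-(k3) of `MENU_205.md` -/

/-- the polygonal arc through the vertices number `a, …, b` of the cut rim -/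
def pvtpPoly (P : PvbRim) (a b : ℕ) : Set ℂ :=
  {p | ∃ k, a ≤ k ∧ k ≤ b ∧ (p = P.v k ∨ (k < b ∧ p ∈ segment ℝ (P.v k) (P.v (k + 1))))}

theorem pvtp_eqns_cite3 : True := by
  have := @pvtpPoly.eq_1
  trivial

section poly2

variable {P : PvbRim} {a b a' b' c k : ℕ} {z p q : ℂ} {μ r δ : ℝ} {E : Set (ℤ × ℤ)} {K : Set ℂ}

theorem pvtp_poly_vert (h1 : a ≤ k) (h2 : k ≤ b) : P.v k ∈ pvtpPoly P a b := ⟨k, h1, h2, Or.inl rfl⟩

theorem pvtp_poly_seg (h1 : a ≤ k) (h2 : k < b) : segment ℝ (P.v k) (P.v (k + 1)) ⊆ pvtpPoly P a b :=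
  fun _ hp => ⟨k, h1, h2.le, Or.inr ⟨h2, hp⟩⟩

theorem pvtp_poly_mono (h1 : a' ≤ a) (h2 : b ≤ b') : pvtpPoly P a b ⊆ pvtpPoly P a' b' := by
  rintro p ⟨k, k1, k2, hk⟩
  exact ⟨k, h1.trans k1, k2.trans h2, hk.imp id fun h => ⟨lt_of_lt_of_le h.1 h2, h.2⟩⟩

theorem pvtp_poly_union (h1 : a ≤ c) (h2 : c ≤ b) : pvtpPoly P a b = pvtpPoly P a c ∪ pvtpPoly P c b := by
  apply Set.Subset.antisymm
  · rintro p ⟨k, k1, k2, hk⟩
    rcases Nat.lt_or_ge k c with h | h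
    · exact Or.inl ⟨k, k1, h.le, hk.imp id fun h' => ⟨h, h'.2⟩⟩
    · exact Or.inr ⟨k, h, k2, hk⟩
  · exact Set.union_subset (pvtp_poly_mono le_rfl h2) (pvtp_poly_mono h1 le_rfl)

theorem pvtp_poly_self : pvtpPoly P a a = {P.v a} := by
  ext p
  constructor
  · rintro ⟨k, k1, k2, hk | hk⟩
    · rw [hk, le_antisymm k2 k1]; rfl
    · omega
  · rintro rfl
    exact pvtp_poly_vert le_rfl le_rfl

theorem pvtp_poly_succ (h : a ≤ b) : pvtpPoly P a (b + 1) = pvtpPoly P a b ∪ segment ℝ (P.v b) (P.v (b + 1)) := by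
  rw [pvtp_poly_union h (Nat.le_succ b)]
  congr 1
  apply Set.Subset.antisymm
  · rintro p ⟨k, k1, k2, hk | hk⟩
    · rcases Nat.eq_or_lt_of_le k1 with e | e
      · rw [hk, ← e]; exact left_mem_segment ℝ _ _
      · have : k = b + 1 := by omega
        rw [hk, this]; exact right_mem_segment ℝ _ _
    · have : k = b := by omega
      rw [this] at hk; exact hk.2
  · exact pvtp_poly_seg le_rfl (Nat.lt_succ_self b)

/-- a polygonal arc is connected -/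
theorem pvtp_poly_conn (h : a ≤ b) : IsPreconnected (pvtpPoly P a b) := by
  induction b, h using Nat.le_induction with
  | base => rw [pvtp_poly_self]; exact isPreconnected_singleton
  | succ b hb ih =>
    rw [pvtp_poly_succ hb]
    exact ih.union (P.v b) (pvtp_poly_vert hb le_rfl) (left_mem_segment ℝ _ _) (convex_segment _ _).isPreconnected

/-- a polygonal arc with vertices in a closed ball lies in the ball -/
theorem pvtp_poly_ball (h : ∀ k, a ≤ k → k ≤ b → ‖P.v k - z‖ ≤ r) (hp : p ∈ pvtpPoly P a b) : ‖p - z‖ ≤ r := by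
  obtain ⟨k, k1, k2, hk | hk⟩ := hp
  · rw [hk]; exact h k k1 k2
  · have hc : segment ℝ (P.v k) (P.v (k + 1)) ⊆ Metric.closedBall z r :=
      (convex_closedBall z r).segment_subset (mem_closedBall_iff_norm.2 (h k k1 k2)) (mem_closedBall_iff_norm.2 (h (k + 1) (by omega) hk.1))
    exact mem_closedBall_iff_norm.1 (hc hk.2)

theorem pvtp_poly_bdd : Bornology.IsBounded (pvtpPoly P a b) := by
  classical
  obtain ⟨r, hr⟩ : ∃ r : ℝ, ∀ k, a ≤ k → k ≤ b → ‖P.v k - 0‖ ≤ r := by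
    refine ⟨∑ k ∈ Finset.range (b + 1), ‖P.v k - 0‖, fun k _ h2 => ?_⟩
    exact Finset.single_le_sum (f := fun k => ‖P.v k - 0‖) (fun i _ => norm_nonneg _) (Finset.mem_range.2 (by omega))
  exact (Metric.isBounded_closedBall (x := (0 : ℂ)) (r := r)).subset fun p hp => mem_closedBall_iff_norm.2 (pvtp_poly_ball hr hp)

/-- a point of the polygon is within one step of a vertex -/
theorem pvtp_poly_near (hμ : 0 ≤ μ) (mesh : ∀ k, a ≤ k → k < b → ‖P.v (k + 1) - P.v k‖ ≤ μ) (hp : p ∈ pvtpPoly P a b) :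
    ∃ k, a ≤ k ∧ k ≤ b ∧ ‖p - P.v k‖ ≤ μ := by
  obtain ⟨k, k1, k2, hk | hk⟩ := hp
  · exact ⟨k, k1, k2, by rw [hk]; simpa using hμ⟩
  · exact ⟨k, k1, k2, (norm_sub_le_of_mem_segment hk.2).trans (mesh k k1 hk.1)⟩

/-- (k1), iterated: the `k`-th collar contains the `kδ`-neighbourhood -/
theorem pvtp_fat_U (hδ : 0 < δ) (n : ℕ) (hp : p ∈ pvtU δ E) (hq : ‖q - p‖ ≤ n * δ) : q ∈ pvtU δ (pvtN8^[n] E) := by
  induction n generalizing q with
  | zero =>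
    have : q = p := by
      have h0 : ‖q - p‖ ≤ 0 := by simpa using hq
      exact sub_eq_zero.1 (norm_le_zero_iff.1 h0)
    rw [this]; exact hp
  | succ n ih =>
    rw [Function.iterate_succ_apply']
    set t : ℝ := (n : ℝ) / ((n : ℝ) + 1) with ht
    have hn : (0 : ℝ) < (n : ℝ) + 1 := by positivity
    have ht0 : 0 ≤ t := by positivity
    set p' : ℂ := p + (t : ℂ) * (q - p) with hp'
    push_cast at hq
    have h1 : ‖p' - p‖ ≤ n * δ := by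
      have : p' - p = (t : ℂ) * (q - p) := by rw [hp']; ring
      rw [this, norm_mul, Complex.norm_real, Real.norm_of_nonneg ht0]
      calc t * ‖q - p‖ ≤ t * (((n : ℝ) + 1) * δ) := mul_le_mul_of_nonneg_left hq ht0
        _ = n * δ := by rw [ht]; field_simp
    have h2 : ‖q - p'‖ ≤ δ := by
      have : q - p' = ((1 - t : ℝ) : ℂ) * (q - p) := by rw [hp']; push_cast; ring
      have h1t : 0 ≤ 1 - t := by
        rw [ht, sub_nonneg, div_le_one hn]; linarith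
      rw [this, norm_mul, Complex.norm_real, Real.norm_of_nonneg h1t]
      calc (1 - t) * ‖q - p‖ ≤ (1 - t) * (((n : ℝ) + 1) * δ) := mul_le_mul_of_nonneg_left hq h1t
        _ = δ := by rw [ht]; field_simp; ring
    exact pvt_N8_U hδ (ih h1) h2

/-- (k2), iterated: off the `k`-th collar one is at distance `> kδ` -/
theorem pvtp_fat_far (hδ : 0 < δ) (n : ℕ) (hp : p ∈ pvtU δ E) (hq : q ∉ pvtU δ (pvtN8^[n] E)) : n * δ < ‖q - p‖ := by
  by_contra hc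
  exact hq (pvtp_fat_U hδ n hp (not_lt.1 hc))

/-- (k3): a point of the `n`-th collar of the cells of `K` is within `2 (n+1) δ` of `K` -/
theorem pvtp_cells_near (hδ : 0 < δ) (n : ℕ) (hp : p ∈ pvtU δ (pvtN8^[n] (pvtCells δ K))) : ∃ q ∈ K, ‖p - q‖ ≤ 2 * (n + 1) * δ := by
  obtain ⟨q, hq, h1⟩ := pvtp_fat_near hδ n hp
  obtain ⟨q', hq', h2⟩ := pvt_cells_near hq
  refine ⟨q', hq', ?_⟩
  have := pvtp_tri p q q'
  linarith

/-- (k3) for a cell -/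
theorem pvtp_cell_near (hδ : 0 < δ) (n : ℕ) {c : ℤ × ℤ} (hc : c ∈ pvtN8^[n] (pvtCells δ K)) (hp : p ∈ pvtSq δ c) : ∃ q ∈ K, ‖p - q‖ ≤ 2 * (n + 1) * δ :=
  pvtp_cells_near hδ n (Set.mem_iUnion₂.2 ⟨c, hc, hp⟩)

/-- (k3) for the cells of a polygonal arc: within `2 (n+1) δ + μ` of a VERTEX -/
theorem pvtp_poly_cells_near (hδ : 0 < δ) (hμ : 0 ≤ μ) (mesh : ∀ k, a ≤ k → k < b → ‖P.v (k + 1) - P.v k‖ ≤ μ) (n : ℕ)
    (hp : p ∈ pvtU δ (pvtN8^[n] (pvtCells δ (pvtpPoly P a b)))) : ∃ k, a ≤ k ∧ k ≤ b ∧ ‖p - P.v k‖ ≤ 2 * (n + 1) * δ + μ := by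
  obtain ⟨q, hq, h1⟩ := pvtp_cells_near hδ n hp
  obtain ⟨k, k1, k2, h2⟩ := pvtp_poly_near hμ mesh hq
  refine ⟨k, k1, k2, ?_⟩
  have := pvtp_tri p q (P.v k)
  linarith

end poly2

/-! ## §9 chains of cuts, separation      M1, M2 of `MENU_205.md` -/

/-- **a chain of cuts** `κ 0 ≤ κ 1 ≤ … ≤ κ N ≤ len`: every piece `P[κ i, κ (i+1)]` has diameter `> e`, and `P[κ 0, κ N]` lies in the window `B(z,ρ)` -/
structure PvtpCuts (P : PvbRim) (z : ℂ) (ρ e : ℝ) (N : ℕ) (κ : ℕ → ℕ) : Prop where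
  mono : ∀ i < N, κ i ≤ κ (i + 1)
  le_len : κ N ≤ P.len
  big : ∀ i < N, ∃ k k', κ i ≤ k ∧ k ≤ κ (i + 1) ∧ κ i ≤ k' ∧ k' ≤ κ (i + 1) ∧ e < ‖P.v k - P.v k'‖
  win : ∀ k, κ 0 ≤ k → k ≤ κ N → ‖P.v k - z‖ ≤ ρ

section cuts

variable {P : PvbRim} {z : ℂ} {ρ e d e' d' μ : ℝ} {N : ℕ} {κ : ℕ → ℕ} {i j s t : ℕ}

/-- contrapositive of `NR(d,e)` -/
theorem PvtpNR.far (nr : PvtpNR P z ρ d e) {k k' : ℕ} (h1 : s ≤ k) (h2 : k ≤ t) (h1' : s ≤ k') (h2' : k' ≤ t) (ht : t ≤ P.len)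
    (hw : ‖P.v s - z‖ ≤ ρ ∨ ‖P.v t - z‖ ≤ ρ) (hbig : e < ‖P.v k - P.v k'‖) : d < ‖P.v s - P.v t‖ := by
  by_contra hc
  exact absurd (nr s t (h1.trans h2) ht hw (not_lt.1 hc) k k' h1 h2 h1' h2') (not_le.2 hbig)

theorem PvtpCuts.le (C : PvtpCuts P z ρ e N κ) (hij : i ≤ j) (hj : j ≤ N) : κ i ≤ κ j := by
  induction j, hij using Nat.le_induction with
  | base => exact le_rfl
  | succ j hj' ih => exact (ih (by omega)).trans (C.mono j (by omega))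

theorem PvtpCuts.win' (C : PvtpCuts P z ρ e N κ) (hi : i < N) (h1 : κ i ≤ s) (h2 : s ≤ κ (i + 1)) : ‖P.v s - z‖ ≤ ρ :=
  C.win s ((C.le (Nat.zero_le i) hi.le).trans h1) (h2.trans (C.le hi le_rfl))

/-- **M2 (a)**: two pieces which are not neighbours are `d`-separated -/
theorem PvtpCuts.sep (C : PvtpCuts P z ρ e N κ) (nr : PvtpNR P z ρ d e) (hij : i + 2 ≤ j) (hj : j < N)
    (s1 : κ i ≤ s) (s2 : s ≤ κ (i + 1)) (t1 : κ j ≤ t) (t2 : t ≤ κ (j + 1)) : d < ‖P.v s - P.v t‖ := by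
  obtain ⟨k, k', a1, a2, b1, b2, hb⟩ := C.big (i + 1) (by omega)
  have h3 : κ (i + 1 + 1) ≤ κ j := C.le (by omega) hj.le
  have h4 : κ (j + 1) ≤ κ N := C.le hj le_rfl
  exact nr.far (s2.trans a1) (a2.trans (h3.trans t1)) (s2.trans b1) (b2.trans (h3.trans t1)) (t2.trans (h4.trans C.le_len))
    (Or.inl (C.win' (by omega) s1 s2)) hb

/-- **M2 (b)**: two close points of neighbouring pieces lie near the common mark (any level `(d',e')`) -/
theorem PvtpCuts.nbr (C : PvtpCuts P z ρ e N κ) (nr : PvtpNR P z ρ d' e') (hi : i + 1 < N)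
    (s1 : κ i ≤ s) (s2 : s ≤ κ (i + 1)) (t1 : κ (i + 1) ≤ t) (t2 : t ≤ κ (i + 1 + 1)) (hst : ‖P.v s - P.v t‖ ≤ d') :
    ‖P.v s - P.v (κ (i + 1))‖ ≤ e' ∧ ‖P.v t - P.v (κ (i + 1))‖ ≤ e' := by
  have h4 : κ (i + 1 + 1) ≤ κ N := C.le hi le_rfl
  have D := nr s t (s2.trans t1) (t2.trans (h4.trans C.le_len)) (Or.inl (C.win' (by omega) s1 s2)) hst
  exact ⟨D s _ le_rfl (s2.trans t1) s2 t1, D t _ (s2.trans t1) le_rfl s2 t1⟩

/-- **M2 (d)**, forward: a piece which is not the last one is `d`-separated from the forward continuation -/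
theorem PvtpCuts.sep_fwd (C : PvtpCuts P z ρ e N κ) (nr : PvtpNR P z ρ d e) (hi : i + 1 < N)
    (s1 : κ i ≤ s) (s2 : s ≤ κ (i + 1)) (t1 : κ N ≤ t) (t2 : t ≤ P.len) : d < ‖P.v s - P.v t‖ := by
  obtain ⟨k, k', a1, a2, b1, b2, hb⟩ := C.big (i + 1) hi
  have h4 : κ (i + 1 + 1) ≤ κ N := C.le hi le_rfl
  exact nr.far (s2.trans a1) (a2.trans (h4.trans t1)) (s2.trans b1) (b2.trans (h4.trans t1)) t2 (Or.inl (C.win' (by omega) s1 s2)) hb

/-- **M2 (d)**, backward: a piece which is not the first one is `d`-separated from the backward continuation -/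
theorem PvtpCuts.sep_bwd (C : PvtpCuts P z ρ e N κ) (nr : PvtpNR P z ρ d e) (hi0 : 1 ≤ i) (hi : i < N)
    (s1 : κ i ≤ s) (s2 : s ≤ κ (i + 1)) (t1 : t ≤ κ 0) : d < ‖P.v t - P.v s‖ := by
  obtain ⟨k, k', a1, a2, b1, b2, hb⟩ := C.big (i - 1) (by omega)
  have e1 : i - 1 + 1 = i := by omega
  rw [e1] at a2 b2
  have h3 : κ 0 ≤ κ (i - 1) := C.le (Nat.zero_le _) (by omega)
  have h4 : κ (i + 1) ≤ κ N := C.le hi le_rfl
  exact nr.far (t1.trans (h3.trans a1)) (a2.trans s1) (t1.trans (h3.trans b1)) (b2.trans s1) (s2.trans (h4.trans C.le_len))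
    (Or.inr (C.win' hi s1 s2)) hb

end cuts

section cuts2

variable {P : PvbRim} {z : ℂ} {ρ e d e' d' μ : ℝ} {N : ℕ} {κ : ℕ → ℕ} {i j s t : ℕ}

/-- M2 (a) + (d), forward: a piece is `d`-separated from everything after the next piece -/
theorem PvtpCuts.sep_ge (C : PvtpCuts P z ρ e N κ) (nr : PvtpNR P z ρ d e) (hi : i + 1 < N)
    (s1 : κ i ≤ s) (s2 : s ≤ κ (i + 1)) (t1 : κ (i + 2) ≤ t) (t2 : t ≤ P.len) : d < ‖P.v s - P.v t‖ := by
  obtain ⟨k, k', a1, a2, b1, b2, hb⟩ := C.big (i + 1) hi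
  exact nr.far (s2.trans a1) (a2.trans t1) (s2.trans b1) (b2.trans t1) t2 (Or.inl (C.win' (by omega) s1 s2)) hb

/-- M2 (a) + (d), backward: a piece is `d`-separated from everything before the previous piece -/
theorem PvtpCuts.sep_le (C : PvtpCuts P z ρ e N κ) (nr : PvtpNR P z ρ d e) (hi0 : 1 ≤ i) (hi : i < N)
    (s1 : κ i ≤ s) (s2 : s ≤ κ (i + 1)) (t1 : t ≤ κ (i - 1)) : d < ‖P.v t - P.v s‖ := by
  obtain ⟨k, k', a1, a2, b1, b2, hb⟩ := C.big (i - 1) (by omega)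
  have e1 : i - 1 + 1 = i := by omega
  rw [e1] at a2 b2
  have h4 : κ (i + 1) ≤ κ N := C.le hi le_rfl
  exact nr.far (t1.trans a1) (a2.trans s1) (t1.trans b1) (b2.trans s1) (s2.trans (h4.trans C.le_len)) (Or.inr (C.win' hi s1 s2)) hb

/-- a STRETCH `P[κ a, κ b]` is `d`-separated from everything after `κ (b+1)` -/
theorem PvtpCuts.stretch_ge (C : PvtpCuts P z ρ e N κ) (nr : PvtpNR P z ρ d e) {a b : ℕ} (hb : b < N)
    (s1 : κ a ≤ s) (s2 : s ≤ κ b) (ha : a ≤ b) (t1 : κ (b + 1) ≤ t) (t2 : t ≤ P.len) : d < ‖P.v s - P.v t‖ := by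
  obtain ⟨k, k', a1, a2, b1, b2, hbig⟩ := C.big b hb
  have hw : ‖P.v s - z‖ ≤ ρ := C.win s ((C.le (Nat.zero_le a) (by omega)).trans s1) (s2.trans (C.le hb.le le_rfl))
  exact nr.far (s2.trans a1) (a2.trans t1) (s2.trans b1) (b2.trans t1) t2 (Or.inl hw) hbig

/-- a STRETCH `P[κ a, κ b]` is `d`-separated from everything before `κ (a-1)` -/
theorem PvtpCuts.stretch_le (C : PvtpCuts P z ρ e N κ) (nr : PvtpNR P z ρ d e) {a b : ℕ} (ha0 : 1 ≤ a) (hb : b ≤ N)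
    (s1 : κ a ≤ s) (s2 : s ≤ κ b) (ha : a ≤ b) (t1 : t ≤ κ (a - 1)) : d < ‖P.v t - P.v s‖ := by
  obtain ⟨k, k', a1, a2, b1, b2, hbig⟩ := C.big (a - 1) (by omega)
  have e1 : a - 1 + 1 = a := by omega
  rw [e1] at a2 b2
  have hw : ‖P.v s - z‖ ≤ ρ := C.win s ((C.le (Nat.zero_le a) (by omega)).trans s1) (s2.trans (C.le hb le_rfl))
  exact nr.far (t1.trans a1) (a2.trans s1) (t1.trans b1) (b2.trans s1) (s2.trans ((C.le hb le_rfl).trans C.le_len)) (Or.inr hw) hbig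

/-- **(T6)**: two distinct marks are `d`-separated -/
theorem PvtpCuts.marks_sep (C : PvtpCuts P z ρ e N κ) (nr : PvtpNR P z ρ d e) (hij : i < j) (hj : j ≤ N) : d < ‖P.v (κ i) - P.v (κ j)‖ := by
  obtain ⟨k, k', a1, a2, b1, b2, hb⟩ := C.big i (by omega)
  have h3 : κ (i + 1) ≤ κ j := C.le hij hj
  exact nr.far a1 (a2.trans h3) b1 (b2.trans h3) ((C.le hj le_rfl).trans C.le_len)
    (Or.inl (C.win _ (C.le (Nat.zero_le i) (by omega)) (C.le (by omega) le_rfl))) hb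

/-- the mesh on a stretch of the chain -/
theorem PvtpCuts.mesh (C : PvtpCuts P z ρ e N κ)
    (mesh : ∀ k < P.len, (‖P.v k - z‖ ≤ ρ ∨ ‖P.v (k + 1) - z‖ ≤ ρ) → ‖P.v (k + 1) - P.v k‖ ≤ μ) {a b : ℕ} (hab : a ≤ b) (hb : b ≤ N) :
    ∀ k, κ a ≤ k → k < κ b → ‖P.v (k + 1) - P.v k‖ ≤ μ := by
  intro k k1 k2
  have h1 : κ b ≤ κ N := C.le hb le_rfl
  have h2 : κ 0 ≤ κ a := C.le (Nat.zero_le a) (hab.trans hb)
  exact mesh k (by have := C.le_len; omega) (Or.inl (C.win k (h2.trans k1) (by omega)))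

end cuts2

/-! ## §10 the tower of marks      M1 of `MENU_205.md` -/

/-- the tower of marks: `tp j` / `tm j` = first / last passage of the radius `r j`, `1 ≤ j ≤ n` -/
structure PvtpTower (P : PvbRim) (z : ℂ) (i0 : ℕ) (r : ℕ → ℝ) (n : ℕ) (tm tp : ℕ → ℕ) : Prop where
  marks : ∀ j, 1 ≤ j → j ≤ n → PvtpMarks P z i0 (r j) (tm j) (tp j)

/-- the cuts of the tower: `κ i = tm (n - i)` (`i < n`), `κ n = i0`, `κ (n + j) = tp j`.      Piece `n - 1` = `Π₀⁻`, piece `n` = `Π₀⁺`, piece `n + j` = `Π_j`, piece `n - 1 - j` = `Π_{-j}` -/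
def pvtpKap (n : ℕ) (tm tp : ℕ → ℕ) (i0 : ℕ) (i : ℕ) : ℕ := if i < n then tm (n - i) else if i = n then i0 else tp (i - n)

theorem pvtp_eqns_cite4 : True := by
  have := @pvtpKap.eq_1
  trivial

section tower

variable {P : PvbRim} {z : ℂ} {i0 n : ℕ} {r : ℕ → ℝ} {tm tp : ℕ → ℕ} {hh μ e ρ : ℝ}

theorem pvtp_kap_lt {i : ℕ} (h : i < n) : pvtpKap n tm tp i0 i = tm (n - i) := by
  unfold pvtpKap; rw [if_pos h]

theorem pvtp_kap_n : pvtpKap n tm tp i0 n = i0 := by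
  unfold pvtpKap; rw [if_neg (lt_irrefl n), if_pos rfl]

theorem pvtp_kap_gt {i : ℕ} (h : n < i) : pvtpKap n tm tp i0 i = tp (i - n) := by
  unfold pvtpKap; rw [if_neg (by omega), if_neg (by omega)]

theorem pvtp_kap_add {j : ℕ} (h : 1 ≤ j) : pvtpKap n tm tp i0 (n + j) = tp j := by
  rw [pvtp_kap_gt (by omega)]; congr 1; omega

theorem pvtp_kap_sub {j : ℕ} (h : 1 ≤ j) (hj : j ≤ n) : pvtpKap n tm tp i0 (n - j) = tm j := by
  rw [pvtp_kap_lt (by omega)]; congr 1; omega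

theorem pvtp_tower_exists (hi0 : i0 ≤ P.len) (h0 : ∀ j, 1 ≤ j → j ≤ n → r j ≤ ‖P.v 0 - z‖) (hL : ∀ j, 1 ≤ j → j ≤ n → r j ≤ ‖P.v P.len - z‖) :
    ∃ tm tp, PvtpTower P z i0 r n tm tp := by
  classical
  have H : ∀ j, ∃ q : ℕ × ℕ, 1 ≤ j → j ≤ n → PvtpMarks P z i0 (r j) q.1 q.2 := by
    intro j
    by_cases hj : 1 ≤ j ∧ j ≤ n
    · obtain ⟨mm, mp, M⟩ := pvtp_marks_exists hi0 (h0 j hj.1 hj.2) (hL j hj.1 hj.2)
      exact ⟨(mm, mp), fun _ _ => M⟩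
    · exact ⟨(0, 0), fun a b => absurd ⟨a, b⟩ hj⟩
  choose q hq using H
  exact ⟨fun j => (q j).1, fun j => (q j).2, ⟨fun j h1 h2 => hq j h1 h2⟩⟩

/-- the radii increase -/
theorem pvtp_r_mono (hμ : 0 ≤ μ) (he : 0 ≤ e) (hr : ∀ j, 1 ≤ j → j < n → r j + μ + e < r (j + 1)) {i j : ℕ} (hi : 1 ≤ i) (hij : i ≤ j) (hj : j ≤ n) :
    r i ≤ r j := by
  induction j, hij using Nat.le_induction with
  | base => exact le_rfl
  | succ j hj' ih =>
    have := hr j (by omega) (by omega)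
    have := ih (by omega)
    linarith

/-- **M1**: the tower of marks is a chain of cuts with `2n` pieces -/
theorem PvtpTower.cuts (W : PvtpTower P z i0 r n tm tp) (hn : 1 ≤ n) (near : ‖P.v i0 - z‖ ≤ hh) (hμ : 0 ≤ μ) (he : 0 ≤ e)
    (mesh : ∀ k < P.len, (‖P.v k - z‖ ≤ ρ ∨ ‖P.v (k + 1) - z‖ ≤ ρ) → ‖P.v (k + 1) - P.v k‖ ≤ μ)
    (h1 : hh + e < r 1) (hr : ∀ j, 1 ≤ j → j < n → r j + μ + e < r (j + 1)) (hρ : r n + μ ≤ ρ) :
    PvtpCuts P z ρ e (2 * n) (pvtpKap n tm tp i0) := by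
  have rm : ∀ {i j : ℕ}, 1 ≤ i → i ≤ j → j ≤ n → r i ≤ r j := fun a b c => pvtp_r_mono hμ he hr a b c
  have hnear : ∀ j, 1 ≤ j → j ≤ n → ‖P.v i0 - z‖ < r j := fun j a b => by
    have := rm le_rfl a b
    linarith
  have hrρ : ∀ j, 1 ≤ j → j ≤ n → r j ≤ ρ := fun j a b => by
    have := rm a b le_rfl
    linarith
  have up : ∀ j, 1 ≤ j → j ≤ n → ‖P.v (tp j) - z‖ ≤ r j + μ := fun j a b => (W.marks j a b).mp_rad (hnear j a b) (hrρ j a b) mesh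
  have um : ∀ j, 1 ≤ j → j ≤ n → ‖P.v (tm j) - z‖ ≤ r j + μ := fun j a b => (W.marks j a b).mm_rad (hnear j a b) (hrρ j a b) mesh
  have tpm : ∀ j, 1 ≤ j → j < n → tp j ≤ tp (j + 1) := by
    intro j a b
    by_contra hc
    have h2 := (W.marks j a b.le).mp_first (tp (j + 1)) (W.marks (j + 1) (by omega) b).le_mp (not_le.1 hc)
    have h3 := (W.marks (j + 1) (by omega) b).mp_far
    have := hr j a b
    linarith
  have tmm : ∀ j, 1 ≤ j → j < n → tm (j + 1) ≤ tm j := by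
    intro j a b
    by_contra hc
    have h2 := (W.marks j a b.le).mm_last (tm (j + 1)) (not_le.1 hc) (W.marks (j + 1) (by omega) b).mm_le
    have h3 := (W.marks (j + 1) (by omega) b).mm_far
    have := hr j a b
    linarith
  have rev : ∀ a b : ℂ, ‖a - z‖ - ‖b - z‖ ≤ ‖a - b‖ := fun a b => by
    have := pvtp_tri a b z
    linarith
  refine ⟨?_, ?_, ?_, ?_⟩
  · intro i hi
    rcases Nat.lt_trichotomy (i + 1) n with c | c | c
    · rw [pvtp_kap_lt (by omega), pvtp_kap_lt c]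
      have := tmm (n - (i + 1)) (by omega) (by omega)
      have e1 : n - (i + 1) + 1 = n - i := by omega
      rwa [e1] at this
    · rw [pvtp_kap_lt (by omega), c, pvtp_kap_n]
      exact (W.marks _ (by omega) (by omega)).mm_le
    · rcases Nat.eq_or_lt_of_le (Nat.lt_succ_iff.1 c) with c' | c'
      · rw [← c', pvtp_kap_n, pvtp_kap_gt (by omega)]
        exact (W.marks _ (by omega) (by omega)).le_mp
      · rw [pvtp_kap_gt c', pvtp_kap_gt (by omega)]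
        have := tpm (i - n) (by omega) (by omega)
        have e1 : i - n + 1 = i + 1 - n := by omega
        rwa [e1] at this
  · rw [pvtp_kap_gt (by omega)]
    exact (W.marks _ (by omega) (by omega)).mp_le
  · intro i hi
    rcases Nat.lt_trichotomy (i + 1) n with c | c | c
    · rw [pvtp_kap_lt (by omega), pvtp_kap_lt c]
      have e1 : n - i = n - (i + 1) + 1 := by omega
      have hle := tmm (n - (i + 1)) (by omega) (by omega)
      rw [← e1] at hle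
      refine ⟨tm (n - i), tm (n - (i + 1)), le_rfl, hle, hle, le_rfl, ?_⟩
      have a1 := (W.marks (n - i) (by omega) (by omega)).mm_far
      have a2 := um (n - (i + 1)) (by omega) (by omega)
      have a3 := hr (n - (i + 1)) (by omega) (by omega)
      rw [← e1] at a3
      have := rev (P.v (tm (n - i))) (P.v (tm (n - (i + 1))))
      linarith
    · rw [pvtp_kap_lt (by omega), c, pvtp_kap_n]
      have hle := (W.marks (n - i) (by omega) (by omega)).mm_le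
      refine ⟨tm (n - i), i0, le_rfl, hle, hle, le_rfl, ?_⟩
      have a1 := (W.marks (n - i) (by omega) (by omega)).mm_far
      have a2 := rm (i := 1) (j := n - i) le_rfl (by omega) (by omega)
      have := rev (P.v (tm (n - i))) (P.v i0)
      linarith
    · rcases Nat.eq_or_lt_of_le (Nat.lt_succ_iff.1 c) with c' | c'
      · rw [← c', pvtp_kap_n, pvtp_kap_gt (by omega)]
        have hle := (W.marks (n + 1 - n) (by omega) (by omega)).le_mp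
        refine ⟨tp (n + 1 - n), i0, hle, le_rfl, le_rfl, hle, ?_⟩
        have a1 := (W.marks (n + 1 - n) (by omega) (by omega)).mp_far
        have a2 := rm (i := 1) (j := n + 1 - n) le_rfl (by omega) (by omega)
        have := rev (P.v (tp (n + 1 - n))) (P.v i0)
        linarith
      · rw [pvtp_kap_gt c', pvtp_kap_gt (by omega)]
        have e1 : i + 1 - n = i - n + 1 := by omega
        have hle := tpm (i - n) (by omega) (by omega)
        rw [← e1] at hle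
        refine ⟨tp (i + 1 - n), tp (i - n), hle, le_rfl, le_rfl, hle, ?_⟩
        have a1 := (W.marks (i + 1 - n) (by omega) (by omega)).mp_far
        have a2 := up (i - n) (by omega) (by omega)
        have a3 := hr (i - n) (by omega) (by omega)
        rw [← e1] at a3
        have := rev (P.v (tp (i + 1 - n))) (P.v (tp (i - n)))
        linarith
  · intro k k1 k2
    rw [pvtp_kap_lt (by omega)] at k1
    rw [pvtp_kap_gt (by omega)] at k2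
    have e1 : n - 0 = n := by omega
    have e2 : 2 * n - n = n := by omega
    rw [e1] at k1
    rw [e2] at k2
    exact ((W.marks n hn le_rfl).K_rad (hnear n hn le_rfl) (hrρ n hn le_rfl) hμ mesh k1 k2).trans hρ

/-- after the first mark the rim stays outside the trapped ball -/
theorem PvtpTrap.out_fwd {ra rb rH : ℝ} {lo hi mm mp k : ℕ} (T : PvtpTrap P z i0 ra rb lo hi) (M : PvtpMarks P z i0 rH mm mp) (hb : rb ≤ rH)
    (h1 : mp ≤ k) (h2 : k ≤ P.len) : ra ≤ ‖P.v k - z‖ := by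
  by_contra hc
  have := (T.all k h2 (not_le.1 hc)).2
  have := (T.between M hb).2
  omega

/-- before the first backward mark the rim stays outside the trapped ball -/
theorem PvtpTrap.out_bwd {ra rb rH : ℝ} {lo hi mm mp k : ℕ} (T : PvtpTrap P z i0 ra rb lo hi) (M : PvtpMarks P z i0 rH mm mp) (hb : rb ≤ rH)
    (h1 : k ≤ mm) : ra ≤ ‖P.v k - z‖ := by
  by_contra hc
  have := (T.all k (by have := M.mm_le; have := M.le_mp; have := M.mp_le; omega) (not_le.1 hc)).1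
  have := (T.between M hb).1
  omega

end tower

/-! ## §11 the conditions (T1)-(T7) of `IsType` for the cells of the pieces      (metric cores of M7, first half; consumer: `Tr/MenuFit.lean`) -/

/-- the cells of the stretch `P[κ a, κ b]`;   `C_i = pvtpC δ P κ i (i+1)` -/
def pvtpC (δ : ℝ) (P : PvbRim) (κ : ℕ → ℕ) (a b : ℕ) : Set (ℤ × ℤ) := pvtCells δ (pvtpPoly P (κ a) (κ b))

theorem pvtp_eqns_cite5 : True := by
  have := @pvtpC.eq_1
  trivial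

/-- bridge to the sup-norm neighbourhoods of `Tr/Tower.lean` -/
theorem pvtp_fat_eq (k : ℕ) (E : Set (ℤ × ℤ)) : pvtN8^[k] E = pvtwN k E := by
  induction k with
  | zero => rw [pvtw_N_zero]; rfl
  | succ k ih => rw [Function.iterate_succ_apply', ih, pvtw_N_succ]

theorem pvtp_cells_union (δ : ℝ) (K K' : Set ℂ) : pvtCells δ (K ∪ K') = pvtCells δ K ∪ pvtCells δ K' := by
  ext c
  constructor
  · rintro ⟨p, hp, hK | hK⟩
    · exact Or.inl ⟨p, hp, hK⟩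
    · exact Or.inr ⟨p, hp, hK⟩
  · rintro (⟨p, hp, hK⟩ | ⟨p, hp, hK⟩)
    · exact ⟨p, hp, Or.inl hK⟩
    · exact ⟨p, hp, Or.inr hK⟩

section types

variable {P : PvbRim} {z : ℂ} {ρ e d e' d' μ δ : ℝ} {N : ℕ} {κ : ℕ → ℕ} {a b a' b' k m : ℕ} {c : ℤ × ℤ} {p : ℂ}

theorem PvtpCuts.C_union (C : PvtpCuts P z ρ e N κ) (h1 : a ≤ k) (h2 : k ≤ b) (hb : b ≤ N) : pvtpC δ P κ a b = pvtpC δ P κ a k ∪ pvtpC δ P κ k b := by
  unfold pvtpC
  rw [pvtp_poly_union (C.le h1 (h2.trans hb)) (C.le h2 hb), pvtp_cells_union]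

/-- **(T1)** connected -/
theorem PvtpCuts.C_conn (C : PvtpCuts P z ρ e N κ) (hδ : 0 < δ) (hab : a ≤ b) (hb : b ≤ N) : TscConn tscG (pvtpC δ P κ a b) :=
  pvt_cells_conn hδ (pvtp_poly_conn (C.le hab hb)) pvtp_poly_bdd

theorem pvtp_C_finite (hδ : 0 < δ) : (pvtpC δ P κ a b).Finite := pvt_cells_finite hδ pvtp_poly_bdd

/-- **(T1)** a cell which contains the mark `v (κ k)` belongs to the cells of every stretch through `k` -/
theorem PvtpCuts.C_mark (C : PvtpCuts P z ρ e N κ) (h1 : a ≤ k) (h2 : k ≤ b) (hb : b ≤ N) (hc : P.v (κ k) ∈ pvtSq δ c) : c ∈ pvtpC δ P κ a b :=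
  ⟨P.v (κ k), hc, pvtp_poly_vert (C.le h1 (h2.trans hb)) (C.le h2 hb)⟩

/-- **M7 (i)**: the stretch lies in its cells, its `mδ`-neighbourhood in the `m`-th collar -/
theorem pvtp_C_cover (hδ : 0 < δ) {q : ℂ} (hp : p ∈ pvtpPoly P (κ a) (κ b)) (hq : ‖q - p‖ ≤ m * δ) : q ∈ pvtU δ (pvtN8^[m] (pvtpC δ P κ a b)) :=
  pvtp_fat_U hδ m (pvt_cells_cover hδ hp) hq

/-- (k3) for a stretch -/
theorem PvtpCuts.C_near (C : PvtpCuts P z ρ e N κ) (hδ : 0 < δ) (hμ : 0 ≤ μ)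
    (mesh : ∀ k < P.len, (‖P.v k - z‖ ≤ ρ ∨ ‖P.v (k + 1) - z‖ ≤ ρ) → ‖P.v (k + 1) - P.v k‖ ≤ μ) (hab : a ≤ b) (hb : b ≤ N)
    (hp : p ∈ pvtU δ (pvtN8^[m] (pvtpC δ P κ a b))) : ∃ s, κ a ≤ s ∧ s ≤ κ b ∧ ‖p - P.v s‖ ≤ 2 * (m + 1) * δ + μ :=
  pvtp_poly_cells_near hδ hμ (C.mesh mesh hab hb) m hp

/-- **(T2)**: the `m`-th collars of two stretches with a whole piece in between are disjoint -/
theorem PvtpCuts.T2 (C : PvtpCuts P z ρ e N κ) (nr : PvtpNR P z ρ d e) (hδ : 0 < δ) (hμ : 0 ≤ μ)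
    (mesh : ∀ k < P.len, (‖P.v k - z‖ ≤ ρ ∨ ‖P.v (k + 1) - z‖ ≤ ρ) → ‖P.v (k + 1) - P.v k‖ ≤ μ)
    (hab : a ≤ b) (hba : b + 1 ≤ a') (hab' : a' ≤ b') (hb' : b' ≤ N) (hd : 2 * (2 * (m + 1) * δ + μ) ≤ d) :
    Disjoint (pvtU δ (pvtN8^[m] (pvtpC δ P κ a b))) (pvtU δ (pvtN8^[m] (pvtpC δ P κ a' b'))) := by
  rw [Set.disjoint_left]
  intro p h1 h2
  obtain ⟨s, s1, s2, s3⟩ := C.C_near hδ hμ mesh hab (by omega) h1
  obtain ⟨t, t1, t2, t3⟩ := C.C_near hδ hμ mesh hab' hb' h2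
  have h3 := C.stretch_ge nr (b := b) (by omega) s1 s2 hab ((C.le hba (by omega)).trans t1) (t2.trans ((C.le hb' le_rfl).trans C.le_len))
  have := pvtp_tri (P.v s) p (P.v t)
  rw [norm_sub_rev (P.v s) p] at this
  linarith

/-- (T2) for cells -/
theorem PvtpCuts.T2_cells (C : PvtpCuts P z ρ e N κ) (nr : PvtpNR P z ρ d e) (hδ : 0 < δ) (hμ : 0 ≤ μ)
    (mesh : ∀ k < P.len, (‖P.v k - z‖ ≤ ρ ∨ ‖P.v (k + 1) - z‖ ≤ ρ) → ‖P.v (k + 1) - P.v k‖ ≤ μ)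
    (hab : a ≤ b) (hba : b + 1 ≤ a') (hab' : a' ≤ b') (hb' : b' ≤ N) (hd : 2 * (2 * (m + 1) * δ + μ) ≤ d) :
    Disjoint (pvtN8^[m] (pvtpC δ P κ a b)) (pvtN8^[m] (pvtpC δ P κ a' b')) := by
  rw [Set.disjoint_left]
  intro c h1 h2
  have hc := pvt_sq_ctr (z := c) hδ.le
  exact Set.disjoint_left.1 (C.T2 nr hδ hμ mesh hab hba hab' hb' hd) (Set.mem_iUnion₂.2 ⟨c, h1, hc⟩) (Set.mem_iUnion₂.2 ⟨c, h2, hc⟩)

/-- **(T4), (T7)**: a common point of the `m`-th collars of two stretches which meet at the cut `k` is close to the mark `v (κ k)` (any level `(d',e')`) -/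
theorem PvtpCuts.T4 (C : PvtpCuts P z ρ e N κ) (nr : PvtpNR P z ρ d' e') (hδ : 0 < δ) (hμ : 0 ≤ μ)
    (mesh : ∀ k < P.len, (‖P.v k - z‖ ≤ ρ ∨ ‖P.v (k + 1) - z‖ ≤ ρ) → ‖P.v (k + 1) - P.v k‖ ≤ μ)
    (h1 : a ≤ k) (h2 : k ≤ b) (hb : b ≤ N) (hd : 2 * (2 * (m + 1) * δ + μ) ≤ d')
    (hp1 : p ∈ pvtU δ (pvtN8^[m] (pvtpC δ P κ a k))) (hp2 : p ∈ pvtU δ (pvtN8^[m] (pvtpC δ P κ k b))) :
    ‖p - P.v (κ k)‖ ≤ e' + (2 * (m + 1) * δ + μ) := by
  obtain ⟨s, s1, s2, s3⟩ := C.C_near hδ hμ mesh h1 (h2.trans hb) hp1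
  obtain ⟨t, t1, t2, t3⟩ := C.C_near hδ hμ mesh h2 hb hp2
  have hst : ‖P.v s - P.v t‖ ≤ d' := by
    have := pvtp_tri (P.v s) p (P.v t)
    rw [norm_sub_rev (P.v s) p] at this
    linarith
  have hw : ‖P.v s - z‖ ≤ ρ := C.win s ((C.le (Nat.zero_le a) (by omega)).trans s1) (s2.trans (C.le (h2.trans hb) le_rfl))
  have D := nr s t (s2.trans t1) (t2.trans ((C.le hb le_rfl).trans C.le_len)) (Or.inl hw) hst s (κ k) le_rfl (s2.trans t1) s2 t1
  have := pvtp_tri p (P.v s) (P.v (κ k))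
  linarith

/-- **(T6)** for the centres of the mark cells -/
theorem PvtpCuts.T6 (C : PvtpCuts P z ρ e N κ) (nr : PvtpNR P z ρ d e) (hδ : 0 < δ) {i j : ℕ} (hij : i < j) (hj : j ≤ N) {qi qj : ℤ × ℤ}
    (hi : P.v (κ i) ∈ pvtSq δ qi) (hj' : P.v (κ j) ∈ pvtSq δ qj) : d - 4 * δ < ‖pvtCtr δ qi - pvtCtr δ qj‖ := by
  have h1 := C.marks_sep nr hij hj
  have h2 := pvt_sq_diam hi (pvt_sq_ctr (z := qi) hδ.le)
  have h3 := pvt_sq_diam (pvt_sq_ctr (z := qj) hδ.le) hj'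
  have h4 := pvtp_tri (P.v (κ i)) (pvtCtr δ qi) (P.v (κ j))
  have h5 := pvtp_tri (pvtCtr δ qi) (pvtCtr δ qj) (P.v (κ j))
  linarith

end types

section balls

variable {P : PvbRim} {z p : ℂ} {μ δ r ra : ℝ} {a b m : ℕ}

/-- the `m`-th collar of the cells of a closed ball -/
theorem pvtp_ball_near (hδ : 0 < δ) (hp : p ∈ pvtU δ (pvtN8^[m] (pvtCells δ (Metric.closedBall z r)))) : ‖p - z‖ ≤ r + 2 * (m + 1) * δ := by
  obtain ⟨q, hq, h1⟩ := pvtp_cells_near hδ m hp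
  have := pvtp_tri p q z
  have := mem_closedBall_iff_norm.1 hq
  linarith

/-- **(T3)**: the `m`-th collar of the cells of an arc all of whose vertices are at radius `≥ ra` stays at radius `≥ ra - 2(m+1)δ - μ` -/
theorem pvtp_T3 (hδ : 0 < δ) (hμ : 0 ≤ μ) (mesh : ∀ k, a ≤ k → k < b → ‖P.v (k + 1) - P.v k‖ ≤ μ) (hout : ∀ k, a ≤ k → k ≤ b → ra ≤ ‖P.v k - z‖)
    (hp : p ∈ pvtU δ (pvtN8^[m] (pvtCells δ (pvtpPoly P a b)))) : ra - (2 * (m + 1) * δ + μ) ≤ ‖p - z‖ := by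
  obtain ⟨k, k1, k2, h1⟩ := pvtp_poly_cells_near hδ hμ mesh m hp
  have := hout k k1 k2
  have := pvtp_tri (P.v k) p z
  rw [norm_sub_rev (P.v k) p] at this
  linarith

/-- **(T5)**: the `m`-th collar of the cells of an arc with vertices at radius `≤ r` stays at radius `≤ r + 2(m+1)δ` -/
theorem pvtp_T5 (hδ : 0 < δ) (hin : ∀ k, a ≤ k → k ≤ b → ‖P.v k - z‖ ≤ r) (hp : p ∈ pvtU δ (pvtN8^[m] (pvtCells δ (pvtpPoly P a b)))) :
    ‖p - z‖ ≤ r + 2 * (m + 1) * δ := by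
  obtain ⟨q, hq, h1⟩ := pvtp_cells_near hδ m hp
  have := pvtp_poly_ball hin hq
  have := pvtp_tri p q z
  linarith

end balls

/-! ## §12 hulls in metric form, ESCAPE, and PORT for the tentacle obstacle      M7 (ii)-(vi) -/

section hullrad

variable {S : Set (ℤ × ℤ)} {z p : ℂ} {δ R1 : ℝ}

/-- a hull stays in the smallest box: sup-norm form -/
theorem pvtp_hull_sup (hδ : 0 < δ) (hS : ∀ p ∈ pvtU δ S, |p.re - z.re| ≤ R1 ∧ |p.im - z.im| ≤ R1) :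
    ∀ p ∈ pvtU δ (pvtHull S), |p.re - z.re| ≤ R1 ∧ |p.im - z.im| ≤ R1 := by
  have hbox : S ⊆ tscBox ⌈(z.re - R1) / δ⌉ (⌊(z.re + R1) / δ⌋ - 1) ⌈(z.im - R1) / δ⌉ (⌊(z.im + R1) / δ⌋ - 1) := by
    intro u hu
    have c1 : (⟨(u.1 : ℝ) * δ, (u.2 : ℝ) * δ⟩ : ℂ) ∈ pvtSq δ u :=
      ⟨le_rfl, by show (u.1 : ℝ) * δ ≤ ((u.1 : ℝ) + 1) * δ; nlinarith, le_rfl, by show (u.2 : ℝ) * δ ≤ ((u.2 : ℝ) + 1) * δ; nlinarith⟩
    have c2 : (⟨((u.1 : ℝ) + 1) * δ, ((u.2 : ℝ) + 1) * δ⟩ : ℂ) ∈ pvtSq δ u :=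
      ⟨by show (u.1 : ℝ) * δ ≤ ((u.1 : ℝ) + 1) * δ; nlinarith, le_rfl, by show (u.2 : ℝ) * δ ≤ ((u.2 : ℝ) + 1) * δ; nlinarith, le_rfl⟩
    obtain ⟨a1, a2⟩ := hS _ (Set.mem_iUnion₂.2 ⟨u, hu, c1⟩)
    obtain ⟨b1, b2⟩ := hS _ (Set.mem_iUnion₂.2 ⟨u, hu, c2⟩)
    simp only at a1 a2 b1 b2
    rw [abs_le] at a1 a2 b1 b2
    refine ⟨Int.ceil_le.2 ?_, ?_, Int.ceil_le.2 ?_, ?_⟩
    · rw [div_le_iff₀ hδ]; linarith
    · have : u.1 + 1 ≤ ⌊(z.re + R1) / δ⌋ := Int.le_floor.2 (by rw [le_div_iff₀ hδ]; push_cast; linarith)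
      omega
    · rw [div_le_iff₀ hδ]; linarith
    · have : u.2 + 1 ≤ ⌊(z.im + R1) / δ⌋ := Int.le_floor.2 (by rw [le_div_iff₀ hδ]; push_cast; linarith)
      omega
  intro p hp
  obtain ⟨u, hu, h1, h2, h3, h4⟩ := Set.mem_iUnion₂.1 hp
  obtain ⟨g1, g2, g3, g4⟩ := pvt_hull_box hbox hu
  have k1 : (z.re - R1) / δ ≤ (u.1 : ℝ) := (Int.le_ceil _).trans (by exact_mod_cast g1)
  have k2 : ((u.1 : ℝ) + 1) ≤ (z.re + R1) / δ := by
    have : ((u.1 + 1 : ℤ) : ℝ) ≤ ((⌊(z.re + R1) / δ⌋ : ℤ) : ℝ) := by exact_mod_cast (by omega : u.1 + 1 ≤ ⌊(z.re + R1) / δ⌋)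
    push_cast at this
    exact this.trans (Int.floor_le _)
  have k3 : (z.im - R1) / δ ≤ (u.2 : ℝ) := (Int.le_ceil _).trans (by exact_mod_cast g3)
  have k4 : ((u.2 : ℝ) + 1) ≤ (z.im + R1) / δ := by
    have : ((u.2 + 1 : ℤ) : ℝ) ≤ ((⌊(z.im + R1) / δ⌋ : ℤ) : ℝ) := by exact_mod_cast (by omega : u.2 + 1 ≤ ⌊(z.im + R1) / δ⌋)
    push_cast at this
    exact this.trans (Int.floor_le _)
  rw [div_le_iff₀ hδ] at k1 k3
  rw [le_div_iff₀ hδ] at k2 k4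
  rw [abs_le, abs_le]
  exact ⟨⟨by linarith, by linarith⟩, ⟨by linarith, by linarith⟩⟩

/-- a hull stays in the ball of twice the radius -/
theorem pvtp_hull_rad (hδ : 0 < δ) (hS : ∀ p ∈ pvtU δ S, ‖p - z‖ ≤ R1) : ∀ p ∈ pvtU δ (pvtHull S), ‖p - z‖ ≤ 2 * R1 := by
  intro p hp
  obtain ⟨h1, h2⟩ := pvtp_hull_sup (z := z) (R1 := R1) hδ (fun q hq => by
    have a1 := Complex.abs_re_le_norm (q - z)
    have a2 := Complex.abs_im_le_norm (q - z)
    rw [Complex.sub_re] at a1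
    rw [Complex.sub_im] at a2
    exact ⟨a1.trans (hS q hq), a2.trans (hS q hq)⟩) p hp
  have := Complex.norm_le_abs_re_add_abs_im (p - z)
  rw [Complex.sub_re, Complex.sub_im] at this
  linarith

end hullrad

section escape

variable {P : PvbRim} {z : ℂ} {μ ρ δ : ℝ} {S : Set (ℤ × ℤ)} {j0 : ℕ}

/-- **ESCAPE, forward**: a forward continuation which misses the `(n+1)`-st collar of `S` misses the `n`-th collar of `Hull S` -/
theorem pvtp_escape_fwd (hδ : 0 < δ) (hμδ : μ ≤ δ) (n : ℕ) (hin : ∀ p ∈ pvtU δ (pvtHull (pvtN8^[n] S)), ‖p - z‖ < ρ) (hL : ρ ≤ ‖P.v P.len - z‖)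
    (mesh : ∀ k < P.len, (‖P.v k - z‖ ≤ ρ ∨ ‖P.v (k + 1) - z‖ ≤ ρ) → ‖P.v (k + 1) - P.v k‖ ≤ μ)
    (hoff : ∀ k, j0 ≤ k → k ≤ P.len → P.v k ∉ pvtU δ (pvtN8^[n + 1] S)) :
    ∀ k, j0 ≤ k → k ≤ P.len → P.v k ∉ pvtU δ (pvtN8^[n] (pvtHull S)) := by
  intro k k1 k2 hk
  obtain ⟨k', a1, a2, a3⟩ := (pvtp_screen_fat hδ hμδ n hin).fwd hL mesh k2 hk
  exact hoff k' (k1.trans a1) a2 a3

/-- **ESCAPE, backward** -/
theorem pvtp_escape_bwd (hδ : 0 < δ) (hμδ : μ ≤ δ) (n : ℕ) (hin : ∀ p ∈ pvtU δ (pvtHull (pvtN8^[n] S)), ‖p - z‖ < ρ) (h0 : ρ ≤ ‖P.v 0 - z‖)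
    (mesh : ∀ k < P.len, (‖P.v k - z‖ ≤ ρ ∨ ‖P.v (k + 1) - z‖ ≤ ρ) → ‖P.v (k + 1) - P.v k‖ ≤ μ) (hj0 : j0 ≤ P.len)
    (hoff : ∀ k, k ≤ j0 → P.v k ∉ pvtU δ (pvtN8^[n + 1] S)) :
    ∀ k, k ≤ j0 → P.v k ∉ pvtU δ (pvtN8^[n] (pvtHull S)) := by
  intro k k1 hk
  obtain ⟨k', a1, a3⟩ := (pvtp_screen_fat hδ hμδ n hin).bwd h0 mesh (k1.trans hj0) hk
  exact hoff k' (a1.trans k1) a3

end escape

section portH

variable {P : PvbRim} {z : ℂ} {i0 mm mp lo hi : ℕ} {rH ra rb rB hh μ ρ d0 e0 d1 e1 δ : ℝ} {Bc : Set (ℤ × ℤ)}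

/-- the unfilled tentacle set: cells of the ball part and the `w`-th collar of the cells of `K = P[mm,mp]` -/
def pvtpSH (δ : ℝ) (P : PvbRim) (Bc : Set (ℤ × ℤ)) (w mm mp : ℕ) : Set (ℤ × ℤ) := Bc ∪ pvtN8^[w] (pvtCells δ (pvtpPoly P mm mp))

theorem pvtp_eqns_cite6 : True := by
  have := @pvtpSH.eq_1
  trivial

/-- the collars of the unfilled tentacle set lie in the metric body -/
theorem pvtp_SH_body (hδ : 0 < δ) (hμ : 0 ≤ μ) (mesh : ∀ k, mm ≤ k → k < mp → ‖P.v (k + 1) - P.v k‖ ≤ μ) (w n : ℕ)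
    (hBc : ∀ p ∈ pvtU δ (pvtN8^[n] Bc), ‖p - z‖ < rB) (hd0 : 2 * ((n + w : ℕ) + 1) * δ + μ ≤ d0) :
    pvtU δ (pvtN8^[n] (pvtpSH δ P Bc w mm mp)) ⊆ pvtpBody P z rB d0 mm mp := by
  intro p hp
  unfold pvtpSH at hp
  rw [pvtp_fat_union, pvt_U_union, ← Function.iterate_add_apply] at hp
  rcases hp with hp | hp
  · exact Or.inl (hBc p hp)
  · obtain ⟨k, k1, k2, h⟩ := pvtp_poly_cells_near hδ hμ mesh (n + w) hp
    exact Or.inr ⟨k, k1, k2, h.trans hd0⟩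

/-- **PORT for the tentacle obstacle** `H = Hull( Bc ∪ N^w Cells(K) )`, `H⁺ = N^n H`      (M7 (iii), (vii); in `MENU_205.md`: `w = 6`, `n = 4`) -/
theorem pvtp_port_H (M : PvtpMarks P z i0 rH mm mp) (T : PvtpTrap P z i0 ra rb lo hi) (near : ‖P.v i0 - z‖ ≤ hh)
    (h0 : ρ ≤ ‖P.v 0 - z‖) (hL : ρ ≤ ‖P.v P.len - z‖)
    (mesh : ∀ k < P.len, (‖P.v k - z‖ ≤ ρ ∨ ‖P.v (k + 1) - z‖ ≤ ρ) → ‖P.v (k + 1) - P.v k‖ ≤ μ)
    (nr0 : PvtpNR P z ρ d0 e0) (nr1 : PvtpNR P z ρ d1 e1)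
    (hμ : 0 ≤ μ) (he1 : 0 ≤ e1) (hb : rb ≤ rH) (hB : rB ≤ ra) (hH : e1 + hh < rH)
    (hδ : 0 < δ) (hμδ : μ ≤ δ) (w n : ℕ) (hBc : ∀ p ∈ pvtU δ (pvtN8^[n + 1] Bc), ‖p - z‖ < rB)
    (hd0 : 2 * ((n + 1 + w : ℕ) + 1) * δ + μ ≤ d0) (hρ : 2 * (rB + rH + μ + d0) < ρ) (hrB : 0 ≤ rB) :
    ∃ xm xp, PvtpPort P z i0 (pvtU δ (pvtN8^[n] (pvtHull (pvtpSH δ P Bc w mm mp)))) rH μ e0 d1 ρ xm mm mp xp := by
  have hd00 : 0 ≤ d0 := le_trans (by positivity) hd0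
  have hrH : 0 ≤ rH := by
    have := norm_nonneg (P.v i0 - z)
    linarith
  have hn : ‖P.v i0 - z‖ < rH := by linarith
  have hρ1 : rH + μ ≤ ρ := by linarith
  have hρ2 : rH ≤ ρ := by linarith
  have hKr : ∀ k, mm ≤ k → k ≤ mp → ‖P.v k - z‖ ≤ rH + μ := fun k h1 h2 => M.K_rad hn hρ2 hμ mesh h1 h2
  have meshK : ∀ k, mm ≤ k → k < mp → ‖P.v (k + 1) - P.v k‖ ≤ μ := fun k h1 h2 =>
    mesh k (by have := M.mp_le; omega) (Or.inl ((hKr k h1 h2.le).trans hρ1))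
  have hbody := pvtp_SH_body (z := z) (rB := rB) (d0 := d0) hδ hμ meshK w (n + 1) hBc hd0
  refine pvtp_port_poly M T near h0 hL mesh nr0 nr1 hμ hd00 he1 hb hB hρ1 hH hδ hμδ n ?_ hbody
  intro p hp
  have h1 : ∀ q ∈ pvtU δ (pvtN8^[n] (pvtpSH δ P Bc w mm mp)), ‖q - z‖ ≤ rB + rH + μ + d0 := by
    intro q hq
    have hq' : q ∈ pvtU δ (pvtN8^[n + 1] (pvtpSH δ P Bc w mm mp)) := by
      rw [Function.iterate_succ_apply']
      exact pvt_U_mono pvt_N8_sub hq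
    rcases hbody hq' with h | ⟨k, k1, k2, h⟩
    · linarith
    · have := pvtp_tri q (P.v k) z
      have := hKr k k1 k2
      linarith
  have := pvtp_hull_rad hδ h1 p hp
  linarith

/-- **M7 (iv) COLLAR**: after `xp` (before `xm`) the rim stays at distance `> n δ` from `U(H)` -/
theorem PvtpPort.collar {E : Set (ℤ × ℤ)} {n xm xp j : ℕ} (H : PvtpPort P z i0 (pvtU δ (pvtN8^[n] E)) rH μ e0 d1 ρ xm mm mp xp) (hδ : 0 < δ)
    (hj : (xp < j ∧ j ≤ P.len) ∨ j < xm) {p : ℂ} (hp : p ∈ pvtU δ E) : n * δ < ‖P.v j - p‖ := by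
  apply pvtp_fat_far hδ n hp
  rcases hj with hj | hj
  · exact H.after hj.1 hj.2
  · exact H.before hj

end portH

end Claimed.Agent.R289
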