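-- KEEP
import Claimed.Agent.R289.Tr.Port
import Claimed.Agent.R289.Tr.Tower

/-!
# Row 289 (S0537, Cardy for Poisson-Voronoi), unit TR, road P, item P10 = FIT: THE RECORD-FREE KIT      (helper2, second of helper8; prefix `pvmx_`)

`MENU_205.md` M1, M2, M4 (T1)-(T7), M7 (i) in INDEX form, for the pieces `Π_i := pvtpPoly P (κ i) (κ (i+1))` of ANY chain of cuts `PvtpCuts P z ρ e N κ` of 164 (`Tr/Port.lean` §9) and near-return levels `PvtpNR P z ρ d e`.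
No record of types is used: `Tr/MenuFit.lean` (8) instantiates `κ` = the 13 marks `t_-6 .. t_-1, i0, t_1 .. t_6`.

* §0 bridge `pvtwN k = pvtN8^[k]` (206 ↔ 164)
* §1 two fattened arcs with a common cell: two close vertices
* §2 (T2) pieces two apart, (T3) pieces off the ball, (T4)/(T7) neighbouring pieces meet only near the common mark, (T6) marks apart, cells of the marks apart, (T1) connected + finite, (i) TRACK
* §4 radii: `pvmx_far_of_trap` (M1 (c)), `pvmx_cells_rad`, `pvmx_ball_rad`, `pvmx_ball_sub`, `pvmx_cell_far` ((T5), metric form)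
* §3 M1: the chain of marks `pvmx_marks`: radii `r 1 < .. < r J`  ⟹  `κ : ℕ → ℕ`, `κ J = i0`, `PvtpMarks P z i0 (r j) (κ (J-j)) (κ (J+j))`, `PvtpCuts P z ρ e (2J) κ`
-/

set_option autoImplicit false
set_option linter.unusedSectionVars false
set_option linter.unusedVariables false

namespace Claimed.Agent.R289

open Claims.C0467 Claimed.Agent.R291

/-! ## §0 bridge -/

/-- the sup-norm neighbourhood of 206 is the iterated `N8` of 164 -/
theorem pvmx_N_iter (k : ℕ) (E : Set (ℤ × ℤ)) : pvtwN k E = pvtN8^[k] E := by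
  induction k with
  | zero => rw [pvtw_N_zero]; rfl
  | succ k ih => rw [pvtw_N_succ, ih, Function.iterate_succ_apply']

/-! ## §1 common cells -/

section common

variable {P : PvbRim} {a b a' b' t : ℕ} {z p : ℂ} {μ δ ρ d e rB a3 : ℝ} {c : ℤ × ℤ} {n m : ℕ}

/-- a cell of the `n`-th collar of the cells of a polygonal arc: every point of its square is within `2 (n+1) δ + μ` of a vertex of the arc -/
theorem pvmx_cell_vertex (hδ : 0 < δ) (hμ : 0 ≤ μ) (mesh : ∀ k, a ≤ k → k < b → ‖P.v (k + 1) - P.v k‖ ≤ μ)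
    (hc : c ∈ pvtN8^[n] (pvtCells δ (pvtpPoly P a b))) (hp : p ∈ pvtSq δ c) : ∃ k, a ≤ k ∧ k ≤ b ∧ ‖p - P.v k‖ ≤ 2 * ((n : ℝ) + 1) * δ + μ :=
  pvtp_poly_cells_near hδ hμ mesh n (Set.mem_iUnion₂.2 ⟨c, hc, hp⟩)

/-- a common cell of two fattened arcs gives two close vertices -/
theorem pvmx_common (hδ : 0 < δ) (hμ : 0 ≤ μ) (mesh : ∀ k, a ≤ k → k < b → ‖P.v (k + 1) - P.v k‖ ≤ μ)
    (mesh' : ∀ k, a' ≤ k → k < b' → ‖P.v (k + 1) - P.v k‖ ≤ μ)
    (hc : c ∈ pvtN8^[n] (pvtCells δ (pvtpPoly P a b))) (hc' : c ∈ pvtN8^[m] (pvtCells δ (pvtpPoly P a' b'))) (hp : p ∈ pvtSq δ c) :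
    ∃ k k', (a ≤ k ∧ k ≤ b) ∧ (a' ≤ k' ∧ k' ≤ b') ∧ ‖p - P.v k‖ ≤ 2 * ((n : ℝ) + 1) * δ + μ ∧ ‖p - P.v k'‖ ≤ 2 * ((m : ℝ) + 1) * δ + μ ∧
      ‖P.v k - P.v k'‖ ≤ 2 * ((n : ℝ) + m + 2) * δ + 2 * μ := by
  obtain ⟨k, k1, k2, hk⟩ := pvmx_cell_vertex hδ hμ mesh hc hp
  obtain ⟨k', k1', k2', hk'⟩ := pvmx_cell_vertex hδ hμ mesh' hc' hp
  refine ⟨k, k', ⟨k1, k2⟩, ⟨k1', k2'⟩, hk, hk', ?_⟩
  have := pvtp_tri (P.v k) p (P.v k')
  rw [norm_sub_rev (P.v k) p] at this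
  linarith

/-- every square is nonempty -/
theorem pvmx_sq_nonempty (hδ : 0 < δ) (c : ℤ × ℤ) : ∃ p, p ∈ pvtSq δ c := ⟨pvtCtr δ c, pvt_sq_ctr hδ.le⟩

/-- **(T4) / (T7), general cut**: a common cell of the fattened arcs `P[a,t]`, `P[t,b]` lies near the cut vertex `P.v t` -/
theorem pvmx_cut (nr : PvtpNR P z ρ d e) (hδ : 0 < δ) (hμ : 0 ≤ μ) (hb : b ≤ P.len)
    (win : ∀ k, a ≤ k → k ≤ t → ‖P.v k - z‖ ≤ ρ) (mesh : ∀ k, a ≤ k → k < b → ‖P.v (k + 1) - P.v k‖ ≤ μ)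
    (hd : 2 * ((n : ℝ) + m + 2) * δ + 2 * μ ≤ d)
    (hc : c ∈ pvtN8^[n] (pvtCells δ (pvtpPoly P a t))) (hc' : c ∈ pvtN8^[m] (pvtCells δ (pvtpPoly P t b))) (hp : p ∈ pvtSq δ c) :
    ‖p - P.v t‖ ≤ e + 2 * ((n : ℝ) + 1) * δ + μ ∧ ‖p - P.v t‖ ≤ e + 2 * ((m : ℝ) + 1) * δ + μ := by
  by_cases hat : a ≤ t
  swap
  · exfalso
    obtain ⟨k, k1, k2, -⟩ := pvmx_cell_vertex (a := a) (b := t) hδ hμ (fun k h1 h2 => by omega) hc hp
    omega
  by_cases htb : t ≤ b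
  swap
  · exfalso
    obtain ⟨k, k1, k2, -⟩ := pvmx_cell_vertex (a := t) (b := b) hδ hμ (fun k h1 h2 => by omega) hc' hp
    omega
  obtain ⟨k, k', ⟨k1, k2⟩, ⟨k1', k2'⟩, h1, h2, h3⟩ := pvmx_common hδ hμ (fun k h1 h2 => mesh k h1 (lt_of_lt_of_le h2 htb))
    (fun k h1 h2 => mesh k (hat.trans h1) h2) hc hc' hp
  have D := nr k k' (k2.trans k1') (k2'.trans hb) (Or.inl (win k k1 k2)) (h3.trans hd)
  have A := D k t le_rfl (k2.trans k1') k2 k1'
  have B := D k' t (k2.trans k1') le_rfl k2 k1'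
  constructor
  · have := pvtp_tri p (P.v k) (P.v t)
    linarith
  · have := pvtp_tri p (P.v k') (P.v t)
    linarith

/-- **(T3)**: a fattened arc whose vertices have radius `≥ a3` misses the fattened grid ball of radius `rB` -/
theorem pvmx_T3 (hδ : 0 < δ) (hμ : 0 ≤ μ) (mesh : ∀ k, a ≤ k → k < b → ‖P.v (k + 1) - P.v k‖ ≤ μ)
    (far : ∀ k, a ≤ k → k ≤ b → a3 ≤ ‖P.v k - z‖) (h : 2 * ((n : ℝ) + m + 2) * δ + μ < a3 - rB) :
    Disjoint (pvtN8^[n] (pvtCells δ (pvtpPoly P a b))) (pvtN8^[m] (pvtCells δ (Metric.closedBall z rB))) := by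
  rw [Set.disjoint_left]
  intro c hc hc'
  obtain ⟨p, hp⟩ := pvmx_sq_nonempty hδ c
  obtain ⟨k, k1, k2, hk⟩ := pvmx_cell_vertex hδ hμ mesh hc hp
  obtain ⟨q, hq, hpq⟩ := pvtp_cell_near hδ m hc' hp
  have hq' : ‖q - z‖ ≤ rB := mem_closedBall_iff_norm.1 hq
  have h1 := far k k1 k2
  have h2 := pvtp_tri (P.v k) p z
  have h3 := pvtp_tri p q z
  rw [norm_sub_rev (P.v k) p] at h2
  nlinarith

/-- (T1): the cells of a polygonal arc are connected and finite, and so are their collars -/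
theorem pvmx_T1 (hδ : 0 < δ) (hab : a ≤ b) : TscConn tscG (pvtN8^[n] (pvtCells δ (pvtpPoly P a b))) ∧ (pvtN8^[n] (pvtCells δ (pvtpPoly P a b))).Finite := by
  rw [← pvmx_N_iter]
  exact ⟨pvtw_N_conn (pvt_cells_conn hδ (pvtp_poly_conn hab) pvtp_poly_bdd), pvtw_N_finite (pvt_cells_finite hδ pvtp_poly_bdd)⟩

/-- M7 (i) TRACK: the `n δ`-neighbourhood of the arc lies in the `n`-th collar of its cells -/
theorem pvmx_track {q : ℂ} (hδ : 0 < δ) (hp : p ∈ pvtpPoly P a b) (hq : ‖q - p‖ ≤ n * δ) : q ∈ pvtU δ (pvtN8^[n] (pvtCells δ (pvtpPoly P a b))) :=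
  pvtp_fat_U hδ n (pvt_cells_cover hδ hp) hq

/-- the cell of a vertex of the arc belongs to the cells of the arc -/
theorem pvmx_cell_of_vertex {k : ℕ} (h1 : a ≤ k) (h2 : k ≤ b) (hq : P.v k ∈ pvtSq δ c) : c ∈ pvtCells δ (pvtpPoly P a b) :=
  ⟨P.v k, hq, pvtp_poly_vert h1 h2⟩

end common

/-! ## §2 chains of cuts -/

section chain

variable {P : PvbRim} {z p : ℂ} {ρ e d e' d' μ δ : ℝ} {N : ℕ} {κ : ℕ → ℕ} {i j n m : ℕ} {c c' : ℤ × ℤ}

/-- **(T2)**: the fattened cells of two pieces which are not neighbours are disjoint -/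
theorem pvmx_T2 (C : PvtpCuts P z ρ e N κ) (nr : PvtpNR P z ρ d e) (hδ : 0 < δ) (hμ : 0 ≤ μ)
    (mesh : ∀ k, κ 0 ≤ k → k < κ N → ‖P.v (k + 1) - P.v k‖ ≤ μ) (hij : i + 2 ≤ j) (hj : j < N)
    (hd : 2 * ((n : ℝ) + m + 2) * δ + 2 * μ ≤ d) :
    Disjoint (pvtN8^[n] (pvtCells δ (pvtpPoly P (κ i) (κ (i + 1))))) (pvtN8^[m] (pvtCells δ (pvtpPoly P (κ j) (κ (j + 1))))) := by
  rw [Set.disjoint_left]
  intro c hc hc'
  obtain ⟨p, hp⟩ := pvmx_sq_nonempty hδ c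
  have a0 : κ 0 ≤ κ i := C.le (Nat.zero_le _) (by omega)
  have a1 : κ (i + 1) ≤ κ N := C.le (by omega) le_rfl
  have b0 : κ 0 ≤ κ j := C.le (Nat.zero_le _) (by omega)
  have b1 : κ (j + 1) ≤ κ N := C.le (by omega) le_rfl
  obtain ⟨k, k', ⟨k1, k2⟩, ⟨k1', k2'⟩, -, -, h3⟩ := pvmx_common hδ hμ (fun k h1 h2 => mesh k (a0.trans h1) (lt_of_lt_of_le h2 a1))
    (fun k h1 h2 => mesh k (b0.trans h1) (lt_of_lt_of_le h2 b1)) hc hc' hp
  have := C.sep nr hij hj k1 k2 k1' k2'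
  linarith

/-- **(T4)**: a common cell of the fattened cells of two neighbouring pieces lies near the common mark (any level `(d',e')`) -/
theorem pvmx_T4 (C : PvtpCuts P z ρ e N κ) (nr : PvtpNR P z ρ d' e') (hδ : 0 < δ) (hμ : 0 ≤ μ)
    (mesh : ∀ k, κ 0 ≤ k → k < κ N → ‖P.v (k + 1) - P.v k‖ ≤ μ) (hi : i + 1 < N)
    (hd : 2 * ((n : ℝ) + m + 2) * δ + 2 * μ ≤ d')
    (hc : c ∈ pvtN8^[n] (pvtCells δ (pvtpPoly P (κ i) (κ (i + 1))))) (hc' : c ∈ pvtN8^[m] (pvtCells δ (pvtpPoly P (κ (i + 1)) (κ (i + 1 + 1)))))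
    (hp : p ∈ pvtSq δ c) :
    ‖p - P.v (κ (i + 1))‖ ≤ e' + 2 * ((n : ℝ) + 1) * δ + μ ∧ ‖p - P.v (κ (i + 1))‖ ≤ e' + 2 * ((m : ℝ) + 1) * δ + μ := by
  have a0 : κ 0 ≤ κ i := C.le (Nat.zero_le _) (by omega)
  have b1 : κ (i + 1 + 1) ≤ κ N := C.le (by omega) le_rfl
  exact pvmx_cut nr hδ hμ (b1.trans C.le_len) (fun k h1 h2 => C.win' (by omega) h1 h2)
    (fun k h1 h2 => mesh k (a0.trans h1) (lt_of_lt_of_le h2 b1)) hd hc hc' hp

/-- **(T6)**, marks: two different marks of a chain are `d`-separated -/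
theorem pvmx_marks_sep (C : PvtpCuts P z ρ e N κ) (nr : PvtpNR P z ρ d e) (hij : i < j) (hj : j ≤ N) : d < ‖P.v (κ i) - P.v (κ j)‖ := by
  obtain ⟨k, k', a1, a2, b1, b2, hb⟩ := C.big i (by omega)
  have h3 : κ (i + 1) ≤ κ j := C.le (by omega) hj
  have h4 : κ j ≤ κ N := C.le hj le_rfl
  exact nr.far a1 (a2.trans h3) b1 (b2.trans h3) (h4.trans C.le_len)
    (Or.inl (C.win _ (C.le (Nat.zero_le _) (by omega)) (C.le (by omega) le_rfl))) hb

/-- **(T6)**: points of the cells of two different marks are `(d - 4 δ)`-separated -/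
theorem pvmx_T6 (C : PvtpCuts P z ρ e N κ) (nr : PvtpNR P z ρ d e) (hij : i < j) (hj : j ≤ N)
    (hc : P.v (κ i) ∈ pvtSq δ c) (hc' : P.v (κ j) ∈ pvtSq δ c') {q q' : ℂ} (hq : q ∈ pvtSq δ c) (hq' : q' ∈ pvtSq δ c') : d - 4 * δ < ‖q - q'‖ := by
  have h0 := pvmx_marks_sep C nr hij hj
  have h1 := pvt_sq_diam hc hq
  have h2 := pvt_sq_diam hq' hc'
  have h3 := pvtp_tri (P.v (κ i)) q (P.v (κ j))
  have h4 := pvtp_tri q q' (P.v (κ j))
  linarith

/-- (T6) for the centres -/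
theorem pvmx_T6_ctr (C : PvtpCuts P z ρ e N κ) (nr : PvtpNR P z ρ d e) (hδ : 0 ≤ δ) (hij : i < j) (hj : j ≤ N)
    (hc : P.v (κ i) ∈ pvtSq δ c) (hc' : P.v (κ j) ∈ pvtSq δ c') : d - 4 * δ < ‖pvtCtr δ c - pvtCtr δ c'‖ :=
  pvmx_T6 C nr hij hj hc hc' (pvt_sq_ctr hδ) (pvt_sq_ctr hδ)

/-- (T1), second half: the cell of the mark `κ (i+1)` belongs to the cells of both neighbouring pieces -/
theorem pvmx_mark_cell (C : PvtpCuts P z ρ e N κ) (hi : i + 1 < N) (hc : P.v (κ (i + 1)) ∈ pvtSq δ c) :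
    c ∈ pvtCells δ (pvtpPoly P (κ i) (κ (i + 1))) ∧ c ∈ pvtCells δ (pvtpPoly P (κ (i + 1)) (κ (i + 1 + 1))) :=
  ⟨pvmx_cell_of_vertex (C.mono i (by omega)) le_rfl hc, pvmx_cell_of_vertex le_rfl (C.mono (i + 1) hi) hc⟩

/-- M2 (d), cell form, forward: the fattened cells of a piece which is not the last one miss the fattened cells of the forward continuation -/
theorem pvmx_rest_fwd (C : PvtpCuts P z ρ e N κ) (nr : PvtpNR P z ρ d e) (hδ : 0 < δ) (hμ : 0 ≤ μ) {b : ℕ} (hb : b ≤ P.len)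
    (mesh : ∀ k, κ 0 ≤ k → k < b → ‖P.v (k + 1) - P.v k‖ ≤ μ) (hi : i + 1 < N) (hd : 2 * ((n : ℝ) + m + 2) * δ + 2 * μ ≤ d) :
    Disjoint (pvtN8^[n] (pvtCells δ (pvtpPoly P (κ i) (κ (i + 1))))) (pvtN8^[m] (pvtCells δ (pvtpPoly P (κ N) b))) := by
  rw [Set.disjoint_left]
  intro c hc hc'
  obtain ⟨p, hp⟩ := pvmx_sq_nonempty hδ c
  have a0 : κ 0 ≤ κ i := C.le (Nat.zero_le _) (by omega)
  have a1 : κ (i + 1) ≤ κ N := C.le (by omega) le_rfl
  have b0 : κ 0 ≤ κ N := C.le (Nat.zero_le _) le_rfl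
  obtain ⟨k', k1', k2', -⟩ := pvmx_cell_vertex (a := κ N) (b := b) hδ hμ (fun k h1 h2 => mesh k (b0.trans h1) h2) hc' hp
  obtain ⟨k, k', ⟨k1, k2⟩, ⟨k1', k2'⟩, -, -, h3⟩ := pvmx_common hδ hμ (fun k h1 h2 => mesh k (a0.trans h1) (by omega))
    (fun k h1 h2 => mesh k (b0.trans h1) h2) hc hc' hp
  have := C.sep_fwd nr hi k1 k2 k1' (k2'.trans hb)
  linarith

/-- M2 (d), cell form, backward -/
theorem pvmx_rest_bwd (C : PvtpCuts P z ρ e N κ) (nr : PvtpNR P z ρ d e) (hδ : 0 < δ) (hμ : 0 ≤ μ) {a : ℕ}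
    (mesh : ∀ k, a ≤ k → k < κ N → ‖P.v (k + 1) - P.v k‖ ≤ μ) (hi0 : 1 ≤ i) (hi : i < N) (hd : 2 * ((n : ℝ) + m + 2) * δ + 2 * μ ≤ d) :
    Disjoint (pvtN8^[n] (pvtCells δ (pvtpPoly P (κ i) (κ (i + 1))))) (pvtN8^[m] (pvtCells δ (pvtpPoly P a (κ 0)))) := by
  rw [Set.disjoint_left]
  intro c hc hc'
  obtain ⟨p, hp⟩ := pvmx_sq_nonempty hδ c
  have a0 : κ 0 ≤ κ i := C.le (Nat.zero_le _) (by omega)
  have a1 : κ (i + 1) ≤ κ N := C.le (by omega) le_rfl
  have b0 : κ 0 ≤ κ N := C.le (Nat.zero_le _) le_rfl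
  obtain ⟨k', k1', k2', -⟩ := pvmx_cell_vertex (a := a) (b := κ 0) hδ hμ (fun k h1 h2 => mesh k h1 (by omega)) hc' hp
  obtain ⟨k, k', ⟨k1, k2⟩, ⟨k1', k2'⟩, -, -, h3⟩ := pvmx_common hδ hμ (fun k h1 h2 => mesh k (by omega) (by omega))
    (fun k h1 h2 => mesh k h1 (by omega)) hc hc' hp
  have := C.sep_bwd nr hi0 hi k1 k2 k2'
  rw [norm_sub_rev] at this
  linarith

end chain

/-! ## §3 M1: the chain of marks -/

section marks

variable {P : PvbRim} {z : ℂ} {i0 J : ℕ} {r : ℕ → ℝ} {hh e μ ρ : ℝ}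

theorem pvmx_r_mono (hμ : 0 ≤ μ) (he : 0 ≤ e) (hr : ∀ j, 1 ≤ j → j < J → r j + μ + e < r (j + 1)) {j j' : ℕ} (h1 : 1 ≤ j) (h2 : j ≤ j') (h3 : j' ≤ J) :
    r j ≤ r j' := by
  induction j', h2 using Nat.le_induction with
  | base => exact le_rfl
  | succ k hk ih =>
    have := hr k (h1.trans hk) (by omega)
    have := ih (by omega)
    linarith

/-- two marks at radii `r ≤ r'`: the marks at the larger radius are further out along the rim -/
theorem pvmx_marks_nest {r1 r2 : ℝ} {m1 p1 m2 p2 : ℕ} (M1 : PvtpMarks P z i0 r1 m1 p1) (M2 : PvtpMarks P z i0 r2 m2 p2) (h : r1 ≤ r2) : m2 ≤ m1 ∧ p1 ≤ p2 := by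
  constructor
  · by_contra hc
    exact absurd (h.trans M2.mm_far) (not_le.2 (M1.mm_last m2 (not_le.1 hc) M2.mm_le))
  · by_contra hc
    exact absurd (h.trans M2.mp_far) (not_le.2 (M1.mp_first p2 M2.le_mp (not_le.1 hc)))

/-- reverse triangle inequality for radii -/
theorem pvmx_rad_diff (a b z : ℂ) : ‖a - z‖ - ‖b - z‖ ≤ ‖a - b‖ := by
  have := pvtp_tri a b z
  linarith

/-- **M1: THE CHAIN OF MARKS.**   Radii `r 1 < … < r J` with gaps `> μ + e`, pin vertex `i0` within `hh` of the centre, `hh + e < r 1`, the cut vertex outside `B(z, r J)`: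
the marks `κ (J - j)` = last index `≤ i0` at radius `≥ r j`, `κ (J + j)` = first index `≥ i0` at radius `≥ r j`, `κ J = i0` form a chain of `2 J` pieces of diameter `> e` inside the window `B(z,ρ)` -/
theorem pvmx_marks (hJ : 1 ≤ J) (hi0 : i0 ≤ P.len) (near : ‖P.v i0 - z‖ ≤ hh) (hμ : 0 ≤ μ) (he : 0 ≤ e)
    (h1 : hh + e < r 1) (hr : ∀ j, 1 ≤ j → j < J → r j + μ + e < r (j + 1)) (hρ : r J + μ ≤ ρ)
    (h0 : r J ≤ ‖P.v 0 - z‖) (hL : r J ≤ ‖P.v P.len - z‖)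
    (mesh : ∀ k < P.len, (‖P.v k - z‖ ≤ ρ ∨ ‖P.v (k + 1) - z‖ ≤ ρ) → ‖P.v (k + 1) - P.v k‖ ≤ μ) :
    ∃ κ : ℕ → ℕ, κ J = i0 ∧ (∀ j, 1 ≤ j → j ≤ J → PvtpMarks P z i0 (r j) (κ (J - j)) (κ (J + j))) ∧ PvtpCuts P z ρ e (2 * J) κ := by
  classical
  have mono : ∀ {j j' : ℕ}, 1 ≤ j → j ≤ j' → j' ≤ J → r j ≤ r j' := fun a b c => pvmx_r_mono hμ he hr a b c
  have ex : ∀ j, ∃ mm mp, 1 ≤ j → j ≤ J → PvtpMarks P z i0 (r j) mm mp := by
    intro j
    by_cases hj : 1 ≤ j ∧ j ≤ J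
    · obtain ⟨mm, mp, M⟩ := pvtp_marks_exists (rH := r j) hi0 ((mono hj.1 hj.2 le_rfl).trans h0) ((mono hj.1 hj.2 le_rfl).trans hL)
      exact ⟨mm, mp, fun _ _ => M⟩
    · exact ⟨0, 0, fun a b => absurd ⟨a, b⟩ hj⟩
  choose mm mp M using ex
  have hn : ∀ j, 1 ≤ j → j ≤ J → ‖P.v i0 - z‖ < r j := fun j a b => by
    have := mono le_rfl a b
    linarith
  have hρj : ∀ j, 1 ≤ j → j ≤ J → r j ≤ ρ := fun j a b => by
    have := mono a b le_rfl
    linarith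
  set κ : ℕ → ℕ := fun i => if i < J then mm (J - i) else if i = J then i0 else mp (i - J) with hκ
  have κlo : ∀ i, i < J → κ i = mm (J - i) := fun i h => by simp only [hκ, if_pos h]
  have κmid : κ J = i0 := by simp only [hκ, lt_irrefl, if_false, if_true]
  have κhi : ∀ i, J < i → κ i = mp (i - J) := fun i h => by
    simp only [hκ, if_neg (not_lt.2 h.le), if_neg (ne_of_gt h)]
  have hM : ∀ j, 1 ≤ j → j ≤ J → PvtpMarks P z i0 (r j) (κ (J - j)) (κ (J + j)) := by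
    intro j a b
    rw [κlo (J - j) (by omega), κhi (J + j) (by omega)]
    have e1 : J - (J - j) = j := by omega
    have e2 : J + j - J = j := by omega
    rw [e1, e2]
    exact M j a b
  refine ⟨κ, κmid, hM, ?_, ?_, ?_, ?_⟩
  · -- mono
    intro i hi
    rcases Nat.lt_trichotomy (i + 1) J with h | h | h
    · rw [κlo i (by omega), κlo (i + 1) h]
      have e1 : J - i = (J - (i + 1)) + 1 := by omega
      exact (pvmx_marks_nest (M (J - (i + 1)) (by omega) (by omega)) (M (J - i) (by omega) (by omega)) (mono (by omega) (by omega) (by omega))).1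
    · rw [κlo i (by omega), h, κmid]
      exact (M (J - i) (by omega) (by omega)).mm_le
    · rcases Nat.eq_or_lt_of_le (Nat.lt_succ_iff.1 h) with h' | h'
      · rw [← h', κmid, κhi (J + 1) (by omega)]
        exact (M (J + 1 - J) (by omega) (by omega)).le_mp
      · rw [κhi i h', κhi (i + 1) (by omega)]
        exact (pvmx_marks_nest (M (i - J) (by omega) (by omega)) (M (i + 1 - J) (by omega) (by omega)) (mono (by omega) (by omega) (by omega))).2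
  · -- le_len
    rw [κhi (2 * J) (by omega)]
    exact (M (2 * J - J) (by omega) (by omega)).mp_le
  · -- big
    intro i hi
    have hmono : κ i ≤ κ (i + 1) := by
      rcases Nat.lt_trichotomy (i + 1) J with h | h | h
      · rw [κlo i (by omega), κlo (i + 1) h]
        exact (pvmx_marks_nest (M (J - (i + 1)) (by omega) (by omega)) (M (J - i) (by omega) (by omega)) (mono (by omega) (by omega) (by omega))).1
      · rw [κlo i (by omega), h, κmid]
        exact (M (J - i) (by omega) (by omega)).mm_le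
      · rcases Nat.eq_or_lt_of_le (Nat.lt_succ_iff.1 h) with h' | h'
        · rw [← h', κmid, κhi (J + 1) (by omega)]
          exact (M (J + 1 - J) (by omega) (by omega)).le_mp
        · rw [κhi i h', κhi (i + 1) (by omega)]
          exact (pvmx_marks_nest (M (i - J) (by omega) (by omega)) (M (i + 1 - J) (by omega) (by omega)) (mono (by omega) (by omega) (by omega))).2
    refine ⟨κ i, κ (i + 1), le_rfl, hmono, hmono, le_rfl, ?_⟩
    rcases Nat.lt_trichotomy (i + 1) J with h | h | h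
    · rw [κlo i (by omega), κlo (i + 1) h]
      have A := (M (J - i) (by omega) (by omega)).mm_far
      have B := (M (J - (i + 1)) (by omega) (by omega)).mm_rad (hn _ (by omega) (by omega)) (hρj _ (by omega) (by omega)) mesh
      have Cc := hr (J - (i + 1)) (by omega) (by omega)
      have e1 : J - (i + 1) + 1 = J - i := by omega
      rw [e1] at Cc
      have := pvmx_rad_diff (P.v (mm (J - i))) (P.v (mm (J - (i + 1)))) z
      linarith
    · rw [κlo i (by omega), h, κmid]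
      have e1 : J - i = 1 := by omega
      rw [e1]
      have A := (M 1 le_rfl hJ).mm_far
      have := pvmx_rad_diff (P.v (mm 1)) (P.v i0) z
      linarith
    · rcases Nat.eq_or_lt_of_le (Nat.lt_succ_iff.1 h) with h' | h'
      · rw [← h', κmid, κhi (J + 1) (by omega)]
        have e1 : J + 1 - J = 1 := by omega
        rw [e1]
        have A := (M 1 le_rfl hJ).mp_far
        have := pvmx_rad_diff (P.v (mp 1)) (P.v i0) z
        rw [norm_sub_rev (P.v (mp 1)) (P.v i0)] at this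
        linarith
      · rw [κhi i h', κhi (i + 1) (by omega)]
        have A := (M (i + 1 - J) (by omega) (by omega)).mp_far
        have B := (M (i - J) (by omega) (by omega)).mp_rad (hn _ (by omega) (by omega)) (hρj _ (by omega) (by omega)) mesh
        have Cc := hr (i - J) (by omega) (by omega)
        have e1 : i - J + 1 = i + 1 - J := by omega
        rw [e1] at Cc
        have := pvmx_rad_diff (P.v (mp (i + 1 - J))) (P.v (mp (i - J))) z
        rw [norm_sub_rev (P.v (mp (i + 1 - J))) (P.v (mp (i - J)))] at this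
        linarith
  · -- win
    intro k k1 k2
    rw [κlo 0 (by omega)] at k1
    rw [κhi (2 * J) (by omega)] at k2
    have e1 : J - 0 = J := by omega
    have e2 : 2 * J - J = J := by omega
    rw [e1] at k1
    rw [e2] at k2
    exact ((M J hJ le_rfl).K_rad (hn J hJ le_rfl) (hρj J hJ le_rfl) hμ mesh k1 k2).trans hρ

end marks

/-! ## §4 radii: M1 (a), (c), (T5) in metric form -/

section radii

variable {P : PvbRim} {z p : ℂ} {i0 mm mp lo hi a b n : ℕ} {rH ra rb r δ μ : ℝ} {c : ℤ × ℤ}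

/-- **M1 (c)**: beyond the marks (at a radius `≥ rb`) the rim never comes back to `B(z,ra)` -/
theorem pvmx_far_of_trap (T : PvtpTrap P z i0 ra rb lo hi) (M : PvtpMarks P z i0 rH mm mp) (hb : rb ≤ rH) :
    (∀ k, mp ≤ k → k ≤ P.len → ra ≤ ‖P.v k - z‖) ∧ (∀ k, k ≤ mm → ra ≤ ‖P.v k - z‖) := by
  obtain ⟨h1, h2⟩ := T.between M hb
  constructor
  · intro k k1 k2
    by_contra hc
    have := (T.all k k2 (not_le.1 hc)).2
    omega
  · intro k k1
    by_contra hc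
    have := (T.all k (k1.trans (M.mm_le.trans (M.le_mp.trans M.mp_le))) (not_le.1 hc)).1
    omega

/-- **M1 (a)** in cell form: the squares of the `n`-th collar of the cells of an arc with vertices in `cl B(z,r)` lie in `cl B(z, r + 2 (n+1) δ)` -/
theorem pvmx_cells_rad (hδ : 0 < δ) (h : ∀ k, a ≤ k → k ≤ b → ‖P.v k - z‖ ≤ r) (hc : c ∈ pvtN8^[n] (pvtCells δ (pvtpPoly P a b))) (hp : p ∈ pvtSq δ c) :
    ‖p - z‖ ≤ r + 2 * ((n : ℝ) + 1) * δ := by
  obtain ⟨q, hq, hpq⟩ := pvtp_cell_near hδ n hc hp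
  have h1 := pvtp_poly_ball h hq
  have h2 := pvtp_tri p q z
  linarith

/-- the squares of the `n`-th collar of the grid ball lie in `cl B(z, r + 2 (n+1) δ)` -/
theorem pvmx_ball_rad (hδ : 0 < δ) (hc : c ∈ pvtN8^[n] (pvtCells δ (Metric.closedBall z r))) (hp : p ∈ pvtSq δ c) : ‖p - z‖ ≤ r + 2 * ((n : ℝ) + 1) * δ := by
  obtain ⟨q, hq, hpq⟩ := pvtp_cell_near hδ n hc hp
  have h1 : ‖q - z‖ ≤ r := mem_closedBall_iff_norm.1 hq
  have h2 := pvtp_tri p q z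
  linarith

/-- the grid ball contains the ball, its `n`-th collar the ball of radius `r + n δ` -/
theorem pvmx_ball_sub (hδ : 0 < δ) (hr : 0 ≤ r) (hp : ‖p - z‖ ≤ r + n * δ) : p ∈ pvtU δ (pvtN8^[n] (pvtCells δ (Metric.closedBall z r))) := by
  by_cases h0 : ‖p - z‖ ≤ r
  · exact pvt_U_mono (pvtp_fat_sub n) (pvt_cells_cover hδ (mem_closedBall_iff_norm.2 h0))
  have hpos : 0 < ‖p - z‖ := lt_of_le_of_lt hr (not_le.1 h0)
  set t : ℝ := r / ‖p - z‖ with ht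
  have ht0 : 0 ≤ t := by positivity
  have ht1 : t ≤ 1 := by rw [ht, div_le_one hpos]; exact (not_le.1 h0).le
  set q : ℂ := z + (t : ℂ) * (p - z) with hq
  have h1 : ‖q - z‖ ≤ r := by
    have : q - z = (t : ℂ) * (p - z) := by rw [hq]; ring
    rw [this, norm_mul, Complex.norm_real, Real.norm_of_nonneg ht0, ht, div_mul_cancel₀ _ hpos.ne']
  have h2 : ‖p - q‖ ≤ n * δ := by
    have : p - q = ((1 - t : ℝ) : ℂ) * (p - z) := by rw [hq]; push_cast; ring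
    rw [this, norm_mul, Complex.norm_real, Real.norm_of_nonneg (by linarith), sub_mul, one_mul, ht, div_mul_cancel₀ _ hpos.ne']
    linarith
  exact pvtp_fat_U hδ n (pvt_cells_cover hδ (mem_closedBall_iff_norm.2 h1)) h2

/-- (T5), second half: an arc with a vertex at radius `≥ r` has a cell all of whose points have radius `≥ r - 2 δ` -/
theorem pvmx_cell_far {k : ℕ} (hδ : 0 < δ) (h1 : a ≤ k) (h2 : k ≤ b) (hk : r ≤ ‖P.v k - z‖) :
    ∃ c ∈ pvtCells δ (pvtpPoly P a b), P.v k ∈ pvtSq δ c ∧ ∀ p ∈ pvtSq δ c, r - 2 * δ ≤ ‖p - z‖ := by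
  obtain ⟨c, hc⟩ := pvt_sq_cover hδ (P.v k)
  refine ⟨c, pvmx_cell_of_vertex h1 h2 hc, hc, fun p hp => ?_⟩
  have h3 := pvt_sq_diam hc hp
  have h4 := pvtp_tri (P.v k) p z
  linarith

end radii

end Claimed.Agent.R289
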