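import Claimed.Agent.R289.Tr.Poly

/-!
# Row 289 (S0537), unit TR / WB3 FIT, Tr/Ring : BOUNDARY CIRCUIT, RING, LANES      (owner helper39; prefix `pvtr_`, defs `pvtr*`, `Pvtr*`)

Cells = `ℤ × ℤ`, adjacency `triAdj` / `tscG` (4-adjacent ⟹ triAdj ⟹ 8-adjacent, `Tr/Poly.lean`).

* §1 the CONTOUR PERMUTATION of a set `H` of cells.   Darts `pvtrBd H = {(b, w) : b ∈ H, w ∉ H, b ~ w}`;   `pvtrStep H (b, w)`: `x` = third vertex of the triangle on the LEFT of `b → w`;  `(x, w)` if `x ∈ H`, else `(b, x)`.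
  Inverse `pvtrBack`.   The outer cells `w_m` turn COUNTERCLOCKWISE round `H`: the orientation is built in.
* §2 the cochain of a set of darts which is invariant across the triangles of a region `s` is closed on `s` (`pvtr_co_pos`), so it has a potential if `s` is TriSC (`pvtr_pot_spec`).
  **`pvtr_crosscut`**: a stretch of the contour whose two end outer cells are off `s` is cut from all the other darts inside `s \ H`.
* §3 finite `H`: periodicity;   **`pvtr_orbit`**: `H` and its complement connected ⟹ ONE orbit = the boundary circuit;   it runs through `pvtLayO H`.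
* §4 LANES: `PvtrLane H D₁ D₂ e l` = positive stretch from the door `D₁` to the door `D₂` off the doors;   existence, connected, ends next to the doors;
  **`pvtr_lane_sep`**: the lane `D₁ → D₂` and the lane `D₂ → D₁` are not joined inside `s \ H`, `s` TriSC off the doors;   **`pvtr_ring_lanes`**: the ring `H' \ H` cut by two doors.
-/

set_option autoImplicit false
set_option linter.unusedSectionVars false
set_option linter.unusedVariables false
set_option linter.unusedSimpArgs false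

namespace Claimed.Agent.R289

open Relation Claims.C0467 Claimed.Agent.R291

/-! ## §1 the contour permutation -/

/-- rotation by 60 degrees, counterclockwise: `(1,0) → (0,1) → (-1,1) → (-1,0) → (0,-1) → (1,-1) → (1,0)` -/
def pvtrRot (d : ℤ × ℤ) : ℤ × ℤ := (-d.2, d.1 + d.2)

/-- the inverse rotation -/
def pvtrRotI (d : ℤ × ℤ) : ℤ × ℤ := (d.1 + d.2, -d.1)

/-- the boundary darts of `H`: inner cell, outer cell -/
def pvtrBd (H : Set (ℤ × ℤ)) : Set ((ℤ × ℤ) × (ℤ × ℤ)) := {e | e.1 ∈ H ∧ e.2 ∉ H ∧ triAdj e.1 e.2}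

/-- the third vertex of the triangle on the left of the dart -/
def pvtrApex (e : (ℤ × ℤ) × (ℤ × ℤ)) : ℤ × ℤ := e.1 + pvtrRot (e.2 - e.1)

/-- the third vertex of the triangle on the right of the dart -/
def pvtrApexR (e : (ℤ × ℤ) × (ℤ × ℤ)) : ℤ × ℤ := e.1 + pvtrRotI (e.2 - e.1)

open Classical in
/-- one step of the contour: cross the triangle on the left.   The outer cell turns counterclockwise round `H` -/
noncomputable def pvtrStep (H : Set (ℤ × ℤ)) (e : (ℤ × ℤ) × (ℤ × ℤ)) : (ℤ × ℤ) × (ℤ × ℤ) :=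
  if pvtrApex e ∈ H then (pvtrApex e, e.2) else (e.1, pvtrApex e)

open Classical in
/-- one step back -/
noncomputable def pvtrBack (H : Set (ℤ × ℤ)) (e : (ℤ × ℤ) × (ℤ × ℤ)) : (ℤ × ℤ) × (ℤ × ℤ) :=
  if pvtrApexR e ∈ H then (pvtrApexR e, e.2) else (e.1, pvtrApexR e)

open Classical in
/-- the mod 2 cochain of a set of darts -/
noncomputable def pvtrCo (Ω : Set ((ℤ × ℤ) × (ℤ × ℤ))) (u v : ℤ × ℤ) : ZMod 2 := if (u, v) ∈ Ω ∨ (v, u) ∈ Ω then 1 else 0

theorem pvtrg_eqns_cite : True := by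
  have := @pvtrRot.eq_1
  have := @pvtrRotI.eq_1
  have := @pvtrBd.eq_1
  have := @pvtrApex.eq_1
  have := @pvtrApexR.eq_1
  have := @pvtrStep.eq_1
  have := @pvtrBack.eq_1
  have := @pvtrCo.eq_1
  trivial

section contour

variable {H : Set (ℤ × ℤ)} {e e' : (ℤ × ℤ) × (ℤ × ℤ)}

theorem pvtr_apex_adj (h : triAdj e.1 e.2) : triAdj e.1 (pvtrApex e) ∧ triAdj (pvtrApex e) e.2 := by
  obtain ⟨⟨a, b⟩, ⟨c, d⟩⟩ := e
  simp only [tsc_adj_iff, pvtrApex, pvtrRot, Prod.fst_add, Prod.snd_add, Prod.fst_sub, Prod.snd_sub] at h ⊢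
  omega

theorem pvtr_apexR_adj (h : triAdj e.1 e.2) : triAdj e.1 (pvtrApexR e) ∧ triAdj (pvtrApexR e) e.2 := by
  obtain ⟨⟨a, b⟩, ⟨c, d⟩⟩ := e
  simp only [tsc_adj_iff, pvtrApexR, pvtrRotI, Prod.fst_add, Prod.snd_add, Prod.fst_sub, Prod.snd_sub] at h ⊢
  omega

theorem pvtr_step_in (h : pvtrApex e ∈ H) : pvtrStep H e = (pvtrApex e, e.2) := by
  simp [pvtrStep, h]

theorem pvtr_step_out (h : pvtrApex e ∉ H) : pvtrStep H e = (e.1, pvtrApex e) := by
  simp [pvtrStep, h]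

theorem pvtr_back_in (h : pvtrApexR e ∈ H) : pvtrBack H e = (pvtrApexR e, e.2) := by
  simp [pvtrBack, h]

theorem pvtr_back_out (h : pvtrApexR e ∉ H) : pvtrBack H e = (e.1, pvtrApexR e) := by
  simp [pvtrBack, h]

theorem pvtr_step_mem (he : e ∈ pvtrBd H) : pvtrStep H e ∈ pvtrBd H := by
  by_cases h : pvtrApex e ∈ H
  · rw [pvtr_step_in h]
    exact ⟨h, he.2.1, (pvtr_apex_adj he.2.2).2⟩
  · rw [pvtr_step_out h]
    exact ⟨he.1, h, (pvtr_apex_adj he.2.2).1⟩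

theorem pvtr_back_mem (he : e ∈ pvtrBd H) : pvtrBack H e ∈ pvtrBd H := by
  by_cases h : pvtrApexR e ∈ H
  · rw [pvtr_back_in h]
    exact ⟨h, he.2.1, (pvtr_apexR_adj he.2.2).2⟩
  · rw [pvtr_back_out h]
    exact ⟨he.1, h, (pvtr_apexR_adj he.2.2).1⟩

theorem pvtr_apexR_a (e : (ℤ × ℤ) × (ℤ × ℤ)) : pvtrApexR (pvtrApex e, e.2) = e.1 := by
  obtain ⟨⟨a, b⟩, ⟨c, d⟩⟩ := e
  simp only [pvtrApex, pvtrApexR, pvtrRot, pvtrRotI, Prod.fst_add, Prod.snd_add, Prod.fst_sub, Prod.snd_sub, Prod.mk_add_mk, Prod.mk_sub_mk, Prod.mk.injEq]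
  constructor <;> ring

theorem pvtr_apexR_b (e : (ℤ × ℤ) × (ℤ × ℤ)) : pvtrApexR (e.1, pvtrApex e) = e.2 := by
  obtain ⟨⟨a, b⟩, ⟨c, d⟩⟩ := e
  simp only [pvtrApex, pvtrApexR, pvtrRot, pvtrRotI, Prod.fst_add, Prod.snd_add, Prod.fst_sub, Prod.snd_sub, Prod.mk_add_mk, Prod.mk_sub_mk, Prod.mk.injEq]
  constructor <;> ring

theorem pvtr_apex_a (e : (ℤ × ℤ) × (ℤ × ℤ)) : pvtrApex (pvtrApexR e, e.2) = e.1 := by
  obtain ⟨⟨a, b⟩, ⟨c, d⟩⟩ := e
  simp only [pvtrApex, pvtrApexR, pvtrRot, pvtrRotI, Prod.fst_add, Prod.snd_add, Prod.fst_sub, Prod.snd_sub, Prod.mk_add_mk, Prod.mk_sub_mk, Prod.mk.injEq]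
  constructor <;> ring

theorem pvtr_apex_b (e : (ℤ × ℤ) × (ℤ × ℤ)) : pvtrApex (e.1, pvtrApexR e) = e.2 := by
  obtain ⟨⟨a, b⟩, ⟨c, d⟩⟩ := e
  simp only [pvtrApex, pvtrApexR, pvtrRot, pvtrRotI, Prod.fst_add, Prod.snd_add, Prod.fst_sub, Prod.snd_sub, Prod.mk_add_mk, Prod.mk_sub_mk, Prod.mk.injEq]
  constructor <;> ring

theorem pvtr_back_step (he : e ∈ pvtrBd H) : pvtrBack H (pvtrStep H e) = e := by
  by_cases h : pvtrApex e ∈ H
  · rw [pvtr_step_in h, pvtr_back_in (by rw [pvtr_apexR_a]; exact he.1), pvtr_apexR_a]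
  · rw [pvtr_step_out h, pvtr_back_out (by rw [pvtr_apexR_b]; exact he.2.1), pvtr_apexR_b]

theorem pvtr_step_back (he : e ∈ pvtrBd H) : pvtrStep H (pvtrBack H e) = e := by
  by_cases h : pvtrApexR e ∈ H
  · rw [pvtr_back_in h, pvtr_step_in (by rw [pvtr_apex_a]; exact he.1), pvtr_apex_a]
  · rw [pvtr_back_out h, pvtr_step_out (by rw [pvtr_apex_b]; exact he.2.1), pvtr_apex_b]

theorem pvtr_step_inj (he : e ∈ pvtrBd H) (he' : e' ∈ pvtrBd H) (h : pvtrStep H e = pvtrStep H e') : e = e' := by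
  rw [← pvtr_back_step he, h, pvtr_back_step he']

theorem pvtr_iter_mem (he : e ∈ pvtrBd H) (m : ℕ) : (pvtrStep H)^[m] e ∈ pvtrBd H := by
  induction m with
  | zero => exact he
  | succ k ih =>
    rw [Function.iterate_succ_apply']
    exact pvtr_step_mem ih

/-- the outer cell of the next dart belongs to the triangle of the dart -/
theorem pvtr_step_snd (e : (ℤ × ℤ) × (ℤ × ℤ)) : (pvtrStep H e).2 = e.2 ∨ (pvtrStep H e).2 = pvtrApex e := by
  by_cases h : pvtrApex e ∈ H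
  · rw [pvtr_step_in h]; exact Or.inl rfl
  · rw [pvtr_step_out h]; exact Or.inr rfl

theorem pvtr_step_fst (e : (ℤ × ℤ) × (ℤ × ℤ)) : (pvtrStep H e).1 = e.1 ∨ (pvtrStep H e).1 = pvtrApex e := by
  by_cases h : pvtrApex e ∈ H
  · rw [pvtr_step_in h]; exact Or.inr rfl
  · rw [pvtr_step_out h]; exact Or.inl rfl

/-- consecutive outer cells are equal or adjacent -/
theorem pvtr_step_snd_adj (he : e ∈ pvtrBd H) : (pvtrStep H e).2 = e.2 ∨ triAdj e.2 (pvtrStep H e).2 := by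
  rcases pvtr_step_snd (H := H) e with h | h
  · exact Or.inl h
  · rw [h]; exact Or.inr (hx_tri_symm _ _ (pvtr_apex_adj he.2.2).2)

theorem pvtr_step_fst_adj (he : e ∈ pvtrBd H) : (pvtrStep H e).1 = e.1 ∨ triAdj e.1 (pvtrStep H e).1 := by
  rcases pvtr_step_fst (H := H) e with h | h
  · exact Or.inl h
  · rw [h]; exact Or.inr (pvtr_apex_adj he.2.2).1

/-- a 3-clique is a positively oriented triangle, in one of the two orders -/
theorem pvtr_clique {u v w : ℤ × ℤ} (h1 : triAdj u v) (h2 : triAdj v w) (h3 : triAdj u w) : w = pvtrApex (u, v) ∨ v = pvtrApex (u, w) := by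
  obtain ⟨a, b⟩ := u
  obtain ⟨c, d⟩ := v
  obtain ⟨x, y⟩ := w
  simp only [tsc_adj_iff, pvtrApex, pvtrRot, Prod.fst_add, Prod.snd_add, Prod.fst_sub, Prod.snd_sub, Prod.mk_add_mk, Prod.mk_sub_mk, Prod.mk.injEq] at h1 h2 h3 ⊢
  omega

theorem pvtr_apex_rot1 (a b : ℤ × ℤ) : pvtrApex (b, pvtrApex (a, b)) = a := by
  obtain ⟨a, a'⟩ := a
  obtain ⟨c, d⟩ := b
  simp only [pvtrApex, pvtrRot, Prod.fst_add, Prod.snd_add, Prod.fst_sub, Prod.snd_sub, Prod.mk_add_mk, Prod.mk_sub_mk, Prod.mk.injEq]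
  constructor <;> ring

theorem pvtr_apex_rot2 (a b : ℤ × ℤ) : pvtrApex (pvtrApex (a, b), a) = b := by
  obtain ⟨a, a'⟩ := a
  obtain ⟨c, d⟩ := b
  simp only [pvtrApex, pvtrRot, Prod.fst_add, Prod.snd_add, Prod.fst_sub, Prod.snd_sub, Prod.mk_add_mk, Prod.mk_sub_mk, Prod.mk.injEq]
  constructor <;> ring

theorem pvtr_co_symm (Ω : Set ((ℤ × ℤ) × (ℤ × ℤ))) (u v : ℤ × ℤ) : pvtrCo Ω u v = pvtrCo Ω v u := by
  unfold pvtrCo
  by_cases h : (u, v) ∈ Ω ∨ (v, u) ∈ Ω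
  · rw [if_pos h, if_pos h.symm]
  · rw [if_neg h, if_neg (fun h' => h h'.symm)]

theorem pvtr_par (p q r : Prop) [Decidable p] [Decidable q] [Decidable r] (h1 : ¬ p) (h2 : q ↔ r) :
    (if p then (1 : ZMod 2) else 0) + (if q then 1 else 0) + (if r then 1 else 0) = 0
      ∧ (if q then (1 : ZMod 2) else 0) + (if p then 1 else 0) + (if r then 1 else 0) = 0
      ∧ (if q then (1 : ZMod 2) else 0) + (if r then 1 else 0) + (if p then 1 else 0) = 0 := by
  by_cases hq : q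
  · have hr : r := h2.1 hq
    simp only [h1, hq, hr, if_true, if_false]
    decide
  · have hr : ¬ r := fun h => hq (h2.2 h)
    simp only [h1, hq, hr, if_false]
    decide

/-- the cochain of a set of darts which is invariant across the triangles of `s` is closed on the positive triangles of `s` -/
theorem pvtr_co_pos {s : Set (ℤ × ℤ)} {Ω : Set ((ℤ × ℤ) × (ℤ × ℤ))} (hΩ : Ω ⊆ pvtrBd H)
    (hinv : ∀ e ∈ pvtrBd H, e.1 ∈ s → e.2 ∈ s → pvtrApex e ∈ s → (e ∈ Ω ↔ pvtrStep H e ∈ Ω))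
    {a b : ℤ × ℤ} (hab : triAdj a b) (ha : a ∈ s) (hb : b ∈ s) (hc : pvtrApex (a, b) ∈ s) :
    pvtrCo Ω a b + pvtrCo Ω b (pvtrApex (a, b)) + pvtrCo Ω a (pvtrApex (a, b)) = 0 := by
  classical
  set c := pvtrApex (a, b) with hcdef
  have hac : triAdj a c := (pvtr_apex_adj (e := (a, b)) hab).1
  have hcb : triAdj c b := (pvtr_apex_adj (e := (a, b)) hab).2
  have hbc : triAdj b c := hx_tri_symm _ _ hcb
  have hca : triAdj c a := hx_tri_symm _ _ hac
  have r1 : pvtrApex (b, c) = a := pvtr_apex_rot1 a b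
  have r2 : pvtrApex (c, a) = b := pvtr_apex_rot2 a b
  have no : ∀ u v, (u ∈ H ↔ v ∈ H) → ¬ ((u, v) ∈ Ω ∨ (v, u) ∈ Ω) := by
    rintro u v huv (h | h)
    · exact (hΩ h).2.1 (huv.1 (hΩ h).1)
    · exact (hΩ h).2.1 (huv.2 (hΩ h).1)
  have one : ∀ u v, u ∈ H → (((u, v) ∈ Ω ∨ (v, u) ∈ Ω) ↔ (u, v) ∈ Ω) := by
    intro u v hu
    constructor
    · rintro (h | h)
      · exact h
      · exact absurd hu (hΩ h).2.1
    · exact Or.inl
  have one' : ∀ u v, u ∈ H → (((v, u) ∈ Ω ∨ (u, v) ∈ Ω) ↔ (u, v) ∈ Ω) := by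
    intro u v hu
    rw [or_comm]
    exact one u v hu
  unfold pvtrCo
  by_cases hA : a ∈ H <;> by_cases hB : b ∈ H <;> by_cases hC : c ∈ H
  · exact (pvtr_par _ _ _ (no a b (by tauto)) (by have := no b c (by tauto); have := no a c (by tauto); tauto)).1
  · -- a b in H, c out : dart (b, c), apex a in H, step = (a, c)
    have h := hinv (b, c) ⟨hB, hC, hbc⟩ hb hc (by rw [r1]; exact ha)
    rw [pvtr_step_in (by rw [r1]; exact hA), r1] at h
    exact (pvtr_par _ _ _ (no a b (by tauto)) (by rw [one b c hB, one a c hA]; exact h)).1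
  · -- a c in H, b out : dart (a, b), apex c in H, step = (c, b)
    have h := hinv (a, b) ⟨hA, hB, hab⟩ ha hb hc
    rw [pvtr_step_in (by exact hC)] at h
    exact (pvtr_par _ _ _ (no a c (by tauto)) (by rw [one a b hA, one' c b hC]; exact h)).2.2
  · -- a in H, b c out : dart (a, b), apex c out, step = (a, c)
    have h := hinv (a, b) ⟨hA, hB, hab⟩ ha hb hc
    rw [pvtr_step_out (by exact hC)] at h
    exact (pvtr_par _ _ _ (no b c (by tauto)) (by rw [one a b hA, one a c hA]; exact h)).2.1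
  · -- b c in H, a out : dart (c, a), apex b in H, step = (b, a)
    have h := hinv (c, a) ⟨hC, hA, hca⟩ hc ha (by rw [r2]; exact hb)
    rw [pvtr_step_in (by rw [r2]; exact hB), r2] at h
    exact (pvtr_par _ _ _ (no b c (by tauto)) (by rw [one' b a hB, one' c a hC]; exact h.symm)).2.1
  · -- b in H, a c out : dart (b, c), apex a out, step = (b, a)
    have h := hinv (b, c) ⟨hB, hC, hbc⟩ hb hc (by rw [r1]; exact ha)
    rw [pvtr_step_out (by rw [r1]; exact hA), r1] at h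
    exact (pvtr_par _ _ _ (no a c (by tauto)) (by rw [one' b a hB, one b c hB]; exact h.symm)).2.2
  · -- c in H, a b out : dart (c, a), apex b out, step = (c, b)
    have h := hinv (c, a) ⟨hC, hA, hca⟩ hc ha (by rw [r2]; exact hb)
    rw [pvtr_step_out (by rw [r2]; exact hB), r2] at h
    exact (pvtr_par _ _ _ (no a b (by tauto)) (by rw [one' c b hC, one' c a hC]; exact h.symm)).1
  · exact (pvtr_par _ _ _ (no a b (by tauto)) (by have := no b c (by tauto); have := no a c (by tauto); tauto)).1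

/-- **the potential of an invariant set of darts** -/
theorem pvtr_pot {s : Set (ℤ × ℤ)} (hs : TriSCOn (ZMod 2) tscG s) {Ω : Set ((ℤ × ℤ) × (ℤ × ℤ))} (hΩ : Ω ⊆ pvtrBd H)
    (hinv : ∀ e ∈ pvtrBd H, e.1 ∈ s → e.2 ∈ s → pvtrApex e ∈ s → (e ∈ Ω ↔ pvtrStep H e ∈ Ω)) :
    ∃ f : ℤ × ℤ → ZMod 2, ∀ u ∈ s, ∀ v ∈ s, triAdj u v → pvtrCo Ω u v = f u + f v := by
  refine tsc_mod2 hs (pvtrCo Ω) (fun u _ v _ _ => pvtr_co_symm Ω u v) ?_
  intro u hu v hv w hw h1 h2 h3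
  rcases pvtr_clique h1 h2 h3 with h | h
  · subst h
    exact pvtr_co_pos hΩ hinv h1 hu hv hw
  · subst h
    have := pvtr_co_pos hΩ hinv h3 hu hw hv
    rw [pvtr_co_symm Ω _ w]
    rw [← this]
    ring

theorem pvtr_co_one {Ω : Set ((ℤ × ℤ) × (ℤ × ℤ))} (h : e ∈ Ω) : pvtrCo Ω e.1 e.2 = 1 := by
  unfold pvtrCo
  rw [if_pos (Or.inl h)]

theorem pvtr_co_zero {Ω : Set ((ℤ × ℤ) × (ℤ × ℤ))} {u v : ℤ × ℤ} (h : (u, v) ∉ Ω) (h' : (v, u) ∉ Ω) : pvtrCo Ω u v = 0 := by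
  unfold pvtrCo
  rw [if_neg (by tauto)]

theorem pvtr_z2 {x y : ZMod 2} (h : 0 = x + y) : x = y := by revert x y; decide

/-- what the potential does: constant on `H`, constant along the paths off `H`, jumps exactly across the darts of `Ω` -/
theorem pvtr_pot_spec {s : Set (ℤ × ℤ)} (hs : TriSCOn (ZMod 2) tscG s) {Ω : Set ((ℤ × ℤ) × (ℤ × ℤ))} (hΩ : Ω ⊆ pvtrBd H)
    (hinv : ∀ e ∈ pvtrBd H, e.1 ∈ s → e.2 ∈ s → pvtrApex e ∈ s → (e ∈ Ω ↔ pvtrStep H e ∈ Ω)) :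
    ∃ f : ℤ × ℤ → ZMod 2, (∀ u v, TscR tscG (s ∩ H) u v → f u = f v) ∧ (∀ u v, TscR tscG (s \ H) u v → f u = f v) ∧
      ∀ e ∈ pvtrBd H, e.1 ∈ s → e.2 ∈ s → (e ∈ Ω ↔ f e.2 = f e.1 + 1) := by
  obtain ⟨f, hf⟩ := pvtr_pot hs hΩ hinv
  refine ⟨f, ?_, ?_, ?_⟩
  · intro u v h
    refine tsc_R_const f (fun a b hab => ?_) h
    have := hf a hab.2.1.1 b hab.2.2.1 hab.1
    rw [pvtr_co_zero (fun h => (hΩ h).2.1 hab.2.2.2) (fun h => (hΩ h).2.1 hab.2.1.2)] at this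
    exact pvtr_z2 this
  · intro u v h
    refine tsc_R_const f (fun a b hab => ?_) h
    have := hf a hab.2.1.1 b hab.2.2.1 hab.1
    rw [pvtr_co_zero (fun h => hab.2.1.2 (hΩ h).1) (fun h => hab.2.2.2 (hΩ h).1)] at this
    exact pvtr_z2 this
  · intro e he h1 h2
    have := hf e.1 h1 e.2 h2 he.2.2
    constructor
    · intro h
      rw [pvtr_co_one h] at this
      generalize f e.1 = x at this ⊢
      generalize f e.2 = y at this ⊢
      revert x y; decide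
    · intro h
      by_contra hne
      rw [pvtr_co_zero (u := e.1) (v := e.2) hne (fun h => he.2.1 (hΩ h).1), h] at this
      generalize f e.1 = x at this
      revert x; decide

/-- **CROSSCUT LEMMA**.   `s` simply connected, `H ⊆ s` connected.  A stretch `e₀, …, e_l` of the contour of `H` whose first and last outer cells are off `s`:
its outer cells are not joined inside `s \ H` to the outer cell of any other dart of `H` -/
theorem pvtr_crosscut {s : Set (ℤ × ℤ)} (hs : TriSCOn (ZMod 2) tscG s) (hHs : H ⊆ s) (hHc : TscConn tscG H) (he : e ∈ pvtrBd H) {l m : ℕ}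
    (h0 : e.2 ∉ s) (hl : ((pvtrStep H)^[l] e).2 ∉ s) (hm : m < l) (hms : ((pvtrStep H)^[m] e).2 ∈ s)
    (he' : e' ∈ pvtrBd H) (hne : ∀ k < l, (pvtrStep H)^[k] e ≠ e') : ¬ TscR tscG (s \ H) ((pvtrStep H)^[m] e).2 e'.2 := by
  intro hpath
  set Ω : Set ((ℤ × ℤ) × (ℤ × ℤ)) := {x | ∃ k < l, x = (pvtrStep H)^[k] e} with hΩdef
  have hΩ : Ω ⊆ pvtrBd H := by
    rintro x ⟨k, -, rfl⟩
    exact pvtr_iter_mem he k
  have hinv : ∀ x ∈ pvtrBd H, x.1 ∈ s → x.2 ∈ s → pvtrApex x ∈ s → (x ∈ Ω ↔ pvtrStep H x ∈ Ω) := by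
    intro x hx h1 h2 h3
    have hs2 : (pvtrStep H x).2 ∈ s := by
      rcases pvtr_step_snd (H := H) x with h | h <;> rw [h] <;> assumption
    constructor
    · rintro ⟨k, hk, rfl⟩
      rw [← Function.iterate_succ_apply' (pvtrStep H) k e] at hs2 ⊢
      refine ⟨k + 1, ?_, rfl⟩
      by_contra hcon
      have : k.succ = l := by omega
      rw [this] at hs2
      exact hl hs2
    · rintro ⟨k, hk, hxk⟩
      rcases k with _ | k
      · rw [hxk] at hs2
        exact absurd hs2 h0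
      · rw [Function.iterate_succ_apply'] at hxk
        exact ⟨k, by omega, pvtr_step_inj hx (pvtr_iter_mem he k) hxk⟩
  obtain ⟨f, f1, f2, f3⟩ := pvtr_pot_spec hs hΩ hinv
  have hm' := pvtr_iter_mem he m
  have hsH : s ∩ H = H := Set.inter_eq_right.2 hHs
  have a1 : f ((pvtrStep H)^[m] e).2 = f ((pvtrStep H)^[m] e).1 + 1 := (f3 _ hm' (hHs hm'.1) hms).1 ⟨m, hm, rfl⟩
  have a2 : f ((pvtrStep H)^[m] e).2 = f e'.2 := f2 _ _ hpath
  have a3 : f ((pvtrStep H)^[m] e).1 = f e'.1 := f1 _ _ (by rw [hsH]; exact hHc _ hm'.1 _ he'.1)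
  have hes : e'.2 ∈ s := (tsc_R_mem hpath ⟨hms, hm'.2.1⟩).1
  have a4 : e' ∈ Ω := (f3 _ he' (hHs he'.1) hes).2 (by rw [← a2, ← a3, a1])
  obtain ⟨k, hk, hk'⟩ := a4
  exact hne k hk hk'.symm

/-! ## §3 finite sets: the boundary circuit -/

theorem pvtr_bd_finite (hH : H.Finite) : (pvtrBd H).Finite := by
  obtain ⟨a, b, c, d, h⟩ := pvt_finite_sub_box hH
  refine ((tsc_box_finite a b c d).prod (tsc_box_finite (a - 1) (b + 1) (c - 1) (d + 1))).subset ?_
  rintro ⟨x, y⟩ ⟨h1, -, h3⟩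
  have hx := h h1
  have f := tsc_adj_fst h3
  have g := tsc_adj_snd h3
  simp only [tscBox, Set.mem_ofPred_eq, Set.mem_prod] at hx ⊢
  simp only at f g
  omega

theorem pvtr_iter_inj (he : e ∈ pvtrBd H) (he' : e' ∈ pvtrBd H) (m : ℕ) (h : (pvtrStep H)^[m] e = (pvtrStep H)^[m] e') : e = e' := by
  induction m with
  | zero => exact h
  | succ k ih =>
    rw [Function.iterate_succ_apply', Function.iterate_succ_apply'] at h
    exact ih (pvtr_step_inj (pvtr_iter_mem he k) (pvtr_iter_mem he' k) h)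

theorem pvtr_periodic (hH : H.Finite) (he : e ∈ pvtrBd H) : ∃ n, 0 < n ∧ (pvtrStep H)^[n] e = e := by
  obtain ⟨a, b, hab, h⟩ := (pvtr_bd_finite hH).exists_lt_map_eq_of_forall_mem (f := fun m : ℕ => (pvtrStep H)^[m] e) (fun m => pvtr_iter_mem he m)
  refine ⟨b - a, by omega, ?_⟩
  have hb : b = a + (b - a) := by omega
  rw [hb, Function.iterate_add_apply] at h
  exact (pvtr_iter_inj he (pvtr_iter_mem he _) a h).symm

/-- **ONE ORBIT**: the darts of a finite connected set with connected complement form one cycle -/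
theorem pvtr_orbit (hH : H.Finite) (hc : TscConn tscG H) (hco : TscConn tscG Hᶜ) (he : e ∈ pvtrBd H) (he' : e' ∈ pvtrBd H) : ∃ k, (pvtrStep H)^[k] e = e' := by
  obtain ⟨n, hn, hper⟩ := pvtr_periodic hH he
  set Ω : Set ((ℤ × ℤ) × (ℤ × ℤ)) := {x | ∃ k, x = (pvtrStep H)^[k] e} with hΩdef
  have hΩ : Ω ⊆ pvtrBd H := by
    rintro x ⟨k, rfl⟩
    exact pvtr_iter_mem he k
  have hinv : ∀ x ∈ pvtrBd H, x.1 ∈ (Set.univ : Set (ℤ × ℤ)) → x.2 ∈ (Set.univ : Set (ℤ × ℤ)) → pvtrApex x ∈ (Set.univ : Set (ℤ × ℤ)) → (x ∈ Ω ↔ pvtrStep H x ∈ Ω) := by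
    intro x hx _ _ _
    constructor
    · rintro ⟨k, rfl⟩
      exact ⟨k + 1, (Function.iterate_succ_apply' (pvtrStep H) k e).symm⟩
    · rintro ⟨k, hxk⟩
      rcases k with _ | k
      · obtain ⟨n', rfl⟩ : ∃ n', n = n' + 1 := ⟨n - 1, by omega⟩
        rw [Function.iterate_zero, id, ← hper, Function.iterate_succ_apply'] at hxk
        exact ⟨n', pvtr_step_inj hx (pvtr_iter_mem he n') hxk⟩
      · rw [Function.iterate_succ_apply'] at hxk
        exact ⟨k, pvtr_step_inj hx (pvtr_iter_mem he k) hxk⟩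
  obtain ⟨f, f1, f2, f3⟩ := pvtr_pot_spec (tsc_plane (ZMod 2)) hΩ hinv
  have a1 : f e.2 = f e.1 + 1 := (f3 e he (Set.mem_univ _) (Set.mem_univ _)).1 ⟨0, rfl⟩
  have a2 : f e.2 = f e'.2 := f2 _ _ (by
    have : (Set.univ : Set (ℤ × ℤ)) \ H = Hᶜ := by ext; simp
    rw [this]; exact hco _ he.2.1 _ he'.2.1)
  have a3 : f e.1 = f e'.1 := f1 _ _ (by rw [Set.univ_inter]; exact hc _ he.1 _ he'.1)
  obtain ⟨k, hk⟩ := (f3 e' he' (Set.mem_univ _) (Set.mem_univ _)).2 (by rw [← a2, ← a3, a1])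
  exact ⟨k, hk.symm⟩

theorem pvtr_out_eq (hH : H.Finite) (hco : TscConn tscG Hᶜ) : pvtOut H = Hᶜ := by
  apply Set.Subset.antisymm pvt_out_sub
  intro w hw
  obtain ⟨z, hz⟩ := pvt_out_nonempty hH
  exact pvt_out_R hz (hco z (pvt_out_sub hz) w hw)

/-- the boundary circuit runs through the outer layer -/
theorem pvtr_layO (hH : H.Finite) (hc : TscConn tscG H) (hco : TscConn tscG Hᶜ) (he : e ∈ pvtrBd H) (w : ℤ × ℤ) : w ∈ pvtLayO H ↔ ∃ k, ((pvtrStep H)^[k] e).2 = w := by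
  unfold pvtLayO
  rw [pvtr_out_eq hH hco]
  constructor
  · rintro ⟨hw, z, hz, hwz⟩
    obtain ⟨k, hk⟩ := pvtr_orbit hH hc hco he (e' := (z, w)) ⟨hz, hw, hx_tri_symm _ _ hwz⟩
    exact ⟨k, by rw [hk]⟩
  · rintro ⟨k, rfl⟩
    have := pvtr_iter_mem he k
    exact ⟨this.2.1, _, this.1, hx_tri_symm _ _ this.2.2⟩

/-- the boundary circuit runs through the inner layer -/
theorem pvtr_layI (hH : H.Finite) (hc : TscConn tscG H) (hco : TscConn tscG Hᶜ) (he : e ∈ pvtrBd H) (b : ℤ × ℤ) : b ∈ pvtLayI H ↔ ∃ k, ((pvtrStep H)^[k] e).1 = b := by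
  unfold pvtLayI
  rw [pvtr_out_eq hH hco]
  constructor
  · rintro ⟨hb, w, hw, hbw⟩
    obtain ⟨k, hk⟩ := pvtr_orbit hH hc hco he (e' := (b, w)) ⟨hb, hw, hbw⟩
    exact ⟨k, by rw [hk]⟩
  · rintro ⟨k, rfl⟩
    have := pvtr_iter_mem he k
    exact ⟨this.1, _, this.2.1, this.2.2⟩

end contour

/-! ## §4 lanes -/

/-- the outer cells of the open stretch `0 < m < l` -/
def pvtrArc (H : Set (ℤ × ℤ)) (e : (ℤ × ℤ) × (ℤ × ℤ)) (l : ℕ) : Set (ℤ × ℤ) := {w | ∃ m, 0 < m ∧ m < l ∧ w = ((pvtrStep H)^[m] e).2}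

/-- a positive (counterclockwise) stretch of the contour of `H` from the door `D₁` to the door `D₂`, off the doors in between -/
structure PvtrLane (H D₁ D₂ : Set (ℤ × ℤ)) (e : (ℤ × ℤ) × (ℤ × ℤ)) (l : ℕ) : Prop where
  mem : e ∈ pvtrBd H
  start : e.2 ∈ D₁
  stop : ((pvtrStep H)^[l] e).2 ∈ D₂
  off : ∀ m, 0 < m → m < l → ((pvtrStep H)^[m] e).2 ∉ D₁ ∪ D₂

theorem pvtrg_eqns_cite4 : True := by
  have := @pvtrArc.eq_1
  trivial

section lanes

variable {H H' D₁ D₂ : Set (ℤ × ℤ)} {e e' : (ℤ × ℤ) × (ℤ × ℤ)} {l l' : ℕ}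

theorem pvtr_arc_sub (he : e ∈ pvtrBd H) : pvtrArc H e l ⊆ {w | w ∉ H ∧ ∃ b ∈ H, triAdj w b} := by
  rintro w ⟨m, -, -, rfl⟩
  have := pvtr_iter_mem he m
  exact ⟨this.2.1, _, this.1, hx_tri_symm _ _ this.2.2⟩

/-- a stretch is connected -/
theorem pvtr_arc_conn (he : e ∈ pvtrBd H) : TscConn tscG (pvtrArc H e l) := by
  have key : ∀ m d, 0 < m → m + d < l → TscR tscG (pvtrArc H e l) ((pvtrStep H)^[m] e).2 ((pvtrStep H)^[m + d] e).2 := by
    intro m d hm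
    induction d with
    | zero => intro _; exact ReflTransGen.refl
    | succ d ih =>
      intro hl
      have h1 := ih (by omega)
      have h2 := pvtr_step_snd_adj (pvtr_iter_mem he (m + d))
      rw [← Function.iterate_succ_apply' (pvtrStep H) (m + d) e] at h2
      rcases h2 with h2 | h2
      · rw [show m + (d + 1) = (m + d).succ from rfl, h2]; exact h1
      · exact h1.tail ⟨h2, ⟨m + d, by omega, by omega, rfl⟩, ⟨m + d + 1, by omega, by omega, rfl⟩⟩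
  rintro u ⟨m, hm0, hml, rfl⟩ v ⟨m', hm0', hml', rfl⟩
  rcases le_total m m' with h | h
  · obtain ⟨d, rfl⟩ := Nat.exists_eq_add_of_le h
    exact key m d hm0 hml'
  · obtain ⟨d, rfl⟩ := Nat.exists_eq_add_of_le h
    exact tsc_R_symm (key m' d hm0' hml)

/-- **existence of the lane** from `D₁` to `D₂` -/
theorem pvtr_lane_exists (hH : H.Finite) (hc : TscConn tscG H) (hco : TscConn tscG Hᶜ) (h1 : ∃ x ∈ pvtrBd H, x.2 ∈ D₁) (h2 : ∃ x ∈ pvtrBd H, x.2 ∈ D₂) :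
    ∃ e l, PvtrLane H D₁ D₂ e l := by
  have key : ∀ k : ℕ, ∀ x ∈ pvtrBd H, x.2 ∈ D₁ → ((pvtrStep H)^[k] x).2 ∈ D₂ → ∃ e l, PvtrLane H D₁ D₂ e l := by
    intro k
    induction k using Nat.strong_induction_on with
    | _ k ih =>
      intro x hx hx1 hx2
      by_cases hex : ∃ m, 0 < m ∧ m < k ∧ ((pvtrStep H)^[m] x).2 ∈ D₁ ∪ D₂
      · obtain ⟨m, h0, hm, hm1 | hm2⟩ := hex
        · refine ih (k - m) (by omega) ((pvtrStep H)^[m] x) (pvtr_iter_mem hx m) hm1 ?_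
          rw [← Function.iterate_add_apply, Nat.sub_add_cancel hm.le]
          exact hx2
        · exact ih m hm x hx hx1 hm2
      · push Not at hex
        exact ⟨x, k, hx, hx1, hx2, hex⟩
  obtain ⟨x, hx, hx1⟩ := h1
  obtain ⟨y, hy, hy2⟩ := h2
  obtain ⟨k, hk⟩ := pvtr_orbit hH hc hco hx hy
  exact key k x hx hx1 (by rw [hk]; exact hy2)

theorem pvtr_lane_off (h : PvtrLane H D₁ D₂ e l) : Disjoint (pvtrArc H e l) (D₁ ∪ D₂) := by
  rw [Set.disjoint_left]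
  rintro w ⟨m, h0, hm, rfl⟩
  exact h.off m h0 hm

/-- doors which are disjoint and not adjacent: the lane is not empty, its first cell is next to `D₁`, its last cell next to `D₂` -/
theorem pvtr_lane_ends (h : PvtrLane H D₁ D₂ e l) (hd : Disjoint D₁ D₂) (hna : ∀ x ∈ D₁, ∀ y ∈ D₂, ¬ triAdj x y) :
    1 < l ∧ triAdj e.2 ((pvtrStep H)^[1] e).2 ∧ triAdj ((pvtrStep H)^[l - 1] e).2 ((pvtrStep H)^[l] e).2 := by
  have hl0 : l ≠ 0 := by
    rintro rfl
    exact Set.disjoint_left.1 hd h.start h.stop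
  have hl1 : l ≠ 1 := by
    rintro rfl
    have h2 := h.stop
    rcases pvtr_step_snd_adj h.mem with h3 | h3
    · rw [Function.iterate_one, h3] at h2
      exact Set.disjoint_left.1 hd h.start h2
    · exact hna _ h.start _ h2 h3
  have hl : 1 < l := by omega
  refine ⟨hl, ?_, ?_⟩
  · rcases pvtr_step_snd_adj h.mem with h3 | h3
    · exfalso
      refine h.off 1 one_pos hl (Or.inl ?_)
      rw [Function.iterate_one, h3]
      exact h.start
    · exact h3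
  · have e1 : (pvtrStep H)^[l] e = pvtrStep H ((pvtrStep H)^[l - 1] e) := by
      rw [← Function.iterate_succ_apply' (pvtrStep H) (l - 1) e, Nat.succ_eq_add_one, Nat.sub_add_cancel hl.le]
    rw [e1]
    rcases pvtr_step_snd_adj (pvtr_iter_mem h.mem (l - 1)) with h3 | h3
    · exfalso
      refine h.off (l - 1) (by omega) (by omega) (Or.inr ?_)
      rw [← h3, ← e1]
      exact h.stop
    · exact h3

/-- the darts of the lane `D₁ → D₂` and of the lane `D₂ → D₁` are different -/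
theorem pvtr_lane_ne (h : PvtrLane H D₁ D₂ e l) (h' : PvtrLane H D₂ D₁ e' l') (hd : Disjoint D₁ D₂) {m m' : ℕ} (hm : m < l) (h0 : 0 < m') (hm' : m' < l') :
    (pvtrStep H)^[m] e ≠ (pvtrStep H)^[m'] e' := by
  intro heq
  have hoff' := h'.off m' h0 hm'
  have hm0 : 0 < m := by
    rcases Nat.eq_zero_or_pos m with h00 | h00
    · subst h00
      rw [← heq] at hoff'
      exact absurd (Or.inr h.start) hoff'
    · exact h00
  have shift : ∀ t, (pvtrStep H)^[m + t] e = (pvtrStep H)^[m' + t] e' := by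
    intro t
    rw [Nat.add_comm m t, Nat.add_comm m' t, Function.iterate_add_apply, Function.iterate_add_apply, heq]
  rcases Nat.lt_trichotomy (l - m) (l' - m') with hlt | heq' | hgt
  · have := shift (l - m)
    have e1 : m + (l - m) = l := by omega
    rw [e1] at this
    have hs := h.stop
    rw [this] at hs
    exact h'.off (m' + (l - m)) (by omega) (by omega) (Or.inl hs)
  · have := shift (l - m)
    have e1 : m + (l - m) = l := by omega
    have e2 : m' + (l - m) = l' := by omega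
    rw [e1, e2] at this
    have hs := h.stop
    rw [this] at hs
    exact Set.disjoint_left.1 hd h'.stop hs
  · have := shift (l' - m')
    have e2 : m' + (l' - m') = l' := by omega
    rw [e2] at this
    have hs := h'.stop
    rw [← this] at hs
    exact h.off (m + (l' - m')) (by omega) (by omega) (Or.inl hs)

/-- **THE TWO LANES ARE SEPARATED**: `s` simply connected, off the doors -/
theorem pvtr_lane_sep {s : Set (ℤ × ℤ)} (hs : TriSCOn (ZMod 2) tscG s) (hHs : H ⊆ s) (hHc : TscConn tscG H) (hsD : Disjoint s (D₁ ∪ D₂)) (hd : Disjoint D₁ D₂)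
    (h : PvtrLane H D₁ D₂ e l) (h' : PvtrLane H D₂ D₁ e' l') {x y : ℤ × ℤ} (hx : x ∈ pvtrArc H e l) (hy : y ∈ pvtrArc H e' l') (hxs : x ∈ s) : ¬ TscR tscG (s \ H) x y := by
  obtain ⟨m, hm0, hm, rfl⟩ := hx
  obtain ⟨m', hm0', hm', rfl⟩ := hy
  exact pvtr_crosscut hs hHs hHc h.mem (fun h1 => Set.disjoint_left.1 hsD h1 (Or.inl h.start)) (fun h1 => Set.disjoint_left.1 hsD h1 (Or.inr h.stop)) hm hxs
    (pvtr_iter_mem h'.mem m') (fun k hk => pvtr_lane_ne h h' hd hk hm0' hm')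

/-- the ring `H' \ H` cut along doors which reach the complement of `H'` is simply connected together with `H` -/
theorem pvtr_ring_sc (hH' : H'.Finite) (hf' : HxFree H') {D : Set (ℤ × ℤ)} (hD : D ⊆ H') (hanch : ∀ d ∈ D, ∃ x t, x ∈ D ∧ TscR tscG D d x ∧ t ∉ H' ∧ triAdj x t) :
    TriSCOn (ZMod 2) tscG (H' \ D) := by
  refine hxp_sc_free (hH'.subset Set.sdiff_subset) ?_
  have out : ∀ t, t ∉ H' → ∀ B : Set (ℤ × ℤ), B.Finite → ∃ t', t' ∉ B ∧ ReflTransGen (fun a b => triAdj a b ∧ b ∉ H' \ D) t t' := by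
    intro t ht B hB
    obtain ⟨t', ht', h⟩ := hf' t ht B hB
    exact ⟨t', ht', ReflTransGen.mono (fun a b hab => ⟨hab.1, fun hb => hab.2 hb.1⟩) t t' h⟩
  intro z hz B hB
  by_cases hzH : z ∈ H'
  · have hzD : z ∈ D := by
      by_contra h
      exact hz ⟨hzH, h⟩
    obtain ⟨x, t, hx, hzx, ht, hxt⟩ := hanch z hzD
    obtain ⟨t', ht', h⟩ := out t ht B hB
    refine ⟨t', ht', ?_⟩
    have h1 : ReflTransGen (fun a b => triAdj a b ∧ b ∉ H' \ D) z x :=
      ReflTransGen.mono (fun a b hab => ⟨hab.1, fun hb => hb.2 hab.2.2⟩) z x hzx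
    exact (h1.tail ⟨hxt, fun hb => ht hb.1⟩).trans h
  · exact out z hzH B hB

/-- **THE RING CUT BY TWO DOORS**.   `H ⊆ H'` finite, hole free, `H` connected, the outer layer of `H` inside `H'`;   doors `D₁`, `D₂ ⊆ H' \ H` connected, disjoint, not adjacent, each next to `H` and next to the complement of `H'`.
Then the right lane `R` (positive stretch `D₁ → D₂`) and the left lane `L` (positive stretch `D₂ → D₁`) are connected non empty subsets of the outer layer of `H`, off the doors, next to both doors, and they are not joined inside the cut ring -/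
theorem pvtr_ring_lanes (hH : H.Finite) (hc : TscConn tscG H) (hco : TscConn tscG Hᶜ) (hH' : H'.Finite) (hf' : HxFree H') (hHH' : H ⊆ H') (hlay : pvtLayO H ⊆ H')
    (hD1 : D₁ ⊆ H' \ H) (hD2 : D₂ ⊆ H' \ H) (c1 : TscConn tscG D₁) (c2 : TscConn tscG D₂) (hd : Disjoint D₁ D₂) (hna : ∀ x ∈ D₁, ∀ y ∈ D₂, ¬ triAdj x y)
    (i1 : ∃ x ∈ D₁, ∃ b ∈ H, triAdj b x) (i2 : ∃ x ∈ D₂, ∃ b ∈ H, triAdj b x) (o1 : ∃ x ∈ D₁, ∃ t, t ∉ H' ∧ triAdj x t) (o2 : ∃ x ∈ D₂, ∃ t, t ∉ H' ∧ triAdj x t) :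
    ∃ e l e' l', PvtrLane H D₁ D₂ e l ∧ PvtrLane H D₂ D₁ e' l' ∧ (pvtrArc H e l).Nonempty ∧ (pvtrArc H e' l').Nonempty ∧
      pvtrArc H e l ⊆ pvtLayO H \ (D₁ ∪ D₂) ∧ pvtrArc H e' l' ⊆ pvtLayO H \ (D₁ ∪ D₂) ∧
      ∀ x ∈ pvtrArc H e l, ∀ y ∈ pvtrArc H e' l', ¬ TscR tscG ((H' \ H) \ (D₁ ∪ D₂)) x y := by
  have b1 : ∃ x ∈ pvtrBd H, x.2 ∈ D₁ := by
    obtain ⟨x, hx, b, hb, hbx⟩ := i1
    exact ⟨(b, x), ⟨hb, (hD1 hx).2, hbx⟩, hx⟩
  have b2 : ∃ x ∈ pvtrBd H, x.2 ∈ D₂ := by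
    obtain ⟨x, hx, b, hb, hbx⟩ := i2
    exact ⟨(b, x), ⟨hb, (hD2 hx).2, hbx⟩, hx⟩
  obtain ⟨e, l, L⟩ := pvtr_lane_exists (D₁ := D₁) (D₂ := D₂) hH hc hco b1 b2
  obtain ⟨e', l', L'⟩ := pvtr_lane_exists (D₁ := D₂) (D₂ := D₁) hH hc hco b2 b1
  have hna' : ∀ x ∈ D₂, ∀ y ∈ D₁, ¬ triAdj x y := fun x hx y hy h => hna y hy x hx (hx_tri_symm _ _ h)
  have n1 := (pvtr_lane_ends L hd hna).1
  have n2 := (pvtr_lane_ends L' hd.symm hna').1
  have hout : pvtOut H = Hᶜ := by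
    have := pvt_hull_eq_of_free (pvt_free_of_compl_conn hH hco)
    rw [pvtHull] at this
    exact compl_eq_comm.1 this |>.symm
  have sub : ∀ (e : (ℤ × ℤ) × (ℤ × ℤ)) (l : ℕ), e ∈ pvtrBd H → pvtrArc H e l ⊆ pvtLayO H := by
    intro e l he w hw
    obtain ⟨h1, b, hb, hwb⟩ := pvtr_arc_sub he hw
    exact ⟨by rw [hout]; exact h1, b, hb, hwb⟩
  have s1 : pvtrArc H e l ⊆ pvtLayO H \ (D₁ ∪ D₂) := fun w hw => ⟨sub e l L.mem hw, Set.disjoint_left.1 (pvtr_lane_off L) hw⟩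
  have s2 : pvtrArc H e' l' ⊆ pvtLayO H \ (D₁ ∪ D₂) := fun w hw =>
    ⟨sub e' l' L'.mem hw, by rw [Set.union_comm]; exact Set.disjoint_left.1 (pvtr_lane_off L') hw⟩
  refine ⟨e, l, e', l', L, L', ⟨_, 1, one_pos, n1, rfl⟩, ⟨_, 1, one_pos, n2, rfl⟩, s1, s2, ?_⟩
  intro x hx y hy
  have hD : D₁ ∪ D₂ ⊆ H' := Set.union_subset (fun d hd => (hD1 hd).1) (fun d hd => (hD2 hd).1)
  have hanch : ∀ d ∈ D₁ ∪ D₂, ∃ x t, x ∈ D₁ ∪ D₂ ∧ TscR tscG (D₁ ∪ D₂) d x ∧ t ∉ H' ∧ triAdj x t := by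
    rintro d (hd | hd)
    · obtain ⟨x, hx, t, ht, hxt⟩ := o1
      exact ⟨x, t, Or.inl hx, tsc_R_mono Set.subset_union_left (c1 d hd x hx), ht, hxt⟩
    · obtain ⟨x, hx, t, ht, hxt⟩ := o2
      exact ⟨x, t, Or.inr hx, tsc_R_mono Set.subset_union_right (c2 d hd x hx), ht, hxt⟩
  have hs := pvtr_ring_sc hH' hf' hD hanch
  have hHs : H ⊆ H' \ (D₁ ∪ D₂) := by
    intro z hz
    refine ⟨hHH' hz, ?_⟩
    rintro (h | h)
    · exact (hD1 h).2 hz
    · exact (hD2 h).2 hz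
  have hxs : x ∈ H' \ (D₁ ∪ D₂) := ⟨hlay (s1 hx).1, (s1 hx).2⟩
  have key := pvtr_lane_sep hs hHs hc Set.disjoint_sdiff_left hd L L' hx hy hxs
  have e1 : (H' \ H) \ (D₁ ∪ D₂) = (H' \ (D₁ ∪ D₂)) \ H := by
    ext z
    simp only [Set.mem_sdiff]
    tauto
  rw [e1]
  exact key

/-- a path runs through a finite connected set -/
theorem pvtr_path_fin {X : Set (ℤ × ℤ)} {a b : ℤ × ℤ} (ha : a ∈ X) (h : TscR tscG X a b) :
    ∃ X₀ : Set (ℤ × ℤ), X₀.Finite ∧ X₀ ⊆ X ∧ a ∈ X₀ ∧ b ∈ X₀ ∧ TscConn tscG X₀ := by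
  induction h with
  | refl =>
    refine ⟨{a}, Set.finite_singleton a, Set.singleton_subset_iff.2 ha, rfl, rfl, fun u hu v hv => ?_⟩
    rw [Set.mem_singleton_iff.1 hu, Set.mem_singleton_iff.1 hv]
    exact tsc_R_refl _
  | @tail b c _ hbc ih =>
    obtain ⟨X₀, h1, h2, h3, h4, h5⟩ := ih
    refine ⟨X₀ ∪ {c}, h1.union (Set.finite_singleton c), Set.union_subset h2 (Set.singleton_subset_iff.2 hbc.2.2), Or.inl h3, Or.inr rfl, ?_⟩
    refine tsc_conn_union h5 (fun u hu v hv => ?_) h4 (Set.mem_singleton c) (Or.inr hbc.1)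
    rw [Set.mem_singleton_iff.1 hu, Set.mem_singleton_iff.1 hv]
    exact tsc_R_refl _

/-- **INTERLACING**: two connected sets off `H` which are hooked to the boundary circuit at interlaced places meet -/
theorem pvtr_interlace (hH : H.Finite) (hc : TscConn tscG H) (hco : TscConn tscG Hᶜ) (he : e ∈ pvtrBd H) {X Y : Set (ℤ × ℤ)} (hX : TscConn tscG X) (hY : TscConn tscG Y)
    (hXH : Disjoint X H) (hYH : Disjoint Y H) {j k n : ℕ} (hj : 0 < j) (hjk : j < k) (hkn : k < n) (hinj : ∀ a < n, ∀ b < n, (pvtrStep H)^[a] e = (pvtrStep H)^[b] e → a = b)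
    (x0 : e.2 ∈ X) (xk : ((pvtrStep H)^[k] e).2 ∈ X) (yj : ((pvtrStep H)^[j] e).2 ∈ Y) {i : ℕ} (hki : k < i) (hin : i < n) (yi : ((pvtrStep H)^[i] e).2 ∈ Y) : (X ∩ Y).Nonempty := by
  by_contra hne
  have hXY : ∀ a, a ∈ X → a ∈ Y → False := fun a h1 h2 => hne ⟨a, h1, h2⟩
  obtain ⟨X₀, f0, s0, a0, ak, c0⟩ := pvtr_path_fin x0 (hX _ x0 _ xk)
  have hX0H : ∀ x ∈ X₀, x ∉ H := fun x hx h => Set.disjoint_left.1 hXH (s0 hx) h
  have hKfin : (H ∪ X₀).Finite := hH.union f0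
  have hKc : TscConn tscG (H ∪ X₀) := tsc_conn_union hc c0 he.1 a0 (Or.inr he.2.2)
  have hYK : Y ⊆ (H ∪ X₀)ᶜ := fun y hy hk => hk.elim (fun h => Set.disjoint_left.1 hYH hy h) (fun h => hXY y (s0 h) hy)
  have hYC : Y ⊆ tscComp tscG (H ∪ X₀)ᶜ ((pvtrStep H)^[j] e).2 := fun y hy => ⟨hYK hy, tsc_R_mono hYK (hY _ yj _ hy)⟩
  have ei : (pvtrStep H)^[i - j] ((pvtrStep H)^[j] e) = (pvtrStep H)^[i] e := by
    rw [← Function.iterate_add_apply, Nat.sub_add_cancel (by omega)]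
  have ek : (pvtrStep H)^[k - j] ((pvtrStep H)^[j] e) = (pvtrStep H)^[k] e := by
    rw [← Function.iterate_add_apply, Nat.sub_add_cancel (by omega)]
  by_cases hout : ((pvtrStep H)^[j] e).2 ∈ pvtOut (H ∪ X₀)
  · have hC := pvt_out_comp hKfin hout
    refine pvtr_crosscut (pvt_hull_sc hKfin) (fun z hz => pvt_hull_sub (Or.inl hz)) hc (pvtr_iter_mem he j) (l := i - j) (m := k - j) (e' := e)
      (fun h => h hout) ?_ (by omega) ?_ he ?_ ?_
    · rw [ei]
      intro h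
      apply h
      rw [← hC]
      exact hYC yi
    · rw [ek]
      exact pvt_hull_sub (Or.inr ak)
    · intro t ht heq
      rw [← Function.iterate_add_apply] at heq
      have := hinj (t + j) (by omega) 0 (by omega) heq
      omega
    · rw [ek]
      have hsub : X₀ ⊆ pvtHull (H ∪ X₀) \ H := fun x hx => ⟨pvt_hull_sub (Or.inr hx), hX0H x hx⟩
      exact tsc_R_mono hsub (c0 _ ak _ a0)
  · have hz : ((pvtrStep H)^[j] e).2 ∈ pvtHull (H ∪ X₀) := hout
    set C := tscComp tscG (H ∪ X₀)ᶜ ((pvtrStep H)^[j] e).2 with hCdef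
    have hCfin : C.Finite := (pvt_hull_finite hKfin).subset (fun x hx => (pvt_hole_sub hz hx).1)
    have hsfin : (H ∪ C).Finite := hH.union hCfin
    have hX0s : X₀ ⊆ (H ∪ C)ᶜ := by
      rintro x hx (h | h)
      · exact hX0H x hx h
      · exact h.1 (Or.inr hx)
    have hsco : TscConn tscG (H ∪ C)ᶜ := by
      have key : ∀ u ∈ (H ∪ C)ᶜ, TscR tscG (H ∪ C)ᶜ u e.2 := by
        intro u hu
        have hp : TscR tscG Hᶜ u e.2 := hco u (fun h => hu (Or.inl h)) e.2 he.2.1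
        have claim : ∀ v, TscR tscG Hᶜ u v → (∃ x ∈ X₀, TscR tscG (H ∪ C)ᶜ u x) ∨ (v ∈ (H ∪ C)ᶜ ∧ TscR tscG (H ∪ C)ᶜ u v) := by
          intro v hv
          induction hv with
          | refl => exact Or.inr ⟨hu, tsc_R_refl _⟩
          | @tail v v' _ hstep ih =>
            rcases ih with h | ⟨h1, h2⟩
            · exact Or.inl h
            · by_cases hvX : v ∈ X₀
              · exact Or.inl ⟨v, hvX, h2⟩
              · have hv' : v' ∈ (H ∪ C)ᶜ := by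
                  rintro (h | h)
                  · exact hstep.2.2 h
                  · exact h1 (Or.inr (tsc_comp_adj h (fun hk => hk.elim hstep.2.1 hvX) hstep.1.symm))
                exact Or.inr ⟨hv', h2.tail ⟨hstep.1, h1, hv'⟩⟩
        rcases claim _ hp with ⟨x, hx, h⟩ | ⟨_, h⟩
        · exact tsc_R_trans h (tsc_R_mono hX0s (c0 x hx _ a0))
        · exact h
      exact fun u hu v hv => tsc_R_trans (key u hu) (tsc_R_symm (key v hv))
    refine pvtr_crosscut (hxp_sc_free hsfin (pvt_free_of_compl_conn hsfin hsco)) Set.subset_union_left hc he (l := k) (m := j) (e' := (pvtrStep H)^[i] e)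
      (hX0s a0) (hX0s ak) hjk (Or.inr (hYC yj)) (pvtr_iter_mem he i) ?_ ?_
    · intro t ht heq
      have := hinj t (by omega) i hin heq
      omega
    · have hsub : Y ⊆ (H ∪ C) \ H := fun y hy => ⟨Or.inr (hYC hy), fun h => Set.disjoint_left.1 hYH hy h⟩
      exact tsc_R_mono hsub (hY _ yj _ yi)

end lanes

end Claimed.Agent.R289
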