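import Claimed.Agent.R289.Tr.Track
import Claimed.Agent.R289.Tr.Ring
import Claimed.Agent.R289.Tr.Port

/-!
# Row 289 (S0537, Cardy for Poisson-Voronoi), unit TR, ROAD P, P1 = Tr/Menu : THE FINITE MENU OF PLUG TYPES      (owner helper205; prefix `pvmn_`, defs `pvmn*`, `Pvmn*`)

Text of record: `origin/helper205:notes/R289/MENU_205.md` (M3-M6) with the amendment of `ROADP_273.md` P1 (the central piece is split at the pin vertex).

UNIFORM INDEXING.   TEN pieces `k = 0..9` = `Π₋₄ … Π₋₁, Π₀⁻, Π₀⁺, Π₁ … Π₄` and ELEVEN marks `0..10`; the mark `5` is the pin vertex, the mark `5 ± j` the first (last) passage of the radius `(j+1) b₃ h`.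
The piece `k` runs from the mark `k` to the mark `k+1`.   Cells = `ℤ × ℤ`, in coordinates CENTRED AT THE GRID CENTRE `z` of the pin, of size `δ = dl · h`: the menu is the same finite set for all `h`.

* §1 `PvmnNum` (numbers, in CELL units), `PvmnType`, balls `pvmnBl`, boxes `pvmnBox`, scaling.
* §2 derived sets: `pvmnCells τ a b`, `pvmnO`, `pvmnSH`, `pvmnH` (TENTACLES: filled union of the ball `rB` and of the 6-tube of the two central pieces), `pvmnHp`, black tubes `pvmnNp`, `pvmnNm` (UNFILLED), `pvmnK3`, doors, stubs, bars.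
* §3 `PvmnIsType` = (T1)-(T6);   `pvmnMenu`;   **finite** (`pvmn_menu_finite`).
* §4 `PvmnFits` (EXACT fit: the cells of the type ARE the cells of the pieces); existence, uniqueness of the cells.
* §5 API of a type: connected / finite / hole free; `pvmn_far_out`: the pieces `≥ 7` and `≤ 2` with their 4-collars lie off the 4-collar of the obstacle;  `pvmn_O_H`; doors are apart.
* §6 THE SHIFT `pvmnSh P z` (the rim in coordinates centred at `z`): every record of `Tr/Port` for `(P, z)` is the same record for `(pvmnSh P z, 0)`; `pvtpPoly = pvtxPoly`; `PvtpNR ⟹ PvtxNR`.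
-/

set_option autoImplicit false
set_option linter.unusedSectionVars false
set_option linter.unusedVariables false
set_option linter.unusedSimpArgs false

namespace Claimed.Agent.R289

open Relation Claims.C0467 Claimed.Agent.R291

/-! ## §1 numbers, types, balls, boxes -/

/-- the numbers of the menu, in CELL units (`n = r / dl`) -/
structure PvmnNum where
  /-- half side of the box which contains all cells of a type (`8 b₃ / dl`) -/
  nBx : ℕ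
  /-- half side of a box which contains the two central pieces and the ball `rB` (`(2 b₃ + 1) / dl`) -/
  nC : ℕ
  /-- the end pieces leave this box (`4 b₃ / dl`: a point of radius `6 b₃` has sup norm `> 4 b₃`) -/
  nF : ℕ
  /-- radius of the windows / thick bars (`(e₀ + 24 dl) / dl`) -/
  nW : ℕ
  /-- the marks are more than `nP` cells apart (`(d₁ - 4 dl) / (2 dl)`) -/
  nP : ℕ
  /-- radius of the state region -/
  rO : ℝ
  /-- radius of the ball part of the obstacle -/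
  rB : ℝ

/-- relations between the numbers -/
structure PvmnNumOK (𝔑 : PvmnNum) : Prop where
  rO_pos : 0 ≤ 𝔑.rO
  rO_rB : 𝔑.rO + 6 ≤ 𝔑.rB
  rB_nC : 𝔑.rB + 1 ≤ 𝔑.nC
  nC_nF : 𝔑.nC + 20 ≤ 𝔑.nF
  nF_nBx : 𝔑.nF ≤ 𝔑.nBx

/-- a plug type: colour, cells of the ten pieces, cells of the eleven marks -/
structure PvmnType where
  col : Bool
  C : Fin 10 → Finset (ℤ × ℤ)
  q : Fin 11 → ℤ × ℤ
deriving DecidableEq

/-- the box `[-n, n]²` of cells -/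
def pvmnBox (n : ℕ) : Set (ℤ × ℤ) := tscBox (-(n : ℤ)) n (-(n : ℤ)) n

/-- the grid ball of radius `ρ` (cell units) -/
def pvmnBl (ρ : ℝ) : Set (ℤ × ℤ) := pvtCells 1 (Metric.closedBall (0 : ℂ) ρ)

section basics

variable {δ ρ ρ' : ℝ} {n n' k : ℕ} {E : Set (ℤ × ℤ)} {z : ℤ × ℤ} {p : ℂ} {X : Set ℂ}

theorem pvmn_box_finite (n : ℕ) : (pvmnBox n).Finite := tsc_box_finite _ _ _ _

theorem pvmn_box_mono (h : n ≤ n') : pvmnBox n ⊆ pvmnBox n' := by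
  rintro c ⟨h1, h2, h3, h4⟩
  exact ⟨by omega, by omega, by omega, by omega⟩

theorem pvmn_N_box (hE : E ⊆ pvmnBox n) : pvtwN k E ⊆ pvmnBox (n + k) := by
  have := pvtw_N_box (k := k) hE
  intro c hc
  obtain ⟨h1, h2, h3, h4⟩ := this hc
  exact ⟨by push_cast; omega, by push_cast; omega, by push_cast; omega, by push_cast; omega⟩

/-- bridge to the iterated `pvtN8` of `Tr/Port` -/
theorem pvmn_iter_N8 (k : ℕ) (E : Set (ℤ × ℤ)) : pvtN8^[k] E = pvtwN k E := by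
  induction k with
  | zero => rw [Function.iterate_zero, id, pvtw_N_zero]
  | succ k ih => rw [Function.iterate_succ_apply', ih, pvtw_N_succ]

theorem pvmn_sq_scale (hδ : 0 < δ) : (δ : ℂ) * p ∈ pvtSq δ z ↔ p ∈ pvtSq 1 z := by
  simp only [pvtSq, Set.mem_ofPred_eq, Complex.mul_re, Complex.mul_im, Complex.ofReal_re, Complex.ofReal_im, zero_mul, sub_zero, add_zero, mul_one]
  constructor
  · rintro ⟨h1, h2, h3, h4⟩
    refine ⟨?_, ?_, ?_, ?_⟩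
    · exact le_of_mul_le_mul_left (by linarith) hδ
    · exact le_of_mul_le_mul_left (by linarith) hδ
    · exact le_of_mul_le_mul_left (by linarith) hδ
    · exact le_of_mul_le_mul_left (by linarith) hδ
  · rintro ⟨h1, h2, h3, h4⟩
    have a1 := mul_le_mul_of_nonneg_left h1 hδ.le
    have a2 := mul_le_mul_of_nonneg_left h2 hδ.le
    have a3 := mul_le_mul_of_nonneg_left h3 hδ.le
    have a4 := mul_le_mul_of_nonneg_left h4 hδ.le
    exact ⟨by linarith, by linarith, by linarith, by linarith⟩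

/-- **scaling**: the cells of size `δ` of `δ X` are the unit cells of `X` -/
theorem pvmn_cells_scale (hδ : 0 < δ) (X : Set ℂ) : pvtCells δ ((fun p : ℂ => (δ : ℂ) * p) '' X) = pvtCells 1 X := by
  ext z
  constructor
  · rintro ⟨_, hz, p, hp, rfl⟩
    exact ⟨p, (pvmn_sq_scale hδ).1 hz, hp⟩
  · rintro ⟨p, hz, hp⟩
    exact ⟨(δ : ℂ) * p, (pvmn_sq_scale hδ).2 hz, p, hp, rfl⟩

/-- the grid ball at scale `δ` -/
theorem pvmn_Bl_scale (hδ : 0 < δ) (ρ : ℝ) : pvtCells δ (Metric.closedBall (0 : ℂ) (δ * ρ)) = pvmnBl ρ := by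
  rw [pvmnBl, ← pvmn_cells_scale hδ]
  congr 1
  ext p
  simp only [Metric.mem_closedBall, dist_zero_right, Set.mem_image]
  have hδ' : (δ : ℂ) ≠ 0 := by exact_mod_cast hδ.ne'
  constructor
  · intro h
    refine ⟨p / δ, ?_, by field_simp⟩
    rw [norm_div, Complex.norm_real, Real.norm_of_nonneg hδ.le, div_le_iff₀ hδ]
    linarith
  · rintro ⟨x, hx, rfl⟩
    rw [norm_mul, Complex.norm_real, Real.norm_of_nonneg hδ.le]
    exact mul_le_mul_of_nonneg_left hx hδ.le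

theorem pvmn_Bl_mono (h : ρ ≤ ρ') : pvmnBl ρ ⊆ pvmnBl ρ' := pvt_cells_mono (Metric.closedBall_subset_closedBall h)

theorem pvmn_Bl_finite (ρ : ℝ) : (pvmnBl ρ).Finite := pvt_cells_finite one_pos Metric.isBounded_closedBall

theorem pvmn_Bl_conn (ρ : ℝ) : TscConn tscG (pvmnBl ρ) :=
  pvt_cells_conn one_pos (convex_closedBall (0 : ℂ) ρ).isPreconnected Metric.isBounded_closedBall

/-- the grid ball lies in the box -/
theorem pvmn_Bl_box (h : ρ + 1 ≤ n) : pvmnBl ρ ⊆ pvmnBox n := by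
  rintro z ⟨p, ⟨h1, h2, h3, h4⟩, hp⟩
  rw [Metric.mem_closedBall, dist_zero_right] at hp
  have hre := (Complex.abs_re_le_norm p).trans hp
  have him := (Complex.abs_im_le_norm p).trans hp
  rw [abs_le] at hre him
  have a1 : (z.1 : ℝ) ≤ n := by linarith
  have a2 : -(n : ℝ) ≤ z.1 := by linarith
  have a3 : (z.2 : ℝ) ≤ n := by linarith
  have a4 : -(n : ℝ) ≤ z.2 := by linarith
  exact ⟨by exact_mod_cast a2, by exact_mod_cast a1, by exact_mod_cast a4, by exact_mod_cast a3⟩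

/-- the `k`-collar of a grid ball lies in the grid ball of radius `ρ + 2 (k+1)` -/
theorem pvmn_N_Bl (k : ℕ) (h : ρ + 2 * ((k : ℝ) + 1) ≤ ρ') : pvtwN k (pvmnBl ρ) ⊆ pvmnBl ρ' := by
  intro c hc
  obtain ⟨p, hp, hpc⟩ := pvtx_ctr_N_cells (δ := 1) one_pos hc
  refine ⟨pvtCtr 1 c, pvt_sq_ctr zero_le_one, ?_⟩
  rw [Metric.mem_closedBall, dist_zero_right] at hp ⊢
  have := norm_sub_le_norm_add (pvtCtr 1 c) 0
  have h2 : ‖pvtCtr 1 c‖ ≤ ‖p‖ + ‖p - pvtCtr 1 c‖ := by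
    have : pvtCtr 1 c = p - (p - pvtCtr 1 c) := by ring
    calc ‖pvtCtr 1 c‖ = ‖p - (p - pvtCtr 1 c)‖ := by rw [← this]
      _ ≤ ‖p‖ + ‖p - pvtCtr 1 c‖ := norm_sub_le _ _
  linarith

end basics

/-! ## §2 derived sets -/

/-- the cells of the pieces `a ≤ k ≤ b` -/
def pvmnCells (τ : PvmnType) (a b : ℕ) : Set (ℤ × ℤ) := {c | ∃ k : Fin 10, a ≤ k.1 ∧ k.1 ≤ b ∧ c ∈ τ.C k}

/-- the state region (ROUND) -/
def pvmnO (𝔑 : PvmnNum) : Set (ℤ × ℤ) := pvmnBl 𝔑.rO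

/-- the unfilled obstacle: ball part and 6-tube of the two central pieces -/
def pvmnSH (𝔑 : PvmnNum) (τ : PvmnType) : Set (ℤ × ℤ) := pvmnBl 𝔑.rB ∪ pvtwN 6 (pvmnCells τ 4 5)

/-- **the OBSTACLE** (tentacles) -/
def pvmnH (𝔑 : PvmnNum) (τ : PvmnType) : Set (ℤ × ℤ) := pvtHull (pvmnSH 𝔑 τ)

/-- its 4-collar -/
def pvmnHp (𝔑 : PvmnNum) (τ : PvmnType) : Set (ℤ × ℤ) := pvtwN 4 (pvmnH 𝔑 τ)

/-- the black tube on the positive side (UNFILLED) -/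
def pvmnNp (τ : PvmnType) : Set (ℤ × ℤ) := pvtwN 2 (pvmnCells τ 5 9)

/-- the black tube on the negative side (UNFILLED) -/
def pvmnNm (τ : PvmnType) : Set (ℤ × ℤ) := pvtwN 2 (pvmnCells τ 0 4)

/-- the filled 4-tube of the whole arc: the lanes are stretches of its contour -/
def pvmnK3 (τ : PvmnType) : Set (ℤ × ℤ) := pvtHull (pvtwN 4 (pvmnCells τ 0 9))

/-- the end doors -/
def pvmnDrp (τ : PvmnType) : Set (ℤ × ℤ) := pvtwN 8 (τ.C 9 : Set (ℤ × ℤ))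
def pvmnDrm (τ : PvmnType) : Set (ℤ × ℤ) := pvtwN 8 (τ.C 0 : Set (ℤ × ℤ))

/-- the stubs = first pieces of the funnels -/
def pvmnStp (τ : PvmnType) : Set (ℤ × ℤ) := pvtwN 2 (pvmnCells τ 6 8)
def pvmnStm (τ : PvmnType) : Set (ℤ × ℤ) := pvtwN 2 (pvmnCells τ 1 3)

/-- the thick bar / window at the mark `k` -/
def pvmnBar (𝔑 : PvmnNum) (τ : PvmnType) (k : Fin 11) : Set (ℤ × ℤ) := pvtwN 𝔑.nW {τ.q k}

/-- a RIGHT lane of the type: positive stretch of the contour of `K3` from the door `Dr⁻` to the door `Dr⁺` -/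
def PvmnLaneR (τ : PvmnType) (e : (ℤ × ℤ) × (ℤ × ℤ)) (l : ℕ) : Prop := PvtrLane (pvmnK3 τ) (pvmnDrm τ) (pvmnDrp τ) e l

/-- a LEFT lane -/
def PvmnLaneL (τ : PvmnType) (e : (ℤ × ℤ) × (ℤ × ℤ)) (l : ℕ) : Prop := PvtrLane (pvmnK3 τ) (pvmnDrp τ) (pvmnDrm τ) e l

/-! ## §3 types, the menu -/

/-- **(T1)-(T6)** -/
structure PvmnIsType (𝔑 : PvmnNum) (τ : PvmnType) : Prop where
  /-- (T1) -/
  conn : ∀ k, TscConn tscG (τ.C k : Set (ℤ × ℤ))
  q_start : ∀ k : Fin 10, τ.q k.castSucc ∈ τ.C k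
  q_end : ∀ k : Fin 10, τ.q k.succ ∈ τ.C k
  /-- (T2) non adjacent pieces -/
  far : ∀ k k' : Fin 10, k.1 + 2 ≤ k'.1 → Disjoint (pvtwN 10 (τ.C k : Set (ℤ × ℤ))) (pvtwN 10 (τ.C k' : Set (ℤ × ℤ)))
  /-- (T3) only the two central pieces come near the ball -/
  ball : ∀ k : Fin 10, k.1 ≠ 4 → k.1 ≠ 5 → Disjoint (pvtwN 10 (τ.C k : Set (ℤ × ℤ))) (pvmnBl 𝔑.rB)
  /-- (T4) adjacent pieces are close only near the common mark -/
  adj : ∀ k : Fin 10, ∀ k' : Fin 10, k.1 + 1 = k'.1 →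
    pvtwN 10 (τ.C k : Set (ℤ × ℤ)) ∩ pvtwN 10 (τ.C k' : Set (ℤ × ℤ)) ⊆ pvtwN 𝔑.nW {τ.q k'.castSucc}
  /-- (T5) -/
  box : ∀ k, (τ.C k : Set (ℤ × ℤ)) ⊆ pvmnBox 𝔑.nBx
  core4 : (τ.C 4 : Set (ℤ × ℤ)) ⊆ pvmnBox 𝔑.nC
  core5 : (τ.C 5 : Set (ℤ × ℤ)) ⊆ pvmnBox 𝔑.nC
  endm : ∃ c ∈ τ.C 0, c ∉ pvmnBox 𝔑.nF
  endp : ∃ c ∈ τ.C 9, c ∉ pvmnBox 𝔑.nF
  /-- the pin vertex lies in the state region -/
  ctr : τ.q 5 ∈ pvmnBl 𝔑.rO
  /-- (T6) the marks are apart -/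
  marks : ∀ k k' : Fin 11, k ≠ k' → τ.q k' ∉ pvtwN 𝔑.nP {τ.q k}
  /-- (T8) the end doors touch the contour of `K3` (at FIT time: the continuation of the rim is the witness, `pvmn_door_wit`) -/
  doorp : ∃ x ∈ pvtrBd (pvmnK3 τ), x.2 ∈ pvmnDrp τ
  doorm : ∃ x ∈ pvtrBd (pvmnK3 τ), x.2 ∈ pvmnDrm τ

/-- **the MENU** -/
def pvmnMenu (𝔑 : PvmnNum) : Set PvmnType := {τ | PvmnIsType 𝔑 τ}

theorem pvmn_eqns_cite : True := by
  have := @pvmnBox.eq_1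
  have := @pvmnBl.eq_1
  have := @pvmnCells.eq_1
  have := @pvmnO.eq_1
  have := @pvmnSH.eq_1
  have := @pvmnH.eq_1
  have := @pvmnHp.eq_1
  have := @pvmnNp.eq_1
  have := @pvmnNm.eq_1
  have := @pvmnK3.eq_1
  have := @pvmnDrp.eq_1
  have := @pvmnDrm.eq_1
  have := @pvmnStp.eq_1
  have := @pvmnStm.eq_1
  have := @pvmnBar.eq_1
  have := @PvmnLaneR.eq_1
  have := @PvmnLaneL.eq_1
  have := @pvmnMenu.eq_1
  trivial

/-- **M5: the menu is finite** (no compactness, no limits) -/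
theorem pvmn_menu_finite (𝔑 : PvmnNum) : (pvmnMenu 𝔑).Finite := by
  classical
  let B : Finset (ℤ × ℤ) := (pvmn_box_finite 𝔑.nBx).toFinset
  let A : Finset (Bool × (Fin 10 → Finset (ℤ × ℤ)) × (Fin 11 → ℤ × ℤ)) :=
    Finset.univ ×ˢ (Fintype.piFinset fun _ => B.powerset) ×ˢ (Fintype.piFinset fun _ => B)
  refine ((A.image fun x => (⟨x.1, x.2.1, x.2.2⟩ : PvmnType)).finite_toSet).subset ?_
  intro τ hτ
  have hτ' : PvmnIsType 𝔑 τ := hτ
  rw [Finset.mem_coe, Finset.mem_image]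
  refine ⟨(τ.col, τ.C, τ.q), ?_, rfl⟩
  simp only [A, Finset.mem_product, Finset.mem_univ, true_and, Fintype.mem_piFinset, Finset.mem_powerset]
  constructor
  · intro k c hc
    exact (Set.Finite.mem_toFinset _).2 (hτ'.box k hc)
  · intro k
    refine (Set.Finite.mem_toFinset _).2 ?_
    rcases Fin.eq_castSucc_or_eq_last k with ⟨j, rfl⟩ | rfl
    · exact hτ'.box j (hτ'.q_start j)
    · exact hτ'.box (Fin.last 9) (hτ'.q_end (Fin.last 9))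

/-- the menu as a `Finset` -/
noncomputable def pvmnMenuF (𝔑 : PvmnNum) : Finset PvmnType := (pvmn_menu_finite 𝔑).toFinset

theorem pvmn_mem_menuF {𝔑 : PvmnNum} {τ : PvmnType} : τ ∈ pvmnMenuF 𝔑 ↔ PvmnIsType 𝔑 τ := (Set.Finite.mem_toFinset _)

/-! ## §4 the exact fit -/

/-- **M6**: `τ` fits the (centred) vertex path `v` with the marks `t` at the cell size `δ` -/
structure PvmnFits (τ : PvmnType) (δ : ℝ) (v : ℕ → ℂ) (t : Fin 11 → ℕ) : Prop where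
  mono : ∀ k : Fin 10, t k.castSucc ≤ t k.succ
  cells : ∀ k : Fin 10, (τ.C k : Set (ℤ × ℤ)) = pvtCells δ (pvtxPoly v (t k.castSucc) (t k.succ))
  marks : ∀ k : Fin 11, v (t k) ∈ pvtSq δ (τ.q k)

/-- every path with marks has a fitting datum of either colour -/
theorem pvmn_fits_exists {δ : ℝ} (hδ : 0 < δ) (col : Bool) (v : ℕ → ℂ) (t : Fin 11 → ℕ) (ht : ∀ k : Fin 10, t k.castSucc ≤ t k.succ) :
    ∃ τ : PvmnType, τ.col = col ∧ PvmnFits τ δ v t := by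
  classical
  have hq : ∀ k : Fin 11, ∃ z, v (t k) ∈ pvtSq δ z := fun k => pvt_sq_cover hδ _
  choose q hq using hq
  refine ⟨⟨col, fun k => (pvt_cells_finite hδ (pvtx_poly_bounded v (t k.castSucc) (t k.succ))).toFinset, q⟩, rfl, ht, ?_, hq⟩
  intro k
  exact Set.Finite.coe_toFinset _

/-- the cells of a fitting type are determined by the path -/
theorem pvmn_fits_C {τ τ' : PvmnType} {δ : ℝ} {v : ℕ → ℂ} {t : Fin 11 → ℕ} (h : PvmnFits τ δ v t) (h' : PvmnFits τ' δ v t) : τ.C = τ'.C := by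
  funext k
  have : (τ.C k : Set (ℤ × ℤ)) = τ'.C k := by rw [h.cells, h'.cells]
  exact_mod_cast this

/-! ## §5 API of a type -/

section api

variable {𝔑 : PvmnNum} {τ : PvmnType} {a b a' b' i j : ℕ} {A B W : Set (ℤ × ℤ)} {c : ℤ × ℤ}

theorem pvmn_C_sub (k : Fin 10) (ha : a ≤ k.1) (hb : k.1 ≤ b) : (τ.C k : Set (ℤ × ℤ)) ⊆ pvmnCells τ a b := fun c hc => ⟨k, ha, hb, hc⟩

theorem pvmn_cells_mono (h1 : a' ≤ a) (h2 : b ≤ b') : pvmnCells τ a b ⊆ pvmnCells τ a' b' := by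
  rintro c ⟨k, k1, k2, hc⟩
  exact ⟨k, by omega, by omega, hc⟩

theorem pvmn_cells_finite (τ : PvmnType) (a b : ℕ) : (pvmnCells τ a b).Finite := by
  refine (Set.finite_iUnion fun k : Fin 10 => (τ.C k).finite_toSet).subset ?_
  rintro c ⟨k, _, _, hc⟩
  exact Set.mem_iUnion.2 ⟨k, hc⟩

theorem pvmn_cells_succ (hab : a ≤ b + 1) (hb : b + 1 < 10) : pvmnCells τ a (b + 1) = pvmnCells τ a b ∪ (τ.C ⟨b + 1, hb⟩ : Set (ℤ × ℤ)) := by
  ext c
  constructor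
  · rintro ⟨k, k1, k2, hc⟩
    rcases Nat.lt_or_ge k.1 (b + 1) with h | h
    · exact Or.inl ⟨k, k1, by omega, hc⟩
    · have : k = ⟨b + 1, hb⟩ := Fin.ext (by simp only; omega)
      subst this
      exact Or.inr hc
  · rintro (⟨k, k1, k2, hc⟩ | hc)
    · exact ⟨k, k1, by omega, hc⟩
    · exact ⟨⟨b + 1, hb⟩, hab, le_rfl, hc⟩

theorem pvmn_cells_self (ha : a < 10) : pvmnCells τ a a = (τ.C ⟨a, ha⟩ : Set (ℤ × ℤ)) := by
  ext c
  constructor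
  · rintro ⟨k, k1, k2, hc⟩
    have : k = ⟨a, ha⟩ := Fin.ext (by simp only; omega)
    subst this
    exact hc
  · exact fun hc => ⟨⟨a, ha⟩, le_rfl, le_rfl, hc⟩

/-- consecutive pieces form a connected set -/
theorem pvmn_cells_conn (hτ : PvmnIsType 𝔑 τ) (hab : a ≤ b) (hb : b < 10) : TscConn tscG (pvmnCells τ a b) := by
  induction b, hab using Nat.le_induction with
  | base => rw [pvmn_cells_self hb]; exact hτ.conn _
  | succ b hab ih =>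
    rw [pvmn_cells_succ (by omega) hb]
    have hb' : b < 10 := by omega
    refine tsc_conn_union (ih hb') (hτ.conn _) (a := τ.q (⟨b, hb'⟩ : Fin 10).succ) (b := τ.q (⟨b + 1, hb⟩ : Fin 10).castSucc) ?_ (hτ.q_start _) (Or.inl ?_)
    · exact ⟨⟨b, hb'⟩, hab, le_rfl, hτ.q_end _⟩
    · congr 1

theorem pvmn_cells_box (hτ : PvmnIsType 𝔑 τ) : pvmnCells τ a b ⊆ pvmnBox 𝔑.nBx := by
  rintro c ⟨k, _, _, hc⟩
  exact hτ.box k hc

theorem pvmn_core_box (hτ : PvmnIsType 𝔑 τ) : pvmnCells τ 4 5 ⊆ pvmnBox 𝔑.nC := by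
  rintro c ⟨k, k1, k2, hc⟩
  rcases Nat.lt_or_ge k.1 5 with h | h
  · have : k = 4 := Fin.ext (by change k.1 = 4; omega)
    subst this
    exact hτ.core4 hc
  · have : k = 5 := Fin.ext (by change k.1 = 5; omega)
    subst this
    exact hτ.core5 hc

/-- collars: `A` off the `(i+j)`-collar of `B`  ⟹  the `i`-collar of `A` is off the `j`-collar of `B` -/
theorem pvmn_N_disj (h : Disjoint A (pvtwN (i + j) B)) : Disjoint (pvtwN i A) (pvtwN j B) := by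
  rw [Set.disjoint_left]
  intro w hwA hwB
  obtain ⟨x, hx, hwx⟩ := pvtw_N_iff.1 hwA
  refine Set.disjoint_left.1 h hx ?_
  rw [← pvtw_N_add]
  exact pvtw_N_iff.2 ⟨w, hwB, pvtw_N_symm hwx⟩

theorem pvmn_N_disj' (h : Disjoint (pvtwN i A) (pvtwN j B)) : Disjoint A (pvtwN (i + j) B) := by
  rw [Set.disjoint_left]
  intro x hx hxB
  rw [← pvtw_N_add] at hxB
  obtain ⟨w, hw, hxw⟩ := pvtw_N_iff.1 hxB
  exact Set.disjoint_left.1 h (pvtw_N_iff.2 ⟨x, hx, pvtw_N_symm hxw⟩) hw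

theorem pvmn_N_cells {w : ℕ} : c ∈ pvtwN w (pvmnCells τ a b) ↔ ∃ k : Fin 10, a ≤ k.1 ∧ k.1 ≤ b ∧ c ∈ pvtwN w (τ.C k : Set (ℤ × ℤ)) := by
  constructor
  · intro h
    obtain ⟨x, ⟨k, k1, k2, hx⟩, hc⟩ := pvtw_N_iff.1 h
    exact ⟨k, k1, k2, pvtw_N_iff.2 ⟨x, hx, hc⟩⟩
  · rintro ⟨k, k1, k2, h⟩
    exact pvtw_N_mono le_rfl (pvmn_C_sub k k1 k2) h

/-- groups of pieces which are two apart: their 10-collars are disjoint -/
theorem pvmn_far_cells (hτ : PvmnIsType 𝔑 τ) (h : b + 2 ≤ a') : Disjoint (pvtwN 10 (pvmnCells τ a b)) (pvtwN 10 (pvmnCells τ a' b')) := by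
  rw [Set.disjoint_left]
  intro c h1 h2
  obtain ⟨k, _, k2, hk⟩ := pvmn_N_cells.1 h1
  obtain ⟨k', k1', _, hk'⟩ := pvmn_N_cells.1 h2
  exact Set.disjoint_left.1 (hτ.far k k' (by omega)) hk hk'

theorem pvmn_SH_finite (𝔑 : PvmnNum) (τ : PvmnType) : (pvmnSH 𝔑 τ).Finite := (pvmn_Bl_finite _).union (pvtw_N_finite (pvmn_cells_finite τ 4 5))

theorem pvmn_SH_box (hN : PvmnNumOK 𝔑) (hτ : PvmnIsType 𝔑 τ) : pvmnSH 𝔑 τ ⊆ pvmnBox (𝔑.nC + 6) :=
  Set.union_subset ((pvmn_Bl_box hN.rB_nC).trans (pvmn_box_mono (by omega))) (pvmn_N_box (pvmn_core_box hτ))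

theorem pvmn_SH_conn (hN : PvmnNumOK 𝔑) (hτ : PvmnIsType 𝔑 τ) : TscConn tscG (pvmnSH 𝔑 τ) := by
  refine tsc_conn_union (pvmn_Bl_conn _) (pvtw_N_conn (pvmn_cells_conn hτ (by omega) (by omega))) (a := τ.q 5) (b := τ.q 5) ?_ ?_ (Or.inl rfl)
  · exact pvmn_Bl_mono (by have := hN.rO_rB; linarith) hτ.ctr
  · exact pvtw_N_sub ⟨5, by simp, by simp, hτ.q_start 5⟩

theorem pvmn_H_finite (𝔑 : PvmnNum) (τ : PvmnType) : (pvmnH 𝔑 τ).Finite := pvt_hull_finite (pvmn_SH_finite 𝔑 τ)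

theorem pvmn_H_conn (hN : PvmnNumOK 𝔑) (hτ : PvmnIsType 𝔑 τ) : TscConn tscG (pvmnH 𝔑 τ) := pvt_hull_conn (pvmn_SH_conn hN hτ)

theorem pvmn_H_free (𝔑 : PvmnNum) (τ : PvmnType) : HxFree (pvmnH 𝔑 τ) := pvt_hull_free

theorem pvmn_H_compl_conn (𝔑 : PvmnNum) (τ : PvmnType) : TscConn tscG (pvmnH 𝔑 τ)ᶜ := pvtw_free_compl_conn (pvmn_H_finite 𝔑 τ) (pvmn_H_free 𝔑 τ)

theorem pvmn_H_box (hN : PvmnNumOK 𝔑) (hτ : PvmnIsType 𝔑 τ) : pvmnH 𝔑 τ ⊆ pvmnBox (𝔑.nC + 6) := pvt_hull_box (pvmn_SH_box hN hτ)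

theorem pvmn_Hp_box (hN : PvmnNumOK 𝔑) (hτ : PvmnIsType 𝔑 τ) : pvmnHp 𝔑 τ ⊆ pvmnBox (𝔑.nC + 10) := pvmn_N_box (pvmn_H_box hN hτ)

/-- the state region lies in the obstacle, with a 2-collar -/
theorem pvmn_O_H (hN : PvmnNumOK 𝔑) : pvtwN 2 (pvmnO 𝔑) ⊆ pvmnH 𝔑 τ :=
  ((pvmn_N_Bl 2 (by have := hN.rO_rB; push_cast; linarith)).trans Set.subset_union_left).trans pvt_hull_sub

/-- the 6-tube of the central pieces lies in the obstacle -/
theorem pvmn_core_H : pvtwN 6 (pvmnCells τ 4 5) ⊆ pvmnH 𝔑 τ := Set.subset_union_right.trans pvt_hull_sub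

/-- a connected group of pieces which is two apart from the central pieces and contains a far cell lies outside the 8-collar of the unfilled obstacle -/
theorem pvmn_out_aux (hN : PvmnNumOK 𝔑) (hτ : PvmnIsType 𝔑 τ) (hab : a ≤ b) (hb : b < 10) (hoff : b + 2 ≤ 4 ∨ 5 + 2 ≤ a)
    (hfar : ∃ c ∈ pvmnCells τ a b, c ∉ pvmnBox 𝔑.nF) : pvmnCells τ a b ⊆ pvtOut (pvtwN 8 (pvmnSH 𝔑 τ)) := by
  have hdis : Disjoint (pvmnCells τ a b) (pvtwN 8 (pvmnSH 𝔑 τ)) := by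
    rw [pvmnSH, pvtw_N_union, pvtw_N_add, Set.disjoint_union_right]
    constructor
    · rw [Set.disjoint_left]
      rintro c ⟨k, k1, k2, hc⟩ hcB
      obtain ⟨x, hx, hcx⟩ := pvtw_N_iff.1 hcB
      refine Set.disjoint_left.1 (hτ.ball k (by omega) (by omega)) (pvtw_N_iff.2 ⟨c, hc, ?_⟩) hx
      exact pvtw_N_mono (by omega) le_rfl (pvtw_N_symm hcx)
    · have h20 : Disjoint (pvmnCells τ a b) (pvtwN (10 + 10) (pvmnCells τ 4 5)) := by
        rcases hoff with h | h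
        · exact pvmn_N_disj' (pvmn_far_cells hτ h)
        · exact pvmn_N_disj' (pvmn_far_cells hτ h).symm
      exact Set.disjoint_of_subset_right (pvtw_N_mono (by omega) le_rfl) h20
  obtain ⟨c0, hc0, hc0F⟩ := hfar
  have hbox : pvtwN 8 (pvmnSH 𝔑 τ) ⊆ pvmnBox 𝔑.nF :=
    (pvmn_N_box (pvmn_SH_box hN hτ)).trans (pvmn_box_mono (by have := hN.nC_nF; omega))
  have h0 : c0 ∈ pvtOut (pvtwN 8 (pvmnSH 𝔑 τ)) := pvt_out_of_box hbox hc0F
  intro c hc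
  refine pvt_out_R h0 (tsc_R_mono ?_ (pvmn_cells_conn hτ hab hb c0 hc0 c hc))
  exact fun x hx hxS => Set.disjoint_left.1 hdis hx hxS

/-- **exact slabs, type level** (M7 at the level of the type): the pieces `≥ 7` with their 4-collars are off the 4-collar of the obstacle -/
theorem pvmn_far_out_p (hN : PvmnNumOK 𝔑) (hτ : PvmnIsType 𝔑 τ) : Disjoint (pvtwN 4 (pvmnCells τ 7 9)) (pvmnHp 𝔑 τ) := by
  obtain ⟨c, hc, hcF⟩ := hτ.endp
  have h := pvmn_out_aux hN hτ (a := 7) (b := 9) (by omega) (by omega) (Or.inr (by omega)) ⟨c, ⟨9, by simp, by simp, hc⟩, hcF⟩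
  refine pvmn_N_disj (i := 4) (j := 4) ?_
  rw [Set.disjoint_left]
  intro x hx hxH
  exact pvtx_N_hull hxH (h hx)

theorem pvmn_far_out_m (hN : PvmnNumOK 𝔑) (hτ : PvmnIsType 𝔑 τ) : Disjoint (pvtwN 4 (pvmnCells τ 0 2)) (pvmnHp 𝔑 τ) := by
  obtain ⟨c, hc, hcF⟩ := hτ.endm
  have h := pvmn_out_aux hN hτ (a := 0) (b := 2) (by omega) (by omega) (Or.inl (by omega)) ⟨c, ⟨0, by simp, by simp, hc⟩, hcF⟩
  refine pvmn_N_disj (i := 4) (j := 4) ?_
  rw [Set.disjoint_left]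
  intro x hx hxH
  exact pvtx_N_hull hxH (h hx)

/-! ### `K3`, doors, lanes -/

theorem pvmn_K3_finite (τ : PvmnType) : (pvmnK3 τ).Finite := pvt_hull_finite (pvtw_N_finite (pvmn_cells_finite τ 0 9))

theorem pvmn_K3_conn (hτ : PvmnIsType 𝔑 τ) : TscConn tscG (pvmnK3 τ) := pvt_hull_conn (pvtw_N_conn (pvmn_cells_conn hτ (by omega) (by omega)))

theorem pvmn_K3_free (τ : PvmnType) : HxFree (pvmnK3 τ) := pvt_hull_free

theorem pvmn_K3_compl_conn (τ : PvmnType) : TscConn tscG (pvmnK3 τ)ᶜ := pvtw_free_compl_conn (pvmn_K3_finite τ) (pvmn_K3_free τ)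

theorem pvmn_K3_box (hτ : PvmnIsType 𝔑 τ) : pvmnK3 τ ⊆ pvmnBox (𝔑.nBx + 4) := pvt_hull_box (pvmn_N_box (pvmn_cells_box hτ))

/-- the outer cell of a dart of the contour of `K3` lies in the 5-tube -/
theorem pvmn_K3_dart {x : (ℤ × ℤ) × (ℤ × ℤ)} (hx : x ∈ pvtrBd (pvmnK3 τ)) : x.1 ∈ pvtwN 4 (pvmnCells τ 0 9) ∧ x.2 ∈ pvtwN 5 (pvmnCells τ 0 9) := by
  obtain ⟨h1, h2, h3⟩ := hx
  have hb : x.1 ∈ pvtwN 4 (pvmnCells τ 0 9) := pvt_hull_bd h1 (not_not.1 h2) h3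
  refine ⟨hb, ?_⟩
  have : x.2 ∈ pvtN8 (pvtwN 4 (pvmnCells τ 0 9)) := ⟨x.1, hb, Or.inr (pvt_tri_g8 h3)⟩
  rwa [← pvtw_N_succ] at this

/-- the doors are disjoint -/
theorem pvmn_doors_disj (hτ : PvmnIsType 𝔑 τ) : Disjoint (pvmnDrm τ) (pvmnDrp τ) :=
  Set.disjoint_of_subset (pvtw_N_mono (by omega) le_rfl) (pvtw_N_mono (by omega) le_rfl) (hτ.far 0 9 (by simp))

/-- the doors are not adjacent -/
theorem pvmn_doors_nadj (hτ : PvmnIsType 𝔑 τ) : ∀ x ∈ pvmnDrm τ, ∀ y ∈ pvmnDrp τ, ¬ triAdj x y := by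
  intro x hx y hy hxy
  have hy' : y ∈ pvtwN 9 (τ.C 0 : Set (ℤ × ℤ)) := by
    have : y ∈ pvtN8 (pvtwN 8 (τ.C 0 : Set (ℤ × ℤ))) := ⟨x, hx, Or.inr (pvt_tri_g8 hxy)⟩
    rwa [← pvtw_N_succ] at this
  exact Set.disjoint_left.1 (hτ.far 0 9 (by simp)) (pvtw_N_mono (by omega) le_rfl hy') (pvtw_N_mono (by omega) le_rfl hy)

/-- **lanes exist** -/
theorem pvmn_laneR_exists (hτ : PvmnIsType 𝔑 τ) : ∃ e l, PvmnLaneR τ e l :=
  pvtr_lane_exists (pvmn_K3_finite τ) (pvmn_K3_conn hτ) (pvmn_K3_compl_conn τ) hτ.doorm hτ.doorp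

theorem pvmn_laneL_exists (hτ : PvmnIsType 𝔑 τ) : ∃ e l, PvmnLaneL τ e l :=
  pvtr_lane_exists (pvmn_K3_finite τ) (pvmn_K3_conn hτ) (pvmn_K3_compl_conn τ) hτ.doorp hτ.doorm

/-- the cells of a lane lie in the 5-tube, off `K3` and off the doors -/
theorem pvmn_lane_sub {e : (ℤ × ℤ) × (ℤ × ℤ)} {l : ℕ} (h : PvmnLaneR τ e l) :
    pvtrArc (pvmnK3 τ) e l ⊆ (pvtwN 5 (pvmnCells τ 0 9) \ pvmnK3 τ) \ (pvmnDrm τ ∪ pvmnDrp τ) := by
  rintro w ⟨m, h0, hm, rfl⟩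
  have hd := pvtr_iter_mem h.mem m
  exact ⟨⟨(pvmn_K3_dart hd).2, hd.2.1⟩, h.off m h0 hm⟩

/-- **the door from a witness** (FIT time): a connected set of cells which starts in `K3`, leaves it and stays off the 5-tube of the pieces `0..8` leaves `K3` through the door `Dr⁺` -/
theorem pvmn_door_wit_p (hW : TscConn tscG W) (h1 : ∃ c ∈ W, c ∈ pvmnK3 τ) (h2 : ∃ c ∈ W, c ∉ pvmnK3 τ)
    (hoff : Disjoint W (pvtwN 5 (pvmnCells τ 0 8))) : ∃ x ∈ pvtrBd (pvmnK3 τ), x.2 ∈ pvmnDrp τ := by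
  obtain ⟨c1, hc1, hk1⟩ := h1
  obtain ⟨c2, hc2, hk2⟩ := h2
  have key : ∀ c, TscR tscG W c1 c → c ∉ pvmnK3 τ → ∃ x ∈ pvtrBd (pvmnK3 τ), x.2 ∈ W := by
    intro c hR
    induction hR with
    | refl => exact fun h => (h hk1).elim
    | @tail b c _ hbc ih =>
      intro hc
      by_cases hb : b ∈ pvmnK3 τ
      · exact ⟨(b, c), ⟨hb, hc, hbc.1⟩, hbc.2.2⟩
      · exact ih hb
  obtain ⟨x, hx, hxW⟩ := key c2 (hW c1 hc1 c2 hc2) hk2
  refine ⟨x, hx, ?_⟩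
  obtain ⟨k, _, k2, hk⟩ := pvmn_N_cells.1 (pvmn_K3_dart hx).2
  rcases Nat.lt_or_ge k.1 9 with h | h
  · exact (Set.disjoint_left.1 hoff hxW (pvmn_N_cells.2 ⟨k, by omega, by omega, hk⟩)).elim
  · have : k = 9 := Fin.ext (by change k.1 = 9; omega)
    subst this
    exact pvtw_N_mono (by omega) le_rfl hk

theorem pvmn_door_wit_m (hW : TscConn tscG W) (h1 : ∃ c ∈ W, c ∈ pvmnK3 τ) (h2 : ∃ c ∈ W, c ∉ pvmnK3 τ)
    (hoff : Disjoint W (pvtwN 5 (pvmnCells τ 1 9))) : ∃ x ∈ pvtrBd (pvmnK3 τ), x.2 ∈ pvmnDrm τ := by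
  obtain ⟨c1, hc1, hk1⟩ := h1
  obtain ⟨c2, hc2, hk2⟩ := h2
  have key : ∀ c, TscR tscG W c1 c → c ∉ pvmnK3 τ → ∃ x ∈ pvtrBd (pvmnK3 τ), x.2 ∈ W := by
    intro c hR
    induction hR with
    | refl => exact fun h => (h hk1).elim
    | @tail b c _ hbc ih =>
      intro hc
      by_cases hb : b ∈ pvmnK3 τ
      · exact ⟨(b, c), ⟨hb, hc, hbc.1⟩, hbc.2.2⟩
      · exact ih hb
  obtain ⟨x, hx, hxW⟩ := key c2 (hW c1 hc1 c2 hc2) hk2
  refine ⟨x, hx, ?_⟩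
  obtain ⟨k, _, k2, hk⟩ := pvmn_N_cells.1 (pvmn_K3_dart hx).2
  rcases Nat.eq_zero_or_pos k.1 with h | h
  · have : k = 0 := Fin.ext (by change k.1 = 0; omega)
    subst this
    exact pvtw_N_mono (by omega) le_rfl hk
  · exact (Set.disjoint_left.1 hoff hxW (pvmn_N_cells.2 ⟨k, by omega, by omega, hk⟩)).elim

/-! ### stubs, tubes -/

/-- the stubs are apart, with 8-collars -/
theorem pvmn_stubs_disj (hτ : PvmnIsType 𝔑 τ) : Disjoint (pvtwN 8 (pvmnStm τ)) (pvtwN 8 (pvmnStp τ)) := by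
  rw [pvmnStm, pvmnStp, pvtw_N_add, pvtw_N_add]
  exact pvmn_far_cells hτ (by omega)

/-- the two black tubes are close only near the pin vertex -/
theorem pvmn_Np_Nm (hτ : PvmnIsType 𝔑 τ) : pvtwN 8 (pvmnNm τ) ∩ pvtwN 8 (pvmnNp τ) ⊆ pvmnBar 𝔑 τ 5 := by
  rw [pvmnNm, pvmnNp, pvtw_N_add, pvtw_N_add]
  rintro c ⟨h1, h2⟩
  obtain ⟨k, _, k2, hk⟩ := pvmn_N_cells.1 h1
  obtain ⟨k', k1', _, hk'⟩ := pvmn_N_cells.1 h2
  rcases Nat.lt_or_ge (k.1 + 1) k'.1 with h | h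
  · exact (Set.disjoint_left.1 (hτ.far k k' (by omega)) hk hk').elim
  · have e1 : k = 4 := Fin.ext (by change k.1 = 4; omega)
    have e2 : k' = 5 := Fin.ext (by change k'.1 = 5; omega)
    subst e1; subst e2
    exact hτ.adj 4 5 (by simp) ⟨hk, hk'⟩

/-- the positive stub meets the 4-collar of the UNFILLED obstacle only in the window at the mark `6` -/
theorem pvmn_stub_win_p (hτ : PvmnIsType 𝔑 τ) : pvtwN 4 (pvmnStp τ) ∩ pvtwN 4 (pvmnSH 𝔑 τ) ⊆ pvmnBar 𝔑 τ 6 := by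
  rw [pvmnStp, pvmnSH, pvtw_N_add, pvtw_N_union, pvtw_N_add]
  rintro c ⟨h1, h2 | h2⟩
  · obtain ⟨k, k1, k2, hk⟩ := pvmn_N_cells.1 h1
    exact (Set.disjoint_left.1 (pvmn_N_disj (i := 4) (j := 6) (hτ.ball k (by omega) (by omega)).symm) h2 hk).elim
  · obtain ⟨k, k1, _, hk⟩ := pvmn_N_cells.1 h1
    obtain ⟨k', _, k2', hk'⟩ := pvmn_N_cells.1 h2
    have hk10 := pvtw_N_mono (k' := 10) (by omega) le_rfl hk
    rcases Nat.lt_or_ge (k'.1 + 1) k.1 with h | h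
    · exact (Set.disjoint_left.1 (hτ.far k' k (by omega)) hk' hk10).elim
    · have e1 : k = 6 := Fin.ext (by change k.1 = 6; omega)
      have e2 : k' = 5 := Fin.ext (by change k'.1 = 5; omega)
      subst e1; subst e2
      exact hτ.adj 5 6 (by simp) ⟨hk', hk10⟩

/-- the negative stub meets the 4-collar of the UNFILLED obstacle only in the window at the mark `4` -/
theorem pvmn_stub_win_m (hτ : PvmnIsType 𝔑 τ) : pvtwN 4 (pvmnStm τ) ∩ pvtwN 4 (pvmnSH 𝔑 τ) ⊆ pvmnBar 𝔑 τ 4 := by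
  rw [pvmnStm, pvmnSH, pvtw_N_add, pvtw_N_union, pvtw_N_add]
  rintro c ⟨h1, h2 | h2⟩
  · obtain ⟨k, k1, k2, hk⟩ := pvmn_N_cells.1 h1
    exact (Set.disjoint_left.1 (pvmn_N_disj (i := 4) (j := 6) (hτ.ball k (by omega) (by omega)).symm) h2 hk).elim
  · obtain ⟨k, _, k2, hk⟩ := pvmn_N_cells.1 h1
    obtain ⟨k', k1', _, hk'⟩ := pvmn_N_cells.1 h2
    have hk10 := pvtw_N_mono (k' := 10) (by omega) le_rfl hk
    rcases Nat.lt_or_ge (k.1 + 1) k'.1 with h | h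
    · exact (Set.disjoint_left.1 (hτ.far k k' (by omega)) hk10 hk').elim
    · have e1 : k = 3 := Fin.ext (by change k.1 = 3; omega)
      have e2 : k' = 4 := Fin.ext (by change k'.1 = 4; omega)
      subst e1; subst e2
      exact hτ.adj 3 4 (by simp) ⟨hk10, hk'⟩

end api

/-! ## §6 the shift: centred coordinates -/

/-- the rim in coordinates centred at `z` -/
def pvmnSh (P : PvbRim) (z : ℂ) : PvbRim := { P with v := fun i => P.v i - z, z := fun i => P.z i - z }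

theorem pvmn_eqns_cite2 : True := by
  have := @pvmnSh.eq_1
  trivial

section shift

variable {P : PvbRim} {z p : ℂ} {ρ d e rH ra rb μ e0 d1 : ℝ} {i j a b i0 mm mp lo hi xm xp N n : ℕ} {κ tm tp : ℕ → ℕ} {r : ℕ → ℝ} {A : Set ℂ} {v : ℕ → ℂ}

@[simp] theorem pvmn_sh_v (P : PvbRim) (z : ℂ) (i : ℕ) : (pvmnSh P z).v i = P.v i - z := rfl

@[simp] theorem pvmn_sh_len (P : PvbRim) (z : ℂ) : (pvmnSh P z).len = P.len := rfl

theorem pvmn_sh_v_fun (P : PvbRim) (z : ℂ) : (pvmnSh P z).v = fun i => P.v i - z := rfl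

theorem pvmn_sh_dist (P : PvbRim) (z : ℂ) (i j : ℕ) : (pvmnSh P z).v i - (pvmnSh P z).v j = P.v i - P.v j := by
  simp only [pvmn_sh_v]; ring

theorem pvmn_sh_rad (P : PvbRim) (z : ℂ) (i : ℕ) : (pvmnSh P z).v i - 0 = P.v i - z := by
  simp only [pvmn_sh_v, sub_zero]

theorem pvmn_sh_diam : PvtpDiam (pvmnSh P z) i j e ↔ PvtpDiam P i j e := by
  simp only [PvtpDiam, pvmn_sh_dist]

theorem pvmn_sh_nr : PvtpNR (pvmnSh P z) 0 ρ d e ↔ PvtpNR P z ρ d e := by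
  simp only [PvtpNR, pvmn_sh_dist, pvmn_sh_rad, pvmn_sh_diam, pvmn_sh_len]

theorem pvmn_sh_marks : PvtpMarks (pvmnSh P z) 0 i0 rH mm mp ↔ PvtpMarks P z i0 rH mm mp := by
  constructor
  · rintro ⟨h1, h2, h3, h4, h5, h6, h7⟩
    simp only [pvmn_sh_rad, pvmn_sh_len] at h3 h4 h5 h6 h7
    exact ⟨h1, h2, h3, h4, h5, h6, h7⟩
  · rintro ⟨h1, h2, h3, h4, h5, h6, h7⟩
    refine ⟨h1, h2, h3, ?_, ?_, ?_, ?_⟩ <;> simp only [pvmn_sh_rad] <;> assumption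

theorem pvmn_sh_trap : PvtpTrap (pvmnSh P z) 0 i0 ra rb lo hi ↔ PvtpTrap P z i0 ra rb lo hi := by
  constructor
  · rintro ⟨h1, h2, h3, h4, h5⟩
    simp only [pvmn_sh_rad, pvmn_sh_len] at h3 h4 h5
    exact ⟨h1, h2, h3, h4, h5⟩
  · rintro ⟨h1, h2, h3, h4, h5⟩
    refine ⟨h1, h2, h3, ?_, ?_⟩ <;> simp only [pvmn_sh_rad, pvmn_sh_len] <;> assumption

theorem pvmn_sh_cuts : PvtpCuts (pvmnSh P z) 0 ρ e N κ ↔ PvtpCuts P z ρ e N κ := by
  constructor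
  · rintro ⟨h1, h2, h3, h4⟩
    simp only [pvmn_sh_rad, pvmn_sh_len, pvmn_sh_dist] at h2 h3 h4
    exact ⟨h1, h2, h3, h4⟩
  · rintro ⟨h1, h2, h3, h4⟩
    refine ⟨h1, h2, ?_, ?_⟩ <;> simp only [pvmn_sh_rad, pvmn_sh_dist] <;> assumption

theorem pvmn_sh_tower : PvtpTower (pvmnSh P z) 0 i0 r n tm tp ↔ PvtpTower P z i0 r n tm tp :=
  ⟨fun h => ⟨fun j h1 h2 => pvmn_sh_marks.1 (h.marks j h1 h2)⟩, fun h => ⟨fun j h1 h2 => pvmn_sh_marks.2 (h.marks j h1 h2)⟩⟩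

/-- PORT: the obstacle `A` in centred coordinates is the obstacle `{p | p - z ∈ A}` in absolute coordinates -/
theorem pvmn_sh_port : PvtpPort (pvmnSh P z) 0 i0 A rH μ e0 d1 ρ xm mm mp xp ↔ PvtpPort P z i0 {p | p - z ∈ A} rH μ e0 d1 ρ xm mm mp xp := by
  constructor
  · rintro ⟨h1, h2, h3, h4, h5, h6, h7, h8, h9, h10⟩
    simp only [pvmn_sh_rad, pvmn_sh_len, pvmn_sh_dist] at h4 h5 h6 h9 h10
    exact ⟨pvmn_sh_marks.1 h1, h2, h3, h4, h5, h6, pvmn_sh_diam.1 h7, pvmn_sh_diam.1 h8, h9, h10⟩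
  · rintro ⟨h1, h2, h3, h4, h5, h6, h7, h8, h9, h10⟩
    refine ⟨pvmn_sh_marks.2 h1, h2, h3, h4, ?_, ?_, pvmn_sh_diam.2 h7, pvmn_sh_diam.2 h8, h9, ?_⟩ <;> simp only [pvmn_sh_rad, pvmn_sh_dist, pvmn_sh_len] <;> assumption

/-- the mesh hypothesis -/
theorem pvmn_sh_mesh : (∀ k < (pvmnSh P z).len, (‖(pvmnSh P z).v k - 0‖ ≤ ρ ∨ ‖(pvmnSh P z).v (k + 1) - 0‖ ≤ ρ) → ‖(pvmnSh P z).v (k + 1) - (pvmnSh P z).v k‖ ≤ μ) ↔
    ∀ k < P.len, (‖P.v k - z‖ ≤ ρ ∨ ‖P.v (k + 1) - z‖ ≤ ρ) → ‖P.v (k + 1) - P.v k‖ ≤ μ := by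
  simp only [pvmn_sh_rad, pvmn_sh_dist, pvmn_sh_len]

/-- the two polygons agree -/
theorem pvmn_poly_eq (P : PvbRim) (hab : a ≤ b) : pvtpPoly P a b = pvtxPoly P.v a b := by
  ext p
  simp only [pvtpPoly, pvtxPoly, Set.mem_ofPred_eq, Set.mem_union, Set.mem_singleton_iff, Set.mem_iUnion, Set.mem_Ico, exists_prop]
  constructor
  · rintro ⟨k, k1, k2, rfl | ⟨k3, hp⟩⟩
    · rcases Nat.eq_or_lt_of_le k1 with rfl | h
      · exact Or.inl rfl
      · obtain ⟨m, rfl⟩ : ∃ m, k = m + 1 := ⟨k - 1, by omega⟩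
        exact Or.inr ⟨m, ⟨by omega, by omega⟩, right_mem_segment ℝ _ _⟩
    · exact Or.inr ⟨k, ⟨k1, k3⟩, hp⟩
  · rintro (rfl | ⟨k, ⟨k1, k2⟩, hp⟩)
    · exact ⟨a, le_rfl, hab, Or.inl rfl⟩
    · exact ⟨k, k1, k2.le, Or.inr ⟨k2, hp⟩⟩

/-- **the centred polygon of `Tr/Menu` is the polygon of `Tr/Port` of the shifted rim** -/
theorem pvmn_sh_poly (P : PvbRim) (z : ℂ) (hab : a ≤ b) : pvtpPoly (pvmnSh P z) a b = pvtxPoly (fun i => P.v i - z) a b :=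
  pvmn_poly_eq (pvmnSh P z) hab

/-- translation of a polygon -/
theorem pvmn_poly_sub (v : ℕ → ℂ) (z : ℂ) (a b : ℕ) : p ∈ pvtxPoly (fun i => v i - z) a b ↔ p + z ∈ pvtxPoly v a b := by
  have hseg : ∀ x y : ℂ, p ∈ segment ℝ (x - z) (y - z) ↔ p + z ∈ segment ℝ x y := by
    intro x y
    constructor
    · rintro ⟨s, t, hs, ht, hst, rfl⟩
      refine ⟨s, t, hs, ht, hst, ?_⟩
      have : (z : ℂ) = (s + t : ℝ) • z := by rw [hst, one_smul]
      rw [add_smul] at this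
      simp only [smul_sub]
      linear_combination -this
    · rintro ⟨s, t, hs, ht, hst, h⟩
      refine ⟨s, t, hs, ht, hst, ?_⟩
      have : (z : ℂ) = (s + t : ℝ) • z := by rw [hst, one_smul]
      rw [add_smul] at this
      simp only [smul_sub]
      linear_combination h + this
  simp only [pvtxPoly, Set.mem_union, Set.mem_singleton_iff, Set.mem_iUnion, hseg]
  constructor
  · rintro (h | h)
    · exact Or.inl (by rw [h]; ring)
    · exact Or.inr h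
  · rintro (h | h)
    · exact Or.inl (by rw [← h]; ring)
    · exact Or.inr h

theorem pvmn_sh_poly_mem (P : PvbRim) (z : ℂ) (hab : a ≤ b) : p ∈ pvtpPoly (pvmnSh P z) a b ↔ p + z ∈ pvtpPoly P a b := by
  rw [pvmn_sh_poly P z hab, pvmn_poly_sub, pvmn_poly_eq P hab]

/-- `NR` of `Tr/Port` (window form) gives the master form of `Tr/Track` on every stretch which lies in the window -/
theorem pvmn_nr_track (nr : PvtpNR P z ρ d e) (hhi : hi ≤ P.len) (hw : ∀ k, lo ≤ k → k ≤ hi → ‖P.v k - z‖ ≤ ρ) : PvtxNR P.v lo hi d e := by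
  intro k k' h1 h2 h3 hd i i1 i2
  exact nr k k' h2 (h3.trans hhi) (Or.inl (hw k h1 (h2.trans h3))) hd i k i1 i2 le_rfl h2

/-- translation invariance of the master form -/
theorem pvmn_nr_sub (v : ℕ → ℂ) (z : ℂ) : PvtxNR (fun i => v i - z) lo hi d e ↔ PvtxNR v lo hi d e := by
  have h : ∀ i j, (v i - z) - (v j - z) = v i - v j := fun i j => by ring
  simp only [PvtxNR, h]

/-- both at once -/
theorem pvmn_nr_track_sh (nr : PvtpNR P z ρ d e) (hhi : hi ≤ P.len) (hw : ∀ k, lo ≤ k → k ≤ hi → ‖P.v k - z‖ ≤ ρ) :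
    PvtxNR (fun i => P.v i - z) lo hi d e := (pvmn_nr_sub P.v z).2 (pvmn_nr_track nr hhi hw)

/-- the fit in the vocabulary of `Tr/Port`: the cells of the type are the cells `pvtpC` of the shifted rim -/
theorem PvmnFits.port {τ : PvmnType} {δ : ℝ} {t : Fin 11 → ℕ} (h : PvmnFits τ δ (fun i => P.v i - z) t) (k : Fin 10) :
    (τ.C k : Set (ℤ × ℤ)) = pvtCells δ (pvtpPoly (pvmnSh P z) (t k.castSucc) (t k.succ)) := by
  rw [h.cells k, pvmn_sh_poly P z (h.mono k)]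

end shift

end Claimed.Agent.R289
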