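-- KEEP
import Claimed.Agent.R289.Tr.Menu
import Claimed.Agent.R289.Tr.FitKit

/-!
# Row 289 (S0537, Cardy for Poisson-Voronoi), unit TR, road P, chapter C, Tr/MenuFit : the FIT theorem      (owner helper8, second helper2; prefix `pvmf_`, defs `pvmf*`, `Pvmf*`)

P10 of `origin/helper273:notes/R289/ROADP_273.md` = M6, M7, M8 of `origin/helper205:notes/R289/MENU_205.md`, in the UNIFORM INDEXING of 205:
ELEVEN marks `t 0 ≤ … ≤ t 10` (`t 5` = index of the pin vertex, `t (5+j)` = first passage of the radius `(j+1) b` after it, `t (5-j)` = last passage before it, `j = 1..5`), TEN pieces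
`K k` = polygon from `t k` to `t (k+1)`, seen from the centre `z` (`v i = P.v i - z`), cells `C k = pvtCells δ (K k)`, fattening `pvtwN`.   All lengths are ABSOLUTE (`b = b3 h`, `δ = dl h`, …).

* §1 input record `PvmfIn` (five `PvtpMarks`, `PvtpTrap`, far ends, windowed mesh, two levels of `PvtpNR`), numbers `PvmfNum`, `PvmfRel` (link with the numbers `PvmnNum` of the menu, which are in CELL units).
* §2 the ladder: monotone, radii, every piece has diameter `> e1`: `PvtpCuts P z ρ e1 10 t`.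
* §3 the conditions (T1)-(T6), (T8) for the cells of the pieces (index `k : ℕ`).
* §4 M7 (i) TRACK, (vii) PORTS APART, M8 (c), (d) in the vocabulary of `Tr/Menu.lean`.      M7 (ii)-(vi) = `Tr/PortM.lean` of 164.
* §5 **FIT**: `pvmf_isType` (a fitting datum is a type of the menu), `pvmf_exists` (M6 + M7: every pin vertex with (G), (F), (NR) has marks and a fitting type).
The far part of the rim is controlled at VERTEX level only (the mesh of `PvbRimGood` is windowed).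
-/

set_option autoImplicit false
set_option linter.unusedSectionVars false
set_option linter.unusedVariables false
set_option linter.unusedSimpArgs false

namespace Claimed.Agent.R289

open Relation Claims.C0467 Claimed.Agent.R291

/-! ## §1 input -/

/-- piece number `k` of the rim, seen from the centre `z` -/
def pvmfK (P : PvbRim) (z : ℂ) (t : ℕ → ℕ) (k : ℕ) : Set ℂ := pvtxPoly (fun i => P.v i - z) (t k) (t (k + 1))

/-- the cells of the piece number `k` -/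
def pvmfC (P : PvbRim) (z : ℂ) (t : ℕ → ℕ) (δ : ℝ) (k : ℕ) : Set (ℤ × ℤ) := pvtCells δ (pvmfK P z t k)

/-- **the input of FIT**: (P), (G), (F), (NR_0), (NR_1) of `MENU_205.md` with the marks -/
structure PvmfIn (P : PvbRim) (z : ℂ) (t : ℕ → ℕ) (μ hh a b ρ d0 e0 d1 e1 : ℝ) : Prop where
  marks : ∀ j : ℕ, 1 ≤ j → j ≤ 5 → PvtpMarks P z (t 5) (((j : ℝ) + 1) * b) (t (5 - j)) (t (5 + j))
  trap : ∃ lo hi, PvtpTrap P z (t 5) a b lo hi
  near : ‖P.v (t 5) - z‖ ≤ hh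
  end0 : ρ ≤ ‖P.v 0 - z‖
  endn : ρ ≤ ‖P.v P.len - z‖
  mesh : ∀ k < P.len, (‖P.v k - z‖ ≤ ρ ∨ ‖P.v (k + 1) - z‖ ≤ ρ) → ‖P.v (k + 1) - P.v k‖ ≤ μ
  nr0 : PvtpNR P z ρ d0 e0
  nr1 : PvtpNR P z ρ d1 e1

/-- **the numbers of FIT** (absolute lengths) -/
structure PvmfNum (δ μ hh a b ρ d0 e0 d1 e1 RB : ℝ) : Prop where
  δ_pos : 0 < δ
  μ_nn : 0 ≤ μ
  μ_le : μ ≤ δ
  d0_ge : 60 * δ ≤ d0
  d0_le : d0 ≤ e0
  e0_le : 10 * e0 ≤ d1
  d1_le : d1 ≤ e1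
  hh_nn : 0 ≤ hh
  e1_lt : e1 + hh + μ < b
  RB_nn : 0 ≤ RB
  RB_lt : RB + 30 * δ < a
  a_le : a ≤ b
  ρ_ge : 6 * b + μ ≤ ρ

/-- **link with the numbers of the menu** (cell units) -/
structure PvmfRel (𝔑 : PvmnNum) (δ μ hh b ρ e0 d1 : ℝ) : Prop where
  hh_le : hh ≤ δ * 𝔑.rO
  nBx_ge : 6 * b + μ + δ ≤ (𝔑.nBx : ℝ) * δ
  nC_ge : 2 * b + μ + δ ≤ (𝔑.nC : ℝ) * δ
  nF_lt : 3 * (((𝔑.nF : ℝ) + 1) * δ) < 2 * (6 * b)
  nW_gt : e0 + 23 * δ < (𝔑.nW : ℝ) * δ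
  nP_le : 2 * ((𝔑.nP : ℝ) + 1) * δ ≤ d1
  ρ_gt : 3 * (((𝔑.nBx : ℝ) + 5) * δ) < 2 * ρ

theorem pvmf_eqns_cite : True := by
  have := @pvmfK.eq_1
  have := @pvmfC.eq_1
  trivial

/-! ## §2 the ladder -/

section ladder

variable {P : PvbRim} {z : ℂ} {t : ℕ → ℕ} {δ μ hh a b ρ d0 e0 d1 e1 RB : ℝ}

theorem PvmfNum.b_pos (N : PvmfNum δ μ hh a b ρ d0 e0 d1 e1 RB) : 0 < b := by
  have := N.δ_pos; have := N.d0_ge; have := N.d0_le; have := N.e0_le; have := N.d1_le; have := N.hh_nn; have := N.e1_lt; have := N.μ_nn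
  linarith

theorem PvmfNum.e0_pos (N : PvmfNum δ μ hh a b ρ d0 e0 d1 e1 RB) : 0 < e0 := by
  have := N.δ_pos; have := N.d0_ge; have := N.d0_le
  linarith

theorem PvmfNum.d0_le_d1 (N : PvmfNum δ μ hh a b ρ d0 e0 d1 e1 RB) : d0 ≤ d1 := by
  have := N.e0_pos; have := N.d0_le; have := N.e0_le
  linarith

/-- the pin vertex is inside every mark radius -/
theorem PvmfIn.near_lt (I : PvmfIn P z t μ hh a b ρ d0 e0 d1 e1) (N : PvmfNum δ μ hh a b ρ d0 e0 d1 e1 RB) (j : ℕ) (hj : 1 ≤ j) :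
    ‖P.v (t 5) - z‖ < ((j : ℝ) + 1) * b := by
  have h1 := I.near
  have h2 := N.b_pos
  have h3 : (1 : ℝ) ≤ j := by exact_mod_cast hj
  have := N.e1_lt; have := N.μ_nn; have := N.e0_pos; have := N.e0_le; have := N.d1_le
  nlinarith

theorem PvmfNum.rad_le (N : PvmfNum δ μ hh a b ρ d0 e0 d1 e1 RB) (j : ℕ) (hj : j ≤ 5) : ((j : ℝ) + 1) * b ≤ ρ := by
  have h2 := N.b_pos
  have h3 : (j : ℝ) ≤ 5 := by exact_mod_cast hj
  have := N.ρ_ge; have := N.μ_nn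
  nlinarith

/-- radius of the forward marks -/
theorem PvmfIn.up_rad (I : PvmfIn P z t μ hh a b ρ d0 e0 d1 e1) (N : PvmfNum δ μ hh a b ρ d0 e0 d1 e1 RB) (j : ℕ) (h1 : 1 ≤ j) (h5 : j ≤ 5) :
    ‖P.v (t (5 + j)) - z‖ ≤ ((j : ℝ) + 1) * b + μ :=
  (I.marks j h1 h5).mp_rad (I.near_lt N j h1) (N.rad_le j h5) I.mesh

/-- radius of the backward marks -/
theorem PvmfIn.dn_rad (I : PvmfIn P z t μ hh a b ρ d0 e0 d1 e1) (N : PvmfNum δ μ hh a b ρ d0 e0 d1 e1 RB) (j : ℕ) (h1 : 1 ≤ j) (h5 : j ≤ 5) :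
    ‖P.v (t (5 - j)) - z‖ ≤ ((j : ℝ) + 1) * b + μ :=
  (I.marks j h1 h5).mm_rad (I.near_lt N j h1) (N.rad_le j h5) I.mesh

theorem PvmfIn.up_mono (I : PvmfIn P z t μ hh a b ρ d0 e0 d1 e1) (N : PvmfNum δ μ hh a b ρ d0 e0 d1 e1 RB) (j : ℕ) (h5 : j + 1 ≤ 5) :
    t (5 + j) ≤ t (5 + (j + 1)) := by
  rcases Nat.eq_zero_or_pos j with rfl | h1
  · exact (I.marks 1 le_rfl (by omega)).le_mp
  · by_contra hc
    have A := (I.marks j h1 (by omega)).mp_first _ (I.marks (j + 1) (by omega) h5).le_mp (not_le.1 hc)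
    have B := (I.marks (j + 1) (by omega) h5).mp_far
    have := N.b_pos
    push_cast at B
    nlinarith

theorem PvmfIn.dn_mono (I : PvmfIn P z t μ hh a b ρ d0 e0 d1 e1) (N : PvmfNum δ μ hh a b ρ d0 e0 d1 e1 RB) (j : ℕ) (h5 : j + 1 ≤ 5) :
    t (5 - (j + 1)) ≤ t (5 - j) := by
  rcases Nat.eq_zero_or_pos j with rfl | h1
  · exact (I.marks 1 le_rfl (by omega)).mm_le
  · by_contra hc
    have A := (I.marks j h1 (by omega)).mm_last _ (not_le.1 hc) (I.marks (j + 1) (by omega) h5).mm_le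
    have B := (I.marks (j + 1) (by omega) h5).mm_far
    have := N.b_pos
    simp only [Nat.cast_add, Nat.cast_one] at B
    nlinarith

/-- the marks are ordered -/
theorem PvmfIn.mono (I : PvmfIn P z t μ hh a b ρ d0 e0 d1 e1) (N : PvmfNum δ μ hh a b ρ d0 e0 d1 e1 RB) (k : ℕ) (hk : k < 10) : t k ≤ t (k + 1) := by
  rcases Nat.lt_or_ge k 5 with h | h
  · have := I.dn_mono N (4 - k) (by omega)
    have e1 : 5 - (4 - k + 1) = k := by omega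
    have e2 : 5 - (4 - k) = k + 1 := by omega
    rwa [e1, e2] at this
  · have := I.up_mono N (k - 5) (by omega)
    have e1 : 5 + (k - 5) = k := by omega
    have e2 : 5 + (k - 5 + 1) = k + 1 := by omega
    rwa [e1, e2] at this

theorem pvmf_rtri (a b z : ℂ) : ‖b - z‖ - ‖a - z‖ ≤ ‖a - b‖ := by
  have := pvtp_tri b a z
  rw [norm_sub_rev b a] at this
  linarith

/-- the two ends of a forward piece are `> e1` apart -/
theorem PvmfIn.up_big (I : PvmfIn P z t μ hh a b ρ d0 e0 d1 e1) (N : PvmfNum δ μ hh a b ρ d0 e0 d1 e1 RB) (j : ℕ) (h5 : j + 1 ≤ 5) :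
    e1 < ‖P.v (t (5 + j)) - P.v (t (5 + (j + 1)))‖ := by
  have B := (I.marks (j + 1) (by omega) h5).mp_far
  have T := pvmf_rtri (P.v (t (5 + j))) (P.v (t (5 + (j + 1)))) z
  have := N.b_pos; have := N.e1_lt; have := N.hh_nn; have := N.μ_nn
  push_cast at B
  rcases Nat.eq_zero_or_pos j with rfl | h1
  · have := I.near
    simp only [Nat.add_zero, Nat.cast_zero] at *
    nlinarith
  · have A := I.up_rad N j h1 (by omega)
    nlinarith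

/-- the two ends of a backward piece are `> e1` apart -/
theorem PvmfIn.dn_big (I : PvmfIn P z t μ hh a b ρ d0 e0 d1 e1) (N : PvmfNum δ μ hh a b ρ d0 e0 d1 e1 RB) (j : ℕ) (h5 : j + 1 ≤ 5) :
    e1 < ‖P.v (t (5 - (j + 1))) - P.v (t (5 - j))‖ := by
  have B := (I.marks (j + 1) (by omega) h5).mm_far
  have T := pvmf_rtri (P.v (t (5 - j))) (P.v (t (5 - (j + 1)))) z
  rw [norm_sub_rev (P.v (t (5 - j))) (P.v (t (5 - (j + 1))))] at T
  have := N.b_pos; have := N.e1_lt; have := N.hh_nn; have := N.μ_nn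
  simp only [Nat.cast_add, Nat.cast_one] at B
  rcases Nat.eq_zero_or_pos j with rfl | h1
  · have := I.near
    simp only [Nat.sub_zero, Nat.cast_zero] at *
    nlinarith
  · have A := I.dn_rad N j h1 (by omega)
    nlinarith

/-- the two ends of every piece are `> e1` apart -/
theorem PvmfIn.big (I : PvmfIn P z t μ hh a b ρ d0 e0 d1 e1) (N : PvmfNum δ μ hh a b ρ d0 e0 d1 e1 RB) (k : ℕ) (hk : k < 10) :
    e1 < ‖P.v (t k) - P.v (t (k + 1))‖ := by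
  rcases Nat.lt_or_ge k 5 with h | h
  · have := I.dn_big N (4 - k) (by omega)
    have e1 : 5 - (4 - k + 1) = k := by omega
    have e2 : 5 - (4 - k) = k + 1 := by omega
    rwa [e1, e2] at this
  · have := I.up_big N (k - 5) (by omega)
    have e1 : 5 + (k - 5) = k := by omega
    have e2 : 5 + (k - 5 + 1) = k + 1 := by omega
    rwa [e1, e2] at this

/-- **M1**: the eleven marks are a chain of cuts at the level `e1` -/
theorem PvmfIn.cuts (I : PvmfIn P z t μ hh a b ρ d0 e0 d1 e1) (N : PvmfNum δ μ hh a b ρ d0 e0 d1 e1 RB) : PvtpCuts P z ρ e1 10 t where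
  mono := I.mono N
  le_len := (I.marks 5 (by omega) le_rfl).mp_le
  big := fun i hi => ⟨t i, t (i + 1), le_rfl, I.mono N i hi, I.mono N i hi, le_rfl, I.big N i hi⟩
  win := fun k h1 h2 => by
    have := (I.marks 5 (by omega) le_rfl).K_rad (I.near_lt N 5 (by omega)) (N.rad_le 5 le_rfl) N.μ_nn I.mesh (k := k) h1 h2
    have h3 := N.ρ_ge
    push_cast at this
    linarith

end ladder

/-! ## §3 the conditions (T1)-(T6), (T8) for the cells of the pieces -/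

section cond

variable {P : PvbRim} {z : ℂ} {t : ℕ → ℕ} {δ μ hh a b ρ d0 e0 d1 e1 RB : ℝ} {k k' w w' : ℕ} {c q : ℤ × ℤ} {p : ℂ}

theorem pvmf_sub (P : PvbRim) (z : ℂ) (i j : ℕ) : (P.v i - z) - (P.v j - z) = P.v i - P.v j := sub_sub_sub_cancel_right _ _ _

/-- the mesh on the stretch of the marks, centred form -/
theorem PvmfIn.mesh' (I : PvmfIn P z t μ hh a b ρ d0 e0 d1 e1) (N : PvmfNum δ μ hh a b ρ d0 e0 d1 e1 RB) (i : ℕ) (h1 : t 0 ≤ i) (h2 : i < t 10) :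
    ‖(fun i => P.v i - z) (i + 1) - (fun i => P.v i - z) i‖ ≤ μ := by
  have C := I.cuts N
  show ‖(P.v (i + 1) - z) - (P.v i - z)‖ ≤ μ
  rw [pvmf_sub]
  exact I.mesh i (lt_of_lt_of_le h2 C.le_len) (Or.inl (C.win i h1 h2.le))

/-- **nearest vertex**: every point of a square of the `w`-collar of the cells of the piece `k` is `2 (w+1) δ + μ`-close to a vertex of the piece -/
theorem PvmfIn.idx (I : PvmfIn P z t μ hh a b ρ d0 e0 d1 e1) (N : PvmfNum δ μ hh a b ρ d0 e0 d1 e1 RB) (hk : k < 10)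
    (hc : c ∈ pvtwN w (pvmfC P z t δ k)) (hp : p ∈ pvtSq δ c) : ∃ l, t k ≤ l ∧ l ≤ t (k + 1) ∧ ‖(P.v l - z) - p‖ ≤ 2 * ((w : ℝ) + 1) * δ + μ := by
  have C := I.cuts N
  obtain ⟨x, hx, hxp⟩ := pvtx_U_N_cells N.δ_pos (Set.mem_iUnion₂.2 ⟨c, hc, hp⟩)
  obtain ⟨l, l1, l2, l3⟩ := pvtx_poly_vertex N.μ_nn (I.mono N k hk)
    (fun i x1 x2 => I.mesh' N i ((C.le (Nat.zero_le k) hk.le).trans x1) (lt_of_lt_of_le x2 (C.le hk le_rfl))) hx
  refine ⟨l, l1, l2, ?_⟩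
  have := pvtx_tri (P.v l - z) x p
  rw [norm_sub_rev (P.v l - z) x] at this
  linarith

/-- two collars with a common cell: two close vertices -/
theorem PvmfIn.common (I : PvmfIn P z t μ hh a b ρ d0 e0 d1 e1) (N : PvmfNum δ μ hh a b ρ d0 e0 d1 e1 RB) (hk : k < 10) (hk' : k' < 10)
    (hc : c ∈ pvtwN w (pvmfC P z t δ k)) (hc' : c ∈ pvtwN w' (pvmfC P z t δ k')) :
    ∃ l l', t k ≤ l ∧ l ≤ t (k + 1) ∧ t k' ≤ l' ∧ l' ≤ t (k' + 1) ∧ ‖(P.v l - z) - pvtCtr δ c‖ ≤ 2 * ((w : ℝ) + 1) * δ + μ ∧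
      ‖P.v l - P.v l'‖ ≤ 2 * ((w : ℝ) + w' + 2) * δ + 2 * μ := by
  obtain ⟨l, l1, l2, l3⟩ := I.idx N hk hc (pvt_sq_ctr N.δ_pos.le)
  obtain ⟨l', l1', l2', l3'⟩ := I.idx N hk' hc' (pvt_sq_ctr N.δ_pos.le)
  refine ⟨l, l', l1, l2, l1', l2', l3, ?_⟩
  have := pvtx_tri (P.v l - z) (pvtCtr δ c) (P.v l' - z)
  rw [pvmf_sub, norm_sub_rev (pvtCtr δ c) (P.v l' - z)] at this
  linarith

/-- (T1) -/
theorem pvmf_T1 (hδ : 0 < δ) (k : ℕ) : TscConn tscG (pvmfC P z t δ k) :=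
  pvt_cells_conn hδ (pvtx_poly_preconn _ _ _) (pvtx_poly_bounded _ _ _)

theorem pvmf_T1_start (hq : P.v (t k) - z ∈ pvtSq δ q) : q ∈ pvmfC P z t δ k := ⟨_, hq, pvtx_mem_poly.2 (Or.inl rfl)⟩

theorem pvmf_T1_end (h : t k ≤ t (k + 1)) (hq : P.v (t (k + 1)) - z ∈ pvtSq δ q) : q ∈ pvmfC P z t δ k :=
  ⟨_, hq, pvtx_vertex_mem (v := fun i => P.v i - z) h le_rfl⟩

/-- **(T2)** -/
theorem PvmfIn.T2 (I : PvmfIn P z t μ hh a b ρ d0 e0 d1 e1) (N : PvmfNum δ μ hh a b ρ d0 e0 d1 e1 RB) (hkk : k + 2 ≤ k') (hk' : k' < 10)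
    (hw : 2 * ((w : ℝ) + w' + 2) * δ + 2 * μ ≤ d1) : Disjoint (pvtwN w (pvmfC P z t δ k)) (pvtwN w' (pvmfC P z t δ k')) := by
  rw [Set.disjoint_left]
  intro c hc hc'
  obtain ⟨l, l', l1, l2, l1', l2', -, h⟩ := I.common N (by omega) hk' hc hc'
  have := (I.cuts N).sep I.nr1 hkk hk' l1 l2 l1' l2'
  linarith

/-- beyond the marks `4`, `6` the rim stays at radius `≥ a` -/
theorem PvmfIn.far_a (I : PvmfIn P z t μ hh a b ρ d0 e0 d1 e1) (N : PvmfNum δ μ hh a b ρ d0 e0 d1 e1 RB) :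
    (∀ l, t 6 ≤ l → l ≤ P.len → a ≤ ‖P.v l - z‖) ∧ (∀ l, l ≤ t 4 → a ≤ ‖P.v l - z‖) := by
  obtain ⟨lo, hi, T⟩ := I.trap
  refine pvmx_far_of_trap T (I.marks 1 le_rfl (by omega)) ?_
  have := N.b_pos
  push_cast
  linarith

/-- **(T3)** -/
theorem PvmfIn.T3 (I : PvmfIn P z t μ hh a b ρ d0 e0 d1 e1) (N : PvmfNum δ μ hh a b ρ d0 e0 d1 e1 RB) (hk : k < 10) (h4 : k ≠ 4) (h5 : k ≠ 5)
    (hw : 2 * ((w : ℝ) + 2) * δ + μ ≤ 30 * δ) : Disjoint (pvtwN w (pvmfC P z t δ k)) (pvtCells δ (Metric.closedBall (0 : ℂ) RB)) := by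
  rw [Set.disjoint_left]
  rintro c hc ⟨x, hx, hxB⟩
  obtain ⟨l, l1, l2, l3⟩ := I.idx N hk hc hx
  rw [Metric.mem_closedBall, dist_zero_right] at hxB
  have C := I.cuts N
  have hl : a ≤ ‖P.v l - z‖ := by
    rcases Nat.lt_or_ge k 4 with h | h
    · exact (I.far_a N).2 l (l2.trans (C.le (by omega) (by omega)))
    · exact (I.far_a N).1 l ((C.le (by omega) (by omega)).trans l1) (l2.trans ((C.le (by omega) le_rfl).trans C.le_len))
  have h1 : ‖P.v l - z‖ ≤ ‖(P.v l - z) - x‖ + ‖x‖ := by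
    have := norm_add_le ((P.v l - z) - x) x
    rwa [sub_add_cancel] at this
  have := N.RB_lt
  have := N.δ_pos
  nlinarith

/-- **(T4)** (and (T7) at `k = 4`) -/
theorem PvmfIn.T4 (I : PvmfIn P z t μ hh a b ρ d0 e0 d1 e1) (N : PvmfNum δ μ hh a b ρ d0 e0 d1 e1 RB) (hk : k + 1 < 10) {nW : ℕ}
    (hw : 2 * ((w : ℝ) + w' + 2) * δ + 2 * μ ≤ d0) (hW : e0 + 2 * ((w : ℝ) + 1) * δ + μ < (nW : ℝ) * δ) (hq : P.v (t (k + 1)) - z ∈ pvtSq δ q) :
    pvtwN w (pvmfC P z t δ k) ∩ pvtwN w' (pvmfC P z t δ (k + 1)) ⊆ pvtwN nW {q} := by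
  rintro c ⟨hc, hc'⟩
  obtain ⟨l, l', l1, l2, l1', l2', h0, h⟩ := I.common N (by omega) hk hc hc'
  have := ((I.cuts N).nbr I.nr0 hk l1 l2 l1' l2' (h.trans hw)).1
  refine pvtw_sq_near N.δ_pos hq (pvt_sq_ctr N.δ_pos.le) ?_
  have h3 := pvtx_tri (P.v (t (k + 1)) - z) (P.v l - z) (pvtCtr δ c)
  rw [pvmf_sub, norm_sub_rev (P.v (t (k + 1))) (P.v l)] at h3
  linarith

/-- **(vii)**, **(T6)**: two different marks are `> d1` apart -/
theorem PvmfIn.marks_sep (I : PvmfIn P z t μ hh a b ρ d0 e0 d1 e1) (N : PvmfNum δ μ hh a b ρ d0 e0 d1 e1 RB) (hkk : k < k') (hk' : k' ≤ 10) :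
    d1 < ‖P.v (t k) - P.v (t k')‖ := pvmx_marks_sep (I.cuts N) I.nr1 hkk hk'

/-- **(T6)** -/
theorem PvmfIn.T6 (I : PvmfIn P z t μ hh a b ρ d0 e0 d1 e1) (N : PvmfNum δ μ hh a b ρ d0 e0 d1 e1 RB) (hkk : k ≠ k') (hk : k ≤ 10) (hk' : k' ≤ 10) {nP : ℕ}
    (hP : 2 * ((nP : ℝ) + 1) * δ ≤ d1) {q' : ℤ × ℤ} (hq : P.v (t k) - z ∈ pvtSq δ q) (hq' : P.v (t k') - z ∈ pvtSq δ q') : q' ∉ pvtwN nP {q} := by
  intro h
  have h1 := pvtx_N_dist N.δ_pos h hq hq'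
  rw [pvmf_sub] at h1
  rcases Nat.lt_or_ge k k' with h2 | h2
  · have := I.marks_sep N h2 hk'
    linarith
  · have := I.marks_sep N (k := k') (k' := k) (by omega) hk
    rw [norm_sub_rev] at this
    linarith

/-- a polygon with vertices in a ball lies in the ball -/
theorem pvmf_poly_rad {v : ℕ → ℂ} {i j : ℕ} {R : ℝ} (hij : i ≤ j) (h : ∀ l, i ≤ l → l ≤ j → ‖v l‖ ≤ R) {x : ℂ} (hx : x ∈ pvtxPoly v i j) : ‖x‖ ≤ R := by
  rcases pvtx_mem_poly.1 hx with rfl | ⟨l, l1, l2, l3⟩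
  · exact h i le_rfl hij
  · have hs : segment ℝ (v l) (v (l + 1)) ⊆ Metric.closedBall (0 : ℂ) R :=
      (convex_closedBall (0 : ℂ) R).segment_subset (by simpa using h l l1 l2.le) (by simpa using h (l + 1) (by omega) l2)
    simpa using hs l3

/-- cells of a set in a ball lie in a box -/
theorem pvmf_cells_box {K : Set ℂ} {R : ℝ} {n : ℕ} (hδ : 0 < δ) (h : ∀ x ∈ K, ‖x‖ ≤ R) (hn : R + δ ≤ (n : ℝ) * δ) : pvtCells δ K ⊆ pvmnBox n := by
  rintro c ⟨x, ⟨h1, h2, h3, h4⟩, hx⟩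
  have hre := (Complex.abs_re_le_norm x).trans (h x hx)
  have him := (Complex.abs_im_le_norm x).trans (h x hx)
  rw [abs_le] at hre him
  have a1 : (c.1 : ℝ) * δ ≤ (n : ℝ) * δ := by linarith
  have a2 : (-(n : ℝ)) * δ ≤ (c.1 : ℝ) * δ := by nlinarith
  have a3 : (c.2 : ℝ) * δ ≤ (n : ℝ) * δ := by linarith
  have a4 : (-(n : ℝ)) * δ ≤ (c.2 : ℝ) * δ := by nlinarith
  have b1 := le_of_mul_le_mul_right a1 hδ
  have b2 := le_of_mul_le_mul_right a2 hδ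
  have b3 := le_of_mul_le_mul_right a3 hδ
  have b4 := le_of_mul_le_mul_right a4 hδ
  exact ⟨by exact_mod_cast b2, by exact_mod_cast b1, by exact_mod_cast b4, by exact_mod_cast b3⟩

/-- a far point lies in no square of a box -/
theorem pvmf_off_box {n : ℕ} (hδ : 0 < δ) (hp : p ∈ pvtSq δ c) (hn : 3 * (((n : ℝ) + 1) * δ) < 2 * ‖p‖) : c ∉ pvmnBox n := by
  rintro ⟨h1, h2, h3, h4⟩
  obtain ⟨a1, a2, a3, a4⟩ := hp
  have c1 : -(n : ℝ) ≤ c.1 := by exact_mod_cast h1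
  have c2 : (c.1 : ℝ) ≤ n := by exact_mod_cast h2
  have c3 : -(n : ℝ) ≤ c.2 := by exact_mod_cast h3
  have c4 : (c.2 : ℝ) ≤ n := by exact_mod_cast h4
  set M : ℝ := ((n : ℝ) + 1) * δ with hM
  have hM0 : 0 ≤ M := by positivity
  have r1 : |p.re| ≤ M := abs_le.2 ⟨by nlinarith, by nlinarith⟩
  have r2 : |p.im| ≤ M := abs_le.2 ⟨by nlinarith, by nlinarith⟩
  have hsq : ‖p‖ ^ 2 = p.re ^ 2 + p.im ^ 2 := by
    rw [Complex.sq_norm, Complex.normSq_apply]; ring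
  have s1 : p.re ^ 2 ≤ M ^ 2 := sq_le_sq' (abs_le.1 r1).1 (abs_le.1 r1).2
  have s2 : p.im ^ 2 ≤ M ^ 2 := sq_le_sq' (abs_le.1 r2).1 (abs_le.1 r2).2
  have hn0 := norm_nonneg p
  nlinarith

/-- radius of the stretch between the marks `5 - j`, `5 + j` -/
theorem PvmfIn.rad (I : PvmfIn P z t μ hh a b ρ d0 e0 d1 e1) (N : PvmfNum δ μ hh a b ρ d0 e0 d1 e1 RB) (j : ℕ) (h1 : 1 ≤ j) (h5 : j ≤ 5) {l : ℕ}
    (l1 : t (5 - j) ≤ l) (l2 : l ≤ t (5 + j)) : ‖P.v l - z‖ ≤ ((j : ℝ) + 1) * b + μ :=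
  (I.marks j h1 h5).K_rad (I.near_lt N j h1) (N.rad_le j h5) N.μ_nn I.mesh l1 l2

/-- **(T5)**, all pieces -/
theorem PvmfIn.T5 (I : PvmfIn P z t μ hh a b ρ d0 e0 d1 e1) (N : PvmfNum δ μ hh a b ρ d0 e0 d1 e1 RB) (hk : k < 10) {n : ℕ}
    (hn : 6 * b + μ + δ ≤ (n : ℝ) * δ) : pvmfC P z t δ k ⊆ pvmnBox n := by
  have C := I.cuts N
  refine pvmf_cells_box N.δ_pos (R := 6 * b + μ) (fun x hx => pvmf_poly_rad (I.mono N k hk) (fun l l1 l2 => ?_) hx) hn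
  have := I.rad N 5 (by omega) le_rfl (l := l) ((C.le (Nat.zero_le k) hk.le).trans l1) (l2.trans (C.le hk le_rfl))
  push_cast at this
  show ‖P.v l - z‖ ≤ _
  linarith

/-- **(T5)**, the two central pieces -/
theorem PvmfIn.T5c (I : PvmfIn P z t μ hh a b ρ d0 e0 d1 e1) (N : PvmfNum δ μ hh a b ρ d0 e0 d1 e1 RB) (hk : k = 4 ∨ k = 5) {n : ℕ}
    (hn : 2 * b + μ + δ ≤ (n : ℝ) * δ) : pvmfC P z t δ k ⊆ pvmnBox n := by
  have C := I.cuts N
  refine pvmf_cells_box N.δ_pos (R := 2 * b + μ) (fun x hx => pvmf_poly_rad (I.mono N k (by omega)) (fun l l1 l2 => ?_) hx) hn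
  have := I.rad N 1 le_rfl (by omega) (l := l) ((C.le (i := 4) (j := k) (by omega) (by omega)).trans l1) (l2.trans (C.le (i := k + 1) (j := 6) (by omega) (by omega)))
  push_cast at this
  show ‖P.v l - z‖ ≤ _
  linarith

/-- **(T5)**, the end pieces leave the box `nF` -/
theorem PvmfIn.T5p (I : PvmfIn P z t μ hh a b ρ d0 e0 d1 e1) (N : PvmfNum δ μ hh a b ρ d0 e0 d1 e1 RB) {n : ℕ}
    (hn : 3 * (((n : ℝ) + 1) * δ) < 2 * (6 * b)) (hq : P.v (t 10) - z ∈ pvtSq δ q) : q ∈ pvmfC P z t δ 9 ∧ q ∉ pvmnBox n := by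
  refine ⟨pvmf_T1_end (I.mono N 9 (by omega)) hq, pvmf_off_box N.δ_pos hq ?_⟩
  have := (I.marks 5 (by omega) le_rfl).mp_far
  push_cast at this
  linarith

theorem PvmfIn.T5m (I : PvmfIn P z t μ hh a b ρ d0 e0 d1 e1) (N : PvmfNum δ μ hh a b ρ d0 e0 d1 e1 RB) {n : ℕ}
    (hn : 3 * (((n : ℝ) + 1) * δ) < 2 * (6 * b)) (hq : P.v (t 0) - z ∈ pvtSq δ q) : q ∈ pvmfC P z t δ 0 ∧ q ∉ pvmnBox n := by
  refine ⟨pvmf_T1_start hq, pvmf_off_box N.δ_pos hq ?_⟩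
  have := (I.marks 5 (by omega) le_rfl).mm_far
  push_cast at this
  linarith

/-- **separation of vertices, forward** (M2 (a), (d)): a vertex before the mark `j` and a vertex after the mark `j + 1` are `> d1` apart -/
theorem PvmfIn.sep_fwd (I : PvmfIn P z t μ hh a b ρ d0 e0 d1 e1) (N : PvmfNum δ μ hh a b ρ d0 e0 d1 e1 RB) {j s l : ℕ} (hj : j < 10)
    (s1 : t 0 ≤ s) (s2 : s ≤ t j) (l1 : t (j + 1) ≤ l) (l2 : l ≤ P.len) : d1 < ‖P.v s - P.v l‖ := by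
  have C := I.cuts N
  exact I.nr1.far (k := t j) (k' := t (j + 1)) s2 ((I.mono N j hj).trans l1) (s2.trans (I.mono N j hj)) l1 l2
    (Or.inl (C.win s s1 (s2.trans (C.le hj.le le_rfl)))) (I.big N j hj)

/-- **separation of vertices, backward** -/
theorem PvmfIn.sep_bwd (I : PvmfIn P z t μ hh a b ρ d0 e0 d1 e1) (N : PvmfNum δ μ hh a b ρ d0 e0 d1 e1 RB) {j s l : ℕ} (hj : j < 10)
    (s1 : t (j + 1) ≤ s) (s2 : s ≤ t 10) (l1 : l ≤ t j) : d1 < ‖P.v l - P.v s‖ := by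
  have C := I.cuts N
  exact I.nr1.far (k := t j) (k' := t (j + 1)) l1 ((I.mono N j hj).trans s1) (l1.trans (I.mono N j hj)) s1 (s2.trans C.le_len)
    (Or.inr (C.win s ((C.le (Nat.zero_le _) hj).trans s1) s2)) (I.big N j hj)

/-- **the forward witness** (M8 (d), (T8)): the polygon from the mark `10` to the first vertex at radius `≥ ρ` -/
theorem PvmfIn.wit_p (I : PvmfIn P z t μ hh a b ρ d0 e0 d1 e1) (N : PvmfNum δ μ hh a b ρ d0 e0 d1 e1 RB) :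
    ∃ T, t 10 ≤ T ∧ T ≤ P.len ∧ ρ ≤ ‖P.v T - z‖ ∧ (∀ l, t 10 ≤ l → l < T → ‖P.v l - z‖ < ρ) ∧
      ∀ k < 9, ∀ w : ℕ, 2 * ((w : ℝ) + 1) * δ + 2 * μ ≤ d1 →
        Disjoint (pvtCells δ (pvtxPoly (fun i => P.v i - z) (t 10) T)) (pvtwN w (pvmfC P z t δ k)) := by
  have C := I.cuts N
  obtain ⟨T, a1, a2, a3, a4⟩ := pvb_first (p := fun l => ρ ≤ ‖P.v l - z‖) C.le_len I.endn
  refine ⟨T, a1, a2, a3, fun l l1 l2 => not_le.1 (a4 l l1 l2), ?_⟩
  intro k hk w hw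
  rw [Set.disjoint_left]
  rintro c ⟨x, hxc, hx⟩ hc
  obtain ⟨l, l1, l2, l3⟩ := pvtx_poly_vertex N.μ_nn a1 (fun i x1 x2 => by
    show ‖(P.v (i + 1) - z) - (P.v i - z)‖ ≤ μ
    rw [pvmf_sub]
    exact I.mesh i (by omega) (Or.inl (not_le.1 (a4 i x1 x2)).le)) hx
  obtain ⟨s, s1, s2, s3⟩ := I.idx N (by omega) hc hxc
  have h1 := I.sep_fwd N (j := k + 1) (s := s) (l := l) (by omega) ((C.le (Nat.zero_le k) (by omega)).trans s1) s2
    ((C.le (by omega) le_rfl).trans l1) (l2.trans a2)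
  have h2 := pvtx_tri (P.v s - z) x (P.v l - z)
  rw [pvmf_sub] at h2
  have l3' : ‖x - (P.v l - z)‖ ≤ μ := l3
  linarith

/-- **the backward witness** -/
theorem PvmfIn.wit_m (I : PvmfIn P z t μ hh a b ρ d0 e0 d1 e1) (N : PvmfNum δ μ hh a b ρ d0 e0 d1 e1 RB) :
    ∃ T, T ≤ t 0 ∧ ρ ≤ ‖P.v T - z‖ ∧ (∀ l, T < l → l ≤ t 0 → ‖P.v l - z‖ < ρ) ∧
      ∀ k, 1 ≤ k → k < 10 → ∀ w : ℕ, 2 * ((w : ℝ) + 1) * δ + 2 * μ ≤ d1 →
        Disjoint (pvtCells δ (pvtxPoly (fun i => P.v i - z) T (t 0))) (pvtwN w (pvmfC P z t δ k)) := by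
  have C := I.cuts N
  obtain ⟨T, -, a2, a3, a4⟩ := pvb_last (p := fun l => ρ ≤ ‖P.v l - z‖) (Nat.zero_le (t 0)) I.end0
  refine ⟨T, a2, a3, fun l l1 l2 => not_le.1 (a4 l l1 l2), ?_⟩
  intro k hk1 hk w hw
  rw [Set.disjoint_left]
  rintro c ⟨x, hxc, hx⟩ hc
  have hlen : t 0 ≤ P.len := (C.le (Nat.zero_le 10) le_rfl).trans C.le_len
  obtain ⟨l, l1, l2, l3⟩ := pvtx_poly_vertex N.μ_nn a2 (fun i x1 x2 => by
    show ‖(P.v (i + 1) - z) - (P.v i - z)‖ ≤ μ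
    rw [pvmf_sub]
    exact I.mesh i (by omega) (Or.inr (not_le.1 (a4 (i + 1) (by omega) (by omega))).le)) hx
  obtain ⟨s, s1, s2, s3⟩ := I.idx N hk hc hxc
  have e1 : k - 1 + 1 = k := by omega
  have h1 := I.sep_bwd N (j := k - 1) (s := s) (l := l) (by omega) (by rw [e1]; exact s1) (s2.trans (C.le (by omega) le_rfl))
    (l2.trans (C.le (Nat.zero_le _) (by omega)))
  have h2 := pvtx_tri (P.v l - z) x (P.v s - z)
  rw [pvmf_sub, norm_sub_rev (P.v l - z) x, norm_sub_rev x (P.v s - z)] at h2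
  have l3' : ‖x - (P.v l - z)‖ ≤ μ := l3
  linarith

end cond

/-! ## §4 M7 (i), (vii), M8 (c), (d) in the vocabulary of the menu -/

section use

variable {P : PvbRim} {z : ℂ} {t : ℕ → ℕ} {δ μ hh a b ρ d0 e0 d1 e1 RB : ℝ} {𝔑 : PvmnNum} {τ : PvmnType} {p x : ℂ}

/-- the cells of a fitting type are the cells of the pieces -/
theorem pvmf_C (F : PvmnFits τ δ (fun i => P.v i - z) (fun k => t k.1)) (k : Fin 10) : (τ.C k : Set (ℤ × ℤ)) = pvmfC P z t δ k.1 := F.cells k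

theorem pvmf_q (F : PvmnFits τ δ (fun i => P.v i - z) (fun k => t k.1)) (k : Fin 11) : P.v (t k.1) - z ∈ pvtSq δ (τ.q k) := F.marks k

/-- the cells of a stretch of pieces -/
theorem pvmf_cells (I : PvmfIn P z t μ hh a b ρ d0 e0 d1 e1) (N : PvmfNum δ μ hh a b ρ d0 e0 d1 e1 RB)
    (F : PvmnFits τ δ (fun i => P.v i - z) (fun k => t k.1)) {i j : ℕ} (hij : i ≤ j) (hj : j < 10) :
    pvmnCells τ i j = pvtCells δ (pvtxPoly (fun i => P.v i - z) (t i) (t (j + 1))) := by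
  have C := I.cuts N
  induction j, hij using Nat.le_induction with
  | base => rw [pvmn_cells_self hj]; exact pvmf_C F ⟨i, hj⟩
  | succ j hij ih =>
    rw [pvmn_cells_succ (by omega) hj, ih (by omega), pvmf_C F ⟨j + 1, hj⟩,
      pvtx_poly_union (k := t (j + 1)) (C.le (by omega) (by omega)) (I.mono N (j + 1) hj), pvtp_cells_union]
    rfl

/-- **M7 (i) TRACK**: the `w δ`-neighbourhood of a stretch of pieces lies in the `w`-collar of its cells -/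
theorem pvmf_track (I : PvmfIn P z t μ hh a b ρ d0 e0 d1 e1) (N : PvmfNum δ μ hh a b ρ d0 e0 d1 e1 RB)
    (F : PvmnFits τ δ (fun i => P.v i - z) (fun k => t k.1)) {i j w : ℕ} (hij : i ≤ j) (hj : j < 10)
    (hp : p ∈ pvtxPoly (fun i => P.v i - z) (t i) (t (j + 1))) (hx : ‖x - p‖ ≤ (w : ℝ) * δ) : x ∈ pvtU δ (pvtwN w (pvmnCells τ i j)) := by
  rw [pvmf_cells I N F hij hj]
  exact pvtw_U_near N.δ_pos (pvt_cells_cover N.δ_pos hp) hx

/-- the forward half of the rim runs in the core of the black tube `Np` -/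
theorem pvmf_track_Np (I : PvmfIn P z t μ hh a b ρ d0 e0 d1 e1) (N : PvmfNum δ μ hh a b ρ d0 e0 d1 e1 RB)
    (F : PvmnFits τ δ (fun i => P.v i - z) (fun k => t k.1))
    (hp : p ∈ pvtxPoly (fun i => P.v i - z) (t 5) (t 10)) (hx : ‖x - p‖ ≤ 2 * δ) : x ∈ pvtU δ (pvmnNp τ) :=
  pvmf_track I N F (i := 5) (j := 9) (w := 2) (by omega) (by omega) hp (by push_cast; exact hx)

/-- the backward half of the rim runs in the core of the black tube `Nm` -/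
theorem pvmf_track_Nm (I : PvmfIn P z t μ hh a b ρ d0 e0 d1 e1) (N : PvmfNum δ μ hh a b ρ d0 e0 d1 e1 RB)
    (F : PvmnFits τ δ (fun i => P.v i - z) (fun k => t k.1))
    (hp : p ∈ pvtxPoly (fun i => P.v i - z) (t 0) (t 5)) (hx : ‖x - p‖ ≤ 2 * δ) : x ∈ pvtU δ (pvmnNm τ) :=
  pvmf_track I N F (i := 0) (j := 4) (w := 2) (by omega) (by omega) hp (by push_cast; exact hx)

/-- the whole stretch of the marks runs in the core of `K3` -/
theorem pvmf_track_K3 (I : PvmfIn P z t μ hh a b ρ d0 e0 d1 e1) (N : PvmfNum δ μ hh a b ρ d0 e0 d1 e1 RB)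
    (F : PvmnFits τ δ (fun i => P.v i - z) (fun k => t k.1))
    (hp : p ∈ pvtxPoly (fun i => P.v i - z) (t 0) (t 10)) (hx : ‖x - p‖ ≤ 4 * δ) : x ∈ pvtU δ (pvmnK3 τ) :=
  pvt_U_mono pvt_hull_sub (pvmf_track I N F (i := 0) (j := 9) (w := 4) (by omega) (by omega) hp (by push_cast; exact hx))

/-- **M8 (c), forward**: the rim after the mark `j + 2` never comes back to the `w`-collar of the pieces `i..j` (vertex form) -/
theorem pvmf_tube_fwd (I : PvmfIn P z t μ hh a b ρ d0 e0 d1 e1) (N : PvmfNum δ μ hh a b ρ d0 e0 d1 e1 RB)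
    (F : PvmnFits τ δ (fun i => P.v i - z) (fun k => t k.1)) {i j w l : ℕ} (hj : j + 2 ≤ 10) (hw : 2 * ((w : ℝ) + 1) * δ + μ ≤ d1)
    (l1 : t (j + 2) ≤ l) (l2 : l ≤ P.len) : P.v l - z ∉ pvtU δ (pvtwN w (pvmnCells τ i j)) := by
  have C := I.cuts N
  intro h
  obtain ⟨c, hc, hpc⟩ := Set.mem_iUnion₂.1 h
  obtain ⟨k, k1, k2, hk⟩ := pvmn_N_cells.1 hc
  rw [pvmf_C F k] at hk
  obtain ⟨s, s1, s2, s3⟩ := I.idx N k.2 hk hpc
  have h1 := I.sep_fwd N (j := j + 1) (s := s) (l := l) (by omega) ((C.le (Nat.zero_le _) (by omega)).trans s1)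
    (s2.trans (C.le (by omega) (by omega))) l1 l2
  rw [pvmf_sub] at s3
  linarith

/-- **M8 (c), backward** -/
theorem pvmf_tube_bwd (I : PvmfIn P z t μ hh a b ρ d0 e0 d1 e1) (N : PvmfNum δ μ hh a b ρ d0 e0 d1 e1 RB)
    (F : PvmnFits τ δ (fun i => P.v i - z) (fun k => t k.1)) {i j w l : ℕ} (hi : 1 ≤ i) (hw : 2 * ((w : ℝ) + 1) * δ + μ ≤ d1)
    (l1 : l ≤ t (i - 1)) : P.v l - z ∉ pvtU δ (pvtwN w (pvmnCells τ i j)) := by
  have C := I.cuts N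
  intro h
  obtain ⟨c, hc, hpc⟩ := Set.mem_iUnion₂.1 h
  obtain ⟨k, k1, k2, hk⟩ := pvmn_N_cells.1 hc
  rw [pvmf_C F k] at hk
  obtain ⟨s, s1, s2, s3⟩ := I.idx N k.2 hk hpc
  have hk10 := k.2
  have e1 : i - 1 + 1 = i := by omega
  have h1 := I.sep_bwd N (j := i - 1) (s := s) (l := l) (by omega) (by rw [e1]; exact (C.le k1 (by omega)).trans s1)
    (s2.trans (C.le (by omega) le_rfl)) l1
  rw [pvmf_sub, norm_sub_rev] at s3
  linarith

/-- **M8 (c)** for the UNUSED stub: the forward continuation (after the mark `6`) stays off the 8-collar of the negative stub -/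
theorem pvmf_stub_m (I : PvmfIn P z t μ hh a b ρ d0 e0 d1 e1) (N : PvmfNum δ μ hh a b ρ d0 e0 d1 e1 RB)
    (F : PvmnFits τ δ (fun i => P.v i - z) (fun k => t k.1)) {l : ℕ} (l1 : t 5 ≤ l) (l2 : l ≤ P.len) : P.v l - z ∉ pvtU δ (pvtwN 8 (pvmnStm τ)) := by
  rw [pvmnStm, pvtw_N_add]
  refine pvmf_tube_fwd I N F (i := 1) (j := 3) (by omega) ?_ l1 l2
  have := N.δ_pos; have := N.μ_le; have := N.d0_ge; have := N.d0_le_d1
  push_cast
  linarith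

/-- **M8 (c)**, mirror -/
theorem pvmf_stub_p (I : PvmfIn P z t μ hh a b ρ d0 e0 d1 e1) (N : PvmfNum δ μ hh a b ρ d0 e0 d1 e1 RB)
    (F : PvmnFits τ δ (fun i => P.v i - z) (fun k => t k.1)) {l : ℕ} (l1 : l ≤ t 5) : P.v l - z ∉ pvtU δ (pvtwN 8 (pvmnStp τ)) := by
  rw [pvmnStp, pvtw_N_add]
  refine pvmf_tube_bwd I N F (i := 6) (j := 8) (by omega) ?_ l1
  have := N.δ_pos; have := N.μ_le; have := N.d0_ge; have := N.d0_le_d1
  push_cast
  linarith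

/-- **M8 (d), forward**: the witness of the door `Dr⁺`: a polygon from the mark `10` to radius `≥ ρ`, whose cells are connected, start in the door, end off the box of `K3` and stay off the 8-collar of the pieces `0..8` -/
theorem pvmf_access_p (I : PvmfIn P z t μ hh a b ρ d0 e0 d1 e1) (N : PvmfNum δ μ hh a b ρ d0 e0 d1 e1 RB) (R : PvmfRel 𝔑 δ μ hh b ρ e0 d1)
    (F : PvmnFits τ δ (fun i => P.v i - z) (fun k => t k.1)) :
    ∃ T, t 10 ≤ T ∧ T ≤ P.len ∧ ρ ≤ ‖P.v T - z‖ ∧ TscConn tscG (pvtCells δ (pvtxPoly (fun i => P.v i - z) (t 10) T)) ∧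
      τ.q 10 ∈ pvtCells δ (pvtxPoly (fun i => P.v i - z) (t 10) T) ∧
      (∃ c ∈ pvtCells δ (pvtxPoly (fun i => P.v i - z) (t 10) T), c ∉ pvmnBox (𝔑.nBx + 4)) ∧
      Disjoint (pvtCells δ (pvtxPoly (fun i => P.v i - z) (t 10) T)) (pvtwN 8 (pvmnCells τ 0 8)) := by
  obtain ⟨T, a1, a2, a3, a4, a5⟩ := I.wit_p N
  refine ⟨T, a1, a2, a3, pvt_cells_conn N.δ_pos (pvtx_poly_preconn _ _ _) (pvtx_poly_bounded _ _ _),
    ⟨_, pvmf_q F 10, pvtx_mem_poly.2 (Or.inl rfl)⟩, ?_, ?_⟩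
  · obtain ⟨c, hc⟩ := pvt_sq_cover N.δ_pos (P.v T - z)
    refine ⟨c, ⟨_, hc, pvtx_vertex_mem (v := fun i => P.v i - z) a1 le_rfl⟩, pvmf_off_box N.δ_pos hc ?_⟩
    have := R.ρ_gt
    push_cast
    linarith
  · rw [Set.disjoint_left]
    intro c hc hc'
    obtain ⟨k, k1, k2, hk⟩ := pvmn_N_cells.1 hc'
    rw [pvmf_C F k] at hk
    refine Set.disjoint_left.1 (a5 k.1 (by omega) 8 ?_) hc hk
    have := N.δ_pos; have := N.μ_le; have := N.d0_ge; have := N.d0_le_d1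
    push_cast
    linarith

/-- **M8 (d), backward** -/
theorem pvmf_access_m (I : PvmfIn P z t μ hh a b ρ d0 e0 d1 e1) (N : PvmfNum δ μ hh a b ρ d0 e0 d1 e1 RB) (R : PvmfRel 𝔑 δ μ hh b ρ e0 d1)
    (F : PvmnFits τ δ (fun i => P.v i - z) (fun k => t k.1)) :
    ∃ T, T ≤ t 0 ∧ ρ ≤ ‖P.v T - z‖ ∧ TscConn tscG (pvtCells δ (pvtxPoly (fun i => P.v i - z) T (t 0))) ∧
      τ.q 0 ∈ pvtCells δ (pvtxPoly (fun i => P.v i - z) T (t 0)) ∧
      (∃ c ∈ pvtCells δ (pvtxPoly (fun i => P.v i - z) T (t 0)), c ∉ pvmnBox (𝔑.nBx + 4)) ∧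
      Disjoint (pvtCells δ (pvtxPoly (fun i => P.v i - z) T (t 0))) (pvtwN 8 (pvmnCells τ 1 9)) := by
  obtain ⟨T, a2, a3, a4, a5⟩ := I.wit_m N
  refine ⟨T, a2, a3, pvt_cells_conn N.δ_pos (pvtx_poly_preconn _ _ _) (pvtx_poly_bounded _ _ _),
    ⟨_, pvmf_q F 0, pvtx_vertex_mem (v := fun i => P.v i - z) a2 le_rfl⟩, ?_, ?_⟩
  · obtain ⟨c, hc⟩ := pvt_sq_cover N.δ_pos (P.v T - z)
    refine ⟨c, ⟨_, hc, pvtx_mem_poly.2 (Or.inl rfl)⟩, pvmf_off_box N.δ_pos hc ?_⟩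
    have := R.ρ_gt
    push_cast
    linarith
  · rw [Set.disjoint_left]
    intro c hc hc'
    obtain ⟨k, k1, k2, hk⟩ := pvmn_N_cells.1 hc'
    rw [pvmf_C F k] at hk
    refine Set.disjoint_left.1 (a5 k.1 k1 k.2 8 ?_) hc hk
    have := N.δ_pos; have := N.μ_le; have := N.d0_ge; have := N.d0_le_d1
    push_cast
    linarith

end use

/-! ## §5 FIT -/

section fit

variable {P : PvbRim} {z : ℂ} {t : ℕ → ℕ} {δ μ hh a b ρ d0 e0 d1 e1 : ℝ} {𝔑 : PvmnNum} {τ : PvmnType}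

/-- **FIT (M7, first half)**: a datum which fits a rim with (P), (G), (F), (NR_0), (NR_1) is a type of the menu -/
theorem pvmf_isType (I : PvmfIn P z t μ hh a b ρ d0 e0 d1 e1) (N : PvmfNum δ μ hh a b ρ d0 e0 d1 e1 (δ * 𝔑.rB)) (R : PvmfRel 𝔑 δ μ hh b ρ e0 d1)
    (F : PvmnFits τ δ (fun i => P.v i - z) (fun k => t k.1)) : PvmnIsType 𝔑 τ := by
  have hδ := N.δ_pos
  have hμ := N.μ_le
  have h0 := N.d0_ge
  have h01 := N.d0_le_d1
  have hbox : ∀ k, (τ.C k : Set (ℤ × ℤ)) ⊆ pvmnBox 𝔑.nBx := fun k => by rw [pvmf_C F k]; exact I.T5 N k.2 R.nBx_ge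
  have hK3 : pvmnK3 τ ⊆ pvmnBox (𝔑.nBx + 4) := pvt_hull_box (pvmn_N_box (by rintro c ⟨k, _, _, hc⟩; exact hbox k hc))
  have hqs : ∀ k : Fin 10, τ.q k.castSucc ∈ τ.C k := fun k =>
    Finset.mem_coe.1 (by rw [pvmf_C F k]; exact pvmf_T1_start (pvmf_q F k.castSucc))
  have hqe : ∀ k : Fin 10, τ.q k.succ ∈ τ.C k := fun k =>
    Finset.mem_coe.1 (by rw [pvmf_C F k]; exact pvmf_T1_end (I.mono N k.1 k.2) (pvmf_q F k.succ))
  refine ⟨fun k => by rw [pvmf_C F k]; exact pvmf_T1 hδ k.1, hqs, hqe, ?_, ?_, ?_, hbox, ?_, ?_, ?_, ?_, ?_, ?_, ?_, ?_⟩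
  · intro k k' h
    rw [pvmf_C F k, pvmf_C F k']
    exact I.T2 N h k'.2 (by push_cast; linarith)
  · intro k h4 h5
    rw [pvmf_C F k, ← pvmn_Bl_scale hδ]
    exact I.T3 N k.2 h4 h5 (by push_cast; linarith)
  · intro k k' h
    have e : k'.1 = k.1 + 1 := h.symm
    have hq : P.v (t k'.1) - z ∈ pvtSq δ (τ.q k'.castSucc) := pvmf_q F k'.castSucc
    rw [pvmf_C F k, pvmf_C F k', e]
    rw [e] at hq
    have := R.nW_gt
    exact I.T4 N (by have := k'.2; omega) (by push_cast; linarith) (by push_cast; linarith) hq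
  · rw [pvmf_C F 4]; exact I.T5c N (Or.inl rfl) R.nC_ge
  · rw [pvmf_C F 5]; exact I.T5c N (Or.inr rfl) R.nC_ge
  · exact ⟨τ.q 0, hqs 0, (I.T5m N R.nF_lt (pvmf_q F 0)).2⟩
  · exact ⟨τ.q 10, hqe 9, (I.T5p N R.nF_lt (pvmf_q F 10)).2⟩
  · rw [← pvmn_Bl_scale hδ]
    exact ⟨_, pvmf_q F 5, by rw [Metric.mem_closedBall, dist_zero_right]; exact I.near.trans R.hh_le⟩
  · intro k k' h
    exact I.T6 N (fun e => h (Fin.ext e)) (by have := k.2; omega) (by have := k'.2; omega) R.nP_le (pvmf_q F k) (pvmf_q F k')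
  · obtain ⟨T, -, -, -, b1, b2, ⟨c, hc, hcb⟩, b4⟩ := pvmf_access_p I N R F
    exact pvmn_door_wit_p b1 ⟨τ.q 10, b2, pvt_hull_sub (pvtw_N_sub ⟨9, by simp, by simp, hqe 9⟩)⟩ ⟨c, hc, fun h => hcb (hK3 h)⟩
      (Set.disjoint_of_subset_right (pvtw_N_mono (by omega) le_rfl) b4)
  · obtain ⟨T, -, -, b1, b2, ⟨c, hc, hcb⟩, b4⟩ := pvmf_access_m I N R F
    exact pvmn_door_wit_m b1 ⟨τ.q 0, b2, pvt_hull_sub (pvtw_N_sub ⟨0, by simp, by simp, hqs 0⟩)⟩ ⟨c, hc, fun h => hcb (hK3 h)⟩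
      (Set.disjoint_of_subset_right (pvtw_N_mono (by omega) le_rfl) b4)

/-- **FIT (M1 + M6 + M7)**: every pin vertex `i0` of a rim with (G), (F), (NR_0), (NR_1) has marks and a fitting type of the menu, of either colour -/
theorem pvmf_exists {i0 lo hi : ℕ} (N : PvmfNum δ μ hh a b ρ d0 e0 d1 e1 (δ * 𝔑.rB)) (R : PvmfRel 𝔑 δ μ hh b ρ e0 d1) (col : Bool)
    (T : PvtpTrap P z i0 a b lo hi) (near : ‖P.v i0 - z‖ ≤ hh) (end0 : ρ ≤ ‖P.v 0 - z‖) (endn : ρ ≤ ‖P.v P.len - z‖)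
    (mesh : ∀ k < P.len, (‖P.v k - z‖ ≤ ρ ∨ ‖P.v (k + 1) - z‖ ≤ ρ) → ‖P.v (k + 1) - P.v k‖ ≤ μ)
    (nr0 : PvtpNR P z ρ d0 e0) (nr1 : PvtpNR P z ρ d1 e1) :
    ∃ (t : ℕ → ℕ) (τ : PvmnType), t 5 = i0 ∧ τ.col = col ∧ PvmfIn P z t μ hh a b ρ d0 e0 d1 e1 ∧
      PvmnFits τ δ (fun i => P.v i - z) (fun k => t k.1) ∧ τ ∈ pvmnMenuF 𝔑 := by
  have hi0 : i0 ≤ P.len := T.le_hi.trans T.hi_le
  have hb := N.b_pos
  have he1 : 0 ≤ e1 := by have := N.e0_pos; have := N.e0_le; have := N.d1_le; linarith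
  have hρ := N.ρ_ge
  have hμ := N.μ_nn
  have hlt := N.e1_lt
  have hh0 := N.hh_nn
  obtain ⟨κ, h5, hM, -⟩ := pvmx_marks (J := 5) (r := fun j => ((j : ℝ) + 1) * b) (e := e1) (hh := hh) (μ := μ) (ρ := ρ) (by omega) hi0 near hμ he1
    (by push_cast; linarith) (fun j _ _ => by push_cast; linarith) (by push_cast; linarith) (by push_cast; linarith) (by push_cast; linarith) mesh
  have I : PvmfIn P z κ μ hh a b ρ d0 e0 d1 e1 :=
    ⟨fun j a b => by rw [h5]; exact hM j a b, ⟨lo, hi, by rw [h5]; exact T⟩, by rw [h5]; exact near, end0, endn, mesh, nr0, nr1⟩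
  obtain ⟨τ, hcol, F⟩ := pvmn_fits_exists N.δ_pos col (fun i => P.v i - z) (fun k : Fin 11 => κ k.1) (fun k => I.mono N k.1 k.2)
  exact ⟨κ, τ, h5, hcol, I, F, pvmn_mem_menuF.2 (pvmf_isType I N R F)⟩

/-- the marks are determined by the rim, the centre and the pin vertex -/
theorem pvmf_marks_unique {t' : ℕ → ℕ} (I : PvmfIn P z t μ hh a b ρ d0 e0 d1 e1) (I' : PvmfIn P z t' μ hh a b ρ d0 e0 d1 e1) (h5 : t 5 = t' 5) :
    ∀ k ≤ 10, t k = t' k := by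
  intro k hk
  rcases Nat.lt_trichotomy k 5 with h | h | h
  · have M := I.marks (5 - k) (by omega) (by omega)
    have M' := I'.marks (5 - k) (by omega) (by omega)
    rw [← h5] at M'
    have := (M.unique M').1
    have e : 5 - (5 - k) = k := by omega
    rwa [e] at this
  · subst h; exact h5
  · have M := I.marks (k - 5) (by omega) (by omega)
    have M' := I'.marks (k - 5) (by omega) (by omega)
    rw [← h5] at M'
    have := (M.unique M').2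
    have e : 5 + (k - 5) = k := by omega
    rwa [e] at this

end fit

end Claimed.Agent.R289
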