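-- KEEP
import Claimed.Agent.R289.Tr.MenuFit

/-!
# Row 289 (S0537), THE WALL, ROAD P, Tr/FitAcc : FIT ⟹ ACC      (pen helper8; prefix `pvma_`, `Pvma`, `pvma`)

The clause **ACC(τ)** of 114 (`Tr/LinkGam.lean`: `PvlzAcc`, `PvlzHasAcc`; ruling P12 of 273): the two axis rays `ρ⁺ = q 10 + ℕ a⁺`, `ρ⁻ = q 0 + ℕ a⁻` from the tip cells leave the plug at once and stay apart.
HERE the clause is typed UPSTREAM of the model (`PvmaAcc`, `PvmaHasAcc`: the same seven fields, with `pvfjmB`, `PvfjDir`, `pvlzRay` unfolded, so that `Tr/ModP.lean` needs no import of `Tr/FitP.lean`, `Tr/LinkGam.lean`)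
and PROVED AT FIT TIME:   **`pvma_acc`** : `PvmfIn` + `PvmfNum` + `PvmnFits`  ⟹  `PvmaHasAcc 𝔑 τ`.
`a^±` := the dominant coordinate direction of the centre of the tip cell.
* `pvma_grow` : along the ray the norm grows by at least half of the length;
* `pvma_ray_far` : a point of the disc `6 b + μ` which is `599 δ` away from the tip is `190 δ` away from all the centres of the ray;
* `pvma_ray_ray` : two rays from tips `598 δ` apart on (almost) the same circle stay more than `60` cells apart in the sup norm (opposite, perpendicular directions: linear arithmetic;  equal directions: the circle).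
-/

set_option autoImplicit false

namespace Claimed.Agent.R289

open Set Metric

/-! ## 1. the clause -/

/-- the axis ray from the cell `q` in the direction `a`      (`= pvlzRay` of 114) -/
def pvmaRay (q a : ℤ × ℤ) : Set (ℤ × ℤ) := {c | ∃ j : ℕ, c = (q.1 + j * a.1, q.2 + j * a.2)}

/-- the four directions      (`= PvfjDir` of 138) -/
def PvmaDir (d : ℤ × ℤ) : Prop := d = (1, 0) ∨ d = (-1, 0) ∨ d = (0, 1) ∨ d = (0, -1)

/-- **ACC(τ)**      (`= PvlzAcc` of 114, unfolded) -/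
structure PvmaAcc (𝔑 : PvmnNum) (τ : PvmnType) (ap am : ℤ × ℤ) : Prop where
  ap_dir : PvmaDir ap
  am_dir : PvmaDir am
  rp_B : Disjoint (pvmaRay (τ.q 10) ap) (pvmnBl 𝔑.rB ∪ pvtwN 6 (pvmnCells τ 4 5) ∪ pvtwN 8 (pvmnCells τ 1 8))
  rm_B : Disjoint (pvmaRay (τ.q 0) am) (pvmnBl 𝔑.rB ∪ pvtwN 6 (pvmnCells τ 4 5) ∪ pvtwN 8 (pvmnCells τ 1 8))
  rp_cells : Disjoint (pvmaRay (τ.q 10) ap) (pvtwN 30 (pvmnCells τ 0 8))
  rm_cells : Disjoint (pvmaRay (τ.q 0) am) (pvtwN 30 (pvmnCells τ 1 9))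
  sep : Disjoint (pvtwN 30 (pvmaRay (τ.q 10) ap ∪ (τ.C 9 : Set (ℤ × ℤ)))) (pvtwN 30 (pvmaRay (τ.q 0) am ∪ (τ.C 0 : Set (ℤ × ℤ))))

/-- **THE CLAUSE ON TYPES** -/
def PvmaHasAcc (𝔑 : PvmnNum) (τ : PvmnType) : Prop := ∃ ap am, PvmaAcc 𝔑 τ ap am

theorem pvma_eqns_cite : True := by
  have := @pvmaRay.eq_1; have := @PvmaDir.eq_1; have := @PvmaHasAcc.eq_1
  trivial

/-! ## 2. dominant directions -/

/-- `a` is a dominant coordinate direction of `(x, y)` -/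
def PvmaDom (a : ℤ × ℤ) (x y : ℝ) : Prop := |x| ≤ (a.1 : ℝ) * x + (a.2 : ℝ) * y ∧ |y| ≤ (a.1 : ℝ) * x + (a.2 : ℝ) * y

theorem pvma_dom_exists (x y : ℝ) : ∃ a, PvmaDir a ∧ PvmaDom a x y := by
  rcases le_total |y| |x| with h | h
  · rcases le_total 0 x with hx | hx
    · refine ⟨(1, 0), Or.inl rfl, ?_, ?_⟩ <;> simp [abs_of_nonneg hx] at h ⊢ <;> linarith
    · refine ⟨(-1, 0), Or.inr (Or.inl rfl), ?_, ?_⟩ <;> simp [abs_of_nonpos hx] at h ⊢ <;> linarith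
  · rcases le_total 0 y with hy | hy
    · refine ⟨(0, 1), Or.inr (Or.inr (Or.inl rfl)), ?_, ?_⟩ <;> simp [abs_of_nonneg hy] at h ⊢ <;> linarith
    · refine ⟨(0, -1), Or.inr (Or.inr (Or.inr rfl)), ?_, ?_⟩ <;> simp [abs_of_nonpos hy] at h ⊢ <;> linarith

theorem pvma_dir_sq {a : ℤ × ℤ} (ha : PvmaDir a) : (a.1 : ℝ) ^ 2 + (a.2 : ℝ) ^ 2 = 1 := by
  rcases ha with rfl | rfl | rfl | rfl <;> norm_num

/-- the centre of a cell of the ray -/
theorem pvma_ctr_ray (δ : ℝ) (q a : ℤ × ℤ) (j : ℕ) :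
    pvtCtr δ (q.1 + j * a.1, q.2 + j * a.2) = pvtCtr δ q + ((j : ℝ) * δ : ℝ) * (⟨(a.1 : ℝ), (a.2 : ℝ)⟩ : ℂ) := by
  apply Complex.ext
  · simp only [pvtCtr, Complex.add_re, Complex.mul_re, Complex.ofReal_re, Complex.ofReal_im, zero_mul, sub_zero]
    push_cast
    ring
  · simp only [pvtCtr, Complex.add_im, Complex.mul_im, Complex.ofReal_re, Complex.ofReal_im, zero_mul, add_zero]
    push_cast
    ring

/-- **the norm grows along the ray** -/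
theorem pvma_grow {a : ℤ × ℤ} (ha : PvmaDir a) {c : ℂ} (hd : PvmaDom a c.re c.im) {s : ℝ} (hs : 0 ≤ s) :
    ‖c‖ + s / 2 ≤ ‖c + (s : ℝ) * (⟨(a.1 : ℝ), (a.2 : ℝ)⟩ : ℂ)‖ := by
  have h1 : ‖c‖ ≤ |c.re| + |c.im| := Complex.norm_le_abs_re_add_abs_im c
  have h2 : ‖c‖ ^ 2 = c.re ^ 2 + c.im ^ 2 := by rw [Complex.sq_norm, Complex.normSq_apply]; ring
  have h3 : ‖c + (s : ℝ) * (⟨(a.1 : ℝ), (a.2 : ℝ)⟩ : ℂ)‖ ^ 2 = (c.re + s * a.1) ^ 2 + (c.im + s * a.2) ^ 2 := by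
    rw [Complex.sq_norm, Complex.normSq_apply]
    simp only [Complex.add_re, Complex.mul_re, Complex.ofReal_re, Complex.ofReal_im, zero_mul, sub_zero, Complex.add_im, Complex.mul_im, add_zero]
    ring
  have h4 := pvma_dir_sq ha
  have h0 := norm_nonneg c
  refine le_of_pow_le_pow_left₀ (n := 2) (by norm_num) (norm_nonneg _) ?_
  rw [h3]
  have h5 : (c.re + s * a.1) ^ 2 + (c.im + s * a.2) ^ 2 = c.re ^ 2 + c.im ^ 2 + 2 * s * ((a.1 : ℝ) * c.re + (a.2 : ℝ) * c.im) + s ^ 2 * ((a.1 : ℝ) ^ 2 + (a.2 : ℝ) ^ 2) := by ring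
  rw [h5, h4, ← h2]
  have h6 : ‖c‖ ≤ 2 * ((a.1 : ℝ) * c.re + (a.2 : ℝ) * c.im) := by linarith [hd.1, hd.2]
  nlinarith [mul_nonneg hs h0, mul_le_mul_of_nonneg_left h6 hs, sq_nonneg s]

theorem pvma_dir_norm {a : ℤ × ℤ} (ha : PvmaDir a) : ‖(⟨(a.1 : ℝ), (a.2 : ℝ)⟩ : ℂ)‖ = 1 := by
  have h : ‖(⟨(a.1 : ℝ), (a.2 : ℝ)⟩ : ℂ)‖ ^ 2 = 1 := by
    rw [Complex.sq_norm, Complex.normSq_apply]
    have := pvma_dir_sq ha
    nlinarith
  have h0 := norm_nonneg (⟨(a.1 : ℝ), (a.2 : ℝ)⟩ : ℂ)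
  nlinarith

/-- a point of a square is within `δ` of the centre -/
theorem pvma_sq_ctr {δ : ℝ} (_hδ : 0 < δ) {p : ℂ} {q : ℤ × ℤ} (hp : p ∈ pvtSq δ q) : ‖p - pvtCtr δ q‖ ≤ δ := by
  obtain ⟨h1, h2, h3, h4⟩ := hp
  refine (Complex.norm_le_abs_re_add_abs_im _).trans ?_
  have e1 : (p - pvtCtr δ q).re = p.re - ((q.1 : ℝ) + 1 / 2) * δ := rfl
  have e2 : (p - pvtCtr δ q).im = p.im - ((q.2 : ℝ) + 1 / 2) * δ := rfl
  rw [e1, e2]
  have a1 : |p.re - ((q.1 : ℝ) + 1 / 2) * δ| ≤ δ / 2 := abs_le.2 ⟨by linarith, by linarith⟩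
  have a2 : |p.im - ((q.2 : ℝ) + 1 / 2) * δ| ≤ δ / 2 := abs_le.2 ⟨by linarith, by linarith⟩
  linarith

/-! ## 3. a ray and the disc -/

/-- **a point of the disc which is far from the tip is far from the ray** -/
theorem pvma_ray_far {δ Rm : ℝ} (hδ : 0 < δ) {T : ℂ} {q a : ℤ × ℤ} (hT : T ∈ pvtSq δ q) (ha : PvmaDir a) (hd : PvmaDom a (pvtCtr δ q).re (pvtCtr δ q).im) (hTr : Rm - δ ≤ ‖T‖)
    {w : ℂ} (hw1 : ‖w‖ ≤ Rm) (hw2 : 599 * δ ≤ ‖w - T‖) (j : ℕ) : 190 * δ < ‖w - pvtCtr δ (q.1 + j * a.1, q.2 + j * a.2)‖ := by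
  rw [pvma_ctr_ray]
  set c := pvtCtr δ q with hc
  set A : ℂ := ⟨(a.1 : ℝ), (a.2 : ℝ)⟩ with hA
  have hTc : ‖T - c‖ ≤ δ := pvma_sq_ctr hδ hT
  have hs : 0 ≤ (j : ℝ) * δ := by positivity
  rcases le_total (j : ℝ) 400 with hj | hj
  · have h1 : ‖(((j : ℝ) * δ : ℝ) : ℂ) * A‖ = (j : ℝ) * δ := by
      rw [norm_mul, pvma_dir_norm ha, mul_one, Complex.norm_real, Real.norm_of_nonneg hs]
    have h2 : ‖w - T‖ ≤ ‖w - (c + (((j : ℝ) * δ : ℝ) : ℂ) * A)‖ + ‖(((j : ℝ) * δ : ℝ) : ℂ) * A‖ + ‖T - c‖ := by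
      have e : w - T = (w - (c + (((j : ℝ) * δ : ℝ) : ℂ) * A)) + (((j : ℝ) * δ : ℝ) : ℂ) * A - (T - c) := by ring
      rw [e]
      exact (norm_sub_le _ _).trans (add_le_add_left (norm_add_le _ _) _)
    have h3 : (j : ℝ) * δ ≤ 400 * δ := mul_le_mul_of_nonneg_right hj hδ.le
    linarith
  · have h1 := pvma_grow ha hd hs
    have h2 : ‖T‖ ≤ ‖c‖ + ‖T - c‖ := by
      have e : T = c + (T - c) := by ring
      calc ‖T‖ = ‖c + (T - c)‖ := by rw [← e]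
        _ ≤ _ := norm_add_le _ _
    have h3 : ‖c + (((j : ℝ) * δ : ℝ) : ℂ) * A‖ ≤ ‖w - (c + (((j : ℝ) * δ : ℝ) : ℂ) * A)‖ + ‖w‖ := by
      have e : c + (((j : ℝ) * δ : ℝ) : ℂ) * A = -(w - (c + (((j : ℝ) * δ : ℝ) : ℂ) * A)) + w := by ring
      calc ‖c + (((j : ℝ) * δ : ℝ) : ℂ) * A‖ = ‖-(w - (c + (((j : ℝ) * δ : ℝ) : ℂ) * A)) + w‖ := by rw [← e]
        _ ≤ ‖-(w - (c + (((j : ℝ) * δ : ℝ) : ℂ) * A))‖ + ‖w‖ := norm_add_le _ _
        _ = _ := by rw [norm_neg]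
    have h4 : 400 * δ ≤ (j : ℝ) * δ := mul_le_mul_of_nonneg_right hj hδ.le
    linarith

/-- the centres of the ray are at least as far from the origin as the tip, up to one cell -/
theorem pvma_ray_norm {δ : ℝ} (hδ : 0 < δ) {T : ℂ} {q a : ℤ × ℤ} (hT : T ∈ pvtSq δ q) (ha : PvmaDir a) (hd : PvmaDom a (pvtCtr δ q).re (pvtCtr δ q).im) (j : ℕ) :
    ‖T‖ - δ ≤ ‖pvtCtr δ (q.1 + j * a.1, q.2 + j * a.2)‖ := by
  rw [pvma_ctr_ray]
  have hTc : ‖T - pvtCtr δ q‖ ≤ δ := pvma_sq_ctr hδ hT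
  have hs : 0 ≤ (j : ℝ) * δ := by positivity
  have h1 := pvma_grow ha hd hs
  have h2 : ‖T‖ ≤ ‖pvtCtr δ q‖ + ‖T - pvtCtr δ q‖ := by
    have e : T = pvtCtr δ q + (T - pvtCtr δ q) := by ring
    calc ‖T‖ = ‖pvtCtr δ q + (T - pvtCtr δ q)‖ := by rw [← e]
      _ ≤ _ := norm_add_le _ _
  linarith

/-! ## 4. two rays -/

/-- two points of (almost) the same circle in the same quarter: the difference of the dominant coordinates is controlled by the other one -/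
theorem pvma_same {x y x' y' r r' δ : ℝ} (hx : |y| ≤ x) (hx' : |y'| ≤ x') (hr : r ^ 2 = x ^ 2 + y ^ 2) (hr' : r' ^ 2 = x' ^ 2 + y' ^ 2) (r0 : 0 ≤ r) (r0' : 0 ≤ r')
    (hrr : |r - r'| ≤ 3 * δ) (hpos : 0 < x + x') : |x - x'| ≤ 6 * δ + |y - y'| := by
  have x0 : 0 ≤ x := (abs_nonneg y).trans hx
  have x0' : 0 ≤ x' := (abs_nonneg y').trans hx'
  have hy : y ^ 2 ≤ x ^ 2 := by rw [← sq_abs y]; exact pow_le_pow_left₀ (abs_nonneg y) hx 2
  have hy' : y' ^ 2 ≤ x' ^ 2 := by rw [← sq_abs y']; exact pow_le_pow_left₀ (abs_nonneg y') hx' 2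
  have hr2 : r ≤ 2 * x := by
    refine le_of_pow_le_pow_left₀ (n := 2) (by norm_num) (by linarith) ?_
    nlinarith
  have hr2' : r' ≤ 2 * x' := by
    refine le_of_pow_le_pow_left₀ (n := 2) (by norm_num) (by linarith) ?_
    nlinarith
  have key : (x - x') * (x + x') = (r - r') * (r + r') - (y - y') * (y + y') := by nlinarith
  have h1 : |(r - r') * (r + r')| ≤ 3 * δ * (2 * (x + x')) := by
    rw [abs_mul, abs_of_nonneg (by linarith : 0 ≤ r + r')]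
    exact mul_le_mul hrr (by linarith) (by linarith) ((abs_nonneg _).trans hrr)
  have h2 : |(y - y') * (y + y')| ≤ |y - y'| * (x + x') := by
    rw [abs_mul]
    exact mul_le_mul_of_nonneg_left ((abs_add_le y y').trans (by linarith)) (abs_nonneg _)
  have h3 : |x - x'| * (x + x') ≤ (6 * δ + |y - y'|) * (x + x') := by
    have : |x - x'| * (x + x') = |(x - x') * (x + x')| := by rw [abs_mul, abs_of_pos hpos]
    rw [this, key]
    have := abs_sub ((r - r') * (r + r')) ((y - y') * (y + y'))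
    nlinarith
  exact le_of_mul_le_mul_right h3 hpos

/-- **two rays from tips which are far apart on (almost) the same circle never come close** -/
theorem pvma_ray_ray {δ : ℝ} (hδ : 0 < δ) {c c' : ℂ} {a a' : ℤ × ℤ} (ha : PvmaDir a) (ha' : PvmaDir a') (hd : PvmaDom a c.re c.im) (hd' : PvmaDom a' c'.re c'.im)
    (hrr : |‖c‖ - ‖c'‖| ≤ 3 * δ) (hsep : 598 * δ ≤ ‖c - c'‖) {s s' : ℝ} (hs : 0 ≤ s) (hs' : 0 ≤ s')
    (h1 : |c.re + s * a.1 - (c'.re + s' * a'.1)| ≤ 60 * δ) (h2 : |c.im + s * a.2 - (c'.im + s' * a'.2)| ≤ 60 * δ) : False := by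
  have hsum : 598 * δ ≤ |c.re - c'.re| + |c.im - c'.im| := hsep.trans (Complex.norm_le_abs_re_add_abs_im (c - c'))
  have n1 : ‖c‖ ^ 2 = c.re ^ 2 + c.im ^ 2 := by rw [Complex.sq_norm, Complex.normSq_apply]; ring
  have n2 : ‖c'‖ ^ 2 = c'.re ^ 2 + c'.im ^ 2 := by rw [Complex.sq_norm, Complex.normSq_apply]; ring
  obtain ⟨d1, d2⟩ := hd
  obtain ⟨d1', d2'⟩ := hd'
  by_cases hne : a = a'
  · subst hne
    rcases ha with rfl | rfl | rfl | rfl <;>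
      simp only [Int.cast_one, Int.cast_zero, Int.cast_neg, one_mul, zero_mul, add_zero, zero_add, neg_mul, mul_one, mul_zero, mul_neg] at d1 d2 d1' d2' h1 h2
    · by_cases hp : 0 < c.re + c'.re
      · have := pvma_same d2 d2' n1 n2 (norm_nonneg _) (norm_nonneg _) hrr hp
        linarith
      · have := abs_nonneg c.im; have := abs_nonneg c'.im
        rw [abs_le] at d1 d2 d1' d2'
        rcases abs_cases (c.re - c'.re) with ⟨e1, _⟩ | ⟨e1, _⟩ <;> rcases abs_cases (c.im - c'.im) with ⟨e2, _⟩ | ⟨e2, _⟩ <;> rw [e1, e2] at hsum <;> linarith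
    · by_cases hp : 0 < -c.re + -c'.re
      · have := pvma_same (x := -c.re) (x' := -c'.re) d2 d2' (by rw [n1]; ring) (by rw [n2]; ring) (norm_nonneg _) (norm_nonneg _) hrr hp
        have e : |-c.re - -c'.re| = |c.re - c'.re| := by rw [← abs_neg]; congr 1; ring
        rw [e] at this
        linarith
      · have := abs_nonneg c.im; have := abs_nonneg c'.im
        rw [abs_le] at d1 d2 d1' d2'
        rcases abs_cases (c.re - c'.re) with ⟨e1, _⟩ | ⟨e1, _⟩ <;> rcases abs_cases (c.im - c'.im) with ⟨e2, _⟩ | ⟨e2, _⟩ <;> rw [e1, e2] at hsum <;> linarith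
    · by_cases hp : 0 < c.im + c'.im
      · have := pvma_same (x := c.im) (x' := c'.im) (y := c.re) (y' := c'.re) d1 d1' (by rw [n1]; ring) (by rw [n2]; ring) (norm_nonneg _) (norm_nonneg _) hrr hp
        linarith
      · have := abs_nonneg c.re; have := abs_nonneg c'.re
        rw [abs_le] at d1 d2 d1' d2'
        rcases abs_cases (c.re - c'.re) with ⟨e1, _⟩ | ⟨e1, _⟩ <;> rcases abs_cases (c.im - c'.im) with ⟨e2, _⟩ | ⟨e2, _⟩ <;> rw [e1, e2] at hsum <;> linarith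
    · by_cases hp : 0 < -c.im + -c'.im
      · have := pvma_same (x := -c.im) (x' := -c'.im) (y := c.re) (y' := c'.re) d1 d1' (by rw [n1]; ring) (by rw [n2]; ring) (norm_nonneg _) (norm_nonneg _) hrr hp
        have e : |-c.im - -c'.im| = |c.im - c'.im| := by rw [← abs_neg]; congr 1; ring
        rw [e] at this
        linarith
      · have := abs_nonneg c.re; have := abs_nonneg c'.re
        rw [abs_le] at d1 d2 d1' d2'
        rcases abs_cases (c.re - c'.re) with ⟨e1, _⟩ | ⟨e1, _⟩ <;> rcases abs_cases (c.im - c'.im) with ⟨e2, _⟩ | ⟨e2, _⟩ <;> rw [e1, e2] at hsum <;> linarith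
  · rcases ha with rfl | rfl | rfl | rfl <;> rcases ha' with rfl | rfl | rfl | rfl <;> first | exact hne rfl | skip
    all_goals
      simp only [Int.cast_one, Int.cast_zero, Int.cast_neg, one_mul, zero_mul, add_zero, zero_add, neg_mul, mul_one, mul_zero, mul_neg] at d1 d2 d1' d2' h1 h2
      rw [abs_le] at d1 d2 d1' d2' h1 h2
      rcases abs_cases (c.re - c'.re) with ⟨e1, _⟩ | ⟨e1, _⟩ <;> rcases abs_cases (c.im - c'.im) with ⟨e2, _⟩ | ⟨e2, _⟩ <;> rw [e1, e2] at hsum <;> linarith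

/-! ## 5. FIT ⟹ ACC -/

section fit

variable {P : PvbRim} {z : ℂ} {t : ℕ → ℕ} {δ μ hh a b ρ d0 e0 d1 e1 : ℝ} {𝔑 : PvmnNum} {τ : PvmnType}

/-- a ray which keeps `190 δ` away from the vertices of a stretch of pieces misses the `60`-collars of their cells -/
theorem pvma_off (I : PvmfIn P z t μ hh a b ρ d0 e0 d1 e1) (N : PvmfNum δ μ hh a b ρ d0 e0 d1 e1 (δ * 𝔑.rB)) (F : PvmnFits τ δ (fun i => P.v i - z) (fun k => t k.1))
    {q u : ℤ × ℤ} {lo hi : ℕ} (hhi : hi ≤ 9) (hfar : ∀ l, t lo ≤ l → l ≤ t (hi + 1) → ∀ j : ℕ, 190 * δ < ‖(P.v l - z) - pvtCtr δ (q.1 + j * u.1, q.2 + j * u.2)‖)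
    {w : ℕ} (hw : w ≤ 60) : Disjoint (pvmaRay q u) (pvtwN w (pvmnCells τ lo hi)) := by
  rw [Set.disjoint_left]
  rintro c ⟨j, rfl⟩ hc
  obtain ⟨k, k1, k2, hk⟩ := pvmn_N_cells.1 hc
  rw [pvmf_C F k] at hk
  have C := I.cuts N
  obtain ⟨l, l1, l2, l3⟩ := I.idx N k.2 hk (pvt_sq_ctr N.δ_pos.le)
  have h1 := hfar l ((C.le k1 (by omega)).trans l1) (l2.trans (C.le (by omega) (by omega))) j
  have h2 : (w : ℝ) ≤ 60 := by exact_mod_cast hw
  have := N.δ_pos; have := N.μ_le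
  nlinarith

/-- **FIT ⟹ ACC** -/
theorem pvma_acc (I : PvmfIn P z t μ hh a b ρ d0 e0 d1 e1) (N : PvmfNum δ μ hh a b ρ d0 e0 d1 e1 (δ * 𝔑.rB)) (F : PvmnFits τ δ (fun i => P.v i - z) (fun k => t k.1)) :
    PvmaHasAcc 𝔑 τ := by
  have hδ := N.δ_pos
  have C := I.cuts N
  have hμ := N.μ_nn
  have hμδ := N.μ_le
  have hd1 : 600 * δ ≤ d1 := by have := N.d0_ge; have := N.d0_le; have := N.e0_le; linarith
  have hb : d1 + μ < b := by have := N.e1_lt; have := N.d1_le; have := N.hh_nn; linarith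
  have M5 := I.marks 5 (by norm_num) le_rfl
  have M4 := I.marks 4 (by norm_num) (by norm_num)
  have e10 : t (5 + 5) = t 10 := rfl
  have e0' : t (5 - 5) = t 0 := rfl
  have e9 : t (5 + 4) = t 9 := rfl
  have e1' : t (5 - 4) = t 1 := rfl
  rw [e10, e0'] at M5
  rw [e9, e1'] at M4
  have hTp : P.v (t 10) - z ∈ pvtSq δ (τ.q 10) := F.marks 10
  have hTm : P.v (t 0) - z ∈ pvtSq δ (τ.q 0) := F.marks 0
  have rp1 : 6 * b ≤ ‖P.v (t 10) - z‖ := by have := M5.mp_far; push_cast at this; linarith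
  have rm1 : 6 * b ≤ ‖P.v (t 0) - z‖ := by have := M5.mm_far; push_cast at this; linarith
  have disc : ∀ l, t 0 ≤ l → l ≤ t 10 → ‖P.v l - z‖ ≤ 6 * b + μ := fun l l1 l2 => by
    have := M5.K_rad (I.near_lt N 5 (by norm_num)) (N.rad_le 5 le_rfl) hμ I.mesh l1 l2
    push_cast at this
    linarith
  have disc4 : ∀ l, t 1 ≤ l → l ≤ t 9 → ‖P.v l - z‖ ≤ 5 * b + μ := fun l l1 l2 => by
    have := M4.K_rad (I.near_lt N 4 (by norm_num)) (N.rad_le 4 (by norm_num)) hμ I.mesh l1 l2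
    push_cast at this
    linarith
  have farP : ∀ l, t 0 ≤ l → l ≤ t 9 → 599 * δ ≤ ‖(P.v l - z) - (P.v (t 10) - z)‖ := fun l l1 l2 => by
    rw [pvmf_sub]
    rcases Nat.le_total l (t 8) with h | h
    · have := C.stretch_ge I.nr1 (a := 0) (b := 8) (by norm_num) l1 h (Nat.zero_le _) (C.le (i := 9) (j := 10) (by norm_num) le_rfl) C.le_len
      linarith
    · have h1 := disc4 l ((C.le (i := 1) (j := 8) (by norm_num) (by norm_num)).trans h) l2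
      have h2 := pvmf_rtri (P.v l) (P.v (t 10)) z
      linarith
  have farM : ∀ l, t 1 ≤ l → l ≤ t 10 → 599 * δ ≤ ‖(P.v l - z) - (P.v (t 0) - z)‖ := fun l l1 l2 => by
    rw [pvmf_sub]
    rcases Nat.le_total (t 2) l with h | h
    · have := C.stretch_le I.nr1 (a := 2) (b := 10) (by norm_num) le_rfl h l2 (by norm_num) (C.le (i := 0) (j := 1) (by norm_num) (by norm_num))
      rw [norm_sub_rev] at this
      linarith
    · have h1 := disc4 l l1 (h.trans (C.le (i := 2) (j := 9) (by norm_num) (by norm_num)))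
      have h2 := pvmf_rtri (P.v l) (P.v (t 0)) z
      linarith
  obtain ⟨ap, hap, dap⟩ := pvma_dom_exists (pvtCtr δ (τ.q 10)).re (pvtCtr δ (τ.q 10)).im
  obtain ⟨am, ham, dam⟩ := pvma_dom_exists (pvtCtr δ (τ.q 0)).re (pvtCtr δ (τ.q 0)).im
  -- the rays and the vertices
  have RP : ∀ l, t 0 ≤ l → l ≤ t (8 + 1) → ∀ j : ℕ, 190 * δ < ‖(P.v l - z) - pvtCtr δ ((τ.q 10).1 + j * ap.1, (τ.q 10).2 + j * ap.2)‖ := fun l l1 l2 j =>
    pvma_ray_far hδ hTp hap dap (Rm := 6 * b + μ) (by linarith) (disc l l1 (l2.trans (C.le (i := 9) (j := 10) (by norm_num) le_rfl))) (farP l l1 l2) j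
  have RM : ∀ l, t 1 ≤ l → l ≤ t (9 + 1) → ∀ j : ℕ, 190 * δ < ‖(P.v l - z) - pvtCtr δ ((τ.q 0).1 + j * am.1, (τ.q 0).2 + j * am.2)‖ := fun l l1 l2 j =>
    pvma_ray_far hδ hTm ham dam (Rm := 6 * b + μ) (by linarith) (disc l ((C.le (i := 0) (j := 1) (by norm_num) (by norm_num)).trans l1) l2) (farM l l1 l2) j
  have offP : ∀ w, w ≤ 60 → Disjoint (pvmaRay (τ.q 10) ap) (pvtwN w (pvmnCells τ 0 8)) := fun w hw => pvma_off I N F (by norm_num) RP hw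
  have offM : ∀ w, w ≤ 60 → Disjoint (pvmaRay (τ.q 0) am) (pvtwN w (pvmnCells τ 1 9)) := fun w hw => pvma_off I N F (by norm_num) RM hw
  -- the ball
  have ball : ∀ {T : ℂ} {q u : ℤ × ℤ}, T ∈ pvtSq δ q → PvmaDir u → PvmaDom u (pvtCtr δ q).re (pvtCtr δ q).im → 6 * b ≤ ‖T‖ → Disjoint (pvmaRay q u) (pvmnBl 𝔑.rB) := by
    intro T q u hT hu du hr
    rw [Set.disjoint_left]
    rintro c ⟨j, rfl⟩ hc
    rw [← pvmn_Bl_scale hδ] at hc
    obtain ⟨x, hx, hxB⟩ := hc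
    rw [mem_closedBall, dist_zero_right] at hxB
    have h1 := pvma_ray_norm hδ hT hu du j
    have h2 := pvma_sq_ctr hδ hx
    have h3 : ‖pvtCtr δ (q.1 + j * u.1, q.2 + j * u.2)‖ ≤ ‖x‖ + ‖x - pvtCtr δ (q.1 + j * u.1, q.2 + j * u.2)‖ := by
      have e : pvtCtr δ (q.1 + j * u.1, q.2 + j * u.2) = x - (x - pvtCtr δ (q.1 + j * u.1, q.2 + j * u.2)) := by ring
      calc ‖pvtCtr δ (q.1 + j * u.1, q.2 + j * u.2)‖ = ‖x - (x - pvtCtr δ (q.1 + j * u.1, q.2 + j * u.2))‖ := by rw [← e]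
        _ ≤ _ := norm_sub_le _ _
    have := N.RB_lt; have := N.a_le; have := N.b_pos
    linarith
  have body : ∀ {q u : ℤ × ℤ}, Disjoint (pvmaRay q u) (pvmnBl 𝔑.rB) → (∃ lo hi, lo ≤ 1 ∧ 8 ≤ hi ∧ Disjoint (pvmaRay q u) (pvtwN 30 (pvmnCells τ lo hi))) →
      Disjoint (pvmaRay q u) (pvmnBl 𝔑.rB ∪ pvtwN 6 (pvmnCells τ 4 5) ∪ pvtwN 8 (pvmnCells τ 1 8)) := by
    rintro q u h1 ⟨lo, hi, l1, l2, h2⟩
    refine Set.disjoint_union_right.2 ⟨Set.disjoint_union_right.2 ⟨h1, ?_⟩, ?_⟩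
    · exact h2.mono_right (pvtw_N_mono (by norm_num) (pvmn_cells_mono (by omega) (by omega)))
    · exact h2.mono_right (pvtw_N_mono (by norm_num) (pvmn_cells_mono (by omega) (by omega)))
  refine ⟨ap, am, hap, ham, body (ball hTp hap dap rp1) ⟨0, 8, by norm_num, le_rfl, offP 30 (by norm_num)⟩, body (ball hTm ham dam rm1) ⟨1, 9, le_rfl, by norm_num, offM 30 (by norm_num)⟩,
    offP 30 (by norm_num), offM 30 (by norm_num), ?_⟩
  -- separation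
  rw [pvtw_N_union, pvtw_N_union, Set.disjoint_left]
  have swap : ∀ {E : Set (ℤ × ℤ)} {q u c : ℤ × ℤ}, c ∈ pvtwN 30 (pvmaRay q u) → c ∈ pvtwN 30 E → ∃ r ∈ pvmaRay q u, r ∈ pvtwN 60 E := by
    intro E q u c h1 h2
    obtain ⟨r, hr, hc⟩ := pvtw_N_iff.1 h1
    refine ⟨r, hr, ?_⟩
    have : r ∈ pvtwN 30 (pvtwN 30 E) := pvtw_N_iff.2 ⟨c, h2, pvtw_N_symm hc⟩
    rwa [pvtw_N_add] at this
  rintro c (hc | hc) (hc' | hc')
  · -- ray, ray
    obtain ⟨r, ⟨j, rfl⟩, x1, x2, x3, x4⟩ := hc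
    obtain ⟨r', ⟨j', rfl⟩, y1, y2, y3, y4⟩ := hc'
    simp only at x1 x2 x3 x4 y1 y2 y3 y4
    have hcp := pvma_sq_ctr hδ hTp
    have hcm := pvma_sq_ctr hδ hTm
    have up := I.up_rad N 5 (by norm_num) le_rfl
    have dn := I.dn_rad N 5 (by norm_num) le_rfl
    rw [e10] at up
    rw [e0'] at dn
    push_cast at up dn
    have nP1 := pvmf_rtri (P.v (t 10) - z) (pvtCtr δ (τ.q 10)) 0
    have nP2 := pvmf_rtri (pvtCtr δ (τ.q 10)) (P.v (t 10) - z) 0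
    have nM1 := pvmf_rtri (P.v (t 0) - z) (pvtCtr δ (τ.q 0)) 0
    have nM2 := pvmf_rtri (pvtCtr δ (τ.q 0)) (P.v (t 0) - z) 0
    simp only [sub_zero] at nP1 nP2 nM1 nM2
    rw [norm_sub_rev (pvtCtr δ (τ.q 10)) (P.v (t 10) - z)] at nP2
    rw [norm_sub_rev (pvtCtr δ (τ.q 0)) (P.v (t 0) - z)] at nM2
    have hsep : d1 < ‖P.v (t 0) - P.v (t 10)‖ := I.marks_sep N (by norm_num) le_rfl
    have hsep2 : ‖P.v (t 0) - P.v (t 10)‖ ≤ ‖pvtCtr δ (τ.q 10) - pvtCtr δ (τ.q 0)‖ + ‖(P.v (t 10) - z) - pvtCtr δ (τ.q 10)‖ + ‖(P.v (t 0) - z) - pvtCtr δ (τ.q 0)‖ := by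
      have e : P.v (t 0) - P.v (t 10) = -(pvtCtr δ (τ.q 10) - pvtCtr δ (τ.q 0)) - ((P.v (t 10) - z) - pvtCtr δ (τ.q 10)) + ((P.v (t 0) - z) - pvtCtr δ (τ.q 0)) := by ring
      rw [e]
      refine (norm_add_le _ _).trans (add_le_add_left ((norm_sub_le _ _).trans ?_) _)
      rw [norm_neg]
    refine pvma_ray_ray hδ hap ham dap dam (s := (j : ℝ) * δ) (s' := (j' : ℝ) * δ) (abs_le.2 ⟨by linarith, by linarith⟩) (by linarith) (by positivity) (by positivity) ?_ ?_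
    · have a1 : ((τ.q 10).1 + (j : ℤ) * ap.1 : ℤ) - ((τ.q 0).1 + (j' : ℤ) * am.1) ≤ 60 := by omega
      have a2 : -60 ≤ ((τ.q 10).1 + (j : ℤ) * ap.1 : ℤ) - ((τ.q 0).1 + (j' : ℤ) * am.1) := by omega
      have b1 : (((τ.q 10).1 : ℝ) + (j : ℝ) * ap.1) - (((τ.q 0).1 : ℝ) + (j' : ℝ) * am.1) ≤ 60 := by exact_mod_cast a1
      have b2 : -60 ≤ (((τ.q 10).1 : ℝ) + (j : ℝ) * ap.1) - (((τ.q 0).1 : ℝ) + (j' : ℝ) * am.1) := by exact_mod_cast a2
      simp only [pvtCtr]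
      rw [abs_le]
      constructor <;> nlinarith
    · have a1 : ((τ.q 10).2 + (j : ℤ) * ap.2 : ℤ) - ((τ.q 0).2 + (j' : ℤ) * am.2) ≤ 60 := by omega
      have a2 : -60 ≤ ((τ.q 10).2 + (j : ℤ) * ap.2 : ℤ) - ((τ.q 0).2 + (j' : ℤ) * am.2) := by omega
      have b1 : (((τ.q 10).2 : ℝ) + (j : ℝ) * ap.2) - (((τ.q 0).2 : ℝ) + (j' : ℝ) * am.2) ≤ 60 := by exact_mod_cast a1
      have b2 : -60 ≤ (((τ.q 10).2 : ℝ) + (j : ℝ) * ap.2) - (((τ.q 0).2 : ℝ) + (j' : ℝ) * am.2) := by exact_mod_cast a2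
      simp only [pvtCtr]
      rw [abs_le]
      constructor <;> nlinarith
  · -- ray⁺, piece 0
    obtain ⟨r, hr, hr'⟩ := swap hc hc'
    exact Set.disjoint_left.1 (offP 60 le_rfl) hr (pvtw_N_mono le_rfl (pvmn_C_sub 0 (Nat.zero_le _) (by norm_num)) hr')
  · -- piece 9, ray⁻
    obtain ⟨r, hr, hr'⟩ := swap hc' hc
    exact Set.disjoint_left.1 (offM 60 le_rfl) hr (pvtw_N_mono le_rfl (pvmn_C_sub 9 (by norm_num) le_rfl) hr')
  · -- piece 9, piece 0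
    rw [pvmf_C F 9] at hc
    rw [pvmf_C F 0] at hc'
    exact Set.disjoint_left.1 (I.T2 N (k := 0) (k' := 9) (w := 30) (w' := 30) (by norm_num) (by norm_num) (by push_cast; linarith)) hc' hc

end fit

end Claimed.Agent.R289
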