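-- KEEP
import Claimed.Agent.R291.Tool.TriSC
import Claimed.Agent.R291.Tool.TriSCLat
import Claimed.Agent.R291.Pl.Place
import Claimed.Agent.R291.Ann.Place

/-!
# Row 289 (S0537, Cardy for Poisson-Voronoi), box TR (T3) = POLYOMINO KIT, file Tr/Band      (helper20; prefix `pvtb_`)

SQUARE grid (the cell increments of N2 need the rotation by `i`), index of a square = point of `ℤ × ℤ`.
Three adjacencies on the same vertex set:  `pvtbG4` (common side)  ≤  `tscG` (common side or anti-diagonal corner; the triangular lattice of R291)  ≤  `pvtbG8` (closed squares meet).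

* `PvtbWC S`  WELL-COMPOSED: no 2 x 2 window meets `S` in exactly a diagonal pair.   Stable under complement, under `B \ A` with a collar, under components.
              On a well-composed set the three connectivities agree, so the whole kit of R291 on `tscG` (Timar, Hex, `TriSCOn`, hulls, strips) applies verbatim.
* `pvtbD k r F`  refinement + fattening: union of the `(2r+1)`-squares of fine cells centred at `k • p`, `p ∈ F`.   ALWAYS well-composed if `k ∤ 2r+1`.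
* `PvtbCor n c`  rectilinear corridor `c 0, …, c n` WITHOUT NEAR RETURN: consecutive cells share a side, `c i`, `c j` do not even touch for `|i-j| ≥ 3`, no backtrack.
              EXISTENCE = geodesics of well-composed sets (`pvtb_cor_exists`).   Each inner cell is straight / left / right (`pvtb_cor_turn`).
              The cells of a corridor form a well-composed, connected, `TriSCOn` set with connected complement.
-/

set_option autoImplicit false

namespace Claimed.Agent.R289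

open Relation Claims.C0467 Claimed.Agent.R291

/-! ### 1. the three adjacencies -/

/-- squares with a common side -/
def pvtbG4 : SimpleGraph (ℤ × ℤ) where
  Adj u v := (v.1 = u.1 + 1 ∧ v.2 = u.2) ∨ (v.1 = u.1 - 1 ∧ v.2 = u.2) ∨ (v.1 = u.1 ∧ v.2 = u.2 + 1) ∨ (v.1 = u.1 ∧ v.2 = u.2 - 1)
  symm := ⟨by
    intro u v h
    omega⟩
  loopless := ⟨by
    intro u h
    omega⟩

/-- distinct closed squares which meet -/
def pvtbG8 : SimpleGraph (ℤ × ℤ) where
  Adj u v := u ≠ v ∧ v.1 ≤ u.1 + 1 ∧ u.1 ≤ v.1 + 1 ∧ v.2 ≤ u.2 + 1 ∧ u.2 ≤ v.2 + 1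
  symm := ⟨by
    intro u v h
    exact ⟨h.1.symm, h.2.2.1, h.2.1, h.2.2.2.2, h.2.2.2.1⟩⟩
  loopless := ⟨by
    intro u h
    exact h.1 rfl⟩

theorem pvtb_G4_adj (u v : ℤ × ℤ) : pvtbG4.Adj u v ↔
    (v.1 = u.1 + 1 ∧ v.2 = u.2) ∨ (v.1 = u.1 - 1 ∧ v.2 = u.2) ∨ (v.1 = u.1 ∧ v.2 = u.2 + 1) ∨ (v.1 = u.1 ∧ v.2 = u.2 - 1) := Iff.rfl

theorem pvtb_G8_adj (u v : ℤ × ℤ) : pvtbG8.Adj u v ↔ u ≠ v ∧ v.1 ≤ u.1 + 1 ∧ u.1 ≤ v.1 + 1 ∧ v.2 ≤ u.2 + 1 ∧ u.2 ≤ v.2 + 1 := Iff.rfl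

theorem pvtb_G4_tri {u v : ℤ × ℤ} (h : pvtbG4.Adj u v) : tscG.Adj u v := by
  rw [tsc_G_adj, tsc_adj_iff]
  rw [pvtb_G4_adj] at h
  omega

theorem pvtb_tri_G8 {u v : ℤ × ℤ} (h : tscG.Adj u v) : pvtbG8.Adj u v := by
  rw [tsc_G_adj, tsc_adj_iff] at h
  rw [pvtb_G8_adj]
  refine ⟨fun e => ?_, ?_⟩
  · subst e
    omega
  · omega

theorem pvtb_G4_G8 {u v : ℤ × ℤ} (h : pvtbG4.Adj u v) : pvtbG8.Adj u v := pvtb_tri_G8 (pvtb_G4_tri h)

/-- change of graph in `TscR` -/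
theorem pvtb_R_le {G G' : SimpleGraph (ℤ × ℤ)} (hG : ∀ u v, G.Adj u v → G'.Adj u v) {S : Set (ℤ × ℤ)} {a b : ℤ × ℤ} (h : TscR G S a b) :
    TscR G' S a b := by
  induction h with
  | refl => exact ReflTransGen.refl
  | tail _ h2 ih => exact ReflTransGen.tail ih ⟨hG _ _ h2.1, h2.2.1, h2.2.2⟩

theorem pvtb_G8_of (a b c d : ℤ) (h : a ≠ c ∨ b ≠ d) (h1 : c ≤ a + 1) (h2 : a ≤ c + 1) (h3 : d ≤ b + 1) (h4 : b ≤ d + 1) : pvtbG8.Adj (a, b) (c, d) := by
  refine ⟨fun e => ?_, h1, h2, h3, h4⟩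
  rw [Prod.ext_iff] at e
  simp only at e
  omega

theorem pvtb_G4_of (a b c d : ℤ) (h : (c = a + 1 ∧ d = b) ∨ (c = a - 1 ∧ d = b) ∨ (c = a ∧ d = b + 1) ∨ (c = a ∧ d = b - 1)) : pvtbG4.Adj (a, b) (c, d) := h

theorem pvtb_R_hline {s : Set (ℤ × ℤ)} (x y : ℤ) (k : ℕ) (h : ∀ j : ℕ, j ≤ k → (x + j, y) ∈ s) : TscR pvtbG4 s (x, y) (x + k, y) := by
  induction k with
  | zero => simp only [Nat.cast_zero, add_zero]; exact tsc_R_refl _
  | succ k ih =>
    refine (ih (fun j hj => h j (by omega))).tail ⟨pvtb_G4_of _ _ _ _ (by push_cast; omega), h k (by omega), h (k + 1) le_rfl⟩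

theorem pvtb_R_vline {s : Set (ℤ × ℤ)} (x y : ℤ) (k : ℕ) (h : ∀ j : ℕ, j ≤ k → (x, y + j) ∈ s) : TscR pvtbG4 s (x, y) (x, y + k) := by
  induction k with
  | zero => simp only [Nat.cast_zero, add_zero]; exact tsc_R_refl _
  | succ k ih =>
    refine (ih (fun j hj => h j (by omega))).tail ⟨pvtb_G4_of _ _ _ _ (by push_cast; omega), h k (by omega), h (k + 1) le_rfl⟩

/-- horizontal segment -/
theorem pvtb_R_hseg {s : Set (ℤ × ℤ)} {x x' y : ℤ} (h : ∀ z, min x x' ≤ z → z ≤ max x x' → (z, y) ∈ s) : TscR pvtbG4 s (x, y) (x', y) := by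
  rcases le_total x x' with hx | hx
  · have := pvtb_R_hline (s := s) x y (x' - x).toNat (fun j hj => h _ (by rw [min_eq_left hx]; omega) (by rw [max_eq_right hx]; omega))
    rwa [Int.toNat_of_nonneg (by omega), add_sub_cancel] at this
  · have := pvtb_R_hline (s := s) x' y (x - x').toNat (fun j hj => h _ (by rw [min_eq_right hx]; omega) (by rw [max_eq_left hx]; omega))
    rw [Int.toNat_of_nonneg (by omega), add_sub_cancel] at this
    exact tsc_R_symm this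

/-- vertical segment -/
theorem pvtb_R_vseg {s : Set (ℤ × ℤ)} {x y y' : ℤ} (h : ∀ z, min y y' ≤ z → z ≤ max y y' → (x, z) ∈ s) : TscR pvtbG4 s (x, y) (x, y') := by
  rcases le_total y y' with hx | hx
  · have := pvtb_R_vline (s := s) x y (y' - y).toNat (fun j hj => h _ (by rw [min_eq_left hx]; omega) (by rw [max_eq_right hx]; omega))
    rwa [Int.toNat_of_nonneg (by omega), add_sub_cancel] at this
  · have := pvtb_R_vline (s := s) x y' (y - y').toNat (fun j hj => h _ (by rw [min_eq_right hx]; omega) (by rw [max_eq_left hx]; omega))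
    rw [Int.toNat_of_nonneg (by omega), add_sub_cancel] at this
    exact tsc_R_symm this

/-- boxes are 4-connected -/
theorem pvtb_box_conn (a b c d : ℤ) : TscConn pvtbG4 (tscBox a b c d) := by
  rintro ⟨u1, u2⟩ ⟨hu1, hu2, hu3, hu4⟩ ⟨v1, v2⟩ ⟨hv1, hv2, hv3, hv4⟩
  simp only at hu1 hu2 hu3 hu4 hv1 hv2 hv3 hv4
  refine tsc_R_trans (pvtb_R_hseg (x' := v1) (fun z h1 h2 => ⟨?_, ?_, hu3, hu4⟩)) (pvtb_R_vseg (fun z h1 h2 => ⟨hv1, hv2, ?_, ?_⟩))
  all_goals simp only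
  all_goals omega

/-! ### 2. well-composed sets -/

/-- no 2 x 2 window meets `S` in exactly a diagonal pair -/
def PvtbWC (S : Set (ℤ × ℤ)) : Prop :=
  ∀ x y : ℤ, ((x, y) ∈ S → (x + 1, y + 1) ∈ S → (x + 1, y) ∈ S ∨ (x, y + 1) ∈ S) ∧
    ((x + 1, y) ∈ S → (x, y + 1) ∈ S → (x, y) ∈ S ∨ (x + 1, y + 1) ∈ S)

theorem pvtb_wc_compl {S : Set (ℤ × ℤ)} (h : PvtbWC S) : PvtbWC Sᶜ := by
  intro x y
  have h1 := (h x y).1
  have h2 := (h x y).2
  simp only [Set.mem_compl_iff]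
  constructor
  · intro a b
    by_contra hc
    push Not at hc
    rcases h2 hc.1 hc.2 with e | e
    · exact a e
    · exact b e
  · intro a b
    by_contra hc
    push Not at hc
    rcases h1 hc.1 hc.2 with e | e
    · exact a e
    · exact b e

theorem pvtb_wc_univ : PvtbWC Set.univ := fun _ _ => ⟨fun _ _ => Or.inl trivial, fun _ _ => Or.inl trivial⟩

theorem pvtb_wc_empty : PvtbWC ∅ := fun _ _ => ⟨fun h _ => h.elim, fun h _ => h.elim⟩

theorem pvtq_a8 {a b c d : ℤ} (hne : a ≠ c ∨ b ≠ d) (h : c ≤ a + 1 ∧ a ≤ c + 1 ∧ d ≤ b + 1 ∧ b ≤ d + 1) : pvtbG8.Adj (a, b) (c, d) := by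
  refine ⟨fun e => ?_, h⟩
  have e1 := congrArg Prod.fst e
  have e2 := congrArg Prod.snd e
  dsimp only at e1 e2
  omega

/-- `B \ A` is well-composed when the collar of `A` lies in `B` -/
theorem pvtb_wc_diff {A B : Set (ℤ × ℤ)} (hA : PvtbWC A) (hB : PvtbWC B) (hc : ∀ a ∈ A, ∀ v, pvtbG8.Adj a v → v ∈ B) : PvtbWC (B \ A) := by
  intro x y
  have a1 := (hA x y).1
  have a2 := (hA x y).2
  have b1 := (hB x y).1
  have b2 := (hB x y).2
  have c1 : (x + 1, y) ∈ A → (x, y + 1) ∈ B := fun h => hc _ h _ (pvtq_a8 (by omega) (by omega))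
  have c2 : (x, y + 1) ∈ A → (x + 1, y) ∈ B := fun h => hc _ h _ (pvtq_a8 (by omega) (by omega))
  have c3 : (x, y) ∈ A → (x + 1, y + 1) ∈ B := fun h => hc _ h _ (pvtq_a8 (by omega) (by omega))
  have c4 : (x + 1, y + 1) ∈ A → (x, y) ∈ B := fun h => hc _ h _ (pvtq_a8 (by omega) (by omega))
  constructor
  · rintro ⟨hb0, ha0⟩ ⟨hb3, ha3⟩
    by_cases k1 : (x + 1, y) ∈ A
    · have hB2 := c1 k1
      by_cases k2 : (x, y + 1) ∈ A
      · rcases a2 k1 k2 with e | e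
        · exact absurd e ha0
        · exact absurd e ha3
      · exact Or.inr ⟨hB2, k2⟩
    · by_cases k2 : (x, y + 1) ∈ A
      · exact Or.inl ⟨c2 k2, k1⟩
      · rcases b1 hb0 hb3 with e | e
        · exact Or.inl ⟨e, k1⟩
        · exact Or.inr ⟨e, k2⟩
  · rintro ⟨hb1, ha1⟩ ⟨hb2, ha2⟩
    by_cases k0 : (x, y) ∈ A
    · have hB3 := c3 k0
      by_cases k3 : (x + 1, y + 1) ∈ A
      · rcases a1 k0 k3 with e | e
        · exact absurd e ha1
        · exact absurd e ha2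
      · exact Or.inr ⟨hB3, k3⟩
    · by_cases k3 : (x + 1, y + 1) ∈ A
      · exact Or.inl ⟨c4 k3, k0⟩
      · rcases b2 hb1 hb2 with e | e
        · exact Or.inl ⟨e, k0⟩
        · exact Or.inr ⟨e, k3⟩

/-- union of two well-composed sets which do not touch outside their intersection -/
theorem pvtb_wc_union {A B : Set (ℤ × ℤ)} (hA : PvtbWC A) (hB : PvtbWC B) (hc : ∀ a ∈ A, ∀ b ∈ B, pvtbG8.Adj a b → a ∈ B ∨ b ∈ A) : PvtbWC (A ∪ B) := by
  intro x y
  have a1 := (hA x y).1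
  have a2 := (hA x y).2
  have b1 := (hB x y).1
  have b2 := (hB x y).2
  have c1 : (x + 1, y) ∈ A → (x, y + 1) ∈ B → (x + 1, y) ∈ B ∨ (x, y + 1) ∈ A := fun h h' => hc _ h _ h' (pvtq_a8 (by omega) (by omega))
  have c2 : (x, y + 1) ∈ A → (x + 1, y) ∈ B → (x, y + 1) ∈ B ∨ (x + 1, y) ∈ A := fun h h' => hc _ h _ h' (pvtq_a8 (by omega) (by omega))
  have c3 : (x, y) ∈ A → (x + 1, y + 1) ∈ B → (x, y) ∈ B ∨ (x + 1, y + 1) ∈ A := fun h h' => hc _ h _ h' (pvtq_a8 (by omega) (by omega))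
  have c4 : (x + 1, y + 1) ∈ A → (x, y) ∈ B → (x + 1, y + 1) ∈ B ∨ (x, y) ∈ A := fun h h' => hc _ h _ h' (pvtq_a8 (by omega) (by omega))
  constructor
  · rintro (h0 | h0) (h3 | h3)
    · exact (a1 h0 h3).imp Or.inl Or.inl
    · rcases c3 h0 h3 with e | e
      · exact (b1 e h3).imp Or.inr Or.inr
      · exact (a1 h0 e).imp Or.inl Or.inl
    · rcases c4 h3 h0 with e | e
      · exact (b1 h0 e).imp Or.inr Or.inr
      · exact (a1 e h3).imp Or.inl Or.inl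
    · exact (b1 h0 h3).imp Or.inr Or.inr
  · rintro (h1 | h1) (h2 | h2)
    · exact (a2 h1 h2).imp Or.inl Or.inl
    · rcases c1 h1 h2 with e | e
      · exact (b2 e h2).imp Or.inr Or.inr
      · exact (a2 h1 e).imp Or.inl Or.inl
    · rcases c2 h2 h1 with e | e
      · exact (b2 h1 e).imp Or.inr Or.inr
      · exact (a2 e h2).imp Or.inl Or.inl
    · exact (b2 h1 h2).imp Or.inr Or.inr

theorem pvtq_a4 {a b c d : ℤ} (h : (c = a + 1 ∧ d = b) ∨ (c = a - 1 ∧ d = b) ∨ (c = a ∧ d = b + 1) ∨ (c = a ∧ d = b - 1)) : pvtbG4.Adj (a, b) (c, d) := h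

/-- an 8-step inside a well-composed set is made of at most two 4-steps -/
theorem pvtb_wc_step {S : Set (ℤ × ℤ)} (h : PvtbWC S) {u v : ℤ × ℤ} (hu : u ∈ S) (hv : v ∈ S) (huv : pvtbG8.Adj u v) :
    pvtbG4.Adj u v ∨ ∃ m ∈ S, pvtbG4.Adj u m ∧ pvtbG4.Adj m v := by
  obtain ⟨u1, u2⟩ := u
  obtain ⟨v1, v2⟩ := v
  obtain ⟨hne, k1, k2, k3, k4⟩ := huv
  dsimp only at k1 k2 k3 k4
  have hne' : u1 ≠ v1 ∨ u2 ≠ v2 := by
    by_contra hc
    push Not at hc
    exact hne (by rw [hc.1, hc.2])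
  have e1 : v1 = u1 + 1 ∨ v1 = u1 ∨ u1 = v1 + 1 := by omega
  have e2 : v2 = u2 + 1 ∨ v2 = u2 ∨ u2 = v2 + 1 := by omega
  rcases e1 with rfl | rfl | rfl <;> rcases e2 with rfl | rfl | rfl
  · right
    rcases (h u1 u2).1 hu hv with hm | hm
    · exact ⟨_, hm, pvtq_a4 (by omega), pvtq_a4 (by omega)⟩
    · exact ⟨_, hm, pvtq_a4 (by omega), pvtq_a4 (by omega)⟩
  · exact Or.inl (pvtq_a4 (by omega))
  · right
    rcases (h u1 v2).2 hv hu with hm | hm
    · exact ⟨_, hm, pvtq_a4 (by omega), pvtq_a4 (by omega)⟩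
    · exact ⟨_, hm, pvtq_a4 (by omega), pvtq_a4 (by omega)⟩
  · exact Or.inl (pvtq_a4 (by omega))
  · omega
  · exact Or.inl (pvtq_a4 (by omega))
  · right
    rcases (h v1 u2).2 hu hv with hm | hm
    · exact ⟨_, hm, pvtq_a4 (by omega), pvtq_a4 (by omega)⟩
    · exact ⟨_, hm, pvtq_a4 (by omega), pvtq_a4 (by omega)⟩
  · exact Or.inl (pvtq_a4 (by omega))
  · right
    rcases (h v1 v2).1 hv hu with hm | hm
    · exact ⟨_, hm, pvtq_a4 (by omega), pvtq_a4 (by omega)⟩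
    · exact ⟨_, hm, pvtq_a4 (by omega), pvtq_a4 (by omega)⟩

theorem pvtb_wc_R {S : Set (ℤ × ℤ)} (h : PvtbWC S) {a b : ℤ × ℤ} (hab : TscR pvtbG8 S a b) : TscR pvtbG4 S a b := by
  induction hab with
  | refl => exact ReflTransGen.refl
  | tail _ h2 ih =>
    rcases pvtb_wc_step h h2.2.1 h2.2.2 h2.1 with h4 | ⟨m, hm, h5, h6⟩
    · exact ih.tail ⟨h4, h2.2.1, h2.2.2⟩
    · exact (ih.tail ⟨h5, h2.2.1, hm⟩).tail ⟨h6, hm, h2.2.2⟩

theorem pvtb_wc_R_tri {S : Set (ℤ × ℤ)} (h : PvtbWC S) {a b : ℤ × ℤ} : TscR tscG S a b ↔ TscR pvtbG4 S a b :=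
  ⟨fun hab => pvtb_wc_R h (pvtb_R_le (fun _ _ => pvtb_tri_G8) hab), fun hab => pvtb_R_le (fun _ _ => pvtb_G4_tri) hab⟩

theorem pvtb_wc_R_8 {S : Set (ℤ × ℤ)} (h : PvtbWC S) {a b : ℤ × ℤ} : TscR tscG S a b ↔ TscR pvtbG8 S a b :=
  ⟨fun hab => pvtb_R_le (fun _ _ => pvtb_tri_G8) hab, fun hab => (pvtb_wc_R_tri h).2 (pvtb_wc_R h hab)⟩

theorem pvtb_wc_conn {S : Set (ℤ × ℤ)} (h : PvtbWC S) : TscConn tscG S ↔ TscConn pvtbG4 S :=
  ⟨fun hc u hu v hv => (pvtb_wc_R_tri h).1 (hc u hu v hv), fun hc u hu v hv => (pvtb_wc_R_tri h).2 (hc u hu v hv)⟩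

theorem pvtb_wc_conn8 {S : Set (ℤ × ℤ)} (h : PvtbWC S) : TscConn tscG S ↔ TscConn pvtbG8 S :=
  ⟨fun hc u hu v hv => (pvtb_wc_R_8 h).1 (hc u hu v hv), fun hc u hu v hv => (pvtb_wc_R_8 h).2 (hc u hu v hv)⟩

theorem pvtb_wc_comp_eq {S : Set (ℤ × ℤ)} (h : PvtbWC S) (x : ℤ × ℤ) : tscComp pvtbG4 S x = tscComp tscG S x ∧ tscComp pvtbG8 S x = tscComp tscG S x := by
  constructor
  · ext v
    exact ⟨fun hv => ⟨hv.1, (pvtb_wc_R_tri h).2 hv.2⟩, fun hv => ⟨hv.1, (pvtb_wc_R_tri h).1 hv.2⟩⟩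
  · ext v
    exact ⟨fun hv => ⟨hv.1, (pvtb_wc_R_8 h).2 hv.2⟩, fun hv => ⟨hv.1, (pvtb_wc_R_8 h).1 hv.2⟩⟩

theorem pvtq_comp_far {S : Set (ℤ × ℤ)} (h : PvtbWC S) (x : ℤ × ℤ) {u v : ℤ × ℤ} (hu : u ∈ tscComp tscG S x) (hv : v ∈ S) (huv : pvtbG8.Adj u v) :
    v ∈ tscComp tscG S x :=
  ⟨hv, ReflTransGen.trans hu.2 ((pvtb_wc_R_8 h).2 (ReflTransGen.single ⟨huv, hu.1, hv⟩))⟩

/-- the components of a well-composed set are well-composed, and two distinct components do not touch -/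
theorem pvtb_wc_comp {S : Set (ℤ × ℤ)} (h : PvtbWC S) (x : ℤ × ℤ) : PvtbWC (tscComp tscG S x) := by
  intro a b
  constructor
  · intro h1 h2
    rcases (h a b).1 h1.1 h2.1 with hm | hm
    · exact Or.inl (pvtq_comp_far h x h1 hm (pvtq_a8 (by omega) (by omega)))
    · exact Or.inr (pvtq_comp_far h x h1 hm (pvtq_a8 (by omega) (by omega)))
  · intro h1 h2
    rcases (h a b).2 h1.1 h2.1 with hm | hm
    · exact Or.inl (pvtq_comp_far h x h1 hm (pvtq_a8 (by omega) (by omega)))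
    · exact Or.inr (pvtq_comp_far h x h1 hm (pvtq_a8 (by omega) (by omega)))

theorem pvtb_wc_comp_far {S : Set (ℤ × ℤ)} (h : PvtbWC S) (x : ℤ × ℤ) {u v : ℤ × ℤ} (hu : u ∈ tscComp tscG S x) (hv : v ∈ S) (huv : pvtbG8.Adj u v) :
    v ∈ tscComp tscG S x :=
  pvtq_comp_far h x hu hv huv

/-! ### 3. refinement + fattening always gives well-composed sets -/

/-- union of the `(2r+1)`-squares of fine cells centred at `k • p`, `p ∈ F`.
`k = 2m+1`, `r = m`: the plain refinement;  `r = m + j`: fattened by `j` fine cells. -/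
def pvtbD (k r : ℤ) (F : Set (ℤ × ℤ)) : Set (ℤ × ℤ) :=
  {v | ∃ p ∈ F, k * p.1 - r ≤ v.1 ∧ v.1 ≤ k * p.1 + r ∧ k * p.2 - r ≤ v.2 ∧ v.2 ≤ k * p.2 + r}

theorem pvtb_D_mono {k r r' : ℤ} {F F' : Set (ℤ × ℤ)} (hr : r ≤ r') (hF : F ⊆ F') : pvtbD k r F ⊆ pvtbD k r' F' := by
  rintro v ⟨p, hp, h⟩
  exact ⟨p, hF hp, by omega⟩

theorem pvtb_D_union (k r : ℤ) (F F' : Set (ℤ × ℤ)) : pvtbD k r (F ∪ F') = pvtbD k r F ∪ pvtbD k r F' := by
  ext v
  constructor
  · rintro ⟨p, hp | hp, h⟩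
    · exact Or.inl ⟨p, hp, h⟩
    · exact Or.inr ⟨p, hp, h⟩
  · rintro (⟨p, hp, h⟩ | ⟨p, hp, h⟩)
    · exact ⟨p, Or.inl hp, h⟩
    · exact ⟨p, Or.inr hp, h⟩

/-- **refinement makes well-composed** -/
theorem pvtb_wc_D {k r : ℤ} (h : ¬ k ∣ 2 * r + 1) (F : Set (ℤ × ℤ)) : PvtbWC (pvtbD k r F) := by
  intro x y
  constructor
  · rintro ⟨p, hp, h1, h2, h3, h4⟩ ⟨q, hq, g1, g2, g3, g4⟩
    simp only at h1 h2 h3 h4 g1 g2 g3 g4
    by_cases e1 : x + 1 ≤ k * p.1 + r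
    · exact Or.inl ⟨p, hp, by simp only; omega⟩
    · by_cases e2 : k * q.1 - r ≤ x
      · exact Or.inr ⟨q, hq, by simp only; omega⟩
      · exact (h ⟨q.1 - p.1, by rw [mul_sub]; omega⟩).elim
  · rintro ⟨p, hp, h1, h2, h3, h4⟩ ⟨q, hq, g1, g2, g3, g4⟩
    simp only at h1 h2 h3 h4 g1 g2 g3 g4
    by_cases e1 : k * p.1 - r ≤ x
    · exact Or.inl ⟨p, hp, by simp only; omega⟩
    · by_cases e2 : x + 1 ≤ k * q.1 + r
      · exact Or.inr ⟨q, hq, by simp only; omega⟩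
      · exact (h ⟨p.1 - q.1, by rw [mul_sub]; omega⟩).elim

/-- the collar of `D r` is `D (r+1)` -/
theorem pvtb_D_collar {k r : ℤ} {F : Set (ℤ × ℤ)} {v w : ℤ × ℤ} (hv : v ∈ pvtbD k r F) (h : pvtbG8.Adj v w) : w ∈ pvtbD k (r + 1) F := by
  obtain ⟨p, hp, h1, h2, h3, h4⟩ := hv
  obtain ⟨_, g1, g2, g3, g4⟩ := h
  exact ⟨p, hp, by omega⟩

theorem pvtb_D_collar_iff {k r : ℤ} (hr : 0 ≤ r) {F : Set (ℤ × ℤ)} (w : ℤ × ℤ) : w ∈ pvtbD k (r + 1) F ↔ w ∈ pvtbD k r F ∨ ∃ v ∈ pvtbD k r F, pvtbG8.Adj v w := by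
  constructor
  · rintro ⟨p, hp, h1, h2, h3, h4⟩
    by_cases hw : w ∈ pvtbD k r F
    · exact Or.inl hw
    · obtain ⟨a, b⟩ := w
      simp only at h1 h2 h3 h4
      have hv : (max (k * p.1 - r) (min a (k * p.1 + r)), max (k * p.2 - r) (min b (k * p.2 + r))) ∈ pvtbD k r F :=
        ⟨p, hp, by simp only; omega⟩
      refine Or.inr ⟨_, hv, pvtb_G8_of _ _ _ _ ?_ (by omega) (by omega) (by omega) (by omega)⟩
      by_contra hc
      push Not at hc
      rw [hc.1, hc.2] at hv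
      exact hw hv
  · rintro (hw | ⟨v, hv, hvw⟩)
    · exact pvtb_D_mono (by omega) (le_refl F) hw
    · exact pvtb_D_collar hv hvw

/-- the rings round `D r` are well-composed -/
theorem pvtb_wc_ring {k r r' : ℤ} (h : ¬ k ∣ 2 * r + 1) (h' : ¬ k ∣ 2 * r' + 1) (hrr : r < r') (F : Set (ℤ × ℤ)) :
    PvtbWC (pvtbD k r' F \ pvtbD k r F) :=
  pvtb_wc_diff (pvtb_wc_D h F) (pvtb_wc_D h' F) (fun _ ha _ hav => pvtb_D_mono (by omega) (le_refl F) (pvtb_D_collar ha hav))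

theorem pvtb_D_finite (k r : ℤ) {F : Set (ℤ × ℤ)} (hF : F.Finite) : (pvtbD k r F).Finite := by
  refine Set.Finite.subset (hF.biUnion (fun p _ => tsc_box_finite (k * p.1 - r) (k * p.1 + r) (k * p.2 - r) (k * p.2 + r))) ?_
  rintro v ⟨p, hp, h⟩
  exact Set.mem_biUnion hp h

/-- one square is a box -/
theorem pvtb_D_single (k r : ℤ) (p : ℤ × ℤ) : pvtbD k r {p} = tscBox (k * p.1 - r) (k * p.1 + r) (k * p.2 - r) (k * p.2 + r) := by
  ext v
  constructor
  · rintro ⟨q, rfl, h⟩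
    exact h
  · intro h
    exact ⟨p, rfl, h⟩

theorem pvtb_D_sq_sub {k r : ℤ} {F : Set (ℤ × ℤ)} {p : ℤ × ℤ} (hp : p ∈ F) : pvtbD k r {p} ⊆ pvtbD k r F :=
  pvtb_D_mono (le_refl r) (Set.singleton_subset_iff.2 hp)

/-- engine of the two connectivity statements: squares of neighbours touch -/
theorem pvtb_D_conn_gen {H : SimpleGraph (ℤ × ℤ)} {k r : ℤ} {F : Set (ℤ × ℤ)} (hF : TscConn H F)
    (ht : ∀ p q, H.Adj p q → ∃ w ∈ pvtbD k r {p}, ∃ w' ∈ pvtbD k r {q}, w = w' ∨ pvtbG4.Adj w w') : TscConn pvtbG4 (pvtbD k r F) := by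
  have sq : ∀ p ∈ F, ∀ u ∈ pvtbD k r {p}, ∀ v ∈ pvtbD k r {p}, TscR pvtbG4 (pvtbD k r F) u v := by
    intro p hp u hu v hv
    refine tsc_R_mono (pvtb_D_sq_sub hp) ?_
    rw [pvtb_D_single] at hu hv ⊢
    exact pvtb_box_conn _ _ _ _ u hu v hv
  rintro u ⟨p, hp, hu⟩ v ⟨q, hq, hv⟩
  have key : ∀ q', TscR H F p q' → q' ∈ F → ∀ v' ∈ pvtbD k r {q'}, TscR pvtbG4 (pvtbD k r F) u v' := by
    intro q' hpq
    induction hpq with
    | refl => exact fun _ v' hv' => sq p hp u ⟨p, rfl, hu⟩ v' hv'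
    | tail _ h2 ih =>
      intro hc v' hv'
      obtain ⟨w, hw, w', hw', e⟩ := ht _ _ h2.1
      have r1 := ih h2.2.1 w hw
      have r2 := sq _ hc w' hw' v' hv'
      rcases e with rfl | e
      · exact tsc_R_trans r1 r2
      · exact tsc_R_trans (r1.tail ⟨e, pvtb_D_sq_sub h2.2.1 hw, pvtb_D_sq_sub hc hw'⟩) r2
  exact key q (hF p hp q hq) hq v ⟨q, rfl, hv⟩

/-- an 8-connected set of coarse cells gives a 4-connected set of fine cells as soon as diagonal neighbours overlap -/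
theorem pvtb_D_conn {k r : ℤ} (hk : 0 ≤ k) (hr : k ≤ 2 * r) {F : Set (ℤ × ℤ)} (hF : TscConn pvtbG8 F) : TscConn pvtbG4 (pvtbD k r F) := by
  refine pvtb_D_conn_gen hF ?_
  rintro ⟨p1, p2⟩ ⟨q1, q2⟩ ⟨_, h1, h2, h3, h4⟩
  simp only at h1 h2 h3 h4
  have e1 : k * q1 = k * p1 + k * (q1 - p1) := by ring
  have e2 : k * q2 = k * p2 + k * (q2 - p2) := by ring
  have c1 : q1 - p1 = -1 ∨ q1 - p1 = 0 ∨ q1 - p1 = 1 := by omega
  have c2 : q2 - p2 = -1 ∨ q2 - p2 = 0 ∨ q2 - p2 = 1 := by omega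
  refine ⟨(max (k * p1 - r) (k * q1 - r), max (k * p2 - r) (k * q2 - r)), ⟨_, rfl, ?_⟩, _, ⟨_, rfl, ?_⟩, Or.inl rfl⟩
  · simp only
    rcases c1 with c | c | c <;> rcases c2 with c' | c' | c' <;> rw [c] at e1 <;> rw [c'] at e2 <;> omega
  · simp only
    rcases c1 with c | c | c <;> rcases c2 with c' | c' | c' <;> rw [c] at e1 <;> rw [c'] at e2 <;> omega

/-- coarse cells which do not touch stay apart: at least `2k - 2r - 1` free fine columns or rows between the two squares -/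
theorem pvtb_D_far {k r : ℤ} (hk : 0 ≤ k) {p q : ℤ × ℤ} (hpq : p ≠ q) (hn : ¬ pvtbG8.Adj p q) {u v : ℤ × ℤ} (hu : u ∈ pvtbD k r {p}) (hv : v ∈ pvtbD k r {q}) :
    2 * k - 2 * r ≤ |u.1 - v.1| ∨ 2 * k - 2 * r ≤ |u.2 - v.2| := by
  rw [pvtb_D_single] at hu hv
  obtain ⟨h1, h2, h3, h4⟩ := hu
  obtain ⟨g1, g2, g3, g4⟩ := hv
  have hc : p.1 + 2 ≤ q.1 ∨ q.1 + 2 ≤ p.1 ∨ p.2 + 2 ≤ q.2 ∨ q.2 + 2 ≤ p.2 := by
    by_contra hc
    exact hn ⟨hpq, by omega, by omega, by omega, by omega⟩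
  simp only [le_abs]
  rcases hc with c | c | c | c
  · have := mul_le_mul_of_nonneg_left c hk
    rw [mul_add] at this
    omega
  · have := mul_le_mul_of_nonneg_left c hk
    rw [mul_add] at this
    omega
  · have := mul_le_mul_of_nonneg_left c hk
    rw [mul_add] at this
    omega
  · have := mul_le_mul_of_nonneg_left c hk
    rw [mul_add] at this
    omega

/-- the coarse cell of a fine cell, `k = 2m+1` -/
def pvtbCo (m : ℤ) (v : ℤ × ℤ) : ℤ × ℤ := ((v.1 + m) / (2 * m + 1), (v.2 + m) / (2 * m + 1))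

theorem pvtb_div_spec {k a : ℤ} (hk : 0 < k) (p : ℤ) : a / k = p ↔ k * p ≤ a ∧ a < k * p + k := by
  constructor
  · rintro rfl
    have h1 := Int.emod_add_mul_ediv a k
    have h2 := Int.emod_nonneg a hk.ne'
    have h3 := Int.emod_lt_of_pos a hk
    constructor <;> omega
  · rintro ⟨h1, h2⟩
    apply le_antisymm
    · have : a / k < p + 1 := (Int.ediv_lt_iff_lt_mul hk).2 (by nlinarith)
      omega
    · exact (Int.le_ediv_iff_mul_le hk).2 (by nlinarith)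

theorem pvtb_div_lip {k x y : ℤ} (hk : 0 < k) (h : y ≤ x + 1) : y / k ≤ x / k + 1 := by
  have : y / k ≤ (x + k) / k := Int.ediv_le_ediv hk (by omega)
  rwa [Int.add_ediv_of_dvd_right (dvd_refl k), Int.ediv_self hk.ne'] at this

/-- a fine cell sits within `m` of the centre of its coarse cell -/
theorem pvtb_Co_spec {m : ℤ} (hm : 0 ≤ m) (v : ℤ × ℤ) :
    (2 * m + 1) * (pvtbCo m v).1 - m ≤ v.1 ∧ v.1 ≤ (2 * m + 1) * (pvtbCo m v).1 + m ∧ (2 * m + 1) * (pvtbCo m v).2 - m ≤ v.2 ∧ v.2 ≤ (2 * m + 1) * (pvtbCo m v).2 + m := by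
  have h1 := (pvtb_div_spec (k := 2 * m + 1) (a := v.1 + m) (by omega) _).1 rfl
  have h2 := (pvtb_div_spec (k := 2 * m + 1) (a := v.2 + m) (by omega) _).1 rfl
  simp only [pvtbCo]
  omega

theorem pvtb_Co_mem {m : ℤ} (hm : 0 ≤ m) (F : Set (ℤ × ℤ)) (v : ℤ × ℤ) : v ∈ pvtbD (2 * m + 1) m F ↔ pvtbCo m v ∈ F := by
  constructor
  · rintro ⟨p, hp, h1, h2, h3, h4⟩
    have : pvtbCo m v = p :=
      Prod.ext ((pvtb_div_spec (by omega) _).2 ⟨by omega, by omega⟩) ((pvtb_div_spec (by omega) _).2 ⟨by omega, by omega⟩)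
    rwa [this]
  · intro h
    exact ⟨_, h, pvtb_Co_spec hm v⟩

theorem pvtb_Co_adj {m : ℤ} (hm : 0 ≤ m) {u v : ℤ × ℤ} (h : pvtbG8.Adj u v) : pvtbCo m u = pvtbCo m v ∨ pvtbG8.Adj (pvtbCo m u) (pvtbCo m v) := by
  obtain ⟨_, h1, h2, h3, h4⟩ := h
  by_cases e : pvtbCo m u = pvtbCo m v
  · exact Or.inl e
  · exact Or.inr ⟨e, pvtb_div_lip (by omega) (by omega), pvtb_div_lip (by omega) (by omega), pvtb_div_lip (by omega) (by omega), pvtb_div_lip (by omega) (by omega)⟩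

theorem pvtb_Co_adj4 {m : ℤ} (hm : 0 ≤ m) {u v : ℤ × ℤ} (h : pvtbG4.Adj u v) : pvtbCo m u = pvtbCo m v ∨ pvtbG4.Adj (pvtbCo m u) (pvtbCo m v) := by
  have hk : (0 : ℤ) < 2 * m + 1 := by omega
  obtain ⟨a, b⟩ := u
  obtain ⟨c, d⟩ := v
  rw [pvtb_G4_adj] at h
  simp only at h
  have l1 : c ≤ a + 1 → (c + m) / (2 * m + 1) ≤ (a + m) / (2 * m + 1) + 1 := fun e => pvtb_div_lip hk (by omega)
  have l2 : a ≤ c + 1 → (a + m) / (2 * m + 1) ≤ (c + m) / (2 * m + 1) + 1 := fun e => pvtb_div_lip hk (by omega)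
  have l3 : d ≤ b + 1 → (d + m) / (2 * m + 1) ≤ (b + m) / (2 * m + 1) + 1 := fun e => pvtb_div_lip hk (by omega)
  have l4 : b ≤ d + 1 → (b + m) / (2 * m + 1) ≤ (d + m) / (2 * m + 1) + 1 := fun e => pvtb_div_lip hk (by omega)
  have m1 : a ≤ c → (a + m) / (2 * m + 1) ≤ (c + m) / (2 * m + 1) := fun e => Int.ediv_le_ediv hk (by omega)
  have m2 : c ≤ a → (c + m) / (2 * m + 1) ≤ (a + m) / (2 * m + 1) := fun e => Int.ediv_le_ediv hk (by omega)
  have m3 : b ≤ d → (b + m) / (2 * m + 1) ≤ (d + m) / (2 * m + 1) := fun e => Int.ediv_le_ediv hk (by omega)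
  have m4 : d ≤ b → (d + m) / (2 * m + 1) ≤ (b + m) / (2 * m + 1) := fun e => Int.ediv_le_ediv hk (by omega)
  by_cases e : pvtbCo m (a, b) = pvtbCo m (c, d)
  · exact Or.inl e
  · right
    rw [Prod.ext_iff] at e
    rw [pvtb_G4_adj]
    simp only [pvtbCo] at e ⊢
    generalize (a + m) / (2 * m + 1) = A at *
    generalize (c + m) / (2 * m + 1) = C at *
    generalize (b + m) / (2 * m + 1) = B at *
    generalize (d + m) / (2 * m + 1) = D at *
    rcases h with ⟨h1, h2⟩ | ⟨h1, h2⟩ | ⟨h1, h2⟩ | ⟨h1, h2⟩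
    · have := l1 (by omega); have := m1 (by omega); have := m3 (by omega); have := m4 (by omega); omega
    · have := l2 (by omega); have := m2 (by omega); have := m3 (by omega); have := m4 (by omega); omega
    · have := l3 (by omega); have := m3 (by omega); have := m1 (by omega); have := m2 (by omega); omega
    · have := l4 (by omega); have := m4 (by omega); have := m1 (by omega); have := m2 (by omega); omega

/-- a 4-connected set of coarse cells gives a 4-connected set of fine cells as soon as side neighbours touch -/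
theorem pvtb_D_conn4 {k r : ℤ} (hk : 0 ≤ k) (hr : k ≤ 2 * r + 1) {F : Set (ℤ × ℤ)} (hF : TscConn pvtbG4 F) : TscConn pvtbG4 (pvtbD k r F) := by
  by_cases hkr : k ≤ 2 * r
  · exact pvtb_D_conn hk hkr (fun u hu v hv => pvtb_R_le (fun _ _ => pvtb_G4_G8) (hF u hu v hv))
  refine pvtb_D_conn_gen hF ?_
  rintro ⟨p1, p2⟩ ⟨q1, q2⟩ h
  rw [pvtb_G4_adj] at h
  simp only at h
  rcases h with ⟨rfl, rfl⟩ | ⟨rfl, rfl⟩ | ⟨rfl, rfl⟩ | ⟨rfl, rfl⟩
  · have e : k * (p1 + 1) = k * p1 + k := by ring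
    exact ⟨(k * p1 + r, k * q2), ⟨_, rfl, by simp only; omega⟩, (k * p1 + r + 1, k * q2), ⟨_, rfl, by simp only; omega⟩, Or.inr (pvtb_G4_of _ _ _ _ (by omega))⟩
  · have e : k * (p1 - 1) = k * p1 - k := by ring
    exact ⟨(k * p1 - r, k * q2), ⟨_, rfl, by simp only; omega⟩, (k * p1 - r - 1, k * q2), ⟨_, rfl, by simp only; omega⟩, Or.inr (pvtb_G4_of _ _ _ _ (by omega))⟩
  · have e : k * (p2 + 1) = k * p2 + k := by ring
    exact ⟨(k * q1, k * p2 + r), ⟨_, rfl, by simp only; omega⟩, (k * q1, k * p2 + r + 1), ⟨_, rfl, by simp only; omega⟩, Or.inr (pvtb_G4_of _ _ _ _ (by omega))⟩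
  · have e : k * (p2 - 1) = k * p2 - k := by ring
    exact ⟨(k * q1, k * p2 - r), ⟨_, rfl, by simp only; omega⟩, (k * q1, k * p2 - r - 1), ⟨_, rfl, by simp only; omega⟩, Or.inr (pvtb_G4_of _ _ _ _ (by omega))⟩

/-- 1D: the free part of a coarse cell is star-shaped round its centre -/
theorem pvtb_star1 {m r a a' e : ℤ} (hm : 0 ≤ m) (h1 : m ≤ r) (h2 : r < 2 * m + 1) (ha : -m ≤ a ∧ a ≤ m) (hb : (0 ≤ a' ∧ a' ≤ a) ∨ (a ≤ a' ∧ a' ≤ 0))
    (h : -r ≤ a' - (2 * m + 1) * e ∧ a' - (2 * m + 1) * e ≤ r) : -r ≤ a - (2 * m + 1) * e ∧ a - (2 * m + 1) * e ≤ r := by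
  have c : e ≤ -2 ∨ e = -1 ∨ e = 0 ∨ e = 1 ∨ 2 ≤ e := by omega
  rcases c with c | rfl | rfl | rfl | c
  · have := mul_le_mul_of_nonneg_left c (show (0 : ℤ) ≤ 2 * m + 1 by omega)
    omega
  · omega
  · omega
  · omega
  · have := mul_le_mul_of_nonneg_left c (show (0 : ℤ) ≤ 2 * m + 1 by omega)
    omega

/-- 1D: which squares reach a point of the segment between two neighbouring centres -/
theorem pvtb_seg1 {k r t e : ℤ} (h2 : r < k) (ht : 0 ≤ t ∧ t ≤ k) (h : -r ≤ t - k * e ∧ t - k * e ≤ r) : e = 0 ∨ e = 1 := by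
  have hk : 0 ≤ k := by omega
  have c : e ≤ -1 ∨ e = 0 ∨ e = 1 ∨ 2 ≤ e := by omega
  rcases c with c | c | c | c
  · have := mul_le_mul_of_nonneg_left c hk
    omega
  · exact Or.inl c
  · exact Or.inr c
  · have := mul_le_mul_of_nonneg_left c hk
    omega

theorem pvtb_seg0 {k r e : ℤ} (h2 : r < k) (h : -r ≤ k * e ∧ k * e ≤ r) : e = 0 := by
  have c : e ≤ -1 ∨ e = 0 ∨ 1 ≤ e := by omega
  rcases c with c | c | c
  · by_cases hk : 0 ≤ k
    · have := mul_le_mul_of_nonneg_left c hk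
      omega
    · omega
  · exact c
  · by_cases hk : 0 ≤ k
    · have := mul_le_mul_of_nonneg_left c hk
      omega
    · omega

/-- a free fine cell is joined to the centre of its coarse cell -/
theorem pvtb_D_to_centre {m r : ℤ} (hm : 0 ≤ m) (h1 : m ≤ r) (h2 : r < 2 * m + 1) {F : Set (ℤ × ℤ)} {v : ℤ × ℤ} (hv : v ∉ pvtbD (2 * m + 1) r F) :
    TscR pvtbG4 (pvtbD (2 * m + 1) r F)ᶜ v ((2 * m + 1) * (pvtbCo m v).1, (2 * m + 1) * (pvtbCo m v).2) := by
  obtain ⟨s1, s2, s3, s4⟩ := pvtb_Co_spec hm v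
  set q := pvtbCo m v with hq
  have star : ∀ a' b' : ℤ, ((0 ≤ a' ∧ a' ≤ v.1 - (2 * m + 1) * q.1) ∨ (v.1 - (2 * m + 1) * q.1 ≤ a' ∧ a' ≤ 0)) →
      ((0 ≤ b' ∧ b' ≤ v.2 - (2 * m + 1) * q.2) ∨ (v.2 - (2 * m + 1) * q.2 ≤ b' ∧ b' ≤ 0)) →
      ((2 * m + 1) * q.1 + a', (2 * m + 1) * q.2 + b') ∈ (pvtbD (2 * m + 1) r F)ᶜ := by
    rintro a' b' ha hb ⟨p, hp, g1, g2, g3, g4⟩
    simp only at g1 g2 g3 g4
    have e1 : (2 * m + 1) * (p.1 - q.1) = (2 * m + 1) * p.1 - (2 * m + 1) * q.1 := by ring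
    have e2 : (2 * m + 1) * (p.2 - q.2) = (2 * m + 1) * p.2 - (2 * m + 1) * q.2 := by ring
    have t1 := pvtb_star1 (e := p.1 - q.1) hm h1 h2 (a := v.1 - (2 * m + 1) * q.1) ⟨by omega, by omega⟩ ha (by omega)
    have t2 := pvtb_star1 (e := p.2 - q.2) hm h1 h2 (a := v.2 - (2 * m + 1) * q.2) ⟨by omega, by omega⟩ hb (by omega)
    exact hv ⟨p, hp, by omega⟩
  obtain ⟨x, y⟩ := v
  simp only at s1 s2 s3 s4 star
  refine tsc_R_trans (pvtb_R_hseg (x' := (2 * m + 1) * q.1) (fun z z1 z2 => ?_)) (pvtb_R_vseg (fun z z1 z2 => ?_))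
  · have := star (z - (2 * m + 1) * q.1) (y - (2 * m + 1) * q.2) (by omega) (by omega)
    rwa [add_sub_cancel, add_sub_cancel] at this
  · have := star 0 (z - (2 * m + 1) * q.2) (by omega) (by omega)
    rwa [add_sub_cancel, add_zero] at this

/-- the centres of two free coarse cells with a common side are joined by a free segment -/
theorem pvtb_D_centre_step {k r : ℤ} (h2 : r < k) {F : Set (ℤ × ℤ)} {q q' : ℤ × ℤ} (hq : q ∉ F) (hq' : q' ∉ F) (h : pvtbG4.Adj q q') :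
    TscR pvtbG4 (pvtbD k r F)ᶜ (k * q.1, k * q.2) (k * q'.1, k * q'.2) := by
  have right : ∀ q1 q2 : ℤ, (q1, q2) ∉ F → (q1 + 1, q2) ∉ F → TscR pvtbG4 (pvtbD k r F)ᶜ (k * q1, k * q2) (k * (q1 + 1), k * q2) := by
    intro q1 q2 f1 f2
    have e : k * (q1 + 1) = k * q1 + k := by ring
    by_cases hk : 0 ≤ k
    · refine pvtb_R_hseg (fun z z1 z2 => ?_)
      rintro ⟨⟨p1, p2⟩, hp, g1, g2, g3, g4⟩
      simp only at g1 g2 g3 g4
      have e1 : k * (p1 - q1) = k * p1 - k * q1 := by ring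
      have e2 : k * (p2 - q2) = k * p2 - k * q2 := by ring
      have t2 := pvtb_seg0 (e := p2 - q2) h2 (by omega)
      have t1 := pvtb_seg1 (e := p1 - q1) (t := z - k * q1) h2 (by omega) (by omega)
      obtain rfl : p2 = q2 := by omega
      rcases t1 with t | t
      · obtain rfl : p1 = q1 := by omega
        exact f1 hp
      · obtain rfl : p1 = q1 + 1 := by omega
        exact f2 hp
    · refine pvtb_R_hseg (fun z z1 z2 => ?_)
      rintro ⟨⟨p1, p2⟩, hp, g1, g2, g3, g4⟩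
      simp only at g1 g2 g3 g4
      omega
  have up : ∀ q1 q2 : ℤ, (q1, q2) ∉ F → (q1, q2 + 1) ∉ F → TscR pvtbG4 (pvtbD k r F)ᶜ (k * q1, k * q2) (k * q1, k * (q2 + 1)) := by
    intro q1 q2 f1 f2
    have e : k * (q2 + 1) = k * q2 + k := by ring
    by_cases hk : 0 ≤ k
    · refine pvtb_R_vseg (fun z z1 z2 => ?_)
      rintro ⟨⟨p1, p2⟩, hp, g1, g2, g3, g4⟩
      simp only at g1 g2 g3 g4
      have e1 : k * (p1 - q1) = k * p1 - k * q1 := by ring
      have e2 : k * (p2 - q2) = k * p2 - k * q2 := by ring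
      have t2 := pvtb_seg0 (e := p1 - q1) h2 (by omega)
      have t1 := pvtb_seg1 (e := p2 - q2) (t := z - k * q2) h2 (by omega) (by omega)
      obtain rfl : p1 = q1 := by omega
      rcases t1 with t | t
      · obtain rfl : p2 = q2 := by omega
        exact f1 hp
      · obtain rfl : p2 = q2 + 1 := by omega
        exact f2 hp
    · refine pvtb_R_vseg (fun z z1 z2 => ?_)
      rintro ⟨⟨p1, p2⟩, hp, g1, g2, g3, g4⟩
      simp only at g1 g2 g3 g4
      omega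
  obtain ⟨q1, q2⟩ := q
  obtain ⟨a, b⟩ := q'
  rw [pvtb_G4_adj] at h
  simp only at h ⊢
  rcases h with ⟨rfl, rfl⟩ | ⟨rfl, rfl⟩ | ⟨rfl, rfl⟩ | ⟨rfl, rfl⟩
  · exact right _ _ hq hq'
  · have := right (q1 - 1) b hq' (by rwa [sub_add_cancel])
    rw [sub_add_cancel] at this
    exact tsc_R_symm this
  · exact up _ _ hq hq'
  · have := up a (q2 - 1) hq' (by rwa [sub_add_cancel])
    rw [sub_add_cancel] at this
    exact tsc_R_symm this

/-- **the complement survives the fattening**: every free fine cell is joined to the centre of its coarse cell, the centres of free side neighbours are joined by a free segment -/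
theorem pvtb_D_compl_conn {m r : ℤ} (hm : 0 ≤ m) (h1 : m ≤ r) (h2 : r < 2 * m + 1) {F : Set (ℤ × ℤ)} (hF : TscConn pvtbG4 Fᶜ) :
    TscConn pvtbG4 (pvtbD (2 * m + 1) r F)ᶜ := by
  have hco : ∀ v, v ∉ pvtbD (2 * m + 1) r F → pvtbCo m v ∈ Fᶜ := fun v hv hc =>
    hv (pvtb_D_mono h1 (le_refl F) ((pvtb_Co_mem hm F v).2 hc))
  have chain : ∀ q q', TscR pvtbG4 Fᶜ q q' → TscR pvtbG4 (pvtbD (2 * m + 1) r F)ᶜ ((2 * m + 1) * q.1, (2 * m + 1) * q.2) ((2 * m + 1) * q'.1, (2 * m + 1) * q'.2) := by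
    intro q q' h
    induction h with
    | refl => exact tsc_R_refl _
    | tail _ s ih => exact tsc_R_trans ih (pvtb_D_centre_step h2 s.2.1 s.2.2 s.1)
  intro u hu v hv
  exact tsc_R_trans (pvtb_D_to_centre hm h1 h2 hu) (tsc_R_trans (chain _ _ (hF _ (hco u hu) _ (hco v hv))) (tsc_R_symm (pvtb_D_to_centre hm h1 h2 hv)))

/-- a finite set with connected complement has `H^1 = 0` -/
theorem pvtb_sc_of_compl {S : Set (ℤ × ℤ)} (hS : S.Finite) (hc : TscConn tscG Sᶜ) : TriSCOn (ZMod 2) tscG S := by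
  refine hxp_sc_free hS ?_
  intro s hs B hB
  obtain ⟨t, ht⟩ := (hS.union hB).infinite_compl.nonempty
  have ht' : t ∉ S ∧ t ∉ B := by simpa [not_or] using ht
  have conv : ∀ t', TscR tscG Sᶜ s t' → ReflTransGen (fun a b => triAdj a b ∧ b ∉ S) s t' := by
    intro t' h
    induction h with
    | refl => exact ReflTransGen.refl
    | tail _ h2 ih => exact ReflTransGen.tail ih ⟨h2.1, h2.2.2⟩
  exact ⟨t, ht'.2, conv t (hc s hs t ht'.1)⟩

theorem pvtb_D_sc {m r : ℤ} (hm : 0 ≤ m) (h1 : m ≤ r) (h2 : r < 2 * m + 1) {F : Set (ℤ × ℤ)} (hfin : F.Finite) (hF : TscConn pvtbG4 Fᶜ) :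
    TriSCOn (ZMod 2) tscG (pvtbD (2 * m + 1) r F) :=
  pvtb_sc_of_compl (pvtb_D_finite _ _ hfin) (fun u hu v hv => pvtb_R_le (fun _ _ => pvtb_G4_tri) (pvtb_D_compl_conn hm h1 h2 hF u hu v hv))

/-- admissible fattenings are well-composed -/
theorem pvtb_wc_D' {m r : ℤ} (h1 : m < r) (h2 : r < 2 * m + 1) (F : Set (ℤ × ℤ)) : PvtbWC (pvtbD (2 * m + 1) r F) := by
  refine pvtb_wc_D ?_ F
  rintro ⟨q, hq⟩
  have hq1 : 1 < q := by
    by_contra hc
    have : (2 * m + 1) * q ≤ (2 * m + 1) * 1 := mul_le_mul_of_nonneg_left (by omega) (by omega)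
    omega
  have : (2 * m + 1) * 2 ≤ (2 * m + 1) * q := mul_le_mul_of_nonneg_left (by omega) (by omega)
  omega

/-! ### 4. rectilinear corridors without near return -/

/-- rectilinear corridor `c 0, …, c n` -/
structure PvtbCor (n : ℕ) (c : ℕ → ℤ × ℤ) : Prop where
  step : ∀ i, i < n → pvtbG4.Adj (c i) (c (i + 1))
  nb : ∀ i, i + 2 ≤ n → c (i + 2) ≠ c i
  far : ∀ i j, i + 3 ≤ j → j ≤ n → c i ≠ c j ∧ ¬ pvtbG8.Adj (c i) (c j)

/-- the cells of the corridor -/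
def pvtbRan (n : ℕ) (c : ℕ → ℤ × ℤ) : Set (ℤ × ℤ) := {v | ∃ i, i ≤ n ∧ v = c i}

/-- multiplication by `i` -/
def pvtbI (d : ℤ × ℤ) : ℤ × ℤ := (-d.2, d.1)

theorem pvtb_ran_finite (n : ℕ) (c : ℕ → ℤ × ℤ) : (pvtbRan n c).Finite := by
  refine ((Set.finite_Iic n).image c).subset ?_
  rintro v ⟨i, hi, rfl⟩
  exact ⟨i, hi, rfl⟩

theorem pvtb_cor_inj {n : ℕ} {c : ℕ → ℤ × ℤ} (h : PvtbCor n c) {i j : ℕ} (hi : i ≤ n) (hj : j ≤ n) (hij : c i = c j) : i = j := by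
  have key : ∀ i j : ℕ, i < j → j ≤ n → c i ≠ c j := by
    intro i j hlt hj e
    rcases (by omega : j = i + 1 ∨ j = i + 2 ∨ i + 3 ≤ j) with rfl | rfl | h3
    · have := h.step i (by omega)
      rw [e] at this
      exact pvtbG4.loopless.irrefl _ this
    · exact h.nb i hj e.symm
    · exact (h.far i j h3 hj).1 e
  rcases lt_trichotomy i j with hlt | he | hgt
  · exact (key i j hlt hj hij).elim
  · exact he
  · exact (key j i hgt hi hij.symm).elim

/-- touching cells are at most two steps apart -/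
theorem pvtb_cor_near {n : ℕ} {c : ℕ → ℤ × ℤ} (h : PvtbCor n c) {i j : ℕ} (hi : i ≤ n) (hj : j ≤ n) (hij : pvtbG8.Adj (c i) (c j)) : i ≤ j + 2 ∧ j ≤ i + 2 := by
  constructor
  · by_contra hc
    exact (h.far j i (by omega) hi).2 hij.symm
  · by_contra hc
    exact (h.far i j (by omega) hj).2 hij

/-- cells with a common side are consecutive -/
theorem pvtb_cor_near4 {n : ℕ} {c : ℕ → ℤ × ℤ} (h : PvtbCor n c) {i j : ℕ} (hi : i ≤ n) (hj : j ≤ n) (hij : pvtbG4.Adj (c i) (c j)) : i = j + 1 ∨ j = i + 1 := by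
  have hn := pvtb_cor_near h hi hj (pvtb_G4_G8 hij)
  have key : ∀ i : ℕ, i + 2 ≤ n → ¬ pvtbG4.Adj (c i) (c (i + 2)) := by
    intro i hi2 ha
    have h1 := (pvtb_G4_adj _ _).1 (h.step i (by omega))
    have h2 := (pvtb_G4_adj _ _).1 (h.step (i + 1) (by omega))
    have h3 := (pvtb_G4_adj _ _).1 ha
    rw [show i + 1 + 1 = i + 2 from rfl] at h2
    omega
  rcases (by omega : i = j ∨ i = j + 1 ∨ j = i + 1 ∨ i = j + 2 ∨ j = i + 2) with rfl | e | e | rfl | rfl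
  · exact (pvtbG4.loopless.irrefl _ hij).elim
  · exact Or.inl e
  · exact Or.inr e
  · exact (key j hi hij.symm).elim
  · exact (key i hj hij).elim

/-- quantitative form: one free row or column between far cells -/
theorem pvtb_cor_gap {n : ℕ} {c : ℕ → ℤ × ℤ} (h : PvtbCor n c) {i j : ℕ} (hij : i + 3 ≤ j) (hj : j ≤ n) : 2 ≤ |(c i).1 - (c j).1| ∨ 2 ≤ |(c i).2 - (c j).2| := by
  obtain ⟨h1, h2⟩ := h.far i j hij hj
  by_contra hc
  push Not at hc
  obtain ⟨ha, hb⟩ := hc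
  rw [abs_lt] at ha hb
  exact h2 ((pvtb_G8_adj _ _).2 ⟨h1, by omega, by omega, by omega, by omega⟩)

/-- **straight / left / right** -/
theorem pvtb_cor_turn {n : ℕ} {c : ℕ → ℤ × ℤ} (h : PvtbCor n c) {i : ℕ} (hi : i + 2 ≤ n) :
    c (i + 2) - c (i + 1) = c (i + 1) - c i ∨ c (i + 2) - c (i + 1) = pvtbI (c (i + 1) - c i) ∨ c (i + 2) - c (i + 1) = - pvtbI (c (i + 1) - c i) := by
  have h1 := (pvtb_G4_adj _ _).1 (h.step i (by omega))
  have h2 := (pvtb_G4_adj _ _).1 (h.step (i + 1) (by omega))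
  have h3 : ¬ ((c (i + 2)).1 = (c i).1 ∧ (c (i + 2)).2 = (c i).2) := fun e => h.nb i hi (Prod.ext e.1 e.2)
  simp only [Prod.ext_iff, pvtbI, Prod.fst_sub, Prod.snd_sub, Prod.fst_neg, Prod.snd_neg]
  rw [show i + 1 + 1 = i + 2 from rfl] at h2
  omega

theorem pvtb_cor_rev {n : ℕ} {c : ℕ → ℤ × ℤ} (h : PvtbCor n c) : PvtbCor n (fun i => c (n - i)) := by
  refine ⟨fun i hi => ?_, fun i hi => ?_, fun i j hij hj => ?_⟩
  · have := h.step (n - (i + 1)) (by omega)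
    rw [show n - (i + 1) + 1 = n - i by omega] at this
    exact this.symm
  · have := h.nb (n - (i + 2)) (by omega)
    rw [show n - (i + 2) + 2 = n - i by omega] at this
    exact this.symm
  · have := h.far (n - j) (n - i) (by omega) (by omega)
    exact ⟨this.1.symm, fun e => this.2 e.symm⟩

theorem pvtb_cor_sub {n : ℕ} {c : ℕ → ℤ × ℤ} (h : PvtbCor n c) {a m : ℕ} (ham : a + m ≤ n) : PvtbCor m (fun i => c (a + i)) := by
  refine ⟨fun i hi => ?_, fun i hi => ?_, fun i j hij hj => ?_⟩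
  · exact h.step (a + i) (by omega)
  · exact h.nb (a + i) (by omega)
  · exact h.far (a + i) (a + j) (by omega) (by omega)

/-- corridors are carried by the symmetries of the grid: translations and the rotation by `i` -/
theorem pvtb_cor_map {n : ℕ} {c : ℕ → ℤ × ℤ} (h : PvtbCor n c) (t : ℤ × ℤ) : PvtbCor n (fun i => c i + t) ∧ PvtbCor n (fun i => pvtbI (c i)) := by
  constructor
  · refine ⟨fun i hi => ?_, fun i hi => ?_, fun i j hij hj => ?_⟩
    · have := (pvtb_G4_adj _ _).1 (h.step i hi)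
      rw [pvtb_G4_adj]
      simp only [Prod.fst_add, Prod.snd_add]
      omega
    · intro e
      exact h.nb i hi (add_right_cancel e)
    · obtain ⟨h1, h2⟩ := h.far i j hij hj
      refine ⟨fun e => h1 (add_right_cancel e), fun e => h2 ?_⟩
      rw [pvtb_G8_adj] at e ⊢
      simp only [Prod.fst_add, Prod.snd_add] at e
      exact ⟨h1, by omega, by omega, by omega, by omega⟩
  · have hinj : ∀ u v : ℤ × ℤ, pvtbI u = pvtbI v → u = v := by
      intro u v e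
      simp only [pvtbI, Prod.ext_iff] at e
      exact Prod.ext (by omega) (by omega)
    refine ⟨fun i hi => ?_, fun i hi => ?_, fun i j hij hj => ?_⟩
    · have := (pvtb_G4_adj _ _).1 (h.step i hi)
      rw [pvtb_G4_adj]
      simp only [pvtbI]
      omega
    · intro e
      exact h.nb i hi (hinj _ _ e)
    · obtain ⟨h1, h2⟩ := h.far i j hij hj
      refine ⟨fun e => h1 (hinj _ _ e), fun e => h2 ?_⟩
      rw [pvtb_G8_adj] at e ⊢
      simp only [pvtbI] at e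
      exact ⟨h1, by omega, by omega, by omega, by omega⟩

/-- helper of `pvtb_cor_exists`: one more step -/
theorem pvtb_ce_snoc {U : Set (ℤ × ℤ)} {a x y : ℤ × ℤ} {k : ℕ}
    (h : ∃ f : ℕ → ℤ × ℤ, f 0 = a ∧ f k = x ∧ ∀ i, i < k → TscStep pvtbG4 U (f i) (f (i + 1))) (hxy : TscStep pvtbG4 U x y) :
    ∃ f : ℕ → ℤ × ℤ, f 0 = a ∧ f (k + 1) = y ∧ ∀ i, i < k + 1 → TscStep pvtbG4 U (f i) (f (i + 1)) := by
  obtain ⟨f, h0, hk, hs⟩ := h
  refine ⟨fun i => if i ≤ k then f i else y, by simp [h0], by simp, fun i hi => ?_⟩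
  rcases (by omega : i < k ∨ i = k) with hlt | rfl
  · simp only [show i ≤ k by omega, show i + 1 ≤ k by omega, if_true]
    exact hs i hlt
  · simp only [le_refl, if_true, show ¬ (i + 1 ≤ i) by omega, if_false]
    rw [hk]
    exact hxy

/-- helper of `pvtb_cor_exists`: a geodesic, every cell at its exact distance -/
theorem pvtb_ce_geo {U : Set (ℤ × ℤ)} {a : ℤ × ℤ} (n : ℕ) : ∀ b : ℤ × ℤ,
    (∃ f : ℕ → ℤ × ℤ, f 0 = a ∧ f n = b ∧ ∀ i, i < n → TscStep pvtbG4 U (f i) (f (i + 1))) →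
    (∀ k, (∃ f : ℕ → ℤ × ℤ, f 0 = a ∧ f k = b ∧ ∀ i, i < k → TscStep pvtbG4 U (f i) (f (i + 1))) → n ≤ k) →
    ∃ c : ℕ → ℤ × ℤ, c 0 = a ∧ c n = b ∧ (∀ i, i < n → TscStep pvtbG4 U (c i) (c (i + 1))) ∧
      ∀ i, i ≤ n → ∀ k, (∃ f : ℕ → ℤ × ℤ, f 0 = a ∧ f k = c i ∧ ∀ i, i < k → TscStep pvtbG4 U (f i) (f (i + 1))) → i ≤ k := by
  induction n with
  | zero =>
    rintro b ⟨f, h0, hb, -⟩ -
    exact ⟨fun _ => a, rfl, h0.symm.trans hb, fun i hi => absurd hi (by omega), fun i hi k _ => by omega⟩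
  | succ n ih =>
    rintro b ⟨f, h0, hb, hs⟩ hmin
    obtain ⟨c, c0, cn, cs, cm⟩ := ih (f n) ⟨f, h0, rfl, fun i hi => hs i (by omega)⟩ (by
      intro k hk
      have := hmin (k + 1) (pvtb_ce_snoc hk (by rw [← hb]; exact hs n (by omega)))
      omega)
    refine ⟨fun i => if i ≤ n then c i else b, by simp [c0], by simp, fun i hi => ?_, fun i hi k hk => ?_⟩
    · rcases (by omega : i < n ∨ i = n) with hlt | rfl
      · simp only [show i ≤ n by omega, show i + 1 ≤ n by omega, if_true]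
        exact cs i hlt
      · simp only [le_refl, if_true, show ¬ (i + 1 ≤ i) by omega, if_false]
        rw [cn, ← hb]
        exact hs i (by omega)
    · rcases (by omega : i ≤ n ∨ i = n + 1) with hle | rfl
      · simp only [hle, if_true] at hk
        exact cm i hle k hk
      · simp only [show ¬ (n + 1 ≤ n) by omega, if_false] at hk
        exact hmin k hk

/-- **EXISTENCE**: a geodesic of a well-composed set is a corridor -/
theorem pvtb_cor_exists {U : Set (ℤ × ℤ)} (hU : PvtbWC U) {a b : ℤ × ℤ} (ha : a ∈ U) (h : TscR pvtbG4 U a b) :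
    ∃ (n : ℕ) (c : ℕ → ℤ × ℤ), PvtbCor n c ∧ c 0 = a ∧ c n = b ∧ ∀ i, i ≤ n → c i ∈ U := by
  classical
  have hex : ∃ k, ∃ f : ℕ → ℤ × ℤ, f 0 = a ∧ f k = b ∧ ∀ i, i < k → TscStep pvtbG4 U (f i) (f (i + 1)) := by
    induction h with
    | refl => exact ⟨0, fun _ => a, rfl, rfl, fun i hi => absurd hi (by omega)⟩
    | tail _ h2 ih =>
      obtain ⟨k, hk⟩ := ih
      exact ⟨k + 1, pvtb_ce_snoc hk h2⟩
  obtain ⟨c, c0, cn, cs, cm⟩ := pvtb_ce_geo (Nat.find hex) b (Nat.find_spec hex) (fun k hk => Nat.find_min' hex hk)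
  set n := Nat.find hex with hn
  have hmem : ∀ i, i ≤ n → c i ∈ U := by
    intro i hi
    rcases (by omega : i < n ∨ i = n) with hlt | hin
    · exact (cs i hlt).2.1
    · rcases Nat.eq_zero_or_pos i with e | hpos
      · rw [e, c0]; exact ha
      · have := (cs (i - 1) (by omega)).2.2
        rwa [show i - 1 + 1 = i by omega] at this
  have hre : ∀ i, i ≤ n → ∃ f : ℕ → ℤ × ℤ, f 0 = a ∧ f i = c i ∧ ∀ l, l < i → TscStep pvtbG4 U (f l) (f (l + 1)) :=
    fun i hi => ⟨c, c0, rfl, fun l hl => cs l (by omega)⟩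
  refine ⟨n, c, ⟨fun i hi => (cs i hi).1, fun i hi e => ?_, fun i j hij hj => ⟨fun e => ?_, fun e => ?_⟩⟩, c0, cn, hmem⟩
  · have := cm (i + 2) hi i (by rw [e]; exact hre i (by omega))
    omega
  · have := cm j hj i (by rw [← e]; exact hre i (by omega))
    omega
  · rcases pvtb_wc_step hU (hmem i (by omega)) (hmem j hj) e with h4 | ⟨m, hm, h1, h2⟩
    · have := cm j hj (i + 1) (pvtb_ce_snoc (hre i (by omega)) ⟨h4, hmem i (by omega), hmem j hj⟩)
      omega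
    · have := cm j hj (i + 1 + 1) (pvtb_ce_snoc (pvtb_ce_snoc (hre i (by omega)) ⟨h1, hmem i (by omega), hm⟩) ⟨h2, hm, hmem j hj⟩)
      omega

theorem pvtb_cor_conn {n : ℕ} {c : ℕ → ℤ × ℤ} (h : PvtbCor n c) : TscConn pvtbG4 (pvtbRan n c) := by
  have key : ∀ i, i ≤ n → TscR pvtbG4 (pvtbRan n c) (c 0) (c i) := by
    intro i
    induction i with
    | zero => intro _; exact ReflTransGen.refl
    | succ i ih =>
      intro hi
      exact (ih (by omega)).tail ⟨h.step i (by omega), ⟨i, by omega, rfl⟩, ⟨i + 1, hi, rfl⟩⟩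
  rintro u ⟨i, hi, rfl⟩ v ⟨j, hj, rfl⟩
  exact tsc_R_trans (tsc_R_symm (key i hi)) (key j hj)

theorem pvtb_cor_wc {n : ℕ} {c : ℕ → ℤ × ℤ} (h : PvtbCor n c) : PvtbWC (pvtbRan n c) := by
  -- two cells of the corridor which touch at a corner only are two steps apart, the middle cell fills the window
  have key : ∀ i j : ℕ, i ≤ n → j ≤ n → i ≤ j → pvtbG8.Adj (c i) (c j) → ¬ pvtbG4.Adj (c i) (c j) →
      j = i + 2 := by
    intro i j hi hj hle h8 h4
    have hn := pvtb_cor_near h hi hj h8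
    rcases (by omega : j = i ∨ j = i + 1 ∨ j = i + 2) with rfl | rfl | e
    · exact (pvtbG8.loopless.irrefl _ h8).elim
    · exact (h4 (h.step i (by omega))).elim
    · exact e
  have key2 : ∀ i j : ℕ, i ≤ n → j ≤ n → pvtbG8.Adj (c i) (c j) → ¬ pvtbG4.Adj (c i) (c j) →
      ∃ m, m ≤ n ∧ pvtbG4.Adj (c i) (c m) ∧ pvtbG4.Adj (c m) (c j) := by
    intro i j hi hj h8 h4
    rcases le_total i j with hle | hle
    · have e := key i j hi hj hle h8 h4
      subst e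
      exact ⟨i + 1, by omega, h.step i (by omega), h.step (i + 1) (by omega)⟩
    · have e := key j i hj hi hle h8.symm (fun e => h4 e.symm)
      subst e
      exact ⟨j + 1, by omega, (h.step (j + 1) (by omega)).symm, (h.step j (by omega)).symm⟩
  intro x y
  constructor
  · rintro ⟨i, hi, ei⟩ ⟨j, hj, ej⟩
    have e1 : (c i).1 = x := by rw [← ei]
    have e2 : (c i).2 = y := by rw [← ei]
    have e3 : (c j).1 = x + 1 := by rw [← ej]
    have e4 : (c j).2 = y + 1 := by rw [← ej]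
    obtain ⟨m, hm, ha, hb⟩ := key2 i j hi hj
      ((pvtb_G8_adj _ _).2 ⟨fun e => by rw [e] at e1; omega, by omega, by omega, by omega, by omega⟩)
      (fun e => by rw [pvtb_G4_adj] at e; omega)
    rw [pvtb_G4_adj] at ha hb
    rcases (by omega : ((c m).1 = x + 1 ∧ (c m).2 = y) ∨ ((c m).1 = x ∧ (c m).2 = y + 1)) with e | e
    · exact Or.inl ⟨m, hm, Prod.ext e.1.symm e.2.symm⟩
    · exact Or.inr ⟨m, hm, Prod.ext e.1.symm e.2.symm⟩
  · rintro ⟨i, hi, ei⟩ ⟨j, hj, ej⟩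
    have e1 : (c i).1 = x + 1 := by rw [← ei]
    have e2 : (c i).2 = y := by rw [← ei]
    have e3 : (c j).1 = x := by rw [← ej]
    have e4 : (c j).2 = y + 1 := by rw [← ej]
    obtain ⟨m, hm, ha, hb⟩ := key2 i j hi hj
      ((pvtb_G8_adj _ _).2 ⟨fun e => by rw [e] at e1; omega, by omega, by omega, by omega, by omega⟩)
      (fun e => by rw [pvtb_G4_adj] at e; omega)
    rw [pvtb_G4_adj] at ha hb
    rcases (by omega : ((c m).1 = x ∧ (c m).2 = y) ∨ ((c m).1 = x + 1 ∧ (c m).2 = y + 1)) with e | e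
    · exact Or.inl ⟨m, hm, Prod.ext e.1.symm e.2.symm⟩
    · exact Or.inr ⟨m, hm, Prod.ext e.1.symm e.2.symm⟩

theorem pvtb_ran_succ (n : ℕ) (c : ℕ → ℤ × ℤ) : pvtbRan (n + 1) c = insert (c (n + 1)) (pvtbRan n c) := by
  ext v
  constructor
  · rintro ⟨i, hi, rfl⟩
    rcases Nat.lt_or_ge i (n + 1) with h | h
    · exact Or.inr ⟨i, by omega, rfl⟩
    · have : i = n + 1 := by omega
      subst this
      exact Or.inl rfl
  · rintro (rfl | ⟨i, hi, rfl⟩)
    · exact ⟨n + 1, le_rfl, rfl⟩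
    · exact ⟨i, by omega, rfl⟩

theorem pvtb_cor_pred {n : ℕ} {c : ℕ → ℤ × ℤ} (h : PvtbCor (n + 1) c) : PvtbCor n c :=
  ⟨fun i hi => h.step i (by omega), fun i hi => h.nb i (by omega), fun i j hij hj => h.far i j hij (by omega)⟩

theorem pvtb_cor_fresh {n : ℕ} {c : ℕ → ℤ × ℤ} (h : PvtbCor (n + 1) c) : c (n + 1) ∉ pvtbRan n c := by
  rintro ⟨i, hi, e⟩
  have := pvtb_cor_inj h (i := n + 1) (j := i) le_rfl (by omega) e
  omega

/-- `H^1 = 0` -/
theorem pvtb_cor_sc (A : Type*) [AddCommGroup A] {n : ℕ} {c : ℕ → ℤ × ℤ} (h : PvtbCor n c) : TriSCOn A tscG (pvtbRan n c) := by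
  induction n with
  | zero =>
    have e : pvtbRan 0 c = insert (c 0) (∅ : Set (ℤ × ℤ)) := by
      ext v
      constructor
      · rintro ⟨i, hi, rfl⟩
        have : i = 0 := by omega
        subst this
        exact Or.inl rfl
      · rintro (rfl | hv)
        · exact ⟨0, le_rfl, rfl⟩
        · exact hv.elim
    rw [e]
    exact tsc_insert tsc_empty (Set.notMem_empty _) (fun u hu => hu.1.elim)
  | succ n ih =>
    rw [pvtb_ran_succ]
    refine tsc_insert (ih (pvtb_cor_pred h)) (pvtb_cor_fresh h) ?_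
    have hcase : ∀ u, u ∈ pvtbRan n c ∧ tscG.Adj u (c (n + 1)) → u = c n ∨ tscG.Adj u (c n) := by
      rintro u ⟨⟨i, hi, rfl⟩, hadj⟩
      have h1 := (pvtb_cor_near h (i := i) (j := n + 1) (by omega) le_rfl (pvtb_tri_G8 hadj)).2
      rcases Nat.lt_or_ge i n with hlt | hge
      · have : i + 1 = n := by omega
        subst this
        exact Or.inr (pvtb_G4_tri (h.step i (by omega)))
      · have : i = n := by omega
        subst this
        exact Or.inl rfl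
    have hn : c n ∈ {u | u ∈ pvtbRan n c ∧ tscG.Adj u (c (n + 1))} := ⟨⟨n, le_rfl, rfl⟩, pvtb_G4_tri (h.step n (by omega))⟩
    have hto : ∀ u ∈ {u | u ∈ pvtbRan n c ∧ tscG.Adj u (c (n + 1))}, TscR tscG {u | u ∈ pvtbRan n c ∧ tscG.Adj u (c (n + 1))} u (c n) := by
      intro u hu
      rcases hcase u hu with rfl | hadj
      · exact tsc_R_refl _
      · exact tsc_R_step hadj hu hn
    exact fun u hu v hv => tsc_R_trans (hto u hu) (tsc_R_symm (hto v hv))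

/-- deleting a vertex whose link is joined off the vertex -/
theorem pvtb_del_vertex {V : Type*} {G : SimpleGraph V} {Q : Set V} {v : V} (hQ : TscConn G Q)
    (hL : ∀ u ∈ Q, ∀ u' ∈ Q, G.Adj u v → G.Adj u' v → TscR G (Q \ {v}) u u') : TscConn G (Q \ {v}) := by
  intro a ha b hb
  have key : ∀ x, TscR G Q a x → (x ≠ v → TscR G (Q \ {v}) a x) ∧ (x = v → ∃ u ∈ Q, G.Adj u v ∧ TscR G (Q \ {v}) a u) := by
    intro x hx
    induction hx with
    | refl => exact ⟨fun _ => tsc_R_refl _, fun e => absurd e ha.2⟩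
    | @tail p q _ hpq ih =>
      constructor
      · intro hq
        by_cases hp : p = v
        · obtain ⟨u, hu, huv, hau⟩ := ih.2 hp
          exact tsc_R_trans hau (hL u hu q hpq.2.2 huv (hp ▸ hpq.1.symm))
        · exact (ih.1 hp).tail ⟨hpq.1, ⟨hpq.2.1, hp⟩, ⟨hpq.2.2, hq⟩⟩
      · intro hq
        have hp : p ≠ v := by
          intro e
          rw [e, hq] at hpq
          exact hpq.1.ne rfl
        exact ⟨p, hpq.2.1, hq ▸ hpq.1, ih.1 hp⟩
  exact (key b (hQ a ha.1 b hb.1)).1 hb.2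

theorem pvtb_dir_nb (v : ℤ × ℤ) (m : ℕ) : triAdj v (v + hxDir m) := by
  refine (hx_tri_iff_dir _ _).2 ⟨m % 6, Nat.mod_lt _ (by norm_num), ?_⟩
  unfold hxDir
  rw [Nat.mod_mod]

theorem pvtb_dir_adj (v : ℤ × ℤ) (m : ℕ) : triAdj (v + hxDir m) (v + hxDir (m + 1)) := by
  obtain ⟨v1, v2⟩ := v
  have hm : m % 6 < 6 := Nat.mod_lt _ (by norm_num)
  have e : (m + 1) % 6 = (m % 6 + 1) % 6 := by omega
  rw [tsc_adj_iff]
  unfold hxDir
  rw [e]
  generalize m % 6 = r at hm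
  interval_cases r <;> simp <;> omega

theorem pvtb_dir_chain {T : Set (ℤ × ℤ)} (v : ℤ × ℤ) (a k : ℕ) (h : ∀ t, a ≤ t → t ≤ a + k → v + hxDir t ∈ T) :
    TscR tscG T (v + hxDir a) (v + hxDir (a + k)) := by
  induction k with
  | zero => exact tsc_R_refl _
  | succ k ih =>
    exact (ih (fun t h1 h2 => h t h1 (by omega))).tail ⟨pvtb_dir_adj v (a + k), h _ (by omega) (by omega), h _ (by omega) (by omega)⟩

theorem pvtb_dir_far (v : ℤ × ℤ) {k0 t : ℕ} (hk0 : k0 < 6) (h2 : 2 ≤ t) (h4 : t ≤ 4) :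
    v + hxDir (k0 + t) ≠ v + hxDir k0 ∧ ¬ triAdj (v + hxDir (k0 + t)) (v + hxDir k0) := by
  obtain ⟨v1, v2⟩ := v
  rw [tsc_adj_iff]
  interval_cases k0 <;> interval_cases t <;> simp [hxDir] <;> omega

theorem pvtb_dir_rep (v : ℤ × ℤ) {k0 : ℕ} (hk0 : k0 < 6) {u : ℤ × ℤ} (hadj : triAdj v u) (hne : u ≠ v + hxDir k0) :
    ∃ t, 1 ≤ t ∧ t ≤ 5 ∧ u = v + hxDir (k0 + t) := by
  obtain ⟨j, hj, rfl⟩ := (hx_tri_iff_dir v u).1 hadj
  have hjk : j ≠ k0 := by
    rintro rfl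
    exact hne rfl
  refine ⟨(j + 6 - k0) % 6, ?_, ?_, ?_⟩
  · interval_cases k0 <;> interval_cases j <;> simp_all
  · interval_cases k0 <;> interval_cases j <;> simp_all
  · congr 1
    interval_cases k0 <;> interval_cases j <;> simp_all [hxDir]

/-- a corridor does not separate a region which contains its collar -/
theorem pvtb_cor_compl {n : ℕ} {c : ℕ → ℤ × ℤ} (h : PvtbCor n c) {Q : Set (ℤ × ℤ)} (hQ : TscConn tscG Q)
    (hcol : ∀ i, i ≤ n → ∀ v, pvtbG8.Adj (c i) v → v ∈ Q) : TscConn tscG (Q \ pvtbRan n c) := by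
  induction n with
  | zero =>
    have e : pvtbRan 0 c = {c 0} := by
      ext v
      constructor
      · rintro ⟨i, hi, rfl⟩
        have : i = 0 := by omega
        subst this
        rfl
      · rintro rfl
        exact ⟨0, le_rfl, rfl⟩
    rw [e]
    refine pvtb_del_vertex hQ ?_
    intro u hu u' hu' h1 h2
    have hall : ∀ t, c 0 + hxDir t ∈ Q \ {c 0} := fun t =>
      ⟨hcol 0 le_rfl _ (pvtb_tri_G8 (pvtb_dir_nb (c 0) t)), fun e => hx_tri_irrefl (c 0) (by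
        have := pvtb_dir_nb (c 0) t
        rwa [show c 0 + hxDir t = c 0 from e] at this)⟩
    obtain ⟨a, ha, rfl⟩ := (hx_tri_iff_dir (c 0) u).1 (hx_tri_symm _ _ h1)
    obtain ⟨b, hb, rfl⟩ := (hx_tri_iff_dir (c 0) u').1 (hx_tri_symm _ _ h2)
    rcases le_total a b with hab | hab
    · have := pvtb_dir_chain (T := Q \ {c 0}) (c 0) a (b - a) (fun t _ _ => hall t)
      rwa [Nat.add_sub_cancel' hab] at this
    · have := pvtb_dir_chain (T := Q \ {c 0}) (c 0) b (a - b) (fun t _ _ => hall t)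
      rw [Nat.add_sub_cancel' hab] at this
      exact tsc_R_symm this
  | succ n ih =>
    have hQ' := ih (pvtb_cor_pred h) (fun i hi => hcol i (by omega))
    have e : Q \ pvtbRan (n + 1) c = (Q \ pvtbRan n c) \ {c (n + 1)} := by
      rw [pvtb_ran_succ]
      ext x
      simp only [Set.mem_sdiff, Set.mem_insert_iff, Set.mem_singleton_iff]
      tauto
    rw [e]
    refine pvtb_del_vertex hQ' ?_
    intro u hu u' hu' h1 h2
    obtain ⟨k0, hk0, hcn⟩ := (hx_tri_iff_dir (c (n + 1)) (c n)).1 (hx_tri_symm _ _ (pvtb_G4_tri (h.step n (by omega))))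
    have hne : ∀ x, triAdj x (c (n + 1)) → x ∉ ({c (n + 1)} : Set (ℤ × ℤ)) := by
      rintro x hx rfl
      exact hx_tri_irrefl _ hx
    have hmid : ∀ t, 2 ≤ t → t ≤ 4 → c (n + 1) + hxDir (k0 + t) ∈ (Q \ pvtbRan n c) \ {c (n + 1)} := by
      intro t h2 h4
      have hnb := pvtb_dir_nb (c (n + 1)) (k0 + t)
      refine ⟨⟨hcol (n + 1) le_rfl _ (pvtb_tri_G8 hnb), ?_⟩, hne _ (hx_tri_symm _ _ hnb)⟩
      rintro ⟨i, hi, ei⟩
      have hfar := pvtb_dir_far (c (n + 1)) hk0 h2 h4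
      rw [← hcn, ei] at hfar
      have h8 : pvtbG8.Adj (c i) (c (n + 1)) := by
        rw [← ei]
        exact pvtb_tri_G8 (hx_tri_symm _ _ hnb)
      have h3 := (pvtb_cor_near h (i := i) (j := n + 1) (by omega) le_rfl h8).2
      rcases Nat.lt_or_ge i n with hlt | hge
      · have : i + 1 = n := by omega
        subst this
        exact hfar.2 (pvtb_G4_tri (h.step i (by omega)))
      · have : i = n := by omega
        subst this
        exact hfar.1 rfl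
    have hT : ∀ x ∈ Q \ pvtbRan n c, tscG.Adj x (c (n + 1)) → x ∈ (Q \ pvtbRan n c) \ {c (n + 1)} ∧ ∃ t, 1 ≤ t ∧ t ≤ 5 ∧ x = c (n + 1) + hxDir (k0 + t) := by
      intro x hx hadj
      refine ⟨⟨hx, hne x hadj⟩, pvtb_dir_rep (c (n + 1)) hk0 (hx_tri_symm _ _ hadj) ?_⟩
      rw [← hcn]
      rintro rfl
      exact hx.2 ⟨n, le_rfl, rfl⟩
    have main : ∀ x y a b, a ≤ b → 1 ≤ a → b ≤ 5 → x = c (n + 1) + hxDir (k0 + a) → y = c (n + 1) + hxDir (k0 + b) →
        x ∈ (Q \ pvtbRan n c) \ {c (n + 1)} → y ∈ (Q \ pvtbRan n c) \ {c (n + 1)} → TscR tscG ((Q \ pvtbRan n c) \ {c (n + 1)}) x y := by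
      intro x y a b hab ha hb ex ey hx hy
      have := pvtb_dir_chain (T := (Q \ pvtbRan n c) \ {c (n + 1)}) (c (n + 1)) (k0 + a) (b - a) (fun t' g1 g2 => ?_)
      · rw [show k0 + a + (b - a) = k0 + b by omega, ← ex, ← ey] at this
        exact this
      · have et : t' = k0 + (t' - k0) := by omega
        rw [et]
        have hc : t' - k0 = a ∨ t' - k0 = b ∨ (2 ≤ t' - k0 ∧ t' - k0 ≤ 4) := by omega
        rcases hc with hc | hc | hc
        · rw [hc, ← ex]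
          exact hx
        · rw [hc, ← ey]
          exact hy
        · exact hmid _ hc.1 hc.2
    obtain ⟨hu1, a, ha1, ha5, eu⟩ := hT u hu h1
    obtain ⟨hu1', b, hb1, hb5, eu'⟩ := hT u' hu' h2
    rcases le_total a b with hab | hab
    · exact main u u' a b hab ha1 hb5 eu eu' hu1 hu1'
    · exact tsc_R_symm (main u' u b a hab hb1 ha5 eu' eu hu1' hu1)

theorem pvtb_cor_compl_univ {n : ℕ} {c : ℕ → ℤ × ℤ} (h : PvtbCor n c) : TscConn pvtbG4 (pvtbRan n c)ᶜ := by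
  have hu : TscConn tscG (Set.univ : Set (ℤ × ℤ)) := by
    have := tsc_conn_prod Set.univ Set.univ Set.ordConnected_univ Set.ordConnected_univ
    rwa [Set.univ_prod_univ] at this
  have h1 : TscConn tscG (Set.univ \ pvtbRan n c) := pvtb_cor_compl h hu (fun _ _ _ _ => trivial)
  rw [← Set.compl_eq_univ_sdiff] at h1
  exact (pvtb_wc_conn (pvtb_wc_compl (pvtb_cor_wc h))).1 h1

/-! ### 5. thick corridors: the fine band of a coarse corridor -/

/-- the band of width `2r+1` fine cells round the coarse corridor `c` -/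
def pvtbBand (k r : ℤ) (n : ℕ) (c : ℕ → ℤ × ℤ) : Set (ℤ × ℤ) := pvtbD k r (pvtbRan n c)

theorem pvtb_band_wc {k r : ℤ} (h : ¬ k ∣ 2 * r + 1) (n : ℕ) (c : ℕ → ℤ × ℤ) : PvtbWC (pvtbBand k r n c) := pvtb_wc_D h _

theorem pvtb_band_finite (k r : ℤ) (n : ℕ) (c : ℕ → ℤ × ℤ) : (pvtbBand k r n c).Finite := pvtb_D_finite k r (pvtb_ran_finite n c)

theorem pvtb_band_conn {k r : ℤ} (hk : 0 ≤ k) (hr : k ≤ 2 * r) {n : ℕ} {c : ℕ → ℤ × ℤ} (h : PvtbCor n c) : TscConn pvtbG4 (pvtbBand k r n c) :=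
  pvtb_D_conn hk hr (fun u hu v hv => pvtb_R_le (fun _ _ => pvtb_G4_G8) (pvtb_cor_conn h u hu v hv))

/-- far squares of the band neither meet nor touch -/
theorem pvtb_band_far {k r : ℤ} (hrk : r < k) {n : ℕ} {c : ℕ → ℤ × ℤ} (h : PvtbCor n c) {i j : ℕ} (hij : i + 3 ≤ j) (hj : j ≤ n) {u v : ℤ × ℤ}
    (hu : u ∈ pvtbD k r {c i}) (hv : v ∈ pvtbD k r {c j}) : u ≠ v ∧ ¬ pvtbG8.Adj u v := by
  obtain ⟨p, hp, hu1, hu2, hu3, hu4⟩ := hu
  have hk : 0 ≤ k := by omega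
  have hf := h.far i j hij hj
  have := pvtb_D_far (r := r) hk hf.1 hf.2 (u := u) (v := v) ⟨p, hp, hu1, hu2, hu3, hu4⟩ hv
  constructor
  · rintro rfl
    simp only [sub_self, abs_zero] at this
    omega
  · intro hadj
    rw [pvtb_G8_adj] at hadj
    rcases this with h1 | h1
    · have : |u.1 - v.1| ≤ 1 := abs_le.2 ⟨by omega, by omega⟩
      omega
    · have : |u.2 - v.2| ≤ 1 := abs_le.2 ⟨by omega, by omega⟩
      omega

/-- `H^1 = 0` for the band -/
theorem pvtb_band_sc {m r : ℤ} (hm : 0 ≤ m) (h1 : m ≤ r) (h2 : r < 2 * m + 1) {n : ℕ} {c : ℕ → ℤ × ℤ} (h : PvtbCor n c) :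
    TriSCOn (ZMod 2) tscG (pvtbBand (2 * m + 1) r n c) :=
  pvtb_D_sc hm h1 h2 (pvtb_ran_finite n c) (pvtb_cor_compl_univ h)

/-- the two ends of the band -/
theorem pvtb_band_strip {k r : ℤ} (hk : 0 ≤ k) (hr : k ≤ 2 * r) {n : ℕ} {c : ℕ → ℤ × ℤ} (h : PvtbCor n c) :
    PlcStrip tscG (pvtbBand k r n c) (pvtbD k r {c 0}) (pvtbD k r {c n}) := by
  have hsub : ∀ i, i ≤ n → pvtbD k r {c i} ⊆ pvtbBand k r n c := fun i hi =>
    pvtb_D_mono le_rfl (by rintro _ rfl; exact ⟨i, hi, rfl⟩)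
  have hne : ∀ p : ℤ × ℤ, (pvtbD k r {p}).Nonempty := fun p => ⟨(k * p.1, k * p.2), p, rfl, by dsimp only; omega⟩
  exact ⟨fun u hu v hv => pvtb_R_le (fun _ _ => pvtb_G4_tri) (pvtb_band_conn hk hr h u hu v hv), hsub 0 (Nat.zero_le n), hsub n le_rfl, hne _, hne _⟩

/-- two consecutive squares in the middle of the band form a cutset between the two ends (ONE square is not enough at a turn: the two cells across the concave corner touch) -/
theorem pvtb_band_cut {k r : ℤ} (hk : 0 ≤ k) (hr : k ≤ 2 * r) (hrk : r < k) {n : ℕ} {c : ℕ → ℤ × ℤ} (h : PvtbCor n c) {i : ℕ} (h3 : 3 ≤ i) (hi : i + 4 ≤ n) :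
    PlcCutset tscG (pvtbBand k r n c) (pvtbD k r {c 0}) (pvtbD k r {c n}) (pvtbD k r {c i, c (i + 1)}) := by
  have hmem : ∀ x, x ∈ pvtbBand k r n c → ∃ b, b ≤ n ∧ x ∈ pvtbD k r {c b} := by
    rintro x ⟨p, ⟨b, hb, rfl⟩, hx⟩
    exact ⟨b, hb, c b, rfl, hx⟩
  have hK : ∀ x, x ∈ pvtbD k r {c i, c (i + 1)} ↔ x ∈ pvtbD k r {c i} ∨ x ∈ pvtbD k r {c (i + 1)} := by
    intro x
    have e : ({c i, c (i + 1)} : Set (ℤ × ℤ)) = {c i} ∪ {c (i + 1)} := rfl
    rw [e, pvtb_D_union]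
    rfl
  refine ⟨?_, ?_, ?_, ?_, ?_⟩
  · refine pvtb_D_mono le_rfl ?_
    rintro _ (rfl | rfl)
    · exact ⟨i, by omega, rfl⟩
    · exact ⟨i + 1, by omega, rfl⟩
  · have h8 : TscConn pvtbG8 ({c i, c (i + 1)} : Set (ℤ × ℤ)) := by
      have hs : TscR pvtbG8 ({c i, c (i + 1)} : Set (ℤ × ℤ)) (c i) (c (i + 1)) :=
        tsc_R_step (pvtb_G4_G8 (h.step i (by omega))) (Or.inl rfl) (Or.inr rfl)
      rintro u (rfl | rfl) v (rfl | rfl)
      · exact tsc_R_refl _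
      · exact hs
      · exact tsc_R_symm hs
      · exact tsc_R_refl _
    exact fun u hu v hv => pvtb_R_le (fun _ _ => pvtb_G4_tri) (pvtb_D_conn hk hr h8 u hu v hv)
  · intro d hd hdK
    rcases (hK d).1 hdK with h1 | h1
    · exact (pvtb_band_far hrk h (i := 0) (j := i) (by omega) (by omega) hd h1).1 rfl
    · exact (pvtb_band_far hrk h (i := 0) (j := i + 1) (by omega) (by omega) hd h1).1 rfl
  · intro d hd hdK
    rcases (hK d).1 hdK with h1 | h1
    · exact (pvtb_band_far hrk h (i := i) (j := n) (by omega) le_rfl h1 hd).1 rfl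
    · exact (pvtb_band_far hrk h (i := i + 1) (j := n) (by omega) le_rfl h1 hd).1 rfl
  · intro d hd b hb hpath
    have key : ∀ x, TscR tscG (pvtbBand k r n c \ pvtbD k r {c i, c (i + 1)}) d x → ∃ a, a < i ∧ x ∈ pvtbD k r {c a} := by
      intro x hx
      induction hx with
      | refl => exact ⟨0, by omega, hd⟩
      | @tail x y _ hxy ih =>
        obtain ⟨a, ha, hxa⟩ := ih
        obtain ⟨b', hb', hyb⟩ := hmem y hxy.2.2.1
        rcases Nat.lt_or_ge b' i with hlt | hge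
        · exact ⟨b', hlt, hyb⟩
        · exfalso
          have h1 : b' ≠ i := by
            rintro rfl
            exact hxy.2.2.2 ((hK y).2 (Or.inl hyb))
          have h2 : b' ≠ i + 1 := by
            rintro rfl
            exact hxy.2.2.2 ((hK y).2 (Or.inr hyb))
          exact (pvtb_band_far hrk h (i := a) (j := b') (by omega) hb' hxa hyb).2 (pvtb_tri_G8 hxy.1)
    obtain ⟨a, ha, hba⟩ := key b hpath
    exact (pvtb_band_far hrk h (i := a) (j := n) (by omega) le_rfl hba hb).1 rfl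

/-! ### 6. aligned sets: a Boolean calculus of well-composed sets

`D k r F` changes only across the grid lines of residues `r` and `-r-1` mod `k`.   Two well-composed sets which never change across the same line have
a well-composed intersection / union / difference.   So every region cut out of rings `D r' F \ D r F` by doors `D ρ G` (levels pairwise different) is well-composed,
its components are well-composed (`pvtb_wc_comp`) and carry corridors (`pvtb_cor_exists`). -/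

/-- `S` changes only across the vertical / horizontal grid lines whose residue mod `k` lies in `R` -/
def PvtbAl (k : ℤ) (R : Set ℤ) (S : Set (ℤ × ℤ)) : Prop :=
  (∀ x y : ℤ, ((x, y) ∈ S ↔ (x + 1, y) ∈ S) ∨ x % k ∈ R) ∧ (∀ x y : ℤ, ((x, y) ∈ S ↔ (x, y + 1) ∈ S) ∨ y % k ∈ R)

theorem pvtb_al_mono {k : ℤ} {R R' : Set ℤ} {S : Set (ℤ × ℤ)} (h : PvtbAl k R S) (hR : R ⊆ R') : PvtbAl k R' S :=
  ⟨fun x y => (h.1 x y).imp id (fun e => hR e), fun x y => (h.2 x y).imp id (fun e => hR e)⟩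

theorem pvtb_al_compl {k : ℤ} {R : Set ℤ} {S : Set (ℤ × ℤ)} (h : PvtbAl k R S) : PvtbAl k R Sᶜ :=
  ⟨fun x y => (h.1 x y).imp (fun e => not_congr e) id, fun x y => (h.2 x y).imp (fun e => not_congr e) id⟩

theorem pvtb_al_inter {k : ℤ} {R R' : Set ℤ} {S T : Set (ℤ × ℤ)} (hS : PvtbAl k R S) (hT : PvtbAl k R' T) : PvtbAl k (R ∪ R') (S ∩ T) := by
  constructor
  · intro x y
    rcases hS.1 x y with e | e
    · rcases hT.1 x y with e' | e'
      · exact Or.inl (and_congr e e')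
      · exact Or.inr (Or.inr e')
    · exact Or.inr (Or.inl e)
  · intro x y
    rcases hS.2 x y with e | e
    · rcases hT.2 x y with e' | e'
      · exact Or.inl (and_congr e e')
      · exact Or.inr (Or.inr e')
    · exact Or.inr (Or.inl e)

theorem pvtb_al_D (k r : ℤ) (F : Set (ℤ × ℤ)) : PvtbAl k {r % k, (-r - 1) % k} (pvtbD k r F) := by
  have key : ∀ a c : ℤ, (a = k * c + r → a % k = r % k) ∧ (a + 1 = k * c - r → a % k = (-r - 1) % k) := by
    intro a c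
    constructor
    · rintro rfl
      rw [add_comm, Int.add_mul_emod_self_left]
    · intro e
      have : a = (-r - 1) + k * c := by omega
      rw [this, Int.add_mul_emod_self_left]
  constructor
  · intro x y
    by_cases h1 : (x, y) ∈ pvtbD k r F
    · by_cases h2 : (x + 1, y) ∈ pvtbD k r F
      · exact Or.inl ⟨fun _ => h2, fun _ => h1⟩
      · obtain ⟨p, hp, g1, g2, g3, g4⟩ := h1
        simp only at g1 g2 g3 g4
        refine Or.inr (Or.inl ((key x p.1).1 ?_))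
        by_contra hc
        exact h2 ⟨p, hp, by simp only; omega⟩
    · by_cases h2 : (x + 1, y) ∈ pvtbD k r F
      · obtain ⟨p, hp, g1, g2, g3, g4⟩ := h2
        simp only at g1 g2 g3 g4
        refine Or.inr (Or.inr ((key x p.1).2 ?_))
        by_contra hc
        exact h1 ⟨p, hp, by simp only; omega⟩
      · exact Or.inl ⟨fun e => (h1 e).elim, fun e => (h2 e).elim⟩
  · intro x y
    by_cases h1 : (x, y) ∈ pvtbD k r F
    · by_cases h2 : (x, y + 1) ∈ pvtbD k r F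
      · exact Or.inl ⟨fun _ => h2, fun _ => h1⟩
      · obtain ⟨p, hp, g1, g2, g3, g4⟩ := h1
        simp only at g1 g2 g3 g4
        refine Or.inr (Or.inl ((key y p.2).1 ?_))
        by_contra hc
        exact h2 ⟨p, hp, by simp only; omega⟩
    · by_cases h2 : (x, y + 1) ∈ pvtbD k r F
      · obtain ⟨p, hp, g1, g2, g3, g4⟩ := h2
        simp only at g1 g2 g3 g4
        refine Or.inr (Or.inr ((key y p.2).2 ?_))
        by_contra hc
        exact h1 ⟨p, hp, by simp only; omega⟩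
      · exact Or.inl ⟨fun e => (h1 e).elim, fun e => (h2 e).elim⟩

/-- **intersection of two well-composed sets which never change across the same line** -/
theorem pvtb_wc_inter {k : ℤ} {R R' : Set ℤ} {S T : Set (ℤ × ℤ)} (hS : PvtbWC S) (hT : PvtbWC T) (aS : PvtbAl k R S) (aT : PvtbAl k R' T)
    (hd : ∀ a, a ∈ R → a ∈ R' → False) : PvtbWC (S ∩ T) := by
  -- if one of the two sets changes horizontally and vertically in the window, the other one is constant on it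
  have const : ∀ {R R' : Set ℤ} {S T : Set (ℤ × ℤ)}, PvtbAl k R S → PvtbAl k R' T → (∀ a, a ∈ R → a ∈ R' → False) → ∀ x y y' x' : ℤ,
      ¬ ((x, y') ∈ S ↔ (x + 1, y') ∈ S) → ¬ ((x', y) ∈ S ↔ (x', y + 1) ∈ S) →
      (∀ b, ((x, b) ∈ T ↔ (x + 1, b) ∈ T)) ∧ (∀ a, ((a, y) ∈ T ↔ (a, y + 1) ∈ T)) := by
    intro R R' S T aS aT hd x y y' x' h1 h2
    have r1 : x % k ∈ R := (aS.1 x y').resolve_left h1
    have r2 : y % k ∈ R := (aS.2 x' y).resolve_left h2
    exact ⟨fun b => (aT.1 x b).resolve_right (fun e => hd _ r1 e), fun a => (aT.2 a y).resolve_right (fun e => hd _ r2 e)⟩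
  intro x y
  constructor
  · rintro ⟨p1, p2⟩ ⟨q1, q2⟩
    by_contra hc
    push Not at hc
    obtain ⟨c1, c2⟩ := hc
    by_cases s1 : (x + 1, y) ∈ S
    · have t1 : (x + 1, y) ∉ T := fun e => c1 ⟨s1, e⟩
      obtain ⟨u1, u2⟩ := const aT aS (fun a h h' => hd a h' h) x y y (x + 1) (fun e => t1 (e.1 p2)) (fun e => t1 (e.2 q2))
      have s2 : (x, y + 1) ∈ S := (u2 x).1 p1
      have t2 : (x, y + 1) ∉ T := fun e => c2 ⟨s2, e⟩
      rcases (hT x y).1 p2 q2 with e | e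
      · exact t1 e
      · exact t2 e
    · obtain ⟨u1, u2⟩ := const aS aT hd x y y (x + 1) (fun e => s1 (e.1 p1)) (fun e => s1 (e.2 q1))
      have t2 : (x, y + 1) ∈ T := (u2 x).1 p2
      have s2 : (x, y + 1) ∉ S := fun e => c2 ⟨e, t2⟩
      rcases (hS x y).1 p1 q1 with e | e
      · exact s1 e
      · exact s2 e
  · rintro ⟨p1, p2⟩ ⟨q1, q2⟩
    by_contra hc
    push Not at hc
    obtain ⟨c1, c2⟩ := hc
    by_cases s1 : (x, y) ∈ S
    · have t1 : (x, y) ∉ T := fun e => c1 ⟨s1, e⟩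
      obtain ⟨u1, u2⟩ := const aT aS (fun a h h' => hd a h' h) x y y x (fun e => t1 (e.2 p2)) (fun e => t1 (e.2 q2))
      have s2 : (x + 1, y + 1) ∈ S := (u2 (x + 1)).1 p1
      have t2 : (x + 1, y + 1) ∉ T := fun e => c2 ⟨s2, e⟩
      rcases (hT x y).2 p2 q2 with e | e
      · exact t1 e
      · exact t2 e
    · obtain ⟨u1, u2⟩ := const aS aT hd x y y x (fun e => s1 (e.2 p1)) (fun e => s1 (e.2 q1))
      have t2 : (x + 1, y + 1) ∈ T := (u2 (x + 1)).1 p2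
      have s2 : (x + 1, y + 1) ∉ S := fun e => c2 ⟨e, t2⟩
      rcases (hS x y).2 p1 q1 with e | e
      · exact s1 e
      · exact s2 e

/-- well-composed + aligned, bundled -/
structure PvtbGd (k : ℤ) (R : Set ℤ) (S : Set (ℤ × ℤ)) : Prop where
  wc : PvtbWC S
  al : PvtbAl k R S

theorem PvtbGd.compl {k : ℤ} {R : Set ℤ} {S : Set (ℤ × ℤ)} (h : PvtbGd k R S) : PvtbGd k R Sᶜ := ⟨pvtb_wc_compl h.wc, pvtb_al_compl h.al⟩

theorem PvtbGd.inter {k : ℤ} {R R' : Set ℤ} {S T : Set (ℤ × ℤ)} (hS : PvtbGd k R S) (hT : PvtbGd k R' T) (hd : ∀ a, a ∈ R → a ∈ R' → False) :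
    PvtbGd k (R ∪ R') (S ∩ T) := ⟨pvtb_wc_inter hS.wc hT.wc hS.al hT.al hd, pvtb_al_inter hS.al hT.al⟩

theorem PvtbGd.diff {k : ℤ} {R R' : Set ℤ} {S T : Set (ℤ × ℤ)} (hS : PvtbGd k R S) (hT : PvtbGd k R' T) (hd : ∀ a, a ∈ R → a ∈ R' → False) :
    PvtbGd k (R ∪ R') (S \ T) := hS.inter hT.compl hd

theorem PvtbGd.union {k : ℤ} {R R' : Set ℤ} {S T : Set (ℤ × ℤ)} (hS : PvtbGd k R S) (hT : PvtbGd k R' T) (hd : ∀ a, a ∈ R → a ∈ R' → False) :
    PvtbGd k (R ∪ R') (S ∪ T) := by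
  have := (hS.compl.inter hT.compl hd).compl
  rwa [Set.compl_inter, compl_compl, compl_compl] at this

theorem PvtbGd.mono {k : ℤ} {R R' : Set ℤ} {S : Set (ℤ × ℤ)} (h : PvtbGd k R S) (hR : R ⊆ R') : PvtbGd k R' S := ⟨h.wc, pvtb_al_mono h.al hR⟩

/-- the residues of level `r`, `m ≤ r ≤ 2m`, `k = 2m+1`, are `r` and `2m - r` -/
theorem pvtb_gd_D {m r : ℤ} (h1 : m < r) (h2 : r < 2 * m + 1) (F : Set (ℤ × ℤ)) : PvtbGd (2 * m + 1) {r, 2 * m - r} (pvtbD (2 * m + 1) r F) := by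
  refine ⟨pvtb_wc_D' h1 h2 F, ?_⟩
  have := pvtb_al_D (2 * m + 1) r F
  have e1 : r % (2 * m + 1) = r := Int.emod_eq_of_lt (by omega) h2
  have e2 : (-r - 1) % (2 * m + 1) = 2 * m - r := by
    have : -r - 1 = (2 * m - r) + (2 * m + 1) * (-1) := by ring
    rw [this, Int.add_mul_emod_self_left]
    exact Int.emod_eq_of_lt (by omega) (by omega)
  rwa [e1, e2] at this

/-- the plain refinement of a well-composed set -/
theorem pvtb_gd_D_plain {m : ℤ} (hm : 0 ≤ m) {F : Set (ℤ × ℤ)} (hF : PvtbWC F) : PvtbGd (2 * m + 1) {m} (pvtbD (2 * m + 1) m F) := by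
  have hk : (0 : ℤ) < 2 * m + 1 := by omega
  constructor
  · intro x y
    simp only [pvtb_Co_mem hm, pvtbCo]
    have a1 : (x + m) / (2 * m + 1) ≤ (x + 1 + m) / (2 * m + 1) := Int.ediv_le_ediv hk (by omega)
    have a2 : (x + 1 + m) / (2 * m + 1) ≤ (x + m) / (2 * m + 1) + 1 := pvtb_div_lip hk (by omega)
    have b1 : (y + m) / (2 * m + 1) ≤ (y + 1 + m) / (2 * m + 1) := Int.ediv_le_ediv hk (by omega)
    have b2 : (y + 1 + m) / (2 * m + 1) ≤ (y + m) / (2 * m + 1) + 1 := pvtb_div_lip hk (by omega)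
    generalize (x + m) / (2 * m + 1) = A at *
    generalize (x + 1 + m) / (2 * m + 1) = A' at *
    generalize (y + m) / (2 * m + 1) = B at *
    generalize (y + 1 + m) / (2 * m + 1) = B' at *
    have ca : A' = A ∨ A' = A + 1 := by omega
    have cb : B' = B ∨ B' = B + 1 := by omega
    rcases ca with rfl | rfl
    · exact ⟨fun h _ => Or.inl h, fun h _ => Or.inl h⟩
    · rcases cb with rfl | rfl
      · exact ⟨fun h _ => Or.inr h, fun _ h => Or.inl h⟩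
      · exact hF A B
  · have := pvtb_al_D (2 * m + 1) m F
    have e1 : m % (2 * m + 1) = m := Int.emod_eq_of_lt hm (by omega)
    have e2 : (-m - 1) % (2 * m + 1) = m := by
      have : -m - 1 = m + (2 * m + 1) * (-1) := by ring
      rw [this, Int.add_mul_emod_self_left]
      exact e1
    rwa [e1, e2, Set.pair_eq_singleton] at this

/-- two different levels have different residues -/
theorem pvtb_res_disj {m r r' : ℤ} (h1 : m ≤ r) (h1' : m ≤ r') (hne : r ≠ r') : ∀ a, a ∈ ({r, 2 * m - r} : Set ℤ) → a ∈ ({r', 2 * m - r'} : Set ℤ) → False := by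
  intro a ha ha'
  simp only [Set.mem_insert_iff, Set.mem_singleton_iff] at ha ha'
  omega

/-! ### 7. the (8,4) hull

`pvtHull` of Tr/Poly is the hull for `tscG`: a hole which communicates with the outside only through an anti-diagonal corner is not filled, but every fattening `D r`, `r > m`, closes that corner.
The hull which survives the fattening is the hull for the pair (8-connected sets, 4-connected complements). -/

/-- the cells which are joined to infinity by a 4-path off `S` -/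
def pvtbOut (S : Set (ℤ × ℤ)) : Set (ℤ × ℤ) := {z | ∀ B : Set (ℤ × ℤ), B.Finite → ∃ t, t ∉ B ∧ TscR pvtbG4 Sᶜ z t}

/-- `S` and its holes, a hole being a bounded 4-component of the complement -/
def pvtbHull (S : Set (ℤ × ℤ)) : Set (ℤ × ℤ) := (pvtbOut S)ᶜ

section hull4

variable {S S' : Set (ℤ × ℤ)} {a b c d : ℤ} {z w : ℤ × ℤ}

theorem pvtb_box_wc (a b c d : ℤ) : PvtbWC (tscBox a b c d) := by
  intro x y
  simp only [tscBox, Set.mem_ofPred_eq]
  constructor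
  · intro h1 h2
    left
    omega
  · intro h1 h2
    left
    omega

theorem pvtb_box_compl_conn (a b c d : ℤ) : TscConn pvtbG4 (tscBox a b c d)ᶜ :=
  (pvtb_wc_conn (pvtb_wc_compl (pvtb_box_wc a b c d))).1 (tsc_box_compl_conn a b c d)

theorem pvtb_out_sub : pvtbOut S ⊆ Sᶜ := by
  intro z hz
  obtain ⟨t, ht, h⟩ := hz {z} (Set.finite_singleton z)
  rcases ReflTransGen.cases_head h with h0 | ⟨c, hc, -⟩
  · exact absurd h0.symm ht
  · exact hc.2.1

/-- comparison with the hull of Tr/Poly: the right side is `pvtOut S` -/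
theorem pvtb_out_sub_tri : pvtbOut S ⊆ {z | ∀ B : Set (ℤ × ℤ), B.Finite → ∃ t, t ∉ B ∧ TscR tscG Sᶜ z t} := by
  intro z hz B hB
  obtain ⟨t, ht, h⟩ := hz B hB
  exact ⟨t, ht, pvtb_R_le (fun _ _ => pvtb_G4_tri) h⟩

theorem pvtb_out_R (hz : z ∈ pvtbOut S) (h : TscR pvtbG4 Sᶜ z w) : w ∈ pvtbOut S := by
  intro B hB
  obtain ⟨t, ht, h'⟩ := hz B hB
  exact ⟨t, ht, tsc_R_trans (tsc_R_symm h) h'⟩

theorem pvtb_out_R_in (hz : z ∈ pvtbOut S) (h : TscR pvtbG4 Sᶜ z w) : TscR pvtbG4 (pvtbOut S) z w := by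
  induction h with
  | refl => exact tsc_R_refl _
  | @tail b c hb hbc ih =>
    have hb' : b ∈ pvtbOut S := pvtb_out_R hz hb
    exact ih.tail ⟨hbc.1, hb', pvtb_out_R hb' (ReflTransGen.single hbc)⟩

theorem pvtb_out_of_box (hS : S ⊆ tscBox a b c d) (hz : z ∉ tscBox a b c d) : z ∈ pvtbOut S := by
  intro B hB
  obtain ⟨t, ht⟩ := (hB.union (tsc_box_finite a b c d)).infinite_compl.nonempty
  have ht' : t ∉ B ∧ t ∉ tscBox a b c d := by
    simpa [not_or] using ht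
  exact ⟨t, ht'.1, tsc_R_mono (Set.compl_subset_compl.2 hS) (pvtb_box_compl_conn a b c d z hz t ht'.2)⟩

theorem pvtb_out_iff (hS : S ⊆ tscBox a b c d) : z ∈ pvtbOut S ↔ ∃ t, t ∉ tscBox a b c d ∧ TscR pvtbG4 Sᶜ z t := by
  constructor
  · intro hz
    exact hz _ (tsc_box_finite a b c d)
  · rintro ⟨t, ht, h⟩
    exact pvtb_out_R (pvtb_out_of_box hS ht) (tsc_R_symm h)

theorem pvtb_finite_sub_box (hS : S.Finite) : ∃ a b c d : ℤ, S ⊆ tscBox a b c d := by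
  obtain ⟨x0, y0, a, b, h⟩ := hx_finite_sub_box hS
  refine ⟨x0, x0 + a, y0, y0 + b, fun p hp => ?_⟩
  have := h hp
  simp only [hxBox, Set.mem_ofPred_eq] at this
  simp only [tscBox, Set.mem_ofPred_eq]
  omega

theorem pvtb_out_nonempty (hS : S.Finite) : (pvtbOut S).Nonempty := by
  obtain ⟨a, b, c, d, h⟩ := pvtb_finite_sub_box hS
  obtain ⟨t, ht⟩ := (tsc_box_finite a b c d).infinite_compl.nonempty
  exact ⟨t, pvtb_out_of_box h ht⟩

/-- the outside is ONE 4-component of the complement -/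
theorem pvtb_out_comp (hS : S.Finite) (hz : z ∈ pvtbOut S) : tscComp pvtbG4 Sᶜ z = pvtbOut S := by
  obtain ⟨a, b, c, d, h⟩ := pvtb_finite_sub_box hS
  ext v
  constructor
  · intro hv
    exact pvtb_out_R hz hv.2
  · intro hv
    obtain ⟨t, ht, h1⟩ := (pvtb_out_iff h).1 hz
    obtain ⟨t', ht', h2⟩ := (pvtb_out_iff h).1 hv
    exact ⟨pvtb_out_sub hv, tsc_R_trans h1 (tsc_R_trans (tsc_R_mono (Set.compl_subset_compl.2 h) (pvtb_box_compl_conn a b c d t ht t' ht')) (tsc_R_symm h2))⟩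

/-- **the outside of a finite set is 4-connected** -/
theorem pvtb_out_conn (hS : S.Finite) : TscConn pvtbG4 (pvtbOut S) := by
  intro u hu v hv
  have := tsc_comp_conn (G := pvtbG4) (s := Sᶜ) u
  rw [pvtb_out_comp hS hu] at this
  exact this u hu v hv

theorem pvtb_hull_sub : S ⊆ pvtbHull S := fun _ hz h => pvtb_out_sub h hz

theorem pvtb_hull_compl : (pvtbHull S)ᶜ = pvtbOut S := compl_compl _

theorem pvtb_hull_box (hS : S ⊆ tscBox a b c d) : pvtbHull S ⊆ tscBox a b c d := by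
  intro z hz
  by_contra h
  exact hz (pvtb_out_of_box hS h)

theorem pvtb_hull_finite (hS : S.Finite) : (pvtbHull S).Finite := by
  obtain ⟨a, b, c, d, h⟩ := pvtb_finite_sub_box hS
  exact (tsc_box_finite a b c d).subset (pvtb_hull_box h)

theorem pvtb_out_anti (h : S ⊆ S') : pvtbOut S' ⊆ pvtbOut S := by
  intro z hz B hB
  obtain ⟨t, ht, h'⟩ := hz B hB
  exact ⟨t, ht, tsc_R_mono (Set.compl_subset_compl.2 h) h'⟩

theorem pvtb_hull_mono (h : S ⊆ S') : pvtbHull S ⊆ pvtbHull S' := Set.compl_subset_compl.2 (pvtb_out_anti h)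

/-- a cell of the hull which has a common side with a cell of the outside belongs to `S` -/
theorem pvtb_hull_bd (hz : z ∈ pvtbHull S) (hw : w ∈ pvtbOut S) (h : pvtbG4.Adj z w) : z ∈ S := by
  by_contra hzS
  exact hz (pvtb_out_R hw (tsc_R_step (G := pvtbG4) h.symm (pvtb_out_sub hw) hzS))

/-- a cell of the hull which touches a cell of the outside touches `S` or belongs to it: some cell of `S` lies in the common 2 x 2 window -/
theorem pvtb_hull_bd8 (hz : z ∈ pvtbHull S) (hw : w ∈ pvtbOut S) (h : pvtbG8.Adj z w) : z ∈ S ∨ ∃ e ∈ S, pvtbG4.Adj z e ∧ pvtbG4.Adj e w := by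
  obtain ⟨z1, z2⟩ := z
  obtain ⟨w1, w2⟩ := w
  obtain ⟨hne, g1, g2, g3, g4⟩ := h
  rw [Ne, Prod.ext_iff] at hne
  simp only at hne g1 g2 g3 g4
  by_cases h4 : pvtbG4.Adj (z1, z2) (w1, w2)
  · exact Or.inl (pvtb_hull_bd hz hw h4)
  · have hx : w1 ≠ z1 := fun e => h4 (pvtb_G4_of _ _ _ _ (by omega))
    have hy : w2 ≠ z2 := fun e => h4 (pvtb_G4_of _ _ _ _ (by omega))
    have a1 : pvtbG4.Adj (z1, z2) (w1, z2) := pvtb_G4_of _ _ _ _ (by omega)
    have a2 : pvtbG4.Adj (w1, z2) (w1, w2) := pvtb_G4_of _ _ _ _ (by omega)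
    by_cases he : (w1, z2) ∈ S
    · exact Or.inr ⟨_, he, a1, a2⟩
    · exact Or.inl (pvtb_hull_bd hz (pvtb_out_R hw (tsc_R_step (G := pvtbG4) a2.symm (pvtb_out_sub hw) he)) a1)

theorem pvtb_out_hull : pvtbOut (pvtbHull S) = pvtbOut S := by
  apply Set.Subset.antisymm (pvtb_out_anti pvtb_hull_sub)
  intro z hz B hB
  obtain ⟨t, ht, h'⟩ := hz B hB
  refine ⟨t, ht, ?_⟩
  have := pvtb_out_R_in hz h'
  rwa [pvtbHull, compl_compl]

theorem pvtb_hull_idem : pvtbHull (pvtbHull S) = pvtbHull S := by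
  rw [pvtbHull, pvtb_out_hull]
  rfl

theorem pvtb_univ_R (u v : ℤ × ℤ) : TscR pvtbG4 Set.univ u v :=
  tsc_R_trans (pvtb_R_hseg (x := u.1) (x' := v.1) (y := u.2) (fun _ _ _ => Set.mem_univ _)) (pvtb_R_vseg (x := v.1) (y := u.2) (y' := v.2) (fun _ _ _ => Set.mem_univ _))

theorem pvtb_comp_step {T : Set (ℤ × ℤ)} {u v : ℤ × ℤ} (h : TscR pvtbG4 T u v) : tscComp pvtbG4 T v ⊆ tscComp pvtbG4 T u :=
  fun _ hx => ⟨hx.1, tsc_R_trans h hx.2⟩

/-- from every cell one reaches `S` through its own complementary 4-component -/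
theorem pvtb_reach (hne : S.Nonempty) (u : ℤ × ℤ) : ∃ k ∈ S, TscR pvtbG4 (S ∪ tscComp pvtbG4 Sᶜ u) u k := by
  obtain ⟨k0, hk0⟩ := hne
  have h := pvtb_univ_R u k0
  induction h using ReflTransGen.head_induction_on with
  | refl => exact ⟨k0, hk0, tsc_R_refl _⟩
  | @head a a' haa' _ ih =>
    by_cases ha : a ∈ S
    · exact ⟨a, ha, tsc_R_refl _⟩
    by_cases ha' : a' ∈ S
    · exact ⟨a', ha', tsc_R_step haa'.1 (Or.inr (tsc_comp_self ha)) (Or.inl ha')⟩
    obtain ⟨k, hk, hR⟩ := ih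
    have hstep : TscR pvtbG4 Sᶜ a a' := tsc_R_step haa'.1 ha ha'
    refine ⟨k, hk, tsc_R_trans (tsc_R_step haa'.1 (Or.inr (tsc_comp_self ha)) (Or.inr ⟨ha', hstep⟩)) (tsc_R_mono (Set.union_subset_union_right _ (pvtb_comp_step hstep)) hR)⟩

theorem pvtb_hole_sub (hz : z ∈ pvtbHull S) : tscComp pvtbG4 Sᶜ z ⊆ pvtbHull S \ S := by
  intro v hv
  exact ⟨fun h => hz (pvtb_out_R h (tsc_R_symm hv.2)), hv.1⟩

theorem pvtb_hull_empty : pvtbHull (∅ : Set (ℤ × ℤ)) = ∅ := by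
  have h : pvtbHull (∅ : Set (ℤ × ℤ)) ⊆ tscBox 1 0 1 0 := pvtb_hull_box (Set.empty_subset _)
  apply Set.eq_empty_of_forall_notMem
  intro x hx
  have := h hx
  simp only [tscBox, Set.mem_ofPred_eq] at this
  omega

theorem pvtb_nonempty_of_hull (hz : z ∈ pvtbHull S) : S.Nonempty := by
  by_contra h
  rw [Set.not_nonempty_iff_eq_empty] at h
  subst h
  rw [pvtb_hull_empty] at hz
  exact hz

/-- every cell of the hull is joined to `S` by a 4-path inside the hull -/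
theorem pvtb_hull_to (hz : z ∈ pvtbHull S) : ∃ k ∈ S, TscR pvtbG4 (pvtbHull S) z k := by
  obtain ⟨k, hk, h⟩ := pvtb_reach (pvtb_nonempty_of_hull hz) z
  exact ⟨k, hk, tsc_R_mono (Set.union_subset pvtb_hull_sub (fun x hx => (pvtb_hole_sub hz hx).1)) h⟩

/-- **the hull of an 8-connected set is 8-connected** -/
theorem pvtb_hull_conn (hc : TscConn pvtbG8 S) : TscConn pvtbG8 (pvtbHull S) := by
  intro u hu v hv
  obtain ⟨k, hk, h⟩ := pvtb_hull_to hu
  obtain ⟨k', hk', h'⟩ := pvtb_hull_to hv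
  exact tsc_R_trans (pvtb_R_le (fun _ _ => pvtb_G4_G8) h) (tsc_R_trans (tsc_R_mono pvtb_hull_sub (hc k hk k' hk')) (tsc_R_symm (pvtb_R_le (fun _ _ => pvtb_G4_G8) h')))

/-- a set with 4-connected complement is its own hull -/
theorem pvtb_hull_eq (hS : S.Finite) (hc : TscConn pvtbG4 Sᶜ) : pvtbHull S = S := by
  apply Set.Subset.antisymm _ pvtb_hull_sub
  intro z hz
  by_contra hzS
  obtain ⟨t, ht⟩ := pvtb_out_nonempty hS
  exact hz (pvtb_out_R ht (hc t (pvtb_out_sub ht) z hzS))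

end hull4

/-- **MASTER: simply connected polyominoes.**   Fill ONCE at the coarse scale, fatten at the fine scale by less than half a coarse cell. -/
theorem pvtb_poly {m r : ℤ} (h1 : m < r) (h2 : r < 2 * m + 1) {F0 : Set (ℤ × ℤ)} (hfin : F0.Finite) (hc : TscConn pvtbG8 F0) :
    (pvtbD (2 * m + 1) r (pvtbHull F0)).Finite ∧ PvtbGd (2 * m + 1) {r, 2 * m - r} (pvtbD (2 * m + 1) r (pvtbHull F0)) ∧
      TscConn pvtbG4 (pvtbD (2 * m + 1) r (pvtbHull F0)) ∧ TscConn pvtbG4 (pvtbD (2 * m + 1) r (pvtbHull F0))ᶜ ∧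
      TriSCOn (ZMod 2) tscG (pvtbD (2 * m + 1) r (pvtbHull F0)) := by
  have hco : TscConn pvtbG4 (pvtbHull F0)ᶜ := by
    rw [pvtb_hull_compl]
    exact pvtb_out_conn hfin
  exact ⟨pvtb_D_finite _ _ (pvtb_hull_finite hfin), pvtb_gd_D h1 h2 _, pvtb_D_conn (by omega) (by omega) (pvtb_hull_conn hc),
    pvtb_D_compl_conn (by omega) h1.le h2 hco, pvtb_D_sc (by omega) h1.le h2 (pvtb_hull_finite hfin) hco⟩

/-! ### 8. parallel corridors: the lanes of a coarse corridor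

`C 0, …, C N` a corridor of COARSE cells, `k = 2m+1`.   Every fine cell `v` of the block of `C i` has a LANE COORDINATE `pvtbOff m N C i v ∈ [-m, m]` = signed distance to the centre line,
positive on the LEFT of the direction of travel:  `ℓ_d(w) = ⟨w, i d⟩`;  straight cell: `ℓ_in = ℓ_out`;  left turn: `min ℓ_in ℓ_out`;  right turn: `max ℓ_in ℓ_out`.
The level set `pvtbLev m N C j` is well-composed and joins the point of abscissa `j` of the entrance side of the first block to the point of abscissa `j` of the exit side of the last block, so it carries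
a corridor of FINE cells (`pvtb_par`); the lane coordinate is 1-Lipschitz for the 8-adjacency on the whole band, so the corridors of offsets `j, j'`, `|j - j'| ≥ 2`, do not touch (`pvtb_par_far`).
USE: Y-corridor = offset `j_y`, outer white lane = offset `j_o ≤ j_y - 2` (on the right); the order of the lanes at the two mouths is explicit. -/

/-- left offset of `w` with respect to the direction `d`: `⟨w, i d⟩` -/
def pvtbLo (d w : ℤ × ℤ) : ℤ := w.2 * d.1 - w.1 * d.2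

/-- progress of `w` in the direction `d`: `⟨w, d⟩` -/
def pvtbPr (d w : ℤ × ℤ) : ℤ := w.1 * d.1 + w.2 * d.2

/-- coordinates of the fine cell `v` relative to the centre of the coarse cell `p` -/
def pvtbRel (m : ℤ) (p v : ℤ × ℤ) : ℤ × ℤ := (v.1 - (2 * m + 1) * p.1, v.2 - (2 * m + 1) * p.2)

/-- the fine cell `k p + t d + j (i d)` -/
def pvtbPt (m : ℤ) (p d : ℤ × ℤ) (t j : ℤ) : ℤ × ℤ := ((2 * m + 1) * p.1 + t * d.1 - j * d.2, (2 * m + 1) * p.2 + t * d.2 + j * d.1)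

/-- the lane coordinate in the block of `C i` -/
def pvtbOff (m : ℤ) (N : ℕ) (C : ℕ → ℤ × ℤ) (i : ℕ) (v : ℤ × ℤ) : ℤ :=
  if i = 0 then pvtbLo (C 1 - C 0) (pvtbRel m (C 0) v)
  else if N ≤ i then pvtbLo (C i - C (i - 1)) (pvtbRel m (C i) v)
  else if C (i + 1) - C i = pvtbI (C i - C (i - 1)) then min (pvtbLo (C i - C (i - 1)) (pvtbRel m (C i) v)) (pvtbLo (C (i + 1) - C i) (pvtbRel m (C i) v))
  else max (pvtbLo (C i - C (i - 1)) (pvtbRel m (C i) v)) (pvtbLo (C (i + 1) - C i) (pvtbRel m (C i) v))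

/-- the lane of offset `j` -/
def pvtbLev (m : ℤ) (N : ℕ) (C : ℕ → ℤ × ℤ) (j : ℤ) : Set (ℤ × ℤ) := {v | ∃ i, i ≤ N ∧ pvtbCo m v = C i ∧ pvtbOff m N C i v = j}

theorem pvtb_off_zero (m : ℤ) (N : ℕ) (C : ℕ → ℤ × ℤ) (v : ℤ × ℤ) : pvtbOff m N C 0 v = pvtbLo (C 1 - C 0) (pvtbRel m (C 0) v) := by
  simp [pvtbOff]

theorem pvtb_off_last (m : ℤ) (N : ℕ) (C : ℕ → ℤ × ℤ) (v : ℤ × ℤ) : pvtbOff m (N + 1) C (N + 1) v = pvtbLo (C (N + 1) - C N) (pvtbRel m (C (N + 1)) v) := by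
  simp [pvtbOff]

theorem pvtb_off_left (m : ℤ) {N : ℕ} {C : ℕ → ℤ × ℤ} {i : ℕ} (hi : i + 2 ≤ N) (h : C (i + 2) - C (i + 1) = pvtbI (C (i + 1) - C i)) (v : ℤ × ℤ) :
    pvtbOff m N C (i + 1) v = min (pvtbLo (C (i + 1) - C i) (pvtbRel m (C (i + 1)) v)) (pvtbLo (C (i + 2) - C (i + 1)) (pvtbRel m (C (i + 1)) v)) := by
  have h1 : ¬ N ≤ i + 1 := by omega
  simp [pvtbOff, h1, h]

theorem pvtb_off_right (m : ℤ) {N : ℕ} {C : ℕ → ℤ × ℤ} {i : ℕ} (hi : i + 2 ≤ N) (h : C (i + 2) - C (i + 1) ≠ pvtbI (C (i + 1) - C i)) (v : ℤ × ℤ) :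
    pvtbOff m N C (i + 1) v = max (pvtbLo (C (i + 1) - C i) (pvtbRel m (C (i + 1)) v)) (pvtbLo (C (i + 2) - C (i + 1)) (pvtbRel m (C (i + 1)) v)) := by
  have h1 : ¬ N ≤ i + 1 := by omega
  simp [pvtbOff, h1, h]

/-- the four directions -/
theorem pvtb_cor_dir {N : ℕ} {C : ℕ → ℤ × ℤ} (h : PvtbCor N C) {i : ℕ} (hi : i < N) :
    C (i + 1) - C i = (1, 0) ∨ C (i + 1) - C i = (-1, 0) ∨ C (i + 1) - C i = (0, 1) ∨ C (i + 1) - C i = (0, -1) := by
  have h1 := (pvtb_G4_adj _ _).1 (h.step i hi)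
  simp only [Prod.ext_iff, Prod.fst_sub, Prod.snd_sub]
  omega

/-- uniform description of the lane coordinate: incoming direction `a`, outgoing direction `b` (helper50) -/
theorem pvtb_off_view {N : ℕ} {C : ℕ → ℤ × ℤ} (h : PvtbCor N C) (hN : 1 ≤ N) {i : ℕ} (hi : i ≤ N) :
    ∃ a b : ℤ × ℤ, (a = (1, 0) ∨ a = (-1, 0) ∨ a = (0, 1) ∨ a = (0, -1)) ∧ (b = a ∨ b = pvtbI a ∨ b = - pvtbI a) ∧
      (0 < i → C i - C (i - 1) = a) ∧ (i < N → C (i + 1) - C i = b) ∧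
      ∀ (m : ℤ) (v : ℤ × ℤ), pvtbOff m N C i v =
        if b = pvtbI a then min (pvtbLo a (pvtbRel m (C i) v)) (pvtbLo b (pvtbRel m (C i) v))
        else max (pvtbLo a (pvtbRel m (C i) v)) (pvtbLo b (pvtbRel m (C i) v)) := by
  have hne : ∀ a : ℤ × ℤ, (a = (1, 0) ∨ a = (-1, 0) ∨ a = (0, 1) ∨ a = (0, -1)) → a ≠ pvtbI a := by
    rintro a (rfl | rfl | rfl | rfl) <;> simp [pvtbI]
  rcases Nat.eq_zero_or_pos i with rfl | hpos
  · have hd := pvtb_cor_dir h (i := 0) (by omega)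
    refine ⟨C 1 - C 0, C 1 - C 0, hd, Or.inl rfl, fun h0 => absurd h0 (lt_irrefl 0), fun _ => rfl, fun m v => ?_⟩
    rw [if_neg (hne _ hd), max_self, pvtb_off_zero]
  · obtain ⟨k, rfl⟩ : ∃ k, i = k + 1 := ⟨i - 1, by omega⟩
    have hd := pvtb_cor_dir h (i := k) (by omega)
    rcases Nat.lt_or_ge (k + 1) N with hlt | hge
    · have ht := pvtb_cor_turn h (i := k) (by omega)
      refine ⟨C (k + 1) - C k, C (k + 2) - C (k + 1), hd, ht, fun _ => rfl, fun _ => rfl, fun m v => ?_⟩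
      by_cases hl : C (k + 2) - C (k + 1) = pvtbI (C (k + 1) - C k)
      · rw [if_pos hl, pvtb_off_left m (by omega) hl]
      · rw [if_neg hl, pvtb_off_right m (by omega) hl]
    · obtain rfl : N = k + 1 := by omega
      refine ⟨C (k + 1) - C k, C (k + 1) - C k, hd, Or.inl rfl, fun _ => rfl, fun h0 => absurd h0 (lt_irrefl _), fun m v => ?_⟩
      rw [if_neg (hne _ hd), max_self, pvtb_off_last]

/-- on the exit side of a block the lane coordinate is the left offset with respect to the outgoing direction -/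
theorem pvtb_off_exit {m : ℤ} (hm : 0 ≤ m) {N : ℕ} {C : ℕ → ℤ × ℤ} (h : PvtbCor N C) {i : ℕ} (hi : i < N) {v : ℤ × ℤ} (hv : pvtbCo m v = C i)
    (hs : pvtbPr (C (i + 1) - C i) (pvtbRel m (C i) v) = m) : pvtbOff m N C i v = pvtbLo (C (i + 1) - C i) (pvtbRel m (C i) v) := by
  obtain ⟨a, b, ha, hb, -, hb', hoff⟩ := pvtb_off_view h (by omega) hi.le
  have hsp := pvtb_Co_spec hm v
  rw [hv] at hsp
  rw [hoff, hb' hi]
  rw [hb' hi] at hs
  rcases ha with rfl | rfl | rfl | rfl <;> rcases hb with rfl | rfl | rfl <;>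
    simp [pvtbI, pvtbLo, pvtbPr, pvtbRel] at hs ⊢ <;> omega

/-- on the entrance side of a block the lane coordinate is the left offset with respect to the incoming direction -/
theorem pvtb_off_entry {m : ℤ} (hm : 0 ≤ m) {N : ℕ} {C : ℕ → ℤ × ℤ} (h : PvtbCor N C) {i : ℕ} (hi : i < N) {v : ℤ × ℤ} (hv : pvtbCo m v = C (i + 1))
    (hs : pvtbPr (C (i + 1) - C i) (pvtbRel m (C (i + 1)) v) = -m) : pvtbOff m N C (i + 1) v = pvtbLo (C (i + 1) - C i) (pvtbRel m (C (i + 1)) v) := by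
  obtain ⟨a, b, ha, hb, ha', -, hoff⟩ := pvtb_off_view h (by omega) (i := i + 1) hi
  have hsp := pvtb_Co_spec hm v
  rw [hv] at hsp
  have ha'' : C (i + 1) - C i = a := ha' (by omega)
  rw [hoff, ha'']
  rw [ha''] at hs
  rcases ha with rfl | rfl | rfl | rfl <;> rcases hb with rfl | rfl | rfl <;>
    simp [pvtbI, pvtbLo, pvtbPr, pvtbRel] at hs ⊢ <;> omega

theorem pvtb_off_range {m : ℤ} (hm : 0 ≤ m) {N : ℕ} {C : ℕ → ℤ × ℤ} (h : PvtbCor N C) (hN : 1 ≤ N) {i : ℕ} (hi : i ≤ N) {v : ℤ × ℤ} (hv : pvtbCo m v = C i) :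
    -m ≤ pvtbOff m N C i v ∧ pvtbOff m N C i v ≤ m := by
  obtain ⟨a, b, ha, hb, -, -, hoff⟩ := pvtb_off_view h hN hi
  have hsp := pvtb_Co_spec hm v
  rw [hv] at hsp
  rw [hoff]
  rcases ha with rfl | rfl | rfl | rfl <;> rcases hb with rfl | rfl | rfl <;>
    simp [pvtbI, pvtbLo, pvtbRel] <;> omega

/-- 1-Lipschitz inside one block -/
theorem pvtb_off_lip0 {m : ℤ} (hm : 0 ≤ m) {N : ℕ} {C : ℕ → ℤ × ℤ} (h : PvtbCor N C) (hN : 1 ≤ N) {i : ℕ} (hi : i ≤ N) {u v : ℤ × ℤ}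
    (huv : pvtbG8.Adj u v) : pvtbOff m N C i u ≤ pvtbOff m N C i v + 1 := by
  have _ := hm
  obtain ⟨a, b, ha, hb, -, -, hoff⟩ := pvtb_off_view h hN hi
  obtain ⟨-, g1, g2, g3, g4⟩ := huv
  rw [hoff, hoff]
  rcases ha with rfl | rfl | rfl | rfl <;> rcases hb with rfl | rfl | rfl <;>
    simp [pvtbI, pvtbLo, pvtbRel] <;> omega

/-- 1-Lipschitz across a door -/
theorem pvtb_off_lip1 {m : ℤ} (hm : 0 ≤ m) {N : ℕ} {C : ℕ → ℤ × ℤ} (h : PvtbCor N C) {i : ℕ} (hi : i < N) {u v : ℤ × ℤ} (hu : pvtbCo m u = C i) (hv : pvtbCo m v = C (i + 1))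
    (huv : pvtbG8.Adj u v) : pvtbOff m N C i u ≤ pvtbOff m N C (i + 1) v + 1 ∧ pvtbOff m N C (i + 1) v ≤ pvtbOff m N C i u + 1 := by
  obtain ⟨a, b, ha, hb, -, hb', hoff⟩ := pvtb_off_view h (by omega) hi.le
  obtain ⟨a2, b2, -, hb2, ha2', -, hoff2⟩ := pvtb_off_view h (by omega) (i := i + 1) hi
  obtain ⟨-, g1, g2, g3, g4⟩ := huv
  have hsu := pvtb_Co_spec hm u
  have hsv := pvtb_Co_spec hm v
  rw [hu] at hsu
  rw [hv] at hsv
  have e1 : C (i + 1) - C i = b := hb' hi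
  have e2 : C (i + 1) - C i = a2 := ha2' (by omega)
  obtain rfl : a2 = b := by rw [← e1, ← e2]
  have hC : C (i + 1) = C i + a2 := by rw [← e1]; abel
  rw [hoff, hoff2]
  rw [hC] at hsv ⊢
  generalize C i = p at *
  obtain ⟨p1, p2⟩ := p
  rcases ha with rfl | rfl | rfl | rfl <;> rcases hb with rfl | rfl | rfl <;> rcases hb2 with rfl | rfl | rfl <;>
    simp [pvtbI, pvtbLo, pvtbRel, mul_add] at hsu hsv ⊢ <;> omega

/-- across the inner corner of a turn the two lane coordinates agree -/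
theorem pvtb_off_lip2 {m : ℤ} (hm : 0 ≤ m) {N : ℕ} {C : ℕ → ℤ × ℤ} (h : PvtbCor N C) {i : ℕ} (hi : i + 2 ≤ N) {u v : ℤ × ℤ} (hu : pvtbCo m u = C i) (hv : pvtbCo m v = C (i + 2))
    (huv : pvtbG8.Adj u v) : pvtbOff m N C i u = pvtbOff m N C (i + 2) v := by
  have hd := pvtb_cor_dir h (i := i) (by omega)
  have ht := pvtb_cor_turn h hi
  obtain ⟨-, g1, g2, g3, g4⟩ := huv
  have hsu := pvtb_Co_spec hm u
  have hsv := pvtb_Co_spec hm v
  rw [hu] at hsu
  rw [hv] at hsv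
  obtain ⟨a, ea⟩ : ∃ a, a = C (i + 1) - C i := ⟨_, rfl⟩
  obtain ⟨b, eb⟩ : ∃ b, b = C (i + 2) - C (i + 1) := ⟨_, rfl⟩
  have hC2 : C (i + 2) = C i + a + b := by rw [ea, eb]; abel
  have key : pvtbPr a (pvtbRel m (C i) u) = m ∧ pvtbPr b (pvtbRel m (C (i + 2)) v) = -m ∧
      pvtbLo a (pvtbRel m (C i) u) = pvtbLo b (pvtbRel m (C (i + 2)) v) := by
    rw [← ea] at hd ht
    rw [← eb] at ht
    rw [hC2] at hsv ⊢
    generalize C i = p at *
    obtain ⟨p1, p2⟩ := p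
    rcases hd with rfl | rfl | rfl | rfl <;> rcases ht with rfl | rfl | rfl <;>
      simp [pvtbI, pvtbLo, pvtbPr, pvtbRel, mul_add] at hsu hsv ⊢ <;> omega
  rw [pvtb_off_exit hm h (by omega) hu (by rw [← ea]; exact key.1),
    pvtb_off_entry hm h (i := i + 1) (by omega) hv (by rw [show i + 1 + 1 = i + 2 from rfl, ← eb]; exact key.2.1), ← ea, show i + 1 + 1 = i + 2 from rfl, ← eb]
  exact key.2.2

/-- **the lane coordinate is 1-Lipschitz on the band** -/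
theorem pvtb_lev_lip {m : ℤ} (hm : 0 ≤ m) {N : ℕ} {C : ℕ → ℤ × ℤ} (h : PvtbCor N C) (hN : 1 ≤ N) {j j' : ℤ} {u v : ℤ × ℤ} (hu : u ∈ pvtbLev m N C j) (hv : v ∈ pvtbLev m N C j')
    (huv : u = v ∨ pvtbG8.Adj u v) : j ≤ j' + 1 ∧ j' ≤ j + 1 := by
  obtain ⟨i, hi, ci, rfl⟩ := hu
  obtain ⟨i', hi', ci', rfl⟩ := hv
  rcases huv with rfl | huv
  · have : i = i' := pvtb_cor_inj h hi hi' (ci.symm.trans ci')
    subst this
    omega
  · rcases pvtb_Co_adj hm huv with e | e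
    · have : i = i' := pvtb_cor_inj h hi hi' (by rw [← ci, ← ci', e])
      subst this
      exact ⟨pvtb_off_lip0 hm h hN hi huv, pvtb_off_lip0 hm h hN hi huv.symm⟩
    · rw [ci, ci'] at e
      obtain ⟨n1, n2⟩ := pvtb_cor_near h hi hi' e
      have hne : i ≠ i' := by
        rintro rfl
        exact e.1 rfl
      rcases (by omega : i' = i + 1 ∨ i' = i + 2 ∨ i = i' + 1 ∨ i = i' + 2) with rfl | rfl | rfl | rfl
      · exact pvtb_off_lip1 hm h (by omega) ci ci' huv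
      · have := pvtb_off_lip2 hm h (by omega) ci ci' huv
        omega
      · exact (pvtb_off_lip1 hm h (by omega) ci' ci huv.symm).symm
      · have := pvtb_off_lip2 hm h (by omega) ci' ci huv.symm
        omega

theorem pvtb_lev_sub (m : ℤ) (hm : 0 ≤ m) (N : ℕ) (C : ℕ → ℤ × ℤ) (j : ℤ) : pvtbLev m N C j ⊆ pvtbBand (2 * m + 1) m N C := by
  rintro v ⟨i, hi, hv, -⟩
  exact (pvtb_Co_mem hm _ v).2 ⟨i, hi, hv⟩

/-- crossing a door straight on does not change the lane coordinate; the difference of the lane coordinates across a door is the lateral displacement -/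
theorem pvtb_off_door {m : ℤ} (hm : 0 ≤ m) {N : ℕ} {C : ℕ → ℤ × ℤ} (h : PvtbCor N C) {i : ℕ} (hi : i < N) {u v : ℤ × ℤ} (hu : pvtbCo m u = C i) (hv : pvtbCo m v = C (i + 1))
    (huv : pvtbG8.Adj u v) : pvtbOff m N C (i + 1) v - pvtbOff m N C i u = pvtbLo (C (i + 1) - C i) (v - u) := by
  have hd := pvtb_cor_dir h hi
  obtain ⟨-, g1, g2, g3, g4⟩ := huv
  have hsu := pvtb_Co_spec hm u
  have hsv := pvtb_Co_spec hm v
  rw [hu] at hsu
  rw [hv] at hsv
  obtain ⟨a, ea⟩ : ∃ a, a = C (i + 1) - C i := ⟨_, rfl⟩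
  have hC : C (i + 1) = C i + a := by rw [ea]; abel
  have key : pvtbPr a (pvtbRel m (C i) u) = m ∧ pvtbPr a (pvtbRel m (C (i + 1)) v) = -m ∧
      pvtbLo a (pvtbRel m (C (i + 1)) v) - pvtbLo a (pvtbRel m (C i) u) = pvtbLo a (v - u) := by
    rw [← ea] at hd
    rw [hC] at hsv ⊢
    generalize C i = p at *
    obtain ⟨p1, p2⟩ := p
    rcases hd with rfl | rfl | rfl | rfl <;>
      simp [pvtbLo, pvtbPr, pvtbRel, mul_add] at hsu hsv ⊢ <;> omega
  rw [pvtb_off_exit hm h hi hu (by rw [← ea]; exact key.1), pvtb_off_entry hm h hi hv (by rw [← ea]; exact key.2.1), ← ea]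
  exact key.2.2

/-- flexible form of well-composedness of a lane, blocks in increasing order -/
theorem pvtb_lev_diag_aux {m : ℤ} (hm : 0 ≤ m) {N : ℕ} {C : ℕ → ℤ × ℤ} (h : PvtbCor N C) (hN : 1 ≤ N) {j a b c d : ℤ} {i i' : ℕ} (hii : i ≤ i') (hi' : i' ≤ N)
    (ci : pvtbCo m (a, b) = C i) (oi : pvtbOff m N C i (a, b) = j) (ci' : pvtbCo m (c, d) = C i') (oi' : pvtbOff m N C i' (c, d) = j)
    (hx : c = a + 1 ∨ c = a - 1) (hy : d = b + 1 ∨ d = b - 1) : (c, b) ∈ pvtbLev m N C j ∨ (a, d) ∈ pvtbLev m N C j := by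
  have hadj : pvtbG8.Adj (a, b) (c, d) := pvtb_G8_of _ _ _ _ (by omega) (by omega) (by omega) (by omega) (by omega)
  have hi : i ≤ N := by omega
  have f1 := congrArg Prod.fst ci
  have f2 := congrArg Prod.snd ci
  have f1' := congrArg Prod.fst ci'
  have f2' := congrArg Prod.snd ci'
  have cA : pvtbCo m (c, b) = ((C i').1, (C i).2) := Prod.ext f1' f2
  have cB : pvtbCo m (a, d) = ((C i).1, (C i').2) := Prod.ext f1 f2'
  clear f1 f2 f1' f2'
  have hnear : i' ≤ i + 2 := by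
    rcases pvtb_Co_adj hm hadj with e | e
    · have : i = i' := pvtb_cor_inj h hi hi' (by rw [← ci, ← ci', e])
      omega
    · rw [ci, ci'] at e
      exact (pvtb_cor_near h hi hi' e).2
  rcases (by omega : i' = i ∨ i' = i + 1 ∨ i' = i + 2) with rfl | rfl | rfl
  · -- one block
    suffices hs : pvtbOff m N C i' (c, b) = j ∨ pvtbOff m N C i' (a, d) = j by
      rcases hs with e | e
      · exact Or.inl ⟨i', hi, cA, e⟩
      · exact Or.inr ⟨i', hi, cB, e⟩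
    obtain ⟨e, e', he, he', -, -, hoff⟩ := pvtb_off_view h hN hi
    rw [hoff] at oi oi' ⊢
    rw [hoff]
    generalize C i' = p at *
    obtain ⟨p1, p2⟩ := p
    rcases he with rfl | rfl | rfl | rfl <;> rcases he' with rfl | rfl | rfl <;>
      simp [pvtbI, pvtbLo, pvtbRel] at oi oi' ⊢ <;> omega
  · -- across a door: the lateral displacement is ±1
    exfalso
    have hdoor := pvtb_off_door hm h (by omega) ci ci' hadj
    rw [oi, oi'] at hdoor
    rcases pvtb_cor_dir h (i := i) (by omega) with e | e | e | e <;> rw [e] at hdoor <;> simp [pvtbLo] at hdoor <;> omega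
  · -- across the inner corner of a turn: the corner cell of the middle block
    have hd := pvtb_cor_dir h (i := i) (by omega)
    have ht := pvtb_cor_turn h (i := i) (by omega)
    have hsu := pvtb_Co_spec hm (a, b)
    have hsv := pvtb_Co_spec hm (c, d)
    rw [ci] at hsu
    rw [ci'] at hsv
    obtain ⟨e, ee⟩ : ∃ e, e = C (i + 1) - C i := ⟨_, rfl⟩
    obtain ⟨e', ee'⟩ : ∃ e', e' = C (i + 2) - C (i + 1) := ⟨_, rfl⟩
    have hC1 : C (i + 1) = C i + e := by rw [ee]; abel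
    have hC2 : C (i + 2) = C i + e + e' := by rw [ee, ee']; abel
    -- the middle cell `z` = the first cell pushed through the door
    have key : (((C (i + 2)).1, (C i).2) = C (i + 1) ∧ pvtbLo e ((c, b) - (a, b)) = 0) ∨ (((C i).1, (C (i + 2)).2) = C (i + 1) ∧ pvtbLo e ((a, d) - (a, b)) = 0) := by
      rw [← ee] at hd ht
      rw [← ee'] at ht
      rw [hC2] at hsv ⊢
      rw [hC1]
      generalize C i = p at *
      obtain ⟨p1, p2⟩ := p
      rcases hd with rfl | rfl | rfl | rfl <;> rcases ht with rfl | rfl | rfl <;>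
        simp [pvtbI, pvtbLo, mul_add] at hsu hsv ⊢ <;> omega
    rcases key with ⟨k1, k2⟩ | ⟨k1, k2⟩
    · rw [k1] at cA
      have hdoor := pvtb_off_door hm h (by omega) ci cA (pvtb_G8_of _ _ _ _ (by omega) (by omega) (by omega) (by omega) (by omega))
      rw [← ee, k2, oi] at hdoor
      exact Or.inl ⟨i + 1, by omega, cA, by omega⟩
    · rw [k1] at cB
      have hdoor := pvtb_off_door hm h (by omega) ci cB (pvtb_G8_of _ _ _ _ (by omega) (by omega) (by omega) (by omega) (by omega))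
      rw [← ee, k2, oi] at hdoor
      exact Or.inr ⟨i + 1, by omega, cB, by omega⟩

theorem pvtb_lev_diag {m : ℤ} (hm : 0 ≤ m) {N : ℕ} {C : ℕ → ℤ × ℤ} (h : PvtbCor N C) (hN : 1 ≤ N) {j a b c d : ℤ} (h1 : (a, b) ∈ pvtbLev m N C j) (h2 : (c, d) ∈ pvtbLev m N C j)
    (hx : c = a + 1 ∨ c = a - 1) (hy : d = b + 1 ∨ d = b - 1) : (c, b) ∈ pvtbLev m N C j ∨ (a, d) ∈ pvtbLev m N C j := by
  obtain ⟨i, hi, ci, oi⟩ := h1
  obtain ⟨i', hi', ci', oi'⟩ := h2
  rcases le_total i i' with hii | hii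
  · exact pvtb_lev_diag_aux hm h hN hii hi' ci oi ci' oi' hx hy
  · exact (pvtb_lev_diag_aux hm h hN hii hi ci' oi' ci oi (by omega) (by omega)).symm

/-- the lanes are well-composed -/
theorem pvtb_lev_wc {m : ℤ} (hm : 0 ≤ m) {N : ℕ} {C : ℕ → ℤ × ℤ} (h : PvtbCor N C) (hN : 1 ≤ N) (j : ℤ) : PvtbWC (pvtbLev m N C j) := by
  intro x y
  constructor
  · intro h1 h2
    exact pvtb_lev_diag hm h hN h1 h2 (Or.inl rfl) (Or.inl rfl)
  · intro h1 h2
    have := pvtb_lev_diag hm h hN h1 h2 (c := x) (d := y + 1) (by omega) (Or.inl rfl)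
    exact this

/-- the coarse cell of `k p + t d + j (i d)` -/
theorem pvtb_pt_co {m : ℤ} (hm : 0 ≤ m) (p : ℤ × ℤ) {d : ℤ × ℤ} (hd : d = (1, 0) ∨ d = (-1, 0) ∨ d = (0, 1) ∨ d = (0, -1)) {t j : ℤ} (ht : -m ≤ t ∧ t ≤ m) (hj : -m ≤ j ∧ j ≤ m) :
    pvtbCo m (pvtbPt m p d t j) = p ∧ pvtbLo d (pvtbRel m p (pvtbPt m p d t j)) = j ∧ pvtbPr d (pvtbRel m p (pvtbPt m p d t j)) = t := by
  refine ⟨Prod.ext ((pvtb_div_spec (by omega) _).2 ?_) ((pvtb_div_spec (by omega) _).2 ?_), ?_, ?_⟩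
  · rcases hd with rfl | rfl | rfl | rfl <;> simp only [pvtbPt] <;> constructor <;> omega
  · rcases hd with rfl | rfl | rfl | rfl <;> simp only [pvtbPt] <;> constructor <;> omega
  · rcases hd with rfl | rfl | rfl | rfl <;> simp only [pvtbPt, pvtbLo, pvtbRel] <;> omega
  · rcases hd with rfl | rfl | rfl | rfl <;> simp only [pvtbPt, pvtbPr, pvtbRel] <;> omega

/-- the door: the exit point of a block and the entrance point of the next block have a common side -/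
theorem pvtb_pt_door (m : ℤ) (p q : ℤ × ℤ) (j : ℤ) (hd : q - p = (1, 0) ∨ q - p = (-1, 0) ∨ q - p = (0, 1) ∨ q - p = (0, -1)) :
    pvtbG4.Adj (pvtbPt m p (q - p) m j) (pvtbPt m q (q - p) (-m) j) := by
  rw [pvtb_G4_adj]
  have h1 : q.1 = p.1 + (q - p).1 := by simp
  have h2 : q.2 = p.2 + (q - p).2 := by simp
  rcases hd with e | e | e | e <;> rw [e] at h1 h2 ⊢ <;> simp only [pvtbPt] <;> rw [h1, h2]
  · left; constructor <;> ring
  · right; left; constructor <;> ring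
  · right; right; left; constructor <;> ring
  · right; right; right; constructor <;> ring

/-- offsets of the point `k p + t d + j (i d)` with respect to any direction `e` -/
theorem pvtb_lo_pt (m : ℤ) (p d e : ℤ × ℤ) (t j : ℤ) : pvtbLo e (pvtbRel m p (pvtbPt m p d t j)) = t * pvtbLo e d + j * pvtbPr e d := by
  simp only [pvtbLo, pvtbRel, pvtbPt, pvtbPr]
  ring

/-- a straight leg -/
theorem pvtb_leg {S : Set (ℤ × ℤ)} (m : ℤ) (p : ℤ × ℤ) {e : ℤ × ℤ} (he : e = (1, 0) ∨ e = (-1, 0) ∨ e = (0, 1) ∨ e = (0, -1)) (j t1 t2 : ℤ)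
    (h : ∀ t, min t1 t2 ≤ t → t ≤ max t1 t2 → pvtbPt m p e t j ∈ S) : TscR pvtbG4 S (pvtbPt m p e t1 j) (pvtbPt m p e t2 j) := by
  rcases he with rfl | rfl | rfl | rfl
  · have f : ∀ t, pvtbPt m p (1, 0) t j = ((2 * m + 1) * p.1 + t, (2 * m + 1) * p.2 + j) := fun t => by
      simp [pvtbPt]
    simp only [f] at h ⊢
    refine pvtb_R_hseg (fun z z1 z2 => ?_)
    have := h (z - (2 * m + 1) * p.1) (by omega) (by omega)
    rwa [add_sub_cancel] at this
  · have f : ∀ t, pvtbPt m p (-1, 0) t j = ((2 * m + 1) * p.1 - t, (2 * m + 1) * p.2 - j) := fun t => by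
      simp [pvtbPt, sub_eq_add_neg]
    simp only [f] at h ⊢
    refine pvtb_R_hseg (fun z z1 z2 => ?_)
    have := h ((2 * m + 1) * p.1 - z) (by omega) (by omega)
    rwa [sub_sub_cancel] at this
  · have f : ∀ t, pvtbPt m p (0, 1) t j = ((2 * m + 1) * p.1 - j, (2 * m + 1) * p.2 + t) := fun t => by
      simp [pvtbPt]
    simp only [f] at h ⊢
    refine pvtb_R_vseg (fun z z1 z2 => ?_)
    have := h (z - (2 * m + 1) * p.2) (by omega) (by omega)
    rwa [add_sub_cancel] at this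
  · have f : ∀ t, pvtbPt m p (0, -1) t j = ((2 * m + 1) * p.1 + j, (2 * m + 1) * p.2 - t) := fun t => by
      simp [pvtbPt, sub_eq_add_neg]
    simp only [f] at h ⊢
    refine pvtb_R_vseg (fun z z1 z2 => ?_)
    have := h ((2 * m + 1) * p.2 - z) (by omega) (by omega)
    rwa [sub_sub_cancel] at this

theorem pvtb_seg_nat {s : Set (ℤ × ℤ)} (o : ℤ × ℤ) {d : ℤ × ℤ} (hd : d = (1, 0) ∨ d = (-1, 0) ∨ d = (0, 1) ∨ d = (0, -1)) (a : ℤ) (n : ℕ)
    (h : ∀ t, a ≤ t → t ≤ a + n → (o.1 + t * d.1, o.2 + t * d.2) ∈ s) :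
    TscR pvtbG4 s (o.1 + a * d.1, o.2 + a * d.2) (o.1 + (a + n) * d.1, o.2 + (a + n) * d.2) := by
  induction n with
  | zero => simpa using tsc_R_refl _
  | succ n ih =>
    refine tsc_R_trans (ih fun t h1 h2 => h t h1 (by push_cast; omega)) (tsc_R_step ?_ (h _ (by omega) (by push_cast; omega)) (h _ (by push_cast; omega) le_rfl))
    rw [pvtb_G4_adj]
    rcases hd with rfl | rfl | rfl | rfl <;> simp <;> omega

theorem pvtb_seg {s : Set (ℤ × ℤ)} (o : ℤ × ℤ) {d : ℤ × ℤ} (hd : d = (1, 0) ∨ d = (-1, 0) ∨ d = (0, 1) ∨ d = (0, -1)) {a b : ℤ} (hab : a ≤ b)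
    (h : ∀ t, a ≤ t → t ≤ b → (o.1 + t * d.1, o.2 + t * d.2) ∈ s) :
    TscR pvtbG4 s (o.1 + a * d.1, o.2 + a * d.2) (o.1 + b * d.1, o.2 + b * d.2) := by
  obtain ⟨n, hn⟩ := Int.eq_ofNat_of_zero_le (sub_nonneg.2 hab)
  obtain rfl : b = a + n := by omega
  exact pvtb_seg_nat o hd a n h

theorem pvtb_seg_t {s : Set (ℤ × ℤ)} (m : ℤ) (p : ℤ × ℤ) {d : ℤ × ℤ} (hd : d = (1, 0) ∨ d = (-1, 0) ∨ d = (0, 1) ∨ d = (0, -1)) (j : ℤ) {a b : ℤ} (hab : a ≤ b)
    (h : ∀ t, a ≤ t → t ≤ b → pvtbPt m p d t j ∈ s) : TscR pvtbG4 s (pvtbPt m p d a j) (pvtbPt m p d b j) := by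
  have e : ∀ t, pvtbPt m p d t j = ((2 * m + 1) * p.1 - j * d.2 + t * d.1, (2 * m + 1) * p.2 + j * d.1 + t * d.2) := by
    intro t
    refine Prod.ext ?_ ?_ <;> simp only [pvtbPt] <;> ring
  rw [e a, e b]
  exact pvtb_seg ((2 * m + 1) * p.1 - j * d.2, (2 * m + 1) * p.2 + j * d.1) hd hab fun t h1 h2 => by
    have := h t h1 h2
    rwa [e t] at this

/-- the lane inside the first block -/
theorem pvtb_lev_first {m : ℤ} (hm : 0 ≤ m) {N : ℕ} {C : ℕ → ℤ × ℤ} (h : PvtbCor N C) (hN : 1 ≤ N) {j : ℤ} (hj : -m ≤ j ∧ j ≤ m) :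
    TscR pvtbG4 (pvtbLev m N C j) (pvtbPt m (C 0) (C 1 - C 0) (-m) j) (pvtbPt m (C 0) (C 1 - C 0) m j) := by
  have hd := pvtb_cor_dir h (i := 0) (by omega)
  refine pvtb_seg_t m (C 0) hd j (by omega) fun t h1 h2 => ?_
  obtain ⟨e1, e2, -⟩ := pvtb_pt_co hm (C 0) hd (t := t) (j := j) ⟨h1, h2⟩ hj
  exact ⟨0, by omega, e1, by rw [pvtb_off_zero]; exact e2⟩

/-- the lane inside an inner block: straight segment or elbow -/
theorem pvtb_lev_mid {m : ℤ} (hm : 0 ≤ m) {N : ℕ} {C : ℕ → ℤ × ℤ} (h : PvtbCor N C) {i : ℕ} (hi : i + 2 ≤ N) {j : ℤ} (hj : -m ≤ j ∧ j ≤ m) :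
    TscR pvtbG4 (pvtbLev m N C j) (pvtbPt m (C (i + 1)) (C (i + 1) - C i) (-m) j) (pvtbPt m (C (i + 1)) (C (i + 2) - C (i + 1)) m j) := by
  have hd := pvtb_cor_dir h (i := i) (by omega)
  have hd' := pvtb_cor_dir h (i := i + 1) (by omega)
  have ht := pvtb_cor_turn h hi
  -- membership of a point of the block, given the two offsets
  have mem : ∀ e, (e = (1, 0) ∨ e = (-1, 0) ∨ e = (0, 1) ∨ e = (0, -1)) → ∀ t, -m ≤ t → t ≤ m →
      pvtbOff m N C (i + 1) (pvtbPt m (C (i + 1)) e t j) = j → pvtbPt m (C (i + 1)) e t j ∈ pvtbLev m N C j := fun e he t t1 t2 ho =>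
    ⟨i + 1, by omega, (pvtb_pt_co hm (C (i + 1)) he ⟨t1, t2⟩ hj).1, ho⟩
  generalize hdd : C (i + 1) - C i = d at *
  generalize hdd' : C (i + 2) - C (i + 1) = d' at *
  have offL : d' = pvtbI d → ∀ v, pvtbOff m N C (i + 1) v = min (pvtbLo d (pvtbRel m (C (i + 1)) v)) (pvtbLo d' (pvtbRel m (C (i + 1)) v)) := by
    intro e v
    rw [pvtb_off_left m hi (by rw [hdd, hdd', e]), hdd, hdd']
  have offR : d' ≠ pvtbI d → ∀ v, pvtbOff m N C (i + 1) v = max (pvtbLo d (pvtbRel m (C (i + 1)) v)) (pvtbLo d' (pvtbRel m (C (i + 1)) v)) := by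
    intro e v
    rw [pvtb_off_right m hi (by rw [hdd, hdd']; exact e), hdd, hdd']
  rcases ht with rfl | rfl | rfl
  · -- straight
    refine pvtb_leg m _ hd j _ _ (fun t t1 t2 => mem _ hd t (by omega) (by omega) ?_)
    have hne : d' ≠ pvtbI d' := by
      rcases hd with rfl | rfl | rfl | rfl <;> simp [pvtbI]
    rw [offR hne, pvtb_lo_pt, max_self]
    rcases hd with rfl | rfl | rfl | rfl <;> simp [pvtbLo, pvtbPr]
  · -- left turn
    have corner : pvtbPt m (C (i + 1)) d (-j) j = pvtbPt m (C (i + 1)) (pvtbI d) j j := by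
      simp only [pvtbPt, pvtbI]
      refine Prod.ext ?_ ?_ <;> simp only <;> ring
    refine tsc_R_trans (pvtb_leg m _ hd j (-m) (-j) (fun t t1 t2 => mem _ hd t (by omega) (by omega) ?_)) ?_
    · rw [offL rfl, pvtb_lo_pt, pvtb_lo_pt]
      rcases hd with rfl | rfl | rfl | rfl <;> simp [pvtbLo, pvtbPr, pvtbI] <;> omega
    · rw [corner]
      refine pvtb_leg m _ hd' j j m (fun t t1 t2 => mem _ hd' t (by omega) (by omega) ?_)
      rw [offL rfl, pvtb_lo_pt, pvtb_lo_pt]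
      rcases hd with rfl | rfl | rfl | rfl <;> simp [pvtbLo, pvtbPr, pvtbI] <;> omega
  · -- right turn
    have corner : pvtbPt m (C (i + 1)) d j j = pvtbPt m (C (i + 1)) (-pvtbI d) (-j) j := by
      simp only [pvtbPt, pvtbI]
      refine Prod.ext ?_ ?_ <;> simp only [Prod.fst_neg, Prod.snd_neg] <;> ring
    have hne : -pvtbI d ≠ pvtbI d := by
      rcases hd with rfl | rfl | rfl | rfl <;> simp [pvtbI]
    refine tsc_R_trans (pvtb_leg m _ hd j (-m) j (fun t t1 t2 => mem _ hd t (by omega) (by omega) ?_)) ?_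
    · rw [offR hne, pvtb_lo_pt, pvtb_lo_pt]
      rcases hd with rfl | rfl | rfl | rfl <;> simp [pvtbLo, pvtbPr, pvtbI] <;> omega
    · rw [corner]
      refine pvtb_leg m _ hd' j (-j) m (fun t t1 t2 => mem _ hd' t (by omega) (by omega) ?_)
      rw [offR hne, pvtb_lo_pt, pvtb_lo_pt]
      rcases hd with rfl | rfl | rfl | rfl <;> simp [pvtbLo, pvtbPr, pvtbI] <;> omega

/-- the lane inside the last block -/
theorem pvtb_lev_last {m : ℤ} (hm : 0 ≤ m) {N : ℕ} {C : ℕ → ℤ × ℤ} (h : PvtbCor (N + 1) C) {j : ℤ} (hj : -m ≤ j ∧ j ≤ m) :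
    TscR pvtbG4 (pvtbLev m (N + 1) C j) (pvtbPt m (C (N + 1)) (C (N + 1) - C N) (-m) j) (pvtbPt m (C (N + 1)) (C (N + 1) - C N) m j) := by
  have hd := pvtb_cor_dir h (i := N) (by omega)
  refine pvtb_seg_t m (C (N + 1)) hd j (by omega) fun t h1 h2 => ?_
  obtain ⟨e1, e2, -⟩ := pvtb_pt_co hm (C (N + 1)) hd (t := t) (j := j) ⟨h1, h2⟩ hj
  exact ⟨N + 1, le_rfl, e1, by rw [pvtb_off_last]; exact e2⟩

/-- the entrance point of a block lies in the lane -/
theorem pvtb_entry_mem {m : ℤ} (hm : 0 ≤ m) {N : ℕ} {C : ℕ → ℤ × ℤ} (h : PvtbCor N C) {i : ℕ} (hi : i < N) {j : ℤ} (hj : -m ≤ j ∧ j ≤ m) :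
    pvtbPt m (C (i + 1)) (C (i + 1) - C i) (-m) j ∈ pvtbLev m N C j := by
  obtain ⟨e1, e2, e3⟩ := pvtb_pt_co hm (C (i + 1)) (pvtb_cor_dir h hi) (t := -m) (j := j) (by omega) hj
  exact ⟨i + 1, by omega, e1, by rw [pvtb_off_entry hm h hi e1 e3]; exact e2⟩

/-- the exit point of a block lies in the lane -/
theorem pvtb_exit_mem {m : ℤ} (hm : 0 ≤ m) {N : ℕ} {C : ℕ → ℤ × ℤ} (h : PvtbCor N C) {i : ℕ} (hi : i < N) {j : ℤ} (hj : -m ≤ j ∧ j ≤ m) :
    pvtbPt m (C i) (C (i + 1) - C i) m j ∈ pvtbLev m N C j := by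
  obtain ⟨e1, e2, e3⟩ := pvtb_pt_co hm (C i) (pvtb_cor_dir h hi) (t := m) (j := j) (by omega) hj
  exact ⟨i, by omega, e1, by rw [pvtb_off_exit hm h hi e1 e3]; exact e2⟩

/-- the lane joins the entrance side of the first block to the exit side of the last block -/
theorem pvtb_lev_conn {m : ℤ} (hm : 0 ≤ m) {N : ℕ} {C : ℕ → ℤ × ℤ} (h : PvtbCor (N + 1) C) {j : ℤ} (hj : -m ≤ j ∧ j ≤ m) :
    TscR pvtbG4 (pvtbLev m (N + 1) C j) (pvtbPt m (C 0) (C 1 - C 0) (-m) j) (pvtbPt m (C (N + 1)) (C (N + 1) - C N) m j) := by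
  have door : ∀ i, i < N + 1 → TscR pvtbG4 (pvtbLev m (N + 1) C j) (pvtbPt m (C i) (C (i + 1) - C i) m j) (pvtbPt m (C (i + 1)) (C (i + 1) - C i) (-m) j) := fun i hi =>
    tsc_R_step (pvtb_pt_door m (C i) (C (i + 1)) j (pvtb_cor_dir h hi)) (pvtb_exit_mem hm h hi hj) (pvtb_entry_mem hm h hi hj)
  have key : ∀ i, i < N + 1 → TscR pvtbG4 (pvtbLev m (N + 1) C j) (pvtbPt m (C 0) (C 1 - C 0) (-m) j) (pvtbPt m (C i) (C (i + 1) - C i) m j) := by
    intro i
    induction i with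
    | zero => exact fun _ => pvtb_lev_first hm h (by omega) hj
    | succ i ih =>
      intro hi
      exact tsc_R_trans (ih (by omega)) (tsc_R_trans (door i (by omega)) (pvtb_lev_mid hm h (by omega) hj))
  exact tsc_R_trans (key N (by omega)) (tsc_R_trans (door N (by omega)) (pvtb_lev_last hm h hj))

/-- **PARALLEL CORRIDORS**: the lane of offset `j` of a coarse corridor carries a corridor of fine cells, from the point of abscissa `j` of the entrance side to the point of abscissa `j` of the exit side -/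
theorem pvtb_par {m : ℤ} (hm : 0 ≤ m) {N : ℕ} {C : ℕ → ℤ × ℤ} (h : PvtbCor (N + 1) C) {j : ℤ} (hj : -m ≤ j ∧ j ≤ m) :
    ∃ (n : ℕ) (c : ℕ → ℤ × ℤ), PvtbCor n c ∧ c 0 = pvtbPt m (C 0) (C 1 - C 0) (-m) j ∧ c n = pvtbPt m (C (N + 1)) (C (N + 1) - C N) m j ∧ ∀ i, i ≤ n → c i ∈ pvtbLev m (N + 1) C j := by
  have hd := pvtb_cor_dir h (i := 0) (by omega)
  have h0 : pvtbPt m (C 0) (C 1 - C 0) (-m) j ∈ pvtbLev m (N + 1) C j := by
    obtain ⟨e1, e2, -⟩ := pvtb_pt_co hm (C 0) hd (t := -m) (j := j) (by omega) hj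
    exact ⟨0, by omega, e1, by rw [pvtb_off_zero]; exact e2⟩
  exact pvtb_cor_exists (pvtb_lev_wc hm h (by omega) j) h0 (pvtb_lev_conn hm h hj)

/-- lanes whose offsets differ by at least 2 neither meet nor touch -/
theorem pvtb_par_far {m : ℤ} (hm : 0 ≤ m) {N : ℕ} {C : ℕ → ℤ × ℤ} (h : PvtbCor N C) (hN : 1 ≤ N) {j j' : ℤ} (hjj : j + 2 ≤ j') {u v : ℤ × ℤ} (hu : u ∈ pvtbLev m N C j) (hv : v ∈ pvtbLev m N C j') :
    u ≠ v ∧ ¬ pvtbG8.Adj u v := by
  refine ⟨fun e => ?_, fun e => ?_⟩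
  · have := pvtb_lev_lip hm h hN hu hv (Or.inl e)
    omega
  · have := pvtb_lev_lip hm h hN hu hv (Or.inr e)
    omega

/-- thick lanes: `a ≤ lane coordinate ≤ b` -/
def pvtbLane (m : ℤ) (N : ℕ) (C : ℕ → ℤ × ℤ) (a b : ℤ) : Set (ℤ × ℤ) := {v | ∃ j, a ≤ j ∧ j ≤ b ∧ v ∈ pvtbLev m N C j}

theorem pvtb_lane_far {m : ℤ} (hm : 0 ≤ m) {N : ℕ} {C : ℕ → ℤ × ℤ} (h : PvtbCor N C) (hN : 1 ≤ N) {a b a' b' : ℤ} (hg : b + 2 ≤ a') {u v : ℤ × ℤ} (hu : u ∈ pvtbLane m N C a b) (hv : v ∈ pvtbLane m N C a' b') :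
    u ≠ v ∧ ¬ pvtbG8.Adj u v := by
  obtain ⟨j, _, h2, hj⟩ := hu
  obtain ⟨j', h1', _, hj'⟩ := hv
  exact pvtb_par_far hm h hN (by omega) hj hj'

/-! ### 9. the lane calculus FIT1 - FIT3 of W2_211 (`tc_i = pvtbOff`, `Lane[a,b] = pvtbLane`) -/

/-- sandwich with respect to the OUTGOING direction: `min(y, x) ≤ tc ≤ max(y, -x)` -/
theorem pvtb_off_sand_out (m : ℤ) {N : ℕ} {C : ℕ → ℤ × ℤ} (h : PvtbCor N C) {i : ℕ} (hi : i < N) (v : ℤ × ℤ) :
    min (pvtbLo (C (i + 1) - C i) (pvtbRel m (C i) v)) (pvtbPr (C (i + 1) - C i) (pvtbRel m (C i) v)) ≤ pvtbOff m N C i v ∧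
      pvtbOff m N C i v ≤ max (pvtbLo (C (i + 1) - C i) (pvtbRel m (C i) v)) (-(pvtbPr (C (i + 1) - C i) (pvtbRel m (C i) v))) := by
  obtain ⟨a, b, ha, hb, -, hb', hoff⟩ := pvtb_off_view h (by omega) hi.le
  rw [hoff, hb' hi]
  generalize pvtbRel m (C i) v = w
  obtain ⟨w1, w2⟩ := w
  rcases ha with rfl | rfl | rfl | rfl <;> rcases hb with rfl | rfl | rfl <;>
    simp [pvtbI, pvtbLo, pvtbPr] <;> omega

/-- sandwich with respect to the INCOMING direction: `min(y, -x) ≤ tc ≤ max(y, x)` -/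
theorem pvtb_off_sand_in (m : ℤ) {N : ℕ} {C : ℕ → ℤ × ℤ} (h : PvtbCor N C) {i : ℕ} (hi : i < N) (v : ℤ × ℤ) :
    min (pvtbLo (C (i + 1) - C i) (pvtbRel m (C (i + 1)) v)) (-(pvtbPr (C (i + 1) - C i) (pvtbRel m (C (i + 1)) v))) ≤ pvtbOff m N C (i + 1) v ∧
      pvtbOff m N C (i + 1) v ≤ max (pvtbLo (C (i + 1) - C i) (pvtbRel m (C (i + 1)) v)) (pvtbPr (C (i + 1) - C i) (pvtbRel m (C (i + 1)) v)) := by
  obtain ⟨a, b, ha, hb, ha', -, hoff⟩ := pvtb_off_view h (by omega) (i := i + 1) hi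
  have ha'' : C (i + 1) - C i = a := ha' (by omega)
  rw [hoff, ha'']
  generalize pvtbRel m (C (i + 1)) v = w
  obtain ⟨w1, w2⟩ := w
  rcases ha with rfl | rfl | rfl | rfl <;> rcases hb with rfl | rfl | rfl <;>
    simp [pvtbI, pvtbLo, pvtbPr]

/-- one block: the lane coordinate is 1-Lipschitz for the sup-distance -/
theorem pvtb_off_dist0 (m : ℤ) {N : ℕ} {C : ℕ → ℤ × ℤ} (h : PvtbCor N C) (hN : 1 ≤ N) {i : ℕ} (hi : i ≤ N) {u v : ℤ × ℤ} {D : ℤ}
    (h1 : u.1 - v.1 ≤ D) (h2 : v.1 - u.1 ≤ D) (h3 : u.2 - v.2 ≤ D) (h4 : v.2 - u.2 ≤ D) : pvtbOff m N C i u - pvtbOff m N C i v ≤ D := by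
  obtain ⟨a, b, ha, hb, -, -, hoff⟩ := pvtb_off_view h hN hi
  rw [hoff, hoff]
  rcases ha with rfl | rfl | rfl | rfl <;> rcases hb with rfl | rfl | rfl <;>
    simp [pvtbI, pvtbLo, pvtbRel] <;> omega

/-- two consecutive blocks -/
theorem pvtb_off_dist1 {m : ℤ} (hm : 0 ≤ m) {N : ℕ} {C : ℕ → ℤ × ℤ} (h : PvtbCor N C) {i : ℕ} (hi : i < N) {u v : ℤ × ℤ} (hu : pvtbCo m u = C i) (hv : pvtbCo m v = C (i + 1)) {D : ℤ}
    (h1 : u.1 - v.1 ≤ D) (h2 : v.1 - u.1 ≤ D) (h3 : u.2 - v.2 ≤ D) (h4 : v.2 - u.2 ≤ D) :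
    pvtbOff m N C i u - pvtbOff m N C (i + 1) v ≤ D ∧ pvtbOff m N C (i + 1) v - pvtbOff m N C i u ≤ D := by
  have hd := pvtb_cor_dir h hi
  have su := pvtb_off_sand_out m h hi u
  have sv := pvtb_off_sand_in m h hi v
  have hsu := pvtb_Co_spec hm u
  have hsv := pvtb_Co_spec hm v
  rw [hu] at hsu
  rw [hv] at hsv
  generalize pvtbOff m N C i u = x at *
  generalize pvtbOff m N C (i + 1) v = y at *
  obtain ⟨a, ea⟩ : ∃ a, a = C (i + 1) - C i := ⟨_, rfl⟩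
  have hC : C (i + 1) = C i + a := by rw [ea]; abel
  rw [← ea] at hd su sv
  rw [hC] at hsv sv
  generalize C i = p at *
  obtain ⟨p1, p2⟩ := p
  rcases hd with rfl | rfl | rfl | rfl <;>
    simp [pvtbLo, pvtbPr, pvtbRel, mul_add] at hsu hsv su sv <;> omega

/-- the two blocks next to a block -/
theorem pvtb_off_dist2 {m : ℤ} (hm : 0 ≤ m) {N : ℕ} {C : ℕ → ℤ × ℤ} (h : PvtbCor N C) {i : ℕ} (hi : i + 2 ≤ N) {u v : ℤ × ℤ} (hu : pvtbCo m u = C i) (hv : pvtbCo m v = C (i + 2)) {D : ℤ}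
    (h1 : u.1 - v.1 ≤ D) (h2 : v.1 - u.1 ≤ D) (h3 : u.2 - v.2 ≤ D) (h4 : v.2 - u.2 ≤ D) :
    pvtbOff m N C i u - pvtbOff m N C (i + 2) v ≤ D ∧ pvtbOff m N C (i + 2) v - pvtbOff m N C i u ≤ D := by
  have hd := pvtb_cor_dir h (i := i) (by omega)
  have ht := pvtb_cor_turn h hi
  have su := pvtb_off_sand_out m h (i := i) (by omega) u
  have sv := pvtb_off_sand_in m h (i := i + 1) (by omega) v
  have hsu := pvtb_Co_spec hm u
  have hsv := pvtb_Co_spec hm v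
  rw [hu] at hsu
  rw [hv] at hsv
  rw [show i + 1 + 1 = i + 2 from rfl] at sv
  generalize pvtbOff m N C i u = x at *
  generalize pvtbOff m N C (i + 2) v = y at *
  obtain ⟨a, ea⟩ : ∃ a, a = C (i + 1) - C i := ⟨_, rfl⟩
  obtain ⟨b, eb⟩ : ∃ b, b = C (i + 2) - C (i + 1) := ⟨_, rfl⟩
  have hC2 : C (i + 2) = C i + a + b := by rw [ea, eb]; abel
  rw [← ea] at hd ht su
  rw [← eb] at ht sv
  rw [hC2] at hsv sv
  generalize C i = p at *
  obtain ⟨p1, p2⟩ := p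
  rcases hd with rfl | rfl | rfl | rfl <;> rcases ht with rfl | rfl | rfl <;>
    simp [pvtbI, pvtbLo, pvtbPr, pvtbRel, mul_add] at hsu hsv su sv <;> omega

/-- **FIT2**: on the whole band the lane coordinate is 1-Lipschitz for the sup-distance -/
theorem pvtb_lev_dist {m : ℤ} (hm : 0 ≤ m) {N : ℕ} {C : ℕ → ℤ × ℤ} (h : PvtbCor N C) (hN : 1 ≤ N) {j j' : ℤ} {u v : ℤ × ℤ} (hu : u ∈ pvtbLev m N C j) (hv : v ∈ pvtbLev m N C j') {D : ℤ}
    (h1 : u.1 - v.1 ≤ D) (h2 : v.1 - u.1 ≤ D) (h3 : u.2 - v.2 ≤ D) (h4 : v.2 - u.2 ≤ D) : j - j' ≤ D ∧ j' - j ≤ D := by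
  obtain ⟨i, hi, ci, rfl⟩ := hu
  obtain ⟨i', hi', ci', rfl⟩ := hv
  have far : ∀ (i i' : ℕ) (u v : ℤ × ℤ), i + 3 ≤ i' → i' ≤ N → pvtbCo m u = C i → pvtbCo m v = C i' → u.1 - v.1 ≤ D → v.1 - u.1 ≤ D → u.2 - v.2 ≤ D → v.2 - u.2 ≤ D →
      pvtbOff m N C i u - pvtbOff m N C i' v ≤ D ∧ pvtbOff m N C i' v - pvtbOff m N C i u ≤ D := by
    intro i i' u v hii hi' ci ci' h1 h2 h3 h4
    have r1 := pvtb_off_range hm h hN (i := i) (by omega) ci
    have r2 := pvtb_off_range hm h hN hi' ci'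
    obtain ⟨f1, f2⟩ := h.far i i' hii hi'
    have := pvtb_D_far (k := 2 * m + 1) (r := m) (by omega) f1 f2 ((pvtb_Co_mem hm {C i} u).2 ci) ((pvtb_Co_mem hm {C i'} v).2 ci')
    simp only [le_abs] at this
    omega
  rcases (by omega : i' = i ∨ i' = i + 1 ∨ i' = i + 2 ∨ i + 3 ≤ i' ∨ i = i' + 1 ∨ i = i' + 2 ∨ i' + 3 ≤ i) with rfl | rfl | rfl | e | rfl | rfl | e
  · exact ⟨pvtb_off_dist0 m h hN hi h1 h2 h3 h4, pvtb_off_dist0 m h hN hi h2 h1 h4 h3⟩
  · exact pvtb_off_dist1 hm h (by omega) ci ci' h1 h2 h3 h4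
  · exact pvtb_off_dist2 hm h (by omega) ci ci' h1 h2 h3 h4
  · exact far i i' u v e hi' ci ci' h1 h2 h3 h4
  · exact (pvtb_off_dist1 hm h (by omega) ci' ci h2 h1 h4 h3).symm
  · exact (pvtb_off_dist2 hm h (by omega) ci' ci h2 h1 h4 h3).symm
  · exact (far i' i v u e hi ci' ci h2 h1 h4 h3).symm

/-- **FIT2 for lanes**: a gap `g` between the intervals gives sup-distance at least `g` -/
theorem pvtb_lane_dist {m : ℤ} (hm : 0 ≤ m) {N : ℕ} {C : ℕ → ℤ × ℤ} (h : PvtbCor N C) (hN : 1 ≤ N) {a b a' b' g : ℤ} (hg : b + g ≤ a') {u v : ℤ × ℤ} (hu : u ∈ pvtbLane m N C a b) (hv : v ∈ pvtbLane m N C a' b') :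
    g ≤ max |u.1 - v.1| |u.2 - v.2| := by
  obtain ⟨j, _, e2, hj⟩ := hu
  obtain ⟨j', e1', _, hj'⟩ := hv
  have := (pvtb_lev_dist hm h hN hj hj' (D := max |u.1 - v.1| |u.2 - v.2|) (le_trans (le_abs_self _) (le_max_left _ _)) (le_trans (by rw [← neg_sub]; exact neg_le_abs _) (le_max_left _ _))
    (le_trans (le_abs_self _) (le_max_right _ _)) (le_trans (by rw [← neg_sub]; exact neg_le_abs _) (le_max_right _ _))).2
  omega

/-- **FIT3**: in a straight cell the lane coordinate is the left offset -/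
theorem pvtb_off_straight (m : ℤ) {N : ℕ} {C : ℕ → ℤ × ℤ} (h : PvtbCor N C) {i : ℕ} (hi : i + 2 ≤ N) (hs : C (i + 2) - C (i + 1) = C (i + 1) - C i) (v : ℤ × ℤ) :
    pvtbOff m N C (i + 1) v = pvtbLo (C (i + 1) - C i) (pvtbRel m (C (i + 1)) v) := by
  have hd := pvtb_cor_dir h (i := i) (by omega)
  have hne : C (i + 2) - C (i + 1) ≠ pvtbI (C (i + 1) - C i) := by
    rw [hs]
    rcases hd with e | e | e | e <;> rw [e] <;> simp [pvtbI]
  rw [pvtb_off_right m hi hne, hs, max_self]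

/-- **FIT3 (whisker)**: in a straight cell, `t` steps to the left add `t` to the lane coordinate -/
theorem pvtb_off_whisker (m : ℤ) {N : ℕ} {C : ℕ → ℤ × ℤ} (h : PvtbCor N C) {i : ℕ} (hi : i + 2 ≤ N) (hs : C (i + 2) - C (i + 1) = C (i + 1) - C i) (v : ℤ × ℤ) (t : ℤ) :
    pvtbOff m N C (i + 1) (v.1 - t * (C (i + 1) - C i).2, v.2 + t * (C (i + 1) - C i).1) = pvtbOff m N C (i + 1) v + t := by
  have hd := pvtb_cor_dir h (i := i) (by omega)
  rw [pvtb_off_straight m h hi hs, pvtb_off_straight m h hi hs]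
  rcases hd with e | e | e | e <;> rw [e] <;> simp [pvtbLo, pvtbRel] <;> ring

/-- membership in a lane, block by block -/
theorem pvtb_lane_iff {m : ℤ} {N : ℕ} {C : ℕ → ℤ × ℤ} (h : PvtbCor N C) {i : ℕ} (hi : i ≤ N) {v : ℤ × ℤ} (hv : pvtbCo m v = C i) (a b : ℤ) :
    v ∈ pvtbLane m N C a b ↔ a ≤ pvtbOff m N C i v ∧ pvtbOff m N C i v ≤ b := by
  constructor
  · rintro ⟨j, h1, h2, i', hi', ci', rfl⟩
    have : i = i' := pvtb_cor_inj h hi hi' (hv.symm.trans ci')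
    subst this
    exact ⟨h1, h2⟩
  · rintro ⟨h1, h2⟩
    exact ⟨_, h1, h2, i, hi, hv, rfl⟩

/-- **FIT1**: full cross-section in the first block -/
theorem pvtb_lane_first {m : ℤ} {N : ℕ} {C : ℕ → ℤ × ℤ} (h : PvtbCor N C) {v : ℤ × ℤ} (hv : pvtbCo m v = C 0) (a b : ℤ) :
    v ∈ pvtbLane m N C a b ↔ a ≤ pvtbLo (C 1 - C 0) (pvtbRel m (C 0) v) ∧ pvtbLo (C 1 - C 0) (pvtbRel m (C 0) v) ≤ b := by
  rw [pvtb_lane_iff h (Nat.zero_le N) hv, pvtb_off_zero]

/-- **FIT1**: full cross-section in the last block -/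
theorem pvtb_lane_last {m : ℤ} {N : ℕ} {C : ℕ → ℤ × ℤ} (h : PvtbCor (N + 1) C) {v : ℤ × ℤ} (hv : pvtbCo m v = C (N + 1)) (a b : ℤ) :
    v ∈ pvtbLane m (N + 1) C a b ↔ a ≤ pvtbLo (C (N + 1) - C N) (pvtbRel m (C (N + 1)) v) ∧ pvtbLo (C (N + 1) - C N) (pvtbRel m (C (N + 1)) v) ≤ b := by
  rw [pvtb_lane_iff h le_rfl hv, pvtb_off_last]

theorem pvtb_lane_finite (m : ℤ) (hm : 0 ≤ m) (N : ℕ) (C : ℕ → ℤ × ℤ) (a b : ℤ) : (pvtbLane m N C a b).Finite := by
  refine (pvtb_band_finite (2 * m + 1) m N C).subset ?_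
  rintro v ⟨j, _, _, hv⟩
  exact pvtb_lev_sub m hm N C j hv

/-- every fine cell is `k p + x d + y (i d)` in the frame `(d, i d)` -/
theorem pvtb_pt_eq (m : ℤ) (p : ℤ × ℤ) {d : ℤ × ℤ} (hd : d = (1, 0) ∨ d = (-1, 0) ∨ d = (0, 1) ∨ d = (0, -1)) (v : ℤ × ℤ) :
    pvtbPt m p d (pvtbPr d (pvtbRel m p v)) (pvtbLo d (pvtbRel m p v)) = v := by
  obtain ⟨v1, v2⟩ := v
  rcases hd with rfl | rfl | rfl | rfl <;> simp [pvtbPt, pvtbPr, pvtbLo, pvtbRel]

/-- a lateral step is a leg in the direction `i d` -/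
theorem pvtb_pt_rot (m : ℤ) (p d : ℤ × ℤ) (t j : ℤ) : pvtbPt m p d t j = pvtbPt m p (pvtbI d) j (-t) := by
  simp only [pvtbPt, pvtbI]
  refine Prod.ext ?_ ?_ <;> simp only <;> ring

/-- the exit points and the entrance points of all blocks are joined to the starting point inside the lane -/
theorem pvtb_lev_chain {m : ℤ} (hm : 0 ≤ m) {N : ℕ} {C : ℕ → ℤ × ℤ} (h : PvtbCor N C) {j : ℤ} (hj : -m ≤ j ∧ j ≤ m) {i : ℕ} (hi : i < N) :
    TscR pvtbG4 (pvtbLev m N C j) (pvtbPt m (C 0) (C 1 - C 0) (-m) j) (pvtbPt m (C i) (C (i + 1) - C i) m j) ∧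
      TscR pvtbG4 (pvtbLev m N C j) (pvtbPt m (C 0) (C 1 - C 0) (-m) j) (pvtbPt m (C (i + 1)) (C (i + 1) - C i) (-m) j) := by
  have door : ∀ i, i < N → TscR pvtbG4 (pvtbLev m N C j) (pvtbPt m (C i) (C (i + 1) - C i) m j) (pvtbPt m (C (i + 1)) (C (i + 1) - C i) (-m) j) := fun i hi =>
    tsc_R_step (pvtb_pt_door m (C i) (C (i + 1)) j (pvtb_cor_dir h hi)) (pvtb_exit_mem hm h hi hj) (pvtb_entry_mem hm h hi hj)
  have key : ∀ i, i < N → TscR pvtbG4 (pvtbLev m N C j) (pvtbPt m (C 0) (C 1 - C 0) (-m) j) (pvtbPt m (C i) (C (i + 1) - C i) m j) := by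
    intro i
    induction i with
    | zero => exact fun h0 => pvtb_lev_first hm h (by omega) hj
    | succ i ih =>
      intro hi
      exact tsc_R_trans (ih (by omega)) (tsc_R_trans (door i (by omega)) (pvtb_lev_mid hm h (by omega) hj))
  exact ⟨key i hi, tsc_R_trans (key i hi) (door i hi)⟩

/-- inside its block every cell of a lane is joined to the entrance point or to the exit point of the block -/
theorem pvtb_lev_local {m : ℤ} (hm : 0 ≤ m) {N : ℕ} {C : ℕ → ℤ × ℤ} (h : PvtbCor N C) (hN : 1 ≤ N) {j : ℤ} {i : ℕ} (hi : i ≤ N) {v : ℤ × ℤ} (hv : pvtbCo m v = C i) (ho : pvtbOff m N C i v = j) :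
    ∃ a b : ℤ × ℤ, (0 < i → C i - C (i - 1) = a) ∧ (i < N → C (i + 1) - C i = b) ∧ (i = 0 → a = b) ∧
      (TscR pvtbG4 (pvtbLev m N C j) (pvtbPt m (C i) a (-m) j) v ∨ (0 < i ∧ i < N ∧ TscR pvtbG4 (pvtbLev m N C j) v (pvtbPt m (C i) b m j))) := by
  have hj : -m ≤ j ∧ j ≤ m := by
    rw [← ho]
    exact pvtb_off_range hm h hN hi hv
  have hsp := pvtb_Co_spec hm v
  rw [hv] at hsp
  have mem : ∀ e, (e = (1, 0) ∨ e = (-1, 0) ∨ e = (0, 1) ∨ e = (0, -1)) → ∀ t, -m ≤ t → t ≤ m →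
      pvtbOff m N C i (pvtbPt m (C i) e t j) = j → pvtbPt m (C i) e t j ∈ pvtbLev m N C j := fun e he t t1 t2 ho =>
    ⟨i, hi, (pvtb_pt_co hm (C i) he ⟨t1, t2⟩ hj).1, ho⟩
  have bnd : ∀ e, (e = (1, 0) ∨ e = (-1, 0) ∨ e = (0, 1) ∨ e = (0, -1)) → -m ≤ pvtbPr e (pvtbRel m (C i) v) ∧ pvtbPr e (pvtbRel m (C i) v) ≤ m := by
    rintro e (rfl | rfl | rfl | rfl) <;> simp [pvtbPr, pvtbRel] <;> omega
  -- a block where the lane coordinate is the left offset of one direction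
  have lin : ∀ e, (e = (1, 0) ∨ e = (-1, 0) ∨ e = (0, 1) ∨ e = (0, -1)) → (∀ z, pvtbOff m N C i z = pvtbLo e (pvtbRel m (C i) z)) →
      TscR pvtbG4 (pvtbLev m N C j) (pvtbPt m (C i) e (-m) j) v := by
    intro e he hoff
    have hb := bnd e he
    have hpe := pvtb_pt_eq m (C i) he v
    rw [← hoff, ho] at hpe
    have := pvtb_leg (S := pvtbLev m N C j) m (C i) he j (-m) (pvtbPr e (pvtbRel m (C i) v)) (fun t t1 t2 => mem e he t (by omega) (by omega) (by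
      rw [hoff, pvtb_lo_pt]
      rcases he with rfl | rfl | rfl | rfl <;> simp [pvtbLo, pvtbPr]))
    rwa [hpe] at this
  rcases Nat.eq_zero_or_pos i with rfl | hpos
  · exact ⟨C 1 - C 0, C 1 - C 0, fun h0 => absurd h0 (lt_irrefl 0), fun _ => rfl, fun _ => rfl, Or.inl (lin _ (pvtb_cor_dir h (i := 0) (by omega)) (fun z => pvtb_off_zero m N C z))⟩
  obtain ⟨k, rfl⟩ : ∃ k, i = k + 1 := ⟨i - 1, by omega⟩
  have hd := pvtb_cor_dir h (i := k) (by omega)
  rcases Nat.lt_or_ge (k + 1) N with hlt | hge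
  swap
  · obtain rfl : N = k + 1 := by omega
    exact ⟨C (k + 1) - C k, C (k + 1) - C k, fun _ => rfl, fun h0 => absurd h0 (lt_irrefl _), fun h0 => by omega, Or.inl (lin _ hd (fun z => pvtb_off_last m k C z))⟩
  have hd' := pvtb_cor_dir h (i := k + 1) hlt
  have ht := pvtb_cor_turn h (i := k) (by omega)
  refine ⟨C (k + 1) - C k, C (k + 2) - C (k + 1), fun _ => rfl, fun _ => rfl, fun h0 => by omega, ?_⟩
  rcases ht with e | e | e
  · exact Or.inl (lin _ hd (fun z => pvtb_off_straight m h (by omega) e z))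
  · -- left turn
    have offL : ∀ z, pvtbOff m N C (k + 1) z = min (pvtbLo (C (k + 1) - C k) (pvtbRel m (C (k + 1)) z)) (pvtbLo (C (k + 2) - C (k + 1)) (pvtbRel m (C (k + 1)) z)) :=
      fun z => pvtb_off_left m (by omega) e z
    have hba := bnd _ hd
    have hbb := bnd _ hd'
    have hpa := pvtb_pt_eq m (C (k + 1)) hd v
    have hpb := pvtb_pt_eq m (C (k + 1)) hd' v
    rw [offL] at ho
    generalize C (k + 1) - C k = a at *
    generalize C (k + 2) - C (k + 1) = b at *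
    subst e
    have e1 : pvtbLo (pvtbI a) (pvtbRel m (C (k + 1)) v) = -(pvtbPr a (pvtbRel m (C (k + 1)) v)) := by
      simp only [pvtbLo, pvtbPr, pvtbI]; ring
    have e2 : pvtbPr (pvtbI a) (pvtbRel m (C (k + 1)) v) = pvtbLo a (pvtbRel m (C (k + 1)) v) := by
      simp only [pvtbLo, pvtbPr, pvtbI]; ring
    rcases le_total (pvtbLo a (pvtbRel m (C (k + 1)) v)) (pvtbLo (pvtbI a) (pvtbRel m (C (k + 1)) v)) with hle | hle
    · left
      rw [min_eq_left hle] at ho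
      rw [ho] at hpa hle
      rw [e1] at hle
      generalize pvtbPr a (pvtbRel m (C (k + 1)) v) = t at *
      have := pvtb_leg (S := pvtbLev m N C j) m (C (k + 1)) hd j (-m) t (fun t' t1 t2 => mem a hd t' (by omega) (by omega) (by
        rw [offL, pvtb_lo_pt, pvtb_lo_pt]
        rcases hd with rfl | rfl | rfl | rfl <;> simp [pvtbLo, pvtbPr, pvtbI] <;> omega))
      rwa [hpa] at this
    · right
      refine ⟨by omega, hlt, ?_⟩
      rw [min_eq_right hle] at ho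
      rw [ho] at hpb hle
      rw [← e2] at hle
      generalize pvtbPr (pvtbI a) (pvtbRel m (C (k + 1)) v) = t at *
      have := pvtb_leg (S := pvtbLev m N C j) m (C (k + 1)) hd' j t m (fun t' t1 t2 => mem _ hd' t' (by omega) (by omega) (by
        rw [offL, pvtb_lo_pt, pvtb_lo_pt]
        rcases hd with rfl | rfl | rfl | rfl <;> simp [pvtbLo, pvtbPr, pvtbI] <;> omega))
      rwa [hpb] at this
  · -- right turn
    have hne : C (k + 2) - C (k + 1) ≠ pvtbI (C (k + 1) - C k) := by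
      rw [e]
      rcases hd with e' | e' | e' | e' <;> rw [e'] <;> simp [pvtbI]
    have offR : ∀ z, pvtbOff m N C (k + 1) z = max (pvtbLo (C (k + 1) - C k) (pvtbRel m (C (k + 1)) z)) (pvtbLo (C (k + 2) - C (k + 1)) (pvtbRel m (C (k + 1)) z)) :=
      fun z => pvtb_off_right m (by omega) hne z
    have hba := bnd _ hd
    have hbb := bnd _ hd'
    have hpa := pvtb_pt_eq m (C (k + 1)) hd v
    have hpb := pvtb_pt_eq m (C (k + 1)) hd' v
    rw [offR] at ho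
    clear hne
    generalize C (k + 1) - C k = a at *
    generalize C (k + 2) - C (k + 1) = b at *
    subst e
    have e1 : pvtbLo (-pvtbI a) (pvtbRel m (C (k + 1)) v) = pvtbPr a (pvtbRel m (C (k + 1)) v) := by
      simp only [pvtbLo, pvtbPr, pvtbI, Prod.fst_neg, Prod.snd_neg]; ring
    have e2 : pvtbPr (-pvtbI a) (pvtbRel m (C (k + 1)) v) = -(pvtbLo a (pvtbRel m (C (k + 1)) v)) := by
      simp only [pvtbLo, pvtbPr, pvtbI, Prod.fst_neg, Prod.snd_neg]; ring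
    rcases le_total (pvtbLo (-pvtbI a) (pvtbRel m (C (k + 1)) v)) (pvtbLo a (pvtbRel m (C (k + 1)) v)) with hle | hle
    · left
      rw [max_eq_left hle] at ho
      rw [ho] at hpa hle
      rw [e1] at hle
      generalize pvtbPr a (pvtbRel m (C (k + 1)) v) = t at *
      have := pvtb_leg (S := pvtbLev m N C j) m (C (k + 1)) hd j (-m) t (fun t' t1 t2 => mem a hd t' (by omega) (by omega) (by
        rw [offR, pvtb_lo_pt, pvtb_lo_pt]
        rcases hd with rfl | rfl | rfl | rfl <;> simp [pvtbLo, pvtbPr, pvtbI] <;> omega))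
      rwa [hpa] at this
    · right
      refine ⟨by omega, hlt, ?_⟩
      rw [max_eq_right hle] at ho
      rw [ho] at hpb hle
      have hle' : -j ≤ pvtbPr (-pvtbI a) (pvtbRel m (C (k + 1)) v) := by rw [e2]; omega
      generalize pvtbPr (-pvtbI a) (pvtbRel m (C (k + 1)) v) = t at *
      have := pvtb_leg (S := pvtbLev m N C j) m (C (k + 1)) hd' j t m (fun t' t1 t2 => mem _ hd' t' (by omega) (by omega) (by
        rw [offR, pvtb_lo_pt, pvtb_lo_pt]
        rcases hd with rfl | rfl | rfl | rfl <;> simp [pvtbLo, pvtbPr, pvtbI] <;> omega))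
      rwa [hpb] at this

/-- **FIT1**: a level set is 4-connected -/
theorem pvtb_lev_conn_all {m : ℤ} (hm : 0 ≤ m) {N : ℕ} {C : ℕ → ℤ × ℤ} (h : PvtbCor N C) (hN : 1 ≤ N) {j : ℤ} {v : ℤ × ℤ} (hv : v ∈ pvtbLev m N C j) :
    TscR pvtbG4 (pvtbLev m N C j) (pvtbPt m (C 0) (C 1 - C 0) (-m) j) v := by
  obtain ⟨i, hi, ci, oi⟩ := hv
  have hj : -m ≤ j ∧ j ≤ m := by
    rw [← oi]
    exact pvtb_off_range hm h hN hi ci
  obtain ⟨a, b, ha, hb, h0, hR⟩ := pvtb_lev_local hm h hN hi ci oi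
  rcases hR with hR | ⟨i0, iN, hR⟩
  · rcases Nat.eq_zero_or_pos i with rfl | hpos
    · rw [h0 rfl, ← hb (by omega)] at hR
      exact hR
    · obtain ⟨k, rfl⟩ : ∃ k, i = k + 1 := ⟨i - 1, by omega⟩
      have e : C (k + 1) - C k = a := ha (by omega)
      rw [← e] at hR
      exact tsc_R_trans (pvtb_lev_chain hm h hj (i := k) (by omega)).2 hR
  · rw [← hb iN] at hR
    exact tsc_R_trans (pvtb_lev_chain hm h hj iN).1 (tsc_R_symm hR)

/-- **FIT1**: a lane is 4-connected -/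
theorem pvtb_lane_conn {m : ℤ} (hm : 0 ≤ m) {N : ℕ} {C : ℕ → ℤ × ℤ} (h : PvtbCor N C) (hN : 1 ≤ N) (a b : ℤ) : TscConn pvtbG4 (pvtbLane m N C a b) := by
  have hd := pvtb_cor_dir h (i := 0) (by omega)
  have sub : ∀ j, a ≤ j → j ≤ b → pvtbLev m N C j ⊆ pvtbLane m N C a b := fun j h1 h2 v hv => ⟨j, h1, h2, hv⟩
  have hId : pvtbI (C 1 - C 0) = (1, 0) ∨ pvtbI (C 1 - C 0) = (-1, 0) ∨ pvtbI (C 1 - C 0) = (0, 1) ∨ pvtbI (C 1 - C 0) = (0, -1) := by
    rcases hd with e | e | e | e <;> rw [e] <;> simp [pvtbI]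
  rintro u ⟨j, j1, j2, hu⟩ v ⟨j', j1', j2', hv⟩
  have rj : -m ≤ j ∧ j ≤ m := by
    obtain ⟨i, hi, ci, oi⟩ := hu
    rw [← oi]
    exact pvtb_off_range hm h hN hi ci
  have rj' : -m ≤ j' ∧ j' ≤ m := by
    obtain ⟨i, hi, ci, oi⟩ := hv
    rw [← oi]
    exact pvtb_off_range hm h hN hi ci
  have lat : TscR pvtbG4 (pvtbLane m N C a b) (pvtbPt m (C 0) (C 1 - C 0) (-m) j) (pvtbPt m (C 0) (C 1 - C 0) (-m) j') := by
    rw [pvtb_pt_rot, pvtb_pt_rot m (C 0) (C 1 - C 0) (-m) j']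
    refine pvtb_leg m _ hId _ _ _ (fun t t1 t2 => ?_)
    rw [← pvtb_pt_rot]
    obtain ⟨e1, e2, -⟩ := pvtb_pt_co hm (C 0) hd (t := -m) (j := t) (by omega) (by omega)
    exact ⟨t, by omega, by omega, 0, by omega, e1, by rw [pvtb_off_zero]; exact e2⟩
  exact tsc_R_trans (tsc_R_symm (tsc_R_mono (sub j j1 j2) (pvtb_lev_conn_all hm h hN hu))) (tsc_R_trans lat (tsc_R_mono (sub j' j1' j2') (pvtb_lev_conn_all hm h hN hv)))

end Claimed.Agent.R289
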