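-- KEEP
import Claimed.Agent.R289.Tr.Menu
import Claimed.Agent.R289.Tr.Band

/-!
# Row 289 (S0537, Cardy for Poisson-Voronoi), unit TR, ROAD P, P11 = Tr/LaneP : THE WHITE LANE OF A PLUG TYPE      (pen helper15, second helper225; prefix `pvlp_`, defs `pvlp*`, `Pvlp*`)

Text of record: `origin/helper205:notes/R289/MENU_205.md` M9, M9' and `origin/helper273:notes/R289/ROADP_273.md` P1 (`M`, `Mp`, `Mm`), P6 (strip), P11.      PURE CELLS + plane metric: no probability, no `PvMap`.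
CONSUMERS: 277 (`Tr/LaneW.lean`: event `A_κ`, F3 = M12), 263 59 (`Tr/PrepP.lean`: strip `S_κ`), 185 (`Tr/StateP.lean`: `L^{±,w}` inside `Mp`, `Mm`), 212 113 (`Tr/Stab.lean`: `P` misses the strip), 291 (`Tr/Orient.lean`), 272 147 68 (`Tr/ForceP.lean`).

COORDINATES.   Coarse cells = the cells of `Tr/Menu` (size `δ = dl·h`, centred at the grid centre `z` of the pin).   FINE cells have size `δ/5`; the coarse cell `p` is the union of the fine cells `w`, `5 p ≤ w ≤ 5 p + 4`.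
`pvtbD 5 r F` of `Tr/Band` is CENTRED at `5 p`: the PLACED index of a fine cell `v` of `pvtbD` is `v + (2,2)`.   All sets of `ℂ` below are RELATIVE to the centre: the consumer translates by `z` (`pvlp_sq_shift`: translation by a fine grid vector = shift of the indices).

**RULING P5 of 273 (10:36Z DB, defect found by 202): PAIR FORM.   THE LANE `ln : ((ℤ × ℤ) × (ℤ × ℤ)) × ℕ` (dart, length) IS AN ARGUMENT of every definition (`pvlpS δ τ ln`, `pvlpMp δ n τ ln`, ..), placed right after `τ`; every theorem which had `hτ : PvmnIsType 𝔑 τ` now also has `hl : PvmnLaneR τ ln.1 ln.2`.**   `pvlpE τ` survives as a default value (`pvlp_lane`).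

* §1 `ln` (a right lane of `Tr/Menu`), `pvlpR τ ln` (coarse lane `R`), `pvlpF τ ln = pvtbD 5 3 R` (refined, fattened by ONE fine cell: well composed, 4-connected),
     **THE CORRIDOR** `M` = `pvlpC τ ln 0, …, pvlpC τ ln (pvlpN τ ln)` (placed indices; a geodesic of `pvlpF`: `PvtbCor`, no near return), `pvlpL τ ln` (the list for `pvlnLaneEv` / `pvlq_lane`), length bound.
* §2 windows `pvlpWin δ τ ln a b` (cells `a ≤ i ≤ b` with the collar `δ/40` `= pvlnW (δ/5) ..`), strip `pvlpS δ τ ln`, doors; compact; inside `U(N R)`; far windows are `3δ/20` apart.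
* §3 `pvlpK n τ ln` (first cell of the corridor in the fine box `n`), `Mm` = indices `≤ K`, `Mp` = indices `≥ K`.   **WALK SPLIT**: a chain of points of the strip with steps `≤ δ/10` from the door `A` to the door `B`.
* §4 **`pvlp_miss`** (M9): `τ` fits the rim, no near return at level 0  ⟹  no vertex of the rim in `U(N² R)`;  `pvlp_miss_strip`: all vertices are `> 3δ/2` away from the strip.
* §5 (M9', 225) the corridor and every door-to-door walk pass near EVERY vertex of the pieces `1..8`, in particular near the pin vertex.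
-/

set_option autoImplicit false
set_option linter.unusedSectionVars false
set_option linter.unusedVariables false
set_option linter.unusedSimpArgs false

namespace Claimed.Agent.R289

open Relation Claims.C0467 Claimed.Agent.R291

/-! ## §1 the chosen lane, the corridor -/

open Classical in
/-- SOME right lane of the type: dart and length (a DEFAULT value only: since ruling P5 of 273 the lane `ln` is an ARGUMENT of everything below) -/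
noncomputable def pvlpE (τ : PvmnType) : ((ℤ × ℤ) × (ℤ × ℤ)) × ℕ :=
  if h : ∃ p : ((ℤ × ℤ) × (ℤ × ℤ)) × ℕ, PvmnLaneR τ p.1 p.2 then h.choose else (((0, 0), (0, 0)), 0)

/-- the coarse lane `R` -/
noncomputable def pvlpR (τ : PvmnType) (ln : ((ℤ × ℤ) × (ℤ × ℤ)) × ℕ) : Set (ℤ × ℤ) := pvtrArc (pvmnK3 τ) ln.1 ln.2

/-- the first coarse cell of the lane (next to `Dr⁻`) -/
noncomputable def pvlpA0 (τ : PvmnType) (ln : ((ℤ × ℤ) × (ℤ × ℤ)) × ℕ) : ℤ × ℤ := ((pvtrStep (pvmnK3 τ))^[1] ln.1).2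

/-- the last coarse cell of the lane (next to `Dr⁺`) -/
noncomputable def pvlpA1 (τ : PvmnType) (ln : ((ℤ × ℤ) × (ℤ × ℤ)) × ℕ) : ℤ × ℤ := ((pvtrStep (pvmnK3 τ))^[ln.2 - 1] ln.1).2

/-- the fine region: refinement by 5, fattened by one fine cell (indices CENTRED at `5 p`) -/
noncomputable def pvlpF (τ : PvmnType) (ln : ((ℤ × ℤ) × (ℤ × ℤ)) × ℕ) : Set (ℤ × ℤ) := pvtbD 5 3 (pvlpR τ ln)

/-- a corridor of the fine region from the centre of the first coarse cell to the centre of the last one -/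
def PvlpIsCor (τ : PvmnType) (ln : ((ℤ × ℤ) × (ℤ × ℤ)) × ℕ) (p : ℕ × (ℕ → ℤ × ℤ)) : Prop :=
  PvtbCor p.1 p.2 ∧ p.2 0 = (5 * (pvlpA0 τ ln).1, 5 * (pvlpA0 τ ln).2) ∧ p.2 p.1 = (5 * (pvlpA1 τ ln).1, 5 * (pvlpA1 τ ln).2) ∧ ∀ i, i ≤ p.1 → p.2 i ∈ pvlpF τ ln

open Classical in
/-- the CHOSEN corridor (centred indices) -/
noncomputable def pvlpCor (τ : PvmnType) (ln : ((ℤ × ℤ) × (ℤ × ℤ)) × ℕ) : ℕ × (ℕ → ℤ × ℤ) := if h : ∃ p, PvlpIsCor τ ln p then h.choose else (0, fun _ => (0, 0))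

/-- the last index of the corridor `M` -/
noncomputable def pvlpN (τ : PvmnType) (ln : ((ℤ × ℤ) × (ℤ × ℤ)) × ℕ) : ℕ := (pvlpCor τ ln).1

/-- the PLACED index of the `i`-th fine cell of the corridor `M` -/
noncomputable def pvlpC (τ : PvmnType) (ln : ((ℤ × ℤ) × (ℤ × ℤ)) × ℕ) (i : ℕ) : ℤ × ℤ := (((pvlpCor τ ln).2 i).1 + 2, ((pvlpCor τ ln).2 i).2 + 2)

/-- the corridor as a list (for `pvlnLaneEv`, `pvlq_lane`) -/
noncomputable def pvlpL (τ : PvmnType) (ln : ((ℤ × ℤ) × (ℤ × ℤ)) × ℕ) : List (ℤ × ℤ) := (List.range (pvlpN τ ln + 1)).map (pvlpC τ ln)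

/-- the cells `a ≤ i ≤ b` of the corridor -/
def pvlpSeg (τ : PvmnType) (ln : ((ℤ × ℤ) × (ℤ × ℤ)) × ℕ) (a b : ℕ) : Set (ℤ × ℤ) := {w | ∃ i, a ≤ i ∧ i ≤ b ∧ w = pvlpC τ ln i}

/-! ## §2 windows -/

/-- the closed square of centre `w` and half side `r` (`= pvmSq w r` of `Mesh/Net`, by `rfl`) -/
def pvlpSq (w : ℂ) (r : ℝ) : Set ℂ := {z | |z.re - w.re| ≤ r ∧ |z.im - w.im| ≤ r}

/-- the window of the cells `a ≤ i ≤ b` of the corridor: fine cells with the collar `δ/40` (`= pvlnW (δ/5) ..` of `Tr/Lane`) -/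
def pvlpWin (δ : ℝ) (τ : PvmnType) (ln : ((ℤ × ℤ) × (ℤ × ℤ)) × ℕ) (a b : ℕ) : Set ℂ := ⋃ i ∈ Set.Icc a b, pvlpSq (pvtCtr (δ / 5) (pvlpC τ ln i)) (δ / 8)

/-- **THE STRIP** (relative to the centre of the pin) -/
noncomputable def pvlpS (δ : ℝ) (τ : PvmnType) (ln : ((ℤ × ℤ) × (ℤ × ℤ)) × ℕ) : Set ℂ := pvlpWin δ τ ln 0 (pvlpN τ ln)

/-- the door `A` (at `Dr⁻`) and the door `B` (at `Dr⁺`) of the strip -/
def pvlpDA (δ : ℝ) (τ : PvmnType) (ln : ((ℤ × ℤ) × (ℤ × ℤ)) × ℕ) : Set ℂ := pvlpWin δ τ ln 0 0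
noncomputable def pvlpDB (δ : ℝ) (τ : PvmnType) (ln : ((ℤ × ℤ) × (ℤ × ℤ)) × ℕ) : Set ℂ := pvlpWin δ τ ln (pvlpN τ ln) (pvlpN τ ln)

/-! ## §3 the cut of the corridor -/

open Classical in
/-- the first index of the corridor whose cell lies in the FINE box `[-n,n]²` -/
noncomputable def pvlpK (n : ℕ) (τ : PvmnType) (ln : ((ℤ × ℤ) × (ℤ × ℤ)) × ℕ) : ℕ := if h : ∃ i, i ≤ pvlpN τ ln ∧ pvlpC τ ln i ∈ pvmnBox n then Nat.find h else 0

/-- `Mm`: the window of the corridor up to the cut;   `Mp`: from the cut on -/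
noncomputable def pvlpMm (δ : ℝ) (n : ℕ) (τ : PvmnType) (ln : ((ℤ × ℤ) × (ℤ × ℤ)) × ℕ) : Set ℂ := pvlpWin δ τ ln 0 (pvlpK n τ ln)
noncomputable def pvlpMp (δ : ℝ) (n : ℕ) (τ : PvmnType) (ln : ((ℤ × ℤ) × (ℤ × ℤ)) × ℕ) : Set ℂ := pvlpWin δ τ ln (pvlpK n τ ln) (pvlpN τ ln)

theorem pvlp_eqns_cite : True := by
  have := @pvlpE.eq_1; have := @pvlpR.eq_1; have := @pvlpA0.eq_1; have := @pvlpA1.eq_1; have := @pvlpF.eq_1; have := @PvlpIsCor.eq_1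
  have := @pvlpCor.eq_1; have := @pvlpN.eq_1; have := @pvlpC.eq_1; have := @pvlpL.eq_1; have := @pvlpSeg.eq_1; have := @pvlpSq.eq_1
  have := @pvlpWin.eq_1; have := @pvlpS.eq_1; have := @pvlpDA.eq_1; have := @pvlpDB.eq_1; have := @pvlpK.eq_1; have := @pvlpMm.eq_1; have := @pvlpMp.eq_1
  trivial

section typ

variable {𝔑 : PvmnNum} {τ : PvmnType} {ln : ((ℤ × ℤ) × (ℤ × ℤ)) × ℕ}

/-- the default lane is a right lane -/
theorem pvlp_lane (hτ : PvmnIsType 𝔑 τ) : PvmnLaneR τ (pvlpE τ).1 (pvlpE τ).2 := by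
  have hex : ∃ p : ((ℤ × ℤ) × (ℤ × ℤ)) × ℕ, PvmnLaneR τ p.1 p.2 := by
    obtain ⟨e, l, h⟩ := pvmn_laneR_exists hτ
    exact ⟨(e, l), h⟩
  unfold pvlpE
  rw [dif_pos hex]
  exact hex.choose_spec

/-- **the right lanes of a type are finitely many** (for the `Fintype` of the menu in PAIR FORM) -/
theorem pvlp_lanes_finite (τ : PvmnType) : {ln : ((ℤ × ℤ) × (ℤ × ℤ)) × ℕ | PvmnLaneR τ ln.1 ln.2}.Finite := by
  classical
  have hK : (pvmnK3 τ).Finite := pvmn_K3_finite τ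
  have hB := pvtr_bd_finite hK
  choose! n hn using fun e (he : e ∈ pvtrBd (pvmnK3 τ)) => pvtr_periodic hK he
  refine (hB.biUnion (fun e _ => (Set.finite_Iic (n e)).image (fun l => (e, l)))).subset ?_
  rintro ⟨e, l⟩ h
  have h' : PvtrLane (pvmnK3 τ) (pvmnDrm τ) (pvmnDrp τ) e l := h
  simp only [Set.mem_iUnion, Set.mem_image, Set.mem_Iic, exists_prop]
  refine ⟨e, h'.mem, l, ?_, rfl⟩
  by_contra hlt
  rw [not_le] at hlt
  obtain ⟨h0, h1⟩ := hn e h'.mem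
  apply h'.off (n e) h0 hlt
  rw [h1]
  exact Or.inl h'.start

/-- the lane lies in the 5-tube, off `K3`, off the doors -/
theorem pvlp_R_sub (hτ : PvmnIsType 𝔑 τ) (hl : PvmnLaneR τ ln.1 ln.2) : pvlpR τ ln ⊆ (pvtwN 5 (pvmnCells τ 0 9) \ pvmnK3 τ) \ (pvmnDrm τ ∪ pvmnDrp τ) :=
  pvmn_lane_sub hl

theorem pvlp_R_conn (hτ : PvmnIsType 𝔑 τ) (hl : PvmnLaneR τ ln.1 ln.2) : TscConn tscG (pvlpR τ ln) :=
  pvtr_arc_conn hl.mem

/-- the first cell of the lane is next to the door `Dr⁻` -/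
theorem pvlp_A0 (hτ : PvmnIsType 𝔑 τ) (hl : PvmnLaneR τ ln.1 ln.2) : pvlpA0 τ ln ∈ pvlpR τ ln ∧ ∃ x ∈ pvmnDrm τ, triAdj x (pvlpA0 τ ln) := by
  have h := hl
  have h' : PvtrLane (pvmnK3 τ) (pvmnDrm τ) (pvmnDrp τ) ln.1 ln.2 := h
  obtain ⟨h1, h2, h3⟩ := pvtr_lane_ends h' (pvmn_doors_disj hτ) (pvmn_doors_nadj hτ)
  exact ⟨⟨1, one_pos, h1, rfl⟩, _, h'.start, h2⟩

/-- the last cell of the lane is next to the door `Dr⁺` -/
theorem pvlp_A1 (hτ : PvmnIsType 𝔑 τ) (hl : PvmnLaneR τ ln.1 ln.2) : pvlpA1 τ ln ∈ pvlpR τ ln ∧ ∃ x ∈ pvmnDrp τ, triAdj (pvlpA1 τ ln) x := by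
  have h := hl
  have h' : PvtrLane (pvmnK3 τ) (pvmnDrm τ) (pvmnDrp τ) ln.1 ln.2 := h
  obtain ⟨h1, h2, h3⟩ := pvtr_lane_ends h' (pvmn_doors_disj hτ) (pvmn_doors_nadj hτ)
  exact ⟨⟨ln.2 - 1, by omega, by omega, rfl⟩, _, h'.stop, h3⟩

/-- **the corridor exists** -/
theorem pvlp_cor (hτ : PvmnIsType 𝔑 τ) (hl : PvmnLaneR τ ln.1 ln.2) : PvlpIsCor τ ln (pvlpCor τ ln) := by
  have hex : ∃ p, PvlpIsCor τ ln p := by
    have hWC : PvtbWC (pvlpF τ ln) := pvtb_wc_D (by norm_num) _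
    have hc8 : TscConn pvtbG8 (pvlpR τ ln) := fun u hu v hv => pvtb_R_le (fun _ _ => pvtb_tri_G8) (pvlp_R_conn hτ hl u hu v hv)
    have hconn : TscConn pvtbG4 (pvlpF τ ln) := pvtb_D_conn (by norm_num) (by norm_num) hc8
    have ha : ((5 * (pvlpA0 τ ln).1, 5 * (pvlpA0 τ ln).2) : ℤ × ℤ) ∈ pvlpF τ ln := ⟨pvlpA0 τ ln, (pvlp_A0 hτ hl).1, by simp, by simp, by simp, by simp⟩
    have hb : ((5 * (pvlpA1 τ ln).1, 5 * (pvlpA1 τ ln).2) : ℤ × ℤ) ∈ pvlpF τ ln := ⟨pvlpA1 τ ln, (pvlp_A1 hτ hl).1, by simp, by simp, by simp, by simp⟩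
    obtain ⟨n, c, h1, h2, h3, h4⟩ := pvtb_cor_exists hWC ha (hconn _ ha _ hb)
    exact ⟨(n, c), h1, h2, h3, h4⟩
  unfold pvlpCor
  rw [dif_pos hex]
  exact hex.choose_spec

/-- the placed corridor is a corridor without near return -/
theorem pvlp_C_cor (hτ : PvmnIsType 𝔑 τ) (hl : PvmnLaneR τ ln.1 ln.2) : PvtbCor (pvlpN τ ln) (pvlpC τ ln) :=
  (pvtb_cor_map (pvlp_cor hτ hl).1 (2, 2)).1

/-- every cell of the corridor lies in a coarse cell of the lane fattened by one fine cell -/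
theorem pvlp_C_mem (hτ : PvmnIsType 𝔑 τ) (hl : PvmnLaneR τ ln.1 ln.2) {i : ℕ} (hi : i ≤ pvlpN τ ln) : ∃ p ∈ pvlpR τ ln,
    5 * p.1 - 1 ≤ (pvlpC τ ln i).1 ∧ (pvlpC τ ln i).1 ≤ 5 * p.1 + 5 ∧ 5 * p.2 - 1 ≤ (pvlpC τ ln i).2 ∧ (pvlpC τ ln i).2 ≤ 5 * p.2 + 5 := by
  obtain ⟨-, -, -, h⟩ := pvlp_cor hτ hl
  obtain ⟨p, hp, h1, h2, h3, h4⟩ := h i hi
  refine ⟨p, hp, ?_⟩
  simp only [pvlpC]
  omega

theorem pvlp_C_zero (hτ : PvmnIsType 𝔑 τ) (hl : PvmnLaneR τ ln.1 ln.2) : pvlpC τ ln 0 = (5 * (pvlpA0 τ ln).1 + 2, 5 * (pvlpA0 τ ln).2 + 2) := by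
  have h := (pvlp_cor hτ hl).2.1
  simp only [pvlpC, h]

theorem pvlp_C_last (hτ : PvmnIsType 𝔑 τ) (hl : PvmnLaneR τ ln.1 ln.2) : pvlpC τ ln (pvlpN τ ln) = (5 * (pvlpA1 τ ln).1 + 2, 5 * (pvlpA1 τ ln).2 + 2) := by
  have h := (pvlp_cor hτ hl).2.2.1
  simp only [pvlpC, pvlpN, h]

/-- **length bound**: depends on the numbers of the menu only -/
theorem pvlp_len (hτ : PvmnIsType 𝔑 τ) (hl : PvmnLaneR τ ln.1 ln.2) : pvlpN τ ln + 1 ≤ (10 * 𝔑.nBx + 57) ^ 2 := by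
  classical
  obtain ⟨hc, -, -, hmem⟩ := pvlp_cor hτ hl
  set n := (pvlpCor τ ln).1 with hn
  set c := (pvlpCor τ ln).2 with hcdef
  set M : ℤ := 5 * (𝔑.nBx : ℤ) + 28 with hM
  have hbox : ∀ i, i ≤ n → c i ∈ (Finset.Icc (-M) M ×ˢ Finset.Icc (-M) M : Finset (ℤ × ℤ)) := by
    intro i hi
    obtain ⟨p, hp, h1, h2, h3, h4⟩ := hmem i hi
    have hp5 : p ∈ pvtwN 5 (pvmnCells τ 0 9) := (pvlp_R_sub hτ hl hp).1.1
    obtain ⟨b1, b2, b3, b4⟩ := pvmn_N_box (k := 5) (pvmn_cells_box (a := 0) (b := 9) hτ) hp5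
    push_cast at b1 b2 b3 b4
    simp only [Finset.mem_product, Finset.mem_Icc]
    refine ⟨⟨by omega, by omega⟩, ⟨by omega, by omega⟩⟩
  have hinj : Set.InjOn c (Finset.range (n + 1) : Set ℕ) := by
    intro i hi j hj hij
    have hi' : i ≤ n := by simpa [Nat.lt_succ_iff] using hi
    have hj' : j ≤ n := by simpa [Nat.lt_succ_iff] using hj
    exact pvtb_cor_inj hc hi' hj' hij
  have hcard : (Finset.range (n + 1)).card ≤ (Finset.Icc (-M) M ×ˢ Finset.Icc (-M) M : Finset (ℤ × ℤ)).card := by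
    refine Finset.card_le_card_of_injOn c ?_ hinj
    intro i hi
    have hi' : i ≤ n := by simpa [Nat.lt_succ_iff] using hi
    exact hbox i hi'
  rw [Finset.card_range, Finset.card_product, Int.card_Icc] at hcard
  have e : (M + 1 - -M).toNat = 10 * 𝔑.nBx + 57 := by omega
  rw [e] at hcard
  show n + 1 ≤ _
  rw [sq]
  exact hcard

theorem pvlp_L_length (τ : PvmnType) (ln : ((ℤ × ℤ) × (ℤ × ℤ)) × ℕ) : (pvlpL τ ln).length = pvlpN τ ln + 1 := by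
  simp [pvlpL]

theorem pvlp_L_ne (τ : PvmnType) (ln : ((ℤ × ℤ) × (ℤ × ℤ)) × ℕ) : pvlpL τ ln ≠ [] := by
  intro h
  have := pvlp_L_length τ ln
  rw [h] at this
  simp at this

theorem pvlp_mem_L {τ : PvmnType} {ln : ((ℤ × ℤ) × (ℤ × ℤ)) × ℕ} {w : ℤ × ℤ} : w ∈ pvlpL τ ln ↔ w ∈ pvlpSeg τ ln 0 (pvlpN τ ln) := by
  simp only [pvlpL, List.mem_map, List.mem_range, pvlpSeg, Set.mem_setOf_eq]
  constructor
  · rintro ⟨i, hi, rfl⟩
    exact ⟨i, Nat.zero_le _, by omega, rfl⟩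
  · rintro ⟨i, -, hi, rfl⟩
    exact ⟨i, by omega, rfl⟩

/-- consecutive cells share a side (`PvlnAdj` of `Tr/Lane` is this relation) -/
theorem pvlp_L_chain (hτ : PvmnIsType 𝔑 τ) (hl : PvmnLaneR τ ln.1 ln.2) : (pvlpL τ ln).IsChain (fun k k' => pvtbG4.Adj k k') := by
  have hc := pvlp_C_cor hτ hl
  rw [List.isChain_iff_getElem]
  intro i hi
  have hlen : (pvlpL τ ln).length = pvlpN τ ln + 1 := pvlp_L_length τ ln
  have h1 : i + 1 < pvlpN τ ln + 1 := by rw [← hlen]; exact hi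
  simp only [pvlpL, List.getElem_map, List.getElem_range]
  exact hc.step i (by omega)

end typ

/-! ### §2 windows: metric -/

section win

variable {𝔑 : PvmnNum} {τ : PvmnType} {ln : ((ℤ × ℤ) × (ℤ × ℤ)) × ℕ} {δ : ℝ} {a b a' b' i j : ℕ} {p q : ℂ}

theorem pvlp_mem_win : p ∈ pvlpWin δ τ ln a b ↔ ∃ i, a ≤ i ∧ i ≤ b ∧ p ∈ pvlpSq (pvtCtr (δ / 5) (pvlpC τ ln i)) (δ / 8) := by
  simp only [pvlpWin, Set.mem_iUnion, Set.mem_Icc, exists_prop, and_assoc]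

theorem pvlp_win_mono (h1 : a' ≤ a) (h2 : b ≤ b') : pvlpWin δ τ ln a b ⊆ pvlpWin δ τ ln a' b' := by
  intro p hp
  obtain ⟨i, h3, h4, h5⟩ := pvlp_mem_win.1 hp
  exact pvlp_mem_win.2 ⟨i, h1.trans h3, h4.trans h2, h5⟩

theorem pvlp_win_union (h1 : a ≤ i) (h2 : i ≤ b) : pvlpWin δ τ ln a b = pvlpWin δ τ ln a i ∪ pvlpWin δ τ ln i b := by
  apply Set.Subset.antisymm
  · intro p hp
    obtain ⟨k, h3, h4, h5⟩ := pvlp_mem_win.1 hp
    rcases le_total k i with h | h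
    · exact Or.inl (pvlp_mem_win.2 ⟨k, h3, h, h5⟩)
    · exact Or.inr (pvlp_mem_win.2 ⟨k, h, h4, h5⟩)
  · exact Set.union_subset (pvlp_win_mono le_rfl h2) (pvlp_win_mono h1 le_rfl)

theorem pvlp_sq_compact (w : ℂ) (r : ℝ) : IsCompact (pvlpSq w r) := by
  have h : pvlpSq w r = Set.Icc (w.re - r) (w.re + r) ×ℂ Set.Icc (w.im - r) (w.im + r) := by
    ext z
    simp only [pvlpSq, Set.mem_setOf_eq, Complex.mem_reProdIm, Set.mem_Icc, abs_le]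
    constructor <;> rintro ⟨⟨a, b⟩, c, d⟩ <;> refine ⟨⟨?_, ?_⟩, ?_, ?_⟩ <;> linarith
  rw [h]
  exact isCompact_Icc.reProdIm isCompact_Icc

theorem pvlp_win_compact (δ : ℝ) (τ : PvmnType) (ln : ((ℤ × ℤ) × (ℤ × ℤ)) × ℕ) (a b : ℕ) : IsCompact (pvlpWin δ τ ln a b) := by
  exact (Set.finite_Icc a b).isCompact_biUnion fun i _ => pvlp_sq_compact _ _

/-- translation by a vector of the fine grid = shift of the indices -/
theorem pvlp_sq_shift (δf r : ℝ) (w o : ℤ × ℤ) :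
    pvlpSq (pvtCtr δf (w + o)) r = (fun p : ℂ => p + (⟨(o.1 : ℝ) * δf, (o.2 : ℝ) * δf⟩ : ℂ)) '' pvlpSq (pvtCtr δf w) r := by
  ext z
  simp only [pvlpSq, Set.mem_image, Set.mem_setOf_eq, pvtCtr, Prod.fst_add, Prod.snd_add, Int.cast_add]
  constructor
  · rintro ⟨h1, h2⟩
    refine ⟨z - (⟨(o.1 : ℝ) * δf, (o.2 : ℝ) * δf⟩ : ℂ), ⟨?_, ?_⟩, by simp⟩
    · rw [Complex.sub_re]
      have e : z.re - (o.1 : ℝ) * δf - ((w.1 : ℝ) + 1 / 2) * δf = z.re - ((w.1 : ℝ) + (o.1 : ℝ) + 1 / 2) * δf := by ring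
      rw [e]; exact h1
    · rw [Complex.sub_im]
      have e : z.im - (o.2 : ℝ) * δf - ((w.2 : ℝ) + 1 / 2) * δf = z.im - ((w.2 : ℝ) + (o.2 : ℝ) + 1 / 2) * δf := by ring
      rw [e]; exact h2
  · rintro ⟨p, ⟨h1, h2⟩, rfl⟩
    refine ⟨?_, ?_⟩
    · rw [Complex.add_re]
      have e : p.re + (o.1 : ℝ) * δf - ((w.1 : ℝ) + (o.1 : ℝ) + 1 / 2) * δf = p.re - ((w.1 : ℝ) + 1 / 2) * δf := by ring
      rw [e]; exact h1
    · rw [Complex.add_im]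
      have e : p.im + (o.2 : ℝ) * δf - ((w.2 : ℝ) + (o.2 : ℝ) + 1 / 2) * δf = p.im - ((w.2 : ℝ) + 1 / 2) * δf := by ring
      rw [e]; exact h2

/-- the fine cell lies in its window -/
theorem pvlp_cell_win (hδ : 0 < δ) (h1 : a ≤ i) (h2 : i ≤ b) : pvtSq (δ / 5) (pvlpC τ ln i) ⊆ pvlpWin δ τ ln a b := by
  intro z hz
  obtain ⟨z1, z2, z3, z4⟩ := hz
  refine pvlp_mem_win.2 ⟨i, h1, h2, ?_, ?_⟩
  · show |z.re - (((pvlpC τ ln i).1 : ℝ) + 1 / 2) * (δ / 5)| ≤ δ / 8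
    rw [abs_le]
    constructor <;> nlinarith
  · show |z.im - (((pvlpC τ ln i).2 : ℝ) + 1 / 2) * (δ / 5)| ≤ δ / 8
    rw [abs_le]
    constructor <;> nlinarith

/-- one coordinate: a point of three consecutive intervals lies in one of them -/
theorem pvlp_three {δ : ℝ} (hδ : 0 < δ) (P : ℤ) (x : ℝ) (h1 : ((P : ℝ) - 1) * δ ≤ x) (h2 : x ≤ ((P : ℝ) + 2) * δ) :
    ∃ w : ℤ, w ≤ P + 1 ∧ P ≤ w + 1 ∧ (w : ℝ) * δ ≤ x ∧ x ≤ ((w : ℝ) + 1) * δ := by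
  by_cases c1 : x ≤ (P : ℝ) * δ
  · refine ⟨P - 1, by omega, by omega, ?_, ?_⟩
    · push_cast; exact h1
    · push_cast; linarith
  · by_cases c2 : x ≤ ((P : ℝ) + 1) * δ
    · exact ⟨P, by omega, by omega, by linarith, c2⟩
    · refine ⟨P + 1, by omega, by omega, ?_, ?_⟩
      · push_cast; linarith
      · push_cast; linarith

/-- one coordinate of `pvlp_win_near` -/
theorem pvlp_near_coord {δ : ℝ} (hδ : 0 < δ) (P C : ℤ) (x y : ℝ) (h1 : 5 * P - 1 ≤ C) (h2 : C ≤ 5 * P + 5) (hx : |x - ((C : ℝ) + 1 / 2) * (δ / 5)| ≤ δ / 8) (hy : |y - x| ≤ δ / 2) :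
    ((P : ℝ) - 1) * δ ≤ y ∧ y ≤ ((P : ℝ) + 2) * δ := by
  have h1' : 5 * (P : ℝ) - 1 ≤ (C : ℝ) := by exact_mod_cast h1
  have h2' : (C : ℝ) ≤ 5 * (P : ℝ) + 5 := by exact_mod_cast h2
  rw [abs_le] at hx hy
  have k1 : (5 * (P : ℝ) - 1) * δ ≤ (C : ℝ) * δ := mul_le_mul_of_nonneg_right h1' hδ.le
  have k2 : (C : ℝ) * δ ≤ (5 * (P : ℝ) + 5) * δ := mul_le_mul_of_nonneg_right h2' hδ.le
  constructor <;> nlinarith [hx.1, hx.2, hy.1, hy.2]

theorem pvlp_win_near0 {𝔑 : PvmnNum} {τ : PvmnType} {ln : ((ℤ × ℤ) × (ℤ × ℤ)) × ℕ} {δ : ℝ} {a b : ℕ} {p q : ℂ} (hτ : PvmnIsType 𝔑 τ) (hl : PvmnLaneR τ ln.1 ln.2) (hδ : 0 < δ) (hb : b ≤ pvlpN τ ln) (hp : p ∈ pvlpWin δ τ ln a b) (hq : ‖q - p‖ ≤ δ / 2) :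
    q ∈ pvtU δ (pvtwN 1 (pvlpR τ ln)) := by
  obtain ⟨i, -, hib, hp1, hp2⟩ := pvlp_mem_win.1 hp
  obtain ⟨P, hP, c1, c2, c3, c4⟩ := pvlp_C_mem hτ hl (hib.trans hb)
  have hre : |q.re - p.re| ≤ δ / 2 := by
    have := Complex.abs_re_le_norm (q - p)
    rw [Complex.sub_re] at this
    exact this.trans hq
  have him : |q.im - p.im| ≤ δ / 2 := by
    have := Complex.abs_im_le_norm (q - p)
    rw [Complex.sub_im] at this
    exact this.trans hq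
  obtain ⟨a1, a2⟩ := pvlp_near_coord hδ P.1 (pvlpC τ ln i).1 p.re q.re c1 c2 hp1 hre
  obtain ⟨b1, b2⟩ := pvlp_near_coord hδ P.2 (pvlpC τ ln i).2 p.im q.im c3 c4 hp2 him
  obtain ⟨w1, u1, u2, u3, u4⟩ := pvlp_three hδ P.1 q.re a1 a2
  obtain ⟨w2, v1, v2, v3, v4⟩ := pvlp_three hδ P.2 q.im b1 b2
  refine Set.mem_iUnion₂.2 ⟨(w1, w2), ⟨P, hP, ?_, ?_, ?_, ?_⟩, u3, u4, v3, v4⟩
  · show w1 ≤ P.1 + ((1 : ℕ) : ℤ)
    push_cast; exact u1
  · show P.1 ≤ w1 + ((1 : ℕ) : ℤ)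
    push_cast; exact u2
  · show w2 ≤ P.2 + ((1 : ℕ) : ℤ)
    push_cast; exact v1
  · show P.2 ≤ w2 + ((1 : ℕ) : ℤ)
    push_cast; exact v2

/-- the strip lies in the 1-collar of the coarse lane -/
theorem pvlp_win_sub (hτ : PvmnIsType 𝔑 τ) (hl : PvmnLaneR τ ln.1 ln.2) (hδ : 0 < δ) (hb : b ≤ pvlpN τ ln) : pvlpWin δ τ ln a b ⊆ pvtU δ (pvtwN 1 (pvlpR τ ln)) := by
  intro z hz
  exact pvlp_win_near0 hτ hl hδ hb hz (by simp only [sub_self, norm_zero]; positivity)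

/-- with a margin: a point at distance `≤ δ/2` from the strip still lies in `U(N R)` -/
theorem pvlp_win_near (hτ : PvmnIsType 𝔑 τ) (hl : PvmnLaneR τ ln.1 ln.2) (hδ : 0 < δ) (hb : b ≤ pvlpN τ ln) (hp : p ∈ pvlpWin δ τ ln a b) (hq : ‖q - p‖ ≤ δ / 2) :
    q ∈ pvtU δ (pvtwN 1 (pvlpR τ ln)) := by
  exact pvlp_win_near0 hτ hl hδ hb hp hq

/-- one coordinate of `pvlp_win_idx` -/
theorem pvlp_idx_coord {δ : ℝ} (hδ : 0 < δ) (u v : ℤ) (x y : ℝ) (hx : |x - ((u : ℝ) + 1 / 2) * (δ / 5)| ≤ δ / 8) (hy : |y - ((v : ℝ) + 1 / 2) * (δ / 5)| ≤ δ / 8)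
    (hxy : |y - x| ≤ δ / 10) : v ≤ u + 1 := by
  by_contra hc
  have h2 : u + 2 ≤ v := by omega
  have h2' : (u : ℝ) + 2 ≤ (v : ℝ) := by exact_mod_cast h2
  have k : ((u : ℝ) + 2) * δ ≤ (v : ℝ) * δ := mul_le_mul_of_nonneg_right h2' hδ.le
  rw [abs_le] at hx hy hxy
  nlinarith [hx.1, hx.2, hy.1, hy.2, hxy.1, hxy.2]

/-- two close windows: the cells are equal or touch -/
theorem pvlp_idx_cells {δ : ℝ} (hδ : 0 < δ) {u v : ℤ × ℤ} {p q : ℂ} (hp : p ∈ pvlpSq (pvtCtr (δ / 5) u) (δ / 8)) (hq : q ∈ pvlpSq (pvtCtr (δ / 5) v) (δ / 8))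
    (hpq : ‖q - p‖ ≤ δ / 10) : u = v ∨ pvtbG8.Adj u v := by
  have hre : |q.re - p.re| ≤ δ / 10 := by
    have := Complex.abs_re_le_norm (q - p)
    rw [Complex.sub_re] at this
    exact this.trans hpq
  have him : |q.im - p.im| ≤ δ / 10 := by
    have := Complex.abs_im_le_norm (q - p)
    rw [Complex.sub_im] at this
    exact this.trans hpq
  have hre' : |p.re - q.re| ≤ δ / 10 := by rw [abs_sub_comm]; exact hre
  have him' : |p.im - q.im| ≤ δ / 10 := by rw [abs_sub_comm]; exact him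
  by_cases huv : u = v
  · exact Or.inl huv
  · exact Or.inr ⟨huv, pvlp_idx_coord hδ u.1 v.1 p.re q.re hp.1 hq.1 hre, pvlp_idx_coord hδ v.1 u.1 q.re p.re hq.1 hp.1 hre',
      pvlp_idx_coord hδ u.2 v.2 p.im q.im hp.2 hq.2 him, pvlp_idx_coord hδ v.2 u.2 q.im p.im hq.2 hp.2 him'⟩

/-- **windows which are close have close indices** -/
theorem pvlp_win_idx (hτ : PvmnIsType 𝔑 τ) (hl : PvmnLaneR τ ln.1 ln.2) (hδ : 0 < δ) (hi : i ≤ pvlpN τ ln) (hj : j ≤ pvlpN τ ln)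
    (hp : p ∈ pvlpSq (pvtCtr (δ / 5) (pvlpC τ ln i)) (δ / 8)) (hq : q ∈ pvlpSq (pvtCtr (δ / 5) (pvlpC τ ln j)) (δ / 8)) (hpq : ‖q - p‖ ≤ δ / 10) :
    i ≤ j + 2 ∧ j ≤ i + 2 := by
  have hC := pvlp_C_cor hτ hl
  constructor
  · by_contra hc
    have h3 : j + 3 ≤ i := by omega
    obtain ⟨n1, n2⟩ := hC.far j i h3 hi
    have hqp : ‖p - q‖ ≤ δ / 10 := by rw [norm_sub_rev]; exact hpq
    rcases pvlp_idx_cells hδ hq hp hqp with e | e
    · exact n1 e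
    · exact n2 e
  · by_contra hc
    have h3 : i + 3 ≤ j := by omega
    obtain ⟨n1, n2⟩ := hC.far i j h3 hj
    rcases pvlp_idx_cells hδ hp hq hpq with e | e
    · exact n1 e
    · exact n2 e

/-- far parts of the strip are apart -/
theorem pvlp_win_far (hτ : PvmnIsType 𝔑 τ) (hl : PvmnLaneR τ ln.1 ln.2) (hδ : 0 < δ) (hab : b + 3 ≤ a') (hb' : b' ≤ pvlpN τ ln) (hp : p ∈ pvlpWin δ τ ln a b) (hq : q ∈ pvlpWin δ τ ln a' b') :
    δ / 10 < ‖q - p‖ := by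
  obtain ⟨i, h1, h2, h3⟩ := pvlp_mem_win.1 hp
  obtain ⟨j, h4, h5, h6⟩ := pvlp_mem_win.1 hq
  by_contra hcon
  have := pvlp_win_idx hτ hl hδ (by omega) (by omega) h3 h6 (not_lt.1 hcon)
  omega

end win

/-! ### §3 walks through the strip -/

section walk

variable {𝔑 : PvmnNum} {τ : PvmnType} {ln : ((ℤ × ℤ) × (ℤ × ℤ)) × ℕ} {δ : ℝ}

/-- **WALK SPLIT, forward half**: a chain of points of the strip with steps `≤ δ/10` from the door `A` to the door `B`, a cut `K`.   From some time `J` on the chain stays in the windows `≥ K`, and `x J` lies in the windows `K-2..K+2`.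
(`J` = 1 + the last time at which the point lies in no window `≥ K`.) -/
theorem pvlp_split_fwd (hτ : PvmnIsType 𝔑 τ) (hl : PvmnLaneR τ ln.1 ln.2) (hδ : 0 < δ) (x : ℕ → ℂ) (n : ℕ) (hx : ∀ j, j ≤ n → x j ∈ pvlpS δ τ ln) (hs : ∀ j, j < n → ‖x (j + 1) - x j‖ ≤ δ / 10)
    (h0 : x 0 ∈ pvlpDA δ τ ln) (hn : x n ∈ pvlpDB δ τ ln) {K : ℕ} (hK : K ≤ pvlpN τ ln) :
    ∃ J, J ≤ n ∧ x J ∈ pvlpWin δ τ ln (K - 2) (K + 2) ∧ ∀ j, J ≤ j → j ≤ n → x j ∈ pvlpWin δ τ ln K (pvlpN τ ln) := by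
  classical
  have hnK : x n ∈ pvlpWin δ τ ln K (pvlpN τ ln) := pvlp_win_mono hK le_rfl hn
  by_cases hB : ∃ j, j ≤ n ∧ x j ∉ pvlpWin δ τ ln K (pvlpN τ ln)
  · -- the last bad time
    let S := (Finset.range (n + 1)).filter fun j => x j ∉ pvlpWin δ τ ln K (pvlpN τ ln)
    have hS : S.Nonempty := by
      obtain ⟨j, h1, h2⟩ := hB
      exact ⟨j, Finset.mem_filter.2 ⟨Finset.mem_range.2 (by omega), h2⟩⟩
    have hmem := S.max'_mem hS
    have hmax : ∀ j ∈ S, j ≤ S.max' hS := fun j hj => S.le_max' j hj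
    generalize S.max' hS = j0 at hmem hmax
    obtain ⟨ha, hb⟩ := Finset.mem_filter.1 hmem
    have ha' : j0 ≤ n := by have := Finset.mem_range.1 ha; omega
    have hne : j0 ≠ n := fun e => hb (by rw [e]; exact hnK)
    have hlt : j0 < n := lt_of_le_of_ne ha' hne
    have hgood : ∀ j, j0 + 1 ≤ j → j ≤ n → x j ∈ pvlpWin δ τ ln K (pvlpN τ ln) := by
      intro j h1 h2
      by_contra hcon
      have : j ∈ S := Finset.mem_filter.2 ⟨Finset.mem_range.2 (by omega), hcon⟩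
      have := hmax j this
      omega
    refine ⟨j0 + 1, hlt, ?_, hgood⟩
    obtain ⟨i, h1, h2, h3⟩ := pvlp_mem_win.1 (hgood (j0 + 1) le_rfl hlt)
    obtain ⟨i', h4, h5, h6⟩ := pvlp_mem_win.1 (hx j0 ha')
    have hi' : i' < K := by
      by_contra hcon
      exact hb (pvlp_mem_win.2 ⟨i', not_lt.1 hcon, h5, h6⟩)
    have := pvlp_win_idx hτ hl hδ h5 h2 h6 h3 (hs j0 hlt)
    exact pvlp_mem_win.2 ⟨i, by omega, by omega, h3⟩
  · push Not at hB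
    refine ⟨0, Nat.zero_le _, ?_, fun j _ h2 => hB j h2⟩
    obtain ⟨i, h1, h2, h3⟩ := pvlp_mem_win.1 (hB 0 (Nat.zero_le _))
    obtain ⟨i', h4, h5, h6⟩ := pvlp_mem_win.1 h0
    have := pvlp_win_idx hτ hl hδ (by omega) h2 h6 h3 (by rw [sub_self, norm_zero]; positivity)
    exact pvlp_mem_win.2 ⟨i, by omega, by omega, h3⟩

/-- **WALK SPLIT, backward half** -/
theorem pvlp_split_bwd (hτ : PvmnIsType 𝔑 τ) (hl : PvmnLaneR τ ln.1 ln.2) (hδ : 0 < δ) (x : ℕ → ℂ) (n : ℕ) (hx : ∀ j, j ≤ n → x j ∈ pvlpS δ τ ln) (hs : ∀ j, j < n → ‖x (j + 1) - x j‖ ≤ δ / 10)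
    (h0 : x 0 ∈ pvlpDA δ τ ln) (hn : x n ∈ pvlpDB δ τ ln) {K : ℕ} (hK : K ≤ pvlpN τ ln) :
    ∃ J, J ≤ n ∧ x J ∈ pvlpWin δ τ ln (K - 2) (K + 2) ∧ ∀ j, j ≤ J → x j ∈ pvlpWin δ τ ln 0 K := by
  classical
  have h0K : x 0 ∈ pvlpWin δ τ ln 0 K := pvlp_win_mono le_rfl (Nat.zero_le _) h0
  by_cases hB : ∃ j, j ≤ n ∧ x j ∉ pvlpWin δ τ ln 0 K
  · have hB' : ∃ j, j ≤ n ∧ x j ∉ pvlpWin δ τ ln 0 K := hB
    have hspec := Nat.find_spec hB'
    have hmin : ∀ j, j < Nat.find hB' → ¬ (j ≤ n ∧ x j ∉ pvlpWin δ τ ln 0 K) := fun j h => Nat.find_min hB' h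
    generalize Nat.find hB' = j0 at hspec hmin
    obtain ⟨ha, hb⟩ := hspec
    have hpos : 0 < j0 := by
      rcases Nat.eq_zero_or_pos j0 with e | e
      · rw [e] at hb
        exact absurd h0K hb
      · exact e
    have hgood : ∀ j, j < j0 → x j ∈ pvlpWin δ τ ln 0 K := by
      intro j h1
      by_contra hcon
      exact hmin j h1 ⟨by omega, hcon⟩
    obtain ⟨J, hJ⟩ : ∃ J, j0 = J + 1 := ⟨j0 - 1, by omega⟩
    refine ⟨J, by omega, ?_, fun j h1 => hgood j (by omega)⟩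
    obtain ⟨i, h1, h2, h3⟩ := pvlp_mem_win.1 (hgood J (by omega))
    obtain ⟨i', h4, h5, h6⟩ := pvlp_mem_win.1 (hx j0 ha)
    have hi' : K < i' := by
      by_contra hcon
      exact hb (pvlp_mem_win.2 ⟨i', Nat.zero_le _, not_lt.1 hcon, h6⟩)
    have hst := hs J (by omega)
    rw [← hJ] at hst
    have := pvlp_win_idx hτ hl hδ (by omega) h5 h3 h6 hst
    exact pvlp_mem_win.2 ⟨i, by omega, by omega, h3⟩
  · push Not at hB
    refine ⟨n, le_rfl, ?_, fun j h2 => hB j h2⟩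
    obtain ⟨i, h1, h2, h3⟩ := pvlp_mem_win.1 (hB n le_rfl)
    obtain ⟨i', h4, h5, h6⟩ := pvlp_mem_win.1 hn
    have := pvlp_win_idx hτ hl hδ (by omega) h5 h3 h6 (by rw [sub_self, norm_zero]; positivity)
    exact pvlp_mem_win.2 ⟨i, by omega, by omega, h3⟩

end walk

/-! ### §4 the rim misses the lane (M9) -/

section miss

variable {𝔑 : PvmnNum} {τ : PvmnType} {ln : ((ℤ × ℤ) × (ℤ × ℤ)) × ℕ} {δ μ d e : ℝ} {v : ℕ → ℂ} {t : Fin 11 → ℕ} {lo hi : ℕ}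

/-- **M9**: no vertex of the rim (indices `lo..hi`: the part of the rim in the big box) lies in `U(N² R)` -/
theorem pvlp_miss (hτ : PvmnIsType 𝔑 τ) (hl : PvmnLaneR τ ln.1 ln.2) (hfit : PvmnFits τ δ v t) (hδ : 0 < δ) (hμ : 0 ≤ μ) (hlo : lo ≤ t 0) (hhi : t 10 ≤ hi)
    (mesh : ∀ k, lo ≤ k → k < hi → ‖v (k + 1) - v k‖ ≤ μ) (hNR : PvtxNR v lo hi d e) (hd : 16 * δ + μ ≤ d)
    (hb0 : 2 * e < ‖v (t 1) - v (t 0)‖) (hb9 : 2 * e < ‖v (t 10) - v (t 9)‖) :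
    ∀ k, lo ≤ k → k ≤ hi → v k ∉ pvtU δ (pvtwN 2 (pvlpR τ ln)) := by
  intro k hk1 hk2 hmem
  obtain ⟨z, hz, hvz⟩ := Set.mem_iUnion₂.1 hmem
  obtain ⟨r, hr, r1, r2, r3, r4⟩ := hz
  obtain ⟨⟨⟨c, hc, c1, c2, c3, c4⟩, hK3⟩, hdoor⟩ := pvlp_R_sub hτ hl hr
  obtain ⟨j, -, -, hcj⟩ := hc
  push_cast at r1 r2 r3 r4 c1 c2 c3 c4
  have hmono : Monotone t := Fin.monotone_iff_le_succ.2 hfit.mono
  have ht0 : ∀ a : Fin 11, t 0 ≤ t a := fun a => hmono (Fin.zero_le a)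
  have ht10 : ∀ a : Fin 11, t a ≤ t 10 := fun a => hmono (Fin.le_last a)
  -- a vertex of the arc near `c`
  have hcj' : c ∈ pvtCells δ (pvtxPoly v (t j.castSucc) (t j.succ)) := by
    rw [← hfit.cells j]; exact hcj
  obtain ⟨w, hwc, hwp⟩ := hcj'
  obtain ⟨i, hi1, hi2, hiw⟩ : ∃ i, t j.castSucc ≤ i ∧ i ≤ t j.succ ∧ ‖w - v i‖ ≤ μ := by
    rcases pvtx_mem_poly.1 hwp with rfl | ⟨i, h1, h2, h3⟩
    · exact ⟨_, le_rfl, hfit.mono j, by rw [sub_self, norm_zero]; exact hμ⟩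
    · refine ⟨i, h1, h2.le, ?_⟩
      have hm := mesh i (hlo.trans ((ht0 _).trans h1)) (lt_of_lt_of_le h2 ((ht10 _).trans hhi))
      have := norm_sub_le_of_mem_segment h3
      exact this.trans hm
  have hdist : ‖v k - v i‖ ≤ d := by
    obtain ⟨a1, a2, a3, a4⟩ := hvz
    obtain ⟨b1, b2, b3, b4⟩ := hwc
    have z1 : (z.1 : ℝ) ≤ c.1 + 7 := by exact_mod_cast (show z.1 ≤ c.1 + 7 by omega)
    have z2 : (c.1 : ℝ) ≤ z.1 + 7 := by exact_mod_cast (show c.1 ≤ z.1 + 7 by omega)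
    have z3 : (z.2 : ℝ) ≤ c.2 + 7 := by exact_mod_cast (show z.2 ≤ c.2 + 7 by omega)
    have z4 : (c.2 : ℝ) ≤ z.2 + 7 := by exact_mod_cast (show c.2 ≤ z.2 + 7 by omega)
    have hre : |(v k - w).re| ≤ 8 * δ := by
      rw [Complex.sub_re, abs_le]; constructor <;> nlinarith
    have him : |(v k - w).im| ≤ 8 * δ := by
      rw [Complex.sub_im, abs_le]; constructor <;> nlinarith
    have h1 : ‖v k - w‖ ≤ 16 * δ := (Complex.norm_le_abs_re_add_abs_im _).trans (by linarith)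
    calc ‖v k - v i‖ = ‖(v k - w) + (w - v i)‖ := by ring_nf
      _ ≤ ‖v k - w‖ + ‖w - v i‖ := norm_add_le _ _
      _ ≤ d := by linarith
  have hilo : lo ≤ i := hlo.trans ((ht0 _).trans hi1)
  have hihi : i ≤ hi := hi2.trans ((ht10 _).trans hhi)
  have tri : ∀ a b o : ℂ, ‖a - o‖ ≤ e → ‖b - o‖ ≤ e → ‖a - b‖ ≤ 2 * e := by
    intro a b o h1 h2
    calc ‖a - b‖ = ‖(a - o) - (b - o)‖ := by ring_nf
      _ ≤ ‖a - o‖ + ‖b - o‖ := norm_sub_le _ _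
      _ ≤ 2 * e := by linarith
  rcases lt_or_ge k (t 0) with hA | hA
  · -- before the arc
    by_cases hj : j = 0
    · subst hj
      exact hdoor (Or.inl ⟨c, hcj, by push_cast; omega, by push_cast; omega, by push_cast; omega, by push_cast; omega⟩)
    · have h1j : t 1 ≤ t j.castSucc := hmono (by
        rw [Fin.le_def]
        have : j.1 ≠ 0 := fun h => hj (Fin.ext h)
        simp only [Fin.val_castSucc, Fin.val_one]
        omega)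
      have hN := hNR k i hk1 (by have := ht0 1; omega) hihi hdist
      have := tri _ _ _ (hN (t 1) (by have := ht0 1; omega) (by omega)) (hN (t 0) hA.le (by have := ht0 1; omega))
      linarith
  · rcases lt_or_ge (t 10) k with hB | hB
    · by_cases hj : j = 9
      · subst hj
        exact hdoor (Or.inr ⟨c, hcj, by push_cast; omega, by push_cast; omega, by push_cast; omega, by push_cast; omega⟩)
      · have h9j : t j.succ ≤ t 9 := hmono (by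
          rw [Fin.le_def]
          have : j.1 ≠ 9 := fun h => hj (Fin.ext h)
          have := j.2
          simp only [Fin.val_succ]
          show j.1 + 1 ≤ 9
          omega)
        have hN := hNR i k hilo (by have := ht10 9; omega) hk2 (by rw [norm_sub_rev]; exact hdist)
        have := tri _ _ _ (hN (t 10) (by have := ht10 9; omega) hB.le) (hN (t 9) (by omega) (by have := ht10 9; omega))
        linarith
    · -- on the arc
      have hex : ∃ j' : Fin 10, t j'.castSucc ≤ k ∧ k ≤ t j'.succ := by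
        by_contra hno
        push Not at hno
        have h0 : t 0 ≤ k → t 1 < k := hno 0
        have h1 : t 1 ≤ k → t 2 < k := hno 1
        have h2 : t 2 ≤ k → t 3 < k := hno 2
        have h3 : t 3 ≤ k → t 4 < k := hno 3
        have h4 : t 4 ≤ k → t 5 < k := hno 4
        have h5 : t 5 ≤ k → t 6 < k := hno 5
        have h6 : t 6 ≤ k → t 7 < k := hno 6
        have h7 : t 7 ≤ k → t 8 < k := hno 7
        have h8 : t 8 ≤ k → t 9 < k := hno 8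
        have h9 : t 9 ≤ k → t 10 < k := hno 9
        omega
      obtain ⟨j', h1, h2⟩ := hex
      have hz' : z ∈ (τ.C j' : Set (ℤ × ℤ)) := by
        rw [hfit.cells j']
        exact ⟨v k, hvz, pvtx_vertex_mem h1 h2⟩
      apply hK3
      refine pvt_hull_sub ⟨z, ⟨j', Nat.zero_le _, by have := j'.2; omega, hz'⟩, ?_, ?_, ?_, ?_⟩ <;> push_cast <;> omega

/-- the vertices off the box of the type are off `U(N² R)` as well -/
theorem pvlp_miss_far (hτ : PvmnIsType 𝔑 τ) (hl : PvmnLaneR τ ln.1 ln.2) {p : ℂ} (hp : p ∉ pvtU δ (pvmnBox (𝔑.nBx + 7))) : p ∉ pvtU δ (pvtwN 2 (pvlpR τ ln)) := by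
  intro h
  apply hp
  obtain ⟨z, hz, hpz⟩ := Set.mem_iUnion₂.1 h
  have h1 : pvmnCells τ 0 9 ⊆ pvmnBox 𝔑.nBx := by
    rintro c ⟨k, -, -, hc⟩
    exact hτ.box k hc
  have h2 : pvlpR τ ln ⊆ pvmnBox (𝔑.nBx + 5) := fun c hc => pvmn_N_box h1 (pvlp_R_sub hτ hl hc).1.1
  exact Set.mem_iUnion₂.2 ⟨z, pvmn_N_box h2 hz, hpz⟩

/-- a point off `U(N² R)` is more than `3δ/2` away from the strip -/
theorem pvlp_miss_strip (hτ : PvmnIsType 𝔑 τ) (hl : PvmnLaneR τ ln.1 ln.2) (hδ : 0 < δ) {p q : ℂ} (hp : p ∉ pvtU δ (pvtwN 2 (pvlpR τ ln))) (hq : q ∈ pvlpS δ τ ln) : 3 * δ / 2 < ‖p - q‖ := by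
  by_contra hcon
  have hcon := not_lt.1 hcon
  apply hp
  obtain ⟨i, h1, h2, h3⟩ := pvlp_mem_win.1 hq
  obtain ⟨c, hc, c1, c2, c3, c4⟩ := pvlp_C_mem hτ hl h2
  obtain ⟨q1, q2⟩ := h3
  have hre : |(p - q).re| ≤ 3 * δ / 2 := (Complex.abs_re_le_norm _).trans hcon
  have him : |(p - q).im| ≤ 3 * δ / 2 := (Complex.abs_im_le_norm _).trans hcon
  simp only [Complex.sub_re, Complex.sub_im] at hre him
  simp only [pvtCtr] at q1 q2
  rw [abs_le] at hre him q1 q2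
  have d1 : ((5 * c.1 - 1 : ℤ) : ℝ) ≤ ((pvlpC τ ln i).1 : ℝ) := by exact_mod_cast c1
  have d2 : ((pvlpC τ ln i).1 : ℝ) ≤ ((5 * c.1 + 5 : ℤ) : ℝ) := by exact_mod_cast c2
  have d3 : ((5 * c.2 - 1 : ℤ) : ℝ) ≤ ((pvlpC τ ln i).2 : ℝ) := by exact_mod_cast c3
  have d4 : ((pvlpC τ ln i).2 : ℝ) ≤ ((5 * c.2 + 5 : ℤ) : ℝ) := by exact_mod_cast c4
  push_cast at d1 d2 d3 d4
  -- bounds for p
  have e1 : ((c.1 : ℝ) - 2) * δ ≤ p.re := by nlinarith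
  have e2 : p.re ≤ ((c.1 : ℝ) + 3) * δ := by nlinarith
  have e3 : ((c.2 : ℝ) - 2) * δ ≤ p.im := by nlinarith
  have e4 : p.im ≤ ((c.2 : ℝ) + 3) * δ := by nlinarith
  -- the cell of p
  have cell : ∀ (t : ℝ) (k : ℤ), ((k : ℝ) - 2) * δ ≤ t → t ≤ ((k : ℝ) + 3) * δ → ∃ u : ℤ, (u : ℝ) * δ ≤ t ∧ t ≤ ((u : ℝ) + 1) * δ ∧ u ≤ k + 2 ∧ k ≤ u + 2 := by
    intro t k h1 h2
    by_cases hk : t < ((k : ℝ) + 3) * δ
    · refine ⟨⌊t / δ⌋, ?_, ?_, ?_, ?_⟩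
      · have := Int.floor_le (t / δ)
        rwa [le_div_iff₀ hδ] at this
      · have := (Int.lt_floor_add_one (t / δ)).le
        rwa [div_le_iff₀ hδ] at this
      · have : ⌊t / δ⌋ < k + 3 := by
          rw [Int.floor_lt, div_lt_iff₀ hδ]
          push_cast
          exact hk
        omega
      · have : k - 2 ≤ ⌊t / δ⌋ := by
          rw [Int.le_floor, le_div_iff₀ hδ]
          push_cast
          exact h1
        omega
    · have e : t = ((k : ℝ) + 3) * δ := le_antisymm h2 (not_lt.1 hk)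
      refine ⟨k + 2, ?_, ?_, by omega, by omega⟩
      · push_cast; nlinarith
      · push_cast; nlinarith
  obtain ⟨u, u1, u2, u3, u4⟩ := cell p.re c.1 e1 e2
  obtain ⟨w, w1, w2, w3, w4⟩ := cell p.im c.2 e3 e4
  refine Set.mem_iUnion₂.2 ⟨(u, w), ⟨c, hc, ?_, ?_, ?_, ?_⟩, u1, u2, w1, w2⟩ <;> push_cast <;> omega

end miss

end Claimed.Agent.R289
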