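import Claimed.Agent.R289.Tr.Menu
import Claimed.Agent.R289.Tr.LaneP

/-!
# Row 289 (S0537, Cardy for Poisson-Voronoi), unit TR, ROAD P, P11 = Tr/LanePB : LANES FOLLOW THE RIM (M9')      (owner helper225; prefix `pvlb_`, defs `pvlb*`)

-- KEEP.   Text of record: `origin/helper205:notes/R289/MENU_205.md` M9, M9' and `origin/helper273:notes/R289/ROADP_273.md` P11.   Pen of P11: helper15 (`Tr/LaneP.lean`, prefix `pvlp_`); this file is the second half of the split of 15 (10:10Z): M9' and the clearance of the lane zone.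
Pure cells and points: §1-§6 use `Tr/Menu` only, §7 is stated at the corridor of `Tr/LaneP`; no probability, no map, no Jordan curve theorem.   Everything is stated in the CENTRED coordinates of `Tr/Menu` (`v i = P.v i - z`, cell size `δ = dl h`).

* §1 marks and pieces of a fit: `pvlb_t_mono`, `pvlb_cells_poly`, `pvlb_poly_piece`, **`pvlb_cells_eq`** (the cells of the pieces `a..b` ARE the cells of the polygon between the marks `a` and `b+1`), nearest indices `pvlb_idx`, `pvlb_idx_pt`.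
* §2 **M9' for cells** `pvlb_track_ab`, `pvlb_track`: an 8-connected set of cells in the `w`-tube which joins the `w`-collar of the piece `a` to the `w`-collar of the piece `b` passes `e₀ + 2 (w+1) δ + μ`-close to EVERY vertex between the marks `a+1` and `b`; points of the polygon: `pvlb_track_poly`.
* §3 **M9' for walks** `pvlb_walk_ab`, `pvlb_walk`: the same for a chain of POINTS (a vertex path of the triangulation, a broken line) with steps `≤ s`.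
* §4 the pin: `pvlb_pin_norm`, `pvlb_track_pin`, `pvlb_walk_pin`, `pvlb_track_box`: every door-to-door set / walk enters the ball `B(0, (rO + 2) δ + e₀ + 2 (w+1) δ + μ)`.
* §5 the LANE ZONE `pvlbZone τ` (5-tube, off `K3`, off the doors): both lanes lie in it, their first / last cells lie in the 9-collars of the end pieces; `pvlb_laneR_track`, `pvlb_laneL_track`, `pvlb_laneR_pin`, `pvlb_zone_walk`.
* §6 **CLEARANCE** (M9, `U(N² M)` misses `P`): `pvlb_zone_mid` (zone ⊆ 5-tube of the pieces `1..8`), `pvlb_zone_off_arc` (margin `2 δ` from `P[t₀,t₁₀]`), `pvlb_zone_off_fwd/_bwd` (the continuations, by NO NEAR RETURN), `pvlb_zone_clear`, `pvlb_zone_ball`.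
* §7 **AT THE CORRIDOR OF 15** (`Tr/LaneP` §5): `pvlb_win_zone`, `pvlb_DA`, `pvlb_DB`, **`pvlb_strip_walk`**, `pvlb_strip_walk_pin` (every chain of points of the strip, door `A` to door `B`), **`pvlb_cor_track`** (the corridor itself),
     `pvlb_K_ex`, **`pvlb_K_spec`** (`pvlpK n τ` is a true first index), `pvlb_split_p`, `pvlb_split_m` (WALK SPLIT at the cut with the index of the window `≤ N`), `pvlb_cut_norm` (the windows near the cut lie in a small ball).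
-/

set_option autoImplicit false
set_option linter.unusedSectionVars false
set_option linter.unusedVariables false
set_option linter.unusedSimpArgs false

namespace Claimed.Agent.R289

open Relation Claims.C0467 Claimed.Agent.R291

/-! ## §1 marks and pieces of a fit -/

section marks

variable {τ : PvmnType} {δ μ : ℝ} {v : ℕ → ℂ} {t : Fin 11 → ℕ} {a b w : ℕ} {A B : Fin 11} {c : ℤ × ℤ} {p x : ℂ}

/-- the marks are monotone -/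
theorem pvlb_t_mono (hF : PvmnFits τ δ v t) : Monotone t := Fin.monotone_iff_le_succ.2 hF.mono

/-- a piece between two marks -/
theorem pvlb_piece_poly (hF : PvmnFits τ δ v t) (k : Fin 10) (hA : A ≤ k.castSucc) (hB : k.succ ≤ B) :
    (τ.C k : Set (ℤ × ℤ)) ⊆ pvtCells δ (pvtxPoly v (t A) (t B)) := by
  rw [hF.cells k]
  have hm := pvlb_t_mono hF
  exact pvt_cells_mono (pvtx_poly_mono (hm hA) (hm hB) ((hF.mono k).trans (hm hB)))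

/-- a group of pieces between two marks -/
theorem pvlb_cells_poly (hF : PvmnFits τ δ v t) (hA : A.1 ≤ a) (hB : b + 1 ≤ B.1) :
    pvmnCells τ a b ⊆ pvtCells δ (pvtxPoly v (t A) (t B)) := by
  rintro c ⟨k, k1, k2, hc⟩
  refine pvlb_piece_poly hF k (Fin.le_def.2 ?_) (Fin.le_def.2 ?_) hc
  · rw [Fin.val_castSucc]; omega
  · rw [Fin.val_succ]; omega

/-- an index between two marks lies in a piece -/
theorem pvlb_idx_piece (hF : PvmnFits τ δ v t) {j : ℕ} (h0 : t A ≤ j) (h1 : j < t B) :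
    ∃ k : Fin 10, A.1 ≤ k.1 ∧ k.1 + 1 ≤ B.1 ∧ t k.castSucc ≤ j ∧ j < t k.succ := by
  have hm := pvlb_t_mono hF
  have key : ∀ m : Fin 11, j < t m → ∃ k : Fin 10, k.1 + 1 ≤ m.1 ∧ t k.castSucc ≤ j ∧ j < t k.succ := by
    intro m
    induction m using Fin.induction with
    | zero =>
      intro h
      have := hm (Fin.zero_le A)
      omega
    | succ i ih =>
      intro h
      by_cases hc : j < t i.castSucc
      · obtain ⟨k, k1, k2, k3⟩ := ih hc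
        refine ⟨k, ?_, k2, k3⟩
        rw [Fin.val_castSucc] at k1
        rw [Fin.val_succ]; omega
      · exact ⟨i, by rw [Fin.val_succ], not_lt.1 hc, h⟩
  obtain ⟨k, k1, k2, k3⟩ := key B h1
  refine ⟨k, ?_, k1, k2, k3⟩
  by_contra hc
  rw [not_le] at hc
  have : k.succ ≤ A := Fin.le_def.2 (by rw [Fin.val_succ]; omega)
  have := hm this
  omega

/-- a point of the polygon between two marks lies on a piece -/
theorem pvlb_poly_piece (hF : PvmnFits τ δ v t) (hAB : A < B) (hp : p ∈ pvtxPoly v (t A) (t B)) :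
    ∃ k : Fin 10, A.1 ≤ k.1 ∧ k.1 + 1 ≤ B.1 ∧ p ∈ pvtxPoly v (t k.castSucc) (t k.succ) := by
  rcases pvtx_mem_poly.1 hp with rfl | ⟨j, j1, j2, j3⟩
  · have hA : A.1 < 10 := by have := Fin.lt_def.1 hAB; have := B.2; omega
    refine ⟨⟨A.1, hA⟩, le_rfl, Fin.lt_def.1 hAB, ?_⟩
    have : (⟨A.1, hA⟩ : Fin 10).castSucc = A := Fin.ext rfl
    rw [this]
    exact pvtx_mem_poly.2 (Or.inl rfl)
  · obtain ⟨k, k1, k2, k3, k4⟩ := pvlb_idx_piece hF j1 j2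
    exact ⟨k, k1, k2, pvtx_seg_sub k3 k4 j3⟩

/-- **the cells of the pieces `A .. B-1` are the cells of the polygon between the marks `A` and `B`** -/
theorem pvlb_cells_eq (hF : PvmnFits τ δ v t) (hAB : A < B) : pvmnCells τ A.1 (B.1 - 1) = pvtCells δ (pvtxPoly v (t A) (t B)) := by
  refine Set.Subset.antisymm (pvlb_cells_poly hF le_rfl (by have := Fin.lt_def.1 hAB; omega)) ?_
  rintro c ⟨p, hpc, hp⟩
  obtain ⟨k, k1, k2, hk⟩ := pvlb_poly_piece hF hAB hp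
  refine ⟨k, k1, by omega, ?_⟩
  have : c ∈ (τ.C k : Set (ℤ × ℤ)) := by
    rw [hF.cells k]
    exact ⟨p, hpc, hk⟩
  exact this

theorem pvlb_cells_all (hF : PvmnFits τ δ v t) : pvmnCells τ 0 9 = pvtCells δ (pvtxPoly v (t 0) (t 10)) :=
  pvlb_cells_eq hF (A := 0) (B := 10) (by decide)

theorem pvlb_cells_mid (hF : PvmnFits τ δ v t) : pvmnCells τ 1 8 = pvtCells δ (pvtxPoly v (t 1) (t 9)) :=
  pvlb_cells_eq hF (A := 1) (B := 9) (by decide)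

/-- a nearest index between the marks `A`, `B` for a cell of the `w`-collar of the pieces `a..b` -/
theorem pvlb_idx (hF : PvmnFits τ δ v t) (hδ : 0 < δ) (hμ : 0 ≤ μ) (hAB : A ≤ B) (mesh : ∀ k, t A ≤ k → k < t B → ‖v (k + 1) - v k‖ ≤ μ)
    (hA : A.1 ≤ a) (hB : b + 1 ≤ B.1) (hc : c ∈ pvtwN w (pvmnCells τ a b)) :
    ∃ l, t A ≤ l ∧ l ≤ t B ∧ ‖v l - pvtCtr δ c‖ ≤ 2 * ((w : ℝ) + 1) * δ + μ :=
  pvtx_idx hδ hμ (pvlb_t_mono hF hAB) mesh (pvtw_N_mono le_rfl (pvlb_cells_poly hF hA hB) hc)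

/-- the same for a POINT of the `w`-collar -/
theorem pvlb_idx_pt (hF : PvmnFits τ δ v t) (hδ : 0 < δ) (hμ : 0 ≤ μ) (hAB : A ≤ B) (mesh : ∀ k, t A ≤ k → k < t B → ‖v (k + 1) - v k‖ ≤ μ)
    (hA : A.1 ≤ a) (hB : b + 1 ≤ B.1) (hx : x ∈ pvtU δ (pvtwN w (pvmnCells τ a b))) :
    ∃ l, t A ≤ l ∧ l ≤ t B ∧ ‖v l - x‖ ≤ 2 * ((w : ℝ) + 1) * δ + μ := by
  obtain ⟨p, hp, hpx⟩ := pvtx_U_N_cells hδ (pvt_U_mono (pvtw_N_mono le_rfl (pvlb_cells_poly hF hA hB)) hx)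
  obtain ⟨l, l1, l2, l3⟩ := pvtx_poly_vertex hμ (pvlb_t_mono hF hAB) mesh hp
  refine ⟨l, l1, l2, ?_⟩
  have := pvtx_tri (v l) p x
  rw [norm_sub_rev (v l) p] at this
  linarith

end marks

/-! ## §2 M9' for cells -/

section track

variable {τ : PvmnType} {δ μ d e₀ s : ℝ} {v : ℕ → ℂ} {t : Fin 11 → ℕ} {w : ℕ} {R : Set (ℤ × ℤ)} {c0 c1 : ℤ × ℤ} {p : ℂ}

/-- **M9'**, general doors: `R` 8-connected in the `w`-tube, from the `w`-collar of the piece `a` to the `w`-collar of the piece `b` -/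
theorem pvlb_track_ab (hF : PvmnFits τ δ v t) (hδ : 0 < δ) (hμ : 0 ≤ μ) (he : 0 ≤ e₀) (mesh : ∀ k, t 0 ≤ k → k < t 10 → ‖v (k + 1) - v k‖ ≤ μ)
    (hNR : PvtxNR v (t 0) (t 10) d e₀) (hd : 2 * (2 * ((w : ℝ) + 1) * δ + μ) + 2 * δ ≤ d) (hR : R ⊆ pvtwN w (pvmnCells τ 0 9))
    (hc0 : c0 ∈ R) (h : TscR pvtG8 R c0 c1) (a b : Fin 10) (h0 : c0 ∈ pvtwN w (τ.C a : Set (ℤ × ℤ))) (h1 : c1 ∈ pvtwN w (τ.C b : Set (ℤ × ℤ)))
    (i : ℕ) (hi0 : t a.succ ≤ i) (hi1 : i ≤ t b.castSucc) : ∃ c ∈ R, ‖v i - pvtCtr δ c‖ ≤ e₀ + (2 * ((w : ℝ) + 1) * δ + μ) := by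
  have hm := pvlb_t_mono hF
  have z0 : ∀ m : Fin 11, t 0 ≤ t m := fun m => hm (Fin.zero_le m)
  have z1 : ∀ m : Fin 11, t m ≤ t 10 := fun m => hm (Fin.le_last m)
  obtain ⟨s0, a1, a2, a3⟩ := pvtx_idx (k := w) hδ hμ (hF.mono a) (fun k x1 x2 => mesh k ((z0 _).trans x1) (x2.trans_le (z1 _)))
    (by rw [← hF.cells a]; exact h0)
  obtain ⟨s1, b1, b2, b3⟩ := pvtx_idx (k := w) hδ hμ (hF.mono b) (fun k x1 x2 => mesh k ((z0 _).trans x1) (x2.trans_le (z1 _)))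
    (by rw [← hF.cells b]; exact h1)
  exact pvtx_track_tube hNR he hδ hμ (z0 10) mesh (hR.trans (pvtw_N_mono le_rfl (pvlb_cells_all hF).subset)) hd hc0 h
    ⟨(z0 _).trans a1, a2.trans (z1 _), a3⟩ ⟨(z0 _).trans b1, b2.trans (z1 _), b3⟩ i (Or.inl ⟨a2.trans hi0, hi1.trans b1⟩)

/-- **M9'** (door to door): every vertex between the marks `1` and `9` -/
theorem pvlb_track (hF : PvmnFits τ δ v t) (hδ : 0 < δ) (hμ : 0 ≤ μ) (he : 0 ≤ e₀) (mesh : ∀ k, t 0 ≤ k → k < t 10 → ‖v (k + 1) - v k‖ ≤ μ)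
    (hNR : PvtxNR v (t 0) (t 10) d e₀) (hd : 2 * (2 * ((w : ℝ) + 1) * δ + μ) + 2 * δ ≤ d) (hR : R ⊆ pvtwN w (pvmnCells τ 0 9))
    (hc0 : c0 ∈ R) (h : TscR pvtG8 R c0 c1) (h0 : c0 ∈ pvtwN w (τ.C 0 : Set (ℤ × ℤ))) (h1 : c1 ∈ pvtwN w (τ.C 9 : Set (ℤ × ℤ)))
    (i : ℕ) (hi0 : t 1 ≤ i) (hi1 : i ≤ t 9) : ∃ c ∈ R, ‖v i - pvtCtr δ c‖ ≤ e₀ + (2 * ((w : ℝ) + 1) * δ + μ) :=
  pvlb_track_ab hF hδ hμ he mesh hNR hd hR hc0 h 0 9 h0 h1 i hi0 hi1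

/-- the direction does not matter -/
theorem pvlb_track_rev (hF : PvmnFits τ δ v t) (hδ : 0 < δ) (hμ : 0 ≤ μ) (he : 0 ≤ e₀) (mesh : ∀ k, t 0 ≤ k → k < t 10 → ‖v (k + 1) - v k‖ ≤ μ)
    (hNR : PvtxNR v (t 0) (t 10) d e₀) (hd : 2 * (2 * ((w : ℝ) + 1) * δ + μ) + 2 * δ ≤ d) (hR : R ⊆ pvtwN w (pvmnCells τ 0 9))
    (hc1 : c1 ∈ R) (h : TscR pvtG8 R c1 c0) (h0 : c0 ∈ pvtwN w (τ.C 0 : Set (ℤ × ℤ))) (h1 : c1 ∈ pvtwN w (τ.C 9 : Set (ℤ × ℤ)))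
    (i : ℕ) (hi0 : t 1 ≤ i) (hi1 : i ≤ t 9) : ∃ c ∈ R, ‖v i - pvtCtr δ c‖ ≤ e₀ + (2 * ((w : ℝ) + 1) * δ + μ) := by
  have hc0 : c0 ∈ R := by
    rcases ReflTransGen.cases_tail h with h' | ⟨b, _, hb⟩
    · rw [h']; exact hc1
    · exact hb.2.2
  exact pvlb_track hF hδ hμ he mesh hNR hd hR hc0 (tsc_R_symm h) h0 h1 i hi0 hi1

/-- **M9'** for the POINTS of the polygon between the marks `1` and `9` -/
theorem pvlb_track_poly (hF : PvmnFits τ δ v t) (hδ : 0 < δ) (hμ : 0 ≤ μ) (he : 0 ≤ e₀) (mesh : ∀ k, t 0 ≤ k → k < t 10 → ‖v (k + 1) - v k‖ ≤ μ)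
    (hNR : PvtxNR v (t 0) (t 10) d e₀) (hd : 2 * (2 * ((w : ℝ) + 1) * δ + μ) + 2 * δ ≤ d) (hR : R ⊆ pvtwN w (pvmnCells τ 0 9))
    (hc0 : c0 ∈ R) (h : TscR pvtG8 R c0 c1) (h0 : c0 ∈ pvtwN w (τ.C 0 : Set (ℤ × ℤ))) (h1 : c1 ∈ pvtwN w (τ.C 9 : Set (ℤ × ℤ)))
    (hp : p ∈ pvtxPoly v (t 1) (t 9)) : ∃ c ∈ R, ‖p - pvtCtr δ c‖ ≤ e₀ + (2 * ((w : ℝ) + 1) * δ + 2 * μ) := by
  have hm := pvlb_t_mono hF
  have h01 : t 0 ≤ t 1 := hm (by decide)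
  have h19 : t 1 ≤ t 9 := hm (by decide)
  have h910 : t 9 ≤ t 10 := hm (by decide)
  obtain ⟨l, l1, l2, l3⟩ := pvtx_poly_vertex hμ h19 (fun k x1 x2 => mesh k (by omega) (by omega)) hp
  obtain ⟨c, hc, hcl⟩ := pvlb_track hF hδ hμ he mesh hNR hd hR hc0 h h0 h1 l l1 l2
  refine ⟨c, hc, ?_⟩
  have := pvtx_tri p (v l) (pvtCtr δ c)
  linarith

end track

/-! ## §3 M9' for walks -/

section walk

variable {τ : PvmnType} {δ μ d e₀ s : ℝ} {v : ℕ → ℂ} {t : Fin 11 → ℕ} {w : ℕ}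

/-- **M9' for a chain of points**, general doors: `x 0, …, x n` in the `w`-tube with steps `≤ s`, from the `w`-collar of the piece `a` to the `w`-collar of the piece `b` -/
theorem pvlb_walk_ab (hF : PvmnFits τ δ v t) (hδ : 0 < δ) (hμ : 0 ≤ μ) (he : 0 ≤ e₀) (hs : 0 ≤ s) (mesh : ∀ k, t 0 ≤ k → k < t 10 → ‖v (k + 1) - v k‖ ≤ μ)
    (hNR : PvtxNR v (t 0) (t 10) d e₀) (hd : 2 * (2 * ((w : ℝ) + 1) * δ + μ) + s ≤ d) (x : ℕ → ℂ) (n : ℕ)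
    (hx : ∀ j ≤ n, x j ∈ pvtU δ (pvtwN w (pvmnCells τ 0 9))) (hstep : ∀ j < n, ‖x (j + 1) - x j‖ ≤ s) (a b : Fin 10)
    (h0 : x 0 ∈ pvtU δ (pvtwN w (τ.C a : Set (ℤ × ℤ)))) (h1 : x n ∈ pvtU δ (pvtwN w (τ.C b : Set (ℤ × ℤ))))
    (i : ℕ) (hi0 : t a.succ ≤ i) (hi1 : i ≤ t b.castSucc) : ∃ j ≤ n, ‖v i - x j‖ ≤ e₀ + (2 * ((w : ℝ) + 1) * δ + μ) := by
  classical
  have hm := pvlb_t_mono hF
  have z0 : ∀ m : Fin 11, t 0 ≤ t m := fun m => hm (Fin.zero_le m)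
  have z1 : ∀ m : Fin 11, t m ≤ t 10 := fun m => hm (Fin.le_last m)
  have near : ∀ (k : Fin 10) (y : ℂ), y ∈ pvtU δ (pvtwN w (τ.C k : Set (ℤ × ℤ))) →
      ∃ l, t k.castSucc ≤ l ∧ l ≤ t k.succ ∧ ‖v l - y‖ ≤ 2 * ((w : ℝ) + 1) * δ + μ := by
    intro k y hy
    rw [hF.cells k] at hy
    obtain ⟨p, hp, hpy⟩ := pvtx_U_N_cells hδ hy
    obtain ⟨l, l1, l2, l3⟩ := pvtx_poly_vertex hμ (hF.mono k) (fun k' x1 x2 => mesh k' ((z0 _).trans x1) (x2.trans_le (z1 _))) hp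
    refine ⟨l, l1, l2, ?_⟩
    have := pvtx_tri (v l) p y
    rw [norm_sub_rev (v l) p] at this
    linarith
  obtain ⟨s0, a1, a2, a3⟩ := near a _ h0
  obtain ⟨s1, b1, b2, b3⟩ := near b _ h1
  rcases Nat.eq_zero_or_pos n with rfl | hn
  · rcases pvtx_track_step hNR ⟨(z0 _).trans a1, a2.trans (z1 _)⟩ ⟨(z0 _).trans b1, b2.trans (z1 _)⟩ a3 b3 (a := s) (by simpa using hs) hd
      (Or.inl ⟨a2.trans hi0, hi1.trans b1⟩) with h | h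
    · exact ⟨0, le_rfl, h⟩
    · exact ⟨0, le_rfl, h⟩
  · have hex : ∀ j : ℕ, ∃ l, j ≤ n → (t 0 ≤ l ∧ l ≤ t 10 ∧ ‖v l - x j‖ ≤ 2 * ((w : ℝ) + 1) * δ + μ) := by
      intro j
      by_cases hj : j ≤ n
      · obtain ⟨l, hl⟩ := pvlb_idx_pt hF hδ hμ (A := 0) (B := 10) (by decide) mesh (a := 0) (b := 9) le_rfl le_rfl (hx j hj)
        exact ⟨l, fun _ => hl⟩
      · exact ⟨0, fun h => (hj h).elim⟩
    choose σ hσ using hex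
    let σ' : ℕ → ℕ := fun j => if j = 0 then s0 else if j = n then s1 else σ j
    have e0 : σ' 0 = s0 := by simp [σ']
    have e1 : σ' n = s1 := by simp [σ', hn.ne']
    have hσ' : ∀ j ≤ n, t 0 ≤ σ' j ∧ σ' j ≤ t 10 ∧ ‖v (σ' j) - x j‖ ≤ 2 * ((w : ℝ) + 1) * δ + μ := by
      intro j hj
      by_cases c0 : j = 0
      · subst c0; rw [e0]; exact ⟨(z0 _).trans a1, a2.trans (z1 _), a3⟩
      · by_cases c1 : j = n
        · subst c1; rw [e1]; exact ⟨(z0 _).trans b1, b2.trans (z1 _), b3⟩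
        · have : σ' j = σ j := by simp [σ', c0, c1]
          rw [this]; exact hσ j hj
    exact pvtx_track_chain hNR he x σ' n (fun j hj => ⟨(hσ' j hj).1, (hσ' j hj).2.1⟩) (fun j hj => (hσ' j hj).2.2) hstep hd i
      (Or.inl (by rw [e0, e1]; exact ⟨a2.trans hi0, hi1.trans b1⟩))

/-- **M9' for walks** (door to door) -/
theorem pvlb_walk (hF : PvmnFits τ δ v t) (hδ : 0 < δ) (hμ : 0 ≤ μ) (he : 0 ≤ e₀) (hs : 0 ≤ s) (mesh : ∀ k, t 0 ≤ k → k < t 10 → ‖v (k + 1) - v k‖ ≤ μ)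
    (hNR : PvtxNR v (t 0) (t 10) d e₀) (hd : 2 * (2 * ((w : ℝ) + 1) * δ + μ) + s ≤ d) (x : ℕ → ℂ) (n : ℕ)
    (hx : ∀ j ≤ n, x j ∈ pvtU δ (pvtwN w (pvmnCells τ 0 9))) (hstep : ∀ j < n, ‖x (j + 1) - x j‖ ≤ s)
    (h0 : x 0 ∈ pvtU δ (pvtwN w (τ.C 0 : Set (ℤ × ℤ)))) (h1 : x n ∈ pvtU δ (pvtwN w (τ.C 9 : Set (ℤ × ℤ))))
    (i : ℕ) (hi0 : t 1 ≤ i) (hi1 : i ≤ t 9) : ∃ j ≤ n, ‖v i - x j‖ ≤ e₀ + (2 * ((w : ℝ) + 1) * δ + μ) :=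
  pvlb_walk_ab hF hδ hμ he hs mesh hNR hd x n hx hstep 0 9 h0 h1 i hi0 hi1

/-- the walk may run from the door `+` to the door `-` -/
theorem pvlb_walk_rev (hF : PvmnFits τ δ v t) (hδ : 0 < δ) (hμ : 0 ≤ μ) (he : 0 ≤ e₀) (hs : 0 ≤ s) (mesh : ∀ k, t 0 ≤ k → k < t 10 → ‖v (k + 1) - v k‖ ≤ μ)
    (hNR : PvtxNR v (t 0) (t 10) d e₀) (hd : 2 * (2 * ((w : ℝ) + 1) * δ + μ) + s ≤ d) (x : ℕ → ℂ) (n : ℕ)
    (hx : ∀ j ≤ n, x j ∈ pvtU δ (pvtwN w (pvmnCells τ 0 9))) (hstep : ∀ j < n, ‖x (j + 1) - x j‖ ≤ s)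
    (h0 : x 0 ∈ pvtU δ (pvtwN w (τ.C 9 : Set (ℤ × ℤ)))) (h1 : x n ∈ pvtU δ (pvtwN w (τ.C 0 : Set (ℤ × ℤ))))
    (i : ℕ) (hi0 : t 1 ≤ i) (hi1 : i ≤ t 9) : ∃ j ≤ n, ‖v i - x j‖ ≤ e₀ + (2 * ((w : ℝ) + 1) * δ + μ) := by
  obtain ⟨j, hj, h⟩ := pvlb_walk hF hδ hμ he hs mesh hNR hd (fun j => x (n - j)) n (fun j hj => hx (n - j) (by omega))
    (fun j hj => by
      have e1 : n - j = (n - (j + 1)) + 1 := by omega
      have := hstep (n - (j + 1)) (by omega)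
      rw [e1, norm_sub_rev]
      simpa using this)
    (by simpa using h1) (by simpa using h0) i hi0 hi1
  exact ⟨n - j, by omega, h⟩

end walk

/-! ## §4 the pin -/

section pin

variable {𝔑 : PvmnNum} {τ : PvmnType} {δ μ d e₀ s : ℝ} {v : ℕ → ℂ} {t : Fin 11 → ℕ} {w n : ℕ} {R : Set (ℤ × ℤ)} {c0 c1 c : ℤ × ℤ}

/-- the pin vertex lies in the ball of radius `(rO + 2) δ` -/
theorem pvlb_pin_norm (hτ : PvmnIsType 𝔑 τ) (hF : PvmnFits τ δ v t) (hδ : 0 < δ) : ‖v (t 5)‖ ≤ (𝔑.rO + 2) * δ := by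
  obtain ⟨p, hp, hpB⟩ := hτ.ctr
  have h5 := hF.marks 5
  have hp' : (δ : ℂ) * p ∈ pvtSq δ (τ.q 5) := (pvmn_sq_scale hδ).2 hp
  have h1 := pvt_sq_diam h5 hp'
  rw [Metric.mem_closedBall, dist_zero_right] at hpB
  have h2 : ‖(δ : ℂ) * p‖ ≤ δ * 𝔑.rO := by
    rw [norm_mul, Complex.norm_real, Real.norm_of_nonneg hδ.le]
    exact mul_le_mul_of_nonneg_left hpB hδ.le
  have h3 : ‖v (t 5)‖ ≤ ‖v (t 5) - (δ : ℂ) * p‖ + ‖(δ : ℂ) * p‖ := by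
    have := norm_add_le (v (t 5) - (δ : ℂ) * p) ((δ : ℂ) * p)
    simpa using this
  nlinarith

/-- a cell whose centre has norm `≤ n δ` lies in the box `[-n, n]²` -/
theorem pvlb_ctr_box (hδ : 0 < δ) (h : ‖pvtCtr δ c‖ ≤ (n : ℝ) * δ) : c ∈ pvmnBox n := by
  have hre := (Complex.abs_re_le_norm (pvtCtr δ c)).trans h
  have him := (Complex.abs_im_le_norm (pvtCtr δ c)).trans h
  simp only [pvtCtr] at hre him
  rw [abs_le] at hre him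
  have a1 : (c.1 : ℝ) + 1 / 2 ≤ n := le_of_mul_le_mul_right hre.2 hδ
  have a2 : -(n : ℝ) ≤ (c.1 : ℝ) + 1 / 2 := le_of_mul_le_mul_right (by linarith [hre.1]) hδ
  have a3 : (c.2 : ℝ) + 1 / 2 ≤ n := le_of_mul_le_mul_right him.2 hδ
  have a4 : -(n : ℝ) ≤ (c.2 : ℝ) + 1 / 2 := le_of_mul_le_mul_right (by linarith [him.1]) hδ
  have b1 : (c.1 : ℝ) < (n : ℤ) := by push_cast; linarith
  have b2 : ((-(n : ℤ) - 1 : ℤ) : ℝ) < c.1 := by push_cast; linarith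
  have b3 : (c.2 : ℝ) < (n : ℤ) := by push_cast; linarith
  have b4 : ((-(n : ℤ) - 1 : ℤ) : ℝ) < c.2 := by push_cast; linarith
  have d1 : c.1 < (n : ℤ) := by exact_mod_cast b1
  have d2 : -(n : ℤ) - 1 < c.1 := by exact_mod_cast b2
  have d3 : c.2 < (n : ℤ) := by exact_mod_cast b3
  have d4 : -(n : ℤ) - 1 < c.2 := by exact_mod_cast b4
  exact ⟨by omega, by omega, by omega, by omega⟩

/-- **every door-to-door set of cells enters the ball round the pin** (`⊆ B(0,2)` in units of `h`) -/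
theorem pvlb_track_pin (hτ : PvmnIsType 𝔑 τ) (hF : PvmnFits τ δ v t) (hδ : 0 < δ) (hμ : 0 ≤ μ) (he : 0 ≤ e₀)
    (mesh : ∀ k, t 0 ≤ k → k < t 10 → ‖v (k + 1) - v k‖ ≤ μ) (hNR : PvtxNR v (t 0) (t 10) d e₀)
    (hd : 2 * (2 * ((w : ℝ) + 1) * δ + μ) + 2 * δ ≤ d) (hR : R ⊆ pvtwN w (pvmnCells τ 0 9)) (hc0 : c0 ∈ R) (h : TscR pvtG8 R c0 c1)
    (h0 : c0 ∈ pvtwN w (τ.C 0 : Set (ℤ × ℤ))) (h1 : c1 ∈ pvtwN w (τ.C 9 : Set (ℤ × ℤ))) :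
    ∃ c ∈ R, ‖pvtCtr δ c‖ ≤ (𝔑.rO + 2) * δ + (e₀ + (2 * ((w : ℝ) + 1) * δ + μ)) := by
  have hm := pvlb_t_mono hF
  obtain ⟨c, hc, hcl⟩ := pvlb_track hF hδ hμ he mesh hNR hd hR hc0 h h0 h1 (t 5) (hm (by decide)) (hm (by decide))
  refine ⟨c, hc, ?_⟩
  have h5 := pvlb_pin_norm hτ hF hδ
  have h3 : ‖pvtCtr δ c‖ ≤ ‖v (t 5)‖ + ‖v (t 5) - pvtCtr δ c‖ := by
    have := norm_sub_le (v (t 5)) (v (t 5) - pvtCtr δ c)
    simpa using this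
  linarith

/-- the same, in cells: a cell of the box `[-n, n]²` -/
theorem pvlb_track_box (hτ : PvmnIsType 𝔑 τ) (hF : PvmnFits τ δ v t) (hδ : 0 < δ) (hμ : 0 ≤ μ) (he : 0 ≤ e₀)
    (mesh : ∀ k, t 0 ≤ k → k < t 10 → ‖v (k + 1) - v k‖ ≤ μ) (hNR : PvtxNR v (t 0) (t 10) d e₀)
    (hd : 2 * (2 * ((w : ℝ) + 1) * δ + μ) + 2 * δ ≤ d) (hR : R ⊆ pvtwN w (pvmnCells τ 0 9)) (hc0 : c0 ∈ R) (h : TscR pvtG8 R c0 c1)
    (h0 : c0 ∈ pvtwN w (τ.C 0 : Set (ℤ × ℤ))) (h1 : c1 ∈ pvtwN w (τ.C 9 : Set (ℤ × ℤ)))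
    (hn : (𝔑.rO + 2) * δ + (e₀ + (2 * ((w : ℝ) + 1) * δ + μ)) ≤ (n : ℝ) * δ) : ∃ c ∈ R, c ∈ pvmnBox n := by
  obtain ⟨c, hc, hcn⟩ := pvlb_track_pin hτ hF hδ hμ he mesh hNR hd hR hc0 h h0 h1
  exact ⟨c, hc, pvlb_ctr_box hδ (hcn.trans hn)⟩

/-- **every door-to-door walk enters the ball round the pin** -/
theorem pvlb_walk_pin (hτ : PvmnIsType 𝔑 τ) (hF : PvmnFits τ δ v t) (hδ : 0 < δ) (hμ : 0 ≤ μ) (he : 0 ≤ e₀) (hs : 0 ≤ s)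
    (mesh : ∀ k, t 0 ≤ k → k < t 10 → ‖v (k + 1) - v k‖ ≤ μ) (hNR : PvtxNR v (t 0) (t 10) d e₀)
    (hd : 2 * (2 * ((w : ℝ) + 1) * δ + μ) + s ≤ d) (x : ℕ → ℂ) (n : ℕ)
    (hx : ∀ j ≤ n, x j ∈ pvtU δ (pvtwN w (pvmnCells τ 0 9))) (hstep : ∀ j < n, ‖x (j + 1) - x j‖ ≤ s)
    (h0 : x 0 ∈ pvtU δ (pvtwN w (τ.C 0 : Set (ℤ × ℤ)))) (h1 : x n ∈ pvtU δ (pvtwN w (τ.C 9 : Set (ℤ × ℤ)))) :
    ∃ j ≤ n, ‖x j‖ ≤ (𝔑.rO + 2) * δ + (e₀ + (2 * ((w : ℝ) + 1) * δ + μ)) := by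
  have hm := pvlb_t_mono hF
  obtain ⟨j, hj, hjl⟩ := pvlb_walk hF hδ hμ he hs mesh hNR hd x n hx hstep h0 h1 (t 5) (hm (by decide)) (hm (by decide))
  refine ⟨j, hj, ?_⟩
  have h5 := pvlb_pin_norm hτ hF hδ
  have h3 : ‖x j‖ ≤ ‖v (t 5)‖ + ‖v (t 5) - x j‖ := by
    have := norm_sub_le (v (t 5)) (v (t 5) - x j)
    simpa using this
  linarith

end pin

/-! ## §5 the lane zone -/

/-- **the LANE ZONE**: the 5-tube of the arc, off `K3`, off the two end doors.   Both lanes lie in it. -/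
def pvlbZone (τ : PvmnType) : Set (ℤ × ℤ) := (pvtwN 5 (pvmnCells τ 0 9) \ pvmnK3 τ) \ (pvmnDrm τ ∪ pvmnDrp τ)

theorem pvlb_eqns_cite : True := by
  have := @pvlbZone.eq_1
  trivial

section zone

variable {𝔑 : PvmnNum} {τ : PvmnType} {δ μ d e₀ s : ℝ} {v : ℕ → ℂ} {t : Fin 11 → ℕ} {l n : ℕ} {R : Set (ℤ × ℤ)} {c0 c1 c y : ℤ × ℤ}
  {x : (ℤ × ℤ) × (ℤ × ℤ)}

theorem pvlb_laneR_zone (h : PvmnLaneR τ x l) : pvtrArc (pvmnK3 τ) x l ⊆ pvlbZone τ := pvmn_lane_sub h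

theorem pvlb_laneL_zone (h : PvmnLaneL τ x l) : pvtrArc (pvmnK3 τ) x l ⊆ pvlbZone τ := by
  rintro w ⟨m, h0, hm, rfl⟩
  have hd := pvtr_iter_mem h.mem m
  exact ⟨⟨(pvmn_K3_dart hd).2, hd.2.1⟩, fun hh => h.off m h0 hm hh.symm⟩

/-- a cell next to the door `Dr⁻` lies in the 9-collar of the piece `0` -/
theorem pvlb_next_m (hy : y ∈ pvmnDrm τ) (h : triAdj y c) : c ∈ pvtwN 9 (τ.C 0 : Set (ℤ × ℤ)) := by
  have : c ∈ pvtN8 (pvtwN 8 (τ.C 0 : Set (ℤ × ℤ))) := ⟨y, hy, Or.inr (pvt_tri_g8 h)⟩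
  rwa [← pvtw_N_succ] at this

/-- a cell next to the door `Dr⁺` lies in the 9-collar of the piece `9` -/
theorem pvlb_next_p (hy : y ∈ pvmnDrp τ) (h : triAdj y c) : c ∈ pvtwN 9 (τ.C 9 : Set (ℤ × ℤ)) := by
  have : c ∈ pvtN8 (pvtwN 8 (τ.C 9 : Set (ℤ × ℤ))) := ⟨y, hy, Or.inr (pvt_tri_g8 h)⟩
  rwa [← pvtw_N_succ] at this

/-- the 8-adjacent version -/
theorem pvlb_next8_m (hy : y ∈ pvmnDrm τ) (h : pvtG8.Adj y c) : c ∈ pvtwN 9 (τ.C 0 : Set (ℤ × ℤ)) := by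
  have : c ∈ pvtN8 (pvtwN 8 (τ.C 0 : Set (ℤ × ℤ))) := ⟨y, hy, Or.inr h⟩
  rwa [← pvtw_N_succ] at this

theorem pvlb_next8_p (hy : y ∈ pvmnDrp τ) (h : pvtG8.Adj y c) : c ∈ pvtwN 9 (τ.C 9 : Set (ℤ × ℤ)) := by
  have : c ∈ pvtN8 (pvtwN 8 (τ.C 9 : Set (ℤ × ℤ))) := ⟨y, hy, Or.inr h⟩
  rwa [← pvtw_N_succ] at this

/-- first and last cell of the right lane -/
theorem pvlb_laneR_ends (hτ : PvmnIsType 𝔑 τ) (h : PvmnLaneR τ x l) :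
    1 < l ∧ ((pvtrStep (pvmnK3 τ))^[1] x).2 ∈ pvtwN 9 (τ.C 0 : Set (ℤ × ℤ)) ∧ ((pvtrStep (pvmnK3 τ))^[l - 1] x).2 ∈ pvtwN 9 (τ.C 9 : Set (ℤ × ℤ)) := by
  obtain ⟨hl, h1, h2⟩ := pvtr_lane_ends h (pvmn_doors_disj hτ) (pvmn_doors_nadj hτ)
  exact ⟨hl, pvlb_next_m h.start h1, pvlb_next_p h.stop (hx_tri_symm _ _ h2)⟩

/-- first and last cell of the left lane -/
theorem pvlb_laneL_ends (hτ : PvmnIsType 𝔑 τ) (h : PvmnLaneL τ x l) :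
    1 < l ∧ ((pvtrStep (pvmnK3 τ))^[1] x).2 ∈ pvtwN 9 (τ.C 9 : Set (ℤ × ℤ)) ∧ ((pvtrStep (pvmnK3 τ))^[l - 1] x).2 ∈ pvtwN 9 (τ.C 0 : Set (ℤ × ℤ)) := by
  obtain ⟨hl, h1, h2⟩ := pvtr_lane_ends h (pvmn_doors_disj hτ).symm (fun a ha b hb hab => pvmn_doors_nadj hτ b hb a ha (hx_tri_symm _ _ hab))
  exact ⟨hl, pvlb_next_p h.start h1, pvlb_next_m h.stop (hx_tri_symm _ _ h2)⟩

/-- the 4-collar of the zone lies in the 9-tube -/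
theorem pvlb_zone_tube {i : ℕ} : pvtwN i (pvlbZone τ) ⊆ pvtwN (i + 5) (pvmnCells τ 0 9) := by
  rw [← pvtw_N_add]
  exact pvtw_N_mono le_rfl fun c hc => hc.1.1

/-- **M9' in the zone**: `R` 8-connected in the 4-collar of the zone, door to door -/
theorem pvlb_zone_track (hF : PvmnFits τ δ v t) (hδ : 0 < δ) (hμ : 0 ≤ μ) (he : 0 ≤ e₀) (mesh : ∀ k, t 0 ≤ k → k < t 10 → ‖v (k + 1) - v k‖ ≤ μ)
    (hNR : PvtxNR v (t 0) (t 10) d e₀) (hd : 42 * δ + 2 * μ ≤ d) (hR : R ⊆ pvtwN 4 (pvlbZone τ))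
    (hc0 : c0 ∈ R) (h : TscR pvtG8 R c0 c1) (h0 : c0 ∈ pvtwN 9 (τ.C 0 : Set (ℤ × ℤ))) (h1 : c1 ∈ pvtwN 9 (τ.C 9 : Set (ℤ × ℤ)))
    (i : ℕ) (hi0 : t 1 ≤ i) (hi1 : i ≤ t 9) : ∃ c ∈ R, ‖v i - pvtCtr δ c‖ ≤ e₀ + 20 * δ + μ := by
  obtain ⟨c, hc, hcl⟩ := pvlb_track (w := 9) hF hδ hμ he mesh hNR (by push_cast; linarith) (hR.trans pvlb_zone_tube) hc0 h h0 h1 i hi0 hi1
  refine ⟨c, hc, ?_⟩
  push_cast at hcl
  linarith

/-- **the right lane follows the rim** -/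
theorem pvlb_laneR_track (hτ : PvmnIsType 𝔑 τ) (hF : PvmnFits τ δ v t) (hδ : 0 < δ) (hμ : 0 ≤ μ) (he : 0 ≤ e₀)
    (mesh : ∀ k, t 0 ≤ k → k < t 10 → ‖v (k + 1) - v k‖ ≤ μ) (hNR : PvtxNR v (t 0) (t 10) d e₀) (hd : 42 * δ + 2 * μ ≤ d)
    (h : PvmnLaneR τ x l) (i : ℕ) (hi0 : t 1 ≤ i) (hi1 : i ≤ t 9) : ∃ c ∈ pvtrArc (pvmnK3 τ) x l, ‖v i - pvtCtr δ c‖ ≤ e₀ + 20 * δ + μ := by
  obtain ⟨hl, h0, h1⟩ := pvlb_laneR_ends hτ h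
  have m0 : ((pvtrStep (pvmnK3 τ))^[1] x).2 ∈ pvtrArc (pvmnK3 τ) x l := ⟨1, one_pos, hl, rfl⟩
  have m1 : ((pvtrStep (pvmnK3 τ))^[l - 1] x).2 ∈ pvtrArc (pvmnK3 τ) x l := ⟨l - 1, by omega, by omega, rfl⟩
  exact pvlb_zone_track hF hδ hμ he mesh hNR hd ((pvlb_laneR_zone h).trans pvtw_N_sub) m0
    (pvt_conn_tri8 (pvtr_arc_conn h.mem) _ m0 _ m1) h0 h1 i hi0 hi1

/-- **the left lane follows the rim** -/
theorem pvlb_laneL_track (hτ : PvmnIsType 𝔑 τ) (hF : PvmnFits τ δ v t) (hδ : 0 < δ) (hμ : 0 ≤ μ) (he : 0 ≤ e₀)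
    (mesh : ∀ k, t 0 ≤ k → k < t 10 → ‖v (k + 1) - v k‖ ≤ μ) (hNR : PvtxNR v (t 0) (t 10) d e₀) (hd : 42 * δ + 2 * μ ≤ d)
    (h : PvmnLaneL τ x l) (i : ℕ) (hi0 : t 1 ≤ i) (hi1 : i ≤ t 9) : ∃ c ∈ pvtrArc (pvmnK3 τ) x l, ‖v i - pvtCtr δ c‖ ≤ e₀ + 20 * δ + μ := by
  obtain ⟨hl, h1, h0⟩ := pvlb_laneL_ends hτ h
  have m1 : ((pvtrStep (pvmnK3 τ))^[1] x).2 ∈ pvtrArc (pvmnK3 τ) x l := ⟨1, one_pos, hl, rfl⟩
  have m0 : ((pvtrStep (pvmnK3 τ))^[l - 1] x).2 ∈ pvtrArc (pvmnK3 τ) x l := ⟨l - 1, by omega, by omega, rfl⟩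
  exact pvlb_zone_track hF hδ hμ he mesh hNR hd ((pvlb_laneL_zone h).trans pvtw_N_sub) m0
    (pvt_conn_tri8 (pvtr_arc_conn h.mem) _ m0 _ m1) h0 h1 i hi0 hi1

/-- the right lane has a cell in the box `[-n, n]²` round the pin: the cut of `M` into `M⁻`, `M⁺` exists -/
theorem pvlb_laneR_box (hτ : PvmnIsType 𝔑 τ) (hF : PvmnFits τ δ v t) (hδ : 0 < δ) (hμ : 0 ≤ μ) (he : 0 ≤ e₀)
    (mesh : ∀ k, t 0 ≤ k → k < t 10 → ‖v (k + 1) - v k‖ ≤ μ) (hNR : PvtxNR v (t 0) (t 10) d e₀) (hd : 42 * δ + 2 * μ ≤ d)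
    (h : PvmnLaneR τ x l) (hn : (𝔑.rO + 22) * δ + e₀ + μ ≤ (n : ℝ) * δ) : ∃ c ∈ pvtrArc (pvmnK3 τ) x l, c ∈ pvmnBox n := by
  have hm := pvlb_t_mono hF
  obtain ⟨c, hc, hcl⟩ := pvlb_laneR_track hτ hF hδ hμ he mesh hNR hd h (t 5) (hm (by decide)) (hm (by decide))
  refine ⟨c, hc, pvlb_ctr_box hδ ?_⟩
  have h5 := pvlb_pin_norm hτ hF hδ
  have h3 : ‖pvtCtr δ c‖ ≤ ‖v (t 5)‖ + ‖v (t 5) - pvtCtr δ c‖ := by
    have := norm_sub_le (v (t 5)) (v (t 5) - pvtCtr δ c)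
    simpa using this
  linarith

/-- **M9' for walks in the zone**: a chain of points in the 4-collar of the zone with steps `≤ s`, door to door -/
theorem pvlb_zone_walk (hF : PvmnFits τ δ v t) (hδ : 0 < δ) (hμ : 0 ≤ μ) (he : 0 ≤ e₀) (hs : 0 ≤ s) (mesh : ∀ k, t 0 ≤ k → k < t 10 → ‖v (k + 1) - v k‖ ≤ μ)
    (hNR : PvtxNR v (t 0) (t 10) d e₀) (hd : 40 * δ + 2 * μ + s ≤ d) (X : ℕ → ℂ) (n : ℕ)
    (hx : ∀ j ≤ n, X j ∈ pvtU δ (pvtwN 4 (pvlbZone τ))) (hstep : ∀ j < n, ‖X (j + 1) - X j‖ ≤ s)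
    (h0 : X 0 ∈ pvtU δ (pvtwN 9 (τ.C 0 : Set (ℤ × ℤ)))) (h1 : X n ∈ pvtU δ (pvtwN 9 (τ.C 9 : Set (ℤ × ℤ))))
    (i : ℕ) (hi0 : t 1 ≤ i) (hi1 : i ≤ t 9) : ∃ j ≤ n, ‖v i - X j‖ ≤ e₀ + 20 * δ + μ := by
  obtain ⟨j, hj, hjl⟩ := pvlb_walk (w := 9) hF hδ hμ he hs mesh hNR (by push_cast; linarith) X n
    (fun j hj => pvt_U_mono pvlb_zone_tube (hx j hj)) hstep h0 h1 i hi0 hi1
  refine ⟨j, hj, ?_⟩
  push_cast at hjl
  linarith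

/-- **every door-to-door walk in the zone enters `B(0, (rO + 22) δ + e₀ + μ)`** -/
theorem pvlb_zone_walk_pin (hτ : PvmnIsType 𝔑 τ) (hF : PvmnFits τ δ v t) (hδ : 0 < δ) (hμ : 0 ≤ μ) (he : 0 ≤ e₀) (hs : 0 ≤ s)
    (mesh : ∀ k, t 0 ≤ k → k < t 10 → ‖v (k + 1) - v k‖ ≤ μ) (hNR : PvtxNR v (t 0) (t 10) d e₀) (hd : 40 * δ + 2 * μ + s ≤ d) (X : ℕ → ℂ) (n : ℕ)
    (hx : ∀ j ≤ n, X j ∈ pvtU δ (pvtwN 4 (pvlbZone τ))) (hstep : ∀ j < n, ‖X (j + 1) - X j‖ ≤ s)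
    (h0 : X 0 ∈ pvtU δ (pvtwN 9 (τ.C 0 : Set (ℤ × ℤ)))) (h1 : X n ∈ pvtU δ (pvtwN 9 (τ.C 9 : Set (ℤ × ℤ)))) :
    ∃ j ≤ n, ‖X j‖ ≤ (𝔑.rO + 22) * δ + e₀ + μ := by
  have hm := pvlb_t_mono hF
  obtain ⟨j, hj, hjl⟩ := pvlb_zone_walk hF hδ hμ he hs mesh hNR hd X n hx hstep h0 h1 (t 5) (hm (by decide)) (hm (by decide))
  refine ⟨j, hj, ?_⟩
  have h5 := pvlb_pin_norm hτ hF hδ
  have h3 : ‖X j‖ ≤ ‖v (t 5)‖ + ‖v (t 5) - X j‖ := by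
    have := norm_sub_le (v (t 5)) (v (t 5) - X j)
    simpa using this
  linarith

end zone

/-! ## §6 clearance: the collar of the zone misses the rim -/

section clear

variable {𝔑 : PvmnNum} {τ : PvmnType} {δ μ d e₀ : ℝ} {v : ℕ → ℂ} {t : Fin 11 → ℕ} {i j lo hi : ℕ} {c : ℤ × ℤ} {p q : ℂ}

/-- the zone lies in the 5-tube of the pieces `1..8` (the 5-tubes of the end pieces lie in the doors) -/
theorem pvlb_zone_mid : pvlbZone τ ⊆ pvtwN 5 (pvmnCells τ 1 8) := by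
  rintro c ⟨⟨h5, _⟩, hD⟩
  obtain ⟨k, _, _, hk⟩ := pvmn_N_cells.1 h5
  by_cases h0 : k.1 = 0
  · have : k = 0 := Fin.ext h0
    subst this
    exact (hD (Or.inl (pvtw_N_mono (by omega) le_rfl hk))).elim
  · by_cases h9 : k.1 = 9
    · have : k = 9 := Fin.ext h9
      subst this
      exact (hD (Or.inr (pvtw_N_mono (by omega) le_rfl hk))).elim
    · exact pvmn_N_cells.2 ⟨k, by omega, by have := k.2; omega, hk⟩

/-- the zone is off the 4-tube of the arc -/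
theorem pvlb_zone_off4 : Disjoint (pvlbZone τ) (pvtwN 4 (pvmnCells τ 0 9)) :=
  Set.disjoint_left.2 fun c hc h4 => hc.1.2 (pvt_hull_sub h4)

/-- collars -/
theorem pvlb_zone_offN (hij : i + j ≤ 4) : Disjoint (pvtwN i (pvlbZone τ)) (pvtwN j (pvmnCells τ 0 9)) :=
  pvmn_N_disj (Set.disjoint_of_subset_right (pvtw_N_mono hij le_rfl) pvlb_zone_off4)

/-- **CLEARANCE, the arc**: the `i`-collar of the zone keeps the distance `j δ` from `P[t₀, t₁₀]`, `i + j ≤ 4` -/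
theorem pvlb_zone_off_arc (hF : PvmnFits τ δ v t) (hδ : 0 < δ) (hij : i + j ≤ 4) (hq : q ∈ pvtU δ (pvtwN i (pvlbZone τ)))
    (hp : p ∈ pvtxPoly v (t 0) (t 10)) : (j : ℝ) * δ ≤ ‖p - q‖ := by
  refine pvtw_U_far (E := pvmnCells τ 0 9) hδ ?_ (pvt_U_mono ?_ hq)
  · rw [pvlb_cells_all hF]
    exact pvt_cells_cover hδ hp
  · exact fun c hc h => Set.disjoint_left.1 (pvlb_zone_offN hij) hc h

/-- a point of the `i`-collar of the zone is `2 (i + 6) δ`-close to the polygon between the marks `1` and `9` -/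
theorem pvlb_zone_near (hF : PvmnFits τ δ v t) (hδ : 0 < δ) (hq : q ∈ pvtU δ (pvtwN i (pvlbZone τ))) :
    ∃ p ∈ pvtxPoly v (t 1) (t 9), ‖p - q‖ ≤ 2 * ((i : ℝ) + 6) * δ := by
  have h1 : pvtwN i (pvlbZone τ) ⊆ pvtwN (i + 5) (pvtCells δ (pvtxPoly v (t 1) (t 9))) := by
    rw [← pvtw_N_add, ← pvlb_cells_mid hF]
    exact pvtw_N_mono le_rfl pvlb_zone_mid
  obtain ⟨p, hp, hpq⟩ := pvtx_U_N_cells hδ (pvt_U_mono h1 hq)
  refine ⟨p, hp, ?_⟩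
  push_cast at hpq
  linarith

/-- the marks are `nP δ` apart -/
theorem pvlb_marks_far (hτ : PvmnIsType 𝔑 τ) (hF : PvmnFits τ δ v t) (hδ : 0 < δ) {k k' : Fin 11} (h : k ≠ k') :
    (𝔑.nP : ℝ) * δ ≤ ‖v (t k) - v (t k')‖ := pvtw_sq_far hδ (hτ.marks k k' h) (hF.marks k) (hF.marks k')

/-- **CLEARANCE, forward continuation** (NO NEAR RETURN): margin `d - 2 μ - 2 (i + 6) δ` -/
theorem pvlb_zone_off_fwd (hF : PvmnFits τ δ v t) (hδ : 0 < δ) (hμ : 0 ≤ μ) (hhi : t 10 ≤ hi) (mesh : ∀ k, t 1 ≤ k → k < hi → ‖v (k + 1) - v k‖ ≤ μ)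
    (hNR : PvtxNR v (t 1) hi d e₀) (big : 2 * e₀ < ‖v (t 9) - v (t 10)‖) (hq : q ∈ pvtU δ (pvtwN i (pvlbZone τ)))
    (hp : p ∈ pvtxPoly v (t 10) hi) : d - 2 * μ - 2 * ((i : ℝ) + 6) * δ < ‖p - q‖ := by
  have hm := pvlb_t_mono hF
  obtain ⟨r, hr, hrq⟩ := pvlb_zone_near hF hδ hq
  have h0 := pvtx_sep_poly hNR hμ mesh (k1 := t 1) (k2 := t 9) (i := t 9) (i' := t 10) (k3 := t 10) (k4 := hi) le_rfl (hm (by decide)) le_rfl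
    (hm (by decide)) le_rfl hhi le_rfl big hr hp
  have h1 := pvtx_tri r q p
  rw [norm_sub_rev q p] at h1
  linarith

/-- **CLEARANCE, backward continuation** -/
theorem pvlb_zone_off_bwd (hF : PvmnFits τ δ v t) (hδ : 0 < δ) (hμ : 0 ≤ μ) (hlo : lo ≤ t 0) (mesh : ∀ k, lo ≤ k → k < t 9 → ‖v (k + 1) - v k‖ ≤ μ)
    (hNR : PvtxNR v lo (t 9) d e₀) (big : 2 * e₀ < ‖v (t 0) - v (t 1)‖) (hq : q ∈ pvtU δ (pvtwN i (pvlbZone τ)))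
    (hp : p ∈ pvtxPoly v lo (t 0)) : d - 2 * μ - 2 * ((i : ℝ) + 6) * δ < ‖p - q‖ := by
  have hm := pvlb_t_mono hF
  obtain ⟨r, hr, hrq⟩ := pvlb_zone_near hF hδ hq
  have h0 := pvtx_sep_poly hNR hμ mesh (k1 := lo) (k2 := t 0) (i := t 0) (i' := t 1) (k3 := t 1) (k4 := t 9) le_rfl hlo le_rfl
    (hm (by decide)) le_rfl (hm (by decide)) le_rfl big hp hr
  have h1 := pvtx_tri p q r
  rw [norm_sub_rev q r] at h1
  linarith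

/-- **CLEARANCE** (M9: `U(N² M)` misses `P`, with the margin `2 δ`): the whole stretch `lo .. hi` of the rim on which NO NEAR RETURN holds -/
theorem pvlb_zone_clear (hτ : PvmnIsType 𝔑 τ) (hF : PvmnFits τ δ v t) (hδ : 0 < δ) (hμ : 0 ≤ μ) (hlo : lo ≤ t 0) (hhi : t 10 ≤ hi)
    (mesh : ∀ k, lo ≤ k → k < hi → ‖v (k + 1) - v k‖ ≤ μ) (hNR : PvtxNR v lo hi d e₀) (big : 2 * e₀ < (𝔑.nP : ℝ) * δ)
    (hd : 18 * δ + 2 * μ ≤ d) (hq : q ∈ pvtU δ (pvtwN 2 (pvlbZone τ))) (hp : p ∈ pvtxPoly v lo hi) : 2 * δ ≤ ‖p - q‖ := by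
  have hm := pvlb_t_mono hF
  have h01 : t 0 ≤ t 1 := hm (by decide)
  have h010 : t 0 ≤ t 10 := hm (by decide)
  have h910 : t 9 ≤ t 10 := hm (by decide)
  rw [pvtx_poly_union hlo (h010.trans hhi), pvtx_poly_union h010 hhi] at hp
  rcases hp with hp | hp | hp
  · have := pvlb_zone_off_bwd hF hδ hμ hlo (fun k x1 x2 => mesh k x1 (by omega)) (pvtx_nr_mono hNR le_rfl (by omega) le_rfl le_rfl)
      (big.trans_le (pvlb_marks_far hτ hF hδ (by decide))) hq hp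
    push_cast at this
    linarith
  · have := pvlb_zone_off_arc (i := 2) (j := 2) hF hδ (by omega) hq hp
    push_cast at this
    linarith
  · have := pvlb_zone_off_fwd hF hδ hμ hhi (fun k x1 x2 => mesh k (by omega) x2) (pvtx_nr_mono hNR (by omega) le_rfl le_rfl le_rfl)
      (big.trans_le (pvlb_marks_far hτ hF hδ (by decide))) hq hp
    push_cast at this
    linarith

/-- no vertex of the stretch lies in the 2-collar of the zone -/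
theorem pvlb_zone_clear_v (hτ : PvmnIsType 𝔑 τ) (hF : PvmnFits τ δ v t) (hδ : 0 < δ) (hμ : 0 ≤ μ) (hlo : lo ≤ t 0) (hhi : t 10 ≤ hi)
    (mesh : ∀ k, lo ≤ k → k < hi → ‖v (k + 1) - v k‖ ≤ μ) (hNR : PvtxNR v lo hi d e₀) (big : 2 * e₀ < (𝔑.nP : ℝ) * δ)
    (hd : 18 * δ + 2 * μ ≤ d) {k : ℕ} (h1 : lo ≤ k) (h2 : k ≤ hi) : v k ∉ pvtU δ (pvtwN 2 (pvlbZone τ)) := by
  intro hq
  have := pvlb_zone_clear hτ hF hδ hμ hlo hhi mesh hNR big hd hq (pvtx_vertex_mem h1 h2)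
  rw [sub_self, norm_zero] at this
  linarith

/-- `Disjoint` form -/
theorem pvlb_zone_disj (hτ : PvmnIsType 𝔑 τ) (hF : PvmnFits τ δ v t) (hδ : 0 < δ) (hμ : 0 ≤ μ) (hlo : lo ≤ t 0) (hhi : t 10 ≤ hi)
    (mesh : ∀ k, lo ≤ k → k < hi → ‖v (k + 1) - v k‖ ≤ μ) (hNR : PvtxNR v lo hi d e₀) (big : 2 * e₀ < (𝔑.nP : ℝ) * δ)
    (hd : 18 * δ + 2 * μ ≤ d) : Disjoint (pvtU δ (pvtwN 2 (pvlbZone τ))) (pvtxPoly v lo hi) := by
  rw [Set.disjoint_left]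
  intro q hq hp
  have := pvlb_zone_clear hτ hF hδ hμ hlo hhi mesh hNR big hd hq hp
  rw [sub_self, norm_zero] at this
  linarith

/-- the points of a box -/
theorem pvlb_box_norm (hδ : 0 < δ) {n : ℕ} (hc : c ∈ pvmnBox n) (hq : q ∈ pvtSq δ c) : ‖q‖ ≤ 2 * ((n : ℝ) + 1) * δ := by
  obtain ⟨h1, h2, h3, h4⟩ := hc
  obtain ⟨a1, a2, a3, a4⟩ := hq
  have c1 : -(n : ℝ) ≤ c.1 := by exact_mod_cast h1
  have c2 : (c.1 : ℝ) ≤ n := by exact_mod_cast h2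
  have c3 : -(n : ℝ) ≤ c.2 := by exact_mod_cast h3
  have c4 : (c.2 : ℝ) ≤ n := by exact_mod_cast h4
  have d1 := mul_le_mul_of_nonneg_right c1 hδ.le
  have d2 := mul_le_mul_of_nonneg_right c2 hδ.le
  have d3 := mul_le_mul_of_nonneg_right c3 hδ.le
  have d4 := mul_le_mul_of_nonneg_right c4 hδ.le
  have h0 := Complex.norm_le_abs_re_add_abs_im q
  have hr : |q.re| ≤ ((n : ℝ) + 1) * δ := abs_le.2 ⟨by nlinarith, by nlinarith⟩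
  have hi : |q.im| ≤ ((n : ℝ) + 1) * δ := abs_le.2 ⟨by nlinarith, by nlinarith⟩
  nlinarith

/-- **the far rest**: the `i`-collar of the zone lies in the ball of radius `2 (nBx + i + 6) δ` -/
theorem pvlb_zone_ball (hτ : PvmnIsType 𝔑 τ) (hδ : 0 < δ) (hq : q ∈ pvtU δ (pvtwN i (pvlbZone τ))) : ‖q‖ ≤ 2 * ((𝔑.nBx : ℝ) + i + 6) * δ := by
  obtain ⟨c, hc, hqc⟩ := Set.mem_iUnion₂.1 hq
  have := pvlb_box_norm hδ (pvmn_N_box (pvmn_cells_box hτ) (pvlb_zone_tube hc)) hqc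
  push_cast at this
  linarith

/-- the zone is finite -/
theorem pvlb_zone_finite (τ : PvmnType) : (pvlbZone τ).Finite :=
  (pvtw_N_finite (k := 5) (pvmn_cells_finite τ 0 9)).subset fun c hc => hc.1.1

/-- the collar of the zone is compact, hence bounded and Borel -/
theorem pvlb_zone_compact (τ : PvmnType) (δ : ℝ) (i : ℕ) : IsCompact (pvtU δ (pvtwN i (pvlbZone τ))) :=
  pvt_U_compact (pvtw_N_finite (pvlb_zone_finite τ))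

theorem pvlb_zone_meas (τ : PvmnType) (δ : ℝ) (i : ℕ) : MeasurableSet (pvtU δ (pvtwN i (pvlbZone τ))) :=
  (pvlb_zone_compact τ δ i).isClosed.measurableSet

end clear

/-! ## §7 at the corridor of `Tr/LaneP` -/

section cor

variable {𝔑 : PvmnNum} {τ : PvmnType} {ln : ((ℤ × ℤ) × (ℤ × ℤ)) × ℕ} {δ μ d e₀ s : ℝ} {v : ℕ → ℂ} {t : Fin 11 → ℕ} {a b n : ℕ} {p : ℂ}

theorem pvlb_R_zone (hτ : PvmnIsType 𝔑 τ) (hl : PvmnLaneR τ ln.1 ln.2) : pvlpR τ ln ⊆ pvlbZone τ := pvlp_R_sub hτ hl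

/-- the windows of the corridor lie in the 1-collar of the zone -/
theorem pvlb_win_zone (hτ : PvmnIsType 𝔑 τ) (hl : PvmnLaneR τ ln.1 ln.2) (hδ : 0 < δ) (hb : b ≤ pvlpN τ ln) : pvlpWin δ τ ln a b ⊆ pvtU δ (pvtwN 1 (pvlbZone τ)) :=
  (pvlp_win_sub hτ hl hδ hb).trans (pvt_U_mono (pvtw_N_mono le_rfl (pvlb_R_zone hτ hl)))

/-- the window of the central fine cell of a coarse cell lies in the coarse cell -/
theorem pvlb_sq_coarse (hδ : 0 < δ) (c : ℤ × ℤ) : pvlpSq (pvtCtr (δ / 5) (5 * c.1 + 2, 5 * c.2 + 2)) (δ / 8) ⊆ pvtSq δ c := by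
  rintro z ⟨h1, h2⟩
  simp only [pvtCtr] at h1 h2
  rw [abs_le] at h1 h2
  push_cast at h1 h2
  obtain ⟨a1, a2⟩ := h1
  obtain ⟨b1, b2⟩ := h2
  refine ⟨?_, ?_, ?_, ?_⟩ <;> nlinarith

/-- the door `A` lies in the 9-collar of the piece `0` -/
theorem pvlb_DA (hτ : PvmnIsType 𝔑 τ) (hl : PvmnLaneR τ ln.1 ln.2) (hδ : 0 < δ) : pvlpDA δ τ ln ⊆ pvtU δ (pvtwN 9 (τ.C 0 : Set (ℤ × ℤ))) := by
  intro z hz
  obtain ⟨i, h1, h2, h3⟩ := pvlp_mem_win.1 hz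
  have : i = 0 := by omega
  subst this
  rw [pvlp_C_zero hτ hl] at h3
  obtain ⟨_, y, hy, hadj⟩ := pvlp_A0 hτ hl
  exact Set.mem_iUnion₂.2 ⟨pvlpA0 τ ln, pvlb_next_m hy hadj, pvlb_sq_coarse hδ _ h3⟩

/-- the door `B` lies in the 9-collar of the piece `9` -/
theorem pvlb_DB (hτ : PvmnIsType 𝔑 τ) (hl : PvmnLaneR τ ln.1 ln.2) (hδ : 0 < δ) : pvlpDB δ τ ln ⊆ pvtU δ (pvtwN 9 (τ.C 9 : Set (ℤ × ℤ))) := by
  intro z hz
  obtain ⟨i, h1, h2, h3⟩ := pvlp_mem_win.1 hz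
  have : i = pvlpN τ ln := by omega
  subst this
  rw [pvlp_C_last hτ hl] at h3
  obtain ⟨_, y, hy, hadj⟩ := pvlp_A1 hτ hl
  exact Set.mem_iUnion₂.2 ⟨pvlpA1 τ ln, pvlb_next_p hy (hx_tri_symm _ _ hadj), pvlb_sq_coarse hδ _ h3⟩

/-- **M9' at the strip** ((ii) of 15): a chain of points of the strip with steps `≤ s` from the door `A` to the door `B` passes near every vertex between the marks `1` and `9` -/
theorem pvlb_strip_walk (hτ : PvmnIsType 𝔑 τ) (hl : PvmnLaneR τ ln.1 ln.2) (hF : PvmnFits τ δ v t) (hδ : 0 < δ) (hμ : 0 ≤ μ) (he : 0 ≤ e₀) (hs : 0 ≤ s)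
    (mesh : ∀ k, t 0 ≤ k → k < t 10 → ‖v (k + 1) - v k‖ ≤ μ) (hNR : PvtxNR v (t 0) (t 10) d e₀) (hd : 40 * δ + 2 * μ + s ≤ d) (X : ℕ → ℂ) (n : ℕ)
    (hx : ∀ j, j ≤ n → X j ∈ pvlpS δ τ ln) (hstep : ∀ j, j < n → ‖X (j + 1) - X j‖ ≤ s) (h0 : X 0 ∈ pvlpDA δ τ ln) (h1 : X n ∈ pvlpDB δ τ ln)
    (i : ℕ) (hi0 : t 1 ≤ i) (hi1 : i ≤ t 9) : ∃ j ≤ n, ‖v i - X j‖ ≤ e₀ + 20 * δ + μ :=
  pvlb_zone_walk hF hδ hμ he hs mesh hNR hd X n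
    (fun j hj => pvt_U_mono (pvtw_N_mono (by omega) le_rfl) (pvlb_win_zone hτ hl hδ le_rfl (hx j hj))) hstep (pvlb_DA hτ hl hδ h0) (pvlb_DB hτ hl hδ h1) i hi0 hi1

/-- **every door-to-door chain of the strip enters the ball `B(0, (rO + 22) δ + e₀ + μ)`** -/
theorem pvlb_strip_walk_pin (hτ : PvmnIsType 𝔑 τ) (hl : PvmnLaneR τ ln.1 ln.2) (hF : PvmnFits τ δ v t) (hδ : 0 < δ) (hμ : 0 ≤ μ) (he : 0 ≤ e₀) (hs : 0 ≤ s)
    (mesh : ∀ k, t 0 ≤ k → k < t 10 → ‖v (k + 1) - v k‖ ≤ μ) (hNR : PvtxNR v (t 0) (t 10) d e₀) (hd : 40 * δ + 2 * μ + s ≤ d) (X : ℕ → ℂ) (n : ℕ)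
    (hx : ∀ j, j ≤ n → X j ∈ pvlpS δ τ ln) (hstep : ∀ j, j < n → ‖X (j + 1) - X j‖ ≤ s) (h0 : X 0 ∈ pvlpDA δ τ ln) (h1 : X n ∈ pvlpDB δ τ ln) :
    ∃ j ≤ n, ‖X j‖ ≤ (𝔑.rO + 22) * δ + e₀ + μ :=
  pvlb_zone_walk_pin hτ hF hδ hμ he hs mesh hNR hd X n
    (fun j hj => pvt_U_mono (pvtw_N_mono (by omega) le_rfl) (pvlb_win_zone hτ hl hδ le_rfl (hx j hj))) hstep (pvlb_DA hτ hl hδ h0) (pvlb_DB hτ hl hδ h1)

/-- the centres of two cells which share a side -/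
theorem pvlb_ctr_G4 {η : ℝ} (hη : 0 ≤ η) {c c' : ℤ × ℤ} (h : pvtbG4.Adj c c') : ‖pvtCtr η c' - pvtCtr η c‖ ≤ η := by
  have h0 := Complex.norm_le_abs_re_add_abs_im (pvtCtr η c' - pvtCtr η c)
  refine h0.trans ?_
  simp only [pvtCtr, Complex.sub_re, Complex.sub_im]
  rcases h with ⟨h1, h2⟩ | ⟨h1, h2⟩ | ⟨h1, h2⟩ | ⟨h1, h2⟩
  · rw [h1, h2]
    push_cast
    have e1 : ((c.1 : ℝ) + 1 + 1 / 2) * η - ((c.1 : ℝ) + 1 / 2) * η = η := by ring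
    rw [e1, sub_self, abs_zero, abs_of_nonneg hη, add_zero]
  · rw [h1, h2]
    push_cast
    have e1 : ((c.1 : ℝ) - 1 + 1 / 2) * η - ((c.1 : ℝ) + 1 / 2) * η = -η := by ring
    rw [e1, sub_self, abs_zero, abs_neg, abs_of_nonneg hη, add_zero]
  · rw [h1, h2]
    push_cast
    have e1 : ((c.2 : ℝ) + 1 + 1 / 2) * η - ((c.2 : ℝ) + 1 / 2) * η = η := by ring
    rw [e1, sub_self, abs_zero, abs_of_nonneg hη, zero_add]
  · rw [h1, h2]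
    push_cast
    have e1 : ((c.2 : ℝ) - 1 + 1 / 2) * η - ((c.2 : ℝ) + 1 / 2) * η = -η := by ring
    rw [e1, sub_self, abs_zero, abs_neg, abs_of_nonneg hη, zero_add]

/-- the centre of a cell of the corridor lies in its window -/
theorem pvlb_ctr_win (hδ : 0 < δ) {i : ℕ} (h1 : a ≤ i) (h2 : i ≤ b) : pvtCtr (δ / 5) (pvlpC τ ln i) ∈ pvlpWin δ τ ln a b :=
  pvlp_cell_win hδ h1 h2 (pvt_sq_ctr (by positivity))

/-- **M9' for the corridor** ((i) of 15): the corridor passes near every vertex between the marks `1` and `9` -/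
theorem pvlb_cor_track (hτ : PvmnIsType 𝔑 τ) (hl : PvmnLaneR τ ln.1 ln.2) (hF : PvmnFits τ δ v t) (hδ : 0 < δ) (hμ : 0 ≤ μ) (he : 0 ≤ e₀)
    (mesh : ∀ k, t 0 ≤ k → k < t 10 → ‖v (k + 1) - v k‖ ≤ μ) (hNR : PvtxNR v (t 0) (t 10) d e₀) (hd : 41 * δ + 2 * μ ≤ d)
    (i : ℕ) (hi0 : t 1 ≤ i) (hi1 : i ≤ t 9) : ∃ k ≤ pvlpN τ ln, ‖v i - pvtCtr (δ / 5) (pvlpC τ ln k)‖ ≤ e₀ + 20 * δ + μ :=
  pvlb_strip_walk (s := δ / 5) hτ hl hF hδ hμ he (by positivity) mesh hNR (by linarith) (fun k => pvtCtr (δ / 5) (pvlpC τ ln k)) (pvlpN τ ln)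
    (fun j hj => pvlb_ctr_win hδ (Nat.zero_le _) hj) (fun j hj => pvlb_ctr_G4 (by positivity) ((pvlp_C_cor hτ hl).step j hj))
    (pvlb_ctr_win hδ le_rfl le_rfl) (pvlb_ctr_win hδ le_rfl le_rfl) i hi0 hi1

/-- **the cut exists**: the corridor has a cell in the FINE box `[-n, n]²` -/
theorem pvlb_K_ex (hτ : PvmnIsType 𝔑 τ) (hl : PvmnLaneR τ ln.1 ln.2) (hF : PvmnFits τ δ v t) (hδ : 0 < δ) (hμ : 0 ≤ μ) (he : 0 ≤ e₀)
    (mesh : ∀ k, t 0 ≤ k → k < t 10 → ‖v (k + 1) - v k‖ ≤ μ) (hNR : PvtxNR v (t 0) (t 10) d e₀) (hd : 41 * δ + 2 * μ ≤ d)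
    (hn : (𝔑.rO + 22) * δ + e₀ + μ ≤ (n : ℝ) * (δ / 5)) : ∃ k, k ≤ pvlpN τ ln ∧ pvlpC τ ln k ∈ pvmnBox n := by
  have hm := pvlb_t_mono hF
  obtain ⟨k, hk, hkl⟩ := pvlb_cor_track hτ hl hF hδ hμ he mesh hNR hd (t 5) (hm (by decide)) (hm (by decide))
  refine ⟨k, hk, pvlb_ctr_box (δ := δ / 5) (by positivity) ?_⟩
  have h5 := pvlb_pin_norm hτ hF hδ
  have h3 : ‖pvtCtr (δ / 5) (pvlpC τ ln k)‖ ≤ ‖v (t 5)‖ + ‖v (t 5) - pvtCtr (δ / 5) (pvlpC τ ln k)‖ := by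
    have := norm_sub_le (v (t 5)) (v (t 5) - pvtCtr (δ / 5) (pvlpC τ ln k))
    simpa using this
  linarith

/-- `pvlpK` is a true first index as soon as the corridor meets the box -/
theorem pvlb_K_of_ex (hex : ∃ k, k ≤ pvlpN τ ln ∧ pvlpC τ ln k ∈ pvmnBox n) :
    pvlpK n τ ln ≤ pvlpN τ ln ∧ pvlpC τ ln (pvlpK n τ ln) ∈ pvmnBox n ∧ ∀ k, k < pvlpK n τ ln → pvlpC τ ln k ∉ pvmnBox n := by
  classical
  unfold pvlpK
  rw [dif_pos hex]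
  refine ⟨(Nat.find_spec hex).1, (Nat.find_spec hex).2, fun k hk hc => ?_⟩
  have h1 := (Nat.find_spec hex).1
  exact Nat.find_min hex hk ⟨by omega, hc⟩

/-- **`pvlpK n τ ln` is a true first index** -/
theorem pvlb_K_spec (hτ : PvmnIsType 𝔑 τ) (hl : PvmnLaneR τ ln.1 ln.2) (hF : PvmnFits τ δ v t) (hδ : 0 < δ) (hμ : 0 ≤ μ) (he : 0 ≤ e₀)
    (mesh : ∀ k, t 0 ≤ k → k < t 10 → ‖v (k + 1) - v k‖ ≤ μ) (hNR : PvtxNR v (t 0) (t 10) d e₀) (hd : 41 * δ + 2 * μ ≤ d)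
    (hn : (𝔑.rO + 22) * δ + e₀ + μ ≤ (n : ℝ) * (δ / 5)) :
    pvlpK n τ ln ≤ pvlpN τ ln ∧ pvlpC τ ln (pvlpK n τ ln) ∈ pvmnBox n ∧ ∀ k, k < pvlpK n τ ln → pvlpC τ ln k ∉ pvmnBox n :=
  pvlb_K_of_ex (pvlb_K_ex hτ hl hF hδ hμ he mesh hNR hd hn)

/-- cells of the corridor whose indices differ by `m` are at sup-distance `≤ m` -/
theorem pvlb_cor_dist (hτ : PvmnIsType 𝔑 τ) (hl : PvmnLaneR τ ln.1 ln.2) {i m : ℕ} (him : i + m ≤ pvlpN τ ln) :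
    (pvlpC τ ln (i + m)).1 ≤ (pvlpC τ ln i).1 + m ∧ (pvlpC τ ln i).1 ≤ (pvlpC τ ln (i + m)).1 + m ∧
      (pvlpC τ ln (i + m)).2 ≤ (pvlpC τ ln i).2 + m ∧ (pvlpC τ ln i).2 ≤ (pvlpC τ ln (i + m)).2 + m := by
  induction m with
  | zero => simp
  | succ m ih =>
    obtain ⟨i1, i2, i3, i4⟩ := ih (by omega)
    have hst := (pvlp_C_cor hτ hl).step (i + m) (by omega)
    have hst' : ((pvlpC τ ln (i + m + 1)).1 = (pvlpC τ ln (i + m)).1 + 1 ∧ (pvlpC τ ln (i + m + 1)).2 = (pvlpC τ ln (i + m)).2) ∨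
      ((pvlpC τ ln (i + m + 1)).1 = (pvlpC τ ln (i + m)).1 - 1 ∧ (pvlpC τ ln (i + m + 1)).2 = (pvlpC τ ln (i + m)).2) ∨
      ((pvlpC τ ln (i + m + 1)).1 = (pvlpC τ ln (i + m)).1 ∧ (pvlpC τ ln (i + m + 1)).2 = (pvlpC τ ln (i + m)).2 + 1) ∨
      ((pvlpC τ ln (i + m + 1)).1 = (pvlpC τ ln (i + m)).1 ∧ (pvlpC τ ln (i + m + 1)).2 = (pvlpC τ ln (i + m)).2 - 1) := hst
    have e : i + (m + 1) = i + m + 1 := rfl
    rw [e]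
    push_cast
    omega

/-- two cells of the corridor: box version -/
theorem pvlb_cor_box (hτ : PvmnIsType 𝔑 τ) (hl : PvmnLaneR τ ln.1 ln.2) {i j m : ℕ} (hi : i ≤ pvlpN τ ln) (hj : j ≤ pvlpN τ ln) (h1 : i ≤ j + m) (h2 : j ≤ i + m)
    (hc : pvlpC τ ln i ∈ pvmnBox n) : pvlpC τ ln j ∈ pvmnBox (n + m) := by
  obtain ⟨b1, b2, b3, b4⟩ := hc
  rcases le_total i j with h | h
  · obtain ⟨r, rfl⟩ := Nat.exists_eq_add_of_le h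
    obtain ⟨d1, d2, d3, d4⟩ := pvlb_cor_dist hτ hl hj
    refine ⟨?_, ?_, ?_, ?_⟩ <;> push_cast <;> omega
  · obtain ⟨r, rfl⟩ := Nat.exists_eq_add_of_le h
    obtain ⟨d1, d2, d3, d4⟩ := pvlb_cor_dist hτ hl hi
    refine ⟨?_, ?_, ?_, ?_⟩ <;> push_cast <;> omega

/-- the window of a cell of the FINE box `[-n, n]²` lies in the ball of radius `2 (n + 2) δ / 5` -/
theorem pvlb_win_norm (hδ : 0 < δ) {c : ℤ × ℤ} (hc : c ∈ pvmnBox n) (hp : p ∈ pvlpSq (pvtCtr (δ / 5) c) (δ / 8)) : ‖p‖ ≤ 2 * ((n : ℝ) + 2) * (δ / 5) := by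
  obtain ⟨h1, h2, h3, h4⟩ := hc
  obtain ⟨a1, a2⟩ := hp
  simp only [pvtCtr] at a1 a2
  rw [abs_le] at a1 a2
  have c1 : -(n : ℝ) ≤ c.1 := by exact_mod_cast h1
  have c2 : (c.1 : ℝ) ≤ n := by exact_mod_cast h2
  have c3 : -(n : ℝ) ≤ c.2 := by exact_mod_cast h3
  have c4 : (c.2 : ℝ) ≤ n := by exact_mod_cast h4
  have d1 := mul_le_mul_of_nonneg_right c1 hδ.le
  have d2 := mul_le_mul_of_nonneg_right c2 hδ.le
  have d3 := mul_le_mul_of_nonneg_right c3 hδ.le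
  have d4 := mul_le_mul_of_nonneg_right c4 hδ.le
  have h0 := Complex.norm_le_abs_re_add_abs_im p
  have hr : |p.re| ≤ ((n : ℝ) + 2) * (δ / 5) := abs_le.2 ⟨by nlinarith [a1.1], by nlinarith [a1.2]⟩
  have hi : |p.im| ≤ ((n : ℝ) + 2) * (δ / 5) := abs_le.2 ⟨by nlinarith [a2.1], by nlinarith [a2.2]⟩
  nlinarith

/-- **WALK SPLIT, forward half, with the index of the window**: from the time `J` on the chain stays in the windows `≥ K`, and `X J` lies in a window `K ≤ i ≤ K + 2`, `i ≤ N` -/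
theorem pvlb_split_p (hτ : PvmnIsType 𝔑 τ) (hl : PvmnLaneR τ ln.1 ln.2) (hδ : 0 < δ) (X : ℕ → ℂ) (m : ℕ) (hx : ∀ j, j ≤ m → X j ∈ pvlpS δ τ ln) (hs : ∀ j, j < m → ‖X (j + 1) - X j‖ ≤ δ / 10)
    (h0 : X 0 ∈ pvlpDA δ τ ln) (hn : X m ∈ pvlpDB δ τ ln) {K : ℕ} (hK : K ≤ pvlpN τ ln) :
    ∃ J, J ≤ m ∧ (∃ i, K ≤ i ∧ i ≤ K + 2 ∧ i ≤ pvlpN τ ln ∧ X J ∈ pvlpSq (pvtCtr (δ / 5) (pvlpC τ ln i)) (δ / 8)) ∧
      ∀ j, J ≤ j → j ≤ m → X j ∈ pvlpWin δ τ ln K (pvlpN τ ln) := by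
  classical
  have hnK : X m ∈ pvlpWin δ τ ln K (pvlpN τ ln) := pvlp_win_mono hK le_rfl hn
  by_cases hB : ∃ j, j ≤ m ∧ X j ∉ pvlpWin δ τ ln K (pvlpN τ ln)
  · obtain ⟨j1, hj1, hb1⟩ := hB
    have hb : X (Nat.findGreatest (fun j => X j ∉ pvlpWin δ τ ln K (pvlpN τ ln)) m) ∉ pvlpWin δ τ ln K (pvlpN τ ln) :=
      Nat.findGreatest_spec (P := fun j => X j ∉ pvlpWin δ τ ln K (pvlpN τ ln)) hj1 hb1
    have hle : Nat.findGreatest (fun j => X j ∉ pvlpWin δ τ ln K (pvlpN τ ln)) m ≤ m := Nat.findGreatest_le m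
    have hgr : ∀ k, Nat.findGreatest (fun j => X j ∉ pvlpWin δ τ ln K (pvlpN τ ln)) m < k → k ≤ m → X k ∈ pvlpWin δ τ ln K (pvlpN τ ln) :=
      fun k h1 h2 => not_not.1 (Nat.findGreatest_is_greatest (P := fun j => X j ∉ pvlpWin δ τ ln K (pvlpN τ ln)) h1 h2)
    generalize Nat.findGreatest (fun j => X j ∉ pvlpWin δ τ ln K (pvlpN τ ln)) m = j0 at hb hle hgr
    have hlt : j0 < m := lt_of_le_of_ne hle fun e => hb (by rw [e]; exact hnK)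
    refine ⟨j0 + 1, hlt, ?_, fun j h1 h2 => hgr j (by omega) h2⟩
    obtain ⟨i, h1, h2, h3⟩ := pvlp_mem_win.1 (hgr (j0 + 1) (by omega) hlt)
    obtain ⟨i', h4, h5, h6⟩ := pvlp_mem_win.1 (hx j0 hle)
    have hi' : i' < K := by
      by_contra hcon
      exact hb (pvlp_mem_win.2 ⟨i', not_lt.1 hcon, h5, h6⟩)
    have := pvlp_win_idx hτ hl hδ h5 h2 h6 h3 (hs j0 hlt)
    exact ⟨i, h1, by omega, h2, h3⟩
  · push Not at hB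
    refine ⟨0, Nat.zero_le _, ?_, fun j _ h2 => hB j h2⟩
    obtain ⟨i, h1, h2, h3⟩ := pvlp_mem_win.1 (hB 0 (Nat.zero_le _))
    obtain ⟨i', h4, h5, h6⟩ := pvlp_mem_win.1 h0
    have := pvlp_win_idx hτ hl hδ (by omega) h2 h6 h3 (by rw [sub_self, norm_zero]; positivity)
    exact ⟨i, h1, by omega, h2, h3⟩

/-- **WALK SPLIT, backward half, with the index of the window**: up to the time `J` the chain stays in the windows `≤ K`, and `X J` lies in a window `K - 2 ≤ i ≤ K` -/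
theorem pvlb_split_m (hτ : PvmnIsType 𝔑 τ) (hl : PvmnLaneR τ ln.1 ln.2) (hδ : 0 < δ) (X : ℕ → ℂ) (m : ℕ) (hx : ∀ j, j ≤ m → X j ∈ pvlpS δ τ ln) (hs : ∀ j, j < m → ‖X (j + 1) - X j‖ ≤ δ / 10)
    (h0 : X 0 ∈ pvlpDA δ τ ln) (hn : X m ∈ pvlpDB δ τ ln) {K : ℕ} (hK : K ≤ pvlpN τ ln) :
    ∃ J, J ≤ m ∧ (∃ i, i ≤ K ∧ K ≤ i + 2 ∧ X J ∈ pvlpSq (pvtCtr (δ / 5) (pvlpC τ ln i)) (δ / 8)) ∧ ∀ j, j ≤ J → X j ∈ pvlpWin δ τ ln 0 K := by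
  classical
  have h0K : X 0 ∈ pvlpWin δ τ ln 0 K := pvlp_win_mono le_rfl (Nat.zero_le _) h0
  by_cases hB : ∃ j, j ≤ m ∧ X j ∉ pvlpWin δ τ ln 0 K
  · have hspec := Nat.find_spec hB
    have hmin : ∀ j, j < Nat.find hB → ¬ (j ≤ m ∧ X j ∉ pvlpWin δ τ ln 0 K) := fun j h => Nat.find_min hB h
    generalize Nat.find hB = j0 at hspec hmin
    obtain ⟨ha, hb⟩ := hspec
    have hpos : 0 < j0 := by
      rcases Nat.eq_zero_or_pos j0 with e | e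
      · rw [e] at hb
        exact absurd h0K hb
      · exact e
    have hgood : ∀ j, j < j0 → X j ∈ pvlpWin δ τ ln 0 K := by
      intro j h1
      by_contra hcon
      exact hmin j h1 ⟨by omega, hcon⟩
    obtain ⟨J, hJ⟩ : ∃ J, j0 = J + 1 := ⟨j0 - 1, by omega⟩
    refine ⟨J, by omega, ?_, fun j h1 => hgood j (by omega)⟩
    obtain ⟨i, h1, h2, h3⟩ := pvlp_mem_win.1 (hgood J (by omega))
    obtain ⟨i', h4, h5, h6⟩ := pvlp_mem_win.1 (hx j0 ha)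
    have hi' : K < i' := by
      by_contra hcon
      exact hb (pvlp_mem_win.2 ⟨i', Nat.zero_le _, not_lt.1 hcon, h6⟩)
    have hst := hs J (by omega)
    rw [← hJ] at hst
    have := pvlp_win_idx hτ hl hδ (by omega) h5 h3 h6 hst
    exact ⟨i, h2, by omega, h3⟩
  · push Not at hB
    refine ⟨m, le_rfl, ?_, fun j h2 => hB j h2⟩
    obtain ⟨i, h1, h2, h3⟩ := pvlp_mem_win.1 (hB m le_rfl)
    obtain ⟨i', h4, h5, h6⟩ := pvlp_mem_win.1 hn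
    have := pvlp_win_idx hτ hl hδ (by omega) h5 h3 h6 (by rw [sub_self, norm_zero]; positivity)
    exact ⟨i, h2, by omega, h3⟩

/-- **the white walk inside `Mp`**: a door-to-door chain of the strip stays in `Mp` from a time `J` on, and `X J` lies in the ball of radius `2 (n + 4) δ / 5` -/
theorem pvlb_walk_Mp (hτ : PvmnIsType 𝔑 τ) (hl : PvmnLaneR τ ln.1 ln.2) (hδ : 0 < δ) (hex : ∃ k, k ≤ pvlpN τ ln ∧ pvlpC τ ln k ∈ pvmnBox n) (X : ℕ → ℂ) (m : ℕ)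
    (hx : ∀ j, j ≤ m → X j ∈ pvlpS δ τ ln) (hs : ∀ j, j < m → ‖X (j + 1) - X j‖ ≤ δ / 10) (h0 : X 0 ∈ pvlpDA δ τ ln) (hn : X m ∈ pvlpDB δ τ ln) :
    ∃ J, J ≤ m ∧ ‖X J‖ ≤ 2 * ((n : ℝ) + 4) * (δ / 5) ∧ ∀ j, J ≤ j → j ≤ m → X j ∈ pvlpMp δ n τ ln := by
  obtain ⟨k1, k2, _⟩ := pvlb_K_of_ex hex
  obtain ⟨J, hJ, ⟨i, i1, i2, i3, i4⟩, hall⟩ := pvlb_split_p hτ hl hδ X m hx hs h0 hn k1
  refine ⟨J, hJ, ?_, hall⟩
  have := pvlb_win_norm hδ (pvlb_cor_box (m := 2) hτ hl k1 i3 (by omega) (by omega) k2) i4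
  push_cast at this
  linarith

/-- **the white walk inside `Mm`** -/
theorem pvlb_walk_Mm (hτ : PvmnIsType 𝔑 τ) (hl : PvmnLaneR τ ln.1 ln.2) (hδ : 0 < δ) (hex : ∃ k, k ≤ pvlpN τ ln ∧ pvlpC τ ln k ∈ pvmnBox n) (X : ℕ → ℂ) (m : ℕ)
    (hx : ∀ j, j ≤ m → X j ∈ pvlpS δ τ ln) (hs : ∀ j, j < m → ‖X (j + 1) - X j‖ ≤ δ / 10) (h0 : X 0 ∈ pvlpDA δ τ ln) (hn : X m ∈ pvlpDB δ τ ln) :
    ∃ J, J ≤ m ∧ ‖X J‖ ≤ 2 * ((n : ℝ) + 4) * (δ / 5) ∧ ∀ j, j ≤ J → X j ∈ pvlpMm δ n τ ln := by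
  obtain ⟨k1, k2, _⟩ := pvlb_K_of_ex hex
  obtain ⟨J, hJ, ⟨i, i1, i2, i4⟩, hall⟩ := pvlb_split_m hτ hl hδ X m hx hs h0 hn k1
  refine ⟨J, hJ, ?_, hall⟩
  have := pvlb_win_norm hδ (pvlb_cor_box (m := 2) hτ hl k1 (i1.trans k1) (by omega) (by omega) k2) i4
  push_cast at this
  linarith

/-- before the cut the corridor stays off the fine box: the windows of `Mm` other than the last one avoid the ball of radius `(n - 1) δ / 5` -/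
theorem pvlb_Mm_off (hδ : 0 < δ) (hex : ∃ k, k ≤ pvlpN τ ln ∧ pvlpC τ ln k ∈ pvmnBox n) {i : ℕ} (hi : i < pvlpK n τ ln)
    (hp : p ∈ pvlpSq (pvtCtr (δ / 5) (pvlpC τ ln i)) (δ / 8)) : ((n : ℝ) - 1) * (δ / 5) ≤ ‖p‖ := by
  obtain ⟨_, _, k3⟩ := pvlb_K_of_ex hex
  have hc := k3 i hi
  obtain ⟨a1, a2⟩ := hp
  simp only [pvtCtr] at a1 a2
  rw [abs_le] at a1 a2
  have hre := Complex.abs_re_le_norm p
  have him := Complex.abs_im_le_norm p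
  have hcases : (pvlpC τ ln i).1 < -(n : ℤ) ∨ (n : ℤ) < (pvlpC τ ln i).1 ∨ (pvlpC τ ln i).2 < -(n : ℤ) ∨ (n : ℤ) < (pvlpC τ ln i).2 := by
    by_contra hcon
    push Not at hcon
    exact hc ⟨hcon.1, hcon.2.1, hcon.2.2.1, hcon.2.2.2⟩
  rcases hcases with h | h | h | h
  · have h' : ((pvlpC τ ln i).1 : ℝ) ≤ -(n : ℝ) - 1 := by exact_mod_cast (show (pvlpC τ ln i).1 ≤ -(n : ℤ) - 1 by omega)
    have d1 := mul_le_mul_of_nonneg_right h' hδ.le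
    have := neg_abs_le p.re
    nlinarith [a1.2]
  · have h' : (n : ℝ) + 1 ≤ ((pvlpC τ ln i).1 : ℝ) := by exact_mod_cast (show (n : ℤ) + 1 ≤ (pvlpC τ ln i).1 by omega)
    have d1 := mul_le_mul_of_nonneg_right h' hδ.le
    have := le_abs_self p.re
    nlinarith [a1.1]
  · have h' : ((pvlpC τ ln i).2 : ℝ) ≤ -(n : ℝ) - 1 := by exact_mod_cast (show (pvlpC τ ln i).2 ≤ -(n : ℤ) - 1 by omega)
    have d1 := mul_le_mul_of_nonneg_right h' hδ.le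
    have := neg_abs_le p.im
    nlinarith [a2.2]
  · have h' : (n : ℝ) + 1 ≤ ((pvlpC τ ln i).2 : ℝ) := by exact_mod_cast (show (n : ℤ) + 1 ≤ (pvlpC τ ln i).2 by omega)
    have d1 := mul_le_mul_of_nonneg_right h' hδ.le
    have := le_abs_self p.im
    nlinarith [a2.1]

end cor

end Claimed.Agent.R289
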