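import Claimed.Agent.R289.Tr.Tower

/-!
# Row 289 (S0537, Cardy for Poisson-Voronoi), unit TR (TR19 = WB3 FIT), Tr/Push : THE PUSH OFF A CONVEX PLUG, PORTS ARE OUTSIDE      (owner helper206; prefix `pvtw_`, defs `pvtw*`; §6 of `Tr/Tower`)

PROBLEM (hugging): the continuation of the rim leaves a box `B` (plug, level box) and may run along its boundary at distance `< k δ` without entering it again, so its cells are NOT off the `k`-neighbourhood of `B`.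
ANSWER: `pvtwPush x0 x1 y0 y1 ρ p = π p + max 1 (ρ / D p) (p - π p)`, `π` = clamp onto the rectangle, `D` = sup-distance:  continuous off the rectangle, moves every coordinate by `≤ ρ`, lands at sup-distance `≥ ρ`,
fixes the points at sup-distance `≥ ρ`, sends the normals of the four sides into themselves.

* `pvtwPB δ a b c d k` = the push off the box of cells `tscBox a b c d` to sup-distance `(k+1) δ`:  `pvtw_PB_off`, `pvtw_PB_alt`, `pvtw_PB_fix`, `pvtw_PB_move`, `pvtw_PB_cont`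
* `pvtwPB2` = two boxes far apart:  `pvtw_PB2_spec` (pointwise), `pvtw_PB2_image` (the pushed curve is connected, bounded, off `pvtU δ (pvtwN k (G ∪ B₁ ∪ B₂))`)
* **`pvtw_port_out`**: every square met by the pushed curve is in `pvtOut (pvtwN k (G ∪ B₁ ∪ B₂))`, i.e. off the level `pvtwK k` of the tower
* doors: `pvtw_PB_right/left/top/bot` (a point next to a side, in the row `j`, is pushed into the square `(b+k+1, j)`, ...), straight channels `pvtw_channel_h/v`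
-/

set_option autoImplicit false
set_option linter.unusedSectionVars false
set_option linter.unusedVariables false
set_option linter.unusedSimpArgs false

namespace Claimed.Agent.R289

open Relation Claims.C0467 Claimed.Agent.R291

/-! ## §6 the push map off a rectangle -/

/-- clamp -/
noncomputable def pvtwCl (a b x : ℝ) : ℝ := max a (min b x)

section clamp

variable {a b x t l : ℝ}

theorem pvtw_cl_lt (hab : a ≤ b) (h : x ≤ a) : pvtwCl a b x = a := by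
  rw [pvtwCl, min_eq_right (h.trans hab), max_eq_left h]

theorem pvtw_cl_gt (hab : a ≤ b) (h : b ≤ x) : pvtwCl a b x = b := by
  rw [pvtwCl, min_eq_left h, max_eq_right hab]

theorem pvtw_cl_mid (h1 : a ≤ x) (h2 : x ≤ b) : pvtwCl a b x = x := by
  rw [pvtwCl, min_eq_right h2, max_eq_right h1]

theorem pvtw_cl_cases (hab : a ≤ b) (x : ℝ) : (x < a ∧ pvtwCl a b x = a) ∨ (b < x ∧ pvtwCl a b x = b) ∨ (a ≤ x ∧ x ≤ b ∧ pvtwCl a b x = x) := by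
  by_cases h1 : x < a
  · exact Or.inl ⟨h1, pvtw_cl_lt hab h1.le⟩
  · by_cases h2 : b < x
    · exact Or.inr (Or.inl ⟨h2, pvtw_cl_gt hab h2.le⟩)
    · exact Or.inr (Or.inr ⟨not_lt.1 h1, not_lt.1 h2, pvtw_cl_mid (not_lt.1 h1) (not_lt.1 h2)⟩)

theorem pvtw_cl_cont : Continuous (pvtwCl a b) := continuous_const.max (continuous_const.min continuous_id)

/-- pushing along the normal does not change the nearest point -/
theorem pvtw_cl_push (hab : a ≤ b) (hl : 1 ≤ l) : pvtwCl a b (pvtwCl a b x + l * (x - pvtwCl a b x)) = pvtwCl a b x := by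
  rcases pvtw_cl_cases hab x with ⟨h, e⟩ | ⟨h, e⟩ | ⟨h1, h2, e⟩
  · rw [e]; exact pvtw_cl_lt hab (by nlinarith)
  · rw [e]; exact pvtw_cl_gt hab (by nlinarith)
  · rw [e]; simp only [sub_self, mul_zero, add_zero]; exact e

theorem pvtw_cl_abs_le (hab : a ≤ b) (ht : 0 ≤ t) : |x - pvtwCl a b x| ≤ t ↔ a - t ≤ x ∧ x ≤ b + t := by
  rcases pvtw_cl_cases hab x with ⟨h, e⟩ | ⟨h, e⟩ | ⟨h1, h2, e⟩
  · rw [e, abs_le]; constructor
    · rintro ⟨u, v⟩; exact ⟨by linarith, by linarith⟩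
    · rintro ⟨u, v⟩; exact ⟨by linarith, by linarith⟩
  · rw [e, abs_le]; constructor
    · rintro ⟨u, v⟩; exact ⟨by linarith, by linarith⟩
    · rintro ⟨u, v⟩; exact ⟨by linarith, by linarith⟩
  · rw [e, sub_self, abs_zero]; exact ⟨fun _ => ⟨by linarith, by linarith⟩, fun _ => ht⟩

end clamp

/-- the sup-distance to the rectangle `[x0,x1] × [y0,y1]` -/
noncomputable def pvtwD (x0 x1 y0 y1 : ℝ) (p : ℂ) : ℝ := max |p.re - pvtwCl x0 x1 p.re| |p.im - pvtwCl y0 y1 p.im|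

/-- the factor of the push -/
noncomputable def pvtwLam (x0 x1 y0 y1 ρ : ℝ) (p : ℂ) : ℝ := max 1 (ρ / pvtwD x0 x1 y0 y1 p)

/-- **the push**: a point off the rectangle is moved along the normal to sup-distance `≥ ρ` -/
noncomputable def pvtwPush (x0 x1 y0 y1 ρ : ℝ) (p : ℂ) : ℂ :=
  ((pvtwCl x0 x1 p.re + pvtwLam x0 x1 y0 y1 ρ p * (p.re - pvtwCl x0 x1 p.re) : ℝ) : ℂ) +
    ((pvtwCl y0 y1 p.im + pvtwLam x0 x1 y0 y1 ρ p * (p.im - pvtwCl y0 y1 p.im) : ℝ) : ℂ) * Complex.I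

theorem pvtw_eqns_cite6 : True := by
  have := @pvtwCl.eq_1
  have := @pvtwD.eq_1
  have := @pvtwLam.eq_1
  have := @pvtwPush.eq_1
  trivial

section push

variable {x0 x1 y0 y1 ρ t : ℝ} {p q : ℂ}

theorem pvtw_push_re : (pvtwPush x0 x1 y0 y1 ρ p).re = pvtwCl x0 x1 p.re + pvtwLam x0 x1 y0 y1 ρ p * (p.re - pvtwCl x0 x1 p.re) := by
  simp [pvtwPush]

theorem pvtw_push_im : (pvtwPush x0 x1 y0 y1 ρ p).im = pvtwCl y0 y1 p.im + pvtwLam x0 x1 y0 y1 ρ p * (p.im - pvtwCl y0 y1 p.im) := by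
  simp [pvtwPush]

theorem pvtw_D_nonneg : 0 ≤ pvtwD x0 x1 y0 y1 p := le_max_of_le_left (abs_nonneg _)

theorem pvtw_D_cont : Continuous (pvtwD x0 x1 y0 y1) :=
  ((Complex.continuous_re.sub (pvtw_cl_cont.comp Complex.continuous_re)).abs).max ((Complex.continuous_im.sub (pvtw_cl_cont.comp Complex.continuous_im)).abs)

theorem pvtw_D_le (hx : x0 ≤ x1) (hy : y0 ≤ y1) (ht : 0 ≤ t) : pvtwD x0 x1 y0 y1 p ≤ t ↔ (x0 - t ≤ p.re ∧ p.re ≤ x1 + t) ∧ (y0 - t ≤ p.im ∧ p.im ≤ y1 + t) := by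
  rw [pvtwD, max_le_iff, pvtw_cl_abs_le hx ht, pvtw_cl_abs_le hy ht]

theorem pvtw_lam_ge : 1 ≤ pvtwLam x0 x1 y0 y1 ρ p := le_max_left _ _

theorem pvtw_lam_cont : ContinuousOn (pvtwLam x0 x1 y0 y1 ρ) {p | pvtwD x0 x1 y0 y1 p ≠ 0} :=
  ContinuousOn.sup continuousOn_const (ContinuousOn.div continuousOn_const pvtw_D_cont.continuousOn (fun _ hp => hp))

/-- **the push is continuous off the rectangle** -/
theorem pvtw_push_cont : ContinuousOn (pvtwPush x0 x1 y0 y1 ρ) {p | pvtwD x0 x1 y0 y1 p ≠ 0} := by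
  have hre : ContinuousOn (fun p : ℂ => pvtwCl x0 x1 p.re + pvtwLam x0 x1 y0 y1 ρ p * (p.re - pvtwCl x0 x1 p.re)) {p | pvtwD x0 x1 y0 y1 p ≠ 0} :=
    (pvtw_cl_cont.comp Complex.continuous_re).continuousOn.add (pvtw_lam_cont.mul (Complex.continuous_re.sub (pvtw_cl_cont.comp Complex.continuous_re)).continuousOn)
  have him : ContinuousOn (fun p : ℂ => pvtwCl y0 y1 p.im + pvtwLam x0 x1 y0 y1 ρ p * (p.im - pvtwCl y0 y1 p.im)) {p | pvtwD x0 x1 y0 y1 p ≠ 0} :=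
    (pvtw_cl_cont.comp Complex.continuous_im).continuousOn.add (pvtw_lam_cont.mul (Complex.continuous_im.sub (pvtw_cl_cont.comp Complex.continuous_im)).continuousOn)
  exact (Complex.continuous_ofReal.comp_continuousOn hre).add ((Complex.continuous_ofReal.comp_continuousOn him).mul continuousOn_const)

/-- the sup-distance is multiplied by the factor -/
theorem pvtw_D_push (hx : x0 ≤ x1) (hy : y0 ≤ y1) : pvtwD x0 x1 y0 y1 (pvtwPush x0 x1 y0 y1 ρ p) = pvtwLam x0 x1 y0 y1 ρ p * pvtwD x0 x1 y0 y1 p := by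
  have hl := pvtw_lam_ge (x0 := x0) (x1 := x1) (y0 := y0) (y1 := y1) (ρ := ρ) (p := p)
  have hl0 : 0 ≤ pvtwLam x0 x1 y0 y1 ρ p := zero_le_one.trans hl
  conv_lhs => rw [pvtwD]
  rw [pvtw_push_re, pvtw_push_im, pvtw_cl_push hx hl, pvtw_cl_push hy hl, add_sub_cancel_left, add_sub_cancel_left, abs_mul, abs_mul,
    abs_of_nonneg hl0, ← mul_max_of_nonneg _ _ hl0]
  rfl

/-- **after the push the sup-distance is `≥ ρ`** -/
theorem pvtw_push_far (hx : x0 ≤ x1) (hy : y0 ≤ y1) (hp : pvtwD x0 x1 y0 y1 p ≠ 0) : ρ ≤ pvtwD x0 x1 y0 y1 (pvtwPush x0 x1 y0 y1 ρ p) := by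
  rw [pvtw_D_push hx hy]
  have hpos : 0 < pvtwD x0 x1 y0 y1 p := lt_of_le_of_ne pvtw_D_nonneg (Ne.symm hp)
  calc ρ = ρ / pvtwD x0 x1 y0 y1 p * pvtwD x0 x1 y0 y1 p := (div_mul_cancel₀ _ hp).symm
    _ ≤ _ := mul_le_mul_of_nonneg_right (le_max_right _ _) hpos.le

/-- a point at sup-distance `≥ ρ` is not moved -/
theorem pvtw_push_fix (hp : ρ ≤ pvtwD x0 x1 y0 y1 p) (hp0 : pvtwD x0 x1 y0 y1 p ≠ 0) : pvtwPush x0 x1 y0 y1 ρ p = p := by
  have hpos : 0 < pvtwD x0 x1 y0 y1 p := lt_of_le_of_ne pvtw_D_nonneg (Ne.symm hp0)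
  have hl : pvtwLam x0 x1 y0 y1 ρ p = 1 := max_eq_left ((div_le_one hpos).2 hp)
  apply Complex.ext
  · rw [pvtw_push_re, hl]; ring
  · rw [pvtw_push_im, hl]; ring

/-- a moved point lands at sup-distance exactly `ρ` -/
theorem pvtw_push_eq (hx : x0 ≤ x1) (hy : y0 ≤ y1) (hp : pvtwD x0 x1 y0 y1 p ≤ ρ) (hp0 : pvtwD x0 x1 y0 y1 p ≠ 0) :
    pvtwD x0 x1 y0 y1 (pvtwPush x0 x1 y0 y1 ρ p) = ρ := by
  have hpos : 0 < pvtwD x0 x1 y0 y1 p := lt_of_le_of_ne pvtw_D_nonneg (Ne.symm hp0)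
  have hl : pvtwLam x0 x1 y0 y1 ρ p = ρ / pvtwD x0 x1 y0 y1 p := max_eq_right ((one_le_div hpos).2 hp)
  rw [pvtw_D_push hx hy, hl, div_mul_cancel₀ _ hp0]

/-- the push moves each coordinate by at most `ρ` -/
theorem pvtw_push_move (hρ : 0 ≤ ρ) (hp0 : pvtwD x0 x1 y0 y1 p ≠ 0) :
    |(pvtwPush x0 x1 y0 y1 ρ p).re - p.re| ≤ ρ ∧ |(pvtwPush x0 x1 y0 y1 ρ p).im - p.im| ≤ ρ := by
  have hpos : 0 < pvtwD x0 x1 y0 y1 p := lt_of_le_of_ne pvtw_D_nonneg (Ne.symm hp0)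
  have hl := pvtw_lam_ge (x0 := x0) (x1 := x1) (y0 := y0) (y1 := y1) (ρ := ρ) (p := p)
  have key : (pvtwLam x0 x1 y0 y1 ρ p - 1) * pvtwD x0 x1 y0 y1 p ≤ ρ := by
    rcases le_total (pvtwD x0 x1 y0 y1 p) ρ with h | h
    · have hl' : pvtwLam x0 x1 y0 y1 ρ p = ρ / pvtwD x0 x1 y0 y1 p := max_eq_right ((one_le_div hpos).2 h)
      rw [hl', sub_mul, div_mul_cancel₀ _ hp0]; linarith
    · have hl' : pvtwLam x0 x1 y0 y1 ρ p = 1 := max_eq_left ((div_le_one hpos).2 h)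
      rw [hl']; simpa using hρ
  constructor
  · rw [pvtw_push_re]
    have e : pvtwCl x0 x1 p.re + pvtwLam x0 x1 y0 y1 ρ p * (p.re - pvtwCl x0 x1 p.re) - p.re = (pvtwLam x0 x1 y0 y1 ρ p - 1) * (p.re - pvtwCl x0 x1 p.re) := by ring
    rw [e, abs_mul, abs_of_nonneg (by linarith)]
    exact (mul_le_mul_of_nonneg_left (le_max_left _ _) (by linarith)).trans key
  · rw [pvtw_push_im]
    have e : pvtwCl y0 y1 p.im + pvtwLam x0 x1 y0 y1 ρ p * (p.im - pvtwCl y0 y1 p.im) - p.im = (pvtwLam x0 x1 y0 y1 ρ p - 1) * (p.im - pvtwCl y0 y1 p.im) := by ring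
    rw [e, abs_mul, abs_of_nonneg (by linarith)]
    exact (mul_le_mul_of_nonneg_left (le_max_right _ _) (by linarith)).trans key

theorem pvtw_push_norm (hρ : 0 ≤ ρ) (hp0 : pvtwD x0 x1 y0 y1 p ≠ 0) : ‖pvtwPush x0 x1 y0 y1 ρ p - p‖ ≤ 2 * ρ := by
  have h0 := Complex.norm_le_abs_re_add_abs_im (pvtwPush x0 x1 y0 y1 ρ p - p)
  rw [Complex.sub_re, Complex.sub_im] at h0
  obtain ⟨h1, h2⟩ := pvtw_push_move (x0 := x0) (x1 := x1) (y0 := y0) (y1 := y1) hρ hp0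
  linarith

/-- a coordinate inside the range of the rectangle is not moved -/
theorem pvtw_push_im_fix (h1 : y0 ≤ p.im) (h2 : p.im ≤ y1) : (pvtwPush x0 x1 y0 y1 ρ p).im = p.im := by
  rw [pvtw_push_im, pvtw_cl_mid h1 h2]; ring

theorem pvtw_push_re_fix (h1 : x0 ≤ p.re) (h2 : p.re ≤ x1) : (pvtwPush x0 x1 y0 y1 ρ p).re = p.re := by
  rw [pvtw_push_re, pvtw_cl_mid h1 h2]; ring

end push

/-! ### the push off a box of cells -/

/-- the sup-distance to the rectangle covered by the box of cells `tscBox a b c d` -/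
noncomputable def pvtwDB (δ : ℝ) (a b c d : ℤ) (p : ℂ) : ℝ := pvtwD ((a : ℝ) * δ) (((b : ℝ) + 1) * δ) ((c : ℝ) * δ) (((d : ℝ) + 1) * δ) p

/-- the push off the `k`-neighbourhood of the box of cells: to sup-distance `(k+1) δ` -/
noncomputable def pvtwPB (δ : ℝ) (a b c d : ℤ) (k : ℕ) (p : ℂ) : ℂ :=
  pvtwPush ((a : ℝ) * δ) (((b : ℝ) + 1) * δ) ((c : ℝ) * δ) (((d : ℝ) + 1) * δ) (((k : ℝ) + 1) * δ) p

theorem pvtw_eqns_cite7 : True := by
  have := @pvtwDB.eq_1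
  have := @pvtwPB.eq_1
  trivial

section pushcells

variable {δ : ℝ} {a b c d : ℤ} {k : ℕ} {p q : ℂ} {w z : ℤ × ℤ} {C : Set ℂ} {G : Set (ℤ × ℤ)}

/-- one coordinate of `pvtw_U_box` -/
theorem pvtw_aux_col (hδ : 0 < δ) (hab : a ≤ b) {x : ℝ} (h1 : (a : ℝ) * δ ≤ x) (h2 : x ≤ ((b : ℝ) + 1) * δ) :
    ∃ i : ℤ, a ≤ i ∧ i ≤ b ∧ (i : ℝ) * δ ≤ x ∧ x ≤ ((i : ℝ) + 1) * δ := by
  have f1 : ((⌊x / δ⌋ : ℤ) : ℝ) * δ ≤ x := (le_div_iff₀ hδ).1 (Int.floor_le _)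
  have f2 : x ≤ (((⌊x / δ⌋ : ℤ) : ℝ) + 1) * δ := (div_le_iff₀ hδ).1 (Int.lt_floor_add_one _).le
  have g1 : a ≤ ⌊x / δ⌋ := Int.le_floor.2 ((le_div_iff₀ hδ).2 h1)
  by_cases hc : ⌊x / δ⌋ ≤ b
  · exact ⟨⌊x / δ⌋, g1, hc, f1, f2⟩
  · have hb1 : b + 1 ≤ ⌊x / δ⌋ := by omega
    have hb2 : ((b : ℝ) + 1) ≤ ((⌊x / δ⌋ : ℤ) : ℝ) := by exact_mod_cast hb1
    have := mul_le_mul_of_nonneg_right hb2 hδ.le
    exact ⟨b, hab, le_refl _, by nlinarith, h2⟩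

/-- the squares of a box of cells cover a rectangle -/
theorem pvtw_U_box (hδ : 0 < δ) (hab : a ≤ b) (hcd : c ≤ d) : p ∈ pvtU δ (tscBox a b c d) ↔
    ((a : ℝ) * δ ≤ p.re ∧ p.re ≤ ((b : ℝ) + 1) * δ) ∧ ((c : ℝ) * δ ≤ p.im ∧ p.im ≤ ((d : ℝ) + 1) * δ) := by
  constructor
  · intro hp
    obtain ⟨z, hz, h1, h2, h3, h4⟩ := Set.mem_iUnion₂.1 hp
    obtain ⟨z1, z2, z3, z4⟩ := hz
    have c1 : (a : ℝ) ≤ z.1 := by exact_mod_cast z1
    have c2 : (z.1 : ℝ) ≤ b := by exact_mod_cast z2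
    have c3 : (c : ℝ) ≤ z.2 := by exact_mod_cast z3
    have c4 : (z.2 : ℝ) ≤ d := by exact_mod_cast z4
    have d1 := mul_le_mul_of_nonneg_right c1 hδ.le
    have d2 := mul_le_mul_of_nonneg_right c2 hδ.le
    have d3 := mul_le_mul_of_nonneg_right c3 hδ.le
    have d4 := mul_le_mul_of_nonneg_right c4 hδ.le
    exact ⟨⟨by linarith, by nlinarith⟩, ⟨by linarith, by nlinarith⟩⟩
  · rintro ⟨⟨h1, h2⟩, h3, h4⟩
    obtain ⟨i, i1, i2, i3, i4⟩ := pvtw_aux_col hδ hab h1 h2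
    obtain ⟨j, j1, j2, j3, j4⟩ := pvtw_aux_col hδ hcd h3 h4
    exact Set.mem_iUnion₂.2 ⟨(i, j), ⟨i1, i2, j1, j2⟩, ⟨i3, i4, j3, j4⟩⟩

theorem pvtw_N_box_eq (hab : a ≤ b) (hcd : c ≤ d) : pvtwN k (tscBox a b c d) = tscBox (a - k) (b + k) (c - k) (d + k) := by
  apply Set.Subset.antisymm (pvtw_N_box (le_refl _))
  rintro w ⟨h1, h2, h3, h4⟩
  refine ⟨(max a (min b w.1), max c (min d w.2)), ⟨?_, ?_, ?_, ?_⟩, ?_, ?_, ?_, ?_⟩ <;> simp only <;> omega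

/-- the sup-distance and the neighbourhoods of the box -/
theorem pvtw_DB_le (hδ : 0 < δ) (hab : a ≤ b) (hcd : c ≤ d) : pvtwDB δ a b c d p ≤ (k : ℝ) * δ ↔ p ∈ pvtU δ (pvtwN k (tscBox a b c d)) := by
  have hx : (a : ℝ) * δ ≤ ((b : ℝ) + 1) * δ := by
    have : (a : ℝ) ≤ b := by exact_mod_cast hab
    nlinarith
  have hy : (c : ℝ) * δ ≤ ((d : ℝ) + 1) * δ := by
    have : (c : ℝ) ≤ d := by exact_mod_cast hcd
    nlinarith
  rw [pvtwDB, pvtw_D_le hx hy (by positivity), pvtw_N_box_eq hab hcd, pvtw_U_box hδ (by omega) (by omega)]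
  push_cast
  constructor
  · rintro ⟨⟨h1, h2⟩, h3, h4⟩
    exact ⟨⟨by linarith, by linarith⟩, by linarith, by linarith⟩
  · rintro ⟨⟨h1, h2⟩, h3, h4⟩
    exact ⟨⟨by linarith, by linarith⟩, by linarith, by linarith⟩

theorem pvtw_DB_ne (hδ : 0 < δ) (hab : a ≤ b) (hcd : c ≤ d) (hp : p ∉ pvtU δ (tscBox a b c d)) : pvtwDB δ a b c d p ≠ 0 := by
  intro h
  apply hp
  have := (pvtw_DB_le (k := 0) (p := p) hδ hab hcd).1 (by rw [h]; simp)
  rwa [pvtw_N_zero] at this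

/-- the pushed point is off the `k`-neighbourhood of the box -/
theorem pvtw_PB_off (hδ : 0 < δ) (hab : a ≤ b) (hcd : c ≤ d) (hp : p ∉ pvtU δ (tscBox a b c d)) : pvtwPB δ a b c d k p ∉ pvtU δ (pvtwN k (tscBox a b c d)) := by
  have hx : (a : ℝ) * δ ≤ ((b : ℝ) + 1) * δ := by
    have : (a : ℝ) ≤ b := by exact_mod_cast hab
    nlinarith
  have hy : (c : ℝ) * δ ≤ ((d : ℝ) + 1) * δ := by
    have : (c : ℝ) ≤ d := by exact_mod_cast hcd
    nlinarith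
  intro h
  have h1 := (pvtw_DB_le hδ hab hcd).2 h
  have h2 := pvtw_push_far (ρ := ((k : ℝ) + 1) * δ) hx hy (pvtw_DB_ne hδ hab hcd hp)
  rw [pvtwDB, pvtwPB] at h1
  nlinarith

/-- a point is fixed, or lands in the `(k+1)`-neighbourhood of the box -/
theorem pvtw_PB_alt (hδ : 0 < δ) (hab : a ≤ b) (hcd : c ≤ d) (hp : p ∉ pvtU δ (tscBox a b c d)) :
    (pvtwPB δ a b c d k p = p ∧ p ∉ pvtU δ (pvtwN k (tscBox a b c d))) ∨ (p ∈ pvtU δ (pvtwN (k + 1) (tscBox a b c d)) ∧ pvtwPB δ a b c d k p ∈ pvtU δ (pvtwN (k + 1) (tscBox a b c d))) := by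
  have hx : (a : ℝ) * δ ≤ ((b : ℝ) + 1) * δ := by
    have : (a : ℝ) ≤ b := by exact_mod_cast hab
    nlinarith
  have hy : (c : ℝ) * δ ≤ ((d : ℝ) + 1) * δ := by
    have : (c : ℝ) ≤ d := by exact_mod_cast hcd
    nlinarith
  have hne := pvtw_DB_ne hδ hab hcd hp
  rcases le_total (pvtwDB δ a b c d p) (((k : ℝ) + 1) * δ) with h | h
  · right
    have e := pvtw_push_eq hx hy h hne
    constructor
    · apply (pvtw_DB_le hδ hab hcd).1
      push_cast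
      exact h
    · apply (pvtw_DB_le hδ hab hcd).1
      rw [pvtwDB, pvtwPB, e]
      push_cast
      exact le_refl _
  · left
    have e : pvtwPB δ a b c d k p = p := pvtw_push_fix h hne
    refine ⟨e, fun hh => ?_⟩
    have := (pvtw_DB_le hδ hab hcd).2 hh
    nlinarith

theorem pvtw_PB_fix (hδ : 0 < δ) (hab : a ≤ b) (hcd : c ≤ d) (hp : p ∉ pvtU δ (pvtwN (k + 1) (tscBox a b c d))) : pvtwPB δ a b c d k p = p := by
  have hp0 : p ∉ pvtU δ (tscBox a b c d) := fun h => hp (pvt_U_mono pvtw_N_sub h)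
  rcases pvtw_PB_alt (k := k) hδ hab hcd hp0 with h | h
  · exact h.1
  · exact absurd h.1 hp

theorem pvtw_PB_move (hδ : 0 < δ) (hab : a ≤ b) (hcd : c ≤ d) (hp : p ∉ pvtU δ (tscBox a b c d)) :
    |(pvtwPB δ a b c d k p).re - p.re| ≤ ((k : ℝ) + 1) * δ ∧ |(pvtwPB δ a b c d k p).im - p.im| ≤ ((k : ℝ) + 1) * δ :=
  pvtw_push_move (by positivity) (pvtw_DB_ne hδ hab hcd hp)

theorem pvtw_PB_cont (hδ : 0 < δ) (hab : a ≤ b) (hcd : c ≤ d) : ContinuousOn (pvtwPB δ a b c d k) (pvtU δ (tscBox a b c d))ᶜ :=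
  pvtw_push_cont.mono (fun _ hp => pvtw_DB_ne hδ hab hcd hp)

/-- two points whose coordinates differ by at most `m δ` lie in squares at sup-distance `≤ m + 1` -/
theorem pvtw_sq_move (hδ : 0 < δ) {m : ℕ} (hp : p ∈ pvtSq δ z) (hq : q ∈ pvtSq δ w) (h1 : |q.re - p.re| ≤ (m : ℝ) * δ) (h2 : |q.im - p.im| ≤ (m : ℝ) * δ) :
    w ∈ pvtwN (m + 1) {z} := by
  obtain ⟨a1, a2, a3, a4⟩ := hp
  obtain ⟨b1, b2, b3, b4⟩ := hq
  obtain ⟨l1, u1⟩ := abs_le.1 h1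
  obtain ⟨l2, u2⟩ := abs_le.1 h2
  have key : ∀ (i j : ℤ) (x y : ℝ), (i : ℝ) * δ ≤ x → y ≤ ((j : ℝ) + 1) * δ → x ≤ y + (m : ℝ) * δ → i ≤ j + (m + 1 : ℕ) := by
    intro i j x y hi hj hxy
    have : (i : ℝ) * δ ≤ ((j + (m + 1 : ℕ) : ℤ) : ℝ) * δ := by
      push_cast
      nlinarith
    exact_mod_cast le_of_mul_le_mul_right this hδ
  exact ⟨z, rfl, key _ _ _ _ b1 a2 (by linarith), key _ _ _ _ a1 b2 (by linarith), key _ _ _ _ b3 a4 (by linarith), key _ _ _ _ a3 b4 (by linarith)⟩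

end pushcells

/-! ### two boxes -/

/-- the double push: off the box `tscBox a b c d`, then off the box `tscBox a' b' c' d'` -/
noncomputable def pvtwPB2 (δ : ℝ) (a b c d a' b' c' d' : ℤ) (k : ℕ) (p : ℂ) : ℂ := pvtwPB δ a' b' c' d' k (pvtwPB δ a b c d k p)

theorem pvtw_eqns_cite8 : True := by
  have := @pvtwPB2.eq_1
  trivial

section two

variable {δ : ℝ} {a b c d a' b' c' d' : ℤ} {k : ℕ} {p q p0 : ℂ} {w z w0 : ℤ × ℤ} {C : Set ℂ} {G A B : Set (ℤ × ℤ)}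

/-- the squares of two sets of cells which do not touch are disjoint -/
theorem pvtw_U_disj (hδ : 0 < δ) (h : Disjoint (pvtN8 A) B) : Disjoint (pvtU δ A) (pvtU δ B) := by
  rw [Set.disjoint_left]
  intro q hA hB
  obtain ⟨w, hw, hqw⟩ := Set.mem_iUnion₂.1 hA
  obtain ⟨w', hw', hqw'⟩ := Set.mem_iUnion₂.1 hB
  refine Set.disjoint_left.1 h ?_ hw'
  rcases (pvt_sq_meet hδ).1 ⟨q, hqw, hqw'⟩ with e | e
  · exact ⟨w, hw, Or.inl e.symm⟩
  · exact ⟨w, hw, Or.inr e⟩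

/-- **the double push, pointwise** -/
theorem pvtw_PB2_spec (hδ : 0 < δ) (hab : a ≤ b) (hcd : c ≤ d) (hab' : a' ≤ b') (hcd' : c' ≤ d')
    (hsep : Disjoint (pvtwN (k + 2) (tscBox a b c d)) (pvtwN (k + 1) (tscBox a' b' c' d')))
    (h1 : p ∉ pvtU δ (tscBox a b c d)) (h2 : p ∉ pvtU δ (tscBox a' b' c' d')) :
    pvtwPB δ a b c d k p ∉ pvtU δ (tscBox a' b' c' d') ∧
    pvtwPB2 δ a b c d a' b' c' d' k p ∉ pvtU δ (pvtwN k (tscBox a b c d)) ∧ pvtwPB2 δ a b c d a' b' c' d' k p ∉ pvtU δ (pvtwN k (tscBox a' b' c' d')) ∧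
    |(pvtwPB2 δ a b c d a' b' c' d' k p).re - p.re| ≤ ((k : ℝ) + 1) * δ ∧ |(pvtwPB2 δ a b c d a' b' c' d' k p).im - p.im| ≤ ((k : ℝ) + 1) * δ ∧
    (p ∈ pvtU δ (pvtwN (k + 1) (tscBox a b c d)) → pvtwPB2 δ a b c d a' b' c' d' k p = pvtwPB δ a b c d k p) ∧
    (p ∉ pvtU δ (pvtwN (k + 1) (tscBox a b c d)) → pvtwPB2 δ a b c d a' b' c' d' k p = pvtwPB δ a' b' c' d' k p) := by
  have hdis : Disjoint (pvtU δ (pvtwN (k + 1) (tscBox a b c d))) (pvtU δ (pvtwN (k + 1) (tscBox a' b' c' d'))) := by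
    apply pvtw_U_disj hδ
    rw [← pvtw_N_succ]
    exact hsep
  have mono1 : pvtU δ (pvtwN k (tscBox a b c d)) ⊆ pvtU δ (pvtwN (k + 1) (tscBox a b c d)) := pvt_U_mono (pvtw_N_mono (by omega) (le_refl _))
  have mono2 : pvtU δ (pvtwN k (tscBox a' b' c' d')) ⊆ pvtU δ (pvtwN (k + 1) (tscBox a' b' c' d')) := pvt_U_mono (pvtw_N_mono (by omega) (le_refl _))
  have mono0 : pvtU δ (tscBox a' b' c' d') ⊆ pvtU δ (pvtwN (k + 1) (tscBox a' b' c' d')) := pvt_U_mono pvtw_N_sub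
  rcases pvtw_PB_alt (k := k) hδ hab hcd h1 with ⟨e, hoff⟩ | ⟨hin, hin'⟩
  · have e2 : pvtwPB2 δ a b c d a' b' c' d' k p = pvtwPB δ a' b' c' d' k p := by rw [pvtwPB2, e]
    refine ⟨by rw [e]; exact h2, ?_, ?_, ?_, ?_, ?_, fun _ => e2⟩
    · rw [e2]
      rcases pvtw_PB_alt (k := k) hδ hab' hcd' h2 with ⟨e', _⟩ | ⟨_, hin'⟩
      · rw [e']; exact hoff
      · exact fun hh => Set.disjoint_left.1 hdis (mono1 hh) hin'
    · rw [e2]; exact pvtw_PB_off hδ hab' hcd' h2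
    · rw [e2]; exact (pvtw_PB_move hδ hab' hcd' h2).1
    · rw [e2]; exact (pvtw_PB_move hδ hab' hcd' h2).2
    · intro hin
      have hp2 : p ∉ pvtU δ (pvtwN (k + 1) (tscBox a' b' c' d')) := fun hh => Set.disjoint_left.1 hdis hin hh
      rw [e2, e, pvtw_PB_fix hδ hab' hcd' hp2]
  · have hp2 : pvtwPB δ a b c d k p ∉ pvtU δ (pvtwN (k + 1) (tscBox a' b' c' d')) := fun hh => Set.disjoint_left.1 hdis hin' hh
    have e2 : pvtwPB2 δ a b c d a' b' c' d' k p = pvtwPB δ a b c d k p := by rw [pvtwPB2, pvtw_PB_fix hδ hab' hcd' hp2]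
    refine ⟨fun hh => hp2 (mono0 hh), ?_, ?_, ?_, ?_, fun _ => e2, fun hh => absurd hin hh⟩
    · rw [e2]; exact pvtw_PB_off hδ hab hcd h1
    · rw [e2]; exact fun hh => hp2 (mono2 hh)
    · rw [e2]; exact (pvtw_PB_move hδ hab hcd h1).1
    · rw [e2]; exact (pvtw_PB_move hδ hab hcd h1).2

/-- **the pushed curve**: connected, bounded, off the `k`-neighbourhood of `G ∪ B₁ ∪ B₂` -/
theorem pvtw_PB2_image (hδ : 0 < δ) (hab : a ≤ b) (hcd : c ≤ d) (hab' : a' ≤ b') (hcd' : c' ≤ d')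
    (hsep : Disjoint (pvtwN (k + 2) (tscBox a b c d)) (pvtwN (k + 1) (tscBox a' b' c' d')))
    (hC : IsPreconnected C) (hb : Bornology.IsBounded C) (h1 : Disjoint C (pvtU δ (tscBox a b c d))) (h2 : Disjoint C (pvtU δ (tscBox a' b' c' d')))
    (hG : pvtCells δ C ⊆ (pvtwN (2 * k + 2) G)ᶜ) :
    IsPreconnected (pvtwPB2 δ a b c d a' b' c' d' k '' C) ∧ Bornology.IsBounded (pvtwPB2 δ a b c d a' b' c' d' k '' C) ∧
      Disjoint (pvtwPB2 δ a b c d a' b' c' d' k '' C) (pvtU δ (pvtwN k (G ∪ tscBox a b c d ∪ tscBox a' b' c' d'))) := by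
  have spec := fun p (hp : p ∈ C) => pvtw_PB2_spec (k := k) hδ hab hcd hab' hcd' hsep (Set.disjoint_left.1 h1 hp) (Set.disjoint_left.1 h2 hp)
  refine ⟨?_, ?_, ?_⟩
  · apply hC.image
    exact ((pvtw_PB_cont hδ hab' hcd').comp ((pvtw_PB_cont hδ hab hcd).mono (fun p hp => Set.disjoint_left.1 h1 hp)) (fun p hp => (spec p hp).1))
  · obtain ⟨R, hR⟩ := (Metric.isBounded_iff_subset_closedBall 0).1 hb
    refine (Metric.isBounded_iff_subset_closedBall 0).2 ⟨R + 2 * (((k : ℝ) + 1) * δ), ?_⟩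
    rintro _ ⟨p, hp, rfl⟩
    rw [mem_closedBall_zero_iff]
    have hn : ‖p‖ ≤ R := mem_closedBall_zero_iff.1 (hR hp)
    obtain ⟨-, -, -, m1, m2, -, -⟩ := spec p hp
    have h0 := Complex.norm_le_abs_re_add_abs_im (pvtwPB2 δ a b c d a' b' c' d' k p - p)
    rw [Complex.sub_re, Complex.sub_im] at h0
    have h3 : ‖pvtwPB2 δ a b c d a' b' c' d' k p‖ ≤ ‖pvtwPB2 δ a b c d a' b' c' d' k p - p‖ + ‖p‖ := by
      have := norm_add_le (pvtwPB2 δ a b c d a' b' c' d' k p - p) p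
      rwa [sub_add_cancel] at this
    linarith
  · rw [Set.disjoint_left]
    rintro _ ⟨p, hp, rfl⟩ hU
    obtain ⟨-, o1, o2, m1, m2, -, -⟩ := spec p hp
    rw [pvtw_N_union, pvtw_N_union, pvt_U_union, pvt_U_union] at hU
    rcases hU with (hU | hU) | hU
    · obtain ⟨w, hw, hqw⟩ := Set.mem_iUnion₂.1 hU
      obtain ⟨z, hz⟩ := pvt_sq_cover hδ p
      have hmv : w ∈ pvtwN (k + 1 + 1) {z} := pvtw_sq_move hδ hz hqw (by push_cast; exact m1) (by push_cast; exact m2)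
      apply hG (show z ∈ pvtCells δ C from ⟨p, hz, hp⟩)
      have e : 2 * k + 2 = (k + 1 + 1) + k := by omega
      rw [e, ← pvtw_N_add]
      exact pvtw_N_iff.2 ⟨w, hw, pvtw_N_symm hmv⟩
    · exact o1 hU
    · exact o2 hU

/-- **PORTS ARE OUTSIDE** (convex plugs).   `C` = a piece of the continuation: connected, bounded, off the two boxes (it may hug them), its cells at sup-distance `> 2k+2` from `G` (the cells of the arc off the boxes),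
and it contains a point `p0` off the `(k+1)`-neighbourhoods of the boxes, in a square `w0` of the outside.   Then every square which contains a point of the pushed curve is in the outside of the `k`-neighbourhood. -/
theorem pvtw_port_out (hδ : 0 < δ) (hab : a ≤ b) (hcd : c ≤ d) (hab' : a' ≤ b') (hcd' : c' ≤ d')
    (hsep : Disjoint (pvtwN (k + 2) (tscBox a b c d)) (pvtwN (k + 1) (tscBox a' b' c' d')))
    (hC : IsPreconnected C) (hb : Bornology.IsBounded C) (h1 : Disjoint C (pvtU δ (tscBox a b c d))) (h2 : Disjoint C (pvtU δ (tscBox a' b' c' d')))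
    (hG : pvtCells δ C ⊆ (pvtwN (2 * k + 2) G)ᶜ)
    (hp0 : p0 ∈ C) (hp1 : p0 ∉ pvtU δ (pvtwN (k + 1) (tscBox a b c d))) (hp2 : p0 ∉ pvtU δ (pvtwN (k + 1) (tscBox a' b' c' d')))
    (hw0 : p0 ∈ pvtSq δ w0) (hout : w0 ∈ pvtOut (pvtwN k (G ∪ tscBox a b c d ∪ tscBox a' b' c' d')))
    (hp : p ∈ C) (hz : pvtwPB2 δ a b c d a' b' c' d' k p ∈ pvtSq δ z) : z ∈ pvtOut (pvtwN k (G ∪ tscBox a b c d ∪ tscBox a' b' c' d')) := by
  obtain ⟨i1, i2, i3⟩ := pvtw_PB2_image (k := k) (G := G) hδ hab hcd hab' hcd' hsep hC hb h1 h2 hG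
  have e0 : pvtwPB2 δ a b c d a' b' c' d' k p0 = p0 := by
    rw [pvtwPB2, pvtw_PB_fix hδ hab hcd hp1, pvtw_PB_fix hδ hab' hcd' hp2]
  exact pvtw_escape hδ i1 i2 i3 hout ⟨p0, hw0, ⟨p0, hp0, e0⟩⟩ ⟨_, hz, ⟨p, hp, rfl⟩⟩

end two

/-! ### doors: where the push sends the points next to a side -/

section sides

variable {x0 x1 y0 y1 ρ : ℝ} {p : ℂ}

theorem pvtw_push_right (hx : x0 ≤ x1) (h1 : x1 < p.re) (h2 : p.re ≤ x1 + ρ) (h3 : y0 ≤ p.im) (h4 : p.im ≤ y1) :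
    (pvtwPush x0 x1 y0 y1 ρ p).re = x1 + ρ ∧ (pvtwPush x0 x1 y0 y1 ρ p).im = p.im := by
  refine ⟨?_, pvtw_push_im_fix h3 h4⟩
  have e1 : pvtwCl x0 x1 p.re = x1 := pvtw_cl_gt hx h1.le
  have eD : pvtwD x0 x1 y0 y1 p = p.re - x1 := by
    rw [pvtwD, e1, pvtw_cl_mid h3 h4, sub_self, abs_zero, abs_of_pos (by linarith), max_eq_left (by linarith)]
  have hl : pvtwLam x0 x1 y0 y1 ρ p = ρ / (p.re - x1) := by
    rw [pvtwLam, eD]; exact max_eq_right ((one_le_div (by linarith)).2 (by linarith))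
  rw [pvtw_push_re, hl, e1, div_mul_cancel₀ _ (by linarith : p.re - x1 ≠ 0)]

theorem pvtw_push_left (hx : x0 ≤ x1) (h1 : p.re < x0) (h2 : x0 - ρ ≤ p.re) (h3 : y0 ≤ p.im) (h4 : p.im ≤ y1) :
    (pvtwPush x0 x1 y0 y1 ρ p).re = x0 - ρ ∧ (pvtwPush x0 x1 y0 y1 ρ p).im = p.im := by
  refine ⟨?_, pvtw_push_im_fix h3 h4⟩
  have e1 : pvtwCl x0 x1 p.re = x0 := pvtw_cl_lt hx h1.le
  have eD : pvtwD x0 x1 y0 y1 p = x0 - p.re := by
    rw [pvtwD, e1, pvtw_cl_mid h3 h4, sub_self, abs_zero, abs_of_neg (by linarith), max_eq_left (by linarith)]; ring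
  have hl : pvtwLam x0 x1 y0 y1 ρ p = ρ / (x0 - p.re) := by
    rw [pvtwLam, eD]; exact max_eq_right ((one_le_div (by linarith)).2 (by linarith))
  have e2 : p.re - x0 = -(x0 - p.re) := by ring
  rw [pvtw_push_re, hl, e1, e2, mul_neg, div_mul_cancel₀ _ (by linarith : x0 - p.re ≠ 0)]; ring

theorem pvtw_push_top (hy : y0 ≤ y1) (h1 : y1 < p.im) (h2 : p.im ≤ y1 + ρ) (h3 : x0 ≤ p.re) (h4 : p.re ≤ x1) :
    (pvtwPush x0 x1 y0 y1 ρ p).re = p.re ∧ (pvtwPush x0 x1 y0 y1 ρ p).im = y1 + ρ := by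
  refine ⟨pvtw_push_re_fix h3 h4, ?_⟩
  have e1 : pvtwCl y0 y1 p.im = y1 := pvtw_cl_gt hy h1.le
  have eD : pvtwD x0 x1 y0 y1 p = p.im - y1 := by
    rw [pvtwD, e1, pvtw_cl_mid h3 h4, sub_self, abs_zero, abs_of_pos (by linarith), max_eq_right (by linarith)]
  have hl : pvtwLam x0 x1 y0 y1 ρ p = ρ / (p.im - y1) := by
    rw [pvtwLam, eD]; exact max_eq_right ((one_le_div (by linarith)).2 (by linarith))
  rw [pvtw_push_im, hl, e1, div_mul_cancel₀ _ (by linarith : p.im - y1 ≠ 0)]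

theorem pvtw_push_bot (hy : y0 ≤ y1) (h1 : p.im < y0) (h2 : y0 - ρ ≤ p.im) (h3 : x0 ≤ p.re) (h4 : p.re ≤ x1) :
    (pvtwPush x0 x1 y0 y1 ρ p).re = p.re ∧ (pvtwPush x0 x1 y0 y1 ρ p).im = y0 - ρ := by
  refine ⟨pvtw_push_re_fix h3 h4, ?_⟩
  have e1 : pvtwCl y0 y1 p.im = y0 := pvtw_cl_lt hy h1.le
  have eD : pvtwD x0 x1 y0 y1 p = y0 - p.im := by
    rw [pvtwD, e1, pvtw_cl_mid h3 h4, sub_self, abs_zero, abs_of_neg (by linarith), max_eq_right (by linarith)]; ring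
  have hl : pvtwLam x0 x1 y0 y1 ρ p = ρ / (y0 - p.im) := by
    rw [pvtwLam, eD]; exact max_eq_right ((one_le_div (by linarith)).2 (by linarith))
  have e2 : p.im - y0 = -(y0 - p.im) := by ring
  rw [pvtw_push_im, hl, e1, e2, mul_neg, div_mul_cancel₀ _ (by linarith : y0 - p.im ≠ 0)]; ring

end sides

section doors

variable {δ : ℝ} {a b c d : ℤ} {k : ℕ} {p : ℂ} {i j : ℤ} {S : Set (ℤ × ℤ)}

/-- a point off the box, in a square `(i,j)` of a row of the box, to the right of the box and inside its `(k+1)`-neighbourhood, is pushed into the square `(b+k+1, j)` -/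
theorem pvtw_PB_right (hδ : 0 < δ) (hab : a ≤ b) (hcd : c ≤ d) (hp : p ∉ pvtU δ (tscBox a b c d)) (hij : p ∈ pvtSq δ (i, j)) (hj : c ≤ j) (hj' : j ≤ d)
    (hi : b ≤ i) (hi' : i ≤ b + k + 1) : pvtwPB δ a b c d k p ∈ pvtSq δ (b + k + 1, j) := by
  obtain ⟨s1, s2, s3, s4⟩ := hij
  simp only at s1 s2 s3 s4
  have cj : (c : ℝ) ≤ j := by exact_mod_cast hj
  have cj' : (j : ℝ) ≤ d := by exact_mod_cast hj'
  have ci : (b : ℝ) ≤ i := by exact_mod_cast hi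
  have ci' : (i : ℝ) ≤ b + k + 1 := by exact_mod_cast hi'
  have cab : (a : ℝ) ≤ b := by exact_mod_cast hab
  have m1 := mul_le_mul_of_nonneg_right cj hδ.le
  have m2 := mul_le_mul_of_nonneg_right cj' hδ.le
  have m3 := mul_le_mul_of_nonneg_right ci hδ.le
  have m4 := mul_le_mul_of_nonneg_right ci' hδ.le
  have m5 := mul_le_mul_of_nonneg_right cab hδ.le
  have h3 : (c : ℝ) * δ ≤ p.im := by linarith
  have h4 : p.im ≤ ((d : ℝ) + 1) * δ := by nlinarith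
  have h1 : ((b : ℝ) + 1) * δ < p.re := by
    by_contra hc
    exact hp ((pvtw_U_box hδ hab hcd).2 ⟨⟨by nlinarith, not_lt.1 hc⟩, h3, h4⟩)
  have h2 : p.re ≤ ((b : ℝ) + 1) * δ + ((k : ℝ) + 1) * δ := by nlinarith
  obtain ⟨e1, e2⟩ := pvtw_push_right (x0 := (a : ℝ) * δ) (y0 := (c : ℝ) * δ) (y1 := ((d : ℝ) + 1) * δ) (by nlinarith) h1 h2 h3 h4
  refine ⟨?_, ?_, ?_, ?_⟩
  · show ((b + k + 1 : ℤ) : ℝ) * δ ≤ (pvtwPB δ a b c d k p).re
    rw [pvtwPB, e1]; push_cast; nlinarith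
  · show (pvtwPB δ a b c d k p).re ≤ (((b + k + 1 : ℤ) : ℝ) + 1) * δ
    rw [pvtwPB, e1]; push_cast; nlinarith
  · show (j : ℝ) * δ ≤ (pvtwPB δ a b c d k p).im
    rw [pvtwPB, e2]; exact s3
  · show (pvtwPB δ a b c d k p).im ≤ ((j : ℝ) + 1) * δ
    rw [pvtwPB, e2]; exact s4

theorem pvtw_PB_left (hδ : 0 < δ) (hab : a ≤ b) (hcd : c ≤ d) (hp : p ∉ pvtU δ (tscBox a b c d)) (hij : p ∈ pvtSq δ (i, j)) (hj : c ≤ j) (hj' : j ≤ d)
    (hi : i ≤ a) (hi' : a - k - 1 ≤ i) : pvtwPB δ a b c d k p ∈ pvtSq δ (a - k - 1, j) := by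
  obtain ⟨s1, s2, s3, s4⟩ := hij
  simp only at s1 s2 s3 s4
  have cj : (c : ℝ) ≤ j := by exact_mod_cast hj
  have cj' : (j : ℝ) ≤ d := by exact_mod_cast hj'
  have ci : (i : ℝ) ≤ a := by exact_mod_cast hi
  have ci' : (a : ℝ) - k - 1 ≤ i := by exact_mod_cast hi'
  have cab : (a : ℝ) ≤ b := by exact_mod_cast hab
  have m1 := mul_le_mul_of_nonneg_right cj hδ.le
  have m2 := mul_le_mul_of_nonneg_right cj' hδ.le
  have m3 := mul_le_mul_of_nonneg_right ci hδ.le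
  have m4 := mul_le_mul_of_nonneg_right ci' hδ.le
  have m5 := mul_le_mul_of_nonneg_right cab hδ.le
  have h3 : (c : ℝ) * δ ≤ p.im := by linarith
  have h4 : p.im ≤ ((d : ℝ) + 1) * δ := by nlinarith
  have h1 : p.re < (a : ℝ) * δ := by
    by_contra hc
    exact hp ((pvtw_U_box hδ hab hcd).2 ⟨⟨not_lt.1 hc, by nlinarith⟩, h3, h4⟩)
  have h2 : (a : ℝ) * δ - ((k : ℝ) + 1) * δ ≤ p.re := by nlinarith
  obtain ⟨e1, e2⟩ := pvtw_push_left (x1 := ((b : ℝ) + 1) * δ) (y0 := (c : ℝ) * δ) (y1 := ((d : ℝ) + 1) * δ) (by nlinarith) h1 h2 h3 h4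
  refine ⟨?_, ?_, ?_, ?_⟩
  · show ((a - k - 1 : ℤ) : ℝ) * δ ≤ (pvtwPB δ a b c d k p).re
    rw [pvtwPB, e1]; push_cast; nlinarith
  · show (pvtwPB δ a b c d k p).re ≤ (((a - k - 1 : ℤ) : ℝ) + 1) * δ
    rw [pvtwPB, e1]; push_cast; nlinarith
  · show (j : ℝ) * δ ≤ (pvtwPB δ a b c d k p).im
    rw [pvtwPB, e2]; exact s3
  · show (pvtwPB δ a b c d k p).im ≤ ((j : ℝ) + 1) * δ
    rw [pvtwPB, e2]; exact s4

theorem pvtw_PB_top (hδ : 0 < δ) (hab : a ≤ b) (hcd : c ≤ d) (hp : p ∉ pvtU δ (tscBox a b c d)) (hij : p ∈ pvtSq δ (i, j)) (hi : a ≤ i) (hi' : i ≤ b)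
    (hj : d ≤ j) (hj' : j ≤ d + k + 1) : pvtwPB δ a b c d k p ∈ pvtSq δ (i, d + k + 1) := by
  obtain ⟨s1, s2, s3, s4⟩ := hij
  simp only at s1 s2 s3 s4
  have ci : (a : ℝ) ≤ i := by exact_mod_cast hi
  have ci' : (i : ℝ) ≤ b := by exact_mod_cast hi'
  have cj : (d : ℝ) ≤ j := by exact_mod_cast hj
  have cj' : (j : ℝ) ≤ d + k + 1 := by exact_mod_cast hj'
  have ccd : (c : ℝ) ≤ d := by exact_mod_cast hcd
  have m1 := mul_le_mul_of_nonneg_right ci hδ.le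
  have m2 := mul_le_mul_of_nonneg_right ci' hδ.le
  have m3 := mul_le_mul_of_nonneg_right cj hδ.le
  have m4 := mul_le_mul_of_nonneg_right cj' hδ.le
  have m5 := mul_le_mul_of_nonneg_right ccd hδ.le
  have h3 : (a : ℝ) * δ ≤ p.re := by linarith
  have h4 : p.re ≤ ((b : ℝ) + 1) * δ := by nlinarith
  have h1 : ((d : ℝ) + 1) * δ < p.im := by
    by_contra hc
    exact hp ((pvtw_U_box hδ hab hcd).2 ⟨⟨h3, h4⟩, by nlinarith, not_lt.1 hc⟩)
  have h2 : p.im ≤ ((d : ℝ) + 1) * δ + ((k : ℝ) + 1) * δ := by nlinarith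
  obtain ⟨e1, e2⟩ := pvtw_push_top (x0 := (a : ℝ) * δ) (x1 := ((b : ℝ) + 1) * δ) (y0 := (c : ℝ) * δ) (by nlinarith) h1 h2 h3 h4
  refine ⟨?_, ?_, ?_, ?_⟩
  · show (i : ℝ) * δ ≤ (pvtwPB δ a b c d k p).re
    rw [pvtwPB, e1]; exact s1
  · show (pvtwPB δ a b c d k p).re ≤ ((i : ℝ) + 1) * δ
    rw [pvtwPB, e1]; exact s2
  · show ((d + k + 1 : ℤ) : ℝ) * δ ≤ (pvtwPB δ a b c d k p).im
    rw [pvtwPB, e2]; push_cast; nlinarith
  · show (pvtwPB δ a b c d k p).im ≤ (((d + k + 1 : ℤ) : ℝ) + 1) * δ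
    rw [pvtwPB, e2]; push_cast; nlinarith

theorem pvtw_PB_bot (hδ : 0 < δ) (hab : a ≤ b) (hcd : c ≤ d) (hp : p ∉ pvtU δ (tscBox a b c d)) (hij : p ∈ pvtSq δ (i, j)) (hi : a ≤ i) (hi' : i ≤ b)
    (hj : j ≤ c) (hj' : c - k - 1 ≤ j) : pvtwPB δ a b c d k p ∈ pvtSq δ (i, c - k - 1) := by
  obtain ⟨s1, s2, s3, s4⟩ := hij
  simp only at s1 s2 s3 s4
  have ci : (a : ℝ) ≤ i := by exact_mod_cast hi
  have ci' : (i : ℝ) ≤ b := by exact_mod_cast hi'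
  have cj : (j : ℝ) ≤ c := by exact_mod_cast hj
  have cj' : (c : ℝ) - k - 1 ≤ j := by exact_mod_cast hj'
  have ccd : (c : ℝ) ≤ d := by exact_mod_cast hcd
  have m1 := mul_le_mul_of_nonneg_right ci hδ.le
  have m2 := mul_le_mul_of_nonneg_right ci' hδ.le
  have m3 := mul_le_mul_of_nonneg_right cj hδ.le
  have m4 := mul_le_mul_of_nonneg_right cj' hδ.le
  have m5 := mul_le_mul_of_nonneg_right ccd hδ.le
  have h3 : (a : ℝ) * δ ≤ p.re := by linarith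
  have h4 : p.re ≤ ((b : ℝ) + 1) * δ := by nlinarith
  have h1 : p.im < (c : ℝ) * δ := by
    by_contra hc
    exact hp ((pvtw_U_box hδ hab hcd).2 ⟨⟨h3, h4⟩, not_lt.1 hc, by nlinarith⟩)
  have h2 : (c : ℝ) * δ - ((k : ℝ) + 1) * δ ≤ p.im := by nlinarith
  obtain ⟨e1, e2⟩ := pvtw_push_bot (x0 := (a : ℝ) * δ) (x1 := ((b : ℝ) + 1) * δ) (y1 := ((d : ℝ) + 1) * δ) (by nlinarith) h1 h2 h3 h4
  refine ⟨?_, ?_, ?_, ?_⟩
  · show (i : ℝ) * δ ≤ (pvtwPB δ a b c d k p).re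
    rw [pvtwPB, e1]; exact s1
  · show (pvtwPB δ a b c d k p).re ≤ ((i : ℝ) + 1) * δ
    rw [pvtwPB, e1]; exact s2
  · show ((c - k - 1 : ℤ) : ℝ) * δ ≤ (pvtwPB δ a b c d k p).im
    rw [pvtwPB, e2]; push_cast; nlinarith
  · show (pvtwPB δ a b c d k p).im ≤ (((c - k - 1 : ℤ) : ℝ) + 1) * δ
    rw [pvtwPB, e2]; push_cast; nlinarith

/-- a straight horizontal channel off `S` one end of which is in the outside -/
theorem pvtw_channel_h {x x' y : ℤ} (h : ∀ u, min x x' ≤ u → u ≤ max x x' → (u, y) ∉ S) (hx : (x, y) ∈ pvtOut S) : (x', y) ∈ pvtOut S :=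
  pvt_out_R hx (tsc_R_hseg (s := Sᶜ) h)

/-- a straight vertical channel off `S` one end of which is in the outside -/
theorem pvtw_channel_v {x y y' : ℤ} (h : ∀ u, min y y' ≤ u → u ≤ max y y' → (x, u) ∉ S) (hy : (x, y) ∈ pvtOut S) : (x, y') ∈ pvtOut S :=
  pvt_out_R hy (tsc_R_vseg (s := Sᶜ) h)

end doors

end Claimed.Agent.R289
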