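-- KEEP
import Claimed.Agent.R289.Tr.Menu
import Claimed.Agent.R289.Tr.Push
import Claimed.Agent.R289.Tr.Band
import Claimed.Agent.R289.Tr.PinLoc

/-!
# Row 289 (S0537, Cardy for Poisson-Voronoi), unit TR, ROAD P, file Tr/MenuGeo : THE PLACED REGIONS OF A TYPE      (owner helper222, co-architect of helper205; prefix `pvmg_`, defs `pvmg*`, `Pvmg*`)

`Tr/Menu.lean` (205) lives on cells `ℤ × ℤ` CENTRED at the grid centre of the pin.   Here: the regions of `ℂ`.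
      `pvmgPl z δ E = z + pvtU δ E`       (`z` = centre of the pin, `δ = dl · h` = absolute size of a cell, `E` = ANY set of cells: `pvmnO pvmnH pvmnHp pvmnNp pvmnNm pvmnK3`, doors, stubs, bars, lanes, corridors)
Consumers: 185 (`Tr/StateP`), 272 147 68 (`Tr/ForceP`), 238 (locality of the flags), 15 225 (lanes).

* §1 calculus: `pvmg_mem`, `mono`, `union`, `inter_sub`, `empty`, `compl`;   `pvmg_measurable` (ANY `E`), `pvmg_closed`, `pvmg_compact`, `pvmg_bounded` (finite `E`);   `pvmg_preconnected`, `pvmg_joined`;   `pvmg_sq` (one cell)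
* §2 metric: `pvmg_box` (`E ⊆ pvmnBox n` ⟹ sup-norm box), `pvmg_box_ball` (`closedBall z (√2 (n+1) δ)`), `pvmg_box_ball'` (`2 (n+1) δ`);   `pvmg_disj` (cell-disjoint + non adjacent ⟹ disjoint), **`pvmg_far`** (`Disjoint (pvtwN k A) B` ⟹ distance `≥ k δ`),
              `pvmg_far_compl`;   **`pvmg_near`** (`k δ`-neighbourhood `⊆` `k`-collar), `pvmg_cthick`, **`pvmg_collar`** (`k`-collar `⊆` `2 k δ`-neighbourhood), `pvmg_ball_sub` (a ball inside the placed grid ball), `pvmg_Bl_sub` (the placed grid ball inside a ball)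
* §3 cells of a set: `pvmg_cells_cover`, `pvmg_cells_near`, `pvmg_cells_off`: the bridge to `PvmnFits` (`v i = P.v i - z`)
* §4 COVARIANCE: translations `pvmg_tr`, GRID translations `pvmg_shift`, dilations `pvmg_scale`, rotation by `i`: `pvmgRot c = (-c.2 - 1, c.1)`, `pvmg_rot`; `pvmgRot` commutes with `pvtwN`, boxes, grid balls.
              WARNING: `pvtHull` (TRI hull: the anti-diagonal corner is open) is NOT covariant under the rotation by `i`; `pvtbHull` ((8,4) hull of `Tr/Band`) is: `pvmg_rot_hull4`.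
* §5 WINDOWS (= the conditions of `PvspTy.Wf` of 185): **`pvmg_win_closed`** (EVERY closed set is a `PvplWin`), `pvmg_win` (finite placed region), `pvmg_win_compact`, `pvmg_win_union`;   **`pvmg_core`** (`pvmgPl z δ E ⊆ pvtrCore r (pvmgPl z δ (pvtwN k E))` if `r ≤ k δ`), `pvmg_core_of`, `pvmg_core_sub`,
              `pvmg_ball_core`, `pvmg_core_union_left / _right`, `pvmg_core_tr`;   **`pvmg_inter`** (`Pl A ∩ Pl B ⊆ Pl (N¹ A ∩ B)`), `pvmg_sub_ball`
-/

set_option autoImplicit false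
set_option linter.unusedSectionVars false
set_option linter.unusedVariables false

namespace Claimed.Agent.R289

open Relation Claims.C0467 Claimed.Agent.R291

/-- **the placed region**: the union of the squares of `E`, of side `δ`, in coordinates centred at `z` -/
def pvmgPl (z : ℂ) (δ : ℝ) (E : Set (ℤ × ℤ)) : Set ℂ := (fun p => p + z) '' pvtU δ E

/-- the rotation by `i` on the cells: `i · pvtSq δ c = pvtSq δ (pvmgRot c)` -/
def pvmgRot (c : ℤ × ℤ) : ℤ × ℤ := (-c.2 - 1, c.1)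

/-- the corner of the cell `c` -/
noncomputable def pvmgPt (δ : ℝ) (c : ℤ × ℤ) : ℂ := ⟨(c.1 : ℝ) * δ, (c.2 : ℝ) * δ⟩

theorem pvmgpl_eqns_cite : True := by
  have := @pvmgPl.eq_1
  have := @pvmgRot.eq_1
  have := @pvmgPt.eq_1
  trivial

section calculus

variable {z a p q : ℂ} {δ s : ℝ} {E E' A B : Set (ℤ × ℤ)} {c : ℤ × ℤ} {k n : ℕ}

/-! ## §1 calculus -/

theorem pvmg_mem : p ∈ pvmgPl z δ E ↔ p - z ∈ pvtU δ E := by
  constructor
  · rintro ⟨x, hx, rfl⟩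
    simpa using hx
  · intro h
    exact ⟨p - z, h, by simp⟩

theorem pvmg_mem_sq : p ∈ pvmgPl z δ E ↔ ∃ c ∈ E, p - z ∈ pvtSq δ c := by
  rw [pvmg_mem, pvtU, Set.mem_iUnion₂]
  simp only [exists_prop]

theorem pvmg_mono (h : E ⊆ E') : pvmgPl z δ E ⊆ pvmgPl z δ E' := Set.image_mono (pvt_U_mono h)

theorem pvmg_union : pvmgPl z δ (E ∪ E') = pvmgPl z δ E ∪ pvmgPl z δ E' := by
  rw [pvmgPl, pvt_U_union, Set.image_union]
  rfl

theorem pvmg_empty : pvmgPl z δ ∅ = ∅ := by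
  simp [pvmgPl, pvtU]

theorem pvmg_inter_sub : pvmgPl z δ (E ∩ E') ⊆ pvmgPl z δ E ∩ pvmgPl z δ E' :=
  Set.subset_inter (pvmg_mono Set.inter_subset_left) (pvmg_mono Set.inter_subset_right)

theorem pvmg_compl (hδ : 0 < δ) : (pvmgPl z δ E)ᶜ ⊆ pvmgPl z δ Eᶜ := by
  intro p hp
  rw [pvmg_mem]
  exact pvt_U_compl hδ fun h => hp (pvmg_mem.2 h)

theorem pvmg_univ (hδ : 0 < δ) : pvmgPl z δ Set.univ = Set.univ := by
  ext p
  simp only [Set.mem_univ, iff_true]
  obtain ⟨c, hc⟩ := pvt_sq_cover hδ (p - z)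
  exact pvmg_mem_sq.2 ⟨c, Set.mem_univ _, hc⟩

/-- the placed region as a preimage -/
theorem pvmg_eq_preimage : pvmgPl z δ E = (fun p => p - z) ⁻¹' pvtU δ E := by
  ext p
  exact pvmg_mem

theorem pvmg_U_measurable : MeasurableSet (pvtU δ E) :=
  MeasurableSet.biUnion (Set.to_countable E) fun _ _ => pvt_sq_closed.measurableSet

/-- measurable for ANY set of cells -/
theorem pvmg_measurable : MeasurableSet (pvmgPl z δ E) := by
  rw [pvmg_eq_preimage]
  exact (measurable_id.sub_const z) pvmg_U_measurable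

theorem pvmg_compact (hE : E.Finite) : IsCompact (pvmgPl z δ E) :=
  (pvt_U_compact hE).image (continuous_id.add continuous_const)

theorem pvmg_closed (hE : E.Finite) : IsClosed (pvmgPl z δ E) := (pvmg_compact hE).isClosed

theorem pvmg_bounded (hE : E.Finite) : Bornology.IsBounded (pvmgPl z δ E) := (pvmg_compact hE).isBounded

theorem pvmg_preconnected8 (hδ : 0 < δ) (hE : TscConn pvtG8 E) : IsPreconnected (pvmgPl z δ E) :=
  (pvt_U_conn hδ hE).image _ (continuous_id.add continuous_const).continuousOn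

theorem pvmg_preconnected (hδ : 0 < δ) (hE : TscConn tscG E) : IsPreconnected (pvmgPl z δ E) :=
  pvmg_preconnected8 hδ (pvt_conn_tri8 hE)

theorem pvmg_joined (hδ : 0 < δ) (hE : TscConn pvtG8 E) (hp : p ∈ pvmgPl z δ E) (hq : q ∈ pvmgPl z δ E) : JoinedIn (pvmgPl z δ E) p q := by
  have h := pvt_U_joined hδ hE (pvmg_mem.1 hp) (pvmg_mem.1 hq)
  have h2 : JoinedIn (pvmgPl z δ E) (p - z + z) (q - z + z) := h.map_continuousOn (f := fun x : ℂ => x + z) (continuous_id.add continuous_const).continuousOn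
  simpa using h2

theorem pvmg_nonempty (hδ : 0 ≤ δ) (hE : E.Nonempty) : (pvmgPl z δ E).Nonempty := by
  obtain ⟨c, hc⟩ := hE
  exact ⟨pvtCtr δ c + z, pvmg_mem_sq.2 ⟨c, hc, by simpa using pvt_sq_ctr hδ⟩⟩

/-- the centre of a cell of `E`, placed -/
theorem pvmg_ctr (hδ : 0 ≤ δ) (hc : c ∈ E) : pvtCtr δ c + z ∈ pvmgPl z δ E :=
  pvmg_mem_sq.2 ⟨c, hc, by simpa using pvt_sq_ctr hδ⟩

end calculus


/-! ## §2 metric -/

section metric

variable {z a p q : ℂ} {δ s ρ : ℝ} {E E' A B : Set (ℤ × ℤ)} {c : ℤ × ℤ} {k n : ℕ}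

/-- a set of cells inside the box `[-n, n]²`: sup-norm bound -/
theorem pvmg_box (hδ : 0 < δ) (hE : E ⊆ pvmnBox n) (hp : p ∈ pvmgPl z δ E) : |(p - z).re| ≤ ((n : ℝ) + 1) * δ ∧ |(p - z).im| ≤ ((n : ℝ) + 1) * δ := by
  obtain ⟨c, hc, h1, h2, h3, h4⟩ := pvmg_mem_sq.1 hp
  obtain ⟨b1, b2, b3, b4⟩ := hE hc
  have c1 : -(n : ℝ) ≤ c.1 := by exact_mod_cast b1
  have c2 : (c.1 : ℝ) ≤ n := by exact_mod_cast b2
  have c3 : -(n : ℝ) ≤ c.2 := by exact_mod_cast b3
  have c4 : (c.2 : ℝ) ≤ n := by exact_mod_cast b4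
  have d1 := mul_le_mul_of_nonneg_right c1 hδ.le
  have d2 := mul_le_mul_of_nonneg_right c2 hδ.le
  have d3 := mul_le_mul_of_nonneg_right c3 hδ.le
  have d4 := mul_le_mul_of_nonneg_right c4 hδ.le
  constructor
  · rw [abs_le]; constructor <;> nlinarith
  · rw [abs_le]; constructor <;> nlinarith

theorem pvmg_box_ball (hδ : 0 < δ) (hE : E ⊆ pvmnBox n) : pvmgPl z δ E ⊆ Metric.closedBall z (Real.sqrt 2 * (((n : ℝ) + 1) * δ)) := by
  intro p hp
  obtain ⟨h1, h2⟩ := pvmg_box hδ hE hp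
  rw [mem_closedBall_iff_norm]
  exact (Complex.norm_le_sqrt_two_mul_max _).trans (mul_le_mul_of_nonneg_left (max_le h1 h2) (Real.sqrt_nonneg 2))

theorem pvmg_box_ball' (hδ : 0 < δ) (hE : E ⊆ pvmnBox n) : pvmgPl z δ E ⊆ Metric.closedBall z (2 * (((n : ℝ) + 1) * δ)) := by
  intro p hp
  obtain ⟨h1, h2⟩ := pvmg_box hδ hE hp
  rw [mem_closedBall_iff_norm]
  exact (Complex.norm_le_abs_re_add_abs_im _).trans (by linarith)

/-- the whole placed box -/
theorem pvmg_box_iff (hδ : 0 < δ) : p ∈ pvmgPl z δ (pvmnBox n) ↔ (-(n : ℝ) * δ ≤ (p - z).re ∧ (p - z).re ≤ ((n : ℝ) + 1) * δ) ∧ (-(n : ℝ) * δ ≤ (p - z).im ∧ (p - z).im ≤ ((n : ℝ) + 1) * δ) := by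
  rw [pvmg_mem, pvmnBox, pvtw_U_box hδ (by omega) (by omega)]
  push_cast
  rfl

/-- cell-disjoint and non adjacent ⟹ disjoint -/
theorem pvmg_disj (hδ : 0 < δ) (h : Disjoint (pvtN8 A) B) : Disjoint (pvmgPl z δ A) (pvmgPl z δ B) := by
  rw [Set.disjoint_left]
  intro p hA hB
  exact Set.disjoint_left.1 (pvtw_U_disj hδ h) (pvmg_mem.1 hA) (pvmg_mem.1 hB)

/-- the complement of the `k`-collar is at distance `≥ k δ` -/
theorem pvmg_far_compl (hδ : 0 < δ) (hp : p ∈ pvmgPl z δ E) (hq : q ∈ pvmgPl z δ (pvtwN k E)ᶜ) : (k : ℝ) * δ ≤ ‖p - q‖ := by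
  have := pvtw_U_far hδ (pvmg_mem.1 hp) (pvmg_mem.1 hq)
  rwa [sub_sub_sub_cancel_right] at this

/-- **SEPARATION**: `B` misses the `k`-collar of `A` ⟹ the placed regions are at distance `≥ k δ` -/
theorem pvmg_far (hδ : 0 < δ) (h : Disjoint (pvtwN k A) B) (hp : p ∈ pvmgPl z δ A) (hq : q ∈ pvmgPl z δ B) : (k : ℝ) * δ ≤ ‖p - q‖ :=
  pvmg_far_compl hδ hp (pvmg_mono (fun c hc hcA => Set.disjoint_left.1 h hcA hc) hq)

/-- a point off the placed `k`-collar is at distance `≥ k δ` -/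
theorem pvmg_far_off (hδ : 0 < δ) (hp : p ∈ pvmgPl z δ E) (hq : q ∉ pvmgPl z δ (pvtwN k E)) : (k : ℝ) * δ ≤ ‖p - q‖ :=
  pvmg_far_compl hδ hp (pvmg_compl hδ hq)

/-- **the `k δ`-neighbourhood lies in the `k`-collar** -/
theorem pvmg_near (hδ : 0 < δ) (hp : p ∈ pvmgPl z δ E) (hq : ‖q - p‖ ≤ (k : ℝ) * δ) : q ∈ pvmgPl z δ (pvtwN k E) := by
  rw [pvmg_mem]
  refine pvtw_U_near hδ (pvmg_mem.1 hp) ?_
  rwa [sub_sub_sub_cancel_right]

theorem pvmg_cthick (hδ : 0 < δ) (hE : E.Finite) : Metric.cthickening ((k : ℝ) * δ) (pvmgPl z δ E) ⊆ pvmgPl z δ (pvtwN k E) := by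
  intro q hq
  rw [(pvmg_compact hE).cthickening_eq_biUnion_closedBall (by positivity)] at hq
  obtain ⟨p, hp, hqp⟩ := Set.mem_iUnion₂.1 hq
  exact pvmg_near hδ hp (mem_closedBall_iff_norm.1 hqp)

theorem pvmg_thick (hδ : 0 < δ) : Metric.thickening ((k : ℝ) * δ) (pvmgPl z δ E) ⊆ pvmgPl z δ (pvtwN k E) := by
  intro q hq
  obtain ⟨p, hp, hqp⟩ := Metric.mem_thickening_iff.1 hq
  rw [dist_eq_norm] at hqp
  exact pvmg_near hδ hp hqp.le

/-- one coordinate of `pvmg_collar` -/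
theorem pvmg_aux_1d (hδ : 0 < δ) (k : ℕ) (a b : ℤ) (x : ℝ) (h1 : (b : ℝ) * δ ≤ x) (h2 : x ≤ ((b : ℝ) + 1) * δ) (hab : b ≤ a + k) (hba : a ≤ b + k) :
    ∃ y : ℝ, (a : ℝ) * δ ≤ y ∧ y ≤ ((a : ℝ) + 1) * δ ∧ |x - y| ≤ (k : ℝ) * δ := by
  have e1 : (b : ℝ) ≤ a + k := by exact_mod_cast hab
  have e2 : (a : ℝ) ≤ b + k := by exact_mod_cast hba
  have f1 := mul_le_mul_of_nonneg_right e1 hδ.le
  have f2 := mul_le_mul_of_nonneg_right e2 hδ.le
  have hk : 0 ≤ (k : ℝ) * δ := by positivity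
  refine ⟨max ((a : ℝ) * δ) (min (((a : ℝ) + 1) * δ) x), le_max_left _ _, max_le (by nlinarith) (min_le_left _ _), ?_⟩
  rw [abs_le]
  rcases le_total x ((a : ℝ) * δ) with h | h
  · rw [max_eq_left ((min_le_right _ _).trans h)]
    constructor <;> nlinarith
  · rcases le_total x (((a : ℝ) + 1) * δ) with h' | h'
    · rw [min_eq_right h', max_eq_right h]
      constructor <;> nlinarith
    · rw [min_eq_left h', max_eq_right (by nlinarith)]
      constructor <;> nlinarith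

/-- **the `k`-collar lies in the `2 k δ`-neighbourhood** (sup-norm: `k δ`) -/
theorem pvmg_collar (hδ : 0 < δ) (hq : q ∈ pvmgPl z δ (pvtwN k E)) : ∃ p ∈ pvmgPl z δ E, |(q - p).re| ≤ (k : ℝ) * δ ∧ |(q - p).im| ≤ (k : ℝ) * δ ∧ ‖q - p‖ ≤ 2 * ((k : ℝ) * δ) := by
  obtain ⟨w, ⟨c, hc, w1, w2, w3, w4⟩, h1, h2, h3, h4⟩ := pvmg_mem_sq.1 hq
  obtain ⟨x, x1, x2, x3⟩ := pvmg_aux_1d hδ k c.1 w.1 _ h1 h2 w1 w2
  obtain ⟨y, y1, y2, y3⟩ := pvmg_aux_1d hδ k c.2 w.2 _ h3 h4 w3 w4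
  have hre : (q - ((⟨x, y⟩ : ℂ) + z)).re = (q - z).re - x := by simp; ring
  have him : (q - ((⟨x, y⟩ : ℂ) + z)).im = (q - z).im - y := by simp; ring
  refine ⟨(⟨x, y⟩ : ℂ) + z, pvmg_mem_sq.2 ⟨c, hc, by simpa using ⟨x1, x2, y1, y2⟩⟩, by rw [hre]; exact x3, by rw [him]; exact y3, ?_⟩
  refine (Complex.norm_le_abs_re_add_abs_im _).trans ?_
  rw [hre, him]
  linarith

/-- the placed grid ball contains the ball -/
theorem pvmg_ball_sub (hδ : 0 < δ) : Metric.closedBall z (δ * ρ) ⊆ pvmgPl z δ (pvmnBl ρ) := by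
  intro p hp
  rw [pvmg_mem, ← pvmn_Bl_scale hδ]
  refine pvt_cells_cover hδ ?_
  rwa [mem_closedBall_zero_iff, ← mem_closedBall_iff_norm]

/-- the placed grid ball lies in the ball of radius `δ (ρ + 2)` -/
theorem pvmg_Bl_sub (hδ : 0 < δ) : pvmgPl z δ (pvmnBl ρ) ⊆ Metric.closedBall z (δ * (ρ + 2)) := by
  intro p hp
  rw [pvmg_mem, ← pvmn_Bl_scale hδ] at hp
  obtain ⟨q, hq, hpq⟩ := pvt_cells_near hp
  rw [mem_closedBall_zero_iff] at hq
  rw [mem_closedBall_iff_norm]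
  have : p - z = (p - z - q) + q := by ring
  rw [this]
  exact (norm_add_le _ _).trans (by linarith)

end metric

/-! ## §3 the cells of a set (bridge to `PvmnFits`: `v i = P.v i - z`) -/

section cells

variable {z p q : ℂ} {δ : ℝ} {E : Set (ℤ × ℤ)} {X : Set ℂ} {k : ℕ}

theorem pvmg_cells_cover (hδ : 0 < δ) (X : Set ℂ) : X ⊆ pvmgPl z δ (pvtCells δ ((fun p => p - z) '' X)) := by
  intro p hp
  rw [pvmg_mem]
  exact pvt_cells_cover hδ ⟨p, hp, rfl⟩

theorem pvmg_cells_near (hp : p ∈ pvmgPl z δ (pvtCells δ ((fun p => p - z) '' X))) : ∃ q ∈ X, ‖p - q‖ ≤ 2 * δ := by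
  obtain ⟨_, ⟨q, hq, rfl⟩, h⟩ := pvt_cells_near (pvmg_mem.1 hp)
  refine ⟨q, hq, ?_⟩
  rwa [sub_sub_sub_cancel_right] at h

theorem pvmg_cells_off (h : Disjoint X (pvmgPl z δ E)) : pvtCells δ ((fun p => p - z) '' X) ⊆ Eᶜ := by
  refine pvt_cells_off ?_
  rw [Set.disjoint_left]
  rintro _ ⟨p, hp, rfl⟩ hE
  exact Set.disjoint_left.1 h hp (pvmg_mem.2 hE)

/-- a set which meets the placed region has a cell in `E` or touching `E`... exact form: a point of `X` in the placed region lies in a square of `E` which is a cell of `X` -/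
theorem pvmg_cells_meet (hp : p ∈ X) (hE : p ∈ pvmgPl z δ E) : ∃ c ∈ E, c ∈ pvtCells δ ((fun p => p - z) '' X) := by
  obtain ⟨c, hc, h⟩ := pvmg_mem_sq.1 hE
  exact ⟨c, hc, p - z, h, p, hp, rfl⟩

end cells


/-! ## §4 covariance -/

section cov

variable {z a p q : ℂ} {δ s ρ : ℝ} {E E' S : Set (ℤ × ℤ)} {c d u v : ℤ × ℤ} {k n : ℕ} {X : Set ℂ}

/-- translations of the centre -/
theorem pvmg_tr (a : ℂ) : pvmgPl (z + a) δ E = (fun p => p + a) '' pvmgPl z δ E := by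
  ext p
  rw [pvmg_mem]
  constructor
  · intro h
    exact ⟨p - a, pvmg_mem.2 (by rwa [sub_sub, add_comm a z]), by simp⟩
  · rintro ⟨x, hx, rfl⟩
    have := pvmg_mem.1 hx
    rwa [show x + a - (z + a) = x - z by ring]

theorem pvmg_tr_mem (a : ℂ) : p + a ∈ pvmgPl (z + a) δ E ↔ p ∈ pvmgPl z δ E := by
  rw [pvmg_mem, pvmg_mem, add_sub_add_right_eq_sub]

theorem pvmg_sq_shift : p ∈ pvtSq δ (c + d) ↔ p - pvmgPt δ d ∈ pvtSq δ c := by
  simp only [pvtSq, pvmgPt, Set.mem_ofPred_eq, Prod.fst_add, Prod.snd_add, Int.cast_add, Complex.sub_re, Complex.sub_im]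
  constructor
  · rintro ⟨h1, h2, h3, h4⟩
    exact ⟨by linarith, by linarith, by linarith, by linarith⟩
  · rintro ⟨h1, h2, h3, h4⟩
    exact ⟨by linarith, by linarith, by linarith, by linarith⟩

/-- GRID translations: moving the cells by `d` = moving the centre by the corner of `d` -/
theorem pvmg_shift (d : ℤ × ℤ) : pvmgPl z δ ((fun c => c + d) '' E) = pvmgPl (z + pvmgPt δ d) δ E := by
  ext p
  rw [pvmg_mem_sq, pvmg_mem_sq]
  constructor
  · rintro ⟨_, ⟨c, hc, rfl⟩, h⟩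
    exact ⟨c, hc, by rw [← sub_sub]; exact pvmg_sq_shift.1 h⟩
  · rintro ⟨c, hc, h⟩
    exact ⟨c + d, ⟨c, hc, rfl⟩, pvmg_sq_shift.2 (by rw [sub_sub]; exact h)⟩

theorem pvmg_sq_scale (hs : 0 < s) : (s : ℂ) * p ∈ pvtSq (s * δ) c ↔ p ∈ pvtSq δ c := by
  simp only [pvtSq, Set.mem_ofPred_eq, Complex.mul_re, Complex.mul_im, Complex.ofReal_re, Complex.ofReal_im, zero_mul, sub_zero, add_zero]
  constructor
  · rintro ⟨h1, h2, h3, h4⟩
    refine ⟨?_, ?_, ?_, ?_⟩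
    · exact le_of_mul_le_mul_left (by linarith) hs
    · exact le_of_mul_le_mul_left (by linarith) hs
    · exact le_of_mul_le_mul_left (by linarith) hs
    · exact le_of_mul_le_mul_left (by linarith) hs
  · rintro ⟨h1, h2, h3, h4⟩
    have a1 := mul_le_mul_of_nonneg_left h1 hs.le
    have a2 := mul_le_mul_of_nonneg_left h2 hs.le
    have a3 := mul_le_mul_of_nonneg_left h3 hs.le
    have a4 := mul_le_mul_of_nonneg_left h4 hs.le
    exact ⟨by linarith, by linarith, by linarith, by linarith⟩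

theorem pvmg_scale_mem (hs : 0 < s) : (s : ℂ) * p ∈ pvmgPl ((s : ℂ) * z) (s * δ) E ↔ p ∈ pvmgPl z δ E := by
  rw [pvmg_mem_sq, pvmg_mem_sq]
  simp only [← mul_sub, pvmg_sq_scale hs]

/-- dilations -/
theorem pvmg_scale (hs : 0 < s) : pvmgPl ((s : ℂ) * z) (s * δ) E = (fun p => (s : ℂ) * p) '' pvmgPl z δ E := by
  have hs' : (s : ℂ) ≠ 0 := by exact_mod_cast hs.ne'
  ext p
  constructor
  · intro h
    refine ⟨p / s, ?_, by field_simp⟩
    rw [← pvmg_scale_mem hs]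
    rwa [mul_div_cancel₀ _ hs']
  · rintro ⟨x, hx, rfl⟩
    exact (pvmg_scale_mem hs).2 hx

theorem pvmg_sq_rot : Complex.I * p ∈ pvtSq δ (pvmgRot c) ↔ p ∈ pvtSq δ c := by
  simp only [pvtSq, pvmgRot, Set.mem_ofPred_eq, Complex.mul_re, Complex.mul_im, Complex.I_re, Complex.I_im, zero_mul, one_mul, zero_sub, zero_add, Int.cast_sub, Int.cast_neg, Int.cast_one]
  constructor
  · rintro ⟨h1, h2, h3, h4⟩
    exact ⟨h3, h4, by linarith, by linarith⟩
  · rintro ⟨h1, h2, h3, h4⟩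
    exact ⟨by linarith, by linarith, h1, h2⟩

theorem pvmg_rot_mem : Complex.I * p ∈ pvmgPl (Complex.I * z) δ (pvmgRot '' E) ↔ p ∈ pvmgPl z δ E := by
  rw [pvmg_mem_sq, pvmg_mem_sq]
  constructor
  · rintro ⟨_, ⟨c, hc, rfl⟩, h⟩
    rw [← mul_sub, pvmg_sq_rot] at h
    exact ⟨c, hc, h⟩
  · rintro ⟨c, hc, h⟩
    exact ⟨_, ⟨c, hc, rfl⟩, by rw [← mul_sub, pvmg_sq_rot]; exact h⟩

/-- the rotation by `i` -/
theorem pvmg_rot : pvmgPl (Complex.I * z) δ (pvmgRot '' E) = (fun p => Complex.I * p) '' pvmgPl z δ E := by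
  ext p
  constructor
  · intro h
    refine ⟨-Complex.I * p, ?_, ?_⟩
    · rw [← pvmg_rot_mem]
      have : Complex.I * (-Complex.I * p) = p := by
        rw [← mul_assoc, mul_neg, Complex.I_mul_I]; simp
      rwa [this]
    · show Complex.I * (-Complex.I * p) = p
      rw [← mul_assoc, mul_neg, Complex.I_mul_I]; simp
  · rintro ⟨x, hx, rfl⟩
    exact pvmg_rot_mem.2 hx

/-- the rotation of the cells as a permutation -/
def pvmgRotE : (ℤ × ℤ) ≃ (ℤ × ℤ) where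
  toFun := pvmgRot
  invFun c := (c.2, -c.1 - 1)
  left_inv c := by simp [pvmgRot]
  right_inv c := by simp [pvmgRot]

theorem pvmg_rotE_apply (c : ℤ × ℤ) : pvmgRotE c = pvmgRot c := rfl

theorem pvmg_rot_inj : Function.Injective pvmgRot := pvmgRotE.injective

theorem pvmg_rot_N (k : ℕ) (E : Set (ℤ × ℤ)) : pvtwN k (pvmgRot '' E) = pvmgRot '' pvtwN k E := by
  ext w
  constructor
  · rintro ⟨_, ⟨c, hc, rfl⟩, h1, h2, h3, h4⟩
    simp only [pvmgRot] at h1 h2 h3 h4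
    refine ⟨(w.2, -w.1 - 1), ⟨c, hc, by show w.2 ≤ _; omega, by show _ ≤ w.2 + _; omega, by show -w.1 - 1 ≤ _; omega, by show _ ≤ -w.1 - 1 + _; omega⟩, ?_⟩
    simp [pvmgRot]
  · rintro ⟨w', ⟨c, hc, h1, h2, h3, h4⟩, rfl⟩
    exact ⟨_, ⟨c, hc, rfl⟩, by simp only [pvmgRot]; omega, by simp only [pvmgRot]; omega, by simp only [pvmgRot]; omega, by simp only [pvmgRot]; omega⟩

theorem pvmg_rot_cells (X : Set ℂ) : pvtCells δ ((fun p => Complex.I * p) '' X) = pvmgRot '' pvtCells δ X := by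
  ext w
  constructor
  · rintro ⟨_, hw, p, hp, rfl⟩
    refine ⟨pvmgRotE.symm w, ⟨p, ?_, hp⟩, pvmgRotE.apply_symm_apply w⟩
    rw [← pvmg_sq_rot, ← pvmg_rotE_apply, Equiv.apply_symm_apply]
    exact hw
  · rintro ⟨c, ⟨p, hc, hp⟩, rfl⟩
    exact ⟨Complex.I * p, pvmg_sq_rot.2 hc, p, hp, rfl⟩

/-- the grid balls are invariant -/
theorem pvmg_rot_Bl (ρ : ℝ) : pvmgRot '' pvmnBl ρ = pvmnBl ρ := by
  rw [pvmnBl, ← pvmg_rot_cells]
  congr 1
  ext p
  simp only [Set.mem_image, mem_closedBall_zero_iff]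
  constructor
  · rintro ⟨x, hx, rfl⟩
    simpa using hx
  · intro h
    refine ⟨-Complex.I * p, by simpa using h, ?_⟩
    rw [← mul_assoc, mul_neg, Complex.I_mul_I]; simp

theorem pvmg_rot_box (n : ℕ) : pvmgRot '' pvmnBox n ⊆ pvmnBox (n + 1) := by
  rintro _ ⟨c, ⟨h1, h2, h3, h4⟩, rfl⟩
  exact ⟨by simp only [pvmgRot]; push_cast; omega, by simp only [pvmgRot]; push_cast; omega, by simp only [pvmgRot]; push_cast; omega, by simp only [pvmgRot]; push_cast; omega⟩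

theorem pvmg_rot_G4 : pvtbG4.Adj (pvmgRot u) (pvmgRot v) ↔ pvtbG4.Adj u v := by
  simp only [pvtb_G4_adj, pvmgRot]
  omega

theorem pvmg_rot_G8 : pvtbG8.Adj (pvmgRot u) (pvmgRot v) ↔ pvtbG8.Adj u v := by
  simp only [pvtb_G8_adj, pvmgRot, ne_eq, Prod.ext_iff]
  omega

/-- transport of the connections by a permutation which preserves the adjacency -/
theorem pvmg_R_map {G : SimpleGraph (ℤ × ℤ)} (φ : (ℤ × ℤ) ≃ (ℤ × ℤ)) (hφ : ∀ u v, G.Adj u v → G.Adj (φ u) (φ v)) {s : Set (ℤ × ℤ)} {u v : ℤ × ℤ}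
    (h : TscR G s u v) : TscR G (φ '' s) (φ u) (φ v) := by
  induction h with
  | refl => exact ReflTransGen.refl
  | tail _ h2 ih => exact ih.tail ⟨hφ _ _ h2.1, ⟨_, h2.2.1, rfl⟩, ⟨_, h2.2.2, rfl⟩⟩

theorem pvmg_conn_map {G : SimpleGraph (ℤ × ℤ)} (φ : (ℤ × ℤ) ≃ (ℤ × ℤ)) (hφ : ∀ u v, G.Adj u v → G.Adj (φ u) (φ v)) {s : Set (ℤ × ℤ)}
    (h : TscConn G s) : TscConn G (φ '' s) := by
  rintro _ ⟨u, hu, rfl⟩ _ ⟨v, hv, rfl⟩
  exact pvmg_R_map φ hφ (h u hu v hv)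

theorem pvmg_out_aux {G : SimpleGraph (ℤ × ℤ)} (φ : (ℤ × ℤ) ≃ (ℤ × ℤ)) (hφ : ∀ u v, G.Adj u v → G.Adj (φ u) (φ v)) {S : Set (ℤ × ℤ)} {x : ℤ × ℤ}
    (hx : ∀ B : Set (ℤ × ℤ), B.Finite → ∃ t, t ∉ B ∧ TscR G Sᶜ x t) : ∀ B : Set (ℤ × ℤ), B.Finite → ∃ t, t ∉ B ∧ TscR G (φ '' S)ᶜ (φ x) t := by
  intro B hB
  obtain ⟨t, ht, hR⟩ := hx (φ ⁻¹' B) (hB.preimage φ.injective.injOn)
  refine ⟨φ t, ht, ?_⟩
  have := pvmg_R_map φ hφ hR
  rwa [Equiv.image_compl] at this

/-- the (8,4) hull of `Tr/Band` is covariant under every permutation of the cells which preserves the side adjacency in both directions -/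
theorem pvmg_hull4_map (φ : (ℤ × ℤ) ≃ (ℤ × ℤ)) (hφ : ∀ u v, pvtbG4.Adj (φ u) (φ v) ↔ pvtbG4.Adj u v) (S : Set (ℤ × ℤ)) : pvtbHull (φ '' S) = φ '' pvtbHull S := by
  have key : pvtbOut (φ '' S) = φ '' pvtbOut S := by
    ext w
    constructor
    · intro hw
      refine ⟨φ.symm w, ?_, φ.apply_symm_apply w⟩
      have := pvmg_out_aux (G := pvtbG4) φ.symm (fun u v h => by rw [← hφ]; simpa using h) hw
      rwa [Equiv.symm_image_image] at this
    · rintro ⟨x, hx, rfl⟩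
      exact pvmg_out_aux φ (fun u v h => (hφ u v).2 h) hx
  rw [pvtbHull, pvtbHull, key, Equiv.image_compl]

/-- the TRI hull of `Tr/Poly` is covariant under every permutation which preserves the triangular adjacency -/
theorem pvmg_hull_map (φ : (ℤ × ℤ) ≃ (ℤ × ℤ)) (hφ : ∀ u v, tscG.Adj (φ u) (φ v) ↔ tscG.Adj u v) (S : Set (ℤ × ℤ)) : pvtHull (φ '' S) = φ '' pvtHull S := by
  have key : pvtOut (φ '' S) = φ '' pvtOut S := by
    ext w
    constructor
    · intro hw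
      refine ⟨φ.symm w, ?_, φ.apply_symm_apply w⟩
      have := pvmg_out_aux (G := tscG) φ.symm (fun u v h => by rw [← hφ]; simpa using h) hw
      rwa [Equiv.symm_image_image] at this
    · rintro ⟨x, hx, rfl⟩
      exact pvmg_out_aux φ (fun u v h => (hφ u v).2 h) hx
  rw [pvtHull, pvtHull, key, Equiv.image_compl]

theorem pvmg_rot_hull4 (S : Set (ℤ × ℤ)) : pvtbHull (pvmgRot '' S) = pvmgRot '' pvtbHull S :=
  pvmg_hull4_map pvmgRotE (fun _ _ => pvmg_rot_G4) S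

/-- grid translations: both hulls -/
theorem pvmg_shift_hull (d : ℤ × ℤ) (S : Set (ℤ × ℤ)) : pvtHull ((fun c => c + d) '' S) = (fun c => c + d) '' pvtHull S :=
  pvmg_hull_map (Equiv.addRight d) (fun u v => by
    simp only [Equiv.coe_addRight, tsc_G_adj, tsc_adj_iff, Prod.fst_add, Prod.snd_add]
    omega) S

theorem pvmg_shift_hull4 (d : ℤ × ℤ) (S : Set (ℤ × ℤ)) : pvtbHull ((fun c => c + d) '' S) = (fun c => c + d) '' pvtbHull S :=
  pvmg_hull4_map (Equiv.addRight d) (fun u v => by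
    simp only [Equiv.coe_addRight, pvtb_G4_adj, Prod.fst_add, Prod.snd_add]
    omega) S

theorem pvmg_shift_N (d : ℤ × ℤ) (k : ℕ) (E : Set (ℤ × ℤ)) : pvtwN k ((fun c => c + d) '' E) = (fun c => c + d) '' pvtwN k E := by
  ext w
  constructor
  · rintro ⟨_, ⟨c, hc, rfl⟩, h1, h2, h3, h4⟩
    simp only [Prod.fst_add, Prod.snd_add] at h1 h2 h3 h4
    exact ⟨w - d, ⟨c, hc, by simp only [Prod.fst_sub]; omega, by simp only [Prod.fst_sub]; omega, by simp only [Prod.snd_sub]; omega, by simp only [Prod.snd_sub]; omega⟩, by simp⟩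
  · rintro ⟨w', ⟨c, hc, h1, h2, h3, h4⟩, rfl⟩
    exact ⟨_, ⟨c, hc, rfl⟩, by simp only [Prod.fst_add]; omega, by simp only [Prod.fst_add]; omega, by simp only [Prod.snd_add]; omega, by simp only [Prod.snd_add]; omega⟩

/-- the half turn `c ↦ (-c.1 - 1, -c.2 - 1)` (= `pvmgRot ∘ pvmgRot`) preserves the triangular adjacency: the TRI hull is covariant under `-1` -/
theorem pvmg_rot2_hull (S : Set (ℤ × ℤ)) : pvtHull (pvmgRot '' (pvmgRot '' S)) = pvmgRot '' (pvmgRot '' pvtHull S) := by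
  have h := pvmg_hull_map (pvmgRotE.trans pvmgRotE) (fun u v => by
    simp only [Equiv.trans_apply, pvmg_rotE_apply, pvmgRot, tsc_G_adj, tsc_adj_iff]
    omega) S
  simpa only [Equiv.coe_trans, Set.image_comp, pvmg_rotE_apply, show (⇑pvmgRotE : ℤ × ℤ → ℤ × ℤ) = pvmgRot from rfl] using h

end cov

/-! ## §5 windows: `PvplWin` (238), `pvtrCore` (`Tr/Ret`) = the conditions of `PvspTy.Wf` (185) -/

section win

variable {z p q : ℂ} {δ r ρ : ℝ} {E A B : Set (ℤ × ℤ)} {k n : ℕ} {X Y : Set ℂ}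

/-- "the open disc lies in `X`" is a closed condition, for ANY `X` -/
theorem pvmg_ball_cond_closed (X : Set ℂ) : IsClosed {w : ℂ × ℝ | Metric.ball w.1 w.2 ⊆ X} := by
  have e : {w : ℂ × ℝ | Metric.ball w.1 w.2 ⊆ X} = ⋂ x ∈ Xᶜ, {w : ℂ × ℝ | w.2 ≤ dist x w.1} := by
    ext w
    simp only [Set.mem_ofPred_eq, Set.mem_iInter, Set.mem_compl_iff]
    constructor
    · intro h x hx
      by_contra hc
      exact hx (h (Metric.mem_ball.2 (not_le.1 hc)))
    · intro h x hx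
      by_contra hc
      exact absurd (Metric.mem_ball.1 hx) (not_lt.2 (h x hc))
  rw [e]
  exact isClosed_biInter fun x _ => isClosed_le continuous_snd (continuous_const.dist continuous_fst)

/-- **every closed set is a window** -/
theorem pvmg_win_closed (hX : IsClosed X) : PvplWin X := by
  refine ⟨hX.measurableSet, ?_⟩
  have e : {w : ℂ × ℝ | Metric.closedBall w.1 w.2 ⊆ X} = {w : ℂ × ℝ | w.2 < 0} ∪ ({w : ℂ × ℝ | w.2 = 0} ∩ {w : ℂ × ℝ | w.1 ∈ X}) ∪ ({w : ℂ × ℝ | 0 < w.2} ∩ {w : ℂ × ℝ | Metric.ball w.1 w.2 ⊆ X}) := by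
    ext w
    simp only [Set.mem_ofPred_eq, Set.mem_union, Set.mem_inter_iff]
    rcases lt_trichotomy w.2 0 with h | h | h
    · simp [h]
    · simp [h]
    · have h1 : ¬ w.2 < 0 := not_lt.2 h.le
      have h2 : ¬ w.2 = 0 := h.ne'
      simp only [h1, h2, h, false_and, or_false, false_or, true_and]
      constructor
      · exact fun hh => Metric.ball_subset_closedBall.trans hh
      · intro hh
        rw [← closure_ball w.1 h.ne']
        exact hX.closure_subset_iff.2 hh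
  rw [e]
  refine ((measurableSet_lt measurable_snd measurable_const).union ((measurableSet_eq_fun measurable_snd measurable_const).inter (measurable_fst hX.measurableSet))).union
    ((measurableSet_lt measurable_const measurable_snd).inter (pvmg_ball_cond_closed X).measurableSet)

/-- a finite placed region is a window -/
theorem pvmg_win (hE : E.Finite) : PvplWin (pvmgPl z δ E) := pvmg_win_closed (pvmg_closed hE)

/-- a compact set is a window -/
theorem pvmg_win_compact (hX : IsCompact X) : PvplWin X := pvmg_win_closed hX.isClosed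

/-- finite unions of closed windows -/
theorem pvmg_win_union (hX : IsClosed X) (hY : IsClosed Y) : PvplWin (X ∪ Y) := pvmg_win_closed (hX.union hY)

/-- **CORE**: a placed region lies `k δ`-deep in its `k`-collar -/
theorem pvmg_core (hδ : 0 < δ) (hr : r ≤ (k : ℝ) * δ) : pvmgPl z δ E ⊆ pvtrCore r (pvmgPl z δ (pvtwN k E)) := by
  intro p hp q hq
  exact pvmg_near hδ hp ((mem_closedBall_iff_norm.1 hq).trans hr)

/-- the same, into any larger region -/
theorem pvmg_core_of (hδ : 0 < δ) (hr : r ≤ (k : ℝ) * δ) (h : pvtwN k A ⊆ B) : pvmgPl z δ A ⊆ pvtrCore r (pvmgPl z δ B) :=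
  fun p hp q hq => pvmg_mono h (pvmg_core hδ hr hp hq)

/-- a set covered by a placed region lies deep in the collar -/
theorem pvmg_core_sub (hδ : 0 < δ) (hr : r ≤ (k : ℝ) * δ) (hX : X ⊆ pvmgPl z δ A) (h : pvtwN k A ⊆ B) : X ⊆ pvtrCore r (pvmgPl z δ B) :=
  hX.trans (pvmg_core_of hδ hr h)

/-- a round ball lies deep in the collar of its grid ball -/
theorem pvmg_ball_core (hδ : 0 < δ) (hr : r ≤ (k : ℝ) * δ) : Metric.closedBall z (δ * ρ) ⊆ pvtrCore r (pvmgPl z δ (pvtwN k (pvmnBl ρ))) :=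
  (pvmg_ball_sub hδ).trans (pvmg_core hδ hr)

/-- the core of a union contains the cores -/
theorem pvmg_core_union_left : pvtrCore r X ⊆ pvtrCore r (X ∪ Y) := fun _ hp => hp.trans Set.subset_union_left

theorem pvmg_core_union_right : pvtrCore r Y ⊆ pvtrCore r (X ∪ Y) := fun _ hp => hp.trans Set.subset_union_right

/-- **a common point of two placed regions lies in a cell of the second one which touches the first one** -/
theorem pvmg_inter (hδ : 0 < δ) : pvmgPl z δ A ∩ pvmgPl z δ B ⊆ pvmgPl z δ (pvtwN 1 A ∩ B) := by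
  rintro p ⟨hA, hB⟩
  obtain ⟨a, ha, a1, a2, a3, a4⟩ := pvmg_mem_sq.1 hA
  obtain ⟨b, hb, b1, b2, b3, b4⟩ := pvmg_mem_sq.1 hB
  refine pvmg_mem_sq.2 ⟨b, ⟨⟨a, ha, ?_, ?_, ?_, ?_⟩, hb⟩, b1, b2, b3, b4⟩
  · have : (b.1 : ℝ) * δ ≤ ((a.1 : ℝ) + 1) * δ := b1.trans a2
    have h2 : (b.1 : ℝ) ≤ (a.1 : ℝ) + 1 := le_of_mul_le_mul_right this hδ
    exact_mod_cast h2
  · have : (a.1 : ℝ) * δ ≤ ((b.1 : ℝ) + 1) * δ := a1.trans b2
    have h2 : (a.1 : ℝ) ≤ (b.1 : ℝ) + 1 := le_of_mul_le_mul_right this hδ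
    exact_mod_cast h2
  · have : (b.2 : ℝ) * δ ≤ ((a.2 : ℝ) + 1) * δ := b3.trans a4
    have h2 : (b.2 : ℝ) ≤ (a.2 : ℝ) + 1 := le_of_mul_le_mul_right this hδ
    exact_mod_cast h2
  · have : (a.2 : ℝ) * δ ≤ ((b.2 : ℝ) + 1) * δ := a3.trans b4
    have h2 : (a.2 : ℝ) ≤ (b.2 : ℝ) + 1 := le_of_mul_le_mul_right this hδ
    exact_mod_cast h2

/-- a placed region inside a round ball: all its cells are cells of the grid ball -/
theorem pvmg_sub_ball (hδ : 0 < δ) (h : E ⊆ pvmnBl ρ) : pvmgPl z δ E ⊆ Metric.closedBall z (δ * (ρ + 2)) :=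
  (pvmg_mono h).trans (pvmg_Bl_sub hδ)

/-- translation of a window / of a core (for the sets of `Tr/LaneP`, which are CENTRED subsets of `ℂ`) -/
theorem pvmg_core_tr (a : ℂ) : (fun p => p + a) '' pvtrCore r X = pvtrCore r ((fun p => p + a) '' X) := by
  ext p
  constructor
  · rintro ⟨x, hx, rfl⟩ q hq
    refine ⟨q - a, hx ?_, by simp⟩
    rw [mem_closedBall_iff_norm] at hq ⊢
    rwa [sub_sub, add_comm a x]
  · intro hp
    refine ⟨p - a, fun q hq => ?_, by simp⟩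
    obtain ⟨y, hy, e⟩ := hp (show q + a ∈ Metric.closedBall p r by
      rw [mem_closedBall_iff_norm] at hq ⊢
      have : q + a - p = q - (p - a) := by ring
      rwa [this])
    have : y = q := add_right_cancel e
    rwa [← this]

end win

end Claimed.Agent.R289
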