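import Claimed.Agent.R289.Tr.Menu
import Claimed.Agent.R289.Tr.LaneP
import Claimed.Agent.R289.Tr.LanePB
import Claimed.Agent.R289.Tr.MenuGeo

/-!
# Row 289 (S0537, Cardy for Poisson-Voronoi), unit TR, ROAD P, P11 = Tr/LaneS : THE SPATIAL CUT OF THE STRIP      (owner helper225; prefix `pvls_`, defs `pvls*`, `Pvls*`)

-- KEEP.   WHY.   The model needs **(G1): `Ep ∩ Em ⊆ O`** (the window of the side events `L⁺` and the window of the side events `L⁻` of ONE plug meet only inside the state region): the free side of a pattern reads `Ep(s)`,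
the last link of the closing chain reads `Em(s) ∖ O_s` (fields `rE`, `rW` of `PvnwGeo.Hyp`), and the engine asks disjoint connector regions at every plug with an in-link and an out-link (`dKK`).
With the INDEX cut of `Tr/LaneP` (`Mm` = windows `0..K`, `Mp` = windows `K..N`) (G1) is not provable: `PvlpIsCor` allows a Z-SHAPED corridor (the fine region is 7 cells wide, three parallel tracks fit), which after the cut runs BACK along the negative pieces, outside `O`.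
CURE: the strip is cut IN SPACE.   An index `i` of the corridor is of class `(a,b)` if its fine cell belongs to a lane cell of the 5-tube of the pieces `a..b`;
    `pvlsMp` := the windows of class `(5,9)`,      `pvlsMm` := the windows of class `(0,4)`.
Everything below is at the TYPE level (`PvmnIsType`, a right lane): no rim, no fit, no topology.

* §1 classes, `pvlsM`, `pvlsMp`, `pvlsMm`: `pvls_mem`, `pvls_M_sub` (`⊆` strip), **`pvls_union`** (`S = Mm ∪ Mp`, ALL arguments), `pvls_Mm_eq`, `pvls_compact`, `pvls_measurable`, `pvls_M_mono`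
* §2 cells: **`pvls_cells`** (`pvtCells δ (pvlsM δ τ ln a b) ⊆ N⁶ (pieces a..b)`), `pvls_near` (margin `δ/2`), `pvls_M_U`
* §3 doors: `pvls_A0`, `pvls_A1`, **`pvls_DA`** (`DA ⊆ Mm`), **`pvls_DB`** (`DB ⊆ Mp`), `pvls_DA_off`, `pvls_DB_off` (the doors miss the other half)
* §4 **SEPARATION** `pvls_sep` (`N¹⁰ (0..4) ∩ N¹⁰ (5..9) ⊆` the bar at the pin), `pvls_Mp_Mm` (`Mp ∩ Mm ⊆ U(bar)`), **`pvls_G1`** (the thick windows `U(N¹ (Np ∪ cells Mp))`, `U(N¹ (Nm ∪ cells Mm))`), `pvls_G1_far` (margin form: off the bar the two windows are more than `2 δ` apart)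
* §5 **WALK SPLIT** `pvls_split_p`, `pvls_split_m`: a chain of points of the strip with steps `≤ δ/10` from the door `A` to the door `B` stays in `Mp` from a time `J` on, and `x J ∈ U(bar)`; mirror
* §6 the bar in the plane: `pvls_bar_norm`
-/

set_option autoImplicit false
set_option linter.unusedSectionVars false
set_option linter.unusedVariables false
set_option linter.unusedSimpArgs false

namespace Claimed.Agent.R289

open Relation Claims.C0467 Claimed.Agent.R291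

/-! ## §1 classes -/

/-- the index `i` of the corridor is of CLASS `(a,b)`: its fine cell lies in (the block, fattened by one fine cell, of) a cell of the lane which belongs to the 5-tube of the pieces `a..b` -/
def PvlsCl (τ : PvmnType) (ln : ((ℤ × ℤ) × (ℤ × ℤ)) × ℕ) (a b i : ℕ) : Prop :=
  i ≤ pvlpN τ ln ∧ ∃ p ∈ pvlpR τ ln, p ∈ pvtwN 5 (pvmnCells τ a b) ∧
    5 * p.1 - 1 ≤ (pvlpC τ ln i).1 ∧ (pvlpC τ ln i).1 ≤ 5 * p.1 + 5 ∧ 5 * p.2 - 1 ≤ (pvlpC τ ln i).2 ∧ (pvlpC τ ln i).2 ≤ 5 * p.2 + 5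

/-- the windows of class `(a,b)` -/
def pvlsM (δ : ℝ) (τ : PvmnType) (ln : ((ℤ × ℤ) × (ℤ × ℤ)) × ℕ) (a b : ℕ) : Set ℂ :=
  ⋃ i ∈ {i | PvlsCl τ ln a b i}, pvlpSq (pvtCtr (δ / 5) (pvlpC τ ln i)) (δ / 8)

/-- **`Mp`**: the part of the strip along the positive pieces -/
def pvlsMp (δ : ℝ) (τ : PvmnType) (ln : ((ℤ × ℤ) × (ℤ × ℤ)) × ℕ) : Set ℂ := pvlsM δ τ ln 5 9

/-- **`Mm`**: the part of the strip along the negative pieces      (the second term is EMPTY-ish junk: for a type with a right lane it is contained in the first one, `pvls_Mm_eq`; it makes `S = Mm ∪ Mp` true for ALL arguments) -/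
def pvlsMm (δ : ℝ) (τ : PvmnType) (ln : ((ℤ × ℤ) × (ℤ × ℤ)) × ℕ) : Set ℂ := pvlsM δ τ ln 0 4 ∪ (pvlpS δ τ ln \ pvlsM δ τ ln 5 9)

theorem pvls_eqns_cite : True := by
  have := @PvlsCl.eq_1; have := @pvlsM.eq_1; have := @pvlsMp.eq_1; have := @pvlsMm.eq_1
  trivial

section cls

variable {𝔑 : PvmnNum} {τ : PvmnType} {ln : ((ℤ × ℤ) × (ℤ × ℤ)) × ℕ} {δ : ℝ} {a b a' b' i : ℕ} {p q : ℂ}

theorem pvls_mem : p ∈ pvlsM δ τ ln a b ↔ ∃ i, PvlsCl τ ln a b i ∧ p ∈ pvlpSq (pvtCtr (δ / 5) (pvlpC τ ln i)) (δ / 8) := by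
  simp only [pvlsM, Set.mem_iUnion, Set.mem_ofPred_eq, exists_prop]

theorem PvlsCl.mono (h : PvlsCl τ ln a b i) (h1 : a' ≤ a) (h2 : b ≤ b') : PvlsCl τ ln a' b' i := by
  obtain ⟨hi, P, hP, hP5, hc⟩ := h
  exact ⟨hi, P, hP, pvtw_N_mono le_rfl (pvmn_cells_mono h1 h2) hP5, hc⟩

theorem pvls_M_mono (h1 : a' ≤ a) (h2 : b ≤ b') : pvlsM δ τ ln a b ⊆ pvlsM δ τ ln a' b' := by
  intro p hp
  obtain ⟨i, hi, hp⟩ := pvls_mem.1 hp
  exact pvls_mem.2 ⟨i, hi.mono h1 h2, hp⟩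

/-- the windows of a class lie in the strip -/
theorem pvls_M_sub (δ : ℝ) (τ : PvmnType) (ln : ((ℤ × ℤ) × (ℤ × ℤ)) × ℕ) (a b : ℕ) : pvlsM δ τ ln a b ⊆ pvlpS δ τ ln := by
  intro p hp
  obtain ⟨i, hi, hp⟩ := pvls_mem.1 hp
  exact pvlp_mem_win.2 ⟨i, Nat.zero_le _, hi.1, hp⟩

/-- every index of the corridor is of one of the two classes -/
theorem pvls_cl_total (hτ : PvmnIsType 𝔑 τ) (hl : PvmnLaneR τ ln.1 ln.2) (hi : i ≤ pvlpN τ ln) : PvlsCl τ ln 0 4 i ∨ PvlsCl τ ln 5 9 i := by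
  obtain ⟨P, hP, hc⟩ := pvlp_C_mem hτ hl hi
  obtain ⟨c, ⟨k, k1, k2, hk⟩, hcP⟩ := (pvlp_R_sub hτ hl hP).1.1
  rcases Nat.lt_or_ge k.1 5 with h | h
  · exact Or.inl ⟨hi, P, hP, ⟨c, ⟨k, Nat.zero_le _, by omega, hk⟩, hcP⟩, hc⟩
  · exact Or.inr ⟨hi, P, hP, ⟨c, ⟨k, h, k2, hk⟩, hcP⟩, hc⟩

/-- for a type with a right lane `Mm` is the union of the windows of class `(0,4)` -/
theorem pvls_Mm_eq (hτ : PvmnIsType 𝔑 τ) (hl : PvmnLaneR τ ln.1 ln.2) (δ : ℝ) : pvlsMm δ τ ln = pvlsM δ τ ln 0 4 := by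
  refine Set.union_eq_left.2 ?_
  rintro p ⟨hp, hn⟩
  obtain ⟨i, -, hi, hp⟩ := pvlp_mem_win.1 hp
  rcases pvls_cl_total hτ hl hi with h | h
  · exact pvls_mem.2 ⟨i, h, hp⟩
  · exact (hn (pvls_mem.2 ⟨i, h, hp⟩)).elim

theorem pvls_Mp_sub (δ : ℝ) (τ : PvmnType) (ln : ((ℤ × ℤ) × (ℤ × ℤ)) × ℕ) : pvlsMp δ τ ln ⊆ pvlpS δ τ ln := pvls_M_sub _ _ _ _ _

theorem pvls_Mm_sub (δ : ℝ) (τ : PvmnType) (ln : ((ℤ × ℤ) × (ℤ × ℤ)) × ℕ) : pvlsMm δ τ ln ⊆ pvlpS δ τ ln :=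
  Set.union_subset (pvls_M_sub _ _ _ _ _) Set.sdiff_subset

/-- **the strip is the union of its two halves** (ALL arguments) -/
theorem pvls_union (δ : ℝ) (τ : PvmnType) (ln : ((ℤ × ℤ) × (ℤ × ℤ)) × ℕ) : pvlpS δ τ ln = pvlsMm δ τ ln ∪ pvlsMp δ τ ln := by
  apply Set.Subset.antisymm
  · intro p hp
    by_cases h : p ∈ pvlsMp δ τ ln
    · exact Or.inr h
    · exact Or.inl (Or.inr ⟨hp, h⟩)
  · exact Set.union_subset (pvls_Mm_sub _ _ _) (pvls_Mp_sub _ _ _)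

theorem pvls_compact (δ : ℝ) (τ : PvmnType) (ln : ((ℤ × ℤ) × (ℤ × ℤ)) × ℕ) (a b : ℕ) : IsCompact (pvlsM δ τ ln a b) := by
  have hf : {i | PvlsCl τ ln a b i}.Finite := (Set.finite_Iic (pvlpN τ ln)).subset fun i hi => hi.1
  exact hf.isCompact_biUnion fun i _ => pvlp_sq_compact _ _

theorem pvls_measurable (δ : ℝ) (τ : PvmnType) (ln : ((ℤ × ℤ) × (ℤ × ℤ)) × ℕ) (a b : ℕ) : MeasurableSet (pvlsM δ τ ln a b) :=
  (pvls_compact δ τ ln a b).measurableSet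

theorem pvls_Mp_compact (δ : ℝ) (τ : PvmnType) (ln : ((ℤ × ℤ) × (ℤ × ℤ)) × ℕ) : IsCompact (pvlsMp δ τ ln) := pvls_compact _ _ _ _ _

theorem pvls_Mm_compact (hτ : PvmnIsType 𝔑 τ) (hl : PvmnLaneR τ ln.1 ln.2) (δ : ℝ) : IsCompact (pvlsMm δ τ ln) := by
  rw [pvls_Mm_eq hτ hl]
  exact pvls_compact _ _ _ _ _

theorem pvls_Mp_measurable (δ : ℝ) (τ : PvmnType) (ln : ((ℤ × ℤ) × (ℤ × ℤ)) × ℕ) : MeasurableSet (pvlsMp δ τ ln) := pvls_measurable _ _ _ _ _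

theorem pvls_Mm_measurable (δ : ℝ) (τ : PvmnType) (ln : ((ℤ × ℤ) × (ℤ × ℤ)) × ℕ) : MeasurableSet (pvlsMm δ τ ln) :=
  (pvls_measurable _ _ _ _ _).union ((pvlp_win_compact _ _ _ _ _).measurableSet.diff (pvls_measurable _ _ _ _ _))

end cls

/-! ## §2 the cells of a class -/

section cells

variable {𝔑 : PvmnNum} {τ : PvmnType} {ln : ((ℤ × ℤ) × (ℤ × ℤ)) × ℕ} {δ : ℝ} {a b i : ℕ} {p q : ℂ} {c : ℤ × ℤ}

/-- one coordinate: an interval of the grid which contains a point of the window of a fine cell of the block `P` is one of the three intervals `P-1, P, P+1` -/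
theorem pvls_coord {δ : ℝ} (hδ : 0 < δ) (P C w : ℤ) (x : ℝ) (h1 : 5 * P - 1 ≤ C) (h2 : C ≤ 5 * P + 5) (hx : |x - ((C : ℝ) + 1 / 2) * (δ / 5)| ≤ δ / 8)
    (w1 : (w : ℝ) * δ ≤ x) (w2 : x ≤ ((w : ℝ) + 1) * δ) : w ≤ P + 1 ∧ P ≤ w + 1 := by
  have h1' : 5 * (P : ℝ) - 1 ≤ (C : ℝ) := by exact_mod_cast h1
  have h2' : (C : ℝ) ≤ 5 * (P : ℝ) + 5 := by exact_mod_cast h2
  rw [abs_le] at hx
  have k1 : (5 * (P : ℝ) - 1) * δ ≤ (C : ℝ) * δ := mul_le_mul_of_nonneg_right h1' hδ.le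
  have k2 : (C : ℝ) * δ ≤ (5 * (P : ℝ) + 5) * δ := mul_le_mul_of_nonneg_right h2' hδ.le
  constructor
  · by_contra hc
    have h3 : P + 2 ≤ w := by omega
    have h3' : (P : ℝ) + 2 ≤ (w : ℝ) := by exact_mod_cast h3
    have k3 : ((P : ℝ) + 2) * δ ≤ (w : ℝ) * δ := mul_le_mul_of_nonneg_right h3' hδ.le
    nlinarith [hx.1, hx.2]
  · by_contra hc
    have h3 : w + 2 ≤ P := by omega
    have h3' : (w : ℝ) + 2 ≤ (P : ℝ) := by exact_mod_cast h3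
    have k3 : ((w : ℝ) + 2) * δ ≤ (P : ℝ) * δ := mul_le_mul_of_nonneg_right h3' hδ.le
    nlinarith [hx.1, hx.2]

/-- **the cells met by the windows of class `(a,b)` lie in the 6-tube of the pieces `a..b`** -/
theorem pvls_cells (hδ : 0 < δ) : pvtCells δ (pvlsM δ τ ln a b) ⊆ pvtwN 6 (pvmnCells τ a b) := by
  rintro c ⟨x, ⟨x1, x2, x3, x4⟩, hx⟩
  obtain ⟨i, ⟨-, P, -, hP5, c1, c2, c3, c4⟩, hx1, hx2⟩ := pvls_mem.1 hx
  obtain ⟨u1, u2⟩ := pvls_coord hδ P.1 (pvlpC τ ln i).1 c.1 x.re c1 c2 hx1 x1 x2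
  obtain ⟨v1, v2⟩ := pvls_coord hδ P.2 (pvlpC τ ln i).2 c.2 x.im c3 c4 hx2 x3 x4
  have : c ∈ pvtwN 1 (pvtwN 5 (pvmnCells τ a b)) := ⟨P, hP5, by push_cast; exact u1, by push_cast; exact u2, by push_cast; exact v1, by push_cast; exact v2⟩
  rw [pvtw_N_add] at this
  exact this

/-- every cell which contains a point of `pvlsM` -/
theorem pvls_cell_of (hδ : 0 < δ) (hp : p ∈ pvlsM δ τ ln a b) (hc : p ∈ pvtSq δ c) : c ∈ pvtwN 6 (pvmnCells τ a b) := pvls_cells hδ ⟨p, hc, hp⟩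

theorem pvls_M_U (hδ : 0 < δ) : pvlsM δ τ ln a b ⊆ pvtU δ (pvtwN 6 (pvmnCells τ a b)) := by
  intro p hp
  obtain ⟨c, hc⟩ := pvt_sq_cover hδ p
  exact Set.mem_iUnion₂.2 ⟨c, pvls_cell_of hδ hp hc, hc⟩

/-- with a margin: a point at distance `≤ δ/2` from a window of class `(a,b)` lies in a cell of the 6-tube -/
theorem pvls_near (hδ : 0 < δ) (hp : p ∈ pvlsM δ τ ln a b) (hq : ‖q - p‖ ≤ δ / 2) : q ∈ pvtU δ (pvtwN 6 (pvmnCells τ a b)) := by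
  obtain ⟨i, ⟨-, P, -, hP5, c1, c2, c3, c4⟩, hp1, hp2⟩ := pvls_mem.1 hp
  have hre : |q.re - p.re| ≤ δ / 2 := by
    have := Complex.abs_re_le_norm (q - p)
    rw [Complex.sub_re] at this
    exact this.trans hq
  have him : |q.im - p.im| ≤ δ / 2 := by
    have := Complex.abs_im_le_norm (q - p)
    rw [Complex.sub_im] at this
    exact this.trans hq
  obtain ⟨a1, a2⟩ := pvlp_near_coord hδ P.1 (pvlpC τ ln i).1 p.re q.re c1 c2 hp1 hre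
  obtain ⟨b1, b2⟩ := pvlp_near_coord hδ P.2 (pvlpC τ ln i).2 p.im q.im c3 c4 hp2 him
  obtain ⟨w1, u1, u2, u3, u4⟩ := pvlp_three hδ P.1 q.re a1 a2
  obtain ⟨w2, v1, v2, v3, v4⟩ := pvlp_three hδ P.2 q.im b1 b2
  have : ((w1, w2) : ℤ × ℤ) ∈ pvtwN 1 (pvtwN 5 (pvmnCells τ a b)) := ⟨P, hP5, by push_cast; exact u1, by push_cast; exact u2, by push_cast; exact v1, by push_cast; exact v2⟩
  rw [pvtw_N_add] at this
  exact Set.mem_iUnion₂.2 ⟨(w1, w2), this, u3, u4, v3, v4⟩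

end cells

/-! ## §3 the doors -/

section doors

variable {𝔑 : PvmnNum} {τ : PvmnType} {ln : ((ℤ × ℤ) × (ℤ × ℤ)) × ℕ} {δ : ℝ} {p q : ℂ}

/-- the first cell of the lane belongs to the 5-tube of the pieces `0, 1` -/
theorem pvls_A0 (hτ : PvmnIsType 𝔑 τ) (hl : PvmnLaneR τ ln.1 ln.2) : pvlpA0 τ ln ∈ pvtwN 5 (pvmnCells τ 0 1) := by
  obtain ⟨hR, y, hy, hadj⟩ := pvlp_A0 hτ hl
  have h9 := pvlb_next_m hy hadj
  obtain ⟨k, -, -, hk⟩ := pvmn_N_cells.1 (pvlp_R_sub hτ hl hR).1.1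
  rcases Nat.lt_or_ge k.1 2 with h | h
  · exact pvmn_N_cells.2 ⟨k, Nat.zero_le _, by omega, hk⟩
  · exact (Set.disjoint_left.1 (hτ.far 0 k (by simpa using h)) (pvtw_N_mono (by omega) le_rfl h9) (pvtw_N_mono (by omega) le_rfl hk)).elim

/-- the last cell of the lane belongs to the 5-tube of the pieces `8, 9` -/
theorem pvls_A1 (hτ : PvmnIsType 𝔑 τ) (hl : PvmnLaneR τ ln.1 ln.2) : pvlpA1 τ ln ∈ pvtwN 5 (pvmnCells τ 8 9) := by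
  obtain ⟨hR, y, hy, hadj⟩ := pvlp_A1 hτ hl
  have h9 := pvlb_next_p hy (hx_tri_symm _ _ hadj)
  obtain ⟨k, -, k2, hk⟩ := pvmn_N_cells.1 (pvlp_R_sub hτ hl hR).1.1
  rcases Nat.lt_or_ge k.1 8 with h | h
  · refine (Set.disjoint_left.1 (hτ.far k 9 ?_) (pvtw_N_mono (by omega) le_rfl hk) (pvtw_N_mono (by omega) le_rfl h9)).elim
    show k.1 + 2 ≤ 9
    omega
  · exact pvmn_N_cells.2 ⟨k, h, k2, hk⟩

theorem pvls_cl_zero (hτ : PvmnIsType 𝔑 τ) (hl : PvmnLaneR τ ln.1 ln.2) : PvlsCl τ ln 0 1 0 := by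
  refine ⟨Nat.zero_le _, pvlpA0 τ ln, (pvlp_A0 hτ hl).1, pvls_A0 hτ hl, ?_⟩
  rw [pvlp_C_zero hτ hl]
  refine ⟨?_, ?_, ?_, ?_⟩ <;> simp only <;> omega

theorem pvls_cl_last (hτ : PvmnIsType 𝔑 τ) (hl : PvmnLaneR τ ln.1 ln.2) : PvlsCl τ ln 8 9 (pvlpN τ ln) := by
  refine ⟨le_rfl, pvlpA1 τ ln, (pvlp_A1 hτ hl).1, pvls_A1 hτ hl, ?_⟩
  rw [pvlp_C_last hτ hl]
  refine ⟨?_, ?_, ?_, ?_⟩ <;> simp only <;> omega

/-- **the door `A` lies in `Mm`** -/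
theorem pvls_DA (hτ : PvmnIsType 𝔑 τ) (hl : PvmnLaneR τ ln.1 ln.2) (δ : ℝ) : pvlpDA δ τ ln ⊆ pvlsMm δ τ ln := by
  intro z hz
  obtain ⟨i, h1, h2, h3⟩ := pvlp_mem_win.1 hz
  have : i = 0 := by omega
  subst this
  exact Or.inl (pvls_mem.2 ⟨0, (pvls_cl_zero hτ hl).mono le_rfl (by omega), h3⟩)

/-- **the door `B` lies in `Mp`** -/
theorem pvls_DB (hτ : PvmnIsType 𝔑 τ) (hl : PvmnLaneR τ ln.1 ln.2) (δ : ℝ) : pvlpDB δ τ ln ⊆ pvlsMp δ τ ln := by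
  intro z hz
  obtain ⟨i, h1, h2, h3⟩ := pvlp_mem_win.1 hz
  have : i = pvlpN τ ln := by omega
  subst this
  exact pvls_mem.2 ⟨_, (pvls_cl_last hτ hl).mono (by omega) le_rfl, h3⟩

/-- the door `A` misses `Mp` -/
theorem pvls_DA_off (hτ : PvmnIsType 𝔑 τ) (hl : PvmnLaneR τ ln.1 ln.2) (hδ : 0 < δ) : Disjoint (pvlpDA δ τ ln) (pvlsMp δ τ ln) := by
  rw [Set.disjoint_left]
  intro z hz hz'
  obtain ⟨i, h1, h2, h3⟩ := pvlp_mem_win.1 hz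
  have : i = 0 := by omega
  subst this
  rw [pvlp_C_zero hτ hl] at h3
  have h6 := pvls_cell_of hδ hz' (pvlb_sq_coarse hδ _ h3)
  exact Set.disjoint_left.1 (pvmn_far_cells (a := 0) (b := 1) (a' := 5) (b' := 9) hτ (by omega)) (pvtw_N_mono (by omega) le_rfl (pvls_A0 hτ hl)) (pvtw_N_mono (by omega) le_rfl h6)

/-- the door `B` misses `Mm` -/
theorem pvls_DB_off (hτ : PvmnIsType 𝔑 τ) (hl : PvmnLaneR τ ln.1 ln.2) (hδ : 0 < δ) : Disjoint (pvlpDB δ τ ln) (pvlsMm δ τ ln) := by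
  rw [Set.disjoint_left, pvls_Mm_eq hτ hl]
  intro z hz hz'
  obtain ⟨i, h1, h2, h3⟩ := pvlp_mem_win.1 hz
  have : i = pvlpN τ ln := by omega
  subst this
  rw [pvlp_C_last hτ hl] at h3
  have h6 := pvls_cell_of hδ hz' (pvlb_sq_coarse hδ _ h3)
  exact Set.disjoint_left.1 (pvmn_far_cells (a := 0) (b := 4) (a' := 8) (b' := 9) hτ (by omega)) (pvtw_N_mono (by omega) le_rfl h6) (pvtw_N_mono (by omega) le_rfl (pvls_A1 hτ hl))

end doors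

/-! ## §4 SEPARATION: (G1) -/

/-- the cells of the THICK window of the side events `L⁺` (off the ball part) -/
def pvlsEp (δ : ℝ) (τ : PvmnType) (ln : ((ℤ × ℤ) × (ℤ × ℤ)) × ℕ) : Set (ℤ × ℤ) := pvtwN 1 (pvmnNp τ ∪ pvtCells δ (pvlsMp δ τ ln))

/-- the cells of the THICK window of the side events `L⁻` (off the ball part) -/
def pvlsEm (δ : ℝ) (τ : PvmnType) (ln : ((ℤ × ℤ) × (ℤ × ℤ)) × ℕ) : Set (ℤ × ℤ) := pvtwN 1 (pvmnNm τ ∪ pvtCells δ (pvlsMm δ τ ln))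

theorem pvls_eqns_cite2 : True := by
  have := @pvlsEp.eq_1; have := @pvlsEm.eq_1
  trivial

section sep

variable {𝔑 : PvmnNum} {τ : PvmnType} {ln : ((ℤ × ℤ) × (ℤ × ℤ)) × ℕ} {δ : ℝ} {i j : ℕ} {p q : ℂ} {c c' : ℤ × ℤ}

/-- (T2) + (T4): the 10-tubes of the two halves of the arc meet only in the bar at the pin -/
theorem pvls_sep (hτ : PvmnIsType 𝔑 τ) (hi : i ≤ 10) (hj : j ≤ 10) : pvtwN i (pvmnCells τ 0 4) ∩ pvtwN j (pvmnCells τ 5 9) ⊆ pvmnBar 𝔑 τ 5 := by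
  rintro c ⟨h1, h2⟩
  obtain ⟨k, _, k2, hk⟩ := pvmn_N_cells.1 (pvtw_N_mono hi le_rfl h1)
  obtain ⟨k', k1', _, hk'⟩ := pvmn_N_cells.1 (pvtw_N_mono hj le_rfl h2)
  rcases Nat.lt_or_ge (k.1 + 1) k'.1 with h | h
  · exact (Set.disjoint_left.1 (hτ.far k k' (by omega)) hk hk').elim
  · have e1 : k = 4 := Fin.ext (by change k.1 = 4; omega)
    have e2 : k' = 5 := Fin.ext (by change k'.1 = 5; omega)
    subst e1; subst e2
    exact hτ.adj 4 5 (by simp) ⟨hk, hk'⟩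

/-- two cells with a common point touch -/
theorem pvls_touch (hδ : 0 < δ) (h1 : p ∈ pvtSq δ c) (h2 : p ∈ pvtSq δ c') : c' ∈ pvtwN 1 {c} := by
  by_contra hc
  have := pvtw_sq_far hδ hc h1 h2
  rw [sub_self, norm_zero] at this
  push_cast at this
  linarith

/-- the two halves of the strip meet only over the bar -/
theorem pvls_Mp_Mm (hτ : PvmnIsType 𝔑 τ) (hl : PvmnLaneR τ ln.1 ln.2) (hδ : 0 < δ) : pvlsMm δ τ ln ∩ pvlsMp δ τ ln ⊆ pvtU δ (pvmnBar 𝔑 τ 5) := by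
  rw [pvls_Mm_eq hτ hl]
  rintro p ⟨h1, h2⟩
  obtain ⟨c, hc⟩ := pvt_sq_cover hδ p
  exact Set.mem_iUnion₂.2 ⟨c, pvls_sep hτ (by omega) (by omega) ⟨pvls_cell_of hδ h1 hc, pvls_cell_of hδ h2 hc⟩, hc⟩

theorem pvls_Ep_sub (hδ : 0 < δ) : pvlsEp δ τ ln ⊆ pvtwN 7 (pvmnCells τ 5 9) := by
  unfold pvlsEp
  have h : pvmnNp τ ∪ pvtCells δ (pvlsMp δ τ ln) ⊆ pvtwN 6 (pvmnCells τ 5 9) :=
    Set.union_subset (by unfold pvmnNp; exact pvtw_N_mono (by omega) (pvmn_cells_mono (by omega) (by omega))) (pvls_cells hδ)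
  refine (pvtw_N_mono le_rfl h).trans ?_
  rw [pvtw_N_add]

theorem pvls_Em_sub (hτ : PvmnIsType 𝔑 τ) (hl : PvmnLaneR τ ln.1 ln.2) (hδ : 0 < δ) : pvlsEm δ τ ln ⊆ pvtwN 7 (pvmnCells τ 0 4) := by
  unfold pvlsEm
  rw [pvls_Mm_eq hτ hl]
  have h : pvmnNm τ ∪ pvtCells δ (pvlsM δ τ ln 0 4) ⊆ pvtwN 6 (pvmnCells τ 0 4) :=
    Set.union_subset (by unfold pvmnNm; exact pvtw_N_mono (by omega) (pvmn_cells_mono (by omega) (by omega))) (pvls_cells hδ)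
  refine (pvtw_N_mono le_rfl h).trans ?_
  rw [pvtw_N_add]

theorem pvls_Ep_finite (δ : ℝ) (τ : PvmnType) (ln : ((ℤ × ℤ) × (ℤ × ℤ)) × ℕ) (hδ : 0 < δ) : (pvlsEp δ τ ln).Finite :=
  (pvtw_N_finite (pvmn_cells_finite τ 5 9)).subset (pvls_Ep_sub hδ)

theorem pvls_Em_finite (hτ : PvmnIsType 𝔑 τ) (hl : PvmnLaneR τ ln.1 ln.2) (hδ : 0 < δ) : (pvlsEm δ τ ln).Finite :=
  (pvtw_N_finite (pvmn_cells_finite τ 0 4)).subset (pvls_Em_sub hτ hl hδ)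

/-- **(G1) WITH MARGIN**: a point of the thick window of `L⁺` at distance `≤ 2 δ` from the thick window of `L⁻` lies over the bar at the pin -/
theorem pvls_G1_far (hτ : PvmnIsType 𝔑 τ) (hl : PvmnLaneR τ ln.1 ln.2) (hδ : 0 < δ) (hp : p ∈ pvtU δ (pvlsEp δ τ ln)) (hq : q ∈ pvtU δ (pvlsEm δ τ ln)) (hpq : ‖p - q‖ ≤ 2 * δ) :
    p ∈ pvtU δ (pvmnBar 𝔑 τ 5) := by
  obtain ⟨c, hc, hpc⟩ := Set.mem_iUnion₂.1 hp
  have h1 : p ∈ pvtU δ (pvtwN 2 (pvtwN 7 (pvmnCells τ 0 4))) := pvtw_U_near hδ (pvt_U_mono (pvls_Em_sub hτ hl hδ) hq) (by push_cast; exact hpq)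
  obtain ⟨c', hc', hpc'⟩ := Set.mem_iUnion₂.1 h1
  have h2 : c ∈ pvtwN 1 (pvtwN 2 (pvtwN 7 (pvmnCells τ 0 4))) := pvtw_N_iff.2 ⟨c', hc', pvls_touch hδ hpc' hpc⟩
  rw [pvtw_N_add, pvtw_N_add] at h2
  exact Set.mem_iUnion₂.2 ⟨c, pvls_sep hτ (by omega) (by omega) ⟨h2, pvls_Ep_sub hδ hc⟩, hpc⟩

/-- the mirror statement -/
theorem pvls_G1_far' (hτ : PvmnIsType 𝔑 τ) (hl : PvmnLaneR τ ln.1 ln.2) (hδ : 0 < δ) (hp : p ∈ pvtU δ (pvlsEp δ τ ln)) (hq : q ∈ pvtU δ (pvlsEm δ τ ln)) (hpq : ‖p - q‖ ≤ 2 * δ) :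
    q ∈ pvtU δ (pvmnBar 𝔑 τ 5) := by
  obtain ⟨c, hc, hqc⟩ := Set.mem_iUnion₂.1 hq
  have h1 : q ∈ pvtU δ (pvtwN 2 (pvtwN 7 (pvmnCells τ 5 9))) := pvtw_U_near hδ (pvt_U_mono (pvls_Ep_sub hδ) hp) (by push_cast; rw [norm_sub_rev]; exact hpq)
  obtain ⟨c', hc', hqc'⟩ := Set.mem_iUnion₂.1 h1
  have h2 : c ∈ pvtwN 1 (pvtwN 2 (pvtwN 7 (pvmnCells τ 5 9))) := pvtw_N_iff.2 ⟨c', hc', pvls_touch hδ hqc' hqc⟩
  rw [pvtw_N_add, pvtw_N_add] at h2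
  exact Set.mem_iUnion₂.2 ⟨c, pvls_sep hτ (by omega) (by omega) ⟨pvls_Em_sub hτ hl hδ hc, h2⟩, hqc⟩

/-- **(G1)**: the two thick windows meet only over the bar at the pin -/
theorem pvls_G1 (hτ : PvmnIsType 𝔑 τ) (hl : PvmnLaneR τ ln.1 ln.2) (hδ : 0 < δ) : pvtU δ (pvlsEp δ τ ln) ∩ pvtU δ (pvlsEm δ τ ln) ⊆ pvtU δ (pvmnBar 𝔑 τ 5) := by
  rintro p ⟨h1, h2⟩
  exact pvls_G1_far hτ hl hδ h1 h2 (by rw [sub_self, norm_zero]; positivity)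

end sep

/-! ## §5 WALK SPLIT -/

section split

variable {𝔑 : PvmnNum} {τ : PvmnType} {ln : ((ℤ × ℤ) × (ℤ × ℤ)) × ℕ} {δ : ℝ}

/-- a point of one half at distance `≤ δ/2` from the other half lies over the bar -/
theorem pvls_cross (hτ : PvmnIsType 𝔑 τ) (hl : PvmnLaneR τ ln.1 ln.2) (hδ : 0 < δ) {p q : ℂ} (hp : p ∈ pvlsMp δ τ ln) (hq : q ∈ pvlsMm δ τ ln) (hpq : ‖p - q‖ ≤ δ / 2) :
    p ∈ pvtU δ (pvmnBar 𝔑 τ 5) ∧ q ∈ pvtU δ (pvmnBar 𝔑 τ 5) := by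
  rw [pvls_Mm_eq hτ hl] at hq
  constructor
  · obtain ⟨c, hc, hpc⟩ := Set.mem_iUnion₂.1 (pvls_near hδ hq hpq)
    exact Set.mem_iUnion₂.2 ⟨c, pvls_sep hτ (by omega) (by omega) ⟨hc, pvls_cell_of hδ hp hpc⟩, hpc⟩
  · obtain ⟨c, hc, hqc⟩ := Set.mem_iUnion₂.1 (pvls_near hδ hp (by rw [norm_sub_rev]; exact hpq))
    exact Set.mem_iUnion₂.2 ⟨c, pvls_sep hτ (by omega) (by omega) ⟨pvls_cell_of hδ hq hqc, hc⟩, hqc⟩

/-- **WALK SPLIT, forward half**: a chain of points of the strip with steps `≤ δ/2` from the door `A` to the door `B`.   From some time `J` on the chain stays in `Mp`, and `x J` lies over the bar at the pin.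
(`J` = 1 + the last time at which the point does not lie in `Mp`.) -/
theorem pvls_split_p (hτ : PvmnIsType 𝔑 τ) (hl : PvmnLaneR τ ln.1 ln.2) (hδ : 0 < δ) (x : ℕ → ℂ) (n : ℕ) (hx : ∀ j, j ≤ n → x j ∈ pvlpS δ τ ln) (hs : ∀ j, j < n → ‖x (j + 1) - x j‖ ≤ δ / 2)
    (h0 : x 0 ∈ pvlpDA δ τ ln) (hn : x n ∈ pvlpDB δ τ ln) :
    ∃ J, 0 < J ∧ J ≤ n ∧ x J ∈ pvtU δ (pvmnBar 𝔑 τ 5) ∧ ∀ j, J ≤ j → j ≤ n → x j ∈ pvlsMp δ τ ln := by
  classical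
  have hnK : x n ∈ pvlsMp δ τ ln := pvls_DB hτ hl δ hn
  have h0K : x 0 ∉ pvlsMp δ τ ln := fun h => Set.disjoint_left.1 (pvls_DA_off hτ hl hδ) h0 h
  let S := (Finset.range (n + 1)).filter fun j => x j ∉ pvlsMp δ τ ln
  have hS : S.Nonempty := ⟨0, Finset.mem_filter.2 ⟨Finset.mem_range.2 (by omega), h0K⟩⟩
  have hmem := S.max'_mem hS
  have hmax : ∀ j ∈ S, j ≤ S.max' hS := fun j hj => S.le_max' j hj
  generalize S.max' hS = j0 at hmem hmax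
  obtain ⟨ha, hb⟩ := Finset.mem_filter.1 hmem
  have ha' : j0 ≤ n := by have := Finset.mem_range.1 ha; omega
  have hne : j0 ≠ n := fun e => hb (by rw [e]; exact hnK)
  have hlt : j0 < n := lt_of_le_of_ne ha' hne
  have hgood : ∀ j, j0 + 1 ≤ j → j ≤ n → x j ∈ pvlsMp δ τ ln := by
    intro j h1 h2
    by_contra hcon
    have : j ∈ S := Finset.mem_filter.2 ⟨Finset.mem_range.2 (by omega), hcon⟩
    have := hmax j this
    omega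
  refine ⟨j0 + 1, Nat.succ_pos _, hlt, ?_, hgood⟩
  have hm : x j0 ∈ pvlsMm δ τ ln := by
    have := hx j0 ha'
    rw [pvls_union] at this
    exact this.resolve_right hb
  exact (pvls_cross hτ hl hδ (hgood (j0 + 1) le_rfl hlt) hm (hs j0 hlt)).1

/-- **WALK SPLIT, backward half**: up to some time `J` the chain stays in `Mm`, and `x J` lies over the bar at the pin -/
theorem pvls_split_m (hτ : PvmnIsType 𝔑 τ) (hl : PvmnLaneR τ ln.1 ln.2) (hδ : 0 < δ) (x : ℕ → ℂ) (n : ℕ) (hx : ∀ j, j ≤ n → x j ∈ pvlpS δ τ ln) (hs : ∀ j, j < n → ‖x (j + 1) - x j‖ ≤ δ / 2)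
    (h0 : x 0 ∈ pvlpDA δ τ ln) (hn : x n ∈ pvlpDB δ τ ln) :
    ∃ J, J < n ∧ x J ∈ pvtU δ (pvmnBar 𝔑 τ 5) ∧ ∀ j, j ≤ J → x j ∈ pvlsMm δ τ ln := by
  classical
  have h0K : x 0 ∈ pvlsMm δ τ ln := pvls_DA hτ hl δ h0
  have hnK : x n ∉ pvlsMm δ τ ln := fun h => Set.disjoint_left.1 (pvls_DB_off hτ hl hδ) hn h
  have hB' : ∃ j, j ≤ n ∧ x j ∉ pvlsMm δ τ ln := ⟨n, le_rfl, hnK⟩
  have hspec := Nat.find_spec hB'
  have hmin : ∀ j, j < Nat.find hB' → ¬ (j ≤ n ∧ x j ∉ pvlsMm δ τ ln) := fun j h => Nat.find_min hB' h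
  generalize Nat.find hB' = j0 at hspec hmin
  obtain ⟨ha, hb⟩ := hspec
  have hpos : 0 < j0 := by
    rcases Nat.eq_zero_or_pos j0 with e | e
    · rw [e] at hb
      exact absurd h0K hb
    · exact e
  have hgood : ∀ j, j < j0 → x j ∈ pvlsMm δ τ ln := by
    intro j h1
    by_contra hcon
    exact hmin j h1 ⟨by omega, hcon⟩
  obtain ⟨J, hJ⟩ : ∃ J, j0 = J + 1 := ⟨j0 - 1, by omega⟩
  refine ⟨J, by omega, ?_, fun j h1 => hgood j (by omega)⟩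
  have hp : x j0 ∈ pvlsMp δ τ ln := by
    have := hx j0 ha
    rw [pvls_union] at this
    exact this.resolve_left hb
  have hst := hs J (by omega)
  rw [← hJ] at hst
  exact (pvls_cross hτ hl hδ hp (hgood J (by omega)) hst).2

/-- **the white walk inside `Mp`** (drop-in for `pvlb_walk_Mp`; `hbar` = the bar at the pin lies in the ball of radius `R`) -/
theorem pvls_walk_Mp (hτ : PvmnIsType 𝔑 τ) (hl : PvmnLaneR τ ln.1 ln.2) (hδ : 0 < δ) {R : ℝ} (hbar : ∀ p ∈ pvtU δ (pvmnBar 𝔑 τ 5), ‖p‖ ≤ R) (X : ℕ → ℂ) (m : ℕ)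
    (hx : ∀ j, j ≤ m → X j ∈ pvlpS δ τ ln) (hs : ∀ j, j < m → ‖X (j + 1) - X j‖ ≤ δ / 10) (h0 : X 0 ∈ pvlpDA δ τ ln) (hn : X m ∈ pvlpDB δ τ ln) :
    ∃ J, J ≤ m ∧ ‖X J‖ ≤ R ∧ ∀ j, J ≤ j → j ≤ m → X j ∈ pvlsMp δ τ ln := by
  obtain ⟨J, -, hJ, hb, hall⟩ := pvls_split_p hτ hl hδ X m hx (fun j hj => (hs j hj).trans (by linarith)) h0 hn
  exact ⟨J, hJ, hbar _ hb, hall⟩

/-- **the white walk inside `Mm`** (drop-in for `pvlb_walk_Mm`) -/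
theorem pvls_walk_Mm (hτ : PvmnIsType 𝔑 τ) (hl : PvmnLaneR τ ln.1 ln.2) (hδ : 0 < δ) {R : ℝ} (hbar : ∀ p ∈ pvtU δ (pvmnBar 𝔑 τ 5), ‖p‖ ≤ R) (X : ℕ → ℂ) (m : ℕ)
    (hx : ∀ j, j ≤ m → X j ∈ pvlpS δ τ ln) (hs : ∀ j, j < m → ‖X (j + 1) - X j‖ ≤ δ / 10) (h0 : X 0 ∈ pvlpDA δ τ ln) (hn : X m ∈ pvlpDB δ τ ln) :
    ∃ J, J ≤ m ∧ ‖X J‖ ≤ R ∧ ∀ j, j ≤ J → X j ∈ pvlsMm δ τ ln := by
  obtain ⟨J, hJ, hb, hall⟩ := pvls_split_m hτ hl hδ X m hx (fun j hj => (hs j hj).trans (by linarith)) h0 hn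
  exact ⟨J, hJ.le, hbar _ hb, hall⟩

end split

/-! ## §6 the bar in the plane -/

section bar

variable {𝔑 : PvmnNum} {τ : PvmnType} {δ ρ : ℝ} {p : ℂ}

/-- the points over the bar at the pin are close to the centre -/
theorem pvls_bar_norm (hδ : 0 < δ) (hq : τ.q 5 ∈ pvmnBl ρ) (hp : p ∈ pvtU δ (pvmnBar 𝔑 τ 5)) : ‖p‖ ≤ δ * (ρ + 2) + 2 * ((𝔑.nW : ℝ) * δ) := by
  have h1 : p ∈ pvmgPl 0 δ (pvtwN 𝔑.nW {τ.q 5}) := pvmg_mem.2 (by rw [sub_zero]; exact hp)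
  obtain ⟨q, hq1, -, -, hn⟩ := pvmg_collar hδ h1
  have h3 : q ∈ Metric.closedBall (0 : ℂ) (δ * (ρ + 2)) := pvmg_sub_ball hδ (Set.singleton_subset_iff.2 hq) hq1
  rw [mem_closedBall_iff_norm, sub_zero] at h3
  have h4 : ‖p‖ ≤ ‖p - q‖ + ‖q‖ := by
    have : p = (p - q) + q := by ring
    calc ‖p‖ = ‖(p - q) + q‖ := by rw [← this]
      _ ≤ _ := norm_add_le _ _
  linarith

end bar

end Claimed.Agent.R289
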