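-- KEEP
import Claimed.Agent.R289.Tr.Menu
import Claimed.Agent.R289.Tr.MenuGeo
import Claimed.Agent.R289.Tr.LaneS

/-!
# Row 289 (S0537, Cardy for Poisson-Voronoi), THE WALL, ROAD P, ruling P13 THE FOOT, file Tr/FootT : THE FOOT ZONES `Tp`, `Tm`      (pen + prover helper97; prefix `pvyf_`, defs `pvyf*`)

The white side path of a state starts AT THE FOOT `T.tgt g2.aOut` of the second gate.   Between the foot and the painted lane it runs along the right arc of the gate, inside the band between the rim and the lane.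
That band contains the POCKETS of the tube, so no fixed collar of the tube contains it, and hulls of half tubes have no cheap separation.      HERE the zone is cut by the DIFFERENCE OF THE DISTANCES to the two half tubes:
    `Tp` := the points of the annulus `ra ≤ |q| ≤ rb` which are closer to `U⁺ = U(pieces 5..9)` than to `U⁻ = U(pieces 0..4)` by one cell `δ`,      `Tm` := mirror.
* §1 METRIC (any two sets `A`, `B` of the plane): `pvyfD A B m` = `{infDist · A + m ≤ infDist · B}`;   `pvyf_D_closed`, **`pvyf_D_sep`** (`D A B m`, `D B A m'` are `(m + m') / 2` apart: the difference is 2-Lipschitz),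
     **`pvyf_seg_up`** (towards a nearest point of `A` the difference does not decrease), **`pvyf_co_preconn`** (THE COMPLEMENT IS PRECONNECTED: it is a union of segments which end on `B`): no hull, no pocket, no topology of the type.
* §2 cells: `pvyf_norm6`, `pvyf_near6` (`U(N⁶ E)`: `infDist ≤ 8.5 δ`), `pvyf_far10`, **`pvyf_tube`** (a point of `U(N⁶(5..9))` off the bar at the pin lies in `pvyfD U⁺ U⁻ (1.5 δ)`; mirror `pvyf_tube'`)
* §3 the zones: `pvyfT`, `pvyfTp`, `pvyfTm`;   `pvyf_T_closed`, `pvyf_T_meas`, `pvyf_T_ball`, **`pvyf_T_sep`** (`Tp`, `Tm` are `δ` apart), **`pvyf_Tp_off`**, **`pvyf_Tm_off`** (`1.25 δ` away from the other tube and lane, off the bar), placed forms `pvyf_at_*`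
-/

set_option autoImplicit false
set_option linter.unusedSectionVars false
set_option linter.unusedVariables false

namespace Claimed.Agent.R289

open Set Metric Claims.C0467 Claimed.Agent.R291

/-! ## §1 the difference of two distances -/

/-- the points which are closer to `A` than to `B` by `m` -/
def pvyfD (A B : Set ℂ) (m : ℝ) : Set ℂ := {p | infDist p A + m ≤ infDist p B}

theorem pvyf_eqns_cite : True := by
  have := @pvyfD.eq_1
  trivial

section metric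

variable {A B A' B' C : Set ℂ} {m m' : ℝ} {p q w y r : ℂ}

theorem pvyf_D_mem : p ∈ pvyfD A B m ↔ infDist p A + m ≤ infDist p B := Iff.rfl

theorem pvyf_D_closed (A B : Set ℂ) (m : ℝ) : IsClosed (pvyfD A B m) :=
  isClosed_le ((continuous_infDist_pt A).add continuous_const) (continuous_infDist_pt B)

theorem pvyf_D_mono (hm : m' ≤ m) : pvyfD A B m ⊆ pvyfD A B m' := fun p hp => by
  rw [pvyf_D_mem] at hp ⊢
  linarith

/-- a larger `A`, a smaller `B` -/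
theorem pvyf_D_mono_set (hA : A ⊆ A') (hAne : A.Nonempty) (hB : B' ⊆ B) (hBne : B'.Nonempty) : pvyfD A B m ⊆ pvyfD A' B' m := fun p hp => by
  have h1 : infDist p A' ≤ infDist p A := infDist_le_infDist_of_subset hA hAne
  have h2 : infDist p B ≤ infDist p B' := infDist_le_infDist_of_subset hB hBne
  rw [pvyf_D_mem] at hp ⊢
  linarith

/-- **SEPARATION BY CONSTRUCTION** -/
theorem pvyf_D_sep (hp : p ∈ pvyfD A B m) (hq : q ∈ pvyfD B A m') : (m + m') / 2 ≤ ‖p - q‖ := by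
  have h1 : infDist p B ≤ infDist q B + dist p q := infDist_le_infDist_add_dist
  have h2 : infDist q A ≤ infDist p A + dist q p := infDist_le_infDist_add_dist
  rw [pvyf_D_mem] at hp hq
  rw [dist_comm q p] at h2
  rw [dist_eq_norm] at h1 h2
  linarith

/-- the difference is 2-Lipschitz -/
theorem pvyf_D_nbhd {t : ℝ} (hp : p ∈ pvyfD A B m) (hq : ‖q - p‖ ≤ t) (hm : m' + 2 * t ≤ m) : q ∈ pvyfD A B m' := by
  have h1 : infDist p B ≤ infDist q B + dist p q := infDist_le_infDist_add_dist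
  have h2 : infDist q A ≤ infDist p A + dist q p := infDist_le_infDist_add_dist
  rw [pvyf_D_mem] at hp ⊢
  rw [dist_comm p q] at h1
  rw [dist_eq_norm] at h1 h2
  linarith

/-- **towards a nearest point of `A` the difference does not decrease** -/
theorem pvyf_seg_up (hy : y ∈ A) (hwy : infDist w A = dist w y) (hw : w ∈ pvyfD A B m) (hr : r ∈ segment ℝ w y) : r ∈ pvyfD A B m := by
  have h0 := dist_add_dist_of_mem_segment hr
  have h1 : infDist r A ≤ dist r y := infDist_le_dist_of_mem hy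
  have h2 : infDist w B ≤ infDist r B + dist w r := infDist_le_infDist_add_dist
  rw [pvyf_D_mem] at hw ⊢
  linarith

/-- **towards a nearest point of `B` one stays in the complement** -/
theorem pvyf_seg_down (hy : y ∈ B) (hwy : infDist w B = dist w y) (hw : w ∉ pvyfD A B m) (hr : r ∈ segment ℝ w y) : r ∉ pvyfD A B m := by
  intro hr'
  have h0 := dist_add_dist_of_mem_segment hr
  have h1 : infDist r B ≤ dist r y := infDist_le_dist_of_mem hy
  have h2 : infDist w A ≤ infDist r A + dist w r := infDist_le_infDist_add_dist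
  rw [pvyf_D_mem] at hw hr'
  exact hw (by linarith)

/-- **THE COMPLEMENT IS PRECONNECTED** (inside a convex window `C` in which every point has a nearest point of `B`) -/
theorem pvyf_co_preconn (hm : 0 < m) (hC : Convex ℝ C) (hBC : IsPreconnected (B ∩ C)) (hnear : ∀ p ∈ C, ∃ y ∈ B ∩ C, infDist p B = dist p y) : IsPreconnected (C \ pvyfD A B m) := by
  rcases (C \ pvyfD A B m).eq_empty_or_nonempty with h | ⟨p₀, hp₀⟩
  · rw [h]; exact isPreconnected_empty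
  obtain ⟨y₀, hy₀, -⟩ := hnear p₀ hp₀.1
  have hBS : B ∩ C ⊆ C \ pvyfD A B m := by
    rintro b ⟨hb, hbC⟩
    refine ⟨hbC, fun h => ?_⟩
    rw [pvyf_D_mem, infDist_zero_of_mem hb] at h
    have := infDist_nonneg (x := b) (s := A)
    linarith
  refine isPreconnected_of_forall y₀ fun p hp => ?_
  obtain ⟨y, hy, e⟩ := hnear p hp.1
  refine ⟨segment ℝ p y ∪ B ∩ C, union_subset (fun r hr => ⟨hC.segment_subset hp.1 hy.2 hr, pvyf_seg_down hy.1 e hp.2 hr⟩) hBS, Or.inr hy₀, Or.inl (left_mem_segment ℝ p y), ?_⟩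
  exact IsPreconnected.union y (right_mem_segment ℝ p y) hy (convex_segment p y).isPreconnected hBC

end metric

/-! ## §2 cells -/

section cells

variable {𝔑 : PvmnNum} {τ : PvmnType} {δ : ℝ} {z q p : ℂ} {E : Set (ℤ × ℤ)}

theorem pvyf_norm6 {w : ℂ} {a : ℝ} (ha : 0 ≤ a) (h1 : |w.re| ≤ 6 * a) (h2 : |w.im| ≤ 6 * a) : ‖w‖ ≤ 8.5 * a := by
  have h3 : ‖w‖ ^ 2 = w.re ^ 2 + w.im ^ 2 := by rw [Complex.sq_norm, Complex.normSq_apply]; ring
  have h4 : w.re ^ 2 ≤ (6 * a) ^ 2 := sq_le_sq' (by linarith [(abs_le.1 h1).1]) (abs_le.1 h1).2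
  have h5 : w.im ^ 2 ≤ (6 * a) ^ 2 := sq_le_sq' (by linarith [(abs_le.1 h2).1]) (abs_le.1 h2).2
  refine abs_le_of_sq_le_sq' ?_ (by positivity) |>.2
  nlinarith

theorem pvyf_infDist_pl (z : ℂ) (δ : ℝ) (E : Set (ℤ × ℤ)) (p : ℂ) : infDist p (pvmgPl z δ E) = infDist (p - z) (pvtU δ E) := by
  have h : Isometry (fun w : ℂ => w + z) := isometry_add_right z
  have := infDist_image h (x := p - z) (t := pvtU δ E)
  rw [← this]
  simp only [sub_add_cancel]
  rfl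

theorem pvyf_near6 (hδ : 0 < δ) (hq : q ∈ pvmgPl z δ (pvtwN 6 E)) : infDist q (pvmgPl z δ E) ≤ 8.5 * δ := by
  obtain ⟨p, hp, h1, h2, -⟩ := pvmg_collar hδ hq
  refine (infDist_le_dist_of_mem hp).trans ?_
  rw [dist_eq_norm]
  exact pvyf_norm6 hδ.le (by exact_mod_cast h1) (by exact_mod_cast h2)

theorem pvyf_far10 (hδ : 0 < δ) (hE : E.Nonempty) (hq : q ∉ pvmgPl z δ (pvtwN 10 E)) : 10 * δ ≤ infDist q (pvmgPl z δ E) := by
  refine (le_infDist (pvmg_nonempty hδ.le hE)).2 fun p hp => ?_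
  have := pvmg_far_off (k := 10) hδ hp hq
  rw [dist_eq_norm, norm_sub_rev]
  exact_mod_cast this

theorem pvyf_cells_ne (hτ : PvmnIsType 𝔑 τ) {a b : ℕ} (hab : a ≤ b) (hb : b < 10) : (pvmnCells τ a b).Nonempty :=
  ⟨τ.q (⟨a, by omega⟩ : Fin 10).castSucc, ⟨a, by omega⟩, le_rfl, hab, hτ.q_start _⟩

/-- two collars `i + 1, j ≤ 10` of the two halves meet, AS SETS OF THE PLANE, only over the bar -/
theorem pvyf_sep_pl (hτ : PvmnIsType 𝔑 τ) (hδ : 0 < δ) {i j : ℕ} (hi : i ≤ 10) (hj : j + 1 ≤ 10) (h1 : q ∈ pvmgPl z δ (pvtwN i (pvmnCells τ 0 4))) (h2 : q ∈ pvmgPl z δ (pvtwN j (pvmnCells τ 5 9))) :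
    q ∈ pvmgPl z δ (pvmnBar 𝔑 τ 5) := by
  obtain ⟨c, hc, hqc⟩ := pvmg_mem_sq.1 h1
  obtain ⟨c', hc', hqc'⟩ := pvmg_mem_sq.1 h2
  have h3 : c ∈ pvtwN (1 + j) (pvmnCells τ 5 9) := by
    rw [← pvtw_N_add]
    exact pvtw_N_iff.2 ⟨c', hc', pvls_touch hδ hqc' hqc⟩
  exact pvmg_mem_sq.2 ⟨c, pvls_sep hτ hi (by omega) ⟨hc, h3⟩, hqc⟩

theorem pvyf_sep_pl' (hτ : PvmnIsType 𝔑 τ) (hδ : 0 < δ) {i j : ℕ} (hi : i + 1 ≤ 10) (hj : j ≤ 10) (h1 : q ∈ pvmgPl z δ (pvtwN i (pvmnCells τ 0 4))) (h2 : q ∈ pvmgPl z δ (pvtwN j (pvmnCells τ 5 9))) :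
    q ∈ pvmgPl z δ (pvmnBar 𝔑 τ 5) := by
  obtain ⟨c, hc, hqc⟩ := pvmg_mem_sq.1 h1
  obtain ⟨c', hc', hqc'⟩ := pvmg_mem_sq.1 h2
  have h3 : c' ∈ pvtwN (1 + i) (pvmnCells τ 0 4) := by
    rw [← pvtw_N_add]
    exact pvtw_N_iff.2 ⟨c, hc, pvls_touch hδ hqc hqc'⟩
  exact pvmg_mem_sq.2 ⟨c', pvls_sep hτ (by omega) hj ⟨h3, hc'⟩, hqc'⟩

/-- **a point of the 6-collar of the positive half, off the bar, is closer to the positive half by `1.5 δ`** -/
theorem pvyf_tube (hτ : PvmnIsType 𝔑 τ) (hδ : 0 < δ) (hq : q ∈ pvmgPl z δ (pvtwN 6 (pvmnCells τ 5 9))) (hbar : q ∉ pvmgPl z δ (pvmnBar 𝔑 τ 5)) :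
    q ∈ pvyfD (pvmgPl z δ (pvmnCells τ 5 9)) (pvmgPl z δ (pvmnCells τ 0 4)) (1.5 * δ) := by
  have h1 := pvyf_near6 hδ hq
  have h2 := pvyf_far10 (z := z) (q := q) hδ (pvyf_cells_ne hτ (a := 0) (b := 4) (by omega) (by omega)) fun h => hbar (pvyf_sep_pl hτ hδ le_rfl (by omega) h hq)
  rw [pvyf_D_mem]
  linarith

theorem pvyf_tube' (hτ : PvmnIsType 𝔑 τ) (hδ : 0 < δ) (hq : q ∈ pvmgPl z δ (pvtwN 6 (pvmnCells τ 0 4))) (hbar : q ∉ pvmgPl z δ (pvmnBar 𝔑 τ 5)) :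
    q ∈ pvyfD (pvmgPl z δ (pvmnCells τ 0 4)) (pvmgPl z δ (pvmnCells τ 5 9)) (1.5 * δ) := by
  have h1 := pvyf_near6 hδ hq
  have h2 := pvyf_far10 (z := z) (q := q) hδ (pvyf_cells_ne hτ (a := 5) (b := 9) (by omega) (by omega)) fun h => hbar (pvyf_sep_pl' hτ hδ (by omega) le_rfl hq h)
  rw [pvyf_D_mem]
  linarith

end cells

/-! ## §3 the zones -/

/-- the zone of the annulus `ra ≤ |q| ≤ rb` on the side of `A` (CENTRED: place it with `at' z`) -/
def pvyfT (δ : ℝ) (A B : Set (ℤ × ℤ)) (ra rb : ℝ) : Set ℂ := {q | ra ≤ ‖q‖ ∧ ‖q‖ ≤ rb ∧ q ∈ pvyfD (pvtU δ A) (pvtU δ B) δ}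

/-- **`Tp`** (centred) -/
def pvyfTp (δ : ℝ) (τ : PvmnType) (ra rb : ℝ) : Set ℂ := pvyfT δ (pvmnCells τ 5 9) (pvmnCells τ 0 4) ra rb

/-- **`Tm`** (centred) -/
def pvyfTm (δ : ℝ) (τ : PvmnType) (ra rb : ℝ) : Set ℂ := pvyfT δ (pvmnCells τ 0 4) (pvmnCells τ 5 9) ra rb

theorem pvyf_eqns_cite2 : True := by
  have := @pvyfT.eq_1; have := @pvyfTp.eq_1; have := @pvyfTm.eq_1
  trivial

section zones

variable {𝔑 : PvmnNum} {τ : PvmnType} {δ ra rb : ℝ} {z q p : ℂ} {A B : Set (ℤ × ℤ)}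

theorem pvyf_T_closed (δ : ℝ) (A B : Set (ℤ × ℤ)) (ra rb : ℝ) : IsClosed (pvyfT δ A B ra rb) :=
  (isClosed_le continuous_const continuous_norm).inter ((isClosed_le continuous_norm continuous_const).inter (pvyf_D_closed _ _ _))

theorem pvyf_T_meas (δ : ℝ) (A B : Set (ℤ × ℤ)) (ra rb : ℝ) : MeasurableSet (pvyfT δ A B ra rb) := (pvyf_T_closed δ A B ra rb).measurableSet

/-- membership in the PLACED zone -/
theorem pvyf_at_mem : p ∈ (fun w => w + z) '' pvyfT δ A B ra rb ↔ ra ≤ ‖p - z‖ ∧ ‖p - z‖ ≤ rb ∧ p ∈ pvyfD (pvmgPl z δ A) (pvmgPl z δ B) δ := by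
  have key : p ∈ (fun w => w + z) '' pvyfT δ A B ra rb ↔ p - z ∈ pvyfT δ A B ra rb := by
    constructor
    · rintro ⟨w, hw, rfl⟩
      simpa using hw
    · intro h
      exact ⟨p - z, h, by simp⟩
  rw [key, pvyf_D_mem, pvyf_infDist_pl, pvyf_infDist_pl]
  rfl

theorem pvyf_at_closed (z : ℂ) (δ : ℝ) (A B : Set (ℤ × ℤ)) (ra rb : ℝ) : IsClosed ((fun w => w + z) '' pvyfT δ A B ra rb) :=
  (Homeomorph.addRight z).isClosedMap _ (pvyf_T_closed δ A B ra rb)

theorem pvyf_at_meas (z : ℂ) (δ : ℝ) (A B : Set (ℤ × ℤ)) (ra rb : ℝ) : MeasurableSet ((fun w => w + z) '' pvyfT δ A B ra rb) := (pvyf_at_closed z δ A B ra rb).measurableSet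

theorem pvyf_at_ball (z : ℂ) (δ : ℝ) (A B : Set (ℤ × ℤ)) (ra rb : ℝ) : (fun w => w + z) '' pvyfT δ A B ra rb ⊆ closedBall z rb := fun p hp => by
  rw [mem_closedBall, dist_eq_norm]
  exact (pvyf_at_mem.1 hp).2.1

theorem pvyf_at_off (hp : p ∈ (fun w => w + z) '' pvyfT δ A B ra rb) : ra ≤ ‖p - z‖ := (pvyf_at_mem.1 hp).1

/-- **the two placed zones are `δ` apart** -/
theorem pvyf_at_sep {ra' rb' : ℝ} (hp : p ∈ (fun w => w + z) '' pvyfT δ A B ra rb) (hq : q ∈ (fun w => w + z) '' pvyfT δ B A ra' rb') : δ ≤ ‖p - q‖ := by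
  have := pvyf_D_sep (pvyf_at_mem.1 hp).2.2 (pvyf_at_mem.1 hq).2.2
  linarith

/-- **`Tp` is `1.25 δ` away from the 6-collar of the negative half** (tube `Nm`, lane `Mm`), off the bar -/
theorem pvyf_Tp_off (hτ : PvmnIsType 𝔑 τ) (hδ : 0 < δ) (hp : p ∈ (fun w => w + z) '' pvyfTp δ τ ra rb) (hq : q ∈ pvmgPl z δ (pvtwN 6 (pvmnCells τ 0 4))) (hbar : q ∉ pvmgPl z δ (pvmnBar 𝔑 τ 5)) :
    1.25 * δ ≤ ‖p - q‖ := by
  have := pvyf_D_sep (pvyf_at_mem.1 hp).2.2 (pvyf_tube' hτ hδ hq hbar)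
  linarith

/-- **`Tm` is `1.25 δ` away from the 6-collar of the positive half** (tube `Np`, lane `Mp`), off the bar -/
theorem pvyf_Tm_off (hτ : PvmnIsType 𝔑 τ) (hδ : 0 < δ) (hp : p ∈ (fun w => w + z) '' pvyfTm δ τ ra rb) (hq : q ∈ pvmgPl z δ (pvtwN 6 (pvmnCells τ 5 9))) (hbar : q ∉ pvmgPl z δ (pvmnBar 𝔑 τ 5)) :
    1.25 * δ ≤ ‖p - q‖ := by
  have := pvyf_D_sep (pvyf_at_mem.1 hp).2.2 (pvyf_tube hτ hδ hq hbar)
  linarith

end zones

end Claimed.Agent.R289
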