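-- KEEP
import Claimed.Agent.R289.Tr.StateP
import Claimed.Agent.R289.Tr.LaneP
import Claimed.Agent.R289.Tr.LaneS
import Claimed.Agent.R289.Tr.MenuGeo
import Claimed.Agent.R289.Tr.MenuFit
import Claimed.Agent.R289.Tr.FitAcc
import Claimed.Agent.R289.Tr.Di
import Claimed.Agent.R289.Tr.FootT

/-!
# Row 289 (S0537, Cardy for Poisson-Voronoi), unit TR, ROAD P, file Tr/ModP : THE CONCRETE MODEL OF ROAD P      (owner helper8; prefix `pvmh_`, defs `pvmh*`, `Pvmh*`)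

`Tr/StateP.lean` (185, v2) is written over an ABSTRACT model `PvspMod τ` (numbers `N`, placed geometry `ty h z t : PvspTy`, `QB`, `Fit`).      Here: THE INSTANCE, on
`Tr/DiA` (212: family-free gates, `PvdaPass`), `Tr/Menu` (205: `PvmnType`, `pvmnMenuF`), `Tr/MenuGeo` (222: `pvmgPl`), `Tr/LaneP` (15: corridor, doors; PAIR FORM: the lane `ln` is an argument), `Tr/LaneS` (225: SPATIAL cut `pvlsMp`, `pvlsMm` of the strip, (G1)), `Tr/MenuFit` (8: FIT).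
**v2 (11:20Z; rulings P5, P7 (1) of 273)**: THREE FIXED ANNULI `𝔤.a 𝔤.b : Fin 3 → ℝ` (the answer of A6), no trial grid, no `PvdiTri`;   the menu is `{(τ, ln)}` (type, right lane);   `Fit` contains the GRID clause `∃ p, z = l9Pt h p` (field `pinsOK` asks it).

* §1 global numbers `PvmhNum` (units of `h`), `PvmhNum.OK`;  `a3 b3 rO rB`, **`NN : PvmnNum`** (cell units, INDEPENDENT OF `h`);   `pvmh_numOK`, `pvmh_num`, `pvmh_rel`: the hypotheses of `Tr/Menu` and of FIT hold at every scale `h > 0`.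
* §2 **THE MENU** `PvmhT 𝔤` = (type of the menu `NN` whose mark 5 is within `h` of the centre, lane `PvmnLaneR`): a `Fintype`;   `pvmhMenu : PvbMenu (PvmhT 𝔤)`.
* §3 placed geometry `PvmhNum.ty h z s : PvspTy`, `pvmh_wf : (ty h z s).Wf N z h`;   `pvpl_win`-lemma for closed windows.
* §4 `PvmhNum.Fit`, **`pvmhMod`** `: PvspMod (PvmhT 𝔤)`;   **`pvmh_fit_exists`** (P15, deterministic half): TRAP by the third gate + ends + mesh + two levels of no near return  ⟹  a type of the menu fits, WITH EVERY LANE (RIGHT = M11 chooses the lane: `Exit/PinsP.lean`).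
* §5 what a fit gives, in placed form (for STAB, FIT-IN): the two halves of the rim run in the cores of `Np`, `Nm`; the rim misses the strip.
-/

set_option autoImplicit false
set_option linter.unusedSectionVars false
set_option linter.unusedVariables false
set_option linter.unusedSimpArgs false

namespace Claimed.Agent.R289

open Relation Claims.C0467 Claimed.Agent.R291 Metric

/-! ## §1 numbers -/

/-- the global numbers of the model of road P, in units of `h` -/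
structure PvmhNum where
  /-- inner / outer radii of the THREE FIXED gate annuli (the answer of A6; ruling P7 (1) of 273) -/
  a : Fin 3 → ℝ
  b : Fin 3 → ℝ
  /-- mesh, cell size `dl = 1 / nd` -/
  mu : ℝ
  dl : ℝ
  nd : ℕ
  /-- the two levels of no near return -/
  d0 : ℝ
  e0 : ℝ
  d1 : ℝ
  e1 : ℝ
  /-- propensity threshold, lower bound of the lane event -/
  β : ℝ
  pst : ℝ

/-- relations between the global numbers -/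
structure PvmhNum.OK (𝔤 : PvmhNum) : Prop where
  /-- the radii: `PvxpNum.Wf 30 (10 ^ 4) 3` of A6 -/
  a_pos : 30 ≤ 𝔤.a 0
  ab : ∀ k, 2 * 𝔤.a k ≤ 𝔤.b k
  nest01 : 10 ^ 4 * 𝔤.b 0 ≤ 𝔤.a 1
  nest12 : 10 ^ 4 * 𝔤.b 1 ≤ 𝔤.a 2
  mu0 : 0 < 𝔤.mu
  mu_le : 3 * 𝔤.mu ≤ 𝔤.dl
  /-- (N1) of 277: the radius of the retained triangles is `dl h / 20` EXACTLY -/
  mu_eq : 𝔤.mu = 𝔤.dl / 20
  /-- M13 amended (205, 272): all placed cells and fine cells lie on ONE global grid `(dl h / 40) ℤ²` -/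
  nd0 : 0 < 𝔤.nd
  nd40 : 40 ∣ 𝔤.nd
  dl_eq : 𝔤.dl = 1 / 𝔤.nd
  d0_ge : 60 * 𝔤.dl ≤ 𝔤.d0
  d0_le : 𝔤.d0 ≤ 𝔤.e0
  e0_le : 10 * 𝔤.e0 ≤ 𝔤.d1
  d1_le : 𝔤.d1 ≤ 𝔤.e1
  e1_le : 𝔤.e1 ≤ 1 / 2

namespace PvmhNum

variable (𝔤 : PvmhNum)

/-- inner radius of the third gate annulus -/
def a3 : ℝ := 𝔤.a 2
/-- the trapped arc stays in `B(z, b3 h)` -/
def b3 : ℝ := 𝔤.b 2 + 1
/-- radius of the state region (`= PvspTy.rO`) -/
def rO : ℝ := 2 * 𝔤.b 1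
/-- radius of the ball part of the obstacle -/
def rB : ℝ := 𝔤.rO + 2

/-- **the numbers of the menu** (cell units) -/
noncomputable def NN : PvmnNum where
  nBx := ⌈(6 * 𝔤.b3 + 2 * 𝔤.dl) / 𝔤.dl⌉₊
  nC := ⌈(2 * 𝔤.b3 + 2 * 𝔤.dl) / 𝔤.dl⌉₊
  nF := ⌈(2 * 𝔤.b3 + 2 * 𝔤.dl) / 𝔤.dl⌉₊ + 20
  nW := ⌈(𝔤.e0 + 23 * 𝔤.dl) / 𝔤.dl⌉₊ + 1
  nP := ⌊𝔤.d1 / (2 * 𝔤.dl)⌋₊ - 1
  rO := 𝔤.rO / 𝔤.dl
  rB := 𝔤.rB / 𝔤.dl

/-- the FINE box (cells of size `dl h / 5`) which cuts the corridor into `Mm`, `Mp`: the ball `B(0, 2 h)` -/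
noncomputable def nK : ℕ := ⌈10 / 𝔤.dl⌉₊

/-- the numbers of `Tr/StateP` -/
def sp : PvspNum := ⟨𝔤.a, 𝔤.b, 𝔤.mu, 𝔤.β, 𝔤.pst⟩

end PvmhNum

theorem pvmh_eqns_cite : True := by
  have := @PvmhNum.a3.eq_1; have := @PvmhNum.b3.eq_1; have := @PvmhNum.rO.eq_1; have := @PvmhNum.rB.eq_1; have := @PvmhNum.NN.eq_1
  have := @PvmhNum.nK.eq_1; have := @PvmhNum.sp.eq_1
  trivial

section numbers

variable {𝔤 : PvmhNum} (H : 𝔤.OK) {h : ℝ}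

include H

theorem PvmhNum.OK.dl0 : 0 < 𝔤.dl := by have := H.mu0; have := H.mu_le; linarith

/-- basic facts on the radii -/
theorem pvmh_basic : 0 < 𝔤.dl ∧ 1200 * 𝔤.dl ≤ 1 ∧ 60 ≤ 𝔤.b 1 ∧ 𝔤.b 1 ≤ 𝔤.b 2 ∧
    10 ^ 4 * 𝔤.b 1 ≤ 𝔤.a 2 ∧ 𝔤.a 2 ≤ 𝔤.b 2 := by
  have h0 := H.dl0
  have a0 := H.a_pos; have b0 := H.ab 0; have b1 := H.ab 1; have b2 := H.ab 2; have n1 := H.nest01; have n2 := H.nest12
  refine ⟨h0, ?_, by linarith, by linarith, n2, by linarith⟩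
  have := H.d0_ge; have := H.d0_le; have := H.e0_le; have := H.d1_le; have := H.e1_le
  linarith

/-- the numbers of the menu are admissible -/
theorem pvmh_numOK : PvmnNumOK 𝔤.NN := by
  obtain ⟨h0, h1, h2, h3, h4, h5⟩ := pvmh_basic H
  have e1 : 𝔤.NN.rO = 𝔤.rO / 𝔤.dl := rfl
  have e2 : 𝔤.NN.rB = 𝔤.rB / 𝔤.dl := rfl
  have e3 : 𝔤.NN.nC = ⌈(2 * 𝔤.b3 + 2 * 𝔤.dl) / 𝔤.dl⌉₊ := rfl
  have e4 : 𝔤.NN.nF = ⌈(2 * 𝔤.b3 + 2 * 𝔤.dl) / 𝔤.dl⌉₊ + 20 := rfl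
  have e5 : 𝔤.NN.nBx = ⌈(6 * 𝔤.b3 + 2 * 𝔤.dl) / 𝔤.dl⌉₊ := rfl
  have r1 : 𝔤.rO = 2 * 𝔤.b 1 := rfl
  have r2 : 𝔤.rB = 𝔤.rO + 2 := rfl
  have r3 : 𝔤.b3 = 𝔤.b 2 + 1 := rfl
  refine ⟨?_, ?_, ?_, ?_, ?_⟩
  · rw [e1]; apply div_nonneg _ h0.le; rw [r1]; linarith
  · rw [e1, e2, r2, div_add' _ _ _ h0.ne', div_le_div_iff_of_pos_right h0]; linarith
  · rw [e2, e3]
    refine le_trans ?_ (Nat.le_ceil _)
    rw [div_add' _ _ _ h0.ne', div_le_div_iff_of_pos_right h0, r2, r1, r3]; linarith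
  · rw [e3, e4]
  · rw [e4, e5, ← Nat.ceil_add_natCast (by apply div_nonneg _ h0.le; rw [r3]; linarith)]
    apply Nat.ceil_le_ceil
    push_cast
    rw [div_add' _ _ _ h0.ne', div_le_div_iff_of_pos_right h0, r3]; linarith

/-- the numbers of FIT at the scale `h` -/
theorem pvmh_num (hh : 0 < h) : PvmfNum (𝔤.dl * h) (𝔤.mu * h) h (𝔤.a3 * h) (𝔤.b3 * h) (10 * 𝔤.b3 * h) (𝔤.d0 * h) (𝔤.e0 * h) (𝔤.d1 * h) (𝔤.e1 * h)
    (𝔤.dl * h * 𝔤.NN.rB) := by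
  obtain ⟨h0, h1, h2, h3, h4, h5⟩ := pvmh_basic H
  have e2 : 𝔤.NN.rB = 𝔤.rB / 𝔤.dl := rfl
  have r1 : 𝔤.rO = 2 * 𝔤.b 1 := rfl
  have r2 : 𝔤.rB = 𝔤.rO + 2 := rfl
  have r3 : 𝔤.b3 = 𝔤.b 2 + 1 := rfl
  have r4 : 𝔤.a3 = 𝔤.a 2 := rfl
  have eB : 𝔤.dl * h * 𝔤.NN.rB = 𝔤.rB * h := by rw [e2]; field_simp
  have hmu := H.mu0; have hml := H.mu_le
  have a1 := H.d0_ge; have a2 := H.d0_le; have a3 := H.e0_le; have a4 := H.d1_le; have a5 := H.e1_le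
  rw [eB]
  refine ⟨by positivity, by positivity, ?_, ?_, ?_, ?_, ?_, hh.le, ?_, ?_, ?_, ?_, ?_⟩
  · exact mul_le_mul_of_nonneg_right (by linarith) hh.le
  · nlinarith
  · exact mul_le_mul_of_nonneg_right a2 hh.le
  · nlinarith
  · exact mul_le_mul_of_nonneg_right a4 hh.le
  · rw [r3]; nlinarith
  · rw [r2, r1]; apply mul_nonneg _ hh.le; linarith
  · rw [r2, r1, r4]; nlinarith
  · rw [r3, r4]; exact mul_le_mul_of_nonneg_right (by linarith) hh.le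
  · rw [r3]; nlinarith

/-- the link between the numbers of FIT and the numbers of the menu at the scale `h` -/
theorem pvmh_rel (hh : 0 < h) : PvmfRel 𝔤.NN (𝔤.dl * h) (𝔤.mu * h) h (𝔤.b3 * h) (10 * 𝔤.b3 * h) (𝔤.e0 * h) (𝔤.d1 * h) := by
  obtain ⟨h0, h1, h2, h3, h4, h5⟩ := pvmh_basic H
  have e1 : 𝔤.NN.rO = 𝔤.rO / 𝔤.dl := rfl
  have e3 : 𝔤.NN.nC = ⌈(2 * 𝔤.b3 + 2 * 𝔤.dl) / 𝔤.dl⌉₊ := rfl
  have e4 : 𝔤.NN.nF = ⌈(2 * 𝔤.b3 + 2 * 𝔤.dl) / 𝔤.dl⌉₊ + 20 := rfl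
  have e5 : 𝔤.NN.nBx = ⌈(6 * 𝔤.b3 + 2 * 𝔤.dl) / 𝔤.dl⌉₊ := rfl
  have e6 : 𝔤.NN.nW = ⌈(𝔤.e0 + 23 * 𝔤.dl) / 𝔤.dl⌉₊ + 1 := rfl
  have e7 : 𝔤.NN.nP = ⌊𝔤.d1 / (2 * 𝔤.dl)⌋₊ - 1 := rfl
  have r1 : 𝔤.rO = 2 * 𝔤.b 1 := rfl
  have r3 : 𝔤.b3 = 𝔤.b 2 + 1 := rfl
  have hb : 61 ≤ 𝔤.b3 := by rw [r3]; linarith
  have hmu := H.mu0; have hml := H.mu_le
  have a1 := H.d0_ge; have a2 := H.d0_le; have a3 := H.e0_le; have a4 := H.d1_le; have a5 := H.e1_le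
  -- ceilings, multiplied by `dl`
  have c1 : ∀ x : ℝ, 0 ≤ x → x ≤ (⌈x / 𝔤.dl⌉₊ : ℝ) * 𝔤.dl ∧ (⌈x / 𝔤.dl⌉₊ : ℝ) * 𝔤.dl < x + 𝔤.dl := by
    intro x hx
    have u1 := Nat.le_ceil (x / 𝔤.dl)
    have u2 := Nat.ceil_lt_add_one (div_nonneg hx h0.le)
    rw [div_le_iff₀ h0] at u1
    constructor
    · exact u1
    · have : (⌈x / 𝔤.dl⌉₊ : ℝ) * 𝔤.dl < (x / 𝔤.dl + 1) * 𝔤.dl := mul_lt_mul_of_pos_right u2 h0
      rwa [add_mul, div_mul_cancel₀ _ h0.ne', one_mul] at this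
  obtain ⟨b1, b2⟩ := c1 (6 * 𝔤.b3 + 2 * 𝔤.dl) (by linarith)
  obtain ⟨b3, b4⟩ := c1 (2 * 𝔤.b3 + 2 * 𝔤.dl) (by linarith)
  obtain ⟨b5, b6⟩ := c1 (𝔤.e0 + 23 * 𝔤.dl) (by linarith)
  have f1 : (1 : ℝ) ≤ 𝔤.d1 / (2 * 𝔤.dl) := by rw [le_div_iff₀ (by linarith)]; linarith
  have f2 : 1 ≤ ⌊𝔤.d1 / (2 * 𝔤.dl)⌋₊ := Nat.le_floor (by exact_mod_cast f1)
  have f3 : ((⌊𝔤.d1 / (2 * 𝔤.dl)⌋₊ - 1 : ℕ) : ℝ) + 1 = (⌊𝔤.d1 / (2 * 𝔤.dl)⌋₊ : ℝ) := by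
    rw [Nat.cast_sub f2]; push_cast; ring
  have f4 : (⌊𝔤.d1 / (2 * 𝔤.dl)⌋₊ : ℝ) ≤ 𝔤.d1 / (2 * 𝔤.dl) := Nat.floor_le (by linarith)
  rw [le_div_iff₀ (by linarith)] at f4
  have sc : ∀ {A B : ℝ}, A ≤ B → A * h ≤ B * h := fun k => mul_le_mul_of_nonneg_right k hh.le
  have sl : ∀ {A B : ℝ}, A < B → A * h < B * h := fun k => mul_lt_mul_of_pos_right k hh
  refine ⟨?_, ?_, ?_, ?_, ?_, ?_, ?_⟩
  · rw [e1]
    have : 𝔤.dl * h * (𝔤.rO / 𝔤.dl) = 𝔤.rO * h := by field_simp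
    rw [this, r1]
    have := sc (show (1 : ℝ) ≤ 2 * 𝔤.b 1 by linarith)
    linarith
  · rw [e5]
    have := sc (show 6 * 𝔤.b3 + 𝔤.mu + 𝔤.dl ≤ (⌈(6 * 𝔤.b3 + 2 * 𝔤.dl) / 𝔤.dl⌉₊ : ℝ) * 𝔤.dl by linarith)
    linarith
  · rw [e3]
    have := sc (show 2 * 𝔤.b3 + 𝔤.mu + 𝔤.dl ≤ (⌈(2 * 𝔤.b3 + 2 * 𝔤.dl) / 𝔤.dl⌉₊ : ℝ) * 𝔤.dl by linarith)
    linarith
  · rw [e4]; push_cast
    have := sl (show 3 * ((⌈(2 * 𝔤.b3 + 2 * 𝔤.dl) / 𝔤.dl⌉₊ : ℝ) * 𝔤.dl + 21 * 𝔤.dl) < 2 * (6 * 𝔤.b3) by linarith)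
    linarith
  · rw [e6]; push_cast
    have := sl (show 𝔤.e0 + 23 * 𝔤.dl < (⌈(𝔤.e0 + 23 * 𝔤.dl) / 𝔤.dl⌉₊ : ℝ) * 𝔤.dl + 𝔤.dl by linarith)
    linarith
  · rw [e7, f3]
    have := sc f4
    linarith
  · rw [e5]
    have := sl (show 3 * ((⌈(6 * 𝔤.b3 + 2 * 𝔤.dl) / 𝔤.dl⌉₊ : ℝ) * 𝔤.dl + 5 * 𝔤.dl) < 2 * (10 * 𝔤.b3) by linarith)
    linarith

/-- the bars are small against the distance of the marks -/
theorem pvmh_bars : 2 * 𝔤.NN.nW + 2 ≤ 𝔤.NN.nP := by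
  obtain ⟨h0, h1, h2, h3, h4, h5⟩ := pvmh_basic H
  have e6 : 𝔤.NN.nW = ⌈(𝔤.e0 + 23 * 𝔤.dl) / 𝔤.dl⌉₊ + 1 := rfl
  have e7 : 𝔤.NN.nP = ⌊𝔤.d1 / (2 * 𝔤.dl)⌋₊ - 1 := rfl
  have a1 := H.d0_ge; have a2 := H.d0_le; have a3 := H.e0_le; have a4 := H.d1_le; have a5 := H.e1_le
  have u2 := Nat.ceil_lt_add_one (div_nonneg (by linarith : 0 ≤ 𝔤.e0 + 23 * 𝔤.dl) h0.le)
  have u3 := Nat.lt_floor_add_one (𝔤.d1 / (2 * 𝔤.dl))
  have f1 : (1 : ℝ) ≤ 𝔤.d1 / (2 * 𝔤.dl) := by rw [le_div_iff₀ (by linarith)]; linarith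
  have f2 : 1 ≤ ⌊𝔤.d1 / (2 * 𝔤.dl)⌋₊ := Nat.le_floor (by exact_mod_cast f1)
  have g1 : (𝔤.e0 + 23 * 𝔤.dl) / 𝔤.dl = 𝔤.e0 / 𝔤.dl + 23 := by field_simp
  have g2 : 5 * (𝔤.e0 / 𝔤.dl) ≤ 𝔤.d1 / (2 * 𝔤.dl) := by
    rw [le_div_iff₀ (by linarith)]
    have : 5 * (𝔤.e0 / 𝔤.dl) * (2 * 𝔤.dl) = 10 * 𝔤.e0 := by field_simp; ring
    linarith
  have g3 : 60 ≤ 𝔤.e0 / 𝔤.dl := by rw [le_div_iff₀ h0]; linarith
  rw [e6, e7]
  have : ((2 * (⌈(𝔤.e0 + 23 * 𝔤.dl) / 𝔤.dl⌉₊ + 1) + 2 : ℕ) : ℝ) + 1 ≤ (⌊𝔤.d1 / (2 * 𝔤.dl)⌋₊ : ℝ) := by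
    push_cast
    rw [g1] at u2
    -- integers: strict inequalities
    rw [g1]
    linarith
  have : 2 * (⌈(𝔤.e0 + 23 * 𝔤.dl) / 𝔤.dl⌉₊ + 1) + 2 + 1 ≤ ⌊𝔤.d1 / (2 * 𝔤.dl)⌋₊ := by exact_mod_cast this
  omega

end numbers

/-! ## §2 the menu -/

open Classical in
/-- **THE MENU OF ROAD P** (PAIR FORM, ruling P5 of 273): a type of the menu whose mark `5` (pin vertex) is within `h` of the centre, WITH THE CLAUSE ACC (114, rulings P12 P14 of 273: `Tr/FitAcc.lean`), and one of its lanes -/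
def PvmhT (𝔤 : PvmhNum) : Type :=
  Σ τ : {τ : PvmnType // τ ∈ (pvmnMenuF 𝔤.NN).filter fun τ => τ.q 5 ∈ pvmnBl (1 / 𝔤.dl) ∧ PvmaHasAcc 𝔤.NN τ}, {ln : ((ℤ × ℤ) × (ℤ × ℤ)) × ℕ // PvmnLaneR τ.1 ln.1 ln.2}

noncomputable instance pvmhTFintype (𝔤 : PvmhNum) : Fintype (PvmhT 𝔤) := by
  classical
  unfold PvmhT
  haveI : ∀ τ : PvmnType, Fintype {ln : ((ℤ × ℤ) × (ℤ × ℤ)) × ℕ // PvmnLaneR τ ln.1 ln.2} := fun τ => (pvlp_lanes_finite τ).fintype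
  infer_instance

namespace PvmhT

variable {𝔤 : PvmhNum} (s : PvmhT 𝔤)

/-- the plug type -/
def typ : PvmnType := s.1.1

theorem isType : PvmnIsType 𝔤.NN s.typ := by
  classical
  exact pvmn_mem_menuF.1 (Finset.mem_filter.1 s.1.2).1

/-- the white lane of the type (ruling P5 of 273: PAIR FORM) -/
def ln : ((ℤ × ℤ) × (ℤ × ℤ)) × ℕ := s.2.1

theorem isLane : PvmnLaneR s.typ s.ln.1 s.ln.2 := s.2.2

theorem ctr : s.typ.q 5 ∈ pvmnBl (1 / 𝔤.dl) := by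
  classical
  exact (Finset.mem_filter.1 s.1.2).2.1

/-- the clause ACC: the two axis rays from the tip cells leave the plug at once and stay apart -/
theorem acc : PvmaHasAcc 𝔤.NN s.typ := by
  classical
  exact (Finset.mem_filter.1 s.1.2).2.2

end PvmhT

/-- a type of the menu -/
def pvmhMk {𝔤 : PvmhNum} (τ : PvmnType) (ln : ((ℤ × ℤ) × (ℤ × ℤ)) × ℕ) (h1 : PvmnIsType 𝔤.NN τ) (h2 : τ.q 5 ∈ pvmnBl (1 / 𝔤.dl)) (h4 : PvmaHasAcc 𝔤.NN τ) (h3 : PvmnLaneR τ ln.1 ln.2) : PvmhT 𝔤 :=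
  ⟨⟨τ, by classical exact Finset.mem_filter.2 ⟨pvmn_mem_menuF.2 h1, h2, h4⟩⟩, ⟨ln, h3⟩⟩

/-- the numbers of the menu which `S6b` uses (ROADP sec. 0): `mc := 100 b₁`, `b2 := b₂ + 1`, `a3 := a₃`, `L := 10 (b₃ + 1) + 1` -/
noncomputable def pvmhMenu (𝔤 : PvmhNum) (H : 𝔤.OK) : PvbMenu (PvmhT 𝔤) where
  mc _ := 100 * 𝔤.b 0
  b2 _ := 𝔤.b 1 + 1
  a3 _ := 𝔤.a 2
  L := 10 * (𝔤.b 2 + 1) + 1
  mc_gt _ := by have := H.a_pos; have := H.ab 0; linarith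
  mc_lt _ := by have := H.a_pos; have := H.ab 0; have := H.ab 1; have := H.nest01; linarith
  a3_gt _ := by have := H.a_pos; have := H.ab 0; have := H.ab 1; have := H.nest01; have := H.nest12; linarith
  a3_le _ := by have := H.a_pos; have := H.ab 0; have := H.ab 1; have := H.ab 2; have := H.nest01; have := H.nest12; linarith

theorem pvmh_eqns_cite2 : True := by
  have := @PvmhT.eq_1; have := @PvmhT.typ.eq_1; have := @PvmhT.ln.eq_1; have := @pvmhMk.eq_1; have := @pvmhMenu.eq_1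
  trivial

/-- the ordered passages of 212 (third annulus) make a pin of the menu of road P -/
theorem pvmh_isPin {𝔤 : PvmhNum} (H : 𝔤.OK) {h : ℝ} (hh : 0 ≤ h) {P : PvbRim} {i0 : ℕ} {z : ℂ} (s : PvmhT 𝔤) {lo hi : Fin 3 → ℕ}
    (Hp : PvdaPass P z (𝔤.mu * h) i0 (fun k => 𝔤.a k * h) (fun k => 𝔤.b k * h) lo hi) (near : ‖P.v i0 - z‖ ≤ h) : PvbIsPin (pvmhMenu 𝔤 H) h P ⟨i0, z, s⟩ := by
  refine Hp.isPin (pvmhMenu 𝔤 H) 2 s near le_rfl ?_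
  show 𝔤.b 2 * h + 𝔤.mu * h ≤ (10 * (𝔤.b 2 + 1) + 1) * h
  have hmu : 𝔤.mu ≤ 1 := by
    have := H.mu0; have := H.mu_le; have := H.d0_ge; have := H.d0_le; have := H.e0_le; have := H.d1_le; have := H.e1_le
    linarith
  have hb : 0 ≤ 𝔤.b 2 := by have := H.a_pos; have := H.ab 0; have := H.ab 1; have := H.ab 2; have := H.nest01; have := H.nest12; linarith
  nlinarith

/-! ## §3 the placed geometry -/

/-- closed windows are windows -/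
theorem pvmh_win_closed {E : Set ℂ} (hE : IsClosed E) : PvplWin E := by
  exact pvmg_win_closed hE

/-- **the black tube on the positive side, SHORT** (cure of 114, ruling P10 (e) of 273): it stops at the mark `9`, where the door `N⁸ C₉` begins;   the last piece `C₉` belongs to the doors / funnels of 138, not to the candidate -/
def pvmhNp (τ : PvmnType) : Set (ℤ × ℤ) := pvtwN 2 (pvmnCells τ 5 8)

/-- the black tube on the negative side, SHORT: it starts at the mark `1` -/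
def pvmhNm (τ : PvmnType) : Set (ℤ × ℤ) := pvtwN 2 (pvmnCells τ 1 4)

theorem pvmh_Np_sub (τ : PvmnType) : pvmhNp τ ⊆ pvmnNp τ := pvtw_N_mono le_rfl (pvmn_cells_mono le_rfl (by norm_num))

theorem pvmh_Nm_sub (τ : PvmnType) : pvmhNm τ ⊆ pvmnNm τ := pvtw_N_mono le_rfl (pvmn_cells_mono (by norm_num) le_rfl)

namespace PvmhNum

variable (𝔤 : PvmhNum)

/-- translation of a set given relative to the centre -/
def at' (z : ℂ) (A : Set ℂ) : Set ℂ := (fun p => p + z) '' A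

/-- **the placed geometry of the candidate `(z, s)` at the scale `h`** -/
noncomputable def ty (h : ℝ) (z : ℂ) (s : PvmhT 𝔤) : PvspTy where
  col := s.typ.col
  Np := pvmgPl z (𝔤.dl * h) (pvmhNp s.typ)
  Nm := pvmgPl z (𝔤.dl * h) (pvmhNm s.typ)
  Mp := at' z (pvlsMp (𝔤.dl * h) s.typ s.ln)
  Mm := at' z (pvlsMm (𝔤.dl * h) s.typ s.ln)
  Tp := at' z (pvyfTp (𝔤.dl * h) s.typ (𝔤.a 1 * h) ((𝔤.b 1 + 1) * h))
  Tm := at' z (pvyfTm (𝔤.dl * h) s.typ (𝔤.a 1 * h) ((𝔤.b 1 + 1) * h))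
  Dp := (pvmgPl z (𝔤.dl * h) (pvmnDrp s.typ) ∩ pvmgPl z (𝔤.dl * h) (pvmhNp s.typ)) ∪ at' z (pvlpDB (𝔤.dl * h) s.typ s.ln)
  Dm := (pvmgPl z (𝔤.dl * h) (pvmnDrm s.typ) ∩ pvmgPl z (𝔤.dl * h) (pvmhNm s.typ)) ∪ at' z (pvlpDA (𝔤.dl * h) s.typ s.ln)
  Ep := closedBall z (𝔤.rO * h) ∪ pvmgPl z (𝔤.dl * h) (pvtwN 1 (pvmhNp s.typ ∪ pvtCells (𝔤.dl * h) (pvlsMp (𝔤.dl * h) s.typ s.ln)))
  Em := closedBall z (𝔤.rO * h) ∪ pvmgPl z (𝔤.dl * h) (pvtwN 1 (pvmhNm s.typ ∪ pvtCells (𝔤.dl * h) (pvlsMm (𝔤.dl * h) s.typ s.ln)))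
  EJ := pvmgPl z (𝔤.dl * h) (pvtwN 1 (pvtCells (𝔤.dl * h) (pvlpS (𝔤.dl * h) s.typ s.ln)))

/-- **EXACT FIT** (M6) + (G) + (F) + (NR₀) + (NR₁) in the window `B(z, 10 b₃ h)` + GRID -/
def Fit (h : ℝ) (P : PvbRim) (k : ℕ) (z : ℂ) (s : PvmhT 𝔤) : Prop :=
  (∃ p : ℤ × ℤ, z = l9Pt h p) ∧ ∃ tt : ℕ → ℕ, tt 5 = k ∧
    PvmfIn P z tt (𝔤.mu * h) h (𝔤.a3 * h) (𝔤.b3 * h) (10 * 𝔤.b3 * h) (𝔤.d0 * h) (𝔤.e0 * h) (𝔤.d1 * h) (𝔤.e1 * h) ∧
    PvmnFits s.typ (𝔤.dl * h) (fun i => P.v i - z) (fun k => tt k.1)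

end PvmhNum

/-- **THE MODEL OF ROAD P** -/
noncomputable def pvmhMod (𝔤 : PvmhNum) (QB : ℝ → ℂ → Set (Conf PvPt)) : PvspMod (PvmhT 𝔤) where
  N := 𝔤.sp
  ty := 𝔤.ty
  QB := QB
  Fit := 𝔤.Fit

theorem pvmh_eqns_cite3 : True := by
  have := @pvmhNp.eq_1; have := @pvmhNm.eq_1; have := @PvmhNum.at'.eq_1; have := @PvmhNum.ty.eq_1; have := @PvmhNum.Fit.eq_1; have := @pvmhMod.eq_1
  trivial

section wf

variable {𝔤 : PvmhNum} (H : 𝔤.OK) {h : ℝ} (z : ℂ) (s : PvmhT 𝔤)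

/-- the radius of the state region is the one of `Tr/StateP` -/
theorem pvmh_rO : (𝔤.ty h z s).rO 𝔤.sp = 𝔤.rO := rfl

include H

/-- (T7), placed: the two black tubes meet only in `B(z, 3 h)` -/
theorem pvmh_tubes (hh : 0 < h) : pvmgPl z (𝔤.dl * h) (pvmnNp s.typ) ∩ pvmgPl z (𝔤.dl * h) (pvmnNm s.typ) ⊆ closedBall z (3 * h) := by
  have hdl := H.dl0
  have hδ : 0 < 𝔤.dl * h := mul_pos hdl hh
  intro p hp
  have h1 := pvmg_inter hδ hp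
  have hsub : pvtwN 1 (pvmnNp s.typ) ∩ pvmnNm s.typ ⊆ pvtwN 𝔤.NN.nW {s.typ.q 5} := by
    rintro c ⟨c1, c2⟩
    exact pvmn_Np_Nm s.isType ⟨pvtw_N_sub c2, pvtw_N_mono (by omega) le_rfl c1⟩
  have h2 := pvmg_mono hsub h1
  obtain ⟨q, hq, -, -, hn⟩ := pvmg_collar hδ h2
  have h3 : q ∈ closedBall z (𝔤.dl * h * (1 / 𝔤.dl + 2)) := pvmg_sub_ball hδ (Set.singleton_subset_iff.2 s.ctr) hq
  rw [mem_closedBall_iff_norm] at h3 ⊢
  have e : 𝔤.dl * h * (1 / 𝔤.dl + 2) = h + 2 * 𝔤.dl * h := by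
    field_simp
  rw [e] at h3
  have hW : ((𝔤.NN.nW : ℕ) : ℝ) * 𝔤.dl ≤ 𝔤.e0 + 25 * 𝔤.dl := by
    have e0pos : 0 ≤ (𝔤.e0 + 23 * 𝔤.dl) / 𝔤.dl := by
      have := H.d0_ge; have := H.d0_le
      exact div_nonneg (by linarith) hdl.le
    have k1 : ((⌈(𝔤.e0 + 23 * 𝔤.dl) / 𝔤.dl⌉₊ : ℕ) : ℝ) < (𝔤.e0 + 23 * 𝔤.dl) / 𝔤.dl + 1 := Nat.ceil_lt_add_one e0pos
    have k2 : ((𝔤.NN.nW : ℕ) : ℝ) = ((⌈(𝔤.e0 + 23 * 𝔤.dl) / 𝔤.dl⌉₊ : ℕ) : ℝ) + 1 := by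
      show ((⌈(𝔤.e0 + 23 * 𝔤.dl) / 𝔤.dl⌉₊ + 1 : ℕ) : ℝ) = _
      push_cast
      rfl
    rw [k2]
    have k3 : (𝔤.e0 + 23 * 𝔤.dl) / 𝔤.dl * 𝔤.dl = 𝔤.e0 + 23 * 𝔤.dl := div_mul_cancel₀ _ hdl.ne'
    nlinarith
  have hnum : 2 * 𝔤.e0 + 52 * 𝔤.dl ≤ 2 := by
    have := H.d0_ge; have := H.d0_le; have := H.e0_le; have := H.d1_le; have := H.e1_le
    linarith
  have h4 : ‖p - z‖ ≤ ‖p - q‖ + ‖q - z‖ := by
    have : p - z = (p - q) + (q - z) := by ring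
    rw [this]
    exact norm_add_le _ _
  have h5 : 2 * (((𝔤.NN.nW : ℕ) : ℝ) * (𝔤.dl * h)) ≤ 2 * (𝔤.e0 + 25 * 𝔤.dl) * h := by
    have := mul_le_mul_of_nonneg_right hW hh.le
    nlinarith
  have h6 : (2 * 𝔤.e0 + 52 * 𝔤.dl) * h ≤ 2 * h := mul_le_mul_of_nonneg_right hnum hh.le
  nlinarith

theorem pvmhq_K_le (n : ℕ) (τ : PvmnType) (ln : ((ℤ × ℤ) × (ℤ × ℤ)) × ℕ) : pvlpK n τ ln ≤ pvlpN τ ln := by
  classical
  unfold pvlpK
  split_ifs with hex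
  · exact (Nat.find_spec hex).1
  · exact Nat.zero_le _

theorem pvmhq_at_sub {δ : ℝ} (hδ : 0 < δ) (z : ℂ) (A : Set ℂ) : PvmhNum.at' z A ⊆ pvmgPl z δ (pvtCells δ A) :=
  Set.image_mono (pvt_cells_cover hδ)

theorem pvmhq_at_mono (z : ℂ) {A B : Set ℂ} (hAB : A ⊆ B) : PvmhNum.at' z A ⊆ PvmhNum.at' z B := Set.image_mono hAB

theorem pvmhq_at_compact (z : ℂ) {A : Set ℂ} (hA : IsCompact A) : IsCompact (PvmhNum.at' z A) :=
  hA.image (by fun_prop)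

/-- **the placed geometry is well formed** -/
theorem pvmh_wf (hh : 0 < h) : (𝔤.ty h z s).Wf 𝔤.sp z h := by
  have hdl := H.dl0
  have hδ : 0 < 𝔤.dl * h := mul_pos hdl hh
  have hr : 3 * (𝔤.mu * h) ≤ ((1 : ℕ) : ℝ) * (𝔤.dl * h) := by
    have := mul_le_mul_of_nonneg_right H.mu_le hh.le
    push_cast
    nlinarith
  have cW : ∀ a b, IsCompact (PvmhNum.at' z (pvlpWin (𝔤.dl * h) s.typ s.ln a b)) := fun a b => pvmhq_at_compact H z (pvlp_win_compact _ _ _ a b)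
  have fW : ∀ a b, (pvtCells (𝔤.dl * h) (pvlpWin (𝔤.dl * h) s.typ s.ln a b)).Finite := fun a b => pvt_cells_finite hδ (pvlp_win_compact _ _ _ a b).isBounded
  have fNp : (pvmhNp s.typ).Finite := pvtw_N_finite (pvmn_cells_finite _ _ _)
  have fNm : (pvmhNm s.typ).Finite := pvtw_N_finite (pvmn_cells_finite _ _ _)
  have fEp : (pvtwN 1 (pvmhNp s.typ ∪ pvtCells (𝔤.dl * h) (pvlsMp (𝔤.dl * h) s.typ s.ln))).Finite := pvtw_N_finite (fNp.union ((fW _ _).subset (pvt_cells_mono (pvls_Mp_sub _ _ _))))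
  have fEm : (pvtwN 1 (pvmhNm s.typ ∪ pvtCells (𝔤.dl * h) (pvlsMm (𝔤.dl * h) s.typ s.ln))).Finite := pvtw_N_finite (fNm.union ((fW _ _).subset (pvt_cells_mono (pvls_Mm_sub _ _ _))))
  have fEJ : (pvtwN 1 (pvtCells (𝔤.dl * h) (pvlpS (𝔤.dl * h) s.typ s.ln))).Finite := pvtw_N_finite (fW _ _)
  have a0 := H.a_pos; have b0 := H.ab 0; have b1 := H.ab 1; have b2 := H.ab 2; have n1 := H.nest01; have n2 := H.nest12
  refine {
    h0 := hh, mu0 := H.mu0, a_pos := H.a_pos, ab := ?_, nest01 := ?_, nest12 := ?_, mNp := pvmg_measurable, mNm := pvmg_measurable,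
    mMp := (pvmhq_at_compact H z (pvls_Mp_compact _ _ _)).measurableSet, mMm := (pvmhq_at_compact H z (pvls_Mm_compact s.isType s.isLane _)).measurableSet, mTp := pvyf_at_meas _ _ _ _ _ _, mTm := pvyf_at_meas _ _ _ _ _ _, mDp := (pvmg_measurable.inter pvmg_measurable).union (cW _ _).measurableSet, mDm := (pvmg_measurable.inter pvmg_measurable).union (cW _ _).measurableSet,
    wEp := pvmg_win_union isClosed_closedBall (pvmg_closed fEp), wEm := pvmg_win_union isClosed_closedBall (pvmg_closed fEm), wEJ := pvmg_win fEJ,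
    bEp := isBounded_closedBall.union (pvmg_bounded fEp), bEm := isBounded_closedBall.union (pvmg_bounded fEm), bEJ := pvmg_bounded fEJ,
    rO := ?_, O_p := Set.subset_union_left, O_m := Set.subset_union_left, core_p := ?_, core_m := ?_, core_J := ?_, tubes := ?_ }
  · intro k
    show 𝔤.a k ≤ 𝔤.b k - 2 * 𝔤.mu
    have := H.ab k
    have := H.mu_le; have := H.d0_ge; have := H.d0_le; have := H.e0_le; have := H.d1_le; have := H.e1_le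
    fin_cases k <;> simp only [Fin.zero_eta, Fin.mk_one, Fin.reduceFinMk] at this ⊢ <;> linarith
  · show 100 * (𝔤.b 0 + 1) ≤ 𝔤.a 1
    linarith
  · show 100 * (𝔤.b 1 + 1) ≤ 𝔤.a 2
    linarith
  · show 𝔤.b 1 + 1 + 3 * 𝔤.mu ≤ 2 * 𝔤.b 1
    have := H.mu_le; have := H.d0_ge; have := H.d0_le; have := H.e0_le; have := H.d1_le; have := H.e1_le
    linarith
  · refine Set.union_subset ?_ ?_
    · exact (pvmg_core_of hδ hr (pvtw_N_mono le_rfl Set.subset_union_left)).trans pvmg_core_union_right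
    · exact (pvmg_core_sub hδ hr (pvmhq_at_sub H hδ z _) (pvtw_N_mono le_rfl Set.subset_union_right)).trans pvmg_core_union_right
  · refine Set.union_subset ?_ ?_
    · exact (pvmg_core_of hδ hr (pvtw_N_mono le_rfl Set.subset_union_left)).trans pvmg_core_union_right
    · exact (pvmg_core_sub hδ hr (pvmhq_at_sub H hδ z _) (pvtw_N_mono le_rfl Set.subset_union_right)).trans pvmg_core_union_right
  · refine Set.union_subset ?_ ?_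
    · exact pvmg_core_sub hδ hr ((pvmhq_at_mono H z (pvls_Mm_sub _ _ _)).trans (pvmhq_at_sub H hδ z _)) le_rfl
    · exact pvmg_core_sub hδ hr ((pvmhq_at_mono H z (pvls_Mp_sub _ _ _)).trans (pvmhq_at_sub H hδ z _)) le_rfl
  · refine ((Set.inter_subset_inter (pvmg_mono (pvmh_Np_sub _)) (pvmg_mono (pvmh_Nm_sub _))).trans (pvmh_tubes H z s hh)).trans (closedBall_subset_closedBall ?_)
    show 3 * h ≤ 𝔤.a 1 * h
    nlinarith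

end wf

/-! ## §4 FIT at the model -/

section fit

variable {𝔤 : PvmhNum} (H : 𝔤.OK) {h : ℝ} {P : PvbRim} {z : ℂ} {i0 lo hi : ℕ}

include H

/-- **P15, deterministic half**: TRAP by the third gate, far ends, mesh and the two levels of no near return in the window `B(z, 10 b₃ h)`  ⟹  a type of the menu fits, with EVERY one of its lanes -/
theorem pvmh_fit_exists (hh : 0 < h) (col : Bool) (hz : ∃ p : ℤ × ℤ, z = l9Pt h p) (T : PvtpTrap P z i0 (𝔤.a3 * h) (𝔤.b3 * h) lo hi) (near : ‖P.v i0 - z‖ ≤ h)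
    (end0 : 10 * 𝔤.b3 * h ≤ ‖P.v 0 - z‖) (endn : 10 * 𝔤.b3 * h ≤ ‖P.v P.len - z‖)
    (mesh : ∀ k < P.len, (‖P.v k - z‖ ≤ 10 * 𝔤.b3 * h ∨ ‖P.v (k + 1) - z‖ ≤ 10 * 𝔤.b3 * h) → ‖P.v (k + 1) - P.v k‖ ≤ 𝔤.mu * h)
    (nr0 : PvtpNR P z (10 * 𝔤.b3 * h) (𝔤.d0 * h) (𝔤.e0 * h)) (nr1 : PvtpNR P z (10 * 𝔤.b3 * h) (𝔤.d1 * h) (𝔤.e1 * h)) :
    ∃ (τ : PvmnType) (h1 : PvmnIsType 𝔤.NN τ) (h2 : τ.q 5 ∈ pvmnBl (1 / 𝔤.dl)) (h4 : PvmaHasAcc 𝔤.NN τ), τ.col = col ∧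
      ∀ (ln : ((ℤ × ℤ) × (ℤ × ℤ)) × ℕ) (h3 : PvmnLaneR τ ln.1 ln.2), 𝔤.Fit h P i0 z (pvmhMk τ ln h1 h2 h4 h3) := by
  obtain ⟨tt, τ, h5, hcol, I, F, hτ⟩ := pvmf_exists (pvmh_num H hh) (pvmh_rel H hh) col T near end0 endn mesh nr0 nr1
  have hδ : 0 < 𝔤.dl * h := mul_pos H.dl0 hh
  have hq : τ.q 5 ∈ pvmnBl (1 / 𝔤.dl) := by
    rw [← pvmn_Bl_scale hδ]
    refine ⟨P.v (tt 5) - z, F.marks 5, ?_⟩
    rw [mem_closedBall_zero_iff, h5]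
    have e : 𝔤.dl * h * (1 / 𝔤.dl) = h := by
      have := H.dl0.ne'
      field_simp
    rw [e]
    exact near
  exact ⟨τ, pvmn_mem_menuF.1 hτ, hq, pvma_acc I (pvmh_num H hh) F, hcol, fun ln h3 => ⟨hz, tt, h5, I, F⟩⟩

/-- the TRAP from the ordered passages of 212 -/
theorem pvmh_trap {lo hi : Fin 3 → ℕ} (hh : 0 < h) (Hp : PvdaPass P z (𝔤.mu * h) i0 (fun k => 𝔤.a k * h) (fun k => 𝔤.b k * h) lo hi) :
    PvtpTrap P z i0 (𝔤.a3 * h) (𝔤.b3 * h) (lo 2) (hi 2) := by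
  refine ⟨(Hp.lo_lt 2).le, (Hp.lt_hi 2).le, (Hp.hi_lt 2).le, ?_, ?_⟩
  · intro i hi' hr
    have := Hp.visit 2 i hi' hr.le
    exact ⟨this.1.le, this.2.le⟩
  · intro i h1 h2
    refine lt_of_le_of_lt (Hp.diam 2 i h1 h2) ?_
    have hmu : 𝔤.mu < 1 := by
      have := H.mu0; have := H.mu_le; have := H.d0_ge; have := H.d0_le; have := H.e0_le; have := H.d1_le; have := H.e1_le
      linarith
    unfold PvmhNum.b3
    nlinarith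

/-- the fitting type is unique up to the choice of the cells of the marks -/
theorem pvmh_fit_C {s s' : PvmhT 𝔤} (hs : 𝔤.Fit h P i0 z s) (hs' : 𝔤.Fit h P i0 z s') : s.typ.C = s'.typ.C := by
  obtain ⟨-, tt, h5, I, F⟩ := hs
  obtain ⟨-, tt', h5', I', F'⟩ := hs'
  have e := pvmf_marks_unique I I' (h5.trans h5'.symm)
  have e2 : (fun k : Fin 11 => tt k.1) = fun k : Fin 11 => tt' k.1 := funext fun k => e k.1 (by have := k.2; omega)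
  rw [← e2] at F'
  exact pvmn_fits_C F F'

end fit

/-! ## §5 what a fit gives, in placed form -/

/-- pigeonhole on the marks -/
theorem pvmh_piece_idx (tt : ℕ → ℕ) (a k : ℕ) : ∀ b, a < b → tt a ≤ k → k ≤ tt b → ∃ j, a ≤ j ∧ j < b ∧ tt j ≤ k ∧ k ≤ tt (j + 1) := by
  intro b
  induction b with
  | zero => intro h; omega
  | succ b ih =>
    intro hab hk1 hk2
    by_cases hc : a < b ∧ k ≤ tt b
    · obtain ⟨j, h1, h2, h3, h4⟩ := ih hc.1 hk1 hc.2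
      exact ⟨j, h1, by omega, h3, h4⟩
    · refine ⟨b, by omega, by omega, ?_, hk2⟩
      rcases Nat.lt_or_ge a b with h | h
      · have : ¬ k ≤ tt b := fun h' => hc ⟨h, h'⟩
        omega
      · have e : a = b := by omega
        rw [← e]
        exact hk1

/-- a vertex of the rim between the marks `a < b` lies in the placed cells of the pieces `a..b-1` -/
theorem pvmh_vertex_cells {τ : PvmnType} {δ : ℝ} (hδ : 0 < δ) {P : PvbRim} {z : ℂ} {tt : ℕ → ℕ} (F : PvmnFits τ δ (fun i => P.v i - z) (fun k => tt k.1)) {a b : ℕ}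
    (hab : a < b) (hb : b ≤ 10) {k : ℕ} (hk1 : tt a ≤ k) (hk2 : k ≤ tt b) : P.v k ∈ pvmgPl z δ (pvmnCells τ a (b - 1)) := by
  obtain ⟨j, h1, h2, h3, h4⟩ := pvmh_piece_idx tt a k b hab hk1 hk2
  obtain ⟨c, hc⟩ := pvt_sq_cover hδ (P.v k - z)
  have hj : j < 10 := by omega
  have hmem : c ∈ (τ.C ⟨j, hj⟩ : Set (ℤ × ℤ)) := by
    rw [F.cells ⟨j, hj⟩]
    exact ⟨P.v k - z, hc, pvtx_vertex_mem (v := fun i => P.v i - z) h3 h4⟩
  exact pvmg_mem_sq.2 ⟨c, ⟨⟨j, hj⟩, h1, by show j ≤ b - 1; omega, hmem⟩, hc⟩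

/-- **M9, window form** (the proof of `pvlp_miss` of 15): the mesh is asked on the arc of the marks only, (NR) only for pairs one of whose indices lies on the arc of the marks -/
theorem pvmhm_miss {𝔑 : PvmnNum} {τ : PvmnType} {ln : ((ℤ × ℤ) × (ℤ × ℤ)) × ℕ} {δ μ d e : ℝ} {v : ℕ → ℂ} {t : Fin 11 → ℕ} {hi : ℕ}
    (hτ : PvmnIsType 𝔑 τ) (hl : PvmnLaneR τ ln.1 ln.2) (hfit : PvmnFits τ δ v t) (hδ : 0 < δ) (hμ : 0 ≤ μ) (hhi : t 10 ≤ hi)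
    (mesh : ∀ k, t 0 ≤ k → k < t 10 → ‖v (k + 1) - v k‖ ≤ μ)
    (hNR : ∀ k k', k ≤ k' → k' ≤ hi → ((t 0 ≤ k ∧ k ≤ t 10) ∨ (t 0 ≤ k' ∧ k' ≤ t 10)) → ‖v k - v k'‖ ≤ d → ∀ i, k ≤ i → i ≤ k' → ‖v i - v k‖ ≤ e) (hd : 16 * δ + μ ≤ d)
    (hb0 : 2 * e < ‖v (t 1) - v (t 0)‖) (hb9 : 2 * e < ‖v (t 10) - v (t 9)‖) :
    ∀ k, k ≤ hi → v k ∉ pvtU δ (pvtwN 2 (pvlpR τ ln)) := by
  intro k hk2 hmem
  obtain ⟨z, hz, hvz⟩ := Set.mem_iUnion₂.1 hmem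
  obtain ⟨r, hr, r1, r2, r3, r4⟩ := hz
  obtain ⟨⟨⟨c, hc, c1, c2, c3, c4⟩, hK3⟩, hdoor⟩ := pvlp_R_sub hτ hl hr
  obtain ⟨j, -, -, hcj⟩ := hc
  push_cast at r1 r2 r3 r4 c1 c2 c3 c4
  have hmono : Monotone t := Fin.monotone_iff_le_succ.2 hfit.mono
  have ht0 : ∀ a : Fin 11, t 0 ≤ t a := fun a => hmono (Fin.zero_le a)
  have ht10 : ∀ a : Fin 11, t a ≤ t 10 := fun a => hmono (Fin.le_last a)
  -- a vertex of the arc near `c`
  have hcj' : c ∈ pvtCells δ (pvtxPoly v (t j.castSucc) (t j.succ)) := by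
    rw [← hfit.cells j]; exact hcj
  obtain ⟨w, hwc, hwp⟩ := hcj'
  obtain ⟨i, hi1, hi2, hiw⟩ : ∃ i, t j.castSucc ≤ i ∧ i ≤ t j.succ ∧ ‖w - v i‖ ≤ μ := by
    rcases pvtx_mem_poly.1 hwp with rfl | ⟨i, h1, h2, h3⟩
    · exact ⟨_, le_rfl, hfit.mono j, by rw [sub_self, norm_zero]; exact hμ⟩
    · refine ⟨i, h1, h2.le, ?_⟩
      have hm := mesh i ((ht0 _).trans h1) (lt_of_lt_of_le h2 (ht10 _))
      have := norm_sub_le_of_mem_segment h3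
      exact this.trans hm
  have hdist : ‖v k - v i‖ ≤ d := by
    obtain ⟨a1, a2, a3, a4⟩ := hvz
    obtain ⟨b1, b2, b3, b4⟩ := hwc
    have z1 : (z.1 : ℝ) ≤ c.1 + 7 := by exact_mod_cast (show z.1 ≤ c.1 + 7 by omega)
    have z2 : (c.1 : ℝ) ≤ z.1 + 7 := by exact_mod_cast (show c.1 ≤ z.1 + 7 by omega)
    have z3 : (z.2 : ℝ) ≤ c.2 + 7 := by exact_mod_cast (show z.2 ≤ c.2 + 7 by omega)
    have z4 : (c.2 : ℝ) ≤ z.2 + 7 := by exact_mod_cast (show c.2 ≤ z.2 + 7 by omega)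
    have hre : |(v k - w).re| ≤ 8 * δ := by
      rw [Complex.sub_re, abs_le]; constructor <;> nlinarith
    have him : |(v k - w).im| ≤ 8 * δ := by
      rw [Complex.sub_im, abs_le]; constructor <;> nlinarith
    have h1 : ‖v k - w‖ ≤ 16 * δ := (Complex.norm_le_abs_re_add_abs_im _).trans (by linarith)
    calc ‖v k - v i‖ = ‖(v k - w) + (w - v i)‖ := by ring_nf
      _ ≤ ‖v k - w‖ + ‖w - v i‖ := norm_add_le _ _
      _ ≤ d := by linarith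
  have hi0 : t 0 ≤ i := (ht0 _).trans hi1
  have hi10 : i ≤ t 10 := hi2.trans (ht10 _)
  have hihi : i ≤ hi := hi2.trans ((ht10 _).trans hhi)
  have tri : ∀ a b o : ℂ, ‖a - o‖ ≤ e → ‖b - o‖ ≤ e → ‖a - b‖ ≤ 2 * e := by
    intro a b o h1 h2
    calc ‖a - b‖ = ‖(a - o) - (b - o)‖ := by ring_nf
      _ ≤ ‖a - o‖ + ‖b - o‖ := norm_sub_le _ _
      _ ≤ 2 * e := by linarith
  rcases lt_or_ge k (t 0) with hA | hA
  · -- before the arc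
    by_cases hj : j = 0
    · subst hj
      exact hdoor (Or.inl ⟨c, hcj, by push_cast; omega, by push_cast; omega, by push_cast; omega, by push_cast; omega⟩)
    · have h1j : t 1 ≤ t j.castSucc := hmono (by
        rw [Fin.le_def]
        have : j.1 ≠ 0 := fun h => hj (Fin.ext h)
        simp only [Fin.val_castSucc, Fin.val_one]
        omega)
      have hN := hNR k i (by have := ht0 1; omega) hihi (Or.inr ⟨hi0, hi10⟩) hdist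
      have := tri _ _ _ (hN (t 1) (by have := ht0 1; omega) (by omega)) (hN (t 0) hA.le (by have := ht0 1; omega))
      linarith
  · rcases lt_or_ge (t 10) k with hB | hB
    · by_cases hj : j = 9
      · subst hj
        exact hdoor (Or.inr ⟨c, hcj, by push_cast; omega, by push_cast; omega, by push_cast; omega, by push_cast; omega⟩)
      · have h9j : t j.succ ≤ t 9 := hmono (by
          rw [Fin.le_def]
          have : j.1 ≠ 9 := fun h => hj (Fin.ext h)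
          have := j.2
          simp only [Fin.val_succ]
          show j.1 + 1 ≤ 9
          omega)
        have hN := hNR i k (by have := ht10 9; omega) hk2 (Or.inl ⟨hi0, hi10⟩) (by rw [norm_sub_rev]; exact hdist)
        have := tri _ _ _ (hN (t 10) (by have := ht10 9; omega) hB.le) (hN (t 9) (by omega) (by have := ht10 9; omega))
        linarith
    · -- on the arc
      have hex : ∃ j' : Fin 10, t j'.castSucc ≤ k ∧ k ≤ t j'.succ := by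
        by_contra hno
        push Not at hno
        have h0 : t 0 ≤ k → t 1 < k := hno 0
        have h1 : t 1 ≤ k → t 2 < k := hno 1
        have h2 : t 2 ≤ k → t 3 < k := hno 2
        have h3 : t 3 ≤ k → t 4 < k := hno 3
        have h4 : t 4 ≤ k → t 5 < k := hno 4
        have h5 : t 5 ≤ k → t 6 < k := hno 5
        have h6 : t 6 ≤ k → t 7 < k := hno 6
        have h7 : t 7 ≤ k → t 8 < k := hno 7
        have h8 : t 8 ≤ k → t 9 < k := hno 8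
        have h9 : t 9 ≤ k → t 10 < k := hno 9
        omega
      obtain ⟨j', h1, h2⟩ := hex
      have hz' : z ∈ (τ.C j' : Set (ℤ × ℤ)) := by
        rw [hfit.cells j']
        exact ⟨v k, hvz, pvtx_vertex_mem h1 h2⟩
      apply hK3
      refine pvt_hull_sub ⟨z, ⟨j', Nat.zero_le _, by have := j'.2; omega, hz'⟩, ?_, ?_, ?_, ?_⟩ <;> push_cast <;> omega


section use

variable {𝔤 : PvmhNum} (H : 𝔤.OK) {h : ℝ} {P : PvbRim} {z : ℂ} {i0 : ℕ} {s : PvmhT 𝔤}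

include H

/-- FIT-IN, forward: after the pin vertex, up to the mark `9`, the rim runs in the `2 dl h`-core of `Np`;   it ends in the door -/
theorem pvmh_in_Np (hh : 0 < h) (F : 𝔤.Fit h P i0 z s) : ∃ T, i0 ≤ T ∧ T ≤ P.len ∧ P.v T ∈ (𝔤.ty h z s).Dp ∧
    ∀ k, i0 ≤ k → k ≤ T → closedBall (P.v k) (2 * (𝔤.dl * h)) ⊆ (𝔤.ty h z s).Np := by
  obtain ⟨-, tt, h5, hin, hfit⟩ := F
  have hδ : 0 < 𝔤.dl * h := mul_pos H.dl0 hh
  have hm := hin.marks 4 (by norm_num) (by norm_num)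
  have e9 : tt (5 + 4) = tt 9 := rfl
  rw [e9, h5] at hm
  refine ⟨tt 9, hm.le_mp, hm.mp_le, Or.inl ⟨?_, ?_⟩, fun k hk1 hk2 q hq => ?_⟩
  · have h1 := pvmh_vertex_cells hδ hfit (a := 9) (b := 10) (by norm_num) le_rfl (k := tt 9) le_rfl (hfit.mono 9)
    refine pvmg_mono ?_ h1
    rintro c ⟨j, j1, j2, j3⟩
    have e : j = 9 := Fin.ext (by show j.1 = 9; omega)
    rw [e] at j3
    exact pvtw_N_sub j3
  · have h1 := pvmh_vertex_cells hδ hfit (a := 5) (b := 9) (by norm_num) (by norm_num) (k := tt 9) (by rw [h5]; exact hm.le_mp) le_rfl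
    exact pvmg_mono pvtw_N_sub h1
  · have h1 := pvmh_vertex_cells hδ hfit (a := 5) (b := 9) (by norm_num) (by norm_num) (k := k) (by rw [h5]; exact hk1) hk2
    rw [mem_closedBall, dist_eq_norm] at hq
    exact pvmg_near (k := 2) hδ h1 (by push_cast; exact hq)

/-- FIT-IN, backward: from the mark `1` on -/
theorem pvmh_in_Nm (hh : 0 < h) (F : 𝔤.Fit h P i0 z s) : ∃ T, T ≤ i0 ∧ P.v T ∈ (𝔤.ty h z s).Dm ∧
    ∀ k, T ≤ k → k ≤ i0 → closedBall (P.v k) (2 * (𝔤.dl * h)) ⊆ (𝔤.ty h z s).Nm := by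
  obtain ⟨-, tt, h5, hin, hfit⟩ := F
  have hδ : 0 < 𝔤.dl * h := mul_pos H.dl0 hh
  have hm := hin.marks 4 (by norm_num) (by norm_num)
  have e1 : tt (5 - 4) = tt 1 := rfl
  rw [e1, h5] at hm
  refine ⟨tt 1, hm.mm_le, Or.inl ⟨?_, ?_⟩, fun k hk1 hk2 q hq => ?_⟩
  · have h1 := pvmh_vertex_cells hδ hfit (a := 0) (b := 1) (by norm_num) (by norm_num) (k := tt 1) (hfit.mono 0) le_rfl
    refine pvmg_mono ?_ h1
    rintro c ⟨j, j1, j2, j3⟩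
    have e : j = 0 := Fin.ext (by show j.1 = 0; omega)
    rw [e] at j3
    exact pvtw_N_sub j3
  · have h1 := pvmh_vertex_cells hδ hfit (a := 1) (b := 5) (by norm_num) (by norm_num) (k := tt 1) le_rfl (by rw [h5]; exact hm.mm_le)
    exact pvmg_mono pvtw_N_sub h1
  · have h1 := pvmh_vertex_cells hδ hfit (a := 1) (b := 5) (by norm_num) (by norm_num) (k := k) hk1 (by rw [h5]; exact hk2)
    rw [mem_closedBall, dist_eq_norm] at hq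
    exact pvmg_near (k := 2) hδ h1 (by push_cast; exact hq)

/-- **the rim misses the strip** (P11, P12): every vertex of the rim is `> dl h` away from the strip `J_κ` -/
theorem pvmh_miss (hh : 0 < h) (F : 𝔤.Fit h P i0 z s) : ∀ k ≤ P.len, ∀ p ∈ pvspJ (𝔤.ty h z s), 𝔤.dl * h < ‖P.v k - p‖ := by
  obtain ⟨-, tt, h5, I, hfit⟩ := F
  have N := pvmh_num H hh
  have hδ := N.δ_pos
  have C := I.cuts N
  intro k hk p hp
  have hq : ∃ q ∈ pvlpS (𝔤.dl * h) s.typ s.ln, p = q + z := by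
    rcases hp with ⟨q, hq, rfl⟩ | ⟨q, hq, rfl⟩
    · exact ⟨q, pvls_Mm_sub _ _ _ hq, rfl⟩
    · exact ⟨q, pvls_Mp_sub _ _ _ hq, rfl⟩
  obtain ⟨q, hq, rfl⟩ := hq
  have he0 := N.e0_pos
  have hmiss := pvmhm_miss (μ := 𝔤.mu * h) (d := 𝔤.d0 * h) (e := 𝔤.e0 * h) (hi := P.len) s.isType s.isLane hfit hδ N.μ_nn C.le_len (fun i h1 h2 => I.mesh' N i h1 h2)
    (fun a b hab hb hw hd i hi1 hi2 => by
      have hd' : ‖P.v a - P.v b‖ ≤ 𝔤.d0 * h := by rwa [pvmf_sub] at hd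
      have hwin : ‖P.v a - z‖ ≤ 10 * 𝔤.b3 * h ∨ ‖P.v b - z‖ ≤ 10 * 𝔤.b3 * h :=
        hw.imp (fun w => C.win a w.1 w.2) (fun w => C.win b w.1 w.2)
      show ‖(P.v i - z) - (P.v a - z)‖ ≤ 𝔤.e0 * h
      rw [pvmf_sub]
      exact I.nr0 a b hab hb hwin hd' i a hi1 hi2 le_rfl hab)
    (by have := N.d0_ge; have := N.μ_le; linarith)
    (by
      have h1 := I.big N 0 (by norm_num)
      show 2 * (𝔤.e0 * h) < ‖(P.v (tt 1) - z) - (P.v (tt 0) - z)‖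
      rw [pvmf_sub, norm_sub_rev]
      have := N.e0_le; have := N.d1_le
      linarith)
    (by
      have h1 := I.big N 9 (by norm_num)
      show 2 * (𝔤.e0 * h) < ‖(P.v (tt 10) - z) - (P.v (tt 9) - z)‖
      rw [pvmf_sub, norm_sub_rev]
      have := N.e0_le; have := N.d1_le
      linarith) k hk
  have h3 := pvlp_miss_strip s.isType s.isLane hδ hmiss hq
  have e : P.v k - (q + z) = (P.v k - z) - q := by ring
  rw [e]
  linarith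

end use

/-! ## §6 the reading ball, the menu is not empty      (for `PvrxPar.Wf` of 79, `Exit/TrP.lean`, and the flags of `Exit/PinsP.lean`) -/

/-- ONE reading radius (units of `h`): all that belongs to a candidate lies in `closedBall z (Lr h)` -/
def PvmhNum.Lr (𝔤 : PvmhNum) : ℝ := 20 * 𝔤.b3

theorem pvmh_eqns_cite4 : True := by
  have := @PvmhNum.Lr.eq_1
  trivial

section ball

variable {𝔤 : PvmhNum} (H : 𝔤.OK) {h : ℝ} (z : ℂ) (s : PvmhT 𝔤)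

include H

omit H in
/-- the cells which meet a union of cells are neighbours of these cells -/
theorem pvmh_w88_cells_U {δ : ℝ} (hδ : 0 < δ) (E : Set (ℤ × ℤ)) : pvtCells δ (pvtU δ E) ⊆ pvtwN 1 E := by
  rintro c ⟨p, ⟨c1, c2, c3, c4⟩, hp⟩
  obtain ⟨z, hz, z1, z2, z3, z4⟩ := Set.mem_iUnion₂.1 hp
  refine ⟨z, hz, ?_, ?_, ?_, ?_⟩
  · have : (c.1 : ℝ) * δ ≤ ((z.1 : ℝ) + 1) * δ := c1.trans z2
    have := le_of_mul_le_mul_right this hδ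
    push_cast
    exact_mod_cast this
  · have : (z.1 : ℝ) * δ ≤ ((c.1 : ℝ) + 1) * δ := z1.trans c2
    have := le_of_mul_le_mul_right this hδ
    push_cast
    exact_mod_cast this
  · have : (c.2 : ℝ) * δ ≤ ((z.2 : ℝ) + 1) * δ := c3.trans z4
    have := le_of_mul_le_mul_right this hδ
    push_cast
    exact_mod_cast this
  · have : (z.2 : ℝ) * δ ≤ ((c.2 : ℝ) + 1) * δ := z3.trans c4
    have := le_of_mul_le_mul_right this hδ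
    push_cast
    exact_mod_cast this

omit H in
/-- the collared cells of a window of the corridor lie in the box -/
theorem pvmh_w88_win_box {𝔑 : PvmnNum} {τ : PvmnType} {ln : ((ℤ × ℤ) × (ℤ × ℤ)) × ℕ} {δ : ℝ} {a b : ℕ} (hτ : PvmnIsType 𝔑 τ) (hl : PvmnLaneR τ ln.1 ln.2) (hδ : 0 < δ)
    (hb : b ≤ pvlpN τ ln) : pvtwN 1 (pvtCells δ (pvlpWin δ τ ln a b)) ⊆ pvmnBox (𝔑.nBx + 8) := by
  have h1 : pvmnCells τ 0 9 ⊆ pvmnBox 𝔑.nBx := pvmn_cells_box hτ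
  have h2 : pvlpR τ ln ⊆ pvmnBox (𝔑.nBx + 5) := fun c hc => pvmn_N_box h1 (pvlp_R_sub hτ hl hc).1.1
  have h3 : pvtCells δ (pvlpWin δ τ ln a b) ⊆ pvtwN 1 (pvtwN 1 (pvlpR τ ln)) :=
    (pvt_cells_mono (pvlp_win_sub hτ hl hδ hb)).trans (pvmh_w88_cells_U hδ _)
  have h4 : pvtwN 1 (pvtwN 1 (pvtwN 1 (pvlpR τ ln))) ⊆ pvmnBox (𝔑.nBx + 5 + 1 + 1 + 1) := pvmn_N_box (pvmn_N_box (pvmn_N_box h2))
  exact (pvtw_N_mono le_rfl h3).trans h4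

omit H in
/-- a straight rim -/
theorem pvmh_w88_straight {μ hh a b ρ d0 e0 d1 e1 : ℝ} (hμ : 0 < μ) (h0 : 0 ≤ hh) (ha : 0 ≤ a) (hab : a + μ < b) (hbρ : b ≤ ρ) (h00 : d0 ≤ e0) (h11 : d1 ≤ e1) :
    ∃ (P : PvbRim) (i0 lo hi : ℕ), PvtpTrap P 0 i0 a b lo hi ∧ ‖P.v i0 - 0‖ ≤ hh ∧ ρ ≤ ‖P.v 0 - 0‖ ∧ ρ ≤ ‖P.v P.len - 0‖ ∧
      (∀ k < P.len, (‖P.v k - 0‖ ≤ ρ ∨ ‖P.v (k + 1) - 0‖ ≤ ρ) → ‖P.v (k + 1) - P.v k‖ ≤ μ) ∧ PvtpNR P 0 ρ d0 e0 ∧ PvtpNR P 0 ρ d1 e1 := by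
  set N : ℕ := ⌈ρ / μ⌉₊ with hN
  set K : ℕ := ⌈a / μ⌉₊ with hK
  have hNρ : ρ ≤ (N : ℝ) * μ := by
    have := Nat.le_ceil (ρ / μ)
    rwa [div_le_iff₀ hμ] at this
  have hKa : a ≤ (K : ℝ) * μ := by
    have := Nat.le_ceil (a / μ)
    rwa [div_le_iff₀ hμ] at this
  have hKb : (K : ℝ) * μ < a + μ := by
    have := Nat.ceil_lt_add_one (div_nonneg ha hμ.le)
    have h2 : (K : ℝ) * μ < (a / μ + 1) * μ := mul_lt_mul_of_pos_right this hμ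
    rwa [add_mul, div_mul_cancel₀ _ hμ.ne', one_mul] at h2
  have hKN : K ≤ N := Nat.ceil_le_ceil (div_le_div_of_nonneg_right (by linarith) hμ.le)
  let P : PvbRim := ⟨2 * N, fun k => ((((k : ℝ) - N) * μ : ℝ) : ℂ), fun _ => 0, fun _ => 0, fun _ => 0⟩
  have hv : ∀ k, P.v k = ((((k : ℝ) - N) * μ : ℝ) : ℂ) := fun _ => rfl
  have hlen : P.len = 2 * N := rfl
  have hn : ∀ k, ‖P.v k - 0‖ = |(k : ℝ) - N| * μ := by
    intro k
    rw [sub_zero, hv, Complex.norm_real, Real.norm_eq_abs, abs_mul, abs_of_pos hμ]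
  have hd : ∀ k k', ‖P.v k - P.v k'‖ = |(k : ℝ) - k'| * μ := by
    intro k k'
    rw [hv, hv, ← Complex.ofReal_sub, Complex.norm_real, Real.norm_eq_abs, ← sub_mul, abs_mul, abs_of_pos hμ]
    congr 2
    ring
  have hNR : ∀ d e : ℝ, d ≤ e → PvtpNR P 0 ρ d e := by
    intro d e hde i j hij _ _ hdist k k' k1 k2 k3 k4
    rw [hd] at hdist ⊢
    refine le_trans ?_ (hdist.trans hde)
    refine mul_le_mul_of_nonneg_right ?_ hμ.le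
    have a1 : (i : ℝ) ≤ k := by exact_mod_cast k1
    have a2 : (k : ℝ) ≤ j := by exact_mod_cast k2
    have a3 : (i : ℝ) ≤ k' := by exact_mod_cast k3
    have a4 : (k' : ℝ) ≤ j := by exact_mod_cast k4
    rw [abs_le]
    have : |(i : ℝ) - j| = j - i := by rw [abs_sub_comm, abs_of_nonneg]; linarith
    rw [this]
    constructor <;> linarith
  refine ⟨P, N, N - K, N + K, ⟨by omega, by omega, by rw [hlen]; omega, ?_, ?_⟩, ?_, ?_, ?_, ?_, hNR _ _ h00, hNR _ _ h11⟩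
  · intro i _ hi
    rw [hn] at hi
    have h1 : |(i : ℝ) - N| < K := by
      have : |(i : ℝ) - N| * μ < (K : ℝ) * μ := lt_of_lt_of_le hi hKa
      exact lt_of_mul_lt_mul_right this hμ.le
    rw [abs_lt] at h1
    constructor
    · have : (N : ℝ) < i + K := by linarith [h1.1]
      have : N < i + K := by exact_mod_cast this
      omega
    · have : (i : ℝ) < N + K := by linarith [h1.2]
      have : i < N + K := by exact_mod_cast this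
      omega
  · intro i h1 h2
    rw [hn]
    refine lt_of_le_of_lt ?_ (hKb.trans hab)
    refine mul_le_mul_of_nonneg_right ?_ hμ.le
    rw [abs_le]
    have a1 : (N : ℝ) ≤ i + K := by exact_mod_cast (show N ≤ i + K by omega)
    have a2 : (i : ℝ) ≤ N + K := by exact_mod_cast h2
    constructor <;> linarith
  · rw [hn, sub_self, abs_zero, zero_mul]
    exact h0
  · rw [hn]
    push_cast
    rw [zero_sub, abs_neg, abs_of_nonneg (Nat.cast_nonneg _)]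
    exact hNρ
  · rw [hn, hlen]
    push_cast
    have : (2 : ℝ) * N - N = N := by ring
    rw [this, abs_of_nonneg (Nat.cast_nonneg _)]
    exact hNρ
  · intro k _ _
    rw [hd]
    push_cast
    have : (k : ℝ) + 1 - k = 1 := by ring
    rw [this, abs_one, one_mul]


/-- a set of cells in the box `nBx + 8`, placed, lies in the reading ball -/
theorem pvmh_w88_box_ball (hh : 0 < h) {E : Set (ℤ × ℤ)} (hE : E ⊆ pvmnBox (𝔤.NN.nBx + 8)) : pvmgPl z (𝔤.dl * h) E ⊆ closedBall z (𝔤.Lr * h) := by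
  obtain ⟨h0, h1, h2, h3, h4, h5⟩ := pvmh_basic H
  have hδ : 0 < 𝔤.dl * h := mul_pos h0 hh
  refine (pvmg_box_ball' hδ hE).trans (closedBall_subset_closedBall ?_)
  have e5 : 𝔤.NN.nBx = ⌈(6 * 𝔤.b3 + 2 * 𝔤.dl) / 𝔤.dl⌉₊ := rfl
  have r3 : 𝔤.b3 = 𝔤.b 2 + 1 := rfl
  have hb : 61 ≤ 𝔤.b3 := by rw [r3]; linarith
  have u2 := Nat.ceil_lt_add_one (div_nonneg (by linarith : 0 ≤ 6 * 𝔤.b3 + 2 * 𝔤.dl) h0.le)
  have u3 : (⌈(6 * 𝔤.b3 + 2 * 𝔤.dl) / 𝔤.dl⌉₊ : ℝ) * 𝔤.dl < 6 * 𝔤.b3 + 3 * 𝔤.dl := by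
    have : (⌈(6 * 𝔤.b3 + 2 * 𝔤.dl) / 𝔤.dl⌉₊ : ℝ) * 𝔤.dl < ((6 * 𝔤.b3 + 2 * 𝔤.dl) / 𝔤.dl + 1) * 𝔤.dl := mul_lt_mul_of_pos_right u2 h0
    rw [add_mul, div_mul_cancel₀ _ h0.ne', one_mul] at this
    linarith
  have eL : 𝔤.Lr = 20 * 𝔤.b3 := rfl
  rw [eL, e5]
  push_cast
  have : 2 * (((⌈(6 * 𝔤.b3 + 2 * 𝔤.dl) / 𝔤.dl⌉₊ : ℝ) + 8 + 1) * 𝔤.dl) ≤ 20 * 𝔤.b3 := by nlinarith
  calc 2 * (((⌈(6 * 𝔤.b3 + 2 * 𝔤.dl) / 𝔤.dl⌉₊ : ℝ) + 8 + 1) * (𝔤.dl * h)) = 2 * (((⌈(6 * 𝔤.b3 + 2 * 𝔤.dl) / 𝔤.dl⌉₊ : ℝ) + 8 + 1) * 𝔤.dl) * h := by ring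
    _ ≤ 20 * 𝔤.b3 * h := mul_le_mul_of_nonneg_right this hh.le

theorem pvmh_w88_rO_ball (hh : 0 < h) : closedBall z (𝔤.rO * h) ⊆ closedBall z (𝔤.Lr * h) := by
  obtain ⟨h0, h1, h2, h3, h4, h5⟩ := pvmh_basic H
  refine closedBall_subset_closedBall (mul_le_mul_of_nonneg_right ?_ hh.le)
  show 2 * 𝔤.b 1 ≤ 20 * (𝔤.b 2 + 1)
  linarith

/-- the window of `L^+` lies in the reading ball      [box `nBx ≤ (6 b₃ + 3 dl) / dl` (T1), tubes `N²`, lane in `N^7` of the cells, collar `N¹`, `√2 ≤ 3/2`] -/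
theorem pvmh_Ep_sub (hh : 0 < h) : (𝔤.ty h z s).Ep ⊆ closedBall z (𝔤.Lr * h) := by
  have hδ : 0 < 𝔤.dl * h := mul_pos H.dl0 hh
  refine Set.union_subset (pvmh_w88_rO_ball H z hh) (pvmh_w88_box_ball H z hh ?_)
  rw [pvtw_N_union]
  refine Set.union_subset ?_ ((pvtw_N_mono le_rfl (pvt_cells_mono (pvls_Mp_sub _ _ _))).trans (pvmh_w88_win_box s.isType s.isLane hδ le_rfl))
  have : pvtwN 1 (pvtwN 2 (pvmnCells s.typ 5 8)) ⊆ pvmnBox (𝔤.NN.nBx + 2 + 1) := pvmn_N_box (pvmn_N_box (pvmn_cells_box s.isType))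
  exact this.trans (pvmn_box_mono (by omega))

theorem pvmh_Em_sub (hh : 0 < h) : (𝔤.ty h z s).Em ⊆ closedBall z (𝔤.Lr * h) := by
  have hδ : 0 < 𝔤.dl * h := mul_pos H.dl0 hh
  refine Set.union_subset (pvmh_w88_rO_ball H z hh) (pvmh_w88_box_ball H z hh ?_)
  rw [pvtw_N_union]
  refine Set.union_subset ?_ ((pvtw_N_mono le_rfl (pvt_cells_mono (pvls_Mm_sub _ _ _))).trans (pvmh_w88_win_box s.isType s.isLane hδ le_rfl))
  have : pvtwN 1 (pvtwN 2 (pvmnCells s.typ 1 4)) ⊆ pvmnBox (𝔤.NN.nBx + 2 + 1) := pvmn_N_box (pvmn_N_box (pvmn_cells_box s.isType))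
  exact this.trans (pvmn_box_mono (by omega))

theorem pvmh_EJ_sub (hh : 0 < h) : (𝔤.ty h z s).EJ ⊆ closedBall z (𝔤.Lr * h) := by
  have hδ : 0 < 𝔤.dl * h := mul_pos H.dl0 hh
  exact pvmh_w88_box_ball H z hh (pvmh_w88_win_box s.isType s.isLane hδ le_rfl)

/-- the bar at the pin, placed, lies in `B(z, 3 h)` -/
theorem pvmh_bar (hh : 0 < h) : pvmgPl z (𝔤.dl * h) (pvmnBar 𝔤.NN s.typ 5) ⊆ closedBall z (3 * h) := by
  have hdl := H.dl0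
  have hδ : 0 < 𝔤.dl * h := mul_pos hdl hh
  intro p hp
  have h3 := pvls_bar_norm hδ s.ctr (pvmg_mem.1 hp)
  rw [mem_closedBall_iff_norm]
  have e : 𝔤.dl * h * (1 / 𝔤.dl + 2) = h + 2 * 𝔤.dl * h := by
    field_simp
  rw [e] at h3
  have hW : ((𝔤.NN.nW : ℕ) : ℝ) * 𝔤.dl ≤ 𝔤.e0 + 25 * 𝔤.dl := by
    have e0pos : 0 ≤ (𝔤.e0 + 23 * 𝔤.dl) / 𝔤.dl := by
      have := H.d0_ge; have := H.d0_le
      exact div_nonneg (by linarith) hdl.le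
    have k1 : ((⌈(𝔤.e0 + 23 * 𝔤.dl) / 𝔤.dl⌉₊ : ℕ) : ℝ) < (𝔤.e0 + 23 * 𝔤.dl) / 𝔤.dl + 1 := Nat.ceil_lt_add_one e0pos
    have k2 : ((𝔤.NN.nW : ℕ) : ℝ) = ((⌈(𝔤.e0 + 23 * 𝔤.dl) / 𝔤.dl⌉₊ : ℕ) : ℝ) + 1 := by
      show ((⌈(𝔤.e0 + 23 * 𝔤.dl) / 𝔤.dl⌉₊ + 1 : ℕ) : ℝ) = _
      push_cast
      rfl
    rw [k2]
    have k3 : (𝔤.e0 + 23 * 𝔤.dl) / 𝔤.dl * 𝔤.dl = 𝔤.e0 + 23 * 𝔤.dl := div_mul_cancel₀ _ hdl.ne'
    nlinarith
  have hnum : 2 * 𝔤.e0 + 52 * 𝔤.dl ≤ 2 := by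
    have := H.d0_ge; have := H.d0_le; have := H.e0_le; have := H.d1_le; have := H.e1_le
    linarith
  have h5 : 2 * (((𝔤.NN.nW : ℕ) : ℝ) * (𝔤.dl * h)) ≤ 2 * (𝔤.e0 + 25 * 𝔤.dl) * h := by
    have := mul_le_mul_of_nonneg_right hW hh.le
    nlinarith
  have h6 : (2 * 𝔤.e0 + 52 * 𝔤.dl) * h ≤ 2 * h := mul_le_mul_of_nonneg_right hnum hh.le
  nlinarith

/-- the bar at the pin, in the frame of the candidate, lies in the ball of radius `3 h` (the hypothesis `hbar` of `pvls_walk_Mp`, `pvls_walk_Mm`) -/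
theorem pvmh_bar_norm (hh : 0 < h) : ∀ p ∈ pvtU (𝔤.dl * h) (pvmnBar 𝔤.NN s.typ 5), ‖p‖ ≤ 3 * h := by
  intro p hp
  have := pvmh_bar H 0 s hh (pvmg_mem.2 (by rw [sub_zero]; exact hp))
  rwa [mem_closedBall_iff_norm, sub_zero] at this

omit H in
/-- the strip of the candidate -/
theorem pvmh_J (h : ℝ) : pvspJ (𝔤.ty h z s) = PvmhNum.at' z (pvlpS (𝔤.dl * h) s.typ s.ln) := by
  show PvmhNum.at' z (pvlsMm (𝔤.dl * h) s.typ s.ln) ∪ PvmhNum.at' z (pvlsMp (𝔤.dl * h) s.typ s.ln) = _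
  rw [pvls_union (𝔤.dl * h) s.typ s.ln]
  exact (Set.image_union _ _ _).symm

/-- **(G1) WITH MARGIN** (225, `Tr/LaneS`: the SPATIAL cut of the strip): off the state region the windows of `L^+` and of `L^-` are more than `2 dl h` apart -/
theorem pvmh_G1_far (hh : 0 < h) {p q : ℂ} (hp : p ∈ (𝔤.ty h z s).Ep) (hq : q ∈ (𝔤.ty h z s).Em) (hpO : p ∉ pvspO 𝔤.sp (𝔤.ty h z s) z h) (hqO : q ∉ pvspO 𝔤.sp (𝔤.ty h z s) z h) :
    2 * (𝔤.dl * h) < ‖p - q‖ := by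
  have hδ : 0 < 𝔤.dl * h := mul_pos H.dl0 hh
  by_contra hc
  rw [not_lt] at hc
  have hp' : p ∈ pvmgPl z (𝔤.dl * h) (pvlsEp (𝔤.dl * h) s.typ s.ln) := pvmg_mono (pvtw_N_mono le_rfl (Set.union_subset_union_left _ (pvmh_Np_sub _))) (hp.resolve_left hpO)
  have hq' : q ∈ pvmgPl z (𝔤.dl * h) (pvlsEm (𝔤.dl * h) s.typ s.ln) := pvmg_mono (pvtw_N_mono le_rfl (Set.union_subset_union_left _ (pvmh_Nm_sub _))) (hq.resolve_left hqO)
  have h1 := pvls_G1_far s.isType s.isLane hδ (pvmg_mem.1 hp') (pvmg_mem.1 hq') (by rw [sub_sub_sub_cancel_right]; exact hc)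
  refine hpO (closedBall_subset_closedBall ?_ (pvmh_bar H z s hh (pvmg_mem.2 h1)))
  show 3 * h ≤ 2 * 𝔤.b 1 * h
  have a0 := H.a_pos; have b0 := H.ab 0; have b1 := H.ab 1; have n1 := H.nest01
  nlinarith

/-- **(G1)**: the windows of the side events `L^+` and `L^-` of ONE candidate meet only in the state region      [consumers: `rE`, `rW` of `PvnwGeo.Hyp` (59 225), `dKK` of the engine at a plug with an in-link and an out-link (58 183 272)] -/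
theorem pvmh_G1 (hh : 0 < h) : (𝔤.ty h z s).Ep ∩ (𝔤.ty h z s).Em ⊆ pvspO 𝔤.sp (𝔤.ty h z s) z h := by
  rintro p ⟨h1, h2⟩
  by_contra hc
  have := pvmh_G1_far H z s hh h1 h2 hc hc
  rw [sub_self, norm_zero] at this
  have hδ : 0 < 𝔤.dl * h := mul_pos H.dl0 hh
  linarith

omit z s in
/-- the menu is not empty      [`pvmh_fit_exists` at a STRAIGHT polygon through `0` with steps `mu / 2` (scale `h = 1`, `z = 0 = l9Pt 1 0`), default lane `pvlp_lane`] -/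
theorem pvmh_nonempty : Nonempty (PvmhT 𝔤) := by
  obtain ⟨h0, h1, h2, h3, h4, h5⟩ := pvmh_basic H
  have hmu := H.mu0; have hml := H.mu_le
  have r3 : 𝔤.b3 = 𝔤.b 2 + 1 := rfl
  have r4 : 𝔤.a3 = 𝔤.a 2 := rfl
  obtain ⟨P, i0, lo, hi, T, near, e0, en, mesh, n0, n1⟩ := pvmh_w88_straight (μ := 𝔤.mu * 1) (hh := 1) (a := 𝔤.a3 * 1) (b := 𝔤.b3 * 1) (ρ := 10 * 𝔤.b3 * 1)
    (d0 := 𝔤.d0 * 1) (e0 := 𝔤.e0 * 1) (d1 := 𝔤.d1 * 1) (e1 := 𝔤.e1 * 1) (by linarith) zero_le_one (by rw [r4]; linarith) (by rw [r3, r4]; linarith) (by rw [r3]; linarith)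
    (by linarith [H.d0_le]) (by linarith [H.d1_le])
  obtain ⟨τ, a1, a2, a4, -, -⟩ := pvmh_fit_exists H one_pos true ⟨(0, 0), by simp [l9Pt]; rfl⟩ T near e0 en mesh n0 n1
  exact ⟨pvmhMk τ (pvlpE τ) a1 a2 a4 (pvlp_lane a1)⟩


end ball

end Claimed.Agent.R289
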