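-- KEEP
import Claimed.Agent.R289.Tr.ModP

/-!
# Row 289 (S0537), THE WALL, ROAD P, Tr/NumP : THE NUMBERS OF ROAD P ARE SATISFIABLE, IN THE ORDER OF THE CONSTANTS      (helper186, post (iv) of 273; prefix `pvnp_`)

The record of the numbers is `PvmhNum` / `PvmhNum.OK` of 8 (`Tr/ModP.lean` v2).      ORDER OF THE CONSTANTS (`ROADP_273.md` sec. 0, `exit_pins_a6` of 12):
    A6 answers the three annuli `a b`   →   the road announces the range of its flags (`𝔤.Lr = 20 (b 2 + 1)`: a function of `b` ALONE)   →   A6 answers the budget `ζ`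
    →   `e₁ := 1/2`   →   `d₁` (cost of the near-return flag of level 1: `pvnf_num` of 36, EVENTUALLY as `d ↓ 0`)   →   `e₀ := d₁ / 10`   →   `d₀` (level 0, the same)   →   `nd` (`40 ∣ nd`, `60 / nd ≤ d₀`), `dl := 1 / nd`, `mu := dl / 20`
    →   `p_*` (`wp`)   →   `β` (`wβ`, `Exit/ParP.lean`).
* `pvnp_pick` : a property which holds eventually as `d ↓ 0` holds at some `0 < d ≤ D`.
* **`pvnp_choose`** : for ANY two cost conditions `C1 d₁`, `C0 e₀ d₀` which hold eventually as `d ↓ 0` there are numbers `𝔤` with the given annuli, `𝔤.OK`, `C1 𝔤.d1`, `C0 𝔤.e0 𝔤.d0`.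
* `pvnp_sat` : `∃ 𝔤, 𝔤.OK` (explicit annuli).      `PvmhNum.wp`, `PvmhNum.OK.wp` : change of `p_*`.
* `pvnp_cut`, `pvnp_small` : inequalities asked by 263, 164.
-/

set_option autoImplicit false

namespace Claimed.Agent.R289

open Filter Topology Set

/-- a property which holds eventually as `d ↓ 0` holds at some `0 < d ≤ D` -/
theorem pvnp_pick {C : ℝ → Prop} (h : ∀ᶠ d in 𝓝[>] (0 : ℝ), C d) {D : ℝ} (hD : 0 < D) : ∃ d, 0 < d ∧ d ≤ D ∧ C d := by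
  have h2 : ∀ᶠ d in 𝓝[>] (0 : ℝ), d ∈ Ioc (0 : ℝ) D := Ioc_mem_nhdsGT hD
  obtain ⟨d, h3, h4⟩ := (h.and h2).exists
  exact ⟨d, h4.1, h4.2, h3⟩

/-- **THE NUMBERS OF ROAD P IN THE ORDER OF THE CONSTANTS** -/
theorem pvnp_choose (a b : Fin 3 → ℝ) (a_pos : 30 ≤ a 0) (ab : ∀ k, 2 * a k ≤ b k) (nest01 : 10 ^ 4 * b 0 ≤ a 1) (nest12 : 10 ^ 4 * b 1 ≤ a 2)
    {C1 : ℝ → Prop} {C0 : ℝ → ℝ → Prop} (h1 : ∀ᶠ d in 𝓝[>] (0 : ℝ), C1 d) (h0 : ∀ e : ℝ, 0 < e → ∀ᶠ d in 𝓝[>] (0 : ℝ), C0 e d) (β pst : ℝ) :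
    ∃ 𝔤 : PvmhNum, 𝔤.OK ∧ 𝔤.a = a ∧ 𝔤.b = b ∧ 𝔤.β = β ∧ 𝔤.pst = pst ∧ 𝔤.e1 = 1 / 2 ∧ 10 * 𝔤.e0 = 𝔤.d1 ∧ C1 𝔤.d1 ∧ C0 𝔤.e0 𝔤.d0 := by
  obtain ⟨d1, a1, a2, a3⟩ := pvnp_pick h1 (show (0 : ℝ) < 1 / 2 by norm_num)
  obtain ⟨d0, b1, b2, b3⟩ := pvnp_pick (h0 (d1 / 10) (by positivity)) (show (0 : ℝ) < d1 / 10 by positivity)
  have hq : 0 < ⌈60 / d0⌉₊ := Nat.ceil_pos.2 (by positivity)
  have hq' : (0 : ℝ) < ⌈60 / d0⌉₊ := by exact_mod_cast hq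
  have hn : (0 : ℝ) < ((40 * ⌈60 / d0⌉₊ : ℕ) : ℝ) := by push_cast; positivity
  refine ⟨⟨a, b, 1 / ((40 * ⌈60 / d0⌉₊ : ℕ) : ℝ) / 20, 1 / ((40 * ⌈60 / d0⌉₊ : ℕ) : ℝ), 40 * ⌈60 / d0⌉₊, d0, d1 / 10, d1, 1 / 2, β, pst⟩,
    ⟨a_pos, ab, nest01, nest12, ?_, ?_, rfl, by positivity, Dvd.intro _ rfl, rfl, ?_, b2, ?_, a2, le_rfl⟩, rfl, rfl, rfl, rfl, rfl, ?_, a3, b3⟩
  · show 0 < 1 / ((40 * ⌈60 / d0⌉₊ : ℕ) : ℝ) / 20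
    positivity
  · show 3 * (1 / ((40 * ⌈60 / d0⌉₊ : ℕ) : ℝ) / 20) ≤ 1 / ((40 * ⌈60 / d0⌉₊ : ℕ) : ℝ)
    have : 0 < 1 / ((40 * ⌈60 / d0⌉₊ : ℕ) : ℝ) := by positivity
    linarith
  · show 60 * (1 / ((40 * ⌈60 / d0⌉₊ : ℕ) : ℝ)) ≤ d0
    have := Nat.le_ceil (60 / d0)
    rw [div_le_iff₀ b1] at this
    rw [mul_one_div, div_le_iff₀ hn]
    push_cast
    nlinarith
  · show 10 * (d1 / 10) ≤ d1
    linarith
  · show 10 * (d1 / 10) = d1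
    ring

/-- **the constraints of road P are satisfiable** -/
theorem pvnp_sat : ∃ 𝔤 : PvmhNum, 𝔤.OK ∧ 𝔤.β = 1 ∧ 𝔤.pst = 1 := by
  obtain ⟨𝔤, H, -, -, h1, h2, -⟩ := pvnp_choose ![30, 6 * 10 ^ 5, 12 * 10 ^ 9] ![60, 12 * 10 ^ 5, 24 * 10 ^ 9] (by simp)
    (by intro k; fin_cases k <;> simp <;> norm_num) (by simp; norm_num) (by simp; norm_num)
    (C1 := fun _ => True) (C0 := fun _ _ => True) (Eventually.of_forall fun _ => trivial) (fun _ _ => Eventually.of_forall fun _ => trivial) 1 1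
  exact ⟨𝔤, H, h1, h2⟩

/-- the same numbers with another lower bound of the lane event -/
def PvmhNum.wp (𝔤 : PvmhNum) (p : ℝ) : PvmhNum := { 𝔤 with pst := p }

theorem pvnp_eqns_cite : True := by
  have := @PvmhNum.wp.eq_1
  trivial

theorem PvmhNum.OK.wp {𝔤 : PvmhNum} (H : 𝔤.OK) (p : ℝ) : (𝔤.wp p).OK :=
  ⟨H.a_pos, H.ab, H.nest01, H.nest12, H.mu0, H.mu_le, H.mu_eq, H.nd0, H.nd40, H.dl_eq, H.d0_ge, H.d0_le, H.e0_le, H.d1_le, H.e1_le⟩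

section use

variable {𝔤 : PvmhNum} (H : 𝔤.OK)

include H

/-- all the small numbers -/
theorem pvnp_small : 0 < 𝔤.mu ∧ 20 * 𝔤.mu = 𝔤.dl ∧ 60 * 𝔤.dl ≤ 𝔤.d0 ∧ 𝔤.d0 ≤ 𝔤.e0 ∧ 𝔤.e0 ≤ 1 / 20 ∧ 10 * 𝔤.e0 ≤ 𝔤.d1 ∧ 𝔤.d1 ≤ 𝔤.e1 ∧ 𝔤.e1 ≤ 1 / 2 ∧ 𝔤.dl ≤ 1 / 1200 := by
  have := H.mu0; have := H.mu_eq; have := H.d0_ge; have := H.d0_le; have := H.e0_le; have := H.d1_le; have := H.e1_le
  refine ⟨H.mu0, by linarith, H.d0_ge, H.d0_le, by linarith, H.e0_le, H.d1_le, H.e1_le, by linarith⟩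

/-- P4 (3) of 273 (263, `Tr/CutP.lean`): a near return of level `0` round the pin vertex stays inside the cut-off ball -/
theorem pvnp_cut (s : PvmhT 𝔤) : 𝔤.e0 + 1 + 4 * 𝔤.dl < (pvmhMenu 𝔤 H).mc s := by
  obtain ⟨-, -, -, -, h1, -, -, -, h2⟩ := pvnp_small H
  have := H.a_pos; have := H.ab 0
  show 𝔤.e0 + 1 + 4 * 𝔤.dl < 100 * 𝔤.b 0
  linarith

/-- the radii, in increasing order -/
theorem pvnp_radii : 30 ≤ 𝔤.a 0 ∧ 60 ≤ 𝔤.b 0 ∧ 6 * 10 ^ 5 ≤ 𝔤.a 1 ∧ 12 * 10 ^ 5 ≤ 𝔤.b 1 ∧ 12 * 10 ^ 9 ≤ 𝔤.a 2 ∧ 24 * 10 ^ 9 ≤ 𝔤.b 2 := by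
  have := H.a_pos; have := H.ab 0; have := H.ab 1; have := H.ab 2; have := H.nest01; have := H.nest12
  refine ⟨by linarith, by linarith, by linarith, by linarith, by linarith, by linarith⟩

end use

end Claimed.Agent.R289
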