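import Claimed.Agent.R289.Tr.FitP

/-!
# Row 289 (S0537, Cardy for Poisson-Voronoi), THE WALL, ROAD P, file Tr/CellRef : REFINEMENT OF CELLS, THE PLUG OF THE MENU AT THE PATTERN SCALE      (owner helper236, pen of `Exit/CoverP.lean`; prefix `pvrc_`, `pvrc`, `Pvrc`)      0 sorry

WHY.   The menu of road P (205, 8) lives on cells of side `dl h` (a FIXED fraction of `h`).      The pattern family of TR19-P (`Tr/FitP.lean`, 138) needs the witness of ACCESS = cells of the continuation of the rim OFF `N²(cells of the arc)` everywhere in `B(x,2R)`: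
at the cell size `dl h` this is "no near return `(~ 6 dl h, ~ 10 b₃ h)` at any centre", of probability `~ (R/h)^(2-c)`, NOT small.      M8 (d) of `MENU_205.md`: "never comes within the PATTERN SCALE of `γ` (TR20)".
CURE (adopted by 222 138, 10:52Z).   coarse cell of level `m`:  `dc_m = dl · pvlmDel c m = (dl h_m) / N_m`, `N_m = pvlmN c m`;   fine cell `dc_m / (2 mm + 1) = (Γ m).δ`;   plug of level `m` := `PL.ref N_m` = the plug of the menu, every cell cut into `N_m × N_m` cells.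
* sec. 1  `pvrcRef k E`: membership, Boolean algebra, squares (`pvrc_sq_sub`, `pvrc_U`), cells of a set (`pvrc_cells_sub`), neighbourhoods (`pvrc_N_sub`), shifts (`pvrc_ref_sh`), boxes, `PvfjFar`, blocks, **connectedness** `pvrc_conn4`, `pvrc_conn8`
* sec. 2  the small door `pvrcDoor k y d` (middle small cell of the side of `y` which looks at `d`), `pvrc_door_mem`, `pvrc_door_front`;   **`PvfjPlug.ref`**, **`PvfjPlug.WF.ref`**
* sec. 3  bridges: corners (`pvrc_pt`, `pvrc_l9`), polygons (`pvtxPoly` of `Tr/Track` = `pvtvPoly` of `Tr/Cover`), from distances to cells at ANY cell size (`pvrc_cells_disj`), a point of a placed big cell lies in a small cell of its block (`pvrc_cell_of_mem`)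
* sec. 4  **THE CELL ASSEMBLY**: record `PvrcPairIn PL k dc x R P s t cs0 ct0 Em Ep kb ib jf kf` (sets and distances in `ℂ` only; producer 222) and **`pvrc_met : PL.WF → PvrcPairIn .. → ‖x‖ + 3R + dc ≤ kB dc → PvfjMet (PL.ref k) dc kB P s t (k cs0) (k ct0)`**;   tools `pvrc_pl` (placed region = union of absolute squares), `pvrc_pl_ref`, `pvrc_sq_pl`, `pvrc_pl_cell`, `pvrc_box_in/out/zero`, `pvrc_wit` (one witness)
-/

set_option autoImplicit false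
set_option linter.unnecessarySeqFocus false

namespace Claimed.Agent.R289

open Relation Claims.C0467 Claimed.Agent.R291

/-! ## 1. refinement of cells -/

/-- **REFINEMENT**: every cell of `E` is cut into `k × k` cells -/
def pvrcRef (k : ℤ) (E : Set (ℤ × ℤ)) : Set (ℤ × ℤ) := {c | (c.1 / k, c.2 / k) ∈ E}

section ref

variable {k : ℤ} {E E' : Set (ℤ × ℤ)} {c p : ℤ × ℤ}

theorem pvrc_ref_iff (hk : 0 < k) : c ∈ pvrcRef k E ↔ ∃ p ∈ E, k * p.1 ≤ c.1 ∧ c.1 < k * p.1 + k ∧ k * p.2 ≤ c.2 ∧ c.2 < k * p.2 + k := by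
  constructor
  · intro h
    refine ⟨_, h, ?_⟩
    have h1 := (pvtb_div_spec hk (c.1 / k)).1 rfl
    have h2 := (pvtb_div_spec hk (c.2 / k)).1 rfl
    exact ⟨h1.1, h1.2, h2.1, h2.2⟩
  · rintro ⟨p, hp, h1, h2, h3, h4⟩
    have e1 : c.1 / k = p.1 := (pvtb_div_spec hk p.1).2 ⟨h1, h2⟩
    have e2 : c.2 / k = p.2 := (pvtb_div_spec hk p.2).2 ⟨h3, h4⟩
    show (c.1 / k, c.2 / k) ∈ E
    rw [e1, e2]
    exact hp

theorem pvrc_ref_mono (h : E ⊆ E') : pvrcRef k E ⊆ pvrcRef k E' := fun _ hc => h hc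

theorem pvrc_ref_union : pvrcRef k (E ∪ E') = pvrcRef k E ∪ pvrcRef k E' := rfl

theorem pvrc_ref_inter : pvrcRef k (E ∩ E') = pvrcRef k E ∩ pvrcRef k E' := rfl

theorem pvrc_ref_compl : pvrcRef k Eᶜ = (pvrcRef k E)ᶜ := rfl

theorem pvrc_ref_disj (h : Disjoint E E') : Disjoint (pvrcRef k E) (pvrcRef k E') :=
  Set.disjoint_left.2 fun _ h1 h2 => Set.disjoint_left.1 h h1 h2

/-- a small square lies in its big square -/
theorem pvrc_sq_sub {δ : ℝ} (hk : 0 < k) (hδ : 0 ≤ δ) (c : ℤ × ℤ) : pvtSq δ c ⊆ pvtSq ((k : ℝ) * δ) (c.1 / k, c.2 / k) := by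
  have h1 := (pvtb_div_spec hk (c.1 / k)).1 rfl
  have h2 := (pvtb_div_spec hk (c.2 / k)).1 rfl
  have a1 : ((k * (c.1 / k) : ℤ) : ℝ) ≤ (c.1 : ℝ) := by exact_mod_cast h1.1
  have a2 : (c.1 : ℝ) + 1 ≤ ((k * (c.1 / k) + k : ℤ) : ℝ) := by exact_mod_cast h1.2
  have b1 : ((k * (c.2 / k) : ℤ) : ℝ) ≤ (c.2 : ℝ) := by exact_mod_cast h2.1
  have b2 : (c.2 : ℝ) + 1 ≤ ((k * (c.2 / k) + k : ℤ) : ℝ) := by exact_mod_cast h2.2
  push_cast at a1 a2 b1 b2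
  rintro q ⟨q1, q2, q3, q4⟩
  refine ⟨?_, ?_, ?_, ?_⟩
  · show ((c.1 / k : ℤ) : ℝ) * ((k : ℝ) * δ) ≤ q.re
    nlinarith [mul_le_mul_of_nonneg_right a1 hδ]
  · show q.re ≤ (((c.1 / k : ℤ) : ℝ) + 1) * ((k : ℝ) * δ)
    nlinarith [mul_le_mul_of_nonneg_right a2 hδ]
  · show ((c.2 / k : ℤ) : ℝ) * ((k : ℝ) * δ) ≤ q.im
    nlinarith [mul_le_mul_of_nonneg_right b1 hδ]
  · show q.im ≤ (((c.2 / k : ℤ) : ℝ) + 1) * ((k : ℝ) * δ)
    nlinarith [mul_le_mul_of_nonneg_right b2 hδ]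

/-- the small cells which meet `X` refine big cells which meet `X` -/
theorem pvrc_cells_sub {δ : ℝ} (hk : 0 < k) (hδ : 0 ≤ δ) (X : Set ℂ) : pvtCells δ X ⊆ pvrcRef k (pvtCells ((k : ℝ) * δ) X) := by
  rintro c ⟨q, hq, hX⟩
  exact ⟨q, pvrc_sq_sub hk hδ c hq, hX⟩

/-- neighbourhoods: `j ≤ k` small cells are at most one big cell -/
theorem pvrc_N_sub (hk : 0 < k) {j : ℕ} (hj : (j : ℤ) ≤ k) : pvtwN j (pvrcRef k E) ⊆ pvrcRef k (pvtwN 1 E) := by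
  rintro w ⟨z, hz, h1, h2, h3, h4⟩
  obtain ⟨p, hp, p1, p2, p3, p4⟩ := (pvrc_ref_iff hk).1 hz
  have w1 := (pvtb_div_spec hk (w.1 / k)).1 rfl
  have w2 := (pvtb_div_spec hk (w.2 / k)).1 rfl
  refine ⟨p, hp, ?_, ?_, ?_, ?_⟩
  · show w.1 / k ≤ p.1 + ((1 : ℕ) : ℤ)
    by_contra hcon
    have : p.1 + 2 ≤ w.1 / k := by push_cast at hcon; omega
    nlinarith
  · show p.1 ≤ w.1 / k + ((1 : ℕ) : ℤ)
    by_contra hcon
    have : w.1 / k + 2 ≤ p.1 := by push_cast at hcon; omega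
    nlinarith
  · show w.2 / k ≤ p.2 + ((1 : ℕ) : ℤ)
    by_contra hcon
    have : p.2 + 2 ≤ w.2 / k := by push_cast at hcon; omega
    nlinarith
  · show p.2 ≤ w.2 / k + ((1 : ℕ) : ℤ)
    by_contra hcon
    have : w.2 / k + 2 ≤ p.2 := by push_cast at hcon; omega
    nlinarith

/-- shifts -/
theorem pvrc_ref_sh (hk : 0 < k) (a : ℤ × ℤ) : pvfjSh (k * a.1, k * a.2) (pvrcRef k E) = pvrcRef k (pvfjSh a E) := by
  ext c
  constructor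
  · rintro ⟨u, hu, rfl⟩
    refine ⟨(u.1 / k, u.2 / k), hu, ?_⟩
    show (u.1 / k + a.1, u.2 / k + a.2) = ((u.1 + k * a.1) / k, (u.2 + k * a.2) / k)
    rw [Int.add_mul_ediv_left _ _ hk.ne', Int.add_mul_ediv_left _ _ hk.ne']
  · rintro ⟨u, hu, he⟩
    have e1 : u.1 + a.1 = c.1 / k := congrArg Prod.fst he
    have e2 : u.2 + a.2 = c.2 / k := congrArg Prod.snd he
    refine ⟨(c.1 - k * a.1, c.2 - k * a.2), ?_, by ext <;> simp⟩
    show ((c.1 - k * a.1) / k, (c.2 - k * a.2) / k) ∈ E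
    have f1 : (c.1 - k * a.1) / k = u.1 := by
      rw [sub_eq_add_neg, ← mul_neg, Int.add_mul_ediv_left _ _ hk.ne', ← e1]; ring
    have f2 : (c.2 - k * a.2) / k = u.2 := by
      rw [sub_eq_add_neg, ← mul_neg, Int.add_mul_ediv_left _ _ hk.ne', ← e2]; ring
    rw [f1, f2]
    exact hu

/-- boxes -/
theorem pvrc_ref_box {n : ℕ} {k : ℕ} (hk : 0 < k) (h : E ⊆ pvmnBox n) : pvrcRef (k : ℤ) E ⊆ pvmnBox (k * (n + 1)) := by
  intro c hc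
  obtain ⟨p, hp, p1, p2, p3, p4⟩ := (pvrc_ref_iff (by exact_mod_cast hk)).1 hc
  obtain ⟨b1, b2, b3, b4⟩ := h hp
  have hk' : (0 : ℤ) < k := by exact_mod_cast hk
  refine ⟨?_, ?_, ?_, ?_⟩ <;> push_cast <;> nlinarith

/-- far cells stay far -/
theorem pvrc_far (hk : 0 < k) {p q : ℤ × ℤ} (h : PvfjFar (p.1 / k, p.2 / k) (q.1 / k, q.2 / k)) : PvfjFar p q := by
  obtain ⟨h1, h2⟩ := h
  rw [pvtb_G8_adj] at h2
  have p1 := (pvtb_div_spec hk (p.1 / k)).1 rfl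
  have p2 := (pvtb_div_spec hk (p.2 / k)).1 rfl
  have q1 := (pvtb_div_spec hk (q.1 / k)).1 rfl
  have q2 := (pvtb_div_spec hk (q.2 / k)).1 rfl
  have key : ¬ (q.1 ≤ p.1 + 1 ∧ p.1 ≤ q.1 + 1 ∧ q.2 ≤ p.2 + 1 ∧ p.2 ≤ q.2 + 1) := by
    rintro ⟨a1, a2, a3, a4⟩
    apply h2
    refine ⟨h1, ?_, ?_, ?_, ?_⟩
    · show q.1 / k ≤ p.1 / k + 1
      by_contra hc
      have : p.1 / k + 2 ≤ q.1 / k := by omega
      nlinarith
    · show p.1 / k ≤ q.1 / k + 1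
      by_contra hc
      have : q.1 / k + 2 ≤ p.1 / k := by omega
      nlinarith
    · show q.2 / k ≤ p.2 / k + 1
      by_contra hc
      have : p.2 / k + 2 ≤ q.2 / k := by omega
      nlinarith
    · show p.2 / k ≤ q.2 / k + 1
      by_contra hc
      have : q.2 / k + 2 ≤ p.2 / k := by omega
      nlinarith
  refine ⟨?_, ?_⟩
  · rintro rfl
    exact key ⟨by omega, by omega, by omega, by omega⟩
  · rw [pvtb_G8_adj]
    exact fun h => key h.2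

/-- the block of one cell -/
theorem pvrc_block (hk : 0 < k) (p : ℤ × ℤ) : pvrcRef k {p} = tscBox (k * p.1) (k * p.1 + k - 1) (k * p.2) (k * p.2 + k - 1) := by
  ext c
  rw [pvrc_ref_iff hk]
  constructor
  · rintro ⟨_, rfl, h1, h2, h3, h4⟩
    exact ⟨h1, by omega, h3, by omega⟩
  · rintro ⟨h1, h2, h3, h4⟩
    exact ⟨p, rfl, h1, by omega, h3, by omega⟩

theorem pvrc_block_sub (hp : p ∈ E) : pvrcRef k {p} ⊆ pvrcRef k E := pvrc_ref_mono (Set.singleton_subset_iff.2 hp)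

theorem pvrc_mem_block (c : ℤ × ℤ) : c ∈ pvrcRef k {((c.1 / k, c.2 / k) : ℤ × ℤ)} := rfl

/-- **connectedness passes to the refinement** (any graph between `G4` and the graph whose adjacent blocks touch) -/
theorem pvrc_conn_gen {G : SimpleGraph (ℤ × ℤ)} (hk : 0 < k) (h4 : ∀ u v, pvtbG4.Adj u v → G.Adj u v)
    (hadj : ∀ p q, G.Adj p q → ∃ a ∈ pvrcRef k {p}, ∃ b ∈ pvrcRef k {q}, G.Adj a b) (hE : TscConn G E) : TscConn G (pvrcRef k E) := by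
  have blk : ∀ p ∈ E, ∀ a ∈ pvrcRef k {p}, ∀ b ∈ pvrcRef k {p}, TscR G (pvrcRef k E) a b := by
    intro p hp a ha b hb
    have h := pvtb_box_conn (k * p.1) (k * p.1 + k - 1) (k * p.2) (k * p.2 + k - 1)
    rw [← pvrc_block hk p] at h
    exact tsc_R_mono (pvrc_block_sub hp) (pvtb_R_le h4 (h a ha b hb))
  intro u hu v hv
  have key : ∀ q, TscR G E (u.1 / k, u.2 / k) q → ∀ w ∈ pvrcRef k {q}, TscR G (pvrcRef k E) u w := by
    intro q hq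
    induction hq with
    | refl => exact fun w hw => blk _ hu u (pvrc_mem_block u) w hw
    | @tail b c _ hbc ih =>
      intro w hw
      obtain ⟨a, ha, a', ha', hA⟩ := hadj b c hbc.1
      exact tsc_R_trans (tsc_R_trans (ih a ha) (tsc_R_step hA (pvrc_block_sub hbc.2.1 ha) (pvrc_block_sub hbc.2.2 ha'))) (blk c hbc.2.2 a' ha' w hw)
  exact key _ (hE _ hu _ hv) v (pvrc_mem_block v)

theorem pvrc_conn4 (hk : 0 < k) (hE : TscConn pvtbG4 E) : TscConn pvtbG4 (pvrcRef k E) := by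
  refine pvrc_conn_gen hk (fun _ _ h => h) ?_ hE
  intro p q h
  rw [pvtb_G4_adj] at h
  simp only [pvrc_block hk]
  rcases h with ⟨h1, h2⟩ | ⟨h1, h2⟩ | ⟨h1, h2⟩ | ⟨h1, h2⟩
  · refine ⟨(k * p.1 + k - 1, k * p.2), ⟨by simp; omega, by simp, by simp, by simp; omega⟩, (k * q.1, k * q.2), ⟨by simp, by simp; omega, by simp, by simp; omega⟩, ?_⟩
    rw [pvtb_G4_adj, h1, h2]
    left
    constructor <;> simp <;> ring
  · refine ⟨(k * p.1, k * p.2), ⟨by simp, by simp; omega, by simp, by simp; omega⟩, (k * q.1 + k - 1, k * q.2), ⟨by simp; omega, by simp, by simp, by simp; omega⟩, ?_⟩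
    rw [pvtb_G4_adj, h1, h2]
    right; left
    constructor <;> simp <;> ring
  · refine ⟨(k * p.1, k * p.2 + k - 1), ⟨by simp, by simp; omega, by simp; omega, by simp⟩, (k * q.1, k * q.2), ⟨by simp, by simp; omega, by simp, by simp; omega⟩, ?_⟩
    rw [pvtb_G4_adj, h1, h2]
    right; right; left
    constructor <;> simp <;> ring
  · refine ⟨(k * p.1, k * p.2), ⟨by simp, by simp; omega, by simp, by simp; omega⟩, (k * q.1, k * q.2 + k - 1), ⟨by simp, by simp; omega, by simp; omega, by simp⟩, ?_⟩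
    rw [pvtb_G4_adj, h1, h2]
    right; right; right
    constructor <;> simp <;> ring

/-- the coordinate of the cell of the block `[k p, k p + k - 1]` nearest to the block of `q`, `|q - p| ≤ 1` -/
def pvrcNr (k p q : ℤ) : ℤ := if q = p + 1 then k * p + k - 1 else k * p

theorem pvrc_nr (k p q : ℤ) (h : q = p + 1 ∨ q = p ∨ p = q + 1) : pvrcNr k q p - pvrcNr k p q = q - p := by
  rcases h with rfl | rfl | rfl
  · have h1 : ¬ (p = p + 1 + 1) := by omega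
    simp only [pvrcNr, h1, if_false, if_true]
    ring
  · have h1 : ¬ (q = q + 1) := by omega
    simp only [pvrcNr, h1, if_false]
    ring
  · have h1 : ¬ (q = q + 1 + 1) := by omega
    simp only [pvrcNr, h1, if_false, if_true]
    ring

theorem pvrc_conn8 (hk : 0 < k) (hE : TscConn pvtbG8 E) : TscConn pvtbG8 (pvrcRef k E) := by
  refine pvrc_conn_gen hk (fun _ _ h => pvtb_G4_G8 h) ?_ hE
  intro p q h
  rw [pvtb_G8_adj] at h
  obtain ⟨hne, h1, h2, h3, h4⟩ := h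
  simp only [pvrc_block hk]
  refine ⟨(pvrcNr k p.1 q.1, pvrcNr k p.2 q.2), ?_, (pvrcNr k q.1 p.1, pvrcNr k q.2 p.2), ?_, ?_⟩
  · refine ⟨?_, ?_, ?_, ?_⟩ <;> simp only [pvrcNr] <;> split_ifs <;> omega
  · refine ⟨?_, ?_, ?_, ?_⟩ <;> simp only [pvrcNr] <;> split_ifs <;> omega
  · rw [pvtb_G8_adj]
    have hne' : p.1 ≠ q.1 ∨ p.2 ≠ q.2 := by
      by_contra hc
      rw [not_or, not_not, not_not] at hc
      exact hne (Prod.ext hc.1 hc.2)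
    have c1 := pvrc_nr k p.1 q.1 (by omega)
    have c2 := pvrc_nr k p.2 q.2 (by omega)
    refine ⟨fun e => ?_, ?_, ?_, ?_, ?_⟩
    · have e1 : pvrcNr k p.1 q.1 = pvrcNr k q.1 p.1 := congrArg Prod.fst e
      have e2 : pvrcNr k p.2 q.2 = pvrcNr k q.2 p.2 := congrArg Prod.snd e
      omega
    · show pvrcNr k q.1 p.1 ≤ pvrcNr k p.1 q.1 + 1
      omega
    · show pvrcNr k p.1 q.1 ≤ pvrcNr k q.1 p.1 + 1
      omega
    · show pvrcNr k q.2 p.2 ≤ pvrcNr k p.2 q.2 + 1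
      omega
    · show pvrcNr k p.2 q.2 ≤ pvrcNr k q.2 p.2 + 1
      omega

/-- the union of the small squares is the union of the big ones -/
theorem pvrc_U {δ : ℝ} (hk : 0 < k) (hδ : 0 < δ) (E : Set (ℤ × ℤ)) : pvtU δ (pvrcRef k E) = pvtU ((k : ℝ) * δ) E := by
  apply Set.Subset.antisymm
  · intro q hq
    simp only [pvtU, Set.mem_iUnion] at hq ⊢
    obtain ⟨c, hc, hq⟩ := hq
    exact ⟨_, hc, pvrc_sq_sub hk hδ.le c hq⟩
  · intro q hq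
    simp only [pvtU, Set.mem_iUnion] at hq ⊢
    obtain ⟨p, hp, q1, q2, q3, q4⟩ := hq
    have hkR : (0 : ℝ) < k := by exact_mod_cast hk
    -- the small cell: `min (⌊x/δ⌋) (k p + k - 1)`
    have coord : ∀ (x : ℝ) (a : ℤ), (a : ℝ) * ((k : ℝ) * δ) ≤ x → x ≤ ((a : ℝ) + 1) * ((k : ℝ) * δ) →
        ∃ i : ℤ, k * a ≤ i ∧ i < k * a + k ∧ (i : ℝ) * δ ≤ x ∧ x ≤ ((i : ℝ) + 1) * δ := by
      intro x a h1 h2
      by_cases hx : x < ((a : ℝ) + 1) * ((k : ℝ) * δ)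
      · refine ⟨⌊x / δ⌋, ?_, ?_, ?_, ?_⟩
        · rw [Int.le_floor, le_div_iff₀ hδ]
          push_cast
          linarith
        · rw [Int.floor_lt, div_lt_iff₀ hδ]
          push_cast
          linarith
        · have := Int.floor_le (x / δ)
          rwa [le_div_iff₀ hδ] at this
        · have := (Int.lt_floor_add_one (x / δ)).le
          rwa [div_le_iff₀ hδ] at this
      · have hx' : x = ((a : ℝ) + 1) * ((k : ℝ) * δ) := le_antisymm h2 (not_lt.1 hx)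
        refine ⟨k * a + k - 1, by omega, by omega, ?_, ?_⟩
        · push_cast
          rw [hx']
          nlinarith
        · push_cast
          rw [hx']
          nlinarith
    obtain ⟨i, i1, i2, i3, i4⟩ := coord q.re p.1 q1 q2
    obtain ⟨j, j1, j2, j3, j4⟩ := coord q.im p.2 q3 q4
    exact ⟨(i, j), (pvrc_ref_iff hk).2 ⟨p, hp, i1, i2, j1, j2⟩, i3, i4, j3, j4⟩

end ref

/-! ## 2. the refined plug -/

/-- the offset of the door cell inside its block -/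
def pvrcOf (k e : ℤ) : ℤ := if e = 1 then k - 1 else if e = -1 then 0 else k / 2

/-- **the small door**: the middle small cell of the side of the big cell `y` which looks in the direction `d` -/
def pvrcDoor (k : ℤ) (y d : ℤ × ℤ) : ℤ × ℤ := (k * y.1 + pvrcOf k d.1, k * y.2 + pvrcOf k d.2)

theorem pvrc_of_range {k : ℤ} (hk : 0 < k) (e : ℤ) : 0 ≤ pvrcOf k e ∧ pvrcOf k e < k := by
  unfold pvrcOf
  split_ifs
  · omega
  · omega
  · exact ⟨Int.ediv_nonneg hk.le (by norm_num), Int.ediv_lt_of_lt_mul (by norm_num) (by omega)⟩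

theorem pvrc_door_mem {k : ℤ} (hk : 0 < k) (y d : ℤ × ℤ) : pvrcDoor k y d ∈ pvrcRef k {y} := by
  rw [pvrc_ref_iff hk]
  have h1 := pvrc_of_range hk d.1
  have h2 := pvrc_of_range hk d.2
  exact ⟨y, rfl, by simp only [pvrcDoor]; omega, by simp only [pvrcDoor]; omega, by simp only [pvrcDoor]; omega, by simp only [pvrcDoor]; omega⟩

theorem pvrc_door_front {k : ℤ} (hk : 0 < k) (y : ℤ × ℤ) {d : ℤ × ℤ} (hd : PvfjDir d) : pvrcDoor k y d + d ∈ pvrcRef k {y + d} := by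
  rw [pvrc_ref_iff hk]
  have h0 := pvrc_of_range hk 0
  refine ⟨y + d, rfl, ?_⟩
  have e1 : pvrcOf k 1 = k - 1 := by simp [pvrcOf]
  have e2 : pvrcOf k (-1) = 0 := by simp [pvrcOf]
  rcases hd with rfl | rfl | rfl | rfl
  · refine ⟨?_, ?_, ?_, ?_⟩ <;> simp only [pvrcDoor, Prod.fst_add, Prod.snd_add, e1] <;> linarith [h0.1, h0.2]
  · refine ⟨?_, ?_, ?_, ?_⟩ <;> simp only [pvrcDoor, Prod.fst_add, Prod.snd_add, e2] <;> linarith [h0.1, h0.2]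
  · refine ⟨?_, ?_, ?_, ?_⟩ <;> simp only [pvrcDoor, Prod.fst_add, Prod.snd_add, e1] <;> linarith [h0.1, h0.2]
  · refine ⟨?_, ?_, ?_, ?_⟩ <;> simp only [pvrcDoor, Prod.fst_add, Prod.snd_add, e2] <;> linarith [h0.1, h0.2]

/-- **THE PLUG OF THE MENU IN THE CELLS OF THE PATTERN SCALE** -/
def PvfjPlug.ref {τ : Type} (𝔓 : PvfjPlug τ) (k : ℕ) : PvfjPlug τ where
  nB := k * (𝔓.nB + 1)
  B t := pvrcRef k (𝔓.B t)
  Ym t := pvrcRef k (𝔓.Ym t)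
  Yp t := pvrcRef k (𝔓.Yp t)
  ym t := pvrcDoor k (𝔓.ym t) (𝔓.dm t)
  dm := 𝔓.dm
  yp t := pvrcDoor k (𝔓.yp t) (𝔓.dp t)
  dp := 𝔓.dp

theorem PvfjPlug.WF.ref {τ : Type} {𝔓 : PvfjPlug τ} (h : 𝔓.WF) {k : ℕ} (hk : 0 < k) : (𝔓.ref k).WF where
  B_box t := pvrc_ref_box hk (h.B_box t)
  B_conn t := pvrc_conn8 (by exact_mod_cast hk) (h.B_conn t)
  Ym_sub t := pvrc_ref_mono (h.Ym_sub t)
  Yp_sub t := pvrc_ref_mono (h.Yp_sub t)
  Ym_conn t := pvrc_conn8 (by exact_mod_cast hk) (h.Ym_conn t)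
  Yp_conn t := pvrc_conn8 (by exact_mod_cast hk) (h.Yp_conn t)
  ym_mem t := pvrc_block_sub (h.ym_mem t) (pvrc_door_mem (by exact_mod_cast hk) _ _)
  yp_mem t := pvrc_block_sub (h.yp_mem t) (pvrc_door_mem (by exact_mod_cast hk) _ _)
  dm_dir := h.dm_dir
  dp_dir := h.dp_dir

theorem pvrc_eqns_cite : True := by
  have := @pvrcRef.eq_1; have := @pvrcNr.eq_1; have := @pvrcOf.eq_1; have := @pvrcDoor.eq_1; have := @PvfjPlug.ref.eq_1
  trivial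

/-! ## 3. bridges -/

/-- the corner of a big cell is the corner of a small cell -/
theorem pvrc_pt (k : ℤ) (δ : ℝ) (c : ℤ × ℤ) : pvmgPt ((k : ℝ) * δ) c = pvmgPt δ (k * c.1, k * c.2) := by
  unfold pvmgPt
  apply Complex.ext
  · show (c.1 : ℝ) * ((k : ℝ) * δ) = ((k * c.1 : ℤ) : ℝ) * δ
    push_cast; ring
  · show (c.2 : ℝ) * ((k : ℝ) * δ) = ((k * c.2 : ℤ) : ℝ) * δ
    push_cast; ring

/-- a point of the grid `h ℤ²` is a corner of the grid of mesh `δ`, `h = k δ` -/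
theorem pvrc_l9 {h δ : ℝ} {k : ℤ} (hk : h = (k : ℝ) * δ) (p : ℤ × ℤ) : l9Pt h p = pvmgPt δ (k * p.1, k * p.2) := by
  rw [← pvrc_pt, ← hk]
  rfl

/-- the two polygons -/
theorem pvrc_poly (P : PvbRim) {i j : ℕ} (hij : i < j) : pvtxPoly P.v i j = pvtvPoly P i j := by
  have h : ({P.v i} : Set ℂ) ∪ pvtvPoly P i j = pvtvPoly P i j :=
    Set.union_eq_right.2 (Set.singleton_subset_iff.2 (pvtv_vertex_mem_poly le_rfl hij.le hij))
  exact h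

theorem pvrc_poly_sub (P : PvbRim) (i j : ℕ) : pvtvPoly P i j ⊆ pvtxPoly P.v i j := Set.subset_union_right

/-- two points of squares at sup-distance `≤ j` -/
theorem pvrc_sq_dist {δ : ℝ} (hδ : 0 ≤ δ) {j : ℕ} {c z : ℤ × ℤ} (h1 : c.1 ≤ z.1 + j) (h2 : z.1 ≤ c.1 + j) (h3 : c.2 ≤ z.2 + j) (h4 : z.2 ≤ c.2 + j) {p q : ℂ}
    (hp : p ∈ pvtSq δ z) (hq : q ∈ pvtSq δ c) : ‖p - q‖ ≤ 2 * ((j : ℝ) + 1) * δ := by
  obtain ⟨p1, p2, p3, p4⟩ := hp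
  obtain ⟨q1, q2, q3, q4⟩ := hq
  have a1 : (c.1 : ℝ) ≤ (z.1 : ℝ) + j := by exact_mod_cast h1
  have a2 : (z.1 : ℝ) ≤ (c.1 : ℝ) + j := by exact_mod_cast h2
  have a3 : (c.2 : ℝ) ≤ (z.2 : ℝ) + j := by exact_mod_cast h3
  have a4 : (z.2 : ℝ) ≤ (c.2 : ℝ) + j := by exact_mod_cast h4
  have b1 := mul_le_mul_of_nonneg_right a1 hδ
  have b2 := mul_le_mul_of_nonneg_right a2 hδ
  have b3 := mul_le_mul_of_nonneg_right a3 hδ
  have b4 := mul_le_mul_of_nonneg_right a4 hδ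
  have hre : |(p - q).re| ≤ ((j : ℝ) + 1) * δ := by
    rw [Complex.sub_re, abs_le]
    constructor <;> nlinarith
  have him : |(p - q).im| ≤ ((j : ℝ) + 1) * δ := by
    rw [Complex.sub_im, abs_le]
    constructor <;> nlinarith
  calc ‖p - q‖ ≤ |(p - q).re| + |(p - q).im| := Complex.norm_le_abs_re_add_abs_im _
    _ ≤ 2 * ((j : ℝ) + 1) * δ := by linarith

/-- **FROM DISTANCES TO CELLS**, any cell size: sets more than `2 (j+1) δ` apart have `N^j`-disjoint cells -/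
theorem pvrc_cells_disj {δ : ℝ} (hδ : 0 ≤ δ) {j : ℕ} {X Y : Set ℂ} (h : ∀ p ∈ X, ∀ q ∈ Y, 2 * ((j : ℝ) + 1) * δ < ‖p - q‖) :
    Disjoint (pvtCells δ Y) (pvtwN j (pvtCells δ X)) := by
  rw [Set.disjoint_left]
  rintro c ⟨q, hq, hqY⟩ ⟨z, ⟨p, hp, hpX⟩, h1, h2, h3, h4⟩
  exact absurd (pvrc_sq_dist hδ h1 h2 h3 h4 hp hq) (not_le.2 (h p hpX q hqY))

/-- the same against a union of squares -/
theorem pvrc_cells_disj_U {δ : ℝ} (hδ : 0 ≤ δ) {E : Set (ℤ × ℤ)} {Y : Set ℂ} (h : ∀ p ∈ pvtU δ E, ∀ q ∈ Y, 2 * δ < ‖p - q‖) : Disjoint (pvtCells δ Y) E := by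
  rw [Set.disjoint_left]
  rintro c ⟨q, hq, hqY⟩ hc
  have hp : q ∈ pvtU δ E := by
    simp only [pvtU, Set.mem_iUnion]
    exact ⟨c, hc, hq⟩
  have := h q hp q hqY
  rw [sub_self, norm_zero] at this
  linarith

/-- a point of a big cell of `E` lies in a small cell of the refinement -/
theorem pvrc_cell_of_mem {k : ℤ} {δ : ℝ} (hk : 0 < k) (hδ : 0 < δ) {E : Set (ℤ × ℤ)} {q : ℂ} (hq : q ∈ pvtU ((k : ℝ) * δ) E) : ∃ c ∈ pvrcRef k E, q ∈ pvtSq δ c := by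
  rw [← pvrc_U hk hδ] at hq
  simp only [pvtU, Set.mem_iUnion] at hq
  obtain ⟨c, hc, hq⟩ := hq
  exact ⟨c, hc, hq⟩

/-! ## 4. THE CELL ASSEMBLY: from sets and distances in `ℂ` to the contract `PvfjMet` for the refined plug -/

section asm0

variable {δ : ℝ} {a c : ℤ × ℤ} {E E' : Set (ℤ × ℤ)} {p q x : ℂ}

theorem pvrc_sh_iff : c ∈ pvfjSh a E ↔ c - a ∈ E := by
  constructor
  · rintro ⟨u, hu, rfl⟩
    simpa using hu
  · intro h
    exact ⟨c - a, h, by simp⟩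

theorem pvrc_sh_disj (h : Disjoint E E') : Disjoint (pvfjSh a E) (pvfjSh a E') :=
  Set.disjoint_left.2 fun _ h1 h2 => Set.disjoint_left.1 h (pvrc_sh_iff.1 h1) (pvrc_sh_iff.1 h2)

theorem pvrc_sh_conn4 (h : TscConn pvtbG4 E) : TscConn pvtbG4 (pvfjSh a E) := by
  have key : ∀ u v, TscR pvtbG4 E u v → TscR pvtbG4 (pvfjSh a E) (u + a) (v + a) := by
    intro u v huv
    induction huv with
    | refl => exact ReflTransGen.refl
    | tail _ hbc ih =>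
      refine ih.tail ⟨?_, pvfj_sh_mem hbc.2.1, pvfj_sh_mem hbc.2.2⟩
      have := hbc.1
      rw [pvtb_G4_adj] at this ⊢
      simp only [Prod.fst_add, Prod.snd_add]
      omega
  rintro _ ⟨u, hu, rfl⟩ _ ⟨v, hv, rfl⟩
  exact key u v (h u hu v hv)

/-- a square moved by a corner -/
theorem pvrc_sq_sh : p ∈ pvtSq δ (c + a) ↔ p - pvmgPt δ a ∈ pvtSq δ c := by
  unfold pvtSq pvmgPt
  simp only [Set.mem_ofPred_eq, Prod.fst_add, Prod.snd_add, Complex.sub_re, Complex.sub_im, Int.cast_add]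
  constructor
  · rintro ⟨h1, h2, h3, h4⟩
    refine ⟨?_, ?_, ?_, ?_⟩ <;> nlinarith
  · rintro ⟨h1, h2, h3, h4⟩
    refine ⟨?_, ?_, ?_, ?_⟩ <;> nlinarith

/-- **the placed region in absolute cells** -/
theorem pvrc_pl (δ : ℝ) (a : ℤ × ℤ) (E : Set (ℤ × ℤ)) : pvmgPl (pvmgPt δ a) δ E = pvtU δ (pvfjSh a E) := by
  ext p
  rw [pvmg_mem_sq]
  simp only [pvtU, Set.mem_iUnion, exists_prop]
  constructor
  · rintro ⟨c, hc, hp⟩
    exact ⟨c + a, pvfj_sh_mem hc, pvrc_sq_sh.2 hp⟩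
  · rintro ⟨c, hc, hp⟩
    refine ⟨c - a, pvrc_sh_iff.1 hc, pvrc_sq_sh.1 ?_⟩
    rwa [sub_add_cancel]

/-- the corner of a square -/
theorem pvrc_corner (hδ : 0 ≤ δ) (c : ℤ × ℤ) : pvmgPt δ c ∈ pvtSq δ c := by
  unfold pvtSq pvmgPt
  refine ⟨le_rfl, ?_, le_rfl, ?_⟩ <;> simp only <;> nlinarith

theorem pvrc_G4 {u v : ℤ × ℤ} (h : pvtG4.Adj u v) : pvtbG4.Adj u v := by
  rw [pvtb_G4_adj]
  have h' : (v.1 = u.1 ∧ (v.2 = u.2 + 1 ∨ v.2 = u.2 - 1)) ∨ (v.2 = u.2 ∧ (v.1 = u.1 + 1 ∨ v.1 = u.1 - 1)) := h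
  omega

/-- the cells of a polygon are `G4`-connected -/
theorem pvrc_poly_conn4 (hδ : 0 < δ) (v : ℕ → ℂ) (i j : ℕ) : TscConn pvtbG4 (pvtCells δ (pvtxPoly v i j)) := fun u hu w hw =>
  pvtb_R_le (fun _ _ => pvrc_G4) (pvt_cells_conn4 hδ (pvtx_poly_preconn v i j) (pvtx_poly_bounded v i j) u hu w hw)

/-- a cell with a point within `r` of `x` -/
theorem pvrc_cell_bd {r : ℝ} (hp : p ∈ pvtSq δ c) (hr : ‖p - x‖ ≤ r) :
    (c.1 : ℝ) * δ ≤ x.re + r ∧ x.re - r ≤ ((c.1 : ℝ) + 1) * δ ∧ (c.2 : ℝ) * δ ≤ x.im + r ∧ x.im - r ≤ ((c.2 : ℝ) + 1) * δ := by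
  obtain ⟨p1, p2, p3, p4⟩ := hp
  have h1 : |(p - x).re| ≤ r := (Complex.abs_re_le_norm _).trans hr
  have h2 : |(p - x).im| ≤ r := (Complex.abs_im_le_norm _).trans hr
  rw [Complex.sub_re, abs_le] at h1
  rw [Complex.sub_im, abs_le] at h2
  exact ⟨by linarith, by linarith, by linarith, by linarith⟩

end asm0

/-- **THE METRIC CONTRACT OF A PAIR** (producer 222, `Tr/PlugGeo.lean`): sets and distances in `ℂ` only.      `lam = k dc` = the cell of the menu, `dc` = the coarse cell of the patterns;   `cs0 ct0` = the centres in MENU cells;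
`Em Ep` = the fronts of the two closure-side doors (menu cells relative to the centre; 138: `pvfjmEm`, `pvfjmEp`);   backward tail `P[kb, ib]`, forward tail `P[jf, kf]` -/
structure PvrcPairIn {τ : Type} (PL : PvfjPlug τ) (k : ℕ) (dc : ℝ) (x : ℂ) (R : ℝ) (P : PvbRim) (s t : PvbPin τ) (cs0 ct0 : ℤ × ℤ) (Em Ep : Set (ℤ × ℤ)) (kb ib jf kf : ℕ) : Prop where
  k0 : 0 < k
  dc0 : 0 < dc
  dcR : 48 * dc ≤ R
  cs : s.ctr = pvmgPt ((k : ℝ) * dc) cs0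
  ct : t.ctr = pvmgPt ((k : ℝ) * dc) ct0
  le : s.idx ≤ t.idx
  jk : jf ≤ kf
  /-- the pin vertices lie in the placed bodies -/
  in_s : P.v s.idx ∈ pvmgPl s.ctr ((k : ℝ) * dc) (PL.B s.typ)
  in_t : P.v t.idx ∈ pvmgPl t.ctr ((k : ℝ) * dc) (PL.B t.typ)
  /-- menu cells -/
  apart : ∀ p ∈ pvfjSh cs0 (PL.Ym s.typ), ∀ q ∈ pvfjSh ct0 (PL.Yp t.typ), PvfjFar p q
  /-- everything lies in `B(x, 9R/4)` -/
  A_in : pvtxPoly P.v s.idx t.idx ⊆ Metric.closedBall x (9 * R / 4)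
  Bs_in : pvmgPl s.ctr ((k : ℝ) * dc) (PL.B s.typ) ⊆ Metric.closedBall x (9 * R / 4)
  Bt_in : pvmgPl t.ctr ((k : ℝ) * dc) (PL.B t.typ) ⊆ Metric.closedBall x (9 * R / 4)
  /-- type level -/
  Em_conn : TscConn pvtbG4 Em
  Ep_conn : TscConn pvtbG4 Ep
  front_m : PL.ym s.typ + PL.dm s.typ ∈ Em
  front_p : PL.yp t.typ + PL.dp t.typ ∈ Ep
  Em_B : Disjoint Em (PL.B s.typ)
  Ep_B : Disjoint Ep (PL.B t.typ)
  /-- plain disjointness in `ℂ` -/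
  Es_Bt : Disjoint (pvmgPl s.ctr ((k : ℝ) * dc) Em) (pvmgPl t.ctr ((k : ℝ) * dc) (PL.B t.typ))
  Et_Bs : Disjoint (pvmgPl t.ctr ((k : ℝ) * dc) Ep) (pvmgPl s.ctr ((k : ℝ) * dc) (PL.B s.typ))
  Qb_Bs : Disjoint (pvtxPoly P.v kb ib) (pvmgPl s.ctr ((k : ℝ) * dc) (PL.B s.typ))
  Qb_Bt : Disjoint (pvtxPoly P.v kb ib) (pvmgPl t.ctr ((k : ℝ) * dc) (PL.B t.typ))
  Qf_Bs : Disjoint (pvtxPoly P.v jf kf) (pvmgPl s.ctr ((k : ℝ) * dc) (PL.B s.typ))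
  Qf_Bt : Disjoint (pvtxPoly P.v jf kf) (pvmgPl t.ctr ((k : ℝ) * dc) (PL.B t.typ))
  /-- distances to the arc, at the PATTERN scale -/
  A_Es : ∀ p ∈ pvtxPoly P.v s.idx t.idx, ∀ q ∈ pvmgPl s.ctr ((k : ℝ) * dc) Em, 6 * dc < ‖p - q‖
  A_Et : ∀ p ∈ pvtxPoly P.v s.idx t.idx, ∀ q ∈ pvmgPl t.ctr ((k : ℝ) * dc) Ep, 6 * dc < ‖p - q‖
  A_Qb : ∀ p ∈ pvtxPoly P.v s.idx t.idx, ∀ q ∈ pvtxPoly P.v kb ib, 6 * dc < ‖p - q‖
  A_Qf : ∀ p ∈ pvtxPoly P.v s.idx t.idx, ∀ q ∈ pvtxPoly P.v jf kf, 6 * dc < ‖p - q‖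
  /-- the tails start in the fronts and reach the distance `4R` -/
  tip_b : (pvtxPoly P.v kb ib ∩ pvmgPl s.ctr ((k : ℝ) * dc) Em).Nonempty
  tip_f : (pvtxPoly P.v jf kf ∩ pvmgPl t.ctr ((k : ℝ) * dc) Ep).Nonempty
  out_b : 4 * R ≤ ‖P.v kb - x‖
  out_f : 4 * R ≤ ‖P.v kf - x‖

section asm1

variable {k : ℕ} {dc : ℝ} {x : ℂ} {R : ℝ}

/-- a placed region of menu cells = the union of the small squares of the shifted refinement -/
theorem pvrc_pl_ref (hk : 0 < k) (hdc : 0 < dc) (a : ℤ × ℤ) (E : Set (ℤ × ℤ)) :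
    pvmgPl (pvmgPt ((k : ℝ) * dc) a) ((k : ℝ) * dc) E = pvtU dc (pvfjSh ((k : ℤ) * a.1, (k : ℤ) * a.2) (pvrcRef (k : ℤ) E)) := by
  have hk' : (0 : ℤ) < (k : ℤ) := by exact_mod_cast hk
  rw [pvrc_pl, pvrc_ref_sh hk', pvrc_U hk' hdc, Int.cast_natCast]

/-- a small cell of the shifted refinement lies in the placed region -/
theorem pvrc_sq_pl (hk : 0 < k) (hdc : 0 < dc) {a c : ℤ × ℤ} {E : Set (ℤ × ℤ)} (hc : c ∈ pvfjSh ((k : ℤ) * a.1, (k : ℤ) * a.2) (pvrcRef (k : ℤ) E)) :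
    pvtSq dc c ⊆ pvmgPl (pvmgPt ((k : ℝ) * dc) a) ((k : ℝ) * dc) E := by
  rw [pvrc_pl_ref hk hdc]
  intro p hp
  simp only [pvtU, Set.mem_iUnion, exists_prop]
  exact ⟨c, hc, hp⟩

/-- a point of the placed region lies in a small cell of the shifted refinement -/
theorem pvrc_pl_cell (hk : 0 < k) (hdc : 0 < dc) {a : ℤ × ℤ} {E : Set (ℤ × ℤ)} {p : ℂ} (hp : p ∈ pvmgPl (pvmgPt ((k : ℝ) * dc) a) ((k : ℝ) * dc) E) :
    ∃ c ∈ pvfjSh ((k : ℤ) * a.1, (k : ℤ) * a.2) (pvrcRef (k : ℤ) E), p ∈ pvtSq dc c := by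
  rw [pvrc_pl_ref hk hdc] at hp
  simp only [pvtU, Set.mem_iUnion, exists_prop] at hp
  exact hp

/-- the box of the witnesses -/
theorem pvrc_box_in (hdc : 0 < dc) {c : ℤ × ℤ} {p : ℂ} (hp : p ∈ pvtSq dc c) (hr : ‖p - x‖ ≤ 5 * R / 2) :
    c ∈ tscBox (⌊(x.re - 5 * R / 2) / dc⌋ - 1) ⌈(x.re + 5 * R / 2) / dc⌉ (⌊(x.im - 5 * R / 2) / dc⌋ - 1) ⌈(x.im + 5 * R / 2) / dc⌉ := by
  obtain ⟨h1, h2, h3, h4⟩ := pvrc_cell_bd hp hr
  have fl : ∀ (u : ℝ) (n : ℤ), u ≤ ((n : ℝ) + 1) * dc → ⌊u / dc⌋ - 1 ≤ n := by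
    intro u n h
    have a1 : (⌊u / dc⌋ : ℝ) ≤ u / dc := Int.floor_le _
    have a2 : u / dc ≤ (n : ℝ) + 1 := (div_le_iff₀ hdc).2 h
    have a3 : (⌊u / dc⌋ : ℝ) ≤ ((n + 1 : ℤ) : ℝ) := by push_cast; linarith
    have a4 : ⌊u / dc⌋ ≤ n + 1 := by exact_mod_cast a3
    omega
  have ce : ∀ (u : ℝ) (n : ℤ), (n : ℝ) * dc ≤ u → n ≤ ⌈u / dc⌉ := by
    intro u n h
    have a1 : u / dc ≤ (⌈u / dc⌉ : ℝ) := Int.le_ceil _
    have a2 : (n : ℝ) ≤ u / dc := (le_div_iff₀ hdc).2 h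
    exact_mod_cast a2.trans a1
  exact ⟨fl _ _ h2, ce _ _ h1, fl _ _ h4, ce _ _ h3⟩

theorem pvrc_box_out (hdc : 0 < dc) (hR : 48 * dc ≤ R) {c : ℤ × ℤ} {q : ℂ} (hq : q ∈ pvtSq dc c) (hr : 4 * R ≤ ‖q - x‖) :
    c ∉ tscBox (⌊(x.re - 5 * R / 2) / dc⌋ - 1) ⌈(x.re + 5 * R / 2) / dc⌉ (⌊(x.im - 5 * R / 2) / dc⌋ - 1) ⌈(x.im + 5 * R / 2) / dc⌉ := by
  rintro ⟨b1, b2, b3, b4⟩
  obtain ⟨q1, q2, q3, q4⟩ := hq
  have lo : ∀ (u : ℝ) (n : ℤ), ⌊u / dc⌋ - 1 ≤ n → u - 2 * dc < (n : ℝ) * dc := by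
    intro u n h
    have a1 : u / dc < (⌊u / dc⌋ : ℝ) + 1 := Int.lt_floor_add_one _
    have a2 : ((⌊u / dc⌋ - 1 : ℤ) : ℝ) ≤ (n : ℝ) := by exact_mod_cast h
    push_cast at a2
    have a3 : u / dc < (n : ℝ) + 2 := by linarith
    rw [div_lt_iff₀ hdc] at a3
    linarith
  have up : ∀ (u : ℝ) (n : ℤ), n ≤ ⌈u / dc⌉ → ((n : ℝ) + 1) * dc < u + 2 * dc := by
    intro u n h
    have a1 : (⌈u / dc⌉ : ℝ) < u / dc + 1 := Int.ceil_lt_add_one _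
    have a2 : (n : ℝ) ≤ (⌈u / dc⌉ : ℝ) := by exact_mod_cast h
    have a3 : (n : ℝ) - 1 < u / dc := by linarith
    rw [lt_div_iff₀ hdc] at a3
    linarith
  have c1 := lo _ _ b1
  have c2 := up _ _ b2
  have c3 := lo _ _ b3
  have c4 := up _ _ b4
  have hR0 : 0 < R := by linarith
  have e1 : |(q - x).re| ≤ 61 * R / 24 := by
    rw [Complex.sub_re, abs_le]
    constructor <;> linarith
  have e2 : |(q - x).im| ≤ 61 * R / 24 := by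
    rw [Complex.sub_im, abs_le]
    constructor <;> linarith
  have e3 : ‖q - x‖ ^ 2 = (q - x).re ^ 2 + (q - x).im ^ 2 := by
    rw [Complex.sq_norm, Complex.normSq_apply]
    ring
  have f1 : (q - x).re ^ 2 ≤ (61 * R / 24) ^ 2 := by
    rw [← sq_abs]
    exact pow_le_pow_left₀ (abs_nonneg _) e1 2
  have f2 : (q - x).im ^ 2 ≤ (61 * R / 24) ^ 2 := by
    rw [← sq_abs]
    exact pow_le_pow_left₀ (abs_nonneg _) e2 2
  have f3 : (4 * R) ^ 2 ≤ ‖q - x‖ ^ 2 := pow_le_pow_left₀ (by positivity) hr 2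
  nlinarith

theorem pvrc_box_zero (hdc : 0 < dc) {kB : ℕ} (hkB : ‖x‖ + 3 * R + dc ≤ (kB : ℝ) * dc) {c : ℤ × ℤ} {p : ℂ} (hp : p ∈ pvtSq dc c) (hr : ‖p - x‖ ≤ 3 * R) : c ∈ pvmnBox kB := by
  obtain ⟨h1, h2, h3, h4⟩ := pvrc_cell_bd hp hr
  have x1 : |x.re| ≤ ‖x‖ := Complex.abs_re_le_norm x
  have x2 : |x.im| ≤ ‖x‖ := Complex.abs_im_le_norm x
  rw [abs_le] at x1 x2
  have up : ∀ n : ℤ, (n : ℝ) * dc ≤ (kB : ℝ) * dc - dc → n ≤ (kB : ℤ) := by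
    intro n h
    have : (n : ℝ) * dc ≤ (kB : ℝ) * dc := by linarith
    have h' : (n : ℝ) ≤ (kB : ℝ) := le_of_mul_le_mul_right this hdc
    exact_mod_cast h'
  have lo : ∀ n : ℤ, -((kB : ℝ) * dc - dc) ≤ ((n : ℝ) + 1) * dc → -(kB : ℤ) ≤ n := by
    intro n h
    have : (-(kB : ℝ)) * dc ≤ (n : ℝ) * dc := by linarith
    have h' : -(kB : ℝ) ≤ (n : ℝ) := le_of_mul_le_mul_right this hdc
    exact_mod_cast h'
  exact ⟨lo _ (by linarith), up _ (by linarith), lo _ (by linarith), up _ (by linarith)⟩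

end asm1

section asm2

variable {τ : Type} {PL : PvfjPlug τ} {k : ℕ} {dc : ℝ} {x : ℂ} {R : ℝ} {P : PvbRim} {s t : PvbPin τ} {cs0 ct0 : ℤ × ℤ} {Em Ep : Set (ℤ × ℤ)} {kb ib jf kf : ℕ}

/-- every cell of the obstacle has a point within `5R/2` of `x` -/
theorem PvrcPairIn.F0_near (I : PvrcPairIn PL k dc x R P s t cs0 ct0 Em Ep kb ib jf kf) {c : ℤ × ℤ}
    (hc : c ∈ pvfjF0 (PL.ref k) dc P s t ((k : ℤ) * cs0.1, (k : ℤ) * cs0.2) ((k : ℤ) * ct0.1, (k : ℤ) * ct0.2)) : ‖pvmgPt dc c - x‖ ≤ 5 * R / 2 := by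
  have hdc := I.dc0
  have hcor := pvrc_corner hdc.le c
  have hdR := I.dcR
  rcases hc with (hc | hc) | hc
  · obtain ⟨z, ⟨a, ha, haA⟩, h1, h2, h3, h4⟩ := hc
    have d1 := pvrc_sq_dist hdc.le h1 h2 h3 h4 ha hcor
    have d2 : ‖a - x‖ ≤ 9 * R / 4 := mem_closedBall_iff_norm.1 (I.A_in haA)
    have d3 := pvtv_tri (pvmgPt dc c) a x
    rw [norm_sub_rev (pvmgPt dc c) a] at d3
    push_cast at d1
    linarith
  · have h1 := pvrc_sq_pl I.k0 hdc hc hcor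
    rw [← I.cs] at h1
    have d2 : ‖pvmgPt dc c - x‖ ≤ 9 * R / 4 := mem_closedBall_iff_norm.1 (I.Bs_in h1)
    linarith
  · have h1 := pvrc_sq_pl I.k0 hdc hc hcor
    rw [← I.ct] at h1
    have d2 : ‖pvmgPt dc c - x‖ ≤ 9 * R / 4 := mem_closedBall_iff_norm.1 (I.Bt_in h1)
    linarith

/-- **one witness**: front `E` (menu cells relative to the centre `z = pvmgPt lam a`), tail `Q` -/
theorem pvrc_wit {F0 : Set (ℤ × ℤ)} {A : Set ℂ} {B1 B2 : Set (ℤ × ℤ)} {a : ℤ × ℤ} {E : Set (ℤ × ℤ)} {y d : ℤ × ℤ} {v : ℕ → ℂ} {i j : ℕ} {w : ℂ}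
    (hk : 0 < k) (hdc : 0 < dc) (hdR : 48 * dc ≤ R) (hF0 : F0 = pvtwN 2 (pvtCells dc A) ∪ B1 ∪ B2) (hnear : ∀ c ∈ F0, ‖pvmgPt dc c - x‖ ≤ 5 * R / 2)
    (hd : PvfjDir d) (hE : TscConn pvtbG4 E) (hfront : y + d ∈ E)
    (E1 : ∀ c ∈ pvfjSh ((k : ℤ) * a.1, (k : ℤ) * a.2) (pvrcRef (k : ℤ) E), c ∉ B1) (E2 : ∀ c ∈ pvfjSh ((k : ℤ) * a.1, (k : ℤ) * a.2) (pvrcRef (k : ℤ) E), c ∉ B2)
    (EA : ∀ p ∈ A, ∀ q ∈ pvmgPl (pvmgPt ((k : ℝ) * dc) a) ((k : ℝ) * dc) E, 6 * dc < ‖p - q‖)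
    (Q1 : ∀ c ∈ B1, Disjoint (pvtxPoly v i j) (pvtSq dc c)) (Q2 : ∀ c ∈ B2, Disjoint (pvtxPoly v i j) (pvtSq dc c))
    (QA : ∀ p ∈ A, ∀ q ∈ pvtxPoly v i j, 6 * dc < ‖p - q‖)
    (tip : (pvtxPoly v i j ∩ pvmgPl (pvmgPt ((k : ℝ) * dc) a) ((k : ℝ) * dc) E).Nonempty) (hw : w ∈ pvtxPoly v i j) (hout : 4 * R ≤ ‖w - x‖) :
    ∃ W : Set (ℤ × ℤ), TscConn pvtbG4 W ∧ Disjoint W F0 ∧ pvrcDoor (k : ℤ) y d + ((k : ℤ) * a.1, (k : ℤ) * a.2) + d ∈ W ∧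
      ∃ a b c d : ℤ, F0 ⊆ tscBox a b c d ∧ ∃ w ∈ W, w ∉ tscBox a b c d := by
  have hk' : (0 : ℤ) < (k : ℤ) := by exact_mod_cast hk
  obtain ⟨q, hqQ, hqE⟩ := tip
  obtain ⟨cq, hcq, hqc⟩ := pvrc_pl_cell hk hdc hqE
  obtain ⟨cw, hcw⟩ := pvt_sq_cover hdc w
  refine pvfj_wit_union (E' := pvfjSh ((k : ℤ) * a.1, (k : ℤ) * a.2) (pvrcRef (k : ℤ) E)) (Wq := pvtCells dc (pvtxPoly v i j)) (q := cq)
    (pvrc_sh_conn4 (pvrc_conn4 hk' hE)) (pvrc_poly_conn4 hdc v i j) ?_ ?_ ?_ hcq ⟨q, hqc, hqQ⟩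
    (fun c hc => pvrc_box_in (x := x) (R := R) hdc (pvrc_corner hdc.le c) (hnear c hc)) ⟨cw, ⟨w, hcw, hw⟩, pvrc_box_out hdc hdR hcw hout⟩
  · rw [Set.disjoint_left]
    intro c hc hF
    rw [hF0] at hF
    rcases hF with (hF | hF) | hF
    · obtain ⟨z, ⟨p, hp, hpA⟩, h1, h2, h3, h4⟩ := hF
      have d1 := pvrc_sq_dist hdc.le h1 h2 h3 h4 hp (pvrc_corner hdc.le c)
      have d2 := EA p hpA _ (pvrc_sq_pl hk hdc hc (pvrc_corner hdc.le c))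
      push_cast at d1
      linarith
    · exact E1 c hc hF
    · exact E2 c hc hF
  · rw [Set.disjoint_left]
    intro c hc hF
    rw [hF0] at hF
    rcases hF with (hF | hF) | hF
    · exact Set.disjoint_left.1 (pvrc_cells_disj (j := 2) hdc.le (X := A) (Y := pvtxPoly v i j) (fun p hp q hq => by have := QA p hp q hq; push_cast; linarith)) hc hF
    · obtain ⟨u, hu, huQ⟩ := hc
      exact Set.disjoint_left.1 (Q1 c hF) huQ hu
    · obtain ⟨u, hu, huQ⟩ := hc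
      exact Set.disjoint_left.1 (Q2 c hF) huQ hu
  · have h1 : pvrcDoor (k : ℤ) y d + d ∈ pvrcRef (k : ℤ) E := pvrc_block_sub hfront (pvrc_door_front hk' y hd)
    have h2 := pvfj_sh_mem (c := ((k : ℤ) * a.1, (k : ℤ) * a.2)) h1
    rwa [add_right_comm] at h2

/-- **THE CELL ASSEMBLY**: the metric contract of a pair gives `PvfjMet` for the refined plug at the pattern scale -/
theorem pvrc_met (hPL : PL.WF) (I : PvrcPairIn PL k dc x R P s t cs0 ct0 Em Ep kb ib jf kf) {kB : ℕ} (hkB : ‖x‖ + 3 * R + dc ≤ (kB : ℝ) * dc) :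
    PvfjMet (PL.ref k) dc kB P s t ((k : ℤ) * cs0.1, (k : ℤ) * cs0.2) ((k : ℤ) * ct0.1, (k : ℤ) * ct0.2) := by
  have hk := I.k0
  have hk' : (0 : ℤ) < (k : ℤ) := by exact_mod_cast hk
  have hdc := I.dc0
  have hR0 : 0 < R := by have := I.dcR; linarith
  have in_s := I.in_s
  have in_t := I.in_t
  have Es_Bt := I.Es_Bt
  have Et_Bs := I.Et_Bs
  have Qb_Bs := I.Qb_Bs
  have Qb_Bt := I.Qb_Bt
  have Qf_Bs := I.Qf_Bs
  have Qf_Bt := I.Qf_Bt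
  have A_Es := I.A_Es
  have A_Et := I.A_Et
  have tip_b := I.tip_b
  have tip_f := I.tip_f
  rw [I.cs] at in_s Es_Bt Et_Bs Qb_Bs Qf_Bs A_Es tip_b
  rw [I.ct] at in_t Es_Bt Et_Bs Qb_Bt Qf_Bt A_Et tip_f
  have dj : ∀ {a a' : ℤ × ℤ} {E E' : Set (ℤ × ℤ)}, Disjoint (pvmgPl (pvmgPt ((k : ℝ) * dc) a) ((k : ℝ) * dc) E) (pvmgPl (pvmgPt ((k : ℝ) * dc) a') ((k : ℝ) * dc) E') →
      ∀ c ∈ pvfjSh ((k : ℤ) * a.1, (k : ℤ) * a.2) (pvrcRef (k : ℤ) E), c ∉ pvfjSh ((k : ℤ) * a'.1, (k : ℤ) * a'.2) (pvrcRef (k : ℤ) E') := by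
    intro a a' E E' h c hc hc'
    exact Set.disjoint_left.1 h (pvrc_sq_pl hk hdc hc (pvrc_corner hdc.le c)) (pvrc_sq_pl hk hdc hc' (pvrc_corner hdc.le c))
  have dq : ∀ {Q : Set ℂ} {a : ℤ × ℤ} {E : Set (ℤ × ℤ)}, Disjoint Q (pvmgPl (pvmgPt ((k : ℝ) * dc) a) ((k : ℝ) * dc) E) →
      ∀ c ∈ pvfjSh ((k : ℤ) * a.1, (k : ℤ) * a.2) (pvrcRef (k : ℤ) E), Disjoint Q (pvtSq dc c) := by
    intro Q a E h c hc
    exact h.mono_right (pvrc_sq_pl hk hdc hc)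
  refine ⟨?_, ?_, ?_, ?_, ?_, ?_, ?_, ?_⟩
  · rw [I.cs, ← pvrc_pt, Int.cast_natCast]
  · rw [I.ct, ← pvrc_pt, Int.cast_natCast]
  · obtain ⟨c, hc, hp⟩ := pvrc_pl_cell hk hdc in_s
    exact ⟨c, ⟨_, hp, pvtx_vertex_mem le_rfl I.le⟩, hc⟩
  · obtain ⟨c, hc, hp⟩ := pvrc_pl_cell hk hdc in_t
    exact ⟨c, ⟨_, hp, pvtx_vertex_mem I.le le_rfl⟩, hc⟩
  · intro p hp q hq
    have hp' : p ∈ pvfjSh ((k : ℤ) * cs0.1, (k : ℤ) * cs0.2) (pvrcRef (k : ℤ) (PL.Ym s.typ)) := hp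
    have hq' : q ∈ pvfjSh ((k : ℤ) * ct0.1, (k : ℤ) * ct0.2) (pvrcRef (k : ℤ) (PL.Yp t.typ)) := hq
    rw [pvrc_ref_sh hk'] at hp' hq'
    exact pvrc_far hk' (I.apart _ hp' _ hq')
  · intro c hc
    exact pvrc_box_zero hdc hkB (pvrc_corner hdc.le c) ((I.F0_near hc).trans (by linarith))
  · exact pvrc_wit (x := x) (R := R) (A := pvtxPoly P.v s.idx t.idx) (E := Em) (w := P.v kb) hk hdc I.dcR rfl (fun c hc => I.F0_near hc) (hPL.dm_dir _) I.Em_conn I.front_m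
      (fun c hc hc' => Set.disjoint_left.1 (pvrc_sh_disj (pvrc_ref_disj I.Em_B)) hc hc') (dj Es_Bt) A_Es (dq Qb_Bs) (dq Qb_Bt) I.A_Qb tip_b (pvtx_mem_poly.2 (Or.inl rfl)) I.out_b
  · exact pvrc_wit (x := x) (R := R) (A := pvtxPoly P.v s.idx t.idx) (E := Ep) (w := P.v kf) hk hdc I.dcR rfl (fun c hc => I.F0_near hc) (hPL.dp_dir _) I.Ep_conn I.front_p
      (dj Et_Bs) (fun c hc hc' => Set.disjoint_left.1 (pvrc_sh_disj (pvrc_ref_disj I.Ep_B)) hc hc') A_Et (dq Qf_Bs) (dq Qf_Bt) I.A_Qf tip_f (pvtx_vertex_mem I.jk le_rfl) I.out_f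

end asm2

end Claimed.Agent.R289
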