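-- KEEP
import Claimed.Agent.R289.Tr.MenuFit
import Claimed.Agent.R289.Tr.MenuGeo
import Claimed.Agent.R289.Tr.Cover

/-!
# Row 289 (S0537, Cardy for Poisson-Voronoi), THE WALL, ROAD P, file Tr/PlugGeo : THE METRIC HALF OF THE CONTRACT `PvfjMet` OF TR19-P      (owner helper222; prefix `pvqg_`)

Split of 10:52Z.   138 (`Tr/FitP`, `Tr/FitPM`): cell form, the plug of a type (body `Bl rB ∪ N⁶(cells 4 5) ∪ N⁴(cells 1 8)`, `E⁺` = `G4`-component of `q 10` in `N¹(C 9) \ N⁴(cells 0 8)`, doors = first hit: FUNCTIONS OF THE TYPE).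
236 (`Exit/CoverP`): refinement kit, pattern scale `dc_m`, the field `cover`.      HERE: DISTANCES IN `ℂ` (scale free: they transfer to every cell size `≤ δ = dl h`).

* sec. 1  ONE PIN `(P, z, marks t, τ)` with `PvmfIn`, `PvmfNum`, `PvmnFits`:
     `pvqg_idx`         a point of the placed `w`-collar of the pieces `i..j` is `2 (w+1) δ + μ`-close to a vertex with index in `[t i, t (j+1)]`
     `pvqg_fwd / _bwd`  a vertex after the mark `j+2` / before the mark `i-1` is `> d1 - (2 (w+1) δ + μ)` from the placed `w`-collar of the pieces `i..j`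
     `pvqg_ball_fwd / _bwd`   a vertex after the mark `6` / before the mark `4` is `≥ a - RB - 2 δ` from the placed grid ball
     `pvqg_sep`         two vertices separated by a whole piece, one of them in the window, are `> d1` apart
* sec. 2  from vertices to polygons (mesh `μ`): `pvqg_poly_*`
* sec. 3  TWO PINS: order of the marks of the two pins
-/

set_option autoImplicit false
set_option linter.unusedSectionVars false
set_option linter.unusedVariables false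

namespace Claimed.Agent.R289

open Relation Claims.C0467 Claimed.Agent.R291

/-! ## 1. one pin, vertices -/

section pin

variable {P : PvbRim} {z : ℂ} {t : ℕ → ℕ} {δ μ hh a b ρ d0 e0 d1 e1 RB : ℝ} {𝔑 : PvmnNum} {τ : PvmnType} {p q : ℂ} {i j w l s : ℕ}

/-- a point of the placed `w`-collar of the pieces `i..j` is close to a vertex of these pieces -/
theorem pvqg_idx (I : PvmfIn P z t μ hh a b ρ d0 e0 d1 e1) (N : PvmfNum δ μ hh a b ρ d0 e0 d1 e1 RB) (F : PvmnFits τ δ (fun i => P.v i - z) (fun k => t k.1))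
    (hp : p ∈ pvmgPl z δ (pvtwN w (pvmnCells τ i j))) : ∃ k : ℕ, i ≤ k ∧ k ≤ j ∧ k < 10 ∧ ∃ l, t k ≤ l ∧ l ≤ t (k + 1) ∧ ‖P.v l - p‖ ≤ 2 * ((w : ℝ) + 1) * δ + μ := by
  obtain ⟨c, hc, hpc⟩ := pvmg_mem_sq.1 hp
  obtain ⟨k, k1, k2, hk⟩ := pvmn_N_cells.1 hc
  rw [pvmf_C F k] at hk
  obtain ⟨l, l1, l2, l3⟩ := I.idx N k.2 hk hpc
  refine ⟨k.1, k1, k2, k.2, l, l1, l2, ?_⟩
  rwa [sub_sub_sub_cancel_right] at l3

/-- **two vertices separated by a whole piece, one of them in the window** -/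
theorem pvqg_sep (I : PvmfIn P z t μ hh a b ρ d0 e0 d1 e1) (N : PvmfNum δ μ hh a b ρ d0 e0 d1 e1 RB) (hj : j < 10)
    (s2 : s ≤ t j) (l1 : t (j + 1) ≤ l) (l2 : l ≤ P.len) (hw : ‖P.v s - z‖ ≤ ρ ∨ ‖P.v l - z‖ ≤ ρ) : d1 < ‖P.v s - P.v l‖ :=
  I.nr1.far (k := t j) (k' := t (j + 1)) s2 ((I.mono N j hj).trans l1) (s2.trans (I.mono N j hj)) l1 l2 hw (I.big N j hj)

/-- **forward**: a vertex after the mark `j + 2` is far from the placed collar of the pieces `i..j` -/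
theorem pvqg_fwd (I : PvmfIn P z t μ hh a b ρ d0 e0 d1 e1) (N : PvmfNum δ μ hh a b ρ d0 e0 d1 e1 RB) (F : PvmnFits τ δ (fun i => P.v i - z) (fun k => t k.1))
    (hj : j + 2 ≤ 10) (hp : p ∈ pvmgPl z δ (pvtwN w (pvmnCells τ i j))) (l1 : t (j + 2) ≤ l) (l2 : l ≤ P.len) : d1 - (2 * ((w : ℝ) + 1) * δ + μ) < ‖P.v l - p‖ := by
  have C := I.cuts N
  obtain ⟨k, k1, k2, k3, s, s1, s2, s3⟩ := pvqg_idx I N F hp
  have h1 := I.sep_fwd N (j := j + 1) (s := s) (l := l) (by omega) ((C.le (Nat.zero_le _) (by omega)).trans s1) (s2.trans (C.le (by omega) (by omega))) l1 l2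
  have h2 := pvtp_tri (P.v s) p (P.v l)
  rw [norm_sub_rev p (P.v l)] at h2
  linarith

/-- **backward**: a vertex before the mark `i - 1` is far from the placed collar of the pieces `i..j` -/
theorem pvqg_bwd (I : PvmfIn P z t μ hh a b ρ d0 e0 d1 e1) (N : PvmfNum δ μ hh a b ρ d0 e0 d1 e1 RB) (F : PvmnFits τ δ (fun i => P.v i - z) (fun k => t k.1))
    (hi : 1 ≤ i) (hp : p ∈ pvmgPl z δ (pvtwN w (pvmnCells τ i j))) (l1 : l ≤ t (i - 1)) : d1 - (2 * ((w : ℝ) + 1) * δ + μ) < ‖P.v l - p‖ := by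
  have C := I.cuts N
  obtain ⟨k, k1, k2, k3, s, s1, s2, s3⟩ := pvqg_idx I N F hp
  have e : i - 1 + 1 = i := by omega
  have h1 := I.sep_bwd N (j := i - 1) (s := s) (l := l) (by omega) (by rw [e]; exact (C.le k1 (by omega)).trans s1) (s2.trans (C.le (by omega) le_rfl)) l1
  have h2 := pvtp_tri (P.v l) p (P.v s)
  rw [norm_sub_rev p (P.v s)] at h2
  linarith

/-- a vertex at radius `≥ a` is far from the placed grid ball -/
theorem pvqg_ball (hδ : 0 < δ) {r : ℝ} (hp : p ∈ pvmgPl z δ (pvmnBl r)) (hq : a ≤ ‖q - z‖) : a - δ * (r + 2) ≤ ‖q - p‖ := by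
  have h1 : ‖p - z‖ ≤ δ * (r + 2) := mem_closedBall_iff_norm.1 (pvmg_Bl_sub hδ hp)
  have h2 := pvtp_tri q p z
  linarith

theorem pvqg_ball_fwd (I : PvmfIn P z t μ hh a b ρ d0 e0 d1 e1) (N : PvmfNum δ μ hh a b ρ d0 e0 d1 e1 RB) {r : ℝ}
    (hp : p ∈ pvmgPl z δ (pvmnBl r)) (l1 : t 6 ≤ l) (l2 : l ≤ P.len) : a - δ * (r + 2) ≤ ‖P.v l - p‖ :=
  pvqg_ball N.δ_pos hp ((I.far_a N).1 l l1 l2)

theorem pvqg_ball_bwd (I : PvmfIn P z t μ hh a b ρ d0 e0 d1 e1) (N : PvmfNum δ μ hh a b ρ d0 e0 d1 e1 RB) {r : ℝ}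
    (hp : p ∈ pvmgPl z δ (pvmnBl r)) (l1 : l ≤ t 4) : a - δ * (r + 2) ≤ ‖P.v l - p‖ :=
  pvqg_ball N.δ_pos hp ((I.far_a N).2 l l1)

end pin

/-! ## 2. from vertices to polygons -/

section poly

variable {v : ℕ → ℂ} {i j : ℕ} {μ η : ℝ} {p x : ℂ} {X : Set ℂ}

/-- a set which is `> η` from the vertices is `> η - μ` from the polygon -/
theorem pvqg_poly_far (hμ : 0 ≤ μ) (hij : i ≤ j) (mesh : ∀ k, i ≤ k → k < j → ‖v (k + 1) - v k‖ ≤ μ) (h : ∀ l, i ≤ l → l ≤ j → η < ‖v l - p‖)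
    (hx : x ∈ pvtxPoly v i j) : η - μ < ‖x - p‖ := by
  obtain ⟨l, l1, l2, l3⟩ := pvtx_poly_vertex hμ hij mesh hx
  have h1 := h l l1 l2
  have h2 := pvtp_tri (v l) x p
  rw [norm_sub_rev (v l) x] at h2
  linarith

theorem pvqg_poly_far_le (hμ : 0 ≤ μ) (hij : i ≤ j) (mesh : ∀ k, i ≤ k → k < j → ‖v (k + 1) - v k‖ ≤ μ) (h : ∀ l, i ≤ l → l ≤ j → η ≤ ‖v l - p‖)
    (hx : x ∈ pvtxPoly v i j) : η - μ ≤ ‖x - p‖ := by
  obtain ⟨l, l1, l2, l3⟩ := pvtx_poly_vertex hμ hij mesh hx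
  have h1 := h l l1 l2
  have h2 := pvtp_tri (v l) x p
  rw [norm_sub_rev (v l) x] at h2
  linarith

end poly


/-! ## 3. one pin: tails, last pieces, body -/

section tails

variable {P : PvbRim} {z : ℂ} {t : ℕ → ℕ} {δ μ hh a b ρ d0 e0 d1 e1 RB r : ℝ} {τ : PvmnType} {p q x y : ℂ} {i j w l s kb kf i0 : ℕ}

/-- the cells of the body of the plug of a type (138): ball part, 6-tube of the two central pieces, 4-tube of the pieces `1..8` -/
def pvqgBody (r : ℝ) (τ : PvmnType) : Set (ℤ × ℤ) := pvmnBl r ∪ pvtwN 6 (pvmnCells τ 4 5) ∪ pvtwN 4 (pvmnCells τ 1 8)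

theorem pvqg_eqns_cite : True := by
  have := @pvqgBody.eq_1
  trivial

theorem PvmfNum.d1_ge (N : PvmfNum δ μ hh a b ρ d0 e0 d1 e1 RB) : 600 * δ ≤ d1 := by
  have := N.d0_ge; have := N.d0_le; have := N.e0_le
  linarith

/-- the first passage of the radius `6 b` -/
theorem pvqg_order_fwd (I : PvmfIn P z t μ hh a b ρ d0 e0 d1 e1) (h1 : t 5 ≤ l) (h2 : 6 * b ≤ ‖P.v l - z‖) : t 10 ≤ l := by
  by_contra hc
  have := (I.marks 5 (by omega) le_rfl).mp_first l h1 (not_le.1 hc)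
  norm_num at this
  linarith

/-- the last passage of the radius `6 b` -/
theorem pvqg_order_bwd (I : PvmfIn P z t μ hh a b ρ d0 e0 d1 e1) (h1 : l ≤ t 5) (h2 : 6 * b ≤ ‖P.v l - z‖) : l ≤ t 0 := by
  by_contra hc
  have := (I.marks 5 (by omega) le_rfl).mm_last l (not_le.1 hc) h1
  norm_num at this
  linarith

/-- **a vertex after the mark `10` is far from the placed body** -/
theorem pvqg_tail_fwd (I : PvmfIn P z t μ hh a b ρ d0 e0 d1 e1) (N : PvmfNum δ μ hh a b ρ d0 e0 d1 e1 RB) (F : PvmnFits τ δ (fun i => P.v i - z) (fun k => t k.1))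
    (hr : δ * r = RB) (hp : p ∈ pvmgPl z δ (pvqgBody r τ)) (l1 : t 10 ≤ l) (l2 : l ≤ P.len) : 28 * δ < ‖P.v l - p‖ := by
  have C := I.cuts N
  have hδ := N.δ_pos; have h1 := N.d1_ge; have h2 := N.μ_le; have h3 := N.RB_lt
  rw [pvqgBody, pvmg_union, pvmg_union] at hp
  rcases hp with (hp | hp) | hp
  · have := pvqg_ball_fwd I N hp ((C.le (by omega) le_rfl).trans l1) l2
    rw [mul_add, hr] at this
    linarith
  · have := pvqg_fwd I N F (j := 5) (by omega) hp ((C.le (by omega) le_rfl).trans l1) l2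
    push_cast at this
    linarith
  · have := pvqg_fwd I N F (j := 8) (by omega) hp l1 l2
    push_cast at this
    linarith

/-- **a vertex before the mark `0` is far from the placed body** -/
theorem pvqg_tail_bwd (I : PvmfIn P z t μ hh a b ρ d0 e0 d1 e1) (N : PvmfNum δ μ hh a b ρ d0 e0 d1 e1 RB) (F : PvmnFits τ δ (fun i => P.v i - z) (fun k => t k.1))
    (hr : δ * r = RB) (hp : p ∈ pvmgPl z δ (pvqgBody r τ)) (l1 : l ≤ t 0) : 28 * δ < ‖P.v l - p‖ := by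
  have C := I.cuts N
  have hδ := N.δ_pos; have h1 := N.d1_ge; have h2 := N.μ_le; have h3 := N.RB_lt
  rw [pvqgBody, pvmg_union, pvmg_union] at hp
  rcases hp with (hp | hp) | hp
  · have := pvqg_ball_bwd I N hp (l1.trans (C.le (by omega) (by omega)))
    rw [mul_add, hr] at this
    linarith
  · have := pvqg_bwd I N F (i := 4) (by omega) hp (l1.trans (C.le (by omega) (by omega)))
    push_cast at this
    linarith
  · have := pvqg_bwd I N F (i := 1) (by omega) hp l1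
    push_cast at this
    linarith

/-- a point of the placed 1-collar of the last piece is close to a vertex of the last piece -/
theorem pvqg_E_fwd_near (I : PvmfIn P z t μ hh a b ρ d0 e0 d1 e1) (N : PvmfNum δ μ hh a b ρ d0 e0 d1 e1 RB) (F : PvmnFits τ δ (fun i => P.v i - z) (fun k => t k.1))
    (hp : p ∈ pvmgPl z δ (pvtwN 1 (τ.C 9 : Set (ℤ × ℤ)))) : ∃ l, t 9 ≤ l ∧ l ≤ t 10 ∧ ‖P.v l - p‖ ≤ 4 * δ + μ := by
  have e : (τ.C 9 : Set (ℤ × ℤ)) = pvmnCells τ 9 9 := (pvmn_cells_self (by omega)).symm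
  rw [e] at hp
  obtain ⟨k, k1, k2, k3, l, l1, l2, l3⟩ := pvqg_idx I N F hp
  obtain rfl : k = 9 := by omega
  refine ⟨l, l1, l2, l3.trans (le_of_eq ?_)⟩
  push_cast
  ring

theorem pvqg_E_bwd_near (I : PvmfIn P z t μ hh a b ρ d0 e0 d1 e1) (N : PvmfNum δ μ hh a b ρ d0 e0 d1 e1 RB) (F : PvmnFits τ δ (fun i => P.v i - z) (fun k => t k.1))
    (hp : p ∈ pvmgPl z δ (pvtwN 1 (τ.C 0 : Set (ℤ × ℤ)))) : ∃ l, t 0 ≤ l ∧ l ≤ t 1 ∧ ‖P.v l - p‖ ≤ 4 * δ + μ := by
  have e : (τ.C 0 : Set (ℤ × ℤ)) = pvmnCells τ 0 0 := (pvmn_cells_self (by omega)).symm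
  rw [e] at hp
  obtain ⟨k, k1, k2, k3, l, l1, l2, l3⟩ := pvqg_idx I N F hp
  obtain rfl : k = 0 := by omega
  refine ⟨l, l1, l2, l3.trans (le_of_eq ?_)⟩
  push_cast
  ring

/-- **the placed 1-collar of the last piece is far from the vertices before the mark `8`** -/
theorem pvqg_E_fwd (I : PvmfIn P z t μ hh a b ρ d0 e0 d1 e1) (N : PvmfNum δ μ hh a b ρ d0 e0 d1 e1 RB) (F : PvmnFits τ δ (fun i => P.v i - z) (fun k => t k.1))
    (hp : p ∈ pvmgPl z δ (pvtwN 1 (τ.C 9 : Set (ℤ × ℤ)))) (l1 : l ≤ t 8) : d1 - (4 * δ + μ) < ‖P.v l - p‖ := by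
  have e : (τ.C 9 : Set (ℤ × ℤ)) = pvmnCells τ 9 9 := (pvmn_cells_self (by omega)).symm
  rw [e] at hp
  have := pvqg_bwd I N F (i := 9) (by omega) hp l1
  push_cast at this
  linarith

/-- **the placed 1-collar of the first piece is far from the vertices after the mark `2`** -/
theorem pvqg_E_bwd (I : PvmfIn P z t μ hh a b ρ d0 e0 d1 e1) (N : PvmfNum δ μ hh a b ρ d0 e0 d1 e1 RB) (F : PvmnFits τ δ (fun i => P.v i - z) (fun k => t k.1))
    (hp : p ∈ pvmgPl z δ (pvtwN 1 (τ.C 0 : Set (ℤ × ℤ)))) (l1 : t 2 ≤ l) (l2 : l ≤ P.len) : d1 - (4 * δ + μ) < ‖P.v l - p‖ := by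
  have e : (τ.C 0 : Set (ℤ × ℤ)) = pvmnCells τ 0 0 := (pvmn_cells_self (by omega)).symm
  rw [e] at hp
  have := pvqg_fwd I N F (j := 0) (by omega) hp l1 l2
  push_cast at this
  linarith

/-- **forward tail against the arc before the pin**: menu scale in the window, pattern scale outside -/
theorem pvqg_tail_arc_fwd (I : PvmfIn P z t μ hh a b ρ d0 e0 d1 e1) (N : PvmfNum δ μ hh a b ρ d0 e0 d1 e1 RB) {ρp σ : ℝ} (hσ : σ ≤ ρ)
    (hsep : ∀ k k', i0 ≤ k → k ≤ t 5 → t 5 < k' → k' ≤ P.len → σ < ‖P.v k - z‖ → ρp < ‖P.v k - P.v k'‖)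
    (s1 : i0 ≤ s) (s2 : s ≤ t 5) (l1 : t 10 ≤ l) (l2 : l ≤ P.len) : min ρp d1 < ‖P.v s - P.v l‖ := by
  have C := I.cuts N
  rcases lt_or_ge σ ‖P.v s - z‖ with h | h
  · have h5 : t 5 < l := by
      refine lt_of_lt_of_le ?_ l1
      rcases Nat.eq_or_lt_of_le (C.le (i := 5) (j := 10) (by omega) le_rfl) with e | e
      · exfalso
        have h1 := I.near
        have h2 := (I.marks 5 (by omega) le_rfl).mp_far
        have e' : t (5 + 5) = t 5 := e.symm
        rw [e'] at h2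
        have := N.b_pos; have := N.e1_lt; have := N.μ_nn; have := N.e0_pos; have := N.e0_le; have := N.d1_le
        norm_num at h2
        linarith
      · exact e
    exact lt_of_le_of_lt (min_le_left _ _) (hsep s l s1 s2 h5 l2 h)
  · exact lt_of_le_of_lt (min_le_right _ _) (pvqg_sep I N (j := 9) (by omega) (s2.trans (C.le (by omega) (by omega))) l1 l2 (Or.inl (h.trans hσ)))

/-- **backward tail against the arc after the pin** -/
theorem pvqg_tail_arc_bwd (I : PvmfIn P z t μ hh a b ρ d0 e0 d1 e1) (N : PvmfNum δ μ hh a b ρ d0 e0 d1 e1 RB) {ρp σ : ℝ} (hσ : σ ≤ ρ)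
    (hsep : ∀ k k', t 5 ≤ k → k ≤ i0 → k' < t 5 → σ < ‖P.v k - z‖ → ρp < ‖P.v k - P.v k'‖) (hi0 : i0 ≤ P.len)
    (s1 : t 5 ≤ s) (s2 : s ≤ i0) (l1 : l ≤ t 0) : min ρp d1 < ‖P.v s - P.v l‖ := by
  have C := I.cuts N
  rcases lt_or_ge σ ‖P.v s - z‖ with h | h
  · have h5 : l < t 5 := by
      refine lt_of_le_of_lt l1 ?_
      rcases Nat.eq_or_lt_of_le (C.le (i := 0) (j := 5) (by omega) (by omega)) with e | e
      · exfalso
        have h1 := I.near
        have h2 := (I.marks 5 (by omega) le_rfl).mm_far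
        have e' : t (5 - 5) = t 5 := e
        rw [e'] at h2
        have := N.b_pos; have := N.e1_lt; have := N.μ_nn; have := N.e0_pos; have := N.e0_le; have := N.d1_le
        norm_num at h2
        linarith
      · exact e
    exact lt_of_le_of_lt (min_le_left _ _) (hsep s l s1 s2 h5 h)
  · have := pvqg_sep I N (j := 0) (s := l) (l := s) (by omega) l1 ((C.le (by omega) (by omega)).trans s1) (s2.trans hi0) (Or.inr (h.trans hσ))
    rw [norm_sub_rev] at this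
    exact lt_of_le_of_lt (min_le_right _ _) this

end tails

end Claimed.Agent.R289
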