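-- KEEP
import Claimed.Agent.R289.Tr.PlugGeo
import Claimed.Agent.R289.Tr.CellRef

/-!
# Row 289 (S0537, Cardy for Poisson-Voronoi), THE WALL, ROAD P, file Tr/PlugMet : ASSEMBLY OF THE METRIC CONTRACT `PvfjMet` OF TR19-P FOR THE REFINED PLUG OF THE MENU      (owner helper222; prefix `pvqg_`)      0 sorry

INPUTS.   138 `Tr/FitP.lean` sec. 10, 11 (`PvfjMet`, `pvfjmPlug`, caps `pvfjmEp`, `pvfjmEm`, `pvfj_wit_union`);   236 `Tr/CellRef.lean` (`pvrcRef`, `PvfjPlug.ref`, doors);   222 `Tr/PlugGeo.lean` (distances of one pin);   8 `Tr/MenuFit.lean` (`PvmfIn`, `PvmfNum`).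
* sec. 1  kit: `pvqgK k a` (centre in pattern cells), `pvqg_U_sh` (region of a placed refined set `= pvmgPl (pvmgPt δ a) δ E`, `δ = k dc`), `pvqg_disj_U`, `pvqg_disj_N`, `pvqg_conn4_cells`, boxes `pvqgBx`, `pvqg_bx_mem`, `pvqg_bx_far`, `pvqg_box0`, `pvqg_poly_ball`
* sec. 2  ONE FITTED PIN `PvqgPin ty δ μ hh a b ρ d0 e0 d1 e1 P s c ts` (= `PvmhNum.Fit` of `Tr/ModP` + centre in menu cells):   body `pvqgBd`, caps `pvqgEp`, `pvqgEm` in pattern cells;   tails off the body, caps off the arc, off the own body, off the body of the other pin, `pvqg_mark_cell`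
* sec. 3  TWO PINS + `PvtvPolyIn`: record `PvqgIn` (numbers `PvqgNum2`), order of the marks (`ord_s ord_t ord_kf ord_kb`), tails against the arc (`tailF_arc`, `tailB_arc`: pattern scale outside the window, menu scale inside),
          the obstacle in `B(x, 2.8 R)`, witnesses `wit_s`, `wit_t`, `touch`, `apart'`, and   **`PvqgIn.met : PvfjMet ((pvfjmPlug 𝔑 ty).ref k) dc K P s t (pvqgK k cs) (pvqgK k ct)`**
-/

set_option autoImplicit false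
set_option linter.unusedSectionVars false
set_option linter.unusedVariables false

namespace Claimed.Agent.R289

open Relation Claims.C0467 Claimed.Agent.R291

/-! ## 1. kit: regions of refined shifted cells, from distances to cells, boxes -/

section kit

variable {k : ℕ} {dc δ : ℝ} {E E' : Set (ℤ × ℤ)} {a c : ℤ × ℤ} {X Y : Set ℂ} {p q x : ℂ} {j : ℕ}

/-- the centre `a` (menu cells) in pattern cells -/
def pvqgK (k : ℕ) (a : ℤ × ℤ) : ℤ × ℤ := ((k : ℤ) * a.1, (k : ℤ) * a.2)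

theorem pvqg_eqns_cite2 : True := by
  have := @pvqgK.eq_1
  trivial

theorem pvqg_sh_ref (hk : 0 < k) (a : ℤ × ℤ) (E : Set (ℤ × ℤ)) : pvfjSh (pvqgK k a) (pvrcRef k E) = pvrcRef k (pvfjSh a E) :=
  pvrc_ref_sh (by exact_mod_cast hk) a

/-- **the region of a placed refined set** -/
theorem pvqg_U_sh (hk : 0 < k) (hdc : 0 < dc) (a : ℤ × ℤ) (E : Set (ℤ × ℤ)) :
    pvtU dc (pvfjSh (pvqgK k a) (pvrcRef k E)) = pvmgPl (pvmgPt ((k : ℝ) * dc) a) ((k : ℝ) * dc) E := by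
  rw [pvqg_sh_ref hk, show ((k : ℝ)) = (((k : ℤ) : ℝ)) by push_cast; rfl, pvrc_U (by exact_mod_cast hk) hdc]
  have := pvmg_shift (z := 0) (δ := ((k : ℤ) : ℝ) * dc) (E := E) a
  rw [zero_add] at this
  rw [← this]
  ext p
  rw [pvmg_mem, sub_zero]
  rfl

theorem pvqg_ctr_U (hdc : 0 ≤ dc) (hc : c ∈ E) : pvtCtr dc c ∈ pvtU dc E := by
  simp only [pvtU, Set.mem_iUnion]
  exact ⟨c, hc, pvt_sq_ctr hdc⟩

/-- cells whose regions are disjoint -/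
theorem pvqg_disj_U (hdc : 0 ≤ dc) (h : ∀ p ∈ pvtU dc E, ∀ q ∈ pvtU dc E', 0 < ‖p - q‖) : Disjoint E E' := by
  rw [Set.disjoint_left]
  intro c h1 h2
  have := h _ (pvqg_ctr_U hdc h1) _ (pvqg_ctr_U hdc h2)
  rw [sub_self, norm_zero] at this
  exact lt_irrefl _ this

/-- a set of cells whose region is far from `X` misses the collar of the cells of `X` -/
theorem pvqg_disj_N (hdc : 0 < dc) (h : ∀ p ∈ X, ∀ q ∈ pvtU dc E, 2 * ((j : ℝ) + 1) * dc < ‖p - q‖) : Disjoint E (pvtwN j (pvtCells dc X)) := by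
  rw [Set.disjoint_left]
  intro c h1 h2
  obtain ⟨p, hp, hpc⟩ := pvtx_ctr_N_cells hdc h2
  exact absurd hpc (not_le.2 (h p hp _ (pvqg_ctr_U hdc.le h1)))

theorem pvqg_conn4_cells (hdc : 0 < dc) (v : ℕ → ℂ) (i j : ℕ) : TscConn pvtbG4 (pvtCells dc (pvtxPoly v i j)) := fun u hu w hw =>
  pvtb_R_le (fun u v h => by
    rw [pvtb_G4_adj]
    have h' : (v.1 = u.1 ∧ (v.2 = u.2 + 1 ∨ v.2 = u.2 - 1)) ∨ (v.2 = u.2 ∧ (v.1 = u.1 + 1 ∨ v.1 = u.1 - 1)) := h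
    omega) (pvt_cells_conn4 hdc (pvtx_poly_preconn _ _ _) (pvtx_poly_bounded _ _ _) u hu w hw)

theorem pvqg_sh_conn4 (h : TscConn pvtbG4 E) : TscConn pvtbG4 (pvfjSh c E) := by
  refine pvmg_conn_map (Equiv.addRight c) ?_ h
  intro u v huv
  rw [pvtb_G4_adj] at huv ⊢
  simp only [Equiv.coe_addRight, Prod.fst_add, Prod.snd_add]
  omega

theorem pvqg_sh_disj (h : Disjoint E E') : Disjoint (pvfjSh c E) (pvfjSh c E') := by
  rw [Set.disjoint_left]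
  rintro _ ⟨u, hu, rfl⟩ ⟨v, hv, e⟩
  have : v = u := add_right_cancel e
  subst this
  exact Set.disjoint_left.1 h hu hv

/-- a point of a placed menu cell lies in a pattern cell of the placed refinement -/
theorem pvqg_cell_of (hk : 0 < k) (hdc : 0 < dc) (hp : p ∈ pvmgPl (pvmgPt ((k : ℝ) * dc) a) ((k : ℝ) * dc) E) : ∃ c ∈ pvfjSh (pvqgK k a) (pvrcRef k E), p ∈ pvtSq dc c := by
  rw [← pvqg_U_sh hk hdc] at hp
  simp only [pvtU, Set.mem_iUnion] at hp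
  obtain ⟨c, hc, hp⟩ := hp
  exact ⟨c, hc, hp⟩

/-- the box of the sup-ball of radius `r` about `x` -/
noncomputable def pvqgBx (dc : ℝ) (x : ℂ) (r : ℝ) : Set (ℤ × ℤ) := tscBox (⌊(x.re - r) / dc⌋ - 1) ⌊(x.re + r) / dc⌋ (⌊(x.im - r) / dc⌋ - 1) ⌊(x.im + r) / dc⌋

theorem pvqg_bx_mem {r : ℝ} (hdc : 0 < dc) (hq : q ∈ pvtSq dc c) (hr : ‖q - x‖ ≤ r) : c ∈ pvqgBx dc x r := by
  obtain ⟨q1, q2, q3, q4⟩ := hq
  have h1 := (abs_le.1 ((Complex.abs_re_le_norm (q - x)).trans hr))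
  have h2 := (abs_le.1 ((Complex.abs_im_le_norm (q - x)).trans hr))
  rw [Complex.sub_re] at h1
  rw [Complex.sub_im] at h2
  refine ⟨?_, ?_, ?_, ?_⟩
  · have : (x.re - r) / dc ≤ ((c.1 + 1 : ℤ) : ℝ) := by
      rw [div_le_iff₀ hdc]; push_cast; linarith
    have := Int.floor_le_iff.2 (lt_of_le_of_lt this (by push_cast; linarith : ((c.1 + 1 : ℤ) : ℝ) < ((c.1 + 1 : ℤ) : ℝ) + 1))
    omega
  · exact Int.le_floor.2 (by rw [le_div_iff₀ hdc]; linarith)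
  · have : (x.im - r) / dc ≤ ((c.2 + 1 : ℤ) : ℝ) := by
      rw [div_le_iff₀ hdc]; push_cast; linarith
    have := Int.floor_le_iff.2 (lt_of_le_of_lt this (by push_cast; linarith : ((c.2 + 1 : ℤ) : ℝ) < ((c.2 + 1 : ℤ) : ℝ) + 1))
    omega
  · exact Int.le_floor.2 (by rw [le_div_iff₀ hdc]; linarith)

theorem pvqg_bx_out {r : ℝ} (hdc : 0 < dc) (hq : q ∈ pvtSq dc c) (hc : c ∈ pvqgBx dc x r) : |(q - x).re| ≤ r + 2 * dc ∧ |(q - x).im| ≤ r + 2 * dc := by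
  obtain ⟨q1, q2, q3, q4⟩ := hq
  obtain ⟨c1, c2, c3, c4⟩ := hc
  have a1 : (x.re - r) / dc < (⌊(x.re - r) / dc⌋ : ℝ) + 1 := Int.lt_floor_add_one _
  have a2 : (⌊(x.re + r) / dc⌋ : ℝ) ≤ (x.re + r) / dc := Int.floor_le _
  have a3 : (x.im - r) / dc < (⌊(x.im - r) / dc⌋ : ℝ) + 1 := Int.lt_floor_add_one _
  have a4 : (⌊(x.im + r) / dc⌋ : ℝ) ≤ (x.im + r) / dc := Int.floor_le _
  rw [div_lt_iff₀ hdc] at a1 a3
  rw [le_div_iff₀ hdc] at a2 a4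
  have b1 : ((⌊(x.re - r) / dc⌋ : ℝ) - 1) ≤ (c.1 : ℝ) := by exact_mod_cast c1
  have b2 : (c.1 : ℝ) ≤ (⌊(x.re + r) / dc⌋ : ℝ) := by exact_mod_cast c2
  have b3 : ((⌊(x.im - r) / dc⌋ : ℝ) - 1) ≤ (c.2 : ℝ) := by exact_mod_cast c3
  have b4 : (c.2 : ℝ) ≤ (⌊(x.im + r) / dc⌋ : ℝ) := by exact_mod_cast c4
  have d1 := mul_le_mul_of_nonneg_right b1 hdc.le
  have d2 := mul_le_mul_of_nonneg_right b2 hdc.le
  have d3 := mul_le_mul_of_nonneg_right b3 hdc.le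
  have d4 := mul_le_mul_of_nonneg_right b4 hdc.le
  rw [Complex.sub_re, Complex.sub_im, abs_le, abs_le]
  refine ⟨⟨?_, ?_⟩, ?_, ?_⟩ <;> nlinarith

/-- a cell through a point at distance `≥ 4 R` is outside the box of radius `r`, `r + 2 dc ≤ 2.8 R` -/
theorem pvqg_bx_far {r R : ℝ} (hdc : 0 < dc) (hR : 0 < R) (hr : r + 2 * dc ≤ 14 / 5 * R) (hq : q ∈ pvtSq dc c) (hfar : 4 * R ≤ ‖q - x‖) : c ∉ pvqgBx dc x r := by
  intro hc
  obtain ⟨h1, h2⟩ := pvqg_bx_out hdc hq hc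
  have h3 : ‖q - x‖ ^ 2 = (q - x).re ^ 2 + (q - x).im ^ 2 := by
    rw [Complex.sq_norm, Complex.normSq_apply]; ring
  have h4 : (q - x).re ^ 2 ≤ (14 / 5 * R) ^ 2 := sq_le_sq' (by linarith [(abs_le.1 h1).1]) (by linarith [(abs_le.1 h1).2])
  have h5 : (q - x).im ^ 2 ≤ (14 / 5 * R) ^ 2 := sq_le_sq' (by linarith [(abs_le.1 h2).1]) (by linarith [(abs_le.1 h2).2])
  have h6 : (4 * R) ^ 2 ≤ ‖q - x‖ ^ 2 := pow_le_pow_left₀ (by positivity) hfar 2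
  nlinarith

/-- a cell through a point of `B(x, 3 R)` lies in the centred box -/
theorem pvqg_box0 {K : ℕ} {r : ℝ} (hdc : 0 < dc) (hK : ‖x‖ + r + dc ≤ (K : ℝ) * dc) (hq : q ∈ pvtSq dc c) (hr : ‖q - x‖ ≤ r) : c ∈ pvmnBox K := by
  obtain ⟨q1, q2, q3, q4⟩ := hq
  have hn : ‖q‖ ≤ ‖x‖ + r := by
    have := norm_add_le (q - x) x
    rw [sub_add_cancel] at this
    linarith
  have h1 := abs_le.1 ((Complex.abs_re_le_norm q).trans hn)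
  have h2 := abs_le.1 ((Complex.abs_im_le_norm q).trans hn)
  refine ⟨?_, ?_, ?_, ?_⟩
  · have : (-(K : ℝ)) * dc < ((c.1 : ℝ) + 1) * dc := by nlinarith
    have := lt_of_mul_lt_mul_right this hdc.le
    have : (-(K : ℤ)) < c.1 + 1 := by exact_mod_cast this
    omega
  · have : (c.1 : ℝ) * dc < (K : ℝ) * dc := by nlinarith
    have := lt_of_mul_lt_mul_right this hdc.le
    have : c.1 < (K : ℤ) := by exact_mod_cast this
    omega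
  · have : (-(K : ℝ)) * dc < ((c.2 : ℝ) + 1) * dc := by nlinarith
    have := lt_of_mul_lt_mul_right this hdc.le
    have : (-(K : ℤ)) < c.2 + 1 := by exact_mod_cast this
    omega
  · have : (c.2 : ℝ) * dc < (K : ℝ) * dc := by nlinarith
    have := lt_of_mul_lt_mul_right this hdc.le
    have : c.2 < (K : ℤ) := by exact_mod_cast this
    omega

/-- the polygon of vertices of a ball lies in the ball -/
theorem pvqg_poly_ball {v : ℕ → ℂ} {i j : ℕ} {r : ℝ} (hij : i ≤ j) (h : ∀ l, i ≤ l → l ≤ j → ‖v l - x‖ ≤ r) (hp : p ∈ pvtxPoly v i j) : ‖p - x‖ ≤ r := by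
  have hb : ∀ l, i ≤ l → l ≤ j → v l ∈ Metric.closedBall x r := fun l h1 h2 => by
    rw [Metric.mem_closedBall, dist_eq_norm]; exact h l h1 h2
  rcases pvtx_mem_poly.1 hp with rfl | ⟨l, l1, l2, hl⟩
  · exact h i le_rfl hij
  · have := (convex_closedBall x r).segment_subset (hb l l1 l2.le) (hb (l + 1) (by omega) (by omega)) hl
    rwa [Metric.mem_closedBall, dist_eq_norm] at this

end kit

/-! ## 2. one fitted pin, in the cells of the pattern scale -/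

/-- **a fitted pin** (= `PvmhNum.Fit` of `Tr/ModP`, with the centre in menu cells) -/
structure PvqgPin {T : Type} (ty : T → PvmnType) (δ μ hh a b ρ d0 e0 d1 e1 : ℝ) (P : PvbRim) (s : PvbPin T) (c : ℤ × ℤ) (ts : ℕ → ℕ) : Prop where
  ctr : s.ctr = pvmgPt δ c
  idx : ts 5 = s.idx
  inn : PvmfIn P s.ctr ts μ hh a b ρ d0 e0 d1 e1
  fits : PvmnFits (ty s.typ) δ (fun i => P.v i - s.ctr) (fun k => ts k.1)

section pin

variable {T : Type} {𝔑 : PvmnNum} {ty : T → PvmnType} {k : ℕ} {dc δ μ μ' hh a b ρ d0 e0 d1 e1 RB : ℝ} {P : PvbRim} {s t : PvbPin T} {cs ct : ℤ × ℤ} {ts tt : ℕ → ℕ} {i j l : ℕ} {p q : ℂ}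

/-- the body, the two caps of a placed plug, in pattern cells -/
def pvqgBd (𝔑 : PvmnNum) (k : ℕ) (τ : PvmnType) (c : ℤ × ℤ) : Set (ℤ × ℤ) := pvfjSh (pvqgK k c) (pvrcRef k (pvfjmB 𝔑 τ))
def pvqgEp (k : ℕ) (τ : PvmnType) (c : ℤ × ℤ) : Set (ℤ × ℤ) := pvfjSh (pvqgK k c) (pvrcRef k (pvfjmEp τ))
def pvqgEm (k : ℕ) (τ : PvmnType) (c : ℤ × ℤ) : Set (ℤ × ℤ) := pvfjSh (pvqgK k c) (pvrcRef k (pvfjmEm τ))

theorem pvqg_eqns_cite3 : True := by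
  have := @pvqgBd.eq_1; have := @pvqgEp.eq_1; have := @pvqgEm.eq_1; have := @pvqgBx.eq_1
  trivial

/-- a GENEROUS body (collars `20`): robust against the choice of the collars of `pvfjmB` (138) -/
def pvqgBodyW (r : ℝ) (τ : PvmnType) : Set (ℤ × ℤ) := pvmnBl r ∪ pvtwN 20 (pvmnCells τ 4 5) ∪ pvtwN 20 (pvmnCells τ 1 8)

theorem pvqg_B_sub (𝔑 : PvmnNum) (τ : PvmnType) : pvfjmB 𝔑 τ ⊆ pvqgBodyW 𝔑.rB τ :=
  Set.union_subset_union (Set.union_subset_union le_rfl (pvtw_N_mono (by norm_num) le_rfl)) (pvtw_N_mono (by norm_num) le_rfl)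

/-- **a vertex after the mark `10` is far from the placed generous body** -/
theorem pvqg_tailW_fwd {z : ℂ} {r : ℝ} {τ : PvmnType} (I : PvmfIn P z ts μ hh a b ρ d0 e0 d1 e1) (N : PvmfNum δ μ hh a b ρ d0 e0 d1 e1 RB) (F : PvmnFits τ δ (fun i => P.v i - z) (fun k => ts k.1))
    (hr : δ * r = RB) (hp : p ∈ pvmgPl z δ (pvqgBodyW r τ)) (l1 : ts 10 ≤ l) (l2 : l ≤ P.len) : 28 * δ < ‖P.v l - p‖ := by
  have C := I.cuts N
  have hδ := N.δ_pos; have h1 := N.d1_ge; have h2 := N.μ_le; have h3 := N.RB_lt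
  rw [pvqgBodyW, pvmg_union, pvmg_union] at hp
  rcases hp with (hp | hp) | hp
  · have := pvqg_ball_fwd I N hp ((C.le (by omega) le_rfl).trans l1) l2
    rw [mul_add, hr] at this
    linarith
  · have := pvqg_fwd I N F (j := 5) (by omega) hp ((C.le (by omega) le_rfl).trans l1) l2
    push_cast at this
    linarith
  · have := pvqg_fwd I N F (j := 8) (by omega) hp l1 l2
    push_cast at this
    linarith

/-- **a vertex before the mark `0` is far from the placed generous body** -/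
theorem pvqg_tailW_bwd {z : ℂ} {r : ℝ} {τ : PvmnType} (I : PvmfIn P z ts μ hh a b ρ d0 e0 d1 e1) (N : PvmfNum δ μ hh a b ρ d0 e0 d1 e1 RB) (F : PvmnFits τ δ (fun i => P.v i - z) (fun k => ts k.1))
    (hr : δ * r = RB) (hp : p ∈ pvmgPl z δ (pvqgBodyW r τ)) (l1 : l ≤ ts 0) : 28 * δ < ‖P.v l - p‖ := by
  have C := I.cuts N
  have hδ := N.δ_pos; have h1 := N.d1_ge; have h2 := N.μ_le; have h3 := N.RB_lt
  rw [pvqgBodyW, pvmg_union, pvmg_union] at hp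
  rcases hp with (hp | hp) | hp
  · have := pvqg_ball_bwd I N hp (l1.trans (C.le (by omega) (by omega)))
    rw [mul_add, hr] at this
    linarith
  · have := pvqg_bwd I N F (i := 4) (by omega) hp (l1.trans (C.le (by omega) (by omega)))
    push_cast at this
    linarith
  · have := pvqg_bwd I N F (i := 1) (by omega) hp l1
    push_cast at this
    linarith

theorem pvqg_Bd_U_eq (hk : 0 < k) (hdc : 0 < dc) (hδ : δ = (k : ℝ) * dc) (S : PvqgPin ty δ μ hh a b ρ d0 e0 d1 e1 P s cs ts) :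
    pvtU dc (pvqgBd 𝔑 k (ty s.typ) cs) = pvmgPl s.ctr δ (pvfjmB 𝔑 (ty s.typ)) := by
  rw [pvqgBd, pvqg_U_sh hk hdc, ← hδ, ← S.ctr]

theorem pvqg_Bd_U (hk : 0 < k) (hdc : 0 < dc) (hδ : δ = (k : ℝ) * dc) (S : PvqgPin ty δ μ hh a b ρ d0 e0 d1 e1 P s cs ts) :
    pvtU dc (pvqgBd 𝔑 k (ty s.typ) cs) ⊆ pvmgPl s.ctr δ (pvqgBodyW 𝔑.rB (ty s.typ)) := by
  rw [pvqg_Bd_U_eq hk hdc hδ S]
  exact pvmg_mono (pvqg_B_sub _ _)

theorem pvqg_Ep_U (hk : 0 < k) (hdc : 0 < dc) (hδ : δ = (k : ℝ) * dc) (S : PvqgPin ty δ μ hh a b ρ d0 e0 d1 e1 P s cs ts) :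
    pvtU dc (pvqgEp k (ty s.typ) cs) ⊆ pvmgPl s.ctr δ (pvtwN 1 ((ty s.typ).C 9 : Set (ℤ × ℤ))) := by
  rw [pvqgEp, pvqg_U_sh hk hdc, ← hδ, ← S.ctr]
  exact pvmg_mono pvfjm_Ep_sub

theorem pvqg_Em_U (hk : 0 < k) (hdc : 0 < dc) (hδ : δ = (k : ℝ) * dc) (S : PvqgPin ty δ μ hh a b ρ d0 e0 d1 e1 P s cs ts) :
    pvtU dc (pvqgEm k (ty s.typ) cs) ⊆ pvmgPl s.ctr δ (pvtwN 1 ((ty s.typ).C 0 : Set (ℤ × ℤ))) := by
  rw [pvqgEm, pvqg_U_sh hk hdc, ← hδ, ← S.ctr]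
  exact pvmg_mono pvfjm_Em_sub

theorem pvqg_Ep_conn (hk : 0 < k) (τ : PvmnType) (c : ℤ × ℤ) : TscConn pvtbG4 (pvqgEp k τ c) :=
  pvqg_sh_conn4 (pvrc_conn4 (by exact_mod_cast hk) (pvfjm_Ep_conn τ))

theorem pvqg_Em_conn (hk : 0 < k) (τ : PvmnType) (c : ℤ × ℤ) : TscConn pvtbG4 (pvqgEm k τ c) :=
  pvqg_sh_conn4 (pvrc_conn4 (by exact_mod_cast hk) (pvfjm_Em_conn τ))

theorem pvqg_Ep_off_own {τ : PvmnType} (hτ : PvmnIsType 𝔑 τ) (c : ℤ × ℤ) : Disjoint (pvqgEp k τ c) (pvqgBd 𝔑 k τ c) :=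
  pvqg_sh_disj (pvrc_ref_disj (pvfjm_Ep_off_B hτ))

theorem pvqg_Em_off_own {τ : PvmnType} (hτ : PvmnIsType 𝔑 τ) (c : ℤ × ℤ) : Disjoint (pvqgEm k τ c) (pvqgBd 𝔑 k τ c) :=
  pvqg_sh_disj (pvrc_ref_disj (pvfjm_Em_off_B hτ))

/-- the forward tail misses the body -/
theorem pvqg_tailF_off (hk : 0 < k) (hdc : 0 < dc) (hδ : δ = (k : ℝ) * dc) (S : PvqgPin ty δ μ hh a b ρ d0 e0 d1 e1 P s cs ts) (N : PvmfNum δ μ hh a b ρ d0 e0 d1 e1 RB) (hr : δ * 𝔑.rB = RB)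
    (hμ' : 0 ≤ μ') (hnum : 2 * dc + μ' ≤ 28 * δ) (hi : ts 10 ≤ i) (hij : i ≤ j) (hj : j ≤ P.len) (mesh : ∀ l, i ≤ l → l < j → ‖P.v (l + 1) - P.v l‖ ≤ μ') :
    Disjoint (pvtCells dc (pvtxPoly P.v i j)) (pvqgBd 𝔑 k (ty s.typ) cs) := by
  refine pvrc_cells_disj_U hdc.le fun p hp q hq => ?_
  replace hp := pvqg_Bd_U hk hdc hδ S hp
  have := pvqg_poly_far hμ' hij mesh (fun l l1 l2 => pvqg_tailW_fwd S.inn N S.fits hr hp (hi.trans l1) (l2.trans hj)) hq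
  rw [norm_sub_rev]
  linarith

/-- the backward tail misses the body -/
theorem pvqg_tailB_off (hk : 0 < k) (hdc : 0 < dc) (hδ : δ = (k : ℝ) * dc) (S : PvqgPin ty δ μ hh a b ρ d0 e0 d1 e1 P s cs ts) (N : PvmfNum δ μ hh a b ρ d0 e0 d1 e1 RB) (hr : δ * 𝔑.rB = RB)
    (hμ' : 0 ≤ μ') (hnum : 2 * dc + μ' ≤ 28 * δ) (hij : i ≤ j) (hj : j ≤ ts 0) (mesh : ∀ l, i ≤ l → l < j → ‖P.v (l + 1) - P.v l‖ ≤ μ') :
    Disjoint (pvtCells dc (pvtxPoly P.v i j)) (pvqgBd 𝔑 k (ty s.typ) cs) := by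
  refine pvrc_cells_disj_U hdc.le fun p hp q hq => ?_
  replace hp := pvqg_Bd_U hk hdc hδ S hp
  have := pvqg_poly_far hμ' hij mesh (fun l l1 l2 => pvqg_tailW_bwd S.inn N S.fits hr hp (l2.trans hj)) hq
  rw [norm_sub_rev]
  linarith

/-- the positive cap misses the collar of the cells of a stretch which ends before the mark `8` -/
theorem pvqg_Ep_off_arc (hk : 0 < k) (hdc : 0 < dc) (hδ : δ = (k : ℝ) * dc) (S : PvqgPin ty δ μ hh a b ρ d0 e0 d1 e1 P s cs ts) (N : PvmfNum δ μ hh a b ρ d0 e0 d1 e1 RB)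
    (hμ' : 0 ≤ μ') (hnum : 6 * dc + μ' ≤ 500 * δ) (hij : i ≤ j) (hj : j ≤ ts 8) (mesh : ∀ l, i ≤ l → l < j → ‖P.v (l + 1) - P.v l‖ ≤ μ') :
    Disjoint (pvqgEp k (ty s.typ) cs) (pvtwN 2 (pvtCells dc (pvtxPoly P.v i j))) := by
  refine pvqg_disj_N hdc fun p hp q hq => ?_
  have hq' := pvqg_Ep_U hk hdc hδ S hq
  have := pvqg_poly_far hμ' hij mesh (fun l l1 l2 => pvqg_E_fwd S.inn N S.fits hq' (l2.trans hj)) hp
  have h1 := N.d1_ge; have h2 := N.μ_le; have h3 := N.δ_pos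
  push_cast
  linarith

/-- the negative cap misses the collar of the cells of a stretch which starts after the mark `2` -/
theorem pvqg_Em_off_arc (hk : 0 < k) (hdc : 0 < dc) (hδ : δ = (k : ℝ) * dc) (S : PvqgPin ty δ μ hh a b ρ d0 e0 d1 e1 P s cs ts) (N : PvmfNum δ μ hh a b ρ d0 e0 d1 e1 RB)
    (hμ' : 0 ≤ μ') (hnum : 6 * dc + μ' ≤ 500 * δ) (hi : ts 2 ≤ i) (hij : i ≤ j) (hj : j ≤ P.len) (mesh : ∀ l, i ≤ l → l < j → ‖P.v (l + 1) - P.v l‖ ≤ μ') :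
    Disjoint (pvqgEm k (ty s.typ) cs) (pvtwN 2 (pvtCells dc (pvtxPoly P.v i j))) := by
  refine pvqg_disj_N hdc fun p hp q hq => ?_
  have hq' := pvqg_Em_U hk hdc hδ S hq
  have := pvqg_poly_far hμ' hij mesh (fun l l1 l2 => pvqg_E_bwd S.inn N S.fits hq' (hi.trans l1) (l2.trans hj)) hp
  have h1 := N.d1_ge; have h2 := N.μ_le; have h3 := N.δ_pos
  push_cast
  linarith

/-- the positive cap of `t` misses the body of a pin `s` whose mark `10` comes before the mark `9` of `t` -/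
theorem pvqg_Ep_off_other (hk : 0 < k) (hdc : 0 < dc) (hδ : δ = (k : ℝ) * dc) (Ss : PvqgPin ty δ μ hh a b ρ d0 e0 d1 e1 P s cs ts) (St : PvqgPin ty δ μ hh a b ρ d0 e0 d1 e1 P t ct tt)
    (N : PvmfNum δ μ hh a b ρ d0 e0 d1 e1 RB) (hr : δ * 𝔑.rB = RB) (hord : ts 10 ≤ tt 9) : Disjoint (pvqgEp k (ty t.typ) ct) (pvqgBd 𝔑 k (ty s.typ) cs) := by
  refine pvqg_disj_U hdc.le fun p hp q hq => ?_
  replace hq := pvqg_Bd_U hk hdc hδ Ss hq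
  obtain ⟨l, l1, l2, l3⟩ := pvqg_E_fwd_near St.inn N St.fits (pvqg_Ep_U hk hdc hδ St hp)
  have h1 := pvqg_tailW_fwd Ss.inn N Ss.fits hr hq (hord.trans l1) (l2.trans (St.inn.cuts N).le_len)
  have h2 := pvtp_tri (P.v l) p q
  have h3 := N.μ_le; have h4 := N.δ_pos
  linarith

/-- the negative cap of `s` misses the body of a pin `t` whose mark `0` comes after the mark `1` of `s` -/
theorem pvqg_Em_off_other (hk : 0 < k) (hdc : 0 < dc) (hδ : δ = (k : ℝ) * dc) (Ss : PvqgPin ty δ μ hh a b ρ d0 e0 d1 e1 P s cs ts) (St : PvqgPin ty δ μ hh a b ρ d0 e0 d1 e1 P t ct tt)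
    (N : PvmfNum δ μ hh a b ρ d0 e0 d1 e1 RB) (hr : δ * 𝔑.rB = RB) (hord : ts 1 ≤ tt 0) : Disjoint (pvqgEm k (ty s.typ) cs) (pvqgBd 𝔑 k (ty t.typ) ct) := by
  refine pvqg_disj_U hdc.le fun p hp q hq => ?_
  replace hq := pvqg_Bd_U hk hdc hδ St hq
  obtain ⟨l, l1, l2, l3⟩ := pvqg_E_bwd_near Ss.inn N Ss.fits (pvqg_Em_U hk hdc hδ Ss hp)
  have h1 := pvqg_tailW_bwd St.inn N St.fits hr hq (l2.trans hord)
  have h2 := pvtp_tri (P.v l) p q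
  have h3 := N.μ_le; have h4 := N.δ_pos
  linarith

/-- a mark vertex lies in a pattern cell of the placed refinement of every set which contains its mark cell -/
theorem pvqg_mark_cell (hk : 0 < k) (hdc : 0 < dc) (hδ : δ = (k : ℝ) * dc) (S : PvqgPin ty δ μ hh a b ρ d0 e0 d1 e1 P s cs ts) (n : Fin 11) {E : Set (ℤ × ℤ)} (hE : (ty s.typ).q n ∈ E) :
    ∃ c ∈ pvfjSh (pvqgK k cs) (pvrcRef k E), P.v (ts n.1) ∈ pvtSq dc c := by
  refine pvqg_cell_of hk hdc ?_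
  rw [← hδ, ← S.ctr]
  exact pvmg_mem_sq.2 ⟨_, hE, pvmf_q S.fits n⟩

end pin

/-! ## 3. two pins and the polygonal input of TR19: THE CONTRACT -/

/-- far centres, in menu cells -/
theorem pvqg_far_int {δ : ℝ} {a c : ℤ × ℤ} {n : ℕ} (hδ : 0 < δ) (h : 2 * (n : ℝ) * δ ≤ ‖pvmgPt δ a - pvmgPt δ c‖) : (n : ℤ) ≤ |a.1 - c.1| ∨ (n : ℤ) ≤ |a.2 - c.2| := by
  by_contra hcon
  push Not at hcon
  obtain ⟨h1, h2⟩ := hcon
  have g1 : |((a.1 - c.1 : ℤ) : ℝ)| < (n : ℝ) := by exact_mod_cast h1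
  have g2 : |((a.2 - c.2 : ℤ) : ℝ)| < (n : ℝ) := by exact_mod_cast h2
  have e1 : (pvmgPt δ a - pvmgPt δ c).re = ((a.1 - c.1 : ℤ) : ℝ) * δ := by
    simp only [pvmgPt, Complex.sub_re]; push_cast; ring
  have e2 : (pvmgPt δ a - pvmgPt δ c).im = ((a.2 - c.2 : ℤ) : ℝ) * δ := by
    simp only [pvmgPt, Complex.sub_im]; push_cast; ring
  have h3 := Complex.norm_le_abs_re_add_abs_im (pvmgPt δ a - pvmgPt δ c)
  rw [e1, e2, abs_mul, abs_mul, abs_of_pos hδ] at h3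
  nlinarith

/-- **the numbers of the assembly** -/
structure PvqgNum2 (dc δ μ' ρ' σ' hh b ρ R D : ℝ) (nB : ℕ) : Prop where
  R_pos : 0 < R
  μ_nn : 0 ≤ μ'
  μ_le : μ' ≤ δ
  /-- the pattern scale: no near return `(ρ', σ')` with `6 dc ≤ ρ' - 2 μ'` -/
  rho : 6 * dc + 2 * μ' ≤ ρ'
  /-- the disc `σ'` of the near returns lies in the window of the pins -/
  sig : σ' + 2 * μ' ≤ ρ
  /-- the two centres are `D` apart -/
  ord : 6 * b + hh ≤ D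
  apart : 2 * ((2 * nB + 2 : ℕ) : ℝ) * δ ≤ D
  out : 6 * b + hh ≤ 2 * R
  loc : hh + 2 * ((nB : ℝ) + 1) * δ + 2 * dc ≤ 4 / 5 * R
  loc' : 8 * dc ≤ 4 / 5 * R

section two

variable {T : Type} {𝔑 : PvmnNum} {ty : T → PvmnType} {k K : ℕ} {dc δ μ μ' ρ' σ' hh a b ρ d0 e0 d1 e1 RB R D h : ℝ} {x : ℂ} {P : PvbRim} {s t : PvbPin T} {cs ct : ℤ × ℤ} {ts tt : ℕ → ℕ}
  {kb kf : ℕ} {𝔐 : PvbMenu T}

/-- the hypotheses of the assembly -/
structure PvqgIn (𝔑 : PvmnNum) (ty : T → PvmnType) (k : ℕ) (dc δ μ μ' ρ' σ' hh a b ρ d0 e0 d1 e1 RB R D h : ℝ) (x : ℂ) (𝔐 : PvbMenu T) (P : PvbRim) (s t : PvbPin T) (cs ct : ℤ × ℤ) (ts tt : ℕ → ℕ)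
    (kb kf : ℕ) : Prop where
  numOK : PvmnNumOK 𝔑
  hWP : 𝔑.nW ≤ 𝔑.nP
  hty : ∀ t, PvmnIsType 𝔑 (ty t)
  hk : 0 < k
  hdc : 0 < dc
  hδ : δ = (k : ℝ) * dc
  N : PvmfNum δ μ hh a b ρ d0 e0 d1 e1 RB
  hr : δ * 𝔑.rB = RB
  N2 : PvqgNum2 dc δ μ' ρ' σ' hh b ρ R D (pvfjmPlug 𝔑 ty).nB
  Ss : PvqgPin ty δ μ hh a b ρ d0 e0 d1 e1 P s cs ts
  St : PvqgPin ty δ μ hh a b ρ d0 e0 d1 e1 P t ct tt
  H : PvtvPolyIn 𝔐 x R h μ' ρ' σ' P s t kb kf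
  lt : s.idx < t.idx
  arc : ∀ l, s.idx ≤ l → l ≤ t.idx → ‖P.v l - x‖ ≤ 2 * R
  far : D ≤ ‖s.ctr - t.ctr‖

namespace PvqgIn

variable (I : PvqgIn 𝔑 ty k dc δ μ μ' ρ' σ' hh a b ρ d0 e0 d1 e1 RB R D h x 𝔐 P s t cs ct ts tt kb kf)

include I

theorem dc_le : dc ≤ δ := by
  have h1 : (1 : ℝ) ≤ (k : ℝ) := by exact_mod_cast I.hk
  have := I.hdc
  rw [I.hδ]
  nlinarith

theorem near_s : ‖P.v s.idx - s.ctr‖ ≤ hh := by
  have := I.Ss.inn.near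
  rwa [I.Ss.idx] at this

theorem near_t : ‖P.v t.idx - t.ctr‖ ≤ hh := by
  have := I.St.inn.near
  rwa [I.St.idx] at this

/-- the mark `10` of `s` comes before `t` -/
theorem ord_s : ts 10 ≤ t.idx := by
  refine pvqg_order_fwd I.Ss.inn (by rw [I.Ss.idx]; exact I.lt.le) ?_
  have h1 := I.near_t; have h2 := I.far; have h3 := I.N2.ord
  have h4 := pvtp_tri s.ctr (P.v t.idx) t.ctr
  rw [norm_sub_rev s.ctr (P.v t.idx)] at h4
  linarith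

/-- the mark `0` of `t` comes after `s` -/
theorem ord_t : s.idx ≤ tt 0 := by
  refine pvqg_order_bwd I.St.inn (by rw [I.St.idx]; exact I.lt.le) ?_
  have h1 := I.near_s; have h2 := I.far; have h3 := I.N2.ord
  have h4 := pvtp_tri s.ctr (P.v s.idx) t.ctr
  rw [norm_sub_rev s.ctr (P.v s.idx)] at h4
  linarith

theorem ord_kf : tt 10 ≤ kf := by
  refine pvqg_order_fwd I.St.inn (by rw [I.St.idx]; exact I.H.lt_kf.le) ?_
  have h1 := I.near_t; have h2 := I.H.out_f; have h3 := I.N2.out; have h5 := I.arc t.idx I.lt.le le_rfl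
  have h4 := pvtp_tri (P.v kf) t.ctr x
  have h6 := pvtp_tri t.ctr (P.v t.idx) x
  rw [norm_sub_rev t.ctr (P.v t.idx)] at h6
  linarith

theorem ord_kb : kb ≤ ts 0 := by
  refine pvqg_order_bwd I.Ss.inn (by rw [I.Ss.idx]; exact I.H.kb_lt.le) ?_
  have h1 := I.near_s; have h2 := I.H.out_b; have h3 := I.N2.out; have h5 := I.arc s.idx le_rfl I.lt.le
  have h4 := pvtp_tri (P.v kb) s.ctr x
  have h6 := pvtp_tri s.ctr (P.v s.idx) x
  rw [norm_sub_rev s.ctr (P.v s.idx)] at h6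
  linarith

theorem le_s {i j : ℕ} (h1 : i ≤ j) (h2 : j ≤ 10) : ts i ≤ ts j := (I.Ss.inn.cuts I.N).le h1 h2

theorem le_t {i j : ℕ} (h1 : i ≤ j) (h2 : j ≤ 10) : tt i ≤ tt j := (I.St.inn.cuts I.N).le h1 h2

theorem mesh_of {i j : ℕ} (hi : kb ≤ i) (hj : j ≤ kf) : ∀ l, i ≤ l → l < j → ‖P.v (l + 1) - P.v l‖ ≤ μ' := fun l l1 l2 => I.H.mesh l (hi.trans l1) (lt_of_lt_of_le l2 hj)

/-- **the forward tail against the arc** -/
theorem tailF_arc {p q : ℂ} (hp : p ∈ pvtxPoly P.v s.idx t.idx) (hq : q ∈ pvtxPoly P.v (tt 10) kf) : 6 * dc < ‖p - q‖ := by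
  have h5 : t.idx ≤ tt 10 := by rw [← I.St.idx]; exact I.le_t (by omega) le_rfl
  have hq' : q ∈ pvtvPoly P t.idx kf := by
    rw [← pvrc_poly P I.H.lt_kf]
    exact pvtx_poly_mono h5 le_rfl I.ord_kf hq
  have hp' : p ∈ pvtvPoly P s.idx t.idx := by
    rw [← pvrc_poly P I.lt]
    exact hp
  have n1 := I.N2.rho; have n2 := I.N2.sig; have n3 := I.N2.μ_le; have n4 := I.N.d1_ge; have n5 := I.dc_le; have n6 := I.N.δ_pos
  rcases lt_or_ge (σ' + μ') ‖p - t.ctr‖ with hc | hc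
  · have := I.H.nr_f p hp' q hq' hc
    linarith
  · obtain ⟨l, l1, l2, l3⟩ := pvtx_poly_vertex I.N2.μ_nn I.lt.le (I.mesh_of I.H.kb_lt.le I.H.lt_kf.le) hp
    obtain ⟨l', l1', l2', l3'⟩ := pvtx_poly_vertex I.N2.μ_nn I.ord_kf (I.mesh_of (I.H.kb_lt.le.trans (I.lt.le.trans h5)) le_rfl) hq
    have hw : ‖P.v l - t.ctr‖ ≤ ρ := by
      have := pvtp_tri (P.v l) p t.ctr
      rw [norm_sub_rev (P.v l) p] at this
      linarith
    have h9 : l ≤ tt 9 := l2.trans (by rw [← I.St.idx]; exact I.le_t (by omega) (by omega))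
    have := pvqg_sep I.St.inn I.N (j := 9) (by omega) h9 l1' (l2'.trans I.H.kf_le) (Or.inl hw)
    have g1 := pvtp_tri (P.v l) p (P.v l')
    have g2 := pvtp_tri p q (P.v l')
    rw [norm_sub_rev (P.v l) p] at g1
    linarith

/-- **the backward tail against the arc** -/
theorem tailB_arc {p q : ℂ} (hp : p ∈ pvtxPoly P.v s.idx t.idx) (hq : q ∈ pvtxPoly P.v kb (ts 0)) : 6 * dc < ‖p - q‖ := by
  have h5 : ts 0 ≤ s.idx := by rw [← I.Ss.idx]; exact I.le_s (by omega) (by omega)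
  have hq' : q ∈ pvtvPoly P kb s.idx := by
    rw [← pvrc_poly P I.H.kb_lt]
    exact pvtx_poly_mono le_rfl h5 I.H.kb_lt.le hq
  have hp' : p ∈ pvtvPoly P s.idx t.idx := by
    rw [← pvrc_poly P I.lt]
    exact hp
  have n1 := I.N2.rho; have n2 := I.N2.sig; have n3 := I.N2.μ_le; have n4 := I.N.d1_ge; have n5 := I.dc_le; have n6 := I.N.δ_pos
  rcases lt_or_ge (σ' + μ') ‖p - s.ctr‖ with hc | hc
  · have := I.H.nr_b p hp' q hq' hc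
    linarith
  · obtain ⟨l, l1, l2, l3⟩ := pvtx_poly_vertex I.N2.μ_nn I.lt.le (I.mesh_of I.H.kb_lt.le I.H.lt_kf.le) hp
    obtain ⟨l', l1', l2', l3'⟩ := pvtx_poly_vertex I.N2.μ_nn I.ord_kb (I.mesh_of le_rfl (h5.trans (I.lt.le.trans I.H.lt_kf.le))) hq
    have hw : ‖P.v l - s.ctr‖ ≤ ρ := by
      have := pvtp_tri (P.v l) p s.ctr
      rw [norm_sub_rev (P.v l) p] at this
      linarith
    have h1 : ts (0 + 1) ≤ l := le_trans (by rw [← I.Ss.idx]; exact I.le_s (by omega) (by omega)) l1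
    have := pvqg_sep I.Ss.inn I.N (j := 0) (by omega) l2' h1 (l2.trans (I.H.lt_kf.le.trans I.H.kf_le)) (Or.inr hw)
    have g1 := pvtp_tri (P.v l') q (P.v l)
    have g2 := pvtp_tri q p (P.v l)
    rw [norm_sub_rev (P.v l') q] at g1
    rw [norm_sub_rev q p] at g2
    linarith

/-- the obstacle in the names of this file -/
theorem F0_eq : pvfjF0 ((pvfjmPlug 𝔑 ty).ref k) dc P s t (pvqgK k cs) (pvqgK k ct) =
    pvtwN 2 (pvtCells dc (pvtxPoly P.v s.idx t.idx)) ∪ pvqgBd 𝔑 k (ty s.typ) cs ∪ pvqgBd 𝔑 k (ty t.typ) ct := rfl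

theorem body_loc {u : PvbPin T} {cu : ℤ × ℤ} {tu : ℕ → ℕ} (Su : PvqgPin ty δ μ hh a b ρ d0 e0 d1 e1 P u cu tu) (hu : ‖P.v u.idx - x‖ ≤ 2 * R) {c : ℤ × ℤ} (hc : c ∈ pvqgBd 𝔑 k (ty u.typ) cu) :
    ‖pvtCtr dc c - x‖ ≤ 14 / 5 * R - 2 * dc := by
  have h1 : pvtCtr dc c ∈ pvmgPl u.ctr δ (pvfjmB 𝔑 (ty u.typ)) := by
    rw [← pvqg_Bd_U_eq I.hk I.hdc I.hδ Su]
    exact pvqg_ctr_U I.hdc.le hc
  have h2 := pvmg_box_ball' I.N.δ_pos ((pvfjm_wf I.numOK I.hWP I.hty).B_box u.typ) h1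
  rw [Metric.mem_closedBall, dist_eq_norm] at h2
  have h3 := Su.inn.near
  rw [Su.idx] at h3
  have h4 := pvtp_tri (pvtCtr dc c) u.ctr x
  have h5 := pvtp_tri u.ctr (P.v u.idx) x
  rw [norm_sub_rev u.ctr (P.v u.idx)] at h5
  have := I.N2.loc
  linarith

/-- **the obstacle lies in `B(x, 2.8 R)`** -/
theorem F0_loc {c : ℤ × ℤ} (hc : c ∈ pvfjF0 ((pvfjmPlug 𝔑 ty).ref k) dc P s t (pvqgK k cs) (pvqgK k ct)) : ‖pvtCtr dc c - x‖ ≤ 14 / 5 * R - 2 * dc := by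
  rw [I.F0_eq] at hc
  rcases hc with (hc | hc) | hc
  · obtain ⟨p, hp, hpc⟩ := pvtx_ctr_N_cells I.hdc hc
    have h1 := pvqg_poly_ball I.lt.le I.arc hp
    have h2 := pvtp_tri (pvtCtr dc c) p x
    rw [norm_sub_rev (pvtCtr dc c) p] at h2
    have := I.N2.loc'
    push_cast at hpc
    linarith
  · exact I.body_loc I.Ss (I.arc s.idx le_rfl I.lt.le) hc
  · exact I.body_loc I.St (I.arc t.idx I.lt.le le_rfl) hc

theorem F0_bx : pvfjF0 ((pvfjmPlug 𝔑 ty).ref k) dc P s t (pvqgK k cs) (pvqgK k ct) ⊆ pvqgBx dc x (14 / 5 * R - 2 * dc) := fun c hc =>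
  pvqg_bx_mem I.hdc (pvt_sq_ctr I.hdc.le) (I.F0_loc hc)

theorem F0_box (hK : ‖x‖ + 3 * R + dc ≤ (K : ℝ) * dc) : pvfjF0 ((pvfjmPlug 𝔑 ty).ref k) dc P s t (pvqgK k cs) (pvqgK k ct) ⊆ pvmnBox K := fun c hc =>
  pvqg_box0 I.hdc hK (pvt_sq_ctr I.hdc.le) ((I.F0_loc hc).trans (by have := I.hdc; have := I.N2.R_pos; linarith))

/-- a far vertex gives a cell outside the box -/
theorem far_cell {i j l : ℕ} (h1 : i ≤ l) (h2 : l ≤ j) (hl : 4 * R ≤ ‖P.v l - x‖) : ∃ w ∈ pvtCells dc (pvtxPoly P.v i j), w ∉ pvqgBx dc x (14 / 5 * R - 2 * dc) := by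
  obtain ⟨w, hw⟩ := pvt_sq_cover I.hdc (P.v l)
  exact ⟨w, ⟨P.v l, hw, pvtx_vertex_mem h1 h2⟩, pvqg_bx_far I.hdc I.N2.R_pos (by linarith) hw hl⟩

theorem num28 : 2 * dc + μ' ≤ 28 * δ := by
  have := I.dc_le; have := I.N2.μ_le; have := I.N.δ_pos
  linarith

theorem num500 : 6 * dc + μ' ≤ 500 * δ := by
  have := I.dc_le; have := I.N2.μ_le; have := I.N.δ_pos
  linarith

/-- **the witness of the end pin** -/
theorem wit_t : ∃ W : Set (ℤ × ℤ), TscConn pvtbG4 W ∧ Disjoint W (pvfjF0 ((pvfjmPlug 𝔑 ty).ref k) dc P s t (pvqgK k cs) (pvqgK k ct)) ∧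
    ((pvfjmPlug 𝔑 ty).ref k).yp t.typ + pvqgK k ct + ((pvfjmPlug 𝔑 ty).ref k).dp t.typ ∈ W ∧
    ∃ a b c d : ℤ, pvfjF0 ((pvfjmPlug 𝔑 ty).ref k) dc P s t (pvqgK k cs) (pvqgK k ct) ⊆ tscBox a b c d ∧ ∃ w ∈ W, w ∉ tscBox a b c d := by
  have hkz : (0 : ℤ) < (k : ℤ) := by exact_mod_cast I.hk
  have h5 : t.idx ≤ tt 10 := by rw [← I.St.idx]; exact I.le_t (by omega) le_rfl
  have hkb : kb ≤ tt 10 := I.H.kb_lt.le.trans (I.lt.le.trans h5)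
  obtain ⟨q, hqE, hq⟩ := pvqg_mark_cell I.hk I.hdc I.hδ I.St 10 (pvfjm_Ep_tip (I.hty t.typ) I.hWP)
  refine pvfj_wit_union (E' := pvqgEp k (ty t.typ) ct) (Wq := pvtCells dc (pvtxPoly P.v (tt 10) kf)) (q := q) (pvqg_Ep_conn I.hk _ _) (pvqg_conn4_cells I.hdc _ _ _) ?_ ?_ ?_ hqE
    ⟨P.v (tt 10), hq, pvtx_vertex_mem le_rfl I.ord_kf⟩ I.F0_bx (I.far_cell I.ord_kf le_rfl I.H.out_f)
  · rw [I.F0_eq]
    refine Set.disjoint_union_right.2 ⟨Set.disjoint_union_right.2 ⟨?_, ?_⟩, pvqg_Ep_off_own (I.hty t.typ) ct⟩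
    · exact pvqg_Ep_off_arc I.hk I.hdc I.hδ I.St I.N I.N2.μ_nn I.num500 I.lt.le (by rw [← I.St.idx]; exact I.le_t (by omega) (by omega)) (I.mesh_of I.H.kb_lt.le I.H.lt_kf.le)
    · exact pvqg_Ep_off_other I.hk I.hdc I.hδ I.Ss I.St I.N I.hr (I.ord_s.trans (by rw [← I.St.idx]; exact I.le_t (by omega) (by omega)))
  · rw [I.F0_eq]
    refine Set.disjoint_union_right.2 ⟨Set.disjoint_union_right.2 ⟨?_, ?_⟩, ?_⟩
    · refine pvrc_cells_disj I.hdc.le (j := 2) fun p hp q hq => ?_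
      have := I.tailF_arc hp hq
      push_cast
      linarith
    · exact pvqg_tailF_off I.hk I.hdc I.hδ I.Ss I.N I.hr I.N2.μ_nn I.num28 (I.ord_s.trans h5) I.ord_kf I.H.kf_le (I.mesh_of hkb le_rfl)
    · exact pvqg_tailF_off I.hk I.hdc I.hδ I.St I.N I.hr I.N2.μ_nn I.num28 le_rfl I.ord_kf I.H.kf_le (I.mesh_of hkb le_rfl)
  · have h1 := pvrc_door_front hkz ((pvfjmPlug 𝔑 ty).yp t.typ) ((pvfjm_wf I.numOK I.hWP I.hty).dp_dir t.typ)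
    have h2 := pvrc_ref_mono (k := (k : ℤ)) (Set.singleton_subset_iff.2 (pvfjm_front_p I.hWP I.hty t.typ)) h1
    have h3 := pvfj_sh_mem (c := pvqgK k ct) h2
    rw [add_right_comm] at h3
    exact h3

/-- **the witness of the start pin** -/
theorem wit_s : ∃ W : Set (ℤ × ℤ), TscConn pvtbG4 W ∧ Disjoint W (pvfjF0 ((pvfjmPlug 𝔑 ty).ref k) dc P s t (pvqgK k cs) (pvqgK k ct)) ∧
    ((pvfjmPlug 𝔑 ty).ref k).ym s.typ + pvqgK k cs + ((pvfjmPlug 𝔑 ty).ref k).dm s.typ ∈ W ∧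
    ∃ a b c d : ℤ, pvfjF0 ((pvfjmPlug 𝔑 ty).ref k) dc P s t (pvqgK k cs) (pvqgK k ct) ⊆ tscBox a b c d ∧ ∃ w ∈ W, w ∉ tscBox a b c d := by
  have hkz : (0 : ℤ) < (k : ℤ) := by exact_mod_cast I.hk
  have h5 : ts 0 ≤ s.idx := by rw [← I.Ss.idx]; exact I.le_s (by omega) (by omega)
  have hkf : ts 0 ≤ kf := h5.trans (I.lt.le.trans I.H.lt_kf.le)
  obtain ⟨q, hqE, hq⟩ := pvqg_mark_cell I.hk I.hdc I.hδ I.Ss 0 (pvfjm_Em_tip (I.hty s.typ) I.hWP)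
  refine pvfj_wit_union (E' := pvqgEm k (ty s.typ) cs) (Wq := pvtCells dc (pvtxPoly P.v kb (ts 0))) (q := q) (pvqg_Em_conn I.hk _ _) (pvqg_conn4_cells I.hdc _ _ _) ?_ ?_ ?_ hqE
    ⟨P.v (ts 0), hq, pvtx_vertex_mem I.ord_kb le_rfl⟩ I.F0_bx (I.far_cell le_rfl I.ord_kb I.H.out_b)
  · rw [I.F0_eq]
    refine Set.disjoint_union_right.2 ⟨Set.disjoint_union_right.2 ⟨?_, pvqg_Em_off_own (I.hty s.typ) cs⟩, ?_⟩
    · exact pvqg_Em_off_arc I.hk I.hdc I.hδ I.Ss I.N I.N2.μ_nn I.num500 (by rw [← I.Ss.idx]; exact I.le_s (by omega) (by omega)) I.lt.le (I.H.lt_kf.le.trans I.H.kf_le) (I.mesh_of I.H.kb_lt.le I.H.lt_kf.le)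
    · exact pvqg_Em_off_other I.hk I.hdc I.hδ I.Ss I.St I.N I.hr (le_trans (by rw [← I.Ss.idx]; exact I.le_s (by omega) (by omega)) I.ord_t)
  · rw [I.F0_eq]
    refine Set.disjoint_union_right.2 ⟨Set.disjoint_union_right.2 ⟨?_, ?_⟩, ?_⟩
    · refine pvrc_cells_disj I.hdc.le (j := 2) fun p hp q hq => ?_
      have := I.tailB_arc hp hq
      push_cast
      linarith
    · exact pvqg_tailB_off I.hk I.hdc I.hδ I.Ss I.N I.hr I.N2.μ_nn I.num28 I.ord_kb le_rfl (I.mesh_of le_rfl hkf)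
    · exact pvqg_tailB_off I.hk I.hdc I.hδ I.St I.N I.hr I.N2.μ_nn I.num28 I.ord_kb (h5.trans I.ord_t) (I.mesh_of le_rfl hkf)
  · have h1 := pvrc_door_front hkz ((pvfjmPlug 𝔑 ty).ym s.typ) ((pvfjm_wf I.numOK I.hWP I.hty).dm_dir s.typ)
    have h2 := pvrc_ref_mono (k := (k : ℤ)) (Set.singleton_subset_iff.2 (pvfjm_front_m I.hWP I.hty s.typ)) h1
    have h3 := pvfj_sh_mem (c := pvqgK k cs) h2
    rw [add_right_comm] at h3
    exact h3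

theorem touch {u : PvbPin T} {cu : ℤ × ℤ} {tu : ℕ → ℕ} (Su : PvqgPin ty δ μ hh a b ρ d0 e0 d1 e1 P u cu tu) (h1 : s.idx ≤ u.idx) (h2 : u.idx ≤ t.idx) :
    ∃ c ∈ pvtCells dc (pvtxPoly P.v s.idx t.idx), c ∈ pvfjSh (pvqgK k cu) (((pvfjmPlug 𝔑 ty).ref k).B u.typ) := by
  obtain ⟨c, hc, hq⟩ := pvqg_mark_cell I.hk I.hdc I.hδ Su 5 (E := pvfjmB 𝔑 (ty u.typ))
    (Or.inl (Or.inr (pvtw_N_sub (pvmn_C_sub 5 (by decide) (by decide) (pvfjm_q5_mem (I.hty u.typ))))))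
  have e : tu ((5 : Fin 11) : ℕ) = u.idx := Su.idx
  rw [e] at hq
  exact ⟨c, ⟨P.v u.idx, hq, pvtx_vertex_mem h1 h2⟩, hc⟩

theorem apart' : ∀ p ∈ pvfjSh (pvqgK k cs) (((pvfjmPlug 𝔑 ty).ref k).Ym s.typ), ∀ q ∈ pvfjSh (pvqgK k ct) (((pvfjmPlug 𝔑 ty).ref k).Yp t.typ), PvfjFar p q := by
  have hkz : (0 : ℤ) < (k : ℤ) := by exact_mod_cast I.hk
  have W := pvfjm_wf I.numOK I.hWP I.hty
  intro p hp q hq
  have hp' : p ∈ pvrcRef k (pvfjSh cs ((pvfjmPlug 𝔑 ty).Ym s.typ)) := by rw [← pvqg_sh_ref I.hk]; exact hp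
  have hq' : q ∈ pvrcRef k (pvfjSh ct ((pvfjmPlug 𝔑 ty).Yp t.typ)) := by rw [← pvqg_sh_ref I.hk]; exact hq
  refine pvrc_far hkz ?_
  obtain ⟨y, hy, ey⟩ := hp'
  obtain ⟨y', hy', ey'⟩ := hq'
  obtain ⟨a1, a2, a3, a4⟩ := W.B_box _ (W.Ym_sub _ hy)
  obtain ⟨b1, b2, b3, b4⟩ := W.B_box _ (W.Yp_sub _ hy')
  have hfar := pvqg_far_int (n := 2 * (pvfjmPlug 𝔑 ty).nB + 2) I.N.δ_pos (a := cs) (c := ct) (by rw [← I.Ss.ctr, ← I.St.ctr]; exact I.N2.apart.trans I.far)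
  rw [← ey, ← ey', pvfj_far_iff]
  simp only [Prod.fst_add, Prod.snd_add]
  push_cast at hfar
  rcases hfar with hf | hf
  · rcases le_abs.1 hf with hf | hf
    · right; left; omega
    · left; omega
  · rcases le_abs.1 hf with hf | hf
    · right; right; right; omega
    · right; right; left; omega

/-- **THE METRIC CONTRACT OF TR19-P FOR THE REFINED PLUG OF THE MENU** -/
theorem met (hK : ‖x‖ + 3 * R + dc ≤ (K : ℝ) * dc) : PvfjMet ((pvfjmPlug 𝔑 ty).ref k) dc K P s t (pvqgK k cs) (pvqgK k ct) where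
  cs_eq := by rw [I.Ss.ctr, I.hδ]; exact pvrc_pt (k : ℤ) dc cs
  ct_eq := by rw [I.St.ctr, I.hδ]; exact pvrc_pt (k : ℤ) dc ct
  touch_s := I.touch I.Ss le_rfl I.lt.le
  touch_t := I.touch I.St I.lt.le le_rfl
  apart := I.apart'
  box := I.F0_box hK
  wit_s := I.wit_s
  wit_t := I.wit_t

end PvqgIn

end two

end Claimed.Agent.R289
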