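import Claimed.Agent.R289.Tr.In

/-!
# Row 289 (S0537, Cardy for Poisson-Voronoi), THE WALL, file Tr/InB : THE NAMED INPUTS ON THE TWO-LEVEL SPACE `pvhbUp ε` AND AT FIXED GEOMETRY      (helper226, second of helper43; prefix `pvni_`, `pvni`)      0 sorry

`Tr/In.lean` (43) states the inputs of the wall (`TR_295.md` sec. 1) on the plain sample space `(PVSample, pvLaw ε)`.      The roofs under `PvhbLocU` (`Exit/Tr.lean`, 187) live on `PvGeoT × PvColT` with the two-level UPPER expectation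
`pvhbUp ε = PvUp.iter (pvGeo ε) pvCol` and read the sample through `pvMerge q`.      This file gives every input (a) in the UPPER form `(pvhbUp ε).E`, `(pvhbUp ε).P` and (b) in the QUENCHED form: at EVERY fixed geometry `g`
the upper colour integral is `≤ w g`, `w` MEASURABLE in `g`, with the mean of the annealed input.

* sec. 0  TRANSFER (any functional / event of the sample): `pvni_up_E` (a.e. majorant, a.e. measurable), `pvni_up_P`, `pvni_up_real`, `pvni_up_ae`, `pvni_up_ae_conf`;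
          **`pvni_quench`** (QUENCHING LEMMA), `pvni_quench_markov`, `pvni_quench_P` (events), **`pvni_quench_lim`** (families `ε ↓ 0`: mean `→ 0` ⟹ the quenched mean is `< t` off geometries of probability `→ 0`)
* sec. 1  I.TAIL:  **`pvni_th_up`** (`(pvhbUp ε).E (Θ ∘ pvMerge) → 0`), `pvni_th_up_prob`, **`pvni_th_quench`**
* sec. 2  I.BES:   `pvniSup a g ω` = `sup` over ALL rims (either colour) of the plane map of `|X_P(g)|²`, field `Q - a V`;   **`pvni_bes_up`**, `pvni_bes_up_mask`, **`pvni_bes_quench`**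
* sec. 3  I.MESH:  `pvni_good`, `pvni_del_good`, `pvni_ok` (walls finite), `pvni_fine`, the good geometry `pvniG x R μ`: `pvni_G_lim`, **`pvni_G_ord`** (`PvhbOrd`, ANY positive meshes `μ m`), `pvni_all_mesh` (encoded rims of all completions)
* sec. 4  I.ARM1, I.ARM6:  **`pvni_near`** = the hypothesis `arm2` of `pvtv_cover_field_gen` (236) VERBATIM at `cap ε = ((pvhbUp ε).P ·).toReal`, `rims q = pvhbAll x R (pvMerge q)`;   `pvni_near_main` (unconditional), `pvni_arm1`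
* sec. 5  I.QBX:   `pvni_geo_lim` (a bad set of geometries), **`pvni_qbx_blk`** (finite family of annuli: all quenched blocking probabilities `≥ q` off upper probability `→ 0`)
-/

set_option autoImplicit false

namespace Claimed.Agent.R289

open MeasureTheory Filter Topology Set Claims.C0465
open scoped ENNReal

/-! ## 0. transfer -/

section transfer

/-- **UPPER FORM OF A FUNCTIONAL OF THE SAMPLE**: an a.e. majorant which is a.e. measurable -/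
theorem pvni_up_E (ε : ℝ) {F φ : PVSample → ℝ≥0∞} (hφ : AEMeasurable φ (pvLaw ε)) (h : ∀ᵐ ω ∂(pvLaw ε), F ω ≤ φ ω) :
    (pvhbUp ε).E (fun q => F (pvMerge q)) ≤ ∫⁻ ω, φ ω ∂(pvLaw ε) :=
  (pvhb_up_le_law ε F).trans (pvhb_int_ae (pvLaw ε) hφ h)

/-- **UPPER FORM OF AN EVENT OF THE SAMPLE** (outer measure on the right) -/
theorem pvni_up_P (ε : ℝ) {B : Set (PvGeoT × PvColT)} {A : Set PVSample} (h : ∀ q ∈ B, pvMerge q ∈ A) : (pvhbUp ε).P B ≤ pvLaw ε A :=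
  ((pvhbUp ε).P_mono fun q hq => h q hq).trans (pvhb_up_P_law ε A)

theorem pvni_up_real (ε : ℝ) {B : Set (PvGeoT × PvColT)} {A : Set PVSample} (h : ∀ q ∈ B, pvMerge q ∈ A) : ((pvhbUp ε).P B).toReal ≤ (pvLaw ε A).toReal :=
  ENNReal.toReal_mono (measure_ne_top _ _) (pvni_up_P ε h)

/-- an almost sure property of the sample fails with upper probability `0` -/
theorem pvni_up_ae (ε : ℝ) {p : PVSample → Prop} (h : ∀ᵐ ω ∂(pvLaw ε), p ω) : (pvhbUp ε).P {q | ¬ p (pvMerge q)} = 0 :=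
  le_antisymm ((pvhb_up_P_law ε {ω | ¬ p ω}).trans (le_of_eq h)) zero_le

/-- an almost sure property of the configuration fails with upper probability `0` -/
theorem pvni_up_ae_conf (ε : ℝ) {p : Conf PvPt → Prop} (h : ∀ᵐ η ∂(pvP ε), p η) : (pvhbUp ε).P {q | ¬ p (pvConf (pvMerge q))} = 0 :=
  pvni_up_ae ε (p := fun ω => p (pvConf ω)) (pvin_ae_conf ε h)

/-- an everywhere majorant, MEASURABLE, with the same integral -/
theorem pvni_major {α : Type} [MeasurableSpace α] (μ : Measure α) {F φ : α → ℝ≥0∞} (hφ : AEMeasurable φ μ) (h : ∀ᵐ a ∂μ, F a ≤ φ a) :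
    ∃ ψ : α → ℝ≥0∞, Measurable ψ ∧ (∀ a, F a ≤ ψ a) ∧ ∫⁻ a, ψ a ∂μ = ∫⁻ a, φ a ∂μ := by
  have h1 : ∀ᵐ a ∂μ, F a ≤ hφ.mk φ a := by
    filter_upwards [h, hφ.ae_eq_mk] with a h1 h2
    rwa [← h2]
  set T : Set α := toMeasurable μ {a | ¬ F a ≤ hφ.mk φ a} with hT
  have hT0 : μ T = 0 := by rw [hT, measure_toMeasurable]; exact h1
  have hTm : MeasurableSet T := measurableSet_toMeasurable _ _
  refine ⟨fun a => hφ.mk φ a + T.indicator (fun _ => ⊤) a, hφ.measurable_mk.add (measurable_const.indicator hTm), fun a => ?_, ?_⟩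
  · by_cases ha : F a ≤ hφ.mk φ a
    · exact ha.trans le_self_add
    · have : a ∈ T := subset_toMeasurable μ _ ha
      simp [indicator_of_mem this]
  · rw [lintegral_add_left hφ.measurable_mk, lintegral_indicator_const hTm, hT0, mul_zero, add_zero, lintegral_congr_ae hφ.ae_eq_mk]

/-- **THE QUENCHING LEMMA**: a functional `F` of the sample with an a.e. measurable a.e. majorant `φ`.      At EVERY geometry the upper colour integral of `F` is `≤ w g`, `w` measurable, `∫ w = ∫ φ`. -/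
theorem pvni_quench (ε : ℝ) {F φ : PVSample → ℝ≥0∞} (hφ : AEMeasurable φ (pvLaw ε)) (h : ∀ᵐ ω ∂(pvLaw ε), F ω ≤ φ ω) :
    ∃ w : PvGeoT → ℝ≥0∞, Measurable w ∧ (∀ g, pvUpInt pvCol (fun k => F (pvMerge (g, k))) ≤ w g) ∧ ∫⁻ g, w g ∂(pvGeo ε) = ∫⁻ ω, φ ω ∂(pvLaw ε) := by
  obtain ⟨ψ, hψ, hF, hint⟩ := pvni_major (pvLaw ε) hφ h
  have hm : Measurable fun x : PvGeoT × PvColT => ψ (pvMerge x) := hψ.comp measurable_pvMerge
  refine ⟨fun g => ∫⁻ k, ψ (pvMerge (g, k)) ∂pvCol, hm.lintegral_prod_right', fun g => ?_, ?_⟩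
  · exact pvup_int_le pvCol (hm.comp measurable_prodMk_left) fun k => hF _
  · rw [← hint, pvqu_law, lintegral_map hψ measurable_pvMerge, lintegral_prod _ hm.aemeasurable]

/-- Markov for the quenched mean -/
theorem pvni_quench_markov (ε : ℝ) {w : PvGeoT → ℝ≥0∞} (hw : Measurable w) {t : ℝ≥0∞} (h0 : t ≠ 0) (ht : t ≠ ⊤) : pvGeo ε {g | t ≤ w g} ≤ (∫⁻ g, w g ∂(pvGeo ε)) / t :=
  meas_ge_le_lintegral_div hw.aemeasurable h0 ht

/-- **QUENCHING OF AN EVENT** (any set of samples): at EVERY geometry the OUTER colour probability of the section is `≤ w g`, `w` measurable, `∫ w = ` the outer measure of the event -/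
theorem pvni_quench_P (ε : ℝ) (A : Set PVSample) : ∃ w : PvGeoT → ℝ≥0∞, Measurable w ∧ (∀ g, pvQ A g ≤ w g) ∧ ∫⁻ g, w g ∂(pvGeo ε) = pvLaw ε A := by
  have hm := measurableSet_toMeasurable (pvLaw ε) A
  refine ⟨pvQ (toMeasurable (pvLaw ε) A), pvqu_Q_meas hm, fun g => pvqu_Q_mono (subset_toMeasurable _ A) g, ?_⟩
  rw [pvqu_Q_lintegral ε hm, measure_toMeasurable]

/-- **QUENCHING ALONG `ε ↓ 0`**: if the annealed means tend to `0`, the quenched means are dominated by measurable `w ε` of mean `→ 0`; they are `< t` off geometries of probability `→ 0` -/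
theorem pvni_quench_lim {F φ : ℝ → PVSample → ℝ≥0∞} (hφ : ∀ ε, AEMeasurable (φ ε) (pvLaw ε)) (h : ∀ ε, ∀ᵐ ω ∂(pvLaw ε), F ε ω ≤ φ ε ω)
    (hlim : Tendsto (fun ε => ∫⁻ ω, φ ε ω ∂(pvLaw ε)) (𝓝[>] 0) (𝓝 0)) :
    ∃ w : ℝ → PvGeoT → ℝ≥0∞, (∀ ε, Measurable (w ε)) ∧ (∀ ε g, pvUpInt pvCol (fun k => F ε (pvMerge (g, k))) ≤ w ε g) ∧
      Tendsto (fun ε => ∫⁻ g, w ε g ∂(pvGeo ε)) (𝓝[>] 0) (𝓝 0) ∧ ∀ t : ℝ≥0∞, t ≠ 0 → Tendsto (fun ε => pvGeo ε {g | t ≤ w ε g}) (𝓝[>] 0) (𝓝 0) := by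
  choose w hw hle hint using fun ε => pvni_quench ε (hφ ε) (h ε)
  have hl : Tendsto (fun ε => ∫⁻ g, w ε g ∂(pvGeo ε)) (𝓝[>] 0) (𝓝 0) := by simpa only [hint] using hlim
  refine ⟨w, hw, hle, hl, fun t h0 => ?_⟩
  obtain ⟨s, hs0, hst, hs⟩ : ∃ s : ℝ≥0∞, s ≠ 0 ∧ s ≤ t ∧ s ≠ ⊤ := ⟨min t 1, by simp [h0], min_le_left _ _, ne_top_of_le_ne_top ENNReal.one_ne_top (min_le_right _ _)⟩
  have h1 := ENNReal.Tendsto.div_const hl (b := s) (Or.inr hs0)
  rw [ENNReal.zero_div] at h1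
  refine tendsto_of_tendsto_of_tendsto_of_le_of_le tendsto_const_nhds h1 (fun _ => zero_le) fun ε => ?_
  exact (measure_mono fun g hg => hst.trans hg).trans (pvni_quench_markov ε (hw ε) hs0 hs)

end transfer

/-! ## 1. I.TAIL -/

section tail

/-- **I.TAIL ON THE TWO-LEVEL SPACE** -/
theorem pvni_th_up {B : Set ℂ} (hB : Bornology.IsBounded B) {a₀ : ℝ} (ha : 0 < a₀) : Tendsto (fun ε => (pvhbUp ε).E fun q => pvinTh B a₀ (pvMerge q)) (𝓝[>] 0) (𝓝 0) := by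
  obtain ⟨R, hR⟩ := hB.subset_closedBall (0 : ℂ)
  refine tendsto_of_tendsto_of_tendsto_of_le_of_le tendsto_const_nhds (pvin_th_lim (Metric.isBounded_closedBall (x := (0 : ℂ)) (r := R)) measurableSet_closedBall ha)
    (fun _ => zero_le) fun ε => ?_
  exact pvni_up_E ε (pvin_th_aem ε measurableSet_closedBall a₀) (Eventually.of_forall fun ω => pvcl_sum_mono (pvConf ω) hR a₀)

/-- **I.TAIL, in upper probability** -/
theorem pvni_th_up_prob {B : Set ℂ} (hB : Bornology.IsBounded B) {a₀ : ℝ} (ha : 0 < a₀) {t : ℝ≥0∞} (h0 : t ≠ 0) (ht : t ≠ ⊤) :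
    Tendsto (fun ε => (pvhbUp ε).P {q | t ≤ pvinTh B a₀ (pvMerge q)}) (𝓝[>] 0) (𝓝 0) := by
  have h1 := ENNReal.Tendsto.div_const (pvni_th_up hB ha) (b := t) (Or.inr h0)
  rw [ENNReal.zero_div] at h1
  exact tendsto_of_tendsto_of_tendsto_of_le_of_le tendsto_const_nhds h1 (fun _ => zero_le) fun ε => (pvhbUp ε).markov _ h0 ht

/-- **I.TAIL AT FIXED GEOMETRY** -/
theorem pvni_th_quench {B : Set ℂ} (hB : Bornology.IsBounded B) {a₀ : ℝ} (ha : 0 < a₀) :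
    ∃ w : ℝ → PvGeoT → ℝ≥0∞, (∀ ε, Measurable (w ε)) ∧ (∀ ε g, pvUpInt pvCol (fun k => pvinTh B a₀ (pvMerge (g, k))) ≤ w ε g) ∧
      Tendsto (fun ε => ∫⁻ g, w ε g ∂(pvGeo ε)) (𝓝[>] 0) (𝓝 0) ∧ ∀ t : ℝ≥0∞, t ≠ 0 → Tendsto (fun ε => pvGeo ε {g | t ≤ w ε g}) (𝓝[>] 0) (𝓝 0) := by
  obtain ⟨R, hR⟩ := hB.subset_closedBall (0 : ℂ)
  exact pvni_quench_lim (F := fun _ => pvinTh B a₀) (φ := fun _ => pvinTh (Metric.closedBall 0 R) a₀) (fun ε => pvin_th_aem ε measurableSet_closedBall a₀)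
    (fun ε => Eventually.of_forall fun ω => pvcl_sum_mono (pvConf ω) hR a₀) (pvin_th_lim Metric.isBounded_closedBall measurableSet_closedBall ha)

end tail

/-! ## 2. I.BES -/

section bes

/-- `sup_P |X_P(g)|²` over ALL rims (either colour) of the plane map of the sample, field `Q - a V` -/
noncomputable def pvniSup (a : ℂ) (g : ℂ → ℂ) (ω : PVSample) : ℝ≥0∞ := ⨆ (b : Bool) (c : (pvxT ω).Cyc) (_ : c.IsRim (pvxCol ω b)), ‖pvinMs ω a g c‖ₑ ^ 2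

theorem pvni_eqns_cite : True := by
  have := @pvniSup.eq_1
  trivial

theorem pvni_le_sup (a : ℂ) (g : ℂ → ℂ) {ω : PVSample} {b : Bool} {c : (pvxT ω).Cyc} (hc : c.IsRim (pvxCol ω b)) : ‖pvinMs ω a g c‖ₑ ^ 2 ≤ pvniSup a g ω :=
  le_iSup_of_le b (le_iSup_of_le c (le_iSup_of_le hc le_rfl))

/-- **I.BES ON THE TWO-LEVEL SPACE** -/
theorem pvni_bes_up (a : ℂ) {ε : ℝ} (hε : 0 < ε) {g : ℂ → ℂ} (hg : PvbeTest g) :
    (pvhbUp ε).E (fun q => pvniSup a g (pvMerge q)) ≤ (2 + 2 * ‖a‖ₑ ^ 2) * pvbeCB * ∫⁻ z, ‖g z‖ₑ ^ 2 := by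
  obtain ⟨H, hH, h1, h2⟩ := pvin_bes_model a hε hg
  refine (pvni_up_E ε hH ?_).trans h2
  filter_upwards [h1] with ω hω
  exact iSup_le fun b => iSup_le fun c => iSup_le fun hc => hω b c hc

/-- **I.BES ON THE TWO-LEVEL SPACE, deterministic mask** -/
theorem pvni_bes_up_mask (a : ℂ) {ε : ℝ} (hε : 0 < ε) {M : Set ℂ} (hM : MeasurableSet M) (hb : Bornology.IsBounded M) :
    (pvhbUp ε).E (fun q => pvniSup a (M.indicator 1) (pvMerge q)) ≤ (2 + 2 * ‖a‖ₑ ^ 2) * pvbeCB * volume M := by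
  have := pvni_bes_up a hε (pvbe_test_ind hM hb)
  rwa [pvbe_ind_sq hM] at this

/-- **I.BES AT FIXED GEOMETRY** -/
theorem pvni_bes_quench (a : ℂ) {ε : ℝ} (hε : 0 < ε) {g : ℂ → ℂ} (hg : PvbeTest g) :
    ∃ w : PvGeoT → ℝ≥0∞, Measurable w ∧ (∀ γ, pvUpInt pvCol (fun k => pvniSup a g (pvMerge (γ, k))) ≤ w γ) ∧
      ∫⁻ γ, w γ ∂(pvGeo ε) ≤ (2 + 2 * ‖a‖ₑ ^ 2) * pvbeCB * ∫⁻ z, ‖g z‖ₑ ^ 2 := by
  obtain ⟨H, hH, h1, h2⟩ := pvin_bes_model a hε hg
  obtain ⟨w, hw, hle, hint⟩ := pvni_quench ε (F := pvniSup a g) hH (h1.mono fun ω hω => iSup_le fun b => iSup_le fun c => iSup_le fun hc => hω b c hc)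
  exact ⟨w, hw, hle, hint.le.trans h2⟩

end bes

/-! ## 3. I.MESH -/

section mesh

/-- **I.MESH (0)**: almost surely the sample is good (locally finite, general position, bounded cells, one colour per site) -/
theorem pvni_good (ε : ℝ) (hε : 0 < ε) : (pvhbUp ε).P {q | ¬ PvqfGood (pvConf (pvMerge q))} = 0 := pvni_up_ae_conf ε (pvqf_good_ae ε hε.ne')

theorem pvni_del_good (ε : ℝ) (hε : 0 < ε) : (pvhbUp ε).P {q | ¬ DelGood (pvxY (pvMerge q))} = 0 :=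
  pvni_up_ae_conf ε (p := fun η => DelGood (cfSites η)) ((pvqf_good_ae ε hε.ne').mono fun _ h => h.del)

/-- the standing almost sure event of `Tr/In.lean` -/
theorem pvni_ok {ε : ℝ} (hε : 0 < ε) : (pvhbUp ε).P {q | ¬ (PvqfGood (pvConf (pvMerge q)) ∧ DelGood (pvxY (pvMerge q)) ∧
    ∀ (b : Bool) (d : (delbPl (pvxY (pvMerge q))).Dart), {d' | (pvxT (pvMerge q)).Wall (pvxCol (pvMerge q) b) d d'}.Finite)} = 0 :=
  pvni_up_ae ε (p := fun ω => PvqfGood (pvConf ω) ∧ DelGood (pvxY ω) ∧ ∀ (b : Bool) (d : (delbPl (pvxY ω)).Dart), {d' | (pvxT ω).Wall (pvxCol ω b) d d'}.Finite) (pvin_ok_ae hε)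

/-- **I.MESH (1)**: fine mesh on `closedBall x (6R)`, along the filter `ε ↓ 0` -/
theorem pvni_fine (x : ℂ) {R μ : ℝ} (hR : 0 < R) (hμ : 0 < μ) :
    Tendsto (fun ε => ((pvhbUp ε).P {q | ¬ L9Fine (pvxY (pvMerge q)) (Metric.closedBall x (6 * R)) μ}).toReal) (𝓝[>] 0) (𝓝 0) := by
  rw [pvhb_tendsto_iff]
  intro es h0 he
  refine squeeze_zero (fun n => ENNReal.toReal_nonneg) (fun n => ?_) (l9_fine_prob es h0 he x hR hμ)
  exact ENNReal.toReal_mono (measure_ne_top _ _) (pvhb_up_P_law (es n) {o | ¬ L9Fine (cfSites (pvConf o)) (Metric.closedBall x (6 * R)) μ})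

/-- the good geometry of the patch `(x,R)` at the mesh `μ` -/
def pvniG (x : ℂ) (R μ : ℝ) : Set (PvGeoT × PvColT) := {q | PvqfGood (pvConf (pvMerge q)) ∧ L9Fine (pvxY (pvMerge q)) (Metric.closedBall x (6 * R)) μ}

theorem pvni_eqns_cite2 : True := by
  have := @pvniG.eq_1
  trivial

/-- **I.MESH (2)**: the good geometry has upper probability `→ 1` -/
theorem pvni_G_lim (x : ℂ) {R μ : ℝ} (hR : 0 < R) (hμ : 0 < μ) : Tendsto (fun ε => ((pvhbUp ε).P (pvniG x R μ)ᶜ).toReal) (𝓝[>] 0) (𝓝 0) := by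
  refine tendsto_of_tendsto_of_tendsto_of_le_of_le' tendsto_const_nhds (pvni_fine x hR hμ) (Eventually.of_forall fun _ => ENNReal.toReal_nonneg) ?_
  filter_upwards [self_mem_nhdsWithin] with ε hε
  refine ENNReal.toReal_mono (PvUp.P_ne_top _ _) ?_
  have hsub : (pvniG x R μ)ᶜ ⊆ {q | ¬ PvqfGood (pvConf (pvMerge q))} ∪ {q | ¬ L9Fine (pvxY (pvMerge q)) (Metric.closedBall x (6 * R)) μ} := by
    intro q hq
    by_cases h1 : PvqfGood (pvConf (pvMerge q))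
    · exact Or.inr fun h2 => hq ⟨h1, h2⟩
    · exact Or.inl h1
  refine ((pvhbUp ε).P_mono hsub).trans (((pvhbUp ε).P_union_le _ _).trans ?_)
  rw [pvni_good ε hε, zero_add]

/-- **I.MESH (3)**, ordered form: ANY positive meshes `μ m` -/
theorem pvni_G_ord (x : ℂ) {R : ℝ} (hR : 0 < R) {μ : ℕ → ℝ} (hμ : ∀ m, 0 < μ m) : PvhbOrd (fun m ε => ((pvhbUp ε).P (pvniG x R (μ m))ᶜ).toReal) :=
  PvhbOrd.of_tendsto fun m => pvni_G_lim x hR (hμ m)

/-- **I.MESH (4)**, deterministic: on fine mesh the encoded rims of ALL completions are closed, far, of small steps -/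
theorem pvni_all_mesh {x : ℂ} {R μ : ℝ} (hR : 0 < R) (hμ : μ ≤ R) {ω : PVSample} (hF : L9Fine (pvxY ω) (Metric.closedBall x (6 * R)) μ) {P : PvbRim} (hP : P ∈ pvhbAll x R ω) :
    P.v P.len = P.v 0 ∧ 4 * R ≤ ‖P.v 0 - x‖ ∧
      (∀ k < P.len, (‖P.v k - x‖ ≤ 5 * R ∨ ‖P.v (k + 1) - x‖ ≤ 5 * R) → ‖P.v (k + 1) - P.v k‖ ≤ μ) ∧
      (∀ k < P.len, (‖P.v k - x‖ ≤ 5 * R ∨ ‖P.z k - x‖ ≤ 5 * R) → ‖P.z k - P.v k‖ ≤ μ) := by
  obtain ⟨X, _, 𝔅, ξ, -, hOk, hPr⟩ := hP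
  exact l9_enc_mesh 𝔅 hR hμ hOk hF hPr

end mesh

/-! ## 4. I.ARM1, I.ARM6 for the rims of ALL completions -/

section arm

/-- **I.ARM6** = near return `×` one arm, for the rims of all completions, along the filter: the hypothesis `arm2` of `pvtv_cover_field_gen` (236) VERBATIM at `cap ε = ((pvhbUp ε).P ·).toReal` -/
theorem pvni_near {c : ℝ} (N : PvNearExit c) {c' : ℝ} (hc : c' ≤ c) (x : ℂ) (R : ℝ) (y : ℂ) (s S : ℝ) (hy : ‖y - x‖ ≤ 2 * R) (hs : 0 < s) (hsS : s ≤ S) (hSR : S ≤ R) :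
    ∀ᶠ ε in 𝓝[>] (0 : ℝ), ((pvhbUp ε).P {q | ∃ P ∈ pvhbAll x R (pvMerge q), PvbNearRet P y s S}).toReal ≤ max N.C 1 * (s / S) ^ (2 + c') * (S / R) ^ c' := by
  filter_upwards [pvin_arm6 N hc x R y s S hy hs hsS hSR] with ε hε
  exact (pvni_up_real ε (A := {ω | ∃ P ∈ l9All x R ω, PvbNearRet P y s S}) fun q hq => hq).trans hε

/-- **I.ARM6, UNCONDITIONAL**: ONE exponent `c₀ > 0` and ONE constant, every smaller exponent -/
theorem pvni_near_main : ∃ c₀ C : ℝ, 0 < c₀ ∧ 1 ≤ C ∧ ∀ c' : ℝ, c' ≤ c₀ → ∀ (x : ℂ) (R : ℝ) (y : ℂ) (s S : ℝ), ‖y - x‖ ≤ 2 * R → 0 < s → s ≤ S → S ≤ R →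
    ∀ᶠ ε in 𝓝[>] (0 : ℝ), ((pvhbUp ε).P {q | ∃ P ∈ pvhbAll x R (pvMerge q), PvbNearRet P y s S}).toReal ≤ C * (s / S) ^ (2 + c') * (S / R) ^ c' := by
  obtain ⟨c₀, hc₀, ⟨N⟩⟩ := armt_near
  exact ⟨c₀, max N.C 1, hc₀, le_max_right _ _, fun c' hc x R y s S hy hs hsS hSR => pvni_near N hc x R y s S hy hs hsS hSR⟩

/-- **I.ARM1** = one arm, for the rims of all completions: all meshes `ε ≤ s` -/
theorem pvni_arm1 : ∃ C a : ℝ, 1 ≤ C ∧ 0 < a ∧ ∀ c : ℝ, 0 < c → c ≤ a → ∀ (x : ℂ) (R : ℝ), 0 < R → ∀ (y : ℂ) (s : ℝ), ‖y - x‖ ≤ 2 * R → 0 < s →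
    ∀ ε : ℝ, 0 < ε → ε ≤ s → ((pvhbUp ε).P {q | ∃ P ∈ pvhbAll x R (pvMerge q), PvbVisits P y s}).toReal ≤ C * (s / R) ^ c := by
  obtain ⟨C, a, hC, ha, h⟩ := pvin_arm1
  refine ⟨C, a, hC, ha, fun c hc hca x R hR y s hy hs ε hε hεs => ?_⟩
  exact (pvni_up_real ε (A := {ω | ∃ P ∈ l9All x R ω, PvbVisits P y s}) fun q hq => hq).trans (h c hc hca x R hR y s hy hs ε hε hεs)

end arm

/-! ## 5. I.QBX -/

section qbx

/-- a set of geometries which is small under `pvGeo ε` is small on the two-level space -/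
theorem pvni_geo_lim {Bad : ℝ → Set PvGeoT} (h : Tendsto (fun ε => pvGeo ε (Bad ε)) (𝓝[>] 0) (𝓝 0)) : Tendsto (fun ε => (pvhbUp ε).P {q | q.1 ∈ Bad ε}) (𝓝[>] 0) (𝓝 0) :=
  tendsto_of_tendsto_of_tendsto_of_le_of_le tendsto_const_nhds h (fun _ => zero_le) fun ε => pvhb_up_P_geo ε (Bad ε)

/-- from the uniform form to a limit at a fixed scale -/
theorem pvni_unif_lim {f : ℝ → ℝ → ℝ≥0∞} (h : ∀ δ : ℝ, 0 < δ → ∃ U : ℝ, 0 < U ∧ ∀ ε : ℝ, 0 < ε → ∀ u : ℝ, U * ε ≤ u → f ε u ≤ ENNReal.ofReal δ) {u : ℝ} (hu : 0 < u) :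
    Tendsto (fun ε => f ε u) (𝓝[>] 0) (𝓝 0) := by
  rw [ENNReal.tendsto_nhds_zero]
  intro δ hδ
  rcases eq_or_ne δ ⊤ with rfl | hne
  · exact Eventually.of_forall fun _ => le_top
  obtain ⟨U, hU, hf⟩ := h δ.toReal (ENNReal.toReal_pos hδ.ne' hne)
  filter_upwards [Ioo_mem_nhdsGT (div_pos hu hU)] with ε hε
  have h1 : U * ε ≤ u := by
    have := hε.2.le
    rw [le_div_iff₀ hU] at this
    linarith
  have := hf ε hε.1 u h1
  rwa [ENNReal.ofReal_toReal hne] at this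

/-- the geometries at which some annulus of the finite family `Z` (centre, scale) has a small quenched blocking probability, for one of the two colours -/
def pvniQB (q : ℝ) (Z : Finset (ℂ × ℝ)) : Set PvGeoT :=
  {g | ∃ p ∈ Z, pvQc {η | ¬ (rswArm p.1.re p.1.im (p.2 / 2) (5 * p.2 / 2)).Holds (cfB η)} g < ENNReal.ofReal q ∨
    pvQc {η | ¬ (rswArm p.1.re p.1.im (p.2 / 2) (5 * p.2 / 2)).Holds (cfW η)} g < ENNReal.ofReal q}

theorem pvni_eqns_cite3 : True := by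
  have := @pvniQB.eq_1
  trivial

/-- **I.QBX FOR A FIXED FINITE FAMILY OF ANNULI** (R9 of the blueprint), on the geometry and on the two-level space -/
theorem pvni_qbx_blk : ∃ q : ℝ, 0 < q ∧ ∀ Z : Finset (ℂ × ℝ), (∀ p ∈ Z, 0 < p.2) →
    Tendsto (fun ε => pvGeo ε (pvniQB q Z)) (𝓝[>] 0) (𝓝 0) ∧ Tendsto (fun ε => (pvhbUp ε).P {w | w.1 ∈ pvniQB q Z}) (𝓝[>] 0) (𝓝 0) := by
  obtain ⟨q, hq, h⟩ := pvin_qbx_blk
  refine ⟨q, hq, fun Z hZ => ?_⟩
  have key : Tendsto (fun ε => pvGeo ε (pvniQB q Z)) (𝓝[>] 0) (𝓝 0) := by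
    have h1 : ∀ p ∈ Z, Tendsto (fun ε => pvGeo ε {g | pvQc {η | ¬ (rswArm p.1.re p.1.im (p.2 / 2) (5 * p.2 / 2)).Holds (cfB η)} g < ENNReal.ofReal q} +
        pvGeo ε {g | pvQc {η | ¬ (rswArm p.1.re p.1.im (p.2 / 2) (5 * p.2 / 2)).Holds (cfW η)} g < ENNReal.ofReal q}) (𝓝[>] 0) (𝓝 0) := by
      intro p hp
      have a1 := pvni_unif_lim (f := fun ε u => pvGeo ε {g | pvQc {η | ¬ (rswArm p.1.re p.1.im (u / 2) (5 * u / 2)).Holds (cfB η)} g < ENNReal.ofReal q})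
        (fun δ hδ => by
          obtain ⟨U, hU, hf⟩ := h δ hδ
          exact ⟨U, hU, fun ε hε u hu => (hf ε hε u hu p.1).1⟩) (hZ p hp)
      have a2 := pvni_unif_lim (f := fun ε u => pvGeo ε {g | pvQc {η | ¬ (rswArm p.1.re p.1.im (u / 2) (5 * u / 2)).Holds (cfW η)} g < ENNReal.ofReal q})
        (fun δ hδ => by
          obtain ⟨U, hU, hf⟩ := h δ hδ
          exact ⟨U, hU, fun ε hε u hu => (hf ε hε u hu p.1).2⟩) (hZ p hp)
      simpa using a1.add a2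
    have h2 := tendsto_finsetSum Z h1
    rw [Finset.sum_const_zero] at h2
    refine tendsto_of_tendsto_of_tendsto_of_le_of_le tendsto_const_nhds h2 (fun _ => zero_le) fun ε => ?_
    have hsub : pvniQB q Z ⊆ ⋃ p ∈ Z, ({g | pvQc {η | ¬ (rswArm p.1.re p.1.im (p.2 / 2) (5 * p.2 / 2)).Holds (cfB η)} g < ENNReal.ofReal q} ∪
        {g | pvQc {η | ¬ (rswArm p.1.re p.1.im (p.2 / 2) (5 * p.2 / 2)).Holds (cfW η)} g < ENNReal.ofReal q}) := by
      rintro g ⟨p, hp, hg⟩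
      exact mem_iUnion₂.2 ⟨p, hp, hg⟩
    refine (measure_mono hsub).trans ((measure_biUnion_finset_le Z _).trans ?_)
    exact Finset.sum_le_sum fun p _ => measure_union_le _ _
  exact ⟨key, pvni_geo_lim (Bad := fun _ => pvniQB q Z) key⟩

end qbx

end Claimed.Agent.R289
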