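import Claimed.Agent.R289.Tr.Menu

/-!
# Row 289 (S0537, Cardy for Poisson-Voronoi), unit TR, ROAD P, Tr/RingIn : INNER INTERLACING, THE LANES ARE UNIQUE, NO POCKETS      (owner helper205; prefix `pvri_`)

`Tr/Ring.lean` (39) has the OUTER interlacing lemma `pvtr_interlace` (two connected sets OFF `H` hooked to the boundary circuit at interlaced places meet).   Here: the INNER one, and what it gives for the tube `K3` of a plug type.

* §1 `pvri_step` (one step of the contour of `H` against the contour of a hole free `K ⊆ H`), **`pvri_interlace`**: `H` finite, connected, hole free; `X, Y ⊆ H` connected;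
  `X` contains the inner cells of the darts number `0` and `k` of the orbit, `Y` those of the darts number `j` and `i`, `0 < j < k < i < n`  ⟹  `X` meets `Y`.
  Proof: `K := Hull X ⊆ H`; potential `f` on `s := H` of the stretch `e₀ → e_k` of the contour of `K` (`pvtr_pot_spec`); along the orbit of `H` the inner cells off `K` have `f = f₀ + 1` between `0` and `k`, `f = f₀` between `k` and `n`.
* §2 periods, cyclic form.
* §3 `PvriDoors H D₁ D₂ A₁ A₂` (two doors whose darts have their inner cells in two disjoint connected cores): `lane_unique`, `no_pocket`.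
* §4 plug types: **`pvri_laneR_unique`**, **`pvri_laneL_unique`**; **`pvri_no_pocket`**, `pvri_zone_lanes`: a contour dart of `K3` whose inner cell lies in the `4`-tube of the pieces `3..6` is on the right lane or on the left lane.
* §5 step locality: two sets which agree near a stretch of the contour have this stretch in common.
-/

set_option autoImplicit false
set_option linter.unusedSectionVars false
set_option linter.unusedVariables false
set_option linter.unusedSimpArgs false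

namespace Claimed.Agent.R289

open Relation Claims.C0467 Claimed.Agent.R291

/-! ## §1 inner interlacing -/

section inner

variable {H K X Y : Set (ℤ × ℤ)} {e x stop : (ℤ × ℤ) × (ℤ × ℤ)}

/-- **one step**: the contour of `H` against the contour of `K ⊆ H`.   `Good` = a property of the darts of `K` which is propagated by the contour of `K` up to the dart `stop`, and which is read off from the value `val` of `f` at the outer cell -/
theorem pvri_step (hKH : K ⊆ H) {Good : (ℤ × ℤ) × (ℤ × ℤ) → Prop} {f : ℤ × ℤ → ZMod 2} {val : ZMod 2}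
    (hQ : ∀ d ∈ pvtrBd K, Good d → pvtrStep K d ≠ stop → Good (pvtrStep K d))
    (hG : ∀ d ∈ pvtrBd K, d.1 ∈ H → d.2 ∈ H → (Good d ↔ f d.2 = val))
    (hf2 : ∀ u v, triAdj u v → u ∈ H \ K → v ∈ H \ K → f u = f v) (hstop : stop.2 ∉ H) (hx : x ∈ pvtrBd H)
    (h1 : x.1 ∈ K → Good x) (h2 : x.1 ∉ K → f x.1 = val) :
    pvtrStep H x = stop ∨ (((pvtrStep H x).1 ∈ K → Good (pvtrStep H x)) ∧ ((pvtrStep H x).1 ∉ K → f (pvtrStep H x).1 = val)) := by
  obtain ⟨hx1, hx2, hx3⟩ := hx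
  have hx2K : x.2 ∉ K := fun h => hx2 (hKH h)
  have hadj := pvtr_apex_adj hx3
  by_cases hb : x.1 ∈ K
  · have hxK : x ∈ pvtrBd K := ⟨hb, hx2K, hx3⟩
    have hg := h1 hb
    by_cases haH : pvtrApex x ∈ H
    · rw [pvtr_step_in haH]
      by_cases haK : pvtrApex x ∈ K
      · have hs : pvtrStep K x = (pvtrApex x, x.2) := pvtr_step_in haK
        by_cases hst : (pvtrApex x, x.2) = stop
        · exact Or.inl hst
        · refine Or.inr ⟨fun _ => ?_, fun h => absurd haK h⟩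
          rw [← hs]
          exact hQ x hxK hg (by rw [hs]; exact hst)
      · have hs : pvtrStep K x = (x.1, pvtrApex x) := pvtr_step_out haK
        have hne : pvtrStep K x ≠ stop := by
          rw [hs]
          intro h
          exact hstop (by rw [← h]; exact haH)
        have hgd := hQ x hxK hg hne
        have hmem := pvtr_step_mem hxK
        rw [hs] at hgd hmem
        exact Or.inr ⟨fun h => absurd h haK, fun _ => (hG _ hmem hx1 haH).1 hgd⟩
    · rw [pvtr_step_out haH]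
      have haK : pvtrApex x ∉ K := fun h => haH (hKH h)
      have hs : pvtrStep K x = (x.1, pvtrApex x) := pvtr_step_out haK
      by_cases hst : (x.1, pvtrApex x) = stop
      · exact Or.inl hst
      · refine Or.inr ⟨fun _ => ?_, fun h => absurd hb h⟩
        rw [← hs]
        exact hQ x hxK hg (by rw [hs]; exact hst)
  · have hv := h2 hb
    by_cases haH : pvtrApex x ∈ H
    · rw [pvtr_step_in haH]
      by_cases haK : pvtrApex x ∈ K
      · have hd : (pvtrApex x, x.1) ∈ pvtrBd K := ⟨haK, hb, hx_tri_symm _ _ hadj.1⟩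
        have hgd : Good (pvtrApex x, x.1) := (hG _ hd haH hx1).2 hv
        have hap : pvtrApex (pvtrApex x, x.1) = x.2 := pvtr_apex_rot2 x.1 x.2
        have hs : pvtrStep K (pvtrApex x, x.1) = (pvtrApex x, x.2) := by
          rw [pvtr_step_out (by rw [hap]; exact hx2K), hap]
        by_cases hst : (pvtrApex x, x.2) = stop
        · exact Or.inl hst
        · refine Or.inr ⟨fun _ => ?_, fun h => absurd haK h⟩
          rw [← hs]
          exact hQ _ hd hgd (by rw [hs]; exact hst)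
      · refine Or.inr ⟨fun h => absurd h haK, fun _ => ?_⟩
        rw [← hv]
        exact (hf2 _ _ hadj.1 ⟨hx1, hb⟩ ⟨haH, haK⟩).symm
    · rw [pvtr_step_out haH]
      exact Or.inr ⟨fun h => absurd h hb, fun _ => hv⟩

/-- iteration of `pvri_step` -/
theorem pvri_iter (hKH : K ⊆ H) {Good : (ℤ × ℤ) × (ℤ × ℤ) → Prop} {f : ℤ × ℤ → ZMod 2} {val : ZMod 2}
    (hQ : ∀ d ∈ pvtrBd K, Good d → pvtrStep K d ≠ stop → Good (pvtrStep K d))
    (hG : ∀ d ∈ pvtrBd K, d.1 ∈ H → d.2 ∈ H → (Good d ↔ f d.2 = val))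
    (hf2 : ∀ u v, triAdj u v → u ∈ H \ K → v ∈ H \ K → f u = f v) (hstop : stop.2 ∉ H) (hx : x ∈ pvtrBd H)
    (h1 : x.1 ∈ K → Good x) (h2 : x.1 ∉ K → f x.1 = val) (m : ℕ) (hm : ∀ m', 0 < m' → m' ≤ m → (pvtrStep H)^[m'] x ≠ stop) :
    (((pvtrStep H)^[m] x).1 ∈ K → Good ((pvtrStep H)^[m] x)) ∧ (((pvtrStep H)^[m] x).1 ∉ K → f ((pvtrStep H)^[m] x).1 = val) := by
  induction m with
  | zero => exact ⟨h1, h2⟩
  | succ m ih =>
    obtain ⟨a1, a2⟩ := ih fun m' h0 h => hm m' h0 (by omega)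
    rw [Function.iterate_succ_apply']
    rcases pvri_step hKH hQ hG hf2 hstop (pvtr_iter_mem hx m) a1 a2 with h | h
    · exact absurd (by rw [Function.iterate_succ_apply']; exact h) (hm (m + 1) (by omega) le_rfl)
    · exact h

theorem pvri_z2 (a b : ZMod 2) : ¬ (a = b + 1) ↔ a = b := by revert a b; decide

theorem pvri_z2' (a : ZMod 2) : a + 1 ≠ a := by revert a; decide

/-- **INNER INTERLACING**: two connected sets INSIDE `H` which are hooked to the boundary circuit at interlaced places meet -/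
theorem pvri_interlace (hH : H.Finite) (hf : HxFree H) (he : e ∈ pvtrBd H) (hX : TscConn tscG X) (hY : TscConn tscG Y) (hXH : X ⊆ H) (hYH : Y ⊆ H)
    {j k i n : ℕ} (hj : 0 < j) (hjk : j < k) (hki : k < i) (hin : i < n) (hinj : ∀ a < n, ∀ b < n, (pvtrStep H)^[a] e = (pvtrStep H)^[b] e → a = b)
    (x0 : e.1 ∈ X) (xk : ((pvtrStep H)^[k] e).1 ∈ X) (yj : ((pvtrStep H)^[j] e).1 ∈ Y) (yi : ((pvtrStep H)^[i] e).1 ∈ Y) : (X ∩ Y).Nonempty := by
  classical
  by_contra hne
  have hXY : ∀ a, a ∈ X → a ∈ Y → False := fun a h1 h2 => hne ⟨a, h1, h2⟩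
  set K : Set (ℤ × ℤ) := pvtHull X with hK
  have hKfin : K.Finite := pvt_hull_finite (hH.subset hXH)
  have hKc : TscConn tscG K := pvt_hull_conn hX
  have hKco : TscConn tscG Kᶜ := pvtw_free_compl_conn hKfin pvt_hull_free
  have hKH : K ⊆ H := by
    have := pvt_hull_mono hXH
    rwa [pvt_hull_eq_of_free hf] at this
  set ek := (pvtrStep H)^[k] e with hek
  have hekH : ek ∈ pvtrBd H := pvtr_iter_mem he k
  have heK : e ∈ pvtrBd K := ⟨pvt_hull_sub x0, fun h => he.2.1 (hKH h), he.2.2⟩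
  have hekK : ek ∈ pvtrBd K := ⟨pvt_hull_sub xk, fun h => hekH.2.1 (hKH h), hekH.2.2⟩
  -- `Y` is off `K`
  have hYK : ∀ y ∈ Y, y ∉ K := by
    intro y hy
    have hjH := pvtr_iter_mem he j
    have hw : ((pvtrStep H)^[j] e).2 ∈ pvtOut X := pvt_out_anti hXH (by rw [pvtw_free_out hf]; exact hjH.2.1)
    have hYX : Y ⊆ Xᶜ := fun a ha hx => hXY a hx ha
    have h1 : TscR tscG Xᶜ ((pvtrStep H)^[j] e).2 ((pvtrStep H)^[j] e).1 :=
      tsc_R_step (hx_tri_symm _ _ hjH.2.2) (pvt_out_sub hw) (hYX yj)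
    have h2 : TscR tscG Xᶜ ((pvtrStep H)^[j] e).1 y := tsc_R_mono hYX (hY _ yj _ hy)
    exact fun h => h (pvt_out_R hw (tsc_R_trans h1 h2))
  -- the stretch of the contour of `K` from `e` to `ek`
  have hex : ∃ p, (pvtrStep K)^[p] e = ek := pvtr_orbit hKfin hKc hKco heK hekK
  set k' := Nat.find hex with hk'
  have hk's : (pvtrStep K)^[k'] e = ek := Nat.find_spec hex
  have hk'm : ∀ p < k', (pvtrStep K)^[p] e ≠ ek := fun p hp => Nat.find_min hex hp
  have hne0 : ek ≠ e := by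
    intro h
    have := hinj k (by omega) 0 (by omega) (by rw [Function.iterate_zero, id]; exact h)
    omega
  have hk'0 : 0 < k' := by
    rcases Nat.eq_zero_or_pos k' with h | h
    · rw [h, Function.iterate_zero, id] at hk's
      exact absurd hk's.symm hne0
    · exact h
  set Ω : Set ((ℤ × ℤ) × (ℤ × ℤ)) := {d | ∃ p < k', d = (pvtrStep K)^[p] e} with hΩdef
  have hΩ : Ω ⊆ pvtrBd K := by
    rintro d ⟨p, -, rfl⟩
    exact pvtr_iter_mem heK p
  have P1 : ∀ d ∈ pvtrBd K, d ∈ Ω → pvtrStep K d ≠ ek → pvtrStep K d ∈ Ω := by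
    rintro d - ⟨p, hp, rfl⟩ hd
    rw [← Function.iterate_succ_apply' (pvtrStep K) p e] at hd ⊢
    refine ⟨p + 1, ?_, rfl⟩
    by_contra hcon
    have : p.succ = k' := by omega
    rw [this] at hd
    exact hd hk's
  have P2 : ∀ d ∈ pvtrBd K, d ∉ Ω → pvtrStep K d ≠ e → pvtrStep K d ∉ Ω := by
    rintro d hd hdΩ hde ⟨p, hp, hdp⟩
    rcases p with _ | p
    · exact hde hdp
    · rw [Function.iterate_succ_apply'] at hdp
      exact hdΩ ⟨p, by omega, pvtr_step_inj hd (pvtr_iter_mem heK p) hdp⟩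
  have heΩ : e ∈ Ω := ⟨0, hk'0, rfl⟩
  have hekΩ : ek ∉ Ω := by
    rintro ⟨p, hp, h⟩
    exact hk'm p hp h.symm
  have hinv : ∀ d ∈ pvtrBd K, d.1 ∈ H → d.2 ∈ H → pvtrApex d ∈ H → (d ∈ Ω ↔ pvtrStep K d ∈ Ω) := by
    intro d hd h1 h2 h3
    have hs2 : (pvtrStep K d).2 ∈ H := by
      rcases pvtr_step_snd (H := K) d with h | h <;> rw [h] <;> assumption
    constructor
    · intro h
      exact P1 d hd h (fun h' => hekH.2.1 (by rw [← h']; exact hs2))
    · intro h
      by_contra hcon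
      exact P2 d hd hcon (fun h' => he.2.1 (by rw [← h']; exact hs2)) h
  obtain ⟨f, f1, f2, f3⟩ := pvtr_pot_spec (pvtw_free_sc hH hf) hΩ hinv
  have hsK : H ∩ K = K := Set.inter_eq_right.2 hKH
  have f0 : ∀ u ∈ K, f u = f e.1 := fun u hu => f1 _ _ (by rw [hsK]; exact hKc _ hu _ heK.1)
  have hf2 : ∀ u v, triAdj u v → u ∈ H \ K → v ∈ H \ K → f u = f v := fun u v h hu hv => f2 _ _ (tsc_R_step h hu hv)
  -- first phase
  have A := pvri_iter (stop := ek) (x := e) (Good := fun d => d ∈ Ω) (f := f) (val := f e.1 + 1) hKH P1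
    (fun d hd h1 h2 => by rw [f3 d hd h1 h2, f0 d.1 hd.1]) hf2 hekH.2.1 he (fun _ => heΩ) (fun h => absurd heK.1 h) j
    (fun m' h0 hm' h => by have := hinj m' (by omega) k (by omega) h; omega)
  -- second phase
  have B := pvri_iter (stop := e) (x := ek) (Good := fun d => d ∉ Ω) (f := f) (val := f e.1) hKH P2
    (fun d hd h1 h2 => by rw [f3 d hd h1 h2, f0 d.1 hd.1]; exact pvri_z2 _ _) hf2 he.2.1 hekH (fun _ => hekΩ) (fun h => absurd hekK.1 h) (i - k)
    (fun m' h0 hm' h => by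
      rw [hek, ← Function.iterate_add_apply] at h
      have := hinj (m' + k) (by omega) 0 (by omega) (by rw [Function.iterate_zero, id]; exact h)
      omega)
  have ei : (pvtrStep H)^[i - k] ek = (pvtrStep H)^[i] e := by
    rw [hek, ← Function.iterate_add_apply, Nat.sub_add_cancel (by omega)]
  rw [ei] at B
  have a1 := A.2 (hYK _ yj)
  have a2 := B.2 (hYK _ yi)
  have hYs : Y ⊆ H \ K := fun y hy => ⟨hYH hy, hYK y hy⟩
  have a3 : f ((pvtrStep H)^[j] e).1 = f ((pvtrStep H)^[i] e).1 := f2 _ _ (tsc_R_mono hYs (hY _ yj _ yi))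
  rw [a1, a2] at a3
  exact pvri_z2' _ a3

end inner

/-! ## §2 periods, cyclic form -/

section period

variable {H X Y : Set (ℤ × ℤ)} {e x : (ℤ × ℤ) × (ℤ × ℤ)} {n : ℕ}

/-- `n` is THE period of the dart `e` on the contour of `H` -/
structure PvriPer (H : Set (ℤ × ℤ)) (e : (ℤ × ℤ) × (ℤ × ℤ)) (n : ℕ) : Prop where
  pos : 0 < n
  per : (pvtrStep H)^[n] e = e
  inj : ∀ a < n, ∀ b < n, (pvtrStep H)^[a] e = (pvtrStep H)^[b] e → a = b

theorem pvri_period (hH : H.Finite) (he : e ∈ pvtrBd H) : ∃ n, PvriPer H e n := by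
  classical
  have hex := pvtr_periodic hH he
  refine ⟨Nat.find hex, (Nat.find_spec hex).1, (Nat.find_spec hex).2, ?_⟩
  have key : ∀ a b, a < b → b < Nat.find hex → (pvtrStep H)^[a] e ≠ (pvtrStep H)^[b] e := by
    intro a b hab hb h
    have hb' : b = a + (b - a) := by omega
    rw [hb', Function.iterate_add_apply] at h
    exact Nat.find_min hex (m := b - a) (by omega) ⟨by omega, (pvtr_iter_inj he (pvtr_iter_mem he _) a h).symm⟩
  intro a ha b hb h
  rcases Nat.lt_trichotomy a b with h1 | h1 | h1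
  · exact absurd h (key a b h1 hb)
  · exact h1
  · exact absurd h.symm (key b a h1 ha)

theorem PvriPer.add (P : PvriPer H e n) (m : ℕ) : (pvtrStep H)^[m + n] e = (pvtrStep H)^[m] e := by
  rw [Function.iterate_add_apply, P.per]

theorem PvriPer.mod (P : PvriPer H e n) (m : ℕ) : (pvtrStep H)^[m % n] e = (pvtrStep H)^[m] e := by
  induction m using Nat.strong_induction_on with
  | _ m ih =>
    rcases Nat.lt_or_ge m n with h | h
    · rw [Nat.mod_eq_of_lt h]
    · have h1 : m = (m - n) + n := by omega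
      have h2 := ih (m - n) (by have := P.pos; omega)
      rw [h1, Nat.add_mod_right, h2, P.add]

/-- the same period at every dart of the orbit -/
theorem PvriPer.shift (P : PvriPer H e n) (he : e ∈ pvtrBd H) (b : ℕ) : PvriPer H ((pvtrStep H)^[b] e) n := by
  refine ⟨P.pos, ?_, ?_⟩
  · rw [← Function.iterate_add_apply, Nat.add_comm, P.add]
  · intro a ha c hc h
    rw [← Function.iterate_add_apply, ← Function.iterate_add_apply, Nat.add_comm a b, Nat.add_comm c b, Function.iterate_add_apply, Function.iterate_add_apply (pvtrStep H) b c] at h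
    exact P.inj a ha c hc (pvtr_iter_inj (pvtr_iter_mem he a) (pvtr_iter_mem he c) b h)

/-- every dart has a position `< n` -/
theorem PvriPer.position (P : PvriPer H e n) (hH : H.Finite) (hc : TscConn tscG H) (hf : HxFree H) (he : e ∈ pvtrBd H) (hx : x ∈ pvtrBd H) :
    ∃ p < n, (pvtrStep H)^[p] e = x := by
  obtain ⟨q, hq⟩ := pvtr_orbit hH hc (pvtw_free_compl_conn hH hf) he hx
  exact ⟨q % n, Nat.mod_lt _ P.pos, by rw [P.mod, hq]⟩

/-- **INNER INTERLACING, cyclic form**: four positions `p₀ < p₁ < p₂ < p₃ < p₀ + n` -/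
theorem pvri_interlace_cyc (hH : H.Finite) (hf : HxFree H) (he : e ∈ pvtrBd H) (P : PvriPer H e n) (hX : TscConn tscG X) (hY : TscConn tscG Y) (hXH : X ⊆ H) (hYH : Y ⊆ H)
    {p0 p1 p2 p3 : ℕ} (h01 : p0 < p1) (h12 : p1 < p2) (h23 : p2 < p3) (h30 : p3 < p0 + n)
    (x0 : ((pvtrStep H)^[p0] e).1 ∈ X) (x2 : ((pvtrStep H)^[p2] e).1 ∈ X) (y1 : ((pvtrStep H)^[p1] e).1 ∈ Y) (y3 : ((pvtrStep H)^[p3] e).1 ∈ Y) : (X ∩ Y).Nonempty := by
  have sh : ∀ p, p0 ≤ p → (pvtrStep H)^[p - p0] ((pvtrStep H)^[p0] e) = (pvtrStep H)^[p] e := by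
    intro p hp
    rw [← Function.iterate_add_apply, Nat.sub_add_cancel hp]
  refine pvri_interlace hH hf (pvtr_iter_mem he p0) hX hY hXH hYH (j := p1 - p0) (k := p2 - p0) (i := p3 - p0) (n := n) (by omega) (by omega) (by omega) (by omega)
    (P.shift he p0).inj x0 ?_ ?_ ?_
  · rw [sh p2 (by omega)]; exact x2
  · rw [sh p1 (by omega)]; exact y1
  · rw [sh p3 (by omega)]; exact y3

end period

/-! ## §3 two doors with disjoint connected cores -/

/-- `H` with two doors `D₁`, `D₂`: the inner cells of the door darts lie in two disjoint connected sets `A₁`, `A₂ ⊆ H` -/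
structure PvriDoors (H D₁ D₂ A₁ A₂ : Set (ℤ × ℤ)) : Prop where
  fin : H.Finite
  conn : TscConn tscG H
  free : HxFree H
  sub1 : A₁ ⊆ H
  sub2 : A₂ ⊆ H
  conn1 : TscConn tscG A₁
  conn2 : TscConn tscG A₂
  disj : Disjoint A₁ A₂
  in1 : ∀ x ∈ pvtrBd H, x.2 ∈ D₁ → x.1 ∈ A₁
  in2 : ∀ x ∈ pvtrBd H, x.2 ∈ D₂ → x.1 ∈ A₂

section doors

variable {H D₁ D₂ A₁ A₂ B₁ B₂ : Set (ℤ × ℤ)} {e e' x : (ℤ × ℤ) × (ℤ × ℤ)} {l l' n : ℕ}

theorem PvriDoors.symm (S : PvriDoors H D₁ D₂ A₁ A₂) : PvriDoors H D₂ D₁ A₂ A₁ :=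
  ⟨S.fin, S.conn, S.free, S.sub2, S.sub1, S.conn2, S.conn1, S.disj.symm, S.in2, S.in1⟩

/-- no dart belongs to both doors -/
theorem PvriDoors.not_both (S : PvriDoors H D₁ D₂ A₁ A₂) (hx : x ∈ pvtrBd H) (h1 : x.2 ∈ D₁) (h2 : x.2 ∈ D₂) : False :=
  Set.disjoint_left.1 S.disj (S.in1 x hx h1) (S.in2 x hx h2)

/-- a lane is shorter than the period -/
theorem PvriDoors.lane_lt (S : PvriDoors H D₁ D₂ A₁ A₂) (h : PvtrLane H D₁ D₂ e l) (P : PvriPer H e n) : 0 < l ∧ l < n := by
  constructor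
  · rcases Nat.eq_zero_or_pos l with h0 | h0
    · subst h0
      exact (S.not_both h.mem h.start h.stop).elim
    · exact h0
  · by_contra hcon
    rcases Nat.lt_or_ge n l with h1 | h1
    · exact h.off n P.pos h1 (Or.inl (by rw [P.per]; exact h.start))
    · have : l = n := by omega
      have hs := h.stop
      rw [this, P.per] at hs
      exact S.not_both h.mem h.start hs

/-- **THE LANE `D₁ → D₂` IS UNIQUE** -/
theorem PvriDoors.lane_unique (S : PvriDoors H D₁ D₂ A₁ A₂) (h : PvtrLane H D₁ D₂ e l) (h' : PvtrLane H D₁ D₂ e' l') : e = e' ∧ l = l' := by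
  obtain ⟨n, P⟩ := pvri_period S.fin h.mem
  obtain ⟨hl0, hln⟩ := S.lane_lt h P
  obtain ⟨a, han, hae⟩ := P.position S.fin S.conn S.free h.mem h'.mem
  have hsame : e = e' → l = l' := by
    intro hee
    subst hee
    rcases Nat.lt_trichotomy l l' with h1 | h1 | h1
    · exact (h'.off l hl0 h1 (Or.inr h.stop)).elim
    · exact h1
    · have hl0' : 0 < l' := (S.lane_lt h' P).1
      exact (h.off l' hl0' h1 (Or.inr h'.stop)).elim
  rcases Nat.eq_zero_or_pos a with ha0 | ha0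
  · subst ha0
    exact ⟨hae, hsame hae⟩
  · exfalso
    have hla : l < a := by
      by_contra hcon
      rcases Nat.lt_or_ge a l with h1 | h1
      · exact h.off a ha0 h1 (Or.inl (by rw [hae]; exact h'.start))
      · have : a = l := by omega
        have hs := h.stop
        rw [← this, hae] at hs
        exact S.not_both h'.mem h'.start hs
    have P' : PvriPer H e' n := by rw [← hae]; exact P.shift h.mem a
    obtain ⟨hl0', -⟩ := S.lane_lt h' P'
    have sh : ∀ m, (pvtrStep H)^[m] e' = (pvtrStep H)^[a + m] e := by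
      intro m
      rw [← hae, ← Function.iterate_add_apply, Nat.add_comm]
    have hal : a + l' < n := by
      by_contra hcon
      rcases Nat.lt_or_ge (n - a) l' with h1 | h1
      · refine h'.off (n - a) (by omega) h1 (Or.inl ?_)
        rw [sh, show a + (n - a) = n by omega, P.per]
        exact h.start
      · have : l' = n - a := by omega
        have hs := h'.stop
        rw [sh, this, show a + (n - a) = n by omega, P.per] at hs
        exact S.not_both h.mem h.start hs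
    obtain ⟨c, hc1, hc2⟩ := pvri_interlace S.fin S.free h.mem S.conn1 S.conn2 S.sub1 S.sub2 (j := l) (k := a) (i := a + l') (n := n) hl0 hla (by omega) hal P.inj
      (S.in1 _ h.mem h.start) (by rw [hae]; exact S.in1 _ h'.mem h'.start) (S.in2 _ (pvtr_iter_mem h.mem l) h.stop)
      (by rw [← sh]; exact S.in2 _ (pvtr_iter_mem h'.mem l') h'.stop)
    exact Set.disjoint_left.1 S.disj hc1 hc2

/-- **NO POCKETS**: a dart whose inner cell is joined inside `H` to `A₂` off `A₁` and to `A₁` off `A₂` lies on the lane `D₁ → D₂` or on the lane `D₂ → D₁` -/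
theorem PvriDoors.no_pocket (S : PvriDoors H D₁ D₂ A₁ A₂) (h : PvtrLane H D₁ D₂ e l) (h' : PvtrLane H D₂ D₁ e' l') (hx : x ∈ pvtrBd H)
    (c1 : TscConn tscG B₁) (c2 : TscConn tscG B₂) (s1 : B₁ ⊆ H) (s2 : B₂ ⊆ H) (x1 : x.1 ∈ B₁) (x2 : x.1 ∈ B₂) (a1 : A₂ ⊆ B₁) (a2 : A₁ ⊆ B₂)
    (d1 : Disjoint B₁ A₁) (d2 : Disjoint B₂ A₂) :
    (∃ m, 0 < m ∧ m < l ∧ x = (pvtrStep H)^[m] e) ∨ ∃ m, 0 < m ∧ m < l' ∧ x = (pvtrStep H)^[m] e' := by
  obtain ⟨n, P⟩ := pvri_period S.fin h.mem
  obtain ⟨hl0, hln⟩ := S.lane_lt h P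
  obtain ⟨a, han, hae⟩ := P.position S.fin S.conn S.free h.mem h'.mem
  obtain ⟨p, hpn, hpx⟩ := P.position S.fin S.conn S.free h.mem hx
  have hxA1 : x.1 ∉ A₁ := fun hh => Set.disjoint_left.1 d1 x1 hh
  have hxA2 : x.1 ∉ A₂ := fun hh => Set.disjoint_left.1 d2 x2 hh
  have hxD1 : x.2 ∉ D₁ := fun hh => hxA1 (S.in1 x hx hh)
  have hxD2 : x.2 ∉ D₂ := fun hh => hxA2 (S.in2 x hx hh)
  have P' : PvriPer H e' n := by rw [← hae]; exact P.shift h.mem a
  obtain ⟨hl0', -⟩ := S.symm.lane_lt h' P'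
  have sh : ∀ m, (pvtrStep H)^[m] e' = (pvtrStep H)^[a + m] e := by
    intro m
    rw [← hae, ← Function.iterate_add_apply, Nat.add_comm]
  have hla : l ≤ a := by
    by_contra hcon
    rcases Nat.eq_zero_or_pos a with h0 | h0
    · subst h0
      exact S.not_both h.mem h.start (by rw [show e = e' from hae]; exact h'.start)
    · exact h.off a h0 (by omega) (Or.inr (by rw [hae]; exact h'.start))
  have hal : a + l' ≤ n := by
    by_contra hcon
    refine h'.off (n - a) (by omega) (by omega) (Or.inr ?_)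
    rw [sh, show a + (n - a) = n by omega, P.per]
    exact h.start
  have e0 : ((pvtrStep H)^[n] e).1 ∈ A₁ := by rw [P.per]; exact S.in1 _ h.mem h.start
  have el : ((pvtrStep H)^[l] e).1 ∈ A₂ := S.in2 _ (pvtr_iter_mem h.mem l) h.stop
  have ea : ((pvtrStep H)^[a] e).1 ∈ A₂ := by rw [hae]; exact S.in2 _ h'.mem h'.start
  have eal : ((pvtrStep H)^[a + l'] e).1 ∈ A₁ := by rw [← sh]; exact S.in1 _ (pvtr_iter_mem h'.mem l') h'.stop
  have ep1 : ((pvtrStep H)^[p] e).1 ∈ B₁ := by rw [hpx]; exact x1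
  have ep2 : ((pvtrStep H)^[p] e).1 ∈ B₂ := by rw [hpx]; exact x2
  have np : ∀ q, ((pvtrStep H)^[q] e).1 ∈ A₁ ∨ ((pvtrStep H)^[q] e).1 ∈ A₂ → p ≠ q := by
    rintro q hq rfl
    rw [hpx] at hq
    exact hq.elim hxA1 hxA2
  have p0 : p ≠ 0 := by
    rintro rfl
    exact hxA1 (by rw [← hpx]; exact S.in1 _ h.mem h.start)
  have pl := np l (Or.inr el)
  have pa := np a (Or.inr ea)
  have pal := np (a + l') (Or.inl eal)
  rcases Nat.lt_or_ge p l with c | c
  · exact Or.inl ⟨p, by omega, c, hpx.symm⟩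
  rcases Nat.lt_or_ge p a with c' | c'
  · exfalso
    obtain ⟨z, hz1, hz2⟩ := pvri_interlace_cyc S.fin S.free h.mem P S.conn2 c2 S.sub2 s2 (p0 := l) (p1 := p) (p2 := a) (p3 := n) (by omega) c' han (by omega)
      el ea ep2 (a2 e0)
    exact Set.disjoint_left.1 d2 hz2 hz1
  rcases Nat.lt_or_ge p (a + l') with c'' | c''
  · refine Or.inr ⟨p - a, by omega, by omega, ?_⟩
    rw [sh, show a + (p - a) = p by omega, hpx]
  · exfalso
    have enl : ((pvtrStep H)^[n + l] e).1 ∈ A₂ := by rw [Nat.add_comm, P.add]; exact el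
    obtain ⟨z, hz1, hz2⟩ := pvri_interlace_cyc S.fin S.free h.mem P S.conn1 c1 S.sub1 s1 (p0 := a + l') (p1 := p) (p2 := n) (p3 := n + l) (by omega) hpn (by omega) (by omega)
      eal e0 ep1 (a1 enl)
    exact Set.disjoint_left.1 d1 hz2 hz1

end doors

/-! ## §4 plug types: THE right lane, THE left lane, no pockets -/

section types

variable {𝔑 : PvmnNum} {τ : PvmnType} {e e' x : (ℤ × ℤ) × (ℤ × ℤ)} {l l' : ℕ} {b w : ℤ × ℤ}

/-- the tube `K3` of a type with its two end doors: the cores are the `4`-tubes of the two first and of the two last pieces -/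
theorem pvri_K3_doors (hτ : PvmnIsType 𝔑 τ) :
    PvriDoors (pvmnK3 τ) (pvmnDrm τ) (pvmnDrp τ) (pvtwN 4 (pvmnCells τ 0 1)) (pvtwN 4 (pvmnCells τ 8 9)) where
  fin := pvmn_K3_finite τ
  conn := pvmn_K3_conn hτ
  free := pvmn_K3_free τ
  sub1 := (pvtw_N_mono le_rfl (pvmn_cells_mono (by omega) (by omega))).trans pvt_hull_sub
  sub2 := (pvtw_N_mono le_rfl (pvmn_cells_mono (by omega) (by omega))).trans pvt_hull_sub
  conn1 := pvtw_N_conn (pvmn_cells_conn hτ (by omega) (by omega))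
  conn2 := pvtw_N_conn (pvmn_cells_conn hτ (by omega) (by omega))
  disj := Set.disjoint_of_subset (pvtw_N_mono (by omega) le_rfl) (pvtw_N_mono (by omega) le_rfl) (pvmn_far_cells hτ (by omega))
  in1 := by
    intro x hx h
    obtain ⟨k, _, _, hk⟩ := pvmn_N_cells.1 (pvmn_K3_dart hx).1
    have h9 : x.1 ∈ pvtwN 9 (τ.C 0 : Set (ℤ × ℤ)) := by
      have : x.1 ∈ pvtN8 (pvtwN 8 (τ.C 0 : Set (ℤ × ℤ))) := ⟨x.2, h, Or.inr (pvt_tri_g8 (hx_tri_symm _ _ hx.2.2))⟩
      rwa [← pvtw_N_succ] at this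
    rcases Nat.lt_or_ge k.1 2 with h2 | h2
    · exact pvmn_N_cells.2 ⟨k, by omega, by omega, hk⟩
    · exact (Set.disjoint_left.1 (hτ.far 0 k (by simpa using h2)) (pvtw_N_mono (by omega) le_rfl h9) (pvtw_N_mono (by omega) le_rfl hk)).elim
  in2 := by
    intro x hx h
    obtain ⟨k, _, _, hk⟩ := pvmn_N_cells.1 (pvmn_K3_dart hx).1
    have h9 : x.1 ∈ pvtwN 9 (τ.C 9 : Set (ℤ × ℤ)) := by
      have : x.1 ∈ pvtN8 (pvtwN 8 (τ.C 9 : Set (ℤ × ℤ))) := ⟨x.2, h, Or.inr (pvt_tri_g8 (hx_tri_symm _ _ hx.2.2))⟩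
      rwa [← pvtw_N_succ] at this
    have hk9 := k.2
    rcases Nat.lt_or_ge k.1 8 with h2 | h2
    · exact (Set.disjoint_left.1 (hτ.far k 9 (by change k.1 + 2 ≤ 9; omega)) (pvtw_N_mono (by omega) le_rfl hk) (pvtw_N_mono (by omega) le_rfl h9)).elim
    · exact pvmn_N_cells.2 ⟨k, by omega, by omega, hk⟩

/-- **THE RIGHT LANE OF A TYPE IS UNIQUE** (FIX B of M11) -/
theorem pvri_laneR_unique (hτ : PvmnIsType 𝔑 τ) (h : PvmnLaneR τ e l) (h' : PvmnLaneR τ e' l') : e = e' ∧ l = l' :=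
  (pvri_K3_doors hτ).lane_unique h h'

/-- **THE LEFT LANE OF A TYPE IS UNIQUE** -/
theorem pvri_laneL_unique (hτ : PvmnIsType 𝔑 τ) (h : PvmnLaneL τ e l) (h' : PvmnLaneL τ e' l') : e = e' ∧ l = l' :=
  (pvri_K3_doors hτ).symm.lane_unique h h'

/-- **NO POCKETS**: a dart of the contour of `K3` whose inner cell lies in the `4`-tube of the four central pieces is on the right lane or on the left lane -/
theorem pvri_no_pocket (hτ : PvmnIsType 𝔑 τ) (h : PvmnLaneR τ e l) (h' : PvmnLaneL τ e' l') (hx : x ∈ pvtrBd (pvmnK3 τ)) (hx1 : x.1 ∈ pvtwN 4 (pvmnCells τ 3 6)) :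
    (∃ m, 0 < m ∧ m < l ∧ x = (pvtrStep (pvmnK3 τ))^[m] e) ∨ ∃ m, 0 < m ∧ m < l' ∧ x = (pvtrStep (pvmnK3 τ))^[m] e' :=
  (pvri_K3_doors hτ).no_pocket h h' hx (B₁ := pvtwN 4 (pvmnCells τ 3 9)) (B₂ := pvtwN 4 (pvmnCells τ 0 6))
    (pvtw_N_conn (pvmn_cells_conn hτ (by omega) (by omega))) (pvtw_N_conn (pvmn_cells_conn hτ (by omega) (by omega)))
    ((pvtw_N_mono le_rfl (pvmn_cells_mono (by omega) (by omega))).trans pvt_hull_sub) ((pvtw_N_mono le_rfl (pvmn_cells_mono (by omega) (by omega))).trans pvt_hull_sub)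
    (pvtw_N_mono le_rfl (pvmn_cells_mono (by omega) (by omega)) hx1) (pvtw_N_mono le_rfl (pvmn_cells_mono (by omega) (by omega)) hx1)
    (pvtw_N_mono le_rfl (pvmn_cells_mono (by omega) (by omega))) (pvtw_N_mono le_rfl (pvmn_cells_mono (by omega) (by omega)))
    (Set.disjoint_of_subset (pvtw_N_mono (by omega) le_rfl) (pvtw_N_mono (by omega) le_rfl) (pvmn_far_cells hτ (by omega))).symm
    (Set.disjoint_of_subset (pvtw_N_mono (by omega) le_rfl) (pvtw_N_mono (by omega) le_rfl) (pvmn_far_cells hτ (by omega)))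

/-- cell form: a cell off `K3` next to the `4`-tube of the four central pieces is a cell of the right lane or of the left lane -/
theorem pvri_zone_lanes (hτ : PvmnIsType 𝔑 τ) (h : PvmnLaneR τ e l) (h' : PvmnLaneL τ e' l') (hb : b ∈ pvtwN 4 (pvmnCells τ 3 6)) (hw : w ∉ pvmnK3 τ) (hbw : triAdj b w) :
    w ∈ pvtrArc (pvmnK3 τ) e l ∨ w ∈ pvtrArc (pvmnK3 τ) e' l' := by
  have hbK : b ∈ pvmnK3 τ := pvt_hull_sub (pvtw_N_mono le_rfl (pvmn_cells_mono (by omega) (by omega)) hb)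
  rcases pvri_no_pocket hτ h h' (x := (b, w)) ⟨hbK, hw, hbw⟩ hb with ⟨m, h0, hm, hx⟩ | ⟨m, h0, hm, hx⟩
  · exact Or.inl ⟨m, h0, hm, by rw [← hx]⟩
  · exact Or.inr ⟨m, h0, hm, by rw [← hx]⟩

end types

/-! ## §5 step locality -/

section local'

variable {H H' 𝒩 : Set (ℤ × ℤ)} {x : (ℤ × ℤ) × (ℤ × ℤ)}

theorem pvri_step_local (h : pvtrApex x ∈ H ↔ pvtrApex x ∈ H') : pvtrStep H x = pvtrStep H' x := by
  by_cases ha : pvtrApex x ∈ H
  · rw [pvtr_step_in ha, pvtr_step_in (h.1 ha)]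
  · rw [pvtr_step_out ha, pvtr_step_out (fun h' => ha (h.2 h'))]

theorem pvri_bd_local (hag : ∀ c ∈ 𝒩, c ∈ H ↔ c ∈ H') (hx : x ∈ pvtrBd H) (h1 : x.1 ∈ 𝒩) (h2 : x.2 ∈ 𝒩) : x ∈ pvtrBd H' :=
  ⟨(hag _ h1).1 hx.1, fun h => hx.2.1 ((hag _ h2).2 h), hx.2.2⟩

/-- **STEP LOCALITY**: two sets which agree on `𝒩` have the same contour as long as the apexes stay in `𝒩` -/
theorem pvri_iter_local (hag : ∀ c ∈ 𝒩, c ∈ H ↔ c ∈ H') (m : ℕ) (hN : ∀ m' < m, pvtrApex ((pvtrStep H)^[m'] x) ∈ 𝒩) :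
    (pvtrStep H')^[m] x = (pvtrStep H)^[m] x := by
  induction m with
  | zero => rfl
  | succ m ih =>
    rw [Function.iterate_succ_apply', Function.iterate_succ_apply', ih fun m' h => hN m' (by omega)]
    exact (pvri_step_local (hag _ (hN m (by omega)))).symm

/-- the apex of a dart is in the `1`-collar of its inner cell -/
theorem pvri_apex_N (hx : triAdj x.1 x.2) {E : Set (ℤ × ℤ)} {k : ℕ} (h : x.1 ∈ pvtwN k E) : pvtrApex x ∈ pvtwN (k + 1) E := by
  have : pvtrApex x ∈ pvtN8 (pvtwN k E) := ⟨x.1, h, Or.inr (pvt_tri_g8 (pvtr_apex_adj hx).1)⟩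
  rwa [← pvtw_N_succ] at this

end local'

end Claimed.Agent.R289
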