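import Claimed.Agent.R289.Tr.Band
import Claimed.Agent.R289.Tr.Ring
import Claimed.Agent.R289.Tr.Tower
import Claimed.Agent.R289.Tr.CellAlg
import Claimed.Agent.R289.Tr.CellChain
import Claimed.Agent.R289.Tr.Spine
import Claimed.Agent.R289.Tr.Cover
import Claimed.Agent.R289.Tr.MenuGeo
import Claimed.Agent.R289.Tr.RingIn

/-!
# Row 289 (S0537, Cardy for Poisson-Voronoi), THE WALL, item TR19 in the form of ROAD P (plugs with TENTACLES), file Tr/FitP : PATTERN FIT, CELL FORM      (owner helper138, post of helper273 (ruling P1); prefix `pvfj_`, `Pvfj`)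

SOURCES.   `origin/helper118:notes/R289/W1_118.md` Part II (TR19: fill ONCE at the coarse scale, fatten at the fine scale),  `origin/helper205:notes/R289/MENU_205.md` M7, M8 (the true PIN hypothesis: tentacles, wiggles, stubs),
`origin/helper6:notes/R289/W2c_6.md` v2 (what CLOSE asks of a pattern: F6 REGION, F7, F8),  referee notes of 37 (V3-V6) and 138 (T1, T2).

GRIDS.   fine cell = `δ` (the cell of N2), coarse cell = `(2m+1) δ`, `10 ≤ m` (`m = 12` in the application);  the coarse cell `p` is the block `pvtbD (2m+1) m {p}` of fine cells (`pvtbCo m` = coarse cell of a fine cell).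
ALL THE PLUG DATA ENTER AS ABSTRACT SETS OF COARSE CELLS:
* `F0`    = `N² G ∪ B_s ∪ B_t`:   `G` = coarse cells met by the arc `P[idx s, idx t]`,   `B_s`, `B_t` = the bodies of the two plugs WITH BOTH TENTACLES (ball part + tubes up to the layer under the white strip)
* `Ys ⊆ B_s`, `Yt ⊆ B_t` = the CLOSURE-SIDE tentacles off `O` (negative tentacle of `s`, positive tentacle of `t`): the regions which the experiment `Y` reads
* door `(y, d)`:   `y` = tip cell of the tentacle, `d` = axis direction,   `y + d ∈ pvtbOut F0`   (ACCESS; `pvfj_access`: a 4-connected WITNESS chain off `F0` which leaves a box = the cells of the actual continuation `γ^±` after its last exit)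

THE PATTERN (ONE hull):   `F := pvtbHull F0`,
* `pvfjT m F0 Y = D_{m+6}(F) \ D_{m+8}(Y)`                 the region of the `X`-side (`U` = its sites);   the closure-side tentacles are CUT OUT (37 V6)
* `pvfjA m y d = pvtbPt m y d (m+10) 0`                    the `δ`-door: the 10th cell of the straight NOZZLE `pvtbPt m y d t 0`, `m < t`;   a function of the plug only;   the nozzle is off `T`
* `C0` = a corridor `PvtbCor` (no near return) from the door of `t` to the door of `s` in `Box \ D_{m+9}(F)`:   sup-distance `≥ 4` cells from `T`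
* `Tw` = `pvtrArc (D_{m+3}(F)) e l`, the POSITIVE (counterclockwise) lane of the contour of `D_{m+3}(F)` from the door `D_{m+10}(Ys)` to the door `D_{m+10}(Yt)` (kit of 39, `Tr/Ring`: the orientation is built in):
  it runs along the RIGHT side: core of `s`, used tentacle of `s`, arc, used tentacle of `t`, core of `t`.      `Tw ⊆ D_{m+4}(F) \ D_{m+3}(F)`, with a collar of 2 cells inside `T`.

RESULTS.   §1 nozzles   §2 fattening calculus   §3 `T`: finite, well composed, `Tᶜ` 4-CONNECTED (F6 REGION), cores of the cells far from `Y` (F7)   §4 ACCESS   §5 boxes, the corridor   §6 the lane   §7 `PvfjIn`, `PvfjOut`, **`pvfj_fit`**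
§8 `pvfj_word` (word of the closing chain)   §9 THE FAMILY: `PvfjPlug` (plugs of a menu, abstract), `PvfjDat`, `PvfjPat 𝔓 m n` (= field `Pat`), `pvfj_pat_finite` (`Pat_fin`), `PvfjPat.pat` (`pat`), `pvfjDoor`, `pvfj_pat_ok` (`pat_ok`)
§10 `PvfjFit` (= field `Fit`: the pattern is a FUNCTION of `(P, s, t)`), `pvfj_fit_s`, `pvfj_fit_t`, the metric contract `PvfjMet`, **`pvfj_met_fit`** (`PvfjMet ⟹ ∃ π, Fit`)
§11 (prefix `pvfjm_`) THE PLUGS OF THE MENU: `pvfjmPlug 𝔑 ty : PvfjPlug τ`, body `pvfjmB` (`Bl rB ∪ N⁶(cells 4 5) ∪ N⁸(cells 1 8)`: pieces `1..8` only), `pvfjmEp`, `pvfjmEm` (the LAST pieces are part of the witnesses), doors `pvfjmDp`, `pvfjmDm` = FUNCTIONS OF THE TYPE (first hit), **`pvfjm_wf`**, `pvfjm_front_p/_m`, `pvfjm_Ep_off_B`, `pvfjm_Em_off_B`, `pvfj_wit_union`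
§12 `PvfjPat.simple` (the word is `PvccSimple`), `PvfjPat.centre`, `PvfjPat.centre_pl` (cell number `j` of the placed chain = fine cell `C j`), `PvfjPatF` (patterns with far centres), `pvfj_patF_finite`, `pvfj_met_fitF`
§13 PLACED REGIONS: `pvfjFs`, `pvfjZ0`, `pvfjReg`, `pvfj_reg_near/_ball/_far/_collar`, `PvfjPat.regT .regC .regW`, `regC_far` (`≥ 3 δ_f`), `regW_collar` (`2 δ_f`), `pvfj_fit_ball` (F7: balls of radius `6 δ_f` round the arc)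
§14 THE PATTERN HULL WITH TWO DOORS (`PvriDoors` of 205): `PvfjIn.doors`, `PvfjIn.laneL`, **`PvfjIn.no_pocket`**, `PvfjIn.lane_unique` (for GLUE-W)
§15 **`pvfjGeo`** : `PvtsGeo τ` of one level (doors of record, `zu`, `l1`) from the `Σ₁` patterns `πu t` (end pin = plug `t` at `0`, start pin = reference plug, `G` = cells of the thick link); `PvfjPat.disp`
-/

set_option autoImplicit false
set_option linter.unusedSectionVars false
set_option linter.unusedVariables false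
set_option linter.unusedSimpArgs false

namespace Claimed.Agent.R289

open Relation Claims.C0467 Claimed.Agent.R291

/-! ## 0. definitions -/

/-- an axis direction -/
def PvfjDir (d : ℤ × ℤ) : Prop := d = (1, 0) ∨ d = (-1, 0) ∨ d = (0, 1) ∨ d = (0, -1)

/-- two coarse cells are FAR: different and their closed squares do not meet -/
def PvfjFar (p q : ℤ × ℤ) : Prop := p ≠ q ∧ ¬ pvtbG8.Adj p q

/-- the region of the `X`-side -/
def pvfjT (m : ℤ) (F0 Y : Set (ℤ × ℤ)) : Set (ℤ × ℤ) := pvtbD (2 * m + 1) (m + 6) (pvtbHull F0) \ pvtbD (2 * m + 1) (m + 8) Y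

/-- the `δ`-door of the tentacle with tip cell `y` and direction `d` -/
def pvfjA (m : ℤ) (y d : ℤ × ℤ) : ℤ × ℤ := pvtbPt m y d (m + 10) 0

/-- the polyomino whose contour carries the white lane -/
def pvfjH (m : ℤ) (F0 : Set (ℤ × ℤ)) : Set (ℤ × ℤ) := pvtbD (2 * m + 1) (m + 3) (pvtbHull F0)

/-- the obstacle of the closing corridor -/
def pvfjO (m : ℤ) (F0 : Set (ℤ × ℤ)) : Set (ℤ × ℤ) := pvtbD (2 * m + 1) (m + 9) (pvtbHull F0)

theorem pvfj_eqns_cite : True := by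
  have := @PvfjDir.eq_1
  have := @PvfjFar.eq_1
  have := @pvfjT.eq_1
  have := @pvfjA.eq_1
  have := @pvfjH.eq_1
  have := @pvfjO.eq_1
  trivial

/-! ## 1. nozzles -/

section nozzle

variable {m r t j : ℤ} {F Y : Set (ℤ × ℤ)} {y d : ℤ × ℤ}

/-- 1D: a multiple of `k` of absolute value `< k` vanishes, with an offset `j` -/
theorem pvfj_lat {k r j e : ℤ} (hj : |j| + r < k) (h : -r ≤ j - k * e ∧ j - k * e ≤ r) : e = 0 := by
  have hj' := abs_le.1 (le_refl |j|)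
  have hk : 0 ≤ k := by
    have := abs_nonneg j
    by_contra hc
    omega
  have c : e ≤ -1 ∨ e = 0 ∨ 1 ≤ e := by omega
  rcases c with c | c | c
  · have := mul_le_mul_of_nonneg_left c hk
    omega
  · exact c
  · have := mul_le_mul_of_nonneg_left c hk
    omega

/-- the cell number `t` of the nozzle (lateral offset `j`) lies in `D_r(F)` only if `t ≤ r` (the coarse cell in front of the tip is free) -/
theorem pvfj_noz_le (hd : PvfjDir d) (hc : y + d ∉ F) (ht : 0 ≤ t ∧ t ≤ 2 * m + 1) (hj : |j| + r < 2 * m + 1)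
    (h : pvtbPt m y d t j ∈ pvtbD (2 * m + 1) r F) : t ≤ r := by
  obtain ⟨p, hp, g1, g2, g3, g4⟩ := h
  have hr : r < 2 * m + 1 := by
    have := abs_nonneg j
    omega
  have e1 : (2 * m + 1) * (p.1 - y.1) = (2 * m + 1) * p.1 - (2 * m + 1) * y.1 := by ring
  have e2 : (2 * m + 1) * (p.2 - y.2) = (2 * m + 1) * p.2 - (2 * m + 1) * y.2 := by ring
  have e1' : (2 * m + 1) * (y.1 - p.1) = (2 * m + 1) * y.1 - (2 * m + 1) * p.1 := by ring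
  have e2' : (2 * m + 1) * (y.2 - p.2) = (2 * m + 1) * y.2 - (2 * m + 1) * p.2 := by ring
  have hjn : |(-j)| + r < 2 * m + 1 := by rwa [abs_neg]
  by_contra hcon
  rcases hd with rfl | rfl | rfl | rfl <;> simp only [pvtbPt, mul_zero, mul_one, mul_neg, add_zero, sub_zero, neg_zero, sub_neg_eq_add] at g1 g2 g3 g4
  · have a2 := pvfj_lat (e := p.2 - y.2) hj (by omega)
    rcases pvtb_seg1 (e := p.1 - y.1) hr ht (by omega) with a1 | a1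
    · rw [a1, mul_zero] at e1
      omega
    · exact hc (by rwa [show y + ((1, 0) : ℤ × ℤ) = p from Prod.ext (by simp; omega) (by simp; omega)])
  · have a2 := pvfj_lat (e := y.2 - p.2) hj (by omega)
    rcases pvtb_seg1 (e := y.1 - p.1) hr ht (by omega) with a1 | a1
    · rw [a1, mul_zero] at e1'
      omega
    · exact hc (by rwa [show y + ((-1, 0) : ℤ × ℤ) = p from Prod.ext (by simp; omega) (by simp; omega)])
  · have a2 := pvfj_lat (e := y.1 - p.1) hj (by omega)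
    rcases pvtb_seg1 (e := p.2 - y.2) hr ht (by omega) with a1 | a1
    · rw [a1, mul_zero] at e2
      omega
    · exact hc (by rwa [show y + ((0, 1) : ℤ × ℤ) = p from Prod.ext (by simp; omega) (by simp; omega)])
  · have a2 := pvfj_lat (e := p.1 - y.1) hj (by omega)
    rcases pvtb_seg1 (e := y.2 - p.2) hr ht (by omega) with a1 | a1
    · rw [a1, mul_zero] at e2'
      omega
    · exact hc (by rwa [show y + ((0, -1) : ℤ × ℤ) = p from Prod.ext (by simp; omega) (by simp; omega)])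

/-- the first `r` cells of the nozzle lie in `D_r({y})` -/
theorem pvfj_noz_mem (hd : PvfjDir d) (hy : y ∈ Y) (ht : -r ≤ t ∧ t ≤ r) (hj : -r ≤ j ∧ j ≤ r) : pvtbPt m y d t j ∈ pvtbD (2 * m + 1) r Y := by
  refine ⟨y, hy, ?_⟩
  rcases hd with rfl | rfl | rfl | rfl <;> simp only [pvtbPt, mul_zero, mul_one, mul_neg, add_zero, sub_zero, neg_zero, sub_neg_eq_add] <;> omega

/-- consecutive cells of the nozzle share a side -/
theorem pvfj_noz_adj (hd : PvfjDir d) : pvtbG4.Adj (pvtbPt m y d t j) (pvtbPt m y d (t + 1) j) := by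
  rw [pvtb_G4_adj]
  rcases hd with rfl | rfl | rfl | rfl <;> simp only [pvtbPt, mul_zero, mul_one, mul_neg, add_zero, sub_zero, neg_zero, sub_neg_eq_add, and_true, true_and] <;> omega

end nozzle

/-! ## 2. fattening calculus -/

section fat

variable {m k r r' i : ℤ} {F F' : Set (ℤ × ℤ)} {v w p q : ℤ × ℤ}

/-- a cell at sup-distance `≤ i` of `D_r(F)` lies in `D_{r+i}(F)` -/
theorem pvfj_D_fat (hv : v ∈ pvtbD k r F) (h1 : |w.1 - v.1| ≤ i) (h2 : |w.2 - v.2| ≤ i) : w ∈ pvtbD k (r + i) F := by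
  obtain ⟨p, hp, g⟩ := hv
  rw [abs_le] at h1 h2
  exact ⟨p, hp, by omega⟩

/-- contrapositive: off `D_{r+i}(F)` means sup-distance `> i` from `D_r(F)` -/
theorem pvfj_D_gap (hv : v ∈ pvtbD k r F) (hw : w ∉ pvtbD k (r + i) F) : i < |w.1 - v.1| ∨ i < |w.2 - v.2| := by
  by_contra hc
  push Not at hc
  exact hw (pvfj_D_fat hv hc.1 hc.2)

theorem pvfj_far_symm (h : PvfjFar p q) : PvfjFar q p := ⟨h.1.symm, fun h' => h.2 h'.symm⟩

theorem pvfj_far_iff : PvfjFar p q ↔ (p.1 + 2 ≤ q.1 ∨ q.1 + 2 ≤ p.1 ∨ p.2 + 2 ≤ q.2 ∨ q.2 + 2 ≤ p.2) := by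
  constructor
  · rintro ⟨h1, h2⟩
    by_contra hc
    exact h2 ⟨h1, by omega, by omega, by omega, by omega⟩
  · intro h
    refine ⟨?_, ?_⟩
    · rintro rfl
      omega
    · rintro ⟨-, g1, g2, g3, g4⟩
      omega

/-- the fattened blocks of two far coarse cells: sup-distance `≥ 2k - r - r'` -/
theorem pvfj_far_gap (hk : 0 ≤ k) (hpq : PvfjFar p q) (hv : v ∈ pvtbD k r {p}) (hw : w ∈ pvtbD k r' {q}) :
    2 * k - r - r' ≤ |v.1 - w.1| ∨ 2 * k - r - r' ≤ |v.2 - w.2| := by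
  rw [pvtb_D_single] at hv hw
  obtain ⟨h1, h2, h3, h4⟩ := hv
  obtain ⟨g1, g2, g3, g4⟩ := hw
  simp only [le_abs]
  rcases pvfj_far_iff.1 hpq with c | c | c | c
  · have := mul_le_mul_of_nonneg_left c hk
    rw [mul_add] at this
    omega
  · have := mul_le_mul_of_nonneg_left c hk
    rw [mul_add] at this
    omega
  · have := mul_le_mul_of_nonneg_left c hk
    rw [mul_add] at this
    omega
  · have := mul_le_mul_of_nonneg_left c hk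
    rw [mul_add] at this
    omega

/-- set form -/
theorem pvfj_far_gap' (hk : 0 ≤ k) (hFF : ∀ p ∈ F, ∀ q ∈ F', PvfjFar p q) (hv : v ∈ pvtbD k r F) (hw : w ∈ pvtbD k r' F') :
    2 * k - r - r' ≤ |v.1 - w.1| ∨ 2 * k - r - r' ≤ |v.2 - w.2| := by
  obtain ⟨p, hp, g⟩ := hv
  obtain ⟨q, hq, g'⟩ := hw
  exact pvfj_far_gap hk (hFF p hp q hq) ⟨p, rfl, g⟩ ⟨q, rfl, g'⟩

theorem pvfj_far_disj (hk : 0 ≤ k) (hFF : ∀ p ∈ F, ∀ q ∈ F', PvfjFar p q) (hr : r + r' < 2 * k) : Disjoint (pvtbD k r F) (pvtbD k r' F') := by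
  rw [Set.disjoint_left]
  intro v hv hv'
  have := pvfj_far_gap' hk hFF hv hv'
  simp only [sub_self, abs_zero] at this
  omega

theorem pvfj_far_nadj (hk : 0 ≤ k) (hFF : ∀ p ∈ F, ∀ q ∈ F', PvfjFar p q) (hr : r + r' + 1 < 2 * k) (hv : v ∈ pvtbD k r F) (hw : w ∈ pvtbD k r' F') : ¬ pvtbG8.Adj v w := by
  rintro ⟨-, g1, g2, g3, g4⟩
  have := pvfj_far_gap' hk hFF hv hw
  simp only [le_abs] at this
  omega

end fat

/-! ## 3. the region `T` -/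

section region

variable {m : ℤ} {F0 Y Ys Yt : Set (ℤ × ℤ)} {y d ys ds yt dt v w p : ℤ × ℤ}

theorem pvfj_T_sub : pvfjT m F0 Y ⊆ pvtbD (2 * m + 1) (m + 6) (pvtbHull F0) := fun _ h => h.1

theorem pvfj_T_finite (hfin : F0.Finite) : (pvfjT m F0 Y).Finite :=
  (pvtb_D_finite _ _ (pvtb_hull_finite hfin)).subset pvfj_T_sub

/-- `T` is well composed (and aligned) -/
theorem pvfj_T_gd (hm : 8 ≤ m) : PvtbGd (2 * m + 1) ({m + 6, 2 * m - (m + 6)} ∪ {m + 8, 2 * m - (m + 8)}) (pvfjT m F0 Y) :=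
  (pvtb_gd_D (by omega) (by omega) _).diff (pvtb_gd_D (by omega) (by omega) _) (pvtb_res_disj (by omega) (by omega) (by omega))

theorem pvfj_T_wc (hm : 8 ≤ m) : PvtbWC (pvfjT m F0 Y) := (pvfj_T_gd hm).wc

theorem pvfj_T_compl : (pvfjT m F0 Y)ᶜ = (pvtbD (2 * m + 1) (m + 6) (pvtbHull F0))ᶜ ∪ pvtbD (2 * m + 1) (m + 8) Y := by
  ext v
  simp only [pvfjT, Set.mem_compl_iff, Set.mem_sdiff, Set.mem_union]
  tauto

/-- the nozzle beyond the cell number `m + 6` is off `D_{m+6}(F)` -/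
theorem pvfj_noz_off {r t : ℤ} (hd : PvfjDir d) (ho : y + d ∈ pvtbOut F0) (hr : r < 2 * m + 1) (ht : r < t ∧ t ≤ 2 * m + 1) (hr0 : 0 ≤ r) :
    pvtbPt m y d t 0 ∉ pvtbD (2 * m + 1) r (pvtbHull F0) := by
  intro h
  have := pvfj_noz_le (j := 0) hd (show y + d ∉ pvtbHull F0 from fun hc => hc ho) ⟨by omega, ht.2⟩ (by simpa using hr) h
  omega

/-- the whole nozzle (cells `m < t ≤ 2m+1`) is off `T` -/
theorem pvfj_noz_off_T {t : ℤ} (hm : 8 ≤ m) (hd : PvfjDir d) (hy : y ∈ Y) (ho : y + d ∈ pvtbOut F0) (ht : 0 ≤ t ∧ t ≤ 2 * m + 1) : pvtbPt m y d t 0 ∉ pvfjT m F0 Y := by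
  rintro ⟨h1, h2⟩
  have h3 := pvfj_noz_le (j := 0) hd (show y + d ∉ pvtbHull F0 from fun hc => hc ho) ht (by simp; omega) h1
  exact h2 (pvfj_noz_mem hd hy ⟨by omega, by omega⟩ ⟨by omega, by omega⟩)

/-- one tentacle: `D_{m+6}(F)ᶜ ∪ D_{m+8}(Y)` is 4-connected -/
theorem pvfj_compl_conn_add {C : Set (ℤ × ℤ)} (hm : 8 ≤ m) (hC : TscConn pvtbG4 C) (hsub : (pvtbD (2 * m + 1) (m + 6) (pvtbHull F0))ᶜ ⊆ C)
    (hY : TscConn pvtbG8 Y) (hd : PvfjDir d) (hy : y ∈ Y) (ho : y + d ∈ pvtbOut F0) : TscConn pvtbG4 (C ∪ pvtbD (2 * m + 1) (m + 8) Y) := by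
  have h1 : TscConn pvtbG4 (pvtbD (2 * m + 1) (m + 8) Y) := pvtb_D_conn (by omega) (by omega) hY
  have h2 : pvtbPt m y d (m + 7) 0 ∈ C := hsub (pvfj_noz_off hd ho (by omega) ⟨by omega, by omega⟩ (by omega))
  have h3 : pvtbPt m y d (m + 7) 0 ∈ pvtbD (2 * m + 1) (m + 8) Y := pvfj_noz_mem hd hy ⟨by omega, by omega⟩ ⟨by omega, by omega⟩
  exact tsc_conn_union hC h1 h2 h3 (Or.inl rfl)

/-- **F6 (REGION)**: the complement of `T` is 4-connected -/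
theorem pvfj_T_compl_conn (hm : 8 ≤ m) (hfin : F0.Finite) (hYs : TscConn pvtbG8 Ys) (hYt : TscConn pvtbG8 Yt) (hds : PvfjDir ds) (hdt : PvfjDir dt) (hys : ys ∈ Ys) (hyt : yt ∈ Yt)
    (hos : ys + ds ∈ pvtbOut F0) (hot : yt + dt ∈ pvtbOut F0) : TscConn pvtbG4 (pvfjT m F0 (Ys ∪ Yt))ᶜ := by
  rw [pvfj_T_compl, pvtb_D_union, ← Set.union_assoc]
  have h0 : TscConn pvtbG4 (pvtbD (2 * m + 1) (m + 6) (pvtbHull F0))ᶜ := by
    refine pvtb_D_compl_conn (by omega) (by omega) (by omega) ?_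
    rw [pvtb_hull_compl]
    exact pvtb_out_conn hfin
  have h1 := pvfj_compl_conn_add hm h0 (le_refl _) hYs hds hys hos
  exact pvfj_compl_conn_add hm h1 Set.subset_union_left hYt hdt hyt hot

/-- **F7**: a coarse cell of the hull which is far from `Y`: its block fattened by 6 fine cells lies in `T` -/
theorem pvfj_core (hm : 8 ≤ m) (hp : p ∈ pvtbHull F0) (hfar : ∀ q ∈ Y, PvfjFar p q) : pvtbD (2 * m + 1) (m + 6) {p} ⊆ pvfjT m F0 Y := by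
  intro v hv
  refine ⟨pvtb_D_mono (le_refl _) (Set.singleton_subset_iff.2 hp) hv, fun hv' => ?_⟩
  have h1 : ∀ a ∈ ({p} : Set (ℤ × ℤ)), ∀ q ∈ Y, PvfjFar a q := by
    rintro a rfl q hq
    exact hfar q hq
  exact Set.disjoint_left.1 (pvfj_far_disj (r := m + 6) (r' := m + 8) (by omega) h1 (by omega)) hv hv'

/-- the same with a collar: every cell at sup-distance `≤ 6` of the block of `p` is in `T` -/
theorem pvfj_core_collar (hm : 8 ≤ m) (hp : p ∈ pvtbHull F0) (hfar : ∀ q ∈ Y, PvfjFar p q) (hv : pvtbCo m v = p) (h1 : |w.1 - v.1| ≤ 6) (h2 : |w.2 - v.2| ≤ 6) : w ∈ pvfjT m F0 Y := by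
  refine pvfj_core hm hp hfar ?_
  have h3 : v ∈ pvtbD (2 * m + 1) m {p} := (pvtb_Co_mem (by omega) {p} v).2 hv
  exact pvfj_D_fat h3 h1 h2

end region

/-! ## 4. ACCESS -/

section access

variable {F0 W : Set (ℤ × ℤ)} {a b c d : ℤ} {z w : ℤ × ℤ}

/-- **ACCESS** (ESCAPE in cell form): a 4-connected witness chain off `F0` which leaves a box of `F0` lies in the outside of `F0` -/
theorem pvfj_access (hW : TscConn pvtbG4 W) (hoff : Disjoint W F0) (hbox : F0 ⊆ tscBox a b c d) (hw : w ∈ W) (hwb : w ∉ tscBox a b c d) : W ⊆ pvtbOut F0 := by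
  intro z hz
  have h1 : w ∈ pvtbOut F0 := pvtb_out_of_box hbox hwb
  have h2 : TscR pvtbG4 F0ᶜ w z := tsc_R_mono (fun x hx hx' => Set.disjoint_left.1 hoff hx hx') (hW w hw z hz)
  exact pvtb_out_R h1 h2

/-- two witnesses in a row -/
theorem pvfj_access_step (hz : z ∈ pvtbOut F0) (hW : TscConn pvtbG4 W) (hoff : Disjoint W F0) (hzW : z ∈ W) : W ⊆ pvtbOut F0 := by
  intro x hx
  exact pvtb_out_R hz (tsc_R_mono (fun u hu hu' => Set.disjoint_left.1 hoff hu hu') (hW z hzW x hx))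

end access

/-! ## 5. boxes, the closing corridor -/

section corridor

variable {m a b c d : ℤ} {F0 D : Set (ℤ × ℤ)} {y e ys ds yt dt v w : ℤ × ℤ}

/-- the nearest point of the box -/
def pvfjCl (a b c d : ℤ) (v : ℤ × ℤ) : ℤ × ℤ := (max a (min v.1 b), max c (min v.2 d))

theorem pvfj_cl_mem (hab : a ≤ b) (hcd : c ≤ d) (hD : D ⊆ tscBox (a + 1) (b - 1) (c + 1) (d - 1)) (hv : v ∉ D) : pvfjCl a b c d v ∈ tscBox a b c d \ D := by
  refine ⟨⟨?_, ?_, ?_, ?_⟩, fun h => ?_⟩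
  · simp only [pvfjCl]; omega
  · simp only [pvfjCl]; omega
  · simp only [pvfjCl]; omega
  · simp only [pvfjCl]; omega
  · obtain ⟨h1, h2, h3, h4⟩ := hD h
    simp only [pvfjCl] at h1 h2 h3 h4
    have : pvfjCl a b c d v = v := Prod.ext (by simp only [pvfjCl]; omega) (by simp only [pvfjCl]; omega)
    rw [this] at h
    exact hv h

theorem pvfj_cl_self (hv : v ∈ tscBox a b c d) : pvfjCl a b c d v = v := by
  obtain ⟨h1, h2, h3, h4⟩ := hv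
  exact Prod.ext (by simp only [pvfjCl]; omega) (by simp only [pvfjCl]; omega)

theorem pvfj_cl1 (a b x : ℤ) (hab : a ≤ b) : max a (min (x + 1) b) = max a (min x b) ∨ max a (min (x + 1) b) = max a (min x b) + 1 := by
  omega

theorem pvfj_cl_adj (hab : a ≤ b) (hcd : c ≤ d) (h : pvtbG4.Adj v w) : pvfjCl a b c d v = pvfjCl a b c d w ∨ pvtbG4.Adj (pvfjCl a b c d v) (pvfjCl a b c d w) := by
  rw [pvtb_G4_adj] at h ⊢
  obtain ⟨v1, v2⟩ := v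
  obtain ⟨w1, w2⟩ := w
  simp only [pvfjCl, Prod.ext_iff] at h ⊢
  rcases h with ⟨h1, h2⟩ | ⟨h1, h2⟩ | ⟨h1, h2⟩ | ⟨h1, h2⟩
  · subst h1; subst h2
    rcases pvfj_cl1 a b v1 hab with g | g
    · exact Or.inl ⟨g.symm, rfl⟩
    · exact Or.inr (Or.inl ⟨g, rfl⟩)
  · have h1' : v1 = w1 + 1 := by omega
    subst h1'; subst h2
    rcases pvfj_cl1 a b w1 hab with g | g
    · exact Or.inl ⟨g, rfl⟩
    · exact Or.inr (Or.inr (Or.inl ⟨by omega, rfl⟩))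
  · subst h1; subst h2
    rcases pvfj_cl1 c d v2 hcd with g | g
    · exact Or.inl ⟨rfl, g.symm⟩
    · exact Or.inr (Or.inr (Or.inr (Or.inl ⟨rfl, g⟩)))
  · have h2' : v2 = w2 + 1 := by omega
    subst h1; subst h2'
    rcases pvfj_cl1 c d w2 hcd with g | g
    · exact Or.inl ⟨rfl, g⟩
    · exact Or.inr (Or.inr (Or.inr (Or.inr ⟨rfl, by omega⟩)))

/-- a set with 4-connected complement, inside a box with a margin of one cell: the box minus the set is 4-connected -/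
theorem pvfj_box_conn (hab : a ≤ b) (hcd : c ≤ d) (hD : D ⊆ tscBox (a + 1) (b - 1) (c + 1) (d - 1)) (hc : TscConn pvtbG4 Dᶜ) : TscConn pvtbG4 (tscBox a b c d \ D) := by
  intro u hu v hv
  have key : ∀ x, TscR pvtbG4 Dᶜ u x → TscR pvtbG4 (tscBox a b c d \ D) (pvfjCl a b c d u) (pvfjCl a b c d x) := by
    intro x hx
    induction hx with
    | refl => exact tsc_R_refl _
    | tail _ st ih =>
      rcases pvfj_cl_adj hab hcd st.1 with h | h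
      · rw [← h]; exact ih
      · exact ih.tail ⟨h, pvfj_cl_mem hab hcd hD st.2.1, pvfj_cl_mem hab hcd hD st.2.2⟩
  have := key v (hc u hu.2 v hv.2)
  rwa [pvfj_cl_self hu.1, pvfj_cl_self hv.1] at this

theorem pvfj_box_wc (hD : D ⊆ tscBox (a + 1) (b - 1) (c + 1) (d - 1)) (hw : PvtbWC D) : PvtbWC (tscBox a b c d \ D) := by
  refine pvtb_wc_diff hw (pvtb_box_wc a b c d) ?_
  rintro x hx v ⟨-, g1, g2, g3, g4⟩
  obtain ⟨h1, h2, h3, h4⟩ := hD hx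
  exact ⟨by omega, by omega, by omega, by omega⟩

/-- the door is off the obstacle -/
theorem pvfj_A_off (hm : 10 ≤ m) (hd : PvfjDir e) (ho : y + e ∈ pvtbOut F0) : pvfjA m y e ∉ pvfjO m F0 :=
  pvfj_noz_off hd ho (by omega) ⟨by omega, by omega⟩ (by omega)

/-- the cell behind the door is in the obstacle -/
theorem pvfj_A_back (hm : 10 ≤ m) (hd : PvfjDir e) (hy : y ∈ pvtbHull F0) : pvtbPt m y e (m + 9) 0 ∈ pvfjO m F0 :=
  pvfj_noz_mem hd hy ⟨by omega, by omega⟩ ⟨by omega, by omega⟩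

theorem pvfj_A_adj (hd : PvfjDir e) : pvtbG4.Adj (pvtbPt m y e (m + 9) 0) (pvfjA m y e) := by
  have := pvfj_noz_adj (m := m) (y := y) (t := m + 9) (j := 0) hd
  rwa [show m + 9 + 1 = m + 10 by ring] at this

theorem pvfj_A_box (hm : 10 ≤ m) (hd : PvfjDir e) (hy : y ∈ pvtbHull F0) (hbox : pvfjO m F0 ⊆ tscBox (a + 1) (b - 1) (c + 1) (d - 1)) : pvfjA m y e ∈ tscBox a b c d := by
  obtain ⟨h1, h2, h3, h4⟩ := hbox (pvfj_A_back hm hd hy)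
  have h5 := (pvtb_G4_adj _ _).1 (pvfj_A_adj (m := m) (y := y) hd)
  exact ⟨by omega, by omega, by omega, by omega⟩

/-- **THE CLOSING CORRIDOR** -/
theorem pvfj_cor (hm : 10 ≤ m) (hfin : F0.Finite) (hbox : pvfjO m F0 ⊆ tscBox (a + 1) (b - 1) (c + 1) (d - 1))
    (hds : PvfjDir ds) (hdt : PvfjDir dt) (hys : ys ∈ pvtbHull F0) (hyt : yt ∈ pvtbHull F0) (hos : ys + ds ∈ pvtbOut F0) (hot : yt + dt ∈ pvtbOut F0) :
    ∃ (n : ℕ) (C : ℕ → ℤ × ℤ), PvtbCor n C ∧ C 0 = pvfjA m yt dt ∧ C n = pvfjA m ys ds ∧ ∀ i, i ≤ n → C i ∈ tscBox a b c d \ pvfjO m F0 := by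
  have hat : pvfjA m yt dt ∈ tscBox a b c d \ pvfjO m F0 := ⟨pvfj_A_box hm hdt hyt hbox, pvfj_A_off hm hdt hot⟩
  have has : pvfjA m ys ds ∈ tscBox a b c d \ pvfjO m F0 := ⟨pvfj_A_box hm hds hys hbox, pvfj_A_off hm hds hos⟩
  have hab : a ≤ b := hat.1.1.trans hat.1.2.1
  have hcd : c ≤ d := hat.1.2.2.1.trans hat.1.2.2.2
  have hco : TscConn pvtbG4 (pvfjO m F0)ᶜ := by
    refine pvtb_D_compl_conn (by omega) (by omega) (by omega) ?_
    rw [pvtb_hull_compl]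
    exact pvtb_out_conn hfin
  have hwc : PvtbWC (tscBox a b c d \ pvfjO m F0) := pvfj_box_wc hbox (pvtb_wc_D' (by omega) (by omega) _)
  exact pvtb_cor_exists hwc hat (pvfj_box_conn hab hcd hbox hco _ hat _ has)

/-- a cell off the obstacle is at sup-distance `≥ 4` from `T` -/
theorem pvfj_cor_far {Y : Set (ℤ × ℤ)} (hv : v ∈ pvfjT m F0 Y) (hw : w ∉ pvfjO m F0) : 3 < |w.1 - v.1| ∨ 3 < |w.2 - v.2| := by
  refine pvfj_D_gap hv.1 ?_
  rwa [show m + 6 + 3 = m + 9 by ring]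

end corridor

/-! ## 6. the white lane -/

section lane

variable {m : ℤ} {F0 Ys Yt : Set (ℤ × ℤ)} {y d ys ds yt dt v w : ℤ × ℤ}

theorem pvfj_H_facts (hm : 10 ≤ m) (hfin : F0.Finite) (hconn : TscConn pvtbG8 F0) : (pvfjH m F0).Finite ∧ TscConn tscG (pvfjH m F0) ∧ TscConn tscG (pvfjH m F0)ᶜ := by
  obtain ⟨h1, -, h3, h4, -⟩ := pvtb_poly (m := m) (r := m + 3) (by omega) (by omega) hfin hconn
  exact ⟨h1, fun u hu v hv => pvtb_R_le (fun _ _ => pvtb_G4_tri) (h3 u hu v hv), fun u hu v hv => pvtb_R_le (fun _ _ => pvtb_G4_tri) (h4 u hu v hv)⟩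

/-- the contour of `D_{m+3}(F)` meets the door of a tentacle -/
theorem pvfj_door_dart {Y : Set (ℤ × ℤ)} (hm : 10 ≤ m) (hd : PvfjDir d) (hyY : y ∈ Y) (hy : y ∈ pvtbHull F0) (ho : y + d ∈ pvtbOut F0) :
    ∃ x ∈ pvtrBd (pvfjH m F0), x.2 ∈ pvtbD (2 * m + 1) (m + 10) Y := by
  refine ⟨(pvtbPt m y d (m + 3) 0, pvtbPt m y d (m + 4) 0), ⟨?_, ?_, ?_⟩, ?_⟩
  · exact pvfj_noz_mem hd hy ⟨by omega, by omega⟩ ⟨by omega, by omega⟩
  · exact pvfj_noz_off hd ho (by omega) ⟨by omega, by omega⟩ (by omega)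
  · have := pvfj_noz_adj (m := m) (y := y) (t := m + 3) (j := 0) hd
    rw [show m + 3 + 1 = m + 4 by ring] at this
    exact pvtb_G4_tri this
  · exact pvfj_noz_mem hd hyY ⟨by omega, by omega⟩ ⟨by omega, by omega⟩

/-- **THE WHITE LANE**: the positive stretch of the contour of `D_{m+3}(F)` from the door of `Ys` to the door of `Yt` -/
theorem pvfj_lane (hm : 10 ≤ m) (hfin : F0.Finite) (hconn : TscConn pvtbG8 F0) (hds : PvfjDir ds) (hdt : PvfjDir dt) (hys : ys ∈ Ys) (hyt : yt ∈ Yt)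
    (hYs : Ys ⊆ pvtbHull F0) (hYt : Yt ⊆ pvtbHull F0) (hos : ys + ds ∈ pvtbOut F0) (hot : yt + dt ∈ pvtbOut F0) (apart : ∀ p ∈ Ys, ∀ q ∈ Yt, PvfjFar p q) :
    ∃ e l, PvtrLane (pvfjH m F0) (pvtbD (2 * m + 1) (m + 10) Ys) (pvtbD (2 * m + 1) (m + 10) Yt) e l ∧ 1 < l ∧
      TscConn tscG (pvtrArc (pvfjH m F0) e l) ∧
      pvtrArc (pvfjH m F0) e l ⊆ pvtbD (2 * m + 1) (m + 4) (pvtbHull F0) \ pvtbD (2 * m + 1) (m + 3) (pvtbHull F0) ∧
      Disjoint (pvtrArc (pvfjH m F0) e l) (pvtbD (2 * m + 1) (m + 10) (Ys ∪ Yt)) ∧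
      (∀ w ∈ pvtrArc (pvfjH m F0) e l, ∀ v : ℤ × ℤ, |v.1 - w.1| ≤ 2 → |v.2 - w.2| ≤ 2 → v ∈ pvfjT m F0 (Ys ∪ Yt)) ∧
      triAdj e.2 ((pvtrStep (pvfjH m F0))^[1] e).2 ∧ triAdj ((pvtrStep (pvfjH m F0))^[l - 1] e).2 ((pvtrStep (pvfjH m F0))^[l] e).2 := by
  obtain ⟨f1, f2, f3⟩ := pvfj_H_facts hm hfin hconn
  obtain ⟨e, l, L⟩ := pvtr_lane_exists (D₁ := pvtbD (2 * m + 1) (m + 10) Ys) (D₂ := pvtbD (2 * m + 1) (m + 10) Yt) f1 f2 f3
    (pvfj_door_dart hm hds hys (hYs hys) hos) (pvfj_door_dart hm hdt hyt (hYt hyt) hot)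
  have hd : Disjoint (pvtbD (2 * m + 1) (m + 10) Ys) (pvtbD (2 * m + 1) (m + 10) Yt) := pvfj_far_disj (by omega) apart (by omega)
  have hna : ∀ x ∈ pvtbD (2 * m + 1) (m + 10) Ys, ∀ y ∈ pvtbD (2 * m + 1) (m + 10) Yt, ¬ triAdj x y :=
    fun x hx y hy h => pvfj_far_nadj (by omega) apart (by omega) hx hy (pvtb_tri_G8 h)
  obtain ⟨n1, n2, n3⟩ := pvtr_lane_ends L hd hna
  have hsub : pvtrArc (pvfjH m F0) e l ⊆ pvtbD (2 * m + 1) (m + 4) (pvtbHull F0) \ pvtbD (2 * m + 1) (m + 3) (pvtbHull F0) := by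
    intro w hw
    obtain ⟨h1, b, hb, hwb⟩ := pvtr_arc_sub L.mem hw
    refine ⟨?_, h1⟩
    have := pvtb_D_collar hb (pvtb_tri_G8 (show tscG.Adj b w from hx_tri_symm _ _ hwb))
    rwa [show m + 3 + 1 = m + 4 by ring] at this
  have hoff : Disjoint (pvtrArc (pvfjH m F0) e l) (pvtbD (2 * m + 1) (m + 10) (Ys ∪ Yt)) := by
    rw [pvtb_D_union]
    exact pvtr_lane_off L
  refine ⟨e, l, L, n1, pvtr_arc_conn L.mem, hsub, hoff, ?_, n2, n3⟩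
  intro w hw v h1 h2
  refine ⟨?_, fun hv => ?_⟩
  · have := pvfj_D_fat (hsub hw).1 h1 h2
    rwa [show m + 4 + 2 = m + 6 by ring] at this
  · have := pvfj_D_fat (i := 2) (w := w) hv (by rw [abs_sub_comm]; exact h1) (by rw [abs_sub_comm]; exact h2)
    rw [show m + 8 + 2 = m + 10 by ring] at this
    exact Set.disjoint_left.1 hoff hw this

end lane

/-! ## 7. the bundle: `PvfjIn ⟹ PvfjOut` -/

/-- **THE INPUT OF TR19-P, CELL FORM**.   `F0 Ys Yt ys yt` in coarse cells, the box `[a,b] × [c,d]` in fine cells -/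
structure PvfjIn (m : ℤ) (F0 Ys Yt : Set (ℤ × ℤ)) (ys ds yt dt : ℤ × ℤ) (a b c d : ℤ) : Prop where
  m10 : 10 ≤ m
  fin : F0.Finite
  /-- arc + two plug bodies: one 8-connected set of coarse cells -/
  conn : TscConn pvtbG8 F0
  Ys_sub : Ys ⊆ F0
  Yt_sub : Yt ⊆ F0
  Ys_conn : TscConn pvtbG8 Ys
  Yt_conn : TscConn pvtbG8 Yt
  /-- the two closure-side tentacles do not touch -/
  apart : ∀ p ∈ Ys, ∀ q ∈ Yt, PvfjFar p q
  hds : PvfjDir ds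
  hdt : PvfjDir dt
  hys : ys ∈ Ys
  hyt : yt ∈ Yt
  /-- ACCESS (M8 (d) + `pvfj_access`) -/
  os : ys + ds ∈ pvtbOut F0
  ot : yt + dt ∈ pvtbOut F0
  box : pvfjO m F0 ⊆ tscBox (a + 1) (b - 1) (c + 1) (d - 1)

/-- **THE PATTERN, CELL FORM**: region `T = pvfjT m F0 (Ys ∪ Yt)`, closing corridor `C 0 .. C n` (from the door of `t` to the door of `s`), white lane `pvtrArc (pvfjH m F0) e l` -/
structure PvfjOut (m : ℤ) (F0 Ys Yt : Set (ℤ × ℤ)) (ys ds yt dt : ℤ × ℤ) (a b c d : ℤ) (n : ℕ) (C : ℕ → ℤ × ℤ) (e : (ℤ × ℤ) × (ℤ × ℤ)) (l : ℕ) : Prop where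
  T_fin : (pvfjT m F0 (Ys ∪ Yt)).Finite
  T_wc : PvtbWC (pvfjT m F0 (Ys ∪ Yt))
  /-- F6 REGION -/
  T_compl : TscConn pvtbG4 (pvfjT m F0 (Ys ∪ Yt))ᶜ
  T_box : pvfjT m F0 (Ys ∪ Yt) ⊆ tscBox (a + 1) (b - 1) (c + 1) (d - 1)
  /-- F7 -/
  T_core : ∀ p ∈ pvtbHull F0, (∀ q ∈ Ys ∪ Yt, PvfjFar p q) → pvtbD (2 * m + 1) (m + 6) {p} ⊆ pvfjT m F0 (Ys ∪ Yt)
  noz_s : ∀ t : ℤ, 0 ≤ t → t ≤ 2 * m + 1 → pvtbPt m ys ds t 0 ∉ pvfjT m F0 (Ys ∪ Yt)
  noz_t : ∀ t : ℤ, 0 ≤ t → t ≤ 2 * m + 1 → pvtbPt m yt dt t 0 ∉ pvfjT m F0 (Ys ∪ Yt)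
  cor : PvtbCor n C
  C_0 : C 0 = pvfjA m yt dt
  C_n : C n = pvfjA m ys ds
  C_in : ∀ i, i ≤ n → C i ∈ tscBox a b c d \ pvfjO m F0
  /-- sup-distance `≥ 4` between the corridor and `T` -/
  C_far : ∀ i, i ≤ n → ∀ v ∈ pvfjT m F0 (Ys ∪ Yt), 3 < |(C i).1 - v.1| ∨ 3 < |(C i).2 - v.2|
  lane : PvtrLane (pvfjH m F0) (pvtbD (2 * m + 1) (m + 10) Ys) (pvtbD (2 * m + 1) (m + 10) Yt) e l
  l_gt : 1 < l
  W_conn : TscConn tscG (pvtrArc (pvfjH m F0) e l)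
  W_sub : pvtrArc (pvfjH m F0) e l ⊆ pvtbD (2 * m + 1) (m + 4) (pvtbHull F0) \ pvtbD (2 * m + 1) (m + 3) (pvtbHull F0)
  W_off : Disjoint (pvtrArc (pvfjH m F0) e l) (pvtbD (2 * m + 1) (m + 10) (Ys ∪ Yt))
  /-- the lane has a collar of two cells inside `T` -/
  W_collar : ∀ w ∈ pvtrArc (pvfjH m F0) e l, ∀ v : ℤ × ℤ, |v.1 - w.1| ≤ 2 → |v.2 - w.2| ≤ 2 → v ∈ pvfjT m F0 (Ys ∪ Yt)
  W_first : triAdj e.2 ((pvtrStep (pvfjH m F0))^[1] e).2
  W_last : triAdj ((pvtrStep (pvfjH m F0))^[l - 1] e).2 ((pvtrStep (pvfjH m F0))^[l] e).2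

section bundle

variable {m a b c d : ℤ} {F0 Ys Yt : Set (ℤ × ℤ)} {ys ds yt dt : ℤ × ℤ}

theorem PvfjIn.hull_s (I : PvfjIn m F0 Ys Yt ys ds yt dt a b c d) : Ys ⊆ pvtbHull F0 := I.Ys_sub.trans pvtb_hull_sub

theorem PvfjIn.hull_t (I : PvfjIn m F0 Ys Yt ys ds yt dt a b c d) : Yt ⊆ pvtbHull F0 := I.Yt_sub.trans pvtb_hull_sub

/-- **TR19-P, CELL FORM** -/
theorem pvfj_fit (I : PvfjIn m F0 Ys Yt ys ds yt dt a b c d) : ∃ n C e l, PvfjOut m F0 Ys Yt ys ds yt dt a b c d n C e l := by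
  have hm := I.m10
  obtain ⟨n, C, c1, c2, c3, c4⟩ := pvfj_cor hm I.fin I.box I.hds I.hdt (I.hull_s I.hys) (I.hull_t I.hyt) I.os I.ot
  obtain ⟨e, l, w1, w2, w3, w4, w5, w6, w7, w8⟩ := pvfj_lane hm I.fin I.conn I.hds I.hdt I.hys I.hyt I.hull_s I.hull_t I.os I.ot I.apart
  refine ⟨n, C, e, l, ?_⟩
  exact
    { T_fin := pvfj_T_finite I.fin
      T_wc := pvfj_T_wc (by omega)
      T_compl := pvfj_T_compl_conn (by omega) I.fin I.Ys_conn I.Yt_conn I.hds I.hdt I.hys I.hyt I.os I.ot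
      T_box := fun v hv => I.box (pvtb_D_mono (by omega) (le_refl _) hv.1)
      T_core := fun p hp hfar => pvfj_core (by omega) hp hfar
      noz_s := fun t h0 h1 => pvfj_noz_off_T (by omega) I.hds (Or.inl I.hys) I.os ⟨h0, h1⟩
      noz_t := fun t h0 h1 => pvfj_noz_off_T (by omega) I.hdt (Or.inr I.hyt) I.ot ⟨h0, h1⟩
      cor := c1
      C_0 := c2
      C_n := c3
      C_in := c4
      C_far := fun i hi v hv => pvfj_cor_far hv (c4 i hi).2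
      lane := w1
      l_gt := w2
      W_conn := w3
      W_sub := w4
      W_off := w5
      W_collar := w6
      W_first := w7
      W_last := w8 }

end bundle

/-! ## 8. the word of the closing chain -/

theorem pvfj_adj4 {u v : ℤ × ℤ} (h : pvtbG4.Adj u v) : PvtAdj4 u v := by
  rw [pvtb_G4_adj] at h
  unfold PvtAdj4
  omega

/-- a path of cells given by a function is a word -/
theorem pvfj_path_word (N : ℕ) : ∀ f : ℕ → ℤ × ℤ, (∀ i, i < N + 1 → PvtAdj4 (f i) (f (i + 1))) → (∀ i, i < N → f (i + 2) ≠ f i) →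
    ∃ l : List PvtTurn, l.length = N ∧
      pvtCentres (pvtZ (f 1)) (pvtZ (f 1) - pvtZ (f 0)) l = ((List.range (N + 1)).map (fun i => f (i + 1))).map pvtZ ∧
      pvtDir (pvtZ (f 1) - pvtZ (f 0)) l = pvtZ (f (N + 1)) - pvtZ (f N) ∧
      pvtEnd (pvtZ (f 1)) (pvtZ (f 1) - pvtZ (f 0)) l = pvtZ (f (N + 1)) := by
  induction N with
  | zero =>
    intro f _ _
    exact ⟨[], rfl, by simp [pvtCentres], by simp [pvtDir], by simp [pvtEnd, pvtAcc]⟩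
  | succ N ih =>
    intro f hadj hnb
    obtain ⟨τ, hτ⟩ := pvt_turn_exists (hadj 0 (by omega)) (hadj 1 (by omega)) (hnb 0 (by omega))
    obtain ⟨l, h1, h2, h3, h4⟩ := ih (fun i => f (i + 1)) (fun i hi => hadj (i + 1) (by omega)) (fun i hi => hnb (i + 1) (by omega))
    simp only [zero_add] at h2 h3 h4 hτ
    have e : pvtZ (f 1) + (pvtZ (f 1) - pvtZ (f 0)) * τ.rot = pvtZ (f 2) := by rw [← hτ]; ring
    refine ⟨τ :: l, by simp [h1], ?_, ?_, ?_⟩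
    · show pvtZ (f 1) :: pvtCentres (pvtZ (f 1) + (pvtZ (f 1) - pvtZ (f 0)) * τ.rot) ((pvtZ (f 1) - pvtZ (f 0)) * τ.rot) l = _
      rw [e, ← hτ, h2, List.range_succ_eq_map (n := N + 1)]
      simp only [List.map_cons, List.map_map, zero_add]
      rfl
    · show pvtDir ((pvtZ (f 1) - pvtZ (f 0)) * τ.rot) l = _
      rw [← hτ, h3]
    · have : pvtEnd (pvtZ (f 1)) (pvtZ (f 1) - pvtZ (f 0)) (τ :: l) = pvtEnd (pvtZ (f 1) + (pvtZ (f 1) - pvtZ (f 0)) * τ.rot) ((pvtZ (f 1) - pvtZ (f 0)) * τ.rot) l := by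
        simp [pvtEnd, pvtAcc, add_assoc]
      rw [this, e, ← hτ, h4]

theorem pvfj_Z_add (u v : ℤ × ℤ) : pvtZ (u + v) = pvtZ u + pvtZ v := by
  simp only [pvtZ, Prod.fst_add, Prod.snd_add]
  push_cast
  ring

theorem pvfj_A_eq (m : ℤ) (y d : ℤ × ℤ) : pvfjA m y d = pvtbPt m y d (m + 9) 0 + d := by
  refine Prod.ext ?_ ?_
  · simp only [pvfjA, pvtbPt, Prod.fst_add]; ring
  · simp only [pvfjA, pvtbPt, Prod.snd_add]; ring


section word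

variable {m a b c d : ℤ} {F0 Ys Yt : Set (ℤ × ℤ)} {ys ds yt dt : ℤ × ℤ} {n l : ℕ} {C : ℕ → ℤ × ℤ} {e : (ℤ × ℤ) × (ℤ × ℤ)}

/-- **THE WORD**: one letter per cell `C 0, …, C n`; the chain is entered from the nozzle of `t` (frame `dt`) and left into the nozzle of `s` (frame `- ds`);
the displacement is measured from the midpoint of the entrance side of `C 0` to the midpoint of the exit side of `C n` -/
theorem pvfj_word (I : PvfjIn m F0 Ys Yt ys ds yt dt a b c d) (O : PvfjOut m F0 Ys Yt ys ds yt dt a b c d n C e l) :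
    ∃ w : List PvtTurn, w.length = n + 1 ∧
      pvtDisp (pvtZ dt) w = (pvtZ (pvfjA m ys ds) - pvtZ ds / 2) - (pvtZ (pvfjA m yt dt) - pvtZ dt / 2) ∧
      pvtDir (pvtZ dt) w = - pvtZ ds ∧
      pvtCentres (pvtZ (C 0)) (pvtZ dt) w = (((List.range (n + 1)).map C) ++ [pvtbPt m ys ds (m + 9) 0]).map pvtZ := by
  have hm := I.m10
  set bt := pvtbPt m yt dt (m + 9) 0 with hbt
  set bs := pvtbPt m ys ds (m + 9) 0 with hbs
  have hbtO : bt ∈ pvfjO m F0 := pvfj_A_back hm I.hdt (I.hull_t I.hyt)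
  have hbsO : bs ∈ pvfjO m F0 := pvfj_A_back hm I.hds (I.hull_s I.hys)
  have hne : bs ≠ bt := by
    have h1 : bs ∈ pvtbD (2 * m + 1) (m + 9) Ys := pvfj_noz_mem I.hds I.hys ⟨by omega, by omega⟩ ⟨by omega, by omega⟩
    have h2 : bt ∈ pvtbD (2 * m + 1) (m + 9) Yt := pvfj_noz_mem I.hdt I.hyt ⟨by omega, by omega⟩ ⟨by omega, by omega⟩
    intro e
    rw [e] at h1
    exact Set.disjoint_left.1 (pvfj_far_disj (by omega) I.apart (by omega)) h1 h2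
  have hCO : ∀ i, i ≤ n → C i ∉ pvfjO m F0 := fun i hi => (O.C_in i hi).2
  let f : ℕ → ℤ × ℤ := fun i => if i = 0 then bt else if i ≤ n + 1 then C (i - 1) else bs
  have f0 : f 0 = bt := rfl
  have fC : ∀ i, i ≤ n → f (i + 1) = C i := by
    intro i hi
    simp only [f]
    rw [if_neg (by omega), if_pos (by omega)]
    rfl
  have fl : f (n + 2) = bs := by
    simp only [f]
    rw [if_neg (by omega), if_neg (by omega)]
  have hadj : ∀ i, i < n + 1 + 1 → PvtAdj4 (f i) (f (i + 1)) := by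
    intro i hi
    rcases i with _ | j
    · rw [f0, fC 0 (by omega), O.C_0]
      exact pvfj_adj4 (pvfj_A_adj I.hdt)
    · rcases (by omega : j < n ∨ j = n) with hj | rfl
      · rw [fC j (by omega), fC (j + 1) (by omega)]
        exact pvfj_adj4 (O.cor.step j hj)
      · rw [fC j le_rfl, fl, O.C_n]
        exact pvfj_adj4 (pvfj_A_adj I.hds).symm
  have hnb : ∀ i, i < n + 1 → f (i + 2) ≠ f i := by
    intro i hi
    rcases i with _ | j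
    · rw [f0]
      rcases (by omega : 1 ≤ n ∨ n = 0) with hn | hn
      · rw [fC 1 hn]
        intro e
        exact hCO 1 hn (e ▸ hbtO)
      · subst hn
        rw [fl]
        exact hne
    · rw [fC j (by omega)]
      rcases (by omega : j + 2 ≤ n ∨ j + 1 = n) with hj | hj
      · rw [fC (j + 2) hj]
        exact O.cor.nb j hj
      · rw [show j + 1 + 2 = n + 2 by omega, fl]
        intro e
        exact hCO j (by omega) (e ▸ hbsO)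
  obtain ⟨w, w1, w2, w3, w4⟩ := pvfj_path_word (n + 1) f hadj hnb
  have e1 : f 1 = C 0 := fC 0 (by omega)
  have ed : pvtZ (f 1) - pvtZ (f 0) = pvtZ dt := by
    rw [e1, f0, O.C_0, pvfj_A_eq, pvfj_Z_add]
    ring
  have es : pvtZ (pvfjA m ys ds) = pvtZ bs + pvtZ ds := by rw [pvfj_A_eq, pvfj_Z_add]
  rw [ed, e1] at w2 w4
  rw [ed] at w3
  have fl' : f (n + 1 + 1) = bs := fl
  rw [fl', fC n le_rfl, O.C_n, es] at w3
  rw [fl'] at w4
  refine ⟨w, w1, ?_, ?_, ?_⟩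
  · rw [pvt_disp_eq_end (pvtZ (C 0)), w4, w3, es, O.C_0]
    ring
  · rw [w3]
    ring
  · rw [w2, List.range_succ (n := n + 1), List.map_append, List.map_cons, List.map_nil, fl']
    congr 2
    refine List.map_congr_left ?_
    intro i hi
    exact fC i (by have := List.mem_range.1 hi; omega)

end word

/-! ## 9. the pattern family of road P -/

/-- **THE PLUGS OF A MENU**, in COARSE cells (`= δ`-cells of `Tr/Menu`) centred at the pin.   `B` = body with both tentacles, `Ym` / `Yp` = the negative / positive tentacle off `O`, `(ym, dm)` / `(yp, dp)` = tip cell and direction of the nozzle.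
The start pin `s` of a pattern is closed through its NEGATIVE tentacle, the end pin `t` through its POSITIVE one. -/
structure PvfjPlug (τ : Type) where
  nB : ℕ
  B : τ → Set (ℤ × ℤ)
  Ym : τ → Set (ℤ × ℤ)
  Yp : τ → Set (ℤ × ℤ)
  ym : τ → ℤ × ℤ
  dm : τ → ℤ × ℤ
  yp : τ → ℤ × ℤ
  dp : τ → ℤ × ℤ

/-- facts of the menu alone -/
structure PvfjPlug.WF {τ : Type} (𝔓 : PvfjPlug τ) : Prop where
  B_box : ∀ t, 𝔓.B t ⊆ pvmnBox 𝔓.nB
  B_conn : ∀ t, TscConn pvtbG8 (𝔓.B t)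
  Ym_sub : ∀ t, 𝔓.Ym t ⊆ 𝔓.B t
  Yp_sub : ∀ t, 𝔓.Yp t ⊆ 𝔓.B t
  Ym_conn : ∀ t, TscConn pvtbG8 (𝔓.Ym t)
  Yp_conn : ∀ t, TscConn pvtbG8 (𝔓.Yp t)
  ym_mem : ∀ t, 𝔓.ym t ∈ 𝔓.Ym t
  yp_mem : ∀ t, 𝔓.yp t ∈ 𝔓.Yp t
  dm_dir : ∀ t, PvfjDir (𝔓.dm t)
  dp_dir : ∀ t, PvfjDir (𝔓.dp t)

/-- a set of cells moved to the centre `c` -/
def pvfjSh (c : ℤ × ℤ) (E : Set (ℤ × ℤ)) : Set (ℤ × ℤ) := (fun x => x + c) '' E

/-- **the coarse data of a pattern**: cells of the two centres, the two types, the coarse cells of the arc -/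
structure PvfjDat (τ : Type) where
  cs : ℤ × ℤ
  ts : τ
  ct : ℤ × ℤ
  tt : τ
  G : Finset (ℤ × ℤ)

namespace PvfjDat

variable {τ : Type} (𝔓 : PvfjPlug τ) (π : PvfjDat τ)

def F0 : Set (ℤ × ℤ) := pvtwN 2 (π.G : Set (ℤ × ℤ)) ∪ pvfjSh π.cs (𝔓.B π.ts) ∪ pvfjSh π.ct (𝔓.B π.tt)

def Ys : Set (ℤ × ℤ) := pvfjSh π.cs (𝔓.Ym π.ts)

def Yt : Set (ℤ × ℤ) := pvfjSh π.ct (𝔓.Yp π.tt)

/-- the data are admissible: the input of TR19-P holds, in the box of half side `n` FINE cells -/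
def In (m : ℤ) (n : ℕ) : Prop :=
  PvfjIn m (π.F0 𝔓) (π.Ys 𝔓) (π.Yt 𝔓) (𝔓.ym π.ts + π.cs) (𝔓.dm π.ts) (𝔓.yp π.tt + π.ct) (𝔓.dp π.tt) (-(n : ℤ)) n (-(n : ℤ)) n

end PvfjDat

/-- **THE PATTERNS OF ONE LEVEL** -/
def PvfjPat {τ : Type} (𝔓 : PvfjPlug τ) (m : ℤ) (n : ℕ) : Type := {π : PvfjDat τ // π.In 𝔓 m n}

theorem pvfj_eqns_cite2 : True := by
  have := @pvfjSh.eq_1
  have := @PvfjDat.F0.eq_1
  have := @PvfjDat.Ys.eq_1
  have := @PvfjDat.Yt.eq_1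
  have := @PvfjDat.In.eq_1
  have := @PvfjPat.eq_1
  trivial

/-- a coarse cell of the obstacle lies in the box (coarse cells against a box of fine cells) -/
theorem pvfj_F0_box {m a b c d : ℤ} {F0 : Set (ℤ × ℤ)} (hm : 0 ≤ m) (hbox : pvfjO m F0 ⊆ tscBox a b c d) {p : ℤ × ℤ} (hp : p ∈ F0) :
    a ≤ (2 * m + 1) * p.1 ∧ (2 * m + 1) * p.1 ≤ b ∧ c ≤ (2 * m + 1) * p.2 ∧ (2 * m + 1) * p.2 ≤ d := by
  have : ((2 * m + 1) * p.1, (2 * m + 1) * p.2) ∈ pvfjO m F0 := ⟨p, pvtb_hull_sub hp, by simp only; omega, by simp only; omega, by simp only; omega, by simp only; omega⟩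
  exact hbox this

theorem pvfj_abs_le {k x n : ℤ} (hk : 1 ≤ k) (hn : 0 ≤ n) (h1 : -n ≤ k * x) (h2 : k * x ≤ n) : -n ≤ x ∧ x ≤ n := by
  constructor
  · by_contra hc
    have : k * x ≤ 1 * x := mul_le_mul_of_nonpos_right hk (by omega)
    omega
  · by_contra hc
    have : 1 * x ≤ k * x := mul_le_mul_of_nonneg_right hk (by omega)
    omega


theorem pvfj_Pt_eq (δ : ℝ) (c : ℤ × ℤ) : pvmgPt δ c = (δ : ℂ) * pvtZ c := by
  apply Complex.ext <;> simp [pvmgPt, pvtZ] <;> ring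

theorem pvfj_A_shift (m : ℤ) (y c d : ℤ × ℤ) : pvtZ (pvfjA m (y + c) d) = pvtZ (pvfjA m y d) + (2 * (m : ℂ) + 1) * pvtZ c := by
  simp only [pvfjA, pvtbPt, pvtZ, Prod.fst_add, Prod.snd_add]
  push_cast
  ring


section family

variable {τ : Type} {𝔓 : PvfjPlug τ} {m : ℤ} {n : ℕ}

/-- the field `Pat_fin` -/
theorem pvfj_pat_finite [Finite τ] (h𝔓 : 𝔓.WF) : Finite (PvfjPat 𝔓 m n) := by
  classical
  have hB : (tscBox (-(n : ℤ)) n (-(n : ℤ)) n).Finite := tsc_box_finite _ _ _ _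
  have hB' : (tscBox (-((n : ℤ) + 𝔓.nB)) (n + 𝔓.nB) (-((n : ℤ) + 𝔓.nB)) (n + 𝔓.nB)).Finite := tsc_box_finite _ _ _ _
  have hP : ({G : Finset (ℤ × ℤ) | (G : Set (ℤ × ℤ)) ⊆ tscBox (-(n : ℤ)) n (-(n : ℤ)) n}).Finite := by
    refine (hB.toFinset.powerset.finite_toSet).subset ?_
    intro G hG
    simp only [Finset.coe_powerset, Set.mem_preimage, Set.mem_powerset_iff]
    intro x hx
    exact hB.mem_toFinset.2 (hG hx)
  have hS := ((hB'.prod (Set.finite_univ (α := τ))).prod ((hB'.prod (Set.finite_univ (α := τ))).prod hP)).image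
    (fun q : ((ℤ × ℤ) × τ) × ((ℤ × ℤ) × τ) × Finset (ℤ × ℤ) => (⟨q.1.1, q.1.2, q.2.1.1, q.2.1.2, q.2.2⟩ : PvfjDat τ))
  refine Set.Finite.to_subtype (s := {π : PvfjDat τ | π.In 𝔓 m n}) (hS.subset ?_)
  intro π hπ
  have I : PvfjIn m (π.F0 𝔓) (π.Ys 𝔓) (π.Yt 𝔓) (𝔓.ym π.ts + π.cs) (𝔓.dm π.ts) (𝔓.yp π.tt + π.ct) (𝔓.dp π.tt) (-(n : ℤ)) n (-(n : ℤ)) n := hπ
  have hm := I.m10
  have key : ∀ p ∈ π.F0 𝔓, p ∈ tscBox (-(n : ℤ)) n (-(n : ℤ)) n := by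
    intro p hp
    obtain ⟨h1, h2, h3, h4⟩ := pvfj_F0_box (by omega) I.box hp
    obtain ⟨g1, g2⟩ := pvfj_abs_le (k := 2 * m + 1) (x := p.1) (n := n) (by omega) (by omega) (by omega) (by omega)
    obtain ⟨g3, g4⟩ := pvfj_abs_le (k := 2 * m + 1) (x := p.2) (n := n) (by omega) (by omega) (by omega) (by omega)
    exact ⟨g1, g2, g3, g4⟩
  refine ⟨((π.cs, π.ts), (π.ct, π.tt), π.G), ⟨⟨?_, Set.mem_univ _⟩, ⟨?_, Set.mem_univ _⟩, ?_⟩, rfl⟩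
  · obtain ⟨h1, h2, h3, h4⟩ := key _ (I.Ys_sub I.hys)
    obtain ⟨g1, g2, g3, g4⟩ := h𝔓.B_box _ (h𝔓.Ym_sub _ (h𝔓.ym_mem π.ts))
    simp only [Prod.fst_add, Prod.snd_add] at h1 h2 h3 h4
    show π.cs ∈ tscBox _ _ _ _
    exact ⟨by omega, by omega, by omega, by omega⟩
  · obtain ⟨h1, h2, h3, h4⟩ := key _ (I.Yt_sub I.hyt)
    obtain ⟨g1, g2, g3, g4⟩ := h𝔓.B_box _ (h𝔓.Yp_sub _ (h𝔓.yp_mem π.tt))
    simp only [Prod.fst_add, Prod.snd_add] at h1 h2 h3 h4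
    show π.ct ∈ tscBox _ _ _ _
    exact ⟨by omega, by omega, by omega, by omega⟩
  · intro x hx
    exact key x (Or.inl (Or.inl (pvtw_N_sub hx)))

/-- corridor, lane and word of a pattern: CHOSEN once for all, functions of the coarse data -/
theorem pvfj_pat_out (π : PvfjPat 𝔓 m n) : ∃ (N : ℕ) (C : ℕ → ℤ × ℤ) (e : (ℤ × ℤ) × (ℤ × ℤ)) (l : ℕ) (w : List PvtTurn),
    PvfjOut m (π.1.F0 𝔓) (π.1.Ys 𝔓) (π.1.Yt 𝔓) (𝔓.ym π.1.ts + π.1.cs) (𝔓.dm π.1.ts) (𝔓.yp π.1.tt + π.1.ct) (𝔓.dp π.1.tt) (-(n : ℤ)) n (-(n : ℤ)) n N C e l ∧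
    w.length = N + 1 ∧
    pvtDisp (pvtZ (𝔓.dp π.1.tt)) w = (pvtZ (pvfjA m (𝔓.ym π.1.ts + π.1.cs) (𝔓.dm π.1.ts)) - pvtZ (𝔓.dm π.1.ts) / 2)
      - (pvtZ (pvfjA m (𝔓.yp π.1.tt + π.1.ct) (𝔓.dp π.1.tt)) - pvtZ (𝔓.dp π.1.tt) / 2) ∧
    pvtDir (pvtZ (𝔓.dp π.1.tt)) w = - pvtZ (𝔓.dm π.1.ts) ∧
    pvtCentres (pvtZ (C 0)) (pvtZ (𝔓.dp π.1.tt)) w = (((List.range (N + 1)).map C) ++ [pvtbPt m (𝔓.ym π.1.ts + π.1.cs) (𝔓.dm π.1.ts) (m + 9) 0]).map pvtZ := by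
  obtain ⟨N, C, e, l, O⟩ := pvfj_fit π.2
  obtain ⟨w, h⟩ := pvfj_word π.2 O
  exact ⟨N, C, e, l, w, O, h⟩

noncomputable def PvfjPat.N (π : PvfjPat 𝔓 m n) : ℕ := (pvfj_pat_out π).choose
noncomputable def PvfjPat.C (π : PvfjPat 𝔓 m n) : ℕ → ℤ × ℤ := (pvfj_pat_out π).choose_spec.choose
noncomputable def PvfjPat.e (π : PvfjPat 𝔓 m n) : (ℤ × ℤ) × (ℤ × ℤ) := (pvfj_pat_out π).choose_spec.choose_spec.choose
noncomputable def PvfjPat.l (π : PvfjPat 𝔓 m n) : ℕ := (pvfj_pat_out π).choose_spec.choose_spec.choose_spec.choose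
noncomputable def PvfjPat.w (π : PvfjPat 𝔓 m n) : List PvtTurn := (pvfj_pat_out π).choose_spec.choose_spec.choose_spec.choose_spec.choose

theorem PvfjPat.spec (π : PvfjPat 𝔓 m n) :
    PvfjOut m (π.1.F0 𝔓) (π.1.Ys 𝔓) (π.1.Yt 𝔓) (𝔓.ym π.1.ts + π.1.cs) (𝔓.dm π.1.ts) (𝔓.yp π.1.tt + π.1.ct) (𝔓.dp π.1.tt) (-(n : ℤ)) n (-(n : ℤ)) n π.N π.C π.e π.l ∧
    π.w.length = π.N + 1 ∧
    pvtDisp (pvtZ (𝔓.dp π.1.tt)) π.w = (pvtZ (pvfjA m (𝔓.ym π.1.ts + π.1.cs) (𝔓.dm π.1.ts)) - pvtZ (𝔓.dm π.1.ts) / 2)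
      - (pvtZ (pvfjA m (𝔓.yp π.1.tt + π.1.ct) (𝔓.dp π.1.tt)) - pvtZ (𝔓.dp π.1.tt) / 2) ∧
    pvtDir (pvtZ (𝔓.dp π.1.tt)) π.w = - pvtZ (𝔓.dm π.1.ts) ∧
    pvtCentres (pvtZ (π.C 0)) (pvtZ (𝔓.dp π.1.tt)) π.w = (((List.range (π.N + 1)).map π.C) ++ [pvtbPt m (𝔓.ym π.1.ts + π.1.cs) (𝔓.dm π.1.ts) (m + 9) 0]).map pvtZ :=
  (pvfj_pat_out π).choose_spec.choose_spec.choose_spec.choose_spec.choose_spec

/-- the field `pat`: `δ` = side of a COARSE cell; the centre of the pin is the corner `pvmgPt δ c` of the coarse cell `c` -/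
noncomputable def PvfjPat.pat (δ : ℝ) (π : PvfjPat 𝔓 m n) : PvtsPat τ := ⟨pvmgPt δ π.1.cs, π.1.ts, pvmgPt δ π.1.ct, π.1.tt, π.w⟩

/-- THE DOOR POINT of the nozzle `(y, d)`: the midpoint of the side between the nozzle cells number `m + 9` and `m + 10` (= the entrance side of the door cell `pvfjA m y d`), relative to the centre of the pin; the fine cell `v` is the square of side `δ / (2m+1)` with lower left corner `(δ / (2m+1)) (v + m (1 + i))` -/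
noncomputable def pvfjDoor (m : ℤ) (δ : ℝ) (y d : ℤ × ℤ) : ℂ :=
  ((δ / (2 * (m : ℝ) + 1) : ℝ) : ℂ) * (pvtZ (pvfjA m y d) - pvtZ d / 2 + (((m : ℝ) + 1 / 2 : ℝ) : ℂ) * (1 + Complex.I))

/-- **the field `pat_ok`**: for the doors of record `pout t = pvfjDoor m δ (yp t) (dp t)`, `dout t = dp t`, `pin t = pvfjDoor m δ (ym t) (dm t)`, `din t = - dm t`, mesh of the chain `δ / (2m+1)` -/
theorem pvfj_pat_ok {δ : ℝ} (Γ : PvtsGeo τ) (hm : 0 ≤ m) (hδ : Γ.δ = δ / (2 * (m : ℝ) + 1))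
    (hpo : ∀ t, Γ.pout t = pvfjDoor m δ (𝔓.yp t) (𝔓.dp t)) (hdo : ∀ t, Γ.dout t = pvtZ (𝔓.dp t))
    (hpi : ∀ t, Γ.pin t = pvfjDoor m δ (𝔓.ym t) (𝔓.dm t)) (hdi : ∀ t, Γ.din t = - pvtZ (𝔓.dm t)) (π : PvfjPat 𝔓 m n) : Γ.Ok (π.pat δ) := by
  obtain ⟨-, -, h3, h4, -⟩ := π.spec
  have hk : (2 * (m : ℂ) + 1) ≠ 0 := by
    have h0 : (0 : ℝ) ≤ (m : ℝ) := by exact_mod_cast hm
    have h1 : (2 * (m : ℝ) + 1) ≠ 0 := by positivity
    exact_mod_cast h1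
  constructor
  · show (Γ.δ : ℂ) * pvtDisp (Γ.dout π.1.tt) π.w = (pvmgPt δ π.1.cs + Γ.pin π.1.ts) - (pvmgPt δ π.1.ct + Γ.pout π.1.tt)
    rw [hdo, h3, hpi, hpo, hδ, pvfj_A_shift, pvfj_A_shift, pvfj_Pt_eq, pvfj_Pt_eq, pvfjDoor, pvfjDoor]
    push_cast
    field_simp
    ring
  · show pvtDir (Γ.dout π.1.tt) π.w = Γ.din π.1.ts
    rw [hdo, h4, hdi]

end family

/-! ## 10. FIT: the hypothesis `fit` of `pvtv_cover_field_nr` -/

/-- **the field `Fit`**: centres, types, and `G` = the coarse cells met by the arc `P[idx s, idx t]`.   THE PATTERN IS A FUNCTION OF `(P, s, t)`. -/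
def PvfjFit {τ : Type} (δ : ℝ) (P : PvbRim) (s t : PvbPin τ) (π : PvfjDat τ) : Prop :=
  s.ctr = pvmgPt δ π.cs ∧ s.typ = π.ts ∧ t.ctr = pvmgPt δ π.ct ∧ t.typ = π.tt ∧ (π.G : Set (ℤ × ℤ)) = pvtCells δ (pvtxPoly P.v s.idx t.idx)

/-- the obstacle of the pair `(s, t)` of the rim `P`, in coarse cells -/
def pvfjF0 {τ : Type} (𝔓 : PvfjPlug τ) (δ : ℝ) (P : PvbRim) (s t : PvbPin τ) (cs ct : ℤ × ℤ) : Set (ℤ × ℤ) :=
  pvtwN 2 (pvtCells δ (pvtxPoly P.v s.idx t.idx)) ∪ pvfjSh cs (𝔓.B s.typ) ∪ pvfjSh ct (𝔓.B t.typ)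

/-- **THE METRIC CONTRACT** (M7, M8 (c) (d) of the two pins + (NR), (OUT) of the arc): what FIT asks of an (A1) pair.   `k` = half side, in COARSE cells, of a box CENTRED AT `0` which contains the obstacle (only for the finiteness of the family); the witnesses leave ANY box of the obstacle (236).
PRODUCERS: `touch` = M7 (i) (the pin vertex lies in the body);  `apart` = the pins are `R/3` apart;  `wit` = the cells of the actual continuations `γ^∓` after the tips (M8 (d): `pvmf_access_m`, `pvmf_access_p`; (NR): `PvtvPolyIn.nr_b nr_f off_s off_t`) joined to the FIXED door front;  `box` = `PvtvPair.arc`. -/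
structure PvfjMet {τ : Type} (𝔓 : PvfjPlug τ) (δ : ℝ) (k : ℕ) (P : PvbRim) (s t : PvbPin τ) (cs ct : ℤ × ℤ) : Prop where
  cs_eq : s.ctr = pvmgPt δ cs
  ct_eq : t.ctr = pvmgPt δ ct
  touch_s : ∃ c ∈ pvtCells δ (pvtxPoly P.v s.idx t.idx), c ∈ pvfjSh cs (𝔓.B s.typ)
  touch_t : ∃ c ∈ pvtCells δ (pvtxPoly P.v s.idx t.idx), c ∈ pvfjSh ct (𝔓.B t.typ)
  apart : ∀ p ∈ pvfjSh cs (𝔓.Ym s.typ), ∀ q ∈ pvfjSh ct (𝔓.Yp t.typ), PvfjFar p q
  box : pvfjF0 𝔓 δ P s t cs ct ⊆ pvmnBox k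
  wit_s : ∃ W : Set (ℤ × ℤ), TscConn pvtbG4 W ∧ Disjoint W (pvfjF0 𝔓 δ P s t cs ct) ∧ 𝔓.ym s.typ + cs + 𝔓.dm s.typ ∈ W ∧
    ∃ a b c d : ℤ, pvfjF0 𝔓 δ P s t cs ct ⊆ tscBox a b c d ∧ ∃ w ∈ W, w ∉ tscBox a b c d
  wit_t : ∃ W : Set (ℤ × ℤ), TscConn pvtbG4 W ∧ Disjoint W (pvfjF0 𝔓 δ P s t cs ct) ∧ 𝔓.yp t.typ + ct + 𝔓.dp t.typ ∈ W ∧
    ∃ a b c d : ℤ, pvfjF0 𝔓 δ P s t cs ct ⊆ tscBox a b c d ∧ ∃ w ∈ W, w ∉ tscBox a b c d

theorem pvfj_eqns_cite3 : True := by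
  have := @PvfjFit.eq_1
  have := @pvfjF0.eq_1
  have := @pvfjDoor.eq_1
  have := @PvfjPat.pat.eq_1
  trivial

theorem pvfj_sh_conn {c : ℤ × ℤ} {E : Set (ℤ × ℤ)} (h : TscConn pvtbG8 E) : TscConn pvtbG8 (pvfjSh c E) := by
  refine pvmg_conn_map (Equiv.addRight c) ?_ h
  intro u v huv
  rw [pvtb_G8_adj] at huv ⊢
  obtain ⟨h0, h1, h2, h3, h4⟩ := huv
  refine ⟨fun e => h0 (add_right_cancel e), ?_, ?_, ?_, ?_⟩ <;> simp only [Equiv.coe_addRight, Prod.fst_add, Prod.snd_add] <;> omega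

theorem pvfj_sh_mono {c : ℤ × ℤ} {E E' : Set (ℤ × ℤ)} (h : E ⊆ E') : pvfjSh c E ⊆ pvfjSh c E' := Set.image_mono h

theorem pvfj_sh_mem {c x : ℤ × ℤ} {E : Set (ℤ × ℤ)} (h : x ∈ E) : x + c ∈ pvfjSh c E := ⟨x, h, rfl⟩

/-- the fattened blocks of a set of coarse cells inside a box -/
theorem pvfj_D_box {m r : ℤ} {k : ℕ} {F : Set (ℤ × ℤ)} (hm : 0 ≤ m) (hF : F ⊆ pvmnBox k) :
    pvtbD (2 * m + 1) r F ⊆ tscBox (-((2 * m + 1) * k + r)) ((2 * m + 1) * k + r) (-((2 * m + 1) * k + r)) ((2 * m + 1) * k + r) := by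
  rintro v ⟨p, hp, h1, h2, h3, h4⟩
  obtain ⟨g1, g2, g3, g4⟩ := hF hp
  have a1 : (2 * m + 1) * p.1 ≤ (2 * m + 1) * k := mul_le_mul_of_nonneg_left g2 (by omega)
  have a2 : (2 * m + 1) * (-(k : ℤ)) ≤ (2 * m + 1) * p.1 := mul_le_mul_of_nonneg_left g1 (by omega)
  have a3 : (2 * m + 1) * p.2 ≤ (2 * m + 1) * k := mul_le_mul_of_nonneg_left g4 (by omega)
  have a4 : (2 * m + 1) * (-(k : ℤ)) ≤ (2 * m + 1) * p.2 := mul_le_mul_of_nonneg_left g3 (by omega)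
  rw [mul_neg] at a2 a4
  exact ⟨by omega, by omega, by omega, by omega⟩


section roof

variable {τ : Type} {𝔓 : PvfjPlug τ} {m : ℤ} {n k : ℕ} {δ : ℝ} {P : PvbRim} {s t : PvbPin τ} {cs ct : ℤ × ℤ}

/-- **TR19-P**: the metric contract gives a pattern of the family which the pair fits -/
theorem pvfj_met_fit (h𝔓 : 𝔓.WF) (hδ : 0 < δ) (hm : 10 ≤ m) (hn : (2 * m + 1) * (k + 1) + 1 ≤ n) (M : PvfjMet 𝔓 δ k P s t cs ct) :
    ∃ π : PvfjPat 𝔓 m n, PvfjFit δ P s t π.1 := by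
  classical
  have hGf : (pvtCells δ (pvtxPoly P.v s.idx t.idx)).Finite := pvt_cells_finite hδ (pvtx_poly_bounded _ _ _)
  have hGc : TscConn pvtbG8 (pvtwN 2 (pvtCells δ (pvtxPoly P.v s.idx t.idx))) := fun u hu v hv =>
    pvtb_R_le (fun _ _ => pvtb_tri_G8) (pvtw_N_conn (pvt_cells_conn hδ (pvtx_poly_preconn _ _ _) (pvtx_poly_bounded _ _ _)) u hu v hv)
  set π0 : PvfjDat τ := ⟨cs, s.typ, ct, t.typ, hGf.toFinset⟩ with hπ0
  have hF : π0.F0 𝔓 = pvfjF0 𝔓 δ P s t cs ct := by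
    simp only [PvfjDat.F0, pvfjF0, hπ0, Set.Finite.coe_toFinset]
  have hbx : pvfjF0 𝔓 δ P s t cs ct ⊆ tscBox (-(k : ℤ)) k (-(k : ℤ)) k := M.box
  have hI : π0.In 𝔓 m n := by
    unfold PvfjDat.In
    rw [hF]
    exact
      { m10 := hm
        fin := (tsc_box_finite _ _ _ _).subset hbx
        conn := by
          obtain ⟨c1, hc1, hc1'⟩ := M.touch_s
          obtain ⟨c2, hc2, hc2'⟩ := M.touch_t
          exact tsc_conn_union (tsc_conn_union hGc (pvfj_sh_conn (h𝔓.B_conn _)) (pvtw_N_sub hc1) hc1' (Or.inl rfl)) (pvfj_sh_conn (h𝔓.B_conn _))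
            (Or.inl (pvtw_N_sub hc2)) hc2' (Or.inl rfl)
        Ys_sub := fun x hx => Or.inl (Or.inr (pvfj_sh_mono (h𝔓.Ym_sub _) hx))
        Yt_sub := fun x hx => Or.inr (pvfj_sh_mono (h𝔓.Yp_sub _) hx)
        Ys_conn := pvfj_sh_conn (h𝔓.Ym_conn _)
        Yt_conn := pvfj_sh_conn (h𝔓.Yp_conn _)
        apart := M.apart
        hds := h𝔓.dm_dir _
        hdt := h𝔓.dp_dir _
        hys := pvfj_sh_mem (h𝔓.ym_mem _)
        hyt := pvfj_sh_mem (h𝔓.yp_mem _)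
        os := by
          obtain ⟨W, w1, w2, w3, a, b, c, d, hb, w, w4, w5⟩ := M.wit_s
          exact pvfj_access w1 w2 hb w4 w5 w3
        ot := by
          obtain ⟨W, w1, w2, w3, a, b, c, d, hb, w, w4, w5⟩ := M.wit_t
          exact pvfj_access w1 w2 hb w4 w5 w3
        box := by
          intro v hv
          obtain ⟨h1, h2, h3, h4⟩ := pvfj_D_box (k := k) (by omega) (pvtb_hull_box hbx) hv
          have e : (2 * m + 1) * ((k : ℤ) + 1) = (2 * m + 1) * k + (2 * m + 1) := by ring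
          exact ⟨by omega, by omega, by omega, by omega⟩ }
  exact ⟨⟨π0, hI⟩, M.cs_eq, rfl, M.ct_eq, rfl, by simp only [hπ0, Set.Finite.coe_toFinset]⟩

theorem pvfj_fit_s {π : PvfjPat 𝔓 m n} (h : PvfjFit δ P s t π.1) : s.ctr = (π.pat δ).zs ∧ s.typ = (π.pat δ).ts := ⟨h.1, h.2.1⟩

theorem pvfj_fit_t {π : PvfjPat 𝔓 m n} (h : PvfjFit δ P s t π.1) : t.ctr = (π.pat δ).zt ∧ t.typ = (π.pat δ).tt := ⟨h.2.2.1, h.2.2.2.1⟩

/-- F7 for the actual arc: a point of the arc whose coarse cell is far from the two closure-side tentacles lies, with the `6`-collar of its coarse block, in `T` -/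
theorem pvfj_fit_core {π : PvfjPat 𝔓 m n} (h : PvfjFit δ P s t π.1) {p : ℂ} {c : ℤ × ℤ} (hp : p ∈ pvtxPoly P.v s.idx t.idx) (hc : p ∈ pvtSq δ c)
    (hfar : ∀ q ∈ π.1.Ys 𝔓 ∪ π.1.Yt 𝔓, PvfjFar c q) : pvtbD (2 * m + 1) (m + 6) {c} ⊆ pvfjT m (π.1.F0 𝔓) (π.1.Ys 𝔓 ∪ π.1.Yt 𝔓) := by
  refine π.spec.1.T_core c (pvtb_hull_sub (Or.inl (Or.inl (pvtw_N_sub ?_)))) hfar
  rw [h.2.2.2.2]
  exact ⟨p, hc, hp⟩

end roof

/-! ## 11. THE PLUGS OF THE MENU (type-level half of `PvfjMet`; prefix `pvfjm_`) -/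

section kit4

variable {E S A : Set (ℤ × ℤ)} {z w a b : ℤ × ℤ}

/-- inside the `3 × 3` block of a cell of `E` -/
theorem pvfjm_N1_star (hz : z ∈ E) (hw : w ∈ pvtwN 1 {z}) : TscR pvtbG4 (pvtwN 1 E) z w := by
  obtain ⟨z0, hz0, h1, h2, h3, h4⟩ := hw
  obtain rfl : z0 = z := hz0
  have hzN : z0 ∈ pvtwN 1 E := pvtw_N_sub hz
  have hmid : (w.1, z0.2) ∈ pvtwN 1 E := ⟨z0, hz, h1, h2, by simp only; omega, by simp only; omega⟩
  have hwN : w ∈ pvtwN 1 E := ⟨z0, hz, h1, h2, h3, h4⟩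
  have s1 : TscR pvtbG4 (pvtwN 1 E) z0 (w.1, z0.2) := by
    rcases (by omega : w.1 = z0.1 ∨ w.1 = z0.1 + 1 ∨ w.1 = z0.1 - 1) with e | e | e
    · rw [e]
      exact tsc_R_refl _
    · exact tsc_R_step ((pvtb_G4_adj _ _).2 (Or.inl ⟨e, rfl⟩)) hzN hmid
    · exact tsc_R_step ((pvtb_G4_adj _ _).2 (Or.inr (Or.inl ⟨e, rfl⟩))) hzN hmid
  have s2 : TscR pvtbG4 (pvtwN 1 E) (w.1, z0.2) w := by
    rcases (by omega : w.2 = z0.2 ∨ w.2 = z0.2 + 1 ∨ w.2 = z0.2 - 1) with e | e | e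
    · rw [← e]
      exact tsc_R_refl _
    · exact tsc_R_step ((pvtb_G4_adj _ _).2 (Or.inr (Or.inr (Or.inl ⟨rfl, e⟩)))) hmid hwN
    · exact tsc_R_step ((pvtb_G4_adj _ _).2 (Or.inr (Or.inr (Or.inr ⟨rfl, e⟩)))) hmid hwN
  exact tsc_R_trans s1 s2

/-- the 1-collar of an 8-connected set is 4-CONNECTED -/
theorem pvfjm_N1_conn4 (hE : TscConn pvtbG8 E) : TscConn pvtbG4 (pvtwN 1 E) := by
  have key : ∀ x ∈ E, ∀ y, TscR pvtbG8 E x y → TscR pvtbG4 (pvtwN 1 E) x y := by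
    intro x hx y h
    induction h with
    | refl => exact tsc_R_refl _
    | tail _ st ih =>
      obtain ⟨-, g1, g2, g3, g4⟩ := (pvtb_G8_adj _ _).1 st.1
      exact tsc_R_trans ih (pvfjm_N1_star st.2.1 ⟨_, rfl, by omega, by omega, by omega, by omega⟩)
  rintro u ⟨x, hx, hu⟩ v ⟨y, hy, hv⟩
  exact tsc_R_trans (tsc_R_symm (pvfjm_N1_star hx ⟨x, rfl, hu⟩)) (tsc_R_trans (key x hx y (hE x hx y hy)) (pvfjm_N1_star hy ⟨y, rfl, hv⟩))

theorem pvfjm_dir_of_adj (h : pvtbG4.Adj z w) : PvfjDir (w - z) := by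
  rw [pvtb_G4_adj] at h
  unfold PvfjDir
  rcases h with ⟨h1, h2⟩ | ⟨h1, h2⟩ | ⟨h1, h2⟩ | ⟨h1, h2⟩
  · exact Or.inl (Prod.ext (by simp only [Prod.fst_sub]; omega) (by simp only [Prod.snd_sub]; omega))
  · exact Or.inr (Or.inl (Prod.ext (by simp only [Prod.fst_sub]; omega) (by simp only [Prod.snd_sub]; omega)))
  · exact Or.inr (Or.inr (Or.inl (Prod.ext (by simp only [Prod.fst_sub]; omega) (by simp only [Prod.snd_sub]; omega))))
  · exact Or.inr (Or.inr (Or.inr (Prod.ext (by simp only [Prod.fst_sub]; omega) (by simp only [Prod.snd_sub]; omega))))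

/-- **FIRST HIT**: in a 4-connected set `S`, from `a ∉ A` to `b ∈ A`: a cell `y ∈ S ∩ A` with a side neighbour in the 4-component of `a` in `S \ A` -/
theorem pvfjm_first_hit (hS : TscConn pvtbG4 S) (ha : a ∈ S) (haA : a ∉ A) (hb : b ∈ S) (hbA : b ∈ A) :
    ∃ y d : ℤ × ℤ, PvfjDir d ∧ y ∈ S ∩ A ∧ y + d ∈ tscComp pvtbG4 (S \ A) a := by
  have key : ∀ x, TscR pvtbG4 S a x → x ∈ tscComp pvtbG4 (S \ A) a ∨ ∃ y d : ℤ × ℤ, PvfjDir d ∧ y ∈ S ∩ A ∧ y + d ∈ tscComp pvtbG4 (S \ A) a := by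
    intro x h
    induction h with
    | refl => exact Or.inl (tsc_comp_self ⟨ha, haA⟩)
    | @tail x x' _ st ih =>
      rcases ih with ih | ih
      · by_cases hx' : x' ∈ A
        · refine Or.inr ⟨x', x - x', pvfjm_dir_of_adj st.1.symm, ⟨st.2.2, hx'⟩, ?_⟩
          rwa [add_sub_cancel]
        · exact Or.inl (tsc_comp_adj ih ⟨st.2.2, hx'⟩ st.1)
      · exact Or.inr ih
  rcases key b (hS a ha b hb) with h | h
  · exact absurd hbA (tsc_comp_sub _ h).2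
  · exact h

end kit4

/-- the part of the collar of the LAST piece `L` which is joined to the tip cell `q` off the 8-collar of the REST `R` of the pieces -/
def pvfjmE (L R : Set (ℤ × ℤ)) (q : ℤ × ℤ) : Set (ℤ × ℤ) := tscComp pvtbG4 (pvtwN 1 L \ pvtwN 8 R) q

/-- `(y, d)` is a door: `y` in the 8-collar of the rest (and in the 1-collar of the last piece), `y + d` in `E` -/
def PvfjmIsDoor (L R : Set (ℤ × ℤ)) (q : ℤ × ℤ) (p : (ℤ × ℤ) × (ℤ × ℤ)) : Prop :=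
  PvfjDir p.2 ∧ p.1 ∈ pvtwN 1 L ∩ pvtwN 8 R ∧ p.1 + p.2 ∈ pvfjmE L R q

open Classical in
/-- **THE DOOR**: a function of `(L, R, q)`, that is of the TYPE -/
noncomputable def pvfjmDoor (L R : Set (ℤ × ℤ)) (q : ℤ × ℤ) : (ℤ × ℤ) × (ℤ × ℤ) :=
  if h : ∃ p, PvfjmIsDoor L R q p then h.choose else ((0, 0), (1, 0))

/-- the body: ball part, 6-tube of the two central pieces, 8-tube of the pieces `1..8` (it CONTAINS the windows of the plug: black tubes `N²`, lanes = layer 5 of `K3`, their 1-collars; request of 114).   THE LAST PIECES `C 0`, `C 9` ARE NOT IN THE BODY: they are part of the witnesses. -/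
def pvfjmB (𝔑 : PvmnNum) (τ : PvmnType) : Set (ℤ × ℤ) := pvmnBl 𝔑.rB ∪ pvtwN 6 (pvmnCells τ 4 5) ∪ pvtwN 8 (pvmnCells τ 1 8)

def pvfjmEp (τ : PvmnType) : Set (ℤ × ℤ) := pvfjmE (τ.C 9 : Set (ℤ × ℤ)) (pvmnCells τ 0 8) (τ.q 10)

def pvfjmEm (τ : PvmnType) : Set (ℤ × ℤ) := pvfjmE (τ.C 0 : Set (ℤ × ℤ)) (pvmnCells τ 1 9) (τ.q 0)

noncomputable def pvfjmDp (τ : PvmnType) : (ℤ × ℤ) × (ℤ × ℤ) := pvfjmDoor (τ.C 9 : Set (ℤ × ℤ)) (pvmnCells τ 0 8) (τ.q 10)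

noncomputable def pvfjmDm (τ : PvmnType) : (ℤ × ℤ) × (ℤ × ℤ) := pvfjmDoor (τ.C 0 : Set (ℤ × ℤ)) (pvmnCells τ 1 9) (τ.q 0)

/-- **THE PLUGS OF THE MENU** (`ty` = projection of the menu of record onto the types of `Tr/Menu`) -/
noncomputable def pvfjmPlug (𝔑 : PvmnNum) {τ : Type} (ty : τ → PvmnType) : PvfjPlug τ where
  nB := 𝔑.nBx + 8
  B t := pvfjmB 𝔑 (ty t)
  Ym t := pvtwN 8 (pvmnCells (ty t) 1 3)
  Yp t := pvtwN 8 (pvmnCells (ty t) 6 8)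
  ym t := (pvfjmDm (ty t)).1
  dm t := (pvfjmDm (ty t)).2
  yp t := (pvfjmDp (ty t)).1
  dp t := (pvfjmDp (ty t)).2

theorem pvfjm_eqns_cite : True := by
  have := @pvfjmE.eq_1
  have := @PvfjmIsDoor.eq_1
  have := @pvfjmDoor.eq_1
  have := @pvfjmB.eq_1
  have := @pvfjmEp.eq_1
  have := @pvfjmEm.eq_1
  have := @pvfjmDp.eq_1
  have := @pvfjmDm.eq_1
  have := @pvfjmPlug.eq_1
  trivial

section door

variable {L R : Set (ℤ × ℤ)} {q q' : ℤ × ℤ}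

theorem pvfjm_conn8 {E : Set (ℤ × ℤ)} (h : TscConn tscG E) : TscConn pvtbG8 E := fun u hu v hv => pvtb_R_le (fun _ _ => pvtb_tri_G8) (h u hu v hv)

theorem pvfjm_E_conn (L R : Set (ℤ × ℤ)) (q : ℤ × ℤ) : TscConn pvtbG4 (pvfjmE L R q) := tsc_comp_conn q

theorem pvfjm_E_sub : pvfjmE L R q ⊆ pvtwN 1 L := fun _ h => (tsc_comp_sub _ h).1

theorem pvfjm_E_off : Disjoint (pvfjmE L R q) (pvtwN 8 R) := Set.disjoint_left.2 fun _ h => (tsc_comp_sub _ h).2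

theorem pvfjm_E_tip (hq : q ∈ L) (hqR : q ∉ pvtwN 8 R) : q ∈ pvfjmE L R q := tsc_comp_self ⟨pvtw_N_sub hq, hqR⟩

/-- existence of a door -/
theorem pvfjm_door_exists (hL : TscConn tscG L) (hq : q ∈ L) (hqR : q ∉ pvtwN 8 R) (hq' : q' ∈ L) (hq'R : q' ∈ R) : ∃ p, PvfjmIsDoor L R q p := by
  obtain ⟨y, d, h1, h2, h3⟩ := pvfjm_first_hit (A := pvtwN 8 R) (pvfjm_N1_conn4 (pvfjm_conn8 hL)) (pvtw_N_sub hq) hqR (pvtw_N_sub hq') (pvtw_N_sub hq'R)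
  exact ⟨(y, d), h1, h2, h3⟩

theorem pvfjm_door_spec (h : ∃ p, PvfjmIsDoor L R q p) : PvfjmIsDoor L R q (pvfjmDoor L R q) := by
  unfold pvfjmDoor
  rw [dif_pos h]
  exact h.choose_spec

end door

section types

variable {𝔑 : PvmnNum} {τ : PvmnType} {y : ℤ × ℤ}

theorem pvfjm_q10_mem (hτ : PvmnIsType 𝔑 τ) : τ.q 10 ∈ (τ.C 9 : Set (ℤ × ℤ)) := hτ.q_end 9

theorem pvfjm_q9_mem9 (hτ : PvmnIsType 𝔑 τ) : τ.q 9 ∈ (τ.C 9 : Set (ℤ × ℤ)) := hτ.q_start 9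

theorem pvfjm_q9_mem8 (hτ : PvmnIsType 𝔑 τ) : τ.q 9 ∈ (τ.C 8 : Set (ℤ × ℤ)) := hτ.q_end 8

theorem pvfjm_q0_mem (hτ : PvmnIsType 𝔑 τ) : τ.q 0 ∈ (τ.C 0 : Set (ℤ × ℤ)) := hτ.q_start 0

theorem pvfjm_q1_mem0 (hτ : PvmnIsType 𝔑 τ) : τ.q 1 ∈ (τ.C 0 : Set (ℤ × ℤ)) := hτ.q_end 0

theorem pvfjm_q1_mem1 (hτ : PvmnIsType 𝔑 τ) : τ.q 1 ∈ (τ.C 1 : Set (ℤ × ℤ)) := hτ.q_start 1

theorem pvfjm_q5_mem (hτ : PvmnIsType 𝔑 τ) : τ.q 5 ∈ (τ.C 5 : Set (ℤ × ℤ)) := hτ.q_start 5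

/-- the tip cell `q 10` is off the 8-collar of the pieces `0..8`   ((T2), (T4), (T6), `nW ≤ nP`) -/
theorem pvfjm_tip_p (hτ : PvmnIsType 𝔑 τ) (hWP : 𝔑.nW ≤ 𝔑.nP) : τ.q 10 ∉ pvtwN 8 (pvmnCells τ 0 8) := by
  intro h
  obtain ⟨k, -, k2, hk⟩ := pvmn_N_cells.1 h
  have h9 : τ.q 10 ∈ pvtwN 10 (τ.C 9 : Set (ℤ × ℤ)) := pvtw_N_sub (pvfjm_q10_mem hτ)
  have hk' : τ.q 10 ∈ pvtwN 10 (τ.C k : Set (ℤ × ℤ)) := pvtw_N_mono (by omega) (le_refl _) hk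
  rcases (by omega : k.1 + 2 ≤ 9 ∨ k.1 + 1 = 9) with c | c
  · exact Set.disjoint_left.1 (hτ.far k 9 c) hk' h9
  · have := hτ.adj k 9 c ⟨hk', h9⟩
    exact hτ.marks 9 10 (by decide) (pvtw_N_mono hWP (le_refl _) this)

theorem pvfjm_tip_m (hτ : PvmnIsType 𝔑 τ) (hWP : 𝔑.nW ≤ 𝔑.nP) : τ.q 0 ∉ pvtwN 8 (pvmnCells τ 1 9) := by
  intro h
  obtain ⟨k, k1, -, hk⟩ := pvmn_N_cells.1 h
  have h0 : τ.q 0 ∈ pvtwN 10 (τ.C 0 : Set (ℤ × ℤ)) := pvtw_N_sub (pvfjm_q0_mem hτ)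
  have hk' : τ.q 0 ∈ pvtwN 10 (τ.C k : Set (ℤ × ℤ)) := pvtw_N_mono (by omega) (le_refl _) hk
  rcases (by omega : 0 + 2 ≤ k.1 ∨ k.1 = 1) with c | c
  · exact Set.disjoint_left.1 (hτ.far 0 k c) h0 hk'
  · obtain rfl : k = 1 := Fin.ext c
    have := hτ.adj 0 1 rfl ⟨h0, hk'⟩
    exact hτ.marks 1 0 (by decide) (pvtw_N_mono hWP (le_refl _) this)

/-- a cell of the 1-collar of `C 9` in the 8-collar of the pieces `0..8` lies in the 8-collar of `C 8` -/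
theorem pvfjm_hit_p (hτ : PvmnIsType 𝔑 τ) (h1 : y ∈ pvtwN 1 (τ.C 9 : Set (ℤ × ℤ))) (h2 : y ∈ pvtwN 8 (pvmnCells τ 0 8)) : y ∈ pvtwN 8 (τ.C 8 : Set (ℤ × ℤ)) := by
  obtain ⟨k, -, k2, hk⟩ := pvmn_N_cells.1 h2
  rcases (by omega : k.1 + 2 ≤ 9 ∨ k.1 = 8) with c | c
  · exact absurd (pvtw_N_mono (by omega) (le_refl _) h1) (Set.disjoint_left.1 (hτ.far k 9 c) (pvtw_N_mono (by omega) (le_refl _) hk))
  · obtain rfl : k = 8 := Fin.ext c
    exact hk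

theorem pvfjm_hit_m (hτ : PvmnIsType 𝔑 τ) (h1 : y ∈ pvtwN 1 (τ.C 0 : Set (ℤ × ℤ))) (h2 : y ∈ pvtwN 8 (pvmnCells τ 1 9)) : y ∈ pvtwN 8 (τ.C 1 : Set (ℤ × ℤ)) := by
  obtain ⟨k, k1, -, hk⟩ := pvmn_N_cells.1 h2
  rcases (by omega : 0 + 2 ≤ k.1 ∨ k.1 = 1) with c | c
  · exact absurd (pvtw_N_mono (by omega) (le_refl _) hk) (Set.disjoint_left.1 (hτ.far 0 k c) (pvtw_N_mono (by omega) (le_refl _) h1))
  · obtain rfl : k = 1 := Fin.ext c
    exact hk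

/-- **the positive door of a type** -/
theorem pvfjm_Dp_spec (hτ : PvmnIsType 𝔑 τ) (hWP : 𝔑.nW ≤ 𝔑.nP) : PvfjmIsDoor (τ.C 9 : Set (ℤ × ℤ)) (pvmnCells τ 0 8) (τ.q 10) (pvfjmDp τ) :=
  pvfjm_door_spec (pvfjm_door_exists (hτ.conn 9) (pvfjm_q10_mem hτ) (pvfjm_tip_p hτ hWP) (pvfjm_q9_mem9 hτ) (pvmn_C_sub 8 (Nat.zero_le _) (le_refl _) (pvfjm_q9_mem8 hτ)))

/-- **the negative door of a type** -/
theorem pvfjm_Dm_spec (hτ : PvmnIsType 𝔑 τ) (hWP : 𝔑.nW ≤ 𝔑.nP) : PvfjmIsDoor (τ.C 0 : Set (ℤ × ℤ)) (pvmnCells τ 1 9) (τ.q 0) (pvfjmDm τ) :=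
  pvfjm_door_spec (pvfjm_door_exists (hτ.conn 0) (pvfjm_q0_mem hτ) (pvfjm_tip_m hτ hWP) (pvfjm_q1_mem0 hτ) (pvmn_C_sub 1 (le_refl _) (by decide) (pvfjm_q1_mem1 hτ)))

theorem pvfjm_Ep_conn (τ : PvmnType) : TscConn pvtbG4 (pvfjmEp τ) := pvfjm_E_conn _ _ _

theorem pvfjm_Em_conn (τ : PvmnType) : TscConn pvtbG4 (pvfjmEm τ) := pvfjm_E_conn _ _ _

theorem pvfjm_Ep_sub : pvfjmEp τ ⊆ pvtwN 1 (τ.C 9 : Set (ℤ × ℤ)) := pvfjm_E_sub

theorem pvfjm_Em_sub : pvfjmEm τ ⊆ pvtwN 1 (τ.C 0 : Set (ℤ × ℤ)) := pvfjm_E_sub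

theorem pvfjm_Ep_tip (hτ : PvmnIsType 𝔑 τ) (hWP : 𝔑.nW ≤ 𝔑.nP) : τ.q 10 ∈ pvfjmEp τ := pvfjm_E_tip (pvfjm_q10_mem hτ) (pvfjm_tip_p hτ hWP)

theorem pvfjm_Em_tip (hτ : PvmnIsType 𝔑 τ) (hWP : 𝔑.nW ≤ 𝔑.nP) : τ.q 0 ∈ pvfjmEm τ := pvfjm_E_tip (pvfjm_q0_mem hτ) (pvfjm_tip_m hτ hWP)

theorem pvfjm_Ep_off : Disjoint (pvfjmEp τ) (pvtwN 8 (pvmnCells τ 0 8)) := pvfjm_E_off

theorem pvfjm_Em_off : Disjoint (pvfjmEm τ) (pvtwN 8 (pvmnCells τ 1 9)) := pvfjm_E_off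

/-- **`E⁺` is off the body** -/
theorem pvfjm_Ep_off_B (hτ : PvmnIsType 𝔑 τ) : Disjoint (pvfjmEp τ) (pvfjmB 𝔑 τ) := by
  rw [Set.disjoint_left]
  intro x hx hB
  have h1 : x ∈ pvtwN 10 (τ.C 9 : Set (ℤ × ℤ)) := pvtw_N_mono (by omega) (le_refl _) (pvfjm_Ep_sub hx)
  rcases hB with (hB | hB) | hB
  · exact Set.disjoint_left.1 (hτ.ball 9 (by decide) (by decide)) h1 hB
  · obtain ⟨k, k1, k2, hk⟩ := pvmn_N_cells.1 hB
    exact Set.disjoint_left.1 (hτ.far k 9 (show k.1 + 2 ≤ 9 by omega)) (pvtw_N_mono (by omega) (le_refl _) hk) h1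
  · exact Set.disjoint_left.1 pvfjm_Ep_off hx (pvtw_N_mono (le_refl _) (pvmn_cells_mono (by omega) (le_refl _)) hB)

/-- **`E⁻` is off the body** -/
theorem pvfjm_Em_off_B (hτ : PvmnIsType 𝔑 τ) : Disjoint (pvfjmEm τ) (pvfjmB 𝔑 τ) := by
  rw [Set.disjoint_left]
  intro x hx hB
  have h1 : x ∈ pvtwN 10 (τ.C 0 : Set (ℤ × ℤ)) := pvtw_N_mono (by omega) (le_refl _) (pvfjm_Em_sub hx)
  rcases hB with (hB | hB) | hB
  · exact Set.disjoint_left.1 (hτ.ball 0 (by decide) (by decide)) h1 hB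
  · obtain ⟨k, k1, k2, hk⟩ := pvmn_N_cells.1 hB
    exact Set.disjoint_left.1 (hτ.far 0 k (show 0 + 2 ≤ k.1 by omega)) h1 (pvtw_N_mono (by omega) (le_refl _) hk)
  · exact Set.disjoint_left.1 pvfjm_Em_off hx (pvtw_N_mono (le_refl _) (pvmn_cells_mono (le_refl _) (by omega)) hB)

theorem pvfjm_B_box (hN : PvmnNumOK 𝔑) (hτ : PvmnIsType 𝔑 τ) : pvfjmB 𝔑 τ ⊆ pvmnBox (𝔑.nBx + 8) := by
  have h1 := hN.nC_nF
  have h2 := hN.nF_nBx
  rintro x ((hx | hx) | hx)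
  · exact pvmn_box_mono (by omega) (pvmn_Bl_box hN.rB_nC hx)
  · exact pvmn_box_mono (by omega) (pvmn_N_box (k := 6) (pvmn_cells_box hτ) hx)
  · exact pvmn_N_box (pvmn_cells_box hτ) hx

theorem pvfjm_B_conn (hN : PvmnNumOK 𝔑) (hτ : PvmnIsType 𝔑 τ) : TscConn tscG (pvfjmB 𝔑 τ) := by
  have h5 : τ.q 5 ∈ pvmnBl 𝔑.rB := pvmn_Bl_mono (by have := hN.rO_rB; linarith) hτ.ctr
  have h6 : τ.q 5 ∈ pvtwN 6 (pvmnCells τ 4 5) := pvtw_N_sub (pvmn_C_sub 5 (by decide) (le_refl _) (pvfjm_q5_mem hτ))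
  have h4 : τ.q 5 ∈ pvtwN 8 (pvmnCells τ 1 8) := pvtw_N_sub (pvmn_C_sub 5 (by decide) (by decide) (pvfjm_q5_mem hτ))
  exact tsc_conn_union (tsc_conn_union (pvmn_Bl_conn _) (pvtw_N_conn (pvmn_cells_conn hτ (by omega) (by omega))) h5 h6 (Or.inl rfl))
    (pvtw_N_conn (pvmn_cells_conn hτ (by omega) (by omega))) (Or.inl h5) h4 (Or.inl rfl)

end types

/-- **`PvfjPlug.WF` FOR THE MENU**: a theorem on `PvmnIsType` and the numbers -/
theorem pvfjm_wf {𝔑 : PvmnNum} {T : Type} {ty : T → PvmnType} (hN : PvmnNumOK 𝔑) (hWP : 𝔑.nW ≤ 𝔑.nP) (hty : ∀ t, PvmnIsType 𝔑 (ty t)) : (pvfjmPlug 𝔑 ty).WF where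
  B_box t := pvfjm_B_box hN (hty t)
  B_conn t := pvfjm_conn8 (pvfjm_B_conn hN (hty t))
  Ym_sub t := fun x hx => Or.inr (pvtw_N_mono (le_refl _) (pvmn_cells_mono (le_refl _) (by omega)) hx)
  Yp_sub t := fun x hx => Or.inr (pvtw_N_mono (le_refl _) (pvmn_cells_mono (by omega) (le_refl _)) hx)
  Ym_conn t := pvfjm_conn8 (pvtw_N_conn (pvmn_cells_conn (hty t) (by omega) (by omega)))
  Yp_conn t := pvfjm_conn8 (pvtw_N_conn (pvmn_cells_conn (hty t) (by omega) (by omega)))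
  ym_mem t := by
    obtain ⟨-, ⟨h1, h2⟩, -⟩ := pvfjm_Dm_spec (hty t) hWP
    exact pvtw_N_mono (le_refl _) (pvmn_C_sub 1 (le_refl _) (by decide)) (pvfjm_hit_m (hty t) h1 h2)
  yp_mem t := by
    obtain ⟨-, ⟨h1, h2⟩, -⟩ := pvfjm_Dp_spec (hty t) hWP
    exact pvtw_N_mono (le_refl _) (pvmn_C_sub 8 (by decide) (le_refl _)) (pvfjm_hit_p (hty t) h1 h2)
  dm_dir t := (pvfjm_Dm_spec (hty t) hWP).1
  dp_dir t := (pvfjm_Dp_spec (hty t) hWP).1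

/-- the door fronts lie in `E^±` -/
theorem pvfjm_front_p {𝔑 : PvmnNum} {T : Type} {ty : T → PvmnType} (hWP : 𝔑.nW ≤ 𝔑.nP) (hty : ∀ t, PvmnIsType 𝔑 (ty t)) (t : T) :
    (pvfjmPlug 𝔑 ty).yp t + (pvfjmPlug 𝔑 ty).dp t ∈ pvfjmEp (ty t) := (pvfjm_Dp_spec (hty t) hWP).2.2

theorem pvfjm_front_m {𝔑 : PvmnNum} {T : Type} {ty : T → PvmnType} (hWP : 𝔑.nW ≤ 𝔑.nP) (hty : ∀ t, PvmnIsType 𝔑 (ty t)) (t : T) :
    (pvfjmPlug 𝔑 ty).ym t + (pvfjmPlug 𝔑 ty).dm t ∈ pvfjmEm (ty t) := (pvfjm_Dm_spec (hty t) hWP).2.2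

/-- assembly of a witness: `E'` (the placed `E^±`: contains the door front and the tip cell) and `Wq` (cells of the continuation: contains the tip cell, leaves a box of the obstacle) -/
theorem pvfj_wit_union {F0 E' Wq : Set (ℤ × ℤ)} {f q : ℤ × ℤ} {a b c d : ℤ} (hE : TscConn pvtbG4 E') (hW : TscConn pvtbG4 Wq) (hEo : Disjoint E' F0) (hWo : Disjoint Wq F0)
    (hf : f ∈ E') (hqE : q ∈ E') (hqW : q ∈ Wq) (hbox : F0 ⊆ tscBox a b c d) (hout : ∃ w ∈ Wq, w ∉ tscBox a b c d) :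
    ∃ W : Set (ℤ × ℤ), TscConn pvtbG4 W ∧ Disjoint W F0 ∧ f ∈ W ∧ ∃ a b c d : ℤ, F0 ⊆ tscBox a b c d ∧ ∃ w ∈ W, w ∉ tscBox a b c d := by
  obtain ⟨w, hw, hwb⟩ := hout
  exact ⟨E' ∪ Wq, tsc_conn_union hE hW hqE hqW (Or.inl rfl), Set.disjoint_union_left.2 ⟨hEo, hWo⟩, Or.inl hf, a, b, c, d, hbox, w, Or.inr hw, hwb⟩

/-! ## 12. the cells of the word; the far subfamily -/

theorem pvfj_centres_get (l : List PvtTurn) : ∀ (z d : ℂ) (j : ℕ), j ≤ l.length → (pvtCentres z d l)[j]? = some (pvtEnd z d (l.take j)) := by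
  induction l with
  | nil =>
    intro z d j hj
    obtain rfl : j = 0 := by simpa using hj
    simp [pvtCentres, pvtEnd, pvtAcc]
  | cons τ l ih =>
    intro z d j hj
    rcases j with _ | j
    · simp [pvtCentres, pvtEnd, pvtAcc]
    · have := ih (z + d * τ.rot) (d * τ.rot) j (by simpa using hj)
      simp only [pvtCentres, List.getElem?_cons_succ, this, List.take_succ_cons]
      simp [pvtEnd, pvtAcc, add_assoc]

/-- the centre of the cell number `j` of the word is the cell `C j` -/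
theorem pvfj_centre_of {n : ℕ} {C : ℕ → ℤ × ℤ} {bs : ℤ × ℤ} {d : ℂ} {w : List PvtTurn} (hlen : w.length = n + 1)
    (hc : pvtCentres (pvtZ (C 0)) d w = (((List.range (n + 1)).map C) ++ [bs]).map pvtZ) :
    (∀ j, j ≤ n → pvtEnd (pvtZ (C 0)) d (w.take j) = pvtZ (C j)) ∧ pvtEnd (pvtZ (C 0)) d (w.take (n + 1)) = pvtZ bs := by
  constructor
  · intro j hj
    have h := pvfj_centres_get w (pvtZ (C 0)) d j (by omega)
    rw [hc] at h
    have e : ((((List.range (n + 1)).map C) ++ [bs]).map pvtZ)[j]? = some (pvtZ (C j)) := by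
      rw [List.getElem?_map, List.getElem?_append_left (by simp; omega), List.getElem?_map, List.getElem?_range (by omega)]
      rfl
    rw [e] at h
    exact (Option.some.inj h).symm
  · have h := pvfj_centres_get w (pvtZ (C 0)) d (n + 1) (by omega)
    rw [hc] at h
    have e : ((((List.range (n + 1)).map C) ++ [bs]).map pvtZ)[n + 1]? = some (pvtZ bs) := by
      rw [List.getElem?_map, List.getElem?_append_right (by simp)]
      simp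
    rw [e] at h
    exact (Option.some.inj h).symm

/-- in the vocabulary of `Tr/CellChain`: door point `z`, frame `d` -/
theorem pvfj_ccC_eq (z0 d : ℂ) (w : List PvtTurn) (j : ℕ) : pvccC (z0 - d / 2) d w j = pvtEnd z0 d (w.take j) := by
  rw [pvccC_eq, pvtEnd]
  ring

/-- the word of an injective path of cells is cell-simple -/
theorem pvfj_simple_of {n : ℕ} {C : ℕ → ℤ × ℤ} {bs : ℤ × ℤ} {d : ℂ} {w : List PvtTurn} (hlen : w.length = n + 1)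
    (hc : pvtCentres (pvtZ (C 0)) d w = (((List.range (n + 1)).map C) ++ [bs]).map pvtZ)
    (hinj : ∀ i j, i ≤ n → j ≤ n → C i = C j → i = j) (hbs : ∀ i, i ≤ n → C i ≠ bs) : PvccSimple w (n + 1) := by
  obtain ⟨h1, h2⟩ := pvfj_centre_of hlen hc
  intro j k hj hk e
  have e' : pvtEnd (pvtZ (C 0)) d (w.take j) = pvtEnd (pvtZ (C 0)) d (w.take k) := by
    rw [← pvfj_ccC_eq, ← pvfj_ccC_eq, pvccC_cov, pvccC_cov _ _ _ k, e]
  rcases (by omega : j ≤ n ∨ j = n + 1) with cj | cj <;> rcases (by omega : k ≤ n ∨ k = n + 1) with ck | ck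
  · rw [h1 j cj, h1 k ck] at e'
    exact hinj j k cj ck (pvtZ_injective e')
  · subst ck
    rw [h1 j cj, h2] at e'
    exact absurd (pvtZ_injective e') (hbs j cj)
  · subst cj
    rw [h1 k ck, h2] at e'
    exact absurd (pvtZ_injective e').symm (hbs k ck)
  · omega

section patcells

variable {τ : Type} {𝔓 : PvfjPlug τ} {m : ℤ} {n : ℕ}

theorem PvfjPat.C_ne_back (π : PvfjPat 𝔓 m n) {i : ℕ} (hi : i ≤ π.N) : π.C i ≠ pvtbPt m (𝔓.ym π.1.ts + π.1.cs) (𝔓.dm π.1.ts) (m + 9) 0 := by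
  have I : PvfjIn m (π.1.F0 𝔓) (π.1.Ys 𝔓) (π.1.Yt 𝔓) (𝔓.ym π.1.ts + π.1.cs) (𝔓.dm π.1.ts) (𝔓.yp π.1.tt + π.1.ct) (𝔓.dp π.1.tt) (-(n : ℤ)) n (-(n : ℤ)) n := π.2
  intro e
  exact (π.spec.1.C_in i hi).2 (e ▸ pvfj_A_back I.m10 I.hds (I.hull_s I.hys))

/-- **the word of a pattern is cell-simple** (`Tr/CellChain`) -/
theorem PvfjPat.simple (π : PvfjPat 𝔓 m n) : PvccSimple π.w π.w.length := by
  obtain ⟨O, h2, -, -, h5⟩ := π.spec
  rw [h2]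
  exact pvfj_simple_of h2 h5 (fun i j hi hj e => pvtb_cor_inj O.cor hi hj e) (fun i hi => π.C_ne_back hi)

/-- the cell number `j` of the word, in lattice units -/
theorem PvfjPat.centre (π : PvfjPat 𝔓 m n) {j : ℕ} (hj : j ≤ π.N) :
    pvccC (pvtZ (π.C 0) - pvtZ (𝔓.dp π.1.tt) / 2) (pvtZ (𝔓.dp π.1.tt)) π.w j = pvtZ (π.C j) := by
  obtain ⟨-, h2, -, -, h5⟩ := π.spec
  rw [pvfj_ccC_eq]
  exact (pvfj_centre_of h2 h5).1 j hj

/-- **the cell number `j` of the placed chain is the fine cell `C j`**: door point `zt + pout`, mesh `δ / (2m+1)` -/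
theorem PvfjPat.centre_pl (π : PvfjPat 𝔓 m n) (hm : 0 ≤ m) (δ : ℝ) {j : ℕ} (hj : j ≤ π.N) :
    (π.pat δ).zt + pvfjDoor m δ (𝔓.yp π.1.tt) (𝔓.dp π.1.tt) + ((δ / (2 * (m : ℝ) + 1) : ℝ) : ℂ) * pvccC 0 (pvtZ (𝔓.dp π.1.tt)) π.w j =
      ((δ / (2 * (m : ℝ) + 1) : ℝ) : ℂ) * (pvtZ (π.C j) + (((m : ℝ) + 1 / 2 : ℝ) : ℂ) * (1 + Complex.I)) := by
  have h := π.centre hj
  have hk : (2 * (m : ℂ) + 1) ≠ 0 := by
    have h0 : (0 : ℝ) ≤ (m : ℝ) := by exact_mod_cast hm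
    have h1 : (2 * (m : ℝ) + 1) ≠ 0 := by positivity
    exact_mod_cast h1
  rw [pvccC_eq] at h
  rw [pvccC_eq]
  have h0 : pvtZ (π.C 0) = pvtZ (pvfjA m (𝔓.yp π.1.tt) (𝔓.dp π.1.tt)) + (2 * (m : ℂ) + 1) * pvtZ π.1.ct := by
    rw [π.spec.1.C_0, pvfj_A_shift]
  show pvmgPt δ π.1.ct + _ + _ = _
  rw [pvfj_Pt_eq, pvfjDoor, ← h, h0]
  push_cast
  field_simp
  ring

end patcells

/-- the patterns whose two centres are more than `r` apart (field `far` of `PvrxPat`) -/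
def PvfjPatF {τ : Type} (𝔓 : PvfjPlug τ) (m : ℤ) (n : ℕ) (δ r : ℝ) : Type := {π : PvfjPat 𝔓 m n // r < ‖(π.pat δ).zs - (π.pat δ).zt‖}

theorem pvfj_patF_finite {τ : Type} {𝔓 : PvfjPlug τ} {m : ℤ} {n : ℕ} {δ r : ℝ} [Finite τ] (h𝔓 : 𝔓.WF) : Finite (PvfjPatF 𝔓 m n δ r) := by
  have := pvfj_pat_finite (m := m) (n := n) h𝔓
  exact Subtype.finite

theorem pvfj_met_fitF {τ : Type} {𝔓 : PvfjPlug τ} {m : ℤ} {n k : ℕ} {δ r : ℝ} {P : PvbRim} {s t : PvbPin τ} {cs ct : ℤ × ℤ}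
    (h𝔓 : 𝔓.WF) (hδ : 0 < δ) (hm : 10 ≤ m) (hn : (2 * m + 1) * (k + 1) + 1 ≤ n) (M : PvfjMet 𝔓 δ k P s t cs ct) (hr : r < ‖s.ctr - t.ctr‖) :
    ∃ π : PvfjPatF 𝔓 m n δ r, PvfjFit δ P s t π.1.1 := by
  obtain ⟨π, hπ⟩ := pvfj_met_fit h𝔓 hδ hm hn M
  refine ⟨⟨π, ?_⟩, hπ⟩
  rw [← (pvfj_fit_s hπ).1, ← (pvfj_fit_t hπ).1]
  exact hr

theorem pvfj_eqns_cite4 : True := by
  have := @PvfjPatF.eq_1
  trivial

/-! ## 13. the placed regions -/

/-- the side of a fine cell -/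
noncomputable def pvfjFs (m : ℤ) (δ : ℝ) : ℝ := δ / (2 * (m : ℝ) + 1)

/-- the fine cell `v` is the square `pvtSq (pvfjFs m δ) v` moved by `pvfjZ0 m δ = m δ_f (1 + i)` -/
noncomputable def pvfjZ0 (m : ℤ) (δ : ℝ) : ℂ := ⟨(m : ℝ) * pvfjFs m δ, (m : ℝ) * pvfjFs m δ⟩

/-- the region of `ℂ` covered by a set of FINE cells -/
noncomputable def pvfjReg (m : ℤ) (δ : ℝ) (E : Set (ℤ × ℤ)) : Set ℂ := pvmgPl (pvfjZ0 m δ) (pvfjFs m δ) E

theorem pvfj_eqns_cite5 : True := by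
  have := @pvfjFs.eq_1
  have := @pvfjZ0.eq_1
  have := @pvfjReg.eq_1
  trivial

section reg

variable {m : ℤ} {δ : ℝ} {E A B : Set (ℤ × ℤ)} {p q : ℂ} {c : ℤ × ℤ}

theorem pvfj_Fs_pos (hm : 0 ≤ m) (hδ : 0 < δ) : 0 < pvfjFs m δ := by
  have h0 : (0 : ℝ) ≤ (m : ℝ) := by exact_mod_cast hm
  unfold pvfjFs
  positivity

theorem pvfj_Fs_mul (hm : 0 ≤ m) (δ : ℝ) : (2 * (m : ℝ) + 1) * pvfjFs m δ = δ := by
  have h0 : (0 : ℝ) ≤ (m : ℝ) := by exact_mod_cast hm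
  unfold pvfjFs
  field_simp

/-- 1D: a point at distance `≤ j δ_f` of the coarse interval number `c` lies in a fine interval of the block fattened by `j` -/
theorem pvfj_refine1 (hm : 0 ≤ m) (hδ : 0 < δ) (j : ℕ) (c : ℤ) (x : ℝ) (h1 : (c : ℝ) * δ - j * pvfjFs m δ ≤ x) (h2 : x ≤ ((c : ℝ) + 1) * δ + j * pvfjFs m δ) :
    ∃ v : ℤ, (2 * m + 1) * c - (m + j) ≤ v ∧ v ≤ (2 * m + 1) * c + (m + j) ∧ (v : ℝ) * pvfjFs m δ ≤ x - (m : ℝ) * pvfjFs m δ ∧ x - (m : ℝ) * pvfjFs m δ ≤ ((v : ℝ) + 1) * pvfjFs m δ := by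
  have hf := pvfj_Fs_pos hm hδ
  have hmul := pvfj_Fs_mul hm δ
  set f := pvfjFs m δ with hfdef
  set t : ℝ := (x - (m : ℝ) * f) / f with ht
  have hx : x - (m : ℝ) * f = t * f := by rw [ht]; field_simp
  have lo : (((2 * m + 1) * c - (m + j) : ℤ) : ℝ) ≤ t := by
    rw [ht, le_div_iff₀ hf]
    push_cast
    have e : ((2 * (m : ℝ) + 1) * c - (m + j)) * f = c * δ - m * f - j * f := by rw [← hmul]; ring
    rw [e]
    linarith
  have hi : t ≤ (((2 * m + 1) * c + (m + j) : ℤ) : ℝ) + 1 := by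
    rw [ht, div_le_iff₀ hf]
    push_cast
    have e : ((2 * (m : ℝ) + 1) * c + (m + j) + 1) * f = (c + 1) * δ - m * f + j * f := by rw [← hmul]; ring
    rw [e]
    linarith
  refine ⟨min ((2 * m + 1) * c + (m + j)) ⌊t⌋, ?_, min_le_left _ _, ?_, ?_⟩
  · refine le_min (by omega) (Int.le_floor.2 lo)
  · rw [hx]
    refine mul_le_mul_of_nonneg_right ?_ hf.le
    exact le_trans (by exact_mod_cast min_le_right _ _) (Int.floor_le t)
  · rw [hx]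
    refine mul_le_mul_of_nonneg_right ?_ hf.le
    rcases le_total ((2 * m + 1) * c + (m + j)) ⌊t⌋ with h | h
    · rw [min_eq_left h]
      exact hi
    · rw [min_eq_right h]
      exact (Int.lt_floor_add_one t).le

theorem pvfj_reg_mem : p ∈ pvfjReg m δ E ↔ ∃ v ∈ E, p - pvfjZ0 m δ ∈ pvtSq (pvfjFs m δ) v := pvmg_mem_sq

theorem pvfj_reg_mono (h : A ⊆ B) : pvfjReg m δ A ⊆ pvfjReg m δ B := pvmg_mono h

/-- **REFINEMENT, FATTENED**: the sup-norm `j δ_f`-neighbourhood of the coarse square `c` lies in the region of the block of `c` fattened by `j` fine cells -/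
theorem pvfj_reg_near (hm : 0 ≤ m) (hδ : 0 < δ) (j : ℕ) (hp : p ∈ pvtSq δ c) (h1 : |q.re - p.re| ≤ j * pvfjFs m δ) (h2 : |q.im - p.im| ≤ j * pvfjFs m δ) :
    q ∈ pvfjReg m δ (pvtbD (2 * m + 1) (m + j) {c}) := by
  obtain ⟨a1, a2, a3, a4⟩ := hp
  obtain ⟨b1, b2⟩ := abs_le.1 h1
  obtain ⟨b3, b4⟩ := abs_le.1 h2
  obtain ⟨v1, c1, c2, c3, c4⟩ := pvfj_refine1 hm hδ j c.1 q.re (by linarith) (by linarith)
  obtain ⟨v2, d1, d2, d3, d4⟩ := pvfj_refine1 hm hδ j c.2 q.im (by linarith) (by linarith)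
  refine pvfj_reg_mem.2 ⟨(v1, v2), ⟨c, rfl, c1, c2, d1, d2⟩, ?_, ?_, ?_, ?_⟩ <;> simp only [Complex.sub_re, Complex.sub_im, pvfjZ0] <;> assumption

/-- euclidean form -/
theorem pvfj_reg_ball (hm : 0 ≤ m) (hδ : 0 < δ) (j : ℕ) (hp : p ∈ pvtSq δ c) : Metric.closedBall p (j * pvfjFs m δ) ⊆ pvfjReg m δ (pvtbD (2 * m + 1) (m + j) {c}) := by
  intro q hq
  rw [Metric.mem_closedBall, dist_eq_norm] at hq
  refine pvfj_reg_near hm hδ j hp ?_ ?_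
  · exact le_trans (by rw [← Complex.sub_re]; exact Complex.abs_re_le_norm _) hq
  · exact le_trans (by rw [← Complex.sub_im]; exact Complex.abs_im_le_norm _) hq

/-- cells at sup-distance `> j` : regions at distance `≥ j δ_f` -/
theorem pvfj_reg_far (hm : 0 ≤ m) (hδ : 0 < δ) (j : ℕ) (h : ∀ u ∈ A, ∀ v ∈ B, (j : ℤ) < |v.1 - u.1| ∨ (j : ℤ) < |v.2 - u.2|) (hp : p ∈ pvfjReg m δ A) (hq : q ∈ pvfjReg m δ B) :
    (j : ℝ) * pvfjFs m δ ≤ ‖p - q‖ := by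
  refine pvmg_far (pvfj_Fs_pos hm hδ) ?_ hp hq
  rw [Set.disjoint_left]
  rintro v ⟨u, hu, g1, g2, g3, g4⟩ hv
  rcases h u hu v hv with c | c
  · rw [lt_abs] at c
    omega
  · rw [lt_abs] at c
    omega

/-- the `j δ_f`-neighbourhood of a region lies in the region of the `j`-collar -/
theorem pvfj_reg_collar (hm : 0 ≤ m) (hδ : 0 < δ) (j : ℕ) (h : ∀ u ∈ A, ∀ v : ℤ × ℤ, |v.1 - u.1| ≤ j → |v.2 - u.2| ≤ j → v ∈ B) (hp : p ∈ pvfjReg m δ A) (hq : ‖q - p‖ ≤ (j : ℝ) * pvfjFs m δ) :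
    q ∈ pvfjReg m δ B := by
  refine pvfj_reg_mono ?_ (pvmg_near (pvfj_Fs_pos hm hδ) hp hq)
  rintro v ⟨u, hu, g1, g2, g3, g4⟩
  exact h u hu v (abs_le.2 ⟨by omega, by omega⟩) (abs_le.2 ⟨by omega, by omega⟩)

theorem pvfj_reg_compact (hE : E.Finite) : IsCompact (pvfjReg m δ E) := pvmg_compact hE

theorem pvfj_reg_measurable : MeasurableSet (pvfjReg m δ E) := pvmg_measurable

end reg

/-- the region `T` of the `X`-side, in `ℂ` -/
noncomputable def PvfjPat.regT {τ : Type} {𝔓 : PvfjPlug τ} {m : ℤ} {n : ℕ} (δ : ℝ) (π : PvfjPat 𝔓 m n) : Set ℂ := pvfjReg m δ (pvfjT m (π.1.F0 𝔓) (π.1.Ys 𝔓 ∪ π.1.Yt 𝔓))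

/-- the squares of the closing chain, in `ℂ` -/
noncomputable def PvfjPat.regC {τ : Type} {𝔓 : PvfjPlug τ} {m : ℤ} {n : ℕ} (δ : ℝ) (π : PvfjPat 𝔓 m n) : Set ℂ := pvfjReg m δ (pvtbRan π.N π.C)

/-- the white lane, in `ℂ` -/
noncomputable def PvfjPat.regW {τ : Type} {𝔓 : PvfjPlug τ} {m : ℤ} {n : ℕ} (δ : ℝ) (π : PvfjPat 𝔓 m n) : Set ℂ := pvfjReg m δ (pvtrArc (pvfjH m (π.1.F0 𝔓)) π.e π.l)

theorem pvfj_eqns_cite6 : True := by
  have := @PvfjPat.regT.eq_1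
  have := @PvfjPat.regC.eq_1
  have := @PvfjPat.regW.eq_1
  trivial

section patreg

variable {τ : Type} {𝔓 : PvfjPlug τ} {m : ℤ} {n : ℕ} {δ : ℝ} {p q : ℂ}

theorem PvfjPat.m10 (π : PvfjPat 𝔓 m n) : 10 ≤ m := PvfjIn.m10 π.2

theorem PvfjPat.regT_compact (π : PvfjPat 𝔓 m n) : IsCompact (π.regT δ) := pvfj_reg_compact π.spec.1.T_fin

theorem PvfjPat.regT_measurable (π : PvfjPat 𝔓 m n) : MeasurableSet (π.regT δ) := pvfj_reg_measurable

theorem PvfjPat.regC_compact (π : PvfjPat 𝔓 m n) : IsCompact (π.regC δ) := pvfj_reg_compact (pvtb_ran_finite _ _)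

theorem PvfjPat.regC_measurable (π : PvfjPat 𝔓 m n) : MeasurableSet (π.regC δ) := pvfj_reg_measurable

/-- the closing chain stays at distance `≥ 3 δ_f` from `T` -/
theorem PvfjPat.regC_far (π : PvfjPat 𝔓 m n) (hδ : 0 < δ) (hp : p ∈ π.regT δ) (hq : q ∈ π.regC δ) : 3 * pvfjFs m δ ≤ ‖p - q‖ := by
  have hm := π.m10
  have := pvfj_reg_far (j := 3) (by omega) hδ (A := pvfjT m (π.1.F0 𝔓) (π.1.Ys 𝔓 ∪ π.1.Yt 𝔓)) (B := pvtbRan π.N π.C) ?_ hp hq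
  · exact_mod_cast this
  · rintro u hu v ⟨i, hi, rfl⟩
    exact_mod_cast π.spec.1.C_far i hi u hu

/-- the `2 δ_f`-neighbourhood of the white lane lies in `T` -/
theorem PvfjPat.regW_collar (π : PvfjPat 𝔓 m n) (hδ : 0 < δ) (hp : p ∈ π.regW δ) (hq : ‖q - p‖ ≤ 2 * pvfjFs m δ) : q ∈ π.regT δ := by
  have hm := π.m10
  refine pvfj_reg_collar (j := 2) (by omega) hδ ?_ hp (by exact_mod_cast hq)
  intro u hu v h1 h2
  exact π.spec.1.W_collar u hu v (by exact_mod_cast h1) (by exact_mod_cast h2)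

/-- **F7 IN THE PLANE**: a point of the actual arc whose coarse cell is far from the two closure-side tentacles lies in `T` with the ball of radius `6 δ_f` -/
theorem pvfj_fit_ball {P : PvbRim} {s t : PvbPin τ} {π : PvfjPat 𝔓 m n} (h : PvfjFit δ P s t π.1) (hδ : 0 < δ) {c : ℤ × ℤ} (hp : p ∈ pvtxPoly P.v s.idx t.idx) (hc : p ∈ pvtSq δ c)
    (hfar : ∀ q ∈ π.1.Ys 𝔓 ∪ π.1.Yt 𝔓, PvfjFar c q) : Metric.closedBall p (6 * pvfjFs m δ) ⊆ π.regT δ := by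
  have hm := π.m10
  have h1 := pvfj_reg_ball (m := m) (by omega) hδ 6 hc
  have h2 := pvfj_fit_core h hp hc hfar
  intro x hx
  exact pvfj_reg_mono h2 (h1 (by exact_mod_cast hx))

end patreg

/-! ## 14. the pattern hull as a region with two doors (`PvriDoors` of `Tr/RingIn`): uniqueness of the lane, no pockets -/

/-- a finite set with tri-connected complement has no holes -/
theorem pvfj_free_of_compl {H : Set (ℤ × ℤ)} (hf : H.Finite) (hc : TscConn tscG Hᶜ) : HxFree H := by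
  intro s hs B hB
  obtain ⟨t, ht⟩ := (hf.union hB).infinite_compl.nonempty
  have ht1 : t ∉ H := fun h => ht (Or.inl h)
  have ht2 : t ∉ B := fun h => ht (Or.inr h)
  refine ⟨t, ht2, ?_⟩
  have key : ∀ u, TscR tscG Hᶜ s u → ReflTransGen (fun a b => triAdj a b ∧ b ∉ H) s u := by
    intro u h
    induction h with
    | refl => exact ReflTransGen.refl
    | tail _ st ih => exact ih.tail ⟨st.1, st.2.2⟩
  exact key t (hc s hs t ht1)

/-- the cells of the hull which touch `Y` -/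
def pvfjNb (F0 Y : Set (ℤ × ℤ)) : Set (ℤ × ℤ) := pvtwN 1 Y ∩ pvtbHull F0

theorem pvfj_eqns_cite7 : True := by
  have := @pvfjNb.eq_1
  trivial

section nb

variable {m : ℤ} {F0 Y Ys Yt : Set (ℤ × ℤ)} {x : (ℤ × ℤ) × (ℤ × ℤ)}

theorem pvfj_Nb_sub (hY : Y ⊆ pvtbHull F0) : Y ⊆ pvfjNb F0 Y := fun y hy => ⟨pvtw_N_sub hy, hY hy⟩

theorem pvfj_Nb_conn (hY : Y ⊆ pvtbHull F0) (hc : TscConn pvtbG8 Y) : TscConn pvtbG8 (pvfjNb F0 Y) := by
  have star : ∀ p ∈ pvfjNb F0 Y, ∃ y ∈ Y, TscR pvtbG8 (pvfjNb F0 Y) p y := by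
    rintro p ⟨⟨y, hy, h1, h2, h3, h4⟩, hp⟩
    refine ⟨y, hy, ?_⟩
    by_cases e : p = y
    · rw [e]
      exact tsc_R_refl _
    · exact tsc_R_step ((pvtb_G8_adj _ _).2 ⟨e, by omega, by omega, by omega, by omega⟩) ⟨⟨y, hy, h1, h2, h3, h4⟩, hp⟩ (pvfj_Nb_sub hY hy)
  intro u hu v hv
  obtain ⟨y, hy, r1⟩ := star u hu
  obtain ⟨y', hy', r2⟩ := star v hv
  exact tsc_R_trans r1 (tsc_R_trans (tsc_R_mono (pvfj_Nb_sub hY) (hc y hy y' hy')) (tsc_R_symm r2))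

/-- a dart of the contour of `D_{m+3}(F)` whose outer cell lies in the door `D_{m+10}(Y)` has its inner cell in `D_{m+3}` of the cells of `F` which touch `Y` -/
theorem pvfj_door_inner (hm : 10 ≤ m) (hx : x ∈ pvtrBd (pvfjH m F0)) (h2 : x.2 ∈ pvtbD (2 * m + 1) (m + 10) Y) : x.1 ∈ pvtbD (2 * m + 1) (m + 3) (pvfjNb F0 Y) := by
  obtain ⟨⟨p, hp, a1, a2, a3, a4⟩, -, hadj⟩ := hx
  obtain ⟨y, hy, b1, b2, b3, b4⟩ := h2
  obtain ⟨-, c1, c2, c3, c4⟩ := (pvtb_G8_adj _ _).1 (pvtb_tri_G8 (show tscG.Adj x.1 x.2 from hadj))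
  refine ⟨p, ⟨⟨y, hy, ?_, ?_, ?_, ?_⟩, hp⟩, a1, a2, a3, a4⟩
  · by_contra hc
    have : (2 * m + 1) * (y.1 + 2) ≤ (2 * m + 1) * p.1 := mul_le_mul_of_nonneg_left (by push_cast at hc; omega) (by omega)
    rw [mul_add] at this
    omega
  · by_contra hc
    have : (2 * m + 1) * (p.1 + 2) ≤ (2 * m + 1) * y.1 := mul_le_mul_of_nonneg_left (by push_cast at hc; omega) (by omega)
    rw [mul_add] at this
    omega
  · by_contra hc
    have : (2 * m + 1) * (y.2 + 2) ≤ (2 * m + 1) * p.2 := mul_le_mul_of_nonneg_left (by push_cast at hc; omega) (by omega)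
    rw [mul_add] at this
    omega
  · by_contra hc
    have : (2 * m + 1) * (p.2 + 2) ≤ (2 * m + 1) * y.2 := mul_le_mul_of_nonneg_left (by push_cast at hc; omega) (by omega)
    rw [mul_add] at this
    omega

/-- cells which touch two sets `≥ 4` apart are far -/
theorem pvfj_Nb_far (h4 : ∀ p ∈ Ys, ∀ q ∈ Yt, 4 ≤ |p.1 - q.1| ∨ 4 ≤ |p.2 - q.2|) : ∀ p ∈ pvfjNb F0 Ys, ∀ q ∈ pvfjNb F0 Yt, PvfjFar p q := by
  rintro p ⟨⟨y, hy, a1, a2, a3, a4⟩, -⟩ q ⟨⟨y', hy', b1, b2, b3, b4⟩, -⟩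
  rw [pvfj_far_iff]
  rcases h4 y hy y' hy' with c | c
  · rw [le_abs] at c
    omega
  · rw [le_abs] at c
    omega

end nb

section doors

variable {m a b c d : ℤ} {F0 Ys Yt U₁ U₂ : Set (ℤ × ℤ)} {ys ds yt dt : ℤ × ℤ} {e e' x : (ℤ × ℤ) × (ℤ × ℤ)} {l l' : ℕ}

theorem pvfj_D_tri {k r : ℤ} (hk : 0 ≤ k) (hr : k ≤ 2 * r) {F : Set (ℤ × ℤ)} (hF : TscConn pvtbG8 F) : TscConn tscG (pvtbD k r F) :=
  fun u hu v hv => pvtb_R_le (fun _ _ => pvtb_G4_tri) (pvtb_D_conn hk hr hF u hu v hv)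

/-- **THE PATTERN HULL WITH ITS TWO DOORS** -/
theorem PvfjIn.doors (I : PvfjIn m F0 Ys Yt ys ds yt dt a b c d) (h4 : ∀ p ∈ Ys, ∀ q ∈ Yt, 4 ≤ |p.1 - q.1| ∨ 4 ≤ |p.2 - q.2|) :
    PvriDoors (pvfjH m F0) (pvtbD (2 * m + 1) (m + 10) Ys) (pvtbD (2 * m + 1) (m + 10) Yt)
      (pvtbD (2 * m + 1) (m + 3) (pvfjNb F0 Ys)) (pvtbD (2 * m + 1) (m + 3) (pvfjNb F0 Yt)) := by
  have hm := I.m10
  obtain ⟨f1, f2, f3⟩ := pvfj_H_facts hm I.fin I.conn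
  exact
    { fin := f1
      conn := f2
      free := pvfj_free_of_compl f1 f3
      sub1 := pvtb_D_mono (le_refl _) (fun _ h => h.2)
      sub2 := pvtb_D_mono (le_refl _) (fun _ h => h.2)
      conn1 := pvfj_D_tri (by omega) (by omega) (pvfj_Nb_conn I.hull_s I.Ys_conn)
      conn2 := pvfj_D_tri (by omega) (by omega) (pvfj_Nb_conn I.hull_t I.Yt_conn)
      disj := pvfj_far_disj (by omega) (pvfj_Nb_far h4) (by omega)
      in1 := fun x hx h2 => pvfj_door_inner hm hx h2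
      in2 := fun x hx h2 => pvfj_door_inner hm hx h2 }

/-- the LEFT lane: from the door of `t` to the door of `s` -/
theorem PvfjIn.laneL (I : PvfjIn m F0 Ys Yt ys ds yt dt a b c d) :
    ∃ e' l', PvtrLane (pvfjH m F0) (pvtbD (2 * m + 1) (m + 10) Yt) (pvtbD (2 * m + 1) (m + 10) Ys) e' l' := by
  have hm := I.m10
  obtain ⟨f1, f2, f3⟩ := pvfj_H_facts hm I.fin I.conn
  exact pvtr_lane_exists f1 f2 f3 (pvfj_door_dart hm I.hdt I.hyt (I.hull_t I.hyt) I.ot) (pvfj_door_dart hm I.hds I.hys (I.hull_s I.hys) I.os)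

/-- **NO POCKETS IN THE PATTERN HULL**, in coarse cells: a dart of the contour whose inner cell lies in the blocks of `U₁` and of `U₂`  (`U₁ ⊆ F` 8-connected, contains the cells which touch `Yt`, far from those which touch `Ys`; `U₂` the mirror)
lies on the white lane (`Ys → Yt`) or on the left lane (`Yt → Ys`) -/
theorem PvfjIn.no_pocket (I : PvfjIn m F0 Ys Yt ys ds yt dt a b c d) (h4 : ∀ p ∈ Ys, ∀ q ∈ Yt, 4 ≤ |p.1 - q.1| ∨ 4 ≤ |p.2 - q.2|)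
    (h : PvtrLane (pvfjH m F0) (pvtbD (2 * m + 1) (m + 10) Ys) (pvtbD (2 * m + 1) (m + 10) Yt) e l)
    (h' : PvtrLane (pvfjH m F0) (pvtbD (2 * m + 1) (m + 10) Yt) (pvtbD (2 * m + 1) (m + 10) Ys) e' l') (hx : x ∈ pvtrBd (pvfjH m F0))
    (c1 : TscConn pvtbG8 U₁) (c2 : TscConn pvtbG8 U₂) (s1 : U₁ ⊆ pvtbHull F0) (s2 : U₂ ⊆ pvtbHull F0)
    (x1 : x.1 ∈ pvtbD (2 * m + 1) (m + 3) U₁) (x2 : x.1 ∈ pvtbD (2 * m + 1) (m + 3) U₂) (a1 : pvfjNb F0 Yt ⊆ U₁) (a2 : pvfjNb F0 Ys ⊆ U₂)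
    (d1 : ∀ p ∈ U₁, ∀ q ∈ pvfjNb F0 Ys, PvfjFar p q) (d2 : ∀ p ∈ U₂, ∀ q ∈ pvfjNb F0 Yt, PvfjFar p q) :
    (∃ j, 0 < j ∧ j < l ∧ x = (pvtrStep (pvfjH m F0))^[j] e) ∨ ∃ j, 0 < j ∧ j < l' ∧ x = (pvtrStep (pvfjH m F0))^[j] e' := by
  have hm := I.m10
  exact (I.doors h4).no_pocket h h' hx (pvfj_D_tri (by omega) (by omega) c1) (pvfj_D_tri (by omega) (by omega) c2)
    (pvtb_D_mono (le_refl _) s1) (pvtb_D_mono (le_refl _) s2) x1 x2 (pvtb_D_mono (le_refl _) a1) (pvtb_D_mono (le_refl _) a2)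
    (pvfj_far_disj (by omega) d1 (by omega)) (pvfj_far_disj (by omega) d2 (by omega))

/-- the white lane of a pattern is THE lane -/
theorem PvfjIn.lane_unique (I : PvfjIn m F0 Ys Yt ys ds yt dt a b c d) (h4 : ∀ p ∈ Ys, ∀ q ∈ Yt, 4 ≤ |p.1 - q.1| ∨ 4 ≤ |p.2 - q.2|)
    (h : PvtrLane (pvfjH m F0) (pvtbD (2 * m + 1) (m + 10) Ys) (pvtbD (2 * m + 1) (m + 10) Yt) e l)
    (h' : PvtrLane (pvfjH m F0) (pvtbD (2 * m + 1) (m + 10) Ys) (pvtbD (2 * m + 1) (m + 10) Yt) e' l') : e = e' ∧ l = l' :=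
  (I.doors h4).lane_unique h h'

end doors

/-! ## 15. `Γ` OF ONE LEVEL FROM PATTERNS: doors of record + the reference words `l1` -/

section geo

variable {τ : Type} {𝔓 : PvfjPlug τ} {m : ℤ} {n : ℕ}

/-- the displacement of the word of a pattern, in `ℂ` -/
theorem PvfjPat.disp (π : PvfjPat 𝔓 m n) (hm : 0 ≤ m) (δ : ℝ) :
    ((δ / (2 * (m : ℝ) + 1) : ℝ) : ℂ) * pvtDisp (pvtZ (𝔓.dp π.1.tt)) π.w =
      (pvmgPt δ π.1.cs + pvfjDoor m δ (𝔓.ym π.1.ts) (𝔓.dm π.1.ts)) - (pvmgPt δ π.1.ct + pvfjDoor m δ (𝔓.yp π.1.tt) (𝔓.dp π.1.tt)) := by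
  obtain ⟨-, -, h3, -, -⟩ := π.spec
  have hk : (2 * (m : ℂ) + 1) ≠ 0 := by
    have h0 : (0 : ℝ) ≤ (m : ℝ) := by exact_mod_cast hm
    have h1 : (2 * (m : ℝ) + 1) ≠ 0 := by positivity
    exact_mod_cast h1
  rw [h3, pvfj_A_shift, pvfj_A_shift, pvfj_Pt_eq, pvfj_Pt_eq, pvfjDoor, pvfjDoor]
  push_cast
  field_simp
  ring

theorem pvfj_dir_norm {d : ℤ × ℤ} (h : PvfjDir d) : ‖pvtZ d‖ = 1 := by
  rcases h with rfl | rfl | rfl | rfl <;> simp [pvtZ]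

theorem pvfj_Pt_zero (δ : ℝ) : pvmgPt δ 0 = 0 := by
  rw [pvfj_Pt_eq]
  simp [pvtZ]

/-- **`Γ` OF ONE LEVEL**.   `δ` = side of a coarse cell.   `πu t` = THE `Σ₁` PATTERN of the type `t`: END pin = the plug `t` at the origin, START pin = the reference plug (type `t0`) at the coarse cell `(πu t).1.cs`, `G` = the cells of the thick link `e : u → t`
(so the closing chain of `πu t` runs from the exit door of `t` to the entrance door of `u`, off the collar of `B_t ∪ e ∪ B_u`) -/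
noncomputable def pvfjGeo (𝔓 : PvfjPlug τ) (m : ℤ) (n : ℕ) (δ : ℝ) (hδ : δ ≠ 0) (t0 : τ) (πu : τ → PvfjPat 𝔓 m n)
    (hu : ∀ t, (πu t).1.ct = 0 ∧ (πu t).1.tt = t ∧ (πu t).1.ts = t0) : PvtsGeo τ where
  δ := δ / (2 * (m : ℝ) + 1)
  pout t := pvfjDoor m δ (𝔓.yp t) (𝔓.dp t)
  pin t := pvfjDoor m δ (𝔓.ym t) (𝔓.dm t)
  dout t := pvtZ (𝔓.dp t)
  din t := - pvtZ (𝔓.dm t)
  pin0 := pvfjDoor m δ (𝔓.ym t0) (𝔓.dm t0)
  din0 := - pvtZ (𝔓.dm t0)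
  zu t := pvmgPt δ (πu t).1.cs
  l1 t := (πu t).w
  δ0 := by
    have hm := (πu t0).m10
    have h0 : (0 : ℝ) ≤ (m : ℝ) := by exact_mod_cast (by omega : 0 ≤ m)
    have h1 : (2 * (m : ℝ) + 1) ≠ 0 := by positivity
    exact div_ne_zero hδ h1
  dout1 t := by
    have h := PvfjIn.hdt (πu t).2
    rw [(hu t).2.1] at h
    exact pvfj_dir_norm h
  l1_disp t := by
    have hm := (πu t).m10
    have h := (πu t).disp (by omega) δ
    rw [(hu t).2.1, (hu t).2.2, (hu t).1, pvfj_Pt_zero, zero_add] at h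
    exact h
  l1_dir t := by
    have h := (πu t).spec.2.2.2.1
    rw [(hu t).2.1, (hu t).2.2] at h
    exact h

theorem pvfj_eqns_cite8 : True := by
  have := @pvfjGeo.eq_1
  trivial

end geo

end Claimed.Agent.R289
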