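import Claimed.Agent.R289.Tr.PatP
import Claimed.Agent.R289.Tr.FitP

/-!
# Row 289 (S0537, Cardy for Poisson-Voronoi), THE WALL, ROAD P, file Tr/PatPF : `PvypPat` AT THE PATTERNS OF 138 (`Tr/FitP`: `PvfjPat 𝔓 mm n`)      (pen helper183; prefix `pvyt_`, `pvyt`, `Pvyt`, as `Tr/PatP`)

`Tr/PatP` produces `PvypPat` (58) from `PvytKit PvytOut PvytIn` + the geometric record `PvytGeo`.      HERE: `PvytGeo` is PROVED at every pattern of 138 from ONE containment record per candidate.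
* sec. 1  `pvytSh mm` (fine cells of 138 ⟶ squares `pvtSq δ` of `Tr/Poly`: shift by `(mm, mm)`), closed squares at sup-distance `≥ 2`, translation of `pvtCentres`
* sec. 2  `pvytBo pvytBi` (last cells of the two nozzles), `pvytFull` (`D_{mm+9}(hull B)`: THE BODY WITH ITS HOLES), `pvytBody`, **`PvytCand`** = WHERE THE REGIONS `O Ko Ki` OF A CANDIDATE LIVE (owed by `Tr/LinkGeo` (L5) / the term `pvrxDat`);   `pvytF pvytT pvytE` (path, foreign cells)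
* sec. 3  the path `nozzle cell of t :: C 0 :: … :: C N :: nozzle cell of s` : chain, `Nodup`, last cell, off the foreign cells, first step, centres of the word `π.w`
* sec. 4  `pvyt_path_door` (first door = exit door of record), **`pvyt_geo_fit`** : `PvytGeo` at `π.pat δc`
* sec. 5  **`pvyt_pat_fit`** : `PvypPat D Γ (kit.W ..) a m ε (π.pat δc) (pvskQ qa qk qf 1 |π.w|)`
-/

set_option autoImplicit false

namespace Claimed.Agent.R289

open MeasureTheory Filter Topology Set Claims.C0465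
open scoped ENNReal

/-! ## 1. cells -/

/-- from the fine cells of 138 (`Tr/FitP`: the fine cell `q` is the square with lower left corner `δ (q + mm (1 + i))`) to the squares `pvtSq δ` of `Tr/Poly` -/
def pvytSh (mm : ℤ) (q : ℤ × ℤ) : ℤ × ℤ := q + (mm, mm)

theorem pvyt_sh_inj (mm : ℤ) : Function.Injective (pvytSh mm) := fun _ _ h => add_right_cancel h

theorem pvyt_sh_Z (mm : ℤ) (q : ℤ × ℤ) : pvtZ (pvytSh mm q) = pvtZ q + pvtZ (mm, mm) := pvtZ_add _ _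

theorem pvyt_sh_adj {mm : ℤ} {u v : ℤ × ℤ} (h : pvtbG4.Adj u v) : PvtAdj4 (pvytSh mm u) (pvytSh mm v) := by
  have := pvfj_adj4 h
  unfold PvtAdj4 at this ⊢
  simp only [pvytSh, Prod.fst_add, Prod.snd_add]
  omega

/-- closed squares of two cells at sup-distance `≥ 2` -/
theorem pvyt_sq_disj {δ : ℝ} (hδ : 0 < δ) {p q : ℤ × ℤ} (h : 2 ≤ |p.1 - q.1| ∨ 2 ≤ |p.2 - q.2|) : Disjoint (pvtSq δ p) (pvtSq δ q) := by
  rw [Set.disjoint_left]
  rintro w ⟨h1, h2, h3, h4⟩ ⟨k1, k2, k3, k4⟩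
  have a1 : p.1 < q.1 + 2 := pvccm_int_lt hδ (by push_cast; nlinarith)
  have a2 : q.1 < p.1 + 2 := pvccm_int_lt hδ (by push_cast; nlinarith)
  have a3 : p.2 < q.2 + 2 := pvccm_int_lt hδ (by push_cast; nlinarith)
  have a4 : q.2 < p.2 + 2 := pvccm_int_lt hδ (by push_cast; nlinarith)
  simp only [le_abs] at h
  omega

theorem pvyt_U_disj {δ : ℝ} (hδ : 0 < δ) {A B : Set (ℤ × ℤ)} (h : ∀ p ∈ A, ∀ q ∈ B, 2 ≤ |p.1 - q.1| ∨ 2 ≤ |p.2 - q.2|) : Disjoint (pvtU δ A) (pvtU δ B) := by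
  unfold pvtU
  simp only [Set.disjoint_iUnion_left, Set.disjoint_iUnion_right]
  exact fun q hq p hp => pvyt_sq_disj hδ (h p hp q hq)

theorem pvyt_U_mono (δ : ℝ) {A B : Set (ℤ × ℤ)} (h : A ⊆ B) : pvtU δ A ⊆ pvtU δ B := Set.biUnion_subset_biUnion_left h

/-- translation of the centres of a word -/
theorem pvyt_centres_add (z d s : ℂ) (l : List PvtTurn) : pvtCentres (z + s) d l = (pvtCentres z d l).map (· + s) := by
  rw [pvtCentres_eq_map, pvtCentres_eq_map, List.map_map]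
  refine List.map_congr_left fun j _ => ?_
  simp only [Function.comp]
  ring

/-! ## 2. the candidates and the path of a pattern of 138 -/

section cand

variable {τ : Type}

/-- the last cell of the EXIT nozzle of the candidate with centre cell `c`, type `t` (fine cells of 138) -/
def pvytBo (𝔓 : PvfjPlug τ) (mm : ℤ) (c : ℤ × ℤ) (t : τ) : ℤ × ℤ := pvtbPt mm (𝔓.yp t + c) (𝔓.dp t) (mm + 9) 0

/-- the last cell of the ENTRANCE nozzle -/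
def pvytBi (𝔓 : PvfjPlug τ) (mm : ℤ) (c : ℤ × ℤ) (t : τ) : ℤ × ℤ := pvtbPt mm (𝔓.ym t + c) (𝔓.dm t) (mm + 9) 0

/-- the fine cells of the fattened body `D_{mm+9}(hull B)`;   **THE BODY WITH ITS HOLES** (finding HOLES of 135: a piece of a type may be a ring; the closed region of a funnel contains the hole):
`pvtbHull` = the (8,4) hull of `Tr/Band`, the hull of `pvfjO mm F0 = D_{mm+9}(pvtbHull F0)` which the tiles avoid -/
def pvytFull (𝔓 : PvfjPlug τ) (mm : ℤ) (c : ℤ × ℤ) (t : τ) : Set (ℤ × ℤ) := pvtbD (2 * mm + 1) (mm + 9) (pvfjSh c (pvtbHull (𝔓.B t)))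

/-- the same without the last cells of the two nozzles, in the squares of `Tr/Poly` -/
def pvytBody (𝔓 : PvfjPlug τ) (mm : ℤ) (c : ℤ × ℤ) (t : τ) : Set (ℤ × ℤ) := pvytSh mm '' (pvytFull 𝔓 mm c t \ {pvytBo 𝔓 mm c t, pvytBi 𝔓 mm c t})

/-- **WHERE THE REGIONS OF A CANDIDATE LIVE** (what `Tr/LinkGeo` (L5) owes to the patterns).      `δc` = side of a coarse cell of 138, centre of the candidate `pvmgPt δc c`, fine cells of side `kit.δ = δc / (2 mm + 1)`: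
the state region and the two funnels live in the closed fine cells of `D_{mm+9}(B)`; only the exit (entrance) funnel enters the last cell of the exit (entrance) nozzle, and it stays off the `r`-square of its door. -/
structure PvytCand (D : PvypDat τ) (Γ : ℕ → PvtsGeo τ) (𝔓 : PvfjPlug τ) (mm : ℤ) (δc : ℝ) (m : ℕ) (ε : ℝ) (r : ℝ) (c : ℤ × ℤ) (t : τ) : Prop where
  O_sub : D.O m ε (pvmgPt δc c) t ⊆ pvtU (D.kit m ε).δ (pvytBody 𝔓 mm c t) ×ˢ univ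
  Ko_sub : D.Ko m ε (pvmgPt δc c) t ⊆ (pvtU (D.kit m ε).δ (pvytBody 𝔓 mm c t) ∪
    (pvtSq (D.kit m ε).δ (pvytSh mm (pvytBo 𝔓 mm c t)) \ pvccSq (pvmgPt δc c + (Γ m).pout t) r)) ×ˢ univ
  Ki_sub : D.Ki m ε (pvmgPt δc c) t ⊆ (pvtU (D.kit m ε).δ (pvytBody 𝔓 mm c t) ∪
    (pvtSq (D.kit m ε).δ (pvytSh mm (pvytBi 𝔓 mm c t)) \ pvccSq (pvmgPt δc c + (Γ m).pin t) r)) ×ˢ univ
  dOKo : Disjoint (D.O m ε (pvmgPt δc c) t) (D.Ko m ε (pvmgPt δc c) t)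
  dOKi : Disjoint (D.O m ε (pvmgPt δc c) t) (D.Ki m ε (pvmgPt δc c) t)

variable {𝔓 : PvfjPlug τ} {mm : ℤ} {n : ℕ}

/-- the path of a pattern, fine cells of 138: `0 ↦` last cell of the nozzle of `t`, `i + 1 ↦ C i` (`i ≤ N`), `N + 2 ↦` last cell of the nozzle of `s` -/
noncomputable def pvytF (π : PvfjPat 𝔓 mm n) (i : ℕ) : ℤ × ℤ :=
  if i = 0 then pvytBo 𝔓 mm π.1.ct π.1.tt else if i ≤ π.N + 1 then π.C (i - 1) else pvytBi 𝔓 mm π.1.cs π.1.ts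

/-- the tail of the path, in the squares of `Tr/Poly` -/
noncomputable def pvytT (π : PvfjPat 𝔓 mm n) : List (ℤ × ℤ) := (List.range (π.N + 1)).map fun i => pvytSh mm (pvytF π (i + 2))

/-- the foreign cells of a pattern -/
noncomputable def pvytE (π : PvfjPat 𝔓 mm n) : Set (ℤ × ℤ) :=
  pvytSh mm '' (pvfjO mm (π.1.F0 𝔓) \ {pvytBo 𝔓 mm π.1.ct π.1.tt, pvytBi 𝔓 mm π.1.cs π.1.ts})

theorem pvyt_eqns_cite2 : True := by
  have := @pvytSh.eq_1; have := @pvytBo.eq_1; have := @pvytBi.eq_1; have := @pvytFull.eq_1; have := @pvytBody.eq_1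
  have := @pvytF.eq_1; have := @pvytT.eq_1; have := @pvytE.eq_1
  trivial

theorem pvyt_F_zero (π : PvfjPat 𝔓 mm n) : pvytF π 0 = pvytBo 𝔓 mm π.1.ct π.1.tt := if_pos rfl

theorem pvyt_F_C (π : PvfjPat 𝔓 mm n) {i : ℕ} (hi : i ≤ π.N) : pvytF π (i + 1) = π.C i := by
  unfold pvytF
  rw [if_neg (by omega), if_pos (by omega)]
  rfl

theorem pvyt_F_last (π : PvfjPat 𝔓 mm n) : pvytF π (π.N + 2) = pvytBi 𝔓 mm π.1.cs π.1.ts := by
  unfold pvytF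
  rw [if_neg (by omega), if_neg (by omega)]

/-- the path as ONE list -/
theorem pvyt_path_eq (π : PvfjPat 𝔓 mm n) :
    pvytSh mm (pvytF π 0) :: pvytSh mm (pvytF π 1) :: pvytT π = (List.range (π.N + 3)).map fun i => pvytSh mm (pvytF π i) := by
  unfold pvytT
  rw [List.range_succ_eq_map (n := π.N + 2), List.range_succ_eq_map (n := π.N + 1)]
  simp only [List.map_cons, List.map_map]
  rfl

theorem pvyt_T_length (π : PvfjPat 𝔓 mm n) : (pvytT π).length = π.N + 1 := by simp [pvytT]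

end cand

/-! ## 3. the path -/

section path

variable {τ : Type} {𝔓 : PvfjPlug τ} {mm : ℤ} {n : ℕ} (π : PvfjPat 𝔓 mm n)

theorem pvyt_In : PvfjIn mm (π.1.F0 𝔓) (π.1.Ys 𝔓) (π.1.Yt 𝔓) (𝔓.ym π.1.ts + π.1.cs) (𝔓.dm π.1.ts) (𝔓.yp π.1.tt + π.1.ct) (𝔓.dp π.1.tt) (-(n : ℤ)) n (-(n : ℤ)) n := π.2

theorem pvyt_Bo_mem : pvytBo 𝔓 mm π.1.ct π.1.tt ∈ pvfjO mm (π.1.F0 𝔓) :=
  pvfj_A_back (pvyt_In π).m10 (pvyt_In π).hdt ((pvyt_In π).hull_t (pvyt_In π).hyt)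

theorem pvyt_Bi_mem : pvytBi 𝔓 mm π.1.cs π.1.ts ∈ pvfjO mm (π.1.F0 𝔓) :=
  pvfj_A_back (pvyt_In π).m10 (pvyt_In π).hds ((pvyt_In π).hull_s (pvyt_In π).hys)

theorem pvyt_Bi_ne_Bo : pvytBi 𝔓 mm π.1.cs π.1.ts ≠ pvytBo 𝔓 mm π.1.ct π.1.tt := by
  have I := pvyt_In π
  have hm := I.m10
  have h1 : pvytBi 𝔓 mm π.1.cs π.1.ts ∈ pvtbD (2 * mm + 1) (mm + 9) (π.1.Ys 𝔓) := pvfj_noz_mem I.hds I.hys ⟨by omega, by omega⟩ ⟨by omega, by omega⟩
  have h2 : pvytBo 𝔓 mm π.1.ct π.1.tt ∈ pvtbD (2 * mm + 1) (mm + 9) (π.1.Yt 𝔓) := pvfj_noz_mem I.hdt I.hyt ⟨by omega, by omega⟩ ⟨by omega, by omega⟩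
  intro e
  rw [e] at h1
  exact Set.disjoint_left.1 (pvfj_far_disj (by omega) I.apart (by omega)) h1 h2

theorem pvyt_C_off {i : ℕ} (hi : i ≤ π.N) : π.C i ∉ pvfjO mm (π.1.F0 𝔓) := (π.spec.1.C_in i hi).2

theorem pvyt_F_adj {i : ℕ} (hi : i < π.N + 2) : pvtbG4.Adj (pvytF π i) (pvytF π (i + 1)) := by
  have I := pvyt_In π
  have O := π.spec.1
  rcases i with _ | j
  · rw [pvyt_F_zero, pvyt_F_C π (Nat.zero_le _), O.C_0]
    exact pvfj_A_adj I.hdt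
  · rcases (by omega : j < π.N ∨ j = π.N) with hj | hj
    · rw [pvyt_F_C π hj.le, pvyt_F_C π (show j + 1 ≤ π.N by omega)]
      exact O.cor.step j hj
    · subst hj
      rw [pvyt_F_C π le_rfl, pvyt_F_last, O.C_n]
      exact (pvfj_A_adj I.hds).symm

theorem pvyt_F_inj {i j : ℕ} (hi : i ≤ π.N + 2) (hj : j ≤ π.N + 2) (h : pvytF π i = pvytF π j) : i = j := by
  have O := π.spec.1
  have key : ∀ i, i ≤ π.N + 2 → (i = 0 ∧ pvytF π i = pvytBo 𝔓 mm π.1.ct π.1.tt) ∨ (∃ k, k ≤ π.N ∧ i = k + 1 ∧ pvytF π i = π.C k) ∨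
      (i = π.N + 2 ∧ pvytF π i = pvytBi 𝔓 mm π.1.cs π.1.ts) := by
    intro i hi
    rcases i with _ | k
    · exact Or.inl ⟨rfl, pvyt_F_zero π⟩
    · rcases (by omega : k ≤ π.N ∨ k = π.N + 1) with hk | hk
      · exact Or.inr (Or.inl ⟨k, hk, rfl, pvyt_F_C π hk⟩)
      · subst hk
        exact Or.inr (Or.inr ⟨rfl, pvyt_F_last π⟩)
  rcases key i hi with ⟨a1, a2⟩ | ⟨k, hk, a1, a2⟩ | ⟨a1, a2⟩ <;> rcases key j hj with ⟨b1, b2⟩ | ⟨k', hk', b1, b2⟩ | ⟨b1, b2⟩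
  · omega
  · exact absurd (by rw [← b2, ← h, a2]; exact pvyt_Bo_mem π) (pvyt_C_off π hk')
  · exact absurd (by rw [← b2, ← h, a2]) (pvyt_Bi_ne_Bo π)
  · exact absurd (by rw [← a2, h, b2]; exact pvyt_Bo_mem π) (pvyt_C_off π hk)
  · have := pvtb_cor_inj O.cor hk hk' (by rw [← a2, ← b2, h])
    omega
  · exact absurd (by rw [← a2, h, b2]; exact pvyt_Bi_mem π) (pvyt_C_off π hk)
  · exact absurd (by rw [← a2, h, b2]) (pvyt_Bi_ne_Bo π)
  · exact absurd (by rw [← b2, ← h, a2]; exact pvyt_Bi_mem π) (pvyt_C_off π hk')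
  · omega

theorem pvyt_path_chain : List.IsChain PvtAdj4 (pvytSh mm (pvytF π 0) :: pvytSh mm (pvytF π 1) :: pvytT π) := by
  rw [pvyt_path_eq, List.isChain_iff_getElem]
  intro i hi
  simp only [List.length_map, List.length_range] at hi
  simp only [List.getElem_map, List.getElem_range]
  exact pvyt_sh_adj (pvyt_F_adj π (by omega))

theorem pvyt_path_nodup : (pvytSh mm (pvytF π 0) :: pvytSh mm (pvytF π 1) :: pvytT π).Nodup := by
  rw [pvyt_path_eq]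
  refine List.Nodup.map_on ?_ List.nodup_range
  intro i hi j hj h
  rw [List.mem_range] at hi hj
  exact pvyt_F_inj π (by omega) (by omega) (pvyt_sh_inj mm h)

theorem pvyt_path_last : (pvytSh mm (pvytF π 0) :: pvytSh mm (pvytF π 1) :: pvytT π)[(pvytT π).length + 1]'(by simp) = pvytSh mm (pvytBi 𝔓 mm π.1.cs π.1.ts) := by
  have e := pvyt_path_eq π
  have hl := pvyt_T_length π
  rw [List.getElem_of_eq e (by simp [hl])]
  simp only [List.getElem_map, List.getElem_range, hl]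
  rw [pvyt_F_last]

theorem pvyt_path_off : ∀ q ∈ pvytSh mm (pvytF π 0) :: pvytSh mm (pvytF π 1) :: pvytT π, q ∉ pvytE π := by
  rw [pvyt_path_eq]
  intro q hq
  obtain ⟨i, hi, rfl⟩ := List.mem_map.1 hq
  rw [List.mem_range] at hi
  rintro ⟨p, ⟨hp, hn⟩, e⟩
  have e' := pvyt_sh_inj mm e
  subst e'
  simp only [Set.mem_insert_iff, Set.mem_singleton_iff, not_or] at hn
  rcases i with _ | k
  · exact hn.1 (pvyt_F_zero π)
  · rcases (by omega : k ≤ π.N ∨ k = π.N + 1) with hk | hk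
    · rw [pvyt_F_C π hk] at hp
      exact pvyt_C_off π hk hp
    · subst hk
      exact hn.2 (pvyt_F_last π)

/-- the first step of the path is the direction of the exit nozzle -/
theorem pvyt_path_dir : pvtZ (pvytSh mm (pvytF π 1)) - pvtZ (pvytSh mm (pvytF π 0)) = pvtZ (𝔓.dp π.1.tt) := by
  rw [pvyt_sh_Z, pvyt_sh_Z, pvyt_F_zero, pvyt_F_C π (Nat.zero_le _), π.spec.1.C_0, pvfj_A_eq, pvfj_Z_add]
  unfold pvytBo
  ring

/-- the centres of the word of the pattern are the cells of the path -/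
theorem pvyt_path_cen : pvtCentres (pvtZ (pvytSh mm (pvytF π 1))) (pvtZ (pvytSh mm (pvytF π 1)) - pvtZ (pvytSh mm (pvytF π 0))) π.w
    = (pvytSh mm (pvytF π 1) :: pvytT π).map pvtZ := by
  obtain ⟨-, -, -, -, h5⟩ := π.spec
  rw [pvyt_path_dir, pvyt_sh_Z, pvyt_F_C π (Nat.zero_le _), pvyt_centres_add, h5]
  have e : pvytSh mm (π.C 0) :: pvytT π = (((List.range (π.N + 1)).map π.C) ++ [pvtbPt mm (𝔓.ym π.1.ts + π.1.cs) (𝔓.dm π.1.ts) (mm + 9) 0]).map (pvytSh mm) := by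
    have e1 := pvyt_path_eq π
    rw [List.range_succ_eq_map (n := π.N + 2), List.map_cons, List.cons_inj_right, List.map_map, pvyt_F_C π (Nat.zero_le _)] at e1
    rw [e1, List.range_succ (n := π.N + 1), List.map_append, List.map_append, List.map_map]
    congr 1
    · refine List.map_congr_left fun i hi => ?_
      rw [List.mem_range] at hi
      simp only [Function.comp]
      rw [show Nat.succ i = i + 1 from rfl, pvyt_F_C π (by omega)]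
    · simp only [List.map_cons, List.map_nil, Function.comp]
      rw [show Nat.succ (π.N + 1) = π.N + 2 from rfl, pvyt_F_last]
      rfl
  rw [e, List.map_map, List.map_map]
  refine List.map_congr_left fun q _ => ?_
  simp only [Function.comp]
  rw [pvyt_sh_Z]

end path

/-! ## 4. `PvytGeo` at a pattern of 138 -/

section fit

variable {τ : Type} {𝔓 : PvfjPlug τ} {mm : ℤ} {n : ℕ} {D : PvypDat τ} {Γ : ℕ → PvtsGeo τ} {m : ℕ} {ε δc r : ℝ}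

/-- the first door of the path is the exit door of record of `t` -/
theorem pvyt_path_door (π : PvfjPat 𝔓 mm n) {δ : ℝ} (hm : 0 ≤ mm) (hδ : δ = δc / (2 * (mm : ℝ) + 1)) :
    pvmgPt δc π.1.ct + pvfjDoor mm δc (𝔓.yp π.1.tt) (𝔓.dp π.1.tt) = (pvtCtr δ (pvytSh mm (pvytF π 0)) + pvtCtr δ (pvytSh mm (pvytF π 1))) / 2 := by
  have hk : (2 * (mm : ℂ) + 1) ≠ 0 := by
    have h0 : (0 : ℝ) ≤ (mm : ℝ) := by exact_mod_cast hm
    have h1 : (2 * (mm : ℝ) + 1) ≠ 0 := by positivity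
    exact_mod_cast h1
  have e0 : pvtZ (pvytF π 0) = pvtZ (pvfjA mm (𝔓.yp π.1.tt + π.1.ct) (𝔓.dp π.1.tt)) - pvtZ (𝔓.dp π.1.tt) := by
    rw [pvyt_F_zero, pvfj_A_eq, pvfj_Z_add]
    unfold pvytBo
    ring
  have es : pvtZ ((mm, mm) : ℤ × ℤ) = (mm : ℂ) * (1 + Complex.I) := by
    simp only [pvtZ]
    ring
  rw [pvccm_ctr, pvccm_ctr, pvyt_sh_Z, pvyt_sh_Z, e0, pvyt_F_C π (Nat.zero_le _), π.spec.1.C_0, pvfj_A_shift, pvfj_Pt_eq, pvfjDoor, es, hδ]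
  push_cast
  field_simp
  ring

/-- the hull commutes with the shifts -/
theorem pvyt_sh_hull (c : ℤ × ℤ) (S : Set (ℤ × ℤ)) : pvfjSh c (pvtbHull S) = pvtbHull (pvfjSh c S) := (pvmg_shift_hull4 c S).symm

/-- the fattened body without its holes -/
theorem pvyt_full_of_B (𝔓 : PvfjPlug τ) (mm : ℤ) (c : ℤ × ℤ) (t : τ) : pvtbD (2 * mm + 1) (mm + 9) (pvfjSh c (𝔓.B t)) ⊆ pvytFull 𝔓 mm c t :=
  pvtb_D_mono le_rfl (Set.image_mono pvtb_hull_sub)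

theorem pvyt_full_sub_t (π : PvfjPat 𝔓 mm n) : pvytFull 𝔓 mm π.1.ct π.1.tt ⊆ pvfjO mm (π.1.F0 𝔓) :=
  pvtb_D_mono le_rfl (by
    rw [pvyt_sh_hull]
    exact pvtb_hull_mono (show pvfjSh π.1.ct (𝔓.B π.1.tt) ⊆ π.1.F0 𝔓 from fun _ h => Or.inr h))

theorem pvyt_full_sub_s (π : PvfjPat 𝔓 mm n) : pvytFull 𝔓 mm π.1.cs π.1.ts ⊆ pvfjO mm (π.1.F0 𝔓) :=
  pvtb_D_mono le_rfl (by
    rw [pvyt_sh_hull]
    exact pvtb_hull_mono (show pvfjSh π.1.cs (𝔓.B π.1.ts) ⊆ π.1.F0 𝔓 from fun _ h => Or.inl (Or.inr h)))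

theorem pvyt_Bo_full (h𝔓 : 𝔓.WF) (hm : 0 ≤ mm) (c : ℤ × ℤ) (t : τ) : pvytBo 𝔓 mm c t ∈ pvytFull 𝔓 mm c t :=
  pvfj_noz_mem (h𝔓.dp_dir t) (pvfj_sh_mem (pvtb_hull_sub (h𝔓.Yp_sub t (h𝔓.yp_mem t)))) ⟨by omega, by omega⟩ ⟨by omega, by omega⟩

theorem pvyt_Bi_full (h𝔓 : 𝔓.WF) (hm : 0 ≤ mm) (c : ℤ × ℤ) (t : τ) : pvytBi 𝔓 mm c t ∈ pvytFull 𝔓 mm c t :=
  pvfj_noz_mem (h𝔓.dm_dir t) (pvfj_sh_mem (pvtb_hull_sub (h𝔓.Ym_sub t (h𝔓.ym_mem t)))) ⟨by omega, by omega⟩ ⟨by omega, by omega⟩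

/-- all the regions of a candidate live in the closed fine cells of `D_{mm+9}(B)` -/
theorem PvytCand.all_sub {c : ℤ × ℤ} {t : τ} (h : PvytCand D Γ 𝔓 mm δc m ε r c t) (h𝔓 : 𝔓.WF) (hm : 0 ≤ mm) :
    D.O m ε (pvmgPt δc c) t ⊆ pvtU (D.kit m ε).δ (pvytSh mm '' pvytFull 𝔓 mm c t) ×ˢ univ ∧
    D.Ko m ε (pvmgPt δc c) t ⊆ pvtU (D.kit m ε).δ (pvytSh mm '' pvytFull 𝔓 mm c t) ×ˢ univ ∧
    D.Ki m ε (pvmgPt δc c) t ⊆ pvtU (D.kit m ε).δ (pvytSh mm '' pvytFull 𝔓 mm c t) ×ˢ univ := by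
  have hb : pvtU (D.kit m ε).δ (pvytBody 𝔓 mm c t) ⊆ pvtU (D.kit m ε).δ (pvytSh mm '' pvytFull 𝔓 mm c t) :=
    pvyt_U_mono _ (Set.image_mono Set.sdiff_subset)
  have hsq : ∀ q ∈ pvytFull 𝔓 mm c t, ∀ S : Set ℂ, pvtSq (D.kit m ε).δ (pvytSh mm q) \ S ⊆ pvtU (D.kit m ε).δ (pvytSh mm '' pvytFull 𝔓 mm c t) :=
    fun q hq S => Set.sdiff_subset.trans (Set.subset_biUnion_of_mem (u := fun z => pvtSq (D.kit m ε).δ z) (Set.mem_image_of_mem _ hq))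
  exact ⟨h.O_sub.trans (Set.prod_mono hb le_rfl),
    h.Ko_sub.trans (Set.prod_mono (Set.union_subset hb (hsq _ (pvyt_Bo_full h𝔓 hm c t) _)) le_rfl),
    h.Ki_sub.trans (Set.prod_mono (Set.union_subset hb (hsq _ (pvyt_Bi_full h𝔓 hm c t) _)) le_rfl)⟩

/-- **THE GEOMETRY OF THE CHAIN AT A PATTERN OF 138.**      `far` : the two bodies WITH THEIR HOLES do not touch (coarse cells);   `Ct Cs` : where the regions of the two candidates live. -/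
theorem pvyt_geo_fit (π : PvfjPat 𝔓 mm n) (h𝔓 : 𝔓.WF) (R : PvccKitRef (D.kit m ε) r) (hδ : (D.kit m ε).δ = δc / (2 * (mm : ℝ) + 1))
    (hpo : ∀ t, (Γ m).pout t = pvfjDoor mm δc (𝔓.yp t) (𝔓.dp t)) (hdo : ∀ t, (Γ m).dout t = pvtZ (𝔓.dp t))
    (far : ∀ p ∈ pvfjSh π.1.ct (pvtbHull (𝔓.B π.1.tt)), ∀ q ∈ pvfjSh π.1.cs (pvtbHull (𝔓.B π.1.ts)), PvfjFar p q)
    (Ct : PvytCand D Γ 𝔓 mm δc m ε r π.1.ct π.1.tt) (Cs : PvytCand D Γ 𝔓 mm δc m ε r π.1.cs π.1.ts) :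
    PvytGeo D Γ m ε (π.pat δc) r (pvytSh mm (pvytF π 0)) (pvytSh mm (pvytF π 1)) (pvytSh mm (pvytBi 𝔓 mm π.1.cs π.1.ts)) (pvytT π) (pvytE π) := by
  have hm : 10 ≤ mm := (pvyt_In π).m10
  have hm0 : 0 ≤ mm := by omega
  obtain ⟨t1, t2, t3⟩ := Ct.all_sub h𝔓 hm0
  obtain ⟨s1, s2, s3⟩ := Cs.all_sub h𝔓 hm0
  -- the two fattened bodies are far apart
  have hdis : Disjoint (pvytFull 𝔓 mm π.1.ct π.1.tt) (pvytFull 𝔓 mm π.1.cs π.1.ts) := pvfj_far_disj (by omega) far (by omega)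
  have hU : Disjoint (pvtU (D.kit m ε).δ (pvytSh mm '' pvytFull 𝔓 mm π.1.ct π.1.tt) ×ˢ (univ : Set Bool))
      (pvtU (D.kit m ε).δ (pvytSh mm '' pvytFull 𝔓 mm π.1.cs π.1.ts) ×ˢ (univ : Set Bool)) := by
    refine Set.Disjoint.set_prod_left (pvyt_U_disj R.δ0 ?_) _ _
    rintro _ ⟨p, hp, rfl⟩ _ ⟨q, hq, rfl⟩
    have := pvfj_far_gap' (by omega) far hp hq
    simp only [pvytSh, Prod.fst_add, Prod.snd_add, add_sub_add_right_eq_sub]
    rcases this with h | h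
    · exact Or.inl (by omega)
    · exact Or.inr (by omega)
  -- the bodies are foreign cells
  have bt : pvytBody 𝔓 mm π.1.ct π.1.tt ⊆ pvytE π := by
    rintro _ ⟨q, ⟨hq, hn⟩, rfl⟩
    simp only [Set.mem_insert_iff, Set.mem_singleton_iff, not_or] at hn
    refine ⟨q, ⟨pvyt_full_sub_t π hq, ?_⟩, rfl⟩
    simp only [Set.mem_insert_iff, Set.mem_singleton_iff, not_or]
    refine ⟨hn.1, ?_⟩
    rintro rfl
    exact Set.disjoint_left.1 hdis hq (pvyt_Bi_full h𝔓 hm0 _ _)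
  have bs : pvytBody 𝔓 mm π.1.cs π.1.ts ⊆ pvytE π := by
    rintro _ ⟨q, ⟨hq, hn⟩, rfl⟩
    simp only [Set.mem_insert_iff, Set.mem_singleton_iff, not_or] at hn
    refine ⟨q, ⟨pvyt_full_sub_s π hq, ?_⟩, rfl⟩
    simp only [Set.mem_insert_iff, Set.mem_singleton_iff, not_or]
    refine ⟨?_, hn.2⟩
    rintro rfl
    exact Set.disjoint_left.1 hdis (pvyt_Bo_full h𝔓 hm0 _ _) hq
  have z1 : ∀ {A : Set (ℤ × ℤ)}, A ⊆ pvytE π → pvtU (D.kit m ε).δ A ⊆ pvytZone (D.kit m ε).δ r (pvytE π) (pvytSh mm (pvytF π 0)) ((π.pat δc).zt + (Γ m).pout (π.pat δc).tt)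
      (pvytSh mm (pvytBi 𝔓 mm π.1.cs π.1.ts)) ((π.pat δc).zs + (Γ m).pin (π.pat δc).ts) :=
    fun hA => (pvyt_U_mono _ hA).trans (Set.subset_union_left.trans Set.subset_union_left)
  exact
    { ref := R
      chain := pvyt_path_chain π
      nodup := pvyt_path_nodup π
      cen := pvyt_path_cen π
      last := pvyt_path_last π
      door := by
        show pvmgPt δc π.1.ct + (Γ m).pout π.1.tt = _
        rw [hpo]
        exact pvyt_path_door π hm0 hδ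
      dir := by
        show (Γ m).dout π.1.tt = _
        rw [hdo, pvyt_path_dir]
      off := pvyt_path_off π
      Ot := Ct.O_sub.trans (Set.prod_mono (z1 bt) le_rfl)
      Os := Cs.O_sub.trans (Set.prod_mono (z1 bs) le_rfl)
      Ko := Ct.Ko_sub.trans (Set.prod_mono (Set.union_subset (z1 bt) (by
        rw [pvyt_F_zero]
        exact Set.subset_union_right.trans Set.subset_union_left)) le_rfl)
      Ki := Cs.Ki_sub.trans (Set.prod_mono (Set.union_subset (z1 bs) Set.subset_union_right) le_rfl)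
      dOO := hU.mono t1 s1
      dKK := hU.mono t2 s3
      dOtKo := Ct.dOKo
      dOtKi := hU.mono t1 s3
      dOsKo := (hU.mono t2 s1).symm
      dOsKi := Cs.dOKi }

end fit

/-! ## 5. the record of 58 at a pattern of 138 -/

section roof

variable {τ : Type} {𝔓 : PvfjPlug τ} {mm : ℤ} {n : ℕ} {D : PvypDat τ} {Γ : ℕ → PvtsGeo τ} {a : ℂ} {m : ℕ} {ε δc r : ℝ} {β' qa qk qf : ℝ≥0∞}

/-- **`PvypPat` AT A PATTERN OF 138** (`Pat m := PvfjPat 𝔓 mm n`, `pat := PvfjPat.pat δc`), doors of record of `pvfj_pat_ok` -/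
theorem pvyt_pat_fit (π : PvfjPat 𝔓 mm n) (h𝔓 : 𝔓.WF) (R : PvccKitRef (D.kit m ε) r) (del : (D.kit m ε).δ = (Γ m).δ) (hδ : (Γ m).δ = δc / (2 * (mm : ℝ) + 1))
    (hpo : ∀ t, (Γ m).pout t = pvfjDoor mm δc (𝔓.yp t) (𝔓.dp t)) (hdo : ∀ t, (Γ m).dout t = pvtZ (𝔓.dp t))
    (hpi : ∀ t, (Γ m).pin t = pvfjDoor mm δc (𝔓.ym t) (𝔓.dm t)) (hdi : ∀ t, (Γ m).din t = - pvtZ (𝔓.dm t))
    (far : ∀ p ∈ pvfjSh π.1.ct (pvtbHull (𝔓.B π.1.tt)), ∀ q ∈ pvfjSh π.1.cs (pvtbHull (𝔓.B π.1.ts)), PvfjFar p q)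
    (hK : PvytKit D a m ε β' qk)
    (hO : PvytOut D Γ a m ε (pvmgPt δc π.1.ct) π.1.tt qa) (hI : PvytIn D Γ a m ε (pvmgPt δc π.1.cs) π.1.ts qf)
    (Ct : PvytCand D Γ 𝔓 mm δc m ε r π.1.ct π.1.tt) (Cs : PvytCand D Γ 𝔓 mm δc m ε r π.1.cs π.1.ts) :
    PvypPat D Γ ((D.kit m ε).W (pvP ε) (D.X₀ m ε a)) a m ε (π.pat δc) (pvskQ qa qk qf 1 (π.pat δc).l.length) :=
  pvyt_pat (π := π.pat δc) hK hO hI (pvyt_geo_fit π h𝔓 R (del.trans hδ) hpo hdo far Ct Cs)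
    (pvfj_pat_ok (Γ m) (by have := (pvyt_In π).m10; omega) hδ hpo hdo hpi hdi π) del

end roof

end Claimed.Agent.R289
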