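import Claimed.Agent.R289.Exit.CoverP

/-!
# Row 289 (S0537, Cardy for Poisson-Voronoi), THE WALL, ROAD P, file Tr/LinkGam : `Γ` OF ROAD P      (pen helper114; post of 273, ids 84732 86302; prefix `pvlz_`, `pvlz`, `Pvlz`)

WHAT.   The geometry `Γ m : PvtsGeo T` of road P: doors of record of 138 (`Tr/FitP` sec. 11, refined by 236 `Tr/CellRef`), REFERENCE PLUG `u`, its place `zu t`, the reference word `l1 t`.
HOW.    (138, `pvfjGeo`) the `Σ₁` chain of the type `t` is the CLOSING CHAIN OF A PATTERN: end pin = the plug `t` at the origin, start pin = the reference plug at the cell `cu t`, "arc" = the cells of the thick link `e : u → t`.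
        (S1 of 273) the reference plug is NOT a type of the menu (its admission would be a new debt): it is the cell-kit plug of 34 at the scale of the menu cells.      So `Tr/FitP` is used at `Option T`:
        `none` = the reference plug (body = box of half side 8 menu cells, WEST door: `din0 = 1`), `some t` = the plug of the menu.
GEOMETRY (menu cells).      `ρ⁻(t) = q 0 + ℕ a⁻` = the entrance ray of the type, `ρ⁺(t) = q 10 + ℕ a⁺` = the exit ray (axis directions).      `u` and the part of `e` outside the plug live INSIDE `N^32 (ρ⁻)`, beyond the box `nBx + 50`: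
        `a⁻ = W`: `u` sits on the ray;   `a⁻ = N, S`: `u` is 24 cells WEST of the end of the ray, `e` goes east and turns;   `a⁻ = E`: `u` is 24 cells NORTH of the ray, `e` goes east, makes a U-turn to the right and comes back along the ray.
        Access of the exit door of `t`: `E⁺(t) ∪ ρ⁺(t)`.      Access of the door of `u`: the ray to the WEST (to the NORTH if `a⁻ = E`) from its front.
INPUT.  ONE CLAUSE ON TYPES: **`PvlzHasAcc 𝔑 τ`** (`∃ a⁺ a⁻, PvlzAcc 𝔑 τ a⁺ a⁻`), to be added to the menu of record (8) and proved at FIT time (164, 8: tips on the circle `6 b`, dominant coordinate direction, `NR₁`).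
OUTPUT. `pvlzGam`, `pvlz_doors : PvrcDoors ..`, `pvlz_zu`, `pvlz_zu_norm`, `pvlz_din0`, `pvlz_l1` (`l1 t` = word of the pattern `pvlzPat`, so ALL of `PvfjPat.spec` applies), the sets `pvlzAx` (axis of `e` outside the plug), `pvlzCu`.
-/

set_option autoImplicit false

namespace Claimed.Agent.R289

open Relation Claims.C0467 Claimed.Agent.R291

/-! ## 0. tools -/

section tools

variable {E E' : Set (ℤ × ℤ)} {k : ℕ}

/-- collars of 8-connected sets are 8-connected -/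
theorem pvlz_N_conn8 (hE : TscConn pvtbG8 E) : TscConn pvtbG8 (pvtwN k E) := by
  have key : ∀ u ∈ pvtwN k E, ∃ z ∈ E, TscR pvtbG8 (pvtwN k E) u z := by
    rintro u ⟨z, hz, h1, h2, h3, h4⟩
    refine ⟨z, hz, ?_⟩
    have hsub : tscBox (z.1 - k) (z.1 + k) (z.2 - k) (z.2 + k) ⊆ pvtwN k E := by
      rintro w ⟨a1, a2, a3, a4⟩
      exact ⟨z, hz, by omega, by omega, by omega, by omega⟩
    exact tsc_R_mono hsub (pvtb_R_le (fun _ _ => pvtb_G4_G8)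
      (pvtb_box_conn _ _ _ _ u ⟨by omega, by omega, by omega, by omega⟩ z ⟨by omega, by omega, by omega, by omega⟩))
  intro u hu v hv
  obtain ⟨z, hz, r1⟩ := key u hu
  obtain ⟨z', hz', r2⟩ := key v hv
  exact tsc_R_trans r1 (tsc_R_trans (tsc_R_mono pvtw_N_sub (hE z hz z' hz')) (tsc_R_symm r2))

theorem pvlz_div_le {K a b : ℤ} (hK : 0 < K) {j : ℕ} (h : a ≤ b + j) : a / K ≤ b / K + j := by
  have h1 : a ≤ b + (j : ℤ) * K := by
    have : (j : ℤ) ≤ (j : ℤ) * K := by nlinarith [Int.natCast_nonneg j]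
    omega
  calc a / K ≤ (b + (j : ℤ) * K) / K := Int.ediv_le_ediv hK h1
    _ = b / K + j := Int.add_mul_ediv_right _ _ hK.ne'

/-- a collar of a refined set lies in the refinement of the collar (ANY factor `≥ 1`) -/
theorem pvlz_N_ref {K : ℤ} (hK : 0 < K) (j : ℕ) (E : Set (ℤ × ℤ)) : pvtwN j (pvrcRef K E) ⊆ pvrcRef K (pvtwN j E) := by
  rintro c ⟨z, hz, h1, h2, h3, h4⟩
  exact ⟨(z.1 / K, z.2 / K), hz, pvlz_div_le hK h1, pvlz_div_le hK h2, pvlz_div_le hK h3, pvlz_div_le hK h4⟩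

theorem pvlz_sh_zero (E : Set (ℤ × ℤ)) : pvfjSh 0 E = E := by
  unfold pvfjSh
  simp

/-- the refinement of a box, in a box -/
theorem pvlz_ref_box {K : ℤ} (hK : 0 < K) (n : ℕ) : pvrcRef K (pvmnBox n) ⊆ tscBox (-(K * n)) (K * n + K - 1) (-(K * n)) (K * n + K - 1) := by
  intro c hc
  obtain ⟨p, ⟨p1, p2, p3, p4⟩, h1, h2, h3, h4⟩ := (pvrc_ref_iff hK).1 hc
  have a1 : K * p.1 ≤ K * n := mul_le_mul_of_nonneg_left p2 hK.le
  have a2 : K * (-(n : ℤ)) ≤ K * p.1 := mul_le_mul_of_nonneg_left p1 hK.le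
  have a3 : K * p.2 ≤ K * n := mul_le_mul_of_nonneg_left p4 hK.le
  have a4 : K * (-(n : ℤ)) ≤ K * p.2 := mul_le_mul_of_nonneg_left p3 hK.le
  rw [mul_neg] at a2 a4
  exact ⟨by omega, by omega, by omega, by omega⟩

/-- the corner cell of a block off the box is off the refined box -/
theorem pvlz_ref_off {K : ℤ} (hK : 0 < K) {n : ℕ} {w : ℤ × ℤ} (hw : w ∉ pvmnBox n) : (K * w.1, K * w.2) ∉ tscBox (-(K * n)) (K * n + K - 1) (-(K * n)) (K * n + K - 1) := by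
  rintro ⟨h1, h2, h3, h4⟩
  simp only at h1 h2 h3 h4
  apply hw
  refine ⟨?_, ?_, ?_, ?_⟩
  · by_contra hc
    have : w.1 + 1 ≤ -(n : ℤ) := by omega
    nlinarith
  · by_contra hc
    have : (n : ℤ) + 1 ≤ w.1 := by omega
    nlinarith
  · by_contra hc
    have : w.2 + 1 ≤ -(n : ℤ) := by omega
    nlinarith
  · by_contra hc
    have : (n : ℤ) + 1 ≤ w.2 := by omega
    nlinarith

theorem pvlz_corner_mem {K : ℤ} (hK : 0 < K) {w : ℤ × ℤ} (hw : w ∈ E) : (K * w.1, K * w.2) ∈ pvrcRef K E :=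
  (pvrc_ref_iff hK).2 ⟨w, hw, le_rfl, by simp only; omega, le_rfl, by simp only; omega⟩

open Classical in
/-- a finite set of cells as a `Finset` -/
noncomputable def pvlzFin (E : Set (ℤ × ℤ)) : Finset (ℤ × ℤ) := if h : E.Finite then h.toFinset else ∅

theorem pvlz_fin_coe (h : E.Finite) : (pvlzFin E : Set (ℤ × ℤ)) = E := by
  unfold pvlzFin
  rw [dif_pos h]
  exact h.coe_toFinset

/-- two sets with disjoint collars are far apart -/
theorem pvlz_far_of_disj {i j : ℕ} (h : Disjoint (pvtwN i E) (pvtwN j E')) {x y : ℤ × ℤ} (hx : x ∈ E) (hy : y ∈ E') :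
    (i : ℤ) + j < |x.1 - y.1| ∨ (i : ℤ) + j < |x.2 - y.2| := by
  by_contra hc
  push Not at hc
  obtain ⟨h1, h2⟩ := hc
  rw [abs_le] at h1 h2
  have hd := Set.disjoint_left.1 h
  refine @hd (max (x.1 - i) (y.1 - j), max (x.2 - i) (y.2 - j)) ⟨x, hx, ?_, ?_, ?_, ?_⟩ ⟨y, hy, ?_, ?_, ?_, ?_⟩ <;> simp only <;> omega

end tools

/-! ## 1. a `Σ₁` pattern from data in MENU cells -/

/-- **THE CONTRACT IN MENU CELLS**: end pin = the plug `tt` at the origin, start pin = the plug `ts` at the cell `cs`, `G` = the cells of the thick link, `nT` = half side of a box which contains everything -/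
structure PvlzIn {σ : Type} (PL : PvfjPlug σ) (cs : ℤ × ℤ) (ts tt : σ) (G : Set (ℤ × ℤ)) (nT : ℕ) : Prop where
  G_conn : TscConn pvtbG8 G
  touch_s : ∃ c ∈ G, c ∈ pvfjSh cs (PL.B ts)
  touch_t : ∃ c ∈ G, c ∈ PL.B tt
  apart : ∀ p ∈ pvfjSh cs (PL.Ym ts), ∀ q ∈ PL.Yp tt, PvfjFar p q
  box : pvtwN 2 G ∪ pvfjSh cs (PL.B ts) ∪ PL.B tt ⊆ pvmnBox nT
  wit_s : ∃ W : Set (ℤ × ℤ), TscConn pvtbG4 W ∧ Disjoint W (pvtwN 2 G ∪ pvfjSh cs (PL.B ts) ∪ PL.B tt) ∧ PL.ym ts + cs + PL.dm ts ∈ W ∧ ∃ w ∈ W, w ∉ pvmnBox nT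
  wit_t : ∃ W : Set (ℤ × ℤ), TscConn pvtbG4 W ∧ Disjoint W (pvtwN 2 G ∪ pvfjSh cs (PL.B ts) ∪ PL.B tt) ∧ PL.yp tt + PL.dp tt ∈ W ∧ ∃ w ∈ W, w ∉ pvmnBox nT

/-- the coarse data of the pattern, at the refinement `k` -/
noncomputable def pvlzDat {σ : Type} (k : ℕ) (cs : ℤ × ℤ) (ts tt : σ) (G : Set (ℤ × ℤ)) : PvfjDat σ :=
  ⟨((k : ℤ) * cs.1, (k : ℤ) * cs.2), ts, 0, tt, pvlzFin (pvrcRef (k : ℤ) G)⟩

theorem pvlz_eqns_cite : True := by
  have := @pvlzFin.eq_1; have := @pvlzDat.eq_1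
  trivial

section transfer

variable {σ : Type} {PL : PvfjPlug σ} {cs : ℤ × ℤ} {ts tt : σ} {G : Set (ℤ × ℤ)} {nT : ℕ}

/-- the refined door front -/
theorem pvlz_front {K : ℤ} (hK : 0 < K) {W : Set (ℤ × ℤ)} {y c d : ℤ × ℤ} (hd : PvfjDir d) (h : y + c + d ∈ W) : pvrcDoor K y d + (K * c.1, K * c.2) + d ∈ pvrcRef K W := by
  obtain ⟨p, hp, h1, h2, h3, h4⟩ := (pvrc_ref_iff hK).1 (pvrc_door_front hK y hd)
  rw [Set.mem_singleton_iff] at hp
  subst hp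
  refine (pvrc_ref_iff hK).2 ⟨y + c + d, h, ?_, ?_, ?_, ?_⟩ <;> simp only [Prod.fst_add, Prod.snd_add] at h1 h2 h3 h4 ⊢ <;> nlinarith

/-- **TRANSFER**: the contract in menu cells gives the input of TR19-P at EVERY refinement `k ≥ 1` -/
theorem pvlz_in_ref (hPL : PL.WF) (I : PvlzIn PL cs ts tt G nT) {k : ℕ} (hk : 0 < k) {mm : ℤ} (hm : 10 ≤ mm) {n : ℕ}
    (hn : (2 * mm + 1) * (((k * (nT + 1) : ℕ) : ℤ) + 1) + 1 ≤ n) : (pvlzDat k cs ts tt G).In (PL.ref k) mm n := by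
  have hK : (0 : ℤ) < (k : ℤ) := by exact_mod_cast hk
  have hW := hPL.ref hk
  set Obs : Set (ℤ × ℤ) := pvtwN 2 G ∪ pvfjSh cs (PL.B ts) ∪ PL.B tt with hObs
  have hGb : G ⊆ pvmnBox nT := fun x hx => I.box (Or.inl (Or.inl (pvtw_N_sub hx)))
  have hGf : (pvrcRef (k : ℤ) G).Finite := (pvmn_box_finite _).subset (pvrc_ref_box hk hGb)
  have hF : (pvlzDat k cs ts tt G).F0 (PL.ref k) = pvtwN 2 (pvrcRef (k : ℤ) G) ∪ pvrcRef (k : ℤ) (pvfjSh cs (PL.B ts)) ∪ pvrcRef (k : ℤ) (PL.B tt) := by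
    simp only [PvfjDat.F0, pvlzDat, pvlz_fin_coe hGf, pvlz_sh_zero]
    rw [← pvrc_ref_sh hK]
    rfl
  have hYs : (pvlzDat k cs ts tt G).Ys (PL.ref k) = pvrcRef (k : ℤ) (pvfjSh cs (PL.Ym ts)) := by
    simp only [PvfjDat.Ys, pvlzDat]
    rw [← pvrc_ref_sh hK]
    rfl
  have hYt : (pvlzDat k cs ts tt G).Yt (PL.ref k) = pvrcRef (k : ℤ) (PL.Yp tt) := by
    simp only [PvfjDat.Yt, pvlzDat, pvlz_sh_zero]
    rfl
  have hsub : pvtwN 2 (pvrcRef (k : ℤ) G) ∪ pvrcRef (k : ℤ) (pvfjSh cs (PL.B ts)) ∪ pvrcRef (k : ℤ) (PL.B tt) ⊆ pvrcRef (k : ℤ) Obs := by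
    rintro x ((hx | hx) | hx)
    · exact pvrc_ref_mono (fun y hy => Or.inl (Or.inl hy)) (pvlz_N_ref hK 2 G hx)
    · exact pvrc_ref_mono (fun y hy => Or.inl (Or.inr hy)) hx
    · exact pvrc_ref_mono (fun y hy => Or.inr hy) hx
  have hbx : pvrcRef (k : ℤ) Obs ⊆ pvmnBox (k * (nT + 1)) := pvrc_ref_box hk I.box
  have hbx' : pvrcRef (k : ℤ) Obs ⊆ tscBox (-((k : ℤ) * nT)) ((k : ℤ) * nT + k - 1) (-((k : ℤ) * nT)) ((k : ℤ) * nT + k - 1) :=
    (pvrc_ref_mono I.box).trans (pvlz_ref_box hK nT)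
  have acc : ∀ W : Set (ℤ × ℤ), TscConn pvtbG4 W → Disjoint W Obs → (∃ w ∈ W, w ∉ pvmnBox nT) →
      pvrcRef (k : ℤ) W ⊆ pvtbOut (pvtwN 2 (pvrcRef (k : ℤ) G) ∪ pvrcRef (k : ℤ) (pvfjSh cs (PL.B ts)) ∪ pvrcRef (k : ℤ) (PL.B tt)) := by
    rintro W w1 w2 ⟨w, w3, w4⟩
    exact pvfj_access (pvrc_conn4 hK w1) ((pvrc_ref_disj w2).mono_right hsub) (hsub.trans hbx') (pvlz_corner_mem hK w3) (pvlz_ref_off hK w4)
  unfold PvfjDat.In
  rw [hF, hYs, hYt]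
  exact
    { m10 := hm
      fin := (pvmn_box_finite _).subset (hsub.trans hbx)
      conn := by
        obtain ⟨c1, hc1, hc1'⟩ := I.touch_s
        obtain ⟨c2, hc2, hc2'⟩ := I.touch_t
        have g1 : TscConn pvtbG8 (pvtwN 2 (pvrcRef (k : ℤ) G)) := pvlz_N_conn8 (pvrc_conn8 hK I.G_conn)
        have g2 : TscConn pvtbG8 (pvrcRef (k : ℤ) (pvfjSh cs (PL.B ts))) := pvrc_conn8 hK (pvfj_sh_conn (hPL.B_conn _))
        have g3 : TscConn pvtbG8 (pvrcRef (k : ℤ) (PL.B tt)) := pvrc_conn8 hK (hPL.B_conn _)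
        exact tsc_conn_union (tsc_conn_union g1 g2 (pvtw_N_sub (pvlz_corner_mem hK hc1)) (pvlz_corner_mem hK hc1') (Or.inl rfl)) g3
          (Or.inl (pvtw_N_sub (pvlz_corner_mem hK hc2))) (pvlz_corner_mem hK hc2') (Or.inl rfl)
      Ys_sub := fun x hx => Or.inl (Or.inr (pvrc_ref_mono (pvfj_sh_mono (hPL.Ym_sub _)) hx))
      Yt_sub := fun x hx => Or.inr (pvrc_ref_mono (hPL.Yp_sub _) hx)
      Ys_conn := pvrc_conn8 hK (pvfj_sh_conn (hPL.Ym_conn _))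
      Yt_conn := pvrc_conn8 hK (hPL.Yp_conn _)
      apart := fun p hp q hq => pvrc_far hK (I.apart _ hp _ hq)
      hds := hW.dm_dir _
      hdt := hW.dp_dir _
      hys := by
        have h := pvfj_sh_mem (c := ((k : ℤ) * cs.1, (k : ℤ) * cs.2)) (hW.ym_mem ts)
        rw [show (PL.ref k).Ym ts = pvrcRef (k : ℤ) (PL.Ym ts) from rfl, pvrc_ref_sh hK] at h
        exact h
      hyt := by
        have h : (PL.ref k).yp tt ∈ pvrcRef (k : ℤ) (PL.Yp tt) := hW.yp_mem tt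
        simpa [pvlzDat] using h
      os := by
        obtain ⟨W, w1, w2, w3, w4⟩ := I.wit_s
        exact acc W w1 w2 w4 (pvlz_front hK (hPL.dm_dir ts) w3)
      ot := by
        obtain ⟨W, w1, w2, w3, w4⟩ := I.wit_t
        have h := pvlz_front (c := 0) hK (hPL.dp_dir tt) (by simpa using w3)
        have e : ((k : ℤ) * (0 : ℤ × ℤ).1, (k : ℤ) * (0 : ℤ × ℤ).2) = (0 : ℤ × ℤ) := by simp
        rw [e] at h
        exact acc W w1 w2 w4 h
      box := by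
        intro v hv
        obtain ⟨h1, h2, h3, h4⟩ := pvfj_D_box (k := k * (nT + 1)) (by omega) (pvtb_hull_box (hsub.trans hbx)) hv
        have e : (2 * mm + 1) * (((k * (nT + 1) : ℕ) : ℤ) + 1) = (2 * mm + 1) * ((k * (nT + 1) : ℕ) : ℤ) + (2 * mm + 1) := by ring
        exact ⟨by omega, by omega, by omega, by omega⟩ }

end transfer

/-! ## 2. the reference plug; `Γ` of one level -/

/-- **THE PLUGS OF THE MENU AND THE REFERENCE PLUG** (`none`): body = the box of half side `8` (menu cells), entrance door in the middle of the WEST side, exit door in the middle of the EAST side -/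
def pvlzExt {τ : Type} (PL : PvfjPlug τ) : PvfjPlug (Option τ) where
  nB := max PL.nB 8
  B o := o.elim (pvmnBox 8) PL.B
  Ym o := o.elim {((-8 : ℤ), (0 : ℤ))} PL.Ym
  Yp o := o.elim {((8 : ℤ), (0 : ℤ))} PL.Yp
  ym o := o.elim ((-8 : ℤ), (0 : ℤ)) PL.ym
  dm o := o.elim ((-1 : ℤ), (0 : ℤ)) PL.dm
  yp o := o.elim ((8 : ℤ), (0 : ℤ)) PL.yp
  dp o := o.elim ((1 : ℤ), (0 : ℤ)) PL.dp

theorem pvlz_conn_single (G : SimpleGraph (ℤ × ℤ)) (x : ℤ × ℤ) : TscConn G {x} := by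
  rintro u hu v hv
  rw [Set.mem_singleton_iff] at hu hv
  subst hu; subst hv
  exact tsc_R_refl _

theorem pvlz_ext_wf {τ : Type} {PL : PvfjPlug τ} (h : PL.WF) : (pvlzExt PL).WF where
  B_box o := by
    cases o with
    | none => exact pvmn_box_mono (le_max_right _ _)
    | some t => exact (h.B_box t).trans (pvmn_box_mono (le_max_left _ _))
  B_conn o := by
    cases o with
    | none => exact fun u hu v hv => pvtb_R_le (fun _ _ => pvtb_G4_G8) (pvtb_box_conn _ _ _ _ u hu v hv)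
    | some t => exact h.B_conn t
  Ym_sub o := by
    cases o with
    | none =>
      intro x hx
      rw [show (pvlzExt PL).Ym none = {((-8 : ℤ), (0 : ℤ))} from rfl, Set.mem_singleton_iff] at hx
      subst hx
      exact ⟨by norm_num, by norm_num, by norm_num, by norm_num⟩
    | some t => exact h.Ym_sub t
  Yp_sub o := by
    cases o with
    | none =>
      intro x hx
      rw [show (pvlzExt PL).Yp none = {((8 : ℤ), (0 : ℤ))} from rfl, Set.mem_singleton_iff] at hx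
      subst hx
      exact ⟨by norm_num, by norm_num, by norm_num, by norm_num⟩
    | some t => exact h.Yp_sub t
  Ym_conn o := by
    cases o with
    | none => exact pvlz_conn_single _ _
    | some t => exact h.Ym_conn t
  Yp_conn o := by
    cases o with
    | none => exact pvlz_conn_single _ _
    | some t => exact h.Yp_conn t
  ym_mem o := by
    cases o with
    | none => exact Set.mem_singleton _
    | some t => exact h.ym_mem t
  yp_mem o := by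
    cases o with
    | none => exact Set.mem_singleton _
    | some t => exact h.yp_mem t
  dm_dir o := by
    cases o with
    | none => exact Or.inr (Or.inl rfl)
    | some t => exact h.dm_dir t
  dp_dir o := by
    cases o with
    | none => exact Or.inl rfl
    | some t => exact h.dp_dir t

/-- **`Γ` OF ONE LEVEL** (`pvfjGeo` of 138, the types `τ` being a PART `f : τ → σ` of the plugs; the reference plug `t0 : σ` need not be a type) -/
noncomputable def pvlzGeo {σ τ : Type} (𝔓 : PvfjPlug σ) (f : τ → σ) (m : ℤ) (hm : 10 ≤ m) (n : ℕ) (δ : ℝ) (hδ : δ ≠ 0) (t0 : σ) (πu : τ → PvfjPat 𝔓 m n)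
    (hu : ∀ t, (πu t).1.ct = 0 ∧ (πu t).1.tt = f t ∧ (πu t).1.ts = t0) : PvtsGeo τ where
  δ := δ / (2 * (m : ℝ) + 1)
  pout t := pvfjDoor m δ (𝔓.yp (f t)) (𝔓.dp (f t))
  pin t := pvfjDoor m δ (𝔓.ym (f t)) (𝔓.dm (f t))
  dout t := pvtZ (𝔓.dp (f t))
  din t := - pvtZ (𝔓.dm (f t))
  pin0 := pvfjDoor m δ (𝔓.ym t0) (𝔓.dm t0)
  din0 := - pvtZ (𝔓.dm t0)
  zu t := pvmgPt δ (πu t).1.cs
  l1 t := (πu t).w
  δ0 := by
    have h0 : (0 : ℝ) ≤ (m : ℝ) := by exact_mod_cast (by omega : 0 ≤ m)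
    have h1 : (2 * (m : ℝ) + 1) ≠ 0 := by positivity
    exact div_ne_zero hδ h1
  dout1 t := by
    have h := PvfjIn.hdt (πu t).2
    rw [(hu t).2.1] at h
    exact pvfj_dir_norm h
  l1_disp t := by
    have h := (πu t).disp (by omega) δ
    rw [(hu t).2.1, (hu t).2.2, (hu t).1, pvfj_Pt_zero, zero_add] at h
    exact h
  l1_dir t := by
    have h := (πu t).spec.2.2.2.1
    rw [(hu t).2.1, (hu t).2.2] at h
    exact h

theorem pvlz_eqns_cite2 : True := by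
  have := @pvlzExt.eq_1; have := @pvlzGeo.eq_1
  trivial

/-! ## 3. rays, the clause ACC -/

/-- the axis ray from the cell `q` in the direction `a` -/
def pvlzRay (q a : ℤ × ℤ) : Set (ℤ × ℤ) := {c | ∃ j : ℕ, c = (q.1 + j * a.1, q.2 + j * a.2)}

/-- **ACC(τ)**: `ρ⁺ = q 10 + ℕ a⁺`, `ρ⁻ = q 0 + ℕ a⁻` leave the plug at once and stay apart.
AT FIT TIME (164, 8): all the pieces lie in the disc of radius `6 b + μ`, the pieces `1..8` and the body in the disc `5 b + μ`, the tips on the circle `6 b`; `a^±` = the dominant coordinate direction of the tip: after `j` steps the ray is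
`≥ j / √2` cells away from the disc and `≤ j` cells away from the tip, which is `d1 ≥ 600` cells away from the pieces on the other side of the last piece (`PvmfIn.sep_fwd`, `sep_bwd`); two such rays from tips `d1` apart stay `d1 / √2` apart. -/
structure PvlzAcc (𝔑 : PvmnNum) (τ : PvmnType) (ap am : ℤ × ℤ) : Prop where
  ap_dir : PvfjDir ap
  am_dir : PvfjDir am
  rp_B : Disjoint (pvlzRay (τ.q 10) ap) (pvfjmB 𝔑 τ)
  rm_B : Disjoint (pvlzRay (τ.q 0) am) (pvfjmB 𝔑 τ)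
  rp_cells : Disjoint (pvlzRay (τ.q 10) ap) (pvtwN 30 (pvmnCells τ 0 8))
  rm_cells : Disjoint (pvlzRay (τ.q 0) am) (pvtwN 30 (pvmnCells τ 1 9))
  sep : Disjoint (pvtwN 30 (pvlzRay (τ.q 10) ap ∪ (τ.C 9 : Set (ℤ × ℤ)))) (pvtwN 30 (pvlzRay (τ.q 0) am ∪ (τ.C 0 : Set (ℤ × ℤ))))

/-- **THE CLAUSE ON TYPES** -/
def PvlzHasAcc (𝔑 : PvmnNum) (τ : PvmnType) : Prop := ∃ ap am, PvlzAcc 𝔑 τ ap am

open Classical in
/-- the direction of the exit ray: a function of the type -/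
noncomputable def pvlzAp (𝔑 : PvmnNum) (τ : PvmnType) : ℤ × ℤ := if h : PvlzHasAcc 𝔑 τ then h.choose else (1, 0)

open Classical in
/-- the direction of the entrance ray: a function of the type -/
noncomputable def pvlzAm (𝔑 : PvmnNum) (τ : PvmnType) : ℤ × ℤ := if h : PvlzHasAcc 𝔑 τ then h.choose_spec.choose else (1, 0)

theorem pvlz_acc_spec {𝔑 : PvmnNum} {τ : PvmnType} (h : PvlzHasAcc 𝔑 τ) : PvlzAcc 𝔑 τ (pvlzAp 𝔑 τ) (pvlzAm 𝔑 τ) := by
  unfold pvlzAp pvlzAm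
  rw [dif_pos h, dif_pos h]
  exact h.choose_spec.choose_spec

section ray

variable {q a : ℤ × ℤ}

theorem pvlz_ray_start (q a : ℤ × ℤ) : q ∈ pvlzRay q a := ⟨0, by simp⟩

theorem pvlz_ray_conn (ha : PvfjDir a) : TscConn pvtbG4 (pvlzRay q a) := by
  have key : ∀ j : ℕ, TscR pvtbG4 (pvlzRay q a) q (q.1 + j * a.1, q.2 + j * a.2) := by
    intro j
    induction j with
    | zero => simpa using tsc_R_refl (G := pvtbG4) (s := pvlzRay q a) q
    | succ j ih =>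
      refine tsc_R_trans ih (tsc_R_step ?_ ⟨j, rfl⟩ ⟨j + 1, rfl⟩)
      rw [pvtb_G4_adj]
      rcases ha with rfl | rfl | rfl | rfl <;> push_cast <;> omega
  rintro u ⟨i, rfl⟩ v ⟨j, rfl⟩
  exact tsc_R_trans (tsc_R_symm (key i)) (key j)

theorem pvlz_ray_out (ha : PvfjDir a) (n : ℕ) : ∃ w ∈ pvlzRay q a, w ∉ pvmnBox n := by
  refine ⟨_, ⟨n + q.1.natAbs + q.2.natAbs + 1, rfl⟩, ?_⟩
  rintro ⟨h1, h2, h3, h4⟩
  have e1 := abs_nonneg q.1
  have e2 := abs_nonneg q.2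
  have e3 := neg_abs_le q.1
  have e4 := neg_abs_le q.2
  have e5 := le_abs_self q.1
  have e6 := le_abs_self q.2
  rcases ha with rfl | rfl | rfl | rfl <;> push_cast at h1 h2 h3 h4 <;> omega

end ray

/-! ## 4. the place of the reference plug, the axis of the thick link `e` outside the plug -/

/-- the centre cell of the reference plug; `q` = tip cell of the entrance side, `a` = direction of the entrance ray, `L` = length of the ray -/
def pvlzCu (q a : ℤ × ℤ) (L : ℤ) : ℤ × ℤ :=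
  if a = (-1, 0) then (q.1 - L, q.2) else if a = (1, 0) then (q.1 + L, q.2 + 24) else if a = (0, 1) then (q.1 - 24, q.2 + L) else (q.1 - 24, q.2 - L)

/-- the axis of `e` from the east door cell of `u` to the tip cell `q` -/
def pvlzAx (q a : ℤ × ℤ) (L : ℤ) : Set (ℤ × ℤ) :=
  if a = (-1, 0) then tscBox (q.1 - L + 8) q.1 q.2 q.2
  else if a = (1, 0) then tscBox q.1 (q.1 + L + 24) q.2 q.2 ∪ tscBox (q.1 + L + 24) (q.1 + L + 24) q.2 (q.2 + 24) ∪ tscBox (q.1 + L + 8) (q.1 + L + 24) (q.2 + 24) (q.2 + 24)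
  else if a = (0, 1) then tscBox q.1 q.1 q.2 (q.2 + L) ∪ tscBox (q.1 - 16) q.1 (q.2 + L) (q.2 + L)
  else tscBox q.1 q.1 (q.2 - L) q.2 ∪ tscBox (q.1 - 16) q.1 (q.2 - L) (q.2 - L)

/-- the direction of the access ray of the door of `u` -/
def pvlzDw (a : ℤ × ℤ) : ℤ × ℤ := if a = (1, 0) then (0, 1) else (-1, 0)

theorem pvlz_eqns_cite3 : True := by
  have := @pvlzRay.eq_1; have := @PvlzHasAcc.eq_1; have := @pvlzAp.eq_1; have := @pvlzAm.eq_1; have := @pvlzCu.eq_1; have := @pvlzAx.eq_1; have := @pvlzDw.eq_1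
  trivial

section place

variable {q : ℤ × ℤ} {L : ℤ}

theorem pvlz_cu_W : pvlzCu q (-1, 0) L = (q.1 - L, q.2) := by simp [pvlzCu]
theorem pvlz_cu_E : pvlzCu q (1, 0) L = (q.1 + L, q.2 + 24) := by simp [pvlzCu]
theorem pvlz_cu_N : pvlzCu q (0, 1) L = (q.1 - 24, q.2 + L) := by simp [pvlzCu]
theorem pvlz_cu_S : pvlzCu q (0, -1) L = (q.1 - 24, q.2 - L) := by simp [pvlzCu]
theorem pvlz_ax_W : pvlzAx q (-1, 0) L = tscBox (q.1 - L + 8) q.1 q.2 q.2 := by simp [pvlzAx]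
theorem pvlz_ax_E : pvlzAx q (1, 0) L = tscBox q.1 (q.1 + L + 24) q.2 q.2 ∪ tscBox (q.1 + L + 24) (q.1 + L + 24) q.2 (q.2 + 24) ∪ tscBox (q.1 + L + 8) (q.1 + L + 24) (q.2 + 24) (q.2 + 24) := by
  simp [pvlzAx]
theorem pvlz_ax_N : pvlzAx q (0, 1) L = tscBox q.1 q.1 q.2 (q.2 + L) ∪ tscBox (q.1 - 16) q.1 (q.2 + L) (q.2 + L) := by simp [pvlzAx]
theorem pvlz_ax_S : pvlzAx q (0, -1) L = tscBox q.1 q.1 (q.2 - L) q.2 ∪ tscBox (q.1 - 16) q.1 (q.2 - L) (q.2 - L) := by simp [pvlzAx]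
theorem pvlz_dw_W : pvlzDw (-1, 0) = (-1, 0) := by simp [pvlzDw]
theorem pvlz_dw_E : pvlzDw (1, 0) = (0, 1) := by simp [pvlzDw]
theorem pvlz_dw_N : pvlzDw (0, 1) = (-1, 0) := by simp [pvlzDw]
theorem pvlz_dw_S : pvlzDw (0, -1) = (-1, 0) := by simp [pvlzDw]

theorem pvlz_dw_dir {a : ℤ × ℤ} : PvfjDir (pvlzDw a) := by
  unfold pvlzDw
  split_ifs
  · exact Or.inr (Or.inr (Or.inl rfl))
  · exact Or.inr (Or.inl rfl)

end place

section geom

variable {q a : ℤ × ℤ} {L : ℤ}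

theorem pvlz_mem_N_ray {k : ℕ} {x : ℤ × ℤ} (j : ℤ) (hj : 0 ≤ j) (h1 : |x.1 - (q.1 + j * a.1)| ≤ k) (h2 : |x.2 - (q.2 + j * a.2)| ≤ k) : x ∈ pvtwN k (pvlzRay q a) := by
  rw [abs_le] at h1 h2
  refine ⟨(q.1 + (j.toNat : ℤ) * a.1, q.2 + (j.toNat : ℤ) * a.2), ⟨j.toNat, rfl⟩, ?_, ?_, ?_, ?_⟩ <;> rw [Int.toNat_of_nonneg hj] <;> omega

theorem pvlz_ax_tip (ha : PvfjDir a) (hL : 8 ≤ L) : q ∈ pvlzAx q a L := by
  rcases ha with rfl | rfl | rfl | rfl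
  · rw [pvlz_ax_E]; exact Or.inl (Or.inl ⟨le_rfl, by omega, le_rfl, le_rfl⟩)
  · rw [pvlz_ax_W]; exact ⟨by omega, le_rfl, le_rfl, le_rfl⟩
  · rw [pvlz_ax_N]; exact Or.inl ⟨le_rfl, le_rfl, le_rfl, by omega⟩
  · rw [pvlz_ax_S]; exact Or.inl ⟨le_rfl, le_rfl, by omega, le_rfl⟩

/-- the axis starts in the east door cell of `u` -/
theorem pvlz_ax_door (ha : PvfjDir a) (hL : 8 ≤ L) : (8, 0) + pvlzCu q a L ∈ pvlzAx q a L := by
  rcases ha with rfl | rfl | rfl | rfl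
  · rw [pvlz_ax_E, pvlz_cu_E]; exact Or.inr ⟨by simp only [Prod.mk_add_mk]; omega, by simp only [Prod.mk_add_mk]; omega, by simp only [Prod.mk_add_mk]; omega, by simp only [Prod.mk_add_mk]; omega⟩
  · rw [pvlz_ax_W, pvlz_cu_W]; exact ⟨by simp only [Prod.mk_add_mk]; omega, by simp only [Prod.mk_add_mk]; omega, by simp only [Prod.mk_add_mk]; omega, by simp only [Prod.mk_add_mk]; omega⟩
  · rw [pvlz_ax_N, pvlz_cu_N]; exact Or.inr ⟨by simp only [Prod.mk_add_mk]; omega, by simp only [Prod.mk_add_mk]; omega, by simp only [Prod.mk_add_mk]; omega, by simp only [Prod.mk_add_mk]; omega⟩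
  · rw [pvlz_ax_S, pvlz_cu_S]; exact Or.inr ⟨by simp only [Prod.mk_add_mk]; omega, by simp only [Prod.mk_add_mk]; omega, by simp only [Prod.mk_add_mk]; omega, by simp only [Prod.mk_add_mk]; omega⟩

theorem pvlz_ax_conn (ha : PvfjDir a) (hL : 8 ≤ L) : TscConn pvtbG4 (pvlzAx q a L) := by
  rcases ha with rfl | rfl | rfl | rfl
  · rw [pvlz_ax_E]
    refine tsc_conn_union (tsc_conn_union (pvtb_box_conn _ _ _ _) (pvtb_box_conn _ _ _ _) (a := (q.1 + L + 24, q.2)) (b := (q.1 + L + 24, q.2)) ?_ ?_ (Or.inl rfl)) (pvtb_box_conn _ _ _ _)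
      (a := (q.1 + L + 24, q.2 + 24)) (b := (q.1 + L + 24, q.2 + 24)) (Or.inr ?_) ?_ (Or.inl rfl)
    all_goals exact ⟨by simp only; omega, by simp only; omega, by simp only; omega, by simp only; omega⟩
  · rw [pvlz_ax_W]; exact pvtb_box_conn _ _ _ _
  · rw [pvlz_ax_N]
    refine tsc_conn_union (pvtb_box_conn _ _ _ _) (pvtb_box_conn _ _ _ _) (a := (q.1, q.2 + L)) (b := (q.1, q.2 + L)) ?_ ?_ (Or.inl rfl)
    all_goals exact ⟨by simp only; omega, by simp only; omega, by simp only; omega, by simp only; omega⟩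
  · rw [pvlz_ax_S]
    refine tsc_conn_union (pvtb_box_conn _ _ _ _) (pvtb_box_conn _ _ _ _) (a := (q.1, q.2 - L)) (b := (q.1, q.2 - L)) ?_ ?_ (Or.inl rfl)
    all_goals exact ⟨by simp only; omega, by simp only; omega, by simp only; omega, by simp only; omega⟩

/-- the axis lies in the 24-collar of the entrance ray -/
theorem pvlz_ax_ray (ha : PvfjDir a) (hL : 8 ≤ L) : pvlzAx q a L ⊆ pvtwN 24 (pvlzRay q a) := by
  intro x hx
  rcases ha with rfl | rfl | rfl | rfl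
  · rw [pvlz_ax_E] at hx
    rcases hx with (⟨h1, h2, h3, h4⟩ | ⟨h1, h2, h3, h4⟩) | ⟨h1, h2, h3, h4⟩ <;>
      exact pvlz_mem_N_ray (x.1 - q.1) (by omega) (by rw [abs_le]; constructor <;> push_cast <;> omega) (by rw [abs_le]; constructor <;> push_cast <;> omega)
  · rw [pvlz_ax_W] at hx
    obtain ⟨h1, h2, h3, h4⟩ := hx
    exact pvlz_mem_N_ray (q.1 - x.1) (by omega) (by rw [abs_le]; constructor <;> push_cast <;> omega) (by rw [abs_le]; constructor <;> push_cast <;> omega)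
  · rw [pvlz_ax_N] at hx
    rcases hx with ⟨h1, h2, h3, h4⟩ | ⟨h1, h2, h3, h4⟩ <;>
      exact pvlz_mem_N_ray (x.2 - q.2) (by omega) (by rw [abs_le]; constructor <;> push_cast <;> omega) (by rw [abs_le]; constructor <;> push_cast <;> omega)
  · rw [pvlz_ax_S] at hx
    rcases hx with ⟨h1, h2, h3, h4⟩ | ⟨h1, h2, h3, h4⟩ <;>
      exact pvlz_mem_N_ray (q.2 - x.2) (by omega) (by rw [abs_le]; constructor <;> push_cast <;> omega) (by rw [abs_le]; constructor <;> push_cast <;> omega)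

/-- the body of `u` lies in the 32-collar of the entrance ray -/
theorem pvlz_u_ray (ha : PvfjDir a) (hL : 8 ≤ L) : pvfjSh (pvlzCu q a L) (pvmnBox 8) ⊆ pvtwN 32 (pvlzRay q a) := by
  rintro x ⟨y, ⟨h1, h2, h3, h4⟩, rfl⟩
  push_cast at h1 h2 h3 h4
  rcases ha with rfl | rfl | rfl | rfl
  · rw [pvlz_cu_E]
    exact pvlz_mem_N_ray (y.1 + L) (by omega) (by rw [abs_le]; constructor <;> simp only [Prod.fst_add] <;> push_cast <;> omega) (by rw [abs_le]; constructor <;> simp only [Prod.snd_add] <;> push_cast <;> omega)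
  · rw [pvlz_cu_W]
    exact pvlz_mem_N_ray (L - y.1) (by omega) (by rw [abs_le]; constructor <;> simp only [Prod.fst_add] <;> push_cast <;> omega) (by rw [abs_le]; constructor <;> simp only [Prod.snd_add] <;> push_cast <;> omega)
  · rw [pvlz_cu_N]
    exact pvlz_mem_N_ray (y.2 + L) (by omega) (by rw [abs_le]; constructor <;> simp only [Prod.fst_add] <;> push_cast <;> omega) (by rw [abs_le]; constructor <;> simp only [Prod.snd_add] <;> push_cast <;> omega)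
  · rw [pvlz_cu_S]
    exact pvlz_mem_N_ray (L - y.2) (by omega) (by rw [abs_le]; constructor <;> simp only [Prod.fst_add] <;> push_cast <;> omega) (by rw [abs_le]; constructor <;> simp only [Prod.snd_add] <;> push_cast <;> omega)

/-- the front of the door of `u` -/
def pvlzFr (q a : ℤ × ℤ) (L : ℤ) : ℤ × ℤ := (-8, 0) + pvlzCu q a L + (-1, 0)

theorem pvlz_fr_fst : (pvlzFr q a L).1 = (pvlzCu q a L).1 - 9 := by
  simp only [pvlzFr, Prod.fst_add]; omega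

theorem pvlz_fr_snd : (pvlzFr q a L).2 = (pvlzCu q a L).2 := by
  simp only [pvlzFr, Prod.snd_add]; omega

/-- the access ray of `u` is off the 8-collar of the axis -/
theorem pvlz_wm_ax (ha : PvfjDir a) : Disjoint (pvlzRay (pvlzFr q a L) (pvlzDw a)) (pvtwN 8 (pvlzAx q a L)) := by
  rw [Set.disjoint_left]
  rintro x ⟨j, rfl⟩ ⟨z, hz, g1, g2, g3, g4⟩
  rw [pvlz_fr_fst, pvlz_fr_snd] at g1 g2 g3 g4
  rcases ha with rfl | rfl | rfl | rfl
  · rw [pvlz_ax_E] at hz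
    rw [pvlz_cu_E, pvlz_dw_E] at g1 g2 g3 g4
    push_cast at g1 g2 g3 g4
    rcases hz with (⟨h1, h2, h3, h4⟩ | ⟨h1, h2, h3, h4⟩) | ⟨h1, h2, h3, h4⟩ <;> omega
  · rw [pvlz_ax_W] at hz
    rw [pvlz_cu_W, pvlz_dw_W] at g1 g2 g3 g4
    push_cast at g1 g2 g3 g4
    obtain ⟨h1, h2, h3, h4⟩ := hz
    omega
  · rw [pvlz_ax_N] at hz
    rw [pvlz_cu_N, pvlz_dw_N] at g1 g2 g3 g4
    push_cast at g1 g2 g3 g4
    rcases hz with ⟨h1, h2, h3, h4⟩ | ⟨h1, h2, h3, h4⟩ <;> omega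
  · rw [pvlz_ax_S] at hz
    rw [pvlz_cu_S, pvlz_dw_S] at g1 g2 g3 g4
    push_cast at g1 g2 g3 g4
    rcases hz with ⟨h1, h2, h3, h4⟩ | ⟨h1, h2, h3, h4⟩ <;> omega

/-- the access ray of `u` is off the body of `u` -/
theorem pvlz_wm_u (ha : PvfjDir a) : Disjoint (pvlzRay (pvlzFr q a L) (pvlzDw a)) (pvfjSh (pvlzCu q a L) (pvmnBox 8)) := by
  rw [Set.disjoint_left]
  rintro x ⟨j, rfl⟩ ⟨y, ⟨h1, h2, h3, h4⟩, e⟩
  have e1 := congrArg Prod.fst e
  have e2 := congrArg Prod.snd e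
  simp only [Prod.fst_add, Prod.snd_add] at e1 e2
  rw [pvlz_fr_fst] at e1
  push_cast at h1 h2 h3 h4
  rcases ha with rfl | rfl | rfl | rfl
  · rw [pvlz_dw_E] at e1; omega
  · rw [pvlz_dw_W] at e1; omega
  · rw [pvlz_dw_N] at e1; omega
  · rw [pvlz_dw_S] at e1; omega

/-- the access ray of `u` is off the box of the plug -/
theorem pvlz_wm_box (ha : PvfjDir a) {n : ℕ} (hq : q ∈ pvmnBox n) (hL : 2 * (n : ℤ) + 60 ≤ L) : Disjoint (pvlzRay (pvlzFr q a L) (pvlzDw a)) (pvmnBox (n + 40)) := by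
  rw [Set.disjoint_left]
  rintro x ⟨j, rfl⟩ ⟨g1, g2, g3, g4⟩
  obtain ⟨h1, h2, h3, h4⟩ := hq
  rw [pvlz_fr_fst, pvlz_fr_snd] at g1 g2 g3 g4
  push_cast at g1 g2 g3 g4
  rcases ha with rfl | rfl | rfl | rfl
  · rw [pvlz_cu_E, pvlz_dw_E] at g1 g2 g3 g4; omega
  · rw [pvlz_cu_W, pvlz_dw_W] at g1 g2 g3 g4; omega
  · rw [pvlz_cu_N, pvlz_dw_N] at g1 g2 g3 g4; omega
  · rw [pvlz_cu_S, pvlz_dw_S] at g1 g2 g3 g4; omega

/-- the body of `u` is off the box of the plug -/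
theorem pvlz_u_off (ha : PvfjDir a) {n : ℕ} (hq : q ∈ pvmnBox n) (hL : 2 * (n : ℤ) + 60 ≤ L) : Disjoint (pvfjSh (pvlzCu q a L) (pvmnBox 8)) (pvmnBox (n + 40)) := by
  rw [Set.disjoint_left]
  rintro x ⟨y, ⟨y1, y2, y3, y4⟩, rfl⟩ ⟨g1, g2, g3, g4⟩
  obtain ⟨h1, h2, h3, h4⟩ := hq
  simp only [Prod.fst_add, Prod.snd_add] at g1 g2 g3 g4
  push_cast at g1 g2 g3 g4 y1 y2 y3 y4
  rcases ha with rfl | rfl | rfl | rfl
  · rw [pvlz_cu_E] at g1 g2 g3 g4; omega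
  · rw [pvlz_cu_W] at g1 g2 g3 g4; omega
  · rw [pvlz_cu_N] at g1 g2 g3 g4; omega
  · rw [pvlz_cu_S] at g1 g2 g3 g4; omega

/-- everything lies in one box -/
theorem pvlz_ax_box (ha : PvfjDir a) {n : ℕ} (hq : q ∈ pvmnBox n) (hL : L = 2 * (n : ℤ) + 60) : pvtwN 8 (pvlzAx q a L) ⊆ pvmnBox (3 * n + 100) := by
  rintro x ⟨z, hz, g1, g2, g3, g4⟩
  obtain ⟨h1, h2, h3, h4⟩ := hq
  push_cast at g1 g2 g3 g4
  unfold pvmnBox
  push_cast
  rcases ha with rfl | rfl | rfl | rfl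
  · rw [pvlz_ax_E] at hz
    rcases hz with (⟨k1, k2, k3, k4⟩ | ⟨k1, k2, k3, k4⟩) | ⟨k1, k2, k3, k4⟩ <;> exact ⟨by omega, by omega, by omega, by omega⟩
  · rw [pvlz_ax_W] at hz
    obtain ⟨k1, k2, k3, k4⟩ := hz
    exact ⟨by omega, by omega, by omega, by omega⟩
  · rw [pvlz_ax_N] at hz
    rcases hz with ⟨k1, k2, k3, k4⟩ | ⟨k1, k2, k3, k4⟩ <;> exact ⟨by omega, by omega, by omega, by omega⟩
  · rw [pvlz_ax_S] at hz
    rcases hz with ⟨k1, k2, k3, k4⟩ | ⟨k1, k2, k3, k4⟩ <;> exact ⟨by omega, by omega, by omega, by omega⟩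

theorem pvlz_cu_box (ha : PvfjDir a) {n : ℕ} (hq : q ∈ pvmnBox n) (hL : L = 2 * (n : ℤ) + 60) : pvlzCu q a L ∈ pvmnBox (3 * n + 60) := by
  obtain ⟨h1, h2, h3, h4⟩ := hq
  unfold pvmnBox
  push_cast
  rcases ha with rfl | rfl | rfl | rfl
  · rw [pvlz_cu_E]; exact ⟨by simp only; omega, by simp only; omega, by simp only; omega, by simp only; omega⟩
  · rw [pvlz_cu_W]; exact ⟨by simp only; omega, by simp only; omega, by simp only; omega, by simp only; omega⟩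
  · rw [pvlz_cu_N]; exact ⟨by simp only; omega, by simp only; omega, by simp only; omega, by simp only; omega⟩
  · rw [pvlz_cu_S]; exact ⟨by simp only; omega, by simp only; omega, by simp only; omega, by simp only; omega⟩

theorem pvlz_u_box (ha : PvfjDir a) {n : ℕ} (hq : q ∈ pvmnBox n) (hL : L = 2 * (n : ℤ) + 60) : pvfjSh (pvlzCu q a L) (pvmnBox 8) ⊆ pvmnBox (3 * n + 100) := by
  rintro x ⟨y, ⟨y1, y2, y3, y4⟩, rfl⟩
  obtain ⟨h1, h2, h3, h4⟩ := pvlz_cu_box ha hq hL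
  push_cast at y1 y2 y3 y4 h1 h2 h3 h4
  unfold pvmnBox
  push_cast
  exact ⟨by simp only [Prod.fst_add]; omega, by simp only [Prod.fst_add]; omega, by simp only [Prod.snd_add]; omega, by simp only [Prod.snd_add]; omega⟩

end geom

/-! ## 5. the contract at the menu -/

section menu

variable {𝔑 : PvmnNum} {T : Type} {ty : T → PvmnType}

/-- the length of the entrance ray -/
def pvlzL (𝔑 : PvmnNum) : ℤ := 2 * (𝔑.nBx : ℤ) + 60

/-- **the centre cell of the reference plug of the type `τ`** (menu cells) -/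
noncomputable def pvlzC (𝔑 : PvmnNum) (τ : PvmnType) : ℤ × ℤ := pvlzCu (τ.q 0) (pvlzAm 𝔑 τ) (pvlzL 𝔑)

/-- **the axis of the thick link `e : u → t`**: from the east door cell of `u` to the tip cell `q 0`, then the piece `C 0` -/
noncomputable def pvlzE (𝔑 : PvmnNum) (τ : PvmnType) : Set (ℤ × ℤ) := (τ.C 0 : Set (ℤ × ℤ)) ∪ pvlzAx (τ.q 0) (pvlzAm 𝔑 τ) (pvlzL 𝔑)

/-- the room of the thick link: the 6-collar of its axis -/
noncomputable def pvlzG (𝔑 : PvmnNum) (τ : PvmnType) : Set (ℤ × ℤ) := pvtwN 6 (pvlzE 𝔑 τ)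

/-- half side of the box of the `Σ₁` cycle -/
def pvlzNT (𝔑 : PvmnNum) : ℕ := 3 * 𝔑.nBx + 100

theorem pvlz_eqns_cite4 : True := by
  have := @pvlzFr.eq_1; have := @pvlzL.eq_1; have := @pvlzC.eq_1; have := @pvlzE.eq_1; have := @pvlzG.eq_1; have := @pvlzNT.eq_1
  trivial

theorem pvlz_q0_box {τ : PvmnType} (hτ : PvmnIsType 𝔑 τ) : τ.q 0 ∈ pvmnBox 𝔑.nBx := hτ.box 0 (pvfjm_q0_mem hτ)

theorem pvlz_L8 (𝔑 : PvmnNum) : 8 ≤ pvlzL 𝔑 := by unfold pvlzL; omega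

/-- a cell near `ρ⁺ ∪ C 9` is not near `ρ⁻` -/
theorem pvlz_sep_use {τ : PvmnType} {ap am : ℤ × ℤ} (hA : PvlzAcc 𝔑 τ ap am) {x : ℤ × ℤ} (h1 : x ∈ pvtwN 1 (pvlzRay (τ.q 10) ap ∪ (τ.C 9 : Set (ℤ × ℤ)))) :
    x ∉ pvtwN 32 (pvlzRay (τ.q 0) am) := by
  rintro ⟨r, hr, r1, r2, r3, r4⟩
  obtain ⟨c, hc, c1, c2, c3, c4⟩ := h1
  have := pvlz_far_of_disj hA.sep hc (Or.inl hr : r ∈ pvlzRay (τ.q 0) am ∪ (τ.C 0 : Set (ℤ × ℤ)))
  push_cast at this r1 r2 r3 r4 c1 c2 c3 c4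
  rcases this with h | h <;> rw [lt_abs] at h <;> omega

/-- **THE CONTRACT OF THE `Σ₁` PATTERN OF THE TYPE `t`, IN MENU CELLS** -/
theorem pvlz_in_menu (hN : PvmnNumOK 𝔑) (hWP : 𝔑.nW ≤ 𝔑.nP) (hty : ∀ t, PvmnIsType 𝔑 (ty t)) (t : T) (hacc : PvlzHasAcc 𝔑 (ty t)) :
    PvlzIn (pvlzExt (pvfjmPlug 𝔑 ty)) (pvlzC 𝔑 (ty t)) none (some t) (pvlzG 𝔑 (ty t)) (pvlzNT 𝔑) := by
  have hA := pvlz_acc_spec hacc
  have hτ := hty t
  have ha := hA.am_dir
  have hq := pvlz_q0_box hτ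
  have hL8 := pvlz_L8 𝔑
  set τ := ty t with hτdef
  set am := pvlzAm 𝔑 τ with ham
  set ap := pvlzAp 𝔑 τ with hap
  have eB1 : (pvlzExt (pvfjmPlug 𝔑 ty)).B none = pvmnBox 8 := rfl
  have eB2 : (pvlzExt (pvfjmPlug 𝔑 ty)).B (some t) = pvfjmB 𝔑 τ := rfl
  have eN : pvtwN 2 (pvlzG 𝔑 τ) = pvtwN 8 (τ.C 0 : Set (ℤ × ℤ)) ∪ pvtwN 8 (pvlzAx (τ.q 0) am (pvlzL 𝔑)) := by
    unfold pvlzG pvlzE
    rw [pvtw_N_add, pvtw_N_union]
  have hC0 : pvtwN 8 (τ.C 0 : Set (ℤ × ℤ)) ⊆ pvmnBox (𝔑.nBx + 8) := by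
    intro x hx
    obtain ⟨h1, h2, h3, h4⟩ := pvtw_N_box (k := 8) (hτ.box 0) hx
    unfold pvmnBox
    push_cast at h1 h2 h3 h4 ⊢
    exact ⟨by omega, by omega, by omega, by omega⟩
  have hBb := pvfjm_B_box hN hτ
  have hbig : pvmnBox (𝔑.nBx + 8) ⊆ pvmnBox (pvlzNT 𝔑) := pvmn_box_mono (by unfold pvlzNT; omega)
  have hmid : pvmnBox (𝔑.nBx + 8) ⊆ pvmnBox (𝔑.nBx + 40) := pvmn_box_mono (by omega)
  refine ⟨?_, ?_, ?_, ?_, ?_, ?_, ?_⟩
  · -- G_conn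
    have h1 : TscConn tscG (pvlzAx (τ.q 0) am (pvlzL 𝔑)) := fun u hu v hv => pvtb_R_le (fun _ _ => pvtb_G4_tri) (pvlz_ax_conn ha hL8 u hu v hv)
    exact pvfjm_conn8 (pvtw_N_conn (tsc_conn_union (hτ.conn 0) h1 (pvfjm_q0_mem hτ) (pvlz_ax_tip ha hL8) (Or.inl rfl)))
  · -- touch_s
    exact ⟨_, pvtw_N_sub (Or.inr (pvlz_ax_door ha hL8)), ⟨(8, 0), ⟨by norm_num, by norm_num, by norm_num, by norm_num⟩, rfl⟩⟩
  · -- touch_t
    exact ⟨τ.q 1, pvtw_N_sub (Or.inl (pvfjm_q1_mem0 hτ)), Or.inr (pvtw_N_sub (pvmn_C_sub 1 (le_refl _) (by decide) (pvfjm_q1_mem1 hτ)))⟩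
  · -- apart
    intro p hp y hy
    have hp' : p ∉ pvmnBox (𝔑.nBx + 40) := by
      refine Set.disjoint_left.1 (pvlz_u_off ha hq (le_of_eq rfl)) (pvfj_sh_mono ?_ hp)
      exact (pvlz_ext_wf (pvfjm_wf hN hWP hty)).Ym_sub none
    have hy' : y ∈ pvmnBox (𝔑.nBx + 8) := hBb ((pvfjm_wf hN hWP hty).Yp_sub t hy)
    rw [pvfj_far_iff]
    obtain ⟨y1, y2, y3, y4⟩ := hy'
    by_contra hc
    apply hp'
    unfold pvmnBox
    push_cast at y1 y2 y3 y4 ⊢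
    exact ⟨by omega, by omega, by omega, by omega⟩
  · -- box
    rw [eB1, eB2, eN]
    rintro x (((hx | hx) | hx) | hx)
    · exact hbig (hC0 hx)
    · exact pvlz_ax_box ha hq rfl hx
    · exact pvlz_u_box ha hq rfl hx
    · exact hbig (hBb hx)
  · -- wit_s
    refine ⟨pvlzRay (pvlzFr (τ.q 0) am (pvlzL 𝔑)) (pvlzDw am), pvlz_ray_conn pvlz_dw_dir, ?_, pvlz_ray_start _ _, pvlz_ray_out pvlz_dw_dir _⟩
    rw [eB1, eB2, eN]
    have hb := pvlz_wm_box ha hq (le_of_eq rfl)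
    refine Set.disjoint_union_right.2 ⟨Set.disjoint_union_right.2 ⟨Set.disjoint_union_right.2 ⟨?_, pvlz_wm_ax ha⟩, pvlz_wm_u ha⟩, ?_⟩
    · exact hb.mono_right (hC0.trans hmid)
    · exact hb.mono_right (hBb.trans hmid)
  · -- wit_t
    refine ⟨pvfjmEp τ ∪ pvlzRay (τ.q 10) ap, tsc_conn_union (pvfjm_Ep_conn τ) (pvlz_ray_conn hA.ap_dir) (pvfjm_Ep_tip hτ hWP) (pvlz_ray_start _ _) (Or.inl rfl), ?_,
      Or.inl (pvfjm_front_p hWP hty t), ?_⟩
    · rw [eB1, eB2, eN]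
      have near : ∀ x ∈ pvfjmEp τ ∪ pvlzRay (τ.q 10) ap, x ∈ pvtwN 1 (pvlzRay (τ.q 10) ap ∪ (τ.C 9 : Set (ℤ × ℤ))) := by
        rintro x (hx | hx)
        · exact pvtw_N_mono (le_refl _) Set.subset_union_right (pvfjm_Ep_sub hx)
        · exact pvtw_N_sub (Or.inl hx)
      have c08 : (τ.C 0 : Set (ℤ × ℤ)) ⊆ pvmnCells τ 0 8 := pvmn_C_sub 0 (le_refl _) (by decide)
      rw [Set.disjoint_left]
      rintro x hx (((h | h) | h) | h)
      · rcases hx with hx | hx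
        · exact Set.disjoint_left.1 pvfjm_Ep_off hx (pvtw_N_mono (le_refl _) c08 h)
        · exact Set.disjoint_left.1 hA.rp_cells hx (pvtw_N_mono (by omega) c08 h)
      · refine pvlz_sep_use hA (near x hx) ?_
        have := pvtw_N_mono (le_refl 8) (pvlz_ax_ray ha hL8) h
        rwa [pvtw_N_add] at this
      · exact pvlz_sep_use hA (near x hx) (pvlz_u_ray ha hL8 h)
      · rcases hx with hx | hx
        · exact Set.disjoint_left.1 (pvfjm_Ep_off_B hτ) hx h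
        · exact Set.disjoint_left.1 hA.rp_B hx h
    · obtain ⟨w, hw, hw'⟩ := pvlz_ray_out (q := τ.q 10) hA.ap_dir (pvlzNT 𝔑)
      exact ⟨w, Or.inr hw, hw'⟩

end menu

/-! ## 6. `Γ` OF ROAD P -/

/-- **what `Γ` of road P asks**: numbers, types, and the clause ACC on every type of the menu of record -/
structure PvlzHyp (𝔑r : PvrcNum) (𝔑 : PvmnNum) {T : Type} (ty : T → PvmnType) : Prop where
  ok : 𝔑r.Ok
  num : PvmnNumOK 𝔑
  wp : 𝔑.nW ≤ 𝔑.nP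
  typ : ∀ t, PvmnIsType 𝔑 (ty t)
  acc : ∀ t, PvlzHasAcc 𝔑 (ty t)

/-- half side, in FINE cells, of the box of the `Σ₁` patterns of level `m` -/
noncomputable def pvlzNB (𝔑r : PvrcNum) (c : ℝ) (𝔑 : PvmnNum) (m : ℕ) : ℕ := ((2 * 𝔑r.mm + 1) * (((pvlmN c m * (pvlzNT 𝔑 + 1) : ℕ) : ℤ) + 1) + 1).toNat

section gam

variable {𝔑r : PvrcNum} {𝔑 : PvmnNum} {T : Type} {ty : T → PvmnType}

/-- **THE `Σ₁` PATTERN OF THE TYPE `t` AT THE LEVEL `m`** -/
noncomputable def pvlzPat (H : PvlzHyp 𝔑r 𝔑 ty) (c : ℝ) (m : ℕ) (t : T) : PvfjPat ((pvlzExt (pvfjmPlug 𝔑 ty)).ref (pvlmN c m)) 𝔑r.mm (pvlzNB 𝔑r c 𝔑 m) :=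
  ⟨pvlzDat (pvlmN c m) (pvlzC 𝔑 (ty t)) none (some t) (pvlzG 𝔑 (ty t)),
    pvlz_in_ref (pvlz_ext_wf (pvfjm_wf H.num H.wp H.typ)) (pvlz_in_menu H.num H.wp H.typ t (H.acc t)) (pvlm_N_pos c m) H.ok.mm10 (Int.self_le_toNat _)⟩

/-- **`Γ` OF ROAD P** -/
noncomputable def pvlzGam (H : PvlzHyp 𝔑r 𝔑 ty) (c : ℝ) (m : ℕ) : PvtsGeo T :=
  pvlzGeo ((pvlzExt (pvfjmPlug 𝔑 ty)).ref (pvlmN c m)) some 𝔑r.mm H.ok.mm10 (pvlzNB 𝔑r c 𝔑 m) (𝔑r.dc c m) (pvrc_dc_pos H.ok c m).ne' none (pvlzPat H c m)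
    (fun _ => ⟨rfl, rfl, rfl⟩)

theorem pvlz_eqns_cite5 : True := by
  have := @pvlzNB.eq_1; have := @pvlzPat.eq_1; have := @pvlzGam.eq_1
  trivial

variable (H : PvlzHyp 𝔑r 𝔑 ty) (c : ℝ) (m : ℕ) (t : T)

/-- **the contract of the cover roof** (236) -/
theorem pvlz_doors : PvrcDoors 𝔑r c (pvfjmPlug 𝔑 ty) (pvlzGam H c) where
  del _ := rfl
  pout _ _ := rfl
  dout _ _ := rfl
  pin _ _ := rfl
  din _ _ := rfl

/-- the reference word is the word of the `Σ₁` pattern: ALL of `PvfjPat.spec`, `PvfjPat.simple`, `PvfjPat.centre_pl`, `PvfjPat.regC_far` applies -/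
theorem pvlz_l1 : (pvlzGam H c m).l1 t = (pvlzPat H c m t).w := rfl

theorem pvlz_del : (pvlzGam H c m).δ = 𝔑r.dc c m / (2 * (𝔑r.mm : ℝ) + 1) := rfl

/-- the reference plug is entered from the WEST -/
theorem pvlz_din0 : (pvlzGam H c m).din0 = 1 := by
  show - pvtZ ((-1 : ℤ), (0 : ℤ)) = 1
  simp [pvtZ]

theorem pvlz_pin0 : (pvlzGam H c m).pin0 = pvfjDoor 𝔑r.mm (𝔑r.dc c m) (pvrcDoor (pvlmN c m : ℤ) ((-8 : ℤ), (0 : ℤ)) ((-1 : ℤ), (0 : ℤ))) ((-1 : ℤ), (0 : ℤ)) := rfl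

/-- **the place of the reference plug**: the corner of the MENU cell `pvlzC 𝔑 (ty t)` (a function of the type, the same at all levels in units of `h`) -/
theorem pvlz_zu : (pvlzGam H c m).zu t = pvmgPt (𝔑r.dl * pvlmH m) (pvlzC 𝔑 (ty t)) := by
  show pvmgPt (𝔑r.dc c m) (((pvlmN c m : ℕ) : ℤ) * (pvlzC 𝔑 (ty t)).1, ((pvlmN c m : ℕ) : ℤ) * (pvlzC 𝔑 (ty t)).2) = _
  rw [← pvrc_pt, ← pvrc_dc_mul H.ok c m]
  norm_cast

include H in
theorem pvlz_C_box : pvlzC 𝔑 (ty t) ∈ pvmnBox (3 * 𝔑.nBx + 60) :=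
  pvlz_cu_box (pvlz_acc_spec (H.acc t)).am_dir (pvlz_q0_box (H.typ t)) rfl

/-- `|zu t| ≤ C h`, `C` a number of the menu -/
theorem pvlz_zu_norm : ‖(pvlzGam H c m).zu t‖ ≤ 2 * (3 * (𝔑.nBx : ℝ) + 60) * 𝔑r.dl * pvlmH m := by
  rw [pvlz_zu]
  obtain ⟨h1, h2, h3, h4⟩ := pvlz_C_box H t
  have hd : 0 ≤ 𝔑r.dl * pvlmH m := mul_nonneg H.ok.dl0.le (pvlm_H_pos m).le
  have b1 : |((pvlzC 𝔑 (ty t)).1 : ℝ)| ≤ 3 * (𝔑.nBx : ℝ) + 60 := by
    rw [abs_le]
    constructor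
    · have : (-(((3 * 𝔑.nBx + 60 : ℕ) : ℤ)) : ℝ) ≤ ((pvlzC 𝔑 (ty t)).1 : ℝ) := by exact_mod_cast h1
      push_cast at this; linarith
    · have : ((pvlzC 𝔑 (ty t)).1 : ℝ) ≤ (((3 * 𝔑.nBx + 60 : ℕ) : ℤ) : ℝ) := by exact_mod_cast h2
      push_cast at this; linarith
  have b2 : |((pvlzC 𝔑 (ty t)).2 : ℝ)| ≤ 3 * (𝔑.nBx : ℝ) + 60 := by
    rw [abs_le]
    constructor
    · have : (-(((3 * 𝔑.nBx + 60 : ℕ) : ℤ)) : ℝ) ≤ ((pvlzC 𝔑 (ty t)).2 : ℝ) := by exact_mod_cast h3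
      push_cast at this; linarith
    · have : ((pvlzC 𝔑 (ty t)).2 : ℝ) ≤ (((3 * 𝔑.nBx + 60 : ℕ) : ℤ) : ℝ) := by exact_mod_cast h4
      push_cast at this; linarith
  refine (Complex.norm_le_abs_re_add_abs_im _).trans ?_
  simp only [pvmgPt]
  rw [abs_mul ((pvlzC 𝔑 (ty t)).1 : ℝ), abs_mul ((pvlzC 𝔑 (ty t)).2 : ℝ), abs_of_nonneg hd]
  nlinarith [mul_le_mul_of_nonneg_right b1 hd, mul_le_mul_of_nonneg_right b2 hd]

end gam

end Claimed.Agent.R289
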