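import Claimed.Agent.R289.Tr.Sys
import Claimed.Agent.R289.Tr.CellHex

/-!
# Row 289 (S0537, Cardy for Poisson-Voronoi), THE WALL, file Tr/SysCell : THIN CHAINS OF PLACED CELLS AS CYCLIC LISTS OF SECTORS      (helper58; prefix `pvsk_`, `pvsk`, `Pvsk`)

Bridge between the integration layer of 95 (`Tr/Sys.lean`: `PvsySec`, `pvsyCyc`, `pvsy_pin`, `pvsy_pin_last`, `pvsy_pattern`) and the cell kit of 251 (`Tr/CellHex.lean`: `PvthKit`, `kit.k`, `kit.W`, `pvth_place_mean`) + the algebra of 218 (`pvtSum`).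
RULING 10bis (2) of 234: ALL INNER ATOMS (small plugs, cells, reference plug) are REGION states on `Conf PvPt` with `pvtiP`, `pvtiMean`: this file is their chain.      Road P: the end plugs `a`, `c` are region states too: the exits are the fields verbatim.
Road E: the two hybrid end atoms are fed through the foreign sectors `a`, `c` (or as parameters); the inner identity `∑ k = pvtSum (kit.W) d l` (`pvsk_stretch`) is what TR2 + TR25 + TR26 consume on both roads.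

* sec. 1  `pvskSec kit z d l j` (sector of the door `j`), `pvskDoor` (door plug + foreign connector), `pvsk_w2`, **`pvsk_k`** (TR25 for sectors: `k = d_j * kit.k τ_j`), **`pvsk_stretch`** (in ANY list: a stretch of cell sectors contributes `pvtSum (kit.W (pvP ε) X₀) d l`)
* sec. 2  **`pvskList a kit z d l Kf Af c`** = `[a] ++ cells of l ++ [last door + funnel (Kf, Af)] ++ [c]`, `pvskFld`, `pvskQ`, `pvskBare`;  `pvsk_cases`;  `pvsk_kout_congr`, `pvsk_k_congr`, `pvsk_kin_congr` (the means only see `O`, `G` of the target: SAME `kout` in `n1` and `cyc1`);  **`pvsk_chainY`** (normal form of a pattern)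
* sec. 3  `PvskFor`, `PvskForFld` (what the foreign sectors owe), **`pvsk_wf`**, **`pvsk_fld`**, **`pvsk_forced`**
* sec. 4  `pvsk_Dc_pattern`, `pvsk_Dc_cycle` (`D_c` EXACTLY), `pvsk_Dc_cycle_le`, `pvsk_Dc_pattern_le` (uniform in `ε` at a fixed word)
* sec. 5  EXITS: **`pvsk_pin`** (`Σ₁`: shape of `cyc1`), **`pvsk_pin_last`** (`ke`: shape of `thick`), **`pvsk_pattern`** (`c`-side of `n1`)
* sec. 6  LIMIT FORMS along a filter: **`pvsk_cyc1`**, **`pvsk_thick`**
-/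

set_option autoImplicit false
set_option linter.unusedSectionVars false

namespace Claimed.Agent.R289

open MeasureTheory ProbabilityTheory Set Filter Topology
open scoped ENNReal NNReal

/-! ## 1. the sector of a door -/

/-- **the sector of the door number `j`** of the word `l` started at `(z, d)`: the door plug and the cell which is entered through it -/
noncomputable def pvskSec (kit : PvthKit) (z d : ℂ) (l : List PvtTurn) (j : ℕ) : PvsySec PvPt where
  O := kit.O (pvthZ kit.δ z d l j) (pvthD d l j)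
  G := kit.G (pvthZ kit.δ z d l j) (pvthD d l j)
  K := kit.K (pvthZ kit.δ z d l j) (pvthD d l j) (pvthL l j)
  A := kit.A (pvthZ kit.δ z d l j) (pvthD d l j) (pvthL l j)

/-- a door plug with a FOREIGN connector (funnel into a big plug) -/
noncomputable def pvskDoor (kit : PvthKit) (z d : ℂ) (K : Set PvPt) (A : Set (Conf PvPt)) : PvsySec PvPt where
  O := kit.O z d
  G := kit.G z d
  K := K
  A := A

theorem pvsk_eqns_cite : True := by
  have := @pvskSec.eq_1; have := @pvskDoor.eq_1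
  trivial

section cell

variable {kit : PvthKit} {ε : ℝ} {X₀ : PvtTurn → Conf PvPt → ℂ} {β' q : ℝ≥0∞} {z d : ℂ} {l : List PvtTurn}

/-- the two plug regions of the cell `j` -/
theorem pvsk_OO (kit : PvthKit) (z d : ℂ) (l : List PvtTurn) {j : ℕ} (hj : j < l.length) {b : PvsySec PvPt}
    (hb : b.O = kit.O (pvthZ kit.δ z d l (j + 1)) (pvthD d l (j + 1))) :
    (pvskSec kit z d l j).O ∪ b.O = kit.OO (pvthZ kit.δ z d l j) (pvthD d l j) (pvthL l j) := by
  rw [hb, pvthx_Z_succ kit z d l hj, pvthx_D_succ d l hj]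
  rfl

/-- `g` of a door plug -/
theorem pvsk_g (kit : PvthKit) (ε : ℝ) {z d : ℂ} (hd : ‖d‖ = 1) {a : PvsySec PvPt} (ha : a.G = kit.G z d) : a.g (pvP ε) = kit.g (pvP ε) z d := by
  funext η
  unfold PvsySec.g PvthKit.g
  rw [ha, pvth_measure_G kit ε z d hd]

/-- **the two-plug weight of a cell sector is the two-plug weight of the kit**; `b` = ANY sector which carries the next door plug -/
theorem pvsk_w2 (kit : PvthKit) (ε : ℝ) (z : ℂ) {d : ℂ} (hd : d ^ 4 = 1) (l : List PvtTurn) {j : ℕ} (hj : j < l.length) {b : PvsySec PvPt}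
    (hbO : b.O = kit.O (pvthZ kit.δ z d l (j + 1)) (pvthD d l (j + 1))) (hbG : b.G = kit.G (pvthZ kit.δ z d l (j + 1)) (pvthD d l (j + 1))) :
    (pvskSec kit z d l j).w2 b (pvP ε) = kit.w2 (pvP ε) (pvthZ kit.δ z d l j) (pvthD d l j) (pvthL l j) := by
  funext η
  unfold PvsySec.w2 PvthKit.w2 PvsySec.w PvthKit.w
  rw [pvsk_OO kit z d l hj hbO, pvsk_g kit ε (pvthx_D_norm hd l j) (a := pvskSec kit z d l j) rfl,
    pvsk_g kit ε (pvthx_D_norm hd l (j + 1)) hbG, pvthx_Z_succ kit z d l hj, pvthx_D_succ d l hj]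
  rfl

/-- **TR25 for sectors**: the constant of a cell sector is `d_j *` the cell constant of its letter -/
theorem pvsk_k (hk : kit.WF) (hX : kit.Fld X₀) (z : ℂ) {d : ℂ} (hd : d ^ 4 = 1) (l : List PvtTurn) {j : ℕ} (hj : j < l.length) {b : PvsySec PvPt}
    (hbO : b.O = kit.O (pvthZ kit.δ z d l (j + 1)) (pvthD d l (j + 1))) (hbG : b.G = kit.G (pvthZ kit.δ z d l (j + 1)) (pvthD d l (j + 1))) :
    (pvskSec kit z d l j).k b (pvP ε) (kit.Xj X₀ z d l j) = pvthD d l j * kit.k (pvP ε) X₀ (pvthL l j) := by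
  unfold PvsySec.k
  rw [pvsk_w2 kit ε z hd l hj hbO hbG]
  exact pvth_place_mean hk hX _ _ (pvthx_D_norm hd l j) _

theorem pvsk_W_w (kit : PvthKit) (μ : Measure (Conf PvPt)) (X₀ : PvtTurn → Conf PvPt → ℂ) (τ : PvtTurn) : (kit.W μ X₀).w τ = kit.k μ X₀ τ := by
  cases τ <;> rfl

/-- **TR25 + TR26, the STRETCH**: inside ANY list of sectors, a stretch `sec (j₀ + j) = ` cell sector `j` (`j < |l|`) followed by a sector which carries the last door plug contributes `pvtSum (kit.W) d l` -/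
theorem pvsk_stretch (hk : kit.WF) (hX : kit.Fld X₀) (z : ℂ) {d : ℂ} (hd : d ^ 4 = 1) (l : List PvtTurn) {sec : ℕ → PvsySec PvPt} {X : ℕ → Conf PvPt → ℂ} (j₀ : ℕ)
    (hsec : ∀ j < l.length, sec (j₀ + j) = pvskSec kit z d l j) (hX' : ∀ j < l.length, X (j₀ + j) = kit.Xj X₀ z d l j)
    (hO : (sec (j₀ + l.length)).O = kit.O (pvthZ kit.δ z d l l.length) (pvthD d l l.length))
    (hG : (sec (j₀ + l.length)).G = kit.G (pvthZ kit.δ z d l l.length) (pvthD d l l.length)) :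
    ∑ j ∈ Finset.Ico j₀ (j₀ + l.length), (sec j).k (sec (j + 1)) (pvP ε) (X j) = pvtSum (kit.W (pvP ε) X₀) d l := by
  rw [pvtSum, pvthx_acc153, Finset.sum_Ico_eq_sum_range, Nat.add_sub_cancel_left]
  refine Finset.sum_congr rfl fun j hj => ?_
  rw [Finset.mem_range] at hj
  have hO' : (sec (j₀ + j + 1)).O = kit.O (pvthZ kit.δ z d l (j + 1)) (pvthD d l (j + 1)) := by
    rcases Nat.lt_or_ge (j + 1) l.length with h1 | h1
    · rw [add_assoc, hsec (j + 1) h1]; rfl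
    · have : j + 1 = l.length := by omega
      rw [add_assoc, this]; exact hO
  have hG' : (sec (j₀ + j + 1)).G = kit.G (pvthZ kit.δ z d l (j + 1)) (pvthD d l (j + 1)) := by
    rcases Nat.lt_or_ge (j + 1) l.length with h1 | h1
    · rw [add_assoc, hsec (j + 1) h1]; rfl
    · have : j + 1 = l.length := by omega
      rw [add_assoc, this]; exact hG
  rw [hsec j hj, hX' j hj, pvsk_k hk hX z hd l hj hO' hG', pvsk_W_w]

end cell

/-! ## 2. the list of a thin chain -/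

/-- **THE LIST OF A THIN CHAIN**:   `0`: `a` = a big plug and its exit funnel;   `1 + j` (`j < |l|`): the cell sectors of the word `l` started at the door `(z, d)`;
`|l| + 1`: the last door plug with the entrance funnel `(Kf, Af)`;   `|l| + 2`: `c` = a big plug (and the connector which leaves it). -/
noncomputable def pvskList (a : PvsySec PvPt) (kit : PvthKit) (z d : ℂ) (l : List PvtTurn) (Kf : Set PvPt) (Af : Set (Conf PvPt)) (c : PvsySec PvPt) (j : ℕ) : PvsySec PvPt :=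
  if j = 0 then a else if j ≤ l.length then pvskSec kit z d l (j - 1)
  else if j = l.length + 1 then pvskDoor kit (pvthZ kit.δ z d l l.length) (pvthD d l l.length) Kf Af else c

/-- the fields along the list -/
noncomputable def pvskFld (Xa : Conf PvPt → ℂ) (kit : PvthKit) (X₀ : PvtTurn → Conf PvPt → ℂ) (z d : ℂ) (l : List PvtTurn) (Xf Xc : Conf PvPt → ℂ) (j : ℕ) : Conf PvPt → ℂ :=
  if j = 0 then Xa else if j ≤ l.length then kit.Xj X₀ z d l (j - 1) else if j = l.length + 1 then Xf else Xc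

/-- the forcing constants along the list -/
def pvskQ (qa qk qf qc : ℝ≥0∞) (len : ℕ) (j : ℕ) : ℝ≥0∞ := if j = 0 then qa else if j ≤ len then qk else if j = len + 1 then qf else qc

/-- the bare door plug -/
noncomputable def pvskBare (kit : PvthKit) (z d : ℂ) : PvsySec PvPt := pvskDoor kit z d ∅ univ

theorem pvsk_eqns_cite2 : True := by
  have := @pvskList.eq_1; have := @pvskFld.eq_1; have := @pvskQ.eq_1; have := @pvskBare.eq_1
  trivial

section list

variable {a c : PvsySec PvPt} {kit : PvthKit} {z d : ℂ} {l : List PvtTurn} {Kf : Set PvPt} {Af : Set (Conf PvPt)}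
variable {Xa Xf Xc : Conf PvPt → ℂ} {X₀ : PvtTurn → Conf PvPt → ℂ} {ε : ℝ}

theorem pvsk_list_zero : pvskList a kit z d l Kf Af c 0 = a := if_pos rfl

theorem pvsk_list_cell {j : ℕ} (hj : j < l.length) : pvskList a kit z d l Kf Af c (1 + j) = pvskSec kit z d l j := by
  unfold pvskList
  rw [if_neg (by omega), if_pos (by omega), Nat.add_sub_cancel_left]

theorem pvsk_list_door : pvskList a kit z d l Kf Af c (l.length + 1) = pvskDoor kit (pvthZ kit.δ z d l l.length) (pvthD d l l.length) Kf Af := by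
  unfold pvskList
  rw [if_neg (by omega), if_neg (by omega), if_pos rfl]

theorem pvsk_list_last : pvskList a kit z d l Kf Af c (l.length + 2) = c := by
  unfold pvskList
  rw [if_neg (by omega), if_neg (by omega), if_neg (by omega)]

theorem pvsk_fld_zero : pvskFld Xa kit X₀ z d l Xf Xc 0 = Xa := if_pos rfl

theorem pvsk_fld_cell {j : ℕ} (hj : j < l.length) : pvskFld Xa kit X₀ z d l Xf Xc (1 + j) = kit.Xj X₀ z d l j := by
  unfold pvskFld
  rw [if_neg (by omega), if_pos (by omega), Nat.add_sub_cancel_left]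

theorem pvsk_fld_door : pvskFld Xa kit X₀ z d l Xf Xc (l.length + 1) = Xf := by
  unfold pvskFld
  rw [if_neg (by omega), if_neg (by omega), if_pos rfl]

theorem pvsk_fld_last : pvskFld Xa kit X₀ z d l Xf Xc (l.length + 2) = Xc := by
  unfold pvskFld
  rw [if_neg (by omega), if_neg (by omega), if_neg (by omega)]

/-- a case analysis along the list -/
theorem pvsk_cases {P : ℕ → Prop} (len : ℕ) (h0 : P 0) (h1 : ∀ j < len, P (1 + j)) (h2 : P (len + 1)) (h3 : P (len + 2)) : ∀ j < len + 3, P j := by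
  intro j hj
  rcases Nat.eq_zero_or_pos j with rfl | hp
  · exact h0
  rcases Nat.lt_or_ge j (len + 1) with h | h
  · have := h1 (j - 1) (by omega)
    rwa [show 1 + (j - 1) = j by omega] at this
  rcases Nat.eq_or_lt_of_le h with h | h
  · rw [← h]; exact h2
  · have : j = len + 2 := by omega
    rw [this]; exact h3

/-- the plug number `1 + j` of the list is the door number `j` of the word, `j ≤ |l|` -/
theorem pvsk_list_O {j : ℕ} (hj : j ≤ l.length) : (pvskList a kit z d l Kf Af c (1 + j)).O = kit.O (pvthZ kit.δ z d l j) (pvthD d l j) := by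
  rcases Nat.lt_or_ge j l.length with h | h
  · rw [pvsk_list_cell h]; rfl
  · have : j = l.length := by omega
    rw [this, add_comm, pvsk_list_door]; rfl

theorem pvsk_list_G {j : ℕ} (hj : j ≤ l.length) : (pvskList a kit z d l Kf Af c (1 + j)).G = kit.G (pvthZ kit.δ z d l j) (pvthD d l j) := by
  rcases Nat.lt_or_ge j l.length with h | h
  · rw [pvsk_list_cell h]; rfl
  · have : j = l.length := by omega
    rw [this, add_comm, pvsk_list_door]; rfl

/-- `kout` only sees the region and the usable event of the target plug -/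
theorem pvsk_kout_congr {E : Type*} [MeasurableSpace E] (a : PvsySec E) {b b' : PvsySec E} (hO : b.O = b'.O) (hG : b.G = b'.G) (μ : Measure (Conf E)) (X : Conf E → ℂ) :
    a.kout b μ X = a.kout b' μ X := by
  unfold PvsySec.kout PvsySec.g PvsySec.w
  rw [hO, hG]

/-- `k` only sees the region and the usable event of the target plug -/
theorem pvsk_k_congr {E : Type*} [MeasurableSpace E] (a : PvsySec E) {b b' : PvsySec E} (hO : b.O = b'.O) (hG : b.G = b'.G) (μ : Measure (Conf E)) (X : Conf E → ℂ) :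
    a.k b μ X = a.k b' μ X := by
  unfold PvsySec.k PvsySec.w2 PvsySec.g PvsySec.w
  rw [hO, hG]

/-- `kin` only sees the region of the target plug -/
theorem pvsk_kin_congr {E : Type*} [MeasurableSpace E] (a : PvsySec E) {b b' : PvsySec E} (hO : b.O = b'.O) (μ : Measure (Conf E)) (X : Conf E → ℂ) :
    a.kin b μ X = a.kin b' μ X := by
  unfold PvsySec.kin PvsySec.w
  rw [hO]

/-- the first term: `κ_out` of the exit funnel of `a` into the first door -/
theorem pvsk_list_kout (μ : Measure (Conf PvPt)) (X : Conf PvPt → ℂ) :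
    a.kout (pvskList a kit z d l Kf Af c 1) μ X = a.kout (pvskBare kit z d) μ X := by
  refine pvsk_kout_congr a ?_ ?_ μ X
  · rw [pvsk_list_O (j := 0) (Nat.zero_le _), pvthx_Z_zero, pvthx_D_zero]; rfl
  · rw [pvsk_list_G (j := 0) (Nat.zero_le _), pvthx_Z_zero, pvthx_D_zero]; rfl

/-- the stretch of the list -/
theorem pvsk_list_stretch (hk : kit.WF) (hX : kit.Fld X₀) (hd : d ^ 4 = 1) :
    ∑ j ∈ Finset.Ico 1 (1 + l.length), (pvskList a kit z d l Kf Af c j).k (pvskList a kit z d l Kf Af c (j + 1)) (pvP ε) (pvskFld Xa kit X₀ z d l Xf Xc j)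
      = pvtSum (kit.W (pvP ε) X₀) d l :=
  pvsk_stretch hk hX z hd l 1 (fun _ hj => pvsk_list_cell hj) (fun _ hj => pvsk_fld_cell hj) (pvsk_list_O le_rfl) (pvsk_list_G le_rfl)

/-- **TR2 + TR25 + TR26 for a PATTERN** `a = t -funnel-> cells of l -funnel-> c = s`: the normal form of 95 in the vocabulary of the kit -/
theorem pvsk_chainY (hk : kit.WF) (hX : kit.Fld X₀) (hd : d ^ 4 = 1) (σ : Conf PvPt) :
    pvsyChainY (pvP ε) (l.length + 2) (pvskList a kit z d l Kf Af c) (pvskFld Xa kit X₀ z d l Xf Xc) σ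
      = a.kout (pvskBare kit z d) (pvP ε) Xa σ + pvtSum (kit.W (pvP ε) X₀) d l
        + (pvskDoor kit (pvthZ kit.δ z d l l.length) (pvthD d l l.length) Kf Af).kin c (pvP ε) Xf σ := by
  unfold pvsyChainY
  have e1 : l.length + 2 - 1 = l.length + 1 := by omega
  have e2 : Finset.Ioo 0 (l.length + 1) = Finset.Ico 1 (1 + l.length) := by
    ext j; simp only [Finset.mem_Ioo, Finset.mem_Ico]; omega
  rw [e1, e2, pvsk_list_stretch hk hX hd, pvsk_list_zero, pvsk_fld_zero, pvsk_list_kout, pvsk_list_door, pvsk_list_last, pvsk_fld_door]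

end list

/-! ## 3. well-formedness, fields, forcing of the list -/

/-- **what the FOREIGN sectors owe** (`a`, the entrance funnel `(Kf, Af)`, `c`) + the disjointness of the regions of the list (geometry: `pvcc_OO`, `pvcc_KK`, `pvcc_OK` of 166 for the cells) -/
structure PvskFor (μ : Measure (Conf PvPt)) (a : PvsySec PvPt) (kit : PvthKit) (z d : ℂ) (l : List PvtTurn) (Kf : Set PvPt) (Af : Set (Conf PvPt)) (c : PvsySec PvPt) : Prop where
  mOa : MeasurableSet a.O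
  mKa : MeasurableSet a.K
  mGa : NullMeasurableSet a.G μ
  mAa : NullMeasurableSet a.A μ
  rGa : Conf.ReadsSet a.O a.G
  rAa : Conf.ReadsSet (a.O ∪ kit.O z d ∪ a.K) a.A
  mKf : MeasurableSet Kf
  mAf : NullMeasurableSet Af μ
  rAf : Conf.ReadsSet (kit.O (pvthZ kit.δ z d l l.length) (pvthD d l l.length) ∪ c.O ∪ Kf) Af
  mOc : MeasurableSet c.O
  mKc : MeasurableSet c.K
  mGc : NullMeasurableSet c.G μ
  mAc : NullMeasurableSet c.A μ
  rGc : Conf.ReadsSet c.O c.G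
  rAc : Conf.ReadsSet (c.O ∪ a.O ∪ c.K) c.A
  dOO : ∀ i < l.length + 3, ∀ j < l.length + 3, i ≠ j → Disjoint (pvskList a kit z d l Kf Af c i).O (pvskList a kit z d l Kf Af c j).O
  dKK : ∀ i < l.length + 3, ∀ j < l.length + 3, i ≠ j → Disjoint (pvskList a kit z d l Kf Af c i).K (pvskList a kit z d l Kf Af c j).K
  dOK : ∀ i < l.length + 3, ∀ j < l.length + 3, Disjoint (pvskList a kit z d l Kf Af c i).O (pvskList a kit z d l Kf Af c j).K

/-- what the foreign fields owe -/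
structure PvskForFld (μ : Measure (Conf PvPt)) (a : PvsySec PvPt) (kit : PvthKit) (z d : ℂ) (l : List PvtTurn) (Kf : Set PvPt) (c : PvsySec PvPt) (Xa Xf Xc : Conf PvPt → ℂ) : Prop where
  mXa : AEMeasurable Xa μ
  rXa : Conf.Reads (a.O ∪ kit.O z d ∪ a.K) Xa
  mXf : AEMeasurable Xf μ
  rXf : Conf.Reads (kit.O (pvthZ kit.δ z d l l.length) (pvthD d l l.length) ∪ c.O ∪ Kf) Xf
  mXc : AEMeasurable Xc μ
  rXc : Conf.Reads (c.O ∪ a.O ∪ c.K) Xc

section wf

variable {a c : PvsySec PvPt} {kit : PvthKit} {z d : ℂ} {l : List PvtTurn} {Kf : Set PvPt} {Af : Set (Conf PvPt)}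
variable {Xa Xf Xc : Conf PvPt → ℂ} {X₀ : PvtTurn → Conf PvPt → ℂ} {ε : ℝ} {μ : Measure (Conf PvPt)}

theorem pvsk_mod0 (len : ℕ) : (0 + 1) % (len + 3) = 1 + 0 := Nat.mod_eq_of_lt (by omega)

theorem pvsk_mod1 {len j : ℕ} (hj : j < len) : (1 + j + 1) % (len + 3) = 1 + (j + 1) := by
  rw [Nat.mod_eq_of_lt (by omega)]; omega

theorem pvsk_mod2 (len : ℕ) : (len + 1 + 1) % (len + 3) = len + 2 := Nat.mod_eq_of_lt (by omega)

theorem pvsk_mod3 (len : ℕ) : (len + 2 + 1) % (len + 3) = 0 := Nat.mod_self _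

/-- the window of the connector number `j` of the list -/
theorem pvsk_win0 : (pvskList a kit z d l Kf Af c 0).O ∪ (pvskList a kit z d l Kf Af c ((0 + 1) % (l.length + 3))).O ∪ (pvskList a kit z d l Kf Af c 0).K
    = a.O ∪ kit.O z d ∪ a.K := by
  rw [pvsk_mod0, pvsk_list_O (Nat.zero_le _), pvsk_list_zero, pvthx_Z_zero, pvthx_D_zero]

theorem pvsk_win1 {j : ℕ} (hj : j < l.length) :
    (pvskList a kit z d l Kf Af c (1 + j)).O ∪ (pvskList a kit z d l Kf Af c ((1 + j + 1) % (l.length + 3))).O ∪ (pvskList a kit z d l Kf Af c (1 + j)).K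
      = kit.OO (pvthZ kit.δ z d l j) (pvthD d l j) (pvthL l j) ∪ kit.K (pvthZ kit.δ z d l j) (pvthD d l j) (pvthL l j) := by
  rw [pvsk_mod1 hj, pvsk_list_cell hj, pvsk_OO kit z d l hj (pvsk_list_O (by omega))]
  rfl

theorem pvsk_win2 : (pvskList a kit z d l Kf Af c (l.length + 1)).O ∪ (pvskList a kit z d l Kf Af c ((l.length + 1 + 1) % (l.length + 3))).O ∪ (pvskList a kit z d l Kf Af c (l.length + 1)).K
    = kit.O (pvthZ kit.δ z d l l.length) (pvthD d l l.length) ∪ c.O ∪ Kf := by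
  rw [pvsk_mod2, pvsk_list_door, pvsk_list_last]
  rfl

theorem pvsk_win3 : (pvskList a kit z d l Kf Af c (l.length + 2)).O ∪ (pvskList a kit z d l Kf Af c ((l.length + 2 + 1) % (l.length + 3))).O ∪ (pvskList a kit z d l Kf Af c (l.length + 2)).K
    = c.O ∪ a.O ∪ c.K := by
  rw [pvsk_mod3, pvsk_list_zero, pvsk_list_last]

/-- **the list is a well-formed cyclic list** -/
theorem pvsk_wf (hk : kit.WF) (hd : d ^ 4 = 1) (h : PvskFor μ a kit z d l Kf Af c) : PvsyCycWF μ (l.length + 3) (pvskList a kit z d l Kf Af c) where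
  two := by omega
  mO := pvsk_cases l.length (by rw [pvsk_list_zero]; exact h.mOa)
    (fun j hj => by rw [pvsk_list_O hj.le]; exact pvth_mO hk _ _ (pvthx_D_ne hd l j))
    (by rw [add_comm, pvsk_list_O le_rfl]; exact pvth_mO hk _ _ (pvthx_D_ne hd l _)) (by rw [pvsk_list_last]; exact h.mOc)
  mK := pvsk_cases l.length (by rw [pvsk_list_zero]; exact h.mKa)
    (fun j hj => by rw [pvsk_list_cell hj]; exact pvth_mK hk _ _ (pvthx_D_ne hd l j) _)
    (by rw [pvsk_list_door]; exact h.mKf) (by rw [pvsk_list_last]; exact h.mKc)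
  mG := pvsk_cases l.length (by rw [pvsk_list_zero]; exact h.mGa)
    (fun j hj => by rw [pvsk_list_G hj.le]; exact (pvth_mG hk _ _).nullMeasurableSet)
    (by rw [add_comm, pvsk_list_G le_rfl]; exact (pvth_mG hk _ _).nullMeasurableSet) (by rw [pvsk_list_last]; exact h.mGc)
  mA := pvsk_cases l.length (by rw [pvsk_list_zero]; exact h.mAa)
    (fun j hj => by rw [pvsk_list_cell hj]; exact (pvth_mA hk _ _ _).nullMeasurableSet)
    (by rw [pvsk_list_door]; exact h.mAf) (by rw [pvsk_list_last]; exact h.mAc)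
  dOO := h.dOO
  dKK := h.dKK
  dOK := h.dOK
  rG := pvsk_cases l.length (by rw [pvsk_list_zero]; exact h.rGa)
    (fun j hj => by rw [pvsk_list_O hj.le, pvsk_list_G hj.le]; exact Conf.readsSet_iff_reads.2 (pvth_rG hk _ _ (pvthx_D_ne hd l j)))
    (by rw [add_comm, pvsk_list_O le_rfl, pvsk_list_G le_rfl]; exact Conf.readsSet_iff_reads.2 (pvth_rG hk _ _ (pvthx_D_ne hd l _)))
    (by rw [pvsk_list_last]; exact h.rGc)
  rA := pvsk_cases l.length (by rw [pvsk_win0, pvsk_list_zero]; exact h.rAa)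
    (fun j hj => by rw [pvsk_win1 hj, pvsk_list_cell hj]; exact Conf.readsSet_iff_reads.2 (pvth_rA hk _ _ (pvthx_D_ne hd l j) _))
    (by rw [pvsk_win2, pvsk_list_door]; exact h.rAf) (by rw [pvsk_win3, pvsk_list_last]; exact h.rAc)

/-- **the fields along the list** -/
theorem pvsk_fld (hX : kit.Fld X₀) (hd : d ^ 4 = 1) (h : PvskForFld μ a kit z d l Kf c Xa Xf Xc) :
    PvsyCycFld μ (l.length + 3) (pvskList a kit z d l Kf Af c) (pvskFld Xa kit X₀ z d l Xf Xc) where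
  meas := pvsk_cases l.length (by rw [pvsk_fld_zero]; exact h.mXa)
    (fun j hj => by rw [pvsk_fld_cell hj]; exact (pvth_X_meas hX _ _ _).aemeasurable)
    (by rw [pvsk_fld_door]; exact h.mXf) (by rw [pvsk_fld_last]; exact h.mXc)
  reads := pvsk_cases l.length (by rw [pvsk_win0, pvsk_fld_zero]; exact h.rXa)
    (fun j hj => by rw [pvsk_win1 hj, pvsk_fld_cell hj]; exact pvth_X_reads hX _ (pvthx_D_ne hd l j) _)
    (by rw [pvsk_win2, pvsk_fld_door]; exact h.rXf) (by rw [pvsk_win3, pvsk_fld_last]; exact h.rXc)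

theorem pvsk_Q_zero (qa qk qf qc : ℝ≥0∞) (len : ℕ) : pvskQ qa qk qf qc len 0 = qa := if_pos rfl

theorem pvsk_Q_cell (qa qk qf qc : ℝ≥0∞) {len j : ℕ} (hj : j < len) : pvskQ qa qk qf qc len (1 + j) = qk := by
  unfold pvskQ
  rw [if_neg (by omega), if_pos (by omega)]

theorem pvsk_Q_door (qa qk qf qc : ℝ≥0∞) (len : ℕ) : pvskQ qa qk qf qc len (len + 1) = qf := by
  unfold pvskQ
  rw [if_neg (by omega), if_neg (by omega), if_pos rfl]

theorem pvsk_Q_last (qa qk qf qc : ℝ≥0∞) (len : ℕ) : pvskQ qa qk qf qc len (len + 2) = qc := by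
  unfold pvskQ
  rw [if_neg (by omega), if_neg (by omega), if_neg (by omega)]

/-- **admission and forcing along the list** (foreign connectors: for ALMOST EVERY pair of states, 95's `pvsy_reg_ae`).   `A` = inner plugs (`Ioo 0 (|l|+3)` for a cycle through `a`, `Ioo 0 (|l|+2)` for a pattern `a → c`), `B` = connectors in use. -/
theorem pvsk_forced {β' qa qk qf qc : ℝ≥0∞} (hF : kit.Forced (pvP ε) β' qk) (hqk : qk ≤ 1) (hd : d ^ 4 = 1) {A B : Finset ℕ} (h0 : 0 ∉ A)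
    (hGc : l.length + 2 ∈ A → pvP ε c.G ≠ 0)
    (ha0 : qa ≠ 0) (ha1 : qa ≤ 1) (ha : ∀ᵐ σ ∂(pvP ε), σ ∈ a.G → σ ∈ kit.G z d → qa ≤ pvtiP (pvP ε) (a.O ∪ kit.O z d) a.A σ)
    (hf0 : qf ≠ 0) (hf1 : qf ≤ 1) (hf : ∀ᵐ σ ∂(pvP ε), σ ∈ kit.G (pvthZ kit.δ z d l l.length) (pvthD d l l.length) → σ ∈ c.G →
      qf ≤ pvtiP (pvP ε) (kit.O (pvthZ kit.δ z d l l.length) (pvthD d l l.length) ∪ c.O) Af σ)
    (hc : l.length + 2 ∈ B → qc ≠ 0 ∧ qc ≤ 1 ∧ ∀ᵐ σ ∂(pvP ε), σ ∈ c.G → σ ∈ a.G → qc ≤ pvtiP (pvP ε) (c.O ∪ a.O) c.A σ) :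
    PvsyCycForced (pvP ε) (l.length + 3) (pvskList a kit z d l Kf Af c) A B (pvskQ qa qk qf qc l.length) where
  G_pos := fun j hjA hj => by
    revert hjA
    refine pvsk_cases (P := fun j => j ∈ A → pvP ε (pvskList a kit z d l Kf Af c j).G ≠ 0) l.length (fun h => absurd h h0) (fun i hi _ => ?_) (fun _ => ?_) (fun h => ?_) j hj
    · rw [pvsk_list_G hi.le, pvth_measure_G kit ε _ _ (pvthx_D_norm hd l i)]; exact pvth_G0_ne hF
    · rw [add_comm, pvsk_list_G le_rfl, pvth_measure_G kit ε _ _ (pvthx_D_norm hd l _)]; exact pvth_G0_ne hF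
    · rw [pvsk_list_last]; exact hGc h
  q_pos := fun j hjB hj => by
    revert hjB
    refine pvsk_cases (P := fun j => j ∈ B → pvskQ qa qk qf qc l.length j ≠ 0) l.length (fun _ => ?_) (fun i hi _ => ?_) (fun _ => ?_) (fun h => ?_) j hj
    · rw [pvsk_Q_zero]; exact ha0
    · rw [pvsk_Q_cell _ _ _ _ hi]; exact hF.q0
    · rw [pvsk_Q_door]; exact hf0
    · rw [pvsk_Q_last]; exact (hc h).1
  q_le := fun j hjB hj => by
    revert hjB
    refine pvsk_cases (P := fun j => j ∈ B → pvskQ qa qk qf qc l.length j ≤ 1) l.length (fun _ => ?_) (fun i hi _ => ?_) (fun _ => ?_) (fun h => ?_) j hj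
    · rw [pvsk_Q_zero]; exact ha1
    · rw [pvsk_Q_cell _ _ _ _ hi]; exact hqk
    · rw [pvsk_Q_door]; exact hf1
    · rw [pvsk_Q_last]; exact (hc h).2.1
  frc := fun j hjB hj => by
    revert hjB
    refine pvsk_cases (P := fun j => j ∈ B → ∀ᵐ σ ∂(pvP ε), σ ∈ (pvskList a kit z d l Kf Af c j).G → σ ∈ (pvskList a kit z d l Kf Af c ((j + 1) % (l.length + 3))).G →
      pvskQ qa qk qf qc l.length j ≤ pvtiP (pvP ε) ((pvskList a kit z d l Kf Af c j).O ∪ (pvskList a kit z d l Kf Af c ((j + 1) % (l.length + 3))).O)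
        (pvskList a kit z d l Kf Af c j).A σ) l.length (fun _ => ?_) (fun i hi _ => ?_) (fun _ => ?_) (fun h => ?_) j hj
    · rw [pvsk_mod0, pvsk_list_O (Nat.zero_le _), pvsk_list_G (Nat.zero_le _), pvsk_list_zero, pvthx_Z_zero, pvthx_D_zero, pvsk_Q_zero]
      exact ha
    · rw [pvsk_mod1 hi, pvsk_list_G (j := i + 1) (by omega), pvsk_list_cell hi, pvsk_OO kit z d l hi (pvsk_list_O (by omega)), pvsk_Q_cell _ _ _ _ hi]
      refine Filter.Eventually.of_forall fun σ h1 h2 => ?_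
      rw [pvthx_Z_succ kit z d l hi, pvthx_D_succ d l hi] at h2
      exact pvth_frc hF _ _ (pvthx_D_norm hd l i) _ h1 h2
    · rw [pvsk_mod2, pvsk_list_door, pvsk_list_last, pvsk_Q_door]
      exact hf
    · rw [pvsk_mod3, pvsk_list_zero, pvsk_list_last, pvsk_Q_last]
      exact (hc h).2.2

end wf

/-! ## 4. the bound of the weight -/

section Dc

variable {a c : PvsySec PvPt} {kit : PvthKit} {z d : ℂ} {l : List PvtTurn} {Kf : Set PvPt} {Af : Set (Conf PvPt)} {ε : ℝ}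

theorem pvsk_prod_G (hd : d ^ 4 = 1) :
    ∏ j ∈ Finset.Ico 1 (1 + (l.length + 1)), (pvP ε (pvskList a kit z d l Kf Af c j).G)⁻¹ = ((pvP ε kit.G₀)⁻¹) ^ (l.length + 1) := by
  rw [Finset.prod_Ico_eq_prod_range, Nat.add_sub_cancel_left]
  rw [Finset.prod_congr rfl fun j hj => by
    rw [pvsk_list_G (Nat.lt_succ_iff.1 (Finset.mem_range.1 hj)), pvth_measure_G kit ε _ _ (pvthx_D_norm hd l j)]]
  rw [Finset.prod_const, Finset.card_range]

theorem pvsk_prod_Q (qa qk qf qc : ℝ≥0∞) (len : ℕ) : ∏ j ∈ Finset.range (len + 2), (pvskQ qa qk qf qc len j)⁻¹ = qa⁻¹ * qk⁻¹ ^ len * qf⁻¹ := by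
  rw [Finset.prod_range_succ, pvsk_Q_door, Finset.prod_range_succ', pvsk_Q_zero]
  rw [Finset.prod_congr rfl fun j hj => by rw [add_comm j 1, pvsk_Q_cell _ _ _ _ (Finset.mem_range.1 hj)]]
  rw [Finset.prod_const, Finset.card_range]
  ring

/-- **`D_c` of a PATTERN** `a → c` -/
theorem pvsk_Dc_pattern (hd : d ^ 4 = 1) (qa qk qf qc : ℝ≥0∞) :
    pvsyDc (pvP ε) (l.length + 2 + 1) (pvskList a kit z d l Kf Af c) (Finset.Ioo 0 (l.length + 2)) (Finset.range (l.length + 2)) (pvskQ qa qk qf qc l.length)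
      = ((pvP ε kit.G₀)⁻¹) ^ (l.length + 1) * (qa⁻¹ * qk⁻¹ ^ l.length * qf⁻¹) := by
  unfold pvsyDc
  have e1 : (Finset.Ioo 0 (l.length + 2)).filter (· < l.length + 2 + 1) = Finset.Ico 1 (1 + (l.length + 1)) := by
    ext j; simp only [Finset.mem_filter, Finset.mem_Ioo, Finset.mem_Ico]; omega
  have e2 : (Finset.range (l.length + 2)).filter (· < l.length + 2 + 1) = Finset.range (l.length + 2) := by
    ext j; simp only [Finset.mem_filter, Finset.mem_range]; omega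
  rw [e1, e2, pvsk_prod_G hd, pvsk_prod_Q]

/-- **`D_c` of a CYCLE** through `a` -/
theorem pvsk_Dc_cycle (hd : d ^ 4 = 1) (qa qk qf qc : ℝ≥0∞) :
    pvsyDc (pvP ε) (l.length + 3) (pvskList a kit z d l Kf Af c) (Finset.Ioo 0 (l.length + 3)) (Finset.range (l.length + 3)) (pvskQ qa qk qf qc l.length)
      = ((pvP ε kit.G₀)⁻¹) ^ (l.length + 1) * (pvP ε c.G)⁻¹ * (qa⁻¹ * qk⁻¹ ^ l.length * qf⁻¹ * qc⁻¹) := by
  unfold pvsyDc
  have e1 : (Finset.Ioo 0 (l.length + 3)).filter (· < l.length + 3) = Finset.Ico 1 (l.length + 2 + 1) := by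
    ext j; simp only [Finset.mem_filter, Finset.mem_Ioo, Finset.mem_Ico]; omega
  have e2 : (Finset.range (l.length + 3)).filter (· < l.length + 3) = Finset.range (l.length + 2 + 1) := by
    ext j; simp only [Finset.mem_filter, Finset.mem_range]; omega
  rw [e1, e2, Finset.prod_Ico_succ_top (by omega), Finset.prod_range_succ, pvsk_list_last, pvsk_Q_last, pvsk_prod_Q,
    show l.length + 2 = 1 + (l.length + 1) by omega, pvsk_prod_G hd]

/-- uniform bound of `D_c` of a cycle -/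
theorem pvsk_Dc_cycle_le {β' βc qa qk qf qc : ℝ≥0∞} (hd : d ^ 4 = 1) (hβ : β' ≤ pvP ε kit.G₀) (hβc : βc ≤ pvP ε c.G) :
    pvsyDc (pvP ε) (l.length + 3) (pvskList a kit z d l Kf Af c) (Finset.Ioo 0 (l.length + 3)) (Finset.range (l.length + 3)) (pvskQ qa qk qf qc l.length)
      ≤ (β'⁻¹) ^ (l.length + 1) * βc⁻¹ * (qa⁻¹ * qk⁻¹ ^ l.length * qf⁻¹ * qc⁻¹) := by
  rw [pvsk_Dc_cycle hd]
  gcongr

theorem pvsk_Dc_pattern_le {β' qa qk qf qc : ℝ≥0∞} (hd : d ^ 4 = 1) (hβ : β' ≤ pvP ε kit.G₀) :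
    pvsyDc (pvP ε) (l.length + 2 + 1) (pvskList a kit z d l Kf Af c) (Finset.Ioo 0 (l.length + 2)) (Finset.range (l.length + 2)) (pvskQ qa qk qf qc l.length)
      ≤ (β'⁻¹) ^ (l.length + 1) * (qa⁻¹ * qk⁻¹ ^ l.length * qf⁻¹) := by
  rw [pvsk_Dc_pattern hd]
  gcongr

end Dc

/-! ## 5. the exits -/

section exits

variable {a c : PvsySec PvPt} {kit : PvthKit} {z d : ℂ} {l : List PvtTurn} {Kf : Set PvPt} {Af : Set (Conf PvPt)}
variable {Xa Xf Xc : Conf PvPt → ℂ} {X₀ : PvtTurn → Conf PvPt → ℂ} {ε : ℝ}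

/-- **`Σ₁` (and `Σ₂`) IN THE VOCABULARY OF THE KIT**: the cycle   `a = t -funnel-> cells of l -funnel-> c = u (integrated) -link-> t`.
`κ_out(σ_t) + pvtSum (kit.W) d l + kin0 + ke(σ_t)` is small in `L^r` on `G_t` as soon as the closed sum is small on the cycle event. -/
theorem pvsk_pin (hk : kit.WF) (hX : kit.Fld X₀) (hd : d ^ 4 = 1) (hS : PvskFor (pvP ε) a kit z d l Kf Af c) (hXf : PvskForFld (pvP ε) a kit z d l Kf c Xa Xf Xc)
    {q : ℕ → ℝ≥0∞} (hF : PvsyCycForced (pvP ε) (l.length + 3) (pvskList a kit z d l Kf Af c) (Finset.Ioo 0 (l.length + 3)) (Finset.range (l.length + 3)) q)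
    (hfin : ∀ j < l.length + 3, ∫⁻ η in a.G ∩ pvsyEv (l.length + 3) (pvskList a kit z d l Kf Af c) (Finset.Ioo 0 (l.length + 3)) (Finset.range (l.length + 3)),
      ‖pvskFld Xa kit X₀ z d l Xf Xc j η‖ₑ ∂(pvP ε) ≠ ∞) (r : ℕ) :
    ∫⁻ σ in a.G, ‖a.kout (pvskBare kit z d) (pvP ε) Xa σ + pvtSum (kit.W (pvP ε) X₀) d l
        + (pvskDoor kit (pvthZ kit.δ z d l l.length) (pvthD d l l.length) Kf Af).k c (pvP ε) Xf + c.kin a (pvP ε) Xc σ‖ₑ ^ r ∂(pvP ε)
      ≤ pvsyDc (pvP ε) (l.length + 3) (pvskList a kit z d l Kf Af c) (Finset.Ioo 0 (l.length + 3)) (Finset.range (l.length + 3)) q *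
        ∫⁻ η in a.G ∩ pvsyEv (l.length + 3) (pvskList a kit z d l Kf Af c) (Finset.Ioo 0 (l.length + 3)) (Finset.range (l.length + 3)),
          ‖∑ j ∈ Finset.range (l.length + 3), pvskFld Xa kit X₀ z d l Xf Xc j η‖ₑ ^ r ∂(pvP ε) := by
  have key := pvsy_pin (pv_isPpp ε) (pvsk_wf hk hd hS) (pvsk_fld (Af := Af) hX hd hXf) hF (by rw [pvsk_list_zero]; exact hfin) r
  rw [pvsk_list_zero] at key
  refine le_trans (le_of_eq ?_) key
  have e1 : l.length + 3 - 1 = l.length + 1 + 1 := by omega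
  have e2 : Finset.Ioo 0 (l.length + 1 + 1) = Finset.Ico 1 (l.length + 1 + 1) := by
    ext j; simp only [Finset.mem_Ioo, Finset.mem_Ico]; omega
  rw [e1, e2, Finset.sum_Ico_succ_top (by omega), add_comm l.length 1, pvsk_list_stretch hk hX hd, add_comm 1 l.length,
    pvsk_fld_zero, pvsk_list_kout, pvsk_list_door, pvsk_list_last, pvsk_fld_door, pvsk_fld_last]
  simp only [add_assoc]

/-- **the last link of the cycle** (TR5, chain form): `ke` -/
theorem pvsk_pin_last (hk : kit.WF) (hX : kit.Fld X₀) (hd : d ^ 4 = 1) (hS : PvskFor (pvP ε) a kit z d l Kf Af c) (hXf : PvskForFld (pvP ε) a kit z d l Kf c Xa Xf Xc)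
    {q : ℕ → ℝ≥0∞} (hF : PvsyCycForced (pvP ε) (l.length + 3) (pvskList a kit z d l Kf Af c) (Finset.Ioo 0 (l.length + 3)) (Finset.range (l.length + 3)) q) (r : ℕ) :
    ∫⁻ σ in a.G, ‖c.kin a (pvP ε) Xc σ‖ₑ ^ r ∂(pvP ε)
      ≤ pvsyDc (pvP ε) (l.length + 3) (pvskList a kit z d l Kf Af c) (Finset.Ioo 0 (l.length + 3)) (Finset.range (l.length + 3)) q *
        ∫⁻ η in a.G ∩ pvsyEv (l.length + 3) (pvskList a kit z d l Kf Af c) (Finset.Ioo 0 (l.length + 3)) (Finset.range (l.length + 3)), ‖Xc η‖ₑ ^ r ∂(pvP ε) := by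
  have key := pvsy_pin_last (pv_isPpp ε) (pvsk_wf hk hd hS) (pvsk_fld (Af := Af) (X₀ := X₀) hX hd hXf) hF r
  have e1 : l.length + 3 - 1 = l.length + 2 := by omega
  rw [e1, pvsk_list_zero, pvsk_list_last, pvsk_fld_last] at key
  exact key

/-- **the `c`-side of N1 for a PATTERN** `a = t → c = s`, family form of 95, in the vocabulary of the kit -/
theorem pvsk_pattern (hk : kit.WF) (hX : kit.Fld X₀) (hd : d ^ 4 = 1) (hS : PvskFor (pvP ε) a kit z d l Kf Af c) (hXf : PvskForFld (pvP ε) a kit z d l Kf c Xa Xf Xc)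
    {q : ℕ → ℝ≥0∞} (hF : PvsyCycForced (pvP ε) (l.length + 2 + 1) (pvskList a kit z d l Kf Af c) (Finset.Ioo 0 (l.length + 2)) (Finset.range (l.length + 2)) q)
    (hfin : ∀ j < l.length + 2, ∫⁻ η in a.G ∩ c.G ∩ pvsyEv (l.length + 2 + 1) (pvskList a kit z d l Kf Af c) (Finset.Ioo 0 (l.length + 2)) (Finset.range (l.length + 2)),
      ‖pvskFld Xa kit X₀ z d l Xf Xc j η‖ₑ ∂(pvP ε) ≠ ∞)
    {ι : Type*} {Xg : ι → Conf PvPt → ℂ} {ag : ι → Conf PvPt → ℝ≥0∞} {H : Conf PvPt → ℝ≥0∞}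
    (hXr : ∀ i, Conf.Reads (pvsyC0 (l.length + 2) (pvskList a kit z d l Kf Af c))ᶜ (Xg i)) (har : ∀ i, Conf.Reads (pvsyC0 (l.length + 2) (pvskList a kit z d l Kf Af c))ᶜ (ag i))
    (hH : AEMeasurable H (pvP ε)) (ha : ∀ i σ, ag i σ ≠ 0 → σ ∈ a.G ∧ σ ∈ c.G)
    (hdom : ∀ᵐ η ∂(pvP ε), η ∈ pvsyEv (l.length + 2 + 1) (pvskList a kit z d l Kf Af c) (Finset.Ioo 0 (l.length + 2)) (Finset.range (l.length + 2)) →
      ∑' i, ‖Xg i η + ∑ j ∈ Finset.range (l.length + 2), pvskFld Xa kit X₀ z d l Xf Xc j η‖ₑ ^ 2 * ag i η ≤ H η) :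
    ∫⁻ σ, ∑' i, ‖Xg i σ + (a.kout (pvskBare kit z d) (pvP ε) Xa σ + pvtSum (kit.W (pvP ε) X₀) d l
        + (pvskDoor kit (pvthZ kit.δ z d l l.length) (pvthD d l l.length) Kf Af).kin c (pvP ε) Xf σ)‖ₑ ^ 2 * ag i σ ∂(pvP ε)
      ≤ pvsyDc (pvP ε) (l.length + 2 + 1) (pvskList a kit z d l Kf Af c) (Finset.Ioo 0 (l.length + 2)) (Finset.range (l.length + 2)) q *
        ∫⁻ η in pvsyEv (l.length + 2 + 1) (pvskList a kit z d l Kf Af c) (Finset.Ioo 0 (l.length + 2)) (Finset.range (l.length + 2)), H η ∂(pvP ε) := by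
  have key := pvsy_pattern (N := l.length + 2) (by omega) (pv_isPpp ε) (pvsk_wf hk hd hS) (pvsk_fld (Af := Af) hX hd hXf) hF
    (by rw [pvsk_list_zero, pvsk_list_last]; exact hfin) hXr har hH (by rw [pvsk_list_zero, pvsk_list_last]; exact ha) hdom
  simp only [pvsk_chainY hk hX hd] at key
  exact key

end exits

/-! ## 6. limit forms -/

section lim

variable {κ : Type*} {fl : Filter κ} {z d : ℂ} {l : List PvtTurn}

/-- **FIELD `cyc1`, region states.**   `es i` = the mesh; the kit, the foreign sectors and the fields may depend on `i`; the word, the door `(z, d)` do not.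
INPUTS: (F) forcing with constants bounded below, admission `β' ≤ P(G₀)`, `βc ≤ P(G_u)`;   (TAIL) `E[‖closed sum‖² ; cycle event] → 0`. -/
theorem pvsk_cyc1 (es : κ → ℝ) (kit : κ → PvthKit) (a c : κ → PvsySec PvPt) (Kf : κ → Set PvPt) (Af : κ → Set (Conf PvPt))
    (Xa Xf Xc : κ → Conf PvPt → ℂ) (X₀ : κ → PvtTurn → Conf PvPt → ℂ) (hd : d ^ 4 = 1)
    (hk : ∀ᶠ i in fl, (kit i).WF) (hX : ∀ᶠ i in fl, (kit i).Fld (X₀ i))
    (hS : ∀ᶠ i in fl, PvskFor (pvP (es i)) (a i) (kit i) z d l (Kf i) (Af i) (c i))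
    (hXf : ∀ᶠ i in fl, PvskForFld (pvP (es i)) (a i) (kit i) z d l (Kf i) (c i) (Xa i) (Xf i) (Xc i))
    {β' βc qa qk qf qc : ℝ≥0∞} (hβ0 : β' ≠ 0) (hβc0 : βc ≠ 0) (hqa : qa ≠ 0) (hqk : qk ≠ 0) (hqf : qf ≠ 0) (hqc : qc ≠ 0)
    (hβ : ∀ᶠ i in fl, β' ≤ pvP (es i) (kit i).G₀) (hβc : ∀ᶠ i in fl, βc ≤ pvP (es i) (c i).G)
    (hF : ∀ᶠ i in fl, PvsyCycForced (pvP (es i)) (l.length + 3) (pvskList (a i) (kit i) z d l (Kf i) (Af i) (c i)) (Finset.Ioo 0 (l.length + 3)) (Finset.range (l.length + 3))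
      (pvskQ qa qk qf qc l.length))
    (hfin : ∀ᶠ i in fl, ∀ j < l.length + 3, ∫⁻ η in (a i).G ∩ pvsyEv (l.length + 3) (pvskList (a i) (kit i) z d l (Kf i) (Af i) (c i)) (Finset.Ioo 0 (l.length + 3)) (Finset.range (l.length + 3)),
      ‖pvskFld (Xa i) (kit i) (X₀ i) z d l (Xf i) (Xc i) j η‖ₑ ∂(pvP (es i)) ≠ ∞)
    (htail : Tendsto (fun i => ∫⁻ η in (a i).G ∩ pvsyEv (l.length + 3) (pvskList (a i) (kit i) z d l (Kf i) (Af i) (c i)) (Finset.Ioo 0 (l.length + 3)) (Finset.range (l.length + 3)),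
      ‖∑ j ∈ Finset.range (l.length + 3), pvskFld (Xa i) (kit i) (X₀ i) z d l (Xf i) (Xc i) j η‖ₑ ^ 2 ∂(pvP (es i))) fl (𝓝 0)) :
    Tendsto (fun i => ∫⁻ σ in (a i).G, ‖(a i).kout (pvskBare (kit i) z d) (pvP (es i)) (Xa i) σ + pvtSum ((kit i).W (pvP (es i)) (X₀ i)) d l
        + (pvskDoor (kit i) (pvthZ (kit i).δ z d l l.length) (pvthD d l l.length) (Kf i) (Af i)).k (c i) (pvP (es i)) (Xf i)
        + (c i).kin (a i) (pvP (es i)) (Xc i) σ‖ₑ ^ 2 ∂(pvP (es i))) fl (𝓝 0) := by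
  have hD0 : (β'⁻¹) ^ (l.length + 1) * βc⁻¹ * (qa⁻¹ * qk⁻¹ ^ l.length * qf⁻¹ * qc⁻¹) ≠ ∞ := by
    have i1 := ENNReal.inv_ne_top.2 hβ0
    have i2 := ENNReal.inv_ne_top.2 hβc0
    have i3 := ENNReal.inv_ne_top.2 hqa
    have i4 := ENNReal.inv_ne_top.2 hqk
    have i5 := ENNReal.inv_ne_top.2 hqf
    have i6 := ENNReal.inv_ne_top.2 hqc
    exact ENNReal.mul_ne_top (ENNReal.mul_ne_top (ENNReal.pow_ne_top i1) i2)
      (ENNReal.mul_ne_top (ENNReal.mul_ne_top (ENNReal.mul_ne_top i3 (ENNReal.pow_ne_top i4)) i5) i6)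
  have hlim := ENNReal.Tendsto.const_mul htail (Or.inr hD0)
  rw [mul_zero] at hlim
  refine tendsto_of_tendsto_of_tendsto_of_le_of_le' tendsto_const_nhds hlim (Eventually.of_forall fun _ => zero_le) ?_
  filter_upwards [hk, hX, hS, hXf, hβ, hβc, hF, hfin] with i h1 h2 h3 h4 h5 h6 h7 h8
  refine (pvsk_pin h1 h2 hd h3 h4 h7 h8 2).trans ?_
  gcongr
  exact pvsk_Dc_cycle_le hd h5 h6

/-- **FIELD `thick`, region states.**   The reference cycle (a SHORT word, uniform constants). -/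
theorem pvsk_thick (es : κ → ℝ) (kit : κ → PvthKit) (a c : κ → PvsySec PvPt) (Kf : κ → Set PvPt) (Af : κ → Set (Conf PvPt))
    (Xa Xf Xc : κ → Conf PvPt → ℂ) (X₀ : κ → PvtTurn → Conf PvPt → ℂ) (hd : d ^ 4 = 1)
    (hk : ∀ᶠ i in fl, (kit i).WF) (hX : ∀ᶠ i in fl, (kit i).Fld (X₀ i))
    (hS : ∀ᶠ i in fl, PvskFor (pvP (es i)) (a i) (kit i) z d l (Kf i) (Af i) (c i))
    (hXf : ∀ᶠ i in fl, PvskForFld (pvP (es i)) (a i) (kit i) z d l (Kf i) (c i) (Xa i) (Xf i) (Xc i))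
    {β' βc qa qk qf qc Bd : ℝ≥0∞}
    (hβ : ∀ᶠ i in fl, β' ≤ pvP (es i) (kit i).G₀) (hβc : ∀ᶠ i in fl, βc ≤ pvP (es i) (c i).G)
    (hF : ∀ᶠ i in fl, PvsyCycForced (pvP (es i)) (l.length + 3) (pvskList (a i) (kit i) z d l (Kf i) (Af i) (c i)) (Finset.Ioo 0 (l.length + 3)) (Finset.range (l.length + 3))
      (pvskQ qa qk qf qc l.length))
    (hbes : ∀ᶠ i in fl, ∫⁻ η in (a i).G ∩ pvsyEv (l.length + 3) (pvskList (a i) (kit i) z d l (Kf i) (Af i) (c i)) (Finset.Ioo 0 (l.length + 3)) (Finset.range (l.length + 3)),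
      ‖Xc i η‖ₑ ^ 2 ∂(pvP (es i)) ≤ Bd) :
    ∀ᶠ i in fl, ∫⁻ σ in (a i).G, ‖(c i).kin (a i) (pvP (es i)) (Xc i) σ‖ₑ ^ 2 ∂(pvP (es i))
      ≤ (β'⁻¹) ^ (l.length + 1) * βc⁻¹ * (qa⁻¹ * qk⁻¹ ^ l.length * qf⁻¹ * qc⁻¹) * Bd := by
  filter_upwards [hk, hX, hS, hXf, hβ, hβc, hF, hbes] with i h1 h2 h3 h4 h5 h6 h7 h8
  refine (pvsk_pin_last h1 h2 hd h3 h4 h7 2).trans ?_
  gcongr
  exact pvsk_Dc_cycle_le hd h5 h6

end lim

end Claimed.Agent.R289
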