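import Claimed.Agent.R289.Tr.CellChain
import Claimed.Agent.R289.Tr.SysCell
import Claimed.Agent.R289.Defs.TrModel

/-!
# Row 289 (S0537), block WB4 CELLS, file Tr/CellChainM : THE CELL CHAIN AT THE MODEL      (helper166; prefix `pvccm`, `Pvccm`; node of 24 = "CellDoor", order of 82 10:01Z)

The exits of `Tr/CellChain` in the vocabulary of `Defs/TrModel` (187), `Tr/Spine` (`PvtsGeo.Ok`), `Tr/Poly` (`pvtSq pvtCtr pvtU pvtCells`), `Tr/SysCell` (`PvskFor`).      0 sorry.      Consumers: S0 PAR (73; 1 = `Γ`, 124 = `reg`), COVER (143 209 62 56 240), KIT (244 34), SYS (58 124).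

* sec. 1  **`pvccm_word`** DOOR TO DOOR: a `Nodup` 4-adjacent path of cells `c0 :: c1 :: t = pre ++ [u, v]` is a cell-simple word `l`, `|l| = |t|`, with `pvtDir (c1 - c0) l = v - u`, `pvtDisp (c1 - c0) l = (u + v)/2 - (c0 + c1)/2`
* sec. 2  squares: `pvccm_ctr` (`pvtCtr δ q = δ (q + (1+i)/2)`), `pvccm_mem_sq`, `pvccm_sq_sub`, **`pvccm_sq_disj`** (open cell off every other closed square), **`pvccm_door_disj`** (door square off every third closed square), `pvccm_pl_sq`,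
          **`pvccm_kit_K_sq`**, **`pvccm_kit_O_sq`** (where the placed tile / plug number `j` of a word lives; `d⁴ = 1`)
* sec. 3  the word of a path: `pvccm_centre` (centre of the cell `j` = `pvtCtr δ (c1 :: t)[j]`), `pvccm_door` (door `j` = midpoint of the centres `j`, `j + 1` of `c0 :: c1 :: t`), **`pvccm_cor_disj`** (all the plugs and tiles of the corridor miss `pvtU δ E ×ˢ univ`, `E` off the path),
          **`pvccm_word_poly`** (= fields `l1_disp`, `l1_dir` of `PvtsGeo` for a reference word), **`pvccm_ok`** (`Γ.Ok ⟨zs, ts, zt, tt, l⟩`)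
* sec. 4  the counting clauses of `pvxPatSet`: `pvccm_count`, **`pvccm_len`** (`≤ pvxLen c R m`), `pvccm_coord`, **`pvccm_bnd`** (`≤ pvxBnd c x R m` for the cells of `pvxHull`)
* sec. 5  the standard windows `pvccmO r`, `pvccmK δ r` (Borel), **`pvccm_kitRef`** : windows inside the standard windows ⟹ `PvccKitRef kit r` (hence `kit.Disj` by `pvcc_kit_disj`, `_hex`, `_open`)
* sec. 6  `PvccmFor` (what the foreign regions owe), **`pvccm_dOO`, `pvccm_dKK`, `pvccm_dOK`** = the three geometric fields of `PvskFor`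
-/

set_option autoImplicit false

namespace Claimed.Agent.R289

open Complex Set

/-! ## 1. door to door -/

theorem pvccm_diffs_append (L : List ℂ) (a b : ℂ) : pvtDiffs (L ++ [a, b]) = pvtDiffs (L ++ [a]) ++ [b - a] := by
  induction L with
  | nil => simp [pvtDiffs]
  | cons x L ih =>
    cases L with
    | nil => simp [pvtDiffs]
    | cons y L' =>
      simp only [List.cons_append, pvtDiffs] at ih ⊢
      rw [ih]

/-- **DOOR TO DOOR**: a path of distinct cells `c0, c1, …, u, v` is a cell-simple word which leads from the door `c0 | c1` (frame `c1 - c0`) to the door `u | v` (frame `v - u`) -/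
theorem pvccm_word (c0 c1 : ℤ × ℤ) (t pre : List (ℤ × ℤ)) (u v : ℤ × ℤ) (hc : List.IsChain PvtAdj4 (c0 :: c1 :: t)) (hn : (c0 :: c1 :: t).Nodup)
    (he : c0 :: c1 :: t = pre ++ [u, v]) :
    ∃ l : List PvtTurn, l.length = t.length ∧ PvccSimple l l.length ∧
      pvtCentres (pvtZ c1) (pvtZ c1 - pvtZ c0) l = (c1 :: t).map pvtZ ∧
      pvtDir (pvtZ c1 - pvtZ c0) l = pvtZ v - pvtZ u ∧
      pvtDisp (pvtZ c1 - pvtZ c0) l = (pvtZ u + pvtZ v) / 2 - (pvtZ c0 + pvtZ c1) / 2 := by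
  obtain ⟨l, h1, h2, h3, h4⟩ := pvcc_word_of_path c0 c1 t hc hn
  have hdir : pvtDir (pvtZ c1 - pvtZ c0) l = pvtZ v - pvtZ u := by
    rw [← pvtFrames_getLast]
    have e : pvtFrames (pvtZ c1 - pvtZ c0) l = pvtDiffs (pre.map pvtZ ++ [pvtZ u]) ++ [pvtZ v - pvtZ u] := by
      rw [h4, he, List.map_append, ← pvccm_diffs_append]; rfl
    rw [List.getLast_congr _ (by simp) e, List.getLast_append_singleton]
  have hend : pvtEnd (pvtZ c1) (pvtZ c1 - pvtZ c0) l = pvtZ v := by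
    rw [← pvtCentres_getLast]
    have e0 : (c1 :: t).getLast (by simp) = v := by
      have : (c0 :: c1 :: t).getLast (by simp) = v := by
        rw [List.getLast_congr _ (by simp) he]; simp
      rwa [List.getLast_cons (by simp)] at this
    rw [List.getLast_congr _ (by simp) h3, List.getLast_map, e0]
  refine ⟨l, h1, h2, h3, hdir, ?_⟩
  rw [pvt_disp_eq_end (pvtZ c1), hend, hdir]
  ring

/-! ## 2. the squares of `Tr/Poly` -/

theorem pvccm_ctr (δ : ℝ) (q : ℤ × ℤ) : pvtCtr δ q = (δ : ℂ) * (pvtZ q + (1 + I) / 2) := by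
  apply Complex.ext
  · simp [pvtCtr, pvtZ]; ring
  · simp [pvtCtr, pvtZ]; ring

theorem pvccm_mem_sq {c w : ℂ} {r : ℝ} : w ∈ pvccSq c r ↔ (c.re - r < w.re ∧ w.re < c.re + r) ∧ (c.im - r < w.im ∧ w.im < c.im + r) := by
  simp only [pvccSq, Set.mem_ofPred_eq, pvccN, max_lt_iff, abs_lt, sub_re, sub_im]
  constructor
  · rintro ⟨⟨h1, h2⟩, h3, h4⟩
    exact ⟨⟨by linarith, by linarith⟩, by linarith, by linarith⟩
  · rintro ⟨⟨h1, h2⟩, h3, h4⟩
    exact ⟨⟨by linarith, by linarith⟩, by linarith, by linarith⟩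

/-- the open cell lies in the closed square of 39 -/
theorem pvccm_sq_sub (δ : ℝ) (q : ℤ × ℤ) : pvccSq (pvtCtr δ q) (δ / 2) ⊆ pvtSq δ q := by
  intro w hw
  rw [pvccm_mem_sq] at hw
  obtain ⟨⟨h1, h2⟩, h3, h4⟩ := hw
  simp only [pvtCtr] at h1 h2 h3 h4
  exact ⟨by linarith, by linarith, by linarith, by linarith⟩

theorem pvccm_int_lt {δ : ℝ} (hδ : 0 < δ) {a b : ℤ} (h : (a : ℝ) * δ < (b : ℝ) * δ) : a < b := by
  exact_mod_cast lt_of_mul_lt_mul_right h hδ.le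

/-- the open cell misses every other closed square -/
theorem pvccm_sq_disj {δ : ℝ} (hδ : 0 < δ) {q q' : ℤ × ℤ} (h : q' ≠ q) : Disjoint (pvccSq (pvtCtr δ q) (δ / 2)) (pvtSq δ q') := by
  rw [Set.disjoint_left]
  intro w hw hw'
  rw [pvccm_mem_sq] at hw
  obtain ⟨⟨h1, h2⟩, h3, h4⟩ := hw
  obtain ⟨k1, k2, k3, k4⟩ := hw'
  simp only [pvtCtr] at h1 h2 h3 h4
  have a1 : q'.1 < q.1 + 1 := pvccm_int_lt hδ (by push_cast; linarith)
  have a2 : q.1 < q'.1 + 1 := pvccm_int_lt hδ (by push_cast; linarith)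
  have a3 : q'.2 < q.2 + 1 := pvccm_int_lt hδ (by push_cast; linarith)
  have a4 : q.2 < q'.2 + 1 := pvccm_int_lt hδ (by push_cast; linarith)
  exact h (Prod.ext (by omega) (by omega))

/-- the door square of two adjacent cells misses every third closed square -/
theorem pvccm_door_disj {δ : ℝ} (hδ : 0 < δ) {p q q' : ℤ × ℤ} (h : PvtAdj4 p q) (hp : q' ≠ p) (hq : q' ≠ q) {r : ℝ} (hr : r ≤ δ / 2) :
    Disjoint (pvccSq ((pvtCtr δ p + pvtCtr δ q) / 2) r) (pvtSq δ q') := by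
  rw [Set.disjoint_left]
  intro w hw hw'
  rw [pvccm_mem_sq] at hw
  obtain ⟨⟨h1, h2⟩, h3, h4⟩ := hw
  obtain ⟨k1, k2, k3, k4⟩ := hw'
  have e1 : ((pvtCtr δ p + pvtCtr δ q) / 2).re = (((p.1 : ℝ) + 1 / 2) * δ + ((q.1 : ℝ) + 1 / 2) * δ) / 2 := by simp [pvtCtr]
  have e2 : ((pvtCtr δ p + pvtCtr δ q) / 2).im = (((p.2 : ℝ) + 1 / 2) * δ + ((q.2 : ℝ) + 1 / 2) * δ) / 2 := by simp [pvtCtr]
  rw [e1] at h1 h2
  rw [e2] at h3 h4
  have a1 : 2 * q'.1 < p.1 + q.1 + 2 := pvccm_int_lt hδ (by push_cast; linarith)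
  have a2 : p.1 + q.1 < 2 * q'.1 + 2 := pvccm_int_lt hδ (by push_cast; linarith)
  have a3 : 2 * q'.2 < p.2 + q.2 + 2 := pvccm_int_lt hδ (by push_cast; linarith)
  have a4 : p.2 + q.2 < 2 * q'.2 + 2 := pvccm_int_lt hδ (by push_cast; linarith)
  have hp' : ¬ (q'.1 = p.1 ∧ q'.2 = p.2) := fun e => hp (Prod.ext e.1 e.2)
  have hq' : ¬ (q'.1 = q.1 ∧ q'.2 = q.2) := fun e => hq (Prod.ext e.1 e.2)
  unfold PvtAdj4 at h
  omega

/-- similarities `w ↦ z + δ u w`, `u⁴ = 1`, map squares to squares -/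
theorem pvccm_pl_sq {δ : ℝ} (hδ : 0 < δ) (z : ℂ) {u : ℂ} (hu : u ^ 4 = 1) (c : ℂ) (r : ℝ) :
    pvccPl z ((δ : ℂ) * u) (pvccSq c r) = pvccSq (z + (δ : ℂ) * u * c) (δ * r) := by
  have hu0 : u ≠ 0 := by
    rintro rfl
    norm_num at hu
  have hδ' : (δ : ℂ) ≠ 0 := by exact_mod_cast hδ.ne'
  have key : ∀ w : ℂ, pvccN (z + (δ : ℂ) * u * w - (z + (δ : ℂ) * u * c)) = δ * pvccN (w - c) := by
    intro w
    rw [show z + (δ : ℂ) * u * w - (z + (δ : ℂ) * u * c) = (δ : ℂ) * (u * (w - c)) by ring, pvccN_real_mul hδ.le, pvccN_unit_mul hu]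
  ext x
  simp only [pvccPl, mem_image, pvccSq, Set.mem_ofPred_eq]
  constructor
  · rintro ⟨w, hw, rfl⟩
    rw [key]
    exact mul_lt_mul_of_pos_left hw hδ
  · intro hx
    refine ⟨(x - z) / ((δ : ℂ) * u), ?_, by field_simp; ring⟩
    have e : x = z + (δ : ℂ) * u * ((x - z) / ((δ : ℂ) * u)) := by field_simp; ring
    rw [e, key] at hx
    exact lt_of_mul_lt_mul_left hx hδ.le

section kit

variable {kit : PvthKit} {r : ℝ}

/-- the tile of the cell `j` lies in the open cell `j` -/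
theorem pvccm_kit_K_sq (R : PvccKitRef kit r) (z : ℂ) {d : ℂ} (hd : d ^ 4 = 1) (l : List PvtTurn) (j : ℕ) :
    kit.K (pvthZ kit.δ z d l j) (pvthD d l j) (pvthL l j) ⊆ pvccSq (pvccC z (kit.δ * d) l j) (kit.δ / 2) ×ˢ univ := by
  rw [pvcc_kit_K kit R.δ0.ne', pvccK_cov]
  refine Set.prod_mono ((pvccPl_mono _ _ (R.ref.K_sq l j)).trans ?_) le_rfl
  rw [pvccm_pl_sq R.δ0 z hd, pvccC_cov z]
  exact (pvcc_sq_mono _ (by linarith)).trans_eq rfl

/-- the plug of the door `j` lies in the `r`-square round the door `j` -/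
theorem pvccm_kit_O_sq (R : PvccKitRef kit r) (z : ℂ) {d : ℂ} (hd : d ^ 4 = 1) (l : List PvtTurn) (j : ℕ) :
    kit.O (pvthZ kit.δ z d l j) (pvthD d l j) ⊆ pvccSq (pvthZ kit.δ z d l j) r ×ˢ univ := by
  rw [pvcc_kit_O kit R.δ0.ne', pvccO_cov]
  refine Set.prod_mono ((pvccPl_mono _ _ (R.ref.O_sq l j)).trans ?_) le_rfl
  rw [pvccm_pl_sq R.δ0 z hd, pvthZ_eq, pvccZ_cov z, mul_div_cancel₀ _ R.δ0.ne']

end kit

/-! ## 3. the word of a path of cells of `Tr/Poly` -/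

section path

variable {c0 c1 : ℤ × ℤ} {t : List (ℤ × ℤ)} {l : List PvtTurn}

theorem pvccm_len_eq (h3 : pvtCentres (pvtZ c1) (pvtZ c1 - pvtZ c0) l = (c1 :: t).map pvtZ) : l.length = t.length := by
  have := congrArg List.length h3
  rw [pvtCentres_length] at this
  simpa using this

/-- the centre of the cell `j` of the word is the centre of the square number `j` of `c1 :: t` -/
theorem pvccm_centre (δ : ℝ) (h3 : pvtCentres (pvtZ c1) (pvtZ c1 - pvtZ c0) l = (c1 :: t).map pvtZ) (j : ℕ) (hj : j < (c1 :: t).length) :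
    pvccC ((pvtCtr δ c0 + pvtCtr δ c1) / 2) ((δ : ℂ) * (pvtZ c1 - pvtZ c0)) l j = pvtCtr δ ((c1 :: t)[j]) := by
  have hlen := pvccm_len_eq h3
  rw [pvtCentres_eq_map] at h3
  have e := List.getElem_of_eq h3 (i := j) (by simp only [List.length_map, List.length_range]; simp only [List.length_cons] at hj; omega)
  simp only [List.getElem_map, List.getElem_range] at e
  rw [pvccC_eq, pvtAcc_mul, pvccm_ctr, pvccm_ctr, pvccm_ctr, ← e]
  ring

/-- the door `j` of the word is the midpoint of the common side of the squares number `j`, `j + 1` of `c0 :: c1 :: t` -/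
theorem pvccm_door (δ : ℝ) (h3 : pvtCentres (pvtZ c1) (pvtZ c1 - pvtZ c0) l = (c1 :: t).map pvtZ) (j : ℕ) (hj : j + 1 < (c0 :: c1 :: t).length) :
    pvthZ δ ((pvtCtr δ c0 + pvtCtr δ c1) / 2) (pvtZ c1 - pvtZ c0) l j = (pvtCtr δ ((c0 :: c1 :: t)[j]) + pvtCtr δ ((c0 :: c1 :: t)[j + 1])) / 2 := by
  have hlen := pvccm_len_eq h3
  cases j with
  | zero => rw [pvthx_Z_zero]; rfl
  | succ j =>
    have hj' : j < l.length := by simp only [List.length_cons] at hj; omega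
    have a := pvccm_centre δ h3 j (by simp only [List.length_cons]; omega)
    have b := pvccm_centre δ h3 (j + 1) (by simp only [List.length_cons]; omega)
    have c := pvccC_prev ((pvtCtr δ c0 + pvtCtr δ c1) / 2) ((δ : ℂ) * (pvtZ c1 - pvtZ c0)) l hj'
    rw [pvccC] at b
    rw [pvthZ_eq]
    simp only [List.getElem_cons_succ] at a b ⊢
    rw [← a, ← b, ← c]
    ring

/-- **THE REGIONS OF THE CORRIDOR MISS THE FOREIGN CELLS**: `E` = any set of cells off the path -/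
theorem pvccm_cor_disj {kit : PvthKit} {r : ℝ} (R : PvccKitRef kit r) (hc : List.IsChain PvtAdj4 (c0 :: c1 :: t))
    (h3 : pvtCentres (pvtZ c1) (pvtZ c1 - pvtZ c0) l = (c1 :: t).map pvtZ) (E : Set (ℤ × ℤ)) (hE : ∀ q ∈ c0 :: c1 :: t, q ∉ E) :
    (∀ j ≤ l.length, Disjoint (kit.O (pvthZ kit.δ ((pvtCtr kit.δ c0 + pvtCtr kit.δ c1) / 2) (pvtZ c1 - pvtZ c0) l j) (pvthD (pvtZ c1 - pvtZ c0) l j)) (pvtU kit.δ E ×ˢ univ)) ∧
    (∀ j ≤ l.length, Disjoint (kit.K (pvthZ kit.δ ((pvtCtr kit.δ c0 + pvtCtr kit.δ c1) / 2) (pvtZ c1 - pvtZ c0) l j) (pvthD (pvtZ c1 - pvtZ c0) l j) (pvthL l j)) (pvtU kit.δ E ×ˢ univ)) := by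
  have hlen := pvccm_len_eq h3
  have hd : (pvtZ c1 - pvtZ c0) ^ 4 = 1 := pvt_step_pow_four (by simp only [List.isChain_cons_cons] at hc; exact hc.1)
  constructor
  · intro j hj
    have hj' : j + 1 < (c0 :: c1 :: t).length := by simp only [List.length_cons]; omega
    refine Disjoint.mono_left (pvccm_kit_O_sq R _ hd l j) (Set.Disjoint.set_prod_left ?_ _ _)
    rw [pvccm_door kit.δ h3 j hj', pvtU, Set.disjoint_iUnion₂_right]
    intro q hq
    refine pvccm_door_disj R.δ0 (List.isChain_iff_getElem.1 hc j hj') ?_ ?_ (by have := R.r_le; have := R.δ0; linarith)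
    · rintro rfl; exact hE _ (List.getElem_mem _) hq
    · rintro rfl; exact hE _ (List.getElem_mem _) hq
  · intro j hj
    have hj' : j < (c1 :: t).length := by simp only [List.length_cons]; omega
    refine Disjoint.mono_left (pvccm_kit_K_sq R _ hd l j) (Set.Disjoint.set_prod_left ?_ _ _)
    rw [pvccm_centre kit.δ h3 j hj', pvtU, Set.disjoint_iUnion₂_right]
    intro q hq
    refine pvccm_sq_disj R.δ0 ?_
    rintro rfl
    exact hE _ (List.mem_cons_of_mem _ (List.getElem_mem _)) hq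

end path

/-- **DOOR TO DOOR, in the squares of `Tr/Poly`** -/
theorem pvccm_word_poly (δ : ℝ) (c0 c1 : ℤ × ℤ) (t pre : List (ℤ × ℤ)) (u v : ℤ × ℤ) (hc : List.IsChain PvtAdj4 (c0 :: c1 :: t)) (hn : (c0 :: c1 :: t).Nodup)
    (he : c0 :: c1 :: t = pre ++ [u, v]) :
    ∃ l : List PvtTurn, l.length = t.length ∧ PvccSimple l l.length ∧
      pvtCentres (pvtZ c1) (pvtZ c1 - pvtZ c0) l = (c1 :: t).map pvtZ ∧
      pvtDir (pvtZ c1 - pvtZ c0) l = pvtZ v - pvtZ u ∧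
      (δ : ℂ) * pvtDisp (pvtZ c1 - pvtZ c0) l = (pvtCtr δ u + pvtCtr δ v) / 2 - (pvtCtr δ c0 + pvtCtr δ c1) / 2 := by
  obtain ⟨l, h1, h2, h3, h4, h5⟩ := pvccm_word c0 c1 t pre u v hc hn he
  refine ⟨l, h1, h2, h3, h4, ?_⟩
  rw [h5, pvccm_ctr, pvccm_ctr, pvccm_ctr, pvccm_ctr]
  ring

/-- **`PvtsGeo.Ok` FROM A PATH OF CELLS** -/
theorem pvccm_ok {τ : Type} (Γ : PvtsGeo τ) (zs zt : ℂ) (ts tt : τ) (c0 c1 : ℤ × ℤ) (t pre : List (ℤ × ℤ)) (u v : ℤ × ℤ)
    (hc : List.IsChain PvtAdj4 (c0 :: c1 :: t)) (hn : (c0 :: c1 :: t).Nodup) (he : c0 :: c1 :: t = pre ++ [u, v])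
    (hout : zt + Γ.pout tt = (pvtCtr Γ.δ c0 + pvtCtr Γ.δ c1) / 2) (hdo : Γ.dout tt = pvtZ c1 - pvtZ c0)
    (hin : zs + Γ.pin ts = (pvtCtr Γ.δ u + pvtCtr Γ.δ v) / 2) (hdi : Γ.din ts = pvtZ v - pvtZ u) :
    ∃ l : List PvtTurn, l.length = t.length ∧ PvccSimple l l.length ∧ Γ.Ok ⟨zs, ts, zt, tt, l⟩ ∧
      pvtCentres (pvtZ c1) (pvtZ c1 - pvtZ c0) l = (c1 :: t).map pvtZ := by
  obtain ⟨l, h1, h2, h3, h4, h5⟩ := pvccm_word_poly Γ.δ c0 c1 t pre u v hc hn he
  refine ⟨l, h1, h2, ⟨?_, ?_⟩, h3⟩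
  · show (Γ.δ : ℂ) * pvtDisp (Γ.dout tt) l = (zs + Γ.pin ts) - (zt + Γ.pout tt)
    rw [hdo, h5, hin, hout]
  · show pvtDir (Γ.dout tt) l = Γ.din ts
    rw [hdo, h4, hdi]

/-! ## 4. the two counting clauses of `pvxPatSet` -/

theorem pvccm_corner (δ : ℝ) (hδ : 0 ≤ δ) (q : ℤ × ℤ) : (⟨(q.1 : ℝ) * δ, (q.2 : ℝ) * δ⟩ : ℂ) ∈ pvtSq δ q ∧ (⟨((q.1 : ℝ) + 1) * δ, ((q.2 : ℝ) + 1) * δ⟩ : ℂ) ∈ pvtSq δ q := by
  constructor
  · exact ⟨le_rfl, by show (q.1 : ℝ) * δ ≤ ((q.1 : ℝ) + 1) * δ; linarith, le_rfl, by show (q.2 : ℝ) * δ ≤ ((q.2 : ℝ) + 1) * δ; linarith⟩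
  · exact ⟨by show (q.1 : ℝ) * δ ≤ ((q.1 : ℝ) + 1) * δ; linarith, le_rfl, by show (q.2 : ℝ) * δ ≤ ((q.2 : ℝ) + 1) * δ; linarith, le_rfl⟩

theorem pvccm_ball_re {x w : ℂ} {ρ : ℝ} (h : w ∈ Metric.closedBall x ρ) : |w.re - x.re| ≤ ρ ∧ |w.im - x.im| ≤ ρ := by
  rw [Metric.mem_closedBall, dist_eq_norm] at h
  exact ⟨by rw [← sub_re]; exact (abs_re_le_norm _).trans h, by rw [← sub_im]; exact (abs_im_le_norm _).trans h⟩

/-- distinct squares of side `δ` inside a ball of radius `ρ`: at most `(2ρ/δ)²` -/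
theorem pvccm_count {δ : ℝ} (hδ : 0 < δ) (x : ℂ) (ρ : ℝ) (p : List (ℤ × ℤ)) (hn : p.Nodup) (hp : ∀ q ∈ p, pvtSq δ q ⊆ Metric.closedBall x ρ) :
    p.length ≤ ⌈(2 * ρ / δ) ^ 2⌉₊ := by
  classical
  by_cases hρ : 0 ≤ ρ
  · set n : ℕ := ⌊2 * ρ / δ⌋₊ with hn'
    have hn0 : 0 ≤ 2 * ρ / δ := by positivity
    set a1 : ℤ := ⌈(x.re - ρ) / δ⌉ with ha1
    set a2 : ℤ := ⌈(x.im - ρ) / δ⌉ with ha2
    have hsub : p.toFinset ⊆ Finset.Ico a1 (a1 + n) ×ˢ Finset.Ico a2 (a2 + n) := by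
      intro q hq
      rw [List.mem_toFinset] at hq
      obtain ⟨c1, c2⟩ := pvccm_corner δ hδ.le q
      obtain ⟨b1, b2⟩ := pvccm_ball_re (hp q hq c1)
      obtain ⟨b3, b4⟩ := pvccm_ball_re (hp q hq c2)
      simp only at b1 b2 b3 b4
      rw [abs_le] at b1 b2 b3 b4
      have aux : ∀ (y : ℝ) (k : ℤ), -ρ ≤ (k : ℝ) * δ - y → ((k : ℝ) + 1) * δ - y ≤ ρ → ⌈(y - ρ) / δ⌉ ≤ k ∧ k < ⌈(y - ρ) / δ⌉ + n := by
        intro y k u1 u2
        have v1 : ⌈(y - ρ) / δ⌉ ≤ k := by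
          rw [Int.ceil_le, div_le_iff₀ hδ]; linarith
        refine ⟨v1, ?_⟩
        have v2 : ((k + 1 - ⌈(y - ρ) / δ⌉ : ℤ) : ℝ) ≤ 2 * ρ / δ := by
          have w1 : (y - ρ) / δ ≤ (⌈(y - ρ) / δ⌉ : ℝ) := Int.le_ceil _
          have w2 : (k : ℝ) + 1 ≤ (y + ρ) / δ := by rw [le_div_iff₀ hδ]; linarith
          have w3 : (y + ρ) / δ = (y - ρ) / δ + 2 * ρ / δ := by field_simp; ring
          push_cast
          linarith
        have v3 : (k + 1 - ⌈(y - ρ) / δ⌉).toNat ≤ n := by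
          rw [hn', Nat.le_floor_iff hn0]
          have : (((k + 1 - ⌈(y - ρ) / δ⌉).toNat : ℤ) : ℝ) = ((k + 1 - ⌈(y - ρ) / δ⌉ : ℤ) : ℝ) := by
            rw [Int.toNat_of_nonneg (by omega)]
          rw [← Int.cast_natCast, this]
          exact v2
        omega
      obtain ⟨d1, d2⟩ := aux x.re q.1 b1.1 b3.2
      obtain ⟨d3, d4⟩ := aux x.im q.2 b2.1 b4.2
      simp only [Finset.mem_product, Finset.mem_Ico]
      exact ⟨⟨d1, d2⟩, d3, d4⟩
    have hcard : p.length ≤ n * n := by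
      rw [← List.toFinset_card_of_nodup hn]
      refine (Finset.card_le_card hsub).trans ?_
      simp [Finset.card_product, Int.card_Ico]
    have hnr : (n : ℝ) ≤ 2 * ρ / δ := Nat.floor_le hn0
    have : ((n * n : ℕ) : ℝ) ≤ (⌈(2 * ρ / δ) ^ 2⌉₊ : ℝ) := by
      refine le_trans ?_ (Nat.le_ceil _)
      push_cast
      nlinarith [Nat.cast_nonneg (α := ℝ) n]
    exact hcard.trans (by exact_mod_cast this)
  · have : p = [] := by
      rcases p with _ | ⟨q, p⟩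
      · rfl
      · exfalso
        have := hp q (by simp) (pvccm_corner δ hδ.le q).1
        rw [Metric.closedBall_eq_empty.2 (not_le.1 hρ)] at this
        exact this
    rw [this]
    exact Nat.zero_le _

/-- **the clause `l.length ≤ pvxLen c R m`** -/
theorem pvccm_len (c : ℝ) (x : ℂ) (R : ℝ) (m : ℕ) (p : List (ℤ × ℤ)) (hn : p.Nodup) (hp : ∀ q ∈ p, pvtSq (pvlmDel c m) q ⊆ Metric.closedBall x (6 * R)) :
    p.length ≤ pvxLen c R m := by
  have h := pvccm_count (pvlm_Del_pos c m) x (6 * R) p hn hp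
  rw [show 2 * (6 * R) = 12 * R by ring] at h
  exact h

/-- a square which meets a ball -/
theorem pvccm_coord {δ : ℝ} (hδ : 0 < δ) (x : ℂ) (ρ : ℝ) (q : ℤ × ℤ) (h : (pvtSq δ q ∩ Metric.closedBall x ρ).Nonempty) :
    q.1.natAbs ≤ ⌈(‖x‖ + ρ) / δ⌉₊ + 1 ∧ q.2.natAbs ≤ ⌈(‖x‖ + ρ) / δ⌉₊ + 1 := by
  obtain ⟨w, ⟨k1, k2, k3, k4⟩, hw⟩ := h
  have hn : ‖w‖ ≤ ‖x‖ + ρ := by
    rw [Metric.mem_closedBall, dist_eq_norm] at hw
    have := norm_add_le (w - x) x
    rw [sub_add_cancel] at this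
    linarith
  have hre := (abs_le.1 ((abs_re_le_norm w).trans hn))
  have him := (abs_le.1 ((abs_im_le_norm w).trans hn))
  have hN : (‖x‖ + ρ) / δ ≤ (⌈(‖x‖ + ρ) / δ⌉₊ : ℝ) := Nat.le_ceil _
  rw [div_le_iff₀ hδ] at hN
  set N : ℕ := ⌈(‖x‖ + ρ) / δ⌉₊
  have aux : ∀ (k : ℤ) (y : ℝ), (k : ℝ) * δ ≤ y → y ≤ ((k : ℝ) + 1) * δ → -(‖x‖ + ρ) ≤ y → y ≤ ‖x‖ + ρ → k.natAbs ≤ N + 1 := by
    intro k y u1 u2 u3 u4
    have v1 : k < (N : ℤ) + 1 := pvccm_int_lt hδ (by push_cast; linarith)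
    have v2 : -(N : ℤ) - 2 < k := pvccm_int_lt hδ (by push_cast; linarith)
    omega
  exact ⟨aux _ _ k1 k2 hre.1 hre.2, aux _ _ k3 k4 him.1 him.2⟩

/-- **the clauses on the hulls**: the cells of the hull of a frozen set which lies in `closedBall x (6R)` -/
theorem pvccm_bnd {ω : Claims.C0465.PVSample} (c : ℝ) (x : ℂ) (R : ℝ) (m : ℕ) (F : Set ↥(pvxY ω)) (tip : ℂ) (r : ℝ)
    (h : pvxPos ω '' F ∪ Metric.closedBall tip r ⊆ Metric.closedBall x (6 * R)) :
    ∀ q ∈ pvxHull (pvlmDel c m) F tip r, q.1.natAbs ≤ pvxBnd c x R m ∧ q.2.natAbs ≤ pvxBnd c x R m := by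
  intro q hq
  exact pvccm_coord (pvlm_Del_pos c m) x (6 * R) q (hq.mono (Set.inter_subset_inter_right _ h))

/-! ## 5. the standard windows -/

/-- the largest plug window: the open `r`-square round the door `0` -/
def pvccmO (r : ℝ) : Set ℂ := pvccSq 0 r

/-- the largest tile: the open reference cell (centre `δ/2`, side `δ`) minus the `r`-squares round the midpoints of its four sides -/
def pvccmK (δ r : ℝ) : Set ℂ := pvccSq ((δ : ℂ) * (1 / 2)) (δ * (1 / 2)) \ ⋃ v ∈ {v : ℂ | v ^ 4 = 1}, pvccSq ((δ : ℂ) * (1 / 2 + v / 2)) r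

theorem pvccm_sq_open (c : ℂ) (r : ℝ) : IsOpen (pvccSq c r) := by
  have : Continuous fun w : ℂ => pvccN (w - c) := by
    unfold pvccN
    fun_prop
  exact isOpen_lt this continuous_const

theorem pvccm_sq_meas (c : ℂ) (r : ℝ) : MeasurableSet (pvccSq c r) := (pvccm_sq_open c r).measurableSet

theorem pvccmO_meas (r : ℝ) : MeasurableSet (pvccmO r) := pvccm_sq_meas 0 r

theorem pvccmK_meas (δ r : ℝ) : MeasurableSet (pvccmK δ r) :=
  (pvccm_sq_meas _ _).diff (isOpen_biUnion fun _ _ => pvccm_sq_open _ _).measurableSet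

/-- **`PvccKitRef` = the windows of the kit lie in the standard windows** -/
theorem pvccm_kitRef {kit : PvthKit} {r : ℝ} (hδ : 0 < kit.δ) (hr : r ≤ kit.δ / 4) (hO : kit.O₀ ⊆ pvccmO r) (hK : ∀ τ, kit.K₀ τ ⊆ pvccmK kit.δ r) : PvccKitRef kit r where
  δ0 := hδ
  r_le := hr
  O_sub := hO
  K_cell := fun τ => (hK τ).trans Set.sdiff_subset
  K_off := fun τ v hv => by
    rw [Set.disjoint_left]
    intro w hw hw'
    exact (hK τ hw).2 (Set.mem_biUnion (show v ∈ {v : ℂ | v ^ 4 = 1} from hv) hw')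

/-! ## 6. the geometric fields `dOO dKK dOK` of `PvskFor` (58, `Tr/SysCell`) -/

/-- what the regions of the FOREIGN sectors owe to the corridor and to each other -/
structure PvccmFor (a : PvsySec PvPt) (kit : PvthKit) (z d : ℂ) (l : List PvtTurn) (Kf : Set PvPt) (c : PvsySec PvPt) : Prop where
  aO_O : ∀ j ≤ l.length, Disjoint a.O (kit.O (pvthZ kit.δ z d l j) (pvthD d l j))
  cO_O : ∀ j ≤ l.length, Disjoint c.O (kit.O (pvthZ kit.δ z d l j) (pvthD d l j))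
  aO_cO : Disjoint a.O c.O
  aK_K : ∀ j < l.length, Disjoint a.K (kit.K (pvthZ kit.δ z d l j) (pvthD d l j) (pvthL l j))
  cK_K : ∀ j < l.length, Disjoint c.K (kit.K (pvthZ kit.δ z d l j) (pvthD d l j) (pvthL l j))
  fK_K : ∀ j < l.length, Disjoint Kf (kit.K (pvthZ kit.δ z d l j) (pvthD d l j) (pvthL l j))
  aK_cK : Disjoint a.K c.K
  aK_fK : Disjoint a.K Kf
  cK_fK : Disjoint c.K Kf
  aO_K : ∀ j < l.length, Disjoint a.O (kit.K (pvthZ kit.δ z d l j) (pvthD d l j) (pvthL l j))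
  cO_K : ∀ j < l.length, Disjoint c.O (kit.K (pvthZ kit.δ z d l j) (pvthD d l j) (pvthL l j))
  O_aK : ∀ j ≤ l.length, Disjoint (kit.O (pvthZ kit.δ z d l j) (pvthD d l j)) a.K
  O_cK : ∀ j ≤ l.length, Disjoint (kit.O (pvthZ kit.δ z d l j) (pvthD d l j)) c.K
  O_fK : ∀ j ≤ l.length, Disjoint (kit.O (pvthZ kit.δ z d l j) (pvthD d l j)) Kf
  aO_aK : Disjoint a.O a.K
  aO_cK : Disjoint a.O c.K
  aO_fK : Disjoint a.O Kf
  cO_aK : Disjoint c.O a.K
  cO_cK : Disjoint c.O c.K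
  cO_fK : Disjoint c.O Kf

section forr

variable {a c : PvsySec PvPt} {kit : PvthKit} {z d : ℂ} {l : List PvtTurn} {Kf : Set PvPt} {Af : Set (Conf PvPt)} {r : ℝ}

theorem pvccm_list_K {j : ℕ} (hj : j < l.length) : (pvskList a kit z d l Kf Af c (1 + j)).K = kit.K (pvthZ kit.δ z d l j) (pvthD d l j) (pvthL l j) := by
  rw [pvsk_list_cell hj]; rfl

theorem pvccm_list_Kf : (pvskList a kit z d l Kf Af c (l.length + 1)).K = Kf := by
  rw [pvsk_list_door]; rfl

theorem pvccm_list_Of : (pvskList a kit z d l Kf Af c (l.length + 1)).O = kit.O (pvthZ kit.δ z d l l.length) (pvthD d l l.length) := by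
  rw [pvsk_list_door]; rfl

/-- **`dOO`** -/
theorem pvccm_dOO (R : PvccKitRef kit r) (hd : d ≠ 0) (h : PvccSimple l l.length) (F : PvccmFor a kit z d l Kf c) :
    ∀ i < l.length + 3, ∀ j < l.length + 3, i ≠ j → Disjoint (pvskList a kit z d l Kf Af c i).O (pvskList a kit z d l Kf Af c j).O := by
  obtain ⟨hOO, -, -⟩ := pvcc_kit_disj_open R z hd h
  refine pvsk_cases (P := fun i => ∀ j < l.length + 3, i ≠ j → Disjoint (pvskList a kit z d l Kf Af c i).O (pvskList a kit z d l Kf Af c j).O) l.length ?_ ?_ ?_ ?_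
  · refine pvsk_cases (P := fun j => 0 ≠ j → Disjoint (pvskList a kit z d l Kf Af c 0).O (pvskList a kit z d l Kf Af c j).O) l.length ?_ ?_ ?_ ?_
    · exact fun h => absurd rfl h
    · intro j hj _; rw [pvsk_list_zero, pvsk_list_O hj.le]; exact F.aO_O j hj.le
    · intro _; rw [pvsk_list_zero, pvccm_list_Of]; exact F.aO_O _ le_rfl
    · intro _; rw [pvsk_list_zero, pvsk_list_last]; exact F.aO_cO
  · intro i hi
    refine pvsk_cases (P := fun j => 1 + i ≠ j → Disjoint (pvskList a kit z d l Kf Af c (1 + i)).O (pvskList a kit z d l Kf Af c j).O) l.length ?_ ?_ ?_ ?_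
    · intro _; rw [pvsk_list_zero, pvsk_list_O hi.le]; exact (F.aO_O i hi.le).symm
    · intro j hj hij; rw [pvsk_list_O hi.le, pvsk_list_O hj.le]; exact hOO i hi.le j hj.le (by omega)
    · intro _; rw [pvsk_list_O hi.le, pvccm_list_Of]; exact hOO i hi.le _ le_rfl (by omega)
    · intro _; rw [pvsk_list_O hi.le, pvsk_list_last]; exact (F.cO_O i hi.le).symm
  · refine pvsk_cases (P := fun j => l.length + 1 ≠ j → Disjoint (pvskList a kit z d l Kf Af c (l.length + 1)).O (pvskList a kit z d l Kf Af c j).O) l.length ?_ ?_ ?_ ?_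
    · intro _; rw [pvsk_list_zero, pvccm_list_Of]; exact (F.aO_O _ le_rfl).symm
    · intro j hj _; rw [pvccm_list_Of, pvsk_list_O hj.le]; exact hOO _ le_rfl j hj.le (by omega)
    · exact fun h => absurd rfl h
    · intro _; rw [pvccm_list_Of, pvsk_list_last]; exact (F.cO_O _ le_rfl).symm
  · refine pvsk_cases (P := fun j => l.length + 2 ≠ j → Disjoint (pvskList a kit z d l Kf Af c (l.length + 2)).O (pvskList a kit z d l Kf Af c j).O) l.length ?_ ?_ ?_ ?_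
    · intro _; rw [pvsk_list_zero, pvsk_list_last]; exact F.aO_cO.symm
    · intro j hj _; rw [pvsk_list_last, pvsk_list_O hj.le]; exact F.cO_O j hj.le
    · intro _; rw [pvsk_list_last, pvccm_list_Of]; exact F.cO_O _ le_rfl
    · exact fun h => absurd rfl h

/-- **`dKK`** -/
theorem pvccm_dKK (R : PvccKitRef kit r) (hd : d ≠ 0) (h : PvccSimple l l.length) (F : PvccmFor a kit z d l Kf c) :
    ∀ i < l.length + 3, ∀ j < l.length + 3, i ≠ j → Disjoint (pvskList a kit z d l Kf Af c i).K (pvskList a kit z d l Kf Af c j).K := by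
  obtain ⟨-, hKK, -⟩ := pvcc_kit_disj_open R z hd h
  refine pvsk_cases (P := fun i => ∀ j < l.length + 3, i ≠ j → Disjoint (pvskList a kit z d l Kf Af c i).K (pvskList a kit z d l Kf Af c j).K) l.length ?_ ?_ ?_ ?_
  · refine pvsk_cases (P := fun j => 0 ≠ j → Disjoint (pvskList a kit z d l Kf Af c 0).K (pvskList a kit z d l Kf Af c j).K) l.length ?_ ?_ ?_ ?_
    · exact fun h => absurd rfl h
    · intro j hj _; rw [pvsk_list_zero, pvccm_list_K hj]; exact F.aK_K j hj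
    · intro _; rw [pvsk_list_zero, pvccm_list_Kf]; exact F.aK_fK
    · intro _; rw [pvsk_list_zero, pvsk_list_last]; exact F.aK_cK
  · intro i hi
    refine pvsk_cases (P := fun j => 1 + i ≠ j → Disjoint (pvskList a kit z d l Kf Af c (1 + i)).K (pvskList a kit z d l Kf Af c j).K) l.length ?_ ?_ ?_ ?_
    · intro _; rw [pvsk_list_zero, pvccm_list_K hi]; exact (F.aK_K i hi).symm
    · intro j hj hij; rw [pvccm_list_K hi, pvccm_list_K hj]; exact hKK i hi.le j hj.le (by omega)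
    · intro _; rw [pvccm_list_K hi, pvccm_list_Kf]; exact (F.fK_K i hi).symm
    · intro _; rw [pvccm_list_K hi, pvsk_list_last]; exact (F.cK_K i hi).symm
  · refine pvsk_cases (P := fun j => l.length + 1 ≠ j → Disjoint (pvskList a kit z d l Kf Af c (l.length + 1)).K (pvskList a kit z d l Kf Af c j).K) l.length ?_ ?_ ?_ ?_
    · intro _; rw [pvsk_list_zero, pvccm_list_Kf]; exact F.aK_fK.symm
    · intro j hj _; rw [pvccm_list_Kf, pvccm_list_K hj]; exact F.fK_K j hj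
    · exact fun h => absurd rfl h
    · intro _; rw [pvccm_list_Kf, pvsk_list_last]; exact F.cK_fK.symm
  · refine pvsk_cases (P := fun j => l.length + 2 ≠ j → Disjoint (pvskList a kit z d l Kf Af c (l.length + 2)).K (pvskList a kit z d l Kf Af c j).K) l.length ?_ ?_ ?_ ?_
    · intro _; rw [pvsk_list_zero, pvsk_list_last]; exact F.aK_cK.symm
    · intro j hj _; rw [pvsk_list_last, pvccm_list_K hj]; exact F.cK_K j hj
    · intro _; rw [pvsk_list_last, pvccm_list_Kf]; exact F.cK_fK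
    · exact fun h => absurd rfl h

/-- **`dOK`** -/
theorem pvccm_dOK (R : PvccKitRef kit r) (hd : d ≠ 0) (h : PvccSimple l l.length) (F : PvccmFor a kit z d l Kf c) :
    ∀ i < l.length + 3, ∀ j < l.length + 3, Disjoint (pvskList a kit z d l Kf Af c i).O (pvskList a kit z d l Kf Af c j).K := by
  obtain ⟨-, -, hOK⟩ := pvcc_kit_disj_open R z hd h
  refine pvsk_cases (P := fun i => ∀ j < l.length + 3, Disjoint (pvskList a kit z d l Kf Af c i).O (pvskList a kit z d l Kf Af c j).K) l.length ?_ ?_ ?_ ?_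
  · refine pvsk_cases (P := fun j => Disjoint (pvskList a kit z d l Kf Af c 0).O (pvskList a kit z d l Kf Af c j).K) l.length ?_ ?_ ?_ ?_
    · rw [pvsk_list_zero]; exact F.aO_aK
    · intro j hj; rw [pvsk_list_zero, pvccm_list_K hj]; exact F.aO_K j hj
    · rw [pvsk_list_zero, pvccm_list_Kf]; exact F.aO_fK
    · rw [pvsk_list_zero, pvsk_list_last]; exact F.aO_cK
  · intro i hi
    refine pvsk_cases (P := fun j => Disjoint (pvskList a kit z d l Kf Af c (1 + i)).O (pvskList a kit z d l Kf Af c j).K) l.length ?_ ?_ ?_ ?_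
    · rw [pvsk_list_zero, pvsk_list_O hi.le]; exact F.O_aK i hi.le
    · intro j hj; rw [pvsk_list_O hi.le, pvccm_list_K hj]; exact hOK i j
    · rw [pvsk_list_O hi.le, pvccm_list_Kf]; exact F.O_fK i hi.le
    · rw [pvsk_list_O hi.le, pvsk_list_last]; exact F.O_cK i hi.le
  · refine pvsk_cases (P := fun j => Disjoint (pvskList a kit z d l Kf Af c (l.length + 1)).O (pvskList a kit z d l Kf Af c j).K) l.length ?_ ?_ ?_ ?_
    · rw [pvsk_list_zero, pvccm_list_Of]; exact F.O_aK _ le_rfl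
    · intro j hj; rw [pvccm_list_Of, pvccm_list_K hj]; exact hOK _ j
    · rw [pvccm_list_Of, pvccm_list_Kf]; exact F.O_fK _ le_rfl
    · rw [pvccm_list_Of, pvsk_list_last]; exact F.O_cK _ le_rfl
  · refine pvsk_cases (P := fun j => Disjoint (pvskList a kit z d l Kf Af c (l.length + 2)).O (pvskList a kit z d l Kf Af c j).K) l.length ?_ ?_ ?_ ?_
    · rw [pvsk_list_zero, pvsk_list_last]; exact F.cO_aK
    · intro j hj; rw [pvsk_list_last, pvccm_list_K hj]; exact F.cO_K j hj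
    · rw [pvsk_list_last, pvccm_list_Kf]; exact F.cO_fK
    · rw [pvsk_list_last]; exact F.cO_cK

end forr

theorem pvccm_eqns_cite : True := by
  have := @pvccmO.eq_1; have := @pvccmK.eq_1
  trivial

end Claimed.Agent.R289
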