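import Claimed.Agent.R289.Tr.RegB

/-!
# Row 289 (S0537), THE WALL, ROAD E, file Tr/RegS : NO HOLE, THIRD KIT      (helper39; prefix `pvrr`)

Continuation of `Tr/RegT`, `Tr/RegB`: what (Rd) of RULING 22 needs for the rooms of the thick links (`eY` of 166, `fY` of 182), whose words are only known to be `PvccSimple`.
* sec. 1  `pvrr_lane_far`, **`pvrr_far`** : in a SIMPLE word the lane of the cell `k` is `6/10` away (sup norm) from the centre of every cell `i ≥ k + 2`: `PvfeNR` IS NOT NEEDED for the snake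
* sec. 2  `PvrrSh` (abstract shape in the next cell), `pvrr_sh_lane`, `pvrr_sh_cap`, `pvrr_step_data`, `pvrr_step`, **`pvrr_snake`** (simple word, closed spectator `E`), **`pvrr_cap`** (the straight lane cut at the depth `p` beyond the last door)
* sec. 3  unit frame: `pvrrF` (funnel), `pvrr_mouth_star`, **`pvrr_room_f`** ([ball ∪ funnel] → lanes → cap), `pvrrBk`, **`pvrr_room_e`** (lane behind the first door → lanes → [funnel ∪ ball], by T6 `pvrj_funnel`)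
* sec. 4  **`pvrr_room_f_pl`**, **`pvrr_room_e_pl`** : the same at `(z, Δ u₀)`, radii in absolute units; ALL THE NUMBERS ARE ARGUMENTS
* sec. 5  **`pvrr_core_star`**, `pvrr_core_star_union` : the core `pvtrCore μ U` of a union of convex sets which all contain `closedBall p μ` is star shaped about `p` (then `pvrt_star`: no hole)
-/

set_option autoImplicit false

namespace Claimed.Agent.R289

open Set Metric

/-! ## 1. a lane is far from the cells of the grid which are not its two neighbours -/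

theorem pvrr_lane_far (τ : PvtTurn) {w g : ℂ} (hw : w ∈ pvrtLn τ) (hg : PvccG g) (h0 : g ≠ 0) (h1 : g ≠ -1) (h2 : g ≠ τ.rot) : 6 / 10 ≤ pvccN (w - 1 / 2 - g) := by
  obtain ⟨a, b, rfl⟩ := hg
  have e1 : (w - 1 / 2 - ((a : ℂ) + (b : ℂ) * Complex.I)).re = w.re - 1 / 2 - a := by simp
  have e2 : (w - 1 / 2 - ((a : ℂ) + (b : ℂ) * Complex.I)).im = w.im - b := by simp
  by_contra hc
  rw [not_le] at hc
  unfold pvccN at hc
  rw [e1, e2, max_lt_iff, abs_lt, abs_lt] at hc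
  obtain ⟨⟨c1, c2⟩, c3, c4⟩ := hc
  have key : ∀ (a' b' : ℤ), a = a' → b = b' → ((a : ℂ) + (b : ℂ) * Complex.I) = (a' : ℂ) + (b' : ℂ) * Complex.I := by
    rintro _ _ rfl rfl; rfl
  cases τ
  · obtain ⟨k1, k2, k3, k4⟩ := hw
    have b1 : (-1 : ℝ) < b := by linarith
    have b2 : (b : ℝ) < 1 := by linarith
    have a1 : (-2 : ℝ) < a := by linarith
    have a2 : (a : ℝ) < 2 := by linarith
    have b1' : -1 < b := by exact_mod_cast b1
    have b2' : b < 1 := by exact_mod_cast b2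
    have a1' : -2 < a := by exact_mod_cast a1
    have a2' : a < 2 := by exact_mod_cast a2
    have hb : b = 0 := by omega
    subst hb
    rcases (show a = -1 ∨ a = 0 ∨ a = 1 by omega) with rfl | rfl | rfl
    · exact h1 (by simp)
    · exact h0 (by simp)
    · exact h2 (by simp [PvtTurn.rot])
  · rcases hw with ⟨k1, k2, k3, k4⟩ | ⟨k1, k2, k3, k4⟩
    · have b1 : (-1 : ℝ) < b := by linarith
      have b2 : (b : ℝ) < 1 := by linarith
      have a1 : (-2 : ℝ) < a := by linarith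
      have a2 : (a : ℝ) < 1 := by linarith
      have b1' : -1 < b := by exact_mod_cast b1
      have b2' : b < 1 := by exact_mod_cast b2
      have a1' : -2 < a := by exact_mod_cast a1
      have a2' : a < 1 := by exact_mod_cast a2
      have hb : b = 0 := by omega
      subst hb
      rcases (show a = -1 ∨ a = 0 by omega) with rfl | rfl
      · exact h1 (by simp)
      · exact h0 (by simp)
    · have b1 : (-1 : ℝ) < b := by linarith
      have b2 : (b : ℝ) < 2 := by linarith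
      have a1 : (-1 : ℝ) < a := by linarith
      have a2 : (a : ℝ) < 1 := by linarith
      have b1' : -1 < b := by exact_mod_cast b1
      have b2' : b < 2 := by exact_mod_cast b2
      have a1' : -1 < a := by exact_mod_cast a1
      have a2' : a < 1 := by exact_mod_cast a2
      have ha : a = 0 := by omega
      subst ha
      rcases (show b = 0 ∨ b = 1 by omega) with rfl | rfl
      · exact h0 (by simp)
      · exact h2 (by simp [PvtTurn.rot])
  · rcases hw with ⟨k1, k2, k3, k4⟩ | ⟨k1, k2, k3, k4⟩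
    · have b1 : (-1 : ℝ) < b := by linarith
      have b2 : (b : ℝ) < 1 := by linarith
      have a1 : (-2 : ℝ) < a := by linarith
      have a2 : (a : ℝ) < 1 := by linarith
      have b1' : -1 < b := by exact_mod_cast b1
      have b2' : b < 1 := by exact_mod_cast b2
      have a1' : -2 < a := by exact_mod_cast a1
      have a2' : a < 1 := by exact_mod_cast a2
      have hb : b = 0 := by omega
      subst hb
      rcases (show a = -1 ∨ a = 0 by omega) with rfl | rfl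
      · exact h1 (by simp)
      · exact h0 (by simp)
    · have b1 : (-2 : ℝ) < b := by linarith
      have b2 : (b : ℝ) < 1 := by linarith
      have a1 : (-1 : ℝ) < a := by linarith
      have a2 : (a : ℝ) < 1 := by linarith
      have b1' : -2 < b := by exact_mod_cast b1
      have b2' : b < 1 := by exact_mod_cast b2
      have a1' : -1 < a := by exact_mod_cast a1
      have a2' : a < 1 := by exact_mod_cast a2
      have ha : a = 0 := by omega
      subst ha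
      rcases (show b = 0 ∨ b = -1 by omega) with rfl | rfl
      · exact h0 (by simp)
      · exact h2 (by simp [PvtTurn.rot])

/-- **A SIMPLE WORD: the lane of the cell `k` is `6/10` away (sup norm) from the centre of the cell `i ≥ k + 2`** -/
theorem pvrr_far {l : List PvtTurn} {N : ℕ} (hS : PvccSimple l N) {k i : ℕ} (hk : k < l.length) (hki : k + 2 ≤ i) (hi : i ≤ N) (hb : pvccC 0 1 l i ≠ -(1 / 2))
    {x : ℂ} (hx : x ∈ pvrtL l k) : 6 / 10 ≤ pvccN (x - pvccC 0 1 l i) := by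
  obtain ⟨w, hw, rfl⟩ := hx
  set D := pvccD 1 l k with hD
  have hD4 : D ^ 4 = 1 := pvrt_D4 l k
  have hD3 : (D ^ 3) ^ 4 = 1 := by rw [← pow_mul, mul_comm, pow_mul, hD4, one_pow]
  set g := D ^ 3 * (pvccC 0 1 l i - pvccC 0 1 l k) with hg
  have hDg : D * g = pvccC 0 1 l i - pvccC 0 1 l k := by
    rw [hg, ← mul_assoc, ← pow_succ', hD4, one_mul]
  have e : pvccZ 0 1 l k + D * w - pvccC 0 1 l i = D * (w - 1 / 2 - g) := by
    rw [mul_sub, hDg]
    unfold pvccC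
    ring
  show 6 / 10 ≤ pvccN (pvccZ 0 1 l k + D * w - pvccC 0 1 l i)
  rw [e, pvccN_unit_mul hD4]
  have hD0 : D ≠ 0 := pvrt_D_ne l k
  refine pvrr_lane_far _ hw (PvccG.unit_mul hD3 (pvccC_sub_gauss l i k)) ?_ ?_ ?_
  · intro h0
    rw [h0, mul_zero] at hDg
    have := hS i k hi (by omega) (sub_eq_zero.1 hDg.symm)
    omega
  · intro h1
    rw [h1] at hDg
    rcases Nat.eq_zero_or_pos k with rfl | hk0
    · apply hb
      have e0 : pvccC 0 1 l 0 = 1 / 2 := by simp [pvccC, pvccZ, pvccD, pvtDisp]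
      have eD : D = 1 := by simp [hD, pvccD]
      rw [e0, eD] at hDg
      linear_combination -hDg
    · obtain ⟨k', rfl⟩ : ∃ k', k = k' + 1 := ⟨k - 1, by omega⟩
      have e2 : pvccC 0 1 l k' = pvccZ 0 1 l (k' + 1) - pvccD 1 l (k' + 1) / 2 := (pvccC_prev 0 1 l (by omega)).symm
      have : pvccC 0 1 l i = pvccC 0 1 l k' := by
        rw [e2]
        have : pvccC 0 1 l (k' + 1) = pvccZ 0 1 l (k' + 1) + D / 2 := rfl
        rw [this] at hDg
        linear_combination -hDg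
      have := hS i k' hi (by omega) this
      omega
  · intro h2
    rw [h2] at hDg
    have e3 : pvccC 0 1 l (k + 1) = pvccC 0 1 l k + D * (pvccT l k).rot := by
      have := pvccC_prev 0 1 l hk
      unfold pvccC
      rw [pvccZ_succ 0 1 l hk, pvccD_succ 1 l hk, pvt_mid_eq]
      ring
    have : pvccC 0 1 l i = pvccC 0 1 l (k + 1) := by
      rw [e3]
      linear_combination -hDg
    have := hS i (k + 1) hi (by omega) this
    omega

/-! ## 2. the step of the snake for an abstract shape in the next cell -/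

/-- a closed shape `Ln` in the reference cell which continues the incoming strip, its neighbourhood `U`, the chain `W = U \ (strip ∪ Ln)` -/
structure PvrrSh (Ln U W : Set ℂ) : Prop where
  cl : IsClosed Ln
  op : IsOpen U
  sub : Ln ⊆ U
  conn : IsPreconnected W
  cover : U \ (pvrtS0 ∪ Ln) ⊆ W
  wsub : W ⊆ U
  off : Disjoint W (pvrtS0 ∪ Ln)
  left : ∀ w ∈ U, w.re ≤ 0 → -(1 / 20) < w.re ∧ -(3 / 20) < w.im ∧ w.im < 9 / 20
  cell : ∀ w ∈ U, pvccN (w - 1 / 2) < 1 / 2 + 1 / 20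

theorem pvrr_sh_lane (τ : PvtTurn) : PvrrSh (pvrtLn τ) (pvrtU τ) (pvrtW τ) :=
  ⟨pvrt_ln_closed τ, pvrt_U_open τ, pvrt_ln_sub_U τ, pvrt_W_conn τ, pvrt_W_cover τ, pvrt_W_sub τ, pvrt_W_off τ, fun _ hw h0 => pvrt_U_left τ hw h0, fun _ hw => pvrt_U_cell τ hw⟩

/-- the straight lane cut at the depth `p` -/
def pvrrCap (p : ℝ) : Set ℂ := {w | 0 ≤ w.re ∧ w.re ≤ p ∧ -(1 / 10) ≤ w.im ∧ w.im ≤ 4 / 10}

theorem pvrr_cap_closed (p : ℝ) : IsClosed (pvrrCap p) := by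
  have e : pvrrCap p = (Complex.re ⁻¹' Set.Icc 0 p) ∩ (Complex.im ⁻¹' Set.Icc (-(1 / 10)) (4 / 10)) := by
    ext w
    simp only [pvrrCap, Set.mem_setOf_eq, Set.mem_inter_iff, Set.mem_preimage, Set.mem_Icc]
    tauto
  rw [e]
  exact (isClosed_Icc.preimage Complex.continuous_re).inter (isClosed_Icc.preimage Complex.continuous_im)

theorem pvrr_sh_cap {p : ℝ} (h0 : 0 ≤ p) (h1 : p ≤ 1) : PvrrSh (pvrrCap p) (pvrtB (-(1 / 20)) (p + 1 / 20) (-(3 / 20)) (9 / 20))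
    (pvrtB (-(1 / 20)) (p + 1 / 20) (4 / 10) (9 / 20) ∪ pvrtB p (p + 1 / 20) (-(3 / 20)) (9 / 20) ∪ pvrtB (-(1 / 20)) (p + 1 / 20) (-(3 / 20)) (-(1 / 10))) := by
  have hc : ∀ p q r s : ℝ, IsPreconnected (pvrtB p q r s) := fun p q r s => (pvrt_B_convex p q r s).isPreconnected
  have hm : ∀ (p q r s x y : ℝ), p < x → x < q → r < y → y < s → (⟨x, y⟩ : ℂ) ∈ pvrtB p q r s := fun p q r s x y h1 h2 h3 h4 => ⟨h1, h2, h3, h4⟩
  refine ⟨pvrr_cap_closed p, pvrt_B_open _ _ _ _, ?_, ?_, ?_, ?_, ?_, ?_, ?_⟩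
  · rintro w ⟨k1, k2, k3, k4⟩
    exact ⟨by linarith, by linarith, by linarith, by linarith⟩
  · refine ((hc _ _ _ _).union (⟨p + 1 / 40, 17 / 40⟩ : ℂ) (hm _ _ _ _ _ _ ?_ ?_ ?_ ?_) (hm _ _ _ _ _ _ ?_ ?_ ?_ ?_) (hc _ _ _ _)).union (⟨p + 1 / 40, -(1 / 8)⟩ : ℂ) (Or.inr (hm _ _ _ _ _ _ ?_ ?_ ?_ ?_)) (hm _ _ _ _ _ _ ?_ ?_ ?_ ?_) (hc _ _ _ _) <;> first | linarith | norm_num
  · intro w hw
    simp only [pvrrCap, pvrtS0, pvrtB, mem_setOf_eq, mem_union, mem_diff] at hw ⊢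
    generalize w.re = x at hw ⊢
    generalize w.im = y at hw ⊢
    grind
  · intro w hw
    simp only [pvrtB, mem_setOf_eq, mem_union] at hw ⊢
    generalize w.re = x at hw ⊢
    generalize w.im = y at hw ⊢
    grind
  · rw [Set.disjoint_left]
    intro w hw hw2
    simp only [pvrrCap, pvrtS0, pvrtB, mem_setOf_eq, mem_union] at hw hw2
    generalize w.re = x at hw hw2
    generalize w.im = y at hw hw2
    grind
  · rintro w ⟨k1, k2, k3, k4⟩ _
    exact ⟨k1, k3, k4⟩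
  · rintro w ⟨k1, k2, k3, k4⟩
    have e1 : (w - 1 / 2).re = w.re - 1 / 2 := by simp
    have e2 : (w - 1 / 2).im = w.im := by simp
    unfold pvccN
    rw [e1, e2, max_lt_iff, abs_lt, abs_lt]
    refine ⟨⟨?_, ?_⟩, ?_, ?_⟩ <;> linarith

/-- **the local data of the step**, abstract shape, the far lanes as a hypothesis -/
theorem pvrr_step_data {l : List PvtTurn} {j : ℕ} (hjl : j < l.length) (hfar : ∀ k, k + 1 < j → ∀ x ∈ pvrtL l k, 1 / 2 + 1 / 20 ≤ pvccN (x - pvccC 0 1 l (j + 1)))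
    {Ln U₀ W₀ : Set ℂ} (sh : PvrrSh Ln U₀ W₀) :
    ∃ U W : Set ℂ, IsOpen U ∧ pvccPl (pvccZ 0 1 l (j + 1)) (pvccD 1 l (j + 1)) Ln ⊆ U ∧ IsPreconnected W ∧ U \ (pvrtA l (j + 1) ∪ pvccPl (pvccZ 0 1 l (j + 1)) (pvccD 1 l (j + 1)) Ln) ⊆ W ∧
      W ⊆ (pvrtA l (j + 1) ∪ pvccPl (pvccZ 0 1 l (j + 1)) (pvccD 1 l (j + 1)) Ln)ᶜ ∧ W ⊆ U ∧ ∀ x ∈ U, pvccN (x - pvccC 0 1 l (j + 1)) < 1 / 2 + 1 / 20 := by
  set Z := pvccZ 0 1 l (j + 1) with hZ
  set D := pvccD 1 l (j + 1) with hD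
  have hD0 : D ≠ 0 := pvrt_D_ne l _
  have hD4 : D ^ 4 = 1 := pvrt_D4 l _
  have hinj := pvcc_pl_injective Z hD0
  have eprev : ∀ w : ℂ, Z + D * w = pvccZ 0 1 l j + pvccD 1 l j * ((pvccT l j).mid + (pvccT l j).rot * w) := by
    intro w
    rw [hZ, hD, pvccZ_succ 0 1 l hjl, pvccD_succ 1 l hjl]
    ring
  have hcellU : ∀ w ∈ U₀, pvccN (Z + D * w - pvccC 0 1 l (j + 1)) < 1 / 2 + 1 / 20 := by
    intro w hw
    have e : Z + D * w - pvccC 0 1 l (j + 1) = D * (w - 1 / 2) := by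
      unfold pvccC
      ring
    rw [e, pvccN_unit_mul hD4]
    exact sh.cell w hw
  refine ⟨pvccPl Z D U₀, pvccPl Z D W₀, ?_, ?_, ?_, ?_, ?_, pvccPl_mono _ _ sh.wsub, ?_⟩
  · rw [pvccPl_eq_preimage _ hD0]
    exact sh.op.preimage (by fun_prop)
  · exact pvccPl_mono _ _ sh.sub
  · exact sh.conn.image _ (by fun_prop)
  · rintro _ ⟨⟨w, hw, rfl⟩, hx⟩
    refine ⟨w, sh.cover ⟨hw, ?_⟩, rfl⟩
    rintro (hS | hL)
    · refine hx (Or.inl ?_)
      have h1 := (sh.left w hw hS.1).1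
      refine mem_iUnion₂.2 ⟨j, Finset.mem_range.2 (by omega), ?_⟩
      exact ⟨_, pvrt_exit' (pvccT l j) hS h1, (eprev w).symm⟩
    · exact hx (Or.inr ⟨w, hL, rfl⟩)
  · rintro _ ⟨w, hw, rfl⟩ hx
    have hwU := sh.wsub hw
    have hoff := Set.disjoint_left.1 sh.off hw
    rcases hx with hx | hx
    · obtain ⟨k, hk, hxk⟩ := mem_iUnion₂.1 hx
      rw [Finset.mem_range] at hk
      have hcell := pvrt_L_cell l k hxk
      have hUc := hcellU w hwU
      have hk3 : j ≤ k + 1 := by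
        by_contra hc
        have := hfar k (by omega) _ hxk
        linarith
      rcases (show k = j ∨ k + 1 = j by omega) with rfl | hk1
      · obtain ⟨v, hv, hvx⟩ := hxk
        have hvx' : pvccZ 0 1 l k + pvccD 1 l k * v = Z + D * w := hvx
        rw [eprev w] at hvx'
        have := pvcc_pl_injective (pvccZ 0 1 l k) (pvrt_D_ne l k) hvx'
        rw [this] at hv
        have h1 : -(1 / 20) < w.re := by
          by_cases h0 : w.re ≤ 0
          · exact (sh.left w hwU h0).1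
          · linarith
        exact hoff (Or.inl (pvrt_exit _ hv h1))
      · subst hk1
        have e2 : pvccC 0 1 l k = pvccZ 0 1 l (k + 1) - pvccD 1 l (k + 1) / 2 := (pvccC_prev 0 1 l (by omega)).symm
        have e4 : D = pvccD 1 l (k + 1) * (pvccT l (k + 1)).rot := pvccD_succ 1 l hjl
        have e5 : Z = pvccZ 0 1 l (k + 1) + pvccD 1 l (k + 1) * (pvccT l (k + 1)).mid := pvccZ_succ 0 1 l hjl
        have e6 : Z + D * w - pvccC 0 1 l k = pvccD 1 l (k + 1) * ((pvccT l (k + 1)).mid + (pvccT l (k + 1)).rot * w + 1 / 2) := by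
          rw [e2, e4, e5]
          ring
        rw [e6, pvccN_unit_mul (pvrt_D4 l _)] at hcell
        have hre := (le_max_left _ _).trans hcell
        have him := (le_max_right _ _).trans hcell
        rw [abs_le] at hre him
        generalize pvccT l (k + 1) = σ at hre him
        have hle : w.re ≤ 0 := by
          cases σ <;> simp [PvtTurn.mid, PvtTurn.rot] at hre him <;> linarith [hre.1, hre.2, him.1, him.2]
        have hU := sh.left w hwU hle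
        cases σ <;> simp [PvtTurn.mid, PvtTurn.rot] at hre him <;> linarith [hre.1, hre.2, him.1, him.2, hU.1, hU.2.1, hU.2.2]
    · obtain ⟨v, hv, hvx⟩ := hx
      have := hinj hvx
      rw [this] at hv
      exact hoff (Or.inr hv)
  · rintro _ ⟨w, hw, rfl⟩
    exact hcellU w hw

/-- **the step with a spectator `E`**, abstract shape -/
theorem pvrr_step {l : List PvtTurn} {j : ℕ} (hjl : j < l.length) (hfar : ∀ k, k + 1 < j → ∀ x ∈ pvrtL l k, 1 / 2 + 1 / 20 ≤ pvccN (x - pvccC 0 1 l (j + 1)))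
    {Ln U₀ W₀ : Set ℂ} (sh : PvrrSh Ln U₀ W₀) {E : Set ℂ} (hE : IsClosed E) (hEf : ∀ x ∈ E, 1 / 2 + 1 / 20 ≤ pvccN (x - pvccC 0 1 l (j + 1)))
    (h : IsPreconnected (E ∪ pvrtA l (j + 1))ᶜ) : IsPreconnected (E ∪ pvrtA l (j + 1) ∪ pvccPl (pvccZ 0 1 l (j + 1)) (pvccD 1 l (j + 1)) Ln)ᶜ := by
  obtain ⟨U, W, hU, hLU, hW, hW1, hW2, hWU, hUc⟩ := pvrr_step_data hjl hfar sh
  have hcl : IsClosed (pvccPl (pvccZ 0 1 l (j + 1)) (pvccD 1 l (j + 1)) Ln) := by
    rw [pvccPl_eq_preimage _ (pvrt_D_ne l _)]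
    exact sh.cl.preimage (by fun_prop)
  refine pvrt_attach (hE.union (pvrt_A_closed l _)) hcl h hU hLU hW ?_ ?_
  · rintro x ⟨hx1, hx2⟩
    exact hW1 ⟨hx1, fun h => hx2 (h.imp Or.inr id)⟩
  · intro x hx hx2
    rcases hx2 with (hx2 | hx2) | hx2
    · have := hEf x hx2
      have := hUc x (hWU hx)
      linarith
    · exact hW2 hx (Or.inl hx2)
    · exact hW2 hx (Or.inr hx2)

/-- **THE SNAKE OF A SIMPLE WORD, WITH A SPECTATOR** (`PvccSimple` + the cell behind the first door is not visited: no `PvfeNR`) -/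
theorem pvrr_snake {l : List PvtTurn} (hS : PvccSimple l l.length) (hb : ∀ i, i ≤ l.length → pvccC 0 1 l i ≠ -(1 / 2)) {E : Set ℂ} (hE : IsClosed E)
    (hEf : ∀ x ∈ E, ∀ k, 1 ≤ k → k < l.length → 1 / 2 + 1 / 20 ≤ pvccN (x - pvccC 0 1 l k)) (h0 : IsPreconnected (E ∪ pvrtA l 1)ᶜ) :
    ∀ n, n < l.length → IsPreconnected (E ∪ pvrtA l (n + 1))ᶜ := by
  intro n
  induction n with
  | zero => exact fun _ => h0
  | succ n ih =>
    intro hn
    have := pvrr_step (j := n) (by omega) (fun k hk x hx => le_trans (by norm_num) (pvrr_far hS (by omega) (by omega) (by omega) (hb _ (by omega)) hx)) (pvrr_sh_lane (pvccT l (n + 1))) hE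
      (fun x hx => hEf x hx (n + 1) (by omega) hn) (ih (by omega))
    rw [pvrt_A_succ l (n + 1), ← union_assoc]
    exact this

/-- **THE CAP**: the straight lane cut at the depth `p` beyond the last door -/
theorem pvrr_cap {l : List PvtTurn} (hS : PvccSimple l l.length) (hb : ∀ i, i ≤ l.length → pvccC 0 1 l i ≠ -(1 / 2)) (hl : 0 < l.length) {E : Set ℂ} (hE : IsClosed E)
    (hEf : ∀ x ∈ E, 1 / 2 + 1 / 20 ≤ pvccN (x - pvccC 0 1 l l.length)) {p : ℝ} (h0 : 0 ≤ p) (h1 : p ≤ 1) (h : IsPreconnected (E ∪ pvrtA l l.length)ᶜ) :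
    IsPreconnected (E ∪ pvrtA l l.length ∪ pvccPl (pvccZ 0 1 l l.length) (pvccD 1 l l.length) (pvrrCap p))ᶜ := by
  obtain ⟨n, hn⟩ : ∃ n, l.length = n + 1 := ⟨l.length - 1, by omega⟩
  rw [hn] at h hEf ⊢
  exact pvrr_step (j := n) (by omega) (fun k hk x hx => le_trans (by norm_num) (pvrr_far hS (by omega) (by omega) (by omega) (hb _ (by omega)) hx)) (pvrr_sh_cap h0 h1) hE hEf h

/-! ## 3. mouth, funnel, rooms in the unit frame of the word -/

/-- the funnel, in a frame -/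
def pvrrF (s1 s2 c w : ℝ) : Set ℂ := {v | s1 ≤ v.re ∧ v.re ≤ s2 ∧ |v.im - c| ≤ w}

theorem pvrr_F_eq (s1 s2 c w : ℝ) : pvrrF s1 s2 c w = (Complex.re ⁻¹' Set.Icc s1 s2) ∩ (Complex.im ⁻¹' Set.Icc (c - w) (c + w)) := by
  ext v
  simp only [pvrrF, Set.mem_setOf_eq, Set.mem_inter_iff, Set.mem_preimage, Set.mem_Icc, abs_le]
  constructor
  · rintro ⟨h1, h2, h3, h4⟩
    exact ⟨⟨h1, h2⟩, by linarith, by linarith⟩
  · rintro ⟨⟨h1, h2⟩, h3, h4⟩
    exact ⟨h1, h2, by linarith, by linarith⟩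

theorem pvrr_F_closed (s1 s2 c w : ℝ) : IsClosed (pvrrF s1 s2 c w) := by
  rw [pvrr_F_eq]
  exact (isClosed_Icc.preimage Complex.continuous_re).inter (isClosed_Icc.preimage Complex.continuous_im)

theorem pvrr_F_convex (s1 s2 c w : ℝ) : Convex ℝ (pvrrF s1 s2 c w) := by
  have e : pvrrF s1 s2 c w = (Complex.reLm ⁻¹' Set.Icc s1 s2) ∩ (Complex.imLm ⁻¹' Set.Icc (c - w) (c + w)) := pvrr_F_eq s1 s2 c w
  rw [e]
  exact ((convex_Icc _ _).linear_preimage _).inter ((convex_Icc _ _).linear_preimage _)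

theorem pvrr_F_bdd (s1 s2 c w : ℝ) : Bornology.IsBounded (pvrrF s1 s2 c w) := by
  rw [pvrr_F_eq]
  exact (Metric.isBounded_Icc s1 s2).reProdIm (Metric.isBounded_Icc (c - w) (c + w))

theorem pvrr_R_eq (a b : ℝ) (n : ℕ) : pvrtR a b n = pvrrF 0 n ((a + b) / 2) ((b - a) / 2) := by
  ext v
  simp only [pvrtR, pvrrF, Set.mem_setOf_eq, abs_le]
  constructor
  · rintro ⟨h1, h2, h3, h4⟩
    exact ⟨h1, h2, by linarith, by linarith⟩
  · rintro ⟨h1, h2, h3, h4⟩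
    exact ⟨h1, h2, by linarith, by linarith⟩

/-- **[ball ∪ funnel ∪ straight run] is star shaped** about a point `q0` of the ball and of the funnel, at the offsets of the run -/
theorem pvrr_mouth_star {y q0 : ℂ} {rM s1 s2 c w a b : ℝ} (hq1 : ‖q0 - y‖ ≤ rM) (hq2 : s1 ≤ q0.re) (hq3 : q0.re ≤ s2) (hq4 : a ≤ q0.im) (hq5 : q0.im ≤ b) (hw1 : c - w ≤ a) (hw2 : b ≤ c + w)
    (hs1 : s1 ≤ 0) (hs2 : 0 ≤ s2) (n : ℕ) : StarConvex ℝ q0 (closedBall y rM ∪ pvrrF s1 s2 c w ∪ pvrtR a b n) := by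
  have hqF : q0 ∈ pvrrF s1 s2 c w := ⟨hq2, hq3, abs_le.2 ⟨by linarith, by linarith⟩⟩
  intro x hx α β hα hβ hαβ
  rcases hx with (hx | hx) | hx
  · exact Or.inl (Or.inl (convex_closedBall y rM (by rwa [mem_closedBall, dist_eq_norm]) hx hα hβ hαβ))
  · exact Or.inl (Or.inr (pvrr_F_convex s1 s2 c w hqF hx hα hβ hαβ))
  · obtain ⟨k1, k2, k3, k4⟩ := hx
    have e1 : (α • q0 + β • x).re = α * q0.re + β * x.re := by simp
    have e2 : (α • q0 + β • x).im = α * q0.im + β * x.im := by simp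
    obtain ⟨i1, i2⟩ := pvrt_cvx_aux hα hβ hαβ hq4 hq5 k3 k4
    obtain ⟨r1, r2⟩ := pvrt_cvx_aux hα hβ hαβ (L := s1) (U := max q0.re x.re) hq2 (le_max_left _ _) (by linarith) (le_max_right _ _)
    by_cases h : α * q0.re + β * x.re ≤ s2
    · refine Or.inl (Or.inr ⟨?_, ?_, ?_⟩)
      · rw [e1]; exact r1
      · rw [e1]; exact h
      · rw [e2, abs_le]; constructor <;> linarith
    · rw [not_le] at h
      refine Or.inr ⟨?_, ?_, ?_, ?_⟩
      · rw [e1]; linarith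
      · rw [e1]
        rcases le_max_iff.1 r2 with h' | h'
        · linarith
        · linarith
      · rw [e2]; exact i1
      · rw [e2]; exact i2

theorem pvrr_Z0 (l : List PvtTurn) : pvccZ 0 1 l 0 = 0 := by simp [pvccZ, pvtDisp]

theorem pvrr_D0 (l : List PvtTurn) : pvccD 1 l 0 = 1 := by simp [pvccD]

theorem pvrr_C0 (l : List PvtTurn) : pvccC 0 1 l 0 = 1 / 2 := by rw [pvccC, pvrr_Z0, pvrr_D0]; ring

theorem pvrr_pl_id (S : Set ℂ) : pvccPl 0 1 S = S := by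
  unfold pvccPl
  simp

/-- the first lane of a word which begins with `S` -/
theorem pvrr_A1 {l : List PvtTurn} (h0 : pvccT l 0 = PvtTurn.S) : pvrtA l 1 = pvrtR (-(1 / 10)) (4 / 10) 1 := by
  have e : pvrtA l 1 = pvrtL l 0 := by
    unfold pvrtA
    simp
  rw [e]
  unfold pvrtL pvccK
  rw [pvrr_Z0, pvrr_D0, pvrr_pl_id, h0]
  ext v
  simp [pvrtLn, pvfeLane, pvrtR]

/-- **THE ROOM [ball ∪ funnel] → lanes of a simple word → cap**, unit frame of the word      (shape of `fY`) -/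
theorem pvrr_room_f {l : List PvtTurn} (hS : PvccSimple l l.length) (hl : 0 < l.length) (h0 : pvccT l 0 = PvtTurn.S) {y q0 : ℂ} {rM s1 s2 c w : ℝ}
    (hq1 : ‖q0 - y‖ ≤ rM) (hq2 : s1 ≤ q0.re) (hq3 : q0.re ≤ s2) (hq4 : -(1 / 10) ≤ q0.im) (hq5 : q0.im ≤ 4 / 10) (hw1 : c - w ≤ -(1 / 10)) (hw2 : 4 / 10 ≤ c + w) (hs1 : s1 ≤ -(1 / 2)) (hs2 : 0 ≤ s2)
    (hEf : ∀ x ∈ closedBall y rM ∪ pvrrF s1 s2 c w, ∀ k, 1 ≤ k → k ≤ l.length → 1 / 2 + 1 / 20 ≤ pvccN (x - pvccC 0 1 l k)) {p : ℝ} (hp0 : 0 ≤ p) (hp1 : p ≤ 1) :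
    IsPreconnected (closedBall y rM ∪ pvrrF s1 s2 c w ∪ pvrtA l l.length ∪ pvccPl (pvccZ 0 1 l l.length) (pvccD 1 l l.length) (pvrrCap p))ᶜ := by
  have hE : IsClosed (closedBall y rM ∪ pvrrF s1 s2 c w) := isClosed_closedBall.union (pvrr_F_closed _ _ _ _)
  have hb : ∀ i, i ≤ l.length → pvccC 0 1 l i ≠ -(1 / 2) := by
    intro i hi h
    rcases Nat.eq_zero_or_pos i with rfl | hi0
    · rw [pvrr_C0] at h
      norm_num at h
    · have hm : (-(1 / 2) : ℂ) ∈ closedBall y rM ∪ pvrrF s1 s2 c w := by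
        refine Or.inr ⟨?_, ?_, ?_⟩
        · simpa using hs1
        · simp; linarith
        · rw [abs_le]; constructor <;> simp <;> linarith
      have := hEf _ hm i hi0 hi
      rw [h, sub_self] at this
      simp [pvccN] at this
      linarith
  have hbase : IsPreconnected (closedBall y rM ∪ pvrrF s1 s2 c w ∪ pvrtA l 1)ᶜ := by
    rw [pvrr_A1 h0]
    refine pvrt_star (pvrr_mouth_star hq1 hq2 hq3 hq4 hq5 hw1 hw2 (by linarith) hs2 1) ?_
    rw [pvrr_R_eq]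
    exact (isBounded_closedBall.union (pvrr_F_bdd _ _ _ _)).union (pvrr_F_bdd _ _ _ _)
  have h1 := pvrr_snake hS hb hE (fun x hx k hk1 hk2 => hEf x hx k hk1 hk2.le) hbase (l.length - 1) (by omega)
  rw [show l.length - 1 + 1 = l.length by omega] at h1
  exact pvrr_cap hS hb hl hE (fun x hx => hEf x hx _ hl le_rfl) hp0 hp1 h1

/-- the straight lane of depth `p` behind the first door -/
def pvrrBk (p : ℝ) : Set ℂ := {w | -p ≤ w.re ∧ w.re ≤ 0 ∧ -(1 / 10) ≤ w.im ∧ w.im ≤ 4 / 10}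

theorem pvrr_Bk_eq (p : ℝ) : pvrrBk p = pvrrF (-p) 0 (3 / 20) (1 / 4) := by
  ext v
  simp only [pvrrBk, pvrrF, Set.mem_setOf_eq, abs_le]
  constructor
  · rintro ⟨h1, h2, h3, h4⟩
    exact ⟨h1, h2, by linarith, by linarith⟩
  · rintro ⟨h1, h2, h3, h4⟩
    exact ⟨h1, h2, by linarith, by linarith⟩

/-- the lane behind the first door is far from the cells `k ≥ 1` -/
theorem pvrr_Bk_far {l : List PvtTurn} (hS : PvccSimple l l.length) (hb : ∀ i, i ≤ l.length → pvccC 0 1 l i ≠ -(1 / 2)) {p : ℝ} (hp : p ≤ 9 / 10) {x : ℂ} (hx : x ∈ pvrrBk p)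
    {k : ℕ} (hk1 : 1 ≤ k) (hk : k ≤ l.length) : 1 / 2 + 1 / 20 ≤ pvccN (x - pvccC 0 1 l k) := by
  obtain ⟨a, b, hab⟩ := pvccC_sub_gauss l k 0
  rw [pvrr_C0] at hab
  have hC : pvccC 0 1 l k = 1 / 2 + ((a : ℂ) + (b : ℂ) * Complex.I) := by rw [← hab]; ring
  have e1 : (x - pvccC 0 1 l k).re = x.re - 1 / 2 - a := by rw [hC]; simp; ring
  have e2 : (x - pvccC 0 1 l k).im = x.im - b := by rw [hC]; simp
  obtain ⟨k1, k2, k3, k4⟩ := hx
  by_contra hc
  rw [not_le] at hc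
  unfold pvccN at hc
  rw [e1, e2, max_lt_iff, abs_lt, abs_lt] at hc
  obtain ⟨⟨c1, c2⟩, c3, c4⟩ := hc
  have b1 : (-1 : ℝ) < b := by linarith
  have b2 : (b : ℝ) < 1 := by linarith
  have a1 : (-2 : ℝ) < a := by linarith
  have a2 : (a : ℝ) < 1 := by linarith
  have b1' : -1 < b := by exact_mod_cast b1
  have b2' : b < 1 := by exact_mod_cast b2
  have a1' : -2 < a := by exact_mod_cast a1
  have a2' : a < 1 := by exact_mod_cast a2
  have hb0 : b = 0 := by omega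
  subst hb0
  rcases (show a = -1 ∨ a = 0 by omega) with rfl | rfl
  · apply hb k hk
    rw [hC]
    push_cast
    ring
  · have : pvccC 0 1 l k = pvccC 0 1 l 0 := by
      rw [hC, pvrr_C0]
      simp
    have := hS k 0 hk (Nat.zero_le _) this
    omega

/-- **THE ROOM lane behind the first door → lanes of a simple word → [funnel ∪ ball] at the end of the last straight run**, unit frame of the word      (shape of `eY`) -/
theorem pvrr_room_e {l : List PvtTurn} (hS : PvccSimple l l.length) (hb : ∀ i, i ≤ l.length → pvccC 0 1 l i ≠ -(1 / 2)) (h0 : pvccT l 0 = PvtTurn.S) {p : ℝ} (hp0 : 0 ≤ p) (hp : p ≤ 9 / 10)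
    {n : ℕ} (hn1 : 1 ≤ n) (hn : n ≤ l.length) (hrun : ∀ k, l.length ≤ k + n → k < l.length → pvccT l k = PvtTurn.S) {y q0 : ℂ} {r ε rM s1 s2 c w : ℝ} (hε : 0 < ε)
    (hy1 : 0 ≤ ((y - pvccZ 0 1 l l.length) / pvccD 1 l l.length).re) (hy2 : ‖y - pvccZ 0 1 l l.length‖ + 1 / 2 < r)
    (hfar : r + ε + 1 ≤ ‖pvccZ 0 1 l l.length + -pvccD 1 l l.length * ((n : ℂ) + 1 / 2) - y‖)
    (far : ∀ k, k + n < l.length → r + ε + 1 ≤ ‖pvccC 0 1 l k - y‖) (farE : ∀ x ∈ pvrrBk p, r + ε ≤ ‖x - y‖)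
    (hBr : closedBall y rM ∪ pvccPl (pvccZ 0 1 l l.length) (-pvccD 1 l l.length) (pvrrF s1 s2 c w) ⊆ closedBall y r)
    (hq1 : ‖pvccZ 0 1 l l.length + -pvccD 1 l l.length * q0 - y‖ ≤ rM) (hq2 : s1 ≤ q0.re) (hq3 : q0.re ≤ s2) (hq4 : -(4 / 10) ≤ q0.im) (hq5 : q0.im ≤ 1 / 10)
    (hw1 : c - w ≤ -(4 / 10)) (hw2 : 1 / 10 ≤ c + w) (hs1 : s1 ≤ 0) (hs2 : 0 ≤ s2) :
    IsPreconnected (pvrrBk p ∪ pvrtA l l.length ∪ (closedBall y rM ∪ pvccPl (pvccZ 0 1 l l.length) (-pvccD 1 l l.length) (pvrrF s1 s2 c w)))ᶜ := by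
  have hl : 0 < l.length := by omega
  have hE : IsClosed (pvrrBk p) := by rw [pvrr_Bk_eq]; exact pvrr_F_closed _ _ _ _
  have hbase : IsPreconnected (pvrrBk p ∪ pvrtA l 1)ᶜ := by
    rw [pvrr_A1 h0]
    have e : pvrrBk p ∪ pvrtR (-(1 / 10)) (4 / 10) 1 = pvrrF (-p) 1 (3 / 20) (1 / 4) := by
      ext v
      simp only [pvrrBk, pvrtR, pvrrF, Set.mem_setOf_eq, Set.mem_union, abs_le, Nat.cast_one]
      constructor
      · rintro (⟨h1, h2, h3, h4⟩ | ⟨h1, h2, h3, h4⟩)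
        · exact ⟨h1, by linarith, by linarith, by linarith⟩
        · exact ⟨by linarith, h2, by linarith, by linarith⟩
      · rintro ⟨h1, h2, h3, h4⟩
        by_cases h : v.re ≤ 0
        · exact Or.inl ⟨h1, h, by linarith, by linarith⟩
        · exact Or.inr ⟨by linarith, h2, by linarith, by linarith⟩
    rw [e]
    have hm : (0 : ℂ) ∈ pvrrF (-p) 1 (3 / 20) (1 / 4) := by
      refine ⟨by simpa using hp0, by simp, ?_⟩
      rw [abs_le]; constructor <;> norm_num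
    exact pvrt_star ((pvrr_F_convex _ _ _ _).starConvex hm) (pvrr_F_bdd _ _ _ _)
  have h1 := pvrr_snake hS hb hE (fun x hx k hk1 hk2 => pvrr_Bk_far hS hb hp hx hk1 hk2.le) hbase (l.length - 1) (by omega)
  rw [show l.length - 1 + 1 = l.length by omega] at h1
  obtain ⟨i0, hi0⟩ : ∃ i0, l.length = i0 + n := ⟨l.length - n, by omega⟩
  have hSs : ∀ k, i0 ≤ k → k < i0 + n → pvccT l k = PvtTurn.S := fun k hk1 hk2 => hrun k (by omega) (by omega)
  have hr := pvrt_run (l := l) (i := i0) (n := n) (by omega) hSs n le_rfl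
  rw [← hi0] at hr
  have hDn : ‖pvccD 1 l l.length‖ = 1 := by rw [pvfe_norm_frame, norm_one]
  refine pvrj_funnel (hE.union (pvrt_A_closed l _)) h1 (Z := pvccZ 0 1 l l.length) (u := - pvccD 1 l l.length) (a := -(4 / 10)) (b := -(-(1 / 10))) (n := n) (r := r) (ε := ε) (by rw [norm_neg, hDn]) hε
    (by norm_num) (by norm_num) ?_ hy2 hfar ?_ hBr hq1 hq2 hq3 hq4 (by linarith) hw1 (by linarith) hs1 hs2
  · rw [div_neg, Complex.neg_re]
    linarith
  · intro x hx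
    have hnE : x ∉ pvrrBk p := fun h => by
      have := farE x h
      linarith
    have hA := pvrt_near (l := l) (i := i0) (n := n) (by omega) (fun k hk hk2 => far k (by omega)) hx
    rw [pvrt_run_union (by omega) hSs hn1, pvrt_run_back, ← hr.1, ← hr.2] at hA
    rw [← hA]
    exact ⟨fun h => h.resolve_left hnE, Or.inr⟩

/-! ## 4. the same rooms, placed -/

theorem pvrr_nrm {d : ℂ} (hd : d ≠ 0) (z a b : ℂ) : ‖b - (a - z) / d‖ = ‖z + d * b - a‖ / ‖d‖ := by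
  rw [← norm_div]
  congr 1
  field_simp
  ring

theorem pvrr_pl_union (z d : ℂ) (S T : Set ℂ) : pvccPl z d (S ∪ T) = pvccPl z d S ∪ pvccPl z d T := image_union _ _ _

theorem pvrr_pl_conn (z : ℂ) {d : ℂ} (hd : d ≠ 0) {S : Set ℂ} (h : IsPreconnected Sᶜ) : IsPreconnected (pvccPl z d S)ᶜ := by
  rw [pvrt_pl_compl z hd]
  exact h.image _ (by fun_prop)

theorem pvrr_d_ne {Δ : ℝ} (hΔ : 0 < Δ) {u₀ : ℂ} (hu₀ : u₀ ^ 4 = 1) : (Δ : ℂ) * u₀ ≠ 0 := by
  refine mul_ne_zero (by exact_mod_cast hΔ.ne') ?_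
  intro h
  rw [h] at hu₀
  norm_num at hu₀

theorem pvrr_d_norm {Δ : ℝ} (hΔ : 0 < Δ) {u₀ : ℂ} (hu₀ : u₀ ^ 4 = 1) : ‖(Δ : ℂ) * u₀‖ = Δ := by
  have h1 : ‖u₀‖ = 1 := by
    have h4 : ‖u₀‖ ^ 4 = 1 := by rw [← norm_pow, hu₀, norm_one]
    exact (pow_eq_one_iff_of_nonneg (norm_nonneg _) (by norm_num)).1 h4
  rw [norm_mul, h1, mul_one, Complex.norm_real, Real.norm_of_nonneg hΔ.le]

theorem pvrr_N_pl {Δ : ℝ} (hΔ : 0 < Δ) {u₀ : ℂ} (hu₀ : u₀ ^ 4 = 1) (w : ℂ) : pvccN ((Δ : ℂ) * u₀ * w) = Δ * pvccN w := by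
  rw [mul_assoc, pvccN_real_mul hΔ.le, pvccN_unit_mul hu₀]

/-- **`pvrr_room_f`, placed** (`d = Δ u₀`; radii in absolute units, the funnel and the cap in the scaled frames of the first and of the last door) -/
theorem pvrr_room_f_pl {l : List PvtTurn} (hS : PvccSimple l l.length) (hl : 0 < l.length) (h0 : pvccT l 0 = PvtTurn.S) {Δ : ℝ} (hΔ : 0 < Δ) {u₀ : ℂ} (hu₀ : u₀ ^ 4 = 1) (z : ℂ)
    {y q0 : ℂ} {rM s1 s2 c w : ℝ} (hq1 : ‖z + (Δ : ℂ) * u₀ * q0 - y‖ ≤ rM) (hq2 : s1 ≤ q0.re) (hq3 : q0.re ≤ s2) (hq4 : -(1 / 10) ≤ q0.im) (hq5 : q0.im ≤ 4 / 10)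
    (hw1 : c - w ≤ -(1 / 10)) (hw2 : 4 / 10 ≤ c + w) (hs1 : s1 ≤ -(1 / 2)) (hs2 : 0 ≤ s2)
    (hEf : ∀ x ∈ closedBall y rM ∪ pvccPl z ((Δ : ℂ) * u₀) (pvrrF s1 s2 c w), ∀ k, 1 ≤ k → k ≤ l.length → (1 / 2 + 1 / 20) * Δ ≤ pvccN (x - pvccC z ((Δ : ℂ) * u₀) l k))
    {p : ℝ} (hp0 : 0 ≤ p) (hp1 : p ≤ 1) :
    IsPreconnected (closedBall y rM ∪ pvccPl z ((Δ : ℂ) * u₀) (pvrrF s1 s2 c w) ∪ pvfeLanes (-(1 / 10)) (4 / 10) z ((Δ : ℂ) * u₀) l ∪
      pvccPl (pvccZ z ((Δ : ℂ) * u₀) l l.length) (pvccD ((Δ : ℂ) * u₀) l l.length) (pvrrCap p))ᶜ := by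
  have hd := pvrr_d_ne hΔ hu₀
  have hn := pvrr_d_norm hΔ hu₀
  set d := (Δ : ℂ) * u₀ with hdd
  have hball := pvrt_ball_cov z hd y rM
  rw [pvrt_lanes_cov, pvrt_lanes_eq, pvccZ_cov, pvccD_cov, ← pvccPl_comp, hball, ← pvrr_pl_union, ← pvrr_pl_union, ← pvrr_pl_union]
  refine pvrr_pl_conn z hd (pvrr_room_f hS hl h0 (q0 := q0) ?_ hq2 hq3 hq4 hq5 hw1 hw2 hs1 hs2 ?_ hp0 hp1)
  · rw [pvrr_nrm hd]
    exact div_le_div_of_nonneg_right hq1 (norm_nonneg _)
  · intro x hx k hk1 hk2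
    have hx' : z + d * x ∈ closedBall y rM ∪ pvccPl z d (pvrrF s1 s2 c w) := by
      rw [hball, ← pvrr_pl_union]
      exact ⟨x, hx, rfl⟩
    have := hEf _ hx' k hk1 hk2
    rw [pvccC_cov, show z + d * x - (z + d * pvccC 0 1 l k) = d * (x - pvccC 0 1 l k) by ring, hdd, pvrr_N_pl hΔ hu₀] at this
    nlinarith

/-- **`pvrr_room_e`, placed** -/
theorem pvrr_room_e_pl {l : List PvtTurn} (hS : PvccSimple l l.length) (hb : ∀ i, i ≤ l.length → pvccC 0 1 l i ≠ -(1 / 2)) (h0 : pvccT l 0 = PvtTurn.S) {p : ℝ} (hp0 : 0 ≤ p) (hp : p ≤ 9 / 10)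
    {n : ℕ} (hn1 : 1 ≤ n) (hn : n ≤ l.length) (hrun : ∀ k, l.length ≤ k + n → k < l.length → pvccT l k = PvtTurn.S) {Δ : ℝ} (hΔ : 0 < Δ) {u₀ : ℂ} (hu₀ : u₀ ^ 4 = 1) (z : ℂ)
    {y q0 : ℂ} {r ε rM s1 s2 c w : ℝ} (hε : 0 < ε)
    (hy1 : 0 ≤ ((y - pvccZ z ((Δ : ℂ) * u₀) l l.length) / pvccD ((Δ : ℂ) * u₀) l l.length).re) (hy2 : ‖y - pvccZ z ((Δ : ℂ) * u₀) l l.length‖ + Δ / 2 < r)
    (hfar : r + ε + Δ ≤ ‖pvccZ z ((Δ : ℂ) * u₀) l l.length + -pvccD ((Δ : ℂ) * u₀) l l.length * ((n : ℂ) + 1 / 2) - y‖)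
    (far : ∀ k, k + n < l.length → r + ε + Δ ≤ ‖pvccC z ((Δ : ℂ) * u₀) l k - y‖) (farE : ∀ x ∈ pvccPl z ((Δ : ℂ) * u₀) (pvrrBk p), r + ε ≤ ‖x - y‖)
    (hBr : closedBall y rM ∪ pvccPl (pvccZ z ((Δ : ℂ) * u₀) l l.length) (-pvccD ((Δ : ℂ) * u₀) l l.length) (pvrrF s1 s2 c w) ⊆ closedBall y r)
    (hq1 : ‖pvccZ z ((Δ : ℂ) * u₀) l l.length + -pvccD ((Δ : ℂ) * u₀) l l.length * q0 - y‖ ≤ rM) (hq2 : s1 ≤ q0.re) (hq3 : q0.re ≤ s2) (hq4 : -(4 / 10) ≤ q0.im) (hq5 : q0.im ≤ 1 / 10)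
    (hw1 : c - w ≤ -(4 / 10)) (hw2 : 1 / 10 ≤ c + w) (hs1 : s1 ≤ 0) (hs2 : 0 ≤ s2) :
    IsPreconnected (pvccPl z ((Δ : ℂ) * u₀) (pvrrBk p) ∪ pvfeLanes (-(1 / 10)) (4 / 10) z ((Δ : ℂ) * u₀) l ∪
      (closedBall y rM ∪ pvccPl (pvccZ z ((Δ : ℂ) * u₀) l l.length) (-pvccD ((Δ : ℂ) * u₀) l l.length) (pvrrF s1 s2 c w)))ᶜ := by
  have hd := pvrr_d_ne hΔ hu₀
  have hnd := pvrr_d_norm hΔ hu₀
  set d := (Δ : ℂ) * u₀ with hdd
  have hball := pvrt_ball_cov z hd y rM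
  have hballr := pvrt_ball_cov z hd y r
  have eF : pvccPl (pvccZ z d l l.length) (-pvccD d l l.length) (pvrrF s1 s2 c w) = pvccPl z d (pvccPl (pvccZ 0 1 l l.length) (-pvccD 1 l l.length) (pvrrF s1 s2 c w)) := by
    rw [pvccPl_comp, ← pvccZ_cov, mul_neg, ← pvccD_cov]
  have eZ : ∀ v : ℂ, pvccZ z d l l.length + -pvccD d l l.length * v = z + d * (pvccZ 0 1 l l.length + -pvccD 1 l l.length * v) := by
    intro v
    rw [pvccZ_cov, pvccD_cov]
    ring
  rw [eF] at hBr ⊢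
  rw [hball, ← pvrr_pl_union, hballr] at hBr
  rw [pvrt_lanes_cov, pvrt_lanes_eq, hball, ← pvrr_pl_union, ← pvrr_pl_union, ← pvrr_pl_union]
  have hdiv : ∀ {a b : ℝ}, a ≤ b → a / Δ ≤ b / Δ := fun h => div_le_div_of_nonneg_right h hΔ.le
  refine pvrr_pl_conn z hd (pvrr_room_e hS hb h0 hp0 hp hn1 hn hrun (y := (y - z) / d) (q0 := q0) (r := r / ‖d‖) (ε := ε / ‖d‖) (by rw [hnd]; positivity) ?_ ?_ ?_ ?_ ?_ ?_ ?_ hq2 hq3 hq4 hq5 hw1 hw2 hs1 hs2)
  · have e : ((y - z) / d - pvccZ 0 1 l l.length) / pvccD 1 l l.length = (y - pvccZ z d l l.length) / pvccD d l l.length := by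
      rw [pvccZ_cov z d, pvccD_cov d]
      have := pvrt_D_ne l l.length
      field_simp
      ring
    rw [e]
    exact hy1
  · rw [← norm_neg, neg_sub, pvrr_nrm hd, ← pvccZ_cov, ← norm_neg, neg_sub, hnd]
    rw [← sub_pos] at hy2 ⊢
    have : r / Δ - (‖y - pvccZ z d l l.length‖ / Δ + 1 / 2) = (r - (‖y - pvccZ z d l l.length‖ + Δ / 2)) / Δ := by
      field_simp
    rw [this]
    positivity
  · rw [pvrr_nrm hd, ← eZ, hnd]
    have := hdiv hfar
    have e : (r + ε + Δ) / Δ = r / Δ + ε / Δ + 1 := by field_simp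
    rwa [e] at this
  · intro k hk
    rw [pvrr_nrm hd, ← pvccC_cov, hnd]
    have := hdiv (far k hk)
    have e : (r + ε + Δ) / Δ = r / Δ + ε / Δ + 1 := by field_simp
    rwa [e] at this
  · intro x hx
    rw [pvrr_nrm hd, hnd]
    have := hdiv (farE _ ⟨x, hx, rfl⟩)
    have e : (r + ε) / Δ = r / Δ + ε / Δ := by field_simp
    rwa [e] at this
  · intro x hx
    have := hBr ⟨x, hx, rfl⟩
    obtain ⟨x', hx', e⟩ := this
    have := pvcc_pl_injective z hd e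
    rwa [← this]
  · rw [pvrr_nrm hd, ← eZ]
    exact div_le_div_of_nonneg_right hq1 (norm_nonneg _)

/-! ## 5. cores -/

/-- **the core of a set which is star shaped about every point of `closedBall p μ` is star shaped about `p`**      (`{v | closedBall v μ ⊆ U}` is `pvtrCore μ U` by `rfl`) -/
theorem pvrr_core_star {U : Set ℂ} {p : ℂ} {μ : ℝ} (h : ∀ q ∈ closedBall p μ, StarConvex ℝ q U) : StarConvex ℝ p {v | closedBall v μ ⊆ U} := by
  intro v hv a b ha hb hab x hx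
  rw [mem_closedBall, dist_eq_norm] at hx
  set e := x - (a • p + b • v) with he
  have h1 : p + e ∈ closedBall p μ := by rw [mem_closedBall, dist_eq_norm]; simpa using hx
  have h2 : v + e ∈ U := hv (by rw [mem_closedBall, dist_eq_norm]; simpa using hx)
  have := h _ h1 h2 ha hb hab
  have e2 : a • (p + e) + b • (v + e) = x := by
    have : a • (p + e) + b • (v + e) = (a • p + b • v) + (a + b) • e := by
      rw [smul_add, smul_add, add_smul]
      abel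
    rw [this, hab, one_smul, he]
    abel
  rwa [e2] at this

/-- a union of convex sets which all contain `closedBall p μ` -/
theorem pvrr_core_star_union {ι : Type*} {C : ι → Set ℂ} {p : ℂ} {μ : ℝ} (hC : ∀ i, Convex ℝ (C i)) (hp : ∀ i, closedBall p μ ⊆ C i) : StarConvex ℝ p {v | closedBall v μ ⊆ ⋃ i, C i} := by
  refine pvrr_core_star fun q hq => ?_
  intro x hx a b ha hb hab
  obtain ⟨i, hi⟩ := mem_iUnion.1 hx
  exact mem_iUnion.2 ⟨i, hC i (hp i hq) hi ha hb hab⟩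

/-- the intersection of a star shaped set with a convex set through the centre -/
theorem pvrr_star_inter {S T : Set ℂ} {p : ℂ} (hS : StarConvex ℝ p S) (hT : Convex ℝ T) (hp : p ∈ T) : StarConvex ℝ p (S ∩ T) := hS.inter (hT.starConvex hp)

theorem pvrr_eqns_cite : True := by
  have := @pvrrCap.eq_1; have := @pvrrF.eq_1; have := @pvrrBk.eq_1
  trivial

end Claimed.Agent.R289
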