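import Claimed.Agent.R289.Defs.FitReg

/-!
# Row 289 (S0537), THE WALL, ROAD E, file Tr/RegT : THE TOPOLOGY OF THE REGIONS OF RECORD      (helper39; prefix `pvrt`)

GOAL: `IsPreconnected (pvfeIn rI ys yt z d l)ᶜ` (`Yin` of `pvfeReg` / `pvfeRegAt` / `pvxrReg` has no hole) = hypothesis `hS` of `pvrk_reg`, `pvrk_reg_mesh` (`Tr/RegK`): the region `K` of record is CO-CONNECTED on the Delaunay map (`PvwDat.Reg.co`).
NO Jordan curve theorem, no path: ONE point-set lemma.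
* sec. 1  **`pvrt_attach`** (T1, PROVED): `A L` closed, `Aᶜ` preconnected, `U ⊇ L` open, `U \ (A ∪ L) ⊆ W ⊆ (A ∪ L)ᶜ`, `W` preconnected ⟹ `(A ∪ L)ᶜ` preconnected.
          `pvrt_star` (T2): complement of a bounded star convex set.   `pvrt_ring` (T3): ring minus a strip.   `pvrt_ball` (T4, glue PROVED): attach a closed ball at the end of a strip.
* sec. 2  THE REFERENCE CELL: `pvrtLn τ` = the inner lane `[-1/10, 4/10]`;   `pvrtU τ` = its `1/20`-neighbourhood (open rectangles);   `pvrtW τ` = `U` minus the lane and the incoming strip `pvrtS0` = a CHAIN of 3 / 5 open rectangles.      All leaves: `linarith` on coordinates.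
* sec. 3  THE SNAKE, unit coordinates: `pvrt_snake_step` (PROVED from the leaves of sec. 2 and `PvfeNR`), **`pvrt_snake`**.
* sec. 4  straight runs = rectangles; `pvrt_end`, **`pvrt_ball_end`** (glue PROVED): attach a ball at the end of a straight run.
* sec. 5  **`pvrt_in_unit`**, **`pvrt_in`** (any frame, radii = arguments): PROVED from the above.
* sec. 6  `PvrtNoz` (the form of MB which excludes holes), `pvrt_in_noz`, `pvrt_in_bdd`, `pvrt_in_collar`, doors from `PvfeDoors`, **`pvrt_regAt`** : `IsPreconnected ((pvfeRegAt ..).Yin)ᶜ`.      ONE-STOP `Reg K`: `Tr/RegM.lean`.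
-/

set_option autoImplicit false

namespace Claimed.Agent.R289

open Set Metric

/-! ## 1. general topology -/

/-- **(T1) ATTACH** -/
theorem pvrt_attach {X : Type*} [TopologicalSpace X] {A L U W : Set X} (hA : IsClosed A) (hL : IsClosed L) (hAc : IsPreconnected Aᶜ)
    (hU : IsOpen U) (hLU : L ⊆ U) (hW : IsPreconnected W) (hW1 : U \ (A ∪ L) ⊆ W) (hW2 : W ⊆ (A ∪ L)ᶜ) : IsPreconnected (A ∪ L)ᶜ := by
  have hO : IsOpen (A ∪ L)ᶜ := (hA.union hL).isOpen_compl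
  rw [isPreconnected_iff_subset_of_disjoint]
  intro u v hu hv huv hdis
  -- shrink
  set P := u ∩ (A ∪ L)ᶜ with hP
  set Q := v ∩ (A ∪ L)ᶜ with hQ
  have hPo : IsOpen P := hu.inter hO
  have hQo : IsOpen Q := hv.inter hO
  have hPQ : Disjoint P Q := by
    rw [Set.disjoint_iff]
    rintro x ⟨⟨h1, h2⟩, h3, -⟩
    have : x ∈ (A ∪ L)ᶜ ∩ (u ∩ v) := ⟨h2, h1, h3⟩
    rw [hdis] at this
    exact this
  have hcov : (A ∪ L)ᶜ ⊆ P ∪ Q := fun x hx => (huv hx).imp (fun h => ⟨h, hx⟩) (fun h => ⟨h, hx⟩)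
  have key : ∀ P Q : Set X, IsOpen P → IsOpen Q → Disjoint P Q → (A ∪ L)ᶜ ⊆ P ∪ Q → P ⊆ (A ∪ L)ᶜ → Q ⊆ (A ∪ L)ᶜ → W ⊆ P → P.Nonempty → Q = ∅ := by
    intro P Q hPo hQo hPQ hcov hPs hQs hWP hPne
    by_contra hne
    obtain ⟨q, hq⟩ := Set.nonempty_iff_ne_empty.2 hne
    obtain ⟨p, hp⟩ := hPne
    have hP'o : IsOpen (P ∪ (U \ A)) := hPo.union (hU.sdiff hA)
    have hc : Aᶜ ⊆ (P ∪ (U \ A)) ∪ Q := by
      intro x hx
      by_cases hxL : x ∈ L
      · exact Or.inl (Or.inr ⟨hLU hxL, hx⟩)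
      · rcases hcov (show x ∈ (A ∪ L)ᶜ from fun h => h.elim hx hxL) with h | h
        · exact Or.inl (Or.inl h)
        · exact Or.inr h
    have hsub : ∀ x, x ∈ (A ∪ L)ᶜ → x ∈ Aᶜ := fun x hx h => hx (Or.inl h)
    obtain ⟨x, -, hx1, hx2⟩ := hAc _ _ hP'o hQo hc ⟨p, hsub p (hPs hp), Or.inl hp⟩ ⟨q, hsub q (hQs hq), hq⟩
    rcases hx1 with hx1 | hx1
    · exact Set.disjoint_iff.1 hPQ ⟨hx1, hx2⟩
    · have : x ∈ W := hW1 ⟨hx1.1, hQs hx2⟩
      exact Set.disjoint_iff.1 hPQ ⟨hWP this, hx2⟩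
  rcases hW.subset_or_subset hPo hQo hPQ (hW2.trans hcov) with hWP | hWQ
  · by_cases hPne : P.Nonempty
    · left
      have := key P Q hPo hQo hPQ hcov inter_subset_right inter_subset_right hWP hPne
      intro x hx
      rcases hcov hx with h | h
      · exact h.1
      · rw [this] at h; exact h.elim
    · right
      intro x hx
      rcases hcov hx with h | h
      · exact (hPne ⟨x, h⟩).elim
      · exact h.1
  · by_cases hQne : Q.Nonempty
    · right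
      have := key Q P hQo hPo hPQ.symm (by rw [union_comm Q P]; exact hcov) inter_subset_right inter_subset_right hWQ hQne
      intro x hx
      rcases hcov hx with h | h
      · rw [this] at h; exact h.elim
      · exact h.1
    · left
      intro x hx
      rcases hcov hx with h | h
      · exact h.1
      · exact (hQne ⟨x, h⟩).elim

/-- **(T2) STAR**: the complement of a bounded star convex set of the plane is preconnected      [every point off `S` is pushed radially to a large circle: `isPreconnected_sphere`] -/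
theorem pvrt_star {S : Set ℂ} {p : ℂ} (hS : StarConvex ℝ p S) (hb : Bornology.IsBounded S) : IsPreconnected Sᶜ := by
  rcases S.eq_empty_or_nonempty with rfl | ⟨s0, hs0⟩
  · rw [compl_empty]; exact isPreconnected_univ
  have hp : p ∈ S := by
    have := hS hs0 (a := 1) (b := 0) zero_le_one le_rfl (by norm_num)
    simpa using this
  obtain ⟨R, hR⟩ := hb.subset_ball p
  -- the rays
  have ray : ∀ x, x ∉ S → ∀ t : ℝ, 1 ≤ t → p + t • (x - p) ∉ S := by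
    intro x hx t ht hz
    apply hx
    have ht0 : 0 < t := by linarith
    have := hS hz (a := 1 - 1 / t) (b := 1 / t) (by rw [sub_nonneg, div_le_one ht0]; exact ht) (by positivity) (by ring)
    have e : (1 - 1 / t) • p + (1 / t) • (p + t • (x - p)) = x := by
      rw [smul_add, smul_smul, one_div, inv_mul_cancel₀ ht0.ne', one_smul, sub_smul, one_smul]
      ring
    rwa [e] at this
  have hsph : ∀ ρ : ℝ, R ≤ ρ → sphere p ρ ⊆ Sᶜ := by
    intro ρ hρ w hw hwS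
    have h1 := hR hwS
    rw [mem_ball] at h1
    rw [mem_sphere] at hw
    linarith
  have hrank : 1 < Module.rank ℝ ℂ := by rw [Complex.rank_real_complex]; exact Cardinal.one_lt_two
  -- from a point to a large sphere
  have key : ∀ x, x ∉ S → ∀ ρ : ℝ, ‖x - p‖ ≤ ρ → ∃ T : Set ℂ, T ⊆ Sᶜ ∧ IsPreconnected T ∧ x ∈ T ∧ ∃ x' ∈ T, x' ∈ sphere p ρ := by
    intro x hx ρ hρ
    have hxp : 0 < ‖x - p‖ := by
      rw [norm_pos_iff, sub_ne_zero]
      rintro rfl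
      exact hx hp
    have hk : 1 ≤ ρ / ‖x - p‖ := by rw [le_div_iff₀ hxp, one_mul]; exact hρ
    refine ⟨segment ℝ x (p + (ρ / ‖x - p‖) • (x - p)), ?_, (convex_segment _ _).isPreconnected, left_mem_segment _ _ _, _, right_mem_segment _ _ _, ?_⟩
    · rintro w ⟨a, b, ha, hb, hab, rfl⟩
      have e : a • x + b • (p + (ρ / ‖x - p‖) • (x - p)) = p + (a + b * (ρ / ‖x - p‖)) • (x - p) := by
        have ea : a = 1 - b := by linarith
        rw [ea, smul_add, smul_smul, add_smul, sub_smul, sub_smul, one_smul, one_smul]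
        simp only [smul_sub]
        ring
      rw [e]
      refine ray x hx _ ?_
      nlinarith
    · rw [mem_sphere, dist_eq_norm, add_sub_cancel_left, norm_smul, Real.norm_eq_abs, abs_of_nonneg (by positivity), div_mul_cancel₀ _ hxp.ne']
  refine isPreconnected_of_forall_pair fun x hx y hy => ?_
  set ρ := max R (max ‖x - p‖ ‖y - p‖) with hρ
  obtain ⟨T1, a1, a2, a3, x', a4, a5⟩ := key x hx ρ ((le_max_left _ _).trans (le_max_right _ _))
  obtain ⟨T2, b1, b2, b3, y', b4, b5⟩ := key y hy ρ ((le_max_right _ _).trans (le_max_right _ _))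
  refine ⟨T1 ∪ sphere p ρ ∪ T2, union_subset (union_subset a1 (hsph ρ (le_max_left _ _))) b1, Or.inl (Or.inl a3), Or.inr b3, ?_⟩
  exact IsPreconnected.union y' (Or.inr b5) b4 (IsPreconnected.union x' a4 a5 a2 (isPreconnected_sphere hrank p ρ)) b2

/-- **(T3) A RING MINUS A STRIP**, standard position      [circle of radius `ρ` minus the strip = closed left half circle + two arcs, graphs over `im`; all the left half circles meet the segment `(-r', -r)`] -/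
theorem pvrt_ring {r r' y1 y2 : ℝ} (hr : 0 < r) (h1 : -r < y1) (h2 : y2 < r) :
    IsPreconnected {w : ℂ | r < ‖w‖ ∧ ‖w‖ < r' ∧ ¬ (0 ≤ w.re ∧ y1 ≤ w.im ∧ w.im ≤ y2)} := by
  set Z : Set ℂ := {w : ℂ | r < ‖w‖ ∧ ‖w‖ < r' ∧ ¬ (0 ≤ w.re ∧ y1 ≤ w.im ∧ w.im ≤ y2)} with hZ
  -- the two half circles as graphs over `im`
  let f : ℝ → ℝ → ℝ → ℂ := fun σ ρ t => ⟨σ * Real.sqrt (ρ ^ 2 - t ^ 2), t⟩
  have fcont : ∀ σ ρ, Continuous (f σ ρ) := by
    intro σ ρ
    have e : f σ ρ = fun t => ((σ * Real.sqrt (ρ ^ 2 - t ^ 2) : ℝ) : ℂ) + ((t : ℝ) : ℂ) * Complex.I := by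
      funext t
      apply Complex.ext <;> simp [f]
    rw [e]
    fun_prop
  have nsq : ∀ w : ℂ, ‖w‖ ^ 2 = w.re ^ 2 + w.im ^ 2 := fun w => by
    rw [Complex.sq_norm, Complex.normSq_apply]; ring
  have fnorm : ∀ σ ρ t : ℝ, σ ^ 2 = 1 → 0 ≤ ρ → t ^ 2 ≤ ρ ^ 2 → ‖f σ ρ t‖ = ρ := by
    intro σ ρ t hσ hρ ht
    have h3 : ‖f σ ρ t‖ ^ 2 = ρ ^ 2 := by
      rw [nsq]
      show (σ * Real.sqrt (ρ ^ 2 - t ^ 2)) ^ 2 + t ^ 2 = ρ ^ 2
      rw [mul_pow, hσ, Real.sq_sqrt (by linarith)]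
      ring
    exact (pow_left_inj₀ (norm_nonneg _) hρ (by norm_num)).1 h3
  -- a point is on its graph
  have fpt : ∀ (w : ℂ) (σ : ℝ), σ ^ 2 = 1 → 0 ≤ σ * w.re → f σ ‖w‖ w.im = w := by
    intro w σ hσ hs
    apply Complex.ext
    · show σ * Real.sqrt (‖w‖ ^ 2 - w.im ^ 2) = w.re
      have e : ‖w‖ ^ 2 - w.im ^ 2 = (σ * w.re) ^ 2 := by rw [nsq, mul_pow, hσ]; ring
      rw [e, Real.sqrt_sq hs, ← mul_assoc, ← pow_two, hσ, one_mul]
    · rfl
  have imle : ∀ w : ℂ, w.im ^ 2 ≤ ‖w‖ ^ 2 := fun w => by rw [nsq]; nlinarith [sq_nonneg w.re]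
  -- the left half circle
  have hH : ∀ ρ, r < ρ → ρ < r' → f (-1) ρ '' Icc (-ρ) ρ ⊆ Z := by
    rintro ρ hρ hρ' _ ⟨t, ht, rfl⟩
    have ht2 : t ^ 2 ≤ ρ ^ 2 := by nlinarith [ht.1, ht.2]
    have hn := fnorm (-1) ρ t (by norm_num) (by linarith) ht2
    refine ⟨by rw [hn]; exact hρ, by rw [hn]; exact hρ', ?_⟩
    rintro ⟨a1, a2, a3⟩
    have a1' : 0 ≤ -1 * Real.sqrt (ρ ^ 2 - t ^ 2) := a1
    have a2' : y1 ≤ t := a2
    have a3' : t ≤ y2 := a3
    have hs : Real.sqrt (ρ ^ 2 - t ^ 2) = 0 := le_antisymm (by linarith) (Real.sqrt_nonneg _)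
    have hz : ρ ^ 2 - t ^ 2 = 0 := by
      have := Real.sq_sqrt (show 0 ≤ ρ ^ 2 - t ^ 2 by linarith)
      rw [hs] at this
      nlinarith
    have : (t - ρ) * (t + ρ) = 0 := by nlinarith
    rcases mul_eq_zero.1 this with h | h
    · linarith
    · linarith
  have hHc : ∀ ρ, IsPreconnected (f (-1) ρ '' Icc (-ρ) ρ) := fun ρ => isPreconnected_Icc.image _ (fcont _ _).continuousOn
  -- every point is joined to the negative real axis
  have key : ∀ x ∈ Z, ∃ T : Set ℂ, T ⊆ Z ∧ IsPreconnected T ∧ x ∈ T ∧ ((-‖x‖ : ℝ) : ℂ) ∈ T := by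
    intro x hx
    obtain ⟨b1, b2, b3⟩ := hx
    set ρ := ‖x‖ with hρ
    have hρ0 : 0 < ρ := by linarith
    have him := imle x
    have him1 : -ρ ≤ x.im := by nlinarith [abs_le_of_sq_le_sq' him hρ0.le]
    have him2 : x.im ≤ ρ := by nlinarith [abs_le_of_sq_le_sq' him hρ0.le]
    have hneg : ((-ρ : ℝ) : ℂ) ∈ f (-1) ρ '' Icc (-ρ) ρ := by
      refine ⟨0, ⟨by linarith, by linarith⟩, ?_⟩
      apply Complex.ext
      · show -1 * Real.sqrt (ρ ^ 2 - 0 ^ 2) = _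
        rw [Complex.ofReal_re]
        have : ρ ^ 2 - 0 ^ 2 = ρ ^ 2 := by ring
        rw [this, Real.sqrt_sq hρ0.le]; ring
      · show (0 : ℝ) = _
        rw [Complex.ofReal_im]
    have etop : f 1 ρ ρ = f (-1) ρ ρ := by
      apply Complex.ext
      · show 1 * Real.sqrt (ρ ^ 2 - ρ ^ 2) = -1 * Real.sqrt (ρ ^ 2 - ρ ^ 2)
        rw [sub_self, Real.sqrt_zero]; ring
      · rfl
    have ebot : f 1 ρ (-ρ) = f (-1) ρ (-ρ) := by
      apply Complex.ext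
      · show 1 * Real.sqrt (ρ ^ 2 - (-ρ) ^ 2) = -1 * Real.sqrt (ρ ^ 2 - (-ρ) ^ 2)
        have : ρ ^ 2 - (-ρ) ^ 2 = 0 := by ring
        rw [this, Real.sqrt_zero]; ring
      · rfl
    rcases le_or_gt x.re 0 with hre | hre
    · exact ⟨_, hH ρ b1 b2, hHc ρ, ⟨x.im, ⟨him1, him2⟩, fpt x (-1) (by norm_num) (by linarith)⟩, hneg⟩
    · have hx1 : f 1 ρ x.im = x := fpt x 1 (by norm_num) (by linarith)
      have hcase : x.im < y1 ∨ y2 < x.im := by
        by_contra hc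
        rw [not_or, not_lt, not_lt] at hc
        exact b3 ⟨hre.le, hc.1, hc.2⟩
      rcases hcase with hc | hc
      · refine ⟨f 1 ρ '' Icc (-ρ) x.im ∪ f (-1) ρ '' Icc (-ρ) ρ, union_subset ?_ (hH ρ b1 b2), ?_, Or.inl ⟨x.im, ⟨him1, le_rfl⟩, hx1⟩, Or.inr hneg⟩
        · rintro _ ⟨t, ht, rfl⟩
          have ht2 : t ^ 2 ≤ ρ ^ 2 := by nlinarith [ht.1, ht.2]
          have hn := fnorm 1 ρ t (by norm_num) hρ0.le ht2
          refine ⟨by rw [hn]; exact b1, by rw [hn]; exact b2, ?_⟩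
          rintro ⟨-, a2, -⟩
          have a2' : y1 ≤ t := a2
          linarith [ht.2]
        · exact IsPreconnected.union (f 1 ρ (-ρ)) ⟨-ρ, ⟨le_rfl, him1⟩, rfl⟩ ⟨-ρ, ⟨le_rfl, by linarith⟩, ebot.symm⟩ (isPreconnected_Icc.image _ (fcont _ _).continuousOn) (hHc ρ)
      · refine ⟨f 1 ρ '' Icc x.im ρ ∪ f (-1) ρ '' Icc (-ρ) ρ, union_subset ?_ (hH ρ b1 b2), ?_, Or.inl ⟨x.im, ⟨le_rfl, him2⟩, hx1⟩, Or.inr hneg⟩
        · rintro _ ⟨t, ht, rfl⟩
          have ht2 : t ^ 2 ≤ ρ ^ 2 := by nlinarith [ht.1, ht.2]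
          have hn := fnorm 1 ρ t (by norm_num) hρ0.le ht2
          refine ⟨by rw [hn]; exact b1, by rw [hn]; exact b2, ?_⟩
          rintro ⟨-, -, a3⟩
          have a3' : t ≤ y2 := a3
          linarith [ht.1]
        · exact IsPreconnected.union (f 1 ρ ρ) ⟨ρ, ⟨him2, le_rfl⟩, rfl⟩ ⟨ρ, ⟨by linarith, le_rfl⟩, etop.symm⟩ (isPreconnected_Icc.image _ (fcont _ _).continuousOn) (hHc ρ)
  -- the segment of the negative real axis
  have hI : (fun ρ : ℝ => ((-ρ : ℝ) : ℂ)) '' Ioo r r' ⊆ Z := by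
    rintro _ ⟨ρ, hρ, rfl⟩
    have hn : ‖((-ρ : ℝ) : ℂ)‖ = ρ := by
      rw [Complex.norm_real, Real.norm_eq_abs, abs_neg, abs_of_pos (by linarith [hρ.1])]
    refine ⟨by rw [hn]; exact hρ.1, by rw [hn]; exact hρ.2, ?_⟩
    rintro ⟨a1, -, -⟩
    rw [Complex.ofReal_re] at a1
    linarith [hρ.1]
  have hIc : IsPreconnected ((fun ρ : ℝ => ((-ρ : ℝ) : ℂ)) '' Ioo r r') := isPreconnected_Ioo.image _ (by fun_prop)
  refine isPreconnected_of_forall_pair fun x hx y hy => ?_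
  obtain ⟨T1, a1, a2, a3, a4⟩ := key x hx
  obtain ⟨T2, c1, c2, c3, c4⟩ := key y hy
  refine ⟨T1 ∪ (fun ρ : ℝ => ((-ρ : ℝ) : ℂ)) '' Ioo r r' ∪ T2, union_subset (union_subset a1 hI) c1, Or.inl (Or.inl a3), Or.inr c3, ?_⟩
  exact IsPreconnected.union _ (Or.inr ⟨‖y‖, ⟨hy.1, hy.2.1⟩, rfl⟩) c4 (IsPreconnected.union _ a4 ⟨‖x‖, ⟨hx.1, hx.2.1⟩, rfl⟩ a2 hIc) c2


/-- **(T4) ATTACH A BALL** at the end of a strip -/
theorem pvrt_ball {A : Set ℂ} (hA : IsClosed A) (hAc : IsPreconnected Aᶜ) {y u : ℂ} (hu : ‖u‖ = 1) {r ε y1 y2 : ℝ} (hr : 0 < r) (hε : 0 < ε) (h1 : -r < y1) (h2 : y2 < r)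
    (hst : ∀ w : ℂ, r < ‖w‖ → ‖w‖ < r + ε → (y + u * w ∈ A ↔ 0 ≤ w.re ∧ y1 ≤ w.im ∧ w.im ≤ y2)) : IsPreconnected (A ∪ closedBall y r)ᶜ := by
  have hu0 : u ≠ 0 := by
    intro h
    rw [h, norm_zero] at hu
    exact zero_ne_one hu
  have hn : ∀ w : ℂ, ‖y + u * w - y‖ = ‖w‖ := fun w => by
    rw [add_sub_cancel_left, norm_mul, hu, one_mul]
  have hsurj : ∀ x : ℂ, ∃ w : ℂ, x = y + u * w := fun x => ⟨(x - y) / u, by field_simp; ring⟩
  refine pvrt_attach (U := ball y (r + ε)) (W := (fun w : ℂ => y + u * w) '' {w : ℂ | r < ‖w‖ ∧ ‖w‖ < r + ε ∧ ¬ (0 ≤ w.re ∧ y1 ≤ w.im ∧ w.im ≤ y2)})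
    hA isClosed_closedBall hAc isOpen_ball ?_ ((pvrt_ring hr h1 h2).image _ (by fun_prop)) ?_ ?_
  · exact closedBall_subset_ball (by linarith)
  · rintro x ⟨hx1, hx2⟩
    obtain ⟨w, rfl⟩ := hsurj x
    rw [mem_ball, dist_eq_norm, hn] at hx1
    have hx3 : r < ‖w‖ := by
      by_contra hc
      exact hx2 (Or.inr (by rw [mem_closedBall, dist_eq_norm, hn]; exact not_lt.1 hc))
    exact ⟨w, ⟨hx3, hx1, fun h => hx2 (Or.inl ((hst w hx3 hx1).2 h))⟩, rfl⟩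
  · rintro _ ⟨w, ⟨hw1, hw2, hw3⟩, rfl⟩ hx
    rcases hx with hx | hx
    · exact hw3 ((hst w hw1 hw2).1 hx)
    · rw [mem_closedBall, dist_eq_norm, hn] at hx
      linarith

/-! ## 2. the reference cell -/

/-- open rectangle -/
def pvrtB (p q r s : ℝ) : Set ℂ := {w | p < w.re ∧ w.re < q ∧ r < w.im ∧ w.im < s}

/-- the inner lane of record in the reference cell -/
def pvrtLn (τ : PvtTurn) : Set ℂ := pvfeLane (-(1 / 10)) (4 / 10) τ

/-- the incoming strip -/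
def pvrtS0 : Set ℂ := {w | w.re ≤ 0 ∧ -(1 / 10) ≤ w.im ∧ w.im ≤ 4 / 10}

/-- the `1/20`-neighbourhood (sup norm) of the lane -/
def pvrtU : PvtTurn → Set ℂ
  | PvtTurn.S => pvrtB (-(1 / 20)) (21 / 20) (-(3 / 20)) (9 / 20)
  | PvtTurn.L => pvrtB (-(1 / 20)) (13 / 20) (-(3 / 20)) (9 / 20) ∪ pvrtB (1 / 20) (13 / 20) (-(3 / 20)) (11 / 20)
  | PvtTurn.R => pvrtB (-(1 / 20)) (19 / 20) (-(3 / 20)) (9 / 20) ∪ pvrtB (7 / 20) (19 / 20) (-(11 / 20)) (9 / 20)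

/-- the neighbourhood minus the lane and the incoming strip: a chain of open rectangles -/
def pvrtW : PvtTurn → Set ℂ
  | PvtTurn.S => pvrtB (-(1 / 20)) (21 / 20) (4 / 10) (9 / 20) ∪ pvrtB 1 (21 / 20) (-(3 / 20)) (9 / 20) ∪ pvrtB (-(1 / 20)) (21 / 20) (-(3 / 20)) (-(1 / 10))
  | PvtTurn.L => pvrtB (-(1 / 20)) (1 / 10) (4 / 10) (9 / 20) ∪ pvrtB (1 / 20) (1 / 10) (4 / 10) (11 / 20) ∪ pvrtB (1 / 20) (13 / 20) (1 / 2) (11 / 20) ∪
      pvrtB (6 / 10) (13 / 20) (-(3 / 20)) (11 / 20) ∪ pvrtB (-(1 / 20)) (13 / 20) (-(3 / 20)) (-(1 / 10))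
  | PvtTurn.R => pvrtB (-(1 / 20)) (19 / 20) (4 / 10) (9 / 20) ∪ pvrtB (9 / 10) (19 / 20) (-(11 / 20)) (9 / 20) ∪ pvrtB (7 / 20) (19 / 20) (-(11 / 20)) (-(1 / 2)) ∪
      pvrtB (7 / 20) (4 / 10) (-(11 / 20)) (-(1 / 10)) ∪ pvrtB (-(1 / 20)) (4 / 10) (-(3 / 20)) (-(1 / 10))

theorem pvrt_B_open (p q r s : ℝ) : IsOpen (pvrtB p q r s) := by
  have e : pvrtB p q r s = (Complex.re ⁻¹' Set.Ioo p q) ∩ (Complex.im ⁻¹' Set.Ioo r s) := by
    ext w
    simp only [pvrtB, Set.mem_setOf_eq, Set.mem_inter_iff, Set.mem_preimage, Set.mem_Ioo]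
    tauto
  rw [e]
  exact (isOpen_Ioo.preimage Complex.continuous_re).inter (isOpen_Ioo.preimage Complex.continuous_im)

theorem pvrt_B_convex (p q r s : ℝ) : Convex ℝ (pvrtB p q r s) := by
  have e : pvrtB p q r s = (Complex.reLm ⁻¹' Set.Ioo p q) ∩ (Complex.imLm ⁻¹' Set.Ioo r s) := by
    ext w
    simp only [pvrtB, Set.mem_setOf_eq, Set.mem_inter_iff, Set.mem_preimage, Set.mem_Ioo, Complex.reLm_coe, Complex.imLm_coe]
    tauto
  rw [e]
  exact ((convex_Ioo p q).linear_preimage _).inter ((convex_Ioo r s).linear_preimage _)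

theorem pvrt_U_open (τ : PvtTurn) : IsOpen (pvrtU τ) := by
  cases τ
  · exact pvrt_B_open _ _ _ _
  · exact (pvrt_B_open _ _ _ _).union (pvrt_B_open _ _ _ _)
  · exact (pvrt_B_open _ _ _ _).union (pvrt_B_open _ _ _ _)

theorem pvrt_ln_sub_U (τ : PvtTurn) : pvrtLn τ ⊆ pvrtU τ := by
  intro w hw
  cases τ <;> simp only [pvrtLn, pvfeLane, pvrtU, pvrtB, mem_setOf_eq, mem_union] at hw ⊢ <;>
    generalize w.re = x at hw ⊢ <;> generalize w.im = y at hw ⊢ <;> grind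

theorem pvrt_W_conn (τ : PvtTurn) : IsPreconnected (pvrtW τ) := by
  have hc : ∀ p q r s : ℝ, IsPreconnected (pvrtB p q r s) := fun p q r s => (pvrt_B_convex p q r s).isPreconnected
  have hm : ∀ (p q r s x y : ℝ), p < x → x < q → r < y → y < s → (⟨x, y⟩ : ℂ) ∈ pvrtB p q r s := fun p q r s x y h1 h2 h3 h4 => ⟨h1, h2, h3, h4⟩
  cases τ
  · refine ((hc _ _ _ _).union (⟨41 / 40, 17 / 40⟩ : ℂ) (hm _ _ _ _ _ _ ?_ ?_ ?_ ?_) (hm _ _ _ _ _ _ ?_ ?_ ?_ ?_) (hc _ _ _ _)).union (⟨41 / 40, -(1 / 8)⟩ : ℂ) (Or.inr (hm _ _ _ _ _ _ ?_ ?_ ?_ ?_)) (hm _ _ _ _ _ _ ?_ ?_ ?_ ?_) (hc _ _ _ _) <;> norm_num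
  · refine ((((hc _ _ _ _).union (⟨3 / 40, 17 / 40⟩ : ℂ) (hm _ _ _ _ _ _ ?_ ?_ ?_ ?_) (hm _ _ _ _ _ _ ?_ ?_ ?_ ?_) (hc _ _ _ _)).union (⟨3 / 40, 21 / 40⟩ : ℂ) (Or.inr (hm _ _ _ _ _ _ ?_ ?_ ?_ ?_)) (hm _ _ _ _ _ _ ?_ ?_ ?_ ?_) (hc _ _ _ _)).union
      (⟨25 / 40, 21 / 40⟩ : ℂ) (Or.inr (hm _ _ _ _ _ _ ?_ ?_ ?_ ?_)) (hm _ _ _ _ _ _ ?_ ?_ ?_ ?_) (hc _ _ _ _)).union (⟨25 / 40, -(1 / 8)⟩ : ℂ) (Or.inr (hm _ _ _ _ _ _ ?_ ?_ ?_ ?_)) (hm _ _ _ _ _ _ ?_ ?_ ?_ ?_) (hc _ _ _ _) <;> norm_num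
  · refine ((((hc _ _ _ _).union (⟨37 / 40, 17 / 40⟩ : ℂ) (hm _ _ _ _ _ _ ?_ ?_ ?_ ?_) (hm _ _ _ _ _ _ ?_ ?_ ?_ ?_) (hc _ _ _ _)).union (⟨37 / 40, -(21 / 40)⟩ : ℂ) (Or.inr (hm _ _ _ _ _ _ ?_ ?_ ?_ ?_)) (hm _ _ _ _ _ _ ?_ ?_ ?_ ?_) (hc _ _ _ _)).union
      (⟨15 / 40, -(21 / 40)⟩ : ℂ) (Or.inr (hm _ _ _ _ _ _ ?_ ?_ ?_ ?_)) (hm _ _ _ _ _ _ ?_ ?_ ?_ ?_) (hc _ _ _ _)).union (⟨15 / 40, -(1 / 8)⟩ : ℂ) (Or.inr (hm _ _ _ _ _ _ ?_ ?_ ?_ ?_)) (hm _ _ _ _ _ _ ?_ ?_ ?_ ?_) (hc _ _ _ _) <;> norm_num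

theorem pvrt_W_cover (τ : PvtTurn) : pvrtU τ \ (pvrtS0 ∪ pvrtLn τ) ⊆ pvrtW τ := by
  intro w hw
  cases τ <;> simp only [pvrtLn, pvfeLane, pvrtU, pvrtW, pvrtS0, pvrtB, mem_setOf_eq, mem_union, mem_diff] at hw ⊢ <;>
    generalize w.re = x at hw ⊢ <;> generalize w.im = y at hw ⊢ <;> grind

theorem pvrt_W_sub (τ : PvtTurn) : pvrtW τ ⊆ pvrtU τ := by
  intro w hw
  cases τ <;> simp only [pvrtU, pvrtW, pvrtB, mem_setOf_eq, mem_union] at hw ⊢ <;>
    generalize w.re = x at hw ⊢ <;> generalize w.im = y at hw ⊢ <;> grind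

theorem pvrt_W_off (τ : PvtTurn) : Disjoint (pvrtW τ) (pvrtS0 ∪ pvrtLn τ) := by
  rw [Set.disjoint_left]
  intro w hw hw2
  cases τ <;> simp only [pvrtLn, pvfeLane, pvrtW, pvrtS0, pvrtB, mem_setOf_eq, mem_union] at hw hw2 <;>
    generalize w.re = x at hw hw2 <;> generalize w.im = y at hw hw2 <;> grind

theorem pvrt_U_left (τ : PvtTurn) {w : ℂ} (hw : w ∈ pvrtU τ) (h0 : w.re ≤ 0) : -(1 / 20) < w.re ∧ -(3 / 20) < w.im ∧ w.im < 9 / 20 := by
  cases τ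
  · obtain ⟨h1, h2, h3, h4⟩ := hw
    exact ⟨h1, h3, h4⟩
  · rcases hw with ⟨h1, h2, h3, h4⟩ | ⟨h1, h2, h3, h4⟩
    · exact ⟨h1, h3, h4⟩
    · exfalso; linarith
  · rcases hw with ⟨h1, h2, h3, h4⟩ | ⟨h1, h2, h3, h4⟩
    · exact ⟨h1, h3, h4⟩
    · exfalso; linarith

theorem pvrt_U_cell (τ : PvtTurn) {w : ℂ} (hw : w ∈ pvrtU τ) : pvccN (w - 1 / 2) < 1 / 2 + 1 / 20 := by
  have e1 : (w - 1 / 2).re = w.re - 1 / 2 := by simp
  have e2 : (w - 1 / 2).im = w.im := by simp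
  unfold pvccN
  rw [e1, e2, max_lt_iff, abs_lt, abs_lt]
  cases τ
  · obtain ⟨h1, h2, h3, h4⟩ := hw
    refine ⟨⟨?_, ?_⟩, ?_, ?_⟩ <;> linarith
  · rcases hw with ⟨h1, h2, h3, h4⟩ | ⟨h1, h2, h3, h4⟩ <;> refine ⟨⟨?_, ?_⟩, ?_, ?_⟩ <;> linarith
  · rcases hw with ⟨h1, h2, h3, h4⟩ | ⟨h1, h2, h3, h4⟩ <;> refine ⟨⟨?_, ?_⟩, ?_, ?_⟩ <;> linarith

/-- near its exit door the lane is the strip -/
theorem pvrt_exit (τ : PvtTurn) {w : ℂ} (h : τ.mid + τ.rot * w ∈ pvrtLn τ) (h0 : -(1 / 20) < w.re) : w ∈ pvrtS0 := by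
  cases τ
  · have e1 : (PvtTurn.S.mid + PvtTurn.S.rot * w).re = 1 + w.re := by simp [PvtTurn.mid, PvtTurn.rot]
    have e2 : (PvtTurn.S.mid + PvtTurn.S.rot * w).im = w.im := by simp [PvtTurn.mid, PvtTurn.rot]
    obtain ⟨h1, h2, h3, h4⟩ := h
    rw [e1] at h1 h2
    rw [e2] at h3 h4
    exact ⟨by linarith, h3, h4⟩
  · have e1 : (PvtTurn.L.mid + PvtTurn.L.rot * w).re = 1 / 2 - w.im := by simp [PvtTurn.mid, PvtTurn.rot]; ring
    have e2 : (PvtTurn.L.mid + PvtTurn.L.rot * w).im = 1 / 2 + w.re := by simp [PvtTurn.mid, PvtTurn.rot]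
    rcases h with ⟨h1, h2, h3, h4⟩ | ⟨h1, h2, h3, h4⟩
    · rw [e2] at h4
      exfalso; linarith
    · rw [e1] at h1 h2
      rw [e2] at h3 h4
      exact ⟨by linarith, by linarith, by linarith⟩
  · have e1 : (PvtTurn.R.mid + PvtTurn.R.rot * w).re = 1 / 2 + w.im := by simp [PvtTurn.mid, PvtTurn.rot]
    have e2 : (PvtTurn.R.mid + PvtTurn.R.rot * w).im = -(1 / 2) - w.re := by simp [PvtTurn.mid, PvtTurn.rot]; ring
    rcases h with ⟨h1, h2, h3, h4⟩ | ⟨h1, h2, h3, h4⟩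
    · rw [e2] at h3
      exfalso; linarith
    · rw [e1] at h1 h2
      rw [e2] at h3 h4
      exact ⟨by linarith, by linarith, by linarith⟩

theorem pvrt_exit' (τ : PvtTurn) {w : ℂ} (h : w ∈ pvrtS0) (h0 : -(1 / 20) < w.re) : τ.mid + τ.rot * w ∈ pvrtLn τ := by
  obtain ⟨k1, k2, k3⟩ := h
  cases τ
  · have e1 : (PvtTurn.S.mid + PvtTurn.S.rot * w).re = 1 + w.re := by simp [PvtTurn.mid, PvtTurn.rot]
    have e2 : (PvtTurn.S.mid + PvtTurn.S.rot * w).im = w.im := by simp [PvtTurn.mid, PvtTurn.rot]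
    show 0 ≤ _ ∧ _ ≤ 1 ∧ _ ≤ _ ∧ _ ≤ _
    rw [e1, e2]
    exact ⟨by linarith, by linarith, k2, k3⟩
  · have e1 : (PvtTurn.L.mid + PvtTurn.L.rot * w).re = 1 / 2 - w.im := by simp [PvtTurn.mid, PvtTurn.rot]; ring
    have e2 : (PvtTurn.L.mid + PvtTurn.L.rot * w).im = 1 / 2 + w.re := by simp [PvtTurn.mid, PvtTurn.rot]
    refine Or.inr ?_
    rw [e1, e2]
    exact ⟨by linarith, by linarith, by linarith, by linarith⟩
  · have e1 : (PvtTurn.R.mid + PvtTurn.R.rot * w).re = 1 / 2 + w.im := by simp [PvtTurn.mid, PvtTurn.rot]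
    have e2 : (PvtTurn.R.mid + PvtTurn.R.rot * w).im = -(1 / 2) - w.re := by simp [PvtTurn.mid, PvtTurn.rot]; ring
    refine Or.inr ?_
    rw [e1, e2]
    exact ⟨by linarith, by linarith, by linarith, by linarith⟩

theorem pvrt_cvx_aux {a b p t L U : ℝ} (ha : 0 ≤ a) (hb : 0 ≤ b) (hab : a + b = 1) (h1 : L ≤ p) (h2 : p ≤ U) (h3 : L ≤ t) (h4 : t ≤ U) : L ≤ a * p + b * t ∧ a * p + b * t ≤ U := by
  have k1 := mul_le_mul_of_nonneg_left h1 ha
  have k2 := mul_le_mul_of_nonneg_left h2 ha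
  have k3 := mul_le_mul_of_nonneg_left h3 hb
  have k4 := mul_le_mul_of_nonneg_left h4 hb
  have eL : a * L + b * L = L := by rw [← add_mul, hab, one_mul]
  have eU : a * U + b * U = U := by rw [← add_mul, hab, one_mul]
  constructor <;> linarith

theorem pvrt_ln_cell (τ : PvtTurn) {w : ℂ} (hw : w ∈ pvrtLn τ) : pvccN (w - 1 / 2) ≤ 1 / 2 := by
  have e1 : (w - 1 / 2).re = w.re - 1 / 2 := by simp
  have e2 : (w - 1 / 2).im = w.im := by simp
  unfold pvccN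
  rw [e1, e2, max_le_iff, abs_le, abs_le]
  cases τ
  · obtain ⟨h1, h2, h3, h4⟩ := hw
    refine ⟨⟨?_, ?_⟩, ?_, ?_⟩ <;> linarith
  · rcases hw with ⟨h1, h2, h3, h4⟩ | ⟨h1, h2, h3, h4⟩ <;> refine ⟨⟨?_, ?_⟩, ?_, ?_⟩ <;> linarith
  · rcases hw with ⟨h1, h2, h3, h4⟩ | ⟨h1, h2, h3, h4⟩ <;> refine ⟨⟨?_, ?_⟩, ?_, ?_⟩ <;> linarith

theorem pvrt_ln_star (τ : PvtTurn) : StarConvex ℝ ((1 / 2 : ℂ) + (1 / 5 : ℂ) * Complex.I) (pvrtLn τ) := by
  intro y hy a b ha hb hab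
  have e1 : (a • ((1 / 2 : ℂ) + (1 / 5 : ℂ) * Complex.I) + b • y).re = a * (1 / 2) + b * y.re := by simp
  have e2 : (a • ((1 / 2 : ℂ) + (1 / 5 : ℂ) * Complex.I) + b • y).im = a * (1 / 5) + b * y.im := by simp
  cases τ
  · obtain ⟨h1, h2, h3, h4⟩ := hy
    show _ ∧ _ ∧ _ ∧ _
    rw [e1, e2]
    obtain ⟨k1, k2⟩ := pvrt_cvx_aux ha hb hab (p := 1 / 2) (by norm_num) (by norm_num) h1 h2
    obtain ⟨k3, k4⟩ := pvrt_cvx_aux ha hb hab (p := 1 / 5) (by norm_num) (by norm_num) h3 h4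
    exact ⟨k1, k2, k3, k4⟩
  · rcases hy with ⟨h1, h2, h3, h4⟩ | ⟨h1, h2, h3, h4⟩
    · left
      rw [e1, e2]
      obtain ⟨k1, k2⟩ := pvrt_cvx_aux ha hb hab (p := 1 / 2) (by norm_num) (by norm_num) h1 h2
      obtain ⟨k3, k4⟩ := pvrt_cvx_aux ha hb hab (p := 1 / 5) (by norm_num) (by norm_num) h3 h4
      exact ⟨k1, k2, k3, k4⟩
    · right
      rw [e1, e2]
      obtain ⟨k1, k2⟩ := pvrt_cvx_aux ha hb hab (p := 1 / 2) (by norm_num) (by norm_num) h1 h2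
      obtain ⟨k3, k4⟩ := pvrt_cvx_aux ha hb hab (p := 1 / 5) (by norm_num) (by norm_num) h3 h4
      exact ⟨k1, k2, k3, k4⟩
  · rcases hy with ⟨h1, h2, h3, h4⟩ | ⟨h1, h2, h3, h4⟩
    · left
      rw [e1, e2]
      obtain ⟨k1, k2⟩ := pvrt_cvx_aux ha hb hab (p := 1 / 2) (by norm_num) (by norm_num) h1 h2
      obtain ⟨k3, k4⟩ := pvrt_cvx_aux ha hb hab (p := 1 / 5) (by norm_num) (by norm_num) h3 h4
      exact ⟨k1, k2, k3, k4⟩
    · right
      rw [e1, e2]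
      obtain ⟨k1, k2⟩ := pvrt_cvx_aux ha hb hab (p := 1 / 2) (by norm_num) (by norm_num) h1 h2
      obtain ⟨k3, k4⟩ := pvrt_cvx_aux ha hb hab (p := 1 / 5) (by norm_num) (by norm_num) h3 h4
      exact ⟨k1, k2, k3, k4⟩

theorem pvrt_ln_closed (τ : PvtTurn) : IsClosed (pvrtLn τ) := pvfe_lane_closed _ _ τ

/-! ## 3. the snake, unit coordinates -/

/-- the lane in the cell `j` -/
def pvrtL (l : List PvtTurn) (j : ℕ) : Set ℂ := pvccK pvrtLn 0 1 l j

/-- the lanes of the cells `< n` -/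
def pvrtA (l : List PvtTurn) (n : ℕ) : Set ℂ := ⋃ j ∈ Finset.range n, pvrtL l j

theorem pvrt_D4 (l : List PvtTurn) (j : ℕ) : pvccD 1 l j ^ 4 = 1 := pvccD_pow_four (by norm_num) l j

theorem pvrt_D_ne (l : List PvtTurn) (j : ℕ) : pvccD 1 l j ≠ 0 := by
  intro h
  have := pvrt_D4 l j
  rw [h] at this
  norm_num at this

theorem pvrt_L_closed (l : List PvtTurn) (j : ℕ) : IsClosed (pvrtL l j) := by
  unfold pvrtL pvccK
  rw [pvccPl_eq_preimage _ (pvrt_D_ne l j)]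
  exact (pvrt_ln_closed _).preimage (by fun_prop)

theorem pvrt_A_closed (l : List PvtTurn) (n : ℕ) : IsClosed (pvrtA l n) :=
  isClosed_biUnion_finset fun j _ => pvrt_L_closed l j

theorem pvrt_A_succ (l : List PvtTurn) (n : ℕ) : pvrtA l (n + 1) = pvrtA l n ∪ pvrtL l n := by
  unfold pvrtA
  rw [Finset.range_add_one, Finset.set_biUnion_insert, union_comm]

/-- a lane lies in its closed cell -/
theorem pvrt_L_cell (l : List PvtTurn) (j : ℕ) {x : ℂ} (hx : x ∈ pvrtL l j) : pvccN (x - pvccC 0 1 l j) ≤ 1 / 2 := by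
  obtain ⟨w, hw, rfl⟩ := hx
  have e : pvccZ 0 1 l j + pvccD 1 l j * w - pvccC 0 1 l j = pvccD 1 l j * (w - 1 / 2) := by
    unfold pvccC
    ring
  simp only [e, pvccN_unit_mul (pvrt_D4 l j)]
  exact pvrt_ln_cell _ hw

/-- **the step of the induction** -/
theorem pvrt_snake_step {l : List PvtTurn} (hnr : PvfeNR l) {j : ℕ} (hj : j + 1 < l.length) (h : IsPreconnected (pvrtA l (j + 1))ᶜ) : IsPreconnected (pvrtA l (j + 2))ᶜ := by
  rw [pvrt_A_succ]
  have hjl : j < l.length := by omega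
  set Z := pvccZ 0 1 l (j + 1) with hZ
  set D := pvccD 1 l (j + 1) with hD
  set τ := pvccT l (j + 1) with hτ
  have hD0 : D ≠ 0 := pvrt_D_ne l _
  have hD4 : D ^ 4 = 1 := pvrt_D4 l _
  have hinj := pvcc_pl_injective Z hD0
  -- the frame of the previous cell
  have eprev : ∀ w : ℂ, Z + D * w = pvccZ 0 1 l j + pvccD 1 l j * ((pvccT l j).mid + (pvccT l j).rot * w) := by
    intro w
    rw [hZ, hD, pvccZ_succ 0 1 l hjl, pvccD_succ 1 l hjl]
    ring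
  refine pvrt_attach (U := pvccPl Z D (pvrtU τ)) (W := pvccPl Z D (pvrtW τ)) (pvrt_A_closed l _) (pvrt_L_closed l _) h ?_ ?_ ?_ ?_ ?_
  · rw [pvccPl_eq_preimage _ hD0]
    exact (pvrt_U_open τ).preimage (by fun_prop)
  · exact pvccPl_mono _ _ (pvrt_ln_sub_U τ)
  · exact (pvrt_W_conn τ).image _ (by fun_prop)
  · rintro _ ⟨⟨w, hw, rfl⟩, hx⟩
    refine ⟨w, pvrt_W_cover τ ⟨hw, ?_⟩, rfl⟩
    rintro (hS | hL)
    · refine hx (Or.inl ?_)
      have h1 := (pvrt_U_left τ hw hS.1).1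
      refine mem_iUnion₂.2 ⟨j, Finset.mem_range.2 (by omega), ?_⟩
      exact ⟨_, pvrt_exit' (pvccT l j) hS h1, (eprev w).symm⟩
    · exact hx (Or.inr ⟨w, hL, rfl⟩)
  · rintro _ ⟨w, hw, rfl⟩ hx
    have hwU := pvrt_W_sub τ hw
    have hoff := Set.disjoint_left.1 (pvrt_W_off τ) hw
    rcases hx with hx | hx
    · obtain ⟨k, hk, hxk⟩ := mem_iUnion₂.1 hx
      rw [Finset.mem_range] at hk
      have hcell := pvrt_L_cell l k hxk
      have hUc : pvccN (Z + D * w - pvccC 0 1 l (j + 1)) < 1 / 2 + 1 / 20 := by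
        have e : Z + D * w - pvccC 0 1 l (j + 1) = D * (w - 1 / 2) := by
          unfold pvccC
          ring
        rw [e, pvccN_unit_mul hD4]
        exact pvrt_U_cell τ hwU
      have hclose : pvccN (pvccC 0 1 l k - pvccC 0 1 l (j + 1)) < 2 := by
        have e : pvccC 0 1 l k - pvccC 0 1 l (j + 1) = -(Z + D * w - pvccC 0 1 l k) + (Z + D * w - pvccC 0 1 l (j + 1)) := by ring
        rw [e]
        have := pvccN_add_le (-(Z + D * w - pvccC 0 1 l k)) (Z + D * w - pvccC 0 1 l (j + 1))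
        rw [pvccN_neg] at this
        linarith
      have hk3 : j ≤ k + 1 := by
        by_contra hc
        have := hnr k (j + 1) (by omega) (by omega)
        linarith
      rcases (show k = j ∨ k + 1 = j by omega) with rfl | hk1
      · -- the previous cell
        obtain ⟨v, hv, hvx⟩ := hxk
        have hvx' : pvccZ 0 1 l k + pvccD 1 l k * v = Z + D * w := hvx
        rw [eprev w] at hvx'
        have := pvcc_pl_injective (pvccZ 0 1 l k) (pvrt_D_ne l k) hvx'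
        rw [this] at hv
        have h1 : -(1 / 20) < w.re := by
          by_cases h0 : w.re ≤ 0
          · exact (pvrt_U_left τ hwU h0).1
          · linarith
        exact hoff (Or.inl (pvrt_exit _ hv h1))
      · -- the cell before
        subst hk1
        have e2 : pvccC 0 1 l k = pvccZ 0 1 l (k + 1) - pvccD 1 l (k + 1) / 2 := (pvccC_prev 0 1 l (by omega)).symm
        have e4 : D = pvccD 1 l (k + 1) * (pvccT l (k + 1)).rot := pvccD_succ 1 l hjl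
        have e5 : Z = pvccZ 0 1 l (k + 1) + pvccD 1 l (k + 1) * (pvccT l (k + 1)).mid := pvccZ_succ 0 1 l hjl
        have e6 : Z + D * w - pvccC 0 1 l k = pvccD 1 l (k + 1) * ((pvccT l (k + 1)).mid + (pvccT l (k + 1)).rot * w + 1 / 2) := by
          rw [e2, e4, e5]
          ring
        rw [e6, pvccN_unit_mul (pvrt_D4 l _)] at hcell
        have hre := (le_max_left _ _).trans hcell
        have him := (le_max_right _ _).trans hcell
        rw [abs_le] at hre him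
        generalize pvccT l (k + 1) = σ at hre him
        have hle : w.re ≤ 0 := by
          cases σ <;> simp [PvtTurn.mid, PvtTurn.rot] at hre him <;> linarith [hre.1, hre.2, him.1, him.2]
        have hU := pvrt_U_left τ hwU hle
        cases σ <;> simp [PvtTurn.mid, PvtTurn.rot] at hre him <;> linarith [hre.1, hre.2, him.1, him.2, hU.1, hU.2.1, hU.2.2]
    · obtain ⟨v, hv, hvx⟩ := hx
      have := hinj hvx
      rw [this] at hv
      exact hoff (Or.inr hv)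


/-- the first lane -/
theorem pvrt_L_zero (l : List PvtTurn) : pvrtL l 0 = pvrtLn (pvccT l 0) := by
  simp [pvrtL, pvccK, pvccPl]

theorem pvrt_ln_bdd (τ : PvtTurn) : Bornology.IsBounded (pvrtLn τ) := by
  refine (isBounded_closedBall (x := (0 : ℂ)) (r := 2)).subset ?_
  intro w hw
  rw [mem_closedBall, dist_zero_right]
  have h := Complex.norm_le_abs_re_add_abs_im w
  have h1 : |w.re| ≤ 1 ∧ |w.im| ≤ 1 := by
    rw [abs_le, abs_le]
    cases τ
    · obtain ⟨a1, a2, a3, a4⟩ := hw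
      constructor <;> constructor <;> linarith
    · rcases hw with ⟨a1, a2, a3, a4⟩ | ⟨a1, a2, a3, a4⟩ <;> constructor <;> constructor <;> linarith
    · rcases hw with ⟨a1, a2, a3, a4⟩ | ⟨a1, a2, a3, a4⟩ <;> constructor <;> constructor <;> linarith
  linarith [h1.1, h1.2]

/-- **THE SNAKE**: the complement of the lanes of the first `n + 1` cells is preconnected (no near return; no other hypothesis) -/
theorem pvrt_snake {l : List PvtTurn} (hnr : PvfeNR l) : ∀ n, n < l.length → IsPreconnected (pvrtA l (n + 1))ᶜ := by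
  intro n
  induction n with
  | zero =>
    intro _
    have : pvrtA l (0 + 1) = pvrtLn (pvccT l 0) := by
      rw [pvrt_A_succ, ← pvrt_L_zero]
      simp [pvrtA]
    rw [this]
    exact pvrt_star (pvrt_ln_star _) (pvrt_ln_bdd _)
  | succ n ih =>
    intro hn
    exact pvrt_snake_step hnr hn (ih (by omega))

/-! ## 4. straight runs, the two ends -/

/-- closed rectangle `[0,n] × [a,b]` -/
def pvrtR (a b : ℝ) (n : ℕ) : Set ℂ := {v | 0 ≤ v.re ∧ v.re ≤ n ∧ a ≤ v.im ∧ v.im ≤ b}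

/-- doors and frames along a straight run -/
theorem pvrt_run {l : List PvtTurn} {i n : ℕ} (hin : i + n ≤ l.length) (hS : ∀ k, i ≤ k → k < i + n → pvccT l k = PvtTurn.S) :
    ∀ k, k ≤ n → pvccZ 0 1 l (i + k) = pvccZ 0 1 l i + pvccD 1 l i * k ∧ pvccD 1 l (i + k) = pvccD 1 l i := by
  intro k
  induction k with
  | zero => intro _; simp
  | succ k ih =>
    intro hk
    obtain ⟨e1, e2⟩ := ih (by omega)
    have hlt : i + k < l.length := by omega
    have hT := hS (i + k) (by omega) (by omega)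
    rw [← add_assoc, pvccZ_succ 0 1 l hlt, pvccD_succ 1 l hlt, hT, e1, e2]
    simp only [PvtTurn.mid, PvtTurn.rot, mul_one]
    refine ⟨?_, trivial⟩
    push_cast
    ring

/-- the lanes of a straight run = a rectangle in the frame of its first door -/
theorem pvrt_run_union {l : List PvtTurn} {i n : ℕ} (hin : i + n ≤ l.length) (hS : ∀ k, i ≤ k → k < i + n → pvccT l k = PvtTurn.S) (hn : 1 ≤ n) :
    ⋃ k ∈ Finset.range n, pvrtL l (i + k) = pvccPl (pvccZ 0 1 l i) (pvccD 1 l i) (pvrtR (-(1 / 10)) (4 / 10) n) := by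
  have hrun := pvrt_run hin hS
  ext x
  constructor
  · intro hx
    obtain ⟨k, hk, hxk⟩ := mem_iUnion₂.1 hx
    rw [Finset.mem_range] at hk
    obtain ⟨w, hw, rfl⟩ := hxk
    rw [hS (i + k) (by omega) (by omega)] at hw
    obtain ⟨a1, a2, a3, a4⟩ := hw
    obtain ⟨e1, e2⟩ := hrun k hk.le
    have hkn : (k : ℝ) + 1 ≤ n := by exact_mod_cast hk
    refine ⟨(k : ℂ) + w, ⟨?_, ?_, ?_, ?_⟩, ?_⟩
    · simp; positivity
    · simp; linarith
    · simpa using a3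
    · simpa using a4
    · show pvccZ 0 1 l i + pvccD 1 l i * ((k : ℂ) + w) = pvccZ 0 1 l (i + k) + pvccD 1 l (i + k) * w
      rw [e1, e2]
      ring
  · rintro ⟨v, ⟨a1, a2, a3, a4⟩, rfl⟩
    set k := min ⌊v.re⌋₊ (n - 1) with hk
    have hkn : k < n := by omega
    have hk1 : (k : ℝ) ≤ v.re := le_trans (by exact_mod_cast min_le_left _ _) (Nat.floor_le a1)
    have hk2 : v.re ≤ k + 1 := by
      rcases le_total ⌊v.re⌋₊ (n - 1) with h | h
      · rw [hk, min_eq_left h]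
        exact (Nat.lt_floor_add_one _).le
      · rw [hk, min_eq_right h]
        have : ((n - 1 : ℕ) : ℝ) + 1 = n := by
          have : n - 1 + 1 = n := by omega
          exact_mod_cast this
        rw [this]
        exact a2
    obtain ⟨e1, e2⟩ := hrun k hkn.le
    refine mem_iUnion₂.2 ⟨k, Finset.mem_range.2 hkn, v - k, ?_, ?_⟩
    · rw [hS (i + k) (by omega) (by omega)]
      refine ⟨?_, ?_, ?_, ?_⟩
      · simp; linarith
      · simp; linarith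
      · simpa using a3
      · simpa using a4
    · show pvccZ 0 1 l (i + k) + pvccD 1 l (i + k) * (v - k) = pvccZ 0 1 l i + pvccD 1 l i * v
      rw [e1, e2]
      ring

/-- the same rectangle in the frame of its LAST door, turned back -/
theorem pvrt_run_back (Z D : ℂ) (a b : ℝ) (n : ℕ) : pvccPl Z D (pvrtR a b n) = pvccPl (Z + D * n) (-D) (pvrtR (-b) (-a) n) := by
  ext x
  constructor
  · rintro ⟨v, ⟨a1, a2, a3, a4⟩, rfl⟩
    refine ⟨(n : ℂ) - v, ⟨?_, ?_, ?_, ?_⟩, ?_⟩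
    · simp; linarith
    · simp; linarith
    · simp; linarith
    · simp; linarith
    · show Z + D * n + -D * ((n : ℂ) - v) = Z + D * v
      ring
  · rintro ⟨v, ⟨a1, a2, a3, a4⟩, rfl⟩
    refine ⟨(n : ℂ) - v, ⟨?_, ?_, ?_, ?_⟩, ?_⟩
    · simp; linarith
    · simp; linarith
    · simp; linarith
    · simp; linarith
    · show Z + D * ((n : ℂ) - v) = Z + D * n + -D * v
      ring

/-- near a point which is far from the other cells, the snake is the run -/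
theorem pvrt_near {l : List PvtTurn} {y : ℂ} {ρ : ℝ} {i n : ℕ} (hin : i + n ≤ l.length) (far : ∀ k, k < l.length → ¬ (i ≤ k ∧ k < i + n) → ρ + 1 ≤ ‖pvccC 0 1 l k - y‖)
    {x : ℂ} (hx : ‖x - y‖ < ρ) : x ∈ pvrtA l l.length ↔ x ∈ ⋃ k ∈ Finset.range n, pvrtL l (i + k) := by
  constructor
  · intro h
    obtain ⟨j, hj, hxj⟩ := mem_iUnion₂.1 h
    rw [Finset.mem_range] at hj
    by_cases hc : i ≤ j ∧ j < i + n
    · refine mem_iUnion₂.2 ⟨j - i, Finset.mem_range.2 (by omega), ?_⟩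
      have : i + (j - i) = j := by omega
      rw [this]
      exact hxj
    · exfalso
      have h1 := far j hj hc
      have h2 := pvrt_L_cell l j hxj
      have h3 := Complex.norm_le_abs_re_add_abs_im (x - pvccC 0 1 l j)
      have h4 : |(x - pvccC 0 1 l j).re| ≤ 1 / 2 := (le_max_left _ _).trans h2
      have h5 : |(x - pvccC 0 1 l j).im| ≤ 1 / 2 := (le_max_right _ _).trans h2
      have h6 : ‖pvccC 0 1 l j - y‖ ≤ ‖x - pvccC 0 1 l j‖ + ‖x - y‖ := by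
        have e : pvccC 0 1 l j - y = -(x - pvccC 0 1 l j) + (x - y) := by ring
        rw [e]
        refine (norm_add_le _ _).trans ?_
        rw [norm_neg]
      linarith
  · intro h
    obtain ⟨k, hk, hxk⟩ := mem_iUnion₂.1 h
    rw [Finset.mem_range] at hk
    exact mem_iUnion₂.2 ⟨i + k, Finset.mem_range.2 (by omega), hxk⟩

/-- **the ring round the end of a rectangle**, frame of the door -/
theorem pvrt_end {a b r ε : ℝ} {n : ℕ} {y : ℂ} (ha : -(1 / 2) ≤ a) (hb : b ≤ 1 / 2) (hy1 : y.re ≤ 0) (hy2 : ‖y‖ + 1 / 2 < r)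
    (hfar : r + ε + 1 ≤ ‖((n : ℂ) + 1 / 2) - y‖) {w : ℂ} (h1 : r < ‖w‖) (h2 : ‖w‖ < r + ε) :
    y + w ∈ pvrtR a b n ↔ 0 ≤ w.re ∧ a - y.im ≤ w.im ∧ w.im ≤ b - y.im := by
  have hsq : ∀ z : ℂ, ‖z‖ ^ 2 = z.re ^ 2 + z.im ^ 2 := fun z => by
    rw [Complex.sq_norm, Complex.normSq_apply]; ring
  constructor
  · rintro ⟨a1, a2, a3, a4⟩
    rw [Complex.add_re] at a1 a2
    rw [Complex.add_im] at a3 a4
    exact ⟨by linarith, by linarith, by linarith⟩
  · rintro ⟨b1, b2, b3⟩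
    refine ⟨?_, ?_, by rw [Complex.add_im]; linarith, by rw [Complex.add_im]; linarith⟩
    · rw [Complex.add_re]
      by_contra hc
      have hc' : w.re < -y.re := by linarith
      have k1 : w.re ^ 2 ≤ y.re ^ 2 := by nlinarith
      have k2 : |w.im| ≤ |y.im| + 1 / 2 := by
        rw [abs_le]
        have := le_abs_self y.im
        have := neg_abs_le y.im
        constructor <;> linarith
      have k3 : w.im ^ 2 ≤ (|y.im| + 1 / 2) ^ 2 := by
        rw [← sq_abs w.im]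
        exact pow_le_pow_left₀ (abs_nonneg _) k2 2
      have k4 : |y.im| ≤ ‖y‖ := Complex.abs_im_le_norm y
      have k5 : |y.im| ^ 2 = y.im ^ 2 := sq_abs _
      have k6 : ‖w‖ ^ 2 ≤ (‖y‖ + 1 / 2) ^ 2 := by
        rw [hsq w]
        have := hsq y
        nlinarith
      have k7 : ‖w‖ ≤ ‖y‖ + 1 / 2 := (pow_le_pow_iff_left₀ (norm_nonneg _) (by positivity) (by norm_num)).1 k6
      linarith
    · rw [Complex.add_re]
      by_contra hc
      have hc' : (n : ℝ) < y.re + w.re := not_le.1 hc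
      have hn0 : (0 : ℝ) ≤ n := Nat.cast_nonneg n
      -- the projection on the line `re = n`
      set v' : ℂ := ⟨(n : ℝ), y.im + w.im⟩ with hv'
      have k1 : ‖v' - y‖ ≤ ‖w‖ := by
        refine (pow_le_pow_iff_left₀ (norm_nonneg _) (norm_nonneg _) (by norm_num : (2 : ℕ) ≠ 0)).1 ?_
        rw [hsq, hsq]
        have e1 : (v' - y).re = n - y.re := by simp [hv']
        have e2 : (v' - y).im = w.im := by simp [hv']
        rw [e1, e2]
        nlinarith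
      have k2 : ‖((n : ℂ) + 1 / 2) - v'‖ ≤ 1 := by
        have h := Complex.norm_le_abs_re_add_abs_im (((n : ℂ) + 1 / 2) - v')
        have e1 : (((n : ℂ) + 1 / 2) - v').re = 1 / 2 := by simp [hv']
        have e2 : (((n : ℂ) + 1 / 2) - v').im = -(y.im + w.im) := by simp [hv']
        rw [e1, e2, abs_neg] at h
        have h3 : |y.im + w.im| ≤ 1 / 2 := abs_le.2 ⟨by linarith, by linarith⟩
        have h4 : |(1 / 2 : ℝ)| = 1 / 2 := abs_of_pos (by norm_num)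
        linarith
      have k3 : ‖((n : ℂ) + 1 / 2) - y‖ ≤ ‖((n : ℂ) + 1 / 2) - v'‖ + ‖v' - y‖ := by
        have := norm_add_le (((n : ℂ) + 1 / 2) - v') (v' - y)
        rwa [sub_add_sub_cancel] at this
      linarith

/-- **ATTACH A BALL AT THE END OF A RECTANGLE** -/
theorem pvrt_ball_end {A : Set ℂ} (hA : IsClosed A) (hAc : IsPreconnected Aᶜ) {Z u y : ℂ} (hu : ‖u‖ = 1) {a b r ε : ℝ} {n : ℕ} (hε : 0 < ε) (ha : -(1 / 2) ≤ a) (hb : b ≤ 1 / 2)
    (hy1 : ((y - Z) / u).re ≤ 0) (hy2 : ‖y - Z‖ + 1 / 2 < r) (hfar : r + ε + 1 ≤ ‖Z + u * ((n : ℂ) + 1 / 2) - y‖)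
    (hloc : ∀ x : ℂ, ‖x - y‖ < r + ε → (x ∈ A ↔ x ∈ pvccPl Z u (pvrtR a b n))) : IsPreconnected (A ∪ closedBall y r)ᶜ := by
  have hu0 : u ≠ 0 := by
    intro h
    rw [h, norm_zero] at hu
    exact zero_ne_one hu
  set y0 : ℂ := (y - Z) / u with hy0
  have ey : y = Z + u * y0 := by
    rw [hy0]
    field_simp
    ring
  have ny0 : ‖y0‖ = ‖y - Z‖ := by rw [hy0, norm_div, hu, div_one]
  have hr : 0 < r := by linarith [norm_nonneg (y - Z)]
  have him : |y0.im| ≤ ‖y0‖ := Complex.abs_im_le_norm y0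
  rw [abs_le] at him
  refine pvrt_ball hA hAc hu (y1 := a - y0.im) (y2 := b - y0.im) hr hε (by linarith [him.2]) (by linarith [him.1]) ?_
  intro w h1 h2
  have hx : ‖y + u * w - y‖ < r + ε := by rwa [add_sub_cancel_left, norm_mul, hu, one_mul]
  rw [hloc _ hx]
  have hfar' : r + ε + 1 ≤ ‖((n : ℂ) + 1 / 2) - y0‖ := by
    have e : Z + u * ((n : ℂ) + 1 / 2) - y = u * (((n : ℂ) + 1 / 2) - y0) := by
      rw [ey]
      ring
    rwa [e, norm_mul, hu, one_mul] at hfar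
  rw [← pvrt_end ha hb hy1 (by rw [ny0]; exact hy2) hfar' h1 h2]
  constructor
  · rintro ⟨v, hv, hvx⟩
    have e : Z + u * v = Z + u * (y0 + w) := by
      have : Z + u * v = y + u * w := hvx
      rw [this, ey]
      ring
    rw [← pvcc_pl_injective Z hu0 e]
    exact hv
  · intro hv
    refine ⟨y0 + w, hv, ?_⟩
    show Z + u * (y0 + w) = y + u * w
    rw [ey]
    ring

/-! ## 5. `Yin` has no hole -/

theorem pvrt_lanes_eq (l : List PvtTurn) : pvfeLanes (-(1 / 10)) (4 / 10) 0 1 l = pvrtA l l.length := rfl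

/-- **`Yin` HAS NO HOLE**, unit coordinates -/
theorem pvrt_in_unit {l : List PvtTurn} (hnr : PvfeNR l) {r ε : ℝ} (hε : 0 < ε) {ys yt : ℂ} {nt ns : ℕ} (h1 : 1 ≤ nt) (h2 : 1 ≤ ns) (h3 : nt + ns ≤ l.length)
    (St : ∀ i, i < nt → pvccT l i = PvtTurn.S) (Ss : ∀ i, l.length ≤ i + ns → i < l.length → pvccT l i = PvtTurn.S)
    (ft : ∀ i, nt ≤ i → i < l.length → r + ε + 1 ≤ ‖pvccC 0 1 l i - yt‖) (fs : ∀ i, i + ns < l.length → r + ε + 1 ≤ ‖pvccC 0 1 l i - ys‖)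
    (sep : 2 * r + ε ≤ ‖ys - yt‖) (t1 : yt.re ≤ 0) (t2 : ‖yt‖ + 1 / 2 < r)
    (s1 : 0 ≤ ((ys - pvccZ 0 1 l l.length) / pvccD 1 l l.length).re) (s2 : ‖ys - pvccZ 0 1 l l.length‖ + 1 / 2 < r) :
    IsPreconnected (pvfeIn r ys yt 0 1 l)ᶜ := by
  obtain ⟨i0, hi0⟩ : ∃ i0, l.length = i0 + ns := ⟨l.length - ns, by omega⟩
  have hA1 : IsPreconnected (pvrtA l l.length)ᶜ := by
    have := pvrt_snake hnr (l.length - 1) (by omega)
    rwa [show l.length - 1 + 1 = l.length by omega] at this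
  have hSs : ∀ k, i0 ≤ k → k < i0 + ns → pvccT l k = PvtTurn.S := fun k hk1 hk2 => Ss k (by omega) (by omega)
  have hrun := pvrt_run (l := l) (i := i0) (n := ns) (by omega) hSs ns le_rfl
  rw [← hi0] at hrun
  have hDn : ‖pvccD 1 l l.length‖ = 1 := by rw [pvfe_norm_frame, norm_one]
  -- the ball of `s`
  have hA2 : IsPreconnected (pvrtA l l.length ∪ closedBall ys r)ᶜ := by
    refine pvrt_ball_end (pvrt_A_closed l _) hA1 (Z := pvccZ 0 1 l l.length) (u := - pvccD 1 l l.length) (a := -(4 / 10)) (b := -(-(1 / 10))) (n := ns) (by rw [norm_neg, hDn]) hε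
      (by norm_num) (by norm_num) ?_ s2 ?_ ?_
    · rw [div_neg, Complex.neg_re]
      linarith
    · have e : pvccZ 0 1 l l.length + -pvccD 1 l l.length * ((ns : ℂ) + 1 / 2) = pvccC 0 1 l (i0 - 1) := by
        have := pvccC_prev 0 1 l (j := i0 - 1) (by omega)
        rw [show i0 - 1 + 1 = i0 by omega] at this
        rw [← this, hrun.1, hrun.2]
        ring
      rw [e]
      exact fs _ (by omega)
    · intro x hx
      rw [pvrt_near (i := i0) (n := ns) (by omega) (fun k hk hk2 => fs k (by omega)) hx, pvrt_run_union (by omega) hSs h2, pvrt_run_back, ← hrun.1, ← hrun.2]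
  -- the ball of `t`
  have hSt : ∀ k, 0 ≤ k → k < 0 + nt → pvccT l k = PvtTurn.S := fun k _ hk2 => St k (by omega)
  have hZ0 : pvccZ 0 1 l 0 = 0 := by simp [pvccZ, pvtDisp]
  have hD0 : pvccD 1 l 0 = 1 := by simp [pvccD]
  have hrunt := pvrt_run (l := l) (i := 0) (n := nt) (by omega) hSt nt le_rfl
  have hA3 : IsPreconnected ((pvrtA l l.length ∪ closedBall ys r) ∪ closedBall yt r)ᶜ := by
    refine pvrt_ball_end ((pvrt_A_closed l _).union isClosed_closedBall) hA2 (Z := 0) (u := 1) (a := -(1 / 10)) (b := 4 / 10) (n := nt) norm_one hε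
      (by norm_num) (by norm_num) ?_ ?_ ?_ ?_
    · simpa using t1
    · simpa using t2
    · have e : (0 : ℂ) + 1 * ((nt : ℂ) + 1 / 2) = pvccC 0 1 l nt := by
        unfold pvccC
        rw [zero_add] at hrunt
        rw [hrunt.1, hrunt.2, hZ0, hD0]
        ring
      rw [e]
      exact ft _ le_rfl (by omega)
    · intro x hx
      have hns : x ∉ closedBall ys r := by
        intro h
        rw [mem_closedBall, dist_eq_norm] at h
        have : ‖ys - yt‖ ≤ ‖x - ys‖ + ‖x - yt‖ := by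
          calc ‖ys - yt‖ = ‖-(x - ys) + (x - yt)‖ := by ring_nf
            _ ≤ ‖-(x - ys)‖ + ‖x - yt‖ := norm_add_le _ _
            _ = ‖x - ys‖ + ‖x - yt‖ := by rw [norm_neg]
        linarith
      have hn := pvrt_near (l := l) (i := 0) (n := nt) (by omega) (fun k hk hk2 => ft k (by omega) hk) hx
      have hu := pvrt_run_union (l := l) (i := 0) (n := nt) (by omega) hSt h1
      rw [hZ0, hD0] at hu
      rw [← hu, ← hn]
      exact ⟨fun h => h.resolve_right hns, Or.inl⟩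
  have e : pvfeIn r ys yt 0 1 l = (pvrtA l l.length ∪ closedBall ys r) ∪ closedBall yt r := by
    unfold pvfeIn
    rw [pvrt_lanes_eq, union_right_comm]
  rw [e]
  exact hA3

/-- covariance of the lanes -/
theorem pvrt_lanes_cov (a b : ℝ) (z d : ℂ) (l : List PvtTurn) : pvfeLanes a b z d l = pvccPl z d (pvfeLanes a b 0 1 l) := by
  unfold pvfeLanes pvccPl
  rw [image_iUnion₂]
  refine iUnion₂_congr fun j _ => ?_
  rw [pvccK_cov]
  rfl

/-- covariance of the balls -/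
theorem pvrt_ball_cov (z : ℂ) {d : ℂ} (hd : d ≠ 0) (y : ℂ) (r : ℝ) : closedBall y r = pvccPl z d (closedBall ((y - z) / d) (r / ‖d‖)) := by
  have h0 : 0 < ‖d‖ := norm_pos_iff.2 hd
  rw [pvccPl_eq_preimage z hd]
  ext x
  simp only [mem_closedBall, mem_preimage, dist_eq_norm]
  rw [← sub_div, norm_div, div_le_div_iff_of_pos_right h0]
  congr! 2
  ring

theorem pvrt_in_cov (rI : ℝ) (ys yt z : ℂ) {d : ℂ} (hd : d ≠ 0) (l : List PvtTurn) :
    pvfeIn rI ys yt z d l = pvccPl z d (pvfeIn (rI / ‖d‖) ((ys - z) / d) ((yt - z) / d) 0 1 l) := by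
  unfold pvfeIn
  rw [pvrt_lanes_cov, pvrt_ball_cov z hd yt, pvrt_ball_cov z hd ys]
  unfold pvccPl
  rw [image_union, image_union]

/-- a similarity maps complements to complements -/
theorem pvrt_pl_compl (z : ℂ) {d : ℂ} (hd : d ≠ 0) (S : Set ℂ) : (pvccPl z d S)ᶜ = pvccPl z d Sᶜ := by
  rw [pvccPl_eq_preimage z hd, pvccPl_eq_preimage z hd]
  rfl

/-- **`Yin` HAS NO HOLE** (any frame; all the radii are arguments) -/
theorem pvrt_in {l : List PvtTurn} (hnr : PvfeNR l) {z d : ℂ} (hd : d ≠ 0) {rI : ℝ} {ys yt : ℂ} {nt ns : ℕ} (h1 : 1 ≤ nt) (h2 : 1 ≤ ns) (h3 : nt + ns ≤ l.length)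
    (St : ∀ i, i < nt → pvccT l i = PvtTurn.S) (Ss : ∀ i, l.length ≤ i + ns → i < l.length → pvccT l i = PvtTurn.S)
    (ft : ∀ i, nt ≤ i → i < l.length → rI + 2 * ‖d‖ ≤ ‖pvccC z d l i - yt‖) (fs : ∀ i, i + ns < l.length → rI + 2 * ‖d‖ ≤ ‖pvccC z d l i - ys‖)
    (sep : 2 * rI + ‖d‖ ≤ ‖ys - yt‖) (t1 : ((yt - z) / d).re ≤ 0) (t2 : ‖yt - z‖ + ‖d‖ / 2 < rI)
    (s1 : 0 ≤ ((ys - pvccZ z d l l.length) / pvccD d l l.length).re) (s2 : ‖ys - pvccZ z d l l.length‖ + ‖d‖ / 2 < rI) :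
    IsPreconnected (pvfeIn rI ys yt z d l)ᶜ := by
  have h0 : 0 < ‖d‖ := norm_pos_iff.2 hd
  rw [pvrt_in_cov rI ys yt z hd, pvrt_pl_compl z hd]
  refine IsPreconnected.image ?_ _ (by fun_prop)
  have hC : ∀ (i : ℕ) (y : ℂ), ‖pvccC 0 1 l i - (y - z) / d‖ = ‖pvccC z d l i - y‖ / ‖d‖ := by
    intro i y
    rw [pvccC_cov z d l i, ← norm_div]
    congr 1
    field_simp
    ring
  refine pvrt_in_unit hnr (ε := 1) one_pos h1 h2 h3 St Ss ?_ ?_ ?_ t1 ?_ ?_ ?_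
  · intro i hi1 hi2
    rw [hC, le_div_iff₀ h0]
    have := ft i hi1 hi2
    have e : (rI / ‖d‖ + 1 + 1) * ‖d‖ = rI + 2 * ‖d‖ := by field_simp; ring
    linarith
  · intro i hi
    rw [hC, le_div_iff₀ h0]
    have := fs i hi
    have e : (rI / ‖d‖ + 1 + 1) * ‖d‖ = rI + 2 * ‖d‖ := by field_simp; ring
    linarith
  · rw [← sub_div, norm_div, le_div_iff₀ h0]
    have e : (2 * (rI / ‖d‖) + 1) * ‖d‖ = 2 * rI + ‖d‖ := by field_simp
    have e2 : ys - z - (yt - z) = ys - yt := by ring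
    rw [e, e2]
    exact sep
  · rw [norm_div, ← sub_pos]
    have e : rI / ‖d‖ - (‖yt - z‖ / ‖d‖ + 1 / 2) = (rI - (‖yt - z‖ + ‖d‖ / 2)) / ‖d‖ := by field_simp
    rw [e]
    exact div_pos (by linarith) h0
  · have e : ((ys - z) / d - pvccZ 0 1 l l.length) / pvccD 1 l l.length = (ys - pvccZ z d l l.length) / pvccD d l l.length := by
      rw [pvccZ_cov z d l, pvccD_cov d l]
      have := pvrt_D_ne l l.length
      field_simp
      ring
    rw [e]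
    exact s1
  · have e : (ys - z) / d - pvccZ 0 1 l l.length = (ys - pvccZ z d l l.length) / d := by
      rw [pvccZ_cov z d l]
      field_simp
      ring
    rw [e, norm_div, ← sub_pos]
    have e : rI / ‖d‖ - (‖ys - pvccZ z d l l.length‖ / ‖d‖ + 1 / 2) = (rI - (‖ys - pvccZ z d l l.length‖ + ‖d‖ / 2)) / ‖d‖ := by field_simp
    rw [e]
    exact div_pos (by linarith) h0

/-! ## 6. the other hypotheses of `pvrk_reg_mesh` -/

/-- **MB, the form which excludes holes**: the corridor beyond its first straight link stays away from the mouth of `t`, the corridor before its last straight link stays away from the mouth of `s`; both links are non empty.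
(STRONGER than `PvfeNoz` of `Defs/FitReg`, which says nothing on the first link against `ys`, on the last link against `yt`.) -/
def PvrtNoz (rM : ℝ) (ys yt z d : ℂ) (l : List PvtTurn) : Prop :=
  ∃ nt ns : ℕ, 1 ≤ nt ∧ 1 ≤ ns ∧ nt + ns ≤ l.length ∧ (∀ i, i < nt → pvccT l i = PvtTurn.S) ∧ (∀ i, l.length ≤ i + ns → i < l.length → pvccT l i = PvtTurn.S) ∧
    (∀ i, nt ≤ i → i < l.length → rM ≤ ‖pvccC z d l i - yt‖) ∧ ∀ i, i + ns < l.length → rM ≤ ‖pvccC z d l i - ys‖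

/-- `Yin` has no hole, index form -/
theorem pvrt_in_noz {l : List PvtTurn} (hnr : PvfeNR l) {z d : ℂ} (hd : d ≠ 0) {rI : ℝ} {ys yt : ℂ} (hnoz : PvrtNoz (rI + 2 * ‖d‖) ys yt z d l)
    (sep : 2 * rI + ‖d‖ ≤ ‖ys - yt‖) (t1 : ((yt - z) / d).re ≤ 0) (t2 : ‖yt - z‖ + ‖d‖ / 2 < rI)
    (s1 : 0 ≤ ((ys - pvccZ z d l l.length) / pvccD d l l.length).re) (s2 : ‖ys - pvccZ z d l l.length‖ + ‖d‖ / 2 < rI) :
    IsPreconnected (pvfeIn rI ys yt z d l)ᶜ := by
  obtain ⟨nt, ns, h1, h2, h3, St, Ss, ft, fs⟩ := hnoz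
  exact pvrt_in hnr hd h1 h2 h3 St Ss ft fs sep t1 t2 s1 s2

/-- `Yin` is bounded -/
theorem pvrt_in_bdd (rI : ℝ) (ys yt z d : ℂ) (l : List PvtTurn) : Bornology.IsBounded (pvfeIn rI ys yt z d l) := by
  unfold pvfeIn pvfeLanes
  refine (((Bornology.isBounded_biUnion_finset _).2 fun j _ => ?_).union isBounded_closedBall).union isBounded_closedBall
  exact isBounded_closedBall.subset (pvfe_K_sub_ball (by norm_num) (by norm_num) z d l j)

/-- the collar of `Yin` lies in `Yreg` -/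
theorem pvrt_in_collar {rI rO κ c : ℝ} {ys yt z d : ℂ} (hc : c ≤ (κ - 1) * ‖d‖) (hr : rI + c ≤ rO + κ * ‖d‖) {l : List PvtTurn} {x : ℂ} (hx : x ∈ pvfeIn rI ys yt z d l) :
    closedBall x c ⊆ pvfeBody rO κ ys yt z d l := by
  intro w hw
  rw [mem_closedBall_iff_norm] at hw
  have tri : ∀ y : ℂ, ‖w - y‖ ≤ ‖w - x‖ + ‖x - y‖ := fun y => by
    have := norm_add_le (w - x) (x - y)
    rwa [sub_add_sub_cancel] at this
  unfold pvfeIn at hx
  unfold pvfeBody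
  rcases hx with (hx | hx) | hx
  · left; left
    unfold pvfeLanes at hx
    simp only [mem_iUnion, Finset.mem_range, exists_prop] at hx
    obtain ⟨j, hj, hxj⟩ := hx
    have h1 := pvfe_K_sub_ball (by norm_num) (by norm_num) z d l j hxj
    rw [mem_closedBall_iff_norm] at h1
    exact pvfe_mem_tube.2 ⟨j, hj, by have := tri (pvccC z d l j); nlinarith⟩
  · left; right
    rw [mem_closedBall_iff_norm] at hx ⊢
    have := tri yt
    linarith
  · right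
    rw [mem_closedBall_iff_norm] at hx ⊢
    have := tri ys
    linarith

/-- one door, complex arithmetic: `C` = centre of the base cell, `U` = outer normal, `Y` = centre of the mouth -/
theorem pvrtq_door {δ κ : ℝ} {U C Y : ℂ} (hU : ‖U‖ = 1) (hδ : 0 < δ) (hκ : 3 * δ / 2 ≤ κ) (hC : ‖C - (Y + (κ : ℂ) * U)‖ ≤ δ) :
    0 ≤ ((Y - (C - (δ : ℂ) * U / 2)) / (-((δ : ℂ) * U))).re ∧ ‖Y - (C - (δ : ℂ) * U / 2)‖ ≤ κ + 3 * δ / 2 := by
  have hU0 : U ≠ 0 := by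
    intro h
    rw [h, norm_zero] at hU
    exact zero_ne_one hU
  have hδc : (δ : ℂ) ≠ 0 := Complex.ofReal_ne_zero.2 hδ.ne'
  constructor
  · have e : (Y - (C - (δ : ℂ) * U / 2)) / (-((δ : ℂ) * U)) = (((κ - δ / 2) / δ : ℝ) : ℂ) + (C - (Y + (κ : ℂ) * U)) / ((δ : ℂ) * U) := by
      push_cast
      field_simp
      ring
    rw [e, Complex.add_re, Complex.ofReal_re]
    have h1 := Complex.abs_re_le_norm ((C - (Y + (κ : ℂ) * U)) / ((δ : ℂ) * U))
    rw [norm_div, norm_mul, hU, mul_one, Complex.norm_real, Real.norm_of_nonneg hδ.le] at h1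
    have h2 : ‖C - (Y + (κ : ℂ) * U)‖ / δ ≤ 1 := by rw [div_le_one hδ]; exact hC
    have h3 : 1 ≤ (κ - δ / 2) / δ := by rw [le_div_iff₀ hδ]; linarith
    have h4 := (abs_le.1 h1).1
    linarith
  · have e : Y - (C - (δ : ℂ) * U / 2) = -(C - (Y + (κ : ℂ) * U)) + (((δ / 2 - κ : ℝ) : ℂ) * U) := by
      push_cast
      ring
    rw [e]
    refine (norm_add_le _ _).trans ?_
    rw [norm_neg, norm_mul, hU, mul_one, Complex.norm_real, Real.norm_eq_abs, abs_of_nonpos (by linarith)]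
    linarith

/-- **the door of `t`**: the exit door lies AHEAD of the centre of the mouth, well inside the inner mouth -/
theorem pvrt_door_t {τ : Type} {Γ : PvtsGeo τ} {ty : τ → PvwTy} {N : PvwNum} {h : ℝ} (hD : PvfeDoors Γ ty N h) (hδ : 0 < Γ.δ) (h16 : 16 * Γ.δ < N.rho * h) (p : PvtsPat τ) :
    (((ty p.tt).cp h p.zt - pvfeZ Γ p) / pvfeD Γ p).re ≤ 0 ∧ ‖(ty p.tt).cp h p.zt - pvfeZ Γ p‖ + ‖pvfeD Γ p‖ / 2 < N.rho * h / 2 := by
  obtain ⟨e, u, hu, h1, h2, h3, -⟩ := hD.out p.tt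
  have hU : ‖pvtZ u‖ = 1 := by
    rcases hu with rfl | rfl | rfl | rfl <;> simp [pvtZ]
  have hsub : pvtCtr Γ.δ (e - u) = pvtCtr Γ.δ e - (Γ.δ : ℂ) * pvtZ u := by
    apply Complex.ext <;> simp [pvtCtr, pvtZ] <;> ring
  have hC : ‖pvtCtr Γ.δ e - ((h : ℂ) * (ty p.tt).yp + ((h * (3 * N.rho / 8) : ℝ) : ℂ) * pvtZ u)‖ ≤ Γ.δ := by
    have e1 : (h : ℂ) * (ty p.tt).yp + ((h * (3 * N.rho / 8) : ℝ) : ℂ) * pvtZ u = (h : ℂ) * ((ty p.tt).yp + ((3 * N.rho / 8 : ℝ) : ℂ) * pvtZ u) := by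
      push_cast
      ring
    rw [e1]
    exact h3
  obtain ⟨k1, k2⟩ := pvrtq_door hU hδ (κ := h * (3 * N.rho / 8)) (by nlinarith) hC
  have ey : (ty p.tt).cp h p.zt - pvfeZ Γ p = (h : ℂ) * (ty p.tt).yp - (pvtCtr Γ.δ e - (Γ.δ : ℂ) * pvtZ u / 2) := by
    unfold pvfeZ PvwTy.cp
    rw [h1, hsub]
    ring
  have hDn : pvfeD Γ p = (Γ.δ : ℂ) * pvtZ u := by
    unfold pvfeD
    rw [h2]
  have hn : ‖pvfeD Γ p‖ = Γ.δ := by rw [pvfe_norm_D, abs_of_pos hδ]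
  rw [ey, hn, hDn]
  refine ⟨?_, by linarith⟩
  rw [div_neg, Complex.neg_re] at k1
  linarith

/-- **the door of `s`** -/
theorem pvrt_door_s {τ : Type} {Γ : PvtsGeo τ} {ty : τ → PvwTy} {N : PvwNum} {h : ℝ} (hD : PvfeDoors Γ ty N h) (hδ : 0 < Γ.δ) (h16 : 16 * Γ.δ < N.rho * h) {p : PvtsPat τ} (hp : Γ.Ok p) :
    0 ≤ (((ty p.ts).cm h p.zs - pvccZ (pvfeZ Γ p) (pvfeD Γ p) p.l p.l.length) / pvccD (pvfeD Γ p) p.l p.l.length).re ∧
      ‖(ty p.ts).cm h p.zs - pvccZ (pvfeZ Γ p) (pvfeD Γ p) p.l p.l.length‖ + ‖pvfeD Γ p‖ / 2 < N.rho * h / 2 := by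
  obtain ⟨e, u, hu, h1, h2, h3, -⟩ := hD.inn p.ts
  have hU : ‖pvtZ u‖ = 1 := by
    rcases hu with rfl | rfl | rfl | rfl <;> simp [pvtZ]
  have hsub : pvtCtr Γ.δ (e - u) = pvtCtr Γ.δ e - (Γ.δ : ℂ) * pvtZ u := by
    apply Complex.ext <;> simp [pvtCtr, pvtZ] <;> ring
  have hZ := pvfe_last_door Γ hp
  have hDn : pvccD (pvfeD Γ p) p.l p.l.length = -((Γ.δ : ℂ) * pvtZ u) := by
    rw [pvccD_length]
    unfold pvfeD
    rw [pvtDir_mul, hp.2, h2]
    ring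
  have hC : ‖pvtCtr Γ.δ e - ((h : ℂ) * (ty p.ts).ym + ((h * (3 * N.rho / 8) : ℝ) : ℂ) * pvtZ u)‖ ≤ Γ.δ := by
    have e1 : (h : ℂ) * (ty p.ts).ym + ((h * (3 * N.rho / 8) : ℝ) : ℂ) * pvtZ u = (h : ℂ) * ((ty p.ts).ym + ((3 * N.rho / 8 : ℝ) : ℂ) * pvtZ u) := by
      push_cast
      ring
    rw [e1]
    exact h3
  obtain ⟨k1, k2⟩ := pvrtq_door hU hδ (κ := h * (3 * N.rho / 8)) (by nlinarith) hC
  have ey : (ty p.ts).cm h p.zs - pvccZ (pvfeZ Γ p) (pvfeD Γ p) p.l p.l.length = (h : ℂ) * (ty p.ts).ym - (pvtCtr Γ.δ e - (Γ.δ : ℂ) * pvtZ u / 2) := by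
    rw [hZ, h1, hsub]
    unfold PvwTy.cm
    ring
  have hn : ‖pvfeD Γ p‖ = Γ.δ := by rw [pvfe_norm_D, abs_of_pos hδ]
  rw [ey, hDn, hn]
  exact ⟨k1, by linarith⟩

/-- **`Yin` OF THE REGIONS OF RECORD HAS NO HOLE** -/
theorem pvrt_regAt {τ : Type} {Γ : PvtsGeo τ} {ty : τ → PvwTy} (cp cm : τ → Set ℂ) {N : PvwNum} {h : ℝ} (hD : PvfeDoors Γ ty N h) (hδ : 0 < Γ.δ) (h16 : 16 * Γ.δ < N.rho * h)
    {p : PvtsPat τ} (hp : Γ.Ok p) (hnr : PvfeNR p.l) (hnoz : PvrtNoz (N.rho * h / 2 + 2 * Γ.δ) ((ty p.ts).cm h p.zs) ((ty p.tt).cp h p.zt) (pvfeZ Γ p) (pvfeD Γ p) p.l)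
    (sep : N.rho * h + Γ.δ ≤ ‖(ty p.ts).cm h p.zs - (ty p.tt).cp h p.zt‖) : IsPreconnected ((pvfeRegAt Γ ty cp cm N h p).Yin)ᶜ := by
  have hn : ‖pvfeD Γ p‖ = Γ.δ := by rw [pvfe_norm_D, abs_of_pos hδ]
  obtain ⟨t1, t2⟩ := pvrt_door_t hD hδ h16 p
  obtain ⟨s1, s2⟩ := pvrt_door_s hD hδ h16 hp
  exact pvrt_in_noz hnr (pvfe_D_ne Γ p) (by rw [hn]; exact hnoz) (by rw [hn]; linarith) t1 t2 s1 s2

theorem pvrt_eqns_cite : True := by
  have := @pvrtB.eq_1; have := @pvrtLn.eq_1; have := @pvrtS0.eq_1; have := @pvrtU.eq_1; have := @pvrtU.eq_2; have := @pvrtU.eq_3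
  have := @pvrtW.eq_1; have := @pvrtW.eq_2; have := @pvrtW.eq_3; have := @pvrtL.eq_1; have := @pvrtA.eq_1; have := @pvrtR.eq_1; have := @PvrtNoz.eq_1
  trivial

end Claimed.Agent.R289
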