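-- KEEP
import Claimed.Agent.R289.Defs.FitReg

/-!
# Row 289 (S0537), THE WALL, E10 = LINK BOUND, file Tr/LinkT : LANE CALCULUS ON THE REGIONS OF RECORD      (helper221, second of helper21; prefix `pvlj_`, defs `pvlj*`)

The REGION FORM of the link bound (21, `Tr/LinkQ`) asks of a region `R` only `JoinedIn {w | closedBall w r ⊆ R} x y` (`r = 4 δ'`, `δ'` = mesh of the pattern grid), disjointness of the regions of the two colours and a bounding square.
Here these three facts for the lanes `pvfeLanes a b z d l` of 209 (`Defs/FitReg`), for EVERY corridor `(z, d, l)` (thin first / last link, thick short link, chains of cells), and a generic kit for regions glued from convex pieces (C-shapes, mouths).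

* sec. 1  `pvljCore r R = {w | closedBall w r ⊆ R}` (by `rfl`);   `pvlj_core_convex`;   **`pvlj_joined_convex`** (two points whose `r`-balls lie in ONE convex piece `C ⊆ R` are joined in the core of `R`);   **`pvlj_joined_chain`** (a chain of convex pieces)
* sec. 2  rectangles `pvljRect`, placed by `pvccPl z d`: convex, `pvlj_ball_pl` (a ball in a placed rectangle)
* sec. 3  the centre line: `pvljMid u z d l j` = the point of offset `u` in the middle of the cell `j` (the corner of the elbow for `L`, `R`);   `pvlj_door_rect` (the straight piece through the door `j+1` is a rectangle inside the two lanes)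
          **`pvlj_lanes_core`** (J1): `2 s ≤ b - a` ⟹ `JoinedIn (pvljCore (s ‖d‖) (pvfeLanes a b z d l)) (mid j) (mid k)`;   `pvlj_lanes_entry`, `pvlj_lanes_exit` (a rectangular cap glued at the first / last door)
* sec. 4  monotonicity, bounding ball (J3)
* sec. 5  (J2) SEPARATION: `pvlj_lane_disj` (one cell), `pvlj_touch` (a lane strictly inside the cell touches the other cells of the grid only through its two doors), `pvlj_cells_disj`, **`pvlj_lanes_disj`**, `pvlj_nr_back` (`PvfeNR` gives `hback`)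
* sec. 6  fattening `pvlj_fat`, **`pvlj_lanes_far`** (distance `> s ‖d‖`), closedness, **`pvlj_out_mem`** (the far half of the outer lane lies in `pvfeOut`)
* sec. 7  a range of cells `pvljSeg a b z d l j k`: **`pvlj_cells_core`**, `pvlj_seg_core`, **`pvlj_seg_out`**;   `pvlj_joined_anti` (smaller radius).      `PvkqCore δ' R x y` of 21 `= ⟨hδ', pvlj_joined_anti (h : 4 * δ' ≤ s * ‖d‖) (..)⟩`
-/

set_option autoImplicit false
set_option linter.unusedVariables false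

namespace Claimed.Agent.R289

open Set Metric Complex

/-! ## 1. the core of a region; convex pieces -/

/-- the `r`-core of the region `R` -/
def pvljCore (r : ℝ) (R : Set ℂ) : Set ℂ := {w | closedBall w r ⊆ R}

theorem pvlj_core_def (r : ℝ) (R : Set ℂ) : pvljCore r R = {w | closedBall w r ⊆ R} := rfl

theorem pvlj_core_mono (r : ℝ) {R R' : Set ℂ} (h : R ⊆ R') : pvljCore r R ⊆ pvljCore r R' := fun _ hw => Subset.trans hw h

theorem pvlj_core_anti {r r' : ℝ} (h : r ≤ r') (R : Set ℂ) : pvljCore r' R ⊆ pvljCore r R := fun _ hw => (closedBall_subset_closedBall h).trans hw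

theorem pvlj_core_sub {r : ℝ} (hr : 0 ≤ r) (R : Set ℂ) : pvljCore r R ⊆ R := fun w hw => hw (mem_closedBall_self hr)

/-- the core of a convex set is convex -/
theorem pvlj_core_convex (r : ℝ) {C : Set ℂ} (hC : Convex ℝ C) : Convex ℝ (pvljCore r C) := by
  intro x hx y hy s t hs ht hst p hp
  have hv : ‖p - (s • x + t • y)‖ ≤ r := mem_closedBall_iff_norm.1 hp
  have h1 : x + (p - (s • x + t • y)) ∈ C := hx (by simpa [mem_closedBall_iff_norm] using hv)
  have h2 : y + (p - (s • x + t • y)) ∈ C := hy (by simpa [mem_closedBall_iff_norm] using hv)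
  have h3 := hC h1 h2 hs ht hst
  have e : s • (x + (p - (s • x + t • y))) + t • (y + (p - (s • x + t • y))) = p := by
    have : s • (x + (p - (s • x + t • y))) + t • (y + (p - (s • x + t • y))) = (s • x + t • y) + (s + t) • (p - (s • x + t • y)) := by
      rw [smul_add, smul_add, add_smul]; abel
    rw [this, hst, one_smul]; abel
  rwa [e] at h3

/-- **ONE CONVEX PIECE** -/
theorem pvlj_joined_convex {r : ℝ} {C R : Set ℂ} (hC : Convex ℝ C) (hCR : C ⊆ R) {x y : ℂ} (hx : closedBall x r ⊆ C) (hy : closedBall y r ⊆ C) :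
    JoinedIn (pvljCore r R) x y :=
  (((pvlj_core_convex r hC).isPathConnected ⟨x, hx⟩).joinedIn x hx y hy).mono (pvlj_core_mono r hCR)

/-- **A CHAIN OF CONVEX PIECES**: the balls of `x i`, `x (i+1)` lie in the convex piece `C i ⊆ R` -/
theorem pvlj_joined_chain {r : ℝ} {R : Set ℂ} (x : ℕ → ℂ) (C : ℕ → Set ℂ) (n : ℕ) (h0 : closedBall (x 0) r ⊆ R)
    (h : ∀ i, i < n → Convex ℝ (C i) ∧ C i ⊆ R ∧ closedBall (x i) r ⊆ C i ∧ closedBall (x (i + 1)) r ⊆ C i) : JoinedIn (pvljCore r R) (x 0) (x n) := by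
  induction n with
  | zero => exact JoinedIn.refl h0
  | succ n ih =>
    obtain ⟨c1, c2, c3, c4⟩ := h n (Nat.lt_succ_self n)
    exact (ih fun i hi => h i (Nat.lt_succ_of_lt hi)).trans (pvlj_joined_convex c1 c2 c3 c4)

/-- the same between two indices -/
theorem pvlj_joined_chain' {r : ℝ} {R : Set ℂ} (x : ℕ → ℂ) (C : ℕ → Set ℂ) {j k : ℕ} (hjk : j ≤ k) (h0 : closedBall (x j) r ⊆ R)
    (h : ∀ i, j ≤ i → i < k → Convex ℝ (C i) ∧ C i ⊆ R ∧ closedBall (x i) r ⊆ C i ∧ closedBall (x (i + 1)) r ⊆ C i) : JoinedIn (pvljCore r R) (x j) (x k) := by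
  obtain ⟨n, rfl⟩ := Nat.exists_eq_add_of_le hjk
  have := pvlj_joined_chain (r := r) (R := R) (fun i => x (j + i)) (fun i => C (j + i)) n h0 fun i hi => h (j + i) (Nat.le_add_right _ _) (by omega)
  exact this

/-! ## 2. rectangles -/

/-- the closed rectangle `[x₀,x₁] × [y₀,y₁]` -/
def pvljRect (x₀ x₁ y₀ y₁ : ℝ) : Set ℂ := {w | x₀ ≤ w.re ∧ w.re ≤ x₁ ∧ y₀ ≤ w.im ∧ w.im ≤ y₁}

theorem pvlj_rect_convex (x₀ x₁ y₀ y₁ : ℝ) : Convex ℝ (pvljRect x₀ x₁ y₀ y₁) := by
  intro x hx y hy s t hs ht hst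
  obtain ⟨a1, a2, a3, a4⟩ := hx
  obtain ⟨b1, b2, b3, b4⟩ := hy
  have e : t = 1 - s := by linarith
  subst e
  refine ⟨?_, ?_, ?_, ?_⟩ <;> simp only [add_re, add_im, real_smul, mul_re, mul_im, ofReal_re, ofReal_im, zero_mul, sub_zero, add_zero] <;> nlinarith

theorem pvlj_rect_mono {x₀ x₁ y₀ y₁ x₀' x₁' y₀' y₁' : ℝ} (h1 : x₀' ≤ x₀) (h2 : x₁ ≤ x₁') (h3 : y₀' ≤ y₀) (h4 : y₁ ≤ y₁') : pvljRect x₀ x₁ y₀ y₁ ⊆ pvljRect x₀' x₁' y₀' y₁' :=
  fun _ ⟨a1, a2, a3, a4⟩ => ⟨h1.trans a1, a2.trans h2, h3.trans a3, a4.trans h4⟩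

/-- a placed convex set is convex -/
theorem pvlj_pl_convex (z d : ℂ) {U : Set ℂ} (hU : Convex ℝ U) : Convex ℝ (pvccPl z d U) := by
  rintro _ ⟨u, hu, rfl⟩ _ ⟨v, hv, rfl⟩ s t hs ht hst
  refine ⟨s • u + t • v, hU hu hv hs ht hst, ?_⟩
  have e : (t : ℂ) = 1 - (s : ℂ) := by
    have : ((s + t : ℝ) : ℂ) = 1 := by rw [hst]; simp
    push_cast at this
    linear_combination this
  simp only [real_smul]
  rw [e]; ring

/-- **a ball in a placed rectangle** -/
theorem pvlj_ball_pl (z : ℂ) {d : ℂ} (hd : d ≠ 0) {x₀ x₁ y₀ y₁ s : ℝ} {w : ℂ} (h1 : x₀ + s ≤ w.re) (h2 : w.re + s ≤ x₁) (h3 : y₀ + s ≤ w.im) (h4 : w.im + s ≤ y₁) :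
    closedBall (z + d * w) (s * ‖d‖) ⊆ pvccPl z d (pvljRect x₀ x₁ y₀ y₁) := by
  intro p hp
  have hd0 : 0 < ‖d‖ := norm_pos_iff.2 hd
  refine ⟨(p - z) / d, ?_, by field_simp; ring⟩
  have e : (p - z) / d - w = (p - (z + d * w)) / d := by field_simp; ring
  have hn : ‖(p - z) / d - w‖ ≤ s := by
    rw [e, norm_div, div_le_iff₀ hd0]
    exact mem_closedBall_iff_norm.1 hp
  have r1 := (abs_le.1 ((abs_re_le_norm _).trans hn))
  have r2 := (abs_le.1 ((abs_im_le_norm _).trans hn))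
  rw [sub_re] at r1
  rw [sub_im] at r2
  exact ⟨by linarith [r1.1], by linarith [r1.2], by linarith [r2.1], by linarith [r2.2]⟩

/-! ## 3. the centre line of a lane -/

/-- length of the entry rectangle (= of the exit rectangle) of the lane `[a,b]` in a cell of letter `τ` -/
noncomputable def pvljLen (a b : ℝ) : PvtTurn → ℝ
  | PvtTurn.S => 1
  | PvtTurn.L => 1 / 2 - a
  | PvtTurn.R => 1 / 2 + b

/-- abscissa of the middle point of offset `u` (the corner of the elbow) -/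
noncomputable def pvljX (u : ℝ) : PvtTurn → ℝ
  | PvtTurn.S => 1 / 2
  | PvtTurn.L => 1 / 2 - u
  | PvtTurn.R => 1 / 2 + u

theorem pvlj_X_len {a b s u : ℝ} (h1 : a + s ≤ u) (h2 : u + s ≤ b) (hs : s ≤ 1 / 2) (τ : PvtTurn) : pvljX u τ + s ≤ pvljLen a b τ := by
  cases τ <;> simp only [pvljX, pvljLen] <;> linarith

theorem pvlj_X_ge {a b s u : ℝ} (ha : -(1 / 2) ≤ a) (hb : b ≤ 1 / 2) (h1 : a + s ≤ u) (h2 : u + s ≤ b) (hs : s ≤ 1 / 2) (τ : PvtTurn) : s ≤ pvljX u τ := by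
  cases τ <;> simp only [pvljX] <;> linarith

/-- the entry rectangle lies in the lane -/
theorem pvlj_lane_entry (a b : ℝ) (τ : PvtTurn) : pvljRect 0 (pvljLen a b τ) a b ⊆ pvfeLane a b τ := by
  rintro w ⟨h1, h2, h3, h4⟩
  cases τ with
  | S => exact ⟨h1, h2, h3, h4⟩
  | L => exact Or.inl ⟨h1, h2, h3, h4⟩
  | R => exact Or.inl ⟨h1, h2, h3, h4⟩

theorem pvlj_exit_re_im (τ : PvtTurn) (w : ℂ) :
    (τ.mid + τ.rot * w).re = (match τ with | PvtTurn.S => 1 + w.re | PvtTurn.L => 1 / 2 - w.im | PvtTurn.R => 1 / 2 + w.im) ∧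
    (τ.mid + τ.rot * w).im = (match τ with | PvtTurn.S => w.im | PvtTurn.L => 1 / 2 + w.re | PvtTurn.R => -(1 / 2) - w.re) := by
  cases τ <;> constructor <;> simp [PvtTurn.mid, PvtTurn.rot] <;> ring

/-- the exit rectangle (coordinates of the NEXT door) lies in the lane -/
theorem pvlj_lane_exit {a b : ℝ} (τ : PvtTurn) {w : ℂ} (hw : w ∈ pvljRect (-(pvljLen a b τ)) 0 a b) : τ.mid + τ.rot * w ∈ pvfeLane a b τ := by
  obtain ⟨h1, h2, h3, h4⟩ := hw
  obtain ⟨e1, e2⟩ := pvlj_exit_re_im τ w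
  cases τ with
  | S =>
    simp only [pvljLen] at h1
    simp only at e1 e2
    exact ⟨by rw [e1]; linarith, by rw [e1]; linarith, by rw [e2]; exact h3, by rw [e2]; exact h4⟩
  | L =>
    simp only [pvljLen] at h1
    simp only at e1 e2
    exact Or.inr ⟨by rw [e1]; linarith, by rw [e1]; linarith, by rw [e2]; linarith, by rw [e2]; linarith⟩
  | R =>
    simp only [pvljLen] at h1
    simp only at e1 e2
    exact Or.inr ⟨by rw [e1]; linarith, by rw [e1]; linarith, by rw [e2]; linarith, by rw [e2]; linarith⟩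

/-- the point of abscissa `t`, offset `u` in the frame of the door `j` -/
noncomputable def pvljPt (z d : ℂ) (l : List PvtTurn) (j : ℕ) (t u : ℝ) : ℂ := pvccZ z d l j + pvccD d l j * ((t : ℂ) + (u : ℂ) * I)

/-- **the middle point of offset `u` of the cell `j`** -/
noncomputable def pvljMid (u : ℝ) (z d : ℂ) (l : List PvtTurn) (j : ℕ) : ℂ := pvljPt z d l j (pvljX u (pvccT l j)) u

/-- the middle point in the frame of the next door -/
theorem pvlj_mid_exit (u : ℝ) (z d : ℂ) (l : List PvtTurn) {j : ℕ} (hj : j < l.length) : pvljMid u z d l j = pvljPt z d l (j + 1) (-(pvljX u (pvccT l j))) u := by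
  unfold pvljMid pvljPt
  rw [pvccZ_succ z d l hj, pvccD_succ d l hj]
  cases pvccT l j with
  | S => simp only [pvljX, PvtTurn.mid, PvtTurn.rot]; push_cast; ring
  | L => simp only [pvljX, PvtTurn.mid, PvtTurn.rot]; push_cast; linear_combination (-(pvccD d l j) * (u : ℂ)) * I_sq
  | R => simp only [pvljX, PvtTurn.mid, PvtTurn.rot]; push_cast; linear_combination ((pvccD d l j) * (u : ℂ)) * I_sq

theorem pvlj_D_ne {d : ℂ} (hd : d ≠ 0) (l : List PvtTurn) (j : ℕ) : pvccD d l j ≠ 0 := by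
  rw [← norm_ne_zero_iff, pvfe_norm_frame]
  exact norm_ne_zero_iff.2 hd

theorem pvlj_K_sub_lanes (a b : ℝ) (z d : ℂ) (l : List PvtTurn) {j : ℕ} (hj : j < l.length) : pvccK (pvfeLane a b) z d l j ⊆ pvfeLanes a b z d l :=
  fun _ hw => mem_iUnion₂.2 ⟨j, Finset.mem_range.2 hj, hw⟩

/-- the entry rectangle of the cell `j`, placed -/
theorem pvlj_entry_sub (a b : ℝ) (z d : ℂ) (l : List PvtTurn) {j : ℕ} (hj : j < l.length) :
    pvccPl (pvccZ z d l j) (pvccD d l j) (pvljRect 0 (pvljLen a b (pvccT l j)) a b) ⊆ pvfeLanes a b z d l :=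
  (pvccPl_mono _ _ (pvlj_lane_entry a b _)).trans (pvlj_K_sub_lanes a b z d l hj)

/-- the exit rectangle of the cell `j`, placed at the door `j + 1` -/
theorem pvlj_exit_sub (a b : ℝ) (z d : ℂ) (l : List PvtTurn) {j : ℕ} (hj : j < l.length) :
    pvccPl (pvccZ z d l (j + 1)) (pvccD d l (j + 1)) (pvljRect (-(pvljLen a b (pvccT l j))) 0 a b) ⊆ pvfeLanes a b z d l := by
  rintro _ ⟨w, hw, rfl⟩
  refine pvlj_K_sub_lanes a b z d l hj ⟨(pvccT l j).mid + (pvccT l j).rot * w, pvlj_lane_exit _ hw, ?_⟩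
  show pvccZ z d l j + pvccD d l j * ((pvccT l j).mid + (pvccT l j).rot * w) = pvccZ z d l (j + 1) + pvccD d l (j + 1) * w
  rw [pvccZ_succ z d l hj, pvccD_succ d l hj]; ring

/-- a rectangle cut at the abscissa `0` -/
theorem pvlj_rect_split (z d : ℂ) (x₀ x₁ y₀ y₁ : ℝ) : pvccPl z d (pvljRect x₀ x₁ y₀ y₁) ⊆ pvccPl z d (pvljRect x₀ 0 y₀ y₁) ∪ pvccPl z d (pvljRect 0 x₁ y₀ y₁) := by
  rintro _ ⟨w, ⟨h1, h2, h3, h4⟩, rfl⟩
  rcases le_total w.re 0 with h | h
  · exact Or.inl ⟨w, ⟨h1, h, h3, h4⟩, rfl⟩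
  · exact Or.inr ⟨w, ⟨h, h2, h3, h4⟩, rfl⟩

/-- **the straight piece through the door `j + 1`** is a rectangle inside the lane -/
theorem pvlj_door_rect (a b : ℝ) (z d : ℂ) (l : List PvtTurn) {j : ℕ} (hj : j + 1 < l.length) :
    pvccPl (pvccZ z d l (j + 1)) (pvccD d l (j + 1)) (pvljRect (-(pvljLen a b (pvccT l j))) (pvljLen a b (pvccT l (j + 1))) a b) ⊆ pvfeLanes a b z d l :=
  (pvlj_rect_split _ _ _ _ _ _).trans (union_subset (pvlj_exit_sub a b z d l (by omega)) (pvlj_entry_sub a b z d l hj))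

/-- a ball round a point of the frame of the door `j` -/
theorem pvlj_ball_pt (z : ℂ) {d : ℂ} (hd : d ≠ 0) (l : List PvtTurn) (j : ℕ) {x₀ x₁ y₀ y₁ s t u : ℝ} (h1 : x₀ + s ≤ t) (h2 : t + s ≤ x₁) (h3 : y₀ + s ≤ u) (h4 : u + s ≤ y₁) :
    closedBall (pvljPt z d l j t u) (s * ‖d‖) ⊆ pvccPl (pvccZ z d l j) (pvccD d l j) (pvljRect x₀ x₁ y₀ y₁) := by
  have := pvlj_ball_pl (pvccZ z d l j) (pvlj_D_ne hd l j) (x₀ := x₀) (x₁ := x₁) (y₀ := y₀) (y₁ := y₁) (s := s) (w := (t : ℂ) + (u : ℂ) * I)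
    (by simpa using h1) (by simpa using h2) (by simpa using h3) (by simpa using h4)
  rwa [pvfe_norm_frame] at this

/-- the ball of a middle point lies in the lane -/
theorem pvlj_mid_core {a b s u : ℝ} (ha : -(1 / 2) ≤ a) (hb : b ≤ 1 / 2) (h1 : a + s ≤ u) (h2 : u + s ≤ b) (hs : s ≤ 1 / 2) (z : ℂ) {d : ℂ} (hd : d ≠ 0) (l : List PvtTurn) {j : ℕ}
    (hj : j < l.length) : closedBall (pvljMid u z d l j) (s * ‖d‖) ⊆ pvfeLanes a b z d l :=
  (pvlj_ball_pt z hd l j (by linarith [pvlj_X_ge ha hb h1 h2 hs (pvccT l j)]) (pvlj_X_len h1 h2 hs (pvccT l j)) h1 h2).trans (pvlj_entry_sub a b z d l hj)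

/-- **(J1) THE CORE OF A LANE IS JOINED ALONG THE LINE OF OFFSET `u`**      (`a + s ≤ u ≤ b - s`; `r = s ‖d‖`) -/
theorem pvlj_lanes_core {a b s u : ℝ} (ha : -(1 / 2) ≤ a) (hb : b ≤ 1 / 2) (h1 : a + s ≤ u) (h2 : u + s ≤ b) (hs0 : 0 ≤ s) (hs : s ≤ 1 / 2) (z : ℂ) {d : ℂ} (hd : d ≠ 0) (l : List PvtTurn) {j k : ℕ}
    (hjk : j ≤ k) (hk : k < l.length) : JoinedIn (pvljCore (s * ‖d‖) (pvfeLanes a b z d l)) (pvljMid u z d l j) (pvljMid u z d l k) := by
  refine pvlj_joined_chain' (fun i => pvljMid u z d l i)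
    (fun i => pvccPl (pvccZ z d l (i + 1)) (pvccD d l (i + 1)) (pvljRect (-(pvljLen a b (pvccT l i))) (pvljLen a b (pvccT l (i + 1))) a b)) hjk
    (pvlj_mid_core ha hb h1 h2 hs z hd l (by omega)) fun i _ hik => ⟨pvlj_pl_convex _ _ (pvlj_rect_convex _ _ _ _), pvlj_door_rect a b z d l (by omega), ?_, ?_⟩
  · show closedBall (pvljMid u z d l i) _ ⊆ _
    rw [pvlj_mid_exit u z d l (by omega : i < l.length)]
    have q1 := pvlj_X_len h1 h2 hs (pvccT l i)
    have q2 := pvlj_X_ge ha hb h1 h2 hs (pvccT l i)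
    have q3 := pvlj_X_len h1 h2 hs (pvccT l (i + 1))
    have q4 := pvlj_X_ge ha hb h1 h2 hs (pvccT l (i + 1))
    exact pvlj_ball_pt z hd l (i + 1) (by linarith) (by linarith) h1 h2
  · show closedBall (pvljMid u z d l (i + 1)) _ ⊆ _
    have q1 := pvlj_X_len h1 h2 hs (pvccT l i)
    have q2 := pvlj_X_ge ha hb h1 h2 hs (pvccT l i)
    have q3 := pvlj_X_len h1 h2 hs (pvccT l (i + 1))
    have q4 := pvlj_X_ge ha hb h1 h2 hs (pvccT l (i + 1))
    exact pvlj_ball_pt z hd l (i + 1) (by linarith) (by linarith) h1 h2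

/-- **a rectangular cap glued at the first door**: from the abscissa `t ∈ [-c + s, ..]` behind the door to the middle of the first cell -/
theorem pvlj_lanes_entry {a b s u c t : ℝ} (ha : -(1 / 2) ≤ a) (hb : b ≤ 1 / 2) (h1 : a + s ≤ u) (h2 : u + s ≤ b) (hs : s ≤ 1 / 2) (z : ℂ) {d : ℂ} (hd : d ≠ 0) {l : List PvtTurn}
    (hl : 0 < l.length) {R : Set ℂ} (hR : pvfeLanes a b z d l ⊆ R) (hcap : pvccPl z d (pvljRect (-c) 0 a b) ⊆ R) (ht : -c + s ≤ t) (ht' : t ≤ pvljX u (pvccT l 0)) :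
    JoinedIn (pvljCore (s * ‖d‖) R) (pvljPt z d l 0 t u) (pvljMid u z d l 0) := by
  have q1 := pvlj_X_len h1 h2 hs (pvccT l 0)
  have hsub : pvccPl (pvccZ z d l 0) (pvccD d l 0) (pvljRect (-c) (pvljLen a b (pvccT l 0)) a b) ⊆ R := by
    refine (pvlj_rect_split _ _ _ _ _ _).trans (union_subset ?_ ((pvlj_entry_sub a b z d l hl).trans hR))
    simpa using hcap
  exact pvlj_joined_convex (pvlj_pl_convex _ _ (pvlj_rect_convex _ _ _ _)) hsub (pvlj_ball_pt z hd l 0 ht (by linarith) h1 h2) (pvlj_ball_pt z hd l 0 (by linarith) q1 h1 h2)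

/-- **a rectangular cap glued at the last door** -/
theorem pvlj_lanes_exit {a b s u c t : ℝ} (ha : -(1 / 2) ≤ a) (hb : b ≤ 1 / 2) (h1 : a + s ≤ u) (h2 : u + s ≤ b) (hs : s ≤ 1 / 2) (z : ℂ) {d : ℂ} (hd : d ≠ 0) {l : List PvtTurn} {n : ℕ}
    (hl : n + 1 = l.length) {R : Set ℂ} (hR : pvfeLanes a b z d l ⊆ R) (hcap : pvccPl (pvccZ z d l (n + 1)) (pvccD d l (n + 1)) (pvljRect 0 c a b) ⊆ R) (ht : t + s ≤ c)
    (ht' : -(pvljX u (pvccT l n)) ≤ t) : JoinedIn (pvljCore (s * ‖d‖) R) (pvljMid u z d l n) (pvljPt z d l (n + 1) t u) := by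
  have q1 := pvlj_X_len h1 h2 hs (pvccT l n)
  have hsub : pvccPl (pvccZ z d l (n + 1)) (pvccD d l (n + 1)) (pvljRect (-(pvljLen a b (pvccT l n))) c a b) ⊆ R :=
    (pvlj_rect_split _ _ _ _ _ _).trans (union_subset ((pvlj_exit_sub a b z d l (by omega)).trans hR) hcap)
  rw [pvlj_mid_exit u z d l (by omega : n < l.length)]
  exact pvlj_joined_convex (pvlj_pl_convex _ _ (pvlj_rect_convex _ _ _ _)) hsub (pvlj_ball_pt z hd l (n + 1) (by linarith) (by linarith) h1 h2) (pvlj_ball_pt z hd l (n + 1) (by linarith) ht h1 h2)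

/-- **(J1) DOOR TO DOOR**: region `R ⊇` lane `∪` two rectangular caps of depth `c₀`, `c₁`; the line of offset `u` from depth `t₀` behind the first door to depth `t₁` beyond the last door is joined in the core of `R` -/
theorem pvlj_lanes_through {a b s u c₀ c₁ t₀ t₁ : ℝ} (ha : -(1 / 2) ≤ a) (hb : b ≤ 1 / 2) (h1 : a + s ≤ u) (h2 : u + s ≤ b) (hs : s ≤ 1 / 2) (z : ℂ) {d : ℂ} (hd : d ≠ 0) {l : List PvtTurn}
    (hl : 0 < l.length) {R : Set ℂ} (hR : pvfeLanes a b z d l ⊆ R) (hcap₀ : pvccPl z d (pvljRect (-c₀) 0 a b) ⊆ R)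
    (hcap₁ : pvccPl (pvccZ z d l l.length) (pvccD d l l.length) (pvljRect 0 c₁ a b) ⊆ R) (ht₀ : -c₀ + s ≤ t₀) (ht₀' : t₀ ≤ 0) (ht₁ : t₁ + s ≤ c₁) (ht₁' : 0 ≤ t₁) (hs0 : 0 ≤ s) :
    JoinedIn (pvljCore (s * ‖d‖) R) (pvljPt z d l 0 t₀ u) (pvljPt z d l l.length t₁ u) := by
  obtain ⟨n, hn⟩ : ∃ n, n + 1 = l.length := ⟨l.length - 1, by omega⟩
  have e1 := pvlj_lanes_entry ha hb h1 h2 hs z hd hl hR hcap₀ ht₀ (ht₀'.trans (hs0.trans (pvlj_X_ge ha hb h1 h2 hs _)))
  have e2 := (pvlj_lanes_core ha hb h1 h2 hs0 hs z hd l (Nat.zero_le n) (by omega)).mono (pvlj_core_mono _ hR)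
  have e3 := pvlj_lanes_exit (t := t₁) ha hb h1 h2 hs z hd hn hR (by rw [hn]; exact hcap₁) ht₁ (by linarith [pvlj_X_ge ha hb h1 h2 hs (pvccT l n)])
  rw [hn] at e3
  exact (e1.trans e2).trans e3

/-! ## 4. monotonicity, bounding ball -/

theorem pvlj_lane_mono {a b a' b' : ℝ} (h1 : a' ≤ a) (h2 : b ≤ b') (τ : PvtTurn) : pvfeLane a b τ ⊆ pvfeLane a' b' τ := by
  intro w hw
  cases τ with
  | S => obtain ⟨q1, q2, q3, q4⟩ := hw; exact ⟨q1, q2, by linarith, by linarith⟩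
  | L =>
    rcases hw with ⟨q1, q2, q3, q4⟩ | ⟨q1, q2, q3, q4⟩
    · exact Or.inl ⟨q1, by linarith, by linarith, by linarith⟩
    · exact Or.inr ⟨by linarith, by linarith, by linarith, q4⟩
  | R =>
    rcases hw with ⟨q1, q2, q3, q4⟩ | ⟨q1, q2, q3, q4⟩
    · exact Or.inl ⟨q1, by linarith, by linarith, by linarith⟩
    · exact Or.inr ⟨by linarith, by linarith, q3, by linarith⟩

theorem pvlj_lanes_mono {a b a' b' : ℝ} (h1 : a' ≤ a) (h2 : b ≤ b') (z d : ℂ) (l : List PvtTurn) : pvfeLanes a b z d l ⊆ pvfeLanes a' b' z d l := by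
  unfold pvfeLanes
  exact iUnion₂_mono fun j _ => pvccPl_mono _ _ (pvlj_lane_mono h1 h2 _)

theorem pvlj_norm_mid (τ : PvtTurn) : ‖τ.mid‖ ≤ 1 := by
  rw [pvt_mid_eq, norm_div]
  have h1 : ‖(1 : ℂ) + τ.rot‖ ≤ 2 := by
    calc ‖(1 : ℂ) + τ.rot‖ ≤ ‖(1 : ℂ)‖ + ‖τ.rot‖ := norm_add_le _ _
      _ = 2 := by rw [pvt_norm_rot]; norm_num
  have h2 : ‖(2 : ℂ)‖ = 2 := by norm_num
  rw [h2]; linarith

theorem pvlj_door_norm (z d : ℂ) (l : List PvtTurn) : ∀ j, j ≤ l.length → ‖pvccZ z d l j - z‖ ≤ j * ‖d‖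
  | 0, _ => by simp
  | j + 1, hj => by
    have ih := pvlj_door_norm z d l j (by omega)
    rw [pvccZ_succ z d l (by omega)]
    have e : pvccZ z d l j + pvccD d l j * (pvccT l j).mid - z = (pvccZ z d l j - z) + pvccD d l j * (pvccT l j).mid := by ring
    rw [e]
    have h1 : ‖pvccD d l j * (pvccT l j).mid‖ ≤ ‖d‖ := by
      rw [norm_mul, pvfe_norm_frame]
      exact mul_le_of_le_one_right (norm_nonneg _) (pvlj_norm_mid _)
    push_cast
    linarith [norm_add_le (pvccZ z d l j - z) (pvccD d l j * (pvccT l j).mid)]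

/-- **(J3) THE BOUNDING BALL** -/
theorem pvlj_lanes_ball {a b : ℝ} (ha : -(1 / 2) ≤ a) (hb : b ≤ 1 / 2) (z d : ℂ) (l : List PvtTurn) : pvfeLanes a b z d l ⊆ closedBall z ((l.length + 1) * ‖d‖) := by
  intro w hw
  obtain ⟨j, hj, hwj⟩ := mem_iUnion₂.1 hw
  have hj' : j < l.length := Finset.mem_range.1 hj
  have h1 := mem_closedBall_iff_norm.1 (pvfe_K_sub_ball ha hb z d l j hwj)
  have h2 := pvlj_door_norm z d l j hj'.le
  have h3 : ‖pvccC z d l j - pvccZ z d l j‖ = ‖d‖ / 2 := by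
    unfold pvccC
    rw [add_sub_cancel_left, norm_div, pvfe_norm_frame]; norm_num
  rw [mem_closedBall_iff_norm]
  have e : w - z = (w - pvccC z d l j) + (pvccC z d l j - pvccZ z d l j) + (pvccZ z d l j - z) := by ring
  have h4 : (j : ℝ) + 1 ≤ l.length := by exact_mod_cast hj'
  have h5 := norm_nonneg d
  calc ‖w - z‖ ≤ ‖w - pvccC z d l j‖ + ‖pvccC z d l j - pvccZ z d l j‖ + ‖pvccZ z d l j - z‖ := by rw [e]; exact norm_add₃_le
    _ ≤ ‖d‖ + ‖d‖ / 2 + j * ‖d‖ := by rw [h3]; linarith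
    _ ≤ (l.length + 1) * ‖d‖ := by nlinarith

/-! ## 5. separation -/

/-- lanes of disjoint offsets in ONE cell -/
theorem pvlj_lane_disj {a b a' b' : ℝ} (h : b < a') (τ : PvtTurn) : Disjoint (pvfeLane a b τ) (pvfeLane a' b' τ) := by
  rw [Set.disjoint_left]
  intro w hw hw'
  cases τ with
  | S => obtain ⟨q1, q2, q3, q4⟩ := hw; obtain ⟨p1, p2, p3, p4⟩ := hw'; linarith
  | L => rcases hw with ⟨q1, q2, q3, q4⟩ | ⟨q1, q2, q3, q4⟩ <;> rcases hw' with ⟨p1, p2, p3, p4⟩ | ⟨p1, p2, p3, p4⟩ <;> linarith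
  | R => rcases hw with ⟨q1, q2, q3, q4⟩ | ⟨q1, q2, q3, q4⟩ <;> rcases hw' with ⟨p1, p2, p3, p4⟩ | ⟨p1, p2, p3, p4⟩ <;> linarith

/-- a point of a lane on the entrance door has its offset in `[a,b]` -/
theorem pvlj_lane_door_in {a b : ℝ} (ha : -(1 / 2) ≤ a) (hb : b ≤ 1 / 2) (τ : PvtTurn) {w : ℂ} (hw : w ∈ pvfeLane a b τ) (h0 : w.re = 0) : a ≤ w.im ∧ w.im ≤ b := by
  cases τ with
  | S => exact ⟨hw.2.2.1, hw.2.2.2⟩
  | L =>
    rcases hw with ⟨q1, q2, q3, q4⟩ | ⟨q1, q2, q3, q4⟩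
    · exact ⟨q3, q4⟩
    · exact ⟨q3, by linarith⟩
  | R =>
    rcases hw with ⟨q1, q2, q3, q4⟩ | ⟨q1, q2, q3, q4⟩
    · exact ⟨q3, q4⟩
    · exact ⟨by linarith, q4⟩

/-- a point of a lane on the exit door has its offset in `[a,b]` -/
theorem pvlj_lane_door_out {a b : ℝ} (ha : -(1 / 2) ≤ a) (hb : b ≤ 1 / 2) (τ : PvtTurn) {o : ℝ} (hw : τ.mid + τ.rot * ((o : ℂ) * I) ∈ pvfeLane a b τ) : a ≤ o ∧ o ≤ b := by
  obtain ⟨e1, e2⟩ := pvlj_exit_re_im τ ((o : ℂ) * I)
  have i1 : ((o : ℂ) * I).re = 0 := by simp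
  have i2 : ((o : ℂ) * I).im = o := by simp
  rw [i1, i2] at e1 e2
  cases τ with
  | S =>
    simp only at e1 e2
    obtain ⟨q1, q2, q3, q4⟩ := hw
    rw [e2] at q3 q4
    exact ⟨q3, q4⟩
  | L =>
    simp only at e1 e2
    rcases hw with ⟨q1, q2, q3, q4⟩ | ⟨q1, q2, q3, q4⟩ <;> rw [e1] at q1 q2 <;> rw [e2] at q3 q4 <;> constructor <;> linarith
  | R =>
    simp only at e1 e2
    rcases hw with ⟨q1, q2, q3, q4⟩ | ⟨q1, q2, q3, q4⟩ <;> rw [e1] at q1 q2 <;> rw [e2] at q3 q4 <;> constructor <;> linarith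

/-- **a lane strictly inside its cell touches the other cells of the grid only through its two doors** -/
theorem pvlj_touch {α β : ℝ} (h1 : -(1 / 2) < α) (h2 : β < 1 / 2) (τ : PvtTurn) {w g : ℂ} (hw : w ∈ pvfeLane α β τ) (hg : PvccG g) (hg0 : g ≠ 0) (hN : pvccN (w - 1 / 2 - g) ≤ 1 / 2) :
    (g = -1 ∧ w.re = 0 ∧ α ≤ w.im ∧ w.im ≤ β) ∨ (g = τ.rot ∧ ∃ o : ℝ, α ≤ o ∧ o ≤ β ∧ w = τ.mid + τ.rot * ((o : ℂ) * I)) := by
  obtain ⟨m, n, rfl⟩ := hg
  have e1 : (w - 1 / 2 - ((m : ℂ) + (n : ℂ) * I)).re = w.re - 1 / 2 - m := by simp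
  have e2 : (w - 1 / 2 - ((m : ℂ) + (n : ℂ) * I)).im = w.im - n := by simp
  have r1 := abs_le.1 ((le_max_left _ _).trans hN)
  have r2 := abs_le.1 ((le_max_right _ _).trans hN)
  rw [e1] at r1
  rw [e2] at r2
  obtain ⟨r1a, r1b⟩ := r1
  obtain ⟨r2a, r2b⟩ := r2
  have hne : ¬ (m = 0 ∧ n = 0) := by
    rintro ⟨rfl, rfl⟩
    exact hg0 (by simp)
  cases τ with
  | S =>
    obtain ⟨q1, q2, q3, q4⟩ := hw
    have n0 : n = 0 := by
      have a1 : (n : ℝ) < 1 := by linarith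
      have a2 : (-1 : ℝ) < n := by linarith
      have a1' : n < 1 := by exact_mod_cast a1
      have a2' : -1 < n := by exact_mod_cast a2
      omega
    have m1 : (m : ℝ) ≤ 1 := by linarith
    have m2 : (-1 : ℝ) ≤ m := by linarith
    have m1' : m ≤ 1 := by exact_mod_cast m1
    have m2' : -1 ≤ m := by exact_mod_cast m2
    have hm : m = -1 ∨ m = 1 := by omega
    subst n0
    rcases hm with rfl | rfl
    · left
      push_cast at r1a r1b
      exact ⟨by simp, by linarith, q3, q4⟩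
    · right
      push_cast at r1a r1b
      refine ⟨by simp [PvtTurn.rot], w.im, q3, q4, ?_⟩
      apply Complex.ext
      · simp [PvtTurn.rot, PvtTurn.mid]; linarith
      · simp [PvtTurn.rot, PvtTurn.mid]
  | L =>
    have hre : w.re < 1 ∧ -(1 / 2) < w.im := by
      rcases hw with ⟨q1, q2, q3, q4⟩ | ⟨q1, q2, q3, q4⟩ <;> constructor <;> linarith
    have m1 : (m : ℝ) < 1 := by linarith [hre.1]
    have n1 : (-1 : ℝ) < n := by linarith [hre.2]
    have m1' : m < 1 := by exact_mod_cast m1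
    have n1' : -1 < n := by exact_mod_cast n1
    rcases hw with ⟨q1, q2, q3, q4⟩ | ⟨q1, q2, q3, q4⟩
    · have n2 : (n : ℝ) < 1 := by linarith
      have n2' : n < 1 := by exact_mod_cast n2
      have n0 : n = 0 := by omega
      have m2 : (-1 : ℝ) ≤ m := by linarith
      have m2' : -1 ≤ m := by exact_mod_cast m2
      have hm : m = -1 := by omega
      subst n0; subst hm
      left
      push_cast at r1a r1b
      exact ⟨by simp, by linarith, q3, q4⟩
    · have m2 : (-1 : ℝ) < m := by linarith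
      have m2' : -1 < m := by exact_mod_cast m2
      have m0 : m = 0 := by omega
      have n2 : (n : ℝ) ≤ 1 := by linarith
      have n2' : n ≤ 1 := by exact_mod_cast n2
      have hn : n = 1 := by omega
      subst m0; subst hn
      right
      push_cast at r2a r2b
      refine ⟨by simp [PvtTurn.rot], 1 / 2 - w.re, by linarith, by linarith, ?_⟩
      apply Complex.ext
      · simp [PvtTurn.rot, PvtTurn.mid]
      · simp [PvtTurn.rot, PvtTurn.mid]; linarith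
  | R =>
    have hre : w.re < 1 ∧ w.im < 1 / 2 := by
      rcases hw with ⟨q1, q2, q3, q4⟩ | ⟨q1, q2, q3, q4⟩ <;> constructor <;> linarith
    have m1 : (m : ℝ) < 1 := by linarith [hre.1]
    have n1 : (n : ℝ) < 1 := by linarith [hre.2]
    have m1' : m < 1 := by exact_mod_cast m1
    have n1' : n < 1 := by exact_mod_cast n1
    rcases hw with ⟨q1, q2, q3, q4⟩ | ⟨q1, q2, q3, q4⟩
    · have n2 : (-1 : ℝ) < n := by linarith
      have n2' : -1 < n := by exact_mod_cast n2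
      have n0 : n = 0 := by omega
      have m2 : (-1 : ℝ) ≤ m := by linarith
      have m2' : -1 ≤ m := by exact_mod_cast m2
      have hm : m = -1 := by omega
      subst n0; subst hm
      left
      push_cast at r1a r1b
      exact ⟨by simp, by linarith, q3, q4⟩
    · have m2 : (-1 : ℝ) < m := by linarith
      have m2' : -1 < m := by exact_mod_cast m2
      have m0 : m = 0 := by omega
      have n2 : (-1 : ℝ) ≤ n := by linarith
      have n2' : -1 ≤ n := by exact_mod_cast n2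
      have hn : n = -1 := by omega
      subst m0; subst hn
      right
      push_cast at r2a r2b
      refine ⟨by simp [PvtTurn.rot], w.re - 1 / 2, by linarith, by linarith, ?_⟩
      apply Complex.ext
      · simp [PvtTurn.rot, PvtTurn.mid]
      · simp [PvtTurn.rot, PvtTurn.mid]; linarith

/-- the centre of the next cell -/
theorem pvlj_C_succ (z d : ℂ) (l : List PvtTurn) {j : ℕ} (hj : j < l.length) : pvccC z d l (j + 1) = pvccC z d l j + pvccD d l (j + 1) := by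
  rw [← pvccC_prev z d l hj, pvccC]; ring

theorem pvlj_lane_N {a b : ℝ} (ha : -(1 / 2) ≤ a) (hb : b ≤ 1 / 2) (τ : PvtTurn) {w : ℂ} (hw : w ∈ pvfeLane a b τ) : pvccN (w - 1 / 2) ≤ 1 / 2 := by
  obtain ⟨q1, q2, q3, q4⟩ := pvfe_lane_cell ha hb τ hw
  have e1 : (w - 1 / 2).re = w.re - 1 / 2 := by simp
  have e2 : (w - 1 / 2).im = w.im := by simp
  unfold pvccN
  rw [e1, e2]
  exact max_le (abs_le.2 ⟨by linarith, by linarith⟩) (abs_le.2 ⟨by linarith, by linarith⟩)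

/-- **two cells** (unit coordinates): the lane `[α,β]` strictly inside, the lane `[α',β']` anywhere in the cell, disjoint offsets -/
theorem pvlj_cells_disj {α β α' β' : ℝ} (h1 : -(1 / 2) < α) (h2 : β < 1 / 2) (h1' : -(1 / 2) ≤ α') (h2' : β' ≤ 1 / 2) (hdis : β < α' ∨ β' < α) {l : List PvtTurn}
    (hS : PvccSimple l l.length) {j k : ℕ} (hj : j < l.length) (hk : k < l.length) (hback : j = 0 → pvccC 0 1 l k ≠ -(1 / 2)) :
    Disjoint (pvccK (pvfeLane α β) 0 1 l j) (pvccK (pvfeLane α' β') 0 1 l k) := by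
  rw [Set.disjoint_left]
  rintro p ⟨w, hw, rfl⟩ ⟨w', hw', e⟩
  have e : pvccZ 0 1 l k + pvccD 1 l k * w' = pvccZ 0 1 l j + pvccD 1 l j * w := e
  have uj := pvccD_pow_four (one_pow 4) l j
  have uk := pvccD_pow_four (one_pow 4) l k
  have hDj : pvccD 1 l j ≠ 0 := pvlj_D_ne one_ne_zero l j
  have hDk : pvccD 1 l k ≠ 0 := pvlj_D_ne one_ne_zero l k
  by_cases hjk : j = k
  · subst hjk
    have hww : w' = w := mul_left_cancel₀ hDj (add_left_cancel e)
    subst hww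
    rcases hdis with h | h
    · exact Set.disjoint_left.1 (pvlj_lane_disj h _) hw hw'
    · exact Set.disjoint_left.1 (pvlj_lane_disj h _) hw' hw
  · set g : ℂ := pvccD 1 l j ^ 3 * (pvccC 0 1 l k - pvccC 0 1 l j) with hgdef
    have u3 : (pvccD 1 l j ^ 3) ^ 4 = 1 := by rw [← pow_mul, mul_comm, pow_mul, uj, one_pow]
    have hgG : PvccG g := PvccG.unit_mul u3 (pvccC_sub_gauss l k j)
    have hg0 : g ≠ 0 := mul_ne_zero (pow_ne_zero 3 hDj) (sub_ne_zero.2 fun h => hjk (hS j k hj.le hk.le h.symm))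
    have hDg : pvccD 1 l j * g = pvccC 0 1 l k - pvccC 0 1 l j := by
      rw [hgdef, ← mul_assoc, ← pow_succ', uj, one_mul]
    have hN : pvccN (w - 1 / 2 - g) ≤ 1 / 2 := by
      have e3 : pvccD 1 l j * (w - 1 / 2 - g) = pvccD 1 l k * (w' - 1 / 2) := by
        rw [mul_sub, hDg]; unfold pvccC; linear_combination -e
      rw [← pvccN_unit_mul uj, e3, pvccN_unit_mul uk]
      exact pvlj_lane_N h1' h2' _ hw'
    rcases pvlj_touch h1 h2 _ hw hgG hg0 hN with ⟨gm, w0, wa, wb⟩ | ⟨gr, o, oa, ob, hwo⟩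
    · have hC : pvccC 0 1 l k = pvccC 0 1 l j - pvccD 1 l j := by
        rw [gm] at hDg; linear_combination -hDg
      rcases Nat.eq_zero_or_pos j with rfl | hj0
      · refine hback rfl ?_
        rw [hC]; simp [pvccC]; norm_num
      · obtain ⟨i, rfl⟩ : ∃ i, j = i + 1 := ⟨j - 1, by omega⟩
        have hprev := pvccC_prev 0 1 l (by omega : i < l.length)
        have hCi : pvccC 0 1 l k = pvccC 0 1 l i := by rw [hC, ← hprev, pvccC]; ring
        have hki : k = i := hS k i hk.le (by omega) hCi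
        subst hki
        have hwI : w = (w.im : ℂ) * I := by apply Complex.ext <;> simp [w0]
        have hw'eq : w' = (pvccT l k).mid + (pvccT l k).rot * ((w.im : ℂ) * I) := by
          rw [pvccZ_succ 0 1 l hk, pvccD_succ 1 l hk] at e
          apply mul_left_cancel₀ hDk
          rw [← hwI]; linear_combination e
        rw [hw'eq] at hw'
        obtain ⟨o1, o2⟩ := pvlj_lane_door_out h1' h2' _ hw'
        rcases hdis with h | h <;> linarith
    · have hC : pvccC 0 1 l k = pvccC 0 1 l (j + 1) := by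
        rw [pvlj_C_succ 0 1 l hj, pvccD_succ 1 l hj, ← gr]; linear_combination -hDg
      have hkj : k = j + 1 := hS k (j + 1) hk.le (by omega) hC
      subst hkj
      have hw'eq : w' = (o : ℂ) * I := by
        apply mul_left_cancel₀ hDk
        rw [pvccZ_succ 0 1 l hj, hwo] at e
        have e4 := pvccD_succ 1 l hj
        rw [e4] at e ⊢
        linear_combination e
      rw [hw'eq] at hw'
      obtain ⟨o1, o2⟩ := pvlj_lane_door_in h1' h2' _ hw' (by simp)
      have i2 : ((o : ℂ) * I).im = o := by simp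
      rw [i2] at o1 o2
      rcases hdis with h | h <;> linarith

/-- **(J2) LANES OF DISJOINT OFFSETS ARE DISJOINT**      (`[α,β]` strictly inside; `hback`: no cell of the corridor is the cell behind the first door; see `pvlj_nr_back`) -/
theorem pvlj_lanes_disj {α β α' β' : ℝ} (h1 : -(1 / 2) < α) (h2 : β < 1 / 2) (h1' : -(1 / 2) ≤ α') (h2' : β' ≤ 1 / 2) (hdis : β < α' ∨ β' < α) {l : List PvtTurn}
    (hS : PvccSimple l l.length) (hback : ∀ k, k < l.length → pvccC 0 1 l k ≠ -(1 / 2)) (z : ℂ) {d : ℂ} (hd : d ≠ 0) :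
    Disjoint (pvfeLanes α β z d l) (pvfeLanes α' β' z d l) := by
  rw [Set.disjoint_left]
  intro p hp hp'
  obtain ⟨j, hj, hpj⟩ := mem_iUnion₂.1 hp
  obtain ⟨k, hk, hpk⟩ := mem_iUnion₂.1 hp'
  rw [pvccK_cov] at hpj hpk
  exact Set.disjoint_left.1 (pvccPl_disjoint z hd (pvlj_cells_disj h1 h2 h1' h2' hdis hS (Finset.mem_range.1 hj) (Finset.mem_range.1 hk) fun _ => hback k (Finset.mem_range.1 hk))) hpj hpk

theorem pvlj_rot_ne (τ : PvtTurn) : (1 : ℂ) / 2 + 1 * τ.rot ≠ -(1 / 2) := by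
  intro e
  have r1 := congrArg Complex.re e
  cases τ <;> simp [PvtTurn.rot] at r1 <;> norm_num at r1

theorem pvlj_rot2_ne (τ τ' : PvtTurn) : (1 : ℂ) / 2 + 1 * τ.rot + 1 * τ.rot * τ'.rot ≠ -(1 / 2) := by
  intro e
  have r1 := congrArg Complex.re e
  have r2 := congrArg Complex.im e
  cases τ <;> cases τ' <;> simp [PvtTurn.rot] at r1 r2 <;> norm_num at r1

/-- no near return ⟹ no cell of the corridor is the cell behind the first door -/
theorem pvlj_nr_back {l : List PvtTurn} (h : PvfeNR l) : ∀ k, k ≤ l.length → pvccC 0 1 l k ≠ -(1 / 2) := by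
  intro k hk e
  have c0 : pvccC 0 1 l 0 = 1 / 2 := by simp [pvccC]
  rcases Nat.lt_or_ge k 3 with h3 | h3
  · interval_cases k
    · rw [c0] at e; norm_num at e
    · have e1 := pvlj_C_succ 0 1 l (by omega : 0 < l.length)
      rw [pvccD_succ 1 l (by omega : 0 < l.length), c0, pvccD_zero] at e1
      rw [e1] at e
      exact pvlj_rot_ne _ e
    · have e1 := pvlj_C_succ 0 1 l (by omega : 0 < l.length)
      have e2 := pvlj_C_succ 0 1 l (by omega : 1 < l.length)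
      rw [pvccD_succ 1 l (by omega : 1 < l.length), e1, pvccD_succ 1 l (by omega : 0 < l.length), c0, pvccD_zero] at e2
      rw [e2] at e
      exact pvlj_rot2_ne _ _ e
  · have := h 0 k (by omega) hk
    rw [c0, e] at this
    have e5 : pvccN ((1 : ℂ) / 2 - -(1 / 2)) = 1 := by
      have : ((1 : ℂ) / 2 - -(1 / 2)) = 1 := by norm_num
      rw [this]; simp [pvccN]
    rw [e5] at this
    norm_num at this

/-! ## 6. fattening, distance between lanes -/

/-- half length of the entry (exit) rectangle -/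
noncomputable def pvljHalf (a b : ℝ) : PvtTurn → ℝ
  | PvtTurn.S => 1 / 2
  | PvtTurn.L => 1 / 2 - a
  | PvtTurn.R => 1 / 2 + b

/-- a point of a lane lies in the (half) entry rectangle or in the (half) exit rectangle -/
theorem pvlj_lane_split {a b : ℝ} (τ : PvtTurn) {w : ℂ} (hw : w ∈ pvfeLane a b τ) :
    w ∈ pvljRect 0 (pvljHalf a b τ) a b ∨ ∃ v ∈ pvljRect (-(pvljHalf a b τ)) 0 a b, w = τ.mid + τ.rot * v := by
  cases τ with
  | S =>
    obtain ⟨q1, q2, q3, q4⟩ := hw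
    rcases le_total w.re (1 / 2) with h | h
    · exact Or.inl ⟨q1, h, q3, q4⟩
    · refine Or.inr ⟨w - 1, ⟨?_, ?_, ?_, ?_⟩, ?_⟩
      · simp only [pvljHalf, sub_re, one_re]; linarith
      · simp only [sub_re, one_re]; linarith
      · simpa using q3
      · simpa using q4
      · simp [PvtTurn.mid, PvtTurn.rot]
  | L =>
    rcases hw with ⟨q1, q2, q3, q4⟩ | ⟨q1, q2, q3, q4⟩
    · exact Or.inl ⟨q1, q2, q3, q4⟩
    · refine Or.inr ⟨((w.im - 1 / 2 : ℝ) : ℂ) + ((1 / 2 - w.re : ℝ) : ℂ) * I, ⟨?_, ?_, ?_, ?_⟩, ?_⟩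
      · simp [pvljHalf]; linarith
      · simp; linarith
      · simp; linarith
      · simp; linarith
      · apply Complex.ext <;> simp [PvtTurn.mid, PvtTurn.rot]
  | R =>
    rcases hw with ⟨q1, q2, q3, q4⟩ | ⟨q1, q2, q3, q4⟩
    · exact Or.inl ⟨q1, q2, q3, q4⟩
    · refine Or.inr ⟨((-(1 / 2) - w.im : ℝ) : ℂ) + ((w.re - 1 / 2 : ℝ) : ℂ) * I, ⟨?_, ?_, ?_, ?_⟩, ?_⟩
      · simp [pvljHalf]; linarith
      · simp; linarith
      · simp; linarith
      · simp; linarith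
      · apply Complex.ext <;> simp [PvtTurn.mid, PvtTurn.rot] <;> ring

theorem pvlj_half_len {a b s : ℝ} (hs : s ≤ 1 / 2) (τ : PvtTurn) : pvljHalf a b τ + s ≤ pvljLen (a - s) (b + s) τ := by
  cases τ <;> simp only [pvljHalf, pvljLen] <;> linarith

theorem pvlj_le_len {a b s : ℝ} (ha : -(1 / 2) ≤ a) (hb : b ≤ 1 / 2) (hab : a ≤ b) (hs : s ≤ 1 / 2) (τ : PvtTurn) : s ≤ pvljLen (a - s) (b + s) τ := by
  cases τ <;> simp only [pvljLen] <;> linarith

/-- a ball round a point of a placed rectangle lies in the fattened rectangle -/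
theorem pvlj_ball_fat (z : ℂ) {d : ℂ} (hd : d ≠ 0) {x₀ x₁ y₀ y₁ : ℝ} (s : ℝ) {w : ℂ} (hw : w ∈ pvljRect x₀ x₁ y₀ y₁) :
    closedBall (z + d * w) (s * ‖d‖) ⊆ pvccPl z d (pvljRect (x₀ - s) (x₁ + s) (y₀ - s) (y₁ + s)) := by
  obtain ⟨q1, q2, q3, q4⟩ := hw
  exact pvlj_ball_pl z hd (by linarith) (by linarith) (by linarith) (by linarith)

/-- **FATTENING**: the `s ‖d‖`-ball of a point of the lane `[a,b]` in an INNER cell lies in the lane `[a - s, b + s]` -/
theorem pvlj_fat {a b s : ℝ} (ha : -(1 / 2) ≤ a - s) (hb : b + s ≤ 1 / 2) (hs0 : 0 ≤ s) (hs : s ≤ 1 / 2) (z : ℂ) {d : ℂ} (hd : d ≠ 0) (l : List PvtTurn) {j : ℕ} (hj0 : 0 < j)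
    (hj : j + 1 < l.length) {p : ℂ} (hp : p ∈ pvccK (pvfeLane a b) z d l j) : closedBall p (s * ‖d‖) ⊆ pvfeLanes (a - s) (b + s) z d l := by
  obtain ⟨w, hw, rfl⟩ := hp
  have hab : a ≤ b := by
    obtain h | ⟨v, h, -⟩ := pvlj_lane_split _ hw
    · exact h.2.2.1.trans h.2.2.2
    · exact h.2.2.1.trans h.2.2.2
  obtain ⟨i, rfl⟩ : ∃ i, j = i + 1 := ⟨j - 1, by omega⟩
  have n1 := pvfe_norm_frame d l (i + 1)
  have n2 := pvfe_norm_frame d l (i + 1 + 1)
  rcases pvlj_lane_split _ hw with h | ⟨v, hv, rfl⟩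
  · have h1 := pvlj_ball_fat (pvccZ z d l (i + 1)) (pvlj_D_ne hd l (i + 1)) s h
    rw [n1] at h1
    refine h1.trans ((pvccPl_mono _ _ (pvlj_rect_mono ?_ (pvlj_half_len hs _) le_rfl le_rfl)).trans (pvlj_door_rect (a - s) (b + s) z d l (by omega : i + 1 < l.length)))
    linarith [pvlj_le_len (by linarith : -(1 / 2) ≤ a) (by linarith : b ≤ 1 / 2) hab hs (pvccT l i)]
  · have e : pvccZ z d l (i + 1) + pvccD d l (i + 1) * ((pvccT l (i + 1)).mid + (pvccT l (i + 1)).rot * v) = pvccZ z d l (i + 1 + 1) + pvccD d l (i + 1 + 1) * v := by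
      rw [pvccZ_succ z d l (by omega : i + 1 < l.length), pvccD_succ d l (by omega : i + 1 < l.length)]; ring
    show closedBall (pvccZ z d l (i + 1) + pvccD d l (i + 1) * ((pvccT l (i + 1)).mid + (pvccT l (i + 1)).rot * v)) _ ⊆ _
    rw [e]
    have h1 := pvlj_ball_fat (pvccZ z d l (i + 1 + 1)) (pvlj_D_ne hd l (i + 1 + 1)) s hv
    rw [n2] at h1
    refine h1.trans ((pvccPl_mono _ _ (pvlj_rect_mono ?_ ?_ le_rfl le_rfl)).trans (pvlj_door_rect (a - s) (b + s) z d l hj))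
    · linarith [pvlj_half_len (a := a) (b := b) hs (pvccT l (i + 1))]
    · linarith [pvlj_le_len (by linarith : -(1 / 2) ≤ a) (by linarith : b ≤ 1 / 2) hab hs (pvccT l (i + 1 + 1))]

/-- **(J2') DISTANCE BETWEEN LANES**: a point of the lane `[a,b]` in an inner cell is at distance `> s ‖d‖` from the lane `[α,β]` (strictly inside) as soon as `[a - s, b + s]` misses `[α,β]` -/
theorem pvlj_lanes_far {a b α β s : ℝ} (ha : -(1 / 2) ≤ a - s) (hb : b + s ≤ 1 / 2) (hs0 : 0 ≤ s) (hs : s ≤ 1 / 2) (h1 : -(1 / 2) < α) (h2 : β < 1 / 2) (hdis : β < a - s ∨ b + s < α)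
    {l : List PvtTurn} (hS : PvccSimple l l.length) (hback : ∀ k, k < l.length → pvccC 0 1 l k ≠ -(1 / 2)) (z : ℂ) {d : ℂ} (hd : d ≠ 0) {j : ℕ} (hj0 : 0 < j) (hj : j + 1 < l.length)
    {p q : ℂ} (hp : p ∈ pvccK (pvfeLane a b) z d l j) (hq : q ∈ pvfeLanes α β z d l) : s * ‖d‖ < ‖q - p‖ := by
  by_contra hcon
  exact Set.disjoint_left.1 (pvlj_lanes_disj h1 h2 ha hb hdis hS hback z hd) hq (pvlj_fat ha hb hs0 hs z hd l hj0 hj hp (mem_closedBall_iff_norm.2 (not_lt.1 hcon)))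

theorem pvlj_pl_closed (z : ℂ) {d : ℂ} (hd : d ≠ 0) {U : Set ℂ} (hU : IsClosed U) : IsClosed (pvccPl z d U) := by
  rw [pvccPl_eq_preimage z hd]
  exact hU.preimage ((continuous_id.sub continuous_const).div_const d)

theorem pvlj_lanes_closed (a b : ℝ) (z : ℂ) {d : ℂ} (hd : d ≠ 0) (l : List PvtTurn) : IsClosed (pvfeLanes a b z d l) := by
  unfold pvfeLanes
  exact isClosed_biUnion_finset fun j _ => pvlj_pl_closed _ (pvlj_D_ne hd l j) (pvfe_lane_closed a b _)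

theorem pvlj_in_closed (rI : ℝ) (ys yt z : ℂ) {d : ℂ} (hd : d ≠ 0) (l : List PvtTurn) : IsClosed (pvfeIn rI ys yt z d l) :=
  ((pvlj_lanes_closed _ _ z hd l).union isClosed_closedBall).union isClosed_closedBall

/-- a point at distance `> δ` from every point of a closed set is off its closed `δ`-thickening -/
theorem pvlj_not_mem_cthickening {E : Set ℂ} (hE : IsClosed E) {δ : ℝ} (hδ : 0 ≤ δ) {p : ℂ} (h : ∀ q ∈ E, δ < ‖q - p‖) : p ∉ cthickening δ E := by
  intro hp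
  rw [hE.cthickening_eq_biUnion_closedBall hδ] at hp
  obtain ⟨q, hq, hpq⟩ := mem_iUnion₂.1 hp
  have h1 := mem_closedBall_iff_norm.1 hpq
  have h2 := h q hq
  rw [norm_sub_rev] at h1
  linarith

/-- **THE FAR HALF OF THE OUTER LANE LIES IN `Yout`**: inner cells, off the two inner mouths with their collar -/
theorem pvlj_out_mem {rI rO : ℝ} {ys yt z d : ℂ} (hd : d ≠ 0) {l : List PvtTurn} (hS : PvccSimple l l.length) (hNR : PvfeNR l) {j : ℕ} (hj0 : 0 < j) (hj : j + 1 < l.length) {p : ℂ}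
    (hp : p ∈ pvccK (pvfeLane (-(4 / 10)) (-(3 / 10))) z d l j) (ht : rI + ‖d‖ / 10 < ‖p - yt‖) (hs : rI + ‖d‖ / 10 < ‖p - ys‖) : p ∈ pvfeOut rI rO ys yt z d l := by
  refine ⟨Or.inl (Or.inl (pvlj_K_sub_lanes _ _ z d l (by omega) hp)), pvlj_not_mem_cthickening (pvlj_in_closed rI ys yt z hd l) (by positivity) ?_⟩
  rintro q ((hq | hq) | hq)
  · have := pvlj_lanes_far (a := -(4 / 10)) (b := -(3 / 10)) (α := -(1 / 10)) (β := 4 / 10) (s := 1 / 10) (by norm_num) (by norm_num) (by norm_num) (by norm_num) (by norm_num) (by norm_num)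
      (Or.inr (by norm_num)) hS (fun k hk => pvlj_nr_back hNR k hk.le) z hd hj0 hj hp hq
    linarith
  · have h1 := mem_closedBall_iff_norm.1 hq
    have h2 : ‖p - yt‖ ≤ ‖q - p‖ + ‖q - yt‖ := by
      have e : p - yt = -(q - p) + (q - yt) := by ring
      rw [e]; exact (norm_add_le _ _).trans (by rw [norm_neg])
    linarith
  · have h1 := mem_closedBall_iff_norm.1 hq
    have h2 : ‖p - ys‖ ≤ ‖q - p‖ + ‖q - ys‖ := by
      have e : p - ys = -(q - p) + (q - ys) := by ring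
      rw [e]; exact (norm_add_le _ _).trans (by rw [norm_neg])
    linarith

/-! ## 7. a range of cells -/

/-- the lane `[a,b]` in the cells `j .. k` -/
def pvljSeg (a b : ℝ) (z d : ℂ) (l : List PvtTurn) (j k : ℕ) : Set ℂ := ⋃ i ∈ Finset.Icc j k, pvccK (pvfeLane a b) z d l i

theorem pvlj_K_sub_seg (a b : ℝ) (z d : ℂ) (l : List PvtTurn) {i j k : ℕ} (h1 : j ≤ i) (h2 : i ≤ k) : pvccK (pvfeLane a b) z d l i ⊆ pvljSeg a b z d l j k :=
  fun _ hw => mem_iUnion₂.2 ⟨i, Finset.mem_Icc.2 ⟨h1, h2⟩, hw⟩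

theorem pvlj_seg_sub_lanes (a b : ℝ) (z d : ℂ) (l : List PvtTurn) {j k : ℕ} (hk : k < l.length) : pvljSeg a b z d l j k ⊆ pvfeLanes a b z d l := by
  intro w hw
  obtain ⟨i, hi, hwi⟩ := mem_iUnion₂.1 hw
  exact pvlj_K_sub_lanes a b z d l (lt_of_le_of_lt (Finset.mem_Icc.1 hi).2 hk) hwi

theorem pvlj_joined_anti {r r' : ℝ} (h : r ≤ r') {R : Set ℂ} {x y : ℂ} (hj : JoinedIn (pvljCore r' R) x y) : JoinedIn (pvljCore r R) x y := hj.mono (pvlj_core_anti h R)

/-- the straight piece through the door `j + 1` lies in the two cells -/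
theorem pvlj_door_rect' (a b : ℝ) (z d : ℂ) (l : List PvtTurn) {j : ℕ} (hj : j < l.length) :
    pvccPl (pvccZ z d l (j + 1)) (pvccD d l (j + 1)) (pvljRect (-(pvljLen a b (pvccT l j))) (pvljLen a b (pvccT l (j + 1))) a b) ⊆
      pvccK (pvfeLane a b) z d l j ∪ pvccK (pvfeLane a b) z d l (j + 1) := by
  refine (pvlj_rect_split _ _ _ _ _ _).trans (union_subset_union ?_ (pvccPl_mono _ _ (pvlj_lane_entry a b _)))
  rintro _ ⟨w, hw, rfl⟩
  refine ⟨(pvccT l j).mid + (pvccT l j).rot * w, pvlj_lane_exit _ hw, ?_⟩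
  show pvccZ z d l j + pvccD d l j * ((pvccT l j).mid + (pvccT l j).rot * w) = pvccZ z d l (j + 1) + pvccD d l (j + 1) * w
  rw [pvccZ_succ z d l hj, pvccD_succ d l hj]; ring

/-- **(J1) FOR A RANGE OF CELLS**: `R` contains the lane `[a,b]` in the cells `j .. k` -/
theorem pvlj_cells_core {a b s u : ℝ} (ha : -(1 / 2) ≤ a) (hb : b ≤ 1 / 2) (h1 : a + s ≤ u) (h2 : u + s ≤ b) (hs0 : 0 ≤ s) (hs : s ≤ 1 / 2) (z : ℂ) {d : ℂ} (hd : d ≠ 0) (l : List PvtTurn) {j k : ℕ}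
    (hjk : j ≤ k) (hk : k < l.length) {R : Set ℂ} (hR : ∀ i, j ≤ i → i ≤ k → pvccK (pvfeLane a b) z d l i ⊆ R) :
    JoinedIn (pvljCore (s * ‖d‖) R) (pvljMid u z d l j) (pvljMid u z d l k) := by
  refine pvlj_joined_chain' (fun i => pvljMid u z d l i)
    (fun i => pvccPl (pvccZ z d l (i + 1)) (pvccD d l (i + 1)) (pvljRect (-(pvljLen a b (pvccT l i))) (pvljLen a b (pvccT l (i + 1))) a b)) hjk ?_
    fun i hji hik => ⟨pvlj_pl_convex _ _ (pvlj_rect_convex _ _ _ _), (pvlj_door_rect' a b z d l (by omega)).trans (union_subset (hR i hji hik.le) (hR (i + 1) (by omega) hik)), ?_, ?_⟩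
  · exact ((pvlj_ball_pt z hd l j (by linarith [pvlj_X_ge ha hb h1 h2 hs (pvccT l j)]) (pvlj_X_len h1 h2 hs (pvccT l j)) h1 h2).trans (pvccPl_mono _ _ (pvlj_lane_entry a b _))).trans
      (hR j le_rfl hjk)
  · show closedBall (pvljMid u z d l i) _ ⊆ _
    rw [pvlj_mid_exit u z d l (by omega : i < l.length)]
    have q1 := pvlj_X_len h1 h2 hs (pvccT l i)
    have q2 := pvlj_X_ge ha hb h1 h2 hs (pvccT l i)
    have q3 := pvlj_X_len h1 h2 hs (pvccT l (i + 1))
    have q4 := pvlj_X_ge ha hb h1 h2 hs (pvccT l (i + 1))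
    exact pvlj_ball_pt z hd l (i + 1) (by linarith) (by linarith) h1 h2
  · show closedBall (pvljMid u z d l (i + 1)) _ ⊆ _
    have q1 := pvlj_X_len h1 h2 hs (pvccT l i)
    have q2 := pvlj_X_ge ha hb h1 h2 hs (pvccT l i)
    have q3 := pvlj_X_len h1 h2 hs (pvccT l (i + 1))
    have q4 := pvlj_X_ge ha hb h1 h2 hs (pvccT l (i + 1))
    exact pvlj_ball_pt z hd l (i + 1) (by linarith) (by linarith) h1 h2

theorem pvlj_seg_core {a b s u : ℝ} (ha : -(1 / 2) ≤ a) (hb : b ≤ 1 / 2) (h1 : a + s ≤ u) (h2 : u + s ≤ b) (hs0 : 0 ≤ s) (hs : s ≤ 1 / 2) (z : ℂ) {d : ℂ} (hd : d ≠ 0) (l : List PvtTurn) {j k : ℕ}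
    (hjk : j ≤ k) (hk : k < l.length) : JoinedIn (pvljCore (s * ‖d‖) (pvljSeg a b z d l j k)) (pvljMid u z d l j) (pvljMid u z d l k) :=
  pvlj_cells_core ha hb h1 h2 hs0 hs z hd l hjk hk fun _ q1 q2 => pvlj_K_sub_seg a b z d l q1 q2

/-- **the far half of the outer lane in the cells `j .. k` lies in `Yout`** when these cells stay off the two inner mouths: centres at distance `> rI + 11 ‖d‖ / 10` -/
theorem pvlj_seg_out {rI rO : ℝ} {ys yt z d : ℂ} (hd : d ≠ 0) {l : List PvtTurn} (hS : PvccSimple l l.length) (hNR : PvfeNR l) {j k : ℕ} (hj0 : 0 < j) (hk : k + 1 < l.length)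
    (ht : ∀ i, j ≤ i → i ≤ k → rI + 11 * ‖d‖ / 10 < ‖pvccC z d l i - yt‖) (hs : ∀ i, j ≤ i → i ≤ k → rI + 11 * ‖d‖ / 10 < ‖pvccC z d l i - ys‖) :
    pvljSeg (-(4 / 10)) (-(3 / 10)) z d l j k ⊆ pvfeOut rI rO ys yt z d l := by
  intro p hp
  obtain ⟨i, hi, hpi⟩ := mem_iUnion₂.1 hp
  obtain ⟨i1, i2⟩ := Finset.mem_Icc.1 hi
  have hb := mem_closedBall_iff_norm.1 (pvfe_K_sub_ball (by norm_num) (by norm_num) z d l i hpi)
  have tri : ∀ y : ℂ, ‖pvccC z d l i - y‖ ≤ ‖p - pvccC z d l i‖ + ‖p - y‖ := by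
    intro y
    have e : pvccC z d l i - y = -(p - pvccC z d l i) + (p - y) := by ring
    rw [e]; exact (norm_add_le _ _).trans (by rw [norm_neg])
  exact pvlj_out_mem hd hS hNR (by omega) (by omega) hpi (by linarith [ht i i1 i2, tri yt]) (by linarith [hs i i1 i2, tri ys])

theorem pvlj_eqns_cite : True := by
  have := @pvljCore.eq_1; have := @pvljRect.eq_1; have := @pvljLen.eq_1; have := @pvljX.eq_1; have := @pvljPt.eq_1; have := @pvljMid.eq_1; have := @pvljHalf.eq_1; have := @pvljSeg.eq_1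
  trivial

end Claimed.Agent.R289
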