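-- KEEP
import Claimed.Agent.R289.Tr.PlugK

/-!
# Row 289 (S0537), THE WALL, chapter E (cells), file Tr/PlugClose : [CLOSE] AT THE DEFINITIONS OF RECORD OF THE CELL KIT      (helper244; post of 34; prefix `pvkx_`, `pvkx`, `Pvkx`)

TARGETS: **`PvkdGeo.Sum`** ([SUM]) and **`PvkdGeo.Close B a`** ([CLOSE]) of 34 (`Tr/PlugK.lean` v3 = final form): the three fields of `XQ` are the three `psum`s at THE gates;  the eight links of the hexagon loop close ONE label, `XQ_j` = its mass in the mask `j`.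
TOOLS: `PvzlGt.unique` (173), `pvt_s_class_sum` (64), `pvki_at_of_cell` (`Tr/KitI.lean`).
* sec. 1  the gate of record: its closed inside lies in the open ball `B(z, b)`, is finite;   **`pvkx_uniq`** : THE gate of record is ONE object (`g = g₂`), every frame `(z,d)` (`d = 0` included), from `Disjoint Zm Zp`.
* sec. 1b **`pvkx_sum : Disjoint 𝔤.Zm 𝔤.Zp → 𝔤.Sum`**      ([SUM] PROVED);   map level: `pvkx_arc_sum`, `pvkx_Ti_set`, `pvkx_Tr_set`.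
* sec. 2  the frames of the hexagon loop `pvkxZ pvkxD pvkxL`; the exit door of the cell `j` is the door `j + 1`; the door `8` is the door `0`.
* sec. 3  **`PvkxGeo 𝔤 B a`** = THE GEOMETRY [CLOSE] NEEDS (regions only, no configuration): `PvkiMask` for the placed rooms / balls / masks, F1 (`Zm` of the door `j` and `Zp` of the door `j + 1` miss the room of the cell `j`), two far doors.
* sec. 4  **`pvkx_close`** : `PvkxGeo 𝔤 B a → 𝔤.Close B a`.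
* sec. 6  `pvkxM δ` = THE MASK OF RECORD `[0,δ) × (-δ/2, δ/2)`;   **`PvkxRef 𝔤`** = what the instance (229) owes, IN THE REFERENCE FRAME ONLY;   **`pvkx_geo : PvkxRef 𝔤 → PvkxGeo 𝔤 (closedBall 0 (4 δ)) δ`**;   5 computational LEAVES on the frames of `S L L R L L S L`.
* sec. 5  `pvkx_ring`, `pvkx_main` : `Cov + PvkxGeo ⟹ (𝔤.glob Hf).Close ε 𝔤.MkJ B a` (`PvpgGlob.Close` of 52 = input of `pvcq_plug_bes`, `pvcq_plug_tail`).
-/

set_option autoImplicit false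
set_option linter.unusedSectionVars false

namespace Claimed.Agent.R289

open MeasureTheory ProbabilityTheory Set Filter Topology
open scoped ENNReal NNReal

/-! ## 1. the gate of record -/

section gate

variable {𝔭 : PvkdPlug} {η : Conf PvPt} {z d : ℂ} {g : (pvkiT η).Gate (pvkiS η)}

/-- the sites of the closed inside of the gate of record lie in the open ball `B(z, b)` -/
theorem pvkx_gate_ball (h : PvkdGate 𝔭 η z d g) {v : ↥(cfSites η)} (hv : v ∈ (pvkiT η).VOf g.c.Left) : (v : ℂ) ∈ Metric.ball z 𝔭.b := by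
  obtain ⟨e, he, rfl⟩ := hv
  exact h.least.reg.outer e he

/-- the inside of the gate of record is finite -/
theorem pvkx_gate_fin (hN : PvatNice (cfSites η)) (h : PvkdGate 𝔭 η z d g) : g.c.Left.Finite := by
  have hT : (pvkiT η).IsSph := delb_plane_isSph hN.good
  have hF : {v : ↥(cfSites η) | (v : ℂ) ∈ Metric.ball z 𝔭.b}.Finite := by
    have h1 := hN.finite (W := Metric.ball z 𝔭.b) Metric.isBounded_ball
    refine Set.Finite.of_finite_image (f := Subtype.val) (h1.subset ?_) Subtype.val_injective.injOn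
    rintro _ ⟨v, hv, rfl⟩
    exact ⟨v.2, hv⟩
  refine (hF.biUnion fun v _ => pl_deg_finite hT v).subset fun e he => ?_
  exact Set.mem_biUnion (pvkx_gate_ball h ⟨e, he, rfl⟩) rfl

/-- a gate is its circuit and its exit index -/
theorem pvkx_gate_ext {V D : Type} {T : PvMap V D} {s : V → Bool} {g g₂ : T.Gate s} (he : ∀ k, g.c.e k = g₂.c.e k) (hn : g.c.n = g₂.c.n) (hm : g.m = g₂.m) : g = g₂ := by
  obtain ⟨⟨n, e, _, _, _, _⟩, m, _, _, _⟩ := g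
  obtain ⟨⟨n₂, e₂, _, _, _, _⟩, m₂, _, _, _⟩ := g₂
  obtain rfl : e = e₂ := funext he
  obtain rfl : n = n₂ := hn
  obtain rfl : m = m₂ := hm
  rfl

/-- **THE GATE OF RECORD IS ONE OBJECT** (`PvzlGt.unique` of 173), every frame -/
theorem pvkx_uniq (hN : PvatNice (cfSites η)) (hdis : Disjoint 𝔭.Zm 𝔭.Zp) {g₂ : (pvkiT η).Gate (pvkiS η)} (h : PvkdGate 𝔭 η z d g) (h₂ : PvkdGate 𝔭 η z d g₂) : g = g₂ := by
  have hT : (pvkiT η).IsSph := delb_plane_isSph hN.good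
  by_cases hd : d = 0
  · exfalso
    subst hd
    obtain ⟨u, -, e1⟩ := h.vm
    obtain ⟨u', -, e2⟩ := h.vp
    have e3 : g.vm = g.vp := by
      apply Subtype.ext
      rw [← e1, ← e2]
      unfold pvthSim
      ring
    have := g.c.inj 0 g.m (pl_cyc_pos g.c) (by have := g.hmn; omega) e3
    have := g.hm
    omega
  · have hD : Disjoint (𝔭.pg z d).Km (𝔭.pg z d).Kp := by
      refine Set.disjoint_left.2 ?_
      rintro _ ⟨u, hu, rfl⟩ ⟨u', hu', e⟩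
      have : u' = u := by
        unfold pvthSim at e
        exact mul_left_cancel₀ hd (add_left_cancel e)
      exact Set.disjoint_left.1 hdis hu (this ▸ hu')
    obtain ⟨he, hn, hm⟩ := PvzlGt.unique hT hD h h₂
    exact pvkx_gate_ext he hn hm

end gate

/-! ## 1b. [SUM] -/

section sum

variable {κ : Type} {V D : Type} {T : PvMap V D} {mk : V → κ} {s : V → Bool}

/-- the sum over the tags of the arc of a piece of strand is its `psum` -/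
theorem pvkx_arc_sum [DecidableEq V] (a : D) (N : ℕ) (w : D → ℂ) : ∑ᶠ d ∈ {d | PvzlArc T s a N d}, w d = (pvtArc T s a N).psum w := by
  rw [pvt_sf_arc_psum]
  have hp := pvt_s_le_path (pvt_s_bank_walk (T := T) (s := s) a N)
  refine pvt_s_class_sum w (List.Nodup.of_map T.tgt (List.nodup_cons.1 hp.2).2) fun d' => ?_
  rw [pvzl_arc_iff]
  constructor
  · rintro ⟨f, hf, rfl⟩
    rwa [T.opp_opp]
  · intro h
    exact ⟨_, h, (T.opp_opp _).symm⟩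

/-- the tags of the inner arc of THE gate -/
theorem pvkx_Ti_set (hT : T.IsSph) {p : PvzlPg κ} {g : T.Gate s} (hu : ∀ g₂, PvzlGt T mk s p g₂ → g₂ = g) (hg : PvzlGt T mk s p g) :
    {d | PvzlTi T mk s p d} = {d | PvzlArc T s g.aIn g.len d} := by
  ext d
  constructor
  · rintro ⟨g₂, N, h1, h2, h3⟩
    obtain rfl := hu g₂ h1
    rw [← (h2.len hT).1] at h3
    exact h3
  · intro h
    obtain ⟨N, hN⟩ := hg.thru
    refine ⟨g, N, hg, hN, ?_⟩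
    rw [← (hN.len hT).1]
    exact h

/-- the tags of the run of THE link -/
theorem pvkx_Tr_set {p p' : PvzlPg κ} {KE : Set κ} {g g' : T.Gate s} {N : ℕ} (hu : ∀ g₂, PvzlGt T mk s p g₂ → g₂ = g) (hu' : ∀ g₂, PvzlGt T mk s p' g₂ → g₂ = g')
    (hg : PvzlGt T mk s p g) (hg' : PvzlGt T mk s p' g') (hr : PvzlRun T mk s KE g g' N) :
    {d | PvzlTr T mk s p p' KE d} = {d | PvzlArc T s g.aOut (pvasHit T s g.aOut {g'.aIn}) d} := by
  ext d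
  constructor
  · rintro ⟨g₂, g₂', N₂, h1, h2, h3, h4⟩
    obtain rfl := hu g₂ h1
    obtain rfl := hu' g₂' h2
    rw [← h3.hit] at h4
    exact h4
  · intro h
    refine ⟨g, g', N, hg, hg', hr, ?_⟩
    rw [← hr.hit]
    exact h

end sum

/-- one field of 107 over a set of tags is a sum of the summand of 244 -/
theorem pvkx_pl (Ψ : PvzfPred ℂ) (M : Set ℂ) (η : Conf PvPt) : pvzfPl id Ψ (pvkdWt M) η = ∑ᶠ e ∈ {e | Ψ _ _ (pvkiT η) Subtype.val (pvkiS η) e}, pvkiW η M e := by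
  unfold pvzfPl
  simp only [pvkk_W]
  rfl

/-- **[SUM]**: the three fields of `XQ` are the three `psum`s at THE gates -/
theorem pvkx_sum (𝔤 : PvkdGeo) (hdis : Disjoint 𝔤.Zm 𝔤.Zp) : 𝔤.Sum := by
  intro η z d τ g g' N hNA hl
  have hN : PvatNice (cfSites η) := hNA.1
  have hT : (pvkiT η).IsSph := delb_plane_isSph hN.good
  have hA : η ∈ 𝔤.A z d τ := ⟨hNA, g, g', N, hl⟩
  obtain ⟨hg, hg', hr⟩ := hl
  have hu : ∀ g₂, PvzlGt (pvkiT η) Subtype.val (pvkiS η) (𝔤.pg z d) g₂ → g₂ = g := fun g₂ h₂ => pvkx_uniq (𝔭 := 𝔤.toPvkdPlug) hN hdis h₂ hg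
  have hu' : ∀ g₂, PvzlGt (pvkiT η) Subtype.val (pvkiS η) (𝔤.pg (𝔤.zo z d τ) (d * τ.rot)) g₂ → g₂ = g' := fun g₂ h₂ => pvkx_uniq (𝔭 := 𝔤.toPvkdPlug) hN hdis h₂ hg'
  unfold PvkdGeo.XQ pvkdMass
  rw [if_pos hA, pvkx_pl, pvkx_pl, pvkx_pl]
  congr 1
  · congr 1
    · rw [← pvkx_arc_sum]
      exact congrArg (fun S : Set _ => ∑ᶠ e ∈ S, pvkiW η (pvkdAt z d (𝔤.Mk τ)) e) (pvkx_Ti_set hT hu hg)
    · rw [← pvkx_arc_sum]
      exact congrArg (fun S : Set _ => ∑ᶠ e ∈ S, pvkiW η (pvkdAt z d (𝔤.Mk τ)) e) (pvkx_Tr_set hu hu' hg hg' hr)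
  · rw [← pvkx_arc_sum]
    exact congrArg (fun S : Set _ => ∑ᶠ e ∈ S, pvkiW η (pvkdAt z d (𝔤.Mk τ)) e) (pvkx_Ti_set hT hu' hg')

/-! ## 2. the frames of the hexagon loop -/

/-- the door number `j` -/
noncomputable def pvkxZ (δ : ℝ) (j : ℕ) : ℂ := pvthZ δ 0 1 pvcnHex j
/-- its direction -/
noncomputable def pvkxD (j : ℕ) : ℂ := pvthD 1 pvcnHex j
/-- the shape of the cell number `j` -/
def pvkxL (j : ℕ) : PvtTurn := pvthL pvcnHex j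

theorem pvkx_eqns_cite : True := by
  have := @pvkxZ.eq_1; have := @pvkxD.eq_1; have := @pvkxL.eq_1
  trivial

/-- the exit door of the cell `j` is the door `j + 1` -/
theorem pvkx_exit (𝔤 : PvkdGeo) {j : ℕ} (hj : j < 8) : 𝔤.zo (pvkxZ 𝔤.δ j) (pvkxD j) (pvkxL j) = pvkxZ 𝔤.δ (j + 1) ∧ pvkxD j * (pvkxL j).rot = pvkxD (j + 1) :=
  pvthx_exit153 (𝔤.glob fun _ => ∅).pre 0 1 pvcnHex (by rw [pvcc_hex_length]; exact hj)

/-- the door `8` is the door `0` -/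
theorem pvkx_per (δ : ℝ) : pvkxZ δ 8 = pvkxZ δ 0 ∧ pvkxD 8 = pvkxD 0 := by
  have hc := pvt_hex_closed 1 0 0 0 0
  have e8 : (pvcnHex).take 8 = pvcnHex := by
    rw [← pvcc_hex_length]; exact List.take_length
  constructor
  · unfold pvkxZ pvthZ
    rw [e8, List.take_zero, hc.1]
    simp [pvtDisp, pvtAcc]
  · unfold pvkxD pvthD
    rw [e8, List.take_zero, hc.2]
    rfl

/-! ## 3. the geometry which [CLOSE] needs -/

/-- **THE GEOMETRY OF [CLOSE]** (regions only): rooms `Co`, balls `B(z_j, b)`, masks `MkJ` of the eight cells of the hexagon loop form a `PvkiMask`;   F1: the room of `g⁻` at the door `j` and the room of `g⁺` at the door `j + 1`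
miss the room of the run of the cell `j`;   two doors whose rooms of `g⁺` are at distance `≥ a` -/
structure PvkxGeo (𝔤 : PvkdGeo) (B : Set ℂ) (a : ℝ) : Prop where
  zz : Disjoint 𝔤.Zm 𝔤.Zp
  mask : PvkiMask 8 (fun j => pvkdAt (pvkxZ 𝔤.δ j) (pvkxD j) (𝔤.Co (pvkxL j))) (fun j => Metric.ball (pvkxZ 𝔤.δ j) 𝔤.b) 𝔤.MkJ B
  zm : ∀ j, j < 8 → Disjoint (pvkdAt (pvkxZ 𝔤.δ j) (pvkxD j) 𝔤.Zm) (pvkdAt (pvkxZ 𝔤.δ j) (pvkxD j) (𝔤.Co (pvkxL j)))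
  zp : ∀ j, j < 8 → Disjoint (pvkdAt (pvkxZ 𝔤.δ (j + 1)) (pvkxD (j + 1)) 𝔤.Zp) (pvkdAt (pvkxZ 𝔤.δ j) (pvkxD j) (𝔤.Co (pvkxL j)))
  big : ∃ i j, i < 8 ∧ j < 8 ∧ ∀ p ∈ pvkdAt (pvkxZ 𝔤.δ i) (pvkxD i) 𝔤.Zp, ∀ p' ∈ pvkdAt (pvkxZ 𝔤.δ j) (pvkxD j) 𝔤.Zp, a ≤ ‖p - p'‖

/-! ## 4. [CLOSE] -/

/-- **[CLOSE] AT THE DEFINITIONS OF RECORD** -/
theorem pvkx_close (𝔤 : PvkdGeo) {B : Set ℂ} {a : ℝ} (G : PvkxGeo 𝔤 B a) : 𝔤.Close B a := by
  classical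
  intro η hA0
  have hA : ∀ j, j < 8 → η ∈ 𝔤.A (pvkxZ 𝔤.δ j) (pvkxD j) (pvkxL j) := hA0
  have hN : PvatNice (cfSites η) := (hA 0 (by norm_num)).1.1
  have hT : (pvkiT η).IsSph := delb_plane_isSph hN.good
  have hex : ∀ j, j < 8 → ∃ g g' N, 𝔤.Link η (pvkxZ 𝔤.δ j) (pvkxD j) (pvkxL j) g g' N := fun j hj => (hA j hj).2
  have : Nonempty ((pvkiT η).Gate (pvkiS η)) := ⟨(hex 0 (by norm_num)).choose⟩
  choose! g0 g1 N hl using hex
  set g : ℕ → (pvkiT η).Gate (pvkiS η) := fun j => if j < 8 then g0 j else g0 0 with hgdef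
  have hg : ∀ j, j < 8 → g j = g0 j := fun j hj => if_pos hj
  have hg8 : g 8 = g 0 := by rw [hg 0 (by norm_num)]; exact if_neg (by norm_num)
  have hnext : ∀ j, j < 8 → g1 j = g (j + 1) := by
    intro j hj
    obtain ⟨e1, e2⟩ := pvkx_exit 𝔤 hj
    have h1 := (hl j hj).2.1
    rw [e1, e2] at h1
    by_cases hj' : j + 1 < 8
    · rw [hg _ hj']
      exact pvkx_uniq hN G.zz h1 (hl _ hj').1
    · have e : j + 1 = 8 := by omega
      rw [e] at h1 ⊢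
      rw [hg8, hg 0 (by norm_num)]
      rw [(pvkx_per 𝔤.δ).1, (pvkx_per 𝔤.δ).2] at h1
      exact pvkx_uniq hN G.zz h1 (hl 0 (by norm_num)).1
  have hl' : ∀ j, j < 8 → 𝔤.Link η (pvkxZ 𝔤.δ j) (pvkxD j) (pvkxL j) (g j) (g (j + 1)) (N j) := by
    intro j hj
    rw [hg j hj, ← hnext j hj]
    exact hl j hj
  have hgate' : ∀ j, j < 8 → PvkdGate 𝔤.toPvkdPlug η (pvkxZ 𝔤.δ (j + 1)) (pvkxD (j + 1)) (g (j + 1)) := by
    intro j hj
    obtain ⟨e1, e2⟩ := pvkx_exit 𝔤 hj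
    have h1 := (hl' j hj).2.1
    rwa [e1, e2] at h1
  let C : PvkiCell (pvkiT η) (pvkiS η) Subtype.val 8 (fun j => pvkdAt (pvkxZ 𝔤.δ j) (pvkxD j) (𝔤.Co (pvkxL j))) (fun j => Metric.ball (pvkxZ 𝔤.δ j) 𝔤.b) :=
    { g := g
      per := hg8
      fin := fun j hj => pvkx_gate_fin hN (hl' j hj).1
      thru := fun j hj => ((hl' j hj).1.thru.choose_spec.len hT).2
      run := fun j hj => pvld_run_mono (fun v hv => hv.1) (hl' j hj).2.2.run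
      gate := fun j hj v hv => pvkx_gate_ball (hl' j hj).1 hv
      vm_off := fun j hj hc => Set.disjoint_left.1 (G.zm j hj) (hl' j hj).1.vm hc
      vp_off := fun j hj hc => Set.disjoint_left.1 (G.zp j hj) (hgate' j hj).vp hc }
  refine pvki_at_of_cell hN.good (by norm_num) C G.mask ?_ ?_
  · obtain ⟨i, j, hi, hj, h⟩ := G.big
    exact ⟨i, j, hi, hj, h _ (hl' i hi).1.vp _ (hl' j hj).1.vp⟩
  · intro c hc
    exact pvkx_sum 𝔤 G.zz η _ _ _ _ _ _ (hA c hc).1 (hl' c hc)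

/-! ## 5. [CLOSE] in the form of the global datum -/

theorem pvkx_D_pow (j : ℕ) : pvthD 1 pvcnHex j ^ 4 = 1 := pvtDir_pow_four 1 (by norm_num) _

/-- **[CLOSE] of the global datum `𝔤.glob Hf`** (`PvpgGlob.Close` of 52: input of `pvcq_plug_bes`, `pvcq_plug_tail`), every mesh -/
theorem pvkx_ring (𝔤 : PvkdGeo) (Hf : Fin 4 → Set (Conf PvPt)) (hc : 𝔤.Cov) {B : Set ℂ} {a : ℝ} (h : 𝔤.Close B a) (ε : ℝ) : (𝔤.glob Hf).Close ε 𝔤.MkJ B a := by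
  refine pvki_ringQ (Filter.Eventually.of_forall fun η hη => ?_)
  have h1 : ∀ j < 8, η ∈ 𝔤.A (pvthZ 𝔤.δ 0 1 pvcnHex j) (pvthD 1 pvcnHex j) (pvthL pvcnHex j) := by
    intro j hj
    rw [hc.A _ _ _ (pvkx_D_pow j)]
    exact (hη j (by rw [pvcc_hex_length]; exact hj)).2
  have h2 := h η h1
  have e : (fun j => (𝔤.glob Hf).Xh j η) = fun j => 𝔤.XQ (pvthZ 𝔤.δ 0 1 pvcnHex j) (pvthD 1 pvcnHex j) (pvthL pvcnHex j) η := by
    funext j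
    rw [hc.X _ _ _ _ (pvkx_D_pow j)]
    rfl
  rw [e]
  exact h2

/-- the whole of [CLOSE] from the two named inputs -/
theorem pvkx_main (𝔤 : PvkdGeo) (Hf : Fin 4 → Set (Conf PvPt)) (hc : 𝔤.Cov) {B : Set ℂ} {a : ℝ} (G : PvkxGeo 𝔤 B a) (ε : ℝ) : (𝔤.glob Hf).Close ε 𝔤.MkJ B a :=
  pvkx_ring 𝔤 Hf hc (pvkx_close 𝔤 G) ε

/-! ## 6. the geometry from the reference frame -/

/-- **THE MASK OF RECORD** in the reference frame: the open cell with its open entrance side (251 (a)): `[0, δ) × (-δ/2, δ/2)` -/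
def pvkxM (δ : ℝ) : Set ℂ := {w | 0 ≤ w.re ∧ w.re < δ ∧ -(δ / 2) < w.im ∧ w.im < δ / 2}

/-- the mask of the cell number `j` of the hexagon loop -/
noncomputable def pvkxMj (δ : ℝ) (j : ℕ) : Set ℂ := pvkdAt (pvkxZ δ j) (pvkxD j) (pvkxM δ)

theorem pvkx_eqns_cite2 : True := by
  have := @pvkxM.eq_1; have := @pvkxMj.eq_1
  trivial

/-- **what the instance owes for [CLOSE], IN THE REFERENCE FRAME ONLY** -/
structure PvkxRef (𝔤 : PvkdGeo) : Prop where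
  δ0 : 0 < 𝔤.δ
  ZZ : Disjoint 𝔤.Zm 𝔤.Zp
  Mk : ∀ τ, 𝔤.Mk τ = pvkxM 𝔤.δ
  Co : ∀ τ, 𝔤.Co τ ⊆ pvkxM 𝔤.δ
  b4 : 𝔤.b ≤ 𝔤.δ / 4
  Zm : ∀ τ, Disjoint 𝔤.Zm (𝔤.Co τ)
  Zp : ∀ τ, Disjoint (pvkdAt (𝔤.δ * τ.mid) τ.rot 𝔤.Zp) (𝔤.Co τ)
  Zpb : 𝔤.Zp ⊆ Metric.closedBall 0 (𝔤.δ / 4)

theorem pvkx_D_ne (j : ℕ) : pvkxD j ≠ 0 := by
  intro h
  have := pvkx_D_pow j
  rw [show pvthD 1 pvcnHex j = pvkxD j from rfl, h] at this
  norm_num at this

theorem pvkx_D_norm (j : ℕ) : ‖pvkxD j‖ = 1 := by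
  have h := pvkx_D_pow j
  have h1 : ‖pvkxD j‖ ^ 4 = 1 := by
    rw [← norm_pow, show pvkxD j = pvthD 1 pvcnHex j from rfl, h, norm_one]
  exact (pow_eq_one_iff_of_nonneg (norm_nonneg _) (by norm_num)).1 h1

theorem pvkx_mem_at {z d : ℂ} (hd : d ≠ 0) (S : Set ℂ) (w : ℂ) : w ∈ pvkdAt z d S ↔ (w - z) / d ∈ S := by
  constructor
  · rintro ⟨u, hu, rfl⟩
    have : (pvthSim z d u - z) / d = u := by unfold pvthSim; field_simp; ring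
    rwa [this]
  · intro h
    exact ⟨_, h, by unfold pvthSim; field_simp; ring⟩

theorem pvkx_at_mono (z d : ℂ) {S S' : Set ℂ} (h : S ⊆ S') : pvkdAt z d S ⊆ pvkdAt z d S' := Set.image_mono h

theorem pvkx_at_disj {z d : ℂ} (hd : d ≠ 0) {S S' : Set ℂ} (h : Disjoint S S') : Disjoint (pvkdAt z d S) (pvkdAt z d S') :=
  Set.disjoint_left.2 fun w h1 h2 => Set.disjoint_left.1 h ((pvkx_mem_at hd S w).1 h1) ((pvkx_mem_at hd S' w).1 h2)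

/-- composition of two frames -/
theorem pvkx_at_at (z d z' d' : ℂ) (S : Set ℂ) : pvkdAt z d (pvkdAt z' d' S) = pvkdAt (z + d * z') (d * d') S := by
  unfold pvkdAt
  rw [Set.image_image]
  refine Set.image_congr fun w _ => ?_
  unfold pvthSim
  ring

theorem pvkx_at_convex (z d : ℂ) {S : Set ℂ} (h : Convex ℝ S) : Convex ℝ (pvkdAt z d S) := by
  rintro _ ⟨u, hu, rfl⟩ _ ⟨v, hv, rfl⟩ a b ha hb hab
  refine ⟨a • u + b • v, h hu hv ha hb hab, ?_⟩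
  unfold pvthSim
  have hab' : (a : ℂ) + (b : ℂ) = 1 := by exact_mod_cast hab
  simp only [Complex.real_smul]
  linear_combination (-z) * hab'

theorem pvkx_M_convex (δ : ℝ) : Convex ℝ (pvkxM δ) := by
  have e : pvkxM δ = {w : ℂ | 0 ≤ w.re} ∩ ({w : ℂ | w.re < δ} ∩ ({w : ℂ | -(δ / 2) < w.im} ∩ {w : ℂ | w.im < δ / 2})) := rfl
  rw [e]
  exact (convex_halfSpace_re_ge 0).inter ((convex_halfSpace_re_lt δ).inter ((convex_halfSpace_im_gt _).inter (convex_halfSpace_im_lt _)))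

/-- LEAF (frames of `S L L R L L S L`, computation) -/
theorem pvkx_frames (δ : ℝ) :
    (pvkxZ δ 0 = 0 ∧ pvkxD 0 = 1) ∧ (pvkxZ δ 1 = δ ∧ pvkxD 1 = 1) ∧ (pvkxZ δ 2 = δ * (3 / 2 + Complex.I / 2) ∧ pvkxD 2 = Complex.I) ∧ (pvkxZ δ 3 = δ * (1 + Complex.I) ∧ pvkxD 3 = -1) ∧
    (pvkxZ δ 4 = δ * (1 / 2 + 3 / 2 * Complex.I) ∧ pvkxD 4 = Complex.I) ∧ (pvkxZ δ 5 = δ * (2 * Complex.I) ∧ pvkxD 5 = -1) ∧
    (pvkxZ δ 6 = δ * (-1 / 2 + 3 / 2 * Complex.I) ∧ pvkxD 6 = -Complex.I) ∧ (pvkxZ δ 7 = δ * (-1 / 2 + Complex.I / 2) ∧ pvkxD 7 = -Complex.I) := by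
  have hex : pvcnHex = [PvtTurn.S, PvtTurn.L, PvtTurn.L, PvtTurn.R, PvtTurn.L, PvtTurn.L, PvtTurn.S, PvtTurn.L] := rfl
  have i2 : Complex.I * Complex.I = -1 := Complex.I_mul_I
  refine ⟨⟨?_, ?_⟩, ⟨?_, ?_⟩, ⟨?_, ?_⟩, ⟨?_, ?_⟩, ⟨?_, ?_⟩, ⟨?_, ?_⟩, ⟨?_, ?_⟩, ⟨?_, ?_⟩⟩ <;>
    simp only [pvkxZ, pvkxD, pvthZ, pvthD, hex, List.take_zero, List.take_succ_cons, pvtDisp, pvtAcc, pvtDir, PvtTurn.mid, PvtTurn.rot, one_mul, mul_one, mul_neg, neg_mul, i2, neg_neg, zero_add, add_zero, mul_zero]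
  all_goals try ring_nf
  all_goals try (simp only [Complex.I_sq]; ring)

/-- (109) the eight masks in coordinates -/
theorem pvkx_109_mem (δ : ℝ) (w : ℂ) :
    (w ∈ pvkxMj δ 0 ↔ 0 ≤ w.re ∧ w.re < δ ∧ -(δ / 2) < w.im ∧ w.im < δ / 2) ∧
    (w ∈ pvkxMj δ 1 ↔ δ ≤ w.re ∧ w.re < 2 * δ ∧ -(δ / 2) < w.im ∧ w.im < δ / 2) ∧
    (w ∈ pvkxMj δ 2 ↔ δ / 2 ≤ w.im ∧ w.im < 3 * δ / 2 ∧ w.re < 2 * δ ∧ δ < w.re) ∧
    (w ∈ pvkxMj δ 3 ↔ w.re ≤ δ ∧ 0 < w.re ∧ w.im < 3 * δ / 2 ∧ δ / 2 < w.im) ∧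
    (w ∈ pvkxMj δ 4 ↔ 3 * δ / 2 ≤ w.im ∧ w.im < 5 * δ / 2 ∧ w.re < δ ∧ 0 < w.re) ∧
    (w ∈ pvkxMj δ 5 ↔ w.re ≤ 0 ∧ -δ < w.re ∧ w.im < 5 * δ / 2 ∧ 3 * δ / 2 < w.im) ∧
    (w ∈ pvkxMj δ 6 ↔ w.im ≤ 3 * δ / 2 ∧ δ / 2 < w.im ∧ -δ < w.re ∧ w.re < 0) ∧
    (w ∈ pvkxMj δ 7 ↔ w.im ≤ δ / 2 ∧ -(δ / 2) < w.im ∧ -δ < w.re ∧ w.re < 0) := by
  obtain ⟨⟨z0, d0⟩, ⟨z1, d1⟩, ⟨z2, d2⟩, ⟨z3, d3⟩, ⟨z4, d4⟩, ⟨z5, d5⟩, ⟨z6, d6⟩, ⟨z7, d7⟩⟩ := pvkx_frames δ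
  have e : ∀ j, w ∈ pvkxMj δ j ↔ (0 ≤ ((w - pvkxZ δ j) / pvkxD j).re ∧ ((w - pvkxZ δ j) / pvkxD j).re < δ ∧ -(δ / 2) < ((w - pvkxZ δ j) / pvkxD j).im ∧ ((w - pvkxZ δ j) / pvkxD j).im < δ / 2) :=
    fun j => pvkx_mem_at (pvkx_D_ne j) _ w
  have hI : ∀ u : ℂ, (u / Complex.I).re = u.im ∧ (u / Complex.I).im = -u.re := fun u => by
    rw [Complex.div_I]; simp
  have hnI : ∀ u : ℂ, (u / -Complex.I).re = -u.im ∧ (u / -Complex.I).im = u.re := fun u => by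
    rw [div_neg, Complex.div_I]; simp
  have hn1 : ∀ u : ℂ, (u / -1).re = -u.re ∧ (u / -1).im = -u.im := fun u => by
    rw [div_neg, div_one]; simp
  refine ⟨?_, ?_, ?_, ?_, ?_, ?_, ?_, ?_⟩
  · rw [e, z0, d0]; simp
  · rw [e, z1, d1, div_one]
    simp only [Complex.sub_re, Complex.sub_im, Complex.ofReal_re, Complex.ofReal_im]
    constructor <;> rintro ⟨a, b, c, d⟩ <;> refine ⟨?_, ?_, ?_, ?_⟩ <;> linarith
  · rw [e, z2, d2, (hI _).1, (hI _).2]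
    have r1 : ((3 : ℂ) / 2 + Complex.I / 2).re = 3 / 2 := by simp
    have r2 : ((3 : ℂ) / 2 + Complex.I / 2).im = 1 / 2 := by simp
    simp only [Complex.sub_re, Complex.sub_im, Complex.re_ofReal_mul, Complex.im_ofReal_mul, r1, r2]
    constructor <;> rintro ⟨a, b, c, d⟩ <;> refine ⟨?_, ?_, ?_, ?_⟩ <;> linarith
  · rw [e, z3, d3, (hn1 _).1, (hn1 _).2]
    simp only [Complex.sub_re, Complex.sub_im, Complex.re_ofReal_mul, Complex.im_ofReal_mul, Complex.add_re, Complex.add_im, Complex.I_re, Complex.I_im, Complex.one_re, Complex.one_im]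
    constructor <;> rintro ⟨a, b, c, d⟩ <;> refine ⟨?_, ?_, ?_, ?_⟩ <;> linarith
  · rw [e, z4, d4, (hI _).1, (hI _).2]
    have r1 : ((1 : ℂ) / 2 + 3 / 2 * Complex.I).re = 1 / 2 := by simp
    have r2 : ((1 : ℂ) / 2 + 3 / 2 * Complex.I).im = 3 / 2 := by simp
    simp only [Complex.sub_re, Complex.sub_im, Complex.re_ofReal_mul, Complex.im_ofReal_mul, r1, r2]
    constructor <;> rintro ⟨a, b, c, d⟩ <;> refine ⟨?_, ?_, ?_, ?_⟩ <;> linarith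
  · rw [e, z5, d5, (hn1 _).1, (hn1 _).2]
    have r1 : ((2 : ℂ) * Complex.I).re = 0 := by simp
    have r2 : ((2 : ℂ) * Complex.I).im = 2 := by simp
    simp only [Complex.sub_re, Complex.sub_im, Complex.re_ofReal_mul, Complex.im_ofReal_mul, r1, r2]
    constructor <;> rintro ⟨a, b, c, d⟩ <;> refine ⟨?_, ?_, ?_, ?_⟩ <;> linarith
  · rw [e, z6, d6, (hnI _).1, (hnI _).2]
    have r1 : ((-1 : ℂ) / 2 + 3 / 2 * Complex.I).re = -1 / 2 := by simp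
    have r2 : ((-1 : ℂ) / 2 + 3 / 2 * Complex.I).im = 3 / 2 := by simp
    simp only [Complex.sub_re, Complex.sub_im, Complex.re_ofReal_mul, Complex.im_ofReal_mul, r1, r2]
    constructor <;> rintro ⟨a, b, c, d⟩ <;> refine ⟨?_, ?_, ?_, ?_⟩ <;> linarith
  · rw [e, z7, d7, (hnI _).1, (hnI _).2]
    have r1 : ((-1 : ℂ) / 2 + Complex.I / 2).re = -1 / 2 := by simp
    have r2 : ((-1 : ℂ) / 2 + Complex.I / 2).im = 1 / 2 := by simp
    simp only [Complex.sub_re, Complex.sub_im, Complex.re_ofReal_mul, Complex.im_ofReal_mul, r1, r2]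
    constructor <;> rintro ⟨a, b, c, d⟩ <;> refine ⟨?_, ?_, ?_, ?_⟩ <;> linarith

/-- LEAF: the eight masks are pairwise disjoint      (in units of `δ`: `[0,1)×(-½,½)`, `[1,2)×(-½,½)`, `(1,2)×[½,3/2)`, `(0,1]×(½,3/2)`, `(0,1)×[3/2,5/2)`, `(-1,0]×(3/2,5/2)`, `(-1,0)×(½,3/2]`, `(-1,0)×(-½,½]`) -/
theorem pvkx_Md {δ : ℝ} (hδ : 0 < δ) {i j : ℕ} (hi : i < 8) (hj : j < 8) (hij : i ≠ j) : Disjoint (pvkxMj δ i) (pvkxMj δ j) := by
  rw [Set.disjoint_left]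
  intro w h1 h2
  obtain ⟨m0, m1, m2, m3, m4, m5, m6, m7⟩ := pvkx_109_mem δ w
  interval_cases i <;> interval_cases j <;> first
    | exact hij rfl
    | (simp only [m0, m1, m2, m3, m4, m5, m6, m7] at h1 h2
       obtain ⟨a1, a2, a3, a4⟩ := h1
       obtain ⟨b1, b2, b3, b4⟩ := h2
       linarith)

/-- (109) the doors in coordinates -/
theorem pvkx_109_door (δ : ℝ) :
    ((pvkxZ δ 0).re = 0 ∧ (pvkxZ δ 0).im = 0) ∧ ((pvkxZ δ 1).re = δ ∧ (pvkxZ δ 1).im = 0) ∧ ((pvkxZ δ 2).re = 3 * δ / 2 ∧ (pvkxZ δ 2).im = δ / 2) ∧ ((pvkxZ δ 3).re = δ ∧ (pvkxZ δ 3).im = δ) ∧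
    ((pvkxZ δ 4).re = δ / 2 ∧ (pvkxZ δ 4).im = 3 * δ / 2) ∧ ((pvkxZ δ 5).re = 0 ∧ (pvkxZ δ 5).im = 2 * δ) ∧ ((pvkxZ δ 6).re = -(δ / 2) ∧ (pvkxZ δ 6).im = 3 * δ / 2) ∧ ((pvkxZ δ 7).re = -(δ / 2) ∧ (pvkxZ δ 7).im = δ / 2) := by
  obtain ⟨⟨z0, -⟩, ⟨z1, -⟩, ⟨z2, -⟩, ⟨z3, -⟩, ⟨z4, -⟩, ⟨z5, -⟩, ⟨z6, -⟩, ⟨z7, -⟩⟩ := pvkx_frames δ
  rw [z0, z1, z2, z3, z4, z5, z6, z7]
  refine ⟨⟨?_, ?_⟩, ⟨?_, ?_⟩, ⟨?_, ?_⟩, ⟨?_, ?_⟩, ⟨?_, ?_⟩, ⟨?_, ?_⟩, ⟨?_, ?_⟩, ⟨?_, ?_⟩⟩ <;> simp <;> ring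

/-- (109) a point of a ball in coordinates -/
theorem pvkx_109_ball {z w : ℂ} {b : ℝ} (h : w ∈ Metric.ball z b) : w.re - z.re < b ∧ z.re - w.re < b ∧ w.im - z.im < b ∧ z.im - w.im < b := by
  rw [Metric.mem_ball, dist_eq_norm] at h
  have h1 := (Complex.abs_re_le_norm (w - z)).trans_lt h
  have h2 := (Complex.abs_im_le_norm (w - z)).trans_lt h
  rw [abs_lt] at h1 h2
  simp only [Complex.sub_re, Complex.sub_im] at h1 h2
  exact ⟨h1.2, by linarith [h1.1], h2.2, by linarith [h2.1]⟩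

/-- LEAF: the ball of radius `≤ δ/4` round the door `j` lies in the union of the masks of the two cells of the door -/
theorem pvkx_QM {δ b : ℝ} (hδ : 0 < δ) (hb : b ≤ δ / 4) {j : ℕ} (hj : j < 8) : Metric.ball (pvkxZ δ j) b ⊆ pvkxMj δ (pvkiPre 8 j) ∪ pvkxMj δ j := by
  intro w hw
  obtain ⟨c1, c2, c3, c4⟩ := pvkx_109_ball hw
  obtain ⟨m0, m1, m2, m3, m4, m5, m6, m7⟩ := pvkx_109_mem δ w
  obtain ⟨⟨x0, y0⟩, ⟨x1, y1⟩, ⟨x2, y2⟩, ⟨x3, y3⟩, ⟨x4, y4⟩, ⟨x5, y5⟩, ⟨x6, y6⟩, ⟨x7, y7⟩⟩ := pvkx_109_door δ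
  interval_cases j
  · rw [x0, y0] at *
    show w ∈ pvkxMj δ 7 ∨ w ∈ pvkxMj δ 0
    rw [m7, m0]
    rcases le_or_gt 0 w.re with h | h
    · exact Or.inr ⟨by linarith, by linarith, by linarith, by linarith⟩
    · exact Or.inl ⟨by linarith, by linarith, by linarith, by linarith⟩
  · rw [x1, y1] at *
    show w ∈ pvkxMj δ 0 ∨ w ∈ pvkxMj δ 1
    rw [m0, m1]
    rcases le_or_gt δ w.re with h | h
    · exact Or.inr ⟨by linarith, by linarith, by linarith, by linarith⟩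
    · exact Or.inl ⟨by linarith, by linarith, by linarith, by linarith⟩
  · rw [x2, y2] at *
    show w ∈ pvkxMj δ 1 ∨ w ∈ pvkxMj δ 2
    rw [m1, m2]
    rcases le_or_gt (δ / 2) w.im with h | h
    · exact Or.inr ⟨by linarith, by linarith, by linarith, by linarith⟩
    · exact Or.inl ⟨by linarith, by linarith, by linarith, by linarith⟩
  · rw [x3, y3] at *
    show w ∈ pvkxMj δ 2 ∨ w ∈ pvkxMj δ 3
    rw [m2, m3]
    rcases le_or_gt w.re δ with h | h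
    · exact Or.inr ⟨by linarith, by linarith, by linarith, by linarith⟩
    · exact Or.inl ⟨by linarith, by linarith, by linarith, by linarith⟩
  · rw [x4, y4] at *
    show w ∈ pvkxMj δ 3 ∨ w ∈ pvkxMj δ 4
    rw [m3, m4]
    rcases le_or_gt (3 * δ / 2) w.im with h | h
    · exact Or.inr ⟨by linarith, by linarith, by linarith, by linarith⟩
    · exact Or.inl ⟨by linarith, by linarith, by linarith, by linarith⟩
  · rw [x5, y5] at *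
    show w ∈ pvkxMj δ 4 ∨ w ∈ pvkxMj δ 5
    rw [m4, m5]
    rcases le_or_gt w.re 0 with h | h
    · exact Or.inr ⟨by linarith, by linarith, by linarith, by linarith⟩
    · exact Or.inl ⟨by linarith, by linarith, by linarith, by linarith⟩
  · rw [x6, y6] at *
    show w ∈ pvkxMj δ 5 ∨ w ∈ pvkxMj δ 6
    rw [m5, m6]
    rcases le_or_gt w.im (3 * δ / 2) with h | h
    · exact Or.inr ⟨by linarith, by linarith, by linarith, by linarith⟩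
    · exact Or.inl ⟨by linarith, by linarith, by linarith, by linarith⟩
  · rw [x7, y7] at *
    show w ∈ pvkxMj δ 6 ∨ w ∈ pvkxMj δ 7
    rw [m6, m7]
    rcases le_or_gt w.im (δ / 2) with h | h
    · exact Or.inr ⟨by linarith, by linarith, by linarith, by linarith⟩
    · exact Or.inl ⟨by linarith, by linarith, by linarith, by linarith⟩

/-- LEAF: two different doors are at distance `≥ δ/√2 > δ/2` -/
theorem pvkx_QQ {δ b : ℝ} (hδ : 0 < δ) (hb : b ≤ δ / 4) {i j : ℕ} (hi : i < 8) (hj : j < 8) (hij : i ≠ j) : Disjoint (Metric.ball (pvkxZ δ i) b) (Metric.ball (pvkxZ δ j) b) := by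
  rw [Set.disjoint_left]
  intro w h1 h2
  obtain ⟨c1, c2, c3, c4⟩ := pvkx_109_ball h1
  obtain ⟨e1, e2, e3, e4⟩ := pvkx_109_ball h2
  obtain ⟨⟨x0, y0⟩, ⟨x1, y1⟩, ⟨x2, y2⟩, ⟨x3, y3⟩, ⟨x4, y4⟩, ⟨x5, y5⟩, ⟨x6, y6⟩, ⟨x7, y7⟩⟩ := pvkx_109_door δ
  interval_cases i <;> interval_cases j <;> first
    | exact hij rfl
    | (simp only [x0, y0, x1, y1, x2, y2, x3, y3, x4, y4, x5, y5, x6, y6, x7, y7] at c1 c2 c3 c4 e1 e2 e3 e4
       linarith)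

/-- LEAF: the loop is bounded -/
theorem pvkx_MB {δ : ℝ} (hδ : 0 < δ) {j : ℕ} (hj : j < 8) : pvkxMj δ j ⊆ Metric.closedBall 0 (4 * δ) := by
  intro w hw
  obtain ⟨m0, m1, m2, m3, m4, m5, m6, m7⟩ := pvkx_109_mem δ w
  rw [mem_closedBall_zero_iff]
  refine (Complex.norm_le_abs_re_add_abs_im w).trans ?_
  have key : |w.re| ≤ 2 * δ ∧ |w.im| ≤ 2 * δ ∨ |w.re| ≤ δ ∧ |w.im| ≤ 3 * δ := by
    interval_cases j
    · obtain ⟨a1, a2, a3, a4⟩ := m0.1 hw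
      exact Or.inl ⟨abs_le.2 ⟨by linarith, by linarith⟩, abs_le.2 ⟨by linarith, by linarith⟩⟩
    · obtain ⟨a1, a2, a3, a4⟩ := m1.1 hw
      exact Or.inl ⟨abs_le.2 ⟨by linarith, by linarith⟩, abs_le.2 ⟨by linarith, by linarith⟩⟩
    · obtain ⟨a1, a2, a3, a4⟩ := m2.1 hw
      exact Or.inl ⟨abs_le.2 ⟨by linarith, by linarith⟩, abs_le.2 ⟨by linarith, by linarith⟩⟩
    · obtain ⟨a1, a2, a3, a4⟩ := m3.1 hw
      exact Or.inl ⟨abs_le.2 ⟨by linarith, by linarith⟩, abs_le.2 ⟨by linarith, by linarith⟩⟩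
    · obtain ⟨a1, a2, a3, a4⟩ := m4.1 hw
      exact Or.inr ⟨abs_le.2 ⟨by linarith, by linarith⟩, abs_le.2 ⟨by linarith, by linarith⟩⟩
    · obtain ⟨a1, a2, a3, a4⟩ := m5.1 hw
      exact Or.inr ⟨abs_le.2 ⟨by linarith, by linarith⟩, abs_le.2 ⟨by linarith, by linarith⟩⟩
    · obtain ⟨a1, a2, a3, a4⟩ := m6.1 hw
      exact Or.inl ⟨abs_le.2 ⟨by linarith, by linarith⟩, abs_le.2 ⟨by linarith, by linarith⟩⟩
    · obtain ⟨a1, a2, a3, a4⟩ := m7.1 hw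
      exact Or.inl ⟨abs_le.2 ⟨by linarith, by linarith⟩, abs_le.2 ⟨by linarith, by linarith⟩⟩
  rcases key with ⟨h1, h2⟩ | ⟨h1, h2⟩ <;> linarith

/-- **THE GEOMETRY OF [CLOSE] FROM THE REFERENCE FRAME** -/
theorem pvkx_geo {𝔤 : PvkdGeo} (h : PvkxRef 𝔤) : PvkxGeo 𝔤 (Metric.closedBall 0 (4 * 𝔤.δ)) 𝔤.δ := by
  have eM : ∀ j, 𝔤.MkJ j = pvkxMj 𝔤.δ j := fun j => by
    unfold PvkdGeo.MkJ pvkxMj
    rw [h.Mk]
    rfl
  refine ⟨h.ZZ, ⟨?_, ?_, ?_, ?_, ?_, ?_, ?_⟩, ?_, ?_, ?_⟩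
  · intro c _
    rw [eM]
    exact pvkx_at_convex _ _ (pvkx_M_convex _)
  · intro i j hi hj hij
    rw [eM, eM]
    exact pvkx_Md h.δ0 hi hj hij
  · intro c hc
    rw [eM]
    exact pvkx_MB h.δ0 hc
  · intro j _
    rw [eM]
    exact pvkx_at_mono _ _ (h.Co _)
  · intro j _
    exact convex_ball _ _
  · intro j hj
    rw [eM, eM]
    exact pvkx_QM h.δ0 h.b4 hj
  · intro i j hi hj hij
    exact pvkx_QQ h.δ0 h.b4 hi hj hij
  · intro j _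
    exact pvkx_at_disj (pvkx_D_ne j) (h.Zm _)
  · intro j hj
    obtain ⟨e1, e2⟩ := pvkx_exit 𝔤 hj
    rw [← e1, ← e2]
    have := pvkx_at_at (pvkxZ 𝔤.δ j) (pvkxD j) (𝔤.δ * (pvkxL j).mid) (pvkxL j).rot 𝔤.Zp
    rw [show 𝔤.zo (pvkxZ 𝔤.δ j) (pvkxD j) (pvkxL j) = pvkxZ 𝔤.δ j + pvkxD j * (𝔤.δ * (pvkxL j).mid) from rfl, ← this]
    exact pvkx_at_disj (pvkx_D_ne j) (h.Zp _)
  · refine ⟨0, 4, by norm_num, by norm_num, ?_⟩
    rintro _ ⟨u, hu, rfl⟩ _ ⟨v, hv, rfl⟩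
    obtain ⟨⟨z0, d0⟩, -, -, -, ⟨z4, d4⟩, -⟩ := pvkx_frames 𝔤.δ
    have hu' : ‖u‖ ≤ 𝔤.δ / 4 := by simpa using h.Zpb hu
    have hv' : ‖v‖ ≤ 𝔤.δ / 4 := by simpa using h.Zpb hv
    unfold pvthSim
    rw [z0, d0, z4, d4]
    have hδ := h.δ0
    have e : (𝔤.δ : ℂ) * (1 / 2 + 3 / 2 * Complex.I) = ((0 : ℂ) + 1 * u - ((𝔤.δ : ℂ) * (1 / 2 + 3 / 2 * Complex.I) + Complex.I * v)) * (-1) + (u - Complex.I * v) := by ring
    have n1 : ‖(𝔤.δ : ℂ) * (1 / 2 + 3 / 2 * Complex.I)‖ ≥ 3 / 2 * 𝔤.δ := by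
      have : |((𝔤.δ : ℂ) * (1 / 2 + 3 / 2 * Complex.I)).im| ≤ ‖(𝔤.δ : ℂ) * (1 / 2 + 3 / 2 * Complex.I)‖ := Complex.abs_im_le_norm _
      have e2 : ((𝔤.δ : ℂ) * (1 / 2 + 3 / 2 * Complex.I)).im = 3 / 2 * 𝔤.δ := by simp; ring
      rw [e2, abs_of_pos (by positivity)] at this
      exact this
    have n2 : ‖(𝔤.δ : ℂ) * (1 / 2 + 3 / 2 * Complex.I)‖ ≤ ‖(0 : ℂ) + 1 * u - ((𝔤.δ : ℂ) * (1 / 2 + 3 / 2 * Complex.I) + Complex.I * v)‖ + (‖u‖ + ‖v‖) := by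
      conv_lhs => rw [e]
      refine (norm_add_le _ _).trans ?_
      rw [norm_mul, norm_neg, norm_one, mul_one]
      gcongr
      refine (norm_sub_le _ _).trans ?_
      rw [norm_mul, Complex.norm_I, one_mul]
    linarith

end Claimed.Agent.R289
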