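-- KEEP
import Claimed.Agent.R289.Tr.FrameIso
import Claimed.Agent.R289.Tr.PlugClose
import Claimed.Agent.R289.Exit.NumQ

/-!
# Row 289 (S0537), THE WALL, chapter E (cells), box TR-DILK, file Tr/DilK : SCALING COVARIANCE OF THE CELL KIT INSTANCE + THE DICTIONARY AT THE LEVEL `m` = CONTRACT (4b)      (helper227; order of 24 id 87809; prefix `pvdil_`, `pvdil`, `Pvdil`)

WHY.   The engine carries an ABSTRACT kit `𝔈.kit m ε : PvthKit` and cell field `𝔈.XQ m ε`.   (NUM) says: it is the reference family (cells of side `1`) at the mesh `ε / δ_m`, scaled by `δ_m` (258, `PvkmEng`).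
The reference family of record is the SOFT kit (34, `Tr/Plug`) of the global datum `𝔤.glob Hf` (`Tr/PlugK` v3).   `pvpg_dict` of 34 : a.e., soft ⟹ global, AT `δ = 1`, i.e. on the plane map of the RESCALED configuration `cfMap (pvthInv 0 δ_m) η` = another vertex type.
CHAIN (70 268 104), the doors of `Tr/InstL` (`pvkdP (δ_m / 16)`) live on the plane map of `η` ITSELF.      [COV] of 251 (`Tr/FrameIso`) is for the frames `d ^ 4 = 1`.      HERE: the dilations `w ↦ s w`, `0 < s`.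
* sec. 1  `pvdilS s S`, **`PvkdPlug.sc`**, **`PvkdGeo.sc`** (numbers `ρ a b δ` times `s`, regions dilated), `pvdil_P : (pvkdP r).sc s = pvkdP (s * r)`
* sec. 2  `PvdilFr η η' s` (`η'` = image of `η` under `w ↦ s w`): `.symm .iso .nice .mesh .mk .pg .at`, `.pl` (a field of 107: factor `s`)
* sec. 3  the objects of `Tr/PlugK` v3: `pvdil_N_iff C_iff H_iff NA_iff A_iff`, `pvdil_gate`, `pvdil_link`, **`pvdil_XQ`**
* sec. 4  **`pvdil_cov_N C H CH NA A X`** : `(𝔤.sc s).A (s z) d τ = cfMap (pvthInv 0 s) ⁻¹' 𝔤.A z d τ`, `(𝔤.sc s).XQ (s z) d τ η = s * 𝔤.XQ z d τ (cfMap (pvthInv 0 s) η)`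
          `pvdil_law pvdil_ae pvdil_measure`;   **`pvdil_adm`, `pvdil_adm_P`, `pvdil_adm_P'`** ([ADM] is scale free);   `pvdil_S_disjoint`, `pvdil_sum` ([SUM] of 244 at every scale)
* sec. 5  **THE DICTIONARY AT THE LEVEL `m`** : `pvdil_dict_sc` (one kit, one scale), **`pvdil_dict`**, **`pvdil_dict_word`** (`PvkuOk (𝔤.glob Hf) ..` + `PvkmEng 𝔈 c H.unit`);   `pvdil_door_sc`, **`pvdil_door`** (a.e. a usable door is a door of record).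
          AT THE CONTRACT OF 258 (`PvnnEng 𝔈 c`, `Exit/NumI`): `obtain ⟨Hf, b, q, β', CB, H, hU⟩ := h; exact pvdil_dict_word H hU m` (`𝔤 = pvkgG`).      BLACK FORM: the kit is evaluated at `pvkyFl b η`: transport the a.e. statement by `pvky_fl_map`.
* sec. 6  **`pvdil_gates`** : all the links of a word succeed ⟹ ONE family of gates `g 0 .. g n` (THE gates of record of the doors, `pvkx_uniq`), cell `j` = `Link (g j) (g (j + 1))`, `XQ_j = pvkdMass` in the placed mask.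
-/

set_option autoImplicit false
set_option linter.unusedSectionVars false

namespace Claimed.Agent.R289

open MeasureTheory Set Filter Topology Claims.C0465
open scoped ENNReal

/-! ## 1. the dilated geometry -/

/-- the region `S` dilated by `s` -/
def pvdilS (s : ℝ) (S : Set ℂ) : Set ℂ := vorSim (s : ℂ) 0 '' S

/-- **the plug dilated by `s`** -/
def PvkdPlug.sc (𝔭 : PvkdPlug) (s : ℝ) : PvkdPlug where
  ρ := s * 𝔭.ρ
  Ew := pvdilS s 𝔭.Ew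
  a := s * 𝔭.a
  b := s * 𝔭.b
  Zm := pvdilS s 𝔭.Zm
  Zp := pvdilS s 𝔭.Zp
  Tb := pvdilS s 𝔭.Tb
  Ln := fun σ β => pvdilS s (𝔭.Ln σ β)
  Dr := fun σ β => pvdilS s (𝔭.Dr σ β)

/-- **the geometry of the cell kit dilated by `s`** -/
def PvkdGeo.sc (𝔤 : PvkdGeo) (s : ℝ) : PvkdGeo where
  toPvkdPlug := 𝔤.toPvkdPlug.sc s
  δ := s * 𝔤.δ
  O₀ := pvdilS s 𝔤.O₀
  K₀ := fun τ => pvdilS s (𝔤.K₀ τ)
  Co := fun τ => pvdilS s (𝔤.Co τ)
  Mk := fun τ => pvdilS s (𝔤.Mk τ)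

theorem pvdil_eqns_cite : True := by
  have := @pvdilS.eq_1; have := @PvkdPlug.sc.eq_1; have := @PvkdGeo.sc.eq_1
  trivial

theorem pvdil_S_sim (s : ℝ) (S : Set ℂ) : pvdilS s S = pvthSim 0 s '' S := by
  unfold pvdilS
  refine image_congr fun w _ => ?_
  simp only [vorSim, pvthSim]; ring

theorem pvdil_mem_S {s : ℝ} (hs : 0 < s) (S : Set ℂ) (w : ℂ) : (s : ℂ) * w ∈ pvdilS s S ↔ w ∈ S := by
  have h := (vorSim_injective (pvbe_sc_ne hs) 0).mem_set_image (s := S) (a := w)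
  simpa [pvdilS, vorSim] using h

theorem pvdil_S_union (s : ℝ) (S S' : Set ℂ) : pvdilS s (S ∪ S') = pvdilS s S ∪ pvdilS s S' := image_union _ _ _

/-- a placed dilated region is the dilated placed region -/
theorem pvdil_at (s : ℝ) (z d : ℂ) (S : Set ℂ) : pvkdAt ((s : ℂ) * z) d (pvdilS s S) = vorSim (s : ℂ) 0 '' pvkdAt z d S := by
  unfold pvkdAt pvdilS
  rw [image_image, image_image]
  refine image_congr fun w _ => ?_
  simp only [pvthSim, vorSim]; ring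

theorem pvdil_ball {s : ℝ} (hs : 0 < s) (z : ℂ) (r : ℝ) : Metric.ball ((s : ℂ) * z) (s * r) = vorSim (s : ℂ) 0 '' Metric.ball z r := by
  have a0 := pvbe_sc_ne hs
  ext w
  obtain ⟨u, rfl⟩ := vorSim_surjective a0 0 w
  rw [(vorSim_injective a0 0).mem_set_image, Metric.mem_ball, Metric.mem_ball, dist_eq_norm, dist_eq_norm]
  have e : vorSim (s : ℂ) 0 u - (s : ℂ) * z = (s : ℂ) * (u - z) := by simp only [vorSim]; ring
  rw [e, norm_mul, Complex.norm_real, Real.norm_eq_abs, abs_of_pos hs]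
  exact mul_lt_mul_iff_right₀ hs

theorem pvdil_cball {s : ℝ} (hs : 0 < s) (z : ℂ) (r : ℝ) : Metric.closedBall (vorSim (s : ℂ) 0 z) (s * r) = vorSim (s : ℂ) 0 '' Metric.closedBall z r := by
  have a0 := pvbe_sc_ne hs
  ext w
  obtain ⟨u, rfl⟩ := vorSim_surjective a0 0 w
  rw [(vorSim_injective a0 0).mem_set_image, Metric.mem_closedBall, Metric.mem_closedBall, dist_eq_norm, dist_eq_norm, pvco_sub, norm_mul, Complex.norm_real, Real.norm_eq_abs, abs_of_pos hs]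
  exact mul_le_mul_iff_right₀ hs

theorem pvdil_core {s : ℝ} (hs : 0 < s) (r : ℝ) (E : Set ℂ) : pvtrCore (s * r) (vorSim (s : ℂ) 0 '' E) = vorSim (s : ℂ) 0 '' pvtrCore r E := by
  have a0 := pvbe_sc_ne hs
  ext w
  obtain ⟨u, rfl⟩ := vorSim_surjective a0 0 w
  rw [(vorSim_injective a0 0).mem_set_image, pvtr_mem_core, pvtr_mem_core, pvdil_cball hs, Set.image_subset_image_iff (vorSim_injective a0 0)]

theorem pvdil_quad {Y : Set ℂ} {s : ℝ} (hs : 0 < s) (hY : VorQuad Y) : VorQuad (vorSim (s : ℂ) 0 '' Y) := by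
  intro z
  obtain ⟨w, rfl⟩ := vorSim_surjective (pvbe_sc_ne hs) 0 z
  obtain ⟨⟨s1, h1, h1a, h1b⟩, ⟨s2, h2, h2a, h2b⟩, ⟨s3, h3, h3a, h3b⟩, ⟨s4, h4, h4a, h4b⟩⟩ := hY w
  refine ⟨⟨_, ⟨s1, h1, rfl⟩, ?_, ?_⟩, ⟨_, ⟨s2, h2, rfl⟩, ?_, ?_⟩, ⟨_, ⟨s3, h3, rfl⟩, ?_, ?_⟩, ⟨_, ⟨s4, h4, rfl⟩, ?_, ?_⟩⟩ <;> simp [vorSim] <;> nlinarith

theorem pvdil_rect {s : ℝ} (hs : 0 < s) (x0 x1 y0 y1 : ℝ) : pvdilS s (rswRect x0 x1 y0 y1) = rswRect (s * x0) (s * x1) (s * y0) (s * y1) := by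
  have a0 := pvbe_sc_ne hs
  ext w
  obtain ⟨u, rfl⟩ := vorSim_surjective a0 0 w
  unfold pvdilS
  rw [(vorSim_injective a0 0).mem_set_image]
  simp only [rswRect, vorSim, mem_ofPred_eq, add_zero, Complex.re_ofReal_mul, Complex.im_ofReal_mul]
  rw [mul_le_mul_iff_right₀ hs, mul_le_mul_iff_right₀ hs, mul_le_mul_iff_right₀ hs, mul_le_mul_iff_right₀ hs]

theorem pvdil_krect {s : ℝ} (hs : 0 < s) (σ : Bool) (x0 x1 y0 y1 : ℝ) : pvdilS s (pvkdRect σ x0 x1 y0 y1) = pvkdRect σ (s * x0) (s * x1) (s * y0) (s * y1) := by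
  unfold pvkdRect
  cases σ
  · simp only [Bool.false_eq_true, if_false]
    rw [pvdil_rect hs, mul_neg, mul_neg]
  · simp only [if_true]
    exact pvdil_rect hs _ _ _ _

theorem pvdil_sq {s : ℝ} (hs : 0 < s) (r : ℝ) : pvdilS s (pvwSq 0 r) = pvwSq 0 (s * r) := by
  have a0 := pvbe_sc_ne hs
  ext w
  obtain ⟨u, rfl⟩ := vorSim_surjective a0 0 w
  unfold pvdilS
  rw [(vorSim_injective a0 0).mem_set_image]
  simp only [pvwSq, vorSim, mem_ofPred_eq, add_zero, sub_zero, Complex.re_ofReal_mul, Complex.im_ofReal_mul, abs_mul, abs_of_pos hs]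
  rw [mul_le_mul_iff_right₀ hs, mul_le_mul_iff_right₀ hs]

/-- **the plug of record is scale covariant** -/
theorem pvdil_P {s : ℝ} (hs : 0 < s) (r : ℝ) : (pvkdP r).sc s = pvkdP (s * r) := by
  unfold PvkdPlug.sc pvkdP
  simp only [pvdil_rect hs, pvdil_sq hs]
  congr 1
  · ring
  · ring_nf
  · ring
  · ring_nf
  · ring_nf
  · ring_nf
  · funext σ β
    cases β
    · simp only [Bool.false_eq_true, if_false]
      rw [pvdil_S_union, pvdil_krect hs, pvdil_krect hs]; ring_nf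
    · simp only [if_true]
      rw [pvdil_S_union, pvdil_krect hs, pvdil_krect hs]; ring_nf
  · funext σ β
    cases β
    · simp only [Bool.false_eq_true, if_false]
      rw [pvdil_krect hs]; ring_nf
    · simp only [if_true]
      rw [pvdil_krect hs]; ring_nf

/-! ## 2. two configurations related by a dilation -/

/-- `η'` is the image of `η` under `w ↦ s w`, `0 < s` -/
structure PvdilFr (η η' : Conf PvPt) (s : ℝ) : Prop where
  s0 : 0 < s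
  Y : cfSites η' = vorSim (s : ℂ) 0 '' cfSites η
  col : ∀ p, cfCol η' (vorSim (s : ℂ) 0 p) = cfCol η p

theorem pvdil_fr_map {s : ℝ} (hs : 0 < s) (η : Conf PvPt) : PvdilFr η (cfMap (vorSim (s : ℂ) 0) η) s :=
  ⟨hs, pvcv_sites _ _ η, pvcv_col (pvbe_sc_ne hs) η⟩

theorem PvdilFr.symm {η η' : Conf PvPt} {s : ℝ} (F : PvdilFr η η' s) : PvdilFr η' η s⁻¹ where
  s0 := inv_pos.2 F.s0
  Y := by
    have a0 := pvbe_sc_ne F.s0
    rw [F.Y, image_image]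
    have e : ∀ x, vorSim ((s⁻¹ : ℝ) : ℂ) 0 (vorSim (s : ℂ) 0 x) = x := fun x => by
      simp only [vorSim, add_zero, Complex.ofReal_inv]
      rw [inv_mul_cancel_left₀ a0]
    simp only [e, image_id']
  col p := by
    have a0 := pvbe_sc_ne F.s0
    have e : vorSim (s : ℂ) 0 (vorSim ((s⁻¹ : ℝ) : ℂ) 0 p) = p := by
      simp only [vorSim, add_zero, Complex.ofReal_inv]
      rw [mul_inv_cancel_left₀ a0]
    rw [← F.col, e]

namespace PvdilFr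

variable {η η' : Conf PvPt} {s : ℝ} (F : PvdilFr η η' s)
include F

theorem a0 : (s : ℂ) ≠ 0 := pvbe_sc_ne F.s0

theorem na : ‖(s : ℂ)‖ = s := by rw [Complex.norm_real, Real.norm_eq_abs, abs_of_pos F.s0]

/-- the isomorphism of the plane maps -/
noncomputable def iso : PvIso (pvkiT η) (pvkiT η') := pvcoIso F.a0 F.Y

theorem val (v : ↥(cfSites η)) : ((F.iso.fV v : ↥(cfSites η')) : ℂ) = vorSim (s : ℂ) 0 v.1 := rfl

theorem hs (v : ↥(cfSites η)) : pvkiS η' (F.iso.fV v) = pvkiS η v := F.col v.1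

theorem nice (h : PvatNice (cfSites η)) : PvatNice (cfSites η') := by
  rw [F.Y]
  exact ⟨vorc_lf_image (vorc_sim_vorSim _ 0 F.a0) h.1, pvcv_gp F.a0 rfl h.2.1, pvdil_quad F.s0 h.2.2⟩

theorem dense {K : Set ℂ} {ρ : ℝ} : VorDense (cfSites η') (vorSim (s : ℂ) 0 '' K) (s * ρ) ↔ VorDense (cfSites η) K ρ := by
  rw [F.Y]
  have := (vorc_dense (vorc_sim_vorSim (s : ℂ) 0 F.a0) (Y := cfSites η) (K := K) (ρ := ρ))
  rwa [F.na] at this

theorem mkS (X : Set ℂ) : PvcoMk F.iso Subtype.val Subtype.val X (vorSim (s : ℂ) 0 '' X) := fun v => by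
  rw [F.val]; exact (vorSim_injective F.a0 0).mem_set_image

theorem at' (z d : ℂ) (S : Set ℂ) : PvcoMk F.iso Subtype.val Subtype.val (pvkdAt z d S) (pvkdAt ((s : ℂ) * z) d (pvdilS s S)) := by
  rw [pvdil_at]; exact F.mkS _

theorem pg (𝔭 : PvkdPlug) (z d : ℂ) : PvcoPg F.iso Subtype.val Subtype.val (𝔭.pg z d) ((𝔭.sc s).pg ((s : ℂ) * z) d) where
  KI := by
    show PvcoMk _ _ _ (Metric.ball z 𝔭.a) (Metric.ball ((s : ℂ) * z) (s * 𝔭.a))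
    rw [pvdil_ball F.s0]; exact F.mkS _
  KO := by
    show PvcoMk _ _ _ (Metric.ball z 𝔭.b) (Metric.ball ((s : ℂ) * z) (s * 𝔭.b))
    rw [pvdil_ball F.s0]; exact F.mkS _
  Km := F.at' z d _
  Kp := F.at' z d _
  KT := F.at' z d _

theorem mesh {ρ : ℝ} {z d : ℂ} {E : Set ℂ} : PvtrMesh (s * ρ) (pvkdAt ((s : ℂ) * z) d (pvdilS s E)) (cfSites η') ↔ PvtrMesh ρ (pvkdAt z d E) (cfSites η) := by
  unfold PvtrMesh
  rw [pvdil_at, pvdil_core F.s0]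
  exact F.dense

/-- the image of a gate -/
noncomputable def gate (g : (pvkiT η).Gate (pvkiS η)) : (pvkiT η').Gate (pvkiS η') := pvcoGate F.iso F.hs g

theorem posK (e : (delbPl (cfSites η)).Dart) :
    pvzfPlPos (cfSites η') (F.iso.fD e) = (vorSim (s : ℂ) 0 (pvzfPlPos (cfSites η) e).1, vorSim (s : ℂ) 0 (pvzfPlPos (cfSites η) e).2.1, vorSim (s : ℂ) 0 (pvzfPlPos (cfSites η) e).2.2) := by
  unfold pvzfPlPos
  have h1 := F.iso.src e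
  have h2 := F.iso.tgt e
  have h3 := F.iso.apex e
  rw [h1, h2, h3]
  rfl

/-- **a field of 107 under a dilation** -/
theorem pl {Ψ Ψ' : PvzfPred ℂ}
    (h : ∀ e, Ψ' _ _ (pvkiT η') Subtype.val (pvkiS η') (F.iso.fD e) ↔ Ψ _ _ (pvkiT η) Subtype.val (pvkiS η) e) (M : Set ℂ) :
    pvzfPl id Ψ' (pvkdWt (vorSim (s : ℂ) 0 '' M)) η' = (s : ℂ) * pvzfPl id Ψ (pvkdWt M) η := by
  unfold pvzfPl
  have e : pvzfPlS id Ψ' η' = F.iso.fD '' pvzfPlS id Ψ η := pvco_setOf F.iso h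
  rw [e, finsum_mem_image F.iso.fD.injective.injOn, mul_finsum_mem]
  refine finsum_mem_congr rfl fun x _ => ?_
  rw [F.posK, pvco_W F.a0]

end PvdilFr

theorem pvdil_eqns_cite2 : True := by
  have := @PvdilFr.iso.eq_1; have := @PvdilFr.gate.eq_1
  trivial

/-! ## 3. the objects of `Tr/PlugK` v3 under a dilation -/

section plugk

variable {η η' : Conf PvPt} {s : ℝ}

theorem pvdil_nice_iff (F : PvdilFr η η' s) : PvatNice (cfSites η') ↔ PvatNice (cfSites η) := ⟨F.symm.nice, F.nice⟩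

theorem pvdil_zo (𝔤 : PvkdGeo) (s : ℝ) (z d : ℂ) (τ : PvtTurn) : (𝔤.sc s).zo ((s : ℂ) * z) d τ = (s : ℂ) * 𝔤.zo z d τ := by
  simp only [PvkdGeo.zo, PvkdGeo.sc, Complex.ofReal_mul]; ring

theorem pvdil_Ea (𝔤 : PvkdGeo) (s : ℝ) (τ : PvtTurn) : (𝔤.sc s).Ea τ = pvdilS s (𝔤.Ea τ) := by
  unfold PvkdGeo.Ea
  rw [pvdil_S_union, pvdil_S_union]
  congr 1
  have h := pvdil_zo 𝔤 s 0 1 τ
  rw [mul_zero] at h
  rw [h]
  exact pvdil_at s _ _ _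

theorem pvdil_N_iff (F : PvdilFr η η' s) (𝔭 : PvkdPlug) (z d : ℂ) : η' ∈ (𝔭.sc s).N ((s : ℂ) * z) d ↔ η ∈ 𝔭.N z d :=
  and_congr (pvdil_nice_iff F) F.mesh

theorem pvdil_NA_iff (F : PvdilFr η η' s) (𝔤 : PvkdGeo) (z d : ℂ) (τ : PvtTurn) : η' ∈ (𝔤.sc s).NA ((s : ℂ) * z) d τ ↔ η ∈ 𝔤.NA z d τ := by
  refine and_congr (pvdil_nice_iff F) ?_
  rw [pvdil_Ea]
  exact F.mesh

theorem pvdil_gate (F : PvdilFr η η' s) (𝔭 : PvkdPlug) (z d : ℂ) {g : (pvkiT η).Gate (pvkiS η)} (h : PvkdGate 𝔭 η z d g) :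
    PvkdGate (𝔭.sc s) η' ((s : ℂ) * z) d (F.gate g) := pvco_gt F.hs (F.pg 𝔭 z d) h

/-- the second plug of a link -/
theorem pvdil_pg1 (F : PvdilFr η η' s) (𝔤 : PvkdGeo) (z d : ℂ) (τ : PvtTurn) :
    PvcoPg F.iso Subtype.val Subtype.val (𝔤.pg (𝔤.zo z d τ) (d * τ.rot)) ((𝔤.sc s).pg ((𝔤.sc s).zo ((s : ℂ) * z) d τ) (d * τ.rot)) := by
  rw [pvdil_zo]
  exact F.pg 𝔤.toPvkdPlug (𝔤.zo z d τ) (d * τ.rot)

theorem pvdil_C_iff (F : PvdilFr η η' s) (𝔭 : PvkdPlug) (z d : ℂ) : η' ∈ (𝔭.sc s).C ((s : ℂ) * z) d ↔ η ∈ 𝔭.C z d := by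
  rw [pvkk_C_iff, pvkk_C_iff]
  exact and_congr (pvdil_N_iff F 𝔭 z d) (pvco_zC F.hs (F.pg 𝔭 z d))

theorem pvdil_link (F : PvdilFr η η' s) (𝔤 : PvkdGeo) (z d : ℂ) (τ : PvtTurn) {g g' : (pvkiT η).Gate (pvkiS η)} {N : ℕ} (h : 𝔤.Link η z d τ g g' N) :
    (𝔤.sc s).Link η' ((s : ℂ) * z) d τ (F.gate g) (F.gate g') N :=
  ⟨pvdil_gate F _ z d h.1, pvco_gt F.hs (pvdil_pg1 F 𝔤 z d τ) h.2.1, (pvco_zrun F.hs (F.at' z d _) g g' N).2 h.2.2⟩

theorem pvdil_A_iff (F : PvdilFr η η' s) (𝔤 : PvkdGeo) (z d : ℂ) (τ : PvtTurn) : η' ∈ (𝔤.sc s).A ((s : ℂ) * z) d τ ↔ η ∈ 𝔤.A z d τ := by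
  rw [pvkk_A_iff, pvkk_A_iff]
  exact and_congr (pvdil_NA_iff F 𝔤 z d τ) (pvco_zA F.hs (F.pg 𝔤.toPvkdPlug z d) (pvdil_pg1 F 𝔤 z d τ) (F.at' z d _))

theorem pvdil_foot (F : PvdilFr η η' s) (g : (pvkiT η).Gate (pvkiS η)) (σ β : Bool) : pvkdFoot (F.gate g) σ β = F.iso.fV (pvkdFoot g σ β) := by
  unfold pvkdFoot
  cases σ <;> cases β
  · show (pvkiT η').tgt (pvcoGate F.iso F.hs g).aIn = _
    rw [pvco_gate_aIn, F.iso.tgt]; rfl
  · exact pvco_gate_vm F.iso F.hs g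
  · show (pvkiT η').tgt (pvcoGate F.iso F.hs g).aOut = _
    rw [pvco_gate_aOut, F.iso.tgt]; rfl
  · exact pvco_gate_vp F.iso F.hs g

theorem pvdil_H (F : PvdilFr η η' s) (𝔭 : PvkdPlug) (z d : ℂ) (σ β : Bool) (h : η ∈ 𝔭.H z d σ β) : η' ∈ (𝔭.sc s).H ((s : ℂ) * z) d σ β := by
  obtain ⟨h1, g, hg, v, hv, hj⟩ := h
  refine ⟨(pvdil_N_iff F 𝔭 z d).2 h1, F.gate g, pvdil_gate F 𝔭 z d hg, F.iso.fV v, (F.at' z d _ v).2 hv, ?_⟩
  have e : {u : ↥(cfSites η') | (u : ℂ) ∈ pvkdAt ((s : ℂ) * z) d ((𝔭.sc s).Ln σ β)} = F.iso.fV '' {u : ↥(cfSites η) | (u : ℂ) ∈ pvkdAt z d (𝔭.Ln σ β)} := (F.at' z d _).set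
  rw [e, pvco_col F.iso F.hs, pvdil_foot, ← pvco_univ F.iso]
  exact (pvco_join F.iso _ _ _ _).2 hj

/-- **the mass of the link under a dilation** -/
theorem pvdil_XQ (F : PvdilFr η η' s) (𝔤 : PvkdGeo) (z d : ℂ) (τ : PvtTurn) : (𝔤.sc s).XQ ((s : ℂ) * z) d τ η' = (s : ℂ) * 𝔤.XQ z d τ η := by
  unfold PvkdGeo.XQ
  by_cases h : η ∈ 𝔤.A z d τ
  · rw [if_pos h, if_pos ((pvdil_A_iff F 𝔤 z d τ).2 h)]
    have eM : pvkdAt ((s : ℂ) * z) d ((𝔤.sc s).Mk τ) = vorSim (s : ℂ) 0 '' pvkdAt z d (𝔤.Mk τ) := pvdil_at s z d _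
    rw [eM, mul_add, mul_add]
    congr 1
    · congr 1
      · exact F.pl (fun e => pvco_Ti F.hs (F.pg 𝔤.toPvkdPlug z d) e) _
      · exact F.pl (fun e => pvco_Tr F.hs (F.pg 𝔤.toPvkdPlug z d) (pvdil_pg1 F 𝔤 z d τ) (F.at' z d _) e) _
    · exact F.pl (fun e => pvco_Ti F.hs (pvdil_pg1 F 𝔤 z d τ) e) _
  · rw [if_neg h, if_neg fun h' => h ((pvdil_A_iff F 𝔤 z d τ).1 h'), mul_zero]

end plugk

/-! ## 4. covariance under the dilations -/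

section cov

variable {s : ℝ}

theorem pvdil_inv_eq (s : ℝ) : pvthInv 0 (s : ℂ) = vorSim ((s⁻¹ : ℝ) : ℂ) 0 := by
  funext w
  simp only [pvthInv, vorSim, sub_zero, add_zero, Complex.ofReal_inv]
  rw [div_eq_mul_inv, mul_comm]

/-- `η` is the image under `w ↦ s w` of `cfMap (pvthInv 0 s) η` -/
theorem pvdil_fr_inv (hs : 0 < s) (η : Conf PvPt) : PvdilFr (cfMap (pvthInv 0 (s : ℂ)) η) η s := by
  have h := (pvdil_fr_map (inv_pos.2 hs) η).symm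
  rwa [inv_inv, ← pvdil_inv_eq] at h

theorem pvdil_cov_N (𝔭 : PvkdPlug) (hs : 0 < s) (z d : ℂ) : (𝔭.sc s).N ((s : ℂ) * z) d = cfMap (pvthInv 0 (s : ℂ)) ⁻¹' 𝔭.N z d := by
  ext η; exact pvdil_N_iff (pvdil_fr_inv hs η) 𝔭 z d

/-- the plug -/
theorem pvdil_cov_C (𝔭 : PvkdPlug) (hs : 0 < s) (z d : ℂ) : (𝔭.sc s).C ((s : ℂ) * z) d = cfMap (pvthInv 0 (s : ℂ)) ⁻¹' 𝔭.C z d := by
  ext η; exact pvdil_C_iff (pvdil_fr_inv hs η) 𝔭 z d

/-- the half lanes (the inclusion which transports a LOWER bound of the probability) -/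
theorem pvdil_cov_H (𝔭 : PvkdPlug) (hs : 0 < s) (z d : ℂ) (σ β : Bool) : cfMap (pvthInv 0 (s : ℂ)) ⁻¹' 𝔭.H z d σ β ⊆ (𝔭.sc s).H ((s : ℂ) * z) d σ β :=
  fun η h => pvdil_H (pvdil_fr_inv hs η) 𝔭 z d σ β h

/-- the plug with its four half lanes -/
theorem pvdil_cov_CH (𝔭 : PvkdPlug) (hs : 0 < s) (z d : ℂ) : cfMap (pvthInv 0 (s : ℂ)) ⁻¹' 𝔭.CH z d ⊆ (𝔭.sc s).CH ((s : ℂ) * z) d := by
  rintro η ⟨h1, h2⟩
  refine ⟨?_, ?_⟩
  · rw [pvdil_cov_C 𝔭 hs]; exact h1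
  · simp only [mem_iInter] at h2 ⊢
    exact fun σ β => pvdil_cov_H 𝔭 hs z d σ β (h2 σ β)

theorem pvdil_cov_NA (𝔤 : PvkdGeo) (hs : 0 < s) (z d : ℂ) (τ : PvtTurn) : (𝔤.sc s).NA ((s : ℂ) * z) d τ = cfMap (pvthInv 0 (s : ℂ)) ⁻¹' 𝔤.NA z d τ := by
  ext η; exact pvdil_NA_iff (pvdil_fr_inv hs η) 𝔤 z d τ

/-- **the link** -/
theorem pvdil_cov_A (𝔤 : PvkdGeo) (hs : 0 < s) (z d : ℂ) (τ : PvtTurn) : (𝔤.sc s).A ((s : ℂ) * z) d τ = cfMap (pvthInv 0 (s : ℂ)) ⁻¹' 𝔤.A z d τ := by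
  ext η; exact pvdil_A_iff (pvdil_fr_inv hs η) 𝔤 z d τ

/-- **the mass** -/
theorem pvdil_cov_X (𝔤 : PvkdGeo) (hs : 0 < s) (z d : ℂ) (τ : PvtTurn) (η : Conf PvPt) : (𝔤.sc s).XQ ((s : ℂ) * z) d τ η = (s : ℂ) * 𝔤.XQ z d τ (cfMap (pvthInv 0 (s : ℂ)) η) :=
  pvdil_XQ (pvdil_fr_inv hs η) 𝔤 z d τ

/-- the law under the inverse dilation -/
theorem pvdil_law (hs : 0 < s) (e : ℝ) : (pvP (s * e)).map (cfMap (pvthInv 0 (s : ℂ))) = pvP e := by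
  have ha : (((s⁻¹ : ℝ) : ℂ)) ≠ 0 := pvbe_sc_ne (inv_pos.2 hs)
  have h := pvci_law_aff ((s⁻¹ : ℝ) : ℂ) 0 ha (s * e)
  rw [pvci_aff_image, Complex.norm_real, Real.norm_eq_abs, abs_of_pos (inv_pos.2 hs), inv_mul_cancel_left₀ hs.ne'] at h
  rw [pvdil_inv_eq]
  exact h

/-- an a.e. statement at the mesh `e` is an a.e. statement on the rescaled configuration at the mesh `s e` -/
theorem pvdil_ae (hs : 0 < s) (e : ℝ) {p : Conf PvPt → Prop} (h : ∀ᵐ η ∂(pvP e), p η) : ∀ᵐ η ∂(pvP (s * e)), p (cfMap (pvthInv 0 (s : ℂ)) η) := by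
  rw [← pvdil_law hs e] at h
  exact ae_of_ae_map (measurable_cfMap (pvth_measurable_inv 0 (s : ℂ))).aemeasurable h

/-- the probability of ANY event of the rescaled configuration -/
theorem pvdil_measure (hs : 0 < s) (e : ℝ) (S : Set (Conf PvPt)) : pvP (s * e) (cfMap (pvthInv 0 (s : ℂ)) ⁻¹' S) = pvP e S :=
  pvci_measure_T (pvciAff (s : ℂ) 0 (pvbe_sc_ne hs)) (pvbe_sc_law hs e) S

/-- **[ADM] at every scale**: the lower bound of the admission of the plug of record is scale free -/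
theorem pvdil_adm {𝔭 : PvkdPlug} (h : PvkdAdm 𝔭) (hs : 0 < s) : PvkdAdm (𝔭.sc s) := by
  obtain ⟨p0, hp0, hp⟩ := h
  refine ⟨p0, hp0, ?_⟩
  filter_upwards [(pvkm_tendsto_div hs).eventually hp] with ε hε
  have e1 : pvP ε = pvP (s * (ε / s)) := by rw [mul_div_cancel₀ _ hs.ne']
  have h1 := pvdil_cov_CH 𝔭 hs 0 1
  rw [mul_zero] at h1
  refine le_trans ?_ (measure_mono h1)
  rw [e1, pvdil_measure hs]
  exact hε

/-- [ADM] for the plug of record at every unit (34 12:20Z (3)) -/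
theorem pvdil_adm_P {r : ℝ} (h : PvkdAdm (pvkdP r)) (hs : 0 < s) : PvkdAdm (pvkdP (s * r)) := by
  rw [← pvdil_P hs]
  exact pvdil_adm h hs

/-- from one unit to any other -/
theorem pvdil_adm_P' {r r' : ℝ} (h : PvkdAdm (pvkdP r)) (hr : 0 < r) (hr' : 0 < r') : PvkdAdm (pvkdP r') := by
  have := pvdil_adm_P h (div_pos hr' hr)
  rwa [div_mul_cancel₀ _ hr.ne'] at this

theorem pvdil_S_disjoint (hs : 0 < s) {S S' : Set ℂ} (h : Disjoint S S') : Disjoint (pvdilS s S) (pvdilS s S') :=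
  (disjoint_image_iff (vorSim_injective (pvbe_sc_ne hs) 0)).2 h

theorem pvdil_S_mono (s : ℝ) {S S' : Set ℂ} (h : S ⊆ S') : pvdilS s S ⊆ pvdilS s S' := image_mono h

/-- [SUM] of 244 at every scale -/
theorem pvdil_sum (𝔤 : PvkdGeo) (hdis : Disjoint 𝔤.Zm 𝔤.Zp) (hs : 0 < s) : (𝔤.sc s).Sum := pvkx_sum (𝔤.sc s) (pvdil_S_disjoint hs hdis)

end cov

/-! ## 5. THE DICTIONARY AT THE LEVEL `m` -/

section dict

variable {𝔤 : PvkdGeo} {Hf : Fin 4 → Set (Conf PvPt)} {b q β' : ℝ≥0∞} {CB r : ℝ}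

/-- **one kit, one scale**: a.e., usable + success of the SOFT kit scaled by `s` ⟹ the plug and the link of the dilated geometry ON THE PLANE MAP OF `η`, and the soft mass is the mass of the link -/
theorem pvdil_dict_sc {e : ℝ} (H : (𝔤.glob Hf).Ok e b q β' CB r) {s : ℝ} (hs : 0 < s) (z : ℂ) {d : ℂ} (hd : d ^ 4 = 1) (τ : PvtTurn) :
    ∀ᵐ η ∂(pvP (s * e)), η ∈ (((𝔤.glob Hf).kit (pvP e) b q).sc s).G z d → η ∈ (((𝔤.glob Hf).kit (pvP e) b q).sc s).A z d τ →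
      η ∈ (𝔤.sc s).C z d ∧ η ∈ (𝔤.sc s).A z d τ ∧ pvthX (pvthX ((𝔤.glob Hf).fQ (pvP e)) 0 s) z d τ η = (𝔤.sc s).XQ z d τ η := by
  have a0 := pvbe_sc_ne hs
  have hd0 : d ≠ 0 := pvco_ne hd
  obtain ⟨z', rfl⟩ : ∃ z', z = (s : ℂ) * z' := ⟨z / s, by rw [mul_div_cancel₀ _ a0]⟩
  filter_upwards [pvdil_ae hs e (pvpg_dict H z' d (pvth_norm_of_pow hd) τ)] with η hη hG hA
  obtain ⟨h1, h2, h3⟩ := hη ((pvkm_G_pull hs _ z' d hd0 η).1 hG) ((pvkm_A_pull hs _ z' d hd0 τ η).1 hA)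
  refine ⟨?_, ?_, ?_⟩
  · show η ∈ (𝔤.toPvkdPlug.sc s).C _ _
    rw [pvdil_cov_C _ hs, (pvco_cov 𝔤).C z' d hd]
    exact h1
  · rw [pvdil_cov_A _ hs, (pvco_cov 𝔤).A z' d τ hd]
    exact h2
  · rw [pvkm_X_pull hs _ z' d hd0, h3, pvdil_cov_X _ hs, (pvco_cov 𝔤).X z' d τ _ hd]
    rfl

variable {τ' : Type} {c : ℝ} {𝔈 : PvieEng τ'}

/-- **CONTRACT (4b), ONE CELL**: at the level `m`, eventually in the mesh, a.e.: the entrance plug usable + the link successful (SOFT events of the abstract kit of the engine) ⟹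
the plug of record and the link of record of the geometry `𝔤.sc δ_m` on the plane map of `η`; the cell field is the mass `XQ` of 34 -/
theorem pvdil_dict (H : PvkuOk (𝔤.glob Hf) b q β' CB r) (hE : PvkmEng 𝔈 c H.unit) (m : ℕ) :
    ∀ᶠ ε in 𝓝[>] (0 : ℝ), ∀ (z d : ℂ), d ^ 4 = 1 → ∀ τ : PvtTurn, ∀ᵐ η ∂(pvP ε), η ∈ (𝔈.kit m ε).G z d → η ∈ (𝔈.kit m ε).A z d τ →
      η ∈ (𝔤.sc (pvlmDel c m)).C z d ∧ η ∈ (𝔤.sc (pvlmDel c m)).A z d τ ∧ pvthX (𝔈.XQ m ε) z d τ η = (𝔤.sc (pvlmDel c m)).XQ z d τ η := by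
  have hs := pvlm_Del_pos c m
  filter_upwards [(pvkm_tendsto_div hs).eventually H.ok] with ε hε z d hd τ
  have h := pvdil_dict_sc hε hs z hd τ
  rw [mul_div_cancel₀ _ hs.ne'] at h
  rw [hE.kit, hE.XQ]
  exact h

/-- **CONTRACT (4b), A WORD**: on the event of the word all the links of record succeed on the plane map of `η`, with the masses of 34 -/
theorem pvdil_dict_word (H : PvkuOk (𝔤.glob Hf) b q β' CB r) (hE : PvkmEng 𝔈 c H.unit) (m : ℕ) :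
    ∀ᶠ ε in 𝓝[>] (0 : ℝ), ∀ (z d : ℂ), d ^ 4 = 1 → ∀ l : List PvtTurn, ∀ᵐ η ∂(pvP ε), η ∈ (𝔈.kit m ε).Ev z d l → ∀ j < l.length,
      η ∈ (𝔤.sc (pvlmDel c m)).C (pvthZ (pvlmDel c m) z d l j) (pvthD d l j) ∧ η ∈ (𝔤.sc (pvlmDel c m)).A (pvthZ (pvlmDel c m) z d l j) (pvthD d l j) (pvthL l j) ∧
      (𝔈.kit m ε).Xj (𝔈.XQ m ε) z d l j η = (𝔤.sc (pvlmDel c m)).XQ (pvthZ (pvlmDel c m) z d l j) (pvthD d l j) (pvthL l j) η := by
  filter_upwards [pvdil_dict H hE m] with ε hε z d hd l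
  have hall : ∀ᵐ η ∂(pvP ε), ∀ j : ℕ, η ∈ (𝔈.kit m ε).G (pvthZ (pvlmDel c m) z d l j) (pvthD d l j) → η ∈ (𝔈.kit m ε).A (pvthZ (pvlmDel c m) z d l j) (pvthD d l j) (pvthL l j) →
      η ∈ (𝔤.sc (pvlmDel c m)).C (pvthZ (pvlmDel c m) z d l j) (pvthD d l j) ∧ η ∈ (𝔤.sc (pvlmDel c m)).A (pvthZ (pvlmDel c m) z d l j) (pvthD d l j) (pvthL l j) ∧
        pvthX (𝔈.XQ m ε) (pvthZ (pvlmDel c m) z d l j) (pvthD d l j) (pvthL l j) η = (𝔤.sc (pvlmDel c m)).XQ (pvthZ (pvlmDel c m) z d l j) (pvthD d l j) (pvthL l j) η := by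
    rw [ae_all_iff]
    exact fun j => hε _ _ (pvtDir_pow_four d hd _) _
  have hδ : (𝔈.kit m ε).δ = pvlmDel c m := hE.kδ m ε
  filter_upwards [hall] with η hη hEv j hj
  have h1 := hEv j hj
  rw [hδ] at h1
  obtain ⟨a1, a2, a3⟩ := hη j h1.1 h1.2
  refine ⟨a1, a2, ?_⟩
  unfold PvthKit.Xj
  rw [hδ]
  exact a3

/-- the entrance plug alone: a.e. a usable door IS a door of record on the plane map of `η`      (a.e. form of the dead field `G_sub`; needs no link: `pvpg_sure_ae`) -/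
theorem pvdil_door_sc {e : ℝ} (H : (𝔤.glob Hf).Ok e b q β' CB r) {s : ℝ} (hs : 0 < s) (z : ℂ) {d : ℂ} (hd : d ^ 4 = 1) :
    ∀ᵐ η ∂(pvP (s * e)), η ∈ (((𝔤.glob Hf).kit (pvP e) b q).sc s).G z d → η ∈ (𝔤.sc s).C z d := by
  have a0 := pvbe_sc_ne hs
  have hd0 : d ≠ 0 := pvco_ne hd
  obtain ⟨z', rfl⟩ : ∃ z', z = (s : ℂ) * z' := ⟨z / s, by rw [mul_div_cancel₀ _ a0]⟩
  have h0 : ∀ᵐ η ∂(pvP e), η ∈ (𝔤.glob Hf).G₀ (pvP e) b → η ∈ (𝔤.glob Hf).C := by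
    filter_upwards [pvpg_sure_ae (pv_isPpp e) (pvpg_mO H 0 1 one_ne_zero) H.mC] with η h hG
    exact h hG.1
  have h1 : ∀ᵐ η ∂(pvP e), cfMap (pvthInv z' d) η ∈ (𝔤.glob Hf).G₀ (pvP e) b → cfMap (pvthInv z' d) η ∈ (𝔤.glob Hf).C := by
    have h0' : ∀ᵐ η ∂((pvP e).map (cfMap (pvthInv z' d))), η ∈ (𝔤.glob Hf).G₀ (pvP e) b → η ∈ (𝔤.glob Hf).C := by
      rw [pvpg_law_inv z' d (pvth_norm_of_pow hd) e]; exact h0
    exact ae_of_ae_map (measurable_cfMap (pvth_measurable_inv z' d)).aemeasurable h0'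
  filter_upwards [pvdil_ae hs e h1] with η hη hG
  show η ∈ (𝔤.toPvkdPlug.sc s).C _ _
  rw [pvdil_cov_C _ hs, (pvco_cov 𝔤).C z' d hd]
  exact hη ((pvkm_G_pull hs _ z' d hd0 η).1 hG)

/-- **CONTRACT (4a'), A.E.**: a usable door of the engine is a door of record -/
theorem pvdil_door (H : PvkuOk (𝔤.glob Hf) b q β' CB r) (hE : PvkmEng 𝔈 c H.unit) (m : ℕ) :
    ∀ᶠ ε in 𝓝[>] (0 : ℝ), ∀ (z d : ℂ), d ^ 4 = 1 → ∀ᵐ η ∂(pvP ε), η ∈ (𝔈.kit m ε).G z d → η ∈ (𝔤.sc (pvlmDel c m)).C z d := by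
  have hs := pvlm_Del_pos c m
  filter_upwards [(pvkm_tendsto_div hs).eventually H.ok] with ε hε z d hd
  have h := pvdil_door_sc hε hs z hd
  rw [mul_div_cancel₀ _ hs.ne'] at h
  rw [hE.kit]
  exact h

end dict

/-! ## 6. the links of a word at the gate level: ONE gate per door -/

section gates

variable {η : Conf PvPt}

theorem pvdil_zo_succ (𝔤 : PvkdGeo) (z d : ℂ) (l : List PvtTurn) {j : ℕ} (hj : j < l.length) :
    𝔤.zo (pvthZ 𝔤.δ z d l j) (pvthD d l j) (pvthL l j) = pvthZ 𝔤.δ z d l (j + 1) ∧ pvthD d l j * (pvthL l j).rot = pvthD d l (j + 1) :=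
  pvthx_exit153 ⟨𝔤.δ, ∅, fun _ => ∅, ∅, fun _ => ∅⟩ z d l hj

/-- **ALL THE LINKS OF A WORD SUCCEED ⟹ ONE FAMILY OF GATES**: `g j` = THE gate of record of the door `j` (`j ≤ length`), the cell `j` is the link `g j → g (j + 1)`, its mass is the mass of the three arcs in its placed mask -/
theorem pvdil_gates (𝔤 : PvkdGeo) (hdis : Disjoint 𝔤.Zm 𝔤.Zp) {z d : ℂ} {l : List PvtTurn} (hl : 0 < l.length)
    (h : ∀ j < l.length, η ∈ 𝔤.A (pvthZ 𝔤.δ z d l j) (pvthD d l j) (pvthL l j)) :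
    ∃ (g : ℕ → (pvkiT η).Gate (pvkiS η)) (N : ℕ → ℕ), (∀ j ≤ l.length, PvkdGate 𝔤.toPvkdPlug η (pvthZ 𝔤.δ z d l j) (pvthD d l j) (g j)) ∧
      ∀ j < l.length, 𝔤.Link η (pvthZ 𝔤.δ z d l j) (pvthD d l j) (pvthL l j) (g j) (g (j + 1)) (N j) ∧
        𝔤.XQ (pvthZ 𝔤.δ z d l j) (pvthD d l j) (pvthL l j) η = pvkdMass η (pvkdAt (pvthZ 𝔤.δ z d l j) (pvthD d l j) (𝔤.Mk (pvthL l j))) (g j) (g (j + 1)) := by
  classical
  have hN : PvatNice (cfSites η) := (h 0 hl).1.1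
  obtain ⟨-, g₀, -, -, -⟩ := h 0 hl
  have key : ∀ j, ∃ (a a' : (pvkiT η).Gate (pvkiS η)) (n : ℕ), j < l.length → 𝔤.Link η (pvthZ 𝔤.δ z d l j) (pvthD d l j) (pvthL l j) a a' n := by
    intro j
    by_cases hj : j < l.length
    · obtain ⟨-, a, a', n, hl'⟩ := h j hj
      exact ⟨a, a', n, fun _ => hl'⟩
    · exact ⟨g₀, g₀, 0, fun h' => absurd h' hj⟩
  choose G G' N hG using key
  -- the exit gate of the cell `j` is a gate of record of the door `j + 1`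
  have hx : ∀ j, j < l.length → PvkdGate 𝔤.toPvkdPlug η (pvthZ 𝔤.δ z d l (j + 1)) (pvthD d l (j + 1)) (G' j) := by
    intro j hj
    have := (hG j hj).2.1
    rwa [(pvdil_zo_succ 𝔤 z d l hj).1, (pvdil_zo_succ 𝔤 z d l hj).2] at this
  have hu : ∀ j, j + 1 < l.length → G' j = G (j + 1) := fun j hj => pvkx_uniq hN hdis (hx j (by omega)) (hG (j + 1) hj).1
  let g : ℕ → (pvkiT η).Gate (pvkiS η) := fun j => if j < l.length then G j else G' (l.length - 1)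
  have g1 : ∀ j, j < l.length → g j = G j := fun j hj => if_pos hj
  have g2 : ∀ j, j < l.length → g (j + 1) = G' j := by
    intro j hj
    by_cases hj' : j + 1 < l.length
    · rw [g1 _ hj', hu j hj']
    · show (if j + 1 < l.length then G (j + 1) else G' (l.length - 1)) = G' j
      rw [if_neg hj', show l.length - 1 = j by omega]
  refine ⟨g, N, fun j hj => ?_, fun j hj => ?_⟩
  · rcases Nat.lt_or_ge j l.length with h1 | h1
    · rw [g1 j h1]; exact (hG j h1).1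
    · obtain ⟨k, rfl⟩ : ∃ k, j = k + 1 := ⟨j - 1, by omega⟩
      rw [g2 k (by omega)]; exact hx k (by omega)
  · rw [g1 j hj, g2 j hj]
    exact ⟨hG j hj, pvkx_sum 𝔤 hdis η _ _ _ _ _ _ (h j hj).1 (hG j hj)⟩

end gates

end Claimed.Agent.R289
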