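import Claimed.Agent.R289.Tr.PlugEv
import Claimed.Agent.R289.Tr.PlugClose
import Claimed.Agent.R289.Tr.MenuGeo
import Claimed.Agent.R289.Defs.FitReg

/-!
# Row 289 (S0537), THE WALL, file Tr/KitGeo : **[GEO] = THE INSTANCE OF RECORD `pvkgG : PvkdGeo`** OF THE CELL KIT, cells of side `1`      (helper258; lemmas `pvkgg_`, defs `pvkgX` (NOT `pvkg_`: Exit/PinsF2 of 137))      0 sorry      v2 = RULING OF 34 12:20Z: `r = 1/40`

NUMBERS: unit `r = 1/40`, mesh `ρ = r/16 = 1/640`, door squares of half side `s = 13r/4 = 13/160`, corridor of half width `y₁ = 5r/2 = 1/16`.      Reference frame: door `0`, travel East, cell `(0,1) × (-1/2,1/2)`.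
* plug := `pvkdP (1/40)` of 34 (`Ew = [-3r,3r]²` closed, `⊆ O₀`).
* `O₀ := pvkgO` = the OPEN square of half side `s` (`= pvccSq 0 s`).      WHY OPEN: `PvccKitRef` (166) wants `O₀` inside an open square and `K₀` off it; a gap strip between `O₀` and `K₀` would not be read by the kit, and the run crosses it.
* corridor `pvkgU τ := Rin ∪ (exit frame) Rout`, `Rin = (0, 9/16) × (-y₁, y₁)`, `Rout` = its mirror;      `K₀ τ := pvkgK τ := U τ \ (O₀ ∪ placed O₀)`;      so `Ea τ = O₀ ∪ U τ ∪ placed O₀` (`pvkgg_Ea`) is OPEN and meets the door squares only through their sides facing the cell.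
* `Co τ := pvkxM 1 ∩ pvtrCore (3ρ) (Ea τ)` = the LARGEST room allowed by [CLOSE] (244) and [LOC] (173);      `Mk τ := pvkxM 1` (244).
PROVED: **`pvkgg_ref`** (`PvccKitRef .. (13/160)`, 166), **`pvkgg_xref`** (`PvkxRef`, 244: so `pvkx_geo`, `pvkx_close`), **`pvkgg_ze`** (`PvzeGeo`, 173: so `pvze_mC mA mX lC lA lX`), `pvkgg_win_open` (open sets are windows), explicit boxes `pvkgg_Ea_S _L _R`, `pvkgg_U_*`, `pvkgg_Ox_*`,
   **`pvkgg_lane`** (`Ea τ ∩ pvkxM 1 ⊆ pvfeLane (-(1/10)) (4/10) τ`), `pvkgg_lane_K`, `pvkgg_lane_Co`, `pvkgg_O_tenth` (`O₀ ⊆ pvccSq 0 (1/10)`).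
THE WINDOWS OF [FRC] (sec. 6; for 174 204 52 278):   `pvkgEp := O₀ ∪ (0, 11r/2) × (-y₁,y₁)` (exit side event `S⁺`), `pvkgEm` (mirror, `S⁻`), `pvkgEt τ` (tile: the corridor cut at `21/160 = 11r/2 - 4ρ` from both doors).
   TRAP: `A ⊆ NA` asks the mesh `ρ` on the `ρ`-core of `Ea τ`, which contains FROZEN points of `O₀` where the plug `C` says nothing (`3r - ρ < |z|_∞`): the bound of [FRC] fails on a positive set of usable states unless a THRESHOLD protects them.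
   So the windows of the side events CONTAIN ALL OF `O₀` (a state with a hole has propensity `0`).      **`pvkgg_cover`**, **`pvkgg_mesh`** : mesh(`E⁺`) + mesh(`Et τ`) + mesh(placed `E⁻`) ⟹ the mesh of `NA 0 1 τ`.
   `pvkgg_Ep_sub`, `pvkgg_Em_sub`, `pvkgg_Et_sub` (the windows lie in `O₀ ∪ K₀ τ`, `placed O₀ ∪ K₀ τ`, `K₀ τ`), `pvkgg_Ep_Em` (disjoint), `pvkgg_core_Ep` (`[-3r, 5r] × [-9/160, 9/160]` is `3ρ` inside `E⁺`: the rooms `Ln + β` of `pvkdP r`).
-/

set_option autoImplicit false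

namespace Claimed.Agent.R289

open Set Metric MeasureTheory Filter Topology Claims.C0465
open scoped ENNReal

/-! ## 0. open windows -/

/-- open sets are windows -/
theorem pvkgg_win_open {E : Set ℂ} (hE : IsOpen E) : PvplWin E := by
  refine ⟨hE.measurableSet, ?_⟩
  by_cases hne : Eᶜ.Nonempty
  · have e : {q : ℂ × ℝ | closedBall q.1 q.2 ⊆ E} = {q : ℂ × ℝ | q.2 < 0 ∨ q.2 < infDist q.1 Eᶜ} := by
      ext q
      constructor
      · intro h
        by_contra hc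
        rw [mem_ofPred_eq, not_or, not_lt, not_lt] at hc
        obtain ⟨y, hy, hd⟩ := hE.isClosed_compl.exists_infDist_eq_dist hne q.1
        have : y ∈ closedBall q.1 q.2 := by
          rw [mem_closedBall, dist_comm, ← hd]
          exact hc.2
        exact hy (h this)
      · rintro (h | h) w hw
        · rw [closedBall_eq_empty.2 h] at hw
          exact absurd hw (notMem_empty _)
        · by_contra hc
          have h1 : infDist q.1 Eᶜ ≤ dist q.1 w := infDist_le_dist_of_mem hc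
          rw [mem_closedBall, dist_comm] at hw
          linarith
    rw [e]
    have c1 : Continuous fun q : ℂ × ℝ => infDist q.1 Eᶜ := (continuous_infDist_pt _).comp continuous_fst
    exact (measurableSet_lt measurable_snd measurable_const).union (measurableSet_lt measurable_snd c1.measurable)
  · have : E = univ := by
      rw [not_nonempty_iff_eq_empty, compl_empty_iff] at hne
      exact hne
    subst this
    simp

/-! ## 1. boxes -/

/-- the open box -/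
def pvkgB (x0 x1 y0 y1 : ℝ) : Set ℂ := {w | x0 < w.re ∧ w.re < x1 ∧ y0 < w.im ∧ w.im < y1}

theorem pvkgg_box_open (x0 x1 y0 y1 : ℝ) : IsOpen (pvkgB x0 x1 y0 y1) :=
  (isOpen_lt continuous_const Complex.continuous_re).inter ((isOpen_lt Complex.continuous_re continuous_const).inter
    ((isOpen_lt continuous_const Complex.continuous_im).inter (isOpen_lt Complex.continuous_im continuous_const)))

theorem pvkgg_sq_box (c : ℂ) (r : ℝ) : pvccSq c r = pvkgB (c.re - r) (c.re + r) (c.im - r) (c.im + r) := by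
  ext w
  simp only [pvccSq, pvccN, pvkgB, mem_ofPred_eq, max_lt_iff, abs_lt, Complex.sub_re, Complex.sub_im]
  constructor
  · rintro ⟨⟨a, b⟩, c, d⟩
    exact ⟨by linarith, by linarith, by linarith, by linarith⟩
  · rintro ⟨a, b, c, d⟩
    exact ⟨⟨by linarith, by linarith⟩, by linarith, by linarith⟩

theorem pvkgg_at_S (x0 x1 y0 y1 : ℝ) : pvkdAt PvtTurn.S.mid PvtTurn.S.rot (pvkgB x0 x1 y0 y1) = pvkgB (1 + x0) (1 + x1) y0 y1 := by
  ext w
  rw [pvkx_mem_at (pvt_rot_ne_zero _)]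
  simp only [PvtTurn.mid, PvtTurn.rot, div_one, pvkgB, mem_ofPred_eq, Complex.sub_re, Complex.sub_im, Complex.one_re, Complex.one_im, sub_zero]
  constructor
  · rintro ⟨a, b, c, d⟩
    exact ⟨by linarith, by linarith, c, d⟩
  · rintro ⟨a, b, c, d⟩
    exact ⟨by linarith, by linarith, c, d⟩

theorem pvkgg_at_L (x0 x1 y0 y1 : ℝ) : pvkdAt PvtTurn.L.mid PvtTurn.L.rot (pvkgB x0 x1 y0 y1) = pvkgB (1 / 2 - y1) (1 / 2 - y0) (1 / 2 + x0) (1 / 2 + x1) := by
  ext w
  rw [pvkx_mem_at (pvt_rot_ne_zero _)]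
  simp only [PvtTurn.mid, PvtTurn.rot, Complex.div_I, pvkgB, mem_ofPred_eq]
  have e1 : (-((w - (1 + Complex.I) / 2) * Complex.I)).re = w.im - 1 / 2 := by simp
  have e2 : (-((w - (1 + Complex.I) / 2) * Complex.I)).im = 1 / 2 - w.re := by simp
  rw [e1, e2]
  constructor
  · rintro ⟨a, b, c, d⟩
    exact ⟨by linarith, by linarith, by linarith, by linarith⟩
  · rintro ⟨a, b, c, d⟩
    exact ⟨by linarith, by linarith, by linarith, by linarith⟩

theorem pvkgg_at_R (x0 x1 y0 y1 : ℝ) : pvkdAt PvtTurn.R.mid PvtTurn.R.rot (pvkgB x0 x1 y0 y1) = pvkgB (1 / 2 + y0) (1 / 2 + y1) (-(1 / 2) - x1) (-(1 / 2) - x0) := by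
  ext w
  rw [pvkx_mem_at (pvt_rot_ne_zero _)]
  simp only [PvtTurn.mid, PvtTurn.rot, div_neg, Complex.div_I, pvkgB, mem_ofPred_eq, neg_neg]
  have e1 : ((w - (1 - Complex.I) / 2) * Complex.I).re = -(w.im + 1 / 2) := by simp; ring
  have e2 : ((w - (1 - Complex.I) / 2) * Complex.I).im = w.re - 1 / 2 := by simp
  rw [e1, e2]
  constructor
  · rintro ⟨a, b, c, d⟩
    exact ⟨by linarith, by linarith, by linarith, by linarith⟩
  · rintro ⟨a, b, c, d⟩
    exact ⟨by linarith, by linarith, by linarith, by linarith⟩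

/-! ## 2. the instance of record -/

/-- the door square `O₀` (open, half side `13/160`) -/
def pvkgO : Set ℂ := pvkgB (-(13 / 160)) (13 / 160) (-(13 / 160)) (13 / 160)

/-- the entrance half of the corridor: from the door `0` past the centre of the cell, half width `1/16` -/
def pvkgRin : Set ℂ := pvkgB 0 (9 / 16) (-(1 / 16)) (1 / 16)

/-- the exit half of the corridor, in the frame of the exit door -/
def pvkgRout : Set ℂ := pvkgB (-(9 / 16)) 0 (-(1 / 16)) (1 / 16)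

/-- the door square of the exit door -/
noncomputable def pvkgOx (τ : PvtTurn) : Set ℂ := pvkdAt τ.mid τ.rot pvkgO

/-- **THE CORRIDOR** of the cell of shape `τ` -/
noncomputable def pvkgU (τ : PvtTurn) : Set ℂ := pvkgRin ∪ pvkdAt τ.mid τ.rot pvkgRout

/-- **THE TILE** -/
noncomputable def pvkgK (τ : PvtTurn) : Set ℂ := pvkgU τ \ (pvkgO ∪ pvkgOx τ)

/-- **THE WINDOW OF THE LINK** (open) -/
noncomputable def pvkgEa (τ : PvtTurn) : Set ℂ := pvkgO ∪ pvkgU τ ∪ pvkgOx τ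

/-- **THE INSTANCE OF RECORD**, cells of side `1`, unit `r = 1/40`, mesh `ρ = 1/640` -/
noncomputable def pvkgG : PvkdGeo where
  toPvkdPlug := pvkdP (1 / 40)
  δ := 1
  O₀ := pvkgO
  K₀ := pvkgK
  Co := fun τ => pvkxM 1 ∩ pvtrCore (3 / 640) (pvkgEa τ)
  Mk := fun _ => pvkxM 1

theorem pvkgg_eqns_cite : True := by
  have := @pvkgB.eq_1; have := @pvkgO.eq_1; have := @pvkgRin.eq_1; have := @pvkgRout.eq_1; have := @pvkgOx.eq_1; have := @pvkgU.eq_1; have := @pvkgK.eq_1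
  have := @pvkgEa.eq_1; have := @pvkgG.eq_1
  trivial

theorem pvkgg_O_sq : pvkgO = pvccSq 0 (13 / 160) := by
  rw [pvkgg_sq_box]
  simp [pvkgO]

theorem pvkgg_zo (τ : PvtTurn) : pvkgG.zo 0 1 τ = τ.mid := by
  simp [PvkdGeo.zo, pvkgG]

theorem pvkgg_Ea (τ : PvtTurn) : pvkgG.Ea τ = pvkgEa τ := by
  unfold PvkdGeo.Ea
  rw [pvkgg_zo]
  show pvkgO ∪ pvkgK τ ∪ pvkgOx τ = pvkgO ∪ pvkgU τ ∪ pvkgOx τ
  ext w
  simp only [pvkgK, mem_union, Set.mem_sdiff]
  tauto

theorem pvkgg_at_open {z d : ℂ} (hd : d ≠ 0) {S : Set ℂ} (hS : IsOpen S) : IsOpen (pvkdAt z d S) := by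
  have e : pvkdAt z d S = (fun w => (w - z) / d) ⁻¹' S := by
    ext w
    exact pvkx_mem_at hd S w
  rw [e]
  exact hS.preimage (by fun_prop)

theorem pvkgg_Ea_open (τ : PvtTurn) : IsOpen (pvkgEa τ) :=
  ((pvkgg_box_open _ _ _ _).union ((pvkgg_box_open _ _ _ _).union (pvkgg_at_open (pvt_rot_ne_zero τ) (pvkgg_box_open _ _ _ _)))).union
    (pvkgg_at_open (pvt_rot_ne_zero τ) (pvkgg_box_open _ _ _ _))

/-- the window of the link, explicitly -/
theorem pvkgg_Ea_S : pvkgEa .S = pvkgO ∪ (pvkgRin ∪ pvkgB (7 / 16) 1 (-(1 / 16)) (1 / 16)) ∪ pvkgB (147 / 160) (173 / 160) (-(13 / 160)) (13 / 160) := by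
  unfold pvkgEa pvkgU pvkgOx pvkgRout pvkgO
  rw [pvkgg_at_S, pvkgg_at_S]
  norm_num

theorem pvkgg_Ea_L : pvkgEa .L = pvkgO ∪ (pvkgRin ∪ pvkgB (7 / 16) (9 / 16) (-(1 / 16)) (1 / 2)) ∪ pvkgB (67 / 160) (93 / 160) (67 / 160) (93 / 160) := by
  unfold pvkgEa pvkgU pvkgOx pvkgRout pvkgO
  rw [pvkgg_at_L, pvkgg_at_L]
  norm_num

theorem pvkgg_Ea_R : pvkgEa .R = pvkgO ∪ (pvkgRin ∪ pvkgB (7 / 16) (9 / 16) (-(1 / 2)) (1 / 16)) ∪ pvkgB (67 / 160) (93 / 160) (-(93 / 160)) (-(67 / 160)) := by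
  unfold pvkgEa pvkgU pvkgOx pvkgRout pvkgO
  rw [pvkgg_at_R, pvkgg_at_R]
  norm_num

theorem pvkgg_U_S : pvkgU .S = pvkgRin ∪ pvkgB (7 / 16) 1 (-(1 / 16)) (1 / 16) := by
  unfold pvkgU pvkgRout
  rw [pvkgg_at_S]
  norm_num

theorem pvkgg_U_L : pvkgU .L = pvkgRin ∪ pvkgB (7 / 16) (9 / 16) (-(1 / 16)) (1 / 2) := by
  unfold pvkgU pvkgRout
  rw [pvkgg_at_L]
  norm_num

theorem pvkgg_U_R : pvkgU .R = pvkgRin ∪ pvkgB (7 / 16) (9 / 16) (-(1 / 2)) (1 / 16) := by
  unfold pvkgU pvkgRout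
  rw [pvkgg_at_R]
  norm_num

theorem pvkgg_Ox_S : pvkgOx .S = pvkgB (147 / 160) (173 / 160) (-(13 / 160)) (13 / 160) := by
  unfold pvkgOx pvkgO
  rw [pvkgg_at_S]
  norm_num

theorem pvkgg_Ox_L : pvkgOx .L = pvkgB (67 / 160) (93 / 160) (67 / 160) (93 / 160) := by
  unfold pvkgOx pvkgO
  rw [pvkgg_at_L]
  norm_num

theorem pvkgg_Ox_R : pvkgOx .R = pvkgB (67 / 160) (93 / 160) (-(93 / 160)) (-(67 / 160)) := by
  unfold pvkgOx pvkgO
  rw [pvkgg_at_R]
  norm_num

/-- the corridor lies in the open cell -/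
theorem pvkgg_U_cell (τ : PvtTurn) {w : ℂ} (hw : w ∈ pvkgU τ) : 0 < w.re ∧ w.re < 1 ∧ -(1 / 2) < w.im ∧ w.im < 1 / 2 := by
  cases τ
  · rw [pvkgg_U_S] at hw
    rcases hw with ⟨a, b, c, d⟩ | ⟨a, b, c, d⟩ <;> exact ⟨by linarith, by linarith, by linarith, by linarith⟩
  · rw [pvkgg_U_L] at hw
    rcases hw with ⟨a, b, c, d⟩ | ⟨a, b, c, d⟩ <;> exact ⟨by linarith, by linarith, by linarith, by linarith⟩
  · rw [pvkgg_U_R] at hw
    rcases hw with ⟨a, b, c, d⟩ | ⟨a, b, c, d⟩ <;> exact ⟨by linarith, by linarith, by linarith, by linarith⟩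

/-! ## 3. [GEO] for the chains of cells (166) -/

/-- **the containments of 166** -/
theorem pvkgg_ref : PvccKitRef ⟨pvkgG.δ, pvkgG.O₀, pvkgG.K₀, ∅, fun _ => ∅⟩ (13 / 160) := by
  refine ⟨one_pos, ?_, ?_, ?_, ?_⟩
  · show (13 / 160 : ℝ) ≤ 1 / 4
    norm_num
  · show pvkgO ⊆ _
    rw [pvkgg_O_sq]
  · intro τ w hw
    obtain ⟨a, b, c, d⟩ := pvkgg_U_cell τ hw.1
    show w ∈ pvccSq (((1 : ℝ) : ℂ) * (1 / 2)) (1 * (1 / 2))
    rw [pvkgg_sq_box]
    simp only [pvkgB, mem_ofPred_eq, Complex.ofReal_one, one_mul]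
    norm_num
    exact ⟨a, b, by linarith, by linarith⟩
  · intro τ v hv
    show Disjoint (pvkgK τ) (pvccSq (((1 : ℝ) : ℂ) * (1 / 2 + v / 2)) (13 / 160))
    rw [Set.disjoint_left]
    rintro w ⟨hU, hO⟩ hs
    rw [pvkgg_sq_box] at hs
    rw [mem_union, not_or] at hO
    obtain ⟨hO1, hO2⟩ := hO
    rcases pvt_fourth_root hv with rfl | rfl | rfl | rfl
    · -- East door
      have hs' : w ∈ pvkgB (147 / 160) (173 / 160) (-(13 / 160)) (13 / 160) := by
        obtain ⟨a, b, c, d⟩ := hs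
        norm_num at a b c d
        exact ⟨by linarith, by linarith, by linarith, by linarith⟩
      cases τ
      · rw [pvkgg_Ox_S] at hO2
        exact hO2 hs'
      · rw [pvkgg_U_L] at hU
        obtain ⟨a, b, c, d⟩ := hs'
        rcases hU with ⟨a', b', c', d'⟩ | ⟨a', b', c', d'⟩ <;> linarith
      · rw [pvkgg_U_R] at hU
        obtain ⟨a, b, c, d⟩ := hs'
        rcases hU with ⟨a', b', c', d'⟩ | ⟨a', b', c', d'⟩ <;> linarith
    · -- North door
      have hs' : w ∈ pvkgB (67 / 160) (93 / 160) (67 / 160) (93 / 160) := by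
        obtain ⟨a, b, c, d⟩ := hs
        norm_num at a b c d
        exact ⟨by linarith, by linarith, by linarith, by linarith⟩
      cases τ
      · rw [pvkgg_U_S] at hU
        obtain ⟨a, b, c, d⟩ := hs'
        rcases hU with ⟨a', b', c', d'⟩ | ⟨a', b', c', d'⟩ <;> linarith
      · rw [pvkgg_Ox_L] at hO2
        exact hO2 hs'
      · rw [pvkgg_U_R] at hU
        obtain ⟨a, b, c, d⟩ := hs'
        rcases hU with ⟨a', b', c', d'⟩ | ⟨a', b', c', d'⟩ <;> linarith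
    · -- West door
      apply hO1
      obtain ⟨a, b, c, d⟩ := hs
      norm_num at a b c d
      exact ⟨by linarith, by linarith, by linarith, by linarith⟩
    · -- South door
      have hs' : w ∈ pvkgB (67 / 160) (93 / 160) (-(93 / 160)) (-(67 / 160)) := by
        obtain ⟨a, b, c, d⟩ := hs
        norm_num at a b c d
        exact ⟨by linarith, by linarith, by linarith, by linarith⟩
      cases τ
      · rw [pvkgg_U_S] at hU
        obtain ⟨a, b, c, d⟩ := hs'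
        rcases hU with ⟨a', b', c', d'⟩ | ⟨a', b', c', d'⟩ <;> linarith
      · rw [pvkgg_U_L] at hU
        obtain ⟨a, b, c, d⟩ := hs'
        rcases hU with ⟨a', b', c', d'⟩ | ⟨a', b', c', d'⟩ <;> linarith
      · rw [pvkgg_Ox_R] at hO2
        exact hO2 hs'

/-- `O₀` lies in the square of half side `1/10` -/
theorem pvkgg_O_tenth : pvkgG.O₀ ⊆ pvccSq 0 (1 / 10) := by
  rintro w ⟨a, b, c, d⟩
  rw [pvkgg_sq_box]
  simp only [Complex.zero_re, Complex.zero_im, zero_sub, zero_add]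
  exact ⟨by linarith, by linarith, by linarith, by linarith⟩

/-- **the part of the window of the link in the cell lies in the inner lanes** `[-1/10, 4/10]` of `Defs/FitReg` -/
theorem pvkgg_lane (τ : PvtTurn) : pvkgEa τ ∩ pvkxM 1 ⊆ pvfeLane (-(1 / 10)) (4 / 10) τ := by
  rintro w ⟨hw, m1, m2, m3, m4⟩
  cases τ
  · rw [pvkgg_Ea_S] at hw
    rcases hw with (⟨a, b, c, d⟩ | ⟨a, b, c, d⟩ | ⟨a, b, c, d⟩) | ⟨a, b, c, d⟩ <;> exact ⟨by linarith, by linarith, by linarith, by linarith⟩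
  · rw [pvkgg_Ea_L] at hw
    rcases hw with (⟨a, b, c, d⟩ | ⟨a, b, c, d⟩ | ⟨a, b, c, d⟩) | ⟨a, b, c, d⟩
    · exact Or.inl ⟨by linarith, by linarith, by linarith, by linarith⟩
    · exact Or.inl ⟨by linarith, by linarith, by linarith, by linarith⟩
    · exact Or.inr ⟨by linarith, by linarith, by linarith, by linarith⟩
    · exact Or.inr ⟨by linarith, by linarith, by linarith, by linarith⟩
  · rw [pvkgg_Ea_R] at hw
    rcases hw with (⟨a, b, c, d⟩ | ⟨a, b, c, d⟩ | ⟨a, b, c, d⟩) | ⟨a, b, c, d⟩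
    · exact Or.inl ⟨by linarith, by linarith, by linarith, by linarith⟩
    · exact Or.inl ⟨by linarith, by linarith, by linarith, by linarith⟩
    · exact Or.inr ⟨by linarith, by linarith, by linarith, by linarith⟩
    · exact Or.inr ⟨by linarith, by linarith, by linarith, by linarith⟩

theorem pvkgg_lane_K (τ : PvtTurn) : pvkgG.K₀ τ ⊆ pvfeLane (-(1 / 10)) (4 / 10) τ := by
  intro w hw
  obtain ⟨a, b, c, d⟩ := pvkgg_U_cell τ hw.1
  exact pvkgg_lane τ ⟨Or.inl (Or.inr hw.1), a.le, b, by linarith, by linarith⟩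

theorem pvkgg_lane_Co (τ : PvtTurn) : pvkgG.Co τ ⊆ pvfeLane (-(1 / 10)) (4 / 10) τ := by
  rintro w ⟨hm, hc⟩
  exact pvkgg_lane τ ⟨hc (mem_closedBall_self (by norm_num)), hm⟩

/-! ## 4. [GEO] for [CLOSE] (244) -/

theorem pvkgg_re_im_le {z w : ℂ} {ρ : ℝ} (h : w ∈ closedBall z ρ) : |w.re - z.re| ≤ ρ ∧ |w.im - z.im| ≤ ρ := by
  rw [mem_closedBall, Complex.dist_eq] at h
  exact ⟨(Complex.abs_re_le_norm (w - z)).trans h, (Complex.abs_im_le_norm (w - z)).trans h⟩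

/-- **the reference frame conditions of 244** -/
theorem pvkgg_xref : PvkxRef pvkgG := by
  refine ⟨one_pos, ?_, fun _ => rfl, fun _ => inter_subset_left, ?_, ?_, ?_, ?_⟩
  · rw [Set.disjoint_left]
    rintro w ⟨-, a, -, -⟩ ⟨b, -, -, -⟩
    norm_num at a b
    linarith
  · show (2 * (1 / 40) : ℝ) ≤ 1 / 4
    norm_num
  · intro τ
    rw [Set.disjoint_left]
    rintro w ⟨-, a, -, -⟩ ⟨⟨b, -, -, -⟩, -⟩
    norm_num at a
    linarith
  · intro τ
    rw [Set.disjoint_left]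
    intro w hw hc
    obtain ⟨⟨b1, b2, b3, b4⟩, -⟩ := hc
    have hw' : w ∈ pvkdAt τ.mid τ.rot (pvkdP (1 / 40)).Zp := by
      have e : ((pvkgG.δ : ℝ) : ℂ) * τ.mid = τ.mid := by simp [pvkgG]
      rw [e] at hw
      exact hw
    rw [pvkx_mem_at (pvt_rot_ne_zero _)] at hw'
    obtain ⟨a, -, -, -⟩ := hw'
    cases τ
    · simp only [PvtTurn.mid, PvtTurn.rot, div_one, Complex.sub_re, Complex.one_re] at a
      norm_num at a
      linarith
    · simp only [PvtTurn.mid, PvtTurn.rot, Complex.div_I] at a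
      have e1 : (-((w - (1 + Complex.I) / 2) * Complex.I)).re = w.im - 1 / 2 := by simp
      rw [e1] at a
      norm_num at a
      linarith
    · simp only [PvtTurn.mid, PvtTurn.rot, div_neg, Complex.div_I, neg_neg] at a
      have e1 : ((w - (1 - Complex.I) / 2) * Complex.I).re = -(w.im + 1 / 2) := by simp; ring
      rw [e1] at a
      norm_num at a
      linarith
  · rintro w ⟨a, b, c, d⟩
    norm_num at a b c d
    rw [mem_closedBall_zero_iff]
    refine (Complex.norm_le_abs_re_add_abs_im w).trans ?_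
    have h1 : |w.re| ≤ 1 / 20 := abs_le.2 ⟨by linarith, by linarith⟩
    have h2 : |w.im| ≤ 1 / 80 := abs_le.2 ⟨by linarith, by linarith⟩
    show _ ≤ (1 : ℝ) / 4
    linarith

/-! ## 5. [GEO] for [MEAS] + [LOC] (173, 107) -/

theorem pvkgg_rect_closed (x0 x1 y0 y1 : ℝ) : IsClosed (rswRect x0 x1 y0 y1) :=
  (isClosed_le continuous_const Complex.continuous_re).inter ((isClosed_le Complex.continuous_re continuous_const).inter
    ((isClosed_le continuous_const Complex.continuous_im).inter (isClosed_le Complex.continuous_im continuous_const)))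

theorem pvkgg_sq_closed (z : ℂ) (r : ℝ) : IsClosed (pvwSq z r) := by
  have c1 : Continuous fun w : ℂ => |(w - z).re| := (Complex.continuous_re.comp (continuous_id.sub continuous_const)).abs
  have c2 : Continuous fun w : ℂ => |(w - z).im| := (Complex.continuous_im.comp (continuous_id.sub continuous_const)).abs
  exact (isClosed_le c1 continuous_const).inter (isClosed_le c2 continuous_const)

theorem pvkgg_bdd_of {S : Set ℂ} {C : ℝ} (h : ∀ w ∈ S, |w.re| ≤ C ∧ |w.im| ≤ C) : Bornology.IsBounded S := by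
  refine (isBounded_closedBall (x := (0 : ℂ)) (r := 2 * C)).subset fun w hw => ?_
  rw [mem_closedBall_zero_iff]
  obtain ⟨a, b⟩ := h w hw
  exact (Complex.norm_le_abs_re_add_abs_im w).trans (by linarith)

theorem pvkgg_Ea_bdd (τ : PvtTurn) : Bornology.IsBounded (pvkgEa τ) := by
  refine pvkgg_bdd_of (C := 2) fun w hw => ?_
  cases τ
  · rw [pvkgg_Ea_S] at hw
    rcases hw with (⟨a, b, c, d⟩ | ⟨a, b, c, d⟩ | ⟨a, b, c, d⟩) | ⟨a, b, c, d⟩ <;> exact ⟨abs_le.2 ⟨by linarith, by linarith⟩, abs_le.2 ⟨by linarith, by linarith⟩⟩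
  · rw [pvkgg_Ea_L] at hw
    rcases hw with (⟨a, b, c, d⟩ | ⟨a, b, c, d⟩ | ⟨a, b, c, d⟩) | ⟨a, b, c, d⟩ <;> exact ⟨abs_le.2 ⟨by linarith, by linarith⟩, abs_le.2 ⟨by linarith, by linarith⟩⟩
  · rw [pvkgg_Ea_R] at hw
    rcases hw with (⟨a, b, c, d⟩ | ⟨a, b, c, d⟩ | ⟨a, b, c, d⟩) | ⟨a, b, c, d⟩ <;> exact ⟨abs_le.2 ⟨by linarith, by linarith⟩, abs_le.2 ⟨by linarith, by linarith⟩⟩

theorem pvkgg_core_meas {E : Set ℂ} (hE : PvplWin E) (ρ : ℝ) : MeasurableSet (pvtrCore ρ E) := by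
  have : pvtrCore ρ E = (fun z : ℂ => (z, ρ)) ⁻¹' {q : ℂ × ℝ | closedBall q.1 q.2 ⊆ E} := rfl
  rw [this]
  exact (measurable_id.prodMk measurable_const) hE.2

theorem pvkgg_M_meas (δ : ℝ) : MeasurableSet (pvkxM δ) := by
  have h1 : MeasurableSet {w : ℂ | 0 ≤ w.re} := measurableSet_le measurable_const Complex.measurable_re
  have h2 : MeasurableSet {w : ℂ | w.re < δ} := measurableSet_lt Complex.measurable_re measurable_const
  have h3 : MeasurableSet {w : ℂ | -(δ / 2) < w.im} := measurableSet_lt measurable_const Complex.measurable_im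
  have h4 : MeasurableSet {w : ℂ | w.im < δ / 2} := measurableSet_lt Complex.measurable_im measurable_const
  exact h1.inter (h2.inter (h3.inter h4))

theorem pvkgg_K_meas (τ : PvtTurn) : MeasurableSet (pvkgK τ) :=
  (((pvkgg_box_open _ _ _ _).union (pvkgg_at_open (pvt_rot_ne_zero τ) (pvkgg_box_open _ _ _ _))).measurableSet).diff
    (((pvkgg_box_open _ _ _ _).union (pvkgg_at_open (pvt_rot_ne_zero τ) (pvkgg_box_open _ _ _ _))).measurableSet)

/-- a set inside the square of half side `c` lies in the `t`-core of the square of half side `c + t` -/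
theorem pvkgg_core_sq {S : Set ℂ} {c t R : ℝ} (h : ∀ w ∈ S, |w.re| ≤ c ∧ |w.im| ≤ c) (hR : c + t ≤ R) : S ⊆ pvtrCore t (pvwSq 0 R) := by
  intro z hz w hw
  obtain ⟨a, b⟩ := h z hz
  obtain ⟨a', b'⟩ := pvkgg_re_im_le hw
  rw [abs_le] at a b a' b'
  show |(w - 0).re| ≤ R ∧ |(w - 0).im| ≤ R
  rw [sub_zero]
  exact ⟨abs_le.2 ⟨by linarith [a.1, a'.1], by linarith [a.2, a'.2]⟩, abs_le.2 ⟨by linarith [b.1, b'.1], by linarith [b.2, b'.2]⟩⟩

theorem pvkgg_ρ : pvkgG.ρ = 1 / 640 := by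
  show (1 / 40 / 16 : ℝ) = 1 / 640
  norm_num

/-- **what [MEAS] + [LOC] ask** (173, `Tr/PlugEv.lean`) -/
theorem pvkgg_ze : PvzeGeo pvkgG where
  ρ0 := by rw [pvkgg_ρ]; norm_num
  mO := (pvkgg_box_open _ _ _ _).measurableSet
  mK := pvkgg_K_meas
  wE := pvmg_win_closed (pvkgg_sq_closed _ _)
  bE := pvkgg_bdd_of (C := 3 * (1 / 40)) fun w hw => by
    have h : |(w - 0).re| ≤ 3 * (1 / 40) ∧ |(w - 0).im| ≤ 3 * (1 / 40) := hw
    rwa [sub_zero] at h
  EO := fun w hw => by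
    have h : |(w - 0).re| ≤ 3 * (1 / 40) ∧ |(w - 0).im| ≤ 3 * (1 / 40) := hw
    rw [sub_zero, abs_le, abs_le] at h
    exact ⟨by linarith [h.1.1], by linarith [h.1.2], by linarith [h.2.1], by linarith [h.2.2]⟩
  wA := fun τ => by rw [pvkgg_Ea]; exact pvkgg_win_open (pvkgg_Ea_open τ)
  bA := fun τ => by rw [pvkgg_Ea]; exact pvkgg_Ea_bdd τ
  mZm := (pvkgg_rect_closed _ _ _ _).measurableSet
  mZp := (pvkgg_rect_closed _ _ _ _).measurableSet
  mTb := (pvkgg_rect_closed _ _ _ _).measurableSet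
  mCo := fun τ => (pvkgg_M_meas 1).inter (pvkgg_core_meas (pvkgg_win_open (pvkgg_Ea_open τ)) _)
  mMk := fun _ => pvkgg_M_meas 1
  ab := by
    show (1 / 40 : ℝ) ≤ 2 * (1 / 40)
    norm_num
  cO := by
    rw [pvkgg_ρ]
    refine pvkgg_core_sq (c := 2 * (1 / 40)) (fun w hw => ?_) (by norm_num)
    have h : ‖w‖ < 2 * (1 / 40) := by
      have : w ∈ ball (0 : ℂ) (2 * (1 / 40)) := hw
      rwa [mem_ball_zero_iff] at this
    exact ⟨(Complex.abs_re_le_norm w).trans h.le, (Complex.abs_im_le_norm w).trans h.le⟩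
  cT := by
    rw [pvkgg_ρ]
    refine pvkgg_core_sq (c := 2 * (1 / 40)) (fun w hw => ?_) (by norm_num)
    obtain ⟨a, b, c, d⟩ := hw
    exact ⟨abs_le.2 ⟨by linarith, by linarith⟩, abs_le.2 ⟨by linarith, by linarith⟩⟩
  cE := fun τ => by
    rw [pvkgg_Ea, pvkgg_ρ]
    have e : (3 * (1 / 640) : ℝ) = 3 / 640 := by norm_num
    rw [e]
    exact inter_subset_right

/-- the mesh window of the door plug lies in the door square (line `dp_win` of 168 at the unit cell) -/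
theorem pvkgg_dp_win : pvwSq 0 (3 * (1 / 40)) ⊆ pvkgG.O₀ := pvkgg_ze.EO

/-! ## 6. the windows of [FRC] and the covering lemma -/

/-- **the window `E⁺` of the exit side event**: ALL of the door square + the first `11r/2 = 11/80` of the corridor -/
def pvkgEp : Set ℂ := pvkgO ∪ pvkgB 0 (11 / 80) (-(1 / 16)) (1 / 16)

/-- **the window `E⁻` of the entrance side event** (mirror) -/
def pvkgEm : Set ℂ := pvkgO ∪ pvkgB (-(11 / 80)) 0 (-(1 / 16)) (1 / 16)

/-- **the window of the tile**: the corridor cut at the distance `21/160 = 11/80 - 4ρ` from both doors -/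
noncomputable def pvkgEt (τ : PvtTurn) : Set ℂ := pvkgB (21 / 160) (9 / 16) (-(1 / 16)) (1 / 16) ∪ pvkdAt τ.mid τ.rot (pvkgB (-(9 / 16)) (-(21 / 160)) (-(1 / 16)) (1 / 16))

theorem pvkgg_eqns_cite2 : True := by
  have := @pvkgEp.eq_1; have := @pvkgEm.eq_1; have := @pvkgEt.eq_1
  trivial

theorem pvkgg_at_union (z d : ℂ) (S T : Set ℂ) : pvkdAt z d (S ∪ T) = pvkdAt z d S ∪ pvkdAt z d T := image_union _ _ _

theorem pvkgg_Et_S : pvkgEt .S = pvkgB (21 / 160) (9 / 16) (-(1 / 16)) (1 / 16) ∪ pvkgB (7 / 16) (139 / 160) (-(1 / 16)) (1 / 16) := by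
  unfold pvkgEt
  rw [pvkgg_at_S]
  norm_num

theorem pvkgg_Et_L : pvkgEt .L = pvkgB (21 / 160) (9 / 16) (-(1 / 16)) (1 / 16) ∪ pvkgB (7 / 16) (9 / 16) (-(1 / 16)) (59 / 160) := by
  unfold pvkgEt
  rw [pvkgg_at_L]
  norm_num

theorem pvkgg_Et_R : pvkgEt .R = pvkgB (21 / 160) (9 / 16) (-(1 / 16)) (1 / 16) ∪ pvkgB (7 / 16) (9 / 16) (-(59 / 160)) (1 / 16) := by
  unfold pvkgEt
  rw [pvkgg_at_R]
  norm_num

theorem pvkgg_Em_S : pvkdAt PvtTurn.S.mid PvtTurn.S.rot pvkgEm = pvkgB (147 / 160) (173 / 160) (-(13 / 160)) (13 / 160) ∪ pvkgB (69 / 80) 1 (-(1 / 16)) (1 / 16) := by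
  unfold pvkgEm pvkgO
  rw [pvkgg_at_union, pvkgg_at_S, pvkgg_at_S]
  norm_num

theorem pvkgg_Em_L : pvkdAt PvtTurn.L.mid PvtTurn.L.rot pvkgEm = pvkgB (67 / 160) (93 / 160) (67 / 160) (93 / 160) ∪ pvkgB (7 / 16) (9 / 16) (29 / 80) (1 / 2) := by
  unfold pvkgEm pvkgO
  rw [pvkgg_at_union, pvkgg_at_L, pvkgg_at_L]
  norm_num

theorem pvkgg_Em_R : pvkdAt PvtTurn.R.mid PvtTurn.R.rot pvkgEm = pvkgB (67 / 160) (93 / 160) (-(93 / 160)) (-(67 / 160)) ∪ pvkgB (7 / 16) (9 / 16) (-(1 / 2)) (-(29 / 80)) := by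
  unfold pvkgEm pvkgO
  rw [pvkgg_at_union, pvkgg_at_R, pvkgg_at_R]
  norm_num

theorem pvkgg_ball_box {z w : ℂ} {ρ : ℝ} (h : w ∈ closedBall z ρ) : z.re - ρ ≤ w.re ∧ w.re ≤ z.re + ρ ∧ z.im - ρ ≤ w.im ∧ w.im ≤ z.im + ρ := by
  obtain ⟨a, b⟩ := pvkgg_re_im_le h
  rw [abs_le] at a b
  exact ⟨by linarith [a.1], by linarith [a.2], by linarith [b.1], by linarith [b.2]⟩

/-- **THE COVERING LEMMA**: a closed disc of radius `ρ ≤ 1/640` inside the window of the link lies in the window of the exit side event of the entrance door, or in the window of the tile,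
or in the placed window of the entrance side event of the exit door -/
theorem pvkgg_cover (τ : PvtTurn) {ρ : ℝ} (h1 : ρ ≤ 1 / 640) :
    pvtrCore ρ (pvkgEa τ) ⊆ pvtrCore ρ pvkgEp ∪ pvtrCore ρ (pvkgEt τ) ∪ pvtrCore ρ (pvkdAt τ.mid τ.rot pvkgEm) := by
  intro z hz
  have hz' : closedBall z ρ ⊆ pvkgEa τ := hz
  cases τ
  · rw [pvkgg_Ea_S] at hz'
    rw [pvkgg_Et_S, pvkgg_Em_S]
    by_cases c1 : z.re < 11 / 80 - ρ
    · refine Or.inl (Or.inl fun w hw => ?_)
      obtain ⟨p1, p2, p3, p4⟩ := pvkgg_ball_box hw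
      rcases hz' hw with (h | ⟨a, b, c, d⟩ | ⟨a, b, c, d⟩) | ⟨a, b, c, d⟩
      · exact Or.inl h
      · exact Or.inr ⟨a, by linarith, c, d⟩
      · exfalso; linarith
      · exfalso; linarith
    · by_cases c2 : 69 / 80 + ρ < z.re
      · refine Or.inr fun w hw => ?_
        obtain ⟨p1, p2, p3, p4⟩ := pvkgg_ball_box hw
        rcases hz' hw with (⟨a, b, c, d⟩ | ⟨a, b, c, d⟩ | ⟨a, b, c, d⟩) | h
        · exfalso; linarith
        · exfalso; linarith
        · exact Or.inr ⟨by linarith, b, c, d⟩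
        · exact Or.inl h
      · refine Or.inl (Or.inr fun w hw => ?_)
        obtain ⟨p1, p2, p3, p4⟩ := pvkgg_ball_box hw
        rw [not_lt] at c1 c2
        rcases hz' hw with (⟨a, b, c, d⟩ | ⟨a, b, c, d⟩ | ⟨a, b, c, d⟩) | ⟨a, b, c, d⟩
        · exfalso; linarith
        · exact Or.inl ⟨by linarith, b, c, d⟩
        · exact Or.inr ⟨a, by linarith, c, d⟩
        · exfalso; linarith
  · rw [pvkgg_Ea_L] at hz'
    rw [pvkgg_Et_L, pvkgg_Em_L]
    by_cases c1 : z.re < 11 / 80 - ρ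
    · refine Or.inl (Or.inl fun w hw => ?_)
      obtain ⟨p1, p2, p3, p4⟩ := pvkgg_ball_box hw
      rcases hz' hw with (h | ⟨a, b, c, d⟩ | ⟨a, b, c, d⟩) | ⟨a, b, c, d⟩
      · exact Or.inl h
      · exact Or.inr ⟨a, by linarith, c, d⟩
      · exfalso; linarith
      · exfalso; linarith
    · by_cases c2 : 29 / 80 + ρ < z.im
      · refine Or.inr fun w hw => ?_
        obtain ⟨p1, p2, p3, p4⟩ := pvkgg_ball_box hw
        rcases hz' hw with (⟨a, b, c, d⟩ | ⟨a, b, c, d⟩ | ⟨a, b, c, d⟩) | h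
        · exfalso; linarith
        · exfalso; linarith
        · exact Or.inr ⟨a, b, by linarith, d⟩
        · exact Or.inl h
      · refine Or.inl (Or.inr fun w hw => ?_)
        obtain ⟨p1, p2, p3, p4⟩ := pvkgg_ball_box hw
        rw [not_lt] at c1 c2
        rcases hz' hw with (⟨a, b, c, d⟩ | ⟨a, b, c, d⟩ | ⟨a, b, c, d⟩) | ⟨a, b, c, d⟩
        · exfalso; linarith
        · exact Or.inl ⟨by linarith, b, c, d⟩
        · exact Or.inr ⟨a, b, c, by linarith⟩
        · exfalso; linarith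
  · rw [pvkgg_Ea_R] at hz'
    rw [pvkgg_Et_R, pvkgg_Em_R]
    by_cases c1 : z.re < 11 / 80 - ρ
    · refine Or.inl (Or.inl fun w hw => ?_)
      obtain ⟨p1, p2, p3, p4⟩ := pvkgg_ball_box hw
      rcases hz' hw with (h | ⟨a, b, c, d⟩ | ⟨a, b, c, d⟩) | ⟨a, b, c, d⟩
      · exact Or.inl h
      · exact Or.inr ⟨a, by linarith, c, d⟩
      · exfalso; linarith
      · exfalso; linarith
    · by_cases c2 : z.im < -(29 / 80) - ρ
      · refine Or.inr fun w hw => ?_
        obtain ⟨p1, p2, p3, p4⟩ := pvkgg_ball_box hw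
        rcases hz' hw with (⟨a, b, c, d⟩ | ⟨a, b, c, d⟩ | ⟨a, b, c, d⟩) | h
        · exfalso; linarith
        · exfalso; linarith
        · exact Or.inr ⟨a, b, c, by linarith⟩
        · exact Or.inl h
      · refine Or.inl (Or.inr fun w hw => ?_)
        obtain ⟨p1, p2, p3, p4⟩ := pvkgg_ball_box hw
        rw [not_lt] at c1 c2
        rcases hz' hw with (⟨a, b, c, d⟩ | ⟨a, b, c, d⟩ | ⟨a, b, c, d⟩) | ⟨a, b, c, d⟩
        · exfalso; linarith
        · exact Or.inl ⟨by linarith, b, c, d⟩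
        · exact Or.inr ⟨a, b, by linarith, d⟩
        · exfalso; linarith

/-- **THE MESH OF THE LINK** from the meshes of the three windows -/
theorem pvkgg_mesh (τ : PvtTurn) {Y : Set ℂ} (hp : PvtrMesh (1 / 640) pvkgEp Y) (ht : PvtrMesh (1 / 640) (pvkgEt τ) Y) (hm : PvtrMesh (1 / 640) (pvkdAt τ.mid τ.rot pvkgEm) Y) :
    PvtrMesh pvkgG.ρ (pvkdAt 0 1 (pvkgG.Ea τ)) Y := by
  have e : pvkdAt 0 1 (pvkgG.Ea τ) = pvkgEa τ := by
    rw [pvkgg_Ea]
    ext w
    rw [pvkx_mem_at one_ne_zero]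
    simp
  rw [e, pvkgg_ρ]
  intro z hz
  rcases pvkgg_cover τ le_rfl hz with (h | h) | h
  · exact hp z h
  · exact ht z h
  · exact hm z h

theorem pvkgg_Ep_open : IsOpen pvkgEp := (pvkgg_box_open _ _ _ _).union (pvkgg_box_open _ _ _ _)
theorem pvkgg_Em_open : IsOpen pvkgEm := (pvkgg_box_open _ _ _ _).union (pvkgg_box_open _ _ _ _)
theorem pvkgg_Et_open (τ : PvtTurn) : IsOpen (pvkgEt τ) := (pvkgg_box_open _ _ _ _).union (pvkgg_at_open (pvt_rot_ne_zero τ) (pvkgg_box_open _ _ _ _))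

/-- the window of the exit side event lies in the door square and the tile, for the three shapes -/
theorem pvkgg_Ep_sub (τ : PvtTurn) : pvkgEp ⊆ pvkgO ∪ pvkgK τ := by
  rintro w (h | ⟨a, b, c, d⟩)
  · exact Or.inl h
  · by_cases hO : w ∈ pvkgO
    · exact Or.inl hO
    · refine Or.inr ⟨Or.inl ⟨a, by linarith, c, d⟩, ?_⟩
      rw [mem_union, not_or]
      refine ⟨hO, fun hx => ?_⟩
      cases τ
      · rw [pvkgg_Ox_S] at hx
        obtain ⟨a', b', c', d'⟩ := hx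
        linarith
      · rw [pvkgg_Ox_L] at hx
        obtain ⟨a', b', c', d'⟩ := hx
        linarith
      · rw [pvkgg_Ox_R] at hx
        obtain ⟨a', b', c', d'⟩ := hx
        linarith

/-- the placed window of the entrance side event lies in the exit door square and the tile -/
theorem pvkgg_Em_sub (τ : PvtTurn) : pvkdAt τ.mid τ.rot pvkgEm ⊆ pvkgOx τ ∪ pvkgK τ := by
  intro w hw
  by_cases hx : w ∈ pvkgOx τ
  · exact Or.inl hx
  · refine Or.inr ⟨?_, ?_⟩
    · cases τ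
      · rw [pvkgg_Em_S] at hw
        rw [pvkgg_Ox_S] at hx
        rw [pvkgg_U_S]
        rcases hw with h | ⟨a, b, c, d⟩
        · exact absurd h hx
        · exact Or.inr ⟨by linarith, b, c, d⟩
      · rw [pvkgg_Em_L] at hw
        rw [pvkgg_Ox_L] at hx
        rw [pvkgg_U_L]
        rcases hw with h | ⟨a, b, c, d⟩
        · exact absurd h hx
        · exact Or.inr ⟨a, b, by linarith, d⟩
      · rw [pvkgg_Em_R] at hw
        rw [pvkgg_Ox_R] at hx
        rw [pvkgg_U_R]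
        rcases hw with h | ⟨a, b, c, d⟩
        · exact absurd h hx
        · exact Or.inr ⟨a, b, c, by linarith⟩
    · rw [mem_union, not_or]
      refine ⟨fun hO => ?_, hx⟩
      obtain ⟨a', b', c', d'⟩ := hO
      cases τ
      · rw [pvkgg_Em_S] at hw
        rcases hw with ⟨a, b, c, d⟩ | ⟨a, b, c, d⟩ <;> linarith
      · rw [pvkgg_Em_L] at hw
        rcases hw with ⟨a, b, c, d⟩ | ⟨a, b, c, d⟩ <;> linarith
      · rw [pvkgg_Em_R] at hw
        rcases hw with ⟨a, b, c, d⟩ | ⟨a, b, c, d⟩ <;> linarith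

/-- the window of the tile lies in the tile -/
theorem pvkgg_Et_sub (τ : PvtTurn) : pvkgEt τ ⊆ pvkgK τ := by
  intro w hw
  cases τ
  · rw [pvkgg_Et_S] at hw
    refine ⟨?_, ?_⟩
    · rw [pvkgg_U_S]
      rcases hw with ⟨a, b, c, d⟩ | ⟨a, b, c, d⟩
      · exact Or.inl ⟨by linarith, b, c, d⟩
      · exact Or.inr ⟨a, by linarith, c, d⟩
    · rw [pvkgg_Ox_S]
      rintro (⟨a', b', c', d'⟩ | ⟨a', b', c', d'⟩) <;> rcases hw with ⟨a, b, c, d⟩ | ⟨a, b, c, d⟩ <;> linarith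
  · rw [pvkgg_Et_L] at hw
    refine ⟨?_, ?_⟩
    · rw [pvkgg_U_L]
      rcases hw with ⟨a, b, c, d⟩ | ⟨a, b, c, d⟩
      · exact Or.inl ⟨by linarith, b, c, d⟩
      · exact Or.inr ⟨a, b, c, by linarith⟩
    · rw [pvkgg_Ox_L]
      rintro (⟨a', b', c', d'⟩ | ⟨a', b', c', d'⟩) <;> rcases hw with ⟨a, b, c, d⟩ | ⟨a, b, c, d⟩ <;> linarith
  · rw [pvkgg_Et_R] at hw
    refine ⟨?_, ?_⟩
    · rw [pvkgg_U_R]
      rcases hw with ⟨a, b, c, d⟩ | ⟨a, b, c, d⟩
      · exact Or.inl ⟨by linarith, b, c, d⟩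
      · exact Or.inr ⟨a, b, by linarith, d⟩
    · rw [pvkgg_Ox_R]
      rintro (⟨a', b', c', d'⟩ | ⟨a', b', c', d'⟩) <;> rcases hw with ⟨a, b, c, d⟩ | ⟨a, b, c, d⟩ <;> linarith

/-- the windows of the two side events of a cell are disjoint -/
theorem pvkgg_Ep_Em (τ : PvtTurn) : Disjoint pvkgEp (pvkdAt τ.mid τ.rot pvkgEm) := by
  rw [Set.disjoint_left]
  intro w hw hm
  cases τ
  · rw [pvkgg_Em_S] at hm
    rcases hw with ⟨a, b, c, d⟩ | ⟨a, b, c, d⟩ <;> rcases hm with ⟨a', b', c', d'⟩ | ⟨a', b', c', d'⟩ <;> linarith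
  · rw [pvkgg_Em_L] at hm
    rcases hw with ⟨a, b, c, d⟩ | ⟨a, b, c, d⟩ <;> rcases hm with ⟨a', b', c', d'⟩ | ⟨a', b', c', d'⟩ <;> linarith
  · rw [pvkgg_Em_R] at hm
    rcases hw with ⟨a, b, c, d⟩ | ⟨a, b, c, d⟩ <;> rcases hm with ⟨a', b', c', d'⟩ | ⟨a', b', c', d'⟩ <;> linarith

/-- `[-3r, 5r] × [-9/160, 9/160]` lies `3ρ` inside the window `E⁺` -/
theorem pvkgg_core_Ep : rswRect (-(3 / 40)) (1 / 8) (-(9 / 160)) (9 / 160) ⊆ pvtrCore (3 / 640) pvkgEp := by
  rintro z ⟨a, b, c, d⟩ w hw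
  obtain ⟨p1, p2, p3, p4⟩ := pvkgg_ball_box hw
  by_cases h : 0 < w.re
  · exact Or.inr ⟨h, by linarith, by linarith, by linarith⟩
  · rw [not_lt] at h
    exact Or.inl ⟨by linarith, by linarith, by linarith, by linarith⟩

/-- mirror -/
theorem pvkgg_core_Em : rswRect (-(1 / 8)) (3 / 40) (-(9 / 160)) (9 / 160) ⊆ pvtrCore (3 / 640) pvkgEm := by
  rintro z ⟨a, b, c, d⟩ w hw
  obtain ⟨p1, p2, p3, p4⟩ := pvkgg_ball_box hw
  by_cases h : w.re < 0
  · exact Or.inr ⟨by linarith, h, by linarith, by linarith⟩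
  · rw [not_lt] at h
    exact Or.inl ⟨by linarith, by linarith, by linarith, by linarith⟩

end Claimed.Agent.R289
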