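-- KEEP
import Claimed.Agent.R289.Tr.PlugFrcQ
import Claimed.Agent.R289.Tr.KitGeo

/-!
# Row 289 (S0537), THE WALL, chapter E (cells), file Tr/FrcLay : **THE LAYOUT OF THE CONNECTORS `D τ : PvfpConn` OF ROUTE Q, AT THE INSTANCE OF RECORD `pvkgG` OF 258**      (helper278; proposal of 52; prefix `pvuf_`, `pvuf`, `Pvuf`)      0 sorry

CONSUMERS: 52 (`Tr/PlugFrcR`: the fields `δ_pos ne ch djK w off dj` of `PvfpConn.Ok`, the bound `n` on the walks), 204 / 294 (`Tr/FrcDet`: the four hook zones `PvfpZone` of every shape, `PvfpFull`, the room `Co`), 174 (`Up`: the zones `K₁ K₂`).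
UNITS (ruling of 34, 12:33Z).   `r = 1/40`, fine side **`s = r/8 = 1/320`**, `ρ = r/16 = s/2`.   Cell `(i,j)` of the fine grid `= [i s,(i+1)s] × [j s,(j+1)s]`.   The reference cell is `[0,320 s] × [-160 s, 160 s]`;   `O₀ = (-26 s, 26 s)²`;   corridor of half width `20 s`.
Truncated rooms (52, 174): black exit `[4s,24s]×[-4s,12s] ∪ [16s,40s]×[4s,12s]`, target `[32s,40s]×[4s,12s]`; white = mirror `y ↦ -y`; entrance = mirror `x ↦ -x`, placed at the exit door.
* sec. 1  rectangles of cells `pvufR a b c d`: finite, connected, `pvfpU s (pvufR ..) = rswRect ..` (`pvuf_U_R`), windows (`pvuf_W_R`);   `PvufConn`, unions;   `pvuf_zone_mono`.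
* sec. 2  frames: `pvuf_at_S _L _R` (placed closed rectangles), `pvufPhi τ`, `pvufPsi τ` (the frame of the exit door on the fine grid), `pvuf_at_C`, **`pvuf_at_U`** (a placed union of cells is a union of cells).
* sec. 3  THE DATA: nets `pvufW β τ` (`β = true` black, North of the strand: rows `2..13`; white: rows `-14..-3`; columns `27..` up to the column `26` before the exit door square), FULL WALKS **`pvufL β τ`**
          (`pvuf_L_ne _ch _full _set _mem _len _U`), **`pvufN`**, zones **`pvufK β τ`**.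
* sec. 4  `pvuf_K_disj`, **`pvuf_win`** : `pvlnW s (pvufL β τ) ⊆ pvkgK τ ∩ pvufK β τ` (`pvuf_win_K`, `pvuf_win_tile`, `pvuf_win_off`).
* sec. 5  THE HOOK ZONES: regions `pvufX σ β` (feet), `pvufA σ β` (side paths = closed `s`-neighbourhood of the truncated room), `pvufY σ β` (truncated target), hook column `28`, blocks `27..29`:
          **`pvuf_zone_p β τ`** : `PvfpZone s {k | k ∈ pvufL β τ} (pvufA true β) (pvufX true β) (pvufY true β)`,
          **`pvuf_zone_m β τ`** : the same for `pvkdAt τ.mid τ.rot (pvufA false β)` ... (slots `hz hz'` of `pvfp_lane_glue`).      `pvuf_Q_eq` : the regions in the words `pvkdRect` of 34.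
-/

set_option autoImplicit false
set_option linter.unusedSectionVars false
set_option linter.unusedVariables false

namespace Claimed.Agent.R289

open Set Relation Metric

/-! ## 1. rectangles of cells -/

/-- the rectangle of cells `[a,b] × [c,d]` -/
def pvufR (a b c d : ℤ) : Set (ℤ × ℤ) := {k | a ≤ k.1 ∧ k.1 ≤ b ∧ c ≤ k.2 ∧ k.2 ≤ d}

/-- connected set of cells (form of `pvfp_walk_exists`) -/
def PvufConn (W : Set (ℤ × ℤ)) : Prop := ∀ a ∈ W, ∀ b ∈ W, ReflTransGen (fun x y => PvlnAdj x y ∧ y ∈ W) a b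

theorem pvuf_eqns_cite : True := by
  have := @pvufR.eq_1; have := @PvufConn.eq_1
  trivial

theorem pvuf_R_finite (a b c d : ℤ) : (pvufR a b c d).Finite :=
  ((Set.finite_Icc a b).prod (Set.finite_Icc c d)).subset fun k hk => ⟨⟨hk.1, hk.2.1⟩, ⟨hk.2.2.1, hk.2.2.2⟩⟩

theorem pvuf_R_mono {a b c d a' b' c' d' : ℤ} (h1 : a' ≤ a) (h2 : b ≤ b') (h3 : c' ≤ c) (h4 : d ≤ d') : pvufR a b c d ⊆ pvufR a' b' c' d' :=
  fun k hk => ⟨h1.trans hk.1, hk.2.1.trans h2, h3.trans hk.2.2.1, hk.2.2.2.trans h4⟩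

/-- horizontal moves inside a set which contains the segment -/
theorem pvuf_move_H {W : Set (ℤ × ℤ)} (y : ℤ) {x₁ x₂ : ℤ} (h : ∀ x, min x₁ x₂ ≤ x → x ≤ max x₁ x₂ → (x, y) ∈ W) :
    ReflTransGen (fun p q => PvlnAdj p q ∧ q ∈ W) (x₁, y) (x₂, y) := by
  rcases le_total x₁ x₂ with hle | hle
  · rw [min_eq_left hle, max_eq_right hle] at h
    revert h
    induction x₂, hle using Int.leInduction with
    | base => intro _; exact ReflTransGen.refl
    | succ n hn ih =>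
      intro h
      refine ReflTransGen.tail (ih fun x a b => h x a (by omega)) ⟨?_, h _ (by omega) le_rfl⟩
      exact Or.inl ⟨rfl, Or.inl rfl⟩
  · rw [min_eq_right hle, max_eq_left hle] at h
    revert h
    induction x₁, hle using Int.leInduction with
    | base => intro _; exact ReflTransGen.refl
    | succ n hn ih =>
      intro h
      refine ReflTransGen.head ⟨?_, h _ hn (by omega)⟩ (ih fun x a b => h x a (by omega))
      exact Or.inl ⟨rfl, Or.inr (by simp)⟩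

/-- vertical moves -/
theorem pvuf_move_V {W : Set (ℤ × ℤ)} (x : ℤ) {y₁ y₂ : ℤ} (h : ∀ y, min y₁ y₂ ≤ y → y ≤ max y₁ y₂ → (x, y) ∈ W) :
    ReflTransGen (fun p q => PvlnAdj p q ∧ q ∈ W) (x, y₁) (x, y₂) := by
  rcases le_total y₁ y₂ with hle | hle
  · rw [min_eq_left hle, max_eq_right hle] at h
    revert h
    induction y₂, hle using Int.leInduction with
    | base => intro _; exact ReflTransGen.refl
    | succ n hn ih =>
      intro h
      refine ReflTransGen.tail (ih fun x a b => h x a (by omega)) ⟨?_, h _ (by omega) le_rfl⟩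
      exact Or.inr ⟨rfl, Or.inl rfl⟩
  · rw [min_eq_right hle, max_eq_left hle] at h
    revert h
    induction y₁, hle using Int.leInduction with
    | base => intro _; exact ReflTransGen.refl
    | succ n hn ih =>
      intro h
      refine ReflTransGen.head ⟨?_, h _ hn (by omega)⟩ (ih fun x a b => h x a (by omega))
      exact Or.inr ⟨rfl, Or.inr (by simp)⟩

theorem pvuf_R_conn (a b c d : ℤ) : PvufConn (pvufR a b c d) := by
  rintro ⟨x₁, y₁⟩ ⟨h1, h2, h3, h4⟩ ⟨x₂, y₂⟩ ⟨k1, k2, k3, k4⟩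
  simp only at h1 h2 h3 h4 k1 k2 k3 k4
  have A : ReflTransGen (fun p q => PvlnAdj p q ∧ q ∈ pvufR a b c d) (x₁, y₁) (x₂, y₁) :=
    pvuf_move_H y₁ fun x u v => ⟨(le_min h1 k1).trans u, v.trans (max_le h2 k2), h3, h4⟩
  have B : ReflTransGen (fun p q => PvlnAdj p q ∧ q ∈ pvufR a b c d) (x₂, y₁) (x₂, y₂) :=
    pvuf_move_V x₂ fun y u v => ⟨k1, k2, (le_min h3 k3).trans u, v.trans (max_le h4 k4)⟩
  exact A.trans B

theorem PvufConn.union {W W' : Set (ℤ × ℤ)} (h : PvufConn W) (h' : PvufConn W') (hne : (W ∩ W').Nonempty) : PvufConn (W ∪ W') := by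
  obtain ⟨o, ho, ho'⟩ := hne
  have m : ∀ {x y}, ReflTransGen (fun p q => PvlnAdj p q ∧ q ∈ W) x y → ReflTransGen (fun p q => PvlnAdj p q ∧ q ∈ W ∪ W') x y :=
    fun hh => ReflTransGen.mono (fun _ _ hpq => ⟨hpq.1, Or.inl hpq.2⟩) _ _ hh
  have m' : ∀ {x y}, ReflTransGen (fun p q => PvlnAdj p q ∧ q ∈ W') x y → ReflTransGen (fun p q => PvlnAdj p q ∧ q ∈ W ∪ W') x y :=
    fun hh => ReflTransGen.mono (fun _ _ hpq => ⟨hpq.1, Or.inr hpq.2⟩) _ _ hh
  have hto : ∀ x ∈ W ∪ W', ReflTransGen (fun p q => PvlnAdj p q ∧ q ∈ W ∪ W') x o := by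
    rintro x (hx | hx)
    · exact m (h x hx o ho)
    · exact m' (h' x hx o ho')
  have hfrom : ∀ x ∈ W ∪ W', ReflTransGen (fun p q => PvlnAdj p q ∧ q ∈ W ∪ W') o x := by
    rintro x (hx | hx)
    · exact m (h o ho x hx)
    · exact m' (h' o ho' x hx)
  exact fun a ha b hb => (hto a ha).trans (hfrom b hb)

/-- the union of the cells of a rectangle of cells is a rectangle -/
theorem pvuf_U_R {s : ℝ} (hs : 0 < s) {a b c d : ℤ} (hab : a ≤ b) (hcd : c ≤ d) :
    pvfpU s (pvufR a b c d) = rswRect ((a : ℝ) * s) (((b : ℝ) + 1) * s) ((c : ℝ) * s) (((d : ℝ) + 1) * s) := by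
  have key : ∀ (a b : ℤ), a ≤ b → ∀ t : ℝ, (a : ℝ) * s ≤ t → t ≤ ((b : ℝ) + 1) * s → ∃ i : ℤ, a ≤ i ∧ i ≤ b ∧ (i : ℝ) * s ≤ t ∧ t ≤ ((i : ℝ) + 1) * s := by
    intro a b hab t h1 h2
    by_cases hb : (b : ℝ) * s ≤ t
    · exact ⟨b, hab, le_rfl, hb, h2⟩
    · push Not at hb
      refine ⟨⌊t / s⌋, ?_, ?_, ?_, ?_⟩
      · rw [Int.le_floor, le_div_iff₀ hs]; exact h1
      · have : ⌊t / s⌋ < b := by rw [Int.floor_lt, div_lt_iff₀ hs]; exact hb
        omega
      · have := Int.floor_le (t / s)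
        rwa [le_div_iff₀ hs] at this
      · have := (Int.lt_floor_add_one (t / s)).le
        rwa [div_le_iff₀ hs] at this
  ext z
  constructor
  · intro hz
    obtain ⟨k, ⟨k1, k2, k3, k4⟩, z1, z2, z3, z4⟩ := mem_iUnion₂.1 hz
    have c1 : (a : ℝ) ≤ k.1 := by exact_mod_cast k1
    have c2 : (k.1 : ℝ) ≤ b := by exact_mod_cast k2
    have c3 : (c : ℝ) ≤ k.2 := by exact_mod_cast k3
    have c4 : (k.2 : ℝ) ≤ d := by exact_mod_cast k4
    refine ⟨?_, ?_, ?_, ?_⟩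
    · exact (mul_le_mul_of_nonneg_right c1 hs.le).trans z1
    · exact z2.trans (mul_le_mul_of_nonneg_right (by linarith) hs.le)
    · exact (mul_le_mul_of_nonneg_right c3 hs.le).trans z3
    · exact z4.trans (mul_le_mul_of_nonneg_right (by linarith) hs.le)
  · rintro ⟨z1, z2, z3, z4⟩
    obtain ⟨i, i1, i2, i3, i4⟩ := key a b hab z.re z1 z2
    obtain ⟨j, j1, j2, j3, j4⟩ := key c d hcd z.im z3 z4
    exact mem_biUnion (show (i, j) ∈ pvufR a b c d from ⟨i1, i2, j1, j2⟩) ⟨i3, i4, j3, j4⟩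

theorem pvuf_U_union (s : ℝ) (W W' : Set (ℤ × ℤ)) : pvfpU s (W ∪ W') = pvfpU s W ∪ pvfpU s W' := by
  unfold pvfpU
  exact biUnion_union _ _ _

theorem pvuf_U_mono (s : ℝ) {W W' : Set (ℤ × ℤ)} (h : W ⊆ W') : pvfpU s W ⊆ pvfpU s W' := biUnion_subset_biUnion_left h

/-- the window of a walk inside a rectangle of cells -/
theorem pvuf_W_R {s : ℝ} (hs : 0 < s) {L : List (ℤ × ℤ)} {z : ℂ} (hz : z ∈ pvlnW s L) :
    ∃ k ∈ L, ((k.1 : ℝ) - 1 / 8) * s ≤ z.re ∧ z.re ≤ ((k.1 : ℝ) + 9 / 8) * s ∧ ((k.2 : ℝ) - 1 / 8) * s ≤ z.im ∧ z.im ≤ ((k.2 : ℝ) + 9 / 8) * s := by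
  obtain ⟨k, hk, h1, h2⟩ := mem_iUnion₂.1 hz
  rw [abs_le] at h1 h2
  simp only [pvlnCtr] at h1 h2
  refine ⟨k, hk, ?_, ?_, ?_, ?_⟩ <;> nlinarith [h1.1, h1.2, h2.1, h2.2]

/-- a real rectangle inside a rectangle of cells -/
theorem pvuf_rect_sub {s : ℝ} (hs : 0 < s) {a b c d : ℤ} (hab : a ≤ b) (hcd : c ≤ d) {x0 x1 y0 y1 : ℝ} (h1 : (a : ℝ) * s ≤ x0) (h2 : x1 ≤ ((b : ℝ) + 1) * s)
    (h3 : (c : ℝ) * s ≤ y0) (h4 : y1 ≤ ((d : ℝ) + 1) * s) : rswRect x0 x1 y0 y1 ⊆ pvfpU s (pvufR a b c d) := by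
  rw [pvuf_U_R hs hab hcd]
  rintro w ⟨p, q, u, v⟩
  exact ⟨h1.trans p, q.trans h2, h3.trans u, v.trans h4⟩

/-- zones are monotone -/
theorem pvuf_zone_mono {δ : ℝ} {W W' : Set (ℤ × ℤ)} {A A' X X' Y Y' : Set ℂ} (h : PvfpZone δ W A X Y) (hW : W ⊆ W') (hA : A' ⊆ A) (hX : X' ⊆ X) (hY : Y' ⊆ Y) :
    PvfpZone δ W' A' X' Y' := by
  intro S hS x hx y hy hj
  obtain ⟨k, p, h1, h2⟩ := h S (hS.trans hA) x (hX hx) y (hY hy) hj
  exact ⟨k, p, h1.trans hW, h2⟩

/-! ## 2. frames -/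

theorem pvuf_at_S (x0 x1 y0 y1 : ℝ) : pvkdAt PvtTurn.S.mid PvtTurn.S.rot (rswRect x0 x1 y0 y1) = rswRect (1 + x0) (1 + x1) y0 y1 := by
  ext w
  rw [pvkx_mem_at (pvt_rot_ne_zero _)]
  simp only [PvtTurn.mid, PvtTurn.rot, div_one, rswRect, mem_ofPred_eq, Complex.sub_re, Complex.sub_im, Complex.one_re, Complex.one_im, sub_zero]
  constructor
  · rintro ⟨a, b, c, d⟩
    exact ⟨by linarith, by linarith, c, d⟩
  · rintro ⟨a, b, c, d⟩
    exact ⟨by linarith, by linarith, c, d⟩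

theorem pvuf_at_L (x0 x1 y0 y1 : ℝ) : pvkdAt PvtTurn.L.mid PvtTurn.L.rot (rswRect x0 x1 y0 y1) = rswRect (1 / 2 - y1) (1 / 2 - y0) (1 / 2 + x0) (1 / 2 + x1) := by
  ext w
  rw [pvkx_mem_at (pvt_rot_ne_zero _)]
  simp only [PvtTurn.mid, PvtTurn.rot, Complex.div_I, rswRect, mem_ofPred_eq]
  have e1 : (-((w - (1 + Complex.I) / 2) * Complex.I)).re = w.im - 1 / 2 := by simp
  have e2 : (-((w - (1 + Complex.I) / 2) * Complex.I)).im = 1 / 2 - w.re := by simp
  rw [e1, e2]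
  constructor
  · rintro ⟨a, b, c, d⟩
    exact ⟨by linarith, by linarith, by linarith, by linarith⟩
  · rintro ⟨a, b, c, d⟩
    exact ⟨by linarith, by linarith, by linarith, by linarith⟩

theorem pvuf_at_R (x0 x1 y0 y1 : ℝ) : pvkdAt PvtTurn.R.mid PvtTurn.R.rot (rswRect x0 x1 y0 y1) = rswRect (1 / 2 + y0) (1 / 2 + y1) (-(1 / 2) - x1) (-(1 / 2) - x0) := by
  ext w
  rw [pvkx_mem_at (pvt_rot_ne_zero _)]
  simp only [PvtTurn.mid, PvtTurn.rot, div_neg, Complex.div_I, rswRect, mem_ofPred_eq, neg_neg]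
  have e1 : ((w - (1 - Complex.I) / 2) * Complex.I).re = -(w.im + 1 / 2) := by simp; ring
  have e2 : ((w - (1 - Complex.I) / 2) * Complex.I).im = w.re - 1 / 2 := by simp
  rw [e1, e2]
  constructor
  · rintro ⟨a, b, c, d⟩
    exact ⟨by linarith, by linarith, by linarith, by linarith⟩
  · rintro ⟨a, b, c, d⟩
    exact ⟨by linarith, by linarith, by linarith, by linarith⟩

/-- the frame of the exit door, on the cells of side `1/320` -/
def pvufPhi : PvtTurn → ℤ × ℤ → ℤ × ℤ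
  | .S, k => (320 + k.1, k.2)
  | .L, k => (159 - k.2, 160 + k.1)
  | .R, k => (160 + k.2, -161 - k.1)

/-- its inverse -/
def pvufPsi : PvtTurn → ℤ × ℤ → ℤ × ℤ
  | .S, k => (k.1 - 320, k.2)
  | .L, k => (k.2 - 160, 159 - k.1)
  | .R, k => (-161 - k.2, k.1 - 160)

theorem pvuf_eqns_cite2 : True := by
  have := @pvufPhi.eq_1; have := @pvufPsi.eq_1
  trivial

theorem pvuf_psi_phi (τ : PvtTurn) (k : ℤ × ℤ) : pvufPsi τ (pvufPhi τ k) = k := by
  cases τ <;> simp [pvufPsi, pvufPhi]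

theorem pvuf_phi_psi (τ : PvtTurn) (k : ℤ × ℤ) : pvufPhi τ (pvufPsi τ k) = k := by
  cases τ <;> simp [pvufPsi, pvufPhi]

theorem pvuf_psi_inj (τ : PvtTurn) : Function.Injective (pvufPsi τ) := fun a b h => by
  rw [← pvuf_phi_psi τ a, h, pvuf_phi_psi]

/-- a placed cell is a cell -/
theorem pvuf_at_C (τ : PvtTurn) (k : ℤ × ℤ) : pvkdAt τ.mid τ.rot (pvlnC (1 / 320) k) = pvlnC (1 / 320) (pvufPhi τ k) := by
  unfold pvlnC
  cases τ
  · rw [pvuf_at_S]
    simp only [pvufPhi]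
    push_cast
    congr 1 <;> ring
  · rw [pvuf_at_L]
    simp only [pvufPhi]
    push_cast
    congr 1 <;> ring
  · rw [pvuf_at_R]
    simp only [pvufPhi]
    push_cast
    congr 1 <;> ring

/-- a placed union of cells is a union of cells -/
theorem pvuf_at_U (τ : PvtTurn) (E : Set (ℤ × ℤ)) : pvkdAt τ.mid τ.rot (pvfpU (1 / 320) E) = pvfpU (1 / 320) (pvufPsi τ ⁻¹' E) := by
  ext w
  constructor
  · rintro ⟨v, hv, rfl⟩
    obtain ⟨k, hk, hvk⟩ := mem_iUnion₂.1 hv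
    refine mem_biUnion (show pvufPhi τ k ∈ pvufPsi τ ⁻¹' E from ?_) ?_
    · show pvufPsi τ (pvufPhi τ k) ∈ E
      rw [pvuf_psi_phi]
      exact hk
    · rw [← pvuf_at_C]
      exact ⟨v, hvk, rfl⟩
  · intro hw
    obtain ⟨k, hk, hwk⟩ := mem_iUnion₂.1 hw
    rw [← pvuf_phi_psi τ k, ← pvuf_at_C] at hwk
    obtain ⟨v, hv, rfl⟩ := hwk
    exact ⟨v, mem_biUnion hk hv, rfl⟩

/-! ## 3. the data -/

/-- **the cells of the net of colour `β`** (`true` = black = North of the strand) in the cell of shape `τ` -/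
def pvufW : Bool → PvtTurn → Set (ℤ × ℤ)
  | true, .S => pvufR 27 292 2 13 ∪ pvufR 290 292 2 13
  | true, .L => pvufR 27 157 2 13 ∪ pvufR 146 157 2 132
  | true, .R => pvufR 27 173 2 13 ∪ pvufR 162 173 (-133) 13
  | false, .S => pvufR 27 292 (-14) (-3) ∪ pvufR 290 292 (-14) (-3)
  | false, .L => pvufR 27 173 (-14) (-3) ∪ pvufR 162 173 (-14) 132
  | false, .R => pvufR 27 157 (-14) (-3) ∪ pvufR 146 157 (-133) (-3)

/-- **the zone in which the colour `β` is up** -/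
def pvufK : Bool → PvtTurn → Set ℂ
  | true, .S => {w | 0 < w.im}
  | true, .L => {w | 0 < w.im ∧ w.re < 1 / 2}
  | true, .R => {w | 0 < w.im ∨ 1 / 2 < w.re}
  | false, .S => {w | w.im < 0}
  | false, .L => {w | w.im < 0 ∨ 1 / 2 < w.re}
  | false, .R => {w | w.im < 0 ∧ w.re < 1 / 2}

theorem pvuf_W_fin (β : Bool) (τ : PvtTurn) : (pvufW β τ).Finite := by
  cases β <;> cases τ <;> exact (pvuf_R_finite _ _ _ _).union (pvuf_R_finite _ _ _ _)

theorem pvuf_W_ne (β : Bool) (τ : PvtTurn) : (pvufW β τ).Nonempty := by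
  cases β
  · cases τ <;> exact ⟨(27, -14), Or.inl ⟨by norm_num, by norm_num, by norm_num, by norm_num⟩⟩
  · cases τ <;> exact ⟨(27, 2), Or.inl ⟨by norm_num, by norm_num, by norm_num, by norm_num⟩⟩

theorem pvuf_W_conn (β : Bool) (τ : PvtTurn) : PvufConn (pvufW β τ) := by
  cases β <;> cases τ
  · exact (pvuf_R_conn _ _ _ _).union (pvuf_R_conn _ _ _ _) ⟨(290, -14), ⟨by norm_num, by norm_num, by norm_num, by norm_num⟩, ⟨by norm_num, by norm_num, by norm_num, by norm_num⟩⟩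
  · exact (pvuf_R_conn _ _ _ _).union (pvuf_R_conn _ _ _ _) ⟨(162, -14), ⟨by norm_num, by norm_num, by norm_num, by norm_num⟩, ⟨by norm_num, by norm_num, by norm_num, by norm_num⟩⟩
  · exact (pvuf_R_conn _ _ _ _).union (pvuf_R_conn _ _ _ _) ⟨(146, -14), ⟨by norm_num, by norm_num, by norm_num, by norm_num⟩, ⟨by norm_num, by norm_num, by norm_num, by norm_num⟩⟩
  · exact (pvuf_R_conn _ _ _ _).union (pvuf_R_conn _ _ _ _) ⟨(290, 2), ⟨by norm_num, by norm_num, by norm_num, by norm_num⟩, ⟨by norm_num, by norm_num, by norm_num, by norm_num⟩⟩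
  · exact (pvuf_R_conn _ _ _ _).union (pvuf_R_conn _ _ _ _) ⟨(146, 2), ⟨by norm_num, by norm_num, by norm_num, by norm_num⟩, ⟨by norm_num, by norm_num, by norm_num, by norm_num⟩⟩
  · exact (pvuf_R_conn _ _ _ _).union (pvuf_R_conn _ _ _ _) ⟨(162, 2), ⟨by norm_num, by norm_num, by norm_num, by norm_num⟩, ⟨by norm_num, by norm_num, by norm_num, by norm_num⟩⟩

theorem pvuf_walk (β : Bool) (τ : PvtTurn) : ∃ L : List (ℤ × ℤ), L ≠ [] ∧ L.IsChain PvlnAdj ∧ PvfpFull L ∧ {k | k ∈ L} = pvufW β τ :=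
  pvfp_walk_exists (pvuf_W_fin β τ) (pvuf_W_ne β τ) (pvuf_W_conn β τ)

/-- **THE FULL WALK** of the net of colour `β` -/
noncomputable def pvufL (β : Bool) (τ : PvtTurn) : List (ℤ × ℤ) := Classical.choose (pvuf_walk β τ)

/-- **THE BOUND ON THE LENGTHS OF THE WALKS** -/
noncomputable def pvufN : ℕ :=
  (pvufL true .S).length + (pvufL true .L).length + (pvufL true .R).length + (pvufL false .S).length + (pvufL false .L).length + (pvufL false .R).length

theorem pvuf_eqns_cite3 : True := by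
  have := @pvufW.eq_1; have := @pvufK.eq_1; have := @pvufL.eq_1; have := @pvufN.eq_1
  trivial

theorem pvuf_L_ne (β : Bool) (τ : PvtTurn) : pvufL β τ ≠ [] := (Classical.choose_spec (pvuf_walk β τ)).1
theorem pvuf_L_ch (β : Bool) (τ : PvtTurn) : (pvufL β τ).IsChain PvlnAdj := (Classical.choose_spec (pvuf_walk β τ)).2.1
theorem pvuf_L_full (β : Bool) (τ : PvtTurn) : PvfpFull (pvufL β τ) := (Classical.choose_spec (pvuf_walk β τ)).2.2.1
theorem pvuf_L_set (β : Bool) (τ : PvtTurn) : {k | k ∈ pvufL β τ} = pvufW β τ := (Classical.choose_spec (pvuf_walk β τ)).2.2.2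

theorem pvuf_L_mem (β : Bool) (τ : PvtTurn) (k : ℤ × ℤ) : k ∈ pvufL β τ ↔ k ∈ pvufW β τ := by
  rw [← pvuf_L_set β τ]
  rfl

theorem pvuf_L_len (β : Bool) (τ : PvtTurn) : (pvufL β τ).length ≤ pvufN := by
  unfold pvufN
  cases β <;> cases τ <;> omega

/-- the carrier of the net -/
theorem pvuf_L_U (β : Bool) (τ : PvtTurn) : pvlnU (1 / 320) (pvufL β τ) = pvfpU (1 / 320) (pvufW β τ) := by
  unfold pvlnU pvfpU
  rw [pvuf_L_set]

/-! ## 4. the nets lie in the tile and in their zones -/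

theorem pvuf_K_disj (τ : PvtTurn) : Disjoint (pvufK true τ) (pvufK false τ) := by
  rw [Set.disjoint_left]
  intro w h1 h2
  cases τ
  · simp only [pvufK, mem_ofPred_eq] at h1 h2
    linarith
  · simp only [pvufK, mem_ofPred_eq] at h1 h2
    rcases h2 with h2 | h2 <;> linarith [h1.1, h1.2]
  · simp only [pvufK, mem_ofPred_eq] at h1 h2
    rcases h1 with h1 | h1 <;> linarith [h2.1, h2.2]

theorem pvuf_mem_U_S {w : ℂ} (a : 0 < w.re) (b : w.re < 1) (c : -(1 / 16) < w.im) (d : w.im < 1 / 16) : w ∈ pvkgU .S := by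
  rw [pvkgg_U_S]
  by_cases h : w.re < 1 / 2
  · exact Or.inl ⟨a, by linarith, c, d⟩
  · exact Or.inr ⟨by linarith, b, c, d⟩

/-- **the windows of the walks lie in the tile `K₀ τ` and in the zones** -/
theorem pvuf_win (β : Bool) (τ : PvtTurn) : pvlnW (1 / 320) (pvufL β τ) ⊆ pvkgK τ ∩ pvufK β τ := by
  intro z hz
  obtain ⟨⟨k1, k2⟩, hk, b1, b2, b3, b4⟩ := pvuf_W_R (by norm_num) hz
  rw [pvuf_L_mem] at hk
  simp only at b1 b2 b3 b4
  have hO : ∀ {a b c d : ℤ}, (k1, k2) ∈ pvufR a b c d → (a : ℝ) ≤ k1 ∧ (k1 : ℝ) ≤ b ∧ (c : ℝ) ≤ k2 ∧ (k2 : ℝ) ≤ d := by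
    rintro a b c d ⟨h1, h2, h3, h4⟩
    exact ⟨by exact_mod_cast h1, by exact_mod_cast h2, by exact_mod_cast h3, by exact_mod_cast h4⟩
  cases β <;> cases τ <;> rcases hk with hk | hk <;> obtain ⟨h1, h2, h3, h4⟩ := hO hk <;> push_cast at h1 h2 h3 h4 <;> refine ⟨⟨?_, ?_⟩, ?_⟩
  -- white S
  · exact pvuf_mem_U_S (by linarith) (by linarith) (by linarith) (by linarith)
  · rw [pvkgg_Ox_S]
    rintro (⟨a, b, c, d⟩ | ⟨a, b, c, d⟩) <;> linarith
  · show z.im < 0
    linarith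
  · exact pvuf_mem_U_S (by linarith) (by linarith) (by linarith) (by linarith)
  · rw [pvkgg_Ox_S]
    rintro (⟨a, b, c, d⟩ | ⟨a, b, c, d⟩) <;> linarith
  · show z.im < 0
    linarith
  -- white L
  · rw [pvkgg_U_L]
    exact Or.inl ⟨by linarith, by linarith, by linarith, by linarith⟩
  · rw [pvkgg_Ox_L]
    rintro (⟨a, b, c, d⟩ | ⟨a, b, c, d⟩) <;> linarith
  · exact Or.inl (show z.im < 0 by linarith)
  · rw [pvkgg_U_L]
    exact Or.inr ⟨by linarith, by linarith, by linarith, by linarith⟩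
  · rw [pvkgg_Ox_L]
    rintro (⟨a, b, c, d⟩ | ⟨a, b, c, d⟩) <;> linarith
  · exact Or.inr (show 1 / 2 < z.re by linarith)
  -- white R
  · rw [pvkgg_U_R]
    exact Or.inl ⟨by linarith, by linarith, by linarith, by linarith⟩
  · rw [pvkgg_Ox_R]
    rintro (⟨a, b, c, d⟩ | ⟨a, b, c, d⟩) <;> linarith
  · exact ⟨show z.im < 0 by linarith, show z.re < 1 / 2 by linarith⟩
  · rw [pvkgg_U_R]
    exact Or.inr ⟨by linarith, by linarith, by linarith, by linarith⟩
  · rw [pvkgg_Ox_R]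
    rintro (⟨a, b, c, d⟩ | ⟨a, b, c, d⟩) <;> linarith
  · exact ⟨show z.im < 0 by linarith, show z.re < 1 / 2 by linarith⟩
  -- black S
  · exact pvuf_mem_U_S (by linarith) (by linarith) (by linarith) (by linarith)
  · rw [pvkgg_Ox_S]
    rintro (⟨a, b, c, d⟩ | ⟨a, b, c, d⟩) <;> linarith
  · show 0 < z.im
    linarith
  · exact pvuf_mem_U_S (by linarith) (by linarith) (by linarith) (by linarith)
  · rw [pvkgg_Ox_S]
    rintro (⟨a, b, c, d⟩ | ⟨a, b, c, d⟩) <;> linarith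
  · show 0 < z.im
    linarith
  -- black L
  · rw [pvkgg_U_L]
    exact Or.inl ⟨by linarith, by linarith, by linarith, by linarith⟩
  · rw [pvkgg_Ox_L]
    rintro (⟨a, b, c, d⟩ | ⟨a, b, c, d⟩) <;> linarith
  · exact ⟨show 0 < z.im by linarith, show z.re < 1 / 2 by linarith⟩
  · rw [pvkgg_U_L]
    exact Or.inr ⟨by linarith, by linarith, by linarith, by linarith⟩
  · rw [pvkgg_Ox_L]
    rintro (⟨a, b, c, d⟩ | ⟨a, b, c, d⟩) <;> linarith
  · exact ⟨show 0 < z.im by linarith, show z.re < 1 / 2 by linarith⟩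
  -- black R
  · rw [pvkgg_U_R]
    exact Or.inl ⟨by linarith, by linarith, by linarith, by linarith⟩
  · rw [pvkgg_Ox_R]
    rintro (⟨a, b, c, d⟩ | ⟨a, b, c, d⟩) <;> linarith
  · exact Or.inl (show 0 < z.im by linarith)
  · rw [pvkgg_U_R]
    exact Or.inr ⟨by linarith, by linarith, by linarith, by linarith⟩
  · rw [pvkgg_Ox_R]
    rintro (⟨a, b, c, d⟩ | ⟨a, b, c, d⟩) <;> linarith
  · exact Or.inr (show 1 / 2 < z.re by linarith)

theorem pvuf_win_K (β : Bool) (τ : PvtTurn) : pvlnW (1 / 320) (pvufL β τ) ⊆ pvufK β τ := fun _ hz => (pvuf_win β τ hz).2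

theorem pvuf_win_tile (β : Bool) (τ : PvtTurn) : pvlnW (1 / 320) (pvufL β τ) ⊆ pvkgK τ := fun _ hz => (pvuf_win β τ hz).1

theorem pvuf_win_off (β : Bool) (τ : PvtTurn) : Disjoint (pvlnW (1 / 320) (pvufL β τ)) (pvkgO ∪ pvkgOx τ) :=
  Set.disjoint_left.2 fun _ hz => (pvuf_win β τ hz).1.2

/-! ## 5. the hook zones -/

/-- a rectangle of cells in the frame of a door: `σ = false` mirrors `x ↦ -x` (entrance side), `β = false` mirrors `y ↦ -y` (white) -/
def pvufRc : Bool → Bool → ℤ → ℤ → ℤ → ℤ → Set (ℤ × ℤ)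
  | true, true, a, b, c, d => pvufR a b c d
  | false, true, a, b, c, d => pvufR (-b - 1) (-a - 1) c d
  | true, false, a, b, c, d => pvufR a b (-d - 1) (-c - 1)
  | false, false, a, b, c, d => pvufR (-b - 1) (-a - 1) (-d - 1) (-c - 1)

/-- the same for real rectangles -/
def pvufQ : Bool → Bool → ℝ → ℝ → ℝ → ℝ → Set ℂ
  | true, true, a, b, c, d => rswRect a b c d
  | false, true, a, b, c, d => rswRect (-b) (-a) c d
  | true, false, a, b, c, d => rswRect a b (-d) (-c)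
  | false, false, a, b, c, d => rswRect (-b) (-a) (-d) (-c)

/-- **the region of the feet** `[3s,25s] × [-5s,13s]` (black, exit) -/
def pvufX (σ β : Bool) : Set ℂ := pvufQ σ β (3 / 320) (25 / 320) (-(5 / 320)) (13 / 320)

/-- **the region of the side paths** = the closed `s`-neighbourhood (sup norm) of the truncated room `[4s,24s] × [-4s,12s] ∪ [16s,40s] × [4s,12s]` -/
def pvufA (σ β : Bool) : Set ℂ := pvufX σ β ∪ pvufQ σ β (15 / 320) (41 / 320) (3 / 320) (13 / 320)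

/-- **the truncated target** `[4r,5r] × [r/2,3r/2] = [32s,40s] × [4s,12s]` -/
def pvufY (σ β : Bool) : Set ℂ := pvufQ σ β (32 / 320) (40 / 320) (4 / 320) (12 / 320)

theorem pvuf_eqns_cite4 : True := by
  have := @pvufRc.eq_1; have := @pvufQ.eq_1; have := @pvufX.eq_1; have := @pvufA.eq_1; have := @pvufY.eq_1
  trivial

/-- in the words of 34 -/
theorem pvuf_Q_eq (σ β : Bool) (a b c d : ℝ) : pvufQ σ β a b c d = if β then pvkdRect σ a b c d else pvkdRect σ a b (-d) (-c) := by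
  cases σ <;> cases β <;> simp [pvufQ, pvkdRect]

theorem pvuf_U_Rc (σ β : Bool) {a b c d : ℤ} (hab : a ≤ b) (hcd : c ≤ d) :
    pvfpU (1 / 320) (pvufRc σ β a b c d) = pvufQ σ β ((a : ℝ) / 320) (((b : ℝ) + 1) / 320) ((c : ℝ) / 320) (((d : ℝ) + 1) / 320) := by
  cases σ <;> cases β <;> simp only [pvufRc, pvufQ] <;> rw [pvuf_U_R (by norm_num) (by omega) (by omega)] <;> push_cast <;> congr 1 <;> ring

theorem pvuf_Rc_finite (σ β : Bool) (a b c d : ℤ) : (pvufRc σ β a b c d).Finite := by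
  cases σ <;> cases β <;> exact pvuf_R_finite _ _ _ _

/-- the cells of the zone: before the hook column, the hook column, after it, the target -/
def pvufE1 (σ β : Bool) : Set (ℤ × ℤ) := pvufRc σ β 3 24 (-5) 12 ∪ pvufRc σ β 15 27 3 12
def pvufEz (σ β : Bool) : Set (ℤ × ℤ) := pvufRc σ β 28 28 3 12
def pvufE2 (σ β : Bool) : Set (ℤ × ℤ) := pvufRc σ β 29 40 3 12
def pvufEy (σ β : Bool) : Set (ℤ × ℤ) := pvufRc σ β 32 39 4 11

theorem pvuf_eqns_cite5 : True := by
  have := @pvufE1.eq_1; have := @pvufEz.eq_1; have := @pvufE2.eq_1; have := @pvufEy.eq_1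
  trivial

theorem pvuf_base_far (σ β : Bool) : ∀ k ∈ pvufE1 σ β, ∀ k' ∈ pvufE2 σ β, k' ∉ pvfpBlk k := by
  rintro ⟨a, b⟩ hk ⟨c, d⟩ hk' ⟨u, v⟩
  simp only at u v
  rw [abs_le] at u v
  cases σ <;> cases β <;> simp only [pvufE1, pvufE2, pvufRc, pvufR, mem_union, mem_ofPred_eq] at hk hk' <;> omega

theorem pvuf_base_Z (σ β : Bool) : ∀ k ∈ pvufEz σ β, pvfpBlk k ⊆ pvufRc σ β 27 29 2 13 := by
  rintro ⟨a, b⟩ hk ⟨c, d⟩ ⟨u, v⟩
  simp only at u v
  rw [abs_le] at u v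
  cases σ <;> cases β <;> simp only [pvufEz, pvufRc, pvufR, mem_ofPred_eq] at hk ⊢ <;> omega

theorem pvuf_base_Y (σ β : Bool) : ∀ k ∈ pvufEz σ β, ∀ k' ∈ pvufEy σ β, k' ∉ pvfpBlk k := by
  rintro ⟨a, b⟩ hk ⟨c, d⟩ hk' ⟨u, v⟩
  simp only at u v
  rw [abs_le] at u v
  cases σ <;> cases β <;> simp only [pvufEz, pvufEy, pvufRc, pvufR, mem_ofPred_eq] at hk hk' <;> omega

theorem pvuf_base_Ey (σ β : Bool) : pvufEy σ β ⊆ pvufE2 σ β := by
  rintro ⟨a, b⟩ hk
  cases σ <;> cases β <;> simp only [pvufE2, pvufEy, pvufRc, pvufR, mem_ofPred_eq] at hk ⊢ <;> omega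

/-- **the zone of cells**, carried by a map of the grid which respects the blocks -/
theorem pvuf_zone_cells (σ β : Bool) (ψ : ℤ × ℤ → ℤ × ℤ) (hinj : Function.Injective ψ) (hblk : ∀ k k', k' ∈ pvfpBlk k → ψ k' ∈ pvfpBlk (ψ k)) {W : Set (ℤ × ℤ)}
    (hW : ψ ⁻¹' pvufRc σ β 27 29 2 13 ⊆ W) :
    PvfpZone (1 / 320) W (pvfpU (1 / 320) (ψ ⁻¹' (pvufE1 σ β ∪ pvufEz σ β ∪ pvufE2 σ β))) (pvfpU (1 / 320) (ψ ⁻¹' pvufE1 σ β)) (pvfpU (1 / 320) (ψ ⁻¹' pvufEy σ β)) :=
  pvfp_zone_of_cells (E₁ := ψ ⁻¹' pvufE1 σ β) (Z := ψ ⁻¹' pvufEz σ β) (E₂ := ψ ⁻¹' pvufE2 σ β) (Ey := ψ ⁻¹' pvufEy σ β) (by norm_num)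
    (((pvuf_Rc_finite _ _ _ _ _ _).union (pvuf_Rc_finite _ _ _ _ _ _)).preimage hinj.injOn) ((pvuf_Rc_finite _ _ _ _ _ _).preimage hinj.injOn)
    (fun k hk k' hk' hb => pvuf_base_far σ β (ψ k) hk (ψ k') hk' (hblk k k' hb))
    (fun k hk k' hk' => hW (pvuf_base_Z σ β (ψ k) hk (hblk k k' hk')))
    (fun k hk k' hk' hb => pvuf_base_Y σ β (ψ k) hk (ψ k') hk' (hblk k k' hb))
    (fun k hk => pvuf_base_Ey σ β hk)

theorem pvuf_psi_blk (τ : PvtTurn) (k k' : ℤ × ℤ) (h : k' ∈ pvfpBlk k) : pvufPsi τ k' ∈ pvfpBlk (pvufPsi τ k) := by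
  obtain ⟨a, b⟩ := k
  obtain ⟨c, d⟩ := k'
  obtain ⟨u, v⟩ := h
  simp only at u v
  rw [abs_le] at u v
  cases τ <;> refine ⟨abs_le.2 ⟨?_, ?_⟩, abs_le.2 ⟨?_, ?_⟩⟩ <;> simp only [pvufPsi] <;> omega

/-- the blocks of the hook column of the exit side lie in the net -/
theorem pvuf_blk_p (β : Bool) (τ : PvtTurn) : pvufRc true β 27 29 2 13 ⊆ pvufW β τ := by
  rintro ⟨a, b⟩ hk
  cases β <;> cases τ <;> simp only [pvufRc, pvufW, pvufR, mem_union, mem_ofPred_eq] at hk ⊢ <;> omega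

/-- the blocks of the placed hook column of the entrance side lie in the net -/
theorem pvuf_blk_m (β : Bool) (τ : PvtTurn) : pvufPsi τ ⁻¹' pvufRc false β 27 29 2 13 ⊆ pvufW β τ := by
  rintro ⟨a, b⟩ hk
  cases β <;> cases τ <;> simp only [mem_preimage, pvufPsi, pvufRc, pvufW, pvufR, mem_union, mem_ofPred_eq] at hk ⊢ <;> omega

theorem pvuf_X_sub (σ β : Bool) : pvufX σ β ⊆ pvfpU (1 / 320) (pvufE1 σ β) := by
  refine Subset.trans (le_of_eq ?_) (pvuf_U_mono _ (subset_union_left : pvufRc σ β 3 24 (-5) 12 ⊆ pvufE1 σ β))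
  rw [pvuf_U_Rc σ β (by norm_num) (by norm_num), pvufX]
  norm_num

theorem pvuf_Y_eq (σ β : Bool) : pvufY σ β = pvfpU (1 / 320) (pvufEy σ β) := by
  rw [pvufEy, pvuf_U_Rc σ β (by norm_num) (by norm_num), pvufY]
  norm_num

theorem pvuf_A_sub (σ β : Bool) : pvufA σ β ⊆ pvfpU (1 / 320) (pvufE1 σ β ∪ pvufEz σ β ∪ pvufE2 σ β) := by
  refine union_subset ((pvuf_X_sub σ β).trans (pvuf_U_mono _ fun k hk => Or.inl (Or.inl hk))) ?_
  have h : pvufRc σ β 15 40 3 12 ⊆ pvufE1 σ β ∪ pvufEz σ β ∪ pvufE2 σ β := by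
    rintro ⟨a, b⟩ hk
    cases σ <;> cases β <;> simp only [pvufE1, pvufEz, pvufE2, pvufRc, pvufR, mem_union, mem_ofPred_eq] at hk ⊢ <;> omega
  refine Subset.trans (le_of_eq ?_) (pvuf_U_mono _ h)
  rw [pvuf_U_Rc σ β (by norm_num) (by norm_num)]
  norm_num

/-- **HOOK ZONE OF THE EXIT SIDE** of the door `0`, colour `β`, for the three shapes -/
theorem pvuf_zone_p (β : Bool) (τ : PvtTurn) : PvfpZone (1 / 320) {k | k ∈ pvufL β τ} (pvufA true β) (pvufX true β) (pvufY true β) := by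
  rw [pvuf_L_set]
  exact pvuf_zone_mono (pvuf_zone_cells true β id Function.injective_id (fun _ _ h => h) (pvuf_blk_p β τ)) Subset.rfl (pvuf_A_sub true β) (pvuf_X_sub true β)
    (pvuf_Y_eq true β).le

/-- **HOOK ZONE OF THE ENTRANCE SIDE** of the exit door of the cell of shape `τ`, colour `β` -/
theorem pvuf_zone_m (β : Bool) (τ : PvtTurn) :
    PvfpZone (1 / 320) {k | k ∈ pvufL β τ} (pvkdAt τ.mid τ.rot (pvufA false β)) (pvkdAt τ.mid τ.rot (pvufX false β)) (pvkdAt τ.mid τ.rot (pvufY false β)) := by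
  rw [pvuf_L_set]
  refine pvuf_zone_mono (pvuf_zone_cells false β (pvufPsi τ) (pvuf_psi_inj τ) (pvuf_psi_blk τ) (pvuf_blk_m β τ)) Subset.rfl ?_ ?_ ?_
  · rw [← pvuf_at_U]
    exact image_mono (pvuf_A_sub false β)
  · rw [← pvuf_at_U]
    exact image_mono (pvuf_X_sub false β)
  · rw [← pvuf_at_U]
    exact image_mono (pvuf_Y_eq false β).le

/-! ## 6. the carrier of the glued paths: inside the room of the run, inside the zones -/

/-- **the carrier of the glued path of colour `β`** (conclusion of `pvfp_lane_glue`) -/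
noncomputable def pvufG (β : Bool) (τ : PvtTurn) : Set ℂ := pvufA true β ∪ pvlnU (1 / 320) (pvufL β τ) ∪ pvkdAt τ.mid τ.rot (pvufA false β)

theorem pvuf_eqns_cite6 : True := by
  have := @pvufG.eq_1
  trivial

theorem pvuf_ball_box {z : ℂ} {x0 x1 y0 y1 X0 X1 Y0 Y1 t : ℝ} (hz : z ∈ rswRect x0 x1 y0 y1) (h1 : X0 < x0 - t) (h2 : x1 + t < X1) (h3 : Y0 < y0 - t) (h4 : y1 + t < Y1) :
    closedBall z t ⊆ pvkgB X0 X1 Y0 Y1 := by
  intro w hw
  obtain ⟨p1, p2, p3, p4⟩ := pvkgg_ball_box hw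
  obtain ⟨a, b, c, d⟩ := hz
  exact ⟨by linarith, by linarith, by linarith, by linarith⟩

theorem pvuf_ball_at (τ : PvtTurn) {v : ℂ} {t : ℝ} {S : Set ℂ} (h : closedBall v t ⊆ S) : closedBall (pvthSim τ.mid τ.rot v) t ⊆ pvkdAt τ.mid τ.rot S := by
  intro w hw
  rw [pvkx_mem_at (pvt_rot_ne_zero τ)]
  apply h
  rw [mem_closedBall, Complex.dist_eq] at hw ⊢
  have e : (w - τ.mid) / τ.rot - v = (w - pvthSim τ.mid τ.rot v) / τ.rot := by
    unfold pvthSim
    field_simp [pvt_rot_ne_zero τ]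
    ring
  rw [e, norm_div, pvpk_rot_norm, div_one]
  exact hw

theorem pvuf_A_box_p (β : Bool) : pvufA true β ⊆ rswRect (3 / 320) (41 / 320) (-(13 / 320)) (13 / 320) := by
  cases β <;> simp only [pvufA, pvufX, pvufQ] <;> rintro w (⟨a, b, c, d⟩ | ⟨a, b, c, d⟩) <;> exact ⟨by linarith, by linarith, by linarith, by linarith⟩

theorem pvuf_A_box_m (β : Bool) : pvufA false β ⊆ rswRect (-(41 / 320)) (-(3 / 320)) (-(13 / 320)) (13 / 320) := by
  cases β <;> simp only [pvufA, pvufX, pvufQ] <;> rintro w (⟨a, b, c, d⟩ | ⟨a, b, c, d⟩) <;> exact ⟨by linarith, by linarith, by linarith, by linarith⟩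

/-- **the carrier lies `5ρ` inside the corridor** -/
theorem pvuf_G_ball (β : Bool) (τ : PvtTurn) {z : ℂ} (hz : z ∈ pvufG β τ) : closedBall z (5 / 640) ⊆ pvkgU τ := by
  rcases hz with (hz | hz) | hz
  · exact (pvuf_ball_box (pvuf_A_box_p β hz) (by norm_num) (by norm_num) (by norm_num) (by norm_num)).trans subset_union_left
  · rw [pvuf_L_U] at hz
    have hs : (0 : ℝ) < 1 / 320 := by norm_num
    cases β <;> cases τ <;> simp only [pvufW, pvuf_U_union] at hz <;> rcases hz with hz | hz <;> rw [pvuf_U_R hs (by norm_num) (by norm_num)] at hz <;> push_cast at hz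
    · exact fun w hw => (fun h : w ∈ pvkgB 0 1 (-(1 / 16)) (1 / 16) => pvuf_mem_U_S h.1 h.2.1 h.2.2.1 h.2.2.2)
        (pvuf_ball_box hz (by norm_num) (by norm_num) (by norm_num) (by norm_num) hw)
    · exact fun w hw => (fun h : w ∈ pvkgB 0 1 (-(1 / 16)) (1 / 16) => pvuf_mem_U_S h.1 h.2.1 h.2.2.1 h.2.2.2)
        (pvuf_ball_box hz (by norm_num) (by norm_num) (by norm_num) (by norm_num) hw)
    · exact (pvuf_ball_box hz (by norm_num) (by norm_num) (by norm_num) (by norm_num)).trans subset_union_left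
    · rw [pvkgg_U_L]
      exact (pvuf_ball_box hz (by norm_num) (by norm_num) (by norm_num) (by norm_num)).trans subset_union_right
    · exact (pvuf_ball_box hz (by norm_num) (by norm_num) (by norm_num) (by norm_num)).trans subset_union_left
    · rw [pvkgg_U_R]
      exact (pvuf_ball_box hz (by norm_num) (by norm_num) (by norm_num) (by norm_num)).trans subset_union_right
    · exact fun w hw => (fun h : w ∈ pvkgB 0 1 (-(1 / 16)) (1 / 16) => pvuf_mem_U_S h.1 h.2.1 h.2.2.1 h.2.2.2)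
        (pvuf_ball_box hz (by norm_num) (by norm_num) (by norm_num) (by norm_num) hw)
    · exact fun w hw => (fun h : w ∈ pvkgB 0 1 (-(1 / 16)) (1 / 16) => pvuf_mem_U_S h.1 h.2.1 h.2.2.1 h.2.2.2)
        (pvuf_ball_box hz (by norm_num) (by norm_num) (by norm_num) (by norm_num) hw)
    · exact (pvuf_ball_box hz (by norm_num) (by norm_num) (by norm_num) (by norm_num)).trans subset_union_left
    · rw [pvkgg_U_L]
      exact (pvuf_ball_box hz (by norm_num) (by norm_num) (by norm_num) (by norm_num)).trans subset_union_right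
    · exact (pvuf_ball_box hz (by norm_num) (by norm_num) (by norm_num) (by norm_num)).trans subset_union_left
    · rw [pvkgg_U_R]
      exact (pvuf_ball_box hz (by norm_num) (by norm_num) (by norm_num) (by norm_num)).trans subset_union_right
  · obtain ⟨v, hv, rfl⟩ := hz
    exact (pvuf_ball_at τ (pvuf_ball_box (pvuf_A_box_m β hv) (by norm_num) (by norm_num) (by norm_num) (by norm_num))).trans subset_union_right

/-- the carrier lies in the `5ρ`-core of the window of the link -/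
theorem pvuf_G_core (β : Bool) (τ : PvtTurn) : pvufG β τ ⊆ pvtrCore (5 / 640) (pvkgEa τ) :=
  fun _ hz => (pvuf_G_ball β τ hz).trans fun _ hw => Or.inl (Or.inr hw)

/-- **the closed `2ρ`-neighbourhood of the carrier lies in the room `Co τ` of the run** -/
theorem pvuf_G_co (β : Bool) (τ : PvtTurn) {z w : ℂ} (hz : z ∈ pvufG β τ) (hw : ‖w - z‖ ≤ 1 / 320) : w ∈ pvkgG.Co τ := by
  have hb := pvuf_G_ball β τ hz
  have hwU : w ∈ pvkgU τ := hb (by rw [mem_closedBall, Complex.dist_eq]; linarith)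
  obtain ⟨a, b, c, d⟩ := pvkgg_U_cell τ hwU
  refine ⟨⟨a.le, b, by linarith, by linarith⟩, fun v hv => Or.inl (Or.inr (hb ?_))⟩
  rw [mem_closedBall, Complex.dist_eq] at hv ⊢
  calc ‖v - z‖ = ‖(v - w) + (w - z)‖ := by ring_nf
    _ ≤ ‖v - w‖ + ‖w - z‖ := norm_add_le _ _
    _ ≤ 5 / 640 := by linarith

/-- off the door square, the region of the exit side paths lies in the zone of its colour -/
theorem pvuf_A_K_p (β : Bool) (τ : PvtTurn) : pvufA true β \ pvkgO ⊆ pvufK β τ := by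
  rintro w ⟨hw, hO⟩
  have hO' : ¬ (-(13 / 160) < w.re ∧ w.re < 13 / 160 ∧ -(13 / 160) < w.im ∧ w.im < 13 / 160) := hO
  cases β <;> simp only [pvufA, pvufX, pvufQ] at hw <;> rcases hw with ⟨a, b, c, d⟩ | ⟨a, b, c, d⟩
  · exact absurd ⟨by linarith, by linarith, by linarith, by linarith⟩ hO'
  · cases τ
    · exact (show w.im < 0 by linarith)
    · exact Or.inl (show w.im < 0 by linarith)
    · exact ⟨show w.im < 0 by linarith, show w.re < 1 / 2 by linarith⟩
  · exact absurd ⟨by linarith, by linarith, by linarith, by linarith⟩ hO'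
  · cases τ
    · exact (show 0 < w.im by linarith)
    · exact ⟨show 0 < w.im by linarith, show w.re < 1 / 2 by linarith⟩
    · exact Or.inl (show 0 < w.im by linarith)

/-- off the exit door square, the placed region of the entrance side paths lies in the zone of its colour -/
theorem pvuf_A_K_m (β : Bool) (τ : PvtTurn) : pvkdAt τ.mid τ.rot (pvufA false β) \ pvkgOx τ ⊆ pvufK β τ := by
  rintro w ⟨hw, hO⟩
  cases β <;> cases τ <;> simp only [pvufA, pvufX, pvufQ, pvkgg_at_union, pvuf_at_S, pvuf_at_L, pvuf_at_R] at hw <;> rcases hw with ⟨a, b, c, d⟩ | ⟨a, b, c, d⟩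
  · rw [pvkgg_Ox_S] at hO
    exact absurd ⟨by linarith, by linarith, by linarith, by linarith⟩ hO
  · exact (show w.im < 0 by linarith)
  · rw [pvkgg_Ox_L] at hO
    exact absurd ⟨by linarith, by linarith, by linarith, by linarith⟩ hO
  · exact Or.inr (show 1 / 2 < w.re by linarith)
  · rw [pvkgg_Ox_R] at hO
    exact absurd ⟨by linarith, by linarith, by linarith, by linarith⟩ hO
  · exact ⟨show w.im < 0 by linarith, show w.re < 1 / 2 by linarith⟩
  · rw [pvkgg_Ox_S] at hO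
    exact absurd ⟨by linarith, by linarith, by linarith, by linarith⟩ hO
  · exact (show 0 < w.im by linarith)
  · rw [pvkgg_Ox_L] at hO
    exact absurd ⟨by linarith, by linarith, by linarith, by linarith⟩ hO
  · exact ⟨show 0 < w.im by linarith, show w.re < 1 / 2 by linarith⟩
  · rw [pvkgg_Ox_R] at hO
    exact absurd ⟨by linarith, by linarith, by linarith, by linarith⟩ hO
  · exact Or.inr (show 1 / 2 < w.re by linarith)

end Claimed.Agent.R289
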