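-- KEEP
import Claimed.Agent.R289.Tr.KitI

/-!
# Row 289 (S0537), THE WALL, chapter E (cells), file Tr/RunOut : A RUN NEVER ENTERS THE GATES      (helper181, offer of helper34 10:58Z; prefix `pvkk_run`, `pvkkRun`)

MODEL FREE (`Tr/GateB` of 260, `Tr/LaneDet` of 70, `Tr/KitI` of 244).      The clause `PvkiGR.out` (the sites of the runs lie on the closed outside of all the gates) is NOT a clause of `PvkdLink` (34): it FOLLOWS from the rooms.
* **`pvkk_run_out`** : `γ` ANY gate, a run `a → a₁` in `K` which starts outside `γ`;   the entrance `aIn` of `γ` is the target of the run or `g⁻(γ) ∉ K`;   `g⁺(γ) ∉ K`, or (`γ` is `Thru`, finite, `g⁻(γ) ∉ K`, the target is outside `γ`).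
          Then the run is a run in `K ∩ VOf γ.c.Right`.      (A first entrance is `aIn` or `bIn` (`pvtg_in_iff`);  `aIn` has source `g⁻`;  `bIn` has source `g⁺`;  after `bIn` the strand leaves by `bOut`, source `g⁻`.)
* `pvkk_run_src`, `pvkk_run_tgt`, `pvkk_run_third` : the source gate, the target gate, the other gates.
* `pvkkRunK g K n j` `= K j ∩ ⋂_{i<n} VOf (g i).c.Right`,   **`pvkkRunGR`** : gates + runs + rooms (`g⁻(i) ∈ K j` only for the target, `g⁺(i) ∈ K j` only for the source) ⟹ `PvkiGR T s n`.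
-/

set_option autoImplicit false
set_option linter.unusedSectionVars false

namespace Claimed.Agent.R289

open Set

section runout

variable {V D : Type} {T : PvMap V D} {s : V → Bool}

/-- **A RUN NEVER ENTERS A GATE** -/
theorem pvkk_run_out (hT : T.IsSph) (γ : T.Gate s) {K : Set V} {a a₁ : D} (h0 : pvasBW T s a) (h : PvldRun T s K a a₁) (ha : a ∉ γ.c.Left)
    (h1 : γ.aIn = a₁ ∨ γ.vm ∉ K) (h2 : γ.vp ∉ K ∨ (γ.Thru ∧ γ.c.Left.Finite ∧ γ.vm ∉ K ∧ a₁ ∉ γ.c.Left)) :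
    PvldRun T s (K ∩ T.VOf γ.c.Right) a a₁ := by
  obtain ⟨hR, -, -, -⟩ := pl_jordan hT γ.c
  have hA : T.FaceSet γ.c.Left := pl_left_face γ.c
  obtain ⟨r1, r2, r3⟩ := pvld_run_hit h
  obtain ⟨l1, -⟩ := pvld_run_lay h
  have hmin : ∀ i, i < pvasHit T s a {a₁} → pvasIt T s a i ≠ a₁ := fun i hi => by simpa using pvas_hit_min hi
  have hsrc : ∀ i, i ≤ pvasHit T s a {a₁} → T.src (pvasIt T s a i) ∈ K := fun i hi => l1 ⟨i, hi, rfl⟩
  have key : ∀ i, i < pvasHit T s a {a₁} → pvasIt T s a i ∉ γ.c.Left := by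
    intro i
    induction i with
    | zero => intro _; exact ha
    | succ i ih =>
      intro hi hc
      have hp := ih (Nat.lt_of_succ_lt hi)
      have hopp : T.opp (pvasIt T s a (i + 1)) ∉ γ.c.Left := by
        rw [pvas_it_succ]
        rcases pvas_step_cases s (pvasIt T s a i) with ⟨-, e⟩ | ⟨-, e⟩
        · rw [e, T.opp_opp]; exact fun hx => hp ((hA _).1 hx)
        · rw [e, T.opp_opp]; exact fun hx => hp ((hA _).1 ((hA _).1 hx))
      have hin : pvasIn T γ.c.Left s (pvasIt T s a (i + 1)) := ⟨hc, hopp, pvas_it_bw h0 _⟩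
      rcases (pvtg_in_iff hT γ _).1 hin with e | e
      · rcases h1 with h1 | h1
        · exact hmin _ hi (e.trans h1)
        · refine h1 ?_
          rw [← pvtg_aIn_src γ, ← e]
          exact hsrc _ hi.le
      · rcases h2 with h2 | ⟨t1, t2, t3, t4⟩
        · refine h2 ?_
          rw [← pvtg_bIn_src γ, ← e]
          exact hsrc _ hi.le
        · have hb : pvasIn T γ.c.Left s γ.bIn := e ▸ hin
          obtain ⟨-, x2, -⟩ := pvas_exit_spec hA t2 hb
          have hex : pvasExit T γ.c.Left s γ.bIn = γ.bOut := by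
            rcases pvtg_exit hT γ t2 with ⟨-, q⟩ | ⟨q, -⟩
            · exact q
            · exact absurd (t1.symm.trans q) (pvtg_aOut_ne_bOut γ)
          have hadd : ∀ j, pvasIt T s a (i + 1 + j) = pvasIt T s γ.bIn j := fun j => by rw [pvas_it_add, e]
          by_cases hM : i + 1 + pvasHit T s γ.bIn γ.c.Leftᶜ ≤ pvasHit T s a {a₁}
          · refine t3 ?_
            have := hsrc _ hM
            rw [hadd] at this
            have e2 : pvasIt T s γ.bIn (pvasHit T s γ.bIn γ.c.Leftᶜ) = γ.bOut := hex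
            rwa [e2, pvtg_bOut_src] at this
          · obtain ⟨j, hj⟩ : ∃ j, pvasHit T s a {a₁} = i + 1 + j := ⟨pvasHit T s a {a₁} - (i + 1), by omega⟩
            refine t4 ?_
            rw [← r2, hj, hadd]
            exact x2 j (by omega)
  refine ⟨_, r1, r2, hmin, ?_⟩
  rintro v ⟨f, ⟨i, hi, hsf⟩, rfl⟩
  refine ⟨r3 ⟨f, ⟨i, hi, hsf⟩, rfl⟩, f, ?_, rfl⟩
  rw [hR]
  exact fun hf => key i hi (((hA.sf T hsf)).1 hf)

/-- the exit of a gate is outside -/
theorem pvkk_run_aOut (hT : T.IsSph) (g : T.Gate s) : g.aOut ∉ g.c.Left := ((pvtg_out_iff hT g g.aOut).2 (Or.inl rfl)).1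

/-- the entrance of a gate is inside -/
theorem pvkk_run_aIn (hT : T.IsSph) (g : T.Gate s) : g.aIn ∈ g.c.Left := ((pvtg_in_iff hT g g.aIn).2 (Or.inl rfl)).1

/-- the SOURCE gate -/
theorem pvkk_run_src (hT : T.IsSph) (g : T.Gate s) {K : Set V} {a₁ : D} (h : PvldRun T s K g.aOut a₁) (ht : g.Thru) (hfin : g.c.Left.Finite) (hm : g.vm ∉ K) (h1 : a₁ ∉ g.c.Left) :
    PvldRun T s (K ∩ T.VOf g.c.Right) g.aOut a₁ :=
  pvkk_run_out hT g (pvtg_aOut_bw g) h (pvkk_run_aOut hT g) (Or.inr hm) (Or.inr ⟨ht, hfin, hm, h1⟩)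

/-- the TARGET gate -/
theorem pvkk_run_tgt (hT : T.IsSph) (g' : T.Gate s) {K : Set V} {a : D} (h0 : pvasBW T s a) (h : PvldRun T s K a g'.aIn) (ha : a ∉ g'.c.Left) (hp : g'.vp ∉ K) :
    PvldRun T s (K ∩ T.VOf g'.c.Right) a g'.aIn :=
  pvkk_run_out hT g' h0 h ha (Or.inl rfl) (Or.inl hp)

/-- the OTHER gates -/
theorem pvkk_run_third (hT : T.IsSph) (γ : T.Gate s) {K : Set V} {a a₁ : D} (h0 : pvasBW T s a) (h : PvldRun T s K a a₁) (ha : a ∉ γ.c.Left) (hm : γ.vm ∉ K) (hp : γ.vp ∉ K) :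
    PvldRun T s (K ∩ T.VOf γ.c.Right) a a₁ :=
  pvkk_run_out hT γ h0 h ha (Or.inr hm) (Or.inl hp)

/-- the room of the run `j` cut down to the closed outside of all the gates -/
def pvkkRunK (g : ℕ → T.Gate s) (K : ℕ → Set V) (n j : ℕ) : Set V := {v | v ∈ K j ∧ ∀ i, i < n → v ∈ T.VOf (g i).c.Right}

theorem pvkk_run_eqns_cite : True := by
  have := @pvkkRunK.eq_1
  trivial

/-- a run which is a run in `K ∩ X i` for every `i` -/
theorem pvkk_run_inter {K : Set V} {a a₁ : D} {n : ℕ} {X : ℕ → Set V} (h : PvldRun T s K a a₁) (hX : ∀ i, i < n → PvldRun T s (K ∩ X i) a a₁) :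
    PvldRun T s {v | v ∈ K ∧ ∀ i, i < n → v ∈ X i} a a₁ := by
  obtain ⟨r1, r2, r3⟩ := pvld_run_hit h
  refine ⟨_, r1, r2, fun i hi => by simpa using pvas_hit_min hi, fun v hv => ⟨r3 hv, fun i hi => ?_⟩⟩
  exact ((pvld_run_hit (hX i hi)).2.2 hv).2

variable {n : ℕ}

/-- **the runs of a ring of gates stay on the closed outside of all the gates** -/
theorem pvkk_run_all (hT : T.IsSph) (hn : 2 ≤ n) (g : ℕ → T.Gate s) (K : ℕ → Set V) (per : g n = g 0) (fin : ∀ j, j < n → (g j).c.Left.Finite) (thru : ∀ j, j < n → (g j).Thru)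
    (run : ∀ j, j < n → PvldRun T s (K j) (g j).aOut (g (j + 1)).aIn)
    (GG : ∀ i j, i < n → j < n → i ≠ j → Disjoint (T.VOf (g i).c.Left) (T.VOf (g j).c.Left))
    (rm : ∀ i j, i < n → j < n → (g i).vm ∈ K j → g i = g (j + 1)) (rp : ∀ i j, i < n → j < n → (g i).vp ∈ K j → i = j) (rs : ∀ j, j < n → (g j).vm ∉ K j) :
    ∀ j, j < n → PvldRun T s (pvkkRunK g K n j) (g j).aOut (g (j + 1)).aIn := by
  intro j hj
  refine pvkk_run_inter (run j hj) fun i hi => ?_
  -- the next gate, with an index below `n`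
  obtain ⟨j', hj', hjj, e'⟩ : ∃ j', j' < n ∧ j' ≠ j ∧ g (j + 1) = g j' := by
    by_cases hlast : j + 1 = n
    · exact ⟨0, by omega, by omega, by rw [hlast, per]⟩
    · exact ⟨j + 1, by omega, by omega, rfl⟩
  have hvp : ∀ k, (g k).vp ∈ T.VOf (g k).c.Left := fun k => ⟨(g k).bIn, ((pvtg_in_iff hT (g k) _).2 (Or.inr rfl)).1, pvtg_bIn_src _⟩
  have hvm : ∀ k, (g k).vm ∈ T.VOf (g k).c.Left := fun k => ⟨(g k).aIn, pvkk_run_aIn hT _, pvtg_aIn_src _⟩
  have ha : (g j).aOut ∉ (g i).c.Left := by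
    by_cases hij : i = j
    · rw [hij]; exact pvkk_run_aOut hT _
    · exact fun hc => Set.disjoint_left.1 (GG i j hi hj hij) ⟨_, hc, pvtg_aOut_src _⟩ (hvp j)
  refine pvkk_run_out hT (g i) (pvtg_aOut_bw _) (run j hj) ha ?_ ?_
  · by_cases hm : (g i).vm ∈ K j
    · exact Or.inl (by rw [rm i j hi hj hm])
    · exact Or.inr hm
  · by_cases hp : (g i).vp ∈ K j
    · have hij := rp i j hi hj hp
      subst hij
      refine Or.inr ⟨thru i hi, fin i hi, rs i hi, fun hc => ?_⟩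
      rw [e'] at hc
      exact Set.disjoint_left.1 (GG i j' hi hj' (Ne.symm hjj)) ⟨_, hc, pvtg_aIn_src _⟩ (hvm j')
    · exact Or.inl hp

/-- **GATES + RUNS + ROOMS ⟹ `PvkiGR`** (the clause `out` is free) -/
def pvkkRunGR (hT : T.IsSph) (hn : 2 ≤ n) (g : ℕ → T.Gate s) (K : ℕ → Set V) (per : g n = g 0) (fin : ∀ j, j < n → (g j).c.Left.Finite) (thru : ∀ j, j < n → (g j).Thru)
    (run : ∀ j, j < n → PvldRun T s (K j) (g j).aOut (g (j + 1)).aIn)
    (KK : ∀ i j, i < n → j < n → i ≠ j → ∀ v, v ∈ K i → v ∈ K j → s v = false)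
    (GG : ∀ i j, i < n → j < n → i ≠ j → Disjoint (T.VOf (g i).c.Left) (T.VOf (g j).c.Left))
    (rm : ∀ i j, i < n → j < n → (g i).vm ∈ K j → g i = g (j + 1)) (rp : ∀ i j, i < n → j < n → (g i).vp ∈ K j → i = j) (rs : ∀ j, j < n → (g j).vm ∉ K j) :
    PvkiGR T s n where
  g := g
  K := pvkkRunK g K n
  per := per
  fin := fin
  thru := thru
  run := pvkk_run_all hT hn g K per fin thru run GG rm rp rs
  out := fun i _ hi _ _ hv => hv.2 i hi
  KK := fun i j hi hj hij v hv hv' => KK i j hi hj hij v hv.1 hv'.1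
  GG := GG

theorem pvkk_run_eqns_cite2 : True := by
  have := @pvkkRunGR.eq_1
  trivial

end runout

end Claimed.Agent.R289
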