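-- KEEP
import Claimed.Agent.R289.Tr.PlugK
import Claimed.Agent.R289.Tr.ForceI
import Claimed.Agent.R289.Tr.RunOut

/-!
# Row 289 (S0537), THE WALL, chapter E (cells), file Tr/FrcDetL : **(DET) OF ROUTE Q, THE GEOMETRY-FREE CORE**      (helper294, second of helper204, order of helper34; prefix `pvdt_`, `Pvdt`)      0 sorry

CONSUMER: the field `det` of `PvcjOk` (52, `Tr/PlugFrcQ.lean`) at the datum `𝔤.glob Hf` of `Tr/PlugK.lean` v3:   `C ∩ C' ∩ S⁺ ∩ S⁻ ∩ Net ∩ E ⊆ A τ = NA ∩ {∃ g g' N, Link}`      (pen of the instance: 204, `Tr/FrcDet.lean`).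
Everything here is DETERMINISTIC, at ONE configuration `η` with `CfOK η`, on the plane map `pvkiT η`; the regions are ARBITRARY sets of `ℂ` (marks `κ = ℂ`, `mk = Subtype.val`), no number, no frame.
TOOLS (0 sorry on main): `pvld_exist`, `pvld_out_strand` (70), `pvkk_run_src`, `pvkk_run_tgt` (181), `pvgeKV`, `pvge_map_co_join` (29), `pvnk_join_sites`, `pvfp_lane_glue` (272), `PvzlGt`, `PvzlRun` (173).
* sec. 1  the plane map: `pvdt_edge` (`EdgeIn univ = DelAdj`), `pvdt_join_iff` (`Join` of `pvkiT η` = `Join` of `delMap`), `pvdt_pts` (colour of a site).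
* sec. 2  **(L1) `pvdt_lane_path`** : a GRAPH LANE (`Join` through sites of the colour `β` with POSITION in `Rm`), mesh `ρ` on `E`, `Rm ⊆ pvtrCore (3ρ) E`   ⟹   `JoinedIn (pvlnReg β η ∩ vorNbd Rm ρ)`.
* sec. 3  **(L2) `pvdt_path_join`** : a path of `pvlnReg β η ∩ U` between two sites   ⟹   `Join` through the sites of colour `β` of `K := pvgeKV Y KEᶜ` (the sites whose CELL lies in `KE`);   `pvdtK`.
* sec. 4  **(L3) `pvdt_out`** : the hypothesis OUT of `pvld_exist`, along the through strand of the gate left behind.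
* sec. 5  **(L4) `pvdt_run`** : two gates of record + black path `g⁺ → g'⁻` + white path + mesh + `PvdtGeo`   ⟹   `∃ N, PvzlRun .. KE g g' N`.
* sec. 6  **`pvdt_det`** (ONE STOP): two gates of record, the four GRAPH half lanes, the two networks of 272, four hook zones   ⟹   `∃ N, PvzlRun`;      **`pvdt_link`**, **`pvdt_A`** : the forms `𝔤.Link`, `𝔤.A` of `Tr/PlugK`;      `pvdt_mesh3` (mesh of a union of three windows: THE SEAM).
-/

set_option autoImplicit false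
set_option linter.unusedSectionVars false
set_option linter.unusedVariables false

namespace Claimed.Agent.R289

open Set Metric Relation

/-! ## 1. the plane map -/

section plane

variable {η : Conf PvPt}

/-- the edges of the plane map are the Delaunay adjacencies -/
theorem pvdt_edge (h : DelGood (cfSites η)) (a b : ↥(cfSites η)) : (pvkiT η).EdgeIn univ a b ↔ DelAdj (cfSites η) a b := by
  constructor
  · rintro ⟨d, -, rfl, rfl⟩
    exact d.2.2
  · intro hab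
    exact ⟨⟨(a, b), h, hab⟩, Or.inl (mem_univ _), rfl, rfl⟩

/-- `Join` on the total plane map and on `delMap` -/
theorem pvdt_join_iff (h : DelGood (cfSites η)) (X : Set ↥(cfSites η)) (a b : ↥(cfSites η)) : (pvkiT η).Join univ X a b ↔ (delMap h).Join univ X a b := by
  constructor
  · rintro ⟨ha, hj⟩
    exact ⟨ha, ReflTransGen.mono (fun u v huv => ⟨(dls_edgeIn_univ h u v).2 ((pvdt_edge h u v).1 huv.1), huv.2⟩) _ _ hj⟩
  · rintro ⟨ha, hj⟩
    exact ⟨ha, ReflTransGen.mono (fun u v huv => ⟨(pvdt_edge h u v).2 ((dls_edgeIn_univ h u v).1 huv.1), huv.2⟩) _ _ hj⟩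

/-- a site with its colour is a point of the configuration -/
theorem pvdt_pts (hn : CfOK η) (v : ↥(cfSites η)) : ((v : ℂ), pvkiS η v) ∈ η.pts := by
  have h1 : ((v : ℂ), pvkiS η v) ∈ (cfOf (cfSites η) (cfCol η)).pts := cfOf_mem.2 ⟨v.2, rfl⟩
  rw [← pvnk_cfOf hn] at h1
  exact h1

/-- the cell of a site of the colour `c` lies in the region of the colour `c`      (own copies of four lemmas of 272, `Tr/EndP` sec. 0: this file does not depend on `Tr/EndP`) -/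
theorem pvdt_cell_reg {c : Bool} {a : ℂ} (ha : (a, c) ∈ η.pts) : vorCell (cfSites η) a ⊆ pvlnReg c η := by
  intro z hz
  refine ⟨a, ?_, fun b hb => hz b ?_⟩
  · cases c <;> exact ha
  · cases c <;> exact ⟨(b, _), hb, rfl⟩

/-- two sites of the colour `c` whose cells touch are joined in the region of the colour `c`, inside the two cells -/
theorem pvdt_adj_joined {c : Bool} {a b : ℂ} {U : Set ℂ} (ha : (a, c) ∈ η.pts) (hb : (b, c) ∈ η.pts) (hab : (vorCell (cfSites η) a ∩ vorCell (cfSites η) b).Nonempty)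
    (ca : vorCell (cfSites η) a ⊆ U) (cb : vorCell (cfSites η) b ⊆ U) : JoinedIn (pvlnReg c η ∩ U) a b := by
  obtain ⟨w, hwa, hwb⟩ := hab
  have j1 : JoinedIn (vorCell (cfSites η) a) a w := ((vor_convex_cell _ a).isPathConnected ⟨a, vor_self_mem _ a⟩).joinedIn a (vor_self_mem _ a) w hwa
  have j2 : JoinedIn (vorCell (cfSites η) b) w b := ((vor_convex_cell _ b).isPathConnected ⟨b, vor_self_mem _ b⟩).joinedIn w hwb b (vor_self_mem _ b)
  exact (j1.mono (subset_inter (pvdt_cell_reg ha) ca)).trans (j2.mono (subset_inter (pvdt_cell_reg hb) cb))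

/-- under the mesh of a window the cell of a site deep in the window is small -/
theorem pvdt_cell_ball {Y E : Set ℂ} {ρ : ℝ} (hρ : 0 < ρ) (hm : PvtrMesh ρ E Y) {a : ℂ} (ha : a ∈ pvtrCore (3 * ρ) E) : vorCell Y a ⊆ closedBall a ρ := by
  refine vor_cell_subset_ball hρ.le (R := 2 * ρ) (by linarith) (hm.mono Subset.rfl ?_ le_rfl)
  exact pvtr_ball_core (by rw [show ρ + 2 * ρ = 3 * ρ by ring]; exact ha)

end plane

/-! ## 2. (L1) a graph lane is a path of the region of its colour -/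

section lane

variable {η : Conf PvPt}

/-- **(L1)** -/
theorem pvdt_lane_path (hn : CfOK η) {ρ : ℝ} (hρ : 0 < ρ) {E : Set ℂ} (hm : PvtrMesh ρ E (cfSites η)) {Rm : Set ℂ} (hR : Rm ⊆ pvtrCore (3 * ρ) E) {β : Bool}
    {u v : ↥(cfSites η)} (h : (pvkiT η).Join univ (pvldCol (pvkiS η) {w | (w : ℂ) ∈ Rm} β) u v) : JoinedIn (pvlnReg β η ∩ vorNbd Rm ρ) (u : ℂ) (v : ℂ) := by
  have hcell : ∀ w : ↥(cfSites η), (w : ℂ) ∈ Rm → vorCell (cfSites η) w ⊆ vorNbd Rm ρ := by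
    intro w hw x hx
    refine ⟨_, hw, ?_⟩
    have := pvdt_cell_ball hρ hm (hR hw) hx
    rwa [mem_closedBall, dist_eq_norm] at this
  have hpt : ∀ w : ↥(cfSites η), w ∈ pvldCol (pvkiS η) {w | (w : ℂ) ∈ Rm} β → ((w : ℂ), β) ∈ η.pts := by
    intro w hw
    have := pvdt_pts hn w
    rwa [hw.2] at this
  obtain ⟨hu, hj⟩ := h
  have key : ∀ w, ReflTransGen (fun a b => (pvkiT η).EdgeIn univ a b ∧ b ∈ pvldCol (pvkiS η) {w | (w : ℂ) ∈ Rm} β) u w →
      w ∈ pvldCol (pvkiS η) {w | (w : ℂ) ∈ Rm} β ∧ JoinedIn (pvlnReg β η ∩ vorNbd Rm ρ) (u : ℂ) (w : ℂ) := by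
    intro w hw
    induction hw with
    | refl => exact ⟨hu, JoinedIn.refl ⟨pvdt_cell_reg (hpt u hu) (vor_self_mem _ _), hcell u hu.1 (vor_self_mem _ _)⟩⟩
    | @tail a b _ hab ih =>
      refine ⟨hab.2, ih.2.trans ?_⟩
      have hadj := (pvdt_edge hn.del a b).1 hab.1
      exact pvdt_adj_joined (hpt a ih.1) (hpt b hab.2) hadj.2.2.2 (hcell a ih.1.1) (hcell b hab.2.1)
  exact (key v hj).2

end lane

/-! ## 3. (L2) back to the sites, inside the vertex region of record -/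

/-- **the vertex region of record** of a run in the room `KE`: the sites whose Voronoi cell lies in `KE`      (29: EXACT co-connectedness) -/
def pvdtK (η : Conf PvPt) (KE : Set ℂ) : Set ↥(cfSites η) := pvgeKV (cfSites η) KEᶜ

theorem pvdt_eqns_cite : True := by
  have := @pvdtK.eq_1
  trivial

section back

variable {η : Conf PvPt} {KE : Set ℂ}

theorem pvdt_K_pos {v : ↥(cfSites η)} (hv : v ∈ pvdtK η KE) : (v : ℂ) ∈ KE := by
  have := (pvge_K_sub _ _ hv).2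
  rwa [mem_compl_iff, not_not] at this

theorem pvdt_K_finite (lf : VorLF (cfSites η)) (hb : Bornology.IsBounded KE) : (pvdtK η KE).Finite :=
  pvge_KV_finite (pvge_K_finite lf (by rwa [compl_compl]))

/-- a site deep in the window and in the room belongs to the region of record -/
theorem pvdt_K_mem {ρ : ℝ} (hρ : 0 < ρ) {E : Set ℂ} (hm : PvtrMesh ρ E (cfSites η)) {v : ↥(cfSites η)} (h3 : (v : ℂ) ∈ pvtrCore (3 * ρ) E) (hK : closedBall (v : ℂ) ρ ⊆ KE) :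
    v ∈ pvdtK η KE :=
  ⟨v.2, disjoint_left.2 fun x hx hx' => hx' (hK (pvdt_cell_ball hρ hm h3 hx))⟩

theorem pvdt_K_co (h : DelGood (cfSites η)) (hS : IsPreconnected KEᶜ) (u v : ↥(cfSites η)) (hu : u ∉ pvdtK η KE) (hv : v ∉ pvdtK η KE) :
    (pvkiT η).Join univ (pvdtK η KE)ᶜ u v := (pvdt_join_iff h _ _ _).2 (pvge_map_co_join h hS u v hu hv)

/-- **(L2)** -/
theorem pvdt_path_join (hn : CfOK η) {ρ : ℝ} (hρ : 0 < ρ) {E : Set ℂ} (hm : PvtrMesh ρ E (cfSites η)) {U : Set ℂ} (hUE : ∀ z ∈ U, closedBall z (5 * ρ) ⊆ E)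
    (hUK : ∀ z ∈ U, closedBall z (3 * ρ) ⊆ KE) {β : Bool} {x y : ↥(cfSites η)} (h : JoinedIn (pvlnReg β η ∩ U) (x : ℂ) (y : ℂ)) :
    (pvkiT η).Join univ (pvldCol (pvkiS η) (pvdtK η KE) β) x y := by
  have hnet : ∀ z ∈ U, ∃ s ∈ cfSites η, ‖s - z‖ < 2 * ρ := by
    intro z hz
    obtain ⟨s, hs, hsz⟩ := hm z (fun w hw => hUE z hz (closedBall_subset_closedBall (by linarith) hw))
    exact ⟨s, hs, by rw [norm_sub_rev]; linarith⟩
  have hj := pvnk_join_sites hn β (W := {w | ∃ z ∈ U, ‖w - z‖ < 2 * ρ}) hnet (fun z hz w hw => ⟨z, hz, hw⟩) x.2 y.2 h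
  have hsub : pvkqV (cfSites η) (cfCol η) β {w | ∃ z ∈ U, ‖w - z‖ < 2 * ρ} ⊆ pvldCol (pvkiS η) (pvdtK η KE) β := by
    rintro v ⟨hc, z, hz, hvz⟩
    refine ⟨pvdt_K_mem hρ hm ?_ ?_, hc⟩
    · intro w hw
      refine hUE z hz ?_
      rw [mem_closedBall, dist_eq_norm] at hw ⊢
      calc ‖w - z‖ = ‖(w - v) + (v - z)‖ := by ring_nf
        _ ≤ ‖w - v‖ + ‖(v : ℂ) - z‖ := norm_add_le _ _
        _ ≤ 5 * ρ := by linarith
    · intro w hw
      refine hUK z hz ?_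
      rw [mem_closedBall, dist_eq_norm] at hw ⊢
      calc ‖w - z‖ = ‖(w - v) + (v - z)‖ := by ring_nf
        _ ≤ ‖w - v‖ + ‖(v : ℂ) - z‖ := norm_add_le _ _
        _ ≤ 3 * ρ := by linarith
  have hj' := (pvdt_join_iff hn.del _ _ _).2 hj
  exact ⟨hsub hj'.1, ReflTransGen.mono (fun a b hab => ⟨hab.1, hsub hab.2⟩) _ _ hj'.2⟩

end back

/-! ## 4. (L3) OUT along the through strand -/

section out

variable {κ V D : Type} {T : PvMap V D} {mk : V → κ} {s : V → Bool}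

/-- **(L3)**: the through strand of the gate left behind starts at `g⁻ ∉ K`, stays inside the gate; the target `a₁` is not inside the gate -/
theorem pvdt_out {KT : Set κ} {g : T.Gate s} {N : ℕ} (ht : PvzlThru T mk s KT g N) {K : Set V} {a₁ : D} (h1 : pvasBW T s a₁) (hm : g.vm ∉ K) (ha : a₁ ∉ g.c.Left) :
    ∃ f, T.src f ∉ K ∧ T.DJoin (pvldBar T s K g.aOut a₁) (T.opp g.aOut) f := by
  refine pvld_out_strand h1 (pvtg_aIn_bw g) ht.2.1 (fun i hi => ⟨ht.2.2.1 i hi, fun e => ha (e ▸ ht.2.2.2.1 i hi)⟩) fun hsub => hm (hsub ?_)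
  rw [pvas_fc_verts s g.aIn ht.1]
  exact Or.inl ⟨0, Nat.zero_le _, rfl⟩

end out

/-! ## 5. (L4) two gates of record, two lanes in the region of record: the run of the link -/

/-- **WHAT THE REGIONS OWE FOR (DET)**: `p`, `p'` = the marks of the two placed plugs, `KE` = the placed room of the run -/
structure PvdtGeo (p p' : PvzlPg ℂ) (KE : Set ℂ) : Prop where
  /-- the room is bounded, its complement is connected -/
  bdd : Bornology.IsBounded KE
  co : IsPreconnected KEᶜ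
  /-- the outer disc of the plug left behind is bounded, the two outer discs are disjoint -/
  bO : Bornology.IsBounded p.KO
  far : Disjoint p.KO p'.KO
  /-- `g⁻` of the plug left behind and `g⁺` of the plug ahead are off the room -/
  m_off : Disjoint p.Km KE
  p_off : Disjoint p'.Kp KE

section run

variable {η : Conf PvPt} {p p' : PvzlPg ℂ} {KE : Set ℂ}

/-- the sites in a bounded set -/
theorem pvdt_fin_sites (lf : VorLF (cfSites η)) {B : Set ℂ} (hB : Bornology.IsBounded B) : {v : ↥(cfSites η) | (v : ℂ) ∈ B}.Finite := by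
  obtain ⟨R, hR⟩ := hB.subset_closedBall (0 : ℂ)
  exact ((lf R).preimage Subtype.val_injective.injOn).subset fun v hv => ⟨v.2, hR hv⟩

/-- **(L4)**, colour blind hypothesis `DelGood` -/
theorem pvdt_run_good (hd : DelGood (cfSites η)) (G : PvdtGeo p p' KE) {g g' : (pvkiT η).Gate (pvkiS η)} (hg : PvzlGt (pvkiT η) Subtype.val (pvkiS η) p g)
    (hg' : PvzlGt (pvkiT η) Subtype.val (pvkiS η) p' g') (hB : (pvkiT η).Join univ (pvldCol (pvkiS η) (pvdtK η KE) true) g.vp g'.vm)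
    (hW : (pvkiT η).Join univ (pvldCol (pvkiS η) (pvdtK η KE) false) ((pvkiT η).tgt g.aOut) ((pvkiT η).tgt g'.aIn)) :
    ∃ N, PvzlRun (pvkiT η) Subtype.val (pvkiS η) KE g g' N := by
  have hT : (pvkiT η).IsSph := delb_plane_isSph hd
  obtain ⟨Nt, ht⟩ := hg.thru
  have hKfin := pvdt_K_finite (KE := KE) hd.lf G.bdd
  have vpO : ((g.vp : ↥(cfSites η)) : ℂ) ∈ p.KO := hg.least.reg.rim g.m
  have vmO' : ((g'.vm : ↥(cfSites η)) : ℂ) ∈ p'.KO := hg'.least.reg.rim 0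
  have hne : (pvkiT η).src g.aOut ≠ (pvkiT η).src g'.aIn := by
    rw [pvtg_aOut_src, pvtg_aIn_src]
    intro e
    rw [e] at vpO
    exact disjoint_left.1 G.far vpO vmO'
  have ha1 : g'.aIn ∉ g.c.Left := fun h => disjoint_left.1 G.far (hg.least.reg.outer _ h) vmO'
  have ha0 : g.aOut ∉ g'.c.Left := fun h => by
    have h2 := hg'.least.reg.outer _ h
    rw [pvtg_aOut_src] at h2
    exact disjoint_left.1 G.far vpO h2
  have hm : g.vm ∉ pvdtK η KE := fun h => disjoint_left.1 G.m_off hg.vm (pvdt_K_pos h)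
  have hp : g'.vp ∉ pvdtK η KE := fun h => disjoint_left.1 G.p_off hg'.vp (pvdt_K_pos h)
  have run : PvldRun (pvkiT η) (pvkiS η) (pvdtK η KE) g.aOut g'.aIn :=
    pvld_exist hT hKfin (pvtg_aOut_bw g) (pvtg_aIn_bw g') hne (by rw [pvtg_aOut_src, pvtg_aIn_src]; exact hB) hW (pvdt_K_co hd G.co)
      (pvdt_out ht (pvtg_aIn_bw g') hm ha1)
  have hfin : g.c.Left.Finite := pvld_finite hT (pvdt_fin_sites hd.lf G.bO) (by
    rintro v ⟨d, hd, rfl⟩
    exact hg.least.reg.outer d hd)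
  have r1 := pvkk_run_src hT g run (ht.len hT).2 hfin hm ha1
  have r2 := pvkk_run_tgt hT g' (pvtg_aOut_bw g) run ha0 hp
  obtain ⟨n1, n2, n3⟩ := pvld_run_hit run
  have hoff : ∀ (γ : (pvkiT η).Gate (pvkiS η)) (v : ↥(cfSites η)), v ∈ (pvkiT η).VOf γ.c.Right → v ∉ (pvkiT η).Int γ.c.Left := by
    rintro γ v ⟨d, hd, rfl⟩ hint
    rw [(pl_jordan hT γ.c).1] at hd
    exact hd (hint d rfl)
  refine ⟨pvasHit (pvkiT η) (pvkiS η) g.aOut {g'.aIn}, n1, n2, fun i hi => by simpa using pvas_hit_min hi, fun v hv => ⟨pvdt_K_pos (n3 hv), ?_, ?_⟩⟩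
  · exact hoff g v ((pvld_run_hit r1).2.2 hv).2
  · exact hoff g' v ((pvld_run_hit r2).2.2 hv).2

/-- **(L4)** -/
theorem pvdt_run (hn : CfOK η) (G : PvdtGeo p p' KE) {g g' : (pvkiT η).Gate (pvkiS η)} (hg : PvzlGt (pvkiT η) Subtype.val (pvkiS η) p g)
    (hg' : PvzlGt (pvkiT η) Subtype.val (pvkiS η) p' g') (hB : (pvkiT η).Join univ (pvldCol (pvkiS η) (pvdtK η KE) true) g.vp g'.vm)
    (hW : (pvkiT η).Join univ (pvldCol (pvkiS η) (pvdtK η KE) false) ((pvkiT η).tgt g.aOut) ((pvkiT η).tgt g'.aIn)) :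
    ∃ N, PvzlRun (pvkiT η) Subtype.val (pvkiS η) KE g g' N := pvdt_run_good hn.del G hg hg' hB hW

end run

/-! ## 6. ONE STOP: four graph half lanes + two networks -/

/-- **THE LAYOUT OF A LINK**, colour by colour (`β = true` black).      `E` = the window of the mesh `ρ`, `p p'` = the marks of the two placed plugs, `KE` = the placed room of the run, `δ` = side of the fine cells, `L β` = the FULL walk of the network of the colour `β`,
`Rm β`, `Dr β` = room and target of the EXIT half lane of the plug left behind, `Rm' β`, `Dr' β` = room and target of the ENTRANCE half lane of the plug ahead (all placed). -/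
structure PvdtLay (ρ : ℝ) (E : Set ℂ) (p p' : PvzlPg ℂ) (KE : Set ℂ) (δ : ℝ) (L : Bool → List (ℤ × ℤ)) (Rm Rm' Dr Dr' : Bool → Set ℂ) : Prop where
  geo : PvdtGeo p p' KE
  ρ_pos : 0 < ρ
  δ_pos : 0 < δ
  ne : ∀ β, L β ≠ []
  ch : ∀ β, (L β).IsChain PvlnAdj
  full : ∀ β, PvfpFull (L β)
  /-- the two thickened rooms and the network, with a collar `5ρ`, lie in the window of the mesh -/
  inE : ∀ β, ∀ z ∈ vorNbd (Rm β) ρ ∪ pvlnU δ (L β) ∪ vorNbd (Rm' β) ρ, closedBall z (5 * ρ) ⊆ E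
  /-- with a collar `3ρ`, in the room of the run -/
  inK : ∀ β, ∀ z ∈ vorNbd (Rm β) ρ ∪ pvlnU δ (L β) ∪ vorNbd (Rm' β) ρ, closedBall z (3 * ρ) ⊆ KE
  /-- the four hook zones of 272 (producers: `pvnd_zone`, `pvfp_zone_of_cells`); the feet are sites of the room which lie in the outer disc -/
  zone : ∀ β, PvfpZone δ {k | k ∈ L β} (vorNbd (Rm β) ρ) (Rm β ∩ p.KO) (Dr β)
  zone' : ∀ β, PvfpZone δ {k | k ∈ L β} (vorNbd (Rm' β) ρ) (Rm' β ∩ p'.KO) (Dr' β)

section det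

variable {η : Conf PvPt} {ρ : ℝ} {E : Set ℂ} {p p' : PvzlPg ℂ} {KE : Set ℂ} {δ : ℝ} {L : Bool → List (ℤ × ℤ)} {Rm Rm' Dr Dr' : Bool → Set ℂ}

/-- the four feet are vertices of the circuit -/
theorem pvdt_foot_rim {κ V D : Type} {T : PvMap V D} {mk : V → κ} {s : V → Bool} {KI KO : Set κ} {g : T.Gate s} (h : PvzlIn T mk KI KO g.c) (σ β : Bool) : mk (pvkdFoot g σ β) ∈ KO := by
  cases σ <;> cases β
  · show mk (T.tgt g.aIn) ∈ KO
    rw [pvtg_aIn_tgt]; exact h.rim 1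
  · exact h.rim 0
  · show mk (T.tgt g.aOut) ∈ KO
    rw [pvtg_aOut_tgt]; exact h.rim _
  · exact h.rim g.m

/-- one colour: the two half lanes and the network give a lane in the region of record -/
theorem pvdt_lane (hn : CfOK η) (hm : PvtrMesh ρ E (cfSites η)) (Λ : PvdtLay ρ E p p' KE δ L Rm Rm' Dr Dr') (β : Bool) (hnet : η ∈ pvlnLaneEv δ β (L β))
    {x x' v v' : ↥(cfSites η)} (hx : (x : ℂ) ∈ p.KO) (hx' : (x' : ℂ) ∈ p'.KO) (hv : (v : ℂ) ∈ Dr β) (hv' : (v' : ℂ) ∈ Dr' β)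
    (hj : (pvkiT η).Join univ (pvldCol (pvkiS η) {u | (u : ℂ) ∈ Rm β} β) x v) (hj' : (pvkiT η).Join univ (pvldCol (pvkiS η) {u | (u : ℂ) ∈ Rm' β} β) x' v') :
    (pvkiT η).Join univ (pvldCol (pvkiS η) (pvdtK η KE) β) x x' := by
  have hρ := Λ.ρ_pos
  have c1 : Rm β ⊆ pvtrCore (3 * ρ) E := fun z hz w hw =>
    Λ.inE β z (Or.inl (Or.inl ⟨z, hz, by simpa using hρ.le⟩)) (closedBall_subset_closedBall (by linarith) hw)
  have c2 : Rm' β ⊆ pvtrCore (3 * ρ) E := fun z hz w hw =>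
    Λ.inE β z (Or.inr ⟨z, hz, by simpa using hρ.le⟩) (closedBall_subset_closedBall (by linarith) hw)
  have P1 := pvdt_lane_path hn hρ hm c1 hj
  have P2 := pvdt_lane_path hn hρ hm c2 hj'
  have P := pvfp_lane_glue Λ.δ_pos (Λ.ne β) (Λ.ch β) (Λ.full β) hnet rfl (Λ.zone β) (Λ.zone' β) P1 ⟨hj.1.1, hx⟩ hv P2 ⟨hj'.1.1, hx'⟩ hv'
  exact pvdt_path_join hn hρ hm (Λ.inE β) (Λ.inK β) P

/-- **(DET), ONE STOP, in marks** -/
theorem pvdt_det (hn : CfOK η) (hm : PvtrMesh ρ E (cfSites η)) (Λ : PvdtLay ρ E p p' KE δ L Rm Rm' Dr Dr') (hnet : ∀ β, η ∈ pvlnLaneEv δ β (L β))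
    {g g' : (pvkiT η).Gate (pvkiS η)} (hg : PvzlGt (pvkiT η) Subtype.val (pvkiS η) p g) (hg' : PvzlGt (pvkiT η) Subtype.val (pvkiS η) p' g')
    (lane : ∀ β, ∃ v : ↥(cfSites η), (v : ℂ) ∈ Dr β ∧ (pvkiT η).Join univ (pvldCol (pvkiS η) {u | (u : ℂ) ∈ Rm β} β) (pvkdFoot g true β) v)
    (lane' : ∀ β, ∃ v : ↥(cfSites η), (v : ℂ) ∈ Dr' β ∧ (pvkiT η).Join univ (pvldCol (pvkiS η) {u | (u : ℂ) ∈ Rm' β} β) (pvkdFoot g' false β) v) :
    ∃ N, PvzlRun (pvkiT η) Subtype.val (pvkiS η) KE g g' N := by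
  have key : ∀ β, (pvkiT η).Join univ (pvldCol (pvkiS η) (pvdtK η KE) β) (pvkdFoot g true β) (pvkdFoot g' false β) := by
    intro β
    obtain ⟨v, hv, hj⟩ := lane β
    obtain ⟨v', hv', hj'⟩ := lane' β
    exact pvdt_lane hn hm Λ β (hnet β) (pvdt_foot_rim hg.least.reg true β) (pvdt_foot_rim hg'.least.reg false β) hv hv' hj hj'
  exact pvdt_run hn Λ.geo hg hg' (key true) (key false)

/-- **THE SEAM**: the mesh of a window whose `ρ`-core is covered by the `ρ`-cores of three windows -/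
theorem pvdt_mesh3 {Y E₁ E₂ E₃ : Set ℂ} (h : pvtrCore ρ E ⊆ pvtrCore ρ E₁ ∪ pvtrCore ρ E₂ ∪ pvtrCore ρ E₃) (h1 : PvtrMesh ρ E₁ Y) (h2 : PvtrMesh ρ E₂ Y) (h3 : PvtrMesh ρ E₃ Y) :
    PvtrMesh ρ E Y := by
  intro z hz
  rcases h hz with (hz | hz) | hz
  exacts [h1 z hz, h2 z hz, h3 z hz]

end det

/-! ### the forms of `Tr/PlugK` -/

section plugk

variable (𝔤 : PvkdGeo) (z d : ℂ) (τ : PvtTurn) {η : Conf PvPt} {δ : ℝ} {L : Bool → List (ℤ × ℤ)} {Rm Rm' Dr Dr' : Bool → Set ℂ}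

/-- the layout of the link of shape `τ` of the cell placed at `(z, d)` -/
def PvkdGeo.Lay (δ : ℝ) (L : Bool → List (ℤ × ℤ)) (Rm Rm' Dr Dr' : Bool → Set ℂ) : Prop :=
  PvdtLay 𝔤.ρ (pvkdAt z d (𝔤.Ea τ)) (𝔤.pg z d) (𝔤.pg (𝔤.zo z d τ) (d * τ.rot)) (pvkdAt z d (𝔤.Co τ)) δ L Rm Rm' Dr Dr'

theorem pvdt_eqns_cite2 : True := by
  have := @PvkdGeo.Lay.eq_1
  trivial

variable {𝔤 z d τ}

/-- **(DET)**: the link -/
theorem pvdt_link (hn : CfOK η) (hNA : η ∈ 𝔤.NA z d τ) (Λ : 𝔤.Lay z d τ δ L Rm Rm' Dr Dr') (hnet : ∀ β, η ∈ pvlnLaneEv δ β (L β))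
    {g g' : (pvkiT η).Gate (pvkiS η)} (hg : PvkdGate 𝔤.toPvkdPlug η z d g) (hg' : PvkdGate 𝔤.toPvkdPlug η (𝔤.zo z d τ) (d * τ.rot) g')
    (lane : ∀ β, ∃ v : ↥(cfSites η), (v : ℂ) ∈ Dr β ∧ (pvkiT η).Join univ (pvldCol (pvkiS η) {u | (u : ℂ) ∈ Rm β} β) (pvkdFoot g true β) v)
    (lane' : ∀ β, ∃ v : ↥(cfSites η), (v : ℂ) ∈ Dr' β ∧ (pvkiT η).Join univ (pvldCol (pvkiS η) {u | (u : ℂ) ∈ Rm' β} β) (pvkdFoot g' false β) v) :
    ∃ N, 𝔤.Link η z d τ g g' N := by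
  obtain ⟨N, hN⟩ := pvdt_det hn hNA.2 Λ hnet hg hg' lane lane'
  exact ⟨N, hg, hg', hN⟩

/-- **(DET)**: success of the link.      The two side events in JOINT form (one gate, both colours) -/
theorem pvdt_A (hn : CfOK η) (hNA : η ∈ 𝔤.NA z d τ) (Λ : 𝔤.Lay z d τ δ L Rm Rm' Dr Dr') (hnet : ∀ β, η ∈ pvlnLaneEv δ β (L β))
    (side : ∃ g, PvkdGate 𝔤.toPvkdPlug η z d g ∧
      ∀ β, ∃ v : ↥(cfSites η), (v : ℂ) ∈ Dr β ∧ (pvkiT η).Join univ (pvldCol (pvkiS η) {u | (u : ℂ) ∈ Rm β} β) (pvkdFoot g true β) v)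
    (side' : ∃ g', PvkdGate 𝔤.toPvkdPlug η (𝔤.zo z d τ) (d * τ.rot) g' ∧
      ∀ β, ∃ v : ↥(cfSites η), (v : ℂ) ∈ Dr' β ∧ (pvkiT η).Join univ (pvldCol (pvkiS η) {u | (u : ℂ) ∈ Rm' β} β) (pvkdFoot g' false β) v) :
    η ∈ 𝔤.A z d τ := by
  obtain ⟨g, hg, lane⟩ := side
  obtain ⟨g', hg', lane'⟩ := side'
  obtain ⟨N, hN⟩ := pvdt_link hn hNA Λ hnet hg hg' lane lane'
  exact ⟨hNA, g, g', N, hN⟩

end plugk

end Claimed.Agent.R289
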