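import Claimed.Agent.R289.Tr.PlugK
import Claimed.Agent.R289.Tr.PlugClose
import Claimed.Agent.R289.Tr.ForceS
import Claimed.Agent.R289.Tr.MenuGeo
import Claimed.Agent.R289.Tr.DenseS

/-!
# Row 289 (S0537), THE WALL, cell kit instance, file Tr/FrcM : [FRC] AT THE MODEL, ROUTE Q : THE SIDE EVENTS `S⁺ S⁻` OF A SMALL PLUG      (pen helper174; ruling of 34 11:42Z DB, split of 52; prefix `pvhf_`, defs `pvhf*`, `Pvhf*`)

`Hf 0 = Hf 1 := S⁺`, `Hf 2 = Hf 3 := S⁻` in `𝔤.glob Hf` (`Tr/PlugK` v3 of 34).      `S^σ` = JOINT side event = EXACT READER (`pvpl_main` of 238, through `pvspEv` of 185) of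
"gate of record + black lane + white lane of the side `σ`, TRUNCATED" ∩ mesh of the window `E^σ` ∩ finitely many points in `E^σ`.      Port of `Tr/ForceS` (68, big plugs of road P) to the small plugs.
Consumers: 52 `Tr/PlugFrcQ` (adaptor over `pvfp_forced_ev` of 272), 204 + 294 (det), 125 / 258 (glue).

* sec. 1  LEVEL A (marked coloured maps): `PvhfSd κ` (marks of a side: plug `p`, rooms `Lb Lw`, targets `Db Dw`), `PvhfLane`, **`pvhfPhi σ S : PvplPred κ`**, `pvhf_join_twin`, **`pvhf_phi_local`**, **`pvhf_phi_mono`** (recolouring), `pvhf_phi_comap`.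
* sec. 2  MARKS: nine position tests `pvhfTest S : ℂ → Fin 9 → Bool`, `pvhfSdB`, `pvhf_test_meas`, `pvhf_comap_test`.
* sec. 3  LEVEL B: `PvhfReg` (regions in ABSOLUTE position + window `E` + frozen window `Ef` + mesh `ρ`), `PvhfReg.Wf`, **`pvhfEvt 𝔯 σ`**, `PvhfIs 𝔯 σ L` (what is known of an event: used for the reference event AND for its placed copies),
          `PvhfIs.meas .reads .plane`, frames: `PvhfReg.at z d`, `PvhfReg.Wf.at`, **`PvhfIs.placed`** (`cfMap (pvthInv z d) ⁻¹' L`).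
* sec. 4  **UP**: `PvhfIs.mono`, `PvhfIs.up` (one good geometry), **`PvhfIs.up_ae`** (regular state, a.e. geometry) = the two halves of `PvfpConn.Up`.
* sec. 5  (stands after sec. 6) CONTINUUM FORM + ENDS of 272: `pvhfQ 𝔭 𝔱` (plug with the truncated lanes = `𝔮` of 204), **`pvhf_H_at` `pvhf_H_ref`** (`dp dm hH` of 204), `pvhfFt`, **`pvhfEnd 𝔭 𝔱 σ O A X Y : PvnkEnd`**, **`pvhf_end_ok`**, **`pvhf_S_mono`** (= `PvjoMono` of 52 unfolded).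
* sec. 6  THE INSTANCE AT PlugK v3: truncation `PvhfTr`, `pvhfR 𝔭 𝔱 σ : PvhfReg`, **`pvhfS`**, **`pvhfH`**, [GEO] record **`PvhfGeo 𝔭 𝔱`**, `pvhf_mH`, `pvhf_rH`, dictionary `pvhf_S_iff` (in the words of PlugK), **`pvhf_hdict`**, `pvhf_hdict_lim`.
* sec. 7  THE GEOMETRY OF RECORD: `PvhfWin r x Es` (what a pair of windows owes), `pvhfTw r Es` (lanes cut at `5r`) **`pvhf_geo_w`**, `pvhfT0 𝔭 Es` (NO truncation) **`pvhf_geo_0`**, `pvhfT r` (cut at `5r`, closed windows) **`pvhf_geo : 0 < r → PvhfGeo (pvkdP r) (pvhfT r)`**.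
**FINE MESH (DEFECT M of 233, 13:05Z)**: `PvhfTr` has two more fields WITH DEFAULTS `μ := 1`, `W := ∅` (= no condition); both side events ask IN ADDITION `PvtrMesh μ W`; `PvhfReg.Wf` asks `μ0 mW subW`.
`𝔱.fine μ W`, **`pvhf_geo_fine`**, **`pvhf_S_fine`** `pvhf_S_fin` `pvhf_S_fine_at`, `pvhf_S_fine_eq : pvhfS 𝔭 (𝔱.fine μ W) σ = pvhfS 𝔭 𝔱 σ ∩ {mesh μ W}`.      The glue in the words of 52: `Tr/PlugFrcT.lean`.
-/

set_option autoImplicit false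
set_option linter.unusedSectionVars false
set_option linter.unusedVariables false

namespace Claimed.Agent.R289

open MeasureTheory ProbabilityTheory Set Filter Topology Metric Relation Claims.C0465
open scoped ENNReal

/-! ## 1. LEVEL A -/

/-- **the marks of one side of a plug**: the plug, the rooms of the black and of the white lane, their targets -/
structure PvhfSd (κ : Type) where
  p : PvzlPg κ
  Lb : Set κ
  Lw : Set κ
  Db : Set κ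
  Dw : Set κ

/-- the zone of the gate -/
def PvhfSd.KG {κ : Type} (S : PvhfSd κ) : Set κ := S.p.KI ∪ S.p.KO ∪ S.p.KT

/-- the reading zone -/
def PvhfSd.K {κ : Type} (S : PvhfSd κ) : Set κ := S.KG ∪ S.Lb ∪ S.Lw

/-- pull back of the marks -/
def PvhfSd.comap {κ κ' : Type} (S : PvhfSd κ') (θ : κ → κ') : PvhfSd κ := ⟨S.p.comap θ, θ ⁻¹' S.Lb, θ ⁻¹' S.Lw, θ ⁻¹' S.Db, θ ⁻¹' S.Dw⟩

/-- **a lane** of colour `β` from the vertex `a` to the target `Dr` through vertices marked in the room `L` (the form of `PvkdPlug.H`) -/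
def PvhfLane {κ V D : Type} (T : PvMap V D) (mk : V → κ) (s : V → Bool) (L Dr : Set κ) (β : Bool) (a : V) : Prop :=
  ∃ v, mk v ∈ Dr ∧ T.Join univ (pvldCol s {u | mk u ∈ L} β) a v

/-- **THE PREDICATE OF THE SIDE `σ`**: the gate of record with its black lane and its white lane -/
def pvhfPhi {κ : Type} (σ : Bool) (S : PvhfSd κ) : PvplPred κ := fun _ _ T mk s =>
  ∃ g : T.Gate s, PvzlGt T mk s S.p g ∧ PvhfLane T mk s S.Lb S.Db true (pvkdFoot g σ true) ∧ PvhfLane T mk s S.Lw S.Dw false (pvkdFoot g σ false)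

theorem pvhf_eqns_cite : True := by
  have := @PvhfSd.KG.eq_1; have := @PvhfSd.K.eq_1; have := @PvhfSd.comap.eq_1; have := @PvhfLane.eq_1; have := @pvhfPhi.eq_1
  trivial

section levelA

variable {κ : Type} {V D V' D' : Type} {T : PvMap V D} {mk : V → κ} {s : V → Bool} {T' : PvMap V' D'} {mk' : V' → κ} {s' : V' → Bool} {K : Set κ} {R : V → V' → Prop}

/-- twin of a `Join` through vertices marked in `L ⊆ K` -/
theorem pvhf_join_twin (h : PvplIso T mk s T' mk' s' K R) {L : Set κ} (hL : L ⊆ K) (β : Bool) {a v : V} {a' : V'} (ha : R a a')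
    (hj : T.Join univ (pvldCol s {u | mk u ∈ L} β) a v) : ∃ v', R v v' ∧ T'.Join univ (pvldCol s' {u | mk' u ∈ L} β) a' v' := by
  obtain ⟨ha0, hrt⟩ := hj
  have hmem : ∀ u u', R u u' → u ∈ pvldCol s {u | mk u ∈ L} β → u' ∈ pvldCol s' {u | mk' u ∈ L} β := by
    intro u u' hu hx
    exact ⟨by show mk' u' ∈ L; rw [h.mark _ _ hu]; exact hx.1, by rw [h.col _ _ hu]; exact hx.2⟩
  have key : ∃ v', R v v' ∧ v ∈ pvldCol s {u | mk u ∈ L} β ∧ ReflTransGen (fun u w => T'.EdgeIn univ u w ∧ w ∈ pvldCol s' {u | mk' u ∈ L} β) a' v' := by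
    induction hrt with
    | refl => exact ⟨a', ha, ha0, ReflTransGen.refl⟩
    | tail _ hstep ih =>
      obtain ⟨b', hb, hbX, hJ⟩ := ih
      obtain ⟨⟨d, -, hs, ht⟩, hcX⟩ := hstep
      obtain ⟨d', h1, h2, -⟩ := h.ex d (by rw [hs]; exact hL hbX.1)
      have e : T'.src d' = b' := h.fn _ _ _ h1 (hs ▸ hb)
      rw [ht] at h2
      exact ⟨T'.tgt d', h2, hcX, hJ.tail ⟨⟨d', Or.inl (mem_univ _), e, rfl⟩, hmem _ _ h2 hcX⟩⟩
  obtain ⟨v', h1, -, h2⟩ := key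
  exact ⟨v', h1, hmem _ _ ha ha0, h2⟩

/-- twin of a lane -/
theorem PvhfLane.twin (h : PvplIso T mk s T' mk' s' K R) {L Dr : Set κ} (hL : L ⊆ K) {β : Bool} {a : V} {a' : V'} (ha : R a a')
    (hl : PvhfLane T mk s L Dr β a) : PvhfLane T' mk' s' L Dr β a' := by
  obtain ⟨v, hv, hj⟩ := hl
  obtain ⟨v', h1, h2⟩ := pvhf_join_twin h hL β ha hj
  exact ⟨v', by rw [h.mark _ _ h1]; exact hv, h2⟩

/-- the feet of twin gates correspond -/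
theorem pvhf_foot_twin {g : T.Gate s} {g' : T'.Gate s'} (W : PvzlTw T mk T' K R g g') (σ β : Bool) : R (pvkdFoot g σ β) (pvkdFoot g' σ β) := by
  cases σ <;> cases β
  · exact W.aIn.1.2.1
  · exact (W.cyc.e_rel 0).1.1
  · exact W.aOut.1.2.1
  · show R (T.src (g.c.e g.m)) (T'.src (g'.c.e g'.m))
    rw [W.m_eq]
    exact (W.cyc.e_rel g.m).1.1

theorem pvhf_phi_twin (h : PvplIso T mk s T' mk' s' K R) (hS : T.Simple) (hS' : T'.Simple) (σ : Bool) {S : PvhfSd κ} (hK : S.K ⊆ K)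
    (hp : pvhfPhi σ S V D T mk s) : pvhfPhi σ S V' D' T' mk' s' := by
  obtain ⟨g, hg, hb, hw⟩ := hp
  have hG : S.KG ⊆ K := (subset_union_left.trans subset_union_left).trans hK
  obtain ⟨g', hg', W⟩ := hg.twin h hS hS' ((subset_union_left.trans subset_union_left).trans hG) ((subset_union_right.trans subset_union_left).trans hG) (subset_union_right.trans hG)
  exact ⟨g', hg', hb.twin h ((subset_union_right.trans subset_union_left).trans hK) (pvhf_foot_twin W σ true),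
    hw.twin h (subset_union_right.trans hK) (pvhf_foot_twin W σ false)⟩

/-- **LOCALITY** -/
theorem pvhf_phi_local (σ : Bool) {S : PvhfSd κ} {K : Set κ} (hK : S.K ⊆ K) : (pvhfPhi σ S).Local K := by
  intro V D V' D' T mk s T' mk' s' R hS hS' hi
  exact ⟨pvhf_phi_twin hi hS hS' σ hK, pvhf_phi_twin hi.symm hS' hS σ hK⟩

/-- a lane survives every recolouring which keeps its colour in its room -/
theorem PvhfLane.recolor {s₂ : V → Bool} {L Dr : Set κ} {β : Bool} {a : V} (hl : PvhfLane T mk s L Dr β a) (h : ∀ x, mk x ∈ L → s x = β → s₂ x = β) :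
    PvhfLane T mk s₂ L Dr β a := by
  obtain ⟨v, hv, hj⟩ := hl
  have hsub : pvldCol s {u | mk u ∈ L} β ⊆ pvldCol s₂ {u | mk u ∈ L} β := fun x hx => ⟨hx.1, h x hx.1 hx.2⟩
  exact ⟨v, hv, pvta_join_mono hsub hj⟩

/-- **MONOTONICITY**: the predicate survives every recolouring which (i) keeps the colours on the stars of the vertices marked in the zone of the gate, (ii) keeps black in the black room, (iii) keeps white in the white room -/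
theorem pvhf_phi_mono {s₂ : V → Bool} (σ : Bool) (S : PvhfSd κ) (hS : T.Simple)
    (hfix : ∀ d, mk (T.src d) ∈ S.KG → s₂ (T.src d) = s (T.src d) ∧ s₂ (T.tgt d) = s (T.tgt d) ∧ s₂ (T.apex d) = s (T.apex d))
    (hb : ∀ x, mk x ∈ S.Lb → s x = true → s₂ x = true) (hw : ∀ x, mk x ∈ S.Lw → s x = false → s₂ x = false)
    (hp : pvhfPhi σ S V D T mk s) : pvhfPhi σ S V D T mk s₂ := by
  obtain ⟨g, hg, h1, h2⟩ := hp
  have hiso := pvfv_iso T mk hfix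
  obtain ⟨g', hg', W⟩ := hg.twin hiso hS hS (subset_union_left.trans subset_union_left) (subset_union_right.trans subset_union_left) subset_union_right
  refine ⟨g', hg', ?_, ?_⟩
  · rw [← (pvhf_foot_twin W σ true).1]
    exact h1.recolor hb
  · rw [← (pvhf_foot_twin W σ false).1]
    exact h2.recolor hw

/-- change of marks -/
theorem pvhf_phi_comap {κ' : Type} (θ : κ → κ') (σ : Bool) (S : PvhfSd κ') : pvhfPhi σ (S.comap θ) V D T mk s ↔ pvhfPhi σ S V D T (θ ∘ mk) s :=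
  exists_congr fun _ => and_congr (pvkk_gt θ) Iff.rfl

end levelA

/-! ## 2. MARKS: nine position tests -/

/-- the nine regions of a side, numbered -/
def PvhfSd.reg {κ : Type} (S : PvhfSd κ) : Fin 9 → Set κ := ![S.p.KI, S.p.KO, S.p.Km, S.p.Kp, S.p.KT, S.Lb, S.Lw, S.Db, S.Dw]

open Classical in
/-- the nine tests -/
noncomputable def pvhfTest {κ : Type} (S : PvhfSd κ) (w : κ) : Fin 9 → Bool := fun i => decide (w ∈ S.reg i)

/-- the universal side: marks = vectors of nine bits -/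
def pvhfSdB : PvhfSd (Fin 9 → Bool) :=
  ⟨⟨{k | k 0 = true}, {k | k 1 = true}, {k | k 2 = true}, {k | k 3 = true}, {k | k 4 = true}⟩, {k | k 5 = true}, {k | k 6 = true}, {k | k 7 = true}, {k | k 8 = true}⟩

theorem pvhf_eqns_cite2 : True := by
  have := @PvhfSd.reg.eq_1; have := @pvhfTest.eq_1; have := @pvhfSdB.eq_1
  trivial

section marks

variable {κ κ' : Type}

theorem pvhf_test_pre (S : PvhfSd κ) (i : Fin 9) : pvhfTest S ⁻¹' {k | k i = true} = S.reg i := by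
  ext w
  simp [pvhfTest]

/-- a side is the pull back of the universal side along its tests -/
theorem pvhf_comap_test (S : PvhfSd κ) : pvhfSdB.comap (pvhfTest S) = S := by
  have h := pvhf_test_pre S
  obtain ⟨⟨a0, a1, a2, a3, a4⟩, a5, a6, a7, a8⟩ := S
  unfold PvhfSd.comap PvzlPg.comap pvhfSdB
  simp only [h]
  rfl

theorem pvhf_K_comap (S : PvhfSd κ') (θ : κ → κ') : (S.comap θ).K = θ ⁻¹' S.K := rfl

theorem pvhf_KG_comap (S : PvhfSd κ') (θ : κ → κ') : (S.comap θ).KG = θ ⁻¹' S.KG := rfl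

theorem pvhf_K_test (S : PvhfSd κ) : pvhfTest S ⁻¹' pvhfSdB.K = S.K := by
  rw [← pvhf_K_comap, pvhf_comap_test]

theorem pvhf_reg_comap (S : PvhfSd κ') (θ : κ → κ') (i : Fin 9) : (S.comap θ).reg i = θ ⁻¹' S.reg i := by
  fin_cases i <;> rfl

theorem pvhf_test_comap (S : PvhfSd κ') (θ : κ → κ') : pvhfTest (S.comap θ) = pvhfTest S ∘ θ := by
  funext w i
  have e : (w ∈ (S.comap θ).reg i) ↔ (θ w ∈ S.reg i) := by rw [pvhf_reg_comap]; rfl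
  simp only [pvhfTest, Function.comp_apply]
  exact decide_eq_decide.2 e

/-- positions ⟷ tests -/
theorem pvhf_phi_test {V D : Type} (σ : Bool) (S : PvhfSd κ) (T : PvMap V D) (mk : V → κ) (s : V → Bool) :
    pvhfPhi σ pvhfSdB V D T (fun v => pvhfTest S (mk v)) s ↔ pvhfPhi σ S V D T mk s := by
  have := pvhf_phi_comap (T := T) (mk := mk) (s := s) (pvhfTest S) σ pvhfSdB
  rw [pvhf_comap_test] at this
  exact this.symm

/-- the tests are Borel -/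
theorem pvhf_test_meas {S : PvhfSd ℂ} (hr : ∀ i, MeasurableSet (S.reg i)) : Measurable (pvhfTest S) := by
  refine measurable_pi_iff.2 fun i => measurable_to_bool ?_
  have : (fun w => pvhfTest S w i) ⁻¹' {true} = S.reg i := by
    ext w
    simp [pvhfTest]
  rw [this]
  exact hr i

end marks

/-! ## 3. LEVEL B: events on `Conf PvPt` -/

/-- **the regions of one side of a plug in ABSOLUTE position** -/
structure PvhfReg where
  sd : PvhfSd ℂ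
  /-- window of the side event -/
  E : Set ℂ
  /-- window of the plug (it lies in the frozen region) -/
  Ef : Set ℂ
  /-- mesh -/
  ρ : ℝ
  /-- FINE MESH (DEFECT M of 233) -/
  μ : ℝ
  /-- window of the fine mesh -/
  W : Set ℂ

/-- what the geometry owes -/
structure PvhfReg.Wf (𝔯 : PvhfReg) : Prop where
  ρ0 : 0 < 𝔯.ρ
  mR : ∀ i, MeasurableSet (𝔯.sd.reg i)
  /-- the window is a window of 238 (closed sets: `pvmg_win_closed`; open sets: `pvkgg_win_open` of 258) -/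
  wE : PvplWin 𝔯.E
  bE : Bornology.IsBounded 𝔯.E
  sub : 𝔯.Ef ⊆ 𝔯.E
  /-- the reading zone lies deep in the window -/
  core : 𝔯.sd.K ⊆ pvtrCore (3 * 𝔯.ρ) 𝔯.E
  /-- the zone of the gate lies deep in the window of the plug -/
  coreG : 𝔯.sd.KG ⊆ pvtrCore (3 * 𝔯.ρ) 𝔯.Ef
  /-- the fine mesh -/
  μ0 : 0 < 𝔯.μ
  mW : MeasurableSet 𝔯.W
  subW : 𝔯.W ⊆ 𝔯.E

/-- mesh + finiteness of the window + fine mesh of `W` -/
def pvhfMs (𝔯 : PvhfReg) : Set (Conf PvPt) := {η | (PvtnFin 𝔯.E η ∧ PvtrMesh 𝔯.μ 𝔯.W (cfSites η)) ∧ PvtrMesh 𝔯.ρ 𝔯.E (cfSites η)}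

/-- **THE SIDE EVENT** -/
noncomputable def pvhfEvt (𝔯 : PvhfReg) (σ : Bool) : Set (Conf PvPt) :=
  pvhfMs 𝔯 ∩ pvspEv (pvhfTest 𝔯.sd) (pvhfPhi σ pvhfSdB) pvhfSdB.K 𝔯.E 𝔯.ρ

/-- `L` is A side event of the regions `𝔯` (the reference event; its placed copies) -/
def PvhfIs (𝔯 : PvhfReg) (σ : Bool) (L : Set (Conf PvPt)) : Prop :=
  ∃ B, PvspIsEv (pvhfTest 𝔯.sd) (pvhfPhi σ pvhfSdB) pvhfSdB.K 𝔯.E 𝔯.ρ B ∧ L = pvhfMs 𝔯 ∩ B

/-- the regions placed at `(z, d)` -/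
noncomputable def PvhfReg.at (𝔯 : PvhfReg) (z d : ℂ) : PvhfReg := ⟨𝔯.sd.comap (pvthInv z d), pvthInv z d ⁻¹' 𝔯.E, pvthInv z d ⁻¹' 𝔯.Ef, 𝔯.ρ, 𝔯.μ, pvthInv z d ⁻¹' 𝔯.W⟩

theorem pvhf_eqns_cite3 : True := by
  have := @pvhfMs.eq_1; have := @pvhfEvt.eq_1; have := @PvhfIs.eq_1; have := @PvhfReg.at.eq_1
  trivial

section levelB

variable {𝔯 : PvhfReg} {σ : Bool} {L : Set (Conf PvPt)}

theorem pvhf_is (hW : 𝔯.Wf) (σ : Bool) : PvhfIs 𝔯 σ (pvhfEvt 𝔯 σ) :=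
  ⟨_, pvsp_ev_spec (pvhf_test_meas hW.mR) (pvhf_phi_local σ Subset.rfl) hW.wE hW.ρ0 (by rw [pvhf_K_test]; exact hW.core), rfl⟩

theorem pvhf_ms_meas (hW : 𝔯.Wf) : MeasurableSet (pvhfMs 𝔯) := by
  have e : pvhfMs 𝔯 = {η : Conf PvPt | PvtnFin 𝔯.E η ∧ PvtrMesh 𝔯.ρ 𝔯.E (cfSites η)} ∩ {η : Conf PvPt | PvtnFin 𝔯.W η ∧ PvtrMesh 𝔯.μ 𝔯.W (cfSites η)} := by
    ext η
    constructor
    · rintro ⟨⟨h1, h2⟩, h3⟩
      exact ⟨⟨h1, h3⟩, ⟨h1.subset (inter_subset_inter_right _ (prod_mono hW.subW Subset.rfl)), h2⟩⟩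
    · rintro ⟨⟨h1, h3⟩, ⟨-, h2⟩⟩
      exact ⟨⟨h1, h2⟩, h3⟩
  rw [e]
  exact (pvsp_mesh_meas hW.wE.1 hW.bE _).inter (pvsp_mesh_meas hW.mW (hW.bE.subset hW.subW) _)

theorem pvhf_ms_reads (hW : 𝔯.Wf) : Conf.ReadsSet (𝔯.E ×ˢ univ) (pvhfMs 𝔯) := by
  intro η
  have h1 := pvtn_reads_fin 𝔯.E η
  have h2 : PvtrMesh 𝔯.ρ 𝔯.E (cfSites (Conf.restr (𝔯.E ×ˢ univ) η)) = PvtrMesh 𝔯.ρ 𝔯.E (cfSites η) := pvtr_reads_mesh 𝔯.ρ 𝔯.E η
  have h3 : Conf.ReadsSet (𝔯.E ×ˢ univ) {η : Conf PvPt | PvtrMesh 𝔯.μ 𝔯.W (cfSites η)} :=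
    (Conf.readsSet_iff_reads.2 (pvtr_reads_mesh 𝔯.μ 𝔯.W)).mono (prod_mono hW.subW Subset.rfl)
  show ((PvtnFin _ _ ∧ PvtrMesh _ _ _) ∧ PvtrMesh _ _ _) ↔ ((PvtnFin _ _ ∧ PvtrMesh _ _ _) ∧ PvtrMesh _ _ _)
  rw [h2]
  exact and_congr (and_congr h1 (h3 η)) Iff.rfl

/-- **[mH]** -/
theorem PvhfIs.meas (h : PvhfIs 𝔯 σ L) (hW : 𝔯.Wf) : MeasurableSet L := by
  obtain ⟨B, hB, rfl⟩ := h
  exact (pvhf_ms_meas hW).inter hB.meas

/-- **EXACT READER** -/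
theorem PvhfIs.reads (h : PvhfIs 𝔯 σ L) (hW : 𝔯.Wf) : Conf.ReadsSet (𝔯.E ×ˢ univ) L := by
  obtain ⟨B, hB, rfl⟩ := h
  exact (pvhf_ms_reads hW).inter hB.reads

theorem PvhfIs.sub_ms (h : PvhfIs 𝔯 σ L) : L ⊆ pvhfMs 𝔯 := by
  obtain ⟨B, hB, rfl⟩ := h
  exact inter_subset_left

/-- a point outside the reading zone -/
theorem PvhfReg.Wf.exists_far (hW : 𝔯.Wf) : ∃ zi : ℂ, zi ∉ 𝔯.sd.K := by
  have hb : Bornology.IsBounded 𝔯.sd.K := hW.bE.subset (hW.core.trans (pvtr_core_subset (by have := hW.ρ0; positivity)))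
  by_contra hcon
  have hu : 𝔯.sd.K = univ := eq_univ_of_forall fun w => by_contra fun hw => hcon ⟨w, hw⟩
  rw [hu] at hb
  exact (NormedSpace.unbounded_univ ℝ ℂ) hb

/-- **DICTIONARY IN THE DELAUNAY PLANE**, marks = positions -/
theorem PvhfIs.plane (h : PvhfIs 𝔯 σ L) (hW : 𝔯.Wf) {η : Conf PvPt} (hη : DelGood (cfSites η)) :
    η ∈ L ↔ η ∈ pvhfMs 𝔯 ∧ pvhfPhi σ 𝔯.sd _ _ (pvkiT η) Subtype.val (pvkiS η) := by
  obtain ⟨B, hB, rfl⟩ := h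
  obtain ⟨zi, hzi⟩ := hW.exists_far
  refine and_congr_right fun hm => ?_
  have hd := hB.dict Empty delbPlane η Empty.elim zi hm.1.1 (delb_ok_mono (subset_univ _) (delb_plane_ok hη)) hm.2 (by
    intro hc
    have : zi ∈ pvhfTest 𝔯.sd ⁻¹' pvhfSdB.K := hc
    rw [pvhf_K_test] at this
    exact hzi this)
  rw [hd]
  exact pvhf_phi_test σ 𝔯.sd (pvkiT η) Subtype.val (pvkiS η)

/-! ### frames -/

theorem pvhf_inv_sub {d : ℂ} (hd : ‖d‖ = 1) (z u w : ℂ) : ‖pvthInv z d u - pvthInv z d w‖ = ‖u - w‖ := by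
  have : pvthInv z d u - pvthInv z d w = (u - w) / d := by
    unfold pvthInv
    rw [← sub_div]
    congr 1
    ring
  rw [this, norm_div, hd, div_one]

theorem pvhf_ne_zero {d : ℂ} (hd : ‖d‖ = 1) : d ≠ 0 := fun h => by
  rw [h, norm_zero] at hd
  exact zero_ne_one hd

theorem pvhf_core_pre {d : ℂ} (hd : ‖d‖ = 1) (z : ℂ) (r : ℝ) (E : Set ℂ) : pvthInv z d ⁻¹' pvtrCore r E ⊆ pvtrCore r (pvthInv z d ⁻¹' E) := by
  intro w hw u hu
  refine hw ?_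
  rw [mem_closedBall, dist_eq_norm] at hu ⊢
  rw [pvhf_inv_sub hd]
  exact hu

theorem pvhf_inv_cont (z d : ℂ) : Continuous (pvthInv z d) := by
  unfold pvthInv
  fun_prop

/-- a window of 238 under a frame -/
theorem pvhf_win_at {E : Set ℂ} (hE : PvplWin E) (z : ℂ) {d : ℂ} (hd : ‖d‖ = 1) : PvplWin (pvthInv z d ⁻¹' E) := by
  refine ⟨pvth_inv_meas z d hE.1, ?_⟩
  have hsur : Function.Surjective (pvthInv z d) := by rw [pvzf_inv_eq]; exact vorSim_surjective (inv_ne_zero (pvhf_ne_zero hd)) _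
  have e : {q : ℂ × ℝ | closedBall q.1 q.2 ⊆ pvthInv z d ⁻¹' E} = (fun q : ℂ × ℝ => (pvthInv z d q.1, q.2)) ⁻¹' {q : ℂ × ℝ | closedBall q.1 q.2 ⊆ E} := by
    ext q
    constructor
    · intro h u hu
      obtain ⟨u', rfl⟩ := hsur u
      refine h ?_
      rw [mem_closedBall, dist_eq_norm] at hu ⊢
      rwa [pvhf_inv_sub hd] at hu
    · intro h u hu
      refine h ?_
      rw [mem_closedBall, dist_eq_norm] at hu ⊢
      rwa [pvhf_inv_sub hd]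
  rw [e]
  exact (((pvhf_inv_cont z d).measurable.comp measurable_fst).prodMk measurable_snd) hE.2

theorem PvhfReg.Wf.at (hW : 𝔯.Wf) (z : ℂ) {d : ℂ} (hd : ‖d‖ = 1) : (𝔯.at z d).Wf where
  ρ0 := hW.ρ0
  mR i := by
    show MeasurableSet ((𝔯.sd.comap (pvthInv z d)).reg i)
    rw [pvhf_reg_comap]
    exact pvth_inv_meas z d (hW.mR i)
  wE := pvhf_win_at hW.wE z hd
  bE := by
    obtain ⟨R, hR⟩ := hW.bE.subset_closedBall (pvthInv z d z)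
    refine (isBounded_closedBall (x := z) (r := R)).subset fun w hw => ?_
    have := hR hw
    rw [mem_closedBall, dist_eq_norm] at this ⊢
    rwa [pvhf_inv_sub hd] at this
  sub := preimage_mono hW.sub
  core := (preimage_mono hW.core).trans (pvhf_core_pre hd z _ _)
  coreG := (preimage_mono hW.coreG).trans (pvhf_core_pre hd z _ _)
  μ0 := hW.μ0
  mW := pvth_inv_meas z d hW.mW
  subW := preimage_mono hW.subW

/-- mesh + finiteness under a frame -/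
theorem pvhf_ms_at (𝔯 : PvhfReg) (z : ℂ) {d : ℂ} (hd : ‖d‖ = 1) : cfMap (pvthInv z d) ⁻¹' pvhfMs 𝔯 = pvhfMs (𝔯.at z d) := by
  have hd0 := pvhf_ne_zero hd
  have hα : d⁻¹ ≠ 0 := inv_ne_zero hd0
  have hinj : Function.Injective (pvthInv z d) := by rw [pvzf_inv_eq]; exact vorSim_injective hα _
  have hsur : Function.Surjective (pvthInv z d) := by rw [pvzf_inv_eq]; exact vorSim_surjective hα _
  have hmesh : ∀ (ρ : ℝ) (E : Set ℂ) (η : Conf PvPt), PvtrMesh ρ E (cfSites (cfMap (pvthInv z d) η)) ↔ PvtrMesh ρ (pvthInv z d ⁻¹' E) (cfSites η) := by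
    intro ρ E η
    have h := pvtr_mesh_sim (ρ := ρ) (E := pvthInv z d ⁻¹' E) (Y := cfSites η) hα (-(d⁻¹ * z))
    rw [← pvzf_inv_eq, image_preimage_eq _ hsur, norm_inv, hd, inv_one, one_mul] at h
    rw [← h]
    have e1 : cfSites (cfMap (pvthInv z d) η) = pvthInv z d '' cfSites η := by
      rw [pvzf_inv_eq]; exact pvcv_sites _ _ η
    rw [e1]
  ext η
  refine and_congr (and_congr ?_ (hmesh _ _ η)) (hmesh _ _ η)
  · show ((cfMap (pvthInv z d) η).pts ∩ 𝔯.E ×ˢ univ).Finite ↔ (η.pts ∩ (pvthInv z d ⁻¹' 𝔯.E) ×ˢ univ).Finite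
    have e : (cfMap (pvthInv z d) η).pts ∩ 𝔯.E ×ˢ univ = Prod.map (pvthInv z d) id '' (η.pts ∩ (pvthInv z d ⁻¹' 𝔯.E) ×ˢ univ) := by
      ext p
      constructor
      · rintro ⟨⟨q, hq, rfl⟩, hp⟩
        exact ⟨q, ⟨hq, ⟨hp.1, mem_univ _⟩⟩, rfl⟩
      · rintro ⟨q, ⟨hq, hqE⟩, rfl⟩
        exact ⟨⟨q, hq, rfl⟩, ⟨hqE.1, mem_univ _⟩⟩
    rw [e]
    exact Set.finite_image_iff ((hinj.prodMap Function.injective_id).injOn)

/-- **THE PLACED COPY OF A SIDE EVENT IS A SIDE EVENT OF THE PLACED REGIONS** -/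
theorem PvhfIs.placed (h : PvhfIs 𝔯 σ L) (z : ℂ) {d : ℂ} (hd : ‖d‖ = 1) : PvhfIs (𝔯.at z d) σ (cfMap (pvthInv z d) ⁻¹' L) := by
  obtain ⟨B, hB, rfl⟩ := h
  have hd0 := pvhf_ne_zero hd
  refine ⟨cfMap (pvthInv z d) ⁻¹' B, ⟨measurable_cfMap (pvth_inv_meas z d) hB.meas, fun η => ?_, ?_⟩, ?_⟩
  · show cfMap (pvthInv z d) (Conf.restr ((pvthInv z d ⁻¹' 𝔯.E) ×ˢ univ) η) ∈ B ↔ cfMap (pvthInv z d) η ∈ B
    rw [pvzf_restr_map, hB.reads]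
  · have h1 : PvplRep (pvhfTest 𝔯.sd) (pvhfPhi σ pvhfSdB) pvhfSdB.K 𝔯.E 𝔯.ρ B := hB.dict
    have h2 := h1.sim (inv_ne_zero hd0) (-(d⁻¹ * z))
    rw [← pvzf_inv_eq, norm_inv, hd, inv_one, div_one] at h2
    show PvplRep (pvhfTest (𝔯.sd.comap (pvthInv z d))) (pvhfPhi σ pvhfSdB) pvhfSdB.K (pvthInv z d ⁻¹' 𝔯.E) 𝔯.ρ (cfMap (pvthInv z d) ⁻¹' B)
    rw [pvhf_test_comap]
    exact h2
  · rw [preimage_inter, pvhf_ms_at 𝔯 z hd]

end levelB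

/-! ## 4. UP-NESS IN THE MIXED ORDER -/

section up

variable {𝔯 : PvhfReg} {σ : Bool} {L : Set (Conf PvPt)} {F K₁ K₂ : Set ℂ} {st : Conf PvPt} {g : PvGeoT}

/-- the predicate in the Delaunay plane, as a function of the site set and of the colouring of the plane -/
theorem pvhf_plane_mono (hW : 𝔯.Wf) (σ : Bool) {Y : Set ℂ} (hm : PvtrMesh 𝔯.ρ 𝔯.Ef Y) {κ₁ κ₂ : ℂ → Bool}
    (hO : ∀ a ∈ 𝔯.Ef, κ₂ a = κ₁ a) (hb : ∀ a ∈ 𝔯.sd.Lb, a ∈ Y → κ₁ a = true → κ₂ a = true) (hw : ∀ a ∈ 𝔯.sd.Lw, a ∈ Y → κ₁ a = false → κ₂ a = false)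
    (hp : pvhfPhi σ 𝔯.sd _ _ (delbPl Y).toMap Subtype.val (fun v => κ₁ v.1)) : pvhfPhi σ 𝔯.sd _ _ (delbPl Y).toMap Subtype.val (fun v => κ₂ v.1) := by
  refine pvhf_phi_mono σ 𝔯.sd (delbPl Y).toMap_simple ?_ (fun x hx => hb _ hx x.2) (fun x hx => hw _ hx x.2) hp
  intro d hd
  have hret := pvtr_of_mesh_vertex hW.ρ0 hm (hW.coreG hd) (delb_plane_face d)
  exact ⟨hO _ hret.mem_a.2, hO _ hret.mem_b.2, hO _ hret.mem_c.2⟩

/-- **MONOTONICITY OF A SIDE EVENT** (general position): same sites, same colours in the window of the plug, black is kept in the black room, white in the white room -/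
theorem PvhfIs.mono (h : PvhfIs 𝔯 σ L) (hW : 𝔯.Wf) {η η' : Conf PvPt} (hY : cfSites η' = cfSites η) (hη : DelGood (cfSites η))
    (hO : ∀ a ∈ 𝔯.Ef, cfCol η' a = cfCol η a) (hb : ∀ a ∈ 𝔯.sd.Lb, a ∈ cfSites η → cfCol η a = true → cfCol η' a = true)
    (hw : ∀ a ∈ 𝔯.sd.Lw, a ∈ cfSites η → cfCol η a = false → cfCol η' a = false) (he : η ∈ L) : η' ∈ L := by
  obtain ⟨⟨⟨hf, hμ⟩, hm⟩, hp⟩ := (h.plane hW hη).1 he
  have hη' : DelGood (cfSites η') := by rw [hY]; exact hη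
  refine (h.plane hW hη').2 ⟨⟨⟨pvfv_fin hY hf, by rw [hY]; exact hμ⟩, by rw [hY]; exact hm⟩, ?_⟩
  have h1 := pvhf_plane_mono hW σ (pvsp_mesh_mono hW.sub hf hm).2 hO hb hw hp
  show pvhfPhi σ 𝔯.sd _ _ (delbPl (cfSites η')).toMap Subtype.val (fun v => cfCol η' v.1)
  rw [hY]
  exact h1

/-- **UP-NESS AT A FROZEN STATE** (one good geometry; `F ⊇ Ef` = the frozen region; black is up on `K₁`, white on `K₂`) -/
theorem PvhfIs.up (h : PvhfIs 𝔯 σ L) (hW : 𝔯.Wf) (hd : Disjoint K₁ K₂) (hF : 𝔯.Ef ⊆ F) (hb : 𝔯.sd.Lb ⊆ F ∪ K₁) (hw : 𝔯.sd.Lw ⊆ F ∪ K₂) (hg : PvgOk g)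
    (hgood : ∀ c, DelGood (cfSites (Conf.spl (F ×ˢ (univ : Set Bool)) (st, pvConf (pvMerge (g, c)))))) :
    PvhkUpAt g (pvfpSg g true K₁ K₂) (pvhkSec (F ×ˢ univ) st L) := by
  intro c c' hc he
  have key : ∀ (β : Bool) (Z K : Set ℂ), Z ⊆ F ∪ K → (∀ i, pvgSite g i ∈ K → c i = β → c' i = β) → ∀ a ∈ Z, a ∈ cfSites (Conf.spl (F ×ˢ (univ : Set Bool)) (st, pvConf (pvMerge (g, c)))) →
      cfCol (Conf.spl (F ×ˢ (univ : Set Bool)) (st, pvConf (pvMerge (g, c)))) a = β → cfCol (Conf.spl (F ×ˢ (univ : Set Bool)) (st, pvConf (pvMerge (g, c')))) a = β := by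
    intro β Z K hZ hK a ha haY
    by_cases haF : a ∈ F
    · rw [pvfv_col_in haF, pvfv_col_in haF]
      exact id
    · rw [pvfv_col_out haF, pvfv_col_out haF]
      have haK : a ∈ K := (hZ ha).resolve_left haF
      rw [pvfv_sites_spl, pvqu_cfSites] at haY
      obtain ⟨i, hi, rfl⟩ : a ∈ pvgSites g := haY.elim (fun h => absurd h.2 haF) fun h => h.1
      rw [pvfv_col_site hg hi, pvfv_col_site hg hi]
      exact hK i haK
  refine h.mono hW (pvfv_sites_blind F st g c c') (hgood c) ?_ ?_ ?_ he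
  · intro a ha
    rw [pvfv_col_in (hF ha), pvfv_col_in (hF ha)]
  · exact key true _ K₁ hb fun i hi e => pvfv_le_K1 hd hc hi e
  · exact key false _ K₂ hw fun i hi e => pvfv_le_K2 hd hc hi e

/-- **UP-NESS at almost every geometry, the state being regular** -/
theorem PvhfIs.up_ae (h : PvhfIs 𝔯 σ L) (hW : 𝔯.Wf) (hd : Disjoint K₁ K₂) (hF : 𝔯.Ef ⊆ F) (hb : 𝔯.sd.Lb ⊆ F ∪ K₁) (hw : 𝔯.sd.Lw ⊆ F ∪ K₂) {ε : ℝ}
    (hst : st ∈ pvnkRg ε F) : ∀ᵐ g ∂(pvGeo ε), PvhkUpAt g (pvfpSg g true K₁ K₂) (pvhkSec (F ×ˢ univ) st L) := by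
  filter_upwards [pvqu_ok_ae ε, pvfv_good_ae ε F (pvfv_rg hst)] with g hg hgood
  exact h.up hW hd hF hb hw hg hgood

end up

/-! ## 6. THE INSTANCE AT `Tr/PlugK` v3 -/

/-- **TRUNCATION of the half lanes** (reference frame): rooms, targets, windows of the two side events -/
structure PvhfTr where
  /-- truncated room of the half lane of side `σ` and colour `β` -/
  Ln : Bool → Bool → Set ℂ
  /-- its target -/
  Dr : Bool → Bool → Set ℂ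
  /-- window of the side event `S^σ` -/
  Es : Bool → Set ℂ
  /-- FINE MESH (DEFECT M of 233): both side events ask IN ADDITION `PvtrMesh μ W`.      DEFAULT = no condition (`pvhf_mesh_empty`) -/
  μ : ℝ := 1
  /-- window of the fine mesh (`⊆ Es σ`, both `σ`) -/
  W : Set ℂ := ∅

/-- the regions of the side `σ` of the plug `𝔭`, reference frame -/
def pvhfR (𝔭 : PvkdPlug) (𝔱 : PvhfTr) (σ : Bool) : PvhfReg where
  sd := ⟨⟨ball 0 𝔭.a, ball 0 𝔭.b, 𝔭.Zm, 𝔭.Zp, 𝔭.Tb⟩, 𝔱.Ln σ true, 𝔱.Ln σ false, 𝔱.Dr σ true, 𝔱.Dr σ false⟩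
  E := 𝔱.Es σ
  Ef := 𝔭.Ew
  ρ := 𝔭.ρ
  μ := 𝔱.μ
  W := 𝔱.W

/-- **THE SIDE EVENT `S^σ`** (`true` = `+` = exit side), reference frame -/
noncomputable def pvhfS (𝔭 : PvkdPlug) (𝔱 : PvhfTr) (σ : Bool) : Set (Conf PvPt) := pvhfEvt (pvhfR 𝔭 𝔱 σ) σ

/-- **`Hf`** : `Hf 0 = Hf 1 = S⁺`, `Hf 2 = Hf 3 = S⁻` -/
noncomputable def pvhfH (𝔭 : PvkdPlug) (𝔱 : PvhfTr) (i : Fin 4) : Set (Conf PvPt) := pvhfS 𝔭 𝔱 (decide (i.1 < 2))

/-- **[GEO]** what this file asks of the plug and of the truncation (regions only) -/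
structure PvhfGeo (𝔭 : PvkdPlug) (𝔱 : PvhfTr) : Prop where
  wf : ∀ σ, (pvhfR 𝔭 𝔱 σ).Wf
  ZZ : Disjoint 𝔭.Zm 𝔭.Zp
  /-- the foot of a lane lies in the truncated room -/
  foot : ∀ σ β, ball 0 𝔭.b ∩ 𝔭.Ln σ β ⊆ 𝔱.Ln σ β
  /-- a short step from the truncated room, before the truncated target, stays in the truncated room -/
  step : ∀ σ β, ∀ a ∈ 𝔱.Ln σ β, a ∉ 𝔱.Dr σ β → ∀ b ∈ 𝔭.Ln σ β, ‖a - b‖ ≤ 2 * 𝔭.ρ → b ∈ 𝔱.Ln σ β
  /-- the target of record lies beyond the truncated target -/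
  far : ∀ σ β, 𝔭.Dr σ β ∩ 𝔱.Ln σ β ⊆ 𝔱.Dr σ β

/-- the lane of side `σ` and colour `β` with the room `Ln` and the target `Dr`, placed at `(z,d)`, in the words of `PvkdPlug.H` -/
def PvhfLn (η : Conf PvPt) (z d : ℂ) (Ln Dr : Set ℂ) (β : Bool) (a : ↥(cfSites η)) : Prop :=
  ∃ v : ↥(cfSites η), (v : ℂ) ∈ pvkdAt z d Dr ∧ (pvkiT η).Join univ (pvldCol (pvkiS η) {u | (u : ℂ) ∈ pvkdAt z d Ln} β) a v

theorem pvhf_eqns_cite6 : True := by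
  have := @pvhfR.eq_1; have := @pvhfS.eq_1; have := @pvhfH.eq_1; have := @PvhfLn.eq_1
  trivial

section inst

variable {𝔭 : PvkdPlug} {𝔱 : PvhfTr}

theorem pvhf_S_is (hG : PvhfGeo 𝔭 𝔱) (σ : Bool) : PvhfIs (pvhfR 𝔭 𝔱 σ) σ (pvhfS 𝔭 𝔱 σ) := pvhf_is (hG.wf σ) σ

/-- the placed copy -/
theorem pvhf_S_is_at (hG : PvhfGeo 𝔭 𝔱) (σ : Bool) (z : ℂ) {d : ℂ} (hd : ‖d‖ = 1) : PvhfIs ((pvhfR 𝔭 𝔱 σ).at z d) σ (cfMap (pvthInv z d) ⁻¹' pvhfS 𝔭 𝔱 σ) :=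
  (pvhf_S_is hG σ).placed z hd

/-- **[mH]** -/
theorem pvhf_mH (hG : PvhfGeo 𝔭 𝔱) (i : Fin 4) : MeasurableSet (pvhfH 𝔭 𝔱 i) := (pvhf_S_is hG _).meas (hG.wf _)

/-- **EXACT READERS** -/
theorem pvhf_rS (hG : PvhfGeo 𝔭 𝔱) (σ : Bool) : Conf.ReadsSet (𝔱.Es σ ×ˢ univ) (pvhfS 𝔭 𝔱 σ) := (pvhf_S_is hG σ).reads (hG.wf σ)

theorem pvhf_at_eq (z : ℂ) {d : ℂ} (hd : d ≠ 0) (S : Set ℂ) : pvthInv z d ⁻¹' S = pvkdAt z d S := by
  ext w
  constructor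
  · intro hw
    refine ⟨_, hw, ?_⟩
    unfold pvthSim pvthInv
    field_simp
    ring
  · rintro ⟨u, hu, rfl⟩
    show pvthInv z d (pvthSim z d u) ∈ S
    have : pvthInv z d (pvthSim z d u) = u := by
      unfold pvthSim pvthInv
      field_simp
      ring
    rw [this]
    exact hu

theorem pvhf_at_ball (z : ℂ) {d : ℂ} (hd : ‖d‖ = 1) (r : ℝ) : pvthInv z d ⁻¹' ball 0 r = ball z r := by
  ext w
  rw [mem_preimage, mem_ball, mem_ball, dist_zero_right, dist_eq_norm]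
  unfold pvthInv
  rw [norm_div, hd, div_one]

/-- the marks of the placed side are the marks of `PvkdPlug.pg` -/
theorem pvhf_at_sd (𝔭 : PvkdPlug) (𝔱 : PvhfTr) (σ : Bool) (z : ℂ) {d : ℂ} (hd : ‖d‖ = 1) :
    ((pvhfR 𝔭 𝔱 σ).at z d).sd = ⟨𝔭.pg z d, pvkdAt z d (𝔱.Ln σ true), pvkdAt z d (𝔱.Ln σ false), pvkdAt z d (𝔱.Dr σ true), pvkdAt z d (𝔱.Dr σ false)⟩ := by
  have h0 := pvhf_ne_zero hd
  unfold PvhfReg.at pvhfR PvhfSd.comap PvzlPg.comap PvkdPlug.pg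
  simp only [pvhf_at_ball z hd]
  simp only [pvhf_at_eq z h0]

/-- **DICTIONARY IN THE WORDS OF `Tr/PlugK`**, every frame: the placed side event at a configuration in general position -/
theorem pvhf_S_iff (hG : PvhfGeo 𝔭 𝔱) (σ : Bool) (z : ℂ) {d : ℂ} (hd : ‖d‖ = 1) {η : Conf PvPt} (hη : DelGood (cfSites η)) :
    η ∈ cfMap (pvthInv z d) ⁻¹' pvhfS 𝔭 𝔱 σ ↔ ((PvtnFin (pvkdAt z d (𝔱.Es σ)) η ∧ PvtrMesh 𝔱.μ (pvkdAt z d 𝔱.W) (cfSites η)) ∧ PvtrMesh 𝔭.ρ (pvkdAt z d (𝔱.Es σ)) (cfSites η)) ∧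
      ∃ g, PvkdGate 𝔭 η z d g ∧ PvhfLn η z d (𝔱.Ln σ true) (𝔱.Dr σ true) true (pvkdFoot g σ true) ∧ PvhfLn η z d (𝔱.Ln σ false) (𝔱.Dr σ false) false (pvkdFoot g σ false) := by
  rw [(pvhf_S_is_at hG σ z hd).plane ((hG.wf σ).at z hd) hη, pvhf_at_sd 𝔭 𝔱 σ z hd]
  refine and_congr ?_ Iff.rfl
  show ((PvtnFin (pvthInv z d ⁻¹' 𝔱.Es σ) η ∧ PvtrMesh 𝔱.μ (pvthInv z d ⁻¹' 𝔱.W) (cfSites η)) ∧ PvtrMesh 𝔭.ρ (pvthInv z d ⁻¹' 𝔱.Es σ) (cfSites η)) ↔ _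
  simp only [pvhf_at_eq z (pvhf_ne_zero hd)]

theorem pvhf_at_id (S : Set ℂ) : pvkdAt 0 1 S = S := by
  unfold pvkdAt
  rw [pvth_sim_id, image_id]

/-- the reference frame -/
theorem pvhf_S_iff0 (hG : PvhfGeo 𝔭 𝔱) (σ : Bool) {η : Conf PvPt} (hη : DelGood (cfSites η)) :
    η ∈ pvhfS 𝔭 𝔱 σ ↔ ((PvtnFin (𝔱.Es σ) η ∧ PvtrMesh 𝔱.μ 𝔱.W (cfSites η)) ∧ PvtrMesh 𝔭.ρ (𝔱.Es σ) (cfSites η)) ∧
      ∃ g, PvkdGate 𝔭 η 0 1 g ∧ PvhfLn η 0 1 (𝔱.Ln σ true) (𝔱.Dr σ true) true (pvkdFoot g σ true) ∧ PvhfLn η 0 1 (𝔱.Ln σ false) (𝔱.Dr σ false) false (pvkdFoot g σ false) := by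
  have h := pvhf_S_iff hG σ 0 (d := 1) norm_one hη
  simp only [pvhf_at_id] at h
  rw [pvth_inv_id] at h
  rw [← h]
  show η ∈ pvhfS 𝔭 𝔱 σ ↔ cfMap id η ∈ pvhfS 𝔭 𝔱 σ
  rw [pvth_cfMap_id]

theorem pvhf_room_core (hG : PvhfGeo 𝔭 𝔱) (σ β : Bool) : 𝔱.Ln σ β ⊆ pvtrCore (3 * 𝔭.ρ) (𝔱.Es σ) := by
  refine Subset.trans ?_ (hG.wf σ).core
  cases β
  · exact fun x hx => Or.inr hx
  · exact fun x hx => Or.inl (Or.inr hx)

/-- **TRUNCATION OF A LANE** (discrete intermediate value): on the mesh of the window a lane of record contains a truncated lane -/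
theorem pvhf_trunc (hG : PvhfGeo 𝔭 𝔱) (σ β : Bool) {η : Conf PvPt} (hm : PvtrMesh 𝔭.ρ (𝔱.Es σ) (cfSites η)) {a : ↥(cfSites η)} (ha : (a : ℂ) ∈ ball (0 : ℂ) 𝔭.b)
    (hl : PvhfLn η 0 1 (𝔭.Ln σ β) (𝔭.Dr σ β) β a) : PvhfLn η 0 1 (𝔱.Ln σ β) (𝔱.Dr σ β) β a := by
  unfold PvhfLn at hl ⊢
  simp only [pvhf_at_id] at hl ⊢
  obtain ⟨v, hv, ha0, hrt⟩ := hl
  have key : ∀ v : ↥(cfSites η), ReflTransGen (fun u w => (pvkiT η).EdgeIn univ u w ∧ w ∈ pvldCol (pvkiS η) {u | (u : ℂ) ∈ 𝔭.Ln σ β} β) a v →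
      (∃ v' : ↥(cfSites η), (v' : ℂ) ∈ 𝔱.Dr σ β ∧ (pvkiT η).Join univ (pvldCol (pvkiS η) {u | (u : ℂ) ∈ 𝔱.Ln σ β} β) a v') ∨
      ((v : ℂ) ∈ 𝔱.Ln σ β ∧ (v : ℂ) ∉ 𝔱.Dr σ β ∧ (pvkiT η).Join univ (pvldCol (pvkiS η) {u | (u : ℂ) ∈ 𝔱.Ln σ β} β) a v) := by
    intro v hrt
    induction hrt with
    | refl =>
      have h1 : (a : ℂ) ∈ 𝔱.Ln σ β := hG.foot σ β ⟨ha, ha0.1⟩
      have hJ : (pvkiT η).Join univ (pvldCol (pvkiS η) {u | (u : ℂ) ∈ 𝔱.Ln σ β} β) a a := ⟨⟨h1, ha0.2⟩, ReflTransGen.refl⟩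
      by_cases h2 : (a : ℂ) ∈ 𝔱.Dr σ β
      · exact Or.inl ⟨a, h2, hJ⟩
      · exact Or.inr ⟨h1, h2, hJ⟩
    | @tail u w _ hstep ih =>
      rcases ih with h | ⟨h1, h2, hJ⟩
      · exact Or.inl h
      · obtain ⟨⟨d, -, hs, ht⟩, hwX⟩ := hstep
        have hface := delb_plane_face d
        have e1 : (delbPl (cfSites η)).toMap.src d = u := hs
        have e2 : (delbPl (cfSites η)).toMap.tgt d = w := ht
        rw [e1, e2] at hface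
        have hret := pvtr_of_mesh_vertex (hG.wf σ).ρ0 hm (pvhf_room_core hG σ β h1) hface
        have h3 : (w : ℂ) ∈ 𝔱.Ln σ β := hG.step σ β _ h1 h2 _ hwX.1 hret.side_le
        have hJ' : (pvkiT η).Join univ (pvldCol (pvkiS η) {u | (u : ℂ) ∈ 𝔱.Ln σ β} β) a w :=
          ⟨hJ.1, hJ.2.tail ⟨⟨d, Or.inl (mem_univ _), hs, ht⟩, ⟨h3, hwX.2⟩⟩⟩
        by_cases h4 : (w : ℂ) ∈ 𝔱.Dr σ β
        · exact Or.inl ⟨w, h4, hJ'⟩
        · exact Or.inr ⟨h3, h4, hJ'⟩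
  rcases key v hrt with h | ⟨h1, h2, -⟩
  · exact h
  · exact absurd (hG.far σ β ⟨hv, h1⟩) h2

/-- the foot of a lane is a vertex of the circuit -/
theorem pvhf_foot_rim {V D : Type} {T : PvMap V D} {s : V → Bool} (g : T.Gate s) (σ β : Bool) : ∃ k, pvkdFoot g σ β = T.src (g.c.e k) := by
  cases σ <;> cases β
  · exact ⟨1, g.c.chain 0⟩
  · exact ⟨0, rfl⟩
  · exact ⟨g.m - 1, T.tgt_opp _⟩
  · exact ⟨g.m, rfl⟩

theorem pvhf_fin_of_nice {η : Conf PvPt} (h : VorLF (cfSites η)) {E : Set ℂ} (hE : Bornology.IsBounded E) : PvtnFin E η := by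
  obtain ⟨R, hR⟩ := hE.subset_closedBall 0
  have hfin : ((cfSites η ∩ closedBall (0 : ℂ) R) ×ˢ (univ : Set Bool)).Finite := (h R).prod finite_univ
  refine hfin.subset ?_
  rintro p ⟨hp, hk⟩
  exact ⟨⟨⟨p, hp, rfl⟩, hR hk.1⟩, mem_univ _⟩

/-- **[HDICT], DETERMINISTIC**: the plug with its four half lanes of record + the mesh of the window `E^σ` ⟹ the side event `S^σ` -/
theorem pvhf_hdict_det (hG : PvhfGeo 𝔭 𝔱) (σ : Bool) {η : Conf PvPt} (hη : η ∈ 𝔭.CH 0 1) (hm : PvtrMesh 𝔭.ρ (𝔱.Es σ) (cfSites η)) (hμ : PvtrMesh 𝔱.μ 𝔱.W (cfSites η)) : η ∈ pvhfS 𝔭 𝔱 σ := by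
  obtain ⟨⟨⟨hN, -⟩, -⟩, hH⟩ := hη
  obtain ⟨-, g, hg, hb⟩ := mem_iInter.1 (mem_iInter.1 hH σ) true
  obtain ⟨-, g₂, hg₂, hw⟩ := mem_iInter.1 (mem_iInter.1 hH σ) false
  obtain rfl := pvkx_uniq hN hG.ZZ hg hg₂
  have hrim : ∀ β, ((pvkdFoot g σ β : ↥(cfSites η)) : ℂ) ∈ ball (0 : ℂ) 𝔭.b := by
    intro β
    obtain ⟨k, hk⟩ := pvhf_foot_rim g σ β
    rw [hk]
    exact hg.least.reg.rim k
  exact (pvhf_S_iff0 hG σ hN.good).2 ⟨⟨⟨pvhf_fin_of_nice hN.1 (hG.wf σ).bE, hμ⟩, hm⟩, g, hg, pvhf_trunc hG σ true hm (hrim true) hb, pvhf_trunc hG σ false hm (hrim false) hw⟩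

/-- **[HDICT]** with `err` = the probability that the mesh of one of the two windows fails -/
theorem pvhf_hdict (𝔤 : PvkdGeo) (hG : PvhfGeo 𝔤.toPvkdPlug 𝔱) (ε : ℝ) :
    𝔤.HDict (pvhfH 𝔤.toPvkdPlug 𝔱) ε (pvP ε {η | ¬ PvtrMesh 𝔤.ρ (𝔱.Es true) (cfSites η)} + pvP ε {η | ¬ PvtrMesh 𝔤.ρ (𝔱.Es false) (cfSites η)} + pvP ε {η | ¬ PvtrMesh 𝔱.μ 𝔱.W (cfSites η)}) := by
  unfold PvkdGeo.HDict
  refine (measure_mono ?_).trans ((measure_union_le _ _).trans (add_le_add_left (measure_union_le _ _) _))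
  rintro η ⟨hη, hn⟩
  by_contra hcon
  have h1 : PvtrMesh 𝔤.ρ (𝔱.Es true) (cfSites η) := by_contra fun h => hcon (Or.inl (Or.inl h))
  have h2 : PvtrMesh 𝔤.ρ (𝔱.Es false) (cfSites η) := by_contra fun h => hcon (Or.inl (Or.inr h))
  have h3 : PvtrMesh 𝔱.μ 𝔱.W (cfSites η) := by_contra fun h => hcon (Or.inr h)
  refine hn (mem_iInter.2 fun i => ?_)
  unfold pvhfH
  cases decide (i.1 < 2)
  · exact pvhf_hdict_det hG false hη h2 h3
  · exact pvhf_hdict_det hG true hη h1 h3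

/-- **[HDICT], eventually in `ε`, every `err > 0`** -/
theorem pvhf_hdict_lim (𝔤 : PvkdGeo) (hG : PvhfGeo 𝔤.toPvkdPlug 𝔱) {err : ℝ≥0∞} (herr : 0 < err) : ∀ᶠ ε in 𝓝[>] (0 : ℝ), 𝔤.HDict (pvhfH 𝔤.toPvkdPlug 𝔱) ε err := by
  have h1 := pvds_mesh_lim (hG.wf true).ρ0 (hG.wf true).bE
  have h2 := pvds_mesh_lim (hG.wf false).ρ0 (hG.wf false).bE
  have h0 := pvds_mesh_lim (hG.wf true).μ0 ((hG.wf true).bE.subset (hG.wf true).subW)
  have h3 := (h1.add h2).add h0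
  rw [add_zero, add_zero] at h3
  filter_upwards [h3.eventually (gt_mem_nhds herr)] with ε hε
  exact (pvhf_hdict 𝔤 hG ε).trans hε.le

end inst

/-! ## 5. (after sec. 6, which it uses) CONTINUUM FORM, ENDS OF 272, THE FORM OF 204 -/

/-- **the plug with the truncated lanes** (`𝔮` of 204, `Tr/FrcDet`) -/
def pvhfQ (𝔭 : PvkdPlug) (𝔱 : PvhfTr) : PvkdPlug := { 𝔭 with Ln := 𝔱.Ln, Dr := 𝔱.Dr }

/-- the feet of the lanes of side `σ` and colour `β` on the gates of record, reference frame -/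
def pvhfFt (𝔭 : PvkdPlug) (σ β : Bool) (η : Conf PvPt) : Set ℂ := {x | ∃ g, PvkdGate 𝔭 η 0 1 g ∧ x = ((pvkdFoot g σ β : ↥(cfSites η)) : ℂ)}

/-- **THE END OF 272 OF THE SIDE `σ`**, reference frame; `O` = the frozen region; `A β ⊇` the `ρ`-neighbourhood of the room, `X β ⊇` room ∩ disc of the gate, `Y β ⊇` target: the hook zones of the layout (278), verbatim -/
noncomputable def pvhfEnd (𝔭 : PvkdPlug) (𝔱 : PvhfTr) (σ : Bool) (O : Set ℂ) (A X Y : Bool → Set ℂ) : PvnkEnd where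
  O := O
  E := 𝔱.Es σ
  L := pvhfS 𝔭 𝔱 σ
  c := true
  A₁ := A true
  A₂ := A false
  X₁ := X true
  X₂ := X false
  Y₁ := Y true
  Y₂ := Y false
  S₁ := pvhfFt 𝔭 σ true
  S₂ := pvhfFt 𝔭 σ false

/-- **the same truncation with the fine mesh `μ` on `W`** (cure of DEFECT M: `W := O₀`) -/
def PvhfTr.fine (𝔱 : PvhfTr) (μ : ℝ) (W : Set ℂ) : PvhfTr := { 𝔱 with μ := μ, W := W }

theorem pvhf_eqns_cite5 : True := by
  have := @pvhfQ.eq_1; have := @pvhfFt.eq_1; have := @pvhfEnd.eq_1; have := @PvhfTr.fine.eq_1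
  trivial

section ends

variable {𝔭 : PvkdPlug} {𝔱 : PvhfTr}

/-- on the mesh the cell of a site of the `3ρ`-core is small -/
theorem pvhf_cell_small {Y E : Set ℂ} {ρ : ℝ} (hρ : 0 < ρ) (hm : PvtrMesh ρ E Y) {v : ℂ} (hv : v ∈ pvtrCore (3 * ρ) E) : vorCell Y v ⊆ closedBall v ρ := by
  refine pvge_cell_core hρ.le (r := 2 * ρ) (by linarith) hm ?_
  intro w hw u hu
  refine hv ?_
  rw [mem_closedBall] at hw hu ⊢
  calc dist u v ≤ dist u w + dist w v := dist_triangle _ _ _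
    _ ≤ 3 * ρ := by linarith

/-- a graph lane is a path in the region of its colour (twin of `pvhd_path_of_join` of 204) -/
theorem pvhf_path_of_join {η : Conf PvPt} (hok : CfOK η) {ρ : ℝ} (hρ : 0 < ρ) {E R A : Set ℂ} (hm : PvtrMesh ρ E (cfSites η)) (hR : R ⊆ pvtrCore (3 * ρ) E)
    (hA : ∀ u ∈ R, closedBall u ρ ⊆ A) {c : Bool} {a b : ↥(cfSites η)} (h : (pvkiT η).Join univ (pvldCol (pvkiS η) {u | (u : ℂ) ∈ R} c) a b) :
    JoinedIn (pvlnReg c η ∩ A) (a : ℂ) (b : ℂ) := by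
  obtain ⟨ha, hj⟩ := h
  have hcell : ∀ u : ↥(cfSites η), u ∈ pvldCol (pvkiS η) {u | (u : ℂ) ∈ R} c → vorCell (cfSites η) u ⊆ pvlnReg c η ∩ A := by
    intro u hu z hz
    refine ⟨?_, hA u hu.1 (pvhf_cell_small hρ hm (hR hu.1) hz)⟩
    rw [pvfv_reg_eq hok]
    exact ⟨u, ⟨u.2, hu.2⟩, hz⟩
  have key : b ∈ pvldCol (pvkiS η) {u | (u : ℂ) ∈ R} c ∧ JoinedIn (pvlnReg c η ∩ A) (a : ℂ) (b : ℂ) := by
    induction hj with
    | refl => exact ⟨ha, JoinedIn.refl (hcell a ha (vor_self_mem _ _))⟩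
    | @tail u w _ huw ih =>
      obtain ⟨⟨d, -, h1, h2⟩, hw⟩ := huw
      have hadj : DelAdj (cfSites η) u w := by
        have := d.2.2
        rw [← h1, ← h2]
        exact this
      obtain ⟨z, hzu, hzw⟩ := hadj.2.2.2
      refine ⟨hw, ih.2.trans ?_⟩
      have s1 : JoinedIn (pvlnReg c η ∩ A) (u : ℂ) z :=
        JoinedIn.of_segment_subset (((vor_convex_cell _ _).segment_subset (vor_self_mem _ _) hzu).trans (hcell u ih.1))
      have s2 : JoinedIn (pvlnReg c η ∩ A) z (w : ℂ) :=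
        JoinedIn.of_segment_subset (((vor_convex_cell _ _).segment_subset hzw (vor_self_mem _ _)).trans (hcell w hw))
      exact s1.trans s2
  exact key.2

/-- **THE FORM OF 204** (`dp dm` of `pvhd_det_ae`, `hH` of `pvhd_det`), every frame: the placed side event gives the mesh of the placed window and the two half lanes of the plug `pvhfQ 𝔭 𝔱` -/
theorem pvhf_H_at (hG : PvhfGeo 𝔭 𝔱) (σ : Bool) (z : ℂ) {d : ℂ} (hd : ‖d‖ = 1) {η : Conf PvPt} (hN : PvatNice (cfSites η)) (h : η ∈ cfMap (pvthInv z d) ⁻¹' pvhfS 𝔭 𝔱 σ) :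
    PvtrMesh 𝔭.ρ (pvkdAt z d (𝔱.Es σ)) (cfSites η) ∧ ∀ β, η ∈ (pvhfQ 𝔭 𝔱).H z d σ β := by
  obtain ⟨⟨hf, hm⟩, g, hg, hb, hw⟩ := (pvhf_S_iff hG σ z hd hN.good).1 h
  refine ⟨hm, fun β => ⟨⟨hN, ?_⟩, g, hg, ?_⟩⟩
  · exact (pvsp_mesh_mono (image_mono (hG.wf σ).sub) hf.1 hm).2
  · cases β
    · exact hw
    · exact hb

/-- the reference frame -/
theorem pvhf_H_ref (hG : PvhfGeo 𝔭 𝔱) (σ : Bool) {η : Conf PvPt} (hN : PvatNice (cfSites η)) (h : η ∈ pvhfS 𝔭 𝔱 σ) :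
    PvtrMesh 𝔭.ρ (𝔱.Es σ) (cfSites η) ∧ ∀ β, η ∈ (pvhfQ 𝔭 𝔱).H 0 1 σ β := by
  have h1 := pvhf_H_at hG σ 0 (d := 1) norm_one hN (by
    rw [pvth_inv_id]
    show cfMap id η ∈ pvhfS 𝔭 𝔱 σ
    rw [pvth_cfMap_id]
    exact h)
  rwa [pvhf_at_id] at h1

/-- the side path of colour `β`, continuum form -/
theorem pvhf_end_path (hG : PvhfGeo 𝔭 𝔱) (σ β : Bool) {A X Y : Set ℂ} (hA : ∀ u ∈ 𝔱.Ln σ β, closedBall u 𝔭.ρ ⊆ A) (hX : ball 0 𝔭.b ∩ 𝔱.Ln σ β ⊆ X) (hY : 𝔱.Dr σ β ⊆ Y)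
    {η : Conf PvPt} (hη : η ∈ pvhfS 𝔭 𝔱 σ) (hok : CfOK η) : ∃ x ∈ pvhfFt 𝔭 σ β η, ∃ y ∈ Y, x ∈ X ∧ JoinedIn (pvlnReg β η ∩ A) x y := by
  obtain ⟨⟨hf, hm⟩, g, hg, hb, hw⟩ := (pvhf_S_iff0 hG σ hok.del).1 hη
  have hl : PvhfLn η 0 1 (𝔱.Ln σ β) (𝔱.Dr σ β) β (pvkdFoot g σ β) := by
    cases β
    · exact hw
    · exact hb
  unfold PvhfLn at hl
  simp only [pvhf_at_id] at hl
  obtain ⟨v, hv, hj⟩ := hl
  obtain ⟨k, hk⟩ := pvhf_foot_rim g σ β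
  have hrim : ((pvkdFoot g σ β : ↥(cfSites η)) : ℂ) ∈ ball (0 : ℂ) 𝔭.b := by
    rw [hk]
    exact hg.least.reg.rim k
  exact ⟨_, ⟨g, hg, rfl⟩, v, hY hv, hX ⟨hrim, hj.1.1⟩, pvhf_path_of_join hok (hG.wf σ).ρ0 hm (pvhf_room_core hG σ β) hA hj⟩

/-- **THE END IS WELL FORMED** -/
theorem pvhf_end_ok (hG : PvhfGeo 𝔭 𝔱) (σ : Bool) {O : Set ℂ} (mO : MeasurableSet O) {A X Y : Bool → Set ℂ} (hA : ∀ β, ∀ u ∈ 𝔱.Ln σ β, closedBall u 𝔭.ρ ⊆ A β)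
    (hX : ∀ β, ball 0 𝔭.b ∩ 𝔱.Ln σ β ⊆ X β) (hY : ∀ β, 𝔱.Dr σ β ⊆ Y β) : (pvhfEnd 𝔭 𝔱 σ O A X Y).Ok where
  mO := mO
  mE := (hG.wf σ).wE.1
  mL := (pvhf_S_is hG σ).meas (hG.wf σ)
  rL := pvhf_rS hG σ
  path₁ η hη hok := pvhf_end_path hG σ true (hA true) (hX true) (hY true) hη hok
  path₂ η hη hok := pvhf_end_path hG σ false (hA false) (hX false) (hY false) hη hok

/-- **DETERMINISTIC MONOTONICITY** (= `PvjoMono (pvhfS 𝔭 𝔱 σ) true O (𝔱.Ln σ true) (𝔱.Ln σ false)` of 52, unfolded) -/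
theorem pvhf_S_mono (hG : PvhfGeo 𝔭 𝔱) (σ : Bool) {O : Set ℂ} (hO : 𝔭.Ew ⊆ O) {η η' : Conf PvPt} (hok : CfOK η) (hY : cfSites η' = cfSites η)
    (fz : ∀ a ∈ O, cfCol η' a = cfCol η a) (k₁ : ∀ a ∈ 𝔱.Ln σ true, a ∈ cfSites η → cfCol η a = true → cfCol η' a = true)
    (k₂ : ∀ a ∈ 𝔱.Ln σ false, a ∈ cfSites η → cfCol η a = false → cfCol η' a = false) (he : η ∈ pvhfS 𝔭 𝔱 σ) : η' ∈ pvhfS 𝔭 𝔱 σ :=
  (pvhf_S_is hG σ).mono (hG.wf σ) hY hok.del (fun a ha => fz a (hO ha)) k₁ k₂ he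

/-! ### the fine mesh (DEFECT M of 233) -/

/-- the default of `PvhfTr` is no condition -/
theorem pvhf_mesh_empty {μ : ℝ} (hμ : 0 ≤ μ) (Y : Set ℂ) : PvtrMesh μ ∅ Y := fun z hz => absurd (hz (mem_closedBall_self hμ)) (notMem_empty _)

/-- **THE SIDE EVENTS CONTAIN THE FINE MESH** -/
theorem pvhf_S_fine {σ : Bool} {η : Conf PvPt} (h : η ∈ pvhfS 𝔭 𝔱 σ) : PvtnFin (𝔱.Es σ) η ∧ PvtrMesh 𝔱.μ 𝔱.W (cfSites η) := h.1.1

/-- finitely many points in the window of the fine mesh -/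
theorem pvhf_S_fin (hG : PvhfGeo 𝔭 𝔱) {σ : Bool} {η : Conf PvPt} (h : η ∈ pvhfS 𝔭 𝔱 σ) : PvtnFin 𝔱.W η :=
  (pvhf_S_fine h).1.subset (inter_subset_inter_right _ (prod_mono (hG.wf σ).subW Subset.rfl))

/-- every frame -/
theorem pvhf_S_fine_at (σ : Bool) (z : ℂ) {d : ℂ} (hd : ‖d‖ = 1) {η : Conf PvPt} (h : η ∈ cfMap (pvthInv z d) ⁻¹' pvhfS 𝔭 𝔱 σ) :
    PvtnFin (pvkdAt z d (𝔱.Es σ)) η ∧ PvtrMesh 𝔱.μ (pvkdAt z d 𝔱.W) (cfSites η) := by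
  have h1 : η ∈ cfMap (pvthInv z d) ⁻¹' pvhfMs (pvhfR 𝔭 𝔱 σ) := h.1
  rw [pvhf_ms_at _ z hd] at h1
  have h2 : PvtnFin (pvthInv z d ⁻¹' 𝔱.Es σ) η ∧ PvtrMesh 𝔱.μ (pvthInv z d ⁻¹' 𝔱.W) (cfSites η) := h1.1
  simpa only [pvhf_at_eq z (pvhf_ne_zero hd)] using h2

/-- **[GEO] WITH A FINE MESH**: three more trivial fields -/
theorem pvhf_geo_fine (hG : PvhfGeo 𝔭 𝔱) {μ : ℝ} (hμ : 0 < μ) {W : Set ℂ} (mW : MeasurableSet W) (hW : ∀ σ, W ⊆ 𝔱.Es σ) : PvhfGeo 𝔭 (𝔱.fine μ W) :=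
  ⟨fun σ => ⟨(hG.wf σ).ρ0, (hG.wf σ).mR, (hG.wf σ).wE, (hG.wf σ).bE, (hG.wf σ).sub, (hG.wf σ).core, (hG.wf σ).coreG, hμ, mW, hW σ⟩, hG.ZZ, hG.foot, hG.step, hG.far⟩

/-- the side event with a fine mesh = the side event ∩ the fine mesh -/
theorem pvhf_S_fine_inter (𝔭 : PvkdPlug) (𝔱 : PvhfTr) (σ : Bool) (μ : ℝ) (W : Set ℂ) :
    pvhfS 𝔭 (𝔱.fine μ W) σ ∩ {η | PvtrMesh 𝔱.μ 𝔱.W (cfSites η)} = pvhfS 𝔭 𝔱 σ ∩ {η | PvtrMesh μ W (cfSites η)} := by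
  ext η
  constructor
  · rintro ⟨⟨⟨⟨h1, h2⟩, h3⟩, h4⟩, h5⟩
    exact ⟨⟨⟨⟨h1, h5⟩, h3⟩, h4⟩, h2⟩
  · rintro ⟨⟨⟨⟨h1, h2⟩, h3⟩, h4⟩, h5⟩
    exact ⟨⟨⟨⟨h1, h5⟩, h3⟩, h4⟩, h2⟩

/-- **over a truncation without fine mesh** (`pvhfT r`, `pvhfTw r Es`, `pvhfT0`, `pvjoT r` of 52) -/
theorem pvhf_S_fine_eq (𝔭 : PvkdPlug) {𝔱 : PvhfTr} (h0 : 0 ≤ 𝔱.μ) (hW : 𝔱.W = ∅) (σ : Bool) (μ : ℝ) (W : Set ℂ) :
    pvhfS 𝔭 (𝔱.fine μ W) σ = pvhfS 𝔭 𝔱 σ ∩ {η | PvtrMesh μ W (cfSites η)} := by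
  rw [← pvhf_S_fine_inter]
  refine (inter_eq_left.2 fun η _ => ?_).symm
  show PvtrMesh 𝔱.μ 𝔱.W (cfSites η)
  rw [hW]
  exact pvhf_mesh_empty h0 _

end ends

/-! ## 7. THE GEOMETRY OF RECORD -/

/-- **THE TRUNCATION OF RECORD** for `pvkdP r` (numbers of 52): lanes cut at `|x| = 5r`, targets `|x| ∈ [4r, 5r]`, window `E^σ = Ew ∪ [3r, 5r + 3ρ] × [-3r/2 - 3ρ, 3r/2 + 3ρ]` (mirrored for `σ = -`), `ρ = r/16` -/
noncomputable def pvhfT (r : ℝ) : PvhfTr where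
  Ln := fun σ β => if β then pvkdRect σ (r / 2) (3 * r) (-(r / 2)) (3 * r / 2) ∪ pvkdRect σ (2 * r) (5 * r) (r / 2) (3 * r / 2)
    else pvkdRect σ (r / 2) (3 * r) (-(3 * r / 2)) (r / 2) ∪ pvkdRect σ (2 * r) (5 * r) (-(3 * r / 2)) (-(r / 2))
  Dr := fun σ β => if β then pvkdRect σ (4 * r) (5 * r) (r / 2) (3 * r / 2) else pvkdRect σ (4 * r) (5 * r) (-(3 * r / 2)) (-(r / 2))
  Es := fun σ => pvwSq 0 (3 * r) ∪ pvkdRect σ (3 * r) (5 * r + 3 * (r / 16)) (-(3 * r / 2) - 3 * (r / 16)) (3 * r / 2 + 3 * (r / 16))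

theorem pvhf_eqns_cite7 : True := by
  have := @pvhfT.eq_1
  trivial

section record

variable {r : ℝ}

/-- LEAF (rectangles) -/
theorem pvhf_geo_foot (hr : 0 < r) (σ β : Bool) : ball 0 (pvkdP r).b ∩ (pvkdP r).Ln σ β ⊆ (pvhfT r).Ln σ β := by
  rintro w ⟨hw, hL⟩
  have h1 : ‖w‖ < 2 * r := by simpa [pvkdP] using hw
  have h2 := Complex.abs_re_le_norm w
  have h3 := abs_le.1 (h2.trans h1.le)
  cases σ <;> cases β <;> simp only [pvkdP, pvhfT, pvkdRect, rswRect, if_true, if_false, mem_union, mem_ofPred_eq, Bool.false_eq_true] at hL ⊢ <;>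
    rcases hL with hL | hL
  all_goals first
    | exact Or.inl hL
    | exact Or.inr ⟨by linarith [hL.1, hL.2.1, h3.1, h3.2], by linarith [hL.1, hL.2.1, h3.1, h3.2], hL.2.2.1, hL.2.2.2⟩

/-- LEAF (rectangles): `a.re < 4r` (mirrored: `> -4r`), `|re (a - b)| ≤ r/8` -/
theorem pvhf_geo_step (hr : 0 < r) (σ β : Bool) : ∀ a ∈ (pvhfT r).Ln σ β, a ∉ (pvhfT r).Dr σ β → ∀ b ∈ (pvkdP r).Ln σ β, ‖a - b‖ ≤ 2 * (pvkdP r).ρ → b ∈ (pvhfT r).Ln σ β := by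
  intro a ha hD b hb hab
  have h1 : ‖a - b‖ ≤ r / 8 := by
    have : 2 * (pvkdP r).ρ = r / 8 := by simp only [pvkdP]; ring
    rwa [this] at hab
  have h2 := abs_le.1 ((Complex.abs_re_le_norm (a - b)).trans h1)
  rw [Complex.sub_re] at h2
  cases σ <;> cases β <;> simp only [pvkdP, pvhfT, pvkdRect, rswRect, if_true, if_false, mem_union, mem_ofPred_eq, Bool.false_eq_true, not_and, not_le] at ha hD hb ⊢ <;>
    rcases hb with hb | hb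
  all_goals first
    | exact Or.inl hb
    | skip
  all_goals
    rcases ha with ha | ha
  all_goals first
    | exact Or.inr ⟨by linarith [ha.1, ha.2.1, hb.1, hb.2.1, h2.1, h2.2], by linarith [ha.1, ha.2.1, hb.1, hb.2.1, h2.1, h2.2], hb.2.2.1, hb.2.2.2⟩
    | (have h4 : a.re < 4 * r := by
        by_contra h
        have := hD (not_lt.1 h) ha.2.1 ha.2.2.1
        linarith [ha.2.2.2]
       exact Or.inr ⟨by linarith [ha.1, ha.2.1, hb.1, hb.2.1, h2.1, h2.2], by linarith [ha.1, ha.2.1, hb.1, hb.2.1, h2.1, h2.2], hb.2.2.1, hb.2.2.2⟩)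
    | (have h4 : -(4 * r) < a.re := by
        by_contra h
        have := hD ha.1 (not_lt.1 h) ha.2.2.1
        linarith [ha.2.2.2]
       exact Or.inr ⟨by linarith [ha.1, ha.2.1, hb.1, hb.2.1, h2.1, h2.2], by linarith [ha.1, ha.2.1, hb.1, hb.2.1, h2.1, h2.2], hb.2.2.1, hb.2.2.2⟩)

/-- LEAF (rectangles): the intersection is empty -/
theorem pvhf_geo_far (hr : 0 < r) (σ β : Bool) : (pvkdP r).Dr σ β ∩ (pvhfT r).Ln σ β ⊆ (pvhfT r).Dr σ β := by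
  rintro w ⟨hD, hL⟩
  exfalso
  cases σ <;> cases β <;> simp only [pvkdP, pvhfT, pvkdRect, rswRect, if_true, if_false, mem_union, mem_ofPred_eq, Bool.false_eq_true] at hD hL <;>
    rcases hL with hL | hL <;> linarith [hL.1, hL.2.1, hD.1, hD.2.1]

theorem pvhf_geo_ZZ (hr : 0 < r) : Disjoint (pvkdP r).Zm (pvkdP r).Zp := by
  refine Set.disjoint_left.2 fun w h1 h2 => ?_
  have a1 : w.re ≤ -(r / 2) := h1.2.1
  have a2 : r / 2 ≤ w.re := h2.1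
  linarith

theorem pvhf_rect_meas (σ : Bool) (x0 x1 y0 y1 : ℝ) : MeasurableSet (pvkdRect σ x0 x1 y0 y1) := by
  unfold pvkdRect
  split_ifs
  · exact (rsw_rect_closed _ _ _ _).measurableSet
  · exact (rsw_rect_closed _ _ _ _).measurableSet

/-- the zone of the gate lies deep in the window of the plug -/
theorem pvhf_coreG {r : ℝ} (hr : 0 < r) {w : ℂ} (h1 : |w.re| ≤ 2 * r) (h2 : |w.im| ≤ 2 * r) : w ∈ pvtrCore (3 * (r / 16)) (pvwSq 0 (3 * r)) := by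
  intro u hu
  rw [mem_closedBall, dist_eq_norm] at hu
  have a1 := (Complex.abs_re_le_norm (u - w)).trans hu
  have a2 := (Complex.abs_im_le_norm (u - w)).trans hu
  rw [Complex.sub_re] at a1
  rw [Complex.sub_im] at a2
  rw [abs_le] at a1 a2 h1 h2
  refine ⟨?_, ?_⟩
  · rw [sub_zero, abs_le]; constructor <;> linarith [a1.1, a1.2, h1.1, h1.2]
  · rw [sub_zero, abs_le]; constructor <;> linarith [a2.1, a2.2, h2.1, h2.2]

/-- **[WF] AT THE PLUG OF RECORD, ANY ROOMS, ANY WINDOW** -/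
theorem pvhf_wf_of {r : ℝ} (hr : 0 < r) {𝔱 : PvhfTr} (σ : Bool) (mL : ∀ β, MeasurableSet (𝔱.Ln σ β)) (mD : ∀ β, MeasurableSet (𝔱.Dr σ β)) (wE : PvplWin (𝔱.Es σ))
    (bE : Bornology.IsBounded (𝔱.Es σ)) (sub : pvwSq 0 (3 * r) ⊆ 𝔱.Es σ) (core : ∀ β, 𝔱.Ln σ β ⊆ pvtrCore (3 * (r / 16)) (𝔱.Es σ))
    (μ0 : 0 < 𝔱.μ) (mW : MeasurableSet 𝔱.W) (subW : 𝔱.W ⊆ 𝔱.Es σ) : (pvhfR (pvkdP r) 𝔱 σ).Wf := by
  have hG : (pvhfR (pvkdP r) 𝔱 σ).sd.KG ⊆ pvtrCore (3 * (r / 16)) (pvwSq 0 (3 * r)) := by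
    have hball : ∀ s : ℝ, s ≤ 2 * r → ball (0 : ℂ) s ⊆ pvtrCore (3 * (r / 16)) (pvwSq 0 (3 * r)) := by
      intro s hs w hw
      have h1 : ‖w‖ < s := by simpa using hw
      exact pvhf_coreG hr ((Complex.abs_re_le_norm w).trans (h1.le.trans hs)) ((Complex.abs_im_le_norm w).trans (h1.le.trans hs))
    rintro w ((hw | hw) | hw)
    · exact hball r (by linarith) hw
    · exact hball (2 * r) le_rfl hw
    · have hw' : -(2 * r) ≤ w.re ∧ w.re ≤ 2 * r ∧ -(r / 2) ≤ w.im ∧ w.im ≤ r / 2 := hw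
      exact pvhf_coreG hr (abs_le.2 ⟨hw'.1, hw'.2.1⟩) (abs_le.2 ⟨by linarith [hw'.2.2.1], by linarith [hw'.2.2.2]⟩)
  refine ⟨by show 0 < r / 16; positivity, ?_, wE, bE, sub, ?_, hG, μ0, mW, subW⟩
  · intro i
    fin_cases i
    · exact measurableSet_ball
    · exact measurableSet_ball
    · exact (rsw_rect_closed _ _ _ _).measurableSet
    · exact (rsw_rect_closed _ _ _ _).measurableSet
    · exact (rsw_rect_closed _ _ _ _).measurableSet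
    · exact mL true
    · exact mL false
    · exact mD true
    · exact mD false
  · rintro w ((hw | hw) | hw)
    · exact pvtr_core_mono sub (hG hw)
    · exact core true hw
    · exact core false hw

/-- the truncation of record (lanes cut at `|x| = 5r`) with windows of one's choice -/
noncomputable def pvhfTw (r : ℝ) (Es : Bool → Set ℂ) : PvhfTr := { Ln := (pvhfT r).Ln, Dr := (pvhfT r).Dr, Es := Es }

/-- **NO TRUNCATION** (ruling of 34, 12:20Z): the lanes of `PvkdPlug.H` as typed, windows of one's choice -/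
def pvhfT0 (𝔭 : PvkdPlug) (Es : Bool → Set ℂ) : PvhfTr := { Ln := 𝔭.Ln, Dr := 𝔭.Dr, Es := Es }

/-- **what a pair of windows owes** to the plug `pvkdP r` with lanes which end at `|x| = x` -/
structure PvhfWin (r x : ℝ) (Es : Bool → Set ℂ) : Prop where
  wE : ∀ σ, PvplWin (Es σ)
  bE : ∀ σ, Bornology.IsBounded (Es σ)
  sub : ∀ σ, pvwSq 0 (3 * r) ⊆ Es σ
  core : ∀ σ, pvkdRect σ (r / 2) x (-(3 * r / 2)) (3 * r / 2) ⊆ pvtrCore (3 * (r / 16)) (Es σ)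

theorem pvhf_eqns_cite8 : True := by
  have := @pvhfTw.eq_1; have := @pvhfT0.eq_1
  trivial

variable {Es : Bool → Set ℂ}

theorem pvhf_T_mL (r : ℝ) (σ β : Bool) : MeasurableSet ((pvhfT r).Ln σ β) := by
  cases β
  · exact (pvhf_rect_meas _ _ _ _ _).union (pvhf_rect_meas _ _ _ _ _)
  · exact (pvhf_rect_meas _ _ _ _ _).union (pvhf_rect_meas _ _ _ _ _)

theorem pvhf_T_mD (r : ℝ) (σ β : Bool) : MeasurableSet ((pvhfT r).Dr σ β) := by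
  cases β
  · exact pvhf_rect_meas _ _ _ _ _
  · exact pvhf_rect_meas _ _ _ _ _

theorem pvhf_P_mL (r : ℝ) (σ β : Bool) : MeasurableSet ((pvkdP r).Ln σ β) := by
  cases β
  · exact (pvhf_rect_meas _ _ _ _ _).union (pvhf_rect_meas _ _ _ _ _)
  · exact (pvhf_rect_meas _ _ _ _ _).union (pvhf_rect_meas _ _ _ _ _)

theorem pvhf_P_mD (r : ℝ) (σ β : Bool) : MeasurableSet ((pvkdP r).Dr σ β) := by
  cases β
  · exact pvhf_rect_meas _ _ _ _ _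
  · exact pvhf_rect_meas _ _ _ _ _

theorem pvhf_T_box (hr : 0 < r) (σ β : Bool) : (pvhfT r).Ln σ β ⊆ pvkdRect σ (r / 2) (5 * r) (-(3 * r / 2)) (3 * r / 2) := by
  intro w hw
  cases σ <;> cases β <;> simp only [pvhfT, pvkdRect, rswRect, if_true, if_false, mem_union, mem_ofPred_eq, Bool.false_eq_true] at hw ⊢ <;>
    rcases hw with hw | hw <;> exact ⟨by linarith [hw.1], by linarith [hw.2.1], by linarith [hw.2.2.1], by linarith [hw.2.2.2]⟩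

theorem pvhf_P_box (hr : 0 < r) (σ β : Bool) : (pvkdP r).Ln σ β ⊆ pvkdRect σ (r / 2) (7 * r) (-(3 * r / 2)) (3 * r / 2) := by
  intro w hw
  cases σ <;> cases β <;> simp only [pvkdP, pvkdRect, rswRect, if_true, if_false, mem_union, mem_ofPred_eq, Bool.false_eq_true] at hw ⊢ <;>
    rcases hw with hw | hw <;> exact ⟨by linarith [hw.1], by linarith [hw.2.1], by linarith [hw.2.2.1], by linarith [hw.2.2.2]⟩

/-- **[GEO], lanes cut at `5r`, any windows** -/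
theorem pvhf_geo_w (hr : 0 < r) (hE : PvhfWin r (5 * r) Es) : PvhfGeo (pvkdP r) (pvhfTw r Es) :=
  ⟨fun σ => pvhf_wf_of hr σ (pvhf_T_mL r σ) (pvhf_T_mD r σ) (hE.wE σ) (hE.bE σ) (hE.sub σ) (fun β => (pvhf_T_box hr σ β).trans (hE.core σ)) one_pos MeasurableSet.empty (empty_subset _),
    pvhf_geo_ZZ hr, pvhf_geo_foot hr, pvhf_geo_step hr, pvhf_geo_far hr⟩

/-- **[GEO], NO TRUNCATION, any windows** -/
theorem pvhf_geo_0 (hr : 0 < r) (hE : PvhfWin r (7 * r) Es) : PvhfGeo (pvkdP r) (pvhfT0 (pvkdP r) Es) :=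
  ⟨fun σ => pvhf_wf_of hr σ (pvhf_P_mL r σ) (pvhf_P_mD r σ) (hE.wE σ) (hE.bE σ) (hE.sub σ) (fun β => (pvhf_P_box hr σ β).trans (hE.core σ)) one_pos MeasurableSet.empty (empty_subset _),
    pvhf_geo_ZZ hr, fun σ β => inter_subset_right, fun σ β a _ _ b hb _ => hb, fun σ β => inter_subset_left⟩

theorem pvhf_rect_closed (σ : Bool) (x0 x1 y0 y1 : ℝ) : IsClosed (pvkdRect σ x0 x1 y0 y1) := by
  unfold pvkdRect
  split_ifs
  · exact rsw_rect_closed _ _ _ _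
  · exact rsw_rect_closed _ _ _ _

theorem pvhf_rect_bdd (σ : Bool) (x0 x1 y0 y1 : ℝ) : Bornology.IsBounded (pvkdRect σ x0 x1 y0 y1) := by
  unfold pvkdRect
  split_ifs
  · exact (rsw_rect_compact _ _ _ _).isBounded
  · exact (rsw_rect_compact _ _ _ _).isBounded

theorem pvhf_sq_eq (h : ℝ) : pvwSq 0 h = rswRect (-h) h (-h) h := by
  ext w
  simp only [pvwSq, rswRect, mem_ofPred_eq, sub_zero, abs_le]
  tauto

/-- the closed windows of `pvhfT r` -/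
theorem pvhf_T_win (hr : 0 < r) : PvhfWin r (5 * r) (pvhfT r).Es where
  wE σ := pvmg_win_closed ((by rw [pvhf_sq_eq]; exact rsw_rect_closed _ _ _ _ : IsClosed (pvwSq 0 (3 * r))).union (pvhf_rect_closed _ _ _ _ _))
  bE σ := (by rw [pvhf_sq_eq]; exact (rsw_rect_compact _ _ _ _).isBounded : Bornology.IsBounded (pvwSq 0 (3 * r))).union (pvhf_rect_bdd _ _ _ _ _)
  sub σ := subset_union_left
  core σ := by
    intro w hw u hu
    rw [mem_closedBall, dist_eq_norm] at hu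
    have a1 := abs_le.1 ((Complex.abs_re_le_norm (u - w)).trans hu)
    have a2 := abs_le.1 ((Complex.abs_im_le_norm (u - w)).trans hu)
    rw [Complex.sub_re] at a1
    rw [Complex.sub_im] at a2
    cases σ <;> simp only [pvhfT, pvkdRect, rswRect, pvwSq, if_true, if_false, mem_union, mem_ofPred_eq, Bool.false_eq_true, sub_zero, abs_le] at hw ⊢
    · by_cases h : -(3 * r) ≤ u.re
      · exact Or.inl ⟨⟨h, by linarith [hw.2.1, a1.2]⟩, ⟨by linarith [hw.2.2.1, a2.1], by linarith [hw.2.2.2, a2.2]⟩⟩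
      · exact Or.inr ⟨by linarith [hw.1, a1.1], by linarith [not_le.1 h], by linarith [hw.2.2.1, a2.1], by linarith [hw.2.2.2, a2.2]⟩
    · by_cases h : u.re ≤ 3 * r
      · exact Or.inl ⟨⟨by linarith [hw.1, a1.1], h⟩, ⟨by linarith [hw.2.2.1, a2.1], by linarith [hw.2.2.2, a2.2]⟩⟩
      · exact Or.inr ⟨by linarith [not_le.1 h], by linarith [hw.2.1, a1.2], by linarith [hw.2.2.1, a2.1], by linarith [hw.2.2.2, a2.2]⟩

/-- **[GEO] AT THE PLUG OF RECORD**, lanes cut at `5r`, closed windows -/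
theorem pvhf_geo (hr : 0 < r) : PvhfGeo (pvkdP r) (pvhfT r) := pvhf_geo_w hr (pvhf_T_win hr)

end record

end Claimed.Agent.R289
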