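-- KEEP
import Claimed.Agent.R289.Tr.PlugFrcR
import Claimed.Agent.R289.Tr.FrcM
import Claimed.Agent.R289.Tr.FrcDetL

/-!
# Row 289 (S0537), THE WALL, chapter E (cells), file Tr/PlugFrcT : **[FRC] + [HDICT] + [mH] OF THE CELL KIT FROM PURE GEOMETRY**      (helper52; prefix `pvjo_`, `Pvjo`; names `pvjo_t_*`, `PvjoLay`)

GLUE, 0 sorry, of:   174 `Tr/FrcM.lean` (side events `pvhfS 𝔭 𝔱 σ`, `pvhfH`, `PvhfGeo`, `PvhfIs.up_ae`, `pvhf_S_iff`, `pvhf_hdict_lim`),   294 `Tr/FrcDetL.lean` (`pvdt_A`, `PvkdGeo.Lay`, `pvdt_mesh3`),   52 `Tr/PlugFrcQ.lean`, `Tr/PlugFrcR.lean` (`PvcjOk`, `pvcj_frc_exit`, `pvjoMesh`),   272 `Tr/ForceP.lean`, `Tr/ForceN.lean`.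
**RESULT**:   `PvhfGeo 𝔤.toPvkdPlug 𝔱`  +  **`PvjoLay.Ok Λ 𝔤 𝔱`** (REGIONS, WALKS: no configuration, no probability)   ⟹   **`pvjo_t_cj`** (`PvcjOk (𝔤.glob (pvhfH ..)) (Λ.D 𝔤 𝔱) ε`, every `ε > 0`),   **`pvjo_t_frc`** (`PvkuFrc` of 258 verbatim),   **`pvjo_t_side`** (`mH`, `dict`, `frc` = `PvdkSide` of 10).
-/

set_option autoImplicit false
set_option linter.unusedSectionVars false
set_option linter.unusedVariables false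

namespace Claimed.Agent.R289

open MeasureTheory ProbabilityTheory Set Filter Topology Metric Claims.C0465
open scoped ENNReal NNReal

/-- **THE LAYOUT OF THE CONNECTORS**, data (`β = true` black) -/
structure PvjoLay where
  /-- side of the fine cells -/
  s : ℝ
  /-- the full walk of the colour `β` in the reference cell of shape `τ` -/
  L : PvtTurn → Bool → List (ℤ × ℤ)
  /-- the zone in which the colour `β` is up -/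
  K : PvtTurn → Bool → Set ℂ
  /-- window of the mesh event of the tile -/
  Et : PvtTurn → Set ℂ
  /-- sub-room of the corridor `Co τ` in which the run is produced (two boxes through the centre of the cell: star convex, `pvrt_star`) -/
  Kc : PvtTurn → Set ℂ

namespace PvjoLay

variable (Λ : PvjoLay) (𝔤 : PvkdGeo) (𝔱 : PvhfTr)

/-- **the connector of the reference cell of shape `τ`** -/
noncomputable def D (τ : PvtTurn) : PvfpConn where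
  O := 𝔤.O₀ ×ˢ univ
  O' := pvkdAt (𝔤.zo 0 1 τ) τ.rot 𝔤.O₀ ×ˢ univ
  T := 𝔱.Es true ×ˢ univ
  T' := pvkdAt (𝔤.zo 0 1 τ) τ.rot (𝔱.Es false) ×ˢ univ
  Lp := pvhfS 𝔤.toPvkdPlug 𝔱 true
  Lm := cfMap (pvthInv (𝔤.zo 0 1 τ) τ.rot) ⁻¹' pvhfS 𝔤.toPvkdPlug 𝔱 false
  E := pvjoMesh 𝔤.ρ (Λ.Et τ)
  A := pvhfS 𝔤.toPvkdPlug 𝔱 true ∩ cfMap (pvthInv (𝔤.zo 0 1 τ) τ.rot) ⁻¹' pvhfS 𝔤.toPvkdPlug 𝔱 false ∩
    (pvlnLaneEv Λ.s true (Λ.L τ true) ∩ pvlnLaneEv Λ.s false (Λ.L τ false)) ∩ pvjoMesh 𝔤.ρ (Λ.Et τ)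
  c := true
  K₁ := Λ.K τ true
  K₂ := Λ.K τ false
  δ := Λ.s
  L₁ := Λ.L τ true
  L₂ := Λ.L τ false

/-- **WHAT THE GEOMETRY OWES** (regions and walks only) -/
structure Ok : Prop where
  mO : MeasurableSet 𝔤.O₀
  /-- the window of the plug is frozen -/
  EO : 𝔤.Ew ⊆ 𝔤.O₀
  /-- the two plugs with the windows of their side events are apart -/
  dj : ∀ τ, Disjoint (𝔤.O₀ ∪ 𝔱.Es true) (pvkdAt (𝔤.zo 0 1 τ) τ.rot 𝔤.O₀ ∪ pvkdAt (𝔤.zo 0 1 τ) τ.rot (𝔱.Es false))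
  /-- the mixed order -/
  djK : ∀ τ, Disjoint (Λ.K τ true) (Λ.K τ false)
  w : ∀ τ β, pvlnW Λ.s (Λ.L τ β) ⊆ Λ.K τ β
  off : ∀ τ β, Disjoint (pvlnW Λ.s (Λ.L τ β)) (𝔤.O₀ ∪ pvkdAt (𝔤.zo 0 1 τ) τ.rot 𝔤.O₀)
  zp : ∀ τ β, 𝔱.Ln true β ⊆ 𝔤.O₀ ∪ Λ.K τ β
  zm : ∀ τ β, pvkdAt (𝔤.zo 0 1 τ) τ.rot (𝔱.Ln false β) ⊆ pvkdAt (𝔤.zo 0 1 τ) τ.rot 𝔤.O₀ ∪ Λ.K τ β
  /-- the window of the mesh of the tile -/
  mEt : ∀ τ, MeasurableSet (Λ.Et τ)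
  bEt : ∀ τ, Bornology.IsBounded (Λ.Et τ)
  dEt : ∀ τ, Disjoint (Λ.Et τ) (𝔤.O₀ ∪ pvkdAt (𝔤.zo 0 1 τ) τ.rot 𝔤.O₀)
  /-- THE SEAM -/
  cover : ∀ τ, pvtrCore 𝔤.ρ (𝔤.Ea τ) ⊆ pvtrCore 𝔤.ρ (𝔱.Es true) ∪ pvtrCore 𝔤.ρ (Λ.Et τ) ∪ pvtrCore 𝔤.ρ (pvkdAt (𝔤.zo 0 1 τ) τ.rot (𝔱.Es false))
  /-- the sub-room (`PvzlRun` is monotone in the room) -/
  sub : ∀ τ, Λ.Kc τ ⊆ 𝔤.Co τ
  /-- the layout of 294 (full walks, collars `5ρ` in `Ea τ`, `3ρ` in `Kc τ`, four hook zones, `PvdtGeo`: `Kc τ` bounded, co-connected, the two outer discs apart, `Zm`, placed `Zp` off `Kc τ`) -/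
  lay : ∀ τ, PvdtLay 𝔤.ρ (𝔤.Ea τ) (𝔤.pg 0 1) (𝔤.pg (𝔤.zo 0 1 τ) τ.rot) (Λ.Kc τ) Λ.s (Λ.L τ) (fun β => 𝔱.Ln true β)
    (fun β => pvkdAt (𝔤.zo 0 1 τ) τ.rot (𝔱.Ln false β)) (fun β => 𝔱.Dr true β) (fun β => pvkdAt (𝔤.zo 0 1 τ) τ.rot (𝔱.Dr false β))

end PvjoLay

theorem pvjo_t_eqns_cite : True := by
  have := @PvjoLay.D.eq_1
  trivial

section glue

variable {Λ : PvjoLay} {𝔤 : PvkdGeo} {𝔱 : PvhfTr}

theorem pvjo_t_OO (Λ : PvjoLay) (𝔤 : PvkdGeo) (𝔱 : PvhfTr) (τ : PvtTurn) : (Λ.D 𝔤 𝔱 τ).OO = (𝔤.O₀ ∪ pvkdAt (𝔤.zo 0 1 τ) τ.rot 𝔤.O₀) ×ˢ univ := by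
  show 𝔤.O₀ ×ˢ univ ∪ pvkdAt (𝔤.zo 0 1 τ) τ.rot 𝔤.O₀ ×ˢ univ = _
  rw [Set.union_prod]

theorem pvjo_t_rLm (hG : PvhfGeo 𝔤.toPvkdPlug 𝔱) (τ : PvtTurn) :
    Conf.ReadsSet (pvkdAt (𝔤.zo 0 1 τ) τ.rot (𝔱.Es false) ×ˢ univ) (cfMap (pvthInv (𝔤.zo 0 1 τ) τ.rot) ⁻¹' pvhfS 𝔤.toPvkdPlug 𝔱 false) :=
  pvjo_reads_at (pvt_rot_ne_zero τ) (pvhf_rS hG false)

/-- the connectors are well formed -/
theorem pvjo_t_ok (hG : PvhfGeo 𝔤.toPvkdPlug 𝔱) (H : Λ.Ok 𝔤 𝔱) (τ : PvtTurn) : (Λ.D 𝔤 𝔱 τ).Ok where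
  mO := H.mO.prod MeasurableSet.univ
  mO' := (pvjo_at_meas (pvt_rot_ne_zero τ) H.mO).prod MeasurableSet.univ
  mT := (hG.wf true).wE.1.prod MeasurableSet.univ
  mT' := (pvjo_at_meas (pvt_rot_ne_zero τ) (hG.wf false).wE.1).prod MeasurableSet.univ
  dj := by
    show Disjoint (𝔤.O₀ ×ˢ univ ∪ 𝔱.Es true ×ˢ univ) (pvkdAt (𝔤.zo 0 1 τ) τ.rot 𝔤.O₀ ×ˢ univ ∪ pvkdAt (𝔤.zo 0 1 τ) τ.rot (𝔱.Es false) ×ˢ univ)
    rw [← Set.union_prod, ← Set.union_prod]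
    exact pvnk_prod_disj (H.dj τ)
  mLp := (pvhf_S_is hG true).meas (hG.wf true)
  mLm := measurable_cfMap (pvth_measurable_inv _ _) ((pvhf_S_is hG false).meas (hG.wf false))
  mE := pvjo_mesh_meas _ (H.mEt τ)
  rLp := (pvhf_rS hG true).mono subset_union_right
  rLm := (pvjo_t_rLm hG τ).mono subset_union_right
  δ_pos := (H.lay τ).δ_pos
  ne₁ := (H.lay τ).ne true
  ne₂ := (H.lay τ).ne false
  ch₁ := (H.lay τ).ch true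
  ch₂ := (H.lay τ).ch false
  djK := H.djK τ
  w₁ := H.w τ true
  w₂ := H.w τ false
  off₁ := by rw [pvjo_t_OO]; exact pvnk_prod_disj (H.off τ true)
  off₂ := by rw [pvjo_t_OO]; exact pvnk_prod_disj (H.off τ false)
  geo := fun σ => pvjo_mesh_geo _ (by rw [pvjo_t_OO]; exact pvnk_prod_disj (H.dEt τ)) σ
  glue := fun η hη => hη

/-- quenched up-ness at every pair of regular states -/
theorem pvjo_t_up (hG : PvhfGeo 𝔤.toPvkdPlug 𝔱) (H : Λ.Ok 𝔤 𝔱) (τ : PvtTurn) {ε : ℝ} {σ : Conf PvPt} (h1 : σ ∈ pvnkRg ε 𝔤.O₀)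
    (h2 : σ ∈ pvnkRg ε (pvkdAt (𝔤.zo 0 1 τ) τ.rot 𝔤.O₀)) : (Λ.D 𝔤 𝔱 τ).Up ε σ := by
  have hOk := pvjo_t_ok hG H τ
  have hr := pvpk_rot_norm τ
  have hr0 := pvt_rot_ne_zero τ
  have s1 : pvhkSec (Λ.D 𝔤 𝔱 τ).OO σ (Λ.D 𝔤 𝔱 τ).Lp = pvhkSec (𝔤.O₀ ×ˢ univ) σ (pvhfS 𝔤.toPvkdPlug 𝔱 true) :=
    pvfn_sec_left (hOk.dj.mono_right subset_union_left) σ hOk.rLp
  have s2 : pvhkSec (Λ.D 𝔤 𝔱 τ).OO σ (Λ.D 𝔤 𝔱 τ).Lm =
      pvhkSec (pvkdAt (𝔤.zo 0 1 τ) τ.rot 𝔤.O₀ ×ˢ univ) σ (cfMap (pvthInv (𝔤.zo 0 1 τ) τ.rot) ⁻¹' pvhfS 𝔤.toPvkdPlug 𝔱 false) :=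
    pvfn_sec_right (hOk.dj.mono_left subset_union_left) σ hOk.rLm
  have u1 := (pvhf_S_is hG true).up_ae (hG.wf true) (H.djK τ) (F := 𝔤.O₀) H.EO (H.zp τ true) (H.zp τ false) h1
  have u2 := (pvhf_S_is_at hG false (𝔤.zo 0 1 τ) hr).up_ae ((hG.wf false).at _ hr) (H.djK τ) (F := pvkdAt (𝔤.zo 0 1 τ) τ.rot 𝔤.O₀)
    (by
      show pvthInv (𝔤.zo 0 1 τ) τ.rot ⁻¹' 𝔤.Ew ⊆ _
      rw [← pvjo_at_eq hr0]
      exact pvjo_at_mono H.EO)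
    (by
      show pvthInv (𝔤.zo 0 1 τ) τ.rot ⁻¹' 𝔱.Ln false true ⊆ _
      rw [← pvjo_at_eq hr0]
      exact H.zm τ true)
    (by
      show pvthInv (𝔤.zo 0 1 τ) τ.rot ⁻¹' 𝔱.Ln false false ⊆ _
      rw [← pvjo_at_eq hr0]
      exact H.zm τ false) h2
  unfold PvfpConn.Up
  filter_upwards [u1, u2] with g a1 a2 _
  rw [s1, s2]
  exact ⟨a1, a2⟩

/-- **(DET)**, deterministic -/
theorem pvjo_t_det (hG : PvhfGeo 𝔤.toPvkdPlug 𝔱) (H : Λ.Ok 𝔤 𝔱) (τ : PvtTurn) {η : Conf PvPt} (hn : CfOK η) (hN : PvatNice (cfSites η)) (hA : η ∈ (Λ.D 𝔤 𝔱 τ).A) :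
    η ∈ 𝔤.A 0 1 τ := by
  obtain ⟨⟨⟨hp, hm⟩, hnet⟩, hE⟩ := hA
  obtain ⟨⟨-, m1⟩, g, hg, lb, lw⟩ := (pvhf_S_iff0 hG true hn.del).1 hp
  obtain ⟨⟨-, m2⟩, g', hg', lb', lw'⟩ := (pvhf_S_iff hG false (𝔤.zo 0 1 τ) (pvpk_rot_norm τ) hn.del).1 hm
  have hmE : PvtrMesh 𝔤.ρ (𝔤.Ea τ) (cfSites η) := pvdt_mesh3 (H.cover τ) m1 (pvjo_mesh_of hE) m2
  have hNA : η ∈ 𝔤.NA 0 1 τ := by
    refine ⟨hN, ?_⟩
    rw [pvjo_at_ref]
    exact hmE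
  unfold PvhfLn at lb lw lb' lw'
  simp only [pvjo_at_ref] at lb lw
  obtain ⟨N, n1, n2, n3, n4⟩ := pvdt_det hn hmE (H.lay τ) (fun β => by
    cases β
    · exact hnet.2
    · exact hnet.1) hg hg' (fun β => by
    cases β
    · exact lw
    · exact lb) (fun β => by
    cases β
    · exact lw'
    · exact lb')
  refine ⟨hNA, g, g', N, hg, by rw [one_mul]; exact hg', n1, n2, n3, fun v hv => ?_⟩
  obtain ⟨a1, a2, a3⟩ := n4 hv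
  refine ⟨?_, a2, a3⟩
  rw [pvjo_at_ref]
  exact H.sub τ a1

/-- **the connectors are fitted on the datum `𝔤.glob (pvhfH ..)`** -/
theorem pvjo_t_cj (hG : PvhfGeo 𝔤.toPvkdPlug 𝔱) (H : Λ.Ok 𝔤 𝔱) (mC : MeasurableSet (𝔤.C 0 1)) {ε : ℝ} (hε : 0 < ε) :
    PvcjOk (𝔤.glob (pvhfH 𝔤.toPvkdPlug 𝔱)) (Λ.D 𝔤 𝔱) ε where
  mO := H.mO
  mC := mC
  ok := pvjo_t_ok hG H
  O_eq τ := by
    show 𝔤.O₀ ×ˢ univ = pvkdAt 0 1 𝔤.O₀ ×ˢ univ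
    rw [pvjo_at_ref]
  O'_eq τ := rfl
  Lp_eq τ := rfl
  Lm_eq τ := rfl
  up τ := by
    filter_upwards [pvnk_rg_full hε H.mO, pvnk_rg_full hε (pvjo_at_meas (z := 𝔤.zo 0 1 τ) (pvt_rot_ne_zero τ) H.mO)] with σ h1 h2
    exact pvjo_t_up hG H τ h1 h2
  det τ := by
    filter_upwards [dls_ae_conf hε, pvat_nice_ae hε.ne'] with η h1 h2 _ _ hA
    exact pvjo_t_det hG H τ h1 h2 hA

/-- **[FRC]**, consumer form of 258 (`PvkuFrc (𝔤.glob (pvhfH ..))` of `Exit/NumQ.lean`, verbatim) -/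
theorem pvjo_t_frc (hG : PvhfGeo 𝔤.toPvkdPlug 𝔱) (H : Λ.Ok 𝔤 𝔱) (mC : MeasurableSet (𝔤.C 0 1)) :
    ∀ b : ℝ≥0∞, b ≠ 0 → b ≤ 1 → ∃ q : ℝ≥0∞, q ≠ 0 ∧ q ≤ 1 ∧ ∀ᶠ ε in 𝓝[>] (0 : ℝ), ∀ τ, ∀ᵐ σ ∂(pvP ε),
      σ ∈ (𝔤.glob (pvhfH 𝔤.toPvkdPlug 𝔱)).G2 (pvP ε) b τ →
        q ≤ pvtiP (pvP ε) ((𝔤.glob (pvhfH 𝔤.toPvkdPlug 𝔱)).pre.OO 0 1 τ) ((𝔤.glob (pvhfH 𝔤.toPvkdPlug 𝔱)).A τ) σ := by
  intro b hb0 hb1
  obtain ⟨q0, hq0, hq1, hQ⟩ := pvcj_frc_exit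
  have hbt : b ≠ ∞ := ne_top_of_le_ne_top ENNReal.one_ne_top hb1
  set β : ℝ := b.toReal with hβdef
  have hβ : 0 < β := ENNReal.toReal_pos hb0 hbt
  have hβ1 : β ≤ 1 := by
    have := ENNReal.toReal_mono ENNReal.one_ne_top hb1
    simpa using this
  have hbβ : ENNReal.ofReal β = b := ENNReal.ofReal_toReal hbt
  set n : ℕ := (Λ.L .S true).length + (Λ.L .L true).length + (Λ.L .R true).length + (Λ.L .S false).length + (Λ.L .L false).length + (Λ.L .R false).length with hn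
  have n1 : ∀ τ, (Λ.D 𝔤 𝔱 τ).L₁.length ≤ n := fun τ => by
    show (Λ.L τ true).length ≤ n
    cases τ <;> omega
  have n2 : ∀ τ, (Λ.D 𝔤 𝔱 τ).L₂.length ≤ n := fun τ => by
    show (Λ.L τ false).length ≤ n
    cases τ <;> omega
  obtain ⟨U, hU1, hU⟩ := hQ n β hβ
  have hs : 0 < Λ.s := (H.lay .S).δ_pos
  have hx0 : 0 < (q0 ^ (15 * n) / 2) ^ 2 * (β ^ 2 / 2) := by positivity
  have hx1 : (q0 ^ (15 * n) / 2) ^ 2 * (β ^ 2 / 2) ≤ 1 := by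
    have a1 : q0 ^ (15 * n) ≤ 1 := pow_le_one₀ hq0.le hq1
    have a0 : 0 < q0 ^ (15 * n) := by positivity
    have a2 : (q0 ^ (15 * n) / 2) ^ 2 ≤ 1 := by nlinarith
    have a3 : β ^ 2 / 2 ≤ 1 := by nlinarith
    calc (q0 ^ (15 * n) / 2) ^ 2 * (β ^ 2 / 2) ≤ 1 * 1 := mul_le_mul a2 a3 (by positivity) zero_le_one
      _ = 1 := one_mul 1
  refine ⟨ENNReal.ofReal ((q0 ^ (15 * n) / 2) ^ 2 * (β ^ 2 / 2)), (ENNReal.ofReal_pos.2 hx0).ne', ?_, ?_⟩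
  · rw [← ENNReal.ofReal_one]
    exact ENNReal.ofReal_le_ofReal hx1
  have hθ : (0 : ℝ≥0∞) < ENNReal.ofReal (β ^ 2 / 4) := ENNReal.ofReal_pos.2 (by positivity)
  have hEs : ∀ τ, ∀ᶠ ε in 𝓝[>] (0 : ℝ), pvP ε (Λ.D 𝔤 𝔱 τ).Eᶜ ≤ ENNReal.ofReal (β ^ 2 / 4) := fun τ =>
    ((pvjo_mesh_lim (hG.wf true).ρ0 (H.bEt τ)).eventually (gt_mem_nhds hθ)).mono fun ε h => h.le
  filter_upwards [pvfn_ev_of_U hU1 hs, hEs .S, hEs .L, hEs .R] with ε hε e1 e2 e3 τ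
  have hE : pvP ε (Λ.D 𝔤 𝔱 τ).Eᶜ ≤ ENNReal.ofReal (β ^ 2 / 4) := by
    cases τ
    · exact e1
    · exact e2
    · exact e3
  have hcj := pvjo_t_cj hG H mC hε.1
  have hW : Disjoint (Λ.Et τ ×ˢ (univ : Set Bool)) ((𝔤.glob (pvhfH 𝔤.toPvkdPlug 𝔱)).pre.OO 0 1 τ) := by
    rw [← pvcj_OO hcj τ, pvjo_t_OO]
    exact pvnk_prod_disj (H.dEt τ)
  have := hU ε hε.1 (𝔤.glob (pvhfH 𝔤.toPvkdPlug 𝔱)) (Λ.D 𝔤 𝔱) hcj τ hε.2 (n1 τ) (n2 τ)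
    (Eventually.of_forall fun σ _ => pvcj_E_off hcj τ hW (pvjo_mesh_reads _ _) hE σ)
  rw [hbβ] at this
  exact this

/-- **THE THREE DEBTS OF THE SIDE EVENTS** (`mH`, `dict`, `frc` : the record `PvdkSide` of 10, for ANY geometry) -/
theorem pvjo_t_side (hG : PvhfGeo 𝔤.toPvkdPlug 𝔱) (H : Λ.Ok 𝔤 𝔱) (mC : MeasurableSet (𝔤.C 0 1)) :
    (∀ i, MeasurableSet (pvhfH 𝔤.toPvkdPlug 𝔱 i)) ∧ (∀ err : ℝ≥0∞, err ≠ 0 → ∀ᶠ ε in 𝓝[>] (0 : ℝ), 𝔤.HDict (pvhfH 𝔤.toPvkdPlug 𝔱) ε err) ∧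
    ∀ b : ℝ≥0∞, b ≠ 0 → b ≤ 1 → ∃ q : ℝ≥0∞, q ≠ 0 ∧ q ≤ 1 ∧ ∀ᶠ ε in 𝓝[>] (0 : ℝ), ∀ τ, ∀ᵐ σ ∂(pvP ε),
      σ ∈ (𝔤.glob (pvhfH 𝔤.toPvkdPlug 𝔱)).G2 (pvP ε) b τ →
        q ≤ pvtiP (pvP ε) ((𝔤.glob (pvhfH 𝔤.toPvkdPlug 𝔱)).pre.OO 0 1 τ) ((𝔤.glob (pvhfH 𝔤.toPvkdPlug 𝔱)).A τ) σ :=
  ⟨pvhf_mH hG, fun err herr => pvhf_hdict_lim 𝔤 hG (pos_iff_ne_zero.2 herr), pvjo_t_frc hG H mC⟩

end glue

/-! ## THE TRUNCATION OF RECORD WITH THE WINDOWS OF 258 -/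

/-- **THE TRUNCATION OF RECORD**: rooms and targets of `pvhfT r` (174: lanes cut at `5r`, targets `[4r,5r]`);   WINDOWS `E^σ` := the CLOSED door square of half side `13r/4` (it contains ALL of `O₀`: THE SEAM) `∪` the closed box `σ [0, 11r/2] × [-5r/2, 5r/2]`
(= the closure of `pvkgEp`, `pvkgEm` of 258) -/
noncomputable def pvjoT (r : ℝ) : PvhfTr where
  Ln := (pvhfT r).Ln
  Dr := (pvhfT r).Dr
  Es := fun σ => pvwSq 0 (13 * r / 4) ∪ pvkdRect σ 0 (11 * r / 2) (-(5 * r / 2)) (5 * r / 2)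

theorem pvjo_t_eqns_cite2 : True := by
  have := @pvjoT.eq_1
  trivial

section record

variable {r : ℝ}

theorem pvjo_t_rect_closed (σ : Bool) (a b c d : ℝ) : IsClosed (pvkdRect σ a b c d) := by
  unfold pvkdRect
  split_ifs
  · exact rsw_rect_closed _ _ _ _
  · exact rsw_rect_closed _ _ _ _

theorem pvjo_t_sq_eq (a : ℝ) : pvwSq 0 a = rswRect (-a) a (-a) a := by
  ext w
  simp only [pvwSq, rswRect, mem_ofPred_eq, sub_zero, abs_le]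
  tauto

theorem pvjo_t_rect_bdd (a b c d : ℝ) : Bornology.IsBounded (rswRect a b c d) := by
  refine (isBounded_closedBall (x := (0 : ℂ)) (r := |a| + |b| + |c| + |d|)).subset fun w hw => ?_
  rw [mem_closedBall_zero_iff]
  obtain ⟨h1, h2, h3, h4⟩ := hw
  have e1 : |w.re| ≤ |a| + |b| := by
    rw [abs_le]
    constructor
    · linarith [neg_abs_le a, abs_nonneg b]
    · linarith [le_abs_self b, abs_nonneg a]
  have e2 : |w.im| ≤ |c| + |d| := by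
    rw [abs_le]
    constructor
    · linarith [neg_abs_le c, abs_nonneg d]
    · linarith [le_abs_self d, abs_nonneg c]
  calc ‖w‖ ≤ |w.re| + |w.im| := Complex.norm_le_abs_re_add_abs_im w
    _ ≤ _ := by linarith

theorem pvjo_t_krect_bdd (σ : Bool) (a b c d : ℝ) : Bornology.IsBounded (pvkdRect σ a b c d) := by
  unfold pvkdRect
  split_ifs
  · exact pvjo_t_rect_bdd _ _ _ _
  · exact pvjo_t_rect_bdd _ _ _ _

/-- coordinates of a point of a closed ball -/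
theorem pvjo_t_ball {z w : ℂ} {t : ℝ} (h : w ∈ closedBall z t) : z.re - t ≤ w.re ∧ w.re ≤ z.re + t ∧ z.im - t ≤ w.im ∧ w.im ≤ z.im + t := by
  rw [mem_closedBall, dist_eq_norm] at h
  have h1 := abs_le.1 ((Complex.abs_re_le_norm (w - z)).trans h)
  have h2 := abs_le.1 ((Complex.abs_im_le_norm (w - z)).trans h)
  rw [Complex.sub_re] at h1
  rw [Complex.sub_im] at h2
  exact ⟨by linarith [h1.1], by linarith [h1.2], by linarith [h2.1], by linarith [h2.2]⟩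

theorem pvjo_t_ball0 {z : ℂ} {a : ℝ} (h : z ∈ ball (0 : ℂ) a) : -a ≤ z.re ∧ z.re ≤ a ∧ -a ≤ z.im ∧ z.im ≤ a := by
  rw [mem_ball_zero_iff] at h
  have h1 := abs_le.1 ((Complex.abs_re_le_norm z).trans h.le)
  have h2 := abs_le.1 ((Complex.abs_im_le_norm z).trans h.le)
  exact ⟨h1.1, h1.2, h2.1, h2.2⟩

/-- the zone of the gate in coordinates -/
theorem pvjo_t_KG (hr : 0 < r) (σ : Bool) {z : ℂ} (hz : z ∈ (pvhfR (pvkdP r) (pvjoT r) σ).sd.KG) : -(2 * r) ≤ z.re ∧ z.re ≤ 2 * r ∧ -(2 * r) ≤ z.im ∧ z.im ≤ 2 * r := by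
  rcases hz with (hz | hz) | hz
  · have := pvjo_t_ball0 (a := r) hz
    exact ⟨by linarith [this.1], by linarith [this.2.1], by linarith [this.2.2.1], by linarith [this.2.2.2]⟩
  · exact pvjo_t_ball0 (a := 2 * r) hz
  · have h : z ∈ rswRect (-(2 * r)) (2 * r) (-(r / 2)) (r / 2) := hz
    exact ⟨h.1, h.2.1, by linarith [h.2.2.1], by linarith [h.2.2.2]⟩

theorem pvjo_t_wf (hr : 0 < r) (σ : Bool) : (pvhfR (pvkdP r) (pvjoT r) σ).Wf where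
  ρ0 := by
    show 0 < r / 16
    positivity
  mR i := by
    have hc : ∀ (σ : Bool) (a b c d : ℝ), MeasurableSet (pvkdRect σ a b c d) := fun σ a b c d => (pvjo_t_rect_closed σ a b c d).measurableSet
    have hq : ∀ a b c d : ℝ, MeasurableSet (rswRect a b c d) := fun a b c d => (rsw_rect_closed a b c d).measurableSet
    fin_cases i
    · exact measurableSet_ball
    · exact measurableSet_ball
    · exact hq _ _ _ _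
    · exact hq _ _ _ _
    · exact hq _ _ _ _
    · exact (hc _ _ _ _ _).union (hc _ _ _ _ _)
    · exact (hc _ _ _ _ _).union (hc _ _ _ _ _)
    · exact hc _ _ _ _ _
    · exact hc _ _ _ _ _
  wE := by
    refine pvmg_win_closed ?_
    show IsClosed (pvwSq 0 (13 * r / 4) ∪ pvkdRect σ 0 (11 * r / 2) (-(5 * r / 2)) (5 * r / 2))
    rw [pvjo_t_sq_eq]
    exact (rsw_rect_closed _ _ _ _).union (pvjo_t_rect_closed _ _ _ _ _)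
  bE := by
    show Bornology.IsBounded (pvwSq 0 (13 * r / 4) ∪ pvkdRect σ 0 (11 * r / 2) (-(5 * r / 2)) (5 * r / 2))
    rw [pvjo_t_sq_eq]
    exact (pvjo_t_rect_bdd _ _ _ _).union (pvjo_t_krect_bdd _ _ _ _ _)
  sub := by
    intro w hw
    have h : w ∈ pvwSq 0 (3 * r) := hw
    rw [pvjo_t_sq_eq] at h
    refine Or.inl ?_
    rw [pvjo_t_sq_eq]
    exact ⟨by linarith [h.1], by linarith [h.2.1], by linarith [h.2.2.1], by linarith [h.2.2.2]⟩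
  core := by
    intro z hz w hw
    have hb := pvjo_t_ball hw
    have e : 3 * (pvhfR (pvkdP r) (pvjoT r) σ).ρ = 3 * r / 16 := by
      show 3 * (r / 16) = 3 * r / 16
      ring
    rw [e] at hb
    show w ∈ pvwSq 0 (13 * r / 4) ∪ pvkdRect σ 0 (11 * r / 2) (-(5 * r / 2)) (5 * r / 2)
    rw [pvjo_t_sq_eq]
    rcases hz with (hz | hz) | hz
    · have h := pvjo_t_KG hr σ hz
      exact Or.inl ⟨by linarith [h.1, hb.1], by linarith [h.2.1, hb.2.1], by linarith [h.2.2.1, hb.2.2.1], by linarith [h.2.2.2, hb.2.2.2]⟩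
    · have h : z ∈ pvkdRect σ (r / 2) (3 * r) (-(r / 2)) (3 * r / 2) ∪ pvkdRect σ (2 * r) (5 * r) (r / 2) (3 * r / 2) := hz
      cases σ <;> simp only [pvkdRect, rswRect, if_true, if_false, mem_union, mem_ofPred_eq, Bool.false_eq_true] at h ⊢ <;> rcases h with h | h
      · exact Or.inl ⟨by linarith [h.1, hb.1], by linarith [h.2.1, hb.2.1], by linarith [h.2.2.1, hb.2.2.1], by linarith [h.2.2.2, hb.2.2.2]⟩
      · exact Or.inr ⟨by linarith [h.1, hb.1], by linarith [h.2.1, hb.2.1], by linarith [h.2.2.1, hb.2.2.1], by linarith [h.2.2.2, hb.2.2.2]⟩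
      · exact Or.inl ⟨by linarith [h.1, hb.1], by linarith [h.2.1, hb.2.1], by linarith [h.2.2.1, hb.2.2.1], by linarith [h.2.2.2, hb.2.2.2]⟩
      · exact Or.inr ⟨by linarith [h.1, hb.1], by linarith [h.2.1, hb.2.1], by linarith [h.2.2.1, hb.2.2.1], by linarith [h.2.2.2, hb.2.2.2]⟩
    · have h : z ∈ pvkdRect σ (r / 2) (3 * r) (-(3 * r / 2)) (r / 2) ∪ pvkdRect σ (2 * r) (5 * r) (-(3 * r / 2)) (-(r / 2)) := hz
      cases σ <;> simp only [pvkdRect, rswRect, if_true, if_false, mem_union, mem_ofPred_eq, Bool.false_eq_true] at h ⊢ <;> rcases h with h | h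
      · exact Or.inl ⟨by linarith [h.1, hb.1], by linarith [h.2.1, hb.2.1], by linarith [h.2.2.1, hb.2.2.1], by linarith [h.2.2.2, hb.2.2.2]⟩
      · exact Or.inr ⟨by linarith [h.1, hb.1], by linarith [h.2.1, hb.2.1], by linarith [h.2.2.1, hb.2.2.1], by linarith [h.2.2.2, hb.2.2.2]⟩
      · exact Or.inl ⟨by linarith [h.1, hb.1], by linarith [h.2.1, hb.2.1], by linarith [h.2.2.1, hb.2.2.1], by linarith [h.2.2.2, hb.2.2.2]⟩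
      · exact Or.inr ⟨by linarith [h.1, hb.1], by linarith [h.2.1, hb.2.1], by linarith [h.2.2.1, hb.2.2.1], by linarith [h.2.2.2, hb.2.2.2]⟩
  coreG := by
    intro z hz w hw
    have hb := pvjo_t_ball hw
    have e : 3 * (pvhfR (pvkdP r) (pvjoT r) σ).ρ = 3 * r / 16 := by
      show 3 * (r / 16) = 3 * r / 16
      ring
    rw [e] at hb
    have h := pvjo_t_KG hr σ hz
    show w ∈ pvwSq 0 (3 * r)
    rw [pvjo_t_sq_eq]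
    exact ⟨by linarith [h.1, hb.1], by linarith [h.2.1, hb.2.1], by linarith [h.2.2.1, hb.2.2.1], by linarith [h.2.2.2, hb.2.2.2]⟩
  μ0 := one_pos
  mW := MeasurableSet.empty
  subW := empty_subset _

/-- **[GEO] of 174 AT THE PLUG OF RECORD, WINDOWS OF 258**, every `r > 0` -/
theorem pvjo_t_geo (hr : 0 < r) : PvhfGeo (pvkdP r) (pvjoT r) :=
  ⟨pvjo_t_wf hr, pvhf_geo_ZZ hr, pvhf_geo_foot hr, pvhf_geo_step hr, pvhf_geo_far hr⟩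

end record

end Claimed.Agent.R289
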