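-- KEEP
import Claimed.Agent.R289.Tr.FrcLay
import Claimed.Agent.R289.Tr.PlugFrcT

/-!
# Row 289 (S0537), THE WALL, chapter E (cells), file Tr/FrcLayE : **THE LAYOUT IN THE WORDS OF `PvjoLay.Ok` / `PvdtLay` (52, 294) AND OF `PvjoIn.Ok` (52)**, at `pvkgG`, `pvjoT (1/40)`      (helper278; prefix `pvuf_`, `pvuf`, `Pvuf`, continued)      0 sorry

CONSUMERS: 10 (`Exit/NumS`, assembly of `PvjoLay.Ok`), 52 (`Tr/FrcLayB`), 9 (`Exit/EngTop`).      `Λ := ⟨1/320, fun τ β => pvufL β τ, fun τ β => pvufK β τ, pvkgEt, Kc⟩`.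
* sec. 1  `pvuf_zp`, `pvuf_zm` (the regions of the side paths lie in `O₀ ∪ K`);   `pvuf_Es_box`, **`pvuf_f_dj`** (field `dj`, CLOSED windows of `pvjoT`).
* sec. 2  (second rope, `PvjoIn` of `Tr/PlugFrcR`)  **`PvufEnd e σ`** = what an end `e : PvnkEnd` of the side `σ` owes to the layout (INCLUSIONS only);   **`pvuf_geo`** : `PvnkLink.Geo` of the cell of shape `τ`.
* sec. 3  THE BRIDGE 174 ↔ 278, rooms of `pvhfT (1/40)` (`= ` rooms of `pvjoT (1/40)` by `rfl`): `pvuf_Ln`, `pvuf_Dr`, **`pvuf_fat`**, `pvuf_Ln_sub`, `pvuf_Ln_closed`, `pvuf_cthick`, `pvuf_foot`, `pvuf_Es`.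
* sec. 4  (second rope)  `pvufIn ep em : PvjoIn`, `pvuf_in_ok`.
* sec. 5  HULL **`pvuf_G_sub`** (`pvufG β τ ⊆ [3s,174s] × [-14s,14s] ∪` placed mirror), COLLARS **`pvuf_G_collar`** (any radius, any two boxes), `pvuf_nbd_p`, `pvuf_nbd_m`, `pvuf_swept`;
          THE FIELDS, VERBATIM: `pvuf_f_djK _w _off _zp _zm _inE _inK _zone _zone'`,   **`pvuf_lay`** : `PvdtGeo` of the sub-room `Kc ⊇` two boxes  ⟹  the field `lay` of `PvjoLay.Ok`.
-/

set_option autoImplicit false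
set_option linter.unusedSectionVars false
set_option linter.unusedVariables false

namespace Claimed.Agent.R289

open Set Metric

/-! ## 1. the zones of the recolourings -/

theorem pvuf_zp (β : Bool) (τ : PvtTurn) : pvufA true β ⊆ pvkgG.O₀ ∪ pvufK β τ := by
  intro w hw
  by_cases h : w ∈ pvkgO
  · exact Or.inl h
  · exact Or.inr (pvuf_A_K_p β τ ⟨hw, h⟩)

theorem pvuf_zm (β : Bool) (τ : PvtTurn) : pvkdAt (pvkgG.zo 0 1 τ) τ.rot (pvufA false β) ⊆ pvkdAt (pvkgG.zo 0 1 τ) τ.rot pvkgG.O₀ ∪ pvufK β τ := by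
  rw [pvkgg_zo]
  intro w hw
  by_cases h : w ∈ pvkgOx τ
  · exact Or.inl h
  · exact Or.inr (pvuf_A_K_m β τ ⟨hw, h⟩)

/-- the closed windows of 52 lie in a rectangle -/
theorem pvuf_Es_box (σ : Bool) : (pvjoT (1 / 40)).Es σ ⊆ pvufQ σ true (-(13 / 160)) (11 / 80) (-(13 / 160)) (13 / 160) := by
  rintro w (hw | hw)
  · have h : |(w - 0).re| ≤ 13 * (1 / 40) / 4 ∧ |(w - 0).im| ≤ 13 * (1 / 40) / 4 := hw
    rw [sub_zero, abs_le, abs_le] at h
    cases σ <;> exact ⟨by linarith [h.1.1], by linarith [h.1.2], by linarith [h.2.1], by linarith [h.2.2]⟩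
  · cases σ <;> simp only [pvkdRect, if_true, if_false, Bool.false_eq_true] at hw <;> obtain ⟨a, b, c, d⟩ := hw <;> refine ⟨?_, ?_, ?_, ?_⟩ <;> linarith

theorem pvuf_O_box (σ : Bool) : pvkgO ⊆ pvufQ σ true (-(13 / 160)) (11 / 80) (-(13 / 160)) (13 / 160) := by
  rintro w ⟨a, b, c, d⟩
  cases σ <;> refine ⟨?_, ?_, ?_, ?_⟩ <;> linarith

/-- **field `dj`** (closed windows) -/
theorem pvuf_f_dj (τ : PvtTurn) :
    Disjoint (pvkgG.O₀ ∪ (pvjoT (1 / 40)).Es true) (pvkdAt (pvkgG.zo 0 1 τ) τ.rot pvkgG.O₀ ∪ pvkdAt (pvkgG.zo 0 1 τ) τ.rot ((pvjoT (1 / 40)).Es false)) := by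
  rw [pvkgg_zo]
  have h1 : pvkgG.O₀ ∪ (pvjoT (1 / 40)).Es true ⊆ rswRect (-(13 / 160)) (11 / 80) (-(13 / 160)) (13 / 160) := union_subset (pvuf_O_box true) (pvuf_Es_box true)
  have h2 : pvkdAt τ.mid τ.rot pvkgG.O₀ ∪ pvkdAt τ.mid τ.rot ((pvjoT (1 / 40)).Es false) ⊆ pvkdAt τ.mid τ.rot (rswRect (-(11 / 80)) (-(-(13 / 160))) (-(13 / 160)) (13 / 160)) :=
    union_subset (image_mono (pvuf_O_box false)) (image_mono (pvuf_Es_box false))
  refine Disjoint.mono h1 h2 ?_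
  rw [Set.disjoint_left]
  rintro w ⟨a, b, c, d⟩ hw
  cases τ
  · rw [pvuf_at_S] at hw
    obtain ⟨a', b', c', d'⟩ := hw
    linarith
  · rw [pvuf_at_L] at hw
    obtain ⟨a', b', c', d'⟩ := hw
    linarith
  · rw [pvuf_at_R] at hw
    obtain ⟨a', b', c', d'⟩ := hw
    linarith

/-! ## 2. the geometry of the links -/

/-- **what an end of the side `σ` owes to the layout** -/
structure PvufEnd (e : PvnkEnd) (σ : Bool) : Prop where
  c : e.c = true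
  O : e.O = pvkgO
  E : e.E ⊆ (pvjoT (1 / 40)).Es σ
  A₁ : e.A₁ ⊆ pvufA σ true
  A₂ : e.A₂ ⊆ pvufA σ false
  X₁ : e.X₁ ⊆ pvufX σ true
  X₂ : e.X₂ ⊆ pvufX σ false
  Y₁ : e.Y₁ ⊆ pvufY σ true
  Y₂ : e.Y₂ ⊆ pvufY σ false

/-- **THE GEOMETRY OF THE LINK** of the reference cell of shape `τ` (field `geo` of `PvjoIn.Ok`) -/
theorem pvuf_geo {ep em : PvnkEnd} (hp : PvufEnd ep true) (hm : PvufEnd em false) (τ : PvtTurn) :
    (⟨ep, pvjoAt em (pvkgG.zo 0 1 τ) τ.rot, 1 / 320, pvufL true τ, pvufL false τ, pvufK true τ, pvufK false τ⟩ : PvnkLink).Geo := by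
  rw [pvkgg_zo]
  have hO : ep.O ∪ pvkdAt τ.mid τ.rot em.O = pvkgO ∪ pvkgOx τ := by rw [hp.O, hm.O]; rfl
  exact
    { col := hm.c.trans hp.c.symm
      dj := by
        have h := pvuf_f_dj τ
        rw [pvkgg_zo] at h
        refine h.mono (union_subset_union (le_of_eq hp.O) hp.E) (union_subset_union (image_mono (le_of_eq hm.O)) (image_mono hm.E))
      δ_pos := by norm_num
      ne₁ := pvuf_L_ne _ _
      ne₂ := pvuf_L_ne _ _
      ch₁ := pvuf_L_ch _ _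
      ch₂ := pvuf_L_ch _ _
      full₁ := pvuf_L_full _ _
      full₂ := pvuf_L_full _ _
      djK := pvuf_K_disj τ
      w₁ := pvuf_win_K _ _
      w₂ := pvuf_win_K _ _
      off₁ := by
        show Disjoint _ (ep.O ∪ pvkdAt τ.mid τ.rot em.O)
        rw [hO]
        exact pvuf_win_off _ _
      off₂ := by
        show Disjoint _ (ep.O ∪ pvkdAt τ.mid τ.rot em.O)
        rw [hO]
        exact pvuf_win_off _ _
      z₁ := pvuf_zone_mono (pvuf_zone_p true τ) Subset.rfl hp.A₁ hp.X₁ hp.Y₁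
      z₁' := pvuf_zone_mono (pvuf_zone_m true τ) Subset.rfl (image_mono hm.A₁) (image_mono hm.X₁) (image_mono hm.Y₁)
      z₂ := pvuf_zone_mono (pvuf_zone_p false τ) Subset.rfl hp.A₂ hp.X₂ hp.Y₂
      z₂' := pvuf_zone_mono (pvuf_zone_m false τ) Subset.rfl (image_mono hm.A₂) (image_mono hm.X₂) (image_mono hm.Y₂) }

/-! ## 3. the truncated rooms of 174 -/

theorem pvuf_Ln (σ β : Bool) : (pvhfT (1 / 40)).Ln σ β = pvufQ σ β (4 / 320) (24 / 320) (-(4 / 320)) (12 / 320) ∪ pvufQ σ β (16 / 320) (40 / 320) (4 / 320) (12 / 320) := by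
  cases σ <;> cases β <;> simp only [pvhfT, pvufQ, pvkdRect, if_true, if_false, Bool.false_eq_true] <;> norm_num

theorem pvuf_Dr (σ β : Bool) : (pvhfT (1 / 40)).Dr σ β = pvufY σ β := by
  cases σ <;> cases β <;> simp only [pvhfT, pvufY, pvufQ, pvkdRect, if_true, if_false, Bool.false_eq_true] <;> norm_num

/-- **the closed `2ρ`-neighbourhood of a truncated room lies in the region of the side paths** -/
theorem pvuf_fat (σ β : Bool) {u w : ℂ} (hu : u ∈ (pvhfT (1 / 40)).Ln σ β) (hw : w ∈ closedBall u (1 / 320)) : w ∈ pvufA σ β := by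
  rw [pvuf_Ln] at hu
  obtain ⟨p1, p2, p3, p4⟩ := pvkgg_ball_box hw
  cases σ <;> cases β <;> simp only [pvufA, pvufX, pvufQ] at hu ⊢ <;> rcases hu with ⟨a, b, c, d⟩ | ⟨a, b, c, d⟩
  all_goals first
    | (refine Or.inl ⟨?_, ?_, ?_, ?_⟩ <;> linarith)
    | (refine Or.inr ⟨?_, ?_, ?_, ?_⟩ <;> linarith)

theorem pvuf_Ln_sub (σ β : Bool) : (pvhfT (1 / 40)).Ln σ β ⊆ pvufA σ β := fun u hu => pvuf_fat σ β hu (mem_closedBall_self (by norm_num))

theorem pvuf_Ln_closed (σ β : Bool) : IsClosed ((pvhfT (1 / 40)).Ln σ β) := by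
  rw [pvuf_Ln]
  cases σ <;> cases β <;> exact (pvkgg_rect_closed _ _ _ _).union (pvkgg_rect_closed _ _ _ _)

theorem pvuf_cthick (σ β : Bool) : cthickening (1 / 320) ((pvhfT (1 / 40)).Ln σ β) ⊆ pvufA σ β := by
  rw [(pvuf_Ln_closed σ β).cthickening_eq_biUnion_closedBall (by norm_num)]
  intro w hw
  obtain ⟨u, hu, hwu⟩ := mem_iUnion₂.1 hw
  exact pvuf_fat σ β hu hwu

/-- the feet -/
theorem pvuf_foot (σ β : Bool) : closedBall 0 (1 / 20) ∩ (pvhfT (1 / 40)).Ln σ β ⊆ pvufX σ β := by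
  rintro w ⟨hb, hw⟩
  rw [pvuf_Ln] at hw
  obtain ⟨p1, p2, p3, p4⟩ := pvkgg_ball_box hb
  simp only [Complex.zero_re, Complex.zero_im] at p1 p2 p3 p4
  cases σ <;> cases β <;> simp only [pvufX, pvufQ] at hw ⊢ <;> rcases hw with ⟨a, b, c, d⟩ | ⟨a, b, c, d⟩ <;> refine ⟨?_, ?_, ?_, ?_⟩ <;> linarith

/-- the windows of record of 174 lie in the windows of 258 -/
theorem pvuf_Es (σ : Bool) : (pvhfT (1 / 40)).Es σ ⊆ cond σ pvkgEp pvkgEm := by
  rintro w (hw | hw)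
  · have h : |(w - 0).re| ≤ 3 * (1 / 40) ∧ |(w - 0).im| ≤ 3 * (1 / 40) := hw
    rw [sub_zero, abs_le, abs_le] at h
    have hO : w ∈ pvkgO := ⟨by linarith [h.1.1], by linarith [h.1.2], by linarith [h.2.1], by linarith [h.2.2]⟩
    cases σ <;> exact Or.inl hO
  · cases σ <;> simp only [pvkdRect, if_true, if_false, Bool.false_eq_true] at hw <;> obtain ⟨a, b, c, d⟩ := hw <;> refine Or.inr ⟨?_, ?_, ?_, ?_⟩ <;> linarith

/-! ## 4. the datum of 52 -/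

/-- **THE DATUM OF [FRC]** at the instance of record, ends `ep em` -/
noncomputable def pvufIn (ep em : PvnkEnd) : PvjoIn where
  ep := ep
  em := em
  Zp₁ := (pvhfT (1 / 40)).Ln true true
  Zp₂ := (pvhfT (1 / 40)).Ln true false
  Zm₁ := (pvhfT (1 / 40)).Ln false true
  Zm₂ := (pvhfT (1 / 40)).Ln false false
  s := 1 / 320
  L₁ := pvufL true
  L₂ := pvufL false
  K₁ := pvufK true
  K₂ := pvufK false
  Et := pvkgEt

theorem pvuf_eqns_cite7 : True := by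
  have := @pvufIn.eq_1
  trivial

/-- **`PvjoIn.Ok` AT THE INSTANCE OF RECORD**: what is left = the ends (174 / 91) and (DET) (204 / 253) -/
theorem pvuf_in_ok {ep em : PvnkEnd} (hp : PvufEnd ep true) (hm : PvufEnd em false) (okp : ep.Ok) (okm : em.Ok)
    (monop : PvjoMono ep.L ep.c ep.O ((pvhfT (1 / 40)).Ln true true) ((pvhfT (1 / 40)).Ln true false))
    (monom : PvjoMono em.L em.c em.O ((pvhfT (1 / 40)).Ln false true) ((pvhfT (1 / 40)).Ln false false))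
    (det : ∀ (τ : PvtTurn) (η : Conf PvPt), CfOK η → PvatNice (cfSites η) → η ∈ pvkgG.C 0 1 → η ∈ pvkgG.C (pvkgG.zo 0 1 τ) τ.rot → η ∈ ((pvufIn ep em).lk pvkgG τ).A₀ →
      PvtrMesh pvkgG.ρ (pvkgEt τ) (cfSites η) → η ∈ pvkgG.A 0 1 τ) : (pvufIn ep em).Ok pvkgG where
  ρ0 := pvkgg_ze.ρ0
  mC := pvze_mC pvkgg_ze
  Op := hp.O
  Om := hm.O
  okp := okp
  okm := okm
  monop := monop
  monom := monom
  geo := pvuf_geo hp hm
  zp₁ := fun τ => (pvuf_Ln_sub true true).trans (pvuf_zp true τ)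
  zp₂ := fun τ => (pvuf_Ln_sub true false).trans (pvuf_zp false τ)
  zm₁ := fun τ => (image_mono (pvuf_Ln_sub false true)).trans (pvuf_zm true τ)
  zm₂ := fun τ => (image_mono (pvuf_Ln_sub false false)).trans (pvuf_zm false τ)
  mEt := fun τ => (pvkgg_Et_open τ).measurableSet
  bEt := fun τ => pvkgg_bdd_of (C := 1) fun w hw => by
    obtain ⟨a, b, c, d⟩ := pvkgg_U_cell τ (pvkgg_Et_sub τ hw).1
    exact ⟨abs_le.2 ⟨by linarith, by linarith⟩, abs_le.2 ⟨by linarith, by linarith⟩⟩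
  dEt := fun τ => by
    rw [pvkgg_zo]
    exact Set.disjoint_left.2 fun w hw => (pvkgg_Et_sub τ hw).2
  det := det

/-! ## 5. the fields of `PvjoLay.Ok` / `PvdtLay` (52, 294) -/

/-- **the carrier lies in two rectangles through the centre of the cell** -/
theorem pvuf_G_sub (β : Bool) (τ : PvtTurn) :
    pvufG β τ ⊆ rswRect (3 / 320) (174 / 320) (-(14 / 320)) (14 / 320) ∪ pvkdAt τ.mid τ.rot (rswRect (-(174 / 320)) (-(3 / 320)) (-(14 / 320)) (14 / 320)) := by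
  rintro z ((hz | hz) | hz)
  · obtain ⟨a, b, c, d⟩ := pvuf_A_box_p β hz
    exact Or.inl ⟨by linarith, by linarith, by linarith, by linarith⟩
  · rw [pvuf_L_U] at hz
    have hs : (0 : ℝ) < 1 / 320 := by norm_num
    cases β <;> cases τ <;> simp only [pvufW, pvuf_U_union] at hz <;> rcases hz with hz | hz <;> rw [pvuf_U_R hs (by norm_num) (by norm_num)] at hz <;> push_cast at hz <;>
      obtain ⟨a, b, c, d⟩ := hz
    · rw [pvuf_at_S]
      by_cases h : z.re ≤ 1 / 2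
      · exact Or.inl ⟨by linarith, by linarith, by linarith, by linarith⟩
      · exact Or.inr ⟨by linarith, by linarith, by linarith, by linarith⟩
    · rw [pvuf_at_S]
      exact Or.inr ⟨by linarith, by linarith, by linarith, by linarith⟩
    · exact Or.inl ⟨by linarith, by linarith, by linarith, by linarith⟩
    · rw [pvuf_at_L]
      exact Or.inr ⟨by linarith, by linarith, by linarith, by linarith⟩
    · exact Or.inl ⟨by linarith, by linarith, by linarith, by linarith⟩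
    · rw [pvuf_at_R]
      exact Or.inr ⟨by linarith, by linarith, by linarith, by linarith⟩
    · rw [pvuf_at_S]
      by_cases h : z.re ≤ 1 / 2
      · exact Or.inl ⟨by linarith, by linarith, by linarith, by linarith⟩
      · exact Or.inr ⟨by linarith, by linarith, by linarith, by linarith⟩
    · rw [pvuf_at_S]
      exact Or.inr ⟨by linarith, by linarith, by linarith, by linarith⟩
    · exact Or.inl ⟨by linarith, by linarith, by linarith, by linarith⟩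
    · rw [pvuf_at_L]
      exact Or.inr ⟨by linarith, by linarith, by linarith, by linarith⟩
    · exact Or.inl ⟨by linarith, by linarith, by linarith, by linarith⟩
    · rw [pvuf_at_R]
      exact Or.inr ⟨by linarith, by linarith, by linarith, by linarith⟩
  · refine Or.inr (image_mono (fun v hv => ?_) hz)
    obtain ⟨a, b, c, d⟩ := pvuf_A_box_m β hv
    exact ⟨by linarith, by linarith, by linarith, by linarith⟩

/-- **COLLARS**: the closed `t`-neighbourhood of the carrier lies in any two open boxes (reference frame, exit frame) which contain the `t`-neighbourhoods of the two rectangles -/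
theorem pvuf_G_collar (β : Bool) (τ : PvtTurn) {t X0 X1 Y : ℝ} (h0 : X0 < 3 / 320 - t) (h1 : 174 / 320 + t < X1) (hY : 14 / 320 + t < Y) {z : ℂ} (hz : z ∈ pvufG β τ) :
    closedBall z t ⊆ pvkgB X0 X1 (-Y) Y ∪ pvkdAt τ.mid τ.rot (pvkgB (-X1) (-X0) (-Y) Y) := by
  rcases pvuf_G_sub β τ hz with hz | ⟨v, hv, rfl⟩
  · exact (pvuf_ball_box hz h0 h1 (by linarith) hY).trans subset_union_left
  · exact (pvuf_ball_at τ (pvuf_ball_box hv (by linarith) (by linarith) (by linarith) hY)).trans subset_union_right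

theorem pvuf_nbd_p (β : Bool) : vorNbd ((pvjoT (1 / 40)).Ln true β) (1 / 640) ⊆ pvufA true β := by
  rintro w ⟨u, hu, hw⟩
  exact pvuf_fat true β hu (by rw [mem_closedBall, Complex.dist_eq]; linarith)

theorem pvuf_nbd_m (β : Bool) (τ : PvtTurn) : vorNbd (pvkdAt τ.mid τ.rot ((pvjoT (1 / 40)).Ln false β)) (1 / 640) ⊆ pvkdAt τ.mid τ.rot (pvufA false β) := by
  rintro w ⟨_, ⟨u, hu, rfl⟩, hw⟩
  exact pvuf_ball_at τ (t := 1 / 640) (fun v hv => pvuf_fat false β hu (closedBall_subset_closedBall (by norm_num) hv)) (by rw [mem_closedBall, Complex.dist_eq]; exact hw)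

/-- the region swept by the lane of colour `β`, in the words of 294, lies in the carrier -/
theorem pvuf_swept (β : Bool) (τ : PvtTurn) :
    vorNbd ((pvjoT (1 / 40)).Ln true β) pvkgG.ρ ∪ pvlnU (1 / 320) (pvufL β τ) ∪ vorNbd (pvkdAt (pvkgG.zo 0 1 τ) τ.rot ((pvjoT (1 / 40)).Ln false β)) pvkgG.ρ ⊆ pvufG β τ := by
  rw [pvkgg_zo, pvkgg_ρ]
  exact union_subset_union (union_subset_union (pvuf_nbd_p β) Subset.rfl) (pvuf_nbd_m β τ)

theorem pvuf_f_djK (τ : PvtTurn) : Disjoint (pvufK true τ) (pvufK false τ) := pvuf_K_disj τ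

theorem pvuf_f_w (τ : PvtTurn) (β : Bool) : pvlnW (1 / 320) (pvufL β τ) ⊆ pvufK β τ := pvuf_win_K β τ

theorem pvuf_f_off (τ : PvtTurn) (β : Bool) : Disjoint (pvlnW (1 / 320) (pvufL β τ)) (pvkgG.O₀ ∪ pvkdAt (pvkgG.zo 0 1 τ) τ.rot pvkgG.O₀) := by
  rw [pvkgg_zo]
  exact pvuf_win_off β τ

theorem pvuf_f_zp (τ : PvtTurn) (β : Bool) : (pvjoT (1 / 40)).Ln true β ⊆ pvkgG.O₀ ∪ pvufK β τ := (pvuf_Ln_sub true β).trans (pvuf_zp β τ)

theorem pvuf_f_zm (τ : PvtTurn) (β : Bool) :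
    pvkdAt (pvkgG.zo 0 1 τ) τ.rot ((pvjoT (1 / 40)).Ln false β) ⊆ pvkdAt (pvkgG.zo 0 1 τ) τ.rot pvkgG.O₀ ∪ pvufK β τ :=
  (image_mono (pvuf_Ln_sub false β)).trans (pvuf_zm β τ)

/-- **field `inE`** -/
theorem pvuf_f_inE (τ : PvtTurn) (β : Bool) :
    ∀ z ∈ vorNbd ((pvjoT (1 / 40)).Ln true β) pvkgG.ρ ∪ pvlnU (1 / 320) (pvufL β τ) ∪ vorNbd (pvkdAt (pvkgG.zo 0 1 τ) τ.rot ((pvjoT (1 / 40)).Ln false β)) pvkgG.ρ,
      closedBall z (5 * pvkgG.ρ) ⊆ pvkgG.Ea τ := by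
  intro z hz
  have h := pvuf_G_ball β τ (pvuf_swept β τ hz)
  rw [pvkgg_Ea, pvkgg_ρ]
  have e : (5 * (1 / 640) : ℝ) = 5 / 640 := by norm_num
  rw [e]
  exact h.trans fun _ hw => Or.inl (Or.inr hw)

/-- **field `inK`**, for any room which contains two boxes -/
theorem pvuf_f_inK (τ : PvtTurn) (β : Bool) {X0 X1 Y : ℝ} (h0 : X0 < 3 / 640) (h1 : 351 / 640 < X1) (hY : 31 / 640 < Y) {Kc : Set ℂ}
    (hK : pvkgB X0 X1 (-Y) Y ∪ pvkdAt (pvkgG.zo 0 1 τ) τ.rot (pvkgB (-X1) (-X0) (-Y) Y) ⊆ Kc) :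
    ∀ z ∈ vorNbd ((pvjoT (1 / 40)).Ln true β) pvkgG.ρ ∪ pvlnU (1 / 320) (pvufL β τ) ∪ vorNbd (pvkdAt (pvkgG.zo 0 1 τ) τ.rot ((pvjoT (1 / 40)).Ln false β)) pvkgG.ρ,
      closedBall z (3 * pvkgG.ρ) ⊆ Kc := by
  intro z hz
  rw [pvkgg_zo] at hK
  refine Subset.trans ?_ hK
  rw [pvkgg_ρ]
  exact pvuf_G_collar β τ (by linarith) (by linarith) (by linarith) (pvuf_swept β τ hz)

/-- **field `zone`** -/
theorem pvuf_f_zone (τ : PvtTurn) (β : Bool) :
    PvfpZone (1 / 320) {k | k ∈ pvufL β τ} (vorNbd ((pvjoT (1 / 40)).Ln true β) pvkgG.ρ) ((pvjoT (1 / 40)).Ln true β ∩ (pvkgG.pg 0 1).KO) ((pvjoT (1 / 40)).Dr true β) := by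
  refine pvuf_zone_mono (pvuf_zone_p β τ) Subset.rfl ?_ ?_ (pvuf_Dr true β).le
  · rw [pvkgg_ρ]
    exact pvuf_nbd_p β
  · rintro w ⟨hw, hb⟩
    refine pvuf_foot true β ⟨?_, hw⟩
    have hb' : w ∈ ball (0 : ℂ) (2 * (1 / 40)) := hb
    exact ball_subset_closedBall (by
      have e : (2 * (1 / 40) : ℝ) = 1 / 20 := by norm_num
      rwa [e] at hb')

/-- **field `zone'`** -/
theorem pvuf_f_zone' (τ : PvtTurn) (β : Bool) :
    PvfpZone (1 / 320) {k | k ∈ pvufL β τ} (vorNbd (pvkdAt (pvkgG.zo 0 1 τ) τ.rot ((pvjoT (1 / 40)).Ln false β)) pvkgG.ρ)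
      (pvkdAt (pvkgG.zo 0 1 τ) τ.rot ((pvjoT (1 / 40)).Ln false β) ∩ (pvkgG.pg (pvkgG.zo 0 1 τ) τ.rot).KO) (pvkdAt (pvkgG.zo 0 1 τ) τ.rot ((pvjoT (1 / 40)).Dr false β)) := by
  rw [pvkgg_zo]
  refine pvuf_zone_mono (pvuf_zone_m β τ) Subset.rfl ?_ ?_ (image_mono (pvuf_Dr false β).le)
  · rw [pvkgg_ρ]
    exact pvuf_nbd_m β τ
  · rintro _ ⟨⟨u, hu, rfl⟩, hb⟩
    refine ⟨u, pvuf_foot false β ⟨?_, hu⟩, rfl⟩
    have hb' : pvthSim τ.mid τ.rot u ∈ ball τ.mid (2 * (1 / 40)) := hb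
    rw [mem_ball, Complex.dist_eq] at hb'
    rw [mem_closedBall, Complex.dist_eq, sub_zero]
    have e : pvthSim τ.mid τ.rot u - τ.mid = τ.rot * u := by unfold pvthSim; ring
    rw [e, norm_mul, pvpk_rot_norm, one_mul] at hb'
    linarith

/-- **THE LAYOUT OF 294 AT THE INSTANCE OF RECORD**, from `PvdtGeo` of the sub-room (52) -/
theorem pvuf_lay (τ : PvtTurn) {X0 X1 Y : ℝ} (h0 : X0 < 3 / 640) (h1 : 351 / 640 < X1) (hY : 31 / 640 < Y) {Kc : Set ℂ}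
    (hK : pvkgB X0 X1 (-Y) Y ∪ pvkdAt (pvkgG.zo 0 1 τ) τ.rot (pvkgB (-X1) (-X0) (-Y) Y) ⊆ Kc) (geo : PvdtGeo (pvkgG.pg 0 1) (pvkgG.pg (pvkgG.zo 0 1 τ) τ.rot) Kc) :
    PvdtLay pvkgG.ρ (pvkgG.Ea τ) (pvkgG.pg 0 1) (pvkgG.pg (pvkgG.zo 0 1 τ) τ.rot) Kc (1 / 320) (fun β => pvufL β τ) (fun β => (pvjoT (1 / 40)).Ln true β)
      (fun β => pvkdAt (pvkgG.zo 0 1 τ) τ.rot ((pvjoT (1 / 40)).Ln false β)) (fun β => (pvjoT (1 / 40)).Dr true β) (fun β => pvkdAt (pvkgG.zo 0 1 τ) τ.rot ((pvjoT (1 / 40)).Dr false β)) where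
  geo := geo
  ρ_pos := pvkgg_ze.ρ0
  δ_pos := by norm_num
  ne := fun β => pvuf_L_ne β τ
  ch := fun β => pvuf_L_ch β τ
  full := fun β => pvuf_L_full β τ
  inE := fun β => pvuf_f_inE τ β
  inK := fun β => pvuf_f_inK τ β h0 h1 hY hK
  zone := fun β => pvuf_f_zone τ β
  zone' := fun β => pvuf_f_zone' τ β

end Claimed.Agent.R289
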