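-- KEEP
import Claimed.Agent.R289.Tr.PlugFrcT
import Claimed.Agent.R289.Tr.FrcLayE
import Claimed.Agent.R289.Tr.RegT

/-!
# Row 289 (S0537), THE WALL, chapter E (cells), file Tr/FrcLayB : **THE SUB-ROOM `Kc τ` AND THE REGION FIELDS OF `PvjoLay.Ok Λ pvkgG (pvjoT r)`**      (helper52; names `pvjo_b_*`, `pvjoKc`)

* sec. 1  PARAMETRIC (no numeral): `pvjoKc X y τ` = two open boxes through the centre `1/2` of the cell (entrance half `(0,X) × (-y,y)`, exit half = its mirror in the frame of the exit door);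
          convex boxes, star convexity, `pvjo_b_Kc_co` (the complement is preconnected, `pvrt_star`), `pvjo_b_Kc_bdd`, `pvjo_b_Kc_cell`, `pvjo_b_core` (the collar `t`), `pvjo_b_far`, `pvjo_b_m_off`, `pvjo_b_p_off`, **`pvjo_b_geo`** (`PvdtGeo`).
-/

set_option autoImplicit false
set_option linter.unusedSectionVars false
set_option linter.unusedVariables false

namespace Claimed.Agent.R289

open MeasureTheory Set Filter Topology Metric Claims.C0465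

/-! ## 1. the sub-room, parametric -/

/-- **THE SUB-ROOM**: two open boxes through the centre of the cell -/
noncomputable def pvjoKc (X y : ℝ) (τ : PvtTurn) : Set ℂ := pvkgB 0 X (-y) y ∪ pvkdAt τ.mid τ.rot (pvkgB (-X) 0 (-y) y)

theorem pvjo_b_eqns_cite : True := by
  have := @pvjoKc.eq_1
  trivial

theorem pvjo_b_box_convex (x0 x1 y0 y1 : ℝ) : Convex ℝ (pvkgB x0 x1 y0 y1) := by
  have e : pvkgB x0 x1 y0 y1 = {w : ℂ | x0 < w.re} ∩ ({w : ℂ | w.re < x1} ∩ ({w : ℂ | y0 < w.im} ∩ {w : ℂ | w.im < y1})) := rfl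
  rw [e]
  exact (convex_halfSpace_re_gt _).inter ((convex_halfSpace_re_lt _).inter ((convex_halfSpace_im_gt _).inter (convex_halfSpace_im_lt _)))

theorem pvjo_b_box_bdd (x0 x1 y0 y1 : ℝ) : Bornology.IsBounded (pvkgB x0 x1 y0 y1) := by
  refine pvkgg_bdd_of (C := max (max |x0| |x1|) (max |y0| |y1|)) fun w hw => ?_
  obtain ⟨a, b, c, d⟩ := hw
  have h1 := le_max_left (max |x0| |x1|) (max |y0| |y1|)
  have h2 := le_max_right (max |x0| |x1|) (max |y0| |y1|)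
  have h3 := le_max_left |x0| |x1|
  have h4 := le_max_right |x0| |x1|
  have h5 := le_max_left |y0| |y1|
  have h6 := le_max_right |y0| |y1|
  have n1 := neg_abs_le x0
  have n2 := le_abs_self x1
  have n3 := neg_abs_le y0
  have n4 := le_abs_self y1
  exact ⟨abs_le.2 ⟨by linarith, by linarith⟩, abs_le.2 ⟨by linarith, by linarith⟩⟩

/-- a placed box is a box -/
theorem pvjo_b_at_box (τ : PvtTurn) (x0 x1 y0 y1 : ℝ) : ∃ a b c d, pvkdAt τ.mid τ.rot (pvkgB x0 x1 y0 y1) = pvkgB a b c d := by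
  cases τ
  · exact ⟨_, _, _, _, pvkgg_at_S _ _ _ _⟩
  · exact ⟨_, _, _, _, pvkgg_at_L _ _ _ _⟩
  · exact ⟨_, _, _, _, pvkgg_at_R _ _ _ _⟩

theorem pvjo_b_Kc_bdd (X y : ℝ) (τ : PvtTurn) : Bornology.IsBounded (pvjoKc X y τ) := by
  obtain ⟨a, b, c, d, e⟩ := pvjo_b_at_box τ (-X) 0 (-y) y
  unfold pvjoKc
  rw [e]
  exact (pvjo_b_box_bdd _ _ _ _).union (pvjo_b_box_bdd _ _ _ _)

/-- the centre of the cell lies in both boxes -/
theorem pvjo_b_ctr_in {X y : ℝ} (hX : 1 / 2 < X) (hy : 0 < y) : (1 / 2 : ℂ) ∈ pvkgB 0 X (-y) y := by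
  refine ⟨?_, ?_, ?_, ?_⟩ <;> norm_num <;> linarith

theorem pvjo_b_ctr_out {X y : ℝ} (hX : 1 / 2 < X) (hy : 0 < y) (τ : PvtTurn) : (1 / 2 : ℂ) ∈ pvkdAt τ.mid τ.rot (pvkgB (-X) 0 (-y) y) := by
  cases τ
  · rw [pvkgg_at_S]
    refine ⟨?_, ?_, ?_, ?_⟩ <;> norm_num <;> linarith
  · rw [pvkgg_at_L]
    refine ⟨?_, ?_, ?_, ?_⟩ <;> norm_num <;> linarith
  · rw [pvkgg_at_R]
    refine ⟨?_, ?_, ?_, ?_⟩ <;> norm_num <;> linarith

theorem pvjo_b_Kc_star {X y : ℝ} (hX : 1 / 2 < X) (hy : 0 < y) (τ : PvtTurn) : StarConvex ℝ (1 / 2 : ℂ) (pvjoKc X y τ) := by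
  obtain ⟨a, b, c, d, e⟩ := pvjo_b_at_box τ (-X) 0 (-y) y
  have h2 := pvjo_b_ctr_out hX hy τ
  unfold pvjoKc
  rw [e] at h2 ⊢
  exact ((pvjo_b_box_convex _ _ _ _).starConvex (pvjo_b_ctr_in hX hy)).union ((pvjo_b_box_convex _ _ _ _).starConvex h2)

/-- **the complement of the sub-room is preconnected** -/
theorem pvjo_b_Kc_co {X y : ℝ} (hX : 1 / 2 < X) (hy : 0 < y) (τ : PvtTurn) : IsPreconnected (pvjoKc X y τ)ᶜ :=
  pvrt_star (pvjo_b_Kc_star hX hy τ) (pvjo_b_Kc_bdd X y τ)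

/-- the sub-room lies in the open cell -/
theorem pvjo_b_Kc_cell {X y : ℝ} (hX : X ≤ 1) (hy : y ≤ 1 / 2) (τ : PvtTurn) {w : ℂ} (hw : w ∈ pvjoKc X y τ) : 0 < w.re ∧ w.re < 1 ∧ -(1 / 2) < w.im ∧ w.im < 1 / 2 := by
  rcases hw with ⟨a, b, c, d⟩ | hw
  · exact ⟨a, by linarith, by linarith, by linarith⟩
  · cases τ
    · rw [pvkgg_at_S] at hw
      obtain ⟨a, b, c, d⟩ := hw
      exact ⟨by linarith, by linarith, by linarith, by linarith⟩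
    · rw [pvkgg_at_L] at hw
      obtain ⟨a, b, c, d⟩ := hw
      exact ⟨by linarith, by linarith, by linarith, by linarith⟩
    · rw [pvkgg_at_R] at hw
      obtain ⟨a, b, c, d⟩ := hw
      exact ⟨by linarith, by linarith, by linarith, by linarith⟩

/-- the collar, entrance half -/
theorem pvjo_b_core_in {h X y t : ℝ} (hth : t ≤ h) (hyh : y ≤ h) : pvkgB 0 (X - t) (-(y - t)) (y - t) ⊆ pvtrCore t (pvkgB (-h) h (-h) h ∪ pvkgB 0 X (-y) y) := by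
  rintro z ⟨a, b, c, d⟩ w hw
  obtain ⟨e1, e2, e3, e4⟩ := pvkgg_ball_box hw
  by_cases hx : w.re < h
  · exact Or.inl ⟨by linarith, hx, by linarith, by linarith⟩
  · have h0 : 0 ≤ t := by
      by_contra hc
      rw [closedBall_eq_empty.2 (not_le.1 hc)] at hw
      exact hw
    exact Or.inr ⟨by linarith, by linarith, by linarith, by linarith⟩

/-- the collar, exit half (frame of the exit door) -/
theorem pvjo_b_core_out {h X y t : ℝ} (hth : t ≤ h) (hyh : y ≤ h) : pvkgB (-(X - t)) 0 (-(y - t)) (y - t) ⊆ pvtrCore t (pvkgB (-h) h (-h) h ∪ pvkgB (-X) 0 (-y) y) := by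
  rintro z ⟨a, b, c, d⟩ w hw
  obtain ⟨e1, e2, e3, e4⟩ := pvkgg_ball_box hw
  by_cases hx : -h < w.re
  · exact Or.inl ⟨hx, by linarith, by linarith, by linarith⟩
  · have h0 : 0 ≤ t := by
      by_contra hc
      rw [closedBall_eq_empty.2 (not_le.1 hc)] at hw
      exact hw
    exact Or.inr ⟨by linarith, by linarith, by linarith, by linarith⟩

/-- **the collar `t` of the sub-room lies in the window of the link** -/
theorem pvjo_b_core {h X y t : ℝ} (hth : t ≤ h) (hyh : y ≤ h) (τ : PvtTurn) :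
    pvjoKc (X - t) (y - t) τ ⊆ pvtrCore t (pvkgB (-h) h (-h) h ∪ (pvkgB 0 X (-y) y ∪ pvkdAt τ.mid τ.rot (pvkgB (-X) 0 (-y) y)) ∪ pvkdAt τ.mid τ.rot (pvkgB (-h) h (-h) h)) := by
  rintro z (hz | hz)
  · refine pvtr_core_mono ?_ (pvjo_b_core_in hth hyh hz)
    rintro w (hw | hw)
    · exact Or.inl (Or.inl hw)
    · exact Or.inl (Or.inr (Or.inl hw))
  · have h1 := pvze_at_core (z := τ.mid) (pvpk_rot_norm τ) t _ (pvjo_at_mono (pvjo_b_core_out (X := X) hth hyh) hz)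
    refine pvtr_core_mono ?_ h1
    rw [pvjo_at_union]
    rintro w (hw | hw)
    · exact Or.inr hw
    · exact Or.inl (Or.inr (Or.inr hw))

theorem pvjo_b_mid_norm (τ : PvtTurn) : 1 / 2 ≤ ‖τ.mid‖ := by
  have h := Complex.abs_re_le_norm τ.mid
  have e : (1 / 2 : ℝ) ≤ |τ.mid.re| := by
    cases τ <;> simp [PvtTurn.mid] <;> norm_num
  linarith

/-- the two outer discs are apart -/
theorem pvjo_b_far {b : ℝ} (hb : 4 * b ≤ 1) (τ : PvtTurn) : Disjoint (ball (0 : ℂ) b) (ball τ.mid b) := by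
  refine ball_disjoint_ball ?_
  rw [dist_comm, dist_zero_right]
  have := pvjo_b_mid_norm τ
  linarith

/-- `g⁻` of the plug left behind is off the sub-room -/
theorem pvjo_b_m_off {r X y : ℝ} (hr : 0 < r) (hX : X ≤ 1) (hy : y ≤ 1 / 2) (τ : PvtTurn) : Disjoint (pvkdAt 0 1 (pvkdP r).Zm) (pvjoKc X y τ) := by
  rw [pvjo_at_ref, Set.disjoint_left]
  rintro w ⟨a, b, c, d⟩ hw
  have := (pvjo_b_Kc_cell hX hy τ hw).1
  linarith

/-- `g⁺` of the plug ahead is off the sub-room -/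
theorem pvjo_b_p_off {r X y : ℝ} (hr : 0 < r) (hX : X ≤ 1) (hy : y ≤ 1 / 2) (τ : PvtTurn) : Disjoint (pvkdAt τ.mid τ.rot (pvkdP r).Zp) (pvjoKc X y τ) := by
  rw [Set.disjoint_left]
  intro w hw hk
  obtain ⟨k1, k2, k3, k4⟩ := pvjo_b_Kc_cell hX hy τ hk
  have hw' : w ∈ pvkdAt τ.mid τ.rot (rswRect (r / 2) (2 * r) (-(r / 2)) (r / 2)) := hw
  cases τ
  · rw [pvuf_at_S] at hw'
    obtain ⟨a, b, c, d⟩ := hw'
    linarith
  · rw [pvuf_at_L] at hw'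
    obtain ⟨a, b, c, d⟩ := hw'
    linarith
  · rw [pvuf_at_R] at hw'
    obtain ⟨a, b, c, d⟩ := hw'
    linarith

/-- **`PvdtGeo` of 294 for the plug of record and the sub-room** -/
theorem pvjo_b_geo {r X y : ℝ} (hr : 0 < r) (hr8 : 8 * r ≤ 1) (hX0 : 1 / 2 < X) (hX : X ≤ 1) (hy0 : 0 < y) (hy : y ≤ 1 / 2) (τ : PvtTurn) :
    PvdtGeo ((pvkdP r).pg 0 1) ((pvkdP r).pg τ.mid τ.rot) (pvjoKc X y τ) where
  bdd := pvjo_b_Kc_bdd X y τ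
  co := pvjo_b_Kc_co hX0 hy0 τ
  bO := isBounded_ball
  far := pvjo_b_far (b := 2 * r) (by linarith) τ
  m_off := pvjo_b_m_off hr hX hy τ
  p_off := pvjo_b_p_off hr hX hy τ

/-! ## 2. the instance of record `pvkgG` (258), `r = 1/40` -/

theorem pvjo_b_a : pvkgG.a = 1 / 40 := rfl

/-- **THE SUB-ROOM OF RECORD**: `(0, 1/2 + y₁ - 3ρ) × (-(y₁ - 3ρ), y₁ - 3ρ)` and its mirror in the frame of the exit door (`y₁ = 1/16`, `ρ = 1/640`) -/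
noncomputable def pvjoKr (τ : PvtTurn) : Set ℂ := pvjoKc (357 / 640) (37 / 640) τ

theorem pvjo_b_eqns_cite2 : True := by
  have := @pvjoKr.eq_1
  trivial

theorem pvjo_b_Kr (τ : PvtTurn) : pvjoKr τ = pvkgB 0 (357 / 640) (-(37 / 640)) (37 / 640) ∪ pvkdAt τ.mid τ.rot (pvkgB (-(357 / 640)) 0 (-(37 / 640)) (37 / 640)) := rfl

theorem pvjo_b_mO : MeasurableSet pvkgG.O₀ := pvkgg_ze.mO

theorem pvjo_b_EO : pvkgG.Ew ⊆ pvkgG.O₀ := pvkgg_ze.EO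

theorem pvjo_b_mEt (τ : PvtTurn) : MeasurableSet (pvkgEt τ) := (pvkgg_Et_open τ).measurableSet

theorem pvjo_b_bEt (τ : PvtTurn) : Bornology.IsBounded (pvkgEt τ) :=
  (pvkgg_Ea_bdd τ).subset fun w hw => Or.inl (Or.inr (pvkgg_Et_sub τ hw).1)

theorem pvjo_b_dEt (τ : PvtTurn) : Disjoint (pvkgEt τ) (pvkgG.O₀ ∪ pvkdAt (pvkgG.zo 0 1 τ) τ.rot pvkgG.O₀) := by
  rw [pvkgg_zo, Set.disjoint_left]
  intro w hw
  exact (pvkgg_Et_sub τ hw).2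

/-- the windows of 258 lie in the closed windows of record -/
theorem pvjo_b_Ep_sub : pvkgEp ⊆ (pvjoT (1 / 40)).Es true := by
  show pvkgEp ⊆ pvwSq 0 (13 * (1 / 40) / 4) ∪ rswRect 0 (11 * (1 / 40) / 2) (-(5 * (1 / 40) / 2)) (5 * (1 / 40) / 2)
  rw [pvjo_t_sq_eq]
  rintro w (⟨a, b, c, d⟩ | ⟨a, b, c, d⟩)
  · exact Or.inl ⟨by linarith, by linarith, by linarith, by linarith⟩
  · exact Or.inr ⟨by linarith, by linarith, by linarith, by linarith⟩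

theorem pvjo_b_Em_sub : pvkgEm ⊆ (pvjoT (1 / 40)).Es false := by
  show pvkgEm ⊆ pvwSq 0 (13 * (1 / 40) / 4) ∪ rswRect (-(11 * (1 / 40) / 2)) (-0) (-(5 * (1 / 40) / 2)) (5 * (1 / 40) / 2)
  rw [pvjo_t_sq_eq]
  rintro w (⟨a, b, c, d⟩ | ⟨a, b, c, d⟩)
  · exact Or.inl ⟨by linarith, by linarith, by linarith, by linarith⟩
  · exact Or.inr ⟨by linarith, by linarith, by linarith, by linarith⟩

/-- **THE SEAM** -/
theorem pvjo_b_cover (τ : PvtTurn) : pvtrCore pvkgG.ρ (pvkgG.Ea τ) ⊆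
    pvtrCore pvkgG.ρ ((pvjoT (1 / 40)).Es true) ∪ pvtrCore pvkgG.ρ (pvkgEt τ) ∪ pvtrCore pvkgG.ρ (pvkdAt (pvkgG.zo 0 1 τ) τ.rot ((pvjoT (1 / 40)).Es false)) := by
  rw [pvkgg_zo, pvkgg_Ea, pvkgg_ρ]
  intro z hz
  rcases pvkgg_cover τ le_rfl hz with (h | h) | h
  · exact Or.inl (Or.inl (pvtr_core_mono pvjo_b_Ep_sub h))
  · exact Or.inl (Or.inr h)
  · exact Or.inr (pvtr_core_mono (pvjo_at_mono pvjo_b_Em_sub) h)

/-- the exit side of the door `0` -/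
theorem pvjo_b_left {w : ℂ} (hw : w ∈ pvkgG.O₀ ∪ (pvjoT (1 / 40)).Es true) : w.re ≤ 11 / 80 := by
  have hw' : w ∈ pvkgO ∪ (pvwSq 0 (13 * (1 / 40) / 4) ∪ rswRect 0 (11 * (1 / 40) / 2) (-(5 * (1 / 40) / 2)) (5 * (1 / 40) / 2)) := hw
  rw [pvjo_t_sq_eq] at hw'
  rcases hw' with ⟨a, b, c, d⟩ | ⟨a, b, c, d⟩ | ⟨a, b, c, d⟩ <;> linarith

/-- the entrance side of the exit door -/
theorem pvjo_b_right (τ : PvtTurn) {w : ℂ} (hw : w ∈ pvkdAt τ.mid τ.rot pvkgG.O₀ ∪ pvkdAt τ.mid τ.rot ((pvjoT (1 / 40)).Es false)) : 67 / 160 ≤ w.re := by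
  have hw' : w ∈ pvkdAt τ.mid τ.rot (pvkgB (-(13 / 160)) (13 / 160) (-(13 / 160)) (13 / 160)) ∪
      pvkdAt τ.mid τ.rot (pvwSq 0 (13 * (1 / 40) / 4) ∪ rswRect (-(11 * (1 / 40) / 2)) (-0) (-(5 * (1 / 40) / 2)) (5 * (1 / 40) / 2)) := hw
  rw [pvjo_t_sq_eq, pvjo_at_union] at hw'
  cases τ
  · rw [pvkgg_at_S, pvuf_at_S, pvuf_at_S] at hw'
    rcases hw' with ⟨a, b, c, d⟩ | ⟨a, b, c, d⟩ | ⟨a, b, c, d⟩ <;> linarith
  · rw [pvkgg_at_L, pvuf_at_L, pvuf_at_L] at hw'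
    rcases hw' with ⟨a, b, c, d⟩ | ⟨a, b, c, d⟩ | ⟨a, b, c, d⟩ <;> linarith
  · rw [pvkgg_at_R, pvuf_at_R, pvuf_at_R] at hw'
    rcases hw' with ⟨a, b, c, d⟩ | ⟨a, b, c, d⟩ | ⟨a, b, c, d⟩ <;> linarith

/-- **the two plugs with the windows of their side events are apart** -/
theorem pvjo_b_dj (τ : PvtTurn) : Disjoint (pvkgG.O₀ ∪ (pvjoT (1 / 40)).Es true)
    (pvkdAt (pvkgG.zo 0 1 τ) τ.rot pvkgG.O₀ ∪ pvkdAt (pvkgG.zo 0 1 τ) τ.rot ((pvjoT (1 / 40)).Es false)) := by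
  rw [pvkgg_zo, Set.disjoint_left]
  intro w h1 h2
  have a1 := pvjo_b_left h1
  have a2 := pvjo_b_right τ h2
  linarith

/-- **the sub-room lies in the room of the run** -/
theorem pvjo_b_sub (τ : PvtTurn) : pvjoKr τ ⊆ pvkgG.Co τ := by
  intro w hw
  obtain ⟨a, b, c, d⟩ := pvjo_b_Kc_cell (by norm_num) (by norm_num) τ hw
  refine ⟨⟨a.le, b, by linarith, by linarith⟩, ?_⟩
  have h := pvjo_b_core (h := 13 / 160) (X := 9 / 16) (y := 1 / 16) (t := 3 / 640) (by norm_num) (by norm_num) τ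
  have e1 : (9 / 16 - 3 / 640 : ℝ) = 357 / 640 := by norm_num
  have e2 : (1 / 16 - 3 / 640 : ℝ) = 37 / 640 := by norm_num
  rw [e1, e2] at h
  exact h hw

/-- **`PvdtGeo` at the record** -/
theorem pvjo_b_geo_r (τ : PvtTurn) : PvdtGeo (pvkgG.pg 0 1) (pvkgG.pg (pvkgG.zo 0 1 τ) τ.rot) (pvjoKr τ) := by
  rw [pvkgg_zo]
  exact pvjo_b_geo (r := 1 / 40) (by norm_num) (by norm_num) (by norm_num) (by norm_num) (by norm_num) (by norm_num) τ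

/-- **THE ASSEMBLY**: what is left = the walks, the zones, the collars -/
theorem pvjo_b_mk {s : ℝ} {L : PvtTurn → Bool → List (ℤ × ℤ)} {K : PvtTurn → Bool → Set ℂ} (hs : 0 < s)
    (djK : ∀ τ, Disjoint (K τ true) (K τ false)) (w : ∀ τ β, pvlnW s (L τ β) ⊆ K τ β)
    (off : ∀ τ β, Disjoint (pvlnW s (L τ β)) (pvkgO ∪ pvkgOx τ))
    (zp : ∀ τ β, (pvjoT (1 / 40)).Ln true β ⊆ pvkgO ∪ K τ β)
    (zm : ∀ τ β, pvkdAt τ.mid τ.rot ((pvjoT (1 / 40)).Ln false β) ⊆ pvkgOx τ ∪ K τ β)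
    (ne : ∀ τ β, L τ β ≠ []) (ch : ∀ τ β, (L τ β).IsChain PvlnAdj) (full : ∀ τ β, PvfpFull (L τ β))
    (inE : ∀ τ β, ∀ z ∈ vorNbd ((pvjoT (1 / 40)).Ln true β) (1 / 640) ∪ pvlnU s (L τ β) ∪ vorNbd (pvkdAt τ.mid τ.rot ((pvjoT (1 / 40)).Ln false β)) (1 / 640),
      closedBall z (5 * (1 / 640)) ⊆ pvkgEa τ)
    (inK : ∀ τ β, ∀ z ∈ vorNbd ((pvjoT (1 / 40)).Ln true β) (1 / 640) ∪ pvlnU s (L τ β) ∪ vorNbd (pvkdAt τ.mid τ.rot ((pvjoT (1 / 40)).Ln false β)) (1 / 640),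
      closedBall z (3 * (1 / 640)) ⊆ pvjoKr τ)
    (zone : ∀ τ β, PvfpZone s {k | k ∈ L τ β} (vorNbd ((pvjoT (1 / 40)).Ln true β) (1 / 640)) ((pvjoT (1 / 40)).Ln true β ∩ ball 0 (2 * (1 / 40))) ((pvjoT (1 / 40)).Dr true β))
    (zone' : ∀ τ β, PvfpZone s {k | k ∈ L τ β} (vorNbd (pvkdAt τ.mid τ.rot ((pvjoT (1 / 40)).Ln false β)) (1 / 640))
      (pvkdAt τ.mid τ.rot ((pvjoT (1 / 40)).Ln false β) ∩ ball τ.mid (2 * (1 / 40))) (pvkdAt τ.mid τ.rot ((pvjoT (1 / 40)).Dr false β))) :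
    (⟨s, L, K, pvkgEt, pvjoKr⟩ : PvjoLay).Ok pvkgG (pvjoT pvkgG.a) where
  mO := pvjo_b_mO
  EO := pvjo_b_EO
  dj := pvjo_b_dj
  djK := djK
  w := w
  off := fun τ β => by rw [pvkgg_zo]; exact off τ β
  zp := zp
  zm := fun τ β => by rw [pvkgg_zo]; exact zm τ β
  mEt := pvjo_b_mEt
  bEt := pvjo_b_bEt
  dEt := pvjo_b_dEt
  cover := pvjo_b_cover
  sub := pvjo_b_sub
  lay := fun τ => by
    refine ⟨pvjo_b_geo_r τ, by rw [pvkgg_ρ]; norm_num, hs, ne τ, ch τ, full τ, ?_, ?_, ?_, ?_⟩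
    · rw [pvkgg_zo, pvkgg_ρ, pvkgg_Ea]; exact inE τ
    · rw [pvkgg_zo, pvkgg_ρ]; exact inK τ
    · rw [pvkgg_ρ]; exact zone τ
    · rw [pvkgg_zo, pvkgg_ρ]; exact zone' τ

/-! ## 3. THE RECORD IS CLOSED -/

/-- **THE LAYOUT OF RECORD** (walks, zones of 278; window of the tile of 258; sub-room of sec. 2) -/
noncomputable def pvjoLam : PvjoLay := ⟨1 / 320, fun τ β => pvufL β τ, fun τ β => pvufK β τ, pvkgEt, pvjoKr⟩

theorem pvjo_b_eqns_cite3 : True := by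
  have := @pvjoLam.eq_1
  trivial

/-- **`PvjoLay.Ok` AT THE INSTANCE OF RECORD**: no hypothesis left -/
theorem pvjo_b_ok : pvjoLam.Ok pvkgG (pvjoT pvkgG.a) where
  mO := pvjo_b_mO
  EO := pvjo_b_EO
  dj := pvjo_b_dj
  djK := pvuf_f_djK
  w := pvuf_f_w
  off := pvuf_f_off
  zp := pvuf_f_zp
  zm := pvuf_f_zm
  mEt := pvjo_b_mEt
  bEt := pvjo_b_bEt
  dEt := pvjo_b_dEt
  cover := pvjo_b_cover
  sub := pvjo_b_sub
  lay := fun τ => pvuf_lay τ (X0 := 0) (X1 := 357 / 640) (Y := 37 / 640) (by norm_num) (by norm_num) (by norm_num)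
    (by
      show _ ⊆ pvjoKr τ
      rw [pvkgg_zo, pvjo_b_Kr, neg_zero]) (pvjo_b_geo_r τ)

/-- **(SIDE) AT THE CLOSED WINDOWS**: [MEAS] + [HDICT] + [FRC] of the cell kit of record, NO HYPOTHESIS -/
theorem pvjo_b_side : (∀ i, MeasurableSet (pvhfH pvkgG.toPvkdPlug (pvjoT pvkgG.a) i)) ∧
    (∀ err : ENNReal, err ≠ 0 → ∀ᶠ ε in 𝓝[>] (0 : ℝ), pvkgG.HDict (pvhfH pvkgG.toPvkdPlug (pvjoT pvkgG.a)) ε err) ∧
    (∀ b : ENNReal, b ≠ 0 → b ≤ 1 → ∃ q : ENNReal, q ≠ 0 ∧ q ≤ 1 ∧ ∀ᶠ ε in 𝓝[>] (0 : ℝ), ∀ τ, ∀ᵐ σ ∂(pvP ε),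
      σ ∈ (pvkgG.glob (pvhfH pvkgG.toPvkdPlug (pvjoT pvkgG.a))).G2 (pvP ε) b τ →
        q ≤ pvtiP (pvP ε) ((pvkgG.glob (pvhfH pvkgG.toPvkdPlug (pvjoT pvkgG.a))).pre.OO 0 1 τ) ((pvkgG.glob (pvhfH pvkgG.toPvkdPlug (pvjoT pvkgG.a))).A τ) σ) :=
  pvjo_t_side (pvjo_t_geo (r := pvkgG.a) (by rw [pvjo_b_a]; norm_num)) pvjo_b_ok (pvze_mC pvkgg_ze)

end Claimed.Agent.R289
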