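import Claimed.Agent.R289.Tr.PinLocG
import Claimed.Agent.R289.Arm.Stat
import Claimed.Agent.R289.Tr.RetMeas

/-!
# Row 289 (S0537, Cardy for Poisson-Voronoi), THE WALL, file Tr/PlugM : THE ENGINE OF [MEAS] AND [LOC] FOR GLOBAL OBJECTS READ ON THE PLANE MAP      (owner helper107; prefix `pvzn_`, `Pvzn`, `pvzn`)

CONSUMER: the global events and fields `C H A XQ` of the cell kit instance (`Tr/PlugK.lean`, 34): `PvatNice ∧ guard ∧ Φ (plane map, marks, colours)`, marks = position tests AND GEOMETRIC tests ("the cell lies in the room", `pvgeK` of 29).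
TWO KITS ARE JOINED: `PvatIso`, `pvat_meas` of 98 (`Arm/Stat`: true Delaunay relations in a bounded window, marks `reg Y a` which may depend on the site set, no mesh) and `PvplIso`, `Φ.Local K` of 238 (`Tr/PinLoc`), `Ψ.Local K` (`Tr/PinLocF`).
* sec. 1  (B) `PvznStar W r K Y` (a site marked in `K` lies in `W` with all its Delaunay neighbours);   **`pvzn_iso`** : `PvatIso` + stars ⟹ `PvplIso` of the plane maps `(delbPl Y).toMap`.
* sec. 2  (E) `pvznAt reg Φ η`;   **`pvzn_meas_event`** : `Φ.Local K` ⟹ `MeasurableSet {η | PvatNice ∧ G ∧ Φ}` ON `Conf PvPt`.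
* sec. 3  (F) marked codes `pvzn_iso_of_code`, `pvzn_meas_marked`;   **`pvzn_meas_field`** : `Ψ.Local K`, `Ψ.Supp K`, `w` Borel ⟹ `Measurable (η ↦ 1_{PvatNice ∧ G} · pvzfPl (reg Y) Ψ w η)` ON `Conf PvPt`.
* sec. 4  (L) deterministic locality `pvzn_loc_event`, `pvzn_loc_field`;   a.s. locality **`pvzn_local`** (`∀ᵐ` pair: resampling off the window) in the form of `PvpgLocal`.
* sec. 5  (R) the marks of record: `pvzn_reg_pos` (Borel position tests), `pvzn_reg_cell` (the cell misses a closed or an open set), products of marks.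
-/

set_option autoImplicit false
set_option linter.unusedSectionVars false

namespace Claimed.Agent.R289

open MeasureTheory ProbabilityTheory Set Filter Topology Metric Claims.C0465
open scoped ENNReal

/-! ## 1. (B) from combinatorial isomorphisms of site sets to local isomorphisms of the plane maps -/

section bridge

variable {κ : Type}

/-- a site with a mark in `K` lies in the window `W` with all its Delaunay neighbours -/
def PvznStar (W : Set ℂ) (r : ℂ → κ) (K : Set κ) (Y : Set ℂ) : Prop := ∀ a ∈ Y, r a ∈ K → a ∈ W ∧ ∀ b, DelAdj Y a b → b ∈ W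

theorem pvzn_eqns_cite : True := by
  have := @PvznStar.eq_1
  trivial

/-- one direction of the correspondence of the faces -/
theorem pvzn_iso_ex {W W' : Set ℂ} {r r' : ℂ → κ} {Y Y' : Set ℂ} {σ σ' : ℂ → Bool} {φ : ℂ → ℂ} (h : PvatIso W r Y σ W' r' Y' σ' φ) (hY : DelGood Y) (hY' : DelGood Y')
    {K : Set κ} (hs : PvznStar W r K Y) (d : (delbPl Y).Dart) (hd : r ((delbPl Y).toMap.src d).1 ∈ K) :
    ∃ d' : (delbPl Y').Dart, (((delbPl Y).toMap.src d).1 ∈ W ∧ ((delbPl Y').toMap.src d').1 = φ ((delbPl Y).toMap.src d).1) ∧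
      (((delbPl Y).toMap.tgt d).1 ∈ W ∧ ((delbPl Y').toMap.tgt d').1 = φ ((delbPl Y).toMap.tgt d).1) ∧
      (((delbPl Y).toMap.apex d).1 ∈ W ∧ ((delbPl Y').toMap.apex d').1 = φ ((delbPl Y).toMap.apex d).1) := by
  obtain ⟨⟨a, b⟩, hg, hab⟩ := d
  have htri : DelTri Y a b (delApex Y a b) := delp_apex_spec hY hab
  obtain ⟨haW, hnb⟩ := hs a a.2 hd
  have hbW : (b : ℂ) ∈ W := hnb b hab
  have hcW : delApex Y a b ∈ W := hnb _ (del_tri_cyc (del_tri_cyc htri)).adj.symm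
  have htri' : DelTri Y' (φ a) (φ b) (φ (delApex Y a b)) := (h.tri a ⟨a.2, haW⟩ b ⟨b.2, hbW⟩ _ ⟨htri.2.2.1, hcW⟩).2 htri
  refine ⟨⟨(⟨φ a, htri'.1⟩, ⟨φ b, htri'.2.1⟩), hY', htri'.adj⟩, ⟨haW, rfl⟩, ⟨hbW, rfl⟩, ⟨hcW, ?_⟩⟩
  exact del_apex_eq hY'.gp htri'

/-- **(B)** a combinatorial isomorphism of two good site sets in a window is a local isomorphism of the plane maps at the vertices whose stars lie in the window -/
theorem pvzn_iso {W W' : Set ℂ} {r r' : ℂ → κ} {Y Y' : Set ℂ} {σ σ' : ℂ → Bool} {φ : ℂ → ℂ} (h : PvatIso W r Y σ W' r' Y' σ' φ) (hY : DelGood Y) (hY' : DelGood Y')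
    {K : Set κ} (hs : PvznStar W r K Y) (hs' : PvznStar W' r' K Y') :
    PvplIso (delbPl Y).toMap (fun v => r v.1) (fun v => σ v.1) (delbPl Y').toMap (fun v => r' v.1) (fun v => σ' v.1) K (fun u u' => u.1 ∈ W ∧ u'.1 = φ u.1) := by
  refine ⟨?_, ?_, ?_, ?_, ?_, ?_⟩
  · rintro u u' ⟨hu, e⟩
    show r' u'.1 = r u.1
    rw [e]; exact h.reg _ ⟨u.2, hu⟩
  · rintro u u' ⟨hu, e⟩
    show σ' u'.1 = σ u.1
    rw [e]; exact h.col _ ⟨u.2, hu⟩
  · rintro u u' u'' ⟨_, e⟩ ⟨_, e'⟩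
    exact Subtype.ext (e.trans e'.symm)
  · rintro u v u' ⟨hu, e⟩ ⟨hv, e'⟩
    exact Subtype.ext (h.inj ⟨u.2, hu⟩ ⟨v.2, hv⟩ (e.symm.trans e'))
  · intro d hd
    exact pvzn_iso_ex h hY hY' hs d hd
  · intro d' hd'
    obtain ⟨ψ, hψ, -, hr⟩ := h.symm
    obtain ⟨d, ⟨h1, e1⟩, ⟨h2, e2⟩, ⟨h3, e3⟩⟩ := pvzn_iso_ex hψ hY' hY hs' d' hd'
    have key : ∀ (u : ↥Y) (u' : ↥Y'), u'.1 ∈ W' → u.1 = ψ u'.1 → u.1 ∈ W ∧ u'.1 = φ u.1 := by
      intro u u' hu' e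
      refine ⟨?_, ?_⟩
      · rw [e]; exact (hψ.maps _ ⟨u'.2, hu'⟩).2
      · rw [e]; exact (hr _ ⟨u'.2, hu'⟩).symm
    exact ⟨d, key _ _ h1 e1, key _ _ h2 e2, key _ _ h3 e3⟩

end bridge

/-! ## 2. (E) measurability of events -/

section events

variable {κ : Type}

/-- the predicate `Φ` on THE plane map of `η`, marks `reg (cfSites η)`, colours `cfCol η` -/
def pvznAt (reg : Set ℂ → ℂ → κ) (Φ : PvplPred κ) (η : Conf PvPt) : Prop :=
  Φ _ _ (delbPl (cfSites η)).toMap (fun v => reg (cfSites η) v.1) (fun v => cfCol η v.1)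

/-- the event of record: nice, guard, predicate -/
def pvznEv (G : Set ℂ → Prop) (reg : Set ℂ → ℂ → κ) (Φ : PvplPred κ) : Set (Conf PvPt) := {η | PvatNice (cfSites η) ∧ G (cfSites η) ∧ pvznAt reg Φ η}

theorem pvzn_eqns_cite2 : True := by
  have := @pvznAt.eq_1; have := @pvznEv.eq_1
  trivial

/-- a configuration with a locally finite site set is locally finite -/
theorem pvzn_lf {η : Conf PvPt} (h : VorLF (cfSites η)) : PvLF η := by
  intro k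
  have hb : Bornology.IsBounded {z : ℂ | z.re ∈ Ico (k.1 : ℝ) (k.1 + 1) ∧ z.im ∈ Ico (k.2 : ℝ) (k.2 + 1)} := by
    have e : {z : ℂ | z.re ∈ Ico (k.1 : ℝ) (k.1 + 1) ∧ z.im ∈ Ico (k.2 : ℝ) (k.2 + 1)} = Ico (k.1 : ℝ) (k.1 + 1) ×ℂ Ico (k.2 : ℝ) (k.2 + 1) := rfl
    rw [e]
    exact (Metric.isBounded_Ico _ _).reProdIm (Metric.isBounded_Ico _ _)
  obtain ⟨R, hR⟩ := hb.subset_closedBall 0
  have hfin : ((cfSites η ∩ closedBall (0 : ℂ) R) ×ˢ (univ : Set Bool)).Finite := (h R).prod finite_univ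
  refine hfin.subset ?_
  rintro p ⟨hp, hk⟩
  exact ⟨⟨⟨p, hp, rfl⟩, hR hk⟩, mem_univ _⟩

/-- invariance of a local predicate of the plane map under the combinatorial isomorphisms -/
theorem pvzn_inv {K : Set κ} {Φ : PvplPred κ} (hΦ : Φ.Local K) {W W' : Set ℂ} {r r' : ℂ → κ} {Y Y' : Set ℂ} {σ σ' : ℂ → Bool} {φ : ℂ → ℂ} (h : PvatIso W r Y σ W' r' Y' σ' φ)
    (hY : DelGood Y) (hY' : DelGood Y') (hs : PvznStar W r K Y) (hs' : PvznStar W' r' K Y') :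
    Φ _ _ (delbPl Y).toMap (fun v => r v.1) (fun v => σ v.1) ↔ Φ _ _ (delbPl Y').toMap (fun v => r' v.1) (fun v => σ' v.1) :=
  hΦ _ _ _ _ _ _ _ _ _ _ _ (delbPl Y).toMap_simple (delbPl Y').toMap_simple (pvzn_iso h hY hY' hs hs')

/-- **(E) MEASURABILITY OF THE GLOBAL EVENTS READ ON THE PLANE MAP** -/
theorem pvzn_meas_event [MeasurableSpace κ] [MeasurableSingletonClass κ] [Countable κ] {W : Set ℂ} (hW : MeasurableSet W) (hWb : Bornology.IsBounded W)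
    {reg : Set ℂ → ℂ → κ} (hreg : ∀ i : DelgpIx, Measurable fun x : DelmT => reg (delmY x) (x.2 i))
    {G : Set ℂ → Prop} (hG : MeasurableSet {x : DelmT | PvatNice (delmY x) ∧ G (delmY x)}) {K : Set κ} (hstar : ∀ Y, PvatNice Y → G Y → PvznStar W (reg Y) K Y)
    {Φ : PvplPred κ} (hΦ : Φ.Local K) : MeasurableSet (pvznEv G reg Φ) := by
  have h := pvat_meas (N := fun Y => PvatNice Y ∧ G Y) hG hW hreg
    (Φ := fun Y σ => Φ _ _ (delbPl Y).toMap (fun v => reg Y v.1) (fun v => σ v.1))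
    (fun Y σ Y' σ' φ hY hY' hi H => (pvzn_inv hΦ hi hY.1.good hY'.1.good (hstar Y hY.1 hY.2) (hstar Y' hY'.1 hY'.2)).1 H)
  have e : pvznEv G reg Φ = {η : Conf PvPt | Φ _ _ (delbPl (cfSites η)).toMap (fun v => reg (cfSites η) v.1) (fun v => cfCol η v.1) ∧ (PvatNice (cfSites η) ∧ G (cfSites η)) ∧
      (cfSites η ∩ W).Finite} ∩ {η | PvLF η} := by
    ext η
    constructor
    · rintro ⟨h1, h2, h3⟩
      exact ⟨⟨h3, ⟨h1, h2⟩, h1.finite hWb⟩, pvzn_lf h1.1⟩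
    · rintro ⟨⟨h3, ⟨h1, h2⟩, -⟩, -⟩
      exact ⟨h1, h2, h3⟩
  rw [e]
  exact pvcn_bridge h

end events

/-! ## 3. (F) measurability of fields -/

section fields

variable {κ : Type}

/-- two samples in the same piece with the same code: the isomorphism of 98 (`pvat_iso_of_code`) WITH ITS VALUES AT THE INDICES OF THE PIECE -/
theorem pvzn_iso_of_code {reg : Set ℂ → ℂ → κ} {W : Set ℂ} {F : Finset DelgpIx} {ω ω' : PVSample} (h : delmOf ω ∈ pvatPc W F) (h' : delmOf ω' ∈ pvatPc W F)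
    (hc : pvatCode reg F ω = pvatCode reg F ω') :
    ∃ φ : ℂ → ℂ, PvatIso W (reg (cfSites (pvConf ω))) (cfSites (pvConf ω)) (cfCol (pvConf ω)) W (reg (cfSites (pvConf ω'))) (cfSites (pvConf ω')) (cfCol (pvConf ω')) φ ∧
      ∀ i ∈ F, φ ((delmOf ω).2 i) = (delmOf ω').2 i := by
  classical
  rw [delm_sites, delm_sites]
  simp only [pvatCode, Prod.mk.injEq] at hc
  obtain ⟨c1, c2, c3, c4, c5⟩ := hc
  set x := delmOf ω with hx
  set x' := delmOf ω' with hx'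
  let φ : ℂ → ℂ := fun z => if hz : ∃ i ∈ F, x.2 i = z then x'.2 hz.choose else z
  have hφ : ∀ i ∈ F, φ (x.2 i) = x'.2 i := by
    intro i hi
    have hz : ∃ j ∈ F, x.2 j = x.2 i := ⟨i, hi, rfl⟩
    have e1 : φ (x.2 i) = x'.2 hz.choose := dif_pos hz
    rw [e1]
    obtain ⟨hj, he⟩ := hz.choose_spec
    have e2 := congrFun (congrFun c3 ⟨hz.choose, hj⟩) ⟨i, hi⟩
    exact e2.mp he
  refine ⟨φ, ⟨?_, ?_, ?_, ?_, ?_, ?_, ?_⟩, hφ⟩
  · intro a ha
    obtain ⟨i, hi, rfl⟩ := (pvat_pc_mem h a).1 ha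
    rw [hφ i hi]
    exact (pvat_pc_mem h' _).2 ⟨i, hi, rfl⟩
  · intro a ha b hb hab
    obtain ⟨i, hi, rfl⟩ := (pvat_pc_mem h a).1 ha
    obtain ⟨j, hj, rfl⟩ := (pvat_pc_mem h b).1 hb
    rw [hφ i hi, hφ j hj] at hab
    exact (congrFun (congrFun c3 ⟨i, hi⟩) ⟨j, hj⟩).mpr hab
  · intro a' ha'
    obtain ⟨i, hi, rfl⟩ := (pvat_pc_mem h' a').1 ha'
    exact ⟨x.2 i, (pvat_pc_mem h _).2 ⟨i, hi, rfl⟩, hφ i hi⟩
  · intro a ha
    obtain ⟨i, hi, rfl⟩ := (pvat_pc_mem h a).1 ha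
    rw [hφ i hi]
    have e2 : (cfCol (pvConf ω) (delgpW ω i) = true) = (cfCol (pvConf ω') (delgpW ω' i) = true) := congrFun c2 ⟨i, hi⟩
    exact (Bool.eq_iff_iff.2 (iff_of_eq e2)).symm
  · intro a ha
    obtain ⟨i, hi, rfl⟩ := (pvat_pc_mem h a).1 ha
    rw [hφ i hi]
    exact (congrFun c1 ⟨i, hi⟩).symm
  · intro a ha b hb
    obtain ⟨i, hi, rfl⟩ := (pvat_pc_mem h a).1 ha
    obtain ⟨j, hj, rfl⟩ := (pvat_pc_mem h b).1 hb
    rw [hφ i hi, hφ j hj]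
    exact (iff_of_eq (congrFun (congrFun c4 ⟨i, hi⟩) ⟨j, hj⟩)).symm
  · intro a ha b hb c hc
    obtain ⟨i, hi, rfl⟩ := (pvat_pc_mem h a).1 ha
    obtain ⟨j, hj, rfl⟩ := (pvat_pc_mem h b).1 hb
    obtain ⟨k, hk, rfl⟩ := (pvat_pc_mem h c).1 hc
    rw [hφ i hi, hφ j hj, hφ k hk]
    exact (iff_of_eq (congrFun (congrFun (congrFun c5 ⟨i, hi⟩) ⟨j, hj⟩) ⟨k, hk⟩)).symm

/-- **MARKED EVENTS**: a random set `𝒮 Y σ` of triples of sites of the window, EQUIVARIANT under the combinatorial isomorphisms: "the triple of sites with the indices `q` is selected" is measurable -/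
theorem pvzn_meas_marked [MeasurableSpace κ] [MeasurableSingletonClass κ] [Countable κ]
    {N : Set ℂ → Prop} (hN : MeasurableSet {x : DelmT | N (delmY x)}) (hNf : ∀ Y, N Y → ∀ W' : Set ℂ, Bornology.IsBounded W' → (Y ∩ W').Finite) {W : Set ℂ} (hW : MeasurableSet W) (hWb : Bornology.IsBounded W)
    {reg : Set ℂ → ℂ → κ} (hreg : ∀ i : DelgpIx, Measurable fun x : DelmT => reg (delmY x) (x.2 i))
    {𝒮 : Set ℂ → (ℂ → Bool) → Set (ℂ × ℂ × ℂ)} (hsub : ∀ Y σ, N Y → ∀ t ∈ 𝒮 Y σ, t.1 ∈ Y ∩ W ∧ t.2.1 ∈ Y ∩ W ∧ t.2.2 ∈ Y ∩ W)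
    (heq : ∀ (Y : Set ℂ) (σ : ℂ → Bool) (Y' : Set ℂ) (σ' : ℂ → Bool) (φ : ℂ → ℂ), N Y → N Y' → PvatIso W (reg Y) Y σ W (reg Y') Y' σ' φ → ∀ t ∈ 𝒮 Y σ, pvzfMap3 φ t ∈ 𝒮 Y' σ')
    (q : DelgpIx × DelgpIx × DelgpIx) :
    MeasurableSet {ω : PVSample | N (cfSites (pvConf ω)) ∧ delmE3 (delmOf ω) q ∈ 𝒮 (cfSites (pvConf ω)) (cfCol (pvConf ω))} := by
  classical
  have e : {ω : PVSample | N (cfSites (pvConf ω)) ∧ delmE3 (delmOf ω) q ∈ 𝒮 (cfSites (pvConf ω)) (cfCol (pvConf ω))}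
      = {ω : PVSample | delmE3 (delmOf ω) q ∈ 𝒮 (cfSites (pvConf ω)) (cfCol (pvConf ω))} ∩ ⋃ F : Finset DelgpIx, {ω : PVSample | N (delmY (delmOf ω)) ∧ delmOf ω ∈ pvatPc W F} := by
    ext ω
    have h1 : (delmY (delmOf ω) ∩ W).Finite ↔ ∃ F, delmOf ω ∈ pvatPc W F := by
      have := Set.ext_iff.1 (pvat_iUnion_pc W) (delmOf ω)
      simp only [mem_iUnion, mem_ofPred_eq] at this
      exact this.symm
    simp only [mem_ofPred_eq, mem_inter_iff, mem_iUnion, delm_sites]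
    constructor
    · rintro ⟨a, b⟩
      obtain ⟨F, hF⟩ := h1.1 (hNf _ a W hWb)
      exact ⟨b, F, a, hF⟩
    · rintro ⟨b, F, a, -⟩
      exact ⟨a, b⟩
  rw [e]
  refine pvat_meas_pieces fun F => ?_
  have hcF : Countable ↥F := Finite.to_countable
  have hEF : MeasurableSet {ω : PVSample | N (delmY (delmOf ω)) ∧ delmOf ω ∈ pvatPc W F} := (delm_pull hN).inter (delm_pull (pvat_meas_pc hW F))
  -- the indices of the piece
  have hA : ∀ t : DelgpIx × DelgpIx × DelgpIx, t.1 ∈ F → t.2.1 ∈ F → t.2.2 ∈ F →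
      MeasurableSet ({ω : PVSample | delmE3 (delmOf ω) t ∈ 𝒮 (cfSites (pvConf ω)) (cfCol (pvConf ω))} ∩ {ω : PVSample | N (delmY (delmOf ω)) ∧ delmOf ω ∈ pvatPc W F}) := by
    intro t t1 t2 t3
    refine pvat_meas_code (pvat_measurable_code hreg F) hEF ?_
    rintro ω ⟨n1, p1⟩ ω' ⟨n2, p2⟩ hc hω
    obtain ⟨φ, hφ, hv⟩ := pvzn_iso_of_code p1 p2 hc
    have := heq _ _ _ _ φ (by rw [delm_sites]; exact n1) (by rw [delm_sites]; exact n2) hφ _ hω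
    have e3 : pvzfMap3 φ (delmE3 (delmOf ω) t) = delmE3 (delmOf ω') t := by
      unfold pvzfMap3 delmE3
      simp only
      rw [hv _ t1, hv _ t2, hv _ t3]
    rw [e3] at this
    exact this
  have e2 : {ω : PVSample | delmE3 (delmOf ω) q ∈ 𝒮 (cfSites (pvConf ω)) (cfCol (pvConf ω))} ∩ {ω : PVSample | N (delmY (delmOf ω)) ∧ delmOf ω ∈ pvatPc W F}
      = ⋃ t ∈ (F ×ˢ F ×ˢ F : Finset (DelgpIx × DelgpIx × DelgpIx)), ({ω : PVSample | delmE3 (delmOf ω) t = delmE3 (delmOf ω) q} ∩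
          ({ω : PVSample | delmE3 (delmOf ω) t ∈ 𝒮 (cfSites (pvConf ω)) (cfCol (pvConf ω))} ∩ {ω : PVSample | N (delmY (delmOf ω)) ∧ delmOf ω ∈ pvatPc W F})) := by
    ext ω
    simp only [mem_inter_iff, mem_ofPred_eq, mem_iUnion, exists_prop, Finset.mem_product]
    constructor
    · rintro ⟨h1, n1, p1⟩
      obtain ⟨s1, s2, s3⟩ := hsub _ _ (by rw [delm_sites]; exact n1) _ h1
      rw [delm_sites] at s1 s2 s3
      obtain ⟨i, hi, ei⟩ := (pvat_pc_mem p1 _).1 s1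
      obtain ⟨j, hj, ej⟩ := (pvat_pc_mem p1 _).1 s2
      obtain ⟨k, hk, ek⟩ := (pvat_pc_mem p1 _).1 s3
      have e3 : delmE3 (delmOf ω) (i, j, k) = delmE3 (delmOf ω) q := Prod.ext ei (Prod.ext ej ek)
      exact ⟨(i, j, k), ⟨hi, hj, hk⟩, e3, by rw [e3]; exact h1, n1, p1⟩
    · rintro ⟨t, -, e3, h1, n1, p1⟩
      exact ⟨by rw [← e3]; exact h1, n1, p1⟩
  rw [e2]
  refine MeasurableSet.biUnion (Set.to_countable _) fun t ht => ?_
  have ht' := Finset.mem_product.1 ht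
  have ht'' := Finset.mem_product.1 ht'.2
  refine MeasurableSet.inter ?_ (hA t ht'.1 ht''.1 ht''.2)
  exact measurableSet_eq_fun ((delm_measurable_E3 t).comp delm_measurable_of) ((delm_measurable_E3 q).comp delm_measurable_of)

/-- **sums over an equivariant random set of triples of sites of the window** -/
theorem pvzn_meas_sum [MeasurableSpace κ] [MeasurableSingletonClass κ] [Countable κ]
    {N : Set ℂ → Prop} (hN : MeasurableSet {x : DelmT | N (delmY x)}) (hNf : ∀ Y, N Y → ∀ W' : Set ℂ, Bornology.IsBounded W' → (Y ∩ W').Finite) {W : Set ℂ} (hW : MeasurableSet W) (hWb : Bornology.IsBounded W)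
    {reg : Set ℂ → ℂ → κ} (hreg : ∀ i : DelgpIx, Measurable fun x : DelmT => reg (delmY x) (x.2 i))
    {𝒮 : Set ℂ → (ℂ → Bool) → Set (ℂ × ℂ × ℂ)} (hsub : ∀ Y σ, N Y → ∀ t ∈ 𝒮 Y σ, t.1 ∈ Y ∩ W ∧ t.2.1 ∈ Y ∩ W ∧ t.2.2 ∈ Y ∩ W)
    (heq : ∀ (Y : Set ℂ) (σ : ℂ → Bool) (Y' : Set ℂ) (σ' : ℂ → Bool) (φ : ℂ → ℂ), N Y → N Y' → PvatIso W (reg Y) Y σ W (reg Y') Y' σ' φ → ∀ t ∈ 𝒮 Y σ, pvzfMap3 φ t ∈ 𝒮 Y' σ')
    {w : ℂ × ℂ × ℂ → ℂ} (hw : Measurable w) :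
    Measurable fun ω : PVSample => ∑' t : {t | N (cfSites (pvConf ω)) ∧ t ∈ 𝒮 (cfSites (pvConf ω)) (cfCol (pvConf ω))}, w t := by
  have e : (fun ω : PVSample => ∑' t : {t | N (cfSites (pvConf ω)) ∧ t ∈ 𝒮 (cfSites (pvConf ω)) (cfCol (pvConf ω))}, w t)
      = fun ω => ∑' q : DelgpIx × DelgpIx × DelgpIx, {q | DelmFst (delmOf ω) q.1 ∧ DelmFst (delmOf ω) q.2.1 ∧ DelmFst (delmOf ω) q.2.2 ∧
          delmE3 (delmOf ω) q ∈ {t | N (cfSites (pvConf ω)) ∧ t ∈ 𝒮 (cfSites (pvConf ω)) (cfCol (pvConf ω))}}.indicator (fun q => w (delmE3 (delmOf ω) q)) q := by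
    funext ω
    refine delm_tsum3 (delmOf ω) (fun t ht => ?_) w
    obtain ⟨s1, s2, s3⟩ := hsub _ _ ht.1 t ht.2
    rw [delm_sites] at s1 s2 s3
    exact ⟨s1.1, s2.1, s3.1⟩
  rw [e]
  refine delm_measurable_tsum (P := fun q ω => DelmFst (delmOf ω) q.1 ∧ DelmFst (delmOf ω) q.2.1 ∧ DelmFst (delmOf ω) q.2.2 ∧
      delmE3 (delmOf ω) q ∈ {t | N (cfSites (pvConf ω)) ∧ t ∈ 𝒮 (cfSites (pvConf ω)) (cfCol (pvConf ω))}) (f := fun q ω => w (delmE3 (delmOf ω) q)) (fun q => ?_)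
    fun q => hw.comp ((delm_measurable_E3 q).comp delm_measurable_of)
  exact (delm_pull (delm_meas_fst q.1)).inter ((delm_pull (delm_meas_fst q.2.1)).inter ((delm_pull (delm_meas_fst q.2.2)).inter (pvzn_meas_marked hN hNf hW hWb hreg hsub heq q)))

/-- the positions of the darts of the plane of `Y` selected by `Ψ`, marks `r`, colours `σ` -/
def pvznSel (Ψ : PvzfPred κ) (r : ℂ → κ) (Y : Set ℂ) (σ : ℂ → Bool) : Set (ℂ × ℂ × ℂ) :=
  pvzfPlPos Y '' {d | Ψ _ _ (delbPl Y).toMap (fun v => r v.1) (fun v => σ v.1) d}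

open Classical in
/-- **the field of record**: `0` off the nice configurations with the guard -/
noncomputable def pvznFld (G : Set ℂ → Prop) (reg : Set ℂ → ℂ → κ) (Ψ : PvzfPred κ) (w : ℂ × ℂ × ℂ → ℂ) (η : Conf PvPt) : ℂ :=
  if PvatNice (cfSites η) ∧ G (cfSites η) then pvzfPl (reg (cfSites η)) Ψ w η else 0

theorem pvzn_eqns_cite3 : True := by
  have := @pvznSel.eq_1; have := @pvznFld.eq_1
  trivial

theorem pvzn_pos_inj (Y : Set ℂ) : Function.Injective (pvzfPlPos Y) := by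
  rintro ⟨⟨a, b⟩, h⟩ ⟨⟨a', b'⟩, h'⟩ e
  have e1 : (a : ℂ) = a' := congrArg (fun p : ℂ × ℂ × ℂ => p.1) e
  have e2 : (b : ℂ) = b' := congrArg (fun p : ℂ × ℂ × ℂ => p.2.1) e
  exact Subtype.ext (Prod.ext (Subtype.ext e1) (Subtype.ext e2))

/-- the selected triples lie in the window -/
theorem pvzn_sel_sub {K : Set κ} {Ψ : PvzfPred κ} (hs : Ψ.Supp K) {W : Set ℂ} {r : ℂ → κ} {Y : Set ℂ} (σ : ℂ → Bool) (hY : DelGood Y) (hst : PvznStar W r K Y) :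
    ∀ t ∈ pvznSel Ψ r Y σ, t.1 ∈ Y ∩ W ∧ t.2.1 ∈ Y ∩ W ∧ t.2.2 ∈ Y ∩ W := by
  rintro _ ⟨d, hd, rfl⟩
  have hK := hs _ _ _ _ _ d hd
  obtain ⟨⟨a, b⟩, hg, hab⟩ := d
  have htri : DelTri Y a b (delApex Y a b) := delp_apex_spec hY hab
  obtain ⟨haW, hnb⟩ := hst a a.2 hK
  exact ⟨⟨a.2, haW⟩, ⟨b.2, hnb b hab⟩, ⟨htri.2.2.1, hnb _ (del_tri_cyc (del_tri_cyc htri)).adj.symm⟩⟩

/-- the selected triples are equivariant -/
theorem pvzn_sel_equiv {K : Set κ} {Ψ : PvzfPred κ} (hΨ : Ψ.Local K) (hs : Ψ.Supp K) {W W' : Set ℂ} {r r' : ℂ → κ} {Y Y' : Set ℂ} {σ σ' : ℂ → Bool} {φ : ℂ → ℂ}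
    (h : PvatIso W r Y σ W' r' Y' σ' φ) (hY : DelGood Y) (hY' : DelGood Y') (hst : PvznStar W r K Y) (hst' : PvznStar W' r' K Y') :
    ∀ t ∈ pvznSel Ψ r Y σ, pvzfMap3 φ t ∈ pvznSel Ψ r' Y' σ' := by
  rintro _ ⟨d, hd, rfl⟩
  have hi := pvzn_iso h hY hY' hst hst'
  obtain ⟨d', hRD⟩ := hi.ex d (hs _ _ _ _ _ d hd)
  refine ⟨d', (hΨ _ _ _ _ _ _ _ _ _ _ _ (delbPl Y).toMap_simple (delbPl Y').toMap_simple hi d d' hRD).1 hd, ?_⟩
  exact Prod.ext hRD.1.2 (Prod.ext hRD.2.1.2 hRD.2.2.2)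

/-- the field is the sum over the selected triples -/
theorem pvzn_pl_eq (Ψ : PvzfPred κ) (θ : ℂ → κ) (w : ℂ × ℂ × ℂ → ℂ) (η : Conf PvPt) (hfin : (pvznSel Ψ θ (cfSites η) (cfCol η)).Finite) :
    pvzfPl θ Ψ w η = ∑' t : pvznSel Ψ θ (cfSites η) (cfCol η), w t := by
  have := hfin.to_subtype
  rw [tsum_eq_finsum (Set.toFinite _), finsum_set_coe_eq_finsum_mem (pvznSel Ψ θ (cfSites η) (cfCol η)) (f := w)]
  unfold pvznSel
  rw [finsum_mem_image (f := w) (pvzn_pos_inj _).injOn]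
  rfl

/-- **(F) MEASURABILITY OF THE GLOBAL FIELDS READ ON THE PLANE MAP** -/
theorem pvzn_meas_field [MeasurableSpace κ] [MeasurableSingletonClass κ] [Countable κ] {W : Set ℂ} (hW : MeasurableSet W) (hWb : Bornology.IsBounded W)
    {reg : Set ℂ → ℂ → κ} (hreg : ∀ i : DelgpIx, Measurable fun x : DelmT => reg (delmY x) (x.2 i))
    {G : Set ℂ → Prop} (hG : MeasurableSet {x : DelmT | PvatNice (delmY x) ∧ G (delmY x)}) {K : Set κ} (hstar : ∀ Y, PvatNice Y → G Y → PvznStar W (reg Y) K Y)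
    {Ψ : PvzfPred κ} (hΨ : Ψ.Local K) (hs : Ψ.Supp K) {w : ℂ × ℂ × ℂ → ℂ} (hw : Measurable w) : Measurable (pvznFld G reg Ψ w) := by
  classical
  have h := pvzn_meas_sum (N := fun Y => PvatNice Y ∧ G Y) hG (fun Y hY W' hW' => hY.1.finite hW') hW hWb hreg (𝒮 := fun Y σ => pvznSel Ψ (reg Y) Y σ)
    (fun Y σ hY => pvzn_sel_sub hs σ hY.1.good (hstar Y hY.1 hY.2))
    (fun Y σ Y' σ' φ hY hY' hi => pvzn_sel_equiv hΨ hs hi hY.1.good hY'.1.good (hstar Y hY.1 hY.2) (hstar Y' hY'.1 hY'.2)) hw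
  have key : ∀ η : Conf PvPt, pvznFld G reg Ψ w η
      = ∑' t : {t | (PvatNice (cfSites η) ∧ G (cfSites η)) ∧ t ∈ pvznSel Ψ (reg (cfSites η)) (cfSites η) (cfCol η)}, w t := by
    intro η
    unfold pvznFld
    by_cases hη : PvatNice (cfSites η) ∧ G (cfSites η)
    · rw [if_pos hη]
      have hfin : (pvznSel Ψ (reg (cfSites η)) (cfSites η) (cfCol η)).Finite := by
        have hf : (cfSites η ∩ W).Finite := hη.1.finite hWb
        refine (hf.prod (hf.prod hf)).subset fun t ht => ?_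
        obtain ⟨s1, s2, s3⟩ := pvzn_sel_sub hs (cfCol η) hη.1.good (hstar _ hη.1 hη.2) t ht
        exact ⟨s1, s2, s3⟩
      rw [pvzn_pl_eq Ψ _ w η hfin]
      refine tsum_congr_set_coe w ?_
      ext t
      exact ⟨fun ht => ⟨hη, ht⟩, fun ht => ht.2⟩
    · rw [if_neg hη]
      have e0 : {t | (PvatNice (cfSites η) ∧ G (cfSites η)) ∧ t ∈ pvznSel Ψ (reg (cfSites η)) (cfSites η) (cfCol η)} = ∅ := by
        ext t
        simp only [mem_ofPred_eq, mem_empty_iff_false, iff_false]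
        exact fun ht => hη ht.1
      rw [tsum_congr_set_coe w e0]
      simp
  have h2 : Measurable fun ω : PVSample => pvznFld G reg Ψ w (pvConf ω) := by
    have : (fun ω : PVSample => pvznFld G reg Ψ w (pvConf ω)) = fun ω : PVSample =>
        ∑' t : {t | (PvatNice (cfSites (pvConf ω)) ∧ G (cfSites (pvConf ω))) ∧ t ∈ pvznSel Ψ (reg (cfSites (pvConf ω))) (cfSites (pvConf ω)) (cfCol (pvConf ω))}, w t :=
      funext fun ω => key (pvConf ω)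
    rw [this]
    exact h
  have h3 := pvtm_bridge_ind h2
  have e : {η : Conf PvPt | PvLF η}.indicator (pvznFld G reg Ψ w) = pvznFld G reg Ψ w := by
    funext η
    by_cases hη : PvLF η
    · exact indicator_of_mem (s := {η : Conf PvPt | PvLF η}) hη _
    · rw [indicator_of_notMem (s := {η : Conf PvPt | PvLF η}) hη]
      unfold pvznFld
      rw [if_neg fun h => hη (pvzn_lf h.1.1)]
  rwa [e] at h3

end fields

end Claimed.Agent.R289
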