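-- KEEP
import Claimed.Agent.R289.Tr.PlugK
import Claimed.Agent.R289.Tr.PlugM
import Claimed.Agent.R289.Tr.RetMeas
import Claimed.Agent.R289.PppPv

/-!
# Row 289 (S0537), THE WALL, file Tr/PlugEv : [MEAS] AND [LOC] OF THE CELL KIT INSTANCE `Tr/PlugK.lean` v3      (owner helper173; prefix `pvze_`, `Pvze`, `pvze`)

TARGET: the fields `mC mA mX lC lA lX` of `(𝔤.glob Hf).Ok` (`Tr/Plug.lean`, 34).
ROUTE: the representing events / fields of 238 (`pvplb_main`, `PvplRep.plane`) and 107 (`pvzf_main`, `PvzfRep.plane`): a predicate `Φ.Local K` at Borel marks `θ : ℂ → κ` (`κ` countable) has a MEASURABLE representative which READS the window `E ×ˢ univ`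
and equals `Φ` of the plane map on `{PvatNice, PvtrMesh ρ E}` as soon as `θ ⁻¹' K ⊆ pvtrCore (3ρ) E`.      Locality of the predicates: `Tr/PlugLoc.lean`.      Change of marks `ℂ → (ι → Bool)`: `pvkk_*` of 34.
* sec. 1  the guard `pvzeN ρ E`: measurable, a.s. stable under resampling off the window;   `PvzeWin`;   `pvze_rep_ev`, `pvze_rep_fld`;   soft lemmas `pvze_meas_of_rep`, `pvze_local_of_rep`.
* sec. 2  finite Boolean marks `pvzeTh S`, `pvzeK i`, `pvzeKJ J`.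
* sec. 3  the plug, the link, the three fields for ABSTRACT regions `p p' : PvzlPg ℂ`, `KE`.
* sec. 4  the instance: `PvzeGeo 𝔤` (what the geometry owes) ⟹ `pvze_mC pvze_mA pvze_mX pvze_lC pvze_lA pvze_lX`.
-/

set_option autoImplicit false
set_option linter.unusedSectionVars false

namespace Claimed.Agent.R289

open Set MeasureTheory Filter Topology Metric Claims.C0465
open scoped ENNReal

/-! ## 1. the guard and the representatives -/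

section engine

variable {κ : Type} {ρ : ℝ} {E : Set ℂ}

/-- the guard: nice configuration, mesh read in the window `E` -/
def pvzeN (ρ : ℝ) (E : Set ℂ) : Set (Conf PvPt) := {η | PvatNice (cfSites η) ∧ PvtrMesh ρ E (cfSites η)}

/-- what the window owes to the marks -/
structure PvzeWin [MeasurableSpace κ] (ρ : ℝ) (E : Set ℂ) (θ : ℂ → κ) (K : Set κ) : Prop where
  ρ0 : 0 < ρ
  win : PvplWin E
  bdd : Bornology.IsBounded E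
  mθ : Measurable θ
  core : θ ⁻¹' K ⊆ pvtrCore (3 * ρ) E

theorem pvze_eqns_cite : True := by
  have := @pvzeN.eq_1
  trivial

theorem pvze_nice_meas : MeasurableSet {η : Conf PvPt | PvatNice (cfSites η)} := by
  have h := pvcn_bridge pvat_meas_niceEv
  have e : {η : Conf PvPt | PvatNice (cfSites η)} ∩ {η | PvLF η} = {η : Conf PvPt | PvatNice (cfSites η)} := by
    ext η
    exact ⟨fun h => h.1, fun h => ⟨h, pvzn_lf h.1⟩⟩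
  rwa [e] at h

theorem pvze_N_meas (ρ : ℝ) (E : Set ℂ) : MeasurableSet (pvzeN ρ E) := by
  have e : pvzeN ρ E = {η : Conf PvPt | PvatNice (cfSites η)} ∩ {η : Conf PvPt | PvtrMesh ρ E (cfSites η) ∧ PvLF η} := by
    ext η
    exact ⟨fun h => ⟨h.1, h.2, pvzn_lf h.1.1⟩, fun h => ⟨h.1, h.2.1⟩⟩
  rw [e]
  exact pvze_nice_meas.inter (pvtm_cf_mesh ρ E)

/-- the guard is a.s. stable under resampling off a window which contains `E` -/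
theorem pvze_N_spl {ε : ℝ} (hε : ε ≠ 0) (ρ : ℝ) {E : Set ℂ} {W : Set PvPt} (hW : MeasurableSet W) (hEW : E ×ˢ univ ⊆ W) :
    ∀ᵐ p ∂((pvP ε).prod (pvP ε)), p.1 ∈ pvzeN ρ E → Conf.spl W p ∈ pvzeN ρ E := by
  filter_upwards [(pv_isPpp ε).ae_splice hW (pvat_nice_ae hε)] with p hp h1
  refine ⟨hp, ?_⟩
  have := (pvtr_reads_mesh ρ E).spl_left hEW p.1 p.2
  exact this.mpr h1.2

theorem pvze_fin {η : Conf PvPt} (h : PvatNice (cfSites η)) (hE : Bornology.IsBounded E) : (η.pts ∩ E ×ˢ univ).Finite := by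
  refine (pvtm_pts_finite (pvzn_lf h.1) hE).subset ?_
  rintro p ⟨h1, h2⟩
  exact ⟨h1, h2.1⟩

theorem PvzeWin.out [MeasurableSpace κ] {θ : ℂ → κ} {K : Set κ} (H : PvzeWin ρ E θ K) : ∃ zi, θ zi ∉ K := by
  obtain ⟨R, hR⟩ := H.bdd.subset_closedBall 0
  refine ⟨((|R| + 1 : ℝ) : ℂ), fun h => ?_⟩
  have h1 : (((|R| + 1 : ℝ) : ℂ)) ∈ E := H.core h (mem_closedBall_self (by have := H.ρ0; positivity))
  have h2 := hR h1
  rw [mem_closedBall, dist_zero_right, Complex.norm_real, Real.norm_eq_abs, abs_of_pos (by positivity)] at h2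
  have := le_abs_self R
  linarith

/-- **REPRESENTATIVE OF A LOCAL EVENT** of the plane map -/
theorem pvze_rep_ev [Countable κ] [MeasurableSpace κ] [MeasurableSingletonClass κ] {θ : ℂ → κ} {K : Set κ} (H : PvzeWin ρ E θ K) {Φ : PvplPred κ} (hΦ : Φ.Local K) :
    ∃ B : Set (Conf PvPt), MeasurableSet B ∧ Conf.ReadsSet (E ×ˢ univ) B ∧
      ∀ η ∈ pvzeN ρ E, (η ∈ B ↔ Φ _ _ (delbPl (cfSites η)).toMap (fun v => θ v.1) (fun v => cfCol η v.1)) := by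
  obtain ⟨B, h1, h2, h3⟩ := pvplb_main H.mθ hΦ H.win H.ρ0 H.core
  obtain ⟨zi, hzi⟩ := H.out
  exact ⟨B, h1, h2, fun η hη => h3.plane hη.1.good (pvze_fin hη.1 H.bdd) hη.2 hzi⟩

/-- **REPRESENTATIVE OF A LOCAL FIELD** of the plane map -/
theorem pvze_rep_fld [Countable κ] [MeasurableSpace κ] [MeasurableSingletonClass κ] {θ : ℂ → κ} {K : Set κ} (H : PvzeWin ρ E θ K) {Ψ : PvzfPred κ} (hΨ : Ψ.Local K) (hs : Ψ.Supp K)
    {w : ℂ × ℂ × ℂ → ℂ} (hw : Measurable w) :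
    ∃ F : Conf PvPt → ℂ, Measurable F ∧ Conf.Reads (E ×ˢ univ) F ∧ ∀ η ∈ pvzeN ρ E, F η = pvzfPl θ Ψ w η := by
  obtain ⟨F, hF⟩ := pvzf_main H.mθ hΨ hs H.win H.ρ0 H.core hw
  obtain ⟨zi, hzi⟩ := H.out
  exact ⟨F, hF.1, hF.2.1, fun η hη => hF.plane hη.1.good (pvze_fin hη.1 H.bdd) hη.2 hzi⟩

/-- an event with a representative on the guard -/
def PvzeRep (ρ : ℝ) (E : Set ℂ) (P : Conf PvPt → Prop) : Prop :=
  ∃ B : Set (Conf PvPt), MeasurableSet B ∧ Conf.ReadsSet (E ×ˢ univ) B ∧ ∀ η ∈ pvzeN ρ E, (η ∈ B ↔ P η)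

/-- a field with a representative on the guard -/
def PvzeRepF (ρ : ℝ) (E : Set ℂ) (f : Conf PvPt → ℂ) : Prop :=
  ∃ F : Conf PvPt → ℂ, Measurable F ∧ Conf.Reads (E ×ˢ univ) F ∧ ∀ η ∈ pvzeN ρ E, F η = f η

theorem pvze_eqns_cite2 : True := by
  have := @PvzeRep.eq_1; have := @PvzeRepF.eq_1
  trivial

theorem PvzeRep.congr {P P' : Conf PvPt → Prop} (h : PvzeRep ρ E P) (e : ∀ η ∈ pvzeN ρ E, (P η ↔ P' η)) : PvzeRep ρ E P' := by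
  obtain ⟨B, h1, h2, h3⟩ := h
  exact ⟨B, h1, h2, fun η hη => (h3 η hη).trans (e η hη)⟩

theorem PvzeRepF.congr {f f' : Conf PvPt → ℂ} (h : PvzeRepF ρ E f) (e : ∀ η ∈ pvzeN ρ E, f η = f' η) : PvzeRepF ρ E f' := by
  obtain ⟨F, h1, h2, h3⟩ := h
  exact ⟨F, h1, h2, fun η hη => (h3 η hη).trans (e η hη)⟩

theorem PvzeRepF.add {f f' : Conf PvPt → ℂ} (h : PvzeRepF ρ E f) (h' : PvzeRepF ρ E f') : PvzeRepF ρ E (fun η => f η + f' η) := by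
  obtain ⟨F, h1, h2, h3⟩ := h
  obtain ⟨F', h1', h2', h3'⟩ := h'
  refine ⟨fun η => F η + F' η, h1.add h1', fun η => ?_, fun η hη => ?_⟩
  · show F _ + F' _ = F η + F' η
    rw [h2 η, h2' η]
  · show F η + F' η = f η + f' η
    rw [h3 η hη, h3' η hη]

/-- **[MEAS] of an event** `guard ∧ P` -/
theorem PvzeRep.meas {P : Conf PvPt → Prop} (h : PvzeRep ρ E P) : MeasurableSet {η | η ∈ pvzeN ρ E ∧ P η} := by
  obtain ⟨B, h1, -, h3⟩ := h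
  have e : {η | η ∈ pvzeN ρ E ∧ P η} = pvzeN ρ E ∩ B := by
    ext η
    exact ⟨fun h => ⟨h.1, (h3 η h.1).2 h.2⟩, fun h => ⟨h.1, (h3 η h.1).1 h.2⟩⟩
  rw [e]
  exact (pvze_N_meas ρ E).inter h1

/-- **[LOC] of an event** `guard ∧ P` -/
theorem PvzeRep.loc {P : Conf PvPt → Prop} (h : PvzeRep ρ E P) {ε : ℝ} (hε : ε ≠ 0) {W : Set PvPt} (hW : MeasurableSet W) (hEW : E ×ˢ univ ⊆ W) :
    PvpgLocal (pvP ε) W {η | η ∈ pvzeN ρ E ∧ P η} := by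
  obtain ⟨B, -, h2, h3⟩ := h
  filter_upwards [pvze_N_spl hε ρ hW hEW] with p hp h1
  have hN := hp h1.1
  refine ⟨hN, (h3 _ hN).1 ?_⟩
  have hr : Conf.Reads (E ×ˢ univ) (fun η => η ∈ B) := fun η => propext (h2 η)
  have := hr.spl_left hEW p.1 p.2
  exact this.mpr ((h3 _ h1.1).2 h1.2)

/-- **[MEAS] of a field** cut to an event `guard ∧ P` -/
theorem PvzeRepF.meas {f : Conf PvPt → ℂ} (h : PvzeRepF ρ E f) {P : Conf PvPt → Prop} (hP : PvzeRep ρ E P) : Measurable ({η | η ∈ pvzeN ρ E ∧ P η}.indicator f) := by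
  obtain ⟨F, h1, -, h3⟩ := h
  have e : {η | η ∈ pvzeN ρ E ∧ P η}.indicator f = {η | η ∈ pvzeN ρ E ∧ P η}.indicator F := by
    funext η
    by_cases hη : η ∈ {η | η ∈ pvzeN ρ E ∧ P η}
    · rw [indicator_of_mem hη, indicator_of_mem hη, h3 η hη.1]
    · rw [indicator_of_notMem hη, indicator_of_notMem hη]
  rw [e]
  exact h1.indicator hP.meas

/-- **[LOC] of a field** cut to an event `guard ∧ P` -/
theorem PvzeRepF.loc {f : Conf PvPt → ℂ} (h : PvzeRepF ρ E f) {P : Conf PvPt → Prop} (hP : PvzeRep ρ E P) {ε : ℝ} (hε : ε ≠ 0) {W : Set PvPt} (hW : MeasurableSet W) (hEW : E ×ˢ univ ⊆ W) :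
    ∀ᵐ p ∂((pvP ε).prod (pvP ε)), p.1 ∈ {η | η ∈ pvzeN ρ E ∧ P η} →
      {η | η ∈ pvzeN ρ E ∧ P η}.indicator f (Conf.spl W p) = {η | η ∈ pvzeN ρ E ∧ P η}.indicator f p.1 := by
  obtain ⟨F, -, h2, h3⟩ := h
  filter_upwards [hP.loc hε hW hEW] with p hp h1
  have h4 : Conf.spl W p ∈ {η | η ∈ pvzeN ρ E ∧ P η} := hp h1
  have h1' : p.1 ∈ {η | η ∈ pvzeN ρ E ∧ P η} := h1
  rw [indicator_of_mem h4, indicator_of_mem h1', ← h3 _ h4.1, ← h3 _ h1.1]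
  exact h2.spl_left hEW p.1 p.2

end engine

/-! ## 2. finite Boolean marks -/

section marks

variable {ι : Type}

open Classical in
/-- the membership vector of a family of regions -/
noncomputable def pvzeTh (S : ι → Set ℂ) (w : ℂ) (i : ι) : Bool := decide (w ∈ S i)

/-- the marks of the region number `i` -/
def pvzeK (i : ι) : Set (ι → Bool) := {k | k i = true}

/-- the marks of the union of the regions with a number in `J` -/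
def pvzeKJ (J : Set ι) : Set (ι → Bool) := {k | ∃ i ∈ J, k i = true}

/-- the marks of a plug whose five regions have the numbers `f 0 .. f 4` -/
def pvzePg (f : Fin 5 → ι) : PvzlPg (ι → Bool) := ⟨pvzeK (f 0), pvzeK (f 1), pvzeK (f 2), pvzeK (f 3), pvzeK (f 4)⟩

theorem pvze_eqns_cite3 : True := by
  have := @pvzeTh.eq_1; have := @pvzeK.eq_1; have := @pvzeKJ.eq_1; have := @pvzePg.eq_1
  trivial

theorem pvze_th_pre (S : ι → Set ℂ) (i : ι) : pvzeTh S ⁻¹' pvzeK i = S i := by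
  ext w
  simp [pvzeTh, pvzeK]

theorem pvze_th_preJ (S : ι → Set ℂ) (J : Set ι) : pvzeTh S ⁻¹' pvzeKJ J = ⋃ i ∈ J, S i := by
  ext w
  simp [pvzeTh, pvzeKJ]

theorem pvze_th_meas {S : ι → Set ℂ} (hS : ∀ i, MeasurableSet (S i)) : Measurable (pvzeTh S) := by
  refine measurable_pi_iff.2 fun i => measurable_to_bool ?_
  have e : (fun w => pvzeTh S w i) ⁻¹' {true} = S i := by
    ext w
    simp [pvzeTh]
  rw [e]
  exact hS i

theorem pvze_K_sub {J : Set ι} {i : ι} (hi : i ∈ J) : pvzeK i ⊆ pvzeKJ J := fun _ hk => ⟨i, hi, hk⟩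

theorem pvze_pg_comap (S : ι → Set ℂ) (f : Fin 5 → ι) : (pvzePg f).comap (pvzeTh S) = ⟨S (f 0), S (f 1), S (f 2), S (f 3), S (f 4)⟩ := by
  unfold PvzlPg.comap pvzePg
  simp only [pvze_th_pre]

theorem pvze_pg_sub {J : Set ι} {f : Fin 5 → ι} (h0 : f 0 ∈ J) (h1 : f 1 ∈ J) (h4 : f 4 ∈ J) : (pvzePg f).Sub (pvzeKJ J) :=
  ⟨pvze_K_sub h0, pvze_K_sub h1, pvze_K_sub h4⟩

/-- the window record for Boolean marks -/
theorem pvze_win {ρ : ℝ} {E : Set ℂ} (hρ : 0 < ρ) (hE : PvplWin E) (hb : Bornology.IsBounded E) {S : ι → Set ℂ} (hS : ∀ i, MeasurableSet (S i)) {J : Set ι}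
    (hJ : ∀ i ∈ J, S i ⊆ pvtrCore (3 * ρ) E) : PvzeWin ρ E (pvzeTh S) (pvzeKJ J) where
  ρ0 := hρ
  win := hE
  bdd := hb
  mθ := pvze_th_meas hS
  core := by
    rw [pvze_th_preJ]
    exact iUnion₂_subset hJ

end marks

/-! ## 3. the plug, the link and the three fields for abstract regions -/

section abs

variable {ρ : ℝ} {E : Set ℂ}

/-- the five regions of a plug, numbered -/
def PvzlPg.get {κ : Type} (p : PvzlPg κ) : Fin 5 → Set κ := ![p.KI, p.KO, p.Km, p.Kp, p.KT]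

/-- the eleven regions of a link -/
def pvzeS (p p' : PvzlPg ℂ) (KE : Set ℂ) : Fin 5 ⊕ Fin 5 ⊕ Unit → Set ℂ := Sum.elim p.get (Sum.elim p'.get fun _ => KE)

/-- the numbers of the regions where the map is read -/
def pvzeJ : Set (Fin 5 ⊕ Fin 5 ⊕ Unit) := {Sum.inl 0, Sum.inl 1, Sum.inl 4, Sum.inr (Sum.inl 0), Sum.inr (Sum.inl 1), Sum.inr (Sum.inl 4), Sum.inr (Sum.inr ())}

/-- **what the regions of a link owe to its window** -/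
structure PvzeLk (ρ : ℝ) (E : Set ℂ) (p p' : PvzlPg ℂ) (KE : Set ℂ) : Prop where
  ρ0 : 0 < ρ
  win : PvplWin E
  bdd : Bornology.IsBounded E
  mp : ∀ i, MeasurableSet (p.get i)
  mp' : ∀ i, MeasurableSet (p'.get i)
  mE : MeasurableSet KE
  cI : p.KI ⊆ pvtrCore (3 * ρ) E
  cO : p.KO ⊆ pvtrCore (3 * ρ) E
  cT : p.KT ⊆ pvtrCore (3 * ρ) E
  cI' : p'.KI ⊆ pvtrCore (3 * ρ) E
  cO' : p'.KO ⊆ pvtrCore (3 * ρ) E
  cT' : p'.KT ⊆ pvtrCore (3 * ρ) E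
  cE : KE ⊆ pvtrCore (3 * ρ) E

theorem pvze_eqns_cite4 : True := by
  have := @PvzlPg.get.eq_1; have := @pvzeS.eq_1; have := @pvzeJ.eq_1
  trivial

variable {p p' : PvzlPg ℂ} {KE : Set ℂ}

theorem PvzeLk.toWin (H : PvzeLk ρ E p p' KE) : PvzeWin ρ E (pvzeTh (pvzeS p p' KE)) (pvzeKJ pvzeJ) := by
  refine pvze_win H.ρ0 H.win H.bdd ?_ ?_
  · rintro (i | i | i)
    · exact H.mp i
    · exact H.mp' i
    · exact H.mE
  · rintro i (rfl | rfl | rfl | rfl | rfl | rfl | rfl)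
    exacts [H.cI, H.cO, H.cT, H.cI', H.cO', H.cT', H.cE]

theorem pvze_pg_l (p p' : PvzlPg ℂ) (KE : Set ℂ) : (pvzePg fun i : Fin 5 => (Sum.inl i : Fin 5 ⊕ Fin 5 ⊕ Unit)).comap (pvzeTh (pvzeS p p' KE)) = p := by
  rw [pvze_pg_comap]
  rfl

theorem pvze_pg_r (p p' : PvzlPg ℂ) (KE : Set ℂ) : (pvzePg fun i : Fin 5 => (Sum.inr (Sum.inl i) : Fin 5 ⊕ Fin 5 ⊕ Unit)).comap (pvzeTh (pvzeS p p' KE)) = p' := by
  rw [pvze_pg_comap]
  rfl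

theorem pvze_pg_e (p p' : PvzlPg ℂ) (KE : Set ℂ) : pvzeTh (pvzeS p p' KE) ⁻¹' pvzeK (Sum.inr (Sum.inr ())) = KE := by
  rw [pvze_th_pre]
  rfl

theorem pvze_sub_l : (pvzePg fun i : Fin 5 => (Sum.inl i : Fin 5 ⊕ Fin 5 ⊕ Unit)).Sub (pvzeKJ pvzeJ) :=
  pvze_pg_sub (by simp [pvzeJ]) (by simp [pvzeJ]) (by simp [pvzeJ])

theorem pvze_sub_r : (pvzePg fun i : Fin 5 => (Sum.inr (Sum.inl i) : Fin 5 ⊕ Fin 5 ⊕ Unit)).Sub (pvzeKJ pvzeJ) :=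
  pvze_pg_sub (by simp [pvzeJ]) (by simp [pvzeJ]) (by simp [pvzeJ])

theorem pvze_sub_e : pvzeK (Sum.inr (Sum.inr ()) : Fin 5 ⊕ Fin 5 ⊕ Unit) ⊆ pvzeKJ pvzeJ := pvze_K_sub (by simp [pvzeJ])

/-- the tags of the inner arc, as a predicate with a marked dart -/
def pvzeTi {κ : Type} (p : PvzlPg κ) : PvzfPred κ := fun _ _ T mk s e => PvzlTi T mk s p e

/-- the tags of the run -/
def pvzeTr {κ : Type} (p p' : PvzlPg κ) (KE : Set κ) : PvzfPred κ := fun _ _ T mk s e => PvzlTr T mk s p p' KE e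

theorem pvze_eqns_cite5 : True := by
  have := @pvzeTi.eq_1; have := @pvzeTr.eq_1
  trivial

theorem pvze_Ti_local {κ : Type} {p : PvzlPg κ} {K : Set κ} (hp : p.Sub K) : (pvzeTi p).Local K :=
  fun _ _ _ _ _ _ _ _ _ _ _ hS hS' h _ _ hd => ⟨pvzl_Ti_twin h hS hS' hp hd, pvzl_Ti_twin h.symm hS' hS hp hd⟩

theorem pvze_Ti_supp {κ : Type} {p : PvzlPg κ} {K : Set κ} (hp : p.Sub K) : (pvzeTi p).Supp K := by
  rintro V D T mk s d ⟨g, N, -, hN, ha⟩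
  exact hp.2.2 (hN.2.2.2.2 ⟨d, pvzl_arc_fc ha, rfl⟩)

theorem pvze_Tr_local {κ : Type} {p p' : PvzlPg κ} {KE K : Set κ} (hp : p.Sub K) (hp' : p'.Sub K) (hE : KE ⊆ K) : (pvzeTr p p' KE).Local K :=
  fun _ _ _ _ _ _ _ _ _ _ _ hS hS' h _ _ hd => ⟨pvzl_Tr_twin h hS hS' hp hp' hE hd, pvzl_Tr_twin h.symm hS' hS hp hp' hE hd⟩

theorem pvze_Tr_supp {κ : Type} {p p' : PvzlPg κ} {KE K : Set κ} (hE : KE ⊆ K) : (pvzeTr p p' KE).Supp K := by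
  rintro V D T mk s d ⟨g, g', N, -, -, hN, ha⟩
  exact hE (hN.2.2.2 ⟨d, pvzl_arc_fc ha, rfl⟩).1

/-- **the plug** has a representative -/
theorem PvzeLk.repC (H : PvzeLk ρ E p p' KE) : PvzeRep ρ E fun η => pvzlC p _ _ (pvkiT η) Subtype.val (pvkiS η) := by
  refine PvzeRep.congr (pvze_rep_ev H.toWin (pvzl_C_local pvze_sub_l)) fun η _ => ?_
  have := pvkk_C (T := pvkiT η) (mk := Subtype.val) (s := pvkiS η) (pvzeTh (pvzeS p p' KE)) (p := pvzePg fun i : Fin 5 => (Sum.inl i : Fin 5 ⊕ Fin 5 ⊕ Unit))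
  rw [pvze_pg_l] at this
  exact this.symm

/-- **the link** has a representative -/
theorem PvzeLk.repA (H : PvzeLk ρ E p p' KE) : PvzeRep ρ E fun η => pvzlA p p' KE _ _ (pvkiT η) Subtype.val (pvkiS η) := by
  refine PvzeRep.congr (pvze_rep_ev H.toWin (pvzl_A_local pvze_sub_l pvze_sub_r pvze_sub_e)) fun η _ => ?_
  have := pvkk_A (T := pvkiT η) (mk := Subtype.val) (s := pvkiS η) (pvzeTh (pvzeS p p' KE)) (p := pvzePg fun i : Fin 5 => (Sum.inl i : Fin 5 ⊕ Fin 5 ⊕ Unit))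
    (p' := pvzePg fun i : Fin 5 => (Sum.inr (Sum.inl i) : Fin 5 ⊕ Fin 5 ⊕ Unit)) (KE := pvzeK (Sum.inr (Sum.inr ())))
  rw [pvze_pg_l, pvze_pg_r, pvze_pg_e] at this
  exact this.symm

/-- **the field of the inner arc of the first plug** has a representative -/
theorem PvzeLk.repTi (H : PvzeLk ρ E p p' KE) {w : ℂ × ℂ × ℂ → ℂ} (hw : Measurable w) : PvzeRepF ρ E (pvzfPl id (pvzeTi p) w) := by
  refine PvzeRepF.congr (pvze_rep_fld H.toWin (pvze_Ti_local pvze_sub_l) (pvze_Ti_supp pvze_sub_l) hw) fun η _ => ?_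
  unfold pvzfPl
  have e : pvzfPlS (pvzeTh (pvzeS p p' KE)) (pvzeTi (pvzePg fun i : Fin 5 => (Sum.inl i : Fin 5 ⊕ Fin 5 ⊕ Unit))) η = pvzfPlS id (pvzeTi p) η := by
    ext d
    have := pvkk_Ti (T := pvkiT η) (mk := Subtype.val) (s := pvkiS η) (pvzeTh (pvzeS p p' KE)) (p := pvzePg fun i : Fin 5 => (Sum.inl i : Fin 5 ⊕ Fin 5 ⊕ Unit)) (e := d)
    rw [pvze_pg_l] at this
    exact this.symm
  rw [e]

/-- **the field of the inner arc of the second plug** has a representative -/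
theorem PvzeLk.repTi' (H : PvzeLk ρ E p p' KE) {w : ℂ × ℂ × ℂ → ℂ} (hw : Measurable w) : PvzeRepF ρ E (pvzfPl id (pvzeTi p') w) := by
  refine PvzeRepF.congr (pvze_rep_fld H.toWin (pvze_Ti_local pvze_sub_r) (pvze_Ti_supp pvze_sub_r) hw) fun η _ => ?_
  unfold pvzfPl
  have e : pvzfPlS (pvzeTh (pvzeS p p' KE)) (pvzeTi (pvzePg fun i : Fin 5 => (Sum.inr (Sum.inl i) : Fin 5 ⊕ Fin 5 ⊕ Unit))) η = pvzfPlS id (pvzeTi p') η := by
    ext d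
    have := pvkk_Ti (T := pvkiT η) (mk := Subtype.val) (s := pvkiS η) (pvzeTh (pvzeS p p' KE)) (p := pvzePg fun i : Fin 5 => (Sum.inr (Sum.inl i) : Fin 5 ⊕ Fin 5 ⊕ Unit)) (e := d)
    rw [pvze_pg_r] at this
    exact this.symm
  rw [e]

/-- **the field of the run** has a representative -/
theorem PvzeLk.repTr (H : PvzeLk ρ E p p' KE) {w : ℂ × ℂ × ℂ → ℂ} (hw : Measurable w) : PvzeRepF ρ E (pvzfPl id (pvzeTr p p' KE) w) := by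
  refine PvzeRepF.congr (pvze_rep_fld H.toWin (pvze_Tr_local pvze_sub_l pvze_sub_r pvze_sub_e) (pvze_Tr_supp pvze_sub_e) hw) fun η _ => ?_
  unfold pvzfPl
  have e : pvzfPlS (pvzeTh (pvzeS p p' KE)) (pvzeTr (pvzePg fun i : Fin 5 => (Sum.inl i : Fin 5 ⊕ Fin 5 ⊕ Unit))
      (pvzePg fun i : Fin 5 => (Sum.inr (Sum.inl i) : Fin 5 ⊕ Fin 5 ⊕ Unit)) (pvzeK (Sum.inr (Sum.inr ())))) η = pvzfPlS id (pvzeTr p p' KE) η := by
    ext d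
    have := pvkk_Tr (T := pvkiT η) (mk := Subtype.val) (s := pvkiS η) (pvzeTh (pvzeS p p' KE)) (p := pvzePg fun i : Fin 5 => (Sum.inl i : Fin 5 ⊕ Fin 5 ⊕ Unit))
      (p' := pvzePg fun i : Fin 5 => (Sum.inr (Sum.inl i) : Fin 5 ⊕ Fin 5 ⊕ Unit)) (KE := pvzeK (Sum.inr (Sum.inr ()))) (e := d)
    rw [pvze_pg_l, pvze_pg_r, pvze_pg_e] at this
    exact this.symm
  rw [e]

end abs

/-! ## 4. the instance -/

section inst

theorem pvze_mem_at {z d : ℂ} (hd : d ≠ 0) (S : Set ℂ) (w : ℂ) : w ∈ pvkdAt z d S ↔ (w - z) / d ∈ S := by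
  constructor
  · rintro ⟨u, hu, rfl⟩
    have : (pvthSim z d u - z) / d = u := by unfold pvthSim; field_simp; ring
    rwa [this]
  · intro h
    exact ⟨_, h, by unfold pvthSim; field_simp; ring⟩

theorem pvze_at_id (S : Set ℂ) : pvkdAt 0 1 S = S := by
  unfold pvkdAt
  rw [pvth_sim_id, image_id]

theorem pvze_at_meas {z d : ℂ} (hd : d ≠ 0) {S : Set ℂ} (hS : MeasurableSet S) : MeasurableSet (pvkdAt z d S) := by
  have e : pvkdAt z d S = (fun w : ℂ => (w - z) / d) ⁻¹' S := by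
    ext w
    exact pvze_mem_at hd S w
  rw [e]
  exact (by fun_prop : Measurable fun w : ℂ => (w - z) / d) hS

/-- the core of a region placed by an isometry -/
theorem pvze_at_core {z d : ℂ} (hd : ‖d‖ = 1) (r : ℝ) (S : Set ℂ) : pvkdAt z d (pvtrCore r S) ⊆ pvtrCore r (pvkdAt z d S) := by
  have hd0 : d ≠ 0 := fun h => by rw [h, norm_zero] at hd; exact zero_ne_one hd
  rintro _ ⟨u, hu, rfl⟩ y hy
  rw [pvze_mem_at hd0]
  refine hu ?_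
  rw [mem_closedBall, dist_eq_norm] at hy ⊢
  have e : (y - z) / d - u = (y - pvthSim z d u) / d := by unfold pvthSim; field_simp; ring
  rw [e, norm_div, hd, div_one]
  exact hy

theorem pvze_ball_at {z d : ℂ} (hd : ‖d‖ = 1) (r : ℝ) : ball z r ⊆ pvkdAt z d (ball 0 r) := by
  have hd0 : d ≠ 0 := fun h => by rw [h, norm_zero] at hd; exact zero_ne_one hd
  intro w hw
  rw [pvze_mem_at hd0, mem_ball, dist_zero_right, norm_div, hd, div_one]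
  rwa [mem_ball, dist_eq_norm] at hw

theorem pvze_Wt_meas {M : Set ℂ} (hM : MeasurableSet M) : Measurable (pvkdWt M) := by
  unfold pvkdWt
  refine Measurable.mul ?_ ?_
  · exact (measurable_one.indicator hM).comp (by fun_prop)
  · unfold pvqq
    fun_prop

/-- **WHAT THE GEOMETRY OWES TO [MEAS] AND [LOC]**, reference frame only -/
structure PvzeGeo (𝔤 : PvkdGeo) : Prop where
  ρ0 : 0 < 𝔤.ρ
  /-- the windows of the kit are Borel -/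
  mO : MeasurableSet 𝔤.O₀
  mK : ∀ τ, MeasurableSet (𝔤.K₀ τ)
  /-- the window of the plug (closed sets are windows: `pvmh_win_closed`) -/
  wE : PvplWin 𝔤.Ew
  bE : Bornology.IsBounded 𝔤.Ew
  EO : 𝔤.Ew ⊆ 𝔤.O₀
  /-- the window of the link -/
  wA : ∀ τ, PvplWin (𝔤.Ea τ)
  bA : ∀ τ, Bornology.IsBounded (𝔤.Ea τ)
  /-- the regions are Borel -/
  mZm : MeasurableSet 𝔤.Zm
  mZp : MeasurableSet 𝔤.Zp
  mTb : MeasurableSet 𝔤.Tb
  mCo : ∀ τ, MeasurableSet (𝔤.Co τ)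
  mMk : ∀ τ, MeasurableSet (𝔤.Mk τ)
  /-- the regions where the map is read lie `3ρ` inside the windows -/
  ab : 𝔤.a ≤ 𝔤.b
  cO : ball 0 𝔤.b ⊆ pvtrCore (3 * 𝔤.ρ) 𝔤.Ew
  cT : 𝔤.Tb ⊆ pvtrCore (3 * 𝔤.ρ) 𝔤.Ew
  cE : ∀ τ, 𝔤.Co τ ⊆ pvtrCore (3 * 𝔤.ρ) (𝔤.Ea τ)

variable {𝔤 : PvkdGeo}

theorem PvzeGeo.m_pg (G : PvzeGeo 𝔤) (z : ℂ) {d : ℂ} (hd : d ≠ 0) (i : Fin 5) : MeasurableSet ((𝔤.pg z d).get i) := by
  fin_cases i
  · exact measurableSet_ball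
  · exact measurableSet_ball
  · exact pvze_at_meas hd G.mZm
  · exact pvze_at_meas hd G.mZp
  · exact pvze_at_meas hd G.mTb

/-- the regions of the placed plug lie in the core of the placed window -/
theorem PvzeGeo.c_pg (G : PvzeGeo 𝔤) (z : ℂ) {d : ℂ} (hd : ‖d‖ = 1) :
    (𝔤.pg z d).KI ⊆ pvtrCore (3 * 𝔤.ρ) (pvkdAt z d 𝔤.Ew) ∧ (𝔤.pg z d).KO ⊆ pvtrCore (3 * 𝔤.ρ) (pvkdAt z d 𝔤.Ew) ∧ (𝔤.pg z d).KT ⊆ pvtrCore (3 * 𝔤.ρ) (pvkdAt z d 𝔤.Ew) := by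
  have hO : ball z 𝔤.b ⊆ pvtrCore (3 * 𝔤.ρ) (pvkdAt z d 𝔤.Ew) := ((pvze_ball_at hd _).trans (image_mono G.cO)).trans (pvze_at_core hd _ _)
  exact ⟨(ball_subset_ball G.ab).trans hO, hO, (image_mono G.cT).trans (pvze_at_core hd _ _)⟩

/-- the record of the plug -/
theorem PvzeGeo.lkC (G : PvzeGeo 𝔤) : PvzeLk 𝔤.ρ (pvkdAt 0 1 𝔤.Ew) (𝔤.pg 0 1) (𝔤.pg 0 1) ∅ := by
  obtain ⟨c1, c2, c3⟩ := G.c_pg 0 (d := 1) norm_one
  refine ⟨G.ρ0, ?_, ?_, G.m_pg 0 one_ne_zero, G.m_pg 0 one_ne_zero, MeasurableSet.empty, c1, c2, c3, c1, c2, c3, empty_subset _⟩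
  · rw [pvze_at_id]; exact G.wE
  · rw [pvze_at_id]; exact G.bE

/-- the record of the link -/
theorem PvzeGeo.lkA (G : PvzeGeo 𝔤) (τ : PvtTurn) :
    PvzeLk 𝔤.ρ (pvkdAt 0 1 (𝔤.Ea τ)) (𝔤.pg 0 1) (𝔤.pg (𝔤.zo 0 1 τ) (1 * τ.rot)) (pvkdAt 0 1 (𝔤.Co τ)) := by
  obtain ⟨c1, c2, c3⟩ := G.c_pg 0 (d := 1) norm_one
  have hr : ‖(1 : ℂ) * τ.rot‖ = 1 := by rw [one_mul]; exact pvt_norm_rot τ
  have hr0 : (1 : ℂ) * τ.rot ≠ 0 := fun h => by rw [h, norm_zero] at hr; exact zero_ne_one hr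
  obtain ⟨c1', c2', c3'⟩ := G.c_pg (𝔤.zo 0 1 τ) hr
  have m1 : pvtrCore (3 * 𝔤.ρ) (pvkdAt 0 1 𝔤.Ew) ⊆ pvtrCore (3 * 𝔤.ρ) (pvkdAt 0 1 (𝔤.Ea τ)) := by
    refine pvtr_core_mono (image_mono ?_)
    exact G.EO.trans (subset_union_left.trans subset_union_left)
  have m2 : pvtrCore (3 * 𝔤.ρ) (pvkdAt (𝔤.zo 0 1 τ) (1 * τ.rot) 𝔤.Ew) ⊆ pvtrCore (3 * 𝔤.ρ) (pvkdAt 0 1 (𝔤.Ea τ)) := by
    refine pvtr_core_mono ?_
    rw [pvze_at_id, one_mul]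
    exact (image_mono G.EO).trans subset_union_right
  refine ⟨G.ρ0, ?_, ?_, G.m_pg 0 one_ne_zero, G.m_pg _ hr0, ?_, c1.trans m1, c2.trans m1, c3.trans m1, c1'.trans m2, c2'.trans m2, c3'.trans m2, ?_⟩
  · rw [pvze_at_id]; exact G.wA τ
  · rw [pvze_at_id]; exact G.bA τ
  · rw [pvze_at_id]; exact G.mCo τ
  · rw [pvze_at_id, pvze_at_id]; exact G.cE τ

/-- the mass is the sum of the three fields cut to `A` -/
theorem pvze_XQ_eq (𝔤 : PvkdGeo) (z d : ℂ) (τ : PvtTurn) : 𝔤.XQ z d τ = (𝔤.A z d τ).indicator fun η =>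
    pvzfPl id (pvzeTi (𝔤.pg z d)) (pvkdWt (pvkdAt z d (𝔤.Mk τ))) η + pvzfPl id (pvzeTr (𝔤.pg z d) (𝔤.pg (𝔤.zo z d τ) (d * τ.rot)) (pvkdAt z d (𝔤.Co τ))) (pvkdWt (pvkdAt z d (𝔤.Mk τ))) η +
      pvzfPl id (pvzeTi (𝔤.pg (𝔤.zo z d τ) (d * τ.rot))) (pvkdWt (pvkdAt z d (𝔤.Mk τ))) η := by
  funext η
  unfold PvkdGeo.XQ
  by_cases h : η ∈ 𝔤.A z d τ
  · rw [if_pos h, indicator_of_mem h]
    rfl
  · rw [if_neg h, indicator_of_notMem h]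

theorem PvzeGeo.repX (G : PvzeGeo 𝔤) (τ : PvtTurn) : PvzeRepF 𝔤.ρ (pvkdAt 0 1 (𝔤.Ea τ)) fun η =>
    pvzfPl id (pvzeTi (𝔤.pg 0 1)) (pvkdWt (pvkdAt 0 1 (𝔤.Mk τ))) η + pvzfPl id (pvzeTr (𝔤.pg 0 1) (𝔤.pg (𝔤.zo 0 1 τ) (1 * τ.rot)) (pvkdAt 0 1 (𝔤.Co τ))) (pvkdWt (pvkdAt 0 1 (𝔤.Mk τ))) η +
      pvzfPl id (pvzeTi (𝔤.pg (𝔤.zo 0 1 τ) (1 * τ.rot))) (pvkdWt (pvkdAt 0 1 (𝔤.Mk τ))) η := by
  have hw : Measurable (pvkdWt (pvkdAt 0 1 (𝔤.Mk τ))) := pvze_Wt_meas (pvze_at_meas one_ne_zero (G.mMk τ))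
  exact (((G.lkA τ).repTi hw).add ((G.lkA τ).repTr hw)).add ((G.lkA τ).repTi' hw)

/-- **[MEAS] `mC`** -/
theorem pvze_mC (G : PvzeGeo 𝔤) : MeasurableSet (𝔤.C 0 1) := G.lkC.repC.meas

/-- **[MEAS] `mA`** -/
theorem pvze_mA (G : PvzeGeo 𝔤) (τ : PvtTurn) : MeasurableSet (𝔤.A 0 1 τ) := (G.lkA τ).repA.meas

/-- **[MEAS] `mX`** -/
theorem pvze_mX (G : PvzeGeo 𝔤) (τ : PvtTurn) : Measurable (𝔤.XQ 0 1 τ) := by
  rw [pvze_XQ_eq]
  exact (G.repX τ).meas (G.lkA τ).repA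

/-- the windows of the kit -/
theorem pvze_mWO (G : PvzeGeo 𝔤) (Hf : Fin 4 → Set (Conf PvPt)) (z : ℂ) {d : ℂ} (hd : d ≠ 0) : MeasurableSet ((𝔤.glob Hf).pre.O z d) :=
  (pvze_at_meas hd G.mO).prod MeasurableSet.univ

theorem pvze_mWin (G : PvzeGeo 𝔤) (Hf : Fin 4 → Set (Conf PvPt)) (τ : PvtTurn) : MeasurableSet ((𝔤.glob Hf).win τ) := by
  have hr0 : (1 : ℂ) * τ.rot ≠ 0 := mul_ne_zero one_ne_zero (pvt_rot_ne_zero τ)
  exact ((pvze_mWO G Hf 0 one_ne_zero).union (pvze_mWO G Hf _ hr0)).union ((pvze_at_meas one_ne_zero (G.mK τ)).prod MeasurableSet.univ)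

theorem pvze_sub_O (G : PvzeGeo 𝔤) (Hf : Fin 4 → Set (Conf PvPt)) : pvkdAt 0 1 𝔤.Ew ×ˢ (univ : Set Bool) ⊆ (𝔤.glob Hf).pre.O 0 1 :=
  prod_mono (image_mono G.EO) (subset_refl _)

theorem pvze_sub_win (𝔤 : PvkdGeo) (Hf : Fin 4 → Set (Conf PvPt)) (τ : PvtTurn) : pvkdAt 0 1 (𝔤.Ea τ) ×ˢ (univ : Set Bool) ⊆ (𝔤.glob Hf).win τ := by
  rintro ⟨w, c⟩ ⟨hw, -⟩
  rw [pvze_at_id] at hw
  rcases hw with (hw | hw) | hw
  · refine Or.inl (Or.inl ⟨?_, mem_univ _⟩)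
    show w ∈ pvkdAt 0 1 𝔤.O₀
    rwa [pvze_at_id]
  · refine Or.inr ⟨?_, mem_univ _⟩
    show w ∈ pvkdAt 0 1 (𝔤.K₀ τ)
    rwa [pvze_at_id]
  · refine Or.inl (Or.inr ⟨?_, mem_univ _⟩)
    show w ∈ pvkdAt (𝔤.zo 0 1 τ) (1 * τ.rot) 𝔤.O₀
    rwa [one_mul]

/-- **[LOC] `lC`** -/
theorem pvze_lC (G : PvzeGeo 𝔤) (Hf : Fin 4 → Set (Conf PvPt)) {ε : ℝ} (hε : ε ≠ 0) : PvpgLocal (pvP ε) ((𝔤.glob Hf).pre.O 0 1) (𝔤.glob Hf).C :=
  G.lkC.repC.loc hε (pvze_mWO G Hf 0 one_ne_zero) (pvze_sub_O G Hf)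

/-- **[LOC] `lA`** -/
theorem pvze_lA (G : PvzeGeo 𝔤) (Hf : Fin 4 → Set (Conf PvPt)) {ε : ℝ} (hε : ε ≠ 0) (τ : PvtTurn) : PvpgLocal (pvP ε) ((𝔤.glob Hf).win τ) ((𝔤.glob Hf).A τ) :=
  (G.lkA τ).repA.loc hε (pvze_mWin G Hf τ) (pvze_sub_win 𝔤 Hf τ)

/-- **[LOC] `lX`** -/
theorem pvze_lX (G : PvzeGeo 𝔤) (Hf : Fin 4 → Set (Conf PvPt)) {ε : ℝ} (hε : ε ≠ 0) (τ : PvtTurn) :
    ∀ᵐ p ∂((pvP ε).prod (pvP ε)), p.1 ∈ (𝔤.glob Hf).A τ → (𝔤.glob Hf).XQ τ (Conf.spl ((𝔤.glob Hf).win τ) p) = (𝔤.glob Hf).XQ τ p.1 := by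
  show ∀ᵐ p ∂((pvP ε).prod (pvP ε)), p.1 ∈ 𝔤.A 0 1 τ → 𝔤.XQ 0 1 τ (Conf.spl ((𝔤.glob Hf).win τ) p) = 𝔤.XQ 0 1 τ p.1
  rw [pvze_XQ_eq]
  exact (G.repX τ).loc (G.lkA τ).repA hε (pvze_mWin G Hf τ) (pvze_sub_win 𝔤 Hf τ)

end inst

end Claimed.Agent.R289
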