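import Claimed.Agent.R289.Tr.PlugW
import Claimed.Agent.R289.Tr.PlugEv
import Claimed.Agent.R289.Tr.PlugClose
import Claimed.Agent.R289.Tr.MenuGeo

/-!
# Row 289 (S0537, Cardy for Poisson-Voronoi), THE WALL, file Tr/KitGeoW : THE [GEO] RECORDS OF [MEAS] + [LOC] (`PvznGeo` of 107, `PvzeGeo` of 173) FOR A CELL OVER THE PLUG OF RECORD      (owner helper107; ruling of 34 11:55Z; prefix `pvzn_`)      0 sorry

* sec. 1  the plug of record `pvkdP r`, `0 < r`: regions Borel, window closed + bounded, the two discs and the tube `3ρ` inside the window.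
* sec. 2  **`pvzn_geo_of`** : plug `= pvkdP r`, `O₀` Borel, `K₀ τ` Borel, `Ea τ` a bounded window (`pvzn_win_open` if open), `Ew ⊆ O₀`, `Co τ = mask ∩ pvtrCore (3ρ) (Ea τ)`, `Mk τ = mask`  ⟹  `PvznGeo 𝔤`;   `PvznGeo.toZe : PvzeGeo 𝔤`, **`PvzeGeo.toZn : PvznGeo 𝔤`** (the two records are equivalent).
-/

set_option autoImplicit false
set_option linter.unusedSectionVars false

namespace Claimed.Agent.R289

open MeasureTheory Set Metric Claims.C0465

/-! ## 1. the plug of record -/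

section plug

variable {r : ℝ}

theorem pvzn_sq_closed (z : ℂ) (r : ℝ) : IsClosed (pvwSq z r) := by
  have e : pvwSq z r = {w : ℂ | |(w - z).re| ≤ r} ∩ {w : ℂ | |(w - z).im| ≤ r} := rfl
  rw [e]
  exact (isClosed_le (by fun_prop) continuous_const).inter (isClosed_le (by fun_prop) continuous_const)

theorem pvzn_sq_bdd (z : ℂ) (r : ℝ) : Bornology.IsBounded (pvwSq z r) := by
  refine (isBounded_closedBall (x := z) (r := r + r)).subset fun w hw => ?_
  rw [mem_closedBall_iff_norm]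
  have := Complex.norm_le_abs_re_add_abs_im (w - z)
  have h1 := hw.1
  have h2 := hw.2
  linarith

theorem pvzn_P_rho (hr : 0 < r) : 0 < (pvkdP r).ρ := by
  show 0 < r / 16
  positivity

theorem pvzn_P_mZm (r : ℝ) : MeasurableSet (pvkdP r).Zm := (rsw_rect_closed _ _ _ _).measurableSet
theorem pvzn_P_mZp (r : ℝ) : MeasurableSet (pvkdP r).Zp := (rsw_rect_closed _ _ _ _).measurableSet
theorem pvzn_P_mTb (r : ℝ) : MeasurableSet (pvkdP r).Tb := (rsw_rect_closed _ _ _ _).measurableSet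
theorem pvzn_P_wE (r : ℝ) : PvplWin (pvkdP r).Ew := pvmg_win_closed (pvzn_sq_closed _ _)
theorem pvzn_P_bE (r : ℝ) : Bornology.IsBounded (pvkdP r).Ew := pvzn_sq_bdd _ _

/-- a point of the square of half side `s` is `t`-deep in the square of half side `s + t` -/
theorem pvzn_sq_core {s t : ℝ} {x : ℂ} (h1 : |x.re| ≤ s) (h2 : |x.im| ≤ s) : x ∈ pvtrCore t (pvwSq 0 (s + t)) := by
  intro y hy
  have hy' : ‖y - x‖ ≤ t := mem_closedBall_iff_norm.1 hy
  have a1 := (Complex.abs_re_le_norm (y - x)).trans hy'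
  have a2 := (Complex.abs_im_le_norm (y - x)).trans hy'
  rw [Complex.sub_re] at a1
  rw [Complex.sub_im] at a2
  refine ⟨?_, ?_⟩
  · rw [sub_zero]
    have : y.re = (y.re - x.re) + x.re := by ring
    rw [this]
    exact (abs_add_le _ _).trans (by linarith)
  · rw [sub_zero]
    have : y.im = (y.im - x.im) + x.im := by ring
    rw [this]
    exact (abs_add_le _ _).trans (by linarith)

/-- the two discs and the tube lie `3ρ` inside the window -/
theorem pvzn_P_cE (hr : 0 < r) : ball (0 : ℂ) (pvkdP r).a ∪ ball 0 (pvkdP r).b ∪ (pvkdP r).Tb ⊆ pvtrCore (3 * (pvkdP r).ρ) (pvkdP r).Ew := by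
  have key : ∀ x : ℂ, |x.re| ≤ 2 * r → |x.im| ≤ 2 * r → x ∈ pvtrCore (3 * (pvkdP r).ρ) (pvkdP r).Ew := by
    intro x h1 h2
    have h := pvzn_sq_core (t := r) h1 h2
    have e : 2 * r + r = 3 * r := by ring
    rw [e] at h
    refine pvtr_core_anti ?_ h
    show 3 * (r / 16) ≤ r
    linarith
  rintro x ((hx | hx) | hx)
  · have hx' : ‖x‖ < r := mem_ball_zero_iff.1 hx
    exact key x ((Complex.abs_re_le_norm x).trans (by linarith)) ((Complex.abs_im_le_norm x).trans (by linarith))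
  · have hx' : ‖x‖ < 2 * r := mem_ball_zero_iff.1 hx
    exact key x ((Complex.abs_re_le_norm x).trans hx'.le) ((Complex.abs_im_le_norm x).trans hx'.le)
  · obtain ⟨a1, a2, a3, a4⟩ := hx
    exact key x (abs_le.2 ⟨a1, a2⟩) (abs_le.2 ⟨by linarith, by linarith⟩)

end plug

/-! ## 2. a cell over the plug of record -/

theorem pvzn_M_meas (δ : ℝ) : MeasurableSet (pvkxM δ) := by
  have e : pvkxM δ = {w : ℂ | 0 ≤ w.re} ∩ ({w : ℂ | w.re < δ} ∩ ({w : ℂ | -(δ / 2) < w.im} ∩ {w : ℂ | w.im < δ / 2})) := rfl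
  rw [e]
  exact (measurableSet_le measurable_const Complex.measurable_re).inter ((measurableSet_lt Complex.measurable_re measurable_const).inter
    ((measurableSet_lt measurable_const Complex.measurable_im).inter (measurableSet_lt Complex.measurable_im measurable_const)))

/-- **THE RECORD OF [MEAS] + [LOC] FOR A CELL OVER THE PLUG OF RECORD** -/
theorem pvzn_geo_of {𝔤 : PvkdGeo} {r : ℝ} (hr : 0 < r) (hP : 𝔤.toPvkdPlug = pvkdP r) (mO : MeasurableSet 𝔤.O₀) (mK : ∀ τ, MeasurableSet (𝔤.K₀ τ))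
    (wA : ∀ τ, PvplWin (𝔤.Ea τ)) (bA : ∀ τ, Bornology.IsBounded (𝔤.Ea τ)) (EO : pvwSq 0 (3 * r) ⊆ 𝔤.O₀)
    (hCo : ∀ τ, 𝔤.Co τ = pvkxM 𝔤.δ ∩ pvtrCore (3 * (r / 16)) (𝔤.Ea τ)) (hMk : ∀ τ, 𝔤.Mk τ = pvkxM 𝔤.δ) : PvznGeo 𝔤 where
  ρ0 := by rw [hP]; exact pvzn_P_rho hr
  mZm := by rw [hP]; exact pvzn_P_mZm r
  mZp := by rw [hP]; exact pvzn_P_mZp r
  mTb := by rw [hP]; exact pvzn_P_mTb r
  mCo := fun τ => by rw [hCo]; exact (pvzn_M_meas _).inter (pvzn_core_meas (wA τ) _)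
  mMk := fun τ => by rw [hMk]; exact pvzn_M_meas _
  mO := mO
  mK := mK
  wE := by rw [hP]; exact pvzn_P_wE r
  bE := by rw [hP]; exact pvzn_P_bE r
  wA := wA
  bA := bA
  EO := by rw [hP]; exact EO
  cE := by rw [hP]; exact pvzn_P_cE hr
  cA := fun τ => by
    rw [hCo, hP]
    exact inter_subset_right

/-- the record of 173 from the record of 107 -/
theorem PvznGeo.toZe {𝔤 : PvkdGeo} (G : PvznGeo 𝔤) (ab : 𝔤.a ≤ 𝔤.b) : PvzeGeo 𝔤 where
  ρ0 := G.ρ0
  mO := G.mO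
  mK := G.mK
  wE := G.wE
  bE := G.bE
  EO := G.EO
  wA := G.wA
  bA := G.bA
  mZm := G.mZm
  mZp := G.mZp
  mTb := G.mTb
  mCo := G.mCo
  mMk := G.mMk
  ab := ab
  cO := fun _ h => G.cE (Or.inl (Or.inr h))
  cT := fun _ h => G.cE (Or.inr h)
  cE := G.cA

/-- the record of 107 from the record of 173      (so `pvkgg_ze.toZn : PvznGeo pvkgG`, `Tr/KitGeo` of 258, whatever the numbers) -/
theorem PvzeGeo.toZn {𝔤 : PvkdGeo} (G : PvzeGeo 𝔤) : PvznGeo 𝔤 where
  ρ0 := G.ρ0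
  mZm := G.mZm
  mZp := G.mZp
  mTb := G.mTb
  mCo := G.mCo
  mMk := G.mMk
  mO := G.mO
  mK := G.mK
  wE := G.wE
  bE := G.bE
  wA := G.wA
  bA := G.bA
  EO := G.EO
  cE := by
    rintro x ((hx | hx) | hx)
    · exact G.cO (ball_subset_ball G.ab hx)
    · exact G.cO hx
    · exact G.cT hx
  cA := G.cE

end Claimed.Agent.R289
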