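-- KEEP
import Claimed.Agent.R289.Tr.PlugFrcT
import Claimed.Agent.R289.Tr.KitGeo

/-!
# Row 289 (S0537), THE WALL, chapter E (cells), file Tr/SideOpen : **THE SIDE EVENTS `S⁺ S⁻` AT THE OPEN WINDOWS `pvkgEp pvkgEm` OF 258**      (helper125, hostile reader of [FRC], post of 243; prefix `pvk2_`, `pvk2`)

WHY.   E10 at a hybrid end (`PvjeTest.Ok.rH` of 35 = `rH` of `pvlhg_forced` of 250 = `rH` of `pvrg_end_of` of 256) asks `Conf.ReadsSet ((D ∪ K) ×ˢ univ) ℋ`, POINTWISE, `D` = the placed door region `O₀` = an OPEN square, `K` = the tile, which lies on ONE side of the door.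
The windows of `pvjoT r` (52) contain the CLOSED square of half side `13r/4`: its far edge and its lateral edges lie neither in `D` nor in `K`: a site ON such an edge pays the mesh of the window and is erased by the restriction: `rH` is FALSE there.
CURE: the windows of record are the OPEN windows of 258, `pvkgEp = O₀ ∪ (0, 11r/2) × (-y₁, y₁)`, `pvkgEm` (mirror): `E^± \ O₀` lies in the tile (`pvk2_Es_sub`).      ROOMS AND TARGETS DO NOT MOVE (`rfl`), so nothing of [FRC] is retyped: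
* `pvk2Es σ`, **`pvk2T : PvhfTr`** `:= pvhfTw pvkgG.a pvk2Es` (rooms, targets of `pvhfT`: lanes cut at `5r`)
* **`pvk2_geo : PvhfGeo pvkgG.toPvkdPlug pvk2T`**      ([GEO] of 174)
* **`pvk2_ok_of : Λ.Ok pvkgG (pvjoT (1/40)) → (∀ τ, Λ.Et τ = pvkgEt τ) → Λ.Ok pvkgG pvk2T`**      (`dj` := `pvkgg_Ep_Em`, `cover` := `pvkgg_cover` of 258 verbatim; the other fields do not see the windows)
* **`pvk2_side`** : `mH`, `dict`, `frc` (the three fields of `PvdkSide` of 10) at `pvk2H := pvhfH pvkgG.toPvkdPlug pvk2T`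
* `pvk2_reads` (exact reader of `pvk2Es σ`), `pvk2_Es_sub` (`E^σ ⊆ O₀ ∪` the half open box next to the door square), `pvk2_O_sub` (`O₀ ⊆ E^σ`), `pvk2_Es_open`, `pvk2_Es_jo` (`E^σ ⊆` the window of `pvjoT`)
-/

set_option autoImplicit false

namespace Claimed.Agent.R289

open MeasureTheory Set Filter Topology Metric Claims.C0465
open scoped ENNReal

/-- **the OPEN windows of the two side events** (258): `true` = exit side -/
def pvk2Es (σ : Bool) : Set ℂ := if σ then pvkgEp else pvkgEm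

/-- **THE TRUNCATION OF RECORD AT THE OPEN WINDOWS**: rooms and targets of `pvhfT` (174), windows of 258 -/
noncomputable def pvk2T : PvhfTr := pvhfTw pvkgG.a pvk2Es

/-- **the four side events** -/
noncomputable def pvk2H : Fin 4 → Set (Conf PvPt) := pvhfH pvkgG.toPvkdPlug pvk2T

theorem pvk2_eqns_cite : True := by
  have := @pvk2Es.eq_1; have := @pvk2T.eq_1; have := @pvk2H.eq_1
  trivial

theorem pvk2_Es_open (σ : Bool) : IsOpen (pvk2Es σ) := by
  cases σ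
  · exact pvkgg_Em_open
  · exact pvkgg_Ep_open

theorem pvk2_O_sub (σ : Bool) : pvkgO ⊆ pvk2Es σ := by
  cases σ
  · exact subset_union_left
  · exact subset_union_left

/-- rooms and targets are those of `pvjoT`, of `pvhfT` -/
theorem pvk2_Ln : pvk2T.Ln = (pvjoT (1 / 40)).Ln := rfl
theorem pvk2_Dr : pvk2T.Dr = (pvjoT (1 / 40)).Dr := rfl
theorem pvk2_T_Es : pvk2T.Es = pvk2Es := rfl

/-- the open windows lie in the closed windows of `pvjoT` -/
theorem pvk2_Es_jo (σ : Bool) : pvk2Es σ ⊆ (pvjoT (1 / 40)).Es σ := by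
  intro w hw
  show w ∈ pvwSq 0 (13 * (1 / 40) / 4) ∪ pvkdRect σ 0 (11 * (1 / 40) / 2) (-(5 * (1 / 40) / 2)) (5 * (1 / 40) / 2)
  rw [pvjo_t_sq_eq]
  cases σ
  · rcases hw with ⟨a, b, c, d⟩ | ⟨a, b, c, d⟩
    · exact Or.inl ⟨by linarith, by linarith, by linarith, by linarith⟩
    · refine Or.inr ?_
      show w ∈ rswRect (-(11 * (1 / 40) / 2)) (-0) (-(5 * (1 / 40) / 2)) (5 * (1 / 40) / 2)
      exact ⟨by linarith, by linarith, by linarith, by linarith⟩
  · rcases hw with ⟨a, b, c, d⟩ | ⟨a, b, c, d⟩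
    · exact Or.inl ⟨by linarith, by linarith, by linarith, by linarith⟩
    · refine Or.inr ?_
      show w ∈ rswRect 0 (11 * (1 / 40) / 2) (-(5 * (1 / 40) / 2)) (5 * (1 / 40) / 2)
      exact ⟨by linarith, by linarith, by linarith, by linarith⟩

/-- **the window off the door square** lies in the half open box next to the door square, on the side `σ` -/
theorem pvk2_Es_sub (σ : Bool) : pvk2Es σ ⊆ pvkgO ∪ {w : ℂ | (if σ then 13 / 160 ≤ w.re ∧ w.re < 11 / 80 else -(11 / 80) < w.re ∧ w.re ≤ -(13 / 160)) ∧ -(1 / 16) < w.im ∧ w.im < 1 / 16} := by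
  intro w hw
  cases σ
  · rcases hw with h | ⟨a, b, c, d⟩
    · exact Or.inl h
    · by_cases hx : -(13 / 160) < w.re
      · exact Or.inl ⟨hx, by linarith, by linarith, by linarith⟩
      · exact Or.inr ⟨⟨a, not_lt.1 hx⟩, c, d⟩
  · rcases hw with h | ⟨a, b, c, d⟩
    · exact Or.inl h
    · by_cases hx : w.re < 13 / 160
      · exact Or.inl ⟨by linarith, hx, by linarith, by linarith⟩
      · exact Or.inr ⟨⟨not_lt.1 hx, b⟩, c, d⟩

theorem pvk2_Es_bdd (σ : Bool) : Bornology.IsBounded (pvk2Es σ) := by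
  refine pvkgg_bdd_of (C := 1) fun w hw => ?_
  cases σ
  · rcases hw with ⟨a, b, c, d⟩ | ⟨a, b, c, d⟩ <;> exact ⟨abs_le.2 ⟨by linarith, by linarith⟩, abs_le.2 ⟨by linarith, by linarith⟩⟩
  · rcases hw with ⟨a, b, c, d⟩ | ⟨a, b, c, d⟩ <;> exact ⟨abs_le.2 ⟨by linarith, by linarith⟩, abs_le.2 ⟨by linarith, by linarith⟩⟩

/-- what 174 asks of a pair of windows -/
theorem pvk2_win : PvhfWin (1 / 40) (5 * (1 / 40)) pvk2Es where
  wE σ := pvkgg_win_open (pvk2_Es_open σ)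
  bE := pvk2_Es_bdd
  sub σ := pvkgg_dp_win.trans (pvk2_O_sub σ)
  core σ := by
    have e : (3 * (1 / 40 / 16) : ℝ) = 3 / 640 := by norm_num
    rw [e]
    cases σ
    · refine Subset.trans ?_ pvkgg_core_Em
      rintro w ⟨a, b, c, d⟩
      exact ⟨by linarith, by linarith, by linarith, by linarith⟩
    · refine Subset.trans ?_ pvkgg_core_Ep
      rintro w ⟨a, b, c, d⟩
      exact ⟨by linarith, by linarith, by linarith, by linarith⟩

/-- **[GEO] of 174 at the open windows** -/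
theorem pvk2_geo : PvhfGeo pvkgG.toPvkdPlug pvk2T := pvhf_geo_w (by norm_num) pvk2_win

/-- **the side events are EXACT READERS of the open windows** -/
theorem pvk2_reads (σ : Bool) : Conf.ReadsSet (pvk2Es σ ×ˢ univ) (pvhfS pvkgG.toPvkdPlug pvk2T σ) := pvhf_rS pvk2_geo σ

theorem pvk2_H_reads (i : Fin 4) : Conf.ReadsSet (pvk2Es (decide (i.1 < 2)) ×ˢ univ) (pvk2H i) := pvk2_reads _

/-- **THE LAYOUT AT THE CLOSED WINDOWS GIVES THE LAYOUT AT THE OPEN WINDOWS** -/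
theorem pvk2_ok_of {Λ : PvjoLay} (H : Λ.Ok pvkgG (pvjoT (1 / 40))) (hEt : ∀ τ, Λ.Et τ = pvkgEt τ) : Λ.Ok pvkgG pvk2T where
  mO := H.mO
  EO := H.EO
  dj τ := by
    rw [pvkgg_zo]
    have h1 : pvkgG.O₀ ∪ pvk2T.Es true = pvkgEp := union_eq_self_of_subset_left (pvk2_O_sub true)
    have h2 : pvkdAt τ.mid τ.rot pvkgG.O₀ ∪ pvkdAt τ.mid τ.rot (pvk2T.Es false) = pvkdAt τ.mid τ.rot pvkgEm :=
      union_eq_self_of_subset_left (image_mono (pvk2_O_sub false))
    rw [h1, h2]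
    exact pvkgg_Ep_Em τ
  djK := H.djK
  w := H.w
  off := H.off
  zp := H.zp
  zm := H.zm
  mEt := H.mEt
  bEt := H.bEt
  dEt := H.dEt
  cover τ := by
    rw [pvkgg_zo, hEt, pvkgg_Ea]
    exact pvkgg_cover τ (le_of_eq pvkgg_ρ)
  sub := H.sub
  lay := H.lay

/-- **THE THREE DEBTS OF THE SIDE EVENTS AT THE OPEN WINDOWS** (`mH`, `dict`, `frc` of `PvdkSide`) -/
theorem pvk2_side {Λ : PvjoLay} (H : Λ.Ok pvkgG (pvjoT (1 / 40))) (hEt : ∀ τ, Λ.Et τ = pvkgEt τ) :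
    (∀ i, MeasurableSet (pvk2H i)) ∧ (∀ err : ℝ≥0∞, err ≠ 0 → ∀ᶠ ε in 𝓝[>] (0 : ℝ), pvkgG.HDict pvk2H ε err) ∧
    ∀ b : ℝ≥0∞, b ≠ 0 → b ≤ 1 → ∃ q : ℝ≥0∞, q ≠ 0 ∧ q ≤ 1 ∧ ∀ᶠ ε in 𝓝[>] (0 : ℝ), ∀ τ, ∀ᵐ σ ∂(pvP ε),
      σ ∈ (pvkgG.glob pvk2H).G2 (pvP ε) b τ → q ≤ pvtiP (pvP ε) ((pvkgG.glob pvk2H).pre.OO 0 1 τ) ((pvkgG.glob pvk2H).A τ) σ :=
  pvjo_t_side pvk2_geo (pvk2_ok_of H hEt) (pvze_mC pvkgg_ze)

end Claimed.Agent.R289
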