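import Claimed.Agent.R289.Tr.Bes
import Claimed.Agent.R289.Tr.Dom
import Claimed.Agent.R289.Tr.DomY

/-!
# Row 289 (S0537), the WALL, file Tr/BesUp : THE FIELD `thick` OVER THE ITERATED UPPER EXPECTATION, ROAD E      (owner helper223, post of 187; prefix `pvbu_`, `Pvbu`)

Text of record: `origin/helper208:notes/R289/W1_208_v3.md` E24 E26 E30;   `origin/helper296:notes/R289/A5_296.md` T1-T4.      On: `pvdm_main_up` (159, `Tr/Dom.lean` sec. 3), `pvdyR pvdyNu pvdyHat` (193, `Tr/DomY.lean`), `PvbeIn PvbeRec` (`Tr/Bes.lean`).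
THE CHAIN.      `E^*[|ke|² ; U]  ≤(a)  ∫ H d(pvP ε)  ≤(b)  D C_B(a) |M|  ≤(c)  ofReal (C_e h²)`,      `E^* = (PvUp.iter (pvGeo ε) pvCol).E` at `pvConf (pvMerge q)` = the upper expectation of `PvhbLocU` (73).
* sec. 1  **`pvbu_dom_all`** (b): I.BES + recognition give a MEASURABLE `H` with `|X|² ≤ H` at EVERY point of `Ev` (the null sets go into `{H = ∞}`).
* sec. 2  `PvbuDat` (`Ok C U yf k`), `PvbuDat.Hyp ε F` (`ok_ae cntY mC fin stab rd jen`), **`pvbu_up`** (a): `E^*[|k|² ; U] ≤ ∫ H` for every measurable `H ≥ F`.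
          = `pvdm_main_up` with ONE datum, `X = 0`, `WO = univ`, `q = 1` and THE TRICK `w := H`, `Y := 1`: nothing but the majorant has to be measurable on `Conf` (trap Tr4 of A5_296 does not bite for one-candidate fields: `thick`, `cyc1`).
          `jen` is POINTWISE in the sample: `|k ω|² ≤ ∫ F (pvdyR C yf ω p) d(pvdyNu ε)(p)`, `F` ANY function.
* sec. 3  **`pvbu_mask`** (a)+(b), `pvbuCe`, **`pvbu_thick`** (a)+(b)+(c) = the shape of the field `thick`, uniformly in `‖a‖ ≤ CA`, `ε`, the position.      Masks are tested at the BARYCENTRES of the tags (`pvqBar`).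
* sec. 4  (J1) ABSTRACT: `pvbu_insert`, **`pvbu_seed_tr5`** = TR5 on a probability space of seeds (Jensen + insertion of the closing link by a law preserving mix);   `pvbuMix`, `pvbu_mix_law` = the concrete mix of the seeds `(κ, ω₂)`.
* sec. 5  **`pvbu_hat_jen`**, `PvbuTh`, **`pvbu_thick_hat`** = the field `thick` for `ke = pvdyHat ε C yf w (XQ - a XV)`.
-/

set_option autoImplicit false
set_option linter.unusedSectionVars false

namespace Claimed.Agent.R289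

open MeasureTheory ProbabilityTheory Set Filter Topology Claims.C0465
open scoped ENNReal NNReal

/-! ## 1. the majorant of I.BES, EVERYWHERE -/

section dom

variable {W : Set ℂ → ℂ × ℂ → ℂ} {CB : ℝ≥0∞} {ε : ℝ} {g : ℂ → ℂ} {M : Set ℂ} {Ev : Set (Conf PvPt)} {X : Conf PvPt → ℂ}

/-- **I.BES + RECOGNITION, EVERYWHERE**: a MEASURABLE majorant `H` of `|X|²` at EVERY point of `Ev` (the null sets of `PvbeIn`, `PvbeRec` are put into `{H = ∞}`) -/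
theorem pvbu_dom_all (hB : PvbeIn W CB) (hε : 0 < ε) (hg : PvbeTest g) (hrec : PvbeRec ε W g Ev X) :
    ∃ H : Conf PvPt → ℝ≥0∞, Measurable H ∧ ∫⁻ η, H η ∂(pvP ε) ≤ CB * ∫⁻ z, ‖g z‖ₑ ^ 2 ∧ ∀ η ∈ Ev, ‖X η‖ₑ ^ 2 ≤ H η := by
  classical
  obtain ⟨H, hH, h2, h3⟩ := pvbe_dom hB hε hg
  have h4 := h3 Ev X hrec
  have h5 : ∀ᵐ η ∂(pvP ε), η ∈ Ev → ‖X η‖ₑ ^ 2 ≤ hH.mk H η := by
    filter_upwards [h4, hH.ae_eq_mk] with η a b hη
    rw [← b]; exact a hη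
  set N : Set (Conf PvPt) := toMeasurable (pvP ε) {η | ¬ (η ∈ Ev → ‖X η‖ₑ ^ 2 ≤ hH.mk H η)} with hN
  have mN : MeasurableSet N := measurableSet_toMeasurable _ _
  have zN : pvP ε N = 0 := by rw [hN, measure_toMeasurable]; exact h5
  refine ⟨N.piecewise (fun _ => ⊤) (hH.mk H), Measurable.piecewise mN measurable_const hH.measurable_mk, ?_, ?_⟩
  · refine le_trans (le_of_eq ?_) h2
    refine lintegral_congr_ae ?_
    have hNae : ∀ᵐ η ∂(pvP ε), η ∉ N := measure_eq_zero_iff_ae_notMem.1 zN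
    filter_upwards [hNae, hH.ae_eq_mk] with η a b
    rw [Set.piecewise_eq_of_notMem _ _ _ a, b]
  · intro η hη
    by_cases hηN : η ∈ N
    · rw [Set.piecewise_eq_of_mem _ _ _ hηN]; exact le_top
    · rw [Set.piecewise_eq_of_notMem _ _ _ hηN]
      by_contra hc
      exact hηN (subset_toMeasurable _ _ (fun hh => hc (hh hη)))

end dom

/-! ## 2. ONE-CANDIDATE fields over the iterated upper expectation -/

/-- **the data of a ONE-CANDIDATE field of road E** (`thick`, `cyc1`): `U` = the candidate is usable, `k` = the random variable (a function of the state), `C` = the region whose geometry is resampled,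
`yf ω` = the sites whose colour is resampled (everything but the finitely many frozen sites), `Ok` = any a.s. property of the set of the sites. -/
structure PvbuDat where
  Ok : Set ℂ → Prop
  C : Set ℂ
  U : Set (Conf PvPt)
  yf : Conf PvPt → Set ℂ
  k : Conf PvPt → ℂ

/-- **the hypotheses**.   `fin stab` = the state is a finite colour stopping set;   `rd` = `U` does not read `C`;   `jen` = POINTWISE domination by the mean of `F` over the experiment.   NO measurability (`F` is ANY function). -/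
structure PvbuDat.Hyp (S : PvbuDat) (ε : ℝ) (F : Conf PvPt → ℝ≥0∞) : Prop where
  ok_ae : ∀ᵐ ω ∂pvP ε, S.Ok (cfSites ω)
  cntY : ∀ Y, S.Ok Y → Y.Countable
  mC : MeasurableSet S.C
  fin : ∀ Y, S.Ok Y → ∀ σ, cfOf Y σ ∈ S.U → (Y \ S.yf (cfOf Y σ)).Finite
  stab : ∀ Y, S.Ok Y → ∀ σ σ', cfOf Y σ ∈ S.U → (∀ z ∈ Y, z ∉ S.yf (cfOf Y σ) → σ' z = σ z) →
    cfOf Y σ' ∈ S.U ∧ S.yf (cfOf Y σ') = S.yf (cfOf Y σ) ∧ S.k (cfOf Y σ') = S.k (cfOf Y σ)
  rd : ∀ Y, S.Ok Y → ∀ σ, ∀ᵐ ω₂ ∂pvP ε, (Conf.spl (pvdmU S.C) (cfOf Y σ, ω₂) ∈ S.U ↔ cfOf Y σ ∈ S.U)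
  jen : ∀ Y, S.Ok Y → ∀ σ, cfOf Y σ ∈ S.U → ‖S.k (cfOf Y σ)‖ₑ ^ 2 ≤ ∫⁻ p, F (pvdyR S.C S.yf (cfOf Y σ) p) ∂pvdyNu ε

/-- the system of 159 (`Tr/Dom.lean`): ONE datum, `X = 0`, `WO = univ`, `q = 1`, and THE TRICK `w := H`, `Y := 1` (so only the majorant has to be measurable on `Conf`) -/
noncomputable def PvbuDat.sys (S : PvbuDat) (H : Conf PvPt → ℝ≥0∞) : PvdmSys Unit where
  Ok := S.Ok
  C := S.C
  A := fun _ => S.U
  WO := fun _ => univ
  frz := fun _ ω => (S.yf ω)ᶜ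
  yf := fun _ => S.yf
  X := fun _ _ => 0
  yh := fun _ => S.k
  w := H
  Y := fun _ => 1
  H := H
  q := 1

theorem pvbu_eqns_cite : True := by
  have := @PvbuDat.sys.eq_1
  trivial

variable {S : PvbuDat} {ε : ℝ} {F H : Conf PvPt → ℝ≥0∞}

theorem PvbuDat.Hyp.sys_hyp (h : S.Hyp ε F) (hH : Measurable H) (hFH : ∀ η, F η ≤ H η) : (S.sys H).Hyp ε where
  ok_ae := h.ok_ae
  mC := h.mC
  mw := fun Y hY _ σ _ _ => by
    have hc : (cfSites (cfOf Y σ)).Countable := by rw [cfOf_sites]; exact h.cntY Y hY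
    have e : (fun p : (ℂ → Bool) × Conf PvPt => (S.sys H).w ((S.sys H).R () Y σ p.1 p.2)) = fun p => H (pvdyR S.C S.yf (cfOf Y σ) p) := by
      funext p
      rw [pvdy_sys_R]
      rfl
    rw [e]
    exact hH.comp (pvdy_measurable_R h.mC S.yf hc)
  mY := fun _ _ _ _ _ _ => measurable_const
  mH := hH
  cnt := fun _ _ => Set.to_countable _
  fin := fun Y hY _ σ hσ => h.fin Y hY σ hσ
  dis := fun _ _ _ _ _ => disjoint_compl_left
  stab := fun Y hY _ σ σ' hσ h1 _ => by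
    obtain ⟨a, b, c⟩ := h.stab Y hY σ σ' hσ (fun z hz hzn => h1 z hz hzn)
    exact ⟨a, by show (S.yf _)ᶜ = (S.yf _)ᶜ; rw [b], b, rfl, c⟩
  stabW := fun _ _ _ _ _ _ _ _ _ _ _ => mem_univ _
  hq := fun _ _ _ _ _ => by
    show (1 : ℝ≥0∞) ≤ colLaw ℂ {κ | _ ∈ (univ : Set (Conf PvPt))}
    simp
  rd := fun Y hY σ => by
    filter_upwards [h.rd Y hY σ] with ω₂ h2 _
    exact ⟨h2, Iff.rfl, rfl⟩
  jen := fun Y hY _ σ hσ _ => by
    show ‖(0 : ℂ) + S.k (cfOf Y σ)‖ₑ ^ 2 ≤ ∫⁻ κ, ∫⁻ ω₂, H ((S.sys H).R () Y σ κ ω₂) * ‖(0 : ℂ) + 1‖ₑ ^ 2 ∂pvP ε ∂colLaw ℂ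
    rw [zero_add]
    have hc : (cfSites (cfOf Y σ)).Countable := by rw [cfOf_sites]; exact h.cntY Y hY
    refine (h.jen Y hY σ hσ).trans ((lintegral_mono fun p => hFH _).trans (le_of_eq ?_))
    rw [pvdy_lintegral_nu ε h.mC S.yf hH hc]
    refine lintegral_congr fun κ => lintegral_congr fun ω₂ => ?_
    rw [pvdy_sys_R]
    simp only [zero_add, enorm_one, one_pow, mul_one]
    rfl
  dom := by
    refine ae_of_all _ fun ω => ?_
    show ∑' _i : Unit, (S.U ∩ univ).indicator (fun ω => H ω * ‖(0 : ℂ) + 1‖ₑ ^ 2) ω ≤ H ω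
    rw [tsum_fintype, Finset.univ_unique, Finset.sum_singleton]
    refine (Set.indicator_le_self _ _ ω).trans ?_
    simp

/-- **ONE-CANDIDATE FIELDS OVER THE UPPER EXPECTATION**: `E^*[|k|² ; U] ≤ ∫ H` for every measurable majorant `H` of `F` -/
theorem pvbu_up (h : S.Hyp ε F) (hH : Measurable H) (hFH : ∀ η, F η ≤ H η) :
    (PvUp.iter (pvGeo ε) pvCol).E (fun p => S.U.indicator (fun ω => ‖S.k ω‖ₑ ^ 2) (pvConf (pvMerge p))) ≤ ∫⁻ ω, H ω ∂pvP ε := by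
  have k := pvdm_main_up (h.sys_hyp hH hFH)
  refine le_trans (le_of_eq ?_) k
  show _ = (1 : ℝ≥0∞) * (PvUp.iter (pvGeo ε) pvCol).E (fun p => ∑' _i : Unit, S.U.indicator (fun ω => ‖(0 : ℂ) + S.k ω‖ₑ ^ 2) (pvConf (pvMerge p)))
  rw [one_mul]
  congr 1
  funext p
  rw [tsum_fintype, Finset.univ_unique, Finset.sum_singleton]
  simp only [zero_add]

/-! ## 3. I.BES + masks: the shape of the field `thick` -/

section bes

variable {W : Set ℂ → ℂ × ℂ → ℂ} {CB : ℝ≥0∞} {M : Set ℂ} {Ev : Set (Conf PvPt)} {X : Conf PvPt → ℂ} {D : ℝ≥0∞}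

/-- **`E^*[|k|² ; U] ≤ D C_B |M|`**: `jen` = (J1) (pointwise TR5), `hrec` = (J2) (recognition with the deterministic mask `M`) -/
theorem pvbu_mask (hB : PvbeIn W CB) (hε : 0 < ε) (hM : MeasurableSet M) (hb : Bornology.IsBounded M) (hrec : PvbeRec ε W (M.indicator 1) Ev X)
    (h : S.Hyp ε (fun η => D * Ev.indicator (fun η => ‖X η‖ₑ ^ 2) η)) :
    (PvUp.iter (pvGeo ε) pvCol).E (fun p => S.U.indicator (fun ω => ‖S.k ω‖ₑ ^ 2) (pvConf (pvMerge p))) ≤ D * (CB * volume M) := by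
  obtain ⟨H, mH, h1, h2⟩ := pvbu_dom_all hB hε (pvbe_test_ind hM hb) hrec
  rw [pvbe_ind_sq hM] at h1
  refine (pvbu_up h (H := fun η => D * H η) (mH.const_mul D) fun η => ?_).trans ?_
  · refine mul_le_mul_right ?_ D
    by_cases hη : η ∈ Ev
    · rw [Set.indicator_of_mem hη]; exact h2 η hη
    · rw [Set.indicator_of_notMem hη]; exact zero_le
  · rw [lintegral_const_mul D mH]
    exact mul_le_mul_right h1 D

/-- the constant `C_e` of the field `thick`, road E: `D` = bound of the cycle weight (`D₁ / q'`), `CA` = bound of the scalar, `L h` = radius of the mask -/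
noncomputable def pvbuCe (D : ℝ≥0∞) (CA L : ℝ) : ℝ := (D * ((2 + 2 * ENNReal.ofReal (CA ^ 2)) * pvbeCB * ENNReal.ofReal (Real.pi * L ^ 2))).toReal

theorem pvbu_eqns_cite2 : True := by
  have := @pvbuCe.eq_1
  trivial

/-- **THE FIELD `thick` OF `PvhbLocU`** (shape), field of record `y_a = XQ - a XV`, UNIFORMLY in `‖a‖ ≤ CA`, in `ε`, in the position -/
theorem pvbu_thick (hε : 0 < ε) (hM : MeasurableSet M) {z : ℂ} {L h : ℝ} (hMs : M ⊆ Metric.closedBall z (L * h)) {XQ XV : Conf PvPt → ℂ}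
    (hrec : ∀ᵐ η ∂(pvP ε), η ∈ Ev → ∃ x, pvbeTag η x ∧ XQ η = pvbeLab pvqWQ (M.indicator 1) η x ∧ XV η = pvbeLab pvbeWV (M.indicator 1) η x)
    {a : ℂ} {CA : ℝ} (ha : ‖a‖ ≤ CA) (hD : D ≠ ∞) (hS : S.Hyp ε (fun η => D * Ev.indicator (fun η => ‖XQ η - a * XV η‖ₑ ^ 2) η)) :
    (PvUp.iter (pvGeo ε) pvCol).E (fun p => S.U.indicator (fun ω => ‖S.k ω‖ₑ ^ 2) (pvConf (pvMerge p))) ≤ ENNReal.ofReal (pvbuCe D CA L * h ^ 2) := by
  have hb : Bornology.IsBounded M := Metric.isBounded_closedBall.subset hMs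
  have e1 : (fun η : Conf PvPt => XQ η - a * XV η) = fun η => XQ η + (-a) * XV η := by
    funext η; ring
  have hS' : S.Hyp ε (fun η => D * Ev.indicator (fun η => ‖(fun η => XQ η + (-a) * XV η) η‖ₑ ^ 2) η) := by
    have e2 : (fun η => D * Ev.indicator (fun η => ‖XQ η - a * XV η‖ₑ ^ 2) η) = fun η => D * Ev.indicator (fun η => ‖(fun η => XQ η + (-a) * XV η) η‖ₑ ^ 2) η := by
      funext η
      congr 2
      funext η
      exact congrArg (fun x : ℂ => ‖x‖ₑ ^ 2) (congrFun e1 η)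
    rw [← e2]; exact hS
  have k := pvbu_mask (pvbe_in_QaV a) hε hM hb (PvbeRec.comb hε (-a) hrec) hS'
  refine k.trans ?_
  have hv : volume M ≤ ENNReal.ofReal (Real.pi * L ^ 2) * ENNReal.ofReal (h ^ 2) := (measure_mono hMs).trans (pvbe_vol_ball z L h)
  have ha2 : ‖a‖ₑ ^ 2 ≤ ENNReal.ofReal (CA ^ 2) := by
    rw [← ofReal_norm, ← ENNReal.ofReal_pow (norm_nonneg _)]
    exact ENNReal.ofReal_le_ofReal (pow_le_pow_left₀ (norm_nonneg _) ha 2)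
  have hfin : D * ((2 + 2 * ENNReal.ofReal (CA ^ 2)) * pvbeCB * ENNReal.ofReal (Real.pi * L ^ 2)) ≠ ∞ := by
    refine ENNReal.mul_ne_top hD ?_
    refine ENNReal.mul_ne_top (ENNReal.mul_ne_top ?_ pvbe_CB_ne_top) ENNReal.ofReal_ne_top
    exact ENNReal.add_ne_top.2 ⟨by norm_num, ENNReal.mul_ne_top (by norm_num) ENNReal.ofReal_ne_top⟩
  rw [pvbuCe, ENNReal.ofReal_mul ENNReal.toReal_nonneg, ENNReal.ofReal_toReal hfin]
  calc D * ((2 + 2 * ‖a‖ₑ ^ 2) * pvbeCB * volume M)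
      ≤ D * ((2 + 2 * ENNReal.ofReal (CA ^ 2)) * pvbeCB * (ENNReal.ofReal (Real.pi * L ^ 2) * ENNReal.ofReal (h ^ 2))) := by
        gcongr
    _ = _ := by ring

end bes

/-! ## 4. (J1) ABSTRACT: TR5 on a probability space of seeds -/

section seed

variable {P : Type*} [MeasurableSpace P] {ν : Measure P} [IsProbabilityMeasure ν]

/-- almost every section of a null measurable set of a product is null measurable -/
theorem pvbu_null_section {B : Set (P × P)} (hB : NullMeasurableSet B (ν.prod ν)) : ∀ᵐ p ∂ν, NullMeasurableSet {p' | (p, p') ∈ B} ν := by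
  obtain ⟨t, -, mt, ht⟩ := hB.exists_measurable_superset_ae_eq
  have h1 : ∀ᵐ x ∂(ν.prod ν), (x ∈ t) = (x ∈ B) := ht
  filter_upwards [Measure.ae_ae_of_ae_prod h1] with p hp
  have m2 : MeasurableSet {p' | (p, p') ∈ t} := measurable_prodMk_left mt
  exact m2.nullMeasurableSet.congr hp

/-- **INSERTION ON THE SEED SPACE**: `ρ` = a law preserving mix (the atom of the closing link is replaced by a fresh copy), `φ` is not touched by the mix, the event `A2` has probability `≥ q'` after the mix wherever `φ ≠ 0` -/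
theorem pvbu_insert {ρ : P × P → P} (hρ : Measurable ρ) (hlaw : (ν.prod ν).map ρ = ν) {φ : P → ℝ≥0∞} (hφ : AEMeasurable φ ν) {A2 : Set P} (hA2 : NullMeasurableSet A2 ν)
    (hfix : ∀ p p', φ (ρ (p, p')) = φ p) {q' : ℝ≥0∞} (hq : ∀ p, φ p ≠ 0 → q' ≤ ν {p' | ρ (p, p') ∈ A2}) :
    q' * ∫⁻ p, φ p ∂ν ≤ ∫⁻ p, φ p * A2.indicator 1 p ∂ν := by
  have hΨ : AEMeasurable (fun p => φ p * A2.indicator (1 : P → ℝ≥0∞) p) ν := hφ.mul (aemeasurable_one.indicator₀ hA2)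
  have hΨ' : AEMeasurable (fun p => φ p * A2.indicator (1 : P → ℝ≥0∞) p) ((ν.prod ν).map ρ) := by rw [hlaw]; exact hΨ
  have hA2' : NullMeasurableSet A2 ((ν.prod ν).map ρ) := by rw [hlaw]; exact hA2
  have hB : NullMeasurableSet (ρ ⁻¹' A2) (ν.prod ν) := hA2'.preimage (Measure.QuasiMeasurePreserving.mk hρ Measure.AbsolutelyContinuous.rfl)
  calc q' * ∫⁻ p, φ p ∂ν = ∫⁻ p, q' * φ p ∂ν := (lintegral_const_mul'' _ hφ).symm
    _ ≤ ∫⁻ p, ∫⁻ p', φ (ρ (p, p')) * A2.indicator (1 : P → ℝ≥0∞) (ρ (p, p')) ∂ν ∂ν := by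
        refine lintegral_mono_ae ?_
        filter_upwards [pvbu_null_section hB] with p hp
        simp_rw [hfix p]
        refine le_trans ?_ (lintegral_const_mul_le (φ p) _)
        by_cases h0 : φ p = 0
        · simp [h0]
        have e : ∫⁻ p', A2.indicator (1 : P → ℝ≥0∞) (ρ (p, p')) ∂ν = ν {p' | ρ (p, p') ∈ A2} := by
          have hp' : NullMeasurableSet ({p' | ρ (p, p') ∈ A2} : Set P) ν := hp
          exact lintegral_indicator_one₀ hp'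
        rw [e, mul_comm]
        exact mul_le_mul_right (hq p h0) _
    _ = ∫⁻ x, φ (ρ x) * A2.indicator (1 : P → ℝ≥0∞) (ρ x) ∂(ν.prod ν) := (lintegral_prod _ (hΨ'.comp_aemeasurable hρ.aemeasurable)).symm
    _ = ∫⁻ p, φ p * A2.indicator (1 : P → ℝ≥0∞) p ∂((ν.prod ν).map ρ) := (lintegral_map' hΨ' hρ.aemeasurable).symm
    _ = _ := by rw [hlaw]

/-- **TR5 ON THE SEED SPACE** (pointwise in the sample): `f` = the weight of (reference plug, thick link) of mass one, `f ≤ D₁ 1_{A1}`;   `y` = the increment of the link;   `A2` = the closing link, forced after the mix `ρ` of its atom. -/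
theorem pvbu_seed_tr5 {ρ : P × P → P} (hρ : Measurable ρ) (hlaw : (ν.prod ν).map ρ = ν) {f : P → ℝ≥0∞} {y : P → ℂ} {A1 A2 : Set P}
    (hf : AEMeasurable f ν) (hy : AEMeasurable y ν) (hA1 : NullMeasurableSet A1 ν) (hA2 : NullMeasurableSet A2 ν) (hnorm : ∫⁻ p, f p ∂ν = 1)
    {D₁ q' : ℝ≥0∞} (hbd : ∀ p, f p ≤ D₁ * A1.indicator 1 p) (hfix : ∀ p p', (ρ (p, p') ∈ A1 ↔ p ∈ A1) ∧ (p ∈ A1 → y (ρ (p, p')) = y p))
    (hq : ∀ p ∈ A1, q' ≤ ν {p' | ρ (p, p') ∈ A2}) :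
    q' * ‖∫ p, y p ∂(ν.withDensity f)‖ₑ ^ 2 ≤ D₁ * ∫⁻ p, (A1 ∩ A2).indicator (fun p => ‖y p‖ₑ ^ 2) p ∂ν := by
  have hP : IsProbabilityMeasure (ν.withDensity f) := ⟨by rw [withDensity_apply _ MeasurableSet.univ, Measure.restrict_univ]; exact hnorm⟩
  have hac : ν.withDensity f ≪ ν := withDensity_absolutelyContinuous _ _
  have j := pvti_jensen (ν.withDensity f) 0 (Y := y) (hy.mono_ac hac).aestronglyMeasurable
  have hm2 : AEMeasurable (fun p => ‖(0 : ℂ) + y p‖ₑ ^ 2) ν := (aemeasurable_const.add hy).enorm.pow_const 2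
  rw [lintegral_withDensity_eq_lintegral_mul₀ hf hm2, zero_add] at j
  set φ : P → ℝ≥0∞ := A1.indicator (fun p => ‖y p‖ₑ ^ 2) with hφd
  have hφ : AEMeasurable φ ν := (hy.enorm.pow_const 2).indicator₀ hA1
  have j2 : ‖∫ p, y p ∂(ν.withDensity f)‖ₑ ^ 2 ≤ D₁ * ∫⁻ p, φ p ∂ν := by
    rw [← lintegral_const_mul'' D₁ hφ]
    refine j.trans (lintegral_mono fun p => ?_)
    show f p * ‖(0 : ℂ) + y p‖ₑ ^ 2 ≤ D₁ * φ p
    rw [zero_add]
    by_cases hp : p ∈ A1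
    · have := hbd p
      rw [Set.indicator_of_mem hp, Pi.one_apply, mul_one] at this
      rw [hφd, Set.indicator_of_mem hp]
      exact mul_le_mul_left this _
    · have := hbd p
      rw [Set.indicator_of_notMem hp, mul_zero] at this
      rw [le_antisymm this zero_le, zero_mul]
      exact zero_le
  have hfixφ : ∀ p p', φ (ρ (p, p')) = φ p := by
    intro p p'
    obtain ⟨h1, h2⟩ := hfix p p'
    by_cases hp : p ∈ A1
    · rw [hφd, Set.indicator_of_mem hp, Set.indicator_of_mem (h1.2 hp), h2 hp]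
    · rw [hφd, Set.indicator_of_notMem hp, Set.indicator_of_notMem (fun hh => hp (h1.1 hh))]
  have hqφ : ∀ p, φ p ≠ 0 → q' ≤ ν {p' | ρ (p, p') ∈ A2} := by
    intro p h0
    refine hq p ?_
    by_contra hp
    exact h0 (by rw [hφd, Set.indicator_of_notMem hp])
  have k := pvbu_insert hρ hlaw hφ hA2 hfixφ hqφ
  calc q' * ‖∫ p, y p ∂(ν.withDensity f)‖ₑ ^ 2 ≤ q' * (D₁ * ∫⁻ p, φ p ∂ν) := mul_le_mul_right j2 _
    _ = D₁ * (q' * ∫⁻ p, φ p ∂ν) := by ring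
    _ ≤ D₁ * ∫⁻ p, φ p * A2.indicator 1 p ∂ν := mul_le_mul_right k _
    _ = _ := by
        congr 1
        refine lintegral_congr fun p => ?_
        by_cases h1 : p ∈ A1
        · by_cases h2 : p ∈ A2
          · have h12 : p ∈ A1 ∩ A2 := ⟨h1, h2⟩
            rw [hφd, Set.indicator_of_mem h1, Set.indicator_of_mem h2, Set.indicator_of_mem h12, Pi.one_apply, mul_one]
          · rw [Set.indicator_of_notMem h2, mul_zero, Set.indicator_of_notMem (fun hh : p ∈ A1 ∩ A2 => h2 hh.2)]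
        · rw [hφd, Set.indicator_of_notMem h1, zero_mul, Set.indicator_of_notMem (fun hh : p ∈ A1 ∩ A2 => h1 hh.1)]

end seed

/-- the product of two law preserving mixes is a law preserving mix -/
theorem pvbu_prod_mix {α β : Type*} [MeasurableSpace α] [MeasurableSpace β] {μ₁ : Measure α} {μ₂ : Measure β} [IsProbabilityMeasure μ₁] [IsProbabilityMeasure μ₂]
    {f₁ : α × α → α} {f₂ : β × β → β} (h₁ : Measurable f₁) (h₂ : Measurable f₂) (e₁ : (μ₁.prod μ₁).map f₁ = μ₁) (e₂ : (μ₂.prod μ₂).map f₂ = μ₂) :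
    ((μ₁.prod μ₂).prod (μ₁.prod μ₂)).map (fun x => (f₁ (x.1.1, x.2.1), f₂ (x.1.2, x.2.2))) = μ₁.prod μ₂ := by
  have hm : Measurable fun x : (α × β) × (α × β) => (f₁ (x.1.1, x.2.1), f₂ (x.1.2, x.2.2)) :=
    (h₁.comp ((measurable_fst.comp measurable_fst).prodMk (measurable_fst.comp measurable_snd))).prodMk
      (h₂.comp ((measurable_snd.comp measurable_fst).prodMk (measurable_snd.comp measurable_snd)))
  refine Measure.ext_of_lintegral _ fun F hF => ?_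
  have key2 : ∀ u, ∫⁻ b, ∫⁻ d, F (u, f₂ (b, d)) ∂μ₂ ∂μ₂ = ∫⁻ w, F (u, w) ∂μ₂ := fun u => by
    have hK : Measurable fun w => F (u, w) := hF.comp measurable_prodMk_left
    conv_rhs => rw [← e₂]
    rw [lintegral_map hK h₂]
    exact (lintegral_prod (fun x => F (u, f₂ x)) (hK.comp h₂).aemeasurable).symm
  have hK' : Measurable fun u => ∫⁻ w, F (u, w) ∂μ₂ := hF.lintegral_prod_right'
  have key1 : ∫⁻ a, ∫⁻ c, (∫⁻ w, F (f₁ (a, c), w) ∂μ₂) ∂μ₁ ∂μ₁ = ∫⁻ u, ∫⁻ w, F (u, w) ∂μ₂ ∂μ₁ := by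
    conv_rhs => rw [← e₁]
    rw [lintegral_map hK' h₁]
    exact (lintegral_prod (fun x => ∫⁻ w, F (f₁ x, w) ∂μ₂) (hK'.comp h₁).aemeasurable).symm
  have hG : Measurable fun x : (α × β) × (α × β) => F (f₁ (x.1.1, x.2.1), f₂ (x.1.2, x.2.2)) := hF.comp hm
  have hG1 : Measurable fun u : α × β => ∫⁻ v : α × β, F (f₁ (u.1, v.1), f₂ (u.2, v.2)) ∂(μ₁.prod μ₂) := hG.lintegral_prod_right'
  rw [lintegral_map hF hm, lintegral_prod _ hG.aemeasurable, lintegral_prod _ hG1.aemeasurable, lintegral_prod _ hF.aemeasurable, ← key1]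
  refine lintegral_congr fun a => ?_
  have s1 : ∀ b, ∫⁻ v : α × β, F (f₁ (a, v.1), f₂ (b, v.2)) ∂(μ₁.prod μ₂) = ∫⁻ c, ∫⁻ d, F (f₁ (a, c), f₂ (b, d)) ∂μ₂ ∂μ₁ := fun b => by
    have hv : Measurable fun v : α × β => F (f₁ (a, v.1), f₂ (b, v.2)) := hG.comp (measurable_prodMk_left (x := (a, b)))
    exact lintegral_prod _ hv.aemeasurable
  simp only [s1]
  have hsw : Measurable (Function.uncurry fun (b : β) (c : α) => ∫⁻ d, F (f₁ (a, c), f₂ (b, d)) ∂μ₂) := by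
    have h3 : Measurable fun x : (β × α) × β => F (f₁ (a, x.1.2), f₂ (x.1.1, x.2)) :=
      hF.comp ((h₁.comp (measurable_const.prodMk (measurable_snd.comp measurable_fst))).prodMk (h₂.comp ((measurable_fst.comp measurable_fst).prodMk measurable_snd)))
    exact h3.lintegral_prod_right'
  rw [lintegral_lintegral_swap hsw.aemeasurable]
  refine lintegral_congr fun c => ?_
  exact key2 _

/-- **the mix of the seeds** `(κ, ω₂)`: the colours of the seed are KEPT on `Kp`, the configuration of the seed is KEPT on `O`;   everything else is taken from the fresh seed -/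
noncomputable def pvbuMix (Kp : Set ℂ) (O : Set PvPt) (x : ((ℂ → Bool) × Conf PvPt) × ((ℂ → Bool) × Conf PvPt)) : (ℂ → Bool) × Conf PvPt :=
  (pvfqMix Kp (x.1.1, x.2.1), Conf.spl O (x.1.2, x.2.2))

theorem pvbu_eqns_cite3 : True := by
  have := @pvbuMix.eq_1
  trivial

theorem pvbu_mix_measurable (Kp : Set ℂ) {O : Set PvPt} (hO : MeasurableSet O) : Measurable (pvbuMix Kp O) :=
  ((measurable_pvfqMix Kp).comp ((measurable_fst.comp measurable_fst).prodMk (measurable_fst.comp measurable_snd))).prodMk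
    ((Conf.measurable_spl hO).comp ((measurable_snd.comp measurable_fst).prodMk (measurable_snd.comp measurable_snd)))

theorem pvbu_mix_law (ε : ℝ) (Kp : Set ℂ) {O : Set PvPt} (hO : MeasurableSet O) : ((pvdyNu ε).prod (pvdyNu ε)).map (pvbuMix Kp O) = pvdyNu ε := by
  have := (pv_isPpp ε).prob
  exact pvbu_prod_mix (measurable_pvfqMix Kp) (Conf.measurable_spl hO) (pvtf_split Kp) ((pv_isPpp ε).splice hO)

/-! ## 5. the field `thick` for `ke = pvdyHat ε C yf w (XQ - a XV)` -/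

section hat

/-- **(J1) FOR THE WEIGHTED MEAN OF RECORD**, POINTWISE in the sample `ω`.      Only the sections `p ↦ · (pvdyR C yf ω p)` have to be measurable. -/
theorem pvbu_hat_jen (ε : ℝ) {C : Set ℂ} {yf : Conf PvPt → Set ℂ} {w : Conf PvPt → ℝ≥0∞} {X : Conf PvPt → ℂ} {ω : Conf PvPt} (Kp : Set ℂ) {O : Set PvPt} (hO : MeasurableSet O)
    {A1 A2 : Set (Conf PvPt)}
    (mw : AEMeasurable (fun p => w (pvdyR C yf ω p)) (pvdyNu ε)) (mX : AEMeasurable (fun p => X (pvdyR C yf ω p)) (pvdyNu ε))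
    (mA1 : NullMeasurableSet {p | pvdyR C yf ω p ∈ A1} (pvdyNu ε)) (mA2 : NullMeasurableSet {p | pvdyR C yf ω p ∈ A2} (pvdyNu ε))
    (hnorm : ∫⁻ p, w (pvdyR C yf ω p) ∂pvdyNu ε = 1) {D₁ q' : ℝ≥0∞}
    (hbd : ∀ p, w (pvdyR C yf ω p) ≤ D₁ * A1.indicator 1 (pvdyR C yf ω p))
    (hfix : ∀ p p', (pvdyR C yf ω (pvbuMix Kp O (p, p')) ∈ A1 ↔ pvdyR C yf ω p ∈ A1) ∧
      (pvdyR C yf ω p ∈ A1 → X (pvdyR C yf ω (pvbuMix Kp O (p, p'))) = X (pvdyR C yf ω p)))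
    (hq : ∀ p, pvdyR C yf ω p ∈ A1 → q' ≤ pvdyNu ε {p' | pvdyR C yf ω (pvbuMix Kp O (p, p')) ∈ A2}) :
    q' * ‖pvdyHat ε C yf w X ω‖ₑ ^ 2 ≤ D₁ * ∫⁻ p, (A1 ∩ A2).indicator (fun η => ‖X η‖ₑ ^ 2) (pvdyR C yf ω p) ∂pvdyNu ε :=
  pvbu_seed_tr5 (ν := pvdyNu ε) (ρ := pvbuMix Kp O) (f := fun p => w (pvdyR C yf ω p)) (y := fun p => X (pvdyR C yf ω p))
    (A1 := {p | pvdyR C yf ω p ∈ A1}) (A2 := {p | pvdyR C yf ω p ∈ A2}) (pvbu_mix_measurable Kp hO) (pvbu_mix_law ε Kp hO) mw mX mA1 mA2 hnorm hbd hfix hq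

/-- **THE EXPERIMENT OF THE THICK SHORT LINK** `u -e-> t`, closed by `t -e'-> u` (road E; E24 E26 E30 of W1_208 v3).
`C` = the region whose geometry is resampled (`C_e ∪ O_u ∪ C_e'`);   `U` = the candidate is usable;   `yf ω` = the sites which are recoloured (all but the finitely many frozen sites);
`w` = the weight of (reference plug, thick link): mass one, `≤ D₁ 1_{A1}`;   `A1` = `U ∩ G_u ∩ A_e`;   `A2` = `A_e'`;
`Kp ω`, `O` = what the mix of the atom of `e'` KEEPS of a seed `(κ, ω₂)` (colours on `Kp ω`, configuration on `O`). -/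
structure PvbuTh where
  Ok : Set ℂ → Prop
  C : Set ℂ
  U : Set (Conf PvPt)
  yf : Conf PvPt → Set ℂ
  w : Conf PvPt → ℝ≥0∞
  A1 : Set (Conf PvPt)
  A2 : Set (Conf PvPt)
  Kp : Conf PvPt → Set ℂ
  O : Set PvPt

/-- the experiment at the sample `ω` -/
noncomputable def PvbuTh.R (T : PvbuTh) (ω : Conf PvPt) (p : (ℂ → Bool) × Conf PvPt) : Conf PvPt := pvdyR T.C T.yf ω p

/-- **THE LEAVES OF THE FIELD `thick`** but recognition.      First block: the state is a finite colour stopping set which does not read `C`.      Second block: POINTWISE at a usable sample `ω`, on the seed space. -/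
structure PvbuTh.Hyp (T : PvbuTh) (ε : ℝ) (XQ XV : Conf PvPt → ℂ) (D₁ q' : ℝ≥0∞) : Prop where
  ok_ae : ∀ᵐ ω ∂pvP ε, T.Ok (cfSites ω)
  cntY : ∀ Y, T.Ok Y → Y.Countable
  mC : MeasurableSet T.C
  mO : MeasurableSet T.O
  fin : ∀ Y, T.Ok Y → ∀ σ, cfOf Y σ ∈ T.U → (Y \ T.yf (cfOf Y σ)).Finite
  stab : ∀ Y, T.Ok Y → ∀ σ σ', cfOf Y σ ∈ T.U → (∀ z ∈ Y, z ∉ T.yf (cfOf Y σ) → σ' z = σ z) → cfOf Y σ' ∈ T.U ∧ T.yf (cfOf Y σ') = T.yf (cfOf Y σ)
  rd : ∀ Y, T.Ok Y → ∀ σ, ∀ᵐ ω₂ ∂pvP ε, (Conf.spl (pvdmU T.C) (cfOf Y σ, ω₂) ∈ T.U ↔ cfOf Y σ ∈ T.U)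
  mw : ∀ ω ∈ T.U, T.Ok (cfSites ω) → AEMeasurable (fun p => T.w (T.R ω p)) (pvdyNu ε)
  mQ : ∀ ω ∈ T.U, T.Ok (cfSites ω) → AEMeasurable (fun p => XQ (T.R ω p)) (pvdyNu ε)
  mV : ∀ ω ∈ T.U, T.Ok (cfSites ω) → AEMeasurable (fun p => XV (T.R ω p)) (pvdyNu ε)
  mA1 : ∀ ω ∈ T.U, T.Ok (cfSites ω) → NullMeasurableSet {p | T.R ω p ∈ T.A1} (pvdyNu ε)
  mA2 : ∀ ω ∈ T.U, T.Ok (cfSites ω) → NullMeasurableSet {p | T.R ω p ∈ T.A2} (pvdyNu ε)
  /-- the weight has mass one (E10: the success probabilities do not vanish on `U`) -/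
  norm : ∀ ω ∈ T.U, T.Ok (cfSites ω) → ∫⁻ p, T.w (T.R ω p) ∂pvdyNu ε = 1
  /-- admission of the reference plug + E10 for the thick link `e` -/
  bd : ∀ ω ∈ T.U, T.Ok (cfSites ω) → ∀ p, T.w (T.R ω p) ≤ D₁ * T.A1.indicator 1 (T.R ω p)
  /-- `A1`, `XQ`, `XV` do not read the atom of `e'` -/
  fix : ∀ ω ∈ T.U, T.Ok (cfSites ω) → ∀ p p', (T.R ω (pvbuMix (T.Kp ω) T.O (p, p')) ∈ T.A1 ↔ T.R ω p ∈ T.A1) ∧
    (T.R ω p ∈ T.A1 → XQ (T.R ω (pvbuMix (T.Kp ω) T.O (p, p'))) = XQ (T.R ω p) ∧ XV (T.R ω (pvbuMix (T.Kp ω) T.O (p, p'))) = XV (T.R ω p))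
  /-- E10 for the closing thick link `e'` -/
  frc : ∀ ω ∈ T.U, T.Ok (cfSites ω) → ∀ p, T.R ω p ∈ T.A1 → q' ≤ pvdyNu ε {p' | T.R ω (pvbuMix (T.Kp ω) T.O (p, p')) ∈ T.A2}

/-- the mean of the thick short link for the field `y_a = XQ - a XV` -/
noncomputable def PvbuTh.ke (T : PvbuTh) (ε : ℝ) (XQ XV : Conf PvPt → ℂ) (a : ℂ) : Conf PvPt → ℂ := pvdyHat ε T.C T.yf T.w (fun η => XQ η - a * XV η)

theorem pvbu_eqns_cite4 : True := by
  have := @PvbuTh.R.eq_1; have := @PvbuTh.ke.eq_1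
  trivial

variable {T : PvbuTh} {ε : ℝ} {XQ XV : Conf PvPt → ℂ} {D₁ q' : ℝ≥0∞}

/-- `ke` is a function of the state -/
theorem PvbuTh.Hyp.ke_stab (h : T.Hyp ε XQ XV D₁ q') (a : ℂ) {Y : Set ℂ} (hY : T.Ok Y) {σ σ' : ℂ → Bool} (hσ : cfOf Y σ ∈ T.U)
    (hs : ∀ z ∈ Y, z ∉ T.yf (cfOf Y σ) → σ' z = σ z) : T.ke ε XQ XV a (cfOf Y σ') = T.ke ε XQ XV a (cfOf Y σ) := by
  obtain ⟨-, a2⟩ := h.stab Y hY σ σ' hσ hs
  unfold PvbuTh.ke
  refine pvdy_hat_reads ε (C := T.C) (yf := T.yf) T.w _ (ω := cfOf Y σ) (ω' := cfOf Y σ') (fun z _ => ?_) (fun z _ _ => ?_) (fun z hz _ hy => ?_)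
  · rw [cfOf_sites, cfOf_sites]
  · rw [a2]
  · rw [cfOf_sites] at hz
    rw [pvdy_cfCol_cfOf σ' hz, pvdy_cfCol_cfOf σ hz]
    exact hs z hz hy

/-- (J1) at a usable sample -/
theorem PvbuTh.Hyp.ke_jen (h : T.Hyp ε XQ XV D₁ q') (hD : D₁ ≠ ∞) (hq0 : q' ≠ 0) (hq1 : q' ≠ ∞) (a : ℂ) {ω : Conf PvPt} (hω : ω ∈ T.U) (hY : T.Ok (cfSites ω)) :
    ‖T.ke ε XQ XV a ω‖ₑ ^ 2 ≤ ∫⁻ p, D₁ / q' * (T.A1 ∩ T.A2).indicator (fun η => ‖XQ η - a * XV η‖ₑ ^ 2) (pvdyR T.C T.yf ω p) ∂pvdyNu ε := by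
  have hfix : ∀ p p', (pvdyR T.C T.yf ω (pvbuMix (T.Kp ω) T.O (p, p')) ∈ T.A1 ↔ pvdyR T.C T.yf ω p ∈ T.A1) ∧
      (pvdyR T.C T.yf ω p ∈ T.A1 → (fun η => XQ η - a * XV η) (pvdyR T.C T.yf ω (pvbuMix (T.Kp ω) T.O (p, p'))) = (fun η => XQ η - a * XV η) (pvdyR T.C T.yf ω p)) := by
    intro p p'
    refine ⟨(h.fix ω hω hY p p').1, fun hp => ?_⟩
    obtain ⟨b1, b2⟩ := (h.fix ω hω hY p p').2 hp
    have b1' : XQ (pvdyR T.C T.yf ω (pvbuMix (T.Kp ω) T.O (p, p'))) = XQ (pvdyR T.C T.yf ω p) := b1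
    have b2' : XV (pvdyR T.C T.yf ω (pvbuMix (T.Kp ω) T.O (p, p'))) = XV (pvdyR T.C T.yf ω p) := b2
    show XQ _ - a * XV _ = XQ _ - a * XV _
    rw [b1', b2']
  have mX : AEMeasurable (fun p => (fun η => XQ η - a * XV η) (pvdyR T.C T.yf ω p)) (pvdyNu ε) := (h.mQ ω hω hY).sub ((h.mV ω hω hY).const_mul a)
  have k : q' * ‖T.ke ε XQ XV a ω‖ₑ ^ 2 ≤ D₁ * ∫⁻ p, (T.A1 ∩ T.A2).indicator (fun η => ‖XQ η - a * XV η‖ₑ ^ 2) (pvdyR T.C T.yf ω p) ∂pvdyNu ε :=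
    pvbu_hat_jen ε (T.Kp ω) h.mO (h.mw ω hω hY) mX (h.mA1 ω hω hY) (h.mA2 ω hω hY) (h.norm ω hω hY) (h.bd ω hω hY) hfix (h.frc ω hω hY)
  have hr : D₁ / q' ≠ ∞ := ENNReal.div_ne_top hD hq0
  rw [lintegral_const_mul' _ _ hr, div_eq_mul_inv, mul_right_comm, ← div_eq_mul_inv]
  rw [ENNReal.le_div_iff_mul_le (Or.inl hq0) (Or.inl hq1), mul_comm]
  exact k

/-- the data of sec. 2 -/
noncomputable def PvbuTh.dat (T : PvbuTh) (ε : ℝ) (XQ XV : Conf PvPt → ℂ) (a : ℂ) : PvbuDat := ⟨T.Ok, T.C, T.U, T.yf, T.ke ε XQ XV a⟩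

theorem pvbu_eqns_cite5 : True := by
  have := @PvbuTh.dat.eq_1
  trivial

/-- the record of sec. 2 -/
theorem PvbuTh.Hyp.dat (h : T.Hyp ε XQ XV D₁ q') (hD : D₁ ≠ ∞) (hq0 : q' ≠ 0) (hq1 : q' ≠ ∞) (a : ℂ) :
    (T.dat ε XQ XV a).Hyp ε (fun η => D₁ / q' * (T.A1 ∩ T.A2).indicator (fun η => ‖XQ η - a * XV η‖ₑ ^ 2) η) where
  ok_ae := h.ok_ae
  cntY := h.cntY
  mC := h.mC
  fin := h.fin
  stab := fun Y hY σ σ' hσ hs => ⟨(h.stab Y hY σ σ' hσ hs).1, (h.stab Y hY σ σ' hσ hs).2, h.ke_stab a hY hσ hs⟩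
  rd := h.rd
  jen := fun Y hY σ hσ => h.ke_jen hD hq0 hq1 a hσ (by rw [cfOf_sites]; exact hY)

/-- **THE FIELD `thick` OF `PvhbLocU` ON ROAD E**: `E^*[|ke_a|² ; U] ≤ ofReal (C_e h²)`, `C_e = pvbuCe (D₁ / q') CA L`, uniformly in `‖a‖ ≤ CA`, `ε`, the position.
`hrec` = (J2) = TR13 + TR14: on `A1 ∩ A2` the two increments are the masses of ONE rim in ONE deterministic mask `M ⊆ B(z, L h)` (tested at the barycentres of the tags). -/
theorem pvbu_thick_hat (hε : 0 < ε) (h : T.Hyp ε XQ XV D₁ q') (hD : D₁ ≠ ∞) (hq0 : q' ≠ 0) (hq1 : q' ≠ ∞) {M : Set ℂ} (hM : MeasurableSet M) {z : ℂ} {L hh : ℝ}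
    (hMs : M ⊆ Metric.closedBall z (L * hh))
    (hrec : ∀ᵐ η ∂(pvP ε), η ∈ T.A1 ∩ T.A2 → ∃ x, pvbeTag η x ∧ XQ η = pvbeLab pvqWQ (M.indicator 1) η x ∧ XV η = pvbeLab pvbeWV (M.indicator 1) η x)
    {a : ℂ} {CA : ℝ} (ha : ‖a‖ ≤ CA) :
    (PvUp.iter (pvGeo ε) pvCol).E (fun p => T.U.indicator (fun ω => ‖T.ke ε XQ XV a ω‖ₑ ^ 2) (pvConf (pvMerge p))) ≤ ENNReal.ofReal (pvbuCe (D₁ / q') CA L * hh ^ 2) :=
  pvbu_thick (S := T.dat ε XQ XV a) hε hM hMs hrec ha (ENNReal.div_ne_top hD hq0) (h.dat hD hq0 hq1 a)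

/-- the same in the letters of `PvhbLocU.thick`: `U`, `ke` as functions of `q : PvGeoT × PvColT` -/
theorem pvbu_thick_hub (hε : 0 < ε) (h : T.Hyp ε XQ XV D₁ q') (hD : D₁ ≠ ∞) (hq0 : q' ≠ 0) (hq1 : q' ≠ ∞) {M : Set ℂ} (hM : MeasurableSet M) {z : ℂ} {L hh : ℝ}
    (hMs : M ⊆ Metric.closedBall z (L * hh))
    (hrec : ∀ᵐ η ∂(pvP ε), η ∈ T.A1 ∩ T.A2 → ∃ x, pvbeTag η x ∧ XQ η = pvbeLab pvqWQ (M.indicator 1) η x ∧ XV η = pvbeLab pvbeWV (M.indicator 1) η x)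
    {a : ℂ} {CA : ℝ} (ha : ‖a‖ ≤ CA) {U' : Set (PvGeoT × PvColT)} {ke' : PvGeoT × PvColT → ℂ} (hU : ∀ q ∈ U', pvConf (pvMerge q) ∈ T.U)
    (hke : ∀ q ∈ U', ke' q = T.ke ε XQ XV a (pvConf (pvMerge q))) :
    (PvUp.iter (pvGeo ε) pvCol).E (U'.indicator fun o => ‖ke' o‖ₑ ^ 2) ≤ ENNReal.ofReal (pvbuCe (D₁ / q') CA L * hh ^ 2) := by
  refine le_trans ((PvUp.iter (pvGeo ε) pvCol).mono fun q => ?_) (pvbu_thick_hat hε h hD hq0 hq1 hM hMs hrec ha)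
  by_cases hq : q ∈ U'
  · rw [Set.indicator_of_mem hq, Set.indicator_of_mem (hU q hq), hke q hq]
  · rw [Set.indicator_of_notMem hq]; exact zero_le

end hat

end Claimed.Agent.R289
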