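-- KEEP
import Claimed.Agent.R289.Tr.BesUp
import Claimed.Agent.R289.Del.Seam

/-!
# Row 289 (S0537), THE WALL, ROAD E, file Tr/InstEKS : (K3) OF THE SPLIT OF `thick` = `ins` + ENL, MODEL FREE      (helper99, post of helper7 11:10Z; prefix `pvks_`, `pvks`)

FRAME (7, R18): in ONE experiment the choice of the recoloured sites is CONSTANT: `R p = pvdyR C (fun _ => y) ω p`, `C = C₁ ∪ cK`, `y = ye ∪ yc`;   `(cK, yc)` = THE ATOM OF THE RETURN LINK (tile, fresh sites of the exit mouth).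
`w`, `Y` (weight and value of the thick link) READ A WINDOW: `Conf.Reads (Wn ×ˢ univ) f` (`Ppp/Ind`), `Wn` disjoint from `cK` and from `yc`.      Everything is POINTWISE in the sample `ω` and (but sec. 5) in the seeds.      0 sorry.
* sec. 1  **`pvks_restr_congr`** (MASTER: when two experiments with constant choices look the same in a window), `pvksMix cK yc := pvbuMix ycᶜ (cKᶜ ×ˢ univ)` (223) = the mix of the atom, measurable, law preserving;
          `pvks_restr_mix` (MIX), `pvks_restr_drop` (DROP), `pvks_restr_base` (BASE).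
* sec. 2  readers: **`pvks_reads_mix`** (K3.a), **`pvks_reads_drop`**, `pvks_reads_drop_union` (K3.b), `pvks_reads_base`;   `pvks_Q_reads`, **`pvks_W_reads`** : `pvdyQ`, `pvdyW ε K (fun _ => ye) S` read the window of `S` (so `w = g_u * pvdyW ..` is a reader).
* sec. 3  **(ENL)** `pvks_hat_drop`, **`pvks_hat_drop_union`** : `pvdyHat ε (C₁ ∪ cK) (fun _ => ye ∪ yc) w Y ω = pvdyHat ε C₁ (fun _ => ye) w Y ω`, EVERY `ω`, no measurability;   `pvks_lintegral_drop`, `pvks_Q_drop`.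
* sec. 4  **`pvks_R_R_mix`** (K3.c): `pvdyR cK (fun _ => yc) (R p) p' = R (pvksMix cK yc (p, p'))` at a seed with one colour per site (`pvks_fn_ae`: a.e. seed), `yc` off `C \ cK`;   **`pvks_Q_mix`** : `pvdyQ ε cK (fun _ => yc) A' (R p) = ν {p' | R (mix (p, p')) ∈ A'}`.
* sec. 5  `pvks_insert_ae` (= `pvbu_insert` of 223, forcing at a.e. seed), `pvks_ins_F`, **`pvks_ins`** (THE FIELD `ins`, mix form), **`pvks_ins_Q`** (THE FIELD `ins` from the line of (K5): `q' ≤ pvdyQ ε cK (fun _ => yc) A' (R p)` for a.e. `p` with `w (R p) ≠ 0`),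
          **`pvks_ins_A`**, **`pvks_ins_AQ`** = THE FORM OF `PvekDat.At.ins` (`Exit/Thick`, 7), `pvks_ins_meas`, `pvks_section_meas`.
MEASURABILITY asked in sec. 5 only: the SECTIONS `p ↦ w (R p)`, `p ↦ Y (R p)` a.e. measurable, `{p | R p ∈ A'}` null measurable (insertion is false without: lower integrals do not see the mix).
-/

set_option autoImplicit false

namespace Claimed.Agent.R289

open MeasureTheory ProbabilityTheory Set Filter Topology Claims.C0465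
open scoped ENNReal

/-! ## 1. what a window sees of an experiment with a CONSTANT choice -/

section window

/-- **MASTER LEMMA**: two experiments with constant choices look the same in the window `Wn` -/
theorem pvks_restr_congr {C C' y y' Wn : Set ℂ} {ω ω' : Conf PvPt} {p p' : (ℂ → Bool) × Conf PvPt}
    (hC : ∀ z ∈ Wn, (z ∈ C ↔ z ∈ C'))
    (hs : ∀ z ∈ Wn, z ∉ C → (z ∈ cfSites ω ↔ z ∈ cfSites ω'))
    (hc : ∀ z ∈ Wn, z ∉ C → z ∈ cfSites ω → pvfqMix y (p.1, cfCol ω) z = pvfqMix y' (p'.1, cfCol ω') z)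
    (h2 : ∀ x : PvPt, x.1 ∈ Wn → x.1 ∈ C → (x ∈ p.2.pts ↔ x ∈ p'.2.pts)) :
    Conf.restr (Wn ×ˢ univ) (pvdyR C (fun _ => y) ω p) = Conf.restr (Wn ×ˢ univ) (pvdyR C' (fun _ => y') ω' p') := by
  ext x
  simp only [Conf.restr, mem_inter_iff, mem_prod, mem_univ, and_true]
  refine and_congr_left fun hx => ?_
  rw [pvdy_mem_R, pvdy_mem_R]
  by_cases hxC : x.1 ∈ C
  · have hxC' := (hC _ hx).1 hxC
    simp only [hxC, hxC', not_true_eq_false, false_and, true_and, false_or]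
    exact h2 x hx hxC
  · have hxC' : x.1 ∉ C' := fun h => hxC ((hC _ hx).2 h)
    simp only [hxC, hxC', not_false_eq_true, true_and, false_and, or_false]
    rw [← hs _ hx hxC]
    refine and_congr_right fun h => ?_
    rw [hc _ hx hxC h]

theorem pvks_sites_restr {Wn : Set ℂ} (ω : Conf PvPt) {z : ℂ} (hz : z ∈ Wn) : z ∈ cfSites (Conf.restr (Wn ×ˢ univ) ω) ↔ z ∈ cfSites ω := by
  simp only [cfSites, Conf.restr, mem_image, mem_inter_iff, mem_prod, mem_univ, and_true]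
  constructor
  · rintro ⟨x, ⟨h1, -⟩, rfl⟩
    exact ⟨x, h1, rfl⟩
  · rintro ⟨x, h1, rfl⟩
    exact ⟨x, ⟨h1, hz⟩, rfl⟩

theorem pvks_col_restr {Wn : Set ℂ} (ω : Conf PvPt) {z : ℂ} (hz : z ∈ Wn) : cfCol (Conf.restr (Wn ×ˢ univ) ω) z = cfCol ω z := by
  classical
  unfold cfCol
  refine decide_eq_decide.2 ?_
  simp only [Conf.restr, mem_inter_iff, mem_prod, mem_univ, and_true, hz]

/-- **the mix of the atom `(cK, yc)`**: of the seed `(κ, ω₂)` the colours off `yc` and the configuration off `cK` are KEPT, the rest is taken from the fresh seed -/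
noncomputable def pvksMix (cK yc : Set ℂ) : ((ℂ → Bool) × Conf PvPt) × ((ℂ → Bool) × Conf PvPt) → (ℂ → Bool) × Conf PvPt := pvbuMix ycᶜ (cKᶜ ×ˢ univ)

theorem pvks_eqns_cite : True := by
  have := @pvksMix.eq_1
  trivial

theorem pvks_mix_measurable {cK : Set ℂ} (hK : MeasurableSet cK) (yc : Set ℂ) : Measurable (pvksMix cK yc) :=
  pvbu_mix_measurable _ (hK.compl.prod MeasurableSet.univ)

theorem pvks_mix_law (ε : ℝ) {cK : Set ℂ} (hK : MeasurableSet cK) (yc : Set ℂ) : ((pvdyNu ε).prod (pvdyNu ε)).map (pvksMix cK yc) = pvdyNu ε :=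
  pvbu_mix_law ε _ (hK.compl.prod MeasurableSet.univ)

theorem pvks_mix_fst (cK yc : Set ℂ) (p p' : (ℂ → Bool) × Conf PvPt) {z : ℂ} (hz : z ∉ yc) : (pvksMix cK yc (p, p')).1 z = p.1 z :=
  pvfqMix_of_mem (show z ∈ ycᶜ from hz) _

theorem pvks_mix_fst' (cK yc : Set ℂ) (p p' : (ℂ → Bool) × Conf PvPt) {z : ℂ} (hz : z ∈ yc) : (pvksMix cK yc (p, p')).1 z = p'.1 z :=
  pvfqMix_of_notMem (show z ∉ ycᶜ from fun h => h hz) _

theorem pvks_mix_snd (cK yc : Set ℂ) (p p' : (ℂ → Bool) × Conf PvPt) {x : PvPt} (hx : x.1 ∉ cK) : x ∈ (pvksMix cK yc (p, p')).2.pts ↔ x ∈ p.2.pts := by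
  show x ∈ (Conf.spl (cKᶜ ×ˢ univ) (p.2, p'.2)).pts ↔ _
  simp only [Conf.spl, Conf.union, Conf.restr, mem_union, mem_inter_iff, mem_prod, mem_compl_iff, mem_univ, and_true, hx, not_false_eq_true, not_true_eq_false, and_false, or_false]

theorem pvks_mix_snd' (cK yc : Set ℂ) (p p' : (ℂ → Bool) × Conf PvPt) {x : PvPt} (hx : x.1 ∈ cK) : x ∈ (pvksMix cK yc (p, p')).2.pts ↔ x ∈ p'.2.pts := by
  show x ∈ (Conf.spl (cKᶜ ×ˢ univ) (p.2, p'.2)).pts ↔ _
  simp only [Conf.spl, Conf.union, Conf.restr, mem_union, mem_inter_iff, mem_prod, mem_compl_iff, mem_univ, and_true, hx, not_false_eq_true, not_true_eq_false, and_false, false_or, and_true]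

/-- **(MIX)** a window which misses the atom `(cK, yc)` does not see its mix -/
theorem pvks_restr_mix {C y cK yc Wn : Set ℂ} (d1 : Disjoint Wn cK) (d2 : Disjoint Wn yc) (ω : Conf PvPt) (p p' : (ℂ → Bool) × Conf PvPt) :
    Conf.restr (Wn ×ˢ univ) (pvdyR C (fun _ => y) ω (pvksMix cK yc (p, p'))) = Conf.restr (Wn ×ˢ univ) (pvdyR C (fun _ => y) ω p) := by
  refine pvks_restr_congr (fun _ _ => Iff.rfl) (fun _ _ _ => Iff.rfl) (fun z hz _ _ => ?_) (fun x hx _ => pvks_mix_snd cK yc p p' (Set.disjoint_left.1 d1 hx))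
  by_cases hy : z ∈ y
  · rw [pvfqMix_of_mem hy, pvfqMix_of_mem hy]
    exact pvks_mix_fst cK yc p p' (Set.disjoint_left.1 d2 hz)
  · rw [pvfqMix_of_notMem hy, pvfqMix_of_notMem hy]

/-- **(DROP)** a window which sees the same region and the same choice sees the same experiment -/
theorem pvks_restr_drop {C C₁ y y₁ Wn : Set ℂ} (hC : ∀ z ∈ Wn, (z ∈ C ↔ z ∈ C₁)) (hy : ∀ z ∈ Wn, (z ∈ y ↔ z ∈ y₁)) (ω : Conf PvPt) (p : (ℂ → Bool) × Conf PvPt) :
    Conf.restr (Wn ×ˢ univ) (pvdyR C (fun _ => y) ω p) = Conf.restr (Wn ×ˢ univ) (pvdyR C₁ (fun _ => y₁) ω p) := by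
  refine pvks_restr_congr hC (fun _ _ _ => Iff.rfl) (fun z hz _ _ => ?_) (fun _ _ _ => Iff.rfl)
  by_cases h : z ∈ y
  · rw [pvfqMix_of_mem h, pvfqMix_of_mem ((hy z hz).1 h)]
  · rw [pvfqMix_of_notMem h, pvfqMix_of_notMem (fun hh => h ((hy z hz).2 hh))]

/-- **(BASE)** in the window the experiment reads the base configuration in the window only -/
theorem pvks_restr_base (C y Wn : Set ℂ) (ω : Conf PvPt) (p : (ℂ → Bool) × Conf PvPt) :
    Conf.restr (Wn ×ˢ univ) (pvdyR C (fun _ => y) (Conf.restr (Wn ×ˢ univ) ω) p) = Conf.restr (Wn ×ˢ univ) (pvdyR C (fun _ => y) ω p) := by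
  refine pvks_restr_congr (fun _ _ => Iff.rfl) (fun z hz _ => pvks_sites_restr ω hz) (fun z hz _ _ => ?_) (fun _ _ _ => Iff.rfl)
  by_cases h : z ∈ y
  · rw [pvfqMix_of_mem h, pvfqMix_of_mem h]
  · rw [pvfqMix_of_notMem h, pvfqMix_of_notMem h]
    exact pvks_col_restr ω hz

end window

/-! ## 2. readers of a window -/

section readers

variable {β : Type*} {C C₁ y y₁ cK yc Wn : Set ℂ} {f : Conf PvPt → β}

/-- **(K3.a)** a reader of a window which misses the atom is not touched by the mix of the atom -/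
theorem pvks_reads_mix (hf : Conf.Reads (Wn ×ˢ univ) f) (d1 : Disjoint Wn cK) (d2 : Disjoint Wn yc) (ω : Conf PvPt) (p p' : (ℂ → Bool) × Conf PvPt) :
    f (pvdyR C (fun _ => y) ω (pvksMix cK yc (p, p'))) = f (pvdyR C (fun _ => y) ω p) :=
  hf.eq_of_restr (pvks_restr_mix d1 d2 ω p p')

/-- **(K3.b)** the atom may be dropped from the experiment -/
theorem pvks_reads_drop (hf : Conf.Reads (Wn ×ˢ univ) f) (hC : ∀ z ∈ Wn, (z ∈ C ↔ z ∈ C₁)) (hy : ∀ z ∈ Wn, (z ∈ y ↔ z ∈ y₁)) (ω : Conf PvPt) (p : (ℂ → Bool) × Conf PvPt) :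
    f (pvdyR C (fun _ => y) ω p) = f (pvdyR C₁ (fun _ => y₁) ω p) :=
  hf.eq_of_restr (pvks_restr_drop hC hy ω p)

/-- the same in the letters of the thick link: `C = C₁ ∪ cK`, `y = ye ∪ yc` -/
theorem pvks_reads_drop_union (hf : Conf.Reads (Wn ×ˢ univ) f) (d1 : Disjoint Wn cK) (d2 : Disjoint Wn yc) (ω : Conf PvPt) (p : (ℂ → Bool) × Conf PvPt) :
    f (pvdyR (C₁ ∪ cK) (fun _ => y₁ ∪ yc) ω p) = f (pvdyR C₁ (fun _ => y₁) ω p) :=
  pvks_reads_drop hf (fun _ hz => ⟨fun h => h.resolve_right (Set.disjoint_left.1 d1 hz), Or.inl⟩) (fun _ hz => ⟨fun h => h.resolve_right (Set.disjoint_left.1 d2 hz), Or.inl⟩) ω p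

/-- a reader of the window, evaluated after the experiment, reads the window -/
theorem pvks_reads_base (hf : Conf.Reads (Wn ×ˢ univ) f) (C y : Set ℂ) (p : (ℂ → Bool) × Conf PvPt) : Conf.Reads (Wn ×ˢ univ) fun ω => f (pvdyR C (fun _ => y) ω p) :=
  fun ω => hf.eq_of_restr (pvks_restr_base C y Wn ω p)

/-- `P(S | kept)` reads the window of `S` -/
theorem pvks_Q_reads (ε : ℝ) (K ye : Set ℂ) {S : Set (Conf PvPt)} (hS : Conf.ReadsSet (Wn ×ˢ univ) S) : Conf.Reads (Wn ×ˢ univ) (pvdyQ ε K (fun _ => ye) S) := by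
  intro ω
  unfold pvdyQ
  congr 1
  ext p
  exact iff_of_eq (pvks_reads_base (Conf.readsSet_iff_reads.1 hS) K ye p ω)

/-- the conditioning weight `1_S / P(S | kept)` reads the window of `S` -/
theorem pvks_W_reads (ε : ℝ) (K ye : Set ℂ) {S : Set (Conf PvPt)} (hS : Conf.ReadsSet (Wn ×ˢ univ) S) : Conf.Reads (Wn ×ˢ univ) (pvdyW ε K (fun _ => ye) S) := by
  intro ω
  unfold pvdyW
  rw [pvks_Q_reads ε K ye hS ω]
  congr 1
  by_cases h : ω ∈ S
  · rw [indicator_of_mem h, indicator_of_mem ((hS ω).2 h)]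
    rfl
  · rw [indicator_of_notMem h, indicator_of_notMem (fun hh => h ((hS ω).1 hh))]

end readers

/-! ## 3. (ENL) the experiment of a mean may be enlarged / reduced by an atom which the window does not see -/

section enl

variable {C C₁ y y₁ cK yc Wn : Set ℂ} {w : Conf PvPt → ℝ≥0∞} {Y : Conf PvPt → ℂ}

/-- **(ENL)** POINTWISE in the sample, no measurability, no exceptional seed -/
theorem pvks_hat_drop (ε : ℝ) (hw : Conf.Reads (Wn ×ˢ univ) w) (hY : Conf.Reads (Wn ×ˢ univ) Y) (hC : ∀ z ∈ Wn, (z ∈ C ↔ z ∈ C₁)) (hy : ∀ z ∈ Wn, (z ∈ y ↔ z ∈ y₁)) (ω : Conf PvPt) :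
    pvdyHat ε C (fun _ => y) w Y ω = pvdyHat ε C₁ (fun _ => y₁) w Y ω := by
  rw [pvdy_hat_eq, pvdy_hat_eq]
  simp only [pvks_reads_drop hw hC hy ω, pvks_reads_drop hY hC hy ω]

/-- (ENL) in the letters of the thick link -/
theorem pvks_hat_drop_union (ε : ℝ) (hw : Conf.Reads (Wn ×ˢ univ) w) (hY : Conf.Reads (Wn ×ˢ univ) Y) (d1 : Disjoint Wn cK) (d2 : Disjoint Wn yc) (ω : Conf PvPt) :
    pvdyHat ε (C₁ ∪ cK) (fun _ => y₁ ∪ yc) w Y ω = pvdyHat ε C₁ (fun _ => y₁) w Y ω :=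
  pvks_hat_drop ε hw hY (fun _ hz => ⟨fun h => h.resolve_right (Set.disjoint_left.1 d1 hz), Or.inl⟩) (fun _ hz => ⟨fun h => h.resolve_right (Set.disjoint_left.1 d2 hz), Or.inl⟩) ω

/-- (ENL) for lower integrals -/
theorem pvks_lintegral_drop (ε : ℝ) {F : Conf PvPt → ℝ≥0∞} (hF : Conf.Reads (Wn ×ˢ univ) F) (hC : ∀ z ∈ Wn, (z ∈ C ↔ z ∈ C₁)) (hy : ∀ z ∈ Wn, (z ∈ y ↔ z ∈ y₁)) (ω : Conf PvPt) :
    ∫⁻ p, F (pvdyR C (fun _ => y) ω p) ∂pvdyNu ε = ∫⁻ p, F (pvdyR C₁ (fun _ => y₁) ω p) ∂pvdyNu ε :=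
  lintegral_congr fun p => pvks_reads_drop hF hC hy ω p

/-- (ENL) for conditional probabilities -/
theorem pvks_Q_drop (ε : ℝ) {S : Set (Conf PvPt)} (hS : Conf.ReadsSet (Wn ×ˢ univ) S) (hC : ∀ z ∈ Wn, (z ∈ C ↔ z ∈ C₁)) (hy : ∀ z ∈ Wn, (z ∈ y ↔ z ∈ y₁)) (ω : Conf PvPt) :
    pvdyQ ε C (fun _ => y) S ω = pvdyQ ε C₁ (fun _ => y₁) S ω := by
  unfold pvdyQ
  congr 1
  ext p
  exact iff_of_eq (pvks_reads_drop (Conf.readsSet_iff_reads.1 hS) hC hy ω p)

end enl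

/-! ## 4. a second experiment on the atom = the mix of the seeds -/

section second

/-- the colours of the resampled configuration inside `C` -/
theorem pvks_col_R_in {C : Set ℂ} (yf : Conf PvPt → Set ℂ) (ω : Conf PvPt) (p : (ℂ → Bool) × Conf PvPt) {z : ℂ} (hz : z ∈ C) : cfCol (pvdyR C yf ω p) z = cfCol p.2 z := by
  classical
  unfold cfCol
  refine decide_eq_decide.2 ?_
  rw [pvdy_mem_R]
  simp only [hz, not_true_eq_false, false_and, true_and, false_or]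

/-- **(K3.c)** resampling the atom `(cK, yc)` AFTER the experiment `(C, y)` = the experiment at the mixed seed.      `hp`: the seed configuration has one colour per site (`PvhyFn` of 141; a.e.: `pvks_fn_ae`);   `hd`: the sites of `yc` are not resampled by the rest of `C`. -/
theorem pvks_R_R_mix {C y cK yc : Set ℂ} (hK : cK ⊆ C) (hy : yc ⊆ y) (hd : ∀ z ∈ yc, z ∈ C → z ∈ cK) (ω : Conf PvPt) {p : (ℂ → Bool) × Conf PvPt}
    (hp : cfOf (cfSites p.2) (cfCol p.2) = p.2) (p' : (ℂ → Bool) × Conf PvPt) :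
    pvdyR cK (fun _ => yc) (pvdyR C (fun _ => y) ω p) p' = pvdyR C (fun _ => y) ω (pvksMix cK yc (p, p')) := by
  ext x
  rw [pvdy_mem_R, pvdy_mem_R]
  by_cases h1 : x.1 ∈ cK
  · have h2 : x.1 ∈ C := hK h1
    simp only [h1, h2, not_true_eq_false, false_and, true_and, false_or]
    exact (pvks_mix_snd' cK yc p p' h1).symm
  by_cases h2 : x.1 ∈ C
  · have h3 : x.1 ∉ yc := fun h => h1 (hd _ h h2)
    simp only [h1, h2, not_true_eq_false, not_false_eq_true, false_and, true_and, false_or, or_false]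
    rw [pvks_mix_snd cK yc p p' h1, pvfqMix_of_notMem h3, pvdy_sites_R]
    show _ ∧ x.2 = cfCol (pvdyR C (fun _ => y) ω p) x.1 ↔ _
    rw [pvks_col_R_in _ ω p h2]
    conv_rhs => rw [← hp]
    show _ ↔ x.1 ∈ cfSites p.2 ∧ x.2 = cfCol p.2 x.1
    simp only [mem_union, Set.mem_sdiff, mem_inter_iff, h2, not_true_eq_false, and_false, and_true, false_or]
  · simp only [h1, h2, not_false_eq_true, true_and, false_and, or_false]
    rw [pvdy_sites_R]
    simp only [mem_union, Set.mem_sdiff, mem_inter_iff, h2, not_false_eq_true, and_true, and_false, or_false]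
    refine and_congr_right fun h3 => ?_
    have e : pvfqMix yc (p'.1, cfCol (pvdyR C (fun _ => y) ω p)) x.1 = pvfqMix y ((pvksMix cK yc (p, p')).1, cfCol ω) x.1 := by
      by_cases h4 : x.1 ∈ yc
      · rw [pvfqMix_of_mem h4, pvfqMix_of_mem (hy h4)]
        exact (pvks_mix_fst' cK yc p p' h4).symm
      · rw [pvfqMix_of_notMem h4]
        show cfCol (pvdyR C (fun _ => y) ω p) x.1 = _
        rw [pvdy_cfCol_R _ p h3 h2]
        by_cases h5 : x.1 ∈ y
        · rw [pvfqMix_of_mem h5, pvfqMix_of_mem h5]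
          exact (pvks_mix_fst cK yc p p' h4).symm
        · rw [pvfqMix_of_notMem h5, pvfqMix_of_notMem h5]
    rw [e]

/-- a nice configuration has one colour per site -/
theorem pvks_fn_of_ok {η : Conf PvPt} (h : CfOK η) : cfOf (cfSites η) (cfCol η) = η := by
  classical
  ext ⟨z, b⟩
  rw [cfOf_mem]
  constructor
  · rintro ⟨⟨⟨z', b'⟩, hp, rfl⟩, hb⟩
    unfold cfCol at hb
    by_cases ht : ((z', true) : PvPt) ∈ η.pts
    · rw [decide_eq_true ht] at hb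
      rw [hb]; exact ht
    · rw [decide_eq_false ht] at hb
      cases b'
      · rw [hb]; exact hp
      · exact absurd hp ht
  · intro hp
    refine ⟨⟨(z, b), hp, rfl⟩, ?_⟩
    unfold cfCol
    cases b
    · symm
      refine decide_eq_false fun h' => ?_
      have := h.col _ hp _ h' rfl
      simp at this
    · exact (decide_eq_true hp).symm

/-- almost every seed has one colour per site -/
theorem pvks_fn_ae {ε : ℝ} (hε : 0 < ε) : ∀ᵐ p ∂pvdyNu ε, cfOf (cfSites p.2) (cfCol p.2) = p.2 := by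
  have := (pv_isPpp ε).prob
  have h : ∀ᵐ η ∂pvP ε, cfOf (cfSites η) (cfCol η) = η := (dls_ae_conf hε).mono fun η hη => pvks_fn_of_ok hη
  exact (Measure.quasiMeasurePreserving_snd (μ := colLaw ℂ) (ν := pvP ε)).ae h

/-- **`P(A' | kept by the atom)` after the experiment = the probability of `A'` at the mixed seed** -/
theorem pvks_Q_mix (ε : ℝ) {C y cK yc : Set ℂ} (hK : cK ⊆ C) (hy : yc ⊆ y) (hd : ∀ z ∈ yc, z ∈ C → z ∈ cK) (A' : Set (Conf PvPt)) (ω : Conf PvPt) {p : (ℂ → Bool) × Conf PvPt}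
    (hp : cfOf (cfSites p.2) (cfCol p.2) = p.2) :
    pvdyQ ε cK (fun _ => yc) A' (pvdyR C (fun _ => y) ω p) = pvdyNu ε {p' | pvdyR C (fun _ => y) ω (pvksMix cK yc (p, p')) ∈ A'} := by
  unfold pvdyQ
  simp only [pvks_R_R_mix hK hy hd ω hp]

end second

/-! ## 5. insertion of the return link: the field `ins` -/

section ins

/-- `pvbu_insert` of 223 with the forcing hypothesis at ALMOST EVERY seed -/
theorem pvks_insert_ae {P : Type*} [MeasurableSpace P] {ν : Measure P} [IsProbabilityMeasure ν] {ρ : P × P → P} (hρ : Measurable ρ) (hlaw : (ν.prod ν).map ρ = ν)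
    {φ : P → ℝ≥0∞} (hφ : AEMeasurable φ ν) {A2 : Set P} (hA2 : NullMeasurableSet A2 ν)
    (hfix : ∀ p p', φ (ρ (p, p')) = φ p) {q' : ℝ≥0∞} (hq : ∀ᵐ p ∂ν, φ p ≠ 0 → q' ≤ ν {p' | ρ (p, p') ∈ A2}) :
    q' * ∫⁻ p, φ p ∂ν ≤ ∫⁻ p, φ p * A2.indicator 1 p ∂ν := by
  have hΨ : AEMeasurable (fun p => φ p * A2.indicator (1 : P → ℝ≥0∞) p) ν := hφ.mul (aemeasurable_one.indicator₀ hA2)
  have hΨ' : AEMeasurable (fun p => φ p * A2.indicator (1 : P → ℝ≥0∞) p) ((ν.prod ν).map ρ) := by rw [hlaw]; exact hΨ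
  have hA2' : NullMeasurableSet A2 ((ν.prod ν).map ρ) := by rw [hlaw]; exact hA2
  have hB : NullMeasurableSet (ρ ⁻¹' A2) (ν.prod ν) := hA2'.preimage (Measure.QuasiMeasurePreserving.mk hρ Measure.AbsolutelyContinuous.rfl)
  calc q' * ∫⁻ p, φ p ∂ν = ∫⁻ p, q' * φ p ∂ν := (lintegral_const_mul'' _ hφ).symm
    _ ≤ ∫⁻ p, ∫⁻ p', φ (ρ (p, p')) * A2.indicator (1 : P → ℝ≥0∞) (ρ (p, p')) ∂ν ∂ν := by
        refine lintegral_mono_ae ?_
        filter_upwards [pvbu_null_section hB, hq] with p hp hqp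
        simp_rw [hfix p]
        refine le_trans ?_ (lintegral_const_mul_le (φ p) _)
        by_cases h0 : φ p = 0
        · simp [h0]
        have e : ∫⁻ p', A2.indicator (1 : P → ℝ≥0∞) (ρ (p, p')) ∂ν = ν {p' | ρ (p, p') ∈ A2} := by
          have hp' : NullMeasurableSet ({p' | ρ (p, p') ∈ A2} : Set P) ν := hp
          exact lintegral_indicator_one₀ hp'
        rw [e, mul_comm]
        exact mul_le_mul_right (hqp h0) _
    _ = ∫⁻ x, φ (ρ x) * A2.indicator (1 : P → ℝ≥0∞) (ρ x) ∂(ν.prod ν) := (lintegral_prod _ (hΨ'.comp_aemeasurable hρ.aemeasurable)).symm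
    _ = ∫⁻ p, φ p * A2.indicator (1 : P → ℝ≥0∞) p ∂((ν.prod ν).map ρ) := (lintegral_map' hΨ' hρ.aemeasurable).symm
    _ = _ := by rw [hlaw]

variable {C y cK yc Wn : Set ℂ} {F : Conf PvPt → ℝ≥0∞} {w : Conf PvPt → ℝ≥0∞} {Y : Conf PvPt → ℂ} {A' : Set (Conf PvPt)} {ω : Conf PvPt} {q' : ℝ≥0∞}

/-- **(K3.d) INSERTION, one integrand** `F` (a reader of a window which misses the atom `(cK, yc)` of the return link), mix form of the forcing hypothesis -/
theorem pvks_ins_F (ε : ℝ) (hK : MeasurableSet cK) (hF : Conf.Reads (Wn ×ˢ univ) F) (d1 : Disjoint Wn cK) (d2 : Disjoint Wn yc)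
    (mF : AEMeasurable (fun p => F (pvdyR C (fun _ => y) ω p)) (pvdyNu ε)) (mA : NullMeasurableSet {p | pvdyR C (fun _ => y) ω p ∈ A'} (pvdyNu ε))
    (hq : ∀ᵐ p ∂pvdyNu ε, F (pvdyR C (fun _ => y) ω p) ≠ 0 → q' ≤ pvdyNu ε {p' | pvdyR C (fun _ => y) ω (pvksMix cK yc (p, p')) ∈ A'}) :
    q' * ∫⁻ p, F (pvdyR C (fun _ => y) ω p) ∂pvdyNu ε ≤ ∫⁻ p, A'.indicator F (pvdyR C (fun _ => y) ω p) ∂pvdyNu ε := by
  have k := pvks_insert_ae (ν := pvdyNu ε) (pvks_mix_measurable hK yc) (pvks_mix_law ε hK yc) mF (A2 := {p | pvdyR C (fun _ => y) ω p ∈ A'}) mA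
    (fun p p' => pvks_reads_mix hF d1 d2 ω p p') hq
  refine k.trans (le_of_eq (lintegral_congr fun p => ?_))
  by_cases hp : pvdyR C (fun _ => y) ω p ∈ A'
  · rw [indicator_of_mem hp, indicator_of_mem (show p ∈ {p | pvdyR C (fun _ => y) ω p ∈ A'} from hp), Pi.one_apply, mul_one]
  · rw [indicator_of_notMem hp, indicator_of_notMem (show p ∉ {p | pvdyR C (fun _ => y) ω p ∈ A'} from hp), mul_zero]

/-- **(K3) THE FIELD `ins`**, mix form: `w`, `Y` read a window which misses the atom of the return link; after the mix of the atom the return link has probability `≥ q'` wherever `w ≠ 0` -/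
theorem pvks_ins (ε : ℝ) (hK : MeasurableSet cK) (hw : Conf.Reads (Wn ×ˢ univ) w) (hY : Conf.Reads (Wn ×ˢ univ) Y) (d1 : Disjoint Wn cK) (d2 : Disjoint Wn yc)
    (mw : AEMeasurable (fun p => w (pvdyR C (fun _ => y) ω p)) (pvdyNu ε)) (mY : AEMeasurable (fun p => Y (pvdyR C (fun _ => y) ω p)) (pvdyNu ε))
    (mA : NullMeasurableSet {p | pvdyR C (fun _ => y) ω p ∈ A'} (pvdyNu ε))
    (hq : ∀ᵐ p ∂pvdyNu ε, w (pvdyR C (fun _ => y) ω p) ≠ 0 → q' ≤ pvdyNu ε {p' | pvdyR C (fun _ => y) ω (pvksMix cK yc (p, p')) ∈ A'}) :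
    q' * ∫⁻ p, w (pvdyR C (fun _ => y) ω p) * ‖Y (pvdyR C (fun _ => y) ω p)‖ₑ ^ 2 ∂pvdyNu ε
      ≤ ∫⁻ p, A'.indicator (fun η => w η * ‖Y η‖ₑ ^ 2) (pvdyR C (fun _ => y) ω p) ∂pvdyNu ε :=
  pvks_ins_F (F := fun η => w η * ‖Y η‖ₑ ^ 2) ε hK (fun η => by simp only [hw η, hY η]) d1 d2 (mw.mul (mY.enorm.pow_const 2)) mA
    (hq.mono fun _ hp h0 => hp (left_ne_zero_of_mul h0))

/-- **(K3) THE FIELD `ins`**, form of (K5): the forcing hypothesis is `q' ≤ P(A' | kept by the atom)` at the resampled configuration -/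
theorem pvks_ins_Q {ε : ℝ} (hε : 0 < ε) (hK : MeasurableSet cK) (hw : Conf.Reads (Wn ×ˢ univ) w) (hY : Conf.Reads (Wn ×ˢ univ) Y) (d1 : Disjoint Wn cK) (d2 : Disjoint Wn yc)
    (hKC : cK ⊆ C) (hy : yc ⊆ y) (hd : ∀ z ∈ yc, z ∈ C → z ∈ cK)
    (mw : AEMeasurable (fun p => w (pvdyR C (fun _ => y) ω p)) (pvdyNu ε)) (mY : AEMeasurable (fun p => Y (pvdyR C (fun _ => y) ω p)) (pvdyNu ε))
    (mA : NullMeasurableSet {p | pvdyR C (fun _ => y) ω p ∈ A'} (pvdyNu ε))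
    (hq : ∀ᵐ p ∂pvdyNu ε, w (pvdyR C (fun _ => y) ω p) ≠ 0 → q' ≤ pvdyQ ε cK (fun _ => yc) A' (pvdyR C (fun _ => y) ω p)) :
    q' * ∫⁻ p, w (pvdyR C (fun _ => y) ω p) * ‖Y (pvdyR C (fun _ => y) ω p)‖ₑ ^ 2 ∂pvdyNu ε
      ≤ ∫⁻ p, A'.indicator (fun η => w η * ‖Y η‖ₑ ^ 2) (pvdyR C (fun _ => y) ω p) ∂pvdyNu ε := by
  refine pvks_ins ε hK hw hY d1 d2 mw mY mA ?_
  filter_upwards [hq, pvks_fn_ae hε] with p h1 h2 h0
  rw [← pvks_Q_mix ε hKC hy hd A' ω h2]
  exact h1 h0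

/-- **(K3) THE FIELD `ins` IN THE FORM OF `PvekDat.At.ins`** (`Exit/Thick`, 7), mix form -/
theorem pvks_ins_A {A : Set (Conf PvPt)} (ε : ℝ) (hK : MeasurableSet cK) (hA : Conf.ReadsSet (Wn ×ˢ univ) A) (hY : Conf.Reads (Wn ×ˢ univ) Y) (d1 : Disjoint Wn cK) (d2 : Disjoint Wn yc)
    (mF : AEMeasurable (fun p => A.indicator (fun η => ‖Y η‖ₑ ^ 2) (pvdyR C (fun _ => y) ω p)) (pvdyNu ε)) (mA : NullMeasurableSet {p | pvdyR C (fun _ => y) ω p ∈ A'} (pvdyNu ε))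
    (hq : ∀ᵐ p ∂pvdyNu ε, pvdyR C (fun _ => y) ω p ∈ A → q' ≤ pvdyNu ε {p' | pvdyR C (fun _ => y) ω (pvksMix cK yc (p, p')) ∈ A'}) :
    q' * ∫⁻ p, A.indicator (fun η => ‖Y η‖ₑ ^ 2) (pvdyR C (fun _ => y) ω p) ∂pvdyNu ε
      ≤ ∫⁻ p, (A ∩ A').indicator (fun η => ‖Y η‖ₑ ^ 2) (pvdyR C (fun _ => y) ω p) ∂pvdyNu ε := by
  have hF : Conf.Reads (Wn ×ˢ univ) (A.indicator fun η => ‖Y η‖ₑ ^ 2) := by
    intro η
    by_cases h : η ∈ A
    · rw [indicator_of_mem h, indicator_of_mem ((hA η).2 h), hY η]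
    · rw [indicator_of_notMem h, indicator_of_notMem (fun hh => h ((hA η).1 hh))]
  have k := pvks_ins_F (F := A.indicator fun η => ‖Y η‖ₑ ^ 2) (A' := A') ε hK hF d1 d2 mF mA
    (hq.mono fun p hp h0 => hp (by by_contra hh; exact h0 (indicator_of_notMem hh _)))
  rw [inter_comm, ← indicator_indicator]
  exact k

/-- **(K3) THE FIELD `ins` IN THE FORM OF `PvekDat.At.ins`** from the line of (K5) -/
theorem pvks_ins_AQ {A : Set (Conf PvPt)} {ε : ℝ} (hε : 0 < ε) (hK : MeasurableSet cK) (hA : Conf.ReadsSet (Wn ×ˢ univ) A) (hY : Conf.Reads (Wn ×ˢ univ) Y) (d1 : Disjoint Wn cK) (d2 : Disjoint Wn yc)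
    (hKC : cK ⊆ C) (hy : yc ⊆ y) (hd : ∀ z ∈ yc, z ∈ C → z ∈ cK)
    (mF : AEMeasurable (fun p => A.indicator (fun η => ‖Y η‖ₑ ^ 2) (pvdyR C (fun _ => y) ω p)) (pvdyNu ε)) (mA : NullMeasurableSet {p | pvdyR C (fun _ => y) ω p ∈ A'} (pvdyNu ε))
    (hq : ∀ᵐ p ∂pvdyNu ε, pvdyR C (fun _ => y) ω p ∈ A → q' ≤ pvdyQ ε cK (fun _ => yc) A' (pvdyR C (fun _ => y) ω p)) :
    q' * ∫⁻ p, A.indicator (fun η => ‖Y η‖ₑ ^ 2) (pvdyR C (fun _ => y) ω p) ∂pvdyNu ε
      ≤ ∫⁻ p, (A ∩ A').indicator (fun η => ‖Y η‖ₑ ^ 2) (pvdyR C (fun _ => y) ω p) ∂pvdyNu ε := by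
  refine pvks_ins_A ε hK hA hY d1 d2 mF mA ?_
  filter_upwards [hq, pvks_fn_ae hε] with p h1 h2 h0
  rw [← pvks_Q_mix ε hKC hy hd A' ω h2]
  exact h1 h0

/-- the two measurability hypotheses of `pvks_ins_A` from measurable `A`, `Y`, `A'` at a base with countably many sites -/
theorem pvks_ins_meas {A : Set (Conf PvPt)} (ε : ℝ) (hC : MeasurableSet C) (y : Set ℂ) (hc : (cfSites ω).Countable) (mA : MeasurableSet A) (mY : Measurable Y) (mA' : MeasurableSet A') :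
    AEMeasurable (fun p => A.indicator (fun η => ‖Y η‖ₑ ^ 2) (pvdyR C (fun _ => y) ω p)) (pvdyNu ε) ∧ NullMeasurableSet {p | pvdyR C (fun _ => y) ω p ∈ A'} (pvdyNu ε) :=
  ⟨(((mY.enorm.pow_const 2).indicator mA).comp (pvdy_measurable_R hC _ hc)).aemeasurable, ((pvdy_measurable_R hC _ hc) mA').nullMeasurableSet⟩

/-- the sections are measurable as soon as the functions are -/
theorem pvks_section_meas {β : Type*} [MeasurableSpace β] {f : Conf PvPt → β} (hf : Measurable f) (hC : MeasurableSet C) (y : Set ℂ) (hc : (cfSites ω).Countable) :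
    Measurable fun p => f (pvdyR C (fun _ => y) ω p) := hf.comp (pvdy_measurable_R hC _ hc)

end ins

end Claimed.Agent.R289
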