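import Claimed.Agent.R289.Tr.DomY
import Claimed.Agent.R289.Tr.Bes
import Claimed.Agent.R289.Defs.TrModel

/-!
# Row 289 (S0537), THE WALL, file Tr/BuThick : BOTTOM-UP ROPE OF THE FIELD `thick`      (helper103, post of 82 09:53Z; prefix `pvkt_`, `pvkt`, `Pvkt`)

WHAT THE CLOSED KITS GIVE for a mean `ke = pvdyHat ε C yf w Y` (193, `Tr/DomY`; RULING 10bis; `pvieKe` of 161) OVER THE ITERATED UPPER EXPECTATION `pvhbUp ε = PvUp.iter (pvGeo ε) pvCol`:
no lower integral on the left (warning of 129), NO MEASURABILITY of the state, of `yf`, `w`, `Y`, `B`, not even of the sections.      Everything below is PROVED (0 sorry).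
Inputs: `pvdy_lintegral_nu`, `pvdy_rec_cfOf` (193), `PvbeIn`, `pvbe_in_QaV`, `pvbe_mean_sq` (223), `pvhb_iter_E_ae`, `pvhb_int_ae` (73), `PvgOk.conf_eq`, `pvqu_*` (261), `pvtf_split` (193).
* sec. 1  `PvktWit`, `PvktStp y` (GENERAL stopping choice of the recoloured sites at a fixed geometry: nothing is chosen, or a FINITE witness set, disjoint from the choice, decides it; `y s` finite, co-finite, anything);
          **`pvkt_stp_inv`** : the mean over the fresh colours is MEASURABLE in the old colours and the law is invariant (countable partition into level sets = countable unions of cylinders).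
* sec. 2  **`PvktStop Ok yf`** = the same, label free (`cfOf Y σ`), at the geometries `Ok Y`;   `PvdyStop.kt` (`PvdyStop` of 193, weakened by 96 to finite witnesses at ALL geometries, is the case `Ok = True`; bounded fresh sets `pvieFrO pvieFrI` of 161: witness = frozen sites);
          `pvktY pvkt_stp pvkt_rec_eq`, **`pvkt_rec_fixed`** : the recolouring lemma at a good geometry `g : PvGeoT`, colours `c : PvColT`, WITH measurability in `c`.
* sec. 3  **`pvkt_inv_gen`** (`pvkt_inv_up` for `PvdyStop`) = `pvdy_inv` IN UPPER FORM: `F ω ≤ ∫ H (R ω p) dν(p)` a.s., `H` measurable, `F` ARBITRARY   ⟹   `(pvhbUp ε).E (F ∘ pvConf ∘ pvMerge) ≤ E[H]`.      (Tool for n1, cyc1, thick alike.)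
* sec. 4  `pvkt_mean_sq pvkt_dens_eq pvkt_dens_sq`, **`pvkt_jensen0`** : `|pvdyHat|² ≤ ∫ w |Y|² (R ω p) dν` as soon as the LOWER mass of `w` is `≤ 1`: no measurability;   `pvkt_hat_congr` (the experiment may be enlarged);
          **`pvkt_hat_up`** = TR5 for a hybrid mean: Jensen + insertion of the return link (`hins`) + invariance: `E*[1_B |ke|²] ≤ q'⁻¹ E[H]`, `H ≥ w |Y|²` on the closed cycle.
* sec. 5  `pvktFl` (rims of colour `b`), **`pvkt_bes`** (+ I.BES GENERIC IN THE WEIGHT `W`, `PvbeIn W CB`: one rim, one mask), `pvkt_recog_comb`, `pvktCe`, `pvkt_Ce_le`, `pvktCBa`, `pvkt_in_QaV`.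
* sec. 6  AT THE MODEL: `PvktDat τ` (data `C yf w Y A' M` of the thick short link), `PvktDat.ke`, `PvktDat.At`, `PvktDat.Ok` = THE LEAVES, **`pvkt_model`** (generic weight), `pvkt_model_of` (any `ke` equal to `D.ke` on `U`),
          **`pvkt_model_a`** (= the field `thick` of `PvxAna 𝔓` VERBATIM), `pvkt_model_Q`, `pvkt_model_V` (RULING 12 / H2; `cV_L2` of 283).
THE LEAVES (`PvktDat.At`, one candidate, one mesh): `stop` (`PvktStop`), `norm` (lower mass of `w` `≤ 1`), `wq` (`w ≤ q⁻¹`: E10), `ins` (E10 for the return + independence = (J1) of 223 minus Jensen), `recog` (E2 + E30: one rim, mask `M ⊆ B(z, L h)`), `C`, `M` Borel.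
NOT NEEDED: invariance of `B = {usable}` or of `ke` under the resampling (`stab`, `rd` of `PvdmSys.Hyp`), measurability of `w`, `Y`, `B`, `yf`, `A'` or of their sections.
-/

set_option autoImplicit false
set_option linter.unusedSectionVars false

namespace Claimed.Agent.R289

open MeasureTheory ProbabilityTheory Set Filter Topology Claims.C0465
open scoped ENNReal

/-! ## 1. fixed geometry: recolouring of a STOPPING CHOICE of sites preserves `colLaw V`; the mean over the fresh colours is MEASURABLE in the old colours -/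

section stop

variable {V : Type} {y : (V → Bool) → Set V}

/-- `T` is a WITNESS of the choice `y s`: the colours of the finite set `T` decide `y`, and no site of `T` is chosen -/
def PvktWit (y : (V → Bool) → Set V) (T : Finset V) (s : V → Bool) : Prop :=
  Disjoint (↑T : Set V) (y s) ∧ ∀ s', (∀ v ∈ T, s' v = s v) → y s' = y s

/-- `y` = the set of the sites to be recoloured is a STOPPING CHOICE: either nothing is chosen or the choice has a finite witness.      (`y s` may be finite, co-finite, anything.) -/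
def PvktStp (y : (V → Bool) → Set V) : Prop := ∀ s, (y s).Nonempty → ∃ T : Finset V, PvktWit y T s

theorem pvkt_eqns_cite0 : True := by
  have := @PvktWit.eq_1; have := @PvktStp.eq_1
  trivial

theorem pvkt_wit_congr {T : Finset V} {s s'' : V → Bool} (h : PvktWit y T s) (e : ∀ v ∈ T, s'' v = s v) : PvktWit y T s'' ∧ y s'' = y s := by
  have e1 := h.2 s'' e
  refine ⟨⟨by rw [e1]; exact h.1, fun s' hs' => ?_⟩, e1⟩
  rw [e1]
  exact h.2 s' fun v hv => (hs' v hv).trans (e v hv)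

theorem pvkt_level_meas [Countable V] (h : PvktStp y) {Y0 : Set V} (h0 : Y0.Nonempty) : MeasurableSet {s | y s = Y0} := by
  have e : {s | y s = Y0} = ⋃ T : Finset V, {s | y s = Y0 ∧ PvktWit y T s} := by
    ext s
    simp only [mem_ofPred_eq, mem_iUnion]
    constructor
    · intro hs
      obtain ⟨T, hT⟩ := h s (by rw [hs]; exact h0)
      exact ⟨T, hs, hT⟩
    · rintro ⟨T, hs, -⟩
      exact hs
  rw [e]
  refine MeasurableSet.iUnion fun T => pvdy_meas_of_finite T _ fun s s' hs => ?_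
  constructor
  · rintro ⟨h1, h2⟩
    obtain ⟨a, b⟩ := pvkt_wit_congr h2 (s'' := s') fun v hv => (hs v hv).symm
    exact ⟨b.trans h1, a⟩
  · rintro ⟨h1, h2⟩
    obtain ⟨a, b⟩ := pvkt_wit_congr h2 (s'' := s) fun v hv => hs v hv
    exact ⟨b.trans h1, a⟩

theorem pvkt_values_countable [Countable V] (h : PvktStp y) : {Y0 : Set V | Y0.Nonempty ∧ ∃ s, y s = Y0}.Countable := by
  classical
  refine (Set.countable_range (fun A : Finset V => y (fun v => decide (v ∈ A)))).mono ?_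
  rintro Y0 ⟨h0, s, rfl⟩
  obtain ⟨T, -, hT⟩ := h s h0
  refine ⟨T.filter (fun v => s v = true), hT _ fun v hv => ?_⟩
  cases hs : s v <;> simp [hv, hs]

/-- a level set is not changed by a recolouring of the chosen sites -/
theorem pvkt_level_iff (h : PvktStp y) {Y0 : Set V} (h0 : Y0.Nonempty) (s κ : V → Bool) : y (pvfqMix Y0ᶜ (s, κ)) = Y0 ↔ y s = Y0 := by
  constructor
  · intro hs
    obtain ⟨T, hT1, hT2⟩ := h _ (by rw [hs]; exact h0)
    rw [← hs]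
    refine hT2 s fun v hv => ?_
    have : v ∈ Y0ᶜ := fun hv' => Set.disjoint_left.1 hT1 (Finset.mem_coe.2 hv) (by rw [hs]; exact hv')
    exact (pvfqMix_of_mem this (s, κ)).symm
  · intro hs
    obtain ⟨T, hT1, hT2⟩ := h _ (by rw [hs]; exact h0)
    rw [← hs]
    refine hT2 _ fun v hv => ?_
    have : v ∈ (y s)ᶜ := fun hv' => Set.disjoint_left.1 hT1 (Finset.mem_coe.2 hv) hv'
    exact pvfqMix_of_mem this _

/-- **RECOLOURING LEMMA, fixed geometry, general stopping choice**: measurability in the old colours and invariance of the law -/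
theorem pvkt_stp_inv [Countable V] (h : PvktStp y) {H : (V → Bool) → ℝ≥0∞} (mH : Measurable H) :
    Measurable (fun s => ∫⁻ κ, H (pvfqMix (y s)ᶜ (s, κ)) ∂colLaw V) ∧ ∫⁻ s, ∫⁻ κ, H (pvfqMix (y s)ᶜ (s, κ)) ∂colLaw V ∂colLaw V = ∫⁻ s, H s ∂colLaw V := by
  classical
  have := (pvkt_values_countable h).to_subtype
  let P : Option ↥{Y0 : Set V | Y0.Nonempty ∧ ∃ s, y s = Y0} → Set (V → Bool) := fun o => o.elim {s | y s = ∅} fun Y0 => {s | y s = Y0}
  let φ : Option ↥{Y0 : Set V | Y0.Nonempty ∧ ∃ s, y s = Y0} → (V → Bool) → ℝ≥0∞ := fun o => o.elim H fun Y0 s => ∫⁻ κ, H (pvfqMix (↑Y0 : Set V)ᶜ (s, κ)) ∂colLaw V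
  have mP : ∀ o, MeasurableSet (P o) := by
    rintro (_ | Y0)
    · have e : P none = (⋃ Y0 : ↥{Y0 : Set V | Y0.Nonempty ∧ ∃ s, y s = Y0}, {s | y s = (Y0 : Set V)})ᶜ := by
        ext s
        simp only [P, Option.elim, mem_ofPred_eq, mem_compl_iff, mem_iUnion, not_exists]
        constructor
        · intro hs Y0 hY
          have := Y0.2.1
          rw [← hY, hs] at this
          exact Set.not_nonempty_empty this
        · intro hs
          by_contra hne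
          exact hs ⟨y s, Set.nonempty_iff_ne_empty.2 hne, s, rfl⟩ rfl
      rw [e]
      exact (MeasurableSet.iUnion fun Y0 => pvkt_level_meas h Y0.2.1).compl
    · exact pvkt_level_meas h Y0.2.1
  have mφ : ∀ o, Measurable (φ o) := by
    rintro (_ | Y0)
    · exact mH
    · exact (mH.comp (measurable_pvfqMix _)).lintegral_prod_right'
  have dP : Pairwise (Function.onFun Disjoint P) := by
    rintro (_ | Y0) (_ | Y0') hne
    · exact absurd rfl hne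
    · refine Set.disjoint_left.2 fun s (h1 : y s = ∅) (h2 : y s = Y0') => ?_
      have := Y0'.2.1
      rw [← h2, h1] at this
      exact Set.not_nonempty_empty this
    · refine Set.disjoint_left.2 fun s (h1 : y s = Y0) (h2 : y s = ∅) => ?_
      have := Y0.2.1
      rw [← h1, h2] at this
      exact Set.not_nonempty_empty this
    · refine Set.disjoint_left.2 fun s (h1 : y s = Y0) (h2 : y s = Y0') => hne ?_
      congr 1
      exact Subtype.ext (h1.symm.trans h2)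
  have uP : ⋃ o, P o = univ := by
    refine eq_univ_of_forall fun s => mem_iUnion.2 ?_
    by_cases hs : y s = ∅
    · exact ⟨none, hs⟩
    · exact ⟨some ⟨y s, Set.nonempty_iff_ne_empty.2 hs, s, rfl⟩, rfl⟩
  -- on each piece the mean is `φ o`
  have hφ : ∀ o, ∀ s ∈ P o, ∫⁻ κ, H (pvfqMix (y s)ᶜ (s, κ)) ∂colLaw V = φ o s := by
    rintro (_ | Y0) s hs
    · have hs' : y s = ∅ := hs
      have : ∀ κ, pvfqMix (y s)ᶜ (s, κ) = s := fun κ => by rw [hs', compl_empty, pvfqMix_univ]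
      simp only [this, lintegral_const, measure_univ, mul_one]
      rfl
    · have hs' : y s = Y0 := hs
      rw [hs']
      rfl
  constructor
  · have e : (fun s => ∫⁻ κ, H (pvfqMix (y s)ᶜ (s, κ)) ∂colLaw V) = fun s => ∑' o, (P o).indicator (φ o) s := by
      funext s
      obtain ⟨o, ho⟩ := mem_iUnion.1 (uP ▸ mem_univ s : s ∈ ⋃ o, P o)
      rw [tsum_eq_single o, indicator_of_mem ho, hφ o s ho]
      intro o' hne
      exact indicator_of_notMem (fun h' => Set.disjoint_left.1 (dP hne) h' ho) _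
    rw [e]
    exact Measurable.tsum fun o => (mφ o).indicator (mP o)
  · have key : ∀ f : (V → Bool) → ℝ≥0∞, ∫⁻ s, f s ∂colLaw V = ∑' o, ∫⁻ s in P o, f s ∂colLaw V := by
      intro f
      rw [← lintegral_iUnion mP dP, uP, Measure.restrict_univ]
    rw [key, key H]
    refine tsum_congr fun o => ?_
    rw [setLIntegral_congr_fun (mP o) (hφ o)]
    rcases o with _ | Y0
    · rfl
    · have mE : MeasurableSet {s | y s = (Y0 : Set V)} := mP (some Y0)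
      show ∫⁻ s in {s | y s = (Y0 : Set V)}, ∫⁻ κ, H (pvfqMix (↑Y0 : Set V)ᶜ (s, κ)) ∂colLaw V ∂colLaw V = ∫⁻ s in {s | y s = (Y0 : Set V)}, H s ∂colLaw V
      have e1 : ∫⁻ s in {s | y s = (Y0 : Set V)}, ∫⁻ κ, H (pvfqMix (↑Y0 : Set V)ᶜ (s, κ)) ∂colLaw V ∂colLaw V
          = ∫⁻ s, ∫⁻ κ, ({s | y s = (Y0 : Set V)} : Set (V → Bool)).indicator H (pvfqMix (↑Y0 : Set V)ᶜ (s, κ)) ∂colLaw V ∂colLaw V := by
        rw [← lintegral_indicator mE]
        refine lintegral_congr fun s => ?_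
        by_cases hs : y s = (Y0 : Set V)
        · rw [indicator_of_mem (show s ∈ {s | y s = (Y0 : Set V)} from hs)]
          refine lintegral_congr fun κ => ?_
          rw [indicator_of_mem (show _ ∈ {s | y s = (Y0 : Set V)} from (pvkt_level_iff h Y0.2.1 s κ).2 hs)]
        · rw [indicator_of_notMem (show s ∉ {s | y s = (Y0 : Set V)} from hs)]
          have : ∀ κ, ({s | y s = (Y0 : Set V)} : Set (V → Bool)).indicator H (pvfqMix (↑Y0 : Set V)ᶜ (s, κ)) = 0 := fun κ =>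
            indicator_of_notMem (show _ ∉ {s | y s = (Y0 : Set V)} from fun hh => hs ((pvkt_level_iff h Y0.2.1 s κ).1 hh)) _
          simp only [this, lintegral_zero]
      rw [e1, ← lintegral_indicator mE]
      have mI : Measurable (({s | y s = (Y0 : Set V)} : Set (V → Bool)).indicator H) := mH.indicator mE
      conv_rhs => rw [← pvtf_split (↑Y0 : Set V)ᶜ]
      rw [lintegral_map mI (measurable_pvfqMix _)]
      exact (lintegral_prod _ (mI.comp (measurable_pvfqMix _)).aemeasurable).symm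

end stop

/-! ## 2. a good geometry `g`: the recolouring of the sites of `yf ω` in the language of the indices -/

section fixed

variable {Ok : Set ℂ → Prop} {yf : Conf PvPt → Set ℂ} {g : PvGeoT}

/-- **`yf` IS A STOPPING CHOICE of the sites to be recoloured** (label free; configurations at a fixed geometry are `cfOf Y σ`; `Ok` = any almost sure property of the set of the sites):
either no site is chosen or there is a FINITE set `T` of points (the frozen sites), none of them chosen, whose colours decide the choice.      `yf` may be bounded (fresh sites of a mouth: 161) or co-finite (`PvdyStop` of 193).   NO measurability. -/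
def PvktStop (Ok : Set ℂ → Prop) (yf : Conf PvPt → Set ℂ) : Prop :=
  ∀ (Y : Set ℂ), Ok Y → ∀ σ : ℂ → Bool, (Y ∩ yf (cfOf Y σ)).Nonempty → ∃ T : Finset ℂ, Disjoint (↑T : Set ℂ) (yf (cfOf Y σ)) ∧
    ∀ σ' : ℂ → Bool, (∀ z ∈ T, z ∈ Y → σ' z = σ z) → Y ∩ yf (cfOf Y σ') = Y ∩ yf (cfOf Y σ)

/-- the indices of the sites which are recoloured -/
def pvktY (yf : Conf PvPt → Set ℂ) (g : PvGeoT) (c : PvColT) : Set PvIx := {j | j ∈ pvgAct g ∧ pvgSite g j ∈ yf (pvConf (pvMerge (g, c)))}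

theorem pvkt_eqns_cite1 : True := by
  have := @PvktStop.eq_1; have := @pvktY.eq_1
  trivial

/-- the stopping choices of 193 / 96 (all geometries) are a special case -/
theorem PvdyStop.kt (h : PvdyStop yf) : PvktStop (fun _ => True) yf := by
  intro Y _ σ hne
  obtain ⟨S, hS1, hS2⟩ := h.wit Y σ hne
  exact ⟨S, Set.disjoint_left.2 fun z hz => (hS1 hz).2, fun σ' hσ' => hS2 σ' fun z hz => hσ' z hz (hS1 (Finset.mem_coe.2 hz)).1⟩

theorem PvktStop.mono {Ok' : Set ℂ → Prop} (h : PvktStop Ok yf) (h' : ∀ Y, Ok' Y → Ok Y) : PvktStop Ok' yf := fun Y hY => h Y (h' Y hY)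

theorem pvkt_stp (hS : PvktStop Ok yf) (hg : PvgOk g) (hY : Ok (pvgSites g)) : PvktStp (pvktY yf g) := by
  classical
  intro c hc
  obtain ⟨j, hj1, hj2⟩ := hc
  have hne : (pvgSites g ∩ yf (cfOf (pvgSites g) (pvgColAt g c))).Nonempty := ⟨pvgSite g j, mem_image_of_mem _ hj1, by rw [← hg.conf_eq c]; exact hj2⟩
  obtain ⟨T, hT1, hT2⟩ := hS _ hY _ hne
  refine ⟨(T.filter (· ∈ pvgSites g)).image (pvgIdx g), ?_, fun c' hc' => ?_⟩
  · refine Set.disjoint_left.2 fun i hi hi' => ?_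
    obtain ⟨z, hz, rfl⟩ := Finset.mem_image.1 (Finset.mem_coe.1 hi)
    obtain ⟨hz1, hz2⟩ := Finset.mem_filter.1 hz
    have h3 := hi'.2
    rw [(pvqu_idx_spec hz2).2, hg.conf_eq c] at h3
    exact Set.disjoint_left.1 hT1 (Finset.mem_coe.2 hz1) h3
  · have h1 : pvgSites g ∩ yf (pvConf (pvMerge (g, c'))) = pvgSites g ∩ yf (pvConf (pvMerge (g, c))) := by
      rw [hg.conf_eq c, hg.conf_eq c']
      refine hT2 _ fun z hz hzY => ?_
      exact hc' _ (Finset.mem_image_of_mem _ (Finset.mem_filter.2 ⟨hz, hzY⟩))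
    ext i
    simp only [pvktY, mem_ofPred_eq]
    refine and_congr_right fun hi => ?_
    have hm : pvgSite g i ∈ pvgSites g := mem_image_of_mem _ hi
    constructor
    · intro hh
      have h3 : pvgSite g i ∈ pvgSites g ∩ yf (pvConf (pvMerge (g, c'))) := ⟨hm, hh⟩
      rw [h1] at h3
      exact h3.2
    · intro hh
      have h3 : pvgSite g i ∈ pvgSites g ∩ yf (pvConf (pvMerge (g, c))) := ⟨hm, hh⟩
      rw [← h1] at h3
      exact h3.2

/-- the recoloured configuration is the configuration of the recoloured indices -/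
theorem pvkt_rec_eq (hg : PvgOk g) (c : PvColT) (κ : ℂ → Bool) :
    pvdyRec (yf (pvConf (pvMerge (g, c)))) (pvConf (pvMerge (g, c))) κ = pvConf (pvMerge (g, pvfqMix (pvktY yf g c)ᶜ (c, κ ∘ pvgSite g))) := by
  rw [hg.conf_eq (pvfqMix (pvktY yf g c)ᶜ (c, κ ∘ pvgSite g))]
  have hy : ∀ i, i ∈ pvktY yf g c ↔ i ∈ pvgAct g ∧ pvgSite g i ∈ yf (pvConf (pvMerge (g, c))) := fun i => Iff.rfl
  obtain ⟨F, hF⟩ : ∃ F, F = yf (pvConf (pvMerge (g, c))) := ⟨_, rfl⟩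
  rw [← hF] at hy ⊢
  rw [hg.conf_eq c, pvdy_rec_cfOf]
  refine pvdy_cfOf_congr fun z hz => ?_
  obtain ⟨i1, i2⟩ := pvqu_idx_spec hz
  show _ = pvfqMix (pvktY yf g c)ᶜ (c, κ ∘ pvgSite g) (pvgIdx g z)
  by_cases hz' : z ∈ F
  · rw [pvfqMix_of_mem hz', pvfqMix_of_notMem (show pvgIdx g z ∉ (pvktY yf g c)ᶜ from fun hh => hh ((hy _).2 ⟨i1, by rw [i2]; exact hz'⟩))]
    show κ z = κ (pvgSite g (pvgIdx g z))
    rw [i2]
  · rw [pvfqMix_of_notMem hz', pvfqMix_of_mem (show pvgIdx g z ∈ (pvktY yf g c)ᶜ from fun hh => hz' (by have := ((hy _).1 hh).2; rwa [i2] at this))]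
    rfl

/-- **RECOLOURING LEMMA AT A GOOD GEOMETRY, with measurability in the old colours** -/
theorem pvkt_rec_fixed (hS : PvktStop Ok yf) (hg : PvgOk g) (hY : Ok (pvgSites g)) {G : Conf PvPt → ℝ≥0∞} (mG : Measurable G) :
    Measurable (fun c : PvColT => ∫⁻ κ, G (pvdyRec (yf (pvConf (pvMerge (g, c)))) (pvConf (pvMerge (g, c))) κ) ∂colLaw ℂ) ∧
    ∫⁻ c, ∫⁻ κ, G (pvdyRec (yf (pvConf (pvMerge (g, c)))) (pvConf (pvMerge (g, c))) κ) ∂colLaw ℂ ∂pvCol = ∫⁻ c, G (pvConf (pvMerge (g, c))) ∂pvCol := by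
  have mH : Measurable fun c : PvColT => G (pvConf (pvMerge (g, c))) := mG.comp (pvqu_Qm_meas g)
  have e : (fun c : PvColT => ∫⁻ κ, G (pvdyRec (yf (pvConf (pvMerge (g, c)))) (pvConf (pvMerge (g, c))) κ) ∂colLaw ℂ)
      = fun c => ∫⁻ κ', G (pvConf (pvMerge (g, pvfqMix (pvktY yf g c)ᶜ (c, κ')))) ∂colLaw PvIx := by
    funext c
    rw [← pvf_colLaw_comp (pvgSite g) hg.inj]
    refine Eq.trans ?_ (lintegral_map (f := fun κ' => G (pvConf (pvMerge (g, pvfqMix (pvktY yf g c)ᶜ (c, κ'))))) (mH.comp ((measurable_pvfqMix _).comp (measurable_const.prodMk measurable_id)))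
      (measurable_pi_lambda _ fun v => measurable_pi_apply _)).symm
    refine lintegral_congr fun κ => ?_
    rw [pvkt_rec_eq hg]
  have ecol : pvCol = colLaw PvIx := rfl
  rw [e, ecol]
  exact pvkt_stp_inv (pvkt_stp hS hg hY) mH

end fixed

/-! ## 3. INVARIANCE OF THE LAW UNDER THE HYBRID RESAMPLING, UPPER FORM -/

section inv

variable {Ok : Set ℂ → Prop} {C : Set ℂ} {yf : Conf PvPt → Set ℂ} {ε : ℝ}

/-- **INVARIANCE UNDER THE HYBRID RESAMPLING OVER THE ITERATED UPPER EXPECTATION, general stopping choice**: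
ANY function `F` of the configuration which is a.s. dominated by the mean of a measurable `H` over the hybrid resampling has upper expectation `≤ E[H]`.      No measurability of `F`, of `yf`. -/
theorem pvkt_inv_gen (ε : ℝ) (hC : MeasurableSet C) (hok : ∀ᵐ ω ∂pvP ε, Ok (cfSites ω)) (hS : PvktStop Ok yf) {H : Conf PvPt → ℝ≥0∞} (mH : Measurable H) {F : Conf PvPt → ℝ≥0∞}
    (hF : ∀ᵐ ω ∂pvP ε, F ω ≤ ∫⁻ p, H (pvdyR C yf ω p) ∂pvdyNu ε) :
    (pvhbUp ε).E (fun q => F (pvConf (pvMerge q))) ≤ ∫⁻ ω, H ω ∂pvP ε := by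
  have hP := pv_isPpp ε
  have := hP.prob
  have hO : MeasurableSet (Cᶜ ×ˢ (univ : Set Bool)) := hC.compl.prod MeasurableSet.univ
  let G : Conf PvPt → ℝ≥0∞ := fun ω' => ∫⁻ ω₂, H (Conf.spl (Cᶜ ×ˢ univ) (ω', ω₂)) ∂pvP ε
  have mG : Measurable G := (mH.comp (Conf.measurable_spl hO)).lintegral_prod_right'
  have mΨ : Measurable fun g : PvGeoT => ∫⁻ c, G (pvConf (pvMerge (g, c))) ∂pvCol :=
    (mG.comp (measurable_pvConf.comp measurable_pvMerge)).lintegral_prod_right'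
  have eΨ : ∫⁻ g, ∫⁻ c, G (pvConf (pvMerge (g, c))) ∂pvCol ∂pvGeo ε = ∫⁻ ω, H ω ∂pvP ε := by
    rw [hP.lintegral_spl hO mH]
    have e : ∫⁻ ω, G ω ∂pvP ε = ∫⁻ ω, G (pvConf ω) ∂pvLaw ε := lintegral_map (μ := pvLaw ε) mG measurable_pvConf
    refine Eq.trans ?_ e.symm
    exact (pvqu_lintegral ε (mG.comp measurable_pvConf)).symm
  rw [← eΨ]
  refine pvhb_iter_E_ae (pvGeo ε) pvCol mΨ.aemeasurable ?_
  filter_upwards [pvqu_ok_ae ε, pvqu_Qc_ae ε hF, pvqu_Qc_ae ε hok] with g hg h2 h3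
  have hY : Ok (pvgSites g) := by
    obtain ⟨c, hc⟩ := h3.exists
    rwa [pvqu_cfSites] at hc
  obtain ⟨m1, e1⟩ := pvkt_rec_fixed (yf := yf) hS hg hY mG
  rw [← e1]
  refine pvhb_int_ae pvCol m1.aemeasurable ?_
  filter_upwards [h2] with c hc
  refine hc.trans (le_of_eq ?_)
  have hcnt : (cfSites (pvConf (pvMerge (g, c)))).Countable := by
    rw [pvqu_cfSites]
    exact (Set.to_countable (pvgAct g)).image _
  exact pvdy_lintegral_nu ε hC yf mH hcnt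

/-- **`pvdy_inv` OF 193 OVER THE ITERATED UPPER EXPECTATION** -/
theorem pvkt_inv_up (ε : ℝ) (hC : MeasurableSet C) (hS : PvdyStop yf) {H : Conf PvPt → ℝ≥0∞} (mH : Measurable H) {F : Conf PvPt → ℝ≥0∞}
    (hF : ∀ᵐ ω ∂pvP ε, F ω ≤ ∫⁻ p, H (pvdyR C yf ω p) ∂pvdyNu ε) :
    (pvhbUp ε).E (fun q => F (pvConf (pvMerge q))) ≤ ∫⁻ ω, H ω ∂pvP ε :=
  pvkt_inv_gen ε hC (Eventually.of_forall fun _ => trivial) hS.kt mH hF

end inv

/-! ## 4. JENSEN + INSERTION OF THE RETURN LINK + INVARIANCE, UPPER FORM -/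

section jensen

/-- Jensen without hypotheses for a SUB-probability measure -/
theorem pvkt_mean_sq {Ω : Type*} [MeasurableSpace Ω] (P : Measure Ω) (hP : P univ ≤ 1) (f : Ω → ℂ) : ‖∫ ω, f ω ∂P‖ₑ ^ 2 ≤ ∫⁻ ω, ‖f ω‖ₑ ^ 2 ∂P := by
  by_cases h0 : P univ = 0
  · rw [Measure.measure_univ_eq_zero.1 h0]; simp
  obtain ⟨c, hc⟩ : ∃ c, c = P univ := ⟨_, rfl⟩
  rw [← hc] at h0 hP
  have ht : c ≠ ∞ := ne_top_of_le_ne_top ENNReal.one_ne_top hP
  obtain ⟨P', hP'⟩ : ∃ P' : Measure Ω, P' = c⁻¹ • P := ⟨_, rfl⟩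
  have : IsProbabilityMeasure P' := ⟨by rw [hP', Measure.smul_apply, ← hc, smul_eq_mul, ENNReal.inv_mul_cancel h0 ht]⟩
  have e : P = c • P' := by rw [hP', smul_smul, ENNReal.mul_inv_cancel h0 ht, one_smul]
  have k := pvbe_mean_sq P' f
  rw [e, integral_smul_measure, lintegral_smul_measure, enorm_smul, Real.enorm_eq_ofReal ENNReal.toReal_nonneg, ENNReal.ofReal_toReal ht, mul_pow, smul_eq_mul]
  calc c ^ 2 * ‖∫ ω, f ω ∂P'‖ₑ ^ 2 ≤ c ^ 2 * ∫⁻ ω, ‖f ω‖ₑ ^ 2 ∂P' := by gcongr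
    _ ≤ c * ∫⁻ ω, ‖f ω‖ₑ ^ 2 ∂P' := by
      gcongr
      calc c ^ 2 = c * c := sq c
        _ ≤ c * 1 := by gcongr
        _ = c := mul_one c

/-- a density of finite (lower) integral may be replaced by a measurable one -/
theorem pvkt_dens_eq {α : Type*} [MeasurableSpace α] (ν : Measure α) (f : α → ℝ≥0∞) (hf : ∫⁻ a, f a ∂ν ≠ ∞) :
    ∃ g : α → ℝ≥0∞, Measurable g ∧ g ≤ f ∧ ∫⁻ a, f a ∂ν = ∫⁻ a, g a ∂ν ∧ ν.withDensity f = ν.withDensity g := by
  obtain ⟨g, mg, hg, e⟩ := exists_measurable_le_lintegral_eq ν f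
  refine ⟨g, mg, hg, e, Measure.ext fun s hs => ?_⟩
  rw [withDensity_apply _ hs, withDensity_apply _ hs]
  refine le_antisymm ?_ (lintegral_mono hg)
  by_contra hlt
  rw [not_le] at hlt
  have h1 : ∫⁻ a in sᶜ, g a ∂ν ≤ ∫⁻ a in sᶜ, f a ∂ν := lintegral_mono hg
  have h2 : ∫⁻ a in sᶜ, g a ∂ν ≠ ∞ := ne_top_of_le_ne_top hf ((h1.trans (setLIntegral_le_lintegral _ _)))
  have h3 := ENNReal.add_lt_add_of_lt_of_le h2 hlt h1
  rw [lintegral_add_compl g hs, lintegral_add_compl f hs, e] at h3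
  exact lt_irrefl _ h3

/-- **JENSEN FOR A WEIGHTED MEAN, NO MEASURABILITY AT ALL**: `f` ANY density of (lower) mass `≤ 1`, `Y` ANY function (a function which is not integrable has Bochner integral `0`) -/
theorem pvkt_dens_sq {α : Type*} [MeasurableSpace α] (ν : Measure α) (f : α → ℝ≥0∞) (hf : ∫⁻ a, f a ∂ν ≤ 1) (Y : α → ℂ) :
    ‖∫ a, Y a ∂(ν.withDensity f)‖ₑ ^ 2 ≤ ∫⁻ a, f a * ‖Y a‖ₑ ^ 2 ∂ν := by
  obtain ⟨g, mg, hg, e, e2⟩ := pvkt_dens_eq ν f (ne_top_of_le_ne_top ENNReal.one_ne_top hf)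
  rw [e2]
  have hm : (ν.withDensity g) univ ≤ 1 := by
    rw [withDensity_apply _ MeasurableSet.univ, Measure.restrict_univ, ← e]; exact hf
  refine (pvkt_mean_sq _ hm Y).trans ((lintegral_withDensity_le_lintegral_mul ν mg _).trans (lintegral_mono fun a => ?_))
  exact mul_le_mul_left (hg a) _

/-- the same for `pvdyHat` -/
theorem pvkt_jensen0 (ε : ℝ) (C : Set ℂ) (yf : Conf PvPt → Set ℂ) (w : Conf PvPt → ℝ≥0∞) (Y : Conf PvPt → ℂ) {ω : Conf PvPt} (hnorm : ∫⁻ p, w (pvdyR C yf ω p) ∂pvdyNu ε ≤ 1) :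
    ‖pvdyHat ε C yf w Y ω‖ₑ ^ 2 ≤ ∫⁻ p, w (pvdyR C yf ω p) * ‖Y (pvdyR C yf ω p)‖ₑ ^ 2 ∂pvdyNu ε := by
  rw [pvdy_hat_eq]
  exact pvkt_dens_sq (pvdyNu ε) _ hnorm _

/-- the mean does not see the resources which `w`, `Y` do not read: the experiment may be ENLARGED (by the region and the fresh sites of the return link) -/
theorem pvkt_hat_congr (ε : ℝ) {C C' : Set ℂ} {yf yf' : Conf PvPt → Set ℂ} {w : Conf PvPt → ℝ≥0∞} {Y : Conf PvPt → ℂ} {ω : Conf PvPt}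
    (hw : ∀ᵐ p ∂pvdyNu ε, w (pvdyR C' yf' ω p) = w (pvdyR C yf ω p)) (hY : ∀ᵐ p ∂pvdyNu ε, Y (pvdyR C' yf' ω p) = Y (pvdyR C yf ω p)) :
    pvdyHat ε C' yf' w Y ω = pvdyHat ε C yf w Y ω := by
  rw [pvdy_hat_eq, pvdy_hat_eq, withDensity_congr_ae hw]
  exact integral_congr_ae ((withDensity_absolutelyContinuous _ _).ae_le hY)

end jensen

section hat

variable {Ok : Set ℂ → Prop} {C : Set ℂ} {yf : Conf PvPt → Set ℂ} {ε : ℝ} {w H : Conf PvPt → ℝ≥0∞} {Y : Conf PvPt → ℂ} {B A' : Set (Conf PvPt)} {q q' : ℝ≥0∞}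

/-- **TR5 FOR A HYBRID MEAN, UPPER FORM**.      `B` = the candidate is usable (ANY set);   `w` = the weight of the experiment of `ke` (mass one on `B`);   `A'` = the return link closes the cycle;
`hins` = INSERTION (the return link has conditional probability `≥ q'` given what `w`, `Y` read; see sec. 7);   `hdom` = a majorant of `w |Y|²` on the closed cycle. -/
theorem pvkt_hat_up (ε : ℝ) (hC : MeasurableSet C) (hok : ∀ᵐ ω ∂pvP ε, Ok (cfSites ω)) (hS : PvktStop Ok yf) (mH : AEMeasurable H (pvP ε)) (hq0 : q' ≠ 0) (hqt : q' ≠ ∞)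
    (hnorm : ∀ᵐ ω ∂pvP ε, ω ∈ B → ∫⁻ p, w (pvdyR C yf ω p) ∂pvdyNu ε ≤ 1)
    (hins : ∀ᵐ ω ∂pvP ε, ω ∈ B → q' * ∫⁻ p, w (pvdyR C yf ω p) * ‖Y (pvdyR C yf ω p)‖ₑ ^ 2 ∂pvdyNu ε
      ≤ ∫⁻ p, A'.indicator (fun η => w η * ‖Y η‖ₑ ^ 2) (pvdyR C yf ω p) ∂pvdyNu ε)
    (hdom : ∀ᵐ ω ∂pvP ε, ω ∈ A' → w ω * ‖Y ω‖ₑ ^ 2 ≤ H ω) :
    (pvhbUp ε).E (fun x => B.indicator (fun ω => ‖pvdyHat ε C yf w Y ω‖ₑ ^ 2) (pvConf (pvMerge x))) ≤ q'⁻¹ * ∫⁻ ω, H ω ∂pvP ε := by
  -- a measurable majorant valid EVERYWHERE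
  have hdom' : ∀ᵐ ω ∂pvP ε, ω ∈ A' → w ω * ‖Y ω‖ₑ ^ 2 ≤ mH.mk H ω := by
    filter_upwards [hdom, mH.ae_eq_mk] with ω h1 h2 h3
    rw [← h2]; exact h1 h3
  obtain ⟨N, hN, mN, h0⟩ := exists_measurable_superset_of_null hdom'
  let H' : Conf PvPt → ℝ≥0∞ := fun ω => q'⁻¹ * (mH.mk H ω + N.indicator (fun _ => ∞) ω)
  have mH' : Measurable H' := (mH.measurable_mk.add (measurable_const.indicator mN)).const_mul _
  have eH' : ∫⁻ ω, H' ω ∂pvP ε = q'⁻¹ * ∫⁻ ω, H ω ∂pvP ε := by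
    have e1 : ∫⁻ ω, H' ω ∂pvP ε = q'⁻¹ * ∫⁻ ω, (mH.mk H ω + N.indicator (fun _ => ∞) ω) ∂pvP ε :=
      lintegral_const_mul _ (mH.measurable_mk.add (measurable_const.indicator mN))
    rw [e1, lintegral_add_left mH.measurable_mk, lintegral_indicator mN, setLIntegral_measure_zero _ _ h0, add_zero, lintegral_congr_ae mH.ae_eq_mk]
  have hall : ∀ η, A'.indicator (fun η => w η * ‖Y η‖ₑ ^ 2) η ≤ mH.mk H η + N.indicator (fun _ => ∞) η := by
    intro η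
    by_cases hA : η ∈ A'
    · rw [indicator_of_mem hA]
      by_cases hη : η ∈ N
      · rw [indicator_of_mem hη, add_top]; exact le_top
      · rw [indicator_of_notMem hη, add_zero]
        by_contra hh
        exact hη (hN fun h => hh (h hA))
    · rw [indicator_of_notMem hA]; exact zero_le
  rw [← eH']
  refine pvkt_inv_gen ε hC hok hS mH' ?_
  filter_upwards [hnorm, hins] with ω h3 h4
  by_cases hω : ω ∈ B
  · rw [indicator_of_mem hω]
    refine (pvkt_jensen0 ε C yf w Y (h3 hω)).trans ?_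
    have k : ∫⁻ p, w (pvdyR C yf ω p) * ‖Y (pvdyR C yf ω p)‖ₑ ^ 2 ∂pvdyNu ε
        ≤ q'⁻¹ * ∫⁻ p, A'.indicator (fun η => w η * ‖Y η‖ₑ ^ 2) (pvdyR C yf ω p) ∂pvdyNu ε := by
      rw [← ENNReal.div_eq_inv_mul, ENNReal.le_div_iff_mul_le (Or.inl hq0) (Or.inl hqt), mul_comm]
      exact h4 hω
    refine k.trans ?_
    calc q'⁻¹ * ∫⁻ p, A'.indicator (fun η => w η * ‖Y η‖ₑ ^ 2) (pvdyR C yf ω p) ∂pvdyNu ε
        ≤ q'⁻¹ * ∫⁻ p, (mH.mk H (pvdyR C yf ω p) + N.indicator (fun _ => ∞) (pvdyR C yf ω p)) ∂pvdyNu ε := by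
          gcongr with p
          exact hall _
      _ ≤ ∫⁻ p, H' (pvdyR C yf ω p) ∂pvdyNu ε := lintegral_const_mul_le _ _
  · rw [indicator_of_notMem hω]; exact zero_le

end hat

/-! ## 5. I.BES: the closed cycle is ONE rim, the increment is its mass in a deterministic mask -/

section bes

variable {Ok : Set ℂ → Prop} {C : Set ℂ} {yf : Conf PvPt → Set ℂ} {ε : ℝ} {w : Conf PvPt → ℝ≥0∞} {Y YQ YV : Conf PvPt → ℂ} {B A' : Set (Conf PvPt)} {q q' CB : ℝ≥0∞}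
variable {W : Set ℂ → ℂ × ℂ → ℂ} {M : Set ℂ}

/-- the configuration seen by a rim of colour `b` (`true`: as it is; `false`: colours exchanged) -/
def pvktFl (b : Bool) (η : Conf PvPt) : Conf PvPt := if b then η else cfFlip η

theorem pvkt_eqns_cite2 : True := by
  have := @pvktFl.eq_1
  trivial

theorem pvkt_fl_mp (ε : ℝ) (b : Bool) : MeasurePreserving (pvktFl b) (pvP ε) (pvP ε) := by
  cases b
  · exact ⟨measurable_cfFlip, pvP_flip ε⟩
  · exact MeasurePreserving.id _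

/-- **TR5 + I.BES FOR A HYBRID MEAN, UPPER FORM**.      `hrec` = RECOGNITION (TR13 + TR14): on the closed cycle (`w ≠ 0`, `A'`) the increment `Y` is the mass of ONE rim of colour `b` in the deterministic mask `M`. -/
theorem pvkt_bes (hB : PvbeIn W CB) (hε : 0 < ε) (b : Bool) (hC : MeasurableSet C) (hok : ∀ᵐ ω ∂pvP ε, Ok (cfSites ω)) (hS : PvktStop Ok yf) (hq0 : q' ≠ 0) (hqt : q' ≠ ∞)
    (hnorm : ∀ᵐ ω ∂pvP ε, ω ∈ B → ∫⁻ p, w (pvdyR C yf ω p) ∂pvdyNu ε ≤ 1)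
    (hins : ∀ᵐ ω ∂pvP ε, ω ∈ B → q' * ∫⁻ p, w (pvdyR C yf ω p) * ‖Y (pvdyR C yf ω p)‖ₑ ^ 2 ∂pvdyNu ε
      ≤ ∫⁻ p, A'.indicator (fun η => w η * ‖Y η‖ₑ ^ 2) (pvdyR C yf ω p) ∂pvdyNu ε)
    (hwq : ∀ᵐ ω ∂pvP ε, w ω ≤ q⁻¹) (hM : MeasurableSet M) (hb : Bornology.IsBounded M)
    (hrec : ∀ᵐ η ∂pvP ε, η ∈ A' → w η ≠ 0 → ∃ x, pvbeTag (pvktFl b η) x ∧ Y η = pvbeLab W (M.indicator 1) (pvktFl b η) x) :
    (pvhbUp ε).E (fun x => B.indicator (fun ω => ‖pvdyHat ε C yf w Y ω‖ₑ ^ 2) (pvConf (pvMerge x))) ≤ q'⁻¹ * (q⁻¹ * (CB * volume M)) := by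
  obtain ⟨H, hH, h1, h2⟩ := hB ε hε _ (pvbe_test_ind hM hb)
  rw [pvbe_ind_sq hM] at h2
  have mp := pvkt_fl_mp ε b
  have hH' : AEMeasurable (fun η => H (pvktFl b η)) (pvP ε) := by
    refine AEMeasurable.comp_measurable ?_ mp.measurable
    rw [mp.map_eq]; exact hH
  have eH : ∫⁻ η, H (pvktFl b η) ∂pvP ε = ∫⁻ η, H η ∂pvP ε := by
    conv_rhs => rw [← mp.map_eq]
    rw [lintegral_map' (by rw [mp.map_eq]; exact hH) mp.measurable.aemeasurable]
  have h1' : ∀ᵐ η ∂pvP ε, ∀ x, pvbeTag (pvktFl b η) x → ‖pvbeLab W (M.indicator 1) (pvktFl b η) x‖ₑ ^ 2 ≤ H (pvktFl b η) := mp.quasiMeasurePreserving.ae h1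
  refine (pvkt_hat_up (H := fun η => q⁻¹ * H (pvktFl b η)) ε hC hok hS (hH'.const_mul _) hq0 hqt hnorm hins ?_).trans ?_
  · filter_upwards [h1', hwq, hrec] with η a1 a2 a3 hA
    by_cases h0 : w η = 0
    · rw [h0, zero_mul]; exact zero_le
    · obtain ⟨x, hx, e⟩ := a3 hA h0
      rw [e]
      exact mul_le_mul' a2 (a1 x hx)
  · rw [lintegral_const_mul'' _ hH', eH]
    gcongr

/-- recognition for the field `y_a = Q - a V` from the recognition of `Q` and `V` by the SAME tag -/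
theorem pvkt_recog_comb (hε : 0 < ε) (b : Bool) (a : ℂ) {Ev : Set (Conf PvPt)}
    (hrec : ∀ᵐ η ∂pvP ε, η ∈ Ev → ∃ x, pvbeTag (pvktFl b η) x ∧ YQ η = pvbeLab pvqWQ (M.indicator 1) (pvktFl b η) x ∧ YV η = pvbeLab pvbeWV (M.indicator 1) (pvktFl b η) x) :
    ∀ᵐ η ∂pvP ε, η ∈ Ev → ∃ x, pvbeTag (pvktFl b η) x ∧ YQ η - a * YV η = pvbeLab (pvbeComb pvqWQ pvbeWV (-a)) (M.indicator 1) (pvktFl b η) x := by
  have hcomb : ∀ᵐ η ∂pvP ε, ∀ x, pvbeLab (pvbeComb pvqWQ pvbeWV (-a)) (M.indicator 1) (pvktFl b η) x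
      = pvbeLab pvqWQ (M.indicator 1) (pvktFl b η) x + (-a) * pvbeLab pvbeWV (M.indicator 1) (pvktFl b η) x :=
    (pvkt_fl_mp ε b).quasiMeasurePreserving.ae (pvbe_lab_comb (W := pvqWQ) (W' := pvbeWV) hε (-a) (M.indicator 1))
  filter_upwards [hrec, hcomb] with η h1 h2 hA
  obtain ⟨x, hx, e1, e2⟩ := h1 hA
  refine ⟨x, hx, ?_⟩
  rw [h2 x, e1, e2]
  ring

/-- the constant of `thick` for a weight with Bessel constant `CB` -/
noncomputable def pvktCe (q q' CB : ℝ≥0∞) (L : ℝ) : ℝ := (q'⁻¹ * (q⁻¹ * (CB * ENNReal.ofReal (Real.pi * L ^ 2)))).toReal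

theorem pvkt_eqns_cite4 : True := by
  have := @pvktCe.eq_1
  trivial

theorem pvkt_Ce_le (hq : q ≠ 0) (hq0 : q' ≠ 0) (hCB : CB ≠ ∞) {z : ℂ} {L h : ℝ} (hMs : M ⊆ Metric.closedBall z (L * h)) :
    q'⁻¹ * (q⁻¹ * (CB * volume M)) ≤ ENNReal.ofReal (pvktCe q q' CB L * h ^ 2) := by
  have hv : volume M ≤ ENNReal.ofReal (Real.pi * L ^ 2) * ENNReal.ofReal (h ^ 2) := (measure_mono hMs).trans (pvbe_vol_ball z L h)
  have hfin : q'⁻¹ * (q⁻¹ * (CB * ENNReal.ofReal (Real.pi * L ^ 2))) ≠ ∞ :=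
    ENNReal.mul_ne_top (ENNReal.inv_ne_top.2 hq0) (ENNReal.mul_ne_top (ENNReal.inv_ne_top.2 hq) (ENNReal.mul_ne_top hCB ENNReal.ofReal_ne_top))
  rw [pvktCe, ENNReal.ofReal_mul ENNReal.toReal_nonneg, ENNReal.ofReal_toReal hfin]
  calc q'⁻¹ * (q⁻¹ * (CB * volume M)) ≤ q'⁻¹ * (q⁻¹ * (CB * (ENNReal.ofReal (Real.pi * L ^ 2) * ENNReal.ofReal (h ^ 2)))) := by gcongr
    _ = _ := by ring

theorem pvkt_Ce_mono {CB' : ℝ≥0∞} (hq : q ≠ 0) (hq0 : q' ≠ 0) (hCB : CB' ≠ ∞) (h : CB ≤ CB') (L : ℝ) : pvktCe q q' CB L ≤ pvktCe q q' CB' L := by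
  unfold pvktCe
  refine ENNReal.toReal_mono ?_ (by gcongr)
  exact ENNReal.mul_ne_top (ENNReal.inv_ne_top.2 hq0) (ENNReal.mul_ne_top (ENNReal.inv_ne_top.2 hq) (ENNReal.mul_ne_top hCB ENNReal.ofReal_ne_top))

/-- the Bessel constant of the fields `Q - a V`, `‖a‖ ≤ CA` -/
noncomputable def pvktCBa (CA : ℝ) : ℝ≥0∞ := (2 + 2 * ENNReal.ofReal (CA ^ 2)) * pvbeCB

theorem pvkt_CBa_ne_top (CA : ℝ) : pvktCBa CA ≠ ∞ :=
  ENNReal.mul_ne_top (ENNReal.add_ne_top.2 ⟨by norm_num, ENNReal.mul_ne_top (by norm_num) ENNReal.ofReal_ne_top⟩) pvbe_CB_ne_top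

theorem pvkt_in_QaV {a : ℂ} {CA : ℝ} (ha : ‖a‖ ≤ CA) : PvbeIn (pvbeComb pvqWQ pvbeWV (-a)) (pvktCBa CA) := by
  refine (pvbe_in_QaV a).mono ?_
  have ha2 : ‖a‖ₑ ^ 2 ≤ ENNReal.ofReal (CA ^ 2) := by
    rw [← ofReal_norm, ← ENNReal.ofReal_pow (norm_nonneg _)]
    exact ENNReal.ofReal_le_ofReal (pow_le_pow_left₀ (norm_nonneg _) ha 2)
  unfold pvktCBa
  gcongr

theorem pvkt_eqns_cite5 : True := by
  have := @pvktCBa.eq_1
  trivial

end bes

/-! ## 6. AT THE MODEL (`Defs/TrModel`): what is left of the field `thick` when `ke` is a hybrid mean; GENERIC IN THE WEIGHT (RULING 12 of 234) -/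

section model

variable {τ : Type} {c : ℝ}

/-- **the data of the thick short link at a candidate** (level `m`, centre `z`, type `t`), ONE field.
`C` = the region whose configuration is resampled (reference plug, thick link, thick return);   `yf` = the sites whose colour is resampled (fresh for the state);   `w` = the weight of the experiment of `ke`;
`Y` = the increment of the field along the link;   `A'` = the thick return closes the cycle;   `M` = the deterministic mask (D10 of W1_208 v3 + rider of 234). -/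
structure PvktDat (τ : Type) where
  C : ℕ → ℝ → ℂ → τ → Set ℂ
  yf : ℕ → ℝ → ℂ → τ → Conf PvPt → Set ℂ
  w : ℕ → ℝ → ℂ → τ → Conf PvPt → ℝ≥0∞
  Y : ℕ → ℝ → ℂ → τ → Conf PvPt → ℂ
  A' : ℕ → ℝ → ℂ → τ → Set (Conf PvPt)
  M : ℕ → ℂ → τ → Set ℂ

/-- `ke`: the mean of the thick short link -/
noncomputable def PvktDat.ke (D : PvktDat τ) (m : ℕ) (ε : ℝ) (z : ℂ) (t : τ) (ω : PVSample) : ℂ :=
  pvdyHat ε (D.C m ε z t) (D.yf m ε z t) (D.w m ε z t) (D.Y m ε z t) (pvConf ω)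

/-- the experiment -/
noncomputable def PvktDat.R (D : PvktDat τ) (m : ℕ) (ε : ℝ) (z : ℂ) (t : τ) : Conf PvPt → (ℂ → Bool) × Conf PvPt → Conf PvPt := pvdyR (D.C m ε z t) (D.yf m ε z t)

/-- **THE LEAVES OF `thick` AT ONE CANDIDATE, ONE MESH**;   `W` = the raw summand of the field (`pvqWQ`: `Q`, `pvbeWV`: `V`, `pvbeComb pvqWQ pvbeWV (-a)`: `Q - a V`) -/
structure PvktDat.At (D : PvktDat τ) (𝔓 : PvxPar τ c) (W : Set ℂ → ℂ × ℂ → ℂ) (q q' : ℝ≥0∞) (m : ℕ) (ε : ℝ) (z : ℂ) (t : τ) : Prop where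
  mC : MeasurableSet (D.C m ε z t)
  /-- the recoloured sites are a stopping choice (frozen sites = witness), at almost every geometry -/
  stop : ∃ Ok : Set ℂ → Prop, (∀ᵐ ω ∂pvP ε, Ok (cfSites ω)) ∧ PvktStop Ok (D.yf m ε z t)
  /-- the weight has (lower) mass at most one -/
  norm : ∀ᵐ ω ∂pvP ε, ω ∈ pvConf '' pvxU 𝔓 m z t → ∫⁻ p, D.w m ε z t (D.R m ε z t ω p) ∂pvdyNu ε ≤ 1
  /-- E10: admission of the reference plug and forcing of the thick link, UNIFORM -/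
  wq : ∀ᵐ ω ∂pvP ε, D.w m ε z t ω ≤ q⁻¹
  /-- E10 for the thick return + independence -/
  ins : ∀ᵐ ω ∂pvP ε, ω ∈ pvConf '' pvxU 𝔓 m z t →
    q' * ∫⁻ p, D.w m ε z t (D.R m ε z t ω p) * ‖D.Y m ε z t (D.R m ε z t ω p)‖ₑ ^ 2 ∂pvdyNu ε
      ≤ ∫⁻ p, (D.A' m ε z t).indicator (fun η => D.w m ε z t η * ‖D.Y m ε z t η‖ₑ ^ 2) (D.R m ε z t ω p) ∂pvdyNu ε
  /-- E2 / E30: recognition with the mask -/
  recog : ∀ᵐ η ∂pvP ε, η ∈ D.A' m ε z t → D.w m ε z t η ≠ 0 → ∃ x, pvbeTag (pvktFl (𝔓.col t) η) x ∧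
    D.Y m ε z t η = pvbeLab W ((D.M m z t).indicator 1) (pvktFl (𝔓.col t) η) x

/-- **THE LEAVES OF `thick`** -/
structure PvktDat.Ok (D : PvktDat τ) (𝔓 : PvxPar τ c) (W : Set ℂ → ℂ × ℂ → ℂ) (q q' : ℝ≥0∞) (L : ℝ) : Prop where
  q0 : q ≠ 0
  q'0 : q' ≠ 0
  q't : q' ≠ ∞
  mM : ∀ m z t, MeasurableSet (D.M m z t)
  sub : ∀ m z t, D.M m z t ⊆ Metric.closedBall z (L * pvlmH m)
  ev : ∀ (m : ℕ) (p : ℤ × ℤ) (t : τ), ∀ᶠ ε in 𝓝[>] (0 : ℝ), D.At 𝔓 W q q' m ε (l9Pt (pvlmH m) p) t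

theorem pvkt_eqns_cite3 : True := by
  have := @PvktDat.ke.eq_1; have := @PvktDat.R.eq_1
  trivial

/-- **THE FIELD `thick`, GENERIC IN THE WEIGHT** (Bessel constant as a hypothesis) -/
theorem pvkt_model {D : PvktDat τ} {𝔓 : PvxPar τ c} {W : Set ℂ → ℂ × ℂ → ℂ} {q q' CB : ℝ≥0∞} {L : ℝ} (hB : PvbeIn W CB) (hCB : CB ≠ ∞) (h : D.Ok 𝔓 W q q' L) :
    ∀ (m : ℕ) (p : ℤ × ℤ) (t : τ), ∀ᶠ ε in 𝓝[>] (0 : ℝ),
    (pvhbUp ε).E ((pvMerge ⁻¹' pvxU 𝔓 m (l9Pt (pvlmH m) p) t).indicator fun x => ‖D.ke m ε (l9Pt (pvlmH m) p) t (pvMerge x)‖ₑ ^ 2) ≤ ENNReal.ofReal (pvktCe q q' CB L * pvlmH m ^ 2) := by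
  intro m p t
  filter_upwards [h.ev m p t, self_mem_nhdsWithin] with ε hA hε
  obtain ⟨Ok, hok, hS⟩ := hA.stop
  have k := pvkt_bes (B := pvConf '' pvxU 𝔓 m (l9Pt (pvlmH m) p) t) hB hε (𝔓.col t) hA.mC hok hS h.q'0 h.q't hA.norm hA.ins hA.wq
    (h.mM m _ t) (Metric.isBounded_closedBall.subset (h.sub m _ t)) hA.recog
  refine (((pvhbUp ε).mono fun x => ?_).trans k).trans (pvkt_Ce_le h.q0 h.q'0 hCB (h.sub m _ t))
  by_cases hx : x ∈ pvMerge ⁻¹' pvxU 𝔓 m (l9Pt (pvlmH m) p) t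
  · have hx' : pvConf (pvMerge x) ∈ pvConf '' pvxU 𝔓 m (l9Pt (pvlmH m) p) t := ⟨pvMerge x, hx, rfl⟩
    rw [indicator_of_mem hx, indicator_of_mem hx']
    exact le_rfl
  · rw [indicator_of_notMem hx]; exact zero_le

/-- the same for ANY `ke` which agrees with `D.ke` at the usable candidates (`pvkt_hat_congr`: `D` = the experiment of `ke` ENLARGED by the resources of the return link) -/
theorem pvkt_model_of {D : PvktDat τ} {𝔓 : PvxPar τ c} {W : Set ℂ → ℂ × ℂ → ℂ} {q q' CB : ℝ≥0∞} {L : ℝ} (hB : PvbeIn W CB) (hCB : CB ≠ ∞) (h : D.Ok 𝔓 W q q' L)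
    {ke : ℕ → ℝ → ℂ → τ → PVSample → ℂ}
    (hke : ∀ (m : ℕ) (p : ℤ × ℤ) (t : τ), ∀ᶠ ε in 𝓝[>] (0 : ℝ), ∀ ω ∈ pvxU 𝔓 m (l9Pt (pvlmH m) p) t, ke m ε (l9Pt (pvlmH m) p) t ω = D.ke m ε (l9Pt (pvlmH m) p) t ω) :
    ∀ (m : ℕ) (p : ℤ × ℤ) (t : τ), ∀ᶠ ε in 𝓝[>] (0 : ℝ),
    (pvhbUp ε).E ((pvMerge ⁻¹' pvxU 𝔓 m (l9Pt (pvlmH m) p) t).indicator fun x => ‖ke m ε (l9Pt (pvlmH m) p) t (pvMerge x)‖ₑ ^ 2) ≤ ENNReal.ofReal (pvktCe q q' CB L * pvlmH m ^ 2) := by
  intro m p t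
  filter_upwards [pvkt_model hB hCB h m p t, hke m p t] with ε h1 h2
  refine le_trans (le_of_eq ?_) h1
  congr 1
  funext x
  by_cases hx : x ∈ pvMerge ⁻¹' pvxU 𝔓 m (l9Pt (pvlmH m) p) t
  · rw [indicator_of_mem hx, indicator_of_mem hx, h2 _ hx]
  · rw [indicator_of_notMem hx, indicator_of_notMem hx]

/-- **THE FIELD `thick` OF `PvxAna`** (a-form, verbatim) for `ke m ε a := (D a).ke m ε`, `Ce := pvktCe q q' (pvktCBa CA) L` -/
theorem pvkt_model_a {D : ℂ → PvktDat τ} {𝔓 : PvxPar τ c} {q q' : ℝ≥0∞} {L : ℝ} (h : ∀ a, (D a).Ok 𝔓 (pvbeComb pvqWQ pvbeWV (-a)) q q' L) (CA : ℝ) :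
    ∀ (a : ℂ), ‖a‖ ≤ CA → ∀ (m : ℕ) (p : ℤ × ℤ) (t : τ), ∀ᶠ ε in 𝓝[>] (0 : ℝ),
    (pvhbUp ε).E ((pvMerge ⁻¹' pvxU 𝔓 m (l9Pt (pvlmH m) p) t).indicator fun x => ‖(D a).ke m ε (l9Pt (pvlmH m) p) t (pvMerge x)‖ₑ ^ 2) ≤ ENNReal.ofReal (pvktCe q q' (pvktCBa CA) L * pvlmH m ^ 2) :=
  fun a ha => pvkt_model (pvkt_in_QaV ha) (pvkt_CBa_ne_top CA) (h a)

/-- the field `Q` alone (RULING 12 / H2) -/
theorem pvkt_model_Q {D : PvktDat τ} {𝔓 : PvxPar τ c} {q q' : ℝ≥0∞} {L : ℝ} (h : D.Ok 𝔓 pvqWQ q q' L) :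
    ∀ (m : ℕ) (p : ℤ × ℤ) (t : τ), ∀ᶠ ε in 𝓝[>] (0 : ℝ),
    (pvhbUp ε).E ((pvMerge ⁻¹' pvxU 𝔓 m (l9Pt (pvlmH m) p) t).indicator fun x => ‖D.ke m ε (l9Pt (pvlmH m) p) t (pvMerge x)‖ₑ ^ 2) ≤ ENNReal.ofReal (pvktCe q q' pvbeCB L * pvlmH m ^ 2) :=
  pvkt_model pvbe_in_Q' pvbe_CB_ne_top h

/-- the field `V` alone (for `cV_L2` of 283) -/
theorem pvkt_model_V {D : PvktDat τ} {𝔓 : PvxPar τ c} {q q' : ℝ≥0∞} {L : ℝ} (h : D.Ok 𝔓 pvbeWV q q' L) :
    ∀ (m : ℕ) (p : ℤ × ℤ) (t : τ), ∀ᶠ ε in 𝓝[>] (0 : ℝ),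
    (pvhbUp ε).E ((pvMerge ⁻¹' pvxU 𝔓 m (l9Pt (pvlmH m) p) t).indicator fun x => ‖D.ke m ε (l9Pt (pvlmH m) p) t (pvMerge x)‖ₑ ^ 2) ≤ ENNReal.ofReal (pvktCe q q' pvbeCB L * pvlmH m ^ 2) :=
  pvkt_model pvbe_in_V pvbe_CB_ne_top h

end model

end Claimed.Agent.R289
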