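import Claimed.Agent.R289.Tr.BuNorm
import Claimed.Agent.R289.Tr.InstL

/-!
# Row 289 (S0537), THE WALL, file Tr/BuNormL : LEAF (K2) OF `thick` AT THE NAMES OF `Tr/InstL` (168)      (helper103; prefix `pvkt_`)

The weight of the thick link with its integrated reference plug, `pvilW1e 𝔓 𝔈 m ε z t e η = pvieGr 𝔈 m ε zu (pvkyFl b η) * pvdyW ε e.K e.y e.A η`, along ANY larger experiment `R p = pvdyR C (fun _ => y) ω p`.      Everything PROVED (0 sorry).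
NO measurability of `𝔈.rG m ε`, of `e.A`:   asked of the engine: `Conf.Reads (𝔈.rO m ×ˢ univ) (· ∈ 𝔈.rG m ε)`, four inclusions of regions.
* sec. 1  `pvkt_ind_div_mass`, `pvkt_fl_outer`, the placed plug `pvktGs 𝔈 m ε z₀ b` (`= {η | the reference plug placed at z₀ is usable, colour b}`): `pvkt_gr_eq`, **`pvkt_gr_reads`**, **`pvkt_gr_mass`** (`≤ 1`, no hypothesis), `pvkt_gr_le`.
* sec. 2  **`pvkt_W1e_norm`** = the field `norm` of `PvekDat.At` (EVERY base `ω`),   **`pvkt_W1e_bd`** = the field `bd` from admission `b0 ≤ pvP ε (𝔈.rG m ε)` and the forcing line of (K5).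
-/

set_option autoImplicit false

namespace Claimed.Agent.R289

open MeasureTheory ProbabilityTheory Set Filter Topology Claims.C0465
open scoped ENNReal

/-! ## 1. the weight of the reference plug -/

section plug

/-- the lower mass of `1_S / c` is at most one as soon as the OUTER measure of `S` is `≤ c` -/
theorem pvkt_ind_div_mass {α : Type*} [MeasurableSpace α] (μ : Measure α) (S : Set α) {c : ℝ≥0∞} (h : μ S ≤ c) : ∫⁻ x, S.indicator 1 x / c ∂μ ≤ 1 := by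
  by_cases h0 : c = 0
  · have hn : μ S = 0 := le_antisymm (h.trans (le_of_eq h0)) zero_le
    have hz : ∀ᵐ x ∂μ, S.indicator (1 : α → ℝ≥0∞) x / c = 0 := by
      filter_upwards [measure_eq_zero_iff_ae_notMem.1 hn] with x hx
      rw [indicator_of_notMem hx, ENNReal.zero_div]
    rw [lintegral_congr_ae hz]
    simp
  have e : ∀ x, S.indicator (1 : α → ℝ≥0∞) x / c = c⁻¹ * S.indicator (1 : α → ℝ≥0∞) x := fun x => ENNReal.div_eq_inv_mul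
  simp only [e]
  rw [lintegral_const_mul' _ _ (ENNReal.inv_ne_top.2 h0)]
  calc c⁻¹ * ∫⁻ x, S.indicator (1 : α → ℝ≥0∞) x ∂μ ≤ c⁻¹ * c := by gcongr; exact (lintegral_indicator_one_le S).trans h
    _ ≤ 1 := ENNReal.inv_mul_le_one c

/-- the OUTER measure does not grow under the colour flip -/
theorem pvkt_fl_outer (ε : ℝ) (b : Bool) (S : Set (Conf PvPt)) : pvP ε (pvkyFl b ⁻¹' S) ≤ pvP ε S := by
  have mf : Measurable (pvkyFl b) := by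
    cases b
    · exact measurable_cfFlip
    · exact measurable_id
  calc pvP ε (pvkyFl b ⁻¹' S) ≤ pvP ε (pvkyFl b ⁻¹' toMeasurable (pvP ε) S) := measure_mono (preimage_mono (subset_toMeasurable _ _))
    _ = (pvP ε).map (pvkyFl b) (toMeasurable (pvP ε) S) := (Measure.map_apply mf (measurableSet_toMeasurable _ _)).symm
    _ = pvP ε S := by rw [pvky_fl_map, measure_toMeasurable]

variable {τ : Type} (𝔈 : PvieEng τ)

/-- the reference plug placed at `z₀` is usable, colour `b` -/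
def pvktGs (m : ℕ) (ε : ℝ) (z₀ : ℂ) (b : Bool) : Set (Conf PvPt) := {η | cfMap (pvthInv z₀ 1) (pvkyFl b η) ∈ 𝔈.rG m ε}

theorem pvkt_eqns_cite7 : True := by
  have := @pvktGs.eq_1
  trivial

theorem pvkt_gr_eq (m : ℕ) (ε : ℝ) (z₀ : ℂ) (b : Bool) (η : Conf PvPt) : pvieGr 𝔈 m ε z₀ (pvkyFl b η) = (pvktGs 𝔈 m ε z₀ b).indicator 1 η / pvP ε (𝔈.rG m ε) := rfl

theorem pvkt_sh_pre (z₀ : ℂ) (S : Set ℂ) : (pvieSh z₀ S ×ˢ univ : Set PvPt) = Prod.map (pvthInv z₀ 1) id ⁻¹' (S ×ˢ univ) := by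
  ext ⟨p, c⟩
  simp only [mem_prod, mem_univ, and_true, mem_preimage, Prod.map, pvieSh, mem_image, pvthInv, div_one]
  constructor
  · rintro ⟨w, hw, rfl⟩
    simpa using hw
  · intro h
    exact ⟨p - z₀, h, by ring⟩

variable {𝔈}

/-- the usable states of the placed plug are read in the placed region -/
theorem pvkt_Gs_reads {m : ℕ} {ε : ℝ} (hr : Conf.Reads (𝔈.rO m ×ˢ univ) fun η => η ∈ 𝔈.rG m ε) (z₀ : ℂ) (b : Bool) :
    Conf.Reads (pvieSh z₀ (𝔈.rO m) ×ˢ univ) fun η => η ∈ pvktGs 𝔈 m ε z₀ b := by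
  intro η
  have h1 := pvth_reads_map (g := pvthInv z₀ 1) hr
  rw [← pvkt_sh_pre] at h1
  show (cfMap (pvthInv z₀ 1) (pvkyFl b (Conf.restr (pvieSh z₀ (𝔈.rO m) ×ˢ univ) η)) ∈ 𝔈.rG m ε) = (cfMap (pvthInv z₀ 1) (pvkyFl b η) ∈ 𝔈.rG m ε)
  rw [← pvky_fl_restr]
  exact h1 (pvkyFl b η)

/-- **the weight of the placed reference plug reads the placed region** -/
theorem pvkt_gr_reads {m : ℕ} {ε : ℝ} (hr : Conf.Reads (𝔈.rO m ×ˢ univ) fun η => η ∈ 𝔈.rG m ε) (z₀ : ℂ) (b : Bool) :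
    Conf.Reads (pvieSh z₀ (𝔈.rO m) ×ˢ univ) fun η => pvieGr 𝔈 m ε z₀ (pvkyFl b η) :=
  (pvti_ind_reads (pvkt_Gs_reads hr z₀ b)).comp fun x => x / pvP ε (𝔈.rG m ε)

variable (𝔈)

theorem pvkt_Gs_outer (m : ℕ) (ε : ℝ) (z₀ : ℂ) (b : Bool) : pvP ε (pvktGs 𝔈 m ε z₀ b) ≤ pvP ε (𝔈.rG m ε) := by
  refine (pvkt_fl_outer ε b (cfMap (pvthInv z₀ 1) ⁻¹' 𝔈.rG m ε)).trans (le_of_eq ?_)
  exact pvci_measure_T (pvciAff 1 z₀ one_ne_zero) (pvci_law_frame z₀ 1 (by simp) ε) (𝔈.rG m ε)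

/-- **the (lower) mass of the weight of the placed reference plug is at most one**: NO hypothesis -/
theorem pvkt_gr_mass (m : ℕ) (ε : ℝ) (z₀ : ℂ) (b : Bool) : ∫⁻ η, pvieGr 𝔈 m ε z₀ (pvkyFl b η) ∂pvP ε ≤ 1 := by
  simp only [pvkt_gr_eq]
  exact pvkt_ind_div_mass _ _ (pvkt_Gs_outer 𝔈 m ε z₀ b)

variable {𝔈}

/-- admission bounds the weight -/
theorem pvkt_gr_le {m : ℕ} {ε : ℝ} {b0 : ℝ≥0∞} (hb : b0 ≤ pvP ε (𝔈.rG m ε)) (z₀ : ℂ) (b : Bool) (η : Conf PvPt) :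
    pvieGr 𝔈 m ε z₀ (pvkyFl b η) ≤ b0⁻¹ * (pvktGs 𝔈 m ε z₀ b).indicator 1 η := by
  rw [pvkt_gr_eq, ENNReal.div_eq_inv_mul]
  exact mul_le_mul' (ENNReal.inv_le_inv.2 hb) le_rfl

end plug

/-! ## 2. the fields `norm`, `bd` for `pvilW1e` -/

section W1e

variable {τ : Type} {c : ℝ} {𝔓 : PvxPar τ c} {𝔈 : PvieEng τ} {m : ℕ} {ε : ℝ} {z : ℂ} {t : τ} {e : PvkyEnd} {C y ye : Set ℂ}

/-- **THE FIELD `norm`** for the weight of record of the thick link, along ANY larger experiment with constant fresh set, at EVERY base -/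
theorem pvkt_W1e_norm (hr : Conf.Reads (𝔈.rO m ×ˢ univ) fun η => η ∈ 𝔈.rG m ε) (he : e.y = fun _ => ye) (mK : MeasurableSet e.K) (hKC : e.K ⊆ C)
    (hye : ∀ v ∈ ye, v ∉ e.K → v ∉ C ∧ v ∈ y) (hOC : pvieSh (pvieZu 𝔓 m z t) (𝔈.rO m) ⊆ C) (hOK : Disjoint (pvieSh (pvieZu 𝔓 m z t) (𝔈.rO m)) e.K) (ω : Conf PvPt) :
    ∫⁻ p, pvilW1e 𝔓 𝔈 m ε z t e (pvdyR C (fun _ => y) ω p) ∂pvdyNu ε ≤ 1 := by
  unfold pvilW1e
  rw [he]
  exact pvkt_norm_plug (g := fun η => pvieGr 𝔈 m ε (pvieZu 𝔓 m z t) (pvkyFl (𝔓.col t) η)) ε mK hKC hye e.A (pvkt_gr_reads hr _ _) hOC hOK (pvkt_gr_mass 𝔈 m ε _ _) ω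

/-- **THE FIELD `bd`** from admission and the forcing line of (K5) -/
theorem pvkt_W1e_bd {b0 q : ℝ≥0∞} (hb : b0 ≤ pvP ε (𝔈.rG m ε)) {yf : Conf PvPt → Set ℂ} {ω : Conf PvPt}
    (hq : ∀ᵐ p ∂pvdyNu ε, pvdyR C yf ω p ∈ pvktGs 𝔈 m ε (pvieZu 𝔓 m z t) (𝔓.col t) → q ≤ pvdyQ ε e.K e.y e.A (pvdyR C yf ω p)) :
    ∀ᵐ p ∂pvdyNu ε, pvilW1e 𝔓 𝔈 m ε z t e (pvdyR C yf ω p) ≤ b0⁻¹ * q⁻¹ * (pvktGs 𝔈 m ε (pvieZu 𝔓 m z t) (𝔓.col t) ∩ e.A).indicator 1 (pvdyR C yf ω p) :=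
  pvkt_bd_plug (g := fun η => pvieGr 𝔈 m ε (pvieZu 𝔓 m z t) (pvkyFl (𝔓.col t) η)) (fun η => pvkt_gr_le hb _ _ η) hq

end W1e

end Claimed.Agent.R289
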