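-- KEEP
import Claimed.Agent.R289.Tr.InstEKS
import Claimed.Agent.R289.Exit.Thick

/-!
# Row 289 (S0537), THE WALL, ROAD E, file Tr/InstEKU : (K3) THE FIELD `ins` OF `PvekDat.At` IN THE UPPER FORM OF 87      (helper99; prefix `pvks_`, continuation of `Tr/InstEKS`)

`R p = pvdyR C (fun _ => y) ω p`.   `A`, `Y` read a window `Wn` which misses the atom `(cK, yc)` of the return link;   NO measurability of `A A' Y`;   forcing in OUTER measure, at almost every seed.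
* `pvks_ins_up`   mix form of the forcing line
* `pvks_ins_upQ`  the forcing line is `q' ≤ pvdyQ ε cK (fun _ => yc) A' (R p)` (the line of (K5))
* `pvks_ins_field`  a.e. base: the field `ins` verbatim, base indexed (`ι`, `β`);   `pvks_ins_At` the same at `D : PvekDat τ`
-/

set_option autoImplicit false

namespace Claimed.Agent.R289

open Set MeasureTheory Filter Topology Claims.C0465
open scoped ENNReal

section up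

variable {C y cK yc Wn : Set ℂ} {Y : Conf PvPt → ℂ} {A A' : Set (Conf PvPt)} {ω : Conf PvPt} {q' : ℝ≥0∞}

/-- the integrand of `ins` reads the window -/
theorem pvks_ind_reads (hA : Conf.ReadsSet (Wn ×ˢ univ) A) (hY : Conf.Reads (Wn ×ˢ univ) Y) : Conf.Reads (Wn ×ˢ univ) (A.indicator fun η => ‖Y η‖ₑ ^ 2) := by
  intro η
  by_cases h : η ∈ A
  · rw [indicator_of_mem h, indicator_of_mem ((hA η).2 h), hY η]
  · rw [indicator_of_notMem h, indicator_of_notMem (fun hh => h ((hA η).1 hh))]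

/-- **(K3) THE FIELD `ins`, UPPER FORM, mix form of the forcing line** -/
theorem pvks_ins_up (ε : ℝ) (hC : MeasurableSet C) (hc : (cfSites ω).Countable) (hK : MeasurableSet cK) (hA : Conf.ReadsSet (Wn ×ˢ univ) A) (hY : Conf.Reads (Wn ×ˢ univ) Y)
    (d1 : Disjoint Wn cK) (d2 : Disjoint Wn yc)
    (hq : ∀ᵐ p ∂pvdyNu ε, pvdyR C (fun _ => y) ω p ∈ A → q' ≤ pvdyNu ε {p' | pvdyR C (fun _ => y) ω (pvksMix cK yc (p, p')) ∈ A'})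
    {G : Conf PvPt → ℝ≥0∞} (mG : Measurable G) (hG : ∀ η, η ∈ A → η ∈ A' → ‖Y η‖ₑ ^ 2 ≤ G η) :
    q' * ∫⁻ p, A.indicator (fun η => ‖Y η‖ₑ ^ 2) (pvdyR C (fun _ => y) ω p) ∂pvdyNu ε ≤ ∫⁻ p, G (pvdyR C (fun _ => y) ω p) ∂pvdyNu ε := by
  refine pvek_insert_up (ν := pvdyNu ε) (pvks_mix_measurable hK yc) (pvks_mix_law ε hK yc) (φ := fun p => A.indicator (fun η => ‖Y η‖ₑ ^ 2) (pvdyR C (fun _ => y) ω p))
    (G := fun p => G (pvdyR C (fun _ => y) ω p)) (A2 := {p | pvdyR C (fun _ => y) ω p ∈ A'}) (mG.comp (pvdy_measurable_R hC _ hc)) ?_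
    (fun p p' => pvks_reads_mix (pvks_ind_reads hA hY) d1 d2 ω p p') (hq.mono fun p hp h0 => hp (by by_contra hh; exact h0 (indicator_of_notMem hh _)))
  intro p hp
  by_cases h : pvdyR C (fun _ => y) ω p ∈ A
  · simp only [indicator_of_mem h]; exact hG _ h hp
  · simp only [indicator_of_notMem h]; exact zero_le

/-- **(K3) THE FIELD `ins`, UPPER FORM, from the line of (K5)** -/
theorem pvks_ins_upQ {ε : ℝ} (hε : 0 < ε) (hC : MeasurableSet C) (hc : (cfSites ω).Countable) (hK : MeasurableSet cK) (hA : Conf.ReadsSet (Wn ×ˢ univ) A) (hY : Conf.Reads (Wn ×ˢ univ) Y)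
    (d1 : Disjoint Wn cK) (d2 : Disjoint Wn yc) (hKC : cK ⊆ C) (hy : yc ⊆ y) (hd : ∀ z ∈ yc, z ∈ C → z ∈ cK)
    (hq : ∀ᵐ p ∂pvdyNu ε, pvdyR C (fun _ => y) ω p ∈ A → q' ≤ pvdyQ ε cK (fun _ => yc) A' (pvdyR C (fun _ => y) ω p))
    {G : Conf PvPt → ℝ≥0∞} (mG : Measurable G) (hG : ∀ η, η ∈ A → η ∈ A' → ‖Y η‖ₑ ^ 2 ≤ G η) :
    q' * ∫⁻ p, A.indicator (fun η => ‖Y η‖ₑ ^ 2) (pvdyR C (fun _ => y) ω p) ∂pvdyNu ε ≤ ∫⁻ p, G (pvdyR C (fun _ => y) ω p) ∂pvdyNu ε := by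
  refine pvks_ins_up ε hC hc hK hA hY d1 d2 ?_ mG hG
  filter_upwards [hq, pvks_fn_ae hε] with p h1 h2 h0
  rw [← pvks_Q_mix ε hKC hy hd A' ω h2]
  exact h1 h0

end up

/-! ## the field, base indexed -/

section field

variable {ι : Type} {C : Set ℂ} {ε : ℝ} {β : Conf PvPt → ι} {y cK yc Wn : ι → Set ℂ} {Y : ι → Conf PvPt → ℂ} {A A' : ι → Set (Conf PvPt)} {B : Set (Conf PvPt)} {q' : ℝ≥0∞}

/-- **THE HYPOTHESIS `hins` OF `pvek_up` / THE FIELD `PvekDat.At.ins` VERBATIM**.      All the deterministic lines are asked AT THE BASE DATA OF A GOOD BASE ONLY;   `hq` = the line of (K5): at a good base, at almost every seed, on `A` the return link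
has conditional probability `≥ q'` given what its atom `(cK, yc)` keeps. -/
theorem pvks_ins_field (hε : 0 < ε) (hC : MeasurableSet C)
    (hK : ∀ ω ∈ B, MeasurableSet (cK (β ω))) (hA : ∀ ω ∈ B, Conf.ReadsSet (Wn (β ω) ×ˢ univ) (A (β ω))) (hY : ∀ ω ∈ B, Conf.Reads (Wn (β ω) ×ˢ univ) (Y (β ω)))
    (d1 : ∀ ω ∈ B, Disjoint (Wn (β ω)) (cK (β ω))) (d2 : ∀ ω ∈ B, Disjoint (Wn (β ω)) (yc (β ω))) (hKC : ∀ ω ∈ B, cK (β ω) ⊆ C) (hy : ∀ ω ∈ B, yc (β ω) ⊆ y (β ω))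
    (hd : ∀ ω ∈ B, ∀ z ∈ yc (β ω), z ∈ C → z ∈ cK (β ω))
    (hq : ∀ᵐ ω ∂pvP ε, ω ∈ B → ∀ᵐ p ∂pvdyNu ε, pvdyR C (fun _ => y (β ω)) ω p ∈ A (β ω) → q' ≤ pvdyQ ε (cK (β ω)) (fun _ => yc (β ω)) (A' (β ω)) (pvdyR C (fun _ => y (β ω)) ω p)) :
    ∀ᵐ ω ∂pvP ε, ω ∈ B → ∀ G : Conf PvPt → ℝ≥0∞, Measurable G → (∀ η, η ∈ A (β ω) → η ∈ A' (β ω) → ‖Y (β ω) η‖ₑ ^ 2 ≤ G η) →
      q' * ∫⁻ p, (A (β ω)).indicator (fun η => ‖Y (β ω) η‖ₑ ^ 2) (pvdyR C (fun _ => y (β ω)) ω p) ∂pvdyNu ε ≤ ∫⁻ p, G (pvdyR C (fun _ => y (β ω)) ω p) ∂pvdyNu ε := by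
  filter_upwards [hq, pvcn_LF_ae ε] with ω h1 h2 hω G mG hG
  exact pvks_ins_upQ hε hC (pvdy_countable_of_LF h2) (hK ω hω) (hA ω hω) (hY ω hω) (d1 ω hω) (d2 ω hω) (hKC ω hω) (hy ω hω) (hd ω hω) (h1 hω) mG hG

/-- the same AT THE DATA `D : PvekDat τ`: the field `PvekDat.At.ins` -/
theorem pvks_ins_At {τ : Type} {c : ℝ} (D : PvekDat τ) (𝔓 : PvxPar τ c) {q' : ℝ≥0∞} {m : ℕ} {ε : ℝ} {z : ℂ} {t : τ} {cK yc Wn : D.ι → Set ℂ} (hε : 0 < ε) (hC : MeasurableSet (D.C m ε z t))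
    (hK : ∀ ω ∈ D.B 𝔓 m ε z t, MeasurableSet (cK (D.β m ε z t ω))) (hA : ∀ ω ∈ D.B 𝔓 m ε z t, Conf.ReadsSet (Wn (D.β m ε z t ω) ×ˢ univ) (D.A m ε z t (D.β m ε z t ω)))
    (hY : ∀ ω ∈ D.B 𝔓 m ε z t, Conf.Reads (Wn (D.β m ε z t ω) ×ˢ univ) (D.Y m ε z t (D.β m ε z t ω)))
    (d1 : ∀ ω ∈ D.B 𝔓 m ε z t, Disjoint (Wn (D.β m ε z t ω)) (cK (D.β m ε z t ω))) (d2 : ∀ ω ∈ D.B 𝔓 m ε z t, Disjoint (Wn (D.β m ε z t ω)) (yc (D.β m ε z t ω)))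
    (hKC : ∀ ω ∈ D.B 𝔓 m ε z t, cK (D.β m ε z t ω) ⊆ D.C m ε z t) (hy : ∀ ω ∈ D.B 𝔓 m ε z t, yc (D.β m ε z t ω) ⊆ D.y m ε z t (D.β m ε z t ω))
    (hd : ∀ ω ∈ D.B 𝔓 m ε z t, ∀ x ∈ yc (D.β m ε z t ω), x ∈ D.C m ε z t → x ∈ cK (D.β m ε z t ω))
    (hq : ∀ᵐ ω ∂pvP ε, ω ∈ D.B 𝔓 m ε z t → ∀ᵐ p ∂pvdyNu ε, D.R m ε z t ω p ∈ D.A m ε z t (D.β m ε z t ω) →
      q' ≤ pvdyQ ε (cK (D.β m ε z t ω)) (fun _ => yc (D.β m ε z t ω)) (D.A' m ε z t (D.β m ε z t ω)) (D.R m ε z t ω p)) :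
    ∀ᵐ ω ∂pvP ε, ω ∈ D.B 𝔓 m ε z t → ∀ G : Conf PvPt → ℝ≥0∞, Measurable G →
      (∀ η, η ∈ D.A m ε z t (D.β m ε z t ω) → η ∈ D.A' m ε z t (D.β m ε z t ω) → ‖D.Y m ε z t (D.β m ε z t ω) η‖ₑ ^ 2 ≤ G η) →
      q' * ∫⁻ p, (D.A m ε z t (D.β m ε z t ω)).indicator (fun η => ‖D.Y m ε z t (D.β m ε z t ω) η‖ₑ ^ 2) (D.R m ε z t ω p) ∂pvdyNu ε ≤ ∫⁻ p, G (D.R m ε z t ω p) ∂pvdyNu ε :=
  pvks_ins_field (β := D.β m ε z t) (y := D.y m ε z t) (Y := D.Y m ε z t) (A := D.A m ε z t) (A' := D.A' m ε z t) hε hC hK hA hY d1 d2 hKC hy hd hq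

end field

end Claimed.Agent.R289
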