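-- KEEP
import Claimed.Agent.R289.Tr.InstEKU
import Claimed.Agent.R289.Tr.BuNormL

/-!
# Row 289 (S0537), THE WALL, ROAD E, file Tr/InstEKL : (K3) `ins` + (ENL) AT THE NAMES OF `Tr/InstL` (168)      (helper99; prefix `pvks_`)

The thick link at base data `e = pvilEe 𝔓 𝔈 m ε w z t Z F`, its window `Wn = pvilWne 𝔓 𝔈 m z t Z`, the weight of record `pvilW1e 𝔓 𝔈 m ε z t e`, the placed reference plug `pvktGs 𝔈 m ε zu b` (103).      Everything PROVED (0 sorry).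
Asked of the engine: `hr : Conf.Reads (𝔈.rO m ×ˢ univ) (· ∈ 𝔈.rG m ε)` only.      `(cK, yc)` = the atom of the return link = ANY pair of sets which miss the window.
* sec. 1  readers of the window (InstL v2.1: `pvks_fin_reads`, `pvks_fin_measurable`, `pvks_SA_reads`): `pvks_Ee_A_reads` (`pvks_Eo_A_reads`, `pvks_Ei_A_reads`), `pvks_Ee_X_reads`, `pvks_Gs_reads`, `pvks_GA_reads`, `pvks_W1e_reads`
* sec. 2  **`pvks_Ke_enl`** (ENL): `pvilKeW` = the hybrid mean of the SAME weight and value in the experiment enlarged by the atom, POINTWISE in the sample;   `pvks_Ke_enl'` (any `C`, `y` which agree with those of record on the window)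
* sec. 3  **`pvks_Ke_ins`**: the inequality of the field `ins` (upper form of 87) with `A := pvktGs ∩ e.A`, `Y := e.X`, at one base
-/

set_option autoImplicit false

namespace Claimed.Agent.R289

open Set MeasureTheory Filter Topology Claims.C0465
open scoped ENNReal

section names

variable {τ : Type} {c : ℝ} (𝔓 : PvxPar τ c) (𝔈 : PvieEng τ) (m : ℕ) (ε : ℝ) (w : ∀ η : Conf PvPt, (delbPl (pvieY η)).Dart → ℂ) (z : ℂ) (t : τ) (Z : Set (ℤ × ℤ)) (F : Set ℂ)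

/-! ## 1. readers -/

/-- the guard `pvilFin` (InstL v2.1) keeps readers -/
theorem pvks_fin_reads {W : Set PvPt} {A : Set (Conf PvPt)} (Z : Set (ℤ × ℤ)) (h : Conf.ReadsSet W A) : Conf.ReadsSet W (pvilFin Z A) := by
  unfold pvilFin
  split_ifs
  · exact h
  · exact fun _ => Iff.rfl

/-- the guard keeps measurability -/
theorem pvks_fin_measurable {A : Set (Conf PvPt)} (Z : Set (ℤ × ℤ)) (h : MeasurableSet A) : MeasurableSet (pvilFin Z A) := by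
  unfold pvilFin
  split_ifs
  · exact h
  · exact MeasurableSet.empty

/-- the success `pvilSA` (InstL v2.1) reads its window -/
theorem pvks_SA_reads (ε : ℝ) (Wn : Set ℂ) (M : Set (Conf PvPt)) (X : Conf PvPt → ℂ) : Conf.ReadsSet (Wn ×ˢ univ) (pvilSA ε Wn M X) :=
  Conf.readsSet_iff_reads.2 (pvsu_sure_reads (pvP ε) (Wn ×ˢ univ) _)

theorem pvks_Ee_A_reads : Conf.ReadsSet (pvilWne 𝔓 𝔈 m z t Z ×ˢ univ) (pvilEe 𝔓 𝔈 m ε w z t Z F).A :=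
  pvks_fin_reads Z (pvks_SA_reads ε _ _ _)

theorem pvks_Eo_A_reads : Conf.ReadsSet (pvilWno 𝔓 𝔈 m ε z t Z ×ˢ univ) (pvilEo 𝔓 𝔈 m ε w z t Z F).A :=
  pvks_fin_reads Z (pvks_SA_reads ε _ _ _)

theorem pvks_Ei_A_reads : Conf.ReadsSet (pvilWni 𝔓 𝔈 m ε z t Z ×ˢ univ) (pvilEi 𝔓 𝔈 m ε w z t Z F).A :=
  pvks_fin_reads Z (pvks_SA_reads ε _ _ _)

theorem pvks_Ee_X_reads : Conf.Reads (pvilWne 𝔓 𝔈 m z t Z ×ˢ univ) (pvilEe 𝔓 𝔈 m ε w z t Z F).X :=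
  pvsu_loc_reads (pvP ε) (pvilWne 𝔓 𝔈 m z t Z ×ˢ univ) _

theorem pvks_rO_sub_Wne : (pvieSh (pvieZu 𝔓 m z t) (𝔈.rO m) ×ˢ univ : Set PvPt) ⊆ pvilWne 𝔓 𝔈 m z t Z ×ˢ univ :=
  prod_mono subset_union_right le_rfl

variable {𝔈 m ε}

theorem pvks_Gs_reads (hr : Conf.Reads (𝔈.rO m ×ˢ univ) fun η => η ∈ 𝔈.rG m ε) : Conf.ReadsSet (pvilWne 𝔓 𝔈 m z t Z ×ˢ univ) (pvktGs 𝔈 m ε (pvieZu 𝔓 m z t) (𝔓.col t)) :=
  Conf.readsSet_iff_reads.2 ((pvkt_Gs_reads hr _ _).mono (pvks_rO_sub_Wne 𝔓 𝔈 m z t Z))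

/-- `A` of record: the placed reference plug is usable and the thick link succeeds -/
theorem pvks_GA_reads (hr : Conf.Reads (𝔈.rO m ×ˢ univ) fun η => η ∈ 𝔈.rG m ε) :
    Conf.ReadsSet (pvilWne 𝔓 𝔈 m z t Z ×ˢ univ) (pvktGs 𝔈 m ε (pvieZu 𝔓 m z t) (𝔓.col t) ∩ (pvilEe 𝔓 𝔈 m ε w z t Z F).A) :=
  (pvks_Gs_reads 𝔓 z t Z hr).inter (pvks_Ee_A_reads 𝔓 𝔈 m ε w z t Z F)

/-- the weight of record reads the window -/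
theorem pvks_W1e_reads (hr : Conf.Reads (𝔈.rO m ×ˢ univ) fun η => η ∈ 𝔈.rG m ε) :
    Conf.Reads (pvilWne 𝔓 𝔈 m z t Z ×ˢ univ) (pvilW1e 𝔓 𝔈 m ε z t (pvilEe 𝔓 𝔈 m ε w z t Z F)) := by
  intro η
  unfold pvilW1e
  have h1 : pvieGr 𝔈 m ε (pvieZu 𝔓 m z t) (pvkyFl (𝔓.col t) (Conf.restr (pvilWne 𝔓 𝔈 m z t Z ×ˢ univ) η)) = pvieGr 𝔈 m ε (pvieZu 𝔓 m z t) (pvkyFl (𝔓.col t) η) :=
    ((pvkt_gr_reads hr (pvieZu 𝔓 m z t) (𝔓.col t)).mono (pvks_rO_sub_Wne 𝔓 𝔈 m z t Z)) η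
  rw [h1]
  congr 1
  exact pvks_W_reads ε _ _ (pvks_Ee_A_reads 𝔓 𝔈 m ε w z t Z F) η

/-! ## 2. (ENL) -/

/-- **(ENL)** any experiment `(C, y)` which agrees on the window with the experiment of record of `ke` -/
theorem pvks_Ke_enl' (hr : Conf.Reads (𝔈.rO m ×ˢ univ) fun η => η ∈ 𝔈.rG m ε) (ω : PVSample) {C y : Set ℂ}
    (hC : ∀ x ∈ pvilWne 𝔓 𝔈 m z t (pvilZi 𝔓 m z t (pvConf ω)), (x ∈ C ↔ x ∈ pvieSh z (𝔈.eK m t) ∪ pvieSh (pvieZu 𝔓 m z t) (𝔈.rO m)))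
    (hy : ∀ x ∈ pvilWne 𝔓 𝔈 m z t (pvilZi 𝔓 m z t (pvConf ω)), (x ∈ y ↔ x ∈ pvieSh z (𝔈.eM m t) \ pvilFi 𝔓 m z t (pvConf ω))) :
    pvilKeW 𝔓 𝔈 w m ε z t ω = pvdyHat ε C (fun _ => y) (pvilW1e 𝔓 𝔈 m ε z t (pvilEeAt 𝔓 𝔈 m ε w z t (pvConf ω))) (pvilEeAt 𝔓 𝔈 m ε w z t (pvConf ω)).X (pvConf ω) :=
  (pvks_hat_drop ε (pvks_W1e_reads 𝔓 w z t _ _ hr) (pvks_Ee_X_reads 𝔓 𝔈 m ε w z t _ _) hC hy (pvConf ω)).symm

/-- **(ENL)** the experiment of `ke` enlarged by the atom `(cK, yc)` of the return link -/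
theorem pvks_Ke_enl (hr : Conf.Reads (𝔈.rO m ×ˢ univ) fun η => η ∈ 𝔈.rG m ε) (ω : PVSample) {cK yc : Set ℂ}
    (d1 : Disjoint (pvilWne 𝔓 𝔈 m z t (pvilZi 𝔓 m z t (pvConf ω))) cK) (d2 : Disjoint (pvilWne 𝔓 𝔈 m z t (pvilZi 𝔓 m z t (pvConf ω))) yc) :
    pvilKeW 𝔓 𝔈 w m ε z t ω = pvdyHat ε (pvieSh z (𝔈.eK m t) ∪ pvieSh (pvieZu 𝔓 m z t) (𝔈.rO m) ∪ cK) (fun _ => pvieSh z (𝔈.eM m t) \ pvilFi 𝔓 m z t (pvConf ω) ∪ yc)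
      (pvilW1e 𝔓 𝔈 m ε z t (pvilEeAt 𝔓 𝔈 m ε w z t (pvConf ω))) (pvilEeAt 𝔓 𝔈 m ε w z t (pvConf ω)).X (pvConf ω) :=
  (pvks_hat_drop_union ε (pvks_W1e_reads 𝔓 w z t _ _ hr) (pvks_Ee_X_reads 𝔓 𝔈 m ε w z t _ _) d1 d2 (pvConf ω)).symm

/-! ## 3. `ins` -/

/-- **THE INEQUALITY OF THE FIELD `ins`** at one base `ω` with countably many sites, base data `(Z, F)`, ANY experiment `(C, y)` which contains the atom `(cK, yc)` of the return link -/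
theorem pvks_Ke_ins (hε : 0 < ε) (hr : Conf.Reads (𝔈.rO m ×ˢ univ) fun η => η ∈ 𝔈.rG m ε) {C y cK yc : Set ℂ} {A' : Set (Conf PvPt)} {ω : Conf PvPt} {q' : ℝ≥0∞}
    (hC : MeasurableSet C) (hc : (cfSites ω).Countable) (hK : MeasurableSet cK) (d1 : Disjoint (pvilWne 𝔓 𝔈 m z t Z) cK) (d2 : Disjoint (pvilWne 𝔓 𝔈 m z t Z) yc)
    (hKC : cK ⊆ C) (hy : yc ⊆ y) (hd : ∀ x ∈ yc, x ∈ C → x ∈ cK)
    (hq : ∀ᵐ p ∂pvdyNu ε, pvdyR C (fun _ => y) ω p ∈ pvktGs 𝔈 m ε (pvieZu 𝔓 m z t) (𝔓.col t) ∩ (pvilEe 𝔓 𝔈 m ε w z t Z F).A → q' ≤ pvdyQ ε cK (fun _ => yc) A' (pvdyR C (fun _ => y) ω p))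
    {G : Conf PvPt → ℝ≥0∞} (mG : Measurable G)
    (hG : ∀ η, η ∈ pvktGs 𝔈 m ε (pvieZu 𝔓 m z t) (𝔓.col t) ∩ (pvilEe 𝔓 𝔈 m ε w z t Z F).A → η ∈ A' → ‖(pvilEe 𝔓 𝔈 m ε w z t Z F).X η‖ₑ ^ 2 ≤ G η) :
    q' * ∫⁻ p, (pvktGs 𝔈 m ε (pvieZu 𝔓 m z t) (𝔓.col t) ∩ (pvilEe 𝔓 𝔈 m ε w z t Z F).A).indicator (fun η => ‖(pvilEe 𝔓 𝔈 m ε w z t Z F).X η‖ₑ ^ 2) (pvdyR C (fun _ => y) ω p) ∂pvdyNu ε
      ≤ ∫⁻ p, G (pvdyR C (fun _ => y) ω p) ∂pvdyNu ε :=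
  pvks_ins_upQ hε hC hc hK (pvks_GA_reads 𝔓 w z t Z F hr) (pvks_Ee_X_reads 𝔓 𝔈 m ε w z t Z F) d1 d2 hKC hy hd hq mG hG

end names

end Claimed.Agent.R289
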