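import Claimed.Agent.R289.Tr.StopL
import Claimed.Agent.R289.Exit.ThickL

/-!
# Row 289 (S0537), THE WALL, ROAD E, file Tr/StopLT : THE LEAF (K1) `exit_pvjt_stop` OF `Exit/ThickLT.lean` (223), VERBATIM      (helper96; prefix `pvsml`)      0 sorry
-/

set_option autoImplicit false

namespace Claimed.Agent.R289

open Set MeasureTheory Claims.C0465
open scoped ENNReal

variable {τ : Type} {c : ℝ} {𝔓 : PvxPar τ c} {𝔈 : PvieEng τ} {𝔯 : PvjtRet τ} {L : ℝ} {b0 : ℝ≥0∞}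

/-- the recoloured sites of the thick pair are a stopping choice -/
theorem pvsml_thick_stop (H : PvjtWf 𝔓 𝔈 𝔯 L b0) (m : ℕ) (z : ℂ) (t : τ) : PvdyStop fun η => pvjtY 𝔈 𝔯 m z t (pvjtBeta 𝔓 m z t η) := by
  by_cases hl : pvjtLv 𝔓 m t
  · have hρ : 0 ≤ 𝔓.num.rho * pvlmH m := by
      have := H.del_le m hl.1
      linarith [this.1, this.2]
    have hle : 𝔓.num.rho * pvlmH m / 2 ≤ 2 * 𝔓.num.rho * pvlmH m := by nlinarith
    have e : (fun η => pvjtY 𝔈 𝔯 m z t (pvjtBeta 𝔓 m z t η)) =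
        pvsmGd (pvilU 𝔓.num (𝔓.col t) (pvilPin 𝔓 m z t)) fun η => pvieSh z (𝔯.fM m t) \ pvilFo 𝔓 m z t η ∪ pvieSh z (𝔈.eM m t) \ pvilFi 𝔓 m z t η := by
      funext η
      by_cases hU : η ∈ pvilU 𝔓.num (𝔓.col t) (pvilPin 𝔓 m z t)
      · rw [pvjt_beta_some hl hU, pvsm_gd_mem hU]
        exact Set.union_comm _ _
      · rw [pvsm_gd_notMem hU]
        have : pvjtBeta 𝔓 m z t η = none := by
          unfold pvjtBeta
          rw [if_neg fun h => hU h.2]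
        rw [this]
        rfl
    rw [e]
    exact pvsml_stop_pin 𝔓 m z t ((H.fM_cen m t hl).trans (Metric.closedBall_subset_closedBall hle)) ((H.eM_cen m t hl).trans (Metric.closedBall_subset_closedBall hle))
  · have e : (fun η => pvjtY 𝔈 𝔯 m z t (pvjtBeta 𝔓 m z t η)) = fun _ => (∅ : Set ℂ) := by
      funext η
      have : pvjtBeta 𝔓 m z t η = none := by
        unfold pvjtBeta
        rw [if_neg fun h => hl h.1]
      rw [this]
      rfl
    rw [e]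
    exact pvsml_stop_empty

/-- **(K1) STOP** = `exit_pvjt_stop` of `Exit/ThickLT.lean`, verbatim -/
theorem pvsml_thick_leaf (H : PvjtWf 𝔓 𝔈 𝔯 L b0) (m : ℕ) (ε : ℝ) (z : ℂ) (t : τ) :
    ∃ Ok : Set ℂ → Prop, (∀ᵐ ω ∂pvP ε, Ok (cfSites ω)) ∧ PvktStop Ok (fun η => pvjtY 𝔈 𝔯 m z t (pvjtBeta 𝔓 m z t η)) :=
  (pvsml_thick_stop H m z t).leaf ε

end Claimed.Agent.R289
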