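-- KEEP
import Claimed.Agent.R289.Exit.ThickL
import Claimed.Agent.R289.Tr.BuNormL
import Claimed.Agent.R289.Tr.AtUniq
import Claimed.Agent.R289.Tr.Port

/-!
# Row 289 (S0537), THE WALL, ROAD E, file Tr/ThickEnl : LEAF (K3) ENLARGEMENT OF `thick` AT THE DATUM `pvjtDat`, InstL v2.2      (helper269; prefix `pvjf_`)

0 sorry.      **`pvjf_exit_enl`** = `exit_pvjt_enl` of `Exit/ThickLT` VERBATIM.
* sec. 1  MODEL FREE: `pvjf_restr_iff`, `pvjf_restr_R` (two experiments agree on a window which misses the new resources), `pvjf_restr_R_congr` (agreement on a window is kept by one and the same resampling),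
          **`pvjf_W_reads`** (`pvdyW ε K (fun _ => ye) A` is read in every window in which `A` is read), **`pvjf_enl`** (enlargement for exact readers).
* sec. 2  GEOMETRY of a fattened hull: `pvjf_fat_near` (`2 δ` coordinate by coordinate), `pvjf_fat_near'` (`4 δ`), `pvjf_huI_eq pvjf_huO_eq` (the hull of record reads "the" half state, standard frame, v2.2), `pvjf_fzIn_box pvjf_fzOut_box pvjf_fat_box`.
* sec. 3  AT THE DATUM: `pvjf_box_off` (a region off the box + `3 δ` misses `pvilBx`), `pvjf_cen_far`, **`pvjf_Zi_far pvjf_Zo_far`** (`Z_in⁺` misses `B(y⁺, ρ h / 4)`, mirror), `pvjf_fin_reads`, **`pvjf_W_e_reads pvjf_X_e_reads`** (weight and value of record of the thick link are read in `pvilWne`).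
-/

set_option autoImplicit false

namespace Claimed.Agent.R289

open Set MeasureTheory Filter Topology Claims.C0465
open scoped ENNReal ComplexConjugate

/-! ## 1. model free: two experiments which agree on a window -/

section free

variable {W C C' y y' K ye O : Set ℂ} {ω η η' : Conf PvPt}

theorem pvjf_restr_iff : Conf.restr (W ×ˢ (univ : Set Bool)) η' = Conf.restr (W ×ˢ univ) η ↔ ∀ x : PvPt, x.1 ∈ W → (x ∈ η'.pts ↔ x ∈ η.pts) := by
  constructor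
  · intro h x hx
    have := congrArg (fun ζ : Conf PvPt => x ∈ ζ.pts) h
    simp only [Conf.restr, mem_inter_iff, mem_prod, mem_univ, and_true, hx, eq_iff_iff] at this
    exact this
  · intro h
    ext x
    simp only [Conf.restr, mem_inter_iff, mem_prod, mem_univ, and_true]
    constructor
    · rintro ⟨h1, h2⟩; exact ⟨(h x h2).1 h1, h2⟩
    · rintro ⟨h1, h2⟩; exact ⟨(h x h2).2 h1, h2⟩

/-- the larger experiment and the smaller one agree on a window which misses the new resources -/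
theorem pvjf_restr_R (hC : ∀ v ∈ W, (v ∈ C' ↔ v ∈ C)) (hy : ∀ v ∈ W, v ∈ cfSites ω → v ∉ C → (v ∈ y' ↔ v ∈ y)) (p : (ℂ → Bool) × Conf PvPt) :
    Conf.restr (W ×ˢ (univ : Set Bool)) (pvdyR C' (fun _ => y') ω p) = Conf.restr (W ×ˢ univ) (pvdyR C (fun _ => y) ω p) := by
  rw [pvjf_restr_iff]
  intro x hx
  rw [pvdy_mem_R, pvdy_mem_R, hC _ hx]
  by_cases h1 : x.1 ∈ C
  · simp only [h1, not_true_eq_false, false_and, true_and, false_or]
  · simp only [h1, not_false_eq_true, true_and, false_and, or_false]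
    by_cases h2 : x.1 ∈ cfSites ω
    · simp only [h2, true_and]
      have h3 := hy _ hx h2 h1
      by_cases h4 : x.1 ∈ y
      · rw [pvfqMix_of_mem h4, pvfqMix_of_mem (h3.2 h4)]
      · rw [pvfqMix_of_notMem h4, pvfqMix_of_notMem (fun h => h4 (h3.1 h))]
    · simp only [h2, false_and]

/-- agreement on a window is kept by one and the same resampling -/
theorem pvjf_restr_R_congr (h : Conf.restr (W ×ˢ (univ : Set Bool)) η' = Conf.restr (W ×ˢ univ) η) (p : (ℂ → Bool) × Conf PvPt) :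
    Conf.restr (W ×ˢ (univ : Set Bool)) (pvdyR K (fun _ => ye) η' p) = Conf.restr (W ×ˢ univ) (pvdyR K (fun _ => ye) η p) := by
  rw [pvjf_restr_iff] at h ⊢
  intro x hx
  have hs : x.1 ∈ cfSites η' ↔ x.1 ∈ cfSites η := by
    constructor
    · rintro ⟨a, ha, e⟩; exact ⟨a, (h a (e ▸ hx)).1 ha, e⟩
    · rintro ⟨a, ha, e⟩; exact ⟨a, (h a (e ▸ hx)).2 ha, e⟩
  have hc : cfCol η' x.1 = cfCol η x.1 := by
    classical
    unfold cfCol
    exact decide_eq_decide.2 (h (x.1, true) hx)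
  rw [pvdy_mem_R, pvdy_mem_R, hs]
  by_cases h4 : x.1 ∈ ye
  · rw [pvfqMix_of_mem h4, pvfqMix_of_mem h4]
  · rw [pvfqMix_of_notMem h4, pvfqMix_of_notMem h4]
    show _ ∧ _ ∧ x.2 = cfCol η' x.1 ∨ _ ↔ _ ∧ _ ∧ x.2 = cfCol η x.1 ∨ _
    rw [hc]

/-- the conditioning weight of an event read in the window is read in the window -/
theorem pvjf_W_reads (ε : ℝ) {A : Set (Conf PvPt)} (hA : Conf.Reads (W ×ˢ univ) fun η => η ∈ A) : Conf.Reads (W ×ˢ univ) (pvdyW ε K (fun _ => ye) A) := by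
  rw [Conf.reads_iff]
  intro η η' h
  have e1 : (η ∈ A) = (η' ∈ A) := hA.eq_of_restr h
  have e2 : pvdyQ ε K (fun _ => ye) A η = pvdyQ ε K (fun _ => ye) A η' := by
    unfold pvdyQ
    congr 1
    ext p
    exact iff_of_eq (hA.eq_of_restr (pvjf_restr_R_congr h p))
  unfold pvdyW
  rw [e2]
  congr 1
  by_cases h1 : η ∈ A
  · rw [indicator_of_mem h1, indicator_of_mem (e1 ▸ h1)]; rfl
  · rw [indicator_of_notMem h1, indicator_of_notMem (e1 ▸ h1)]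

/-- **ENLARGEMENT, model free** -/
theorem pvjf_enl (ε : ℝ) {w : Conf PvPt → ℝ≥0∞} {X : Conf PvPt → ℂ} (hw : Conf.Reads (W ×ˢ univ) w) (hX : Conf.Reads (W ×ˢ univ) X)
    (hC : ∀ v ∈ W, (v ∈ C' ↔ v ∈ C)) (hy : ∀ v ∈ W, v ∈ cfSites ω → v ∉ C → (v ∈ y' ↔ v ∈ y)) :
    pvdyHat ε C' (fun _ => y') w X ω = pvdyHat ε C (fun _ => y) w X ω :=
  pvkt_hat_congr ε (Eventually.of_forall fun p => hw.eq_of_restr (pvjf_restr_R hC hy p)) (Eventually.of_forall fun p => hX.eq_of_restr (pvjf_restr_R hC hy p))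

end free

/-! ## 2. geometry of the fattened hull of a half state -/

section geo

variable {δ : ℝ} {K : Set ℂ} {v : ℂ}

/-- a point of the fattened hull of `K` is within `2 δ` of `K`, coordinate by coordinate -/
theorem pvjf_fat_near (hδ : 0 < δ) (hv : v ∈ pvilFat δ (pvtCells δ K)) : ∃ q ∈ K, |(v - q).re| ≤ 2 * δ ∧ |(v - q).im| ≤ 2 * δ := by
  obtain ⟨w, ⟨c, ⟨q, hq, hqK⟩, hw⟩, hvw⟩ := Set.mem_iUnion₂.1 hv
  refine ⟨q, hqK, ?_⟩
  obtain ⟨a1, a2, a3, a4⟩ := hvw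
  obtain ⟨b1, b2, b3, b4⟩ := hq
  have hadj : w.1 ≤ c.1 + 1 ∧ c.1 ≤ w.1 + 1 ∧ w.2 ≤ c.2 + 1 ∧ c.2 ≤ w.2 + 1 := by
    rcases hw with rfl | h
    · exact ⟨by omega, by omega, by omega, by omega⟩
    · exact h.2
  have c1 : (w.1 : ℝ) ≤ c.1 + 1 := by exact_mod_cast hadj.1
  have c2 : (c.1 : ℝ) ≤ w.1 + 1 := by exact_mod_cast hadj.2.1
  have c3 : (w.2 : ℝ) ≤ c.2 + 1 := by exact_mod_cast hadj.2.2.1
  have c4 : (c.2 : ℝ) ≤ w.2 + 1 := by exact_mod_cast hadj.2.2.2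
  have d1 := mul_le_mul_of_nonneg_right c1 hδ.le
  have d2 := mul_le_mul_of_nonneg_right c2 hδ.le
  have d3 := mul_le_mul_of_nonneg_right c3 hδ.le
  have d4 := mul_le_mul_of_nonneg_right c4 hδ.le
  rw [Complex.sub_re, Complex.sub_im, abs_le, abs_le]
  refine ⟨⟨?_, ?_⟩, ?_, ?_⟩ <;> nlinarith

theorem pvjf_fat_near' (hδ : 0 < δ) (hv : v ∈ pvilFat δ (pvtCells δ K)) : ∃ q ∈ K, ‖v - q‖ ≤ 4 * δ := by
  obtain ⟨q, hq, h1, h2⟩ := pvjf_fat_near hδ hv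
  refine ⟨q, hq, (Complex.norm_le_abs_re_add_abs_im _).trans ?_⟩
  linarith

variable {N : PvwNum} {b : Bool} {p : PvilPl} {η : Conf PvPt}

theorem pvjf_pos_eq (hf : p.fr = 1) (u : ↥(pvieY η)) : p.pos η u = pviePos η u := by
  unfold PvilPl.pos
  rw [hf, map_one, one_mul]

theorem pvjf_zf_eq (hf : p.fr = 1) : p.zf = p.z := by
  unfold PvilPl.zf
  rw [hf, map_one, one_mul]

theorem pvjf_pos_inj (hf : p.fr = 1) : Function.Injective (p.pos η) := fun a c e => by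
  rw [pvjf_pos_eq hf, pvjf_pos_eq hf] at e
  exact Subtype.val_injective e

/-- the base datum `Z` reads "the" entrance half state -/
theorem pvjf_huI_eq (hf : p.fr = 1) {𝔖 : PvwSt (pvieT η)} (h : PvilIn N b p η 𝔖) (δ r : ℝ) :
    pvilHuI δ r N b p η = pvtCells δ (pviePos η '' 𝔖.fzIn ∪ Metric.closedBall (p.ty.cm p.h p.z) r) := by
  ext q
  constructor
  · rintro ⟨𝔖₁, h₁, hq⟩
    obtain ⟨g1, g2⟩ := pvuq_atIn (delb_plane_isSph h.good) (pvgy_m_simple _) (pvjf_pos_inj hf) h₁.st h.st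
    have e : 𝔖₁.fzIn = 𝔖.fzIn := g1.fzIn g2
    rwa [e] at hq
  · exact fun hq => ⟨𝔖, h, hq⟩

/-- the base datum `Z` reads "the" exit half state -/
theorem pvjf_huO_eq (hf : p.fr = 1) {𝔖 : PvwSt (pvieT η)} (h : PvilOut N b p η 𝔖) (δ r : ℝ) :
    pvilHuO δ r N b p η = pvtCells δ (pviePos η '' 𝔖.fzOut ∪ Metric.closedBall (p.ty.cp p.h p.z) r) := by
  ext q
  constructor
  · rintro ⟨𝔖₁, h₁, hq⟩
    obtain ⟨g1, g2⟩ := pvuq_atOut (delb_plane_isSph h.good) (pvgy_m_simple _) (pvjf_pos_inj hf) h₁.st h.st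
    have e : 𝔖₁.fzOut = 𝔖.fzOut := g1.fzOut g2
    rwa [e] at hq
  · exact fun hq => ⟨𝔖, h, hq⟩

/-- the sites frozen by `Σ_in` lie in the own-level box -/
theorem pvjf_fzIn_box (hf : p.fr = 1) (hb : p.ty.b * p.h ≤ pvwRad N p.h p.ty p.ty.k) {𝔖 : PvwSt (pvieT η)} (h : PvilIn N b p η 𝔖) :
    ∀ u ∈ 𝔖.fzIn, pviePos η u ∈ pvwSq p.z (pvwRad N p.h p.ty p.ty.k) := by
  intro u hu
  rcases hu with (hu | ⟨i, hi, rfl⟩) | ⟨i, hi, rfl⟩
  · have h1 : u ∈ 𝔖.dsc := hu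
    rw [h.st.gate.dsc_eq] at h1
    have h2 : ‖p.pos η u - p.zf‖ < p.ty.b * p.h := h1
    rw [pvjf_pos_eq hf, pvjf_zf_eq hf] at h2
    exact ⟨(Complex.abs_re_le_norm _).trans (h2.le.trans hb), (Complex.abs_im_le_norm _).trans (h2.le.trans hb)⟩
  · have := (h.st.stub.em_in i hi).1
    rwa [pvjf_pos_eq hf, pvjf_zf_eq hf] at this
  · have := (h.st.stub.em_in i hi).2
    rwa [pvjf_pos_eq hf, pvjf_zf_eq hf] at this

/-- the sites frozen by `Σ_out` lie in the own-level box -/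
theorem pvjf_fzOut_box (hf : p.fr = 1) (hb : p.ty.b * p.h ≤ pvwRad N p.h p.ty p.ty.k) {𝔖 : PvwSt (pvieT η)} (h : PvilOut N b p η 𝔖) :
    ∀ u ∈ 𝔖.fzOut, pviePos η u ∈ pvwSq p.z (pvwRad N p.h p.ty p.ty.k) := by
  intro u hu
  rcases hu with (hu | ⟨i, hi, rfl⟩) | ⟨i, hi, rfl⟩
  · have h1 : u ∈ 𝔖.dsc := hu
    rw [h.st.gate.dsc_eq] at h1
    have h2 : ‖p.pos η u - p.zf‖ < p.ty.b * p.h := h1
    rw [pvjf_pos_eq hf, pvjf_zf_eq hf] at h2
    exact ⟨(Complex.abs_re_le_norm _).trans (h2.le.trans hb), (Complex.abs_im_le_norm _).trans (h2.le.trans hb)⟩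
  · have := (h.st.stub.ep_in i hi).1
    rwa [pvjf_pos_eq hf, pvjf_zf_eq hf] at this
  · have := (h.st.stub.ep_in i hi).2
    rwa [pvjf_pos_eq hf, pvjf_zf_eq hf] at this

/-- the fattened hull of a set of the box lies in the box with the collar `2 δ` -/
theorem pvjf_fat_box (hδ : 0 < δ) {z : ℂ} {r : ℝ} (hK : K ⊆ pvwSq z r) : pvilFat δ (pvtCells δ K) ⊆ pvwSq z (r + 2 * δ) := by
  intro v hv
  obtain ⟨q, hq, h1, h2⟩ := pvjf_fat_near hδ hv
  obtain ⟨h3, h4⟩ := hK hq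
  have e1 : (v - z).re = (v - q).re + (q - z).re := by simp
  have e2 : (v - z).im = (v - q).im + (q - z).im := by simp
  refine ⟨?_, ?_⟩
  · rw [e1]; exact (abs_add_le _ _).trans (by linarith)
  · rw [e2]; exact (abs_add_le _ _).trans (by linarith)

end geo

/-! ## 3. the windows at the datum of `Exit/ThickL` -/

section inst

variable {τ : Type} {c : ℝ} {𝔓 : PvxPar τ c} {𝔈 : PvieEng τ} {𝔯 : PvjtRet τ} {wt : ∀ η : Conf PvPt, (delbPl (pvieY η)).Dart → ℂ} {L : ℝ} {b0 : ℝ≥0∞}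
  {m : ℕ} {ε : ℝ} {z : ℂ} {t : τ} {ω : Conf PvPt}

theorem pvjf_sh_mem {z v : ℂ} {S : Set ℂ} : v ∈ pvieSh z S ↔ v - z ∈ S := by
  unfold pvieSh
  constructor
  · rintro ⟨w, hw, rfl⟩
    simpa using hw
  · intro h
    exact ⟨v - z, h, by ring⟩

theorem pvjf_sh_disj {z : ℂ} {S S' : Set ℂ} (h : Disjoint S S') : Disjoint (pvieSh z S) (pvieSh z S') :=
  Set.disjoint_left.2 fun _ h1 h2 => Set.disjoint_left.1 h (pvjf_sh_mem.1 h1) (pvjf_sh_mem.1 h2)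

/-- a region off the box with the collar `δ` is off the placed box with the collar `δ`      (223: `PvjtWf.fK_off` is now the `res_off` form of `Defs/InstWf`) -/
theorem pvjf_box_off {S : Set ℂ} {r : ℝ} (h : Disjoint S (pvwSq 0 r)) (z : ℂ) : Disjoint (pvwSq z r) (pvieSh z S) := by
  refine Set.disjoint_left.2 fun v h1 h2 => Set.disjoint_left.1 h (pvjf_sh_mem.1 h2) ?_
  obtain ⟨h3, h4⟩ := h1
  refine ⟨?_, ?_⟩
  · rw [sub_zero]; exact h3
  · rw [sub_zero]; exact h4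

/-- the two grid centres of the tip cells are `7 ρ h / 4` apart -/
theorem pvjf_cen_far (hl : pvjtLv 𝔓 m t) : 7 * 𝔓.num.rho * pvlmH m / 4 ≤ ‖(pvlmH m : ℂ) * (𝔓.ty t).yp - (pvlmH m : ℂ) * (𝔓.ty t).ym‖ := by
  rw [← mul_sub, norm_mul, Complex.norm_real, Real.norm_of_nonneg (pvlm_H_pos m).le]
  have := mul_le_mul_of_nonneg_left hl.2.2.2 (pvlm_H_pos m).le
  linarith

/-- `Z_in⁺` misses the small ball of the EXIT mouth -/
theorem pvjf_Zi_far (H : PvjtWf 𝔓 𝔈 𝔯 L b0) (hl : pvjtLv 𝔓 m t) (hU : ω ∈ pvilU 𝔓.num (𝔓.col t) (pvilPin 𝔓 m z t)) :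
    Disjoint (pvilFat (pvlmDel c m) (pvilZi 𝔓 m z t ω)) (pvieSh z (Metric.closedBall ((pvlmH m : ℂ) * (𝔓.ty t).yp) (5 * 𝔓.num.rho * pvlmH m / 8))) := by
  obtain ⟨𝔖, h⟩ := hU
  have e : pvilZi 𝔓 m z t ω = pvtCells (pvlmDel c m) (pviePos ω '' 𝔖.fzIn ∪ Metric.closedBall (z + (pvlmH m : ℂ) * (𝔓.ty t).ym) (𝔓.num.rho * pvlmH m)) := pvjf_huI_eq rfl h.inn _ _
  rw [e]
  obtain ⟨hδ, h16⟩ := H.del_le m hl.1
  refine Set.disjoint_left.2 fun v h1 h2 => ?_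
  have h6 : ‖v - z - (pvlmH m : ℂ) * (𝔓.ty t).yp‖ ≤ 5 * 𝔓.num.rho * pvlmH m / 8 := by
    have := pvjf_sh_mem.1 h2
    rwa [Metric.mem_closedBall, dist_eq_norm] at this
  obtain ⟨q, hq, h3⟩ := pvjf_fat_near' hδ h1
  rcases hq with ⟨u, hu, rfl⟩ | hq
  · have h4 := h.far_p u hu
    rw [pvjf_pos_eq (p := pvilPin 𝔓 m z t) rfl, pvjf_zf_eq (p := pvilPin 𝔓 m z t) rfl] at h4
    have h5 : 2 * 𝔓.num.rho * pvlmH m < ‖pviePos ω u - (z + (pvlmH m : ℂ) * (𝔓.ty t).yp)‖ := h4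
    have h7 : pviePos ω u - (z + (pvlmH m : ℂ) * (𝔓.ty t).yp) = (v - z - (pvlmH m : ℂ) * (𝔓.ty t).yp) - (v - pviePos ω u) := by ring
    rw [h7] at h5
    have h8 := norm_sub_le (v - z - (pvlmH m : ℂ) * (𝔓.ty t).yp) (v - pviePos ω u)
    nlinarith
  · rw [Metric.mem_closedBall, dist_eq_norm] at hq
    have h5 := pvjf_cen_far (𝔓 := 𝔓) hl
    have h7 : (pvlmH m : ℂ) * (𝔓.ty t).yp - (pvlmH m : ℂ) * (𝔓.ty t).ym = (q - (z + (pvlmH m : ℂ) * (𝔓.ty t).ym)) + ((v - q) - (v - z - (pvlmH m : ℂ) * (𝔓.ty t).yp)) := by ring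
    rw [h7] at h5
    have h8 := norm_add_le (q - (z + (pvlmH m : ℂ) * (𝔓.ty t).ym)) ((v - q) - (v - z - (pvlmH m : ℂ) * (𝔓.ty t).yp))
    have h9 := norm_sub_le (v - q) (v - z - (pvlmH m : ℂ) * (𝔓.ty t).yp)
    nlinarith

/-- `Z_out⁺` misses the small ball of the ENTRANCE mouth -/
theorem pvjf_Zo_far (H : PvjtWf 𝔓 𝔈 𝔯 L b0) (hl : pvjtLv 𝔓 m t) (hU : ω ∈ pvilU 𝔓.num (𝔓.col t) (pvilPin 𝔓 m z t)) :
    Disjoint (pvilFat (pvlmDel c m) (pvilZo 𝔓 m z t ω)) (pvieSh z (Metric.closedBall ((pvlmH m : ℂ) * (𝔓.ty t).ym) (5 * 𝔓.num.rho * pvlmH m / 8))) := by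
  obtain ⟨𝔖, h⟩ := hU
  have e : pvilZo 𝔓 m z t ω = pvtCells (pvlmDel c m) (pviePos ω '' 𝔖.fzOut ∪ Metric.closedBall (z + (pvlmH m : ℂ) * (𝔓.ty t).yp) (𝔓.num.rho * pvlmH m)) := pvjf_huO_eq rfl h.out _ _
  rw [e]
  obtain ⟨hδ, h16⟩ := H.del_le m hl.1
  refine Set.disjoint_left.2 fun v h1 h2 => ?_
  have h6 : ‖v - z - (pvlmH m : ℂ) * (𝔓.ty t).ym‖ ≤ 5 * 𝔓.num.rho * pvlmH m / 8 := by
    have := pvjf_sh_mem.1 h2
    rwa [Metric.mem_closedBall, dist_eq_norm] at this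
  obtain ⟨q, hq, h3⟩ := pvjf_fat_near' hδ h1
  rcases hq with ⟨u, hu, rfl⟩ | hq
  · have h4 := h.far_m u hu
    rw [pvjf_pos_eq (p := pvilPin 𝔓 m z t) rfl, pvjf_zf_eq (p := pvilPin 𝔓 m z t) rfl] at h4
    have h5 : 2 * 𝔓.num.rho * pvlmH m < ‖pviePos ω u - (z + (pvlmH m : ℂ) * (𝔓.ty t).ym)‖ := h4
    have h7 : pviePos ω u - (z + (pvlmH m : ℂ) * (𝔓.ty t).ym) = (v - z - (pvlmH m : ℂ) * (𝔓.ty t).ym) - (v - pviePos ω u) := by ring
    rw [h7] at h5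
    have h8 := norm_sub_le (v - z - (pvlmH m : ℂ) * (𝔓.ty t).ym) (v - pviePos ω u)
    nlinarith
  · rw [Metric.mem_closedBall, dist_eq_norm] at hq
    have h5 := pvjf_cen_far (𝔓 := 𝔓) hl
    have h7 : (pvlmH m : ℂ) * (𝔓.ty t).yp - (pvlmH m : ℂ) * (𝔓.ty t).ym = ((v - z - (pvlmH m : ℂ) * (𝔓.ty t).ym) - (v - q)) - (q - (z + (pvlmH m : ℂ) * (𝔓.ty t).yp)) := by ring
    rw [h7] at h5
    have h8 := norm_sub_le ((v - z - (pvlmH m : ℂ) * (𝔓.ty t).ym) - (v - q)) (q - (z + (pvlmH m : ℂ) * (𝔓.ty t).yp))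
    have h9 := norm_sub_le (v - z - (pvlmH m : ℂ) * (𝔓.ty t).ym) (v - q)
    nlinarith

/-- the success of an end link at base data is read in its window -/
theorem pvjf_fin_reads (Z : Set (ℤ × ℤ)) (Wn : Set ℂ) (M : Set (Conf PvPt)) (F : Conf PvPt → ℂ) : Conf.Reads (Wn ×ˢ univ) fun η => η ∈ pvilFin Z (pvilSA ε Wn M F) := by
  unfold pvilFin
  split_ifs
  · exact pvsu_sure_reads _ _ _
  · exact fun _ => rfl

/-- the weight of record of the thick link is read in the window of the thick link -/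
theorem pvjf_W_e_reads (H : PvjtWf 𝔓 𝔈 𝔯 L b0) (i : PvjtIx) : Conf.Reads (pvilWne 𝔓 𝔈 m z t i.1.1 ×ˢ univ) (pvjtW 𝔓 𝔈 wt m ε z t (some i)) := by
  have h1 : Conf.Reads (pvilWne 𝔓 𝔈 m z t i.1.1 ×ˢ univ) fun η => pvieGr 𝔈 m ε (pvieZu 𝔓 m z t) (pvkyFl (𝔓.col t) η) :=
    (pvkt_gr_reads (H.rG_reads m ε) _ _).mono (Set.prod_mono subset_union_right le_rfl)
  have h2 := pvjf_W_reads (W := pvilWne 𝔓 𝔈 m z t i.1.1) (K := pvieSh z (𝔈.eK m t)) (ye := pvieSh z (𝔈.eM m t) \ i.1.2) ε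
    (pvjf_fin_reads (ε := ε) i.1.1 (pvilWne 𝔓 𝔈 m z t i.1.1) (pvilMe 𝔓 𝔈 m z t i.1.1) ((pvilLe 𝔓 𝔈 m z t).X 𝔓.num (𝔓.col t) wt))
  intro η
  show pvieGr 𝔈 m ε (pvieZu 𝔓 m z t) (pvkyFl (𝔓.col t) _) * pvdyW ε _ _ _ _ = pvieGr 𝔈 m ε (pvieZu 𝔓 m z t) (pvkyFl (𝔓.col t) η) * pvdyW ε _ _ _ η
  exact congrArg₂ (· * ·) (h1 η) (h2 η)

/-- the value of record of the thick link is read in the window of the thick link -/
theorem pvjf_X_e_reads (i : PvjtIx) : Conf.Reads (pvilWne 𝔓 𝔈 m z t i.1.1 ×ˢ univ) (pvjtX 𝔓 𝔈 wt m ε z t (some i)) :=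
  pvsu_loc_reads _ _ _

/-- **(K3) ENLARGEMENT** (`exit_pvjt_enl` of `Exit/ThickLT`, VERBATIM) -/
theorem pvjf_exit_enl (H : PvjtWf 𝔓 𝔈 𝔯 L b0) (ε : ℝ) {i : PvjtIx} (hi : pvjtBeta 𝔓 m z t ω = some i) :
    pvdyHat ε (pvjtC 𝔓 𝔈 𝔯 m z t) (fun _ => pvjtY 𝔈 𝔯 m z t (some i)) (pvjtW 𝔓 𝔈 wt m ε z t (some i)) (pvjtX 𝔓 𝔈 wt m ε z t (some i)) ω
      = pvdyHat ε (pvieSh z (𝔈.eK m t) ∪ pvieSh (pvieZu 𝔓 m z t) (𝔈.rO m)) (fun _ => pvjtYe 𝔈 m z t i) (pvjtW 𝔓 𝔈 wt m ε z t (some i)) (pvjtX 𝔓 𝔈 wt m ε z t (some i)) ω := by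
  obtain ⟨hl, hU, ei⟩ := pvjt_beta_inv hi
  have eZ : i.1.1 = pvilZi 𝔓 m z t ω := by rw [ei]
  have hd := H.disj m t hl
  simp only [List.pairwise_cons, List.mem_cons, List.not_mem_nil, or_false, forall_eq_or_imp, forall_eq] at hd
  obtain ⟨⟨-, d_eM_fM, d_eM_fK, -⟩, -⟩ := hd
  have k1 : Disjoint (pvilWz 𝔓 m z t i.1.1) (pvieSh z (𝔯.fK m t)) :=
    (pvjf_box_off (H.fK_off m t hl) z).mono_left inter_subset_right
  have k2 : Disjoint (pvilWz 𝔓 m z t i.1.1) (pvieSh z (𝔯.fM m t)) := by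
    rw [eZ]
    have h58 : 𝔓.num.rho * pvlmH m / 2 ≤ 5 * 𝔓.num.rho * pvlmH m / 8 := by
      have := H.del_le m hl.1
      linarith [this.1, this.2]
    exact ((pvjf_Zi_far H hl hU).mono_right (Set.image_mono ((H.fM_cen m t hl).trans (Metric.closedBall_subset_closedBall h58)))).mono_left inter_subset_left
  refine pvjf_enl (W := pvilWne 𝔓 𝔈 m z t i.1.1) ε (pvjf_W_e_reads H i) (pvjf_X_e_reads i) ?_ ?_
  · intro v hv
    constructor
    · rintro (h | h)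
      · exact h
      · rcases hv with ((hv | hv) | hv) | hv
        · exact absurd h (Set.disjoint_left.1 k1 hv)
        · exact absurd h (Set.disjoint_left.1 (pvjf_sh_disj d_eM_fK) hv)
        · exact Or.inl hv
        · exact Or.inr hv
    · exact fun h => Or.inl h
  · intro v hv _ hC
    constructor
    · rintro (h | h)
      · exact h
      · rcases hv with ((hv | hv) | hv) | hv
        · exact absurd h.1 (Set.disjoint_left.1 k2 hv)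
        · exact absurd h.1 (Set.disjoint_left.1 (pvjf_sh_disj d_eM_fM) hv)
        · exact absurd (Or.inl hv) hC
        · exact absurd (Or.inr hv) hC
    · exact fun h => Or.inl h

end inst

end Claimed.Agent.R289
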