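-- KEEP
import Claimed.Agent.R289.Tr.BuThick
import Claimed.Agent.R289.Tr.InstL
import Claimed.Agent.R289.Tr.KitI
import Claimed.Agent.R289.Tr.AtUniq
import Claimed.Agent.R289.Tr.Sure
import Claimed.Agent.R289.Qbx.Loc
import Claimed.Agent.R289.Cr.ArmB
import Claimed.Agent.R289.Tr.PlugClose

/-!
# Row 289 (S0537), THE WALL, ROAD E, file Tr/InstEKR : (K4) RECOGNITION OF THE THICK LINK, THE BRIDGE      (helper132; split of record of 7, 11:10Z; prefix `pvjk_`, `pvjk`, `Pvjk`)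

The field `recog` of `PvekDat.At` (`Exit/Thick`, 7): a.s., FOR ALL INDICES, on (thick link) ∩ (thick return) the value of the link is the mass of ONE label of the full plane configuration in a DETERMINISTIC mask.      Definitions of record: `Tr/InstL` (168).
SPLIT.   118 (`Tr/ThickC2`) = the deterministic closing on ONE plane map (the two links close to one rim; the `pvwMass` terms `=` `lsum (1_M(bary) w)`).      THIS FILE = everything between that statement and the field: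
* sec. 1  THE RAW DICTIONARY WITH A COLOUR: `pvjk_tag`, `pvjk_lab` : `pvbeTag / pvbeLab W g (pvktFl b η) (pvkiCode d)` `=` `Tag / lsum` on `(pvieT η, pvieCol η b)`; weights `Q` (`pvilQ`), `V` (`pvilV`), `Q - a V` (`pvjkFa a`).      `PvjkWt W w` : `w` is the raw summand `W` in the language of the plane map.
* sec. 2  `pvwMass`, `PvilLk.val`, `PvilLk.X` are LINEAR in the weight;   `PvilLk.X` unfolded: ONE arc for all the weights (`pvjk_X_eq`).
* sec. 3  `PvjkOne` = THE INTERFACE WITH 118;   **`pvjk_at`** : `PvjkOne` at a good `η` ⟹ ONE raw tag `x` for all the weights.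
* sec. 4  UNIQUENESS (`Tr/InstL` v2.1: an end is MARKED or a DOOR): `pvjk_gate` (marked end: the two half states of one plug, on `Tr/AtUniq` of 150, frames), **`pvjk_door_uniq`** (door end: the state of a kit plug of record is ONE object, every colour / frame / unit),
          `PvjkRet L L'` = `L'` is a return of `L` (ends exchanged with their kinds), **`pvjk_end`**;   `PvjkPair` = the two arcs + the equalities of the gate parts = the hypothesis of the closing, `PvjkPair.run_e .run_c` (both runs on the states of the link);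
          `PvjkCl` = the closing as it is consumed;   **`pvjk_at_pair`**.
* sec. 5  THE A.E. LAYER: `pvjk_recog` (plain events `Me`, `Mf`: the closing is asked ON `Me ∩ Mf`, so the mesh clause of ruling 20 (3) is available to its producer), a COUNTABLE family of indices at once:
          `pvjk_soft`, `pvjk_recog_soft` (form [LOC]: `Sure`, `Loc` of 251 + `PvsuDet`);   **`pvjk_softD`, `pvjk_recog_softD`** (form of RULING 20 (4): `e.A := Sure (Me ∩ {plain value = e.X})`: only [MEAS] is left);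
          **`pvjk_recog_fin`** = at the FORM OF RECORD of an end (`pvilFin Z (pvilSA ..)`, `pvilLoc ..`), windows / plain events ABSTRACT FUNCTIONS OF THE HULL, all hulls at once = the field `recog` (no change when the windows or the plain events of `Tr/InstL` move).
-/

set_option autoImplicit false
set_option linter.unusedSectionVars false

namespace Claimed.Agent.R289

open MeasureTheory ProbabilityTheory Set Filter Topology
open scoped ENNReal NNReal

/-! ## 1. the raw dictionary with a colour -/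

theorem pvjk_sites_fl (b : Bool) (η : Conf PvPt) : cfSites (pvktFl b η) = cfSites η := by
  cases b
  · exact pvqa_sites_flip η
  · rfl

/-- at a configuration with one colour per site, `true` of `pvktFl b η` = the colour `b` of `η` -/
theorem pvjk_col_fl (b : Bool) {η : Conf PvPt} (h1 : ∀ p ∈ η.pts, ∀ q ∈ η.pts, p.1 = q.1 → p = q) {z : ℂ} (hz : z ∈ cfSites η) : cfCol (pvktFl b η) z = (cfCol η z == b) := by
  cases b
  · show cfCol (cfFlip η) z = (cfCol η z == false)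
    unfold cfCol
    by_cases ht : (z, true) ∈ η.pts
    · have hf : (z, false) ∉ η.pts := fun hf => by
        have := h1 _ ht _ hf rfl
        simp at this
      have hf' : (z, true) ∉ (cfFlip η).pts := fun h => hf (by simpa using (l9a_flip_mem η z true).1 h)
      simp [ht, hf']
    · have hf : (z, false) ∈ η.pts := by
        obtain ⟨p, hp, rfl⟩ := hz
        obtain ⟨p1, p2⟩ := p
        cases p2
        · exact hp
        · exact absurd hp ht
      have hf' : (z, true) ∈ (cfFlip η).pts := (l9a_flip_mem η z true).2 (by simpa using hf)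
      simp [ht, hf']
  · show cfCol η z = (cfCol η z == true)
    cases cfCol η z <;> rfl

/-- the colouring of the flipped configuration, on the sites -/
theorem pvjk_col_eq (b : Bool) {η : Conf PvPt} (h1 : ∀ p ∈ η.pts, ∀ q ∈ η.pts, p.1 = q.1 → p = q) :
    (cfCol (pvktFl b η) ∘ Subtype.val : ↥(cfSites η) → Bool) = pvieCol η b := by
  funext v
  exact pvjk_col_fl b h1 v.2

/-- **tags**: a raw tag of `pvktFl b η` = a tag of the plane map of `η` for the colouring seen by a rim of colour `b` -/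
theorem pvjk_tag {η : Conf PvPt} (h : PvqfGood η) (b : Bool) (d : (delbPl (pvieY η)).Dart) : pvbeTag (pvktFl b η) (pvkiCode d) ↔ (pvieT η).Tag (pvieCol η b) d := by
  unfold pvbeTag
  rw [pvjk_sites_fl, ← pvjk_col_eq b h.one]
  exact pvki_code_tag h.del (delb_pl_eq h.del) _ d

/-- **labels**, generic weight: `wW` = the weight `W` in the language of the plane map -/
theorem pvjk_lab {η : Conf PvPt} (h : PvqfGood η) (b : Bool) {W : Set ℂ → ℂ × ℂ → ℂ} {wW : (delbPl (pvieY η)).Dart → ℂ} (hW : ∀ d, W (cfSites η) (pvkiCode d) = wW d)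
    (g : ℂ → ℂ) (d : (delbPl (pvieY η)).Dart) :
    pvbeLab W g (pvktFl b η) (pvkiCode d) = (pvieT η).lsum (pvieCol η b) (fun d' => g ((pvieT η).bary (pviePos η) d') * wW d') d := by
  unfold pvbeLab
  rw [pvjk_sites_fl, ← pvjk_col_eq b h.one]
  refine (pvki_code_sum h.del (delb_pl_eq h.del) _ _ d).trans ?_
  congr 1
  funext d'
  exact congrArg₂ (· * ·) (congrArg g (pvki_code_bary h.del (delb_pl_eq h.del) d')) (hW d')

theorem pvjk_code_upart {Y : Set ℂ} (h : DelGood Y) {P : PlTri ↥Y} (hP : P = delPl h) (d : P.Dart) : pvqWU Y (pvkiCode d) = P.toMap.upart Subtype.val d := by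
  subst hP; exact pvq_del_upart h d

theorem pvjk_WQ {η : Conf PvPt} (h : PvqfGood η) (d : (delbPl (pvieY η)).Dart) : pvqWQ (cfSites η) (pvkiCode d) = (pvieT η).qpart (pviePos η) d :=
  pvki_code_qpart h.del (delb_pl_eq h.del) d

theorem pvjk_WV {η : Conf PvPt} (h : PvqfGood η) (d : (delbPl (pvieY η)).Dart) : pvbeWV (cfSites η) (pvkiCode d) = (pvieT η).side (pviePos η) d := by
  unfold pvbeWV
  refine (congrArg₂ (· + ·) (pvjk_code_upart h.del (delb_pl_eq h.del) d) (pvki_code_qpart h.del (delb_pl_eq h.del) d)).trans ?_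
  exact PvMap.upart_add_qpart _ _ d

theorem pvjk_Wa {η : Conf PvPt} (h : PvqfGood η) (a : ℂ) (d : (delbPl (pvieY η)).Dart) : pvbeComb pvqWQ pvbeWV (-a) (cfSites η) (pvkiCode d) = pvieFld η a d := by
  unfold pvbeComb pvieFld
  rw [pvjk_WQ h, pvjk_WV h]
  ring

/-- `w` is the raw summand `W` in the language of the plane map, at the good configurations -/
def PvjkWt (W : Set ℂ → ℂ × ℂ → ℂ) (w : ∀ η : Conf PvPt, (delbPl (pvieY η)).Dart → ℂ) : Prop := ∀ η, PvqfGood η → ∀ d, W (cfSites η) (pvkiCode d) = w η d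

/-- the weight of `Q - a V` -/
noncomputable def pvjkFa (a : ℂ) (η : Conf PvPt) : (delbPl (pvieY η)).Dart → ℂ := fun d => pvilQ η d - a * pvilV η d

theorem pvjk_eqns_cite0 : True := by
  have := @PvjkWt.eq_1; have := @pvjkFa.eq_1
  trivial

theorem pvjk_wt_Q : PvjkWt pvqWQ pvilQ := fun _ h d => pvjk_WQ h d

theorem pvjk_wt_V : PvjkWt pvbeWV pvilV := fun _ h d => pvjk_WV h d

theorem pvjk_wt_a (a : ℂ) : PvjkWt (pvbeComb pvqWQ pvbeWV (-a)) (pvjkFa a) := fun _ h d => pvjk_Wa h a d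

/-! ## 2. linearity in the weight; the value of a link unfolded -/

section lin

variable {V D : Type} {T : PvMap V D}

theorem pvjk_mass_lin (pos : V → ℂ) (w w' : D → ℂ) (a : ℂ) (K : Set ℂ) (p : T.Pth) (i j : ℕ) :
    pvwMass T pos (fun d => w d - a * w' d) K p i j = pvwMass T pos w K p i j - a * pvwMass T pos w' K p i j := by
  unfold pvwMass
  rw [Finset.mul_sum, ← Finset.sum_sub_distrib]
  refine Finset.sum_congr rfl fun k _ => ?_
  split_ifs
  · rfl
  · ring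

end lin

theorem pvjk_val_lin (L : PvilLk) (N : PvwNum) (η : Conf PvPt) (w w' : (delbPl (pvieY η)).Dart → ℂ) (a : ℂ) (𝔖 𝔖' : PvwSt (pvieT η)) (y : (pvieT η).Pth) :
    L.val N η (fun d => w d - a * w' d) 𝔖 𝔖' y = L.val N η w 𝔖 𝔖' y - a * L.val N η w' 𝔖 𝔖' y := by
  unfold PvilLk.val
  rw [pvjk_mass_lin, pvjk_mass_lin, pvjk_mass_lin, pvjk_mass_lin]
  split_ifs <;> ring

/-- **the value of a link on its success event**: ONE arc for all the weights -/
theorem pvjk_X_eq (L : PvilLk) (N : PvwNum) (b : Bool) {η : Conf PvPt} (h : η ∈ L.A N b) :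
    ∃ (𝔖 𝔖' : PvwSt (pvieT η)) (y : (pvieT η).Pth), L.Arc N b η 𝔖 𝔖' y ∧ ∀ w : ∀ η : Conf PvPt, (delbPl (pvieY η)).Dart → ℂ, L.X N b w η = L.val N η (w η) 𝔖 𝔖' y := by
  have h' : ∃ (𝔖 𝔖' : PvwSt (pvieT η)) (y : (pvieT η).Pth), L.Arc N b η 𝔖 𝔖' y := h
  refine ⟨h'.choose, h'.choose_spec.choose, h'.choose_spec.choose_spec.choose, h'.choose_spec.choose_spec.choose_spec, fun w => ?_⟩
  unfold PvilLk.X
  rw [dif_pos h']

/-- off the success event the value is `0` -/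
theorem pvjk_X_off (L : PvilLk) (N : PvwNum) (b : Bool) (w : ∀ η : Conf PvPt, (delbPl (pvieY η)).Dart → ℂ) {η : Conf PvPt} (h : η ∉ L.A N b) : L.X N b w η = 0 := by
  have h' : ¬ ∃ (𝔖 𝔖' : PvwSt (pvieT η)) (y : (pvieT η).Pth), L.Arc N b η 𝔖 𝔖' y := h
  unfold PvilLk.X
  rw [dif_neg h']

/-- the value is linear in the weight, EVERYWHERE -/
theorem pvjk_X_lin (L : PvilLk) (N : PvwNum) (b : Bool) (w w' : ∀ η : Conf PvPt, (delbPl (pvieY η)).Dart → ℂ) (a : ℂ) (η : Conf PvPt) :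
    L.X N b (fun η d => w η d - a * w' η d) η = L.X N b w η - a * L.X N b w' η := by
  by_cases h : η ∈ L.A N b
  · obtain ⟨𝔖, 𝔖', y, -, e⟩ := pvjk_X_eq L N b h
    rw [e, e w, e w', pvjk_val_lin]
  · rw [pvjk_X_off L N b _ h, pvjk_X_off L N b w h, pvjk_X_off L N b w' h]
    ring

theorem pvjk_X_a (L : PvilLk) (N : PvwNum) (b : Bool) (a : ℂ) (η : Conf PvPt) : L.X N b (pvjkFa a) η = L.X N b pvilQ η - a * L.X N b pvilV η :=
  pvjk_X_lin L N b pvilQ pvilV a η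

/-! ## 3. the interface with the deterministic closing; one raw tag -/

/-- **THE INTERFACE WITH 118** (`Tr/ThickC2`), model free: the functional `val` of the weight is the mass in the mask `M` of ONE label -/
def PvjkOne {V D : Type} (T : PvMap V D) (s : V → Bool) (pos : V → ℂ) (M : Set ℂ) (val : (D → ℂ) → ℂ) : Prop :=
  ∃ g : D, T.Tag s g ∧ ∀ w : D → ℂ, val w = T.lsum s (fun d => M.indicator (1 : ℂ → ℂ) (T.bary pos d) * w d) g

theorem pvjk_eqns_cite : True := by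
  have := @PvjkOne.eq_1
  trivial

/-- **ONE RAW TAG** for all the weights -/
theorem pvjk_at {η : Conf PvPt} (h : PvqfGood η) (b : Bool) {M : Set ℂ} {val : ((delbPl (pvieY η)).Dart → ℂ) → ℂ} (H : PvjkOne (pvieT η) (pvieCol η b) (pviePos η) M val) :
    ∃ x, pvbeTag (pvktFl b η) x ∧ ∀ (W : Set ℂ → ℂ × ℂ → ℂ) (w : ∀ η : Conf PvPt, (delbPl (pvieY η)).Dart → ℂ), PvjkWt W w → val (w η) = pvbeLab W (M.indicator 1) (pvktFl b η) x := by
  obtain ⟨g, hg, e⟩ := H
  refine ⟨pvkiCode g, (pvjk_tag h b g).2 hg, fun W w hW => ?_⟩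
  rw [e, pvjk_lab h b (hW η h)]

/-! ## 4. the return link sees the gates of the link -/

theorem pvjk_pos_inj {p : PvilPl} (hfr : p.fr ≠ 0) (η : Conf PvPt) : Function.Injective (p.pos η) := by
  intro u v e
  have e' : (starRingEnd ℂ) p.fr * (u : ℂ) = (starRingEnd ℂ) p.fr * (v : ℂ) := e
  exact Subtype.val_injective (mul_left_cancel₀ ((map_ne_zero _).2 hfr) e')

/-- **the exit half state and the entrance half state of ONE placed plug have the same gate part** -/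
theorem pvjk_gate {N : PvwNum} {b : Bool} {p : PvilPl} (hfr : p.fr ≠ 0) {η : Conf PvPt} {𝔖 𝔖' : PvwSt (pvieT η)} (h : PvilOut N b p η 𝔖) (h' : PvilIn N b p η 𝔖') : PvuqG 𝔖 𝔖' :=
  pvuq_gate (delb_plane_isSph h.good) (pvgy_m_simple _) (pvjk_pos_inj hfr η) h.st.gate h'.st.gate (h.st.inmost.trans h'.st.inmost.symm)

/-- **THE STATE OF A KIT PLUG OF RECORD IS ONE OBJECT**: every colour, every frame `(z,d)`, every unit `r`      (`PvzlGt.unique` of 173, `pvkx_gate_ext` of 34) -/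
theorem pvjk_door_uniq {r : ℝ} {b : Bool} {η : Conf PvPt} {z d : ℂ} {𝔖 𝔖' : PvwSt (pvieT η)} (h : PvilDoor (pvkdP r) b η z d 𝔖) (h' : PvilDoor (pvkdP r) b η z d 𝔖') : 𝔖 = 𝔖' := by
  obtain ⟨hN, g, hg, rfl⟩ := h
  obtain ⟨-, g', hg', rfl⟩ := h'
  have hT : (pvieT η).IsSph := delb_plane_isSph hN.1.good
  have hne : g.vm ≠ g.vp := by
    intro e3
    have := g.c.inj 0 g.m (pl_cyc_pos g.c) (by have := g.hmn; omega) e3
    have := g.hm
    omega
  have hD : Disjoint ((pvkdP r).pg z d).Km ((pvkdP r).pg z d).Kp := by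
    refine Set.disjoint_left.2 ?_
    rintro _ ⟨u, hu, rfl⟩ ⟨u', hu', e⟩
    apply hne
    obtain ⟨a, ha, e1⟩ := hg.vm
    obtain ⟨a', ha', e2⟩ := hg.vp
    apply Subtype.ext
    rw [← e1, ← e2]
    by_cases hd : d = 0
    · subst hd
      unfold pvthSim
      ring
    · have e4 : u' = u := by
        unfold pvthSim at e
        exact mul_left_cancel₀ hd (add_left_cancel e)
      subst e4
      obtain ⟨b1, b2, -, -⟩ := hu
      obtain ⟨c1, c2, -, -⟩ := hu'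
      have hr : r = 0 := by linarith
      subst hr
      obtain ⟨p1, p2, p3, p4⟩ := ha
      obtain ⟨q1, q2, q3, q4⟩ := ha'
      have : a = a' := by
        apply Complex.ext
        · linarith
        · linarith
      rw [this]
  obtain ⟨he, hn, hm⟩ := PvzlGt.unique hT hD hg hg'
  rw [pvkx_gate_ext he hn hm]

/-- the point set is good at an end of a link -/
theorem pvjk_atP_good {L : PvilLk} {N : PvwNum} {b : Bool} {η : Conf PvPt} {𝔖 : PvwSt (pvieT η)} (h : L.AtP N b η 𝔖) : DelGood (pvieY η) := by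
  cases hd : L.dr
  · exact ((PvilLk.atP_pin hd N b η 𝔖).1 h).good
  · exact ((PvilLk.atP_door hd N b η 𝔖).1 h).1.1.good

/-- **`L'` IS A RETURN OF `L`**: the ends exchanged, with their kinds (door / marked) -/
structure PvjkRet (L L' : PvilLk) : Prop where
  p : L'.p = L.p'
  p' : L'.p' = L.p
  dr : L'.dr = L.dr'
  dr' : L'.dr' = L.dr
  fr : L.p.fr ≠ 0
  fr' : L.p'.fr ≠ 0

/-- **the end `p` of the link, seen by the link (exit) and by the return (entrance): the same gate part**      (marked end: `pvjk_gate`;   door end: ONE object) -/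
theorem pvjk_end {L L' : PvilLk} (hp' : L'.p' = L.p) (hd' : L'.dr' = L.dr) (hfr : L.p.fr ≠ 0) {N : PvwNum} {b : Bool} {η : Conf PvPt} {𝔘 𝔘' : PvwSt (pvieT η)}
    (h : L.AtP N b η 𝔘) (h' : L'.AtP' N b η 𝔘') : PvuqG 𝔘 𝔘' := by
  cases hd : L.dr
  · have h1 := (PvilLk.atP_pin hd N b η 𝔘).1 h
    have h2 := (PvilLk.atP'_pin (hd'.trans hd) N b η 𝔘').1 h'
    rw [hp'] at h2
    exact pvjk_gate hfr h1 h2
  · have h1 := (PvilLk.atP_door hd N b η 𝔘).1 h
    have h2 := (PvilLk.atP'_door (hd'.trans hd) N b η 𝔘').1 h'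
    rw [hp'] at h2
    rw [pvjk_door_uniq h1 h2]
    exact PvuqG.refl _

/-- **THE CLOSED PAIR**: the link `u → t` (states `𝔘` at the exit of `u`, `𝔗` at the entrance of `t`), the return `t → u` (states `𝔗'` at the exit of `t`, `𝔘'` at the entrance of `u`), the same gate parts      (= the hypothesis of the deterministic closing).
A marked end carries half states, a door end the state of its kit plug (`PvilLk.AtP`, `AtP'` of `Tr/InstL` v2.1). -/
structure PvjkPair (L L' : PvilLk) (N : PvwNum) (b : Bool) (η : Conf PvPt) (𝔘 𝔗 𝔗' 𝔘' : PvwSt (pvieT η)) (y y' : (pvieT η).Pth) : Prop where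
  e : L.Arc N b η 𝔘 𝔗 y
  c : L'.Arc N b η 𝔗' 𝔘' y'
  gu : PvuqG 𝔘 𝔘'
  gt : PvuqG 𝔗' 𝔗

theorem pvjk_pair {L L' : PvilLk} (R : PvjkRet L L') {N : PvwNum} {b : Bool} {η : Conf PvPt} {𝔘 𝔗 𝔗' 𝔘' : PvwSt (pvieT η)}
    {y y' : (pvieT η).Pth} (h : L.Arc N b η 𝔘 𝔗 y) (h' : L'.Arc N b η 𝔗' 𝔘' y') : PvjkPair L L' N b η 𝔘 𝔗 𝔗' 𝔘' y y' :=
  ⟨h, h', pvjk_end R.p' R.dr' R.fr h.at_p h'.at_p', pvjk_end (L := L') (L' := L) R.p.symm R.dr.symm (R.p ▸ R.fr') h'.at_p h.at_p'⟩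

namespace PvjkPair

variable {L L' : PvilLk} {N : PvwNum} {b : Bool} {η : Conf PvPt} {𝔘 𝔗 𝔗' 𝔘' : PvwSt (pvieT η)} {y y' : (pvieT η).Pth}

theorem sph (H : PvjkPair L L' N b η 𝔘 𝔗 𝔗' 𝔘' y y') : (pvieT η).IsSph := delb_plane_isSph (pvjk_atP_good H.e.at_p)

theorem simple (_H : PvjkPair L L' N b η 𝔘 𝔗 𝔗' 𝔘' y y') : (pvieT η).Simple := pvgy_m_simple _

/-- the run of the link -/
theorem run_e (H : PvjkPair L L' N b η 𝔘 𝔗 𝔗' 𝔘' y y') : ∃ n, pvasIt (pvieT η) (pvieCol η b) 𝔘.dp n = 𝔗.dm ∧ (∀ i, i < n → pvasIt (pvieT η) (pvieCol η b) 𝔘.dp i ≠ 𝔗.dm) ∧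
    PvwLE (pvieT η) (fun i => (pvieT η).src (pvasIt (pvieT η) (pvieCol η b) 𝔘.dp i)) n y := by
  obtain ⟨n, hr, hle⟩ := H.e.run
  exact ⟨n, hr.2.1, hr.2.2.1, hle⟩

/-- the run of the return, ON THE STATES OF THE LINK -/
theorem run_c (H : PvjkPair L L' N b η 𝔘 𝔗 𝔗' 𝔘' y y') : ∃ n, pvasIt (pvieT η) (pvieCol η b) 𝔗.dp n = 𝔘.dm ∧ (∀ i, i < n → pvasIt (pvieT η) (pvieCol η b) 𝔗.dp i ≠ 𝔘.dm) ∧
    PvwLE (pvieT η) (fun i => (pvieT η).src (pvasIt (pvieT η) (pvieCol η b) 𝔗.dp i)) n y' := by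
  obtain ⟨n, hr, hle⟩ := H.c.run
  rw [← H.gt.dp, H.gu.dm]
  exact ⟨n, hr.2.1, hr.2.2.1, hle⟩

end PvjkPair

/-- the deterministic closing at `η`, as it is consumed -/
def PvjkCl (L L' : PvilLk) (N : PvwNum) (b : Bool) (M : Set ℂ) (η : Conf PvPt) : Prop :=
  ∀ (𝔘 𝔗 𝔗' 𝔘' : PvwSt (pvieT η)) (y y' : (pvieT η).Pth), PvjkPair L L' N b η 𝔘 𝔗 𝔗' 𝔘' y y' → PvjkOne (pvieT η) (pvieCol η b) (pviePos η) M (fun w => L.val N η w 𝔘 𝔗 y)

theorem pvjk_eqns_cite2 : True := by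
  have := @PvjkCl.eq_1
  trivial

/-- **RECOGNITION AT ONE GOOD CONFIGURATION**: one raw tag for all the weights -/
theorem pvjk_at_pair {L L' : PvilLk} (R : PvjkRet L L') {N : PvwNum} {b : Bool} {M : Set ℂ} {η : Conf PvPt} (h : PvqfGood η)
    (hcl : PvjkCl L L' N b M η) (hA : η ∈ L.A N b) (hA' : η ∈ L'.A N b) :
    ∃ x, pvbeTag (pvktFl b η) x ∧ ∀ (W : Set ℂ → ℂ × ℂ → ℂ) (w : ∀ η : Conf PvPt, (delbPl (pvieY η)).Dart → ℂ), PvjkWt W w → L.X N b w η = pvbeLab W (M.indicator 1) (pvktFl b η) x := by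
  obtain ⟨𝔘, 𝔗, y, hy, e⟩ := pvjk_X_eq L N b hA
  obtain ⟨𝔗', 𝔘', y', hy'⟩ := hA'
  obtain ⟨x, hx, e1⟩ := pvjk_at h b (hcl 𝔘 𝔗 𝔗' 𝔘' y y' (pvjk_pair R hy hy'))
  exact ⟨x, hx, fun W w hW => by rw [e w]; exact e1 W w hW⟩

/-! ## 5. the a.e. layer -/

section ae

variable {ε : ℝ}

/-- **RECOGNITION, PLAIN EVENTS**.      `Me ⊆` plain success of the link, `Mf ⊆` plain success of the return: whatever else they contain (hulls, MESH of the windows: ruling 20 (3)) may be used by the producer of the closing `hcl`. -/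
theorem pvjk_recog (hε : 0 < ε) {L L' : PvilLk} (R : PvjkRet L L') {N : PvwNum} {b : Bool} {M : Set ℂ} {Me Mf : Set (Conf PvPt)}
    (hMe : Me ⊆ L.A N b) (hMf : Mf ⊆ L'.A N b) (hcl : ∀ᵐ η ∂pvP ε, η ∈ Me → η ∈ Mf → PvjkCl L L' N b M η) :
    ∀ᵐ η ∂pvP ε, η ∈ Me → η ∈ Mf →
      ∃ x, pvbeTag (pvktFl b η) x ∧ ∀ (W : Set ℂ → ℂ × ℂ → ℂ) (w : ∀ η : Conf PvPt, (delbPl (pvieY η)).Dart → ℂ), PvjkWt W w → L.X N b w η = pvbeLab W (M.indicator 1) (pvktFl b η) x := by
  filter_upwards [pvqf_good_ae ε hε.ne', hcl] with η h1 h2 hA hA'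
  exact pvjk_at_pair R h1 (h2 hA hA') (hMe hA) (hMf hA')

/-- **THE SOFT LAYER, GENERIC, form [LOC]**: a countable family of indices at once.      `A i`, `A' i`, `X i` = PLAIN (global) objects;   the experiment sees `Sure (A i)`, `Sure (A' i)`, `Loc (X i)` (251, `Tr/Sure`).
`P i η v` = any property of the value `v` at `η`. -/
theorem pvjk_soft {ι : Type*} [Countable ι] {Wn Wn' : ι → Set PvPt} (hW : ∀ i, MeasurableSet (Wn i)) (hW' : ∀ i, MeasurableSet (Wn' i)) {A A' : ι → Set (Conf PvPt)} {X : ι → Conf PvPt → ℂ}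
    (nA : ∀ i, NullMeasurableSet (A i) (pvP ε)) (nA' : ∀ i, NullMeasurableSet (A' i) (pvP ε)) (mX : ∀ i, AEMeasurable (X i) (pvP ε)) (dX : ∀ i, PvsuDet (pvP ε) (Wn i) (A i) (X i))
    {P : ι → Conf PvPt → ℂ → Prop} (hrec : ∀ i, ∀ᵐ η ∂pvP ε, η ∈ A i → η ∈ A' i → P i η (X i η)) :
    ∀ᵐ η ∂pvP ε, ∀ i, η ∈ pvsuSure (pvP ε) (Wn i) (A i) → η ∈ pvsuSure (pvP ε) (Wn' i) (A' i) → P i η (pvsuLoc (pvP ε) (Wn i) (X i) η) := by
  rw [ae_all_iff]
  intro i
  filter_upwards [pvsu_sure_sub (pv_isPpp ε) (hW i) (nA i), pvsu_sure_sub (pv_isPpp ε) (hW' i) (nA' i), pvsu_loc_eq (pv_isPpp ε) (hW i) (mX i) (dX i), hrec i] with η h1 h2 h3 h4 hA hA'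
  rw [h3 (h1 hA)]
  exact h4 (h1 hA) (h2 hA')

/-- **THE SOFT LAYER, GENERIC, form of RULING 20 (4)** (7 (D1)): the soft event is `Sure (A i ∩ {plain value = soft value})`: soft `=` plain a.s. BY DEFINITION, NO `PvsuDet`.      `Xs i` = ANY function (the soft value). -/
theorem pvjk_softD {ι : Type*} [Countable ι] {Wn Wn' : ι → Set PvPt} (hW : ∀ i, MeasurableSet (Wn i)) (hW' : ∀ i, MeasurableSet (Wn' i)) {A A' : ι → Set (Conf PvPt)} {F Xs : ι → Conf PvPt → ℂ}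
    (nA : ∀ i, NullMeasurableSet (A i ∩ {η | F i η = Xs i η}) (pvP ε)) (nA' : ∀ i, NullMeasurableSet (A' i) (pvP ε))
    {P : ι → Conf PvPt → ℂ → Prop} (hrec : ∀ i, ∀ᵐ η ∂pvP ε, η ∈ A i → η ∈ A' i → P i η (F i η)) :
    ∀ᵐ η ∂pvP ε, ∀ i, η ∈ pvsuSure (pvP ε) (Wn i) (A i ∩ {η | F i η = Xs i η}) → η ∈ pvsuSure (pvP ε) (Wn' i) (A' i) → P i η (Xs i η) := by
  rw [ae_all_iff]
  intro i
  filter_upwards [pvsu_sure_sub (pv_isPpp ε) (hW i) (nA i), pvsu_sure_sub (pv_isPpp ε) (hW' i) (nA' i), hrec i] with η h1 h2 h4 hA hA'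
  have h5 := h1 hA
  have e : F i η = Xs i η := h5.2
  rw [← e]
  exact h4 h5.1 (h2 hA')

/-- **RECOGNITION, SOFT EVENTS, form [LOC]** (`pvilSure`, `pvilLoc` of 168).      `Me i ⊆` plain success of the link, `Mf i ⊆` plain success of the return (hulls, mesh).
[MEAS] `nE nF mX`, [LOC] `dX` = the leaves (L1) of the special links. -/
theorem pvjk_recog_soft (hε : 0 < ε) {L L' : PvilLk} (R : PvjkRet L L') {N : PvwNum} {b : Bool} {M : Set ℂ}
    {W : Set ℂ → ℂ × ℂ → ℂ} {w : ∀ η : Conf PvPt, (delbPl (pvieY η)).Dart → ℂ} (hWt : PvjkWt W w)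
    {ι : Type*} [Countable ι] {Wn Wn' : ι → Set ℂ} (hW : ∀ i, MeasurableSet (Wn i)) (hW' : ∀ i, MeasurableSet (Wn' i)) {Me Mf : ι → Set (Conf PvPt)}
    (hMe : ∀ i, Me i ⊆ L.A N b) (hMf : ∀ i, Mf i ⊆ L'.A N b) (hcl : ∀ i, ∀ᵐ η ∂pvP ε, η ∈ Me i → η ∈ Mf i → PvjkCl L L' N b M η)
    (nE : ∀ i, NullMeasurableSet (Me i) (pvP ε)) (nF : ∀ i, NullMeasurableSet (Mf i) (pvP ε))
    (mX : ∀ i, AEMeasurable ((Me i).indicator (L.X N b w)) (pvP ε)) (dX : ∀ i, PvsuDet (pvP ε) (Wn i ×ˢ univ) (Me i) ((Me i).indicator (L.X N b w))) :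
    ∀ᵐ η ∂pvP ε, ∀ i, η ∈ pvilSure ε (Wn i) (Me i) → η ∈ pvilSure ε (Wn' i) (Mf i) →
      ∃ x, pvbeTag (pvktFl b η) x ∧ pvilLoc ε (Wn i) (Me i) (L.X N b w) η = pvbeLab W (M.indicator 1) (pvktFl b η) x := by
  refine pvjk_soft (Wn := fun i => Wn i ×ˢ univ) (Wn' := fun i => Wn' i ×ˢ univ) (fun i => (hW i).prod MeasurableSet.univ) (fun i => (hW' i).prod MeasurableSet.univ) nE nF mX dX
    (P := fun _ η v => ∃ x, pvbeTag (pvktFl b η) x ∧ v = pvbeLab W (M.indicator 1) (pvktFl b η) x) fun i => ?_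
  filter_upwards [pvjk_recog hε R (hMe i) (hMf i) (hcl i)] with η h1 hA hA'
  obtain ⟨x, hx, e⟩ := h1 hA hA'
  exact ⟨x, hx, by rw [indicator_of_mem hA]; exact e W w hWt⟩

/-- **RECOGNITION, SOFT EVENTS, form of RULING 20 (4)**: `e.A := pvilSure ε Wn (Me ∩ {η | L.X N b w η = e.X η})`, `e.X` = ANY function `Xs i`;   only [MEAS] is left. -/
theorem pvjk_recog_softD (hε : 0 < ε) {L L' : PvilLk} (R : PvjkRet L L') {N : PvwNum} {b : Bool} {M : Set ℂ}
    {W : Set ℂ → ℂ × ℂ → ℂ} {w : ∀ η : Conf PvPt, (delbPl (pvieY η)).Dart → ℂ} (hWt : PvjkWt W w)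
    {ι : Type*} [Countable ι] {Wn Wn' : ι → Set ℂ} (hW : ∀ i, MeasurableSet (Wn i)) (hW' : ∀ i, MeasurableSet (Wn' i)) {Me Mf : ι → Set (Conf PvPt)} {Xs : ι → Conf PvPt → ℂ}
    (hMe : ∀ i, Me i ⊆ L.A N b) (hMf : ∀ i, Mf i ⊆ L'.A N b) (hcl : ∀ i, ∀ᵐ η ∂pvP ε, η ∈ Me i → η ∈ Mf i → PvjkCl L L' N b M η)
    (nE : ∀ i, NullMeasurableSet (Me i ∩ {η | L.X N b w η = Xs i η}) (pvP ε)) (nF : ∀ i, NullMeasurableSet (Mf i) (pvP ε)) :
    ∀ᵐ η ∂pvP ε, ∀ i, η ∈ pvilSure ε (Wn i) (Me i ∩ {η | L.X N b w η = Xs i η}) → η ∈ pvilSure ε (Wn' i) (Mf i) →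
      ∃ x, pvbeTag (pvktFl b η) x ∧ Xs i η = pvbeLab W (M.indicator 1) (pvktFl b η) x := by
  refine pvjk_softD (Wn := fun i => Wn i ×ˢ univ) (Wn' := fun i => Wn' i ×ˢ univ) (fun i => (hW i).prod MeasurableSet.univ) (fun i => (hW' i).prod MeasurableSet.univ)
    (F := fun _ => L.X N b w) nE nF (P := fun _ η v => ∃ x, pvbeTag (pvktFl b η) x ∧ v = pvbeLab W (M.indicator 1) (pvktFl b η) x) fun i => ?_
  filter_upwards [pvjk_recog hε R (hMe i) (hMf i) (hcl i)] with η h1 hA hA'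
  obtain ⟨x, hx, e⟩ := h1 hA hA'
  exact ⟨x, hx, e W w hWt⟩

/-- **RECOGNITION AT THE FORM OF RECORD OF AN END** (`Tr/InstL` v2.1: `A := pvilFin Z (pvilSA ε (Wn Z) (Me Z) F)`, `X := pvilLoc ε (Wn Z) (Me Z) F`, `F := L.X N b w`), for ALL the hulls `Z` (link), `Z'` (return) at once: the guard `pvilFin` makes the family countable.
`Mf Z'` = ANY subset of the plain success of the return (for an end of record: `plain event ∩ {plain value = soft value}`, `pvilSA` is `pvilSure` of it by `rfl`).      `G Z Z'` = ANY deterministic guard on the pair of hulls (290, 12:30Z: the closing is false at pairs of hulls which are not those of ONE full state).      Only [MEAS] `nE nF`, the Borel windows and the deterministic closing `hcl` are left. -/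
theorem pvjk_recog_fin (hε : 0 < ε) {L L' : PvilLk} (R : PvjkRet L L') {N : PvwNum} {b : Bool} {M : Set ℂ}
    {W : Set ℂ → ℂ × ℂ → ℂ} {w : ∀ η : Conf PvPt, (delbPl (pvieY η)).Dart → ℂ} (hWt : PvjkWt W w) {Wn Wn' : Set (ℤ × ℤ) → Set ℂ} {Me Mf : Set (ℤ × ℤ) → Set (Conf PvPt)} (G : Set (ℤ × ℤ) → Set (ℤ × ℤ) → Prop)
    (hW : ∀ Z : Set (ℤ × ℤ), Z.Finite → MeasurableSet (Wn Z)) (hW' : ∀ Z : Set (ℤ × ℤ), Z.Finite → MeasurableSet (Wn' Z)) (hMe : ∀ Z, Me Z ⊆ L.A N b) (hMf : ∀ Z, Mf Z ⊆ L'.A N b)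
    (hcl : ∀ Z Z' : Set (ℤ × ℤ), Z.Finite → Z'.Finite → G Z Z' → ∀ᵐ η ∂pvP ε, η ∈ Me Z → η ∈ Mf Z' → PvjkCl L L' N b M η)
    (nE : ∀ Z : Set (ℤ × ℤ), Z.Finite → NullMeasurableSet (Me Z ∩ {η | L.X N b w η = pvilLoc ε (Wn Z) (Me Z) (L.X N b w) η}) (pvP ε)) (nF : ∀ Z : Set (ℤ × ℤ), Z.Finite → NullMeasurableSet (Mf Z) (pvP ε)) :
    ∀ᵐ η ∂pvP ε, ∀ Z Z' : Set (ℤ × ℤ), G Z Z' → η ∈ pvilFin Z (pvilSA ε (Wn Z) (Me Z) (L.X N b w)) → η ∈ pvilFin Z' (pvilSure ε (Wn' Z') (Mf Z')) →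
      ∃ x, pvbeTag (pvktFl b η) x ∧ pvilLoc ε (Wn Z) (Me Z) (L.X N b w) η = pvbeLab W (M.indicator 1) (pvktFl b η) x := by
  have key := pvjk_recog_softD hε R hWt (ι := {i : Finset (ℤ × ℤ) × Finset (ℤ × ℤ) // G ↑i.1 ↑i.2})
    (Wn := fun i => Wn ↑i.1.1) (Wn' := fun i => Wn' ↑i.1.2) (fun i => hW _ i.1.1.finite_toSet) (fun i => hW' _ i.1.2.finite_toSet)
    (Me := fun i => Me ↑i.1.1) (Mf := fun i => Mf ↑i.1.2) (Xs := fun i => pvilLoc ε (Wn ↑i.1.1) (Me ↑i.1.1) (L.X N b w)) (fun _ => hMe _) (fun _ => hMf _)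
    (fun i => hcl _ _ i.1.1.finite_toSet i.1.2.finite_toSet i.2) (fun i => nE _ i.1.1.finite_toSet) (fun i => nF _ i.1.2.finite_toSet)
  filter_upwards [key] with η h1 Z Z' hG hA hA'
  unfold pvilFin at hA hA'
  by_cases hZ : Z.Finite
  · by_cases hZ' : Z'.Finite
    · rw [if_pos hZ] at hA
      rw [if_pos hZ'] at hA'
      have := h1 ⟨(hZ.toFinset, hZ'.toFinset), by simpa only [Set.Finite.coe_toFinset] using hG⟩
      simp only [Set.Finite.coe_toFinset] at this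
      exact this hA hA'
    · rw [if_neg hZ'] at hA'
      exact absurd hA' (notMem_empty η)
  · rw [if_neg hZ] at hA
    exact absurd hA (notMem_empty η)

end ae

end Claimed.Agent.R289
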