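import Claimed.Agent.R289.Tr.InstE
import Claimed.Agent.R289.Tr.AtUniq

/-!
# Row 289 (S0537, Cardy for Poisson-Voronoi), THE WALL, file Tr/InstU : THE VALUE OF A LINK DOES NOT DEPEND ON THE WITNESSES      (owner helper150; (V4) of helper61, (T1) of helper247; prefix `pviu_`)

`Tr/InstE` (161) defines `PvieLk.X` by `Classical.choose` of `(𝔖, 𝔖', y)` and the fresh sites `pvieFrO pvieFrI` by "there is a state".      With `Tr/AtUniq` (the state is unique up to junk) these are honest functions of the configuration: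
* sec. 1  `pviu_at` (two `PvieAt` => `PvuqSame`), `pviu_run_time` (first hit), `pviu_run_congr`, **`pviu_arc`** (two `Arc`s: same states, same time, same rim arc), `pviu_mass` (mass of two paths with the same used data)
* sec. 2  **`pviu_val`** (`L.val` at two witnesses), **`pviu_X`** (`L.X = L.val` at ANY witness), `pviu_X_off`, `pviu_X_ne`
* sec. 3  **`pviu_frO`, `pviu_frI`** (the fresh sites read "the" state), `pviu_frO_off`, `pviu_frI_off`;   forms at the candidates of `PvxPar`: `pviu_Yo pviu_Yi pviu_Ye`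
* sec. 4  the state as a FUNCTION: `pviuSt N b p η` (a chosen state), `pviu_st_spec`, `pviu_st_same`
* sec. 5  `pviuSeg p i j` (the SET of the darts `i ≤ k < j` of a path), `pviuTm` (term of a dart), `pviu_mass_seg` (`pvwMass` = `finsum` over the set);   natural sets `L.Da L.Db L.Dy L.Dc` (defined by "there is a witness", empty off `L.A`),
          **`pviu_X_sum`**: `L.X` = four `finsum`s over these sets, AT EVERY `η`, no choice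
-/

set_option autoImplicit false
set_option linter.unusedSectionVars false

namespace Claimed.Agent.R289

open Set Claims.C0465

variable {N : PvwNum} {b : Bool} {η : Conf PvPt}

/-! ## 1. states, runs, arcs -/

/-- **the state of a placed plug is unique** -/
theorem pviu_at {p : PviePl} {𝔖 𝔖' : PvwSt (pvieT η)} (h : PvieAt N b p η 𝔖) (h' : PvieAt N b p η 𝔖') : PvuqSame 𝔖 𝔖' :=
  pvuq_del h.good h.st h'.st

/-- the time of a run is the first hit: unique -/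
theorem pviu_run_time (L : PvieLk) {𝔖 𝔖' 𝔖₁ 𝔖₁' : PvwSt (pvieT η)} {n n₁ : ℕ} (h : L.Run b η 𝔖 𝔖' n) (h₁ : L.Run b η 𝔖₁ 𝔖₁' n₁) (e : 𝔖.dp = 𝔖₁.dp) (e' : 𝔖'.dm = 𝔖₁'.dm) :
    n = n₁ := by
  obtain ⟨-, a1, a2, -⟩ := h
  obtain ⟨-, b1, b2, -⟩ := h₁
  rw [← e, ← e'] at b1 b2
  rcases lt_trichotomy n n₁ with hlt | he | hlt
  · exact absurd a1 (b2 n hlt)
  · exact he
  · exact absurd b1 (a2 n₁ hlt)

/-- a run only reads `dp`, `np` of the first state and `dm`, `nm` of the second -/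
theorem pviu_run_congr (L : PvieLk) {𝔖 𝔖' 𝔖₁ 𝔖₁' : PvwSt (pvieT η)} {n : ℕ} (h : L.Run b η 𝔖 𝔖' n) (e : 𝔖.dp = 𝔖₁.dp) (e' : 𝔖'.dm = 𝔖₁'.dm) (f : 𝔖.np = 𝔖₁.np) (f' : 𝔖'.nm = 𝔖₁'.nm) :
    L.Run b η 𝔖₁ 𝔖₁' n := by
  unfold PvieLk.Run at h ⊢
  rw [← e, ← e', ← f, ← f']
  exact h

/-- the mass of two paths with the same used data -/
theorem pviu_mass {V D : Type} {T : PvMap V D} {y y' : T.Pth} (he : ∀ k, k < y.n → y.e k = y'.e k) (pos : V → ℂ) (w : D → ℂ) (K : Set ℂ) {i j : ℕ} (hj : j ≤ y.n) :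
    pvwMass T pos w K y i j = pvwMass T pos w K y' i j := by
  unfold pvwMass
  refine Finset.sum_congr rfl fun k hk => ?_
  rw [he k (by have := (Finset.mem_Ico.1 hk).2; omega)]

/-- **two witnesses of the success of a link**: the same states, the same rim arc -/
theorem pviu_arc (L : PvieLk) {𝔖 𝔖' 𝔖₁ 𝔖₁' : PvwSt (pvieT η)} {y y₁ : (pvieT η).Pth} (h : L.Arc N b η 𝔖 𝔖' y) (h₁ : L.Arc N b η 𝔖₁ 𝔖₁' y₁) :
    PvuqSame 𝔖 𝔖₁ ∧ PvuqSame 𝔖' 𝔖₁' ∧ y.n = y₁.n ∧ (∀ k, k ≤ y.n → y.v k = y₁.v k) ∧ ∀ k, k < y.n → y.e k = y₁.e k := by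
  have s1 := pviu_at h.at_p h₁.at_p
  have s2 := pviu_at h.at_p' h₁.at_p'
  obtain ⟨n, r1, l1⟩ := h.run
  obtain ⟨n₁, r2, l2⟩ := h₁.run
  obtain rfl := pviu_run_time L r1 r2 s1.g.dp s2.g.dm
  rw [← s1.g.dp] at l2
  exact ⟨s1, s2, pvt_sd_unique (pvgy_m_simple _) l1 l2⟩

/-- the time of the run of a successful link -/
theorem pviu_arc_time (L : PvieLk) {𝔖 𝔖' 𝔖₁ 𝔖₁' : PvwSt (pvieT η)} {y y₁ : (pvieT η).Pth} (h : L.Arc N b η 𝔖 𝔖' y) (h₁ : L.Arc N b η 𝔖₁ 𝔖₁' y₁) {n n₁ : ℕ}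
    (r : L.Run b η 𝔖 𝔖' n) (r₁ : L.Run b η 𝔖₁ 𝔖₁' n₁) : n = n₁ :=
  pviu_run_time L r r₁ (pviu_at h.at_p h₁.at_p).g.dp (pviu_at h.at_p' h₁.at_p').g.dm

/-! ## 2. the value -/

/-- **the value of a link is the same at all witnesses** -/
theorem pviu_val (L : PvieLk) {𝔖 𝔖' 𝔖₁ 𝔖₁' : PvwSt (pvieT η)} {y y₁ : (pvieT η).Pth} (h : L.Arc N b η 𝔖 𝔖' y) (h₁ : L.Arc N b η 𝔖₁ 𝔖₁' y₁) (w : (delbPl (pvieY η)).Dart → ℂ) :
    L.val N η w 𝔖 𝔖' y = L.val N η w 𝔖₁ 𝔖₁' y₁ := by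
  obtain ⟨s1, s2, e1, -, e3⟩ := pviu_arc L h h₁
  unfold PvieLk.val
  rw [s1.g.mass _ w _ le_rfl, s1.g.mass _ w _ le_rfl, pviu_mass e3 _ w _ le_rfl, s2.g.mass _ w _ h.at_p'.st.out.gate.ip_le, s1.g.inn_n, s1.g.ip, e1, s2.g.ip]

/-- **`L.X` IS `L.val` AT ANY WITNESS** -/
theorem pviu_X (L : PvieLk) {𝔖 𝔖' : PvwSt (pvieT η)} {y : (pvieT η).Pth} (h : L.Arc N b η 𝔖 𝔖' y) (a : ℂ) : L.X N b a η = L.val N η (pvieFld η a) 𝔖 𝔖' y := by
  have hex : ∃ (𝔖 𝔖' : PvwSt (pvieT η)) (y : (pvieT η).Pth), L.Arc N b η 𝔖 𝔖' y := ⟨𝔖, 𝔖', y, h⟩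
  unfold PvieLk.X
  rw [dif_pos hex]
  exact pviu_val L hex.choose_spec.choose_spec.choose_spec h _

theorem pviu_X_off (L : PvieLk) (h : η ∉ L.A N b) (a : ℂ) : L.X N b a η = 0 := by
  unfold PvieLk.X
  exact dif_neg h

/-- the support of the value -/
theorem pviu_X_ne (L : PvieLk) {a : ℂ} (h : L.X N b a η ≠ 0) : η ∈ L.A N b := by
  by_contra hn
  exact h (pviu_X_off L hn a)

/-! ## 3. the fresh sites -/

/-- **the fresh sites of the exit mouth read "the" state** -/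
theorem pviu_frO {p : PviePl} {𝔖 : PvwSt (pvieT η)} (h : PvieAt N b p η 𝔖) (M : Set ℂ) : pvieFrO N b p M η = {v | v ∈ M ∧ ∀ u ∈ 𝔖.fzOut, pviePos η u ≠ v} := by
  ext v
  constructor
  · rintro ⟨hv, 𝔖', h', hu⟩
    exact ⟨hv, by rw [(pviu_at h h').fzOut]; exact hu⟩
  · rintro ⟨hv, hu⟩
    exact ⟨hv, 𝔖, h, hu⟩

/-- **the fresh sites of the entrance mouth read "the" state** -/
theorem pviu_frI {p : PviePl} {𝔖 : PvwSt (pvieT η)} (h : PvieAt N b p η 𝔖) (M : Set ℂ) : pvieFrI N b p M η = {v | v ∈ M ∧ ∀ u ∈ 𝔖.fzIn, pviePos η u ≠ v} := by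
  ext v
  constructor
  · rintro ⟨hv, 𝔖', h', hu⟩
    exact ⟨hv, by rw [(pviu_at h h').fzIn]; exact hu⟩
  · rintro ⟨hv, hu⟩
    exact ⟨hv, 𝔖, h, hu⟩

theorem pviu_frO_off {p : PviePl} (h : η ∉ pvieU N b p) (M : Set ℂ) : pvieFrO N b p M η = ∅ := by
  ext v
  simp only [mem_empty_iff_false, iff_false]
  rintro ⟨-, 𝔖, h', -⟩
  exact h ⟨𝔖, h'⟩

theorem pviu_frI_off {p : PviePl} (h : η ∉ pvieU N b p) (M : Set ℂ) : pvieFrI N b p M η = ∅ := by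
  ext v
  simp only [mem_empty_iff_false, iff_false]
  rintro ⟨-, 𝔖, h', -⟩
  exact h ⟨𝔖, h'⟩

theorem pviu_frO_sub {p : PviePl} (M : Set ℂ) : pvieFrO N b p M η ⊆ M := fun _ h => h.1

theorem pviu_frI_sub {p : PviePl} (M : Set ℂ) : pvieFrI N b p M η ⊆ M := fun _ h => h.1

/-- a frozen site is not fresh -/
theorem pviu_frO_not {p : PviePl} {𝔖 : PvwSt (pvieT η)} (h : PvieAt N b p η 𝔖) (M : Set ℂ) {u : ↥(pvieY η)} (hu : u ∈ 𝔖.fzOut) : pviePos η u ∉ pvieFrO N b p M η := by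
  rw [pviu_frO h]
  exact fun hv => hv.2 u hu rfl

theorem pviu_frI_not {p : PviePl} {𝔖 : PvwSt (pvieT η)} (h : PvieAt N b p η 𝔖) (M : Set ℂ) {u : ↥(pvieY η)} (hu : u ∈ 𝔖.fzIn) : pviePos η u ∉ pvieFrI N b p M η := by
  rw [pviu_frI h]
  exact fun hv => hv.2 u hu rfl

section cand

variable {τ : Type} {c : ℝ} (𝔓 : PvxPar τ c) (𝔈 : PvieEng τ) {m : ℕ} {ω : PVSample} {z : ℂ} {t : τ} {𝔖 : PvwSt (pvxT ω)}

theorem pviu_Yo (h : PvxAt 𝔓 m ω z t 𝔖) : pvieYo 𝔓 𝔈 m z t (pvConf ω) = {v | v ∈ pvieSh z (𝔈.oM m t) ∧ ∀ u ∈ 𝔖.fzOut, pvxPos ω u ≠ v} :=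
  pviu_frO ((pvie_at_iff 𝔓 m ω z t 𝔖).1 h) _

theorem pviu_Yi (h : PvxAt 𝔓 m ω z t 𝔖) : pvieYi 𝔓 𝔈 m z t (pvConf ω) = {v | v ∈ pvieSh z (𝔈.iM m t) ∧ ∀ u ∈ 𝔖.fzIn, pvxPos ω u ≠ v} :=
  pviu_frI ((pvie_at_iff 𝔓 m ω z t 𝔖).1 h) _

theorem pviu_Ye (h : PvxAt 𝔓 m ω z t 𝔖) : pvieYe 𝔓 𝔈 m z t (pvConf ω) = {v | v ∈ pvieSh z (𝔈.eM m t) ∧ ∀ u ∈ 𝔖.fzIn, pvxPos ω u ≠ v} :=
  pviu_frI ((pvie_at_iff 𝔓 m ω z t 𝔖).1 h) _

end cand

/-! ## 4. the state as a function of the configuration -/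

open Classical in
/-- **a chosen state of the placed plug** (junk off `pvieU`);   every state is `PvuqSame` to it -/
noncomputable def pviuSt (N : PvwNum) (b : Bool) (p : PviePl) (η : Conf PvPt) (h : η ∈ pvieU N b p) : PvwSt (pvieT η) := Exists.choose h

theorem pviu_st_spec {p : PviePl} (h : η ∈ pvieU N b p) : PvieAt N b p η (pviuSt N b p η h) := Exists.choose_spec h

theorem pviu_st_same {p : PviePl} {𝔖 : PvwSt (pvieT η)} (h : PvieAt N b p η 𝔖) : PvuqSame 𝔖 (pviuSt N b p η ⟨𝔖, h⟩) := pviu_at h (pviu_st_spec _)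

/-! ## 5. the value as a sum over NATURAL sets of darts (no choice)      [(T1) of 247] -/

section seg

variable {V D : Type} {T : PvMap V D}

/-- the darts number `i ≤ k < j` of a path -/
def pviuSeg (p : T.Pth) (i j : ℕ) : Set D := {d | ∃ k, i ≤ k ∧ k < j ∧ p.e k = d}

/-- the term of a dart in a mass -/
noncomputable def pviuTm (T : PvMap V D) (pos : V → ℂ) (w : D → ℂ) (K : Set ℂ) (d : D) : ℂ := by
  classical exact if T.bary pos (T.opp d) ∈ K then w (T.opp d) else 0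

theorem pviu_e_inj (p : T.Pth) {k l : ℕ} (hk : k < p.n) (hl : l < p.n) (h : p.e k = p.e l) : k = l :=
  p.inj k l hk.le hl.le (by rw [← p.src_e k hk, ← p.src_e l hl, h])

theorem pviu_seg_eq (p : T.Pth) (i j : ℕ) : pviuSeg p i j = p.e '' (Finset.Ico i j : Set ℕ) := by
  ext d
  constructor
  · rintro ⟨k, h1, h2, rfl⟩
    exact ⟨k, Finset.mem_coe.2 (Finset.mem_Ico.2 ⟨h1, h2⟩), rfl⟩
  · rintro ⟨k, hk, rfl⟩
    obtain ⟨h1, h2⟩ := Finset.mem_Ico.1 (Finset.mem_coe.1 hk)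
    exact ⟨k, h1, h2, rfl⟩

theorem pviu_seg_finite (p : T.Pth) (i j : ℕ) : (pviuSeg p i j).Finite := by
  rw [pviu_seg_eq]
  exact (Finset.finite_toSet _).image _

/-- **a mass is a sum over the SET of the darts of the piece** -/
theorem pviu_mass_seg (p : T.Pth) (pos : V → ℂ) (w : D → ℂ) (K : Set ℂ) {i j : ℕ} (hj : j ≤ p.n) : pvwMass T pos w K p i j = ∑ᶠ d ∈ pviuSeg p i j, pviuTm T pos w K d := by
  rw [pviu_seg_eq, finsum_mem_image, finsum_mem_coe_finset]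
  · rfl
  · intro k hk l hl h
    have h1 := (Finset.mem_Ico.1 (Finset.mem_coe.1 hk)).2
    have h2 := (Finset.mem_Ico.1 (Finset.mem_coe.1 hl)).2
    exact pviu_e_inj p (by omega) (by omega) h

/-- the pieces of two paths with the same used data -/
theorem pviu_seg_congr {y y' : T.Pth} (he : ∀ k, k < y.n → y.e k = y'.e k) {i j : ℕ} (hj : j ≤ y.n) : pviuSeg y i j = pviuSeg y' i j := by
  ext d
  constructor
  · rintro ⟨k, h1, h2, rfl⟩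
    exact ⟨k, h1, h2, (he k (by omega)).symm⟩
  · rintro ⟨k, h1, h2, rfl⟩
    exact ⟨k, h1, h2, he k (by omega)⟩

end seg

namespace PvieLk

variable (L : PvieLk)

/-- the darts of the inner arc of the first plug (empty off the success event) -/
def Da (N : PvwNum) (b : Bool) (η : Conf PvPt) : Set (delbPl (pvieY η)).Dart := {d | ∃ (𝔖 𝔖' : PvwSt (pvieT η)) (y : (pvieT η).Pth), L.Arc N b η 𝔖 𝔖' y ∧ d ∈ pviuSeg 𝔖.inn 0 𝔖.inn.n}
/-- the darts of the inner arc of the first plug after its marked vertex -/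
def Db (N : PvwNum) (b : Bool) (η : Conf PvPt) : Set (delbPl (pvieY η)).Dart := {d | ∃ (𝔖 𝔖' : PvwSt (pvieT η)) (y : (pvieT η).Pth), L.Arc N b η 𝔖 𝔖' y ∧ d ∈ pviuSeg 𝔖.inn 𝔖.ip 𝔖.inn.n}
/-- the darts of the rim arc between the two gates -/
def Dy (N : PvwNum) (b : Bool) (η : Conf PvPt) : Set (delbPl (pvieY η)).Dart := {d | ∃ (𝔖 𝔖' : PvwSt (pvieT η)) (y : (pvieT η).Pth), L.Arc N b η 𝔖 𝔖' y ∧ d ∈ pviuSeg y 0 y.n}
/-- the darts of the inner arc of the second plug before its marked vertex -/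
def Dc (N : PvwNum) (b : Bool) (η : Conf PvPt) : Set (delbPl (pvieY η)).Dart := {d | ∃ (𝔖 𝔖' : PvwSt (pvieT η)) (y : (pvieT η).Pth), L.Arc N b η 𝔖 𝔖' y ∧ d ∈ pviuSeg 𝔖'.inn 0 𝔖'.ip}

end PvieLk

/-- the four natural sets at a witness -/
theorem pviu_D_eq (L : PvieLk) {𝔖 𝔖' : PvwSt (pvieT η)} {y : (pvieT η).Pth} (h : L.Arc N b η 𝔖 𝔖' y) :
    L.Da N b η = pviuSeg 𝔖.inn 0 𝔖.inn.n ∧ L.Db N b η = pviuSeg 𝔖.inn 𝔖.ip 𝔖.inn.n ∧ L.Dy N b η = pviuSeg y 0 y.n ∧ L.Dc N b η = pviuSeg 𝔖'.inn 0 𝔖'.ip := by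
  refine ⟨?_, ?_, ?_, ?_⟩ <;> ext d <;> constructor
  · rintro ⟨𝔖₁, 𝔖₁', y₁, h₁, hd⟩
    obtain ⟨s1, -, -, -, -⟩ := pviu_arc L h h₁
    rwa [pviu_seg_congr s1.g.inn_e le_rfl, s1.g.inn_n]
  · exact fun hd => ⟨𝔖, 𝔖', y, h, hd⟩
  · rintro ⟨𝔖₁, 𝔖₁', y₁, h₁, hd⟩
    obtain ⟨s1, -, -, -, -⟩ := pviu_arc L h h₁
    rwa [pviu_seg_congr s1.g.inn_e le_rfl, s1.g.inn_n, s1.g.ip]
  · exact fun hd => ⟨𝔖, 𝔖', y, h, hd⟩
  · rintro ⟨𝔖₁, 𝔖₁', y₁, h₁, hd⟩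
    obtain ⟨-, -, e1, -, e3⟩ := pviu_arc L h h₁
    rwa [pviu_seg_congr e3 le_rfl, e1]
  · exact fun hd => ⟨𝔖, 𝔖', y, h, hd⟩
  · rintro ⟨𝔖₁, 𝔖₁', y₁, h₁, hd⟩
    obtain ⟨-, s2, -, -, -⟩ := pviu_arc L h h₁
    rwa [pviu_seg_congr s2.g.inn_e h.at_p'.st.out.gate.ip_le, s2.g.ip]
  · exact fun hd => ⟨𝔖, 𝔖', y, h, hd⟩

/-- the four natural sets are empty off the success event -/
theorem pviu_D_off (L : PvieLk) (h : η ∉ L.A N b) : L.Da N b η = ∅ ∧ L.Db N b η = ∅ ∧ L.Dy N b η = ∅ ∧ L.Dc N b η = ∅ := by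
  refine ⟨?_, ?_, ?_, ?_⟩ <;> ext d <;> simp only [mem_empty_iff_false, iff_false] <;> rintro ⟨𝔖, 𝔖', y, h', -⟩ <;> exact h ⟨𝔖, 𝔖', y, h'⟩

/-- **THE VALUE OF A LINK, WITHOUT CHOICE, AT EVERY CONFIGURATION**: four sums over natural finite sets of darts -/
theorem pviu_X_sum (L : PvieLk) (N : PvwNum) (b : Bool) (a : ℂ) (η : Conf PvPt) :
    L.X N b a η = ∑ᶠ d ∈ L.Da N b η, pviuTm (pvieT η) (pviePos η) (pvieFld η a) (Metric.closedBall L.p.z (N.m * L.p.h)) d + ∑ᶠ d ∈ L.Db N b η, pviuTm (pvieT η) (pviePos η) (pvieFld η a) (L.off N) d +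
      ∑ᶠ d ∈ L.Dy N b η, pviuTm (pvieT η) (pviePos η) (pvieFld η a) (L.off N) d + ∑ᶠ d ∈ L.Dc N b η, pviuTm (pvieT η) (pviePos η) (pvieFld η a) (L.off N) d := by
  by_cases h : η ∈ L.A N b
  · obtain ⟨𝔖, 𝔖', y, h⟩ := h
    obtain ⟨e1, e2, e3, e4⟩ := pviu_D_eq L h
    rw [pviu_X L h, e1, e2, e3, e4]
    unfold PvieLk.val
    rw [pviu_mass_seg _ _ _ _ le_rfl, pviu_mass_seg _ _ _ _ le_rfl, pviu_mass_seg _ _ _ _ le_rfl, pviu_mass_seg _ _ _ _ h.at_p'.st.out.gate.ip_le]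
  · obtain ⟨e1, e2, e3, e4⟩ := pviu_D_off L h
    rw [pviu_X_off L h, e1, e2, e3, e4]
    simp

theorem pviu_eqns_cite : True := by
  have := @pviuSt.eq_1; have := @pviuSeg.eq_1; have := @pviuTm.eq_1; have := @PvieLk.Da.eq_1; have := @PvieLk.Db.eq_1; have := @PvieLk.Dy.eq_1; have := @PvieLk.Dc.eq_1
  trivial

end Claimed.Agent.R289
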