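import Claimed.Agent.R289.Tr.LinkLocD
import Claimed.Agent.R289.Tr.InstL
import Claimed.Agent.R289.Tr.AtUniq

/-!
# Row 289 (S0537, Cardy for Poisson-Voronoi), THE WALL, ROAD E, file Tr/LinkLocA : THE SPECIAL LINKS OF `Tr/InstL` v2.1 ON `(T, pos, s)`: TRANSFER AND UNIQUENESS      (owner helper74; prefix `pvll_`, `Pvll`, `pvll`; continuation of `Tr/LinkLoc`, `Tr/LinkLocD`)

v2.2 (12:50Z) = ON `Tr/InstL` v2.2 (163, FROZEN): tips at the black end, `lev0`, DOOR ENDS (`PvilDoor`), hulls of record `pvilHuO δ r ..` WITH the mouth ball (only `pvll_huO_eq pvll_huI_eq` changed since v2).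
`Tr/InstL` types the half states `PvilOut PvilIn`, the door end `PvilDoor`, the link `PvilLk.Arc` and its value `PvilLk.val` on the plane map of a configuration.      HERE the same bodies on ANY `(T, pos, s)`:
* sec. 1  `PvllOut N p T pos s 𝔖`, `PvllIn ..`, `pvllSt T pos s z b g` (state of a kit plug), `PvllDr 𝔭 T pos s z d 𝔖` (door end without its guard), `PvllAtP`, `PvllAtP'`, `PvllArc N L T pos s 𝔖 𝔖' y`, `pvllVal N L T pos w 𝔖 𝔖' y`;   the GUARD `pvllGd L` (`DelGood` + `𝔭.N` of the door ends);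
          bridges `pvll_out_iff pvll_in_iff pvll_st_eq pvll_door_iff pvll_atP_iff pvll_atP'_iff` **`pvll_arc_iff`** (`L.Arc = guard ∧ PvllArc`), `pvll_val_eq` (`rfl`)
* sec. 2  frames (`‖fr‖ = 1`), footprints: `pvll_inn_near`, `PvllOut.near`, `PvllIn.near`, `PvllOut.toP`, `PvllIn.toM`;   `PvllFtP N L K T pos 𝔖`, `PvllFtP'` = THE FOOT OF AN END LIES IN `K` (door: `pg.Sub K`, disc; marked: `‖fr‖ = 1`, gate disc, black sites of the stub)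
* sec. 3  TRANSFER: marked ends along `PvLocP` (22): **`pvll_out`**, **`pvll_in`**, `pvll_fzOut_pos`, `pvll_fzIn_pos`;   door ends over `PvplIso` + `PvymOk` (238, 247): **`pvll_dr_tr`**;   any end: `pvll_atP_tr`, `pvll_atP'_tr`;
          **`pvll_arc_tr`** : twin witnesses `(𝔖₁, 𝔖₁', y₁)` with the twin relations, `PvllArc` in `T'`, THE SAME VALUE
* sec. 4  UNIQUENESS among simple spheres with injective positions: `pvll_out_unique`, `pvll_in_unique`, `pvll_dr_unique`, `PvllUq L` (`‖fr‖ = 1` at a marked end, rooms of `g⁻ g⁺` disjoint at a door), **`pvll_arc_unique`**, **`pvll_val_unique`**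
* sec. 5  at the model: `pvll_uq_pin`, `pvll_pg_disj`, `pvll_X_eq` (`L.X = L.val` at ANY witness), `pvll_X_off`, `pvll_fzO_eq pvll_fzI_eq pvll_huO_eq pvll_huI_eq` (the base data `F`, `Z` of 168 read "the" half state)
-/

set_option autoImplicit false

namespace Claimed.Agent.R289

open Set Metric Claims.C0465
open scoped ComplexConjugate

variable {V D V' D' : Type}

/-! ## 1. the bodies of `Tr/InstL` on `(T, pos, s)` -/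

/-- the body of `PvilOut` -/
structure PvllOut (N : PvwNum) (p : PvilPl) (T : PvMap V D) (pos : V → ℂ) (s : V → Bool) (𝔖 : PvwSt T) : Prop where
  st : 𝔖.AtOut (fun v => conj p.fr * pos v) N p.h p.zf p.ty s
  tip : pos (T.src (𝔖.ep 𝔖.np)) ∈ p.cp
  mask : ∀ y : T.Pth, PvwLE T (fun i => T.src (𝔖.ep i)) 𝔖.np y → ∀ v ∈ y.verts, pos v ∈ p.Mp
  mask_i : ∀ i, 𝔖.ip ≤ i → i ≤ 𝔖.inn.n → (N.m - 1) * p.h < ‖pos (𝔖.inn.v i) - p.z‖ → pos (𝔖.inn.v i) ∈ p.Mp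
  lev0 : p.lev

/-- the body of `PvilIn` -/
structure PvllIn (N : PvwNum) (p : PvilPl) (T : PvMap V D) (pos : V → ℂ) (s : V → Bool) (𝔖 : PvwSt T) : Prop where
  st : 𝔖.AtIn (fun v => conj p.fr * pos v) N p.h p.zf p.ty s
  tip : pos (T.src (𝔖.em 𝔖.nm)) ∈ p.cm
  mask : ∀ y : T.Pth, PvwLE T (fun i => T.src (𝔖.em i)) 𝔖.nm y → ∀ v ∈ y.verts, pos v ∈ p.Mm
  mask_i : ∀ i, i ≤ 𝔖.ip → (N.m - 1) * p.h < ‖pos (𝔖.inn.v i) - p.z‖ → pos (𝔖.inn.v i) ∈ p.Mm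
  lev0 : p.lev

open Classical in
/-- the body of `pvilStS` -/
noncomputable def pvllSt (T : PvMap V D) (pos : V → ℂ) (s : V → Bool) (z : ℂ) (b : ℝ) (g : T.Gate s) : PvwSt T :=
  ⟨{v | ‖pos v - z‖ < b}, g.c, g.aOut, g.aIn, pvtArc T s g.aIn g.len, 0, 0, fun _ => g.aOut, 0, fun _ => g.aIn⟩

/-- the body of `PvilDoorS`, WITHOUT THE GUARD `η ∈ 𝔭.N z d` -/
def PvllDr (𝔭 : PvkdPlug) (T : PvMap V D) (pos : V → ℂ) (s : V → Bool) (z d : ℂ) (𝔖 : PvwSt T) : Prop :=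
  ∃ g : T.Gate s, PvzlGt T pos s (𝔭.pg z d) g ∧ 𝔖 = pvllSt T pos s z 𝔭.b g

/-- the body of `PvilLk.AtP` -/
def PvllAtP (N : PvwNum) (L : PvilLk) (T : PvMap V D) (pos : V → ℂ) (s : V → Bool) (𝔖 : PvwSt T) : Prop :=
  if L.dr then PvllDr (pvkdP L.p.h) T pos s L.p.z L.p.fr 𝔖 else PvllOut N L.p T pos s 𝔖

/-- the body of `PvilLk.AtP'` -/
def PvllAtP' (N : PvwNum) (L : PvilLk) (T : PvMap V D) (pos : V → ℂ) (s : V → Bool) (𝔖 : PvwSt T) : Prop :=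
  if L.dr' then PvllDr (pvkdP L.p'.h) T pos s L.p'.z L.p'.fr 𝔖 else PvllIn N L.p' T pos s 𝔖

/-- the body of `PvilLk.Arc` -/
structure PvllArc (N : PvwNum) (L : PvilLk) (T : PvMap V D) (pos : V → ℂ) (s : V → Bool) (𝔖 𝔖' : PvwSt T) (y : T.Pth) : Prop where
  at_p : PvllAtP N L T pos s 𝔖
  at_p' : PvllAtP' N L T pos s 𝔖'
  run : ∃ n, PvllLk T pos s L.Yin 𝔖 𝔖' n y

/-- the body of `PvilLk.val` -/
noncomputable def pvllVal (N : PvwNum) (L : PvilLk) (T : PvMap V D) (pos : V → ℂ) (w : D → ℂ) (𝔖 𝔖' : PvwSt T) (y : T.Pth) : ℂ :=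
  pvllV L.dr L.dr' (L.ball N) (L.msk N) T pos w 𝔖 𝔖' y

/-- **THE GUARD OF A LINK**: a good configuration; nice, with the mesh of the plug, at the door ends -/
def pvllGd (L : PvilLk) : Set (Conf PvPt) :=
  {η | DelGood (pvieY η) ∧ (L.dr = true → η ∈ (pvkdP L.p.h).N L.p.z L.p.fr) ∧ (L.dr' = true → η ∈ (pvkdP L.p'.h).N L.p'.z L.p'.fr)}

theorem pvll_eqns_cite2 : True := by
  have := @pvllVal.eq_1; have := @pvllSt.eq_1; have := @PvllDr.eq_1; have := @PvllAtP.eq_1; have := @PvllAtP'.eq_1; have := @pvllGd.eq_1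
  trivial

section bridge

variable {N : PvwNum} {b : Bool} {η : Conf PvPt}

theorem pvll_out_iff {p : PvilPl} {𝔖 : PvwSt (pvieT η)} : PvilOut N b p η 𝔖 ↔ DelGood (pvieY η) ∧ PvllOut N p (pvieT η) (pviePos η) (pvieCol η b) 𝔖 :=
  ⟨fun h => ⟨h.good, h.st, h.tip, h.mask, h.mask_i, h.lev0⟩, fun h => ⟨h.1, h.2.st, h.2.tip, h.2.mask, h.2.mask_i, h.2.lev0⟩⟩

theorem pvll_in_iff {p : PvilPl} {𝔖 : PvwSt (pvieT η)} : PvilIn N b p η 𝔖 ↔ DelGood (pvieY η) ∧ PvllIn N p (pvieT η) (pviePos η) (pvieCol η b) 𝔖 :=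
  ⟨fun h => ⟨h.good, h.st, h.tip, h.mask, h.mask_i, h.lev0⟩, fun h => ⟨h.1, h.2.st, h.2.tip, h.2.mask, h.2.mask_i, h.2.lev0⟩⟩

theorem pvll_st_eq (𝔭 : PvkdPlug) (η : Conf PvPt) (s : ↥(pvieY η) → Bool) (z : ℂ) (g : (pvieT η).Gate s) : pvilStS 𝔭 η s z g = pvllSt (pvieT η) (pviePos η) s z 𝔭.b g := by
  unfold pvilStS pvllSt
  congr!

theorem pvll_door_iff {𝔭 : PvkdPlug} {z d : ℂ} {𝔖 : PvwSt (pvieT η)} : PvilDoor 𝔭 b η z d 𝔖 ↔ η ∈ 𝔭.N z d ∧ PvllDr 𝔭 (pvieT η) (pviePos η) (pvieCol η b) z d 𝔖 := by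
  constructor
  · rintro ⟨h1, g, h2, h3⟩
    exact ⟨h1, g, h2, h3.trans (pvll_st_eq _ _ _ _ _)⟩
  · rintro ⟨h1, g, h2, h3⟩
    exact ⟨h1, g, h2, h3.trans (pvll_st_eq _ _ _ _ _).symm⟩

theorem pvll_atP_iff {L : PvilLk} {𝔖 : PvwSt (pvieT η)} :
    L.AtP N b η 𝔖 ↔ (DelGood (pvieY η) ∧ (L.dr = true → η ∈ (pvkdP L.p.h).N L.p.z L.p.fr)) ∧ PvllAtP N L (pvieT η) (pviePos η) (pvieCol η b) 𝔖 := by
  unfold PvilLk.AtP PvllAtP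
  cases hd : L.dr
  · simp only [Bool.false_eq_true, if_false, false_imp_iff, and_true]
    exact pvll_out_iff
  · simp only [if_true, true_imp_iff]
    rw [pvll_door_iff]
    exact ⟨fun h => ⟨⟨h.1.1.good, h.1⟩, h.2⟩, fun h => ⟨h.1.2, h.2⟩⟩

theorem pvll_atP'_iff {L : PvilLk} {𝔖 : PvwSt (pvieT η)} :
    L.AtP' N b η 𝔖 ↔ (DelGood (pvieY η) ∧ (L.dr' = true → η ∈ (pvkdP L.p'.h).N L.p'.z L.p'.fr)) ∧ PvllAtP' N L (pvieT η) (pviePos η) (pvieCol η b) 𝔖 := by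
  unfold PvilLk.AtP' PvllAtP'
  cases hd : L.dr'
  · simp only [Bool.false_eq_true, if_false, false_imp_iff, and_true]
    exact pvll_in_iff
  · simp only [if_true, true_imp_iff]
    rw [pvll_door_iff]
    exact ⟨fun h => ⟨⟨h.1.1.good, h.1⟩, h.2⟩, fun h => ⟨h.1.2, h.2⟩⟩

/-- **`L.Arc` = GUARD ∧ the model free body** -/
theorem pvll_arc_iff {L : PvilLk} {𝔖 𝔖' : PvwSt (pvieT η)} {y : (pvieT η).Pth} :
    L.Arc N b η 𝔖 𝔖' y ↔ η ∈ pvllGd L ∧ PvllArc N L (pvieT η) (pviePos η) (pvieCol η b) 𝔖 𝔖' y := by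
  constructor
  · intro h
    obtain ⟨n, h1, h2⟩ := h.run
    obtain ⟨⟨a1, a2⟩, a3⟩ := pvll_atP_iff.1 h.at_p
    obtain ⟨⟨-, b2⟩, b3⟩ := pvll_atP'_iff.1 h.at_p'
    exact ⟨⟨a1, a2, b2⟩, a3, b3, n, h1, h2⟩
  · rintro ⟨⟨g1, g2, g3⟩, h1, h2, n, h3, h4⟩
    exact ⟨pvll_atP_iff.2 ⟨⟨g1, g2⟩, h1⟩, pvll_atP'_iff.2 ⟨⟨g1, g3⟩, h2⟩, n, h3, h4⟩

theorem pvll_val_eq (L : PvilLk) (w : (delbPl (pvieY η)).Dart → ℂ) (𝔖 𝔖' : PvwSt (pvieT η)) (y : (pvieT η).Pth) :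
    L.val N η w 𝔖 𝔖' y = pvllVal N L (pvieT η) (pviePos η) w 𝔖 𝔖' y := rfl

end bridge

/-! ## 2. frames, footprints -/

theorem pvll_fr_inj {f : ℂ} (hf : ‖f‖ = 1) : Function.Injective fun w : ℂ => conj f * w := by
  have h0 : conj f ≠ 0 := by
    intro h
    rw [map_eq_zero] at h
    rw [h, norm_zero] at hf
    exact zero_ne_one hf
  exact mul_right_injective₀ h0

theorem pvll_fr_norm {f : ℂ} (hf : ‖f‖ = 1) (a b : ℂ) : ‖conj f * a - conj f * b‖ = ‖a - b‖ := by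
  rw [← mul_sub, norm_mul, Complex.norm_conj, hf, one_mul]

theorem pvll_fr_ball {f : ℂ} (hf : ‖f‖ = 1) {z : ℂ} {r : ℝ} {Kr : Set ℂ} (h : closedBall z r ⊆ Kr) : closedBall (conj f * z) r ⊆ (fun w : ℂ => conj f * w) '' Kr := by
  intro u hu
  have e : conj f * (f * u) = u := by
    rw [← mul_assoc, Complex.conj_mul', hf]
    simp
  refine ⟨f * u, h ?_, e⟩
  rw [mem_closedBall_iff_norm] at hu ⊢
  rw [← pvll_fr_norm hf, e]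
  exact hu

section foot

variable {T : PvMap V D} {pos : V → ℂ} {s : V → Bool} {𝔖 : PvwSt T}

/-- the inner arc of a gate stays within `b h` of the centre -/
theorem pvll_inn_near {h : ℝ} {z : ℂ} {ty : PvwTy} (hg : 𝔖.Gate pos h z ty s) {i : ℕ} (hi : i ≤ 𝔖.inn.n) : ‖pos (𝔖.inn.v i) - z‖ ≤ ty.b * h := by
  obtain ⟨n, h1, h2, j, -, -, h3, -⟩ := hg.strand
  obtain ⟨a1, a2, -⟩ := h3 i hi
  simp only at a2
  rw [a2]
  rcases a1.eq_or_lt with e | e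
  · rw [e, h1]
    obtain ⟨k, hk⟩ := hg.dp_on
    refine (hg.ann _ ⟨k + 1, ?_⟩).2.le
    rw [← 𝔖.S.chain, hk, T.tgt_opp]
  · exact (hg.inside _ ⟨_, h2 _ e, rfl⟩).le

/-- a point of the square lies within twice the half side of the centre -/
theorem pvll_sq_near {z w : ℂ} {r : ℝ} (h : w ∈ pvwSq z r) : ‖w - z‖ ≤ 2 * r := by
  have h1 := Complex.norm_le_abs_re_add_abs_im (w - z)
  linarith [h.1, h.2]

variable {N : PvwNum} {p : PvilPl}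

theorem PvllOut.inn_near (hf : ‖p.fr‖ = 1) (h : PvllOut N p T pos s 𝔖) {i : ℕ} (hi : i ≤ 𝔖.inn.n) : pos (𝔖.inn.v i) ∈ closedBall p.z (p.ty.b * p.h) := by
  rw [mem_closedBall_iff_norm, ← pvll_fr_norm hf]
  exact pvll_inn_near h.st.gate hi

theorem PvllIn.inn_near (hf : ‖p.fr‖ = 1) (h : PvllIn N p T pos s 𝔖) {i : ℕ} (hi : i ≤ 𝔖.inn.n) : pos (𝔖.inn.v i) ∈ closedBall p.z (p.ty.b * p.h) := by
  rw [mem_closedBall_iff_norm, ← pvll_fr_norm hf]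
  exact pvll_inn_near h.st.gate hi

/-- the sites of the exit stub lie within `2 r_k` of the centre -/
theorem PvllOut.near (hf : ‖p.fr‖ = 1) (h : PvllOut N p T pos s 𝔖) {i : ℕ} (hi : i ≤ 𝔖.np) :
    pos (T.src (𝔖.ep i)) ∈ closedBall p.z (2 * pvwRad N p.h p.ty p.ty.k) ∧ pos (T.tgt (𝔖.ep i)) ∈ closedBall p.z (2 * pvwRad N p.h p.ty p.ty.k) := by
  rw [mem_closedBall_iff_norm, mem_closedBall_iff_norm, ← pvll_fr_norm hf, ← pvll_fr_norm hf (pos (T.tgt _))]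
  exact ⟨pvll_sq_near (h.st.stub.ep_in i hi).1, pvll_sq_near (h.st.stub.ep_in i hi).2⟩

/-- the sites of the entrance stub lie within `2 r_k` of the centre -/
theorem PvllIn.near (hf : ‖p.fr‖ = 1) (h : PvllIn N p T pos s 𝔖) {i : ℕ} (hi : i ≤ 𝔖.nm) :
    pos (T.src (𝔖.em i)) ∈ closedBall p.z (2 * pvwRad N p.h p.ty p.ty.k) ∧ pos (T.tgt (𝔖.em i)) ∈ closedBall p.z (2 * pvwRad N p.h p.ty p.ty.k) := by
  rw [mem_closedBall_iff_norm, mem_closedBall_iff_norm, ← pvll_fr_norm hf, ← pvll_fr_norm hf (pos (T.tgt _))]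
  exact ⟨pvll_sq_near (h.st.stub.em_in i hi).1, pvll_sq_near (h.st.stub.em_in i hi).2⟩

variable {Kr : Set ℂ}

/-- the exit half state as the exit end of a link -/
theorem PvllOut.toP (hf : ‖p.fr‖ = 1) (hK : closedBall p.z (p.ty.b * p.h) ⊆ Kr) (hKp : ∀ i, i ≤ 𝔖.np → pos (T.src (𝔖.ep i)) ∈ Kr) (h : PvllOut N p T pos s 𝔖) : PvllP Kr T pos s 𝔖 :=
  ⟨h.st.gate.bw_p, fun i hi => by rw [← h.st.stub.ep_it i hi]; exact hKp i hi, fun _ hk => hK (h.inn_near hf hk)⟩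

/-- the entrance half state as the entrance end of a link -/
theorem PvllIn.toM (hf : ‖p.fr‖ = 1) (hK : closedBall p.z (p.ty.b * p.h) ⊆ Kr) (hKm : ∀ i, i ≤ 𝔖.nm → pos (T.src (𝔖.em i)) ∈ Kr) (h : PvllIn N p T pos s 𝔖) : PvllM Kr T pos s 𝔖 :=
  ⟨fun i hi => by rw [← h.st.stub.em_it i hi]; exact hKm i hi, fun _ hk => hK (h.inn_near hf hk)⟩

end foot

/-- **THE FOOT OF THE EXIT END LIES IN `K`** -/
def PvllFtP (L : PvilLk) (K : Set ℂ) (T : PvMap V D) (pos : V → ℂ) (𝔖 : PvwSt T) : Prop :=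
  if L.dr then ((pvkdP L.p.h).pg L.p.z L.p.fr).Sub K ∧ closedBall L.p.z (pvkdP L.p.h).b ⊆ K
  else ‖L.p.fr‖ = 1 ∧ closedBall L.p.z (L.p.ty.b * L.p.h) ⊆ K ∧ ∀ i, i ≤ 𝔖.np → pos (T.src (𝔖.ep i)) ∈ K

/-- **THE FOOT OF THE ENTRANCE END LIES IN `K`** -/
def PvllFtP' (L : PvilLk) (K : Set ℂ) (T : PvMap V D) (pos : V → ℂ) (𝔖 : PvwSt T) : Prop :=
  if L.dr' then ((pvkdP L.p'.h).pg L.p'.z L.p'.fr).Sub K ∧ closedBall L.p'.z (pvkdP L.p'.h).b ⊆ K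
  else ‖L.p'.fr‖ = 1 ∧ closedBall L.p'.z (L.p'.ty.b * L.p'.h) ⊆ K ∧ ∀ i, i ≤ 𝔖.nm → pos (T.src (𝔖.em i)) ∈ K

theorem pvll_eqns_cite4 : True := by
  have := @PvllFtP.eq_1; have := @PvllFtP'.eq_1
  trivial

/-! ## 3. transfer -/

section transfer

variable {T : PvMap V D} {T' : PvMap V' D'} {R : D → D' → Prop} {pos : V → ℂ} {pos' : V' → ℂ} {Kr : Set ℂ} {s : V → Bool} {s' : V' → Bool} {N : PvwNum}

/-- **THE EXIT HALF STATE OF A PLACED PLUG HAS A TWIN** (state in the frame of the plug, tip cell, masks) -/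
theorem pvll_out (Lc : PvLocP T T' R pos pos' Kr) (hT : T.IsSph) (hs : ∀ d d', R d d' → s (T.src d) = s' (T'.src d')) {p : PvilPl} (hf : ‖p.fr‖ = 1)
    (hK : closedBall p.z (p.ty.b * p.h) ⊆ Kr) {𝔖 : PvwSt T} (hKp : ∀ i, i ≤ 𝔖.np → pos (T.src (𝔖.ep i)) ∈ Kr) (h : PvllOut N p T pos s 𝔖) :
    ∃ 𝔖₁ : PvwSt T', PvLocSP R 𝔖 𝔖₁ ∧ PvllOut N p T' pos' s' 𝔖₁ := by
  have Lf := pvll_locP_map Lc (pvll_fr_inj hf)
  have hKf : closedBall p.zf (p.ty.b * p.h) ⊆ (fun w : ℂ => conj p.fr * w) '' Kr := pvll_fr_ball hf hK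
  obtain ⟨𝔖₁, G⟩ := pvlw_sp_exists_h Lf hKf h.st.gate fun i hi => ⟨_, hKp i hi, rfl⟩
  refine ⟨𝔖₁, G, pvlw_atOut Lf hT hs G hKf h.st, ?_, ?_, ?_, h.lev0⟩
  · rw [G.np, ← Lc.pos_eq _ _ (G.ep _ le_rfl)]; exact h.tip
  · rw [G.np]; exact pvll_le_all Lc (fun i hi => pvloc_v_src (G.ep i hi)) hKp h.mask
  · intro i hi1 hi2
    rw [G.gt.ip] at hi1
    rw [G.gt.inn.n_eq] at hi2
    rw [← pvlw_pos Lc (G.gt.inn.v_rel i hi2)]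
    exact h.mask_i i hi1 hi2

/-- **THE ENTRANCE HALF STATE OF A PLACED PLUG HAS A TWIN** -/
theorem pvll_in (Lc : PvLocP T T' R pos pos' Kr) (hT : T.IsSph) (hs : ∀ d d', R d d' → s (T.src d) = s' (T'.src d')) {p : PvilPl} (hf : ‖p.fr‖ = 1)
    (hK : closedBall p.z (p.ty.b * p.h) ⊆ Kr) {𝔖 : PvwSt T} (hKm : ∀ i, i ≤ 𝔖.nm → pos (T.src (𝔖.em i)) ∈ Kr) (h : PvllIn N p T pos s 𝔖) :
    ∃ 𝔖₁ : PvwSt T', PvLocSM R 𝔖 𝔖₁ ∧ PvllIn N p T' pos' s' 𝔖₁ := by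
  have Lf := pvll_locP_map Lc (pvll_fr_inj hf)
  have hKf : closedBall p.zf (p.ty.b * p.h) ⊆ (fun w : ℂ => conj p.fr * w) '' Kr := pvll_fr_ball hf hK
  obtain ⟨𝔖₁, G⟩ := pvlw_sm_exists_h Lf hKf h.st.gate fun i hi => ⟨_, hKm i hi, rfl⟩
  refine ⟨𝔖₁, G, pvlw_atIn_h Lf hT hs G hKf (fun i hi => ⟨_, hKm i hi, rfl⟩) h.st, ?_, ?_, ?_, h.lev0⟩
  · rw [G.nm, ← Lc.pos_eq _ _ (G.em _ le_rfl)]; exact h.tip
  · rw [G.nm]; exact pvll_le_all Lc (fun i hi => pvloc_v_src (G.em i hi)) hKm h.mask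
  · intro i hi1
    rw [G.gt.ip] at hi1
    rw [← pvlw_pos Lc (G.gt.inn.v_rel i (hi1.trans h.st.gate.ip_le))]
    exact h.mask_i i hi1

/-- corresponding sets of vertices have the same positions -/
theorem pvll_set_pos (Lc : PvLocP T T' R pos pos' Kr) {A : Set V} {A' : Set V'} (h : PvLocSet T T' R A A') : pos '' A = pos' '' A' := by
  ext w
  constructor
  · rintro ⟨v, hv, rfl⟩
    obtain ⟨v', h1, h2⟩ := h.1 v hv
    exact ⟨v', h2, (pvlw_pos Lc h1).symm⟩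
  · rintro ⟨v', hv', rfl⟩
    obtain ⟨v, h1, h2⟩ := h.2 v' hv'
    exact ⟨v, h2, pvlw_pos Lc h1⟩

/-- twin exit half states freeze the same POSITIONS -/
theorem pvll_fzOut_pos (Lc : PvLocP T T' R pos pos' Kr) {𝔖 : PvwSt T} {𝔖₁ : PvwSt T'} (G : PvLocSP R 𝔖 𝔖₁) : pos '' 𝔖.fzOut = pos' '' 𝔖₁.fzOut := pvll_set_pos Lc (pvlw_fzOut Lc.loc G)

/-- twin entrance half states freeze the same POSITIONS -/
theorem pvll_fzIn_pos (Lc : PvLocP T T' R pos pos' Kr) {𝔖 : PvwSt T} {𝔖₁ : PvwSt T'} (G : PvLocSM R 𝔖 𝔖₁) : pos '' 𝔖.fzIn = pos' '' 𝔖₁.fzIn := pvll_set_pos Lc (pvlw_fzIn Lc.loc G)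

end transfer

section transfer2

variable {T : PvMap V D} {T' : PvMap V' D'} {pos : V → ℂ} {pos' : V' → ℂ} {K : Set ℂ} {s : V → Bool} {s' : V' → Bool} {Rv : V → V' → Prop} {N : PvwNum}

theorem pvll_dr_door (hT : T.IsSph) (hS : T.Simple) {𝔭 : PvkdPlug} {z d : ℂ} {g : T.Gate s} (hg : PvzlGt T pos s (𝔭.pg z d) g) : PvllDoor T pos s (𝔭.pg z d) z 𝔭.b g (pvllSt T pos s z 𝔭.b g) := by
  classical
  exact pvll_door_mk hT hS hg z 𝔭.b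

/-- **THE DOOR END HAS A TWIN**, with its feet -/
theorem pvll_dr_tr (h : PvplIso T pos s T' pos' s' K Rv) (o : PvymOk T pos K) (o' : PvymOk T' pos' K) {𝔭 : PvkdPlug} {z d : ℂ} (hp : (𝔭.pg z d).Sub K) (hb : closedBall z 𝔭.b ⊆ K)
    {𝔖 : PvwSt T} (hd : PvllDr 𝔭 T pos s z d 𝔖) :
    ∃ 𝔖₁ : PvwSt T', PvLocSt (pvplRK T pos T' K Rv) 𝔖 𝔖₁ ∧ PvllDr 𝔭 T' pos' s' z d 𝔖₁ ∧ PvllP K T pos s 𝔖 ∧ PvllM K T pos s 𝔖 ∧ 𝔖.ip ≤ 𝔖.inn.n := by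
  obtain ⟨g, hg, rfl⟩ := hd
  have Dr := pvll_dr_door o.sph o.simple hg
  obtain ⟨g', hg', tw⟩ := pvll_door_twin h o o' hp hb Dr
  exact ⟨pvllSt T' pos' s' z 𝔭.b g', tw _ (pvll_dr_door o'.sph o'.simple hg'), ⟨g', hg', rfl⟩, Dr.toP o.sph hp, Dr.toM o.sph hp, by rw [Dr.ip]; exact Nat.zero_le _⟩

/-- **THE EXIT END OF A LINK HAS A TWIN**, whatever its kind -/
theorem pvll_atP_tr (h : PvplIso T pos s T' pos' s' K Rv) (o : PvymOk T pos K) (o' : PvymOk T' pos' K) {L : PvilLk} {𝔖 : PvwSt T} (hft : PvllFtP L K T pos 𝔖) (ha : PvllAtP N L T pos s 𝔖) :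
    ∃ 𝔖₁ : PvwSt T', PvLocSP (pvplRK T pos T' K Rv) 𝔖 𝔖₁ ∧ PvllAtP N L T' pos' s' 𝔖₁ ∧ PvllP K T pos s 𝔖 := by
  unfold PvllFtP at hft
  unfold PvllAtP at ha ⊢
  cases hd : L.dr
  · simp only [hd, Bool.false_eq_true, if_false] at hft ha ⊢
    obtain ⟨hf, hK, hKp⟩ := hft
    have Lc := pvym_locP h o o' (d0 := 𝔖.ep 0) (hKp 0 (Nat.zero_le _))
    obtain ⟨𝔖₁, G, h1⟩ := pvll_out Lc o.sph h.loc_col hf hK hKp ha
    exact ⟨𝔖₁, G, h1, ha.toP hf hK hKp⟩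
  · simp only [hd, if_true] at hft ha ⊢
    obtain ⟨𝔖₁, G, h1, h2, -, -⟩ := pvll_dr_tr h o o' hft.1 hft.2 ha
    exact ⟨𝔖₁, G.toP, h1, h2⟩

/-- **THE ENTRANCE END OF A LINK HAS A TWIN**, whatever its kind -/
theorem pvll_atP'_tr (h : PvplIso T pos s T' pos' s' K Rv) (o : PvymOk T pos K) (o' : PvymOk T' pos' K) {L : PvilLk} {𝔖 : PvwSt T} (hft : PvllFtP' L K T pos 𝔖) (ha : PvllAtP' N L T pos s 𝔖) :
    ∃ 𝔖₁ : PvwSt T', PvLocSM (pvplRK T pos T' K Rv) 𝔖 𝔖₁ ∧ PvllAtP' N L T' pos' s' 𝔖₁ ∧ PvllM K T pos s 𝔖 ∧ 𝔖.ip ≤ 𝔖.inn.n := by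
  unfold PvllFtP' at hft
  unfold PvllAtP' at ha ⊢
  cases hd : L.dr'
  · simp only [hd, Bool.false_eq_true, if_false] at hft ha ⊢
    obtain ⟨hf, hK, hKm⟩ := hft
    have Lc := pvym_locP h o o' (d0 := 𝔖.em 0) (hKm 0 (Nat.zero_le _))
    obtain ⟨𝔖₁, G, h1⟩ := pvll_in Lc o.sph h.loc_col hf hK hKm ha
    exact ⟨𝔖₁, G, h1, ha.toM hf hK hKm, ha.st.gate.ip_le⟩
  · simp only [hd, if_true] at hft ha ⊢
    obtain ⟨𝔖₁, G, h1, -, h2, h3⟩ := pvll_dr_tr h o o' hft.1 hft.2 ha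
    exact ⟨𝔖₁, G.toM, h1, h2, h3⟩

/-- **THE LINK OF `Tr/InstL` v2.1 IS CARRIED OVER WITH ITS VALUE**: the feet of the two ends and the room lie in `K` -/
theorem pvll_arc_tr (h : PvplIso T pos s T' pos' s' K Rv) (o : PvymOk T pos K) (o' : PvymOk T' pos' K) {L : PvilLk} (hY : L.Yin ⊆ K) {𝔖 𝔖' : PvwSt T} {y : T.Pth}
    (hft : PvllFtP L K T pos 𝔖) (hft' : PvllFtP' L K T pos 𝔖') (ha : PvllArc N L T pos s 𝔖 𝔖' y) {w : D → ℂ} {w' : D' → ℂ} (hw : ∀ d d', pvplRK T pos T' K Rv d d' → w d = w' d') :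
    ∃ (𝔖₁ 𝔖₁' : PvwSt T') (y₁ : T'.Pth), PvLocSP (pvplRK T pos T' K Rv) 𝔖 𝔖₁ ∧ PvLocSM (pvplRK T pos T' K Rv) 𝔖' 𝔖₁' ∧ PvLocPth (pvplRK T pos T' K Rv) y y₁ ∧ PvllArc N L T' pos' s' 𝔖₁ 𝔖₁' y₁ ∧
      pvllVal N L T' pos' w' 𝔖₁ 𝔖₁' y₁ = pvllVal N L T pos w 𝔖 𝔖' y := by
  obtain ⟨𝔖₁, G, h1, hp⟩ := pvll_atP_tr h o o' hft ha.at_p
  obtain ⟨𝔖₁', G', h1', hm, hip⟩ := pvll_atP'_tr h o o' hft' ha.at_p'
  obtain ⟨n, hn⟩ := ha.run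
  have Lc := pvym_locP h o o' (d0 := 𝔖.dp) (by have := hp.stub 0 (Nat.zero_le _); rwa [pvas_it_zero] at this)
  obtain ⟨y₁, P, hy₁, hv⟩ := pvll_lk_tr Lc h.loc_col hY G G' hp hm hip hn hw
  exact ⟨𝔖₁, 𝔖₁', y₁, G, G', P, ⟨h1, h1', n, hy₁⟩, hv _ _ _ _⟩

end transfer2

/-! ## 4. uniqueness -/

/-- what uniqueness asks of the data of a link: `‖fr‖ = 1` at a marked end, disjoint rooms of `g⁻`, `g⁺` at a door -/
def PvllUq (L : PvilLk) : Prop :=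
  (if L.dr then Disjoint ((pvkdP L.p.h).pg L.p.z L.p.fr).Km ((pvkdP L.p.h).pg L.p.z L.p.fr).Kp else ‖L.p.fr‖ = 1) ∧
    (if L.dr' then Disjoint ((pvkdP L.p'.h).pg L.p'.z L.p'.fr).Km ((pvkdP L.p'.h).pg L.p'.z L.p'.fr).Kp else ‖L.p'.fr‖ = 1)

theorem pvll_eqns_cite5 : True := by
  have := @PvllUq.eq_1
  trivial

section unique

variable {T : PvMap V D} {pos : V → ℂ} {s : V → Bool} {N : PvwNum}

theorem pvll_out_unique (hT : T.IsSph) (hS : T.Simple) (hpos : Function.Injective pos) {p : PvilPl} (hf : ‖p.fr‖ = 1) {𝔖 𝔖₁ : PvwSt T} (h : PvllOut N p T pos s 𝔖) (h₁ : PvllOut N p T pos s 𝔖₁) :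
    PvuqG 𝔖 𝔖₁ ∧ PvuqP 𝔖 𝔖₁ := pvuq_atOut hT hS ((pvll_fr_inj hf).comp hpos) h.st h₁.st

theorem pvll_in_unique (hT : T.IsSph) (hS : T.Simple) (hpos : Function.Injective pos) {p : PvilPl} (hf : ‖p.fr‖ = 1) {𝔖 𝔖₁ : PvwSt T} (h : PvllIn N p T pos s 𝔖) (h₁ : PvllIn N p T pos s 𝔖₁) :
    PvuqG 𝔖 𝔖₁ ∧ PvuqM 𝔖 𝔖₁ := pvuq_atIn hT hS ((pvll_fr_inj hf).comp hpos) h.st h₁.st

theorem pvll_dr_unique (hT : T.IsSph) (hS : T.Simple) {𝔭 : PvkdPlug} {z d : ℂ} (hdis : Disjoint (𝔭.pg z d).Km (𝔭.pg z d).Kp) {𝔖 𝔖₁ : PvwSt T} (h : PvllDr 𝔭 T pos s z d 𝔖) (h₁ : PvllDr 𝔭 T pos s z d 𝔖₁) :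
    PvllEq 𝔖 𝔖₁ := by
  obtain ⟨g, hg, rfl⟩ := h
  obtain ⟨g₁, hg₁, rfl⟩ := h₁
  exact pvll_door_unique hT hS hdis (pvll_dr_door hT hS hg) (pvll_dr_door hT hS hg₁)

/-- **two witnesses of the success of a link**: the same data at the ends, the same rim arc -/
theorem pvll_arc_unique (hT : T.IsSph) (hS : T.Simple) (hpos : Function.Injective pos) {L : PvilLk} (hu : PvllUq L) {𝔖 𝔖' 𝔖₁ 𝔖₁' : PvwSt T} {y y₁ : T.Pth}
    (h : PvllArc N L T pos s 𝔖 𝔖' y) (h₁ : PvllArc N L T pos s 𝔖₁ 𝔖₁' y₁) : PvllEq 𝔖 𝔖₁ ∧ PvllEq 𝔖' 𝔖₁' ∧ 𝔖'.ip ≤ 𝔖'.inn.n := by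
  obtain ⟨u1, u2⟩ := hu
  have a1 := h.at_p
  have a2 := h₁.at_p
  have b1 := h.at_p'
  have b2 := h₁.at_p'
  unfold PvllAtP at a1 a2
  unfold PvllAtP' at b1 b2
  refine ⟨?_, ?_⟩
  · cases hd : L.dr
    · simp only [hd, Bool.false_eq_true, if_false] at u1 a1 a2
      exact pvll_eq_of_uq (pvll_out_unique hT hS hpos u1 a1 a2).1
    · simp only [hd, if_true] at u1 a1 a2
      exact pvll_dr_unique hT hS u1 a1 a2
  · cases hd : L.dr'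
    · simp only [hd, Bool.false_eq_true, if_false] at u2 b1 b2
      exact ⟨pvll_eq_of_uq (pvll_in_unique hT hS hpos u2 b1 b2).1, b1.st.gate.ip_le⟩
    · simp only [hd, if_true] at u2 b1 b2
      refine ⟨pvll_dr_unique hT hS u2 b1 b2, ?_⟩
      obtain ⟨g, -, rfl⟩ := b1
      exact Nat.zero_le _

/-- **the value of a link is the same at all witnesses** -/
theorem pvll_val_unique (hT : T.IsSph) (hS : T.Simple) (hpos : Function.Injective pos) {L : PvilLk} (hu : PvllUq L) {𝔖 𝔖' 𝔖₁ 𝔖₁' : PvwSt T} {y y₁ : T.Pth}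
    (h : PvllArc N L T pos s 𝔖 𝔖' y) (h₁ : PvllArc N L T pos s 𝔖₁ 𝔖₁' y₁) (w : D → ℂ) : pvllVal N L T pos w 𝔖 𝔖' y = pvllVal N L T pos w 𝔖₁ 𝔖₁' y₁ := by
  obtain ⟨e, e', hip⟩ := pvll_arc_unique hT hS hpos hu h h₁
  obtain ⟨n, hn⟩ := h.run
  obtain ⟨n₁, hn₁⟩ := h₁.run
  exact pvll_v_unique hS e e' hip hn hn₁ _ _ _ _ w

end unique

/-! ## 5. at the model -/

section model

variable {N : PvwNum} {b : Bool} {η : Conf PvPt}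

/-- the rooms of `g⁻`, `g⁺` of the plug of record are disjoint -/
theorem pvll_pg_disj {r : ℝ} (hr : 0 < r) (z : ℂ) {d : ℂ} (hd : d ≠ 0) : Disjoint ((pvkdP r).pg z d).Km ((pvkdP r).pg z d).Kp := by
  rw [Set.disjoint_left]
  rintro _ ⟨a, ha, rfl⟩ ⟨a', ha', e⟩
  have e2 : a' = a := by
    have : d * a' = d * a := add_left_cancel e
    exact mul_left_cancel₀ hd this
  subst e2
  have h1 : a'.re ≤ -(r / 2) := ha.2.1
  have h2 : r / 2 ≤ a'.re := ha'.1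
  linarith

/-- **`L.X` IS `L.val` AT ANY WITNESS** -/
theorem pvll_X_eq {L : PvilLk} (hu : PvllUq L) {𝔖 𝔖' : PvwSt (pvieT η)} {y : (pvieT η).Pth} (h : L.Arc N b η 𝔖 𝔖' y) (w : ∀ η : Conf PvPt, (delbPl (pvieY η)).Dart → ℂ) :
    L.X N b w η = L.val N η (w η) 𝔖 𝔖' y := by
  have hex : ∃ (𝔖 𝔖' : PvwSt (pvieT η)) (y : (pvieT η).Pth), L.Arc N b η 𝔖 𝔖' y := ⟨𝔖, 𝔖', y, h⟩
  unfold PvilLk.X
  rw [dif_pos hex]
  exact pvll_val_unique (delb_plane_isSph (pvll_arc_iff.1 h).1.1) (pvgy_m_simple _) Subtype.val_injective hu (pvll_arc_iff.1 hex.choose_spec.choose_spec.choose_spec).2 (pvll_arc_iff.1 h).2 _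

theorem pvll_X_off {L : PvilLk} (h : η ∉ L.A N b) (w : ∀ η : Conf PvPt, (delbPl (pvieY η)).Dart → ℂ) : L.X N b w η = 0 := by
  unfold PvilLk.X
  exact dif_neg h

variable {p : PvilPl}

theorem pvll_pl_out_unique (hf : ‖p.fr‖ = 1) {𝔖 𝔖₁ : PvwSt (pvieT η)} (h : PvilOut N b p η 𝔖) (h₁ : PvilOut N b p η 𝔖₁) : PvuqG 𝔖 𝔖₁ ∧ PvuqP 𝔖 𝔖₁ :=
  pvll_out_unique (delb_plane_isSph h.good) (pvgy_m_simple _) Subtype.val_injective hf (pvll_out_iff.1 h).2 (pvll_out_iff.1 h₁).2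

theorem pvll_pl_in_unique (hf : ‖p.fr‖ = 1) {𝔖 𝔖₁ : PvwSt (pvieT η)} (h : PvilIn N b p η 𝔖) (h₁ : PvilIn N b p η 𝔖₁) : PvuqG 𝔖 𝔖₁ ∧ PvuqM 𝔖 𝔖₁ :=
  pvll_in_unique (delb_plane_isSph h.good) (pvgy_m_simple _) Subtype.val_injective hf (pvll_in_iff.1 h).2 (pvll_in_iff.1 h₁).2

/-- the base datum `F` reads "the" exit half state -/
theorem pvll_fzO_eq (hf : ‖p.fr‖ = 1) {𝔖 : PvwSt (pvieT η)} (h : PvilOut N b p η 𝔖) : pvilFzO N b p η = pviePos η '' 𝔖.fzOut := by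
  ext v
  constructor
  · rintro ⟨𝔖₁, h₁, u, hu, rfl⟩
    obtain ⟨g1, g2⟩ := pvll_pl_out_unique hf h₁ h
    exact ⟨u, g1.fzOut g2 ▸ hu, rfl⟩
  · rintro ⟨u, hu, rfl⟩
    exact ⟨𝔖, h, u, hu, rfl⟩

/-- the base datum `F` reads "the" entrance half state -/
theorem pvll_fzI_eq (hf : ‖p.fr‖ = 1) {𝔖 : PvwSt (pvieT η)} (h : PvilIn N b p η 𝔖) : pvilFzI N b p η = pviePos η '' 𝔖.fzIn := by
  ext v
  constructor
  · rintro ⟨𝔖₁, h₁, u, hu, rfl⟩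
    obtain ⟨g1, g2⟩ := pvll_pl_in_unique hf h₁ h
    exact ⟨u, g1.fzIn g2 ▸ hu, rfl⟩
  · rintro ⟨u, hu, rfl⟩
    exact ⟨𝔖, h, u, hu, rfl⟩

/-- the base datum `Z` reads "the" exit half state -/
theorem pvll_huO_eq (hf : ‖p.fr‖ = 1) {𝔖 : PvwSt (pvieT η)} (h : PvilOut N b p η 𝔖) (δ r : ℝ) : pvilHuO δ r N b p η = pvtCells δ (pviePos η '' 𝔖.fzOut ∪ Metric.closedBall (p.ty.cp p.h p.z) r) := by
  ext q
  constructor
  · rintro ⟨𝔖₁, h₁, hq⟩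
    obtain ⟨g1, g2⟩ := pvll_pl_out_unique hf h₁ h
    rwa [g1.fzOut g2] at hq
  · exact fun hq => ⟨𝔖, h, hq⟩

/-- the base datum `Z` reads "the" entrance half state -/
theorem pvll_huI_eq (hf : ‖p.fr‖ = 1) {𝔖 : PvwSt (pvieT η)} (h : PvilIn N b p η 𝔖) (δ r : ℝ) : pvilHuI δ r N b p η = pvtCells δ (pviePos η '' 𝔖.fzIn ∪ Metric.closedBall (p.ty.cm p.h p.z) r) := by
  ext q
  constructor
  · rintro ⟨𝔖₁, h₁, hq⟩
    obtain ⟨g1, g2⟩ := pvll_pl_in_unique hf h₁ h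
    rwa [g1.fzIn g2] at hq
  · exact fun hq => ⟨𝔖, h, hq⟩

end model

end Claimed.Agent.R289
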