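-- KEEP
import Claimed.Agent.R289.Tr.PinLoc
import Claimed.Agent.R289.Del.Bulk

/-!
# Row 289 (S0537), THE WALL, file Tr/MeasG : GENERIC MEASURABILITY OF EVERYTHING WHICH IS READ FROM THE POSITIONED COLOURED MAP NEAR `K`      (helper247; prefix `pvym_`, `Pvym`, `pvym`)

`Tr/PinLoc` (238) and `Tr/PinLocF` (107) treat predicates / sums which read the positions through countably many ONE-VERTEX tests.      The states of `Tr/Defs` compare positions with RANDOM centres (tips): tests on 2, 3 points.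
HERE: positions themselves are the marks (`κ = ℂ`).      OBJECT  `G : PvymFn M` `= ∀ V D, PvMap V D → (V → ℂ) → (V → Bool) → M`      (`M = Prop`: events; `M = ℂ, ℝ≥0∞`: values).
* (L)  `G.Local K`  : invariance under `PvplIso T pos s T' pos' s' K R` of SIMPLE SPHERES WITH DISTINCT POSITIONS IN `K` (`PvymOk T pos K`: `sph simple inj`; EQUAL positions of corresponding vertices; nothing is asked at the other vertices).
       For `M = Prop`: `pvym_local_of_imp` (one implication), `pvym_local_of_locS` (from `PvbfLocS` of 248).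
* (A)  `G.MeasP`    : MEASURABLE IN THE POSITIONS ON A FIXED MAP: `y ↦ G V D T (pvymPos ι zi y) s` is measurable on `Fin n → ℂ`, for every `ι : V → Option (Fin n)`.
* **`pvym_main`** : (L) + (A) + `K ⊆ pvtrCore (3ρ) E`  ⟹  ONE `F : Conf PvPt → M`, `Measurable`, `Conf.Reads (E ×ˢ univ)`, `= G` of EVERY completion on `{finitely many points in E, 𝔅.Ok, PvtrMesh ρ E, zi ∉ K}`.      `pvym_main_set` (events).
* (C) ⟹ (A) : `PvymSame A1 A2 A3 pos pos'` (the same answers to finitely many Borel tests on 1, 2, 3 points);   **`pvym_measP_of_pieces`** (on every class of `PvymSame` the function is measurable), **`pvym_measP_of_congr`** (constant on the classes: events, selected objects).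
* values at a CHOSEN witness (`PvieLk.X`, `PvwDat.Y`): `pvymPick3`, **`pvym_measP_pick3`** ((A) WITHOUT uniqueness), **`pvym_local_pick3`** ((L): transfer of the witnesses + the value does not depend on the witness).
* calculus of (A) and (L): constants, `comp`, `comp₂`, `ite`, `recol` (colour bit), positions of a vertex;   `PvymRep.plane` (= the model `pvieT η`, `pviePos η`, `cfCol η` of `Tr/InstE`).
-/

set_option autoImplicit false
set_option linter.unusedSectionVars false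

namespace Claimed.Agent.R289

open MeasureTheory Set Metric Claims.C0465

/-! ## 1. definitions -/

/-- a function of positioned coloured maps -/
def PvymFn (M : Type) : Type 1 := ∀ V D : Type, PvMap V D → (V → ℂ) → (V → Bool) → M

/-- a simple sphere whose vertices placed in `K` have DISTINCT positions (what the uniqueness of the states needs: `Gate.ori`) -/
structure PvymOk {V D : Type} (T : PvMap V D) (pos : V → ℂ) (K : Set ℂ) : Prop where
  sph : T.IsSph
  simple : T.Simple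
  inj : InjOn pos (pos ⁻¹' K)

/-- (L): `G` is READ AT THE VERTICES PLACED IN `K`, AMONG SIMPLE SPHERES (the hypotheses of `PvbfLocS` of 248: what `Tr/LocalW` of 22 can prove) with distinct positions in `K` -/
def PvymFn.Local {M : Type} (G : PvymFn M) (K : Set ℂ) : Prop :=
  ∀ (V D V' D' : Type) (T : PvMap V D) (pos : V → ℂ) (s : V → Bool) (T' : PvMap V' D') (pos' : V' → ℂ) (s' : V' → Bool) (R : V → V' → Prop),
    PvymOk T pos K → PvymOk T' pos' K → PvplIso T pos s T' pos' s' K R → G V D T pos s = G V' D' T' pos' s'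

/-- the positions given by an index map: the vertex `v` sits at `y (ι v)`, the vertices without index at `zi` -/
def pvymPos {V : Type} {n : ℕ} (ι : V → Option (Fin n)) (zi : ℂ) (y : Fin n → ℂ) (v : V) : ℂ := (ι v).elim zi y

/-- (A): `G` is MEASURABLE IN THE POSITIONS ON A FIXED MAP -/
def PvymFn.MeasP {M : Type} [MeasurableSpace M] (G : PvymFn M) : Prop :=
  ∀ (V D : Type) (T : PvMap V D) (s : V → Bool) (n : ℕ) (ι : V → Option (Fin n)) (zi : ℂ), Measurable fun y : Fin n → ℂ => G V D T (pvymPos ι zi y) s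

/-- `F` REPRESENTS `G` on the window `E` -/
def PvymRep {M : Type} [MeasurableSpace M] (G : PvymFn M) (K E : Set ℂ) (ρ : ℝ) (F : Conf PvPt → M) : Prop :=
  Measurable F ∧ Conf.Reads (E ×ˢ (univ : Set Bool)) F ∧
    ∀ (X : Type) (𝔅 : PvBulk X) (η : Conf PvPt) (ξ : X → Bool) (zi : ℂ), (η.pts ∩ E ×ˢ univ).Finite → 𝔅.Ok (cfSites η) K → PvtrMesh ρ E (cfSites η) → zi ∉ K →
      F η = G _ _ (𝔅.T (cfSites η)) (𝔅.posF _ zi) (𝔅.col η ξ)

theorem pvym_eqns_cite : True := by
  have := @PvymFn.eq_1; have := @PvymFn.Local.eq_1; have := @pvymPos.eq_1; have := @PvymFn.MeasP.eq_1; have := @PvymRep.eq_1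
  trivial

theorem pvym_measurable_pos {V : Type} {n : ℕ} (ι : V → Option (Fin n)) (zi : ℂ) (v : V) : Measurable fun y : Fin n → ℂ => pvymPos ι zi y v := by
  unfold pvymPos
  cases ι v with
  | none => exact measurable_const
  | some i => exact measurable_pi_apply i

/-! ## 2. the main theorem -/

section main

variable {M : Type} [MeasurableSpace M] {E : Set ℂ} {ρ : ℝ}

/-- ONE PIECE: on the configurations of one combinatorial type, `G` is ONE measurable function of the enumeration of the window -/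
theorem pvym_piece [Nonempty M] {G : PvymFn M} {K : Set ℂ} (hL : G.Local K) (hA : G.MeasP) (hρ : 0 < ρ) (hK : K ⊆ pvtrCore (3 * ρ) E) (n : ℕ)
    (t : (Fin n → Fin n → Fin n → Prop) × (Fin n → Prop) × (Fin n → Prop) × (Fin n → Fin n → Prop)) :
    ∃ Γ : (ℕ → PvPt) → M, Measurable Γ ∧ ∀ (X : Type) (𝔅 : PvBulk X) (η : Conf PvPt) (ξ : X → Bool) (zi : ℂ) (y : ℕ → PvPt),
      Conf.restr (E ×ˢ univ) η = Conf.cell (n, y) → pvplTy ρ E (fun a => a ∈ K) n y = t → 𝔅.Ok (cfSites η) K → PvtrMesh ρ E (cfSites η) → zi ∉ K →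
      G _ _ (𝔅.T (cfSites η)) (𝔅.posF _ zi) (𝔅.col η ξ) = Γ y := by
  classical
  obtain ⟨m₀⟩ := ‹Nonempty M›
  by_cases hG : ∃ (X : Type) (𝔅 : PvBulk X) (η : Conf PvPt) (_ : X → Bool) (zi : ℂ) (y : ℕ → PvPt),
      Conf.restr (E ×ˢ univ) η = Conf.cell (n, y) ∧ pvplTy ρ E (fun a => a ∈ K) n y = t ∧ 𝔅.Ok (cfSites η) K ∧ PvtrMesh ρ E (cfSites η) ∧ zi ∉ K
  swap
  · exact ⟨fun _ => m₀, measurable_const, fun X 𝔅 η ξ zi y h1 h2 h3 h4 h5 => absurd ⟨X, 𝔅, η, ξ, zi, y, h1, h2, h3, h4, h5⟩ hG⟩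
  obtain ⟨Xr, 𝔅r, ηr, ξr, zr, yr, hyr, htyr, hokr, hmr, hzr⟩ := hG
  set θ : ℂ → Prop := fun a => a ∈ K with hθ
  have hθK : θ ⁻¹' {True} = K := by
    ext a
    simp [hθ]
  let ιr : 𝔅r.V (cfSites ηr) → Option (Fin n) := fun u' => if h : ∃ i : Fin n, 𝔅r.lab _ u' = Sum.inl (yr i).1 then some h.choose else none
  refine ⟨fun y => G _ _ (𝔅r.T (cfSites ηr)) (pvymPos ιr zr fun i : Fin n => (y i).1) (𝔅r.col ηr ξr), ?_, ?_⟩
  · exact (hA _ _ (𝔅r.T (cfSites ηr)) (𝔅r.col ηr ξr) n ιr zr).comp (measurable_pi_lambda _ fun i : Fin n => (measurable_pi_apply (i : ℕ)).fst)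
  intro X 𝔅 η ξ zi y hy hty hok hm hzi
  have hty' : pvplTy ρ E θ n y = pvplTy ρ E θ n yr := hty.trans htyr.symm
  have t3 : ∀ i : Fin n, θ (y i).1 = θ (yr i).1 := fun i => congrFun (congrArg (fun t => t.2.2.1) hty') i
  have t4 : ∀ i j : Fin n, (y i).1 = (y j).1 ↔ (yr i).1 = (yr j).1 := fun i j => iff_of_eq (congrFun (congrFun (congrArg (fun t => t.2.2.2) hty') i) j)
  have iso := pvpl_iso_of_ty (𝔅 := 𝔅) (𝔅' := 𝔅r) (E := E) (ρ := ρ) θ (K := {True}) hρ (η := η) (η' := ηr) (ξ := ξ) (ξ' := ξr) (zi := zi) (zi' := zr)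
    (by rw [hθK]; exact hok) (by rw [hθK]; exact hokr) hm hmr (by rw [hθK]; exact hK) (by simpa [hθ] using hzi) (by simpa [hθ] using hzr) hy hyr hty'
  have hι : ∀ u' (w : ℂ), pvymPos ιr zr (fun i : Fin n => (y i).1) u' = w → w ∈ K → ∃ j : Fin n, 𝔅r.lab _ u' = Sum.inl (yr j).1 ∧ w = (y j).1 := by
    intro u' w hw hwK
    by_cases hex : ∃ j : Fin n, 𝔅r.lab _ u' = Sum.inl (yr j).1
    · have hι : ιr u' = some hex.choose := dif_pos hex
      unfold pvymPos at hw
      rw [hι] at hw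
      exact ⟨_, hex.choose_spec, hw.symm⟩
    · have hι : ιr u' = none := dif_neg hex
      unfold pvymPos at hw
      rw [hι] at hw
      have hw' : zr = w := hw
      exact absurd (hw' ▸ hwK) hzr
  have ok1 : PvymOk (𝔅.T (cfSites η)) (𝔅.posF _ zi) K := by
    refine ⟨hok.sph, hok.simple, fun u hu v hv e => hok.inj ?_⟩
    have key : ∀ w, 𝔅.posF (cfSites η) zi w ∈ K → 𝔅.lab _ w = Sum.inl (𝔅.posF (cfSites η) zi w) := by
      intro w hw
      cases hl : 𝔅.lab _ w with
      | inl a => rw [l9_posF_inl 𝔅 hl]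
      | inr x =>
        have : 𝔅.posF (cfSites η) zi w = zi := by unfold PvBulk.posF; rw [hl]; rfl
        exact absurd (this ▸ hw) hzi
    rw [key u hu, key v hv, e]
  have ok2 : PvymOk (𝔅r.T (cfSites ηr)) (pvymPos ιr zr fun i : Fin n => (y i).1) K := by
    refine ⟨hokr.sph, hokr.simple, fun u hu v hv e => hokr.inj ?_⟩
    obtain ⟨j, hj, ej⟩ := hι u _ rfl hu
    obtain ⟨j', hj', ej'⟩ := hι v _ rfl hv
    rw [hj, hj', (t4 j j').1 (ej.symm.trans (e.trans ej'))]
  refine hL _ _ _ _ _ _ _ _ _ _ _ ok1 ok2 ⟨?_, iso.col, iso.fn, iso.inj, ?_, ?_⟩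
  · rintro u u' ⟨a, a', ⟨i, rfl, rfl⟩, hu, hu'⟩
    have hex : ∃ j : Fin n, 𝔅r.lab _ u' = Sum.inl (yr j).1 := ⟨i, hu'⟩
    have hι : ιr u' = some hex.choose := dif_pos hex
    have e1 : (yr hex.choose).1 = (yr i).1 := Sum.inl.inj (hex.choose_spec.symm.trans hu')
    rw [l9_posF_inl 𝔅 hu]
    unfold pvymPos
    rw [hι]
    exact (t4 _ _).2 e1
  · intro d hd
    exact iso.ex d (by simpa [hθ] using hd)
  · intro d' hd'
    by_cases hex : ∃ j : Fin n, 𝔅r.lab _ ((𝔅r.T (cfSites ηr)).src d') = Sum.inl (yr j).1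
    · have hι : ιr ((𝔅r.T (cfSites ηr)).src d') = some hex.choose := dif_pos hex
      unfold pvymPos at hd'
      rw [hι] at hd'
      have h1 : θ (y hex.choose).1 := hd'
      rw [t3] at h1
      refine iso.ex' d' ?_
      rw [l9_posF_inl 𝔅r hex.choose_spec]
      simpa [hθ] using h1
    · have hι : ιr ((𝔅r.T (cfSites ηr)).src d') = none := dif_neg hex
      unfold pvymPos at hd'
      rw [hι] at hd'
      exact absurd hd' hzr

/-- **MAIN THEOREM**: (L) + (A) ⟹ ONE measurable function, read from the window, which on the mesh event is `G` of EVERY completion -/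
theorem pvym_main [Nonempty M] {G : PvymFn M} {K : Set ℂ} (hKm : MeasurableSet K) (hL : G.Local K) (hA : G.MeasP) (hE : PvplWin E) (hρ : 0 < ρ) (hK : K ⊆ pvtrCore (3 * ρ) E) :
    ∃ F : Conf PvPt → M, PvymRep G K E ρ F := by
  classical
  obtain ⟨m₀⟩ := ‹Nonempty M›
  have hO : MeasurableSet (E ×ˢ (univ : Set Bool)) := hE.1.prod MeasurableSet.univ
  obtain ⟨Y, hY, hYe⟩ := pvcn_enum hO
  have hθ : Measurable fun a : ℂ => a ∈ K := measurableSet_setOf.1 hKm
  choose Γ hΓm hΓ using fun n t => pvym_piece (M := M) (E := E) (ρ := ρ) hL hA hρ hK n t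
  have hpts : ∀ η : Conf PvPt, (Conf.restr (E ×ˢ univ) η).pts ∩ E ×ˢ univ = η.pts ∩ E ×ˢ univ := by
    intro η
    show (η.pts ∩ E ×ˢ univ) ∩ E ×ˢ univ = _
    rw [inter_assoc, inter_self]
  have hcell : ∀ η : Conf PvPt, (η.pts ∩ E ×ˢ univ).Finite →
      Conf.restr (E ×ˢ univ) η = Conf.cell ((η.pts ∩ E ×ˢ univ).ncard, Y (Conf.restr (E ×ˢ univ) η)) := by
    intro η hfin
    have := hYe (Conf.restr (E ×ˢ univ) η) (by rw [hpts]; exact hfin)
    rwa [pvi_restr_idem, hpts] at this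
  let Γ' : ℕ → (ℕ → PvPt) → M := fun n y => Γ n (pvplTy ρ E (fun a => a ∈ K) n y) y
  let F : Conf PvPt → M := fun η => if (η.pts ∩ E ×ˢ univ).Finite then Γ' (η.pts ∩ E ×ˢ univ).ncard (Y (Conf.restr (E ×ˢ univ) η)) else m₀
  refine ⟨F, ?_, ?_, ?_⟩
  · intro S hS
    have e : F ⁻¹' S = ({η : Conf PvPt | (η.pts ∩ E ×ˢ univ).Finite}ᶜ ∩ {_η : Conf PvPt | m₀ ∈ S}) ∪
        ⋃ n : ℕ, ⋃ t : (Fin n → Fin n → Fin n → Prop) × (Fin n → Prop) × (Fin n → Prop) × (Fin n → Fin n → Prop),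
          ({η : Conf PvPt | (η.pts ∩ E ×ˢ univ).Finite} ∩ ({η : Conf PvPt | (η.pts ∩ E ×ˢ univ).ncard = n} ∩
            ((fun η => Y (Conf.restr (E ×ˢ univ) η)) ⁻¹' {y : ℕ → PvPt | pvplTy ρ E (fun a => a ∈ K) n y = t} ∩ (fun η => Γ n t (Y (Conf.restr (E ×ˢ univ) η))) ⁻¹' S))) := by
      ext η
      simp only [mem_preimage, mem_union, mem_inter_iff, mem_compl_iff, mem_ofPred_eq, mem_iUnion, F, Γ']
      by_cases hfin : (η.pts ∩ E ×ˢ univ).Finite
      · rw [if_pos hfin]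
        constructor
        · intro h
          exact Or.inr ⟨_, _, hfin, rfl, rfl, h⟩
        · rintro (⟨h, -⟩ | ⟨n, t, -, rfl, rfl, h⟩)
          · exact absurd hfin h
          · exact h
      · rw [if_neg hfin]
        constructor
        · intro h
          exact Or.inl ⟨hfin, h⟩
        · rintro (⟨-, h⟩ | ⟨n, t, h, -⟩)
          · exact h
          · exact absurd h hfin
    rw [e]
    refine ((pvcn_fin hO).compl.inter (MeasurableSet.const _)).union (MeasurableSet.iUnion fun n => MeasurableSet.iUnion fun t => (pvcn_fin hO).inter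
      (((pvcn_ncard hO) (measurableSet_singleton n)).inter (((hY.comp (Conf.measurable_restr hO)) (pvpl_meas_ty hE hθ n t)).inter
        (((hΓm n t).comp (hY.comp (Conf.measurable_restr hO))) hS))))
  · intro η
    simp only [F, hpts, pvi_restr_idem]
  · intro X 𝔅 η ξ zi hfin hok hm hzi
    simp only [F, Γ']
    rw [if_pos hfin]
    exact (hΓ _ _ X 𝔅 η ξ zi _ (hcell η hfin) rfl hok hm hzi).symm

end main

/-! ## 3. events; the plane -/

section exits

variable {M : Type} [MeasurableSpace M] {E K : Set ℂ} {ρ : ℝ}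

/-- (L) for events, ONE implication -/
theorem pvym_local_of_imp {Φ : PvplPred ℂ}
    (h : ∀ (V D V' D' : Type) (T : PvMap V D) (mk : V → ℂ) (s : V → Bool) (T' : PvMap V' D') (mk' : V' → ℂ) (s' : V' → Bool) (R : V → V' → Prop),
      PvymOk T mk K → PvymOk T' mk' K → PvplIso T mk s T' mk' s' K R → Φ V D T mk s → Φ V' D' T' mk' s') : PvymFn.Local (M := Prop) Φ K :=
  fun V D V' D' T pos s T' pos' s' R h1 h2 h3 => propext ⟨h V D V' D' T pos s T' pos' s' R h1 h2 h3, h V' D' V D T' pos' s' T pos s _ h2 h1 h3.symm⟩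

/-- `PvbfLocS Φ K` of 248 with `κ = ℂ` (verbatim) gives (L) -/
theorem pvym_local_of_locS {Φ : PvplPred ℂ}
    (h : ∀ (V D V' D' : Type) (T : PvMap V D) (mk : V → ℂ) (s : V → Bool) (T' : PvMap V' D') (mk' : V' → ℂ) (s' : V' → Bool) (R : V → V' → Prop),
      T.IsSph → T.Simple → T'.IsSph → T'.Simple → PvplIso T mk s T' mk' s' K R → Φ V D T mk s → Φ V' D' T' mk' s') : PvymFn.Local (M := Prop) Φ K :=
  pvym_local_of_imp fun V D V' D' T pos s T' pos' s' R h1 h2 h3 => h V D V' D' T pos s T' pos' s' R h1.sph h1.simple h2.sph h2.simple h3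

/-- `PvplPred.Local` of 238 with `κ = ℂ` gives (L) -/
theorem pvym_local_of_local {Φ : PvplPred ℂ} (h : Φ.Local K) : PvymFn.Local (M := Prop) Φ K :=
  fun V D V' D' T pos s T' pos' s' R h1 h2 h3 => propext (h V D V' D' T pos s T' pos' s' R h1.simple h2.simple h3)

/-- **MAIN THEOREM FOR EVENTS** -/
theorem pvym_main_set {Φ : PvplPred ℂ} (hKm : MeasurableSet K) (hL : PvymFn.Local (M := Prop) Φ K) (hA : PvymFn.MeasP (M := Prop) Φ) (hE : PvplWin E) (hρ : 0 < ρ) (hK : K ⊆ pvtrCore (3 * ρ) E) :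
    ∃ B : Set (Conf PvPt), MeasurableSet B ∧ Conf.ReadsSet (E ×ˢ univ) B ∧
      ∀ (X : Type) (𝔅 : PvBulk X) (η : Conf PvPt) (ξ : X → Bool) (zi : ℂ), (η.pts ∩ E ×ˢ univ).Finite → 𝔅.Ok (cfSites η) K → PvtrMesh ρ E (cfSites η) → zi ∉ K →
        (η ∈ B ↔ Φ _ _ (𝔅.T (cfSites η)) (𝔅.posF _ zi) (𝔅.col η ξ)) := by
  obtain ⟨F, h1, h2, h3⟩ := pvym_main (M := Prop) (G := Φ) hKm hL hA hE hρ hK
  exact ⟨{η | F η}, measurableSet_setOf.2 h1, fun η => iff_of_eq (h2 η), fun X 𝔅 η ξ zi k1 k2 k3 k4 => iff_of_eq (h3 X 𝔅 η ξ zi k1 k2 k3 k4)⟩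

/-- the representative AT THE PLANE MODEL (`pvieT η`, `pviePos η`, `cfCol η`) -/
theorem PvymRep.plane {G : PvymFn M} {F : Conf PvPt → M} (h : PvymRep G K E ρ F) (hz : ∃ zi, zi ∉ K) {η : Conf PvPt} (hfin : (η.pts ∩ E ×ˢ univ).Finite)
    (hg : DelGood (cfSites η)) (hm : PvtrMesh ρ E (cfSites η)) :
    F η = G _ _ (delbPl (cfSites η)).toMap Subtype.val (fun v => cfCol η v.1) := by
  obtain ⟨zi, hzi⟩ := hz
  exact h.2.2 Empty delbPlane η Empty.elim zi hfin ((delb_plane_ok hg).mono (subset_univ _)) hm hzi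

/-- two representatives agree on the good set -/
theorem PvymRep.unique {G : PvymFn M} {F F' : Conf PvPt → M} (h : PvymRep G K E ρ F) (h' : PvymRep G K E ρ F') {X : Type} {𝔅 : PvBulk X} {η : Conf PvPt} (ξ : X → Bool) {zi : ℂ}
    (hfin : (η.pts ∩ E ×ˢ univ).Finite) (hok : 𝔅.Ok (cfSites η) K) (hm : PvtrMesh ρ E (cfSites η)) (hzi : zi ∉ K) : F η = F' η :=
  (h.2.2 X 𝔅 η ξ zi hfin hok hm hzi).trans (h'.2.2 X 𝔅 η ξ zi hfin hok hm hzi).symm

end exits

/-! ## 4. calculus of (L) and (A) -/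

section calculus

variable {M M' M'' : Type} {K : Set ℂ}

theorem PvymOk.mono {V D : Type} {T : PvMap V D} {pos : V → ℂ} {K' : Set ℂ} (h : PvymOk T pos K') (hK : K ⊆ K') : PvymOk T pos K :=
  ⟨h.sph, h.simple, h.inj.mono (preimage_mono hK)⟩

theorem PvymFn.Local.mono {G : PvymFn M} (h : G.Local K) {K' : Set ℂ} (hK : K ⊆ K') : G.Local K' :=
  fun V D V' D' T pos s T' pos' s' R h1 h2 h3 => h V D V' D' T pos s T' pos' s' R (h1.mono hK) (h2.mono hK) (h3.mono hK)

theorem pvym_local_const (m : M) : PvymFn.Local (fun _ _ _ _ _ => m) K := fun _ _ _ _ _ _ _ _ _ _ _ _ _ _ => rfl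

theorem PvymFn.Local.comp {G : PvymFn M} (h : G.Local K) (f : M → M') : PvymFn.Local (fun V D T pos s => f (G V D T pos s)) K :=
  fun V D V' D' T pos s T' pos' s' R h1 h2 h3 => congrArg f (h V D V' D' T pos s T' pos' s' R h1 h2 h3)

theorem PvymFn.Local.comp₂ {G : PvymFn M} {G' : PvymFn M'} (h : G.Local K) (h' : G'.Local K) (f : M → M' → M'') :
    PvymFn.Local (fun V D T pos s => f (G V D T pos s) (G' V D T pos s)) K :=
  fun V D V' D' T pos s T' pos' s' R h1 h2 h3 => by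
    show f _ _ = f _ _
    rw [h V D V' D' T pos s T' pos' s' R h1 h2 h3, h' V D V' D' T pos s T' pos' s' R h1 h2 h3]

/-- the colours are read through `f` (`f = (· == b)`: the colouring seen by a rim of colour `b`) -/
theorem PvymFn.Local.recol {G : PvymFn M} (h : G.Local K) (f : Bool → Bool) : PvymFn.Local (fun V D T pos s => G V D T pos fun v => f (s v)) K :=
  fun V D V' D' T pos s T' pos' s' R h1 h2 h3 =>
    h V D V' D' T pos _ T' pos' _ R h1 h2 ⟨h3.mark, fun u u' hu => congrArg f (h3.col u u' hu), h3.fn, h3.inj, h3.ex, h3.ex'⟩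

variable [MeasurableSpace M] [MeasurableSpace M'] [MeasurableSpace M'']

theorem pvym_measP_const (m : M) : PvymFn.MeasP (fun _ _ _ _ _ => m) := fun _ _ _ _ _ _ _ => measurable_const

theorem PvymFn.MeasP.comp {G : PvymFn M} (h : G.MeasP) {f : M → M'} (hf : Measurable f) : PvymFn.MeasP (fun V D T pos s => f (G V D T pos s)) :=
  fun V D T s n ι zi => hf.comp (h V D T s n ι zi)

theorem PvymFn.MeasP.comp₂ {G : PvymFn M} {G' : PvymFn M'} (h : G.MeasP) (h' : G'.MeasP) {f : M → M' → M''} (hf : Measurable fun p : M × M' => f p.1 p.2) :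
    PvymFn.MeasP (fun V D T pos s => f (G V D T pos s) (G' V D T pos s)) :=
  fun V D T s n ι zi => hf.comp ((h V D T s n ι zi).prodMk (h' V D T s n ι zi))

theorem PvymFn.MeasP.recol {G : PvymFn M} (h : G.MeasP) (f : Bool → Bool) : PvymFn.MeasP (fun V D T pos s => G V D T pos fun v => f (s v)) :=
  fun V D T s n ι zi => h V D T (fun v => f (s v)) n ι zi

open Classical in
theorem PvymFn.MeasP.ite {Φ : PvymFn Prop} {G G' : PvymFn M} (hΦ : Φ.MeasP) (h : G.MeasP) (h' : G'.MeasP) :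
    PvymFn.MeasP (fun V D T pos s => if Φ V D T pos s then G V D T pos s else G' V D T pos s) :=
  fun V D T s n ι zi => Measurable.ite (measurableSet_setOf.2 (hΦ V D T s n ι zi)) (h V D T s n ι zi) (h' V D T s n ι zi)

end calculus

/-! ## 5. (C) ⟹ (A): finitely many Borel tests on (at most) four points -/

/-- `pos` and `pos'` give THE SAME ANSWERS to the tests of `𝒜` (a test = a set of quadruples of points) -/
def PvymSame {V : Type} (𝒜 : Set (Set (ℂ × ℂ × ℂ × ℂ))) (pos pos' : V → ℂ) : Prop :=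
  ∀ S ∈ 𝒜, ∀ a b c d : V, (pos a, pos b, pos c, pos d) ∈ S ↔ (pos' a, pos' b, pos' c, pos' d) ∈ S

/-- a test on one point -/
def pvymT1 (B : Set ℂ) : Set (ℂ × ℂ × ℂ × ℂ) := {q | q.1 ∈ B}
/-- a test on two points -/
def pvymT2 (B : Set (ℂ × ℂ)) : Set (ℂ × ℂ × ℂ × ℂ) := {q | (q.1, q.2.1) ∈ B}
/-- a test on three points -/
def pvymT3 (B : Set (ℂ × ℂ × ℂ)) : Set (ℂ × ℂ × ℂ × ℂ) := {q | (q.1, q.2.1, q.2.2.1) ∈ B}

theorem pvym_eqns_cite2 : True := by
  have := @PvymSame.eq_1; have := @pvymT1.eq_1; have := @pvymT2.eq_1; have := @pvymT3.eq_1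
  trivial

section same

variable {V : Type} {𝒜 𝒜' : Set (Set (ℂ × ℂ × ℂ × ℂ))} {pos pos' pos'' : V → ℂ}

theorem PvymSame.refl (𝒜 : Set (Set (ℂ × ℂ × ℂ × ℂ))) (pos : V → ℂ) : PvymSame 𝒜 pos pos := fun _ _ _ _ _ _ => Iff.rfl
theorem PvymSame.symm (h : PvymSame 𝒜 pos pos') : PvymSame 𝒜 pos' pos := fun S hS a b c d => (h S hS a b c d).symm
theorem PvymSame.trans (h : PvymSame 𝒜 pos pos') (h' : PvymSame 𝒜 pos' pos'') : PvymSame 𝒜 pos pos'' := fun S hS a b c d => (h S hS a b c d).trans (h' S hS a b c d)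
theorem PvymSame.mono (h : PvymSame 𝒜 pos pos') (hA : 𝒜' ⊆ 𝒜) : PvymSame 𝒜' pos pos' := fun S hS => h S (hA hS)
theorem PvymSame.t1 (h : PvymSame 𝒜 pos pos') {B : Set ℂ} (hB : pvymT1 B ∈ 𝒜) (a : V) : pos a ∈ B ↔ pos' a ∈ B := h _ hB a a a a
theorem PvymSame.t2 (h : PvymSame 𝒜 pos pos') {B : Set (ℂ × ℂ)} (hB : pvymT2 B ∈ 𝒜) (a b : V) : (pos a, pos b) ∈ B ↔ (pos' a, pos' b) ∈ B := h _ hB a b a a
theorem PvymSame.t3 (h : PvymSame 𝒜 pos pos') {B : Set (ℂ × ℂ × ℂ)} (hB : pvymT3 B ∈ 𝒜) (a b c : V) : (pos a, pos b, pos c) ∈ B ↔ (pos' a, pos' b, pos' c) ∈ B := h _ hB a b c a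
theorem PvymSame.t4 (h : PvymSame 𝒜 pos pos') {B : Set (ℂ × ℂ × ℂ × ℂ)} (hB : B ∈ 𝒜) (a b c d : V) : (pos a, pos b, pos c, pos d) ∈ B ↔ (pos' a, pos' b, pos' c, pos' d) ∈ B := h _ hB a b c d

theorem pvym_meas_T1 {B : Set ℂ} (hB : MeasurableSet B) : MeasurableSet (pvymT1 B) := measurable_fst hB
theorem pvym_meas_T2 {B : Set (ℂ × ℂ)} (hB : MeasurableSet B) : MeasurableSet (pvymT2 B) := (measurable_fst.prodMk measurable_snd.fst) hB
theorem pvym_meas_T3 {B : Set (ℂ × ℂ × ℂ)} (hB : MeasurableSet B) : MeasurableSet (pvymT3 B) :=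
  (measurable_fst.prodMk (measurable_snd.fst.prodMk measurable_snd.snd.fst)) hB

end same

section pieces

variable {M : Type} [MeasurableSpace M] {𝒜 : Set (Set (ℂ × ℂ × ℂ × ℂ))}

/-- **(A) FROM PIECES**: on every class of `PvymSame 𝒜` the function of the positions is measurable -/
theorem pvym_measP_of_pieces {G : PvymFn M} (hfin : 𝒜.Finite) (hm : ∀ S ∈ 𝒜, MeasurableSet S)
    (h : ∀ (V D : Type) (T : PvMap V D) (s : V → Bool) (n : ℕ) (ι : V → Option (Fin n)) (zi : ℂ) (y₀ : Fin n → ℂ), ∃ g : (Fin n → ℂ) → M, Measurable g ∧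
      ∀ y, PvymSame 𝒜 (pvymPos ι zi y₀) (pvymPos ι zi y) → G V D T (pvymPos ι zi y) s = g y) : G.MeasP := by
  classical
  intro V D T s n ι zi
  have : Finite ↥𝒜 := hfin.to_subtype
  let e : (Fin n → ℂ) → Option (Fin n) → ℂ := fun y o => o.elim zi y
  have he : ∀ o, Measurable fun y => e y o := by
    intro o
    cases o with
    | none => exact measurable_const
    | some i => exact measurable_pi_apply i
  let tab : (Fin n → ℂ) → (↥𝒜 × Option (Fin n) × Option (Fin n) × Option (Fin n) × Option (Fin n) → Prop) :=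
    fun y q => (e y q.2.1, e y q.2.2.1, e y q.2.2.2.1, e y q.2.2.2.2) ∈ q.1.1
  have htab : Measurable tab := measurable_pi_lambda _ fun q =>
    measurableSet_setOf.1 (((he _).prodMk ((he _).prodMk ((he _).prodMk (he _)))) (hm q.1.1 q.1.2))
  have hsame : ∀ y y', tab y = tab y' → PvymSame 𝒜 (pvymPos ι zi y) (pvymPos ι zi y') :=
    fun y y' hyy S hS a b c d => iff_of_eq (congrFun hyy (⟨S, hS⟩, ι a, ι b, ι c, ι d))
  choose g hg1 hg2 using h V D T s n ι zi
  let y₀ : (↥𝒜 × Option (Fin n) × Option (Fin n) × Option (Fin n) × Option (Fin n) → Prop) → (Fin n → ℂ) := fun c => if h : ∃ y, tab y = c then h.choose else 0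
  intro S hS
  have e1 : (fun y => G V D T (pvymPos ι zi y) s) ⁻¹' S = ⋃ c, (tab ⁻¹' {c} ∩ (g (y₀ c)) ⁻¹' S) := by
    ext y
    simp only [mem_preimage, mem_iUnion, mem_inter_iff, mem_singleton_iff]
    have hex : ∃ y', tab y' = tab y := ⟨y, rfl⟩
    have h0 : y₀ (tab y) = hex.choose := dif_pos hex
    have h1 : G V D T (pvymPos ι zi y) s = g (y₀ (tab y)) y := hg2 _ y (hsame _ _ (by rw [h0]; exact hex.choose_spec))
    constructor
    · intro hy
      exact ⟨tab y, rfl, h1 ▸ hy⟩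
    · rintro ⟨c, rfl, hy⟩
      exact h1 ▸ hy
  rw [e1]
  exact MeasurableSet.iUnion fun c => (htab (measurableSet_singleton c)).inter (hg1 _ hS)

/-- **(C) ⟹ (A)**: a function which depends on the positions through the tests only -/
theorem pvym_measP_of_congr {G : PvymFn M} (hfin : 𝒜.Finite) (hm : ∀ S ∈ 𝒜, MeasurableSet S)
    (h : ∀ (V D : Type) (T : PvMap V D) (s : V → Bool) (pos pos' : V → ℂ), PvymSame 𝒜 pos pos' → G V D T pos s = G V D T pos' s) : G.MeasP :=
  pvym_measP_of_pieces hfin hm fun V D T s n ι zi y₀ => ⟨fun _ => G V D T (pvymPos ι zi y₀) s, measurable_const, fun y hy => (h V D T s _ _ hy).symm⟩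

/-- **(C) ⟹ (A) FOR EVENTS** -/
theorem pvym_measP_of_iff {Φ : PvplPred ℂ} (hfin : 𝒜.Finite) (hm : ∀ S ∈ 𝒜, MeasurableSet S)
    (h : ∀ (V D : Type) (T : PvMap V D) (s : V → Bool) (pos pos' : V → ℂ), PvymSame 𝒜 pos pos' → Φ V D T pos s → Φ V D T pos' s) : PvymFn.MeasP (M := Prop) Φ :=
  pvym_measP_of_congr hfin hm fun V D T s pos pos' hp => propext ⟨h V D T s pos pos' hp, h V D T s pos' pos hp.symm⟩

/-! ### values read at a CHOSEN witness (`PvieLk.X`, `PvwDat.Y`) -/

open Classical in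
/-- the value at the chosen witness (three nested `∃`, the shape of `PvieLk.X`) -/
noncomputable def pvymPick3 {W1 W2 W3 M : Type} (Q : W1 → W2 → W3 → Prop) (f : W1 → W2 → W3 → M) (m₀ : M) : M :=
  if h : ∃ a b c, Q a b c then f h.choose h.choose_spec.choose h.choose_spec.choose_spec.choose else m₀

open Classical in
/-- the value at the chosen witness -/
noncomputable def pvymPick {W M : Type} (Q : W → Prop) (f : W → M) (m₀ : M) : M := if h : ∃ a, Q a then f h.choose else m₀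

theorem pvym_eqns_cite3 : True := by
  have := @pvymPick3.eq_1; have := @pvymPick.eq_1
  trivial

theorem pvym_pick3_spec {W1 W2 W3 M : Type} {Q : W1 → W2 → W3 → Prop} (f : W1 → W2 → W3 → M) (m₀ : M) (h : ∃ a b c, Q a b c) :
    ∃ a b c, Q a b c ∧ pvymPick3 Q f m₀ = f a b c :=
  ⟨_, _, _, h.choose_spec.choose_spec.choose_spec, dif_pos h⟩

theorem pvym_pick3_neg {W1 W2 W3 M : Type} {Q : W1 → W2 → W3 → Prop} (f : W1 → W2 → W3 → M) (m₀ : M) (h : ¬ ∃ a b c, Q a b c) : pvymPick3 Q f m₀ = m₀ := dif_neg h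

theorem pvym_pick_spec {W M : Type} {Q : W → Prop} (f : W → M) (m₀ : M) (h : ∃ a, Q a) : ∃ a, Q a ∧ pvymPick Q f m₀ = f a := ⟨_, h.choose_spec, dif_pos h⟩

theorem pvym_pick_neg {W M : Type} {Q : W → Prop} (f : W → M) (m₀ : M) (h : ¬ ∃ a, Q a) : pvymPick Q f m₀ = m₀ := dif_neg h

/-- **(A) for a value at a chosen witness**: the witnesses are selected through the tests, the value at a FIXED witness is measurable in the positions.      NO uniqueness. -/
theorem pvym_measP_pick3 {W1 W2 W3 : ∀ V D : Type, PvMap V D → Type}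
    {P : ∀ (V D : Type) (T : PvMap V D), (V → ℂ) → (V → Bool) → W1 V D T → W2 V D T → W3 V D T → Prop}
    {val : ∀ (V D : Type) (T : PvMap V D), (V → ℂ) → (V → Bool) → W1 V D T → W2 V D T → W3 V D T → M} (m₀ : M)
    (hfin : 𝒜.Finite) (hm : ∀ S ∈ 𝒜, MeasurableSet S)
    (hP : ∀ (V D : Type) (T : PvMap V D) (s : V → Bool) (pos pos' : V → ℂ), PvymSame 𝒜 pos pos' → ∀ a b c, P V D T pos s a b c → P V D T pos' s a b c)
    (hval : ∀ (V D : Type) (T : PvMap V D) (s : V → Bool) (n : ℕ) (ι : V → Option (Fin n)) (zi : ℂ) (a : W1 V D T) (b : W2 V D T) (c : W3 V D T),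
      Measurable fun y : Fin n → ℂ => val V D T (pvymPos ι zi y) s a b c) :
    PvymFn.MeasP fun V D T pos s => pvymPick3 (P V D T pos s) (val V D T pos s) m₀ := by
  refine pvym_measP_of_pieces hfin hm fun V D T s n ι zi y₀ => ⟨fun y => pvymPick3 (P V D T (pvymPos ι zi y₀) s) (val V D T (pvymPos ι zi y) s) m₀, ?_, fun y hy => ?_⟩
  · by_cases h : ∃ a b c, P V D T (pvymPos ι zi y₀) s a b c
    · have e : (fun y => pvymPick3 (P V D T (pvymPos ι zi y₀) s) (val V D T (pvymPos ι zi y) s) m₀)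
          = fun y => val V D T (pvymPos ι zi y) s h.choose h.choose_spec.choose h.choose_spec.choose_spec.choose := funext fun y => dif_pos h
      rw [e]
      exact hval V D T s n ι zi _ _ _
    · have e : (fun y => pvymPick3 (P V D T (pvymPos ι zi y₀) s) (val V D T (pvymPos ι zi y) s) m₀) = fun _ => m₀ := funext fun y => dif_neg h
      rw [e]
      exact measurable_const
  · have e : P V D T (pvymPos ι zi y) s = P V D T (pvymPos ι zi y₀) s :=
      funext fun a => funext fun b => funext fun c => propext ⟨hP V D T s _ _ hy.symm a b c, hP V D T s _ _ hy a b c⟩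
    show pvymPick3 (P V D T (pvymPos ι zi y) s) _ m₀ = _
    rw [e]

/-- the same with one witness -/
theorem pvym_measP_pick {W : ∀ V D : Type, PvMap V D → Type} {P : ∀ (V D : Type) (T : PvMap V D), (V → ℂ) → (V → Bool) → W V D T → Prop}
    {val : ∀ (V D : Type) (T : PvMap V D), (V → ℂ) → (V → Bool) → W V D T → M} (m₀ : M) (hfin : 𝒜.Finite) (hm : ∀ S ∈ 𝒜, MeasurableSet S)
    (hP : ∀ (V D : Type) (T : PvMap V D) (s : V → Bool) (pos pos' : V → ℂ), PvymSame 𝒜 pos pos' → ∀ a, P V D T pos s a → P V D T pos' s a)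
    (hval : ∀ (V D : Type) (T : PvMap V D) (s : V → Bool) (n : ℕ) (ι : V → Option (Fin n)) (zi : ℂ) (a : W V D T), Measurable fun y : Fin n → ℂ => val V D T (pvymPos ι zi y) s a) :
    PvymFn.MeasP fun V D T pos s => pvymPick (P V D T pos s) (val V D T pos s) m₀ := by
  refine pvym_measP_of_pieces hfin hm fun V D T s n ι zi y₀ => ⟨fun y => pvymPick (P V D T (pvymPos ι zi y₀) s) (val V D T (pvymPos ι zi y) s) m₀, ?_, fun y hy => ?_⟩
  · by_cases h : ∃ a, P V D T (pvymPos ι zi y₀) s a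
    · have e : (fun y => pvymPick (P V D T (pvymPos ι zi y₀) s) (val V D T (pvymPos ι zi y) s) m₀) = fun y => val V D T (pvymPos ι zi y) s h.choose := funext fun y => dif_pos h
      rw [e]
      exact hval V D T s n ι zi _
    · have e : (fun y => pvymPick (P V D T (pvymPos ι zi y₀) s) (val V D T (pvymPos ι zi y) s) m₀) = fun _ => m₀ := funext fun y => dif_neg h
      rw [e]
      exact measurable_const
  · have e : P V D T (pvymPos ι zi y) s = P V D T (pvymPos ι zi y₀) s := funext fun a => propext ⟨hP V D T s _ _ hy.symm a, hP V D T s _ _ hy a⟩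
    show pvymPick (P V D T (pvymPos ι zi y) s) _ m₀ = _
    rw [e]

/-- **(L) for a value at a chosen witness**: the witnesses are carried by the local isomorphisms with their values, the value does not depend on the witness (UNIQUENESS, among simple spheres) -/
theorem pvym_local_pick3 {K : Set ℂ} {W1 W2 W3 : ∀ V D : Type, PvMap V D → Type}
    {P : ∀ (V D : Type) (T : PvMap V D), (V → ℂ) → (V → Bool) → W1 V D T → W2 V D T → W3 V D T → Prop}
    {val : ∀ (V D : Type) (T : PvMap V D), (V → ℂ) → (V → Bool) → W1 V D T → W2 V D T → W3 V D T → M} (m₀ : M)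
    (htr : ∀ (V D V' D' : Type) (T : PvMap V D) (pos : V → ℂ) (s : V → Bool) (T' : PvMap V' D') (pos' : V' → ℂ) (s' : V' → Bool) (R : V → V' → Prop),
      PvymOk T pos K → PvymOk T' pos' K → PvplIso T pos s T' pos' s' K R → ∀ a b c, P V D T pos s a b c →
        ∃ a' b' c', P V' D' T' pos' s' a' b' c' ∧ val V' D' T' pos' s' a' b' c' = val V D T pos s a b c)
    (hun : ∀ (V D : Type) (T : PvMap V D) (pos : V → ℂ) (s : V → Bool), PvymOk T pos K → ∀ a b c a' b' c', P V D T pos s a b c → P V D T pos s a' b' c' →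
      val V D T pos s a b c = val V D T pos s a' b' c') :
    PvymFn.Local (fun V D T pos s => pvymPick3 (P V D T pos s) (val V D T pos s) m₀) K := by
  intro V D V' D' T pos s T' pos' s' R h1 h2 h3
  by_cases h : ∃ a b c, P V D T pos s a b c
  · obtain ⟨a, b, c, hP, e⟩ := pvym_pick3_spec (val V D T pos s) m₀ h
    obtain ⟨a', b', c', hP', e'⟩ := htr V D V' D' T pos s T' pos' s' R h1 h2 h3 a b c hP
    obtain ⟨a'', b'', c'', hP'', e''⟩ := pvym_pick3_spec (val V' D' T' pos' s') m₀ ⟨a', b', c', hP'⟩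
    show pvymPick3 _ _ m₀ = pvymPick3 _ _ m₀
    rw [e, e'', ← e']
    exact hun V' D' T' pos' s' h2 _ _ _ _ _ _ hP' hP''
  · have h' : ¬ ∃ a b c, P V' D' T' pos' s' a b c := by
      rintro ⟨a, b, c, hP⟩
      obtain ⟨a', b', c', hP', -⟩ := htr V' D' V D T' pos' s' T pos s _ h2 h1 h3.symm a b c hP
      exact h ⟨a', b', c', hP'⟩
    show pvymPick3 _ _ m₀ = pvymPick3 _ _ m₀
    rw [pvym_pick3_neg _ _ h, pvym_pick3_neg _ _ h']

end pieces

end Claimed.Agent.R289
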