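-- KEEP
import Claimed.Agent.R289.Tr.MeasG
import Claimed.Agent.R289.Tr.RetNat
import Claimed.Agent.R289.Vor.Mesh
import Claimed.Agent.R289.Del.Seam

/-!
# Row 289 (S0537), THE WALL, file Tr/MeasGA : GLOBAL NULL MEASURABILITY, NO MESH CLAUSE      (helper247; prefix `pvym_`; continuation of `Tr/MeasG`)

[MEAS] of the soft localisation (`Tr/Sure` of 251: `nC nA nX`; RULING 18 (3) (L1) of 234): the GLOBAL event / value, read on the plane map of the whole configuration, must be `NullMeasurableSet` / `AEMeasurable` under `pvP ε`.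
* `pvym_scale_ae` : a.s. SOME scale `k` has the mesh `ρ_k = r + k + 1` in `closedBall 0 (5 ρ_k)` (`vorm_G_compl_le`: `289 exp (-(ρ_k / 2ε)²) → 0`).
* **`pvym_aem`**  : (L) + (A) + `K` bounded ⟹ `AEMeasurable (fun η => G (plane map of η) Subtype.val (cfCol η)) (pvP ε)`.
* **`pvym_null`** : the same for events: `NullMeasurableSet {η | Φ (plane map of η) ..} (pvP ε)`.      `pvym_aem_col`, `pvym_null_col` : with the colour bit `b` (`pvieCol η b`).
-/

set_option autoImplicit false
set_option linter.unusedSectionVars false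

namespace Claimed.Agent.R289

open MeasureTheory Set Metric Filter Topology Claims.C0465
open scoped ENNReal

/-- a.s. some scale has the mesh -/
theorem pvym_scale_ae {ε : ℝ} (hε : 0 < ε) {r : ℝ} (hr : 0 ≤ r) : ∀ᵐ η ∂(pvP ε), ∃ k : ℕ, η ∈ vormG (closedBall 0 (4 * (r + k + 1))) (r + k + 1) := by
  have hb : ∀ k : ℕ, pvP ε (vormG (closedBall 0 (4 * (r + k + 1))) (r + k + 1))ᶜ ≤ ((2 * 8 + 1) ^ 2 : ℕ) * ENNReal.ofReal (Real.exp (-((r + k + 1) / 2 / ε) ^ 2)) := fun k =>
    vorm_G_compl_le ε (K := closedBall 0 (4 * (r + k + 1))) (ρ := r + k + 1) (R := 4 * (r + k + 1)) (by positivity) (N := 8) (by push_cast; linarith) (c := 0) subset_rfl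
  have hx : Tendsto (fun k : ℕ => (r + k + 1) / 2 / ε) atTop atTop := by
    refine Tendsto.atTop_div_const hε (Tendsto.atTop_div_const two_pos ?_)
    exact tendsto_atTop_add_const_right _ _ (tendsto_atTop_add_const_left _ _ tendsto_natCast_atTop_atTop)
  have he : Tendsto (fun k : ℕ => Real.exp (-((r + k + 1) / 2 / ε) ^ 2)) atTop (𝓝 0) :=
    Real.tendsto_exp_atBot.comp (tendsto_neg_atTop_atBot.comp ((tendsto_pow_atTop two_ne_zero).comp hx))
  have hl : Tendsto (fun k : ℕ => (((2 * 8 + 1) ^ 2 : ℕ) : ℝ≥0∞) * ENNReal.ofReal (Real.exp (-((r + k + 1) / 2 / ε) ^ 2))) atTop (𝓝 0) := by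
    have h1 := ENNReal.tendsto_ofReal he
    rw [ENNReal.ofReal_zero] at h1
    have h2 := ENNReal.Tendsto.const_mul (a := (((2 * 8 + 1) ^ 2 : ℕ) : ℝ≥0∞)) h1 (Or.inr (ENNReal.natCast_ne_top _))
    rwa [mul_zero] at h2
  rw [ae_iff]
  refine le_antisymm (ge_of_tendsto' hl fun k => le_trans (measure_mono fun η hη hk => hη ⟨k, hk⟩) (hb k)) zero_le

section aem

variable {M : Type} [MeasurableSpace M]

/-- **GLOBAL A.E. MEASURABILITY**: no mesh clause, no window -/
theorem pvym_aem [Nonempty M] {G : PvymFn M} {K : Set ℂ} (hKm : MeasurableSet K) (hKb : Bornology.IsBounded K) (hL : G.Local K) (hA : G.MeasP) {ε : ℝ} (hε : 0 < ε) :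
    AEMeasurable (fun η : Conf PvPt => G _ _ (delbPl (cfSites η)).toMap Subtype.val (fun v => cfCol η v.1)) (pvP ε) := by
  classical
  obtain ⟨m₀⟩ := ‹Nonempty M›
  obtain ⟨r₀, hr₀⟩ := hKb.subset_closedBall 0
  set r : ℝ := max r₀ 0 with hrdef
  have hr : 0 ≤ r := le_max_right _ _
  have hKr : K ⊆ closedBall 0 r := hr₀.trans (closedBall_subset_closedBall (le_max_left _ _))
  have hρ : ∀ k : ℕ, 0 < r + k + 1 := fun k => by positivity
  have hcore : ∀ k : ℕ, K ⊆ pvtrCore (3 * (r + k + 1)) (closedBall 0 (5 * (r + k + 1))) := by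
    intro k z hz
    have h1 : dist z 0 ≤ r := hKr hz
    refine closedBall_subset_closedBall' ?_
    have := hρ k
    have hk : (0 : ℝ) ≤ k := Nat.cast_nonneg k
    linarith
  have hz : ∃ zi : ℂ, zi ∉ K := by
    refine ⟨((r + 1 : ℝ) : ℂ), fun h => ?_⟩
    have h1 := hKr h
    rw [mem_closedBall, dist_zero_right, Complex.norm_real, Real.norm_of_nonneg (by linarith)] at h1
    linarith
  choose F hF using fun k : ℕ => pvym_main (M := M) hKm hL hA (pvpl_win_ball 0 (5 * (r + k + 1))) (hρ k) (hcore k)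
  let S : ℕ → Set (Conf PvPt) := fun k => vormG (closedBall 0 (4 * (r + k + 1))) (r + k + 1) ∩ {η | (η.pts ∩ closedBall (0 : ℂ) (5 * (r + k + 1)) ×ˢ (univ : Set Bool)).Finite}
  have hSm : ∀ k, MeasurableSet (S k) := fun k => (vorm_G_meas _ _).inter (pvcn_fin (measurableSet_closedBall.prod MeasurableSet.univ))
  have hSF : ∀ k η, η ∈ S k → DelGood (cfSites η) → F k η = G _ _ (delbPl (cfSites η)).toMap Subtype.val (fun v => cfCol η v.1) := by
    intro k η hη hg
    refine (hF k).plane hz hη.2 hg ((vorm_G_dense (hρ k) hη.1).pvtrMesh ?_)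
    intro z hz
    have h1 : closedBall z (r + k + 1) ⊆ closedBall 0 (5 * (r + k + 1)) := hz
    rcases (pvpl_ball_sub_aux z 0 _ _).1 h1 with h2 | h2
    · exact absurd h2 (not_lt.2 (hρ k).le)
    · rw [mem_closedBall, dist_zero_right]
      rw [sub_zero] at h2
      linarith
  let p : ℕ → Conf PvPt → Prop := fun n η => Nat.casesOn n (∀ k, η ∉ S k) (fun k => η ∈ S k)
  let f : ℕ → Conf PvPt → M := fun n => Nat.casesOn n (fun _ => m₀) (fun k => F k)
  have hp : ∀ n, MeasurableSet {η | p n η} := by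
    intro n
    cases n with
    | zero =>
      have e : {η | p 0 η} = ⋂ k, (S k)ᶜ := by
        ext η
        simp only [mem_iInter, mem_compl_iff]
        exact Iff.rfl
      rw [e]
      exact MeasurableSet.iInter fun k => (hSm k).compl
    | succ k => exact hSm k
  have hf : ∀ n, Measurable (f n) := by
    intro n
    cases n with
    | zero => exact measurable_const
    | succ k => exact (hF k).1
  have hex : ∀ η, ∃ n, p n η := by
    intro η
    by_cases h : ∃ k, η ∈ S k
    · obtain ⟨k, hk⟩ := h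
      exact ⟨k + 1, hk⟩
    · exact ⟨0, fun k hk => h ⟨k, hk⟩⟩
  haveI hdec : ∀ n, DecidablePred (p n) := fun n => Classical.decPred _
  have hFm := @Measurable.find (Conf PvPt) M _ _ f p hdec hf hp hex
  refine ⟨_, hFm, ?_⟩
  have hfin : ∀ᵐ η ∂(pvP ε), ∀ k : ℕ, (η.pts ∩ closedBall (0 : ℂ) (5 * (r + k + 1)) ×ˢ (univ : Set Bool)).Finite :=
    ae_all_iff.2 fun k => pvtn_fin_ae isBounded_closedBall ε
  filter_upwards [dls_ae_conf hε, pvym_scale_ae hε hr, hfin] with η h1 h2 h3
  obtain ⟨k, hk⟩ := h2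
  have hs : p (@Nat.find (fun n => p n η) (fun n => hdec n η) (hex η)) η := @Nat.find_spec (fun n => p n η) (fun n => hdec n η) (hex η)
  show _ = f (@Nat.find (fun n => p n η) (fun n => hdec n η) (hex η)) η
  generalize @Nat.find (fun n => p n η) (fun n => hdec n η) (hex η) = N at hs
  cases N with
  | zero => exact absurd ⟨hk, h3 k⟩ (hs k)
  | succ j => exact (hSF j η hs h1.del).symm

/-- the same with the colour bit (`pvieCol η b`) -/
theorem pvym_aem_col [Nonempty M] {G : PvymFn M} {K : Set ℂ} (hKm : MeasurableSet K) (hKb : Bornology.IsBounded K) (hL : G.Local K) (hA : G.MeasP) {ε : ℝ} (hε : 0 < ε) (b : Bool) :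
    AEMeasurable (fun η : Conf PvPt => G _ _ (delbPl (cfSites η)).toMap Subtype.val (fun v => cfCol η v.1 == b)) (pvP ε) :=
  pvym_aem hKm hKb (hL.recol (· == b)) (hA.recol (· == b)) hε

/-- **GLOBAL NULL MEASURABILITY OF AN EVENT** -/
theorem pvym_null {Φ : PvplPred ℂ} {K : Set ℂ} (hKm : MeasurableSet K) (hKb : Bornology.IsBounded K) (hL : PvymFn.Local (M := Prop) Φ K) (hA : PvymFn.MeasP (M := Prop) Φ) {ε : ℝ} (hε : 0 < ε) :
    NullMeasurableSet {η : Conf PvPt | Φ _ _ (delbPl (cfSites η)).toMap Subtype.val (fun v => cfCol η v.1)} (pvP ε) := by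
  have h := (pvym_aem (M := Prop) (G := Φ) hKm hKb hL hA hε).nullMeasurable (measurableSet_singleton True)
  have e : {η : Conf PvPt | Φ _ _ (delbPl (cfSites η)).toMap Subtype.val (fun v => cfCol η v.1)}
      = (fun η : Conf PvPt => Φ _ _ (delbPl (cfSites η)).toMap Subtype.val (fun v => cfCol η v.1)) ⁻¹' {True} := by
    ext η
    simp only [mem_ofPred_eq, mem_preimage, mem_singleton_iff, eq_iff_iff, iff_true]
  rw [e]
  exact h

theorem pvym_null_col {Φ : PvplPred ℂ} {K : Set ℂ} (hKm : MeasurableSet K) (hKb : Bornology.IsBounded K) (hL : PvymFn.Local (M := Prop) Φ K) (hA : PvymFn.MeasP (M := Prop) Φ) {ε : ℝ} (hε : 0 < ε) (b : Bool) :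
    NullMeasurableSet {η : Conf PvPt | Φ _ _ (delbPl (cfSites η)).toMap Subtype.val (fun v => cfCol η v.1 == b)} (pvP ε) :=
  pvym_null (Φ := fun V D T pos s => Φ V D T pos fun v => s v == b) hKm hKb (PvymFn.Local.recol (M := Prop) (G := Φ) hL (· == b)) (PvymFn.MeasP.recol (M := Prop) (G := Φ) hA (· == b)) hε

end aem

end Claimed.Agent.R289
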