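-- KEEP
import Claimed.Agent.R289.Tr.Local
import Claimed.Agent.R289.Tr.Defs

/-!
# Row 289 (S0537, Cardy for Poisson-Voronoi), unit TR, (P4) LOCALITY for the vocabulary of record `Tr/Defs` (216, road E), file Tr/LocalW      (owner helper22; prefix `pvlw_`, records `PvLocP`, `PvLocGt`, `PvLocSt`, `PvLocDat`)

Everything in `Tr/Defs` is model free on `(T, pos, s)`.   The ACTUAL rims live in a completion `𝔅.T Y` (positions `𝔅.posF Y zi`), the experiments in the Delaunay plane `(delPl h).toMap` (positions `Subtype.val`).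
This file carries states, data and their predicates from one surface to the other along a POSITIONED local isomorphism (`Tr/Local`): ALL statements are symmetric (`L.symm`).

* sec. 1  `PvLocP T T' R pos pos' Kr`: `PvLoc` + equal positions + the vertices placed in `Kr` are full on both sides;  darts with an end in `Kr` are shared
* sec. 2  twins: `PvLocGt` (gate part of a state), `PvLocSP` / `PvLocSM` (exit / entrance HALF state), `PvLocSt` (state; `.toP`, `.toM`), `PvLocDat` (datum: `s : PvLocSM`, `t : PvLocSP`);  the frozen sets correspond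
* sec. 3  states: `pvlw_gate`, `pvlw_gt_exists`, `pvlw_inmost`, `pvlw_stubP/M`, `pvlw_stub`, `pvlw_xp/xm`, `pvlw_ap/am`, `pvlw_goodOut/In`, `pvlw_atOut/In`, `pvlw_at`, `pvlw_sp/sm/st_exists`
* sec. 4  data: `pvlw_mass`, `pvlw_X`, `pvlw_fzY`, `pvlw_comp`, `pvlw_ycl` (needs `π.Yin ⊆ Kr`), `pvlw_cyl`, `pvlw_ok`, `pvlw_dat_exists`;  `PvwDat.NBU` (= `NBsec` with the bypass confined to a set `U` of sites), `pvlw_nbU`, `pvlw_nbU_of_nb`, `pvlw_nb_of_circuit`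
v3 (11:30Z): adapted to `Tr/Defs` v3 of 25 (FROZEN): `core = dsc` (twins: field `PvLocGt.dsc`), `ins`, `Inmost` = THE RULE `pvgnRule` (sec. 2b: `PvLocFr`, `pvlw_im_gate`, `pvlw_min_iff`, `pvlw_rule_iff`, `pvlw_frame`), grid centres, `NU` (`pvlw_yc0`, `pvlw_nu`: only `Yin \ Ycol ⊆ Kr`), `core_off`.
   `NBU` IS NOW `YCL`-FREE = verbatim `PvwDat.NBon` of 78 (`Tr/C2Dom`);  HULL forms `_h` (29): the box hypothesis `B ⊆ Kr` replaced by "the black ends of the positions of the stub are placed in `Kr`";  `pvlw_left_mono` (233).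
* sec. 5  the instance `pvlw_bulk`, and (C1) FOR COMPLETIONS `pvlw_c1`
-/

set_option autoImplicit false

namespace Claimed.Agent.R289

open Relation Set

variable {V D V' D' : Type}

/-! ## 1. Positioned local isomorphisms -/

/-- POSITIONED LOCAL ISOMORPHISM: corresponding vertices have the same position, the vertices placed in `Kr` are full (and not isolated) on both sides -/
structure PvLocP (T : PvMap V D) (T' : PvMap V' D') (R : D → D' → Prop) (pos : V → ℂ) (pos' : V' → ℂ) (Kr : Set ℂ) : Prop where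
  loc : PvLoc T T' R
  pos_eq : ∀ d d', R d d' → pos (T.src d) = pos' (T'.src d')
  full : ∀ v, pos v ∈ Kr → v ∈ T.Int (plDom R) ∧ ∃ d, T.src d = v
  full' : ∀ v', pos' v' ∈ Kr → v' ∈ T'.Int (plRan R) ∧ ∃ d', T'.src d' = v'

section posd

variable {T : PvMap V D} {T' : PvMap V' D'} {R : D → D' → Prop} {pos : V → ℂ} {pos' : V' → ℂ} {Kr : Set ℂ}

theorem PvLocP.symm (L : PvLocP T T' R pos pos' Kr) : PvLocP T' T (fun d' d => R d d') pos' pos Kr :=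
  ⟨L.loc.symm, fun d' d h => (L.pos_eq d d' h).symm, L.full', L.full⟩

theorem pvlw_pos (L : PvLocP T T' R pos pos' Kr) {v : V} {v' : V'} (h : pvlocV T T' R v v') : pos v = pos' v' := by
  obtain ⟨d, d', h1, rfl, rfl⟩ := h
  exact L.pos_eq d d' h1

/-- a vertex placed in `Kr` has a twin -/
theorem pvlw_vertex (L : PvLocP T T' R pos pos' Kr) {v : V} (hv : pos v ∈ Kr) : ∃ v', pvlocV T T' R v v' := by
  obtain ⟨h1, d, hd⟩ := L.full v hv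
  obtain ⟨d', hd'⟩ := h1 d hd
  exact ⟨_, d, d', hd', hd, rfl⟩

/-- a dart whose face has a vertex placed in `Kr` is shared -/
theorem pvlw_dart_src (L : PvLocP T T' R pos pos' Kr) {d : D} (h : pos (T.src d) ∈ Kr) : d ∈ plDom R := (L.full _ h).1 d rfl

theorem pvlw_dart_tgt (L : PvLocP T T' R pos pos' Kr) {d : D} (h : pos (T.tgt d) ∈ Kr) : d ∈ plDom R :=
  (L.loc.iso.dom_face d).1 ((L.full _ h).1 (T.nxt d) rfl)

theorem pvlw_dart_apex (L : PvLocP T T' R pos pos' Kr) {d : D} (h : pos (T.apex d) ∈ Kr) : d ∈ plDom R :=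
  (L.loc.iso.dom_face.nxt2 T d).1 ((L.full _ h).1 (T.nxt (T.nxt d)) rfl)

/-- the opposite of a shared dart with an end in `Kr` -/
theorem pvlw_opp (L : PvLocP T T' R pos pos' Kr) {d : D} {d' : D'} (hd : R d d') (h : pos (T.src d) ∈ Kr ∨ pos (T.tgt d) ∈ Kr) : R (T.opp d) (T'.opp d') :=
  pvloc_opp L.loc hd (h.imp (fun h1 => (L.full _ h1).1) fun h1 => (L.full _ h1).1)

theorem pvlw_bary (L : PvLocP T T' R pos pos' Kr) {d : D} {d' : D'} (hd : R d d') : T.bary pos d = T'.bary pos' d' := by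
  unfold PvMap.bary
  rw [L.pos_eq _ _ hd, show pos (T.tgt d) = pos' (T'.tgt d') from L.pos_eq _ _ (L.loc.iso.nxt hd),
    show pos (T.apex d) = pos' (T'.apex d') from L.pos_eq _ _ (L.loc.iso.nxt (L.loc.iso.nxt hd))]

theorem pvlw_side (L : PvLocP T T' R pos pos' Kr) {d : D} {d' : D'} (hd : R d d') : T.side pos d = T'.side pos' d' := by
  unfold PvMap.side
  rw [L.pos_eq _ _ hd, show pos (T.tgt d) = pos' (T'.tgt d') from L.pos_eq _ _ (L.loc.iso.nxt hd)]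

theorem pvlw_qpart (L : PvLocP T T' R pos pos' Kr) {d : D} {d' : D'} (hd : R d d') : T.qpart pos d = T'.qpart pos' d' := by
  unfold PvMap.qpart
  rw [pvlw_side L hd, pvlw_side L (L.loc.iso.nxt hd), pvlw_side L (L.loc.iso.nxt (L.loc.iso.nxt hd))]

end posd

/-! ## 2. Twins -/

/-- corresponding sets of vertices -/
def PvLocSet (T : PvMap V D) (T' : PvMap V' D') (R : D → D' → Prop) (A : Set V) (A' : Set V') : Prop :=
  (∀ v ∈ A, ∃ v', pvlocV T T' R v v' ∧ v' ∈ A') ∧ ∀ v' ∈ A', ∃ v, pvlocV T T' R v v' ∧ v ∈ A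

/-- the image of a set of darts -/
def pvlwIm (R : D → D' → Prop) (G : Set D) : Set D' := {d' | ∃ d ∈ G, R d d'}

theorem pvlw_eqns_cite : True := by
  have := @PvLocSet.eq_1; have := @pvlwIm.eq_1
  trivial

/-- twins, GATE PART of a state (disc of the core, gate, gate edges, inner arc, marked vertex) -/
structure PvLocGt {T : PvMap V D} {T' : PvMap V' D'} (R : D → D' → Prop) (𝔖 : PvwSt T) (𝔖' : PvwSt T') : Prop where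
  dsc : PvLocSet T T' R 𝔖.dsc 𝔖'.dsc
  S : PvLocCyc R 𝔖.S 𝔖'.S
  dp : R 𝔖.dp 𝔖'.dp
  dm : R 𝔖.dm 𝔖'.dm
  inn : PvLocPth R 𝔖.inn 𝔖'.inn
  ip : 𝔖'.ip = 𝔖.ip

/-- twins, EXIT HALF of a state (`Σ_out`: gate part + exit stub) -/
structure PvLocSP {T : PvMap V D} {T' : PvMap V' D'} (R : D → D' → Prop) (𝔖 : PvwSt T) (𝔖' : PvwSt T') : Prop where
  gt : PvLocGt R 𝔖 𝔖'
  np : 𝔖'.np = 𝔖.np
  ep : ∀ i, i ≤ 𝔖.np → R (𝔖.ep i) (𝔖'.ep i)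

/-- twins, ENTRANCE HALF of a state (`Σ_in`: gate part + entrance stub) -/
structure PvLocSM {T : PvMap V D} {T' : PvMap V' D'} (R : D → D' → Prop) (𝔖 : PvwSt T) (𝔖' : PvwSt T') : Prop where
  gt : PvLocGt R 𝔖 𝔖'
  nm : 𝔖'.nm = 𝔖.nm
  em : ∀ i, i ≤ 𝔖.nm → R (𝔖.em i) (𝔖'.em i)

/-- TWIN STATES -/
structure PvLocSt {T : PvMap V D} {T' : PvMap V' D'} (R : D → D' → Prop) (𝔖 : PvwSt T) (𝔖' : PvwSt T') : Prop where
  gt : PvLocGt R 𝔖 𝔖'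
  np : 𝔖'.np = 𝔖.np
  ep : ∀ i, i ≤ 𝔖.np → R (𝔖.ep i) (𝔖'.ep i)
  nm : 𝔖'.nm = 𝔖.nm
  em : ∀ i, i ≤ 𝔖.nm → R (𝔖.em i) (𝔖'.em i)

/-- TWIN DATA (R-B: of `s` the entrance half, of `t` the exit half) -/
structure PvLocDat {T : PvMap V D} {T' : PvMap V' D'} (R : D → D' → Prop) (𝔇 : PvwDat T) (𝔇' : PvwDat T') : Prop where
  s : PvLocSM R 𝔇.s 𝔇'.s
  t : PvLocSP R 𝔇.t 𝔇'.t
  g : PvLocPth R 𝔇.g 𝔇'.g
  col : ∀ d d', R d d' → 𝔇.col (T.src d) = 𝔇'.col (T'.src d')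

section twins

variable {T : PvMap V D} {T' : PvMap V' D'} {R : D → D' → Prop}

theorem PvLocSet.symm {A : Set V} {A' : Set V'} (h : PvLocSet T T' R A A') : PvLocSet T' T (fun d' d => R d d') A' A :=
  ⟨fun v' hv' => let ⟨v, h1, h2⟩ := h.2 v' hv'; ⟨v, pvloc_v_symm h1, h2⟩, fun v hv => let ⟨v', h1, h2⟩ := h.1 v hv; ⟨v', pvloc_v_symm h1, h2⟩⟩

theorem PvLocGt.symm {𝔖 : PvwSt T} {𝔖' : PvwSt T'} (G : PvLocGt R 𝔖 𝔖') : PvLocGt (fun d' d => R d d') 𝔖' 𝔖 := ⟨G.dsc.symm, G.S.symm, G.dp, G.dm, G.inn.symm, G.ip.symm⟩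

theorem PvLocSP.symm {𝔖 : PvwSt T} {𝔖' : PvwSt T'} (G : PvLocSP R 𝔖 𝔖') : PvLocSP (fun d' d => R d d') 𝔖' 𝔖 := ⟨G.gt.symm, G.np.symm, fun i hi => G.ep i (G.np ▸ hi)⟩

theorem PvLocSM.symm {𝔖 : PvwSt T} {𝔖' : PvwSt T'} (G : PvLocSM R 𝔖 𝔖') : PvLocSM (fun d' d => R d d') 𝔖' 𝔖 := ⟨G.gt.symm, G.nm.symm, fun i hi => G.em i (G.nm ▸ hi)⟩

theorem PvLocSt.symm {𝔖 : PvwSt T} {𝔖' : PvwSt T'} (G : PvLocSt R 𝔖 𝔖') : PvLocSt (fun d' d => R d d') 𝔖' 𝔖 :=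
  ⟨G.gt.symm, G.np.symm, fun i hi => G.ep i (G.np ▸ hi), G.nm.symm, fun i hi => G.em i (G.nm ▸ hi)⟩

theorem PvLocSt.toP {𝔖 : PvwSt T} {𝔖' : PvwSt T'} (G : PvLocSt R 𝔖 𝔖') : PvLocSP R 𝔖 𝔖' := ⟨G.gt, G.np, G.ep⟩

theorem PvLocSt.toM {𝔖 : PvwSt T} {𝔖' : PvwSt T'} (G : PvLocSt R 𝔖 𝔖') : PvLocSM R 𝔖 𝔖' := ⟨G.gt, G.nm, G.em⟩

theorem PvLocDat.symm {𝔇 : PvwDat T} {𝔇' : PvwDat T'} (G : PvLocDat R 𝔇 𝔇') : PvLocDat (fun d' d => R d d') 𝔇' 𝔇 :=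
  ⟨G.s.symm, G.t.symm, G.g.symm, fun d' d h => (G.col d d' h).symm⟩

theorem PvLocSet.union {A B : Set V} {A' B' : Set V'} (h : PvLocSet T T' R A A') (k : PvLocSet T T' R B B') : PvLocSet T T' R (A ∪ B) (A' ∪ B') := by
  constructor
  · rintro v (hv | hv)
    · obtain ⟨v', h1, h2⟩ := h.1 v hv
      exact ⟨v', h1, Or.inl h2⟩
    · obtain ⟨v', h1, h2⟩ := k.1 v hv
      exact ⟨v', h1, Or.inr h2⟩
  · rintro v' (hv | hv)
    · obtain ⟨v, h1, h2⟩ := h.2 v' hv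
      exact ⟨v, h1, Or.inl h2⟩
    · obtain ⟨v, h1, h2⟩ := k.2 v' hv
      exact ⟨v, h1, Or.inr h2⟩

theorem PvLocSet.iff (L : PvLoc T T' R) {A : Set V} {A' : Set V'} (h : PvLocSet T T' R A A') {v : V} {v' : V'} (hv : pvlocV T T' R v v') : v ∈ A ↔ v' ∈ A' := by
  constructor
  · intro ha
    obtain ⟨w', h1, h2⟩ := h.1 v ha
    rwa [pvloc_v_fn L hv h1]
  · intro ha
    obtain ⟨w, h1, h2⟩ := h.2 v' ha
    rwa [pvloc_v_inj L hv h1]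

/-- the sites placed in a part of `Kr` correspond -/
theorem pvlw_set_pos {pos : V → ℂ} {pos' : V' → ℂ} {Kr : Set ℂ} (L : PvLocP T T' R pos pos' Kr) {A : Set ℂ} (hA : A ⊆ Kr) : PvLocSet T T' R {v | pos v ∈ A} {v' | pos' v' ∈ A} := by
  constructor
  · intro v hv
    obtain ⟨v', h1⟩ := pvlw_vertex L (hA hv)
    exact ⟨v', h1, by show pos' v' ∈ A; rw [← pvlw_pos L h1]; exact hv⟩
  · intro v' hv'
    obtain ⟨v, h1⟩ := pvlw_vertex L.symm (hA hv')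
    have h2 : pvlocV T T' R v v' := pvloc_v_symm h1
    exact ⟨v, h2, by show pos v ∈ A; rw [pvlw_pos L h2]; exact hv'⟩

/-- a family of related darts: their sources correspond -/
theorem pvlw_set_src {n n' : ℕ} (hn : n' = n) {e : ℕ → D} {e' : ℕ → D'} (h : ∀ i, i ≤ n → R (e i) (e' i)) :
    PvLocSet T T' R {v | ∃ i, i ≤ n ∧ T.src (e i) = v} {v | ∃ i, i ≤ n' ∧ T'.src (e' i) = v} := by
  subst hn
  constructor
  · rintro _ ⟨i, hi, rfl⟩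
    exact ⟨_, pvloc_v_src (h i hi), i, hi, rfl⟩
  · rintro _ ⟨i, hi, rfl⟩
    exact ⟨_, pvloc_v_src (h i hi), i, hi, rfl⟩

theorem pvlw_set_tgt (L : PvLoc T T' R) {n n' : ℕ} (hn : n' = n) {e : ℕ → D} {e' : ℕ → D'} (h : ∀ i, i ≤ n → R (e i) (e' i)) :
    PvLocSet T T' R {v | ∃ i, i ≤ n ∧ T.tgt (e i) = v} {v | ∃ i, i ≤ n' ∧ T'.tgt (e' i) = v} := by
  subst hn
  constructor
  · rintro _ ⟨i, hi, rfl⟩
    exact ⟨_, pvloc_v_tgt L (h i hi), i, hi, rfl⟩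
  · rintro _ ⟨i, hi, rfl⟩
    exact ⟨_, pvloc_v_tgt L (h i hi), i, hi, rfl⟩

/-- the cores (= the sites of the deterministic disc) correspond -/
theorem pvlw_core {𝔖 : PvwSt T} {𝔖' : PvwSt T'} (G : PvLocGt R 𝔖 𝔖') : PvLocSet T T' R 𝔖.core 𝔖'.core := G.dsc

/-- the closed insides of the gates correspond -/
theorem pvlw_ins (L : PvLoc T T' R) {𝔖 : PvwSt T} {𝔖' : PvwSt T'} (G : PvLocGt R 𝔖 𝔖') (hL : 𝔖.S.Left ⊆ plDom R) : PvLocSet T T' R 𝔖.ins 𝔖'.ins := by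
  constructor
  · rintro _ ⟨d, hd, rfl⟩
    obtain ⟨d', h1, h2⟩ := pvloc_left_fwd L G.S hL hd
    exact ⟨_, pvloc_v_src h1, d', h2, rfl⟩
  · rintro _ ⟨d', hd, rfl⟩
    obtain ⟨d, h1, h2⟩ := pvloc_left_bwd L G.S hL hd
    exact ⟨_, pvloc_v_src h1, d, h2, rfl⟩

/-- inclusions of left sides are carried over (233) -/
theorem pvlw_left_mono (L : PvLoc T T' R) {c c₂ : T.Cyc} {c' c₂' : T'.Cyc} (P : PvLocCyc R c c') (P₂ : PvLocCyc R c₂ c₂') (hL₂ : c₂.Left ⊆ plDom R) (h : c.Left ⊆ c₂.Left) : c'.Left ⊆ c₂'.Left := by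
  intro d' hd'
  obtain ⟨d, h1, h2⟩ := pvloc_left_bwd L P (h.trans hL₂) hd'
  exact (pvloc_left L P₂ hL₂ h1).1 (h h2)

theorem pvlw_bkP {𝔖 : PvwSt T} {𝔖' : PvwSt T'} (G : PvLocSP R 𝔖 𝔖') : PvLocSet T T' R 𝔖.bkP 𝔖'.bkP := pvlw_set_src G.np G.ep
theorem pvlw_whP (L : PvLoc T T' R) {𝔖 : PvwSt T} {𝔖' : PvwSt T'} (G : PvLocSP R 𝔖 𝔖') : PvLocSet T T' R 𝔖.whP 𝔖'.whP := pvlw_set_tgt L G.np G.ep
theorem pvlw_bkM {𝔖 : PvwSt T} {𝔖' : PvwSt T'} (G : PvLocSM R 𝔖 𝔖') : PvLocSet T T' R 𝔖.bkM 𝔖'.bkM := pvlw_set_src G.nm G.em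
theorem pvlw_whM (L : PvLoc T T' R) {𝔖 : PvwSt T} {𝔖' : PvwSt T'} (G : PvLocSM R 𝔖 𝔖') : PvLocSet T T' R 𝔖.whM 𝔖'.whM := pvlw_set_tgt L G.nm G.em

theorem pvlw_fzOut (L : PvLoc T T' R) {𝔖 : PvwSt T} {𝔖' : PvwSt T'} (G : PvLocSP R 𝔖 𝔖') : PvLocSet T T' R 𝔖.fzOut 𝔖'.fzOut :=
  ((pvlw_core G.gt).union (pvlw_bkP G)).union (pvlw_whP L G)

theorem pvlw_fzIn (L : PvLoc T T' R) {𝔖 : PvwSt T} {𝔖' : PvwSt T'} (G : PvLocSM R 𝔖 𝔖') : PvLocSet T T' R 𝔖.fzIn 𝔖'.fzIn :=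
  ((pvlw_core G.gt).union (pvlw_bkM G)).union (pvlw_whM L G)

theorem pvlw_fz (L : PvLoc T T' R) {𝔖 : PvwSt T} {𝔖' : PvwSt T'} (G : PvLocSt R 𝔖 𝔖') : PvLocSet T T' R 𝔖.fz 𝔖'.fz :=
  (pvlw_fzOut L G.toP).union (pvlw_fzIn L G.toM)

theorem pvlw_pth_verts {g : T.Pth} {g' : T'.Pth} (P : PvLocPth R g g') : PvLocSet T T' R g.verts g'.verts := by
  constructor
  · rintro _ ⟨k, hk, rfl⟩
    exact ⟨_, P.v_rel k hk, k, P.n_eq ▸ hk, rfl⟩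
  · rintro _ ⟨k, hk, rfl⟩
    rw [P.n_eq] at hk
    exact ⟨_, P.v_rel k hk, k, hk, rfl⟩

theorem pvlw_pth_inner {g : T.Pth} {g' : T'.Pth} (P : PvLocPth R g g') : PvLocSet T T' R g.inner g'.inner := by
  constructor
  · rintro _ ⟨k, hk0, hk, rfl⟩
    exact ⟨_, P.v_rel k hk.le, k, hk0, P.n_eq ▸ hk, rfl⟩
  · rintro _ ⟨k, hk0, hk, rfl⟩
    rw [P.n_eq] at hk
    exact ⟨_, P.v_rel k hk.le, k, hk0, hk, rfl⟩

/-- loop erasures are carried over -/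
theorem pvlw_le (L : PvLoc T T' R) {b : ℕ → V} {b' : ℕ → V'} {n : ℕ} (hb : ∀ i, i ≤ n → pvlocV T T' R (b i) (b' i)) {y : T.Pth} {y' : T'.Pth} (P : PvLocPth R y y')
    (h : PvwLE T b n y) : PvwLE T' b' n y' := by
  obtain ⟨j, h0, hn, h1, h2⟩ := h
  have hjlt : ∀ k, k < y.n → j k < n := by
    intro k hk
    rcases Nat.lt_or_ge (j k) n with h | h
    · exact h
    · exfalso
      have e1 : j k = n := le_antisymm (h1 k hk.le).1 h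
      have e2 : y.v k = y.v y.n := by rw [(h1 k hk.le).2.1, (h1 y.n le_rfl).2.1, e1, hn]
      have := y.inj k y.n hk.le le_rfl e2
      omega
  refine ⟨j, ?_, by rw [P.n_eq]; exact hn, fun k hk => ?_, fun k hk => ?_⟩
  · exact pvloc_v_fn L (P.v_rel 0 (Nat.zero_le _)) (h0 ▸ hb 0 (Nat.zero_le _))
  · rw [P.n_eq] at hk
    obtain ⟨a1, a2, a3⟩ := h1 k hk
    refine ⟨a1, pvloc_v_fn L (P.v_rel k hk) (a2 ▸ hb _ a1), fun i hi hin he => a3 i hi hin ?_⟩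
    exact pvloc_v_inj L (hb i hin) (he ▸ hb _ a1)
  · rw [P.n_eq] at hk
    exact pvloc_v_fn L (P.v_rel (k + 1) hk) (h2 k hk ▸ hb _ (hjlt k hk))

end twins

/-! ## 2b. The fixed rule of the gates (`pvgnRule` of 150) is carried over -/

/-- FRAME of a transfer: the inner and the outer face sets correspond and lie in the shared part, the outer one with its collar -/
structure PvLocFr (T : PvMap V D) (T' : PvMap V' D') (R : D → D' → Prop) (I O : Set D) (I' O' : Set D') : Prop where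
  I_iff : ∀ d d', R d d' → (d ∈ I ↔ d' ∈ I')
  O_iff : ∀ d d', R d d' → (d ∈ O ↔ d' ∈ O')
  I_dom : I ⊆ plDom R
  I_ran : I' ⊆ plRan R
  O_dom : O ⊆ plDom R
  O_ran : O' ⊆ plRan R
  O_opp : ∀ d ∈ O, T.opp d ∈ plDom R
  O_opp' : ∀ d' ∈ O', T'.opp d' ∈ plRan R
  face : T.FaceSet O
  face' : T'.FaceSet O'

section rule

variable {T : PvMap V D} {T' : PvMap V' D'} {R : D → D' → Prop} {I O : Set D} {I' O' : Set D'} {s : V → Bool} {s' : V' → Bool}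

theorem PvLocFr.symm (F : PvLocFr T T' R I O I' O') : PvLocFr T' T (fun d' d => R d d') I' O' I O :=
  ⟨fun d' d h => (F.I_iff d d' h).symm, fun d' d h => (F.O_iff d d' h).symm, F.I_ran, F.I_dom, F.O_ran, F.O_dom, F.O_opp', F.O_opp, F.face', F.face⟩

theorem pvlw_im_iff (L : PvLoc T T' R) {G : Set D} {d : D} {d' : D'} (h : R d d') : d' ∈ pvlwIm R G ↔ d ∈ G := by
  constructor
  · rintro ⟨e, he, hr⟩
    rw [L.iso.inj h hr]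
    exact he
  · exact fun hd => ⟨d, hd, h⟩

/-- a boundary dart of the image of a face set inside `O` -/
theorem pvlw_im_bd (L : PvLoc T T' R) (F : PvLocFr T T' R I O I' O') {G : Set D} (hG : G ⊆ O) {d' : D'} (h : T'.Bd (pvlwIm R G) d') :
    ∃ d, R d d' ∧ R (T.opp d) (T'.opp d') ∧ T.Bd G d := by
  have key : ∀ d, R d d' → R (T.opp d) (T'.opp d') → T.Bd G d := fun d h1 h2 hb => h ((pvlw_im_iff L h1).trans (hb.trans (pvlw_im_iff L h2).symm))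
  by_cases h1 : d' ∈ pvlwIm R G
  · obtain ⟨d, hd, hr⟩ := h1
    have h2 := L.iso.opp_rel hr (F.O_opp d (hG hd))
    exact ⟨d, hr, h2, key d hr h2⟩
  · have h2 : T'.opp d' ∈ pvlwIm R G := by
      by_contra h2
      exact h ⟨fun a => absurd a h1, fun a => absurd a h2⟩
    obtain ⟨e, he, hr⟩ := h2
    have h3 := L.iso.opp_rel hr (F.O_opp e (hG he))
    rw [T'.opp_opp] at h3
    have h4 : R (T.opp (T.opp e)) (T'.opp d') := by rw [T.opp_opp]; exact hr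
    exact ⟨T.opp e, h3, h4, key _ h3 h4⟩

/-- the image of a face-set gate is a face-set gate -/
theorem pvlw_im_gate (L : PvLoc T T' R) (hs : ∀ d d', R d d' → s (T.src d) = s' (T'.src d')) (F : PvLocFr T T' R I O I' O') {G : Set D} (hG : PvgnG T s I O G) :
    PvgnG T' s' I' O' (pvlwIm R G) := by
  refine ⟨fun d' => ⟨?_, ?_⟩, fun d' hd' => ?_, ?_, ?_, ?_⟩
  · rintro ⟨e, he, hr⟩
    obtain ⟨d, hd⟩ : d' ∈ plRan R := (L.iso.ran_face d').1 ⟨e, hr⟩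
    have h1 : e = T.nxt d := L.iso.inj hr (L.iso.nxt hd)
    exact ⟨d, (hG.face d).1 (h1 ▸ he), hd⟩
  · rintro ⟨d, hd, hr⟩
    exact ⟨T.nxt d, (hG.face d).2 hd, L.iso.nxt hr⟩
  · obtain ⟨d, hd⟩ := F.I_ran hd'
    exact ⟨d, hG.inner ((F.I_iff d d' hd).2 hd'), hd⟩
  · rintro d' ⟨d, hd, hr⟩
    exact (F.O_iff d d' hr).1 (hG.outer hd)
  · have hex : ∀ v' : ↥(pvgnX T' s' (pvlwIm R G)), ∃ v, pvlocV T T' R v v'.1 ∧ v ∈ pvgnX T s G := by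
      rintro ⟨v', ⟨d', rfl, hb⟩, hc⟩
      obtain ⟨d, h1, -, h3⟩ := pvlw_im_bd L F hG.outer hb
      exact ⟨T.src d, pvloc_v_src h1, ⟨d, rfl, h3⟩, by rw [hs _ _ h1]; exact hc⟩
    choose f hf using hex
    let e : ↥(pvgnX T' s' (pvlwIm R G)) ↪ ↥(pvgnX T s G) := ⟨fun v' => ⟨f v', (hf v').2⟩, fun a b hab => by
      have h1 : f a = f b := congrArg Subtype.val hab
      have h2 := (hf a).1
      rw [h1] at h2
      exact Subtype.ext (pvloc_v_fn L h2 (hf b).1)⟩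
    exact e.encard_le.trans hG.two
  · intro d' hb
    obtain ⟨d, h1, -, h3⟩ := pvlw_im_bd L F hG.outer hb
    rw [← hs _ _ h1, ← show s (T.tgt d) = s' (T'.tgt d') from hs _ _ (L.iso.nxt h1)]
    exact hG.nobb d h3

theorem pvlw_min_fwd (L : PvLoc T T' R) (hs : ∀ d d', R d d' → s (T.src d) = s' (T'.src d')) (F : PvLocFr T T' R I O I' O') {d : D} {d' : D'} (h : R d d')
    (hd : d ∈ pvgnMin T s I O) : d' ∈ pvgnMin T' s' I' O' := by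
  intro G' hG'
  have h1 := hd _ (pvlw_im_gate L.symm (fun d' d hr => (hs d d' hr).symm) F.symm hG')
  exact (pvlw_im_iff L.symm (d := d') (d' := d) h).1 h1

/-- **the minimal face-set gate is carried over** -/
theorem pvlw_min_iff (L : PvLoc T T' R) (hs : ∀ d d', R d d' → s (T.src d) = s' (T'.src d')) (F : PvLocFr T T' R I O I' O') {d : D} {d' : D'} (h : R d d') :
    d ∈ pvgnMin T s I O ↔ d' ∈ pvgnMin T' s' I' O' :=
  ⟨pvlw_min_fwd L hs F h, pvlw_min_fwd L.symm (fun d' d hr => (hs d d' hr).symm) F.symm (d := d') (d' := d) h⟩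

theorem pvlw_min_edg (L : PvLoc T T' R) (hs : ∀ d d', R d d' → s (T.src d) = s' (T'.src d')) (F : PvLocFr T T' R I O I' O') {d : D} {d' : D'} (h : R d d') (h2 : R (T.opp d) (T'.opp d')) :
    T.Edg {e | T.Bd (pvgnMin T s I O) e} d ↔ T'.Edg {e | T'.Bd (pvgnMin T' s' I' O') e} d' := by
  have e1 := pvlw_min_iff L hs F h
  have e2 := pvlw_min_iff L hs F h2
  have b1 : T.Bd (pvgnMin T s I O) d ↔ T'.Bd (pvgnMin T' s' I' O') d' := by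
    unfold PvMap.Bd
    rw [e1, e2]
  have b2 : T.Bd (pvgnMin T s I O) (T.opp d) ↔ T'.Bd (pvgnMin T' s' I' O') (T'.opp d') := by
    unfold PvMap.Bd
    rw [T.opp_opp, T'.opp_opp, e1, e2]
  exact or_congr b1 b2

theorem pvlw_rule_bwd (L : PvLoc T T' R) (hs : ∀ d d', R d d' → s (T.src d) = s' (T'.src d')) (F : PvLocFr T T' R I O I' O') {d : D} {d' : D'} (h : R d d')
    (hd' : d' ∈ pvgnRule T' s' I' O') : d ∈ pvgnRule T s I O := by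
  intro o ho hj
  have key : ∀ x, T.DJoin {e | T.Bd (pvgnMin T s I O) e} o x → x ∈ O → ∃ x', R x x' ∧ ∃ o', o' ∉ O' ∧ T'.DJoin {e | T'.Bd (pvgnMin T' s' I' O') e} o' x' := by
    intro x hx
    induction hx with
    | refl => exact fun hO => absurd hO ho
    | @tail a b hab hstep ih =>
      intro hb
      obtain ⟨b', hbb⟩ := F.O_dom hb
      by_cases ha : a ∈ O
      · obtain ⟨a', haa, o', ho', hj'⟩ := ih ha
        rcases hstep with rfl | ⟨rfl, hne⟩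
        · exact ⟨_, L.iso.nxt haa, o', ho', hj'.tail (Or.inl rfl)⟩
        · have h2 := L.iso.opp_rel haa ⟨b', hbb⟩
          exact ⟨_, h2, o', ho', hj'.tail (Or.inr ⟨rfl, fun he => hne ((pvlw_min_edg L hs F haa h2).2 he)⟩)⟩
      · rcases hstep with rfl | ⟨rfl, hne⟩
        · exact absurd ((F.face a).1 hb) ha
        · have h2 : R (T.opp (T.opp a)) (T'.opp b') := L.iso.opp_rel hbb (F.O_opp _ hb)
          rw [T.opp_opp] at h2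
          have h3 : R (T.opp a) (T'.opp (T'.opp b')) := by rw [T'.opp_opp]; exact hbb
          exact ⟨b', hbb, T'.opp b', fun hc => ha ((F.O_iff _ _ h2).2 hc),
            ReflTransGen.single (Or.inr ⟨(T'.opp_opp b').symm, fun he => hne ((pvlw_min_edg L hs F h2 h3).2 he)⟩)⟩
  have hdO : d ∈ O := (F.O_iff d d' h).2 (pvgn_rule_sub hd')
  obtain ⟨x', hx, o', ho', hj'⟩ := key d hj hdO
  rw [L.iso.fn hx h] at hj'
  exact hd' o' ho' hj'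

/-- **THE RULE is carried over** -/
theorem pvlw_rule_iff (L : PvLoc T T' R) (hs : ∀ d d', R d d' → s (T.src d) = s' (T'.src d')) (F : PvLocFr T T' R I O I' O') {d : D} {d' : D'} (h : R d d') :
    d ∈ pvgnRule T s I O ↔ d' ∈ pvgnRule T' s' I' O' :=
  ⟨pvlw_rule_bwd L.symm (fun d' d hr => (hs d d' hr).symm) F.symm (d := d') (d' := d) h, pvlw_rule_bwd L hs F h⟩

variable {pos : V → ℂ} {pos' : V' → ℂ} {Kr : Set ℂ}

theorem pvlw_star_iff (L : PvLocP T T' R pos pos' Kr) (A : Set ℂ) {d : D} {d' : D'} (h : R d d') : d ∈ T.Star {v | pos v ∈ A} ↔ d' ∈ T'.Star {v' | pos' v' ∈ A} := by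
  have e1 := L.pos_eq _ _ h
  have e2 : pos (T.tgt d) = pos' (T'.tgt d') := L.pos_eq _ _ (L.loc.iso.nxt h)
  have e3 : pos (T.apex d) = pos' (T'.apex d') := L.pos_eq _ _ (L.loc.iso.nxt (L.loc.iso.nxt h))
  show (pos (T.src d) ∈ A ∨ pos (T.tgt d) ∈ A ∨ pos (T.apex d) ∈ A) ↔ (pos' (T'.src d') ∈ A ∨ pos' (T'.tgt d') ∈ A ∨ pos' (T'.apex d') ∈ A)
  rw [e1, e2, e3]

theorem pvlw_I_dom (L : PvLocP T T' R pos pos' Kr) {z : ℂ} {a : ℝ} (ha : Metric.ball z a ⊆ Kr) : pvwI T pos z a ⊆ plDom R := by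
  rintro d (h | h | h)
  · exact pvlw_dart_src L (ha (mem_ball_iff_norm.2 h))
  · exact pvlw_dart_tgt L (ha (mem_ball_iff_norm.2 h))
  · exact pvlw_dart_apex L (ha (mem_ball_iff_norm.2 h))

theorem pvlw_O_src {z : ℂ} {b : ℝ} {d : D} (hd : d ∈ pvwO T pos z b) : pos (T.src d) ∈ Metric.ball z b :=
  mem_ball_iff_norm.2 (not_le.1 fun hc => hd (Or.inl hc))

/-- **the frame of a gate annulus placed in `Kr`** -/
theorem pvlw_frame (L : PvLocP T T' R pos pos' Kr) {z : ℂ} {a b : ℝ} (ha : Metric.ball z a ⊆ Kr) (hb : Metric.ball z b ⊆ Kr) :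
    PvLocFr T T' R (pvwI T pos z a) (pvwO T pos z b) (pvwI T' pos' z a) (pvwO T' pos' z b) := by
  refine ⟨fun d d' h => pvlw_star_iff L {w | ‖w - z‖ < a} h, fun d d' h => not_congr (pvlw_star_iff L {w | b ≤ ‖w - z‖} h), pvlw_I_dom L ha, pvlw_I_dom L.symm ha,
    fun d hd => pvlw_dart_src L (hb (pvlw_O_src hd)), fun d' hd' => pvlw_dart_src L.symm (hb (pvlw_O_src hd')),
    fun d hd => pvloc_opp_mem L.loc (Or.inl (L.full _ (hb (pvlw_O_src hd))).1), fun d' hd' => pvloc_opp_mem L.symm.loc (Or.inl (L.full' _ (hb (pvlw_O_src hd'))).1),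
    (pl_star_face _).compl, (pl_star_face _).compl⟩

end rule

/-! ## 3. States -/

section states

variable {T : PvMap V D} {T' : PvMap V' D'} {R : D → D' → Prop} {pos : V → ℂ} {pos' : V' → ℂ} {Kr : Set ℂ} {s : V → Bool} {s' : V' → Bool}

/-- the inside of a gate lies in the shared part -/
theorem pvlw_left_sub (L : PvLocP T T' R pos pos' Kr) {𝔖 : PvwSt T} {z : ℂ} {r : ℝ} (hin : ∀ v ∈ 𝔖.ins, ‖pos v - z‖ < r) (hK : Metric.closedBall z r ⊆ Kr) : 𝔖.S.Left ⊆ plDom R :=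
  fun d hd => pvlw_dart_src L (hK (mem_closedBall_iff_norm.2 (hin _ ⟨d, hd, rfl⟩).le))

/-- the sites of an open disc placed in `Kr` correspond -/
theorem pvlw_disc (L : PvLocP T T' R pos pos' Kr) {z : ℂ} {r : ℝ} (hK : Metric.closedBall z r ⊆ Kr) : PvLocSet T T' R {v | ‖pos v - z‖ < r} {v' | ‖pos' v' - z‖ < r} :=
  pvlw_set_pos L (A := {w | ‖w - z‖ < r}) fun _ hw => hK (mem_closedBall_iff_norm.2 (le_of_lt hw))

/-- **GATES are carried over** -/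
theorem pvlw_gate (L : PvLocP T T' R pos pos' Kr) (hT : T.IsSph) (hs : ∀ d d', R d d' → s (T.src d) = s' (T'.src d')) {𝔖 : PvwSt T} {𝔖' : PvwSt T'} (G : PvLocGt R 𝔖 𝔖')
    {h : ℝ} {z : ℂ} {τ : PvwTy} (hK : Metric.closedBall z (τ.b * h) ⊆ Kr) (hg : 𝔖.Gate pos h z τ s) : 𝔖'.Gate pos' h z τ s' := by
  have hL : 𝔖.S.Left ⊆ plDom R := pvlw_left_sub L hg.inside hK
  have hKv : ∀ v ∈ 𝔖.S.verts, pos v ∈ Kr := fun v hv => hK (mem_closedBall_iff_norm.2 (hg.ann v hv).2.le)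
  have hins := pvlw_ins L.loc G hL
  have hcol : ∀ k, T.opp (𝔖.S.e k) ∈ plDom R := fun k => pvloc_opp_mem L.loc (Or.inl (L.full _ (hKv _ ⟨k, rfl⟩)).1)
  have hab : τ.a * h ≤ τ.b * h := (hg.ann _ ⟨0, rfl⟩).1.trans (hg.ann _ ⟨0, rfl⟩).2.le
  obtain ⟨n, h1, h2, h3⟩ := hg.strand
  have hit := pvloc_it_disc L.loc hT hs hL hcol G.dm h2
  refine ⟨?_, ?_, ?_, ?_, ?_, ?_, ?_, ?_, (pvloc_bw L.loc hs G.dp).1 hg.bw_p, (pvloc_bw L.loc hs G.dm).1 hg.bw_m, ?_, ?_, ?_, ?_, ⟨n, ?_, ?_, ?_⟩, ?_, ?_, ?_⟩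
  · refine (hg.fin.biUnion fun d _ => (show ({d' | R d d'} : Set D').Subsingleton from fun x hx y hy => L.loc.iso.fn hx hy).finite).subset ?_
    intro d' hd'
    obtain ⟨d, e1, e2⟩ := pvloc_left_bwd L.loc G.S hL hd'
    exact mem_iUnion₂.2 ⟨d, e2, e1⟩
  · ext v'
    constructor
    · intro hv'
      obtain ⟨v, e1, e2⟩ := G.dsc.2 v' hv'
      rw [hg.dsc_eq] at e2
      show ‖pos' v' - z‖ < τ.b * h
      rw [← pvlw_pos L e1]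
      exact e2
    · intro hv'
      obtain ⟨v, e1, e2⟩ := (pvlw_disc L hK).2 v' hv'
      refine (G.dsc.iff L.loc e1).1 ?_
      rw [hg.dsc_eq]
      exact e2
  · refine (hg.core_fin.biUnion fun v _ => (show ({v' | pvlocV T T' R v v'} : Set V').Subsingleton from fun x hx y hy => pvloc_v_fn L.loc hx hy).finite).subset ?_
    intro v' hv'
    obtain ⟨v, e1, e2⟩ := G.dsc.2 v' hv'
    exact mem_iUnion₂.2 ⟨v, e2, e1⟩
  · rintro _ ⟨k, rfl⟩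
    rw [← L.pos_eq _ _ (G.S.e_rel k)]
    exact hg.ann _ ⟨k, rfl⟩
  · intro v' hv'
    obtain ⟨v, hv⟩ := pvlw_vertex L.symm (v := v') (hK (mem_closedBall_iff_norm.2 (hv'.le.trans hab)))
    have hv2 : pvlocV T T' R v v' := pvloc_v_symm hv
    refine (hins.iff L.loc hv2).1 (hg.round v ?_)
    rw [pvlw_pos L hv2]
    exact hv'
  · intro v' hv'
    obtain ⟨v, e1, e2⟩ := hins.2 v' hv'
    rw [← pvlw_pos L e1]
    exact hg.inside v e2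
  · obtain ⟨k, hk⟩ := hg.dp_on
    have e1 := G.S.e_rel k
    rw [hk] at e1
    exact ⟨k, L.loc.iso.opp G.dp e1⟩
  · obtain ⟨k, hk⟩ := hg.dm_on
    have e1 := G.S.e_rel k
    rw [hk] at e1
    exact ⟨k, L.loc.iso.fn e1 G.dm⟩
  · intro e1
    exact hg.ne (L.loc.vinj G.dp G.dm e1)
  · have e1 : pos' 𝔖'.gm = pos 𝔖.gm := (L.pos_eq _ _ G.dm).symm
    have e2 : pos' 𝔖'.gp = pos 𝔖.gp := (L.pos_eq _ _ G.dp).symm
    rw [e1, e2]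
    exact hg.ori
  · rintro _ ⟨k, rfl⟩ hb
    rw [← hs _ _ (G.S.e_rel k)] at hb
    rcases hg.two _ ⟨k, rfl⟩ hb with e1 | e1
    · exact Or.inl (L.loc.vfn (G.S.e_rel k) G.dp e1)
    · exact Or.inr (L.loc.vfn (G.S.e_rel k) G.dm e1)
  · rintro _ ⟨k, rfl⟩ e1
    rw [show s' (T'.tgt (𝔖'.S.e k)) = s (T.tgt (𝔖.S.e k)) from (hs _ _ (L.loc.iso.nxt (G.S.e_rel k))).symm]
    exact hg.left _ ⟨k, rfl⟩ (L.loc.vinj (G.S.e_rel k) G.dp e1)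
  · have e1 := hit n le_rfl
    rw [h1] at e1
    exact L.loc.iso.fn e1 G.dp
  · intro i hi
    exact (pvloc_left L.loc G.S hL (hit i hi.le)).1 (h2 i hi)
  · exact pvlw_le L.loc (b := fun i => T.src (pvasIt T s 𝔖.dm i)) (b' := fun i => T'.src (pvasIt T' s' 𝔖'.dm i)) (fun i hi => pvloc_v_src (hit i hi)) G.inn h3
  · rw [G.ip, G.inn.n_eq]
    exact hg.ip_le
  · rw [G.ip, ← pvlw_pos L (G.inn.v_rel _ hg.ip_le)]
    exact hg.ip_near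
  · intro i hi
    rw [G.ip] at hi
    rw [← pvlw_pos L (G.inn.v_rel i (hi.le.trans hg.ip_le))]
    exact hg.ip_first i hi

/-- the gate part of a state has a twin -/
theorem pvlw_gt_exists (L : PvLocP T T' R pos pos' Kr) {𝔖 : PvwSt T} {h : ℝ} {z : ℂ} {τ : PvwTy} (hK : Metric.closedBall z (τ.b * h) ⊆ Kr) (hg : 𝔖.Gate pos h z τ s) :
    ∃ 𝔖' : PvwSt T', PvLocGt R 𝔖 𝔖' := by
  have hKv : ∀ v ∈ 𝔖.S.verts, pos v ∈ Kr := fun v hv => hK (mem_closedBall_iff_norm.2 (hg.ann v hv).2.le)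
  have hKc : ∀ v ∈ 𝔖.ins, pos v ∈ Kr := fun v hv => hK (mem_closedBall_iff_norm.2 (hg.inside v hv).le)
  obtain ⟨S', hS'⟩ := pvloc_cyc_exists L.loc 𝔖.S fun k => pvlw_dart_src L (hKv _ ⟨k, rfl⟩)
  have hgp : 𝔖.gp ∈ 𝔖.S.verts := by
    obtain ⟨k, hk⟩ := hg.dp_on
    refine ⟨k + 1, ?_⟩
    rw [← 𝔖.S.chain k, hk, T.tgt_opp]
    rfl
  obtain ⟨dp', hdp'⟩ : 𝔖.dp ∈ plDom R := pvlw_dart_src L (hKv _ hgp)
  obtain ⟨dm', hdm'⟩ : 𝔖.dm ∈ plDom R := by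
    obtain ⟨k, hk⟩ := hg.dm_on
    exact pvlw_dart_src L (hKv _ ⟨k, by rw [hk]⟩)
  obtain ⟨n, h1, h2, j, a0, an, a1, a2⟩ := hg.strand
  have hvK : ∀ k, k ≤ 𝔖.inn.n → pos (𝔖.inn.v k) ∈ Kr := by
    intro k hk
    obtain ⟨b1, b2, -⟩ := a1 k hk
    rw [b2]
    rcases Nat.lt_or_ge (j k) n with h3 | h3
    · exact hKc _ ⟨_, h2 _ h3, rfl⟩
    · have : j k = n := le_antisymm b1 h3
      show pos (T.src (pvasIt T s 𝔖.dm (j k))) ∈ Kr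
      rw [this, h1]
      exact hKv _ hgp
  have hn : 0 < 𝔖.inn.n := by
    rcases Nat.eq_zero_or_pos 𝔖.inn.n with h0 | h0
    · exfalso
      have e1 := (a1 𝔖.inn.n le_rfl).2.1
      rw [an] at e1
      have e2 : 𝔖.inn.v 𝔖.inn.n = 𝔖.gp := by rw [e1]; show T.src (pvasIt T s 𝔖.dm n) = _; rw [h1]; rfl
      have e3 : 𝔖.inn.v 0 = 𝔖.gm := a0
      rw [h0, e3] at e2
      exact hg.ne e2.symm
    · exact h0
  obtain ⟨inn', hinn'⟩ := pvloc_pth_exists L.loc 𝔖.inn hn fun k hk => pvlw_dart_src L (by rw [𝔖.inn.src_e k hk]; exact hvK k hk.le)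
  refine ⟨⟨{v' | ‖pos' v' - z‖ < τ.b * h}, S', dp', dm', inn', 𝔖.ip, 0, fun _ => dp', 0, fun _ => dm'⟩, ?_, hS', hdp', hdm', hinn', rfl⟩
  show PvLocSet T T' R 𝔖.dsc {v' | ‖pos' v' - z‖ < τ.b * h}
  rw [hg.dsc_eq]
  exact pvlw_disc L hK

/-- **INNERMOST (= the fixed rule) is carried over** -/
theorem pvlw_inmost (L : PvLocP T T' R pos pos' Kr) (hs : ∀ d d', R d d' → s (T.src d) = s' (T'.src d')) {𝔖 : PvwSt T} {𝔖' : PvwSt T'} (G : PvLocGt R 𝔖 𝔖')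
    {h : ℝ} {z : ℂ} {τ : PvwTy} (hK : Metric.closedBall z (τ.b * h) ⊆ Kr) (hab : τ.a * h ≤ τ.b * h) (hi : 𝔖.Inmost pos h z τ s) : 𝔖'.Inmost pos' h z τ s' := by
  have hb : Metric.ball z (τ.b * h) ⊆ Kr := Metric.ball_subset_closedBall.trans hK
  have F := pvlw_frame L ((Metric.ball_subset_ball hab).trans hb) hb
  have hi' : 𝔖.S.Left = pvgnRule T s (pvwI T pos z (τ.a * h)) (pvwO T pos z (τ.b * h)) := hi
  have hL : 𝔖.S.Left ⊆ plDom R := by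
    rw [hi']
    exact pvgn_rule_sub.trans F.O_dom
  show 𝔖'.S.Left = pvgnRule T' s' (pvwI T' pos' z (τ.a * h)) (pvwO T' pos' z (τ.b * h))
  ext d'
  constructor
  · intro hd'
    obtain ⟨d, e1, e2⟩ := pvloc_left_bwd L.loc G.S hL hd'
    rw [hi'] at e2
    exact (pvlw_rule_iff L.loc hs F e1).1 e2
  · intro hd'
    obtain ⟨d, e1⟩ := F.O_ran (pvgn_rule_sub hd')
    refine (pvloc_left L.loc G.S hL e1).1 ?_
    rw [hi']
    exact (pvlw_rule_iff L.loc hs F e1).2 hd'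

/-- one step backwards of a strand -/
theorem pvlw_back (L : PvLoc T T' R) (hs : ∀ d d', R d d' → s (T.src d) = s' (T'.src d')) {a : D} {a' : D'} (h : R a a') (hm : T.opp a ∈ plDom R) :
    R (pvasBack T s a) (pvasBack T' s' a') := by
  have h1 : R (T.opp a) (T'.opp a') := L.iso.opp_rel h hm
  have h3 : s (T.apex (T.opp a)) = s' (T'.apex (T'.opp a')) := hs _ _ (L.iso.nxt (L.iso.nxt h1))
  unfold pvasBack
  rw [← h3]
  by_cases hc : s (T.apex (T.opp a)) = true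
  · rw [if_pos hc, if_pos hc]
    exact L.iso.nxt (L.iso.nxt h1)
  · rw [if_neg hc, if_neg hc]
    exact L.iso.nxt h1

/-- **EXIT STUBS are carried over** -/
theorem pvlw_stubP (L : PvLocP T T' R pos pos' Kr) (hs : ∀ d d', R d d' → s (T.src d) = s' (T'.src d')) {𝔖 : PvwSt T} {𝔖' : PvwSt T'} (G : PvLocSP R 𝔖 𝔖') {B : Set ℂ}
    (h : 𝔖.StubP pos B s) : 𝔖'.StubP pos' B s' := by
  have hps : ∀ d d', R d d' → pos' (T'.src d') = pos (T.src d) := fun d d' hd => (L.pos_eq d d' hd).symm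
  have hpt : ∀ d d', R d d' → pos' (T'.tgt d') = pos (T.tgt d) := fun d d' hd => (L.pos_eq _ _ (L.loc.iso.nxt hd)).symm
  have hpa : ∀ d d', R d d' → pos' (T'.apex d') = pos (T.apex d) := fun d d' hd => (L.pos_eq _ _ (L.loc.iso.nxt (L.loc.iso.nxt hd))).symm
  have hit : ∀ j, j ≤ 𝔖.np → R (pvasIt T s 𝔖.dp j) (pvasIt T' s' 𝔖'.dp j) :=
    pvloc_it L.loc hs G.gt.dp fun j hj => ⟨𝔖'.ep j, by rw [← h.ep_it j hj]; exact G.ep j hj⟩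
  refine ⟨fun i hi => ?_, fun i hi => ?_, fun i hi => ?_, ?_⟩
  · rw [G.np] at hi
    have h1 := hit i hi
    rw [← h.ep_it i hi] at h1
    exact L.loc.iso.fn (G.ep i hi) h1
  · rw [G.np] at hi
    rw [hps _ _ (G.ep i hi), hpt _ _ (G.ep i hi)]
    exact h.ep_in i hi
  · rw [G.np] at hi
    rw [hpa _ _ (G.ep i hi.le)]
    exact h.ep_ax i hi
  · unfold PvwSt.ap
    rw [G.np, hpa _ _ (G.ep _ le_rfl)]
    exact h.ep_out

/-- the opposites of the positions of an entrance stub placed in `Kr` -/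
theorem pvlw_em_opp (L : PvLocP T T' R pos pos' Kr) {𝔖 : PvwSt T} {𝔖' : PvwSt T'} (G : PvLocSM R 𝔖 𝔖') (hK : ∀ i, i ≤ 𝔖.nm → pos (T.src (𝔖.em i)) ∈ Kr) {i : ℕ} (hi : i ≤ 𝔖.nm) :
    R (T.opp (𝔖.em i)) (T'.opp (𝔖'.em i)) := pvlw_opp L (G.em i hi) (Or.inl (hK i hi))

/-- **ENTRANCE STUBS are carried over**, HULL form: only the black ends of the positions are placed in `Kr` -/
theorem pvlw_stubM_h (L : PvLocP T T' R pos pos' Kr) (hs : ∀ d d', R d d' → s (T.src d) = s' (T'.src d')) {𝔖 : PvwSt T} {𝔖' : PvwSt T'} (G : PvLocSM R 𝔖 𝔖') {B : Set ℂ}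
    (hKm : ∀ i, i ≤ 𝔖.nm → pos (T.src (𝔖.em i)) ∈ Kr) (h : 𝔖.StubM pos B s) : 𝔖'.StubM pos' B s' := by
  have hps : ∀ d d', R d d' → pos' (T'.src d') = pos (T.src d) := fun d d' hd => (L.pos_eq d d' hd).symm
  have hpt : ∀ d d', R d d' → pos' (T'.tgt d') = pos (T.tgt d) := fun d d' hd => (L.pos_eq _ _ (L.loc.iso.nxt hd)).symm
  have hpa : ∀ d d', R d d' → pos' (T'.apex d') = pos (T.apex d) := fun d d' hd => (L.pos_eq _ _ (L.loc.iso.nxt (L.loc.iso.nxt hd))).symm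
  have hopp : ∀ i, i ≤ 𝔖.nm → R (T.opp (𝔖.em i)) (T'.opp (𝔖'.em i)) := fun i hi => pvlw_em_opp L G hKm hi
  have hbk : ∀ j, j ≤ 𝔖.nm → R ((pvasBack T s)^[j] 𝔖.dm) ((pvasBack T' s')^[j] 𝔖'.dm) := by
    intro j
    induction j with
    | zero => exact fun _ => G.gt.dm
    | succ j ih =>
      intro hj
      rw [Function.iterate_succ_apply', Function.iterate_succ_apply']
      refine pvlw_back L.loc hs (ih (by omega)) ?_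
      rw [← h.em_it j (by omega)]
      exact ⟨_, hopp j (by omega)⟩
  refine ⟨fun i hi => ?_, fun i hi => ?_, fun i hi => ?_, ?_⟩
  · rw [G.nm] at hi
    have h1 := hbk i hi
    rw [← h.em_it i hi] at h1
    exact L.loc.iso.fn (G.em i hi) h1
  · rw [G.nm] at hi
    rw [hps _ _ (G.em i hi), hpt _ _ (G.em i hi)]
    exact h.em_in i hi
  · rw [G.nm] at hi
    rw [hpa _ _ (hopp i hi.le)]
    exact h.em_ax i hi
  · unfold PvwSt.am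
    rw [G.nm, hpa _ _ (hopp _ le_rfl)]
    exact h.em_out

/-- **ENTRANCE STUBS are carried over** (box in `Kr`) -/
theorem pvlw_stubM (L : PvLocP T T' R pos pos' Kr) (hs : ∀ d d', R d d' → s (T.src d) = s' (T'.src d')) {𝔖 : PvwSt T} {𝔖' : PvwSt T'} (G : PvLocSM R 𝔖 𝔖') {B : Set ℂ} (hB : B ⊆ Kr)
    (h : 𝔖.StubM pos B s) : 𝔖'.StubM pos' B s' := pvlw_stubM_h L hs G (fun i hi => hB (h.em_in i hi).1) h

/-- **STUBS are carried over** -/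
theorem pvlw_stub (L : PvLocP T T' R pos pos' Kr) (hs : ∀ d d', R d d' → s (T.src d) = s' (T'.src d')) {𝔖 : PvwSt T} {𝔖' : PvwSt T'} (G : PvLocSt R 𝔖 𝔖') {B : Set ℂ} (hB : B ⊆ Kr)
    (h : 𝔖.Stub pos B s) : 𝔖'.Stub pos' B s' := ⟨pvlw_stubP L hs G.toP h.1, pvlw_stubM L hs G.toM hB h.2⟩

theorem pvlw_mid (L : PvLocP T T' R pos pos' Kr) (𝔖 : PvwSt T) (𝔖' : PvwSt T') {d : D} {d' : D'} (hd : R d d') : 𝔖'.mid pos' d' = 𝔖.mid pos d := by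
  unfold PvwSt.mid
  rw [L.pos_eq _ _ hd, show pos (T.tgt d) = pos' (T'.tgt d') from L.pos_eq _ _ (L.loc.iso.nxt hd)]

/-- twin half states have the same tip -/
theorem pvlw_xp (L : PvLocP T T' R pos pos' Kr) {𝔖 : PvwSt T} {𝔖' : PvwSt T'} (G : PvLocSP R 𝔖 𝔖') : 𝔖'.xp pos' = 𝔖.xp pos := by
  unfold PvwSt.xp
  rw [G.np]
  exact pvlw_mid L _ _ (G.ep _ le_rfl)

theorem pvlw_xm (L : PvLocP T T' R pos pos' Kr) {𝔖 : PvwSt T} {𝔖' : PvwSt T'} (G : PvLocSM R 𝔖 𝔖') : 𝔖'.xm pos' = 𝔖.xm pos := by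
  unfold PvwSt.xm
  rw [G.nm]
  exact pvlw_mid L _ _ (G.em _ le_rfl)

/-- the tip apexes of twin half states correspond -/
theorem pvlw_ap (L : PvLoc T T' R) {𝔖 : PvwSt T} {𝔖' : PvwSt T'} (G : PvLocSP R 𝔖 𝔖') : pvlocV T T' R 𝔖.ap 𝔖'.ap := by
  unfold PvwSt.ap
  rw [G.np]
  exact pvloc_v_apex L (G.ep _ le_rfl)

theorem pvlw_am (L : PvLocP T T' R pos pos' Kr) {𝔖 : PvwSt T} {𝔖' : PvwSt T'} (G : PvLocSM R 𝔖 𝔖') (hK : ∀ i, i ≤ 𝔖.nm → pos (T.src (𝔖.em i)) ∈ Kr) : pvlocV T T' R 𝔖.am 𝔖'.am := by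
  unfold PvwSt.am
  rw [G.nm]
  exact pvloc_v_apex L.loc (pvlw_em_opp L G hK le_rfl)

/-- **GOOD LEVELS are carried over**, exit half -/
theorem pvlw_goodOut (L : PvLocP T T' R pos pos' Kr) {𝔖 : PvwSt T} {𝔖' : PvwSt T'} (G : PvLocSP R 𝔖 𝔖') (hL : 𝔖.S.Left ⊆ plDom R) {N : PvwNum} {h : ℝ} {y : ℂ}
    (hg : 𝔖.GoodOut pos N h y) : 𝔖'.GoodOut pos' N h y := by
  have hps : ∀ d d', R d d' → pos' (T'.src d') = pos (T.src d) := fun d d' hd => (L.pos_eq d d' hd).symm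
  have hpt : ∀ d d', R d d' → pos' (T'.tgt d') = pos (T.tgt d) := fun d d' hd => (L.pos_eq _ _ (L.loc.iso.nxt hd)).symm
  refine ⟨?_, ?_, fun i hi hm => ?_⟩
  · rw [G.np, hps _ _ (G.ep _ le_rfl), hpt _ _ (G.ep _ le_rfl)]
    exact hg.tip_p
  · obtain ⟨i₀, h1, h2, h3⟩ := hg.late_p
    refine ⟨i₀, by rw [G.np]; exact h1, fun i hi hin => ?_, fun i hi => ?_⟩
    · rw [G.np] at hin
      rw [hps _ _ (G.ep i hin), hpt _ _ (G.ep i hin)]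
      exact h2 i hi hin
    · rw [hps _ _ (G.ep i (by omega)), hpt _ _ (G.ep i (by omega))]
      exact h3 i hi
  · rw [G.np] at hi
    exact hg.off_p i hi ((pvloc_left L.loc G.gt.S hL (G.ep i hi)).2 hm)

/-- **GOOD LEVELS are carried over**, entrance half -/
theorem pvlw_goodIn (L : PvLocP T T' R pos pos' Kr) {𝔖 : PvwSt T} {𝔖' : PvwSt T'} (G : PvLocSM R 𝔖 𝔖') (hL : 𝔖.S.Left ⊆ plDom R) (hK : ∀ i, i ≤ 𝔖.nm → pos (T.src (𝔖.em i)) ∈ Kr)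
    {N : PvwNum} {h : ℝ} {y : ℂ} (hg : 𝔖.GoodIn pos N h y) : 𝔖'.GoodIn pos' N h y := by
  have hps : ∀ d d', R d d' → pos' (T'.src d') = pos (T.src d) := fun d d' hd => (L.pos_eq d d' hd).symm
  have hpt : ∀ d d', R d d' → pos' (T'.tgt d') = pos (T.tgt d) := fun d d' hd => (L.pos_eq _ _ (L.loc.iso.nxt hd)).symm
  refine ⟨?_, ?_, fun i hi hm => ?_⟩
  · rw [G.nm, hps _ _ (G.em _ le_rfl), hpt _ _ (G.em _ le_rfl)]
    exact hg.tip_m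
  · obtain ⟨i₀, h1, h2, h3⟩ := hg.late_m
    refine ⟨i₀, by rw [G.nm]; exact h1, fun i hi hin => ?_, fun i hi => ?_⟩
    · rw [G.nm] at hin
      rw [hps _ _ (G.em i hin), hpt _ _ (G.em i hin)]
      exact h2 i hi hin
    · rw [hps _ _ (G.em i (by omega)), hpt _ _ (G.em i (by omega))]
      exact h3 i hi
  · rw [G.nm] at hi
    exact hg.off_m i hi ((pvloc_left L.loc G.gt.S hL (pvlw_em_opp L G hK hi)).2 hm)

theorem pvlw_gate_ab {𝔖 : PvwSt T} {h : ℝ} {z : ℂ} {τ : PvwTy} (hg : 𝔖.Gate pos h z τ s) : τ.a * h ≤ τ.b * h := (hg.ann _ ⟨0, rfl⟩).1.trans (hg.ann _ ⟨0, rfl⟩).2.le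

/-- **THE EXIT HALF STATE OF THE COLOURING is carried over** -/
theorem pvlw_atOut (L : PvLocP T T' R pos pos' Kr) (hT : T.IsSph) (hs : ∀ d d', R d d' → s (T.src d) = s' (T'.src d')) {𝔖 : PvwSt T} {𝔖' : PvwSt T'} (G : PvLocSP R 𝔖 𝔖')
    {N : PvwNum} {h : ℝ} {z : ℂ} {τ : PvwTy} (hK : Metric.closedBall z (τ.b * h) ⊆ Kr) (ha : 𝔖.AtOut pos N h z τ s) : 𝔖'.AtOut pos' N h z τ s' :=
  ⟨pvlw_gate L hT hs G.gt hK ha.gate, pvlw_inmost L hs G.gt hK (pvlw_gate_ab ha.gate) ha.inmost, pvlw_stubP L hs G ha.stub, pvlw_goodOut L G (pvlw_left_sub L ha.gate.inside hK) ha.good, ha.lev⟩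

/-- **THE ENTRANCE HALF STATE OF THE COLOURING is carried over**, HULL form -/
theorem pvlw_atIn_h (L : PvLocP T T' R pos pos' Kr) (hT : T.IsSph) (hs : ∀ d d', R d d' → s (T.src d) = s' (T'.src d')) {𝔖 : PvwSt T} {𝔖' : PvwSt T'} (G : PvLocSM R 𝔖 𝔖')
    {N : PvwNum} {h : ℝ} {z : ℂ} {τ : PvwTy} (hK : Metric.closedBall z (τ.b * h) ⊆ Kr) (hKm : ∀ i, i ≤ 𝔖.nm → pos (T.src (𝔖.em i)) ∈ Kr) (ha : 𝔖.AtIn pos N h z τ s) : 𝔖'.AtIn pos' N h z τ s' :=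
  ⟨pvlw_gate L hT hs G.gt hK ha.gate, pvlw_inmost L hs G.gt hK (pvlw_gate_ab ha.gate) ha.inmost, pvlw_stubM_h L hs G hKm ha.stub,
    pvlw_goodIn L G (pvlw_left_sub L ha.gate.inside hK) hKm ha.good, ha.lev⟩

/-- **THE ENTRANCE HALF STATE OF THE COLOURING is carried over** (box in `Kr`) -/
theorem pvlw_atIn (L : PvLocP T T' R pos pos' Kr) (hT : T.IsSph) (hs : ∀ d d', R d d' → s (T.src d) = s' (T'.src d')) {𝔖 : PvwSt T} {𝔖' : PvwSt T'} (G : PvLocSM R 𝔖 𝔖')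
    {N : PvwNum} {h : ℝ} {z : ℂ} {τ : PvwTy} (hK : Metric.closedBall z (τ.b * h) ⊆ Kr) (hB : pvwSq z (pvwRad N h τ τ.k) ⊆ Kr) (ha : 𝔖.AtIn pos N h z τ s) : 𝔖'.AtIn pos' N h z τ s' :=
  pvlw_atIn_h L hT hs G hK (fun i hi => hB (ha.stub.em_in i hi).1) ha

/-- **THE STATE OF THE COLOURING is carried over**, HULL form -/
theorem pvlw_at_h (L : PvLocP T T' R pos pos' Kr) (hT : T.IsSph) (hs : ∀ d d', R d d' → s (T.src d) = s' (T'.src d')) {𝔖 : PvwSt T} {𝔖' : PvwSt T'} (G : PvLocSt R 𝔖 𝔖')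
    {N : PvwNum} {h : ℝ} {z : ℂ} {τ : PvwTy} (hK : Metric.closedBall z (τ.b * h) ⊆ Kr) (hKm : ∀ i, i ≤ 𝔖.nm → pos (T.src (𝔖.em i)) ∈ Kr) (ha : 𝔖.At pos N h z τ s) : 𝔖'.At pos' N h z τ s' := by
  refine ⟨pvlw_atOut L hT hs G.toP hK ha.out, pvlw_atIn_h L hT hs G.toM hK hKm ha.inn, fun v' hv' => ?_, fun v' hv' => ?_⟩
  · obtain ⟨v, h1, h2⟩ := (pvlw_fzIn L.loc G.toM).2 v' hv'
    rw [← pvlw_pos L h1]
    exact ha.far_p v h2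
  · obtain ⟨v, h1, h2⟩ := (pvlw_fzOut L.loc G.toP).2 v' hv'
    rw [← pvlw_pos L h1]
    exact ha.far_m v h2

/-- **THE STATE OF THE COLOURING is carried over** (box in `Kr`;  `hT'` is not used any more, kept for the importers) -/
theorem pvlw_at (L : PvLocP T T' R pos pos' Kr) (hT : T.IsSph) (_hT' : T'.IsSph) (hs : ∀ d d', R d d' → s (T.src d) = s' (T'.src d')) {𝔖 : PvwSt T} {𝔖' : PvwSt T'} (G : PvLocSt R 𝔖 𝔖')
    {N : PvwNum} {h : ℝ} {z : ℂ} {τ : PvwTy} (hK : Metric.closedBall z (τ.b * h) ⊆ Kr) (hB : pvwSq z (pvwRad N h τ τ.k) ⊆ Kr) (ha : 𝔖.At pos N h z τ s) : 𝔖'.At pos' N h z τ s' :=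
  pvlw_at_h L hT hs G hK (fun i hi => hB (ha.inn.stub.em_in i hi).1) ha

/-- a finite list of shared darts has a twin list -/
theorem pvlw_list_exists {e : ℕ → D} {n : ℕ} (h : ∀ i, i ≤ n → e i ∈ plDom R) : ∃ f : ℕ → D', ∀ i, i ≤ n → R (e i) (f i) := by
  have hex : ∀ i, ∃ d', R (e (min i n)) d' := fun i => h _ (Nat.min_le_right _ _)
  choose f hf using hex
  refine ⟨f, fun i hi => ?_⟩
  have := hf i
  rwa [min_eq_left hi] at this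

/-- **an exit half state has a twin**, HULL form -/
theorem pvlw_sp_exists_h (L : PvLocP T T' R pos pos' Kr) {𝔖 : PvwSt T} {h : ℝ} {z : ℂ} {τ : PvwTy} (hK : Metric.closedBall z (τ.b * h) ⊆ Kr)
    (hg : 𝔖.Gate pos h z τ s) (hKp : ∀ i, i ≤ 𝔖.np → pos (T.src (𝔖.ep i)) ∈ Kr) : ∃ 𝔖' : PvwSt T', PvLocSP R 𝔖 𝔖' := by
  obtain ⟨𝔖0, G⟩ := pvlw_gt_exists L hK hg
  obtain ⟨f1, hf1⟩ := pvlw_list_exists (R := R) (e := 𝔖.ep) (n := 𝔖.np) fun i hi => pvlw_dart_src L (hKp i hi)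
  exact ⟨⟨𝔖0.dsc, 𝔖0.S, 𝔖0.dp, 𝔖0.dm, 𝔖0.inn, 𝔖0.ip, 𝔖.np, f1, 𝔖0.nm, 𝔖0.em⟩, ⟨G.dsc, G.S, G.dp, G.dm, G.inn, G.ip⟩, rfl, hf1⟩

/-- **an entrance half state has a twin**, HULL form -/
theorem pvlw_sm_exists_h (L : PvLocP T T' R pos pos' Kr) {𝔖 : PvwSt T} {h : ℝ} {z : ℂ} {τ : PvwTy} (hK : Metric.closedBall z (τ.b * h) ⊆ Kr)
    (hg : 𝔖.Gate pos h z τ s) (hKm : ∀ i, i ≤ 𝔖.nm → pos (T.src (𝔖.em i)) ∈ Kr) : ∃ 𝔖' : PvwSt T', PvLocSM R 𝔖 𝔖' := by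
  obtain ⟨𝔖0, G⟩ := pvlw_gt_exists L hK hg
  obtain ⟨f2, hf2⟩ := pvlw_list_exists (R := R) (e := 𝔖.em) (n := 𝔖.nm) fun i hi => pvlw_dart_src L (hKm i hi)
  exact ⟨⟨𝔖0.dsc, 𝔖0.S, 𝔖0.dp, 𝔖0.dm, 𝔖0.inn, 𝔖0.ip, 𝔖0.np, 𝔖0.ep, 𝔖.nm, f2⟩, ⟨G.dsc, G.S, G.dp, G.dm, G.inn, G.ip⟩, rfl, hf2⟩

/-- **a state has a twin**, HULL form -/
theorem pvlw_st_exists_h (L : PvLocP T T' R pos pos' Kr) {𝔖 : PvwSt T} {h : ℝ} {z : ℂ} {τ : PvwTy} (hK : Metric.closedBall z (τ.b * h) ⊆ Kr)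
    (hg : 𝔖.Gate pos h z τ s) (hKp : ∀ i, i ≤ 𝔖.np → pos (T.src (𝔖.ep i)) ∈ Kr) (hKm : ∀ i, i ≤ 𝔖.nm → pos (T.src (𝔖.em i)) ∈ Kr) : ∃ 𝔖' : PvwSt T', PvLocSt R 𝔖 𝔖' := by
  obtain ⟨𝔖0, G⟩ := pvlw_gt_exists L hK hg
  obtain ⟨f1, hf1⟩ := pvlw_list_exists (R := R) (e := 𝔖.ep) (n := 𝔖.np) fun i hi => pvlw_dart_src L (hKp i hi)
  obtain ⟨f2, hf2⟩ := pvlw_list_exists (R := R) (e := 𝔖.em) (n := 𝔖.nm) fun i hi => pvlw_dart_src L (hKm i hi)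
  exact ⟨⟨𝔖0.dsc, 𝔖0.S, 𝔖0.dp, 𝔖0.dm, 𝔖0.inn, 𝔖0.ip, 𝔖.np, f1, 𝔖.nm, f2⟩, ⟨G.dsc, G.S, G.dp, G.dm, G.inn, G.ip⟩, rfl, hf1, rfl, hf2⟩

/-- **an exit half state has a twin** -/
theorem pvlw_sp_exists (L : PvLocP T T' R pos pos' Kr) {𝔖 : PvwSt T} {h : ℝ} {z : ℂ} {τ : PvwTy} {B : Set ℂ} (hK : Metric.closedBall z (τ.b * h) ⊆ Kr) (hB : B ⊆ Kr)
    (hg : 𝔖.Gate pos h z τ s) (hst : 𝔖.StubP pos B s) : ∃ 𝔖' : PvwSt T', PvLocSP R 𝔖 𝔖' := pvlw_sp_exists_h L hK hg fun i hi => hB (hst.ep_in i hi).1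

/-- **an entrance half state has a twin** -/
theorem pvlw_sm_exists (L : PvLocP T T' R pos pos' Kr) {𝔖 : PvwSt T} {h : ℝ} {z : ℂ} {τ : PvwTy} {B : Set ℂ} (hK : Metric.closedBall z (τ.b * h) ⊆ Kr) (hB : B ⊆ Kr)
    (hg : 𝔖.Gate pos h z τ s) (hst : 𝔖.StubM pos B s) : ∃ 𝔖' : PvwSt T', PvLocSM R 𝔖 𝔖' := pvlw_sm_exists_h L hK hg fun i hi => hB (hst.em_in i hi).1

/-- **a state has a twin** -/
theorem pvlw_st_exists (L : PvLocP T T' R pos pos' Kr) {𝔖 : PvwSt T} {h : ℝ} {z : ℂ} {τ : PvwTy} {B : Set ℂ} (hK : Metric.closedBall z (τ.b * h) ⊆ Kr) (hB : B ⊆ Kr)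
    (hg : 𝔖.Gate pos h z τ s) (hst : 𝔖.Stub pos B s) : ∃ 𝔖' : PvwSt T', PvLocSt R 𝔖 𝔖' :=
  pvlw_st_exists_h L hK hg (fun i hi => hB (hst.1.ep_in i hi).1) fun i hi => hB (hst.2.em_in i hi).1

end states

/-! ## 4. Data -/

/-- **`NB^U(D)`**: no black path through sites of `U` which leaves `g₀` into its right side and comes back to `g₀` at another vertex.      VERBATIM `PvwDat.NBon` of 78 (`Tr/C2Dom`; `Iff.rfl`: `pvlx_nbon` of `Tr/LocalX`);  `NBsec = NBU YCLᶜ` -/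
def PvwDat.NBU {T : PvMap V D} (𝔇 : PvwDat T) (U : Set V) (σ : V → Bool) : Prop :=
  ¬ ∃ (i j : ℕ) (q : T.Pth), i ≤ 𝔇.g.n ∧ j ≤ 𝔇.g.n ∧ i ≠ j ∧ 0 < q.n ∧ q.v 0 = 𝔇.g.v i ∧ q.v q.n = 𝔇.g.v j ∧ 𝔇.RSec i (q.e 0) ∧
    ∀ x ∈ q.inner, σ x = true ∧ x ∉ 𝔇.g.verts ∧ x ∈ U

theorem pvlw_eqns_cite2 : True := by
  have := @PvwDat.NBU.eq_1
  trivial

section data

variable {T : PvMap V D} {T' : PvMap V' D'} {R : D → D' → Prop} {pos : V → ℂ} {pos' : V' → ℂ} {Kr : Set ℂ}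

theorem pvlw_nbU_sec {𝔇 : PvwDat T} {π : PvwPat} {σ : V → Bool} : 𝔇.NBsec pos π σ ↔ 𝔇.NBU (𝔇.YCL pos π)ᶜ σ := Iff.rfl

theorem pvlw_nbU_anti {𝔇 : PvwDat T} {σ : V → Bool} {U U' : Set V} (hU : U ⊆ U') (h : 𝔇.NBU U' σ) : 𝔇.NBU U σ := by
  rintro ⟨i, j, q, h1, h2, h3, h4, h5, h6, h7, h8⟩
  exact h ⟨i, j, q, h1, h2, h3, h4, h5, h6, h7, fun x hx => ⟨(h8 x hx).1, (h8 x hx).2.1, hU (h8 x hx).2.2⟩⟩

theorem pvlw_nbU_of_nb {𝔇 : PvwDat T} {π : PvwPat} {σ : V → Bool} {U : Set V} (hU : ∀ v ∈ U, v ∉ 𝔇.YCL pos π) (h : 𝔇.NBsec pos π σ) : 𝔇.NBU U σ :=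
  pvlw_nbU_anti (U' := (𝔇.YCL pos π)ᶜ) hU h

theorem pvlw_nb_of_univ {𝔇 : PvwDat T} {π : PvwPat} {σ : V → Bool} (h : 𝔇.NBU Set.univ σ) : 𝔇.NBsec pos π σ :=
  pvlw_nbU_anti (U := (𝔇.YCL pos π)ᶜ) (Set.subset_univ _) h

/-- `NB^U(D)` + a white circuit `w` with `g₀` strictly inside, `M ∩ Int w.Left ⊆ U`  ⟹  `NB^M(D)`      (W1_208 sec. 2, BULK PATCH) -/
theorem pvlw_nb_of_circuit (hT : T.IsSph) {𝔇 : PvwDat T} {σ : V → Bool} {U M : Set V} (w : T.Cyc) (hw : ∀ k, σ (T.src (w.e k)) = false)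
    (hg : 𝔇.g.verts ⊆ T.Int w.Left) (hU : ∀ v ∈ T.Int w.Left, v ∈ M → v ∈ U) (h : 𝔇.NBU U σ) : 𝔇.NBU M σ := by
  rintro ⟨i, j, q, h1, h2, h3, h4, h5, h6, h7, h8⟩
  have key : ∀ k, k < q.n → q.v k ∈ T.Int w.Left := by
    intro k
    induction k with
    | zero =>
      intro _
      rw [h5]
      exact hg ⟨i, h1, rfl⟩
    | succ k ih =>
      intro hk
      refine pl_jordan_sep hT w (ih (by omega)) (ReflTransGen.single ⟨⟨q.e k, q.src_e k (by omega), q.tgt_e k (by omega)⟩, ?_⟩)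
      rintro ⟨l, hl⟩
      have hb := (h8 (q.v (k + 1)) ⟨k + 1, by omega, hk, rfl⟩).1
      rw [← hl, hw l] at hb
      exact Bool.noConfusion hb
  refine h ⟨i, j, q, h1, h2, h3, h4, h5, h6, h7, fun x hx => ?_⟩
  obtain ⟨k, k0, k1, rfl⟩ := hx
  have h9 := h8 (q.v k) ⟨k, k0, k1, rfl⟩
  exact ⟨h9.1, h9.2.1, hU _ (key k k1) h9.2.2⟩

/-- masses of twin paths -/
theorem pvlw_mass (L : PvLocP T T' R pos pos' Kr) {w : D → ℂ} {w' : D' → ℂ} (hw : ∀ d d', R d d' → w d = w' d') {p : T.Pth} {p' : T'.Pth} (P : PvLocPth R p p')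
    (hp : ∀ k, k ≤ p.n → pos (p.v k) ∈ Kr) (K : Set ℂ) {i j : ℕ} (hj : j ≤ p.n) : pvwMass T pos w K p i j = pvwMass T' pos' w' K p' i j := by
  unfold pvwMass
  refine Finset.sum_congr rfl fun k hk => ?_
  have hk' : k < p.n := lt_of_lt_of_le (Finset.mem_Ico.1 hk).2 hj
  have hR : R (T.opp (p.e k)) (T'.opp (p'.e k)) := by
    refine pvlw_opp L (P.e_rel k hk') (Or.inl ?_)
    rw [p.src_e k hk']
    exact hp k hk'.le
  rw [pvlw_bary L hR, hw _ _ hR]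

/-- **`X(D)` is carried over** -/
theorem pvlw_X (L : PvLocP T T' R pos pos' Kr) {w : D → ℂ} {w' : D' → ℂ} (hw : ∀ d d', R d d' → w d = w' d') {𝔇 : PvwDat T} {𝔇' : PvwDat T'} (G : PvLocDat R 𝔇 𝔇')
    (h1 : ∀ k, k ≤ 𝔇.s.inn.n → pos (𝔇.s.inn.v k) ∈ Kr) (h2 : ∀ k, k ≤ 𝔇.g.n → pos (𝔇.g.v k) ∈ Kr) (h3 : ∀ k, k ≤ 𝔇.t.inn.n → pos (𝔇.t.inn.v k) ∈ Kr)
    (hs : 𝔇.s.ip ≤ 𝔇.s.inn.n) (ht : 𝔇.t.ip ≤ 𝔇.t.inn.n) (N : PvwNum) (h : ℝ) (π : PvwPat) : 𝔇.X pos w N h π = 𝔇'.X pos' w' N h π := by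
  unfold PvwDat.X
  rw [G.s.gt.inn.n_eq, G.s.gt.ip, G.g.n_eq, G.t.gt.ip,
    pvlw_mass L hw G.s.gt.inn h1 _ le_rfl, pvlw_mass L hw G.s.gt.inn h1 _ le_rfl, pvlw_mass L hw G.g h2 _ le_rfl, pvlw_mass L hw G.t.gt.inn h3 _ ht]

/-- the apexes of the right triangles of `g₀` correspond -/
theorem pvlw_apx (L : PvLocP T T' R pos pos' Kr) {𝔇 : PvwDat T} {𝔇' : PvwDat T'} (G : PvLocDat R 𝔇 𝔇') (h2 : ∀ k, k ≤ 𝔇.g.n → pos (𝔇.g.v k) ∈ Kr) : PvLocSet T T' R 𝔇.apx 𝔇'.apx := by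
  have key : ∀ i, i < 𝔇.g.n → pvlocV T T' R (T.apex (T.opp (𝔇.g.e i))) (T'.apex (T'.opp (𝔇'.g.e i))) := by
    intro i hi
    refine pvloc_v_apex L.loc (pvlw_opp L (G.g.e_rel i hi) (Or.inl ?_))
    rw [𝔇.g.src_e i hi]
    exact h2 i hi.le
  constructor
  · rintro _ ⟨i, hi, rfl⟩
    exact ⟨_, key i hi, i, G.g.n_eq ▸ hi, rfl⟩
  · rintro _ ⟨i, hi, rfl⟩
    rw [G.g.n_eq] at hi
    exact ⟨_, key i hi, i, hi, rfl⟩

/-- the sites frozen by `D_Y` correspond -/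
theorem pvlw_fzY (L : PvLoc T T' R) {𝔇 : PvwDat T} {𝔇' : PvwDat T'} (G : PvLocDat R 𝔇 𝔇') : PvLocSet T T' R 𝔇.fzY 𝔇'.fzY :=
  (pvlw_fzOut L G.t).union (pvlw_fzIn L G.s)

/-- components inside a set of full vertices -/
theorem pvlw_comp (L : PvLoc T T' R) {X : Set V} {X' : Set V'} (hX : X ⊆ T.Int (plDom R)) (hXX : ∀ v v', pvlocV T T' R v v' → v ∈ X → v' ∈ X') {a : V} {a' : V'} (ha : pvlocV T T' R a a')
    {v : V} (hv : v ∈ pvwComp T X a) : ∃ v', pvlocV T T' R v v' ∧ v' ∈ pvwComp T' X' a' := by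
  obtain ⟨q, h0, h1, h2⟩ := hv
  rcases Nat.eq_zero_or_pos q.n with hn | hn
  · obtain ⟨-, d', -, -, -⟩ := id ha
    refine ⟨a', by rw [← h1, hn, h0]; exact ha, PvMap.Pth.nil T' a' d', rfl, rfl, ?_⟩
    rintro x ⟨k, -, rfl⟩
    exact hXX a a' ha (h0 ▸ h2 _ ⟨0, Nat.zero_le _, rfl⟩)
  · obtain ⟨q', P⟩ := pvloc_pth_exists L q hn (fun k hk => hX (h2 _ ⟨k, hk.le, rfl⟩) _ (q.src_e k hk))
    refine ⟨q'.v q'.n, by rw [P.n_eq, ← h1]; exact P.v_rel _ le_rfl, q', ?_, rfl, ?_⟩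
    · exact pvloc_v_fn L (P.v_rel 0 (Nat.zero_le _)) (h0 ▸ ha)
    · rintro x ⟨k, hk, rfl⟩
      rw [P.n_eq] at hk
      exact hXX _ _ (P.v_rel k hk) (h2 _ ⟨k, hk, rfl⟩)

/-- the hull hypothesis on the other side -/
theorem pvlw_hull_m (L : PvLocP T T' R pos pos' Kr) {𝔖 : PvwSt T} {𝔖' : PvwSt T'} (G : PvLocSM R 𝔖 𝔖') (hKm : ∀ i, i ≤ 𝔖.nm → pos (T.src (𝔖.em i)) ∈ Kr) :
    ∀ i, i ≤ 𝔖'.nm → pos' (T'.src (𝔖'.em i)) ∈ Kr := by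
  intro i hi
  rw [G.nm] at hi
  rw [← L.pos_eq _ _ (G.em i hi)]
  exact hKm i hi

/-- **`YCL` is carried over** (the region `Yin` lies in the patch) -/
theorem pvlw_ycl (L : PvLocP T T' R pos pos' Kr) {𝔇 : PvwDat T} {𝔇' : PvwDat T'} (G : PvLocDat R 𝔇 𝔇')
    (hKm : ∀ i, i ≤ 𝔇.s.nm → pos (T.src (𝔇.s.em i)) ∈ Kr) {π : PvwPat} (hY : π.Yin ⊆ Kr) : PvLocSet T T' R (𝔇.YCL pos π) (𝔇'.YCL pos' π) := by
  have F := pvlw_fzY L.loc G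
  have hap := pvlw_ap L.loc G.t
  have ham := pvlw_am L G.s hKm
  have h1 : 𝔇.Yraw pos π ⊆ T.Int (plDom R) := fun v hv => (L.full v (hY hv.2)).1
  have h1' : 𝔇'.Yraw pos' π ⊆ T'.Int (plRan R) := fun v hv => (L.full' v (hY hv.2)).1
  have h2 : ∀ v v', pvlocV T T' R v v' → v ∈ 𝔇.Yraw pos π → v' ∈ 𝔇'.Yraw pos' π := fun v v' hv hm =>
    ⟨fun hf => hm.1 ((F.iff L.loc hv).2 hf), by rw [← pvlw_pos L hv]; exact hm.2⟩
  have h2' : ∀ v' v, pvlocV T' T (fun d' d => R d d') v' v → v' ∈ 𝔇'.Yraw pos' π → v ∈ 𝔇.Yraw pos π := fun v' v hv hm =>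
    ⟨fun hf => hm.1 ((F.iff L.loc (pvloc_v_symm hv)).1 hf), by rw [pvlw_pos L (pvloc_v_symm hv)]; exact hm.2⟩
  constructor
  · rintro v (hv | hv)
    · obtain ⟨v', k1, k2⟩ := pvlw_comp L.loc h1 h2 hap hv
      exact ⟨v', k1, Or.inl k2⟩
    · obtain ⟨v', k1, k2⟩ := pvlw_comp L.loc h1 h2 ham hv
      exact ⟨v', k1, Or.inr k2⟩
  · rintro v' (hv | hv)
    · obtain ⟨v, k1, k2⟩ := pvlw_comp L.loc.symm h1' h2' (pvloc_v_symm hap) hv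
      exact ⟨v, pvloc_v_symm k1, Or.inl k2⟩
    · obtain ⟨v, k1, k2⟩ := pvlw_comp L.loc.symm h1' h2' (pvloc_v_symm ham) hv
      exact ⟨v, pvloc_v_symm k1, Or.inr k2⟩

theorem pvlw_yc0_fwd (L : PvLocP T T' R pos pos' Kr) {𝔇 : PvwDat T} {𝔇' : PvwDat T'} (G : PvLocDat R 𝔇 𝔇')
    (hKm : ∀ i, i ≤ 𝔇.s.nm → pos (T.src (𝔇.s.em i)) ∈ Kr) {π : PvwPat} (hY : π.Yin \ π.Ycol ⊆ Kr) {v : V} (hv : v ∈ 𝔇.YC0 pos π) : ∃ v', pvlocV T T' R v v' ∧ v' ∈ 𝔇'.YC0 pos' π := by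
  obtain ⟨a, ha, hc⟩ := hv
  have F := pvlw_fzY L.loc G
  have h1 : 𝔇.Yr0 pos π ⊆ T.Int (plDom R) := fun v hv => (L.full v (hY ⟨hv.1.2, hv.2⟩)).1
  have h2 : ∀ v v', pvlocV T T' R v v' → v ∈ 𝔇.Yr0 pos π → v' ∈ 𝔇'.Yr0 pos' π := fun v v' hv hm =>
    ⟨⟨fun hf => hm.1.1 ((F.iff L.loc hv).2 hf), by rw [← pvlw_pos L hv]; exact hm.1.2⟩, by rw [← pvlw_pos L hv]; exact hm.2⟩
  have haY : a ∈ 𝔇.Yr0 pos π := by
    obtain ⟨q, q0, -, q2⟩ := hc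
    exact q0 ▸ q2 _ ⟨0, Nat.zero_le _, rfl⟩
  obtain ⟨a', haa⟩ := pvlw_vertex L (hY ⟨haY.1.2, haY.2⟩)
  obtain ⟨v', k1, k2⟩ := pvlw_comp L.loc h1 h2 haa hc
  refine ⟨v', k1, a', ?_, k2⟩
  rcases ha with rfl | rfl | ⟨w, hw, hadj⟩
  · exact Or.inl (pvloc_v_fn L.loc haa (pvlw_ap L.loc G.t))
  · exact Or.inr (Or.inl (pvloc_v_fn L.loc haa (pvlw_am L G.s hKm)))
  · obtain ⟨w', hww, hadj'⟩ := pvloc_adj L.loc haa (h1 haY) hadj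
    exact Or.inr (Or.inr ⟨w', by rw [← pvlw_pos L hww]; exact hw, hadj'⟩)

/-- **`YC0` is carried over**: only `Yin \ Ycol` lies in the patch (29: the lanes may leave it) -/
theorem pvlw_yc0 (L : PvLocP T T' R pos pos' Kr) {𝔇 : PvwDat T} {𝔇' : PvwDat T'} (G : PvLocDat R 𝔇 𝔇')
    (hKm : ∀ i, i ≤ 𝔇.s.nm → pos (T.src (𝔇.s.em i)) ∈ Kr) {π : PvwPat} (hY : π.Yin \ π.Ycol ⊆ Kr) : PvLocSet T T' R (𝔇.YC0 pos π) (𝔇'.YC0 pos' π) := by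
  refine ⟨fun v hv => pvlw_yc0_fwd L G hKm hY hv, fun v' hv' => ?_⟩
  obtain ⟨v, k1, k2⟩ := pvlw_yc0_fwd L.symm G.symm (pvlw_hull_m L G.s hKm) hY hv'
  exact ⟨v, pvloc_v_symm k1, k2⟩

/-- **`NU` is carried over** -/
theorem pvlw_nu (L : PvLocP T T' R pos pos' Kr) {𝔇 : PvwDat T} {𝔇' : PvwDat T'} (G : PvLocDat R 𝔇 𝔇')
    (hKm : ∀ i, i ≤ 𝔇.s.nm → pos (T.src (𝔇.s.em i)) ∈ Kr) {π : PvwPat} (hY : π.Yin \ π.Ycol ⊆ Kr) {v : V} {v' : V'} (hv : pvlocV T T' R v v') : v ∈ 𝔇.NU pos π ↔ v' ∈ 𝔇'.NU pos' π := by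
  show (v ∉ 𝔇.YC0 pos π ∧ pos v ∉ π.Ycol) ↔ (v' ∉ 𝔇'.YC0 pos' π ∧ pos' v' ∉ π.Ycol)
  rw [(pvlw_yc0 L G hKm hY).iff L.loc hv, pvlw_pos L hv]

/-- **`Cyl(D)` is carried over** -/
theorem pvlw_cyl (L : PvLocP T T' R pos pos' Kr) {𝔇 : PvwDat T} {𝔇' : PvwDat T'} (G : PvLocDat R 𝔇 𝔇')
    (h2 : ∀ k, k ≤ 𝔇.g.n → pos (𝔇.g.v k) ∈ Kr) {σ : V → Bool} {σ' : V' → Bool} (hσ : ∀ d d', R d d' → σ (T.src d) = σ' (T'.src d')) (h : σ ∈ 𝔇.Cyl) : σ' ∈ 𝔇'.Cyl := by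
  obtain ⟨a1, a2, a3⟩ := h
  have F := pvlw_fzY L.loc G
  refine ⟨fun v' hv' => ?_, fun v' hv' => ?_, fun v' hv' => ?_⟩
  · obtain ⟨v, k1, k2⟩ := F.2 v' hv'
    rw [← pvloc_v_col hσ k1, a1 v k2, pvloc_v_col G.col k1]
  · obtain ⟨v, k1, k2⟩ := (pvlw_pth_verts G.g).2 v' hv'
    rw [← pvloc_v_col hσ k1]; exact a2 v k2
  · obtain ⟨v, k1, k2⟩ := (pvlw_apx L G h2).2 v' hv'
    rw [← pvloc_v_col hσ k1]; exact a3 v k2

/-- **`D.Ok` is carried over**, HULL form: the two gate discs, the black ends of `Σ⁻(s)`, `Yin \ Ycol` and `g₀` are placed in `Kr` -/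
theorem pvlw_ok_h (L : PvLocP T T' R pos pos' Kr) (hT : T.IsSph) {𝔇 : PvwDat T} {𝔇' : PvwDat T'} (G : PvLocDat R 𝔇 𝔇') {N : PvwNum} {h : ℝ} {π : PvwPat}
    (hKs : Metric.closedBall π.zs (π.ts.b * h) ⊆ Kr) (hKm : ∀ i, i ≤ 𝔇.s.nm → pos (T.src (𝔇.s.em i)) ∈ Kr) (hKt : Metric.closedBall π.zt (π.tt.b * h) ⊆ Kr) (hY : π.Yin \ π.Ycol ⊆ Kr)
    (h2 : ∀ k, k ≤ 𝔇.g.n → pos (𝔇.g.v k) ∈ Kr) (hok : 𝔇.Ok pos N h π) : 𝔇'.Ok pos' N h π := by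
  have hLs : 𝔇.s.S.Left ⊆ plDom R := pvlw_left_sub L hok.st_s.gate.inside hKs
  have hLt : 𝔇.t.S.Left ⊆ plDom R := pvlw_left_sub L hok.st_t.gate.inside hKt
  have F := pvlw_fzY L.loc G
  have Gv := pvlw_pth_verts G.g
  have Gi := pvlw_pth_inner G.g
  have Ga := pvlw_apx L G h2
  refine ⟨pvlw_atIn_h L hT G.col G.s hKs hKm hok.st_s, pvlw_atOut L hT G.col G.t hKt hok.st_t, ?_, ?_, ?_, ?_, ?_, ?_, ?_, ?_, ?_, ⟨?_, ?_⟩, ?_, ?_, ?_, ?_⟩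
  · rw [G.s.nm, ← L.pos_eq _ _ (G.s.em _ le_rfl)]; exact hok.tip_s
  · rw [G.t.np, ← L.pos_eq _ _ (G.t.ep _ le_rfl)]; exact hok.tip_t
  · refine pvloc_v_fn L.loc (G.g.v_rel 0 (Nat.zero_le _)) ?_
    rw [hok.g0]
    exact pvloc_v_src G.s.gt.dp
  · rw [G.g.n_eq]
    refine pvloc_v_fn L.loc (G.g.v_rel _ le_rfl) ?_
    rw [hok.g1]
    exact pvloc_v_src G.t.gt.dm
  · rw [G.g.n_eq]; exact hok.pos_n
  · intro v' hv'
    obtain ⟨v, k1, k2⟩ := Gi.2 v' hv'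
    have := hok.out v k2
    exact ⟨fun hc => this.1 (((pvlw_ins L.loc G.s.gt hLs).iff L.loc k1).2 hc), fun hc => this.2 (((pvlw_ins L.loc G.t.gt hLt).iff L.loc k1).2 hc)⟩
  · intro v' hv'
    obtain ⟨v, k1, k2⟩ := Gv.2 v' hv'
    rw [← pvlw_pos L k1]
    exact hok.off v k2
  · intro v' hv'
    obtain ⟨v, k1, k2⟩ := Gv.2 v' hv'
    have := hok.disj v k2
    exact ⟨fun hc => this.1 (((pvlw_bkP G.t).iff L.loc k1).2 hc), fun hc => this.2.1 (((pvlw_whP L.loc G.t).iff L.loc k1).2 hc),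
      fun hc => this.2.2.1 (((pvlw_bkM G.s).iff L.loc k1).2 hc), fun hc => this.2.2.2 (((pvlw_whM L.loc G.s).iff L.loc k1).2 hc)⟩
  · intro v' hv'
    obtain ⟨v, k1, k2⟩ := (Gv.union Ga).2 v' hv'
    exact (pvlw_nu L G hKm hY k1).1 (hok.off_y v k2)
  · exact fun hc => hok.tip_f.1 ((F.iff L.loc (pvlw_ap L.loc G.t)).2 hc)
  · exact fun hc => hok.tip_f.2 ((F.iff L.loc (pvlw_am L G.s hKm)).2 hc)
  · intro v' hv' hf
    obtain ⟨v, k1, k2⟩ := Gv.2 v' hv'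
    rw [← pvloc_v_col G.col k1]
    exact hok.cons_b v k2 ((F.iff L.loc k1).2 hf)
  · intro v' hv' hf
    obtain ⟨v, k1, k2⟩ := Ga.2 v' hv'
    rw [← pvloc_v_col G.col k1]
    exact hok.cons_w v k2 ((F.iff L.loc k1).2 hf)
  · intro v' hv' hf
    obtain ⟨v, k1, k2⟩ := Ga.2 v' hv'
    exact hok.cons_a v k2 ((Gv.iff L.loc k1).2 hf)
  · intro v' hv'
    obtain ⟨v, k1, k2⟩ := ((pvlw_core G.s.gt).union (pvlw_core G.t.gt)).2 v' hv'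
    rw [← pvlw_pos L k1]
    exact hok.core_off v k2

/-- **`D.Ok` is carried over** (box of `s` in `Kr`) -/
theorem pvlw_ok (L : PvLocP T T' R pos pos' Kr) (hT : T.IsSph) {𝔇 : PvwDat T} {𝔇' : PvwDat T'} (G : PvLocDat R 𝔇 𝔇') {N : PvwNum} {h : ℝ} {π : PvwPat}
    (hKs : Metric.closedBall π.zs (π.ts.b * h) ⊆ Kr) (hBs : pvwSq π.zs (pvwRad N h π.ts π.ts.k) ⊆ Kr) (hKt : Metric.closedBall π.zt (π.tt.b * h) ⊆ Kr) (hY : π.Yin \ π.Ycol ⊆ Kr)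
    (h2 : ∀ k, k ≤ 𝔇.g.n → pos (𝔇.g.v k) ∈ Kr) (hok : 𝔇.Ok pos N h π) : 𝔇'.Ok pos' N h π :=
  pvlw_ok_h L hT G hKs (fun i hi => hBs (hok.st_s.stub.em_in i hi).1) hKt hY h2 hok

/-- **`NB^U(D)` is carried over** (fullness on the side of `T'`).      Only the three paths `inner(s)`, `g₀`, `inner(t)` of the data are read. -/
theorem pvlw_nbU (L : PvLocP T T' R pos pos' Kr) {𝔇 : PvwDat T} {𝔇' : PvwDat T'} (Gs : PvLocPth R 𝔇.s.inn 𝔇'.s.inn) (Gg : PvLocPth R 𝔇.g 𝔇'.g) (Gt : PvLocPth R 𝔇.t.inn 𝔇'.t.inn)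
    (h2 : ∀ k, k ≤ 𝔇.g.n → pos (𝔇.g.v k) ∈ Kr) (hns : 0 < 𝔇.s.inn.n) (hnt : 0 < 𝔇.t.inn.n) (hes : T.tgt (𝔇.s.inn.e (𝔇.s.inn.n - 1)) = 𝔇.g.v 0)
    {σ : V → Bool} {σ' : V' → Bool} (hσ : ∀ d d', R d d' → σ (T.src d) = σ' (T'.src d')) {U : Set V} {U' : Set V'} (hU' : ∀ v' ∈ U', pos' v' ∈ Kr)
    (hUU : ∀ v v', pvlocV T T' R v v' → v' ∈ U' → v ∈ U) (h : 𝔇.NBU U σ) : 𝔇'.NBU U' σ' := by
  rintro ⟨i, j, q', hi, hj, hij, hq0, hqi, hqj, hsec, hin⟩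
  rw [Gg.n_eq] at hi hj
  -- all the vertices of q' are placed in Kr
  have hg' : ∀ k, k ≤ 𝔇.g.n → pos' (𝔇'.g.v k) ∈ Kr := fun k hk => by
    rw [← pvlw_pos L (Gg.v_rel k hk)]; exact h2 k hk
  have hqK : ∀ k, k ≤ q'.n → pos' (q'.v k) ∈ Kr := by
    intro k hk
    rcases Nat.eq_zero_or_pos k with rfl | hk0
    · rw [hqi]; exact hg' i hi
    · rcases Nat.lt_or_ge k q'.n with hlt | hge
      · exact hU' _ (hin _ ⟨k, hk0, hlt, rfl⟩).2.2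
      · have : k = q'.n := le_antisymm hk hge
        rw [this, hqj]; exact hg' j hj
  obtain ⟨q, Q⟩ := pvloc_pth_exists L.loc.symm q' hq0 (fun k hk => pvlw_dart_src L.symm (by rw [q'.src_e k hk]; exact hqK k hk.le))
  have Q' : PvLocPth R q q' := Q.symm
  have hqn : q.n = q'.n := Q.n_eq
  -- the darts prv, nx
  have hprv : R (𝔇.prv i) (𝔇'.prv i) := by
    unfold PvwDat.prv
    by_cases h0 : i = 0
    · rw [if_pos h0, if_pos h0, Gs.n_eq]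
      exact Gs.e_rel _ (by omega)
    · rw [if_neg h0, if_neg h0]
      exact Gg.e_rel _ (by omega)
  have htgt : T.tgt (𝔇.prv i) = 𝔇.g.v i := by
    unfold PvwDat.prv
    by_cases h0 : i = 0
    · rw [if_pos h0, hes, h0]
    · rw [if_neg h0, 𝔇.g.tgt_e _ (by omega)]
      congr 1; omega
  have hnx : R (𝔇.nx i) (𝔇'.nx i) := by
    unfold PvwDat.nx
    rw [Gg.n_eq]
    by_cases h0 : i = 𝔇.g.n
    · rw [if_pos h0, if_pos h0]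
      exact Gt.e_rel _ hnt
    · rw [if_neg h0, if_neg h0]
      exact Gg.e_rel _ (by omega)
  have hopp : R (T.opp (𝔇.prv i)) (T'.opp (𝔇'.prv i)) := pvlw_opp L hprv (Or.inr (by rw [htgt]; exact h2 i hi))
  have hfull : T.src (T.opp (𝔇.prv i)) ∈ T.Int (plDom R) := by
    rw [T.src_opp', htgt]
    exact (L.full _ (h2 i hi)).1
  have hrot : ∀ m, R (T.rot^[m] (T.opp (𝔇.prv i))) (T'.rot^[m] (T'.opp (𝔇'.prv i))) := pvloc_rot_iter L.loc hopp hfull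
  refine h ⟨i, j, q, hi, hj, hij, by omega, ?_, ?_, ?_, ?_⟩
  · exact pvloc_v_inj L.loc (Q'.v_rel 0 (Nat.zero_le _)) (hqi ▸ Gg.v_rel i hi)
  · have := Q'.v_rel q.n le_rfl
    rw [hqn, hqj] at this
    rw [hqn]
    exact pvloc_v_inj L.loc this (Gg.v_rel j hj)
  · obtain ⟨k, hk0, hk1, hk2⟩ := hsec
    refine ⟨k, hk0, ?_, fun m hm0 hmk he => hk2 m hm0 hmk ?_⟩
    · exact L.loc.iso.inj (Q'.e_rel 0 (by omega)) (hk1 ▸ hrot k)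
    · exact L.loc.iso.fn (hrot m) (he ▸ hnx)
  · intro x hx
    obtain ⟨x', k1, k2⟩ := (pvlw_pth_inner Q').1 x hx
    obtain ⟨a1, a2, a4⟩ := hin x' k2
    exact ⟨by rw [pvloc_v_col hσ k1]; exact a1, fun hc => a2 (((pvlw_pth_verts Gg).iff L.loc k1).1 hc), hUU _ _ k1 a4⟩

/-- **a datum has a twin**, HULL form -/
theorem pvlw_dat_exists_h (L : PvLocP T T' R pos pos' Kr) {𝔇 : PvwDat T} {N : PvwNum} {h : ℝ} {π : PvwPat}
    (hKs : Metric.closedBall π.zs (π.ts.b * h) ⊆ Kr) (hKm : ∀ i, i ≤ 𝔇.s.nm → pos (T.src (𝔇.s.em i)) ∈ Kr) (hKt : Metric.closedBall π.zt (π.tt.b * h) ⊆ Kr) (hKp : ∀ i, i ≤ 𝔇.t.np → pos (T.src (𝔇.t.ep i)) ∈ Kr)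
    (h2 : ∀ k, k ≤ 𝔇.g.n → pos (𝔇.g.v k) ∈ Kr) (hok : 𝔇.Ok pos N h π) {σ' : V' → Bool} (hσ : ∀ d d', R d d' → 𝔇.col (T.src d) = σ' (T'.src d')) :
    ∃ 𝔇' : PvwDat T', PvLocDat R 𝔇 𝔇' ∧ 𝔇'.col = σ' := by
  obtain ⟨s', hs'⟩ := pvlw_sm_exists_h L hKs hok.st_s.gate hKm
  obtain ⟨t', ht'⟩ := pvlw_sp_exists_h L hKt hok.st_t.gate hKp
  obtain ⟨g', hg'⟩ := pvloc_pth_exists L.loc 𝔇.g hok.pos_n (fun k hk => pvlw_dart_src L (by rw [𝔇.g.src_e k hk]; exact h2 k hk.le))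
  exact ⟨⟨s', t', g', σ'⟩, ⟨hs', ht', hg', hσ⟩, rfl⟩

/-- **a datum has a twin** (boxes in `Kr`) -/
theorem pvlw_dat_exists (L : PvLocP T T' R pos pos' Kr) {𝔇 : PvwDat T} {N : PvwNum} {h : ℝ} {π : PvwPat}
    (hKs : Metric.closedBall π.zs (π.ts.b * h) ⊆ Kr) (hBs : pvwSq π.zs (pvwRad N h π.ts π.ts.k) ⊆ Kr) (hKt : Metric.closedBall π.zt (π.tt.b * h) ⊆ Kr) (hBt : pvwSq π.zt (pvwRad N h π.tt π.tt.k) ⊆ Kr)
    (h2 : ∀ k, k ≤ 𝔇.g.n → pos (𝔇.g.v k) ∈ Kr) (hok : 𝔇.Ok pos N h π) {σ' : V' → Bool} (hσ : ∀ d d', R d d' → 𝔇.col (T.src d) = σ' (T'.src d')) :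
    ∃ 𝔇' : PvwDat T', PvLocDat R 𝔇 𝔇' ∧ 𝔇'.col = σ' :=
  pvlw_dat_exists_h L hKs (fun i hi => hBs (hok.st_s.stub.em_in i hi).1) hKt (fun i hi => hBt (hok.st_t.stub.ep_in i hi).1) h2 hok hσ

end data

/-! ## 5. The instance, (C1) for completions -/

section inst

variable {X : Type} {𝔅 : PvBulk X} {Y K : Set ℂ}

/-- **THE INSTANCE**: a bulk family (extra vertices placed at `zi ∉ K`) against the Delaunay plane -/
theorem pvlw_bulk (h : DelGood Y) (hOk : 𝔅.Ok Y K) {zi : ℂ} (hzi : zi ∉ K) : PvLocP (𝔅.T Y) (delPl h).toMap (pvlocR 𝔅 h K) (𝔅.posF Y zi) Subtype.val K := by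
  refine ⟨pvloc_bulk hOk, fun d e hd => pvloc_posF_inl hd.1.1, fun v hv => ?_, fun v' hv' => ?_⟩
  · have hl : 𝔅.lab Y v = Sum.inl (𝔅.posF Y zi v) := by
      unfold PvBulk.posF at hv ⊢
      rcases hl : 𝔅.lab Y v with a | e
      · rfl
      · rw [hl] at hv
        exact absurd hv hzi
    refine ⟨pvloc_bulk_int hOk hl hv, ?_⟩
    have hY : 𝔅.posF Y zi v ∈ Y := hOk.site v _ hl
    obtain ⟨b, hab⟩ := del_exists_adj h.lf hY (h.bdd _)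
    obtain ⟨d, k1, -, -⟩ := hOk.face _ _ _ (delp_apex_spec h hab) hv
    exact ⟨d, hOk.inj (k1.trans hl.symm)⟩
  · refine ⟨pvloc_plane_int hOk hv', ?_⟩
    obtain ⟨b, hab⟩ := del_exists_adj h.lf v'.2 (h.bdd _)
    exact ⟨delbP h hab, rfl⟩

/-- **(C1) FOR COMPLETIONS**: a datum of ANY completion, well formed for the pattern `π`, with prescribed colours = the colouring `s` of the completion, `s ∈ Cyl`, `NB^univ` in the completion (`pvlx_c1sec`: true at the actual rims),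
all of it placed in `K`: its plane twin is well formed, the plane colouring lies in its cylinder, it has `NB^K` in the plane, and `X` is the same number. -/
theorem pvlw_c1 (h : DelGood Y) (hOk : 𝔅.Ok Y K) {zi : ℂ} (hzi : zi ∉ K) {s : 𝔅.V Y → Bool} {σ : ℂ → Bool} (hs : DelbCol 𝔅 s σ) {𝔇 : PvwDat (𝔅.T Y)} {N : PvwNum} {hh : ℝ} {π : PvwPat}
    (hKs : Metric.closedBall π.zs (π.ts.b * hh) ⊆ K) (hBs : pvwSq π.zs (pvwRad N hh π.ts π.ts.k) ⊆ K) (hKt : Metric.closedBall π.zt (π.tt.b * hh) ⊆ K) (hBt : pvwSq π.zt (pvwRad N hh π.tt π.tt.k) ⊆ K)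
    (hY : π.Yin \ π.Ycol ⊆ K) (h2 : ∀ k, k ≤ 𝔇.g.n → 𝔅.posF Y zi (𝔇.g.v k) ∈ K) (hcol : 𝔇.col = s) (hok : 𝔇.Ok (𝔅.posF Y zi) N hh π) (hcyl : s ∈ 𝔇.Cyl) (hnb : 𝔇.NBU Set.univ s) :
    ∃ 𝔇' : PvwDat (delPl h).toMap, PvLocDat (pvlocR 𝔅 h K) 𝔇 𝔇' ∧ 𝔇'.col = (fun v : ↥Y => σ v) ∧ 𝔇'.Ok Subtype.val N hh π ∧ (fun v : ↥Y => σ v) ∈ 𝔇'.Cyl ∧
      𝔇'.NBU {v | (v : ℂ) ∈ K} (fun v => σ v) ∧
      (∀ a : ℂ, 𝔇'.X Subtype.val (fun d => (delPl h).toMap.qpart Subtype.val d - a * (delPl h).toMap.side Subtype.val d) N hh π =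
        𝔇.X (𝔅.posF Y zi) (fun d => (𝔅.T Y).qpart (𝔅.posF Y zi) d - a * (𝔅.T Y).side (𝔅.posF Y zi) d) N hh π) := by
  have L := pvlw_bulk h hOk hzi
  -- facts on the inner arc of a gate
  have key : ∀ (𝔖 : PvwSt (𝔅.T Y)) (z : ℂ) (τ : PvwTy) (c : 𝔅.V Y → Bool), 𝔖.Gate (𝔅.posF Y zi) hh z τ c →
      0 < 𝔖.inn.n ∧ 𝔖.inn.v 0 = 𝔖.gm ∧ 𝔖.inn.v 𝔖.inn.n = 𝔖.gp ∧ ∀ k, k ≤ 𝔖.inn.n → 𝔅.posF Y zi (𝔖.inn.v k) ∈ Metric.closedBall z (τ.b * hh) := by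
    intro 𝔖 z τ c hg
    have hKv : ∀ v ∈ 𝔖.S.verts, 𝔅.posF Y zi v ∈ Metric.closedBall z (τ.b * hh) := fun v hv => mem_closedBall_iff_norm.2 (hg.ann v hv).2.le
    have hKc : ∀ v ∈ 𝔖.ins, 𝔅.posF Y zi v ∈ Metric.closedBall z (τ.b * hh) := fun v hv => mem_closedBall_iff_norm.2 (hg.inside v hv).le
    have hgp : 𝔖.gp ∈ 𝔖.S.verts := by
      obtain ⟨k, hk⟩ := hg.dp_on
      refine ⟨k + 1, ?_⟩
      rw [← 𝔖.S.chain k, hk, (𝔅.T Y).tgt_opp]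
      rfl
    obtain ⟨n, h1, h2, j, a0, an, a1, a2⟩ := hg.strand
    have e2 : 𝔖.inn.v 𝔖.inn.n = 𝔖.gp := by
      have e1 := (a1 𝔖.inn.n le_rfl).2.1
      rw [an] at e1
      rw [e1]; show (𝔅.T Y).src (pvasIt (𝔅.T Y) c 𝔖.dm n) = _; rw [h1]; rfl
    have e3 : 𝔖.inn.v 0 = 𝔖.gm := a0
    refine ⟨?_, e3, e2, ?_⟩
    · rcases Nat.eq_zero_or_pos 𝔖.inn.n with h0 | h0
      · exfalso
        rw [h0, e3] at e2
        exact hg.ne e2.symm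
      · exact h0
    · intro k hk
      obtain ⟨b1, b2, -⟩ := a1 k hk
      rw [b2]
      rcases Nat.lt_or_ge (j k) n with h3 | h3
      · exact hKc _ ⟨_, h2 _ h3, rfl⟩
      · have : j k = n := le_antisymm b1 h3
        show 𝔅.posF Y zi ((𝔅.T Y).src (pvasIt (𝔅.T Y) c 𝔖.dm (j k))) ∈ _
        rw [this, h1]
        exact hKv _ hgp
  obtain ⟨s1, s2, s3, s4⟩ := key _ _ _ _ hok.st_s.gate
  obtain ⟨t1, t2, t3, t4⟩ := key _ _ _ _ hok.st_t.gate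
  have hσ := pvloc_bulk_col (h := h) (K := K) hs
  obtain ⟨𝔇', G, hc'⟩ := pvlw_dat_exists L hKs hBs hKt hBt h2 hok (σ' := fun v : ↥Y => σ v) (by rw [hcol]; exact hσ)
  refine ⟨𝔇', G, hc', pvlw_ok L hOk.sph G hKs hBs hKt hY h2 hok, pvlw_cyl L G h2 hσ hcyl, ?_, fun a => ?_⟩
  · refine pvlw_nbU L G.s.gt.inn G.g G.t.gt.inn h2 s1 t1 ?_ hσ (U := Set.univ) (fun v' hv' => hv') (fun _ _ _ _ => Set.mem_univ _) hnb
    rw [𝔇.s.inn.tgt_e _ (by omega), hok.g0, ← s3]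
    congr 1; omega
  · refine (pvlw_X L ?_ G (fun k hk => hKs (s4 k hk)) h2 (fun k hk => hKt (t4 k hk)) hok.st_s.gate.ip_le hok.st_t.gate.ip_le N hh π).symm
    intro d d' hd
    show _ - _ = _ - _
    rw [pvlw_qpart L hd, pvlw_side L hd]

end inst

end Claimed.Agent.R289
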