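-- KEEP
import Claimed.Agent.R289.Tr.MeasG
import Claimed.Agent.R289.Tr.PinLocB
import Claimed.Agent.R289.Tr.LocalW
import Claimed.Agent.R289.Tr.AtUniq

/-!
# Row 289 (S0537), THE WALL, file Tr/MeasGL : THE TWO ADAPTERS OF (L) OF `Tr/MeasG`      (owner helper247; prefix `pvym_`)

* sec. 1  **`pvym_locP`** : `PvplIso T pos s T' pos' s' K R` (238) among `PvymOk` maps, ONE dart of `T` with its source placed in `K`   =>   `PvLocP T T' (pvplRK T pos T' K R) pos pos' K` of 22 (`Tr/LocalW`): every transfer `pvlw_*` (22), `pvll_*` (74) applies;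
          colours: `PvplIso.loc_col` (238);   `pvym_locP_sub` (smaller region);   `pvym_locV` (twin vertices are `R`-related).
          (The dart is needed: a sphere with one vertex and no dart is `IsSph`.  Every witness (a state) has one: `pvym_gate_dart`.)
* sec. 2  **UNIQUENESS OF THE STATE AMONG `PvymOk` MAPS** (text of 150, `Tr/AtUniq`, with `Function.Injective pos` weakened to `InjOn pos (pos ⁻¹' K)`, `ball z (τ.b h) ⊆ K`): `pvym_ends pvym_gate pvym_atOut pvym_atIn pvym_at`.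
-/

set_option autoImplicit false
set_option linter.unusedSectionVars false

namespace Claimed.Agent.R289

open Set

/-! ## 1. the adapter `PvplIso` => `PvLocP` -/

section adapter

variable {V D V' D' : Type} {T : PvMap V D} {pos : V → ℂ} {s : V → Bool} {T' : PvMap V' D'} {pos' : V' → ℂ} {s' : V' → Bool} {K K₀ : Set ℂ} {R : V → V' → Prop}

/-- in a connected map with a dart no vertex is isolated -/
theorem pvym_dart_of_sph (hT : T.IsSph) (d0 : D) (v : V) : ∃ d, T.src d = v := by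
  rcases Relation.ReflTransGen.cases_head (hT.conn v (T.src d0)) with e | ⟨w, ⟨d, hd, -⟩, -⟩
  · exact ⟨d0, e.symm⟩
  · exact ⟨d, hd⟩

/-- **THE ADAPTER**: an agreement of 238 among simple spheres is a `PvLocP` of 22 -/
theorem pvym_locP (h : PvplIso T pos s T' pos' s' K R) (o : PvymOk T pos K) (o' : PvymOk T' pos' K) {d0 : D} (hd0 : pos (T.src d0) ∈ K) :
    PvLocP T T' (pvplRK T pos T' K R) pos pos' K := by
  obtain ⟨d0', -⟩ := h.ex d0 hd0
  exact ⟨h.toLoc o.simple o'.simple, h.loc_mark, fun v hv => ⟨h.full hv, pvym_dart_of_sph o.sph d0 v⟩, fun v' hv' => ⟨h.full' hv', pvym_dart_of_sph o'.sph d0' v'⟩⟩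

/-- the same, read on a smaller region -/
theorem pvym_locP_sub (h : PvplIso T pos s T' pos' s' K R) (o : PvymOk T pos K) (o' : PvymOk T' pos' K) {d0 : D} (hd0 : pos (T.src d0) ∈ K) (hK : K₀ ⊆ K) :
    PvLocP T T' (pvplRK T pos T' K R) pos pos' K₀ :=
  let L := pvym_locP h o o' hd0
  ⟨L.loc, L.pos_eq, fun v hv => L.full v (hK hv), fun v' hv' => L.full' v' (hK hv')⟩

/-- twin vertices are `R`-related -/
theorem pvym_locV {v : V} {v' : V'} (h : pvlocV T T' (pvplRK T pos T' K R) v v') : R v v' := pvplb_locV h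

end adapter

/-! ## 2. uniqueness of the state among `PvymOk` maps -/

section uniq

variable {V D : Type} {T : PvMap V D} {𝔖 𝔖' : PvwSt T} {pos : V → ℂ} {N : PvwNum} {h : ℝ} {z : ℂ} {τ : PvwTy} {s : V → Bool} {K : Set ℂ}

/-- the two black sites of a gate are placed in the open disc of the core -/
theorem pvym_gate_ball (hg : 𝔖.Gate pos h z τ s) : pos 𝔖.gp ∈ Metric.ball z (τ.b * h) ∧ pos 𝔖.gm ∈ Metric.ball z (τ.b * h) := by
  obtain ⟨a1, a2, -, -⟩ := pvuq_gate_mem hg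
  exact ⟨mem_ball_iff_norm.2 (hg.ann _ a1).2, mem_ball_iff_norm.2 (hg.ann _ a2).2⟩

/-- a state has a dart with its source placed in the disc of the core -/
theorem pvym_gate_dart (hg : 𝔖.Gate pos h z τ s) : pos (T.src 𝔖.dp) ∈ Metric.ball z (τ.b * h) := (pvym_gate_ball hg).1

/-- the two black sites of a gate have distinct positions -/
theorem pvym_gate_ne (o : PvymOk T pos K) (hK : Metric.ball z (τ.b * h) ⊆ K) (hg : 𝔖.Gate pos h z τ s) : pos 𝔖.gm ≠ pos 𝔖.gp := fun e =>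
  hg.ne (o.inj (hK (pvym_gate_ball hg).2) (hK (pvym_gate_ball hg).1) e).symm

/-- the two black sites are determined by the vertices of the circuit and the orientation bit -/
theorem pvym_ends (o : PvymOk T pos K) (hK : Metric.ball z (τ.b * h) ⊆ K) (hg : 𝔖.Gate pos h z τ s) (hg' : 𝔖'.Gate pos h z τ s) (hV : 𝔖.S.verts = 𝔖'.S.verts) : 𝔖.gp = 𝔖'.gp ∧ 𝔖.gm = 𝔖'.gm := by
  obtain ⟨a1, a2, a3, a4⟩ := pvuq_gate_mem hg
  rcases hg'.two _ (hV ▸ a1) a3 with e1 | e1 <;> rcases hg'.two _ (hV ▸ a2) a4 with e2 | e2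
  · exact absurd (e1.trans e2.symm) hg.ne
  · exact ⟨e1, e2⟩
  · exfalso
    have h1 := hg.ori
    have h2 := hg'.ori
    rw [← e1, ← e2] at h2
    rcases pvuq_lex_total (pvym_gate_ne o hK hg) with h3 | h3
    · exact pvuq_lex_asymm h3 (h2.1 (h1.2 h3))
    · exact pvuq_lex_asymm h3 (h1.1 (h2.2 h3))
  · exact absurd (e1.trans e2.symm) hg.ne

/-- **two gates of one `(z, τ, s)` with the same inside have the same gate part** -/
theorem pvym_gate (o : PvymOk T pos K) (hK : Metric.ball z (τ.b * h) ⊆ K) (hg : 𝔖.Gate pos h z τ s) (hg' : 𝔖'.Gate pos h z τ s) (hL : 𝔖.S.Left = 𝔖'.S.Left) : PvuqG 𝔖 𝔖' := by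
  have hT := o.sph
  have hS := o.simple
  obtain ⟨hd, hV, hR⟩ := pvlt_left_ext hT hL
  obtain ⟨e1, e2⟩ := pvym_ends o hK hg hg' hV
  have hdm : 𝔖.dm = 𝔖'.dm := pvuq_cyc_src 𝔖'.S (hd ▸ hg.dm_on) hg'.dm_on e2
  have hdp : 𝔖.dp = 𝔖'.dp := by
    have := pvuq_cyc_tgt 𝔖'.S (hd ▸ hg.dp_on) hg'.dp_on (by rw [T.tgt_opp, T.tgt_opp]; exact e1)
    rw [← T.opp_opp 𝔖.dp, this, T.opp_opp]
  obtain ⟨n, a1, a2, a3⟩ := hg.strand
  obtain ⟨n', b1, b2, b3⟩ := hg'.strand
  rw [← hdm, ← hdp] at b1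
  rw [← hdm, ← hL] at b2
  rw [← hdm] at b3
  obtain rfl := pvuq_time hT hg a1 a2 b1 b2
  obtain ⟨c1, c2, c3⟩ := pvt_sd_unique hS a3 b3
  refine ⟨hg.dsc_eq.trans hg'.dsc_eq.symm, hL, hd, hV, hR, hdp, hdm, c1, c2, c3, ?_⟩
  rcases lt_trichotomy 𝔖.ip 𝔖'.ip with hlt | he | hlt
  · have := hg'.ip_first _ hlt
    rw [← c2 _ hg.ip_le] at this
    exact absurd hg.ip_near (not_le.2 this)
  · exact he
  · have := hg.ip_first _ hlt
    rw [c2 _ (c1 ▸ hg'.ip_le)] at this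
    exact absurd hg'.ip_near (not_le.2 this)

/-- **the exit half state is unique** -/
theorem pvym_atOut (o : PvymOk T pos K) (hK : Metric.ball z (τ.b * h) ⊆ K) (ha : 𝔖.AtOut pos N h z τ s) (ha' : 𝔖'.AtOut pos N h z τ s) : PvuqG 𝔖 𝔖' ∧ PvuqP 𝔖 𝔖' := by
  have hG := pvym_gate o hK ha.gate ha'.gate (ha.inmost.trans ha'.inmost.symm)
  obtain ⟨h1, h2⟩ := pvwk_stub_unique_p ha.stub ha'.stub hG.dp
  exact ⟨hG, h1, h2⟩

/-- **the entrance half state is unique** -/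
theorem pvym_atIn (o : PvymOk T pos K) (hK : Metric.ball z (τ.b * h) ⊆ K) (ha : 𝔖.AtIn pos N h z τ s) (ha' : 𝔖'.AtIn pos N h z τ s) : PvuqG 𝔖 𝔖' ∧ PvuqM 𝔖 𝔖' := by
  have hG := pvym_gate o hK ha.gate ha'.gate (ha.inmost.trans ha'.inmost.symm)
  obtain ⟨h1, h2⟩ := pvwk_stub_unique_m ha.stub ha'.stub hG.dm
  exact ⟨hG, h1, h2⟩

/-- **the state is unique** -/
theorem pvym_at (o : PvymOk T pos K) (hK : Metric.ball z (τ.b * h) ⊆ K) (ha : 𝔖.At pos N h z τ s) (ha' : 𝔖'.At pos N h z τ s) : PvuqSame 𝔖 𝔖' :=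
  ⟨(pvym_atOut o hK ha.out ha'.out).1, (pvym_atOut o hK ha.out ha'.out).2, (pvym_atIn o hK ha.inn ha'.inn).2⟩

end uniq

end Claimed.Agent.R289
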