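import Claimed.Agent.R289.Tr.PlugK
import Claimed.Agent.R289.Tr.PlugM

/-!
# Row 289 (S0537, Cardy for Poisson-Voronoi), THE WALL, file Tr/PlugW : [MEAS] AND [LOC] OF THE CELL KIT INSTANCE AT THE DEFINITIONS OF RECORD (`Tr/PlugK` v3 of 34)      (owner helper107; prefix `pvzn_`, `Pvzn`, `pvzn`)      0 sorry

THE WINDOW ROUTE.   The guards of `Tr/PlugK` are `PvatNice ∧ PvtrMesh ρ E` (`E` = the placed window), the predicates are those of 173 (`Tr/PlugLoc`: `pvzlC pvzlA PvzlTi PvzlTr`, `Local` with `Simple` only), positions are read through membership in finitely many regions.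
So `pvplb_main` (238) and `pvzf_main` (`Tr/PinLocF`) give ONE representative, measurable, read POINTWISE from `E ×ˢ univ`, equal to the object on the guard.
* sec. 1  the guard `pvznN ρ E`: `pvzn_nice_meas`, `pvzn_N_meas`, `pvzn_N_local`.
* sec. 2  **`pvzn_win_event`**, **`pvzn_win_field`** (representatives on the guard);   `pvzn_ev_meas`, `pvzn_ev_local`.
* sec. 3  the membership vectors `pvznV5 p`, `pvznVA p p' KE` of the regions; the marks `pvznB5`, `pvznP1 pvznP2 pvznKE` on the vectors; `pvzn_V5_comap`, `pvzn_VA_P1 _P2 _KE` (change of marks, with sec. 7 of `Tr/PlugK`).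
* sec. 4  the tags of 173 as `PvzfPred`: `pvznTi p`, `pvznTr p p' KE`, `pvzn_Ti_local _supp`, `pvzn_Tr_local _supp`;   `pvzn_pl_congr`.
* sec. 5  representatives for ARBITRARY Borel regions of the plane: **`pvzn_rep_C`**, **`pvzn_rep_A`**, **`pvzn_rep_Ti`**, **`pvzn_rep_Tr`**.
* sec. 6  **THE INSTANCE**: `PvznGeo 𝔤` (ALL that [GEO] owes to [MEAS] + [LOC]; reference frame only) ⟹ **`PvznGeo.mC .mA .mX .lC .lA .lX`** = the six fields of `(𝔤.glob Hf).Ok` verbatim (`ε ≠ 0`), `.mesO .mesW .subO .subW .repX`.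
* sec. 7  calculus of windows: **`pvzn_win_open`** (open sets are windows), `pvzn_win_inter` (so: open ∩ closed), `pvzn_core_meas` (cores of windows are Borel).
-/

set_option autoImplicit false
set_option linter.unusedSectionVars false

namespace Claimed.Agent.R289

open MeasureTheory ProbabilityTheory Set Filter Topology Metric Claims.C0465
open scoped ENNReal

/-! ## 1. the guard -/

section guard

variable {E : Set ℂ} {ρ : ℝ}

/-- **THE GUARD**: nice configuration + mesh of the window `E` -/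
def pvznN (ρ : ℝ) (E : Set ℂ) : Set (Conf PvPt) := {η | PvatNice (cfSites η) ∧ PvtrMesh ρ E (cfSites η)}

theorem pvzn_eqns_cite4 : True := by
  have := @pvznN.eq_1
  trivial

theorem pvzn_nice_meas : MeasurableSet {η : Conf PvPt | PvatNice (cfSites η)} := by
  have e : {η : Conf PvPt | PvatNice (cfSites η)} = {η : Conf PvPt | PvatNice (cfSites η)} ∩ {η | PvLF η} := by
    ext η
    exact ⟨fun h => ⟨h, pvzn_lf h.1⟩, fun h => h.1⟩
  rw [e]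
  exact pvcn_bridge pvat_meas_niceEv

theorem pvzn_N_meas (ρ : ℝ) (E : Set ℂ) : MeasurableSet (pvznN ρ E) := by
  have e : pvznN ρ E = {η : Conf PvPt | PvatNice (cfSites η)} ∩ {η | PvtrMesh ρ E (cfSites η) ∧ PvLF η} := by
    ext η
    exact ⟨fun h => ⟨h.1, h.2, pvzn_lf h.1.1⟩, fun h => ⟨h.1, h.2.1⟩⟩
  rw [e]
  exact pvzn_nice_meas.inter (pvtm_cf_mesh ρ E)

/-- a.s. the splice of two configurations is nice; the mesh reads the window -/
theorem pvzn_N_local {ε : ℝ} (hε : ε ≠ 0) {W : Set PvPt} (hW : MeasurableSet W) (hEW : E ×ˢ univ ⊆ W) : PvpgLocal (pvP ε) W (pvznN ρ E) := by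
  filter_upwards [(pv_isPpp ε).ae_splice hW (pvat_nice_ae hε)] with p hp h
  refine ⟨hp, ?_⟩
  have e := (pvtr_reads_mesh ρ E).spl_left hEW p.1 p.2
  exact e.symm ▸ h.2

/-- finitely many points in a bounded window -/
theorem pvzn_fin {η : Conf PvPt} (h : PvatNice (cfSites η)) (hEb : Bornology.IsBounded E) : (η.pts ∩ E ×ˢ univ).Finite := by
  refine ((h.finite hEb).prod (finite_univ (α := Bool))).subset ?_
  rintro ⟨a, k⟩ ⟨h1, h2⟩
  exact ⟨⟨⟨(a, k), h1, rfl⟩, h2.1⟩, mem_univ _⟩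

/-- a point off a bounded set -/
theorem pvzn_far (hEb : Bornology.IsBounded E) : ∃ zi : ℂ, zi ∉ E := by
  by_contra hcon
  have : Bornology.IsBounded (univ : Set ℂ) := hEb.subset fun z _ => by_contra fun hz => hcon ⟨z, hz⟩
  exact (NormedSpace.unbounded_univ ℝ ℂ) this

theorem pvzn_core_sub (hρ : 0 < ρ) : pvtrCore (3 * ρ) E ⊆ E := fun z hz => hz (mem_closedBall_self (by positivity))

end guard

/-! ## 2. representatives on the guard -/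

section window

variable {κ : Type} {E : Set ℂ} {ρ : ℝ} {θ : ℂ → κ} {K : Set κ}

/-- **EVENTS**: ONE representative, measurable, read pointwise from the window, equal to the predicate on the plane map on the guard -/
theorem pvzn_win_event [Countable κ] [MeasurableSpace κ] [MeasurableSingletonClass κ] (hθ : Measurable θ) {Φ : PvplPred κ} (hΦ : Φ.Local K)
    (hE : PvplWin E) (hEb : Bornology.IsBounded E) (hρ : 0 < ρ) (hK : θ ⁻¹' K ⊆ pvtrCore (3 * ρ) E) :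
    ∃ B : Set (Conf PvPt), MeasurableSet B ∧ Conf.ReadsSet (E ×ˢ univ) B ∧ ∀ η ∈ pvznN ρ E, (η ∈ B ↔ Φ _ _ (pvkiT η) (fun v => θ v.1) (pvkiS η)) := by
  obtain ⟨B, h1, h2, h3⟩ := pvplb_main hθ hΦ hE hρ hK
  obtain ⟨zi, hzi⟩ := pvzn_far hEb
  exact ⟨B, h1, h2, fun η hη => h3.plane hη.1.good (pvzn_fin hη.1 hEb) hη.2 (zi := zi) fun h => hzi (pvzn_core_sub hρ (hK h))⟩

/-- **FIELDS**: ONE representative, measurable, read pointwise from the window, equal to the field of the plane map on the guard -/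
theorem pvzn_win_field [Countable κ] [MeasurableSpace κ] [MeasurableSingletonClass κ] (hθ : Measurable θ) {Ψ : PvzfPred κ} (hΨ : Ψ.Local K) (hs : Ψ.Supp K)
    (hE : PvplWin E) (hEb : Bornology.IsBounded E) (hρ : 0 < ρ) (hK : θ ⁻¹' K ⊆ pvtrCore (3 * ρ) E) {w : ℂ × ℂ × ℂ → ℂ} (hw : Measurable w) :
    ∃ F : Conf PvPt → ℂ, Measurable F ∧ Conf.Reads (E ×ˢ univ) F ∧ ∀ η ∈ pvznN ρ E, F η = pvzfPl θ Ψ w η := by
  obtain ⟨F, hF⟩ := pvzf_main hθ hΨ hs hE hρ hK hw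
  obtain ⟨zi, hzi⟩ := pvzn_far hEb
  exact ⟨F, hF.1, hF.2.1, fun η hη => hF.plane hη.1.good (pvzn_fin hη.1 hEb) hη.2 (zi := zi) fun h => hzi (pvzn_core_sub hρ (hK h))⟩

/-- guard + represented predicate: measurable -/
theorem pvzn_ev_meas {B M : Set (Conf PvPt)} (hB : MeasurableSet B) {P : Conf PvPt → Prop} (hP : ∀ η ∈ pvznN ρ E, (η ∈ B ↔ P η)) (hM : M = {η | η ∈ pvznN ρ E ∧ P η}) : MeasurableSet M := by
  have e : M = pvznN ρ E ∩ B := by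
    rw [hM]
    ext η
    exact ⟨fun h => ⟨h.1, (hP η h.1).2 h.2⟩, fun h => ⟨h.1, (hP η h.1).1 h.2⟩⟩
  rw [e]
  exact (pvzn_N_meas ρ E).inter hB

/-- guard + represented predicate: a.s. local -/
theorem pvzn_ev_local {B M : Set (Conf PvPt)} (hB : Conf.ReadsSet (E ×ˢ univ) B) {P : Conf PvPt → Prop} (hP : ∀ η ∈ pvznN ρ E, (η ∈ B ↔ P η)) (hM : M = {η | η ∈ pvznN ρ E ∧ P η})
    {ε : ℝ} (hε : ε ≠ 0) {W : Set PvPt} (hW : MeasurableSet W) (hEW : E ×ˢ univ ⊆ W) : PvpgLocal (pvP ε) W M := by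
  filter_upwards [pvzn_N_local (ρ := ρ) hε hW hEW] with p hp h
  rw [hM] at h ⊢
  have hN := hp h.1
  refine ⟨hN, (hP _ hN).1 ?_⟩
  have h1 : p.1 ∈ B := (hP _ h.1).2 h.2
  rw [← hB, show p = (p.1, p.2) from rfl, Conf.restr_spl_of_subset hEW, hB]
  exact h1

end window

/-! ## 3. membership vectors -/

section vec

/-- five booleans -/
abbrev PvznB : Type := Bool × Bool × Bool × Bool × Bool

/-- the marks of a plug, read on five booleans -/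
def pvznB5 : PvzlPg PvznB := ⟨{v | v.1 = true}, {v | v.2.1 = true}, {v | v.2.2.1 = true}, {v | v.2.2.2.1 = true}, {v | v.2.2.2.2 = true}⟩

open Classical in
/-- the membership vector of the five regions of a plug -/
noncomputable def pvznV5 (p : PvzlPg ℂ) (z : ℂ) : PvznB := (decide (z ∈ p.KI), decide (z ∈ p.KO), decide (z ∈ p.Km), decide (z ∈ p.Kp), decide (z ∈ p.KT))

open Classical in
/-- the membership vector of the eleven regions of a link -/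
noncomputable def pvznVA (p p' : PvzlPg ℂ) (KE : Set ℂ) (z : ℂ) : PvznB × PvznB × Bool := (pvznV5 p z, pvznV5 p' z, decide (z ∈ KE))

/-- the five regions are Borel -/
def PvznPgM (p : PvzlPg ℂ) : Prop := MeasurableSet p.KI ∧ MeasurableSet p.KO ∧ MeasurableSet p.Km ∧ MeasurableSet p.Kp ∧ MeasurableSet p.KT

/-- the regions where the predicates of a plug are read -/
def pvznRd {κ : Type} (p : PvzlPg κ) : Set κ := p.KI ∪ p.KO ∪ p.KT

theorem pvzn_eqns_cite5 : True := by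
  have := @pvznB5.eq_1; have := @pvznV5.eq_1; have := @pvznVA.eq_1; have := @PvznPgM.eq_1; have := @pvznRd.eq_1
  trivial

theorem pvzn_dec_meas {S : Set ℂ} (hS : MeasurableSet S) [DecidablePred (· ∈ S)] : Measurable fun z : ℂ => decide (z ∈ S) := by
  refine measurable_to_bool ?_
  have : (fun z : ℂ => decide (z ∈ S)) ⁻¹' {true} = S := by
    ext z
    simp
  rw [this]
  exact hS

theorem pvzn_V5_meas {p : PvzlPg ℂ} (hp : PvznPgM p) : Measurable (pvznV5 p) := by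
  classical
  exact (pvzn_dec_meas hp.1).prodMk ((pvzn_dec_meas hp.2.1).prodMk ((pvzn_dec_meas hp.2.2.1).prodMk ((pvzn_dec_meas hp.2.2.2.1).prodMk (pvzn_dec_meas hp.2.2.2.2))))

theorem pvzn_VA_meas {p p' : PvzlPg ℂ} {KE : Set ℂ} (hp : PvznPgM p) (hp' : PvznPgM p') (hE : MeasurableSet KE) : Measurable (pvznVA p p' KE) := by
  classical
  exact (pvzn_V5_meas hp).prodMk ((pvzn_V5_meas hp').prodMk (pvzn_dec_meas hE))

theorem pvzn_V5_comap (p : PvzlPg ℂ) : pvznB5.comap (pvznV5 p) = p := by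
  obtain ⟨a, b, c, d, e⟩ := p
  simp only [PvzlPg.comap, pvznB5, PvzlPg.mk.injEq]
  refine ⟨?_, ?_, ?_, ?_, ?_⟩ <;> · ext z; simp [pvznV5]

theorem pvzn_sub_rd {κ : Type} (p : PvzlPg κ) : p.Sub (pvznRd p) :=
  ⟨fun _ h => Or.inl (Or.inl h), fun _ h => Or.inl (Or.inr h), fun _ h => Or.inr h⟩

theorem pvzn_sub_mono {κ : Type} {p : PvzlPg κ} {K K' : Set κ} (h : p.Sub K) (hK : K ⊆ K') : p.Sub K' := ⟨h.1.trans hK, h.2.1.trans hK, h.2.2.trans hK⟩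

theorem pvzn_rd_comap {κ κ' : Type} (θ : κ → κ') (p : PvzlPg κ') : pvznRd (p.comap θ) = θ ⁻¹' pvznRd p := rfl

/-- first plug of a link, on the vectors -/
def pvznP1 : PvzlPg (PvznB × PvznB × Bool) := pvznB5.comap Prod.fst
/-- second plug of a link, on the vectors -/
def pvznP2 : PvzlPg (PvznB × PvznB × Bool) := pvznB5.comap fun v => v.2.1
/-- the corridor, on the vectors -/
def pvznKE : Set (PvznB × PvznB × Bool) := {v | v.2.2 = true}

theorem pvzn_eqns_cite6 : True := by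
  have := @pvznP1.eq_1; have := @pvznP2.eq_1; have := @pvznKE.eq_1
  trivial

theorem pvzn_VA_P1 (p p' : PvzlPg ℂ) (KE : Set ℂ) : pvznP1.comap (pvznVA p p' KE) = p := by
  conv_rhs => rw [← pvzn_V5_comap p]
  rfl

theorem pvzn_VA_P2 (p p' : PvzlPg ℂ) (KE : Set ℂ) : pvznP2.comap (pvznVA p p' KE) = p' := by
  conv_rhs => rw [← pvzn_V5_comap p']
  rfl

theorem pvzn_VA_KE (p p' : PvzlPg ℂ) (KE : Set ℂ) : pvznVA p p' KE ⁻¹' pvznKE = KE := by
  ext z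
  simp [pvznVA, pvznKE]

end vec

/-! ## 4. the tags of 173 as predicates with a marked dart -/

section tags

variable {κ : Type}

/-- the tags of the inner arc of THE gate of the plug `p` -/
def pvznTi (p : PvzlPg κ) : PvzfPred κ := fun _ _ T mk s e => PvzlTi T mk s p e

/-- the tags of the run of the link -/
def pvznTr (p p' : PvzlPg κ) (KE : Set κ) : PvzfPred κ := fun _ _ T mk s e => PvzlTr T mk s p p' KE e

theorem pvzn_eqns_cite7 : True := by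
  have := @pvznTi.eq_1; have := @pvznTr.eq_1
  trivial

theorem pvzn_Ti_local {p : PvzlPg κ} {K : Set κ} (hp : p.Sub K) : (pvznTi p).Local K :=
  fun _ _ _ _ _ _ _ _ _ _ _ hS hS' h _ _ hd => ⟨pvzl_Ti_twin h hS hS' hp hd, pvzl_Ti_twin h.symm hS' hS hp hd⟩

theorem pvzn_Tr_local {p p' : PvzlPg κ} {KE K : Set κ} (hp : p.Sub K) (hp' : p'.Sub K) (hE : KE ⊆ K) : (pvznTr p p' KE).Local K :=
  fun _ _ _ _ _ _ _ _ _ _ _ hS hS' h _ _ hd => ⟨pvzl_Tr_twin h hS hS' hp hp' hE hd, pvzl_Tr_twin h.symm hS' hS hp hp' hE hd⟩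

theorem pvzn_Ti_supp {p : PvzlPg κ} {K : Set κ} (hp : p.Sub K) : (pvznTi p).Supp K := by
  rintro V D T mk s d ⟨g, N, -, hN, ha⟩
  exact hp.2.2 (hN.2.2.2.2 ⟨d, pvzl_arc_fc ha, rfl⟩)

theorem pvzn_Tr_supp {p p' : PvzlPg κ} {KE K : Set κ} (hE : KE ⊆ K) : (pvznTr p p' KE).Supp K := by
  rintro V D T mk s d ⟨g, g', N, -, -, hN, ha⟩
  exact hE (hN.2.2.2 ⟨d, pvzl_arc_fc ha, rfl⟩).1

/-- change of marks in a field of the plane map -/
theorem pvzn_pl_congr {κ' : Type} {θ : ℂ → κ} {θ' : ℂ → κ'} {Ψ : PvzfPred κ} {Ψ' : PvzfPred κ'} (w : ℂ × ℂ × ℂ → ℂ) (η : Conf PvPt)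
    (h : ∀ e, Ψ _ _ (delbPl (cfSites η)).toMap (fun v => θ v.1) (fun v => cfCol η v.1) e ↔ Ψ' _ _ (delbPl (cfSites η)).toMap (fun v => θ' v.1) (fun v => cfCol η v.1) e) :
    pvzfPl θ Ψ w η = pvzfPl θ' Ψ' w η := by
  unfold pvzfPl
  have : pvzfPlS θ Ψ η = pvzfPlS θ' Ψ' η := by
    ext e
    exact h e
  rw [this]

end tags

/-! ## 5. the representatives of the plug, of the link, of the three fields (regions of the plane) -/

section reps

variable {E : Set ℂ} {ρ : ℝ}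

/-- **THE PLUG** -/
theorem pvzn_rep_C {p : PvzlPg ℂ} (hp : PvznPgM p) (hE : PvplWin E) (hEb : Bornology.IsBounded E) (hρ : 0 < ρ) (hK : pvznRd p ⊆ pvtrCore (3 * ρ) E) :
    ∃ B : Set (Conf PvPt), MeasurableSet B ∧ Conf.ReadsSet (E ×ˢ univ) B ∧ ∀ η ∈ pvznN ρ E, (η ∈ B ↔ pvzlC p _ _ (pvkiT η) Subtype.val (pvkiS η)) := by
  obtain ⟨B, h1, h2, h3⟩ := pvzn_win_event (θ := pvznV5 p) (K := (pvznRd pvznB5)) (pvzn_V5_meas hp) (pvzl_C_local (pvzn_sub_rd pvznB5)) hE hEb hρ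
    (by rw [← pvzn_rd_comap, pvzn_V5_comap]; exact hK)
  refine ⟨B, h1, h2, fun η hη => (h3 η hη).trans ?_⟩
  have := pvkk_C (T := pvkiT η) (mk := Subtype.val) (s := pvkiS η) (pvznV5 p) (p := pvznB5)
  rw [pvzn_V5_comap] at this
  exact this.symm

variable {p p' : PvzlPg ℂ} {KE : Set ℂ}

/-- the set of vectors where the predicates of a link are read -/
def pvznKA : Set (PvznB × PvznB × Bool) := pvznRd pvznP1 ∪ pvznRd pvznP2 ∪ pvznKE

theorem pvzn_eqns_cite8 : True := by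
  have := @pvznKA.eq_1
  trivial

theorem pvzn_KA_pre (p p' : PvzlPg ℂ) (KE : Set ℂ) : pvznVA p p' KE ⁻¹' pvznKA = pvznRd p ∪ pvznRd p' ∪ KE := by
  unfold pvznKA
  rw [preimage_union, preimage_union, ← pvzn_rd_comap, ← pvzn_rd_comap, pvzn_VA_P1, pvzn_VA_P2, pvzn_VA_KE]

theorem pvzn_KA_1 : pvznP1.Sub pvznKA := pvzn_sub_mono (pvzn_sub_rd _) fun _ h => Or.inl (Or.inl h)
theorem pvzn_KA_2 : pvznP2.Sub pvznKA := pvzn_sub_mono (pvzn_sub_rd _) fun _ h => Or.inl (Or.inr h)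
theorem pvzn_KA_3 : pvznKE ⊆ pvznKA := fun _ h => Or.inr h

/-- **THE LINK** -/
theorem pvzn_rep_A (hp : PvznPgM p) (hp' : PvznPgM p') (hKE : MeasurableSet KE) (hE : PvplWin E) (hEb : Bornology.IsBounded E) (hρ : 0 < ρ)
    (hK : pvznRd p ∪ pvznRd p' ∪ KE ⊆ pvtrCore (3 * ρ) E) :
    ∃ B : Set (Conf PvPt), MeasurableSet B ∧ Conf.ReadsSet (E ×ˢ univ) B ∧ ∀ η ∈ pvznN ρ E, (η ∈ B ↔ pvzlA p p' KE _ _ (pvkiT η) Subtype.val (pvkiS η)) := by
  obtain ⟨B, h1, h2, h3⟩ := pvzn_win_event (θ := pvznVA p p' KE) (K := pvznKA) (pvzn_VA_meas hp hp' hKE) (pvzl_A_local pvzn_KA_1 pvzn_KA_2 pvzn_KA_3) hE hEb hρ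
    (by rw [pvzn_KA_pre]; exact hK)
  refine ⟨B, h1, h2, fun η hη => (h3 η hη).trans ?_⟩
  have := pvkk_A (T := pvkiT η) (mk := Subtype.val) (s := pvkiS η) (pvznVA p p' KE) (p := pvznP1) (p' := pvznP2) (KE := pvznKE)
  rw [pvzn_VA_P1, pvzn_VA_P2, pvzn_VA_KE] at this
  exact this.symm

/-- **THE FIELD OF THE INNER ARC** of the plug `p` -/
theorem pvzn_rep_Ti (hp : PvznPgM p) (hE : PvplWin E) (hEb : Bornology.IsBounded E) (hρ : 0 < ρ) (hK : pvznRd p ⊆ pvtrCore (3 * ρ) E) {w : ℂ × ℂ × ℂ → ℂ} (hw : Measurable w) :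
    ∃ F : Conf PvPt → ℂ, Measurable F ∧ Conf.Reads (E ×ˢ univ) F ∧ ∀ η ∈ pvznN ρ E, F η = pvzfPl id (pvznTi p) w η := by
  obtain ⟨F, h1, h2, h3⟩ := pvzn_win_field (θ := pvznV5 p) (K := (pvznRd pvznB5)) (pvzn_V5_meas hp) (pvzn_Ti_local (pvzn_sub_rd pvznB5)) (pvzn_Ti_supp (pvzn_sub_rd pvznB5)) hE hEb hρ
    (by rw [← pvzn_rd_comap, pvzn_V5_comap]; exact hK) hw
  refine ⟨F, h1, h2, fun η hη => (h3 η hη).trans (pvzn_pl_congr w η fun e => ?_)⟩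
  have := pvkk_Ti (T := pvkiT η) (mk := Subtype.val) (s := pvkiS η) (pvznV5 p) (p := pvznB5) (e := e)
  rw [pvzn_V5_comap] at this
  exact this.symm

/-- **THE FIELD OF THE RUN** of the link -/
theorem pvzn_rep_Tr (hp : PvznPgM p) (hp' : PvznPgM p') (hKE : MeasurableSet KE) (hE : PvplWin E) (hEb : Bornology.IsBounded E) (hρ : 0 < ρ)
    (hK : pvznRd p ∪ pvznRd p' ∪ KE ⊆ pvtrCore (3 * ρ) E) {w : ℂ × ℂ × ℂ → ℂ} (hw : Measurable w) :
    ∃ F : Conf PvPt → ℂ, Measurable F ∧ Conf.Reads (E ×ˢ univ) F ∧ ∀ η ∈ pvznN ρ E, F η = pvzfPl id (pvznTr p p' KE) w η := by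
  obtain ⟨F, h1, h2, h3⟩ := pvzn_win_field (θ := pvznVA p p' KE) (K := pvznKA) (pvzn_VA_meas hp hp' hKE) (pvzn_Tr_local pvzn_KA_1 pvzn_KA_2 pvzn_KA_3) (pvzn_Tr_supp pvzn_KA_3) hE hEb hρ
    (by rw [pvzn_KA_pre]; exact hK) hw
  refine ⟨F, h1, h2, fun η hη => (h3 η hη).trans (pvzn_pl_congr w η fun e => ?_)⟩
  have := pvkk_Tr (T := pvkiT η) (mk := Subtype.val) (s := pvkiS η) (pvznVA p p' KE) (p := pvznP1) (p' := pvznP2) (KE := pvznKE) (e := e)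
  rw [pvzn_VA_P1, pvzn_VA_P2, pvzn_VA_KE] at this
  exact this.symm

end reps

/-! ## 6. THE INSTANCE AT THE DEFINITIONS OF RECORD -/

section place

variable {z d : ℂ} {S : Set ℂ}

theorem pvzn_at_id (S : Set ℂ) : pvkdAt 0 1 S = S := by
  unfold pvkdAt
  rw [pvth_sim_id, image_id]

theorem pvzn_at_pre (hd : d ≠ 0) (z : ℂ) (S : Set ℂ) : pvkdAt z d S = pvthInv z d ⁻¹' S := by
  ext x
  constructor
  · rintro ⟨w, hw, rfl⟩
    show (z + d * w - z) / d ∈ S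
    rw [add_sub_cancel_left, mul_div_cancel_left₀ _ hd]
    exact hw
  · intro hx
    refine ⟨_, hx, ?_⟩
    show z + d * ((x - z) / d) = x
    rw [mul_div_cancel₀ _ hd]
    ring

theorem pvzn_at_meas (hd : d ≠ 0) (z : ℂ) (hS : MeasurableSet S) : MeasurableSet (pvkdAt z d S) := by
  rw [pvzn_at_pre hd]
  exact pvth_inv_meas z d hS

theorem pvzn_at_mono {S' : Set ℂ} (z d : ℂ) (h : S ⊆ S') : pvkdAt z d S ⊆ pvkdAt z d S' := image_mono h

theorem pvzn_ne_of_norm (hd : ‖d‖ = 1) : d ≠ 0 := by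
  rintro rfl
  simp at hd

theorem pvzn_inv_dist (hd : ‖d‖ = 1) (z x w : ℂ) : ‖pvthInv z d x - w‖ = ‖x - pvthSim z d w‖ := by
  have h0 := pvzn_ne_of_norm hd
  have e : pvthInv z d x - w = (x - pvthSim z d w) / d := by
    unfold pvthInv pvthSim
    field_simp
    ring
  rw [e, norm_div, hd, div_one]

theorem pvzn_at_ball (hd : ‖d‖ = 1) (z : ℂ) (a : ℝ) : ball z a ⊆ pvkdAt z d (ball 0 a) := by
  intro x hx
  rw [pvzn_at_pre (pvzn_ne_of_norm hd)]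
  show pvthInv z d x ∈ ball 0 a
  rw [mem_ball_iff_norm, pvzn_inv_dist hd]
  rw [mem_ball_iff_norm] at hx
  simpa [pvthSim] using hx

theorem pvzn_at_core (hd : ‖d‖ = 1) (z : ℂ) (r : ℝ) (E : Set ℂ) : pvkdAt z d (pvtrCore r E) ⊆ pvtrCore r (pvkdAt z d E) := by
  rintro _ ⟨w, hw, rfl⟩ y hy
  rw [pvzn_at_pre (pvzn_ne_of_norm hd)]
  refine hw ?_
  rw [mem_closedBall_iff_norm, pvzn_inv_dist hd]
  exact mem_closedBall_iff_norm.1 hy

theorem pvzn_pg_meas (𝔭 : PvkdPlug) (h1 : MeasurableSet 𝔭.Zm) (h2 : MeasurableSet 𝔭.Zp) (h3 : MeasurableSet 𝔭.Tb) (hd : d ≠ 0) (z : ℂ) : PvznPgM (𝔭.pg z d) :=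
  ⟨measurableSet_ball, measurableSet_ball, pvzn_at_meas hd z h1, pvzn_at_meas hd z h2, pvzn_at_meas hd z h3⟩

/-- the regions read by a placed plug lie in the core of its placed window -/
theorem pvzn_pg_core (𝔭 : PvkdPlug) {r : ℝ} (h : ball (0 : ℂ) 𝔭.a ∪ ball 0 𝔭.b ∪ 𝔭.Tb ⊆ pvtrCore r 𝔭.Ew) (hd : ‖d‖ = 1) (z : ℂ) :
    pvznRd (𝔭.pg z d) ⊆ pvtrCore r (pvkdAt z d 𝔭.Ew) := by
  refine Subset.trans ?_ (pvzn_at_core hd z r 𝔭.Ew)
  rintro x ((hx | hx) | hx)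
  · exact pvzn_at_mono z d (fun _ hy => h (Or.inl (Or.inl hy))) (pvzn_at_ball hd z _ hx)
  · exact pvzn_at_mono z d (fun _ hy => h (Or.inl (Or.inr hy))) (pvzn_at_ball hd z _ hx)
  · exact pvzn_at_mono z d (fun _ hy => h (Or.inr hy)) hx

theorem pvzn_Wt_meas {M : Set ℂ} (hM : MeasurableSet M) : Measurable (pvkdWt M) := by
  unfold pvkdWt pvqq
  refine Measurable.mul ?_ (by fun_prop)
  exact (measurable_one.indicator hM).comp (by fun_prop)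

end place

/-- **WHAT [GEO] OWES TO [MEAS] + [LOC]**, reference frame only -/
structure PvznGeo (𝔤 : PvkdGeo) : Prop where
  ρ0 : 0 < 𝔤.ρ
  mZm : MeasurableSet 𝔤.Zm
  mZp : MeasurableSet 𝔤.Zp
  mTb : MeasurableSet 𝔤.Tb
  mCo : ∀ τ, MeasurableSet (𝔤.Co τ)
  mMk : ∀ τ, MeasurableSet (𝔤.Mk τ)
  mO : MeasurableSet 𝔤.O₀
  mK : ∀ τ, MeasurableSet (𝔤.K₀ τ)
  /-- the window of the plug -/
  wE : PvplWin 𝔤.Ew
  bE : Bornology.IsBounded 𝔤.Ew
  /-- the window of the link -/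
  wA : ∀ τ, PvplWin (𝔤.Ea τ)
  bA : ∀ τ, Bornology.IsBounded (𝔤.Ea τ)
  /-- the window of the plug lies in the region of the kit -/
  EO : 𝔤.Ew ⊆ 𝔤.O₀
  /-- the two discs and the tube lie in the `3ρ`-core of the window of the plug -/
  cE : ball (0 : ℂ) 𝔤.a ∪ ball 0 𝔤.b ∪ 𝔤.Tb ⊆ pvtrCore (3 * 𝔤.ρ) 𝔤.Ew
  /-- the room of the run lies in the `3ρ`-core of the window of the link -/
  cA : ∀ τ, 𝔤.Co τ ⊆ pvtrCore (3 * 𝔤.ρ) (𝔤.Ea τ)

namespace PvznGeo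

variable {𝔤 : PvkdGeo} (G : PvznGeo 𝔤) (Hf : Fin 4 → Set (Conf PvPt))

include G

theorem pg0 : PvznPgM (𝔤.pg 0 1) := pvzn_pg_meas _ G.mZm G.mZp G.mTb one_ne_zero 0

theorem pg1 (τ : PvtTurn) : PvznPgM (𝔤.pg (𝔤.zo 0 1 τ) (1 * τ.rot)) :=
  pvzn_pg_meas _ G.mZm G.mZp G.mTb (by rw [one_mul]; exact pvzn_ne_of_norm (pvt_norm_rot τ)) _

theorem rd0 : pvznRd (𝔤.pg 0 1) ⊆ pvtrCore (3 * 𝔤.ρ) (pvkdAt 0 1 𝔤.Ew) := pvzn_pg_core _ G.cE (by simp) 0

/-- all the regions read by the link lie in the core of its window -/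
theorem rdA (τ : PvtTurn) : pvznRd (𝔤.pg 0 1) ∪ pvznRd (𝔤.pg (𝔤.zo 0 1 τ) (1 * τ.rot)) ∪ pvkdAt 0 1 (𝔤.Co τ) ⊆ pvtrCore (3 * 𝔤.ρ) (pvkdAt 0 1 (𝔤.Ea τ)) := by
  rw [pvzn_at_id, pvzn_at_id]
  rintro x ((hx | hx) | hx)
  · have := G.rd0 hx
    rw [pvzn_at_id] at this
    exact pvtr_core_mono (fun y hy => Or.inl (Or.inl (G.EO hy))) this
  · have := pvzn_pg_core 𝔤.toPvkdPlug G.cE (d := 1 * τ.rot) (by rw [one_mul]; exact pvt_norm_rot τ) (𝔤.zo 0 1 τ) hx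
    rw [one_mul] at this
    exact pvtr_core_mono (fun y hy => Or.inr (pvzn_at_mono _ _ G.EO hy)) this
  · exact G.cA τ hx

theorem rdA0 (τ : PvtTurn) : pvznRd (𝔤.pg 0 1) ⊆ pvtrCore (3 * 𝔤.ρ) (pvkdAt 0 1 (𝔤.Ea τ)) := fun _ h => G.rdA τ (Or.inl (Or.inl h))

theorem rdA1 (τ : PvtTurn) : pvznRd (𝔤.pg (𝔤.zo 0 1 τ) (1 * τ.rot)) ⊆ pvtrCore (3 * 𝔤.ρ) (pvkdAt 0 1 (𝔤.Ea τ)) := fun _ h => G.rdA τ (Or.inl (Or.inr h))

theorem wE' : PvplWin (pvkdAt 0 1 𝔤.Ew) := by rw [pvzn_at_id]; exact G.wE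
theorem bE' : Bornology.IsBounded (pvkdAt 0 1 𝔤.Ew) := by rw [pvzn_at_id]; exact G.bE
theorem wA' (τ : PvtTurn) : PvplWin (pvkdAt 0 1 (𝔤.Ea τ)) := by rw [pvzn_at_id]; exact G.wA τ
theorem bA' (τ : PvtTurn) : Bornology.IsBounded (pvkdAt 0 1 (𝔤.Ea τ)) := by rw [pvzn_at_id]; exact G.bA τ

/-- the window of the plug lies in the region of the kit -/
theorem subO : pvkdAt 0 1 𝔤.Ew ×ˢ (univ : Set Bool) ⊆ (𝔤.glob Hf).pre.O 0 1 := prod_mono (image_mono G.EO) Subset.rfl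

omit G in
/-- the window of the link IS the window of the kit -/
theorem subW (𝔤 : PvkdGeo) (Hf : Fin 4 → Set (Conf PvPt)) (τ : PvtTurn) : pvkdAt 0 1 (𝔤.Ea τ) ×ˢ (univ : Set Bool) ⊆ (𝔤.glob Hf).win τ := by
  rw [pvzn_at_id]
  rintro ⟨x, k⟩ ⟨(hx | hx) | hx, -⟩
  · refine Or.inl (Or.inl ⟨?_, mem_univ _⟩)
    show x ∈ pvkdAt 0 1 𝔤.O₀
    rw [pvzn_at_id]; exact hx
  · refine Or.inr ⟨?_, mem_univ _⟩
    show x ∈ pvkdAt 0 1 (𝔤.K₀ τ)
    rw [pvzn_at_id]; exact hx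
  · refine Or.inl (Or.inr ⟨?_, mem_univ _⟩)
    show x ∈ pvkdAt (𝔤.zo 0 1 τ) (1 * τ.rot) 𝔤.O₀
    rw [one_mul]; exact hx

theorem mesO : MeasurableSet ((𝔤.glob Hf).pre.O 0 1) := by
  have : MeasurableSet (pvkdAt 0 1 𝔤.O₀) := pvzn_at_meas one_ne_zero 0 G.mO
  exact this.prod MeasurableSet.univ

theorem mesW (τ : PvtTurn) : MeasurableSet ((𝔤.glob Hf).win τ) := by
  have h1 : MeasurableSet (pvkdAt 0 1 𝔤.O₀) := pvzn_at_meas one_ne_zero 0 G.mO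
  have h2 : MeasurableSet (pvkdAt (𝔤.zo 0 1 τ) (1 * τ.rot) 𝔤.O₀) := pvzn_at_meas (by rw [one_mul]; exact pvzn_ne_of_norm (pvt_norm_rot τ)) _ G.mO
  have h3 : MeasurableSet (pvkdAt 0 1 (𝔤.K₀ τ)) := pvzn_at_meas one_ne_zero 0 (G.mK τ)
  exact ((h1.prod MeasurableSet.univ).union (h2.prod MeasurableSet.univ)).union (h3.prod MeasurableSet.univ)

/-- **[MEAS] `mC`** -/
theorem mC : MeasurableSet (𝔤.glob Hf).C := by
  obtain ⟨B, h1, -, h3⟩ := pvzn_rep_C G.pg0 G.wE' G.bE' G.ρ0 G.rd0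
  exact pvzn_ev_meas h1 h3 rfl

/-- **[LOC] `lC`** -/
theorem lC {ε : ℝ} (hε : ε ≠ 0) : PvpgLocal (pvP ε) ((𝔤.glob Hf).pre.O 0 1) (𝔤.glob Hf).C := by
  obtain ⟨B, -, h2, h3⟩ := pvzn_rep_C G.pg0 G.wE' G.bE' G.ρ0 G.rd0
  exact pvzn_ev_local h2 h3 rfl hε (G.mesO Hf) (G.subO Hf)

/-- **[MEAS] `mA`** -/
theorem mA (τ : PvtTurn) : MeasurableSet ((𝔤.glob Hf).A τ) := by
  obtain ⟨B, h1, -, h3⟩ := pvzn_rep_A G.pg0 (G.pg1 τ) (pvzn_at_meas one_ne_zero 0 (G.mCo τ)) (G.wA' τ) (G.bA' τ) G.ρ0 (G.rdA τ)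
  exact pvzn_ev_meas h1 h3 rfl

/-- **[LOC] `lA`** -/
theorem lA {ε : ℝ} (hε : ε ≠ 0) (τ : PvtTurn) : PvpgLocal (pvP ε) ((𝔤.glob Hf).win τ) ((𝔤.glob Hf).A τ) := by
  obtain ⟨B, -, h2, h3⟩ := pvzn_rep_A G.pg0 (G.pg1 τ) (pvzn_at_meas one_ne_zero 0 (G.mCo τ)) (G.wA' τ) (G.bA' τ) G.ρ0 (G.rdA τ)
  exact pvzn_ev_local h2 h3 rfl hε (G.mesW Hf τ) (subW 𝔤 Hf τ)

/-- ONE representative of the mass of the link -/
theorem repX (τ : PvtTurn) : ∃ F : Conf PvPt → ℂ, Measurable F ∧ Conf.Reads (pvkdAt 0 1 (𝔤.Ea τ) ×ˢ univ) F ∧ ∀ η ∈ 𝔤.A 0 1 τ, 𝔤.XQ 0 1 τ η = F η := by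
  have hw : Measurable (pvkdWt (pvkdAt 0 1 (𝔤.Mk τ))) := pvzn_Wt_meas (pvzn_at_meas one_ne_zero 0 (G.mMk τ))
  obtain ⟨F1, a1, b1, c1⟩ := pvzn_rep_Ti G.pg0 (G.wA' τ) (G.bA' τ) G.ρ0 (G.rdA0 τ) hw
  obtain ⟨F2, a2, b2, c2⟩ := pvzn_rep_Tr G.pg0 (G.pg1 τ) (pvzn_at_meas one_ne_zero 0 (G.mCo τ)) (G.wA' τ) (G.bA' τ) G.ρ0 (G.rdA τ) hw
  obtain ⟨F3, a3, b3, c3⟩ := pvzn_rep_Ti (G.pg1 τ) (G.wA' τ) (G.bA' τ) G.ρ0 (G.rdA1 τ) hw
  refine ⟨fun η => F1 η + F2 η + F3 η, (a1.add a2).add a3, fun η => ?_, fun η hη => ?_⟩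
  · show F1 _ + F2 _ + F3 _ = _
    rw [b1 η, b2 η, b3 η]
  · have hN : η ∈ pvznN 𝔤.ρ (pvkdAt 0 1 (𝔤.Ea τ)) := hη.1
    show _ = F1 η + F2 η + F3 η
    rw [c1 η hN, c2 η hN, c3 η hN]
    unfold PvkdGeo.XQ
    rw [if_pos hη]
    rfl

/-- **[MEAS] `mX`** -/
theorem mX (τ : PvtTurn) : Measurable ((𝔤.glob Hf).XQ τ) := by
  classical
  obtain ⟨F, h1, -, h3⟩ := G.repX τ
  have e : (𝔤.glob Hf).XQ τ = (𝔤.A 0 1 τ).indicator F := by
    funext η
    by_cases hη : η ∈ 𝔤.A 0 1 τ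
    · rw [indicator_of_mem hη]
      exact h3 η hη
    · rw [indicator_of_notMem hη]
      show 𝔤.XQ 0 1 τ η = 0
      unfold PvkdGeo.XQ
      rw [if_neg hη]
  rw [e]
  exact h1.indicator (G.mA Hf τ)

/-- **[LOC] `lX`** -/
theorem lX {ε : ℝ} (hε : ε ≠ 0) (τ : PvtTurn) :
    ∀ᵐ p ∂((pvP ε).prod (pvP ε)), p.1 ∈ (𝔤.glob Hf).A τ → (𝔤.glob Hf).XQ τ (Conf.spl ((𝔤.glob Hf).win τ) p) = (𝔤.glob Hf).XQ τ p.1 := by
  obtain ⟨F, -, h2, h3⟩ := G.repX τ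
  filter_upwards [G.lA Hf hε τ] with p hp h
  have e1 : (𝔤.glob Hf).XQ τ (Conf.spl ((𝔤.glob Hf).win τ) p) = F (Conf.spl ((𝔤.glob Hf).win τ) p) := h3 _ (hp h)
  have e2 : (𝔤.glob Hf).XQ τ p.1 = F p.1 := h3 _ h
  rw [e1, e2]
  exact h2.spl_left (subW 𝔤 Hf τ) p.1 p.2

end PvznGeo

/-! ## 7. calculus of windows (`PvplWin` of 238): open sets, intersections, cores -/

section win

variable {E E' U : Set ℂ}

/-- **every open set is a window**      (closed sets: `pvmg_win_closed` of 222, `Tr/MenuGeo`) -/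
theorem pvzn_win_open (hU : IsOpen U) : PvplWin U := by
  refine ⟨hU.measurableSet, IsOpen.measurableSet ?_⟩
  rw [Metric.isOpen_iff]
  rintro ⟨z, s⟩ (h : closedBall z s ⊆ U)
  by_cases hs : 0 ≤ s
  · obtain ⟨δ, hδ, hsub⟩ := (isCompact_closedBall z s).exists_cthickening_subset_open hU h
    rw [cthickening_closedBall hδ.le hs] at hsub
    refine ⟨δ / 2, by positivity, ?_⟩
    rintro ⟨z', s'⟩ hq
    have hq' : max (dist z' z) (dist s' s) < δ / 2 := by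
      have := mem_ball.1 hq
      rwa [Prod.dist_eq] at this
    have h1 : dist z' z < δ / 2 := lt_of_le_of_lt (le_max_left _ _) hq'
    have h2 : dist s' s < δ / 2 := lt_of_le_of_lt (le_max_right _ _) hq'
    rw [Real.dist_eq] at h2
    have h3 := (abs_lt.1 h2).2
    exact (closedBall_subset_closedBall' (by linarith)).trans hsub
  · refine ⟨-s, by linarith, ?_⟩
    rintro ⟨z', s'⟩ hq
    have hq' : max (dist z' z) (dist s' s) < -s := by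
      have := mem_ball.1 hq
      rwa [Prod.dist_eq] at this
    have h2 : dist s' s < -s := lt_of_le_of_lt (le_max_right _ _) hq'
    rw [Real.dist_eq] at h2
    have h3 := (abs_lt.1 h2).2
    show closedBall z' s' ⊆ U
    rw [closedBall_eq_empty.2 (by linarith)]
    exact empty_subset _

/-- the intersection of two windows is a window      (so: every locally closed set `open ∩ closed`) -/
theorem pvzn_win_inter (h : PvplWin E) (h' : PvplWin E') : PvplWin (E ∩ E') := by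
  refine ⟨h.1.inter h'.1, ?_⟩
  have e : {q : ℂ × ℝ | closedBall q.1 q.2 ⊆ E ∩ E'} = {q : ℂ × ℝ | closedBall q.1 q.2 ⊆ E} ∩ {q : ℂ × ℝ | closedBall q.1 q.2 ⊆ E'} := by
    ext q
    exact subset_inter_iff
  rw [e]
  exact h.2.inter h'.2

/-- the cores of a window are Borel -/
theorem pvzn_core_meas (h : PvplWin E) (r : ℝ) : MeasurableSet (pvtrCore r E) :=
  (measurable_id.prodMk (measurable_const (a := r))) h.2

end win

end Claimed.Agent.R289
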