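-- KEEP
import Claimed.Agent.R289.Tr.MeasGA
import Claimed.Agent.R289.Tr.MeasGL
import Claimed.Agent.R289.Tr.LinkLocA
import Claimed.Agent.R289.Tr.PlugW

/-!
# Row 289 (S0537), THE WALL, ROAD E, file Tr/MeasGM : [MEAS] OF THE GLOBAL OBJECTS OF `Tr/InstL` v2.2, MODULO (A)      (owner helper247; prefix `pvym_`, `pvym`, `Pvym`)

v2.2 = ON `Tr/InstL` v2.2 (FROZEN) and `Tr/LinkLocA` v2.2 of 74 (door ends, tips at the black end, `lev0`, hulls of record with the mouth ball round the grid centre).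
The plain (global) events and values of `Tr/InstL` (168, 163): `pvilUo pvilUi pvilU`, `PvilLk.A`, `PvilLk.X`, the hulls `pvilHuO pvilHuI`, as MODEL FREE functions of `(V, D, T, pos, s)` on the bodies of 74 (`PvllOut PvllIn PvllArc pvllVal`).
* sec. 1  frames: `PvymOk.frame`;   regions `pvymPlK N p` (marked end), `pvymDrK r z d` (door end), `pvymEndK`, `pvymLkK N L` (two ends, the room), Borel, bounded;   feet `pvym_ftP pvym_ftP'`
* sec. 2  UNIQUENESS among `PvymOk` maps: `pvym_ll_out_unique pvym_ll_in_unique pvym_ll_arc_unique pvym_ll_val_unique` (text of 74 with `Function.Injective pos` weakened)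
* sec. 3  the objects `pvymUo pvymUi pvymU pvymLA pvymLX pvymHuO pvymHuI`, weights `PvymWt`, `pvymQ pvymV`
* sec. 4  **(L)**: `pvym_Uo_local pvym_Ui_local pvym_U_local pvym_LA_local pvym_LX_local pvym_HuO_local pvym_HuI_local`
* sec. 5  DICTIONARY at the plane map (guard `pvllGd L` of 74)
* sec. 6  **EXITS**: `NullMeasurableSet` / `AEMeasurable` under `pvP ε`, the ONLY hypotheses: (A) = `PvymFn.MeasP` of the object, `‖fr‖ = 1` / `PvllUq L`, the room Borel and bounded;   `pvym_SA_null` (the event under `pvilSA`)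
(A): 231 `Tr/RetMkA` (`pvzj_Uo_measP pvzj_Ui_measP pvzj_LA_measP pvzj_LX_measP`), hulls: 289 `Tr/MeasL`.
-/

set_option autoImplicit false
set_option linter.unusedSectionVars false

namespace Claimed.Agent.R289

open Set Metric MeasureTheory Claims.C0465
open scoped ComplexConjugate

/-! ## 1. frames, regions -/

section frames

variable {V D : Type} {T : PvMap V D} {pos : V → ℂ} {K : Set ℂ}

/-- a good map seen in a rotated frame -/
theorem PvymOk.frame (o : PvymOk T pos K) {f : ℂ} (hf : ‖f‖ = 1) : PvymOk T (fun v => conj f * pos v) ((fun w : ℂ => conj f * w) '' K) := by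
  refine ⟨o.sph, o.simple, ?_⟩
  rintro v ⟨w, hw, e⟩ v' ⟨w', hw', e'⟩ h
  have e1 : w = pos v := pvll_fr_inj hf e
  have e2 : w' = pos v' := pvll_fr_inj hf e'
  exact o.inj (show pos v ∈ K from e1 ▸ hw) (show pos v' ∈ K from e2 ▸ hw') (pvll_fr_inj hf h)

end frames

/-- the region of a placed plug: the disc of the core and a ball which contains the box -/
def pvymPlK (N : PvwNum) (p : PvilPl) : Set ℂ := closedBall p.z (p.ty.b * p.h) ∪ closedBall p.z (2 * pvwRad N p.h p.ty p.ty.k)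

/-- the region of a door end: the plug of record of unit `r` placed at `(z, d)` -/
def pvymDrK (r : ℝ) (z d : ℂ) : Set ℂ := closedBall z (2 * r) ∪ closedBall z (3 * r * ‖d‖)

/-- the region of an end of a link -/
def pvymEndK (N : PvwNum) (dr : Bool) (p : PvilPl) : Set ℂ := if dr then pvymDrK p.h p.z p.fr else pvymPlK N p

/-- the region of a link -/
def pvymLkK (N : PvwNum) (L : PvilLk) : Set ℂ := pvymEndK N L.dr L.p ∪ pvymEndK N L.dr' L.p' ∪ L.Yin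

theorem pvym_eqns_cite5 : True := by
  have := @pvymPlK.eq_1; have := @pvymLkK.eq_1; have := @pvymDrK.eq_1; have := @pvymEndK.eq_1
  trivial

theorem pvym_plK_meas (N : PvwNum) (p : PvilPl) : MeasurableSet (pvymPlK N p) := measurableSet_closedBall.union measurableSet_closedBall

theorem pvym_plK_bdd (N : PvwNum) (p : PvilPl) : Bornology.IsBounded (pvymPlK N p) := isBounded_closedBall.union isBounded_closedBall

theorem pvym_endK_meas (N : PvwNum) (dr : Bool) (p : PvilPl) : MeasurableSet (pvymEndK N dr p) := by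
  unfold pvymEndK
  split_ifs
  · exact measurableSet_closedBall.union measurableSet_closedBall
  · exact pvym_plK_meas N p

theorem pvym_endK_bdd (N : PvwNum) (dr : Bool) (p : PvilPl) : Bornology.IsBounded (pvymEndK N dr p) := by
  unfold pvymEndK
  split_ifs
  · exact isBounded_closedBall.union isBounded_closedBall
  · exact pvym_plK_bdd N p

theorem pvym_lkK_meas (N : PvwNum) {L : PvilLk} (hY : MeasurableSet L.Yin) : MeasurableSet (pvymLkK N L) := ((pvym_endK_meas N _ _).union (pvym_endK_meas N _ _)).union hY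

theorem pvym_lkK_bdd (N : PvwNum) {L : PvilLk} (hY : Bornology.IsBounded L.Yin) : Bornology.IsBounded (pvymLkK N L) := ((pvym_endK_bdd N _ _).union (pvym_endK_bdd N _ _)).union hY

theorem pvym_plK_core (N : PvwNum) (p : PvilPl) : closedBall p.z (p.ty.b * p.h) ⊆ pvymPlK N p := subset_union_left

theorem pvym_plK_box (N : PvwNum) (p : PvilPl) : closedBall p.z (2 * pvwRad N p.h p.ty p.ty.k) ⊆ pvymPlK N p := subset_union_right

theorem pvym_lkK_p (N : PvwNum) (L : PvilLk) : pvymEndK N L.dr L.p ⊆ pvymLkK N L := subset_union_left.trans subset_union_left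

theorem pvym_lkK_p' (N : PvwNum) (L : PvilLk) : pvymEndK N L.dr' L.p' ⊆ pvymLkK N L := subset_union_right.trans subset_union_left

theorem pvym_lkK_Y (N : PvwNum) (L : PvilLk) : L.Yin ⊆ pvymLkK N L := subset_union_right

/-- the marks of the plug of record lie in the region of the door end -/
theorem pvym_drK_sub (r : ℝ) (z d : ℂ) : ((pvkdP r).pg z d).Sub (pvymDrK r z d) ∧ closedBall z (pvkdP r).b ⊆ pvymDrK r z d := by
  refine ⟨⟨fun w hw => Or.inl ?_, fun w hw => Or.inl (ball_subset_closedBall hw), ?_⟩, subset_union_left⟩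
  · have h1 : dist w z < r := hw
    have h0 : 0 ≤ dist w z := dist_nonneg
    exact mem_closedBall.2 (by linarith)
  · rintro _ ⟨a, ha, rfl⟩
    refine Or.inr ?_
    obtain ⟨a1, a2, a3, a4⟩ : -(2 * r) ≤ a.re ∧ a.re ≤ 2 * r ∧ -(r / 2) ≤ a.im ∧ a.im ≤ r / 2 := ha
    have h1 := Complex.norm_le_abs_re_add_abs_im a
    have h2 : |a.re| ≤ 2 * r := abs_le.2 ⟨a1, a2⟩
    have h3 : |a.im| ≤ r / 2 := abs_le.2 ⟨a3, a4⟩
    have h4 : 0 ≤ r := by linarith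
    have h5 : ‖a‖ ≤ 3 * r := by linarith
    rw [mem_closedBall_iff_norm]
    unfold pvthSim
    rw [add_sub_cancel_left, norm_mul, mul_comm]
    exact mul_le_mul_of_nonneg_right h5 (norm_nonneg d)

section feet

variable {V D : Type} {T : PvMap V D} {pos : V → ℂ} {s : V → Bool} {N : PvwNum} {K : Set ℂ} {L : PvilLk} {𝔖 : PvwSt T}

/-- the foot of the exit end lies in the region -/
theorem pvym_ftP (hu : PvllUq L) (hK : pvymLkK N L ⊆ K) (ha : PvllAtP N L T pos s 𝔖) : PvllFtP L K T pos 𝔖 := by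
  have h1 := (pvym_lkK_p N L).trans hK
  have u1 := hu.1
  unfold pvymEndK at h1
  unfold PvllFtP
  unfold PvllAtP at ha
  cases hd : L.dr
  · simp only [hd, Bool.false_eq_true, if_false] at h1 u1 ha ⊢
    exact ⟨u1, (pvym_plK_core N _).trans h1, fun i hi => h1 (pvym_plK_box N _ (ha.near u1 hi).1)⟩
  · simp only [hd, if_true] at h1 ⊢
    exact ⟨⟨(pvym_drK_sub _ _ _).1.1.trans h1, (pvym_drK_sub _ _ _).1.2.1.trans h1, (pvym_drK_sub _ _ _).1.2.2.trans h1⟩, (pvym_drK_sub _ _ _).2.trans h1⟩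

/-- the foot of the entrance end lies in the region -/
theorem pvym_ftP' (hu : PvllUq L) (hK : pvymLkK N L ⊆ K) (ha : PvllAtP' N L T pos s 𝔖) : PvllFtP' L K T pos 𝔖 := by
  have h1 := (pvym_lkK_p' N L).trans hK
  have u1 := hu.2
  unfold pvymEndK at h1
  unfold PvllFtP'
  unfold PvllAtP' at ha
  cases hd : L.dr'
  · simp only [hd, Bool.false_eq_true, if_false] at h1 u1 ha ⊢
    exact ⟨u1, (pvym_plK_core N _).trans h1, fun i hi => h1 (pvym_plK_box N _ (ha.near u1 hi).1)⟩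
  · simp only [hd, if_true] at h1 ⊢
    exact ⟨⟨(pvym_drK_sub _ _ _).1.1.trans h1, (pvym_drK_sub _ _ _).1.2.1.trans h1, (pvym_drK_sub _ _ _).1.2.2.trans h1⟩, (pvym_drK_sub _ _ _).2.trans h1⟩

end feet

/-! ## 2. uniqueness among `PvymOk` maps -/

section unique

variable {V D : Type} {T : PvMap V D} {pos : V → ℂ} {s : V → Bool} {N : PvwNum} {K : Set ℂ}

theorem pvym_ll_out_unique (o : PvymOk T pos K) {p : PvilPl} (hf : ‖p.fr‖ = 1) (hK : closedBall p.z (p.ty.b * p.h) ⊆ K) {𝔖 𝔖₁ : PvwSt T} (h : PvllOut N p T pos s 𝔖) (h₁ : PvllOut N p T pos s 𝔖₁) :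
    PvuqG 𝔖 𝔖₁ ∧ PvuqP 𝔖 𝔖₁ := pvym_atOut (o.frame hf) (ball_subset_closedBall.trans (pvll_fr_ball hf hK)) h.st h₁.st

theorem pvym_ll_in_unique (o : PvymOk T pos K) {p : PvilPl} (hf : ‖p.fr‖ = 1) (hK : closedBall p.z (p.ty.b * p.h) ⊆ K) {𝔖 𝔖₁ : PvwSt T} (h : PvllIn N p T pos s 𝔖) (h₁ : PvllIn N p T pos s 𝔖₁) :
    PvuqG 𝔖 𝔖₁ ∧ PvuqM 𝔖 𝔖₁ := pvym_atIn (o.frame hf) (ball_subset_closedBall.trans (pvll_fr_ball hf hK)) h.st h₁.st

/-- **two witnesses of the success of a link**: the same data at the ends -/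
theorem pvym_ll_arc_unique (o : PvymOk T pos K) {L : PvilLk} (hu : PvllUq L) (hK : pvymLkK N L ⊆ K) {𝔖 𝔖' 𝔖₁ 𝔖₁' : PvwSt T} {y y₁ : T.Pth}
    (h : PvllArc N L T pos s 𝔖 𝔖' y) (h₁ : PvllArc N L T pos s 𝔖₁ 𝔖₁' y₁) : PvllEq 𝔖 𝔖₁ ∧ PvllEq 𝔖' 𝔖₁' ∧ 𝔖'.ip ≤ 𝔖'.inn.n := by
  obtain ⟨u1, u2⟩ := hu
  have k1 := (pvym_lkK_p N L).trans hK
  have k2 := (pvym_lkK_p' N L).trans hK
  unfold pvymEndK at k1 k2
  have a1 := h.at_p
  have a2 := h₁.at_p
  have b1 := h.at_p'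
  have b2 := h₁.at_p'
  unfold PvllAtP at a1 a2
  unfold PvllAtP' at b1 b2
  refine ⟨?_, ?_⟩
  · cases hd : L.dr
    · simp only [hd, Bool.false_eq_true, if_false] at u1 a1 a2 k1
      exact pvll_eq_of_uq (pvym_ll_out_unique o u1 ((pvym_plK_core N _).trans k1) a1 a2).1
    · simp only [hd, if_true] at u1 a1 a2
      exact pvll_dr_unique o.sph o.simple u1 a1 a2
  · cases hd : L.dr'
    · simp only [hd, Bool.false_eq_true, if_false] at u2 b1 b2 k2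
      exact ⟨pvll_eq_of_uq (pvym_ll_in_unique o u2 ((pvym_plK_core N _).trans k2) b1 b2).1, b1.st.gate.ip_le⟩
    · simp only [hd, if_true] at u2 b1 b2
      refine ⟨pvll_dr_unique o.sph o.simple u2 b1 b2, ?_⟩
      obtain ⟨g, -, rfl⟩ := b1
      exact Nat.zero_le _

/-- **the value of a link is the same at all witnesses** -/
theorem pvym_ll_val_unique (o : PvymOk T pos K) {L : PvilLk} (hu : PvllUq L) (hK : pvymLkK N L ⊆ K) {𝔖 𝔖' 𝔖₁ 𝔖₁' : PvwSt T} {y y₁ : T.Pth}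
    (h : PvllArc N L T pos s 𝔖 𝔖' y) (h₁ : PvllArc N L T pos s 𝔖₁ 𝔖₁' y₁) (w : D → ℂ) : pvllVal N L T pos w 𝔖 𝔖' y = pvllVal N L T pos w 𝔖₁ 𝔖₁' y₁ := by
  obtain ⟨e, e', hip⟩ := pvym_ll_arc_unique o hu hK h h₁
  obtain ⟨n, hn⟩ := h.run
  obtain ⟨n₁, hn₁⟩ := h₁.run
  exact pvll_v_unique o.simple e e' hip hn hn₁ _ _ _ _ w

end unique

/-! ## 3. the objects -/

/-- the body of `PvilAt` -/
structure PvymAt {V D : Type} (N : PvwNum) (p : PvilPl) (T : PvMap V D) (pos : V → ℂ) (s : V → Bool) (𝔖 : PvwSt T) : Prop where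
  out : PvllOut N p T pos s 𝔖
  inn : PvllIn N p T pos s 𝔖
  far_p : ∀ v ∈ 𝔖.fzIn, 2 * N.rho * p.h < ‖conj p.fr * pos v - p.ty.cp p.h p.zf‖
  far_m : ∀ v ∈ 𝔖.fzOut, 2 * N.rho * p.h < ‖conj p.fr * pos v - p.ty.cm p.h p.zf‖

/-- the exit half state exists -/
def pvymUo (N : PvwNum) (p : PvilPl) : PvplPred ℂ := fun _ _ T pos s => ∃ 𝔖 : PvwSt T, PvllOut N p T pos s 𝔖
/-- the entrance half state exists -/
def pvymUi (N : PvwNum) (p : PvilPl) : PvplPred ℂ := fun _ _ T pos s => ∃ 𝔖 : PvwSt T, PvllIn N p T pos s 𝔖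
/-- the full state exists -/
def pvymU (N : PvwNum) (p : PvilPl) : PvplPred ℂ := fun _ _ T pos s => ∃ 𝔖 : PvwSt T, PvymAt N p T pos s 𝔖
/-- plain success of the link -/
def pvymLA (N : PvwNum) (L : PvilLk) : PvplPred ℂ := fun _ _ T pos s => ∃ (𝔖 𝔖' : PvwSt T) (y : T.Pth), PvllArc N L T pos s 𝔖 𝔖' y

/-- a weight of darts, model free -/
def PvymWt : Type 1 := ∀ V D : Type, PvMap V D → (V → ℂ) → D → ℂ
/-- the weight of `Q` -/
noncomputable def pvymQ : PvymWt := fun _ _ T pos => T.qpart pos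
/-- the weight of `V` -/
def pvymV : PvymWt := fun _ _ T pos => T.side pos
/-- the weight is carried by the positioned local isomorphisms -/
def PvymWt.Loc (W : PvymWt) : Prop :=
  ∀ (V D V' D' : Type) (T : PvMap V D) (T' : PvMap V' D') (R : D → D' → Prop) (pos : V → ℂ) (pos' : V' → ℂ) (Kr : Set ℂ), PvLocP T T' R pos pos' Kr → ∀ d d', R d d' → W V D T pos d = W V' D' T' pos' d'

/-- plain value of the link -/
noncomputable def pvymLX (N : PvwNum) (L : PvilLk) (W : PvymWt) : PvymFn ℂ := fun V D T pos s => pvymPick3 (PvllArc N L T pos s) (pvllVal N L T pos (W V D T pos)) 0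

/-- the hull of record of `Σ_out`: the cells of the frozen positions and of the mouth ball round the grid centre -/
def pvymHuO (δ r : ℝ) (N : PvwNum) (p : PvilPl) : PvymFn (Set (ℤ × ℤ)) := fun _ _ T pos s =>
  {q | ∃ 𝔖 : PvwSt T, PvllOut N p T pos s 𝔖 ∧ q ∈ pvtCells δ (pos '' 𝔖.fzOut ∪ closedBall (p.ty.cp p.h p.z) r)}
/-- the hull of record of `Σ_in` -/
def pvymHuI (δ r : ℝ) (N : PvwNum) (p : PvilPl) : PvymFn (Set (ℤ × ℤ)) := fun _ _ T pos s =>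
  {q | ∃ 𝔖 : PvwSt T, PvllIn N p T pos s 𝔖 ∧ q ∈ pvtCells δ (pos '' 𝔖.fzIn ∪ closedBall (p.ty.cm p.h p.z) r)}

theorem pvym_eqns_cite6 : True := by
  have := @pvymUo.eq_1; have := @pvymUi.eq_1; have := @pvymU.eq_1; have := @pvymLA.eq_1; have := @PvymWt.eq_1; have := @pvymQ.eq_1; have := @pvymV.eq_1
  have := @PvymWt.Loc.eq_1; have := @pvymLX.eq_1; have := @pvymHuO.eq_1; have := @pvymHuI.eq_1
  trivial

theorem pvym_Q_loc : pvymQ.Loc := fun _ _ _ _ _ _ _ _ _ _ L _ _ h => pvlw_qpart L h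

theorem pvym_V_loc : pvymV.Loc := fun _ _ _ _ _ _ _ _ _ _ L _ _ h => pvlw_side L h

/-! ## 4. (L) -/

section loc

variable {V D V' D' : Type} {T : PvMap V D} {pos : V → ℂ} {s : V → Bool} {T' : PvMap V' D'} {pos' : V' → ℂ} {s' : V' → Bool} {K : Set ℂ} {R : V → V' → Prop} {N : PvwNum}

/-- the exit gate edge of a half state of a placed plug starts in the disc of the core -/
theorem pvym_out_dart {p : PvilPl} (hf : ‖p.fr‖ = 1) {𝔖 : PvwSt T} (h : PvllOut N p T pos s 𝔖) : pos (T.src 𝔖.dp) ∈ closedBall p.z (p.ty.b * p.h) := by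
  have := pvym_gate_dart h.st.gate
  rw [mem_ball_iff_norm] at this
  rw [mem_closedBall_iff_norm, ← pvll_fr_norm hf]
  exact this.le

theorem pvym_in_dart {p : PvilPl} (hf : ‖p.fr‖ = 1) {𝔖 : PvwSt T} (h : PvllIn N p T pos s 𝔖) : pos (T.src 𝔖.dp) ∈ closedBall p.z (p.ty.b * p.h) := by
  have := pvym_gate_dart h.st.gate
  rw [mem_ball_iff_norm] at this
  rw [mem_closedBall_iff_norm, ← pvll_fr_norm hf]
  exact this.le

/-- the exit half state is carried, with the twin relation -/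
theorem pvym_out_tr (h : PvplIso T pos s T' pos' s' K R) (o : PvymOk T pos K) (o' : PvymOk T' pos' K) {p : PvilPl} (hf : ‖p.fr‖ = 1) (hK : pvymPlK N p ⊆ K) {𝔖 : PvwSt T} (hs : PvllOut N p T pos s 𝔖) :
    PvLocP T T' (pvplRK T pos T' K R) pos pos' K ∧ ∃ 𝔖₁ : PvwSt T', PvLocSP (pvplRK T pos T' K R) 𝔖 𝔖₁ ∧ PvllOut N p T' pos' s' 𝔖₁ := by
  have Lc := pvym_locP h o o' (hK (pvym_plK_core N p (pvym_out_dart hf hs)))
  exact ⟨Lc, pvll_out Lc o.sph h.loc_col hf ((pvym_plK_core N p).trans hK) (fun i hi => hK (pvym_plK_box N p (hs.near hf hi).1)) hs⟩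

/-- the entrance half state is carried, with the twin relation -/
theorem pvym_in_tr (h : PvplIso T pos s T' pos' s' K R) (o : PvymOk T pos K) (o' : PvymOk T' pos' K) {p : PvilPl} (hf : ‖p.fr‖ = 1) (hK : pvymPlK N p ⊆ K) {𝔖 : PvwSt T} (hs : PvllIn N p T pos s 𝔖) :
    PvLocP T T' (pvplRK T pos T' K R) pos pos' K ∧ ∃ 𝔖₁ : PvwSt T', PvLocSM (pvplRK T pos T' K R) 𝔖 𝔖₁ ∧ PvllIn N p T' pos' s' 𝔖₁ := by
  have Lc := pvym_locP h o o' (hK (pvym_plK_core N p (pvym_in_dart hf hs)))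
  exact ⟨Lc, pvll_in Lc o.sph h.loc_col hf ((pvym_plK_core N p).trans hK) (fun i hi => hK (pvym_plK_box N p (hs.near hf hi).1)) hs⟩

/-- a GIVEN twin of an exit half state is an exit half state -/
theorem pvym_out_twin {Rd : D → D' → Prop} (Lc : PvLocP T T' Rd pos pos' K) (hT : T.IsSph) (hs : ∀ d d', Rd d d' → s (T.src d) = s' (T'.src d')) {p : PvilPl} (hf : ‖p.fr‖ = 1)
    (hK : closedBall p.z (p.ty.b * p.h) ⊆ K) {𝔖 : PvwSt T} {𝔖₁ : PvwSt T'} (G : PvLocSP Rd 𝔖 𝔖₁) (hKp : ∀ i, i ≤ 𝔖.np → pos (T.src (𝔖.ep i)) ∈ K) (h : PvllOut N p T pos s 𝔖) : PvllOut N p T' pos' s' 𝔖₁ := by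
  have Lf := pvll_locP_map Lc (pvll_fr_inj hf)
  have hKf : closedBall p.zf (p.ty.b * p.h) ⊆ (fun w : ℂ => conj p.fr * w) '' K := pvll_fr_ball hf hK
  refine ⟨pvlw_atOut Lf hT hs G hKf h.st, ?_, ?_, ?_, h.lev0⟩
  · rw [G.np, ← Lc.pos_eq _ _ (G.ep _ le_rfl)]; exact h.tip
  · rw [G.np]; exact pvll_le_all Lc (fun i hi => pvloc_v_src (G.ep i hi)) hKp h.mask
  · intro i hi1 hi2
    rw [G.gt.ip] at hi1
    rw [G.gt.inn.n_eq] at hi2
    rw [← pvlw_pos Lc (G.gt.inn.v_rel i hi2)]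
    exact h.mask_i i hi1 hi2

/-- a GIVEN twin of an entrance half state is an entrance half state -/
theorem pvym_in_twin {Rd : D → D' → Prop} (Lc : PvLocP T T' Rd pos pos' K) (hT : T.IsSph) (hs : ∀ d d', Rd d d' → s (T.src d) = s' (T'.src d')) {p : PvilPl} (hf : ‖p.fr‖ = 1)
    (hK : closedBall p.z (p.ty.b * p.h) ⊆ K) {𝔖 : PvwSt T} {𝔖₁ : PvwSt T'} (G : PvLocSM Rd 𝔖 𝔖₁) (hKm : ∀ i, i ≤ 𝔖.nm → pos (T.src (𝔖.em i)) ∈ K) (h : PvllIn N p T pos s 𝔖) : PvllIn N p T' pos' s' 𝔖₁ := by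
  have Lf := pvll_locP_map Lc (pvll_fr_inj hf)
  have hKf : closedBall p.zf (p.ty.b * p.h) ⊆ (fun w : ℂ => conj p.fr * w) '' K := pvll_fr_ball hf hK
  refine ⟨pvlw_atIn_h Lf hT hs G hKf (fun i hi => ⟨_, hKm i hi, rfl⟩) h.st, ?_, ?_, ?_, h.lev0⟩
  · rw [G.nm, ← Lc.pos_eq _ _ (G.em _ le_rfl)]; exact h.tip
  · rw [G.nm]; exact pvll_le_all Lc (fun i hi => pvloc_v_src (G.em i hi)) hKm h.mask
  · intro i hi1
    rw [G.gt.ip] at hi1
    rw [← pvlw_pos Lc (G.gt.inn.v_rel i (hi1.trans h.st.gate.ip_le))]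
    exact h.mask_i i hi1

/-- the full state is carried, with the twin relation -/
theorem pvym_at_tr (h : PvplIso T pos s T' pos' s' K R) (o : PvymOk T pos K) (o' : PvymOk T' pos' K) {p : PvilPl} (hf : ‖p.fr‖ = 1) (hK : pvymPlK N p ⊆ K) {𝔖 : PvwSt T} (hs : PvymAt N p T pos s 𝔖) :
    PvLocP T T' (pvplRK T pos T' K R) pos pos' K ∧ ∃ 𝔖₁ : PvwSt T', PvLocSt (pvplRK T pos T' K R) 𝔖 𝔖₁ ∧ PvymAt N p T' pos' s' 𝔖₁ := by
  have Lc := pvym_locP h o o' (hK (pvym_plK_core N p (pvym_out_dart hf hs.out)))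
  have hKc := (pvym_plK_core N p).trans hK
  have hKp : ∀ i, i ≤ 𝔖.np → pos (T.src (𝔖.ep i)) ∈ K := fun i hi => hK (pvym_plK_box N p (hs.out.near hf hi).1)
  have hKm : ∀ i, i ≤ 𝔖.nm → pos (T.src (𝔖.em i)) ∈ K := fun i hi => hK (pvym_plK_box N p (hs.inn.near hf hi).1)
  have Lf := pvll_locP_map Lc (pvll_fr_inj hf)
  have hKf : closedBall p.zf (p.ty.b * p.h) ⊆ (fun w : ℂ => conj p.fr * w) '' K := pvll_fr_ball hf hKc
  obtain ⟨𝔖₁, G⟩ := pvlw_st_exists_h Lf hKf hs.out.st.gate (fun i hi => ⟨_, hKp i hi, rfl⟩) fun i hi => ⟨_, hKm i hi, rfl⟩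
  refine ⟨Lc, 𝔖₁, G, pvym_out_twin Lc o.sph h.loc_col hf hKc G.toP hKp hs.out, pvym_in_twin Lc o.sph h.loc_col hf hKc G.toM hKm hs.inn, fun v' hv' => ?_, fun v' hv' => ?_⟩
  · obtain ⟨v, h1, h2⟩ := (pvlw_fzIn Lc.loc G.toM).2 v' hv'
    rw [← pvlw_pos Lc h1]
    exact hs.far_p v h2
  · obtain ⟨v, h1, h2⟩ := (pvlw_fzOut Lc.loc G.toP).2 v' hv'
    rw [← pvlw_pos Lc h1]
    exact hs.far_m v h2

/-- the link is carried with its value -/
theorem pvym_arc_tr (h : PvplIso T pos s T' pos' s' K R) (o : PvymOk T pos K) (o' : PvymOk T' pos' K) {L : PvilLk} (hu : PvllUq L) (hK : pvymLkK N L ⊆ K) {W : PvymWt} (hW : W.Loc)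
    {𝔖 𝔖' : PvwSt T} {y : T.Pth} (hs : PvllArc N L T pos s 𝔖 𝔖' y) :
    ∃ (𝔖₁ 𝔖₁' : PvwSt T') (y₁ : T'.Pth), PvllArc N L T' pos' s' 𝔖₁ 𝔖₁' y₁ ∧ pvllVal N L T' pos' (W V' D' T' pos') 𝔖₁ 𝔖₁' y₁ = pvllVal N L T pos (W V D T pos) 𝔖 𝔖' y := by
  have f1 := pvym_ftP hu hK hs.at_p
  have f2 := pvym_ftP' hu hK hs.at_p'
  obtain ⟨-, -, -, hp⟩ := pvll_atP_tr h o o' f1 hs.at_p
  have Lc := pvym_locP h o o' (d0 := 𝔖.dp) (by have := hp.stub 0 (Nat.zero_le _); rwa [pvas_it_zero] at this)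
  obtain ⟨𝔖₁, 𝔖₁', y₁, -, -, -, h1, h2⟩ := pvll_arc_tr h o o' ((pvym_lkK_Y N L).trans hK) f1 f2 hs (hW _ _ _ _ _ _ _ _ _ _ Lc)
  exact ⟨𝔖₁, 𝔖₁', y₁, h1, h2⟩

end loc

theorem pvym_Uo_local (N : PvwNum) {p : PvilPl} (hf : ‖p.fr‖ = 1) : PvymFn.Local (M := Prop) (pvymUo N p) (pvymPlK N p) :=
  pvym_local_of_imp fun _ _ _ _ _ _ _ _ _ _ _ o o' h ⟨_, hs⟩ => by
    obtain ⟨-, 𝔖₁, -, h₁⟩ := pvym_out_tr h o o' hf subset_rfl hs
    exact ⟨𝔖₁, h₁⟩

theorem pvym_Ui_local (N : PvwNum) {p : PvilPl} (hf : ‖p.fr‖ = 1) : PvymFn.Local (M := Prop) (pvymUi N p) (pvymPlK N p) :=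
  pvym_local_of_imp fun _ _ _ _ _ _ _ _ _ _ _ o o' h ⟨_, hs⟩ => by
    obtain ⟨-, 𝔖₁, -, h₁⟩ := pvym_in_tr h o o' hf subset_rfl hs
    exact ⟨𝔖₁, h₁⟩

theorem pvym_U_local (N : PvwNum) {p : PvilPl} (hf : ‖p.fr‖ = 1) : PvymFn.Local (M := Prop) (pvymU N p) (pvymPlK N p) :=
  pvym_local_of_imp fun _ _ _ _ _ _ _ _ _ _ _ o o' h ⟨_, hs⟩ => by
    obtain ⟨-, 𝔖₁, -, h₁⟩ := pvym_at_tr h o o' hf subset_rfl hs
    exact ⟨𝔖₁, h₁⟩

theorem pvym_LA_local (N : PvwNum) {L : PvilLk} (hu : PvllUq L) : PvymFn.Local (M := Prop) (pvymLA N L) (pvymLkK N L) :=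
  pvym_local_of_imp fun _ _ _ _ _ _ _ _ _ _ _ o o' h ⟨_, _, _, hs⟩ => by
    obtain ⟨𝔖₁, 𝔖₁', y₁, h₁, -⟩ := pvym_arc_tr h o o' hu subset_rfl pvym_V_loc hs
    exact ⟨𝔖₁, 𝔖₁', y₁, h₁⟩

theorem pvym_LX_local (N : PvwNum) {L : PvilLk} (hu : PvllUq L) {W : PvymWt} (hW : W.Loc) : (pvymLX N L W).Local (pvymLkK N L) :=
  pvym_local_pick3 (W1 := fun _ _ T => PvwSt T) (W2 := fun _ _ T => PvwSt T) (W3 := fun _ _ T => T.Pth) (P := fun _ _ T pos s => PvllArc N L T pos s)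
    (val := fun V D T pos _ => pvllVal N L T pos (W V D T pos)) 0
    (fun _ _ _ _ _ _ _ _ _ _ _ o o' h _ _ _ hs => pvym_arc_tr h o o' hu subset_rfl hW hs)
    (fun _ _ _ _ _ o _ _ _ _ _ _ h h₁ => pvym_ll_val_unique o hu subset_rfl h h₁ _)

theorem pvym_HuO_local (δ r : ℝ) (N : PvwNum) {p : PvilPl} (hf : ‖p.fr‖ = 1) : (pvymHuO δ r N p).Local (pvymPlK N p) := by
  have key : ∀ (V D V' D' : Type) (T : PvMap V D) (pos : V → ℂ) (s : V → Bool) (T' : PvMap V' D') (pos' : V' → ℂ) (s' : V' → Bool) (R : V → V' → Prop),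
      PvymOk T pos (pvymPlK N p) → PvymOk T' pos' (pvymPlK N p) → PvplIso T pos s T' pos' s' (pvymPlK N p) R → pvymHuO δ r N p V D T pos s ⊆ pvymHuO δ r N p V' D' T' pos' s' := by
    rintro V D V' D' T pos s T' pos' s' R o o' h q ⟨𝔖, hs, hq⟩
    obtain ⟨Lc, 𝔖₁, G, h₁⟩ := pvym_out_tr h o o' hf subset_rfl hs
    refine ⟨𝔖₁, h₁, ?_⟩
    rwa [← pvll_fzOut_pos Lc G]
  exact fun V D V' D' T pos s T' pos' s' R o o' h => (key V D V' D' T pos s T' pos' s' R o o' h).antisymm (key V' D' V D T' pos' s' T pos s _ o' o h.symm)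

theorem pvym_HuI_local (δ r : ℝ) (N : PvwNum) {p : PvilPl} (hf : ‖p.fr‖ = 1) : (pvymHuI δ r N p).Local (pvymPlK N p) := by
  have key : ∀ (V D V' D' : Type) (T : PvMap V D) (pos : V → ℂ) (s : V → Bool) (T' : PvMap V' D') (pos' : V' → ℂ) (s' : V' → Bool) (R : V → V' → Prop),
      PvymOk T pos (pvymPlK N p) → PvymOk T' pos' (pvymPlK N p) → PvplIso T pos s T' pos' s' (pvymPlK N p) R → pvymHuI δ r N p V D T pos s ⊆ pvymHuI δ r N p V' D' T' pos' s' := by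
    rintro V D V' D' T pos s T' pos' s' R o o' h q ⟨𝔖, hs, hq⟩
    obtain ⟨Lc, 𝔖₁, G, h₁⟩ := pvym_in_tr h o o' hf subset_rfl hs
    refine ⟨𝔖₁, h₁, ?_⟩
    rwa [← pvll_fzIn_pos Lc G]
  exact fun V D V' D' T pos s T' pos' s' R o o' h => (key V D V' D' T pos s T' pos' s' R o o' h).antisymm (key V' D' V D T' pos' s' T pos s _ o' o h.symm)

/-! ## 5. dictionary at the plane map -/

section dict

variable {N : PvwNum} {b : Bool} {η : Conf PvPt}

theorem pvym_at_iff {p : PvilPl} {𝔖 : PvwSt (pvieT η)} : PvilAt N b p η 𝔖 ↔ DelGood (pvieY η) ∧ PvymAt N p (pvieT η) (pviePos η) (pvieCol η b) 𝔖 :=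
  ⟨fun h => ⟨h.out.good, (pvll_out_iff.1 h.out).2, (pvll_in_iff.1 h.inn).2, h.far_p, h.far_m⟩, fun h => ⟨pvll_out_iff.2 ⟨h.1, h.2.out⟩, pvll_in_iff.2 ⟨h.1, h.2.inn⟩, h.2.far_p, h.2.far_m⟩⟩

theorem pvym_Uo_model (p : PvilPl) : η ∈ pvilUo N b p ↔ DelGood (pvieY η) ∧ pvymUo N p _ _ (pvieT η) (pviePos η) (pvieCol η b) :=
  ⟨fun ⟨𝔖, h⟩ => ⟨h.good, 𝔖, (pvll_out_iff.1 h).2⟩, fun ⟨hg, 𝔖, h⟩ => ⟨𝔖, pvll_out_iff.2 ⟨hg, h⟩⟩⟩

theorem pvym_Ui_model (p : PvilPl) : η ∈ pvilUi N b p ↔ DelGood (pvieY η) ∧ pvymUi N p _ _ (pvieT η) (pviePos η) (pvieCol η b) :=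
  ⟨fun ⟨𝔖, h⟩ => ⟨h.good, 𝔖, (pvll_in_iff.1 h).2⟩, fun ⟨hg, 𝔖, h⟩ => ⟨𝔖, pvll_in_iff.2 ⟨hg, h⟩⟩⟩

theorem pvym_U_model (p : PvilPl) : η ∈ pvilU N b p ↔ DelGood (pvieY η) ∧ pvymU N p _ _ (pvieT η) (pviePos η) (pvieCol η b) :=
  ⟨fun ⟨𝔖, h⟩ => ⟨h.out.good, 𝔖, (pvym_at_iff.1 h).2⟩, fun ⟨hg, 𝔖, h⟩ => ⟨𝔖, pvym_at_iff.2 ⟨hg, h⟩⟩⟩

theorem pvym_LA_model (L : PvilLk) : η ∈ L.A N b ↔ η ∈ pvllGd L ∧ pvymLA N L _ _ (pvieT η) (pviePos η) (pvieCol η b) :=
  ⟨fun ⟨𝔖, 𝔖', y, h⟩ => ⟨(pvll_arc_iff.1 h).1, 𝔖, 𝔖', y, (pvll_arc_iff.1 h).2⟩, fun ⟨hg, 𝔖, 𝔖', y, h⟩ => ⟨𝔖, 𝔖', y, pvll_arc_iff.2 ⟨hg, h⟩⟩⟩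

/-- **`L.X` is the model free value at the plane map**, on the guard -/
theorem pvym_LX_model {L : PvilLk} (hu : PvllUq L) (hg : η ∈ pvllGd L) {W : PvymWt} {w : ∀ η : Conf PvPt, (delbPl (pvieY η)).Dart → ℂ}
    (hw : w η = W _ _ (pvieT η) (pviePos η)) : L.X N b w η = pvymLX N L W _ _ (pvieT η) (pviePos η) (pvieCol η b) := by
  by_cases h : ∃ (𝔖 𝔖' : PvwSt (pvieT η)) (y : (pvieT η).Pth), PvllArc N L (pvieT η) (pviePos η) (pvieCol η b) 𝔖 𝔖' y
  · obtain ⟨𝔖, 𝔖', y, hP, e⟩ := pvym_pick3_spec (pvllVal N L (pvieT η) (pviePos η) (W _ _ (pvieT η) (pviePos η))) 0 h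
    rw [show pvymLX N L W _ _ (pvieT η) (pviePos η) (pvieCol η b) = _ from e, pvll_X_eq hu (pvll_arc_iff.2 ⟨hg, hP⟩) w, hw]
    rfl
  · rw [show pvymLX N L W _ _ (pvieT η) (pviePos η) (pvieCol η b) = _ from pvym_pick3_neg _ _ h]
    exact pvll_X_off (fun hA => h ((pvym_LA_model L).1 hA).2) w

/-- off the guard the value is `0` -/
theorem pvym_LX_off {L : PvilLk} (hg : η ∉ pvllGd L) (w : ∀ η : Conf PvPt, (delbPl (pvieY η)).Dart → ℂ) : L.X N b w η = 0 :=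
  pvll_X_off (fun hA => hg ((pvym_LA_model L).1 hA).1) w

theorem pvym_HuO_model (δ r : ℝ) (p : PvilPl) (hg : DelGood (pvieY η)) : pvilHuO δ r N b p η = pvymHuO δ r N p _ _ (pvieT η) (pviePos η) (pvieCol η b) := by
  ext q
  exact ⟨fun ⟨𝔖, h, hq⟩ => ⟨𝔖, (pvll_out_iff.1 h).2, hq⟩, fun ⟨𝔖, h, hq⟩ => ⟨𝔖, pvll_out_iff.2 ⟨hg, h⟩, hq⟩⟩

theorem pvym_HuI_model (δ r : ℝ) (p : PvilPl) (hg : DelGood (pvieY η)) : pvilHuI δ r N b p η = pvymHuI δ r N p _ _ (pvieT η) (pviePos η) (pvieCol η b) := by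
  ext q
  exact ⟨fun ⟨𝔖, h, hq⟩ => ⟨𝔖, (pvll_in_iff.1 h).2, hq⟩, fun ⟨𝔖, h, hq⟩ => ⟨𝔖, pvll_in_iff.2 ⟨hg, h⟩, hq⟩⟩

theorem pvym_Q_model (η : Conf PvPt) : pvilQ η = pvymQ _ _ (pvieT η) (pviePos η) := rfl

theorem pvym_V_model (η : Conf PvPt) : pvilV η = pvymV _ _ (pvieT η) (pviePos η) := rfl

end dict

/-! ## 6. exits -/

section exits

variable {ε : ℝ} {K : Set ℂ}

/-- a.s. the sites are good -/
theorem pvym_good_ae (hε : 0 < ε) : ∀ᵐ η ∂(pvP ε), DelGood (pvieY η) := by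
  filter_upwards [dls_ae_conf hε] with η h
  exact h.1

/-- **GENERIC EXIT, events**: an event which on the good configurations is a model free predicate of the plane map -/
theorem pvym_null_model {Φ : PvplPred ℂ} (hKm : MeasurableSet K) (hKb : Bornology.IsBounded K) (hL : PvymFn.Local (M := Prop) Φ K) (hA : PvymFn.MeasP (M := Prop) Φ) (hε : 0 < ε) (b : Bool)
    {S : Set (Conf PvPt)} (hS : ∀ η, DelGood (pvieY η) → (η ∈ S ↔ Φ _ _ (pvieT η) (pviePos η) (pvieCol η b))) : NullMeasurableSet S (pvP ε) := by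
  refine (pvym_null_col hKm hKb hL hA hε b).congr ?_
  filter_upwards [pvym_good_ae hε] with η hg
  exact propext (hS η hg).symm

/-- **GENERIC EXIT, values** -/
theorem pvym_aem_model {M : Type} [MeasurableSpace M] [Nonempty M] {G : PvymFn M} (hKm : MeasurableSet K) (hKb : Bornology.IsBounded K) (hL : G.Local K) (hA : G.MeasP) (hε : 0 < ε) (b : Bool)
    {F : Conf PvPt → M} (hF : ∀ η, DelGood (pvieY η) → F η = G _ _ (pvieT η) (pviePos η) (pvieCol η b)) : AEMeasurable F (pvP ε) := by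
  refine (pvym_aem_col hKm hKb hL hA hε b).congr ?_
  filter_upwards [pvym_good_ae hε] with η hg
  exact (hF η hg).symm

/-- the guard of a link is null measurable -/
theorem pvym_gd_null (L : PvilLk) (hε : 0 < ε) : NullMeasurableSet (pvllGd L) (pvP ε) := by
  have h1 : MeasurableSet {η : Conf PvPt | L.dr = true → η ∈ (pvkdP L.p.h).N L.p.z L.p.fr} := by
    by_cases hd : L.dr = true
    · simp only [hd, true_imp_iff]
      exact pvzn_N_meas _ _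
    · have e : {η : Conf PvPt | L.dr = true → η ∈ (pvkdP L.p.h).N L.p.z L.p.fr} = univ := eq_univ_of_forall fun η h => absurd h hd
      rw [e]
      exact MeasurableSet.univ
  have h2 : MeasurableSet {η : Conf PvPt | L.dr' = true → η ∈ (pvkdP L.p'.h).N L.p'.z L.p'.fr} := by
    by_cases hd : L.dr' = true
    · simp only [hd, true_imp_iff]
      exact pvzn_N_meas _ _
    · have e : {η : Conf PvPt | L.dr' = true → η ∈ (pvkdP L.p'.h).N L.p'.z L.p'.fr} = univ := eq_univ_of_forall fun η h => absurd h hd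
      rw [e]
      exact MeasurableSet.univ
  refine (h1.inter h2).nullMeasurableSet.congr ?_
  filter_upwards [pvym_good_ae hε] with η hg
  exact propext ⟨fun h => ⟨hg, h.1, h.2⟩, fun h => ⟨h.2.1, h.2.2⟩⟩

variable (N : PvwNum) (b : Bool)

theorem pvym_Uo_null {p : PvilPl} (hf : ‖p.fr‖ = 1) (hA : PvymFn.MeasP (M := Prop) (pvymUo N p)) (hε : 0 < ε) : NullMeasurableSet (pvilUo N b p) (pvP ε) :=
  pvym_null_model (pvym_plK_meas N p) (pvym_plK_bdd N p) (pvym_Uo_local N hf) hA hε b fun _ hg => (pvym_Uo_model p).trans (and_iff_right hg)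

theorem pvym_Ui_null {p : PvilPl} (hf : ‖p.fr‖ = 1) (hA : PvymFn.MeasP (M := Prop) (pvymUi N p)) (hε : 0 < ε) : NullMeasurableSet (pvilUi N b p) (pvP ε) :=
  pvym_null_model (pvym_plK_meas N p) (pvym_plK_bdd N p) (pvym_Ui_local N hf) hA hε b fun _ hg => (pvym_Ui_model p).trans (and_iff_right hg)

theorem pvym_U_null {p : PvilPl} (hf : ‖p.fr‖ = 1) (hA : PvymFn.MeasP (M := Prop) (pvymU N p)) (hε : 0 < ε) : NullMeasurableSet (pvilU N b p) (pvP ε) :=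
  pvym_null_model (pvym_plK_meas N p) (pvym_plK_bdd N p) (pvym_U_local N hf) hA hε b fun _ hg => (pvym_U_model p).trans (and_iff_right hg)

/-- **the plain success of a link is null measurable** -/
theorem pvym_LA_null {L : PvilLk} (hu : PvllUq L) (mY : MeasurableSet L.Yin) (bY : Bornology.IsBounded L.Yin) (hA : PvymFn.MeasP (M := Prop) (pvymLA N L)) (hε : 0 < ε) :
    NullMeasurableSet (L.A N b) (pvP ε) := by
  have h1 : NullMeasurableSet {η : Conf PvPt | pvymLA N L _ _ (pvieT η) (pviePos η) (pvieCol η b)} (pvP ε) :=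
    pvym_null_col (pvym_lkK_meas N mY) (pvym_lkK_bdd N bY) (pvym_LA_local N hu) hA hε b
  have e : L.A N b = pvllGd L ∩ {η : Conf PvPt | pvymLA N L _ _ (pvieT η) (pviePos η) (pvieCol η b)} := by
    ext η
    exact pvym_LA_model L
  rw [e]
  exact (pvym_gd_null L hε).inter h1

/-- **the plain value of a link is a.e. measurable** -/
theorem pvym_LX_aem {L : PvilLk} (hu : PvllUq L) (mY : MeasurableSet L.Yin) (bY : Bornology.IsBounded L.Yin) {W : PvymWt} (hW : W.Loc) (hA : (pvymLX N L W).MeasP) (hε : 0 < ε)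
    {w : ∀ η : Conf PvPt, (delbPl (pvieY η)).Dart → ℂ} (hw : ∀ η, w η = W _ _ (pvieT η) (pviePos η)) : AEMeasurable (L.X N b w) (pvP ε) := by
  have h1 : AEMeasurable (fun η : Conf PvPt => pvymLX N L W _ _ (pvieT η) (pviePos η) (pvieCol η b)) (pvP ε) :=
    pvym_aem_col (pvym_lkK_meas N mY) (pvym_lkK_bdd N bY) (pvym_LX_local N hu hW) hA hε b
  have e : L.X N b w = (pvllGd L).indicator (fun η : Conf PvPt => pvymLX N L W _ _ (pvieT η) (pviePos η) (pvieCol η b)) := by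
    funext η
    by_cases hg : η ∈ pvllGd L
    · rw [indicator_of_mem hg]
      exact pvym_LX_model hu hg (hw η)
    · rw [indicator_of_notMem hg]
      exact pvym_LX_off hg w
  rw [e]
  exact h1.indicator₀ (pvym_gd_null L hε)

theorem pvym_HuO_null (δ r : ℝ) {p : PvilPl} (hf : ‖p.fr‖ = 1) (Z : Set (ℤ × ℤ)) (hA : PvymFn.MeasP (M := Prop) (fun V D T pos s => pvymHuO δ r N p V D T pos s = Z)) (hε : 0 < ε) :
    NullMeasurableSet {η | pvilHuO δ r N b p η = Z} (pvP ε) :=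
  pvym_null_model (Φ := fun V D T pos s => pvymHuO δ r N p V D T pos s = Z) (pvym_plK_meas N p) (pvym_plK_bdd N p) ((pvym_HuO_local δ r N hf).comp (· = Z)) hA hε b fun η hg => by
    rw [mem_ofPred_eq, pvym_HuO_model δ r p hg]

theorem pvym_HuI_null (δ r : ℝ) {p : PvilPl} (hf : ‖p.fr‖ = 1) (Z : Set (ℤ × ℤ)) (hA : PvymFn.MeasP (M := Prop) (fun V D T pos s => pvymHuI δ r N p V D T pos s = Z)) (hε : 0 < ε) :
    NullMeasurableSet {η | pvilHuI δ r N b p η = Z} (pvP ε) :=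
  pvym_null_model (Φ := fun V D T pos s => pvymHuI δ r N p V D T pos s = Z) (pvym_plK_meas N p) (pvym_plK_bdd N p) ((pvym_HuI_local δ r N hf).comp (· = Z)) hA hε b fun η hg => by
    rw [mem_ofPred_eq, pvym_HuI_model δ r p hg]

/-- **the event under `pvilSA`** (7 D1): the plain event holds and the plain value is the soft value -/
theorem pvym_SA_null {Wn : Set ℂ} (hW : MeasurableSet Wn) {M : Set (Conf PvPt)} {F : Conf PvPt → ℂ} (hM : NullMeasurableSet M (pvP ε)) (hF : AEMeasurable F (pvP ε)) :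
    NullMeasurableSet (M ∩ {η | F η = pvilLoc ε Wn M F η}) (pvP ε) := by
  haveI := (pv_isPpp ε).prob
  exact hM.inter (nullMeasurableSet_eq_fun hF (pvsu_loc_measurable (hW.prod MeasurableSet.univ) _).aemeasurable)

/-- the shape of `pvilMo pvilMi pvilMe` of v2.2: success, hull prescribed, mesh of the window -/
theorem pvym_M_null {A H : Set (Conf PvPt)} (hA : NullMeasurableSet A (pvP ε)) (hH : NullMeasurableSet H (pvP ε)) (ρ : ℝ) (Wn : Set ℂ) :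
    NullMeasurableSet (A ∩ H ∩ {η : Conf PvPt | PvtrMesh ρ Wn (cfSites η)}) (pvP ε) := (hA.inter hH).inter (pvtm_null_mesh ρ Wn ε)

end exits

end Claimed.Agent.R289
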