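import Claimed.Agent.R289.Tr.PinLoc
import Claimed.Agent.R289.Tr.InstE
import Claimed.Agent.R289.Tr.MeasG

/-!
# Row 289 (S0537), THE WALL, road E, MEAS, file Tr/RetMk : **(C) CONGRUENCE IN THE POSITIONS** of every predicate of `Tr/Defs` v3 and of `Tr/InstE` sec. 1-2      (helper231; post of 289, ids 81281, 84303: half (C) of M2; prefix `pvzk_`, `Pvzk`, `pvzk`)

THE FACT.  The definitions of record (`Tr/Defs` v3, frozen) read the positions `pos : V → ℂ` ONLY through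
 * ONE-POINT tests `pos v ∈ A`, `A` in an explicit FINITE family of Borel sets (balls round `z`, `y⁺`, `y⁻`, the boxes, the regions of the pattern, the masks),
 * ONE two-point test: the lexicographic comparison of `Gate.ori`,
 * (kept for later use; NONE at the model since `Defs/TrModel` v4) MID-POINT tests `(pos u + pos v) / 2 ∈ A`.
So two position maps which pass the same tests (`PvzkSame 𝒜 ℳ pos pos'`) satisfy the same predicates, WITH THE SAME DATA `𝔖`, `𝔇`, `c`, `j`, `n`, `y`.   Pure rewriting: no map is changed, no transfer.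

* sec. 1  `PvzkLex`, `PvzkSame`, its kit (`symm`, `mono`, the four norm forms)
* sec. 2  the families of tests `pvzkGateT`, `pvzkGoodT`, `pvzkOutT`, `pvzkInT`, `pvzkAtT`, `pvzkPatT`, `pvzkOkT`, `pvzkActT`: FINITE, BOREL
* sec. 3  states: `pvzk_gate`, `pvzk_inmost`, `pvzk_stubP/M`, `pvzk_goodOut/In`, `pvzk_atOut/In`, `pvzk_at`, `pvzk_pinOut/In` (+ `_iff`)
* sec. 4  data: the classes `Yraw YCL Yr0 YC0 NU XCL Lam` are EQUAL; `pvzk_ok`, `pvzk_nb_iff`, `pvzk_nbsec_iff`, `pvzk_wo_iff`, `pvzk_syn_iff`, `pvzk_sy_iff`, `pvzk_yarc_iff`, `pvzk_actual`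
* sec. 5  the text of `Tr/InstE` on an abstract positioned coloured map: `PvzkAtM` (= `PvieAt` without `DelGood`), half states `PvzkOutM`, `PvzkInM`, `PvzkRun`, `PvzkArc`, `PvzkArcH`, the darts of the four masses `PvzkSel`;
          THE PREDICATES `pvzkU pvzkUo pvzkUi pvzkA pvzkAh : PvplPred ℂ`, `pvzkX pvzkXh` (marked dart, `PvxsPred`), their tests `pvzkPlT pvzkPlM pvzkLkT pvzkLkM`; (C): `pvzk_U_iff` .. `pvzk_Xh_iff`; dictionary `pvzk_U_model`, `pvzk_A_model`, ..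
* sec. 6  THE BUNDLE: a finite family of Borel tests = ONE Borel map `pvzkTau 𝒜 ℳ : (Fin 2 → ℂ) → Set 𝒜 × Set ℳ × Prop` into a FINITE type: `pvzk_tau_measurable`, `pvzk_same_of_tau`;  (C) in the words of `PvxsEv.cong` / `PvxsMk.cong`: `pvzk_U_cong` .. `pvzk_Xh_cong`
* sec. 7  **(A) OF `Tr/MeasG` (247)**: `pvzkQ 𝒜 ℳ` (the tests as sets of quadruples), `pvzk_same_of_ym`;  `pvzk_U_measP` `pvzk_Uo_measP` `pvzk_Ui_measP` `pvzk_A_measP` `pvzk_Ah_measP`;  THE VALUE `pvzkXv N L a : PvymFn ℂ` (= `PvieLk.X`: `pvzk_X_model`), `pvzkXvh` (half states): `pvzk_Xv_measP`, `pvzk_Xvh_measP`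
-/

set_option autoImplicit false

namespace Claimed.Agent.R289

open Set Claims.C0465

variable {V D : Type}

/-! ## 1. the same tests -/

/-- the lexicographic order of the plane (`Gate.ori`) -/
def PvzkLex (a b : ℂ) : Prop := a.re < b.re ∨ (a.re = b.re ∧ a.im < b.im)

/-- **the two position maps pass the same tests**: one-point tests `A ∈ 𝒜`, mid-point tests `A ∈ ℳ`, the lexicographic comparison -/
structure PvzkSame (𝒜 ℳ : Set (Set ℂ)) (pos pos' : V → ℂ) : Prop where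
  one : ∀ A ∈ 𝒜, ∀ v, pos v ∈ A ↔ pos' v ∈ A
  mid : ∀ A ∈ ℳ, ∀ u v, (pos u + pos v) / 2 ∈ A ↔ (pos' u + pos' v) / 2 ∈ A
  lex : ∀ u v, PvzkLex (pos u) (pos v) ↔ PvzkLex (pos' u) (pos' v)

theorem pvzk_eqns_cite : True := by
  have := @PvzkLex.eq_1
  trivial

section kit

variable {𝒜 ℳ 𝒜' ℳ' : Set (Set ℂ)} {pos pos' : V → ℂ}

theorem PvzkSame.refl (𝒜 ℳ : Set (Set ℂ)) (pos : V → ℂ) : PvzkSame 𝒜 ℳ pos pos := ⟨fun _ _ _ => Iff.rfl, fun _ _ _ _ => Iff.rfl, fun _ _ => Iff.rfl⟩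

theorem PvzkSame.symm (H : PvzkSame 𝒜 ℳ pos pos') : PvzkSame 𝒜 ℳ pos' pos :=
  ⟨fun A hA v => (H.one A hA v).symm, fun A hA u v => (H.mid A hA u v).symm, fun u v => (H.lex u v).symm⟩

theorem PvzkSame.mono (H : PvzkSame 𝒜 ℳ pos pos') (h1 : 𝒜' ⊆ 𝒜) (h2 : ℳ' ⊆ ℳ) : PvzkSame 𝒜' ℳ' pos pos' :=
  ⟨fun A hA v => H.one A (h1 hA) v, fun A hA u v => H.mid A (h2 hA) u v, H.lex⟩

theorem PvzkSame.lt (H : PvzkSame 𝒜 ℳ pos pos') {z : ℂ} {r : ℝ} (hA : Metric.ball z r ∈ 𝒜) (v : V) : ‖pos v - z‖ < r ↔ ‖pos' v - z‖ < r := by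
  have := H.one _ hA v
  rwa [mem_ball_iff_norm, mem_ball_iff_norm] at this

theorem PvzkSame.ge (H : PvzkSame 𝒜 ℳ pos pos') {z : ℂ} {r : ℝ} (hA : Metric.ball z r ∈ 𝒜) (v : V) : r ≤ ‖pos v - z‖ ↔ r ≤ ‖pos' v - z‖ := by
  rw [← not_lt, ← not_lt, H.lt hA v]

theorem PvzkSame.le (H : PvzkSame 𝒜 ℳ pos pos') {z : ℂ} {r : ℝ} (hA : Metric.closedBall z r ∈ 𝒜) (v : V) : ‖pos v - z‖ ≤ r ↔ ‖pos' v - z‖ ≤ r := by
  have := H.one _ hA v
  rwa [mem_closedBall_iff_norm, mem_closedBall_iff_norm] at this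

theorem PvzkSame.gt (H : PvzkSame 𝒜 ℳ pos pos') {z : ℂ} {r : ℝ} (hA : Metric.closedBall z r ∈ 𝒜) (v : V) : r < ‖pos v - z‖ ↔ r < ‖pos' v - z‖ := by
  rw [← not_le, ← not_le, H.le hA v]

theorem PvzkSame.setOf (H : PvzkSame 𝒜 ℳ pos pos') {A : Set ℂ} (hA : A ∈ 𝒜) : {v | pos v ∈ A} = {v | pos' v ∈ A} := by
  ext v
  exact H.one A hA v

end kit

/-! ## 2. the families of tests -/

/-- the tests of a gate -/
def pvzkGateT (h : ℝ) (z : ℂ) (τ : PvwTy) : Set (Set ℂ) := {Metric.ball z (τ.a * h), Metric.ball z (τ.b * h), Metric.closedBall z h}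

/-- the tests of a good level round the centre `y` of a tip cell -/
def pvzkGoodT (N : PvwNum) (h : ℝ) (y : ℂ) : Set (Set ℂ) :=
  {Metric.closedBall y (N.rho * h / 4), Metric.ball y (N.rho2 * h), Metric.closedBall y (N.rho1 * h / 2), Metric.closedBall y (2 * N.rho * h)}

/-- the tests of the exit half state -/
def pvzkOutT (N : PvwNum) (h : ℝ) (z : ℂ) (τ : PvwTy) : Set (Set ℂ) := pvzkGateT h z τ ∪ {pvwSq z (pvwRad N h τ τ.k)} ∪ pvzkGoodT N h (τ.cp h z)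

/-- the tests of the entrance half state -/
def pvzkInT (N : PvwNum) (h : ℝ) (z : ℂ) (τ : PvwTy) : Set (Set ℂ) := pvzkGateT h z τ ∪ {pvwSq z (pvwRad N h τ τ.k)} ∪ pvzkGoodT N h (τ.cm h z)

/-- the tests of the full state -/
def pvzkAtT (N : PvwNum) (h : ℝ) (z : ℂ) (τ : PvwTy) : Set (Set ℂ) := pvzkOutT N h z τ ∪ pvzkInT N h z τ

/-- the regions of a pattern -/
def pvzkPatT (π : PvwPat) : Set (Set ℂ) := {π.cs, π.ct, π.Yin, π.Ycol, π.Yout, π.Yreg}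

/-- the tests of a well formed datum -/
def pvzkOkT (N : PvwNum) (h : ℝ) (π : PvwPat) : Set (Set ℂ) := pvzkInT N h π.zs π.ts ∪ pvzkOutT N h π.zt π.tt ∪ pvzkPatT π

/-- the tests of an actual datum (largest boxes, outer gates) -/
def pvzkActT (N : PvwNum) (h : ℝ) (π : PvwPat) : Set (Set ℂ) :=
  pvzkGoodT N h (π.ts.cm h π.zs) ∪ pvzkGoodT N h (π.tt.cp h π.zt) ∪ {pvwSq π.zs (pvwRad N h π.ts N.K), pvwSq π.zt (pvwRad N h π.tt N.K)} ∪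
    (pvzkGateT h π.zs (π.ts.outer true) ∪ pvzkGateT h π.zt (π.tt.outer true))

theorem pvzk_eqns_cite2 : True := by
  have := @pvzkGateT.eq_1; have := @pvzkGoodT.eq_1; have := @pvzkOutT.eq_1; have := @pvzkInT.eq_1; have := @pvzkAtT.eq_1; have := @pvzkPatT.eq_1; have := @pvzkOkT.eq_1; have := @pvzkActT.eq_1
  trivial

theorem pvzk_sq_closed (z : ℂ) (r : ℝ) : IsClosed (pvwSq z r) := by
  have h1 : Continuous fun w : ℂ => |(w - z).re| := (Complex.continuous_re.comp (continuous_id.sub continuous_const)).abs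
  have h2 : Continuous fun w : ℂ => |(w - z).im| := (Complex.continuous_im.comp (continuous_id.sub continuous_const)).abs
  exact (isClosed_le h1 continuous_const).inter (isClosed_le h2 continuous_const)

theorem pvzk_sq_meas (z : ℂ) (r : ℝ) : MeasurableSet (pvwSq z r) := (pvzk_sq_closed z r).measurableSet

theorem pvzk_gateT_finite (h : ℝ) (z : ℂ) (τ : PvwTy) : (pvzkGateT h z τ).Finite := by
  unfold pvzkGateT
  exact Set.toFinite _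

theorem pvzk_goodT_finite (N : PvwNum) (h : ℝ) (y : ℂ) : (pvzkGoodT N h y).Finite := by
  unfold pvzkGoodT
  exact Set.toFinite _

theorem pvzk_outT_finite (N : PvwNum) (h : ℝ) (z : ℂ) (τ : PvwTy) : (pvzkOutT N h z τ).Finite :=
  ((pvzk_gateT_finite h z τ).union (finite_singleton _)).union (pvzk_goodT_finite N h _)

theorem pvzk_inT_finite (N : PvwNum) (h : ℝ) (z : ℂ) (τ : PvwTy) : (pvzkInT N h z τ).Finite :=
  ((pvzk_gateT_finite h z τ).union (finite_singleton _)).union (pvzk_goodT_finite N h _)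

theorem pvzk_atT_finite (N : PvwNum) (h : ℝ) (z : ℂ) (τ : PvwTy) : (pvzkAtT N h z τ).Finite := (pvzk_outT_finite N h z τ).union (pvzk_inT_finite N h z τ)

theorem pvzk_patT_finite (π : PvwPat) : (pvzkPatT π).Finite := by
  unfold pvzkPatT
  exact Set.toFinite _

theorem pvzk_okT_finite (N : PvwNum) (h : ℝ) (π : PvwPat) : (pvzkOkT N h π).Finite :=
  ((pvzk_inT_finite N h _ _).union (pvzk_outT_finite N h _ _)).union (pvzk_patT_finite π)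

theorem pvzk_actT_finite (N : PvwNum) (h : ℝ) (π : PvwPat) : (pvzkActT N h π).Finite :=
  (((pvzk_goodT_finite N h _).union (pvzk_goodT_finite N h _)).union (Set.toFinite _)).union ((pvzk_gateT_finite h _ _).union (pvzk_gateT_finite h _ _))

theorem pvzk_gateT_meas (h : ℝ) (z : ℂ) (τ : PvwTy) : ∀ A ∈ pvzkGateT h z τ, MeasurableSet A := by
  rintro A (rfl | rfl | rfl)
  exacts [measurableSet_ball, measurableSet_ball, measurableSet_closedBall]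

theorem pvzk_goodT_meas (N : PvwNum) (h : ℝ) (y : ℂ) : ∀ A ∈ pvzkGoodT N h y, MeasurableSet A := by
  rintro A (rfl | rfl | rfl | rfl)
  exacts [measurableSet_closedBall, measurableSet_ball, measurableSet_closedBall, measurableSet_closedBall]

theorem pvzk_outT_meas (N : PvwNum) (h : ℝ) (z : ℂ) (τ : PvwTy) : ∀ A ∈ pvzkOutT N h z τ, MeasurableSet A := by
  rintro A ((hA | rfl) | hA)
  exacts [pvzk_gateT_meas h z τ A hA, pvzk_sq_meas _ _, pvzk_goodT_meas N h _ A hA]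

theorem pvzk_inT_meas (N : PvwNum) (h : ℝ) (z : ℂ) (τ : PvwTy) : ∀ A ∈ pvzkInT N h z τ, MeasurableSet A := by
  rintro A ((hA | rfl) | hA)
  exacts [pvzk_gateT_meas h z τ A hA, pvzk_sq_meas _ _, pvzk_goodT_meas N h _ A hA]

theorem pvzk_atT_meas (N : PvwNum) (h : ℝ) (z : ℂ) (τ : PvwTy) : ∀ A ∈ pvzkAtT N h z τ, MeasurableSet A := by
  rintro A (hA | hA)
  exacts [pvzk_outT_meas N h z τ A hA, pvzk_inT_meas N h z τ A hA]

/-- the regions of the pattern are Borel -/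
structure PvzkPatMeas (π : PvwPat) : Prop where
  cs : MeasurableSet π.cs
  ct : MeasurableSet π.ct
  Yin : MeasurableSet π.Yin
  Ycol : MeasurableSet π.Ycol
  Yout : MeasurableSet π.Yout
  Yreg : MeasurableSet π.Yreg

theorem pvzk_patT_meas {π : PvwPat} (m : PvzkPatMeas π) : ∀ A ∈ pvzkPatT π, MeasurableSet A := by
  rintro A (rfl | rfl | rfl | rfl | rfl | rfl)
  exacts [m.cs, m.ct, m.Yin, m.Ycol, m.Yout, m.Yreg]

theorem pvzk_okT_meas (N : PvwNum) (h : ℝ) {π : PvwPat} (m : PvzkPatMeas π) : ∀ A ∈ pvzkOkT N h π, MeasurableSet A := by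
  rintro A ((hA | hA) | hA)
  exacts [pvzk_inT_meas N h _ _ A hA, pvzk_outT_meas N h _ _ A hA, pvzk_patT_meas m A hA]

theorem pvzk_actT_meas (N : PvwNum) (h : ℝ) (π : PvwPat) : ∀ A ∈ pvzkActT N h π, MeasurableSet A := by
  rintro A (((hA | hA) | (rfl | rfl)) | (hA | hA))
  exacts [pvzk_goodT_meas N h _ A hA, pvzk_goodT_meas N h _ A hA, pvzk_sq_meas _ _, pvzk_sq_meas _ _, pvzk_gateT_meas h _ _ A hA, pvzk_gateT_meas h _ _ A hA]

/-! ## 3. the states -/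

section states

variable {T : PvMap V D} {𝔖 : PvwSt T} {𝒜 ℳ : Set (Set ℂ)} {pos pos' : V → ℂ}

theorem pvzk_gate (H : PvzkSame 𝒜 ℳ pos pos') {h : ℝ} {z : ℂ} {τ : PvwTy} {s : V → Bool} (hT : pvzkGateT h z τ ⊆ 𝒜) (G : 𝔖.Gate pos h z τ s) :
    𝔖.Gate pos' h z τ s := by
  have ha : Metric.ball z (τ.a * h) ∈ 𝒜 := hT (by simp [pvzkGateT])
  have hb : Metric.ball z (τ.b * h) ∈ 𝒜 := hT (by simp [pvzkGateT])
  have hh : Metric.closedBall z h ∈ 𝒜 := hT (by simp [pvzkGateT])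
  exact
  { fin := G.fin
    dsc_eq := by
      rw [G.dsc_eq]
      ext v
      exact H.lt hb v
    core_fin := G.core_fin
    ann := fun v hv => ⟨(H.ge ha v).1 (G.ann v hv).1, (H.lt hb v).1 (G.ann v hv).2⟩
    round := fun v hv => G.round v ((H.lt ha v).2 hv)
    inside := fun v hv => (H.lt hb v).1 (G.inside v hv)
    dp_on := G.dp_on
    dm_on := G.dm_on
    bw_p := G.bw_p
    bw_m := G.bw_m
    ne := G.ne
    ori := G.ori.trans (H.lex _ _)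
    two := G.two
    left := G.left
    strand := G.strand
    ip_le := G.ip_le
    ip_near := (H.le hh _).1 G.ip_near
    ip_first := fun i hi => (H.gt hh _).1 (G.ip_first i hi) }

theorem pvzk_I (H : PvzkSame 𝒜 ℳ pos pos') {z : ℂ} {r : ℝ} (hA : Metric.ball z r ∈ 𝒜) : pvwI T pos z r = pvwI T pos' z r := by
  unfold pvwI
  congr 1
  ext v
  exact H.lt hA v

theorem pvzk_O (H : PvzkSame 𝒜 ℳ pos pos') {z : ℂ} {r : ℝ} (hA : Metric.ball z r ∈ 𝒜) : pvwO T pos z r = pvwO T pos' z r := by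
  unfold pvwO
  congr 2
  ext v
  exact H.ge hA v

theorem pvzk_inmost (H : PvzkSame 𝒜 ℳ pos pos') {h : ℝ} {z : ℂ} {τ : PvwTy} {s : V → Bool} (hT : pvzkGateT h z τ ⊆ 𝒜) (G : 𝔖.Inmost pos h z τ s) :
    𝔖.Inmost pos' h z τ s := by
  have ha : Metric.ball z (τ.a * h) ∈ 𝒜 := hT (by simp [pvzkGateT])
  have hb : Metric.ball z (τ.b * h) ∈ 𝒜 := hT (by simp [pvzkGateT])
  unfold PvwSt.Inmost at G ⊢
  rw [← pvzk_I H ha, ← pvzk_O H hb]
  exact G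

theorem pvzk_stubP (H : PvzkSame 𝒜 ℳ pos pos') {B : Set ℂ} {s : V → Bool} (hB : B ∈ 𝒜) (G : 𝔖.StubP pos B s) : 𝔖.StubP pos' B s :=
  ⟨G.ep_it, fun i hi => ⟨(H.one B hB _).1 (G.ep_in i hi).1, (H.one B hB _).1 (G.ep_in i hi).2⟩, fun i hi => (H.one B hB _).1 (G.ep_ax i hi),
    fun hh => G.ep_out ((H.one B hB _).2 hh)⟩

theorem pvzk_stubM (H : PvzkSame 𝒜 ℳ pos pos') {B : Set ℂ} {s : V → Bool} (hB : B ∈ 𝒜) (G : 𝔖.StubM pos B s) : 𝔖.StubM pos' B s :=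
  ⟨G.em_it, fun i hi => ⟨(H.one B hB _).1 (G.em_in i hi).1, (H.one B hB _).1 (G.em_in i hi).2⟩, fun i hi => (H.one B hB _).1 (G.em_ax i hi),
    fun hh => G.em_out ((H.one B hB _).2 hh)⟩

theorem pvzk_goodOut (H : PvzkSame 𝒜 ℳ pos pos') {N : PvwNum} {h : ℝ} {y : ℂ} (hT : pvzkGoodT N h y ⊆ 𝒜) (G : 𝔖.GoodOut pos N h y) : 𝔖.GoodOut pos' N h y := by
  have h1 : Metric.closedBall y (N.rho * h / 4) ∈ 𝒜 := hT (by simp [pvzkGoodT])
  have h2 : Metric.ball y (N.rho2 * h) ∈ 𝒜 := hT (by simp [pvzkGoodT])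
  have h3 : Metric.closedBall y (N.rho1 * h / 2) ∈ 𝒜 := hT (by simp [pvzkGoodT])
  obtain ⟨i₀, hi₀, ha, hb⟩ := G.late_p
  exact ⟨⟨(H.le h1 _).1 G.tip_p.1, (H.le h1 _).1 G.tip_p.2⟩,
    ⟨i₀, hi₀, fun i h0 hi => ⟨(H.lt h2 _).1 (ha i h0 hi).1, (H.lt h2 _).1 (ha i h0 hi).2⟩, fun i hi => ⟨(H.gt h3 _).1 (hb i hi).1, (H.gt h3 _).1 (hb i hi).2⟩⟩, G.off_p⟩

theorem pvzk_goodIn (H : PvzkSame 𝒜 ℳ pos pos') {N : PvwNum} {h : ℝ} {y : ℂ} (hT : pvzkGoodT N h y ⊆ 𝒜) (G : 𝔖.GoodIn pos N h y) : 𝔖.GoodIn pos' N h y := by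
  have h1 : Metric.closedBall y (N.rho * h / 4) ∈ 𝒜 := hT (by simp [pvzkGoodT])
  have h2 : Metric.ball y (N.rho2 * h) ∈ 𝒜 := hT (by simp [pvzkGoodT])
  have h3 : Metric.closedBall y (N.rho1 * h / 2) ∈ 𝒜 := hT (by simp [pvzkGoodT])
  obtain ⟨i₀, hi₀, ha, hb⟩ := G.late_m
  exact ⟨⟨(H.le h1 _).1 G.tip_m.1, (H.le h1 _).1 G.tip_m.2⟩,
    ⟨i₀, hi₀, fun i h0 hi => ⟨(H.lt h2 _).1 (ha i h0 hi).1, (H.lt h2 _).1 (ha i h0 hi).2⟩, fun i hi => ⟨(H.gt h3 _).1 (hb i hi).1, (H.gt h3 _).1 (hb i hi).2⟩⟩, G.off_m⟩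

theorem pvzk_atOut (H : PvzkSame 𝒜 ℳ pos pos') {N : PvwNum} {h : ℝ} {z : ℂ} {τ : PvwTy} {s : V → Bool} (hT : pvzkOutT N h z τ ⊆ 𝒜) (G : 𝔖.AtOut pos N h z τ s) :
    𝔖.AtOut pos' N h z τ s := by
  have h1 : pvzkGateT h z τ ⊆ 𝒜 := fun A hA => hT (Or.inl (Or.inl hA))
  exact ⟨pvzk_gate H h1 G.gate, pvzk_inmost H h1 G.inmost, pvzk_stubP H (hT (Or.inl (Or.inr rfl))) G.stub, pvzk_goodOut H (fun A hA => hT (Or.inr hA)) G.good, G.lev⟩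

theorem pvzk_atIn (H : PvzkSame 𝒜 ℳ pos pos') {N : PvwNum} {h : ℝ} {z : ℂ} {τ : PvwTy} {s : V → Bool} (hT : pvzkInT N h z τ ⊆ 𝒜) (G : 𝔖.AtIn pos N h z τ s) :
    𝔖.AtIn pos' N h z τ s := by
  have h1 : pvzkGateT h z τ ⊆ 𝒜 := fun A hA => hT (Or.inl (Or.inl hA))
  exact ⟨pvzk_gate H h1 G.gate, pvzk_inmost H h1 G.inmost, pvzk_stubM H (hT (Or.inl (Or.inr rfl))) G.stub, pvzk_goodIn H (fun A hA => hT (Or.inr hA)) G.good, G.lev⟩

theorem pvzk_at (H : PvzkSame 𝒜 ℳ pos pos') {N : PvwNum} {h : ℝ} {z : ℂ} {τ : PvwTy} {s : V → Bool} (hT : pvzkAtT N h z τ ⊆ 𝒜) (G : 𝔖.At pos N h z τ s) :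
    𝔖.At pos' N h z τ s := by
  have hp : Metric.closedBall (τ.cp h z) (2 * N.rho * h) ∈ 𝒜 := hT (Or.inl (Or.inr (by simp [pvzkGoodT])))
  have hm : Metric.closedBall (τ.cm h z) (2 * N.rho * h) ∈ 𝒜 := hT (Or.inr (Or.inr (by simp [pvzkGoodT])))
  exact ⟨pvzk_atOut H (fun A hA => hT (Or.inl hA)) G.out, pvzk_atIn H (fun A hA => hT (Or.inr hA)) G.inn, fun v hv => (H.gt hp v).1 (G.far_p v hv),
    fun v hv => (H.gt hm v).1 (G.far_m v hv)⟩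

theorem pvzk_pinOut (H : PvzkSame 𝒜 ℳ pos pos') {N : PvwNum} {h : ℝ} {y : ℂ} {BK : Set ℂ} {c : T.Cyc} {j : ℕ} (hy : pvzkGoodT N h y ⊆ 𝒜) (hB : BK ∈ 𝒜)
    (G : 𝔖.PinOut pos N h y BK c j) : 𝔖.PinOut pos' N h y BK c j := by
  have h1 : Metric.closedBall y (2 * N.rho * h) ∈ 𝒜 := hy (by simp [pvzkGoodT])
  obtain ⟨B, hB1, hB2, hB3⟩ := G.mouth_p
  exact ⟨G.run, B, hB1, fun i hi => (H.one BK hB _).1 (hB2 i hi), fun i hi hi' => (H.gt h1 _).1 (hB3 i hi hi')⟩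

theorem pvzk_pinIn (H : PvzkSame 𝒜 ℳ pos pos') {N : PvwNum} {h : ℝ} {y : ℂ} {BK : Set ℂ} {c : T.Cyc} {j : ℕ} (hy : pvzkGoodT N h y ⊆ 𝒜) (hB : BK ∈ 𝒜)
    (G : 𝔖.PinIn pos N h y BK c j) : 𝔖.PinIn pos' N h y BK c j := by
  have h1 : Metric.closedBall y (2 * N.rho * h) ∈ 𝒜 := hy (by simp [pvzkGoodT])
  obtain ⟨B, hB1, hB2, hB3⟩ := G.mouth_m
  exact ⟨G.run, B, hB1, fun i hi => (H.one BK hB _).1 (hB2 i hi), fun i hi hi' => (H.gt h1 _).1 (hB3 i hi hi')⟩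

theorem pvzk_gate_iff (H : PvzkSame 𝒜 ℳ pos pos') {h : ℝ} {z : ℂ} {τ : PvwTy} {s : V → Bool} (hT : pvzkGateT h z τ ⊆ 𝒜) : 𝔖.Gate pos h z τ s ↔ 𝔖.Gate pos' h z τ s :=
  ⟨pvzk_gate H hT, pvzk_gate H.symm hT⟩

theorem pvzk_atOut_iff (H : PvzkSame 𝒜 ℳ pos pos') {N : PvwNum} {h : ℝ} {z : ℂ} {τ : PvwTy} {s : V → Bool} (hT : pvzkOutT N h z τ ⊆ 𝒜) :
    𝔖.AtOut pos N h z τ s ↔ 𝔖.AtOut pos' N h z τ s := ⟨pvzk_atOut H hT, pvzk_atOut H.symm hT⟩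

theorem pvzk_atIn_iff (H : PvzkSame 𝒜 ℳ pos pos') {N : PvwNum} {h : ℝ} {z : ℂ} {τ : PvwTy} {s : V → Bool} (hT : pvzkInT N h z τ ⊆ 𝒜) :
    𝔖.AtIn pos N h z τ s ↔ 𝔖.AtIn pos' N h z τ s := ⟨pvzk_atIn H hT, pvzk_atIn H.symm hT⟩

theorem pvzk_at_iff (H : PvzkSame 𝒜 ℳ pos pos') {N : PvwNum} {h : ℝ} {z : ℂ} {τ : PvwTy} {s : V → Bool} (hT : pvzkAtT N h z τ ⊆ 𝒜) :
    𝔖.At pos N h z τ s ↔ 𝔖.At pos' N h z τ s := ⟨pvzk_at H hT, pvzk_at H.symm hT⟩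

end states

/-! ## 4. the data -/

section data

variable {T : PvMap V D} {𝔇 : PvwDat T} {𝒜 ℳ : Set (Set ℂ)} {pos pos' : V → ℂ} {π : PvwPat}

theorem pvzk_Yraw (H : PvzkSame 𝒜 ℳ pos pos') (hT : pvzkPatT π ⊆ 𝒜) : 𝔇.Yraw pos π = 𝔇.Yraw pos' π := by
  have h1 : π.Yin ∈ 𝒜 := hT (by simp [pvzkPatT])
  ext v
  exact and_congr_right fun _ => H.one _ h1 v

theorem pvzk_YCL (H : PvzkSame 𝒜 ℳ pos pos') (hT : pvzkPatT π ⊆ 𝒜) : 𝔇.YCL pos π = 𝔇.YCL pos' π := by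
  unfold PvwDat.YCL
  rw [pvzk_Yraw H hT]

theorem pvzk_Yr0 (H : PvzkSame 𝒜 ℳ pos pos') (hT : pvzkPatT π ⊆ 𝒜) : 𝔇.Yr0 pos π = 𝔇.Yr0 pos' π := by
  have h1 : π.Ycol ∈ 𝒜 := hT (by simp [pvzkPatT])
  ext v
  unfold PvwDat.Yr0
  rw [pvzk_Yraw H hT]
  exact and_congr_right fun _ => not_congr (H.one _ h1 v)

theorem pvzk_YC0 (H : PvzkSame 𝒜 ℳ pos pos') (hT : pvzkPatT π ⊆ 𝒜) : 𝔇.YC0 pos π = 𝔇.YC0 pos' π := by
  have h1 : π.Ycol ∈ 𝒜 := hT (by simp [pvzkPatT])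
  ext v
  unfold PvwDat.YC0
  rw [pvzk_Yr0 H hT]
  refine exists_congr fun a => and_congr_left fun _ => or_congr_right (or_congr_right (exists_congr fun w => and_congr_left fun _ => H.one _ h1 w))

theorem pvzk_NU (H : PvzkSame 𝒜 ℳ pos pos') (hT : pvzkPatT π ⊆ 𝒜) : 𝔇.NU pos π = 𝔇.NU pos' π := by
  have h1 : π.Ycol ∈ 𝒜 := hT (by simp [pvzkPatT])
  ext v
  unfold PvwDat.NU
  rw [pvzk_YC0 H hT]
  exact and_congr_right fun _ => not_congr (H.one _ h1 v)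

theorem pvzk_XCL (H : PvzkSame 𝒜 ℳ pos pos') (hT : pvzkPatT π ⊆ 𝒜) : 𝔇.XCL pos π = 𝔇.XCL pos' π := by
  unfold PvwDat.XCL
  rw [pvzk_YCL H hT]

theorem pvzk_Lam (H : PvzkSame 𝒜 ℳ pos pos') (hT : pvzkPatT π ⊆ 𝒜) : 𝔇.Lam pos π = 𝔇.Lam pos' π := by
  unfold PvwDat.Lam
  rw [pvzk_NU H hT]

theorem pvzk_ok (H : PvzkSame 𝒜 ℳ pos pos') {N : PvwNum} {h : ℝ} (hT : pvzkOkT N h π ⊆ 𝒜) (G : 𝔇.Ok pos N h π) : 𝔇.Ok pos' N h π := by
  have hP : pvzkPatT π ⊆ 𝒜 := fun A hA => hT (Or.inr hA)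
  have h1 : π.cs ∈ 𝒜 := hP (by simp [pvzkPatT])
  have h2 : π.ct ∈ 𝒜 := hP (by simp [pvzkPatT])
  have h3 : π.Yreg ∈ 𝒜 := hP (by simp [pvzkPatT])
  have h4 : π.Yin ∈ 𝒜 := hP (by simp [pvzkPatT])
  exact
  { st_s := pvzk_atIn H (fun A hA => hT (Or.inl (Or.inl hA))) G.st_s
    st_t := pvzk_atOut H (fun A hA => hT (Or.inl (Or.inr hA))) G.st_t
    tip_s := (H.one _ h1 _).1 G.tip_s
    tip_t := (H.one _ h2 _).1 G.tip_t
    g0 := G.g0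
    g1 := G.g1
    pos_n := G.pos_n
    out := G.out
    off := fun v hv hh => G.off v hv ((H.one _ h3 v).2 hh)
    disj := G.disj
    off_y := by
      rw [← pvzk_NU H hP]
      exact G.off_y
    tip_f := G.tip_f
    cons_b := G.cons_b
    cons_w := G.cons_w
    cons_a := G.cons_a
    core_off := fun v hv hh => G.core_off v hv ((H.one _ h4 v).2 hh) }

theorem pvzk_ok_iff (H : PvzkSame 𝒜 ℳ pos pos') {N : PvwNum} {h : ℝ} (hT : pvzkOkT N h π ⊆ 𝒜) : 𝔇.Ok pos N h π ↔ 𝔇.Ok pos' N h π :=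
  ⟨pvzk_ok H hT, pvzk_ok H.symm hT⟩

theorem pvzk_nb_iff (H : PvzkSame 𝒜 ℳ pos pos') (hT : pvzkPatT π ⊆ 𝒜) (σ : V → Bool) : 𝔇.NB pos π σ ↔ 𝔇.NB pos' π σ := by
  unfold PvwDat.NB
  rw [pvzk_NU H hT, pvzk_Lam H hT]

theorem pvzk_nbsec_iff (H : PvzkSame 𝒜 ℳ pos pos') (hT : pvzkPatT π ⊆ 𝒜) (σ : V → Bool) : 𝔇.NBsec pos π σ ↔ 𝔇.NBsec pos' π σ := by
  unfold PvwDat.NBsec
  rw [pvzk_YCL H hT]

theorem pvzk_wo_iff (H : PvzkSame 𝒜 ℳ pos pos') (hT : pvzkPatT π ⊆ 𝒜) (σ : V → Bool) : 𝔇.WO pos π σ ↔ 𝔇.WO pos' π σ := by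
  have h1 : π.Yout ∈ 𝒜 := hT (by simp [pvzkPatT])
  unfold PvwDat.WO
  rw [pvzk_XCL H hT]
  refine exists_congr fun q => and_congr_right fun _ => and_congr_right fun _ => forall_congr' fun x => imp_congr_right fun _ => and_congr_right fun _ =>
    and_congr_left fun _ => H.one _ h1 x

theorem pvzk_syn_iff (H : PvzkSame 𝒜 ℳ pos pos') (hT : pvzkPatT π ⊆ 𝒜) (σ : V → Bool) (n : ℕ) : 𝔇.SYn pos π σ n ↔ 𝔇.SYn pos' π σ n := by
  have h1 : π.Yin ∈ 𝒜 := hT (by simp [pvzkPatT])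
  unfold PvwDat.SYn
  rw [pvzk_YCL H hT]
  refine and_congr_right fun _ => and_congr_right fun _ => and_congr_right fun _ => forall_congr' fun i => imp_congr_right fun _ => imp_congr_right fun _ =>
    and_congr_right fun _ => and_congr_right fun _ => and_congr (H.one _ h1 _) (H.one _ h1 _)

theorem pvzk_sy_iff (H : PvzkSame 𝒜 ℳ pos pos') (hT : pvzkPatT π ⊆ 𝒜) (σ : V → Bool) : 𝔇.SY pos π σ ↔ 𝔇.SY pos' π σ :=
  exists_congr fun n => pvzk_syn_iff H hT σ n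

theorem pvzk_yarc_iff (H : PvzkSame 𝒜 ℳ pos pos') (hT : pvzkPatT π ⊆ 𝒜) (σ : V → Bool) (y : T.Pth) : 𝔇.YArc pos π σ y ↔ 𝔇.YArc pos' π σ y :=
  exists_congr fun n => and_congr_left fun _ => pvzk_syn_iff H hT σ n

theorem pvzk_gateT_outer (h : ℝ) (z : ℂ) (τ : PvwTy) (o : Bool) : pvzkGateT h z (τ.outer o) = pvzkGateT h z (τ.outer true) := rfl

theorem pvzk_actual (H : PvzkSame 𝒜 ℳ pos pos') {N : PvwNum} {h : ℝ} (hT : pvzkActT N h π ⊆ 𝒜) {σ : V → Bool} {c : T.Cyc} {j : ℕ} (G : 𝔇.Actual pos N h π σ c j) :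
    𝔇.Actual pos' N h π σ c j := by
  obtain ⟨S₁, o₁, G₁⟩ := G.out_s
  obtain ⟨S₂, o₂, G₂⟩ := G.out_t
  exact
  { cyl := G.cyl
    rim := G.rim
    black := G.black
    pin_s := pvzk_pinIn H (fun A hA => hT (Or.inl (Or.inl (Or.inl hA)))) (hT (Or.inl (Or.inr (Or.inl rfl)))) G.pin_s
    arc := G.arc
    pin_t := pvzk_pinOut H (fun A hA => hT (Or.inl (Or.inl (Or.inr hA)))) (hT (Or.inl (Or.inr (Or.inr rfl)))) G.pin_t
    out_s := ⟨S₁, o₁, pvzk_gate H (by rw [pvzk_gateT_outer]; exact fun A hA => hT (Or.inr (Or.inl hA))) G₁⟩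
    out_t := ⟨S₂, o₂, pvzk_gate H (by rw [pvzk_gateT_outer]; exact fun A hA => hT (Or.inr (Or.inr hA))) G₂⟩ }

theorem pvzk_actual_iff (H : PvzkSame 𝒜 ℳ pos pos') {N : PvwNum} {h : ℝ} (hT : pvzkActT N h π ⊆ 𝒜) (σ : V → Bool) (c : T.Cyc) (j : ℕ) :
    𝔇.Actual pos N h π σ c j ↔ 𝔇.Actual pos' N h π σ c j := ⟨pvzk_actual H hT, pvzk_actual H.symm hT⟩

end data

/-! ## 5. the state with tip cells and masks; links      (the text of `Tr/InstE` sec. 1-2 on an abstract positioned coloured map) -/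

/-- **the text of `PvieAt` (= `PvxAt`) without `DelGood`** -/
structure PvzkAtM (T : PvMap V D) (pos : V → ℂ) (s : V → Bool) (N : PvwNum) (p : PviePl) (𝔖 : PvwSt T) : Prop where
  st : 𝔖.At pos N p.h p.z p.ty s
  tip_p : pos (T.src (𝔖.ep 𝔖.np)) ∈ p.cp
  tip_m : pos (T.src (𝔖.em 𝔖.nm)) ∈ p.cm
  mask_p : ∀ y : T.Pth, PvwLE T (fun i => T.src (𝔖.ep i)) 𝔖.np y → ∀ v ∈ y.verts, pos v ∈ p.Mp
  mask_m : ∀ y : T.Pth, PvwLE T (fun i => T.src (𝔖.em i)) 𝔖.nm y → ∀ v ∈ y.verts, pos v ∈ p.Mm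
  inn_p : ∀ i, 𝔖.ip ≤ i → i ≤ 𝔖.inn.n → (N.m - 1) * p.h < ‖pos (𝔖.inn.v i) - p.z‖ → pos (𝔖.inn.v i) ∈ p.Mp
  inn_m : ∀ i, i ≤ 𝔖.ip → (N.m - 1) * p.h < ‖pos (𝔖.inn.v i) - p.z‖ → pos (𝔖.inn.v i) ∈ p.Mm
  lev0 : p.lev

/-- the EXIT HALF of it (ruling T7 (3): half states) -/
structure PvzkOutM (T : PvMap V D) (pos : V → ℂ) (s : V → Bool) (N : PvwNum) (p : PviePl) (𝔖 : PvwSt T) : Prop where
  st : 𝔖.AtOut pos N p.h p.z p.ty s
  tip_p : pos (T.src (𝔖.ep 𝔖.np)) ∈ p.cp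
  mask_p : ∀ y : T.Pth, PvwLE T (fun i => T.src (𝔖.ep i)) 𝔖.np y → ∀ v ∈ y.verts, pos v ∈ p.Mp
  inn_p : ∀ i, 𝔖.ip ≤ i → i ≤ 𝔖.inn.n → (N.m - 1) * p.h < ‖pos (𝔖.inn.v i) - p.z‖ → pos (𝔖.inn.v i) ∈ p.Mp
  lev0 : p.lev

/-- the ENTRANCE HALF of it -/
structure PvzkInM (T : PvMap V D) (pos : V → ℂ) (s : V → Bool) (N : PvwNum) (p : PviePl) (𝔖 : PvwSt T) : Prop where
  st : 𝔖.AtIn pos N p.h p.z p.ty s
  tip_m : pos (T.src (𝔖.em 𝔖.nm)) ∈ p.cm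
  mask_m : ∀ y : T.Pth, PvwLE T (fun i => T.src (𝔖.em i)) 𝔖.nm y → ∀ v ∈ y.verts, pos v ∈ p.Mm
  inn_m : ∀ i, i ≤ 𝔖.ip → (N.m - 1) * p.h < ‖pos (𝔖.inn.v i) - p.z‖ → pos (𝔖.inn.v i) ∈ p.Mm
  lev0 : p.lev

/-- the text of `PvieLk.Run` -/
def PvzkRun (T : PvMap V D) (pos : V → ℂ) (s : V → Bool) (Yin : Set ℂ) (𝔖 𝔖' : PvwSt T) (n : ℕ) : Prop :=
  𝔖.np + 𝔖'.nm ≤ n ∧ pvasIt T s 𝔖.dp n = 𝔖'.dm ∧ (∀ i, i < n → pvasIt T s 𝔖.dp i ≠ 𝔖'.dm) ∧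
    ∀ i, 𝔖.np < i → i + 𝔖'.nm < n → pos (T.src (pvasIt T s 𝔖.dp i)) ∈ Yin ∧ pos (T.tgt (pvasIt T s 𝔖.dp i)) ∈ Yin

/-- the text of `PvieLk.Arc` -/
structure PvzkArc (T : PvMap V D) (pos : V → ℂ) (s : V → Bool) (N : PvwNum) (L : PvieLk) (𝔖 𝔖' : PvwSt T) (y : T.Pth) : Prop where
  at_p : PvzkAtM T pos s N L.p 𝔖
  at_p' : PvzkAtM T pos s N L.p' 𝔖'
  run : ∃ n, PvzkRun T pos s L.Yin 𝔖 𝔖' n ∧ PvwLE T (fun i => T.src (pvasIt T s 𝔖.dp i)) n y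

/-- the same with HALF states: exit half of `p`, entrance half of `p'` -/
structure PvzkArcH (T : PvMap V D) (pos : V → ℂ) (s : V → Bool) (N : PvwNum) (L : PvieLk) (𝔖 𝔖' : PvwSt T) (y : T.Pth) : Prop where
  at_p : PvzkOutM T pos s N L.p 𝔖
  at_p' : PvzkInM T pos s N L.p' 𝔖'
  run : ∃ n, PvzkRun T pos s L.Yin 𝔖 𝔖' n ∧ PvwLE T (fun i => T.src (pvasIt T s 𝔖.dp i)) n y

/-- **the darts of the four masses of `PvieLk.val`** (NO position):   `0` the whole inner arc of `p`,   `1` the inner arc of `p` from its mark,   `2` the arc `y`,   `3` the inner arc of `p'` up to its mark -/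
def PvzkSel (T : PvMap V D) (𝔖 𝔖' : PvwSt T) (y : T.Pth) (j : Fin 4) (d : D) : Prop :=
  (j = 0 ∧ ∃ k, k < 𝔖.inn.n ∧ d = T.opp (𝔖.inn.e k)) ∨ (j = 1 ∧ ∃ k, 𝔖.ip ≤ k ∧ k < 𝔖.inn.n ∧ d = T.opp (𝔖.inn.e k)) ∨
    (j = 2 ∧ ∃ k, k < y.n ∧ d = T.opp (y.e k)) ∨ (j = 3 ∧ ∃ k, k < 𝔖'.ip ∧ d = T.opp (𝔖'.inn.e k))

/-- `Φ_U`: the state of the placed plug exists -/
def pvzkU (N : PvwNum) (p : PviePl) : PvplPred ℂ := fun _ _ T pos s => ∃ 𝔖 : PvwSt T, PvzkAtM T pos s N p 𝔖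
/-- the exit half state exists -/
def pvzkUo (N : PvwNum) (p : PviePl) : PvplPred ℂ := fun _ _ T pos s => ∃ 𝔖 : PvwSt T, PvzkOutM T pos s N p 𝔖
/-- the entrance half state exists -/
def pvzkUi (N : PvwNum) (p : PviePl) : PvplPred ℂ := fun _ _ T pos s => ∃ 𝔖 : PvwSt T, PvzkInM T pos s N p 𝔖
/-- `Φ_A`: the link succeeds -/
def pvzkA (N : PvwNum) (L : PvieLk) : PvplPred ℂ := fun _ _ T pos s => ∃ (𝔖 𝔖' : PvwSt T) (y : T.Pth), PvzkArc T pos s N L 𝔖 𝔖' y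
/-- the link succeeds, half states -/
def pvzkAh (N : PvwNum) (L : PvieLk) : PvplPred ℂ := fun _ _ T pos s => ∃ (𝔖 𝔖' : PvwSt T) (y : T.Pth), PvzkArcH T pos s N L 𝔖 𝔖' y
/-- `Φ_X j`: `d` is a dart of the `j`-th mass of the link      (a `PvxsPred` of `Tr/MeasE`) -/
def pvzkX (N : PvwNum) (L : PvieLk) (j : Fin 4) : ∀ V D : Type, PvMap V D → (V → ℂ) → (V → Bool) → D → Prop :=
  fun _ _ T pos s d => ∃ (𝔖 𝔖' : PvwSt T) (y : T.Pth), PvzkArc T pos s N L 𝔖 𝔖' y ∧ PvzkSel T 𝔖 𝔖' y j d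
/-- the same, half states -/
def pvzkXh (N : PvwNum) (L : PvieLk) (j : Fin 4) : ∀ V D : Type, PvMap V D → (V → ℂ) → (V → Bool) → D → Prop :=
  fun _ _ T pos s d => ∃ (𝔖 𝔖' : PvwSt T) (y : T.Pth), PvzkArcH T pos s N L 𝔖 𝔖' y ∧ PvzkSel T 𝔖 𝔖' y j d

/-- the one-point tests of a placed plug -/
def pvzkPlT (N : PvwNum) (p : PviePl) : Set (Set ℂ) := pvzkAtT N p.h p.z p.ty ∪ {p.Mp, p.Mm, p.cp, p.cm, Metric.closedBall p.z ((N.m - 1) * p.h)}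
/-- the mid-point tests of a placed plug: NONE since `Defs/TrModel` v4 (the tips are tested at their black ends) -/
def pvzkPlM (_p : PviePl) : Set (Set ℂ) := ∅
/-- the one-point tests of a link -/
def pvzkLkT (N : PvwNum) (L : PvieLk) : Set (Set ℂ) := pvzkPlT N L.p ∪ pvzkPlT N L.p' ∪ {L.Yin}
/-- the mid-point tests of a link -/
def pvzkLkM (L : PvieLk) : Set (Set ℂ) := pvzkPlM L.p ∪ pvzkPlM L.p'

theorem pvzk_eqns_cite3 : True := by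
  have := @PvzkRun.eq_1; have := @PvzkSel.eq_1; have := @pvzkU.eq_1; have := @pvzkUo.eq_1; have := @pvzkUi.eq_1; have := @pvzkA.eq_1; have := @pvzkAh.eq_1; have := @pvzkX.eq_1; have := @pvzkXh.eq_1
  have := @pvzkPlT.eq_1; have := @pvzkPlM.eq_1; have := @pvzkLkT.eq_1; have := @pvzkLkM.eq_1
  trivial

/-- the cells and the masks of the plug are Borel -/
structure PvzkPlMeas (p : PviePl) : Prop where
  cp : MeasurableSet p.cp
  cm : MeasurableSet p.cm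
  Mp : MeasurableSet p.Mp
  Mm : MeasurableSet p.Mm

theorem pvzk_plT_finite (N : PvwNum) (p : PviePl) : (pvzkPlT N p).Finite := (pvzk_atT_finite N _ _ _).union (Set.toFinite _)
theorem pvzk_plM_finite (p : PviePl) : (pvzkPlM p).Finite := by
  unfold pvzkPlM
  exact Set.toFinite _
theorem pvzk_lkT_finite (N : PvwNum) (L : PvieLk) : (pvzkLkT N L).Finite := ((pvzk_plT_finite N _).union (pvzk_plT_finite N _)).union (finite_singleton _)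
theorem pvzk_lkM_finite (L : PvieLk) : (pvzkLkM L).Finite := (pvzk_plM_finite _).union (pvzk_plM_finite _)

theorem pvzk_plT_meas (N : PvwNum) {p : PviePl} (m : PvzkPlMeas p) : ∀ A ∈ pvzkPlT N p, MeasurableSet A := by
  rintro A (hA | rfl | rfl | rfl | rfl | rfl)
  exacts [pvzk_atT_meas N _ _ _ A hA, m.Mp, m.Mm, m.cp, m.cm, measurableSet_closedBall]
theorem pvzk_plM_meas {p : PviePl} (_m : PvzkPlMeas p) : ∀ A ∈ pvzkPlM p, MeasurableSet A := fun _ hA => absurd hA (Set.notMem_empty _)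
theorem pvzk_lkT_meas (N : PvwNum) {L : PvieLk} (m : PvzkPlMeas L.p) (m' : PvzkPlMeas L.p') (mY : MeasurableSet L.Yin) : ∀ A ∈ pvzkLkT N L, MeasurableSet A := by
  rintro A ((hA | hA) | rfl)
  exacts [pvzk_plT_meas N m A hA, pvzk_plT_meas N m' A hA, mY]
theorem pvzk_lkM_meas {L : PvieLk} (m : PvzkPlMeas L.p) (m' : PvzkPlMeas L.p') : ∀ A ∈ pvzkLkM L, MeasurableSet A := by
  rintro A (hA | hA)
  exacts [pvzk_plM_meas m A hA, pvzk_plM_meas m' A hA]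

section model

variable {T : PvMap V D} {𝔖 𝔖' : PvwSt T} {𝒜 ℳ : Set (Set ℂ)} {pos pos' : V → ℂ} {s : V → Bool} {N : PvwNum}

theorem pvzk_plT_mem (N : PvwNum) (p : PviePl) : p.Mp ∈ pvzkPlT N p ∧ p.Mm ∈ pvzkPlT N p ∧ p.cp ∈ pvzkPlT N p ∧ p.cm ∈ pvzkPlT N p ∧ Metric.closedBall p.z ((N.m - 1) * p.h) ∈ pvzkPlT N p :=
  ⟨Or.inr (by simp), Or.inr (by simp), Or.inr (by simp), Or.inr (by simp), Or.inr (by simp)⟩

theorem pvzk_atM (H : PvzkSame 𝒜 ℳ pos pos') {p : PviePl} (hT : pvzkPlT N p ⊆ 𝒜) (_hM : pvzkPlM p ⊆ ℳ) (G : PvzkAtM T pos s N p 𝔖) : PvzkAtM T pos' s N p 𝔖 := by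
  obtain ⟨h1, h2, h3, h4, h5⟩ := pvzk_plT_mem N p
  exact ⟨pvzk_at H (fun A hA => hT (Or.inl hA)) G.st, (H.one p.cp (hT h3) _).1 G.tip_p, (H.one p.cm (hT h4) _).1 G.tip_m,
    fun y hy v hv => (H.one p.Mp (hT h1) v).1 (G.mask_p y hy v hv), fun y hy v hv => (H.one p.Mm (hT h2) v).1 (G.mask_m y hy v hv),
    fun i hi hi' hh => (H.one p.Mp (hT h1) _).1 (G.inn_p i hi hi' ((H.gt (hT h5) _).2 hh)), fun i hi hh => (H.one p.Mm (hT h2) _).1 (G.inn_m i hi ((H.gt (hT h5) _).2 hh)), G.lev0⟩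

theorem pvzk_outM (H : PvzkSame 𝒜 ℳ pos pos') {p : PviePl} (hT : pvzkPlT N p ⊆ 𝒜) (_hM : pvzkPlM p ⊆ ℳ) (G : PvzkOutM T pos s N p 𝔖) : PvzkOutM T pos' s N p 𝔖 := by
  obtain ⟨h1, -, h3, -, h5⟩ := pvzk_plT_mem N p
  exact ⟨pvzk_atOut H (fun A hA => hT (Or.inl (Or.inl hA))) G.st, (H.one p.cp (hT h3) _).1 G.tip_p, fun y hy v hv => (H.one p.Mp (hT h1) v).1 (G.mask_p y hy v hv),
    fun i hi hi' hh => (H.one p.Mp (hT h1) _).1 (G.inn_p i hi hi' ((H.gt (hT h5) _).2 hh)), G.lev0⟩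

theorem pvzk_inM (H : PvzkSame 𝒜 ℳ pos pos') {p : PviePl} (hT : pvzkPlT N p ⊆ 𝒜) (_hM : pvzkPlM p ⊆ ℳ) (G : PvzkInM T pos s N p 𝔖) : PvzkInM T pos' s N p 𝔖 := by
  obtain ⟨-, h2, -, h4, h5⟩ := pvzk_plT_mem N p
  exact ⟨pvzk_atIn H (fun A hA => hT (Or.inl (Or.inr hA))) G.st, (H.one p.cm (hT h4) _).1 G.tip_m, fun y hy v hv => (H.one p.Mm (hT h2) v).1 (G.mask_m y hy v hv),
    fun i hi hh => (H.one p.Mm (hT h2) _).1 (G.inn_m i hi ((H.gt (hT h5) _).2 hh)), G.lev0⟩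

theorem pvzk_run_iff (H : PvzkSame 𝒜 ℳ pos pos') {Yin : Set ℂ} (hY : Yin ∈ 𝒜) (n : ℕ) : PvzkRun T pos s Yin 𝔖 𝔖' n ↔ PvzkRun T pos' s Yin 𝔖 𝔖' n :=
  and_congr_right fun _ => and_congr_right fun _ => and_congr_right fun _ => forall_congr' fun _ => imp_congr_right fun _ => imp_congr_right fun _ =>
    and_congr (H.one _ hY _) (H.one _ hY _)

theorem pvzk_arc (H : PvzkSame 𝒜 ℳ pos pos') {L : PvieLk} (hT : pvzkLkT N L ⊆ 𝒜) (hM : pvzkLkM L ⊆ ℳ) {y : T.Pth} (G : PvzkArc T pos s N L 𝔖 𝔖' y) :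
    PvzkArc T pos' s N L 𝔖 𝔖' y := by
  obtain ⟨n, h1, h2⟩ := G.run
  exact ⟨pvzk_atM H (fun A hA => hT (Or.inl (Or.inl hA))) (fun A hA => hM (Or.inl hA)) G.at_p,
    pvzk_atM H (fun A hA => hT (Or.inl (Or.inr hA))) (fun A hA => hM (Or.inr hA)) G.at_p', n, (pvzk_run_iff H (hT (Or.inr rfl)) n).1 h1, h2⟩

theorem pvzk_arcH (H : PvzkSame 𝒜 ℳ pos pos') {L : PvieLk} (hT : pvzkLkT N L ⊆ 𝒜) (hM : pvzkLkM L ⊆ ℳ) {y : T.Pth} (G : PvzkArcH T pos s N L 𝔖 𝔖' y) :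
    PvzkArcH T pos' s N L 𝔖 𝔖' y := by
  obtain ⟨n, h1, h2⟩ := G.run
  exact ⟨pvzk_outM H (fun A hA => hT (Or.inl (Or.inl hA))) (fun A hA => hM (Or.inl hA)) G.at_p,
    pvzk_inM H (fun A hA => hT (Or.inl (Or.inr hA))) (fun A hA => hM (Or.inr hA)) G.at_p', n, (pvzk_run_iff H (hT (Or.inr rfl)) n).1 h1, h2⟩

/-- **(C) for `Φ_U`** -/
theorem pvzk_U_iff (H : PvzkSame 𝒜 ℳ pos pos') {p : PviePl} (hT : pvzkPlT N p ⊆ 𝒜) (hM : pvzkPlM p ⊆ ℳ) : pvzkU N p V D T pos s ↔ pvzkU N p V D T pos' s :=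
  exists_congr fun _ => ⟨pvzk_atM H hT hM, pvzk_atM H.symm hT hM⟩

theorem pvzk_Uo_iff (H : PvzkSame 𝒜 ℳ pos pos') {p : PviePl} (hT : pvzkPlT N p ⊆ 𝒜) (hM : pvzkPlM p ⊆ ℳ) : pvzkUo N p V D T pos s ↔ pvzkUo N p V D T pos' s :=
  exists_congr fun _ => ⟨pvzk_outM H hT hM, pvzk_outM H.symm hT hM⟩

theorem pvzk_Ui_iff (H : PvzkSame 𝒜 ℳ pos pos') {p : PviePl} (hT : pvzkPlT N p ⊆ 𝒜) (hM : pvzkPlM p ⊆ ℳ) : pvzkUi N p V D T pos s ↔ pvzkUi N p V D T pos' s :=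
  exists_congr fun _ => ⟨pvzk_inM H hT hM, pvzk_inM H.symm hT hM⟩

/-- **(C) for `Φ_A`** -/
theorem pvzk_A_iff (H : PvzkSame 𝒜 ℳ pos pos') {L : PvieLk} (hT : pvzkLkT N L ⊆ 𝒜) (hM : pvzkLkM L ⊆ ℳ) : pvzkA N L V D T pos s ↔ pvzkA N L V D T pos' s :=
  exists_congr fun _ => exists_congr fun _ => exists_congr fun _ => ⟨pvzk_arc H hT hM, pvzk_arc H.symm hT hM⟩

theorem pvzk_Ah_iff (H : PvzkSame 𝒜 ℳ pos pos') {L : PvieLk} (hT : pvzkLkT N L ⊆ 𝒜) (hM : pvzkLkM L ⊆ ℳ) : pvzkAh N L V D T pos s ↔ pvzkAh N L V D T pos' s :=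
  exists_congr fun _ => exists_congr fun _ => exists_congr fun _ => ⟨pvzk_arcH H hT hM, pvzk_arcH H.symm hT hM⟩

/-- **(C) for `Φ_X j`** -/
theorem pvzk_X_iff (H : PvzkSame 𝒜 ℳ pos pos') {L : PvieLk} (hT : pvzkLkT N L ⊆ 𝒜) (hM : pvzkLkM L ⊆ ℳ) (j : Fin 4) (d : D) :
    pvzkX N L j V D T pos s d ↔ pvzkX N L j V D T pos' s d :=
  exists_congr fun _ => exists_congr fun _ => exists_congr fun _ => and_congr_left fun _ => ⟨pvzk_arc H hT hM, pvzk_arc H.symm hT hM⟩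

theorem pvzk_Xh_iff (H : PvzkSame 𝒜 ℳ pos pos') {L : PvieLk} (hT : pvzkLkT N L ⊆ 𝒜) (hM : pvzkLkM L ⊆ ℳ) (j : Fin 4) (d : D) :
    pvzkXh N L j V D T pos s d ↔ pvzkXh N L j V D T pos' s d :=
  exists_congr fun _ => exists_congr fun _ => exists_congr fun _ => and_congr_left fun _ => ⟨pvzk_arcH H hT hM, pvzk_arcH H.symm hT hM⟩

end model

/-! ### the dictionary with `Tr/InstE` -/

theorem pvzk_at_model (N : PvwNum) (b : Bool) (p : PviePl) (η : Conf PvPt) (𝔖 : PvwSt (pvieT η)) :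
    PvieAt N b p η 𝔖 ↔ DelGood (pvieY η) ∧ PvzkAtM (pvieT η) (pviePos η) (pvieCol η b) N p 𝔖 :=
  ⟨fun h => ⟨h.good, h.st, h.tip_p, h.tip_m, h.mask_p, h.mask_m, h.inn_p, h.inn_m, h.lev0⟩,
    fun h => ⟨h.1, h.2.st, h.2.tip_p, h.2.tip_m, h.2.mask_p, h.2.mask_m, h.2.inn_p, h.2.inn_m, h.2.lev0⟩⟩

theorem pvzk_U_model (N : PvwNum) (b : Bool) (p : PviePl) (η : Conf PvPt) :
    η ∈ pvieU N b p ↔ DelGood (pvieY η) ∧ pvzkU N p _ _ (pvieT η) (pviePos η) (pvieCol η b) :=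
  ⟨fun ⟨𝔖, h⟩ => ⟨h.good, 𝔖, ((pvzk_at_model N b p η 𝔖).1 h).2⟩, fun ⟨g, 𝔖, h⟩ => ⟨𝔖, (pvzk_at_model N b p η 𝔖).2 ⟨g, h⟩⟩⟩

theorem pvzk_run_model (L : PvieLk) (b : Bool) (η : Conf PvPt) (𝔖 𝔖' : PvwSt (pvieT η)) (n : ℕ) :
    L.Run b η 𝔖 𝔖' n ↔ PvzkRun (pvieT η) (pviePos η) (pvieCol η b) L.Yin 𝔖 𝔖' n := Iff.rfl

theorem pvzk_arc_model (L : PvieLk) (N : PvwNum) (b : Bool) (η : Conf PvPt) (𝔖 𝔖' : PvwSt (pvieT η)) (y : (pvieT η).Pth) :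
    L.Arc N b η 𝔖 𝔖' y ↔ DelGood (pvieY η) ∧ PvzkArc (pvieT η) (pviePos η) (pvieCol η b) N L 𝔖 𝔖' y :=
  ⟨fun h => ⟨h.at_p.good, ((pvzk_at_model N b _ η 𝔖).1 h.at_p).2, ((pvzk_at_model N b _ η 𝔖').1 h.at_p').2, h.run⟩,
    fun h => ⟨(pvzk_at_model N b _ η 𝔖).2 ⟨h.1, h.2.at_p⟩, (pvzk_at_model N b _ η 𝔖').2 ⟨h.1, h.2.at_p'⟩, h.2.run⟩⟩

theorem pvzk_A_model (L : PvieLk) (N : PvwNum) (b : Bool) (η : Conf PvPt) :
    η ∈ L.A N b ↔ DelGood (pvieY η) ∧ pvzkA N L _ _ (pvieT η) (pviePos η) (pvieCol η b) :=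
  ⟨fun ⟨𝔖, 𝔖', y, h⟩ => ⟨h.at_p.good, 𝔖, 𝔖', y, ((pvzk_arc_model L N b η 𝔖 𝔖' y).1 h).2⟩,
    fun ⟨g, 𝔖, 𝔖', y, h⟩ => ⟨𝔖, 𝔖', y, (pvzk_arc_model L N b η 𝔖 𝔖' y).2 ⟨g, h⟩⟩⟩

/-! ## 6. the bundle of the tests -/

/-- **ONE TEST**: the pair `(x 0, x 1)` ↦ (the one-point tests passed by `x 0`, the mid-point tests passed by the pair, the lexicographic comparison) -/
def pvzkTau (𝒜 ℳ : Set (Set ℂ)) (x : Fin 2 → ℂ) : Set 𝒜 × Set ℳ × Prop := ({A | x 0 ∈ A.1}, {A | (x 0 + x 1) / 2 ∈ A.1}, PvzkLex (x 0) (x 1))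

theorem pvzk_eqns_cite4 : True := by
  have := @pvzkTau.eq_1
  trivial

theorem pvzk_tau_finite {𝒜 ℳ : Set (Set ℂ)} (h1 : 𝒜.Finite) (h2 : ℳ.Finite) : Finite (Set 𝒜 × Set ℳ × Prop) := by
  have := h1.to_subtype
  have := h2.to_subtype
  infer_instance

theorem pvzk_lex_meas : MeasurableSet {x : Fin 2 → ℂ | PvzkLex (x 0) (x 1)} := by
  have r0 : Measurable fun x : Fin 2 → ℂ => (x 0).re := Complex.measurable_re.comp (measurable_pi_apply 0)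
  have r1 : Measurable fun x : Fin 2 → ℂ => (x 1).re := Complex.measurable_re.comp (measurable_pi_apply 1)
  have i0 : Measurable fun x : Fin 2 → ℂ => (x 0).im := Complex.measurable_im.comp (measurable_pi_apply 0)
  have i1 : Measurable fun x : Fin 2 → ℂ => (x 1).im := Complex.measurable_im.comp (measurable_pi_apply 1)
  exact (measurableSet_lt r0 r1).union ((measurableSet_eq_fun r0 r1).inter (measurableSet_lt i0 i1))

/-- the fibres of the bundle are Borel -/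
theorem pvzk_tau_meas {𝒜 ℳ : Set (Set ℂ)} (h1 : 𝒜.Countable) (h2 : ℳ.Countable) (m1 : ∀ A ∈ 𝒜, MeasurableSet A) (m2 : ∀ A ∈ ℳ, MeasurableSet A)
    (k : Set 𝒜 × Set ℳ × Prop) : MeasurableSet (pvzkTau 𝒜 ℳ ⁻¹' {k}) := by
  have := h1.to_subtype
  have := h2.to_subtype
  obtain ⟨S₁, S₂, p⟩ := k
  have e : pvzkTau 𝒜 ℳ ⁻¹' {(S₁, S₂, p)} = (⋂ A : 𝒜, {x : Fin 2 → ℂ | x 0 ∈ A.1 ↔ A ∈ S₁}) ∩ (⋂ A : ℳ, {x : Fin 2 → ℂ | (x 0 + x 1) / 2 ∈ A.1 ↔ A ∈ S₂}) ∩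
      {x : Fin 2 → ℂ | PvzkLex (x 0) (x 1) ↔ p} := by
    ext x
    simp only [pvzkTau, mem_preimage, mem_singleton_iff, Prod.mk.injEq, mem_inter_iff, mem_iInter, mem_ofPred_eq, Set.ext_iff, eq_iff_iff, and_assoc]
  rw [e]
  have mm : Measurable fun x : Fin 2 → ℂ => (x 0 + x 1) / 2 := ((measurable_pi_apply 0).add (measurable_pi_apply 1)).div_const 2
  refine ((MeasurableSet.iInter fun A => ?_).inter (MeasurableSet.iInter fun A => ?_)).inter ?_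
  · by_cases hA : A ∈ S₁
    · simp only [hA, iff_true]
      exact measurable_pi_apply 0 (m1 A.1 A.2)
    · simp only [hA, iff_false]
      exact (measurable_pi_apply 0 (m1 A.1 A.2)).compl
  · by_cases hA : A ∈ S₂
    · simp only [hA, iff_true]
      exact mm (m2 A.1 A.2)
    · simp only [hA, iff_false]
      exact (mm (m2 A.1 A.2)).compl
  · by_cases hp : p
    · simp only [hp, iff_true]
      exact pvzk_lex_meas
    · simp only [hp, iff_false]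
      exact pvzk_lex_meas.compl

/-- **(C) in the form of M1 of 289**: the same values of the bundle on all pairs of vertices ⟹ the same tests -/
theorem pvzk_same_of_tau {𝒜 ℳ : Set (Set ℂ)} {pos pos' : V → ℂ} (h : ∀ u : Fin 2 → V, pvzkTau 𝒜 ℳ (fun j => pos (u j)) = pvzkTau 𝒜 ℳ (fun j => pos' (u j))) :
    PvzkSame 𝒜 ℳ pos pos' := by
  refine ⟨fun A hA v => ?_, fun A hA u v => ?_, fun u v => ?_⟩
  · have := congrArg Prod.fst (h ![v, v])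
    exact (Set.ext_iff.1 this ⟨A, hA⟩)
  · have := congrArg (fun k => k.2.1) (h ![u, v])
    exact (Set.ext_iff.1 this ⟨A, hA⟩)
  · have := congrArg (fun k => k.2.2) (h ![u, v])
    exact iff_of_eq this

theorem pvzk_tau_of_same {𝒜 ℳ : Set (Set ℂ)} {pos pos' : V → ℂ} (H : PvzkSame 𝒜 ℳ pos pos') (u : Fin 2 → V) :
    pvzkTau 𝒜 ℳ (fun j => pos (u j)) = pvzkTau 𝒜 ℳ (fun j => pos' (u j)) := by
  unfold pvzkTau
  refine Prod.ext ?_ (Prod.ext ?_ ?_)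
  · ext A
    exact H.one A.1 A.2 _
  · ext A
    exact H.mid A.1 A.2 _ _
  · exact propext (H.lex _ _)

/-- the bundle is a Borel map into a finite type (canonical σ-algebra of `Set 𝒜 × Set ℳ × Prop`; `Countable`, `MeasurableSingletonClass` by `inferInstance` after `have := h1.to_subtype; have := h2.to_subtype`) -/
theorem pvzk_tau_measurable {𝒜 ℳ : Set (Set ℂ)} (h1 : 𝒜.Finite) (h2 : ℳ.Finite) (m1 : ∀ A ∈ 𝒜, MeasurableSet A) (m2 : ∀ A ∈ ℳ, MeasurableSet A) :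
    Measurable (pvzkTau 𝒜 ℳ) := by
  have := h1.to_subtype
  have := h2.to_subtype
  exact measurable_to_countable' fun k => pvzk_tau_meas h1.countable h2.countable m1 m2 k

/-! ### (C) in the very words of `PvxsEv.cong`, `PvxsMk.cong` (`Tr/MeasE`; `PvxsSame τ pos pos'` unfolds to the hypothesis below) -/

theorem pvzk_U_cong (N : PvwNum) (p : PviePl) (V D : Type) (T : PvMap V D) (s : V → Bool) (pos pos' : V → ℂ)
    (h : ∀ u : Fin 2 → V, pvzkTau (pvzkPlT N p) (pvzkPlM p) (fun j => pos (u j)) = pvzkTau (pvzkPlT N p) (pvzkPlM p) (fun j => pos' (u j))) :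
    pvzkU N p V D T pos s ↔ pvzkU N p V D T pos' s := pvzk_U_iff (pvzk_same_of_tau h) subset_rfl subset_rfl

theorem pvzk_Uo_cong (N : PvwNum) (p : PviePl) (V D : Type) (T : PvMap V D) (s : V → Bool) (pos pos' : V → ℂ)
    (h : ∀ u : Fin 2 → V, pvzkTau (pvzkPlT N p) (pvzkPlM p) (fun j => pos (u j)) = pvzkTau (pvzkPlT N p) (pvzkPlM p) (fun j => pos' (u j))) :
    pvzkUo N p V D T pos s ↔ pvzkUo N p V D T pos' s := pvzk_Uo_iff (pvzk_same_of_tau h) subset_rfl subset_rfl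

theorem pvzk_Ui_cong (N : PvwNum) (p : PviePl) (V D : Type) (T : PvMap V D) (s : V → Bool) (pos pos' : V → ℂ)
    (h : ∀ u : Fin 2 → V, pvzkTau (pvzkPlT N p) (pvzkPlM p) (fun j => pos (u j)) = pvzkTau (pvzkPlT N p) (pvzkPlM p) (fun j => pos' (u j))) :
    pvzkUi N p V D T pos s ↔ pvzkUi N p V D T pos' s := pvzk_Ui_iff (pvzk_same_of_tau h) subset_rfl subset_rfl

theorem pvzk_A_cong (N : PvwNum) (L : PvieLk) (V D : Type) (T : PvMap V D) (s : V → Bool) (pos pos' : V → ℂ)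
    (h : ∀ u : Fin 2 → V, pvzkTau (pvzkLkT N L) (pvzkLkM L) (fun j => pos (u j)) = pvzkTau (pvzkLkT N L) (pvzkLkM L) (fun j => pos' (u j))) :
    pvzkA N L V D T pos s ↔ pvzkA N L V D T pos' s := pvzk_A_iff (pvzk_same_of_tau h) subset_rfl subset_rfl

theorem pvzk_Ah_cong (N : PvwNum) (L : PvieLk) (V D : Type) (T : PvMap V D) (s : V → Bool) (pos pos' : V → ℂ)
    (h : ∀ u : Fin 2 → V, pvzkTau (pvzkLkT N L) (pvzkLkM L) (fun j => pos (u j)) = pvzkTau (pvzkLkT N L) (pvzkLkM L) (fun j => pos' (u j))) :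
    pvzkAh N L V D T pos s ↔ pvzkAh N L V D T pos' s := pvzk_Ah_iff (pvzk_same_of_tau h) subset_rfl subset_rfl

theorem pvzk_X_cong (N : PvwNum) (L : PvieLk) (j : Fin 4) (V D : Type) (T : PvMap V D) (s : V → Bool) (pos pos' : V → ℂ) (d : D)
    (h : ∀ u : Fin 2 → V, pvzkTau (pvzkLkT N L) (pvzkLkM L) (fun j => pos (u j)) = pvzkTau (pvzkLkT N L) (pvzkLkM L) (fun j => pos' (u j))) :
    pvzkX N L j V D T pos s d ↔ pvzkX N L j V D T pos' s d := pvzk_X_iff (pvzk_same_of_tau h) subset_rfl subset_rfl j d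

theorem pvzk_Xh_cong (N : PvwNum) (L : PvieLk) (j : Fin 4) (V D : Type) (T : PvMap V D) (s : V → Bool) (pos pos' : V → ℂ) (d : D)
    (h : ∀ u : Fin 2 → V, pvzkTau (pvzkLkT N L) (pvzkLkM L) (fun j => pos (u j)) = pvzkTau (pvzkLkT N L) (pvzkLkM L) (fun j => pos' (u j))) :
    pvzkXh N L j V D T pos s d ↔ pvzkXh N L j V D T pos' s d := pvzk_Xh_iff (pvzk_same_of_tau h) subset_rfl subset_rfl j d

/-! ## 7. (A) of `Tr/MeasG`: measurable in the positions on a fixed map -/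

/-- the mid-point test as a set of pairs -/
def pvzkMidS (B : Set ℂ) : Set (ℂ × ℂ) := {q | (q.1 + q.2) / 2 ∈ B}
/-- the lexicographic test as a set of pairs -/
def pvzkLexS : Set (ℂ × ℂ) := {q | PvzkLex q.1 q.2}
/-- the tests as sets of quadruples (`PvymSame` of 247) -/
def pvzkQ (𝒜 ℳ : Set (Set ℂ)) : Set (Set (ℂ × ℂ × ℂ × ℂ)) := pvymT1 '' 𝒜 ∪ (fun B => pvymT2 (pvzkMidS B)) '' ℳ ∪ {pvymT2 pvzkLexS}

theorem pvzk_eqns_cite5 : True := by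
  have := @pvzkMidS.eq_1; have := @pvzkLexS.eq_1; have := @pvzkQ.eq_1
  trivial

theorem pvzk_Q_finite {𝒜 ℳ : Set (Set ℂ)} (h1 : 𝒜.Finite) (h2 : ℳ.Finite) : (pvzkQ 𝒜 ℳ).Finite := ((h1.image _).union (h2.image _)).union (finite_singleton _)

theorem pvzk_midS_meas {B : Set ℂ} (hB : MeasurableSet B) : MeasurableSet (pvzkMidS B) :=
  ((measurable_fst.add measurable_snd).div_const (2 : ℂ)) hB

theorem pvzk_lexS_meas : MeasurableSet pvzkLexS := by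
  have r0 : Measurable fun q : ℂ × ℂ => q.1.re := Complex.measurable_re.comp measurable_fst
  have r1 : Measurable fun q : ℂ × ℂ => q.2.re := Complex.measurable_re.comp measurable_snd
  have i0 : Measurable fun q : ℂ × ℂ => q.1.im := Complex.measurable_im.comp measurable_fst
  have i1 : Measurable fun q : ℂ × ℂ => q.2.im := Complex.measurable_im.comp measurable_snd
  exact (measurableSet_lt r0 r1).union ((measurableSet_eq_fun r0 r1).inter (measurableSet_lt i0 i1))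

theorem pvzk_Q_meas {𝒜 ℳ : Set (Set ℂ)} (m1 : ∀ A ∈ 𝒜, MeasurableSet A) (m2 : ∀ A ∈ ℳ, MeasurableSet A) : ∀ S ∈ pvzkQ 𝒜 ℳ, MeasurableSet S := by
  rintro S ((⟨A, hA, rfl⟩ | ⟨A, hA, rfl⟩) | rfl)
  exacts [pvym_meas_T1 (m1 A hA), pvym_meas_T2 (pvzk_midS_meas (m2 A hA)), pvym_meas_T2 pvzk_lexS_meas]

/-- the tests of 247 give the tests of sec. 1 -/
theorem pvzk_same_of_ym {𝒜 ℳ : Set (Set ℂ)} {pos pos' : V → ℂ} (h : PvymSame (pvzkQ 𝒜 ℳ) pos pos') : PvzkSame 𝒜 ℳ pos pos' :=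
  ⟨fun A hA v => h.t1 (B := A) (Or.inl (Or.inl ⟨A, hA, rfl⟩)) v, fun A hA u v => h.t2 (B := pvzkMidS A) (Or.inl (Or.inr ⟨A, hA, rfl⟩)) u v,
    fun u v => h.t2 (B := pvzkLexS) (Or.inr rfl) u v⟩

theorem pvzk_U_measP (N : PvwNum) {p : PviePl} (m : PvzkPlMeas p) : PvymFn.MeasP (M := Prop) (pvzkU N p) :=
  pvym_measP_of_iff (pvzk_Q_finite (pvzk_plT_finite N p) (pvzk_plM_finite p)) (pvzk_Q_meas (pvzk_plT_meas N m) (pvzk_plM_meas m))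
    fun _ _ _ _ _ _ h => (pvzk_U_iff (pvzk_same_of_ym h) subset_rfl subset_rfl).1

theorem pvzk_Uo_measP (N : PvwNum) {p : PviePl} (m : PvzkPlMeas p) : PvymFn.MeasP (M := Prop) (pvzkUo N p) :=
  pvym_measP_of_iff (pvzk_Q_finite (pvzk_plT_finite N p) (pvzk_plM_finite p)) (pvzk_Q_meas (pvzk_plT_meas N m) (pvzk_plM_meas m))
    fun _ _ _ _ _ _ h => (pvzk_Uo_iff (pvzk_same_of_ym h) subset_rfl subset_rfl).1

theorem pvzk_Ui_measP (N : PvwNum) {p : PviePl} (m : PvzkPlMeas p) : PvymFn.MeasP (M := Prop) (pvzkUi N p) :=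
  pvym_measP_of_iff (pvzk_Q_finite (pvzk_plT_finite N p) (pvzk_plM_finite p)) (pvzk_Q_meas (pvzk_plT_meas N m) (pvzk_plM_meas m))
    fun _ _ _ _ _ _ h => (pvzk_Ui_iff (pvzk_same_of_ym h) subset_rfl subset_rfl).1

theorem pvzk_A_measP (N : PvwNum) {L : PvieLk} (m : PvzkPlMeas L.p) (m' : PvzkPlMeas L.p') (mY : MeasurableSet L.Yin) : PvymFn.MeasP (M := Prop) (pvzkA N L) :=
  pvym_measP_of_iff (pvzk_Q_finite (pvzk_lkT_finite N L) (pvzk_lkM_finite L)) (pvzk_Q_meas (pvzk_lkT_meas N m m' mY) (pvzk_lkM_meas m m'))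
    fun _ _ _ _ _ _ h => (pvzk_A_iff (pvzk_same_of_ym h) subset_rfl subset_rfl).1

theorem pvzk_Ah_measP (N : PvwNum) {L : PvieLk} (m : PvzkPlMeas L.p) (m' : PvzkPlMeas L.p') (mY : MeasurableSet L.Yin) : PvymFn.MeasP (M := Prop) (pvzkAh N L) :=
  pvym_measP_of_iff (pvzk_Q_finite (pvzk_lkT_finite N L) (pvzk_lkM_finite L)) (pvzk_Q_meas (pvzk_lkT_meas N m m' mY) (pvzk_lkM_meas m m'))
    fun _ _ _ _ _ _ h => (pvzk_Ah_iff (pvzk_same_of_ym h) subset_rfl subset_rfl).1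

/-! ### the value of the link -/

/-- the field of record `y_a = qpart - a side` on an abstract positioned map (`pvieFld`) -/
noncomputable def pvzkFld (T : PvMap V D) (pos : V → ℂ) (a : ℂ) (d : D) : ℂ := T.qpart pos d - a * T.side pos d

/-- the text of `PvieLk.val` for the field `y_a` -/
noncomputable def pvzkVal (T : PvMap V D) (pos : V → ℂ) (N : PvwNum) (L : PvieLk) (a : ℂ) (𝔖 𝔖' : PvwSt T) (y : T.Pth) : ℂ :=
  pvwMass T pos (pvzkFld T pos a) (Metric.closedBall L.p.z (N.m * L.p.h)) 𝔖.inn 0 𝔖.inn.n + pvwMass T pos (pvzkFld T pos a) (L.off N) 𝔖.inn 𝔖.ip 𝔖.inn.n +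
    pvwMass T pos (pvzkFld T pos a) (L.off N) y 0 y.n + pvwMass T pos (pvzkFld T pos a) (L.off N) 𝔖'.inn 0 𝔖'.ip

/-- **the value of the link** (`PvieLk.X`) as a function of positioned coloured maps -/
noncomputable def pvzkXv (N : PvwNum) (L : PvieLk) (a : ℂ) : PvymFn ℂ := fun _ _ T pos s => pvymPick3 (PvzkArc T pos s N L) (pvzkVal T pos N L a) 0
/-- the same, half states -/
noncomputable def pvzkXvh (N : PvwNum) (L : PvieLk) (a : ℂ) : PvymFn ℂ := fun _ _ T pos s => pvymPick3 (PvzkArcH T pos s N L) (pvzkVal T pos N L a) 0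

theorem pvzk_eqns_cite6 : True := by
  have := @pvzkFld.eq_1; have := @pvzkVal.eq_1; have := @pvzkXv.eq_1; have := @pvzkXvh.eq_1
  trivial

section val

variable {T : PvMap V D} {n : ℕ} (ι : V → Option (Fin n)) (zi : ℂ)

theorem pvzk_side_meas (d : D) : Measurable fun y : Fin n → ℂ => T.side (pvymPos ι zi y) d :=
  (pvym_measurable_pos ι zi _).sub (pvym_measurable_pos ι zi _)

theorem pvzk_bary_meas (d : D) : Measurable fun y : Fin n → ℂ => T.bary (pvymPos ι zi y) d :=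
  (((pvym_measurable_pos ι zi _).add (pvym_measurable_pos ι zi _)).add (pvym_measurable_pos ι zi _)).div_const 3

theorem pvzk_qpart_meas (d : D) : Measurable fun y : Fin n → ℂ => T.qpart (pvymPos ι zi y) d :=
  (((pvzk_side_meas ι zi d).add ((pvzk_side_meas ι zi _).const_mul _)).add ((pvzk_side_meas ι zi _).const_mul _)).div_const 3

theorem pvzk_fld_meas (a : ℂ) (d : D) : Measurable fun y : Fin n → ℂ => pvzkFld T (pvymPos ι zi y) a d :=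
  (pvzk_qpart_meas ι zi d).sub ((pvzk_side_meas ι zi d).const_mul a)

theorem pvzk_mass_meas (a : ℂ) {K : Set ℂ} (hK : MeasurableSet K) (p : T.Pth) (i j : ℕ) :
    Measurable fun y : Fin n → ℂ => pvwMass T (pvymPos ι zi y) (pvzkFld T (pvymPos ι zi y) a) K p i j := by
  unfold pvwMass
  exact Finset.measurable_sum _ fun k _ => Measurable.ite (pvzk_bary_meas ι zi _ hK) (pvzk_fld_meas ι zi a _) measurable_const

theorem pvzk_off_meas (N : PvwNum) (L : PvieLk) : MeasurableSet (L.off N) := (measurableSet_closedBall.union measurableSet_closedBall).compl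

theorem pvzk_val_meas (N : PvwNum) (L : PvieLk) (a : ℂ) (𝔖 𝔖' : PvwSt T) (q : T.Pth) : Measurable fun y : Fin n → ℂ => pvzkVal T (pvymPos ι zi y) N L a 𝔖 𝔖' q :=
  (((pvzk_mass_meas ι zi a measurableSet_closedBall _ _ _).add (pvzk_mass_meas ι zi a (pvzk_off_meas N L) _ _ _)).add (pvzk_mass_meas ι zi a (pvzk_off_meas N L) _ _ _)).add
    (pvzk_mass_meas ι zi a (pvzk_off_meas N L) _ _ _)

end val

/-- **(A) for the value of the link** (no uniqueness: `pvym_measP_pick3` of 247) -/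
theorem pvzk_Xv_measP (N : PvwNum) {L : PvieLk} (m : PvzkPlMeas L.p) (m' : PvzkPlMeas L.p') (mY : MeasurableSet L.Yin) (a : ℂ) : (pvzkXv N L a).MeasP :=
  pvym_measP_pick3 (W1 := fun _ _ T => PvwSt T) (W2 := fun _ _ T => PvwSt T) (W3 := fun _ _ T => T.Pth) (P := fun _ _ T pos s => PvzkArc T pos s N L)
    (val := fun _ _ T pos _ => pvzkVal T pos N L a) 0 (pvzk_Q_finite (pvzk_lkT_finite N L) (pvzk_lkM_finite L)) (pvzk_Q_meas (pvzk_lkT_meas N m m' mY) (pvzk_lkM_meas m m'))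
    (fun _ _ _ _ _ _ h _ _ _ => pvzk_arc (pvzk_same_of_ym h) subset_rfl subset_rfl) fun _ _ _ _ _ ι zi 𝔖 𝔖' q => pvzk_val_meas ι zi N L a 𝔖 𝔖' q

theorem pvzk_Xvh_measP (N : PvwNum) {L : PvieLk} (m : PvzkPlMeas L.p) (m' : PvzkPlMeas L.p') (mY : MeasurableSet L.Yin) (a : ℂ) : (pvzkXvh N L a).MeasP :=
  pvym_measP_pick3 (W1 := fun _ _ T => PvwSt T) (W2 := fun _ _ T => PvwSt T) (W3 := fun _ _ T => T.Pth) (P := fun _ _ T pos s => PvzkArcH T pos s N L)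
    (val := fun _ _ T pos _ => pvzkVal T pos N L a) 0 (pvzk_Q_finite (pvzk_lkT_finite N L) (pvzk_lkM_finite L)) (pvzk_Q_meas (pvzk_lkT_meas N m m' mY) (pvzk_lkM_meas m m'))
    (fun _ _ _ _ _ _ h _ _ _ => pvzk_arcH (pvzk_same_of_ym h) subset_rfl subset_rfl) fun _ _ _ _ _ ι zi 𝔖 𝔖' q => pvzk_val_meas ι zi N L a 𝔖 𝔖' q

/-- **the dictionary for the value**: `PvieLk.X` is `pvzkXv` at the plane model -/
theorem pvzk_X_model (L : PvieLk) (N : PvwNum) (b : Bool) (a : ℂ) {η : Conf PvPt} (hη : DelGood (pvieY η)) :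
    L.X N b a η = pvzkXv N L a _ _ (pvieT η) (pviePos η) (pvieCol η b) := by
  have e : L.Arc N b η = PvzkArc (pvieT η) (pviePos η) (pvieCol η b) N L :=
    funext fun 𝔖 => funext fun 𝔖' => funext fun y => propext ((pvzk_arc_model L N b η 𝔖 𝔖' y).trans (and_iff_right hη))
  show pvymPick3 (L.Arc N b η) (pvzkVal (pvieT η) (pviePos η) N L a) 0 = pvymPick3 (PvzkArc (pvieT η) (pviePos η) (pvieCol η b) N L) (pvzkVal (pvieT η) (pviePos η) N L a) 0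
  rw [e]

theorem pvzk_X_bad (L : PvieLk) (N : PvwNum) (b : Bool) (a : ℂ) {η : Conf PvPt} (hη : ¬ DelGood (pvieY η)) : L.X N b a η = 0 :=
  dif_neg fun ⟨_, _, _, h⟩ => hη h.at_p.good

end Claimed.Agent.R289
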