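-- KEEP
import Claimed.Agent.R289.Tr.RetMk
import Claimed.Agent.R289.Tr.InstL
import Claimed.Agent.R289.Tr.PlugLoc
import Claimed.Agent.R289.Tr.LinkLocA

/-!
# Row 289 (S0537), THE WALL, road E, MEAS, file Tr/RetMkA : **(A) MEASURABLE IN THE POSITIONS** for the objects of `Tr/InstL` v2.1: FRAMES, DOOR ENDS, MASKS      (helper231; split of 247 id 90795; prefix `pvzj_`, `Pvzj`, `pvzj`)

(A) = `PvymFn.MeasP` (247, `Tr/MeasG`) follows from (C): the predicate reads the positions through FINITELY MANY BOREL TESTS (`pvym_measP_of_iff`, `pvym_measP_pick3`).      `Tr/RetMk` has (C) for the texts of `Tr/Defs` v3 in ONE frame.   HERE: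
* sec. 1  FRAMES: the tests pulled back by a Borel map `g` (`pvzjPull g 𝒬`: finite, Borel): `pvzj_pull_same : PvymSame (pvzjPull g 𝒬) pos pos' → PvymSame 𝒬 (g ∘ pos) (g ∘ pos')`
* sec. 2  THE TESTS OF A PLACED PLUG WITH ITS FRAME `pvzjPlQ N p` (`PvilPl`): states in the frame `w ↦ conj fr * w`, tip cells, masks and the cut-off ball in the absolute frame;
          clause level (C): `pvzj_fr_out`, `pvzj_fr_in`, `pvzj_fr_far_p/m`, `pvzj_abs`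
* sec. 3  DOOR ENDS: (C) of the gate of record of a kit plug `PvzlGt T pos s pg g` (173) in its five one-point tests `pvzjPgT pg`; the disc of the state of a door; the tests of the plug of record are Borel (`pvzj_pgT_meas`, ANY `z d`)
* sec. 4  WITNESS LEVEL (C) for the bodies of 74 (`Tr/LinkLocA` v2): **`pvzj_ll_out`, `pvzj_ll_in`, `pvzj_ll_dr`, `pvzj_ll_atP`, `pvzj_ll_atP'`, `pvzj_ll_lk`, `pvzj_ll_arc`**; the tests of a link `pvzjLkQ N L` (finite, Borel)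
* sec. 5  the value at fixed witnesses is measurable in the positions: `pvzj_mass_meas`, `pvzj_v_meas`, `pvzj_val_meas` (any weight measurable in the positions: `PvzjWtMeas W`; `pvzj_Q_wt`, `pvzj_V_wt`)
* sec. 6  **(A)**: `pvzj_Uo_measP`, `pvzj_Ui_measP`, `pvzj_LA_measP`, `pvzj_LX_measP` (stated on the lambda forms = `pvymUo pvymUi pvymLA pvymLX` of 247 by unfolding)
-/

set_option autoImplicit false

namespace Claimed.Agent.R289

open Set Claims.C0465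
open scoped ComplexConjugate

variable {V D : Type}

/-! ## 1. frames -/

/-- a quadruple moved by `g` -/
def pvzjMap4 (g : ℂ → ℂ) (q : ℂ × ℂ × ℂ × ℂ) : ℂ × ℂ × ℂ × ℂ := (g q.1, g q.2.1, g q.2.2.1, g q.2.2.2)

/-- the tests pulled back by `g` -/
def pvzjPull (g : ℂ → ℂ) (𝒬 : Set (Set (ℂ × ℂ × ℂ × ℂ))) : Set (Set (ℂ × ℂ × ℂ × ℂ)) := (fun S => pvzjMap4 g ⁻¹' S) '' 𝒬

theorem pvzj_eqns_citeA : True := by
  have := @pvzjMap4.eq_1; have := @pvzjPull.eq_1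
  trivial

theorem pvzj_map4_meas {g : ℂ → ℂ} (hg : Measurable g) : Measurable (pvzjMap4 g) :=
  (hg.comp measurable_fst).prodMk ((hg.comp measurable_snd.fst).prodMk ((hg.comp measurable_snd.snd.fst).prodMk (hg.comp measurable_snd.snd.snd)))

theorem pvzj_pull_finite (g : ℂ → ℂ) {𝒬 : Set (Set (ℂ × ℂ × ℂ × ℂ))} (h : 𝒬.Finite) : (pvzjPull g 𝒬).Finite := h.image _

theorem pvzj_pull_meas {g : ℂ → ℂ} (hg : Measurable g) {𝒬 : Set (Set (ℂ × ℂ × ℂ × ℂ))} (h : ∀ S ∈ 𝒬, MeasurableSet S) : ∀ S ∈ pvzjPull g 𝒬, MeasurableSet S := by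
  rintro _ ⟨S, hS, rfl⟩
  exact pvzj_map4_meas hg (h S hS)

/-- **FRAMES**: the same answers to the pulled back tests = the same answers of the moved positions -/
theorem pvzj_pull_same {g : ℂ → ℂ} {𝒬 : Set (Set (ℂ × ℂ × ℂ × ℂ))} {pos pos' : V → ℂ} (h : PvymSame (pvzjPull g 𝒬) pos pos') :
    PvymSame 𝒬 (fun v => g (pos v)) (fun v => g (pos' v)) := fun S hS a b c d => h _ ⟨S, hS, rfl⟩ a b c d

/-- the frame of a plug -/
noncomputable def pvzjFr (f : ℂ) (w : ℂ) : ℂ := conj f * w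

theorem pvzj_fr_meas (f : ℂ) : Measurable (pvzjFr f) := measurable_id.const_mul (conj f)

/-! ## 2. the tests of a placed plug with its frame -/

/-- the absolute one-point tests of a placed plug -/
def pvzjAbsT (N : PvwNum) (p : PvilPl) : Set (Set ℂ) := {p.Mp, p.Mm, p.cp, p.cm, Metric.closedBall p.z ((N.m - 1) * p.h)}

/-- **the tests of a placed plug with its frame** -/
def pvzjPlQ (N : PvwNum) (p : PvilPl) : Set (Set (ℂ × ℂ × ℂ × ℂ)) := pvzjPull (pvzjFr p.fr) (pvzkQ (pvzkAtT N p.h p.zf p.ty) ∅) ∪ pvzkQ (pvzjAbsT N p) ∅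

/-- the cells and the masks of the plug are Borel -/
structure PvzjPlMeas (p : PvilPl) : Prop where
  cp : MeasurableSet p.cp
  cm : MeasurableSet p.cm
  Mp : MeasurableSet p.Mp
  Mm : MeasurableSet p.Mm

theorem pvzj_eqns_citeB : True := by
  have := @pvzjFr.eq_1; have := @pvzjAbsT.eq_1; have := @pvzjPlQ.eq_1
  trivial

theorem pvzj_absT_finite (N : PvwNum) (p : PvilPl) : (pvzjAbsT N p).Finite := by
  unfold pvzjAbsT
  exact Set.toFinite _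

theorem pvzj_absT_meas (N : PvwNum) {p : PvilPl} (m : PvzjPlMeas p) : ∀ A ∈ pvzjAbsT N p, MeasurableSet A := by
  rintro A (rfl | rfl | rfl | rfl | rfl)
  exacts [m.Mp, m.Mm, m.cp, m.cm, measurableSet_closedBall]

theorem pvzj_plQ_finite (N : PvwNum) (p : PvilPl) : (pvzjPlQ N p).Finite :=
  (pvzj_pull_finite _ (pvzk_Q_finite (pvzk_atT_finite N p.h p.zf p.ty) finite_empty)).union (pvzk_Q_finite (pvzj_absT_finite N p) finite_empty)

theorem pvzj_plQ_meas (N : PvwNum) {p : PvilPl} (m : PvzjPlMeas p) : ∀ S ∈ pvzjPlQ N p, MeasurableSet S := by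
  rintro S (hS | hS)
  · exact pvzj_pull_meas (pvzj_fr_meas p.fr) (pvzk_Q_meas (pvzk_atT_meas N p.h p.zf p.ty) fun _ h => absurd h (notMem_empty _)) S hS
  · exact pvzk_Q_meas (pvzj_absT_meas N m) (fun _ h => absurd h (notMem_empty _)) S hS

section clauses

variable {T : PvMap V D} {pos pos' : V → ℂ} {s : V → Bool} {N : PvwNum} {p : PvilPl} {𝒬 : Set (Set (ℂ × ℂ × ℂ × ℂ))} {𝔖 : PvwSt T}

/-- the positions in the frame of the plug pass the same tests of the full state -/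
theorem pvzj_fr_same (h : PvymSame 𝒬 pos pos') (hQ : pvzjPlQ N p ⊆ 𝒬) : PvzkSame (pvzkAtT N p.h p.zf p.ty) ∅ (fun v => conj p.fr * pos v) (fun v => conj p.fr * pos' v) :=
  pvzk_same_of_ym (pvzj_pull_same (g := pvzjFr p.fr) (h.mono (subset_union_left.trans hQ)))

/-- the absolute positions pass the same absolute tests -/
theorem pvzj_abs (h : PvymSame 𝒬 pos pos') (hQ : pvzjPlQ N p ⊆ 𝒬) : PvzkSame (pvzjAbsT N p) ∅ pos pos' := pvzk_same_of_ym (h.mono (subset_union_right.trans hQ))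

/-- (C), the exit half state in the frame of the plug -/
theorem pvzj_fr_out (h : PvymSame 𝒬 pos pos') (hQ : pvzjPlQ N p ⊆ 𝒬) (G : 𝔖.AtOut (fun v => conj p.fr * pos v) N p.h p.zf p.ty s) : 𝔖.AtOut (fun v => conj p.fr * pos' v) N p.h p.zf p.ty s :=
  pvzk_atOut (pvzj_fr_same h hQ) subset_union_left G

/-- (C), the entrance half state in the frame of the plug -/
theorem pvzj_fr_in (h : PvymSame 𝒬 pos pos') (hQ : pvzjPlQ N p ⊆ 𝒬) (G : 𝔖.AtIn (fun v => conj p.fr * pos v) N p.h p.zf p.ty s) : 𝔖.AtIn (fun v => conj p.fr * pos' v) N p.h p.zf p.ty s :=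
  pvzk_atIn (pvzj_fr_same h hQ) subset_union_right G

/-- (C), the clause `far_p` -/
theorem pvzj_fr_far_p (h : PvymSame 𝒬 pos pos') (hQ : pvzjPlQ N p ⊆ 𝒬) (v : V) (G : 2 * N.rho * p.h < ‖conj p.fr * pos v - p.ty.cp p.h p.zf‖) : 2 * N.rho * p.h < ‖conj p.fr * pos' v - p.ty.cp p.h p.zf‖ :=
  ((pvzj_fr_same h hQ).gt (Or.inl (Or.inr (by simp [pvzkGoodT]))) v).1 G

/-- (C), the clause `far_m` -/
theorem pvzj_fr_far_m (h : PvymSame 𝒬 pos pos') (hQ : pvzjPlQ N p ⊆ 𝒬) (v : V) (G : 2 * N.rho * p.h < ‖conj p.fr * pos v - p.ty.cm p.h p.zf‖) : 2 * N.rho * p.h < ‖conj p.fr * pos' v - p.ty.cm p.h p.zf‖ :=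
  ((pvzj_fr_same h hQ).gt (Or.inr (Or.inr (by simp [pvzkGoodT]))) v).1 G

theorem pvzj_abs_Mp (h : PvymSame 𝒬 pos pos') (hQ : pvzjPlQ N p ⊆ 𝒬) (v : V) : pos v ∈ p.Mp ↔ pos' v ∈ p.Mp := (pvzj_abs h hQ).one _ (by simp [pvzjAbsT]) v
theorem pvzj_abs_Mm (h : PvymSame 𝒬 pos pos') (hQ : pvzjPlQ N p ⊆ 𝒬) (v : V) : pos v ∈ p.Mm ↔ pos' v ∈ p.Mm := (pvzj_abs h hQ).one _ (by simp [pvzjAbsT]) v
theorem pvzj_abs_cp (h : PvymSame 𝒬 pos pos') (hQ : pvzjPlQ N p ⊆ 𝒬) (v : V) : pos v ∈ p.cp ↔ pos' v ∈ p.cp := (pvzj_abs h hQ).one _ (by simp [pvzjAbsT]) v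
theorem pvzj_abs_cm (h : PvymSame 𝒬 pos pos') (hQ : pvzjPlQ N p ⊆ 𝒬) (v : V) : pos v ∈ p.cm ↔ pos' v ∈ p.cm := (pvzj_abs h hQ).one _ (by simp [pvzjAbsT]) v
theorem pvzj_abs_cut (h : PvymSame 𝒬 pos pos') (hQ : pvzjPlQ N p ⊆ 𝒬) (v : V) : (N.m - 1) * p.h < ‖pos v - p.z‖ ↔ (N.m - 1) * p.h < ‖pos' v - p.z‖ :=
  (pvzj_abs h hQ).gt (by simp [pvzjAbsT]) v

end clauses

/-! ## 3. door ends -/

/-- the five one-point tests of the gate of record of a kit plug -/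
def pvzjPgT (pg : PvzlPg ℂ) : Set (Set ℂ) := {pg.KI, pg.KO, pg.Km, pg.Kp, pg.KT}

theorem pvzj_eqns_citeC : True := by
  have := @pvzjPgT.eq_1
  trivial

theorem pvzj_pgT_finite (pg : PvzlPg ℂ) : (pvzjPgT pg).Finite := by
  unfold pvzjPgT
  exact Set.toFinite _

section door

variable {T : PvMap V D} {pos pos' : V → ℂ} {s : V → Bool} {𝒜 ℳ : Set (Set ℂ)}

theorem pvzj_in (H : PvzkSame 𝒜 ℳ pos pos') {KI KO : Set ℂ} (hI : KI ∈ 𝒜) (hO : KO ∈ 𝒜) {c : T.Cyc} (h : PvzlIn T pos KI KO c) : PvzlIn T pos' KI KO c := by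
  have e : (fun v => pos' v ∈ KI) = fun v => pos v ∈ KI := funext fun v => propext (H.one KI hI v).symm
  refine ⟨?_, fun d hd => (H.one KO hO _).1 (h.outer d hd), fun k => (H.one KO hO _).1 (h.rim k)⟩
  rw [e]
  exact h.inner

/-- **(C) for the gate of record of a kit plug** -/
theorem pvzj_gt (H : PvzkSame 𝒜 ℳ pos pos') {pg : PvzlPg ℂ} (hp : pvzjPgT pg ⊆ 𝒜) {g : T.Gate s} (h : PvzlGt T pos s pg g) : PvzlGt T pos' s pg g := by
  have hI : pg.KI ∈ 𝒜 := hp (by simp [pvzjPgT])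
  have hO : pg.KO ∈ 𝒜 := hp (by simp [pvzjPgT])
  have hm : pg.Km ∈ 𝒜 := hp (by simp [pvzjPgT])
  have hq : pg.Kp ∈ 𝒜 := hp (by simp [pvzjPgT])
  have hT : pg.KT ∈ 𝒜 := hp (by simp [pvzjPgT])
  obtain ⟨n, a1, a2, a3, a4, a5⟩ := h.thru
  exact ⟨⟨pvzj_in H hI hO h.least.reg, fun g₂ h₂ => h.least.least g₂ (pvzj_in H.symm hI hO h₂)⟩, (H.one _ hm _).1 h.vm, (H.one _ hq _).1 h.vp,
    n, a1, a2, a3, a4, fun v hv => (H.one _ hT v).1 (a5 hv)⟩

theorem pvzj_gt_iff (H : PvzkSame 𝒜 ℳ pos pos') {pg : PvzlPg ℂ} (hp : pvzjPgT pg ⊆ 𝒜) {g : T.Gate s} : PvzlGt T pos s pg g ↔ PvzlGt T pos' s pg g :=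
  ⟨pvzj_gt H hp, pvzj_gt H.symm hp⟩

/-- the disc of the state of a door is the same set of vertices -/
theorem pvzj_dsc (H : PvzkSame 𝒜 ℳ pos pos') {z : ℂ} {b : ℝ} (hb : Metric.ball z b ∈ 𝒜) : {v | ‖pos v - z‖ < b} = {v | ‖pos' v - z‖ < b} := by
  ext v
  exact H.lt hb v

end door

theorem pvzj_at_compact (z d : ℂ) {S : Set ℂ} (hS : IsCompact S) : IsCompact (pvkdAt z d S) :=
  hS.image (continuous_const.add (continuous_const.mul continuous_id))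

/-- the five tests of THE PLUG OF RECORD are Borel, at any place, in any direction -/
theorem pvzj_pgT_meas (r : ℝ) (z d : ℂ) : ∀ A ∈ pvzjPgT ((pvkdP r).pg z d), MeasurableSet A := by
  rintro A (rfl | rfl | rfl | rfl | rfl)
  · exact measurableSet_ball
  · exact measurableSet_ball
  · exact (pvzj_at_compact z d (rsw_rect_compact _ _ _ _)).measurableSet
  · exact (pvzj_at_compact z d (rsw_rect_compact _ _ _ _)).measurableSet
  · exact (pvzj_at_compact z d (rsw_rect_compact _ _ _ _)).measurableSet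

/-! ## 4. witness level (C) for the bodies of `Tr/LinkLocA` -/

/-- the one-point tests of a link beyond those of its marked ends: the two kit plugs, the room -/
def pvzjLkT (L : PvilLk) : Set (Set ℂ) := pvzjPgT ((pvkdP L.p.h).pg L.p.z L.p.fr) ∪ pvzjPgT ((pvkdP L.p'.h).pg L.p'.z L.p'.fr) ∪ {L.Yin}

/-- **the tests of a link** (both kinds of ends) -/
def pvzjLkQ (N : PvwNum) (L : PvilLk) : Set (Set (ℂ × ℂ × ℂ × ℂ)) := pvzjPlQ N L.p ∪ pvzjPlQ N L.p' ∪ pvzkQ (pvzjLkT L) ∅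

theorem pvzj_eqns_citeD : True := by
  have := @pvzjLkT.eq_1; have := @pvzjLkQ.eq_1
  trivial

theorem pvzj_lkT_finite (L : PvilLk) : (pvzjLkT L).Finite := ((pvzj_pgT_finite _).union (pvzj_pgT_finite _)).union (finite_singleton _)

theorem pvzj_lkT_meas {L : PvilLk} (mY : MeasurableSet L.Yin) : ∀ A ∈ pvzjLkT L, MeasurableSet A := by
  rintro A ((hA | hA) | rfl)
  exacts [pvzj_pgT_meas _ _ _ A hA, pvzj_pgT_meas _ _ _ A hA, mY]

theorem pvzj_lkQ_finite (N : PvwNum) (L : PvilLk) : (pvzjLkQ N L).Finite :=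
  ((pvzj_plQ_finite N _).union (pvzj_plQ_finite N _)).union (pvzk_Q_finite (pvzj_lkT_finite L) finite_empty)

theorem pvzj_lkQ_meas (N : PvwNum) {L : PvilLk} (m : PvzjPlMeas L.p) (m' : PvzjPlMeas L.p') (mY : MeasurableSet L.Yin) : ∀ S ∈ pvzjLkQ N L, MeasurableSet S := by
  rintro S ((hS | hS) | hS)
  exacts [pvzj_plQ_meas N m S hS, pvzj_plQ_meas N m' S hS, pvzk_Q_meas (pvzj_lkT_meas mY) (fun _ h => absurd h (notMem_empty _)) S hS]

/-- a kit plug as an end of a link has Borel (empty) cells and masks -/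
theorem pvzj_plug_meas (r : ℝ) (z d : ℂ) : PvzjPlMeas (pvilPlug r z d) := ⟨MeasurableSet.empty, MeasurableSet.empty, MeasurableSet.empty, MeasurableSet.empty⟩

section bodies

variable {T : PvMap V D} {pos pos' : V → ℂ} {s : V → Bool} {N : PvwNum} {p : PvilPl} {L : PvilLk} {𝒬 : Set (Set (ℂ × ℂ × ℂ × ℂ))} {𝔖 𝔖' : PvwSt T}

/-- **(C), exit half state of a marked end** -/
theorem pvzj_ll_out (h : PvymSame 𝒬 pos pos') (hQ : pvzjPlQ N p ⊆ 𝒬) (G : PvllOut N p T pos s 𝔖) : PvllOut N p T pos' s 𝔖 :=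
  ⟨pvzj_fr_out h hQ G.st, (pvzj_abs_cp h hQ _).1 G.tip, fun y hy v hv => (pvzj_abs_Mp h hQ v).1 (G.mask y hy v hv),
    fun i h1 h2 h3 => (pvzj_abs_Mp h hQ _).1 (G.mask_i i h1 h2 ((pvzj_abs_cut h hQ _).2 h3)), G.lev0⟩

/-- **(C), entrance half state of a marked end** -/
theorem pvzj_ll_in (h : PvymSame 𝒬 pos pos') (hQ : pvzjPlQ N p ⊆ 𝒬) (G : PvllIn N p T pos s 𝔖) : PvllIn N p T pos' s 𝔖 :=
  ⟨pvzj_fr_in h hQ G.st, (pvzj_abs_cm h hQ _).1 G.tip, fun y hy v hv => (pvzj_abs_Mm h hQ v).1 (G.mask y hy v hv),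
    fun i h1 h3 => (pvzj_abs_Mm h hQ _).1 (G.mask_i i h1 ((pvzj_abs_cut h hQ _).2 h3)), G.lev0⟩

/-- **(C), door end**: the same gate, THE SAME RECORD -/
theorem pvzj_ll_dr {𝒜 ℳ : Set (Set ℂ)} (H : PvzkSame 𝒜 ℳ pos pos') {𝔭 : PvkdPlug} {z d : ℂ} (hp : pvzjPgT (𝔭.pg z d) ⊆ 𝒜) (G : PvllDr 𝔭 T pos s z d 𝔖) : PvllDr 𝔭 T pos' s z d 𝔖 := by
  obtain ⟨g, h1, rfl⟩ := G
  refine ⟨g, pvzj_gt H hp h1, ?_⟩
  have hb : Metric.ball z 𝔭.b ∈ 𝒜 := hp (by simp [pvzjPgT, PvkdPlug.pg])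
  unfold pvllSt
  rw [pvzj_dsc H hb]

theorem pvzj_lk_same (h : PvymSame 𝒬 pos pos') (hQ : pvzjLkQ N L ⊆ 𝒬) : PvzkSame (pvzjLkT L) ∅ pos pos' := pvzk_same_of_ym (h.mono (subset_union_right.trans hQ))

/-- **(C), the exit end of a link** (door or marked) -/
theorem pvzj_ll_atP (h : PvymSame 𝒬 pos pos') (hQ : pvzjLkQ N L ⊆ 𝒬) (G : PvllAtP N L T pos s 𝔖) : PvllAtP N L T pos' s 𝔖 := by
  unfold PvllAtP at G ⊢
  split_ifs at G ⊢
  · exact pvzj_ll_dr (pvzj_lk_same h hQ) (fun A hA => Or.inl (Or.inl hA)) G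
  · exact pvzj_ll_out h (fun S hS => hQ (Or.inl (Or.inl hS))) G

/-- **(C), the entrance end of a link** -/
theorem pvzj_ll_atP' (h : PvymSame 𝒬 pos pos') (hQ : pvzjLkQ N L ⊆ 𝒬) (G : PvllAtP' N L T pos s 𝔖) : PvllAtP' N L T pos' s 𝔖 := by
  unfold PvllAtP' at G ⊢
  split_ifs at G ⊢
  · exact pvzj_ll_dr (pvzj_lk_same h hQ) (fun A hA => Or.inl (Or.inr hA)) G
  · exact pvzj_ll_in h (fun S hS => hQ (Or.inl (Or.inr hS))) G

/-- (C), the run and the rim arc -/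
theorem pvzj_ll_lk {𝒜 ℳ : Set (Set ℂ)} (H : PvzkSame 𝒜 ℳ pos pos') {Yin : Set ℂ} (hY : Yin ∈ 𝒜) {n : ℕ} {y : T.Pth} (G : PvllLk T pos s Yin 𝔖 𝔖' n y) : PvllLk T pos' s Yin 𝔖 𝔖' n y := by
  obtain ⟨⟨a1, a2, a3, a4⟩, a5⟩ := G
  exact ⟨⟨a1, a2, a3, fun i h1 h2 => ⟨(H.one _ hY _).1 (a4 i h1 h2).1, (H.one _ hY _).1 (a4 i h1 h2).2⟩⟩, a5⟩

/-- **(C), THE LINK**: the same witnesses -/
theorem pvzj_ll_arc (h : PvymSame 𝒬 pos pos') (hQ : pvzjLkQ N L ⊆ 𝒬) {y : T.Pth} (G : PvllArc N L T pos s 𝔖 𝔖' y) : PvllArc N L T pos' s 𝔖 𝔖' y := by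
  obtain ⟨n, hn⟩ := G.run
  exact ⟨pvzj_ll_atP h hQ G.at_p, pvzj_ll_atP' h hQ G.at_p', n, pvzj_ll_lk (pvzj_lk_same h hQ) (Or.inr rfl) hn⟩

end bodies

/-! ## 5. the value at fixed witnesses -/

/-- a weight is measurable in the positions -/
def PvzjWtMeas (W : ∀ V D : Type, PvMap V D → (V → ℂ) → D → ℂ) : Prop :=
  ∀ (V D : Type) (T : PvMap V D) (n : ℕ) (ι : V → Option (Fin n)) (zi : ℂ) (d : D), Measurable fun y : Fin n → ℂ => W V D T (pvymPos ι zi y) d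

theorem pvzj_eqns_citeE : True := by
  have := @PvzjWtMeas.eq_1
  trivial

/-- the weight of `Q` -/
theorem pvzj_Q_wt : PvzjWtMeas fun _ _ T pos => T.qpart pos := fun _ _ _ _ ι zi d => pvzk_qpart_meas ι zi d
/-- the weight of `V` -/
theorem pvzj_V_wt : PvzjWtMeas fun _ _ T pos => T.side pos := fun _ _ _ _ ι zi d => pvzk_side_meas ι zi d

section value

variable {W : ∀ V D : Type, PvMap V D → (V → ℂ) → D → ℂ} {T : PvMap V D} {n : ℕ} (ι : V → Option (Fin n)) (zi : ℂ)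

theorem pvzj_mass_meas (hW : PvzjWtMeas W) {K : Set ℂ} (hK : MeasurableSet K) (q : T.Pth) (i j : ℕ) :
    Measurable fun y : Fin n → ℂ => pvwMass T (pvymPos ι zi y) (W V D T (pvymPos ι zi y)) K q i j := by
  unfold pvwMass
  exact Finset.measurable_sum _ fun k _ => Measurable.ite (pvzk_bary_meas ι zi _ hK) (hW V D T n ι zi _) measurable_const

theorem pvzj_v_meas (hW : PvzjWtMeas W) (dr dr' : Bool) {Bl Mk : Set ℂ} (hB : MeasurableSet Bl) (hM : MeasurableSet Mk) (𝔖 𝔖' : PvwSt T) (q : T.Pth) :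
    Measurable fun y : Fin n → ℂ => pvllV dr dr' Bl Mk T (pvymPos ι zi y) (W V D T (pvymPos ι zi y)) 𝔖 𝔖' q := by
  unfold pvllV
  refine (((?_ : Measurable _).add (pvzj_mass_meas ι zi hW hM _ _ _)).add (pvzj_mass_meas ι zi hW hM _ _ _)).add (pvzj_mass_meas ι zi hW hM _ _ _)
  cases dr
  · exact pvzj_mass_meas ι zi hW hB _ _ _
  · exact measurable_const

theorem pvzj_msk_meas (N : PvwNum) {L : PvilLk} (mK : MeasurableSet L.Mk) : MeasurableSet (L.msk N) := by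
  unfold PvilLk.msk PvilLk.ball PvilLk.ball'
  refine mK.diff (MeasurableSet.union ?_ ?_)
  · split_ifs
    exacts [MeasurableSet.empty, measurableSet_closedBall]
  · split_ifs
    exacts [MeasurableSet.empty, measurableSet_closedBall]

theorem pvzj_val_meas (hW : PvzjWtMeas W) (N : PvwNum) {L : PvilLk} (mK : MeasurableSet L.Mk) (𝔖 𝔖' : PvwSt T) (q : T.Pth) :
    Measurable fun y : Fin n → ℂ => pvllVal N L T (pvymPos ι zi y) (W V D T (pvymPos ι zi y)) 𝔖 𝔖' q :=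
  pvzj_v_meas ι zi hW L.dr L.dr' measurableSet_closedBall (pvzj_msk_meas N mK) 𝔖 𝔖' q

end value

/-! ## 6. (A) -/

/-- **(A) for `pvymUo N p`** -/
theorem pvzj_Uo_measP (N : PvwNum) {p : PvilPl} (m : PvzjPlMeas p) : PvymFn.MeasP (M := Prop) (fun _ _ T pos s => ∃ 𝔖 : PvwSt T, PvllOut N p T pos s 𝔖) :=
  pvym_measP_of_iff (pvzj_plQ_finite N p) (pvzj_plQ_meas N m) fun _ _ _ _ _ _ h ⟨𝔖, G⟩ => ⟨𝔖, pvzj_ll_out h subset_rfl G⟩

/-- **(A) for `pvymUi N p`** -/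
theorem pvzj_Ui_measP (N : PvwNum) {p : PvilPl} (m : PvzjPlMeas p) : PvymFn.MeasP (M := Prop) (fun _ _ T pos s => ∃ 𝔖 : PvwSt T, PvllIn N p T pos s 𝔖) :=
  pvym_measP_of_iff (pvzj_plQ_finite N p) (pvzj_plQ_meas N m) fun _ _ _ _ _ _ h ⟨𝔖, G⟩ => ⟨𝔖, pvzj_ll_in h subset_rfl G⟩

/-- **(A) for `pvymLA N L`** -/
theorem pvzj_LA_measP (N : PvwNum) {L : PvilLk} (m : PvzjPlMeas L.p) (m' : PvzjPlMeas L.p') (mY : MeasurableSet L.Yin) :
    PvymFn.MeasP (M := Prop) (fun _ _ T pos s => ∃ (𝔖 𝔖' : PvwSt T) (y : T.Pth), PvllArc N L T pos s 𝔖 𝔖' y) :=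
  pvym_measP_of_iff (pvzj_lkQ_finite N L) (pvzj_lkQ_meas N m m' mY) fun _ _ _ _ _ _ h ⟨𝔖, 𝔖', y, G⟩ => ⟨𝔖, 𝔖', y, pvzj_ll_arc h subset_rfl G⟩

/-- **(A) for `pvymLX N L W`** (no uniqueness: `pvym_measP_pick3` of 247) -/
theorem pvzj_LX_measP (N : PvwNum) {L : PvilLk} (m : PvzjPlMeas L.p) (m' : PvzjPlMeas L.p') (mY : MeasurableSet L.Yin) (mK : MeasurableSet L.Mk)
    {W : ∀ V D : Type, PvMap V D → (V → ℂ) → D → ℂ} (hW : PvzjWtMeas W) :
    PvymFn.MeasP fun V D T pos s => pvymPick3 (PvllArc N L T pos s) (pvllVal N L T pos (W V D T pos)) (0 : ℂ) :=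
  pvym_measP_pick3 (W1 := fun _ _ T => PvwSt T) (W2 := fun _ _ T => PvwSt T) (W3 := fun _ _ T => T.Pth) (P := fun _ _ T pos s => PvllArc N L T pos s)
    (val := fun V D T pos _ => pvllVal N L T pos (W V D T pos)) 0 (pvzj_lkQ_finite N L) (pvzj_lkQ_meas N m m' mY)
    (fun _ _ _ _ _ _ h _ _ _ G => pvzj_ll_arc h subset_rfl G) fun _ _ _ _ _ ι zi 𝔖 𝔖' q => pvzj_val_meas ι zi hW N mK 𝔖 𝔖' q

end Claimed.Agent.R289
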