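-- KEEP
import Claimed.Agent.R289.Tr.InstL
import Claimed.Agent.R289.Tr.MeasGA
import Claimed.Agent.R289.Tr.MeasGL
import Claimed.Agent.R289.Tr.RetMk
import Claimed.Agent.R289.Tr.LinkLocA
import Claimed.Agent.R289.Tr.PinLocB
import Claimed.Agent.R289.Tr.AtUniq
import Claimed.Agent.R289.Tr.InstU
import Claimed.Agent.R289.Tr.MeasGM
import Claimed.Agent.R289.Tr.RetMkA
import Claimed.Agent.R289.Defs.InstWf

/-!
# Row 289 (S0537), THE WALL, ROAD E, file Tr/MeasL : **[MEAS] AT THE NAMES OF `Tr/InstL`**      (helper289; post MEAS of 24; prefix `pvml_`, `Pvml`, `pvml`)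

After RULING 18 (3) of 234 the events / values of the special links are `pvsuSure` / `pvsuLoc` (251) of PLAIN objects of the global plane map.      THE DEBT [MEAS] = `NullMeasurableSet M (pvP ε)`, `AEMeasurable F (pvP ε)` of the plain objects
(`hM` of `pvsu_sure_sub`, `pvsu_sure_iff`; `hF` of `pvsu_loc_eq`).      GENERIC LAYER OF RECORD = `Tr/MeasG`, `Tr/MeasGA` of 247: (L) `PvymFn.Local K` + (A) `PvymFn.MeasP` + `K` bounded ⟹ `pvym_null_col`, `pvym_aem_col`.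
THIS FILE = THE ASSEMBLY, GENERIC IN THE KIND OF THE ENDS (marked pin, door, reference plug: the packaging of a link may change, the contract of an end does not):
* sec. 1  tests seen in another frame: `pvmlPull`      (adapter `PvplIso` ⟹ `PvLocP`: `pvym_locP` of 247, `Tr/MeasGL`)
* sec. 2  **CONTRACT OF AN END** `PvmlW.OkP 𝒜 K` (exit end), `PvmlW.OkM 𝒜 K` (entrance end): `cong` (C, witness level), `rd` (`PvllP` / `PvllM` of 74), `fz` (frozen sites placed in `K`), `tr` (twin along `PvLocP`), `un` (uniqueness `PvuqG`, `PvuqP/M` of 150)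
          existence events `pvmlU P`: (A) `pvml_U_measP`, (L) `pvml_U_localP/M`
* sec. 3  **HULL EVENTS** `pvmlHu δ B P F`, `pvmlHuP δ B P`, `pvmlHuM δ B P : PvymFn (Set (ℤ × ℤ))` (cells of the frozen positions ∪ a FIXED set `B`): (A) `pvml_hu_measP` from the witness level (C) of `P` + `frozen sites in K`, (L) `pvml_hu_local`
* sec. 4  LINKS, generic in the ends (FALLBACK: the record for the links = `Tr/LinkLocA` of 74 + `Tr/MeasGM` of 247 + (A) of 231): `PvmlArc Po Pi Yin`, `pvmlA`, weights `PvmlWt`, values `pvmlX`: (A), (L)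
* sec. 5  **EXHAUSTION OF THE ROOM** (`PvieEng.Wf` has NO bound on `oK iK rK rY`): `pvmlCut L n` (`Yin ∩ closedBall 0 n`), `pvml_A_iUnion`, `pvml_X_eventually`, **`pvml_A_null_of_cut`**, **`pvml_X_aem_of_cut`**: [MEAS] of a link needs BOREL data only
* sec. 6  **EXITS AT ANY PLUG / LINK, BOREL DATA ONLY** (on `Tr/LinkLocA` of 74, `Tr/MeasGM` of 247, `Tr/RetMkA` of 231): `pvml_HuO_null pvml_HuI_null` (`0 < δ`, `‖fr‖ = 1`, `PvzjPlMeas p`), `pvml_Uo_null pvml_Ui_null pvml_U_null`;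
          `PvmlLkB L` (unit frames at the MARKED ends, Borel cells masks room: NO bound, NOTHING on the doors: a degenerate door has no state, `pvml_door_deg`), **`PvmlLkB.A_null`**, **`PvmlLkB.X_aem`**, `.XQ_aem .XV_aem .Xw_aem`
* sec. 7  **EXITS AT THE DATA OF RECORD (`Tr/InstL` v2.2.x + sec. 8: links `o i e r f`), 0 sorry**, hypotheses `𝔓.WfB`, `PvmlEngB 𝔈` (`pvml_engB` from `PvieEng.Wf`), `0 < ε`, `PvmlWm w` (`pvml_wm_Q`, `pvml_wm_V`), ALL levels, types, centres, hulls: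
          `pvml_Mo_null Mi Me Mr` (plain events), `pvml_Zo_null Zi` (hull events), `pvml_Xo_aem Xi Xe Xr` (plain values), **`pvml_SAo_null SAi SAe SAr`** (the events under `pvilSA`; window Borel: `pvzi2_mWno ..` of 282), `pvml_IXo_aem ..` (the functions under `pvilLoc`), `pvml_Upin_null`
REMARK (uniqueness on abstract maps).   `Gate.ori` compares the POSITIONS of `g⁻`, `g⁺`: on an abstract positioned map with `pos g⁺ = pos g⁻` the two orientations are both states.   Cure of 247 (`Tr/MeasG` v2): (L) is asked among `PvymOk T pos K` (distinct positions in `K`).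
-/

set_option autoImplicit false
set_option linter.unusedSectionVars false

namespace Claimed.Agent.R289

open MeasureTheory Set Metric Claims.C0465
open scoped ComplexConjugate

/-! ## 1. frames -/

section adapter

variable {V D V' D' : Type} {T : PvMap V D} {T' : PvMap V' D'} {pos : V → ℂ} {pos' : V' → ℂ} {s : V → Bool} {s' : V' → Bool} {K : Set ℂ} {R : V → V' → Prop}

/-- the tests of `𝒬` read in the frame `g` -/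
def pvmlPull (g : ℂ → ℂ) (𝒬 : Set (Set (ℂ × ℂ × ℂ × ℂ))) : Set (Set (ℂ × ℂ × ℂ × ℂ)) := (fun S => {q : ℂ × ℂ × ℂ × ℂ | (g q.1, g q.2.1, g q.2.2.1, g q.2.2.2) ∈ S}) '' 𝒬

theorem pvml_eqns_cite : True := by
  have := @pvmlPull.eq_1
  trivial

theorem pvml_pull_finite (g : ℂ → ℂ) {𝒬 : Set (Set (ℂ × ℂ × ℂ × ℂ))} (h : 𝒬.Finite) : (pvmlPull g 𝒬).Finite := h.image _

theorem pvml_pull_meas {g : ℂ → ℂ} (hg : Measurable g) {𝒬 : Set (Set (ℂ × ℂ × ℂ × ℂ))} (h : ∀ S ∈ 𝒬, MeasurableSet S) : ∀ S ∈ pvmlPull g 𝒬, MeasurableSet S := by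
  rintro _ ⟨S, hS, rfl⟩
  exact ((hg.comp measurable_fst).prodMk ((hg.comp measurable_snd.fst).prodMk ((hg.comp measurable_snd.snd.fst).prodMk (hg.comp measurable_snd.snd.snd)))) (h S hS)

theorem pvml_same_pull {g : ℂ → ℂ} {𝒬 : Set (Set (ℂ × ℂ × ℂ × ℂ))} {pos pos' : V → ℂ} (h : PvymSame (pvmlPull g 𝒬) pos pos') : PvymSame 𝒬 (fun v => g (pos v)) (fun v => g (pos' v)) :=
  fun S hS a b c d => h _ ⟨S, hS, rfl⟩ a b c d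

end adapter

/-! ## 2. the contract of an end -/

/-- a predicate on the states of positioned coloured maps -/
def PvmlW : Type 1 := ∀ (V D : Type) (T : PvMap V D), (V → ℂ) → (V → Bool) → PvwSt T → Prop

/-- **CONTRACT OF AN EXIT END** (tests `𝒜`, region `K`) -/
structure PvmlW.OkP (P : PvmlW) (𝒜 : Set (Set (ℂ × ℂ × ℂ × ℂ))) (K : Set ℂ) : Prop where
  /-- (C) at the level of the witness -/
  cong : ∀ (V D : Type) (T : PvMap V D) (s : V → Bool) (pos pos' : V → ℂ), PvymSame 𝒜 pos pos' → ∀ 𝔖, P V D T pos s 𝔖 → P V D T pos' s 𝔖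
  /-- what a link reads (74) -/
  rd : ∀ (V D : Type) (T : PvMap V D) (pos : V → ℂ) (s : V → Bool) (𝔖 : PvwSt T), P V D T pos s 𝔖 → PvllP K T pos s 𝔖
  /-- the frozen sites are placed in `K` -/
  fz : ∀ (V D : Type) (T : PvMap V D) (pos : V → ℂ) (s : V → Bool) (𝔖 : PvwSt T), P V D T pos s 𝔖 → ∀ u ∈ 𝔖.fzOut, pos u ∈ K
  /-- the mark lies on the inner arc -/
  ip : ∀ (V D : Type) (T : PvMap V D) (pos : V → ℂ) (s : V → Bool) (𝔖 : PvwSt T), P V D T pos s 𝔖 → 𝔖.ip ≤ 𝔖.inn.n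
  /-- (L) at the level of the witness: a twin -/
  tr : ∀ (V D V' D' : Type) (T : PvMap V D) (T' : PvMap V' D') (Rd : D → D' → Prop) (pos : V → ℂ) (pos' : V' → ℂ) (s : V → Bool) (s' : V' → Bool),
    PvymOk T pos K → PvymOk T' pos' K → PvLocP T T' Rd pos pos' K → (∀ d d', Rd d d' → s (T.src d) = s' (T'.src d')) →
      ∀ 𝔖, P V D T pos s 𝔖 → ∃ 𝔖', PvLocSP Rd 𝔖 𝔖' ∧ P V' D' T' pos' s' 𝔖'
  /-- uniqueness (150) -/
  un : ∀ (V D : Type) (T : PvMap V D) (pos : V → ℂ) (s : V → Bool), PvymOk T pos K → ∀ 𝔖 𝔖', P V D T pos s 𝔖 → P V D T pos s 𝔖' → PvuqG 𝔖 𝔖' ∧ PvuqP 𝔖 𝔖'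

/-- **CONTRACT OF AN ENTRANCE END** -/
structure PvmlW.OkM (P : PvmlW) (𝒜 : Set (Set (ℂ × ℂ × ℂ × ℂ))) (K : Set ℂ) : Prop where
  cong : ∀ (V D : Type) (T : PvMap V D) (s : V → Bool) (pos pos' : V → ℂ), PvymSame 𝒜 pos pos' → ∀ 𝔖, P V D T pos s 𝔖 → P V D T pos' s 𝔖
  rd : ∀ (V D : Type) (T : PvMap V D) (pos : V → ℂ) (s : V → Bool) (𝔖 : PvwSt T), P V D T pos s 𝔖 → PvllM K T pos s 𝔖
  fz : ∀ (V D : Type) (T : PvMap V D) (pos : V → ℂ) (s : V → Bool) (𝔖 : PvwSt T), P V D T pos s 𝔖 → ∀ u ∈ 𝔖.fzIn, pos u ∈ K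
  ip : ∀ (V D : Type) (T : PvMap V D) (pos : V → ℂ) (s : V → Bool) (𝔖 : PvwSt T), P V D T pos s 𝔖 → 𝔖.ip ≤ 𝔖.inn.n
  tr : ∀ (V D V' D' : Type) (T : PvMap V D) (T' : PvMap V' D') (Rd : D → D' → Prop) (pos : V → ℂ) (pos' : V' → ℂ) (s : V → Bool) (s' : V' → Bool),
    PvymOk T pos K → PvymOk T' pos' K → PvLocP T T' Rd pos pos' K → (∀ d d', Rd d d' → s (T.src d) = s' (T'.src d')) →
      ∀ 𝔖, P V D T pos s 𝔖 → ∃ 𝔖', PvLocSM Rd 𝔖 𝔖' ∧ P V' D' T' pos' s' 𝔖'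
  un : ∀ (V D : Type) (T : PvMap V D) (pos : V → ℂ) (s : V → Bool), PvymOk T pos K → ∀ 𝔖 𝔖', P V D T pos s 𝔖 → P V D T pos s 𝔖' → PvuqG 𝔖 𝔖' ∧ PvuqM 𝔖 𝔖'

/-- the state exists -/
def pvmlU (P : PvmlW) : PvplPred ℂ := fun V D T pos s => ∃ 𝔖 : PvwSt T, P V D T pos s 𝔖

theorem pvml_eqns_cite2 : True := by
  have := @PvmlW.eq_1; have := @pvmlU.eq_1
  trivial

section ends

variable {P : PvmlW} {𝒜 : Set (Set (ℂ × ℂ × ℂ × ℂ))} {K : Set ℂ}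

/-- from a local isomorphism of 238 and an exit end: the positioned local isomorphism of 22 -/
theorem PvmlW.OkP.locP (H : P.OkP 𝒜 K) {V D V' D' : Type} {T : PvMap V D} {pos : V → ℂ} {s : V → Bool} {T' : PvMap V' D'} {pos' : V' → ℂ} {s' : V' → Bool} {R : V → V' → Prop}
    (o : PvymOk T pos K) (o' : PvymOk T' pos' K) (h : PvplIso T pos s T' pos' s' K R) {𝔖 : PvwSt T} (h𝔖 : P V D T pos s 𝔖) :
    PvLocP T T' (pvplRK T pos T' K R) pos pos' K :=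
  pvym_locP h o o' (d0 := 𝔖.dp) ((H.rd V D T pos s 𝔖 h𝔖).stub 0 (Nat.zero_le _))

theorem PvmlW.OkM.locP (H : P.OkM 𝒜 K) {V D V' D' : Type} {T : PvMap V D} {pos : V → ℂ} {s : V → Bool} {T' : PvMap V' D'} {pos' : V' → ℂ} {s' : V' → Bool} {R : V → V' → Prop}
    (o : PvymOk T pos K) (o' : PvymOk T' pos' K) (h : PvplIso T pos s T' pos' s' K R) {𝔖 : PvwSt T} (h𝔖 : P V D T pos s 𝔖) :
    PvLocP T T' (pvplRK T pos T' K R) pos pos' K :=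
  pvym_locP h o o' (d0 := 𝔖.dm) ((H.rd V D T pos s 𝔖 h𝔖).stub 0 (Nat.zero_le _))

/-- (A) for the existence of the state -/
theorem pvml_U_measP (hfin : 𝒜.Finite) (hm : ∀ S ∈ 𝒜, MeasurableSet S)
    (cong : ∀ (V D : Type) (T : PvMap V D) (s : V → Bool) (pos pos' : V → ℂ), PvymSame 𝒜 pos pos' → ∀ 𝔖, P V D T pos s 𝔖 → P V D T pos' s 𝔖) : PvymFn.MeasP (M := Prop) (pvmlU P) :=
  pvym_measP_of_iff hfin hm fun V D T s pos pos' hp ⟨𝔖, h⟩ => ⟨𝔖, cong V D T s pos pos' hp 𝔖 h⟩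

/-- (L) for the existence of the exit half state -/
theorem pvml_U_localP (H : P.OkP 𝒜 K) : PvymFn.Local (M := Prop) (pvmlU P) K :=
  pvym_local_of_imp fun V D V' D' T pos s T' pos' s' R o o' h ⟨𝔖, h𝔖⟩ => by
    obtain ⟨𝔖', -, h'⟩ := H.tr V D V' D' T T' _ pos pos' s s' o o' (H.locP o o' h h𝔖) h.loc_col 𝔖 h𝔖
    exact ⟨𝔖', h'⟩

/-- (L) for the existence of the entrance half state -/
theorem pvml_U_localM (H : P.OkM 𝒜 K) : PvymFn.Local (M := Prop) (pvmlU P) K :=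
  pvym_local_of_imp fun V D V' D' T pos s T' pos' s' R o o' h ⟨𝔖, h𝔖⟩ => by
    obtain ⟨𝔖', -, h'⟩ := H.tr V D V' D' T T' _ pos pos' s s' o o' (H.locP o o' h h𝔖) h.loc_col 𝔖 h𝔖
    exact ⟨𝔖', h'⟩

end ends

/-! ## 3. hull events -/

/-- the hull of (a set of sites of the state) ∪ (a fixed set `B`: nothing, or the mouth ball) -/
def pvmlHu (δ : ℝ) (B : Set ℂ) (P : PvmlW) (F : ∀ (V D : Type) (T : PvMap V D), PvwSt T → Set V) : PvymFn (Set (ℤ × ℤ)) := fun V D T pos s =>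
  {q | ∃ 𝔖 : PvwSt T, P V D T pos s 𝔖 ∧ q ∈ pvtCells δ (pos '' F V D T 𝔖 ∪ B)}

/-- **the hull of `Σ_out`** (`pvilHuO`) -/
def pvmlHuP (δ : ℝ) (B : Set ℂ) (P : PvmlW) : PvymFn (Set (ℤ × ℤ)) := pvmlHu δ B P (fun _ _ _ 𝔖 => 𝔖.fzOut)
/-- **the hull of `Σ_in`** (`pvilHuI`) -/
def pvmlHuM (δ : ℝ) (B : Set ℂ) (P : PvmlW) : PvymFn (Set (ℤ × ℤ)) := pvmlHu δ B P (fun _ _ _ 𝔖 => 𝔖.fzIn)

/-- the tests of a hull: the cells of `Q` -/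
def pvmlCellT (δ : ℝ) (Q : Set (ℤ × ℤ)) : Set (Set (ℂ × ℂ × ℂ × ℂ)) := (fun q => pvymT1 (pvtSq δ q)) '' Q

theorem pvml_eqns_cite3 : True := by
  have := @pvmlHu.eq_1; have := @pvmlHuP.eq_1; have := @pvmlHuM.eq_1; have := @pvmlCellT.eq_1
  trivial

theorem pvml_cellT_finite (δ : ℝ) {Q : Set (ℤ × ℤ)} (hQ : Q.Finite) : (pvmlCellT δ Q).Finite := hQ.image _

theorem pvml_cellT_meas (δ : ℝ) (Q : Set (ℤ × ℤ)) : ∀ S ∈ pvmlCellT δ Q, MeasurableSet S := by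
  rintro S ⟨q, -, rfl⟩
  exact pvym_meas_T1 pvt_sq_closed.measurableSet

section hull

variable {P : PvmlW} {𝒜 : Set (Set (ℂ × ℂ × ℂ × ℂ))} {K B : Set ℂ} {δ : ℝ} {F : ∀ (V D : Type) (T : PvMap V D), PvwSt T → Set V}

/-- (C) for the hull, one inclusion -/
theorem pvml_hu_sub
    (cong : ∀ (V D : Type) (T : PvMap V D) (s : V → Bool) (pos pos' : V → ℂ), PvymSame 𝒜 pos pos' → ∀ 𝔖, P V D T pos s 𝔖 → P V D T pos' s 𝔖)
    (bd : ∀ (V D : Type) (T : PvMap V D) (pos : V → ℂ) (s : V → Bool) (𝔖 : PvwSt T), P V D T pos s 𝔖 → ∀ u ∈ F V D T 𝔖, pos u ∈ K)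
    (V D : Type) (T : PvMap V D) (s : V → Bool) (pos pos' : V → ℂ) (h : PvymSame (𝒜 ∪ pvmlCellT δ (pvtCells δ K)) pos pos') :
    pvmlHu δ B P F V D T pos s ⊆ pvmlHu δ B P F V D T pos' s := by
  rintro q ⟨𝔖, hP, x, hxq, hx⟩
  refine ⟨𝔖, cong V D T s pos pos' (h.mono subset_union_left) 𝔖 hP, ?_⟩
  rcases hx with ⟨u, hu, rfl⟩ | hx
  · exact ⟨pos' u, (h.t1 (B := pvtSq δ q) (Or.inr ⟨q, ⟨pos u, hxq, bd V D T pos s 𝔖 hP u hu⟩, rfl⟩) u).1 hxq, Or.inl ⟨u, hu, rfl⟩⟩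
  · exact ⟨x, hxq, Or.inr hx⟩

/-- **(A) for a hull event** -/
theorem pvml_hu_measP (hδ : 0 < δ) (hfin : 𝒜.Finite) (hm : ∀ S ∈ 𝒜, MeasurableSet S) (hK : Bornology.IsBounded K)
    (cong : ∀ (V D : Type) (T : PvMap V D) (s : V → Bool) (pos pos' : V → ℂ), PvymSame 𝒜 pos pos' → ∀ 𝔖, P V D T pos s 𝔖 → P V D T pos' s 𝔖)
    (bd : ∀ (V D : Type) (T : PvMap V D) (pos : V → ℂ) (s : V → Bool) (𝔖 : PvwSt T), P V D T pos s 𝔖 → ∀ u ∈ F V D T 𝔖, pos u ∈ K)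
    (Z : Set (ℤ × ℤ)) : PvymFn.MeasP (M := Prop) (fun V D T pos s => pvmlHu δ B P F V D T pos s = Z) := by
  refine pvym_measP_of_iff (𝒜 := 𝒜 ∪ pvmlCellT δ (pvtCells δ K)) (hfin.union (pvml_cellT_finite δ (pvt_cells_finite hδ hK))) ?_ ?_
  · rintro S (hS | hS)
    exacts [hm S hS, pvml_cellT_meas δ _ S hS]
  · intro V D T s pos pos' hp hZ
    rw [← hZ]
    exact (pvml_hu_sub cong bd V D T s pos' pos hp.symm).antisymm (pvml_hu_sub cong bd V D T s pos pos' hp)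

/-- **(L) for the hull** -/
theorem pvml_hu_local
    (tr : ∀ (V D V' D' : Type) (T : PvMap V D) (pos : V → ℂ) (s : V → Bool) (T' : PvMap V' D') (pos' : V' → ℂ) (s' : V' → Bool) (R : V → V' → Prop),
      PvymOk T pos K → PvymOk T' pos' K → PvplIso T pos s T' pos' s' K R → ∀ 𝔖, P V D T pos s 𝔖 → ∃ 𝔖', P V' D' T' pos' s' 𝔖' ∧ pos' '' F V' D' T' 𝔖' = pos '' F V D T 𝔖) :
    (pvmlHu δ B P F).Local K := by
  have key : ∀ (V D V' D' : Type) (T : PvMap V D) (pos : V → ℂ) (s : V → Bool) (T' : PvMap V' D') (pos' : V' → ℂ) (s' : V' → Bool) (R : V → V' → Prop),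
      PvymOk T pos K → PvymOk T' pos' K → PvplIso T pos s T' pos' s' K R → pvmlHu δ B P F V D T pos s ⊆ pvmlHu δ B P F V' D' T' pos' s' := by
    rintro V D V' D' T pos s T' pos' s' R h1 h2 h5 q ⟨𝔖, hP, hq⟩
    obtain ⟨𝔖', hP', e1⟩ := tr V D V' D' T pos s T' pos' s' R h1 h2 h5 𝔖 hP
    exact ⟨𝔖', hP', by rw [e1]; exact hq⟩
  intro V D V' D' T pos s T' pos' s' R h1 h2 h5
  exact (key V D V' D' T pos s T' pos' s' R h1 h2 h5).antisymm (key V' D' V D T' pos' s' T pos s _ h2 h1 h5.symm)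

/-- corresponding sets of sites have the same positions -/
theorem pvml_image_eq {V D V' D' : Type} {T : PvMap V D} {T' : PvMap V' D'} {Rd : D → D' → Prop} {pos : V → ℂ} {pos' : V' → ℂ} (L : PvLocP T T' Rd pos pos' K) {A : Set V} {A' : Set V'}
    (h : PvLocSet T T' Rd A A') : pos' '' A' = pos '' A := by
  ext x
  constructor
  · rintro ⟨v', hv', rfl⟩
    obtain ⟨v, r, hv⟩ := h.2 v' hv'
    exact ⟨v, hv, pvlw_pos L r⟩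
  · rintro ⟨v, hv, rfl⟩
    obtain ⟨v', r, hv'⟩ := h.1 v hv
    exact ⟨v', hv', (pvlw_pos L r).symm⟩

/-- (A) for the hull event of an exit end -/
theorem PvmlW.OkP.hu_measP (H : P.OkP 𝒜 K) (hδ : 0 < δ) (hfin : 𝒜.Finite) (hm : ∀ S ∈ 𝒜, MeasurableSet S) (hK : Bornology.IsBounded K) (Z : Set (ℤ × ℤ)) :
    PvymFn.MeasP (M := Prop) (fun V D T pos s => pvmlHuP δ B P V D T pos s = Z) :=
  pvml_hu_measP hδ hfin hm hK H.cong H.fz Z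

/-- (L) for the hull of an exit end -/
theorem PvmlW.OkP.hu_local (H : P.OkP 𝒜 K) : (pvmlHuP δ B P).Local K :=
  pvml_hu_local fun V D V' D' T pos s T' pos' s' R h1 h2 h5 𝔖 hP => by
    have L := H.locP h1 h2 h5 hP
    obtain ⟨𝔖', G, hP'⟩ := H.tr V D V' D' T T' _ pos pos' s s' h1 h2 L h5.loc_col 𝔖 hP
    exact ⟨𝔖', hP', pvml_image_eq L (pvlw_fzOut L.loc G)⟩

/-- (A) for the hull event of an entrance end -/
theorem PvmlW.OkM.hu_measP (H : P.OkM 𝒜 K) (hδ : 0 < δ) (hfin : 𝒜.Finite) (hm : ∀ S ∈ 𝒜, MeasurableSet S) (hK : Bornology.IsBounded K) (Z : Set (ℤ × ℤ)) :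
    PvymFn.MeasP (M := Prop) (fun V D T pos s => pvmlHuM δ B P V D T pos s = Z) :=
  pvml_hu_measP hδ hfin hm hK H.cong H.fz Z

/-- (L) for the hull of an entrance end -/
theorem PvmlW.OkM.hu_local (H : P.OkM 𝒜 K) : (pvmlHuM δ B P).Local K :=
  pvml_hu_local fun V D V' D' T pos s T' pos' s' R h1 h2 h5 𝔖 hP => by
    have L := H.locP h1 h2 h5 hP
    obtain ⟨𝔖', G, hP'⟩ := H.tr V D V' D' T T' _ pos pos' s s' h1 h2 L h5.loc_col 𝔖 hP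
    exact ⟨𝔖', hP', pvml_image_eq L (pvlw_fzIn L.loc G)⟩

end hull

/-! ## 4. links -/

/-- **the two ends exist, the link succeeds, `y` = its rim arc** (`PvilLk.Arc`) -/
def PvmlArc (Po Pi : PvmlW) (Yin : Set ℂ) (V D : Type) (T : PvMap V D) (pos : V → ℂ) (s : V → Bool) (𝔖 𝔖' : PvwSt T) (y : T.Pth) : Prop :=
  Po V D T pos s 𝔖 ∧ Pi V D T pos s 𝔖' ∧ ∃ n, PvllLk T pos s Yin 𝔖 𝔖' n y

/-- **plain success of the link** (`PvilLk.A`) -/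
def pvmlA (Po Pi : PvmlW) (Yin : Set ℂ) : PvplPred ℂ := fun V D T pos s => ∃ (𝔖 𝔖' : PvwSt T) (y : T.Pth), PvmlArc Po Pi Yin V D T pos s 𝔖 𝔖' y

/-- a weight of the darts of a positioned map -/
def PvmlWt : Type 1 := ∀ (V D : Type), PvMap V D → (V → ℂ) → D → ℂ

/-- the weight is carried by the positioned local isomorphisms and is Borel in the positions -/
structure PvmlWt.Ok (w : PvmlWt) : Prop where
  tr : ∀ (V D V' D' : Type) (T : PvMap V D) (T' : PvMap V' D') (Rd : D → D' → Prop) (pos : V → ℂ) (pos' : V' → ℂ) (K : Set ℂ), PvLocP T T' Rd pos pos' K → ∀ d d', Rd d d' → w V D T pos d = w V' D' T' pos' d'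
  meas : ∀ (V D : Type) (T : PvMap V D) (n : ℕ) (ι : V → Option (Fin n)) (zi : ℂ) (d : D), Measurable fun y : Fin n → ℂ => w V D T (pvymPos ι zi y) d

/-- the weight of `Q` -/
noncomputable def pvmlQ : PvmlWt := fun _ _ T pos d => T.qpart pos d
/-- the weight of `V` -/
def pvmlV : PvmlWt := fun _ _ T pos d => T.side pos d

/-- the data of the value of a link: cut-off ball of the first end, mask, door bits -/
structure PvmlVal where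
  B : Set ℂ
  Mk : Set ℂ
  dr : Bool
  dr' : Bool

/-- **`I_X(p → p')`** (`PvilLk.val`, the formula of 125) -/
noncomputable def PvmlVal.val (𝔳 : PvmlVal) {V D : Type} (T : PvMap V D) (pos : V → ℂ) (w : D → ℂ) (𝔖 𝔖' : PvwSt T) (y : T.Pth) : ℂ :=
  (if 𝔳.dr then 0 else pvwMass T pos w 𝔳.B 𝔖.inn 0 𝔖.inn.n) + pvwMass T pos w 𝔳.Mk 𝔖.inn (if 𝔳.dr then 0 else 𝔖.ip) 𝔖.inn.n +
    pvwMass T pos w 𝔳.Mk y 0 y.n + pvwMass T pos w 𝔳.Mk 𝔖'.inn 0 (if 𝔳.dr' then 𝔖'.inn.n else 𝔖'.ip)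

/-- **the plain value of the link** (`PvilLk.X`) -/
noncomputable def pvmlX (Po Pi : PvmlW) (Yin : Set ℂ) (𝔳 : PvmlVal) (w : PvmlWt) : PvymFn ℂ := fun V D T pos s =>
  pvymPick3 (PvmlArc Po Pi Yin V D T pos s) (𝔳.val T pos (w V D T pos)) 0

theorem pvml_eqns_cite4 : True := by
  have := @PvmlArc.eq_1; have := @pvmlA.eq_1; have := @PvmlWt.eq_1; have := @pvmlQ.eq_1; have := @pvmlV.eq_1; have := @PvmlVal.val.eq_1; have := @pvmlX.eq_1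
  trivial

theorem pvml_Q_ok : pvmlQ.Ok := ⟨fun _ _ _ _ _ _ _ _ _ _ L _ _ h => pvlw_qpart L h, fun _ _ _ _ ι zi d => pvzk_qpart_meas ι zi d⟩
theorem pvml_V_ok : pvmlV.Ok := ⟨fun _ _ _ _ _ _ _ _ _ _ L _ _ h => pvlw_side L h, fun _ _ _ _ ι zi d => pvzk_side_meas ι zi d⟩

section links

variable {Po Pi : PvmlW} {𝒜 : Set (Set (ℂ × ℂ × ℂ × ℂ))} {K Yin : Set ℂ}

/-- (C) for the arcs, witness level -/
theorem pvml_arc_cong (Ho : Po.OkP 𝒜 K) (Hi : Pi.OkM 𝒜 K) (hY : pvymT1 Yin ∈ 𝒜) (V D : Type) (T : PvMap V D) (s : V → Bool) (pos pos' : V → ℂ) (h : PvymSame 𝒜 pos pos')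
    (𝔖 𝔖' : PvwSt T) (y : T.Pth) (hA : PvmlArc Po Pi Yin V D T pos s 𝔖 𝔖' y) : PvmlArc Po Pi Yin V D T pos' s 𝔖 𝔖' y := by
  obtain ⟨h1, h2, n, ⟨r1, r2, r3, r4⟩, hle⟩ := hA
  exact ⟨Ho.cong V D T s pos pos' h 𝔖 h1, Hi.cong V D T s pos pos' h 𝔖' h2, n, ⟨r1, r2, r3, fun i hi hi' => ⟨(h.t1 hY _).1 (r4 i hi hi').1, (h.t1 hY _).1 (r4 i hi hi').2⟩⟩, hle⟩

/-- (L) for the arcs, witness level: twins -/
theorem pvml_arc_tr (Ho : Po.OkP 𝒜 K) (Hi : Pi.OkM 𝒜 K) (hY : Yin ⊆ K) {V D V' D' : Type} {T : PvMap V D} {T' : PvMap V' D'} {Rd : D → D' → Prop} {pos : V → ℂ} {pos' : V' → ℂ} {s : V → Bool} {s' : V' → Bool}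
    (o : PvymOk T pos K) (o' : PvymOk T' pos' K) (L : PvLocP T T' Rd pos pos' K) (hs : ∀ d d', Rd d d' → s (T.src d) = s' (T'.src d'))
    {𝔖 𝔖' : PvwSt T} {y : T.Pth} (hA : PvmlArc Po Pi Yin V D T pos s 𝔖 𝔖' y) :
    ∃ (𝔖₁ 𝔖₁' : PvwSt T') (y₁ : T'.Pth), PvmlArc Po Pi Yin V' D' T' pos' s' 𝔖₁ 𝔖₁' y₁ ∧ PvLocSP Rd 𝔖 𝔖₁ ∧ PvLocSM Rd 𝔖' 𝔖₁' ∧ PvLocPth Rd y y₁ := by
  obtain ⟨h1, h2, n, hl⟩ := hA
  obtain ⟨𝔖₁, G, k1⟩ := Ho.tr V D V' D' T T' Rd pos pos' s s' o o' L hs 𝔖 h1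
  obtain ⟨𝔖₁', G', k2⟩ := Hi.tr V D V' D' T T' Rd pos pos' s s' o o' L hs 𝔖' h2
  obtain ⟨y₁, P, hl₁⟩ := pvll_link L hs hY G G' (Ho.rd V D T pos s 𝔖 h1) (Hi.rd V D T pos s 𝔖' h2) hl
  exact ⟨𝔖₁, 𝔖₁', y₁, ⟨k1, k2, n, hl₁⟩, G, G', P⟩

/-- uniqueness of the witnesses of a link -/
theorem pvml_arc_un (Ho : Po.OkP 𝒜 K) (Hi : Pi.OkM 𝒜 K) {V D : Type} {T : PvMap V D} {pos : V → ℂ} {s : V → Bool} (o : PvymOk T pos K)
    {𝔖 𝔖' 𝔖₁ 𝔖₁' : PvwSt T} {y y₁ : T.Pth} (hA : PvmlArc Po Pi Yin V D T pos s 𝔖 𝔖' y) (hA₁ : PvmlArc Po Pi Yin V D T pos s 𝔖₁ 𝔖₁' y₁) :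
    PvuqG 𝔖 𝔖₁ ∧ PvuqG 𝔖' 𝔖₁' ∧ y.n = y₁.n ∧ ∀ k, k < y.n → y.e k = y₁.e k := by
  obtain ⟨h1, h2, n, ⟨-, r2, r3, -⟩, hle⟩ := hA
  obtain ⟨k1, k2, n₁, ⟨-, t2, t3, -⟩, hle₁⟩ := hA₁
  have g1 := (Ho.un V D T pos s o 𝔖 𝔖₁ h1 k1).1
  have g2 := (Hi.un V D T pos s o 𝔖' 𝔖₁' h2 k2).1
  rw [← g1.dp, ← g2.dm] at t2 t3
  rw [← g1.dp] at hle₁
  have hn : n = n₁ := by
    rcases lt_trichotomy n n₁ with hlt | he | hlt
    · exact absurd r2 (t3 n hlt)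
    · exact he
    · exact absurd t2 (r3 n₁ hlt)
  subst hn
  obtain ⟨c1, -, c3⟩ := pvt_sd_unique o.simple hle hle₁
  exact ⟨g1, g2, c1, c3⟩

/-- **(A) for the success of a link** -/
theorem pvml_A_measP (Ho : Po.OkP 𝒜 K) (Hi : Pi.OkM 𝒜 K) (hY : pvymT1 Yin ∈ 𝒜) (hfin : 𝒜.Finite) (hm : ∀ S ∈ 𝒜, MeasurableSet S) : PvymFn.MeasP (M := Prop) (pvmlA Po Pi Yin) :=
  pvym_measP_of_iff hfin hm fun V D T s pos pos' hp ⟨𝔖, 𝔖', y, h⟩ => ⟨𝔖, 𝔖', y, pvml_arc_cong Ho Hi hY V D T s pos pos' hp 𝔖 𝔖' y h⟩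

/-- **(L) for the success of a link** -/
theorem pvml_A_local (Ho : Po.OkP 𝒜 K) (Hi : Pi.OkM 𝒜 K) (hY : Yin ⊆ K) : PvymFn.Local (M := Prop) (pvmlA Po Pi Yin) K :=
  pvym_local_of_imp fun V D V' D' T pos s T' pos' s' R o o' h ⟨𝔖, 𝔖', y, hA⟩ => by
    obtain ⟨𝔖₁, 𝔖₁', y₁, hA₁, -⟩ := pvml_arc_tr Ho Hi hY o o' (Ho.locP o o' h hA.1) h.loc_col hA
    exact ⟨𝔖₁, 𝔖₁', y₁, hA₁⟩

theorem pvml_mass_meas {w : PvmlWt} (hw : w.Ok) {V D : Type} {T : PvMap V D} {n : ℕ} (ι : V → Option (Fin n)) (zi : ℂ) {B : Set ℂ} (hB : MeasurableSet B) (p : T.Pth) (i j : ℕ) :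
    Measurable fun y : Fin n → ℂ => pvwMass T (pvymPos ι zi y) (w V D T (pvymPos ι zi y)) B p i j := by
  unfold pvwMass
  exact Finset.measurable_sum _ fun k _ => Measurable.ite (pvzk_bary_meas ι zi _ hB) (hw.meas V D T n ι zi _) measurable_const

theorem pvml_val_meas {w : PvmlWt} (hw : w.Ok) {𝔳 : PvmlVal} (hB : MeasurableSet 𝔳.B) (hMk : MeasurableSet 𝔳.Mk) {V D : Type} {T : PvMap V D} {n : ℕ} (ι : V → Option (Fin n)) (zi : ℂ)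
    (𝔖 𝔖' : PvwSt T) (q : T.Pth) : Measurable fun y : Fin n → ℂ => 𝔳.val T (pvymPos ι zi y) (w V D T (pvymPos ι zi y)) 𝔖 𝔖' q := by
  unfold PvmlVal.val
  refine Measurable.add (Measurable.add (Measurable.add ?_ (pvml_mass_meas hw ι zi hMk _ _ _)) (pvml_mass_meas hw ι zi hMk _ _ _)) (pvml_mass_meas hw ι zi hMk _ _ _)
  cases 𝔳.dr
  · exact pvml_mass_meas hw ι zi hB _ _ _
  · exact measurable_const

/-- **(A) for the value of a link** -/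
theorem pvml_X_measP (Ho : Po.OkP 𝒜 K) (Hi : Pi.OkM 𝒜 K) (hY : pvymT1 Yin ∈ 𝒜) (hfin : 𝒜.Finite) (hm : ∀ S ∈ 𝒜, MeasurableSet S) {w : PvmlWt} (hw : w.Ok) {𝔳 : PvmlVal}
    (hB : MeasurableSet 𝔳.B) (hMk : MeasurableSet 𝔳.Mk) : (pvmlX Po Pi Yin 𝔳 w).MeasP :=
  pvym_measP_pick3 (W1 := fun _ _ T => PvwSt T) (W2 := fun _ _ T => PvwSt T) (W3 := fun _ _ T => T.Pth) (P := fun V D T pos s => PvmlArc Po Pi Yin V D T pos s)
    (val := fun V D T pos _ => 𝔳.val T pos (w V D T pos)) 0 hfin hm (fun V D T s pos pos' h 𝔖 𝔖' y => pvml_arc_cong Ho Hi hY V D T s pos pos' h 𝔖 𝔖' y)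
    fun _ _ _ _ _ ι zi 𝔖 𝔖' q => pvml_val_meas hw hB hMk ι zi 𝔖 𝔖' q

/-- **(L) for the value of a link** -/
theorem pvml_X_local (Ho : Po.OkP 𝒜 K) (Hi : Pi.OkM 𝒜 K) (hY : Yin ⊆ K) {w : PvmlWt} (hw : w.Ok) (𝔳 : PvmlVal) : (pvmlX Po Pi Yin 𝔳 w).Local K := by
  refine pvym_local_pick3 (W1 := fun _ _ T => PvwSt T) (W2 := fun _ _ T => PvwSt T) (W3 := fun _ _ T => T.Pth) (P := fun V D T pos s => PvmlArc Po Pi Yin V D T pos s)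
    (val := fun V D T pos _ => 𝔳.val T pos (w V D T pos)) 0 ?_ ?_
  · intro V D V' D' T pos s T' pos' s' R o o' h 𝔖 𝔖' y hA
    have L := Ho.locP o o' h hA.1
    obtain ⟨𝔖₁, 𝔖₁', y₁, hA₁, G, G', P⟩ := pvml_arc_tr Ho Hi hY o o' L h.loc_col hA
    refine ⟨𝔖₁, 𝔖₁', y₁, hA₁, ?_⟩
    obtain ⟨h1, h2, n, hl⟩ := hA
    have hp := Ho.rd V D T pos s 𝔖 h1
    have hq := Hi.rd V D T pos s 𝔖' h2
    have mB := pvll_link_mass L (hw.tr V D V' D' T T' _ pos pos' K L) hY G.gt G'.gt hp hq hl P 𝔳.B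
    have mM := pvll_link_mass L (hw.tr V D V' D' T T' _ pos pos' K L) hY G.gt G'.gt hp hq hl P 𝔳.Mk
    show 𝔳.val T' pos' _ 𝔖₁ 𝔖₁' y₁ = 𝔳.val T pos _ 𝔖 𝔖' y
    unfold PvmlVal.val
    rw [G.gt.inn.n_eq, G.gt.ip, G'.gt.inn.n_eq, G'.gt.ip, P.n_eq, ← mB.1 0 _ le_rfl, ← mM.1 _ _ le_rfl, ← mM.2.1 0 _ le_rfl]
    congr 1
    cases 𝔳.dr'
    · exact (mM.2.2 0 _ (Hi.ip V D T pos s 𝔖' h2)).symm
    · exact (mM.2.2 0 _ le_rfl).symm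
  · intro V D T pos s o 𝔖 𝔖' y 𝔖₁ 𝔖₁' y₁ hA hA₁
    obtain ⟨g1, g2, c1, c3⟩ := pvml_arc_un Ho Hi o hA hA₁
    show 𝔳.val T pos _ 𝔖 𝔖' y = 𝔳.val T pos _ 𝔖₁ 𝔖₁' y₁
    unfold PvmlVal.val
    rw [← g1.inn_n, ← g1.ip, ← g2.inn_n, ← g2.ip, ← c1, ← g1.mass pos _ 𝔳.B le_rfl, ← g1.mass pos _ 𝔳.Mk le_rfl, ← pviu_mass c3 pos _ 𝔳.Mk le_rfl]
    congr 1
    cases 𝔳.dr'
    · exact g2.mass pos _ 𝔳.Mk (Hi.ip V D T pos s 𝔖' hA.2.1)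
    · exact g2.mass pos _ 𝔳.Mk le_rfl

end links

/-! ## 5. exhaustion of the room: no bound on `Yin` is needed -/

/-- the link with its room cut at the radius `n` -/
def pvmlCut (L : PvilLk) (n : ℕ) : PvilLk := ⟨L.p, L.p', L.Yin ∩ closedBall 0 n, L.Mk, L.dr, L.dr'⟩

theorem pvml_eqns_cite5 : True := by
  have := @pvmlCut.eq_1
  trivial

section cut

variable {N : PvwNum} {b : Bool} {η : Conf PvPt} {L : PvilLk}

theorem pvml_cut_bdd (L : PvilLk) (n : ℕ) : Bornology.IsBounded (pvmlCut L n).Yin := isBounded_closedBall.subset inter_subset_right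

theorem pvml_cut_meas (hY : MeasurableSet L.Yin) (n : ℕ) : MeasurableSet (pvmlCut L n).Yin := hY.inter isClosed_closedBall.measurableSet

theorem pvml_cut_uq (hu : PvllUq L) (n : ℕ) : PvllUq (pvmlCut L n) := hu

/-- a witness of the cut link is a witness of the link -/
theorem pvml_cut_arc {n : ℕ} {𝔖 𝔖' : PvwSt (pvieT η)} {y : (pvieT η).Pth} (h : (pvmlCut L n).Arc N b η 𝔖 𝔖' y) : L.Arc N b η 𝔖 𝔖' y := by
  obtain ⟨k, ⟨r1, r2, r3, r4⟩, hle⟩ := h.run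
  exact ⟨h.at_p, h.at_p', k, ⟨r1, r2, r3, fun i hi hi' => ⟨(r4 i hi hi').1.1, (r4 i hi hi').2.1⟩⟩, hle⟩

/-- a witness of the link is a witness of all the late cuts: a run is finite -/
theorem pvml_arc_cut {𝔖 𝔖' : PvwSt (pvieT η)} {y : (pvieT η).Pth} (h : L.Arc N b η 𝔖 𝔖' y) : ∃ n₀ : ℕ, ∀ n, n₀ ≤ n → (pvmlCut L n).Arc N b η 𝔖 𝔖' y := by
  obtain ⟨k, ⟨r1, r2, r3, r4⟩, hle⟩ := h.run
  obtain ⟨M, hM⟩ := ((Finset.range k).image fun i => ‖pviePos η ((pvieT η).src (pvasIt (pvieT η) (pvieCol η b) 𝔖.dp i))‖ + ‖pviePos η ((pvieT η).tgt (pvasIt (pvieT η) (pvieCol η b) 𝔖.dp i))‖).exists_le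
  refine ⟨⌈M⌉₊, fun n hn => ⟨h.at_p, h.at_p', k, ⟨r1, r2, r3, fun i hi hi' => ?_⟩, hle⟩⟩
  have h1 := hM _ (Finset.mem_image_of_mem _ (Finset.mem_range.2 (show i < k by omega)))
  have h2 : M ≤ (n : ℝ) := (Nat.le_ceil M).trans (by exact_mod_cast hn)
  exact ⟨⟨(r4 i hi hi').1, mem_closedBall_zero_iff.2 (by linarith [norm_nonneg (pviePos η ((pvieT η).tgt (pvasIt (pvieT η) (pvieCol η b) 𝔖.dp i)))])⟩,
    ⟨(r4 i hi hi').2, mem_closedBall_zero_iff.2 (by linarith [norm_nonneg (pviePos η ((pvieT η).src (pvasIt (pvieT η) (pvieCol η b) 𝔖.dp i)))])⟩⟩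

/-- **the plain success is the union of the plain successes of the cuts** -/
theorem pvml_A_iUnion (L : PvilLk) (N : PvwNum) (b : Bool) : L.A N b = ⋃ n, (pvmlCut L n).A N b := by
  ext η
  simp only [mem_iUnion]
  constructor
  · rintro ⟨𝔖, 𝔖', y, h⟩
    obtain ⟨n₀, hn₀⟩ := pvml_arc_cut h
    exact ⟨n₀, 𝔖, 𝔖', y, hn₀ n₀ le_rfl⟩
  · rintro ⟨n, 𝔖, 𝔖', y, h⟩
    exact ⟨𝔖, 𝔖', y, pvml_cut_arc h⟩

/-- **the plain value is the value of all the late cuts** -/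
theorem pvml_X_eventually (hu : PvllUq L) (w : ∀ η : Conf PvPt, (delbPl (pvieY η)).Dart → ℂ) (η : Conf PvPt) : ∃ n₀ : ℕ, ∀ n, n₀ ≤ n → (pvmlCut L n).X N b w η = L.X N b w η := by
  by_cases hA : η ∈ L.A N b
  · obtain ⟨𝔖, 𝔖', y, h⟩ := hA
    obtain ⟨n₀, hn₀⟩ := pvml_arc_cut h
    refine ⟨n₀, fun n hn => ?_⟩
    rw [pvll_X_eq hu h w, pvll_X_eq (pvml_cut_uq hu n) (hn₀ n hn) w]
    rfl
  · refine ⟨0, fun n _ => ?_⟩
    rw [pvll_X_off hA w, pvll_X_off (fun h => hA (by rw [pvml_A_iUnion]; exact mem_iUnion.2 ⟨n, h⟩)) w]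

theorem pvml_A_null_of_cut {μ : Measure (Conf PvPt)} (h : ∀ n, NullMeasurableSet ((pvmlCut L n).A N b) μ) : NullMeasurableSet (L.A N b) μ := by
  rw [pvml_A_iUnion]
  exact NullMeasurableSet.iUnion h

theorem pvml_X_aem_of_cut {μ : Measure (Conf PvPt)} (hu : PvllUq L) {w : ∀ η : Conf PvPt, (delbPl (pvieY η)).Dart → ℂ} (h : ∀ n, AEMeasurable ((pvmlCut L n).X N b w) μ) :
    AEMeasurable (L.X N b w) μ :=
  aemeasurable_of_tendsto_metrizable_ae Filter.atTop h (Filter.Eventually.of_forall fun η => by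
    obtain ⟨n₀, hn₀⟩ := pvml_X_eventually (N := N) (b := b) hu w η
    exact tendsto_const_nhds.congr' (Filter.eventually_atTop.2 ⟨n₀, fun n hn => (hn₀ n hn).symm⟩))

end cut

/-! ## 6. EXITS at any placed plug, at any link: BOREL DATA ONLY -/

section exits

variable {N : PvwNum} {b : Bool} {ε : ℝ}

/-- the sites frozen by the exit half state are placed in the region of the plug -/
theorem pvml_out_fz {V D : Type} {T : PvMap V D} {pos : V → ℂ} {s : V → Bool} {𝔖 : PvwSt T} {p : PvilPl} (hf : ‖p.fr‖ = 1) (h : PvllOut N p T pos s 𝔖) : ∀ u ∈ 𝔖.fzOut, pos u ∈ pvymPlK N p := by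
  rintro u ((hu | ⟨i, hi, rfl⟩) | ⟨i, hi, rfl⟩)
  · have h1 : u ∈ 𝔖.dsc := hu
    rw [h.st.gate.dsc_eq] at h1
    have h2 : ‖conj p.fr * pos u - conj p.fr * p.z‖ < p.ty.b * p.h := h1
    rw [pvll_fr_norm hf] at h2
    exact Or.inl (mem_closedBall_iff_norm.2 h2.le)
  · exact Or.inr (h.near hf hi).1
  · exact Or.inr (h.near hf hi).2

/-- the sites frozen by the entrance half state are placed in the region of the plug -/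
theorem pvml_in_fz {V D : Type} {T : PvMap V D} {pos : V → ℂ} {s : V → Bool} {𝔖 : PvwSt T} {p : PvilPl} (hf : ‖p.fr‖ = 1) (h : PvllIn N p T pos s 𝔖) : ∀ u ∈ 𝔖.fzIn, pos u ∈ pvymPlK N p := by
  rintro u ((hu | ⟨i, hi, rfl⟩) | ⟨i, hi, rfl⟩)
  · have h1 : u ∈ 𝔖.dsc := hu
    rw [h.st.gate.dsc_eq] at h1
    have h2 : ‖conj p.fr * pos u - conj p.fr * p.z‖ < p.ty.b * p.h := h1
    rw [pvll_fr_norm hf] at h2
    exact Or.inl (mem_closedBall_iff_norm.2 h2.le)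
  · exact Or.inr (h.near hf hi).1
  · exact Or.inr (h.near hf hi).2

/-- **(A) for the hull event of `Σ_out`** -/
theorem pvml_HuO_measP {δ : ℝ} (hδ : 0 < δ) (r : ℝ) (N : PvwNum) {p : PvilPl} (hf : ‖p.fr‖ = 1) (m : PvzjPlMeas p) (Z : Set (ℤ × ℤ)) :
    PvymFn.MeasP (M := Prop) (fun V D T pos s => pvymHuO δ r N p V D T pos s = Z) :=
  pvml_hu_measP (P := fun _ _ T pos s 𝔖 => PvllOut N p T pos s 𝔖) (F := fun _ _ _ 𝔖 => 𝔖.fzOut) (B := closedBall (p.ty.cp p.h p.z) r) hδ (pvzj_plQ_finite N p) (pvzj_plQ_meas N m) (pvym_plK_bdd N p)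
    (fun _ _ _ _ _ _ h _ G => pvzj_ll_out h subset_rfl G) (fun _ _ _ _ _ _ G => pvml_out_fz hf G) Z

/-- **(A) for the hull event of `Σ_in`** -/
theorem pvml_HuI_measP {δ : ℝ} (hδ : 0 < δ) (r : ℝ) (N : PvwNum) {p : PvilPl} (hf : ‖p.fr‖ = 1) (m : PvzjPlMeas p) (Z : Set (ℤ × ℤ)) :
    PvymFn.MeasP (M := Prop) (fun V D T pos s => pvymHuI δ r N p V D T pos s = Z) :=
  pvml_hu_measP (P := fun _ _ T pos s 𝔖 => PvllIn N p T pos s 𝔖) (F := fun _ _ _ 𝔖 => 𝔖.fzIn) (B := closedBall (p.ty.cm p.h p.z) r) hδ (pvzj_plQ_finite N p) (pvzj_plQ_meas N m) (pvym_plK_bdd N p)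
    (fun _ _ _ _ _ _ h _ G => pvzj_ll_in h subset_rfl G) (fun _ _ _ _ _ _ G => pvml_in_fz hf G) Z

/-- **[MEAS] `{hull of Σ_out = Z}`** -/
theorem pvml_HuO_null {δ : ℝ} (hδ : 0 < δ) (r : ℝ) (N : PvwNum) (b : Bool) {p : PvilPl} (hf : ‖p.fr‖ = 1) (m : PvzjPlMeas p) (Z : Set (ℤ × ℤ)) (hε : 0 < ε) :
    NullMeasurableSet {η | pvilHuO δ r N b p η = Z} (pvP ε) := pvym_HuO_null N b δ r hf Z (pvml_HuO_measP hδ r N hf m Z) hε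

/-- **[MEAS] `{hull of Σ_in = Z}`** -/
theorem pvml_HuI_null {δ : ℝ} (hδ : 0 < δ) (r : ℝ) (N : PvwNum) (b : Bool) {p : PvilPl} (hf : ‖p.fr‖ = 1) (m : PvzjPlMeas p) (Z : Set (ℤ × ℤ)) (hε : 0 < ε) :
    NullMeasurableSet {η | pvilHuI δ r N b p η = Z} (pvP ε) := pvym_HuI_null N b δ r hf Z (pvml_HuI_measP hδ r N hf m Z) hε

/-- **[MEAS] the exit half state exists** -/
theorem pvml_Uo_null (N : PvwNum) (b : Bool) {p : PvilPl} (hf : ‖p.fr‖ = 1) (m : PvzjPlMeas p) (hε : 0 < ε) : NullMeasurableSet (pvilUo N b p) (pvP ε) :=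
  pvym_Uo_null N b hf (pvzj_Uo_measP N m) hε

/-- **[MEAS] the entrance half state exists** -/
theorem pvml_Ui_null (N : PvwNum) (b : Bool) {p : PvilPl} (hf : ‖p.fr‖ = 1) (m : PvzjPlMeas p) (hε : 0 < ε) : NullMeasurableSet (pvilUi N b p) (pvP ε) :=
  pvym_Ui_null N b hf (pvzj_Ui_measP N m) hε

/-- (A) for the full state (text of 231) -/
theorem pvml_At_measP (N : PvwNum) {p : PvilPl} (m : PvzjPlMeas p) : PvymFn.MeasP (M := Prop) (pvymU N p) :=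
  pvym_measP_of_iff (pvzj_plQ_finite N p) (pvzj_plQ_meas N m) fun _ _ _ _ _ _ h ⟨𝔖, G⟩ => ⟨𝔖, pvzj_ll_out h subset_rfl G.out, pvzj_ll_in h subset_rfl G.inn,
    fun v hv => pvzj_fr_far_p h subset_rfl v (G.far_p v hv), fun v hv => pvzj_fr_far_m h subset_rfl v (G.far_m v hv)⟩

/-- **[MEAS] the full state exists** -/
theorem pvml_U_null (N : PvwNum) (b : Bool) {p : PvilPl} (hf : ‖p.fr‖ = 1) (m : PvzjPlMeas p) (hε : 0 < ε) : NullMeasurableSet (pvilU N b p) (pvP ε) :=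
  pvym_U_null N b hf (pvml_At_measP N m) hε

/-- a degenerate kit plug (unit `≤ 0`, direction `0`) has no state -/
theorem pvml_door_deg {r : ℝ} {d : ℂ} (h : r ≤ 0 ∨ d = 0) (η : Conf PvPt) (z : ℂ) (𝔖 : PvwSt (pvieT η)) : ¬ PvilDoor (pvkdP r) b η z d 𝔖 := by
  rintro ⟨-, g, hg, -⟩
  rcases h with h | rfl
  · have h1 := hg.least.reg.rim 0
    have h2 : ((pvkdP r).pg z d).KO = ∅ := ball_eq_empty.2 (by show 2 * r ≤ 0; linarith)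
    rw [h2] at h1
    exact h1
  · obtain ⟨a, -, ha⟩ := hg.vm
    obtain ⟨a', -, ha'⟩ := hg.vp
    have e : g.vm = g.vp := Subtype.ext (by rw [← ha, ← ha']; simp [pvthSim])
    have := g.c.inj 0 g.m (by have := g.c.three; omega) (by have := g.hmn; omega) e
    have := g.hm
    omega

/-- **BOREL DATA OF A LINK**: unit frames at the marked ends, Borel cells, masks, room -/
structure PvmlLkB (L : PvilLk) : Prop where
  fr : L.dr = false → ‖L.p.fr‖ = 1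
  fr' : L.dr' = false → ‖L.p'.fr‖ = 1
  m : PvzjPlMeas L.p
  m' : PvzjPlMeas L.p'
  mY : MeasurableSet L.Yin
  mK : MeasurableSet L.Mk

/-- the witnesses of a link are unique, or the link has a degenerate door and never succeeds -/
theorem PvmlLkB.uq_or {L : PvilLk} (H : PvmlLkB L) : PvllUq L ∨ ∀ (N : PvwNum) (b : Bool), L.A N b = ∅ := by
  by_cases h1 : L.dr = true ∧ (L.p.h ≤ 0 ∨ L.p.fr = 0)
  · exact Or.inr fun N b => eq_empty_of_forall_notMem fun η ⟨𝔖, _, _, hA⟩ => pvml_door_deg h1.2 η _ 𝔖 ((PvilLk.atP_door h1.1 N b η 𝔖).1 hA.at_p)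
  by_cases h2 : L.dr' = true ∧ (L.p'.h ≤ 0 ∨ L.p'.fr = 0)
  · exact Or.inr fun N b => eq_empty_of_forall_notMem fun η ⟨_, 𝔖', _, hA⟩ => pvml_door_deg h2.2 η _ 𝔖' ((PvilLk.atP'_door h2.1 N b η 𝔖').1 hA.at_p')
  refine Or.inl ⟨?_, ?_⟩
  · cases hd : L.dr
    · simpa using H.fr hd
    · have h3 : ¬ (L.p.h ≤ 0 ∨ L.p.fr = 0) := fun h => h1 ⟨hd, h⟩
      push Not at h3
      simpa using pvll_pg_disj h3.1 L.p.z h3.2
  · cases hd : L.dr'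
    · simpa using H.fr' hd
    · have h3 : ¬ (L.p'.h ≤ 0 ∨ L.p'.fr = 0) := fun h => h2 ⟨hd, h⟩
      push Not at h3
      simpa using pvll_pg_disj h3.1 L.p'.z h3.2

/-- **[MEAS] THE PLAIN SUCCESS OF A LINK** -/
theorem PvmlLkB.A_null {L : PvilLk} (H : PvmlLkB L) (N : PvwNum) (b : Bool) (hε : 0 < ε) : NullMeasurableSet (L.A N b) (pvP ε) := by
  rcases H.uq_or with hu | h0
  · exact pvml_A_null_of_cut fun n => pvym_LA_null N b (pvml_cut_uq hu n) (pvml_cut_meas H.mY n) (pvml_cut_bdd L n)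
      (pvzj_LA_measP N (L := pvmlCut L n) H.m H.m' (pvml_cut_meas H.mY n)) hε
  · rw [h0 N b]
    exact nullMeasurableSet_empty

/-- **[MEAS] THE PLAIN VALUE OF A LINK** -/
theorem PvmlLkB.X_aem {L : PvilLk} (H : PvmlLkB L) (N : PvwNum) (b : Bool) (hε : 0 < ε) {W : PvymWt} (hW : W.Loc) (hWm : PvzjWtMeas W)
    {w : ∀ η : Conf PvPt, (delbPl (pvieY η)).Dart → ℂ} (hw : ∀ η, w η = W _ _ (pvieT η) (pviePos η)) : AEMeasurable (L.X N b w) (pvP ε) := by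
  rcases H.uq_or with hu | h0
  · exact pvml_X_aem_of_cut hu fun n => pvym_LX_aem N b (pvml_cut_uq hu n) (pvml_cut_meas H.mY n) (pvml_cut_bdd L n) hW
      (pvzj_LX_measP N (L := pvmlCut L n) H.m H.m' (pvml_cut_meas H.mY n) H.mK hWm) hε hw
  · have e : L.X N b w = fun _ => 0 := funext fun η => pvll_X_off (by rw [h0 N b]; exact notMem_empty η) w
    rw [e]
    exact aemeasurable_const

/-- [MEAS] the plain value for the weight of `Q` -/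
theorem PvmlLkB.XQ_aem {L : PvilLk} (H : PvmlLkB L) (N : PvwNum) (b : Bool) (hε : 0 < ε) : AEMeasurable (L.X N b pvilQ) (pvP ε) :=
  H.X_aem N b hε pvym_Q_loc pvzj_Q_wt pvym_Q_model

/-- [MEAS] the plain value for the weight of `V` -/
theorem PvmlLkB.XV_aem {L : PvilLk} (H : PvmlLkB L) (N : PvwNum) (b : Bool) (hε : 0 < ε) : AEMeasurable (L.X N b pvilV) (pvP ε) :=
  H.X_aem N b hε pvym_V_loc pvzj_V_wt pvym_V_model

end exits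

/-! ## 7. EXITS at the data of record (`Tr/InstL` v2.2): from `𝔓.WfB` and the Borel fields of `PvieEng.Wf` -/

/-- **an admissible weight**: read from the positioned plane map by a model free rule, carried by the positioned local isomorphisms, Borel in the positions -/
def PvmlWm (w : ∀ η : Conf PvPt, (delbPl (pvieY η)).Dart → ℂ) : Prop := ∃ W : PvymWt, W.Loc ∧ PvzjWtMeas W ∧ ∀ η, w η = W _ _ (pvieT η) (pviePos η)

theorem pvml_eqns_cite7 : True := by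
  have := @PvmlWm.eq_1
  trivial

theorem pvml_wm_Q : PvmlWm pvilQ := ⟨pvymQ, pvym_Q_loc, pvzj_Q_wt, pvym_Q_model⟩
theorem pvml_wm_V : PvmlWm pvilV := ⟨pvymV, pvym_V_loc, pvzj_V_wt, pvym_V_model⟩

theorem PvmlLkB.Xw_aem {L : PvilLk} (H : PvmlLkB L) (N : PvwNum) (b : Bool) {ε : ℝ} (hε : 0 < ε) {w : ∀ η : Conf PvPt, (delbPl (pvieY η)).Dart → ℂ} (hw : PvmlWm w) :
    AEMeasurable (L.X N b w) (pvP ε) := by
  obtain ⟨W, h1, h2, h3⟩ := hw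
  exact H.X_aem N b hε h1 h2 h3

theorem pvml_pl_meas (z : ℂ) {h : ℝ} (h0 : h ≠ 0) {S : Set ℂ} (hS : MeasurableSet S) : MeasurableSet (pvxPl z h S) := by
  have e : pvxPl z h S = (fun w : ℂ => (w - z) / (h : ℂ)) ⁻¹' S := by
    have hc : (h : ℂ) ≠ 0 := by exact_mod_cast h0
    ext w
    constructor
    · rintro ⟨a, ha, rfl⟩
      show (z + (h : ℂ) * a - z) / (h : ℂ) ∈ S
      rw [add_sub_cancel_left, mul_div_cancel_left₀ _ hc]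
      exact ha
    · intro hw
      exact ⟨_, hw, by show z + (h : ℂ) * ((w - z) / (h : ℂ)) = w; rw [mul_div_cancel₀ _ hc]; ring⟩
  rw [e]
  exact ((measurable_id.sub_const z).div_const _) hS

theorem pvml_sh_meas (z : ℂ) {S : Set ℂ} (hS : MeasurableSet S) : MeasurableSet (pvieSh z S) := by
  have e : pvieSh z S = (fun w : ℂ => w - z) ⁻¹' S := by
    ext w
    constructor
    · rintro ⟨a, ha, rfl⟩
      show z + a - z ∈ S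
      rw [add_sub_cancel_left]
      exact ha
    · intro hw
      exact ⟨_, hw, by show z + (w - z) = w; ring⟩
  rw [e]
  exact (measurable_id.sub_const z) hS

theorem pvml_hp_meas (z d : ℂ) : MeasurableSet (pvilHp z d) :=
  (isClosed_le continuous_const (Complex.continuous_re.comp ((continuous_id.sub continuous_const).mul continuous_const))).measurableSet

section record

variable {τ : Type} {c : ℝ} {𝔓 : PvxPar τ c} {𝔈 : PvieEng τ} {ε : ℝ}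

/-- the Borel fields of `PvieEng.Wf` which [MEAS] reads -/
structure PvmlEngB (𝔈 : PvieEng τ) : Prop where
  oY : ∀ m t, MeasurableSet (𝔈.oY m t)
  iY : ∀ m t, MeasurableSet (𝔈.iY m t)
  eY : ∀ m t, MeasurableSet (𝔈.eY m t)
  rY : ∀ m, MeasurableSet (𝔈.rY m)
  rO : ∀ m, MeasurableSet (𝔈.rO m)
  fY : ∀ m t, MeasurableSet (𝔈.fY m t)

theorem pvml_engB {m0 : ℕ} {Cth : ℝ} {r κs : ℕ → ℝ} (H : PvieEng.Wf 𝔓 𝔈 m0 Cth r κs) : PvmlEngB 𝔈 := ⟨H.m_oY, H.m_iY, H.m_eY, H.m_rY, H.m_rO, H.m_fY⟩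

theorem pvml_pin_meas (h𝔓 : 𝔓.WfB) (m : ℕ) (z : ℂ) (t : τ) : PvzjPlMeas (pvilPin 𝔓 m z t) :=
  ⟨pvml_pl_meas z (pvlm_H_pos m).ne' (h𝔓.cp_meas t), pvml_pl_meas z (pvlm_H_pos m).ne' (h𝔓.cm_meas t), pvml_pl_meas z (pvlm_H_pos m).ne' (h𝔓.Mp_meas t), pvml_pl_meas z (pvlm_H_pos m).ne' (h𝔓.Mm_meas t)⟩

theorem pvml_pin_fr (𝔓 : PvxPar τ c) (m : ℕ) (z : ℂ) (t : τ) : ‖(pvilPin 𝔓 m z t).fr‖ = 1 := norm_one

theorem pvml_Lo_B (h𝔓 : 𝔓.WfB) (H : PvmlEngB 𝔈) (m : ℕ) (z : ℂ) (t : τ) : PvmlLkB (pvilLo 𝔓 𝔈 m z t) :=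
  ⟨fun _ => norm_one, fun h => absurd h (by simp [pvilLo]), pvml_pin_meas h𝔓 m z t, pvzj_plug_meas _ _ _, pvml_sh_meas z (H.oY m t), (pvml_hp_meas _ _).compl⟩

theorem pvml_Li_B (h𝔓 : 𝔓.WfB) (H : PvmlEngB 𝔈) (m : ℕ) (z : ℂ) (t : τ) : PvmlLkB (pvilLi 𝔓 𝔈 m z t) :=
  ⟨fun h => absurd h (by simp [pvilLi]), fun _ => norm_one, pvzj_plug_meas _ _ _, pvml_pin_meas h𝔓 m z t, pvml_sh_meas z (H.iY m t), pvml_hp_meas _ _⟩

theorem pvml_Le_B (h𝔓 : 𝔓.WfB) (H : PvmlEngB 𝔈) (m : ℕ) (z : ℂ) (t : τ) : PvmlLkB (pvilLe 𝔓 𝔈 m z t) :=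
  ⟨fun h => absurd h (by simp [pvilLe]), fun _ => norm_one, pvzj_plug_meas _ _ _, pvml_pin_meas h𝔓 m z t, pvml_sh_meas z (H.eY m t), ((pvml_sh_meas _ (H.rO m)).diff (pvml_hp_meas _ _)).compl⟩

theorem pvml_Lr_B (𝔓 : PvxPar τ c) (H : PvmlEngB 𝔈) (m : ℕ) : PvmlLkB (pvilLr 𝔓 𝔈 m) :=
  ⟨fun h => absurd h (by simp [pvilLr]), fun h => absurd h (by simp [pvilLr]), pvzj_plug_meas _ _ _, pvzj_plug_meas _ _ _, H.rY m, (pvml_hp_meas _ _).diff ((H.rO m).inter (pvml_hp_meas _ _))⟩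

/-- [MEAS] the mesh event of a window -/
theorem pvml_Ms_null (𝔓 : PvxPar τ c) (m : ℕ) (Wn : Set ℂ) (ε : ℝ) : NullMeasurableSet (pvilMs 𝔓 m Wn) (pvP ε) := pvtm_null_mesh _ _ _

/-- [MEAS] `{hull of Σ_out(z,t) = Z}` -/
theorem pvml_Zo_null (h𝔓 : 𝔓.WfB) (hε : 0 < ε) (m : ℕ) (z : ℂ) (t : τ) (Z : Set (ℤ × ℤ)) : NullMeasurableSet {η | pvilZo 𝔓 m z t η = Z} (pvP ε) :=
  pvml_HuO_null (pvlm_Del_pos c m) _ _ _ (pvml_pin_fr 𝔓 m z t) (pvml_pin_meas h𝔓 m z t) Z hε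

/-- [MEAS] `{hull of Σ_in(z,t) = Z}` -/
theorem pvml_Zi_null (h𝔓 : 𝔓.WfB) (hε : 0 < ε) (m : ℕ) (z : ℂ) (t : τ) (Z : Set (ℤ × ℤ)) : NullMeasurableSet {η | pvilZi 𝔓 m z t η = Z} (pvP ε) :=
  pvml_HuI_null (pvlm_Del_pos c m) _ _ _ (pvml_pin_fr 𝔓 m z t) (pvml_pin_meas h𝔓 m z t) Z hε

/-- **[MEAS] `pvilMo`** -/
theorem pvml_Mo_null (h𝔓 : 𝔓.WfB) (H : PvmlEngB 𝔈) (hε : 0 < ε) (m : ℕ) (z : ℂ) (t : τ) (Z : Set (ℤ × ℤ)) : NullMeasurableSet (pvilMo 𝔓 𝔈 m ε z t Z) (pvP ε) :=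
  (((pvml_Lo_B h𝔓 H m z t).A_null _ _ hε).inter (pvml_Zo_null h𝔓 hε m z t Z)).inter (pvml_Ms_null 𝔓 m _ ε)

/-- **[MEAS] `pvilMi`** -/
theorem pvml_Mi_null (h𝔓 : 𝔓.WfB) (H : PvmlEngB 𝔈) (hε : 0 < ε) (m : ℕ) (z : ℂ) (t : τ) (Z : Set (ℤ × ℤ)) : NullMeasurableSet (pvilMi 𝔓 𝔈 m ε z t Z) (pvP ε) :=
  (((pvml_Li_B h𝔓 H m z t).A_null _ _ hε).inter (pvml_Zi_null h𝔓 hε m z t Z)).inter (pvml_Ms_null 𝔓 m _ ε)

/-- **[MEAS] `pvilMe`** -/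
theorem pvml_Me_null (h𝔓 : 𝔓.WfB) (H : PvmlEngB 𝔈) (hε : 0 < ε) (m : ℕ) (z : ℂ) (t : τ) (Z : Set (ℤ × ℤ)) : NullMeasurableSet (pvilMe 𝔓 𝔈 m z t Z) (pvP ε) :=
  (((pvml_Le_B h𝔓 H m z t).A_null _ _ hε).inter (pvml_Zi_null h𝔓 hε m z t Z)).inter (pvml_Ms_null 𝔓 m _ ε)

/-- **[MEAS] `pvilMr`** -/
theorem pvml_Mr_null (𝔓 : PvxPar τ c) (H : PvmlEngB 𝔈) (hε : 0 < ε) (m : ℕ) : NullMeasurableSet (pvilMr 𝔓 𝔈 m ε) (pvP ε) :=
  ((pvml_Lr_B 𝔓 H m).A_null _ _ hε).inter (pvml_Ms_null 𝔓 m _ ε)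

variable {w : ∀ η : Conf PvPt, (delbPl (pvieY η)).Dart → ℂ}

/-- **[MEAS] the plain value of the first link** -/
theorem pvml_Xo_aem (h𝔓 : 𝔓.WfB) (H : PvmlEngB 𝔈) (hε : 0 < ε) (hw : PvmlWm w) (m : ℕ) (z : ℂ) (t : τ) : AEMeasurable ((pvilLo 𝔓 𝔈 m z t).X 𝔓.num (𝔓.col t) w) (pvP ε) :=
  (pvml_Lo_B h𝔓 H m z t).Xw_aem _ _ hε hw

/-- **[MEAS] the plain value of the last link** -/
theorem pvml_Xi_aem (h𝔓 : 𝔓.WfB) (H : PvmlEngB 𝔈) (hε : 0 < ε) (hw : PvmlWm w) (m : ℕ) (z : ℂ) (t : τ) : AEMeasurable ((pvilLi 𝔓 𝔈 m z t).X 𝔓.num (𝔓.col t) w) (pvP ε) :=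
  (pvml_Li_B h𝔓 H m z t).Xw_aem _ _ hε hw

/-- **[MEAS] the plain value of the thick link** -/
theorem pvml_Xe_aem (h𝔓 : 𝔓.WfB) (H : PvmlEngB 𝔈) (hε : 0 < ε) (hw : PvmlWm w) (m : ℕ) (z : ℂ) (t : τ) : AEMeasurable ((pvilLe 𝔓 𝔈 m z t).X 𝔓.num (𝔓.col t) w) (pvP ε) :=
  (pvml_Le_B h𝔓 H m z t).Xw_aem _ _ hε hw

/-- **[MEAS] the plain value of the link into the reference plug** -/
theorem pvml_Xr_aem (𝔓 : PvxPar τ c) (H : PvmlEngB 𝔈) (hε : 0 < ε) (hw : PvmlWm w) (m : ℕ) : AEMeasurable ((pvilLr 𝔓 𝔈 m).X 𝔓.num true w) (pvP ε) :=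
  (pvml_Lr_B 𝔓 H m).Xw_aem _ _ hε hw

/-- **[MEAS] the event under `pvilSA` of the first link** (`A` of `pvilEo`) -/
theorem pvml_SAo_null (h𝔓 : 𝔓.WfB) (H : PvmlEngB 𝔈) (hε : 0 < ε) (hw : PvmlWm w) (m : ℕ) (z : ℂ) (t : τ) (Z : Set (ℤ × ℤ)) (hW : MeasurableSet (pvilWno 𝔓 𝔈 m ε z t Z)) :
    NullMeasurableSet (pvilMo 𝔓 𝔈 m ε z t Z ∩ {η | (pvilLo 𝔓 𝔈 m z t).X 𝔓.num (𝔓.col t) w η = pvilLoc ε (pvilWno 𝔓 𝔈 m ε z t Z) (pvilMo 𝔓 𝔈 m ε z t Z) ((pvilLo 𝔓 𝔈 m z t).X 𝔓.num (𝔓.col t) w) η}) (pvP ε) :=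
  pvym_SA_null hW (pvml_Mo_null h𝔓 H hε m z t Z) (pvml_Xo_aem h𝔓 H hε hw m z t)

/-- **[MEAS] the event under `pvilSA` of the last link** (`A` of `pvilEi`) -/
theorem pvml_SAi_null (h𝔓 : 𝔓.WfB) (H : PvmlEngB 𝔈) (hε : 0 < ε) (hw : PvmlWm w) (m : ℕ) (z : ℂ) (t : τ) (Z : Set (ℤ × ℤ)) (hW : MeasurableSet (pvilWni 𝔓 𝔈 m ε z t Z)) :
    NullMeasurableSet (pvilMi 𝔓 𝔈 m ε z t Z ∩ {η | (pvilLi 𝔓 𝔈 m z t).X 𝔓.num (𝔓.col t) w η = pvilLoc ε (pvilWni 𝔓 𝔈 m ε z t Z) (pvilMi 𝔓 𝔈 m ε z t Z) ((pvilLi 𝔓 𝔈 m z t).X 𝔓.num (𝔓.col t) w) η}) (pvP ε) :=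
  pvym_SA_null hW (pvml_Mi_null h𝔓 H hε m z t Z) (pvml_Xi_aem h𝔓 H hε hw m z t)

/-- **[MEAS] the event under `pvilSA` of the thick link** (`A` of `pvilEe`) -/
theorem pvml_SAe_null (h𝔓 : 𝔓.WfB) (H : PvmlEngB 𝔈) (hε : 0 < ε) (hw : PvmlWm w) (m : ℕ) (z : ℂ) (t : τ) (Z : Set (ℤ × ℤ)) (hW : MeasurableSet (pvilWne 𝔓 𝔈 m z t Z)) :
    NullMeasurableSet (pvilMe 𝔓 𝔈 m z t Z ∩ {η | (pvilLe 𝔓 𝔈 m z t).X 𝔓.num (𝔓.col t) w η = pvilLoc ε (pvilWne 𝔓 𝔈 m z t Z) (pvilMe 𝔓 𝔈 m z t Z) ((pvilLe 𝔓 𝔈 m z t).X 𝔓.num (𝔓.col t) w) η}) (pvP ε) :=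
  pvym_SA_null hW (pvml_Me_null h𝔓 H hε m z t Z) (pvml_Xe_aem h𝔓 H hε hw m z t)

/-- **[MEAS] the event under `pvilSA` of the link into the reference plug** (`pvilAr`) -/
theorem pvml_SAr_null (𝔓 : PvxPar τ c) (H : PvmlEngB 𝔈) (hε : 0 < ε) (hw : PvmlWm w) (m : ℕ) (hW : MeasurableSet (pvilWnr 𝔓 𝔈 m ε)) :
    NullMeasurableSet (pvilMr 𝔓 𝔈 m ε ∩ {η | (pvilLr 𝔓 𝔈 m).X 𝔓.num true w η = pvilLoc ε (pvilWnr 𝔓 𝔈 m ε) (pvilMr 𝔓 𝔈 m ε) ((pvilLr 𝔓 𝔈 m).X 𝔓.num true w) η}) (pvP ε) :=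
  pvym_SA_null hW (pvml_Mr_null 𝔓 H hε m) (pvml_Xr_aem 𝔓 H hε hw m)

/-- **[MEAS] the functions under `pvilLoc`** (`hF` of `pvsu_loc_eq`) -/
theorem pvml_IXo_aem (h𝔓 : 𝔓.WfB) (H : PvmlEngB 𝔈) (hε : 0 < ε) (hw : PvmlWm w) (m : ℕ) (z : ℂ) (t : τ) (Z : Set (ℤ × ℤ)) :
    AEMeasurable ((pvilMo 𝔓 𝔈 m ε z t Z).indicator ((pvilLo 𝔓 𝔈 m z t).X 𝔓.num (𝔓.col t) w)) (pvP ε) := (pvml_Xo_aem h𝔓 H hε hw m z t).indicator₀ (pvml_Mo_null h𝔓 H hε m z t Z)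

theorem pvml_IXi_aem (h𝔓 : 𝔓.WfB) (H : PvmlEngB 𝔈) (hε : 0 < ε) (hw : PvmlWm w) (m : ℕ) (z : ℂ) (t : τ) (Z : Set (ℤ × ℤ)) :
    AEMeasurable ((pvilMi 𝔓 𝔈 m ε z t Z).indicator ((pvilLi 𝔓 𝔈 m z t).X 𝔓.num (𝔓.col t) w)) (pvP ε) := (pvml_Xi_aem h𝔓 H hε hw m z t).indicator₀ (pvml_Mi_null h𝔓 H hε m z t Z)

theorem pvml_IXe_aem (h𝔓 : 𝔓.WfB) (H : PvmlEngB 𝔈) (hε : 0 < ε) (hw : PvmlWm w) (m : ℕ) (z : ℂ) (t : τ) (Z : Set (ℤ × ℤ)) :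
    AEMeasurable ((pvilMe 𝔓 𝔈 m z t Z).indicator ((pvilLe 𝔓 𝔈 m z t).X 𝔓.num (𝔓.col t) w)) (pvP ε) := (pvml_Xe_aem h𝔓 H hε hw m z t).indicator₀ (pvml_Me_null h𝔓 H hε m z t Z)

theorem pvml_IXr_aem (𝔓 : PvxPar τ c) (H : PvmlEngB 𝔈) (hε : 0 < ε) (hw : PvmlWm w) (m : ℕ) :
    AEMeasurable ((pvilMr 𝔓 𝔈 m ε).indicator ((pvilLr 𝔓 𝔈 m).X 𝔓.num true w)) (pvP ε) := (pvml_Xr_aem 𝔓 H hε hw m).indicator₀ (pvml_Mr_null 𝔓 H hε m)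

/-! ### the thick return `f` (`Tr/InstL` sec. 8 of 168): copies of `e` at `Zo` -/

theorem pvml_Lf_B (h𝔓 : 𝔓.WfB) (H : PvmlEngB 𝔈) (m : ℕ) (z : ℂ) (t : τ) : PvmlLkB (pvilLf 𝔓 𝔈 m z t) :=
  ⟨fun _ => norm_one, fun h => absurd h (by simp [pvilLf]), pvml_pin_meas h𝔓 m z t, pvzj_plug_meas _ _ _, pvml_sh_meas z (H.fY m t), ((pvml_sh_meas _ (H.rO m)).inter (pvml_hp_meas _ _)).compl⟩

/-- [MEAS] the plain event of the thick return -/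
theorem pvml_Mf_null (h𝔓 : 𝔓.WfB) (H : PvmlEngB 𝔈) (hε : 0 < ε) (m : ℕ) (z : ℂ) (t : τ) (Z : Set (ℤ × ℤ)) : NullMeasurableSet (pvilMf 𝔓 𝔈 m z t Z) (pvP ε) :=
  (((pvml_Lf_B h𝔓 H m z t).A_null _ _ hε).inter (pvml_Zo_null h𝔓 hε m z t Z)).inter (pvml_Ms_null 𝔓 m _ ε)

/-- [MEAS] the plain value of the thick return -/
theorem pvml_Xf_aem (h𝔓 : 𝔓.WfB) (H : PvmlEngB 𝔈) (hε : 0 < ε) (hw : PvmlWm w) (m : ℕ) (z : ℂ) (t : τ) : AEMeasurable ((pvilLf 𝔓 𝔈 m z t).X 𝔓.num (𝔓.col t) w) (pvP ε) :=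
  (pvml_Lf_B h𝔓 H m z t).Xw_aem _ _ hε hw

theorem pvml_SAf_null (h𝔓 : 𝔓.WfB) (H : PvmlEngB 𝔈) (hε : 0 < ε) (hw : PvmlWm w) (m : ℕ) (z : ℂ) (t : τ) (Z : Set (ℤ × ℤ)) (hW : MeasurableSet (pvilWnf 𝔓 𝔈 m z t Z)) :
    NullMeasurableSet (pvilMf 𝔓 𝔈 m z t Z ∩ {η | (pvilLf 𝔓 𝔈 m z t).X 𝔓.num (𝔓.col t) w η = pvilLoc ε (pvilWnf 𝔓 𝔈 m z t Z) (pvilMf 𝔓 𝔈 m z t Z) ((pvilLf 𝔓 𝔈 m z t).X 𝔓.num (𝔓.col t) w) η}) (pvP ε) :=
  pvym_SA_null hW (pvml_Mf_null h𝔓 H hε m z t Z) (pvml_Xf_aem h𝔓 H hε hw m z t)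

theorem pvml_IXf_aem (h𝔓 : 𝔓.WfB) (H : PvmlEngB 𝔈) (hε : 0 < ε) (hw : PvmlWm w) (m : ℕ) (z : ℂ) (t : τ) (Z : Set (ℤ × ℤ)) :
    AEMeasurable ((pvilMf 𝔓 𝔈 m z t Z).indicator ((pvilLf 𝔓 𝔈 m z t).X 𝔓.num (𝔓.col t) w)) (pvP ε) := (pvml_Xf_aem h𝔓 H hε hw m z t).indicator₀ (pvml_Mf_null h𝔓 H hε m z t Z)

/-- [MEAS] the usable candidates -/
theorem pvml_Upin_null (h𝔓 : 𝔓.WfB) (hε : 0 < ε) (m : ℕ) (z : ℂ) (t : τ) : NullMeasurableSet (pvilU 𝔓.num (𝔓.col t) (pvilPin 𝔓 m z t)) (pvP ε) :=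
  pvml_U_null _ _ (pvml_pin_fr 𝔓 m z t) (pvml_pin_meas h𝔓 m z t) hε

end record

end Claimed.Agent.R289
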