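-- KEEP CAPOK
import Claimed.Agent.R289.Tr.AtUniq
import Claimed.Agent.R289.Tr.DomY

/-!
# Row 289 (S0537, Cardy for Poisson-Voronoi), THE WALL, road E, file Tr/AtCyl : D6 AT THE MODEL = A (HALF) STATE IS A CYLINDER, DIFFERENT VALUES ARE DISJOINT      (helper255, post Z of 82 10:31Z; prefix `pvkf`, `Pvkf`)

D6 of `W1_208_v3.md`: `{Σ_out = σ} = {colours of fzOut(σ) as prescribed}`;   fixed rule + FIRST exits ⟹ the cylinders of different values are DISJOINT, `∑_σ P(Cyl σ) ≤ 1`.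
Deterministic inputs: `Tr/StKit` (25: `pvwk_atOut_congr ..` = a state is read from its frozen set), `Tr/AtUniq` (150: `pvuq_atOut ..` = the state of a colouring is unique).      HERE: the two are put together ONCE, in the forms which the engines eat.
* sec. 1  ABSTRACT: `PvkfCyl St fr` (`St s x` = "`x` is a state of the colouring `s`", `fr x` = its frozen set: `fin cyl uni`);   `pvkfU` (a state exists), `pvkfF` (THE frozen set of the colouring);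
          `.F_eq .F_fin .iff .stop .disj` (two cylinders which meet are equal), `.restr` (colour free clauses), `.prod` (two candidates), `.stp` (**`PvdyStp`** of 193: stopping set at a fixed geometry), `.meas`, **`.sum_le`** (`∑_T P(state exists, frozen set = T) ≤ 1`)
* sec. 2  ANY MAP: **`pvkf_out pvkf_in pvkf_at`** : `AtOut / fzOut`, `AtIn / fzIn`, `At / fz` are cylinder families
* sec. 3  WINDOWS: `PvkfWin yf B` = the choice `yf` of the sites to be recoloured lies in the window `B` and is DECIDED (also when it is empty) by the colours of the not chosen sites of `B`;   **`.stop : PvdyStop yf`** (193, root orphan of 162), **`.union`** (disjoint windows: the two mouths of a chain)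
* sec. 4  THE MODEL, functions of `(Y, σ)` (no cast: `cfSites (cfOf Y σ) = Y` is a plain `rw`): `pvkfC`, `PvkfFam St fr G B`, `PvkfEx` (a state exists), `pvkfZ` (frozen POSITIONS), `pvkfFr` (fresh points of a mouth `M`: `M` minus the positions of `G 𝔖`; EMPTY if there is no state),
          **`pvkf_congr`** (same colours on the frozen positions ⟹ same states, same frozen positions, same fresh points), `pvkf_conf` (the same for two configurations), `pvkf_ex_box`, **`pvkf_win`**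
* sec. 5  THE THREE FAMILIES OF A PLACED CANDIDATE `(N, h, z, τ)` with ANY colour free clause `Q` (tip cells, masks, `reg` of T7 ..): `PvkfO PvkfI PvkfA`, `pvkf_fam_out _in _at_out _at_in`, window `pvkfB`;
          **`pvkf_win_out pvkf_win_in`** (half states: ANY bounded mouth), **`pvkf_win_at_out _at_in`** (full state: mouth inside `closedBall y^± (2 ρ h)`, by `far_p far_m`)      ⟹ `.stop : PvdyStop ..`, `.union`
* sec. 6  fixed countable geometry, colours `σ : ℂ → Bool`: `pvkf_ex_meas`, `pvkf_level_meas`, **`pvkf_sum_le`**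
The names of `Tr/InstE` (`pvieFrO pvieFrI pvieYo pvieYi pvieYe pvieYfc`): `Tr/AtCylE.lean`.
-/

set_option autoImplicit false
set_option linter.unusedSectionVars false
set_option linter.unusedVariables false

namespace Claimed.Agent.R289

open Set MeasureTheory Claims.C0465
open scoped ENNReal

/-! ## 1. abstract cylinder families -/

section abs

variable {V X X' : Type}

/-- **A CYLINDER FAMILY**: `St s x` = "`x` is a state of the colouring `s`", `fr x` = the frozen set of `x`.      `cyl`: the state is read from its frozen set;   `uni`: a colouring has one frozen set -/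
structure PvkfCyl (St : (V → Bool) → X → Prop) (fr : X → Set V) : Prop where
  fin : ∀ s x, St s x → (fr x).Finite
  cyl : ∀ s s' x, St s x → PvwAgree (fr x) s s' → St s' x
  uni : ∀ s x x', St s x → St s x' → fr x = fr x'

/-- a state exists -/
def pvkfU (St : (V → Bool) → X → Prop) : Set (V → Bool) := {s | ∃ x, St s x}

/-- THE frozen set of the colouring `s` (empty if there is no state) -/
def pvkfF (St : (V → Bool) → X → Prop) (fr : X → Set V) (s : V → Bool) : Set V := {v | ∃ x, St s x ∧ v ∈ fr x}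

theorem pvkf_eqns_cite1 : True := by
  have := @pvkfU.eq_1; have := @pvkfF.eq_1
  trivial

variable {St : (V → Bool) → X → Prop} {fr : X → Set V} {s s' σ : V → Bool} {x x' : X}

namespace PvkfCyl

theorem F_eq (h : PvkfCyl St fr) (hx : St s x) : pvkfF St fr s = fr x := by
  ext v
  exact ⟨fun ⟨y, hy, hv⟩ => h.uni s y x hy hx ▸ hv, fun hv => ⟨x, hx, hv⟩⟩

theorem F_empty (hs : s ∉ pvkfU St) : pvkfF St fr s = ∅ := by
  ext v
  exact ⟨fun ⟨y, hy, _⟩ => hs ⟨y, hy⟩, fun hv => hv.elim⟩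

theorem F_fin (h : PvkfCyl St fr) (s : V → Bool) : (pvkfF St fr s).Finite := by
  by_cases hs : s ∈ pvkfU St
  · obtain ⟨x, hx⟩ := hs
    rw [h.F_eq hx]
    exact h.fin s x hx
  · rw [F_empty hs]
    exact finite_empty

/-- a colouring which agrees with `s` on the frozen set of `s` has the same states -/
theorem iff (h : PvkfCyl St fr) (hx : St s x) (ha : PvwAgree (fr x) s s') (y : X) : St s y ↔ St s' y := by
  have hx' := h.cyl s s' x hx ha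
  constructor
  · intro hy
    exact h.cyl s s' y hy (h.uni s x y hx hy ▸ ha)
  · intro hy
    exact h.cyl s' s y hy (h.uni s' x y hx' hy ▸ pvwk_agree_symm ha)

/-- **STOP** -/
theorem stop (h : PvkfCyl St fr) (hs : s ∈ pvkfU St) (ha : PvwAgree (pvkfF St fr s) s s') : s' ∈ pvkfU St ∧ pvkfF St fr s' = pvkfF St fr s := by
  obtain ⟨x, hx⟩ := hs
  rw [h.F_eq hx] at ha
  have hx' := h.cyl s s' x hx ha
  exact ⟨⟨x, hx'⟩, by rw [h.F_eq hx, h.F_eq hx']⟩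

/-- **TWO CYLINDERS WHICH MEET ARE EQUAL** -/
theorem disj (h : PvkfCyl St fr) (hx : St s x) (hx' : St s' x') (ha : PvwAgree (fr x) s σ) (ha' : PvwAgree (fr x') s' σ) : fr x = fr x' ∧ PvwAgree (fr x) s s' ∧ St s x' ∧ St s' x := by
  have h1 := h.cyl s σ x hx ha
  have h2 := h.cyl s' σ x' hx' ha'
  have e := h.uni σ x x' h1 h2
  have hss : PvwAgree (fr x) s s' := pvwk_agree_trans ha (pvwk_agree_symm (e ▸ ha'))
  exact ⟨e, hss, (h.iff hx' (e ▸ pvwk_agree_symm hss) x').1 hx', h.cyl s s' x hx hss⟩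

/-- colour free clauses may be added -/
theorem restr (h : PvkfCyl St fr) (Q : X → Prop) : PvkfCyl (fun s x => St s x ∧ Q x) fr where
  fin := fun s x hx => h.fin s x hx.1
  cyl := fun s s' x hx ha => ⟨h.cyl s s' x hx.1 ha, hx.2⟩
  uni := fun s x x' hx hx' => h.uni s x x' hx.1 hx'.1

/-- clauses which are read from the frozen set may be added -/
theorem restr' (h : PvkfCyl St fr) (Q : (V → Bool) → X → Prop) (hQ : ∀ s s' x, St s x → PvwAgree (fr x) s s' → Q s x → Q s' x) : PvkfCyl (fun s x => St s x ∧ Q s x) fr where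
  fin := fun s x hx => h.fin s x hx.1
  cyl := fun s s' x hx ha => ⟨h.cyl s s' x hx.1 ha, hQ s s' x hx.1 ha hx.2⟩
  uni := fun s x x' hx hx' => h.uni s x x' hx.1 hx'.1

/-- two candidates -/
theorem prod {St' : (V → Bool) → X' → Prop} {fr' : X' → Set V} (h : PvkfCyl St fr) (h' : PvkfCyl St' fr') :
    PvkfCyl (fun s (p : X × X') => St s p.1 ∧ St' s p.2) (fun p => fr p.1 ∪ fr' p.2) where
  fin := fun s p hp => (h.fin s p.1 hp.1).union (h'.fin s p.2 hp.2)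
  cyl := fun s s' p hp ha => ⟨h.cyl s s' p.1 hp.1 (pvwk_agree_union.1 ha).1, h'.cyl s s' p.2 hp.2 (pvwk_agree_union.1 ha).2⟩
  uni := fun s p p' hp hp' => by rw [h.uni s p.1 p'.1 hp.1 hp'.1, h'.uni s p.2 p'.2 hp.2 hp'.2]

/-- the frozen set as a `Finset` -/
noncomputable def S (h : PvkfCyl St fr) (s : V → Bool) : Finset V := (h.F_fin s).toFinset

theorem coe_S (h : PvkfCyl St fr) (s : V → Bool) : (↑(h.S s) : Set V) = pvkfF St fr s := (h.F_fin s).coe_toFinset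

theorem mem_S (h : PvkfCyl St fr) {v : V} : v ∈ h.S s ↔ v ∈ pvkfF St fr s := (h.F_fin s).mem_toFinset

/-- **THE FROZEN SET IS A STOPPING SET** (193, `Tr/DomY` sec. 1) -/
theorem stp [Countable V] (h : PvkfCyl St fr) : PvdyStp (pvkfU St) h.S where
  stop := fun s hs s' ha => by
    obtain ⟨h1, h2⟩ := h.stop hs (s' := s') fun v hv => (ha v (h.mem_S.2 hv)).symm
    refine ⟨h1, ?_⟩
    apply Finset.coe_injective
    rw [h.coe_S, h.coe_S, h2]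
  cnt := Set.to_countable _

/-- "a state exists" is measurable -/
theorem meas [Countable V] (h : PvkfCyl St fr) : MeasurableSet (pvkfU St) := h.stp.meas

theorem level_meas [Countable V] (h : PvkfCyl St fr) (T : Finset V) : MeasurableSet {s | s ∈ pvkfU St ∧ h.S s = T} := h.stp.level_meas T

/-- **`∑_σ P(Cyl σ) ≤ 1`**, for ANY probability measure on the colourings -/
theorem sum_le [Countable V] (h : PvkfCyl St fr) (μ : Measure (V → Bool)) [IsProbabilityMeasure μ] : ∑' T : Finset V, μ {s | s ∈ pvkfU St ∧ h.S s = T} ≤ 1 := by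
  rw [← measure_iUnion (fun T T' hne => Set.disjoint_left.2 fun s h1 h2 => hne (h1.2.symm.trans h2.2)) fun T => h.level_meas T]
  exact prob_le_one

/-- **RECOLOURING LEMMA**: fresh colours off the frozen set of the state preserve the law -/
theorem resample [Countable V] (h : PvkfCyl St fr) {H : (V → Bool) → ℝ≥0∞} (mH : Measurable H) :
    ∫⁻ s, ∫⁻ κ, H (pvdyMx (pvkfU St) h.S s κ) ∂colLaw V ∂colLaw V = ∫⁻ s, H s ∂colLaw V := pvdy_stop h.stp mH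

end PvkfCyl

theorem pvkf_eqns_cite2 : True := by
  have := @PvkfCyl.S.eq_1
  trivial

end abs

/-! ## 2. the half states and the state, any map -/

section map

variable {V D : Type} {T : PvMap V D} {pos : V → ℂ}

/-- **`Σ_out` IS A CYLINDER FAMILY** -/
theorem pvkf_out (hT : T.IsSph) (hS : T.Simple) (hpos : Function.Injective pos) (N : PvwNum) (h : ℝ) (z : ℂ) (τ : PvwTy) :
    PvkfCyl (fun s (𝔖 : PvwSt T) => 𝔖.AtOut pos N h z τ s) PvwSt.fzOut where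
  fin := fun _ 𝔖 ha => pvwk_fzOut_finite 𝔖 ha.gate.core_fin
  cyl := fun _ _ _ ha hs => pvwk_atOut_congr hT ha hs
  uni := fun _ _ _ ha ha' => (pvuq_atOut hT hS hpos ha ha').1.fzOut (pvuq_atOut hT hS hpos ha ha').2

/-- **`Σ_in` IS A CYLINDER FAMILY** -/
theorem pvkf_in (hT : T.IsSph) (hS : T.Simple) (hpos : Function.Injective pos) (N : PvwNum) (h : ℝ) (z : ℂ) (τ : PvwTy) :
    PvkfCyl (fun s (𝔖 : PvwSt T) => 𝔖.AtIn pos N h z τ s) PvwSt.fzIn where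
  fin := fun _ 𝔖 ha => pvwk_fzIn_finite 𝔖 ha.gate.core_fin
  cyl := fun _ _ _ ha hs => pvwk_atIn_congr hT ha hs
  uni := fun _ _ _ ha ha' => (pvuq_atIn hT hS hpos ha ha').1.fzIn (pvuq_atIn hT hS hpos ha ha').2

/-- **THE FULL STATE IS A CYLINDER FAMILY** -/
theorem pvkf_at (hT : T.IsSph) (hS : T.Simple) (hpos : Function.Injective pos) (N : PvwNum) (h : ℝ) (z : ℂ) (τ : PvwTy) :
    PvkfCyl (fun s (𝔖 : PvwSt T) => 𝔖.At pos N h z τ s) PvwSt.fz where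
  fin := fun _ 𝔖 ha => pvwk_fz_finite 𝔖 ha.out.gate.core_fin
  cyl := fun _ _ _ ha hs => pvwk_at_congr hT ha hs
  uni := fun _ _ _ ha ha' => (pvuq_at hT hS hpos ha ha').fz

end map

/-! ## 3. windows -/

section win

/-- **THE CHOICE `yf` LIVES IN THE WINDOW `B`**: the chosen points lie in `B`;   the choice (EMPTY OR NOT) is decided by the colours of the NOT chosen sites of `B`;   `B` holds finitely many sites, unless nothing is ever chosen at this geometry -/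
structure PvkfWin (yf : Conf PvPt → Set ℂ) (B : Set ℂ) : Prop where
  sub : ∀ η, yf η ⊆ B
  fin : ∀ Y : Set ℂ, (Y ∩ B).Finite ∨ ∀ σ : ℂ → Bool, Y ∩ yf (cfOf Y σ) = ∅
  dec : ∀ (Y : Set ℂ) (σ σ' : ℂ → Bool), (∀ z ∈ Y ∩ B, z ∉ yf (cfOf Y σ) → σ' z = σ z) → Y ∩ yf (cfOf Y σ') = Y ∩ yf (cfOf Y σ)

variable {yf yf₁ yf₂ : Conf PvPt → Set ℂ} {B B₁ B₂ : Set ℂ}

/-- **a choice which lives in a window is a STOPPING CHOICE** (193) -/
theorem PvkfWin.stop (h : PvkfWin yf B) : PvdyStop yf := by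
  refine ⟨fun Y σ hne => ?_⟩
  rcases h.fin Y with hf | he
  · have hf' : ((Y ∩ B) \ yf (cfOf Y σ)).Finite := hf.subset sdiff_subset
    refine ⟨hf'.toFinset, ?_, fun σ' hσ => h.dec Y σ σ' fun z hz hn => hσ z (hf'.mem_toFinset.2 ⟨hz, hn⟩)⟩
    rw [hf'.coe_toFinset]
    exact fun z hz => ⟨hz.1.1, hz.2⟩
  · exact absurd (he σ) hne.ne_empty

/-- **TWO DISJOINT WINDOWS** (the two mouths of a chain) -/
theorem PvkfWin.union (h₁ : PvkfWin yf₁ B₁) (h₂ : PvkfWin yf₂ B₂) (hd : Disjoint B₁ B₂) : PvdyStop fun η => yf₁ η ∪ yf₂ η := by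
  have d1 : ∀ (Y : Set ℂ) (σ σ' : ℂ → Bool) (S : Set ℂ), (∀ z ∈ S, σ' z = σ z) → (Y ∩ B₁) \ yf₁ (cfOf Y σ) ⊆ S → Y ∩ yf₁ (cfOf Y σ') = Y ∩ yf₁ (cfOf Y σ) :=
    fun Y σ σ' S hS hsub => h₁.dec Y σ σ' fun z hz hn => hS z (hsub ⟨hz, hn⟩)
  have d2 : ∀ (Y : Set ℂ) (σ σ' : ℂ → Bool) (S : Set ℂ), (∀ z ∈ S, σ' z = σ z) → (Y ∩ B₂) \ yf₂ (cfOf Y σ) ⊆ S → Y ∩ yf₂ (cfOf Y σ') = Y ∩ yf₂ (cfOf Y σ) :=
    fun Y σ σ' S hS hsub => h₂.dec Y σ σ' fun z hz hn => hS z (hsub ⟨hz, hn⟩)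
  have n1 : ∀ (Y : Set ℂ) (σ : ℂ → Bool) (z : ℂ), z ∈ (Y ∩ B₁) \ yf₁ (cfOf Y σ) → z ∈ Y \ (yf₁ (cfOf Y σ) ∪ yf₂ (cfOf Y σ)) :=
    fun Y σ z hz => ⟨hz.1.1, fun hh => hh.elim hz.2 fun h2 => Set.disjoint_left.1 hd hz.1.2 (h₂.sub _ h2)⟩
  have n2 : ∀ (Y : Set ℂ) (σ : ℂ → Bool) (z : ℂ), z ∈ (Y ∩ B₂) \ yf₂ (cfOf Y σ) → z ∈ Y \ (yf₁ (cfOf Y σ) ∪ yf₂ (cfOf Y σ)) :=
    fun Y σ z hz => ⟨hz.1.1, fun hh => hh.elim (fun h1 => Set.disjoint_left.1 hd (h₁.sub _ h1) hz.1.2) hz.2⟩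
  refine ⟨fun Y σ hne => ?_⟩
  rcases h₁.fin Y with f1 | e1 <;> rcases h₂.fin Y with f2 | e2
  · have g1 : ((Y ∩ B₁) \ yf₁ (cfOf Y σ)).Finite := f1.subset sdiff_subset
    have g2 : ((Y ∩ B₂) \ yf₂ (cfOf Y σ)).Finite := f2.subset sdiff_subset
    refine ⟨(g1.union g2).toFinset, ?_, fun σ' hσ => ?_⟩
    · rw [(g1.union g2).coe_toFinset]
      exact fun z hz => hz.elim (n1 Y σ z) (n2 Y σ z)
    · have hS : ∀ z ∈ (Y ∩ B₁) \ yf₁ (cfOf Y σ) ∪ (Y ∩ B₂) \ yf₂ (cfOf Y σ), σ' z = σ z := fun z hz => hσ z ((g1.union g2).mem_toFinset.2 hz)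
      rw [inter_union_distrib_left, inter_union_distrib_left, d1 Y σ σ' _ hS subset_union_left, d2 Y σ σ' _ hS subset_union_right]
  · have g1 : ((Y ∩ B₁) \ yf₁ (cfOf Y σ)).Finite := f1.subset sdiff_subset
    refine ⟨g1.toFinset, ?_, fun σ' hσ => ?_⟩
    · rw [g1.coe_toFinset]
      exact fun z hz => n1 Y σ z hz
    · have hS : ∀ z ∈ (Y ∩ B₁) \ yf₁ (cfOf Y σ), σ' z = σ z := fun z hz => hσ z (g1.mem_toFinset.2 hz)
      rw [inter_union_distrib_left, inter_union_distrib_left, d1 Y σ σ' _ hS subset_rfl, e2, e2]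
  · have g2 : ((Y ∩ B₂) \ yf₂ (cfOf Y σ)).Finite := f2.subset sdiff_subset
    refine ⟨g2.toFinset, ?_, fun σ' hσ => ?_⟩
    · rw [g2.coe_toFinset]
      exact fun z hz => n2 Y σ z hz
    · have hS : ∀ z ∈ (Y ∩ B₂) \ yf₂ (cfOf Y σ), σ' z = σ z := fun z hz => hσ z (g2.mem_toFinset.2 hz)
      rw [inter_union_distrib_left, inter_union_distrib_left, d2 Y σ σ' _ hS subset_rfl, e1, e1]
  · exfalso
    rw [inter_union_distrib_left, e1, e2, union_empty] at hne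
    exact hne.ne_empty rfl

end win

/-! ## 4. the model: functions of `(Y, σ)` -/

/-- the colouring `σ : ℂ → Bool` of the sites `Y` seen by a rim of colour `b`      (`pvxCol ω b = pvkfC (pvxY ω) (cfCol (pvConf ω)) b` by `rfl`) -/
def pvkfC (Y : Set ℂ) (σ : ℂ → Bool) (b : Bool) : ↥Y → Bool := fun v => σ v.1 == b

theorem pvkf_C_congr {Y : Set ℂ} {σ σ' : ℂ → Bool} (h : ∀ z ∈ Y, σ z = σ' z) (b : Bool) : pvkfC Y σ b = pvkfC Y σ' b := by
  funext v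
  unfold pvkfC
  rw [h v.1 v.2]

theorem pvkf_C_agree {Y : Set ℂ} {σ σ' : ℂ → Bool} {F : Set ↥Y} (h : ∀ u ∈ F, σ' u.1 = σ u.1) (b : Bool) : PvwAgree F (pvkfC Y σ b) (pvkfC Y σ' b) := by
  intro u hu
  unfold pvkfC
  rw [h u hu]

theorem pvkf_C_model (ω : PVSample) (b : Bool) : pvxCol ω b = pvkfC (pvxY ω) (cfCol (pvConf ω)) b := rfl

section fam

variable (St : ∀ Y : Set ℂ, (↥Y → Bool) → PvwSt (delbPl Y).toMap → Prop) (fr G : ∀ Y : Set ℂ, PvwSt (delbPl Y).toMap → Set ↥Y) (b : Bool)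

/-- a state exists -/
def PvkfEx (Y : Set ℂ) (σ : ℂ → Bool) : Prop := ∃ 𝔖, St Y (pvkfC Y σ b) 𝔖

/-- **THE FROZEN POSITIONS** (empty if there is no state) -/
def pvkfZ (Y : Set ℂ) (σ : ℂ → Bool) : Set ℂ := {w | ∃ 𝔖, St Y (pvkfC Y σ b) 𝔖 ∧ ∃ u ∈ fr Y 𝔖, u.1 = w}

/-- **THE FRESH POINTS OF THE MOUTH `M`**: the points of `M` which are not positions of `G 𝔖`      (empty if there is no state) -/
def pvkfFr (M : Set ℂ) (Y : Set ℂ) (σ : ℂ → Bool) : Set ℂ := {w | w ∈ M ∧ ∃ 𝔖, St Y (pvkfC Y σ b) 𝔖 ∧ ∀ u ∈ G Y 𝔖, u.1 ≠ w}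

/-- **A FAMILY OF STATES AT THE MODEL**: at every geometry a cylinder family;   a state exists only at locally finite geometries;   the frozen sites lie in the bounded set `B`;   `G` (the part of the frozen set which is taken out of the mouth) is a function of the colouring -/
structure PvkfFam (B : Set ℂ) : Prop where
  cyl : ∀ Y, PvkfCyl (St Y) (fr Y)
  lf : ∀ Y s 𝔖, St Y s 𝔖 → VorLF Y
  box : ∀ Y s 𝔖, St Y s 𝔖 → ∀ u ∈ fr Y 𝔖, u.1 ∈ B
  bdd : Bornology.IsBounded B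
  Gu : ∀ Y s 𝔖 𝔖', St Y s 𝔖 → St Y s 𝔖' → G Y 𝔖 = G Y 𝔖'

theorem pvkf_eqns_cite3 : True := by
  have := @pvkfC.eq_1; have := @PvkfEx.eq_1; have := @pvkfZ.eq_1; have := @pvkfFr.eq_1
  trivial

variable {St fr G b} {B M : Set ℂ} {Y : Set ℂ} {σ σ' : ℂ → Bool}

theorem pvkf_ex_col (h : ∀ z ∈ Y, σ z = σ' z) : PvkfEx St b Y σ ↔ PvkfEx St b Y σ' := by
  unfold PvkfEx
  rw [pvkf_C_congr h b]

theorem pvkf_Z_col (h : ∀ z ∈ Y, σ z = σ' z) : pvkfZ St fr b Y σ = pvkfZ St fr b Y σ' := by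
  unfold pvkfZ
  rw [pvkf_C_congr h b]

theorem pvkf_fr_col (h : ∀ z ∈ Y, σ z = σ' z) : pvkfFr St G b M Y σ = pvkfFr St G b M Y σ' := by
  unfold pvkfFr
  rw [pvkf_C_congr h b]

theorem pvkf_ex_cfOf (Y : Set ℂ) (σ : ℂ → Bool) : PvkfEx St b (cfSites (cfOf Y σ)) (cfCol (cfOf Y σ)) ↔ PvkfEx St b Y σ := by
  rw [cfOf_sites]
  exact pvkf_ex_col fun z hz => pvdy_cfCol_cfOf σ hz

theorem pvkf_Z_cfOf (Y : Set ℂ) (σ : ℂ → Bool) : pvkfZ St fr b (cfSites (cfOf Y σ)) (cfCol (cfOf Y σ)) = pvkfZ St fr b Y σ := by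
  rw [cfOf_sites]
  exact pvkf_Z_col fun z hz => pvdy_cfCol_cfOf σ hz

theorem pvkf_fr_cfOf (M Y : Set ℂ) (σ : ℂ → Bool) : pvkfFr St G b M (cfSites (cfOf Y σ)) (cfCol (cfOf Y σ)) = pvkfFr St G b M Y σ := by
  rw [cfOf_sites]
  exact pvkf_fr_col fun z hz => pvdy_cfCol_cfOf σ hz

theorem pvkf_Z_eq (h : PvkfFam St fr G B) {𝔖 : PvwSt (delbPl Y).toMap} (h𝔖 : St Y (pvkfC Y σ b) 𝔖) : pvkfZ St fr b Y σ = Subtype.val '' fr Y 𝔖 := by
  ext w
  constructor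
  · rintro ⟨𝔖', h', u, hu, rfl⟩
    exact ⟨u, (h.cyl Y).uni _ _ _ h' h𝔖 ▸ hu, rfl⟩
  · rintro ⟨u, hu, rfl⟩
    exact ⟨𝔖, h𝔖, u, hu, rfl⟩

theorem pvkf_Z_sub (St : ∀ Y : Set ℂ, (↥Y → Bool) → PvwSt (delbPl Y).toMap → Prop) (fr : ∀ Y : Set ℂ, PvwSt (delbPl Y).toMap → Set ↥Y) (b : Bool) (Y : Set ℂ) (σ : ℂ → Bool) : pvkfZ St fr b Y σ ⊆ Y := by
  rintro _ ⟨_, _, u, _, rfl⟩
  exact u.2

theorem pvkf_Z_box (h : PvkfFam St fr G B) (Y : Set ℂ) (σ : ℂ → Bool) : pvkfZ St fr b Y σ ⊆ B := by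
  rintro _ ⟨𝔖, h𝔖, u, hu, rfl⟩
  exact h.box Y _ 𝔖 h𝔖 u hu

theorem pvkf_Z_finite (h : PvkfFam St fr G B) (Y : Set ℂ) (σ : ℂ → Bool) : (pvkfZ St fr b Y σ).Finite := by
  by_cases hex : PvkfEx St b Y σ
  · obtain ⟨𝔖, h𝔖⟩ := hex
    rw [pvkf_Z_eq h h𝔖]
    exact ((h.cyl Y).fin _ _ h𝔖).image _
  · convert finite_empty (α := ℂ)
    ext w
    exact ⟨fun ⟨𝔖, h𝔖, _⟩ => hex ⟨𝔖, h𝔖⟩, fun hw => hw.elim⟩

theorem pvkf_fr_eq (h : PvkfFam St fr G B) {𝔖 : PvwSt (delbPl Y).toMap} (h𝔖 : St Y (pvkfC Y σ b) 𝔖) : pvkfFr St G b M Y σ = M \ Subtype.val '' G Y 𝔖 := by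
  ext w
  constructor
  · rintro ⟨hM, 𝔖', h', hn⟩
    refine ⟨hM, ?_⟩
    rintro ⟨u, hu, rfl⟩
    exact hn u (h.Gu Y _ _ _ h' h𝔖 ▸ hu) rfl
  · rintro ⟨hM, hn⟩
    exact ⟨hM, 𝔖, h𝔖, fun u hu e => hn ⟨u, hu, e⟩⟩

theorem pvkf_fr_empty (hex : ¬ PvkfEx St b Y σ) : pvkfFr St G b M Y σ = ∅ := by
  ext w
  exact ⟨fun ⟨_, 𝔖, h𝔖, _⟩ => hex ⟨𝔖, h𝔖⟩, fun hw => hw.elim⟩

/-- **D6 AT THE MODEL**: a colouring which agrees with `σ` on the frozen positions has the same states, the same frozen positions, the same fresh points -/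
theorem pvkf_congr (h : PvkfFam St fr G B) (hex : PvkfEx St b Y σ) (ha : ∀ w ∈ pvkfZ St fr b Y σ, σ' w = σ w) :
    (∀ 𝔖, St Y (pvkfC Y σ b) 𝔖 ↔ St Y (pvkfC Y σ' b) 𝔖) ∧ PvkfEx St b Y σ' ∧ pvkfZ St fr b Y σ' = pvkfZ St fr b Y σ ∧ ∀ M, pvkfFr St G b M Y σ' = pvkfFr St G b M Y σ := by
  obtain ⟨𝔖, h𝔖⟩ := hex
  have hag : PvwAgree (fr Y 𝔖) (pvkfC Y σ b) (pvkfC Y σ' b) := pvkf_C_agree (fun u hu => ha u.1 ⟨𝔖, h𝔖, u, hu, rfl⟩) b
  have hiff := (h.cyl Y).iff h𝔖 hag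
  have h𝔖' := (hiff 𝔖).1 h𝔖
  exact ⟨hiff, ⟨𝔖, h𝔖'⟩, by rw [pvkf_Z_eq h h𝔖, pvkf_Z_eq h h𝔖'], fun M => by rw [pvkf_fr_eq h h𝔖, pvkf_fr_eq h h𝔖']⟩

/-- the existence of a state is decided by the colours of the sites of `B` -/
theorem pvkf_ex_box (h : PvkfFam St fr G B) (ha : ∀ w ∈ Y ∩ B, σ' w = σ w) : PvkfEx St b Y σ ↔ PvkfEx St b Y σ' :=
  ⟨fun hex => (pvkf_congr h hex fun w hw => ha w ⟨pvkf_Z_sub St fr b Y σ hw, pvkf_Z_box h Y σ hw⟩).2.1,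
    fun hex => (pvkf_congr h hex fun w hw => (ha w ⟨pvkf_Z_sub St fr b Y σ' hw, pvkf_Z_box h Y σ' hw⟩).symm).2.1⟩

/-- **THE FRESH POINTS OF A MOUTH LIVE IN A WINDOW**.      `hM`: the frozen sites in the mouth belong to `G` -/
theorem pvkf_win (h : PvkfFam St fr G B) (hMb : Bornology.IsBounded M) (hM : ∀ Y s 𝔖, St Y s 𝔖 → ∀ u ∈ fr Y 𝔖, u.1 ∈ M → u ∈ G Y 𝔖) :
    PvkfWin (fun η => pvkfFr St G b M (cfSites η) (cfCol η)) (M ∪ B) where
  sub := fun η w hw => Or.inl hw.1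
  fin := fun Y => by
    by_cases hlf : VorLF Y
    · left
      obtain ⟨R, hR⟩ := (hMb.union h.bdd).subset_closedBall (0 : ℂ)
      exact (hlf R).subset (inter_subset_inter_right _ hR)
    · right
      intro σ
      rw [pvkf_fr_cfOf, pvkf_fr_empty (fun ⟨𝔖, h𝔖⟩ => hlf (h.lf Y _ 𝔖 h𝔖)), inter_empty]
  dec := fun Y σ σ' ha => by
    simp only [pvkf_fr_cfOf] at ha ⊢
    by_cases hex : PvkfEx St b Y σ
    · rw [(pvkf_congr h hex fun w hw => ?_).2.2.2 M]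
      refine ha w ⟨pvkf_Z_sub St fr b Y σ hw, Or.inr (pvkf_Z_box h Y σ hw)⟩ ?_
      obtain ⟨𝔖, h𝔖, u, hu, rfl⟩ := hw
      rw [pvkf_fr_eq h h𝔖]
      exact fun hh => hh.2 ⟨u, hM Y _ 𝔖 h𝔖 u hu hh.1, rfl⟩
    · have hex' : ¬ PvkfEx St b Y σ' := by
        rw [← pvkf_ex_box h fun w hw => ha w ⟨hw.1, Or.inr hw.2⟩ (by rw [pvkf_fr_empty hex]; exact fun hh => hh)]
        exact hex
      rw [pvkf_fr_empty hex, pvkf_fr_empty hex']

/-- the same on configurations: same sites, same colours on the frozen positions -/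
theorem pvkf_conf (h : PvkfFam St fr G B) {η η' : Conf PvPt} (hS : cfSites η' = cfSites η) (hex : PvkfEx St b (cfSites η) (cfCol η))
    (ha : ∀ w ∈ pvkfZ St fr b (cfSites η) (cfCol η), cfCol η' w = cfCol η w) :
    PvkfEx St b (cfSites η') (cfCol η') ∧ pvkfZ St fr b (cfSites η') (cfCol η') = pvkfZ St fr b (cfSites η) (cfCol η) ∧
      ∀ M, pvkfFr St G b M (cfSites η') (cfCol η') = pvkfFr St G b M (cfSites η) (cfCol η) := by
  rw [hS]
  exact (pvkf_congr h hex ha).2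

end fam

/-! ## 5. the three families of a placed candidate -/

section inst

variable (N : PvwNum) (h : ℝ) (z : ℂ) (τ : PvwTy) (Q : ∀ Y : Set ℂ, PvwSt (delbPl Y).toMap → Prop)

/-- a bounded set which holds all the frozen sites of the candidate: the box of its level and the disc of its core -/
def pvkfB : Set ℂ := pvwSq z (pvwRad N h τ τ.k) ∪ Metric.ball z (τ.b * h)

/-- `𝔖` is THE EXIT HALF STATE of the colouring `s` of the sites `Y`, with the colour free clause `Q` (tip cell, mask, regular geometry ..) -/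
def PvkfO (Y : Set ℂ) (s : ↥Y → Bool) (𝔖 : PvwSt (delbPl Y).toMap) : Prop := DelGood Y ∧ 𝔖.AtOut Subtype.val N h z τ s ∧ Q Y 𝔖

/-- `𝔖` is THE ENTRANCE HALF STATE -/
def PvkfI (Y : Set ℂ) (s : ↥Y → Bool) (𝔖 : PvwSt (delbPl Y).toMap) : Prop := DelGood Y ∧ 𝔖.AtIn Subtype.val N h z τ s ∧ Q Y 𝔖

/-- `𝔖` is THE FULL STATE -/
def PvkfA (Y : Set ℂ) (s : ↥Y → Bool) (𝔖 : PvwSt (delbPl Y).toMap) : Prop := DelGood Y ∧ 𝔖.At Subtype.val N h z τ s ∧ Q Y 𝔖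

theorem pvkf_eqns_cite4 : True := by
  have := @pvkfB.eq_1; have := @PvkfO.eq_1; have := @PvkfI.eq_1; have := @PvkfA.eq_1
  trivial

theorem pvkf_B_bdd : Bornology.IsBounded (pvkfB N h z τ) := by
  refine Bornology.IsBounded.union (Metric.isBounded_closedBall.subset (s := pvwSq z (pvwRad N h τ τ.k)) (t := Metric.closedBall z (2 * pvwRad N h τ τ.k)) fun w hw => ?_) Metric.isBounded_ball
  rw [Metric.mem_closedBall, dist_eq_norm]
  calc ‖w - z‖ ≤ |(w - z).re| + |(w - z).im| := Complex.norm_le_abs_re_add_abs_im _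
    _ ≤ 2 * pvwRad N h τ τ.k := by linarith [hw.1, hw.2]

variable {N h z τ}

theorem pvkf_out_box {V D : Type} {T : PvMap V D} {pos : V → ℂ} {s : V → Bool} {𝔖 : PvwSt T} (ha : 𝔖.AtOut pos N h z τ s) {u : V} (hu : u ∈ 𝔖.fzOut) : pos u ∈ pvkfB N h z τ := by
  rcases hu with (hu | hu) | hu
  · exact Or.inr (by rw [Metric.mem_ball, dist_eq_norm]; exact pvwk_core_lt ha.gate hu)
  · exact Or.inl (pvwk_banksP_in ha.stub (Or.inl hu))
  · exact Or.inl (pvwk_banksP_in ha.stub (Or.inr hu))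

theorem pvkf_in_box {V D : Type} {T : PvMap V D} {pos : V → ℂ} {s : V → Bool} {𝔖 : PvwSt T} (ha : 𝔖.AtIn pos N h z τ s) {u : V} (hu : u ∈ 𝔖.fzIn) : pos u ∈ pvkfB N h z τ := by
  rcases hu with (hu | hu) | hu
  · exact Or.inr (by rw [Metric.mem_ball, dist_eq_norm]; exact pvwk_core_lt ha.gate hu)
  · exact Or.inl (pvwk_banksM_in ha.stub (Or.inl hu))
  · exact Or.inl (pvwk_banksM_in ha.stub (Or.inr hu))

variable (N h z τ)

theorem pvkf_mo (Y : Set ℂ) (hY : DelGood Y) : (delbPl Y).toMap.IsSph ∧ (delbPl Y).toMap.Simple ∧ Function.Injective (Subtype.val : ↥Y → ℂ) :=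
  ⟨delb_plane_isSph hY, pvgy_m_simple Y, Subtype.val_injective⟩

/-- **THE EXIT HALF STATES** -/
theorem pvkf_fam_out : PvkfFam (PvkfO N h z τ Q) (fun _ 𝔖 => 𝔖.fzOut) (fun _ 𝔖 => 𝔖.fzOut) (pvkfB N h z τ) where
  cyl := fun Y =>
    { fin := fun s 𝔖 ha => (pvkf_out (pvkf_mo Y ha.1).1 (pvkf_mo Y ha.1).2.1 (pvkf_mo Y ha.1).2.2 N h z τ).fin s 𝔖 ha.2.1
      cyl := fun s s' 𝔖 ha hs => ⟨ha.1, (pvkf_out (pvkf_mo Y ha.1).1 (pvkf_mo Y ha.1).2.1 (pvkf_mo Y ha.1).2.2 N h z τ).cyl s s' 𝔖 ha.2.1 hs, ha.2.2⟩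
      uni := fun s 𝔖 𝔖' ha ha' => (pvkf_out (pvkf_mo Y ha.1).1 (pvkf_mo Y ha.1).2.1 (pvkf_mo Y ha.1).2.2 N h z τ).uni s 𝔖 𝔖' ha.2.1 ha'.2.1 }
  lf := fun _ _ _ ha => ha.1.lf
  box := fun _ _ _ ha _ hu => pvkf_out_box ha.2.1 hu
  bdd := pvkf_B_bdd N h z τ
  Gu := fun Y s 𝔖 𝔖' ha ha' => (pvkf_out (pvkf_mo Y ha.1).1 (pvkf_mo Y ha.1).2.1 (pvkf_mo Y ha.1).2.2 N h z τ).uni s 𝔖 𝔖' ha.2.1 ha'.2.1

/-- **THE ENTRANCE HALF STATES** -/
theorem pvkf_fam_in : PvkfFam (PvkfI N h z τ Q) (fun _ 𝔖 => 𝔖.fzIn) (fun _ 𝔖 => 𝔖.fzIn) (pvkfB N h z τ) where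
  cyl := fun Y =>
    { fin := fun s 𝔖 ha => (pvkf_in (pvkf_mo Y ha.1).1 (pvkf_mo Y ha.1).2.1 (pvkf_mo Y ha.1).2.2 N h z τ).fin s 𝔖 ha.2.1
      cyl := fun s s' 𝔖 ha hs => ⟨ha.1, (pvkf_in (pvkf_mo Y ha.1).1 (pvkf_mo Y ha.1).2.1 (pvkf_mo Y ha.1).2.2 N h z τ).cyl s s' 𝔖 ha.2.1 hs, ha.2.2⟩
      uni := fun s 𝔖 𝔖' ha ha' => (pvkf_in (pvkf_mo Y ha.1).1 (pvkf_mo Y ha.1).2.1 (pvkf_mo Y ha.1).2.2 N h z τ).uni s 𝔖 𝔖' ha.2.1 ha'.2.1 }
  lf := fun _ _ _ ha => ha.1.lf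
  box := fun _ _ _ ha _ hu => pvkf_in_box ha.2.1 hu
  bdd := pvkf_B_bdd N h z τ
  Gu := fun Y s 𝔖 𝔖' ha ha' => (pvkf_in (pvkf_mo Y ha.1).1 (pvkf_mo Y ha.1).2.1 (pvkf_mo Y ha.1).2.2 N h z τ).uni s 𝔖 𝔖' ha.2.1 ha'.2.1

theorem pvkf_cyl_at (Y : Set ℂ) : PvkfCyl (PvkfA N h z τ Q Y) (fun 𝔖 => 𝔖.fz) where
  fin := fun s 𝔖 ha => (pvkf_at (pvkf_mo Y ha.1).1 (pvkf_mo Y ha.1).2.1 (pvkf_mo Y ha.1).2.2 N h z τ).fin s 𝔖 ha.2.1
  cyl := fun s s' 𝔖 ha hs => ⟨ha.1, (pvkf_at (pvkf_mo Y ha.1).1 (pvkf_mo Y ha.1).2.1 (pvkf_mo Y ha.1).2.2 N h z τ).cyl s s' 𝔖 ha.2.1 hs, ha.2.2⟩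
  uni := fun s 𝔖 𝔖' ha ha' => (pvkf_at (pvkf_mo Y ha.1).1 (pvkf_mo Y ha.1).2.1 (pvkf_mo Y ha.1).2.2 N h z τ).uni s 𝔖 𝔖' ha.2.1 ha'.2.1

/-- **THE FULL STATES**, the exit half taken out of the mouth -/
theorem pvkf_fam_at_out : PvkfFam (PvkfA N h z τ Q) (fun _ 𝔖 => 𝔖.fz) (fun _ 𝔖 => 𝔖.fzOut) (pvkfB N h z τ) where
  cyl := pvkf_cyl_at N h z τ Q
  lf := fun _ _ _ ha => ha.1.lf
  box := fun _ _ _ ha _ hu => hu.elim (fun hu => pvkf_out_box ha.2.1.out hu) fun hu => pvkf_in_box ha.2.1.inn hu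
  bdd := pvkf_B_bdd N h z τ
  Gu := fun Y s 𝔖 𝔖' ha ha' => (pvuq_del ha.1 ha.2.1 ha'.2.1).fzOut

/-- **THE FULL STATES**, the entrance half taken out of the mouth -/
theorem pvkf_fam_at_in : PvkfFam (PvkfA N h z τ Q) (fun _ 𝔖 => 𝔖.fz) (fun _ 𝔖 => 𝔖.fzIn) (pvkfB N h z τ) where
  cyl := pvkf_cyl_at N h z τ Q
  lf := fun _ _ _ ha => ha.1.lf
  box := fun _ _ _ ha _ hu => hu.elim (fun hu => pvkf_out_box ha.2.1.out hu) fun hu => pvkf_in_box ha.2.1.inn hu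
  bdd := pvkf_B_bdd N h z τ
  Gu := fun Y s 𝔖 𝔖' ha ha' => (pvuq_del ha.1 ha.2.1 ha'.2.1).fzIn

variable (b : Bool) {M : Set ℂ}

/-- **fresh points of ANY bounded mouth, exit half state**: they live in the window `M ∪ pvkfB` -/
theorem pvkf_win_out (hMb : Bornology.IsBounded M) : PvkfWin (fun η => pvkfFr (PvkfO N h z τ Q) (fun _ 𝔖 => 𝔖.fzOut) b M (cfSites η) (cfCol η)) (M ∪ pvkfB N h z τ) :=
  pvkf_win (pvkf_fam_out N h z τ Q) hMb fun _ _ _ _ _ hu _ => hu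

theorem pvkf_win_in (hMb : Bornology.IsBounded M) : PvkfWin (fun η => pvkfFr (PvkfI N h z τ Q) (fun _ 𝔖 => 𝔖.fzIn) b M (cfSites η) (cfCol η)) (M ∪ pvkfB N h z τ) :=
  pvkf_win (pvkf_fam_in N h z τ Q) hMb fun _ _ _ _ _ hu _ => hu

/-- **fresh points of the exit mouth, FULL state**: the mouth lies in the ball `closedBall y⁺ (2 ρ h)`, which `Σ_in` misses (`far_p`) -/
theorem pvkf_win_at_out (hM : M ⊆ Metric.closedBall (τ.cp h z) (2 * N.rho * h)) :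
    PvkfWin (fun η => pvkfFr (PvkfA N h z τ Q) (fun _ 𝔖 => 𝔖.fzOut) b M (cfSites η) (cfCol η)) (M ∪ pvkfB N h z τ) := by
  refine pvkf_win (pvkf_fam_at_out N h z τ Q) (Metric.isBounded_closedBall.subset hM) fun Y s 𝔖 ha u hu huM => hu.elim id fun hi => ?_
  have h1 := ha.2.1.far_p u hi
  have h2 := hM huM
  rw [Metric.mem_closedBall, dist_eq_norm] at h2
  exact absurd h2 (not_le.2 h1)

theorem pvkf_win_at_in (hM : M ⊆ Metric.closedBall (τ.cm h z) (2 * N.rho * h)) :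
    PvkfWin (fun η => pvkfFr (PvkfA N h z τ Q) (fun _ 𝔖 => 𝔖.fzIn) b M (cfSites η) (cfCol η)) (M ∪ pvkfB N h z τ) := by
  refine pvkf_win (pvkf_fam_at_in N h z τ Q) (Metric.isBounded_closedBall.subset hM) fun Y s 𝔖 ha u hu huM => hu.elim (fun ho => ?_) id
  have h1 := ha.2.1.far_m u ho
  have h2 := hM huM
  rw [Metric.mem_closedBall, dist_eq_norm] at h2
  exact absurd h2 (not_le.2 h1)

end inst

/-! ## 6. measurability and `∑ P(Cyl) ≤ 1` at a fixed countable geometry, colours `σ : ℂ → Bool` -/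

section meas

variable {St : ∀ Y : Set ℂ, (↥Y → Bool) → PvwSt (delbPl Y).toMap → Prop} {fr G : ∀ Y : Set ℂ, PvwSt (delbPl Y).toMap → Set ↥Y} {b : Bool} {B : Set ℂ} {Y : Set ℂ}

theorem pvkf_C_measurable (Y : Set ℂ) (b : Bool) : Measurable fun σ : ℂ → Bool => pvkfC Y σ b :=
  measurable_pi_lambda _ fun v => (measurable_of_countable fun c : Bool => c == b).comp (measurable_pi_apply v.1)

/-- "a state exists" is a measurable event of the colours -/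
theorem pvkf_ex_meas (h : PvkfFam St fr G B) (hY : Y.Countable) : MeasurableSet {σ : ℂ → Bool | PvkfEx St b Y σ} := by
  have := hY.to_subtype
  exact (pvkf_C_measurable Y b) (h.cyl Y).meas

/-- the level sets of the frozen positions are measurable -/
theorem pvkf_level_meas (h : PvkfFam St fr G B) (hY : Y.Countable) (F : Set ℂ) : MeasurableSet {σ : ℂ → Bool | PvkfEx St b Y σ ∧ pvkfZ St fr b Y σ = F} := by
  have := hY.to_subtype
  by_cases hF : ∃ T : Finset ↥Y, Subtype.val '' (↑T : Set ↥Y) = F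
  · obtain ⟨T, rfl⟩ := hF
    have e : {σ : ℂ → Bool | PvkfEx St b Y σ ∧ pvkfZ St fr b Y σ = Subtype.val '' (↑T : Set ↥Y)} = (fun σ : ℂ → Bool => pvkfC Y σ b) ⁻¹' {s | s ∈ pvkfU (St Y) ∧ (h.cyl Y).S s = T} := by
      ext σ
      constructor
      · rintro ⟨⟨𝔖, h𝔖⟩, h2⟩
        refine ⟨⟨𝔖, h𝔖⟩, Finset.coe_injective ?_⟩
        rw [pvkf_Z_eq h h𝔖] at h2
        rw [(h.cyl Y).coe_S, (h.cyl Y).F_eq h𝔖]
        exact Subtype.val_injective.image_injective h2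
      · rintro ⟨⟨𝔖, h𝔖⟩, h2⟩
        refine ⟨⟨𝔖, h𝔖⟩, ?_⟩
        rw [pvkf_Z_eq h h𝔖, ← h2, (h.cyl Y).coe_S, (h.cyl Y).F_eq h𝔖]
    rw [e]
    exact (pvkf_C_measurable Y b) ((h.cyl Y).level_meas T)
  · convert MeasurableSet.empty
    ext σ
    refine ⟨?_, fun hh => hh.elim⟩
    rintro ⟨⟨𝔖, h𝔖⟩, h2⟩
    rw [pvkf_Z_eq h h𝔖] at h2
    exact hF ⟨((h.cyl Y).fin _ _ h𝔖).toFinset, by rw [Set.Finite.coe_toFinset]; exact h2⟩

/-- **`∑_σ P(Cyl σ) ≤ 1`**: the events "the frozen positions are `F`", `F` in ANY countable family of different sets, are disjoint -/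
theorem pvkf_sum_le (h : PvkfFam St fr G B) (hY : Y.Countable) (μ : Measure (ℂ → Bool)) [IsProbabilityMeasure μ] {ι : Type} [Countable ι] (F : ι → Set ℂ) (hF : Function.Injective F) :
    ∑' i, μ {σ : ℂ → Bool | PvkfEx St b Y σ ∧ pvkfZ St fr b Y σ = F i} ≤ 1 := by
  rw [← measure_iUnion (fun i j hne => Set.disjoint_left.2 fun σ h1 h2 => hne (hF (h1.2.symm.trans h2.2))) fun i => pvkf_level_meas h hY (F i)]
  exact prob_le_one

end meas

end Claimed.Agent.R289
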