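-- KEEP CAPOK
import Claimed.Agent.R289.Tr.AtCyl
import Claimed.Agent.R289.Tr.InstE

/-!
# Row 289 (S0537), THE WALL, road E, file Tr/AtCylE : D6 AT THE MODEL IN THE NAMES OF `Tr/InstE` (161) AND `Defs/TrModel` (187)      (helper255; prefix `pvkfe`, `Pvkfe`)

`PvdyStop` (193, `Tr/DomY`) FOR THE FRESH SETS OF RECORD `pvieFrO pvieFrI`, hence for `pvieYo pvieYi pvieYe` (mouth inside the protected ball) and for the two mouths of a chain `pvieYfc` (disjoint windows).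
-/

set_option autoImplicit false
set_option linter.unusedSectionVars false
set_option linter.unusedVariables false

namespace Claimed.Agent.R289

open Set MeasureTheory Claims.C0465
open scoped ENNReal

/-- the colour free clauses of `PvieAt` (= of `PvxAt` v4): tip cells, masks, the two halves of the inner arc, the level guard -/
def PvkfeQ (N : PvwNum) (p : PviePl) (Y : Set ℂ) (𝔖 : PvwSt (delbPl Y).toMap) : Prop :=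
  ((delbPl Y).toMap.src (𝔖.ep 𝔖.np)).1 ∈ p.cp ∧ ((delbPl Y).toMap.src (𝔖.em 𝔖.nm)).1 ∈ p.cm ∧
    (∀ y : (delbPl Y).toMap.Pth, PvwLE (delbPl Y).toMap (fun i => (delbPl Y).toMap.src (𝔖.ep i)) 𝔖.np y → ∀ v ∈ y.verts, v.1 ∈ p.Mp) ∧
    (∀ y : (delbPl Y).toMap.Pth, PvwLE (delbPl Y).toMap (fun i => (delbPl Y).toMap.src (𝔖.em i)) 𝔖.nm y → ∀ v ∈ y.verts, v.1 ∈ p.Mm) ∧
    (∀ i, 𝔖.ip ≤ i → i ≤ 𝔖.inn.n → (N.m - 1) * p.h < ‖(𝔖.inn.v i).1 - p.z‖ → (𝔖.inn.v i).1 ∈ p.Mp) ∧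
    (∀ i, i ≤ 𝔖.ip → (N.m - 1) * p.h < ‖(𝔖.inn.v i).1 - p.z‖ → (𝔖.inn.v i).1 ∈ p.Mm) ∧ p.lev

theorem pvkfe_eqns_cite : True := by
  have := @PvkfeQ.eq_1
  trivial

variable {N : PvwNum} {b : Bool} {p : PviePl} {M : Set ℂ}

/-- `PvieAt` in the form `(Y, σ)` -/
theorem pvkfe_at_iff (η : Conf PvPt) (𝔖 : PvwSt (pvieT η)) : PvieAt N b p η 𝔖 ↔ PvkfA N p.h p.z p.ty (PvkfeQ N p) (cfSites η) (pvkfC (cfSites η) (cfCol η) b) 𝔖 :=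
  ⟨fun h => ⟨h.good, h.st, h.tip_p, h.tip_m, h.mask_p, h.mask_m, h.inn_p, h.inn_m, h.lev0⟩,
    fun h => ⟨h.1, h.2.1, h.2.2.1, h.2.2.2.1, h.2.2.2.2.1, h.2.2.2.2.2.1, h.2.2.2.2.2.2.1, h.2.2.2.2.2.2.2.1, h.2.2.2.2.2.2.2.2⟩⟩

theorem pvkfe_U_eq : pvieU N b p = {η | PvkfEx (PvkfA N p.h p.z p.ty (PvkfeQ N p)) b (cfSites η) (cfCol η)} := by
  ext η
  exact ⟨fun ⟨𝔖, h⟩ => ⟨𝔖, (pvkfe_at_iff η 𝔖).1 h⟩, fun ⟨𝔖, h⟩ => ⟨𝔖, (pvkfe_at_iff η 𝔖).2 h⟩⟩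

theorem pvkfe_frO_eq : pvieFrO N b p M = fun η => pvkfFr (PvkfA N p.h p.z p.ty (PvkfeQ N p)) (fun _ 𝔖 => 𝔖.fzOut) b M (cfSites η) (cfCol η) := by
  funext η
  ext w
  exact ⟨fun ⟨hM, 𝔖, h, hn⟩ => ⟨hM, 𝔖, (pvkfe_at_iff η 𝔖).1 h, hn⟩, fun ⟨hM, 𝔖, h, hn⟩ => ⟨hM, 𝔖, (pvkfe_at_iff η 𝔖).2 h, hn⟩⟩

theorem pvkfe_frI_eq : pvieFrI N b p M = fun η => pvkfFr (PvkfA N p.h p.z p.ty (PvkfeQ N p)) (fun _ 𝔖 => 𝔖.fzIn) b M (cfSites η) (cfCol η) := by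
  funext η
  ext w
  exact ⟨fun ⟨hM, 𝔖, h, hn⟩ => ⟨hM, 𝔖, (pvkfe_at_iff η 𝔖).1 h, hn⟩, fun ⟨hM, 𝔖, h, hn⟩ => ⟨hM, 𝔖, (pvkfe_at_iff η 𝔖).2 h, hn⟩⟩

/-- the window of a placed plug -/
def pvkfeB (N : PvwNum) (p : PviePl) : Set ℂ := pvkfB N p.h p.z p.ty

/-- **the fresh sites of the exit mouth live in a window** -/
theorem pvkfe_frO_win (hM : M ⊆ Metric.closedBall (p.ty.cp p.h p.z) (2 * N.rho * p.h)) : PvkfWin (pvieFrO N b p M) (M ∪ pvkfeB N p) := by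
  rw [pvkfe_frO_eq]
  exact pvkf_win_at_out N p.h p.z p.ty (PvkfeQ N p) b hM

/-- **the fresh sites of the entrance mouth live in a window** -/
theorem pvkfe_frI_win (hM : M ⊆ Metric.closedBall (p.ty.cm p.h p.z) (2 * N.rho * p.h)) : PvkfWin (pvieFrI N b p M) (M ∪ pvkfeB N p) := by
  rw [pvkfe_frI_eq]
  exact pvkf_win_at_in N p.h p.z p.ty (PvkfeQ N p) b hM

/-- **`PvdyStop` for the fresh sites of an exit mouth** -/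
theorem pvkfe_frO_stop (hM : M ⊆ Metric.closedBall (p.ty.cp p.h p.z) (2 * N.rho * p.h)) : PvdyStop (pvieFrO N b p M) := (pvkfe_frO_win hM).stop

/-- **`PvdyStop` for the fresh sites of an entrance mouth** -/
theorem pvkfe_frI_stop (hM : M ⊆ Metric.closedBall (p.ty.cm p.h p.z) (2 * N.rho * p.h)) : PvdyStop (pvieFrI N b p M) := (pvkfe_frI_win hM).stop

/-- **`PvdyStop` for the two mouths of a chain** `t → s`: the two windows are disjoint -/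
theorem pvkfe_two_stop {b' : Bool} {p' : PviePl} {M' : Set ℂ} (hM : M ⊆ Metric.closedBall (p.ty.cp p.h p.z) (2 * N.rho * p.h)) (hM' : M' ⊆ Metric.closedBall (p'.ty.cm p'.h p'.z) (2 * N.rho * p'.h))
    (hd : Disjoint (M ∪ pvkfeB N p) (M' ∪ pvkfeB N p')) : PvdyStop fun η => pvieFrO N b p M η ∪ pvieFrI N b' p' M' η :=
  (pvkfe_frO_win hM).union (pvkfe_frI_win hM') hd

/-- **D6**: same sites, same colours on the frozen positions ⟹ the state exists again, same frozen positions, same fresh sites -/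
theorem pvkfe_conf {η η' : Conf PvPt} (hS : cfSites η' = cfSites η) (hU : η ∈ pvieU N b p)
    (ha : ∀ w ∈ pvkfZ (PvkfA N p.h p.z p.ty (PvkfeQ N p)) (fun _ 𝔖 => 𝔖.fz) b (cfSites η) (cfCol η), cfCol η' w = cfCol η w) :
    η' ∈ pvieU N b p ∧ (∀ M, pvieFrO N b p M η' = pvieFrO N b p M η) ∧ ∀ M, pvieFrI N b p M η' = pvieFrI N b p M η := by
  rw [pvkfe_U_eq] at hU ⊢
  refine ⟨(pvkf_conf (pvkf_fam_at_out N p.h p.z p.ty (PvkfeQ N p)) hS hU ha).1, fun M => ?_, fun M => ?_⟩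
  · rw [pvkfe_frO_eq]
    exact (pvkf_conf (pvkf_fam_at_out N p.h p.z p.ty (PvkfeQ N p)) hS hU ha).2.2 M
  · rw [pvkfe_frI_eq]
    exact (pvkf_conf (pvkf_fam_at_in N p.h p.z p.ty (PvkfeQ N p)) hS hU ha).2.2 M

/-! ## the data of record -/

section rec

variable {τ : Type} {c : ℝ} (𝔓 : PvxPar τ c) (𝔈 : PvieEng τ)

theorem pvkfe_Yo_stop (m : ℕ) (z : ℂ) (t : τ) (hM : pvieSh z (𝔈.oM m t) ⊆ Metric.closedBall ((𝔓.ty t).cp (pvlmH m) z) (2 * 𝔓.num.rho * pvlmH m)) : PvdyStop (pvieYo 𝔓 𝔈 m z t) :=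
  pvkfe_frO_stop (p := 𝔓.pl m z t) hM

theorem pvkfe_Yi_stop (m : ℕ) (z : ℂ) (t : τ) (hM : pvieSh z (𝔈.iM m t) ⊆ Metric.closedBall ((𝔓.ty t).cm (pvlmH m) z) (2 * 𝔓.num.rho * pvlmH m)) : PvdyStop (pvieYi 𝔓 𝔈 m z t) :=
  pvkfe_frI_stop (p := 𝔓.pl m z t) hM

theorem pvkfe_Ye_stop (m : ℕ) (z : ℂ) (t : τ) (hM : pvieSh z (𝔈.eM m t) ⊆ Metric.closedBall ((𝔓.ty t).cm (pvlmH m) z) (2 * 𝔓.num.rho * pvlmH m)) : PvdyStop (pvieYe 𝔓 𝔈 m z t) :=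
  pvkfe_frI_stop (p := 𝔓.pl m z t) hM

/-- **the recoloured sites of the chain of a pattern are a stopping choice** -/
theorem pvkfe_Yfc_stop (m : ℕ) (π : PvtsPat τ) (hMo : pvieSh π.zt (𝔈.oM m π.tt) ⊆ Metric.closedBall ((𝔓.ty π.tt).cp (pvlmH m) π.zt) (2 * 𝔓.num.rho * pvlmH m))
    (hMi : pvieSh π.zs (𝔈.iM m π.ts) ⊆ Metric.closedBall ((𝔓.ty π.ts).cm (pvlmH m) π.zs) (2 * 𝔓.num.rho * pvlmH m))
    (hd : Disjoint (pvieSh π.zt (𝔈.oM m π.tt) ∪ pvkfeB 𝔓.num (𝔓.pl m π.zt π.tt)) (pvieSh π.zs (𝔈.iM m π.ts) ∪ pvkfeB 𝔓.num (𝔓.pl m π.zs π.ts))) : PvdyStop (pvieYfc 𝔓 𝔈 m π) :=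
  pvkfe_two_stop (p := 𝔓.pl m π.zt π.tt) (p' := 𝔓.pl m π.zs π.ts) hMo hMi hd

/-- "the candidate is usable" at a fixed countable geometry is a measurable event of the colours -/
theorem pvkfe_U_meas (m : ℕ) (z : ℂ) (t : τ) {Y : Set ℂ} (hY : Y.Countable) : MeasurableSet {σ : ℂ → Bool | cfOf Y σ ∈ pvieU 𝔓.num (𝔓.col t) (𝔓.pl m z t)} := by
  rw [pvkfe_U_eq]
  simp only [mem_ofPred_eq, pvkf_ex_cfOf]
  exact pvkf_ex_meas (pvkf_fam_at_out 𝔓.num (𝔓.pl m z t).h (𝔓.pl m z t).z (𝔓.pl m z t).ty (PvkfeQ 𝔓.num (𝔓.pl m z t))) hY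

end rec

theorem pvkfe_eqns_cite2 : True := by
  have := @pvkfeB.eq_1
  trivial

end Claimed.Agent.R289
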