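-- KEEP
import Claimed.Agent.R289.Tr.InstL
import Claimed.Agent.R289.Tr.AtCylE
import Claimed.Agent.R289.Tr.AtUniq
import Claimed.Agent.R289.Defs.InstWf

/-!
# Row 289 (S0537), THE WALL, ROAD E, file Tr/InstLB : THE BASE DATA `(Z, F)` OF `Tr/InstL` v2.2.1 AT THE PINS      (helper38, SECOND of 168 on `Tr/InstL`, job of 168 id 87938; prefix `pvza_`, `pvza`, `Pvza`)

0 sorry.      ALL the base data of `Tr/InstL` are read at PINS = plugs in the STANDARD frame `q.std`, `q : PviePl` (`pvilPin 𝔓 m z t = (𝔓.pl m z t).std`): every statement is typed at `q.std`.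
* sec. 1  the half states in the form `(Y, σ)` of 255 (`Tr/AtCyl`): `pvza_out_iff pvza_in_iff` (`PvilOut N b q.std η 𝔖 ↔ PvkfO N q.h q.z q.ty (PvzaQo N q) ..`), `pvza_Uo_eq pvza_Ui_eq pvza_FzO_kf pvza_FzI_kf`
* sec. 2  (a) **`pvza_at_iff : PvieAt N b q η 𝔖 ↔ PvilAt N b q.std η 𝔖`**, `pvza_U_eq`, `pvza_U_sub_o pvza_U_sub_i`
* sec. 3  uniqueness `pvza_out_uniq pvza_in_uniq`;   **`pvza_FzO_eq pvza_FzI_eq`** (`F = pos '' fzOut`), `pvza_HuO_eq pvza_HuI_eq`, **`pvza_HuO_F pvza_HuI_F`** (`Z = pvtCells δ (F ∪ mouth ball)` where the half state exists), `_off` (`∅` where it does not)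
* sec. 4  (c) `F` finite, `⊆` sites, `⊆` box;   `pvza_fat_cells` (`K ⊆ Fat (cells K)`), **`pvza_fat_sq`** (`K ⊆ pvwSq z ρ ⟹ Fat_δ (cells_δ K) ⊆ pvwSq z (ρ + 2 δ)`), `pvza_FzO_fat` (`F ⊆ Z⁺`), `pvza_ball_fat pvza_ball_sq`, **`pvza_FzO_ball pvza_FzI_ball`** (`closedBall v δ ⊆ Z⁺`, `v ∈ F`), `pvza_ballO_fat` (mouth ball `⊆ Z⁺`), `Z` finite, `M \ F` Borel
* sec. 5  (d) THE GUARDED CHOICE **`pvzaYo pvzaYi N b q M`** (`= M \ F` where the half state exists, `∅` where it does not): `pvza_Yo_win`, **`pvza_Yo_stop pvza_Yi_stop pvza_two_stop : PvdyStop ..`** for ANY bounded mouth.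
          WARNING: the UNGUARDED `fun η => M \ pvilFzO N b q.std η` (`= M` where the half state does not exist) is NOT a stopping choice: the non existence of the half state may be due to the colours INSIDE the mouth, no finite set of sites off the choice decides it.
* sec. 6  D6 for the base data: `pvza_conf_o pvza_conf_i` (same sites, same colours on `F` ⟹ same `F`, same `Z`, same choice)
* sec. 7  (a) (b) at the data of record: `pvza_model_iff`, **`pvza_U_conf : pvxU 𝔓 m z t = pvConf ⁻¹' pvilU ..`**, `pvza_Fo_eq pvza_Fi_eq pvza_Zo_eq pvza_Zi_eq`, **`pvza_fit`** (ON `Fit`: `pvilZo 𝔓 m π.p.zt π.p.tt (pvConf ω) = ↑π.Zt ∧ pvilZi 𝔓 m π.p.zs π.p.ts (pvConf ω) = ↑π.Zs`), `pvza_fit_F` (`π.Zt = pvtCells δ (F_out ∪ ball)`), `pvza_fit_dat`, `pvza_small`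
* sec. 8  `F` and the window part `pvilWz` against the regions of the engine (`Defs/InstWf`): `pvza_Fo_box`, `pvza_Bx_eq` (`pvilBx = z + pviwBox`), `pvza_Wz_sub`, **`pvza_ballO_Wz pvza_ballI_Wz`** (`v ∈ F ⟹ closedBall v δ ⊆ pvilWz` at the base hull), `pvza_Fo_Wz pvza_Fi_Wz`, `pvza_off_Fo pvza_off_Fi`, **`pvza_off_Wz`** (a region off the own-level box misses `pvilWz`, whatever `Z`)
* sec. 10 base data AT A DATUM (for `stab` of `n1`, `cyc1`, `thick`): **`pvza_dat_o pvza_dat_i`** (same good sites `Y`, SOME record `AtOut` / `AtIn` for `s`, `s' = s` on its frozen sites ⟹ the half state of `Tr/InstL` exists for both or none, same `F`, same `Z`), `pvza_dat_Fo pvza_dat_Fi` (`F = val '' 𝔖₀.fzOut`), `pvza_kfO_congr`;   N1 vocabulary: `Exit/N1Dat.lean`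
* sec. 9  door ends: `pvza_gt_eq` (the gate of record is unique AS A RECORD), `pvza_pg_disj`, **`pvza_door_uniq`** (`PvilDoor (pvkdP r) b η z d 𝔖 → PvilDoor .. 𝔖' → 𝔖 = 𝔖'`)
-/

set_option autoImplicit false

namespace Claimed.Agent.R289

open Set MeasureTheory Claims.C0465
open scoped ComplexConjugate

/-! ## 1. the half states in the form `(Y, σ)` of 255 -/

/-- the colour free clauses of `PvilOut`: tip cell, mask of the stub, mask of the half `mark → g⁺` of the inner arc, level guard -/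
def PvzaQo (N : PvwNum) (q : PviePl) (Y : Set ℂ) (𝔖 : PvwSt (delbPl Y).toMap) : Prop :=
  ((delbPl Y).toMap.src (𝔖.ep 𝔖.np)).1 ∈ q.cp ∧
    (∀ y : (delbPl Y).toMap.Pth, PvwLE (delbPl Y).toMap (fun i => (delbPl Y).toMap.src (𝔖.ep i)) 𝔖.np y → ∀ v ∈ y.verts, v.1 ∈ q.Mp) ∧
    (∀ i, 𝔖.ip ≤ i → i ≤ 𝔖.inn.n → (N.m - 1) * q.h < ‖(𝔖.inn.v i).1 - q.z‖ → (𝔖.inn.v i).1 ∈ q.Mp) ∧ q.lev

/-- the colour free clauses of `PvilIn` -/
def PvzaQi (N : PvwNum) (q : PviePl) (Y : Set ℂ) (𝔖 : PvwSt (delbPl Y).toMap) : Prop :=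
  ((delbPl Y).toMap.src (𝔖.em 𝔖.nm)).1 ∈ q.cm ∧
    (∀ y : (delbPl Y).toMap.Pth, PvwLE (delbPl Y).toMap (fun i => (delbPl Y).toMap.src (𝔖.em i)) 𝔖.nm y → ∀ v ∈ y.verts, v.1 ∈ q.Mm) ∧
    (∀ i, i ≤ 𝔖.ip → (N.m - 1) * q.h < ‖(𝔖.inn.v i).1 - q.z‖ → (𝔖.inn.v i).1 ∈ q.Mm) ∧ q.lev

/-- **the fresh points of the exit mouth `M`**: the points of `M` which are not frozen by `Σ_out`;   EMPTY if the half state does not exist -/
def pvzaYo (N : PvwNum) (b : Bool) (q : PviePl) (M : Set ℂ) (η : Conf PvPt) : Set ℂ := {w | w ∈ M ∧ ∃ 𝔖 : PvwSt (pvieT η), PvilOut N b q.std η 𝔖 ∧ ∀ u ∈ 𝔖.fzOut, pviePos η u ≠ w}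

/-- **the fresh points of the entrance mouth `M`**;   EMPTY if the half state does not exist -/
def pvzaYi (N : PvwNum) (b : Bool) (q : PviePl) (M : Set ℂ) (η : Conf PvPt) : Set ℂ := {w | w ∈ M ∧ ∃ 𝔖 : PvwSt (pvieT η), PvilIn N b q.std η 𝔖 ∧ ∀ u ∈ 𝔖.fzIn, pviePos η u ≠ w}

theorem pvza_eqns_cite : True := by
  have := @PvzaQo.eq_1; have := @PvzaQi.eq_1; have := @pvzaYo.eq_1; have := @pvzaYi.eq_1
  trivial

/-- the standard frame does nothing to the positions -/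
theorem pvza_std_pos (q : PviePl) (η : Conf PvPt) : q.std.pos η = pviePos η := by
  funext v
  simp [PvilPl.pos, PviePl.std]

theorem pvza_std_zf (q : PviePl) : q.std.zf = q.z := by
  simp [PvilPl.zf, PviePl.std]

section plug

variable {N : PvwNum} {b : Bool} {q : PviePl} {M : Set ℂ} {η η' : Conf PvPt} {δ : ℝ}

theorem pvza_out_st {𝔖 : PvwSt (pvieT η)} : 𝔖.AtOut (q.std.pos η) N q.std.h q.std.zf q.std.ty (pvieCol η b) ↔ 𝔖.AtOut (pviePos η) N q.h q.z q.ty (pvieCol η b) := by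
  rw [pvza_std_pos, pvza_std_zf]
  exact Iff.rfl

theorem pvza_in_st {𝔖 : PvwSt (pvieT η)} : 𝔖.AtIn (q.std.pos η) N q.std.h q.std.zf q.std.ty (pvieCol η b) ↔ 𝔖.AtIn (pviePos η) N q.h q.z q.ty (pvieCol η b) := by
  rw [pvza_std_pos, pvza_std_zf]
  exact Iff.rfl

theorem pvza_out_iff (η : Conf PvPt) (𝔖 : PvwSt (pvieT η)) : PvilOut N b q.std η 𝔖 ↔ PvkfO N q.h q.z q.ty (PvzaQo N q) (cfSites η) (pvkfC (cfSites η) (cfCol η) b) 𝔖 :=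
  ⟨fun h => ⟨h.good, pvza_out_st.1 h.st, h.tip, h.mask, h.mask_i, h.lev0⟩, fun h => ⟨h.1, pvza_out_st.2 h.2.1, h.2.2.1, h.2.2.2.1, h.2.2.2.2.1, h.2.2.2.2.2⟩⟩

theorem pvza_in_iff (η : Conf PvPt) (𝔖 : PvwSt (pvieT η)) : PvilIn N b q.std η 𝔖 ↔ PvkfI N q.h q.z q.ty (PvzaQi N q) (cfSites η) (pvkfC (cfSites η) (cfCol η) b) 𝔖 :=
  ⟨fun h => ⟨h.good, pvza_in_st.1 h.st, h.tip, h.mask, h.mask_i, h.lev0⟩, fun h => ⟨h.1, pvza_in_st.2 h.2.1, h.2.2.1, h.2.2.2.1, h.2.2.2.2.1, h.2.2.2.2.2⟩⟩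

theorem pvza_Uo_eq : pvilUo N b q.std = {η | PvkfEx (PvkfO N q.h q.z q.ty (PvzaQo N q)) b (cfSites η) (cfCol η)} := by
  ext η
  exact ⟨fun ⟨𝔖, h⟩ => ⟨𝔖, (pvza_out_iff η 𝔖).1 h⟩, fun ⟨𝔖, h⟩ => ⟨𝔖, (pvza_out_iff η 𝔖).2 h⟩⟩

theorem pvza_Ui_eq : pvilUi N b q.std = {η | PvkfEx (PvkfI N q.h q.z q.ty (PvzaQi N q)) b (cfSites η) (cfCol η)} := by
  ext η
  exact ⟨fun ⟨𝔖, h⟩ => ⟨𝔖, (pvza_in_iff η 𝔖).1 h⟩, fun ⟨𝔖, h⟩ => ⟨𝔖, (pvza_in_iff η 𝔖).2 h⟩⟩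

theorem pvza_FzO_kf (η : Conf PvPt) : pvilFzO N b q.std η = pvkfZ (PvkfO N q.h q.z q.ty (PvzaQo N q)) (fun _ 𝔖 => 𝔖.fzOut) b (cfSites η) (cfCol η) := by
  ext w
  exact ⟨fun ⟨𝔖, h, hu⟩ => ⟨𝔖, (pvza_out_iff η 𝔖).1 h, hu⟩, fun ⟨𝔖, h, hu⟩ => ⟨𝔖, (pvza_out_iff η 𝔖).2 h, hu⟩⟩

theorem pvza_FzI_kf (η : Conf PvPt) : pvilFzI N b q.std η = pvkfZ (PvkfI N q.h q.z q.ty (PvzaQi N q)) (fun _ 𝔖 => 𝔖.fzIn) b (cfSites η) (cfCol η) := by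
  ext w
  exact ⟨fun ⟨𝔖, h, hu⟩ => ⟨𝔖, (pvza_in_iff η 𝔖).1 h, hu⟩, fun ⟨𝔖, h, hu⟩ => ⟨𝔖, (pvza_in_iff η 𝔖).2 h, hu⟩⟩

theorem pvza_Yo_kf : pvzaYo N b q M = fun η => pvkfFr (PvkfO N q.h q.z q.ty (PvzaQo N q)) (fun _ 𝔖 => 𝔖.fzOut) b M (cfSites η) (cfCol η) := by
  funext η
  ext w
  exact ⟨fun ⟨hM, 𝔖, h, hn⟩ => ⟨hM, 𝔖, (pvza_out_iff η 𝔖).1 h, hn⟩, fun ⟨hM, 𝔖, h, hn⟩ => ⟨hM, 𝔖, (pvza_out_iff η 𝔖).2 h, hn⟩⟩

theorem pvza_Yi_kf : pvzaYi N b q M = fun η => pvkfFr (PvkfI N q.h q.z q.ty (PvzaQi N q)) (fun _ 𝔖 => 𝔖.fzIn) b M (cfSites η) (cfCol η) := by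
  funext η
  ext w
  exact ⟨fun ⟨hM, 𝔖, h, hn⟩ => ⟨hM, 𝔖, (pvza_in_iff η 𝔖).1 h, hn⟩, fun ⟨hM, 𝔖, h, hn⟩ => ⟨hM, 𝔖, (pvza_in_iff η 𝔖).2 h, hn⟩⟩

/-! ## 2. (a) the full state of `Tr/InstL` at a pin IS the state of `Tr/InstE` / `Defs/TrModel` -/

theorem pvza_at_iff (η : Conf PvPt) (𝔖 : PvwSt (pvieT η)) : PvieAt N b q η 𝔖 ↔ PvilAt N b q.std η 𝔖 := by
  constructor
  · intro h
    refine ⟨⟨h.good, pvza_out_st.2 h.st.out, h.tip_p, h.mask_p, h.inn_p, h.lev0⟩, ⟨h.good, pvza_in_st.2 h.st.inn, h.tip_m, h.mask_m, h.inn_m, h.lev0⟩, ?_, ?_⟩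
    · rw [pvza_std_pos, pvza_std_zf]; exact h.st.far_p
    · rw [pvza_std_pos, pvza_std_zf]; exact h.st.far_m
  · intro h
    have hp := h.far_p
    have hm := h.far_m
    rw [pvza_std_pos, pvza_std_zf] at hp hm
    exact ⟨h.out.good, ⟨pvza_out_st.1 h.out.st, pvza_in_st.1 h.inn.st, hp, hm⟩, h.out.tip, h.inn.tip, h.out.mask, h.inn.mask, h.out.mask_i, h.inn.mask_i, h.out.lev0⟩

theorem pvza_U_eq : pvieU N b q = pvilU N b q.std := by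
  ext η
  exact ⟨fun ⟨𝔖, h⟩ => ⟨𝔖, (pvza_at_iff η 𝔖).1 h⟩, fun ⟨𝔖, h⟩ => ⟨𝔖, (pvza_at_iff η 𝔖).2 h⟩⟩

theorem pvza_U_sub_o (p : PvilPl) : pvilU N b p ⊆ pvilUo N b p := fun _ ⟨𝔖, h⟩ => ⟨𝔖, h.out⟩

theorem pvza_U_sub_i (p : PvilPl) : pvilU N b p ⊆ pvilUi N b p := fun _ ⟨𝔖, h⟩ => ⟨𝔖, h.inn⟩

/-! ## 3. uniqueness of the half states, the base data of a configuration -/

theorem pvza_out_uniq {𝔖 𝔖' : PvwSt (pvieT η)} (h : PvilOut N b q.std η 𝔖) (h' : PvilOut N b q.std η 𝔖') : PvuqG 𝔖 𝔖' ∧ PvuqP 𝔖 𝔖' :=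
  pvuq_del_out h.good (pvza_out_st.1 h.st) (pvza_out_st.1 h'.st)

theorem pvza_in_uniq {𝔖 𝔖' : PvwSt (pvieT η)} (h : PvilIn N b q.std η 𝔖) (h' : PvilIn N b q.std η 𝔖') : PvuqG 𝔖 𝔖' ∧ PvuqM 𝔖 𝔖' :=
  pvuq_del_in h.good (pvza_in_st.1 h.st) (pvza_in_st.1 h'.st)

theorem pvza_out_fz {𝔖 𝔖' : PvwSt (pvieT η)} (h : PvilOut N b q.std η 𝔖) (h' : PvilOut N b q.std η 𝔖') : 𝔖.fzOut = 𝔖'.fzOut := (pvza_out_uniq h h').1.fzOut (pvza_out_uniq h h').2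

theorem pvza_in_fz {𝔖 𝔖' : PvwSt (pvieT η)} (h : PvilIn N b q.std η 𝔖) (h' : PvilIn N b q.std η 𝔖') : 𝔖.fzIn = 𝔖'.fzIn := (pvza_in_uniq h h').1.fzIn (pvza_in_uniq h h').2

/-- **`F` = the positions of the frozen sites of THE exit half state** -/
theorem pvza_FzO_eq {𝔖 : PvwSt (pvieT η)} (h : PvilOut N b q.std η 𝔖) : pvilFzO N b q.std η = pviePos η '' 𝔖.fzOut := by
  ext w
  constructor
  · rintro ⟨𝔖', h', u, hu, rfl⟩
    exact ⟨u, pvza_out_fz h' h ▸ hu, rfl⟩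
  · rintro ⟨u, hu, rfl⟩
    exact ⟨𝔖, h, u, hu, rfl⟩

theorem pvza_FzI_eq {𝔖 : PvwSt (pvieT η)} (h : PvilIn N b q.std η 𝔖) : pvilFzI N b q.std η = pviePos η '' 𝔖.fzIn := by
  ext w
  constructor
  · rintro ⟨𝔖', h', u, hu, rfl⟩
    exact ⟨u, pvza_in_fz h' h ▸ hu, rfl⟩
  · rintro ⟨u, hu, rfl⟩
    exact ⟨𝔖, h, u, hu, rfl⟩

theorem pvza_FzO_off {p : PvilPl} (h : η ∉ pvilUo N b p) : pvilFzO N b p η = ∅ := by
  ext w
  exact ⟨fun ⟨𝔖, h', _⟩ => h ⟨𝔖, h'⟩, fun hw => hw.elim⟩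

theorem pvza_FzI_off {p : PvilPl} (h : η ∉ pvilUi N b p) : pvilFzI N b p η = ∅ := by
  ext w
  exact ⟨fun ⟨𝔖, h', _⟩ => h ⟨𝔖, h'⟩, fun hw => hw.elim⟩

/-- **`Z` = the cells of the frozen positions of THE exit half state** -/
theorem pvza_HuO_eq {𝔖 : PvwSt (pvieT η)} (h : PvilOut N b q.std η 𝔖) (δ r : ℝ) : pvilHuO δ r N b q.std η = pvtCells δ (pviePos η '' 𝔖.fzOut ∪ Metric.closedBall (q.ty.cp q.h q.z) r) := by
  ext c
  constructor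
  · rintro ⟨𝔖', h', hc⟩
    rwa [pvza_out_fz h' h] at hc
  · exact fun hc => ⟨𝔖, h, hc⟩

theorem pvza_HuI_eq {𝔖 : PvwSt (pvieT η)} (h : PvilIn N b q.std η 𝔖) (δ r : ℝ) : pvilHuI δ r N b q.std η = pvtCells δ (pviePos η '' 𝔖.fzIn ∪ Metric.closedBall (q.ty.cm q.h q.z) r) := by
  ext c
  constructor
  · rintro ⟨𝔖', h', hc⟩
    rwa [pvza_in_fz h' h] at hc
  · exact fun hc => ⟨𝔖, h, hc⟩

theorem pvza_HuO_off {p : PvilPl} (h : η ∉ pvilUo N b p) (δ r : ℝ) : pvilHuO δ r N b p η = ∅ := by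
  ext w
  exact ⟨fun ⟨𝔖, h', _⟩ => h ⟨𝔖, h'⟩, fun hw => hw.elim⟩

theorem pvza_HuI_off {p : PvilPl} (h : η ∉ pvilUi N b p) (δ r : ℝ) : pvilHuI δ r N b p η = ∅ := by
  ext w
  exact ⟨fun ⟨𝔖, h', _⟩ => h ⟨𝔖, h'⟩, fun hw => hw.elim⟩

theorem pvza_cells_empty (δ : ℝ) : pvtCells δ (∅ : Set ℂ) = ∅ := by
  ext c
  exact ⟨fun ⟨_, h⟩ => h.2.elim, fun h => h.elim⟩

theorem pvza_cells_union (δ : ℝ) (A B : Set ℂ) : pvtCells δ (A ∪ B) = pvtCells δ A ∪ pvtCells δ B := by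
  ext c
  constructor
  · rintro ⟨w, hw, hA | hB⟩
    · exact Or.inl ⟨w, hw, hA⟩
    · exact Or.inr ⟨w, hw, hB⟩
  · rintro (⟨w, hw, hA⟩ | ⟨w, hw, hB⟩)
    · exact ⟨w, hw, Or.inl hA⟩
    · exact ⟨w, hw, Or.inr hB⟩

/-- **where the half state exists the base datum `Z` is a function of the base datum `F`** (and of the deterministic mouth ball), at every mesh -/
theorem pvza_HuO_F (h : η ∈ pvilUo N b q.std) (δ r : ℝ) : pvilHuO δ r N b q.std η = pvtCells δ (pvilFzO N b q.std η ∪ Metric.closedBall (q.ty.cp q.h q.z) r) := by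
  obtain ⟨𝔖, h𝔖⟩ := h
  rw [pvza_HuO_eq h𝔖, pvza_FzO_eq h𝔖]

theorem pvza_HuI_F (h : η ∈ pvilUi N b q.std) (δ r : ℝ) : pvilHuI δ r N b q.std η = pvtCells δ (pvilFzI N b q.std η ∪ Metric.closedBall (q.ty.cm q.h q.z) r) := by
  obtain ⟨𝔖, h𝔖⟩ := h
  rw [pvza_HuI_eq h𝔖, pvza_FzI_eq h𝔖]

/-! ## 4. (c) `F` is a finite set of sites in the box, `F ⊆ Z⁺`, `Z` is finite, `M \ F` is Borel -/

theorem pvza_FzO_finite (η : Conf PvPt) : (pvilFzO N b q.std η).Finite := by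
  rw [pvza_FzO_kf]
  exact pvkf_Z_finite (pvkf_fam_out N q.h q.z q.ty (PvzaQo N q)) _ _

theorem pvza_FzI_finite (η : Conf PvPt) : (pvilFzI N b q.std η).Finite := by
  rw [pvza_FzI_kf]
  exact pvkf_Z_finite (pvkf_fam_in N q.h q.z q.ty (PvzaQi N q)) _ _

theorem pvza_FzO_sites (p : PvilPl) (η : Conf PvPt) : pvilFzO N b p η ⊆ cfSites η := by
  rintro _ ⟨_, _, u, _, rfl⟩
  exact u.2

theorem pvza_FzI_sites (p : PvilPl) (η : Conf PvPt) : pvilFzI N b p η ⊆ cfSites η := by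
  rintro _ ⟨_, _, u, _, rfl⟩
  exact u.2

theorem pvza_FzO_box (η : Conf PvPt) : pvilFzO N b q.std η ⊆ pvkfeB N q := by
  rw [pvza_FzO_kf]
  exact pvkf_Z_box (pvkf_fam_out N q.h q.z q.ty (PvzaQo N q)) _ _

theorem pvza_FzI_box (η : Conf PvPt) : pvilFzI N b q.std η ⊆ pvkfeB N q := by
  rw [pvza_FzI_kf]
  exact pvkf_Z_box (pvkf_fam_in N q.h q.z q.ty (PvzaQi N q)) _ _

theorem pvza_fat_cells (hδ : 0 < δ) (K : Set ℂ) : K ⊆ pvilFat δ (pvtCells δ K) := fun w hw => by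
  obtain ⟨c, hc, hw'⟩ := mem_iUnion₂.1 (pvt_cells_cover hδ hw)
  exact mem_iUnion₂.2 ⟨c, pvt_N8_sub hc, hw'⟩

/-- a point of the collar of the cells of `K` is within `2 δ` (sup norm) of `K` -/
theorem pvza_fat_near (hδ : 0 ≤ δ) {K : Set ℂ} {w : ℂ} (hw : w ∈ pvilFat δ (pvtCells δ K)) : ∃ k ∈ K, |(w - k).re| ≤ 2 * δ ∧ |(w - k).im| ≤ 2 * δ := by
  obtain ⟨c', ⟨c, ⟨k, hkc, hkK⟩, hcc⟩, hwc⟩ := mem_iUnion₂.1 hw
  have hadj : c'.1 ≤ c.1 + 1 ∧ c.1 ≤ c'.1 + 1 ∧ c'.2 ≤ c.2 + 1 ∧ c.2 ≤ c'.2 + 1 := by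
    rcases hcc with rfl | h
    · omega
    · exact h.2
  obtain ⟨a1, a2, a3, a4⟩ := hadj
  have b1 : (c'.1 : ℝ) ≤ c.1 + 1 := by exact_mod_cast a1
  have b2 : (c.1 : ℝ) ≤ c'.1 + 1 := by exact_mod_cast a2
  have b3 : (c'.2 : ℝ) ≤ c.2 + 1 := by exact_mod_cast a3
  have b4 : (c.2 : ℝ) ≤ c'.2 + 1 := by exact_mod_cast a4
  obtain ⟨k1, k2, k3, k4⟩ := hkc
  obtain ⟨w1, w2, w3, w4⟩ := hwc
  refine ⟨k, hkK, ?_, ?_⟩
  · rw [Complex.sub_re, abs_le]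
    constructor <;> nlinarith
  · rw [Complex.sub_im, abs_le]
    constructor <;> nlinarith

/-- **the fat cells of a set in a square stick out by `2 δ`** -/
theorem pvza_fat_sq (hδ : 0 ≤ δ) {K : Set ℂ} {z : ℂ} {ρ : ℝ} (hK : K ⊆ pvwSq z ρ) : pvilFat δ (pvtCells δ K) ⊆ pvwSq z (ρ + 2 * δ) := by
  intro w hw
  obtain ⟨k, hk, h1, h2⟩ := pvza_fat_near hδ hw
  have hk' := hK hk
  constructor
  · have e : (w - z).re = (w - k).re + (k - z).re := by simp only [Complex.sub_re]; ring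
    rw [e]
    exact (abs_add_le _ _).trans (by linarith [hk'.1])
  · have e : (w - z).im = (w - k).im + (k - z).im := by simp only [Complex.sub_im]; ring
    rw [e]
    exact (abs_add_le _ _).trans (by linarith [hk'.2])

/-- **`F ⊆ Z⁺`** -/
theorem pvza_FzO_fat (hδ : 0 < δ) (r : ℝ) (η : Conf PvPt) : pvilFzO N b q.std η ⊆ pvilFat δ (pvilHuO δ r N b q.std η) := by
  by_cases h : η ∈ pvilUo N b q.std
  · rw [pvza_HuO_F h]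
    exact subset_union_left.trans (pvza_fat_cells hδ _)
  · rw [pvza_FzO_off h]
    exact empty_subset _

theorem pvza_FzI_fat (hδ : 0 < δ) (r : ℝ) (η : Conf PvPt) : pvilFzI N b q.std η ⊆ pvilFat δ (pvilHuI δ r N b q.std η) := by
  by_cases h : η ∈ pvilUi N b q.std
  · rw [pvza_HuI_F h]
    exact subset_union_left.trans (pvza_fat_cells hδ _)
  · rw [pvza_FzI_off h]
    exact empty_subset _

/-- **the closed `δ`-ball round a point of `K` lies in the fat cells of `K`** -/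
theorem pvza_ball_fat (hδ : 0 < δ) {K : Set ℂ} {v : ℂ} (hv : v ∈ K) : Metric.closedBall v δ ⊆ pvilFat δ (pvtCells δ K) := by
  intro w hw
  rw [Metric.mem_closedBall, dist_eq_norm] at hw
  exact pvt_N8_U hδ (pvt_cells_cover hδ hv) hw

/-- the closed `δ`-ball round a point of a square lies in the square enlarged by `δ` -/
theorem pvza_ball_sq {ρ : ℝ} {z v : ℂ} (hv : v ∈ pvwSq z ρ) : Metric.closedBall v δ ⊆ pvwSq z (ρ + δ) := by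
  intro w hw
  rw [Metric.mem_closedBall, dist_eq_norm] at hw
  constructor
  · have e : (w - z).re = (w - v).re + (v - z).re := by simp only [Complex.sub_re]; ring
    rw [e]
    exact (abs_add_le _ _).trans (by linarith [hv.1, (Complex.abs_re_le_norm (w - v)).trans hw])
  · have e : (w - z).im = (w - v).im + (v - z).im := by simp only [Complex.sub_im]; ring
    rw [e]
    exact (abs_add_le _ _).trans (by linarith [hv.2, (Complex.abs_im_le_norm (w - v)).trans hw])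

/-- **the `δ`-ball of a frozen position lies in `Z⁺`** -/
theorem pvza_FzO_ball (hδ : 0 < δ) (r : ℝ) {v : ℂ} (hv : v ∈ pvilFzO N b q.std η) : Metric.closedBall v δ ⊆ pvilFat δ (pvilHuO δ r N b q.std η) := by
  have h : η ∈ pvilUo N b q.std := by
    obtain ⟨𝔖, h𝔖, _⟩ := hv
    exact ⟨𝔖, h𝔖⟩
  rw [pvza_HuO_F h]
  exact pvza_ball_fat hδ (Or.inl hv)

theorem pvza_FzI_ball (hδ : 0 < δ) (r : ℝ) {v : ℂ} (hv : v ∈ pvilFzI N b q.std η) : Metric.closedBall v δ ⊆ pvilFat δ (pvilHuI δ r N b q.std η) := by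
  have h : η ∈ pvilUi N b q.std := by
    obtain ⟨𝔖, h𝔖, _⟩ := hv
    exact ⟨𝔖, h𝔖⟩
  rw [pvza_HuI_F h]
  exact pvza_ball_fat hδ (Or.inl hv)

/-- **the mouth ball lies in `Z⁺`** where the half state exists -/
theorem pvza_ballO_fat (hδ : 0 < δ) (r : ℝ) (h : η ∈ pvilUo N b q.std) : Metric.closedBall (q.ty.cp q.h q.z) r ⊆ pvilFat δ (pvilHuO δ r N b q.std η) := by
  rw [pvza_HuO_F h]
  exact subset_union_right.trans (pvza_fat_cells hδ _)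

theorem pvza_ballI_fat (hδ : 0 < δ) (r : ℝ) (h : η ∈ pvilUi N b q.std) : Metric.closedBall (q.ty.cm q.h q.z) r ⊆ pvilFat δ (pvilHuI δ r N b q.std η) := by
  rw [pvza_HuI_F h]
  exact subset_union_right.trans (pvza_fat_cells hδ _)

/-- **`Z` is finite** (so `pvilFin Z A = A` at the base data of every configuration) -/
theorem pvza_HuO_finite (hδ : 0 < δ) (r : ℝ) (η : Conf PvPt) : (pvilHuO δ r N b q.std η).Finite := by
  by_cases h : η ∈ pvilUo N b q.std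
  · rw [pvza_HuO_F h]
    exact pvt_cells_finite hδ ((pvza_FzO_finite η).isBounded.union Metric.isBounded_closedBall)
  · rw [pvza_HuO_off h]
    exact finite_empty

theorem pvza_HuI_finite (hδ : 0 < δ) (r : ℝ) (η : Conf PvPt) : (pvilHuI δ r N b q.std η).Finite := by
  by_cases h : η ∈ pvilUi N b q.std
  · rw [pvza_HuI_F h]
    exact pvt_cells_finite hδ ((pvza_FzI_finite η).isBounded.union Metric.isBounded_closedBall)
  · rw [pvza_HuI_off h]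
    exact finite_empty

/-- **the constant recoloured set `M \ F` is Borel** -/
theorem pvza_MO_meas (hM : MeasurableSet M) (η : Conf PvPt) : MeasurableSet (M \ pvilFzO N b q.std η) := hM.diff (pvza_FzO_finite η).measurableSet

theorem pvza_MI_meas (hM : MeasurableSet M) (η : Conf PvPt) : MeasurableSet (M \ pvilFzI N b q.std η) := hM.diff (pvza_FzI_finite η).measurableSet

/-! ## 5. (d) the recoloured set as a function of the configuration is a STOPPING CHOICE (guarded form) -/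

/-- where the half state exists the fresh points are `M \ F` -/
theorem pvza_Yo_on (h : η ∈ pvilUo N b q.std) (M : Set ℂ) : pvzaYo N b q M η = M \ pvilFzO N b q.std η := by
  obtain ⟨𝔖, h𝔖⟩ := h
  rw [pvza_FzO_eq h𝔖, pvza_Yo_kf]
  exact pvkf_fr_eq (pvkf_fam_out N q.h q.z q.ty (PvzaQo N q)) ((pvza_out_iff η 𝔖).1 h𝔖)

theorem pvza_Yi_on (h : η ∈ pvilUi N b q.std) (M : Set ℂ) : pvzaYi N b q M η = M \ pvilFzI N b q.std η := by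
  obtain ⟨𝔖, h𝔖⟩ := h
  rw [pvza_FzI_eq h𝔖, pvza_Yi_kf]
  exact pvkf_fr_eq (pvkf_fam_in N q.h q.z q.ty (PvzaQi N q)) ((pvza_in_iff η 𝔖).1 h𝔖)

theorem pvza_Yo_off (h : η ∉ pvilUo N b q.std) (M : Set ℂ) : pvzaYo N b q M η = ∅ := by
  ext w
  exact ⟨fun ⟨_, 𝔖, h', _⟩ => h ⟨𝔖, h'⟩, fun hw => hw.elim⟩

theorem pvza_Yi_off (h : η ∉ pvilUi N b q.std) (M : Set ℂ) : pvzaYi N b q M η = ∅ := by
  ext w
  exact ⟨fun ⟨_, 𝔖, h', _⟩ => h ⟨𝔖, h'⟩, fun hw => hw.elim⟩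

/-- the fresh points of ANY bounded mouth live in the window `M ∪ box` -/
theorem pvza_Yo_win (hMb : Bornology.IsBounded M) : PvkfWin (pvzaYo N b q M) (M ∪ pvkfeB N q) := by
  rw [pvza_Yo_kf]
  exact pvkf_win_out N q.h q.z q.ty (PvzaQo N q) b hMb

theorem pvza_Yi_win (hMb : Bornology.IsBounded M) : PvkfWin (pvzaYi N b q M) (M ∪ pvkfeB N q) := by
  rw [pvza_Yi_kf]
  exact pvkf_win_in N q.h q.z q.ty (PvzaQi N q) b hMb

/-- **`PvdyStop`, exit mouth** (half state: NO condition on the mouth but boundedness) -/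
theorem pvza_Yo_stop (hMb : Bornology.IsBounded M) : PvdyStop (pvzaYo N b q M) := (pvza_Yo_win hMb).stop

/-- **`PvdyStop`, entrance mouth** -/
theorem pvza_Yi_stop (hMb : Bornology.IsBounded M) : PvdyStop (pvzaYi N b q M) := (pvza_Yi_win hMb).stop

/-- **`PvdyStop`, the two mouths of a chain `t → s`** (disjoint windows) -/
theorem pvza_two_stop {b' : Bool} {q' : PviePl} {M' : Set ℂ} (hMb : Bornology.IsBounded M) (hMb' : Bornology.IsBounded M') (hd : Disjoint (M ∪ pvkfeB N q) (M' ∪ pvkfeB N q')) :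
    PvdyStop fun η => pvzaYo N b q M η ∪ pvzaYi N b' q' M' η := (pvza_Yo_win hMb).union (pvza_Yi_win hMb') hd

/-! ## 6. D6 for the base data: a recolouring off `F` changes nothing -/

/-- **same sites, same colours on `F`** ⟹ the half state exists again, same `F`, same `Z`, same fresh points -/
theorem pvza_conf_o (hS : cfSites η' = cfSites η) (hU : η ∈ pvilUo N b q.std) (ha : ∀ w ∈ pvilFzO N b q.std η, cfCol η' w = cfCol η w) :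
    η' ∈ pvilUo N b q.std ∧ pvilFzO N b q.std η' = pvilFzO N b q.std η ∧ (∀ δ r, pvilHuO δ r N b q.std η' = pvilHuO δ r N b q.std η) ∧ ∀ M, pvzaYo N b q M η' = pvzaYo N b q M η := by
  have hU0 := hU
  rw [pvza_Uo_eq] at hU
  rw [pvza_FzO_kf] at ha
  have key := pvkf_conf (pvkf_fam_out N q.h q.z q.ty (PvzaQo N q)) hS hU ha
  have hU' : η' ∈ pvilUo N b q.std := by rw [pvza_Uo_eq]; exact key.1
  have hF : pvilFzO N b q.std η' = pvilFzO N b q.std η := by rw [pvza_FzO_kf, pvza_FzO_kf]; exact key.2.1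
  exact ⟨hU', hF, fun δ r => by rw [pvza_HuO_F hU', pvza_HuO_F hU0, hF], fun M => by rw [pvza_Yo_on hU', pvza_Yo_on hU0, hF]⟩

theorem pvza_conf_i (hS : cfSites η' = cfSites η) (hU : η ∈ pvilUi N b q.std) (ha : ∀ w ∈ pvilFzI N b q.std η, cfCol η' w = cfCol η w) :
    η' ∈ pvilUi N b q.std ∧ pvilFzI N b q.std η' = pvilFzI N b q.std η ∧ (∀ δ r, pvilHuI δ r N b q.std η' = pvilHuI δ r N b q.std η) ∧ ∀ M, pvzaYi N b q M η' = pvzaYi N b q M η := by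
  have hU0 := hU
  rw [pvza_Ui_eq] at hU
  rw [pvza_FzI_kf] at ha
  have key := pvkf_conf (pvkf_fam_in N q.h q.z q.ty (PvzaQi N q)) hS hU ha
  have hU' : η' ∈ pvilUi N b q.std := by rw [pvza_Ui_eq]; exact key.1
  have hF : pvilFzI N b q.std η' = pvilFzI N b q.std η := by rw [pvza_FzI_kf, pvza_FzI_kf]; exact key.2.1
  exact ⟨hU', hF, fun δ r => by rw [pvza_HuI_F hU', pvza_HuI_F hU0, hF], fun M => by rw [pvza_Yi_on hU', pvza_Yi_on hU0, hF]⟩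

end plug

/-! ## 7. (a) (b) at the data of record -/

section model

variable {τ : Type} {c : ℝ} (𝔓 : PvxPar τ c) {m : ℕ} {ω : PVSample} {z : ℂ} {t : τ}

theorem pvza_model_iff (m : ℕ) (ω : PVSample) (z : ℂ) (t : τ) (𝔖 : PvwSt (pvxT ω)) : PvxAt 𝔓 m ω z t 𝔖 ↔ PvilAt 𝔓.num (𝔓.col t) (pvilPin 𝔓 m z t) (pvConf ω) 𝔖 :=
  (pvie_at_iff 𝔓 m ω z t 𝔖).trans (pvza_at_iff (pvConf ω) 𝔖)

/-- **`pvxU` = the full state of `Tr/InstL` exists** -/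
theorem pvza_U_conf (m : ℕ) (z : ℂ) (t : τ) : pvxU 𝔓 m z t = pvConf ⁻¹' pvilU 𝔓.num (𝔓.col t) (pvilPin 𝔓 m z t) := by
  rw [pvie_U_conf, pvza_U_eq]
  rfl

variable {𝔓}

theorem pvza_model_out {𝔖 : PvwSt (pvxT ω)} (h : PvxAt 𝔓 m ω z t 𝔖) : PvilOut 𝔓.num (𝔓.col t) (pvilPin 𝔓 m z t) (pvConf ω) 𝔖 := ((pvza_model_iff 𝔓 m ω z t 𝔖).1 h).out

theorem pvza_model_in {𝔖 : PvwSt (pvxT ω)} (h : PvxAt 𝔓 m ω z t 𝔖) : PvilIn 𝔓.num (𝔓.col t) (pvilPin 𝔓 m z t) (pvConf ω) 𝔖 := ((pvza_model_iff 𝔓 m ω z t 𝔖).1 h).inn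

/-- the exit half state carried by ANY witness of a link at the pin `(z,t)` is the one of THE state of the candidate -/
theorem pvza_pin_out {𝔖 𝔖₀ : PvwSt (pvxT ω)} (h₀ : PvxAt 𝔓 m ω z t 𝔖₀) (h : PvilOut 𝔓.num (𝔓.col t) (pvilPin 𝔓 m z t) (pvConf ω) 𝔖) : PvuqG 𝔖 𝔖₀ ∧ PvuqP 𝔖 𝔖₀ :=
  pvza_out_uniq (q := 𝔓.pl m z t) h (pvza_model_out h₀)

theorem pvza_pin_in {𝔖 𝔖₀ : PvwSt (pvxT ω)} (h₀ : PvxAt 𝔓 m ω z t 𝔖₀) (h : PvilIn 𝔓.num (𝔓.col t) (pvilPin 𝔓 m z t) (pvConf ω) 𝔖) : PvuqG 𝔖 𝔖₀ ∧ PvuqM 𝔖 𝔖₀ :=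
  pvza_in_uniq (q := 𝔓.pl m z t) h (pvza_model_in h₀)

/-- **`F_out` of a usable candidate** -/
theorem pvza_Fo_eq {𝔖 : PvwSt (pvxT ω)} (h : PvxAt 𝔓 m ω z t 𝔖) : pvilFo 𝔓 m z t (pvConf ω) = pvxPos ω '' 𝔖.fzOut := pvza_FzO_eq (q := 𝔓.pl m z t) (pvza_model_out h)

/-- **`F_in` of a usable candidate** -/
theorem pvza_Fi_eq {𝔖 : PvwSt (pvxT ω)} (h : PvxAt 𝔓 m ω z t 𝔖) : pvilFi 𝔓 m z t (pvConf ω) = pvxPos ω '' 𝔖.fzIn := pvza_FzI_eq (q := 𝔓.pl m z t) (pvza_model_in h)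

/-- the hull of 187 through the base datum `F_out` -/
theorem pvza_hull_o {𝔖 : PvwSt (pvxT ω)} (h : PvxAt 𝔓 m ω z t 𝔖) (δ : ℝ) (y : ℂ) (r : ℝ) : pvxHull δ 𝔖.fzOut y r = pvtCells δ (pvilFo 𝔓 m z t (pvConf ω) ∪ Metric.closedBall y r) := by
  rw [pvza_Fo_eq h]; rfl

theorem pvza_hull_i {𝔖 : PvwSt (pvxT ω)} (h : PvxAt 𝔓 m ω z t 𝔖) (δ : ℝ) (y : ℂ) (r : ℝ) : pvxHull δ 𝔖.fzIn y r = pvtCells δ (pvilFi 𝔓 m z t (pvConf ω) ∪ Metric.closedBall y r) := by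
  rw [pvza_Fi_eq h]; rfl

/-- **the hull of record of a usable candidate = the hull of 187** -/
theorem pvza_Zo_eq {𝔖 : PvwSt (pvxT ω)} (h : PvxAt 𝔓 m ω z t 𝔖) : pvilZo 𝔓 m z t (pvConf ω) = pvxHull (pvlmDel c m) 𝔖.fzOut ((𝔓.ty t).cp (pvlmH m) z) (𝔓.num.rho * pvlmH m) :=
  pvza_HuO_eq (q := 𝔓.pl m z t) (pvza_model_out h) _ _

theorem pvza_Zi_eq {𝔖 : PvwSt (pvxT ω)} (h : PvxAt 𝔓 m ω z t 𝔖) : pvilZi 𝔓 m z t (pvConf ω) = pvxHull (pvlmDel c m) 𝔖.fzIn ((𝔓.ty t).cm (pvlmH m) z) (𝔓.num.rho * pvlmH m) :=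
  pvza_HuI_eq (q := 𝔓.pl m z t) (pvza_model_in h) _ _

/-- **(b) BASE DATA ON `Fit`: `Z = π.Zt`, `Z = π.Zs`** (header of `Tr/InstL` v2.2) -/
theorem pvza_fit {x : ℂ} {R : ℝ} {P : PvbRim} {s t : PvbPin τ} {π : PvxIx τ} (h : pvxFit 𝔓 x R m ω P s t π) :
    pvilZo 𝔓 m π.p.zt π.p.tt (pvConf ω) = ↑π.Zt ∧ pvilZi 𝔓 m π.p.zs π.p.ts (pvConf ω) = ↑π.Zs := by
  obtain ⟨-, -, -, -, 𝔇, j, -, -, hs, ht, -, -, -, hZs, hZt⟩ := h
  exact ⟨by rw [hZt, pvza_Zo_eq ht]; rfl, by rw [hZs, pvza_Zi_eq hs]; rfl⟩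

/-- **(b) BASE DATA ON `Fit`, through `F`** -/
theorem pvza_fit_F {x : ℂ} {R : ℝ} {P : PvbRim} {s t : PvbPin τ} {π : PvxIx τ} (h : pvxFit 𝔓 x R m ω P s t π) :
    (↑π.Zt : Set (ℤ × ℤ)) = pvtCells (pvlmDel c m) (pvilFo 𝔓 m π.p.zt π.p.tt (pvConf ω) ∪ Metric.closedBall (pvxYt 𝔓 m π.p) (𝔓.num.rho * pvlmH m)) ∧
      (↑π.Zs : Set (ℤ × ℤ)) = pvtCells (pvlmDel c m) (pvilFi 𝔓 m π.p.zs π.p.ts (pvConf ω) ∪ Metric.closedBall (pvxYs 𝔓 m π.p) (𝔓.num.rho * pvlmH m)) := by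
  obtain ⟨-, -, -, -, 𝔇, j, -, -, hs, ht, -, -, -, hZs, hZt⟩ := h
  exact ⟨by rw [hZt, pvza_hull_o ht], by rw [hZs, pvza_hull_i hs]⟩

/-- the same with the datum of the fit -/
theorem pvza_fit_dat {x : ℂ} {R : ℝ} {P : PvbRim} {s t : PvbPin τ} {π : PvxIx τ} (h : pvxFit 𝔓 x R m ω P s t π) :
    ∃ (𝔇 : PvwDat (pvxT ω)) (j : ℕ), 𝔇.Ok (pvxPos ω) 𝔓.num (pvlmH m) (𝔓.reg m π) ∧ PvxActual 𝔇 𝔓.num (pvlmH m) (𝔓.reg m π) (𝔓.col π.p.ts) P j ∧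
      PvxAt 𝔓 m ω π.p.zs π.p.ts 𝔇.s ∧ PvxAt 𝔓 m ω π.p.zt π.p.tt 𝔇.t ∧
      pvilFo 𝔓 m π.p.zt π.p.tt (pvConf ω) = pvxPos ω '' 𝔇.t.fzOut ∧ pvilFi 𝔓 m π.p.zs π.p.ts (pvConf ω) = pvxPos ω '' 𝔇.s.fzIn := by
  obtain ⟨-, -, -, -, 𝔇, j, hok, hact, hs, ht, -⟩ := h
  exact ⟨𝔇, j, hok, hact, hs, ht, pvza_Fo_eq ht, pvza_Fi_eq hs⟩

/-- below the level `m0` there are no base data -/
theorem pvza_small (hm : m < 𝔓.m0) (z : ℂ) (t : τ) (η : Conf PvPt) :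
    pvilFo 𝔓 m z t η = ∅ ∧ pvilFi 𝔓 m z t η = ∅ ∧ pvilZo 𝔓 m z t η = ∅ ∧ pvilZi 𝔓 m z t η = ∅ := by
  have ho : η ∉ pvilUo 𝔓.num (𝔓.col t) (pvilPin 𝔓 m z t) := fun ⟨_, h⟩ => absurd h.lev0 (not_le.2 hm)
  have hi : η ∉ pvilUi 𝔓.num (𝔓.col t) (pvilPin 𝔓 m z t) := fun ⟨_, h⟩ => absurd h.lev0 (not_le.2 hm)
  exact ⟨pvza_FzO_off ho, pvza_FzI_off hi, pvza_HuO_off ho _ _, pvza_HuI_off hi _ _⟩

end model

/-! ## 8. `F` against the regions of the engine (`Defs/InstWf`): nothing which is RESAMPLED meets `F` -/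

section box

variable {N : PvwNum} {q : PviePl}

/-- the window of a plug lies in its own-level box as soon as the disc of the core does -/
theorem pvza_B_sub (hb : q.ty.b * q.h ≤ pvwRad N q.h q.ty q.ty.k) : pvkfeB N q ⊆ pvwSq q.z (pvwRad N q.h q.ty q.ty.k) := by
  rintro w (hw | hw)
  · exact hw
  · rw [Metric.mem_ball, dist_eq_norm] at hw
    exact ⟨((Complex.abs_re_le_norm _).trans hw.le).trans hb, ((Complex.abs_im_le_norm _).trans hw.le).trans hb⟩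

variable {τ : Type} {c : ℝ} {𝔓 : PvxPar τ c} {m : ℕ} {t : τ}

theorem pvza_sq_sh (z : ℂ) (ρ : ℝ) : pvwSq z ρ ⊆ pvieSh z (pvwSq 0 ρ) := by
  intro w hw
  refine ⟨w - z, ⟨?_, ?_⟩, by ring⟩
  · rw [sub_zero]; exact hw.1
  · rw [sub_zero]; exact hw.2

theorem pvza_sq_mono (z : ℂ) {ρ ρ' : ℝ} (h : ρ ≤ ρ') : pvwSq z ρ ⊆ pvwSq z ρ' := fun _ hw => ⟨hw.1.trans h, hw.2.trans h⟩

/-- **the frozen positions of `Σ_out(z,t)` lie in the CLOSED own-level box** -/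
theorem pvza_Fo_sq (hb : (𝔓.ty t).b * pvlmH m ≤ pviwRad 𝔓 m t) (z : ℂ) (η : Conf PvPt) : pvilFo 𝔓 m z t η ⊆ pvwSq z (pviwRad 𝔓 m t) :=
  (pvza_FzO_box (q := 𝔓.pl m z t) η).trans (pvza_B_sub (q := 𝔓.pl m z t) hb)

theorem pvza_Fi_sq (hb : (𝔓.ty t).b * pvlmH m ≤ pviwRad 𝔓 m t) (z : ℂ) (η : Conf PvPt) : pvilFi 𝔓 m z t η ⊆ pvwSq z (pviwRad 𝔓 m t) :=
  (pvza_FzI_box (q := 𝔓.pl m z t) η).trans (pvza_B_sub (q := 𝔓.pl m z t) hb)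

theorem pvza_Fo_box (hb : (𝔓.ty t).b * pvlmH m ≤ pviwRad 𝔓 m t) (hδ : 0 ≤ pvlmDel c m) (z : ℂ) (η : Conf PvPt) : pvilFo 𝔓 m z t η ⊆ pvieSh z (pviwBox 𝔓 m t) :=
  ((pvza_Fo_sq hb z η).trans (pvza_sq_mono z (le_add_of_nonneg_right hδ))).trans (pvza_sq_sh z _)

theorem pvza_Fi_box (hb : (𝔓.ty t).b * pvlmH m ≤ pviwRad 𝔓 m t) (hδ : 0 ≤ pvlmDel c m) (z : ℂ) (η : Conf PvPt) : pvilFi 𝔓 m z t η ⊆ pvieSh z (pviwBox 𝔓 m t) :=
  ((pvza_Fi_sq hb z η).trans (pvza_sq_mono z (le_add_of_nonneg_right hδ))).trans (pvza_sq_sh z _)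

/-- the own-level box with its collar, absolute and relative form -/
theorem pvza_Bx_eq (𝔓 : PvxPar τ c) (m : ℕ) (z : ℂ) (t : τ) : pvilBx 𝔓 m z t = pvieSh z (pviwBox 𝔓 m t) := by
  refine Subset.antisymm (pvza_sq_sh z _) ?_
  rintro _ ⟨w, hw, rfl⟩
  have e : z + w - z = w - 0 := by ring
  exact ⟨by rw [e]; exact hw.1, by rw [e]; exact hw.2⟩

theorem pvza_Bx_sub (𝔓 : PvxPar τ c) (m : ℕ) (z : ℂ) (t : τ) : pvilBx 𝔓 m z t ⊆ pvieSh z (pviwBox 𝔓 m t) := (pvza_Bx_eq 𝔓 m z t).subset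

/-- **the part `pvilWz` of EVERY window lies in the own-level box with its collar** (whatever `Z`) -/
theorem pvza_Wz_sub (𝔓 : PvxPar τ c) (m : ℕ) (z : ℂ) (t : τ) (Z : Set (ℤ × ℤ)) : pvilWz 𝔓 m z t Z ⊆ pvieSh z (pviwBox 𝔓 m t) := inter_subset_right.trans (pvza_Bx_sub 𝔓 m z t)

/-- **THE `δ`-BALL OF A FROZEN POSITION OF `Σ_out` LIES IN THE WINDOW PART `pvilWz` AT THE BASE HULL** (the window sees the frozen sites with their Delaunay neighbourhood of radius `δ`) -/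
theorem pvza_ballO_Wz (hb : (𝔓.ty t).b * pvlmH m ≤ pviwRad 𝔓 m t) (hδ : 0 < pvlmDel c m) {z : ℂ} {η : Conf PvPt} {v : ℂ} (hv : v ∈ pvilFo 𝔓 m z t η) :
    Metric.closedBall v (pvlmDel c m) ⊆ pvilWz 𝔓 m z t (pvilZo 𝔓 m z t η) :=
  subset_inter (pvza_FzO_ball (q := 𝔓.pl m z t) hδ _ hv) (pvza_ball_sq (pvza_Fo_sq hb z η hv))

theorem pvza_ballI_Wz (hb : (𝔓.ty t).b * pvlmH m ≤ pviwRad 𝔓 m t) (hδ : 0 < pvlmDel c m) {z : ℂ} {η : Conf PvPt} {v : ℂ} (hv : v ∈ pvilFi 𝔓 m z t η) :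
    Metric.closedBall v (pvlmDel c m) ⊆ pvilWz 𝔓 m z t (pvilZi 𝔓 m z t η) :=
  subset_inter (pvza_FzI_ball (q := 𝔓.pl m z t) hδ _ hv) (pvza_ball_sq (pvza_Fi_sq hb z η hv))

/-- **`F ⊆ pvilWz` at the base hull** -/
theorem pvza_Fo_Wz (hb : (𝔓.ty t).b * pvlmH m ≤ pviwRad 𝔓 m t) (hδ : 0 < pvlmDel c m) (z : ℂ) (η : Conf PvPt) : pvilFo 𝔓 m z t η ⊆ pvilWz 𝔓 m z t (pvilZo 𝔓 m z t η) :=
  fun v hv => pvza_ballO_Wz hb hδ hv (Metric.mem_closedBall_self hδ.le)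

theorem pvza_Fi_Wz (hb : (𝔓.ty t).b * pvlmH m ≤ pviwRad 𝔓 m t) (hδ : 0 < pvlmDel c m) (z : ℂ) (η : Conf PvPt) : pvilFi 𝔓 m z t η ⊆ pvilWz 𝔓 m z t (pvilZi 𝔓 m z t η) :=
  fun v hv => pvza_ballI_Wz hb hδ hv (Metric.mem_closedBall_self hδ.le)

theorem pvza_sh_disj {A B : Set ℂ} (h : Disjoint A B) (z : ℂ) : Disjoint (pvieSh z A) (pvieSh z B) := by
  rw [Set.disjoint_left]
  rintro _ ⟨a, ha, rfl⟩ ⟨b, hb, e⟩
  exact Set.disjoint_left.1 h ha (add_left_cancel e ▸ hb)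

/-- **a region off the own-level box (fields `res_off iK_off Di_off` of `PvieEng.Wf`) misses the frozen positions** -/
theorem pvza_off_Fo {S : Set ℂ} (hS : Disjoint S (pviwBox 𝔓 m t)) (hb : (𝔓.ty t).b * pvlmH m ≤ pviwRad 𝔓 m t) (hδ : 0 ≤ pvlmDel c m) (z : ℂ) (η : Conf PvPt) :
    Disjoint (pvieSh z S) (pvilFo 𝔓 m z t η) := (pvza_sh_disj hS z).mono_right (pvza_Fo_box hb hδ z η)

theorem pvza_off_Fi {S : Set ℂ} (hS : Disjoint S (pviwBox 𝔓 m t)) (hb : (𝔓.ty t).b * pvlmH m ≤ pviwRad 𝔓 m t) (hδ : 0 ≤ pvlmDel c m) (z : ℂ) (η : Conf PvPt) :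
    Disjoint (pvieSh z S) (pvilFi 𝔓 m z t η) := (pvza_sh_disj hS z).mono_right (pvza_Fi_box hb hδ z η)

/-- **a region off the own-level box misses the part `pvilWz` of EVERY window** (whatever `Z`) -/
theorem pvza_off_Wz {S : Set ℂ} (hS : Disjoint S (pviwBox 𝔓 m t)) (z : ℂ) (Z : Set (ℤ × ℤ)) : Disjoint (pvieSh z S) (pvilWz 𝔓 m z t Z) := (pvza_sh_disj hS z).mono_right (pvza_Wz_sub 𝔓 m z t Z)

end box

/-! ## 9. door ends: THE gate of record, THE door state -/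

section door

variable {V D κ : Type} {T : PvMap V D} {mk : V → κ} {s : V → Bool}

theorem pvza_gate_ext {g g₂ : T.Gate s} (he : ∀ k, g.c.e k = g₂.c.e k) (hn : g.c.n = g₂.c.n) (hm : g.m = g₂.m) : g = g₂ := by
  obtain ⟨⟨n, e, _, _, _, _⟩, m, _, _, _⟩ := g
  obtain ⟨⟨n₂, e₂, _, _, _, _⟩, m₂, _, _, _⟩ := g₂
  obtain rfl : e = e₂ := funext he
  obtain rfl : n = n₂ := hn
  obtain rfl : m = m₂ := hm
  rfl

/-- **the gate of record of a plug is unique AS A RECORD** (`PvzlGt.unique` of 173) -/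
theorem pvza_gt_eq (hT : T.IsSph) {p : PvzlPg κ} (hdis : Disjoint p.Km p.Kp) {g g₂ : T.Gate s} (h : PvzlGt T mk s p g) (h₂ : PvzlGt T mk s p g₂) : g = g₂ :=
  pvza_gate_ext (h.unique hT hdis h₂).1 (h.unique hT hdis h₂).2.1 (h.unique hT hdis h₂).2.2

/-- the rooms of `g⁻` and `g⁺` of the plug of record are disjoint, in every frame -/
theorem pvza_pg_disj {r : ℝ} (hr : 0 < r) (z : ℂ) {d : ℂ} (hd : d ≠ 0) : Disjoint ((pvkdP r).pg z d).Km ((pvkdP r).pg z d).Kp := by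
  rw [Set.disjoint_left]
  rintro _ ⟨a, ha, rfl⟩ ⟨b, hb, e⟩
  have e' : b = a := mul_left_cancel₀ hd (add_left_cancel e)
  subst e'
  have h1 : b.re ≤ -(r / 2) := ha.2.1
  have h2 : r / 2 ≤ b.re := hb.1
  linarith

/-- **THE STATE OF A DOOR END IS UNIQUE, AS A RECORD**: the entrance end of the link `j - 1` and the exit end of the link `j` carry THE SAME `𝔖` -/
theorem pvza_door_uniq {r : ℝ} (hr : 0 < r) {b : Bool} {η : Conf PvPt} {z d : ℂ} (hd : d ≠ 0) {𝔖 𝔖' : PvwSt (pvieT η)}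
    (h : PvilDoor (pvkdP r) b η z d 𝔖) (h' : PvilDoor (pvkdP r) b η z d 𝔖') : 𝔖 = 𝔖' := by
  obtain ⟨hN, g, hg, rfl⟩ := h
  obtain ⟨-, g', hg', rfl⟩ := h'
  rw [pvza_gt_eq (delb_plane_isSph hN.1.good) (pvza_pg_disj hr z hd) hg hg']

end door

/-! ## 10. base data AT A DATUM: two colourings of the same sites which agree on the frozen sites of a reference record -/

section datum

variable {N : PvwNum} {b : Bool} {q : PviePl} {Y : Set ℂ} {η η' : Conf PvPt}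

/-- (D6 at a reference record) if SOME record is an exit half state in the sense of `Tr/Defs` (`AtOut` alone: no tip cell, no mask) for the colouring `s`, and `s'` agrees with `s` on its frozen sites, then `s` and `s'` have THE SAME half states of `Tr/InstL` -/
theorem pvza_kfO_congr (hY : DelGood Y) {𝔖₀ : PvwSt (delbPl Y).toMap} {s s' : ↥Y → Bool} (h₀ : 𝔖₀.AtOut Subtype.val N q.h q.z q.ty s) (ha : ∀ u ∈ 𝔖₀.fzOut, s' u = s u)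
    (𝔖 : PvwSt (delbPl Y).toMap) : PvkfO N q.h q.z q.ty (PvzaQo N q) Y s 𝔖 ↔ PvkfO N q.h q.z q.ty (PvzaQo N q) Y s' 𝔖 := by
  obtain ⟨h1, h2, h3⟩ := pvkf_mo Y hY
  have key := (pvkf_out h1 h2 h3 N q.h q.z q.ty).iff h₀ (fun u hu => (ha u hu).symm) 𝔖
  exact ⟨fun h => ⟨h.1, key.1 h.2.1, h.2.2⟩, fun h => ⟨h.1, key.2 h.2.1, h.2.2⟩⟩

theorem pvza_kfI_congr (hY : DelGood Y) {𝔖₀ : PvwSt (delbPl Y).toMap} {s s' : ↥Y → Bool} (h₀ : 𝔖₀.AtIn Subtype.val N q.h q.z q.ty s) (ha : ∀ u ∈ 𝔖₀.fzIn, s' u = s u)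
    (𝔖 : PvwSt (delbPl Y).toMap) : PvkfI N q.h q.z q.ty (PvzaQi N q) Y s 𝔖 ↔ PvkfI N q.h q.z q.ty (PvzaQi N q) Y s' 𝔖 := by
  obtain ⟨h1, h2, h3⟩ := pvkf_mo Y hY
  have key := (pvkf_in h1 h2 h3 N q.h q.z q.ty).iff h₀ (fun u hu => (ha u hu).symm) 𝔖
  exact ⟨fun h => ⟨h.1, key.1 h.2.1, h.2.2⟩, fun h => ⟨h.1, key.2 h.2.1, h.2.2⟩⟩

/-- **BASE DATA AT A DATUM, exit half**: two configurations over the same good sites `Y`, with the colourings `s`, `s'` (vocabulary of the colour `b`);   SOME record is `AtOut` for `s`;   `s' = s` on its frozen sites.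
Then the half state of `Tr/InstL` exists for both or for none, SAME `F`, SAME `Z` -/
theorem pvza_dat_o (hY : DelGood Y) {𝔖₀ : PvwSt (delbPl Y).toMap} {s s' : ↥Y → Bool} (h₀ : 𝔖₀.AtOut Subtype.val N q.h q.z q.ty s) (ha : ∀ u ∈ 𝔖₀.fzOut, s' u = s u)
    (hη : cfSites η = Y) (hη' : cfSites η' = Y) (hc : ∀ u : ↥Y, (cfCol η u.1 == b) = s u) (hc' : ∀ u : ↥Y, (cfCol η' u.1 == b) = s' u) :
    (η' ∈ pvilUo N b q.std ↔ η ∈ pvilUo N b q.std) ∧ pvilFzO N b q.std η' = pvilFzO N b q.std η ∧ ∀ δ r, pvilHuO δ r N b q.std η' = pvilHuO δ r N b q.std η := by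
  subst hη
  have e1 : pvkfC (cfSites η) (cfCol η) b = s := funext hc
  have hU : η' ∈ pvilUo N b q.std ↔ η ∈ pvilUo N b q.std := by
    rw [pvza_Uo_eq]
    show PvkfEx _ b (cfSites η') (cfCol η') ↔ PvkfEx _ b (cfSites η) (cfCol η)
    rw [hη']
    have e2 : pvkfC (cfSites η) (cfCol η') b = s' := funext hc'
    unfold PvkfEx
    rw [e1, e2]
    exact ⟨fun ⟨𝔖, h⟩ => ⟨𝔖, (pvza_kfO_congr hY h₀ ha 𝔖).2 h⟩, fun ⟨𝔖, h⟩ => ⟨𝔖, (pvza_kfO_congr hY h₀ ha 𝔖).1 h⟩⟩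
  have hF : pvilFzO N b q.std η' = pvilFzO N b q.std η := by
    rw [pvza_FzO_kf, pvza_FzO_kf, hη']
    have e2 : pvkfC (cfSites η) (cfCol η') b = s' := funext hc'
    unfold pvkfZ
    rw [e1, e2]
    ext w
    exact ⟨fun ⟨𝔖, h, hu⟩ => ⟨𝔖, (pvza_kfO_congr hY h₀ ha 𝔖).2 h, hu⟩, fun ⟨𝔖, h, hu⟩ => ⟨𝔖, (pvza_kfO_congr hY h₀ ha 𝔖).1 h, hu⟩⟩
  refine ⟨hU, hF, fun δ r => ?_⟩
  by_cases h : η ∈ pvilUo N b q.std
  · rw [pvza_HuO_F h, pvza_HuO_F (hU.2 h), hF]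
  · rw [pvza_HuO_off h, pvza_HuO_off (fun h' => h (hU.1 h'))]

/-- **BASE DATA AT A DATUM, entrance half** -/
theorem pvza_dat_i (hY : DelGood Y) {𝔖₀ : PvwSt (delbPl Y).toMap} {s s' : ↥Y → Bool} (h₀ : 𝔖₀.AtIn Subtype.val N q.h q.z q.ty s) (ha : ∀ u ∈ 𝔖₀.fzIn, s' u = s u)
    (hη : cfSites η = Y) (hη' : cfSites η' = Y) (hc : ∀ u : ↥Y, (cfCol η u.1 == b) = s u) (hc' : ∀ u : ↥Y, (cfCol η' u.1 == b) = s' u) :
    (η' ∈ pvilUi N b q.std ↔ η ∈ pvilUi N b q.std) ∧ pvilFzI N b q.std η' = pvilFzI N b q.std η ∧ ∀ δ r, pvilHuI δ r N b q.std η' = pvilHuI δ r N b q.std η := by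
  subst hη
  have e1 : pvkfC (cfSites η) (cfCol η) b = s := funext hc
  have hU : η' ∈ pvilUi N b q.std ↔ η ∈ pvilUi N b q.std := by
    rw [pvza_Ui_eq]
    show PvkfEx _ b (cfSites η') (cfCol η') ↔ PvkfEx _ b (cfSites η) (cfCol η)
    rw [hη']
    have e2 : pvkfC (cfSites η) (cfCol η') b = s' := funext hc'
    unfold PvkfEx
    rw [e1, e2]
    exact ⟨fun ⟨𝔖, h⟩ => ⟨𝔖, (pvza_kfI_congr hY h₀ ha 𝔖).2 h⟩, fun ⟨𝔖, h⟩ => ⟨𝔖, (pvza_kfI_congr hY h₀ ha 𝔖).1 h⟩⟩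
  have hF : pvilFzI N b q.std η' = pvilFzI N b q.std η := by
    rw [pvza_FzI_kf, pvza_FzI_kf, hη']
    have e2 : pvkfC (cfSites η) (cfCol η') b = s' := funext hc'
    unfold pvkfZ
    rw [e1, e2]
    ext w
    exact ⟨fun ⟨𝔖, h, hu⟩ => ⟨𝔖, (pvza_kfI_congr hY h₀ ha 𝔖).2 h, hu⟩, fun ⟨𝔖, h, hu⟩ => ⟨𝔖, (pvza_kfI_congr hY h₀ ha 𝔖).1 h, hu⟩⟩
  refine ⟨hU, hF, fun δ r => ?_⟩
  by_cases h : η ∈ pvilUi N b q.std
  · rw [pvza_HuI_F h, pvza_HuI_F (hU.2 h), hF]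
  · rw [pvza_HuI_off h, pvza_HuI_off (fun h' => h (hU.1 h'))]

/-- where the half state of `Tr/InstL` exists, `F` = the positions of the frozen sites of ANY record which is `AtOut` for the colouring -/
theorem pvza_dat_Fo (hY : DelGood Y) {𝔖₀ : PvwSt (delbPl Y).toMap} {s : ↥Y → Bool} (h₀ : 𝔖₀.AtOut Subtype.val N q.h q.z q.ty s)
    (hη : cfSites η = Y) (hc : ∀ u : ↥Y, (cfCol η u.1 == b) = s u) (hU : η ∈ pvilUo N b q.std) : pvilFzO N b q.std η = Subtype.val '' 𝔖₀.fzOut := by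
  subst hη
  have e1 : pvkfC (cfSites η) (cfCol η) b = s := funext hc
  obtain ⟨𝔖, h𝔖⟩ := hU
  rw [pvza_FzO_eq h𝔖]
  have h1 : 𝔖.AtOut Subtype.val N q.h q.z q.ty s := e1 ▸ ((pvza_out_iff η 𝔖).1 h𝔖).2.1
  obtain ⟨a1, a2⟩ := pvuq_del_out hY h1 h₀
  exact congrArg (fun F => Subtype.val '' F) (a1.fzOut a2)

theorem pvza_dat_Fi (hY : DelGood Y) {𝔖₀ : PvwSt (delbPl Y).toMap} {s : ↥Y → Bool} (h₀ : 𝔖₀.AtIn Subtype.val N q.h q.z q.ty s)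
    (hη : cfSites η = Y) (hc : ∀ u : ↥Y, (cfCol η u.1 == b) = s u) (hU : η ∈ pvilUi N b q.std) : pvilFzI N b q.std η = Subtype.val '' 𝔖₀.fzIn := by
  subst hη
  have e1 : pvkfC (cfSites η) (cfCol η) b = s := funext hc
  obtain ⟨𝔖, h𝔖⟩ := hU
  rw [pvza_FzI_eq h𝔖]
  have h1 : 𝔖.AtIn Subtype.val N q.h q.z q.ty s := e1 ▸ ((pvza_in_iff η 𝔖).1 h𝔖).2.1
  obtain ⟨a1, a2⟩ := pvuq_del_in hY h1 h₀
  exact congrArg (fun F => Subtype.val '' F) (a1.fzIn a2)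

end datum

end Claimed.Agent.R289
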