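import Claimed.Agent.R289.Arm.Trap
import Claimed.Agent.R289.Tr.GateB

/-!
# Row 289 (S0537, Cardy for Poisson-Voronoi), unit TR, FIT-DET (ruling 9 of 234), file Tr/Fit : MARKED TIMES ⟹ RUNS ⟹ CONFIG6;  SECOND GATE ⟹ CORE-FREE      (author + prover helper118; prefix `pvft_`)

Blueprint: `origin/helper118:notes/R289/W1_118.md` PART V (V.4 (S2), V.6 = F8).      MAP LEVEL, no positions, no probability: `T : PvMap V D`, `s : V → Bool`, strand `a_i = pvasIt T s a i` (`Arm/Strand`, 158), runs `PvatRun` (`Arm/Trap`, 249 75).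

* §1 `pvft_run` : a time `u` off the face set `B`, a later time `t` in `A ⊆ B`  ⟹  a RUN `PvatRun T B A s (a_e) m` with `u < e`, `e + m ≤ t` (entrance = the position after the LAST time off `B` before `t`, cut at the first hit of `A`)
* §2 `pvft_ne` : no return to `a` before time `n`  ⟹  positions at two times less than `n` apart are different
* §3 **`pvft_runs3`** (= F8, RET3 ⟹ three excursions): `u0 < t1 < u1 < t2 < u2 < t3 ≤ u0 + n`, far at the `u`'s, near at the `t`'s  ⟹  three runs with three DIFFERENT entrances;      cyclic form `pvft_runs3_cyc`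
     **`pvft_cfg6`** : the conclusion of `pvat_cfg6_three` (75) for cycles `c1 ⊂ c2 ⊂ c0`
* §4 (S2) ⟹ CORE-FREE (amendment (A) of 151, (G') of 211, ruling 9bis): `pvft_side_it` (a strand never crosses a black circuit), `pvft_off_left`, **`pvft_gate_sides`** (the two white arcs of a gate lie on different sides of a black circuit through the gate),
     `pvft_core_free` (abstract), **`pvft_gate_free`** : the wall of the rim, once it has left the gate `g`, stays outside `g.c.Left` up to its return to `g.aIn`;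
     LINEAR FORMS (no period, (T1) of 131): `pvft_once`, **`pvft_gate_once`**, `pvft_gate_after`, `pvft_gate_before`;   METRIC: `pvft_off_far` (a face which is not inside a circuit round `B(z,ρ)` has its vertices at distance `≥ ρ`).
-/

set_option autoImplicit false
set_option linter.unusedSectionVars false
set_option linter.unusedVariables false

namespace Claimed.Agent.R289

variable {V D : Type} {T : PvMap V D}

/-! ## 1. one run -/

/-- **a far time and a later near time give a run** -/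
theorem pvft_run {B A : Set D} (hB : T.FaceSet B) (hAB : A ⊆ B) {s : V → Bool} {a : D} (ha : pvasBW T s a) {u t : ℕ} (hut : u < t)
    (hu : pvasIt T s a u ∉ B) (ht : pvasIt T s a t ∈ A) :
    ∃ e m, u < e ∧ e + m ≤ t ∧ PvatRun T B A s (pvasIt T s a e) m := by
  classical
  -- the last time off `B` before `t`
  have hex : ∃ k, k ≤ t - u ∧ pvasIt T s a (t - k) ∉ B := ⟨t - u, le_rfl, by rwa [Nat.sub_sub_self hut.le]⟩
  obtain ⟨k, ⟨hk1, hk2⟩, hkmin⟩ : ∃ k, (k ≤ t - u ∧ pvasIt T s a (t - k) ∉ B) ∧ ∀ k', k' < k → ¬ (k' ≤ t - u ∧ pvasIt T s a (t - k') ∉ B) :=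
    ⟨Nat.find hex, Nat.find_spec hex, fun k' hk' => Nat.find_min hex hk'⟩
  have hk0 : k ≠ 0 := by
    rintro rfl
    exact hk2 (hAB ht)
  have hin : ∀ i, t - k < i → i ≤ t → pvasIt T s a i ∈ B := by
    intro i h1 h2
    by_contra hc
    refine hkmin (t - i) (by omega) ⟨by omega, ?_⟩
    rwa [Nat.sub_sub_self h2]
  set e := t - k + 1 with he
  have het : e ≤ t := by omega
  -- the first hit of `A`
  have hex2 : ∃ m, pvasIt T s a (e + m) ∈ A := ⟨t - e, by rwa [Nat.add_sub_cancel' het]⟩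
  have hm1 := Nat.find_spec hex2
  have hm2 : ∀ m', m' < Nat.find hex2 → pvasIt T s a (e + m') ∉ A := fun m' h => Nat.find_min hex2 h
  have hm3 : Nat.find hex2 ≤ t - e := Nat.find_min' hex2 (by rwa [Nat.add_sub_cancel' het])
  refine ⟨e, Nat.find hex2, by omega, by omega, ⟨hin e (by omega) het, ?_, pvas_it_bw ha e⟩, ?_, ?_⟩
  · have h1 : pvasIt T s a e = pvasStep T s (pvasIt T s a (t - k)) := by rw [he, pvas_it_succ]
    rw [h1, pvas_step_opp_mem hB]
    exact hk2
  · intro i hi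
    rw [← pvas_it_add]
    exact ⟨hin _ (by omega) (by omega), hm2 i hi⟩
  · rw [← pvas_it_add]
    exact hm1

/-! ## 2. different times, different positions -/

/-- no return before time `n`: positions at two times less than `n` apart are different -/
theorem pvft_ne {s : V → Bool} {a : D} (ha : pvasBW T s a) {n : ℕ} (hn : ∀ k, 0 < k → k < n → pvasIt T s a k ≠ a) {i j : ℕ} (hij : i < j) (hj : j < i + n) :
    pvasIt T s a i ≠ pvasIt T s a j :=
  fun e => hn (j - i) (by omega) (by omega) (pvas_it_return ha hij.le e)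

/-- periodicity -/
theorem pvft_period {s : V → Bool} {a : D} {n : ℕ} (hn : pvasIt T s a n = a) (i : ℕ) : pvasIt T s a (i + n) = pvasIt T s a i := by
  rw [Nat.add_comm, pvas_it_add, hn]

/-! ## 3. three visits of one strand -/

/-- **F8 = RET3 ⟹ THREE EXCURSIONS** (linear form) -/
theorem pvft_runs3 {B A : Set D} (hB : T.FaceSet B) (hAB : A ⊆ B) {s : V → Bool} {a : D} (ha : pvasBW T s a) {n : ℕ} (hn : ∀ k, 0 < k → k < n → pvasIt T s a k ≠ a)
    {u0 t1 u1 t2 u2 t3 : ℕ} (h01 : u0 < t1) (h11 : t1 < u1) (h12 : u1 < t2) (h22 : t2 < u2) (h23 : u2 < t3) (h30 : t3 ≤ u0 + n)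
    (f0 : pvasIt T s a u0 ∉ B) (f1 : pvasIt T s a u1 ∉ B) (f2 : pvasIt T s a u2 ∉ B)
    (g1 : pvasIt T s a t1 ∈ A) (g2 : pvasIt T s a t2 ∈ A) (g3 : pvasIt T s a t3 ∈ A) :
    ∃ (x1 x2 x3 : D) (n1 n2 n3 : ℕ), PvatRun T B A s x1 n1 ∧ PvatRun T B A s x2 n2 ∧ PvatRun T B A s x3 n3 ∧ x1 ≠ x2 ∧ x1 ≠ x3 ∧ x2 ≠ x3 := by
  obtain ⟨e1, m1, a1, b1, r1⟩ := pvft_run hB hAB ha h01 f0 g1
  obtain ⟨e2, m2, a2, b2, r2⟩ := pvft_run hB hAB ha h12 f1 g2
  obtain ⟨e3, m3, a3, b3, r3⟩ := pvft_run hB hAB ha h23 f2 g3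
  exact ⟨_, _, _, m1, m2, m3, r1, r2, r3, pvft_ne ha hn (by omega) (by omega), pvft_ne ha hn (by omega) (by omega), pvft_ne ha hn (by omega) (by omega)⟩

/-- **F8, cyclic form**: `n` = the period of the closed strand, `t1 < u1 < t2 < u2 < t3 < u3 < t1 + n` -/
theorem pvft_runs3_cyc {B A : Set D} (hB : T.FaceSet B) (hAB : A ⊆ B) {s : V → Bool} {a : D} (ha : pvasBW T s a) {n : ℕ} (hn : ∀ k, 0 < k → k < n → pvasIt T s a k ≠ a)
    (hper : pvasIt T s a n = a) {t1 u1 t2 u2 t3 u3 : ℕ} (h11 : t1 < u1) (h12 : u1 < t2) (h22 : t2 < u2) (h23 : u2 < t3) (h33 : t3 < u3) (h31 : u3 < t1 + n)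
    (f1 : pvasIt T s a u1 ∉ B) (f2 : pvasIt T s a u2 ∉ B) (f3 : pvasIt T s a u3 ∉ B)
    (g1 : pvasIt T s a t1 ∈ A) (g2 : pvasIt T s a t2 ∈ A) (g3 : pvasIt T s a t3 ∈ A) :
    ∃ (x1 x2 x3 : D) (n1 n2 n3 : ℕ), PvatRun T B A s x1 n1 ∧ PvatRun T B A s x2 n2 ∧ PvatRun T B A s x3 n3 ∧ x1 ≠ x2 ∧ x1 ≠ x3 ∧ x2 ≠ x3 :=
  pvft_runs3 hB hAB ha hn (u0 := u1) (t1 := t2) (u1 := u2) (t2 := t3) (u2 := u3) (t3 := t1 + n) h12 h22 h23 h33 h31 (by omega) f1 f2 f3 g2 g3
    (by rw [pvft_period hper]; exact g1)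

/-- **RET3 ⟹ CONFIG6** for cycles `c1 ⊂ c2 ⊂ c0` -/
theorem pvft_cfg6 (hT : T.IsSph) {c0 c1 c2 : T.Cyc} (hfin : c0.Left.Finite) (h12 : c1.Inside c2) (h20 : c2.Inside c0) {s : V → Bool} {a : D} (ha : pvasBW T s a) {n : ℕ}
    (hn : ∀ k, 0 < k → k < n → pvasIt T s a k ≠ a) (hper : pvasIt T s a n = a) {t1 u1 t2 u2 t3 u3 : ℕ} (h11 : t1 < u1) (h12' : u1 < t2) (h22 : t2 < u2) (h23 : u2 < t3) (h33 : t3 < u3)
    (h31 : u3 < t1 + n) (f1 : pvasIt T s a u1 ∉ c0.Left) (f2 : pvasIt T s a u2 ∉ c0.Left) (f3 : pvasIt T s a u3 ∉ c0.Left)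
    (g1 : pvasIt T s a t1 ∈ c1.Left) (g2 : pvasIt T s a t2 ∈ c1.Left) (g3 : pvasIt T s a t3 ∈ c1.Left) :
    ∃ (x1 y2 y4 : D) (n1 m2 m4 : ℕ) (b : Bool), PvatCfg T c0 c1 c2 s x1 y2 y4 n1 m2 m4 ∧
      PvatArm T c0 c1 (pvatLay T s x1 n1 ∪ pvatLay T (pvasNot s) y2 m2 ∪ pvatLay T (pvasNot s) y4 m4) b s := by
  have hc : c1.Inside c0 := pvat_inside_trans hT h12 h20
  obtain ⟨x1, x2, x3, n1, n2, n3, r1, r2, r3, d12, d13, d23⟩ := pvft_runs3_cyc (pl_left_face c0) hc.2 ha hn hper h11 h12' h22 h23 h33 h31 f1 f2 f3 g1 g2 g3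
  obtain ⟨y2, y4, m2, m4, b, h⟩ := pvat_cfg6_three hT hfin h12 h20 r1 r2 r3 d12 d13 d23
  exact ⟨x1, y2, y4, n1, m2, m4, b, h⟩

/-! ## 4. the second gate: CORE-FREE -/

/-- an occupied edge is not an edge of a black circuit -/
theorem pvft_not_edg {c : T.Cyc} {s : V → Bool} (hc : ∀ i, s (T.src (c.e i)) = true) {d : D} (hd : s (T.src d) = false ∨ s (T.tgt d) = false) : ¬ T.Edg c.darts d := by
  rintro (⟨i, rfl⟩ | ⟨i, hi⟩)
  · rcases hd with hd | hd
    · rw [hc i] at hd; exact Bool.noConfusion hd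
    · rw [c.chain, hc (i + 1)] at hd; exact Bool.noConfusion hd
  · have h1 : T.tgt d = T.src (c.e i) := by rw [hi, T.src_opp']
    have h2 : T.src d = T.src (c.e (i + 1)) := by rw [← c.chain, hi, T.tgt_opp]
    rcases hd with hd | hd
    · rw [h2, hc (i + 1)] at hd; exact Bool.noConfusion hd
    · rw [h1, hc i] at hd; exact Bool.noConfusion hd

/-- the two faces of an edge with a white end lie on the same side of a black circuit -/
theorem pvft_opp_side {c : T.Cyc} {s : V → Bool} (hc : ∀ i, s (T.src (c.e i)) = true) {d : D} (hd : s (T.src d) = false ∨ s (T.tgt d) = false) : T.opp d ∈ c.Left ↔ d ∈ c.Left :=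
  (not_not.1 fun hb => pvft_not_edg hc hd (pl_left_bd_sub c hb)).symm

/-- **a strand never crosses a black circuit** -/
theorem pvft_side_step {c : T.Cyc} {s : V → Bool} (hc : ∀ i, s (T.src (c.e i)) = true) {d : D} (hd : pvasBW T s d) : pvasStep T s d ∈ c.Left ↔ d ∈ c.Left := by
  rw [← pvft_opp_side hc (Or.inr (pvas_step_bw hd).2), pvas_step_opp_mem (pl_left_face c)]

theorem pvft_side_it {c : T.Cyc} {s : V → Bool} (hc : ∀ i, s (T.src (c.e i)) = true) {a : D} (ha : pvasBW T s a) (n : ℕ) : pvasIt T s a n ∈ c.Left ↔ a ∈ c.Left := by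
  induction n with
  | zero => rfl
  | succ n ih => rw [pvas_it_succ, pvft_side_step hc (pvas_it_bw ha n), ih]

/-- a strand which passes through ONE right triangle of the black circuit `c` never meets `c.Left` -/
theorem pvft_off_left (hT : T.IsSph) {c : T.Cyc} {s : V → Bool} (hc : ∀ i, s (T.src (c.e i)) = true) {a : D} (ha : pvasBW T s a) {t i : ℕ}
    (h : T.SF (T.opp (c.e i)) (pvasIt T s a t)) (k : ℕ) : pvasIt T s a k ∉ c.Left := by
  obtain ⟨hR, -, hO, -⟩ := pl_jordan hT c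
  have h1 : pvasIt T s a t ∉ c.Left := by
    rw [PvMap.FaceSet.sf T (pl_left_face c) h]
    have := hO i
    rwa [hR] at this
  rw [pvft_side_it hc ha]
  rwa [pvft_side_it hc ha] at h1

/-- all the darts at a white vertex lie on the same side of a black circuit -/
theorem pvft_star_side (hT : T.IsSph) {c : T.Cyc} {s : V → Bool} (hc : ∀ i, s (T.src (c.e i)) = true) {d d' : D} (hd : s (T.src d) = false) (hdd : T.src d = T.src d') :
    d ∈ c.Left ↔ d' ∈ c.Left := by
  rcases pl_jordan_vert hT c (T.src d) with ⟨i, hi⟩ | h | h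
  · rw [← hi, hc i] at hd; exact Bool.noConfusion hd
  · exact ⟨fun _ => h d' hdd.symm, fun _ => h d rfl⟩
  · rw [(pl_jordan hT c).1] at h
    exact ⟨fun h1 => absurd h1 (h d rfl), fun h1 => absurd h1 (h d' hdd.symm)⟩

/-- along a white arc of a circuit `S` the darts stay on the same side of the black circuit `c` -/
theorem pvft_arc_side (hT : T.IsSph) {c S : T.Cyc} {s : V → Bool} (hc : ∀ i, s (T.src (c.e i)) = true) {p : ℕ} :
    ∀ q, (∀ k, p < k → k ≤ p + q → s (T.src (S.e k)) = false) → (S.e (p + q) ∈ c.Left ↔ S.e p ∈ c.Left) := by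
  intro q
  induction q with
  | zero => intro _; rfl
  | succ q ih =>
    intro h
    have hw : s (T.src (S.e (p + (q + 1)))) = false := h _ (by omega) le_rfl
    have hw' : s (T.tgt (S.e (p + q))) = false := by rw [S.chain]; exact hw
    rw [← ih (fun k h1 h2 => h k h1 (by omega)), ← pvft_opp_side hc (Or.inr hw')]
    exact pvft_star_side hT hc hw (by rw [T.src_opp', S.chain]; rfl)

/-- **THE TWO WHITE ARCS OF A GATE LIE ON DIFFERENT SIDES OF A BLACK CIRCUIT WHICH GOES THROUGH THE GATE** -/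
theorem pvft_gate_sides (hT : T.IsSph) {s : V → Bool} (g : T.Gate s) {c : T.Cyc} (hc : ∀ i, s (T.src (c.e i)) = true) {i j : ℕ} (hi : c.e i ∈ g.c.Left) (hj : c.e j ∉ g.c.Left)
    (ha : g.aIn ∉ c.Left) : g.bIn ∈ c.Left := by
  by_contra hb
  have hmn := g.hmn
  have hm := g.hm
  -- no dart of the gate, no opposite of a dart of the gate lies in `c.Left`
  have hwhite : ∀ k, k < g.c.n → s (T.src (g.c.e k)) = false ∨ s (T.tgt (g.c.e k)) = false := by
    intro k hk
    by_cases h0 : k = 0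
    · right; subst h0; rw [g.c.chain]; exact pvtg_white g (by omega) (by omega) (by omega)
    by_cases h1 : k = g.m
    · right; subst h1; rw [g.c.chain]; exact pvtg_white g (by omega) (by omega) (by omega)
    · left; exact pvtg_white g hk h0 h1
  have hoff : ∀ k, k < g.c.n → g.c.e k ∉ c.Left := by
    intro k hk
    by_cases hkm : k < g.m
    · have := pvft_arc_side hT (S := g.c) hc (p := 0) k (fun l h1 h2 => pvtg_white g (by omega) (by omega) (by omega))
      rw [Nat.zero_add] at this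
      rw [this]
      exact ha
    · have := pvft_arc_side hT (S := g.c) hc (p := g.m) (k - g.m) (fun l h1 h2 => pvtg_white g (by omega) (by omega) (by omega))
      rw [Nat.add_sub_cancel' (by omega)] at this
      rw [this]
      exact hb
  have hedg : ∀ d, d ∈ c.Left → ¬ T.Edg g.c.darts d := by
    rintro d hd (⟨k, rfl⟩ | ⟨k, hk⟩)
    · rw [← pl_cyc_mod] at hd
      exact hoff _ (Nat.mod_lt _ (pl_cyc_pos g.c)) hd
    · have h1 : g.c.e (k % g.c.n) = T.opp d := by rw [pl_cyc_mod]; exact hk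
      have h2 := hoff _ (Nat.mod_lt k (pl_cyc_pos g.c))
      have h3 := pvft_opp_side hc (hwhite _ (Nat.mod_lt k (pl_cyc_pos g.c)))
      rw [h1, T.opp_opp] at h3
      rw [h1] at h2
      exact h2 (h3.1 hd)
  -- `c.Left` lies on one side of the gate
  have hone : ∀ d, T.DJoin c.darts (c.e 0) d → (d ∈ g.c.Left ↔ c.e 0 ∈ g.c.Left) := by
    intro d hd
    induction hd with
    | refl => rfl
    | @tail x y hx hxy ih =>
      rcases hxy with rfl | ⟨rfl, -⟩
      · rw [pl_left_face g.c x, ih]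
      · rw [← ih]
        exact (not_not.1 fun hB => hedg x hx (pl_left_bd_sub g.c hB)).symm
  have hL := (pl_jordan hT c).2.1
  exact hj ((hone _ (hL j)).2 ((hone _ (hL i)).1 hi))

/-- **CORE-FREE, abstract form**: `a` = the only entrance of the face set `A` on its strand, no return to `a` before time `n`, the strand is off `A` at time `N`: it stays off `A` up to time `n` -/
theorem pvft_core_free {A : Set D} (hA : T.FaceSet A) {s : V → Bool} {a : D} (ha : pvasBW T s a) {n : ℕ} (hn : ∀ k, 0 < k → k < n → pvasIt T s a k ≠ a)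
    (honly : ∀ k, pvasIn T A s (pvasIt T s a k) → pvasIt T s a k = a) {N : ℕ} (hN : pvasIt T s a N ∉ A) : ∀ i, N ≤ i → i < n → pvasIt T s a i ∉ A := by
  intro i
  induction i with
  | zero =>
    intro h1 _
    rwa [Nat.le_zero.1 h1] at hN
  | succ i ih =>
    intro h1 h2 hmem
    rcases Nat.lt_or_ge i N with h | h
    · have : i + 1 = N := by omega
      rw [this] at hmem
      exact hN hmem
    · have h3 := ih h (by omega)
      have hin : pvasIn T A s (pvasIt T s a (i + 1)) := by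
        refine ⟨hmem, ?_, pvas_it_bw ha _⟩
        rw [pvas_it_succ, pvas_step_opp_mem hA]
        exact h3
      exact hn (i + 1) (by omega) h2 (honly _ hin)

/-- **(S2) ⟹ CORE-FREE** (amendment (A) of 151, (G') of 211, ruling 9bis of 234): `g` a gate, `c` a black circuit which goes through it, the strand `a_k` of the entrance `g.aIn` runs off `c.Left` (it is the wall on the right of the rim `c`),
first return at time `n`.   Once the strand has left the gate it stays outside up to its return. -/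
theorem pvft_gate_free (hT : T.IsSph) {s : V → Bool} (g : T.Gate s) {c : T.Cyc} (hc : ∀ i, s (T.src (c.e i)) = true) {i j : ℕ} (hi : c.e i ∈ g.c.Left) (hj : c.e j ∉ g.c.Left)
    (ha : g.aIn ∉ c.Left) {n : ℕ} (hn : ∀ k, 0 < k → k < n → pvasIt T s g.aIn k ≠ g.aIn) {N : ℕ} (hN : pvasIt T s g.aIn N ∉ g.c.Left) :
    ∀ k, N ≤ k → k < n → pvasIt T s g.aIn k ∉ g.c.Left := by
  refine pvft_core_free (pl_left_face g.c) (pvtg_aIn_bw g) hn (fun k hk => ?_) hN
  rcases (pvtg_in_iff hT g _).1 hk with h | h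
  · exact h
  · have h1 := pvft_gate_sides hT g hc hi hj ha
    rw [← h, pvft_side_it hc (pvtg_aIn_bw g)] at h1
    exact absurd h1 ha

/-- **ONE PASSAGE, abstract linear form** (no period; serves the forward AND the backward continuation, (T1) of 131): a strand piece `a_0, …, a_N` with pairwise different positions, which starts off the face set `A` and
whose only possible entrance into `A` is the dart `x = a_e`.   Every visit of `A` belongs to the ONE passage which starts at time `e`. -/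
theorem pvft_once {A : Set D} (hA : T.FaceSet A) {s : V → Bool} {a x : D} (ha : pvasBW T s a) {N : ℕ} (hinj : ∀ i j, i < j → j ≤ N → pvasIt T s a i ≠ pvasIt T s a j)
    (honly : ∀ k, pvasIn T A s (pvasIt T s a k) → pvasIt T s a k = x) (h0 : a ∉ A) {e : ℕ} (he : e ≤ N) (hae : pvasIt T s a e = x) {k : ℕ} (hk : k ≤ N) (hmem : pvasIt T s a k ∈ A) :
    e ≤ k ∧ ∀ l, e ≤ l → l ≤ k → pvasIt T s a l ∈ A := by
  classical
  -- the last time off `A` before `k`
  have hex : ∃ m, m ≤ k ∧ pvasIt T s a (k - m) ∉ A := ⟨k, le_rfl, by rw [Nat.sub_self]; exact h0⟩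
  obtain ⟨m, ⟨hm1, hm2⟩, hmin⟩ : ∃ m, (m ≤ k ∧ pvasIt T s a (k - m) ∉ A) ∧ ∀ m', m' < m → ¬ (m' ≤ k ∧ pvasIt T s a (k - m') ∉ A) :=
    ⟨Nat.find hex, Nat.find_spec hex, fun m' hm' => Nat.find_min hex hm'⟩
  have hm0 : m ≠ 0 := by
    rintro rfl
    exact hm2 hmem
  have hin : ∀ i, k - m < i → i ≤ k → pvasIt T s a i ∈ A := by
    intro i h1 h2
    by_contra hc
    refine hmin (k - i) (by omega) ⟨by omega, ?_⟩
    rwa [Nat.sub_sub_self h2]
  have hent : pvasIn T A s (pvasIt T s a (k - m + 1)) := by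
    refine ⟨hin _ (by omega) (by omega), ?_, pvas_it_bw ha _⟩
    rw [pvas_it_succ, pvas_step_opp_mem hA]
    exact hm2
  have heq : pvasIt T s a (k - m + 1) = pvasIt T s a e := by rw [honly _ hent, hae]
  have hee : k - m + 1 = e := by
    rcases Nat.lt_trichotomy (k - m + 1) e with h | h | h
    · exact absurd heq (hinj _ _ h he)
    · exact h
    · exact absurd heq.symm (hinj _ _ h (by omega))
  exact ⟨by omega, fun l h1 h2 => hin l (by omega) h2⟩

/-- **(S2) ⟹ CORE-FREE, LINEAR FORM**: `g` a gate, `c` a black circuit through it, `a_0, …, a_N` a strand piece with pairwise different positions, off `c.Left`, which starts outside the gate and is at `g.aIn` at time `e`.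
Every visit of the inside of the gate belongs to the ONE passage which starts at time `e`: nothing before `e`, nothing after the exit. -/
theorem pvft_gate_once (hT : T.IsSph) {s : V → Bool} (g : T.Gate s) {c : T.Cyc} (hc : ∀ i, s (T.src (c.e i)) = true) {i j : ℕ} (hi : c.e i ∈ g.c.Left) (hj : c.e j ∉ g.c.Left)
    {a : D} (ha : pvasBW T s a) (hac : a ∉ c.Left) {N : ℕ} (hinj : ∀ i j, i < j → j ≤ N → pvasIt T s a i ≠ pvasIt T s a j) (h0 : a ∉ g.c.Left) {e : ℕ} (he : e ≤ N)
    (hae : pvasIt T s a e = g.aIn) {k : ℕ} (hk : k ≤ N) (hmem : pvasIt T s a k ∈ g.c.Left) : e ≤ k ∧ ∀ l, e ≤ l → l ≤ k → pvasIt T s a l ∈ g.c.Left := by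
  have haIn : g.aIn ∉ c.Left := by
    rw [← hae, pvft_side_it hc ha]
    exact hac
  refine pvft_once (pl_left_face g.c) ha hinj (fun k hk => ?_) h0 he hae hk hmem
  rcases (pvtg_in_iff hT g _).1 hk with h | h
  · exact h
  · have h1 := pvft_gate_sides hT g hc hi hj haIn
    rw [← h, pvft_side_it hc ha] at h1
    exact absurd h1 hac

/-- after the exit: if the strand is outside the gate at a time `x ≥ e`, it stays outside up to time `N` -/
theorem pvft_gate_after (hT : T.IsSph) {s : V → Bool} (g : T.Gate s) {c : T.Cyc} (hc : ∀ i, s (T.src (c.e i)) = true) {i j : ℕ} (hi : c.e i ∈ g.c.Left) (hj : c.e j ∉ g.c.Left)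
    {a : D} (ha : pvasBW T s a) (hac : a ∉ c.Left) {N : ℕ} (hinj : ∀ i j, i < j → j ≤ N → pvasIt T s a i ≠ pvasIt T s a j) (h0 : a ∉ g.c.Left) {e : ℕ} (he : e ≤ N)
    (hae : pvasIt T s a e = g.aIn) {x : ℕ} (hex : e ≤ x) (hx : pvasIt T s a x ∉ g.c.Left) {k : ℕ} (hxk : x ≤ k) (hk : k ≤ N) : pvasIt T s a k ∉ g.c.Left :=
  fun hmem => hx ((pvft_gate_once hT g hc hi hj ha hac hinj h0 he hae hk hmem).2 x hex hxk)

/-- before the entrance -/
theorem pvft_gate_before (hT : T.IsSph) {s : V → Bool} (g : T.Gate s) {c : T.Cyc} (hc : ∀ i, s (T.src (c.e i)) = true) {i j : ℕ} (hi : c.e i ∈ g.c.Left) (hj : c.e j ∉ g.c.Left)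
    {a : D} (ha : pvasBW T s a) (hac : a ∉ c.Left) {N : ℕ} (hinj : ∀ i j, i < j → j ≤ N → pvasIt T s a i ≠ pvasIt T s a j) (h0 : a ∉ g.c.Left) {e : ℕ} (he : e ≤ N)
    (hae : pvasIt T s a e = g.aIn) {k : ℕ} (hk : k < e) : pvasIt T s a k ∉ g.c.Left :=
  fun hmem => absurd (pvft_gate_once hT g hc hi hj ha hac hinj h0 he hae (by omega) hmem).1 (by omega)

/-- **METRIC FORM**: a circuit `c` round the disc `B(z, ρ)` (its vertices are at distance `≥ ρ`, every site of the open disc is a vertex of a face of the inside): a face which is NOT inside has its three vertices at distance `≥ ρ` from `z` -/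
theorem pvft_off_far (hT : T.IsSph) {c : T.Cyc} {pos : V → ℂ} {z : ℂ} {ρ : ℝ} (hann : ∀ v ∈ c.verts, ρ ≤ ‖pos v - z‖) (hround : ∀ v, ‖pos v - z‖ < ρ → v ∈ T.VOf c.Left) {d : D} (hd : d ∉ c.Left) :
    ρ ≤ ‖pos (T.src d) - z‖ ∧ ρ ≤ ‖pos (T.tgt d) - z‖ ∧ ρ ≤ ‖pos (T.apex d) - z‖ := by
  have key : ∀ d', d' ∉ c.Left → ρ ≤ ‖pos (T.src d') - z‖ := by
    intro d' hd'
    by_contra hlt
    rw [not_le] at hlt
    have h1 := hround _ hlt
    rw [pl_VOf_left hT c] at h1
    rcases h1 with h1 | h1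
    · exact absurd (hann _ h1) (not_le.2 hlt)
    · exact hd' (h1 d' rfl)
  refine ⟨key d hd, key (T.nxt d) ?_, key (T.nxt (T.nxt d)) ?_⟩
  · rwa [pl_left_face c d]
  · rwa [pl_left_face c (T.nxt d), pl_left_face c d]

end Claimed.Agent.R289
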