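import Claimed.Agent.R289.Tr.Corr
import Claimed.Agent.R289.Tr.Band

/-!
# Row 289 (S0537, Cardy for Poisson-Voronoi), unit TR, R-G / TR19 FIT, Tr/CorrPl : THE PINCH IN THE PLANE, GRID FREE      (owner helper292; prefix `pvtc_pl_`)

`K` = the obstacle (frozen set: spine, cores, as a bounded connected subset of `ℂ`), `W` = the witness (the actual continuation of the wall from the tip `p0` to a far point `p1`), at positive distance from `K`;
`M` = the mouths (no distance is asked from `K ∩ M`), `r` = the distance asked from `K \ M`.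

* **`pvtc_pl_pinch`** : EITHER for every far point `p2` there is a bounded connected `U ∋ p0, p2`, disjoint from `K`, at distance `≥ r` from `K \ M`;
     OR there are `x, y ∈ K`, not both in `M`, `‖x - y‖ ≤ 5 r`, a point of `W` within `3 r` of `x` or `y`, and EVERY connected `K' ⊆ K` through `x`, `y` leaves `closedBall x S` (`S ≥ 4 r`) unless `‖p0 - x‖ ≤ 3 S`.
     (Proof: `pvtc_pinch_wit` on a grid of mesh `≤ min (η/3) (r/16)`, blobs `{x}` at the cells which meet `K` only inside `M`, `pvtwN k {x}` elsewhere.)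
* `PvtcPlPinch K W M p0 r`, `PvtcPlFree K M U r` (names for the two alternatives); `pvtc_pl_one` (compact form), **`pvtc_pl_two`** (two tips, two continuations: the tips are joined by a free channel unless one continuation passes a pinch)
* §2 **`pvtc_pl_pp`** = (PP) of `W2_211.md` v2: sup norm `pvtcSup`, rectangles `pvtcRect`, `η > 0` arbitrary: `PvtcFree K M U r` (channel) or `PvtcPP K W M p0 r η` (jaws `≤ 2r+η` apart, witness within `r+η` of a jaw,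
     EVERY rectangle containing a connected `K' ⊆ K` through the jaws and the two sup balls of radius `r+η` contains the front up to `η`); `pvtc_pl_pp_compact`, `pvtc_pl_pp_two`
* §3 `pvtc_pl_free_cells`, **`pvtc_pl_cor`** (the cell of the front lies in 20's `pvtbOut` of the `j`-neighbourhood of the cells of `K \ M`, `(j+1) δ < r`), **`pvtc_pl_fit`** = FIT-E of 118
* `pvtc_pl_cells` : the cells of mesh `δ` met by `U` = a finite `G4`-connected chain off the `j`-neighbourhood of the cells of `K \ M` as soon as `2 (j + 1) δ < r`.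
-/

set_option autoImplicit false
set_option linter.unusedSectionVars false
set_option linter.unusedVariables false
set_option linter.unusedSimpArgs false

namespace Claimed.Agent.R289

open Relation Claims.C0467 Claimed.Agent.R291

/-- points of two squares at sup-distance `≤ j` are at distance `≤ 2 (j+1) δ` -/
theorem pvtc_pl_sq_close {δ : ℝ} (hδ : 0 < δ) {j : ℕ} {z w : ℤ × ℤ} {p q : ℂ} (h : w ∈ pvtwN j {z}) (hp : p ∈ pvtSq δ z) (hq : q ∈ pvtSq δ w) :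
    ‖p - q‖ ≤ 2 * ((j : ℝ) + 1) * δ := by
  obtain ⟨z', hz', h1, h2, h3, h4⟩ := h
  rw [Set.mem_singleton_iff] at hz'
  subst hz'
  have h0 := Complex.norm_le_abs_re_add_abs_im (p - q)
  rw [Complex.sub_re, Complex.sub_im] at h0
  obtain ⟨a1, a2, a3, a4⟩ := hp
  obtain ⟨b1, b2, b3, b4⟩ := hq
  have c1 : (w.1 : ℝ) ≤ z'.1 + j := by exact_mod_cast h1
  have c2 : (z'.1 : ℝ) ≤ w.1 + j := by exact_mod_cast h2
  have c3 : (w.2 : ℝ) ≤ z'.2 + j := by exact_mod_cast h3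
  have c4 : (z'.2 : ℝ) ≤ w.2 + j := by exact_mod_cast h4
  have d1 := mul_le_mul_of_nonneg_right c1 hδ.le
  have d2 := mul_le_mul_of_nonneg_right c2 hδ.le
  have d3 := mul_le_mul_of_nonneg_right c3 hδ.le
  have d4 := mul_le_mul_of_nonneg_right c4 hδ.le
  have hr : |p.re - q.re| ≤ ((j : ℝ) + 1) * δ := abs_le.2 ⟨by nlinarith, by nlinarith⟩
  have hi : |p.im - q.im| ≤ ((j : ℝ) + 1) * δ := abs_le.2 ⟨by nlinarith, by nlinarith⟩
  nlinarith

/-- two cells joined inside `s` are joined inside a finite connected subset of `s` -/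
theorem pvtc_pl_fin_path {s : Set (ℤ × ℤ)} {a b : ℤ × ℤ} (ha : a ∈ s) (h : TscR tscG s a b) :
    ∃ E ⊆ s, E.Finite ∧ TscConn tscG E ∧ a ∈ E ∧ b ∈ E := by
  induction h with
  | refl => exact ⟨{a}, Set.singleton_subset_iff.2 ha, Set.finite_singleton a, pvtc_sing_conn a, rfl, rfl⟩
  | @tail b c _ hstep ih =>
    obtain ⟨E, hEs, hEf, hEc, haE, hbE⟩ := ih
    refine ⟨E ∪ {c}, Set.union_subset hEs (Set.singleton_subset_iff.2 hstep.2.2), hEf.union (Set.finite_singleton c), ?_, Or.inl haE, Or.inr rfl⟩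
    exact tsc_conn_union hEc (pvtc_sing_conn c) (a := b) (b := c) hbE rfl (Or.inr hstep.1)

/-- a cell enclosed by a subset of a square block lies in the block -/
theorem pvtc_pl_hull_N {X : Set (ℤ × ℤ)} {J : ℕ} {x z : ℤ × ℤ} (hX : X ⊆ pvtwN J {x}) (hz : z ∉ pvtOut X) : z ∈ pvtwN J {x} := by
  by_contra hc
  apply hz
  have hbox : pvtwN J {x} ⊆ tscBox (x.1 - J) (x.1 + J) (x.2 - J) (x.2 + J) :=
    pvtw_N_box (E := {x}) (a := x.1) (b := x.1) (c := x.2) (d := x.2) (by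
      intro e he
      rw [Set.mem_singleton_iff] at he
      subst he
      exact ⟨le_rfl, le_rfl, le_rfl, le_rfl⟩)
  refine pvt_out_of_box (hX.trans hbox) ?_
  rintro ⟨h1, h2, h3, h4⟩
  exact hc ⟨x, rfl, by omega, by omega, by omega, by omega⟩

/-- a natural number `k` with `t ≤ k δ ≤ t + δ` -/
theorem pvtc_pl_ceil {δ t : ℝ} (hδ : 0 < δ) (ht : 0 ≤ t) : ∃ k : ℕ, t ≤ (k : ℝ) * δ ∧ (k : ℝ) * δ ≤ t + δ := by
  refine ⟨⌈t / δ⌉₊, ?_, ?_⟩
  · have := Nat.le_ceil (t / δ)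
    rwa [div_le_iff₀ hδ] at this
  · have := (Nat.ceil_lt_add_one (div_nonneg ht hδ.le)).le
    have h2 := mul_le_mul_of_nonneg_right this hδ.le
    rwa [add_mul, div_mul_cancel₀ _ hδ.ne', one_mul] at h2

/-- **THE PINCH IN THE PLANE** -/
theorem pvtc_pl_pinch {K W M : Set ℂ} {c0 p0 p1 : ℂ} {ρ0 r η : ℝ} (hr : 0 < r) (hη : 0 < η) (hρ0 : 0 ≤ ρ0)
    (hKc : IsPreconnected K) (hKb : K ⊆ Metric.closedBall c0 ρ0) (hWc : IsPreconnected W) (hWb : Bornology.IsBounded W)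
    (hWK : ∀ p ∈ W, ∀ q ∈ K, η ≤ ‖p - q‖) (hp0 : p0 ∈ W) (hp1 : p1 ∈ W) (hfar : 2 * (ρ0 + 3 * r) < ‖p1 - c0‖) :
    (∀ p2 : ℂ, 2 * (ρ0 + 3 * r) < ‖p2 - c0‖ → ∃ U : Set ℂ, IsPreconnected U ∧ Bornology.IsBounded U ∧ p0 ∈ U ∧ p2 ∈ U ∧ Disjoint U K ∧
        ∀ u ∈ U, ∀ q ∈ K \ M, r ≤ ‖u - q‖) ∨
    (∃ x ∈ K, ∃ y ∈ K, ∃ w ∈ W, (x ∉ M ∨ y ∉ M) ∧ ‖x - y‖ ≤ 5 * r ∧ (‖w - x‖ ≤ 3 * r ∨ ‖w - y‖ ≤ 3 * r) ∧
      ∀ K' ⊆ K, IsPreconnected K' → x ∈ K' → y ∈ K' → ∀ S : ℝ, 4 * r ≤ S → K' ⊆ Metric.closedBall x S → ‖p0 - x‖ ≤ 3 * S) := by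
  classical
  -- the mesh
  obtain ⟨δ, hδ, hδη, hδr⟩ : ∃ δ : ℝ, 0 < δ ∧ 3 * δ ≤ η ∧ 16 * δ ≤ r := by
    refine ⟨min (η / 3) (r / 16), lt_min (by positivity) (by positivity), ?_, ?_⟩
    · have := min_le_left (η / 3) (r / 16); linarith
    · have := min_le_right (η / 3) (r / 16); linarith
  obtain ⟨k, hk1, hk2⟩ := pvtc_pl_ceil hδ hr.le
  have hKbd : Bornology.IsBounded K := Metric.isBounded_closedBall.subset hKb
  set Kc := pvtCells δ K with hKcdef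
  set Wc := pvtCells δ W with hWcdef
  have hKcf : Kc.Finite := pvt_cells_finite hδ hKbd
  have hKcc : TscConn tscG Kc := pvt_cells_conn hδ hKc hKbd
  have hWcc : TscConn tscG Wc := pvt_cells_conn hδ hWc hWb
  have hdisj : Disjoint Wc Kc := by
    rw [Set.disjoint_left]
    rintro e ⟨p, hpe, hpW⟩ ⟨q, hqe, hqK⟩
    have h1 := pvt_sq_diam hpe hqe
    have h2 := hWK p hpW q hqK
    linarith
  -- the blobs
  set Bl : ℤ × ℤ → Set (ℤ × ℤ) := fun x => if (pvtSq δ x ∩ (K \ M)).Nonempty then pvtwN k {x} else {x} with hBl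
  have hBlsub : ∀ x, Bl x ⊆ pvtwN k {x} := by
    intro x
    by_cases h : (pvtSq δ x ∩ (K \ M)).Nonempty
    · simp only [hBl, if_pos h]; exact subset_rfl
    · simp only [hBl, if_neg h]; exact pvtw_N_sub
  have hBlfin : ∀ x ∈ Kc, (Bl x).Finite := fun x _ => (pvtw_N_finite (Set.finite_singleton x)).subset (hBlsub x)
  have hBlconn : ∀ x ∈ Kc, TscConn tscG (Bl x) := by
    intro x _
    by_cases h : (pvtSq δ x ∩ (K \ M)).Nonempty
    · simp only [hBl, if_pos h]; exact pvtw_N_conn (pvtc_sing_conn x)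
    · simp only [hBl, if_neg h]; exact pvtc_sing_conn x
  have hBlc : ∀ x ∈ Kc, x ∈ Bl x := by
    intro x _
    by_cases h : (pvtSq δ x ∩ (K \ M)).Nonempty
    · simp only [hBl, if_pos h]; exact pvtw_N_sub rfl
    · simp only [hBl, if_neg h]; exact rfl
  set Un : Set (ℤ × ℤ) := ⋃ x ∈ Kc, Bl x with hUn
  have hUnf : Un.Finite := hKcf.biUnion hBlfin
  -- far cells are outside
  obtain ⟨x0, hx0⟩ := pvt_sq_cover hδ c0
  obtain ⟨J0, hJ1, hJ2⟩ := pvtc_pl_ceil hδ (show 0 ≤ ρ0 + 2 * r + 5 * δ by positivity)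
  have hUnJ : Un ⊆ pvtwN J0 {x0} := by
    intro e he
    obtain ⟨x, hx, hex⟩ := Set.mem_iUnion₂.1 he
    obtain ⟨q, hqx, hqK⟩ := hx
    have h1 := pvtc_pl_sq_close hδ (hBlsub x hex) hqx (pvt_sq_ctr hδ.le (z := e))
    have h2 : ‖q - c0‖ ≤ ρ0 := by
      have := hKb hqK
      rwa [Metric.mem_closedBall, dist_eq_norm] at this
    refine pvtw_sq_near hδ hx0 (pvt_sq_ctr hδ.le (z := e)) ?_
    have h3 : ‖c0 - pvtCtr δ e‖ ≤ ‖q - c0‖ + ‖q - pvtCtr δ e‖ := by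
      have : c0 - pvtCtr δ e = -(q - c0) + (q - pvtCtr δ e) := by ring
      rw [this]
      exact (norm_add_le _ _).trans (by rw [norm_neg])
    nlinarith
  have hfarout : ∀ p2 : ℂ, 2 * (ρ0 + 3 * r) < ‖p2 - c0‖ → ∀ e, p2 ∈ pvtSq δ e → e ∈ pvtOut Un := by
    intro p2 hp2 e he
    by_contra hc
    have h1 := pvtc_pl_sq_close hδ (pvtc_pl_hull_N hUnJ hc) hx0 he
    rw [norm_sub_rev] at h1
    nlinarith
  obtain ⟨z, hz⟩ := pvt_sq_cover hδ p0
  obtain ⟨w, hw⟩ := pvt_sq_cover hδ p1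
  have hzW : z ∈ Wc := ⟨p0, hz, hp0⟩
  have hwW : w ∈ Wc := ⟨p1, hw, hp1⟩
  have hwo : w ∈ pvtOut Un := hfarout p1 hfar w hw
  by_cases hzo : z ∈ pvtOut Un
  · -- the corridor
    left
    intro p2 hp2
    obtain ⟨e2, he2⟩ := pvt_sq_cover hδ p2
    obtain ⟨E, hEs, hEf, hEc, hzE, heE⟩ := pvtc_pl_fin_path hzo (pvt_out_conn hUnf z hzo e2 (hfarout p2 hp2 e2 he2))
    refine ⟨pvtU δ E, pvt_U_conn hδ (pvt_conn_tri8 hEc), (pvt_U_compact hEf).isBounded, Set.mem_iUnion₂.2 ⟨z, hzE, hz⟩, Set.mem_iUnion₂.2 ⟨e2, heE, he2⟩, ?_, ?_⟩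
    · rw [Set.disjoint_left]
      intro u hu huK
      obtain ⟨e, heE', hue⟩ := Set.mem_iUnion₂.1 hu
      have heK : e ∈ Kc := ⟨u, hue, huK⟩
      exact pvt_out_sub (hEs heE') (Set.mem_iUnion₂.2 ⟨e, heK, hBlc e heK⟩)
    · intro u hu q hq
      obtain ⟨e, heE', hue⟩ := Set.mem_iUnion₂.1 hu
      obtain ⟨x, hqx⟩ := pvt_sq_cover hδ q
      have hxK : x ∈ Kc := ⟨q, hqx, hq.1⟩
      have hfat : Bl x = pvtwN k {x} := by
        simp only [hBl, if_pos (show (pvtSq δ x ∩ (K \ M)).Nonempty from ⟨q, hqx, hq⟩)]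
      have hne : e ∉ pvtwN k {x} := by
        intro h
        rw [← hfat] at h
        exact pvt_out_sub (hEs heE') (Set.mem_iUnion₂.2 ⟨x, hxK, h⟩)
      have := pvtw_sq_far hδ hne hqx hue
      rw [norm_sub_rev] at this
      linarith
  · -- the pinch
    right
    obtain ⟨x, hx, y, hy, ht, ⟨w0, hw0W, hw0B⟩, hall⟩ := pvtc_pinch_wit Kc Wc Bl z w hKcf hKcc hBlfin hBlconn hBlc hWcc hdisj hzW hwW hwo hzo
    have hpt : ∀ x ∈ Kc, ∃ x' ∈ K, x' ∈ pvtSq δ x ∧ (x' ∈ M → Bl x = {x}) := by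
      intro x hx
      by_cases h : (pvtSq δ x ∩ (K \ M)).Nonempty
      · obtain ⟨q, hqx, hqK⟩ := h
        exact ⟨q, hqK.1, hqx, fun hM => (hqK.2 hM).elim⟩
      · obtain ⟨q, hqx, hqK⟩ := hx
        exact ⟨q, hqK, hqx, fun _ => by simp only [hBl, if_neg h]⟩
    obtain ⟨x', hx'K, hx'x, hx'M⟩ := hpt x hx
    obtain ⟨y', hy'K, hy'y, hy'M⟩ := hpt y hy
    obtain ⟨w', hw'0, hw'W⟩ := hw0W
    have hyx : y ∈ pvtwN (k + k + 1) {x} := by
      obtain ⟨u, hu, v, hv, huv⟩ := ht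
      exact pvtc_touch_N ⟨u, hBlsub x hu, v, hBlsub y hv, huv⟩
    refine ⟨x', hx'K, y', hy'K, w', hw'W, ?_, ?_, ?_, ?_⟩
    · by_contra hcon
      push Not at hcon
      have h1 := hall Kc subset_rfl hKcc hx hy
      rw [hx'M hcon.1, hy'M hcon.2] at h1
      apply h1
      have hsub : Kc ∪ {x} ∪ {y} ⊆ Un := by
        rintro a ((ha | ha) | ha)
        · exact Set.mem_iUnion₂.2 ⟨a, ha, hBlc a ha⟩
        · rw [Set.mem_singleton_iff] at ha; subst ha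
          exact Set.mem_iUnion₂.2 ⟨a, hx, hBlc a hx⟩
        · rw [Set.mem_singleton_iff] at ha; subst ha
          exact Set.mem_iUnion₂.2 ⟨a, hy, hBlc a hy⟩
      refine pvtc_out_of_wit hWcc ?_ hzW hwW (pvt_out_anti hsub hwo)
      rw [Set.disjoint_left]
      rintro a haW ((ha | ha) | ha)
      · exact Set.disjoint_left.1 hdisj haW ha
      · rw [Set.mem_singleton_iff] at ha; subst ha
        exact Set.disjoint_left.1 hdisj haW hx
      · rw [Set.mem_singleton_iff] at ha; subst ha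
        exact Set.disjoint_left.1 hdisj haW hy
    · have := pvtc_pl_sq_close hδ hyx hx'x hy'y
      push_cast at this
      nlinarith
    · rcases hw0B with h | h
      · left
        have := pvtc_pl_sq_close hδ (hBlsub x h) hx'x hw'0
        rw [norm_sub_rev] at this
        nlinarith
      · right
        have := pvtc_pl_sq_close hδ (hBlsub y h) hy'y hw'0
        rw [norm_sub_rev] at this
        nlinarith
    · intro K' hK'K hK'c hxK' hyK' S hS hK'S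
      have hK'b : Bornology.IsBounded K' := hKbd.subset hK'K
      have h1 := hall (pvtCells δ K') (pvt_cells_mono hK'K) (pvt_cells_conn hδ hK'c hK'b) ⟨x', hx'x, hxK'⟩ ⟨y', hy'y, hyK'⟩
      obtain ⟨J, hJ1, hJ2⟩ := pvtc_pl_ceil hδ (show 0 ≤ S + δ by linarith)
      have hkJ : 3 * k + 1 ≤ J := by
        have : ((3 * k + 1 : ℕ) : ℝ) * δ < ((J : ℕ) : ℝ) * δ := by
          push_cast
          nlinarith
        exact_mod_cast (lt_of_mul_lt_mul_right this hδ.le).le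
      have hsub : pvtCells δ K' ∪ Bl x ∪ Bl y ⊆ pvtwN J {x} := by
        rintro a ((⟨q, hqa, hqK'⟩ | ha) | ha)
        · refine pvtw_sq_near hδ hx'x hqa ?_
          have := hK'S hqK'
          rw [Metric.mem_closedBall, dist_eq_norm, norm_sub_rev] at this
          linarith
        · exact pvtw_N_mono (by omega) subset_rfl (hBlsub x ha)
        · have h2 : a ∈ pvtwN k (pvtwN (k + k + 1) {x}) := pvtw_N_mono le_rfl (Set.singleton_subset_iff.2 hyx) (hBlsub y ha)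
          rw [pvtw_N_add] at h2
          exact pvtw_N_mono (by omega) subset_rfl h2
      have := pvtc_pl_sq_close hδ (pvtc_pl_hull_N hsub h1) hx'x hz
      rw [norm_sub_rev] at this
      nlinarith

/-- the PINCH of the obstacle `K` at scale `r`, crossed by the witness `W` which starts at the tip `p0`; `M` = the mouths -/
def PvtcPlPinch (K W M : Set ℂ) (p0 : ℂ) (r : ℝ) : Prop :=
  ∃ x ∈ K, ∃ y ∈ K, ∃ w ∈ W, (x ∉ M ∨ y ∉ M) ∧ ‖x - y‖ ≤ 5 * r ∧ (‖w - x‖ ≤ 3 * r ∨ ‖w - y‖ ≤ 3 * r) ∧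
    ∀ K' ⊆ K, IsPreconnected K' → x ∈ K' → y ∈ K' → ∀ S : ℝ, 4 * r ≤ S → K' ⊆ Metric.closedBall x S → ‖p0 - x‖ ≤ 3 * S

/-- `U` is a free channel: bounded, connected, off `K`, at distance `≥ r` from `K \ M` -/
def PvtcPlFree (K M U : Set ℂ) (r : ℝ) : Prop :=
  IsPreconnected U ∧ Bornology.IsBounded U ∧ Disjoint U K ∧ ∀ u ∈ U, ∀ q ∈ K \ M, r ≤ ‖u - q‖

theorem pvtc_pl_eqns_cite : True := by
  have := @PvtcPlPinch.eq_1
  have := @PvtcPlFree.eq_1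
  trivial

/-- two disjoint compact sets are at positive distance -/
theorem pvtc_pl_dist_pos {K W : Set ℂ} (hK : IsCompact K) (hW : IsCompact W) (hd : Disjoint W K) : ∃ η : ℝ, 0 < η ∧ ∀ p ∈ W, ∀ q ∈ K, η ≤ ‖p - q‖ := by
  rcases K.eq_empty_or_nonempty with rfl | hKne
  · exact ⟨1, one_pos, fun _ _ q hq => hq.elim⟩
  rcases W.eq_empty_or_nonempty with rfl | hWne
  · exact ⟨1, one_pos, fun p hp => hp.elim⟩
  obtain ⟨p, hpW, hmin⟩ := hW.exists_isMinOn hWne (Metric.continuous_infDist_pt K).continuousOn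
  refine ⟨Metric.infDist p K, (hK.isClosed.notMem_iff_infDist_pos hKne).1 (Set.disjoint_left.1 hd hpW), fun p' hp' q hq => ?_⟩
  rw [← dist_eq_norm]
  exact (hmin hp').trans (Metric.infDist_le_dist_of_mem hq)

/-- **R-G, ONE TIP** (compact form) -/
theorem pvtc_pl_one {K W M : Set ℂ} {c0 p0 p1 : ℂ} {ρ0 r : ℝ} (hr : 0 < r) (hρ0 : 0 ≤ ρ0)
    (hKc : IsPreconnected K) (hKk : IsCompact K) (hKb : K ⊆ Metric.closedBall c0 ρ0) (hWc : IsPreconnected W) (hWk : IsCompact W) (hd : Disjoint W K)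
    (hp0 : p0 ∈ W) (hp1 : p1 ∈ W) (hfar : 2 * (ρ0 + 3 * r) < ‖p1 - c0‖) :
    (∀ p2 : ℂ, 2 * (ρ0 + 3 * r) < ‖p2 - c0‖ → ∃ U : Set ℂ, PvtcPlFree K M U r ∧ p0 ∈ U ∧ p2 ∈ U) ∨ PvtcPlPinch K W M p0 r := by
  obtain ⟨η, hη, hWK⟩ := pvtc_pl_dist_pos hKk hWk hd
  rcases pvtc_pl_pinch (M := M) hr hη hρ0 hKc hKb hWc hWk.isBounded hWK hp0 hp1 hfar with h | h
  · left
    intro p2 hp2
    obtain ⟨U, h1, h2, h3, h4, h5, h6⟩ := h p2 hp2
    exact ⟨U, ⟨h1, h2, h5, h6⟩, h3, h4⟩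
  · exact Or.inr h

/-- **R-G, TWO TIPS**: the two tips `pt`, `ps` are joined by a free channel unless one of the two continuations `Wt`, `Ws` passes a pinch of `K` -/
theorem pvtc_pl_two {K Wt Ws M : Set ℂ} {c0 pt ps qt qs : ℂ} {ρ0 r : ℝ} (hr : 0 < r) (hρ0 : 0 ≤ ρ0)
    (hKc : IsPreconnected K) (hKk : IsCompact K) (hKb : K ⊆ Metric.closedBall c0 ρ0)
    (hWtc : IsPreconnected Wt) (hWtk : IsCompact Wt) (hdt : Disjoint Wt K) (hpt : pt ∈ Wt) (hqt : qt ∈ Wt) (hft : 2 * (ρ0 + 3 * r) < ‖qt - c0‖)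
    (hWsc : IsPreconnected Ws) (hWsk : IsCompact Ws) (hds : Disjoint Ws K) (hps : ps ∈ Ws) (hqs : qs ∈ Ws) (hfs : 2 * (ρ0 + 3 * r) < ‖qs - c0‖) :
    (∃ U : Set ℂ, PvtcPlFree K M U r ∧ pt ∈ U ∧ ps ∈ U) ∨ PvtcPlPinch K Wt M pt r ∨ PvtcPlPinch K Ws M ps r := by
  rcases pvtc_pl_one (M := M) hr hρ0 hKc hKk hKb hWtc hWtk hdt hpt hqt hft with h1 | h1
  · rcases pvtc_pl_one (M := M) hr hρ0 hKc hKk hKb hWsc hWsk hds hps hqs hfs with h2 | h2
    · left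
      obtain ⟨U1, ⟨a1, a2, a3, a4⟩, a5, a6⟩ := h1 qt hft
      obtain ⟨U2, ⟨b1, b2, b3, b4⟩, b5, b6⟩ := h2 qt hft
      refine ⟨U1 ∪ U2, ⟨a1.union qt a6 b6 b1, a2.union b2, Set.disjoint_union_left.2 ⟨a3, b3⟩, ?_⟩, Or.inl a5, Or.inr b5⟩
      rintro u (hu | hu) q hq
      · exact a4 u hu q hq
      · exact b4 u hu q hq
    · exact Or.inr (Or.inr h2)
  · exact Or.inr (Or.inl h1)

/-- **from a free channel to a chain of cells of mesh `δ`**: finite, `G4`-connected, contains every cell which meets `U`, off the cells... of `K`'s part outside the mouths by `j` cells as soon as `2 (j+1) δ < r` -/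
theorem pvtc_pl_cells {K M U : Set ℂ} {r δ : ℝ} {j : ℕ} (hδ : 0 < δ) (hj : 2 * ((j : ℝ) + 1) * δ < r) (hU : PvtcPlFree K M U r) :
    (pvtCells δ U).Finite ∧ TscConn pvtG4 (pvtCells δ U) ∧ pvtCells δ U ⊆ (pvtwN j (pvtCells δ (K \ M)))ᶜ := by
  obtain ⟨h1, h2, _, h4⟩ := hU
  refine ⟨pvt_cells_finite hδ h2, pvt_cells_conn4 hδ h1 h2, pvtw_cells_far hδ (fun q hq p hp => ?_)⟩
  have := h4 q hq p hp
  rw [norm_sub_rev] at this
  linarith

/-! ## §2 (PP) of `W2_211.md` v2: sup norm, arbitrary rectangles, sharp constants -/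

/-- the sup norm of `ℂ = ℝ²` -/
noncomputable def pvtcSup (p : ℂ) : ℝ := max |p.re| |p.im|

/-- the closed rectangle `[a,b] × [c,d]` -/
def pvtcRect (a b c d : ℝ) : Set ℂ := {p | a ≤ p.re ∧ p.re ≤ b ∧ c ≤ p.im ∧ p.im ≤ d}

theorem pvtc_pl_eqns_cite2 : True := by
  have := @pvtcSup.eq_1
  have := @pvtcRect.eq_1
  trivial

theorem pvtc_pl_sup_le_norm (p : ℂ) : pvtcSup p ≤ ‖p‖ := max_le (Complex.abs_re_le_norm p) (Complex.abs_im_le_norm p)

theorem pvtc_pl_norm_le_sup (p : ℂ) : ‖p‖ ≤ 2 * pvtcSup p := by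
  have h0 := Complex.norm_le_abs_re_add_abs_im p
  have h1 := le_max_left |p.re| |p.im|
  have h2 := le_max_right |p.re| |p.im|
  unfold pvtcSup
  linarith

theorem pvtc_pl_sup_le {p : ℂ} {t : ℝ} : pvtcSup p ≤ t ↔ |p.re| ≤ t ∧ |p.im| ≤ t := max_le_iff

theorem pvtc_pl_sup_comm (p q : ℂ) : pvtcSup (p - q) = pvtcSup (q - p) := by
  unfold pvtcSup
  rw [Complex.sub_re, Complex.sub_im, Complex.sub_re, Complex.sub_im, abs_sub_comm p.re, abs_sub_comm p.im]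

/-- a rectangle which contains the sup ball `B(x,t)` -/
theorem pvtc_pl_rect_ball {a b c d t : ℝ} {x : ℂ} (ht : 0 ≤ t) (h : ∀ p : ℂ, pvtcSup (p - x) ≤ t → p ∈ pvtcRect a b c d) :
    a + t ≤ x.re ∧ x.re + t ≤ b ∧ c + t ≤ x.im ∧ x.im + t ≤ d := by
  have h1 := h (x + (⟨-t, -t⟩ : ℂ)) (by
    rw [add_sub_cancel_left, pvtc_pl_sup_le]
    simp only [abs_neg, abs_of_nonneg ht, le_refl, and_self])
  have h2 := h (x + (⟨t, t⟩ : ℂ)) (by
    rw [add_sub_cancel_left, pvtc_pl_sup_le]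
    simp only [abs_of_nonneg ht, le_refl, and_self])
  obtain ⟨a1, _, a3, _⟩ := h1
  obtain ⟨_, b2, _, b4⟩ := h2
  simp only [Complex.add_re, Complex.add_im] at a1 a3 b2 b4
  exact ⟨by linarith, by linarith, by linarith, by linarith⟩

/-- coordinates of two squares at sup-distance `≤ j` -/
theorem pvtc_pl_sq_close_sup {δ : ℝ} (hδ : 0 < δ) {j : ℕ} {z w : ℤ × ℤ} {p q : ℂ} (h : w ∈ pvtwN j {z}) (hp : p ∈ pvtSq δ z) (hq : q ∈ pvtSq δ w) :
    pvtcSup (p - q) ≤ ((j : ℝ) + 1) * δ := by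
  obtain ⟨z', hz', h1, h2, h3, h4⟩ := h
  rw [Set.mem_singleton_iff] at hz'
  subst hz'
  obtain ⟨a1, a2, a3, a4⟩ := hp
  obtain ⟨b1, b2, b3, b4⟩ := hq
  have c1 : (w.1 : ℝ) ≤ z'.1 + j := by exact_mod_cast h1
  have c2 : (z'.1 : ℝ) ≤ w.1 + j := by exact_mod_cast h2
  have c3 : (w.2 : ℝ) ≤ z'.2 + j := by exact_mod_cast h3
  have c4 : (z'.2 : ℝ) ≤ w.2 + j := by exact_mod_cast h4
  have d1 := mul_le_mul_of_nonneg_right c1 hδ.le
  have d2 := mul_le_mul_of_nonneg_right c2 hδ.le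
  have d3 := mul_le_mul_of_nonneg_right c3 hδ.le
  have d4 := mul_le_mul_of_nonneg_right c4 hδ.le
  rw [pvtc_pl_sup_le, Complex.sub_re, Complex.sub_im]
  exact ⟨abs_le.2 ⟨by nlinarith, by nlinarith⟩, abs_le.2 ⟨by nlinarith, by nlinarith⟩⟩

/-- two squares at sup-distance `> k` are at sup distance `≥ k δ` -/
theorem pvtc_pl_sq_far_sup {δ : ℝ} (hδ : 0 < δ) {k : ℕ} {z w : ℤ × ℤ} {p q : ℂ} (h : w ∉ pvtwN k {z}) (hp : p ∈ pvtSq δ z) (hq : q ∈ pvtSq δ w) :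
    (k : ℝ) * δ ≤ pvtcSup (p - q) := by
  obtain ⟨h1, h2, h3, h4⟩ := hp
  obtain ⟨k1, k2, k3, k4⟩ := hq
  have h' : ¬ (w.1 ≤ z.1 + k ∧ z.1 ≤ w.1 + k ∧ w.2 ≤ z.2 + k ∧ z.2 ≤ w.2 + k) := fun hh => h ⟨z, rfl, hh⟩
  have hre : |p.re - q.re| ≤ pvtcSup (p - q) := by
    have := le_max_left |(p - q).re| |(p - q).im|
    rwa [Complex.sub_re] at this
  have him : |p.im - q.im| ≤ pvtcSup (p - q) := by
    have := le_max_right |(p - q).re| |(p - q).im|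
    rwa [Complex.sub_im] at this
  have cases4 : z.1 + k + 1 ≤ w.1 ∨ w.1 + k + 1 ≤ z.1 ∨ z.2 + k + 1 ≤ w.2 ∨ w.2 + k + 1 ≤ z.2 := by omega
  rcases cases4 with c | c | c | c
  · have c' : (z.1 : ℝ) + k + 1 ≤ (w.1 : ℝ) := by exact_mod_cast c
    have := mul_le_mul_of_nonneg_right c' hδ.le
    have := neg_abs_le (p.re - q.re)
    nlinarith
  · have c' : (w.1 : ℝ) + k + 1 ≤ (z.1 : ℝ) := by exact_mod_cast c
    have := mul_le_mul_of_nonneg_right c' hδ.le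
    have := le_abs_self (p.re - q.re)
    nlinarith
  · have c' : (z.2 : ℝ) + k + 1 ≤ (w.2 : ℝ) := by exact_mod_cast c
    have := mul_le_mul_of_nonneg_right c' hδ.le
    have := neg_abs_le (p.im - q.im)
    nlinarith
  · have c' : (w.2 : ℝ) + k + 1 ≤ (z.2 : ℝ) := by exact_mod_cast c
    have := mul_le_mul_of_nonneg_right c' hδ.le
    have := le_abs_self (p.im - q.im)
    nlinarith

/-- a cell enclosed by cells whose squares all meet the rectangle `[a,b] × [c,d]` (coordinatewise): its square lies in the rectangle enlarged by `δ` -/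
theorem pvtc_pl_box {δ : ℝ} (hδ : 0 < δ) {X : Set (ℤ × ℤ)} {a b c d : ℝ}
    (hX : ∀ e ∈ X, (e.1 : ℝ) * δ ≤ b ∧ a ≤ ((e.1 : ℝ) + 1) * δ ∧ (e.2 : ℝ) * δ ≤ d ∧ c ≤ ((e.2 : ℝ) + 1) * δ) {z : ℤ × ℤ} (hz : z ∉ pvtOut X)
    {p : ℂ} (hp : p ∈ pvtSq δ z) : p ∈ pvtcRect (a - δ) (b + δ) (c - δ) (d + δ) := by
  have hsub : X ⊆ tscBox (⌈a / δ⌉ - 1) ⌊b / δ⌋ (⌈c / δ⌉ - 1) ⌊d / δ⌋ := by
    intro e he
    obtain ⟨h1, h2, h3, h4⟩ := hX e he
    refine ⟨?_, ?_, ?_, ?_⟩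
    · have : ⌈a / δ⌉ ≤ e.1 + 1 := by
        rw [Int.ceil_le, div_le_iff₀ hδ]
        push_cast
        exact h2
      omega
    · rw [Int.le_floor, le_div_iff₀ hδ]
      exact h1
    · have : ⌈c / δ⌉ ≤ e.2 + 1 := by
        rw [Int.ceil_le, div_le_iff₀ hδ]
        push_cast
        exact h4
      omega
    · rw [Int.le_floor, le_div_iff₀ hδ]
      exact h3
  have hzb : z ∈ tscBox (⌈a / δ⌉ - 1) ⌊b / δ⌋ (⌈c / δ⌉ - 1) ⌊d / δ⌋ := by
    by_contra hc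
    exact hz (pvt_out_of_box hsub hc)
  obtain ⟨g1, g2, g3, g4⟩ := hzb
  obtain ⟨q1, q2, q3, q4⟩ := hp
  have f1 : a ≤ ((z.1 : ℝ) + 1) * δ := by
    have : ⌈a / δ⌉ ≤ z.1 + 1 := by omega
    rw [Int.ceil_le, div_le_iff₀ hδ] at this
    push_cast at this
    exact this
  have f2 : (z.1 : ℝ) * δ ≤ b := by
    rw [Int.le_floor, le_div_iff₀ hδ] at g2
    exact g2
  have f3 : c ≤ ((z.2 : ℝ) + 1) * δ := by
    have : ⌈c / δ⌉ ≤ z.2 + 1 := by omega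
    rw [Int.ceil_le, div_le_iff₀ hδ] at this
    push_cast at this
    exact this
  have f4 : (z.2 : ℝ) * δ ≤ d := by
    rw [Int.le_floor, le_div_iff₀ hδ] at g4
    exact g4
  exact ⟨by nlinarith, by nlinarith, by nlinarith, by nlinarith⟩

/-- coordinates of the cells of a square blob -/
theorem pvtc_pl_blob_coord {δ : ℝ} (hδ : 0 < δ) {k : ℕ} {e x : ℤ × ℤ} {q : ℂ} (h : e ∈ pvtwN k {x}) (hq : q ∈ pvtSq δ x) :
    (e.1 : ℝ) * δ ≤ q.re + k * δ ∧ q.re - k * δ ≤ ((e.1 : ℝ) + 1) * δ ∧ (e.2 : ℝ) * δ ≤ q.im + k * δ ∧ q.im - k * δ ≤ ((e.2 : ℝ) + 1) * δ := by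
  obtain ⟨x', hx', h1, h2, h3, h4⟩ := h
  rw [Set.mem_singleton_iff] at hx'
  subst hx'
  obtain ⟨a1, a2, a3, a4⟩ := hq
  have c1 : (e.1 : ℝ) ≤ x'.1 + k := by exact_mod_cast h1
  have c2 : (x'.1 : ℝ) ≤ e.1 + k := by exact_mod_cast h2
  have c3 : (e.2 : ℝ) ≤ x'.2 + k := by exact_mod_cast h3
  have c4 : (x'.2 : ℝ) ≤ e.2 + k := by exact_mod_cast h4
  have d1 := mul_le_mul_of_nonneg_right c1 hδ.le
  have d2 := mul_le_mul_of_nonneg_right c2 hδ.le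
  have d3 := mul_le_mul_of_nonneg_right c3 hδ.le
  have d4 := mul_le_mul_of_nonneg_right c4 hδ.le
  exact ⟨by nlinarith, by nlinarith, by nlinarith, by nlinarith⟩

/-- the PINCH, sup norm form: jaws `x, y ∈ K` (not both in the mouths `M`), `|x - y| ≤ 2 r + η`, the witness passes within `r + η` of a jaw, and every rectangle which contains a connected `K' ⊆ K` through `x`, `y`
and the two sup balls of radius `r + η` contains the tip `p0`, up to `η` -/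
def PvtcPP (K W M : Set ℂ) (p0 : ℂ) (r η : ℝ) : Prop :=
  ∃ x ∈ K, ∃ y ∈ K, ∃ w ∈ W, (x ∉ M ∨ y ∉ M) ∧ pvtcSup (x - y) ≤ 2 * r + η ∧ (pvtcSup (w - x) ≤ r + η ∨ pvtcSup (w - y) ≤ r + η) ∧
    ∀ K' ⊆ K, IsPreconnected K' → x ∈ K' → y ∈ K' → ∀ a b c d : ℝ, K' ⊆ pvtcRect a b c d → (∀ p : ℂ, pvtcSup (p - x) ≤ r + η → p ∈ pvtcRect a b c d) →
      (∀ p : ℂ, pvtcSup (p - y) ≤ r + η → p ∈ pvtcRect a b c d) → p0 ∈ pvtcRect (a - η) (b + η) (c - η) (d + η)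

/-- a free channel, sup norm form -/
def PvtcFree (K M U : Set ℂ) (r : ℝ) : Prop :=
  IsPreconnected U ∧ Bornology.IsBounded U ∧ Disjoint U K ∧ ∀ u ∈ U, ∀ q ∈ K \ M, r ≤ pvtcSup (u - q)

theorem pvtc_pl_eqns_cite3 : True := by
  have := @PvtcPP.eq_1
  have := @PvtcFree.eq_1
  trivial

/-- **(PP) THE PINCH IN THE PLANE**, sup norm, arbitrary rectangles, `η > 0` arbitrary -/
theorem pvtc_pl_pp {K W M : Set ℂ} {p0 p1 : ℂ} {a0 b0 c0 d0 r η η0 : ℝ} (hr : 0 < r) (hη : 0 < η) (hη0 : 0 < η0)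
    (hKc : IsPreconnected K) (hKb : K ⊆ pvtcRect a0 b0 c0 d0) (hWc : IsPreconnected W) (hWb : Bornology.IsBounded W)
    (hWK : ∀ p ∈ W, ∀ q ∈ K, η0 ≤ ‖p - q‖) (hp0 : p0 ∈ W) (hp1 : p1 ∈ W)
    (hfar : p1 ∉ pvtcRect (a0 - (r + η)) (b0 + (r + η)) (c0 - (r + η)) (d0 + (r + η))) :
    (∀ p2 : ℂ, p2 ∉ pvtcRect (a0 - (r + η)) (b0 + (r + η)) (c0 - (r + η)) (d0 + (r + η)) → ∃ U : Set ℂ, PvtcFree K M U r ∧ p0 ∈ U ∧ p2 ∈ U) ∨ PvtcPP K W M p0 r η := by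
  classical
  obtain ⟨δ, hδ, hδη0, hδη⟩ : ∃ δ : ℝ, 0 < δ ∧ 3 * δ ≤ η0 ∧ 4 * δ ≤ η := by
    refine ⟨min (η0 / 3) (η / 4), lt_min (by positivity) (by positivity), ?_, ?_⟩
    · have := min_le_left (η0 / 3) (η / 4); linarith
    · have := min_le_right (η0 / 3) (η / 4); linarith
  obtain ⟨k, hk1, hk2⟩ := pvtc_pl_ceil hδ hr.le
  have hKbd : Bornology.IsBounded K := by
    refine (Metric.isBounded_closedBall (x := (0 : ℂ)) (r := 2 * (|a0| + |b0| + |c0| + |d0|))).subset ?_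
    intro q hq
    obtain ⟨h1, h2, h3, h4⟩ := hKb hq
    rw [Metric.mem_closedBall, dist_zero_right]
    refine (Complex.norm_le_abs_re_add_abs_im q).trans ?_
    have e1 : |q.re| ≤ |a0| + |b0| := by
      rw [abs_le]
      exact ⟨by have := neg_abs_le a0; have := abs_nonneg b0; linarith, by have := le_abs_self b0; have := abs_nonneg a0; linarith⟩
    have e2 : |q.im| ≤ |c0| + |d0| := by
      rw [abs_le]
      exact ⟨by have := neg_abs_le c0; have := abs_nonneg d0; linarith, by have := le_abs_self d0; have := abs_nonneg c0; linarith⟩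
    have := abs_nonneg a0; have := abs_nonneg b0; have := abs_nonneg c0; have := abs_nonneg d0
    linarith
  set Kc := pvtCells δ K with hKcdef
  set Wc := pvtCells δ W with hWcdef
  have hKcf : Kc.Finite := pvt_cells_finite hδ hKbd
  have hKcc : TscConn tscG Kc := pvt_cells_conn hδ hKc hKbd
  have hWcc : TscConn tscG Wc := pvt_cells_conn hδ hWc hWb
  have hdisj : Disjoint Wc Kc := by
    rw [Set.disjoint_left]
    rintro e ⟨p, hpe, hpW⟩ ⟨q, hqe, hqK⟩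
    have h1 := pvt_sq_diam hpe hqe
    have h2 := hWK p hpW q hqK
    linarith
  set Bl : ℤ × ℤ → Set (ℤ × ℤ) := fun x => if (pvtSq δ x ∩ (K \ M)).Nonempty then pvtwN k {x} else {x} with hBl
  have hBlsub : ∀ x, Bl x ⊆ pvtwN k {x} := by
    intro x
    by_cases h : (pvtSq δ x ∩ (K \ M)).Nonempty
    · simp only [hBl, if_pos h]; exact subset_rfl
    · simp only [hBl, if_neg h]; exact pvtw_N_sub
  have hBlfin : ∀ x ∈ Kc, (Bl x).Finite := fun x _ => (pvtw_N_finite (Set.finite_singleton x)).subset (hBlsub x)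
  have hBlconn : ∀ x ∈ Kc, TscConn tscG (Bl x) := by
    intro x _
    by_cases h : (pvtSq δ x ∩ (K \ M)).Nonempty
    · simp only [hBl, if_pos h]; exact pvtw_N_conn (pvtc_sing_conn x)
    · simp only [hBl, if_neg h]; exact pvtc_sing_conn x
  have hBlc : ∀ x ∈ Kc, x ∈ Bl x := by
    intro x _
    by_cases h : (pvtSq δ x ∩ (K \ M)).Nonempty
    · simp only [hBl, if_pos h]; exact pvtw_N_sub rfl
    · simp only [hBl, if_neg h]; exact rfl
  set Un : Set (ℤ × ℤ) := ⋃ x ∈ Kc, Bl x with hUn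
  have hUnf : Un.Finite := hKcf.biUnion hBlfin
  have hfarout : ∀ p2 : ℂ, p2 ∉ pvtcRect (a0 - (r + η)) (b0 + (r + η)) (c0 - (r + η)) (d0 + (r + η)) → ∀ e, p2 ∈ pvtSq δ e → e ∈ pvtOut Un := by
    intro p2 hp2 e he
    by_contra hc
    apply hp2
    have hX : ∀ e ∈ Un, (e.1 : ℝ) * δ ≤ (b0 + (r + δ)) ∧ (a0 - (r + δ)) ≤ ((e.1 : ℝ) + 1) * δ ∧ (e.2 : ℝ) * δ ≤ (d0 + (r + δ)) ∧ (c0 - (r + δ)) ≤ ((e.2 : ℝ) + 1) * δ := by
      intro e he
      obtain ⟨x, hx, hex⟩ := Set.mem_iUnion₂.1 he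
      obtain ⟨q, hqx, hqK⟩ := hx
      obtain ⟨g1, g2, g3, g4⟩ := pvtc_pl_blob_coord hδ (hBlsub x hex) hqx
      obtain ⟨k1, k2, k3, k4⟩ := hKb hqK
      exact ⟨by linarith, by linarith, by linarith, by linarith⟩
    obtain ⟨g1, g2, g3, g4⟩ := pvtc_pl_box hδ hX hc he
    exact ⟨by linarith, by linarith, by linarith, by linarith⟩
  obtain ⟨z, hz⟩ := pvt_sq_cover hδ p0
  obtain ⟨w, hw⟩ := pvt_sq_cover hδ p1
  have hzW : z ∈ Wc := ⟨p0, hz, hp0⟩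
  have hwW : w ∈ Wc := ⟨p1, hw, hp1⟩
  have hwo : w ∈ pvtOut Un := hfarout p1 hfar w hw
  by_cases hzo : z ∈ pvtOut Un
  · left
    intro p2 hp2
    obtain ⟨e2, he2⟩ := pvt_sq_cover hδ p2
    obtain ⟨E, hEs, hEf, hEc, hzE, heE⟩ := pvtc_pl_fin_path hzo (pvt_out_conn hUnf z hzo e2 (hfarout p2 hp2 e2 he2))
    refine ⟨pvtU δ E, ⟨pvt_U_conn hδ (pvt_conn_tri8 hEc), (pvt_U_compact hEf).isBounded, ?_, ?_⟩, Set.mem_iUnion₂.2 ⟨z, hzE, hz⟩, Set.mem_iUnion₂.2 ⟨e2, heE, he2⟩⟩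
    · rw [Set.disjoint_left]
      intro u hu huK
      obtain ⟨e, heE', hue⟩ := Set.mem_iUnion₂.1 hu
      have heK : e ∈ Kc := ⟨u, hue, huK⟩
      exact pvt_out_sub (hEs heE') (Set.mem_iUnion₂.2 ⟨e, heK, hBlc e heK⟩)
    · intro u hu q hq
      obtain ⟨e, heE', hue⟩ := Set.mem_iUnion₂.1 hu
      obtain ⟨x, hqx⟩ := pvt_sq_cover hδ q
      have hxK : x ∈ Kc := ⟨q, hqx, hq.1⟩
      have hfat : Bl x = pvtwN k {x} := by
        simp only [hBl, if_pos (show (pvtSq δ x ∩ (K \ M)).Nonempty from ⟨q, hqx, hq⟩)]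
      have hne : e ∉ pvtwN k {x} := by
        intro h
        rw [← hfat] at h
        exact pvt_out_sub (hEs heE') (Set.mem_iUnion₂.2 ⟨x, hxK, h⟩)
      have := pvtc_pl_sq_far_sup hδ hne hqx hue
      rw [pvtc_pl_sup_comm] at this
      linarith
  · right
    obtain ⟨x, hx, y, hy, ht, ⟨w0, hw0W, hw0B⟩, hall⟩ := pvtc_pinch_wit Kc Wc Bl z w hKcf hKcc hBlfin hBlconn hBlc hWcc hdisj hzW hwW hwo hzo
    have hpt : ∀ x ∈ Kc, ∃ x' ∈ K, x' ∈ pvtSq δ x ∧ (x' ∈ M → Bl x = {x}) := by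
      intro x hx
      by_cases h : (pvtSq δ x ∩ (K \ M)).Nonempty
      · obtain ⟨q, hqx, hqK⟩ := h
        exact ⟨q, hqK.1, hqx, fun hM => (hqK.2 hM).elim⟩
      · obtain ⟨q, hqx, hqK⟩ := hx
        exact ⟨q, hqK, hqx, fun _ => by simp only [hBl, if_neg h]⟩
    obtain ⟨x', hx'K, hx'x, hx'M⟩ := hpt x hx
    obtain ⟨y', hy'K, hy'y, hy'M⟩ := hpt y hy
    obtain ⟨w', hw'0, hw'W⟩ := hw0W
    have hyx : y ∈ pvtwN (k + k + 1) {x} := by
      obtain ⟨u, hu, v, hv, huv⟩ := ht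
      exact pvtc_touch_N ⟨u, hBlsub x hu, v, hBlsub y hv, huv⟩
    refine ⟨x', hx'K, y', hy'K, w', hw'W, ?_, ?_, ?_, ?_⟩
    · by_contra hcon
      push Not at hcon
      have h1 := hall Kc subset_rfl hKcc hx hy
      rw [hx'M hcon.1, hy'M hcon.2] at h1
      apply h1
      have hsub : Kc ∪ {x} ∪ {y} ⊆ Un := by
        rintro a ((ha | ha) | ha)
        · exact Set.mem_iUnion₂.2 ⟨a, ha, hBlc a ha⟩
        · rw [Set.mem_singleton_iff] at ha; subst ha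
          exact Set.mem_iUnion₂.2 ⟨a, hx, hBlc a hx⟩
        · rw [Set.mem_singleton_iff] at ha; subst ha
          exact Set.mem_iUnion₂.2 ⟨a, hy, hBlc a hy⟩
      refine pvtc_out_of_wit hWcc ?_ hzW hwW (pvt_out_anti hsub hwo)
      rw [Set.disjoint_left]
      rintro a haW ((ha | ha) | ha)
      · exact Set.disjoint_left.1 hdisj haW ha
      · rw [Set.mem_singleton_iff] at ha; subst ha
        exact Set.disjoint_left.1 hdisj haW hx
      · rw [Set.mem_singleton_iff] at ha; subst ha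
        exact Set.disjoint_left.1 hdisj haW hy
    · have := pvtc_pl_sq_close_sup hδ hyx hx'x hy'y
      push_cast at this
      nlinarith
    · rcases hw0B with h | h
      · left
        have := pvtc_pl_sq_close_sup hδ (hBlsub x h) hx'x hw'0
        rw [pvtc_pl_sup_comm] at this
        nlinarith
      · right
        have := pvtc_pl_sq_close_sup hδ (hBlsub y h) hy'y hw'0
        rw [pvtc_pl_sup_comm] at this
        nlinarith
    · intro K' hK'K hK'c hxK' hyK' a b c d hK'Q hxQ hyQ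
      have hK'b : Bornology.IsBounded K' := hKbd.subset hK'K
      have h1 := hall (pvtCells δ K') (pvt_cells_mono hK'K) (pvt_cells_conn hδ hK'c hK'b) ⟨x', hx'x, hxK'⟩ ⟨y', hy'y, hyK'⟩
      obtain ⟨x1, x2, x3, x4⟩ := pvtc_pl_rect_ball (by positivity) hxQ
      obtain ⟨y1, y2, y3, y4⟩ := pvtc_pl_rect_ball (by positivity) hyQ
      have hX : ∀ e ∈ pvtCells δ K' ∪ Bl x ∪ Bl y, (e.1 : ℝ) * δ ≤ b ∧ a ≤ ((e.1 : ℝ) + 1) * δ ∧ (e.2 : ℝ) * δ ≤ d ∧ c ≤ ((e.2 : ℝ) + 1) * δ := by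
        rintro e ((⟨q, ⟨q1, q2, q3, q4⟩, hqK'⟩ | he) | he)
        · obtain ⟨k1, k2, k3, k4⟩ := hK'Q hqK'
          exact ⟨by linarith, by linarith, by linarith, by linarith⟩
        · obtain ⟨g1, g2, g3, g4⟩ := pvtc_pl_blob_coord hδ (hBlsub x he) hx'x
          exact ⟨by linarith, by linarith, by linarith, by linarith⟩
        · obtain ⟨g1, g2, g3, g4⟩ := pvtc_pl_blob_coord hδ (hBlsub y he) hy'y
          exact ⟨by linarith, by linarith, by linarith, by linarith⟩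
      obtain ⟨g1, g2, g3, g4⟩ := pvtc_pl_box hδ hX h1 hz
      exact ⟨by linarith, by linarith, by linarith, by linarith⟩

/-- **(PP), compact form** -/
theorem pvtc_pl_pp_compact {K W M : Set ℂ} {p0 p1 : ℂ} {a0 b0 c0 d0 r η : ℝ} (hr : 0 < r) (hη : 0 < η)
    (hKc : IsPreconnected K) (hKk : IsCompact K) (hKb : K ⊆ pvtcRect a0 b0 c0 d0) (hWc : IsPreconnected W) (hWk : IsCompact W) (hd : Disjoint W K)
    (hp0 : p0 ∈ W) (hp1 : p1 ∈ W) (hfar : p1 ∉ pvtcRect (a0 - (r + η)) (b0 + (r + η)) (c0 - (r + η)) (d0 + (r + η))) :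
    (∀ p2 : ℂ, p2 ∉ pvtcRect (a0 - (r + η)) (b0 + (r + η)) (c0 - (r + η)) (d0 + (r + η)) → ∃ U : Set ℂ, PvtcFree K M U r ∧ p0 ∈ U ∧ p2 ∈ U) ∨ PvtcPP K W M p0 r η := by
  obtain ⟨η0, hη0, hWK⟩ := pvtc_pl_dist_pos hKk hWk hd
  exact pvtc_pl_pp hr hη hη0 hKc hKb hWc hWk.isBounded hWK hp0 hp1 hfar

/-- **(PP), two tips**: the two fronts are joined by a free channel unless one of the two witnesses passes a pinch -/
theorem pvtc_pl_pp_two {K Wt Ws M : Set ℂ} {pt ps qt qs : ℂ} {a0 b0 c0 d0 r η : ℝ} (hr : 0 < r) (hη : 0 < η)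
    (hKc : IsPreconnected K) (hKk : IsCompact K) (hKb : K ⊆ pvtcRect a0 b0 c0 d0)
    (hWtc : IsPreconnected Wt) (hWtk : IsCompact Wt) (hdt : Disjoint Wt K) (hpt : pt ∈ Wt) (hqt : qt ∈ Wt)
    (hft : qt ∉ pvtcRect (a0 - (r + η)) (b0 + (r + η)) (c0 - (r + η)) (d0 + (r + η)))
    (hWsc : IsPreconnected Ws) (hWsk : IsCompact Ws) (hds : Disjoint Ws K) (hps : ps ∈ Ws) (hqs : qs ∈ Ws)
    (hfs : qs ∉ pvtcRect (a0 - (r + η)) (b0 + (r + η)) (c0 - (r + η)) (d0 + (r + η))) :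
    (∃ U : Set ℂ, PvtcFree K M U r ∧ pt ∈ U ∧ ps ∈ U) ∨ PvtcPP K Wt M pt r η ∨ PvtcPP K Ws M ps r η := by
  rcases pvtc_pl_pp_compact (M := M) hr hη hKc hKk hKb hWtc hWtk hdt hpt hqt hft with h1 | h1
  · rcases pvtc_pl_pp_compact (M := M) hr hη hKc hKk hKb hWsc hWsk hds hps hqs hfs with h2 | h2
    · left
      obtain ⟨U1, ⟨a1, a2, a3, a4⟩, a5, a6⟩ := h1 qt hft
      obtain ⟨U2, ⟨b1, b2, b3, b4⟩, b5, b6⟩ := h2 qt hft
      refine ⟨U1 ∪ U2, ⟨a1.union qt a6 b6 b1, a2.union b2, Set.disjoint_union_left.2 ⟨a3, b3⟩, ?_⟩, Or.inl a5, Or.inr b5⟩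
      rintro u (hu | hu) q hq
      · exact a4 u hu q hq
      · exact b4 u hu q hq
    · exact Or.inr (Or.inr h2)
  · exact Or.inr (Or.inl h1)

/-! ## §3 (COR), first half: from a free channel to the `(8,4)` outside of 20 on the grid of mesh `δ` -/

/-- the cells of mesh `δ` met by a free channel: finite, `G4`-connected, off the `j`-neighbourhood of the cells of `K \ M` as soon as `(j+1) δ < r` -/
theorem pvtc_pl_free_cells {K M U : Set ℂ} {r δ : ℝ} {j : ℕ} (hδ : 0 < δ) (hj : ((j : ℝ) + 1) * δ < r) (hU : PvtcFree K M U r) :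
    (pvtCells δ U).Finite ∧ TscConn pvtG4 (pvtCells δ U) ∧ pvtCells δ U ⊆ (pvtwN j (pvtCells δ (K \ M)))ᶜ := by
  obtain ⟨h1, h2, _, h4⟩ := hU
  refine ⟨pvt_cells_finite hδ h2, pvt_cells_conn4 hδ h1 h2, ?_⟩
  rintro e ⟨u, hue, huU⟩ he
  obtain ⟨x, ⟨q, hqx, hq⟩, hex⟩ := pvtw_N_iff.1 he
  have g1 := pvtc_pl_sq_close_sup hδ hex hqx hue
  have g2 := h4 u huU q hq
  rw [pvtc_pl_sup_comm] at g2
  linarith

theorem pvtc_pl_G4 {u v : ℤ × ℤ} (h : pvtG4.Adj u v) : pvtbG4.Adj u v := by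
  rw [pvtb_G4_adj]
  have h' : (v.1 = u.1 ∧ (v.2 = u.2 + 1 ∨ v.2 = u.2 - 1)) ∨ (v.2 = u.2 ∧ (v.1 = u.1 + 1 ∨ v.1 = u.1 - 1)) := h
  omega

/-- **(COR-1)** a cell of the front `p0` lies in the `(8,4)` outside `pvtbOut` of the fattened obstacle -/
theorem pvtc_pl_cor {K M U : Set ℂ} {r δ a0 b0 c0 d0 : ℝ} {j : ℕ} {p0 p2 : ℂ} (hδ : 0 < δ) (hj : ((j : ℝ) + 1) * δ < r) (hU : PvtcFree K M U r)
    (hp0 : p0 ∈ U) (hp2 : p2 ∈ U) (hKb : K \ M ⊆ pvtcRect a0 b0 c0 d0) (hfar : p2 ∉ pvtcRect (a0 - r) (b0 + r) (c0 - r) (d0 + r))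
    {e : ℤ × ℤ} (he : p0 ∈ pvtSq δ e) : e ∈ pvtbOut (pvtwN j (pvtCells δ (K \ M))) := by
  obtain ⟨_, hconn, hoff⟩ := pvtc_pl_free_cells hδ hj hU
  obtain ⟨e2, he2⟩ := pvt_sq_cover hδ p2
  have hR : TscR pvtbG4 (pvtwN j (pvtCells δ (K \ M)))ᶜ e2 e :=
    tsc_R_mono hoff (pvtb_R_le (fun _ _ => pvtc_pl_G4) (hconn e2 ⟨p2, he2, hp2⟩ e ⟨p0, he, hp0⟩))
  refine pvtb_out_R ?_ hR
  have hsub : pvtwN j (pvtCells δ (K \ M)) ⊆ tscBox (⌈(a0 - j * δ) / δ⌉ - 1) ⌊(b0 + j * δ) / δ⌋ (⌈(c0 - j * δ) / δ⌉ - 1) ⌊(d0 + j * δ) / δ⌋ := by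
    intro e' he'
    obtain ⟨x, ⟨q, hqx, hq⟩, hex⟩ := pvtw_N_iff.1 he'
    obtain ⟨g1, g2, g3, g4⟩ := pvtc_pl_blob_coord hδ hex hqx
    obtain ⟨k1, k2, k3, k4⟩ := hKb hq
    refine ⟨?_, ?_, ?_, ?_⟩
    · have : ⌈(a0 - j * δ) / δ⌉ ≤ e'.1 + 1 := by
        rw [Int.ceil_le, div_le_iff₀ hδ]
        push_cast
        linarith
      omega
    · rw [Int.le_floor, le_div_iff₀ hδ]
      linarith
    · have : ⌈(c0 - j * δ) / δ⌉ ≤ e'.2 + 1 := by
        rw [Int.ceil_le, div_le_iff₀ hδ]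
        push_cast
        linarith
      omega
    · rw [Int.le_floor, le_div_iff₀ hδ]
      linarith
  refine pvtb_out_of_box hsub ?_
  rintro ⟨g1, g2, g3, g4⟩
  apply hfar
  obtain ⟨q1, q2, q3, q4⟩ := he2
  have f1 : a0 - j * δ ≤ ((e2.1 : ℝ) + 1) * δ := by
    have : ⌈(a0 - j * δ) / δ⌉ ≤ e2.1 + 1 := by omega
    rw [Int.ceil_le, div_le_iff₀ hδ] at this
    push_cast at this
    exact this
  have f2 : (e2.1 : ℝ) * δ ≤ b0 + j * δ := by
    rw [Int.le_floor, le_div_iff₀ hδ] at g2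
    exact g2
  have f3 : c0 - j * δ ≤ ((e2.2 : ℝ) + 1) * δ := by
    have : ⌈(c0 - j * δ) / δ⌉ ≤ e2.2 + 1 := by omega
    rw [Int.ceil_le, div_le_iff₀ hδ] at this
    push_cast at this
    exact this
  have f4 : (e2.2 : ℝ) * δ ≤ d0 + j * δ := by
    rw [Int.le_floor, le_div_iff₀ hδ] at g4
    exact g4
  exact ⟨by nlinarith, by nlinarith, by nlinarith, by nlinarith⟩

/-- **FIT-E** (118) = (PP) + (COR-1): EITHER every cell of mesh `δ` which contains the front `p0` lies in `pvtbOut F0`, `F0` := the `j`-neighbourhood of the cells which meet `K \ M`, OR the witness passes a pinch of `K` -/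
theorem pvtc_pl_fit {K W M : Set ℂ} {p0 p1 : ℂ} {a0 b0 c0 d0 r η δ : ℝ} {j : ℕ} (hr : 0 < r) (hη : 0 < η) (hδ : 0 < δ) (hj : ((j : ℝ) + 1) * δ < r)
    (hKc : IsPreconnected K) (hKk : IsCompact K) (hKb : K ⊆ pvtcRect a0 b0 c0 d0) (hWc : IsPreconnected W) (hWk : IsCompact W) (hd : Disjoint W K)
    (hp0 : p0 ∈ W) (hp1 : p1 ∈ W) (hfar : p1 ∉ pvtcRect (a0 - (r + η)) (b0 + (r + η)) (c0 - (r + η)) (d0 + (r + η))) :
    (∀ e : ℤ × ℤ, p0 ∈ pvtSq δ e → e ∈ pvtbOut (pvtwN j (pvtCells δ (K \ M)))) ∨ PvtcPP K W M p0 r η := by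
  rcases pvtc_pl_pp_compact (M := M) hr hη hKc hKk hKb hWc hWk hd hp0 hp1 hfar with h | h
  · left
    intro e he
    obtain ⟨U, hU, h0, h1⟩ := h p1 hfar
    refine pvtc_pl_cor hδ hj hU h0 h1 (Set.sdiff_subset.trans hKb) ?_ he
    rintro ⟨g1, g2, g3, g4⟩
    exact hfar ⟨by linarith, by linarith, by linarith, by linarith⟩
  · exact Or.inr h

end Claimed.Agent.R289
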