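-- KEEP
import Claimed.Agent.R289.Tr.CorrPl
import Claimed.Agent.R289.Arm.Trap

/-!
# Row 289 (S0537, Cardy for Poisson-Voronoi), unit TR, R-G / TR19 FIT-DET sec.2, Tr/FitRef : FROM THE PINCH TO THREE DISTINCT EXCURSIONS OF ONE WALL      (owner helper151; RULING 9bis (d) of helper234; prefix `pvfr_`, defs `Pvfr…`)

INPUT  = `PvtcPlPinch K W M p0 r` of helper292 (`Tr/CorrPl`, grid free: the fine grid sits inside his proof, so no refinement lemma is needed);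
OUTPUT = the hypothesis of `pvat_cfg6_three` of helper75 (`Arm/Trap`): three runs with three DIFFERENT entrances  ⟹  CONFIG6.

* §1 TIMES (no geometry): `pvfr_last_exit` = last exit before a visit + first hit.
* §2 `T : PvMap V D`: `pvfr_run` (an exit of `B` before a visit of `A` gives a `PvatRun`), **`pvfr_runs`** (marked times `e0 < i < e1 < j < e2 < l`, less than one turn ⟹ three runs with different entrances), **`pvfr_cfg6`** (⟹ CONFIG6),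
     `pvfr_injOn` (no return to the first position before the time `N` ⟹ the positions `0..N-1` are different).
* §3 METRIC, MODEL FREE: `γ : ℕ → ℂ` = the positions of the wall at the integer times.   `PvfrThree γ y ρ σ lo hi` = three passages: times `lo ≤ e0 < i < e1 < j < e2 < l ≤ hi`, `γ i, γ j, γ l` within `ρ` of `y`, `γ e0, γ e1, γ e2` farther than `σ`.
     `pvfr_three_mono`, `pvfr_three_centre` (change of centre), **`pvfr_three_cfg6`** (`γ = φ ∘ pvasIt`, `c1.Left ⊇` the positions within `ρ`, `c0.Left ⊆` the positions within `σ`).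
* §4 THE CHAIN WITH MARKED TIMES: `PvfrChain γ K W μ L m P τ fat`: `K` = the union of the connected pieces `P 0, …, P m`, consecutive ones meet, `τ` monotone;   a THIN piece lies within `μ` of `γ (τ a)`;
     a FAT piece (a core) is farther than `L` from the witness `W` (RULING 9bis (b): the second actual gate).      `pvfr_chain_conn`, **`pvfr_marks`** (pinch ⟹ marked times).
* §5 **`pvfr_three_fwd`** (the witness = the continuation AFTER the tip `t`), **`pvfr_three_bwd`** (the witness = the continuation BEFORE the tip `s`).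
* §6 CYCLIC FORM: `PvfrRet3 γ y ρ σ n` = RET3 of helper118 (W1_118 Part V, D5); `pvfr_ret3_of_three`, `pvfr_three_of_ret3`, `pvfr_injOn_window`, **`pvfr_ret3_cfg6`** (= F8), `pvfr_ret3_metric_cfg6`.
* §7 ARCS: `PvfrArc γ K W μ L t t' u v` (a chain with times in `[t, t']` from `u` to `v`); `pvfr_arc_thin`, `pvfr_arc_fat` (one piece), **`pvfr_arc_trans`** (concatenation), `pvfr_arc_mono`, `pvfr_arc_conn`, `pvfr_arc_fwd`, `pvfr_arc_bwd`,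
     `pvfr_arc_closed` (one closed wall ⟹ RET3), **`pvfr_fit_det`** = FIT-DET MODEL FREE (on `pvtc_pl_two`): free channel between the two fronts OR RET3;
     **`pvfr_fit_lin`** = the same with LINEAR TIMES (no period, two one-ended witnesses: repair (T1) of the referee helper131): free channel OR `PvfrThree γ x (8 r + μ) (S - μ) lo hi`  (then `pvfr_three_cfg6` with `InjOn` on `[lo, hi]`).
-/

set_option autoImplicit false
set_option linter.unusedSectionVars false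
set_option linter.unusedVariables false
set_option linter.unusedSimpArgs false

namespace Claimed.Agent.R289

open Relation

/-! ## §1 times -/

/-- LAST EXIT, FIRST HIT: an exit of `B` at the time `e`, a visit of `A ⊆ B` at the time `i > e`: there is an entrance time `a` and a first hit `a + n ≤ i` -/
theorem pvfr_last_exit {InB InA : ℕ → Prop} {e i : ℕ} (hei : e < i) (he : ¬ InB e) (hi : InA i) (hAB : ∀ k, InA k → InB k) :
    ∃ a n, e ≤ a ∧ a + 1 + n ≤ i ∧ ¬ InB a ∧ InB (a + 1) ∧ (∀ k, k < n → InB (a + 1 + k) ∧ ¬ InA (a + 1 + k)) ∧ InA (a + 1 + n) := by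
  classical
  set g := Nat.findGreatest (fun k => ¬ InB k) i with hg
  have h1 : ¬ InB g := Nat.findGreatest_spec (P := fun k => ¬ InB k) hei.le he
  have h2 : e ≤ g := Nat.le_findGreatest (P := fun k => ¬ InB k) hei.le he
  have h3 : g ≤ i := Nat.findGreatest_le i
  have h4 : ∀ k, g < k → k ≤ i → InB k := fun k hk hki => not_not.1 (Nat.findGreatest_is_greatest (P := fun k => ¬ InB k) hk hki)
  have h5 : g < i := lt_of_le_of_ne h3 (fun h => h1 (h ▸ hAB i hi))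
  have hex : ∃ n, InA (g + 1 + n) := ⟨i - (g + 1), by rwa [Nat.add_sub_cancel' h5]⟩
  have h6 : Nat.find hex ≤ i - (g + 1) := Nat.find_min' hex (by rwa [Nat.add_sub_cancel' h5])
  refine ⟨g, Nat.find hex, h2, by omega, h1, h4 _ (Nat.lt_succ_self g) h5, fun k hk => ⟨h4 _ (by omega) (by omega), Nat.find_min hex hk⟩, Nat.find_spec hex⟩

/-! ## §2 runs of a strand -/

section runs

variable {V D : Type} {T : PvMap V D} {B A : Set D} {s : V → Bool} {d0 : D}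

/-- an exit of `B` before a visit of `A` gives a RUN; its entrance is the position number `a`, `e < a`, and it hits `A` not later than `i` -/
theorem pvfr_run (hB : T.FaceSet B) (hAB : A ⊆ B) (hbw : pvasBW T s d0) {e i : ℕ} (hei : e < i) (he : pvasIt T s d0 e ∉ B) (hi : pvasIt T s d0 i ∈ A) :
    ∃ a n, e < a ∧ a + n ≤ i ∧ PvatRun T B A s (pvasIt T s d0 a) n := by
  obtain ⟨a, n, h1, h2, h3, h4, h5, h6⟩ := pvfr_last_exit (InB := fun k => pvasIt T s d0 k ∈ B) (InA := fun k => pvasIt T s d0 k ∈ A) hei he hi (fun k hk => hAB hk)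
  refine ⟨a + 1, n, by omega, h2, ⟨h4, ?_, pvas_it_bw hbw _⟩, fun k hk => ?_, ?_⟩
  · rw [pvas_it_succ, pvas_step_opp_mem hB]
    exact h3
  · rw [← pvas_it_add]
    exact h5 k hk
  · rw [← pvas_it_add]
    exact h6

/-- **THREE RUNS**: marked times `e0 < i < e1 < j < e2 < l` on less than one turn of a wall: exits of `B` at `e0 e1 e2`, visits of `A` at `i j l` -/
theorem pvfr_runs (hB : T.FaceSet B) (hAB : A ⊆ B) (hbw : pvasBW T s d0) {e0 i e1 j e2 l : ℕ} (h0 : e0 < i) (h1 : i < e1) (h2 : e1 < j) (h3 : j < e2) (h4 : e2 < l)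
    (hinj : Set.InjOn (pvasIt T s d0) (Set.Icc e0 l))
    (he0 : pvasIt T s d0 e0 ∉ B) (he1 : pvasIt T s d0 e1 ∉ B) (he2 : pvasIt T s d0 e2 ∉ B)
    (hi : pvasIt T s d0 i ∈ A) (hj : pvasIt T s d0 j ∈ A) (hl : pvasIt T s d0 l ∈ A) :
    ∃ (x1 x2 x3 : D) (n1 n2 n3 : ℕ), PvatRun T B A s x1 n1 ∧ PvatRun T B A s x2 n2 ∧ PvatRun T B A s x3 n3 ∧ x1 ≠ x2 ∧ x1 ≠ x3 ∧ x2 ≠ x3 := by
  obtain ⟨a1, n1, p1, q1, r1⟩ := pvfr_run hB hAB hbw h0 he0 hi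
  obtain ⟨a2, n2, p2, q2, r2⟩ := pvfr_run hB hAB hbw h2 he1 hj
  obtain ⟨a3, n3, p3, q3, r3⟩ := pvfr_run hB hAB hbw h4 he2 hl
  refine ⟨_, _, _, n1, n2, n3, r1, r2, r3, fun e => ?_, fun e => ?_, fun e => ?_⟩
  · have := hinj ⟨by omega, by omega⟩ ⟨by omega, by omega⟩ e
    omega
  · have := hinj ⟨by omega, by omega⟩ ⟨by omega, by omega⟩ e
    omega
  · have := hinj ⟨by omega, by omega⟩ ⟨by omega, by omega⟩ e
    omega

/-- a wall which does not come back to its first position before the time `N` has different positions at the times `< N` -/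
theorem pvfr_injOn (hbw : pvasBW T s d0) {N : ℕ} (h : ∀ k, 0 < k → k < N → pvasIt T s d0 k ≠ d0) : Set.InjOn (pvasIt T s d0) (Set.Iio N) := by
  have key : ∀ a b, a < b → b < N → pvasIt T s d0 a ≠ pvasIt T s d0 b := fun a b hab hb e => h (b - a) (by omega) (by omega) (pvas_it_return hbw hab.le e)
  intro a ha b hb e
  rcases lt_trichotomy a b with hab | hab | hab
  · exact absurd e (key a b hab hb)
  · exact hab
  · exact absurd e.symm (key b a hab ha)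

/-- **THREE DISTINCT EXCURSIONS OF ONE WALL ⟹ CONFIG6** (marked times) -/
theorem pvfr_cfg6 (hT : T.IsSph) {c0 c1 c2 : T.Cyc} (hfin : c0.Left.Finite) (h12 : c1.Inside c2) (h20 : c2.Inside c0) (hbw : pvasBW T s d0)
    {e0 i e1 j e2 l : ℕ} (h0 : e0 < i) (h1 : i < e1) (h2 : e1 < j) (h3 : j < e2) (h4 : e2 < l) (hinj : Set.InjOn (pvasIt T s d0) (Set.Icc e0 l))
    (he0 : pvasIt T s d0 e0 ∉ c0.Left) (he1 : pvasIt T s d0 e1 ∉ c0.Left) (he2 : pvasIt T s d0 e2 ∉ c0.Left)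
    (hi : pvasIt T s d0 i ∈ c1.Left) (hj : pvasIt T s d0 j ∈ c1.Left) (hl : pvasIt T s d0 l ∈ c1.Left) :
    ∃ (x1 y2 y4 : D) (n1 m2 m4 : ℕ) (b : Bool), PvatCfg T c0 c1 c2 s x1 y2 y4 n1 m2 m4 ∧
      PvatArm T c0 c1 (pvatLay T s x1 n1 ∪ pvatLay T (pvasNot s) y2 m2 ∪ pvatLay T (pvasNot s) y4 m4) b s := by
  have hc : c1.Inside c0 := pvat_inside_trans hT h12 h20
  obtain ⟨x1, x2, x3, n1, n2, n3, r1, r2, r3, d12, d13, d23⟩ := pvfr_runs (pl_left_face c0) hc.2 hbw h0 h1 h2 h3 h4 hinj he0 he1 he2 hi hj hl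
  obtain ⟨y2, y4, m2, m4, b, h⟩ := pvat_cfg6_three hT hfin h12 h20 r1 r2 r3 d12 d13 d23
  exact ⟨x1, y2, y4, n1, m2, m4, b, h⟩

end runs

/-! ## §3 three passages, metric form -/

/-- **THREE PASSAGES** of the wall `γ` (positions at the integer times) through `closedBall y ρ`, separated by exits from `closedBall y σ`, between the times `lo` and `hi` -/
def PvfrThree (γ : ℕ → ℂ) (y : ℂ) (ρ σ : ℝ) (lo hi : ℕ) : Prop :=
  ∃ e0 i e1 j e2 l : ℕ, lo ≤ e0 ∧ e0 < i ∧ i < e1 ∧ e1 < j ∧ j < e2 ∧ e2 < l ∧ l ≤ hi ∧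
    ‖γ i - y‖ ≤ ρ ∧ ‖γ j - y‖ ≤ ρ ∧ ‖γ l - y‖ ≤ ρ ∧ σ < ‖γ e0 - y‖ ∧ σ < ‖γ e1 - y‖ ∧ σ < ‖γ e2 - y‖

/-- **RET3**: three visits of one closed wall of period `n`: `t1 < u1 < t2 < u2 < t3 < u3 < t1 + n`, visits within `ρ` of `y`, exits at distance `≥ σ` -/
def PvfrRet3 (γ : ℕ → ℂ) (y : ℂ) (ρ σ : ℝ) (n : ℕ) : Prop :=
  ∃ t1 u1 t2 u2 t3 u3 : ℕ, t1 < u1 ∧ u1 < t2 ∧ t2 < u2 ∧ u2 < t3 ∧ t3 < u3 ∧ u3 < t1 + n ∧
    ‖γ t1 - y‖ ≤ ρ ∧ ‖γ t2 - y‖ ≤ ρ ∧ ‖γ t3 - y‖ ≤ ρ ∧ σ ≤ ‖γ u1 - y‖ ∧ σ ≤ ‖γ u2 - y‖ ∧ σ ≤ ‖γ u3 - y‖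

/-- **THE CHAIN WITH MARKED TIMES**: the obstacle `K` is the union of the connected pieces `P 0, …, P m`, consecutive pieces meet, the piece `P a` is attached to the time `τ a` of the wall `γ`, `τ` is monotone;
a THIN piece lies within `μ` of `γ (τ a)`; a FAT piece (`a ∈ fat`: a core) has a point within `μ` of `γ (τ a)` and is farther than `L` from the witness `W` -/
structure PvfrChain (γ : ℕ → ℂ) (K W : Set ℂ) (μ L : ℝ) (m : ℕ) (P : ℕ → Set ℂ) (τ : ℕ → ℕ) (fat : Set ℕ) : Prop where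
  conn : ∀ a, a ≤ m → IsPreconnected (P a)
  link : ∀ a, a < m → (P a ∩ P (a + 1)).Nonempty
  cover : ∀ p, p ∈ K ↔ ∃ a, a ≤ m ∧ p ∈ P a
  mono : ∀ a b, a ≤ b → b ≤ m → τ a ≤ τ b
  near : ∀ a, a ≤ m → ∃ p ∈ P a, ‖p - γ (τ a)‖ ≤ μ
  thin : ∀ a, a ≤ m → a ∉ fat → ∀ p ∈ P a, ‖p - γ (τ a)‖ ≤ μ
  far : ∀ a, a ≤ m → a ∈ fat → ∀ p ∈ P a, ∀ w ∈ W, L < ‖w - p‖

theorem pvfr_eqns_cite : True := by
  have := @PvfrThree.eq_1
  have := @PvfrRet3.eq_1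
  trivial

theorem pvfr_tri (a b c : ℂ) : ‖a - c‖ ≤ ‖a - b‖ + ‖b - c‖ := norm_sub_le_norm_sub_add_norm_sub a b c

section three

variable {γ : ℕ → ℂ} {x y : ℂ} {ρ σ ρ' σ' κ : ℝ} {lo hi lo' hi' : ℕ}

theorem pvfr_three_mono (h : PvfrThree γ y ρ σ lo hi) (hρ : ρ ≤ ρ') (hσ : σ' ≤ σ) (hlo : lo' ≤ lo) (hhi : hi ≤ hi') : PvfrThree γ y ρ' σ' lo' hi' := by
  obtain ⟨e0, i, e1, j, e2, l, a0, a1, a2, a3, a4, a5, a6, b1, b2, b3, c1, c2, c3⟩ := h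
  exact ⟨e0, i, e1, j, e2, l, hlo.trans a0, a1, a2, a3, a4, a5, a6.trans hhi, b1.trans hρ, b2.trans hρ, b3.trans hρ, lt_of_le_of_lt hσ c1, lt_of_le_of_lt hσ c2, lt_of_le_of_lt hσ c3⟩

/-- CHANGE OF CENTRE -/
theorem pvfr_three_centre (h : PvfrThree γ x ρ σ lo hi) (hy : ‖y - x‖ ≤ κ) : PvfrThree γ y (ρ + κ) (σ - κ) lo hi := by
  obtain ⟨e0, i, e1, j, e2, l, a0, a1, a2, a3, a4, a5, a6, b1, b2, b3, c1, c2, c3⟩ := h
  have t1 : ∀ a : ℂ, ‖a - y‖ ≤ ‖a - x‖ + κ := fun a => by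
    have := pvfr_tri a x y
    rw [norm_sub_rev x y] at this
    linarith
  have t2 : ∀ a : ℂ, ‖a - x‖ ≤ ‖a - y‖ + κ := fun a => by
    have := pvfr_tri a y x
    linarith
  refine ⟨e0, i, e1, j, e2, l, a0, a1, a2, a3, a4, a5, a6, ?_, ?_, ?_, ?_, ?_, ?_⟩
  · linarith [t1 (γ i)]
  · linarith [t1 (γ j)]
  · linarith [t1 (γ l)]
  · linarith [t2 (γ e0)]
  · linarith [t2 (γ e1)]
  · linarith [t2 (γ e2)]

/-- **THREE PASSAGES ⟹ CONFIG6**: `φ` = the place of a position; the small disc `c1.Left` contains the positions of the wall within `ρ` of `y`, the positions of the wall in the big disc `c0.Left` are within `σ` of `y` -/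
theorem pvfr_three_cfg6 {V D : Type} {T : PvMap V D} {s : V → Bool} {d0 : D} (hT : T.IsSph) {c0 c1 c2 : T.Cyc} (hfin : c0.Left.Finite) (h12 : c1.Inside c2) (h20 : c2.Inside c0)
    (hbw : pvasBW T s d0) {φ : D → ℂ} (hinj : Set.InjOn (pvasIt T s d0) (Set.Icc lo hi))
    (hin : ∀ k, lo ≤ k → k ≤ hi → ‖φ (pvasIt T s d0 k) - y‖ ≤ ρ → pvasIt T s d0 k ∈ c1.Left)
    (hout : ∀ k, lo ≤ k → k ≤ hi → pvasIt T s d0 k ∈ c0.Left → ‖φ (pvasIt T s d0 k) - y‖ ≤ σ)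
    (h : PvfrThree (fun k => φ (pvasIt T s d0 k)) y ρ σ lo hi) :
    ∃ (x1 y2 y4 : D) (n1 m2 m4 : ℕ) (b : Bool), PvatCfg T c0 c1 c2 s x1 y2 y4 n1 m2 m4 ∧
      PvatArm T c0 c1 (pvatLay T s x1 n1 ∪ pvatLay T (pvasNot s) y2 m2 ∪ pvatLay T (pvasNot s) y4 m4) b s := by
  obtain ⟨e0, i, e1, j, e2, l, a0, a1, a2, a3, a4, a5, a6, b1, b2, b3, c1', c2', c3'⟩ := h
  refine pvfr_cfg6 hT hfin h12 h20 hbw a1 a2 a3 a4 a5 (hinj.mono (Set.Icc_subset_Icc a0 a6)) ?_ ?_ ?_ ?_ ?_ ?_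
  · exact fun hm => absurd (hout e0 a0 (by omega) hm) (not_le.2 c1')
  · exact fun hm => absurd (hout e1 (by omega) (by omega) hm) (not_le.2 c2')
  · exact fun hm => absurd (hout e2 (by omega) (by omega) hm) (not_le.2 c3')
  · exact hin i (by omega) (by omega) b1
  · exact hin j (by omega) (by omega) b2
  · exact hin l (by omega) a6 b3

end three

/-! ## §4 the chain with marked times -/

section chain

variable {γ : ℕ → ℂ} {K W W' M : Set ℂ} {p0 : ℂ} {r μ L L' S : ℝ} {m : ℕ} {P : ℕ → Set ℂ} {τ : ℕ → ℕ} {fat : Set ℕ} {TW : Set ℕ}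

theorem PvfrChain.mono_W (hc : PvfrChain γ K W μ L m P τ fat) (hW : W' ⊆ W) (hL : L' ≤ L) : PvfrChain γ K W' μ L' m P τ fat :=
  ⟨hc.conn, hc.link, hc.cover, hc.mono, hc.near, hc.thin, fun a ha hf p hp w hw => lt_of_le_of_lt hL (hc.far a ha hf p hp w (hW hw))⟩

/-- a stretch of the chain is connected -/
theorem pvfr_chain_conn (hc : PvfrChain γ K W μ L m P τ fat) {a b : ℕ} (hb : b ≤ m) : IsPreconnected (⋃ c ∈ Set.Icc a b, P c) := by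
  refine IsPreconnected.biUnion_of_chain Set.ordConnected_Icc (fun c hc' => hc.conn c (hc'.2.trans hb)) (fun c h1 h2 => ?_)
  have h3 : c + 1 ≤ b := h2.2
  exact hc.link c (by omega)

theorem pvfr_chain_sub (hc : PvfrChain γ K W μ L m P τ fat) {a b : ℕ} (hb : b ≤ m) : (⋃ c ∈ Set.Icc a b, P c) ⊆ K := by
  intro p hp
  simp only [Set.mem_iUnion, exists_prop] at hp
  obtain ⟨c, hc', hpc⟩ := hp
  exact (hc.cover p).2 ⟨c, hc'.2.trans hb, hpc⟩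

/-- **FROM THE PINCH TO MARKED TIMES**: two visits `τ a ≤ τ b` of the obstacle part of the wall, an exit `τ c` between them, a visit `l` of the witness part.
A point of the witness is within `μ` of the wall at a time of `TW`, OR farther than `13 r` from `K \ M` (the added segments at the mouths: they need no time) -/
theorem pvfr_marks (hc : PvfrChain γ K W μ (S + 8 * r) m P τ fat) (hr : 0 < r) (hS : 4 * r ≤ S)
    (hW : ∀ w ∈ W, (∃ k ∈ TW, ‖w - γ k‖ ≤ μ) ∨ ∀ q ∈ K \ M, 13 * r < ‖w - q‖) (hM : ∀ q ∈ K \ M, 3 * S + 5 * r < ‖p0 - q‖) (hp : PvtcPlPinch K W M p0 r) :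
    ∃ x ∈ K, ∃ a c b : ℕ, ∃ l ∈ TW, a ≤ c ∧ c ≤ b ∧ b ≤ m ∧ ‖γ (τ a) - x‖ ≤ 5 * r + μ ∧ ‖γ (τ b) - x‖ ≤ 5 * r + μ ∧ ‖γ l - x‖ ≤ 8 * r + μ ∧
      S - μ < ‖γ (τ c) - x‖ ∧ 3 * S < ‖p0 - x‖ ∧ ∃ q ∈ K \ M, ‖x - q‖ ≤ 5 * r := by
  obtain ⟨x, hx, y, hy, w, hw, hxy, hd, hwd, hall⟩ := hp
  have hwx : ‖w - x‖ ≤ 8 * r := by
    rcases hwd with h | h
    · linarith
    · have := pvfr_tri w y x
      rw [norm_sub_rev y x] at this
      linarith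
  have hwy : ‖w - y‖ ≤ 8 * r := by
    rcases hwd with h | h
    · have := pvfr_tri w x y
      linarith
    · linarith
  obtain ⟨q, hq, hxq⟩ : ∃ q ∈ K \ M, ‖x - q‖ ≤ 5 * r := by
    rcases hxy with h | h
    · exact ⟨x, ⟨hx, h⟩, by rw [sub_self, norm_zero]; positivity⟩
    · exact ⟨y, ⟨hy, h⟩, hd⟩
  have hp0 : 3 * S < ‖p0 - x‖ := by
    have h1 := hM q hq
    have h2 := pvfr_tri p0 x q
    linarith
  obtain ⟨a', ha', hxa⟩ := (hc.cover x).1 hx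
  obtain ⟨b', hb', hyb⟩ := (hc.cover y).1 hy
  have ta : a' ∉ fat := fun h => by
    have := hc.far a' ha' h x hxa w hw
    linarith
  have tb : b' ∉ fat := fun h => by
    have := hc.far b' hb' h y hyb w hw
    linarith
  have na : ‖x - γ (τ a')‖ ≤ μ := hc.thin a' ha' ta x hxa
  have nb : ‖y - γ (τ b')‖ ≤ μ := hc.thin b' hb' tb y hyb
  have na' : ‖γ (τ a') - x‖ ≤ 5 * r + μ := by
    rw [norm_sub_rev]
    linarith
  have nb' : ‖γ (τ b') - x‖ ≤ 5 * r + μ := by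
    have := pvfr_tri (γ (τ b')) y x
    rw [norm_sub_rev (γ (τ b')) y, norm_sub_rev y x] at this
    linarith
  obtain ⟨l, hl, hwl⟩ : ∃ k ∈ TW, ‖w - γ k‖ ≤ μ := by
    rcases hW w hw with h | h
    · exact h
    · exfalso
      have h1 := h q hq
      have h2 := pvfr_tri w x q
      linarith
  have nl : ‖γ l - x‖ ≤ 8 * r + μ := by
    have := pvfr_tri (γ l) w x
    rw [norm_sub_rev (γ l) w] at this
    linarith
  have key : ∀ a b, a ≤ b → b ≤ m → x ∈ (⋃ c ∈ Set.Icc a b, P c) → y ∈ (⋃ c ∈ Set.Icc a b, P c) → ∃ c, a ≤ c ∧ c ≤ b ∧ S - μ < ‖γ (τ c) - x‖ := by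
    intro a b hab hb hxK hyK
    by_contra hcon
    push Not at hcon
    have hsub : (⋃ c ∈ Set.Icc a b, P c) ⊆ Metric.closedBall x S := by
      intro p hp
      simp only [Set.mem_iUnion, exists_prop] at hp
      obtain ⟨c, hc', hpc⟩ := hp
      have h1 := hcon c hc'.1 hc'.2
      rw [Metric.mem_closedBall, dist_eq_norm]
      by_cases hf : c ∈ fat
      · exfalso
        obtain ⟨p', hp', hn⟩ := hc.near c (hc'.2.trans hb)
        have h2 := hc.far c (hc'.2.trans hb) hf p' hp' w hw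
        have h3 := pvfr_tri w x p'
        have h4 := pvfr_tri x (γ (τ c)) p'
        rw [norm_sub_rev x (γ (τ c)), norm_sub_rev (γ (τ c)) p'] at h4
        linarith
      · have h2 := hc.thin c (hc'.2.trans hb) hf p hpc
        have h3 := pvfr_tri p (γ (τ c)) x
        linarith
    have := hall _ (pvfr_chain_sub hc hb) (pvfr_chain_conn hc hb) hxK hyK S hS hsub
    linarith
  have hmem : ∀ {a b c : ℕ} {p : ℂ}, a ≤ c → c ≤ b → p ∈ P c → p ∈ (⋃ c ∈ Set.Icc a b, P c) := fun h1 h2 h3 => Set.mem_biUnion (⟨h1, h2⟩ : _ ∈ Set.Icc _ _) h3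
  rcases le_total a' b' with hab | hab
  · obtain ⟨c, h1, h2, h3⟩ := key a' b' hab hb' (hmem le_rfl hab hxa) (hmem hab le_rfl hyb)
    exact ⟨x, hx, a', c, b', l, hl, h1, h2, hb', na', nb', nl, h3, hp0, q, hq, hxq⟩
  · obtain ⟨c, h1, h2, h3⟩ := key b' a' hab ha' (hmem hab le_rfl hxa) (hmem le_rfl hab hyb)
    exact ⟨x, hx, b', c, a', l, hl, h1, h2, ha', nb', na', nl, h3, hp0, q, hq, hxq⟩

end chain

/-! ## §5 the two witnesses -/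

section wit

variable {γ : ℕ → ℂ} {K W Wt Ws M : Set ℂ} {pt ps p0 : ℂ} {r μ S : ℝ} {m : ℕ} {P : ℕ → Set ℂ} {τ : ℕ → ℕ} {fat : Set ℕ} {lo ts tt hi : ℕ}

/-- **FORWARD WITNESS**: the obstacle = the times `ts..tt` of the wall (tips `ps ≈ γ ts`, `pt ≈ γ tt`), the witness = the continuation after the tip `pt` (times `tt..hi`) -/
theorem pvfr_three_fwd (hc : PvfrChain γ K W μ (S + 8 * r) m P τ fat) (hr : 0 < r) (hμ : 0 ≤ μ) (hS : 8 * r + 2 * μ ≤ S)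
    (hτ : ∀ a, a ≤ m → ts ≤ τ a ∧ τ a ≤ tt) (hW : ∀ w ∈ W, (∃ k, (tt ≤ k ∧ k ≤ hi) ∧ ‖w - γ k‖ ≤ μ) ∨ ∀ q ∈ K \ M, 13 * r < ‖w - q‖)
    (hpt : ‖γ tt - pt‖ ≤ μ) (hps : ‖γ ts - ps‖ ≤ μ)
    (hMt : ∀ q ∈ K \ M, S + 5 * r < ‖pt - q‖) (hMs : ∀ q ∈ K \ M, S + 5 * r < ‖ps - q‖)
    (hM0 : ∀ q ∈ K \ M, 3 * S + 5 * r < ‖p0 - q‖) (hp : PvtcPlPinch K W M p0 r) :
    ∃ x ∈ K, PvfrThree γ x (8 * r + μ) (S - μ) ts hi := by
  obtain ⟨x, hx, a, c, b, l, hl, hac, hcb, hb, na, nb, nl, nc, hp0, q, hq, hxq⟩ :=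
    pvfr_marks (TW := {k | tt ≤ k ∧ k ≤ hi}) hc hr (by linarith) hW hM0 hp
  have f0 : S - μ < ‖γ ts - x‖ := by
    have h1 := hMs q hq
    have h2 := pvfr_tri ps x q
    have h3 := pvfr_tri ps (γ ts) x
    rw [norm_sub_rev ps (γ ts)] at h3
    linarith
  have f2 : S - μ < ‖γ tt - x‖ := by
    have h1 := hMt q hq
    have h2 := pvfr_tri pt x q
    have h3 := pvfr_tri pt (γ tt) x
    rw [norm_sub_rev pt (γ tt)] at h3
    linarith
  have hne : ∀ {u v : ℕ}, ‖γ u - x‖ ≤ 8 * r + μ → S - μ < ‖γ v - x‖ → u ≠ v := by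
    rintro u v h1 h2 rfl
    linarith
  have o0 : ts < τ a := lt_of_le_of_ne (hτ a (by omega)).1 (hne (by linarith) f0).symm
  have o1 : τ a < τ c := lt_of_le_of_ne (hc.mono a c hac (by omega)) (hne (by linarith) nc)
  have o2 : τ c < τ b := lt_of_le_of_ne (hc.mono c b hcb hb) (hne (by linarith) nc).symm
  have o3 : τ b < tt := lt_of_le_of_ne (hτ b hb).2 (hne (by linarith) f2)
  have o4 : tt < l := lt_of_le_of_ne hl.1 (hne nl f2).symm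
  exact ⟨x, hx, ts, τ a, τ c, τ b, tt, l, le_rfl, o0, o1, o2, o3, o4, hl.2, by linarith, by linarith, nl, f0, nc, f2⟩

/-- **BACKWARD WITNESS**: the witness = the piece of the wall before the tip `ps` (times `lo..ts`), its far end `γ lo` is farther than `S` from the obstacle -/
theorem pvfr_three_bwd (hc : PvfrChain γ K W μ (S + 8 * r) m P τ fat) (hr : 0 < r) (hμ : 0 ≤ μ) (hS : 8 * r + 2 * μ ≤ S)
    (hτ : ∀ a, a ≤ m → ts ≤ τ a ∧ τ a ≤ hi) (hW : ∀ w ∈ W, (∃ k, (lo ≤ k ∧ k ≤ ts) ∧ ‖w - γ k‖ ≤ μ) ∨ ∀ q ∈ K \ M, 13 * r < ‖w - q‖)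
    (hps : ‖γ ts - ps‖ ≤ μ) (hlo : ∀ q ∈ K, S < ‖γ lo - q‖)
    (hMs : ∀ q ∈ K \ M, S + 5 * r < ‖ps - q‖) (hM0 : ∀ q ∈ K \ M, 3 * S + 5 * r < ‖p0 - q‖) (hp : PvtcPlPinch K W M p0 r) :
    ∃ x ∈ K, PvfrThree γ x (8 * r + μ) (S - μ) lo hi := by
  obtain ⟨x, hx, a, c, b, l, hl, hac, hcb, hb, na, nb, nl, nc, hp0, q, hq, hxq⟩ :=
    pvfr_marks (TW := {k | lo ≤ k ∧ k ≤ ts}) hc hr (by linarith) hW hM0 hp
  have f0 : S - μ < ‖γ lo - x‖ := by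
    have := hlo x hx
    linarith
  have f1 : S - μ < ‖γ ts - x‖ := by
    have h1 := hMs q hq
    have h2 := pvfr_tri ps x q
    have h3 := pvfr_tri ps (γ ts) x
    rw [norm_sub_rev ps (γ ts)] at h3
    linarith
  have hne : ∀ {u v : ℕ}, ‖γ u - x‖ ≤ 8 * r + μ → S - μ < ‖γ v - x‖ → u ≠ v := by
    rintro u v h1 h2 rfl
    linarith
  have o0 : lo < l := lt_of_le_of_ne hl.1 (hne nl f0).symm
  have o1 : l < ts := lt_of_le_of_ne hl.2 (hne nl f1)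
  have o2 : ts < τ a := lt_of_le_of_ne (hτ a (by omega)).1 (hne (by linarith) f1).symm
  have o3 : τ a < τ c := lt_of_le_of_ne (hc.mono a c hac (by omega)) (hne (by linarith) nc)
  have o4 : τ c < τ b := lt_of_le_of_ne (hc.mono c b hcb hb) (hne (by linarith) nc).symm
  exact ⟨x, hx, lo, l, ts, τ a, τ c, τ b, le_rfl, o0, o1, o2, o3, o4, (hτ b hb).2, nl, by linarith, by linarith, f0, f1, nc⟩

/-- **ONE CLOSED WALL** (V.5 of W1_118): the obstacle = the times `ts..tt`, the witness = the times `tt..ts+n` (+ pieces far from `K \ M`), `γ (ts + n) = γ ts`; `p0` = a front -/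
theorem pvfr_ret3_closed {n : ℕ} (hc : PvfrChain γ K W μ (S + 8 * r) m P τ fat) (hr : 0 < r) (hμ : 0 ≤ μ) (hS : 8 * r + 2 * μ ≤ S)
    (hτ : ∀ a, a ≤ m → ts ≤ τ a ∧ τ a ≤ tt) (hper : γ (ts + n) = γ ts)
    (hW : ∀ w ∈ W, (∃ k, (tt ≤ k ∧ k ≤ ts + n) ∧ ‖w - γ k‖ ≤ μ) ∨ ∀ q ∈ K \ M, 13 * r < ‖w - q‖)
    (hpt : ‖γ tt - pt‖ ≤ μ) (hps : ‖γ ts - ps‖ ≤ μ) (hMt : ∀ q ∈ K \ M, S + 5 * r < ‖pt - q‖) (hMs : ∀ q ∈ K \ M, S + 5 * r < ‖ps - q‖)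
    (hM0 : ∀ q ∈ K \ M, 3 * S + 5 * r < ‖p0 - q‖) (hp : PvtcPlPinch K W M p0 r) :
    ∃ x ∈ K, PvfrRet3 γ x (8 * r + μ) (S - μ) n := by
  obtain ⟨x, hx, a, c, b, l, hl, hac, hcb, hb, na, nb, nl, nc, hp0, q, hq, hxq⟩ :=
    pvfr_marks (TW := {k | tt ≤ k ∧ k ≤ ts + n}) hc hr (by linarith) hW hM0 hp
  have f0 : S - μ < ‖γ ts - x‖ := by
    have h1 := hMs q hq
    have h2 := pvfr_tri ps x q
    have h3 := pvfr_tri ps (γ ts) x
    rw [norm_sub_rev ps (γ ts)] at h3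
    linarith
  have f2 : S - μ < ‖γ tt - x‖ := by
    have h1 := hMt q hq
    have h2 := pvfr_tri pt x q
    have h3 := pvfr_tri pt (γ tt) x
    rw [norm_sub_rev pt (γ tt)] at h3
    linarith
  have f3 : S - μ < ‖γ (ts + n) - x‖ := by rw [hper]; exact f0
  have hne : ∀ {u v : ℕ}, ‖γ u - x‖ ≤ 8 * r + μ → S - μ < ‖γ v - x‖ → u ≠ v := by
    rintro u v h1 h2 rfl
    linarith
  have o0 : ts < τ a := lt_of_le_of_ne (hτ a (by omega)).1 (hne (by linarith) f0).symm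
  have o1 : τ a < τ c := lt_of_le_of_ne (hc.mono a c hac (by omega)) (hne (by linarith) nc)
  have o2 : τ c < τ b := lt_of_le_of_ne (hc.mono c b hcb hb) (hne (by linarith) nc).symm
  have o3 : τ b < tt := lt_of_le_of_ne (hτ b hb).2 (hne (by linarith) f2)
  have o4 : tt < l := lt_of_le_of_ne hl.1 (hne nl f2).symm
  have o5 : l < ts + n := lt_of_le_of_ne hl.2 (hne nl f3)
  exact ⟨x, hx, τ a, τ c, τ b, tt, l, ts + n, o1, o2, o3, o4, o5, by omega, by linarith, by linarith, nl, nc.le, f2.le, f3.le⟩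

end wit

/-! ## §6 the cyclic form (RET3 of helper118, W1_118 Part V, D5) -/

/-- an ARC of the obstacle: a chain with marked times in `[t, t']`, from the point `u` (in the first piece) to the point `v` (in the last piece) -/
def PvfrArc (γ : ℕ → ℂ) (K W : Set ℂ) (μ L : ℝ) (t t' : ℕ) (u v : ℂ) : Prop :=
  ∃ (m : ℕ) (P : ℕ → Set ℂ) (τ : ℕ → ℕ) (fat : Set ℕ), PvfrChain γ K W μ L m P τ fat ∧ (∀ a, a ≤ m → t ≤ τ a ∧ τ a ≤ t') ∧ u ∈ P 0 ∧ v ∈ P m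

theorem pvfr_eqns_cite2 : True := by
  have := @PvfrArc.eq_1
  trivial

section ret3

variable {γ : ℕ → ℂ} {y : ℂ} {ρ σ σ' : ℝ} {n lo hi : ℕ}

/-- three passages on less than one turn of a closed wall = RET3 -/
theorem pvfr_ret3_of_three (hper : ∀ k, γ (k + n) = γ k) (hlt : hi < lo + n) (h : PvfrThree γ y ρ σ lo hi) : PvfrRet3 γ y ρ σ n := by
  obtain ⟨e0, i, e1, j, e2, l, a0, a1, a2, a3, a4, a5, a6, b1, b2, b3, c1, c2, c3⟩ := h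
  exact ⟨i, e1, j, e2, l, e0 + n, a2, a3, a4, a5, by omega, by omega, b1, b2, b3, c2.le, c3.le, by rw [hper]; exact c1.le⟩

/-- RET3 = three passages on less than one turn -/
theorem pvfr_three_of_ret3 (hper : ∀ k, γ (k + n) = γ k) (hσ : σ' < σ) (h : PvfrRet3 γ y ρ σ n) : ∃ lo hi, hi < lo + n ∧ PvfrThree γ y ρ σ' lo hi := by
  obtain ⟨t1, u1, t2, u2, t3, u3, a1, a2, a3, a4, a5, a6, b1, b2, b3, c1, c2, c3⟩ := h
  exact ⟨u1, t1 + n, by omega, u1, t2, u2, t3, u3, t1 + n, le_rfl, a2, a3, a4, a5, a6, le_rfl, b2, b3, by rw [hper]; exact b1,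
    lt_of_lt_of_le hσ c1, lt_of_lt_of_le hσ c2, lt_of_lt_of_le hσ c3⟩

variable {V D : Type} {T : PvMap V D} {s : V → Bool} {d0 : D}

/-- the positions of a closed wall of minimal period `≥ n` are different on a window of less than `n` consecutive times -/
theorem pvfr_injOn_window (hbw : pvasBW T s d0) (hmin : ∀ k, 0 < k → k < n → pvasIt T s d0 k ≠ d0) (hlt : hi < lo + n) : Set.InjOn (pvasIt T s d0) (Set.Icc lo hi) := by
  have key : ∀ a b, lo ≤ a → a < b → b ≤ hi → pvasIt T s d0 a ≠ pvasIt T s d0 b := fun a b ha hab hb e => hmin (b - a) (by omega) (by omega) (pvas_it_return hbw hab.le e)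
  intro a ha b hb e
  rcases lt_trichotomy a b with hab | hab | hab
  · exact absurd e (key a b ha.1 hab hb.2)
  · exact hab
  · exact absurd e.symm (key b a hb.1 hab ha.2)

theorem pvfr_it_per (hper : pvasIt T s d0 n = d0) (k : ℕ) : pvasIt T s d0 (k + n) = pvasIt T s d0 k := by
  rw [Nat.add_comm, pvas_it_add, hper]

/-- **RET3 ⟹ CONFIG6** (F8 of W1_118 Part V, map level) -/
theorem pvfr_ret3_cfg6 (hT : T.IsSph) {c0 c1 c2 : T.Cyc} (hfin : c0.Left.Finite) (h12 : c1.Inside c2) (h20 : c2.Inside c0) (hbw : pvasBW T s d0)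
    (hper : pvasIt T s d0 n = d0) (hmin : ∀ k, 0 < k → k < n → pvasIt T s d0 k ≠ d0)
    {t1 u1 t2 u2 t3 u3 : ℕ} (o1 : t1 < u1) (o2 : u1 < t2) (o3 : t2 < u2) (o4 : u2 < t3) (o5 : t3 < u3) (o6 : u3 < t1 + n)
    (hu1 : pvasIt T s d0 u1 ∉ c0.Left) (hu2 : pvasIt T s d0 u2 ∉ c0.Left) (hu3 : pvasIt T s d0 u3 ∉ c0.Left)
    (ht1 : pvasIt T s d0 t1 ∈ c1.Left) (ht2 : pvasIt T s d0 t2 ∈ c1.Left) (ht3 : pvasIt T s d0 t3 ∈ c1.Left) :
    ∃ (x1 y2 y4 : D) (n1 m2 m4 : ℕ) (b : Bool), PvatCfg T c0 c1 c2 s x1 y2 y4 n1 m2 m4 ∧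
      PvatArm T c0 c1 (pvatLay T s x1 n1 ∪ pvatLay T (pvasNot s) y2 m2 ∪ pvatLay T (pvasNot s) y4 m4) b s :=
  pvfr_cfg6 hT hfin h12 h20 hbw o2 o3 o4 o5 o6 (pvfr_injOn_window hbw hmin (by omega)) hu1 hu2 hu3 ht2 ht3 (by rw [pvfr_it_per hper]; exact ht1)

/-- **RET3 ⟹ CONFIG6**, metric form: `φ` = the place of a position -/
theorem pvfr_ret3_metric_cfg6 (hT : T.IsSph) {c0 c1 c2 : T.Cyc} (hfin : c0.Left.Finite) (h12 : c1.Inside c2) (h20 : c2.Inside c0) (hbw : pvasBW T s d0)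
    (hper : pvasIt T s d0 n = d0) (hmin : ∀ k, 0 < k → k < n → pvasIt T s d0 k ≠ d0) {φ : D → ℂ}
    (hin : ∀ k, ‖φ (pvasIt T s d0 k) - y‖ ≤ ρ → pvasIt T s d0 k ∈ c1.Left) (hout : ∀ k, pvasIt T s d0 k ∈ c0.Left → ‖φ (pvasIt T s d0 k) - y‖ < σ)
    (h : PvfrRet3 (fun k => φ (pvasIt T s d0 k)) y ρ σ n) :
    ∃ (x1 y2 y4 : D) (n1 m2 m4 : ℕ) (b : Bool), PvatCfg T c0 c1 c2 s x1 y2 y4 n1 m2 m4 ∧
      PvatArm T c0 c1 (pvatLay T s x1 n1 ∪ pvatLay T (pvasNot s) y2 m2 ∪ pvatLay T (pvasNot s) y4 m4) b s := by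
  obtain ⟨t1, u1, t2, u2, t3, u3, a1, a2, a3, a4, a5, a6, b1, b2, b3, c1', c2', c3'⟩ := h
  exact pvfr_ret3_cfg6 hT hfin h12 h20 hbw hper hmin a1 a2 a3 a4 a5 a6 (fun hm => absurd (hout u1 hm) (not_lt.2 c1')) (fun hm => absurd (hout u2 hm) (not_lt.2 c2'))
    (fun hm => absurd (hout u3 hm) (not_lt.2 c3')) (hin t1 b1) (hin t2 b2) (hin t3 b3)

end ret3

/-! ## §7 arcs: one piece, concatenation -/

section arc

variable {γ : ℕ → ℂ} {K K1 K2 W W' Wt Ws M : Set ℂ} {μ L L' r S : ℝ} {t t' t1 t1' t2 t2' lo hi ts tt : ℕ} {u v w pt ps p0 : ℂ}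

/-- one THIN piece -/
theorem pvfr_arc_thin (hK : IsPreconnected K) (hu : u ∈ K) (hv : v ∈ K) (hn : ∀ p ∈ K, ‖p - γ t‖ ≤ μ) : PvfrArc γ K W μ L t t u v :=
  ⟨0, fun _ => K, fun _ => t, ∅,
    ⟨fun _ _ => hK, fun a ha => absurd ha (Nat.not_lt_zero a), fun p => ⟨fun hp => ⟨0, le_rfl, hp⟩, fun ⟨_, _, hp⟩ => hp⟩, fun _ _ _ _ => le_rfl,
      fun _ _ => ⟨u, hu, hn u hu⟩, fun _ _ _ p hp => hn p hp, fun _ _ hf => absurd hf (Set.notMem_empty _)⟩,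
    fun _ _ => ⟨le_rfl, le_rfl⟩, hu, hv⟩

/-- one FAT piece (a core): far from the witness -/
theorem pvfr_arc_fat (hK : IsPreconnected K) (hu : u ∈ K) (hv : v ∈ K) (hn : ∃ p ∈ K, ‖p - γ t‖ ≤ μ) (hf : ∀ p ∈ K, ∀ w ∈ W, L < ‖w - p‖) : PvfrArc γ K W μ L t t u v :=
  ⟨0, fun _ => K, fun _ => t, Set.univ,
    ⟨fun _ _ => hK, fun a ha => absurd ha (Nat.not_lt_zero a), fun p => ⟨fun hp => ⟨0, le_rfl, hp⟩, fun ⟨_, _, hp⟩ => hp⟩, fun _ _ _ _ => le_rfl,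
      fun _ _ => hn, fun _ _ h => absurd (Set.mem_univ _) h, fun _ _ _ p hp w hw => hf p hp w hw⟩,
    fun _ _ => ⟨le_rfl, le_rfl⟩, hu, hv⟩

theorem pvfr_arc_mono (h : PvfrArc γ K W μ L t t' u v) (hW : W' ⊆ W) (hL : L' ≤ L) (h1 : lo ≤ t) (h2 : t' ≤ hi) : PvfrArc γ K W' μ L' lo hi u v := by
  obtain ⟨m, P, τ, fat, hc, hτ, hu, hv⟩ := h
  exact ⟨m, P, τ, fat, hc.mono_W hW hL, fun a ha => ⟨h1.trans (hτ a ha).1, (hτ a ha).2.trans h2⟩, hu, hv⟩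

theorem pvfr_arc_le (h : PvfrArc γ K W μ L t t' u v) : t ≤ t' := by
  obtain ⟨m, P, τ, fat, hc, hτ, hu, hv⟩ := h
  exact (hτ 0 (Nat.zero_le _)).1.trans (hτ 0 (Nat.zero_le _)).2

theorem pvfr_arc_mem (h : PvfrArc γ K W μ L t t' u v) : u ∈ K ∧ v ∈ K := by
  obtain ⟨m, P, τ, fat, hc, hτ, hu, hv⟩ := h
  exact ⟨(hc.cover u).2 ⟨0, Nat.zero_le _, hu⟩, (hc.cover v).2 ⟨m, le_rfl, hv⟩⟩

theorem pvfr_arc_conn (h : PvfrArc γ K W μ L t t' u v) : IsPreconnected K := by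
  obtain ⟨m, P, τ, fat, hc, hτ, hu, hv⟩ := h
  have : K = ⋃ c ∈ Set.Icc 0 m, P c := by
    ext p
    rw [hc.cover p]
    simp only [Set.mem_iUnion, exists_prop, Set.mem_Icc, Nat.zero_le, true_and]
  rw [this]
  exact pvfr_chain_conn hc le_rfl

/-- **CONCATENATION** of two arcs with a common end, the times of the first before the times of the second -/
theorem pvfr_arc_trans (h1 : PvfrArc γ K1 W μ L t1 t1' u v) (h2 : PvfrArc γ K2 W μ L t2 t2' v w) (ht : t1' ≤ t2) : PvfrArc γ (K1 ∪ K2) W μ L t1 t2' u w := by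
  have le1 := pvfr_arc_le h1
  have le2 := pvfr_arc_le h2
  obtain ⟨m1, P1, τ1, f1, c1, r1, hu1, hv1⟩ := h1
  obtain ⟨m2, P2, τ2, f2, c2, r2, hu2, hv2⟩ := h2
  set P : ℕ → Set ℂ := fun a => if a ≤ m1 then P1 a else P2 (a - (m1 + 1)) with hP
  set τ : ℕ → ℕ := fun a => if a ≤ m1 then τ1 a else τ2 (a - (m1 + 1)) with hτ
  set fat : Set ℕ := {a | if a ≤ m1 then a ∈ f1 else a - (m1 + 1) ∈ f2} with hfat
  have P_l : ∀ a, a ≤ m1 → P a = P1 a := fun a h => if_pos h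
  have P_r : ∀ a, P (m1 + 1 + a) = P2 a := fun a => by
    simp only [hP]
    rw [if_neg (by omega), Nat.add_sub_cancel_left]
  have τ_l : ∀ a, a ≤ m1 → τ a = τ1 a := fun a h => if_pos h
  have τ_r : ∀ a, τ (m1 + 1 + a) = τ2 a := fun a => by
    simp only [hτ]
    rw [if_neg (by omega), Nat.add_sub_cancel_left]
  have f_l : ∀ a, a ≤ m1 → (a ∈ fat ↔ a ∈ f1) := fun a h => by
    simp only [hfat, Set.mem_ofPred_eq]
    rw [if_pos h]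
  have f_r : ∀ a, (m1 + 1 + a ∈ fat ↔ a ∈ f2) := fun a => by
    simp only [hfat, Set.mem_ofPred_eq]
    rw [if_neg (by omega), Nat.add_sub_cancel_left]
  have cases : ∀ a, a ≤ m1 + 1 + m2 → a ≤ m1 ∨ ∃ a', a' ≤ m2 ∧ a = m1 + 1 + a' := fun a ha => by
    rcases Nat.lt_or_ge m1 a with h | h
    · exact Or.inr ⟨a - (m1 + 1), by omega, by omega⟩
    · exact Or.inl h
  refine ⟨m1 + 1 + m2, P, τ, fat, ⟨?_, ?_, ?_, ?_, ?_, ?_, ?_⟩, ?_, ?_, ?_⟩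
  · intro a ha
    rcases cases a ha with h | ⟨a', h, rfl⟩
    · rw [P_l a h]; exact c1.conn a h
    · rw [P_r]; exact c2.conn a' h
  · intro a ha
    rcases Nat.lt_trichotomy a m1 with h | h | h
    · rw [P_l a h.le, P_l (a + 1) h]; exact c1.link a h
    · subst h
      rw [P_l a le_rfl, show a + 1 = a + 1 + 0 from rfl, P_r]
      exact ⟨v, hv1, hu2⟩
    · obtain ⟨a', rfl⟩ : ∃ a', a = m1 + 1 + a' := ⟨a - (m1 + 1), by omega⟩
      rw [P_r, show m1 + 1 + a' + 1 = m1 + 1 + (a' + 1) from rfl, P_r]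
      exact c2.link a' (by omega)
  · intro p
    constructor
    · rintro (hp | hp)
      · obtain ⟨a, ha, hpa⟩ := (c1.cover p).1 hp
        exact ⟨a, by omega, by rw [P_l a ha]; exact hpa⟩
      · obtain ⟨a, ha, hpa⟩ := (c2.cover p).1 hp
        exact ⟨m1 + 1 + a, by omega, by rw [P_r]; exact hpa⟩
    · rintro ⟨a, ha, hpa⟩
      rcases cases a ha with h | ⟨a', h, rfl⟩
      · rw [P_l a h] at hpa; exact Or.inl ((c1.cover p).2 ⟨a, h, hpa⟩)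
      · rw [P_r] at hpa; exact Or.inr ((c2.cover p).2 ⟨a', h, hpa⟩)
  · intro a b hab hb
    rcases cases b hb with h | ⟨b', h, rfl⟩
    · rw [τ_l a (hab.trans h), τ_l b h]; exact c1.mono a b hab h
    · rcases cases a (hab.trans hb) with h' | ⟨a', h', rfl⟩
      · rw [τ_l a h', τ_r]
        exact (r1 a h').2.trans (ht.trans (r2 b' h).1)
      · rw [τ_r, τ_r]; exact c2.mono a' b' (by omega) h
  · intro a ha
    rcases cases a ha with h | ⟨a', h, rfl⟩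
    · rw [P_l a h, τ_l a h]; exact c1.near a h
    · rw [P_r, τ_r]; exact c2.near a' h
  · intro a ha hf
    rcases cases a ha with h | ⟨a', h, rfl⟩
    · rw [P_l a h, τ_l a h]; exact c1.thin a h (fun h' => hf ((f_l a h).2 h'))
    · rw [P_r, τ_r]; exact c2.thin a' h (fun h' => hf ((f_r a').2 h'))
  · intro a ha hf
    rcases cases a ha with h | ⟨a', h, rfl⟩
    · rw [P_l a h]; exact c1.far a h ((f_l a h).1 hf)
    · rw [P_r]; exact c2.far a' h ((f_r a').1 hf)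
  · intro a ha
    rcases cases a ha with h | ⟨a', h, rfl⟩
    · rw [τ_l a h]; exact ⟨(r1 a h).1, (r1 a h).2.trans (ht.trans le2)⟩
    · rw [τ_r]; exact ⟨le1.trans (ht.trans (r2 a' h).1), (r2 a' h).2⟩
  · rw [P_l 0 (Nat.zero_le _)]; exact hu1
  · rw [P_r]; exact hv2

/-- FORWARD WITNESS, arc form -/
theorem pvfr_arc_fwd (hc : PvfrArc γ K W μ (S + 8 * r) ts tt u v) (hr : 0 < r) (hμ : 0 ≤ μ) (hS : 8 * r + 2 * μ ≤ S)
    (hW : ∀ w ∈ W, (∃ k, (tt ≤ k ∧ k ≤ hi) ∧ ‖w - γ k‖ ≤ μ) ∨ ∀ q ∈ K \ M, 13 * r < ‖w - q‖) (hpt : ‖γ tt - pt‖ ≤ μ) (hps : ‖γ ts - ps‖ ≤ μ)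
    (hMt : ∀ q ∈ K \ M, S + 5 * r < ‖pt - q‖) (hMs : ∀ q ∈ K \ M, S + 5 * r < ‖ps - q‖)
    (hM0 : ∀ q ∈ K \ M, 3 * S + 5 * r < ‖p0 - q‖) (hp : PvtcPlPinch K W M p0 r) :
    ∃ x ∈ K, PvfrThree γ x (8 * r + μ) (S - μ) ts hi := by
  obtain ⟨m, P, τ, fat, hc, hτ, -, -⟩ := hc
  exact pvfr_three_fwd hc hr hμ hS hτ hW hpt hps hMt hMs hM0 hp

/-- BACKWARD WITNESS, arc form -/
theorem pvfr_arc_bwd (hc : PvfrArc γ K W μ (S + 8 * r) ts hi u v) (hr : 0 < r) (hμ : 0 ≤ μ) (hS : 8 * r + 2 * μ ≤ S)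
    (hW : ∀ w ∈ W, (∃ k, (lo ≤ k ∧ k ≤ ts) ∧ ‖w - γ k‖ ≤ μ) ∨ ∀ q ∈ K \ M, 13 * r < ‖w - q‖) (hps : ‖γ ts - ps‖ ≤ μ) (hlo : ∀ q ∈ K, S < ‖γ lo - q‖)
    (hMs : ∀ q ∈ K \ M, S + 5 * r < ‖ps - q‖) (hM0 : ∀ q ∈ K \ M, 3 * S + 5 * r < ‖p0 - q‖) (hp : PvtcPlPinch K W M p0 r) :
    ∃ x ∈ K, PvfrThree γ x (8 * r + μ) (S - μ) lo hi := by
  obtain ⟨m, P, τ, fat, hc, hτ, -, -⟩ := hc
  exact pvfr_three_bwd hc hr hμ hS hτ hW hps hlo hMs hM0 hp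

/-- ONE CLOSED WALL, arc form -/
theorem pvfr_arc_closed {n : ℕ} (hc : PvfrArc γ K W μ (S + 8 * r) ts tt u v) (hr : 0 < r) (hμ : 0 ≤ μ) (hS : 8 * r + 2 * μ ≤ S) (hper : γ (ts + n) = γ ts)
    (hW : ∀ w ∈ W, (∃ k, (tt ≤ k ∧ k ≤ ts + n) ∧ ‖w - γ k‖ ≤ μ) ∨ ∀ q ∈ K \ M, 13 * r < ‖w - q‖)
    (hpt : ‖γ tt - pt‖ ≤ μ) (hps : ‖γ ts - ps‖ ≤ μ) (hMt : ∀ q ∈ K \ M, S + 5 * r < ‖pt - q‖) (hMs : ∀ q ∈ K \ M, S + 5 * r < ‖ps - q‖)
    (hM0 : ∀ q ∈ K \ M, 3 * S + 5 * r < ‖p0 - q‖) (hp : PvtcPlPinch K W M p0 r) :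
    ∃ x ∈ K, PvfrRet3 γ x (8 * r + μ) (S - μ) n := by
  obtain ⟨m, P, τ, fat, hc, hτ, -, -⟩ := hc
  exact pvfr_ret3_closed hc hr hμ hS hτ hper hW hpt hps hMt hMs hM0 hp

/-- **FIT-DET, MODEL FREE** (V.5 of W1_118 Part V; RULING 9 (4), 9bis of helper234).   `K` = the frozen arc of the closed wall `γ` (times `ts..tt`, tips `ps ≈ γ ts`, `pt ≈ γ tt`), `W` = the witness from the front `ft` to the front `fs`
(added segments + the rest of the wall, times `tt..ts+n`), which goes far (`qf`).   EITHER the two fronts are joined by a free channel (off `K`, at distance `≥ r` from `K \ M`) OR the wall makes three visits (RET3). -/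
theorem pvfr_fit_det {c0 ft fs qf : ℂ} {ρ0 : ℝ} {n : ℕ} (hc : PvfrArc γ K W μ (S + 8 * r) ts tt u v) (hr : 0 < r) (hμ : 0 ≤ μ) (hS : 8 * r + 2 * μ ≤ S) (hρ0 : 0 ≤ ρ0)
    (hKk : IsCompact K) (hKb : K ⊆ Metric.closedBall c0 ρ0) (hWc : IsPreconnected W) (hWk : IsCompact W) (hd : Disjoint W K)
    (hft : ft ∈ W) (hfs : fs ∈ W) (hqf : qf ∈ W) (hfar : 2 * (ρ0 + 3 * r) < ‖qf - c0‖) (hper : γ (ts + n) = γ ts)
    (hW : ∀ w ∈ W, (∃ k, (tt ≤ k ∧ k ≤ ts + n) ∧ ‖w - γ k‖ ≤ μ) ∨ ∀ q ∈ K \ M, 13 * r < ‖w - q‖)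
    (hpt : ‖γ tt - pt‖ ≤ μ) (hps : ‖γ ts - ps‖ ≤ μ) (hMt : ∀ q ∈ K \ M, S + 5 * r < ‖pt - q‖) (hMs : ∀ q ∈ K \ M, S + 5 * r < ‖ps - q‖)
    (hFt : ∀ q ∈ K \ M, 3 * S + 5 * r < ‖ft - q‖) (hFs : ∀ q ∈ K \ M, 3 * S + 5 * r < ‖fs - q‖) :
    (∃ U : Set ℂ, PvtcPlFree K M U r ∧ ft ∈ U ∧ fs ∈ U) ∨ ∃ x ∈ K, PvfrRet3 γ x (8 * r + μ) (S - μ) n := by
  rcases pvtc_pl_two (M := M) hr hρ0 (pvfr_arc_conn hc) hKk hKb hWc hWk hd hft hqf hfar hWc hWk hd hfs hqf hfar with h | h | h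
  · exact Or.inl h
  · exact Or.inr (pvfr_arc_closed hc hr hμ hS hper hW hpt hps hMt hMs hFt h)
  · exact Or.inr (pvfr_arc_closed hc hr hμ hS hper hW hpt hps hMt hMs hFs h)

/-- **FIT-DET, MODEL FREE, LINEAR TIMES** (no period: repair (T1) of the referee helper131).   ONE strand `γ` on the times `lo..hi`; `K` = the frozen arc (times `ts..tt`);
`Wt` = the one-ended witness of the front `ft` (added segments + the wall on the times `tt..hi`, up to a far point `qt`), `Ws` = the one-ended witness of the front `fs` (added segments + the wall on the times `lo..ts`, from a far point `qs`),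
the first position `γ lo` is farther than `S` from `K`.   EITHER the two fronts are joined by a free channel OR the strand makes three passages between the times `lo` and `hi`. -/
theorem pvfr_fit_lin_of {ft fs : ℂ} (hc : PvfrArc γ K (Wt ∪ Ws) μ (S + 8 * r) ts tt u v) (hr : 0 < r) (hμ : 0 ≤ μ) (hS : 8 * r + 2 * μ ≤ S)
    (hlo : lo ≤ ts) (hhi : tt ≤ hi)
    (hWt : ∀ w ∈ Wt, (∃ k, (tt ≤ k ∧ k ≤ hi) ∧ ‖w - γ k‖ ≤ μ) ∨ ∀ q ∈ K \ M, 13 * r < ‖w - q‖)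
    (hWs : ∀ w ∈ Ws, (∃ k, (lo ≤ k ∧ k ≤ ts) ∧ ‖w - γ k‖ ≤ μ) ∨ ∀ q ∈ K \ M, 13 * r < ‖w - q‖)
    (hpt : ‖γ tt - pt‖ ≤ μ) (hps : ‖γ ts - ps‖ ≤ μ) (hfl : ∀ q ∈ K, S < ‖γ lo - q‖)
    (hMt : ∀ q ∈ K \ M, S + 5 * r < ‖pt - q‖) (hMs : ∀ q ∈ K \ M, S + 5 * r < ‖ps - q‖)
    (hFt : ∀ q ∈ K \ M, 3 * S + 5 * r < ‖ft - q‖) (hFs : ∀ q ∈ K \ M, 3 * S + 5 * r < ‖fs - q‖)
    {Free : Prop} (h : Free ∨ PvtcPlPinch K Wt M ft r ∨ PvtcPlPinch K Ws M fs r) :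
    Free ∨ ∃ x ∈ K, PvfrThree γ x (8 * r + μ) (S - μ) lo hi := by
  rcases h with h | h | h
  · exact Or.inl h
  · obtain ⟨x, hx, h3⟩ := pvfr_arc_fwd (pvfr_arc_mono hc Set.subset_union_left le_rfl le_rfl le_rfl) hr hμ hS hWt hpt hps hMt hMs hFt h
    exact Or.inr ⟨x, hx, pvfr_three_mono h3 le_rfl le_rfl hlo le_rfl⟩
  · obtain ⟨x, hx, h3⟩ := pvfr_arc_bwd (pvfr_arc_mono hc Set.subset_union_right le_rfl le_rfl le_rfl) hr hμ hS hWs hps hfl hMs hFs h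
    exact Or.inr ⟨x, hx, pvfr_three_mono h3 le_rfl le_rfl le_rfl hhi⟩

/-- `pvfr_fit_lin_of` on `pvtc_pl_two` of helper292 (far points beyond `2 (ρ0 + 3 r)`; for a sharper far hypothesis feed `pvfr_fit_lin_of` with another trichotomy, e.g. `pvfh_two` of helper120) -/
theorem pvfr_fit_lin {c0 ft fs qt qs : ℂ} {ρ0 : ℝ} (hc : PvfrArc γ K (Wt ∪ Ws) μ (S + 8 * r) ts tt u v) (hr : 0 < r) (hμ : 0 ≤ μ) (hS : 8 * r + 2 * μ ≤ S) (hρ0 : 0 ≤ ρ0)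
    (hlo : lo ≤ ts) (hhi : tt ≤ hi) (hKk : IsCompact K) (hKb : K ⊆ Metric.closedBall c0 ρ0)
    (hWtc : IsPreconnected Wt) (hWtk : IsCompact Wt) (hdt : Disjoint Wt K) (hft : ft ∈ Wt) (hqt : qt ∈ Wt) (hfart : 2 * (ρ0 + 3 * r) < ‖qt - c0‖)
    (hWsc : IsPreconnected Ws) (hWsk : IsCompact Ws) (hds : Disjoint Ws K) (hfs : fs ∈ Ws) (hqs : qs ∈ Ws) (hfars : 2 * (ρ0 + 3 * r) < ‖qs - c0‖)
    (hWt : ∀ w ∈ Wt, (∃ k, (tt ≤ k ∧ k ≤ hi) ∧ ‖w - γ k‖ ≤ μ) ∨ ∀ q ∈ K \ M, 13 * r < ‖w - q‖)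
    (hWs : ∀ w ∈ Ws, (∃ k, (lo ≤ k ∧ k ≤ ts) ∧ ‖w - γ k‖ ≤ μ) ∨ ∀ q ∈ K \ M, 13 * r < ‖w - q‖)
    (hpt : ‖γ tt - pt‖ ≤ μ) (hps : ‖γ ts - ps‖ ≤ μ) (hfl : ∀ q ∈ K, S < ‖γ lo - q‖)
    (hMt : ∀ q ∈ K \ M, S + 5 * r < ‖pt - q‖) (hMs : ∀ q ∈ K \ M, S + 5 * r < ‖ps - q‖)
    (hFt : ∀ q ∈ K \ M, 3 * S + 5 * r < ‖ft - q‖) (hFs : ∀ q ∈ K \ M, 3 * S + 5 * r < ‖fs - q‖) :
    (∃ U : Set ℂ, PvtcPlFree K M U r ∧ ft ∈ U ∧ fs ∈ U) ∨ ∃ x ∈ K, PvfrThree γ x (8 * r + μ) (S - μ) lo hi :=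
  pvfr_fit_lin_of hc hr hμ hS hlo hhi hWt hWs hpt hps hfl hMt hMs hFt hFs
    (pvtc_pl_two (M := M) hr hρ0 (pvfr_arc_conn hc) hKk hKb hWtc hWtk hdt hft hqt hfart hWsc hWsk hds hfs hqs hfars)

end arc

end Claimed.Agent.R289
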