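-- KEEP
import Claimed.Agent.R289.Tr.FitRef
import Claimed.Agent.R289.Tr.StrandD

/-!
# Row 289 (S0537, Cardy for Poisson-Voronoi), unit TR, R-G / TR19 FIT-DET, Tr/FitRim : THE RIM ARC IS A CHAIN WITH MARKED TIMES      (owner helper10; post of helper151, 10:08Z; prefix `pvfi_`, defs `pvfi…`)

INPUT  = `PvwLE T b n y` (`Tr/Defs`, helper216): `y` = the last-exit decomposition of the black bank `b i = src (a_i)` of a strand `a_i = pvasIt T s a i`;
OUTPUT = `PvfrChain γ (pvfiTr T pos y) W (3 μ) L (y.n - 1) (pvfiPc T pos y) τ ∅` (`Tr/FitRef`, helper151), `γ k` = the midpoint of the position number `k`, with the time window and the two ends = the body of `PvfrArc`.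

* §1 TIMES of a last-exit decomposition (no geometry): `pvfi_lt_n`, `pvfi_step` (`j k < j (k+1)`), `pvfi_mono`, `pvfi_strict`.
* §2 the polygonal trace `pvfiTr`, its pieces `pvfiPc`, **`pvfi_chain`** (abstract walk `b`, abstract wall `γ` with `‖pos (b k) - γ k‖ ≤ μ`).
* §3 strands: `pvfiGam` (midpoints), `pvfi_gam_src`, **`pvfi_rim`** (strand from the time `0`), **`pvfi_rim_shift`** (strand started at the time `t0` of a longer strand: times shifted by `t0`).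
* §4 the arc of a rim between two rim times, `g₀` of `PvwDat.Actual`.
-/

set_option autoImplicit false
set_option linter.unusedSectionVars false
set_option linter.unusedVariables false
set_option linter.unusedSimpArgs false

namespace Claimed.Agent.R289

variable {V D : Type} {T : PvMap V D}

/-! ## §1 the times of a last-exit decomposition -/

section times

variable {b : ℕ → V} {n : ℕ} {y : T.Pth} {j : ℕ → ℕ}

/-- the body of `PvwLE` for a given choice of the times -/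
def PvfiLE (T : PvMap V D) (b : ℕ → V) (n : ℕ) (y : T.Pth) (j : ℕ → ℕ) : Prop :=
  y.v 0 = b 0 ∧ j y.n = n ∧ (∀ k, k ≤ y.n → j k ≤ n ∧ y.v k = b (j k) ∧ ∀ i, j k < i → i ≤ n → b i ≠ b (j k)) ∧ ∀ k, k < y.n → y.v (k + 1) = b (j k + 1)

theorem pvfi_le_iff : PvwLE T b n y ↔ ∃ j, PvfiLE T b n y j := Iff.rfl

/-- before the last vertex the time is `< n` -/
theorem pvfi_lt_n (h : PvfiLE T b n y j) {k : ℕ} (hk : k < y.n) : j k < n := by
  obtain ⟨h0, hn, h1, h2⟩ := h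
  refine lt_of_le_of_ne (h1 k hk.le).1 fun e => ?_
  have e1 : y.v k = y.v y.n := by rw [(h1 k hk.le).2.1, (h1 y.n le_rfl).2.1, e, hn]
  have := y.inj k y.n hk.le le_rfl e1
  omega

/-- the times increase strictly -/
theorem pvfi_step (h : PvfiLE T b n y j) {k : ℕ} (hk : k < y.n) : j k < j (k + 1) := by
  have hlt := pvfi_lt_n h hk
  obtain ⟨h0, hn, h1, h2⟩ := h
  by_contra hc
  have h3 := (h1 (k + 1) hk).2.2 (j k + 1) (by omega) (by omega)
  exact h3 (by rw [← h2 k hk, (h1 (k + 1) hk).2.1])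

theorem pvfi_strict (h : PvfiLE T b n y j) {k l : ℕ} (hkl : k < l) (hl : l ≤ y.n) : j k < j l := by
  induction l with
  | zero => omega
  | succ l ih =>
    rcases Nat.lt_succ_iff_lt_or_eq.1 hkl with h1 | rfl
    · exact (ih h1 (by omega)).trans (pvfi_step h (by omega))
    · exact pvfi_step h (by omega)

theorem pvfi_mono (h : PvfiLE T b n y j) {k l : ℕ} (hkl : k ≤ l) (hl : l ≤ y.n) : j k ≤ j l := by
  rcases hkl.lt_or_eq with h1 | rfl
  · exact (pvfi_strict h h1 hl).le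
  · exact le_rfl

end times

/-! ## §2 the trace of a path is a chain -/

/-- the piece number `k` of the polygonal trace: the edge `y.v k — y.v (k+1)` -/
def pvfiPc (T : PvMap V D) (pos : V → ℂ) (y : T.Pth) (k : ℕ) : Set ℂ := segment ℝ (pos (y.v k)) (pos (y.v (k + 1)))

/-- the polygonal trace of the path `y` -/
def pvfiTr (T : PvMap V D) (pos : V → ℂ) (y : T.Pth) : Set ℂ := ⋃ k ∈ Set.Iio y.n, segment ℝ (pos (y.v k)) (pos (y.v (k + 1)))

theorem pvfi_rim_eqns_cite : True := by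
  have := @PvfiLE.eq_1; have := @pvfiPc.eq_1; have := @pvfiTr.eq_1
  trivial

theorem pvfi_mem_tr {pos : V → ℂ} {y : T.Pth} {p : ℂ} : p ∈ pvfiTr T pos y ↔ ∃ k, k < y.n ∧ p ∈ pvfiPc T pos y k := by
  simp [pvfiTr, pvfiPc]

theorem pvfi_seg_near {u v p : ℂ} (hp : p ∈ segment ℝ u v) : ‖p - u‖ ≤ ‖u - v‖ := by
  have h := dist_add_dist_of_mem_segment hp
  rw [← dist_eq_norm, ← dist_eq_norm, dist_comm p u]
  linarith [dist_nonneg (x := p) (y := v)]

section chain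

variable {b : ℕ → V} {n : ℕ} {y : T.Pth} {j : ℕ → ℕ} {pos : V → ℂ} {γ : ℕ → ℂ} {μ : ℝ}

/-- **THE RIM ARC IS A CHAIN** (abstract walk, abstract wall): piece `k` = the edge number `k` of `y`, its time = the LAST visit `j k` of its first vertex -/
theorem pvfi_chain (h : PvfiLE T b n y j) (h0 : 0 < y.n) (hγ : ∀ k, k ≤ n → ‖pos (b k) - γ k‖ ≤ μ) (hy : ∀ k, k < y.n → ‖pos (y.v k) - pos (y.v (k + 1))‖ ≤ 2 * μ)
    (W : Set ℂ) (L : ℝ) : PvfrChain γ (pvfiTr T pos y) W (3 * μ) L (y.n - 1) (pvfiPc T pos y) j ∅ where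
  conn a _ := (convex_segment _ _).isPreconnected
  link a ha := ⟨pos (y.v (a + 1)), right_mem_segment ℝ _ _, left_mem_segment ℝ _ _⟩
  cover p := by
    rw [pvfi_mem_tr]
    exact ⟨fun ⟨k, hk, hp⟩ => ⟨k, by omega, hp⟩, fun ⟨k, hk, hp⟩ => ⟨k, by omega, hp⟩⟩
  mono a c hac hc := pvfi_mono h hac (by omega)
  near a ha := by
    refine ⟨pos (y.v a), left_mem_segment ℝ _ _, ?_⟩
    have h1 := h.2.2.1 a (by omega)
    have h2 := hγ (j a) h1.1
    have h3 := (norm_nonneg _).trans h2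
    rw [h1.2.1]
    linarith
  thin a ha _ p hp := by
    have h1 := h.2.2.1 a (by omega)
    have h2 := hγ (j a) h1.1
    rw [← h1.2.1] at h2
    have h3 := pvfi_seg_near hp
    have h4 := hy a (by omega)
    have h5 := pvfr_tri p (pos (y.v a)) (γ (j a))
    linarith
  far a _ ha := absurd ha (Set.notMem_empty a)

/-- the time window, the two ends -/
theorem pvfi_chain_ends (h : PvfiLE T b n y j) (h0 : 0 < y.n) :
    (∀ a, a ≤ y.n - 1 → j a < n) ∧ pos (y.v 0) ∈ pvfiPc T pos y 0 ∧ pos (y.v y.n) ∈ pvfiPc T pos y (y.n - 1) := by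
  refine ⟨fun a ha => pvfi_lt_n h (by omega), left_mem_segment ℝ _ _, ?_⟩
  have : pos (y.v y.n) = pos (y.v (y.n - 1 + 1)) := by rw [Nat.sub_add_cancel h0]
  rw [this]
  exact right_mem_segment ℝ _ _

end chain

/-! ## §3 strands -/

/-- SHIFT OF THE TIMES: a chain along the wall `k ↦ γ (t0 + k)` is a chain along `γ` -/
theorem pvfi_shift {γ : ℕ → ℂ} {K W : Set ℂ} {μ L : ℝ} {m : ℕ} {P : ℕ → Set ℂ} {τ : ℕ → ℕ} {fat : Set ℕ} {t0 : ℕ}
    (hc : PvfrChain (fun k => γ (t0 + k)) K W μ L m P τ fat) : PvfrChain γ K W μ L m P (fun a => t0 + τ a) fat where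
  conn := hc.conn
  link := hc.link
  cover := hc.cover
  mono a c hac hcm := Nat.add_le_add_left (hc.mono a c hac hcm) t0
  near := hc.near
  thin := hc.thin
  far := hc.far

/-- the same path up to the values which matter -/
theorem pvfi_le_congr {b : ℕ → V} {n : ℕ} {y g : T.Pth} {j : ℕ → ℕ} (h : PvfiLE T b n y j) (hn : y.n = g.n) (hv : ∀ k, k ≤ y.n → y.v k = g.v k) : PvfiLE T b n g j := by
  obtain ⟨h0, h1, h2, h3⟩ := h
  refine ⟨by rw [← hv 0 (Nat.zero_le _)]; exact h0, by rw [← hn]; exact h1, fun k hk => ?_, fun k hk => ?_⟩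
  · rw [← hv k (by omega)]
    exact h2 k (by omega)
  · rw [← hv (k + 1) (by omega)]
    exact h3 k (by omega)

/-- two paths with the same darts have the same vertices -/
theorem pvfi_verts_of_darts {y g : T.Pth} (hn : y.n = g.n) (he : ∀ k, k < y.n → y.e k = g.e k) (h0 : 0 < y.n) : ∀ k, k ≤ y.n → y.v k = g.v k := by
  intro k hk
  rcases hk.lt_or_eq with h | rfl
  · rw [← y.src_e k h, ← g.src_e k (by omega), he k h]
  · obtain ⟨l, hl⟩ : ∃ l, y.n = l + 1 := ⟨y.n - 1, by omega⟩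
    rw [hl, ← y.tgt_e l (by omega), ← g.tgt_e l (by omega), he l (by omega)]

/-- the midpoint of an edge of length `≤ 2 μ` is within `μ` of its first end -/
theorem pvfi_mid {u v : ℂ} {μ : ℝ} (h : ‖u - v‖ ≤ 2 * μ) : ‖u - (u + v) / 2‖ ≤ μ := by
  have e : u - (u + v) / 2 = (u - v) / 2 := by ring
  rw [e, norm_div]
  have : ‖(2 : ℂ)‖ = 2 := by simp
  rw [this]
  linarith

/-- a chain / an arc with a larger thinness -/
theorem pvfi_arc_mu {γ : ℕ → ℂ} {K W : Set ℂ} {μ μ' L : ℝ} {t t' : ℕ} {u v : ℂ} (h : PvfrArc γ K W μ L t t' u v) (hμ : μ ≤ μ') : PvfrArc γ K W μ' L t t' u v := by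
  obtain ⟨m, P, τ, fat, hc, hτ, hu, hv⟩ := h
  refine ⟨m, P, τ, fat, ⟨hc.conn, hc.link, hc.cover, hc.mono, fun a ha => ?_, fun a ha hf p hp => (hc.thin a ha hf p hp).trans hμ, hc.far⟩, hτ, hu, hv⟩
  obtain ⟨p, hp, h1⟩ := hc.near a ha
  exact ⟨p, hp, h1.trans hμ⟩

section strand

variable {s : V → Bool} {a a0 : D} {n t0 : ℕ} {y : T.Pth} {pos : V → ℂ} {γ : ℕ → ℂ} {μ : ℝ}

/-- **RIM ARC, strand from the time `0`**: `y` = the last-exit decomposition of the black bank of the positions `0..n`, `γ k` = the midpoint of the position number `k`;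
mesh `2 μ` on the positions `0..n` and on the edges of `y` -/
theorem pvfi_rim (hy : PvwLE T (fun i => T.src (pvasIt T s a i)) n y) (h0 : 0 < y.n)
    (hγ : ∀ k, k ≤ n → γ k = (pos (T.src (pvasIt T s a k)) + pos (T.tgt (pvasIt T s a k))) / 2)
    (hpos : ∀ k, k ≤ n → ‖pos (T.src (pvasIt T s a k)) - pos (T.tgt (pvasIt T s a k))‖ ≤ 2 * μ)
    (hed : ∀ k, k < y.n → ‖pos (y.v k) - pos (y.v (k + 1))‖ ≤ 2 * μ) (W : Set ℂ) (L : ℝ) :
    PvfrArc γ (pvfiTr T pos y) W (3 * μ) L 0 n (pos (y.v 0)) (pos (y.v y.n)) := by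
  obtain ⟨j, hj⟩ := pvfi_le_iff.1 hy
  obtain ⟨e1, e2, e3⟩ := pvfi_chain_ends (pos := pos) hj h0
  refine ⟨y.n - 1, pvfiPc T pos y, j, ∅, pvfi_chain hj h0 (fun k hk => ?_) hed W L, fun c hc => ⟨Nat.zero_le _, (e1 c hc).le⟩, e2, e3⟩
  rw [hγ k hk]
  exact pvfi_mid (hpos k hk)

/-- SHIFT OF THE TIMES for arcs -/
theorem pvfi_arc_shift {K W : Set ℂ} {L : ℝ} {t t' : ℕ} {u v : ℂ} (h : PvfrArc (fun k => γ (t0 + k)) K W μ L t t' u v) : PvfrArc γ K W μ L (t0 + t) (t0 + t') u v := by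
  obtain ⟨m, P, τ, fat, hc, hτ, hu, hv⟩ := h
  exact ⟨m, P, fun c => t0 + τ c, fat, pvfi_shift hc, fun c hc => ⟨Nat.add_le_add_left (hτ c hc).1 t0, Nat.add_le_add_left (hτ c hc).2 t0⟩, hu, hv⟩

/-- **RIM ARC, strand started at the time `t0`** of the wall `a0`: the times are shifted by `t0` -/
theorem pvfi_rim_shift (hy : PvwLE T (fun i => T.src (pvasIt T s (pvasIt T s a0 t0) i)) n y) (h0 : 0 < y.n)
    (hγ : ∀ k, t0 ≤ k → k ≤ t0 + n → γ k = (pos (T.src (pvasIt T s a0 k)) + pos (T.tgt (pvasIt T s a0 k))) / 2)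
    (hpos : ∀ k, t0 ≤ k → k ≤ t0 + n → ‖pos (T.src (pvasIt T s a0 k)) - pos (T.tgt (pvasIt T s a0 k))‖ ≤ 2 * μ)
    (hed : ∀ k, k < y.n → ‖pos (y.v k) - pos (y.v (k + 1))‖ ≤ 2 * μ) (W : Set ℂ) (L : ℝ) :
    PvfrArc γ (pvfiTr T pos y) W (3 * μ) L t0 (t0 + n) (pos (y.v 0)) (pos (y.v y.n)) := by
  have h := pvfi_rim (γ := fun k => γ (t0 + k)) (μ := μ) hy h0
    (fun k hk => by rw [← pvas_it_add]; exact hγ (t0 + k) (by omega) (by omega)) (fun k hk => by rw [← pvas_it_add]; exact hpos (t0 + k) (by omega) (by omega)) hed W L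
  exact pvfi_arc_shift h

end strand

/-! ## §4 the arc of a rim between two rim times; `g₀` of an actual datum -/

section rim

variable {s : V → Bool} {a0 : D} {t0 : ℕ} {pos : V → ℂ} {γ : ℕ → ℂ} {μ : ℝ}

/-- the three hypotheses of the strand calculus from `IsRim` -/
theorem pvfi_isRim {c : T.Cyc} (hr : c.IsRim s) (hb : s (T.src (c.e 0)) = true) :
    (∀ i, T.Tag s (T.opp (c.e i))) ∧ (∀ i, T.Wall s (T.opp (c.e 0)) (T.opp (c.e i))) ∧ ∀ i, s (T.src (c.e i)) = true :=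
  ⟨pl_rim_tag hr, fun i => (pl_rim_lab hr i).2.2.1, fun i => by rw [pl_rim_col hr i 0, hb]⟩

/-- a simple path which runs along a cycle is shorter than the cycle -/
theorem pvfi_arc_lt {c : T.Cyc} {g : T.Pth} {i : ℕ} (hg : ∀ k, k < g.n → c.e (i + k) = g.e k) : g.n < c.n := by
  by_contra hc
  have h3 := c.three
  have e0 : g.v 0 = T.src (c.e i) := by rw [← g.src_e 0 (by omega), ← hg 0 (by omega)]; rfl
  have e1 : g.v c.n = T.src (c.e i) := by
    obtain ⟨l, hl⟩ : ∃ l, c.n = l + 1 := ⟨c.n - 1, by omega⟩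
    rw [hl, ← g.tgt_e l (by omega), ← hg l (by omega), c.chain, ← c.per i, hl]
    rfl
  have := g.inj 0 c.n (Nat.zero_le _) (by omega) (e0.trans e1.symm)
  omega

/-- **THE ARC OF A RIM** between the rim places `i < i' < i + c.n`: `g` = the path with the darts `c.e i, …, c.e (i' - 1)`;      the wall `a0` is at the position `rotInv (c.e i)` at the time `t0`,
at the position `rotInv (c.e i')` at the time `t0 + m`, and does not come back to the first one in between -/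
theorem pvfi_rim_le (hT : T.IsSph) (hS : T.Simple) {c : T.Cyc} (hr : c.IsRim s) (hb : s (T.src (c.e 0)) = true) {i i' m : ℕ} (hii : i < i') (hi' : i' < i + c.n)
    (ht0 : pvasIt T s a0 t0 = T.rotInv (c.e i)) (hm : pvasIt T s a0 (t0 + m) = T.rotInv (c.e i'))
    (hmin : ∀ k, 0 < k → k ≤ m → pvasIt T s a0 (t0 + k) ≠ pvasIt T s a0 t0)
    {g : T.Pth} (hgn : g.n = i' - i) (hg : ∀ k, k < g.n → c.e (i + k) = g.e k) :
    PvwLE T (fun k => T.src (pvasIt T s (pvasIt T s a0 t0) k)) m g := by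
  obtain ⟨hc, hw, hbb⟩ := pvfi_isRim hr hb
  rw [pvas_it_add, ht0] at hm
  obtain ⟨y, hy, hn, he⟩ := pvt_sd_rim_le hT hS c hc hw hbb hii hi' hm (fun k hk0 hk => by rw [← ht0, ← pvas_it_add]; exact hmin k hk0 hk)
  obtain ⟨j, hj⟩ := pvfi_le_iff.1 hy
  rw [ht0]
  have hyg : y.n = g.n := hn.trans hgn.symm
  exact pvfi_le_iff.2 ⟨j, pvfi_le_congr hj hyg (pvfi_verts_of_darts hyg (fun k hk => by rw [he k (by omega), hg k (by omega)]) (by omega))⟩

theorem pvfi_rim_arc (hT : T.IsSph) (hS : T.Simple) {c : T.Cyc} (hr : c.IsRim s) (hb : s (T.src (c.e 0)) = true) {i i' m : ℕ} (hii : i < i') (hi' : i' < i + c.n)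
    (ht0 : pvasIt T s a0 t0 = T.rotInv (c.e i)) (hm : pvasIt T s a0 (t0 + m) = T.rotInv (c.e i'))
    (hmin : ∀ k, 0 < k → k ≤ m → pvasIt T s a0 (t0 + k) ≠ pvasIt T s a0 t0)
    {g : T.Pth} (hgn : g.n = i' - i) (hg : ∀ k, k < g.n → c.e (i + k) = g.e k)
    (hγ : ∀ k, t0 ≤ k → k ≤ t0 + m → γ k = (pos (T.src (pvasIt T s a0 k)) + pos (T.tgt (pvasIt T s a0 k))) / 2)
    (hpos : ∀ k, t0 ≤ k → k ≤ t0 + m → ‖pos (T.src (pvasIt T s a0 k)) - pos (T.tgt (pvasIt T s a0 k))‖ ≤ 2 * μ)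
    (hed : ∀ k, k < g.n → ‖pos (g.v k) - pos (g.v (k + 1))‖ ≤ 2 * μ) (W : Set ℂ) (L : ℝ) :
    PvfrArc γ (pvfiTr T pos g) W (3 * μ) L t0 (t0 + m) (pos (g.v 0)) (pos (g.v g.n)) :=
  pvfi_rim_shift (pvfi_rim_le hT hS hr hb hii hi' ht0 hm hmin hgn hg) (by omega) hγ hpos hed W L

/-- **`g₀` OF AN ACTUAL DATUM**: the wall `a0` of the rim `c` is at `rotInv (first dart of g₀)` at the time `t0`, at `rotInv (c.e (place of g⁻(t)))` at the time `t0 + m`, less than one turn -/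
theorem pvfi_actual (hT : T.IsSph) (hS : T.Simple) {𝔇 : PvwDat T} {N : PvwNum} {h : ℝ} {π : PvwPat} {c : T.Cyc} {j m : ℕ} (hA : 𝔇.Actual pos N h π s c j) (h0 : 0 < 𝔇.g.n)
    (ht0 : pvasIt T s a0 t0 = T.rotInv (𝔇.g.e 0)) (hm : pvasIt T s a0 (t0 + m) = T.rotInv (c.e (j + 𝔇.s.inn.n + 𝔇.g.n)))
    (hmin : ∀ k, 0 < k → k ≤ m → pvasIt T s a0 (t0 + k) ≠ pvasIt T s a0 t0)
    (hγ : ∀ k, t0 ≤ k → k ≤ t0 + m → γ k = (pos (T.src (pvasIt T s a0 k)) + pos (T.tgt (pvasIt T s a0 k))) / 2)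
    (hpos : ∀ k, t0 ≤ k → k ≤ t0 + m → ‖pos (T.src (pvasIt T s a0 k)) - pos (T.tgt (pvasIt T s a0 k))‖ ≤ 2 * μ)
    (hed : ∀ k, k < 𝔇.g.n → ‖pos (𝔇.g.v k) - pos (𝔇.g.v (k + 1))‖ ≤ 2 * μ) (W : Set ℂ) (L : ℝ) :
    PvfrArc γ (pvfiTr T pos 𝔇.g) W (3 * μ) L t0 (t0 + m) (pos (𝔇.g.v 0)) (pos (𝔇.g.v 𝔇.g.n)) := by
  have hlt := pvfi_arc_lt hA.arc
  refine pvfi_rim_arc hT hS hA.rim hA.black (i := j + 𝔇.s.inn.n) (i' := j + 𝔇.s.inn.n + 𝔇.g.n) (by omega) (by omega) ?_ hm hmin (by omega) hA.arc hγ hpos hed W L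
  rw [ht0, ← hA.arc 0 h0]
  rfl

end rim

/-! ## §5 SHARP MESH: only the right faces of the arc are read -/

section sharp

variable {s : V → Bool} {a a0 : D} {n t0 : ℕ} {y : T.Pth} {j : ℕ → ℕ} {pos : V → ℂ} {γ : ℕ → ℂ} {μ : ℝ}

/-- at the LAST visit of the vertex number `k` the strand stands on `rotInv (y.e k)` = the edge from `y.v k` to the third vertex of the right face of the edge number `k` -/
theorem pvfi_time (hS : T.Simple) (hj : PvfiLE T (fun i => T.src (pvasIt T s a i)) n y j) {k : ℕ} (hk : k < y.n) : pvasIt T s a (j k) = T.rotInv (y.e k) := by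
  obtain ⟨h0, hn, h1, h2⟩ := hj
  have e1 : y.v k = T.src (pvasIt T s a (j k)) := (h1 k hk.le).2.1
  have e2 : y.v (k + 1) = T.src (pvasIt T s a (j k + 1)) := h2 k hk
  rw [pvas_it_succ] at e2
  rcases pvas_step_ends s (pvasIt T s a (j k)) with ⟨-, e, -⟩ | ⟨-, e, -⟩
  · have : y.e k = T.rot (pvasIt T s a (j k)) := by
      apply hS
      · rw [y.src_e k hk, e1, T.src_rot]
      · rw [y.tgt_e k hk, e2, e, T.tgt_rot]
    rw [this, T.rotInv_rot]
  · exfalso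
    have := y.inj (k + 1) k hk hk.le (by rw [e1, e2, e])
    omega

theorem pvfi_tgt_rotInv (d : D) : T.tgt (T.rotInv d) = T.apex (T.opp d) := rfl

/-- **THE RIM ARC IS A CHAIN**, weak hypothesis: the wall is read at the marked times only -/
theorem pvfi_chain_w {b : ℕ → V} (h : PvfiLE T b n y j) (h0 : 0 < y.n) (hγ : ∀ k, k < y.n → ‖pos (y.v k) - γ (j k)‖ ≤ μ) (hy : ∀ k, k < y.n → ‖pos (y.v k) - pos (y.v (k + 1))‖ ≤ 2 * μ)
    (W : Set ℂ) (L : ℝ) : PvfrChain γ (pvfiTr T pos y) W (3 * μ) L (y.n - 1) (pvfiPc T pos y) j ∅ where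
  conn a _ := (convex_segment _ _).isPreconnected
  link a ha := ⟨pos (y.v (a + 1)), right_mem_segment ℝ _ _, left_mem_segment ℝ _ _⟩
  cover p := by
    rw [pvfi_mem_tr]
    exact ⟨fun ⟨k, hk, hp⟩ => ⟨k, by omega, hp⟩, fun ⟨k, hk, hp⟩ => ⟨k, by omega, hp⟩⟩
  mono a c hac hc := pvfi_mono h hac (by omega)
  near a ha := by
    refine ⟨pos (y.v a), left_mem_segment ℝ _ _, ?_⟩
    have h2 := hγ a (by omega)
    have h3 := (norm_nonneg _).trans h2
    linarith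
  thin a ha _ p hp := by
    have h2 := hγ a (by omega)
    have h3 := pvfi_seg_near hp
    have h4 := hy a (by omega)
    have h5 := pvfr_tri p (pos (y.v a)) (γ (j a))
    linarith
  far a _ ha := absurd ha (Set.notMem_empty a)

/-- **RIM ARC, SHARP MESH, strand started at the time `t0`**: mesh `2 μ` on the edges of `y` and on the edges `y.v k — third vertex of the right face of the edge number k`;   `γ` is read at the positions `rotInv (y.e k)` only -/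
theorem pvfi_rim_sharp (hS : T.Simple) (hy : PvwLE T (fun i => T.src (pvasIt T s (pvasIt T s a0 t0) i)) n y) (h0 : 0 < y.n)
    (hγ : ∀ k, t0 ≤ k → k ≤ t0 + n → γ k = (pos (T.src (pvasIt T s a0 k)) + pos (T.tgt (pvasIt T s a0 k))) / 2)
    (hap : ∀ k, k < y.n → ‖pos (y.v k) - pos (T.apex (T.opp (y.e k)))‖ ≤ 2 * μ)
    (hed : ∀ k, k < y.n → ‖pos (y.v k) - pos (y.v (k + 1))‖ ≤ 2 * μ) (W : Set ℂ) (L : ℝ) :
    PvfrArc γ (pvfiTr T pos y) W (3 * μ) L t0 (t0 + n) (pos (y.v 0)) (pos (y.v y.n)) := by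
  obtain ⟨j, hj⟩ := pvfi_le_iff.1 hy
  obtain ⟨e1, e2, e3⟩ := pvfi_chain_ends (pos := pos) hj h0
  refine pvfi_arc_shift ⟨y.n - 1, pvfiPc T pos y, j, ∅, pvfi_chain_w hj h0 (fun k hk => ?_) hed W L, fun c hc => ⟨Nat.zero_le _, (e1 c hc).le⟩, e2, e3⟩
  have hlt := pvfi_lt_n hj hk
  show ‖pos (y.v k) - γ (t0 + j k)‖ ≤ μ
  rw [hγ (t0 + j k) (by omega) (by omega), pvas_it_add, pvfi_time hS hj hk, T.src_rotInv, y.src_e k hk, pvfi_tgt_rotInv]
  exact pvfi_mid (hap k hk)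

end sharp

end Claimed.Agent.R289
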