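-- KEEP
import Claimed.Agent.R289.Tr.FitRim

/-!
# Row 289 (S0537), THE WALL, road E, FIT-DET, file Tr/FitClock : THE CLOCK OF THE WALL OF A RIM      (owner helper49; prefix `pvfw_`, `Pvfw`)

Abstract finite sphere map `T` (= a completion), colouring `s`, rim `c` (black).   `a := rotInv (c.e 0)` = the position of the wall in the tag triangle of `c.e 0`.
* §1 `pvfw_period` (a strand of a finite map is periodic, first return), `pvfw_inj`, `pvfw_time_back` / `pvfw_time_fwd` / `pvfw_time_bwd` / `pvfw_back_it` : the TIME of a position which is linked to a position of known time by a piece of strand missing `a`.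
* §2 `PvfwClock T s c a nL θ` : period `nL`, rim times `θ i` (`It a (θ i) = rotInv (c.e i)`), STRICTLY INCREASING on `[0, c.n)`, all `< nL`; positions at different times `< nL` differ (`.inj`, `.injOn`).   **`pvfw_clock`** : the clock exists.
-/

set_option autoImplicit false

namespace Claimed.Agent.R289

open Set

variable {V D : Type} {T : PvMap V D} {s : V → Bool}

/-! ## 1. one closed strand -/

/-- a strand of a finite surface is periodic -/
theorem pvfw_period [Finite D] {a : D} (ha : pvasBW T s a) : ∃ n, 0 < n ∧ pvasIt T s a n = a ∧ ∀ k, 0 < k → k < n → pvasIt T s a k ≠ a := by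
  classical
  obtain ⟨x, y, hxy, e⟩ := Finite.exists_ne_map_eq_of_infinite (pvasIt T s a)
  have hex : ∃ n, 0 < n ∧ pvasIt T s a n = a := by
    rcases lt_or_gt_of_ne hxy with h | h
    · exact ⟨y - x, by omega, pvas_it_return ha h.le e⟩
    · exact ⟨x - y, by omega, pvas_it_return ha h.le e.symm⟩
  refine ⟨Nat.find hex, (Nat.find_spec hex).1, (Nat.find_spec hex).2, fun k hk0 hk e => Nat.find_min hex hk ⟨hk0, e⟩⟩

/-- different times of one turn give different positions -/
theorem pvfw_inj {a : D} (ha : pvasBW T s a) {n : ℕ} (hmin : ∀ k, 0 < k → k < n → pvasIt T s a k ≠ a) {i j : ℕ} (hi : i < n) (hj : j < n)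
    (e : pvasIt T s a i = pvasIt T s a j) : i = j := pvt_sd_inj ha hmin i j hi hj e

/-- TIME OF AN EARLIER POSITION: the strand from `d` reaches after `t` steps the position number `θ` of the strand from `a`, and does not meet `a` on its way -/
theorem pvfw_time_back {a d : D} (ha : pvasBW T s a) (hd : pvasBW T s d) {t θ : ℕ} (e : pvasIt T s d t = pvasIt T s a θ) (hoff : ∀ i, i ≤ t → pvasIt T s d i ≠ a) :
    t ≤ θ ∧ pvasIt T s a (θ - t) = d := by
  have h1 : t ≤ θ := by
    by_contra hc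
    have h2 : pvasIt T s (pvasIt T s d (t - θ)) θ = pvasIt T s a θ := by rw [← pvas_it_add, Nat.sub_add_cancel (by omega)]; exact e
    exact hoff (t - θ) (by omega) (pvas_it_cancel (pvas_it_bw hd _) ha θ h2)
  refine ⟨h1, ?_⟩
  have h2 : pvasIt T s (pvasIt T s a (θ - t)) t = pvasIt T s d t := by rw [← pvas_it_add, Nat.sub_add_cancel h1]; exact e.symm
  exact pvas_it_cancel (pvas_it_bw ha _) hd t h2

/-- no wrap-around forwards -/
theorem pvfw_time_fwd {a : D} {n τ r : ℕ} (hper : pvasIt T s a n = a) (hτ : τ < n) (hoff : ∀ i, 0 < i → i ≤ r → pvasIt T s a (τ + i) ≠ a) : τ + r < n := by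
  by_contra hc
  exact hoff (n - τ) (by omega) (by omega) (by rw [Nat.add_sub_cancel' hτ.le]; exact hper)

/-- backward iterates -/
theorem pvfw_back_it {a : D} (ha : pvasBW T s a) {τ : ℕ} : ∀ i, i ≤ τ → (pvasBack T s)^[i] (pvasIt T s a τ) = pvasIt T s a (τ - i) := by
  intro i
  induction i with
  | zero => intro _; rfl
  | succ i ih =>
    intro hi
    rw [Function.iterate_succ_apply', ih (by omega)]
    obtain ⟨l, hl⟩ : ∃ l, τ - i = l + 1 := ⟨τ - i - 1, by omega⟩
    rw [hl, pvas_it_back ha]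
    congr 1
    omega

/-- no wrap-around backwards -/
theorem pvfw_time_bwd {a : D} (ha : pvasBW T s a) {τ r : ℕ} (hoff : ∀ i, i ≤ r → (pvasBack T s)^[i] (pvasIt T s a τ) ≠ a) : r < τ := by
  by_contra hc
  exact hoff τ (by omega) (by rw [pvfw_back_it ha τ le_rfl, Nat.sub_self]; rfl)

/-! ## 2. the clock of a rim -/

/-- **THE CLOCK OF THE RIM `c`**: `a` = the position of the wall in the tag triangle of `c.e 0`, `nL` = the period of the wall, `θ i` = the time of the tag triangle of `c.e i` -/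
structure PvfwClock (T : PvMap V D) (s : V → Bool) (c : T.Cyc) (a : D) (nL : ℕ) (θ : ℕ → ℕ) : Prop where
  bw : pvasBW T s a
  a_eq : a = T.rotInv (c.e 0)
  per : pvasIt T s a nL = a
  min : ∀ k, 0 < k → k < nL → pvasIt T s a k ≠ a
  pos : 0 < nL
  th0 : θ 0 = 0
  lt : ∀ i, i < c.n → θ i < nL
  rim : ∀ i, i < c.n → pvasIt T s a (θ i) = T.rotInv (c.e i)
  mono : ∀ i i', i < i' → i' < c.n → θ i < θ i'

theorem PvfwClock.inj {c : T.Cyc} {a : D} {nL : ℕ} {θ : ℕ → ℕ} (C : PvfwClock T s c a nL θ) {i j : ℕ} (hi : i < nL) (hj : j < nL) (e : pvasIt T s a i = pvasIt T s a j) : i = j :=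
  pvfw_inj C.bw C.min hi hj e

theorem PvfwClock.injOn {c : T.Cyc} {a : D} {nL : ℕ} {θ : ℕ → ℕ} (C : PvfwClock T s c a nL θ) : Set.InjOn (pvasIt T s a) (Set.Iio nL) :=
  fun _ hi _ hj e => C.inj hi hj e

/-- **the clock exists** -/
theorem pvfw_clock [Finite D] (hT : T.IsSph) (hS : T.Simple) {c : T.Cyc} (hr : c.IsRim s) (hb : s (T.src (c.e 0)) = true) :
    ∃ (nL : ℕ) (θ : ℕ → ℕ), PvfwClock T s c (T.rotInv (c.e 0)) nL θ := by
  classical
  obtain ⟨hc, hw, hbb⟩ := pvfi_isRim hr hb
  have ha : pvasBW T s (T.rotInv (c.e 0)) := pvt_s_rim_bw (hc 0) (hbb 0)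
  obtain ⟨nL, h0, hper, hmin⟩ := pvfw_period ha
  have hex := fun i => pvt_sf_rim_ex c hc hw hbb (Set.toFinite _) 0 i
  choose θ0 h1 h2 using hex
  set θ : ℕ → ℕ := fun i => if i = 0 then 0 else θ0 i with hθ
  have hrim : ∀ i, pvasIt T s (T.rotInv (c.e 0)) (θ i) = T.rotInv (c.e i) := by
    intro i
    by_cases hi : i = 0
    · subst hi; simp [hθ, pvas_it_zero]
    · simp only [hθ, if_neg hi]; exact h1 i
  have hno : ∀ i k, 0 < k → k ≤ θ i → pvasIt T s (T.rotInv (c.e 0)) k ≠ T.rotInv (c.e 0) := by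
    intro i k hk0 hk
    by_cases hi : i = 0
    · subst hi; simp [hθ] at hk; omega
    · simp only [hθ, if_neg hi] at hk; exact h2 i k hk0 hk
  have hlt : ∀ i, θ i < nL := by
    intro i
    by_contra hcn
    exact hno i nL h0 (by omega) hper
  refine ⟨nL, θ, ha, rfl, hper, hmin, h0, by simp [hθ], fun i _ => hlt i, fun i _ => hrim i, ?_⟩
  intro i i' hii hi'
  obtain ⟨y, hy, hn, he⟩ := pvt_sd_rim_le hT hS c hc hw hbb (i := 0) (j := i') (m := θ i') (by omega) (by omega) (hrim i') (hno i')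
  obtain ⟨t, ht, -, e⟩ := pvt_sd_time hS hy (k := i) (by omega)
  rw [he i (by omega), Nat.zero_add] at e
  have e2 : pvasIt T s (T.rotInv (c.e 0)) t = pvasIt T s (T.rotInv (c.e 0)) (θ i) := by
    rw [hrim i, e, T.rotInv_rot]
  have := pvfw_inj ha hmin (lt_trans ht (hlt i')) (hlt i) e2
  omega

end Claimed.Agent.R289
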