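import Claimed.Agent.R289.Tr.FitEmb

/-!
# Row 289 (S0537), THE WALL, road E, FIT-DET (W1_118 PART V), file Tr/FitWall : SUPPLEMENT TO F3 EMB (`Tr/FitEmb`, vocabulary `pvfbMid pvfbLeg pvfbHop pvfbWall pvfbZig`)      (owner helper135; prefix `pvfh_`; NO definitions)

MODEL FREE on `G : PlGeo T pos` of 172 (instances `plg_del h`, `pvaw_geo_del`).
* sec.1  EDGES: `pvfh_vert_sego` (no vertex on an open edge), `pvfh_tip_sub_seg`, **`pvfh_emb3`** (half tip edge, with the position of the point), `pvfh_mid_seg`, `pvfh_mid_tri`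
* sec.2  THE WALL POLYGON: `pvfh_wall_disj`, `pvfh_wall_occ` (`¬ T.Occ s d`), `pvfh_wall_time`, `pvfh_wall_vert` (no vertex on the wall polygon), `pvfh_wall_tip` (it meets a half tip edge only at the midpoint),
         `pvfh_wall_isConn`, `pvfh_wall_succ`, `pvfh_wall_sub_real`, `pvfh_wall_sub_real'`
* sec.3  THE ZIGZAG: `pvfh_step_share`, `pvfh_it_share` (chain of pieces, D1), `pvfh_seg_sub_zig`, `pvfh_zig_subset`, `pvfh_zig_isConn`
* sec.4  METRIC: `pvfh_tri_diam` (mesh of the three sides ⟹ diameter of the closed face), `pvfh_wall_near` (mesh on the EDGES; both neighbouring times), `pvfh_seg_dist`, `pvfh_seg_diam`,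
         **`pvfh_sep`** (a compact and a closed set which are disjoint are at a positive distance: the `ε` of F2 PINCH-PLANE)
-/

set_option autoImplicit false

namespace Claimed.Agent.R289

open Set Metric Topology

variable {V D : Type} {T : PvMap V D} {pos : V → ℂ}

/-! ## 1. Edges -/

theorem pvfh_mid_seg (T : PvMap V D) (pos : V → ℂ) (d : D) : pvfbMid T pos d ∈ T.seg pos d := by
  refine ⟨1 / 2, 1 / 2, by norm_num, by norm_num, by norm_num, ?_⟩
  unfold pvfbMid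
  simp only [Complex.real_smul]
  push_cast
  ring

theorem pvfh_mid_tri (G : PlGeo T pos) (d : D) : pvfbMid T pos d ∈ T.tri pos d := plg_seg_sub_tri G d (pvfh_mid_seg T pos d)

/-- no vertex lies on an open edge -/
theorem pvfh_vert_sego (G : PlGeo T pos) (v : V) (e : D) : pos v ∉ T.sego pos e := by
  intro h
  obtain ⟨w1, w2, -⟩ := plg_side_weights (G.orient e) h
  rcases plg_vert_seg G (plg_sego_sub_seg T pos e h) with rfl | rfl
  · have : vorDet (pos (T.apex e)) (pos (T.src e)) (pos (T.src e)) = 0 := by unfold vorDet; ring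
    exact w2.ne' this
  · have : vorDet (pos (T.tgt e)) (pos (T.apex e)) (pos (T.tgt e)) = 0 := by unfold vorDet; ring
    exact w1.ne' this

theorem pvfh_tip_src {e : D} {x : ℂ} (hx : x ∈ segment ℝ (pvfbMid T pos e) (pos (T.src e))) : x = pos (T.src e) ∨ x ∈ T.sego pos e := by
  obtain ⟨s, t, hs, ht, hst, rfl⟩ := hx
  rcases hs.eq_or_lt with h0 | h0
  · left
    have ht1 : t = 1 := by linarith
    rw [← h0, ht1]; simp
  · right
    refine ⟨s / 2 + t, s / 2, by positivity, by positivity, by linarith, ?_⟩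
    unfold pvfbMid
    simp only [Complex.real_smul]
    push_cast
    ring

theorem pvfh_tip_tgt {e : D} {x : ℂ} (hx : x ∈ segment ℝ (pvfbMid T pos e) (pos (T.tgt e))) : x = pos (T.tgt e) ∨ x ∈ T.sego pos e := by
  have := pvfh_tip_src (T := T) (pos := pos) (e := T.opp e) (x := x) (by rw [pvfb_mid_opp, T.src_opp']; exact hx)
  rwa [T.src_opp', plg_sego_opp] at this

/-- **EMB3** with the position of the point: the half tip edge -/
theorem pvfh_emb3 (G : PlGeo T pos) {e d : D} {v : V} {x : ℂ} (hv : v = T.src e ∨ v = T.tgt e) (hx : x ∈ segment ℝ (pvfbMid T pos e) (pos v)) (hd : x ∈ T.seg pos d) :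
    (x = pos v ∧ (v = T.src d ∨ v = T.tgt d)) ∨ (x ∈ T.sego pos e ∧ (d = e ∨ d = T.opp e)) := by
  have h1 : x = pos v ∨ x ∈ T.sego pos e := by
    rcases hv with rfl | rfl
    · exact pvfh_tip_src hx
    · exact pvfh_tip_tgt hx
  rcases h1 with rfl | h1
  · exact Or.inl ⟨rfl, plg_vert_seg G hd⟩
  · exact Or.inr ⟨h1, pvfb_sego_seg G h1 hd⟩

/-- the half tip edge is a part of the edge -/
theorem pvfh_tip_sub_seg {e : D} {v : V} (hv : v = T.src e ∨ v = T.tgt e) : segment ℝ (pvfbMid T pos e) (pos v) ⊆ T.seg pos e := by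
  refine (convex_segment _ _).segment_subset (pvfh_mid_seg T pos e) ?_
  rcases hv with rfl | rfl
  · exact plg_src_mem_seg T pos e
  · exact plg_tgt_mem_seg T pos e

/-! ## 2. The wall polygon -/

variable {s : V → Bool} {a : D} {i j : ℕ}

theorem pvfh_wall_disj (G : PlGeo T pos) {d : D} (h : ∀ l, i ≤ l → l ≤ j → d ≠ pvasIt T s a l ∧ d ≠ T.opp (pvasIt T s a l)) :
    Disjoint (pvfbWall T pos s a i j) (T.seg pos d) := by
  rw [Set.disjoint_left]
  intro x hx hd
  obtain ⟨l, h1, h2, h3, -⟩ := pvfb_wall_seg G hx hd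
  rcases h3 with h3 | h3
  · exact (h l h1 h2).1 h3
  · exact (h l h1 h2).2 h3

/-- black-black and white-white edges are never crossed (`Occ` form of `pvfb_wall_mono`) -/
theorem pvfh_wall_occ (G : PlGeo T pos) (ha : pvasBW T s a) {d : D} (hd : ¬ T.Occ s d) : Disjoint (pvfbWall T pos s a i j) (T.seg pos d) :=
  pvfb_wall_mono G ha (not_not.1 hd)

/-- the wall polygon of a stretch of times misses the occupied edges of the other positions -/
theorem pvfh_wall_time (G : PlGeo T pos) (ha : pvasBW T s a) {m : ℕ} (h : ∀ l, i ≤ l → l ≤ j → pvasIt T s a l ≠ pvasIt T s a m) :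
    Disjoint (pvfbWall T pos s a i j) (T.seg pos (pvasIt T s a m)) := by
  refine pvfh_wall_disj G fun l h1 h2 => ⟨fun e => h l h1 h2 e.symm, fun e => ?_⟩
  have := pvas_it_bw ha m
  rw [e] at this
  exact pvas_bw_not_opp (pvas_it_bw ha l) this

/-- no vertex is on the wall polygon -/
theorem pvfh_wall_vert (G : PlGeo T pos) (d : D) : pos (T.src d) ∉ pvfbWall T pos s a i j := by
  intro hx
  obtain ⟨l, -, -, -, h⟩ := pvfb_wall_seg G hx (plg_src_mem_seg T pos d)
  have h1 := pvfb_mid_sego G (pvasIt T s a l)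
  rw [← h] at h1
  exact pvfh_vert_sego G _ _ h1

/-- the wall polygon meets the half tip edge of a position only at its midpoint -/
theorem pvfh_wall_tip (G : PlGeo T pos) {e : D} {v : V} {x : ℂ} (hv : v = T.src e ∨ v = T.tgt e) (hx : x ∈ pvfbWall T pos s a i j)
    (hx' : x ∈ segment ℝ (pvfbMid T pos e) (pos v)) : x = pvfbMid T pos e := by
  obtain ⟨l, -, -, h', h⟩ := pvfb_wall_seg G hx (pvfh_tip_sub_seg hv hx')
  rcases h' with rfl | rfl
  · exact h
  · rw [pvfb_mid_opp]; exact h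

theorem pvfh_wall_isConn (T : PvMap V D) (pos : V → ℂ) (s : V → Bool) (a : D) {i j : ℕ} (hij : i < j) : IsConnected (pvfbWall T pos s a i j) :=
  ⟨⟨_, pvfb_wall_mid T pos s a hij le_rfl hij.le⟩, pvfb_wall_conn T pos s a i j⟩

theorem pvfh_hop_sub_wall (T : PvMap V D) (pos : V → ℂ) (s : V → Bool) (a : D) {i j l : ℕ} (h1 : i ≤ l) (h2 : l < j) :
    pvfbHop T pos s (pvasIt T s a l) ⊆ pvfbWall T pos s a i j := fun _ hx => ⟨l, h1, h2, hx⟩

theorem pvfh_wall_succ (T : PvMap V D) (pos : V → ℂ) (s : V → Bool) (a : D) {i j : ℕ} (hij : i ≤ j) :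
    pvfbWall T pos s a i (j + 1) = pvfbWall T pos s a i j ∪ pvfbHop T pos s (pvasIt T s a j) := by
  ext x
  constructor
  · rintro ⟨l, h1, h2, hx⟩
    rcases (Nat.lt_succ_iff.1 h2).eq_or_lt with rfl | h3
    · exact Or.inr hx
    · exact Or.inl ⟨l, h1, h3, hx⟩
  · rintro (⟨l, h1, h2, hx⟩ | hx)
    · exact ⟨l, h1, by omega, hx⟩
    · exact ⟨j, hij, by omega, hx⟩

/-- two consecutive stretches -/
theorem pvfh_wall_union (T : PvMap V D) (pos : V → ℂ) (s : V → Bool) (a : D) {i j k : ℕ} (hij : i ≤ j) (hjk : j ≤ k) :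
    pvfbWall T pos s a i k = pvfbWall T pos s a i j ∪ pvfbWall T pos s a j k := by
  ext x
  constructor
  · rintro ⟨l, h1, h2, hx⟩
    rcases Nat.lt_or_ge l j with h | h
    · exact Or.inl ⟨l, h1, h, hx⟩
    · exact Or.inr ⟨l, h, h2, hx⟩
  · rintro (⟨l, h1, h2, hx⟩ | ⟨l, h1, h2, hx⟩)
    · exact ⟨l, h1, by omega, hx⟩
    · exact ⟨l, by omega, h2, hx⟩

/-- change of the base point of the strand -/
theorem pvfh_wall_shift (T : PvMap V D) (pos : V → ℂ) (s : V → Bool) (a : D) (m i j : ℕ) :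
    pvfbWall T pos s (pvasIt T s a m) i j = pvfbWall T pos s a (m + i) (m + j) := by
  ext x
  constructor
  · rintro ⟨l, h1, h2, hx⟩
    rw [← pvas_it_add] at hx
    exact ⟨m + l, by omega, by omega, hx⟩
  · rintro ⟨l, h1, h2, hx⟩
    refine ⟨l - m, by omega, by omega, ?_⟩
    rw [← pvas_it_add, Nat.add_sub_cancel' (by omega)]
    exact hx

theorem pvfh_wall_sub_real (G : PlGeo T pos) (s : V → Bool) (a : D) (i j : ℕ) : pvfbWall T pos s a i j ⊆ T.real pos (pvasFc T s a j) := by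
  intro x hx
  obtain ⟨l, -, h2, hl⟩ := pvfb_wall_sub G hx
  exact ⟨_, ⟨l, h2, T.sf_refl _⟩, hl⟩

/-- the wall polygon of a strand which stays in a set of darts stays in its realisation -/
theorem pvfh_wall_sub_real' (G : PlGeo T pos) {A : Set D} (h : ∀ l, i ≤ l → l < j → pvasIt T s a l ∈ A) : pvfbWall T pos s a i j ⊆ T.real pos A := by
  intro x hx
  obtain ⟨l, h1, h2, hl⟩ := pvfb_wall_sub G hx
  exact ⟨_, h l h1 h2, hl⟩

/-! ## 3. The zigzag of the occupied edges -/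

theorem pvfh_seg_sub_zig (T : PvMap V D) (pos : V → ℂ) (s : V → Bool) (a : D) {i j l : ℕ} (h1 : i ≤ l) (h2 : l ≤ j) :
    T.seg pos (pvasIt T s a l) ⊆ pvfbZig T pos s a i j := fun _ hx => ⟨l, h1, h2, hx⟩

theorem pvfh_zig_subset (T : PvMap V D) (pos : V → ℂ) (s : V → Bool) (a : D) {i j i' j' : ℕ} (h1 : i' ≤ i) (h2 : j ≤ j') :
    pvfbZig T pos s a i j ⊆ pvfbZig T pos s a i' j' := fun _ ⟨l, g1, g2, hx⟩ => ⟨l, h1.trans g1, g2.trans h2, hx⟩

/-- consecutive positions share an end -/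
theorem pvfh_step_share (T : PvMap V D) (pos : V → ℂ) (s : V → Bool) (d : D) : (T.seg pos d ∩ T.seg pos (pvasStep T s d)).Nonempty := by
  rcases pvas_step_ends s d with ⟨-, -, e⟩ | ⟨-, e, -⟩
  · exact ⟨pos (T.tgt d), plg_tgt_mem_seg T pos d, by rw [← e]; exact plg_tgt_mem_seg T pos _⟩
  · exact ⟨pos (T.src d), plg_src_mem_seg T pos d, by rw [← e]; exact plg_src_mem_seg T pos _⟩

/-- the chain of pieces form (D1 of W1_118 PART V): consecutive occupied edges meet -/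
theorem pvfh_it_share (T : PvMap V D) (pos : V → ℂ) (s : V → Bool) (a : D) (l : ℕ) : (T.seg pos (pvasIt T s a l) ∩ T.seg pos (pvasIt T s a (l + 1))).Nonempty := by
  rw [pvas_it_succ]; exact pvfh_step_share T pos s _

theorem pvfh_zig_isConn (T : PvMap V D) (pos : V → ℂ) (s : V → Bool) (a : D) {i j : ℕ} (hij : i ≤ j) : IsConnected (pvfbZig T pos s a i j) :=
  ⟨⟨_, pvfh_seg_sub_zig T pos s a le_rfl hij (plg_src_mem_seg T pos _)⟩, pvfb_zig_conn T pos s a i j⟩

theorem pvfh_seg_preconn (T : PvMap V D) (pos : V → ℂ) (d : D) : IsPreconnected (T.seg pos d) := (convex_segment _ _).isPreconnected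

theorem pvfh_seg_compact (T : PvMap V D) (pos : V → ℂ) (d : D) : IsCompact (T.seg pos d) := plg_segment_compact _ _

/-! ## 4. Metric -/

/-- mesh of the three sides ⟹ diameter of the closed face -/
theorem pvfh_tri_diam (G : PlGeo T pos) {μ : ℝ} {d : D} (hμ : ∀ e, T.SF d e → ‖pos (T.src e) - pos (T.tgt e)‖ ≤ μ) {x y : ℂ} (hx : x ∈ T.tri pos d)
    (hy : y ∈ T.tri pos d) : ‖x - y‖ ≤ μ := by
  have h1 := hμ d (T.sf_refl d)
  have h2 := hμ _ (T.sf_nxt d)
  have h3 := hμ _ (T.sf_nxt2 d)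
  rw [T.src_nxt, T.tgt_nxt] at h2
  rw [T.src_nxt2, T.tgt_nxt2] at h3
  exact dela_dist_le_side (G.orient d) h1 h2 h3 hx hy

/-- every point of the wall polygon is within the mesh of the midpoints of two consecutive positions -/
theorem pvfh_wall_near (G : PlGeo T pos) {μ : ℝ} (hμ : ∀ l, i ≤ l → l < j → ∀ e, T.SF (pvasIt T s a l) e → ‖pos (T.src e) - pos (T.tgt e)‖ ≤ μ) {x : ℂ}
    (hx : x ∈ pvfbWall T pos s a i j) : ∃ l, i ≤ l ∧ l < j ∧ ‖x - pvfbMid T pos (pvasIt T s a l)‖ ≤ μ ∧ ‖x - pvfbMid T pos (pvasIt T s a (l + 1))‖ ≤ μ := by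
  obtain ⟨l, h1, h2, hl⟩ := hx
  refine ⟨l, h1, h2, pvfh_tri_diam G (hμ l h1 h2) (pvfb_hop_sub_tri G s _ hl) (pvfh_mid_tri G _), pvfh_tri_diam G (hμ l h1 h2) (pvfb_hop_sub_tri G s _ hl) ?_⟩
  rw [pvas_it_succ]
  exact pvfb_hop_sub_tri G s _ (pvfb_hop_mid1 T pos s _)

/-- the same with the black ends `pos (src a_l)` (the curve `γ` of `Tr/FitRef`) -/
theorem pvfh_wall_near_src (G : PlGeo T pos) {μ : ℝ} (hμ : ∀ l, i ≤ l → l < j → ∀ e, T.SF (pvasIt T s a l) e → ‖pos (T.src e) - pos (T.tgt e)‖ ≤ μ) {x : ℂ}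
    (hx : x ∈ pvfbWall T pos s a i j) : ∃ l, i ≤ l ∧ l < j ∧ ‖x - pos (T.src (pvasIt T s a l))‖ ≤ μ := by
  obtain ⟨l, h1, h2, hl⟩ := hx
  exact ⟨l, h1, h2, pvfh_tri_diam G (hμ l h1 h2) (pvfb_hop_sub_tri G s _ hl) (plg_src_mem_tri G _)⟩

/-- a point of an edge is within half the length of its midpoint -/
theorem pvfh_seg_dist {μ : ℝ} {d : D} (hμ : ‖pos (T.src d) - pos (T.tgt d)‖ ≤ μ) {x : ℂ} (hx : x ∈ T.seg pos d) : ‖x - pvfbMid T pos d‖ ≤ μ / 2 := by
  obtain ⟨u, t, hu, ht, hut, rfl⟩ := hx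
  have e : u • pos (T.src d) + t • pos (T.tgt d) - pvfbMid T pos d = (u - 1 / 2 : ℝ) • (pos (T.src d) - pos (T.tgt d)) := by
    have ht' : t = 1 - u := by linarith
    unfold pvfbMid
    rw [ht']
    simp only [Complex.real_smul]
    push_cast
    ring
  rw [e, norm_smul, Real.norm_eq_abs]
  have h1 : |u - 1 / 2| ≤ 1 / 2 := by rw [abs_le]; constructor <;> linarith
  calc |u - 1 / 2| * ‖pos (T.src d) - pos (T.tgt d)‖ ≤ 1 / 2 * μ := mul_le_mul h1 hμ (norm_nonneg _) (by norm_num)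
    _ = μ / 2 := by ring

/-- two points of an edge -/
theorem pvfh_seg_diam {μ : ℝ} {d : D} (hμ : ‖pos (T.src d) - pos (T.tgt d)‖ ≤ μ) {x y : ℂ} (hx : x ∈ T.seg pos d) (hy : y ∈ T.seg pos d) : ‖x - y‖ ≤ μ := by
  have h1 := pvfh_seg_dist hμ hx
  have h2 := pvfh_seg_dist hμ hy
  calc ‖x - y‖ = ‖(x - pvfbMid T pos d) - (y - pvfbMid T pos d)‖ := by ring_nf
    _ ≤ ‖x - pvfbMid T pos d‖ + ‖y - pvfbMid T pos d‖ := norm_sub_le _ _
    _ ≤ μ := by linarith

/-- a compact set and a closed set which are disjoint are at a positive distance (the `ε` of F2 PINCH-PLANE) -/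
theorem pvfh_sep {K W : Set ℂ} (hK : IsCompact K) (hW : IsClosed W) (h : Disjoint K W) : ∃ ε : ℝ, 0 < ε ∧ ∀ p ∈ K, ∀ q ∈ W, ε ≤ ‖p - q‖ := by
  rcases W.eq_empty_or_nonempty with rfl | hWn
  · exact ⟨1, one_pos, fun _ _ _ hq => absurd hq (Set.notMem_empty _)⟩
  rcases K.eq_empty_or_nonempty with rfl | hKn
  · exact ⟨1, one_pos, fun _ hp => absurd hp (Set.notMem_empty _)⟩
  obtain ⟨p0, hp0, hmin⟩ := hK.exists_isMinOn hKn (Metric.continuous_infDist_pt W).continuousOn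
  refine ⟨Metric.infDist p0 W, (hW.notMem_iff_infDist_pos hWn).1 (Set.disjoint_left.1 h hp0), fun p hp q hq => ?_⟩
  calc Metric.infDist p0 W ≤ Metric.infDist p W := hmin hp
    _ ≤ dist p q := Metric.infDist_le_dist_of_mem hq
    _ = ‖p - q‖ := dist_eq_norm _ _

end Claimed.Agent.R289
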