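-- KEEP
import Claimed.Agent.R289.Tr.FitRef
import Claimed.Agent.R289.Tr.FitWall
import Claimed.Agent.R289.Tr.Defs
import Claimed.Agent.R289.Pl.Jordan

/-!
# Row 289 (S0537, Cardy for Poisson-Voronoi), THE WALL, road E, FIT-DET (W1_118 PART V), file Tr/FitHyp : THE HYPOTHESES OF FIT-DET IN A FORM WHICH THE MODEL CAN MEET      (helper120; prefix `pvfu_`)

* sec. 1  THE FAR POINT.   `pvtc_pl_two` (292) and `pvfr_fit_det` (151) ask a point of the witness with `2 (ρ₀ + 3 r) < ‖q - c₀‖`, `K ⊆ closedBall c₀ ρ₀`.   At the model an (A1) arc fills `closedBall x (2R)` and a reaching rim is only known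
          to reach `4R`: NOT meetable.   The sharp sup-norm form `pvtc_pl_pp_two` of 292 is:  **`pvfu_pinch_of_pp`** (`PvtcPP ⟹ PvtcPlPinch`, `η ≤ r/2`), `pvfu_free_of_free`, **`pvfu_one`**, **`pvfu_two`** (`3/2 (ρ₀ + 2 r) < ‖q - c₀‖`).
* sec. 2  **`pvfu_fit_lin`** = FIT-DET, MODEL FREE, LINEAR TIMES, TWO WITNESSES (`Wt` = front of `t` + the wall after the tip of `t`, `Ws` = front of `s` + the wall before the tip of `s`): no period, no closed wall.
          (In the plane map of record the wall need not close up: the rim lives in a completion.)      Free channel between the two fronts OR three passages.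
* sec. 3  (CORE-FREE), METRIC FORM, at the gates of `Tr/Defs` v2: `pvfu_gate_src/tgt/apex` (a face which is not inside the gate has its three vertices at distance `≥ a h` from the centre), `pvfu_gate_mid`,
          **`pvfu_core_free`** (a wall polygon whose faces are not inside the gate stays at distance `≥ a h - 2 μ`), `pvfu_seg_free`, **`pvfu_disc_arc`** (the core disc `closedBall z (b h)` is a FAT one-piece arc), `pvfu_disc_far`.
-/

set_option autoImplicit false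
set_option linter.unusedVariables false

namespace Claimed.Agent.R289

open Set Metric

/-! ## 1. the far point -/

/-- a free channel in the sup norm is a free channel -/
theorem pvfu_free_of_free {K M U : Set ℂ} {r : ℝ} (h : PvtcFree K M U r) : PvtcPlFree K M U r :=
  ⟨h.1, h.2.1, h.2.2.1, fun u hu q hq => (h.2.2.2 u hu q hq).trans (pvtc_pl_sup_le_norm _)⟩

theorem pvfu_mem_rect {a b c d : ℝ} {p : ℂ} : p ∈ pvtcRect a b c d ↔ a ≤ p.re ∧ p.re ≤ b ∧ c ≤ p.im ∧ p.im ≤ d := Iff.rfl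

/-- the square of centre `x`, half side `S` -/
theorem pvfu_mem_sq {x p : ℂ} {S : ℝ} : p ∈ pvtcRect (x.re - S) (x.re + S) (x.im - S) (x.im + S) ↔ pvtcSup (p - x) ≤ S := by
  rw [pvfu_mem_rect, pvtc_pl_sup_le, Complex.sub_re, Complex.sub_im, abs_le, abs_le]
  constructor
  · rintro ⟨h1, h2, h3, h4⟩
    exact ⟨⟨by linarith, by linarith⟩, ⟨by linarith, by linarith⟩⟩
  · rintro ⟨⟨h1, h2⟩, ⟨h3, h4⟩⟩
    exact ⟨by linarith, by linarith, by linarith, by linarith⟩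

theorem pvfu_sup_tri (a b c : ℂ) : pvtcSup (a - c) ≤ pvtcSup (a - b) + pvtcSup (b - c) := by
  have h1 := (pvtc_pl_sup_le (p := a - b) (t := pvtcSup (a - b))).1 le_rfl
  have h2 := (pvtc_pl_sup_le (p := b - c) (t := pvtcSup (b - c))).1 le_rfl
  rw [pvtc_pl_sup_le]
  have e : a - c = (a - b) + (b - c) := by ring
  rw [e, Complex.add_re, Complex.add_im]
  exact ⟨(abs_add_le _ _).trans (add_le_add h1.1 h2.1), (abs_add_le _ _).trans (add_le_add h1.2 h2.2)⟩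

/-- `‖p‖ ≤ 3/2 sup` -/
theorem pvfu_norm_le_sup (p : ℂ) : ‖p‖ ≤ 3 / 2 * pvtcSup p := by
  obtain ⟨h1, h2⟩ := (pvtc_pl_sup_le (p := p) (t := pvtcSup p)).1 le_rfl
  have h0 : 0 ≤ pvtcSup p := (abs_nonneg _).trans h1
  have h3 : ‖p‖ ^ 2 = p.re ^ 2 + p.im ^ 2 := by
    rw [Complex.sq_norm, Complex.normSq_apply]; ring
  have h4 : p.re ^ 2 ≤ pvtcSup p ^ 2 := by rw [← sq_abs]; exact pow_le_pow_left₀ (abs_nonneg _) h1 2
  have h5 : p.im ^ 2 ≤ pvtcSup p ^ 2 := by rw [← sq_abs]; exact pow_le_pow_left₀ (abs_nonneg _) h2 2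
  by_contra hcon
  rw [not_le] at hcon
  nlinarith [norm_nonneg p]

/-- **the sharp pinch of 292 (sup norm, rectangles) is a pinch in the form consumed by `pvfr_marks` of 151** -/
theorem pvfu_pinch_of_pp {K W M : Set ℂ} {p0 : ℂ} {r η : ℝ} (hr : 0 < r) (hη0 : 0 ≤ η) (hη : η ≤ r / 2) (h : PvtcPP K W M p0 r η) : PvtcPlPinch K W M p0 r := by
  obtain ⟨x, hx, y, hy, w, hw, hM, hxy, hwx, hrect⟩ := h
  refine ⟨x, hx, y, hy, w, hw, hM, ?_, ?_, ?_⟩
  · have := pvtc_pl_norm_le_sup (x - y)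
    linarith
  · rcases hwx with h1 | h1
    · left
      have := pvtc_pl_norm_le_sup (w - x)
      linarith
    · right
      have := pvtc_pl_norm_le_sup (w - y)
      linarith
  · intro K' hK' hc hxK hyK S hS hsub
    have h1 := hrect K' hK' hc hxK hyK (x.re - S) (x.re + S) (x.im - S) (x.im + S) ?_ ?_ ?_
    · have h2 : p0 ∈ pvtcRect (x.re - (S + η)) (x.re + (S + η)) (x.im - (S + η)) (x.im + (S + η)) := by
        obtain ⟨a1, a2, a3, a4⟩ := h1
        exact ⟨by linarith, by linarith, by linarith, by linarith⟩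
      rw [pvfu_mem_sq] at h2
      have := pvtc_pl_norm_le_sup (p0 - x)
      linarith
    · intro p hp
      rw [pvfu_mem_sq]
      have := hsub hp
      rw [mem_closedBall, dist_eq_norm] at this
      exact (pvtc_pl_sup_le_norm _).trans this
    · intro p hp
      rw [pvfu_mem_sq]
      linarith
    · intro p hp
      rw [pvfu_mem_sq]
      have h3 := pvfu_sup_tri p y x
      rw [pvtc_pl_sup_comm y x] at h3
      linarith

/-- a point far from the centre of a ball is outside the enlarged circumscribed square -/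
theorem pvfu_far {c0 q : ℂ} {ρ0 r : ℝ} (hr : 0 < r) (h : 3 / 2 * (ρ0 + 2 * r) < ‖q - c0‖) :
    q ∉ pvtcRect (c0.re - ρ0 - (r + r / 2)) (c0.re + ρ0 + (r + r / 2)) (c0.im - ρ0 - (r + r / 2)) (c0.im + ρ0 + (r + r / 2)) := by
  intro hq
  have h1 : q ∈ pvtcRect (c0.re - (ρ0 + (r + r / 2))) (c0.re + (ρ0 + (r + r / 2))) (c0.im - (ρ0 + (r + r / 2))) (c0.im + (ρ0 + (r + r / 2))) := by
    obtain ⟨a1, a2, a3, a4⟩ := hq
    exact ⟨by linarith, by linarith, by linarith, by linarith⟩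
  rw [pvfu_mem_sq] at h1
  have := pvfu_norm_le_sup (q - c0)
  linarith

theorem pvfu_ball_sub {K : Set ℂ} {c0 : ℂ} {ρ0 : ℝ} (hKb : K ⊆ closedBall c0 ρ0) : K ⊆ pvtcRect (c0.re - ρ0) (c0.re + ρ0) (c0.im - ρ0) (c0.im + ρ0) := by
  intro p hp
  rw [pvfu_mem_sq]
  have := hKb hp
  rw [mem_closedBall, dist_eq_norm] at this
  exact (pvtc_pl_sup_le_norm _).trans this

/-- **R-G, ONE TIP**, with a far hypothesis which the model can meet -/
theorem pvfu_one {K W M : Set ℂ} {c0 p0 p1 : ℂ} {ρ0 r : ℝ} (hr : 0 < r)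
    (hKc : IsPreconnected K) (hKk : IsCompact K) (hKb : K ⊆ closedBall c0 ρ0) (hWc : IsPreconnected W) (hWk : IsCompact W) (hd : Disjoint W K)
    (hp0 : p0 ∈ W) (hp1 : p1 ∈ W) (hfar : 3 / 2 * (ρ0 + 2 * r) < ‖p1 - c0‖) :
    (∀ p2 : ℂ, 3 / 2 * (ρ0 + 2 * r) < ‖p2 - c0‖ → ∃ U : Set ℂ, PvtcPlFree K M U r ∧ p0 ∈ U ∧ p2 ∈ U) ∨ PvtcPlPinch K W M p0 r := by
  rcases pvtc_pl_pp_compact (M := M) (η := r / 2) hr (by positivity) hKc hKk (pvfu_ball_sub hKb) hWc hWk hd hp0 hp1 (pvfu_far hr hfar) with h | h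
  · left
    intro p2 hp2
    obtain ⟨U, hU, h0, h2⟩ := h p2 (pvfu_far hr hp2)
    exact ⟨U, pvfu_free_of_free hU, h0, h2⟩
  · exact Or.inr (pvfu_pinch_of_pp hr (by positivity) le_rfl h)

/-- **R-G, TWO TIPS**, with a far hypothesis which the model can meet: the two fronts `pt`, `ps` are joined by a free channel unless one of the two witnesses passes a pinch of `K` -/
theorem pvfu_two {K Wt Ws M : Set ℂ} {c0 pt ps qt qs : ℂ} {ρ0 r : ℝ} (hr : 0 < r)
    (hKc : IsPreconnected K) (hKk : IsCompact K) (hKb : K ⊆ closedBall c0 ρ0)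
    (hWtc : IsPreconnected Wt) (hWtk : IsCompact Wt) (hdt : Disjoint Wt K) (hpt : pt ∈ Wt) (hqt : qt ∈ Wt) (hft : 3 / 2 * (ρ0 + 2 * r) < ‖qt - c0‖)
    (hWsc : IsPreconnected Ws) (hWsk : IsCompact Ws) (hds : Disjoint Ws K) (hps : ps ∈ Ws) (hqs : qs ∈ Ws) (hfs : 3 / 2 * (ρ0 + 2 * r) < ‖qs - c0‖) :
    (∃ U : Set ℂ, PvtcPlFree K M U r ∧ pt ∈ U ∧ ps ∈ U) ∨ PvtcPlPinch K Wt M pt r ∨ PvtcPlPinch K Ws M ps r := by
  rcases pvtc_pl_pp_two (M := M) (η := r / 2) hr (by positivity) hKc hKk (pvfu_ball_sub hKb) hWtc hWtk hdt hpt hqt (pvfu_far hr hft)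
    hWsc hWsk hds hps hqs (pvfu_far hr hfs) with ⟨U, hU, h1, h2⟩ | h | h
  · exact Or.inl ⟨U, pvfu_free_of_free hU, h1, h2⟩
  · exact Or.inr (Or.inl (pvfu_pinch_of_pp hr (by positivity) le_rfl h))
  · exact Or.inr (Or.inr (pvfu_pinch_of_pp hr (by positivity) le_rfl h))

/-! ## 2. FIT-DET, model free, linear times, two witnesses -/

/-- **FIT-DET, MODEL FREE, LINEAR FORM**.   `γ` = the positions of ONE wall at the integer times `lo ≤ ts ≤ tt ≤ hi` (no period);   `K` = the frozen arc (times `ts..tt`, tips `ps ≈ γ ts`, `pt ≈ γ tt`);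
`Wt` = the witness of `t`: from the front `ft` (added segments) along the wall after the tip (times `tt..hi`) to the far point `qt`;   `Ws` = the witness of `s`: from the front `fs` along the wall BEFORE the tip (times `lo..ts`) to the far point `qs`.
EITHER the two fronts are joined by a free channel (off `K`, at distance `≥ r` from `K \ M`) OR the wall makes three passages between the times `lo` and `hi`. -/
theorem pvfu_fit_lin {γ : ℕ → ℂ} {K Wt Ws M : Set ℂ} {c0 ft fs qt qs pt ps u v : ℂ} {ρ0 r μ S : ℝ} {lo ts tt hi : ℕ}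
    (hc : PvfrArc γ K (Wt ∪ Ws) μ (S + 8 * r) ts tt u v) (hr : 0 < r) (hμ : 0 ≤ μ) (hS : 8 * r + 2 * μ ≤ S) (hlots : lo ≤ ts) (htthi : tt ≤ hi)
    (hKk : IsCompact K) (hKb : K ⊆ closedBall c0 ρ0)
    (hWtc : IsPreconnected Wt) (hWtk : IsCompact Wt) (hdt : Disjoint Wt K) (hft : ft ∈ Wt) (hqt : qt ∈ Wt) (hfart : 3 / 2 * (ρ0 + 2 * r) < ‖qt - c0‖)
    (hWsc : IsPreconnected Ws) (hWsk : IsCompact Ws) (hds : Disjoint Ws K) (hfs : fs ∈ Ws) (hqs : qs ∈ Ws) (hfars : 3 / 2 * (ρ0 + 2 * r) < ‖qs - c0‖)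
    (hWt : ∀ w ∈ Wt, (∃ k, (tt ≤ k ∧ k ≤ hi) ∧ ‖w - γ k‖ ≤ μ) ∨ ∀ q ∈ K \ M, 13 * r < ‖w - q‖)
    (hWs : ∀ w ∈ Ws, (∃ k, (lo ≤ k ∧ k ≤ ts) ∧ ‖w - γ k‖ ≤ μ) ∨ ∀ q ∈ K \ M, 13 * r < ‖w - q‖)
    (hpt : ‖γ tt - pt‖ ≤ μ) (hps : ‖γ ts - ps‖ ≤ μ) (hlo : ∀ q ∈ K, S < ‖γ lo - q‖)
    (hMt : ∀ q ∈ K \ M, S + 5 * r < ‖pt - q‖) (hMs : ∀ q ∈ K \ M, S + 5 * r < ‖ps - q‖)
    (hFt : ∀ q ∈ K \ M, 3 * S + 5 * r < ‖ft - q‖) (hFs : ∀ q ∈ K \ M, 3 * S + 5 * r < ‖fs - q‖) :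
    (∃ U : Set ℂ, PvtcPlFree K M U r ∧ ft ∈ U ∧ fs ∈ U) ∨ ∃ x ∈ K, PvfrThree γ x (8 * r + μ) (S - μ) lo hi := by
  have hle : ts ≤ tt := pvfr_arc_le hc
  rcases pvfu_two (M := M) hr (pvfr_arc_conn hc) hKk hKb hWtc hWtk hdt hft hqt hfart hWsc hWsk hds hfs hqs hfars with h | h | h
  · exact Or.inl h
  · right
    obtain ⟨x, hx, h3⟩ := pvfr_arc_fwd (hi := hi) (pvfr_arc_mono hc subset_union_left le_rfl le_rfl le_rfl) hr hμ hS hWt hpt hps hMt hMs hFt h
    exact ⟨x, hx, pvfr_three_mono h3 le_rfl le_rfl hlots le_rfl⟩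
  · right
    exact pvfr_arc_bwd (lo := lo) (pvfr_arc_mono hc subset_union_right le_rfl le_rfl htthi) hr hμ hS hWs hps hlo hMs hFs h

/-! ## 3. (CORE-FREE) in metric form -/

section core

variable {V D : Type} {T : PvMap V D} {pos : V → ℂ} {h : ℝ} {z : ℂ} {τ : PvwTy} {s σ : V → Bool} {𝔖 : PvwSt T}

/-- a dart which is not inside the gate starts at distance `≥ a h` from the centre -/
theorem pvfu_gate_src (hT : T.IsSph) (hG : 𝔖.Gate pos h z τ s) {d : D} (hd : d ∉ 𝔖.S.Left) : τ.a * h ≤ ‖pos (T.src d) - z‖ := by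
  by_contra hcon
  rw [not_le] at hcon
  have h1 : T.src d ∈ T.VOf 𝔖.S.Left := hG.round _ hcon
  rw [pl_VOf_left hT] at h1
  rcases h1 with h1 | h1
  · exact absurd (hG.ann _ h1).1 (not_le.2 hcon)
  · exact hd (h1 d rfl)

theorem pvfu_gate_tgt (hT : T.IsSph) (hG : 𝔖.Gate pos h z τ s) {d : D} (hd : d ∉ 𝔖.S.Left) : τ.a * h ≤ ‖pos (T.tgt d) - z‖ :=
  pvfu_gate_src hT hG (d := T.nxt d) fun h1 => hd ((pl_left_face 𝔖.S d).1 h1)

theorem pvfu_gate_apex (hT : T.IsSph) (hG : 𝔖.Gate pos h z τ s) {d : D} (hd : d ∉ 𝔖.S.Left) : τ.a * h ≤ ‖pos (T.apex d) - z‖ :=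
  pvfu_gate_src hT hG (d := T.nxt (T.nxt d)) fun h1 => hd ((pl_left_face 𝔖.S d).1 ((pl_left_face 𝔖.S (T.nxt d)).1 h1))

/-- the midpoint of an edge of length `≤ μ` of a face which is not inside the gate -/
theorem pvfu_gate_mid (hT : T.IsSph) (hG : 𝔖.Gate pos h z τ s) {d : D} (hd : d ∉ 𝔖.S.Left) {μ : ℝ} (hμ : ‖pos (T.src d) - pos (T.tgt d)‖ ≤ μ) :
    τ.a * h - μ / 2 ≤ ‖pvfbMid T pos d - z‖ := by
  have h1 := pvfu_gate_src hT hG hd
  have e : pos (T.src d) - z = (pvfbMid T pos d - z) + (pos (T.src d) - pos (T.tgt d)) / 2 := by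
    unfold pvfbMid; ring
  have h2 : ‖pos (T.src d) - z‖ ≤ ‖pvfbMid T pos d - z‖ + ‖pos (T.src d) - pos (T.tgt d)‖ / 2 := by
    rw [e]
    refine (norm_add_le _ _).trans ?_
    rw [norm_div]
    simp
  linarith

/-- **(CORE-FREE), METRIC FORM**: a wall polygon none of whose faces lies inside the gate stays at distance `≥ a h - 2 μ` from the centre -/
theorem pvfu_core_free (hT : T.IsSph) (G : PlGeo T pos) (hG : 𝔖.Gate pos h z τ s) {a : D} {i j : ℕ} {μ : ℝ}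
    (hμ : ∀ l, i ≤ l → l < j → ∀ e, T.SF (pvasIt T σ a l) e → ‖pos (T.src e) - pos (T.tgt e)‖ ≤ μ)
    (hoff : ∀ l, i ≤ l → l < j → pvasIt T σ a l ∉ 𝔖.S.Left) {x : ℂ} (hx : x ∈ pvfbWall T pos σ a i j) : τ.a * h - 2 * μ ≤ ‖x - z‖ := by
  obtain ⟨l, h1, h2, h3, -⟩ := pvfh_wall_near G hμ hx
  have h4 := pvfu_gate_mid hT hG (hoff l h1 h2) (hμ l h1 h2 _ (T.sf_refl _))
  have h5 : 0 ≤ μ := (norm_nonneg _).trans (hμ l h1 h2 _ (T.sf_refl _))
  have h6 := pvfr_tri (pvfbMid T pos (pvasIt T σ a l)) x z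
  rw [norm_sub_rev (pvfbMid T pos (pvasIt T σ a l)) x] at h6
  linarith

/-- a segment whose two ends are at distance `≥ A` from `z`, of length `≤ t` -/
theorem pvfu_seg_free {p q x : ℂ} {A t : ℝ} (hp : A ≤ ‖p - z‖) (hpq : ‖q - p‖ ≤ t) (hx : x ∈ segment ℝ p q) : A - t ≤ ‖x - z‖ := by
  obtain ⟨a, b, ha, hb, hab, rfl⟩ := hx
  have e : p - z = (a • p + b • q - z) - b • (q - p) := by
    have : a = 1 - b := by linarith
    subst this
    simp only [Complex.real_smul]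
    push_cast
    ring
  have h1 : ‖p - z‖ ≤ ‖a • p + b • q - z‖ + ‖b • (q - p)‖ := by
    rw [e]; exact norm_sub_le _ _
  have h2 : ‖b • (q - p)‖ ≤ t := by
    rw [norm_smul, Real.norm_of_nonneg hb]
    have : b ≤ 1 := by linarith
    calc b * ‖q - p‖ ≤ 1 * ‖q - p‖ := mul_le_mul_of_nonneg_right this (norm_nonneg _)
      _ ≤ t := by linarith
  linarith

/-- points at distance `≥ A` from the centre are far from the core disc -/
theorem pvfu_disc_far {W : Set ℂ} {A B L : ℝ} (hW : ∀ w ∈ W, A ≤ ‖w - z‖) (hL : L < A - B) : ∀ p ∈ closedBall z B, ∀ w ∈ W, L < ‖w - p‖ := by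
  intro p hp w hw
  rw [mem_closedBall, dist_eq_norm] at hp
  have h1 := hW w hw
  have h2 := pvfr_tri w p z
  linarith

/-- **the core disc is a FAT one-piece arc** of the obstacle, attached to the time `t` of a position with its midpoint within `μ` of the disc -/
theorem pvfu_disc_arc {γ : ℕ → ℂ} {W : Set ℂ} {A B L μ : ℝ} {t : ℕ} {u v : ℂ} (hu : u ∈ closedBall z B) (hv : v ∈ closedBall z B)
    (hn : ∃ p ∈ closedBall z B, ‖p - γ t‖ ≤ μ) (hW : ∀ w ∈ W, A ≤ ‖w - z‖) (hL : L < A - B) : PvfrArc γ (closedBall z B) W μ L t t u v :=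
  pvfr_arc_fat (convex_closedBall z B).isPreconnected hu hv hn (pvfu_disc_far hW hL)

end core

end Claimed.Agent.R289
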