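-- KEEP
import Claimed.Agent.R289.Tr.Fit
import Claimed.Agent.R289.Tr.FitClock
import Claimed.Agent.R289.Tr.FitHyp

/-!
# Row 289 (S0537, Cardy for Poisson-Voronoi), THE WALL, road E, FIT-DET (W1_118 PART V, (S2) / ruling 9bis), file Tr/FitGate : CORE-FREE AT THE VOCABULARY OF RECORD      (author + prover helper118; prefix `pvftg_`)

The combinatorial input of `pvfu_core_free` (120) and of the field `far` of the FAT pieces (the two core discs) of `PvfrArc` (151) / `PvaccScene.arc` (211), on `Tr/Defs` v3 and the clock `PvfwClock` of 49.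
* §1 THE BRIDGE `PvwSt.Gate ⟹ PvMap.Gate` : **`pvftg_gate`** : `∃ g : T.Gate s, g.c.Left = 𝔖.S.Left ∧ g.c.darts = 𝔖.S.darts ∧ g.aIn = 𝔖.dm ∧ g.aOut = 𝔖.dp`.
* §2 ONE PASSAGE, INTERVAL FORM (no marked entrance, either orientation bit of the gate): **`pvftg_conv`** : `c` a black circuit through the gate, `a_0, …, a_N` a strand piece with different positions, off `c.Left`, `a_0` outside the gate:
     the times `k ≤ N` with `a_k ∈ S.Left` form an INTERVAL.      `pvftg_after`, `pvftg_before`.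
* §3 METRIC TESTS: `pvftg_in` (black end in `B(z, a h)` ⟹ the position is inside), `pvftg_out` (a vertex of the face off `B(z, b h)` ⟹ outside).
* §4 AT THE CLOCK: **`pvftg_clock_after`**, **`pvftg_clock_before`** : `k₁ ≤ k₂ ≤ k₃ < nL`, the wall is in `B(z, a h)` at `k₁` and off `B(z, b h)` at `k₂` ⟹ the face of the position number `k₃` has its three vertices off `B(z, a h)`;   the same backwards.
     USE (49): gate := the OUTER ACTUAL gate `S₂` of `s` or of `t` (`Actual.out_s/out_t`, `PvxvPre.gate2_*`), `k₁` := the time of `dm` of the pin, `k₂` := the time of the tip of `t` (forwards; `k₃ ∈ [tt, hi]`) resp. `k₂` := the time of the tip of `s`, `k₃` := the time of `dm` (backwards; `k₁ ∈ [lo, ts]`).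
-/

set_option autoImplicit false
set_option linter.unusedSectionVars false
set_option linter.unusedVariables false

namespace Claimed.Agent.R289

open Set

variable {V D : Type} {T : PvMap V D} {s : V → Bool}

/-! ## 1. the bridge -/

/-- **`PvwSt.Gate ⟹ PvMap.Gate`**: the gate of a state of record, read from `g⁻`, is a gate in the sense of `Tr/GateB`: same inside, `aIn = dm`, `aOut = dp` -/
theorem pvftg_gate (hT : T.IsSph) {𝔖 : PvwSt T} {pos : V → ℂ} {h : ℝ} {z : ℂ} {τ : PvwTy} (hG : 𝔖.Gate pos h z τ s) :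
    ∃ g : T.Gate s, g.c.Left = 𝔖.S.Left ∧ g.c.darts = 𝔖.S.darts ∧ g.aIn = 𝔖.dm ∧ g.aOut = 𝔖.dp := by
  obtain ⟨i0, hi0⟩ := hG.dm_on
  obtain ⟨i1, hi1⟩ := hG.dp_on
  set c := 𝔖.S.shift i0 with hc
  have hn : c.n = 𝔖.S.n := rfl
  have hd : c.darts = 𝔖.S.darts := pl_cyc_shift_darts _ _
  have e0 : c.e 0 = 𝔖.dm := by
    show 𝔖.S.e (0 + i0) = 𝔖.dm
    rw [Nat.zero_add]; exact hi0
  have hpos := pl_cyc_pos c
  -- the dart of the circuit which arrives at `g⁺`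
  have hop : T.opp 𝔖.dp ∈ c.darts := by rw [hd]; exact hG.dp_on
  obtain ⟨q, hq⟩ := hop
  have hq' : c.e (q % c.n) = T.opp 𝔖.dp := by rw [pl_cyc_mod]; exact hq
  have hqlt := Nat.mod_lt q hpos
  set p := q % c.n with hp
  have hgp : T.src (c.e (p + 1)) = 𝔖.gp := by rw [← c.chain, hq', T.tgt_opp]; rfl
  have hgm : T.src (c.e 0) = 𝔖.gm := by rw [e0]; rfl
  have hbp : s 𝔖.gp = true := hG.bw_p.1
  have hbm : s 𝔖.gm = true := hG.bw_m.1
  have hw1 : s (T.src (c.e 1)) = false := by rw [← c.chain, e0]; exact hG.bw_m.2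
  -- `p + 1 < n`
  have hp1 : p + 1 < c.n := by
    by_contra hcon
    have : p + 1 = c.n := by omega
    have h2 : c.e (p + 1) = c.e 0 := by rw [this]; have := c.per 0; rwa [Nat.zero_add] at this
    rw [h2, hgm] at hgp
    exact hG.ne hgp.symm
  have hp0 : p ≠ 0 := by
    intro h0
    rw [h0] at hgp
    rw [hgp, hbp] at hw1
    exact Bool.noConfusion hw1
  -- the left arc has a white site
  have hleft : s (T.src (c.e (p + 2))) = false := by
    rw [← c.chain]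
    exact hG.left _ (by rw [← hd]; exact ⟨p + 1, rfl⟩) hgp
  have hp2 : p + 2 < c.n := by
    by_contra hcon
    have : p + 2 = c.n := by omega
    have h2 : c.e (p + 2) = c.e 0 := by rw [this]; have := c.per 0; rwa [Nat.zero_add] at this
    rw [h2, hgm, hbm] at hleft
    exact Bool.noConfusion hleft
  refine ⟨⟨c, p + 1, by omega, by omega, ?_⟩, (pl_shift_left hT _ _).1, hd, e0, ?_⟩
  · intro i hi
    constructor
    · intro hb
      have hv : T.src (c.e i) ∈ 𝔖.S.verts := by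
        have : c.e i ∈ 𝔖.S.darts := by rw [← hd]; exact ⟨i, rfl⟩
        obtain ⟨k, hk⟩ := this
        exact ⟨k, by rw [hk]⟩
      rcases hG.two _ hv hb with h1 | h1
      · right
        exact c.inj _ _ hi hp1 (by rw [h1, hgp])
      · left
        exact c.inj _ _ hi hpos (by rw [h1, hgm])
    · rintro (rfl | rfl)
      · rw [hgm]; exact hbm
      · rw [hgp]; exact hbp
  · show T.opp (c.e (p + 1 - 1)) = 𝔖.dp
    rw [Nat.add_sub_cancel, hq', T.opp_opp]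

/-! ## 2. one passage, interval form -/

/-- on a strand off the left of a black circuit through the gate there is only ONE entrance of the gate -/
theorem pvftg_one_in (hT : T.IsSph) (g : T.Gate s) {c : T.Cyc} (hc : ∀ i, s (T.src (c.e i)) = true) {i j : ℕ} (hi : c.e i ∈ g.c.Left) (hj : c.e j ∉ g.c.Left)
    {x y : D} (hx : pvasIn T g.c.Left s x) (hy : pvasIn T g.c.Left s y) (hxc : x ∉ c.Left) (hyc : y ∉ c.Left) : x = y := by
  rcases (pvtg_in_iff hT g _).1 hx with h1 | h1 <;> rcases (pvtg_in_iff hT g _).1 hy with h2 | h2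
  · rw [h1, h2]
  · exact absurd (pvft_gate_sides hT g hc hi hj (h1 ▸ hxc)) (h2 ▸ hyc)
  · exact absurd (pvft_gate_sides hT g hc hi hj (h2 ▸ hyc)) (h1 ▸ hxc)
  · rw [h1, h2]

/-- between a time off the face set `A` and a later time in `A` there is an entrance -/
theorem pvftg_entrance {A : Set D} (hA : T.FaceSet A) {a : D} (ha : pvasBW T s a) {u t : ℕ} (hut : u ≤ t) (hu : pvasIt T s a u ∉ A) (ht : pvasIt T s a t ∈ A) :
    ∃ e, u < e ∧ e ≤ t ∧ pvasIn T A s (pvasIt T s a e) := by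
  induction t with
  | zero =>
    rw [Nat.le_zero.1 hut] at hu
    exact absurd ht hu
  | succ t ih =>
    by_cases hmem : pvasIt T s a t ∈ A
    · rcases Nat.lt_or_ge t u with h | h
      · have : u = t + 1 := by omega
        rw [this] at hu
        exact absurd ht hu
      · obtain ⟨e, h1, h2, h3⟩ := ih h hmem
        exact ⟨e, h1, by omega, h3⟩
    · rcases Nat.lt_or_ge t u with h | h
      · have : u = t + 1 := by omega
        rw [this] at hu
        exact absurd ht hu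
      · refine ⟨t + 1, by omega, le_rfl, ht, ?_, pvas_it_bw ha _⟩
        rw [pvas_it_succ, pvas_step_opp_mem hA]
        exact hmem

/-- **ONE PASSAGE, INTERVAL FORM**, gate of `Tr/GateB` -/
theorem pvftg_conv_g (hT : T.IsSph) (g : T.Gate s) {c : T.Cyc} (hc : ∀ i, s (T.src (c.e i)) = true) {i j : ℕ} (hi : c.e i ∈ g.c.Left) (hj : c.e j ∉ g.c.Left)
    {a : D} (ha : pvasBW T s a) (hac : a ∉ c.Left) {N : ℕ} (hinj : ∀ i j, i < j → j ≤ N → pvasIt T s a i ≠ pvasIt T s a j) (h0 : a ∉ g.c.Left)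
    {k1 k2 k3 : ℕ} (h12 : k1 ≤ k2) (h23 : k2 ≤ k3) (h3N : k3 ≤ N) (h1 : pvasIt T s a k1 ∈ g.c.Left) (h3 : pvasIt T s a k3 ∈ g.c.Left) : pvasIt T s a k2 ∈ g.c.Left := by
  by_contra h2
  have hA := pl_left_face g.c
  obtain ⟨e, -, he2, he3⟩ := pvftg_entrance hA ha (Nat.zero_le k1) (by rw [pvas_it_zero]; exact h0) h1
  obtain ⟨e', he1', he2', he3'⟩ := pvftg_entrance hA ha h23 h2 h3
  have hoff : ∀ k, pvasIt T s a k ∉ c.Left := fun k => by rw [pvft_side_it hc ha]; exact hac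
  exact hinj e e' (by omega) (by omega) (pvftg_one_in hT g hc hi hj he3 he3' (hoff _) (hoff _))

section rec

variable {𝔖 : PvwSt T} {pos : V → ℂ} {h : ℝ} {z : ℂ} {τ : PvwTy}

/-- **ONE PASSAGE, INTERVAL FORM**, gate of record (`Tr/Defs` v3): the times at which the wall of a rim is inside a gate form an interval -/
theorem pvftg_conv (hT : T.IsSph) (hG : 𝔖.Gate pos h z τ s) {c : T.Cyc} (hc : ∀ i, s (T.src (c.e i)) = true) {i j : ℕ} (hi : c.e i ∈ 𝔖.S.Left) (hj : c.e j ∉ 𝔖.S.Left)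
    {a : D} (ha : pvasBW T s a) (hac : a ∉ c.Left) {N : ℕ} (hinj : ∀ i j, i < j → j ≤ N → pvasIt T s a i ≠ pvasIt T s a j) (h0 : a ∉ 𝔖.S.Left)
    {k1 k2 k3 : ℕ} (h12 : k1 ≤ k2) (h23 : k2 ≤ k3) (h3N : k3 ≤ N) (h1 : pvasIt T s a k1 ∈ 𝔖.S.Left) (h3 : pvasIt T s a k3 ∈ 𝔖.S.Left) : pvasIt T s a k2 ∈ 𝔖.S.Left := by
  obtain ⟨g, hg, -, -, -⟩ := pvftg_gate hT hG
  rw [← hg] at hi hj h0 h1 h3 ⊢
  exact pvftg_conv_g hT g hc hi hj ha hac hinj h0 h12 h23 h3N h1 h3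

/-- after the passage -/
theorem pvftg_after (hT : T.IsSph) (hG : 𝔖.Gate pos h z τ s) {c : T.Cyc} (hc : ∀ i, s (T.src (c.e i)) = true) {i j : ℕ} (hi : c.e i ∈ 𝔖.S.Left) (hj : c.e j ∉ 𝔖.S.Left)
    {a : D} (ha : pvasBW T s a) (hac : a ∉ c.Left) {N : ℕ} (hinj : ∀ i j, i < j → j ≤ N → pvasIt T s a i ≠ pvasIt T s a j) (h0 : a ∉ 𝔖.S.Left)
    {k1 k2 k3 : ℕ} (h12 : k1 ≤ k2) (h23 : k2 ≤ k3) (h3N : k3 ≤ N) (h1 : pvasIt T s a k1 ∈ 𝔖.S.Left) (h2 : pvasIt T s a k2 ∉ 𝔖.S.Left) : pvasIt T s a k3 ∉ 𝔖.S.Left :=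
  fun h3 => h2 (pvftg_conv hT hG hc hi hj ha hac hinj h0 h12 h23 h3N h1 h3)

/-- before the passage -/
theorem pvftg_before (hT : T.IsSph) (hG : 𝔖.Gate pos h z τ s) {c : T.Cyc} (hc : ∀ i, s (T.src (c.e i)) = true) {i j : ℕ} (hi : c.e i ∈ 𝔖.S.Left) (hj : c.e j ∉ 𝔖.S.Left)
    {a : D} (ha : pvasBW T s a) (hac : a ∉ c.Left) {N : ℕ} (hinj : ∀ i j, i < j → j ≤ N → pvasIt T s a i ≠ pvasIt T s a j) (h0 : a ∉ 𝔖.S.Left)
    {k1 k2 k3 : ℕ} (h12 : k1 ≤ k2) (h23 : k2 ≤ k3) (h3N : k3 ≤ N) (h2 : pvasIt T s a k2 ∉ 𝔖.S.Left) (h3 : pvasIt T s a k3 ∈ 𝔖.S.Left) : pvasIt T s a k1 ∉ 𝔖.S.Left :=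
  fun h1 => h2 (pvftg_conv hT hG hc hi hj ha hac hinj h0 h12 h23 h3N h1 h3)

/-! ## 3. metric tests -/

/-- a dart whose source lies in the open disc `B(z, a h)` is inside the gate -/
theorem pvftg_in (hT : T.IsSph) (hG : 𝔖.Gate pos h z τ s) {d : D} (hd : ‖pos (T.src d) - z‖ < τ.a * h) : d ∈ 𝔖.S.Left := by
  by_contra hc
  exact absurd (pvfu_gate_src hT hG hc) (not_le.2 hd)

/-- a dart whose source lies off the open disc `B(z, b h)` is not inside the gate -/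
theorem pvftg_out (hG : 𝔖.Gate pos h z τ s) {d : D} (hd : τ.b * h ≤ ‖pos (T.src d) - z‖) : d ∉ 𝔖.S.Left :=
  fun hc => absurd (hG.inside _ ⟨d, hc, rfl⟩) (not_lt.2 hd)

/-- the same with the target -/
theorem pvftg_out_tgt (hG : 𝔖.Gate pos h z τ s) {d : D} (hd : τ.b * h ≤ ‖pos (T.tgt d) - z‖) : d ∉ 𝔖.S.Left := by
  intro hc
  have h1 : T.nxt d ∈ 𝔖.S.Left := (pl_left_face 𝔖.S d).2 hc
  exact pvftg_out hG (d := T.nxt d) hd h1

/-! ## 4. at the clock -/

variable {c : T.Cyc} {a : D} {nL : ℕ} {θ : ℕ → ℕ}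

/-- the wall of a black rim runs off the left of the rim -/
theorem pvftg_clock_off (hT : T.IsSph) (C : PvfwClock T s c a nL θ) : a ∉ c.Left := by
  obtain ⟨hR, -, hO, -⟩ := pl_jordan hT c
  have h1 : T.opp (c.e 0) ∉ c.Left := by
    have := hO 0
    rwa [hR] at this
  rw [C.a_eq]
  intro h2
  apply h1
  have h3 : T.rotInv (c.e 0) = T.nxt (T.opp (c.e 0)) := rfl
  rw [h3] at h2
  exact (pl_left_face c _).1 h2

/-- different times of one turn -/
theorem pvftg_clock_inj (C : PvfwClock T s c a nL θ) : ∀ i j, i < j → j ≤ nL - 1 → pvasIt T s a i ≠ pvasIt T s a j := by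
  intro i j hij hj e
  have := C.pos
  have := C.inj (i := i) (j := j) (by omega) (by omega) e
  omega

/-- the first position of the clock is outside a gate which does not contain the far cut -/
theorem pvftg_clock_start (C : PvfwClock T s c a nL θ) (hG : 𝔖.Gate pos h z τ s) (h0 : τ.b * h ≤ ‖pos (T.src (c.e 0)) - z‖) : a ∉ 𝔖.S.Left := by
  refine pvftg_out hG ?_
  have h1 : T.src a = T.src (c.e 0) := by
    rw [C.a_eq]
    show T.src (T.nxt (T.opp (c.e 0))) = T.src (c.e 0)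
    rw [← T.tgt_opp (c.e 0)]
    rfl
  rw [h1]
  exact h0

/-- **CORE-FREE AT THE CLOCK, the times inside a gate form an interval** -/
theorem pvftg_clock_conv (hT : T.IsSph) (hG : 𝔖.Gate pos h z τ s) (C : PvfwClock T s c a nL θ) (hc : ∀ i, s (T.src (c.e i)) = true) {i : ℕ}
    (hi : ‖pos (T.src (c.e i)) - z‖ < τ.a * h) (h0 : τ.b * h ≤ ‖pos (T.src (c.e 0)) - z‖)
    {k1 k2 k3 : ℕ} (h12 : k1 ≤ k2) (h23 : k2 ≤ k3) (h3N : k3 < nL) (h1 : pvasIt T s a k1 ∈ 𝔖.S.Left) (h3 : pvasIt T s a k3 ∈ 𝔖.S.Left) : pvasIt T s a k2 ∈ 𝔖.S.Left :=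
  pvftg_conv hT hG hc (pvftg_in hT hG hi) (pvftg_out hG h0) C.bw (pvftg_clock_off hT C) (pvftg_clock_inj C) (pvftg_clock_start C hG h0) h12 h23 (by omega) h1 h3

/-- **CORE-FREE AT THE CLOCK, FORWARDS**: the wall is in `B(z, a h)` at the time `k₁`, off `B(z, b h)` at the time `k₂ ≥ k₁`: from `k₂` on (up to the end of the turn) its faces are outside the gate and have their three vertices off `B(z, a h)` -/
theorem pvftg_clock_after (hT : T.IsSph) (hG : 𝔖.Gate pos h z τ s) (C : PvfwClock T s c a nL θ) (hc : ∀ i, s (T.src (c.e i)) = true) {i : ℕ}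
    (hi : ‖pos (T.src (c.e i)) - z‖ < τ.a * h) (h0 : τ.b * h ≤ ‖pos (T.src (c.e 0)) - z‖)
    {k1 k2 k3 : ℕ} (h12 : k1 ≤ k2) (h23 : k2 ≤ k3) (h3N : k3 < nL) (h1 : ‖pos (T.src (pvasIt T s a k1)) - z‖ < τ.a * h) (h2 : τ.b * h ≤ ‖pos (T.src (pvasIt T s a k2)) - z‖) :
    pvasIt T s a k3 ∉ 𝔖.S.Left ∧ τ.a * h ≤ ‖pos (T.src (pvasIt T s a k3)) - z‖ ∧ τ.a * h ≤ ‖pos (T.tgt (pvasIt T s a k3)) - z‖ ∧ τ.a * h ≤ ‖pos (T.apex (pvasIt T s a k3)) - z‖ := by
  have h3 : pvasIt T s a k3 ∉ 𝔖.S.Left := fun h3 => pvftg_out hG h2 (pvftg_clock_conv hT hG C hc hi h0 h12 h23 h3N (pvftg_in hT hG h1) h3)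
  exact ⟨h3, pvfu_gate_src hT hG h3, pvfu_gate_tgt hT hG h3, pvfu_gate_apex hT hG h3⟩

/-- **CORE-FREE AT THE CLOCK, BACKWARDS**: the wall is off `B(z, b h)` at the time `k₂`, in `B(z, a h)` at the time `k₃ ≥ k₂`: up to `k₂` its faces are outside the gate and have their three vertices off `B(z, a h)` -/
theorem pvftg_clock_before (hT : T.IsSph) (hG : 𝔖.Gate pos h z τ s) (C : PvfwClock T s c a nL θ) (hc : ∀ i, s (T.src (c.e i)) = true) {i : ℕ}
    (hi : ‖pos (T.src (c.e i)) - z‖ < τ.a * h) (h0 : τ.b * h ≤ ‖pos (T.src (c.e 0)) - z‖)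
    {k1 k2 k3 : ℕ} (h12 : k1 ≤ k2) (h23 : k2 ≤ k3) (h3N : k3 < nL) (h2 : τ.b * h ≤ ‖pos (T.src (pvasIt T s a k2)) - z‖) (h3 : ‖pos (T.src (pvasIt T s a k3)) - z‖ < τ.a * h) :
    pvasIt T s a k1 ∉ 𝔖.S.Left ∧ τ.a * h ≤ ‖pos (T.src (pvasIt T s a k1)) - z‖ ∧ τ.a * h ≤ ‖pos (T.tgt (pvasIt T s a k1)) - z‖ ∧ τ.a * h ≤ ‖pos (T.apex (pvasIt T s a k1)) - z‖ := by
  have h1 : pvasIt T s a k1 ∉ 𝔖.S.Left := fun h1 => pvftg_out hG h2 (pvftg_clock_conv hT hG C hc hi h0 h12 h23 h3N h1 (pvftg_in hT hG h3))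
  exact ⟨h1, pvfu_gate_src hT hG h1, pvfu_gate_tgt hT hG h1, pvfu_gate_apex hT hG h1⟩

end rec

end Claimed.Agent.R289
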