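import Claimed.Agent.R289.Tr.Defs
import Claimed.Agent.R289.Pl.Jordan

/-!
# Row 289 (S0537), THE WALL, file Tr/StKit : THE STOPPING-SET KIT OF THE STATES OF `Tr/Defs`      (owner helper25; prefix `pvwk_`; definitions of record = `Tr/Defs` of helper216, sec. 1 of `W1_208.md`)

DETERMINISTIC, no probability.      What (C2) INJECTIVITY ("`D` is a function of `(ω, P', π)`"), "`P(Σ actual) ≤ P(Cyl Σ)`" and every "read from the state" consume: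

* sec. 0  `PvwAgree` calculus
* sec. 1  the BACKWARD strand: `(pvasBack T s)^[i] d = opp (strand of the exchanged colouring from opp d)` (`pvwk_back_it`), it is undone by the forward strand (`pvwk_it_back`), it is a stopping set (`pvwk_back_congr`)
* sec. 2  STUBS: banks = layers of 158 (`pvwk_bkP_eq` …), colours of the four banks, `pvwk_stubP_congr`, `pvwk_stubM_congr` (**a colouring which agrees with `s` on the two banks of a stub has the same stub**),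
          `pvwk_stub_unique_p/m` (**the stubs are functions of `(s, dp, dm, B)`**), `pvwk_stub_exists`, all the frozen sites of a stub lie in the box (`pvwk_banksP_in`), THE TIP APEX IS FRESH (`pvwk_ap_fresh`), the entrance stub run forwards arrives at `dm`
* sec. 3  finiteness of the frozen sets
* sec. 4  GATE: `pvwk_gate_congr` (**the gate with its gate edges, inner strand, inner arc, marked vertex is read from its closed inside `ins ⊆ core`**), `pvwk_inmost_congr` (**the fixed rule is read from the core**), `pvwk_inmost_unique`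
* sec. 6  `NU` (160): `pvwk_nu_ycl` (`NU ⊆ YCLᶜ`), `pvwk_nu_col`, `pvwk_comp_yc0`, `pvwk_yc0_sub`, `pvwk_nu_of_empty`
* sec. 5  STATE: `pvwk_atOut_congr`, `pvwk_atIn_congr`, `pvwk_at_congr` (**the half states and the state are CYLINDERS**), colours, fresh tip apexes, the strand through the state
-/

set_option autoImplicit false

namespace Claimed.Agent.R289

open Set

variable {V D : Type} {T : PvMap V D} {pos : V → ℂ} {s s' s'' : V → Bool} {B : Set ℂ} {F F' : Set V} {d : D}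

/-! ## 0. agreement -/

theorem pvwk_agree_refl (F : Set V) (s : V → Bool) : PvwAgree F s s := fun _ _ => rfl

theorem pvwk_agree_symm (h : PvwAgree F s s') : PvwAgree F s' s := fun v hv => (h v hv).symm

theorem pvwk_agree_trans (h : PvwAgree F s s') (h' : PvwAgree F s' s'') : PvwAgree F s s'' := fun v hv => (h v hv).trans (h' v hv)

theorem pvwk_agree_mono (hF : F' ⊆ F) (h : PvwAgree F s s') : PvwAgree F' s s' := fun v hv => h v (hF hv)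

theorem pvwk_agree_union : PvwAgree (F ∪ F') s s' ↔ PvwAgree F s s' ∧ PvwAgree F' s s' :=
  ⟨fun h => ⟨pvwk_agree_mono subset_union_left h, pvwk_agree_mono subset_union_right h⟩, fun h v hv => hv.elim (h.1 v) (h.2 v)⟩

theorem pvwk_agree_not (h : PvwAgree F s s') : PvwAgree F (pvasNot s) (pvasNot s') := fun v hv => by
  unfold pvasNot; rw [h v hv]

/-! ## 1. the backward strand -/

/-- the backward strand = the strand of the exchanged colouring from the opposite dart, read on the opposite darts -/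
theorem pvwk_back_it (s : V → Bool) (d : D) (i : ℕ) : (pvasBack T s)^[i] d = T.opp (pvasIt T (pvasNot s) (T.opp d) i) := by
  induction i with
  | zero => exact (T.opp_opp d).symm
  | succ i ih => rw [Function.iterate_succ_apply', ih, pvas_back_eq, T.opp_opp, pvas_it_succ]

theorem pvwk_back_bw (h : pvasBW T s d) (i : ℕ) : pvasBW T s ((pvasBack T s)^[i] d) := by
  induction i with
  | zero => exact h
  | succ i ih => rw [Function.iterate_succ_apply']; exact pvas_back_bw ih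

/-- the forward strand undoes the backward strand -/
theorem pvwk_it_back (h : pvasBW T s d) {i n : ℕ} (hi : i ≤ n) : pvasIt T s ((pvasBack T s)^[n] d) i = (pvasBack T s)^[n - i] d := by
  induction i with
  | zero => rfl
  | succ i ih =>
    obtain ⟨k, hk⟩ : ∃ k, n - i = k + 1 := ⟨n - i - 1, by omega⟩
    have hk' : n - (i + 1) = k := by omega
    rw [pvas_it_succ, ih (Nat.le_of_succ_le hi), hk, hk', Function.iterate_succ_apply', pvas_step_back (pvwk_back_bw h k)]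

theorem pvwk_it_back_end (h : pvasBW T s d) (n : ℕ) : pvasIt T s ((pvasBack T s)^[n] d) n = d := by
  rw [pvwk_it_back h le_rfl, Nat.sub_self]; rfl

/-- **the backward strand is a stopping set** -/
theorem pvwk_back_congr {n : ℕ} (h : ∀ i, i ≤ n → s' (T.src ((pvasBack T s)^[i] d)) = s (T.src ((pvasBack T s)^[i] d)) ∧ s' (T.tgt ((pvasBack T s)^[i] d)) = s (T.tgt ((pvasBack T s)^[i] d))) :
    ∀ i, i ≤ n → (pvasBack T s')^[i] d = (pvasBack T s)^[i] d := by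
  intro i hi
  rw [pvwk_back_it, pvwk_back_it]
  congr 1
  refine pvas_it_congr (n := n) ?_ i hi
  rintro v (⟨j, hj, rfl⟩ | ⟨j, hj, rfl⟩)
  · have := (h j hj).2
    rw [pvwk_back_it, T.tgt_opp] at this
    exact congrArg (!·) this
  · have := (h j hj).1
    rw [pvwk_back_it, T.src_opp'] at this
    exact congrArg (!·) this

/-! ## 2. stubs -/

section stub

variable {𝔖 𝔖' : PvwSt T}

theorem pvwk_bkP_eq (h : 𝔖.StubP pos B s) : 𝔖.bkP = pvasLayB T s 𝔖.dp 𝔖.np := by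
  ext v
  constructor
  · rintro ⟨i, hi, rfl⟩; exact ⟨i, hi, by rw [h.ep_it i hi]⟩
  · rintro ⟨i, hi, rfl⟩; exact ⟨i, hi, by rw [h.ep_it i hi]⟩

theorem pvwk_whP_eq (h : 𝔖.StubP pos B s) : 𝔖.whP = pvasLayW T s 𝔖.dp 𝔖.np := by
  ext v
  constructor
  · rintro ⟨i, hi, rfl⟩; exact ⟨i, hi, by rw [h.ep_it i hi]⟩
  · rintro ⟨i, hi, rfl⟩; exact ⟨i, hi, by rw [h.ep_it i hi]⟩

/-- the black bank of the entrance stub = the WHITE layer of the strand of the exchanged colouring from `opp dm` -/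
theorem pvwk_bkM_eq (h : 𝔖.StubM pos B s) : 𝔖.bkM = pvasLayW T (pvasNot s) (T.opp 𝔖.dm) 𝔖.nm := by
  ext v
  constructor
  · rintro ⟨i, hi, rfl⟩; exact ⟨i, hi, by rw [h.em_it i hi, pvwk_back_it, T.src_opp']⟩
  · rintro ⟨i, hi, rfl⟩; exact ⟨i, hi, by rw [h.em_it i hi, pvwk_back_it, T.src_opp']⟩

theorem pvwk_whM_eq (h : 𝔖.StubM pos B s) : 𝔖.whM = pvasLayB T (pvasNot s) (T.opp 𝔖.dm) 𝔖.nm := by
  ext v
  constructor
  · rintro ⟨i, hi, rfl⟩; exact ⟨i, hi, by rw [h.em_it i hi, pvwk_back_it, T.tgt_opp]⟩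
  · rintro ⟨i, hi, rfl⟩; exact ⟨i, hi, by rw [h.em_it i hi, pvwk_back_it, T.tgt_opp]⟩

theorem pvwk_ep_bw (h : 𝔖.StubP pos B s) (hb : pvasBW T s 𝔖.dp) {i : ℕ} (hi : i ≤ 𝔖.np) : pvasBW T s (𝔖.ep i) := by
  rw [h.ep_it i hi]; exact pvas_it_bw hb i

theorem pvwk_em_bw (h : 𝔖.StubM pos B s) (hb : pvasBW T s 𝔖.dm) {i : ℕ} (hi : i ≤ 𝔖.nm) : pvasBW T s (𝔖.em i) := by
  rw [h.em_it i hi]; exact pvwk_back_bw hb i

theorem pvwk_bkP_col (h : 𝔖.StubP pos B s) (hb : pvasBW T s 𝔖.dp) {v : V} (hv : v ∈ 𝔖.bkP) : s v = true := by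
  obtain ⟨i, hi, rfl⟩ := hv; exact (pvwk_ep_bw h hb hi).1

theorem pvwk_whP_col (h : 𝔖.StubP pos B s) (hb : pvasBW T s 𝔖.dp) {v : V} (hv : v ∈ 𝔖.whP) : s v = false := by
  obtain ⟨i, hi, rfl⟩ := hv; exact (pvwk_ep_bw h hb hi).2

theorem pvwk_bkM_col (h : 𝔖.StubM pos B s) (hb : pvasBW T s 𝔖.dm) {v : V} (hv : v ∈ 𝔖.bkM) : s v = true := by
  obtain ⟨i, hi, rfl⟩ := hv; exact (pvwk_em_bw h hb hi).1

theorem pvwk_whM_col (h : 𝔖.StubM pos B s) (hb : pvasBW T s 𝔖.dm) {v : V} (hv : v ∈ 𝔖.whM) : s v = false := by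
  obtain ⟨i, hi, rfl⟩ := hv; exact (pvwk_em_bw h hb hi).2

theorem pvwk_ep_zero (h : 𝔖.StubP pos B s) : 𝔖.ep 0 = 𝔖.dp := h.ep_it 0 (Nat.zero_le _)

theorem pvwk_em_zero (h : 𝔖.StubM pos B s) : 𝔖.em 0 = 𝔖.dm := h.em_it 0 (Nat.zero_le _)

theorem pvwk_ep_succ (h : 𝔖.StubP pos B s) {i : ℕ} (hi : i < 𝔖.np) : 𝔖.ep (i + 1) = pvasStep T s (𝔖.ep i) := by
  rw [h.ep_it _ hi, h.ep_it _ hi.le, pvas_it_succ]

theorem pvwk_em_succ (h : 𝔖.StubM pos B s) {i : ℕ} (hi : i < 𝔖.nm) : 𝔖.em (i + 1) = pvasBack T s (𝔖.em i) := by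
  rw [h.em_it _ hi, h.em_it _ hi.le, Function.iterate_succ_apply']

/-- **the entrance stub run forwards**: the strand of `s` from the tip position `em nm` runs through `em (nm - i)` and arrives at the entry gate edge after `nm` steps -/
theorem pvwk_em_fwd (h : 𝔖.StubM pos B s) (hb : pvasBW T s 𝔖.dm) {i : ℕ} (hi : i ≤ 𝔖.nm) : pvasIt T s (𝔖.em 𝔖.nm) i = 𝔖.em (𝔖.nm - i) := by
  rw [h.em_it _ le_rfl, h.em_it _ (Nat.sub_le _ _), pvwk_it_back hb hi]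

theorem pvwk_em_fwd_end (h : 𝔖.StubM pos B s) (hb : pvasBW T s 𝔖.dm) : pvasIt T s (𝔖.em 𝔖.nm) 𝔖.nm = 𝔖.dm := by
  rw [pvwk_em_fwd h hb le_rfl, Nat.sub_self, pvwk_em_zero h]

/-- **STOPPING SET, exit stub**: a colouring which agrees with `s` on the two banks has the same exit stub -/
theorem pvwk_stubP_congr (h : 𝔖.StubP pos B s) (hP : PvwAgree (𝔖.bkP ∪ 𝔖.whP) s s') : 𝔖.StubP pos B s' := by
  refine ⟨fun i hi => ?_, h.ep_in, h.ep_ax, h.ep_out⟩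
  rw [h.ep_it i hi]
  refine (pvas_it_congr (n := 𝔖.np) ?_ i hi).symm
  rintro v (hv | hv)
  · exact (hP v (Or.inl (by rw [pvwk_bkP_eq h]; exact hv))).symm
  · exact (hP v (Or.inr (by rw [pvwk_whP_eq h]; exact hv))).symm

/-- **STOPPING SET, entrance stub** -/
theorem pvwk_stubM_congr (h : 𝔖.StubM pos B s) (hM : PvwAgree (𝔖.bkM ∪ 𝔖.whM) s s') : 𝔖.StubM pos B s' := by
  refine ⟨fun i hi => ?_, h.em_in, h.em_ax, h.em_out⟩
  rw [h.em_it i hi]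
  refine (pvwk_back_congr (n := 𝔖.nm) ?_ i hi).symm
  intro j hj
  rw [← h.em_it j hj]
  exact ⟨(hM _ (Or.inl ⟨j, hj, rfl⟩)).symm, (hM _ (Or.inr ⟨j, hj, rfl⟩)).symm⟩

theorem pvwk_stub_congr (h : 𝔖.Stub pos B s) (hP : PvwAgree (𝔖.bkP ∪ 𝔖.whP) s s') (hM : PvwAgree (𝔖.bkM ∪ 𝔖.whM) s s') : 𝔖.Stub pos B s' :=
  ⟨pvwk_stubP_congr h.1 hP, pvwk_stubM_congr h.2 hM⟩

/-- **UNIQUENESS of the exit stub**: it is a function of `(s, dp, B)` -/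
theorem pvwk_stub_unique_p (h : 𝔖.StubP pos B s) (h' : 𝔖'.StubP pos B s) (hd : 𝔖.dp = 𝔖'.dp) : 𝔖.np = 𝔖'.np ∧ ∀ i, i ≤ 𝔖.np → 𝔖.ep i = 𝔖'.ep i := by
  have key : ∀ i, i ≤ 𝔖.np → i ≤ 𝔖'.np → 𝔖.ep i = 𝔖'.ep i := fun i h1 h2 => by rw [h.ep_it i h1, h'.ep_it i h2, hd]
  have hn : 𝔖.np = 𝔖'.np := by
    rcases lt_trichotomy 𝔖.np 𝔖'.np with hlt | heq | hlt
    · exact absurd (by unfold PvwSt.ap; rw [key _ le_rfl hlt.le]; exact h'.ep_ax _ hlt) h.ep_out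
    · exact heq
    · exact absurd (by unfold PvwSt.ap; rw [← key _ hlt.le le_rfl]; exact h.ep_ax _ hlt) h'.ep_out
  exact ⟨hn, fun i hi => key i hi (hn ▸ hi)⟩

/-- **UNIQUENESS of the entrance stub** -/
theorem pvwk_stub_unique_m (h : 𝔖.StubM pos B s) (h' : 𝔖'.StubM pos B s) (hd : 𝔖.dm = 𝔖'.dm) : 𝔖.nm = 𝔖'.nm ∧ ∀ i, i ≤ 𝔖.nm → 𝔖.em i = 𝔖'.em i := by
  have key : ∀ i, i ≤ 𝔖.nm → i ≤ 𝔖'.nm → 𝔖.em i = 𝔖'.em i := fun i h1 h2 => by rw [h.em_it i h1, h'.em_it i h2, hd]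
  have hn : 𝔖.nm = 𝔖'.nm := by
    rcases lt_trichotomy 𝔖.nm 𝔖'.nm with hlt | heq | hlt
    · exact absurd (by unfold PvwSt.am; rw [key _ le_rfl hlt.le]; exact h'.em_ax _ hlt) h.em_out
    · exact heq
    · exact absurd (by unfold PvwSt.am; rw [← key _ hlt.le le_rfl]; exact h.em_ax _ hlt) h'.em_out
  exact ⟨hn, fun i hi => key i hi (hn ▸ hi)⟩

/-- same banks, same tip, same tip apex -/
theorem pvwk_stub_unique_sets_p (h : 𝔖.StubP pos B s) (h' : 𝔖'.StubP pos B s) (hd : 𝔖.dp = 𝔖'.dp) :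
    𝔖.bkP = 𝔖'.bkP ∧ 𝔖.whP = 𝔖'.whP ∧ 𝔖.xp pos = 𝔖'.xp pos ∧ 𝔖.ap = 𝔖'.ap := by
  obtain ⟨hn, he⟩ := pvwk_stub_unique_p h h' hd
  refine ⟨?_, ?_, ?_, ?_⟩
  · rw [pvwk_bkP_eq h, pvwk_bkP_eq h', hd, hn]
  · rw [pvwk_whP_eq h, pvwk_whP_eq h', hd, hn]
  · unfold PvwSt.xp PvwSt.mid; rw [he _ le_rfl, hn]
  · unfold PvwSt.ap; rw [he _ le_rfl, hn]

theorem pvwk_stub_unique_sets_m (h : 𝔖.StubM pos B s) (h' : 𝔖'.StubM pos B s) (hd : 𝔖.dm = 𝔖'.dm) :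
    𝔖.bkM = 𝔖'.bkM ∧ 𝔖.whM = 𝔖'.whM ∧ 𝔖.xm pos = 𝔖'.xm pos ∧ 𝔖.am = 𝔖'.am := by
  obtain ⟨hn, he⟩ := pvwk_stub_unique_m h h' hd
  refine ⟨?_, ?_, ?_, ?_⟩
  · rw [pvwk_bkM_eq h, pvwk_bkM_eq h', hd, hn]
  · rw [pvwk_whM_eq h, pvwk_whM_eq h', hd, hn]
  · unfold PvwSt.xm PvwSt.mid; rw [he _ le_rfl, hn]
  · unfold PvwSt.am; rw [he _ le_rfl, hn]

/-- as long as the faces in front of the positions lie in `B`, so do the ends of the next position -/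
theorem pvwk_it_in {n : ℕ} (h0 : pos (T.src d) ∈ B ∧ pos (T.tgt d) ∈ B) (hax : ∀ i, i < n → pos (T.apex (pvasIt T s d i)) ∈ B) :
    ∀ i, i ≤ n → pos (T.src (pvasIt T s d i)) ∈ B ∧ pos (T.tgt (pvasIt T s d i)) ∈ B := by
  intro i
  induction i with
  | zero => intro _; exact h0
  | succ i ih =>
    intro hi
    have h1 := ih (Nat.le_of_succ_le hi)
    have h2 := hax i hi
    rw [pvas_it_succ]
    rcases pvas_step_ends (T := T) s (pvasIt T s d i) with ⟨_, e1, e2⟩ | ⟨_, e1, e2⟩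
    · rw [e1, e2]; exact ⟨h2, h1.2⟩
    · rw [e1, e2]; exact ⟨h1.1, h2⟩

open Classical in
/-- **EXISTENCE**: if the two gate edges lie in the box and the strand leaves the box forwards from `dp` and backwards from `dm`, the stubs exist (gate data arbitrary) -/
theorem pvwk_stub_exists (C : Set V) (S : T.Cyc) (dp dm : D) (inn : T.Pth) (ip : ℕ)
    (hp0 : pos (T.src dp) ∈ B ∧ pos (T.tgt dp) ∈ B) (hm0 : pos (T.src dm) ∈ B ∧ pos (T.tgt dm) ∈ B)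
    (hp : ∃ n, pos (T.apex (pvasIt T s dp n)) ∉ B) (hm : ∃ n, pos (T.apex (T.opp ((pvasBack T s)^[n] dm))) ∉ B) :
    ∃ 𝔖 : PvwSt T, 𝔖.dsc = C ∧ 𝔖.S = S ∧ 𝔖.dp = dp ∧ 𝔖.dm = dm ∧ 𝔖.inn = inn ∧ 𝔖.ip = ip ∧ 𝔖.Stub pos B s := by
  refine ⟨⟨C, S, dp, dm, inn, ip, Nat.find hp, fun i => pvasIt T s dp i, Nat.find hm, fun i => (pvasBack T s)^[i] dm⟩, rfl, rfl, rfl, rfl, rfl, rfl,
    ⟨fun _ _ => rfl, ?_, fun _ hi => not_not.1 (Nat.find_min hp hi), Nat.find_spec hp⟩, ⟨fun _ _ => rfl, ?_, fun _ hi => not_not.1 (Nat.find_min hm hi), Nat.find_spec hm⟩⟩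
  · exact pvwk_it_in hp0 fun i hi => not_not.1 (Nat.find_min hp hi)
  · intro i hi
    have h1 : pos (T.src (T.opp dm)) ∈ B ∧ pos (T.tgt (T.opp dm)) ∈ B := by rw [T.src_opp', T.tgt_opp]; exact ⟨hm0.2, hm0.1⟩
    have h2 := pvwk_it_in (s := pvasNot s) (n := Nat.find hm) h1 (fun j hj => by
      have := not_not.1 (Nat.find_min hm hj)
      rwa [pvwk_back_it, T.opp_opp] at this) i hi
    show pos (T.src ((pvasBack T s)^[i] dm)) ∈ B ∧ pos (T.tgt ((pvasBack T s)^[i] dm)) ∈ B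
    rw [pvwk_back_it, T.src_opp', T.tgt_opp]
    exact ⟨h2.2, h2.1⟩

/-- **ALL THE FROZEN SITES OF A STUB LIE IN THE BOX** -/
theorem pvwk_banksP_in (h : 𝔖.StubP pos B s) {v : V} (hv : v ∈ 𝔖.bkP ∪ 𝔖.whP) : pos v ∈ B := by
  rcases hv with ⟨i, hi, rfl⟩ | ⟨i, hi, rfl⟩
  · exact (h.ep_in i hi).1
  · exact (h.ep_in i hi).2

theorem pvwk_banksM_in (h : 𝔖.StubM pos B s) {v : V} (hv : v ∈ 𝔖.bkM ∪ 𝔖.whM) : pos v ∈ B := by
  rcases hv with ⟨i, hi, rfl⟩ | ⟨i, hi, rfl⟩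
  · exact (h.em_in i hi).1
  · exact (h.em_in i hi).2

/-- **THE TIP APEX IS FRESH** -/
theorem pvwk_ap_fresh (h : 𝔖.StubP pos B s) (hc : ∀ v ∈ 𝔖.core, pos v ∈ B) : 𝔖.ap ∉ 𝔖.fzOut := by
  rintro ((hv | hv) | hv)
  · exact h.ep_out (hc _ hv)
  · exact h.ep_out (pvwk_banksP_in h (Or.inl hv))
  · exact h.ep_out (pvwk_banksP_in h (Or.inr hv))

theorem pvwk_am_fresh (h : 𝔖.StubM pos B s) (hc : ∀ v ∈ 𝔖.core, pos v ∈ B) : 𝔖.am ∉ 𝔖.fzIn := by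
  rintro ((hv | hv) | hv)
  · exact h.em_out (hc _ hv)
  · exact h.em_out (pvwk_banksM_in h (Or.inl hv))
  · exact h.em_out (pvwk_banksM_in h (Or.inr hv))

/-- the next position after the tip has the tip apex as one of its ends, the other end is an end of the tip position -/
theorem pvwk_ap_next (𝔖 : PvwSt T) (σ : V → Bool) :
    (T.src (pvasStep T σ (𝔖.ep 𝔖.np)) = 𝔖.ap ∧ T.tgt (pvasStep T σ (𝔖.ep 𝔖.np)) = T.tgt (𝔖.ep 𝔖.np)) ∨
      (T.src (pvasStep T σ (𝔖.ep 𝔖.np)) = T.src (𝔖.ep 𝔖.np) ∧ T.tgt (pvasStep T σ (𝔖.ep 𝔖.np)) = 𝔖.ap) := by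
  rcases pvas_step_ends (T := T) σ (𝔖.ep 𝔖.np) with ⟨_, e1, e2⟩ | ⟨_, e1, e2⟩
  · exact Or.inl ⟨e1, e2⟩
  · exact Or.inr ⟨e1, e2⟩

end stub

/-! ## 3. finiteness of the frozen sets -/

section fin

variable (𝔖 : PvwSt T)

theorem pvwk_bkP_finite : 𝔖.bkP.Finite :=
  ((Set.finite_le_nat 𝔖.np).image fun i => T.src (𝔖.ep i)).subset fun _ ⟨i, hi, e⟩ => ⟨i, hi, e⟩

theorem pvwk_whP_finite : 𝔖.whP.Finite :=
  ((Set.finite_le_nat 𝔖.np).image fun i => T.tgt (𝔖.ep i)).subset fun _ ⟨i, hi, e⟩ => ⟨i, hi, e⟩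

theorem pvwk_bkM_finite : 𝔖.bkM.Finite :=
  ((Set.finite_le_nat 𝔖.nm).image fun i => T.src (𝔖.em i)).subset fun _ ⟨i, hi, e⟩ => ⟨i, hi, e⟩

theorem pvwk_whM_finite : 𝔖.whM.Finite :=
  ((Set.finite_le_nat 𝔖.nm).image fun i => T.tgt (𝔖.em i)).subset fun _ ⟨i, hi, e⟩ => ⟨i, hi, e⟩

theorem pvwk_ins_finite (h : 𝔖.S.Left.Finite) : 𝔖.ins.Finite :=
  (h.image T.src).subset fun _ ⟨d, hd, e⟩ => ⟨d, hd, e⟩

theorem pvwk_fzOut_finite (h : 𝔖.core.Finite) : 𝔖.fzOut.Finite := (h.union (pvwk_bkP_finite 𝔖)).union (pvwk_whP_finite 𝔖)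

theorem pvwk_fzIn_finite (h : 𝔖.core.Finite) : 𝔖.fzIn.Finite := (h.union (pvwk_bkM_finite 𝔖)).union (pvwk_whM_finite 𝔖)

theorem pvwk_fz_finite (h : 𝔖.core.Finite) : 𝔖.fz.Finite := (pvwk_fzOut_finite 𝔖 h).union (pvwk_fzIn_finite 𝔖 h)

theorem pvwk_core_sub_fzOut : 𝔖.core ⊆ 𝔖.fzOut := fun _ hv => Or.inl (Or.inl hv)

theorem pvwk_core_sub_fzIn : 𝔖.core ⊆ 𝔖.fzIn := fun _ hv => Or.inl (Or.inl hv)

theorem pvwk_banksP_sub_fzOut : 𝔖.bkP ∪ 𝔖.whP ⊆ 𝔖.fzOut := fun _ hv => hv.elim (fun h => Or.inl (Or.inr h)) Or.inr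

theorem pvwk_banksM_sub_fzIn : 𝔖.bkM ∪ 𝔖.whM ⊆ 𝔖.fzIn := fun _ hv => hv.elim (fun h => Or.inl (Or.inr h)) Or.inr

theorem pvwk_fzOut_sub_fz : 𝔖.fzOut ⊆ 𝔖.fz := fun _ hv => Or.inl hv

theorem pvwk_fzIn_sub_fz : 𝔖.fzIn ⊆ 𝔖.fz := fun _ hv => Or.inr hv

end fin

/-! ## 4. the gate is read from the core -/

section gate

/-- the three vertices of a face of a face set -/
theorem pvwk_vof {A : Set D} (hA : T.FaceSet A) (hd : d ∈ A) : T.src d ∈ T.VOf A ∧ T.tgt d ∈ T.VOf A ∧ T.apex d ∈ T.VOf A :=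
  ⟨⟨d, hd, rfl⟩, ⟨T.nxt d, (hA d).2 hd, rfl⟩, ⟨T.nxt (T.nxt d), (hA.nxt2 T d).2 hd, rfl⟩⟩

/-- **the loop erasure reads the walk only up to time `n`** -/
theorem pvwk_le_congr {b b' : ℕ → V} {n : ℕ} {y : T.Pth} (hb : ∀ i, i ≤ n → b' i = b i) (h : PvwLE T b n y) : PvwLE T b' n y := by
  obtain ⟨j, h0, hn, h1, h2⟩ := h
  have hlt : ∀ k, k < y.n → j k < n := by
    intro k hk
    refine lt_of_le_of_ne (h1 k hk.le).1 fun e => ?_
    have e1 : y.v k = y.v y.n := by rw [(h1 k hk.le).2.1, (h1 y.n le_rfl).2.1, e, hn]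
    exact absurd (y.inj k y.n hk.le le_rfl e1) hk.ne
  refine ⟨j, by rw [h0, hb 0 (Nat.zero_le _)], hn, fun k hk => ⟨(h1 k hk).1, ?_, fun i hi hin => ?_⟩, fun k hk => ?_⟩
  · rw [(h1 k hk).2.1, hb _ (h1 k hk).1]
  · rw [hb i hin, hb _ (h1 k hk).1]; exact (h1 k hk).2.2 i hi hin
  · rw [h2 k hk, hb _ (hlt k hk)]

variable {𝔖 𝔖' : PvwSt T} {h : ℝ} {z : ℂ} {τ : PvwTy}

theorem pvwk_verts_ins (hT : T.IsSph) (𝔖 : PvwSt T) : 𝔖.S.verts ⊆ 𝔖.ins := by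
  rintro v ⟨i, rfl⟩
  exact ⟨_, (pl_jordan hT 𝔖.S).2.1 i, rfl⟩

theorem pvwk_dart_ins (hT : T.IsSph) (𝔖 : PvwSt T) {e : D} (he : e ∈ 𝔖.S.darts) : T.src e ∈ 𝔖.ins ∧ T.tgt e ∈ 𝔖.ins := by
  obtain ⟨i, rfl⟩ := he
  have := pvwk_vof (pl_left_face 𝔖.S) ((pl_jordan hT 𝔖.S).2.1 i)
  exact ⟨this.1, this.2.1⟩

/-- the two gate vertices and their white neighbours on `ρ` belong to the closed inside -/
theorem pvwk_gate_ends (hT : T.IsSph) (hg : 𝔖.Gate pos h z τ s) : 𝔖.gp ∈ 𝔖.ins ∧ T.tgt 𝔖.dp ∈ 𝔖.ins ∧ 𝔖.gm ∈ 𝔖.ins ∧ T.tgt 𝔖.dm ∈ 𝔖.ins := by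
  have h1 := pvwk_dart_ins hT 𝔖 hg.dp_on
  have h2 := pvwk_dart_ins hT 𝔖 hg.dm_on
  rw [T.src_opp', T.tgt_opp] at h1
  exact ⟨h1.2, h1.1, h2.1, h2.2⟩

/-- the inside of the gate lies in the disc -/
theorem pvwk_left_sub_O (hg : 𝔖.Gate pos h z τ s) : 𝔖.S.Left ⊆ pvwO T pos z (τ.b * h) := by
  intro e he hst
  have h3 := pvwk_vof (pl_left_face 𝔖.S) he
  rcases hst with h1 | h1 | h1
  · exact absurd (hg.inside _ h3.1) (not_lt.2 h1)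
  · exact absurd (hg.inside _ h3.2.1) (not_lt.2 h1)
  · exact absurd (hg.inside _ h3.2.2) (not_lt.2 h1)

/-- the closed inside of the gate is a part of the core -/
theorem pvwk_ins_sub_core (hg : 𝔖.Gate pos h z τ s) : 𝔖.ins ⊆ 𝔖.core := fun v hv => by
  change v ∈ 𝔖.dsc
  rw [hg.dsc_eq]
  exact hg.inside v hv

/-- the sites of the faces of the disc `pvwO` lie in the open ball -/
theorem pvwk_VOf_O {r : ℝ} {v : V} (hv : v ∈ T.VOf (pvwO T pos z r)) : ‖pos v - z‖ < r := by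
  obtain ⟨e, he, rfl⟩ := hv
  by_contra hn
  exact he (Or.inl (not_lt.1 hn))

/-- the sites read by the rule belong to the core -/
theorem pvwk_O_sub_core (hg : 𝔖.Gate pos h z τ s) : T.VOf (pvwO T pos z (τ.b * h)) ⊆ 𝔖.core := fun v hv => by
  change v ∈ 𝔖.dsc
  rw [hg.dsc_eq]
  exact pvwk_VOf_O hv

theorem pvwk_mem_core (hg : 𝔖.Gate pos h z τ s) {v : V} : v ∈ 𝔖.core ↔ ‖pos v - z‖ < τ.b * h := by
  change v ∈ 𝔖.dsc ↔ _
  rw [hg.dsc_eq]; rfl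

/-- the sites of the core lie in the open ball `B(z, b h)` -/
theorem pvwk_core_lt (hg : 𝔖.Gate pos h z τ s) {v : V} (hv : v ∈ 𝔖.core) : ‖pos v - z‖ < τ.b * h := (pvwk_mem_core hg).1 hv

/-- **GATE IS READ FROM ITS CLOSED INSIDE** (gate edges, exactly two black sites, inner strand, inner rim arc, marked vertex) -/
theorem pvwk_gate_congr (hT : T.IsSph) (hg : 𝔖.Gate pos h z τ s) (hs : PvwAgree 𝔖.ins s s') : 𝔖.Gate pos h z τ s' := by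
  obtain ⟨e1, e2, e3, e4⟩ := pvwk_gate_ends hT hg
  obtain ⟨n, h1, h2, h3⟩ := hg.strand
  have hlay : ∀ v, v ∈ pvasLayB T s 𝔖.dm n ∨ v ∈ pvasLayW T s 𝔖.dm n → s' v = s v := by
    have key : ∀ i, i ≤ n → T.src (pvasIt T s 𝔖.dm i) ∈ 𝔖.ins ∧ T.tgt (pvasIt T s 𝔖.dm i) ∈ 𝔖.ins := by
      intro i hi
      rcases Nat.lt_or_ge i n with hlt | hge
      · have := pvwk_vof (pl_left_face 𝔖.S) (h2 i hlt)
        exact ⟨this.1, this.2.1⟩
      · rw [le_antisymm hi hge, h1]; exact ⟨e1, e2⟩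
    rintro v (⟨i, hi, rfl⟩ | ⟨i, hi, rfl⟩)
    · exact (hs _ (key i hi).1).symm
    · exact (hs _ (key i hi).2).symm
  have hit := pvas_it_congr hlay
  refine ⟨hg.fin, hg.dsc_eq, hg.core_fin, hg.ann, hg.round, hg.inside, hg.dp_on, hg.dm_on, ?_, ?_, hg.ne, hg.ori, ?_, ?_, ⟨n, ?_, ?_, ?_⟩, hg.ip_le, hg.ip_near, hg.ip_first⟩
  · exact (pvas_bw_congr (hs _ e1).symm (hs _ e2).symm).2 hg.bw_p
  · exact (pvas_bw_congr (hs _ e3).symm (hs _ e4).symm).2 hg.bw_m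
  · intro v hv hb
    exact hg.two v hv (by rw [hs v (pvwk_verts_ins hT 𝔖 hv)]; exact hb)
  · intro e he hsrc
    rw [← hs _ (pvwk_dart_ins hT 𝔖 he).2]; exact hg.left e he hsrc
  · rw [hit n le_rfl]; exact h1
  · intro i hi; rw [hit i hi.le]; exact h2 i hi
  · exact pvwk_le_congr (fun i hi => by rw [hit i hi]) h3

/-- **INNERMOST (= the fixed rule) IS READ FROM THE CORE** -/
theorem pvwk_inmost_congr (hg : 𝔖.Gate pos h z τ s) (hm : 𝔖.Inmost pos h z τ s) (hs : PvwAgree 𝔖.core s s') : 𝔖.Inmost pos h z τ s' := by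
  unfold PvwSt.Inmost at hm ⊢
  rw [hm]
  exact (pvgn_rule_congr fun v hv => (hs v (pvwk_O_sub_core hg hv)).symm).symm

/-- **UNIQUENESS OF THE GATE OF RECORD**: the inside is a function of `(s, z, τ)` -/
theorem pvwk_inmost_unique (hm : 𝔖.Inmost pos h z τ s) (hm' : 𝔖'.Inmost pos h z τ s) : 𝔖.S.Left = 𝔖'.S.Left := hm.trans hm'.symm

/-- the core lies in every square of half side `≥ b h` -/
theorem pvwk_core_sq (hg : 𝔖.Gate pos h z τ s) {r : ℝ} (hr : τ.b * h ≤ r) : ∀ v ∈ 𝔖.core, pos v ∈ pvwSq z r := fun v hv =>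
  ⟨((Complex.abs_re_le_norm _).trans (pvwk_core_lt hg hv).le).trans hr, ((Complex.abs_im_le_norm _).trans (pvwk_core_lt hg hv).le).trans hr⟩

theorem pvwk_rad_ge {N : PvwNum} (hb : τ.b ≤ 2 * τ.b2) (hh : 0 ≤ h) (h1 : 0 ≤ N.rho1) (k : ℕ) : τ.b * h ≤ pvwRad N h τ k := by
  unfold pvwRad
  have : (0 : ℝ) ≤ k * N.rho1 := mul_nonneg (Nat.cast_nonneg k) h1
  exact mul_le_mul_of_nonneg_right (by linarith) hh

end gate

/-! ## 5. the state is read from its frozen sites -/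

section state

variable {𝔖 : PvwSt T} {h : ℝ} {z : ℂ} {τ : PvwTy} {N : PvwNum}

/-- **`Σ_out` IS A CYLINDER**: a colouring which agrees with `s` on `fzOut` has the same exit half state -/
theorem pvwk_atOut_congr (hT : T.IsSph) (ha : 𝔖.AtOut pos N h z τ s) (hs : PvwAgree 𝔖.fzOut s s') : 𝔖.AtOut pos N h z τ s' := by
  have hc : PvwAgree 𝔖.core s s' := pvwk_agree_mono (pvwk_core_sub_fzOut 𝔖) hs
  exact ⟨pvwk_gate_congr hT ha.gate (pvwk_agree_mono (pvwk_ins_sub_core ha.gate) hc), pvwk_inmost_congr ha.gate ha.inmost hc,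
    pvwk_stubP_congr ha.stub (pvwk_agree_mono (pvwk_banksP_sub_fzOut 𝔖) hs), ha.good, ha.lev⟩

/-- **`Σ_in` IS A CYLINDER** -/
theorem pvwk_atIn_congr (hT : T.IsSph) (ha : 𝔖.AtIn pos N h z τ s) (hs : PvwAgree 𝔖.fzIn s s') : 𝔖.AtIn pos N h z τ s' := by
  have hc : PvwAgree 𝔖.core s s' := pvwk_agree_mono (pvwk_core_sub_fzIn 𝔖) hs
  exact ⟨pvwk_gate_congr hT ha.gate (pvwk_agree_mono (pvwk_ins_sub_core ha.gate) hc), pvwk_inmost_congr ha.gate ha.inmost hc,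
    pvwk_stubM_congr ha.stub (pvwk_agree_mono (pvwk_banksM_sub_fzIn 𝔖) hs), ha.good, ha.lev⟩

/-- **THE STATE IS A CYLINDER** -/
theorem pvwk_at_congr (hT : T.IsSph) (ha : 𝔖.At pos N h z τ s) (hs : PvwAgree 𝔖.fz s s') : 𝔖.At pos N h z τ s' :=
  ⟨pvwk_atOut_congr hT ha.out (pvwk_agree_mono (pvwk_fzOut_sub_fz 𝔖) hs), pvwk_atIn_congr hT ha.inn (pvwk_agree_mono (pvwk_fzIn_sub_fz 𝔖) hs), ha.far_p, ha.far_m⟩

theorem pvwk_at_good (ha : 𝔖.At pos N h z τ s) : 𝔖.Good pos N h (τ.cp h z) (τ.cm h z) := ⟨ha.out.good, ha.inn.good, ha.far_p, ha.far_m⟩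

/-- the colours of the frozen sites off the core -/
theorem pvwk_atOut_cols (ha : 𝔖.AtOut pos N h z τ s) : (∀ v ∈ 𝔖.bkP, s v = true) ∧ ∀ v ∈ 𝔖.whP, s v = false :=
  ⟨fun _ hv => pvwk_bkP_col ha.stub ha.gate.bw_p hv, fun _ hv => pvwk_whP_col ha.stub ha.gate.bw_p hv⟩

theorem pvwk_atIn_cols (ha : 𝔖.AtIn pos N h z τ s) : (∀ v ∈ 𝔖.bkM, s v = true) ∧ ∀ v ∈ 𝔖.whM, s v = false :=
  ⟨fun _ hv => pvwk_bkM_col ha.stub ha.gate.bw_m hv, fun _ hv => pvwk_whM_col ha.stub ha.gate.bw_m hv⟩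

/-- the tip apexes of a state are fresh -/
theorem pvwk_atOut_ap (ha : 𝔖.AtOut pos N h z τ s) (hb : τ.b ≤ 2 * τ.b2) (hh : 0 ≤ h) (h1 : 0 ≤ N.rho1) : 𝔖.ap ∉ 𝔖.fzOut :=
  pvwk_ap_fresh ha.stub (pvwk_core_sq ha.gate (pvwk_rad_ge hb hh h1 _))

theorem pvwk_atIn_am (ha : 𝔖.AtIn pos N h z τ s) (hb : τ.b ≤ 2 * τ.b2) (hh : 0 ≤ h) (h1 : 0 ≤ N.rho1) : 𝔖.am ∉ 𝔖.fzIn :=
  pvwk_am_fresh ha.stub (pvwk_core_sq ha.gate (pvwk_rad_ge hb hh h1 _))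

/-- from the entry gate edge the strand of `s` runs the inner strand, then `Σ⁺`, and arrives at the tip position of `Σ⁺` -/
theorem pvwk_atOut_through (ha : 𝔖.AtOut pos N h z τ s) : ∃ n, pvasIt T s 𝔖.dm n = 𝔖.dp ∧ pvasIt T s 𝔖.dm (n + 𝔖.np) = 𝔖.ep 𝔖.np := by
  obtain ⟨n, h1, -, -⟩ := ha.gate.strand
  exact ⟨n, h1, by rw [pvas_it_add, h1, ← ha.stub.ep_it _ le_rfl]⟩

/-- **the whole strand of the state**: from the tip position of `Σ⁻` the strand of `s` runs `Σ⁻` forwards, the inner strand, then `Σ⁺`, and arrives at the tip position of `Σ⁺` -/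
theorem pvwk_at_through (ha : 𝔖.At pos N h z τ s) : ∃ n, pvasIt T s (𝔖.em 𝔖.nm) (𝔖.nm + n + 𝔖.np) = 𝔖.ep 𝔖.np ∧ pvasIt T s (𝔖.em 𝔖.nm) 𝔖.nm = 𝔖.dm ∧
    pvasIt T s (𝔖.em 𝔖.nm) (𝔖.nm + n) = 𝔖.dp := by
  obtain ⟨n, h1, -, -⟩ := ha.out.gate.strand
  have e1 := pvwk_em_fwd_end ha.inn.stub ha.out.gate.bw_m
  have e2 : pvasIt T s (𝔖.em 𝔖.nm) (𝔖.nm + n) = 𝔖.dp := by rw [pvas_it_add, e1, h1]
  exact ⟨n, by rw [pvas_it_add, e2, ← ha.out.stub.ep_it _ le_rfl], e1, e2⟩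

end state

/-! ## 6. the set `NU` read by `NB`      (lemmas of helper160) -/

theorem pvwk_comp_yc0 (𝔇 : PvwDat T) (pos : V → ℂ) (π : PvwPat) {a v : V} (ha : a = 𝔇.t.ap ∨ a = 𝔇.s.am)
    (hv : v ∈ pvwComp T (𝔇.Yraw pos π) a) (hc : pos v ∉ π.Ycol) : v ∈ 𝔇.YC0 pos π := by
  classical
  obtain ⟨q, h0, hn, hq⟩ := hv
  by_cases hall : ∀ i, i ≤ q.n → pos (q.v i) ∉ π.Ycol
  · exact ⟨a, by tauto, q, h0, hn, fun x ⟨i, hi, hx⟩ => ⟨hq x ⟨i, hi, hx⟩, hx ▸ hall i hi⟩⟩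
  · push_neg at hall
    have hex : ∃ i, i ≤ q.n ∧ pos (q.v i) ∈ π.Ycol := hall
    obtain ⟨j, ⟨hj, hjc⟩, hmax⟩ : ∃ j, (j ≤ q.n ∧ pos (q.v j) ∈ π.Ycol) ∧ ∀ k, (k ≤ q.n ∧ pos (q.v k) ∈ π.Ycol) → k ≤ j := by
      have hfin : {i | i ≤ q.n ∧ pos (q.v i) ∈ π.Ycol}.Finite := (Set.finite_Iic q.n).subset fun i hi => hi.1
      obtain ⟨j, hj, hm⟩ := hfin.exists_maximal (by obtain ⟨i, hi⟩ := hex; exact ⟨i, hi⟩)
      exact ⟨j, hj, fun k hk => by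
        by_contra hlt
        exact hlt (hm hk (by omega))⟩
    have hjn : j < q.n := by
      rcases Nat.lt_or_ge j q.n with h | h
      · exact h
      · have : j = q.n := by omega
        subst this
        exact absurd (hn ▸ hjc) hc
    refine ⟨q.v (j + 1), Or.inr (Or.inr ⟨q.v j, hjc, T.opp (q.e j), by rw [T.src_opp', q.tgt_e j hjn], by rw [T.tgt_opp, q.src_e j hjn]⟩), q.seg (j + 1) q.n, rfl, ?_, ?_⟩
    · show q.v (j + 1 + (min q.n q.n - (j + 1))) = v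
      rw [← hn]; congr 1; omega
    · rintro x ⟨k, hk, rfl⟩
      have hk' : k ≤ min q.n q.n - (j + 1) := hk
      have hle : j + 1 + k ≤ q.n := by omega
      refine ⟨hq _ ⟨_, hle, rfl⟩, fun hcon => ?_⟩
      have := hmax (j + 1 + k) ⟨hle, hcon⟩
      omega

/-- **API of `NU`, 1**: a site of `NU` is off `YCL` -/
theorem pvwk_nu_ycl {𝔇 : PvwDat T} {π : PvwPat} {v : V} (hv : v ∈ 𝔇.NU pos π) : v ∉ 𝔇.YCL pos π := by
  rintro (h | h)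
  · exact hv.1 (pvwk_comp_yc0 𝔇 pos π (Or.inl rfl) h hv.2)
  · exact hv.1 (pvwk_comp_yc0 𝔇 pos π (Or.inr rfl) h hv.2)

/-- **API of `NU`, 2**: a site of `NU` is not over the collared lanes -/
theorem pvwk_nu_col {𝔇 : PvwDat T} {π : PvwPat} {v : V} (hv : v ∈ 𝔇.NU pos π) : pos v ∉ π.Ycol := hv.2

theorem pvwk_nu_sub (𝔇 : PvwDat T) (pos : V → ℂ) (π : PvwPat) : 𝔇.NU pos π ⊆ (𝔇.YCL pos π)ᶜ := fun _ hv => pvwk_nu_ycl hv

/-- `YC0` lies over `Yin`, off `Ycol`, off `fzY` -/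
theorem pvwk_yc0_sub {𝔇 : PvwDat T} {π : PvwPat} {v : V} (hv : v ∈ 𝔇.YC0 pos π) : v ∈ 𝔇.Yr0 pos π := by
  obtain ⟨a, -, q, -, hn, hq⟩ := hv
  exact hq v ⟨q.n, le_rfl, hn⟩

/-- v2 = the case `Ycol = ∅` -/
theorem pvwk_nu_of_empty {𝔇 : PvwDat T} {π : PvwPat} (h0 : π.Ycol = ∅) : 𝔇.NU pos π = (𝔇.YCL pos π)ᶜ := by
  refine Set.Subset.antisymm (pvwk_nu_sub 𝔇 pos π) fun v hv => ⟨?_, by rw [h0]; exact Set.notMem_empty _⟩
  have e : 𝔇.Yr0 pos π = 𝔇.Yraw pos π := by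
    ext x; exact ⟨fun hx => hx.1, fun hx => ⟨hx, by rw [h0]; exact Set.notMem_empty _⟩⟩
  rintro ⟨a, (rfl | rfl | ⟨w, hw, -⟩), ha⟩
  · exact hv (Or.inl (e ▸ ha))
  · exact hv (Or.inr (e ▸ ha))
  · rw [h0] at hw; exact hw

end Claimed.Agent.R289
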