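import Claimed.Agent.R289.Tr.StrandD
import Claimed.Agent.R289.Tr.StKit

/-!
# Row 289 (S0537), THE WALL, file Tr/BrStrand : BRIDGE OF THE STRAND FAMILY      (owner helper158; post of helper82 09:53Z, head of the bridges helper113; prefix `pvjs_`)

VOCABULARIES.   (i) `pvasIt pvasBack pvasLayB` (`Arm/Strand`, 158)   (ii) `pvtW pvtS pvtBank pvtLE pvtArc` (`Tr/Strand`, `Tr/StrandF`, 64)   (iii) `T.Pth` (`Pl/Path`)   TARGET = `PvwLE`, `PvwSt` (stubs `ep`, `em`), `PvwDat.YArc` of `Tr/Defs`.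
ALREADY ON MAIN (64, `Tr/StrandD`): `pvt_sd_unique` `pvt_sd_le` `pvt_sd_eq` `pvt_sd_time` `pvt_sd_rim` `pvt_sd_close`;   (25, `Tr/StKit`): `pvwk_back_it` `pvwk_it_back`;   (5, `Tr/DatC3`): `pvc3_fwd` `pvc3_bwd` `pvc3_tail`.      v2 (10:40Z): sec. 4 restated for `Tr/Defs` v2 (`StubM`, `SYn` with first hit); no import of `Tr/DatC3`.      v3 (11:05Z): `pvjs_yarc_verts_in` (clause `over Yin` of `SYn` v3), `pvjs_new_face`.
THIS FILE = what was missing between them.   No definition.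

* sec. 1  `PvwLE` OF A GENERAL WALK (no map hypothesis):   `pvjs_le_pth_congr`, `pvjs_le_idx` (increasing last visits), `pvjs_le_prefix` / `pvjs_le_split` (**LE of a longer walk = a prefix of the LE of the shorter walk + vertices visited later**),
          `pvjs_le_shift` / `pvjs_le_unshift` (the rest of the path is the LE of the rest of the walk), `pvjs_le_concat`
* sec. 2  STRANDS:   `pvjs_inj_of_first` (first hit ⟹ injective), `pvjs_first` (mirror of `pvt_sd_last`), `pvjs_times` (**every dart of the LE has ONE time: its source is never visited later, its target never visited before**),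
          `pvjs_le_rev`, `pvjs_back_le` (**the LE of the bank of the BACKWARD strand is the reversed LE of the forward strand**: this is what `PvxAt.mask_m` and `LE(LB Σ⁻)` of D10 speak of)
* sec. 3  `pvjs_sandwich` (**LE(Σ₁ · new · Σ₂) = prefix of LE(Σ₁) · darts of new times · reversed prefix of LE(backward Σ₂)**)
* sec. 4  THE SAME IN THE NAMES OF RECORD:   `pvjs_stub_m` (state), `pvjs_yarc`, `pvjs_yarc_verts` (datum: every vertex of `y` lies on `LE(LB Σ⁺(t))`, on `LE(LB Σ⁻(s))` or over `Yin`: producer of the fields `dist`, `m_y` of `PvwDat.Fit`)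
-/

set_option autoImplicit false
set_option linter.unusedSectionVars false
set_option linter.unusedVariables false

namespace Claimed.Agent.R289

variable {V D : Type} {T : PvMap V D} {s : V → Bool}

/-! ## 1. `PvwLE` of a general walk -/

/-- `PvwLE` reads of the path only its length and its vertices -/
theorem pvjs_le_pth_congr {b : ℕ → V} {n : ℕ} {y y' : T.Pth} (hn : y.n = y'.n) (hv : ∀ k, k ≤ y.n → y.v k = y'.v k) (h : PvwLE T b n y) : PvwLE T b n y' := by
  obtain ⟨j, h0, hjn, hk, hs⟩ := h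
  refine ⟨j, ?_, ?_, fun k hk' => ?_, fun k hk' => ?_⟩
  · rw [← hv 0 (Nat.zero_le _)]; exact h0
  · rw [← hn]; exact hjn
  · rw [← hn] at hk'
    rw [← hv k hk']; exact hk k hk'
  · rw [← hn] at hk'
    rw [← hv (k + 1) hk']; exact hs k hk'

/-- the last visits, increasing -/
theorem pvjs_le_idx {b : ℕ → V} {n : ℕ} {y : T.Pth} (h : PvwLE T b n y) :
    ∃ j : ℕ → ℕ, j y.n = n ∧ (∀ k l, k < l → l ≤ y.n → j k < j l) ∧ (∀ k, k ≤ y.n → j k ≤ n ∧ b (j k) = y.v k ∧ ∀ i, j k < i → i ≤ n → b i ≠ y.v k) ∧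
      ∀ k, k < y.n → b (j k + 1) = y.v (k + 1) := by
  obtain ⟨j, -, hjn, hj, hj'⟩ := h
  have hstep : ∀ k, k < y.n → j k < j (k + 1) := by
    intro k hk
    obtain ⟨a1, a2, a3⟩ := hj k hk.le
    obtain ⟨b1, b2, b3⟩ := hj (k + 1) hk
    have hlt : j k < n := by
      rcases Nat.lt_or_ge (j k) n with h | h
      · exact h
      · exfalso
        have e : j k = j y.n := by omega
        have e2 : y.v k = y.v y.n := by rw [a2, (hj y.n le_rfl).2.1, e]
        have := y.inj _ _ hk.le le_rfl e2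
        omega
    by_contra hc
    exact b3 (j k + 1) (by omega) (by omega) (by rw [← b2, hj' k hk])
  have hmono : ∀ m k, k + m + 1 ≤ y.n → j k < j (k + m + 1) := by
    intro m
    induction m with
    | zero => intro k hk; exact hstep k (by omega)
    | succ m ih =>
      intro k hk
      exact lt_trans (ih k (by omega)) (hstep _ (by omega))
  refine ⟨j, hjn, ?_, ?_, fun k hk => (hj' k hk).symm⟩
  · intro k l hkl hl
    obtain ⟨m, rfl⟩ : ∃ m, l = k + m + 1 := ⟨l - k - 1, by omega⟩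
    exact hmono m k hl
  · intro k hk
    obtain ⟨a1, a2, a3⟩ := hj k hk
    exact ⟨a1, a2.symm, fun i h1 h2 => by rw [a2]; exact a3 i h1 h2⟩

/-- **PREFIX**: as long as the vertices of the LE of `b 0 … b m` are not visited at the times `m < i ≤ n`, the LE of `b 0 … b n` follows it -/
theorem pvjs_le_prefix {b : ℕ → V} {m n : ℕ} (hmn : m ≤ n) {y₁ y : T.Pth} (h₁ : PvwLE T b m y₁) (h : PvwLE T b n y) {K : ℕ} (hK : K ≤ y₁.n)
    (hfree : ∀ k, k < K → ∀ i, m < i → i ≤ n → b i ≠ y₁.v k) : K ≤ y.n ∧ ∀ k, k ≤ K → y.v k = y₁.v k := by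
  obtain ⟨j₁, h10, h1n, h1k, h1s⟩ := h₁
  obtain ⟨j, h0, hn, hk, hs⟩ := h
  have key : ∀ k, k ≤ K → k ≤ y.n ∧ y.v k = y₁.v k := by
    intro k
    induction k with
    | zero => intro _; exact ⟨Nat.zero_le _, by rw [h0, h10]⟩
    | succ k ih =>
      intro hkK
      obtain ⟨hky, hv⟩ := ih (by omega)
      obtain ⟨a1, a2, a3⟩ := hk k hky
      obtain ⟨c1, c2, c3⟩ := h1k k (by omega)
      have hbb : b (j k) = b (j₁ k) := by rw [← a2, ← c2, hv]
      have hj : j k = j₁ k := by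
        rcases lt_trichotomy (j k) (j₁ k) with hlt | heq | hgt
        · exact absurd hbb.symm (a3 _ hlt (by omega))
        · exact heq
        · by_cases hm : j k ≤ m
          · exact absurd hbb (c3 _ hgt hm)
          · exact absurd (by rw [← a2, hv]) (hfree k (by omega) (j k) (by omega) a1)
      have hlt : k < y.n := by
        rcases Nat.lt_or_ge k y.n with h' | h'
        · exact h'
        · exfalso
          have hkn : k = y.n := by omega
          have h2 : j₁ k = m := by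
            have : j k = n := by rw [hkn, hn]
            omega
          have h3 : y₁.v k = y₁.v y₁.n := by
            rw [c2, (h1k y₁.n le_rfl).2.1, h2, h1n]
          have := y₁.inj _ _ (by omega) le_rfl h3
          omega
      exact ⟨hlt, by rw [hs k hlt, h1s k (by omega), hj]⟩
  exact ⟨(key K le_rfl).1, fun k hk' => (key k hk').2⟩

/-- **SPLIT**: LE of the longer walk = a prefix of the LE of the shorter walk, then vertices whose LAST visit is later than `m` -/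
theorem pvjs_le_split {b : ℕ → V} {m n : ℕ} (hmn : m ≤ n) {y₁ y : T.Pth} (h₁ : PvwLE T b m y₁) (h : PvwLE T b n y) :
    ∃ K, K ≤ y₁.n ∧ K ≤ y.n ∧ (∀ k, k ≤ K → y.v k = y₁.v k) ∧ (∀ k, k < K → ∀ i, m < i → i ≤ n → b i ≠ y₁.v k) ∧ (∃ i, m ≤ i ∧ i ≤ n ∧ b i = y.v K) ∧
      ∀ k, K < k → k ≤ y.n → ∃ i, m < i ∧ i ≤ n ∧ b i = y.v k := by
  classical
  have hex : ∃ k, k ≤ y₁.n ∧ (k = y₁.n ∨ ∃ i, m < i ∧ i ≤ n ∧ b i = y₁.v k) := ⟨y₁.n, le_rfl, Or.inl rfl⟩
  obtain ⟨hK1, hK2⟩ := Nat.find_spec hex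
  have hmin : ∀ k, k < Nat.find hex → ∀ i, m < i → i ≤ n → b i ≠ y₁.v k := by
    intro k hk i h1 h2 h3
    exact Nat.find_min hex hk ⟨by omega, Or.inr ⟨i, h1, h2, h3⟩⟩
  obtain ⟨hKy, hpre⟩ := pvjs_le_prefix hmn h₁ h hK1 hmin
  obtain ⟨j₁, hj₁n, -, hj₁, -⟩ := pvjs_le_idx h₁
  obtain ⟨j, hjn, hjmono, hj, -⟩ := pvjs_le_idx h
  have hi0 : ∃ i, m ≤ i ∧ i ≤ n ∧ b i = y.v (Nat.find hex) := by
    rw [hpre _ le_rfl]
    rcases hK2 with e | ⟨i, h1, h2, h3⟩
    · refine ⟨m, le_rfl, hmn, ?_⟩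
      have := (hj₁ y₁.n le_rfl).2.1
      rw [hj₁n] at this
      rw [e]
      exact this
    · exact ⟨i, h1.le, h2, h3⟩
  refine ⟨Nat.find hex, hK1, hKy, hpre, hmin, hi0, fun k hk hky => ?_⟩
  obtain ⟨i0, h1, h2, h3⟩ := hi0
  have hjK : i0 ≤ j (Nat.find hex) := by
    by_contra hlt
    exact (hj _ hKy).2.2 i0 (by omega) h2 h3
  have := hjmono _ _ hk hky
  exact ⟨j k, by omega, (hj k hky).1, (hj k hky).2.1⟩

/-- (109) the last visits advance by at least one per step -/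
theorem pvjs_109_step {b : ℕ → V} {n : ℕ} {y : T.Pth} {j : ℕ → ℕ} (hn : j y.n = n)
    (hk : ∀ k, k ≤ y.n → j k ≤ n ∧ y.v k = b (j k) ∧ ∀ i, j k < i → i ≤ n → b i ≠ b (j k)) (hs : ∀ k, k < y.n → y.v (k + 1) = b (j k + 1))
    (k l : ℕ) (hl : k + l ≤ y.n) : j k + l ≤ j (k + l) := by
  induction l with
  | zero => simp
  | succ l ih =>
    have ih' := ih (by omega)
    obtain ⟨a1, a2, a3⟩ := hk (k + l) (by omega)
    obtain ⟨c1, c2, c3⟩ := hk (k + l + 1) (by omega)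
    have hne : j (k + l) ≠ n := by
      intro h'
      have h3 : y.v (k + l) = y.v y.n := by rw [a2, (hk y.n le_rfl).2.1, h', hn]
      have := y.inj _ _ (by omega) le_rfl h3
      omega
    have : j (k + l) + 1 ≤ j (k + l + 1) := by
      by_contra hlt
      exact c3 (j (k + l) + 1) (by omega) (by omega) (by rw [← hs (k + l) (by omega), c2])
    have e : k + (l + 1) = k + l + 1 := by omega
    rw [e]; omega

/-- **SHIFT**: the rest of the path is the LE of the rest of the walk, from ANY visit of its first vertex -/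
theorem pvjs_le_shift {b : ℕ → V} {n t : ℕ} (ht : t ≤ n) {y : T.Pth} (h : PvwLE T b n y) {k : ℕ} (hk : k ≤ y.n) (hb : b t = y.v k) :
    PvwLE T (fun i => b (t + i)) (n - t) (y.seg k y.n) := by
  obtain ⟨j, h0, hn, hkk, hs⟩ := h
  have hmono := pvjs_109_step hn hkk hs
  have htk : t ≤ j k := by
    by_contra hlt
    exact (hkk k hk).2.2 t (by omega) ht (by rw [hb, (hkk k hk).2.1])
  have hsn : (y.seg k y.n).n = y.n - k := by simp [PvMap.Pth.seg]
  have hsv : ∀ l, (y.seg k y.n).v l = y.v (k + l) := fun l => rfl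
  have hge : ∀ l, l ≤ y.n - k → t ≤ j (k + l) := fun l hl => by
    have := hmono k l (by omega); omega
  refine ⟨fun l => j (k + l) - t, ?_, ?_, ?_, ?_⟩
  · rw [hsv]; simp [hb]
  · rw [hsn]
    have : k + (y.n - k) = y.n := by omega
    simp only [this, hn]
  · intro l hl
    rw [hsn] at hl
    obtain ⟨a1, a2, a3⟩ := hkk (k + l) (by omega)
    have hg := hge l hl
    have e : t + (j (k + l) - t) = j (k + l) := by omega
    beta_reduce
    refine ⟨by omega, ?_, ?_⟩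
    · rw [hsv]; simp only [e]; exact a2
    · intro i hi1 hi2
      simp only [e]
      exact a3 (t + i) (by omega) (by omega)
  · intro l hl
    rw [hsn] at hl
    have hg := hge l (by omega)
    have e : t + (j (k + l) - t + 1) = j (k + l) + 1 := by omega
    rw [hsv]; simp only [e]
    exact hs (k + l) (by omega)

/-- a closed initial piece of the walk is erased -/
theorem pvjs_le_unshift {b : ℕ → V} {n t : ℕ} (ht : t ≤ n) (hb : b t = b 0) {y : T.Pth} (h : PvwLE T (fun i => b (t + i)) (n - t) y) : PvwLE T b n y := by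
  obtain ⟨j, h0, hn, hk, hs⟩ := h
  refine ⟨fun k => t + j k, ?_, ?_, ?_, ?_⟩
  · rw [h0]; simpa using hb
  · simp only [hn]; omega
  · intro k hky
    obtain ⟨a1, a2, a3⟩ := hk k hky
    beta_reduce
    refine ⟨by omega, a2, ?_⟩
    intro i hi1 hi2
    have := a3 (i - t) (by omega) (by omega)
    have e : t + (i - t) = i := by omega
    simpa only [e] using this
  · intro k hky
    exact hs k hky

/-- **CONCATENATION**: two pieces of a walk which meet at the junction only -/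
theorem pvjs_le_concat (hS : T.Simple) {b : ℕ → V} {m n : ℕ} (hmn : m ≤ n) (hd : ∀ i i', i ≤ m → m ≤ i' → i' ≤ n → b i = b i' → b i = b m)
    {y₁ y₂ y : T.Pth} (h₁ : PvwLE T b m y₁) (h₂ : PvwLE T (fun i => b (m + i)) (n - m) y₂) (h : PvwLE T b n y) :
    y.n = y₁.n + y₂.n ∧ (∀ k, k ≤ y₁.n → y.v k = y₁.v k) ∧ (∀ k, k ≤ y₂.n → y.v (y₁.n + k) = y₂.v k) ∧ (∀ k, k < y₁.n → y.e k = y₁.e k) ∧ ∀ k, k < y₂.n → y.e (y₁.n + k) = y₂.e k := by
  obtain ⟨j₁, hj₁n, -, hj₁, -⟩ := pvjs_le_idx h₁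
  have hlast : b m = y₁.v y₁.n := by
    have := (hj₁ y₁.n le_rfl).2.1
    rwa [hj₁n] at this
  have hfree : ∀ k, k < y₁.n → ∀ i, m < i → i ≤ n → b i ≠ y₁.v k := by
    intro k hk i h1 h2 h3
    obtain ⟨g1, g2, -⟩ := hj₁ k hk.le
    have := hd (j₁ k) i g1 h1.le h2 (by rw [g2, h3])
    rw [g2, hlast] at this
    have := y₁.inj _ _ hk.le le_rfl this
    omega
  obtain ⟨hle, hpre⟩ := pvjs_le_prefix hmn h₁ h le_rfl hfree
  have hsh := pvjs_le_shift hmn h hle (by rw [hpre _ le_rfl, hlast])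
  obtain ⟨e1, e2, e3⟩ := pvt_sd_unique hS hsh h₂
  have hsn : (y.seg y₁.n y.n).n = y.n - y₁.n := by
    show min y.n y.n - y₁.n = _
    rw [min_self]
  rw [hsn] at e1 e2 e3
  refine ⟨by omega, hpre, fun k hk => e2 k (by omega), fun k hk => ?_, fun k hk => e3 k (by omega)⟩
  apply hS
  · rw [y.src_e k (by omega), y₁.src_e k hk, hpre k hk.le]
  · rw [y.tgt_e k (by omega), y₁.tgt_e k hk, hpre (k + 1) hk]

/-! ## 2. strands -/

/-- a strand which hits its last position for the first time is injective -/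
theorem pvjs_inj_of_first {a : D} (ha : pvasBW T s a) {n : ℕ} (h : ∀ i, i < n → pvasIt T s a i ≠ pvasIt T s a n) :
    ∀ i j, i < n → j < n → pvasIt T s a i = pvasIt T s a j → i = j := by
  have key : ∀ i j, i < j → j < n → pvasIt T s a i ≠ pvasIt T s a j := by
    intro i j hij hj e
    refine h (i + (n - j)) (by omega) ?_
    have e1 : pvasIt T s a n = pvasIt T s a (j + (n - j)) := by congr 1; omega
    rw [e1, pvas_it_add, pvas_it_add, e]
  intro i j hi hj e
  rcases lt_trichotomy i j with hlt | heq | hlt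
  · exact absurd e (key i j hlt hj)
  · exact heq
  · exact absurd e.symm (key j i hlt hi)

/-- mirror of `pvt_sd_last`: up to the time of a dart of the arc the strand has never been at its target -/
theorem pvjs_first [DecidableEq V] (hT : T.IsSph) (hS : T.Simple) {a : D} (ha : pvasBW T s a) {n : ℕ} (hinj : ∀ i j, i < n → j < n → pvasIt T s a i = pvasIt T s a j → i = j)
    {t : ℕ} (ht : t < n) (hbt : s (T.apex (pvasIt T s a t)) = true) (hf : T.rot (pvasIt T s a t) ∈ pvtLE T (pvtBank T s a n)) {i : ℕ} (hi : i ≤ t) :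
    T.src (pvasIt T s a i) ≠ T.apex (pvasIt T s a t) := by
  intro hv
  obtain ⟨d', hd1, hd2⟩ := pvt_s_kept hT hS (pvt_s_bank_walk a n) (fun g hg => pvt_s_bank_bk ha hg) (pvt_s_bank_nodup hinj) hf
  obtain ⟨r, rfl⟩ := Nat.exists_eq_add_of_le hi
  have hap : T.apex (pvasIt T s a (i + r)) = T.src (pvasIt T s a (i + r + 1)) := by
    rw [pvas_it_succ]
    rcases pvas_step_ends s (pvasIt T s a (i + r)) with ⟨-, e, -⟩ | ⟨h, -, -⟩
    · exact e.symm
    · rw [hbt] at h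
      exact absurd h.symm Bool.false_ne_true
  have hcl : T.src (pvasIt T s (pvasIt T s a i) (r + 1)) = T.src (pvasIt T s a i) := by
    rw [← pvas_it_add, ← add_assoc, ← hap, hv]
  have h1 : T.rot (pvasIt T s a (i + r)) ∈ pvtBank T s (pvasIt T s a i) (r + 1) :=
    pvt_s_bank_mem.2 ⟨r, by omega, by rw [← pvas_it_add]; exact hbt, by rw [← pvas_it_add]⟩
  exact hd2 (pvt_sd_bank_sub a (by omega) _ (pvt_s_sat hT hS (pvas_it_bw ha i) hcl h1 hd1))

/-- **TIMES**: the dart number `k` of the LE of the black bank is `rot a_(t k)`; its source is never visited after `t k`, its target never visited up to `t k` -/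
theorem pvjs_times (hT : T.IsSph) (hS : T.Simple) {a : D} (ha : pvasBW T s a) {n : ℕ} (hinj : ∀ i j, i < n → j < n → pvasIt T s a i = pvasIt T s a j → i = j)
    {y : T.Pth} (hy : PvwLE T (fun i => T.src (pvasIt T s a i)) n y) :
    ∃ t : ℕ → ℕ, (∀ k l, k < l → l < y.n → t k < t l) ∧ ∀ k, k < y.n → t k < n ∧ s (T.apex (pvasIt T s a (t k))) = true ∧ y.e k = T.rot (pvasIt T s a (t k)) ∧
      T.src (pvasIt T s a (t k)) = y.v k ∧ T.src (pvasIt T s a (t k + 1)) = y.v (k + 1) ∧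
      (∀ i, t k < i → i ≤ n → T.src (pvasIt T s a i) ≠ y.v k) ∧ ∀ i, i ≤ t k → T.src (pvasIt T s a i) ≠ y.v (k + 1) := by
  classical
  obtain ⟨e1, -, e3⟩ := pvt_sd_eq hT hS ha hinj hy
  obtain ⟨j, hjn, hmono, h1, h2⟩ := pvjs_le_idx hy
  refine ⟨j, fun k l hkl hl => hmono k l hkl hl.le, fun k hk => ?_⟩
  obtain ⟨-, a2, a3⟩ := h1 k hk.le
  have a2' : T.src (pvasIt T s a (j k)) = y.v k := a2
  have hlt : j k < n := by
    have := hmono k y.n hk le_rfl
    omega
  have b2 : T.src (pvasIt T s a (j k + 1)) = y.v (k + 1) := h2 k hk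
  have hstep : s (T.apex (pvasIt T s a (j k))) = true ∧ T.src (pvasIt T s a (j k + 1)) = T.apex (pvasIt T s a (j k)) := by
    rw [pvas_it_succ]
    rcases pvas_step_ends s (pvasIt T s a (j k)) with ⟨h, e, -⟩ | ⟨-, e, -⟩
    · exact ⟨h, e⟩
    · exfalso
      have h3 : y.v (k + 1) = y.v k := by rw [← b2, ← a2', pvas_it_succ, e]
      have := y.inj (k + 1) k hk hk.le h3
      omega
  have he : y.e k = T.rot (pvasIt T s a (j k)) :=
    hS _ _ (by rw [y.src_e k hk, ← a2', T.src_rot]) (by rw [y.tgt_e k hk, ← b2, hstep.2, T.tgt_rot])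
  refine ⟨hlt, hstep.1, he, a2', b2, a3, fun i hi => ?_⟩
  rw [← b2, hstep.2]
  refine pvjs_first hT hS ha hinj hlt hstep.1 ?_ hi
  rw [← he, e3 k hk]
  exact pvt_sf_pth_e_mem _ _ (by rw [e1] at hk; exact hk)

/-- **REVERSAL**: the LE of the black bank read backwards is the reversed LE -/
theorem pvjs_le_rev (hT : T.IsSph) (hS : T.Simple) {a : D} (ha : pvasBW T s a) {n : ℕ} (hinj : ∀ i j, i < n → j < n → pvasIt T s a i = pvasIt T s a j → i = j) (y : T.Pth) :
    PvwLE T (fun i => T.src (pvasIt T s a (n - i))) n y ↔ PvwLE T (fun i => T.src (pvasIt T s a i)) n y.rev := by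
  classical
  have key : ∀ z : T.Pth, PvwLE T (fun i => T.src (pvasIt T s a i)) n z → PvwLE T (fun i => T.src (pvasIt T s a (n - i))) n z.rev := by
    intro z hz
    obtain ⟨t, -, ht⟩ := pvjs_times hT hS ha hinj hz
    have hz0 : z.v 0 = T.src a := pvt_sd_v0 hz
    have hzn : z.v z.n = T.src (pvasIt T s a n) := pvt_sd_vn hz
    refine ⟨fun k => if k < z.n then n - (t (z.n - k - 1) + 1) else n, ?_, ?_, ?_, ?_⟩
    · show z.v (z.n - 0) = T.src (pvasIt T s a (n - 0))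
      rw [Nat.sub_zero, Nat.sub_zero, hzn]
    · show (if z.n < z.n then _ else n) = n
      rw [if_neg (lt_irrefl _)]
    · intro k hk
      have hk' : k ≤ z.n := hk
      by_cases hlt : k < z.n
      · simp only [if_pos hlt]
        obtain ⟨c1, -, -, -, c5, -, c7⟩ := ht (z.n - k - 1) (by omega)
        have e : z.n - k - 1 + 1 = z.n - k := by omega
        rw [e] at c5 c7
        refine ⟨Nat.sub_le _ _, ?_, ?_⟩
        · show z.v (z.n - k) = T.src (pvasIt T s a (n - (n - (t (z.n - k - 1) + 1))))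
          rw [Nat.sub_sub_self (by omega), c5]
        · intro i hi1 hi2
          show T.src (pvasIt T s a (n - i)) ≠ T.src (pvasIt T s a (n - (n - (t (z.n - k - 1) + 1))))
          rw [Nat.sub_sub_self (by omega), c5]
          exact c7 _ (by omega)
      · simp only [if_neg hlt]
        have hkz : k = z.n := by omega
        subst hkz
        refine ⟨le_rfl, ?_, fun i h1 h2 => by omega⟩
        show z.v (z.n - z.n) = T.src (pvasIt T s a (n - n))
        rw [Nat.sub_self, Nat.sub_self, hz0]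
        rfl
    · intro k hk
      have hk' : k < z.n := hk
      simp only [if_pos hk']
      obtain ⟨c1, -, -, c4, -, -, -⟩ := ht (z.n - k - 1) (by omega)
      show z.v (z.n - (k + 1)) = T.src (pvasIt T s a (n - (n - (t (z.n - k - 1) + 1) + 1)))
      have e : n - (n - (t (z.n - k - 1) + 1) + 1) = t (z.n - k - 1) := by omega
      rw [e, c4]
      congr 1
  constructor
  · intro h
    have h0 := pvt_sd_le hT hS ha hinj
    obtain ⟨u1, u2, -⟩ := pvt_sd_unique hS h (key _ h0)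
    have u1' : y.n = (pvtArc T s a n).n := u1
    refine pvjs_le_pth_congr (y := pvtArc T s a n) u1'.symm ?_ h0
    intro k hk
    show _ = y.v (y.n - k)
    rw [u2 _ (by omega)]
    show _ = (pvtArc T s a n).v ((pvtArc T s a n).n - (y.n - k))
    congr 1
    omega
  · intro h
    refine pvjs_le_pth_congr (y := y.rev.rev) rfl (fun k hk => ?_) (key _ h)
    have hk' : k ≤ y.n := hk
    show y.v (y.n - (y.n - k)) = y.v k
    congr 1
    omega

/-- **BACKWARD STRAND**: the LE of the black bank of the backward strand from `d` (`n` steps) is the reversed LE of the forward strand which arrives at `d` -/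
theorem pvjs_back_le (hT : T.IsSph) (hS : T.Simple) {d : D} (hd : pvasBW T s d) {n : ℕ}
    (hinj : ∀ i j, i < n → j < n → (pvasBack T s)^[i + 1] d = (pvasBack T s)^[j + 1] d → i = j) (y : T.Pth) :
    PvwLE T (fun i => T.src ((pvasBack T s)^[i] d)) n y ↔ PvwLE T (fun i => T.src (pvasIt T s ((pvasBack T s)^[n] d) i)) n y.rev := by
  have ha : pvasBW T s ((pvasBack T s)^[n] d) := pvwk_back_bw hd n
  have hinj' : ∀ i j, i < n → j < n → pvasIt T s ((pvasBack T s)^[n] d) i = pvasIt T s ((pvasBack T s)^[n] d) j → i = j := by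
    intro i j hi hj e
    rw [pvwk_it_back hd hi.le, pvwk_it_back hd hj.le] at e
    have e1 : n - i = (n - i - 1) + 1 := by omega
    have e2 : n - j = (n - j - 1) + 1 := by omega
    rw [e1, e2] at e
    have := hinj _ _ (by omega) (by omega) e
    omega
  rw [← pvjs_le_rev hT hS ha hinj' y]
  refine pvt_sd_le_congr (fun i hi => ?_) y
  show T.src ((pvasBack T s)^[i] d) = T.src (pvasIt T s ((pvasBack T s)^[n] d) (n - i))
  rw [pvwk_it_back hd (Nat.sub_le n i)]
  congr 2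
  omega

/-! ## 3. the sandwich -/

/-- **SANDWICH**: `y = LE` of the bank of the whole strand (`n` steps), `y₁ = LE` of its first `m₁` steps, `y₂ = LE` of its last `n - m₂` steps READ BACKWARDS.
`y` = the first `K` darts of `y₁`, then darts of times `m₁ ≤ t < m₂`, then the first `L` darts of `y₂` reversed. -/
theorem pvjs_sandwich (hT : T.IsSph) (hS : T.Simple) {a : D} (ha : pvasBW T s a) {n m₁ m₂ : ℕ} (h12 : m₁ ≤ m₂) (h2n : m₂ ≤ n)
    (hinj : ∀ i j, i < n → j < n → pvasIt T s a i = pvasIt T s a j → i = j) {y y₁ y₂ : T.Pth} (hy : PvwLE T (fun i => T.src (pvasIt T s a i)) n y)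
    (hy₁ : PvwLE T (fun i => T.src (pvasIt T s a i)) m₁ y₁) (hy₂ : PvwLE T (fun i => T.src (pvasIt T s a (n - i))) (n - m₂) y₂) :
    ∃ K L, K ≤ y₁.n ∧ L ≤ y₂.n ∧ K + L ≤ y.n ∧ (∀ k, k ≤ K → y.v k = y₁.v k) ∧ (∀ k, k < K → y.e k = y₁.e k) ∧
      (∀ k, k ≤ L → y.v (y.n - k) = y₂.v k) ∧ (∀ k, k < L → y.e (y.n - 1 - k) = T.opp (y₂.e k)) ∧
      (∀ k, K ≤ k → k + L < y.n → ∃ t, m₁ ≤ t ∧ t < m₂ ∧ s (T.apex (pvasIt T s a t)) = true ∧ y.e k = T.rot (pvasIt T s a t)) ∧
      ∀ k, K < k → k + L < y.n → ∃ t, m₁ < t ∧ t < m₂ ∧ y.v k = T.src (pvasIt T s a t) := by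
  obtain ⟨t, tmono, ht⟩ := pvjs_times hT hS ha hinj hy
  obtain ⟨K, K1, K2, K3, K4, ⟨iK, iK1, iK2, iK3⟩, K6⟩ := pvjs_le_split (h12.trans h2n) hy₁ hy
  have hyr : PvwLE T (fun i => T.src (pvasIt T s a (n - i))) n y.rev := by
    rw [pvjs_le_rev hT hS ha hinj]
    refine pvjs_le_pth_congr (y := y) rfl (fun k hk => ?_) hy
    show y.v k = y.v (y.n - (y.n - k))
    congr 1
    omega
  obtain ⟨L, L1, L2, L3, -, ⟨iL, iL1, iL2, iL3⟩, L6⟩ := pvjs_le_split (Nat.sub_le n m₂) hy₂ hyr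
  have L2' : L ≤ y.n := L2
  have L3' : ∀ k, k ≤ L → y.v (y.n - k) = y₂.v k := L3
  have iL3' : T.src (pvasIt T s a (n - iL)) = y.v (y.n - L) := iL3
  have L6' : ∀ k, L < k → k ≤ y.n → ∃ i, n - m₂ < i ∧ i ≤ n ∧ T.src (pvasIt T s a (n - i)) = y.v (y.n - k) := L6
  have hKL : K + L ≤ y.n := by
    by_contra hcon
    have h0 : y.n - L < K := by omega
    obtain ⟨j₂, -, -, hj₂, -⟩ := pvjs_le_idx hy₂
    obtain ⟨q1, q2, -⟩ := hj₂ L L1
    have q2' : T.src (pvasIt T s a (n - j₂ L)) = y₂.v L := q2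
    have e1 : y₁.v (y.n - L) = T.src (pvasIt T s a (n - j₂ L)) := by rw [q2', ← L3' L le_rfl, K3 _ h0.le]
    rcases Nat.lt_or_ge m₁ (n - j₂ L) with hlt | hge
    · exact K4 _ h0 _ hlt (Nat.sub_le _ _) e1.symm
    · have e2 : n - j₂ L = m₁ := by omega
      have e3 : y₁.v y₁.n = T.src (pvasIt T s a m₁) := pvt_sd_vn hy₁
      have := y₁.inj (y.n - L) y₁.n (by omega) le_rfl (by rw [e1, e2, e3])
      omega
  have tlo : ∀ k, K ≤ k → k < y.n → m₁ ≤ t k := by
    intro k hk hkn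
    obtain ⟨-, -, -, -, -, c6, -⟩ := ht k hkn
    by_contra hcon
    rcases Nat.eq_or_lt_of_le hk with rfl | hlt
    · exact c6 iK (by omega) iK2 iK3
    · obtain ⟨i, i1, i2, i3⟩ := K6 k hlt hkn.le
      exact c6 i (by omega) i2 i3
  have thi : ∀ k, k + L < y.n → t k < m₂ := by
    intro k hk
    obtain ⟨-, -, -, -, -, -, c7⟩ := ht k (by omega)
    by_contra hcon
    rcases Nat.eq_or_lt_of_le (show k + 1 + L ≤ y.n by omega) with heq | hlt
    · have e : y.n - L = k + 1 := by omega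
      rw [e] at iL3'
      exact c7 (n - iL) (by omega) iL3'
    · obtain ⟨i, i1, i2, i3⟩ := L6' (y.n - (k + 1)) (by omega) (by omega)
      have e : y.n - (y.n - (k + 1)) = k + 1 := by omega
      rw [e] at i3
      exact c7 (n - i) (by omega) i3
  refine ⟨K, L, K1, L1, hKL, K3, ?_, L3', ?_, ?_, ?_⟩
  · intro k hk
    exact hS _ _ (by rw [y.src_e k (by omega), y₁.src_e k (by omega), K3 k hk.le]) (by rw [y.tgt_e k (by omega), y₁.tgt_e k (by omega), K3 (k + 1) hk])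
  · intro k hk
    refine hS _ _ ?_ ?_
    · rw [y.src_e _ (by omega), T.src_opp', y₂.tgt_e k (by omega), ← L3' (k + 1) hk]
      congr 1
      omega
    · rw [y.tgt_e _ (by omega), T.tgt_opp, y₂.src_e k (by omega), ← L3' k hk.le]
      congr 1
      omega
  · intro k hk1 hk2
    obtain ⟨-, c2, c3, -⟩ := ht k (by omega)
    exact ⟨t k, tlo k hk1 (by omega), thi k hk2, c2, c3⟩
  · intro k hk1 hk2
    obtain ⟨-, -, -, -, c5, -, -⟩ := ht (k - 1) (by omega)
    have e : k - 1 + 1 = k := by omega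
    rw [e] at c5
    refine ⟨t (k - 1) + 1, ?_, ?_, c5.symm⟩
    · have := tlo (k - 1) (by omega) (by omega)
      omega
    · have h1 := tmono (k - 1) k (by omega) (by omega)
      have h2 := thi k hk2
      omega

/-! ## 4. the names of record -/

/-- `PvwLE` reads the walk at the times `≤ n` only -/
theorem pvjs_le_walk_congr {b b' : ℕ → V} {n : ℕ} {y : T.Pth} (hb : ∀ i, i ≤ n → b i = b' i) (h : PvwLE T b n y) : PvwLE T b' n y := by
  obtain ⟨j, h0, hn, h1, h2⟩ := h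
  refine ⟨j, by rw [h0, hb 0 (Nat.zero_le _)], hn, fun k hk => ?_, fun k hk => ?_⟩
  · obtain ⟨a1, a2, a3⟩ := h1 k hk
    refine ⟨a1, by rw [a2, hb _ a1], fun i hi hin => ?_⟩
    rw [← hb i hin, ← hb _ a1]
    exact a3 i hi hin
  · have a1 := (h1 k hk.le).1
    have hlt : j k < n := by
      rcases Nat.lt_or_ge (j k) n with h' | h'
      · exact h'
      · exfalso
        have e1 : j k = n := le_antisymm a1 h'
        have e2 : y.v k = y.v y.n := by rw [(h1 k hk.le).2.1, (h1 y.n le_rfl).2.1, e1, hn]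
        have := y.inj k y.n hk.le le_rfl e2
        omega
    rw [h2 k hk, hb _ hlt]

/-- the LE of the black bank of the entrance stub (the path of `PvxAt.mask_m`) is the reversed LE of the strand run forwards from the tip `x⁻` to the entry gate edge      (Defs v2: `StubM`) -/
theorem pvjs_stub_m (hT : T.IsSph) (hS : T.Simple) {𝔖 : PvwSt T} {pos : V → ℂ} {B : Set ℂ} (h : 𝔖.StubM pos B s) (hb : pvasBW T s 𝔖.dm)
    (hinj : ∀ i j, i < 𝔖.nm → j < 𝔖.nm → 𝔖.em (i + 1) = 𝔖.em (j + 1) → i = j) (y : T.Pth) :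
    PvwLE T (fun i => T.src (𝔖.em i)) 𝔖.nm y ↔ PvwLE T (fun i => T.src (pvasIt T s (𝔖.em 𝔖.nm) i)) 𝔖.nm y.rev := by
  have hit := h.em_it
  have key := pvjs_back_le hT hS hb (n := 𝔖.nm) (fun i j hi hj e => hinj i j hi hj (by rw [hit _ hi, hit _ hj]; exact e)) y
  rw [hit 𝔖.nm le_rfl, ← key]
  exact ⟨pvjs_le_walk_congr fun i hi => by rw [hit i hi], pvjs_le_walk_congr fun i hi => by rw [hit i hi]⟩

/-- the last steps of a strand which arrives at `d` are the backward strand from `d` -/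
theorem pvjs_tail {a d : D} (ha : pvasBW T s a) {n : ℕ} (hn : pvasIt T s a n = d) : ∀ k, k ≤ n → pvasIt T s a (n - k) = (pvasBack T s)^[k] d := by
  intro k
  induction k with
  | zero => intro _; rw [Nat.sub_zero, hn]; rfl
  | succ k ih =>
    intro hk
    have e1 : n - k = (n - (k + 1)) + 1 := by omega
    have e2 := pvas_it_back ha (n - (k + 1))
    rw [← e1, ih (Nat.le_of_succ_le hk)] at e2
    rw [Function.iterate_succ_apply', e2]

/-- **THE ARC `y` OF A DATUM** (Defs v2; the three hypotheses `hbw hfw hbk` = `pvc3_bw pvc3_fwd pvc3_bwd` of `Tr/DatC3`: every `σ` which agrees with `col` on `fzY` has them):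
prefix of `LE(LB Σ⁺(t))`, darts of the new strand, reversed prefix of `LE(LB Σ⁻(s))` -/
theorem pvjs_yarc (hT : T.IsSph) (hS : T.Simple) (𝔇 : PvwDat T) {pos : V → ℂ} {π : PvwPat} {σ : V → Bool} (hbw : pvasBW T σ 𝔇.t.dp)
    (hfw : ∀ i, i ≤ 𝔇.t.np → pvasIt T σ 𝔇.t.dp i = 𝔇.t.ep i) (hbk : ∀ i, i ≤ 𝔇.s.nm → (pvasBack T σ)^[i] 𝔇.s.dm = 𝔇.s.em i) {n : ℕ}
    (hn : 𝔇.SYn pos π σ n) {y yp ym : T.Pth}
    (hy : PvwLE T (fun i => T.src (pvasIt T σ 𝔇.t.dp i)) n y) (hp : PvwLE T (fun i => T.src (𝔇.t.ep i)) 𝔇.t.np yp) (hm : PvwLE T (fun i => T.src (𝔇.s.em i)) 𝔇.s.nm ym) :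
    ∃ K L, K ≤ yp.n ∧ L ≤ ym.n ∧ K + L ≤ y.n ∧ (∀ k, k ≤ K → y.v k = yp.v k) ∧ (∀ k, k < K → y.e k = yp.e k) ∧
      (∀ k, k ≤ L → y.v (y.n - k) = ym.v k) ∧ (∀ k, k < L → y.e (y.n - 1 - k) = T.opp (ym.e k)) ∧
      (∀ k, K ≤ k → k + L < y.n → ∃ t, 𝔇.t.np ≤ t ∧ t + 𝔇.s.nm < n ∧ σ (T.apex (pvasIt T σ 𝔇.t.dp t)) = true ∧ y.e k = T.rot (pvasIt T σ 𝔇.t.dp t)) ∧
      ∀ k, K < k → k + L < y.n → ∃ t, 𝔇.t.np < t ∧ t + 𝔇.s.nm < n ∧ y.v k = T.src (pvasIt T σ 𝔇.t.dp t) := by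
  obtain ⟨h1, h2, h3, -⟩ := hn
  have hinj := pvjs_inj_of_first hbw (n := n) (fun i hi => by rw [h2]; exact h3 i hi)
  have hp' : PvwLE T (fun i => T.src (pvasIt T σ 𝔇.t.dp i)) 𝔇.t.np yp := pvjs_le_walk_congr (fun i hi => by rw [hfw i hi]) hp
  have e : n - (n - 𝔇.s.nm) = 𝔇.s.nm := by omega
  have hm' : PvwLE T (fun i => T.src (pvasIt T σ 𝔇.t.dp (n - i))) (n - (n - 𝔇.s.nm)) ym := by
    rw [e]
    exact pvjs_le_walk_congr (fun i hi => by rw [pvjs_tail hbw h2 i (by omega), hbk i hi]) hm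
  obtain ⟨K, L, c1, c2, c3, c4, c5, c6, c7, c8, c9⟩ := pvjs_sandwich hT hS hbw (m₁ := 𝔇.t.np) (m₂ := n - 𝔇.s.nm) (by omega) (Nat.sub_le _ _) hinj hy hp' hm'
  refine ⟨K, L, c1, c2, c3, c4, c5, c6, c7, fun k k1 k2 => ?_, fun k k1 k2 => ?_⟩
  · obtain ⟨t, t1, t2, t3, t4⟩ := c8 k k1 k2
    exact ⟨t, t1, by omega, t3, t4⟩
  · obtain ⟨t, t1, t2, t3⟩ := c9 k k1 k2
    exact ⟨t, t1, by omega, t3⟩

/-- every vertex of `y` lies on `LE(LB Σ⁺(t))`, on `LE(LB Σ⁻(s))`, or is a site of a NEW position: a `YCL` site or a frozen site of `D_Y` -/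
theorem pvjs_yarc_verts (hT : T.IsSph) (hS : T.Simple) (𝔇 : PvwDat T) {pos : V → ℂ} {π : PvwPat} {σ : V → Bool} (hbw : pvasBW T σ 𝔇.t.dp)
    (hfw : ∀ i, i ≤ 𝔇.t.np → pvasIt T σ 𝔇.t.dp i = 𝔇.t.ep i) (hbk : ∀ i, i ≤ 𝔇.s.nm → (pvasBack T σ)^[i] 𝔇.s.dm = 𝔇.s.em i) {n : ℕ}
    (hn : 𝔇.SYn pos π σ n) {y yp ym : T.Pth}
    (hy : PvwLE T (fun i => T.src (pvasIt T σ 𝔇.t.dp i)) n y) (hp : PvwLE T (fun i => T.src (𝔇.t.ep i)) 𝔇.t.np yp) (hm : PvwLE T (fun i => T.src (𝔇.s.em i)) 𝔇.s.nm ym) :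
    ∀ v ∈ y.verts, v ∈ yp.verts ∨ v ∈ ym.verts ∨ v ∈ 𝔇.YCL pos π ∪ 𝔇.fzY := by
  obtain ⟨K, L, c1, c2, c3, c4, -, c6, -, -, c9⟩ := pvjs_yarc hT hS 𝔇 hbw hfw hbk hn hy hp hm
  rintro v ⟨k, hk, rfl⟩
  by_cases k1 : k ≤ K
  · exact Or.inl ⟨k, by omega, (c4 k k1).symm⟩
  · by_cases k2 : k + L < y.n
    · obtain ⟨t, t1, t2, t3⟩ := c9 k (by omega) k2
      rw [t3]
      exact Or.inr (Or.inr (hn.2.2.2 t t1 t2).1)
    · refine Or.inr (Or.inl ⟨y.n - k, by omega, ?_⟩)
      rw [← c6 (y.n - k) (by omega)]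
      congr 1
      omega

/-- the same with the clause of `SYn` of Defs v3 (ruling 16 (1a) of 234): every vertex of `y` lies on `LE(LB Σ⁺(t))`, on `LE(LB Σ⁻(s))`, or OVER `Yin` -/
theorem pvjs_yarc_verts_in (hT : T.IsSph) (hS : T.Simple) (𝔇 : PvwDat T) {pos : V → ℂ} {π : PvwPat} {σ : V → Bool} (hbw : pvasBW T σ 𝔇.t.dp)
    (hfw : ∀ i, i ≤ 𝔇.t.np → pvasIt T σ 𝔇.t.dp i = 𝔇.t.ep i) (hbk : ∀ i, i ≤ 𝔇.s.nm → (pvasBack T σ)^[i] 𝔇.s.dm = 𝔇.s.em i) {n : ℕ}
    (hn : 𝔇.SYn pos π σ n) {y yp ym : T.Pth}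
    (hy : PvwLE T (fun i => T.src (pvasIt T σ 𝔇.t.dp i)) n y) (hp : PvwLE T (fun i => T.src (𝔇.t.ep i)) 𝔇.t.np yp) (hm : PvwLE T (fun i => T.src (𝔇.s.em i)) 𝔇.s.nm ym) :
    ∀ v ∈ y.verts, v ∈ yp.verts ∨ v ∈ ym.verts ∨ (pos v ∈ π.Yin ∧ v ∈ 𝔇.YCL pos π ∪ 𝔇.fzY) := by
  obtain ⟨K, L, c1, c2, c3, c4, -, c6, -, -, c9⟩ := pvjs_yarc hT hS 𝔇 hbw hfw hbk hn hy hp hm
  rintro v ⟨k, hk, rfl⟩
  by_cases k1 : k ≤ K
  · exact Or.inl ⟨k, by omega, (c4 k k1).symm⟩
  · by_cases k2 : k + L < y.n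
    · obtain ⟨t, t1, t2, t3⟩ := c9 k (by omega) k2
      rw [t3]
      exact Or.inr (Or.inr ⟨(hn.2.2.2 t t1 t2).2.2.1, (hn.2.2.2 t t1 t2).1⟩)
    · refine Or.inr (Or.inl ⟨y.n - k, by omega, ?_⟩)
      rw [← c6 (y.n - k) (by omega)]
      congr 1
      omega

/-- the right triangle of a NEW dart of `y` (a dart which is neither on `LE(LB Σ⁺(t))` nor on the reversed `LE(LB Σ⁻(s))`) is the face of a position `np ≤ t < n - nm` of the run:
its three vertices are the two ends of the position number `t` and the black end of the position number `t + 1` -/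
theorem pvjs_new_face {a : D} {t : ℕ} (hb : s (T.apex (pvasIt T s a t)) = true) :
    T.src (T.opp (T.rot (pvasIt T s a t))) = T.src (pvasIt T s a (t + 1)) ∧ T.tgt (T.opp (T.rot (pvasIt T s a t))) = T.src (pvasIt T s a t) ∧
      T.apex (T.opp (T.rot (pvasIt T s a t))) = T.tgt (pvasIt T s a t) := by
  have e : T.src (pvasIt T s a (t + 1)) = T.apex (pvasIt T s a t) := by
    rw [pvas_it_succ]
    rcases pvas_step_ends s (pvasIt T s a t) with ⟨-, e, -⟩ | ⟨h, -, -⟩
    · exact e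
    · rw [hb] at h
      exact absurd h (by simp)
  refine ⟨?_, ?_, ?_⟩
  · rw [T.src_opp', T.tgt_rot, e]
  · rw [T.tgt_opp, T.src_rot]
  · rw [pvt_s_opp_rot, T.apex_nxt2]

end Claimed.Agent.R289
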