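import Claimed.Agent.R289.Tr.InstE
import Claimed.Agent.R289.Tr.BrStrand
import Claimed.Agent.R289.Tr.OneWall
import Claimed.Agent.R289.Tr.Geo

/-!
# Row 289 (S0537), THE WALL, ROAD E, file Tr/MaskE : MASKS (D10, D11, E30) = MASK EXACTNESS OF A LINK IN A TWO-LINK RING      (pen helper55, post Y of 82; prefix `pvme_`, `Pvme`, `pvme`)

WHAT.   Field `thick` (E30) bounds `E[1_U |ke|²]` by I.BES.   I.BES tests a DETERMINISTIC Borel function at the BARYCENTRES of the tags of ONE label.   So on the ring  `p -e-> p' -e'-> p`  the value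
`I_X(p → p') = PvieLk.val` (whole mass of `inn p` in its cut-off disc + mass off the two discs of `inn p [ip,n) . y . inn p' [0,ip')`) must be the sum over ALL the tags of the ring of `1_M (barycentre) * w`, `M` deterministic.
DECISION (ruling 13 (2) of 234, fallback of 140): the STATE reads positions of VERTICES only (`mask_p mask_m` of `PvxAt` / `PvieAt` as typed + the two inner halves, 210 (1)); the mask of the SUMS is DERIVED:
      `pvmeM z r z' r' μ A := closedBall z r ∪ (thickening (2 μ) A \ closedBall z' r')`,      `A := Mp(p) ∪ Yin(e) ∪ Mm(p')`,   `μ` = bound of |barycentre of a tag - first vertex of its edge|  (mesh),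
and SEP is METRIC: `3 μ ≤ |a - b|` for `a ∈ A`, `b ∈ B := Mp(p') ∪ Yin(e') ∪ Mm(p)`   (cells of mesh `ρ'' h ≥ μ` at sup-distance `≥ 4`: 66's `8-separated` implies it).

* sec. 1  calculus of `pvwMass` under a change of mask (PROVED)
* sec. 2  `pvmeM`, Borel, bounded (PROVED)
* sec. 3  `PvmeEx` = the hypotheses on `(T, pos)`; **`pvme_exact`** : `val = Σ over the four pieces of the mass in M` (PROVED)
* sec. 4  MESH (RULING 20 (3) of 234: the plain events of the links contain `PvtrMesh (μ₀ m) window`): **`pvme_mesh_dart`**, `pvme_mesh_tag` : in the Delaunay plane of ANY set of sites, a face with a vertex in `pvtrCore (3 ρ) U` has its barycentre within `4 ρ / 3` of that vertex (PROVED)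
RING, HEADS, PRODUCER OF `PvmeEx`, `lsum` FORM = `Tr/ThickC2` of 118 (`pvtk2_main`);   AT THE MODEL = 132 (`Tr/InstEKR`), 290 (`Tr/MaskR`), 118 (`Tr/ThickCl`).
CONSUMERS: `recog` of `PvktDat.At` (103 `Tr/BuThick`), (J2) of 223, `Tr/InstEK` of 7;   ring recognition = 244 `Tr/KitI` [CLOSE] / 194 `pvow_ring`.
-/

set_option autoImplicit false

namespace Claimed.Agent.R289

open Set Metric

/-! ## 1. calculus of `pvwMass` -/

section mass

variable {V D : Type} {T : PvMap V D}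

/-- two masks which contain the same tags of the piece -/
theorem pvme_mass_congr (pos : V → ℂ) (w : D → ℂ) {K K' : Set ℂ} (p : T.Pth) {i j : ℕ}
    (h : ∀ k, i ≤ k → k < j → (T.bary pos (T.opp (p.e k)) ∈ K ↔ T.bary pos (T.opp (p.e k)) ∈ K')) : pvwMass T pos w K p i j = pvwMass T pos w K' p i j := by
  classical
  unfold pvwMass
  refine Finset.sum_congr rfl fun k hk => ?_
  rw [Finset.mem_Ico] at hk
  by_cases h1 : T.bary pos (T.opp (p.e k)) ∈ K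
  · rw [if_pos h1, if_pos ((h k hk.1 hk.2).1 h1)]
  · rw [if_neg h1, if_neg fun h2 => h1 ((h k hk.1 hk.2).2 h2)]

/-- no tag of the piece in the mask -/
theorem pvme_mass_zero (pos : V → ℂ) (w : D → ℂ) {K : Set ℂ} (p : T.Pth) {i j : ℕ} (h : ∀ k, i ≤ k → k < j → T.bary pos (T.opp (p.e k)) ∉ K) : pvwMass T pos w K p i j = 0 := by
  classical
  unfold pvwMass
  refine Finset.sum_eq_zero fun k hk => ?_
  rw [Finset.mem_Ico] at hk
  rw [if_neg (h k hk.1 hk.2)]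

/-- Chasles -/
theorem pvme_mass_split (pos : V → ℂ) (w : D → ℂ) (K : Set ℂ) (p : T.Pth) {i j l : ℕ} (hij : i ≤ j) (hjl : j ≤ l) :
    pvwMass T pos w K p i l = pvwMass T pos w K p i j + pvwMass T pos w K p j l := by
  classical
  unfold pvwMass
  rw [Finset.sum_Ico_consecutive _ hij hjl]

/-- a mask which, on the tags of the piece, is the disjoint union of two masks -/
theorem pvme_mass_add (pos : V → ℂ) (w : D → ℂ) {K K₁ K₂ : Set ℂ} (p : T.Pth) {i j : ℕ}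
    (h : ∀ k, i ≤ k → k < j → (T.bary pos (T.opp (p.e k)) ∈ K ↔ T.bary pos (T.opp (p.e k)) ∈ K₁ ∨ T.bary pos (T.opp (p.e k)) ∈ K₂) ∧
      ¬ (T.bary pos (T.opp (p.e k)) ∈ K₁ ∧ T.bary pos (T.opp (p.e k)) ∈ K₂)) :
    pvwMass T pos w K p i j = pvwMass T pos w K₁ p i j + pvwMass T pos w K₂ p i j := by
  classical
  unfold pvwMass
  rw [← Finset.sum_add_distrib]
  refine Finset.sum_congr rfl fun k hk => ?_
  rw [Finset.mem_Ico] at hk
  obtain ⟨h1, h2⟩ := h k hk.1 hk.2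
  by_cases a1 : T.bary pos (T.opp (p.e k)) ∈ K₁
  · have a2 : T.bary pos (T.opp (p.e k)) ∉ K₂ := fun a2 => h2 ⟨a1, a2⟩
    rw [if_pos (h1.2 (Or.inl a1)), if_pos a1, if_neg a2, add_zero]
  · by_cases a2 : T.bary pos (T.opp (p.e k)) ∈ K₂
    · rw [if_pos (h1.2 (Or.inr a2)), if_neg a1, if_pos a2, zero_add]
    · have a3 : T.bary pos (T.opp (p.e k)) ∉ K := fun a3 => (h1.1 a3).elim a1 a2
      rw [if_neg a3, if_neg a1, if_neg a2, add_zero]

/-- the mass in a mask as a `psum` -/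
theorem pvme_mass_psum (pos : V → ℂ) (w : D → ℂ) (K : Set ℂ) (p : T.Pth) :
    pvwMass T pos w K p 0 p.n = p.psum fun d => K.indicator (1 : ℂ → ℂ) (T.bary pos d) * w d := by
  classical
  unfold pvwMass PvMap.Pth.psum
  rw [Finset.range_eq_Ico]
  refine Finset.sum_congr rfl fun k _ => ?_
  show _ = K.indicator (1 : ℂ → ℂ) (T.bary pos (T.opp (p.e k))) * w (T.opp (p.e k))
  by_cases h1 : T.bary pos (T.opp (p.e k)) ∈ K
  · rw [if_pos h1, indicator_of_mem h1, Pi.one_apply, one_mul]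
  · rw [if_neg h1, indicator_of_notMem h1, zero_mul]

end mass

/-! ## 2. the mask of a link -/

/-- **THE MASK OF THE LINK `p → p'`**: the cut-off disc of `p`, and the `2 μ`-neighbourhood of the vertex mask `A` off the cut-off disc of `p'` -/
def pvmeM (z : ℂ) (r : ℝ) (z' : ℂ) (r' μ : ℝ) (A : Set ℂ) : Set ℂ := closedBall z r ∪ (thickening (2 * μ) A \ closedBall z' r')

theorem pvme_eqns_cite : True := by
  have := @pvmeM.eq_1
  trivial

theorem pvme_M_meas (z : ℂ) (r : ℝ) (z' : ℂ) (r' μ : ℝ) (A : Set ℂ) : MeasurableSet (pvmeM z r z' r' μ A) :=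
  isClosed_closedBall.measurableSet.union (isOpen_thickening.measurableSet.diff isClosed_closedBall.measurableSet)

/-- the mask lies in a ball -/
theorem pvme_M_sub {z : ℂ} {r : ℝ} {z' : ℂ} {r' μ : ℝ} {A : Set ℂ} {c : ℂ} {R : ℝ} (h1 : closedBall z r ⊆ closedBall c R) (h2 : ∀ a ∈ A, ‖a - c‖ + 2 * μ ≤ R) :
    pvmeM z r z' r' μ A ⊆ closedBall c R := by
  rintro x (hx | ⟨hx, -⟩)
  · exact h1 hx
  · obtain ⟨a, ha, hxa⟩ := mem_thickening_iff.1 hx
    rw [mem_closedBall, dist_eq_norm]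
    have h3 : ‖x - c‖ ≤ ‖x - a‖ + ‖a - c‖ := by
      have := norm_add_le (x - a) (a - c)
      rwa [sub_add_sub_cancel] at this
    rw [dist_eq_norm] at hxa
    linarith [h2 a ha]

/-! ## 3. MASK EXACTNESS on `(T, pos)` -/

section exact

variable {V D : Type} {T : PvMap V D}

/-- **THE HYPOTHESES OF MASK EXACTNESS** for the ring `inn . y . inn' . y'`: `(z, r)`, `(z', r')` = the two cut-off discs, `μ` = mesh of the tags, `A` / `B` = vertex masks of the link `p → p'` / of the return `p' → p` -/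
structure PvmeEx (T : PvMap V D) (pos : V → ℂ) (𝔖 𝔖' : PvwSt T) (y y' : T.Pth) (z : ℂ) (r : ℝ) (z' : ℂ) (r' μ : ℝ) (A B : Set ℂ) : Prop where
  mu0 : 0 < μ
  /-- MESH: the barycentre of a tag is within `μ` of the first vertex of its edge -/
  mesh_i : ∀ k, k < 𝔖.inn.n → ‖T.bary pos (T.opp (𝔖.inn.e k)) - pos (𝔖.inn.v k)‖ ≤ μ
  mesh_y : ∀ k, k < y.n → ‖T.bary pos (T.opp (y.e k)) - pos (y.v k)‖ ≤ μ
  mesh_i' : ∀ k, k < 𝔖'.inn.n → ‖T.bary pos (T.opp (𝔖'.inn.e k)) - pos (𝔖'.inn.v k)‖ ≤ μ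
  mesh_y' : ∀ k, k < y'.n → ‖T.bary pos (T.opp (y'.e k)) - pos (y'.v k)‖ ≤ μ
  /-- SEP, metric form -/
  sep : ∀ a ∈ A, ∀ b ∈ B, 3 * μ ≤ ‖a - b‖
  /-- the two halves of the inner arcs off the (slightly smaller) cut-off discs -/
  inn_p : ∀ k, 𝔖.ip ≤ k → k < 𝔖.inn.n → r - μ < ‖pos (𝔖.inn.v k) - z‖ → pos (𝔖.inn.v k) ∈ A
  inn_m : ∀ k, k < 𝔖.ip → r - μ < ‖pos (𝔖.inn.v k) - z‖ → pos (𝔖.inn.v k) ∈ B
  inn_p' : ∀ k, 𝔖'.ip ≤ k → k < 𝔖'.inn.n → r' - μ < ‖pos (𝔖'.inn.v k) - z'‖ → pos (𝔖'.inn.v k) ∈ B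
  inn_m' : ∀ k, k < 𝔖'.ip → r' - μ < ‖pos (𝔖'.inn.v k) - z'‖ → pos (𝔖'.inn.v k) ∈ A
  /-- the two outer arcs -/
  y_in : ∀ k, k < y.n → pos (y.v k) ∈ A
  y_in' : ∀ k, k < y'.n → pos (y'.v k) ∈ B
  /-- nothing but its own inner arc comes near a cut-off disc -/
  y_far : ∀ k, k < y.n → r + μ < ‖pos (y.v k) - z‖ ∧ r' + μ < ‖pos (y.v k) - z'‖
  y_far' : ∀ k, k < y'.n → r + μ < ‖pos (y'.v k) - z‖
  i_far : ∀ k, k < 𝔖.inn.n → r' + μ < ‖pos (𝔖.inn.v k) - z'‖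
  i_far' : ∀ k, k < 𝔖'.inn.n → r + μ < ‖pos (𝔖'.inn.v k) - z‖

theorem pvme_tri {x v c : ℂ} {μ : ℝ} (h : ‖x - v‖ ≤ μ) : ‖v - c‖ - μ ≤ ‖x - c‖ ∧ ‖x - c‖ ≤ ‖v - c‖ + μ := by
  have h1 : ‖v - c‖ ≤ ‖v - x‖ + ‖x - c‖ := by
    have := norm_add_le (v - x) (x - c)
    rwa [sub_add_sub_cancel] at this
  have h2 : ‖x - c‖ ≤ ‖x - v‖ + ‖v - c‖ := by
    have := norm_add_le (x - v) (v - c)
    rwa [sub_add_sub_cancel] at this
  rw [norm_sub_rev v x] at h1
  constructor <;> linarith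

/-- a point within `μ` of `A` is in the thickening -/
theorem pvme_in_thick {x v : ℂ} {μ : ℝ} {A : Set ℂ} (mu0 : 0 < μ) (h : ‖x - v‖ ≤ μ) (hv : v ∈ A) : x ∈ thickening (2 * μ) A :=
  mem_thickening_iff.2 ⟨v, hv, by rw [dist_eq_norm]; linarith⟩

/-- a point within `μ` of `B` is not in the thickening of `A` -/
theorem pvme_not_thick {x v : ℂ} {μ : ℝ} {A B : Set ℂ} (sep : ∀ a ∈ A, ∀ b ∈ B, 3 * μ ≤ ‖a - b‖) (h : ‖x - v‖ ≤ μ) (hv : v ∈ B) : x ∉ thickening (2 * μ) A := by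
  intro hx
  obtain ⟨a, ha, hxa⟩ := mem_thickening_iff.1 hx
  rw [dist_eq_norm] at hxa
  have h1 := sep a ha v hv
  have h2 : ‖a - v‖ ≤ ‖a - x‖ + ‖x - v‖ := by
    have := norm_add_le (a - x) (x - v)
    rwa [sub_add_sub_cancel] at this
  rw [norm_sub_rev a x] at h2
  linarith

variable {pos : V → ℂ} {𝔖 𝔖' : PvwSt T} {y y' : T.Pth} {z : ℂ} {r : ℝ} {z' : ℂ} {r' μ : ℝ} {A B : Set ℂ}

/-- **MASK EXACTNESS**: `I_X(p → p')` = the mass in the mask `M` of ALL the four pieces of the ring -/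
theorem pvme_exact (h : PvmeEx T pos 𝔖 𝔖' y y' z r z' r' μ A B) (hip : 𝔖.ip ≤ 𝔖.inn.n) (hip' : 𝔖'.ip ≤ 𝔖'.inn.n) (w : D → ℂ) :
    pvwMass T pos w (closedBall z r) 𝔖.inn 0 𝔖.inn.n + pvwMass T pos w (closedBall z r ∪ closedBall z' r')ᶜ 𝔖.inn 𝔖.ip 𝔖.inn.n +
        pvwMass T pos w (closedBall z r ∪ closedBall z' r')ᶜ y 0 y.n + pvwMass T pos w (closedBall z r ∪ closedBall z' r')ᶜ 𝔖'.inn 0 𝔖'.ip =
      pvwMass T pos w (pvmeM z r z' r' μ A) 𝔖.inn 0 𝔖.inn.n + pvwMass T pos w (pvmeM z r z' r' μ A) y 0 y.n +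
        pvwMass T pos w (pvmeM z r z' r' μ A) 𝔖'.inn 0 𝔖'.inn.n + pvwMass T pos w (pvmeM z r z' r' μ A) y' 0 y'.n := by
  have cb : ∀ (x c : ℂ) (ρ : ℝ), x ∈ closedBall c ρ ↔ ‖x - c‖ ≤ ρ := fun x c ρ => by rw [mem_closedBall, dist_eq_norm]
  have moff : ∀ x : ℂ, x ∈ (closedBall z r ∪ closedBall z' r')ᶜ ↔ r < ‖x - z‖ ∧ r' < ‖x - z'‖ := fun x => by
    rw [mem_compl_iff, mem_union, not_or, cb, cb, not_le, not_le]
  have mM : ∀ x : ℂ, x ∈ pvmeM z r z' r' μ A ↔ ‖x - z‖ ≤ r ∨ (x ∈ thickening (2 * μ) A ∧ r' < ‖x - z'‖) := fun x => by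
    unfold pvmeM
    rw [mem_union, mem_sdiff, cb, cb, not_le]
  -- the inner arc of `p`, before the mark
  have s1 : pvwMass T pos w (pvmeM z r z' r' μ A) 𝔖.inn 0 𝔖.ip = pvwMass T pos w (closedBall z r) 𝔖.inn 0 𝔖.ip := by
    refine pvme_mass_congr pos w _ fun k _ hk => ?_
    have hm := h.mesh_i k (by omega)
    rw [mM, cb]
    refine ⟨fun hx => hx.elim id fun hx => ?_, Or.inl⟩
    by_contra hn
    rw [not_le] at hn
    exact pvme_not_thick h.sep hm (h.inn_m k hk (by linarith [(pvme_tri (c := z) hm).2])) hx.1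
  -- the inner arc of `p`, after the mark
  have s2 : pvwMass T pos w (pvmeM z r z' r' μ A) 𝔖.inn 𝔖.ip 𝔖.inn.n =
      pvwMass T pos w (closedBall z r) 𝔖.inn 𝔖.ip 𝔖.inn.n + pvwMass T pos w (closedBall z r ∪ closedBall z' r')ᶜ 𝔖.inn 𝔖.ip 𝔖.inn.n := by
    refine pvme_mass_add pos w _ fun k hk1 hk2 => ?_
    have hm := h.mesh_i k hk2
    have hf : r' < ‖T.bary pos (T.opp (𝔖.inn.e k)) - z'‖ := by linarith [(pvme_tri (c := z') hm).1, h.i_far k hk2]
    rw [mM, cb, moff]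
    refine ⟨⟨fun hx => ?_, fun hx => ?_⟩, fun hx => absurd hx.1 (not_le.2 hx.2.1)⟩
    · by_cases hr : ‖T.bary pos (T.opp (𝔖.inn.e k)) - z‖ ≤ r
      · exact Or.inl hr
      · exact Or.inr ⟨not_le.1 hr, hf⟩
    · rcases hx with hx | hx
      · exact Or.inl hx
      · exact Or.inr ⟨pvme_in_thick h.mu0 hm (h.inn_p k hk1 hk2 (by linarith [(pvme_tri (c := z) hm).2])), hf⟩
  -- the arc `y`
  have s3 : pvwMass T pos w (pvmeM z r z' r' μ A) y 0 y.n = pvwMass T pos w (closedBall z r ∪ closedBall z' r')ᶜ y 0 y.n := by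
    refine pvme_mass_congr pos w _ fun k _ hk => ?_
    have hm := h.mesh_y k hk
    have hf1 : r < ‖T.bary pos (T.opp (y.e k)) - z‖ := by linarith [(pvme_tri (c := z) hm).1, (h.y_far k hk).1]
    have hf2 : r' < ‖T.bary pos (T.opp (y.e k)) - z'‖ := by linarith [(pvme_tri (c := z') hm).1, (h.y_far k hk).2]
    rw [mM, moff]
    exact ⟨fun _ => ⟨hf1, hf2⟩, fun _ => Or.inr ⟨pvme_in_thick h.mu0 hm (h.y_in k hk), hf2⟩⟩
  -- the inner arc of `p'`, before the mark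
  have s4 : pvwMass T pos w (pvmeM z r z' r' μ A) 𝔖'.inn 0 𝔖'.ip = pvwMass T pos w (closedBall z r ∪ closedBall z' r')ᶜ 𝔖'.inn 0 𝔖'.ip := by
    refine pvme_mass_congr pos w _ fun k _ hk => ?_
    have hm := h.mesh_i' k (by omega)
    have hf1 : r < ‖T.bary pos (T.opp (𝔖'.inn.e k)) - z‖ := by linarith [(pvme_tri (c := z) hm).1, h.i_far' k (by omega)]
    rw [mM, moff]
    refine ⟨fun hx => hx.elim (fun hx => absurd hx (not_le.2 hf1)) fun hx => ⟨hf1, hx.2⟩, fun hx => Or.inr ⟨?_, hx.2⟩⟩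
    exact pvme_in_thick h.mu0 hm (h.inn_m' k hk (by linarith [(pvme_tri (c := z') hm).2, hx.2]))
  -- the inner arc of `p'`, after the mark
  have s5 : pvwMass T pos w (pvmeM z r z' r' μ A) 𝔖'.inn 𝔖'.ip 𝔖'.inn.n = 0 := by
    refine pvme_mass_zero pos w _ fun k hk1 hk2 => ?_
    have hm := h.mesh_i' k hk2
    have hf1 : r < ‖T.bary pos (T.opp (𝔖'.inn.e k)) - z‖ := by linarith [(pvme_tri (c := z) hm).1, h.i_far' k hk2]
    rw [mM]
    rintro (hx | hx)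
    · exact absurd hx (not_le.2 hf1)
    · exact pvme_not_thick h.sep hm (h.inn_p' k hk1 hk2 (by linarith [(pvme_tri (c := z') hm).2, hx.2])) hx.1
  -- the return arc
  have s6 : pvwMass T pos w (pvmeM z r z' r' μ A) y' 0 y'.n = 0 := by
    refine pvme_mass_zero pos w _ fun k _ hk => ?_
    have hm := h.mesh_y' k hk
    have hf1 : r < ‖T.bary pos (T.opp (y'.e k)) - z‖ := by linarith [(pvme_tri (c := z) hm).1, h.y_far' k hk]
    rw [mM]
    rintro (hx | hx)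
    · exact absurd hx (not_le.2 hf1)
    · exact pvme_not_thick h.sep hm (h.y_in' k hk) hx.1
  rw [pvme_mass_split pos w (pvmeM z r z' r' μ A) 𝔖.inn (Nat.zero_le _) hip, pvme_mass_split pos w (pvmeM z r z' r' μ A) 𝔖'.inn (Nat.zero_le _) hip',
    pvme_mass_split pos w (closedBall z r) 𝔖.inn (Nat.zero_le _) hip, s1, s2, s3, s4, s5, s6]
  ring

end exact

/-! ## 4. mesh -/

section mesh

/-- **MESH ⟹ THE BARYCENTRE OF A FACE IS NEAR EACH OF ITS VERTICES IN THE CORE**, dart form: the vertex is the TARGET of the dart      (a tag `d = opp (p.e k)` has `tgt d = p.v k`;   `pvge_adj_short` of 29) -/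
theorem pvme_mesh_dart {Y U : Set ℂ} {ρ : ℝ} (hρ : 0 < ρ) (hm : PvtrMesh ρ U Y) (d : (delbPl Y).Dart) (hc : (((delbPl Y).toMap.tgt d : ↥Y) : ℂ) ∈ pvtrCore (3 * ρ) U) :
    ‖(delbPl Y).toMap.bary Subtype.val d - (((delbPl Y).toMap.tgt d : ↥Y) : ℂ)‖ ≤ 4 * ρ / 3 := by
  have a1 : DelAdj Y (((delbPl Y).toMap.tgt d : ↥Y) : ℂ) (((delbPl Y).toMap.src d : ↥Y) : ℂ) := d.2.2.symm
  have a2 : DelAdj Y (((delbPl Y).toMap.tgt d : ↥Y) : ℂ) (((delbPl Y).toMap.apex d : ↥Y) : ℂ) := by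
    have := ((delbPl Y).toMap.nxt d).2.2
    have f1 : (delbPl Y).toMap.src ((delbPl Y).toMap.nxt d) = (delbPl Y).toMap.tgt d := PvMap.src_nxt _ _
    have f2 : (delbPl Y).toMap.tgt ((delbPl Y).toMap.nxt d) = (delbPl Y).toMap.apex d := PvMap.tgt_nxt _ _
    rw [← f1, ← f2]
    exact this
  have b1 := pvge_adj_short hρ hm hc a1
  have b2 := pvge_adj_short hρ hm hc a2
  have e : (delbPl Y).toMap.bary Subtype.val d - (((delbPl Y).toMap.tgt d : ↥Y) : ℂ)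
      = -(((((delbPl Y).toMap.tgt d : ↥Y) : ℂ) - (((delbPl Y).toMap.src d : ↥Y) : ℂ)) + ((((delbPl Y).toMap.tgt d : ↥Y) : ℂ) - (((delbPl Y).toMap.apex d : ↥Y) : ℂ))) / 3 := by
    unfold PvMap.bary
    ring
  rw [e, norm_div, norm_neg]
  have h3 : ‖(3 : ℂ)‖ = 3 := by norm_num
  rw [h3]
  have := norm_add_le ((((delbPl Y).toMap.tgt d : ↥Y) : ℂ) - (((delbPl Y).toMap.src d : ↥Y) : ℂ)) ((((delbPl Y).toMap.tgt d : ↥Y) : ℂ) - (((delbPl Y).toMap.apex d : ↥Y) : ℂ))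
  rw [div_le_div_iff_of_pos_right (by norm_num)]
  linarith

/-- the same for the tag of the edge number `k` of a path = the mesh fields of `PvmeEx` -/
theorem pvme_mesh_tag {Y U : Set ℂ} {ρ : ℝ} (hρ : 0 < ρ) (hm : PvtrMesh ρ U Y) (p : (delbPl Y).toMap.Pth) {k : ℕ} (hk : k < p.n) (hc : ((p.v k : ↥Y) : ℂ) ∈ pvtrCore (3 * ρ) U) :
    ‖(delbPl Y).toMap.bary Subtype.val ((delbPl Y).toMap.opp (p.e k)) - ((p.v k : ↥Y) : ℂ)‖ ≤ 4 * ρ / 3 := by
  have e2 : (delbPl Y).toMap.tgt ((delbPl Y).toMap.opp (p.e k)) = p.v k := by rw [PvMap.tgt_opp, p.src_e k hk]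
  have := pvme_mesh_dart hρ hm ((delbPl Y).toMap.opp (p.e k)) (by rw [e2]; exact hc)
  rwa [e2] at this

/-- the form of 118 / 290: ONE statement for all the darts whose target lies over `E`, `E` in the core of the window -/
theorem pvme_mesh_all {Y U E : Set ℂ} {ρ μ : ℝ} (hρ : 0 < ρ) (hμ : 4 * ρ / 3 ≤ μ) (hm : PvtrMesh ρ U Y) (hE : E ⊆ pvtrCore (3 * ρ) U) :
    ∀ d : (delbPl Y).Dart, (((delbPl Y).toMap.tgt d : ↥Y) : ℂ) ∈ E → ‖(delbPl Y).toMap.bary Subtype.val d - (((delbPl Y).toMap.tgt d : ↥Y) : ℂ)‖ ≤ μ :=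
  fun d hd => (pvme_mesh_dart hρ hm d (hE hd)).trans hμ

end mesh

end Claimed.Agent.R289
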