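-- KEEP
import Claimed.Agent.R289.Tr.MaskE
import Claimed.Agent.R289.Tr.FitHyp

/-!
# Row 289 (S0537, Cardy for Poisson-Voronoi), THE WALL, ROAD E, field `thick`, (K4) of helper7 = `recog`, file Tr/ThickC2 : THE TWO THICK LINKS CLOSE TO ONE RIM, DETERMINISTIC      (helper118, post of 234 10:52Z; prefix `pvtk2_`, `Pvtk2`)

MODEL FREE: one plane map `T`, one colouring `s`, one position map `pos`.      Two plugs `𝔖` (centre `z`), `𝔖'` (centre `z'`), the link `𝔖 → 𝔖'` (run of `n` steps, rim arc `y`), the return `𝔖' → 𝔖` (run of `n'` steps, rim arc `y'`).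
**`pvtk2_main`** : the right triangle of the first edge of the inner arc of `𝔖` is a TAG and, for EVERY weight `w`, the four `pvwMass` terms of the value of the link (`PvieLk.val` of 161 = `pvdcVal` = `PvilLk.val` of 168 at `Mk = univ`, `dr = dr' = false`)
`=  T.lsum s (1_M ∘ bary * w)` at this tag,   `M := pvmeM z r z' r' μ (Mp ∪ Ye ∪ Mm')` of 55 (`Tr/MaskE`): DETERMINISTIC, Borel (`pvme_M_meas`), bounded (`pvme_M_sub`).      This is `PvjkOne` of 132 (`Tr/InstEKR`) word for word.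
* sec. 0  the words: `Pvtk2Run` (= `PvieLk.Run` = `PvilLk.Run` by `Iff.rfl`), `Pvtk2End` (one end: gate, two stubs in the box, `off_p off_m`, vertex masks of the two erased banks and of the two halves of the inner arc)
* sec. 1  the arc of a link: `pvtk2_inj _tail _time _kind`, **`pvtk2_arc_verts`** (vertices of `y` in `Mp ∪ Yin ∪ Mm'`: sandwich of 158)
* sec. 2  the inner arc of a gate: `pvtk2_inn_v0 _vn _ins _black _near _bd _pos`, `pvtk2_ab`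
* sec. 3  `Pvtk2Des` = THE DESIGN CLAUSES (numbers and regions only; `.symm`);   `pvtk2_far`, `pvtk2_in`;   the six pairs of pieces have different heads: `pvtk2_ne_out` (N1), `pvtk2_ne_in` (N2), `pvtk2_ne_inn` (N3), `pvtk2_ne_arc` (N4)
* sec. 4  **`pvtk2_ex`** : `PvmeEx` of 55 from the two ends, the design, the two runs and the mesh of the tags of the four pieces
* sec. 5  `pvtk2_chain`, `pvtk2_nodup`, `pvtk2_onwall`, **`pvtk2_ring`** (`pvow_ring` of 194: tag, FULL label class, `lsum w = Σ` of the four `psum`), **`pvtk2_main`**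
WARNING (figure 8).   Without `Pvtk2Des.sep` (the vertex masks of the link and of the return are `3 μ` apart) the statement is FALSE: the two runs may share a vertex, the closed strand then bounds two rims.
WARNING (mesh, 55).   The four mesh hypotheses are facts on the configuration (no void near the four pieces): they must come from the plain events.
-/

set_option autoImplicit false
set_option linter.unusedSectionVars false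
set_option linter.unusedVariables false

namespace Claimed.Agent.R289

open Set Metric

variable {V D : Type} {T : PvMap V D} {s : V → Bool} {pos : V → ℂ}

/-! ## 0. the words -/

/-- **THE RUN OF A LINK** `𝔖 → 𝔖'` in the words of `Tr/Defs`      (`PvieLk.Run` of 161 is this at `T := pvieT η`, `s := pvieCol η b`, `pos := pviePos η`, by `Iff.rfl`) -/
def Pvtk2Run (T : PvMap V D) (s : V → Bool) (pos : V → ℂ) (𝔖 𝔖' : PvwSt T) (Yin : Set ℂ) (n : ℕ) : Prop :=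
  𝔖.np + 𝔖'.nm ≤ n ∧ pvasIt T s 𝔖.dp n = 𝔖'.dm ∧ (∀ i, i < n → pvasIt T s 𝔖.dp i ≠ 𝔖'.dm) ∧
    ∀ i, 𝔖.np < i → i + 𝔖'.nm < n → pos (T.src (pvasIt T s 𝔖.dp i)) ∈ Yin ∧ pos (T.tgt (pvasIt T s 𝔖.dp i)) ∈ Yin

/-- **ONE END OF THE RING**: what is read of the state of a plug (gate, the two stubs in the box `Bx`, which do not return into the gate, vertex masks `Mp`, `Mm` of the two erased banks AND of the two halves of the inner arc beyond the radius `r0`: ruling 17 (a) of 234) -/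
structure Pvtk2End (T : PvMap V D) (s : V → Bool) (pos : V → ℂ) (𝔖 : PvwSt T) (h : ℝ) (z : ℂ) (τ : PvwTy) (Bx Mp Mm : Set ℂ) (r0 : ℝ) : Prop where
  gate : 𝔖.Gate pos h z τ s
  stp : 𝔖.StubP pos Bx s
  stm : 𝔖.StubM pos Bx s
  off_p : ∀ i, i ≤ 𝔖.np → 𝔖.ep i ∉ 𝔖.S.Left
  off_m : ∀ i, i ≤ 𝔖.nm → T.opp (𝔖.em i) ∉ 𝔖.S.Left
  mask_p : ∀ x : T.Pth, PvwLE T (fun i => T.src (𝔖.ep i)) 𝔖.np x → ∀ v ∈ x.verts, pos v ∈ Mp
  mask_m : ∀ x : T.Pth, PvwLE T (fun i => T.src (𝔖.em i)) 𝔖.nm x → ∀ v ∈ x.verts, pos v ∈ Mm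
  half_p : ∀ i, 𝔖.ip ≤ i → i ≤ 𝔖.inn.n → r0 < ‖pos (𝔖.inn.v i) - z‖ → pos (𝔖.inn.v i) ∈ Mp
  half_m : ∀ i, i ≤ 𝔖.ip → r0 < ‖pos (𝔖.inn.v i) - z‖ → pos (𝔖.inn.v i) ∈ Mm

theorem pvtk2_eqns_cite : True := by
  have := @Pvtk2Run.eq_1
  trivial

/-! ## 1. the arc of a link -/

section link

variable {𝔖 𝔖' : PvwSt T} {Yin : Set ℂ} {n : ℕ} {y : T.Pth}

theorem pvtk2_inj (hbw : pvasBW T s 𝔖.dp) (R : Pvtk2Run T s pos 𝔖 𝔖' Yin n) : ∀ i j, i < n → j < n → pvasIt T s 𝔖.dp i = pvasIt T s 𝔖.dp j → i = j :=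
  pvjs_inj_of_first hbw fun i hi => by rw [R.2.1]; exact R.2.2.1 i hi

/-- the last positions of the run are the entrance stub of `𝔖'` -/
theorem pvtk2_tail {Bx' : Set ℂ} (hbw : pvasBW T s 𝔖.dp) (R : Pvtk2Run T s pos 𝔖 𝔖' Yin n) (stm : 𝔖'.StubM pos Bx' s) {i : ℕ} (hi : i ≤ 𝔖'.nm) :
    pvasIt T s 𝔖.dp (n - i) = 𝔖'.em i := by
  rw [pvjs_tail hbw R.2.1 i (by have := R.1; omega), stm.em_it i hi]

/-- every vertex of the arc is the black end of a position of the run -/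
theorem pvtk2_time (hy : PvwLE T (fun i => T.src (pvasIt T s 𝔖.dp i)) n y) {k : ℕ} (hk : k ≤ y.n) : ∃ t, t ≤ n ∧ y.v k = T.src (pvasIt T s 𝔖.dp t) := by
  obtain ⟨j, -, -, h1, -⟩ := hy
  exact ⟨j k, (h1 k hk).1, (h1 k hk).2.1⟩

/-- **the three kinds of vertices of the arc**: on the exit stub of `𝔖`, new, on the entrance stub of `𝔖'` -/
theorem pvtk2_kind {Bx Bx' : Set ℂ} (hbw : pvasBW T s 𝔖.dp) (R : Pvtk2Run T s pos 𝔖 𝔖' Yin n) (stp : 𝔖.StubP pos Bx s) (stm : 𝔖'.StubM pos Bx' s)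
    (hy : PvwLE T (fun i => T.src (pvasIt T s 𝔖.dp i)) n y) {k : ℕ} (hk : k ≤ y.n) :
    (∃ i, i ≤ 𝔖.np ∧ y.v k = T.src (𝔖.ep i)) ∨ pos (y.v k) ∈ Yin ∨ ∃ i, i ≤ 𝔖'.nm ∧ y.v k = T.src (𝔖'.em i) := by
  obtain ⟨t, ht, e⟩ := pvtk2_time hy hk
  by_cases h1 : t ≤ 𝔖.np
  · exact Or.inl ⟨t, h1, by rw [e, stp.ep_it t h1]⟩
  · by_cases h2 : t + 𝔖'.nm < n
    · right; left
      rw [e]
      exact (R.2.2.2 t (by omega) h2).1
    · right; right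
      refine ⟨n - t, by omega, ?_⟩
      rw [e, ← pvtk2_tail hbw R stm (by omega)]
      congr 2
      omega

/-- **THE VERTICES OF THE ARC OF A LINK LIE IN THE VERTEX MASK** `Mp(𝔖) ∪ Yin ∪ Mm(𝔖')`      (sandwich of 158) -/
theorem pvtk2_arc_verts (hT : T.IsSph) (hS : T.Simple) {Bx Bx' Mp Mm' : Set ℂ} (hbw : pvasBW T s 𝔖.dp) (R : Pvtk2Run T s pos 𝔖 𝔖' Yin n)
    (stp : 𝔖.StubP pos Bx s) (stm : 𝔖'.StubM pos Bx' s) (hy : PvwLE T (fun i => T.src (pvasIt T s 𝔖.dp i)) n y)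
    (mp : ∀ x : T.Pth, PvwLE T (fun i => T.src (𝔖.ep i)) 𝔖.np x → ∀ v ∈ x.verts, pos v ∈ Mp)
    (mm : ∀ x : T.Pth, PvwLE T (fun i => T.src (𝔖'.em i)) 𝔖'.nm x → ∀ v ∈ x.verts, pos v ∈ Mm') {k : ℕ} (hk : k ≤ y.n) :
    pos (y.v k) ∈ Mp ∪ Yin ∪ Mm' := by
  classical
  have hle := R.1
  have hinj := pvtk2_inj hbw R
  -- the erased bank of the exit stub
  have hp' : PvwLE T (fun i => T.src (pvasIt T s 𝔖.dp i)) 𝔖.np (pvtArc T s 𝔖.dp 𝔖.np) :=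
    pvt_sd_le hT hS hbw fun i j hi hj => hinj i j (by omega) (by omega)
  have hp : PvwLE T (fun i => T.src (𝔖.ep i)) 𝔖.np (pvtArc T s 𝔖.dp 𝔖.np) := pvjs_le_walk_congr (fun i hi => by rw [stp.ep_it i hi]) hp'
  -- the erased bank of the entrance stub, read backwards
  set a2 := pvasIt T s 𝔖.dp (n - 𝔖'.nm) with ha2
  have hbw2 : pvasBW T s a2 := pvas_it_bw hbw _
  have hinj2 : ∀ i j, i < 𝔖'.nm → j < 𝔖'.nm → pvasIt T s a2 i = pvasIt T s a2 j → i = j := by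
    intro i j hi hj e
    rw [ha2, ← pvas_it_add, ← pvas_it_add] at e
    have := hinj _ _ (by omega) (by omega) e
    omega
  have hz : PvwLE T (fun i => T.src (pvasIt T s a2 i)) 𝔖'.nm (pvtArc T s a2 𝔖'.nm) := pvt_sd_le hT hS hbw2 hinj2
  have hzr : PvwLE T (fun i => T.src (pvasIt T s a2 (𝔖'.nm - i))) 𝔖'.nm (pvtArc T s a2 𝔖'.nm).rev := by
    rw [pvjs_le_rev hT hS hbw2 hinj2]
    refine pvjs_le_pth_congr (y := pvtArc T s a2 𝔖'.nm) rfl (fun k hk => ?_) hz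
    show _ = (pvtArc T s a2 𝔖'.nm).v ((pvtArc T s a2 𝔖'.nm).n - ((pvtArc T s a2 𝔖'.nm).n - k))
    congr 1
    omega
  have e0 : n - (n - 𝔖'.nm) = 𝔖'.nm := by omega
  have hm' : PvwLE T (fun i => T.src (pvasIt T s 𝔖.dp (n - i))) (n - (n - 𝔖'.nm)) (pvtArc T s a2 𝔖'.nm).rev := by
    rw [e0]
    refine pvjs_le_walk_congr (fun i hi => ?_) hzr
    show T.src (pvasIt T s a2 (𝔖'.nm - i)) = T.src (pvasIt T s 𝔖.dp (n - i))
    rw [ha2, ← pvas_it_add]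
    congr 2
    omega
  have hm : PvwLE T (fun i => T.src (𝔖'.em i)) 𝔖'.nm (pvtArc T s a2 𝔖'.nm).rev := by
    rw [e0] at hm'
    exact pvjs_le_walk_congr (fun i hi => by show T.src (pvasIt T s 𝔖.dp (n - i)) = _; rw [pvtk2_tail hbw R stm hi]) hm'
  obtain ⟨K, L, c1, c2, c3, c4, -, c6, -, -, c9⟩ := pvjs_sandwich hT hS hbw (m₁ := 𝔖.np) (m₂ := n - 𝔖'.nm) (by omega) (Nat.sub_le _ _) hinj hy hp' hm'
  by_cases k1 : k ≤ K
  · left; left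
    rw [c4 k k1]
    exact mp _ hp _ ⟨k, by omega, rfl⟩
  · by_cases k2 : k + L < y.n
    · obtain ⟨t, t1, t2, t3⟩ := c9 k (by omega) k2
      left; right
      rw [t3]
      exact (R.2.2.2 t t1 (by omega)).1
    · right
      have e : y.v k = (pvtArc T s a2 𝔖'.nm).rev.v (y.n - k) := by
        rw [← c6 (y.n - k) (by omega)]
        congr 1
        omega
      rw [e]
      exact mm _ hm _ ⟨y.n - k, by omega, rfl⟩

end link

/-! ## 2. the inner arc of a gate -/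

section gate

variable {𝔖 : PvwSt T} {h : ℝ} {z : ℂ} {τ : PvwTy}

theorem pvtk2_inn_v0 (hG : 𝔖.Gate pos h z τ s) : 𝔖.inn.v 0 = 𝔖.gm := by
  obtain ⟨n, -, -, j, h0, -⟩ := hG.strand
  exact h0

theorem pvtk2_inn_vn (hG : 𝔖.Gate pos h z τ s) : 𝔖.inn.v 𝔖.inn.n = 𝔖.gp := by
  obtain ⟨n, e, -, j, -, hn, h1, -⟩ := hG.strand
  rw [(h1 _ le_rfl).2.1, hn]
  show T.src (pvasIt T s 𝔖.dm n) = _
  rw [e]
  rfl

theorem pvtk2_gp_mem (hG : 𝔖.Gate pos h z τ s) : 𝔖.gp ∈ 𝔖.S.verts := by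
  obtain ⟨i, hi⟩ := hG.dp_on
  refine ⟨i + 1, ?_⟩
  rw [← 𝔖.S.chain, hi, T.tgt_opp]
  rfl

theorem pvtk2_gm_mem (hG : 𝔖.Gate pos h z τ s) : 𝔖.gm ∈ 𝔖.S.verts := by
  obtain ⟨i, hi⟩ := hG.dm_on
  exact ⟨i, by rw [hi]; rfl⟩

/-- the inner arc lies in the closed inside of the gate -/
theorem pvtk2_inn_ins (hT : T.IsSph) (hG : 𝔖.Gate pos h z τ s) {k : ℕ} (hk : k ≤ 𝔖.inn.n) : 𝔖.inn.v k ∈ T.VOf 𝔖.S.Left := by
  obtain ⟨n, e, hin, j, -, hn, h1, -⟩ := hG.strand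
  obtain ⟨a1, a2, -⟩ := h1 k hk
  rcases Nat.lt_or_ge (j k) n with hlt | hge
  · exact ⟨_, hin _ hlt, a2.symm⟩
  · have e1 : j k = n := le_antisymm a1 hge
    rw [pl_VOf_left hT]
    left
    rw [a2, e1]
    show T.src (pvasIt T s 𝔖.dm n) ∈ _
    rw [e]
    exact pvtk2_gp_mem hG

theorem pvtk2_inn_black (hG : 𝔖.Gate pos h z τ s) {k : ℕ} (hk : k ≤ 𝔖.inn.n) : s (𝔖.inn.v k) = true := by
  obtain ⟨n, -, -, j, -, -, h1, -⟩ := hG.strand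
  rw [(h1 k hk).2.1]
  exact (pvas_it_bw hG.bw_m _).1

theorem pvtk2_inn_near (hT : T.IsSph) (hG : 𝔖.Gate pos h z τ s) {k : ℕ} (hk : k ≤ 𝔖.inn.n) : ‖pos (𝔖.inn.v k) - z‖ < τ.b * h :=
  hG.inside _ (pvtk2_inn_ins hT hG hk)

/-- a vertex of the inner arc with a dart which is not inside the gate is `g⁺` or `g⁻` -/
theorem pvtk2_inn_bd (hT : T.IsSph) (hG : 𝔖.Gate pos h z τ s) {k : ℕ} (hk : k ≤ 𝔖.inn.n) {d : D} (hd : d ∉ 𝔖.S.Left) (e : T.src d = 𝔖.inn.v k) : k = 𝔖.inn.n ∨ k = 0 := by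
  have h1 := pvtk2_inn_ins hT hG hk
  rw [pl_VOf_left hT] at h1
  rcases h1 with h1 | h1
  · rcases hG.two _ h1 (pvtk2_inn_black hG hk) with h2 | h2
    · left
      exact 𝔖.inn.inj _ _ hk le_rfl (by rw [h2, pvtk2_inn_vn hG])
    · right
      exact 𝔖.inn.inj _ _ hk (Nat.zero_le _) (by rw [h2, pvtk2_inn_v0 hG])
  · exact absurd (h1 d e) hd

theorem pvtk2_ab (hG : 𝔖.Gate pos h z τ s) : τ.a * h < τ.b * h := by
  have := hG.ann _ (pvtk2_gp_mem hG)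
  linarith [this.1, this.2]

theorem pvtk2_inn_pos (hG : 𝔖.Gate pos h z τ s) : 0 < 𝔖.inn.n := by
  rcases Nat.eq_zero_or_pos 𝔖.inn.n with h0 | h0
  · exfalso
    apply hG.ne
    rw [← pvtk2_inn_vn hG, ← pvtk2_inn_v0 hG, h0]
  · exact h0

end gate

/-! ## 3. the design, the pairs of pieces -/

/-- **THE DESIGN CLAUSES** (deterministic facts on the numbers and the regions of the two plugs and of the two links): `(z, h, τ, Bx, Mp, Mm, r, r0)` = centre, scale, type, box, vertex masks, cut-off radius, threshold of the inner halves of the first plug;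
`Ye` / `Yc` = the rooms of the link / of the return;   `μ` = mesh of the tags -/
structure Pvtk2Des (h : ℝ) (z : ℂ) (τ : PvwTy) (Bx Mp Mm : Set ℂ) (r r0 : ℝ) (h' : ℝ) (z' : ℂ) (τ' : PvwTy) (Bx' Mp' Mm' : Set ℂ) (r' r0' : ℝ) (Ye Yc : Set ℂ) (μ : ℝ) : Prop where
  mu0 : 0 < μ
  /-- SEP, metric form (55) -/
  sep : ∀ a ∈ Mp ∪ Ye ∪ Mm', ∀ b ∈ Mp' ∪ Yc ∪ Mm, 3 * μ ≤ ‖a - b‖
  thr : r0 ≤ r - μ
  thr' : r0' ≤ r' - μ
  /-- the cut-off discs lie well inside the gates -/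
  cut : r + μ < τ.a * h
  cut' : r' + μ < τ'.a * h'
  /-- the box of a plug and the two rooms miss the core disc of the other plug / of both plugs -/
  box : ∀ p ∈ Bx, τ'.b * h' ≤ ‖p - z'‖
  box' : ∀ p ∈ Bx', τ.b * h ≤ ‖p - z‖
  ye : ∀ p ∈ Ye, τ.b * h ≤ ‖p - z‖ ∧ τ'.b * h' ≤ ‖p - z'‖
  yc : ∀ p ∈ Yc, τ.b * h ≤ ‖p - z‖ ∧ τ'.b * h' ≤ ‖p - z'‖
  /-- the two core discs are disjoint -/
  disc : ∀ p : ℂ, ‖p - z‖ < τ.b * h → τ'.b * h' ≤ ‖p - z'‖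

section pairs

variable {h : ℝ} {z : ℂ} {τ : PvwTy} {Bx Mp Mm : Set ℂ} {r r0 : ℝ} {h' : ℝ} {z' : ℂ} {τ' : PvwTy} {Bx' Mp' Mm' : Set ℂ} {r' r0' : ℝ} {Ye Yc : Set ℂ} {μ : ℝ}

/-- the design is symmetric -/
theorem Pvtk2Des.symm (Ds : Pvtk2Des h z τ Bx Mp Mm r r0 h' z' τ' Bx' Mp' Mm' r' r0' Ye Yc μ) : Pvtk2Des h' z' τ' Bx' Mp' Mm' r' r0' h z τ Bx Mp Mm r r0 Yc Ye μ where
  mu0 := Ds.mu0
  sep := fun a ha b hb => by rw [norm_sub_rev]; exact Ds.sep b hb a ha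
  thr := Ds.thr'
  thr' := Ds.thr
  cut := Ds.cut'
  cut' := Ds.cut
  box := Ds.box'
  box' := Ds.box
  ye := fun p hp => ⟨(Ds.yc p hp).2, (Ds.yc p hp).1⟩
  yc := fun p hp => ⟨(Ds.ye p hp).2, (Ds.ye p hp).1⟩
  disc := fun p hp => by
    by_contra hc
    exact absurd hp (not_lt.2 (Ds.disc p (not_le.1 hc)))

variable {𝔖 𝔖' : PvwSt T} {n n' : ℕ} {y y' : T.Pth}

/-- **the arc of a link stays off the two gates** -/
theorem pvtk2_far (hT : T.IsSph) (E : Pvtk2End T s pos 𝔖 h z τ Bx Mp Mm r0) (E' : Pvtk2End T s pos 𝔖' h' z' τ' Bx' Mp' Mm' r0')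
    (Ds : Pvtk2Des h z τ Bx Mp Mm r r0 h' z' τ' Bx' Mp' Mm' r' r0' Ye Yc μ) (R : Pvtk2Run T s pos 𝔖 𝔖' Ye n)
    (hy : PvwLE T (fun i => T.src (pvasIt T s 𝔖.dp i)) n y) {k : ℕ} (hk : k ≤ y.n) : τ.a * h ≤ ‖pos (y.v k) - z‖ ∧ τ'.a * h' ≤ ‖pos (y.v k) - z'‖ := by
  have ab := pvtk2_ab E.gate
  have ab' := pvtk2_ab E'.gate
  rcases pvtk2_kind E.gate.bw_p R E.stp E'.stm hy hk with ⟨i, hi, e⟩ | hY | ⟨i, hi, e⟩
  · rw [e]
    exact ⟨pvfu_gate_src hT E.gate (E.off_p i hi), by linarith [Ds.box _ (E.stp.ep_in i hi).1]⟩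
  · exact ⟨by linarith [(Ds.ye _ hY).1], by linarith [(Ds.ye _ hY).2]⟩
  · rw [e]
    refine ⟨by linarith [Ds.box' _ (E'.stm.em_in i hi).1], ?_⟩
    have := pvfu_gate_tgt hT E'.gate (E'.off_m i hi)
    rwa [T.tgt_opp] at this

/-- the arc of a link lies in its vertex mask -/
theorem pvtk2_in (hT : T.IsSph) (hS : T.Simple) (E : Pvtk2End T s pos 𝔖 h z τ Bx Mp Mm r0) (E' : Pvtk2End T s pos 𝔖' h' z' τ' Bx' Mp' Mm' r0') (R : Pvtk2Run T s pos 𝔖 𝔖' Ye n)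
    (hy : PvwLE T (fun i => T.src (pvasIt T s 𝔖.dp i)) n y) {k : ℕ} (hk : k ≤ y.n) : pos (y.v k) ∈ Mp ∪ Ye ∪ Mm' :=
  pvtk2_arc_verts hT hS E.gate.bw_p R E.stp E'.stm hy E.mask_p E'.mask_m hk

theorem pvtk2_y_v0 (hy : PvwLE T (fun i => T.src (pvasIt T s 𝔖.dp i)) n y) : y.v 0 = 𝔖.gp := by
  obtain ⟨j, h0, -⟩ := hy
  exact h0

theorem pvtk2_y_vn (R : Pvtk2Run T s pos 𝔖 𝔖' Ye n) (hy : PvwLE T (fun i => T.src (pvasIt T s 𝔖.dp i)) n y) : y.v y.n = 𝔖'.gm := by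
  obtain ⟨j, -, hn, h1, -⟩ := hy
  rw [(h1 _ le_rfl).2.1, hn]
  show T.src (pvasIt T s 𝔖.dp n) = _
  rw [R.2.1]
  rfl

/-- (N1) the inner arc against the arc which LEAVES the plug -/
theorem pvtk2_ne_out (hT : T.IsSph) (E : Pvtk2End T s pos 𝔖 h z τ Bx Mp Mm r0) (E' : Pvtk2End T s pos 𝔖' h' z' τ' Bx' Mp' Mm' r0')
    (Ds : Pvtk2Des h z τ Bx Mp Mm r r0 h' z' τ' Bx' Mp' Mm' r' r0' Ye Yc μ) (R : Pvtk2Run T s pos 𝔖 𝔖' Ye n)
    (hy : PvwLE T (fun i => T.src (pvasIt T s 𝔖.dp i)) n y) {k l : ℕ} (hk : k < 𝔖.inn.n) (hl : l < y.n) : 𝔖.inn.v (k + 1) ≠ y.v (l + 1) := by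
  intro e
  have hnear := pvtk2_inn_near (pos := pos) hT E.gate (k := k + 1) hk
  rcases pvtk2_kind E.gate.bw_p R E.stp E'.stm hy (k := l + 1) hl with ⟨i, hi, e'⟩ | hY | ⟨i, hi, e'⟩
  · rcases pvtk2_inn_bd hT E.gate (k := k + 1) hk (E.off_p i hi) (by rw [← e', e]) with h1 | h1
    · have h2 : y.v (l + 1) = y.v 0 := by rw [← e, h1, pvtk2_inn_vn E.gate, pvtk2_y_v0 hy]
      have := y.inj _ _ hl (Nat.zero_le _) h2
      omega
    · omega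
  · rw [e] at hnear
    linarith [(Ds.ye _ hY).1]
  · rw [e, e'] at hnear
    linarith [Ds.box' _ (E'.stm.em_in i hi).1]

/-- (N2) the inner arc against the arc which ARRIVES at the plug -/
theorem pvtk2_ne_in (hT : T.IsSph) (hS : T.Simple) (E : Pvtk2End T s pos 𝔖 h z τ Bx Mp Mm r0) (E' : Pvtk2End T s pos 𝔖' h' z' τ' Bx' Mp' Mm' r0')
    (Ds : Pvtk2Des h z τ Bx Mp Mm r r0 h' z' τ' Bx' Mp' Mm' r' r0' Ye Yc μ) (R' : Pvtk2Run T s pos 𝔖' 𝔖 Yc n')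
    (hy' : PvwLE T (fun i => T.src (pvasIt T s 𝔖'.dp i)) n' y') {k l : ℕ} (hk : k < 𝔖.inn.n) (hl : l < y'.n) : 𝔖.inn.v (k + 1) ≠ y'.v (l + 1) := by
  intro e
  have hnear := pvtk2_inn_near (pos := pos) hT E.gate (k := k + 1) hk
  rcases pvtk2_kind E'.gate.bw_p R' E'.stp E.stm hy' (k := l + 1) hl with ⟨i, hi, e'⟩ | hY | ⟨i, hi, e'⟩
  · rw [e, e'] at hnear
    linarith [Ds.box' _ (E'.stp.ep_in i hi).1]
  · rw [e] at hnear
    linarith [(Ds.yc _ hY).1]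
  · have hd : T.nxt (T.opp (𝔖.em i)) ∉ 𝔖.S.Left := fun h1 => E.off_m i hi ((pl_left_face 𝔖.S _).1 h1)
    have hs : T.src (T.nxt (T.opp (𝔖.em i))) = 𝔖.inn.v (k + 1) := by rw [T.src_nxt, T.tgt_opp, ← e', e]
    rcases pvtk2_inn_bd hT E.gate (k := k + 1) hk hd hs with h1 | h1
    · -- `g⁺` lies in the mask of the link, the arc `y'` in the mask of the return
      have hgp : τ.a * h ≤ ‖pos (𝔖.inn.v 𝔖.inn.n) - z‖ := by rw [pvtk2_inn_vn E.gate]; exact (E.gate.ann _ (pvtk2_gp_mem E.gate)).1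
      have hA : pos (𝔖.inn.v 𝔖.inn.n) ∈ Mp := E.half_p _ E.gate.ip_le le_rfl (by linarith [Ds.thr, Ds.cut, Ds.mu0])
      have hB : pos (y'.v (l + 1)) ∈ Mp' ∪ Yc ∪ Mm := pvtk2_in hT hS E' E R' hy' hl
      have := Ds.sep _ (Or.inl (Or.inl hA)) _ hB
      rw [← e, h1, sub_self, norm_zero] at this
      linarith [Ds.mu0]
    · omega

/-- (N3) the two inner arcs -/
theorem pvtk2_ne_inn (hT : T.IsSph) (E : Pvtk2End T s pos 𝔖 h z τ Bx Mp Mm r0) (E' : Pvtk2End T s pos 𝔖' h' z' τ' Bx' Mp' Mm' r0')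
    (Ds : Pvtk2Des h z τ Bx Mp Mm r r0 h' z' τ' Bx' Mp' Mm' r' r0' Ye Yc μ) {k l : ℕ} (hk : k ≤ 𝔖.inn.n) (hl : l ≤ 𝔖'.inn.n) : 𝔖.inn.v k ≠ 𝔖'.inn.v l := by
  intro e
  have h1 := pvtk2_inn_near (pos := pos) hT E.gate hk
  have h2 := pvtk2_inn_near (pos := pos) hT E'.gate hl
  rw [← e] at h2
  linarith [Ds.disc _ h1]

/-- (N4) the two outer arcs -/
theorem pvtk2_ne_arc (hT : T.IsSph) (hS : T.Simple) (E : Pvtk2End T s pos 𝔖 h z τ Bx Mp Mm r0) (E' : Pvtk2End T s pos 𝔖' h' z' τ' Bx' Mp' Mm' r0')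
    (Ds : Pvtk2Des h z τ Bx Mp Mm r r0 h' z' τ' Bx' Mp' Mm' r' r0' Ye Yc μ) (R : Pvtk2Run T s pos 𝔖 𝔖' Ye n) (hy : PvwLE T (fun i => T.src (pvasIt T s 𝔖.dp i)) n y)
    (R' : Pvtk2Run T s pos 𝔖' 𝔖 Yc n') (hy' : PvwLE T (fun i => T.src (pvasIt T s 𝔖'.dp i)) n' y') {k l : ℕ} (hk : k ≤ y.n) (hl : l ≤ y'.n) : y.v k ≠ y'.v l := by
  intro e
  have := Ds.sep _ (pvtk2_in hT hS E E' R hy hk) _ (pvtk2_in hT hS E' E R' hy' hl)
  rw [e, sub_self, norm_zero] at this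
  linarith [Ds.mu0]

/-! ## 4. mask exactness -/

/-- **THE HYPOTHESES OF MASK EXACTNESS OF 55** (`PvmeEx`, `Tr/MaskE`) from the two ends, the design, the two runs and the MESH of the tags of the four pieces -/
theorem pvtk2_ex (hT : T.IsSph) (hS : T.Simple) (E : Pvtk2End T s pos 𝔖 h z τ Bx Mp Mm r0) (E' : Pvtk2End T s pos 𝔖' h' z' τ' Bx' Mp' Mm' r0')
    (Ds : Pvtk2Des h z τ Bx Mp Mm r r0 h' z' τ' Bx' Mp' Mm' r' r0' Ye Yc μ) (R : Pvtk2Run T s pos 𝔖 𝔖' Ye n) (hy : PvwLE T (fun i => T.src (pvasIt T s 𝔖.dp i)) n y)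
    (R' : Pvtk2Run T s pos 𝔖' 𝔖 Yc n') (hy' : PvwLE T (fun i => T.src (pvasIt T s 𝔖'.dp i)) n' y')
    (mesh_i : ∀ k, k < 𝔖.inn.n → ‖T.bary pos (T.opp (𝔖.inn.e k)) - pos (𝔖.inn.v k)‖ ≤ μ) (mesh_y : ∀ k, k < y.n → ‖T.bary pos (T.opp (y.e k)) - pos (y.v k)‖ ≤ μ)
    (mesh_i' : ∀ k, k < 𝔖'.inn.n → ‖T.bary pos (T.opp (𝔖'.inn.e k)) - pos (𝔖'.inn.v k)‖ ≤ μ) (mesh_y' : ∀ k, k < y'.n → ‖T.bary pos (T.opp (y'.e k)) - pos (y'.v k)‖ ≤ μ) :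
    PvmeEx T pos 𝔖 𝔖' y y' z r z' r' μ (Mp ∪ Ye ∪ Mm') (Mp' ∪ Yc ∪ Mm) where
  mu0 := Ds.mu0
  mesh_i := mesh_i
  mesh_y := mesh_y
  mesh_i' := mesh_i'
  mesh_y' := mesh_y'
  sep := Ds.sep
  inn_p := fun k h1 h2 h3 => Or.inl (Or.inl (E.half_p k h1 h2.le (by linarith [Ds.thr])))
  inn_m := fun k h1 h3 => Or.inr (E.half_m k h1.le (by linarith [Ds.thr]))
  inn_p' := fun k h1 h2 h3 => Or.inl (Or.inl (E'.half_p k h1 h2.le (by linarith [Ds.thr'])))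
  inn_m' := fun k h1 h3 => Or.inr (E'.half_m k h1.le (by linarith [Ds.thr']))
  y_in := fun k hk => pvtk2_in hT hS E E' R hy hk.le
  y_in' := fun k hk => pvtk2_in hT hS E' E R' hy' hk.le
  y_far := fun k hk => ⟨by linarith [(pvtk2_far hT E E' Ds R hy hk.le).1, Ds.cut], by linarith [(pvtk2_far hT E E' Ds R hy hk.le).2, Ds.cut']⟩
  y_far' := fun k hk => by linarith [(pvtk2_far hT E' E Ds.symm R' hy' hk.le).2, Ds.cut]
  i_far := fun k hk => by linarith [Ds.disc _ (pvtk2_inn_near (pos := pos) hT E.gate hk.le), pvtk2_ab E'.gate, Ds.cut']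
  i_far' := fun k hk => by linarith [Ds.symm.disc _ (pvtk2_inn_near (pos := pos) hT E'.gate hk.le), pvtk2_ab E.gate, Ds.cut]

/-! ## 5. the ring -/

/-- the four pieces follow each other and close -/
theorem pvtk2_chain (E : Pvtk2End T s pos 𝔖 h z τ Bx Mp Mm r0) (E' : Pvtk2End T s pos 𝔖' h' z' τ' Bx' Mp' Mm' r0') (R : Pvtk2Run T s pos 𝔖 𝔖' Ye n)
    (hy : PvwLE T (fun i => T.src (pvasIt T s 𝔖.dp i)) n y) (R' : Pvtk2Run T s pos 𝔖' 𝔖 Yc n') (hy' : PvwLE T (fun i => T.src (pvasIt T s 𝔖'.dp i)) n' y') :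
    pvowChain T [𝔖.inn, y, 𝔖'.inn, y'] 𝔖.gm 𝔖.gm := by
  refine ⟨pvtk2_inn_v0 E.gate, ?_, ?_, ?_, ?_⟩
  · rw [pvtk2_y_v0 hy, pvtk2_inn_vn E.gate]
  · rw [pvtk2_inn_v0 E'.gate, pvtk2_y_vn R hy]
  · rw [pvtk2_y_v0 hy', pvtk2_inn_vn E'.gate]
  · exact pvtk2_y_vn R' hy'

/-- the vertices of the four pieces are pairwise distinct -/
theorem pvtk2_nodup (hT : T.IsSph) (hS : T.Simple) (E : Pvtk2End T s pos 𝔖 h z τ Bx Mp Mm r0) (E' : Pvtk2End T s pos 𝔖' h' z' τ' Bx' Mp' Mm' r0')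
    (Ds : Pvtk2Des h z τ Bx Mp Mm r r0 h' z' τ' Bx' Mp' Mm' r' r0' Ye Yc μ) (R : Pvtk2Run T s pos 𝔖 𝔖' Ye n) (hy : PvwLE T (fun i => T.src (pvasIt T s 𝔖.dp i)) n y)
    (R' : Pvtk2Run T s pos 𝔖' 𝔖 Yc n') (hy' : PvwLE T (fun i => T.src (pvasIt T s 𝔖'.dp i)) n' y') :
    ((pvowDarts [𝔖.inn, y, 𝔖'.inn, y']).map T.tgt).Nodup := by
  refine pvow_nodup ?_
  refine List.pairwise_cons.2 ⟨fun q hq => ?_, List.pairwise_cons.2 ⟨fun q hq => ?_, List.pairwise_cons.2 ⟨fun q hq => ?_, List.pairwise_cons.2 ⟨fun q hq => ?_, List.Pairwise.nil⟩⟩⟩⟩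
  · simp only [List.mem_cons, List.not_mem_nil, or_false] at hq
    rcases hq with rfl | rfl | rfl
    · exact fun k l hk hl => pvtk2_ne_out hT E E' Ds R hy hk hl
    · exact fun k l hk hl => pvtk2_ne_inn hT E E' Ds hk hl
    · exact fun k l hk hl => pvtk2_ne_in hT hS E E' Ds R' hy' hk hl
  · simp only [List.mem_cons, List.not_mem_nil, or_false] at hq
    rcases hq with rfl | rfl
    · exact fun k l hk hl => (pvtk2_ne_in hT hS E' E Ds.symm R hy hl hk).symm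
    · exact fun k l hk hl => pvtk2_ne_arc hT hS E E' Ds R hy R' hy' hk hl
  · simp only [List.mem_cons, List.not_mem_nil, or_false] at hq
    rcases hq with rfl
    exact fun k l hk hl => pvtk2_ne_out hT E' E Ds.symm R' hy' hk hl
  · exact absurd hq (List.not_mem_nil)

/-- the four pieces lie on ONE wall -/
theorem pvtk2_onwall (hS : T.Simple) (E : Pvtk2End T s pos 𝔖 h z τ Bx Mp Mm r0) (E' : Pvtk2End T s pos 𝔖' h' z' τ' Bx' Mp' Mm' r0') (R : Pvtk2Run T s pos 𝔖 𝔖' Ye n)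
    (hy : PvwLE T (fun i => T.src (pvasIt T s 𝔖.dp i)) n y) (hy' : PvwLE T (fun i => T.src (pvasIt T s 𝔖'.dp i)) n' y') :
    ∀ p ∈ [𝔖.inn, y, 𝔖'.inn, y'], p.OnWall s 𝔖.dm := by
  obtain ⟨a, ea, -, la⟩ := E.gate.strand
  obtain ⟨a', ea', -, la'⟩ := E'.gate.strand
  have w1 : T.Wall s 𝔖.dm 𝔖.dp := by
    have := pvt_s_it_wall E.gate.bw_m a
    rwa [ea] at this
  have w2 : T.Wall s 𝔖.dp 𝔖'.dm := by
    have := pvt_s_it_wall E.gate.bw_p n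
    rwa [R.2.1] at this
  have w3 : T.Wall s 𝔖'.dm 𝔖'.dp := by
    have := pvt_s_it_wall E'.gate.bw_m a'
    rwa [ea'] at this
  intro p hp
  simp only [List.mem_cons, List.not_mem_nil, or_false] at hp
  rcases hp with rfl | rfl | rfl | rfl
  · exact pvow_le_onwall hS E.gate.bw_m la
  · exact pvow_onwall_trans (pvow_le_onwall hS E.gate.bw_p hy) w1
  · exact pvow_onwall_trans (pvow_le_onwall hS E'.gate.bw_m la') (pl_ra_wall_trans w1 w2)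
  · exact pvow_onwall_trans (pvow_le_onwall hS E'.gate.bw_p hy') (pl_ra_wall_trans w1 (pl_ra_wall_trans w2 w3))

/-- **THE TWO LINKS CLOSE TO ONE RIM**: the right triangle of the first edge of the inner arc of `𝔖` is a tag, its label class is made of the right triangles of the four pieces, its label sum is the sum of the four sums -/
theorem pvtk2_ring (hT : T.IsSph) (hS : T.Simple) (E : Pvtk2End T s pos 𝔖 h z τ Bx Mp Mm r0) (E' : Pvtk2End T s pos 𝔖' h' z' τ' Bx' Mp' Mm' r0')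
    (Ds : Pvtk2Des h z τ Bx Mp Mm r r0 h' z' τ' Bx' Mp' Mm' r' r0' Ye Yc μ) (R : Pvtk2Run T s pos 𝔖 𝔖' Ye n) (hy : PvwLE T (fun i => T.src (pvasIt T s 𝔖.dp i)) n y)
    (R' : Pvtk2Run T s pos 𝔖' 𝔖 Yc n') (hy' : PvwLE T (fun i => T.src (pvasIt T s 𝔖'.dp i)) n' y') :
    T.Tag s (T.opp (𝔖.inn.e 0)) ∧ (∀ d', T.SameLab s (T.opp (𝔖.inn.e 0)) d' ↔ T.opp d' ∈ pvowDarts [𝔖.inn, y, 𝔖'.inn, y']) ∧
      ∀ w : D → ℂ, T.lsum s w (T.opp (𝔖.inn.e 0)) = 𝔖.inn.psum w + y.psum w + 𝔖'.inn.psum w + y'.psum w := by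
  have hg : 𝔖.inn.e 0 ∈ pvowDarts [𝔖.inn, y, 𝔖'.inn, y'] := pvow_mem_darts.2 ⟨𝔖.inn, List.mem_cons_self, 0, pvtk2_inn_pos E.gate, rfl⟩
  obtain ⟨h1, h2, h3⟩ := pvow_ring hT hS (pvtk2_chain E E' R hy R' hy') (pvtk2_nodup hT hS E E' Ds R hy R' hy') (pvtk2_onwall hS E E' R hy hy') hg
  refine ⟨h1, h2, fun w => ?_⟩
  rw [h3 w]
  simp only [List.map_cons, List.map_nil, List.sum_cons, List.sum_nil]
  ring

/-- **(K4), DETERMINISTIC HALF OF `recog`**: on the two runs, the value of the link `𝔖 → 𝔖'` (the four `pvwMass` terms of `PvieLk.val` of 161, of `pvdcVal`, of `PvilLk.val`) is the LABEL SUM OF ONE TAG against the DETERMINISTIC mask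
`pvmeM z r z' r' μ (Mp ∪ Ye ∪ Mm')` of 55 tested at the barycentres -/
theorem pvtk2_main (hT : T.IsSph) (hS : T.Simple) (E : Pvtk2End T s pos 𝔖 h z τ Bx Mp Mm r0) (E' : Pvtk2End T s pos 𝔖' h' z' τ' Bx' Mp' Mm' r0')
    (Ds : Pvtk2Des h z τ Bx Mp Mm r r0 h' z' τ' Bx' Mp' Mm' r' r0' Ye Yc μ) (R : Pvtk2Run T s pos 𝔖 𝔖' Ye n) (hy : PvwLE T (fun i => T.src (pvasIt T s 𝔖.dp i)) n y)
    (R' : Pvtk2Run T s pos 𝔖' 𝔖 Yc n') (hy' : PvwLE T (fun i => T.src (pvasIt T s 𝔖'.dp i)) n' y')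
    (mesh_i : ∀ k, k < 𝔖.inn.n → ‖T.bary pos (T.opp (𝔖.inn.e k)) - pos (𝔖.inn.v k)‖ ≤ μ) (mesh_y : ∀ k, k < y.n → ‖T.bary pos (T.opp (y.e k)) - pos (y.v k)‖ ≤ μ)
    (mesh_i' : ∀ k, k < 𝔖'.inn.n → ‖T.bary pos (T.opp (𝔖'.inn.e k)) - pos (𝔖'.inn.v k)‖ ≤ μ) (mesh_y' : ∀ k, k < y'.n → ‖T.bary pos (T.opp (y'.e k)) - pos (y'.v k)‖ ≤ μ) :
    T.Tag s (T.opp (𝔖.inn.e 0)) ∧ ∀ w : D → ℂ,
      pvwMass T pos w (closedBall z r) 𝔖.inn 0 𝔖.inn.n + pvwMass T pos w (closedBall z r ∪ closedBall z' r')ᶜ 𝔖.inn 𝔖.ip 𝔖.inn.n +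
          pvwMass T pos w (closedBall z r ∪ closedBall z' r')ᶜ y 0 y.n + pvwMass T pos w (closedBall z r ∪ closedBall z' r')ᶜ 𝔖'.inn 0 𝔖'.ip =
        T.lsum s (fun d => (pvmeM z r z' r' μ (Mp ∪ Ye ∪ Mm')).indicator (1 : ℂ → ℂ) (T.bary pos d) * w d) (T.opp (𝔖.inn.e 0)) := by
  obtain ⟨h1, -, h3⟩ := pvtk2_ring hT hS E E' Ds R hy R' hy'
  refine ⟨h1, fun w => ?_⟩
  rw [pvme_exact (pvtk2_ex hT hS E E' Ds R hy R' hy' mesh_i mesh_y mesh_i' mesh_y') E.gate.ip_le E'.gate.ip_le w, h3, pvme_mass_psum, pvme_mass_psum, pvme_mass_psum, pvme_mass_psum]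

end pairs

end Claimed.Agent.R289
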