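-- KEEP
import Claimed.Agent.R289.Tr.ThickC2
import Claimed.Agent.R289.Tr.FitGate
import Claimed.Agent.R289.Tr.PlugLoc

/-!
# Row 289 (S0537, Cardy for Poisson-Voronoi), THE WALL, ROAD E, field `thick`, (K4) `recog`, file Tr/ThickC3 : THE CLOSING WITH ABSTRACT ENDS (DOOR TYPE OR MARKED)      (helper118; RULING 20 (2) of 234; prefix `pvtk3_`, `Pvtk3`)

MODEL FREE, NO POSITIONS: one plane map `T`, one colouring `s`.      After R20 (2) the reference plug `u` of the thick link is a DOOR (`pvkdSt` of 34: no stub, no mark): `Pvtk2End` of `Tr/ThickC2` (two MARKED ends) does not apply to it.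
* sec. 0  `Pvtk3G T s 𝔖` = the gate part of an end, abstract (a gate of `Tr/GateB` with `aIn = dm`, `aOut = dp`, the through strand, `inn` = its erased black bank);   `Pvtk3Lk T s 𝔖 𝔖' n y` = a link, abstract (hit, erased bank, off the two gates)
* sec. 1  producers **`pvtk3_of_gate`** (marked end: `PvwSt.Gate`), **`pvtk3_of_door`** (door end: any record with `S = g.c`, `dp = g.aOut`, `dm = g.aIn`, `inn = pvtArc .. g.aIn N`);   `Pvtk3G.bw_p bw_m ne v0 vn pos black ins bd wall onwall`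
* sec. 2  `pvtk3_exit`;   **`pvtk3_off_out`** (the run which leaves an end does not come back into its gate as soon as its black bank avoids `g⁻`),   **`pvtk3_off_in`** (the run which arrives enters at the last step only as soon as its black bank avoids `g⁺`):
          the fields `off off'` of `Pvtk3Lk` from facts on VERTICES (rooms)
* sec. 3  `pvtk3_ne_out` (N1), `pvtk3_ne_in` (N2), **`pvtk3_ring`** : two abstract ends, two abstract links, inner arcs disjoint (N3), outer arcs disjoint (N4) ⟹ tag, FULL label class, `lsum w = Σ` of the four `psum`, every `w`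
* sec. 4  runs with WEAK stubs (only `ep_it`, `em_it`): `pvtk3_tail`, `pvtk3_kind` (three kinds of TIMES), `pvtk3_arc_verts` (vertices of the arc in `Mp ∪ Yin ∪ Mm'`)
* sec. 5  A DOOR `𝔘` AND A MARKED END `𝔗` (positions through regions): `Pvtk3Dr T s pos 𝔘 KO Km Kp` (**`pvtk3_dr_of`** : from `PvzlGt` of 173 at a record of the shape `pvkdSt` / `pvilStS`; `pvtk3_dr_tube`), `Pvtk3Des` (5 design clauses, regions only),
          **`pvtk3_lk_e`** (`𝔘 → 𝔗`), **`pvtk3_lk_f`** (`𝔗 → 𝔘`) `: Pvtk3Lk`, `pvtk3_in_e`, `pvtk3_in_f`, **`pvtk3_ring_dm`** = the ring of the thick link of InstL v2.1 and of its return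
* sec. 6  `pvtk3M Mk z' r' μ A := (Mk ∩ thickening (2 μ) A) \ closedBall z' r'` (Borel `pvtk3_M_meas`, bounded `pvtk3_M_sub`), `Pvtk3Ex` (SEP in the OR form of 288), **`pvtk3_exact`** (the THREE masses of `PvilLk.val` at `dr = true`, `dr' = false` = the four masses in `M`),
          **`pvtk3_main`** = `PvjkOne` of 132 for the thick link of InstL v2.1:   tag `opp (𝔘.inn.e 0)`, mask `pvtk3M Mk z' r' μ (KT ∪ (Kp ∪ Ye ∪ Mm))`;   **`pvtk3_main_A`** : ANY vertex mask `A ⊇ KT ∪ (Kp ∪ Ye ∪ Mm)`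
-/

set_option autoImplicit false
set_option linter.unusedSectionVars false
set_option linter.unusedVariables false

namespace Claimed.Agent.R289

open Set Metric

variable {V D : Type} {T : PvMap V D} {s : V → Bool}

/-! ## 0. the words -/

/-- **THE GATE PART OF AN END, ABSTRACT**: the record `𝔖` carries a gate in the sense of `Tr/GateB` (two black sites on the circuit), the strand which enters at `dm` stays inside until it leaves at `dp`, `inn` = the erased black bank.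
No position, no radius, no mark, no stub: a MARKED end (`PvwSt.Gate`: `pvtk3_of_gate`) and a DOOR end (`pvkdSt` of 34 at a gate of record: `pvtk3_of_door`) are both of this kind. -/
structure Pvtk3G (T : PvMap V D) (s : V → Bool) (𝔖 : PvwSt T) : Prop where
  gate : ∃ g : T.Gate s, g.c.Left = 𝔖.S.Left ∧ g.aIn = 𝔖.dm ∧ g.aOut = 𝔖.dp
  strand : ∃ a, pvasIt T s 𝔖.dm a = 𝔖.dp ∧ (∀ i, i < a → pvasIt T s 𝔖.dm i ∈ 𝔖.S.Left) ∧ PvwLE T (fun i => T.src (pvasIt T s 𝔖.dm i)) a 𝔖.inn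

/-- **A LINK, ABSTRACT**: the strand from the exit of `𝔖` reaches the entrance of `𝔖'` after `n` steps, off the two gates; `y` = the erased black bank -/
structure Pvtk3Lk (T : PvMap V D) (s : V → Bool) (𝔖 𝔖' : PvwSt T) (n : ℕ) (y : T.Pth) : Prop where
  hit : pvasIt T s 𝔖.dp n = 𝔖'.dm
  le : PvwLE T (fun i => T.src (pvasIt T s 𝔖.dp i)) n y
  off : ∀ i, i ≤ n → pvasIt T s 𝔖.dp i ∉ 𝔖.S.Left
  off' : ∀ i, i < n → pvasIt T s 𝔖.dp i ∉ 𝔖'.S.Left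

/-! ## 1. the gate part -/

section gate

variable {𝔖 : PvwSt T}

theorem pvtk3_of_gate (hT : T.IsSph) {pos : V → ℂ} {h : ℝ} {z : ℂ} {τ : PvwTy} (hG : 𝔖.Gate pos h z τ s) : Pvtk3G T s 𝔖 := by
  obtain ⟨g, h1, -, h2, h3⟩ := pvftg_gate hT hG
  exact ⟨⟨g, h1, h2, h3⟩, hG.strand⟩

/-- a DOOR end: the record of a gate `g` whose through strand has `N` steps -/
theorem pvtk3_of_door [DecidableEq V] (hT : T.IsSph) (hS : T.Simple) (g : T.Gate s) {N : ℕ} (h1 : pvasIt T s g.aIn N = g.aOut) (h2 : ∀ i, i < N → pvasIt T s g.aIn i ≠ g.aOut)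
    (h3 : ∀ i, i < N → pvasIt T s g.aIn i ∈ g.c.Left) (eS : 𝔖.S = g.c) (ep : 𝔖.dp = g.aOut) (em : 𝔖.dm = g.aIn) (ei : 𝔖.inn = pvtArc T s g.aIn N) : Pvtk3G T s 𝔖 := by
  refine ⟨⟨g, by rw [eS], em.symm, ep.symm⟩, N, by rw [em, ep]; exact h1, by rw [em, eS]; exact h3, ?_⟩
  rw [em, ei]
  exact pvt_sd_le hT hS (pvtg_aIn_bw g) (pvjs_inj_of_first (pvtg_aIn_bw g) fun i hi => by rw [h1]; exact h2 i hi)

theorem Pvtk3G.bw_p (G : Pvtk3G T s 𝔖) : pvasBW T s 𝔖.dp := by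
  obtain ⟨g, -, -, h⟩ := G.gate
  rw [← h]; exact pvtg_aOut_bw g

theorem Pvtk3G.bw_m (G : Pvtk3G T s 𝔖) : pvasBW T s 𝔖.dm := by
  obtain ⟨g, -, h, -⟩ := G.gate
  rw [← h]; exact pvtg_aIn_bw g

theorem Pvtk3G.ne (G : Pvtk3G T s 𝔖) : 𝔖.gp ≠ 𝔖.gm := by
  obtain ⟨g, -, h1, h2⟩ := G.gate
  unfold PvwSt.gp PvwSt.gm
  rw [← h1, ← h2, pvtg_aOut_src, pvtg_aIn_src]
  exact (pvtg_ne g).symm

theorem Pvtk3G.v0 (G : Pvtk3G T s 𝔖) : 𝔖.inn.v 0 = 𝔖.gm := by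
  obtain ⟨n, -, -, j, h0, -⟩ := G.strand
  exact h0

theorem Pvtk3G.vn (G : Pvtk3G T s 𝔖) : 𝔖.inn.v 𝔖.inn.n = 𝔖.gp := by
  obtain ⟨n, e, -, j, -, hn, h1, -⟩ := G.strand
  rw [(h1 _ le_rfl).2.1, hn]
  show T.src (pvasIt T s 𝔖.dm n) = _
  rw [e]
  rfl

theorem Pvtk3G.pos (G : Pvtk3G T s 𝔖) : 0 < 𝔖.inn.n := by
  rcases Nat.eq_zero_or_pos 𝔖.inn.n with h0 | h0
  · exfalso
    apply G.ne
    rw [← G.vn, ← G.v0, h0]
  · exact h0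

theorem Pvtk3G.black (G : Pvtk3G T s 𝔖) {k : ℕ} (hk : k ≤ 𝔖.inn.n) : s (𝔖.inn.v k) = true := by
  obtain ⟨n, -, -, j, -, -, h1, -⟩ := G.strand
  rw [(h1 k hk).2.1]
  exact (pvas_it_bw G.bw_m _).1

/-- the inner arc lies in the closed inside of the gate -/
theorem Pvtk3G.ins (hT : T.IsSph) (G : Pvtk3G T s 𝔖) {k : ℕ} (hk : k ≤ 𝔖.inn.n) : 𝔖.inn.v k ∈ T.VOf 𝔖.S.Left := by
  obtain ⟨n, e, hin, j, -, hn, h1, -⟩ := G.strand
  obtain ⟨a1, a2, -⟩ := h1 k hk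
  rcases Nat.lt_or_ge (j k) n with hlt | hge
  · exact ⟨_, hin _ hlt, a2.symm⟩
  · have e1 : j k = n := le_antisymm a1 hge
    obtain ⟨g, g1, -, g3⟩ := G.gate
    rw [a2, e1]
    show T.src (pvasIt T s 𝔖.dm n) ∈ _
    rw [e, ← g1, ← g3, pvtg_aOut_src]
    exact pvtl_verts_VOf hT g.c ⟨g.m, rfl⟩

/-- a vertex of the inner arc with a dart which is not inside the gate is `g⁺` or `g⁻` -/
theorem Pvtk3G.bd (hT : T.IsSph) (G : Pvtk3G T s 𝔖) {k : ℕ} (hk : k ≤ 𝔖.inn.n) {d : D} (hd : d ∉ 𝔖.S.Left) (e : T.src d = 𝔖.inn.v k) : k = 𝔖.inn.n ∨ k = 0 := by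
  have h1 := G.ins hT hk
  obtain ⟨g, g1, g2, g3⟩ := G.gate
  rw [← g1, pl_VOf_left hT] at h1
  rcases h1 with h1 | h1
  · rcases pvtg_black g h1 (G.black hk) with h2 | h2
    · right
      refine 𝔖.inn.inj _ _ hk (Nat.zero_le _) ?_
      rw [h2, G.v0]
      unfold PvwSt.gm
      rw [← g2]; rfl
    · left
      refine 𝔖.inn.inj _ _ hk le_rfl ?_
      rw [h2, G.vn]
      unfold PvwSt.gp
      rw [← g3, pvtg_aOut_src]
  · exact absurd (g1 ▸ h1 d e) hd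

theorem Pvtk3G.wall (G : Pvtk3G T s 𝔖) : T.Wall s 𝔖.dm 𝔖.dp := by
  obtain ⟨a, ea, -, -⟩ := G.strand
  have := pvt_s_it_wall G.bw_m a
  rwa [ea] at this

theorem Pvtk3G.onwall (hS : T.Simple) (G : Pvtk3G T s 𝔖) : 𝔖.inn.OnWall s 𝔖.dm := by
  obtain ⟨a, -, -, la⟩ := G.strand
  exact pvow_le_onwall hS G.bw_m la

end gate

/-! ## 2. a run does not come back into a gate -/

/-- between a time in the face set `A` and a later time off `A` there is an exit -/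
theorem pvtk3_exit {A : Set D} (hA : T.FaceSet A) {a : D} (ha : pvasBW T s a) {u t : ℕ} (hut : u ≤ t) (hu : pvasIt T s a u ∈ A) (ht : pvasIt T s a t ∉ A) :
    ∃ e, u < e ∧ e ≤ t ∧ pvasOut T A s (pvasIt T s a e) := by
  induction t with
  | zero =>
    rw [Nat.le_zero.1 hut] at hu
    exact absurd hu ht
  | succ t ih =>
    rcases Nat.lt_or_ge t u with h | h
    · have : u = t + 1 := by omega
      rw [this] at hu
      exact absurd hu ht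
    · by_cases hmem : pvasIt T s a t ∈ A
      · refine ⟨t + 1, by omega, le_rfl, ht, ?_, pvas_it_bw ha _⟩
        rw [pvas_it_succ, pvas_step_opp_mem hA]
        exact hmem
      · obtain ⟨e, h1, h2, h3⟩ := ih h hmem
        exact ⟨e, h1, by omega, h3⟩

section off

variable {𝔖 : PvwSt T}

/-- **the run which LEAVES an end does not come back into its gate**, as soon as its black bank avoids `g⁻` and its target is off the gate -/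
theorem pvtk3_off_out (hT : T.IsSph) (G : Pvtk3G T s 𝔖) {n : ℕ} {e : D} (hn : pvasIt T s 𝔖.dp n = e) (hf : ∀ i, i < n → pvasIt T s 𝔖.dp i ≠ e) (he : e ∉ 𝔖.S.Left)
    (hgm : ∀ i, i ≤ n → T.src (pvasIt T s 𝔖.dp i) ≠ 𝔖.gm) : ∀ i, i ≤ n → pvasIt T s 𝔖.dp i ∉ 𝔖.S.Left := by
  intro t ht hmem
  obtain ⟨x, x1, x2, x3⟩ := pvtk3_exit (pl_left_face 𝔖.S) G.bw_p ht hmem (by rw [hn]; exact he)
  obtain ⟨g, g1, g2, g3⟩ := G.gate
  rw [← g1] at x3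
  rcases (pvtg_out_iff hT g _).1 x3 with h1 | h1
  · rw [g3] at h1
    rcases Nat.lt_or_ge x n with h2 | h2
    · have := pvjs_inj_of_first G.bw_p (fun i hi => by rw [hn]; exact hf i hi) x 0 h2 (by omega) (by rw [h1, pvas_it_zero])
      omega
    · have e1 : x = n := le_antisymm x2 h2
      rw [e1, hn] at h1
      exact hf 0 (by omega) (by rw [pvas_it_zero, h1])
  · apply hgm x x2
    rw [h1, pvtg_bOut_src]
    unfold PvwSt.gm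
    rw [← g2]; rfl

/-- **the run which ARRIVES at an end enters its gate at the last step only**, as soon as its black bank avoids `g⁺` and it starts off the gate -/
theorem pvtk3_off_in (hT : T.IsSph) (G : Pvtk3G T s 𝔖) {a : D} (ha : pvasBW T s a) {n : ℕ} (hf : ∀ i, i < n → pvasIt T s a i ≠ 𝔖.dm) (h0 : a ∉ 𝔖.S.Left)
    (hgp : ∀ i, i < n → T.src (pvasIt T s a i) ≠ 𝔖.gp) : ∀ i, i < n → pvasIt T s a i ∉ 𝔖.S.Left := by
  intro t ht hmem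
  obtain ⟨x, x1, x2, x3⟩ := pvftg_entrance (pl_left_face 𝔖.S) ha (Nat.zero_le t) (by rw [pvas_it_zero]; exact h0) hmem
  obtain ⟨g, g1, g2, g3⟩ := G.gate
  rw [← g1] at x3
  rcases (pvtg_in_iff hT g _).1 x3 with h1 | h1
  · exact hf x (by omega) (by rw [h1, g2])
  · apply hgp x (by omega)
    rw [h1, pvtg_bIn_src]
    unfold PvwSt.gp
    rw [← g3, pvtg_aOut_src]

end off

/-! ## 3. the ring -/

section ring

variable {𝔖 𝔖' : PvwSt T} {n n' : ℕ} {y y' : T.Pth}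

theorem Pvtk3Lk.v0 (L : Pvtk3Lk T s 𝔖 𝔖' n y) : y.v 0 = 𝔖.gp := pvtk2_y_v0 L.le

theorem Pvtk3Lk.vn (L : Pvtk3Lk T s 𝔖 𝔖' n y) : y.v y.n = 𝔖'.gm := by
  obtain ⟨j, -, hn, h1, -⟩ := L.le
  rw [(h1 _ le_rfl).2.1, hn]
  show T.src (pvasIt T s 𝔖.dp n) = _
  rw [L.hit]
  rfl

/-- (N1) the inner arc against the arc which LEAVES the end -/
theorem pvtk3_ne_out (hT : T.IsSph) (G : Pvtk3G T s 𝔖) (L : Pvtk3Lk T s 𝔖 𝔖' n y) {k l : ℕ} (hk : k < 𝔖.inn.n) (hl : l < y.n) : 𝔖.inn.v (k + 1) ≠ y.v (l + 1) := by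
  intro e
  obtain ⟨t, ht, e'⟩ := pvtk2_time L.le (k := l + 1) hl
  rcases G.bd hT (k := k + 1) hk (L.off t ht) (by rw [← e', e]) with h1 | h1
  · have h2 : y.v (l + 1) = y.v 0 := by rw [← e, h1, G.vn, L.v0]
    have := y.inj _ _ hl (Nat.zero_le _) h2
    omega
  · omega

/-- (N2) the inner arc against the arc which ARRIVES at the end -/
theorem pvtk3_ne_in (hT : T.IsSph) (G : Pvtk3G T s 𝔖) (L' : Pvtk3Lk T s 𝔖' 𝔖 n' y') (hgp : ∀ l, l ≤ y'.n → y'.v l ≠ 𝔖.gp) {k l : ℕ} (hk : k < 𝔖.inn.n) (hl : l < y'.n) :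
    𝔖.inn.v (k + 1) ≠ y'.v (l + 1) := by
  intro e
  obtain ⟨t, ht, e'⟩ := pvtk2_time L'.le (k := l + 1) hl
  rcases Nat.lt_or_ge t n' with h2 | h2
  · rcases G.bd hT (k := k + 1) hk (L'.off' t h2) (by rw [← e', e]) with h1 | h1
    · exact hgp (l + 1) hl (by rw [← e, h1, G.vn])
    · omega
  · have e1 : t = n' := le_antisymm ht h2
    rw [e1, L'.hit] at e'
    have h3 : 𝔖.inn.v (k + 1) = 𝔖.inn.v 0 := by rw [e, e', G.v0]; rfl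
    have := 𝔖.inn.inj _ _ hk (Nat.zero_le _) h3
    omega

/-- **THE TWO LINKS CLOSE TO ONE RIM, ABSTRACT ENDS** -/
theorem pvtk3_ring (hT : T.IsSph) (hS : T.Simple) (G : Pvtk3G T s 𝔖) (G' : Pvtk3G T s 𝔖') (L : Pvtk3Lk T s 𝔖 𝔖' n y) (L' : Pvtk3Lk T s 𝔖' 𝔖 n' y')
    (n3 : ∀ k l, k ≤ 𝔖.inn.n → l ≤ 𝔖'.inn.n → 𝔖.inn.v k ≠ 𝔖'.inn.v l) (n4 : ∀ k l, k ≤ y.n → l ≤ y'.n → y.v k ≠ y'.v l) :
    T.Tag s (T.opp (𝔖.inn.e 0)) ∧ (∀ d', T.SameLab s (T.opp (𝔖.inn.e 0)) d' ↔ T.opp d' ∈ pvowDarts [𝔖.inn, y, 𝔖'.inn, y']) ∧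
      ∀ w : D → ℂ, T.lsum s w (T.opp (𝔖.inn.e 0)) = 𝔖.inn.psum w + y.psum w + 𝔖'.inn.psum w + y'.psum w := by
  have hc : pvowChain T [𝔖.inn, y, 𝔖'.inn, y'] 𝔖.gm 𝔖.gm := by
    refine ⟨G.v0, ?_, ?_, ?_, ?_⟩
    · rw [L.v0, G.vn]
    · rw [G'.v0, L.vn]
    · rw [L'.v0, G'.vn]
    · exact L'.vn
  have hn : ((pvowDarts [𝔖.inn, y, 𝔖'.inn, y']).map T.tgt).Nodup := by
    refine pvow_nodup ?_
    refine List.pairwise_cons.2 ⟨fun q hq => ?_, List.pairwise_cons.2 ⟨fun q hq => ?_, List.pairwise_cons.2 ⟨fun q hq => ?_, List.pairwise_cons.2 ⟨fun q hq => ?_, List.Pairwise.nil⟩⟩⟩⟩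
    · simp only [List.mem_cons, List.not_mem_nil, or_false] at hq
      rcases hq with rfl | rfl | rfl
      · exact fun k l hk hl => pvtk3_ne_out hT G L hk hl
      · exact fun k l hk hl => n3 _ _ hk hl
      · exact fun k l hk hl => pvtk3_ne_in hT G L' (fun l hl e => n4 0 l (Nat.zero_le _) hl (by rw [L.v0, e])) hk hl
    · simp only [List.mem_cons, List.not_mem_nil, or_false] at hq
      rcases hq with rfl | rfl
      · exact fun k l hk hl => (pvtk3_ne_in hT G' L (fun l hl e => n4 l 0 hl (Nat.zero_le _) (by rw [L'.v0, e])) hl hk).symm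
      · exact fun k l hk hl => n4 _ _ hk hl
    · simp only [List.mem_cons, List.not_mem_nil, or_false] at hq
      rcases hq with rfl
      exact fun k l hk hl => pvtk3_ne_out hT G' L' hk hl
    · exact absurd hq (List.not_mem_nil)
  have w2 : T.Wall s 𝔖.dp 𝔖'.dm := by
    have := pvt_s_it_wall G.bw_p n
    rwa [L.hit] at this
  have hw : ∀ p ∈ [𝔖.inn, y, 𝔖'.inn, y'], p.OnWall s 𝔖.dm := by
    intro p hp
    simp only [List.mem_cons, List.not_mem_nil, or_false] at hp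
    rcases hp with rfl | rfl | rfl | rfl
    · exact G.onwall hS
    · exact pvow_onwall_trans (pvow_le_onwall hS G.bw_p L.le) G.wall
    · exact pvow_onwall_trans (G'.onwall hS) (pl_ra_wall_trans G.wall w2)
    · exact pvow_onwall_trans (pvow_le_onwall hS G'.bw_p L'.le) (pl_ra_wall_trans G.wall (pl_ra_wall_trans w2 G'.wall))
  have hg : 𝔖.inn.e 0 ∈ pvowDarts [𝔖.inn, y, 𝔖'.inn, y'] := pvow_mem_darts.2 ⟨𝔖.inn, List.mem_cons_self, 0, G.pos, rfl⟩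
  obtain ⟨h1, h2, h3⟩ := pvow_ring hT hS hc hn hw hg
  refine ⟨h1, h2, fun w => ?_⟩
  rw [h3 w]
  simp only [List.map_cons, List.map_nil, List.sum_cons, List.sum_nil]
  ring

end ring

/-! ## 4. runs with WEAK stubs (only `ep_it`, `em_it`: a door has empty stubs) -/

section weak

variable {pos : V → ℂ} {𝔖 𝔖' : PvwSt T} {Yin : Set ℂ} {n : ℕ} {y : T.Pth}

/-- the last positions of the run are the entrance stub of `𝔖'` -/
theorem pvtk3_tail (hbw : pvasBW T s 𝔖.dp) (R : Pvtk2Run T s pos 𝔖 𝔖' Yin n) (em_it : ∀ i, i ≤ 𝔖'.nm → 𝔖'.em i = (pvasBack T s)^[i] 𝔖'.dm) {i : ℕ} (hi : i ≤ 𝔖'.nm) :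
    pvasIt T s 𝔖.dp (n - i) = 𝔖'.em i := by
  rw [pvjs_tail hbw R.2.1 i (by have := R.1; omega), em_it i hi]

/-- **the three kinds of TIMES of a run**: on the exit stub of `𝔖`, new, on the entrance stub of `𝔖'` -/
theorem pvtk3_kind (hbw : pvasBW T s 𝔖.dp) (R : Pvtk2Run T s pos 𝔖 𝔖' Yin n) (ep_it : ∀ i, i ≤ 𝔖.np → 𝔖.ep i = pvasIt T s 𝔖.dp i)
    (em_it : ∀ i, i ≤ 𝔖'.nm → 𝔖'.em i = (pvasBack T s)^[i] 𝔖'.dm) {t : ℕ} (ht : t ≤ n) :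
    (t ≤ 𝔖.np ∧ pvasIt T s 𝔖.dp t = 𝔖.ep t) ∨ (pos (T.src (pvasIt T s 𝔖.dp t)) ∈ Yin ∧ pos (T.tgt (pvasIt T s 𝔖.dp t)) ∈ Yin) ∨
      ∃ i, i ≤ 𝔖'.nm ∧ i + t = n ∧ pvasIt T s 𝔖.dp t = 𝔖'.em i := by
  by_cases h1 : t ≤ 𝔖.np
  · exact Or.inl ⟨h1, (ep_it t h1).symm⟩
  · by_cases h2 : t + 𝔖'.nm < n
    · exact Or.inr (Or.inl (R.2.2.2 t (by omega) h2))
    · refine Or.inr (Or.inr ⟨n - t, by omega, by omega, ?_⟩)
      rw [← pvtk3_tail hbw R em_it (by omega)]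
      congr 1
      omega

/-- **THE VERTICES OF THE ARC OF A LINK LIE IN THE VERTEX MASK** `Mp(𝔖) ∪ Yin ∪ Mm(𝔖')`      (`pvtk2_arc_verts` with weak stubs) -/
theorem pvtk3_arc_verts (hT : T.IsSph) (hS : T.Simple) {Mp Mm' : Set ℂ} (hbw : pvasBW T s 𝔖.dp) (R : Pvtk2Run T s pos 𝔖 𝔖' Yin n)
    (ep_it : ∀ i, i ≤ 𝔖.np → 𝔖.ep i = pvasIt T s 𝔖.dp i) (em_it : ∀ i, i ≤ 𝔖'.nm → 𝔖'.em i = (pvasBack T s)^[i] 𝔖'.dm) (hy : PvwLE T (fun i => T.src (pvasIt T s 𝔖.dp i)) n y)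
    (mp : ∀ x : T.Pth, PvwLE T (fun i => T.src (𝔖.ep i)) 𝔖.np x → ∀ v ∈ x.verts, pos v ∈ Mp)
    (mm : ∀ x : T.Pth, PvwLE T (fun i => T.src (𝔖'.em i)) 𝔖'.nm x → ∀ v ∈ x.verts, pos v ∈ Mm') {k : ℕ} (hk : k ≤ y.n) :
    pos (y.v k) ∈ Mp ∪ Yin ∪ Mm' := by
  classical
  have hle := R.1
  have hinj := pvtk2_inj hbw R
  have hp' : PvwLE T (fun i => T.src (pvasIt T s 𝔖.dp i)) 𝔖.np (pvtArc T s 𝔖.dp 𝔖.np) :=
    pvt_sd_le hT hS hbw fun i j hi hj => hinj i j (by omega) (by omega)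
  have hp : PvwLE T (fun i => T.src (𝔖.ep i)) 𝔖.np (pvtArc T s 𝔖.dp 𝔖.np) := pvjs_le_walk_congr (fun i hi => by rw [ep_it i hi]) hp'
  set a2 := pvasIt T s 𝔖.dp (n - 𝔖'.nm) with ha2
  have hbw2 : pvasBW T s a2 := pvas_it_bw hbw _
  have hinj2 : ∀ i j, i < 𝔖'.nm → j < 𝔖'.nm → pvasIt T s a2 i = pvasIt T s a2 j → i = j := by
    intro i j hi hj e
    rw [ha2, ← pvas_it_add, ← pvas_it_add] at e
    have := hinj _ _ (by omega) (by omega) e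
    omega
  have hz : PvwLE T (fun i => T.src (pvasIt T s a2 i)) 𝔖'.nm (pvtArc T s a2 𝔖'.nm) := pvt_sd_le hT hS hbw2 hinj2
  have hzr : PvwLE T (fun i => T.src (pvasIt T s a2 (𝔖'.nm - i))) 𝔖'.nm (pvtArc T s a2 𝔖'.nm).rev := by
    rw [pvjs_le_rev hT hS hbw2 hinj2]
    refine pvjs_le_pth_congr (y := pvtArc T s a2 𝔖'.nm) rfl (fun k hk => ?_) hz
    show _ = (pvtArc T s a2 𝔖'.nm).v ((pvtArc T s a2 𝔖'.nm).n - ((pvtArc T s a2 𝔖'.nm).n - k))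
    congr 1
    omega
  have e0 : n - (n - 𝔖'.nm) = 𝔖'.nm := by omega
  have hm' : PvwLE T (fun i => T.src (pvasIt T s 𝔖.dp (n - i))) (n - (n - 𝔖'.nm)) (pvtArc T s a2 𝔖'.nm).rev := by
    rw [e0]
    refine pvjs_le_walk_congr (fun i hi => ?_) hzr
    show T.src (pvasIt T s a2 (𝔖'.nm - i)) = T.src (pvasIt T s 𝔖.dp (n - i))
    rw [ha2, ← pvas_it_add]
    congr 2
    omega
  have hm : PvwLE T (fun i => T.src (𝔖'.em i)) 𝔖'.nm (pvtArc T s a2 𝔖'.nm).rev := by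
    rw [e0] at hm'
    exact pvjs_le_walk_congr (fun i hi => by show T.src (pvasIt T s 𝔖.dp (n - i)) = _; rw [pvtk3_tail hbw R em_it hi]) hm'
  obtain ⟨K, L, c1, c2, c3, c4, -, c6, -, -, c9⟩ := pvjs_sandwich hT hS hbw (m₁ := 𝔖.np) (m₂ := n - 𝔖'.nm) (by omega) (Nat.sub_le _ _) hinj hy hp' hm'
  by_cases k1 : k ≤ K
  · left; left
    rw [c4 k k1]
    exact mp _ hp _ ⟨k, by omega, rfl⟩
  · by_cases k2 : k + L < y.n
    · obtain ⟨t, t1, t2, t3⟩ := c9 k (by omega) k2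
      left; right
      rw [t3]
      exact (R.2.2.2 t t1 (by omega)).1
    · right
      have e : y.v k = (pvtArc T s a2 𝔖'.nm).rev.v (y.n - k) := by
        rw [← c6 (y.n - k) (by omega)]
        congr 1
        omega
      rw [e]
      exact mm _ hm _ ⟨y.n - k, by omega, rfl⟩

end weak

/-! ## 5. a DOOR `𝔘` and a MARKED end `𝔗`: the link `𝔘 → 𝔗`, the return `𝔗 → 𝔘`, the ring -/

/-- **A DOOR END**, positions read through regions only: `KO` ⊇ the closed inside of the gate, `Km` / `Kp` = the rooms of `g⁻` / `g⁺`      (`PvzlGt` of 173 at the state `pvkdSt` / `pvilStS`: `pvtk3_dr_of`) -/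
structure Pvtk3Dr (T : PvMap V D) (s : V → Bool) (pos : V → ℂ) (𝔘 : PvwSt T) (KO Km Kp : Set ℂ) : Prop where
  g : Pvtk3G T s 𝔘
  np : 𝔘.np = 0
  nm : 𝔘.nm = 0
  ep0 : 𝔘.ep 0 = 𝔘.dp
  em0 : 𝔘.em 0 = 𝔘.dm
  ins : ∀ v ∈ T.VOf 𝔘.S.Left, pos v ∈ KO
  gm : pos 𝔘.gm ∈ Km
  gp : pos 𝔘.gp ∈ Kp

/-- **THE DESIGN CLAUSES OF THE RING** (regions only): `(h, z, τ, Bx, Mp, Mm)` = scale, centre, type, box, vertex masks of the marked end; `Ye` / `Yc` = the rooms of the link / of the return -/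
structure Pvtk3Des (KO Km Kp : Set ℂ) (h : ℝ) (z : ℂ) (τ : PvwTy) (Bx Mp Mm Ye Yc : Set ℂ) : Prop where
  /-- the gate region of the door and the two rooms miss the open core disc of the marked end -/
  ko : ∀ p ∈ KO, τ.b * h ≤ ‖p - z‖
  ye : ∀ p ∈ Ye, τ.b * h ≤ ‖p - z‖
  yc : ∀ p ∈ Yc, τ.b * h ≤ ‖p - z‖
  /-- the box of the marked end misses the gate region of the door -/
  bx : ∀ p ∈ Bx, p ∉ KO
  /-- SEP (here: disjoint) -/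
  sep : ∀ a ∈ Kp ∪ Ye ∪ Mm, ∀ b ∈ Mp ∪ Yc ∪ Km, a ≠ b

section door

variable {pos : V → ℂ} {𝔘 𝔗 : PvwSt T} {KO Km Kp : Set ℂ} {h : ℝ} {z : ℂ} {τ : PvwTy} {Bx Mp Mm Ye Yc : Set ℂ} {r0 : ℝ} {n n' : ℕ} {y y' : T.Pth}

theorem Pvtk3Dr.ep_it (U : Pvtk3Dr T s pos 𝔘 KO Km Kp) : ∀ i, i ≤ 𝔘.np → 𝔘.ep i = pvasIt T s 𝔘.dp i := by
  intro i hi
  rw [U.np] at hi
  rw [Nat.le_zero.1 hi, U.ep0, pvas_it_zero]

theorem Pvtk3Dr.em_it (U : Pvtk3Dr T s pos 𝔘 KO Km Kp) : ∀ i, i ≤ 𝔘.nm → 𝔘.em i = (pvasBack T s)^[i] 𝔘.dm := by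
  intro i hi
  rw [U.nm] at hi
  rw [Nat.le_zero.1 hi, U.em0]
  rfl

theorem Pvtk3Dr.mask_p (U : Pvtk3Dr T s pos 𝔘 KO Km Kp) : ∀ x : T.Pth, PvwLE T (fun i => T.src (𝔘.ep i)) 𝔘.np x → ∀ v ∈ x.verts, pos v ∈ Kp := by
  rintro x ⟨j, -, -, h1, -⟩ v ⟨k, hk, rfl⟩
  obtain ⟨a1, a2, -⟩ := h1 k hk
  rw [U.np] at a1
  rw [a2, Nat.le_zero.1 a1]
  show pos (T.src (𝔘.ep 0)) ∈ Kp
  rw [U.ep0]
  exact U.gp

theorem Pvtk3Dr.mask_m (U : Pvtk3Dr T s pos 𝔘 KO Km Kp) : ∀ x : T.Pth, PvwLE T (fun i => T.src (𝔘.em i)) 𝔘.nm x → ∀ v ∈ x.verts, pos v ∈ Km := by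
  rintro x ⟨j, -, -, h1, -⟩ v ⟨k, hk, rfl⟩
  obtain ⟨a1, a2, -⟩ := h1 k hk
  rw [U.nm] at a1
  rw [a2, Nat.le_zero.1 a1]
  show pos (T.src (𝔘.em 0)) ∈ Km
  rw [U.em0]
  exact U.gm

theorem Pvtk3Dr.gm_ko (hT : T.IsSph) (U : Pvtk3Dr T s pos 𝔘 KO Km Kp) : pos 𝔘.gm ∈ KO := by
  rw [← U.g.v0]
  exact U.ins _ (U.g.ins hT (Nat.zero_le _))

theorem Pvtk3Dr.gp_ko (hT : T.IsSph) (U : Pvtk3Dr T s pos 𝔘 KO Km Kp) : pos 𝔘.gp ∈ KO := by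
  rw [← U.g.vn]
  exact U.ins _ (U.g.ins hT le_rfl)

/-- **a gate of record of 173 (`PvzlGt`, marks = positions) with the record of 34 / 163 (`pvkdSt`, `pvilStS`) is a door end** -/
theorem pvtk3_dr_of [DecidableEq V] (hT : T.IsSph) (hS : T.Simple) {p : PvzlPg ℂ} {g : T.Gate s} (hg : PvzlGt T pos s p g) (eS : 𝔘.S = g.c) (ep : 𝔘.dp = g.aOut) (em : 𝔘.dm = g.aIn)
    (ei : 𝔘.inn = pvtArc T s g.aIn g.len) (np : 𝔘.np = 0) (nm : 𝔘.nm = 0) (ep0 : 𝔘.ep 0 = g.aOut) (em0 : 𝔘.em 0 = g.aIn) : Pvtk3Dr T s pos 𝔘 p.KO p.Km p.Kp := by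
  obtain ⟨N, hN⟩ := hg.thru
  refine ⟨pvtk3_of_door hT hS g hN.2.1 hN.2.2.1 hN.2.2.2.1 eS ep em (by rw [ei, (hN.len hT).1]), np, nm, by rw [ep0, ep], by rw [em0, em], ?_, ?_, ?_⟩
  · rintro v ⟨d, hd, rfl⟩
    exact hg.least.reg.outer d (eS ▸ hd)
  · unfold PvwSt.gm
    rw [em]
    exact hg.vm
  · unfold PvwSt.gp
    rw [ep, pvtg_aOut_src]
    exact hg.vp

/-- the inner arc of a door lies in the tube -/
theorem pvtk3_dr_tube [DecidableEq V] (hT : T.IsSph) (hS : T.Simple) {p : PvzlPg ℂ} {g : T.Gate s} (hg : PvzlGt T pos s p g) (ei : 𝔘.inn = pvtArc T s g.aIn g.len) {k : ℕ} (hk : k ≤ 𝔘.inn.n) :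
    pos (𝔘.inn.v k) ∈ p.KT := by
  obtain ⟨N, hN⟩ := hg.thru
  have hle : PvwLE T (fun i => T.src (pvasIt T s g.aIn i)) N 𝔘.inn := by
    rw [ei, (hN.len hT).1]
    exact pvt_sd_le hT hS (pvtg_aIn_bw g) (pvjs_inj_of_first (pvtg_aIn_bw g) fun i hi => by rw [hN.2.1]; exact hN.2.2.1 i hi)
  obtain ⟨j, -, -, h1, -⟩ := hle
  obtain ⟨a1, a2, -⟩ := h1 k hk
  have h2 := hN.2.2.2.2
  rw [pvas_fc_verts s g.aIn hN.1] at h2
  rw [a2]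
  exact h2 (Or.inl ⟨j k, a1, rfl⟩)

/-- **THE LINK `door → marked end`** -/
theorem pvtk3_lk_e (hT : T.IsSph) (U : Pvtk3Dr T s pos 𝔘 KO Km Kp) (E : Pvtk2End T s pos 𝔗 h z τ Bx Mp Mm r0) (Ds : Pvtk3Des KO Km Kp h z τ Bx Mp Mm Ye Yc)
    (R : Pvtk2Run T s pos 𝔘 𝔗 Ye n) (hy : PvwLE T (fun i => T.src (pvasIt T s 𝔘.dp i)) n y) : Pvtk3Lk T s 𝔘 𝔗 n y := by
  have kind := fun {t : ℕ} (ht : t ≤ n) => pvtk3_kind U.g.bw_p R U.ep_it E.stm.em_it ht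
  refine ⟨R.2.1, hy, pvtk3_off_out hT U.g R.2.1 R.2.2.1 (fun hmem => ?_) fun t ht e => ?_, fun t ht hmem => ?_⟩
  · have h1 := Ds.ko _ (U.ins _ ⟨_, hmem, rfl⟩)
    have h2 := (E.gate.ann _ (pvtk2_gm_mem E.gate)).2
    exact absurd h2 (not_lt.2 h1)
  · rcases kind ht with ⟨h1, -⟩ | ⟨h1, -⟩ | ⟨i, hi, -, h1⟩
    · rw [U.np] at h1
      rw [Nat.le_zero.1 h1, pvas_it_zero] at e
      exact U.g.ne e
    · rw [e] at h1
      exact Ds.sep _ (Or.inl (Or.inr h1)) _ (Or.inr U.gm) rfl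
    · rw [h1] at e
      have h2 := (E.stm.em_in i hi).1
      rw [e] at h2
      exact Ds.bx _ h2 (U.gm_ko hT)
  · rcases kind ht.le with ⟨h1, -⟩ | ⟨h1, -⟩ | ⟨i, hi, hit, h1⟩
    · rw [U.np] at h1
      rw [Nat.le_zero.1 h1, pvas_it_zero] at hmem
      exact pvftg_out E.gate (Ds.ko _ (U.gp_ko hT)) hmem
    · exact pvftg_out E.gate (Ds.ye _ h1) hmem
    · have h2 : T.opp (pvasIt T s 𝔘.dp (t + 1)) ∈ 𝔗.S.Left := by
        rw [pvas_it_succ, pvas_step_opp_mem (pl_left_face _)]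
        exact hmem
      have h3 : pvasIt T s 𝔘.dp (t + 1) = 𝔗.em (i - 1) := by
        rw [← pvtk3_tail U.g.bw_p R E.stm.em_it (i := i - 1) (by omega)]
        congr 1
        omega
      rw [h3] at h2
      exact E.off_m (i - 1) (by omega) h2

/-- **THE RETURN `marked end → door`** -/
theorem pvtk3_lk_f (hT : T.IsSph) (U : Pvtk3Dr T s pos 𝔘 KO Km Kp) (E : Pvtk2End T s pos 𝔗 h z τ Bx Mp Mm r0) (Ds : Pvtk3Des KO Km Kp h z τ Bx Mp Mm Ye Yc)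
    (R' : Pvtk2Run T s pos 𝔗 𝔘 Yc n') (hy' : PvwLE T (fun i => T.src (pvasIt T s 𝔗.dp i)) n' y') : Pvtk3Lk T s 𝔗 𝔘 n' y' := by
  have kind := fun {t : ℕ} (ht : t ≤ n') => pvtk3_kind E.gate.bw_p R' E.stp.ep_it U.em_it ht
  refine ⟨R'.2.1, hy', fun t ht hmem => ?_, pvtk3_off_in hT U.g E.gate.bw_p R'.2.2.1 (fun hmem => ?_) fun t ht e => ?_⟩
  · rcases kind ht with ⟨h1, h2⟩ | ⟨h1, -⟩ | ⟨i, hi, -, h1⟩
    · rw [h2] at hmem
      exact E.off_p t h1 hmem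
    · exact pvftg_out E.gate (Ds.yc _ h1) hmem
    · rw [U.nm] at hi
      rw [h1, Nat.le_zero.1 hi, U.em0] at hmem
      exact pvftg_out E.gate (Ds.ko _ (U.gm_ko hT)) hmem
  · have h1 := Ds.ko _ (U.ins _ ⟨_, hmem, rfl⟩)
    have h2 := (E.gate.ann _ (pvtk2_gp_mem E.gate)).2
    exact absurd h2 (not_lt.2 h1)
  · rcases kind ht.le with ⟨h1, h2⟩ | ⟨h1, -⟩ | ⟨i, hi, hit, -⟩
    · rw [h2] at e
      have h3 := (E.stp.ep_in t h1).1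
      rw [e] at h3
      exact Ds.bx _ h3 (U.gp_ko hT)
    · rw [e] at h1
      exact Ds.sep _ (Or.inl (Or.inl U.gp)) _ (Or.inl (Or.inr h1)) rfl
    · rw [U.nm] at hi
      omega

/-- the arc of the link lies in its vertex mask -/
theorem pvtk3_in_e (hT : T.IsSph) (hS : T.Simple) (U : Pvtk3Dr T s pos 𝔘 KO Km Kp) (E : Pvtk2End T s pos 𝔗 h z τ Bx Mp Mm r0) (R : Pvtk2Run T s pos 𝔘 𝔗 Ye n)
    (hy : PvwLE T (fun i => T.src (pvasIt T s 𝔘.dp i)) n y) {k : ℕ} (hk : k ≤ y.n) : pos (y.v k) ∈ Kp ∪ Ye ∪ Mm :=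
  pvtk3_arc_verts hT hS U.g.bw_p R U.ep_it E.stm.em_it hy U.mask_p E.mask_m hk

/-- the arc of the return lies in its vertex mask -/
theorem pvtk3_in_f (hT : T.IsSph) (hS : T.Simple) (U : Pvtk3Dr T s pos 𝔘 KO Km Kp) (E : Pvtk2End T s pos 𝔗 h z τ Bx Mp Mm r0) (R' : Pvtk2Run T s pos 𝔗 𝔘 Yc n')
    (hy' : PvwLE T (fun i => T.src (pvasIt T s 𝔗.dp i)) n' y') {k : ℕ} (hk : k ≤ y'.n) : pos (y'.v k) ∈ Mp ∪ Yc ∪ Km :=
  pvtk3_arc_verts hT hS E.gate.bw_p R' E.stp.ep_it U.em_it hy' E.mask_p U.mask_m hk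

/-- **THE THICK LINK FROM A DOOR AND ITS RETURN CLOSE TO ONE RIM** -/
theorem pvtk3_ring_dm (hT : T.IsSph) (hS : T.Simple) (U : Pvtk3Dr T s pos 𝔘 KO Km Kp) (E : Pvtk2End T s pos 𝔗 h z τ Bx Mp Mm r0) (Ds : Pvtk3Des KO Km Kp h z τ Bx Mp Mm Ye Yc)
    (R : Pvtk2Run T s pos 𝔘 𝔗 Ye n) (hy : PvwLE T (fun i => T.src (pvasIt T s 𝔘.dp i)) n y) (R' : Pvtk2Run T s pos 𝔗 𝔘 Yc n') (hy' : PvwLE T (fun i => T.src (pvasIt T s 𝔗.dp i)) n' y') :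
    T.Tag s (T.opp (𝔘.inn.e 0)) ∧ (∀ d', T.SameLab s (T.opp (𝔘.inn.e 0)) d' ↔ T.opp d' ∈ pvowDarts [𝔘.inn, y, 𝔗.inn, y']) ∧
      ∀ w : D → ℂ, T.lsum s w (T.opp (𝔘.inn.e 0)) = 𝔘.inn.psum w + y.psum w + 𝔗.inn.psum w + y'.psum w := by
  refine pvtk3_ring hT hS U.g (pvtk3_of_gate hT E.gate) (pvtk3_lk_e hT U E Ds R hy) (pvtk3_lk_f hT U E Ds R' hy') (fun k l hk hl e => ?_) fun k l hk hl e => ?_
  · have h1 := Ds.ko _ (U.ins _ (U.g.ins hT hk))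
    have h2 := pvtk2_inn_near (pos := pos) hT E.gate hl
    rw [e] at h1
    exact absurd h2 (not_lt.2 h1)
  · exact Ds.sep _ (pvtk3_in_e hT hS U E R hy hk) _ (pvtk3_in_f hT hS U E R' hy' hl) (by rw [e])

end door

/-! ## 6. mask exactness with a door end, the main statement -/

/-- **THE MASK OF THE LINK `door → marked end`**: `Mk` = the mask of the link (cut in space at the door), `A` = the vertex mask, `(z', r')` = the cut-off disc of the marked end -/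
def pvtk3M (Mk : Set ℂ) (z' : ℂ) (r' μ : ℝ) (A : Set ℂ) : Set ℂ := (Mk ∩ thickening (2 * μ) A) \ closedBall z' r'

theorem pvtk3_eqns_cite : True := by
  have := @pvtk3M.eq_1
  trivial

theorem pvtk3_M_meas {Mk : Set ℂ} (hM : MeasurableSet Mk) (z' : ℂ) (r' μ : ℝ) (A : Set ℂ) : MeasurableSet (pvtk3M Mk z' r' μ A) :=
  (hM.inter isOpen_thickening.measurableSet).diff isClosed_closedBall.measurableSet

/-- the mask lies in a ball -/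
theorem pvtk3_M_sub {Mk : Set ℂ} {z' : ℂ} {r' μ : ℝ} {A : Set ℂ} {c : ℂ} {R : ℝ} (h2 : ∀ a ∈ A, ‖a - c‖ + 2 * μ ≤ R) : pvtk3M Mk z' r' μ A ⊆ closedBall c R := by
  rintro x ⟨⟨-, hx⟩, -⟩
  obtain ⟨a, ha, hxa⟩ := mem_thickening_iff.1 hx
  rw [mem_closedBall, dist_eq_norm]
  have h3 : ‖x - c‖ ≤ ‖x - a‖ + ‖a - c‖ := by
    have := norm_add_le (x - a) (a - c)
    rwa [sub_add_sub_cancel] at this
  rw [dist_eq_norm] at hxa
  linarith [h2 a ha]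

section exact

variable {pos : V → ℂ} {𝔘 𝔗 : PvwSt T} {y y' : T.Pth} {Mk : Set ℂ} {z' : ℂ} {r' μ : ℝ} {A B : Set ℂ}

/-- **THE HYPOTHESES OF MASK EXACTNESS, DOOR FORM** for the ring `inn(𝔘) . y . inn(𝔗) . y'`;   SEP in the OR form of 288: a point of `B` is `3 μ` away from `A` or lies, with its `μ`-ball, off the mask `Mk` (behind the door line) -/
structure Pvtk3Ex (T : PvMap V D) (pos : V → ℂ) (𝔘 𝔗 : PvwSt T) (y y' : T.Pth) (Mk : Set ℂ) (z' : ℂ) (r' μ : ℝ) (A B : Set ℂ) : Prop where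
  mu0 : 0 < μ
  mesh_i : ∀ k, k < 𝔘.inn.n → ‖T.bary pos (T.opp (𝔘.inn.e k)) - pos (𝔘.inn.v k)‖ ≤ μ
  mesh_y : ∀ k, k < y.n → ‖T.bary pos (T.opp (y.e k)) - pos (y.v k)‖ ≤ μ
  mesh_i' : ∀ k, k < 𝔗.inn.n → ‖T.bary pos (T.opp (𝔗.inn.e k)) - pos (𝔗.inn.v k)‖ ≤ μ
  mesh_y' : ∀ k, k < y'.n → ‖T.bary pos (T.opp (y'.e k)) - pos (y'.v k)‖ ≤ μ
  sep : ∀ b ∈ B, (∀ a ∈ A, 3 * μ ≤ ‖a - b‖) ∨ closedBall b μ ⊆ Mkᶜ
  i_in : ∀ k, k < 𝔘.inn.n → pos (𝔘.inn.v k) ∈ A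
  y_in : ∀ k, k < y.n → pos (y.v k) ∈ A
  inn_m' : ∀ k, k < 𝔗.ip → r' - μ < ‖pos (𝔗.inn.v k) - z'‖ → pos (𝔗.inn.v k) ∈ A
  inn_p' : ∀ k, 𝔗.ip ≤ k → k < 𝔗.inn.n → r' - μ < ‖pos (𝔗.inn.v k) - z'‖ → pos (𝔗.inn.v k) ∈ B
  y_in' : ∀ k, k < y'.n → pos (y'.v k) ∈ B

/-- a point within `μ` of `B` is not in `Mk ∩` the thickening of `A` -/
theorem pvtk3_not_M {x v : ℂ} (sep : ∀ b ∈ B, (∀ a ∈ A, 3 * μ ≤ ‖a - b‖) ∨ closedBall b μ ⊆ Mkᶜ) (h : ‖x - v‖ ≤ μ) (hv : v ∈ B) : x ∉ pvtk3M Mk z' r' μ A := by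
  rintro ⟨⟨h1, h2⟩, -⟩
  rcases sep v hv with h3 | h3
  · exact pvme_not_thick (B := {v}) (fun a ha b hb => by rw [mem_singleton_iff.1 hb]; exact h3 a ha) h rfl h2
  · exact h3 (by rw [mem_closedBall, dist_eq_norm]; exact h) h1

/-- **MASK EXACTNESS, DOOR FORM**: the three masses of the value of the link (`PvilLk.val` at `dr = true`, `dr' = false`) = the mass in the mask `M` of ALL the four pieces of the ring -/
theorem pvtk3_exact (h : Pvtk3Ex T pos 𝔘 𝔗 y y' Mk z' r' μ A B) (hip' : 𝔗.ip ≤ 𝔗.inn.n) (w : D → ℂ) :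
    pvwMass T pos w (Mk \ closedBall z' r') 𝔘.inn 0 𝔘.inn.n + pvwMass T pos w (Mk \ closedBall z' r') y 0 y.n + pvwMass T pos w (Mk \ closedBall z' r') 𝔗.inn 0 𝔗.ip =
      pvwMass T pos w (pvtk3M Mk z' r' μ A) 𝔘.inn 0 𝔘.inn.n + pvwMass T pos w (pvtk3M Mk z' r' μ A) y 0 y.n +
        pvwMass T pos w (pvtk3M Mk z' r' μ A) 𝔗.inn 0 𝔗.inn.n + pvwMass T pos w (pvtk3M Mk z' r' μ A) y' 0 y'.n := by
  have key : ∀ x : ℂ, x ∈ thickening (2 * μ) A → (x ∈ pvtk3M Mk z' r' μ A ↔ x ∈ Mk \ closedBall z' r') := fun x hx =>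
    ⟨fun hm => ⟨hm.1.1, hm.2⟩, fun hm => ⟨⟨hm.1, hx⟩, hm.2⟩⟩
  have s1 : pvwMass T pos w (pvtk3M Mk z' r' μ A) 𝔘.inn 0 𝔘.inn.n = pvwMass T pos w (Mk \ closedBall z' r') 𝔘.inn 0 𝔘.inn.n :=
    pvme_mass_congr pos w _ fun k _ hk => key _ (pvme_in_thick h.mu0 (h.mesh_i k hk) (h.i_in k hk))
  have s2 : pvwMass T pos w (pvtk3M Mk z' r' μ A) y 0 y.n = pvwMass T pos w (Mk \ closedBall z' r') y 0 y.n :=
    pvme_mass_congr pos w _ fun k _ hk => key _ (pvme_in_thick h.mu0 (h.mesh_y k hk) (h.y_in k hk))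
  have s3 : pvwMass T pos w (pvtk3M Mk z' r' μ A) 𝔗.inn 0 𝔗.ip = pvwMass T pos w (Mk \ closedBall z' r') 𝔗.inn 0 𝔗.ip := by
    refine pvme_mass_congr pos w _ fun k _ hk => ⟨fun hm => ⟨hm.1.1, hm.2⟩, fun hm => ?_⟩
    have hm' := h.mesh_i' k (by omega)
    have h2 : r' < ‖T.bary pos (T.opp (𝔗.inn.e k)) - z'‖ := by
      have := hm.2
      rwa [mem_closedBall, dist_eq_norm, not_le] at this
    exact (key _ (pvme_in_thick h.mu0 hm' (h.inn_m' k hk (by linarith [(pvme_tri (c := z') hm').2])))).2 hm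
  have s4 : pvwMass T pos w (pvtk3M Mk z' r' μ A) 𝔗.inn 𝔗.ip 𝔗.inn.n = 0 := by
    refine pvme_mass_zero pos w _ fun k hk1 hk2 hm => ?_
    have hm' := h.mesh_i' k hk2
    have h2 : r' < ‖T.bary pos (T.opp (𝔗.inn.e k)) - z'‖ := by
      have := hm.2
      rwa [mem_closedBall, dist_eq_norm, not_le] at this
    exact pvtk3_not_M h.sep hm' (h.inn_p' k hk1 hk2 (by linarith [(pvme_tri (c := z') hm').2])) hm
  have s5 : pvwMass T pos w (pvtk3M Mk z' r' μ A) y' 0 y'.n = 0 :=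
    pvme_mass_zero pos w _ fun k _ hk => pvtk3_not_M h.sep (h.mesh_y' k hk) (h.y_in' k hk)
  rw [pvme_mass_split pos w (pvtk3M Mk z' r' μ A) 𝔗.inn (Nat.zero_le _) hip', s1, s2, s3, s4, s5]
  ring

variable {KO Km Kp KT : Set ℂ} {h : ℝ} {τ : PvwTy} {Bx Mp Mm Ye Yc : Set ℂ} {r0 : ℝ} {n n' : ℕ}

/-- **(K4), DETERMINISTIC HALF OF `recog`, DOOR FORM** (InstL v2.1, R20 (2)), ANY vertex mask `A ⊇ KT ∪ (Kp ∪ Ye ∪ Mm)` (so the sets `Mp Mm` of the end may depend on more data than the mask: (B), (M) of 290):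
on the two runs the value of the thick link `door 𝔘 → marked end 𝔗` is the LABEL SUM OF ONE TAG against the mask `pvtk3M Mk z' r' μ A` tested at the barycentres      (`KT` = the tube of the door: room of its inner arc) -/
theorem pvtk3_main_A (hT : T.IsSph) (hS : T.Simple) (U : Pvtk3Dr T s pos 𝔘 KO Km Kp) (tube : ∀ k, k ≤ 𝔘.inn.n → pos (𝔘.inn.v k) ∈ KT) (E : Pvtk2End T s pos 𝔗 h z' τ Bx Mp Mm r0)
    (Ds : Pvtk3Des KO Km Kp h z' τ Bx Mp Mm Ye Yc) (mu0 : 0 < μ) (thr : r0 ≤ r' - μ) (hA : KT ∪ (Kp ∪ Ye ∪ Mm) ⊆ A)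
    (sep : ∀ b ∈ Mp ∪ Yc ∪ Km, (∀ a ∈ A, 3 * μ ≤ ‖a - b‖) ∨ closedBall b μ ⊆ Mkᶜ)
    (R : Pvtk2Run T s pos 𝔘 𝔗 Ye n) (hy : PvwLE T (fun i => T.src (pvasIt T s 𝔘.dp i)) n y) (R' : Pvtk2Run T s pos 𝔗 𝔘 Yc n') (hy' : PvwLE T (fun i => T.src (pvasIt T s 𝔗.dp i)) n' y')
    (mesh_i : ∀ k, k < 𝔘.inn.n → ‖T.bary pos (T.opp (𝔘.inn.e k)) - pos (𝔘.inn.v k)‖ ≤ μ) (mesh_y : ∀ k, k < y.n → ‖T.bary pos (T.opp (y.e k)) - pos (y.v k)‖ ≤ μ)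
    (mesh_i' : ∀ k, k < 𝔗.inn.n → ‖T.bary pos (T.opp (𝔗.inn.e k)) - pos (𝔗.inn.v k)‖ ≤ μ) (mesh_y' : ∀ k, k < y'.n → ‖T.bary pos (T.opp (y'.e k)) - pos (y'.v k)‖ ≤ μ) :
    T.Tag s (T.opp (𝔘.inn.e 0)) ∧ ∀ w : D → ℂ,
      pvwMass T pos w (Mk \ closedBall z' r') 𝔘.inn 0 𝔘.inn.n + pvwMass T pos w (Mk \ closedBall z' r') y 0 y.n + pvwMass T pos w (Mk \ closedBall z' r') 𝔗.inn 0 𝔗.ip =
        T.lsum s (fun d => (pvtk3M Mk z' r' μ A).indicator (1 : ℂ → ℂ) (T.bary pos d) * w d) (T.opp (𝔘.inn.e 0)) := by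
  obtain ⟨h1, -, h3⟩ := pvtk3_ring_dm hT hS U E Ds R hy R' hy'
  have X : Pvtk3Ex T pos 𝔘 𝔗 y y' Mk z' r' μ A (Mp ∪ Yc ∪ Km) :=
    { mu0 := mu0, mesh_i := mesh_i, mesh_y := mesh_y, mesh_i' := mesh_i', mesh_y' := mesh_y', sep := sep
      i_in := fun k hk => hA (Or.inl (tube k hk.le))
      y_in := fun k hk => hA (Or.inr (pvtk3_in_e hT hS U E R hy hk.le))
      inn_m' := fun k a1 a2 => hA (Or.inr (Or.inr (E.half_m k a1.le (by linarith))))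
      inn_p' := fun k a1 a2 a3 => Or.inl (Or.inl (E.half_p k a1 a2.le (by linarith)))
      y_in' := fun k hk => pvtk3_in_f hT hS U E R' hy' hk.le }
  refine ⟨h1, fun w => ?_⟩
  rw [pvtk3_exact X E.gate.ip_le w, h3, pvme_mass_psum, pvme_mass_psum, pvme_mass_psum, pvme_mass_psum]

/-- the same at the smallest vertex mask -/
theorem pvtk3_main (hT : T.IsSph) (hS : T.Simple) (U : Pvtk3Dr T s pos 𝔘 KO Km Kp) (tube : ∀ k, k ≤ 𝔘.inn.n → pos (𝔘.inn.v k) ∈ KT) (E : Pvtk2End T s pos 𝔗 h z' τ Bx Mp Mm r0)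
    (Ds : Pvtk3Des KO Km Kp h z' τ Bx Mp Mm Ye Yc) (mu0 : 0 < μ) (thr : r0 ≤ r' - μ)
    (sep : ∀ b ∈ Mp ∪ Yc ∪ Km, (∀ a ∈ KT ∪ (Kp ∪ Ye ∪ Mm), 3 * μ ≤ ‖a - b‖) ∨ closedBall b μ ⊆ Mkᶜ)
    (R : Pvtk2Run T s pos 𝔘 𝔗 Ye n) (hy : PvwLE T (fun i => T.src (pvasIt T s 𝔘.dp i)) n y) (R' : Pvtk2Run T s pos 𝔗 𝔘 Yc n') (hy' : PvwLE T (fun i => T.src (pvasIt T s 𝔗.dp i)) n' y')
    (mesh_i : ∀ k, k < 𝔘.inn.n → ‖T.bary pos (T.opp (𝔘.inn.e k)) - pos (𝔘.inn.v k)‖ ≤ μ) (mesh_y : ∀ k, k < y.n → ‖T.bary pos (T.opp (y.e k)) - pos (y.v k)‖ ≤ μ)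
    (mesh_i' : ∀ k, k < 𝔗.inn.n → ‖T.bary pos (T.opp (𝔗.inn.e k)) - pos (𝔗.inn.v k)‖ ≤ μ) (mesh_y' : ∀ k, k < y'.n → ‖T.bary pos (T.opp (y'.e k)) - pos (y'.v k)‖ ≤ μ) :
    T.Tag s (T.opp (𝔘.inn.e 0)) ∧ ∀ w : D → ℂ,
      pvwMass T pos w (Mk \ closedBall z' r') 𝔘.inn 0 𝔘.inn.n + pvwMass T pos w (Mk \ closedBall z' r') y 0 y.n + pvwMass T pos w (Mk \ closedBall z' r') 𝔗.inn 0 𝔗.ip =
        T.lsum s (fun d => (pvtk3M Mk z' r' μ (KT ∪ (Kp ∪ Ye ∪ Mm))).indicator (1 : ℂ → ℂ) (T.bary pos d) * w d) (T.opp (𝔘.inn.e 0)) :=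
  pvtk3_main_A hT hS U tube E Ds mu0 thr Subset.rfl sep R hy R' hy' mesh_i mesh_y mesh_i' mesh_y'

end exact

end Claimed.Agent.R289
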