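-- KEEP
import Claimed.Agent.R289.Tr.ThickC3
import Claimed.Agent.R289.Tr.InstL
import Claimed.Agent.R289.Tr.AtUniq

/-!
# Row 289 (S0537, Cardy for Poisson-Voronoi), THE WALL, ROAD E, field `thick`, (K4) `recog`, file Tr/ThickCl : THE CLOSING AT THE NAMES OF `Tr/InstL` v2.1      (helper118; prefix `pvtk4_`, `Pvtk4`, `pvtk4`)

`L` = the thick link (DOOR `u` → pin `t`: `dr = true`, `dr' = false`; `pvilLe` of record), `L'` = its return (pin `t` → DOOR `u`: `dr = false`, `dr' = true`; `pvjtLf` of 223).      Imports `Tr/InstL`, `Tr/ThickC3`, `Tr/AtUniq` only.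
* sec. 1  (model free) `pvtk4Mg 𝔗 𝔗'` = the record of the entrance half state with the exit stub of the other record, **`pvtk4_end`** : `AtIn` + `AtOut` + `PvuqG` + masks ⟹ `Pvtk2End` of `Tr/ThickC2`
* sec. 2  `pvtk4A L`, `pvtk4B L L'` (vertex masks), **`pvtk4M L N μ`** (THE MASK: deterministic, Borel `pvtk4_M_meas`, bounded `pvtk4_M_sub`), `Pvtk4Mesh μ Em η` (`pvtk4_mesh_of`: from `PvtrMesh` in a window, 55), **`Pvtk4Des L L' N μ Em`** (the design clauses: numbers and regions only),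
          `pvtk4_val` (`PvilLk.val` at `dr = true`, `dr' = false`),
          **`pvtk4_one`** : `Pvtk4Des` + `Pvtk4Mesh` + `L.Arc N b η 𝔘 𝔗 y` + `L'.Arc N b η 𝔗' 𝔘' y'` ⟹ `∃ g, Tag g ∧ ∀ w, L.val N η w 𝔘 𝔗 y = lsum (1_M ∘ bary * w) g`      (`PvjkOne` of 132 unfolded; FOUR records: the door gate is unique by `PvzlGt.unique_darts` of 173, the gate of the pin by `pvuq_gate` of 150),
          **`pvtk4_core`** : the same with ABSTRACT sets `Mp Mm` (facts at the states `𝔗' 𝔗`: they may depend on the hulls) and ANY vertex mask `A` ((B), (M) of 290),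
          **`pvtk4_X`** : the same for the plain value `L.X N b w η` on `L.A ∩ L'.A`, one tag for all the weights.
WHAT IS LEFT OF `recog`: the raw dictionary + a.e. layer (132 `Tr/InstEKR`), a term of `Pvtk4Des` at the regions of record, the mesh clause in the events.
-/

set_option autoImplicit false
set_option linter.unusedSectionVars false
set_option linter.unusedVariables false

namespace Claimed.Agent.R289

open Set Metric

/-! ## 1. the two half states of a marked end on one record (model free) -/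

section merge

variable {V D : Type} {T : PvMap V D} {s : V → Bool} {pos : V → ℂ}

/-- the record of the entrance half state `𝔗` with the exit stub of the record `𝔗'` -/
def pvtk4Mg (𝔗 𝔗' : PvwSt T) : PvwSt T := { 𝔗 with np := 𝔗'.np, ep := 𝔗'.ep }

theorem pvtk4_eqns_cite : True := by
  have := @pvtk4Mg.eq_1
  trivial

variable {𝔗 𝔗' : PvwSt T} {N : PvwNum} {h : ℝ} {z : ℂ} {τ : PvwTy} {Mp Mm : Set ℂ} {r0 : ℝ}

/-- **the entrance half state and the exit half state of one marked end, with the same gate part, make a full end of `Tr/ThickC2`** -/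
theorem pvtk4_end (gt : PvuqG 𝔗' 𝔗) (hi : 𝔗.AtIn pos N h z τ s) (ho : 𝔗'.AtOut pos N h z τ s)
    (mask_p : ∀ x : T.Pth, PvwLE T (fun i => T.src (𝔗'.ep i)) 𝔗'.np x → ∀ v ∈ x.verts, pos v ∈ Mp)
    (mask_m : ∀ x : T.Pth, PvwLE T (fun i => T.src (𝔗.em i)) 𝔗.nm x → ∀ v ∈ x.verts, pos v ∈ Mm)
    (half_p : ∀ i, 𝔗'.ip ≤ i → i ≤ 𝔗'.inn.n → r0 < ‖pos (𝔗'.inn.v i) - z‖ → pos (𝔗'.inn.v i) ∈ Mp)
    (half_m : ∀ i, i ≤ 𝔗.ip → r0 < ‖pos (𝔗.inn.v i) - z‖ → pos (𝔗.inn.v i) ∈ Mm) :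
    Pvtk2End T s pos (pvtk4Mg 𝔗 𝔗') h z τ (pvwSq z (pvwRad N h τ τ.k)) Mp Mm r0 where
  gate := ⟨hi.gate.fin, hi.gate.dsc_eq, hi.gate.core_fin, hi.gate.ann, hi.gate.round, hi.gate.inside, hi.gate.dp_on, hi.gate.dm_on, hi.gate.bw_p, hi.gate.bw_m, hi.gate.ne, hi.gate.ori,
    hi.gate.two, hi.gate.left, hi.gate.strand, hi.gate.ip_le, hi.gate.ip_near, hi.gate.ip_first⟩
  stp := ⟨fun i hi' => by
      show 𝔗'.ep i = pvasIt T s 𝔗.dp i
      rw [← gt.dp]; exact ho.stub.ep_it i hi', ho.stub.ep_in, ho.stub.ep_ax, ho.stub.ep_out⟩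
  stm := ⟨hi.stub.em_it, hi.stub.em_in, hi.stub.em_ax, hi.stub.em_out⟩
  off_p := fun i hi' => by
    show 𝔗'.ep i ∉ 𝔗.S.Left
    rw [← gt.left]; exact ho.good.off_p i hi'
  off_m := hi.good.off_m
  mask_p := mask_p
  mask_m := mask_m
  half_p := fun i h1 h2 h3 => by
    have h1' : 𝔗'.ip ≤ i := by rw [gt.ip]; exact h1
    have h2' : i ≤ 𝔗'.inn.n := by rw [gt.inn_n]; exact h2
    have e : 𝔗'.inn.v i = 𝔗.inn.v i := gt.inn_v i h2'
    show pos (𝔗.inn.v i) ∈ Mp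
    rw [← e]
    exact half_p i h1' h2' (by rw [e]; exact h3)
  half_m := half_m

end merge

/-! ## 2. at the names of `Tr/InstL` v2.1: the thick link `L` (door `u` → pin `t`), its return `L'` (pin `t` → door `u`) -/

theorem pvtk4_pos {p : PvilPl} (hfr : p.fr = 1) (η : Conf PvPt) : p.pos η = pviePos η := by
  funext v
  unfold PvilPl.pos
  rw [hfr, map_one, one_mul]

theorem pvtk4_zf {p : PvilPl} (hfr : p.fr = 1) : p.zf = p.z := by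
  unfold PvilPl.zf
  rw [hfr, map_one, one_mul]

/-- the vertex mask of the link: tube of the door, room of `g⁺(u)`, room of the link, entrance mask of the pin -/
noncomputable def pvtk4A (L : PvilLk) : Set ℂ := pvkdAt L.p.z L.p.fr (pvkdP L.p.h).Tb ∪ (pvkdAt L.p.z L.p.fr (pvkdP L.p.h).Zp ∪ L.Yin ∪ L.p'.Mm)

/-- the vertex mask of the return: exit mask of the pin, room of the return, room of `g⁻(u)` -/
noncomputable def pvtk4B (L L' : PvilLk) : Set ℂ := L.p'.Mp ∪ L'.Yin ∪ pvkdAt L.p.z L.p.fr (pvkdP L.p.h).Zm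

/-- **THE MASK OF THE THICK LINK** at the names of record: DETERMINISTIC -/
noncomputable def pvtk4M (L : PvilLk) (N : PvwNum) (μ : ℝ) : Set ℂ := pvtk3M L.Mk L.p'.z (N.m * L.p'.h) μ (pvtk4A L)

/-- MESH OF THE TAGS over `Em`      (conclusion of `pvme_mesh_all` of 55, `= PvjzMesh` of 290) -/
def Pvtk4Mesh (μ : ℝ) (Em : Set ℂ) (η : Conf PvPt) : Prop := ∀ d, pviePos η ((pvieT η).tgt d) ∈ Em → ‖(pvieT η).bary (pviePos η) d - pviePos η ((pvieT η).tgt d)‖ ≤ μ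

/-- **THE DESIGN CLAUSES** on the placed regions of the thick link `L` and of its return `L'` (numbers and regions only) -/
structure Pvtk4Des (L L' : PvilLk) (N : PvwNum) (μ : ℝ) (Em : Set ℂ) : Prop where
  dr : L.dr = true
  dr' : L.dr' = false
  cdr : L'.dr = false
  cdr' : L'.dr' = true
  hp : L'.p = L.p'
  hp' : L'.p' = L.p
  fr : L.p'.fr = 1
  mu0 : 0 < μ
  mu_h : μ ≤ L.p'.h
  /-- the disc `B(z_u, 2 r)` and the two rooms miss the open core disc of the pin, the box of the pin misses `B(z_u, 2 r)`, the vertex masks (without the tube) are disjoint -/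
  des : Pvtk3Des (ball L.p.z (pvkdP L.p.h).b) (pvkdAt L.p.z L.p.fr (pvkdP L.p.h).Zm) (pvkdAt L.p.z L.p.fr (pvkdP L.p.h).Zp) L.p'.h L.p'.z L.p'.ty
    (pvwSq L.p'.z (pvwRad N L.p'.h L.p'.ty L.p'.ty.k)) L.p'.Mp L.p'.Mm L.Yin L'.Yin
  /-- SEP, OR form: a point of the vertex mask of the return is `3 μ` away from the vertex mask of the link, or lies with its `μ`-ball behind the door line -/
  sep : ∀ b ∈ pvtk4B L L', (∀ a ∈ pvtk4A L, 3 * μ ≤ ‖a - b‖) ∨ closedBall b μ ⊆ L.Mkᶜ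
  /-- everything lies where the mesh is known -/
  sub_A : pvtk4A L ⊆ Em
  sub_B : pvtk4B L L' ⊆ Em
  sub_b : ball L.p'.z (L.p'.ty.b * L.p'.h) ⊆ Em

theorem pvtk4_eqns_cite2 : True := by
  have := @pvtk4A.eq_1; have := @pvtk4B.eq_1; have := @pvtk4M.eq_1; have := @Pvtk4Mesh.eq_1
  trivial

theorem pvtk4_M_meas {L : PvilLk} (hM : MeasurableSet L.Mk) (N : PvwNum) (μ : ℝ) : MeasurableSet (pvtk4M L N μ) := pvtk3_M_meas hM _ _ _ _

theorem pvtk4_M_sub {L : PvilLk} {N : PvwNum} {μ : ℝ} {c : ℂ} {R : ℝ} (h : ∀ a ∈ pvtk4A L, ‖a - c‖ + 2 * μ ≤ R) : pvtk4M L N μ ⊆ closedBall c R := pvtk3_M_sub h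

/-- the value of a link `door → marked end` = the three masses of `pvtk3_exact` -/
theorem pvtk4_val {L : PvilLk} (hdr : L.dr = true) (hdr' : L.dr' = false) (N : PvwNum) (η : Conf PvPt) (w : (delbPl (pvieY η)).Dart → ℂ) (𝔘 𝔗 : PvwSt (pvieT η)) (y : (pvieT η).Pth) :
    L.val N η w 𝔘 𝔗 y = pvwMass (pvieT η) (pviePos η) w (L.Mk \ closedBall L.p'.z (N.m * L.p'.h)) 𝔘.inn 0 𝔘.inn.n +
      pvwMass (pvieT η) (pviePos η) w (L.Mk \ closedBall L.p'.z (N.m * L.p'.h)) y 0 y.n + pvwMass (pvieT η) (pviePos η) w (L.Mk \ closedBall L.p'.z (N.m * L.p'.h)) 𝔗.inn 0 𝔗.ip := by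
  unfold PvilLk.val PvilLk.msk PvilLk.ball'
  rw [hdr, hdr']
  simp only [if_true, Bool.false_eq_true, if_false, empty_union, zero_add]

/-- the mesh on a piece -/
theorem pvtk4_mesh {μ : ℝ} {Em : Set ℂ} {η : Conf PvPt} (hm : Pvtk4Mesh μ Em η) (p : (pvieT η).Pth) {k : ℕ} (hk : k < p.n) (hv : pviePos η (p.v k) ∈ Em) :
    ‖(pvieT η).bary (pviePos η) ((pvieT η).opp (p.e k)) - pviePos η (p.v k)‖ ≤ μ := by
  have e2 : (pvieT η).tgt ((pvieT η).opp (p.e k)) = p.v k := by rw [PvMap.tgt_opp, p.src_e k hk]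
  have := hm ((pvieT η).opp (p.e k)) (by rw [e2]; exact hv)
  rwa [e2] at this

/-- the flags of the pair: `L` = door `u` → pin `t`, `L'` = pin `t` → door `u`, the pin in the standard frame -/
structure Pvtk4Fl (L L' : PvilLk) : Prop where
  dr : L.dr = true
  dr' : L.dr' = false
  cdr : L'.dr = false
  cdr' : L'.dr' = true
  hp : L'.p = L.p'
  hp' : L'.p' = L.p
  fr : L.p'.fr = 1

theorem Pvtk4Des.fl {L L' : PvilLk} {N : PvwNum} {μ : ℝ} {Em : Set ℂ} (Ds : Pvtk4Des L L' N μ Em) : Pvtk4Fl L L' := ⟨Ds.dr, Ds.dr', Ds.cdr, Ds.cdr', Ds.hp, Ds.hp', Ds.fr⟩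

/-- **(K4) THE CLOSING AT `Tr/InstL` v2.1 / v2.2, ABSTRACT MASKS** ((B), (M) of 290): `Mp Mm` = ANY sets which contain the vertices of the two erased banks and of the two halves of the inner arc of the pin AT THE STATES `𝔗' 𝔗` (they may depend on the hulls),
`A` = ANY vertex mask `⊇ tube(u) ∪ room of g⁺(u) ∪ Yin(L) ∪ Mm` (the mask `pvtk3M L.Mk z_t (m h_t) μ A` of the sums may be chosen independent of the hulls) -/
theorem pvtk4_core {L L' : PvilLk} {N : PvwNum} {μ : ℝ} {Mp Mm A Em : Set ℂ} {b : Bool} {η : Conf PvPt} (Fl : Pvtk4Fl L L') (mu0 : 0 < μ) (mu_h : μ ≤ L.p'.h)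
    (des : Pvtk3Des (ball L.p.z (pvkdP L.p.h).b) (pvkdAt L.p.z L.p.fr (pvkdP L.p.h).Zm) (pvkdAt L.p.z L.p.fr (pvkdP L.p.h).Zp) L.p'.h L.p'.z L.p'.ty
      (pvwSq L.p'.z (pvwRad N L.p'.h L.p'.ty L.p'.ty.k)) Mp Mm L.Yin L'.Yin)
    (hA : pvkdAt L.p.z L.p.fr (pvkdP L.p.h).Tb ∪ (pvkdAt L.p.z L.p.fr (pvkdP L.p.h).Zp ∪ L.Yin ∪ Mm) ⊆ A)
    (sep : ∀ b ∈ Mp ∪ L'.Yin ∪ pvkdAt L.p.z L.p.fr (pvkdP L.p.h).Zm, (∀ a ∈ A, 3 * μ ≤ ‖a - b‖) ∨ closedBall b μ ⊆ L.Mkᶜ)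
    (sub_A : pvkdAt L.p.z L.p.fr (pvkdP L.p.h).Tb ∪ (pvkdAt L.p.z L.p.fr (pvkdP L.p.h).Zp ∪ L.Yin ∪ Mm) ⊆ Em) (sub_B : Mp ∪ L'.Yin ∪ pvkdAt L.p.z L.p.fr (pvkdP L.p.h).Zm ⊆ Em)
    (sub_b : ball L.p'.z (L.p'.ty.b * L.p'.h) ⊆ Em) (hm : Pvtk4Mesh μ Em η)
    {𝔘 𝔗 𝔗' 𝔘' : PvwSt (pvieT η)} {y y' : (pvieT η).Pth} (e : L.Arc N b η 𝔘 𝔗 y) (c : L'.Arc N b η 𝔗' 𝔘' y')
    (mask_p : ∀ x : (pvieT η).Pth, PvwLE (pvieT η) (fun i => (pvieT η).src (𝔗'.ep i)) 𝔗'.np x → ∀ v ∈ x.verts, pviePos η v ∈ Mp)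
    (mask_m : ∀ x : (pvieT η).Pth, PvwLE (pvieT η) (fun i => (pvieT η).src (𝔗.em i)) 𝔗.nm x → ∀ v ∈ x.verts, pviePos η v ∈ Mm)
    (half_p : ∀ i, 𝔗'.ip ≤ i → i ≤ 𝔗'.inn.n → (N.m - 1) * L.p'.h < ‖pviePos η (𝔗'.inn.v i) - L.p'.z‖ → pviePos η (𝔗'.inn.v i) ∈ Mp)
    (half_m : ∀ i, i ≤ 𝔗.ip → (N.m - 1) * L.p'.h < ‖pviePos η (𝔗.inn.v i) - L.p'.z‖ → pviePos η (𝔗.inn.v i) ∈ Mm) :
    ∃ g, (pvieT η).Tag (pvieCol η b) g ∧ ∀ w : (delbPl (pvieY η)).Dart → ℂ,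
      L.val N η w 𝔘 𝔗 y = (pvieT η).lsum (pvieCol η b) (fun d => (pvtk3M L.Mk L.p'.z (N.m * L.p'.h) μ A).indicator (1 : ℂ → ℂ) ((pvieT η).bary (pviePos η) d) * w d) g := by
  have hU : PvilDoor (pvkdP L.p.h) b η L.p.z L.p.fr 𝔘 := (PvilLk.atP_door Fl.dr N b η 𝔘).1 e.at_p
  have hTi : PvilIn N b L.p' η 𝔗 := (PvilLk.atP'_pin Fl.dr' N b η 𝔗).1 e.at_p'
  have hTo : PvilOut N b L.p' η 𝔗' := by
    have := (PvilLk.atP_pin Fl.cdr N b η 𝔗').1 c.at_p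
    rwa [Fl.hp] at this
  have hU' : PvilDoor (pvkdP L.p.h) b η L.p.z L.p.fr 𝔘' := by
    have := (PvilLk.atP'_door Fl.cdr' N b η 𝔘').1 c.at_p'
    rwa [Fl.hp'] at this
  obtain ⟨n, R, hy⟩ := e.run
  obtain ⟨n', R', hy'⟩ := c.run
  obtain ⟨-, g, hg, rfl⟩ := hU
  obtain ⟨-, g', hg', rfl⟩ := hU'
  have hT := delb_plane_isSph hTi.good
  have hS := pvgy_m_simple (pvieY η)
  have hdis : Disjoint ((pvkdP L.p.h).pg L.p.z L.p.fr).Km ((pvkdP L.p.h).pg L.p.z L.p.fr).Kp :=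
    Set.disjoint_left.2 fun x h1 h2 => des.sep x (Or.inl (Or.inl h2)) x (Or.inr h1) rfl
  obtain ⟨ea, -, -, -⟩ := hg.unique_darts hT hdis hg'
  have U : Pvtk3Dr (pvieT η) (pvieCol η b) (pviePos η) (pvilStS (pvkdP L.p.h) η (pvieCol η b) L.p.z g) (ball L.p.z (pvkdP L.p.h).b) (pvkdAt L.p.z L.p.fr (pvkdP L.p.h).Zm)
      (pvkdAt L.p.z L.p.fr (pvkdP L.p.h).Zp) := pvtk3_dr_of hT hS hg rfl rfl rfl rfl rfl rfl rfl rfl
  have tube : ∀ k, k ≤ (pvilStS (pvkdP L.p.h) η (pvieCol η b) L.p.z g).inn.n → pviePos η ((pvilStS (pvkdP L.p.h) η (pvieCol η b) L.p.z g).inn.v k) ∈ pvkdAt L.p.z L.p.fr (pvkdP L.p.h).Tb :=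
    fun k hk => pvtk3_dr_tube hT hS hg rfl hk
  have hi : 𝔗.AtIn (pviePos η) N L.p'.h L.p'.z L.p'.ty (pvieCol η b) := by
    have := hTi.st
    rwa [pvtk4_pos Fl.fr, pvtk4_zf Fl.fr] at this
  have ho : 𝔗'.AtOut (pviePos η) N L.p'.h L.p'.z L.p'.ty (pvieCol η b) := by
    have := hTo.st
    rwa [pvtk4_pos Fl.fr, pvtk4_zf Fl.fr] at this
  have gt : PvuqG 𝔗' 𝔗 := pvuq_gate hT hS Subtype.val_injective ho.gate hi.gate (ho.inmost.trans hi.inmost.symm)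
  have E := pvtk4_end gt hi ho mask_p mask_m half_p half_m
  have R1 : Pvtk2Run (pvieT η) (pvieCol η b) (pviePos η) (pvilStS (pvkdP L.p.h) η (pvieCol η b) L.p.z g) (pvtk4Mg 𝔗 𝔗') L.Yin n := R
  have R2 : Pvtk2Run (pvieT η) (pvieCol η b) (pviePos η) (pvtk4Mg 𝔗 𝔗') (pvilStS (pvkdP L.p.h) η (pvieCol η b) L.p.z g) L'.Yin n' := by
    have h1 : (pvtk4Mg 𝔗 𝔗').dp = 𝔗'.dp := gt.dp.symm
    have h2 : (pvilStS (pvkdP L.p.h) η (pvieCol η b) L.p.z g).dm = (pvilStS (pvkdP L.p.h) η (pvieCol η b) L.p.z g').dm := ea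
    unfold Pvtk2Run
    rw [h1, h2]
    exact R'
  have hy2 : PvwLE (pvieT η) (fun i => (pvieT η).src (pvasIt (pvieT η) (pvieCol η b) (pvtk4Mg 𝔗 𝔗').dp i)) n' y' := by
    have h1 : (pvtk4Mg 𝔗 𝔗').dp = 𝔗'.dp := gt.dp.symm
    rw [h1]
    exact hy'
  have thr : (N.m - 1) * L.p'.h ≤ N.m * L.p'.h - μ := by
    have e1 : (N.m - 1) * L.p'.h = N.m * L.p'.h - L.p'.h := by ring
    rw [e1]
    linarith
  obtain ⟨h1, h2⟩ := pvtk3_main_A (Mk := L.Mk) (r' := N.m * L.p'.h) hT hS U tube E des mu0 thr hA sep R1 hy R2 hy2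
    (fun k hk => pvtk4_mesh hm _ hk (sub_A (Or.inl (tube k hk.le))))
    (fun k hk => pvtk4_mesh hm _ hk (sub_A (Or.inr (pvtk3_in_e hT hS U E R1 hy hk.le))))
    (fun k hk => pvtk4_mesh hm _ hk (sub_b (by rw [mem_ball, dist_eq_norm]; exact pvtk2_inn_near hT E.gate hk.le)))
    (fun k hk => pvtk4_mesh hm _ hk (sub_B (pvtk3_in_f hT hS U E R2 hy2 hk.le)))
  exact ⟨_, h1, fun w => by rw [pvtk4_val Fl.dr Fl.dr']; exact h2 w⟩

/-- **(K4) THE CLOSING AT `Tr/InstL` v2.1 / v2.2**, masks of the pin `L.p'.Mp`, `L.p'.Mm`: the thick link `L` (door `u` → pin `t`) and its return `L'` succeed at `η`, design, mesh ⟹ the value of `L` is the mass of ONE label in the deterministic mask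
`pvtk4M L N μ`, for every weight      (`= PvjkOne (pvieT η) (pvieCol η b) (pviePos η) (pvtk4M L N μ) (fun w => L.val N η w 𝔘 𝔗 y)` of 132, unfolded) -/
theorem pvtk4_one {L L' : PvilLk} {N : PvwNum} {μ : ℝ} {Em : Set ℂ} {b : Bool} {η : Conf PvPt} (Ds : Pvtk4Des L L' N μ Em) (hm : Pvtk4Mesh μ Em η)
    {𝔘 𝔗 𝔗' 𝔘' : PvwSt (pvieT η)} {y y' : (pvieT η).Pth} (e : L.Arc N b η 𝔘 𝔗 y) (c : L'.Arc N b η 𝔗' 𝔘' y') :
    ∃ g, (pvieT η).Tag (pvieCol η b) g ∧ ∀ w : (delbPl (pvieY η)).Dart → ℂ,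
      L.val N η w 𝔘 𝔗 y = (pvieT η).lsum (pvieCol η b) (fun d => (pvtk4M L N μ).indicator (1 : ℂ → ℂ) ((pvieT η).bary (pviePos η) d) * w d) g := by
  have hTi : PvilIn N b L.p' η 𝔗 := (PvilLk.atP'_pin Ds.dr' N b η 𝔗).1 e.at_p'
  have hTo : PvilOut N b L.p' η 𝔗' := by
    have := (PvilLk.atP_pin Ds.cdr N b η 𝔗').1 c.at_p
    rwa [Ds.hp] at this
  exact pvtk4_core Ds.fl Ds.mu0 Ds.mu_h Ds.des Subset.rfl Ds.sep Ds.sub_A Ds.sub_B Ds.sub_b hm e c hTo.mask hTi.mask hTo.mask_i hTi.mask_i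

/-- **the same for the plain value `L.X`** on the two plain success events: ONE tag for all the weights -/
theorem pvtk4_X {L L' : PvilLk} {N : PvwNum} {μ : ℝ} {Em : Set ℂ} {b : Bool} {η : Conf PvPt} (Ds : Pvtk4Des L L' N μ Em) (hm : Pvtk4Mesh μ Em η) (hA : η ∈ L.A N b) (hA' : η ∈ L'.A N b) :
    ∃ g, (pvieT η).Tag (pvieCol η b) g ∧ ∀ w : ∀ η : Conf PvPt, (delbPl (pvieY η)).Dart → ℂ,
      L.X N b w η = (pvieT η).lsum (pvieCol η b) (fun d => (pvtk4M L N μ).indicator (1 : ℂ → ℂ) ((pvieT η).bary (pviePos η) d) * w η d) g := by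
  have h' : ∃ (𝔖 𝔖' : PvwSt (pvieT η)) (y : (pvieT η).Pth), L.Arc N b η 𝔖 𝔖' y := hA
  obtain ⟨𝔗', 𝔘', y', c⟩ := hA'
  obtain ⟨g, hg, e⟩ := pvtk4_one Ds hm h'.choose_spec.choose_spec.choose_spec c
  refine ⟨g, hg, fun w => ?_⟩
  unfold PvilLk.X
  rw [dif_pos h']
  exact e (w η)

/-- the mesh of the tags from the mesh of the sites in a window (55) -/
theorem pvtk4_mesh_of {U Em : Set ℂ} {ρ μ : ℝ} {η : Conf PvPt} (hρ : 0 < ρ) (hμ : 4 * ρ / 3 ≤ μ) (hm : PvtrMesh ρ U (cfSites η)) (hE : Em ⊆ pvtrCore (3 * ρ) U) : Pvtk4Mesh μ Em η :=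
  pvme_mesh_all hρ hμ hm hE

end Claimed.Agent.R289
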