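-- KEEP
import Claimed.Agent.R289.Tr.ThickCl
import Claimed.Agent.R289.Tr.InstEKR
import Claimed.Agent.R289.Tr.InstLB

/-!
# Row 289 (S0537, Cardy for Poisson-Voronoi), THE WALL, ROAD E, field `thick`, (K4) `recog`, file Tr/ThickI : THE CLOSING AT THE MODEL, UNDER THE FAR GUARD      (helper290; ADV of 290 12:30Z / 55 12:33Z, ruling of 7 12:45Z (b)(c)(d); prefix `pvuy_`, `Pvuy`, `pvuy`)

WHY.   The masks `Mp(t) Mm(t)` of a type of the menu are ARBITRARY unions of small cells (only mutually separated): SEP against the rooms `eY fY` is FALSE on these sets.   What is true: the vertices of the arcs of the pin are FROZEN POSITIONS: in the closed own-level box, in the cells of the hull;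
`far_p far_m` live in the FULL state only, `recog` sees two HALF states at ANY pair of hulls.   CURE (7): a deterministic FAR GUARD on the two hulls, RESTRICTED masks, a mask of record which does not depend on the hulls.
OVER: `pvtk4_core` of 118 (`Tr/ThickCl`: closing at `Tr/InstL` v2.2, abstract masks at the states), `pvjk_recog_fin` of 132 (`Tr/InstEKR`: a.e. layer with a guard), `Tr/InstLB` of 38 (base data), `pvme_mesh_dart` of 55.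
* sec. 1  `pvuyTb pvuyZp pvuyZm` (tube and rooms of the door `L.p`), `pvuyA L Mm`, **`pvuyM L N μ Mm`** (THE MASK; `pvuy_M_meas`, `pvuy_M_sub`), **`PvuyS L L' N μ Mp Mm`** = THE SET LINES (`Pvtk4Des` of 118 with the masks of the pin as parameters, no mesh inclusion),
          **`pvuy_core`** : set lines + mesh `ρ` of two windows `We Wf` + rooms in the `3 ρ`-cores + [every frozen position of the entrance (exit) half state lies in the core of `We` (`Wf`), and in `Mm` (`Mp`) if it lies in the mask of record] ⟹ `PvjkCl` of 132.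
          MESH: `sub_b` of `pvtk4_core` (the whole core disc in the mesh region) is NOT producible inside a window (cells of the disc without sites are not in the hull): the mesh region is taken RELATIVE TO THE SITES, `Em := core We ∪ core Wf ∪ (sites)ᶜ`.
* sec. 2  AT THE MODEL: **`pvuyMp pvuyMm 𝔓 m z t r1`** (restricted masks), **`PvuyFi PvuyFo 𝔓 m z t r1 Z`** (far guards; `r1` free: `9 ρ h / 16` of 7, `ρ h / 2` of 55), `pvuyWe` (hull free part of the window of `e`), `pvuy_Fi_U pvuy_Fo_U`, **`pvuy_in pvuy_out`** (the frozen positions, hull prescribed + guard),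
          **`pvuy_cl`** : `PvjkCl (pvilLe ..) L' ..` at `η` from `{hull = Z}`, guards, the two mesh clauses;   **`pvuy_far_i pvuy_far_o`** : the guards HOLD at the hulls of a full state (`r1 + 2 δ < 3 ρ h / 4`) = what `pvjt_bd` needs.
* sec. 3  **`pvuy_recog`** : a.e., all the guarded hulls at once, `(pvilEe ..).X η = pvbeLab W (1_M) ..` on `(pvilEe ..).A ∩ pvilFin Zo (pvilSure ε (Wnf Zo) (Mf Zo))`: the body of `exit_pvjt_recog`.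
LEFT: a term of `PvuyS` + `ce cf` at the regions of record (55 `Exit/ThickS`, 182 166), Borel windows, [MEAS] (289 282).
-/

set_option autoImplicit false
set_option linter.unusedSectionVars false
set_option linter.unusedVariables false

namespace Claimed.Agent.R289

open Set Metric MeasureTheory

/-! ## 1. the set lines; the closing from facts on the FROZEN POSITIONS -/

/-- the tube of the door `L.p` -/
noncomputable def pvuyTb (L : PvilLk) : Set ℂ := pvkdAt L.p.z L.p.fr (pvkdP L.p.h).Tb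
/-- the room of `g⁺` of the door `L.p` -/
noncomputable def pvuyZp (L : PvilLk) : Set ℂ := pvkdAt L.p.z L.p.fr (pvkdP L.p.h).Zp
/-- the room of `g⁻` of the door `L.p` -/
noncomputable def pvuyZm (L : PvilLk) : Set ℂ := pvkdAt L.p.z L.p.fr (pvkdP L.p.h).Zm

/-- the vertex mask of the link, `Mm` = the RESTRICTED entrance mask of the pin -/
noncomputable def pvuyA (L : PvilLk) (Mm : Set ℂ) : Set ℂ := pvuyTb L ∪ (pvuyZp L ∪ L.Yin ∪ Mm)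

/-- **THE MASK OF THE THICK LINK**, `Mm` = the RESTRICTED entrance mask of the pin -/
noncomputable def pvuyM (L : PvilLk) (N : PvwNum) (μ : ℝ) (Mm : Set ℂ) : Set ℂ := pvtk3M L.Mk L.p'.z (N.m * L.p'.h) μ (pvuyA L Mm)

/-- **THE SET LINES OF THE CLOSING** (numbers and regions only): `Pvtk4Des` of 118 with the vertex masks `Mp Mm` of the pin as PARAMETERS (at the model: the restricted masks), without the mesh inclusions -/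
structure PvuyS (L L' : PvilLk) (N : PvwNum) (μ : ℝ) (Mp Mm : Set ℂ) : Prop where
  fl : Pvtk4Fl L L'
  mu0 : 0 < μ
  mu_h : μ ≤ L.p'.h
  des : Pvtk3Des (ball L.p.z (pvkdP L.p.h).b) (pvuyZm L) (pvuyZp L) L.p'.h L.p'.z L.p'.ty (pvwSq L.p'.z (pvwRad N L.p'.h L.p'.ty L.p'.ty.k)) Mp Mm L.Yin L'.Yin
  sep : ∀ b ∈ Mp ∪ L'.Yin ∪ pvuyZm L, (∀ a ∈ pvuyA L Mm, 3 * μ ≤ ‖a - b‖) ∨ closedBall b μ ⊆ L.Mkᶜ

theorem pvuy_eqns_cite : True := by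
  have := @pvuyTb.eq_1; have := @pvuyZp.eq_1; have := @pvuyZm.eq_1; have := @pvuyA.eq_1; have := @pvuyM.eq_1
  trivial

theorem pvuy_M_meas {L : PvilLk} (hM : MeasurableSet L.Mk) (N : PvwNum) (μ : ℝ) (Mm : Set ℂ) : MeasurableSet (pvuyM L N μ Mm) := pvtk3_M_meas hM _ _ _ _

theorem pvuy_M_sub {L : PvilLk} {N : PvwNum} {μ : ℝ} {Mm : Set ℂ} {c : ℂ} {R : ℝ} (h : ∀ a ∈ pvuyA L Mm, ‖a - c‖ + 2 * μ ≤ R) : pvuyM L N μ Mm ⊆ closedBall c R := pvtk3_M_sub h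

/-- the design of the ring is monotone in the vertex masks of the pin -/
theorem pvuy_des_mono {KO Km Kp : Set ℂ} {h : ℝ} {z : ℂ} {τ : PvwTy} {Bx Mp Mm Mp' Mm' Ye Yc : Set ℂ} (D : Pvtk3Des KO Km Kp h z τ Bx Mp' Mm' Ye Yc) (hp : Mp ⊆ Mp') (hm : Mm ⊆ Mm') :
    Pvtk3Des KO Km Kp h z τ Bx Mp Mm Ye Yc :=
  ⟨D.ko, D.ye, D.yc, D.bx, fun a ha b hb => D.sep a (ha.imp_right fun h => hm h) b (hb.imp_left fun h => h.imp_left fun h => hp h)⟩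

section core

variable {L L' : PvilLk} {N : PvwNum} {μ ρ : ℝ} {Mp Mm We Wf : Set ℂ} {b : Bool} {η : Conf PvPt}

/-- a vertex of the erased bank of a walk is a vertex of the walk -/
theorem pvuy_le_mem {V D : Type} {T : PvMap V D} {w : ℕ → V} {n : ℕ} {x : T.Pth} (h : PvwLE T w n x) {v : V} (hv : v ∈ x.verts) : ∃ i, i ≤ n ∧ w i = v := by
  obtain ⟨j, -, -, h1, -⟩ := h
  obtain ⟨k, hk, rfl⟩ := hv
  exact ⟨j k, (h1 k hk).1, (h1 k hk).2.1.symm⟩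

/-- **THE CLOSING FROM FACTS ON THE FROZEN POSITIONS**.      `We`, `Wf` = windows whose mesh `ρ` is known at `η`;   the rooms lie in the `3 ρ`-cores (`ce cf`);   every position frozen by the entrance (exit) half state of the pin lies in the `3 ρ`-core of `We` (`Wf`),
and in the restricted mask `Mm` (`Mp`) as soon as it lies in the mask of record of the pin (`hi ho`: at the model = hull prescribed + far guard + frozen sites in the own-level box) -/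
theorem pvuy_core (S : PvuyS L L' N μ Mp Mm) (hρ : 0 < ρ) (hμ : 4 * ρ / 3 ≤ μ) (me : PvtrMesh ρ We (cfSites η)) (mf : PvtrMesh ρ Wf (cfSites η))
    (ce : pvuyTb L ∪ (pvuyZp L ∪ L.Yin) ⊆ pvtrCore (3 * ρ) We) (cf : L'.Yin ∪ pvuyZm L ⊆ pvtrCore (3 * ρ) Wf)
    (hi : ∀ 𝔖 : PvwSt (pvieT η), PvilIn N b L.p' η 𝔖 → ∀ v ∈ 𝔖.fzIn, pviePos η v ∈ pvtrCore (3 * ρ) We ∧ (pviePos η v ∈ L.p'.Mm → pviePos η v ∈ Mm))
    (ho : ∀ 𝔖 : PvwSt (pvieT η), PvilOut N b L.p' η 𝔖 → ∀ v ∈ 𝔖.fzOut, pviePos η v ∈ pvtrCore (3 * ρ) Wf ∧ (pviePos η v ∈ L.p'.Mp → pviePos η v ∈ Mp)) :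
    PvjkCl L L' N b (pvuyM L N μ Mm) η := by
  intro 𝔘 𝔗 𝔗' 𝔘' y y' H
  have Fl := S.fl
  have hTi : PvilIn N b L.p' η 𝔗 := (PvilLk.atP'_pin Fl.dr' N b η 𝔗).1 H.e.at_p'
  have hTo : PvilOut N b L.p' η 𝔗' := by
    have := (PvilLk.atP_pin Fl.cdr N b η 𝔗').1 H.c.at_p
    rwa [Fl.hp] at this
  have hT := delb_plane_isSph hTi.good
  have gi : 𝔗.Gate (pviePos η) L.p'.h L.p'.z L.p'.ty (pvieCol η b) := by
    have := hTi.st.gate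
    rwa [pvtk4_pos Fl.fr, pvtk4_zf Fl.fr] at this
  have go : 𝔗'.Gate (pviePos η) L.p'.h L.p'.z L.p'.ty (pvieCol η b) := by
    have := hTo.st.gate
    rwa [pvtk4_pos Fl.fr, pvtk4_zf Fl.fr] at this
  -- the core sites are frozen
  have ci : ∀ v, ‖pviePos η v - L.p'.z‖ < L.p'.ty.b * L.p'.h → v ∈ 𝔗.fzIn := fun v hv => Or.inl (Or.inl (by
    show v ∈ 𝔗.dsc
    rw [gi.dsc_eq]; exact hv))
  have co : ∀ v, ‖pviePos η v - L.p'.z‖ < L.p'.ty.b * L.p'.h → v ∈ 𝔗'.fzOut := fun v hv => Or.inl (Or.inl (by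
    show v ∈ 𝔗'.dsc
    rw [go.dsc_eq]; exact hv))
  set Ce := pvtrCore (3 * ρ) We with hCe
  set Cf := pvtrCore (3 * ρ) Wf with hCf
  have hm : Pvtk4Mesh μ (Ce ∪ Cf ∪ (cfSites η)ᶜ) η := by
    rintro d ((hd | hd) | hd)
    · exact (pvme_mesh_dart hρ me d hd).trans hμ
    · exact (pvme_mesh_dart hρ mf d hd).trans hμ
    · exact absurd ((pvieT η).tgt d).2 hd
  refine pvtk4_core (Mp := Mp ∩ Cf) (Mm := Mm ∩ Ce) (A := pvuyA L Mm) (Em := Ce ∪ Cf ∪ (cfSites η)ᶜ) Fl S.mu0 S.mu_h (pvuy_des_mono S.des inter_subset_left inter_subset_left) ?_ ?_ ?_ ?_ ?_ hm H.e H.c ?_ ?_ ?_ ?_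
  · exact union_subset_union_right _ (union_subset_union_right _ inter_subset_left)
  · exact fun x hx => S.sep x (hx.imp_left fun h => h.imp_left fun h => h.1)
  · rintro x (hx | (hx | hx) | hx)
    · exact Or.inl (Or.inl (ce (Or.inl hx)))
    · exact Or.inl (Or.inl (ce (Or.inr (Or.inl hx))))
    · exact Or.inl (Or.inl (ce (Or.inr (Or.inr hx))))
    · exact Or.inl (Or.inl hx.2)
  · rintro x ((hx | hx) | hx)
    · exact Or.inl (Or.inr hx.2)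
    · exact Or.inl (Or.inr (cf (Or.inl hx)))
    · exact Or.inl (Or.inr (cf (Or.inr hx)))
  · intro x hx
    by_cases hs : x ∈ cfSites η
    · rw [mem_ball, dist_eq_norm] at hx
      exact Or.inl (Or.inl (hi 𝔗 hTi ⟨x, hs⟩ (ci ⟨x, hs⟩ hx)).1)
    · exact Or.inr hs
  · intro x hx v hv
    obtain ⟨i, hi', rfl⟩ := pvuy_le_mem hx hv
    have h1 := ho 𝔗' hTo _ (Or.inl (Or.inr ⟨i, hi', rfl⟩))
    exact ⟨h1.2 (hTo.mask x hx _ hv), h1.1⟩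
  · intro x hx v hv
    obtain ⟨i, hi', rfl⟩ := pvuy_le_mem hx hv
    have h1 := hi 𝔗 hTi _ (Or.inl (Or.inr ⟨i, hi', rfl⟩))
    exact ⟨h1.2 (hTi.mask x hx _ hv), h1.1⟩
  · intro i h1 h2 h3
    have h4 := ho 𝔗' hTo _ (co _ (pvtk2_inn_near hT go h2))
    exact ⟨h4.2 (hTo.mask_i i h1 h2 h3), h4.1⟩
  · intro i h1 h3
    have h4 := hi 𝔗 hTi _ (ci _ (pvtk2_inn_near hT gi (h1.trans gi.ip_le)))
    exact ⟨h4.2 (hTi.mask_i i h1 h3), h4.1⟩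

end core

/-! ## 2. at the model: restricted masks, far guard, frozen positions -/

section model

variable {τ : Type} {c : ℝ} (𝔓 : PvxPar τ c) (𝔈 : PvieEng τ)

/-- **THE RESTRICTED EXIT MASK** of the candidate `(z,t)`: the mask of record, in the closed own-level box, off the ball `closedBall y⁻ r1` round the grid centre of the ENTRANCE tip cell -/
noncomputable def pvuyMp (m : ℕ) (z : ℂ) (t : τ) (r1 : ℝ) : Set ℂ := ((pvilPin 𝔓 m z t).Mp ∩ pvwSq z (pviwRad 𝔓 m t)) \ closedBall ((𝔓.ty t).cm (pvlmH m) z) r1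

/-- **THE RESTRICTED ENTRANCE MASK**: the mask of record, in the closed own-level box, off the ball `closedBall y⁺ r1` round the grid centre of the EXIT tip cell -/
noncomputable def pvuyMm (m : ℕ) (z : ℂ) (t : τ) (r1 : ℝ) : Set ℂ := ((pvilPin 𝔓 m z t).Mm ∩ pvwSq z (pviwRad 𝔓 m t)) \ closedBall ((𝔓.ty t).cp (pvlmH m) z) r1

/-- **FAR GUARD, entrance hull**: the cells of `Z_in` miss the ball round the EXIT centre `y⁺` -/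
def PvuyFi (m : ℕ) (z : ℂ) (t : τ) (r1 : ℝ) (Z : Set (ℤ × ℤ)) : Prop := Disjoint (pvtU (pvlmDel c m) Z) (closedBall ((𝔓.ty t).cp (pvlmH m) z) r1)

/-- **FAR GUARD, exit hull**: the cells of `Z_out` miss the ball round the ENTRANCE centre `y⁻` -/
def PvuyFo (m : ℕ) (z : ℂ) (t : τ) (r1 : ℝ) (Z : Set (ℤ × ℤ)) : Prop := Disjoint (pvtU (pvlmDel c m) Z) (closedBall ((𝔓.ty t).cm (pvlmH m) z) r1)

/-- the hull free part of the window of the thick link: mouth, tile, region of the reference plug -/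
def pvuyWe (m : ℕ) (z : ℂ) (t : τ) : Set ℂ := pvieSh z (𝔈.eM m t) ∪ pvieSh z (𝔈.eK m t) ∪ pvieSh (pvieZu 𝔓 m z t) (𝔈.rO m)

theorem pvuy_eqns_cite2 : True := by
  have := @pvuyMp.eq_1; have := @pvuyMm.eq_1; have := @PvuyFi.eq_1; have := @PvuyFo.eq_1; have := @pvuyWe.eq_1
  trivial

variable {𝔓 𝔈} {m : ℕ} {z : ℂ} {t : τ} {r1 ρ : ℝ} {η : Conf PvPt}

theorem pvuy_We_sub (Z : Set (ℤ × ℤ)) : pvuyWe 𝔓 𝔈 m z t ⊆ pvilWne 𝔓 𝔈 m z t Z := by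
  rintro x ((hx | hx) | hx)
  · exact Or.inl (Or.inl (Or.inr hx))
  · exact Or.inl (Or.inr hx)
  · exact Or.inr hx

/-- the frozen positions lie in the cells of the hull -/
theorem pvuy_Fi_U (hδ : 0 < pvlmDel c m) : pvilFi 𝔓 m z t η ⊆ pvtU (pvlmDel c m) (pvilZi 𝔓 m z t η) := by
  intro v hv
  have h : η ∈ pvilUi 𝔓.num (𝔓.col t) (𝔓.pl m z t).std := by
    obtain ⟨𝔖, h𝔖, _⟩ := hv
    exact ⟨𝔖, h𝔖⟩
  have e : pvilZi 𝔓 m z t η = _ := pvza_HuI_F (q := 𝔓.pl m z t) h (pvlmDel c m) (𝔓.num.rho * pvlmH m)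
  rw [e]
  exact pvt_cells_cover hδ (Or.inl hv)

theorem pvuy_Fo_U (hδ : 0 < pvlmDel c m) : pvilFo 𝔓 m z t η ⊆ pvtU (pvlmDel c m) (pvilZo 𝔓 m z t η) := by
  intro v hv
  have h : η ∈ pvilUo 𝔓.num (𝔓.col t) (𝔓.pl m z t).std := by
    obtain ⟨𝔖, h𝔖, _⟩ := hv
    exact ⟨𝔖, h𝔖⟩
  have e : pvilZo 𝔓 m z t η = _ := pvza_HuO_F (q := 𝔓.pl m z t) h (pvlmDel c m) (𝔓.num.rho * pvlmH m)
  rw [e]
  exact pvt_cells_cover hδ (Or.inl hv)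

/-- **THE POSITIONS FROZEN BY THE ENTRANCE HALF STATE**, hull prescribed, far guard: in the core of every window which contains `pvilWz Z`, in the restricted mask as soon as in the mask of record -/
theorem pvuy_in (hb : (𝔓.ty t).b * pvlmH m ≤ pviwRad 𝔓 m t) (hδ : 0 < pvlmDel c m) (h3 : 3 * ρ ≤ pvlmDel c m) {Z : Set (ℤ × ℤ)} (hZ : pvilZi 𝔓 m z t η = Z) (hF : PvuyFi 𝔓 m z t r1 Z)
    {We : Set ℂ} (hW : pvilWz 𝔓 m z t Z ⊆ We) (𝔖 : PvwSt (pvieT η)) (h : PvilIn 𝔓.num (𝔓.col t) (pvilPin 𝔓 m z t) η 𝔖) (v : ↥(pvieY η)) (hv : v ∈ 𝔖.fzIn) :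
    pviePos η v ∈ pvtrCore (3 * ρ) We ∧ (pviePos η v ∈ (pvilPin 𝔓 m z t).Mm → pviePos η v ∈ pvuyMm 𝔓 m z t r1) := by
  have hv' : pviePos η v ∈ pvilFi 𝔓 m z t η := ⟨𝔖, h, v, hv, rfl⟩
  refine ⟨?_, fun hM => ⟨⟨hM, pvza_Fi_sq hb z η hv'⟩, fun hc => ?_⟩⟩
  · have := pvza_ballI_Wz hb hδ hv'
    rw [hZ] at this
    exact ((closedBall_subset_closedBall h3).trans this).trans hW
  · have := pvuy_Fi_U hδ hv'
    rw [hZ] at this
    exact Set.disjoint_left.1 hF this hc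

/-- **THE POSITIONS FROZEN BY THE EXIT HALF STATE** -/
theorem pvuy_out (hb : (𝔓.ty t).b * pvlmH m ≤ pviwRad 𝔓 m t) (hδ : 0 < pvlmDel c m) (h3 : 3 * ρ ≤ pvlmDel c m) {Z : Set (ℤ × ℤ)} (hZ : pvilZo 𝔓 m z t η = Z) (hF : PvuyFo 𝔓 m z t r1 Z)
    {Wf : Set ℂ} (hW : pvilWz 𝔓 m z t Z ⊆ Wf) (𝔖 : PvwSt (pvieT η)) (h : PvilOut 𝔓.num (𝔓.col t) (pvilPin 𝔓 m z t) η 𝔖) (v : ↥(pvieY η)) (hv : v ∈ 𝔖.fzOut) :
    pviePos η v ∈ pvtrCore (3 * ρ) Wf ∧ (pviePos η v ∈ (pvilPin 𝔓 m z t).Mp → pviePos η v ∈ pvuyMp 𝔓 m z t r1) := by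
  have hv' : pviePos η v ∈ pvilFo 𝔓 m z t η := ⟨𝔖, h, v, hv, rfl⟩
  refine ⟨?_, fun hM => ⟨⟨hM, pvza_Fo_sq hb z η hv'⟩, fun hc => ?_⟩⟩
  · have := pvza_ballO_Wz hb hδ hv'
    rw [hZ] at this
    exact ((closedBall_subset_closedBall h3).trans this).trans hW
  · have := pvuy_Fo_U hδ hv'
    rw [hZ] at this
    exact Set.disjoint_left.1 hF this hc

theorem pvuy_mu_le (𝔓 : PvxPar τ c) (m : ℕ) (hδ : 0 < pvlmDel c m) : 3 * pvilMu 𝔓 m ≤ pvlmDel c m := by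
  unfold pvilMu
  have := min_le_left (pvlmDel c m) (𝔓.num.rho3 * pvlmH m)
  linarith

theorem pvuy_mu_pos (𝔓 : PvxPar τ c) (m : ℕ) (hδ : 0 < pvlmDel c m) (h3 : 0 < 𝔓.num.rho3) : 0 < pvilMu 𝔓 m := by
  unfold pvilMu
  exact div_pos (lt_min hδ (mul_pos h3 (pvlm_H_pos m))) (by norm_num)

/-- **(K4) THE CLOSING AT THE MODEL**: thick link of record `pvilLe`, ANY return `L'` (`pvjtLf` of 223), hulls prescribed, far guards, mesh `pvilMu` of the window of record `pvilWne .. Zi` and of ANY window `Wf ⊇ pvilWz .. Zo` of the return.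
`S` = the set lines at the restricted masks, `ce cf` = the rooms lie in the `3 μ₀`-cores of the hull free parts of the windows. -/
theorem pvuy_cl {L' : PvilLk} {μ : ℝ} (S : PvuyS (pvilLe 𝔓 𝔈 m z t) L' 𝔓.num μ (pvuyMp 𝔓 m z t r1) (pvuyMm 𝔓 m z t r1))
    (hb : (𝔓.ty t).b * pvlmH m ≤ pviwRad 𝔓 m t) (hδ : 0 < pvlmDel c m) (h3 : 0 < 𝔓.num.rho3) (hμ : 4 * pvilMu 𝔓 m / 3 ≤ μ) {Zi Zo : Set (ℤ × ℤ)} {Wf : Set ℂ} (hWf : pvilWz 𝔓 m z t Zo ⊆ Wf)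
    (ce : pvuyTb (pvilLe 𝔓 𝔈 m z t) ∪ (pvuyZp (pvilLe 𝔓 𝔈 m z t) ∪ pvieSh z (𝔈.eY m t)) ⊆ pvtrCore (3 * pvilMu 𝔓 m) (pvuyWe 𝔓 𝔈 m z t))
    (cf : L'.Yin ∪ pvuyZm (pvilLe 𝔓 𝔈 m z t) ⊆ pvtrCore (3 * pvilMu 𝔓 m) Wf)
    (Fi : PvuyFi 𝔓 m z t r1 Zi) (Fo : PvuyFo 𝔓 m z t r1 Zo) (hZi : pvilZi 𝔓 m z t η = Zi) (hZo : pvilZo 𝔓 m z t η = Zo)
    (me : η ∈ pvilMs 𝔓 m (pvilWne 𝔓 𝔈 m z t Zi)) (mf : η ∈ pvilMs 𝔓 m Wf) :
    PvjkCl (pvilLe 𝔓 𝔈 m z t) L' 𝔓.num (𝔓.col t) (pvuyM (pvilLe 𝔓 𝔈 m z t) 𝔓.num μ (pvuyMm 𝔓 m z t r1)) η :=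
  pvuy_core S (pvuy_mu_pos 𝔓 m hδ h3) hμ me mf (ce.trans (pvtr_core_mono (pvuy_We_sub Zi))) cf
    (pvuy_in hb hδ (pvuy_mu_le 𝔓 m hδ) hZi Fi (subset_union_left.trans (subset_union_left.trans subset_union_left)))
    (pvuy_out hb hδ (pvuy_mu_le 𝔓 m hδ) hZo Fo hWf)

/-- the two grid centres of the tip cells, placed -/
theorem pvuy_cen (𝔓 : PvxPar τ c) (m : ℕ) (z : ℂ) (t : τ) : ‖(𝔓.ty t).cp (pvlmH m) z - (𝔓.ty t).cm (pvlmH m) z‖ = pvlmH m * ‖(𝔓.ty t).yp - (𝔓.ty t).ym‖ := by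
  unfold PvwTy.cp PvwTy.cm
  have e : z + (pvlmH m : ℂ) * (𝔓.ty t).yp - (z + (pvlmH m : ℂ) * (𝔓.ty t).ym) = (pvlmH m : ℂ) * ((𝔓.ty t).yp - (𝔓.ty t).ym) := by ring
  rw [e, norm_mul, Complex.norm_real, Real.norm_of_nonneg (pvlm_H_pos m).le]

/-- **THE FAR GUARD HOLDS AT THE BASE DATA OF A FULL STATE, entrance hull**      (`far_p`: frozen positions `2 ρ h` away from `y⁺`;   mouth ball `closedBall y⁻ (ρ h)` of the hull of record: `7 ρ / 4 ≤ |y⁺ - y⁻|`) -/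
theorem pvuy_far_i (hy : 7 * 𝔓.num.rho / 4 ≤ ‖(𝔓.ty t).yp - (𝔓.ty t).ym‖) (hρ : 0 ≤ 𝔓.num.rho) (hr : r1 + 2 * pvlmDel c m < 3 * 𝔓.num.rho * pvlmH m / 4)
    (hU : η ∈ pvilU 𝔓.num (𝔓.col t) (pvilPin 𝔓 m z t)) : PvuyFi 𝔓 m z t r1 (pvilZi 𝔓 m z t η) := by
  obtain ⟨𝔖, h⟩ := hU
  have e : pvilZi 𝔓 m z t η = _ := pvza_HuI_F (q := 𝔓.pl m z t) ⟨𝔖, h.inn⟩ (pvlmDel c m) (𝔓.num.rho * pvlmH m)
  have hh := pvlm_H_pos m
  refine Set.disjoint_left.2 fun x hx hc => ?_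
  rw [e] at hx
  rw [mem_closedBall, dist_eq_norm] at hc
  obtain ⟨q, hq, hxq⟩ := pvt_cells_near hx
  have tri : ‖q - (𝔓.ty t).cp (pvlmH m) z‖ ≤ ‖x - q‖ + ‖x - (𝔓.ty t).cp (pvlmH m) z‖ := by
    have e1 : q - (𝔓.ty t).cp (pvlmH m) z = (x - (𝔓.ty t).cp (pvlmH m) z) - (x - q) := by ring
    rw [e1]
    exact (norm_sub_le _ _).trans (by rw [add_comm])
  have hρh : 0 ≤ 𝔓.num.rho * pvlmH m := mul_nonneg hρ hh.le
  rcases hq with hq | hq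
  · rw [pvza_FzI_eq (q := 𝔓.pl m z t) h.inn] at hq
    obtain ⟨u, hu, rfl⟩ := hq
    have h4 := h.far_p u hu
    rw [pvtk4_pos (p := pvilPin 𝔓 m z t) rfl, pvtk4_zf (p := pvilPin 𝔓 m z t) rfl] at h4
    have h5 : 2 * 𝔓.num.rho * pvlmH m < ‖pviePos η u - (𝔓.ty t).cp (pvlmH m) z‖ := h4
    nlinarith
  · have hq' : ‖q - (𝔓.ty t).cm (pvlmH m) z‖ ≤ 𝔓.num.rho * pvlmH m := by
      rw [mem_closedBall, dist_eq_norm] at hq
      exact hq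
    have h6 := pvuy_cen 𝔓 m z t
    have h7 : ‖(𝔓.ty t).cp (pvlmH m) z - (𝔓.ty t).cm (pvlmH m) z‖ ≤ ‖q - (𝔓.ty t).cm (pvlmH m) z‖ + ‖q - (𝔓.ty t).cp (pvlmH m) z‖ := by
      have e1 : (𝔓.ty t).cp (pvlmH m) z - (𝔓.ty t).cm (pvlmH m) z = (q - (𝔓.ty t).cm (pvlmH m) z) - (q - (𝔓.ty t).cp (pvlmH m) z) := by ring
      rw [e1]
      exact norm_sub_le _ _
    have h8 := mul_le_mul_of_nonneg_left hy hh.le
    nlinarith

/-- **THE FAR GUARD HOLDS AT THE BASE DATA OF A FULL STATE, exit hull** -/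
theorem pvuy_far_o (hy : 7 * 𝔓.num.rho / 4 ≤ ‖(𝔓.ty t).yp - (𝔓.ty t).ym‖) (hρ : 0 ≤ 𝔓.num.rho) (hr : r1 + 2 * pvlmDel c m < 3 * 𝔓.num.rho * pvlmH m / 4)
    (hU : η ∈ pvilU 𝔓.num (𝔓.col t) (pvilPin 𝔓 m z t)) : PvuyFo 𝔓 m z t r1 (pvilZo 𝔓 m z t η) := by
  obtain ⟨𝔖, h⟩ := hU
  have e : pvilZo 𝔓 m z t η = _ := pvza_HuO_F (q := 𝔓.pl m z t) ⟨𝔖, h.out⟩ (pvlmDel c m) (𝔓.num.rho * pvlmH m)
  have hh := pvlm_H_pos m
  refine Set.disjoint_left.2 fun x hx hc => ?_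
  rw [e] at hx
  rw [mem_closedBall, dist_eq_norm] at hc
  obtain ⟨q, hq, hxq⟩ := pvt_cells_near hx
  have tri : ‖q - (𝔓.ty t).cm (pvlmH m) z‖ ≤ ‖x - q‖ + ‖x - (𝔓.ty t).cm (pvlmH m) z‖ := by
    have e1 : q - (𝔓.ty t).cm (pvlmH m) z = (x - (𝔓.ty t).cm (pvlmH m) z) - (x - q) := by ring
    rw [e1]
    exact (norm_sub_le _ _).trans (by rw [add_comm])
  have hρh : 0 ≤ 𝔓.num.rho * pvlmH m := mul_nonneg hρ hh.le
  rcases hq with hq | hq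
  · rw [pvza_FzO_eq (q := 𝔓.pl m z t) h.out] at hq
    obtain ⟨u, hu, rfl⟩ := hq
    have h4 := h.far_m u hu
    rw [pvtk4_pos (p := pvilPin 𝔓 m z t) rfl, pvtk4_zf (p := pvilPin 𝔓 m z t) rfl] at h4
    have h5 : 2 * 𝔓.num.rho * pvlmH m < ‖pviePos η u - (𝔓.ty t).cm (pvlmH m) z‖ := h4
    nlinarith
  · have hq' : ‖q - (𝔓.ty t).cp (pvlmH m) z‖ ≤ 𝔓.num.rho * pvlmH m := by
      rw [mem_closedBall, dist_eq_norm] at hq
      exact hq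
    have h6 := pvuy_cen 𝔓 m z t
    have h7 : ‖(𝔓.ty t).cp (pvlmH m) z - (𝔓.ty t).cm (pvlmH m) z‖ ≤ ‖q - (𝔓.ty t).cp (pvlmH m) z‖ + ‖q - (𝔓.ty t).cm (pvlmH m) z‖ := by
      have e1 : (𝔓.ty t).cp (pvlmH m) z - (𝔓.ty t).cm (pvlmH m) z = (q - (𝔓.ty t).cm (pvlmH m) z) - (q - (𝔓.ty t).cp (pvlmH m) z) := by ring
      rw [e1]
      exact (norm_sub_le _ _).trans (by rw [add_comm])
    have h8 := mul_le_mul_of_nonneg_left hy hh.le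
    nlinarith

end model

/-! ## 3. the a.e. layer at the model (`pvjk_recog_fin` of 132 at the far guard) -/

section ae

variable {τ : Type} {c : ℝ} {𝔓 : PvxPar τ c} {𝔈 : PvieEng τ} {m : ℕ} {z : ℂ} {t : τ} {r1 ε : ℝ}

theorem Pvtk4Fl.ret {L L' : PvilLk} (F : Pvtk4Fl L L') (hfr : L.p.fr ≠ 0) : PvjkRet L L' :=
  ⟨F.hp, F.hp', F.cdr.trans F.dr'.symm, F.cdr'.trans F.dr.symm, hfr, by rw [F.fr]; exact one_ne_zero⟩

/-- **(K4) RECOGNITION AT THE MODEL, ALL THE GUARDED HULLS AT ONCE**.      Link = the end of record `pvilEe` (any `F`);   return = ANY link `L'` (`Pvtk4Fl`), window `Wnf Z ⊇ pvilWz Z`, plain event `Mf Z ⊆` success `∩ {hull of Σ_out = Z} ∩` mesh of `Wnf Z`, soft event `pvilFin Z (pvilSure ..)`.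
LEFT: the set lines `S ce cf` (regions), Borel windows, [MEAS] `nE nF`. -/
theorem pvuy_recog (hε : 0 < ε) {L' : PvilLk} {μ : ℝ} (S : PvuyS (pvilLe 𝔓 𝔈 m z t) L' 𝔓.num μ (pvuyMp 𝔓 m z t r1) (pvuyMm 𝔓 m z t r1))
    (hb : (𝔓.ty t).b * pvlmH m ≤ pviwRad 𝔓 m t) (hδ : 0 < pvlmDel c m) (h3 : 0 < 𝔓.num.rho3) (hμ : 4 * pvilMu 𝔓 m / 3 ≤ μ)
    {W : Set ℂ → ℂ × ℂ → ℂ} {w : ∀ η : Conf PvPt, (delbPl (pvieY η)).Dart → ℂ} (hWt : PvjkWt W w) {Wnf : Set (ℤ × ℤ) → Set ℂ} {Mf : Set (ℤ × ℤ) → Set (Conf PvPt)}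
    (hWz : ∀ Z, pvilWz 𝔓 m z t Z ⊆ Wnf Z)
    (ce : pvuyTb (pvilLe 𝔓 𝔈 m z t) ∪ (pvuyZp (pvilLe 𝔓 𝔈 m z t) ∪ pvieSh z (𝔈.eY m t)) ⊆ pvtrCore (3 * pvilMu 𝔓 m) (pvuyWe 𝔓 𝔈 m z t))
    (cf : ∀ Z, L'.Yin ∪ pvuyZm (pvilLe 𝔓 𝔈 m z t) ⊆ pvtrCore (3 * pvilMu 𝔓 m) (Wnf Z))
    (mWe : ∀ Z : Set (ℤ × ℤ), Z.Finite → MeasurableSet (pvilWne 𝔓 𝔈 m z t Z)) (mWf : ∀ Z : Set (ℤ × ℤ), Z.Finite → MeasurableSet (Wnf Z))
    (hMf : ∀ Z, Mf Z ⊆ L'.A 𝔓.num (𝔓.col t) ∩ {η | pvilZo 𝔓 m z t η = Z} ∩ pvilMs 𝔓 m (Wnf Z))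
    (nE : ∀ Z : Set (ℤ × ℤ), Z.Finite → NullMeasurableSet (pvilMe 𝔓 𝔈 m z t Z ∩ {η | (pvilLe 𝔓 𝔈 m z t).X 𝔓.num (𝔓.col t) w η =
      pvilLoc ε (pvilWne 𝔓 𝔈 m z t Z) (pvilMe 𝔓 𝔈 m z t Z) ((pvilLe 𝔓 𝔈 m z t).X 𝔓.num (𝔓.col t) w) η}) (pvP ε))
    (nF : ∀ Z : Set (ℤ × ℤ), Z.Finite → NullMeasurableSet (Mf Z) (pvP ε)) :
    ∀ᵐ η ∂pvP ε, ∀ (Zi Zo : Set (ℤ × ℤ)) (F : Set ℂ), PvuyFi 𝔓 m z t r1 Zi → PvuyFo 𝔓 m z t r1 Zo → η ∈ (pvilEe 𝔓 𝔈 m ε w z t Zi F).A → η ∈ pvilFin Zo (pvilSure ε (Wnf Zo) (Mf Zo)) →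
      ∃ x, pvbeTag (pvktFl (𝔓.col t) η) x ∧
        (pvilEe 𝔓 𝔈 m ε w z t Zi F).X η = pvbeLab W ((pvuyM (pvilLe 𝔓 𝔈 m z t) 𝔓.num μ (pvuyMm 𝔓 m z t r1)).indicator 1) (pvktFl (𝔓.col t) η) x := by
  have key := pvjk_recog_fin hε (S.fl.ret (L := pvilLe 𝔓 𝔈 m z t) one_ne_zero) hWt (M := pvuyM (pvilLe 𝔓 𝔈 m z t) 𝔓.num μ (pvuyMm 𝔓 m z t r1))
    (Wn := pvilWne 𝔓 𝔈 m z t) (Wn' := Wnf) (Me := pvilMe 𝔓 𝔈 m z t) (Mf := Mf) (fun Zi Zo => PvuyFi 𝔓 m z t r1 Zi ∧ PvuyFo 𝔓 m z t r1 Zo) mWe mWf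
    (fun Z η h => h.1.1) (fun Z η h => (hMf Z h).1.1)
    (fun Zi Zo _ _ hG => Filter.Eventually.of_forall fun η a a' =>
      pvuy_cl S hb hδ h3 hμ (hWz Zo) ce (cf Zo) hG.1 hG.2 a.1.2 (hMf Zo a').1.2 a.2 (hMf Zo a').2) nE nF
  filter_upwards [key] with η h Zi Zo F h1 h2 a a'
  exact h Zi Zo ⟨h1, h2⟩ a a'

end ae

end Claimed.Agent.R289
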