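-- KEEP
import Claimed.Agent.R289.Tr.ThickC2
import Claimed.Agent.R289.Tr.PlugLoc
import Claimed.Agent.R289.Tr.PlugK

/-!
# Row 289 (S0537, Cardy for Poisson-Voronoi), THE WALL, ROAD E, field `thick`, (K4) = `recog`, file Tr/ThickRec : THE DOOR FORM OF THE CLOSING, DETERMINISTIC      (helper288, post of 82 11:54Z, split of 132 12:05Z; prefix `pvud_`, `Pvud`, `pvud`)      0 sorry

WHY.   RULING 20 (2) of 234: in `Tr/InstL` v2.1 the end `u` of the thick link `e : u → t` and of the thick return `f : t → u` is a DOOR (state of shape `pvkdSt` of 34: gate `g : T.Gate s` of 260, `np = nm = 0`, `ip = 0`, no mark, no cut-off ball, `dr = true`), CUT IN SPACE by `Mk`.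
So   `PvilLk.val = Mass(msk; inn(u), 0..n) + Mass(msk; y) + Mass(msk; inn(t), 0..ip(t))`,   `msk = Mk \ closedBall z' r'`.      `pvme_exact` (55), `pvtk2_main` (118) are for TWO MARKED ends: they do not apply.      THIS FILE = the same chain with ONE door end.
MODEL FREE: one plane map `T`, one colouring `s`, one INJECTIVE position map `pos`.      `t` = `Pvtk2End` of 118 VERBATIM;   the runs = `Pvtk2Run` of 118 VERBATIM (`= PvilLk.Run` by `Iff.rfl`).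
* sec. 1  **`pvudM Mk z' r' μ A := (Mk ∩ thickening (2 μ) A) \ closedBall z' r'`**, Borel (`pvud_M_meas`), bounded (`pvud_M_sub`);   `PvudEx`, **`pvud_exact`** (the three masses of `val` = the masses in `M` of ALL the four pieces).
          SEP in the form: a point of `B` is `3 μ` away from `A` OR lies `μ`-deep behind the cut (`closedBall b μ ⊆ Mkᶜ`).      NO far clause, NO tube: the tags of `inn(u)`, `y` are always in the thickening, so `∈ M ↔ ∈ msk`.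
* sec. 2  **`PvudEnd T s pos 𝔖 g z b Zm Zp`** = the door end;   PRODUCERS **`pvud_end_of_gt`** (from `PvzlGt` of 173 at `mk := pos`, any colouring), `pvud_end_door` (at `PvkdGate`, `pvkdSt` of 34);   the inner arc `pvud_inn_v0 _vn _ins _black _near _bd _pos`;
          the EMPTY stubs are stubs (`pvud_stp`, `pvud_stm`: so `pvtk2_kind`, `pvtk2_arc_verts` of 118 are CITED, not retyped), `pvud_mask_p`, `pvud_mask_m`
* sec. 3  a strand and a gate of 260: **`pvud_off_out`**, **`pvud_off_in`** (`pvtg_out_iff`, `pvtg_in_iff`).      [At a door the rooms `Ye`, `Yc` MEET the disc `B(z, b)` (no stub): "the run does not return into the gate" is NOT a region fact, it is proved here.]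
* sec. 4  **`PvudDes`** = THE DESIGN CLAUSES (numbers and regions only);   `pvud_in_e`, `pvud_in_c`, **`pvud_off_e`**, **`pvud_off_c`**;   the six pairs of pieces: `pvud_ne_out _ne_in _ne_inn _ne_out' _ne_in' _ne_arc`
* sec. 5  `pvud_ex`, `pvud_chain`, `pvud_nodup`, `pvud_onwall`, **`pvud_ring`** (tag, FULL label class, `lsum w = Σ` of the four `psum`), **`pvud_main`** = `PvjkOne` of 132 (`Tr/InstEKR`) for `val` at `dr = true`, `dr' = false`,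
          mask `pvudM Mk z' r' μ (ball z b ∪ (Zp ∪ Ye ∪ Mm'))`;   **`pvud_main_of`** : ANY larger vertex mask `A₀` with SEP (`PvudEx.mono`).
DESIGN AT THE PLUG OF RECORD `pvkdP r` (frame `d = 1`): `b = 2 r`, `Zp` : `x ≥ r/2`, `Zm` : `x ≤ - r/2`;   `Ye` near `u` = East lanes (`x ≥ r/2`), `Yc` near `u` = West lanes (`x ≤ - r/2`): `sep` holds with `3 μ ≤ r`;
`west` : `Mkᶜ = (zu + rO) \ Hp(zu, 1)` contains the `μ`-neighbourhood of `Yc ∪ Zm` near the disc as soon as `μ < r/2` and `rO ⊇ B(0, 2 r + 4 μ)`.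
-/

set_option autoImplicit false
set_option linter.unusedSectionVars false
set_option linter.unusedVariables false

namespace Claimed.Agent.R289

open Set Metric

variable {V D : Type} {T : PvMap V D} {s : V → Bool} {pos : V → ℂ}

/-! ## 1. the mask of a link which leaves a door; mask exactness -/

/-- **THE MASK OF THE LINK `u → t`, `u` A DOOR CUT IN SPACE BY `Mk`, `t` MARKED**: the part of `Mk` within `2 μ` of the vertex mask `A`, off the cut-off disc of `t` -/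
def pvudM (Mk : Set ℂ) (z' : ℂ) (r' μ : ℝ) (A : Set ℂ) : Set ℂ := (Mk ∩ thickening (2 * μ) A) \ closedBall z' r'

theorem pvud_eqns_cite : True := by
  have := @pvudM.eq_1
  trivial

theorem pvud_M_meas {Mk : Set ℂ} (hMk : MeasurableSet Mk) (z' : ℂ) (r' μ : ℝ) (A : Set ℂ) : MeasurableSet (pvudM Mk z' r' μ A) :=
  (hMk.inter isOpen_thickening.measurableSet).diff isClosed_closedBall.measurableSet

/-- the mask lies in a ball -/
theorem pvud_M_sub {Mk : Set ℂ} {z' : ℂ} {r' μ : ℝ} {A : Set ℂ} {c : ℂ} {R : ℝ} (h2 : ∀ a ∈ A, ‖a - c‖ + 2 * μ ≤ R) : pvudM Mk z' r' μ A ⊆ closedBall c R := by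
  rintro x ⟨⟨-, hx⟩, -⟩
  obtain ⟨a, ha, hxa⟩ := mem_thickening_iff.1 hx
  rw [mem_closedBall, dist_eq_norm]
  have h3 : ‖x - c‖ ≤ ‖x - a‖ + ‖a - c‖ := by
    have := norm_add_le (x - a) (a - c)
    rwa [sub_add_sub_cancel] at this
  rw [dist_eq_norm] at hxa
  linarith [h2 a ha]

/-- **THE HYPOTHESES OF MASK EXACTNESS, DOOR FORM**, for the ring `inn(u) . y . inn(t) . y'`: `Mk` = the cut in space of the door `u`, `(z', r')` = the cut-off disc of `t`, `μ` = mesh of the tags,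
`A` = vertex mask of the link (WITH the disc of the door), `B` = vertex mask of the return;   SEP: a point of `B` is `3 μ` away from `A` OR lies `μ`-deep behind the cut -/
structure PvudEx (T : PvMap V D) (pos : V → ℂ) (𝔖 𝔖' : PvwSt T) (y y' : T.Pth) (Mk : Set ℂ) (z' : ℂ) (r' μ : ℝ) (A B : Set ℂ) : Prop where
  mu0 : 0 < μ
  mesh_i : ∀ k, k < 𝔖.inn.n → ‖T.bary pos (T.opp (𝔖.inn.e k)) - pos (𝔖.inn.v k)‖ ≤ μ
  mesh_y : ∀ k, k < y.n → ‖T.bary pos (T.opp (y.e k)) - pos (y.v k)‖ ≤ μ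
  mesh_i' : ∀ k, k < 𝔖'.inn.n → ‖T.bary pos (T.opp (𝔖'.inn.e k)) - pos (𝔖'.inn.v k)‖ ≤ μ
  mesh_y' : ∀ k, k < y'.n → ‖T.bary pos (T.opp (y'.e k)) - pos (y'.v k)‖ ≤ μ
  sep : ∀ b ∈ B, (∀ a ∈ A, 3 * μ ≤ ‖a - b‖) ∨ closedBall b μ ⊆ Mkᶜ
  inn : ∀ k, k < 𝔖.inn.n → pos (𝔖.inn.v k) ∈ A
  y_in : ∀ k, k < y.n → pos (y.v k) ∈ A
  inn_m' : ∀ k, k < 𝔖'.ip → r' - μ < ‖pos (𝔖'.inn.v k) - z'‖ → pos (𝔖'.inn.v k) ∈ A
  inn_p' : ∀ k, 𝔖'.ip ≤ k → k < 𝔖'.inn.n → r' - μ < ‖pos (𝔖'.inn.v k) - z'‖ → pos (𝔖'.inn.v k) ∈ B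
  y_in' : ∀ k, k < y'.n → pos (y'.v k) ∈ B

/-- a point within `μ` of `B` is not in `Mk ∩ thickening (2 μ) A` -/
theorem pvud_not_mem {x v : ℂ} {μ : ℝ} {Mk A B : Set ℂ} (sep : ∀ b ∈ B, (∀ a ∈ A, 3 * μ ≤ ‖a - b‖) ∨ closedBall b μ ⊆ Mkᶜ) (h : ‖x - v‖ ≤ μ) (hv : v ∈ B) :
    ¬ (x ∈ Mk ∧ x ∈ thickening (2 * μ) A) := by
  rintro ⟨h1, h2⟩
  rcases sep v hv with h3 | h3
  · exact pvme_not_thick (B := {v}) (fun a ha b hb => by rw [mem_singleton_iff.1 hb]; exact h3 a ha) h rfl h2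
  · exact h3 (by rw [mem_closedBall, dist_eq_norm]; exact h) h1

/-- a LARGER vertex mask of the link (e.g. one which does not depend on the index of the experiment), as long as SEP holds for it -/
theorem PvudEx.mono {𝔖 𝔖' : PvwSt T} {y y' : T.Pth} {Mk : Set ℂ} {z' : ℂ} {r' μ : ℝ} {A A₀ B : Set ℂ} (h : PvudEx T pos 𝔖 𝔖' y y' Mk z' r' μ A B) (hA : A ⊆ A₀)
    (sep : ∀ b ∈ B, (∀ a ∈ A₀, 3 * μ ≤ ‖a - b‖) ∨ closedBall b μ ⊆ Mkᶜ) : PvudEx T pos 𝔖 𝔖' y y' Mk z' r' μ A₀ B where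
  mu0 := h.mu0
  mesh_i := h.mesh_i
  mesh_y := h.mesh_y
  mesh_i' := h.mesh_i'
  mesh_y' := h.mesh_y'
  sep := sep
  inn := fun k hk => hA (h.inn k hk)
  y_in := fun k hk => hA (h.y_in k hk)
  inn_m' := fun k h1 h2 => hA (h.inn_m' k h1 h2)
  inn_p' := h.inn_p'
  y_in' := h.y_in'

section exact

variable {𝔖 𝔖' : PvwSt T} {y y' : T.Pth} {Mk : Set ℂ} {z' : ℂ} {r' μ : ℝ} {A B : Set ℂ}

/-- **MASK EXACTNESS, DOOR FORM**: the three masses of `PvilLk.val` at `dr = true`, `dr' = false` = the mass in the mask `M` of ALL the four pieces of the ring -/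
theorem pvud_exact (h : PvudEx T pos 𝔖 𝔖' y y' Mk z' r' μ A B) (hip' : 𝔖'.ip ≤ 𝔖'.inn.n) (w : D → ℂ) :
    pvwMass T pos w (Mk \ closedBall z' r') 𝔖.inn 0 𝔖.inn.n + pvwMass T pos w (Mk \ closedBall z' r') y 0 y.n + pvwMass T pos w (Mk \ closedBall z' r') 𝔖'.inn 0 𝔖'.ip =
      pvwMass T pos w (pvudM Mk z' r' μ A) 𝔖.inn 0 𝔖.inn.n + pvwMass T pos w (pvudM Mk z' r' μ A) y 0 y.n +
        pvwMass T pos w (pvudM Mk z' r' μ A) 𝔖'.inn 0 𝔖'.inn.n + pvwMass T pos w (pvudM Mk z' r' μ A) y' 0 y'.n := by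
  have cb : ∀ (x c : ℂ) (ρ : ℝ), x ∈ closedBall c ρ ↔ ‖x - c‖ ≤ ρ := fun x c ρ => by rw [mem_closedBall, dist_eq_norm]
  have mM : ∀ x : ℂ, x ∈ pvudM Mk z' r' μ A ↔ (x ∈ Mk ∧ x ∈ thickening (2 * μ) A) ∧ r' < ‖x - z'‖ := fun x => by
    unfold pvudM
    rw [mem_sdiff, mem_inter_iff, cb, not_le]
  have mK : ∀ x : ℂ, x ∈ Mk \ closedBall z' r' ↔ x ∈ Mk ∧ r' < ‖x - z'‖ := fun x => by rw [mem_sdiff, cb, not_le]
  have s1 : pvwMass T pos w (pvudM Mk z' r' μ A) 𝔖.inn 0 𝔖.inn.n = pvwMass T pos w (Mk \ closedBall z' r') 𝔖.inn 0 𝔖.inn.n := by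
    refine pvme_mass_congr pos w _ fun k _ hk => ?_
    rw [mM, mK]
    exact ⟨fun hx => ⟨hx.1.1, hx.2⟩, fun hx => ⟨⟨hx.1, pvme_in_thick h.mu0 (h.mesh_i k hk) (h.inn k hk)⟩, hx.2⟩⟩
  have s2 : pvwMass T pos w (pvudM Mk z' r' μ A) y 0 y.n = pvwMass T pos w (Mk \ closedBall z' r') y 0 y.n := by
    refine pvme_mass_congr pos w _ fun k _ hk => ?_
    rw [mM, mK]
    exact ⟨fun hx => ⟨hx.1.1, hx.2⟩, fun hx => ⟨⟨hx.1, pvme_in_thick h.mu0 (h.mesh_y k hk) (h.y_in k hk)⟩, hx.2⟩⟩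
  have s3 : pvwMass T pos w (pvudM Mk z' r' μ A) 𝔖'.inn 0 𝔖'.ip = pvwMass T pos w (Mk \ closedBall z' r') 𝔖'.inn 0 𝔖'.ip := by
    refine pvme_mass_congr pos w _ fun k _ hk => ?_
    have hm := h.mesh_i' k (by omega)
    rw [mM, mK]
    exact ⟨fun hx => ⟨hx.1.1, hx.2⟩, fun hx => ⟨⟨hx.1, pvme_in_thick h.mu0 hm (h.inn_m' k hk (by linarith [(pvme_tri (c := z') hm).2, hx.2]))⟩, hx.2⟩⟩
  have s4 : pvwMass T pos w (pvudM Mk z' r' μ A) 𝔖'.inn 𝔖'.ip 𝔖'.inn.n = 0 := by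
    refine pvme_mass_zero pos w _ fun k hk1 hk2 => ?_
    have hm := h.mesh_i' k hk2
    rw [mM]
    rintro ⟨hx, hx2⟩
    exact pvud_not_mem h.sep hm (h.inn_p' k hk1 hk2 (by linarith [(pvme_tri (c := z') hm).2])) hx
  have s5 : pvwMass T pos w (pvudM Mk z' r' μ A) y' 0 y'.n = 0 := by
    refine pvme_mass_zero pos w _ fun k _ hk => ?_
    rw [mM]
    rintro ⟨hx, -⟩
    exact pvud_not_mem h.sep (h.mesh_y' k hk) (h.y_in' k hk) hx
  rw [pvme_mass_split pos w (pvudM Mk z' r' μ A) 𝔖'.inn (Nat.zero_le _) hip', s1, s2, s3, s4, s5]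
  ring

end exact

/-! ## 2. the door end -/

/-- **THE DOOR END OF THE RING**: the state `𝔖` has the shape `pvkdSt` of 34 (`Tr/PlugK`: gate `g` of 260, EMPTY stubs), the closed inside of the gate lies in the open disc `B(z, b)`, through strand, inner arc = its erased black bank,
`g⁻` in the room `Zm`, `g⁺` in the room `Zp` -/
structure PvudEnd (T : PvMap V D) (s : V → Bool) (pos : V → ℂ) (𝔖 : PvwSt T) (g : T.Gate s) (z : ℂ) (b : ℝ) (Zm Zp : Set ℂ) : Prop where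
  S_eq : 𝔖.S = g.c
  dp_eq : 𝔖.dp = g.aOut
  dm_eq : 𝔖.dm = g.aIn
  np0 : 𝔖.np = 0
  nm0 : 𝔖.nm = 0
  ep0 : 𝔖.ep 0 = g.aOut
  em0 : 𝔖.em 0 = g.aIn
  inside : ∀ v ∈ T.VOf g.c.Left, ‖pos v - z‖ < b
  strand : ∃ n, pvasIt T s g.aIn n = g.aOut ∧ (∀ i, i < n → pvasIt T s g.aIn i ∈ g.c.Left) ∧ PvwLE T (fun i => T.src (pvasIt T s g.aIn i)) n 𝔖.inn
  zp : pos g.vp ∈ Zp
  zm : pos g.vm ∈ Zm

/-- **PRODUCER**: the gate of record of a plug (`PvzlGt` of 173 at the marks `mk := pos`, discs = balls) with the state of shape `pvkdSt` -/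
theorem pvud_end_of_gt [DecidableEq V] (hT : T.IsSph) (hS : T.Simple) {p : PvzlPg ℂ} {g : T.Gate s} (G : PvzlGt T pos s p g) {z : ℂ} {b : ℝ} (hO : p.KO = ball z b) {𝔖 : PvwSt T}
    (h1 : 𝔖.S = g.c) (h2 : 𝔖.dp = g.aOut) (h3 : 𝔖.dm = g.aIn) (h4 : 𝔖.inn = pvtArc T s g.aIn g.len) (h5 : 𝔖.np = 0) (h6 : 𝔖.nm = 0) (h7 : 𝔖.ep 0 = g.aOut) (h8 : 𝔖.em 0 = g.aIn) :
    PvudEnd T s pos 𝔖 g z b p.Km p.Kp := by
  obtain ⟨N, hN⟩ := G.thru
  refine ⟨h1, h2, h3, h5, h6, h7, h8, ?_, ⟨N, hN.2.1, hN.2.2.2.1, ?_⟩, G.vp, G.vm⟩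
  · rintro v ⟨d, hd, rfl⟩
    have := G.least.reg.outer d hd
    rw [hO, mem_ball, dist_eq_norm] at this
    exact this
  · rw [h4, (hN.len hT).1]
    exact pvt_sd_le hT hS (pvtg_aIn_bw g) (pvjs_inj_of_first (pvtg_aIn_bw g) fun i hi => by rw [hN.2.1]; exact hN.2.2.1 i hi)


/-- **PRODUCER AT THE KIT** (34, `Tr/PlugK`): the state `pvkdSt` of the gate of record of the plug `𝔭` placed at `(z, d)` is a door end -/
theorem pvud_end_door {𝔭 : PvkdPlug} {η : Conf PvPt} {z d : ℂ} (hη : PvatNice (cfSites η)) {g : (pvkiT η).Gate (pvkiS η)} (G : PvkdGate 𝔭 η z d g) :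
    PvudEnd (pvkiT η) (pvkiS η) Subtype.val (pvkdSt 𝔭 η z g) g z 𝔭.b (pvkdAt z d 𝔭.Zm) (pvkdAt z d 𝔭.Zp) :=
  @pvud_end_of_gt _ _ _ _ _ _ (delb_plane_isSph hη.good) (delbPl (cfSites η)).toMap_simple (𝔭.pg z d) g G z 𝔭.b rfl (pvkdSt 𝔭 η z g) rfl rfl rfl rfl rfl rfl rfl rfl

section door

variable {𝔖 : PvwSt T} {g : T.Gate s} {z : ℂ} {b : ℝ} {Zm Zp : Set ℂ}

theorem pvud_gp (E : PvudEnd T s pos 𝔖 g z b Zm Zp) : 𝔖.gp = g.vp := by
  show T.src 𝔖.dp = _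
  rw [E.dp_eq, pvtg_aOut_src]

theorem pvud_gm (E : PvudEnd T s pos 𝔖 g z b Zm Zp) : 𝔖.gm = g.vm := by
  show T.src 𝔖.dm = _
  rw [E.dm_eq]
  rfl

theorem pvud_bw_p (E : PvudEnd T s pos 𝔖 g z b Zm Zp) : pvasBW T s 𝔖.dp := by rw [E.dp_eq]; exact pvtg_aOut_bw g

theorem pvud_inn_v0 (E : PvudEnd T s pos 𝔖 g z b Zm Zp) : 𝔖.inn.v 0 = g.vm := by
  obtain ⟨n, -, -, j, h0, -⟩ := E.strand
  exact h0

theorem pvud_inn_vn (E : PvudEnd T s pos 𝔖 g z b Zm Zp) : 𝔖.inn.v 𝔖.inn.n = g.vp := by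
  obtain ⟨n, e, -, j, -, hn, h1, -⟩ := E.strand
  rw [(h1 _ le_rfl).2.1, hn]
  show T.src (pvasIt T s g.aIn n) = _
  rw [e, pvtg_aOut_src]

theorem pvud_vm_ins (hT : T.IsSph) (g : T.Gate s) : g.vm ∈ T.VOf g.c.Left := ⟨g.c.e 0, (pl_jordan hT g.c).2.1 0, rfl⟩

theorem pvud_vp_ins (hT : T.IsSph) (g : T.Gate s) : g.vp ∈ T.VOf g.c.Left := ⟨g.c.e g.m, (pl_jordan hT g.c).2.1 g.m, rfl⟩

/-- the inner arc lies in the closed inside of the gate -/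
theorem pvud_inn_ins (hT : T.IsSph) (E : PvudEnd T s pos 𝔖 g z b Zm Zp) {k : ℕ} (hk : k ≤ 𝔖.inn.n) : 𝔖.inn.v k ∈ T.VOf g.c.Left := by
  obtain ⟨n, e, hin, j, -, hn, h1, -⟩ := E.strand
  obtain ⟨a1, a2, -⟩ := h1 k hk
  rcases Nat.lt_or_ge (j k) n with hlt | hge
  · exact ⟨_, hin _ hlt, a2.symm⟩
  · have e1 : j k = n := le_antisymm a1 hge
    rw [a2, e1]
    show T.src (pvasIt T s g.aIn n) ∈ _
    rw [e, pvtg_aOut_src]
    exact pvud_vp_ins hT g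

theorem pvud_inn_black (E : PvudEnd T s pos 𝔖 g z b Zm Zp) {k : ℕ} (hk : k ≤ 𝔖.inn.n) : s (𝔖.inn.v k) = true := by
  obtain ⟨n, -, -, j, -, -, h1, -⟩ := E.strand
  rw [(h1 k hk).2.1]
  exact (pvas_it_bw (pvtg_aIn_bw g) _).1

theorem pvud_inn_near (hT : T.IsSph) (E : PvudEnd T s pos 𝔖 g z b Zm Zp) {k : ℕ} (hk : k ≤ 𝔖.inn.n) : ‖pos (𝔖.inn.v k) - z‖ < b :=
  E.inside _ (pvud_inn_ins hT E hk)

/-- a vertex of the inner arc with a dart which is not inside the gate is `g⁺` or `g⁻` -/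
theorem pvud_inn_bd (hT : T.IsSph) (E : PvudEnd T s pos 𝔖 g z b Zm Zp) {k : ℕ} (hk : k ≤ 𝔖.inn.n) {d : D} (hd : d ∉ g.c.Left) (e : T.src d = 𝔖.inn.v k) : k = 𝔖.inn.n ∨ k = 0 := by
  have h1 := pvud_inn_ins hT E hk
  rw [pl_VOf_left hT] at h1
  rcases h1 with h1 | h1
  · rcases pvtg_black g h1 (pvud_inn_black E hk) with h2 | h2
    · right
      exact 𝔖.inn.inj _ _ hk (Nat.zero_le _) (by rw [h2, pvud_inn_v0 E])
    · left
      exact 𝔖.inn.inj _ _ hk le_rfl (by rw [h2, pvud_inn_vn E])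
  · exact absurd (h1 d e) hd

theorem pvud_inn_pos (E : PvudEnd T s pos 𝔖 g z b Zm Zp) : 0 < 𝔖.inn.n := by
  rcases Nat.eq_zero_or_pos 𝔖.inn.n with h0 | h0
  · exfalso
    apply pvtg_ne g
    rw [← pvud_inn_vn E, ← pvud_inn_v0 E, h0]
  · exact h0

/-- the EMPTY exit stub of a door is a stub (box = the two ends of the exit gate edge): the lemmas of 118 on the arc of a link apply -/
theorem pvud_stp (hpos : Function.Injective pos) (E : PvudEnd T s pos 𝔖 g z b Zm Zp) : 𝔖.StubP pos {p | p = pos (T.src g.aOut) ∨ p = pos (T.tgt g.aOut)} s where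
  ep_it := fun i hi => by
    have h0 : i = 0 := by have := E.np0; omega
    subst h0
    rw [E.ep0, E.dp_eq]
    rfl
  ep_in := fun i hi => by
    have h0 : i = 0 := by have := E.np0; omega
    subst h0
    rw [E.ep0]
    exact ⟨Or.inl rfl, Or.inr rfl⟩
  ep_ax := fun i hi => by have := E.np0; omega
  ep_out := by
    show pos (T.apex (𝔖.ep 𝔖.np)) ∉ _
    rw [E.np0, E.ep0]
    rintro (h | h)
    · exact T.apex_ne_src _ (hpos h)
    · exact T.apex_ne_tgt _ (hpos h)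

/-- the EMPTY entrance stub of a door -/
theorem pvud_stm (hpos : Function.Injective pos) (E : PvudEnd T s pos 𝔖 g z b Zm Zp) : 𝔖.StubM pos {p | p = pos (T.src g.aIn) ∨ p = pos (T.tgt g.aIn)} s where
  em_it := fun i hi => by
    have h0 : i = 0 := by have := E.nm0; omega
    subst h0
    rw [E.em0, E.dm_eq]
    rfl
  em_in := fun i hi => by
    have h0 : i = 0 := by have := E.nm0; omega
    subst h0
    rw [E.em0]
    exact ⟨Or.inl rfl, Or.inr rfl⟩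
  em_ax := fun i hi => by have := E.nm0; omega
  em_out := by
    show pos (T.apex (T.opp (𝔖.em 𝔖.nm))) ∉ _
    rw [E.nm0, E.em0]
    rintro (h | h)
    · exact T.apex_ne_tgt (T.opp g.aIn) (by rw [T.tgt_opp]; exact hpos h)
    · exact T.apex_ne_src (T.opp g.aIn) (by rw [T.src_opp']; exact hpos h)

/-- the loop erasure of a walk of length `0` -/
theorem pvud_le_zero {bb : ℕ → V} {x : T.Pth} (h : PvwLE T bb 0 x) : ∀ v ∈ x.verts, v = bb 0 := by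
  obtain ⟨j, -, -, h1, -⟩ := h
  rintro v ⟨k, hk, rfl⟩
  obtain ⟨a1, a2, -⟩ := h1 k hk
  rw [a2, Nat.le_zero.1 a1]

theorem pvud_mask_p (E : PvudEnd T s pos 𝔖 g z b Zm Zp) : ∀ x : T.Pth, PvwLE T (fun i => T.src (𝔖.ep i)) 𝔖.np x → ∀ v ∈ x.verts, pos v ∈ Zp := by
  intro x hx v hv
  rw [E.np0] at hx
  rw [pvud_le_zero hx v hv]
  show pos (T.src (𝔖.ep 0)) ∈ Zp
  rw [E.ep0, pvtg_aOut_src]
  exact E.zp

theorem pvud_mask_m (E : PvudEnd T s pos 𝔖 g z b Zm Zp) : ∀ x : T.Pth, PvwLE T (fun i => T.src (𝔖.em i)) 𝔖.nm x → ∀ v ∈ x.verts, pos v ∈ Zm := by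
  intro x hx v hv
  rw [E.nm0] at hx
  rw [pvud_le_zero hx v hv]
  show pos (T.src (𝔖.em 0)) ∈ Zm
  rw [E.em0]
  exact E.zm

end door

/-! ## 3. a strand and the gate of a door -/

/-- **a strand which leaves a gate at `aOut`, does not come back to `aOut`, never has `g⁻` on its black bank and ends outside, stays outside** -/
theorem pvud_off_out (hT : T.IsSph) (g : T.Gate s) {n : ℕ} (h1 : ∀ j, 0 < j → j ≤ n → pvasIt T s g.aOut j ≠ g.aOut) (h2 : ∀ j, 0 < j → j ≤ n → T.src (pvasIt T s g.aOut j) ≠ g.vm)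
    (h3 : pvasIt T s g.aOut n ∉ g.c.Left) : ∀ i, i ≤ n → pvasIt T s g.aOut i ∉ g.c.Left := by
  classical
  intro i hi hmem
  have hex : ∃ j, i ≤ j ∧ pvasIt T s g.aOut j ∉ g.c.Left := ⟨n, hi, h3⟩
  obtain ⟨hj1, hj2⟩ := Nat.find_spec hex
  have hjn : Nat.find hex ≤ n := Nat.find_min' hex ⟨hi, h3⟩
  have hij : i < Nat.find hex := lt_of_le_of_ne hj1 (fun e => hj2 (e ▸ hmem))
  have hprev : pvasIt T s g.aOut (Nat.find hex - 1) ∈ g.c.Left := by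
    by_contra hc
    exact Nat.find_min hex (m := Nat.find hex - 1) (by omega) ⟨by omega, hc⟩
  have hout : pvasOut T g.c.Left s (pvasIt T s g.aOut (Nat.find hex)) := by
    refine ⟨hj2, ?_, pvas_it_bw (pvtg_aOut_bw g) _⟩
    have e : Nat.find hex = (Nat.find hex - 1) + 1 := by omega
    rw [e, pvas_it_succ, pvas_step_opp_mem (pl_left_face g.c)]
    exact hprev
  rcases (pvtg_out_iff hT g _).1 hout with e | e
  · exact h1 _ (by omega) hjn e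
  · exact h2 _ (by omega) hjn (by rw [e, pvtg_bOut_src])

/-- **a strand which starts outside a gate, has not yet reached `aIn` and never has `g⁺` on its black bank, stays outside** -/
theorem pvud_off_in (hT : T.IsSph) (g : T.Gate s) {a : D} (ha : pvasBW T s a) (h0 : a ∉ g.c.Left) {n : ℕ} (h1 : ∀ i, i < n → pvasIt T s a i ≠ g.aIn)
    (h2 : ∀ i, i < n → T.src (pvasIt T s a i) ≠ g.vp) : ∀ i, i < n → pvasIt T s a i ∉ g.c.Left := by
  intro i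
  induction i with
  | zero => exact fun _ => h0
  | succ i ih =>
    intro hi hmem
    have hin : pvasIn T g.c.Left s (pvasIt T s a (i + 1)) :=
      ⟨hmem, by rw [pvas_it_succ, pvas_step_opp_mem (pl_left_face g.c)]; exact ih (by omega), pvas_it_bw ha _⟩
    rcases (pvtg_in_iff hT g _).1 hin with e | e
    · exact h1 _ hi e
    · exact h2 _ hi (by rw [e]; rfl)

/-! ## 4. the design, the pairs of pieces -/

/-- **THE DESIGN CLAUSES, DOOR FORM** (deterministic facts on numbers and regions).   `(z, b, Zm, Zp)` = centre, outer radius, rooms of `g⁻`, `g⁺` of the door `u`;   `(h', z', τ', Bx', Mp', Mm', r', r0')` = the marked plug `t` as in `Pvtk2Des` of 118;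
`Ye` / `Yc` = the rooms of the link `u → t` / of the return `t → u`;   `Mk` = the cut in space of the door;   `μ` = mesh of the tags -/
structure PvudDes (z : ℂ) (b : ℝ) (Zm Zp : Set ℂ) (h' : ℝ) (z' : ℂ) (τ' : PvwTy) (Bx' Mp' Mm' : Set ℂ) (r' r0' : ℝ) (Ye Yc Mk : Set ℂ) (μ : ℝ) : Prop where
  mu0 : 0 < μ
  /-- SEP, metric form (55), between the vertex masks of the two ARCS (East lane / West lane at the door) -/
  sep : ∀ a ∈ Zp ∪ Ye ∪ Mm', ∀ c ∈ Mp' ∪ Yc ∪ Zm, 3 * μ ≤ ‖a - c‖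
  /-- WEST: what the return brings near the disc of the door lies `μ`-deep behind the cut -/
  west : ∀ c ∈ Mp' ∪ Yc ∪ Zm, ‖c - z‖ < b + 3 * μ → closedBall c μ ⊆ Mkᶜ
  thr' : r0' ≤ r' - μ
  cut' : r' + μ < τ'.a * h'
  /-- the box of `t` misses the disc of the door, the two rooms miss the core disc of `t`, the two discs are disjoint -/
  box' : ∀ p ∈ Bx', b ≤ ‖p - z‖
  ye : ∀ p ∈ Ye, τ'.b * h' ≤ ‖p - z'‖
  yc : ∀ p ∈ Yc, τ'.b * h' ≤ ‖p - z'‖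
  disc : ∀ p : ℂ, ‖p - z‖ < b → τ'.b * h' ≤ ‖p - z'‖

section pairs

variable {𝔖 𝔖' : PvwSt T} {g : T.Gate s} {z : ℂ} {b : ℝ} {Zm Zp : Set ℂ} {h' : ℝ} {z' : ℂ} {τ' : PvwTy} {Bx' Mp' Mm' : Set ℂ} {r' r0' : ℝ} {Ye Yc Mk : Set ℂ} {μ : ℝ} {n n' : ℕ} {y y' : T.Pth}

/-- the arc of the link lies in its vertex mask -/
theorem pvud_in_e (hT : T.IsSph) (hS : T.Simple) (hpos : Function.Injective pos) (E : PvudEnd T s pos 𝔖 g z b Zm Zp) (E' : Pvtk2End T s pos 𝔖' h' z' τ' Bx' Mp' Mm' r0')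
    (R : Pvtk2Run T s pos 𝔖 𝔖' Ye n) (hy : PvwLE T (fun i => T.src (pvasIt T s 𝔖.dp i)) n y) {k : ℕ} (hk : k ≤ y.n) : pos (y.v k) ∈ Zp ∪ Ye ∪ Mm' :=
  pvtk2_arc_verts hT hS (pvud_bw_p E) R (pvud_stp hpos E) E'.stm hy (pvud_mask_p E) E'.mask_m hk

/-- the arc of the return lies in its vertex mask -/
theorem pvud_in_c (hT : T.IsSph) (hS : T.Simple) (hpos : Function.Injective pos) (E : PvudEnd T s pos 𝔖 g z b Zm Zp) (E' : Pvtk2End T s pos 𝔖' h' z' τ' Bx' Mp' Mm' r0')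
    (R' : Pvtk2Run T s pos 𝔖' 𝔖 Yc n') (hy' : PvwLE T (fun i => T.src (pvasIt T s 𝔖'.dp i)) n' y') {k : ℕ} (hk : k ≤ y'.n) : pos (y'.v k) ∈ Mp' ∪ Yc ∪ Zm :=
  pvtk2_arc_verts hT hS E'.gate.bw_p R' E'.stp (pvud_stm hpos E) hy' E'.mask_p (pvud_mask_m E) hk

/-- a point of the box of `t` is not the position of a site of the closed inside of the door -/
theorem pvud_box_off (E : PvudEnd T s pos 𝔖 g z b Zm Zp) (Ds : PvudDes z b Zm Zp h' z' τ' Bx' Mp' Mm' r' r0' Ye Yc Mk μ) {v : V} (hv : pos v ∈ Bx') : v ∉ T.VOf g.c.Left :=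
  fun h => absurd (E.inside v h) (not_lt.2 (Ds.box' _ hv))

/-- **the run of the link does not return into the gate of the door** -/
theorem pvud_off_e (hT : T.IsSph) (E : PvudEnd T s pos 𝔖 g z b Zm Zp) (E' : Pvtk2End T s pos 𝔖' h' z' τ' Bx' Mp' Mm' r0')
    (Ds : PvudDes z b Zm Zp h' z' τ' Bx' Mp' Mm' r' r0' Ye Yc Mk μ) (R : Pvtk2Run T s pos 𝔖 𝔖' Ye n) : ∀ i, i ≤ n → pvasIt T s 𝔖.dp i ∉ g.c.Left := by
  have hbw := pvud_bw_p E
  have hinj := pvtk2_inj hbw R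
  have htail : ∀ j, j ≤ n → ¬ j + 𝔖'.nm < n → pos (T.src (pvasIt T s 𝔖.dp j)) ∈ Bx' := by
    intro j hj hc
    have e := pvtk2_tail hbw R E'.stm (i := n - j) (by omega)
    rw [show n - (n - j) = j by omega] at e
    rw [e]
    exact (E'.stm.em_in _ (by omega)).1
  have key := pvud_off_out hT g (n := n) ?_ ?_ ?_
  · rw [E.dp_eq]; exact key
  · intro j h0 hj e
    rw [← E.dp_eq] at e
    rcases Nat.lt_or_ge j n with hlt | hge
    · have := hinj j 0 hlt (by omega) e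
      omega
    · have e1 : j = n := le_antisymm hj hge
      rw [e1, R.2.1] at e
      exact R.2.2.1 0 (by omega) e.symm
  · intro j h0 hj e
    rw [← E.dp_eq] at e
    by_cases hc : j + 𝔖'.nm < n
    · have h1 := (R.2.2.2 j (by rw [E.np0]; exact h0) hc).1
      have := Ds.sep _ (Or.inl (Or.inr h1)) _ (Or.inr E.zm)
      rw [e, sub_self, norm_zero] at this
      linarith [Ds.mu0]
    · exact pvud_box_off E Ds (htail j hj hc) (e ▸ pvud_vm_ins hT g)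
  · rw [← E.dp_eq]
    intro hc
    exact pvud_box_off E Ds (htail n le_rfl (by omega)) ⟨_, hc, rfl⟩

/-- **the run of the return does not enter the gate of the door before its last position** -/
theorem pvud_off_c (hT : T.IsSph) (E : PvudEnd T s pos 𝔖 g z b Zm Zp) (E' : Pvtk2End T s pos 𝔖' h' z' τ' Bx' Mp' Mm' r0')
    (Ds : PvudDes z b Zm Zp h' z' τ' Bx' Mp' Mm' r' r0' Ye Yc Mk μ) (R' : Pvtk2Run T s pos 𝔖' 𝔖 Yc n') : ∀ i, i < n' → pvasIt T s 𝔖'.dp i ∉ g.c.Left := by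
  have hhead : ∀ j, j ≤ 𝔖'.np → pos (T.src (pvasIt T s 𝔖'.dp j)) ∈ Bx' := by
    intro j hj
    rw [← E'.stp.ep_it j hj]
    exact (E'.stp.ep_in j hj).1
  refine pvud_off_in hT g E'.gate.bw_p ?_ ?_ ?_
  · intro hc
    exact pvud_box_off E Ds (hhead 0 (Nat.zero_le _)) ⟨_, hc, rfl⟩
  · intro i hi
    rw [← E.dm_eq]
    exact R'.2.2.1 i hi
  · intro i hi e
    by_cases hc : i ≤ 𝔖'.np
    · exact pvud_box_off E Ds (hhead i hc) (e ▸ pvud_vp_ins hT g)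
    · have h1 := (R'.2.2.2 i (by omega) (by rw [E.nm0]; omega)).1
      have := Ds.sep _ (Or.inl (Or.inl E.zp)) _ (Or.inl (Or.inr h1))
      rw [e, sub_self, norm_zero] at this
      linarith [Ds.mu0]

/-- (N1) the inner arc of the door against the arc which LEAVES it -/
theorem pvud_ne_out (hT : T.IsSph) (E : PvudEnd T s pos 𝔖 g z b Zm Zp) (E' : Pvtk2End T s pos 𝔖' h' z' τ' Bx' Mp' Mm' r0')
    (Ds : PvudDes z b Zm Zp h' z' τ' Bx' Mp' Mm' r' r0' Ye Yc Mk μ) (R : Pvtk2Run T s pos 𝔖 𝔖' Ye n)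
    (hy : PvwLE T (fun i => T.src (pvasIt T s 𝔖.dp i)) n y) {k l : ℕ} (hk : k < 𝔖.inn.n) (hl : l < y.n) : 𝔖.inn.v (k + 1) ≠ y.v (l + 1) := by
  intro e
  obtain ⟨t, ht, e'⟩ := pvtk2_time hy (k := l + 1) hl
  rcases pvud_inn_bd hT E (k := k + 1) hk (pvud_off_e hT E E' Ds R t ht) (by rw [← e', e]) with h1 | h1
  · have h2 : y.v (l + 1) = y.v 0 := by rw [← e, h1, pvud_inn_vn E, pvtk2_y_v0 hy, pvud_gp E]
    have := y.inj _ _ hl (Nat.zero_le _) h2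
    omega
  · omega

/-- (N2) the inner arc of the door against the arc which ARRIVES at it -/
theorem pvud_ne_in (hT : T.IsSph) (hS : T.Simple) (hpos : Function.Injective pos) (E : PvudEnd T s pos 𝔖 g z b Zm Zp) (E' : Pvtk2End T s pos 𝔖' h' z' τ' Bx' Mp' Mm' r0')
    (Ds : PvudDes z b Zm Zp h' z' τ' Bx' Mp' Mm' r' r0' Ye Yc Mk μ) (R' : Pvtk2Run T s pos 𝔖' 𝔖 Yc n')
    (hy' : PvwLE T (fun i => T.src (pvasIt T s 𝔖'.dp i)) n' y') {k l : ℕ} (hk : k < 𝔖.inn.n) (hl : l < y'.n) : 𝔖.inn.v (k + 1) ≠ y'.v (l + 1) := by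
  intro e
  obtain ⟨t, ht, e'⟩ := pvtk2_time hy' (k := l + 1) hl
  rcases Nat.lt_or_ge t n' with hlt | hge
  · rcases pvud_inn_bd hT E (k := k + 1) hk (pvud_off_c hT E E' Ds R' t hlt) (by rw [← e', e]) with h1 | h1
    · have hB := pvud_in_c hT hS hpos E E' R' hy' (k := l + 1) hl
      have := Ds.sep _ (Or.inl (Or.inl E.zp)) _ hB
      rw [← e, h1, pvud_inn_vn E, sub_self, norm_zero] at this
      linarith [Ds.mu0]
    · omega
  · have e1 : t = n' := le_antisymm ht hge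
    rw [e1, R'.2.1] at e'
    have h2 : 𝔖.inn.v (k + 1) = 𝔖.inn.v 0 := by
      rw [e, e', pvud_inn_v0 E]
      exact pvud_gm E
    have := 𝔖.inn.inj _ _ hk (Nat.zero_le _) h2
    omega

/-- (N3) the two inner arcs -/
theorem pvud_ne_inn (hT : T.IsSph) (E : PvudEnd T s pos 𝔖 g z b Zm Zp) (E' : Pvtk2End T s pos 𝔖' h' z' τ' Bx' Mp' Mm' r0')
    (Ds : PvudDes z b Zm Zp h' z' τ' Bx' Mp' Mm' r' r0' Ye Yc Mk μ) {k l : ℕ} (hk : k ≤ 𝔖.inn.n) (hl : l ≤ 𝔖'.inn.n) : 𝔖.inn.v k ≠ 𝔖'.inn.v l := by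
  intro e
  have h1 := pvud_inn_near (pos := pos) hT E hk
  have h2 := pvtk2_inn_near (pos := pos) hT E'.gate hl
  rw [← e] at h2
  linarith [Ds.disc _ h1]

/-- (N1') the inner arc of `t` against the arc which LEAVES `t` -/
theorem pvud_ne_out' (hT : T.IsSph) (hpos : Function.Injective pos) (E : PvudEnd T s pos 𝔖 g z b Zm Zp) (E' : Pvtk2End T s pos 𝔖' h' z' τ' Bx' Mp' Mm' r0')
    (Ds : PvudDes z b Zm Zp h' z' τ' Bx' Mp' Mm' r' r0' Ye Yc Mk μ) (R' : Pvtk2Run T s pos 𝔖' 𝔖 Yc n')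
    (hy' : PvwLE T (fun i => T.src (pvasIt T s 𝔖'.dp i)) n' y') {k l : ℕ} (hk : k < 𝔖'.inn.n) (hl : l < y'.n) : 𝔖'.inn.v (k + 1) ≠ y'.v (l + 1) := by
  intro e
  have hnear := pvtk2_inn_near (pos := pos) hT E'.gate (k := k + 1) hk
  rcases pvtk2_kind E'.gate.bw_p R' E'.stp (pvud_stm hpos E) hy' (k := l + 1) hl with ⟨i, hi, e'⟩ | hY | ⟨i, hi, e'⟩
  · rcases pvtk2_inn_bd hT E'.gate (k := k + 1) hk (E'.off_p i hi) (by rw [← e', e]) with h1 | h1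
    · have h2 : y'.v (l + 1) = y'.v 0 := by rw [← e, h1, pvtk2_inn_vn E'.gate, pvtk2_y_v0 hy']
      have := y'.inj _ _ hl (Nat.zero_le _) h2
      omega
    · omega
  · rw [e] at hnear
    linarith [Ds.yc _ hY]
  · have h0 : i = 0 := by have := E.nm0; omega
    subst h0
    rw [E.em0] at e'
    rw [e, e'] at hnear
    have h5 : τ'.b * h' ≤ ‖pos (T.src g.aIn) - z'‖ := Ds.disc _ (E.inside _ (pvud_vm_ins hT g))
    linarith

/-- (N2') the inner arc of `t` against the arc which ARRIVES at `t` -/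
theorem pvud_ne_in' (hT : T.IsSph) (hS : T.Simple) (hpos : Function.Injective pos) (E : PvudEnd T s pos 𝔖 g z b Zm Zp) (E' : Pvtk2End T s pos 𝔖' h' z' τ' Bx' Mp' Mm' r0')
    (Ds : PvudDes z b Zm Zp h' z' τ' Bx' Mp' Mm' r' r0' Ye Yc Mk μ) (R : Pvtk2Run T s pos 𝔖 𝔖' Ye n)
    (hy : PvwLE T (fun i => T.src (pvasIt T s 𝔖.dp i)) n y) {k l : ℕ} (hk : k < 𝔖'.inn.n) (hl : l < y.n) : 𝔖'.inn.v (k + 1) ≠ y.v (l + 1) := by
  intro e
  have hnear := pvtk2_inn_near (pos := pos) hT E'.gate (k := k + 1) hk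
  rcases pvtk2_kind (pvud_bw_p E) R (pvud_stp hpos E) E'.stm hy (k := l + 1) hl with ⟨i, hi, e'⟩ | hY | ⟨i, hi, e'⟩
  · have h0 : i = 0 := by have := E.np0; omega
    subst h0
    rw [E.ep0, pvtg_aOut_src] at e'
    rw [e, e'] at hnear
    linarith [Ds.disc _ (E.inside _ (pvud_vp_ins hT g))]
  · rw [e] at hnear
    linarith [Ds.ye _ hY]
  · have hd : T.nxt (T.opp (𝔖'.em i)) ∉ 𝔖'.S.Left := fun h1 => E'.off_m i hi ((pl_left_face 𝔖'.S _).1 h1)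
    have hs : T.src (T.nxt (T.opp (𝔖'.em i))) = 𝔖'.inn.v (k + 1) := by rw [T.src_nxt, T.tgt_opp, ← e', e]
    rcases pvtk2_inn_bd hT E'.gate (k := k + 1) hk hd hs with h1 | h1
    · have hgp : τ'.a * h' ≤ ‖pos (𝔖'.inn.v 𝔖'.inn.n) - z'‖ := by rw [pvtk2_inn_vn E'.gate]; exact (E'.gate.ann _ (pvtk2_gp_mem E'.gate)).1
      have hB : pos (𝔖'.inn.v 𝔖'.inn.n) ∈ Mp' := E'.half_p _ E'.gate.ip_le le_rfl (by linarith [Ds.thr', Ds.cut', Ds.mu0])
      have hA := pvud_in_e hT hS hpos E E' R hy (k := l + 1) hl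
      have := Ds.sep _ hA _ (Or.inl (Or.inl hB))
      rw [← e, h1, sub_self, norm_zero] at this
      linarith [Ds.mu0]
    · omega

/-- (N4) the two outer arcs -/
theorem pvud_ne_arc (hT : T.IsSph) (hS : T.Simple) (hpos : Function.Injective pos) (E : PvudEnd T s pos 𝔖 g z b Zm Zp) (E' : Pvtk2End T s pos 𝔖' h' z' τ' Bx' Mp' Mm' r0')
    (Ds : PvudDes z b Zm Zp h' z' τ' Bx' Mp' Mm' r' r0' Ye Yc Mk μ) (R : Pvtk2Run T s pos 𝔖 𝔖' Ye n) (hy : PvwLE T (fun i => T.src (pvasIt T s 𝔖.dp i)) n y)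
    (R' : Pvtk2Run T s pos 𝔖' 𝔖 Yc n') (hy' : PvwLE T (fun i => T.src (pvasIt T s 𝔖'.dp i)) n' y') {k l : ℕ} (hk : k ≤ y.n) (hl : l ≤ y'.n) : y.v k ≠ y'.v l := by
  intro e
  have := Ds.sep _ (pvud_in_e hT hS hpos E E' R hy hk) _ (pvud_in_c hT hS hpos E E' R' hy' hl)
  rw [e, sub_self, norm_zero] at this
  linarith [Ds.mu0]

/-! ## 5. mask exactness, the ring -/

/-- **THE HYPOTHESES OF MASK EXACTNESS** from the two ends, the design, the two runs and the MESH of the tags of the four pieces -/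
theorem pvud_ex (hT : T.IsSph) (hS : T.Simple) (hpos : Function.Injective pos) (E : PvudEnd T s pos 𝔖 g z b Zm Zp) (E' : Pvtk2End T s pos 𝔖' h' z' τ' Bx' Mp' Mm' r0')
    (Ds : PvudDes z b Zm Zp h' z' τ' Bx' Mp' Mm' r' r0' Ye Yc Mk μ) (R : Pvtk2Run T s pos 𝔖 𝔖' Ye n) (hy : PvwLE T (fun i => T.src (pvasIt T s 𝔖.dp i)) n y)
    (R' : Pvtk2Run T s pos 𝔖' 𝔖 Yc n') (hy' : PvwLE T (fun i => T.src (pvasIt T s 𝔖'.dp i)) n' y')
    (mesh_i : ∀ k, k < 𝔖.inn.n → ‖T.bary pos (T.opp (𝔖.inn.e k)) - pos (𝔖.inn.v k)‖ ≤ μ) (mesh_y : ∀ k, k < y.n → ‖T.bary pos (T.opp (y.e k)) - pos (y.v k)‖ ≤ μ)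
    (mesh_i' : ∀ k, k < 𝔖'.inn.n → ‖T.bary pos (T.opp (𝔖'.inn.e k)) - pos (𝔖'.inn.v k)‖ ≤ μ) (mesh_y' : ∀ k, k < y'.n → ‖T.bary pos (T.opp (y'.e k)) - pos (y'.v k)‖ ≤ μ) :
    PvudEx T pos 𝔖 𝔖' y y' Mk z' r' μ (ball z b ∪ (Zp ∪ Ye ∪ Mm')) (Mp' ∪ Yc ∪ Zm) where
  mu0 := Ds.mu0
  mesh_i := mesh_i
  mesh_y := mesh_y
  mesh_i' := mesh_i'
  mesh_y' := mesh_y'
  sep := fun c hc => by
    by_cases h1 : ‖c - z‖ < b + 3 * μ
    · exact Or.inr (Ds.west c hc h1)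
    · left
      rintro a (ha | ha)
      · rw [mem_ball, dist_eq_norm] at ha
        have h2 : ‖c - z‖ ≤ ‖c - a‖ + ‖a - z‖ := by
          have := norm_add_le (c - a) (a - z)
          rwa [sub_add_sub_cancel] at this
        rw [norm_sub_rev c a] at h2
        linarith [not_lt.1 h1]
      · exact Ds.sep a ha c hc
  inn := fun k hk => Or.inl (by rw [mem_ball, dist_eq_norm]; exact pvud_inn_near hT E hk.le)
  y_in := fun k hk => Or.inr (pvud_in_e hT hS hpos E E' R hy hk.le)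
  inn_m' := fun k h1 h3 => Or.inr (Or.inr (E'.half_m k h1.le (by linarith [Ds.thr'])))
  inn_p' := fun k h1 h2 h3 => Or.inl (Or.inl (E'.half_p k h1 h2.le (by linarith [Ds.thr'])))
  y_in' := fun k hk => pvud_in_c hT hS hpos E E' R' hy' hk.le

/-- the four pieces follow each other and close -/
theorem pvud_chain (E : PvudEnd T s pos 𝔖 g z b Zm Zp) (E' : Pvtk2End T s pos 𝔖' h' z' τ' Bx' Mp' Mm' r0') (R : Pvtk2Run T s pos 𝔖 𝔖' Ye n)
    (hy : PvwLE T (fun i => T.src (pvasIt T s 𝔖.dp i)) n y) (R' : Pvtk2Run T s pos 𝔖' 𝔖 Yc n') (hy' : PvwLE T (fun i => T.src (pvasIt T s 𝔖'.dp i)) n' y') :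
    pvowChain T [𝔖.inn, y, 𝔖'.inn, y'] g.vm g.vm := by
  refine ⟨pvud_inn_v0 E, ?_, ?_, ?_, ?_⟩
  · rw [pvtk2_y_v0 hy, pvud_inn_vn E, pvud_gp E]
  · rw [pvtk2_inn_v0 E'.gate, pvtk2_y_vn R hy]
  · rw [pvtk2_y_v0 hy', pvtk2_inn_vn E'.gate]
  · exact (pvtk2_y_vn R' hy').trans (pvud_gm E)

/-- the vertices of the four pieces are pairwise distinct -/
theorem pvud_nodup (hT : T.IsSph) (hS : T.Simple) (hpos : Function.Injective pos) (E : PvudEnd T s pos 𝔖 g z b Zm Zp) (E' : Pvtk2End T s pos 𝔖' h' z' τ' Bx' Mp' Mm' r0')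
    (Ds : PvudDes z b Zm Zp h' z' τ' Bx' Mp' Mm' r' r0' Ye Yc Mk μ) (R : Pvtk2Run T s pos 𝔖 𝔖' Ye n) (hy : PvwLE T (fun i => T.src (pvasIt T s 𝔖.dp i)) n y)
    (R' : Pvtk2Run T s pos 𝔖' 𝔖 Yc n') (hy' : PvwLE T (fun i => T.src (pvasIt T s 𝔖'.dp i)) n' y') :
    ((pvowDarts [𝔖.inn, y, 𝔖'.inn, y']).map T.tgt).Nodup := by
  refine pvow_nodup ?_
  refine List.pairwise_cons.2 ⟨fun q hq => ?_, List.pairwise_cons.2 ⟨fun q hq => ?_, List.pairwise_cons.2 ⟨fun q hq => ?_, List.pairwise_cons.2 ⟨fun q hq => ?_, List.Pairwise.nil⟩⟩⟩⟩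
  · simp only [List.mem_cons, List.not_mem_nil, or_false] at hq
    rcases hq with rfl | rfl | rfl
    · exact fun k l hk hl => pvud_ne_out hT E E' Ds R hy hk hl
    · exact fun k l hk hl => pvud_ne_inn hT E E' Ds hk hl
    · exact fun k l hk hl => pvud_ne_in hT hS hpos E E' Ds R' hy' hk hl
  · simp only [List.mem_cons, List.not_mem_nil, or_false] at hq
    rcases hq with rfl | rfl
    · exact fun k l hk hl => (pvud_ne_in' hT hS hpos E E' Ds R hy hl hk).symm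
    · exact fun k l hk hl => pvud_ne_arc hT hS hpos E E' Ds R hy R' hy' hk hl
  · simp only [List.mem_cons, List.not_mem_nil, or_false] at hq
    rcases hq with rfl
    exact fun k l hk hl => pvud_ne_out' hT hpos E E' Ds R' hy' hk hl
  · exact absurd hq (List.not_mem_nil)

/-- the four pieces lie on ONE wall -/
theorem pvud_onwall (hS : T.Simple) (E : PvudEnd T s pos 𝔖 g z b Zm Zp) (E' : Pvtk2End T s pos 𝔖' h' z' τ' Bx' Mp' Mm' r0') (R : Pvtk2Run T s pos 𝔖 𝔖' Ye n)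
    (hy : PvwLE T (fun i => T.src (pvasIt T s 𝔖.dp i)) n y) (hy' : PvwLE T (fun i => T.src (pvasIt T s 𝔖'.dp i)) n' y') :
    ∀ p ∈ [𝔖.inn, y, 𝔖'.inn, y'], p.OnWall s g.aIn := by
  obtain ⟨a, ea, -, la⟩ := E.strand
  obtain ⟨a', ea', -, la'⟩ := E'.gate.strand
  have w1 : T.Wall s g.aIn 𝔖.dp := by
    have := pvt_s_it_wall (pvtg_aIn_bw g) a
    rwa [ea, ← E.dp_eq] at this
  have w2 : T.Wall s 𝔖.dp 𝔖'.dm := by
    have := pvt_s_it_wall (pvud_bw_p E) n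
    rwa [R.2.1] at this
  have w3 : T.Wall s 𝔖'.dm 𝔖'.dp := by
    have := pvt_s_it_wall E'.gate.bw_m a'
    rwa [ea'] at this
  intro p hp
  simp only [List.mem_cons, List.not_mem_nil, or_false] at hp
  rcases hp with rfl | rfl | rfl | rfl
  · exact pvow_le_onwall hS (pvtg_aIn_bw g) la
  · exact pvow_onwall_trans (pvow_le_onwall hS (pvud_bw_p E) hy) w1
  · exact pvow_onwall_trans (pvow_le_onwall hS E'.gate.bw_m la') (pl_ra_wall_trans w1 w2)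
  · exact pvow_onwall_trans (pvow_le_onwall hS E'.gate.bw_p hy') (pl_ra_wall_trans w1 (pl_ra_wall_trans w2 w3))

/-- **THE TWO LINKS CLOSE TO ONE RIM, DOOR FORM**: the right triangle of the first edge of the inner arc of the door is a tag, its label class is made of the right triangles of the four pieces, its label sum is the sum of the four sums -/
theorem pvud_ring (hT : T.IsSph) (hS : T.Simple) (hpos : Function.Injective pos) (E : PvudEnd T s pos 𝔖 g z b Zm Zp) (E' : Pvtk2End T s pos 𝔖' h' z' τ' Bx' Mp' Mm' r0')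
    (Ds : PvudDes z b Zm Zp h' z' τ' Bx' Mp' Mm' r' r0' Ye Yc Mk μ) (R : Pvtk2Run T s pos 𝔖 𝔖' Ye n) (hy : PvwLE T (fun i => T.src (pvasIt T s 𝔖.dp i)) n y)
    (R' : Pvtk2Run T s pos 𝔖' 𝔖 Yc n') (hy' : PvwLE T (fun i => T.src (pvasIt T s 𝔖'.dp i)) n' y') :
    T.Tag s (T.opp (𝔖.inn.e 0)) ∧ (∀ d', T.SameLab s (T.opp (𝔖.inn.e 0)) d' ↔ T.opp d' ∈ pvowDarts [𝔖.inn, y, 𝔖'.inn, y']) ∧
      ∀ w : D → ℂ, T.lsum s w (T.opp (𝔖.inn.e 0)) = 𝔖.inn.psum w + y.psum w + 𝔖'.inn.psum w + y'.psum w := by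
  have hg : 𝔖.inn.e 0 ∈ pvowDarts [𝔖.inn, y, 𝔖'.inn, y'] := pvow_mem_darts.2 ⟨𝔖.inn, List.mem_cons_self, 0, pvud_inn_pos E, rfl⟩
  obtain ⟨h1, h2, h3⟩ := pvow_ring hT hS (pvud_chain E E' R hy R' hy') (pvud_nodup hT hS hpos E E' Ds R hy R' hy') (pvud_onwall hS E E' R hy hy') hg
  refine ⟨h1, h2, fun w => ?_⟩
  rw [h3 w]
  simp only [List.map_cons, List.map_nil, List.sum_cons, List.sum_nil]
  ring

/-- **(K4), DETERMINISTIC HALF OF `recog`, DOOR FORM** (RULING 20 (2) of 234): `u` = a door cut in space by `Mk`, `t` = a marked plug.      On the two runs, the value of the link `u → t` (the three `pvwMass` terms of `PvilLk.val` at `dr = true`, `dr' = false`,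
`msk = Mk \ closedBall z' r'`) is the LABEL SUM OF ONE TAG against the DETERMINISTIC mask `pvudM Mk z' r' μ (ball z b ∪ (Zp ∪ Ye ∪ Mm'))` tested at the barycentres      (= `PvjkOne` of 132) -/
theorem pvud_main (hT : T.IsSph) (hS : T.Simple) (hpos : Function.Injective pos) (E : PvudEnd T s pos 𝔖 g z b Zm Zp) (E' : Pvtk2End T s pos 𝔖' h' z' τ' Bx' Mp' Mm' r0')
    (Ds : PvudDes z b Zm Zp h' z' τ' Bx' Mp' Mm' r' r0' Ye Yc Mk μ) (R : Pvtk2Run T s pos 𝔖 𝔖' Ye n) (hy : PvwLE T (fun i => T.src (pvasIt T s 𝔖.dp i)) n y)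
    (R' : Pvtk2Run T s pos 𝔖' 𝔖 Yc n') (hy' : PvwLE T (fun i => T.src (pvasIt T s 𝔖'.dp i)) n' y')
    (mesh_i : ∀ k, k < 𝔖.inn.n → ‖T.bary pos (T.opp (𝔖.inn.e k)) - pos (𝔖.inn.v k)‖ ≤ μ) (mesh_y : ∀ k, k < y.n → ‖T.bary pos (T.opp (y.e k)) - pos (y.v k)‖ ≤ μ)
    (mesh_i' : ∀ k, k < 𝔖'.inn.n → ‖T.bary pos (T.opp (𝔖'.inn.e k)) - pos (𝔖'.inn.v k)‖ ≤ μ) (mesh_y' : ∀ k, k < y'.n → ‖T.bary pos (T.opp (y'.e k)) - pos (y'.v k)‖ ≤ μ) :
    T.Tag s (T.opp (𝔖.inn.e 0)) ∧ ∀ w : D → ℂ,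
      pvwMass T pos w (Mk \ closedBall z' r') 𝔖.inn 0 𝔖.inn.n + pvwMass T pos w (Mk \ closedBall z' r') y 0 y.n + pvwMass T pos w (Mk \ closedBall z' r') 𝔖'.inn 0 𝔖'.ip =
        T.lsum s (fun d => (pvudM Mk z' r' μ (ball z b ∪ (Zp ∪ Ye ∪ Mm'))).indicator (1 : ℂ → ℂ) (T.bary pos d) * w d) (T.opp (𝔖.inn.e 0)) := by
  obtain ⟨h1, -, h3⟩ := pvud_ring hT hS hpos E E' Ds R hy R' hy'
  refine ⟨h1, fun w => ?_⟩
  rw [pvud_exact (pvud_ex hT hS hpos E E' Ds R hy R' hy' mesh_i mesh_y mesh_i' mesh_y') E'.gate.ip_le w, h3, pvme_mass_psum, pvme_mass_psum, pvme_mass_psum, pvme_mass_psum]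

/-- **the same with ANY larger vertex mask `A₀`** for which SEP holds (290: the sets `Mp' Mm'` of the ends may depend on the index of the experiment, the mask of record may not) -/
theorem pvud_main_of (hT : T.IsSph) (hS : T.Simple) (hpos : Function.Injective pos) (E : PvudEnd T s pos 𝔖 g z b Zm Zp) (E' : Pvtk2End T s pos 𝔖' h' z' τ' Bx' Mp' Mm' r0')
    (Ds : PvudDes z b Zm Zp h' z' τ' Bx' Mp' Mm' r' r0' Ye Yc Mk μ) (R : Pvtk2Run T s pos 𝔖 𝔖' Ye n) (hy : PvwLE T (fun i => T.src (pvasIt T s 𝔖.dp i)) n y)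
    (R' : Pvtk2Run T s pos 𝔖' 𝔖 Yc n') (hy' : PvwLE T (fun i => T.src (pvasIt T s 𝔖'.dp i)) n' y')
    (mesh_i : ∀ k, k < 𝔖.inn.n → ‖T.bary pos (T.opp (𝔖.inn.e k)) - pos (𝔖.inn.v k)‖ ≤ μ) (mesh_y : ∀ k, k < y.n → ‖T.bary pos (T.opp (y.e k)) - pos (y.v k)‖ ≤ μ)
    (mesh_i' : ∀ k, k < 𝔖'.inn.n → ‖T.bary pos (T.opp (𝔖'.inn.e k)) - pos (𝔖'.inn.v k)‖ ≤ μ) (mesh_y' : ∀ k, k < y'.n → ‖T.bary pos (T.opp (y'.e k)) - pos (y'.v k)‖ ≤ μ)
    {A₀ : Set ℂ} (hA : ball z b ∪ (Zp ∪ Ye ∪ Mm') ⊆ A₀) (sep : ∀ c ∈ Mp' ∪ Yc ∪ Zm, (∀ a ∈ A₀, 3 * μ ≤ ‖a - c‖) ∨ closedBall c μ ⊆ Mkᶜ) :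
    T.Tag s (T.opp (𝔖.inn.e 0)) ∧ ∀ w : D → ℂ,
      pvwMass T pos w (Mk \ closedBall z' r') 𝔖.inn 0 𝔖.inn.n + pvwMass T pos w (Mk \ closedBall z' r') y 0 y.n + pvwMass T pos w (Mk \ closedBall z' r') 𝔖'.inn 0 𝔖'.ip =
        T.lsum s (fun d => (pvudM Mk z' r' μ A₀).indicator (1 : ℂ → ℂ) (T.bary pos d) * w d) (T.opp (𝔖.inn.e 0)) := by
  obtain ⟨h1, -, h3⟩ := pvud_ring hT hS hpos E E' Ds R hy R' hy'
  refine ⟨h1, fun w => ?_⟩
  rw [pvud_exact ((pvud_ex hT hS hpos E E' Ds R hy R' hy' mesh_i mesh_y mesh_i' mesh_y').mono hA sep) E'.gate.ip_le w, h3, pvme_mass_psum, pvme_mass_psum, pvme_mass_psum, pvme_mass_psum]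

end pairs

end Claimed.Agent.R289
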