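import Claimed.Agent.R289.Tr.ChainY

/-!
# Row 289 (S0537), THE WALL, ROAD E, box TR-SOFTE, file Tr/SoftE : THE PRODUCER OF THE FUNNELS (R18 (3): (L1) (L2) (L3))      (owner helper141; prefix `pvue_`, `pvue`, `Pvue`)

MODEL FREE.   `Tr/ChainE`, `Tr/ChainY` (218) prove TR1 TR2 TR3 for a chain whose two END LINKS are FUNNELS on the seed space.   THIS FILE produces the funnels from what the soft localisation (251 `Tr/Sure`) gives FOR FREE:
event and value of the end link are `MeasurableSet` / `Measurable` ON `Conf PvPt` and `Conf.Reads (Wn ×ˢ univ)` EXACTLY, at a DETERMINISTIC window `Wn`;   the fresh set is CONSTANT inside one experiment (L2).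
* sec. 1  **THE READER LEMMA** (L1): `pvue_restr_R`, **`pvue_rd`**, **`pvue_rd_phi`** : `Conf.Reads (Wn ×ˢ univ) f ⟹ PvkeRd U (S ×ˢ univ) (f ∘ pvdyR C yf ω)` as soon as `C ∩ Wn ⊆ S` and the recoloured sites of `ω` in `Wn \ C` lie in `U`;
          change of the base configuration: `pvue_restr_R_base`, `pvue_R_base`;   readers ON `Conf`: `pvue_Q_reads`, `pvue_W_reads` (`pvdyQ`, `pvdyW` of a window event, constant fresh set, read the window).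
* sec. 2  **`PvueWin ω C yf e D Wn`** = A WINDOW END;   **`PvueWin.rd`** : `PvkyRd b ω C yf e D` (218), hence `.ok .ag .loc` of the canonical funnel `pvkyFun`.
* sec. 3  (L3) **THE FORCED MODIFICATION** `pvueFrc μ f G q` of a funnel: `pvue_frc_ok`, **`pvue_frc_frc`** (POINTWISE forcing, no hypothesis on the event), `pvue_frc_ae` (nothing is added under the a.e. bound), `pvue_frc_ag`, `pvue_ae_of_Q` (the a.e. bound from `q ≤ pvdyQ` along the experiment).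
* sec. 4  integrals of ANY function: `pvue_lintegral_prod_le`;   **`PvkyChain.pvue_jen`** = field `jen` of `PvdmSys.Hyp` (ITERATED form, `S.w := D_c 1_Ev`);   **`pvue_transfer`** (168: one sided transfer to PLAIN event and value), `pvue_transfer_iter`.
* sec. 5  second moments: `pvue_sq`.      sec. 6  **`pvue_chain`** : two window ends + a.e. forcing + the kit ⟹ `PvkyChain`.      sec. 7  `pvue_K_base` : `κ_out`, `κ_in` read the kept part of the window only (field `yh_stab`).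
* sec. 8  **THE FORCED HALF OF `Gd`**: `pvueForced kit ε b e z d q`, `pvueSq kit ε e z d` : sets of BASE configurations, stated in the OWN experiment of the link (no pattern, no corridor);   `pvue_forced_base`, `pvue_sq_base` (they read the kept part of the window only);
          **`pvue_chain_own`** : two window ends + `ω ∈ pvueForced`, `ω ∈ pvueSq` + the kit ⟹ `PvkyChain` in ANY experiment `(C, yf)`.
-/

set_option autoImplicit false
set_option linter.unusedSectionVars false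

namespace Claimed.Agent.R289

open MeasureTheory ProbabilityTheory Set
open scoped ENNReal

/-! ## 1. the reader lemma -/

section reader

variable {b : Bool} {C Wn S U : Set ℂ} {yf : Conf PvPt → Set ℂ} {ω ω' : Conf PvPt}

theorem pvue_mem_restr_iff {W : Set PvPt} {η η' : Conf PvPt} (h : Conf.restr W η = Conf.restr W η') {p : PvPt} (hp : p ∈ W) : p ∈ η.pts ↔ p ∈ η'.pts := by
  have h1 : p ∈ (Conf.restr W η).pts ↔ p ∈ (Conf.restr W η').pts := by rw [h]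
  simp only [Conf.restr, mem_inter_iff, hp, and_true] at h1
  exact h1

/-- **the window of the resampled configuration** is a function of the seeds of the recoloured sites of the window and of the independent configuration in `C ∩ Wn` -/
theorem pvue_restr_R (hU : ∀ z ∈ cfSites ω, z ∈ Wn → z ∉ C → z ∈ yf ω → z ∈ U) (hS : C ∩ Wn ⊆ S) {κ κ' : ℂ → Bool} {η η' : Conf PvPt}
    (hκ : ∀ z ∈ U, κ z = κ' z) (hη : Conf.restr (S ×ˢ univ) η = Conf.restr (S ×ˢ univ) η') :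
    Conf.restr (Wn ×ˢ univ) (pvdyR C yf ω (κ, η)) = Conf.restr (Wn ×ˢ univ) (pvdyR C yf ω (κ', η')) := by
  ext p
  simp only [Conf.restr, mem_inter_iff, pvdy_mem_R, mem_prod, mem_univ, and_true]
  refine and_congr_left fun hW => ?_
  by_cases hC : p.1 ∈ C
  · have hp : p ∈ S ×ˢ (univ : Set Bool) := ⟨hS ⟨hC, hW⟩, mem_univ _⟩
    simp only [hC, not_true_eq_false, false_and, true_and, false_or]
    exact pvue_mem_restr_iff hη hp
  · simp only [hC, not_false_eq_true, true_and, false_and, or_false]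
    refine and_congr_right fun hs => ?_
    by_cases hy : p.1 ∈ yf ω
    · rw [pvfqMix_of_mem hy, pvfqMix_of_mem hy]
      show p.2 = κ p.1 ↔ p.2 = κ' p.1
      rw [hκ _ (hU _ hs hW hC hy)]
    · rw [pvfqMix_of_notMem hy, pvfqMix_of_notMem hy]

/-- **(L1) THE READER LEMMA** -/
theorem pvue_rd {β : Type*} {f : Conf PvPt → β} (hf : Conf.Reads (Wn ×ˢ univ) f) (hU : ∀ z ∈ cfSites ω, z ∈ Wn → z ∉ C → z ∈ yf ω → z ∈ U) (hS : C ∩ Wn ⊆ S) :
    PvkeRd U (S ×ˢ (univ : Set Bool)) fun x : PvkeX ℂ PvPt => f (pvdyR C yf ω x) :=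
  fun _ _ _ _ hκ hη => hf.congr (pvue_restr_R hU hS hκ hη)

/-- (L1) in the shortest form -/
theorem pvue_rd' {β : Type*} {f : Conf PvPt → β} (hf : Conf.Reads (Wn ×ˢ univ) f) (C : Set ℂ) (yf : Conf PvPt → Set ℂ) (ω : Conf PvPt) :
    PvkeRd (yf ω ∩ Wn) ((C ∩ Wn) ×ˢ (univ : Set Bool)) fun x : PvkeX ℂ PvPt => f (pvdyR C yf ω x) :=
  pvue_rd hf (fun _ _ h2 _ h4 => ⟨h4, h2⟩) subset_rfl

/-- **(L1) THE READER LEMMA along the experiment map of 218** (colour flip of the independent configuration) -/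
theorem pvue_rd_phi {β : Type*} {f : Conf PvPt → β} (hf : Conf.Reads (Wn ×ˢ univ) f) (hU : ∀ z ∈ cfSites ω, z ∈ Wn → z ∉ C → z ∈ yf ω → z ∈ U) (hS : C ∩ Wn ⊆ S) :
    PvkeRd U (S ×ˢ (univ : Set Bool)) fun x : PvkeX ℂ PvPt => f (pvkyPhi b C yf ω x) := by
  intro κ κ' η η' hκ hη
  refine pvue_rd hf hU hS κ κ' (pvkyFl b η) (pvkyFl b η') hκ ?_
  rw [pvky_fl_restr, pvky_fl_restr, hη]

/-- change of the BASE configuration: only the sites of `Wn \ C` and the colours of the kept ones are seen through the window -/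
theorem pvue_restr_R_base (hs : ∀ z ∈ Wn, z ∉ C → (z ∈ cfSites ω ↔ z ∈ cfSites ω')) (hy : ∀ z ∈ cfSites ω, z ∈ Wn → z ∉ C → (z ∈ yf ω ↔ z ∈ yf ω'))
    (hc : ∀ z ∈ cfSites ω, z ∈ Wn → z ∉ C → z ∉ yf ω → cfCol ω z = cfCol ω' z) (p : (ℂ → Bool) × Conf PvPt) :
    Conf.restr (Wn ×ˢ univ) (pvdyR C yf ω p) = Conf.restr (Wn ×ˢ univ) (pvdyR C yf ω' p) := by
  ext x
  simp only [Conf.restr, mem_inter_iff, pvdy_mem_R, mem_prod, mem_univ, and_true]
  refine and_congr_left fun hW => ?_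
  by_cases hC : x.1 ∈ C
  · simp only [hC, not_true_eq_false, false_and, true_and, false_or]
  · simp only [hC, not_false_eq_true, true_and, false_and, or_false]
    rw [← hs _ hW hC]
    refine and_congr_right fun h1 => ?_
    by_cases h2 : x.1 ∈ yf ω
    · rw [pvfqMix_of_mem h2, pvfqMix_of_mem ((hy _ h1 hW hC).1 h2)]
    · rw [pvfqMix_of_notMem h2, pvfqMix_of_notMem fun h => h2 ((hy _ h1 hW hC).2 h)]
      show x.2 = cfCol ω x.1 ↔ x.2 = cfCol ω' x.1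
      rw [hc _ h1 hW hC h2]

theorem pvue_R_base {β : Type*} {f : Conf PvPt → β} (hf : Conf.Reads (Wn ×ˢ univ) f) (hs : ∀ z ∈ Wn, z ∉ C → (z ∈ cfSites ω ↔ z ∈ cfSites ω'))
    (hy : ∀ z ∈ cfSites ω, z ∈ Wn → z ∉ C → (z ∈ yf ω ↔ z ∈ yf ω')) (hc : ∀ z ∈ cfSites ω, z ∈ Wn → z ∉ C → z ∉ yf ω → cfCol ω z = cfCol ω' z) (p : (ℂ → Bool) × Conf PvPt) :
    f (pvdyR C yf ω p) = f (pvdyR C yf ω' p) :=
  hf.congr (pvue_restr_R_base hs hy hc p)

theorem pvue_sites_restr {z : ℂ} (hz : z ∈ Wn) (η : Conf PvPt) : z ∈ cfSites (Conf.restr (Wn ×ˢ univ) η) ↔ z ∈ cfSites η := by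
  constructor
  · rintro ⟨p, hp, rfl⟩
    exact ⟨p, hp.1, rfl⟩
  · rintro ⟨p, hp, rfl⟩
    exact ⟨p, ⟨hp, hz, mem_univ _⟩, rfl⟩

theorem pvue_col_restr {z : ℂ} (hz : z ∈ Wn) (η : Conf PvPt) : cfCol (Conf.restr (Wn ×ˢ univ) η) z = cfCol η z := by
  unfold cfCol
  congr 1
  simp only [Conf.restr, mem_inter_iff, mem_prod, mem_univ, and_true, hz]

/-- a window function evaluated after an experiment with a CONSTANT fresh set reads the window -/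
theorem pvue_R_reads {β : Type*} {f : Conf PvPt → β} (hf : Conf.Reads (Wn ×ˢ univ) f) (K y₀ : Set ℂ) (p : (ℂ → Bool) × Conf PvPt) :
    Conf.Reads (Wn ×ˢ univ) fun η => f (pvdyR K (fun _ => y₀) η p) := fun η =>
  pvue_R_base hf (fun _ hz _ => pvue_sites_restr hz η) (fun _ _ _ _ => Iff.rfl) (fun _ _ hz _ _ => pvue_col_restr hz η) p

/-- the conditional probability of 193 of a window event reads the window -/
theorem pvue_Q_reads (ε : ℝ) (K y₀ : Set ℂ) {A : Set (Conf PvPt)} (hA : Conf.Reads (Wn ×ˢ univ) fun η => η ∈ A) : Conf.Reads (Wn ×ˢ univ) (pvdyQ ε K (fun _ => y₀) A) := fun η => by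
  unfold pvdyQ
  congr 1
  ext p
  exact iff_of_eq (pvue_R_reads hA K y₀ p η)

/-- the weight `1_A / P(A | kept)` of a window event reads the window -/
theorem pvue_W_reads (ε : ℝ) (K y₀ : Set ℂ) {A : Set (Conf PvPt)} (hA : Conf.Reads (Wn ×ˢ univ) fun η => η ∈ A) : Conf.Reads (Wn ×ˢ univ) (pvdyW ε K (fun _ => y₀) A) := fun η => by
  unfold pvdyW
  rw [pvue_Q_reads ε K y₀ hA η, (pvti_ind_reads hA) η]

end reader

/-! ## 2. a window end -/

/-- **A WINDOW END** at the base configuration `ω`, in the experiment `(C, yf)`; `D` = the region of its door plug, `Wn` = its DETERMINISTIC window.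
`mA mX rA rX` are free for `pvsuSure`, `pvsuLoc` (251);   `cst` = (L2);   `win fresh` = the window meets the resampled region in the own tile and door only, the recoloured sites of the window are the own fresh sites -/
structure PvueWin (ω : Conf PvPt) (C : Set ℂ) (yf : Conf PvPt → Set ℂ) (e : PvkyEnd) (D Wn : Set ℂ) : Prop where
  mC : MeasurableSet C
  cnt : (cfSites ω).Countable
  mK : MeasurableSet e.K
  mA : MeasurableSet e.A
  mX : Measurable e.X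
  rA : Conf.Reads (Wn ×ˢ univ) fun η => η ∈ e.A
  rX : Conf.Reads (Wn ×ˢ univ) e.X
  cst : ∀ η, e.y η = e.y ω
  sub : e.K ∪ D ⊆ C
  win : C ∩ Wn ⊆ e.K ∪ D
  ysub : e.y ω ⊆ yf ω
  yC : Disjoint (e.y ω) C
  fresh : ∀ z ∈ cfSites ω, z ∈ Wn → z ∉ C → z ∈ yf ω → z ∈ e.y ω

/-- **a window end satisfies the pointwise contract of 218** -/
theorem PvueWin.rd {ω : Conf PvPt} {C : Set ℂ} {yf : Conf PvPt → Set ℂ} {e : PvkyEnd} {D Wn : Set ℂ} (h : PvueWin ω C yf e D Wn) (b : Bool) : PvkyRd b ω C yf e D where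
  mK := h.mK
  sub := h.sub
  ysub := h.ysub
  yC := h.yC
  mA := (pvky_measurable_phi b h.mC yf h.cnt) h.mA
  mX := h.mX.comp (pvky_measurable_phi b h.mC yf h.cnt)
  rA := pvue_rd_phi h.rA h.fresh h.win
  rX := pvue_rd_phi h.rX h.fresh h.win
  stop := fun x z _ _ => by rw [h.cst]

/-! ## 3. (L3) the forced modification of a funnel -/

section frc

variable {Z : Type} {μ : Measure (Conf PvPt)} {m : Measure PvPt} {f : PvkeFun Z} {G : Set (Conf PvPt)} {O : Set PvPt} {q : ℝ≥0∞}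

/-- the conditional probability of the success of a funnel -/
noncomputable def pvueP (μ : Measure (Conf PvPt)) (f : PvkeFun Z) (x : PvkeX Z PvPt) : ℝ≥0∞ := pvtkE (pvkeLaw Z μ) (pvkeAt f.U f.K) (f.A.indicator 1) x

/-- **(L3) THE FORCED MODIFICATION**: where the door plug is usable and the conditional probability of the success is `< q`, the link is DECLARED successful -/
noncomputable def pvueFrc (μ : Measure (Conf PvPt)) (f : PvkeFun Z) (G : Set (Conf PvPt)) (q : ℝ≥0∞) : PvkeFun Z where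
  U := f.U
  K := f.K
  A := f.A ∪ {x | x.2 ∈ G ∧ pvueP μ f x < q}
  X := f.X

theorem pvue_eqns_cite : True := by
  have := @pvueP.eq_1; have := @pvueFrc.eq_1
  trivial

/-- the conditional expectation over the own atom reads what the function reads -/
theorem pvue_rd_E {U : Set Z} {K : Set PvPt} {F : PvkeX Z PvPt → ℝ≥0∞} (hF : PvkeRd U (K ∪ O) F) : PvkeRd U (K ∪ O) (pvtkE (pvkeLaw Z μ) (pvkeAt U K) F) := by
  intro κ κ' η η' _ hη
  unfold pvtkE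
  refine lintegral_congr fun x' => ?_
  refine hF _ _ _ _ (fun z hz => ?_) ?_
  · rw [pvtu_blk_mem hz, pvtu_blk_mem hz]
  · ext p
    simp only [Conf.restr, mem_inter_iff, pvtk_mem_R]
    refine and_congr_left fun hp => ?_
    rw [pvue_mem_restr_iff hη hp]

theorem pvue_rd_ind {U : Set Z} {W : Set PvPt} {A : Set (PvkeX Z PvPt)} (hA : PvkeRd U W fun x => x ∈ A) : PvkeRd U W (A.indicator (1 : PvkeX Z PvPt → ℝ≥0∞)) := by
  classical
  intro κ κ' η η' hκ hη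
  have e : ((κ, η) ∈ A) = ((κ', η') ∈ A) := hA κ κ' η η' hκ hη
  by_cases h : (κ, η) ∈ A
  · rw [indicator_of_mem h, indicator_of_mem (e ▸ h)]; rfl
  · rw [indicator_of_notMem h, indicator_of_notMem (e ▸ h)]

theorem pvue_P_measurable (h : IsPpp m μ) (hf : f.Ok O) : Measurable (pvueP μ f) := by
  have := h.prob
  exact pvtk_E_measurable (pvke_rs_at h f.U hf.mK) (measurable_one.indicator hf.mA)

theorem pvue_P_rd (hf : f.Ok O) : PvkeRd f.U (f.K ∪ O) (pvueP μ f) := pvue_rd_E (pvue_rd_ind hf.rA)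

/-- the modified funnel is a funnel -/
theorem pvue_frc_ok (h : IsPpp m μ) (hf : f.Ok O) (mG : MeasurableSet G) (rG : Conf.Reads O fun η => η ∈ G) (q : ℝ≥0∞) : (pvueFrc μ f G q).Ok O where
  mK := hf.mK
  mA := hf.mA.union ((measurable_snd mG).inter (measurableSet_lt (pvue_P_measurable h hf) measurable_const))
  mX := hf.mX
  rA := by
    have r1 : PvkeRd f.U (f.K ∪ O) fun x : PvkeX Z PvPt => x.2 ∈ G := (pvke_rd_snd rG f.U).mono subset_rfl subset_union_right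
    have r2 : PvkeRd f.U (f.K ∪ O) fun x : PvkeX Z PvPt => pvueP μ f x < q := (pvue_P_rd hf).comp (· < q)
    exact hf.rA.map₂ (r1.map₂ r2 And) Or
  rX := hf.rX

/-- **POINTWISE FORCING**, no hypothesis on the success event -/
theorem pvue_frc_frc (h : IsPpp m μ) (hf : f.Ok O) (rG : Conf.Reads O fun η => η ∈ G) (hd : Disjoint O f.K) (q0 : q ≠ 0) (q1 : q ≤ 1) : (pvueFrc μ f G q).Frc μ G q where
  q0 := q0
  frc := fun x hx => by
    have := h.prob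
    have rs : PvtkRs (pvkeLaw Z μ) (pvkeAt f.U f.K) := pvke_rs_at h f.U hf.mK
    show q ≤ pvtkE (pvkeLaw Z μ) (pvkeAt f.U f.K) ((f.A ∪ {x | x.2 ∈ G ∧ pvueP μ f x < q}).indicator 1) x
    by_cases hq : pvueP μ f x < q
    · have e : ∀ x', (f.A ∪ {x | x.2 ∈ G ∧ pvueP μ f x < q}).indicator (1 : PvkeX Z PvPt → ℝ≥0∞) (pvkeAt f.U f.K (x, x')) = 1 := by
        intro x'
        have e1 : ((pvkeAt f.U f.K (x, x')).2 ∈ G) = (x.2 ∈ G) := rG.congr (pvke_restr_R_off hd x.2 x'.2)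
        have e2 : pvueP μ f (pvkeAt f.U f.K (x, x')) = pvueP μ f x := pvtk_E_ig rs _ x x'
        have hm : pvkeAt f.U f.K (x, x') ∈ f.A ∪ {x | x.2 ∈ G ∧ pvueP μ f x < q} := Or.inr ⟨by rw [e1]; exact hx, by rw [e2]; exact hq⟩
        exact indicator_of_mem hm _
      unfold pvtkE
      simp_rw [e]
      simpa using q1
    · exact (not_lt.1 hq).trans (lintegral_mono fun x' => indicator_le_indicator_of_subset subset_union_left (fun _ => zero_le) _)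

/-- under the a.e. bound nothing is added -/
theorem pvue_frc_ae (hb : ∀ᵐ x ∂(pvkeLaw Z μ), x.2 ∈ G → q ≤ pvueP μ f x) : ∀ᵐ x ∂(pvkeLaw Z μ), (x ∈ (pvueFrc μ f G q).A ↔ x ∈ f.A) := by
  filter_upwards [hb] with x hx
  exact ⟨fun h => h.elim id fun h2 => absurd h2.2 (not_lt.2 (hx h2.1)), Or.inl⟩

end frc

section frcY

variable {ε : ℝ} {b : Bool} {ω : Conf PvPt} {C : Set ℂ} {yf : Conf PvPt → Set ℂ} {e : PvkyEnd} {f : PvkeFun ℂ} {G : Set (Conf PvPt)} {q : ℝ≥0∞}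

/-- the modified funnel represents the same end link -/
theorem pvue_frc_ag (h : PvkyAg ε b ω C yf e f) (hb : ∀ᵐ x ∂(pvkeLaw ℂ (pvP ε)), x.2 ∈ G → q ≤ pvueP (pvP ε) f x) : PvkyAg ε b ω C yf e (pvueFrc (pvP ε) f G q) where
  U_eq := h.U_eq
  K_eq := h.K_eq
  sub := h.sub
  ysub := h.ysub
  yC := h.yC
  ae := by
    filter_upwards [h.ae, pvue_frc_ae hb] with x h1 h2
    exact ⟨h1.1.trans h2.symm, h1.2.1, h1.2.2⟩

/-- **the a.e. bound on the seeds from the bound `q ≤ pvdyQ` ALONG THE EXPERIMENT** (the form of `Gd`: for a.e. `p`, door plug usable at `R ω p` `⟹ q ≤ pvdyQ ε e.K e.y e.A (R ω p)`);   `G` is read inside `C` -/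
theorem pvue_ae_of_Q (h : PvkyAg ε b ω C yf e f) (mK : MeasurableSet f.K) (mA : MeasurableSet f.A) {O : Set PvPt} (rG : Conf.Reads O fun η => η ∈ G) (hO : O ⊆ C ×ˢ univ)
    (hQ : ∀ᵐ p ∂pvdyNu ε, pvkyFl b (pvdyR C yf ω p) ∈ G → q ≤ pvdyQ ε e.K e.y e.A (pvdyR C yf ω p)) : ∀ᵐ x ∂(pvkeLaw ℂ (pvP ε)), x.2 ∈ G → q ≤ pvueP (pvP ε) f x := by
  have h2 : ∀ᵐ x ∂(pvkeLaw ℂ (pvP ε)), pvkyFl b (pvkyPhi b C yf ω x) ∈ G → q ≤ pvdyQ ε e.K e.y e.A (pvkyPhi b C yf ω x) := pvky_ae_T b ε hQ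
  filter_upwards [h2, h.Q_ae mK mA] with x h3 h4 hx
  have e1 : (pvkyFl b (pvkyPhi b C yf ω x) ∈ G) = (x.2 ∈ G) := pvky_reads_phi rG hO x
  have := h3 (e1 ▸ hx)
  rw [h4] at this
  exact this

end frcY

/-! ## 4. integrals of ANY function: the field `jen` in the iterated form, the one sided transfer -/

/-- the lower integral over a product is at most the iterated lower integral: NO measurability -/
theorem pvue_lintegral_prod_le {α β : Type*} [MeasurableSpace α] [MeasurableSpace β] (μ : Measure α) (ν : Measure β) [SFinite ν] (f : α × β → ℝ≥0∞) :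
    ∫⁻ p, f p ∂(μ.prod ν) ≤ ∫⁻ a, ∫⁻ b, f (a, b) ∂ν ∂μ := by
  obtain ⟨g, hg, hgf, e⟩ := exists_measurable_le_lintegral_eq (μ.prod ν) f
  rw [e, lintegral_prod _ hg.aemeasurable]
  exact lintegral_mono fun a => lintegral_mono fun b => hgf (a, b)

/-- from the product form with the constant outside to the iterated form with the weight `D 1_Ev` inside: NO measurability -/
theorem pvue_iter (ε : ℝ) {D₀ D : ℝ≥0∞} (hD : D₀ ≤ D) (Ev : Set (Conf PvPt)) (F : Conf PvPt → ℝ≥0∞) (r : (ℂ → Bool) × Conf PvPt → Conf PvPt) :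
    D₀ * ∫⁻ p, F (r p) * Ev.indicator 1 (r p) ∂pvdyNu ε ≤ ∫⁻ κ, ∫⁻ ω₂, (D * Ev.indicator 1 (r (κ, ω₂))) * F (r (κ, ω₂)) ∂(pvP ε) ∂(colLaw ℂ) := by
  have := (pv_isPpp ε).prob
  calc D₀ * ∫⁻ p, F (r p) * Ev.indicator 1 (r p) ∂pvdyNu ε ≤ D * ∫⁻ p, F (r p) * Ev.indicator 1 (r p) ∂pvdyNu ε := mul_le_mul_left hD _
    _ ≤ ∫⁻ p, D * (F (r p) * Ev.indicator 1 (r p)) ∂pvdyNu ε := lintegral_const_mul_le _ _
    _ ≤ ∫⁻ κ, ∫⁻ ω₂, D * (F (r (κ, ω₂)) * Ev.indicator 1 (r (κ, ω₂))) ∂(pvP ε) ∂(colLaw ℂ) := pvue_lintegral_prod_le _ _ _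
    _ = _ := by
      refine lintegral_congr fun κ => lintegral_congr fun ω₂ => ?_
      ring

section jen

variable {kit : PvthKit} {ε : ℝ} {b : Bool} {X₀ : PvtTurn → Conf PvPt → ℂ} {z d : ℂ} {l : List PvtTurn} {ω : Conf PvPt} {C : Set ℂ} {yf : Conf PvPt → Set ℂ}
  {eo ei : PvkyEnd} {fo fi : PvkeFun ℂ} {β' q qo qi : ℝ≥0∞}

/-- **THE FIELD `jen` OF `PvdmSys.Hyp` / `PvxnOk`** (iterated form) with `S.w := D 1_Ev`, `S.Y := pvkyYc`, `ŷ := κ_out + pvtSum W + κ_in`;   any `D ≥ D_c` -/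
theorem PvkyChain.pvue_jen (H : PvkyChain kit ε b X₀ z d l ω C yf eo ei fo fi β' q qo qi) {D : ℝ≥0∞} (hD : pvkeD kit (pvP ε) l.length q qo qi ≤ D) (x₀ : ℂ) :
    ‖x₀ + (pvkyK kit ε b eo z d ω + pvtSum (kit.W (pvP ε) X₀) d l + pvkyK kit ε b ei (pvthZ kit.δ z d l l.length) (pvthD d l l.length) ω)‖ₑ ^ 2 ≤
      ∫⁻ κ, ∫⁻ ω₂, (D * (pvkyEv kit b z d l eo ei).indicator 1 (pvdyR C yf ω (κ, ω₂))) * ‖x₀ + pvkyYc kit b z d l eo ei X₀ (pvdyR C yf ω (κ, ω₂))‖ₑ ^ 2 ∂(pvP ε) ∂(colLaw ℂ) :=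
  (H.jensen' x₀).trans (pvue_iter ε hD (pvkyEv kit b z d l eo ei) (fun η => ‖x₀ + pvkyYc kit b z d l eo ei X₀ η‖ₑ ^ 2) (pvdyR C yf ω))

/-- **THE ONE SIDED TRANSFER** (168): for almost every seed of the success event of the engine, the PLAIN event `Ev'` holds at the resampled configuration and the PLAIN closing sum `Y'` is the closing sum of the engine.
Then TR3 holds with the plain objects (no measurability of `Ev'`, `Y'`) -/
theorem pvue_transfer (H : PvkeChain kit ε X₀ z d l fo fi β' q qo qi) (b : Bool) (C : Set ℂ) (yf : Conf PvPt → Set ℂ) (ω : Conf PvPt) {Ev' : Set (Conf PvPt)} {Y' : Conf PvPt → ℂ}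
    (ht : ∀ᵐ x ∂(pvkeLaw ℂ (pvP ε)), x ∈ pvkeEv kit z d l fo fi → pvkyPhi b C yf ω x ∈ Ev' ∧ Y' (pvkyPhi b C yf ω x) = pvkeY kit z d l fo fi X₀ x) (x₀ : ℂ) :
    ‖x₀ + H.yhat‖ₑ ^ 2 ≤ pvkeD kit (pvP ε) l.length q qo qi * ∫⁻ p, ‖x₀ + Y' (pvdyR C yf ω p)‖ₑ ^ 2 * Ev'.indicator 1 (pvdyR C yf ω p) ∂pvdyNu ε := by
  refine (H.jensen x₀).trans (mul_le_mul_right ?_ _)
  rw [pvky_lintegral_phi b ε C yf (fun η => ‖x₀ + Y' η‖ₑ ^ 2 * Ev'.indicator 1 η)]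
  refine lintegral_mono_ae ?_
  filter_upwards [ht] with x hx
  by_cases h : x ∈ pvkeEv kit z d l fo fi
  · rw [indicator_of_mem h, indicator_of_mem (hx h).1, (hx h).2]
    exact le_rfl
  · rw [indicator_of_notMem h, mul_zero]
    exact zero_le

/-- the transfer in the iterated form -/
theorem pvue_transfer_iter (H : PvkeChain kit ε X₀ z d l fo fi β' q qo qi) (b : Bool) (C : Set ℂ) (yf : Conf PvPt → Set ℂ) (ω : Conf PvPt) {Ev' : Set (Conf PvPt)} {Y' : Conf PvPt → ℂ}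
    (ht : ∀ᵐ x ∂(pvkeLaw ℂ (pvP ε)), x ∈ pvkeEv kit z d l fo fi → pvkyPhi b C yf ω x ∈ Ev' ∧ Y' (pvkyPhi b C yf ω x) = pvkeY kit z d l fo fi X₀ x)
    {D : ℝ≥0∞} (hD : pvkeD kit (pvP ε) l.length q qo qi ≤ D) (x₀ : ℂ) :
    ‖x₀ + H.yhat‖ₑ ^ 2 ≤ ∫⁻ κ, ∫⁻ ω₂, (D * Ev'.indicator 1 (pvdyR C yf ω (κ, ω₂))) * ‖x₀ + Y' (pvdyR C yf ω (κ, ω₂))‖ₑ ^ 2 ∂(pvP ε) ∂(colLaw ℂ) :=
  (pvue_transfer H b C yf ω ht x₀).trans (pvue_iter ε hD Ev' (fun η => ‖x₀ + Y' η‖ₑ ^ 2) (pvdyR C yf ω))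

end jen

/-! ## 5. second moments -/

section sq

variable {Z : Type} {kit : PvthKit} {μ : Measure (Conf PvPt)} {f : PvkeFun Z} {z d : ℂ} {q : ℝ≥0∞}

/-- the weight of a forced funnel with its door plug is bounded -/
theorem pvue_gw_le (hF : f.Frc μ (kit.G z d) q) (x : PvkeX Z PvPt) : kit.g μ z d x.2 * f.w μ x ≤ ((μ kit.G₀)⁻¹ * q⁻¹) * f.A.indicator 1 x := by
  unfold PvthKit.g
  by_cases hx : x.2 ∈ kit.G z d
  · rw [indicator_of_mem hx, Pi.one_apply, one_div, mul_assoc]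
    exact mul_le_mul_right (pvtk_W_le (hF.frc x hx)) _
  · rw [indicator_of_notMem hx, ENNReal.zero_div, zero_mul]
    exact zero_le

/-- **`sq_o`, `sq_i` of `PvkeChain`** from the plain second moment on the success event -/
theorem pvue_sq (hF : f.Frc μ (kit.G z d) q) (hG : μ kit.G₀ ≠ 0) (h2 : ∫⁻ x, ‖f.X x‖ₑ ^ 2 * f.A.indicator 1 x ∂(pvkeLaw Z μ) ≠ ∞) :
    ∫⁻ x, ‖f.X x‖ₑ ^ 2 * (kit.g μ z d x.2 * f.w μ x) ∂(pvkeLaw Z μ) ≠ ∞ := by
  have hc : (μ kit.G₀)⁻¹ * q⁻¹ ≠ ∞ := ENNReal.mul_ne_top (ENNReal.inv_ne_top.2 hG) (ENNReal.inv_ne_top.2 hF.q0)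
  refine ne_top_of_le_ne_top (ENNReal.mul_ne_top h2 hc) ?_
  rw [← lintegral_mul_const' _ _ hc]
  refine lintegral_mono fun x => ?_
  calc ‖f.X x‖ₑ ^ 2 * (kit.g μ z d x.2 * f.w μ x) ≤ ‖f.X x‖ₑ ^ 2 * (((μ kit.G₀)⁻¹ * q⁻¹) * f.A.indicator 1 x) := mul_le_mul_right (pvue_gw_le hF x) _
    _ = ‖f.X x‖ₑ ^ 2 * f.A.indicator 1 x * ((μ kit.G₀)⁻¹ * q⁻¹) := by ring

/-- the plain second moment is not changed by the forced modification -/
theorem pvue_sq_frc {G : Set (Conf PvPt)} (hb : ∀ᵐ x ∂(pvkeLaw Z μ), x.2 ∈ G → q ≤ pvueP μ f x) :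
    ∫⁻ x, ‖(pvueFrc μ f G q).X x‖ₑ ^ 2 * (pvueFrc μ f G q).A.indicator 1 x ∂(pvkeLaw Z μ) = ∫⁻ x, ‖f.X x‖ₑ ^ 2 * f.A.indicator 1 x ∂(pvkeLaw Z μ) := by
  refine lintegral_congr_ae ?_
  filter_upwards [pvue_frc_ae hb] with x hx
  show ‖f.X x‖ₑ ^ 2 * _ = _
  congr 1
  by_cases h : x ∈ f.A
  · rw [indicator_of_mem h, indicator_of_mem (hx.2 h)]
  · rw [indicator_of_notMem h, indicator_of_notMem fun hh => h (hx.1 hh)]

/-- the plain second moment of the canonical funnel, on configurations -/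
theorem pvue_sq_fun (ε : ℝ) (b : Bool) (C : Set ℂ) (yf : Conf PvPt → Set ℂ) (ω : Conf PvPt) (e : PvkyEnd) :
    ∫⁻ x, ‖(pvkyFun b C yf ω e).X x‖ₑ ^ 2 * (pvkyFun b C yf ω e).A.indicator 1 x ∂(pvkeLaw ℂ (pvP ε)) = ∫⁻ p, ‖e.X (pvdyR C yf ω p)‖ₑ ^ 2 * e.A.indicator 1 (pvdyR C yf ω p) ∂pvdyNu ε := by
  rw [pvky_lintegral_phi b ε C yf (fun η => ‖e.X η‖ₑ ^ 2 * e.A.indicator 1 η)]
  rfl

end sq

/-! ## 6. the assembly: two window ends, a.e. forcing, the kit -/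

section asm

variable {kit : PvthKit} {ε : ℝ} {b : Bool} {X₀ : PvtTurn → Conf PvPt → ℂ} {z d : ℂ} {l : List PvtTurn} {ω : Conf PvPt} {C : Set ℂ} {yf : Conf PvPt → Set ℂ}
  {eo ei : PvkyEnd} {Wo Wi : Set ℂ} {β' q qo qi : ℝ≥0∞}

/-- **THE CHAIN RECORD OF 218 FROM TWO WINDOW ENDS**.   What is left to the model: the kit (`WF Fld Forced sq`), the geometry (`geo CO CK` + the fields of `PvueWin`), THE A.E. FORCING ALONG THE EXPERIMENT (`Qo Qi` = the forced half of `Gd`), two plain second moments -/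
theorem pvue_chain (hk : kit.WF) (hX : kit.Fld X₀) (hF : kit.Forced (pvP ε) β' q) (hd : d ^ 4 = 1)
    (wo : PvueWin ω C yf eo (pvkyDoor kit z d) Wo) (wi : PvueWin ω C yf ei (pvkyDoor kit (pvthZ kit.δ z d l l.length) (pvthD d l l.length)) Wi)
    (geo : PvkeGeo kit z d l (pvkyFun b C yf ω eo) (pvkyFun b C yf ω ei))
    (CO : ∀ j ≤ l.length, pvkeO kit z d l j ⊆ C ×ˢ univ) (CK : ∀ j < l.length, pvkeK kit z d l j ⊆ C ×ˢ univ)
    (qo0 : qo ≠ 0) (qo1 : qo ≤ 1) (qi0 : qi ≠ 0) (qi1 : qi ≤ 1)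
    (Qo : ∀ᵐ p ∂pvdyNu ε, pvkyFl b (pvdyR C yf ω p) ∈ kit.G z d → qo ≤ pvdyQ ε eo.K eo.y eo.A (pvdyR C yf ω p))
    (Qi : ∀ᵐ p ∂pvdyNu ε, pvkyFl b (pvdyR C yf ω p) ∈ kit.G (pvthZ kit.δ z d l l.length) (pvthD d l l.length) → qi ≤ pvdyQ ε ei.K ei.y ei.A (pvdyR C yf ω p))
    (sq : ∀ τ, ∫⁻ η, ‖X₀ τ η‖ₑ ^ 2 * kit.w2 (pvP ε) 0 1 τ η ∂(pvP ε) ≠ ∞)
    (so : ∫⁻ p, ‖eo.X (pvdyR C yf ω p)‖ₑ ^ 2 * eo.A.indicator 1 (pvdyR C yf ω p) ∂pvdyNu ε ≠ ∞)
    (si : ∫⁻ p, ‖ei.X (pvdyR C yf ω p)‖ₑ ^ 2 * ei.A.indicator 1 (pvdyR C yf ω p) ∂pvdyNu ε ≠ ∞) :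
    PvkyChain kit ε b X₀ z d l ω C yf eo ei (pvueFrc (pvP ε) (pvkyFun b C yf ω eo) (kit.G z d) qo)
      (pvueFrc (pvP ε) (pvkyFun b C yf ω ei) (kit.G (pvthZ kit.δ z d l l.length) (pvthD d l l.length)) qi) β' q qo qi := by
  have hd0 : d ≠ 0 := pvth_ne_zero (pvth_norm_of_pow hd)
  have hdl : pvthD d l l.length ≠ 0 := pvthx_D_ne hd l l.length
  have hG0 : pvP ε kit.G₀ ≠ 0 := fun h0 => hF.β0 (le_antisymm (h0 ▸ hF.adm) zero_le)
  have eZ : pvthZ kit.δ z d l 0 = z := pvthx_Z_zero _ _ _ _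
  have eD : pvthD d l 0 = d := pvthx_D_zero _ _
  have eO : pvkeO kit z d l 0 = kit.O z d := by show kit.O _ _ = _; rw [eZ, eD]
  -- the two canonical funnels
  have oko : (pvkyFun b C yf ω eo).Ok (kit.O z d) := (wo.rd b).ok
  have oki : (pvkyFun b C yf ω ei).Ok (kit.O (pvthZ kit.δ z d l l.length) (pvthD d l l.length)) := (wi.rd b).ok
  have rGo := pvth_rG hk z d hd0
  have rGi := pvth_rG hk (pvthZ kit.δ z d l l.length) (pvthD d l l.length) hdl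
  have hbo : ∀ᵐ x ∂(pvkeLaw ℂ (pvP ε)), x.2 ∈ kit.G z d → qo ≤ pvueP (pvP ε) (pvkyFun b C yf ω eo) x :=
    pvue_ae_of_Q ((wo.rd b).ag ε) oko.mK oko.mA rGo (eO ▸ CO 0 (Nat.zero_le _)) Qo
  have hbi : ∀ᵐ x ∂(pvkeLaw ℂ (pvP ε)), x.2 ∈ kit.G (pvthZ kit.δ z d l l.length) (pvthD d l l.length) → qi ≤ pvueP (pvP ε) (pvkyFun b C yf ω ei) x :=
    pvue_ae_of_Q ((wi.rd b).ag ε) oki.mK oki.mA rGi (CO l.length le_rfl) Qi
  have fro : (pvueFrc (pvP ε) (pvkyFun b C yf ω eo) (kit.G z d) qo).Frc (pvP ε) (kit.G z d) qo :=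
    pvue_frc_frc (pv_isPpp ε) oko rGo (eO ▸ geo.oO 0 (Nat.zero_le _)) qo0 qo1
  have fri : (pvueFrc (pvP ε) (pvkyFun b C yf ω ei) (kit.G (pvthZ kit.δ z d l l.length) (pvthD d l l.length)) qi).Frc (pvP ε) (kit.G (pvthZ kit.δ z d l l.length) (pvthD d l l.length)) qi :=
    pvue_frc_frc (pv_isPpp ε) oki rGi (geo.iO l.length le_rfl) qi0 qi1
  refine ⟨⟨hk, hX, hF, hd, ⟨geo.OO, geo.KK, geo.OK, geo.oO, geo.iO, geo.oK, geo.iK, geo.oi, geo.UU⟩, ?_, ?_, ?_, fri, sq, ?_, ?_⟩, CO, CK,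
    pvue_frc_ag ((wo.rd b).ag ε) hbo, pvue_frc_ag ((wi.rd b).ag ε) hbi, pvue_frc_ag ((wo.rd b).loc ε) hbo, pvue_frc_ag ((wi.rd b).loc ε) hbi⟩
  · rw [eO]
    exact pvue_frc_ok (pv_isPpp ε) oko (pvth_mG hk z d) rGo qo
  · exact pvue_frc_ok (pv_isPpp ε) oki (pvth_mG hk _ _) rGi qi
  · rw [eZ, eD]
    exact fro
  · rw [eZ, eD]
    refine pvue_sq fro hG0 ?_
    rw [pvue_sq_frc hbo, pvue_sq_fun]
    exact so
  · refine pvue_sq fri hG0 ?_
    rw [pvue_sq_frc hbi, pvue_sq_fun]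
    exact si

end asm

/-! ## 7. `κ_out`, `κ_in` read the kept part of the window only -/

/-- **BASE CHANGE FOR `κ_out`, `κ_in`** (field `yh_stab`): two base configurations with the same sites in `Wn` off the tile and the door, and the same colours at those which are not fresh, have the same `pvkyK` -/
theorem pvue_K_base {kit : PvthKit} (hk : kit.WF) (ε : ℝ) (b : Bool) {e : PvkyEnd} {z d : ℂ} (hd : d ≠ 0) {Wn y₀ : Set ℂ} (cst : ∀ η, e.y η = y₀)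
    (rA : Conf.Reads (Wn ×ˢ univ) fun η => η ∈ e.A) (rX : Conf.Reads (Wn ×ˢ univ) e.X) {ω ω' : Conf PvPt}
    (hs : ∀ v ∈ Wn, v ∉ e.K ∪ pvkyDoor kit z d → (v ∈ cfSites ω ↔ v ∈ cfSites ω'))
    (hc : ∀ v ∈ cfSites ω, v ∈ Wn → v ∉ e.K ∪ pvkyDoor kit z d → v ∉ y₀ → cfCol ω v = cfCol ω' v) :
    pvkyK kit ε b e z d ω = pvkyK kit ε b e z d ω' := by
  have ey : e.y = fun _ => y₀ := funext cst
  have hy : ∀ v ∈ cfSites ω, v ∈ Wn → v ∉ e.K ∪ pvkyDoor kit z d → (v ∈ e.y ω ↔ v ∈ e.y ω') := fun v _ _ _ => by rw [cst, cst]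
  have hc' : ∀ v ∈ cfSites ω, v ∈ Wn → v ∉ e.K ∪ pvkyDoor kit z d → v ∉ e.y ω → cfCol ω v = cfCol ω' v := fun v h1 h2 h3 h4 => hc v h1 h2 h3 (by rwa [cst] at h4)
  have rW : Conf.Reads (Wn ×ˢ univ) (pvdyW ε e.K e.y e.A) := by rw [ey]; exact pvue_W_reads ε e.K y₀ rA
  have e1 : ∀ p, e.X (pvdyR (e.K ∪ pvkyDoor kit z d) e.y ω p) = e.X (pvdyR (e.K ∪ pvkyDoor kit z d) e.y ω' p) := pvue_R_base rX hs hy hc'
  have e2 : ∀ p, pvkyW1 kit ε b e z d (pvdyR (e.K ∪ pvkyDoor kit z d) e.y ω p) = pvkyW1 kit ε b e z d (pvdyR (e.K ∪ pvkyDoor kit z d) e.y ω' p) := by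
    intro p
    unfold pvkyW1
    rw [pvue_R_base rW hs hy hc' p]
    congr 1
    refine (pvth_g_reads hk (pvP ε) z d hd).congr ?_
    show Conf.restr (pvkyDoor kit z d ×ˢ univ) _ = Conf.restr (pvkyDoor kit z d ×ˢ univ) _
    rw [pvky_fl_restr, pvky_fl_restr, pvky_restr_R subset_union_right, pvky_restr_R subset_union_right]
  unfold pvkyK
  rw [pvdy_hat_eq, pvdy_hat_eq]
  simp_rw [e1, e2]

/-! ## 8. THE FORCED HALF OF `Gd`, in the OWN experiment of the link (independent of the pattern, of the index of N1, of the cycle) -/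

/-- **THE FORCED BASE CONFIGURATIONS OF AN END LINK**: in the OWN experiment (tile + door plug, fresh sites), for almost every seed with a usable door plug the conditional probability of the success is `≥ q` -/
def pvueForced (kit : PvthKit) (ε : ℝ) (b : Bool) (e : PvkyEnd) (z d : ℂ) (q : ℝ≥0∞) : Set (Conf PvPt) :=
  {ω | ∀ᵐ p ∂pvdyNu ε, pvkyFl b (pvdyR (e.K ∪ pvkyDoor kit z d) e.y ω p) ∈ kit.G z d → q ≤ pvdyQ ε e.K e.y e.A (pvdyR (e.K ∪ pvkyDoor kit z d) e.y ω p)}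

/-- the base configurations with a finite second moment of the link in its own experiment -/
def pvueSq (kit : PvthKit) (ε : ℝ) (e : PvkyEnd) (z d : ℂ) : Set (Conf PvPt) :=
  {ω | ∫⁻ p, ‖e.X (pvdyR (e.K ∪ pvkyDoor kit z d) e.y ω p)‖ₑ ^ 2 * e.A.indicator 1 (pvdyR (e.K ∪ pvkyDoor kit z d) e.y ω p) ∂pvdyNu ε ≠ ∞}

theorem pvue_eqns_cite2 : True := by
  have := @pvueForced.eq_1; have := @pvueSq.eq_1
  trivial

section own

variable {kit : PvthKit} {ε : ℝ} {b : Bool} {e : PvkyEnd} {z d : ℂ} {q : ℝ≥0∞} {Wn y₀ : Set ℂ} {ω ω' : Conf PvPt}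

/-- **`pvueForced` reads the kept part of the window only**: it is stable under every experiment and every change of colours which keeps the sites of `Wn` off (tile, door) and the colours of those which are not fresh -/
theorem pvue_forced_base (hk : kit.WF) (hd : d ≠ 0) (cst : ∀ η, e.y η = y₀) (rA : Conf.Reads (Wn ×ˢ univ) fun η => η ∈ e.A)
    (hs : ∀ v ∈ Wn, v ∉ e.K ∪ pvkyDoor kit z d → (v ∈ cfSites ω ↔ v ∈ cfSites ω'))
    (hc : ∀ v ∈ cfSites ω, v ∈ Wn → v ∉ e.K ∪ pvkyDoor kit z d → v ∉ y₀ → cfCol ω v = cfCol ω' v) :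
    ω ∈ pvueForced kit ε b e z d q ↔ ω' ∈ pvueForced kit ε b e z d q := by
  have ey : e.y = fun _ => y₀ := funext cst
  have hy : ∀ v ∈ cfSites ω, v ∈ Wn → v ∉ e.K ∪ pvkyDoor kit z d → (v ∈ e.y ω ↔ v ∈ e.y ω') := fun v _ _ _ => by rw [cst, cst]
  have hc' : ∀ v ∈ cfSites ω, v ∈ Wn → v ∉ e.K ∪ pvkyDoor kit z d → v ∉ e.y ω → cfCol ω v = cfCol ω' v := fun v h1 h2 h3 h4 => hc v h1 h2 h3 (by rwa [cst] at h4)
  have rQ : Conf.Reads (Wn ×ˢ univ) (pvdyQ ε e.K e.y e.A) := by rw [ey]; exact pvue_Q_reads ε e.K y₀ rA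
  have e1 : ∀ p, pvdyQ ε e.K e.y e.A (pvdyR (e.K ∪ pvkyDoor kit z d) e.y ω p) = pvdyQ ε e.K e.y e.A (pvdyR (e.K ∪ pvkyDoor kit z d) e.y ω' p) := pvue_R_base rQ hs hy hc'
  have e2 : ∀ p, (pvkyFl b (pvdyR (e.K ∪ pvkyDoor kit z d) e.y ω p) ∈ kit.G z d) = (pvkyFl b (pvdyR (e.K ∪ pvkyDoor kit z d) e.y ω' p) ∈ kit.G z d) := by
    intro p
    refine (pvth_rG hk z d hd).congr ?_
    show Conf.restr (pvkyDoor kit z d ×ˢ univ) _ = Conf.restr (pvkyDoor kit z d ×ˢ univ) _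
    rw [pvky_fl_restr, pvky_fl_restr, pvky_restr_R subset_union_right, pvky_restr_R subset_union_right]
  unfold pvueForced
  simp only [mem_ofPred_eq, e1, e2]

theorem pvue_sq_base (cst : ∀ η, e.y η = y₀) (rA : Conf.Reads (Wn ×ˢ univ) fun η => η ∈ e.A) (rX : Conf.Reads (Wn ×ˢ univ) e.X)
    (hs : ∀ v ∈ Wn, v ∉ e.K ∪ pvkyDoor kit z d → (v ∈ cfSites ω ↔ v ∈ cfSites ω'))
    (hc : ∀ v ∈ cfSites ω, v ∈ Wn → v ∉ e.K ∪ pvkyDoor kit z d → v ∉ y₀ → cfCol ω v = cfCol ω' v) :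
    ω ∈ pvueSq kit ε e z d ↔ ω' ∈ pvueSq kit ε e z d := by
  have hy : ∀ v ∈ cfSites ω, v ∈ Wn → v ∉ e.K ∪ pvkyDoor kit z d → (v ∈ e.y ω ↔ v ∈ e.y ω') := fun v _ _ _ => by rw [cst, cst]
  have hc' : ∀ v ∈ cfSites ω, v ∈ Wn → v ∉ e.K ∪ pvkyDoor kit z d → v ∉ e.y ω → cfCol ω v = cfCol ω' v := fun v h1 h2 h3 h4 => hc v h1 h2 h3 (by rwa [cst] at h4)
  have e1 : ∀ p, e.X (pvdyR (e.K ∪ pvkyDoor kit z d) e.y ω p) = e.X (pvdyR (e.K ∪ pvkyDoor kit z d) e.y ω' p) := pvue_R_base rX hs hy hc'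
  have e2 : ∀ p, e.A.indicator (1 : Conf PvPt → ℝ≥0∞) (pvdyR (e.K ∪ pvkyDoor kit z d) e.y ω p) = e.A.indicator 1 (pvdyR (e.K ∪ pvkyDoor kit z d) e.y ω' p) :=
    pvue_R_base (pvti_ind_reads rA) hs hy hc'
  unfold pvueSq
  simp only [mem_ofPred_eq, e1, e2]

/-- the plain second moment of a funnel which represents the end link, on configurations, in ANY experiment in which it represents it -/
theorem pvue_sq_ag {C : Set ℂ} {yf : Conf PvPt → Set ℂ} {f : PvkeFun ℂ} (h : PvkyAg ε b ω C yf e f) :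
    ∫⁻ x, ‖f.X x‖ₑ ^ 2 * f.A.indicator 1 x ∂(pvkeLaw ℂ (pvP ε)) = ∫⁻ p, ‖e.X (pvdyR C yf ω p)‖ₑ ^ 2 * e.A.indicator 1 (pvdyR C yf ω p) ∂pvdyNu ε := by
  rw [pvky_lintegral_phi b ε C yf (fun η => ‖e.X η‖ₑ ^ 2 * e.A.indicator 1 η)]
  refine lintegral_congr_ae ?_
  filter_upwards [h.ae] with x hx
  rw [hx.2.1]
  congr 1
  by_cases hA : x ∈ f.A
  · rw [indicator_of_mem hA, indicator_of_mem (hx.1.2 hA)]; rfl
  · rw [indicator_of_notMem hA, indicator_of_notMem fun hh => hA (hx.1.1 hh)]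

end own

/-- **THE CHAIN RECORD OF 218 FROM TWO WINDOW ENDS, FORCING AND SECOND MOMENTS IN THE OWN EXPERIMENTS**: `ω ∈ pvueForced`, `ω ∈ pvueSq` for the two ends do not see the pattern, the corridor `C`, the fresh set `yf` of the whole experiment -/
theorem pvue_chain_own {kit : PvthKit} {ε : ℝ} {b : Bool} {X₀ : PvtTurn → Conf PvPt → ℂ} {z d : ℂ} {l : List PvtTurn} {ω : Conf PvPt} {C : Set ℂ} {yf : Conf PvPt → Set ℂ}
    {eo ei : PvkyEnd} {Wo Wi : Set ℂ} {β' q qo qi : ℝ≥0∞} (hk : kit.WF) (hX : kit.Fld X₀) (hF : kit.Forced (pvP ε) β' q) (hd : d ^ 4 = 1)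
    (wo : PvueWin ω C yf eo (pvkyDoor kit z d) Wo) (wi : PvueWin ω C yf ei (pvkyDoor kit (pvthZ kit.δ z d l l.length) (pvthD d l l.length)) Wi)
    (geo : PvkeGeo kit z d l (pvkyFun b C yf ω eo) (pvkyFun b C yf ω ei))
    (CO : ∀ j ≤ l.length, pvkeO kit z d l j ⊆ C ×ˢ univ) (CK : ∀ j < l.length, pvkeK kit z d l j ⊆ C ×ˢ univ)
    (qo0 : qo ≠ 0) (qo1 : qo ≤ 1) (qi0 : qi ≠ 0) (qi1 : qi ≤ 1)
    (Qo : ω ∈ pvueForced kit ε b eo z d qo) (Qi : ω ∈ pvueForced kit ε b ei (pvthZ kit.δ z d l l.length) (pvthD d l l.length) qi)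
    (sq : ∀ τ, ∫⁻ η, ‖X₀ τ η‖ₑ ^ 2 * kit.w2 (pvP ε) 0 1 τ η ∂(pvP ε) ≠ ∞)
    (so : ω ∈ pvueSq kit ε eo z d) (si : ω ∈ pvueSq kit ε ei (pvthZ kit.δ z d l l.length) (pvthD d l l.length)) :
    PvkyChain kit ε b X₀ z d l ω C yf eo ei (pvueFrc (pvP ε) (pvkyFun b C yf ω eo) (kit.G z d) qo)
      (pvueFrc (pvP ε) (pvkyFun b C yf ω ei) (kit.G (pvthZ kit.δ z d l l.length) (pvthD d l l.length)) qi) β' q qo qi := by
  have hd0 : d ≠ 0 := pvth_ne_zero (pvth_norm_of_pow hd)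
  have hdl : pvthD d l l.length ≠ 0 := pvthx_D_ne hd l l.length
  have oko : (pvkyFun b C yf ω eo).Ok (kit.O z d) := (wo.rd b).ok
  have oki : (pvkyFun b C yf ω ei).Ok (kit.O (pvthZ kit.δ z d l l.length) (pvthD d l l.length)) := (wi.rd b).ok
  have hbo : ∀ᵐ x ∂(pvkeLaw ℂ (pvP ε)), x.2 ∈ kit.G z d → qo ≤ pvueP (pvP ε) (pvkyFun b C yf ω eo) x :=
    pvue_ae_of_Q ((wo.rd b).loc ε) oko.mK oko.mA (pvth_rG hk z d hd0) (prod_mono subset_union_right subset_rfl) Qo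
  have hbi : ∀ᵐ x ∂(pvkeLaw ℂ (pvP ε)), x.2 ∈ kit.G (pvthZ kit.δ z d l l.length) (pvthD d l l.length) → qi ≤ pvueP (pvP ε) (pvkyFun b C yf ω ei) x :=
    pvue_ae_of_Q ((wi.rd b).loc ε) oki.mK oki.mA (pvth_rG hk _ _ hdl) (prod_mono subset_union_right subset_rfl) Qi
  -- back to the whole experiment
  have Qo' : ∀ᵐ p ∂pvdyNu ε, pvkyFl b (pvdyR C yf ω p) ∈ kit.G z d → qo ≤ pvdyQ ε eo.K eo.y eo.A (pvdyR C yf ω p) := by
    refine pvky_ae_phi b ε C yf (P := fun η => pvkyFl b η ∈ kit.G z d → qo ≤ pvdyQ ε eo.K eo.y eo.A η) ω ?_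
    filter_upwards [hbo, ((wo.rd b).ag ε).Q_ae oko.mK oko.mA] with x h1 h2 h3
    have e1 : (pvkyFl b (pvkyPhi b C yf ω x) ∈ kit.G z d) = (x.2 ∈ kit.G z d) :=
      pvky_reads_phi (pvth_rG hk z d hd0) (prod_mono (subset_union_right.trans wo.sub) subset_rfl) x
    rw [h2]
    exact h1 (e1 ▸ h3)
  have Qi' : ∀ᵐ p ∂pvdyNu ε, pvkyFl b (pvdyR C yf ω p) ∈ kit.G (pvthZ kit.δ z d l l.length) (pvthD d l l.length) → qi ≤ pvdyQ ε ei.K ei.y ei.A (pvdyR C yf ω p) := by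
    refine pvky_ae_phi b ε C yf (P := fun η => pvkyFl b η ∈ kit.G (pvthZ kit.δ z d l l.length) (pvthD d l l.length) → qi ≤ pvdyQ ε ei.K ei.y ei.A η) ω ?_
    filter_upwards [hbi, ((wi.rd b).ag ε).Q_ae oki.mK oki.mA] with x h1 h2 h3
    have e1 : (pvkyFl b (pvkyPhi b C yf ω x) ∈ kit.G (pvthZ kit.δ z d l l.length) (pvthD d l l.length)) = (x.2 ∈ kit.G (pvthZ kit.δ z d l l.length) (pvthD d l l.length)) :=
      pvky_reads_phi (pvth_rG hk _ _ hdl) (prod_mono (subset_union_right.trans wi.sub) subset_rfl) x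
    rw [h2]
    exact h1 (e1 ▸ h3)
  refine pvue_chain hk hX hF hd wo wi geo CO CK qo0 qo1 qi0 qi1 Qo' Qi' sq ?_ ?_
  · rw [← pvue_sq_ag ((wo.rd b).ag ε), pvue_sq_ag ((wo.rd b).loc ε)]
    exact so
  · rw [← pvue_sq_ag ((wi.rd b).ag ε), pvue_sq_ag ((wi.rd b).loc ε)]
    exact si

end Claimed.Agent.R289
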