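import Claimed.Agent.R289.Tr.InstL
import Claimed.Agent.R289.Tr.SoftE
import Claimed.Agent.R289.Defs.InstWf

/-!
# Row 289 (S0537), THE WALL, ROAD E, box TR-LINKMEAS, file Tr/LinkMeas : MEASURABILITY AND EXACT READERS OF THE FOUR SPECIAL LINKS AT THE NAMES OF `Tr/InstL`      (helper282, second of 74 on R16 (5); prefix `pvzi2_`, `Pvzi2`)

`Tr/SoftE` (141) turns A WINDOW END `PvueWin ω C yf e D Wn` into the pointwise contract `PvkyRd` of 218, hence into a funnel (`.ok .ag .loc`).      THIS FILE pays, AT THE DEFINITIONS OF RECORD (`pvilEo pvilEi pvilEe`, `pvilAr pvilXr pvilWr`, `pvilRef`, `pvilW1e`), every field of `PvueWin`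
which does not speak of the experiment, and ALL the fields in the OWN experiments (`pvilKoutW pvilKinW pvilKeW`).      No hypothesis on the plain events / values: the soft localisation of 251 is measurable and reads its window for free.
* sec. 1  Borel regions: `pvzi2_sh pvzi2_sim pvzi2_door pvzi2_fat`, algebra of the shifts `pvzi2_sh_door pvzi2_sh_disj pvzi2_sh_sh`, the four windows `pvzi2_mWno pvzi2_mWni pvzi2_mWne pvzi2_mWnr`.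
* sec. 2  **`Pvzi2Soft ε e y₀ Wn`** = A SOFT END (Borel tile and window, CONSTANT fresh set, event / value measurable ON `Conf PvPt`, exact readers of `Wn ×ˢ univ`);   `pvzi2_soft` (any end of the form `pvilFin Z (pvilSA ..)`, `pvilLoc`: InstL v2.1);
          **`Pvzi2Soft.win`** (the five lines on the experiment `sub win ysub yC fresh` ⟹ `PvueWin`), **`Pvzi2Soft.own`** (own experiment: ONE line, the fresh sites miss tile and plug region), `.rd .rd_own`, `.Q_reads .W_reads`.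
* sec. 3  the three ends: **`pvzi2_soft_o pvzi2_soft_i pvzi2_soft_e`** (+ `At` forms: the base data of ANY configuration).
* sec. 4  OWN EXPERIMENTS from `PvieEng.Wf` alone: **`pvzi2_own_o pvzi2_own_i pvzi2_own_e`**.
* sec. 5  the link into the reference plug: `pvzi2_mAr pvzi2_rAr pvzi2_mXr pvzi2_rXr pvzi2_mWr pvzi2_rWr`;   seen from the reference plug of `(z,t)`: `pvzi2_ref_measurable`, **`pvzi2_ref_reads`**, **`pvzi2_ref_phi`** (along an experiment which resamples the placed window it sees the independent configuration only).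
* sec. 6  the usable reference plug: `pvzi2_Gr_measurable pvzi2_Gr_reads pvzi2_Gr_phi`;   `pvzi2_W1e_reads`.
* sec. 7  THE THICK RETURN `f` (InstL sec. 8 of 168): `pvzi2_mWnf`, **`pvzi2_soft_f`**, `pvzi2_soft_fAt`, `pvzi2_yC_f`, `pvzi2_th_disj`, **`pvzi2_own_f`**, `pvzi2_mAf pvzi2_rAf`, `pvzi2_sure_mono_ae`, `pvzi2_Ef_sub_Af`.
(D3 = DEFECT W of 180, cured in InstL v2.1: `Z` = the cells of the frozen positions, WITHOUT the mouth ball.)   Everything below is generic in `Z`.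
-/

set_option autoImplicit false
set_option linter.unusedSectionVars false

namespace Claimed.Agent.R289

open Set MeasureTheory
open scoped ENNReal

/-! ## 1. Borel regions -/

/-- a translated region -/
theorem pvzi2_sh_eq (z : ℂ) (S : Set ℂ) : pvieSh z S = (fun w : ℂ => w - z) ⁻¹' S := by
  ext w
  constructor
  · rintro ⟨u, hu, rfl⟩
    show z + u - z ∈ S
    rwa [add_sub_cancel_left]
  · intro hw
    exact ⟨w - z, hw, by ring⟩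

theorem pvzi2_sh (z : ℂ) {S : Set ℂ} (hS : MeasurableSet S) : MeasurableSet (pvieSh z S) := by
  rw [pvzi2_sh_eq]
  exact (measurable_id.sub_const z) hS

/-- a region placed by `w ↦ z + d w` (ANY `d`) -/
theorem pvzi2_sim (z d : ℂ) {S : Set ℂ} (hS : MeasurableSet S) : MeasurableSet (pvthSim z d '' S) := by
  by_cases hd : d = 0
  · subst hd
    rcases S.eq_empty_or_nonempty with rfl | ⟨u, hu⟩
    · rw [image_empty]; exact MeasurableSet.empty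
    · have e : pvthSim z 0 '' S = {z} := by
        ext w
        constructor
        · rintro ⟨v, _, rfl⟩
          show z + 0 * v = z
          ring
        · intro hw
          refine ⟨u, hu, ?_⟩
          show z + 0 * u = w
          rw [mem_singleton_iff.1 hw]
          ring
      rw [e]
      exact measurableSet_singleton z
  · have e : pvthSim z d '' S = pvthInv z d ⁻¹' S := by
      ext w
      constructor
      · rintro ⟨u, hu, rfl⟩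
        show (z + d * u - z) / d ∈ S
        rwa [add_sub_cancel_left, mul_div_cancel_left₀ _ hd]
      · intro hw
        refine ⟨pvthInv z d w, hw, ?_⟩
        show z + d * ((w - z) / d) = w
        rw [mul_div_cancel₀ _ hd]
        ring
    rw [e]
    exact pvth_measurable_inv z d hS

/-- the cells of a hull with their collar -/
theorem pvzi2_fat (δ : ℝ) (Z : Set (ℤ × ℤ)) : MeasurableSet (pvilFat δ Z) :=
  MeasurableSet.biUnion (Set.to_countable _) fun _ _ => pvt_sq_closed.measurableSet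

theorem pvzi2_sh_disj (z : ℂ) {S T : Set ℂ} (h : Disjoint S T) : Disjoint (pvieSh z S) (pvieSh z T) :=
  (Set.disjoint_image_iff (add_right_injective z)).2 h

theorem pvzi2_sh_mono (z : ℂ) {S T : Set ℂ} (h : S ⊆ T) : pvieSh z S ⊆ pvieSh z T := image_mono h

theorem pvzi2_sh_union (z : ℂ) (S T : Set ℂ) : pvieSh z (S ∪ T) = pvieSh z S ∪ pvieSh z T := image_union _ _ _

theorem pvzi2_sh_sh (z z' : ℂ) (S : Set ℂ) : pvieSh z (pvieSh z' S) = pvieSh (z + z') S := by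
  unfold pvieSh
  rw [image_image]
  exact image_congr fun w _ => (add_assoc z z' w).symm

theorem pvzi2_sh_sim (z p d : ℂ) (S : Set ℂ) : pvieSh z (pvthSim p d '' S) = pvthSim (z + p) d '' S := by
  unfold pvieSh
  rw [image_image]
  exact image_congr fun w _ => (add_assoc z p (d * w)).symm

theorem pvzi2_sim_one (z : ℂ) (S : Set ℂ) : pvthSim z 1 '' S = pvieSh z S :=
  image_congr fun w _ => by show z + 1 * w = z + w; rw [one_mul]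

section regions

variable {τ : Type} {c : ℝ} (𝔓 : PvxPar τ c) (𝔈 : PvieEng τ) {m m0 : ℕ} {ε Cth : ℝ} {r κs : ℕ → ℝ}

theorem pvzi2_door (hO : MeasurableSet (𝔈.kit m ε).O₀) (z d : ℂ) : MeasurableSet (pvieDoor 𝔈 m ε z d) := pvzi2_sim z d hO

theorem pvzi2_sh_door (z p d : ℂ) : pvieSh z (pvieDoor 𝔈 m ε p d) = pvieDoor 𝔈 m ε (z + p) d := pvzi2_sh_sim z p d _

theorem pvzi2_door_eq (z d : ℂ) : pvkyDoor (𝔈.kit m ε) z d = pvieDoor 𝔈 m ε z d := rfl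

variable {𝔓 𝔈}

/-- (InstL v2.2) the part of a window which carries the half state: `Z⁺` cut by the own-level box -/
theorem pvzi2_mWz (𝔓 : PvxPar τ c) (m : ℕ) (z : ℂ) (t : τ) (Z : Set (ℤ × ℤ)) : MeasurableSet (pvilWz 𝔓 m z t Z) := by
  have h1 : ∀ (z : ℂ) (r : ℝ), MeasurableSet (pvwSq z r) := fun z r =>
    (measurableSet_le (Complex.measurable_re.comp (measurable_id.sub_const z)).abs measurable_const).inter
      (measurableSet_le (Complex.measurable_im.comp (measurable_id.sub_const z)).abs measurable_const)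
  exact (pvzi2_fat _ Z).inter (h1 _ _)

theorem pvzi2_mWno (H : PvieEng.Wf 𝔓 𝔈 m0 Cth r κs) (hO : MeasurableSet (𝔈.kit m ε).O₀) (z : ℂ) (t : τ) (Z : Set (ℤ × ℤ)) : MeasurableSet (pvilWno 𝔓 𝔈 m ε z t Z) :=
  (((pvzi2_mWz 𝔓 m z t Z).union (pvzi2_sh z (H.m_oM m t))).union (pvzi2_sh z (H.m_oK m t))).union (pvzi2_door 𝔈 hO _ _)

theorem pvzi2_mWni (H : PvieEng.Wf 𝔓 𝔈 m0 Cth r κs) (hO : MeasurableSet (𝔈.kit m ε).O₀) (z : ℂ) (t : τ) (Z : Set (ℤ × ℤ)) : MeasurableSet (pvilWni 𝔓 𝔈 m ε z t Z) :=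
  (((pvzi2_mWz 𝔓 m z t Z).union (pvzi2_sh z (H.m_iM m t))).union (pvzi2_sh z (H.m_iK m t))).union (pvzi2_door 𝔈 hO _ _)

theorem pvzi2_mWne (H : PvieEng.Wf 𝔓 𝔈 m0 Cth r κs) (z : ℂ) (t : τ) (Z : Set (ℤ × ℤ)) : MeasurableSet (pvilWne 𝔓 𝔈 m z t Z) :=
  (((pvzi2_mWz 𝔓 m z t Z).union (pvzi2_sh z (H.m_eM m t))).union (pvzi2_sh z (H.m_eK m t))).union (pvzi2_sh _ (H.m_rO m))

theorem pvzi2_mWnr (H : PvieEng.Wf 𝔓 𝔈 m0 Cth r κs) (hO : MeasurableSet (𝔈.kit m ε).O₀) : MeasurableSet (pvilWnr 𝔓 𝔈 m ε) :=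
  ((H.m_rK m).union (H.m_rO m)).union (pvzi2_door 𝔈 hO _ _)

end regions

/-! ## 2. a soft end -/

/-- **A SOFT END**: Borel tile and window, constant fresh set, event and value measurable on the configurations, exact readers of the window -/
structure Pvzi2Soft (e : PvkyEnd) (y₀ Wn : Set ℂ) : Prop where
  mW : MeasurableSet Wn
  mK : MeasurableSet e.K
  cst : ∀ η, e.y η = y₀
  mA : MeasurableSet e.A
  mX : Measurable e.X
  rA : Conf.Reads (Wn ×ˢ univ) fun η => η ∈ e.A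
  rX : Conf.Reads (Wn ×ˢ univ) e.X

theorem pvzi2_sure_measurable (ε : ℝ) {Wn : Set ℂ} (mW : MeasurableSet Wn) (M : Set (Conf PvPt)) : MeasurableSet (pvilSure ε Wn M) := by
  have := (pv_isPpp ε).prob
  exact pvsu_sure_measurable (mW.prod MeasurableSet.univ) M

theorem pvzi2_sure_reads (ε : ℝ) (Wn : Set ℂ) (M : Set (Conf PvPt)) : Conf.Reads (Wn ×ˢ univ) fun η => η ∈ pvilSure ε Wn M := pvsu_sure_reads _ _ M

theorem pvzi2_loc_measurable (ε : ℝ) {Wn : Set ℂ} (mW : MeasurableSet Wn) (M : Set (Conf PvPt)) (F : Conf PvPt → ℂ) : Measurable (pvilLoc ε Wn M F) := by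
  have := (pv_isPpp ε).prob
  exact pvsu_loc_measurable (mW.prod MeasurableSet.univ) _

theorem pvzi2_loc_reads (ε : ℝ) (Wn : Set ℂ) (M : Set (Conf PvPt)) (F : Conf PvPt → ℂ) : Conf.Reads (Wn ×ˢ univ) (pvilLoc ε Wn M F) := pvsu_loc_reads _ _ _

theorem pvzi2_SA_measurable (ε : ℝ) {Wn : Set ℂ} (mW : MeasurableSet Wn) (M : Set (Conf PvPt)) (F : Conf PvPt → ℂ) : MeasurableSet (pvilSA ε Wn M F) := pvzi2_sure_measurable ε mW _

theorem pvzi2_SA_reads (ε : ℝ) (Wn : Set ℂ) (M : Set (Conf PvPt)) (F : Conf PvPt → ℂ) : Conf.Reads (Wn ×ˢ univ) fun η => η ∈ pvilSA ε Wn M F := pvzi2_sure_reads ε Wn _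

theorem pvzi2_fin_measurable (Z : Set (ℤ × ℤ)) {A : Set (Conf PvPt)} (hA : MeasurableSet A) : MeasurableSet (pvilFin Z A) := by
  unfold pvilFin
  split_ifs
  · exact hA
  · exact MeasurableSet.empty

theorem pvzi2_fin_reads (Z : Set (ℤ × ℤ)) {W : Set PvPt} {A : Set (Conf PvPt)} (hA : Conf.Reads W fun η => η ∈ A) : Conf.Reads W fun η => η ∈ pvilFin Z A := by
  unfold pvilFin
  split_ifs
  · exact hA
  · exact fun _ => rfl

/-- every end of the form (`pvilFin Z (pvilSA ..)`, `pvilLoc`) with a constant fresh set is soft -/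
theorem pvzi2_soft (ε : ℝ) {K y₀ Wn : Set ℂ} (mW : MeasurableSet Wn) (mK : MeasurableSet K) (Z : Set (ℤ × ℤ)) (M : Set (Conf PvPt)) (F : Conf PvPt → ℂ) :
    Pvzi2Soft ⟨K, fun _ => y₀, pvilFin Z (pvilSA ε Wn M F), pvilLoc ε Wn M F⟩ y₀ Wn where
  mW := mW
  mK := mK
  cst := fun _ => rfl
  mA := pvzi2_fin_measurable Z (pvzi2_SA_measurable ε mW M F)
  mX := pvzi2_loc_measurable ε mW M F
  rA := pvzi2_fin_reads Z (pvzi2_SA_reads ε Wn M F)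
  rX := pvzi2_loc_reads ε Wn M F

namespace Pvzi2Soft

variable {e : PvkyEnd} {y₀ Wn C D : Set ℂ} {yf : Conf PvPt → Set ℂ} {ω : Conf PvPt}

/-- **A SOFT END IS A WINDOW END** as soon as the five lines on the experiment hold -/
theorem win (h : Pvzi2Soft e y₀ Wn) (mC : MeasurableSet C) (cnt : (cfSites ω).Countable) (sub : e.K ∪ D ⊆ C) (win : C ∩ Wn ⊆ e.K ∪ D) (ysub : y₀ ⊆ yf ω) (yC : Disjoint y₀ C)
    (fresh : ∀ z ∈ cfSites ω, z ∈ Wn → z ∉ C → z ∈ yf ω → z ∈ y₀) : PvueWin ω C yf e D Wn where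
  mC := mC
  cnt := cnt
  mK := h.mK
  mA := h.mA
  mX := h.mX
  rA := h.rA
  rX := h.rX
  cst := fun η => by rw [h.cst, h.cst]
  sub := sub
  win := win
  ysub := by rw [h.cst]; exact ysub
  yC := by rw [h.cst]; exact yC
  fresh := by rw [h.cst]; exact fresh

/-- **THE OWN EXPERIMENT** (tile + plug region, own fresh sites): one line -/
theorem own (h : Pvzi2Soft e y₀ Wn) (mD : MeasurableSet D) (cnt : (cfSites ω).Countable) (yC : Disjoint y₀ (e.K ∪ D)) : PvueWin ω (e.K ∪ D) e.y e D Wn :=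
  h.win (h.mK.union mD) cnt subset_rfl inter_subset_left (by rw [h.cst]) yC (fun z _ _ _ hz => by rwa [h.cst] at hz)

theorem rd (h : Pvzi2Soft e y₀ Wn) (b : Bool) (mC : MeasurableSet C) (cnt : (cfSites ω).Countable) (sub : e.K ∪ D ⊆ C) (win : C ∩ Wn ⊆ e.K ∪ D) (ysub : y₀ ⊆ yf ω) (yC : Disjoint y₀ C)
    (fresh : ∀ z ∈ cfSites ω, z ∈ Wn → z ∉ C → z ∈ yf ω → z ∈ y₀) : PvkyRd b ω C yf e D :=
  (h.win mC cnt sub win ysub yC fresh).rd b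

theorem rd_own (h : Pvzi2Soft e y₀ Wn) (b : Bool) (mD : MeasurableSet D) (cnt : (cfSites ω).Countable) (yC : Disjoint y₀ (e.K ∪ D)) : PvkyRd b ω (e.K ∪ D) e.y e D :=
  (h.own mD cnt yC).rd b

theorem y_eq (h : Pvzi2Soft e y₀ Wn) : e.y = fun _ => y₀ := funext h.cst

/-- the conditional probability of the success reads the window -/
theorem Q_reads (h : Pvzi2Soft e y₀ Wn) (ε : ℝ) : Conf.Reads (Wn ×ˢ univ) (pvdyQ ε e.K e.y e.A) := by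
  rw [h.y_eq]
  exact pvue_Q_reads ε e.K y₀ h.rA

/-- the weight `1_A / P(A | kept)` reads the window -/
theorem W_reads (h : Pvzi2Soft e y₀ Wn) (ε : ℝ) : Conf.Reads (Wn ×ˢ univ) (pvdyW ε e.K e.y e.A) := by
  rw [h.y_eq]
  exact pvue_W_reads ε e.K y₀ h.rA

/-- a larger window -/
theorem mono (h : Pvzi2Soft e y₀ Wn) {Wn' : Set ℂ} (mW : MeasurableSet Wn') (hs : Wn ⊆ Wn') : Pvzi2Soft e y₀ Wn' where
  mW := mW
  mK := h.mK
  cst := h.cst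
  mA := h.mA
  mX := h.mX
  rA := h.rA.mono (prod_mono hs subset_rfl)
  rX := h.rX.mono (prod_mono hs subset_rfl)

end Pvzi2Soft

/-! ## 3. the three ends at the names of record -/

section ends

variable {τ : Type} {c : ℝ} {𝔓 : PvxPar τ c} {𝔈 : PvieEng τ} {m m0 : ℕ} {ε Cth : ℝ} {r κs : ℕ → ℝ}

/-- **the first link at ANY base data is a soft end** -/
theorem pvzi2_soft_o (H : PvieEng.Wf 𝔓 𝔈 m0 Cth r κs) (hO : MeasurableSet (𝔈.kit m ε).O₀) (w : ∀ η : Conf PvPt, (delbPl (pvieY η)).Dart → ℂ) (z : ℂ) (t : τ) (Z : Set (ℤ × ℤ)) (F : Set ℂ) :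
    Pvzi2Soft (pvilEo 𝔓 𝔈 m ε w z t Z F) (pvieSh z (𝔈.oM m t) \ F) (pvilWno 𝔓 𝔈 m ε z t Z) :=
  pvzi2_soft ε (pvzi2_mWno H hO z t Z) (pvzi2_sh z (H.m_oK m t)) Z _ _

/-- **the last link at ANY base data is a soft end** -/
theorem pvzi2_soft_i (H : PvieEng.Wf 𝔓 𝔈 m0 Cth r κs) (hO : MeasurableSet (𝔈.kit m ε).O₀) (w : ∀ η : Conf PvPt, (delbPl (pvieY η)).Dart → ℂ) (z : ℂ) (t : τ) (Z : Set (ℤ × ℤ)) (F : Set ℂ) :
    Pvzi2Soft (pvilEi 𝔓 𝔈 m ε w z t Z F) (pvieSh z (𝔈.iM m t) \ F) (pvilWni 𝔓 𝔈 m ε z t Z) :=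
  pvzi2_soft ε (pvzi2_mWni H hO z t Z) (pvzi2_sh z (H.m_iK m t)) Z _ _

/-- **the thick link at ANY base data is a soft end** -/
theorem pvzi2_soft_e (H : PvieEng.Wf 𝔓 𝔈 m0 Cth r κs) (ε : ℝ) (w : ∀ η : Conf PvPt, (delbPl (pvieY η)).Dart → ℂ) (z : ℂ) (t : τ) (Z : Set (ℤ × ℤ)) (F : Set ℂ) :
    Pvzi2Soft (pvilEe 𝔓 𝔈 m ε w z t Z F) (pvieSh z (𝔈.eM m t) \ F) (pvilWne 𝔓 𝔈 m z t Z) :=
  pvzi2_soft ε (pvzi2_mWne H z t Z) (pvzi2_sh z (H.m_eK m t)) Z _ _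

theorem pvzi2_soft_oAt (H : PvieEng.Wf 𝔓 𝔈 m0 Cth r κs) (hO : MeasurableSet (𝔈.kit m ε).O₀) (w : ∀ η : Conf PvPt, (delbPl (pvieY η)).Dart → ℂ) (z : ℂ) (t : τ) (η₀ : Conf PvPt) :
    Pvzi2Soft (pvilEoAt 𝔓 𝔈 m ε w z t η₀) (pvieSh z (𝔈.oM m t) \ pvilFo 𝔓 m z t η₀) (pvilWno 𝔓 𝔈 m ε z t (pvilZo 𝔓 m z t η₀)) :=
  pvzi2_soft_o H hO w z t _ _

theorem pvzi2_soft_iAt (H : PvieEng.Wf 𝔓 𝔈 m0 Cth r κs) (hO : MeasurableSet (𝔈.kit m ε).O₀) (w : ∀ η : Conf PvPt, (delbPl (pvieY η)).Dart → ℂ) (z : ℂ) (t : τ) (η₀ : Conf PvPt) :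
    Pvzi2Soft (pvilEiAt 𝔓 𝔈 m ε w z t η₀) (pvieSh z (𝔈.iM m t) \ pvilFi 𝔓 m z t η₀) (pvilWni 𝔓 𝔈 m ε z t (pvilZi 𝔓 m z t η₀)) :=
  pvzi2_soft_i H hO w z t _ _

theorem pvzi2_soft_eAt (H : PvieEng.Wf 𝔓 𝔈 m0 Cth r κs) (ε : ℝ) (w : ∀ η : Conf PvPt, (delbPl (pvieY η)).Dart → ℂ) (z : ℂ) (t : τ) (η₀ : Conf PvPt) :
    Pvzi2Soft (pvilEeAt 𝔓 𝔈 m ε w z t η₀) (pvieSh z (𝔈.eM m t) \ pvilFi 𝔓 m z t η₀) (pvilWne 𝔓 𝔈 m z t (pvilZi 𝔓 m z t η₀)) :=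
  pvzi2_soft_e H ε w z t _ _

/-! ## 4. the own experiments, from `PvieEng.Wf` alone -/

/-- the recoloured mouth of the first link misses its tile and its door -/
theorem pvzi2_yC_o (H : PvieEng.Wf 𝔓 𝔈 m0 Cth r κs) (hm : m0 ≤ m) (ε : ℝ) {t : τ} (ht : pviwTyOk 𝔓 t) (z : ℂ) (F : Set ℂ) :
    Disjoint (pvieSh z (𝔈.oM m t) \ F) (pvieSh z (𝔈.oK m t) ∪ pvkyDoor (𝔈.kit m ε) (pvieZo 𝔓 m z t) ((𝔓.Γ m).dout t)) := by
  have h := H.o_disj m hm ε t ht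
  simp only [List.pairwise_cons, List.mem_cons, List.not_mem_nil, or_false, forall_eq_or_imp, forall_eq] at h
  refine Disjoint.mono_left sdiff_subset (disjoint_union_right.2 ⟨pvzi2_sh_disj z h.1.1, ?_⟩)
  have e : pvkyDoor (𝔈.kit m ε) (pvieZo 𝔓 m z t) ((𝔓.Γ m).dout t) = pvieSh z (pviwDo 𝔓 𝔈 m ε t) := (pvzi2_sh_door 𝔈 z _ _).symm
  rw [e]
  exact pvzi2_sh_disj z h.1.2

/-- the recoloured mouth of the last link misses its tile and its door -/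
theorem pvzi2_yC_i (H : PvieEng.Wf 𝔓 𝔈 m0 Cth r κs) (hm : m0 ≤ m) (ε : ℝ) {t : τ} (ht : pviwTyOk 𝔓 t) (z : ℂ) (F : Set ℂ) :
    Disjoint (pvieSh z (𝔈.iM m t) \ F) (pvieSh z (𝔈.iK m t) ∪ pvkyDoor (𝔈.kit m ε) (pvieZi 𝔓 m z t) ((𝔓.Γ m).din t)) := by
  have h := H.i_disj m hm ε t ht
  simp only [List.pairwise_cons, List.mem_cons, List.not_mem_nil, or_false, forall_eq_or_imp, forall_eq] at h
  refine Disjoint.mono_left sdiff_subset (disjoint_union_right.2 ⟨pvzi2_sh_disj z h.1.1, ?_⟩)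
  have e : pvkyDoor (𝔈.kit m ε) (pvieZi 𝔓 m z t) ((𝔓.Γ m).din t) = pvieSh z (pviwDi 𝔓 𝔈 m ε t) := (pvzi2_sh_door 𝔈 z _ _).symm
  rw [e]
  exact pvzi2_sh_disj z h.1.2

/-- the recoloured mouth of the thick link misses its tile and the region of the reference plug -/
theorem pvzi2_yC_e (H : PvieEng.Wf 𝔓 𝔈 m0 Cth r κs) (hm : m0 ≤ m) (ε : ℝ) {t : τ} (ht : pviwTyOk 𝔓 t) (z : ℂ) (F : Set ℂ) :
    Disjoint (pvieSh z (𝔈.eM m t) \ F) (pvieSh z (𝔈.eK m t) ∪ pvieSh (pvieZu 𝔓 m z t) (𝔈.rO m)) := by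
  have h := H.cyc_disj m hm ε t ht
  unfold pviwCyc pviwRes at h
  simp only [List.cons_append, List.nil_append, List.pairwise_cons, List.mem_cons, forall_eq_or_imp] at h
  refine Disjoint.mono_left sdiff_subset (disjoint_union_right.2 ⟨pvzi2_sh_disj z h.2.1.2.1, ?_⟩)
  have e : pvieSh (pvieZu 𝔓 m z t) (𝔈.rO m) = pvieSh z (pviwRo 𝔓 𝔈 m t) := (pvzi2_sh_sh z _ _).symm
  rw [e]
  exact pvzi2_sh_disj z h.2.1.2.2.2.1

/-- **the first link in its own experiment** (`pvilKoutW`) -/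
theorem pvzi2_own_o (H : PvieEng.Wf 𝔓 𝔈 m0 Cth r κs) (hm : m0 ≤ m) (hO : MeasurableSet (𝔈.kit m ε).O₀) {t : τ} (ht : pviwTyOk 𝔓 t) (w : ∀ η : Conf PvPt, (delbPl (pvieY η)).Dart → ℂ) (z : ℂ)
    (Z : Set (ℤ × ℤ)) (F : Set ℂ) {ω : Conf PvPt} (cnt : (cfSites ω).Countable) :
    PvueWin ω ((pvilEo 𝔓 𝔈 m ε w z t Z F).K ∪ pvkyDoor (𝔈.kit m ε) (pvieZo 𝔓 m z t) ((𝔓.Γ m).dout t)) (pvilEo 𝔓 𝔈 m ε w z t Z F).y (pvilEo 𝔓 𝔈 m ε w z t Z F)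
      (pvkyDoor (𝔈.kit m ε) (pvieZo 𝔓 m z t) ((𝔓.Γ m).dout t)) (pvilWno 𝔓 𝔈 m ε z t Z) :=
  (pvzi2_soft_o H hO w z t Z F).own (pvzi2_door 𝔈 hO _ _) cnt (pvzi2_yC_o H hm ε ht z F)

/-- **the last link in its own experiment** (`pvilKinW`) -/
theorem pvzi2_own_i (H : PvieEng.Wf 𝔓 𝔈 m0 Cth r κs) (hm : m0 ≤ m) (hO : MeasurableSet (𝔈.kit m ε).O₀) {t : τ} (ht : pviwTyOk 𝔓 t) (w : ∀ η : Conf PvPt, (delbPl (pvieY η)).Dart → ℂ) (z : ℂ)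
    (Z : Set (ℤ × ℤ)) (F : Set ℂ) {ω : Conf PvPt} (cnt : (cfSites ω).Countable) :
    PvueWin ω ((pvilEi 𝔓 𝔈 m ε w z t Z F).K ∪ pvkyDoor (𝔈.kit m ε) (pvieZi 𝔓 m z t) ((𝔓.Γ m).din t)) (pvilEi 𝔓 𝔈 m ε w z t Z F).y (pvilEi 𝔓 𝔈 m ε w z t Z F)
      (pvkyDoor (𝔈.kit m ε) (pvieZi 𝔓 m z t) ((𝔓.Γ m).din t)) (pvilWni 𝔓 𝔈 m ε z t Z) :=
  (pvzi2_soft_i H hO w z t Z F).own (pvzi2_door 𝔈 hO _ _) cnt (pvzi2_yC_i H hm ε ht z F)

/-- **the thick link in its own experiment** (`pvilKeW`) -/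
theorem pvzi2_own_e (H : PvieEng.Wf 𝔓 𝔈 m0 Cth r κs) (hm : m0 ≤ m) (ε : ℝ) {t : τ} (ht : pviwTyOk 𝔓 t) (w : ∀ η : Conf PvPt, (delbPl (pvieY η)).Dart → ℂ) (z : ℂ)
    (Z : Set (ℤ × ℤ)) (F : Set ℂ) {ω : Conf PvPt} (cnt : (cfSites ω).Countable) :
    PvueWin ω ((pvilEe 𝔓 𝔈 m ε w z t Z F).K ∪ pvieSh (pvieZu 𝔓 m z t) (𝔈.rO m)) (pvilEe 𝔓 𝔈 m ε w z t Z F).y (pvilEe 𝔓 𝔈 m ε w z t Z F)
      (pvieSh (pvieZu 𝔓 m z t) (𝔈.rO m)) (pvilWne 𝔓 𝔈 m z t Z) :=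
  (pvzi2_soft_e H ε w z t Z F).own (pvzi2_sh _ (H.m_rO m)) cnt (pvzi2_yC_e H hm ε ht z F)

/-! ## 5. the link into the reference plug -/

theorem pvzi2_mAr (H : PvieEng.Wf 𝔓 𝔈 m0 Cth r κs) (hO : MeasurableSet (𝔈.kit m ε).O₀) (w : ∀ η : Conf PvPt, (delbPl (pvieY η)).Dart → ℂ) : MeasurableSet (pvilAr 𝔓 𝔈 m ε w) :=
  pvzi2_SA_measurable ε (pvzi2_mWnr H hO) _ _

theorem pvzi2_rAr (𝔓 : PvxPar τ c) (𝔈 : PvieEng τ) (m : ℕ) (ε : ℝ) (w : ∀ η : Conf PvPt, (delbPl (pvieY η)).Dart → ℂ) : Conf.Reads (pvilWnr 𝔓 𝔈 m ε ×ˢ univ) fun η => η ∈ pvilAr 𝔓 𝔈 m ε w :=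
  pvzi2_SA_reads ε _ _ _

theorem pvzi2_mXr (H : PvieEng.Wf 𝔓 𝔈 m0 Cth r κs) (hO : MeasurableSet (𝔈.kit m ε).O₀) (w : ∀ η : Conf PvPt, (delbPl (pvieY η)).Dart → ℂ) : Measurable (pvilXr 𝔓 𝔈 m ε w) :=
  pvzi2_loc_measurable ε (pvzi2_mWnr H hO) _ _

theorem pvzi2_rXr (𝔓 : PvxPar τ c) (𝔈 : PvieEng τ) (m : ℕ) (ε : ℝ) (w : ∀ η : Conf PvPt, (delbPl (pvieY η)).Dart → ℂ) : Conf.Reads (pvilWnr 𝔓 𝔈 m ε ×ˢ univ) (pvilXr 𝔓 𝔈 m ε w) :=
  pvzi2_loc_reads ε _ _ _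

theorem pvzi2_mOr (H : PvieEng.Wf 𝔓 𝔈 m0 Cth r κs) (hO : MeasurableSet (𝔈.kit m ε).O₀) : MeasurableSet (pvieOr 𝔓 𝔈 m ε) :=
  ((pvzi2_door 𝔈 hO _ _).union (H.m_rO m)).prod MeasurableSet.univ

theorem pvzi2_Wnr_eq (𝔓 : PvxPar τ c) (𝔈 : PvieEng τ) (m : ℕ) (ε : ℝ) : (pvilWnr 𝔓 𝔈 m ε ×ˢ univ : Set PvPt) = pvieOr 𝔓 𝔈 m ε ∪ 𝔈.rK m ×ˢ univ := by
  unfold pvilWnr pvieOr
  rw [← union_prod]
  congr 1
  ext v
  simp only [mem_union]
  tauto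

theorem pvzi2_mWr (H : PvieEng.Wf 𝔓 𝔈 m0 Cth r κs) (hO : MeasurableSet (𝔈.kit m ε).O₀) (w : ∀ η : Conf PvPt, (delbPl (pvieY η)).Dart → ℂ) : Measurable (pvilWr 𝔓 𝔈 m ε w) := by
  have := (pv_isPpp ε).prob
  exact pvth_W_measurable (pvzi2_mOr H hO) (pvzi2_mAr H hO w)

theorem pvzi2_rWr (𝔓 : PvxPar τ c) (𝔈 : PvieEng τ) (m : ℕ) (ε : ℝ) (w : ∀ η : Conf PvPt, (delbPl (pvieY η)).Dart → ℂ) : Conf.Reads (pvilWnr 𝔓 𝔈 m ε ×ˢ univ) (pvilWr 𝔓 𝔈 m ε w) := by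
  have h := pvzi2_rAr 𝔓 𝔈 m ε w
  rw [pvzi2_Wnr_eq] at h ⊢
  exact pvth_W_reads (pvP ε) h

end ends

/-! ### seen from a placed frame, black form -/

/-- a reader of `S ×ˢ univ` composed with the colour flip -/
theorem pvzi2_fl_reads {β : Type*} {S : Set ℂ} {f : Conf PvPt → β} (h : Conf.Reads (S ×ˢ univ) f) (b : Bool) : Conf.Reads (S ×ˢ univ) fun η => f (pvkyFl b η) := fun η => by
  show f (pvkyFl b (Conf.restr (S ×ˢ univ) η)) = f (pvkyFl b η)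
  rw [← pvky_fl_restr, h]

/-- a reader of `S ×ˢ univ` seen from the centre `u` reads the translated region -/
theorem pvzi2_tr_reads {β : Type*} {S : Set ℂ} {f : Conf PvPt → β} (h : Conf.Reads (S ×ˢ univ) f) (u : ℂ) : Conf.Reads (pvieSh u S ×ˢ univ) fun η => f (cfMap (pvthInv u 1) η) := by
  have e : (pvieSh u S ×ˢ univ : Set PvPt) = Prod.map (pvthInv u 1) id ⁻¹' (S ×ˢ univ) := by
    ext ⟨p, a⟩
    rw [pvzi2_sh_eq]
    simp only [mem_prod, mem_univ, and_true, mem_preimage, Prod.map, pvthInv, div_one]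
  rw [e]
  exact pvth_reads_map h

section ref

variable {τ : Type} {c : ℝ} (𝔓 : PvxPar τ c) {𝔈 : PvieEng τ} (m : ℕ) (z : ℂ) (t : τ)

theorem pvzi2_ref_measurable : Measurable (pvilRef 𝔓 m z t) :=
  (measurable_cfMap (pvth_measurable_inv _ 1)).comp (measurable_pvkyFl _)

/-- **a reader of the reference window, seen from the reference plug of `(z,t)`, reads the placed window** -/
theorem pvzi2_ref_reads {β : Type*} {S : Set ℂ} {f : Conf PvPt → β} (h : Conf.Reads (S ×ˢ univ) f) : Conf.Reads (pvieSh (pvieZu 𝔓 m z t) S ×ˢ univ) fun η => f (pvilRef 𝔓 m z t η) :=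
  pvzi2_fl_reads (pvzi2_tr_reads h (pvieZu 𝔓 m z t)) (𝔓.col t)

/-- **along an experiment which resamples the placed window, it sees the independent configuration only** -/
theorem pvzi2_ref_phi {β : Type*} {S C : Set ℂ} {f : Conf PvPt → β} (h : Conf.Reads (S ×ˢ univ) f) (hS : pvieSh (pvieZu 𝔓 m z t) S ⊆ C) (yf : Conf PvPt → Set ℂ) (ω : Conf PvPt) (x : PvkeX ℂ PvPt) :
    f (pvilRef 𝔓 m z t (pvkyPhi (𝔓.col t) C yf ω x)) = f (cfMap (pvthInv (pvieZu 𝔓 m z t) 1) x.2) :=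
  pvky_reads_phi (f := fun η => f (cfMap (pvthInv (pvieZu 𝔓 m z t) 1) η)) (pvzi2_tr_reads h (pvieZu 𝔓 m z t)) (prod_mono hS subset_rfl) x

end ref

/-! ## 6. the usable reference plug, the weight of the thick link -/

section gr

variable {τ : Type} {c : ℝ} {𝔓 : PvxPar τ c} {𝔈 : PvieEng τ} {m : ℕ} {ε : ℝ}

theorem pvzi2_Gr_measurable (mG : MeasurableSet (𝔈.rG m ε)) (u : ℂ) : Measurable (pvieGr 𝔈 m ε u) :=
  (measurable_one.indicator (measurable_cfMap (pvth_measurable_inv u 1) mG)).div_const _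

theorem pvzi2_Gr_reads (rG : Conf.Reads (𝔈.rO m ×ˢ univ) fun η => η ∈ 𝔈.rG m ε) (u : ℂ) : Conf.Reads (pvieSh u (𝔈.rO m) ×ˢ univ) (pvieGr 𝔈 m ε u) :=
  (pvti_ind_reads (S := cfMap (pvthInv u 1) ⁻¹' 𝔈.rG m ε) (pvzi2_tr_reads rG u)).comp (fun x => x / pvP ε (𝔈.rG m ε))

theorem pvzi2_Gr_phi (rG : Conf.Reads (𝔈.rO m ×ˢ univ) fun η => η ∈ 𝔈.rG m ε) {u : ℂ} {C : Set ℂ} (hS : pvieSh u (𝔈.rO m) ⊆ C) (b : Bool) (yf : Conf PvPt → Set ℂ) (ω : Conf PvPt) (x : PvkeX ℂ PvPt) :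
    pvieGr 𝔈 m ε u (pvkyFl b (pvkyPhi b C yf ω x)) = pvieGr 𝔈 m ε u x.2 :=
  pvky_reads_phi (pvzi2_Gr_reads rG u) (prod_mono hS subset_rfl) x

/-- the weight of the thick link with the reference plug reads the window of the thick link -/
theorem pvzi2_W1e_reads (rG : Conf.Reads (𝔈.rO m ×ˢ univ) fun η => η ∈ 𝔈.rG m ε) {e : PvkyEnd} {y₀ Wn : Set ℂ} (h : Pvzi2Soft e y₀ Wn) (z : ℂ) (t : τ) (hs : pvieSh (pvieZu 𝔓 m z t) (𝔈.rO m) ⊆ Wn) :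
    Conf.Reads (Wn ×ˢ univ) (pvilW1e 𝔓 𝔈 m ε z t e) :=
  ((pvzi2_fl_reads (pvzi2_Gr_reads rG (pvieZu 𝔓 m z t)) (𝔓.col t)).mono (prod_mono hs subset_rfl)).map₂ (h.W_reads ε) (fun a b => a * b)

end gr

/-! ## 7. the thick return `f` (`Tr/InstL` sec. 8 of 168): copies of `e` at the EXIT data `Zo`, `Fo` -/

section ret

variable {τ : Type} {c : ℝ} {𝔓 : PvxPar τ c} {𝔈 : PvieEng τ} {m m0 : ℕ} {ε Cth : ℝ} {r κs : ℕ → ℝ}

theorem pvzi2_mWnf (H : PvieEng.Wf 𝔓 𝔈 m0 Cth r κs) (z : ℂ) (t : τ) (Z : Set (ℤ × ℤ)) : MeasurableSet (pvilWnf 𝔓 𝔈 m z t Z) :=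
  (((pvzi2_mWz 𝔓 m z t Z).union (pvzi2_sh z (H.m_fM m t))).union (pvzi2_sh z (H.m_fK m t))).union (pvzi2_sh _ (H.m_rO m))

/-- **the thick return at ANY base data is a soft end** -/
theorem pvzi2_soft_f (H : PvieEng.Wf 𝔓 𝔈 m0 Cth r κs) (ε : ℝ) (w : ∀ η : Conf PvPt, (delbPl (pvieY η)).Dart → ℂ) (z : ℂ) (t : τ) (Z : Set (ℤ × ℤ)) (F : Set ℂ) :
    Pvzi2Soft (pvilEf 𝔓 𝔈 m ε w z t Z F) (pvieSh z (𝔈.fM m t) \ F) (pvilWnf 𝔓 𝔈 m z t Z) :=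
  pvzi2_soft ε (pvzi2_mWnf H z t Z) (pvzi2_sh z (H.m_fK m t)) Z _ _

theorem pvzi2_soft_fAt (H : PvieEng.Wf 𝔓 𝔈 m0 Cth r κs) (ε : ℝ) (w : ∀ η : Conf PvPt, (delbPl (pvieY η)).Dart → ℂ) (z : ℂ) (t : τ) (η₀ : Conf PvPt) :
    Pvzi2Soft (pvilEfAt 𝔓 𝔈 m ε w z t η₀) (pvieSh z (𝔈.fM m t) \ pvilFo 𝔓 m z t η₀) (pvilWnf 𝔓 𝔈 m z t (pvilZo 𝔓 m z t η₀)) :=
  pvzi2_soft_f H ε w z t _ _

/-- the recoloured mouth of the thick return misses its tile and the region of the reference plug -/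
theorem pvzi2_yC_f (H : PvieEng.Wf 𝔓 𝔈 m0 Cth r κs) (hm : m0 ≤ m) {t : τ} (ht : pviwTyOk 𝔓 t) (z : ℂ) (F : Set ℂ) :
    Disjoint (pvieSh z (𝔈.fM m t) \ F) (pvieSh z (𝔈.fK m t) ∪ pvieSh (pvieZu 𝔓 m z t) (𝔈.rO m)) := by
  have h := H.th_disj m hm t ht
  simp only [List.pairwise_cons, List.mem_cons, List.not_mem_nil, or_false, forall_eq_or_imp, forall_eq] at h
  refine Disjoint.mono_left sdiff_subset (disjoint_union_right.2 ⟨pvzi2_sh_disj z h.2.2.1.1, ?_⟩)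
  have e : pvieSh (pvieZu 𝔓 m z t) (𝔈.rO m) = pvieSh z (pviwRo 𝔓 𝔈 m t) := (pvzi2_sh_sh z _ _).symm
  rw [e]
  exact pvzi2_sh_disj z h.2.2.1.2

/-- the two thick links: mouths and tiles of `e` and of `f` and the region of the reference plug are pairwise disjoint, placed at `z` -/
theorem pvzi2_th_disj (H : PvieEng.Wf 𝔓 𝔈 m0 Cth r κs) (hm : m0 ≤ m) {t : τ} (ht : pviwTyOk 𝔓 t) (z : ℂ) :
    [pvieSh z (𝔈.eM m t), pvieSh z (𝔈.eK m t), pvieSh z (𝔈.fM m t), pvieSh z (𝔈.fK m t), pvieSh (pvieZu 𝔓 m z t) (𝔈.rO m)].Pairwise Disjoint := by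
  have e : pvieSh (pvieZu 𝔓 m z t) (𝔈.rO m) = pvieSh z (pviwRo 𝔓 𝔈 m t) := (pvzi2_sh_sh z _ _).symm
  rw [e]
  exact (List.pairwise_map (f := pvieSh z)).2 ((H.th_disj m hm t ht).imp fun h => pvzi2_sh_disj z h)

/-- **the thick return in its own experiment** -/
theorem pvzi2_own_f (H : PvieEng.Wf 𝔓 𝔈 m0 Cth r κs) (hm : m0 ≤ m) (ε : ℝ) {t : τ} (ht : pviwTyOk 𝔓 t) (w : ∀ η : Conf PvPt, (delbPl (pvieY η)).Dart → ℂ) (z : ℂ)
    (Z : Set (ℤ × ℤ)) (F : Set ℂ) {ω : Conf PvPt} (cnt : (cfSites ω).Countable) :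
    PvueWin ω ((pvilEf 𝔓 𝔈 m ε w z t Z F).K ∪ pvieSh (pvieZu 𝔓 m z t) (𝔈.rO m)) (pvilEf 𝔓 𝔈 m ε w z t Z F).y (pvilEf 𝔓 𝔈 m ε w z t Z F)
      (pvieSh (pvieZu 𝔓 m z t) (𝔈.rO m)) (pvilWnf 𝔓 𝔈 m z t Z) :=
  (pvzi2_soft_f H ε w z t Z F).own (pvzi2_sh _ (H.m_rO m)) cnt (pvzi2_yC_f H hm ht z F)

/-- the soft success WITHOUT the value -/
theorem pvzi2_mAf (H : PvieEng.Wf 𝔓 𝔈 m0 Cth r κs) (ε : ℝ) (z : ℂ) (t : τ) (Z : Set (ℤ × ℤ)) : MeasurableSet (pvilAf 𝔓 𝔈 m ε z t Z) :=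
  pvzi2_fin_measurable Z (pvzi2_sure_measurable ε (pvzi2_mWnf H z t Z) _)

theorem pvzi2_rAf (𝔓 : PvxPar τ c) (𝔈 : PvieEng τ) (m : ℕ) (ε : ℝ) (z : ℂ) (t : τ) (Z : Set (ℤ × ℤ)) : Conf.Reads (pvilWnf 𝔓 𝔈 m z t Z ×ˢ univ) fun η => η ∈ pvilAf 𝔓 𝔈 m ε z t Z :=
  pvzi2_fin_reads Z (pvzi2_sure_reads ε _ _)

/-- `Sure` is a.s. monotone (NO measurability of the events) -/
theorem pvzi2_sure_mono_ae (ε : ℝ) {Wn : Set ℂ} (mW : MeasurableSet Wn) {M M' : Set (Conf PvPt)} (h : M ⊆ M') : ∀ᵐ σ ∂(pvP ε), σ ∈ pvilSure ε Wn M → σ ∈ pvilSure ε Wn M' := by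
  have e : ∀ᵐ η ∂(pvP ε), η ∈ (univ : Set (Conf PvPt)) → η ∈ toMeasurable (pvP ε) M → η ∈ toMeasurable (pvP ε) M' := by
    have h1 : pvP ε (toMeasurable (pvP ε) M ∩ toMeasurable (pvP ε) M') = pvP ε (toMeasurable (pvP ε) M) :=
      le_antisymm (measure_mono inter_subset_left) ((measure_toMeasurable M).le.trans (measure_mono (subset_inter (subset_toMeasurable _ _) (h.trans (subset_toMeasurable _ _)))))
    have h2 : pvP ε (toMeasurable (pvP ε) M \ toMeasurable (pvP ε) M') = 0 := by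
      have h3 := measure_inter_add_sdiff (μ := pvP ε) (toMeasurable (pvP ε) M) (measurableSet_toMeasurable (pvP ε) M')
      rw [h1] at h3
      exact (ENNReal.add_right_inj (measure_ne_top _ _)).1 (h3.trans (add_zero _).symm)
    filter_upwards [measure_eq_zero_iff_ae_notMem.1 h2] with η hη _ h4
    by_contra h5
    exact hη ⟨h4, h5⟩
  filter_upwards [pvsu_P_mono_on (T := univ) (pv_isPpp ε) (mW.prod MeasurableSet.univ) (fun _ => rfl) e] with σ hσ h1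
  exact le_antisymm (pvti_P_le_one _ _ σ) ((le_of_eq (Eq.symm h1)).trans (hσ (mem_univ _)))

/-- a.s. the success with the value lies in the success without the value -/
theorem pvzi2_Ef_sub_Af (H : PvieEng.Wf 𝔓 𝔈 m0 Cth r κs) (ε : ℝ) (w : ∀ η : Conf PvPt, (delbPl (pvieY η)).Dart → ℂ) (z : ℂ) (t : τ) (Z : Set (ℤ × ℤ)) (F : Set ℂ) :
    ∀ᵐ σ ∂(pvP ε), σ ∈ (pvilEf 𝔓 𝔈 m ε w z t Z F).A → σ ∈ pvilAf 𝔓 𝔈 m ε z t Z := by
  filter_upwards [pvzi2_sure_mono_ae ε (pvzi2_mWnf (m := m) H z t Z) (M := pvilMf 𝔓 𝔈 m z t Z ∩ {η | (pvilLf 𝔓 𝔈 m z t).X 𝔓.num (𝔓.col t) w η =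
    pvilLoc ε (pvilWnf 𝔓 𝔈 m z t Z) (pvilMf 𝔓 𝔈 m z t Z) ((pvilLf 𝔓 𝔈 m z t).X 𝔓.num (𝔓.col t) w) η}) inter_subset_left] with σ hσ h1
  have h2 : σ ∈ pvilFin Z (pvilSA ε (pvilWnf 𝔓 𝔈 m z t Z) (pvilMf 𝔓 𝔈 m z t Z) ((pvilLf 𝔓 𝔈 m z t).X 𝔓.num (𝔓.col t) w)) := h1
  unfold pvilAf
  unfold pvilFin at h2 ⊢
  split_ifs at h2 ⊢
  · exact hσ h2
  · exact h2

end ret

end Claimed.Agent.R289
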