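-- KEEP
import Claimed.Agent.R289.Tr.InstL

/-!
# Row 289 (S0537), THE WALL, ROAD E, box TR-CYCE, file Tr/CycE : [EQ] OF `cyc1` = TR1 TR2 TR3 FOR THE `Σ₁` CYCLE, IN THE SHAPES OF `Tr/InstL`      (helper102; prefix `pvjg_`, `pvjg`, `Pvjg`; consumer 188 `Exit/Cyc1B`)

The `Σ₁` cycle `t -out-> door 0 -l1-> door n -r-> reference plug -thick-> t` is a PATH: plugs `0 .. N` (regions on `Conf PvPt`), region links `j → j + 1`, two FUNNELS at the two ends (218, `Tr/ChainE`).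
* sec. 1  `PvjgPath` = a path of HETEROGENEOUS region links;   `pvjgSys` (a `PvkeSys` of 218), `PvjgPath.Ok`, `.Frc`;   `PvjgChain.mass .le .mean .jensen` ON THE EXPERIMENT SPACE `PvkeX Z PvPt`;   `PvjgPath.fx`, `PvjgChainA` : forcing of the region links at ALMOST EVERY pair of states is enough
* sec. 2  carried to `pvdyHat pvdyW` at a FIXED base configuration as `Tr/ChainY` does:   `PvjgChainY`,   `.hat_eq .mass .le_ae .jensen`
* sec. 3  THE CYCLE: `PvjgRef` (reference block in its own frame), `pvjgCy` (the path of the cycle), `pvjgWcyc pvjgYcyc pvjgKe pvjgKin0` (= the bodies of `pvilWcyc pvilYcyc pvilKeW pvilKin0W`),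
          the record **`PvjgCyc`**,   **`PvjgCyc.hat_eq`**, `.mass`, `.le_ae`, `.jensen`
* sec. 4  AT `Tr/InstL`: **`pvjg_hat_cyc`** : `pvilHatCyc = pvilKout + pvtSum pvilW (dout t) (l1 t) + pvilKin0 + pvilKe`, `pvjg_mass_cyc`, `pvjg_le_cyc`, `pvjg_jensen_cyc`
-/

set_option autoImplicit false
set_option linter.unusedSectionVars false

namespace Claimed.Agent.R289

open MeasureTheory ProbabilityTheory Set Claims.C0465
open scoped ENNReal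

/-! ## 1. paths of region links between two funnels -/

/-- **A PATH**: plugs `0 .. N` (region `O j`, usable states `G j`), region links `j < N` from the plug `j` to the plug `j + 1` (tile `K j`, success `A j`, value `X j`); everything on `Conf PvPt`, at its ABSOLUTE place -/
structure PvjgPath where
  N : ℕ
  O : ℕ → Set PvPt
  K : ℕ → Set PvPt
  G : ℕ → Set (Conf PvPt)
  A : ℕ → Set (Conf PvPt)
  X : ℕ → Conf PvPt → ℂ

namespace PvjgPath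

variable (P : PvjgPath) (μ : Measure (Conf PvPt))

/-- `1_G / μ(G)` -/
noncomputable def g (j : ℕ) (η : Conf PvPt) : ℝ≥0∞ := (P.G j).indicator 1 η / μ (P.G j)

/-- `1_A / P(A | the two states)` -/
noncomputable def w (j : ℕ) : Conf PvPt → ℝ≥0∞ := pvtiW μ (P.O j ∪ P.O (j + 1)) (P.A j)

/-- the weight of one link with its two plugs -/
noncomputable def w2 (j : ℕ) (η : Conf PvPt) : ℝ≥0∞ := P.g μ j η * P.g μ (j + 1) η * P.w μ j η

/-- the constant of the link `j` -/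
noncomputable def k (j : ℕ) : ℂ := ∫ η, P.X j η ∂(μ.withDensity (P.w2 μ j))

/-- measurability, readers, disjointness -/
structure Ok {Z : Type} (fo fe : PvkeFun Z) : Prop where
  mO : ∀ j ≤ P.N, MeasurableSet (P.O j)
  mK : ∀ j < P.N, MeasurableSet (P.K j)
  mG : ∀ j ≤ P.N, MeasurableSet (P.G j)
  mA : ∀ j < P.N, MeasurableSet (P.A j)
  mX : ∀ j < P.N, Measurable (P.X j)
  rG : ∀ j ≤ P.N, Conf.Reads (P.O j) fun η => η ∈ P.G j
  rA : ∀ j < P.N, Conf.Reads ((P.O j ∪ P.O (j + 1)) ∪ P.K j) fun η => η ∈ P.A j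
  rX : ∀ j < P.N, Conf.Reads ((P.O j ∪ P.O (j + 1)) ∪ P.K j) (P.X j)
  OO : ∀ i ≤ P.N, ∀ j ≤ P.N, i ≠ j → Disjoint (P.O i) (P.O j)
  KK : ∀ i < P.N, ∀ j < P.N, i ≠ j → Disjoint (P.K i) (P.K j)
  OK : ∀ i ≤ P.N, ∀ j < P.N, Disjoint (P.O i) (P.K j)
  oO : ∀ i ≤ P.N, Disjoint (P.O i) fo.K
  eO : ∀ i ≤ P.N, Disjoint (P.O i) fe.K
  oK : ∀ j < P.N, Disjoint (P.K j) fo.K
  eK : ∀ j < P.N, Disjoint (P.K j) fe.K
  oe : Disjoint fo.K fe.K
  UU : Disjoint fo.U fe.U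
  ok_o : fo.Ok (P.O 0)
  ok_e : fe.Ok (P.O P.N)

/-- the plugs are admitted, the links and the funnels are forced -/
structure Frc {Z : Type} (fo fe : PvkeFun Z) (q : ℕ → ℝ≥0∞) (qo qe : ℝ≥0∞) : Prop where
  adm : ∀ j ≤ P.N, μ (P.G j) ≠ 0
  q0 : ∀ j < P.N, q j ≠ 0
  frc : ∀ j < P.N, ∀ η, η ∈ P.G j → η ∈ P.G (j + 1) → q j ≤ pvtiP μ (P.O j ∪ P.O (j + 1)) (P.A j) η
  frc_o : fo.Frc μ (P.G 0) qo
  frc_e : fe.Frc μ (P.G P.N) qe

end PvjgPath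

/-- the mean of a funnel, its plug (weight `g`) integrated -/
noncomputable def pvjgFk {Z : Type} (μ : Measure (Conf PvPt)) (f : PvkeFun Z) (g : Conf PvPt → ℝ≥0∞) : ℂ := ∫ x, f.X x ∂((pvkeLaw Z μ).withDensity fun x => g x.2 * f.w μ x)

section path

variable {Z : Type} (P : PvjgPath) (fo fe : PvkeFun Z)

/-- **THE PATH** `-fo-> plug 0 -link 0-> plug 1 … plug N <-fe-` as a hybrid system of 218 -/
noncomputable def pvjgSys : PvkeSys Z PvPt (Fin (P.N + 1)) (Fin P.N ⊕ Bool) where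
  O u := P.O u
  K := Sum.elim (fun j => P.K j) fun b => cond b fe.K fo.K
  U := Sum.elim (fun _ => ∅) fun b => cond b fe.U fo.U
  WA := Sum.elim (fun j => (P.O j ∪ P.O (j + 1)) ∪ P.K j) fun b => cond b (fe.K ∪ P.O P.N) (fo.K ∪ P.O 0)
  G u := Prod.snd ⁻¹' P.G u
  A := Sum.elim (fun j => Prod.snd ⁻¹' P.A j) fun b => cond b fe.A fo.A
  adj := Sum.elim (fun j => {j.castSucc, j.succ}) fun b => cond b {Fin.last P.N} {0}

/-- the field of the path -/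
noncomputable def pvjgXs : Fin P.N ⊕ Bool → PvkeX Z PvPt → ℂ := Sum.elim (fun j x => P.X j x.2) fun b => cond b fe.X fo.X

/-- the weight of the path -/
noncomputable def pvjgWt (μ : Measure (Conf PvPt)) (x : PvkeX Z PvPt) : ℝ≥0∞ :=
  (∏ j ∈ Finset.range (P.N + 1), P.g μ j x.2) * ((∏ j ∈ Finset.range P.N, P.w μ j x.2) * (fe.w μ x * fo.w μ x))

/-- the sum of the values -/
noncomputable def pvjgY (x : PvkeX Z PvPt) : ℂ := (∑ j ∈ Finset.range P.N, P.X j x.2) + (fe.X x + fo.X x)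

/-- all the plugs usable, all the links and the two funnels successful -/
def pvjgEvX : Set (PvkeX Z PvPt) := {x | (∀ j ≤ P.N, x.2 ∈ P.G j) ∧ (∀ j < P.N, x.2 ∈ P.A j) ∧ x ∈ fe.A ∧ x ∈ fo.A}

/-- the forcing constants -/
def pvjgQ (q : ℕ → ℝ≥0∞) (qo qe : ℝ≥0∞) : Fin P.N ⊕ Bool → ℝ≥0∞ := Sum.elim (fun j => q j) fun b => cond b qe qo

/-- the bound of the weight -/
noncomputable def pvjgD (μ : Measure (Conf PvPt)) (q : ℕ → ℝ≥0∞) (qo qe : ℝ≥0∞) : ℝ≥0∞ :=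
  (∏ j ∈ Finset.range (P.N + 1), (μ (P.G j))⁻¹) * ((∏ j ∈ Finset.range P.N, (q j)⁻¹) * (qe⁻¹ * qo⁻¹))

end path

theorem pvjg_eqns_cite : True := by
  have := @PvjgPath.g.eq_1; have := @PvjgPath.w.eq_1; have := @PvjgPath.w2.eq_1; have := @PvjgPath.k.eq_1; have := @pvjgFk.eq_1
  have := @pvjgSys.eq_1; have := @pvjgXs.eq_1; have := @pvjgWt.eq_1; have := @pvjgY.eq_1; have := @pvjgEvX.eq_1; have := @pvjgQ.eq_1; have := @pvjgD.eq_1
  trivial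

section paththm

variable {Z : Type} {P : PvjgPath} {fo fe : PvkeFun Z} {ε : ℝ} {q : ℕ → ℝ≥0∞} {qo qe : ℝ≥0∞}

/-- **the path is a hybrid system** -/
theorem pvjg_sys_ok (h : P.Ok fo fe) : (pvjgSys P fo fe).Ok where
  mO u := h.mO u (Nat.lt_succ_iff.1 u.2)
  mK e := by
    rcases e with j | b
    · exact h.mK j j.2
    · cases b
      · exact h.ok_o.mK
      · exact h.ok_e.mK
  mG u := measurable_snd (h.mG u (Nat.lt_succ_iff.1 u.2))
  mA e := by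
    rcases e with j | b
    · exact measurable_snd (h.mA j j.2)
    · cases b
      · exact h.ok_o.mA
      · exact h.ok_e.mA
  dOO u u' huu := h.OO u (Nat.lt_succ_iff.1 u.2) u' (Nat.lt_succ_iff.1 u'.2) fun e => huu (Fin.ext e)
  dKK e e' he := by
    rcases e with j | b <;> rcases e' with j' | b'
    · exact h.KK j j.2 j' j'.2 fun e => he (congrArg Sum.inl (Fin.ext e))
    · cases b'
      · exact h.oK j j.2
      · exact h.eK j j.2
    · cases b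
      · exact (h.oK j' j'.2).symm
      · exact (h.eK j' j'.2).symm
    · cases b <;> cases b'
      · exact absurd rfl he
      · exact h.oe
      · exact h.oe.symm
      · exact absurd rfl he
  dOK u e := by
    rcases e with j | b
    · exact h.OK u (Nat.lt_succ_iff.1 u.2) j j.2
    · cases b
      · exact h.oO u (Nat.lt_succ_iff.1 u.2)
      · exact h.eO u (Nat.lt_succ_iff.1 u.2)
  dUU e e' he := by
    rcases e with j | b <;> rcases e' with j' | b'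
    · exact Set.empty_disjoint _
    · exact Set.empty_disjoint _
    · exact Set.disjoint_empty _
    · cases b <;> cases b'
      · exact absurd rfl he
      · exact h.UU
      · exact h.UU.symm
      · exact absurd rfl he
  rG u := pvke_rd_snd (h.rG u (Nat.lt_succ_iff.1 u.2)) ∅
  rA e := by
    rcases e with j | b
    · exact pvke_rd_snd (h.rA j j.2) ∅
    · cases b
      · exact h.ok_o.rA
      · exact h.ok_e.rA
  dAK e e' he := by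
    rcases e with j | b <;> rcases e' with j' | b'
    · exact Set.disjoint_union_left.2 ⟨Set.disjoint_union_left.2 ⟨h.OK j j.2.le j' j'.2, h.OK (j + 1) j.2 j' j'.2⟩,
        h.KK j j.2 j' j'.2 fun e => he (congrArg Sum.inl (Fin.ext e))⟩
    · cases b'
      · exact Set.disjoint_union_left.2 ⟨Set.disjoint_union_left.2 ⟨h.oO j j.2.le, h.oO (j + 1) j.2⟩, h.oK j j.2⟩
      · exact Set.disjoint_union_left.2 ⟨Set.disjoint_union_left.2 ⟨h.eO j j.2.le, h.eO (j + 1) j.2⟩, h.eK j j.2⟩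
    · cases b
      · exact Set.disjoint_union_left.2 ⟨(h.oK j' j'.2).symm, h.OK 0 (Nat.zero_le _) j' j'.2⟩
      · exact Set.disjoint_union_left.2 ⟨(h.eK j' j'.2).symm, h.OK P.N le_rfl j' j'.2⟩
    · cases b <;> cases b'
      · exact absurd rfl he
      · exact Set.disjoint_union_left.2 ⟨h.oe, h.eO 0 (Nat.zero_le _)⟩
      · exact Set.disjoint_union_left.2 ⟨h.oe.symm, h.oO P.N le_rfl⟩
      · exact absurd rfl he
  dAO e u hu := by
    have hul : (u : ℕ) ≤ P.N := Nat.lt_succ_iff.1 u.2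
    rcases e with j | b
    · have h1 : (j : ℕ) ≠ u := fun e => hu (by
        show u ∈ ({j.castSucc, j.succ} : Finset _)
        rw [Finset.mem_insert]; left; exact Fin.ext e.symm)
      have h2 : (j : ℕ) + 1 ≠ u := fun e => hu (by
        show u ∈ ({j.castSucc, j.succ} : Finset _)
        rw [Finset.mem_insert, Finset.mem_singleton]; right; exact Fin.ext e.symm)
      exact Set.disjoint_union_left.2 ⟨Set.disjoint_union_left.2 ⟨h.OO j j.2.le u hul h1, h.OO (j + 1) j.2 u hul h2⟩, (h.OK u hul j j.2).symm⟩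
    · cases b
      · have h1 : (0 : ℕ) ≠ u := fun e => hu (by
          show u ∈ ({0} : Finset _)
          rw [Finset.mem_singleton]; exact Fin.ext e.symm)
        exact Set.disjoint_union_left.2 ⟨(h.oO u hul).symm, h.OO 0 (Nat.zero_le _) u hul h1⟩
      · have h1 : P.N ≠ u := fun e => hu (by
          show u ∈ ({Fin.last P.N} : Finset _)
          rw [Finset.mem_singleton]; exact Fin.ext e.symm)
        exact Set.disjoint_union_left.2 ⟨(h.eO u hul).symm, h.OO P.N le_rfl u hul h1⟩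

theorem pvjg_sys_fld (h : P.Ok fo fe) : (pvjgSys P fo fe).Fld (pvjgXs P fo fe) where
  meas e := by
    rcases e with j | b
    · exact (h.mX j j.2).comp measurable_snd
    · cases b
      · exact h.ok_o.mX
      · exact h.ok_e.mX
  rd e := by
    rcases e with j | b
    · exact pvke_rd_snd (h.rX j j.2) ∅
    · cases b
      · exact h.ok_o.rX
      · exact h.ok_e.rX

/-! ### dictionary -/

theorem pvjg_sys_g (h : P.Ok fo fe) (u : Fin (P.N + 1)) (x : PvkeX Z PvPt) : (pvjgSys P fo fe).sys.g (pvkeLaw Z (pvP ε)) u x = P.g (pvP ε) u x.2 := by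
  have := (pv_isPpp ε).prob
  show (Prod.snd ⁻¹' P.G u : Set (PvkeX Z PvPt)).indicator 1 x / pvkeLaw Z (pvP ε) (Prod.snd ⁻¹' P.G u) = _
  rw [pvke_measure_snd (h.mG u (Nat.lt_succ_iff.1 u.2)), pvke_ind_snd]
  rfl

theorem pvjg_dOK (h : P.Ok fo fe) {j : ℕ} (hj : j < P.N) : Disjoint (P.O j ∪ P.O (j + 1)) (P.K j) :=
  Set.disjoint_union_left.2 ⟨h.OK j hj.le j hj, h.OK (j + 1) hj j hj⟩

theorem pvjg_sys_w_cell (h : P.Ok fo fe) (j : Fin P.N) (x : PvkeX Z PvPt) : (pvjgSys P fo fe).sys.w (pvkeLaw Z (pvP ε)) (Sum.inl j) x = P.w (pvP ε) j x.2 := by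
  have := (pv_isPpp ε).prob
  exact pvke_W_snd ∅ (h.mK j j.2) (pvjg_dOK h j.2) (h.mA j j.2) (h.rA j j.2) x

theorem pvjg_sys_w_out (x : PvkeX Z PvPt) : (pvjgSys P fo fe).sys.w (pvkeLaw Z (pvP ε)) (Sum.inr false) x = fo.w (pvP ε) x := rfl

theorem pvjg_sys_w_e (x : PvkeX Z PvPt) : (pvjgSys P fo fe).sys.w (pvkeLaw Z (pvP ε)) (Sum.inr true) x = fe.w (pvP ε) x := rfl

theorem pvjg_sys_Wt (h : P.Ok fo fe) (x : PvkeX Z PvPt) : (pvjgSys P fo fe).sys.Wt (pvkeLaw Z (pvP ε)) x = pvjgWt P fo fe (pvP ε) x := by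
  unfold PvtkSys.Wt pvjgWt
  rw [Fintype.prod_sum_type, Fintype.prod_bool, pvjg_sys_w_out, pvjg_sys_w_e]
  simp_rw [pvjg_sys_g h, pvjg_sys_w_cell h]
  rw [Fin.prod_univ_eq_prod_range (fun j => P.g (pvP ε) j x.2) (P.N + 1), Fin.prod_univ_eq_prod_range (fun j => P.w (pvP ε) j x.2) P.N]

theorem pvjg_sys_w2_cell (h : P.Ok fo fe) (j : Fin P.N) (x : PvkeX Z PvPt) : (pvjgSys P fo fe).sys.w2 (pvkeLaw Z (pvP ε)) (Sum.inl j) x = P.w2 (pvP ε) j x.2 := by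
  unfold PvtkSys.w2 PvjgPath.w2
  rw [pvjg_sys_w_cell h]
  congr 1
  show ∏ u ∈ ({j.castSucc, j.succ} : Finset (Fin (P.N + 1))), _ = _
  rw [Finset.prod_pair (fun e => by have := congrArg Fin.val e; simp at this), pvjg_sys_g h, pvjg_sys_g h]
  rfl

theorem pvjg_sys_w2_out (h : P.Ok fo fe) (x : PvkeX Z PvPt) : (pvjgSys P fo fe).sys.w2 (pvkeLaw Z (pvP ε)) (Sum.inr false) x = P.g (pvP ε) 0 x.2 * fo.w (pvP ε) x := by
  unfold PvtkSys.w2
  rw [pvjg_sys_w_out]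
  congr 1
  show ∏ u ∈ ({0} : Finset (Fin (P.N + 1))), _ = _
  rw [Finset.prod_singleton, pvjg_sys_g h]
  rfl

theorem pvjg_sys_w2_e (h : P.Ok fo fe) (x : PvkeX Z PvPt) : (pvjgSys P fo fe).sys.w2 (pvkeLaw Z (pvP ε)) (Sum.inr true) x = P.g (pvP ε) P.N x.2 * fe.w (pvP ε) x := by
  unfold PvtkSys.w2
  rw [pvjg_sys_w_e]
  congr 1
  show ∏ u ∈ ({Fin.last P.N} : Finset (Fin (P.N + 1))), _ = _
  rw [Finset.prod_singleton, pvjg_sys_g h]
  rfl

theorem pvjg_sys_Ev : (pvjgSys P fo fe).sys.Ev = pvjgEvX P fo fe := by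
  ext x
  constructor
  · rintro ⟨h1, h2⟩
    exact ⟨fun j hj => h1 ⟨j, Nat.lt_succ_of_le hj⟩, fun j hj => h2 (Sum.inl ⟨j, hj⟩), h2 (Sum.inr true), h2 (Sum.inr false)⟩
  · rintro ⟨h1, h2, h3, h4⟩
    refine ⟨fun u => h1 u (Nat.lt_succ_iff.1 u.2), fun e => ?_⟩
    rcases e with j | b
    · exact h2 j j.2
    · cases b
      · exact h4
      · exact h3

theorem pvjg_sys_Y (x : PvkeX Z PvPt) : ∑ e, pvjgXs P fo fe e x = pvjgY P fo fe x := by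
  unfold pvjgY
  rw [Fintype.sum_sum_type, Fintype.sum_bool, ← Fin.sum_univ_eq_sum_range (fun j => P.X j x.2) P.N]
  rfl

theorem pvjg_sys_D (h : P.Ok fo fe) : (pvjgSys P fo fe).sys.D (pvkeLaw Z (pvP ε)) (pvjgQ P q qo qe) = pvjgD P (pvP ε) q qo qe := by
  have := (pv_isPpp ε).prob
  unfold PvtkSys.D pvjgD
  rw [Fintype.prod_sum_type, Fintype.prod_bool]
  have e1 : ∀ u : Fin (P.N + 1), (pvkeLaw Z (pvP ε) ((pvjgSys P fo fe).sys.G u))⁻¹ = (pvP ε (P.G u))⁻¹ := fun u => by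
    show (pvkeLaw Z (pvP ε) (Prod.snd ⁻¹' P.G u))⁻¹ = _
    rw [pvke_measure_snd (h.mG u (Nat.lt_succ_iff.1 u.2))]
  simp_rw [e1]
  rw [Fin.prod_univ_eq_prod_range (fun j => (pvP ε (P.G j))⁻¹) (P.N + 1), ← Fin.prod_univ_eq_prod_range (fun j => (q j)⁻¹) P.N]
  rfl

theorem pvjg_sys_forced (h : P.Ok fo fe) (hF : P.Frc (pvP ε) fo fe q qo qe) : (pvjgSys P fo fe).sys.Forced (pvkeLaw Z (pvP ε)) (pvjgQ P q qo qe) where
  adm u := by
    have := (pv_isPpp ε).prob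
    show pvkeLaw Z (pvP ε) (Prod.snd ⁻¹' P.G u) ≠ 0
    rw [pvke_measure_snd (h.mG u (Nat.lt_succ_iff.1 u.2))]
    exact hF.adm u (Nat.lt_succ_iff.1 u.2)
  q0 e := by
    rcases e with j | b
    · exact hF.q0 j j.2
    · cases b
      · exact hF.frc_o.q0
      · exact hF.frc_e.q0
  frc e x hx := by
    have := (pv_isPpp ε).prob
    rcases e with j | b
    · have h1 : x.2 ∈ P.G j := hx j.castSucc (by
        show j.castSucc ∈ ({j.castSucc, j.succ} : Finset _)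
        exact Finset.mem_insert_self _ _)
      have h2 : x.2 ∈ P.G (j + 1) := hx j.succ (by
        show j.succ ∈ ({j.castSucc, j.succ} : Finset _)
        exact Finset.mem_insert_of_mem (Finset.mem_singleton_self _))
      refine (hF.frc j j.2 _ h1 h2).trans (le_of_eq ?_)
      exact (pvke_P_snd ∅ (h.mK j j.2) (pvjg_dOK h j.2) (h.mA j j.2) (h.rA j j.2) x).symm
    · cases b
      · exact hF.frc_o.frc x (hx 0 (by
          show (0 : Fin (P.N + 1)) ∈ ({0} : Finset _)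
          exact Finset.mem_singleton_self _))
      · exact hF.frc_e.frc x (hx (Fin.last P.N) (by
          show Fin.last P.N ∈ ({Fin.last P.N} : Finset _)
          exact Finset.mem_singleton_self _))

theorem pvjg_g_measurable (h : P.Ok fo fe) {j : ℕ} (hj : j ≤ P.N) : Measurable (P.g (pvP ε) j) := (measurable_one.indicator (h.mG j hj)).div_const _

theorem pvjg_w_measurable (h : P.Ok fo fe) {j : ℕ} (hj : j < P.N) : Measurable (P.w (pvP ε) j) := by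
  have := (pv_isPpp ε).prob
  exact pvth_W_measurable ((h.mO j hj.le).union (h.mO (j + 1) hj)) (h.mA j hj)

theorem pvjg_w2_measurable (h : P.Ok fo fe) {j : ℕ} (hj : j < P.N) : Measurable (P.w2 (pvP ε) j) :=
  ((pvjg_g_measurable h hj.le).mul (pvjg_g_measurable h hj)).mul (pvjg_w_measurable h hj)

theorem pvjg_sys_K_cell (h : P.Ok fo fe) (j : Fin P.N) : pvtkK (pvjgSys P fo fe).sys (pvkeLaw Z (pvP ε)) (pvjgXs P fo fe) (Sum.inl j) = P.k (pvP ε) j := by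
  have := (pv_isPpp ε).prob
  unfold pvtkK
  have e : (pvjgSys P fo fe).sys.w2 (pvkeLaw Z (pvP ε)) (Sum.inl j) = fun x => P.w2 (pvP ε) j x.2 := funext fun x => pvjg_sys_w2_cell h j x
  rw [e]
  show ∫ x : PvkeX Z PvPt, P.X j x.2 ∂_ = _
  rw [pvke_integral_snd (F := P.X j) (pvjg_w2_measurable h j.2) (h.mX j j.2)]
  rfl

theorem pvjg_sys_K_out (h : P.Ok fo fe) : pvtkK (pvjgSys P fo fe).sys (pvkeLaw Z (pvP ε)) (pvjgXs P fo fe) (Sum.inr false) = pvjgFk (pvP ε) fo (P.g (pvP ε) 0) := by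
  unfold pvtkK pvjgFk
  rw [show (pvjgSys P fo fe).sys.w2 (pvkeLaw Z (pvP ε)) (Sum.inr false) = _ from funext fun x => pvjg_sys_w2_out h x]
  rfl

theorem pvjg_sys_K_e (h : P.Ok fo fe) : pvtkK (pvjgSys P fo fe).sys (pvkeLaw Z (pvP ε)) (pvjgXs P fo fe) (Sum.inr true) = pvjgFk (pvP ε) fe (P.g (pvP ε) P.N) := by
  unfold pvtkK pvjgFk
  rw [show (pvjgSys P fo fe).sys.w2 (pvkeLaw Z (pvP ε)) (Sum.inr true) = _ from funext fun x => pvjg_sys_w2_e h x]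
  rfl

theorem pvjg_sys_K_sum (h : P.Ok fo fe) : ∑ e, pvtkK (pvjgSys P fo fe).sys (pvkeLaw Z (pvP ε)) (pvjgXs P fo fe) e
    = pvjgFk (pvP ε) fo (P.g (pvP ε) 0) + ∑ j ∈ Finset.range P.N, P.k (pvP ε) j + pvjgFk (pvP ε) fe (P.g (pvP ε) P.N) := by
  rw [Fintype.sum_sum_type, Fintype.sum_bool, pvjg_sys_K_out h, pvjg_sys_K_e h]
  simp_rw [pvjg_sys_K_cell h]
  rw [Fin.sum_univ_eq_sum_range (fun j => P.k (pvP ε) j) P.N]
  ring

/-- all the hypotheses on a path at a fixed pair of end states -/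
structure PvjgChain (P : PvjgPath) (ε : ℝ) (fo fe : PvkeFun Z) (q : ℕ → ℝ≥0∞) (qo qe : ℝ≥0∞) : Prop where
  ok : P.Ok fo fe
  frc : P.Frc (pvP ε) fo fe q qo qe
  sq : ∀ j < P.N, ∫⁻ η, ‖P.X j η‖ₑ ^ 2 * P.w2 (pvP ε) j η ∂(pvP ε) ≠ ∞
  sq_o : ∫⁻ x, ‖fo.X x‖ₑ ^ 2 * (P.g (pvP ε) 0 x.2 * fo.w (pvP ε) x) ∂(pvkeLaw Z (pvP ε)) ≠ ∞
  sq_e : ∫⁻ x, ‖fe.X x‖ₑ ^ 2 * (P.g (pvP ε) P.N x.2 * fe.w (pvP ε) x) ∂(pvkeLaw Z (pvP ε)) ≠ ∞

namespace PvjgChain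

variable (H : PvjgChain P ε fo fe q qo qe)
include H

theorem WF : (pvjgSys P fo fe).sys.WF (pvkeLaw Z (pvP ε)) := pvke_wf (pv_isPpp ε) (pvjg_sys_ok H.ok)

theorem Forced : (pvjgSys P fo fe).sys.Forced (pvkeLaw Z (pvP ε)) (pvjgQ P q qo qe) := pvjg_sys_forced H.ok H.frc

theorem Fld : PvtkFld (pvjgSys P fo fe).sys (pvjgXs P fo fe) := pvke_fld (pvjg_sys_ok H.ok) (pvjg_sys_fld H.ok)

theorem sqs (e : Fin P.N ⊕ Bool) : ∫⁻ x, ‖pvjgXs P fo fe e x‖ₑ ^ 2 * (pvjgSys P fo fe).sys.w2 (pvkeLaw Z (pvP ε)) e x ∂(pvkeLaw Z (pvP ε)) ≠ ∞ := by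
  have := (pv_isPpp ε).prob
  rcases e with j | b
  · simp_rw [pvjg_sys_w2_cell H.ok]
    show ∫⁻ x : PvkeX Z PvPt, ‖P.X j x.2‖ₑ ^ 2 * P.w2 (pvP ε) j x.2 ∂_ ≠ ∞
    rw [pvke_lintegral_snd (F := fun η => ‖P.X j η‖ₑ ^ 2 * P.w2 (pvP ε) j η) (((H.ok.mX j j.2).enorm.pow_const 2).mul (pvjg_w2_measurable H.ok j.2))]
    exact H.sq j j.2
  · cases b
    · simp_rw [pvjg_sys_w2_out H.ok]
      exact H.sq_o
    · simp_rw [pvjg_sys_w2_e H.ok]
      exact H.sq_e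

/-- the normal form of the mean -/
noncomputable def yhat (_H : PvjgChain P ε fo fe q qo qe) : ℂ :=
  pvjgFk (pvP ε) fo (P.g (pvP ε) 0) + ∑ j ∈ Finset.range P.N, P.k (pvP ε) j + pvjgFk (pvP ε) fe (P.g (pvP ε) P.N)

/-- **TR1**: mass one -/
theorem mass : ∫⁻ x, pvjgWt P fo fe (pvP ε) x ∂(pvkeLaw Z (pvP ε)) = 1 := by
  have := (pv_isPpp ε).prob
  simp_rw [← pvjg_sys_Wt (ε := ε) H.ok]
  exact pvtk_mass H.WF H.Forced

/-- **TR1**: the weight is bounded -/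
theorem le (x : PvkeX Z PvPt) : pvjgWt P fo fe (pvP ε) x ≤ pvjgD P (pvP ε) q qo qe * (pvjgEvX P fo fe).indicator 1 x := by
  rw [← pvjg_sys_Wt (ε := ε) H.ok, ← pvjg_sys_D (fo := fo) (fe := fe) H.ok, ← pvjg_sys_Ev]
  exact pvtk_Wt_le H.Forced x

/-- **TR2** -/
theorem mean : ∫ x, pvjgY P fo fe x ∂((pvkeLaw Z (pvP ε)).withDensity (pvjgWt P fo fe (pvP ε))) = H.yhat := by
  have := (pv_isPpp ε).prob
  have h := pvtk_mean H.WF H.Forced H.Fld H.sqs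
  rw [pvjg_sys_K_sum H.ok] at h
  simp_rw [pvjg_sys_Y] at h
  rw [show (pvjgSys P fo fe).sys.Wt (pvkeLaw Z (pvP ε)) = pvjgWt P fo fe (pvP ε) from funext fun x => pvjg_sys_Wt H.ok x] at h
  exact h

/-- **TR3** -/
theorem jensen (x₀ : ℂ) : ‖x₀ + H.yhat‖ₑ ^ 2 ≤ pvjgD P (pvP ε) q qo qe * ∫⁻ x, ‖x₀ + pvjgY P fo fe x‖ₑ ^ 2 * (pvjgEvX P fo fe).indicator 1 x ∂(pvkeLaw Z (pvP ε)) := by
  have := (pv_isPpp ε).prob
  have h := pvtk_jensen H.WF H.Forced H.Fld H.sqs x₀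
  rw [pvjg_sys_K_sum H.ok, pvjg_sys_D H.ok, pvjg_sys_Ev] at h
  simp_rw [pvjg_sys_Y] at h
  exact h

end PvjgChain

theorem pvjg_eqns_cite2 : True := by
  have := @PvjgChain.yhat.eq_1
  trivial

/-! ### forcing for ALMOST EVERY pair of states: the forced modification of the region links -/

/-- the pairs of usable states at which the link `j` is not forced -/
noncomputable def PvjgPath.bad (P : PvjgPath) (μ : Measure (Conf PvPt)) (q : ℕ → ℝ≥0∞) (j : ℕ) : Set (Conf PvPt) :=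
  {η | η ∈ P.G j ∧ η ∈ P.G (j + 1) ∧ pvtiP μ (P.O j ∪ P.O (j + 1)) (P.A j) η < q j}

/-- **the forced modification of a path**: at a pair of usable states where the conditional probability of the success is `< q j`, the link `j` is DECLARED successful -/
noncomputable def PvjgPath.fx (P : PvjgPath) (μ : Measure (Conf PvPt)) (q : ℕ → ℝ≥0∞) : PvjgPath := { P with A := fun j => P.A j ∪ P.bad μ q j }

/-- the plugs are admitted, the funnels are forced, the region links are forced AT ALMOST EVERY pair of usable states -/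
structure PvjgPath.FrcA (P : PvjgPath) (μ : Measure (Conf PvPt)) (fo fe : PvkeFun Z) (q : ℕ → ℝ≥0∞) (qo qe : ℝ≥0∞) : Prop where
  adm : ∀ j ≤ P.N, μ (P.G j) ≠ 0
  q0 : ∀ j < P.N, q j ≠ 0
  q1 : ∀ j < P.N, q j ≤ 1
  frc : ∀ j < P.N, ∀ᵐ η ∂μ, η ∈ P.G j → η ∈ P.G (j + 1) → q j ≤ pvtiP μ (P.O j ∪ P.O (j + 1)) (P.A j) η
  frc_o : fo.Frc μ (P.G 0) qo
  frc_e : fe.Frc μ (P.G P.N) qe

theorem pvjg_eqns_cite2b : True := by
  have := @PvjgPath.bad.eq_1; have := @PvjgPath.fx.eq_1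
  trivial

theorem pvjg_bad_meas (h : P.Ok fo fe) {j : ℕ} (hj : j < P.N) : MeasurableSet (P.bad (pvP ε) q j) := by
  have := (pv_isPpp ε).prob
  have m1 : Measurable (pvtiP (pvP ε) (P.O j ∪ P.O (j + 1)) (P.A j)) := pvti_P_measurable ((h.mO j hj.le).union (h.mO (j + 1) hj)) (h.mA j hj)
  exact (h.mG j hj.le).inter ((h.mG (j + 1) hj).inter (measurableSet_lt m1 measurable_const))

theorem pvjg_bad_reads (h : P.Ok fo fe) (μ : Measure (Conf PvPt)) {j : ℕ} (hj : j < P.N) : Conf.Reads (P.O j ∪ P.O (j + 1)) fun η => η ∈ P.bad μ q j := by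
  have r1 : Conf.Reads (P.O j ∪ P.O (j + 1)) fun η => η ∈ P.G j := (h.rG j hj.le).mono subset_union_left
  have r2 : Conf.Reads (P.O j ∪ P.O (j + 1)) fun η => η ∈ P.G (j + 1) := (h.rG (j + 1) hj).mono subset_union_right
  have r3 : Conf.Reads (P.O j ∪ P.O (j + 1)) fun η => pvtiP μ (P.O j ∪ P.O (j + 1)) (P.A j) η < q j := (pvti_P_reads μ _ _).comp (· < q j)
  exact r1.map₂ (r2.map₂ r3 And) And

theorem pvjg_fx_ok (h : P.Ok fo fe) : (P.fx (pvP ε) q).Ok fo fe :=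
  { h with
    mA := fun j hj => (h.mA j hj).union (pvjg_bad_meas h hj)
    rA := fun j hj => (h.rA j hj).map₂ ((pvjg_bad_reads h (pvP ε) hj).mono subset_union_left) Or }

theorem pvjg_P_fx_bad (h : P.Ok fo fe) {j : ℕ} (hj : j < P.N) {η : Conf PvPt} (hη : η ∈ P.bad (pvP ε) q j) :
    pvtiP (pvP ε) (P.O j ∪ P.O (j + 1)) (P.A j ∪ P.bad (pvP ε) q j) η = 1 := by
  have := (pv_isPpp ε).prob
  unfold pvtiP
  have e : ∀ ξ, (P.A j ∪ P.bad (pvP ε) q j).indicator (1 : Conf PvPt → ℝ≥0∞) (Conf.spl (P.O j ∪ P.O (j + 1)) (η, ξ)) = 1 := fun ξ => by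
    have e1 : (Conf.spl (P.O j ∪ P.O (j + 1)) (η, ξ) ∈ P.bad (pvP ε) q j) = (η ∈ P.bad (pvP ε) q j) := (pvjg_bad_reads h (pvP ε) hj).spl_left subset_rfl η ξ
    have h3 : Conf.spl (P.O j ∪ P.O (j + 1)) (η, ξ) ∈ P.A j ∪ P.bad (pvP ε) q j := Or.inr (e1 ▸ hη)
    rw [indicator_of_mem h3]
    rfl
  simp_rw [e]
  simp

theorem pvjg_P_fx_good (h : P.Ok fo fe) {j : ℕ} (hj : j < P.N) {η : Conf PvPt} (hη : η ∉ P.bad (pvP ε) q j) :
    pvtiP (pvP ε) (P.O j ∪ P.O (j + 1)) (P.A j ∪ P.bad (pvP ε) q j) η = pvtiP (pvP ε) (P.O j ∪ P.O (j + 1)) (P.A j) η := by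
  unfold pvtiP
  refine lintegral_congr fun ξ => ?_
  have e1 : (Conf.spl (P.O j ∪ P.O (j + 1)) (η, ξ) ∈ P.bad (pvP ε) q j) = (η ∈ P.bad (pvP ε) q j) := (pvjg_bad_reads h (pvP ε) hj).spl_left subset_rfl η ξ
  have h2 : Conf.spl (P.O j ∪ P.O (j + 1)) (η, ξ) ∉ P.bad (pvP ε) q j := e1 ▸ hη
  by_cases hA : Conf.spl (P.O j ∪ P.O (j + 1)) (η, ξ) ∈ P.A j
  · rw [indicator_of_mem hA, indicator_of_mem (show _ ∈ P.A j ∪ P.bad (pvP ε) q j from Or.inl hA)]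
  · rw [indicator_of_notMem hA, indicator_of_notMem (show _ ∉ P.A j ∪ P.bad (pvP ε) q j from fun hc => hc.elim hA h2)]

theorem pvjg_fx_frc (h : P.Ok fo fe) (hF : P.FrcA (pvP ε) fo fe q qo qe) : (P.fx (pvP ε) q).Frc (pvP ε) fo fe q qo qe where
  adm := hF.adm
  q0 := hF.q0
  frc j hj η h1 h2 := by
    show q j ≤ pvtiP (pvP ε) (P.O j ∪ P.O (j + 1)) (P.A j ∪ P.bad (pvP ε) q j) η
    by_cases hb : η ∈ P.bad (pvP ε) q j
    · rw [pvjg_P_fx_bad h hj hb]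
      exact hF.q1 j hj
    · rw [pvjg_P_fx_good h hj hb]
      exact not_lt.1 fun hlt => hb ⟨h1, h2, hlt⟩
  frc_o := hF.frc_o
  frc_e := hF.frc_e

theorem pvjg_fx_w (h : P.Ok fo fe) {j : ℕ} (hj : j < P.N) {η : Conf PvPt} (hη : η ∉ P.bad (pvP ε) q j) : (P.fx (pvP ε) q).w (pvP ε) j η = P.w (pvP ε) j η := by
  show (P.A j ∪ P.bad (pvP ε) q j).indicator 1 η / pvtiP (pvP ε) (P.O j ∪ P.O (j + 1)) (P.A j ∪ P.bad (pvP ε) q j) η = (P.A j).indicator 1 η / pvtiP (pvP ε) (P.O j ∪ P.O (j + 1)) (P.A j) η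
  rw [pvjg_P_fx_good h hj hη]
  congr 1
  by_cases hA : η ∈ P.A j
  · rw [indicator_of_mem hA, indicator_of_mem (show η ∈ P.A j ∪ P.bad (pvP ε) q j from Or.inl hA)]
  · rw [indicator_of_notMem hA, indicator_of_notMem (show η ∉ P.A j ∪ P.bad (pvP ε) q j from fun hc => hc.elim hA hη)]

/-- almost surely no link is modified -/
theorem pvjg_bad_ae (hF : P.FrcA (pvP ε) fo fe q qo qe) : ∀ᵐ η ∂(pvP ε), ∀ j < P.N, η ∉ P.bad (pvP ε) q j := by
  refine ae_all_iff.2 fun j => ?_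
  by_cases hj : j < P.N
  · filter_upwards [hF.frc j hj] with η hη _ hb
    exact absurd (hη hb.1 hb.2.1) (not_le.2 hb.2.2)
  · exact Filter.Eventually.of_forall fun _ h => absurd h hj

theorem pvjg_bad_aeX (hF : P.FrcA (pvP ε) fo fe q qo qe) : ∀ᵐ x ∂(pvkeLaw Z (pvP ε)), ∀ j < P.N, x.2 ∉ P.bad (pvP ε) q j := by
  have := (pv_isPpp ε).prob
  unfold pvkeLaw
  exact Measure.quasiMeasurePreserving_snd.ae (pvjg_bad_ae hF)

/-- all the hypotheses on a path at a fixed pair of end states, forcing of the region links ALMOST EVERYWHERE -/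
structure PvjgChainA (P : PvjgPath) (ε : ℝ) (fo fe : PvkeFun Z) (q : ℕ → ℝ≥0∞) (qo qe : ℝ≥0∞) : Prop where
  ok : P.Ok fo fe
  frc : P.FrcA (pvP ε) fo fe q qo qe
  sq : ∀ j < P.N, ∫⁻ η, ‖P.X j η‖ₑ ^ 2 * P.w2 (pvP ε) j η ∂(pvP ε) ≠ ∞
  sq_o : ∫⁻ x, ‖fo.X x‖ₑ ^ 2 * (P.g (pvP ε) 0 x.2 * fo.w (pvP ε) x) ∂(pvkeLaw Z (pvP ε)) ≠ ∞
  sq_e : ∫⁻ x, ‖fe.X x‖ₑ ^ 2 * (P.g (pvP ε) P.N x.2 * fe.w (pvP ε) x) ∂(pvkeLaw Z (pvP ε)) ≠ ∞

namespace PvjgChainA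

variable (H : PvjgChainA P ε fo fe q qo qe)
include H

theorem w2_ae {j : ℕ} (hj : j < P.N) : (P.fx (pvP ε) q).w2 (pvP ε) j =ᵐ[pvP ε] P.w2 (pvP ε) j := by
  filter_upwards [pvjg_bad_ae H.frc] with η hη
  show P.g (pvP ε) j η * P.g (pvP ε) (j + 1) η * (P.fx (pvP ε) q).w (pvP ε) j η = _
  rw [pvjg_fx_w H.ok hj (hη j hj)]
  rfl

/-- the modified path satisfies the pointwise record -/
theorem fx : PvjgChain (P.fx (pvP ε) q) ε fo fe q qo qe where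
  ok := pvjg_fx_ok H.ok
  frc := pvjg_fx_frc H.ok H.frc
  sq j hj := by
    have e : ∫⁻ η, ‖P.X j η‖ₑ ^ 2 * (P.fx (pvP ε) q).w2 (pvP ε) j η ∂(pvP ε) = ∫⁻ η, ‖P.X j η‖ₑ ^ 2 * P.w2 (pvP ε) j η ∂(pvP ε) :=
      lintegral_congr_ae ((H.w2_ae hj).mono fun η hη => by
        show ‖P.X j η‖ₑ ^ 2 * (P.fx (pvP ε) q).w2 (pvP ε) j η = ‖P.X j η‖ₑ ^ 2 * P.w2 (pvP ε) j η
        rw [hη])
    exact e.trans_ne (H.sq j hj)
  sq_o := H.sq_o
  sq_e := H.sq_e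

theorem Wt_ae : pvjgWt (P.fx (pvP ε) q) fo fe (pvP ε) =ᵐ[pvkeLaw Z (pvP ε)] pvjgWt P fo fe (pvP ε) := by
  filter_upwards [pvjg_bad_aeX H.frc] with x hx
  unfold pvjgWt
  have e : ∏ j ∈ Finset.range (P.fx (pvP ε) q).N, (P.fx (pvP ε) q).w (pvP ε) j x.2 = ∏ j ∈ Finset.range P.N, P.w (pvP ε) j x.2 :=
    Finset.prod_congr rfl fun j hj => pvjg_fx_w H.ok (Finset.mem_range.1 hj) (hx j (Finset.mem_range.1 hj))
  rw [e]
  rfl

theorem Ev_ae : ∀ᵐ x ∂(pvkeLaw Z (pvP ε)), (x ∈ pvjgEvX (P.fx (pvP ε) q) fo fe ↔ x ∈ pvjgEvX P fo fe) := by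
  filter_upwards [pvjg_bad_aeX H.frc] with x hx
  constructor
  · rintro ⟨h1, h2, h3⟩
    exact ⟨h1, fun j hj => (h2 j hj).elim id fun hb => absurd hb (hx j hj), h3⟩
  · rintro ⟨h1, h2, h3⟩
    exact ⟨h1, fun j hj => Or.inl (h2 j hj), h3⟩

theorem k_eq {j : ℕ} (hj : j < P.N) : (P.fx (pvP ε) q).k (pvP ε) j = P.k (pvP ε) j := by
  unfold PvjgPath.k
  rw [withDensity_congr_ae (H.w2_ae hj)]
  rfl

/-- the normal form of the mean -/
noncomputable def yhat (_H : PvjgChainA P ε fo fe q qo qe) : ℂ :=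
  pvjgFk (pvP ε) fo (P.g (pvP ε) 0) + ∑ j ∈ Finset.range P.N, P.k (pvP ε) j + pvjgFk (pvP ε) fe (P.g (pvP ε) P.N)

theorem yhat_eq : H.fx.yhat = H.yhat := by
  unfold PvjgChain.yhat PvjgChainA.yhat
  have e : ∑ j ∈ Finset.range (P.fx (pvP ε) q).N, (P.fx (pvP ε) q).k (pvP ε) j = ∑ j ∈ Finset.range P.N, P.k (pvP ε) j :=
    Finset.sum_congr rfl fun j hj => H.k_eq (Finset.mem_range.1 hj)
  rw [e]
  rfl

/-- **TR1**: mass one -/
theorem mass : ∫⁻ x, pvjgWt P fo fe (pvP ε) x ∂(pvkeLaw Z (pvP ε)) = 1 := by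
  rw [← lintegral_congr_ae H.Wt_ae]
  exact H.fx.mass

/-- **TR1**: the weight is bounded -/
theorem le_ae : ∀ᵐ x ∂(pvkeLaw Z (pvP ε)), pvjgWt P fo fe (pvP ε) x ≤ pvjgD P (pvP ε) q qo qe * (pvjgEvX P fo fe).indicator 1 x := by
  filter_upwards [H.Wt_ae, H.Ev_ae] with x h1 h2
  rw [← h1]
  refine (H.fx.le x).trans (le_of_eq ?_)
  show pvjgD P (pvP ε) q qo qe * _ = _
  congr 1
  by_cases hx : x ∈ pvjgEvX P fo fe
  · rw [indicator_of_mem hx, indicator_of_mem (h2.2 hx)]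
  · rw [indicator_of_notMem hx, indicator_of_notMem fun hh => hx (h2.1 hh)]

/-- **TR2** -/
theorem mean : ∫ x, pvjgY P fo fe x ∂((pvkeLaw Z (pvP ε)).withDensity (pvjgWt P fo fe (pvP ε))) = H.yhat := by
  rw [← H.yhat_eq, ← H.fx.mean, withDensity_congr_ae H.Wt_ae]
  rfl

/-- **TR3** -/
theorem jensen (x₀ : ℂ) : ‖x₀ + H.yhat‖ₑ ^ 2 ≤ pvjgD P (pvP ε) q qo qe * ∫⁻ x, ‖x₀ + pvjgY P fo fe x‖ₑ ^ 2 * (pvjgEvX P fo fe).indicator 1 x ∂(pvkeLaw Z (pvP ε)) := by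
  rw [← H.yhat_eq]
  refine (H.fx.jensen x₀).trans (le_of_eq ?_)
  show pvjgD P (pvP ε) q qo qe * _ = _
  congr 1
  refine lintegral_congr_ae ?_
  filter_upwards [H.Ev_ae] with x h2
  show ‖x₀ + pvjgY P fo fe x‖ₑ ^ 2 * _ = _
  congr 1
  by_cases hx : x ∈ pvjgEvX P fo fe
  · rw [indicator_of_mem hx, indicator_of_mem (h2.2 hx)]
  · rw [indicator_of_notMem hx, indicator_of_notMem fun hh => hx (h2.1 hh)]

end PvjgChainA

theorem pvjg_eqns_cite2c : True := by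
  have := @PvjgChainA.yhat.eq_1
  trivial

end paththm

/-! ## 2. the path at a FIXED base configuration, in the names of `Tr/DomY` -/

section defsY

variable (P : PvjgPath) (ε : ℝ) (b : Bool) (eo ee : PvkyEnd)

/-- the weight of the path, on configurations -/
noncomputable def pvjgWc (η : Conf PvPt) : ℝ≥0∞ :=
  (∏ j ∈ Finset.range (P.N + 1), P.g (pvP ε) j (pvkyFl b η)) * ((∏ j ∈ Finset.range P.N, P.w (pvP ε) j (pvkyFl b η)) * (pvdyW ε ee.K ee.y ee.A η * pvdyW ε eo.K eo.y eo.A η))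

/-- the sum of the values, on configurations -/
noncomputable def pvjgYc (η : Conf PvPt) : ℂ := (∑ j ∈ Finset.range P.N, P.X j (pvkyFl b η)) + (ee.X η + eo.X η)

/-- all the plugs usable, all the links successful -/
def pvjgEv : Set (Conf PvPt) := {η | (∀ j ≤ P.N, pvkyFl b η ∈ P.G j) ∧ (∀ j < P.N, pvkyFl b η ∈ P.A j) ∧ η ∈ ee.A ∧ η ∈ eo.A}

/-- the mean of an end link in its OWN experiment: tile + region `D` of its plug, fresh sites of the mouth; `g` = the weight of the plug      (`pvkyK` of 218: `D = pvkyDoor kit z d`, `g = kit.g (pvP ε) z d`) -/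
noncomputable def pvjgK1 (e : PvkyEnd) (D : Set ℂ) (g : Conf PvPt → ℝ≥0∞) (ω : Conf PvPt) : ℂ :=
  pvdyHat ε (e.K ∪ D) e.y (fun η => g (pvkyFl b η) * pvdyW ε e.K e.y e.A η) e.X ω

end defsY

theorem pvjg_eqns_cite3 : True := by
  have := @pvjgWc.eq_1; have := @pvjgYc.eq_1; have := @pvjgEv.eq_1; have := @pvjgK1.eq_1
  trivial

theorem pvjg_g_reads {Z : Type} {P : PvjgPath} {fo fe : PvkeFun Z} (h : P.Ok fo fe) {j : ℕ} (hj : j ≤ P.N) (μ : Measure (Conf PvPt)) : Conf.Reads (P.O j) (P.g μ j) :=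
  (pvti_ind_reads (h.rG j hj)).comp (fun x => x / μ (P.G j))

theorem pvjg_w_reads {Z : Type} {P : PvjgPath} {fo fe : PvkeFun Z} (h : P.Ok fo fe) {j : ℕ} (hj : j < P.N) (μ : Measure (Conf PvPt)) :
    Conf.Reads ((P.O j ∪ P.O (j + 1)) ∪ P.K j) (P.w μ j) := pvth_W_reads μ (h.rA j hj)

/-- **ALL THE HYPOTHESES ON A PATH AT A FIXED BASE CONFIGURATION `ω`**: the two funnels represent the end links `eo ee` in the experiment of the whole path AND in their own experiments (`Do`, `De` = the regions of the plugs `0`, `N`) -/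
structure PvjgChainY (P : PvjgPath) (ε : ℝ) (b : Bool) (ω : Conf PvPt) (C : Set ℂ) (yf : Conf PvPt → Set ℂ) (eo ee : PvkyEnd) (Do De : Set ℂ) (fo fe : PvkeFun ℂ)
    (q : ℕ → ℝ≥0∞) (qo qe : ℝ≥0∞) : Prop where
  ch : PvjgChainA P ε fo fe q qo qe
  CO : ∀ j ≤ P.N, P.O j ⊆ C ×ˢ univ
  CK : ∀ j < P.N, P.K j ⊆ C ×ˢ univ
  O_o : P.O 0 = Do ×ˢ univ
  O_e : P.O P.N = De ×ˢ univ
  ag_o : PvkyAg ε b ω C yf eo fo
  ag_e : PvkyAg ε b ω C yf ee fe
  loc_o : PvkyAg ε b ω (eo.K ∪ Do) eo.y eo fo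
  loc_e : PvkyAg ε b ω (ee.K ∪ De) ee.y ee fe

namespace PvjgChainY

variable {P : PvjgPath} {ε : ℝ} {b : Bool} {ω : Conf PvPt} {C : Set ℂ} {yf : Conf PvPt → Set ℂ} {eo ee : PvkyEnd} {Do De : Set ℂ} {fo fe : PvkeFun ℂ}
  {q : ℕ → ℝ≥0∞} {qo qe : ℝ≥0∞} (H : PvjgChainY P ε b ω C yf eo ee Do De fo fe q qo qe)
include H

theorem g_phi {j : ℕ} (hj : j ≤ P.N) (x : PvkeX ℂ PvPt) : P.g (pvP ε) j (pvkyFl b (pvkyPhi b C yf ω x)) = P.g (pvP ε) j x.2 :=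
  pvky_reads_phi (pvjg_g_reads H.ch.ok hj _) (H.CO j hj) x

theorem G_phi {j : ℕ} (hj : j ≤ P.N) (x : PvkeX ℂ PvPt) : (pvkyFl b (pvkyPhi b C yf ω x) ∈ P.G j) = (x.2 ∈ P.G j) :=
  pvky_reads_phi (H.ch.ok.rG j hj) (H.CO j hj) x

theorem cell_sub {j : ℕ} (hj : j < P.N) : (P.O j ∪ P.O (j + 1)) ∪ P.K j ⊆ C ×ˢ univ :=
  union_subset (union_subset (H.CO j hj.le) (H.CO (j + 1) hj)) (H.CK j hj)

theorem w_phi {j : ℕ} (hj : j < P.N) (x : PvkeX ℂ PvPt) : P.w (pvP ε) j (pvkyFl b (pvkyPhi b C yf ω x)) = P.w (pvP ε) j x.2 :=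
  pvky_reads_phi (pvjg_w_reads H.ch.ok hj _) (H.cell_sub hj) x

theorem A_phi {j : ℕ} (hj : j < P.N) (x : PvkeX ℂ PvPt) : (pvkyFl b (pvkyPhi b C yf ω x) ∈ P.A j) = (x.2 ∈ P.A j) :=
  pvky_reads_phi (H.ch.ok.rA j hj) (H.cell_sub hj) x

theorem X_phi {j : ℕ} (hj : j < P.N) (x : PvkeX ℂ PvPt) : P.X j (pvkyFl b (pvkyPhi b C yf ω x)) = P.X j x.2 :=
  pvky_reads_phi (H.ch.ok.rX j hj) (H.cell_sub hj) x

theorem Wc_ae : ∀ᵐ x ∂(pvkeLaw ℂ (pvP ε)), pvjgWc P ε b eo ee (pvkyPhi b C yf ω x) = pvjgWt P fo fe (pvP ε) x := by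
  filter_upwards [H.ag_o.W_ae H.ch.ok.ok_o.mK H.ch.ok.ok_o.mA, H.ag_e.W_ae H.ch.ok.ok_e.mK H.ch.ok.ok_e.mA] with x ho he
  unfold pvjgWc pvjgWt
  rw [ho, he, Finset.prod_congr rfl fun j hj => H.g_phi (Nat.lt_succ_iff.1 (Finset.mem_range.1 hj)) x, Finset.prod_congr rfl fun j hj => H.w_phi (Finset.mem_range.1 hj) x]

theorem Yc_ae : ∀ᵐ x ∂(pvkeLaw ℂ (pvP ε)), pvjgYc P b eo ee (pvkyPhi b C yf ω x) = pvjgY P fo fe x := by
  filter_upwards [H.ag_o.ae, H.ag_e.ae] with x ho he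
  unfold pvjgYc pvjgY
  rw [ho.2.1, he.2.1, Finset.sum_congr rfl fun j hj => H.X_phi (Finset.mem_range.1 hj) x]

theorem Ev_ae : ∀ᵐ x ∂(pvkeLaw ℂ (pvP ε)), (pvkyPhi b C yf ω x ∈ pvjgEv P b eo ee ↔ x ∈ pvjgEvX P fo fe) := by
  filter_upwards [H.ag_o.ae, H.ag_e.ae] with x ho he
  unfold pvjgEv pvjgEvX
  simp only [mem_ofPred_eq]
  rw [ho.1, he.1]
  refine and_congr (forall₂_congr fun j hj => by rw [H.G_phi hj]) (and_congr_left fun _ => forall₂_congr fun j hj => by rw [H.A_phi hj])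

theorem K_out : pvjgK1 ε b eo Do (P.g (pvP ε) 0) ω = pvjgFk (pvP ε) fo (P.g (pvP ε) 0) := by
  unfold pvjgK1 pvjgFk
  refine pvky_hat_of_ae b ε _ _ ω ?_ (H.loc_o.ae.mono fun _ h => h.2.1)
  filter_upwards [H.loc_o.W_ae H.ch.ok.ok_o.mK H.ch.ok.ok_o.mA] with x hx
  have hs : P.O 0 ⊆ (eo.K ∪ Do) ×ˢ univ := by
    rw [H.O_o]
    exact prod_mono subset_union_right subset_rfl
  rw [hx, pvky_reads_phi (pvjg_g_reads H.ch.ok (Nat.zero_le _) _) hs x]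

theorem K_e : pvjgK1 ε b ee De (P.g (pvP ε) P.N) ω = pvjgFk (pvP ε) fe (P.g (pvP ε) P.N) := by
  unfold pvjgK1 pvjgFk
  refine pvky_hat_of_ae b ε _ _ ω ?_ (H.loc_e.ae.mono fun _ h => h.2.1)
  filter_upwards [H.loc_e.W_ae H.ch.ok.ok_e.mK H.ch.ok.ok_e.mA] with x hx
  have hs : P.O P.N ⊆ (ee.K ∪ De) ×ˢ univ := by
    rw [H.O_e]
    exact prod_mono subset_union_right subset_rfl
  rw [hx, pvky_reads_phi (pvjg_g_reads H.ch.ok le_rfl _) hs x]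

/-- **TR2** at the base configuration `ω`, all the means of the end links in the form `pvdyHat` -/
theorem hat_eq : pvdyHat ε C yf (pvjgWc P ε b eo ee) (pvjgYc P b eo ee) ω
    = pvjgK1 ε b eo Do (P.g (pvP ε) 0) ω + ∑ j ∈ Finset.range P.N, P.k (pvP ε) j + pvjgK1 ε b ee De (P.g (pvP ε) P.N) ω := by
  rw [pvky_hat_of_ae b ε C yf ω H.Wc_ae H.Yc_ae, H.ch.mean, H.K_out, H.K_e]
  rfl

/-- **TR1**: mass one under the experiment -/
theorem mass : ∫⁻ p, pvjgWc P ε b eo ee (pvdyR C yf ω p) ∂pvdyNu ε = 1 := by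
  rw [pvky_lintegral_phi b, lintegral_congr_ae H.Wc_ae, H.ch.mass]

/-- **TR1**: the weight is bounded along the experiment -/
theorem le_ae : ∀ᵐ p ∂pvdyNu ε, pvjgWc P ε b eo ee (pvdyR C yf ω p) ≤ pvjgD P (pvP ε) q qo qe * (pvjgEv P b eo ee).indicator 1 (pvdyR C yf ω p) := by
  refine pvky_ae_phi b ε C yf (P := fun η => pvjgWc P ε b eo ee η ≤ pvjgD P (pvP ε) q qo qe * (pvjgEv P b eo ee).indicator 1 η) ω ?_
  filter_upwards [H.Wc_ae, H.Ev_ae, H.ch.le_ae] with x h1 h2 h3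
  rw [h1]
  refine h3.trans (le_of_eq ?_)
  congr 1
  by_cases hx : x ∈ pvjgEvX P fo fe
  · rw [indicator_of_mem hx, indicator_of_mem (h2.2 hx)]; rfl
  · rw [indicator_of_notMem hx, indicator_of_notMem fun hh => hx (h2.1 hh)]

/-- **TR3** -/
theorem jensen (x₀ : ℂ) : ‖x₀ + pvdyHat ε C yf (pvjgWc P ε b eo ee) (pvjgYc P b eo ee) ω‖ₑ ^ 2 ≤ pvjgD P (pvP ε) q qo qe *
    ∫⁻ p, ‖x₀ + pvjgYc P b eo ee (pvdyR C yf ω p)‖ₑ ^ 2 * (pvjgEv P b eo ee).indicator 1 (pvdyR C yf ω p) ∂pvdyNu ε := by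
  rw [pvky_hat_of_ae b ε C yf ω H.Wc_ae H.Yc_ae, H.ch.mean, pvky_lintegral_phi b ε C yf (fun η => ‖x₀ + pvjgYc P b eo ee η‖ₑ ^ 2 * (pvjgEv P b eo ee).indicator 1 η)]
  refine (H.ch.jensen x₀).trans (le_of_eq ?_)
  congr 1
  refine lintegral_congr_ae ?_
  filter_upwards [H.Yc_ae, H.Ev_ae] with x h1 h2
  rw [h1]
  congr 1
  by_cases hx : x ∈ pvjgEvX P fo fe
  · rw [indicator_of_mem hx, indicator_of_mem (h2.2 hx)]; rfl
  · rw [indicator_of_notMem hx, indicator_of_notMem fun hh => hx (h2.1 hh)]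

end PvjgChainY

/-! ## 3. THE CYCLE `t -out-> door 0 -l-> door n -r-> reference plug -thick-> t` -/

/-- **THE REFERENCE BLOCK** in its own frame (centre `0`, black form): region `O`, usable states `G` of the reference plug;   tile `K`, success `A`, value `X` of the link `door plug at (p, d) → reference plug` -/
structure PvjgRef where
  O : Set ℂ
  K : Set ℂ
  G : Set (Conf PvPt)
  A : Set (Conf PvPt)
  X : Conf PvPt → ℂ
  p : ℂ
  d : ℂ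

namespace PvjgRef

variable (R : PvjgRef) (kit : PvthKit) (ε : ℝ)

/-- `1_G / μ(G)` for the reference plug placed at `u`      (body of `pvieGr`) -/
noncomputable def gr (u : ℂ) (η : Conf PvPt) : ℝ≥0∞ := (cfMap (pvthInv u 1) ⁻¹' R.G).indicator 1 η / pvP ε R.G

/-- the regions of the two plugs of the link into the reference plug      (body of `pvieOr`) -/
def Or : Set PvPt := (pvkyDoor kit R.p R.d ∪ R.O) ×ˢ univ

/-- the weight of the link into the reference plug      (body of `pvilWr`) -/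
noncomputable def wr : Conf PvPt → ℝ≥0∞ := pvtiW (pvP ε) (R.Or kit) R.A

end PvjgRef

section cycdefs

variable (kit : PvthKit) (ε : ℝ) (b : Bool) (X₀ : PvtTurn → Conf PvPt → ℂ) (z d : ℂ) (l : List PvtTurn) (R : PvjgRef) (u : ℂ) (eo ee : PvkyEnd)

/-- the configuration seen from the reference plug placed at `u`, black form      (body of `pvilRef`) -/
noncomputable def pvjgRf (η : Conf PvPt) : Conf PvPt := cfMap (pvthInv u 1) (pvkyFl b η)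

/-- the weight of the thick link with the reference plug      (body of `pvilW1e`) -/
noncomputable def pvjgW1e (e : PvkyEnd) (η : Conf PvPt) : ℝ≥0∞ := R.gr ε u (pvkyFl b η) * pvdyW ε e.K e.y e.A η

/-- **the weight of the cycle**      (body of `pvilWcyc`) -/
noncomputable def pvjgWcyc (η : Conf PvPt) : ℝ≥0∞ :=
  pvdyW ε eo.K eo.y eo.A η * kit.Wt (pvP ε) z d l (pvkyFl b η) *
    (kit.g (pvP ε) (pvthZ kit.δ z d l l.length) (pvthD d l l.length) (pvkyFl b η) * R.wr kit ε (pvjgRf b u η)) * pvjgW1e ε b R u ee η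

/-- **the value of the cycle**      (body of `pvilYcyc`) -/
noncomputable def pvjgYcyc (η : Conf PvPt) : ℂ := eo.X η + kit.Y X₀ z d l (pvkyFl b η) + R.X (pvjgRf b u η) + ee.X η

/-- the mean of the thick link      (body of `pvilKeW`) -/
noncomputable def pvjgKe (ω : Conf PvPt) : ℂ := pvdyHat ε (ee.K ∪ pvieSh u R.O) ee.y (pvjgW1e ε b R u ee) ee.X ω

/-- the constant of the reference plug      (body of `pvilKin0W`) -/
noncomputable def pvjgKin0 : ℂ := ∫ η, R.X η ∂((pvP ε).withDensity fun η => kit.g (pvP ε) R.p R.d η * R.gr ε 0 η * R.wr kit ε η)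

/-- **all the plugs of the cycle usable, all its links successful** -/
def pvjgEvC : Set (Conf PvPt) :=
  {η | (∀ j ≤ l.length, pvkyFl b η ∈ kit.G (pvthZ kit.δ z d l j) (pvthD d l j)) ∧ (∀ j < l.length, pvkyFl b η ∈ kit.A (pvthZ kit.δ z d l j) (pvthD d l j) (pvthL l j)) ∧
    pvjgRf b u η ∈ R.G ∧ pvjgRf b u η ∈ R.A ∧ η ∈ ee.A ∧ η ∈ eo.A}

/-- **the bound of the weight of the cycle** -/
noncomputable def pvjgDC (n : ℕ) (q qr qo qe : ℝ≥0∞) : ℝ≥0∞ := (((pvP ε kit.G₀)⁻¹) ^ (n + 1) * (pvP ε R.G)⁻¹) * (((q⁻¹) ^ n * qr⁻¹) * (qe⁻¹ * qo⁻¹))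

/-- **the path of the cycle** -/
noncomputable def pvjgCy : PvjgPath where
  N := l.length + 1
  O j := if j ≤ l.length then pvkeO kit z d l j else pvieSh u R.O ×ˢ univ
  K j := if j < l.length then pvkeK kit z d l j else pvieSh u R.K ×ˢ univ
  G j := if j ≤ l.length then kit.G (pvthZ kit.δ z d l j) (pvthD d l j) else cfMap (pvthInv u 1) ⁻¹' R.G
  A j := if j < l.length then kit.A (pvthZ kit.δ z d l j) (pvthD d l j) (pvthL l j) else cfMap (pvthInv u 1) ⁻¹' R.A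
  X j := if j < l.length then kit.Xj X₀ z d l j else fun η => R.X (cfMap (pvthInv u 1) η)

/-- its forcing constants -/
def pvjgCq (q qr : ℝ≥0∞) (j : ℕ) : ℝ≥0∞ := if j < l.length then q else qr

end cycdefs

theorem pvjg_eqns_cite4 : True := by
  have := @PvjgRef.gr.eq_1; have := @PvjgRef.Or.eq_1; have := @PvjgRef.wr.eq_1; have := @pvjgRf.eq_1; have := @pvjgW1e.eq_1; have := @pvjgWcyc.eq_1; have := @pvjgYcyc.eq_1
  have := @pvjgKe.eq_1; have := @pvjgKin0.eq_1; have := @pvjgEvC.eq_1; have := @pvjgDC.eq_1; have := @pvjgCy.eq_1; have := @pvjgCq.eq_1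
  trivial

/-- **ALL THE HYPOTHESES ON THE CYCLE AT A FIXED BASE CONFIGURATION `ω`** (model free).
`kit X₀ z d l` = the thin chain;   `R u` = the reference block and the centre of the reference plug;   `eo ee` = first link, thick link ON CONFIGURATIONS (`PvkyEnd` of 218), `fo fe` = funnels which represent them (a.e. seed);
`C yf` = the experiment of the whole cycle.      Producers: `wf fld frc sq` the kit (34 229 258);   `last_*` = `PvtsGeo.l1_disp l1_dir`;   `m* r*` free for `pvsuSure pvsuLoc` (251);   `admr frcr frc_o frc_e` = admission, E10;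
`geo rO_* rK_*` = the regions of the cycle are pairwise disjoint;   `ok_* ag_* loc_*` = `PvueWin.rd` (141) + `PvkyRd.ok .ag .loc` (218), after `pvueFrc` : `pvue_frc_ok pvue_frc_frc pvue_frc_ag`. -/
structure PvjgCyc (kit : PvthKit) (ε : ℝ) (b : Bool) (X₀ : PvtTurn → Conf PvPt → ℂ) (z d : ℂ) (l : List PvtTurn) (R : PvjgRef) (u : ℂ) (ω : Conf PvPt) (C : Set ℂ) (yf : Conf PvPt → Set ℂ)
    (eo ee : PvkyEnd) (fo fe : PvkeFun ℂ) (β' q qr qo qe : ℝ≥0∞) : Prop where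
  wf : kit.WF
  fld : kit.Fld X₀
  frc : kit.Forced (pvP ε) β' q
  dir : d ^ 4 = 1
  sq : ∀ τ, ∫⁻ η, ‖X₀ τ η‖ₑ ^ 2 * kit.w2 (pvP ε) 0 1 τ η ∂(pvP ε) ≠ ∞
  /-- the last door of the word is the door of the reference block -/
  last_z : pvthZ kit.δ z d l l.length = u + R.p
  last_d : pvthD d l l.length = R.d
  mO : MeasurableSet R.O
  mK : MeasurableSet R.K
  mG : MeasurableSet R.G
  mA : MeasurableSet R.A
  mX : Measurable R.X
  rG : Conf.Reads (R.O ×ˢ univ) fun η => η ∈ R.G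
  rA : Conf.Reads (R.Or kit ∪ R.K ×ˢ univ) fun η => η ∈ R.A
  rX : Conf.Reads (R.Or kit ∪ R.K ×ˢ univ) R.X
  admr : pvP ε R.G ≠ 0
  q1 : q ≤ 1
  qr0 : qr ≠ 0
  qr1 : qr ≤ 1
  /-- the link into the reference plug is forced at ALMOST EVERY pair of usable states -/
  frcr : ∀ᵐ η ∂(pvP ε), η ∈ kit.G R.p R.d → η ∈ R.G → qr ≤ pvtiP (pvP ε) (R.Or kit) R.A η
  sqr : ∫⁻ η, ‖R.X η‖ₑ ^ 2 * (kit.g (pvP ε) R.p R.d η * R.gr ε 0 η * R.wr kit ε η) ∂(pvP ε) ≠ ∞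
  /-- doors, tiles of the word, tiles and seeds of the two funnels -/
  geo : PvkeGeo kit z d l fo fe
  rO_O : ∀ i ≤ l.length, Disjoint (pvkeO kit z d l i) (pvieSh u R.O ×ˢ univ)
  rO_K : ∀ j < l.length, Disjoint (pvieSh u R.O ×ˢ (univ : Set Bool)) (pvkeK kit z d l j)
  rK_O : ∀ i ≤ l.length, Disjoint (pvkeO kit z d l i) (pvieSh u R.K ×ˢ univ)
  rK_K : ∀ j < l.length, Disjoint (pvkeK kit z d l j) (pvieSh u R.K ×ˢ univ)
  rO_rK : Disjoint (pvieSh u R.O ×ˢ (univ : Set Bool)) (pvieSh u R.K ×ˢ univ)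
  rO_o : Disjoint (pvieSh u R.O ×ˢ (univ : Set Bool)) fo.K
  rO_e : Disjoint (pvieSh u R.O ×ˢ (univ : Set Bool)) fe.K
  rK_o : Disjoint (pvieSh u R.K ×ˢ (univ : Set Bool)) fo.K
  rK_e : Disjoint (pvieSh u R.K ×ˢ (univ : Set Bool)) fe.K
  ok_o : fo.Ok (pvkeO kit z d l 0)
  ok_e : fe.Ok (pvieSh u R.O ×ˢ univ)
  frc_o : fo.Frc (pvP ε) (kit.G (pvthZ kit.δ z d l 0) (pvthD d l 0)) qo
  frc_e : fe.Frc (pvP ε) (cfMap (pvthInv u 1) ⁻¹' R.G) qe
  sq_o : ∫⁻ x, ‖fo.X x‖ₑ ^ 2 * (kit.g (pvP ε) (pvthZ kit.δ z d l 0) (pvthD d l 0) x.2 * fo.w (pvP ε) x) ∂(pvkeLaw ℂ (pvP ε)) ≠ ∞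
  sq_e : ∫⁻ x, ‖fe.X x‖ₑ ^ 2 * (R.gr ε u x.2 * fe.w (pvP ε) x) ∂(pvkeLaw ℂ (pvP ε)) ≠ ∞
  CO : ∀ j ≤ l.length, pvkeO kit z d l j ⊆ C ×ˢ univ
  CK : ∀ j < l.length, pvkeK kit z d l j ⊆ C ×ˢ univ
  CrO : pvieSh u R.O ⊆ C
  CrK : pvieSh u R.K ⊆ C
  ag_o : PvkyAg ε b ω C yf eo fo
  ag_e : PvkyAg ε b ω C yf ee fe
  loc_o : PvkyAg ε b ω (eo.K ∪ pvkyDoor kit z d) eo.y eo fo
  loc_e : PvkyAg ε b ω (ee.K ∪ pvieSh u R.O) ee.y ee fe

section cy

variable {kit : PvthKit} {ε : ℝ} {b : Bool} {X₀ : PvtTurn → Conf PvPt → ℂ} {z d : ℂ} {l : List PvtTurn} {R : PvjgRef} {u : ℂ}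

theorem pvjg_cy_N : (pvjgCy kit X₀ z d l R u).N = l.length + 1 := rfl
theorem pvjg_cy_O {j : ℕ} (hj : j ≤ l.length) : (pvjgCy kit X₀ z d l R u).O j = pvkeO kit z d l j := if_pos hj
theorem pvjg_cy_O' : (pvjgCy kit X₀ z d l R u).O (l.length + 1) = pvieSh u R.O ×ˢ univ := if_neg (by omega)
theorem pvjg_cy_K {j : ℕ} (hj : j < l.length) : (pvjgCy kit X₀ z d l R u).K j = pvkeK kit z d l j := if_pos hj
theorem pvjg_cy_K' : (pvjgCy kit X₀ z d l R u).K l.length = pvieSh u R.K ×ˢ univ := if_neg (by omega)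
theorem pvjg_cy_G {j : ℕ} (hj : j ≤ l.length) : (pvjgCy kit X₀ z d l R u).G j = kit.G (pvthZ kit.δ z d l j) (pvthD d l j) := if_pos hj
theorem pvjg_cy_G' : (pvjgCy kit X₀ z d l R u).G (l.length + 1) = cfMap (pvthInv u 1) ⁻¹' R.G := if_neg (by omega)
theorem pvjg_cy_A {j : ℕ} (hj : j < l.length) : (pvjgCy kit X₀ z d l R u).A j = kit.A (pvthZ kit.δ z d l j) (pvthD d l j) (pvthL l j) := if_pos hj
theorem pvjg_cy_A' : (pvjgCy kit X₀ z d l R u).A l.length = cfMap (pvthInv u 1) ⁻¹' R.A := if_neg (by omega)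
theorem pvjg_cy_X {j : ℕ} (hj : j < l.length) : (pvjgCy kit X₀ z d l R u).X j = kit.Xj X₀ z d l j := if_pos hj
theorem pvjg_cy_X' : (pvjgCy kit X₀ z d l R u).X l.length = fun η => R.X (cfMap (pvthInv u 1) η) := if_neg (by omega)

/-- a translated region is the image under the affine map of 251 -/
theorem pvjg_img (u : ℂ) (S : Set ℂ) : pvciAff 1 u one_ne_zero '' (S ×ˢ (univ : Set Bool)) = pvieSh u S ×ˢ univ := by
  have h := pvth_reg_image S u 1 0 1 one_ne_zero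
  rw [pvth_sim_id, image_id, mul_zero, add_zero, mul_one] at h
  rw [h]
  congr 1
  ext w
  simp only [pvieSh, mem_image, pvthSim, one_mul]

theorem pvjg_Or_eq (R : PvjgRef) (kit : PvthKit) : R.Or kit = kit.O R.p R.d ∪ R.O ×ˢ univ := by
  unfold PvjgRef.Or
  rw [union_prod]
  rfl

theorem pvjg_img_Or (hz : pvthZ kit.δ z d l l.length = u + R.p) (hd : pvthD d l l.length = R.d) :
    pvciAff 1 u one_ne_zero '' (R.Or kit) = pvkeO kit z d l l.length ∪ pvieSh u R.O ×ˢ univ := by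
  rw [pvjg_Or_eq, image_union, pvjg_img, pvth_O_image, one_mul, one_mul, ← hz, ← hd]

theorem pvjg_norm_one : ‖(1 : ℂ)‖ = 1 := norm_one

/-- the placed weight of the reference plug -/
theorem pvjg_gr_place (R : PvjgRef) (ε : ℝ) (u : ℂ) (η : Conf PvPt) : R.gr ε u η = R.gr ε 0 (cfMap (pvthInv u 1) η) := by
  unfold PvjgRef.gr
  rw [pvth_inv_id]
  have e : (cfMap id ⁻¹' R.G : Set (Conf PvPt)) = R.G := by
    ext ζ
    rw [mem_preimage, pvth_cfMap_id]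
  rw [e]
  rfl

theorem pvjg_measure_G (R : PvjgRef) (ε : ℝ) (u : ℂ) : pvP ε (cfMap (pvthInv u 1) ⁻¹' R.G) = pvP ε R.G :=
  pvci_measure_T (pvciAff 1 u one_ne_zero) (pvci_law_frame u 1 pvjg_norm_one ε) R.G

/-- an almost sure property, seen from the reference plug -/
theorem pvjg_ae_place (ε : ℝ) (u : ℂ) {p : Conf PvPt → Prop} (h : ∀ᵐ η ∂(pvP ε), p η) : ∀ᵐ η ∂(pvP ε), p (cfMap (pvthInv u 1) η) := by
  have e := pvci_measure_T (pvciAff 1 u one_ne_zero) (pvci_law_frame u 1 pvjg_norm_one ε) {η | ¬ p η}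
  exact e.trans h

/-- the placed conditional probability of the link into the reference plug -/
theorem pvjg_P_place (hz : pvthZ kit.δ z d l l.length = u + R.p) (hd : pvthD d l l.length = R.d) (η : Conf PvPt) :
    pvtiP (pvP ε) (pvkeO kit z d l l.length ∪ pvieSh u R.O ×ˢ univ) (cfMap (pvthInv u 1) ⁻¹' R.A) η = pvtiP (pvP ε) (R.Or kit) R.A (cfMap (pvthInv u 1) η) := by
  rw [← pvjg_img_Or hz hd]
  exact congrFun (pvci_P_T (pvciAff 1 u one_ne_zero) (pvci_law_frame u 1 pvjg_norm_one ε) (R.Or kit) R.A) η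

/-- the placed weight of the link into the reference plug -/
theorem pvjg_W_place (hz : pvthZ kit.δ z d l l.length = u + R.p) (hd : pvthD d l l.length = R.d) (η : Conf PvPt) :
    pvtiW (pvP ε) (pvkeO kit z d l l.length ∪ pvieSh u R.O ×ˢ univ) (cfMap (pvthInv u 1) ⁻¹' R.A) η = R.wr kit ε (cfMap (pvthInv u 1) η) := by
  rw [← pvjg_img_Or hz hd]
  exact congrFun (pvci_W_T (pvciAff 1 u one_ne_zero) (pvci_law_frame u 1 pvjg_norm_one ε) (R.Or kit) R.A) η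

/-! ### the weights of the path of the cycle -/

theorem pvjg_cy_g (hd : d ^ 4 = 1) {j : ℕ} (hj : j ≤ l.length) : (pvjgCy kit X₀ z d l R u).g (pvP ε) j = kit.g (pvP ε) (pvthZ kit.δ z d l j) (pvthD d l j) := by
  funext η
  unfold PvjgPath.g PvthKit.g
  rw [pvjg_cy_G hj, pvth_measure_G kit ε _ _ (pvth_norm_D hd l j)]

theorem pvjg_cy_g' : (pvjgCy kit X₀ z d l R u).g (pvP ε) (l.length + 1) = R.gr ε u := by
  funext η
  unfold PvjgPath.g PvjgRef.gr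
  rw [pvjg_cy_G', pvjg_measure_G]

theorem pvjg_cy_w {j : ℕ} (hj : j < l.length) : (pvjgCy kit X₀ z d l R u).w (pvP ε) j = kit.w (pvP ε) (pvthZ kit.δ z d l j) (pvthD d l j) (pvthL l j) := by
  unfold PvjgPath.w PvthKit.w
  rw [pvjg_cy_O hj.le, pvjg_cy_O (Nat.succ_le_of_lt hj), pvjg_cy_A hj, pvke_OO_eq kit z d l hj]

theorem pvjg_cy_w' (hz : pvthZ kit.δ z d l l.length = u + R.p) (hd : pvthD d l l.length = R.d) :
    (pvjgCy kit X₀ z d l R u).w (pvP ε) l.length = fun η => R.wr kit ε (cfMap (pvthInv u 1) η) := by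
  funext η
  unfold PvjgPath.w
  rw [pvjg_cy_O le_rfl, pvjg_cy_O', pvjg_cy_A', pvjg_W_place hz hd]

theorem pvjg_cy_w2 (hd : d ^ 4 = 1) {j : ℕ} (hj : j < l.length) : (pvjgCy kit X₀ z d l R u).w2 (pvP ε) j = kit.w2 (pvP ε) (pvthZ kit.δ z d l j) (pvthD d l j) (pvthL l j) := by
  obtain ⟨e1, e2⟩ := pvthx_exit153 kit z d l hj
  funext η
  unfold PvjgPath.w2 PvthKit.w2
  rw [pvjg_cy_g hd hj.le, pvjg_cy_g hd (Nat.succ_le_of_lt hj), pvjg_cy_w hj, e1, e2]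

theorem pvjg_cy_w2' (h4 : d ^ 4 = 1) (hz : pvthZ kit.δ z d l l.length = u + R.p) (hd : pvthD d l l.length = R.d) :
    (pvjgCy kit X₀ z d l R u).w2 (pvP ε) l.length = fun η => (fun ζ => kit.g (pvP ε) R.p R.d ζ * R.gr ε 0 ζ * R.wr kit ε ζ) (cfMap (pvthInv u 1) η) := by
  funext η
  unfold PvjgPath.w2
  rw [pvjg_cy_g h4 le_rfl, pvjg_cy_g', pvjg_cy_w' hz hd, hz, hd, pvjg_gr_place]
  have e := pvth_g_comp kit (pvP ε) u 1 R.p R.d one_ne_zero η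
  rw [one_mul, one_mul] at e
  rw [e]

/-- the constant of a cell -/
theorem pvjg_cy_k (hk : kit.WF) (hX : kit.Fld X₀) (hd : d ^ 4 = 1) {j : ℕ} (hj : j < l.length) :
    (pvjgCy kit X₀ z d l R u).k (pvP ε) j = pvthD d l j * (kit.W (pvP ε) X₀).w (pvthL l j) := by
  unfold PvjgPath.k
  rw [pvjg_cy_w2 hd hj, pvjg_cy_X hj]
  have h4 : (kit.W (pvP ε) X₀).w (pvthL l j) = kit.k (pvP ε) X₀ (pvthL l j) := by
    cases pvthL l j <;> rfl
  rw [h4]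
  exact pvth_place_mean hk hX _ _ (pvth_norm_D hd l j) _

/-- **the constant of the link into the reference plug is `kin0`** (translation invariance) -/
theorem pvjg_cy_k' (h4 : d ^ 4 = 1) (hz : pvthZ kit.δ z d l l.length = u + R.p) (hd : pvthD d l l.length = R.d) :
    (pvjgCy kit X₀ z d l R u).k (pvP ε) l.length = pvjgKin0 kit ε R := by
  unfold PvjgPath.k pvjgKin0
  rw [pvjg_cy_w2' h4 hz hd, pvjg_cy_X']
  obtain ⟨Φ, hΦ, hΦs⟩ := pvth_equiv (pvciAff 1 u one_ne_zero)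
  have h1 := pvci_withDensity_map Φ (pvP ε) (fun ζ => kit.g (pvP ε) R.p R.d ζ * R.gr ε 0 ζ * R.wr kit ε ζ)
  have h2 : (pvP ε).map Φ = pvP ε := by
    rw [show (Φ : Conf PvPt → Conf PvPt) = Conf.image (pvciAff 1 u one_ne_zero) from funext hΦ]
    exact pvci_law_frame u 1 pvjg_norm_one ε
  rw [h2] at h1
  have h3 : (fun η => (fun ζ => kit.g (pvP ε) R.p R.d ζ * R.gr ε 0 ζ * R.wr kit ε ζ) (cfMap (pvthInv u 1) η)) = fun y => (fun ζ => kit.g (pvP ε) R.p R.d ζ * R.gr ε 0 ζ * R.wr kit ε ζ) (Φ.symm y) := by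
    funext y
    rw [hΦs, pvth_cfMap_inv u 1 one_ne_zero]
  rw [h3, h1, integral_map_equiv]
  refine integral_congr_ae (ae_of_all _ fun η => ?_)
  show R.X (cfMap (pvthInv u 1) (Φ η)) = R.X η
  rw [pvth_cfMap_inv u 1 one_ne_zero, ← hΦs, Φ.symm_apply_apply]

end cy

namespace PvjgCyc

variable {kit : PvthKit} {ε : ℝ} {b : Bool} {X₀ : PvtTurn → Conf PvPt → ℂ} {z d : ℂ} {l : List PvtTurn} {R : PvjgRef} {u : ℂ} {ω : Conf PvPt} {C : Set ℂ} {yf : Conf PvPt → Set ℂ}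
  {eo ee : PvkyEnd} {fo fe : PvkeFun ℂ} {β' q qr qo qe : ℝ≥0∞} (H : PvjgCyc kit ε b X₀ z d l R u ω C yf eo ee fo fe β' q qr qo qe)
include H

theorem ok : (pvjgCy kit X₀ z d l R u).Ok fo fe where
  mO j hj := by
    rcases Nat.le_or_eq_of_le_succ hj with h | h
    · rw [pvjg_cy_O h]
      exact pvth_mO H.wf _ _ (pvth_D_ne H.dir l j)
    · rw [h, pvjg_cy_O', ← pvjg_img, MeasurableEquiv.measurableSet_image]
      exact H.mO.prod MeasurableSet.univ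
  mK j hj := by
    rcases Nat.lt_succ_iff_lt_or_eq.1 hj with h | h
    · rw [pvjg_cy_K h]
      exact pvth_mK H.wf _ _ (pvth_D_ne H.dir l j) _
    · rw [h, pvjg_cy_K', ← pvjg_img, MeasurableEquiv.measurableSet_image]
      exact H.mK.prod MeasurableSet.univ
  mG j hj := by
    rcases Nat.le_or_eq_of_le_succ hj with h | h
    · rw [pvjg_cy_G h]
      exact pvth_mG H.wf _ _
    · rw [h, pvjg_cy_G']
      exact measurable_cfMap (pvth_measurable_inv u 1) H.mG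
  mA j hj := by
    rcases Nat.lt_succ_iff_lt_or_eq.1 hj with h | h
    · rw [pvjg_cy_A h]
      exact pvth_mA H.wf _ _ _
    · rw [h, pvjg_cy_A']
      exact measurable_cfMap (pvth_measurable_inv u 1) H.mA
  mX j hj := by
    rcases Nat.lt_succ_iff_lt_or_eq.1 hj with h | h
    · rw [pvjg_cy_X h]
      exact pvth_X_meas H.fld _ _ _
    · rw [h, pvjg_cy_X']
      exact H.mX.comp (measurable_cfMap (pvth_measurable_inv u 1))
  rG j hj := by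
    rcases Nat.le_or_eq_of_le_succ hj with h | h
    · rw [pvjg_cy_O h, pvjg_cy_G h]
      exact pvth_rG H.wf _ _ (pvth_D_ne H.dir l j)
    · rw [h, pvjg_cy_O', pvjg_cy_G', ← pvjg_img]
      exact pvci_T_reads (pvciAff 1 u one_ne_zero).toEquiv H.rG
  rA j hj := by
    rcases Nat.lt_succ_iff_lt_or_eq.1 hj with h | h
    · rw [pvjg_cy_O h.le, pvjg_cy_O (Nat.succ_le_of_lt h), pvjg_cy_K h, pvjg_cy_A h, ← pvke_OO_eq kit z d l h]
      exact pvth_rA H.wf _ _ (pvth_D_ne H.dir l j) _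
    · rw [h, pvjg_cy_O le_rfl, pvjg_cy_O', pvjg_cy_K', pvjg_cy_A', ← pvjg_img_Or H.last_z H.last_d, ← pvjg_img, ← image_union]
      exact pvci_T_reads (pvciAff 1 u one_ne_zero).toEquiv H.rA
  rX j hj := by
    rcases Nat.lt_succ_iff_lt_or_eq.1 hj with h | h
    · rw [pvjg_cy_O h.le, pvjg_cy_O (Nat.succ_le_of_lt h), pvjg_cy_K h, pvjg_cy_X h, ← pvke_OO_eq kit z d l h]
      exact pvth_X_reads H.fld _ (pvth_D_ne H.dir l j) _
    · rw [h, pvjg_cy_O le_rfl, pvjg_cy_O', pvjg_cy_K', pvjg_cy_X', ← pvjg_img_Or H.last_z H.last_d, ← pvjg_img, ← image_union]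
      exact pvci_T_reads (pvciAff 1 u one_ne_zero).toEquiv H.rX
  OO i hi j hj hij := by
    rcases Nat.le_or_eq_of_le_succ hi with h | h <;> rcases Nat.le_or_eq_of_le_succ hj with h' | h'
    · rw [pvjg_cy_O h, pvjg_cy_O h']
      exact H.geo.OO i h j h' hij
    · rw [h', pvjg_cy_O h, pvjg_cy_O']
      exact H.rO_O i h
    · rw [h, pvjg_cy_O h', pvjg_cy_O']
      exact (H.rO_O j h').symm
    · exact absurd (h.trans h'.symm) hij
  KK i hi j hj hij := by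
    rcases Nat.lt_succ_iff_lt_or_eq.1 hi with h | h <;> rcases Nat.lt_succ_iff_lt_or_eq.1 hj with h' | h'
    · rw [pvjg_cy_K h, pvjg_cy_K h']
      exact H.geo.KK i h j h' hij
    · rw [h', pvjg_cy_K h, pvjg_cy_K']
      exact H.rK_K i h
    · rw [h, pvjg_cy_K h', pvjg_cy_K']
      exact (H.rK_K j h').symm
    · exact absurd (h.trans h'.symm) hij
  OK i hi j hj := by
    rcases Nat.le_or_eq_of_le_succ hi with h | h <;> rcases Nat.lt_succ_iff_lt_or_eq.1 hj with h' | h'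
    · rw [pvjg_cy_O h, pvjg_cy_K h']
      exact H.geo.OK i h j h'
    · rw [h', pvjg_cy_O h, pvjg_cy_K']
      exact H.rK_O i h
    · rw [h, pvjg_cy_O', pvjg_cy_K h']
      exact H.rO_K j h'
    · rw [h, h', pvjg_cy_O', pvjg_cy_K']
      exact H.rO_rK
  oO i hi := by
    rcases Nat.le_or_eq_of_le_succ hi with h | h
    · rw [pvjg_cy_O h]
      exact H.geo.oO i h
    · rw [h, pvjg_cy_O']
      exact H.rO_o
  eO i hi := by
    rcases Nat.le_or_eq_of_le_succ hi with h | h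
    · rw [pvjg_cy_O h]
      exact H.geo.iO i h
    · rw [h, pvjg_cy_O']
      exact H.rO_e
  oK j hj := by
    rcases Nat.lt_succ_iff_lt_or_eq.1 hj with h | h
    · rw [pvjg_cy_K h]
      exact H.geo.oK j h
    · rw [h, pvjg_cy_K']
      exact H.rK_o
  eK j hj := by
    rcases Nat.lt_succ_iff_lt_or_eq.1 hj with h | h
    · rw [pvjg_cy_K h]
      exact H.geo.iK j h
    · rw [h, pvjg_cy_K']
      exact H.rK_e
  oe := H.geo.oi
  UU := H.geo.UU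
  ok_o := by
    rw [pvjg_cy_O (Nat.zero_le _)]
    exact H.ok_o
  ok_e := by
    rw [pvjg_cy_N, pvjg_cy_O']
    exact H.ok_e

theorem frcs : (pvjgCy kit X₀ z d l R u).FrcA (pvP ε) fo fe (pvjgCq l q qr) qo qe where
  adm j hj := by
    rcases Nat.le_or_eq_of_le_succ hj with h | h
    · rw [pvjg_cy_G h, pvth_measure_G kit ε _ _ (pvth_norm_D H.dir l j)]
      exact pvth_G0_ne H.frc
    · rw [h, pvjg_cy_G', pvjg_measure_G]
      exact H.admr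
  q0 j _ := by
    unfold pvjgCq
    split_ifs
    · exact H.frc.q0
    · exact H.qr0
  q1 j _ := by
    unfold pvjgCq
    split_ifs
    · exact H.q1
    · exact H.qr1
  frc j hj := by
    rcases Nat.lt_succ_iff_lt_or_eq.1 hj with h | h
    · refine Filter.Eventually.of_forall fun η h1 h2 => ?_
      obtain ⟨e1, e2⟩ := pvthx_exit153 kit z d l h
      rw [pvjg_cy_G h.le] at h1
      rw [pvjg_cy_G (Nat.succ_le_of_lt h), ← e1, ← e2] at h2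
      have h3 := pvth_frc H.frc _ _ (pvth_norm_D H.dir l j) (pvthL l j) h1 h2
      rw [pvjg_cy_O h.le, pvjg_cy_O (Nat.succ_le_of_lt h), pvjg_cy_A h, ← pvke_OO_eq kit z d l h]
      unfold pvjgCq
      rw [if_pos h]
      exact h3
    · subst h
      filter_upwards [pvjg_ae_place ε u H.frcr] with η hη h1 h2
      rw [pvjg_cy_G le_rfl, H.last_z, H.last_d] at h1
      rw [pvjg_cy_G'] at h2
      rw [pvjg_cy_O le_rfl, pvjg_cy_O', pvjg_cy_A', pvjg_P_place H.last_z H.last_d]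
      unfold pvjgCq
      rw [if_neg (lt_irrefl _)]
      refine hη ?_ h2
      have e := pvth_G_comp kit u 1 R.p R.d one_ne_zero
      rw [one_mul, one_mul] at e
      rw [e] at h1
      exact h1
  frc_o := by
    rw [pvjg_cy_G (Nat.zero_le _)]
    exact H.frc_o
  frc_e := by
    rw [pvjg_cy_N, pvjg_cy_G']
    exact H.frc_e

theorem chain : PvjgChainA (pvjgCy kit X₀ z d l R u) ε fo fe (pvjgCq l q qr) qo qe where
  ok := H.ok
  frc := H.frcs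
  sq j hj := by
    rcases Nat.lt_succ_iff_lt_or_eq.1 hj with h | h
    · rw [pvjg_cy_X h, pvjg_cy_w2 H.dir h]
      have := pvth_place_sq (ε := ε) H.wf H.fld (pvthZ kit.δ z d l j) (pvthD d l j) (pvth_norm_D H.dir l j) (pvthL l j)
      unfold PvthKit.Xj
      rw [this]
      exact H.sq _
    · subst h
      rw [pvjg_cy_X', pvjg_cy_w2' H.dir H.last_z H.last_d]
      have e := pvci_lintegral_T (pvciAff 1 u one_ne_zero) (pvci_law_frame u 1 pvjg_norm_one ε) (fun η => ‖R.X η‖ₑ ^ 2 * (kit.g (pvP ε) R.p R.d η * R.gr ε 0 η * R.wr kit ε η))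
      exact e.trans_ne H.sqr
  sq_o := by
    rw [pvjg_cy_g H.dir (Nat.zero_le _)]
    exact H.sq_o
  sq_e := by
    rw [pvjg_cy_N, pvjg_cy_g']
    exact H.sq_e

/-- **the cycle is a path** -/
theorem chainY : PvjgChainY (pvjgCy kit X₀ z d l R u) ε b ω C yf eo ee (pvkyDoor kit z d) (pvieSh u R.O) fo fe (pvjgCq l q qr) qo qe where
  ch := H.chain
  CO j hj := by
    rcases Nat.le_or_eq_of_le_succ hj with h | h
    · rw [pvjg_cy_O h]
      exact H.CO j h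
    · rw [h, pvjg_cy_O']
      exact prod_mono H.CrO subset_rfl
  CK j hj := by
    rcases Nat.lt_succ_iff_lt_or_eq.1 hj with h | h
    · rw [pvjg_cy_K h]
      exact H.CK j h
    · rw [h, pvjg_cy_K']
      exact prod_mono H.CrK subset_rfl
  O_o := by
    rw [pvjg_cy_O (Nat.zero_le _)]
    unfold pvkeO
    rw [pvthx_Z_zero, pvthx_D_zero]
    rfl
  O_e := pvjg_cy_O'
  ag_o := H.ag_o
  ag_e := H.ag_e
  loc_o := H.loc_o
  loc_e := H.loc_e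

/-! ### the shapes of `Tr/InstL` are the shapes of the path -/

theorem Wc_eq : pvjgWcyc kit ε b z d l R u eo ee = pvjgWc (pvjgCy kit X₀ z d l R u) ε b eo ee := by
  funext η
  unfold pvjgWcyc pvjgWc pvjgW1e pvjgRf PvthKit.Wt
  have e1 : ∏ j ∈ Finset.range ((pvjgCy kit X₀ z d l R u).N + 1), (pvjgCy kit X₀ z d l R u).g (pvP ε) j (pvkyFl b η)
      = (∏ j ∈ Finset.range l.length, kit.g (pvP ε) (pvthZ kit.δ z d l j) (pvthD d l j) (pvkyFl b η)) * kit.g (pvP ε) (pvthZ kit.δ z d l l.length) (pvthD d l l.length) (pvkyFl b η) * R.gr ε u (pvkyFl b η) := by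
    rw [pvjg_cy_N, Finset.prod_range_succ, Finset.prod_range_succ, pvjg_cy_g', pvjg_cy_g H.dir le_rfl,
      Finset.prod_congr rfl fun j hj => by rw [pvjg_cy_g H.dir (Finset.mem_range.1 hj).le]]
  have e2 : ∏ j ∈ Finset.range (pvjgCy kit X₀ z d l R u).N, (pvjgCy kit X₀ z d l R u).w (pvP ε) j (pvkyFl b η)
      = (∏ j ∈ Finset.range l.length, kit.w (pvP ε) (pvthZ kit.δ z d l j) (pvthD d l j) (pvthL l j) (pvkyFl b η)) * R.wr kit ε (cfMap (pvthInv u 1) (pvkyFl b η)) := by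
    rw [pvjg_cy_N, Finset.prod_range_succ, pvjg_cy_w' H.last_z H.last_d, Finset.prod_congr rfl fun j hj => by rw [pvjg_cy_w (Finset.mem_range.1 hj)]]
  rw [e1, e2, Finset.prod_mul_distrib]
  ring

theorem Yc_eq : pvjgYcyc kit b X₀ z d l R u eo ee = pvjgYc (pvjgCy kit X₀ z d l R u) b eo ee := by
  funext η
  unfold pvjgYcyc pvjgYc pvjgRf PvthKit.Y
  have e : ∑ j ∈ Finset.range l.length, (pvjgCy kit X₀ z d l R u).X j (pvkyFl b η) = ∑ j ∈ Finset.range l.length, kit.Xj X₀ z d l j (pvkyFl b η) :=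
    Finset.sum_congr rfl fun j hj => by rw [pvjg_cy_X (Finset.mem_range.1 hj)]
  rw [pvjg_cy_N, Finset.sum_range_succ, pvjg_cy_X', e]
  ring

theorem Ev_eq : pvjgEvC kit b z d l R u eo ee = pvjgEv (pvjgCy kit X₀ z d l R u) b eo ee := by
  ext η
  unfold pvjgEvC pvjgEv pvjgRf
  simp only [mem_ofPred_eq]
  constructor
  · rintro ⟨h1, h2, h3, h4, h5, h6⟩
    refine ⟨fun j hj => ?_, fun j hj => ?_, h5, h6⟩
    · rcases Nat.le_or_eq_of_le_succ hj with h | h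
      · rw [pvjg_cy_G h]
        exact h1 j h
      · rw [h, pvjg_cy_G']
        exact h3
    · rcases Nat.lt_succ_iff_lt_or_eq.1 hj with h | h
      · rw [pvjg_cy_A h]
        exact h2 j h
      · rw [h, pvjg_cy_A']
        exact h4
  · rintro ⟨h1, h2, h5, h6⟩
    refine ⟨fun j hj => ?_, fun j hj => ?_, ?_, ?_, h5, h6⟩
    · have := h1 j (Nat.le_succ_of_le hj)
      rwa [pvjg_cy_G hj] at this
    · have := h2 j (Nat.lt_succ_of_lt hj)
      rwa [pvjg_cy_A hj] at this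
    · have := h1 (l.length + 1) le_rfl
      rwa [pvjg_cy_G'] at this
    · have := h2 l.length (Nat.lt_succ_self _)
      rwa [pvjg_cy_A'] at this

theorem D_eq : pvjgD (pvjgCy kit X₀ z d l R u) (pvP ε) (pvjgCq l q qr) qo qe = pvjgDC kit ε R l.length q qr qo qe := by
  unfold pvjgD pvjgDC
  have e1 : ∏ j ∈ Finset.range ((pvjgCy kit X₀ z d l R u).N + 1), (pvP ε ((pvjgCy kit X₀ z d l R u).G j))⁻¹ = ((pvP ε kit.G₀)⁻¹) ^ (l.length + 1) * (pvP ε R.G)⁻¹ := by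
    rw [pvjg_cy_N, Finset.prod_range_succ, pvjg_cy_G', pvjg_measure_G,
      Finset.prod_congr rfl fun j hj => by rw [pvjg_cy_G (Nat.lt_succ_iff.1 (Finset.mem_range.1 hj)), pvth_measure_G kit ε _ _ (pvth_norm_D H.dir l j)]]
    simp
  have e2 : ∏ j ∈ Finset.range (pvjgCy kit X₀ z d l R u).N, (pvjgCq l q qr j)⁻¹ = (q⁻¹) ^ l.length * qr⁻¹ := by
    rw [pvjg_cy_N, Finset.prod_range_succ, Finset.prod_congr rfl fun j hj => by rw [show pvjgCq l q qr j = q from if_pos (Finset.mem_range.1 hj)],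
      show pvjgCq l q qr l.length = qr from if_neg (lt_irrefl _)]
    simp
  rw [e1, e2]

theorem K_o_eq : pvjgK1 ε b eo (pvkyDoor kit z d) ((pvjgCy kit X₀ z d l R u).g (pvP ε) 0) ω = pvkyK kit ε b eo z d ω := by
  rw [pvjg_cy_g H.dir (Nat.zero_le _), pvthx_Z_zero, pvthx_D_zero]
  rfl

theorem K_e_eq : pvjgK1 ε b ee (pvieSh u R.O) ((pvjgCy kit X₀ z d l R u).g (pvP ε) (pvjgCy kit X₀ z d l R u).N) ω = pvjgKe ε b R u ee ω := by
  rw [pvjg_cy_N, pvjg_cy_g']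
  rfl

theorem k_sum : ∑ j ∈ Finset.range (pvjgCy kit X₀ z d l R u).N, (pvjgCy kit X₀ z d l R u).k (pvP ε) j = pvtSum (kit.W (pvP ε) X₀) d l + pvjgKin0 kit ε R := by
  rw [pvjg_cy_N, Finset.sum_range_succ, pvjg_cy_k' H.dir H.last_z H.last_d, Finset.sum_congr rfl fun j hj => pvjg_cy_k H.wf H.fld H.dir (Finset.mem_range.1 hj), pvtSum, pvthx_acc153]

/-- **[EQ], TR2 FOR THE CYCLE**: the mean of the whole cycle is `κ_out + pvtSum W d l + kin0 + ke`, EXACT, at the base configuration `ω` -/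
theorem hat_eq : pvdyHat ε C yf (pvjgWcyc kit ε b z d l R u eo ee) (pvjgYcyc kit b X₀ z d l R u eo ee) ω
    = pvkyK kit ε b eo z d ω + pvtSum (kit.W (pvP ε) X₀) d l + pvjgKin0 kit ε R + pvjgKe ε b R u ee ω := by
  rw [H.Wc_eq, H.Yc_eq, H.chainY.hat_eq, H.K_o_eq, H.K_e_eq, H.k_sum]
  ring

/-- **TR1 FOR THE CYCLE**: mass one under the experiment -/
theorem mass : ∫⁻ p, pvjgWcyc kit ε b z d l R u eo ee (pvdyR C yf ω p) ∂pvdyNu ε = 1 := by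
  rw [H.Wc_eq]
  exact H.chainY.mass

/-- **TR1 FOR THE CYCLE**: the weight is bounded along the experiment -/
theorem le_ae : ∀ᵐ p ∂pvdyNu ε, pvjgWcyc kit ε b z d l R u eo ee (pvdyR C yf ω p) ≤ pvjgDC kit ε R l.length q qr qo qe * (pvjgEvC kit b z d l R u eo ee).indicator 1 (pvdyR C yf ω p) := by
  rw [H.Wc_eq, H.Ev_eq, ← H.D_eq]
  exact H.chainY.le_ae

/-- **TR3 FOR THE CYCLE** -/
theorem jensen (x₀ : ℂ) : ‖x₀ + pvdyHat ε C yf (pvjgWcyc kit ε b z d l R u eo ee) (pvjgYcyc kit b X₀ z d l R u eo ee) ω‖ₑ ^ 2 ≤ pvjgDC kit ε R l.length q qr qo qe *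
    ∫⁻ p, ‖x₀ + pvjgYcyc kit b X₀ z d l R u eo ee (pvdyR C yf ω p)‖ₑ ^ 2 * (pvjgEvC kit b z d l R u eo ee).indicator 1 (pvdyR C yf ω p) ∂pvdyNu ε := by
  rw [H.Wc_eq, H.Yc_eq, H.Ev_eq, ← H.D_eq]
  exact H.chainY.jensen x₀

/-- the same with the normal form of the mean -/
theorem jensen' (x₀ : ℂ) : ‖x₀ + (pvkyK kit ε b eo z d ω + pvtSum (kit.W (pvP ε) X₀) d l + pvjgKin0 kit ε R + pvjgKe ε b R u ee ω)‖ₑ ^ 2 ≤ pvjgDC kit ε R l.length q qr qo qe *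
    ∫⁻ p, ‖x₀ + pvjgYcyc kit b X₀ z d l R u eo ee (pvdyR C yf ω p)‖ₑ ^ 2 * (pvjgEvC kit b z d l R u eo ee).indicator 1 (pvdyR C yf ω p) ∂pvdyNu ε := by
  rw [← H.hat_eq]
  exact H.jensen x₀

end PvjgCyc

/-! ## 4. AT `Tr/InstL` -/

section instl

variable {τ : Type} {c : ℝ} (𝔓 : PvxPar τ c) (𝔈 : PvieEng τ)

/-- the reference block of `Tr/InstL` (weight `w`) -/
noncomputable def pvjgRefW (w : ∀ η : Conf PvPt, (delbPl (pvieY η)).Dart → ℂ) (m : ℕ) (ε : ℝ) : PvjgRef :=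
  ⟨𝔈.rO m, 𝔈.rK m, 𝔈.rG m ε, pvilAr 𝔓 𝔈 m ε w, pvilXr 𝔓 𝔈 m ε w, (𝔓.Γ m).pin0, (𝔓.Γ m).din0⟩

/-- **THE RECORD OF THE CYCLE AT `Tr/InstL`**, base configuration `ω`, funnels `fo fe` -/
def PvjgCycL (m : ℕ) (ε : ℝ) (z : ℂ) (t : τ) (ω : Conf PvPt) (fo fe : PvkeFun ℂ) (β' q qr qo qe : ℝ≥0∞) : Prop :=
  PvjgCyc (𝔈.kit m ε) ε (𝔓.col t) (𝔈.XQ m ε) (pvieZo 𝔓 m z t) ((𝔓.Γ m).dout t) ((𝔓.Γ m).l1 t) (pvjgRefW 𝔓 𝔈 pvilQ m ε) (pvieZu 𝔓 m z t) ω (pvilCcyc 𝔓 𝔈 m ε z t)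
    (fun _ => pvilYfcyc 𝔓 𝔈 m z t ω) (pvilEoAt 𝔓 𝔈 m ε pvilQ z t ω) (pvilEeAt 𝔓 𝔈 m ε pvilQ z t ω) fo fe β' q qr qo qe

/-- all the plugs of the cycle usable, all its links successful, at the base data of `η₀` -/
def pvjgEvL (m : ℕ) (ε : ℝ) (z : ℂ) (t : τ) (η₀ : Conf PvPt) : Set (Conf PvPt) :=
  pvjgEvC (𝔈.kit m ε) (𝔓.col t) (pvieZo 𝔓 m z t) ((𝔓.Γ m).dout t) ((𝔓.Γ m).l1 t) (pvjgRefW 𝔓 𝔈 pvilQ m ε) (pvieZu 𝔓 m z t) (pvilEoAt 𝔓 𝔈 m ε pvilQ z t η₀) (pvilEeAt 𝔓 𝔈 m ε pvilQ z t η₀)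

/-- the bound of the weight of the cycle -/
noncomputable def pvjgDL (m : ℕ) (ε : ℝ) (t : τ) (q qr qo qe : ℝ≥0∞) : ℝ≥0∞ := pvjgDC (𝔈.kit m ε) ε (pvjgRefW 𝔓 𝔈 pvilQ m ε) ((𝔓.Γ m).l1 t).length q qr qo qe

variable {𝔓 𝔈} {m : ℕ} {ε : ℝ} {z : ℂ} {t : τ} {fo fe : PvkeFun ℂ} {β' q qr qo qe : ℝ≥0∞}

theorem pvjg_Wcyc_eq (η₀ : Conf PvPt) : pvilWcyc 𝔓 𝔈 m ε z t η₀ = pvjgWcyc (𝔈.kit m ε) ε (𝔓.col t) (pvieZo 𝔓 m z t) ((𝔓.Γ m).dout t) ((𝔓.Γ m).l1 t) (pvjgRefW 𝔓 𝔈 pvilQ m ε) (pvieZu 𝔓 m z t)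
    (pvilEoAt 𝔓 𝔈 m ε pvilQ z t η₀) (pvilEeAt 𝔓 𝔈 m ε pvilQ z t η₀) := rfl

theorem pvjg_Ycyc_eq (η₀ : Conf PvPt) : pvilYcyc 𝔓 𝔈 m ε z t η₀ = pvjgYcyc (𝔈.kit m ε) (𝔓.col t) (𝔈.XQ m ε) (pvieZo 𝔓 m z t) ((𝔓.Γ m).dout t) ((𝔓.Γ m).l1 t) (pvjgRefW 𝔓 𝔈 pvilQ m ε) (pvieZu 𝔓 m z t)
    (pvilEoAt 𝔓 𝔈 m ε pvilQ z t η₀) (pvilEeAt 𝔓 𝔈 m ε pvilQ z t η₀) := rfl

/-- **[EQ] OF `cyc1` AT `Tr/InstL`** -/
theorem pvjg_hat_cyc {ω : PVSample} (H : PvjgCycL 𝔓 𝔈 m ε z t (pvConf ω) fo fe β' q qr qo qe) :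
    pvilHatCyc 𝔓 𝔈 m ε z t ω = pvilKout 𝔓 𝔈 m ε z t ω + pvtSum (pvilW 𝔈 m ε) ((𝔓.Γ m).dout t) ((𝔓.Γ m).l1 t) + pvilKin0 𝔓 𝔈 m ε + pvilKe 𝔓 𝔈 m ε z t ω := by
  unfold PvjgCycL at H
  unfold pvilHatCyc
  rw [pvjg_Wcyc_eq, pvjg_Ycyc_eq, H.hat_eq]
  rfl

/-- TR1 at `Tr/InstL`: mass one -/
theorem pvjg_mass_cyc {ω : Conf PvPt} (H : PvjgCycL 𝔓 𝔈 m ε z t ω fo fe β' q qr qo qe) :
    ∫⁻ p, pvilWcyc 𝔓 𝔈 m ε z t ω (pvdyR (pvilCcyc 𝔓 𝔈 m ε z t) (fun _ => pvilYfcyc 𝔓 𝔈 m z t ω) ω p) ∂pvdyNu ε = 1 := by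
  unfold PvjgCycL at H
  rw [pvjg_Wcyc_eq]
  exact H.mass

/-- TR1 at `Tr/InstL`: the weight is bounded along the experiment -/
theorem pvjg_le_cyc {ω : Conf PvPt} (H : PvjgCycL 𝔓 𝔈 m ε z t ω fo fe β' q qr qo qe) :
    ∀ᵐ p ∂pvdyNu ε, pvilWcyc 𝔓 𝔈 m ε z t ω (pvdyR (pvilCcyc 𝔓 𝔈 m ε z t) (fun _ => pvilYfcyc 𝔓 𝔈 m z t ω) ω p) ≤
      pvjgDL 𝔓 𝔈 m ε t q qr qo qe * (pvjgEvL 𝔓 𝔈 m ε z t ω).indicator 1 (pvdyR (pvilCcyc 𝔓 𝔈 m ε z t) (fun _ => pvilYfcyc 𝔓 𝔈 m z t ω) ω p) := by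
  unfold PvjgCycL at H
  unfold pvjgDL pvjgEvL
  rw [pvjg_Wcyc_eq]
  exact H.le_ae

/-- **TR3 at `Tr/InstL`**: `|kout + pvtSum W + kin0 + ke|² ≤ D ∫ |Y_cyc|² 1_Ev` -/
theorem pvjg_jensen_cyc {ω : PVSample} (H : PvjgCycL 𝔓 𝔈 m ε z t (pvConf ω) fo fe β' q qr qo qe) :
    ‖pvilKout 𝔓 𝔈 m ε z t ω + pvtSum (pvilW 𝔈 m ε) ((𝔓.Γ m).dout t) ((𝔓.Γ m).l1 t) + pvilKin0 𝔓 𝔈 m ε + pvilKe 𝔓 𝔈 m ε z t ω‖ₑ ^ 2 ≤ pvjgDL 𝔓 𝔈 m ε t q qr qo qe *
      ∫⁻ p, ‖pvilYcyc 𝔓 𝔈 m ε z t (pvConf ω) (pvdyR (pvilCcyc 𝔓 𝔈 m ε z t) (fun _ => pvilYfcyc 𝔓 𝔈 m z t (pvConf ω)) (pvConf ω) p)‖ₑ ^ 2 *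
        (pvjgEvL 𝔓 𝔈 m ε z t (pvConf ω)).indicator 1 (pvdyR (pvilCcyc 𝔓 𝔈 m ε z t) (fun _ => pvilYfcyc 𝔓 𝔈 m z t (pvConf ω)) (pvConf ω) p) ∂pvdyNu ε := by
  rw [← pvjg_hat_cyc H]
  unfold PvjgCycL at H
  unfold pvjgDL pvjgEvL pvilHatCyc
  rw [pvjg_Wcyc_eq, pvjg_Ycyc_eq]
  have h := H.jensen 0
  simp only [zero_add] at h
  exact h

end instl

theorem pvjg_eqns_cite5 : True := by
  have := @pvjgRefW.eq_1; have := @PvjgCycL.eq_1; have := @pvjgEvL.eq_1; have := @pvjgDL.eq_1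
  trivial

end Claimed.Agent.R289
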