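import Claimed.Agent.R289.Defs.TrModel
import Claimed.Agent.R289.PppQ

/-!
# Row 289 (S0537), THE WALL, road E, file Tr/ModelC : `Defs/TrModel.lean` READ FROM THE CONFIGURATION      (owner helper175; seam named by 223, msg 10:08Z; prefix `pvcw_`, `pvcw`, `Pvcw`)      0 sorry

WHY.   `Defs/TrModel.lean` (187) types `pvxU pvxPins pvxFit PvxAt PvxPinOf PvxActual` on a sample `ω : PVSample`; the structures carry `ω` as a parameter.      The probability kits of the wall (`pvdm_main_up`, `pvdm_up_cheb` of 159, `pvhb_up_P_conf`, `pvhb_up_E_conf`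
of 73, `Tr/Bes`, `Tr/DomY`, `Tr/Hyb`) speak of sets of `Conf PvPt`, evaluated at `pvConf (pvMerge q)`, and of the configurations `cfOf Y σ` (fixed geometry `Y`, colouring `σ` of the sites).      `pvxU = pvConf ⁻¹' (a set of Conf)` is not `rfl`.      TrModel is NOT touched.      **v2 (11:35Z): twins re-synced with TrModel v4 of 207** (black-end tip tests, `inn_p inn_m lev0`, grid centres `yp ym` in `PvcwPinOf`, mouths `2 ρ h`, hulls at `pvxYs pvxYt`).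
* §1 `pvcwT Y`, `pvcwPos Y`, `pvcwCol Y χ` (colour views of a colouring `χ : ℂ → Bool`);  `pvcw_T pvcw_Pos pvcw_Col` (`rfl`);  `pvcw_col_congr` (only the colours of the sites matter);
  **`pvcw_cfOf`** = TRANSPORT PRINCIPLE: for ANY `Φ : ∀ Y, (Bool → ↥Y → Bool) → β`:  `Φ (cfSites (cfOf Y σ)) (pvcwCol _ (cfCol (cfOf Y σ))) = Φ Y (pvcwCol Y σ)`.
* §2 TWINS on (site set `Y`, colour views `col : Bool → ↥Y → Bool`), `Y` and `col` are VARIABLES (rewriting works): `PvcwAt`, `PvcwU`, `PvcwPinOf`, `pvcwPins`, `PvcwActual`, `pvcwHull`, `PvcwFit`, `pvcwAll` (twin of `pvhbAll`).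
* §3 BRIDGES: `pvcw_at_iff`, `pvcw_U_iff`, `pvcw_pinOf_iff`, `pvcw_pins_eq`, `pvcw_actual_iff`, `pvcw_fit_iff`, `pvcw_all_eq`;  `pvcw_all_congr`, `pvcw_all_cfOf`.
* §4 THE LEVEL OF `Conf PvPt`: `pvcwUc 𝔓 m z t : Set (Conf PvPt)`, `pvcwPinsC`, `PvcwFitC`, `pvcwAllC`;  **`pvcw_U_eq : pvxU 𝔓 m z t = pvConf ⁻¹' pvcwUc 𝔓 m z t`**, `pvcw_mem_U`, `pvcw_pins_conf`, `pvcw_fit_conf`, `pvcw_all_conf`;
  congruence `pvConf ω = pvConf ω'`: `pvcw_U_congr`, `pvcw_pins_congr`, `pvcw_fit_congr`, `pvcw_hbAll_congr`;   at `cfOf Y σ`: `pvcw_U_cfOf`, `pvcw_pins_cfOf`, `pvcw_fit_cfOf`, `pvcw_allC_cfOf`, `pvcw_U_cfOf_congr`;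
  at a good geometry (`PvgOk g`, sample `pvMerge (g, k)`): `pvcw_U_geo`, `pvcw_pins_geo`, `pvcw_fit_geo`, `pvcw_all_geo`.
* §5 THE EVENTS OF THE ROOFS ARE EVENTS OF THE CONFIGURATION: `pvcwPinsBad`, `pvcwCoverBad`, `pvcwN1Bad`;  `pvcw_pinsBad_eq`, `pvcw_coverBad_eq`, `pvcw_n1Bad_eq`;  `pvcw_indicator` (the integrand of `cyc1`, `thick`);
  REDUCTIONS to outer measures / integrals under `pvP ε`: **`pvcw_pinsOK`**, **`pvcw_cover`**, **`pvcw_n1`**, **`pvcw_E_le`**.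
-/

set_option autoImplicit false
set_option linter.unusedSectionVars false

namespace Claimed.Agent.R289

open Set Claims.C0465

/-! ## 1. the plane map of a site set; colour views -/

/-- the Delaunay triangulation of the whole plane of the site set `Y` -/
noncomputable def pvcwT (Y : Set ℂ) : PvMap ↥Y (delbPl Y).Dart := (delbPl Y).toMap

/-- positions -/
def pvcwPos (Y : Set ℂ) : ↥Y → ℂ := Subtype.val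

/-- the colour views of a colouring `χ` of the plane: `pvcwCol Y χ b v = true` iff the site `v` has the colour `b` -/
def pvcwCol (Y : Set ℂ) (χ : ℂ → Bool) (b : Bool) : ↥Y → Bool := fun v => χ v.1 == b

theorem pvcw_eqns_cite : True := by
  have := @pvcwT.eq_1; have := @pvcwPos.eq_1; have := @pvcwCol.eq_1
  trivial

theorem pvcw_T (ω : PVSample) : pvxT ω = pvcwT (pvxY ω) := rfl

theorem pvcw_Pos (ω : PVSample) : pvxPos ω = pvcwPos (pvxY ω) := rfl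

theorem pvcw_Col (ω : PVSample) : pvxCol ω = pvcwCol (pvxY ω) (cfCol (pvConf ω)) := rfl

/-- only the colours of the sites matter -/
theorem pvcw_col_congr {Y : Set ℂ} {χ χ' : ℂ → Bool} (h : ∀ z ∈ Y, χ z = χ' z) : pvcwCol Y χ = pvcwCol Y χ' := by
  funext b v
  show (χ v.1 == b) = (χ' v.1 == b)
  rw [h v.1 v.2]

theorem pvcw_cfCol_cfOf {Y : Set ℂ} (σ : ℂ → Bool) {z : ℂ} (hz : z ∈ Y) : cfCol (cfOf Y σ) z = σ z := by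
  classical
  unfold cfCol
  cases h : σ z
  · rw [decide_eq_false_iff_not]
    rintro ⟨-, h2⟩
    have h3 : true = σ z := h2
    rw [h] at h3
    exact Bool.noConfusion h3
  · rw [decide_eq_true_iff]
    exact ⟨hz, h.symm⟩

/-- **TRANSPORT PRINCIPLE**: a statement on (site set, colour views) at the configuration `cfOf Y σ` is the statement at `(Y, σ)` -/
theorem pvcw_cfOf {β : Sort*} (Φ : ∀ Y : Set ℂ, (Bool → ↥Y → Bool) → β) (Y : Set ℂ) (σ : ℂ → Bool) :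
    Φ (cfSites (cfOf Y σ)) (pvcwCol _ (cfCol (cfOf Y σ))) = Φ Y (pvcwCol Y σ) := by
  have key : ∀ (Y' : Set ℂ) (_ : Y' = Y) (χ : ℂ → Bool), (∀ z ∈ Y, χ z = σ z) → Φ Y' (pvcwCol Y' χ) = Φ Y (pvcwCol Y σ) := by
    rintro Y' rfl χ h
    rw [pvcw_col_congr h]
  exact key _ (cfOf_sites Y σ) _ fun z hz => pvcw_cfCol_cfOf σ hz

/-! ## 2. the twins of `Defs/TrModel` sec. 3-5 on (site set `Y`, colour views `col`) -/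

section model

variable {τ : Type} {c : ℝ} (𝔓 : PvxPar τ c)

/-- twin of `PvxAt` -/
structure PvcwAt (m : ℕ) (Y : Set ℂ) (col : Bool → ↥Y → Bool) (z : ℂ) (t : τ) (𝔖 : PvwSt (pvcwT Y)) : Prop where
  good : DelGood Y
  st : 𝔖.At (pvcwPos Y) 𝔓.num (pvlmH m) z (𝔓.ty t) (col (𝔓.col t))
  tip_p : pvcwPos Y ((pvcwT Y).src (𝔖.ep 𝔖.np)) ∈ pvxPl z (pvlmH m) (𝔓.cp t)
  tip_m : pvcwPos Y ((pvcwT Y).src (𝔖.em 𝔖.nm)) ∈ pvxPl z (pvlmH m) (𝔓.cm t)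
  mask_p : ∀ y : (pvcwT Y).Pth, PvwLE (pvcwT Y) (fun i => (pvcwT Y).src (𝔖.ep i)) 𝔖.np y → ∀ v ∈ y.verts, pvcwPos Y v ∈ pvxPl z (pvlmH m) (𝔓.Mp t)
  mask_m : ∀ y : (pvcwT Y).Pth, PvwLE (pvcwT Y) (fun i => (pvcwT Y).src (𝔖.em i)) 𝔖.nm y → ∀ v ∈ y.verts, pvcwPos Y v ∈ pvxPl z (pvlmH m) (𝔓.Mm t)
  inn_p : ∀ i, 𝔖.ip ≤ i → i ≤ 𝔖.inn.n → (𝔓.num.m - 1) * pvlmH m < ‖pvcwPos Y (𝔖.inn.v i) - z‖ → pvcwPos Y (𝔖.inn.v i) ∈ pvxPl z (pvlmH m) (𝔓.Mp t)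
  inn_m : ∀ i, i ≤ 𝔖.ip → (𝔓.num.m - 1) * pvlmH m < ‖pvcwPos Y (𝔖.inn.v i) - z‖ → pvcwPos Y (𝔖.inn.v i) ∈ pvxPl z (pvlmH m) (𝔓.Mm t)
  lev0 : 𝔓.m0 ≤ m

/-- twin of `pvxU` -/
def PvcwU (m : ℕ) (z : ℂ) (t : τ) (Y : Set ℂ) (col : Bool → ↥Y → Bool) : Prop := ∃ 𝔖 : PvwSt (pvcwT Y), PvcwAt 𝔓 m Y col z t 𝔖

/-- twin of `PvxPinOf` -/
structure PvcwPinOf {Y : Set ℂ} (𝔖 : PvwSt (pvcwT Y)) (N : PvwNum) (h : ℝ) (yp ym : ℂ) (BK : Set ℂ) (P : PvbRim) (j : ℕ) : Prop where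
  le : j + 𝔖.inn.n < P.len
  run : ∀ i, i ≤ 𝔖.inn.n → P.v (j + i) = pvcwPos Y (𝔖.inn.v i)
  mouth_p : ∃ B, j + 𝔖.inn.n + B < P.len ∧ (∀ i, i ≤ B → P.v (j + 𝔖.inn.n + i) ∈ BK) ∧
    ∀ k, k ≤ P.len → (k ≤ j ∨ j + 𝔖.inn.n + B < k) → 2 * N.rho * h < ‖P.v k - yp‖
  mouth_m : ∃ A, A < j ∧ (∀ i, i ≤ A → P.v (j - i) ∈ BK) ∧
    ∀ k, k ≤ P.len → (k + A < j ∨ j + 𝔖.inn.n ≤ k) → 2 * N.rho * h < ‖P.v k - ym‖

/-- twin of `pvxPins` -/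
def pvcwPins (x : ℂ) (R : ℝ) (m : ℕ) (P : PvbRim) (Y : Set ℂ) (col : Bool → ↥Y → Bool) : Set (PvbPin τ) :=
  {s | ‖s.ctr - x‖ ≤ 3 * R ∧ (∃ p : ℤ × ℤ, s.ctr = l9Pt (pvlmH m) p) ∧ ∃ (𝔖 : PvwSt (pvcwT Y)) (j : ℕ), PvcwAt 𝔓 m Y col s.ctr s.typ 𝔖 ∧
    PvcwPinOf 𝔖 𝔓.num (pvlmH m) ((𝔓.ty s.typ).cp (pvlmH m) s.ctr) ((𝔓.ty s.typ).cm (pvlmH m) s.ctr) (𝔓.box m s.ctr s.typ) P j ∧ s.idx = j + 𝔖.ip ∧
    ∃ 𝔖₂ : PvwSt (pvcwT Y), 𝔖₂.Gate (pvcwPos Y) (pvlmH m) s.ctr (𝔓.ty2 s.typ) (col (𝔓.col s.typ))}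

/-- twin of `PvxActual` -/
structure PvcwActual {Y : Set ℂ} (col : Bool → ↥Y → Bool) (𝔇 : PvwDat (pvcwT Y)) (N : PvwNum) (h : ℝ) (π : PvwPat) (b : Bool) (P : PvbRim) (j : ℕ) : Prop where
  cyl : col b ∈ 𝔇.Cyl
  pin_s : PvcwPinOf 𝔇.s N h (π.ts.cp h π.zs) (π.ts.cm h π.zs) (pvwSq π.zs (pvwRad N h π.ts N.K)) P j
  arc : ∀ i, i ≤ 𝔇.g.n → P.v (j + 𝔇.s.inn.n + i) = pvcwPos Y (𝔇.g.v i)
  pin_t : PvcwPinOf 𝔇.t N h (π.tt.cp h π.zt) (π.tt.cm h π.zt) (pvwSq π.zt (pvwRad N h π.tt N.K)) P (j + 𝔇.s.inn.n + 𝔇.g.n)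

/-- twin of `pvxHull` -/
def pvcwHull {Y : Set ℂ} (δ : ℝ) (F : Set ↥Y) (tip : ℂ) (r : ℝ) : Set (ℤ × ℤ) := pvtCells δ (pvcwPos Y '' F ∪ Metric.closedBall tip r)

/-- twin of `pvxFit` -/
def PvcwFit (x : ℂ) (R : ℝ) (m : ℕ) (P : PvbRim) (s t : PvbPin τ) (π : PvxIx τ) (Y : Set ℂ) (col : Bool → ↥Y → Bool) : Prop :=
  (s.ctr = π.p.zs ∧ s.typ = π.p.ts) ∧ (t.ctr = π.p.zt ∧ t.typ = π.p.tt) ∧ PvcwU 𝔓 m s.ctr s.typ Y col ∧ PvcwU 𝔓 m t.ctr t.typ Y col ∧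
  ∃ (𝔇 : PvwDat (pvcwT Y)) (j : ℕ), 𝔇.Ok (pvcwPos Y) 𝔓.num (pvlmH m) (𝔓.reg m π) ∧ PvcwActual col 𝔇 𝔓.num (pvlmH m) (𝔓.reg m π) (𝔓.col π.p.ts) P j ∧
    PvcwAt 𝔓 m Y col π.p.zs π.p.ts 𝔇.s ∧ PvcwAt 𝔓 m Y col π.p.zt π.p.tt 𝔇.t ∧
    s.idx = j + 𝔇.s.ip ∧ t.idx = j + 𝔇.s.inn.n + 𝔇.g.n + 𝔇.t.ip ∧
    (∀ k, j ≤ k → k ≤ j + 𝔇.s.inn.n + 𝔇.g.n + 𝔇.t.inn.n → ‖P.v k - x‖ ≤ 5 * R) ∧
    (π.Zs : Set (ℤ × ℤ)) = pvcwHull (pvlmDel c m) 𝔇.s.fzIn (pvxYs 𝔓 m π.p) (𝔓.num.rho * pvlmH m) ∧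
    (π.Zt : Set (ℤ × ℤ)) = pvcwHull (pvlmDel c m) 𝔇.t.fzOut (pvxYt 𝔓 m π.p) (𝔓.num.rho * pvlmH m)

/-- twin of `pvhbAll`: the encoded reaching rims of all completions -/
def pvcwAll (x : ℂ) (R : ℝ) (Y : Set ℂ) (χ : ℂ → Bool) : Set PvbRim :=
  {P | ∃ (X : Type) (_ : Fintype X) (𝔅 : PvBulk X) (ξ : X → Bool), 𝔅.Adm Y ∧ 𝔅.Ok Y (Metric.closedBall x (6 * R)) ∧
    P ∈ 𝔅.rimsAt Y (fun v => Sum.elim χ ξ (𝔅.lab Y v)) x R}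

theorem pvcw_eqns_cite2 : True := by
  have := @PvcwU.eq_1; have := @pvcwPins.eq_1; have := @pvcwHull.eq_1; have := @PvcwFit.eq_1; have := @pvcwAll.eq_1
  trivial

/-! ## 3. the bridges -/

variable {𝔓}

theorem pvcw_at_iff {m : ℕ} {ω : PVSample} {z : ℂ} {t : τ} {𝔖 : PvwSt (pvxT ω)} :
    PvxAt 𝔓 m ω z t 𝔖 ↔ PvcwAt 𝔓 m (pvxY ω) (pvxCol ω) z t 𝔖 :=
  ⟨fun h => ⟨h.good, h.st, h.tip_p, h.tip_m, h.mask_p, h.mask_m, h.inn_p, h.inn_m, h.lev0⟩, fun h => ⟨h.good, h.st, h.tip_p, h.tip_m, h.mask_p, h.mask_m, h.inn_p, h.inn_m, h.lev0⟩⟩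

theorem pvcw_U_iff {m : ℕ} {ω : PVSample} {z : ℂ} {t : τ} : ω ∈ pvxU 𝔓 m z t ↔ PvcwU 𝔓 m z t (pvxY ω) (pvxCol ω) :=
  ⟨fun ⟨𝔖, h⟩ => ⟨𝔖, pvcw_at_iff.1 h⟩, fun ⟨𝔖, h⟩ => ⟨𝔖, pvcw_at_iff.2 h⟩⟩

theorem pvcw_pinOf_iff {ω : PVSample} {𝔖 : PvwSt (pvxT ω)} {N : PvwNum} {h : ℝ} {yp ym : ℂ} {BK : Set ℂ} {P : PvbRim} {j : ℕ} :
    PvxPinOf 𝔖 N h yp ym BK P j ↔ PvcwPinOf (Y := pvxY ω) 𝔖 N h yp ym BK P j :=
  ⟨fun h => ⟨h.le, h.run, h.mouth_p, h.mouth_m⟩, fun h => ⟨h.le, h.run, h.mouth_p, h.mouth_m⟩⟩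

theorem pvcw_pins_eq (x : ℂ) (R : ℝ) (m : ℕ) (ω : PVSample) (P : PvbRim) : pvxPins 𝔓 x R m ω P = pvcwPins 𝔓 x R m P (pvxY ω) (pvxCol ω) := by
  ext s
  constructor
  · rintro ⟨h1, h2, 𝔖, j, h3, h4, h5, h6⟩
    exact ⟨h1, h2, 𝔖, j, pvcw_at_iff.1 h3, pvcw_pinOf_iff.1 h4, h5, h6⟩
  · rintro ⟨h1, h2, 𝔖, j, h3, h4, h5, h6⟩
    exact ⟨h1, h2, 𝔖, j, pvcw_at_iff.2 h3, pvcw_pinOf_iff.2 h4, h5, h6⟩

theorem pvcw_actual_iff {ω : PVSample} {𝔇 : PvwDat (pvxT ω)} {N : PvwNum} {h : ℝ} {π : PvwPat} {b : Bool} {P : PvbRim} {j : ℕ} :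
    PvxActual 𝔇 N h π b P j ↔ PvcwActual (Y := pvxY ω) (pvxCol ω) 𝔇 N h π b P j :=
  ⟨fun h => ⟨h.cyl, pvcw_pinOf_iff.1 h.pin_s, h.arc, pvcw_pinOf_iff.1 h.pin_t⟩, fun h => ⟨h.cyl, pvcw_pinOf_iff.2 h.pin_s, h.arc, pvcw_pinOf_iff.2 h.pin_t⟩⟩

theorem pvcw_fit_iff {x : ℂ} {R : ℝ} {m : ℕ} {ω : PVSample} {P : PvbRim} {s t : PvbPin τ} {π : PvxIx τ} :
    pvxFit 𝔓 x R m ω P s t π ↔ PvcwFit 𝔓 x R m P s t π (pvxY ω) (pvxCol ω) := by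
  constructor
  · rintro ⟨h1, h2, h3, h4, 𝔇, j, h5, h6, h7, h8, h9⟩
    exact ⟨h1, h2, pvcw_U_iff.1 h3, pvcw_U_iff.1 h4, 𝔇, j, h5, pvcw_actual_iff.1 h6, pvcw_at_iff.1 h7, pvcw_at_iff.1 h8, h9⟩
  · rintro ⟨h1, h2, h3, h4, 𝔇, j, h5, h6, h7, h8, h9⟩
    exact ⟨h1, h2, pvcw_U_iff.2 h3, pvcw_U_iff.2 h4, 𝔇, j, h5, pvcw_actual_iff.2 h6, pvcw_at_iff.2 h7, pvcw_at_iff.2 h8, h9⟩

theorem pvcw_all_eq (x : ℂ) (R : ℝ) (ω : PVSample) : pvhbAll x R ω = pvcwAll x R (pvxY ω) (cfCol (pvConf ω)) := rfl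

/-- the rims of the completions read the colours of the sites only -/
theorem pvcw_all_congr (x : ℂ) (R : ℝ) {Y : Set ℂ} {χ χ' : ℂ → Bool} (h : ∀ z ∈ Y, χ z = χ' z) : pvcwAll x R Y χ = pvcwAll x R Y χ' := by
  have key : ∀ χ χ' : ℂ → Bool, (∀ z ∈ Y, χ z = χ' z) → pvcwAll x R Y χ ⊆ pvcwAll x R Y χ' := by
    rintro χ χ' h P ⟨X, hX, 𝔅, ξ, h1, h2, h3⟩
    refine ⟨X, hX, 𝔅, ξ, h1, h2, ?_⟩
    have e : (fun v => Sum.elim χ' ξ (𝔅.lab Y v)) = fun v => Sum.elim χ ξ (𝔅.lab Y v) := by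
      funext v
      cases hv : 𝔅.lab Y v with
      | inl p => exact (h p (h2.site v p hv)).symm
      | inr a => rfl
    rw [e]
    exact h3
  exact Subset.antisymm (key χ χ' h) (key χ' χ fun z hz => (h z hz).symm)

theorem pvcw_all_cfOf (x : ℂ) (R : ℝ) (Y : Set ℂ) (σ : ℂ → Bool) : pvcwAll x R (cfSites (cfOf Y σ)) (cfCol (cfOf Y σ)) = pvcwAll x R Y σ := by
  rw [cfOf_sites]
  exact pvcw_all_congr x R fun z hz => pvcw_cfCol_cfOf σ hz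

/-! ## 4. the level of `Conf PvPt` -/

variable (𝔓)

/-- the usable candidates, as an event of `Conf PvPt` -/
def pvcwUc (m : ℕ) (z : ℂ) (t : τ) : Set (Conf PvPt) := {η | PvcwU 𝔓 m z t (cfSites η) (pvcwCol _ (cfCol η))}

/-- the qualified pins, read from the configuration -/
def pvcwPinsC (x : ℂ) (R : ℝ) (m : ℕ) (η : Conf PvPt) (P : PvbRim) : Set (PvbPin τ) := pvcwPins 𝔓 x R m P (cfSites η) (pvcwCol _ (cfCol η))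

/-- the fit, read from the configuration -/
def PvcwFitC (x : ℂ) (R : ℝ) (m : ℕ) (η : Conf PvPt) (P : PvbRim) (s t : PvbPin τ) (π : PvxIx τ) : Prop :=
  PvcwFit 𝔓 x R m P s t π (cfSites η) (pvcwCol _ (cfCol η))

/-- the encoded rims of all completions, read from the configuration -/
def pvcwAllC (x : ℂ) (R : ℝ) (η : Conf PvPt) : Set PvbRim := pvcwAll x R (cfSites η) (cfCol η)

theorem pvcw_eqns_cite3 : True := by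
  have := @pvcwUc.eq_1; have := @pvcwPinsC.eq_1; have := @PvcwFitC.eq_1; have := @pvcwAllC.eq_1
  trivial

variable {𝔓}

/-- **`pvxU` IS AN EVENT OF THE CONFIGURATION** -/
theorem pvcw_U_eq (m : ℕ) (z : ℂ) (t : τ) : pvxU 𝔓 m z t = pvConf ⁻¹' pvcwUc 𝔓 m z t := by
  ext ω
  exact pvcw_U_iff

theorem pvcw_mem_U {m : ℕ} {z : ℂ} {t : τ} {ω : PVSample} : ω ∈ pvxU 𝔓 m z t ↔ pvConf ω ∈ pvcwUc 𝔓 m z t := pvcw_U_iff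

theorem pvcw_pins_conf (x : ℂ) (R : ℝ) (m : ℕ) (ω : PVSample) (P : PvbRim) : pvxPins 𝔓 x R m ω P = pvcwPinsC 𝔓 x R m (pvConf ω) P :=
  pvcw_pins_eq x R m ω P

theorem pvcw_fit_conf {x : ℂ} {R : ℝ} {m : ℕ} {ω : PVSample} {P : PvbRim} {s t : PvbPin τ} {π : PvxIx τ} :
    pvxFit 𝔓 x R m ω P s t π ↔ PvcwFitC 𝔓 x R m (pvConf ω) P s t π := pvcw_fit_iff

theorem pvcw_all_conf (x : ℂ) (R : ℝ) (ω : PVSample) : pvhbAll x R ω = pvcwAllC x R (pvConf ω) := rfl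

/-! ### congruence: two samples with the same configuration -/

theorem pvcw_U_congr {m : ℕ} {z : ℂ} {t : τ} {ω ω' : PVSample} (h : pvConf ω = pvConf ω') : ω ∈ pvxU 𝔓 m z t ↔ ω' ∈ pvxU 𝔓 m z t := by
  rw [pvcw_mem_U, pvcw_mem_U, h]

theorem pvcw_pins_congr (x : ℂ) (R : ℝ) (m : ℕ) {ω ω' : PVSample} (h : pvConf ω = pvConf ω') (P : PvbRim) : pvxPins 𝔓 x R m ω P = pvxPins 𝔓 x R m ω' P := by
  rw [pvcw_pins_conf, pvcw_pins_conf, h]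

theorem pvcw_fit_congr {x : ℂ} {R : ℝ} {m : ℕ} {ω ω' : PVSample} (h : pvConf ω = pvConf ω') {P : PvbRim} {s t : PvbPin τ} {π : PvxIx τ} :
    pvxFit 𝔓 x R m ω P s t π ↔ pvxFit 𝔓 x R m ω' P s t π := by
  rw [pvcw_fit_conf, pvcw_fit_conf, h]

theorem pvcw_hbAll_congr (x : ℂ) (R : ℝ) {ω ω' : PVSample} (h : pvConf ω = pvConf ω') : pvhbAll x R ω = pvhbAll x R ω' := by
  rw [pvcw_all_conf, pvcw_all_conf, h]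

/-! ### the configurations `cfOf Y σ` (fixed geometry, colouring of the sites) -/

theorem pvcw_U_cfOf {m : ℕ} {z : ℂ} {t : τ} {Y : Set ℂ} {σ : ℂ → Bool} : cfOf Y σ ∈ pvcwUc 𝔓 m z t ↔ PvcwU 𝔓 m z t Y (pvcwCol Y σ) :=
  iff_of_eq (pvcw_cfOf (PvcwU 𝔓 m z t) Y σ)

theorem pvcw_pins_cfOf (x : ℂ) (R : ℝ) (m : ℕ) (Y : Set ℂ) (σ : ℂ → Bool) (P : PvbRim) :
    pvcwPinsC 𝔓 x R m (cfOf Y σ) P = pvcwPins 𝔓 x R m P Y (pvcwCol Y σ) := pvcw_cfOf (pvcwPins 𝔓 x R m P) Y σ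

theorem pvcw_fit_cfOf {x : ℂ} {R : ℝ} {m : ℕ} {Y : Set ℂ} {σ : ℂ → Bool} {P : PvbRim} {s t : PvbPin τ} {π : PvxIx τ} :
    PvcwFitC 𝔓 x R m (cfOf Y σ) P s t π ↔ PvcwFit 𝔓 x R m P s t π Y (pvcwCol Y σ) := iff_of_eq (pvcw_cfOf (PvcwFit 𝔓 x R m P s t π) Y σ)

theorem pvcw_allC_cfOf (x : ℂ) (R : ℝ) (Y : Set ℂ) (σ : ℂ → Bool) : pvcwAllC x R (cfOf Y σ) = pvcwAll x R Y σ := pvcw_all_cfOf x R Y σ

/-- only the colours of the sites matter -/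
theorem pvcw_U_cfOf_congr {m : ℕ} {z : ℂ} {t : τ} {Y : Set ℂ} {σ σ' : ℂ → Bool} (h : ∀ w ∈ Y, σ w = σ' w) :
    cfOf Y σ ∈ pvcwUc 𝔓 m z t ↔ cfOf Y σ' ∈ pvcwUc 𝔓 m z t := by
  rw [pvcw_U_cfOf, pvcw_U_cfOf, pvcw_col_congr h]

/-! ### the two-level space: a good geometry `g`, colours `c` -/

theorem pvcw_U_geo {m : ℕ} {z : ℂ} {t : τ} {g : PvGeoT} (hg : PvgOk g) (k : PvColT) :
    pvMerge (g, k) ∈ pvxU 𝔓 m z t ↔ PvcwU 𝔓 m z t (pvgSites g) (pvcwCol _ (pvgColAt g k)) := by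
  rw [pvcw_mem_U, hg.conf_eq, pvcw_U_cfOf]

theorem pvcw_pins_geo (x : ℂ) (R : ℝ) (m : ℕ) {g : PvGeoT} (hg : PvgOk g) (k : PvColT) (P : PvbRim) :
    pvxPins 𝔓 x R m (pvMerge (g, k)) P = pvcwPins 𝔓 x R m P (pvgSites g) (pvcwCol _ (pvgColAt g k)) := by
  rw [pvcw_pins_conf, hg.conf_eq, pvcw_pins_cfOf]

theorem pvcw_fit_geo {x : ℂ} {R : ℝ} {m : ℕ} {g : PvGeoT} (hg : PvgOk g) (k : PvColT) {P : PvbRim} {s t : PvbPin τ} {π : PvxIx τ} :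
    pvxFit 𝔓 x R m (pvMerge (g, k)) P s t π ↔ PvcwFit 𝔓 x R m P s t π (pvgSites g) (pvcwCol _ (pvgColAt g k)) := by
  rw [pvcw_fit_conf, hg.conf_eq, pvcw_fit_cfOf]

theorem pvcw_all_geo (x : ℂ) (R : ℝ) {g : PvGeoT} (hg : PvgOk g) (k : PvColT) : pvhbAll x R (pvMerge (g, k)) = pvcwAll x R (pvgSites g) (pvgColAt g k) := by
  rw [pvcw_all_conf, hg.conf_eq, pvcw_allC_cfOf]

/-! ## 5. the events of the roofs are events of the configuration -/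

open MeasureTheory Filter Topology
open scoped ENNReal

variable (𝔓)

/-- the bad event of (S1) PINS -/
def pvcwPinsBad (x : ℂ) (R : ℝ) (m : ℕ) : Set (Conf PvPt) :=
  {η | ¬ ∀ P ∈ pvcwAllC x R η,
    (∀ s ∈ pvcwPinsC 𝔓 x R m η P, PvbIsPin 𝔓.𝔐 (pvlmH m) P s ∧ ∃ p : ℤ × ℤ, s.ctr = l9Pt (pvlmH m) p) ∧
    (∀ i i', i ≤ i' → i' ≤ P.len → (∀ k, i ≤ k → k ≤ i' → ‖P.v k - x‖ ≤ 2 * R) → pvlmR c m ≤ ‖P.v i' - P.v i‖ → ∃ s ∈ pvcwPinsC 𝔓 x R m η P, i ≤ s.idx ∧ s.idx ≤ i')}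

/-- the bad event of (S2) COVER -/
def pvcwCoverBad (x : ℂ) (R : ℝ) (m : ℕ) : Set (Conf PvPt) :=
  {η | ¬ ∀ P ∈ pvcwAllC x R η, ∀ s ∈ pvcwPinsC 𝔓 x R m η P, ∀ t ∈ pvcwPinsC 𝔓 x R m η P, s.idx < t.idx →
    (∀ k, s.idx ≤ k → k ≤ t.idx → ‖P.v k - x‖ ≤ 2 * R) → R / 3 ≤ ‖s.ctr - t.ctr‖ → ∃ π ∈ pvxPatSet 𝔓 x R m, PvcwFitC 𝔓 x R m η P s t π}

/-- the bad event of the field `n1`: `Z P s t η` = the quantity which has to be small -/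
def pvcwN1Bad (x : ℂ) (R : ℝ) (m : ℕ) (π : PvxIx τ) (u : ℝ) (Z : PvbRim → PvbPin τ → PvbPin τ → Conf PvPt → ℂ) : Set (Conf PvPt) :=
  {η | ∃ P ∈ pvcwAllC x R η, ∃ s ∈ pvcwPinsC 𝔓 x R m η P, ∃ t ∈ pvcwPinsC 𝔓 x R m η P, PvcwFitC 𝔓 x R m η P s t π ∧ u < ‖Z P s t η‖}

theorem pvcw_eqns_cite4 : True := by
  have := @pvcwPinsBad.eq_1; have := @pvcwCoverBad.eq_1; have := @pvcwN1Bad.eq_1
  trivial

variable {𝔓}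

theorem pvcw_pinsBad_eq (x : ℂ) (R : ℝ) (m : ℕ) :
    {q : PvGeoT × PvColT | ¬ ∀ P ∈ pvhbAll x R (pvMerge q),
      (∀ s ∈ pvxPins 𝔓 x R m (pvMerge q) P, PvbIsPin 𝔓.𝔐 (pvlmH m) P s ∧ ∃ p : ℤ × ℤ, s.ctr = l9Pt (pvlmH m) p) ∧
      (∀ i i', i ≤ i' → i' ≤ P.len → (∀ k, i ≤ k → k ≤ i' → ‖P.v k - x‖ ≤ 2 * R) → pvlmR c m ≤ ‖P.v i' - P.v i‖ → ∃ s ∈ pvxPins 𝔓 x R m (pvMerge q) P, i ≤ s.idx ∧ s.idx ≤ i')}
    = {q | pvConf (pvMerge q) ∈ pvcwPinsBad 𝔓 x R m} := by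
  ext q
  simp only [mem_ofPred_eq, pvcwPinsBad, pvcw_all_conf, pvcw_pins_conf]

theorem pvcw_coverBad_eq (x : ℂ) (R : ℝ) (m : ℕ) :
    {q : PvGeoT × PvColT | ¬ ∀ P ∈ pvhbAll x R (pvMerge q), ∀ s ∈ pvxPins 𝔓 x R m (pvMerge q) P, ∀ t ∈ pvxPins 𝔓 x R m (pvMerge q) P, s.idx < t.idx →
      (∀ k, s.idx ≤ k → k ≤ t.idx → ‖P.v k - x‖ ≤ 2 * R) → R / 3 ≤ ‖s.ctr - t.ctr‖ → ∃ π ∈ pvxPatSet 𝔓 x R m, pvxFit 𝔓 x R m (pvMerge q) P s t π}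
    = {q | pvConf (pvMerge q) ∈ pvcwCoverBad 𝔓 x R m} := by
  ext q
  simp only [mem_ofPred_eq, pvcwCoverBad, pvcw_all_conf, pvcw_pins_conf, pvcw_fit_conf]

theorem pvcw_n1Bad_eq (x : ℂ) (R : ℝ) (m : ℕ) (π : PvxIx τ) (u : ℝ) (Z : PvbRim → PvbPin τ → PvbPin τ → Conf PvPt → ℂ) :
    {q : PvGeoT × PvColT | ∃ P ∈ pvhbAll x R (pvMerge q), ∃ s ∈ pvxPins 𝔓 x R m (pvMerge q) P, ∃ t ∈ pvxPins 𝔓 x R m (pvMerge q) P, pvxFit 𝔓 x R m (pvMerge q) P s t π ∧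
      u < ‖Z P s t (pvConf (pvMerge q))‖}
    = {q | pvConf (pvMerge q) ∈ pvcwN1Bad 𝔓 x R m π u Z} := by
  ext q
  simp only [mem_ofPred_eq, pvcwN1Bad, pvcw_all_conf, pvcw_pins_conf, pvcw_fit_conf]

/-- the integrand of `cyc1`, `thick` -/
theorem pvcw_indicator (m : ℕ) (z : ℂ) (t : τ) (F : Conf PvPt → ℝ≥0∞) :
    ((pvMerge ⁻¹' pvxU 𝔓 m z t).indicator fun q : PvGeoT × PvColT => F (pvConf (pvMerge q))) = fun q => (pvcwUc 𝔓 m z t).indicator F (pvConf (pvMerge q)) := by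
  funext q
  by_cases h : pvMerge q ∈ pvxU 𝔓 m z t
  · rw [indicator_of_mem (show q ∈ pvMerge ⁻¹' pvxU 𝔓 m z t from h), indicator_of_mem (pvcw_mem_U.1 h)]
  · rw [indicator_of_notMem (show q ∉ pvMerge ⁻¹' pvxU 𝔓 m z t from h), indicator_of_notMem fun h' => h (pvcw_mem_U.2 h')]

/-- **(S1) from the OUTER MEASURE under `pvP ε` of an event of the configuration** -/
theorem pvcw_pinsOK {x : ℂ} {R : ℝ} (h : PvhbOrd fun m ε => (pvP ε (pvcwPinsBad 𝔓 x R m)).toReal) : PvxPinsOK 𝔓 x R := by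
  refine PvhbOrd.mono h fun m ε => ?_
  rw [pvcw_pinsBad_eq]
  have := (pv_isPpp ε).prob
  exact ENNReal.toReal_mono (measure_ne_top _ _) (pvhb_up_P_conf ε _)

/-- **(S2) from the OUTER MEASURE under `pvP ε` of an event of the configuration** -/
theorem pvcw_cover {x : ℂ} {R : ℝ} (h : PvhbOrd fun m ε => (pvP ε (pvcwCoverBad 𝔓 x R m)).toReal) : PvxCover 𝔓 x R := by
  refine PvhbOrd.mono h fun m ε => ?_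
  rw [pvcw_coverBad_eq]
  have := (pv_isPpp ε).prob
  exact ENNReal.toReal_mono (measure_ne_top _ _) (pvhb_up_P_conf ε _)

/-- the field `n1` (shape of `PvxAna.n1` for `kout`, `kin` read from the configuration) from upper probabilities of an event of the configuration -/
theorem pvcw_n1 {x : ℂ} {R : ℝ} {m : ℕ} {π : PvxIx τ} {u : ℝ} (Z : ℝ → PvbRim → PvbPin τ → PvbPin τ → Conf PvPt → ℂ)
    (h : Tendsto (fun ε => ((pvhbUp ε).P {q | pvConf (pvMerge q) ∈ pvcwN1Bad 𝔓 x R m π u (Z ε)}).toReal) (𝓝[>] (0 : ℝ)) (𝓝 0)) :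
    Tendsto (fun ε => ((pvhbUp ε).P {q | ∃ P ∈ pvhbAll x R (pvMerge q), ∃ s ∈ pvxPins 𝔓 x R m (pvMerge q) P, ∃ t ∈ pvxPins 𝔓 x R m (pvMerge q) P, pvxFit 𝔓 x R m (pvMerge q) P s t π ∧
      u < ‖Z ε P s t (pvConf (pvMerge q))‖}).toReal) (𝓝[>] (0 : ℝ)) (𝓝 0) := by
  simp only [pvcw_n1Bad_eq]
  exact h

/-- the integrals of `cyc1`, `thick` from an a.e. majorant on `Conf PvPt` -/
theorem pvcw_E_le (ε : ℝ) (m : ℕ) (z : ℂ) (t : τ) {F φ : Conf PvPt → ℝ≥0∞} (hφ : AEMeasurable φ (pvP ε)) (h : ∀ᵐ η ∂(pvP ε), η ∈ pvcwUc 𝔓 m z t → F η ≤ φ η) :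
    (pvhbUp ε).E ((pvMerge ⁻¹' pvxU 𝔓 m z t).indicator fun q => F (pvConf (pvMerge q))) ≤ ∫⁻ η, φ η ∂(pvP ε) := by
  rw [pvcw_indicator]
  refine pvhb_up_E_conf ε hφ ?_
  filter_upwards [h] with η hη
  by_cases hU : η ∈ pvcwUc 𝔓 m z t
  · rw [indicator_of_mem hU]; exact hη hU
  · rw [indicator_of_notMem hU]; exact zero_le

end model

end Claimed.Agent.R289
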