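import Claimed.Agent.R289.Tr.DomY
import Claimed.Agent.R289.Tr.AtUniq
import Claimed.Agent.R289.Tr.ModelC
import Claimed.Agent.R289.Tr.InstE
import Claimed.Agent.R289.Tr.BuThick

/-!
# Row 289 (S0537), THE WALL, ROAD E, file Tr/StopM : `PvdyStop` AT THE MODEL      (helper96; follow-up of flag (F1) of 161; prefix `pvsm_`, `pvsm`, `Pvsm`)      0 sorry

PRODUCER of the hypothesis `PvdyStop yf` of `pvdy_inv`, `pvdy_core*` (193, `Tr/DomY`), `pvux_dy_*` (252, `Tr/UpEx`) and, through `PvdyStop.kt`, of `PvktStop` (103, `Tr/BuThick`: leaf `stop` of `thick`) for the fresh sets of `Tr/InstE` (161).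
* sec. 1  **`pvsm_stop`** ABSTRACT: the choice is `G (THE state)`; a state is a cylinder on its finite frozen set, `G` does not depend on the representative and misses the frozen set.
          GUARD: `pvsm_R_congr`, `pvsm_hat_congr` (`pvdyR`, `pvdyHat` read `yf` at the base only), `pvsmGd U yf`, `pvsm_hat_gd`.
* sec. 2  positions of a set of sites `pvsmP`.
* sec. 3  FULL state `PvieAt` (twin `PvsmAt` on (site set, colour view), `pvsm_at_iff`): `pvsm_FrO_cfOf`, `pvsm_FrI_cfOf`, **`pvsm_stop_full'`**, **`pvsm_stop_full`** (`pvieFrI Mi ∪ pvieFrO Mo`, mouths inside `closedBall y∓ (2 ρ h)`), `pvsm_stop_FrO`, `pvsm_stop_FrI`.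
* sec. 4  HALF states (`PvsmAtO`, `PvsmAtI`, `pvsmFrO`, `pvsmFrI`): **`pvsm_stop_out`**, **`pvsm_stop_in`** : ANY `M`.
* sec. 5  `pvsm_FrO_of_full`, `pvsm_FrI_of_full`, `pvsm_gd_eq`, **`pvsm_stop_gd`** : the union of the two half-state choices GUARDED by the full state.
* sec. 6  BASE INDEXED FORM = leaf (K1) of 7 (`Exit/Thick`): `pvsmF0` (frozen positions of THE full state, `univ` if none), `pvsm_F0_of`, `pvsm_F0_notMem`, **`pvsm_stop_fun`**, **`pvsm_stop_F0`** (`M \ F0`, ANY `M`), **`pvsm_stop_base`**, `PvdyStop.leaf` (the field `stop` of `PvktDat.At` / `PvekDat.At` verbatim).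
INPUTS: `pvwk_at(Out,In)_congr`, `pvwk_fz*_finite` (25, `Tr/StKit`), `pvuq_del(_out,_in)` (150, `Tr/AtUniq`), `pvcw_cfOf` (175, `Tr/ModelC`).
-/

set_option autoImplicit false
set_option linter.unusedSectionVars false

namespace Claimed.Agent.R289

open Set MeasureTheory Claims.C0465
open scoped ENNReal

/-! ## 1. abstract -/

/-- **ABSTRACT STOPPING LEMMA**.      At the geometry `Y` a "state" `𝔖 : Sg Y` of the colouring `σ` is a CYLINDER on its finite frozen set `fz Y 𝔖 ⊆ Y`;   the choice is `G Y (the state)`, a set which does not depend on the representative of the state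
and misses the frozen set;   no state, no choice. -/
theorem pvsm_stop {yf : Conf PvPt → Set ℂ} {Sg : Set ℂ → Type*} (St : ∀ Y, (ℂ → Bool) → Sg Y → Prop) (fz G : ∀ Y, Sg Y → Set ℂ)
    (hyf : ∀ Y σ, yf (cfOf Y σ) = {v | ∃ 𝔖, St Y σ 𝔖 ∧ v ∈ G Y 𝔖})
    (fin : ∀ Y σ 𝔖, St Y σ 𝔖 → (fz Y 𝔖).Finite)
    (sub : ∀ Y σ 𝔖, St Y σ 𝔖 → fz Y 𝔖 ⊆ Y)
    (cong : ∀ Y σ σ' 𝔖, St Y σ 𝔖 → (∀ z ∈ fz Y 𝔖, σ' z = σ z) → St Y σ' 𝔖)
    (uniq : ∀ Y σ 𝔖 𝔖', St Y σ 𝔖 → St Y σ 𝔖' → G Y 𝔖 = G Y 𝔖')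
    (dis : ∀ Y σ 𝔖, St Y σ 𝔖 → Disjoint (fz Y 𝔖) (G Y 𝔖)) : PvdyStop yf := by
  refine ⟨fun Y σ hne => ?_⟩
  obtain ⟨v, -, hv⟩ := hne
  rw [hyf] at hv
  obtain ⟨𝔖, hS, -⟩ := hv
  have e : ∀ σ', St Y σ' 𝔖 → yf (cfOf Y σ') = G Y 𝔖 := by
    intro σ' h'
    rw [hyf]
    ext w
    constructor
    · rintro ⟨𝔖', h1, h2⟩
      rw [uniq Y σ' 𝔖 𝔖' h' h1]
      exact h2
    · intro hw
      exact ⟨𝔖, h', hw⟩
  refine ⟨(fin Y σ 𝔖 hS).toFinset, ?_, fun σ' h' => ?_⟩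
  · rw [Set.Finite.coe_toFinset, e σ hS]
    exact fun z hz => ⟨sub Y σ 𝔖 hS hz, fun hG => Set.disjoint_left.1 (dis Y σ 𝔖 hS) hz hG⟩
  · rw [e σ hS, e σ' (cong Y σ σ' 𝔖 hS fun z hz => h' z ((fin Y σ 𝔖 hS).mem_toFinset.2 hz))]

/-- the resampling reads the choice at the base only -/
theorem pvsm_R_congr (C : Set ℂ) {yf yf' : Conf PvPt → Set ℂ} {ω : Conf PvPt} (h : yf ω = yf' ω) : pvdyR C yf ω = pvdyR C yf' ω := by
  funext p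
  unfold pvdyR
  rw [h]

/-- **GUARD**: `pvdyHat` reads the choice at the base only -/
theorem pvsm_hat_congr (ε : ℝ) (C : Set ℂ) {yf yf' : Conf PvPt → Set ℂ} (w : Conf PvPt → ℝ≥0∞) (Y : Conf PvPt → ℂ) {ω : Conf PvPt} (h : yf ω = yf' ω) :
    pvdyHat ε C yf w Y ω = pvdyHat ε C yf' w Y ω := by
  rw [pvdy_hat_eq, pvdy_hat_eq, pvsm_R_congr C h]

open Classical in
/-- the choice guarded by an event -/
noncomputable def pvsmGd (U : Set (Conf PvPt)) (yf : Conf PvPt → Set ℂ) (η : Conf PvPt) : Set ℂ := if η ∈ U then yf η else ∅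

theorem pvsm_gd_mem {U : Set (Conf PvPt)} {η : Conf PvPt} (h : η ∈ U) (yf : Conf PvPt → Set ℂ) : pvsmGd U yf η = yf η := if_pos h

theorem pvsm_gd_notMem {U : Set (Conf PvPt)} {η : Conf PvPt} (h : η ∉ U) (yf : Conf PvPt → Set ℂ) : pvsmGd U yf η = ∅ := if_neg h

theorem pvsm_hat_gd (ε : ℝ) (C : Set ℂ) {U : Set (Conf PvPt)} (yf : Conf PvPt → Set ℂ) (w : Conf PvPt → ℝ≥0∞) (Y : Conf PvPt → ℂ) {ω : Conf PvPt} (h : ω ∈ U) :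
    pvdyHat ε C (pvsmGd U yf) w Y ω = pvdyHat ε C yf w Y ω := pvsm_hat_congr ε C w Y (pvsm_gd_mem h yf)

/-! ## 2. the states of `Tr/Defs` at a fixed geometry -/

section st

variable {Y : Set ℂ} {N : PvwNum} {h : ℝ} {z : ℂ} {τ : PvwTy} {b : Bool}

/-- positions of a set of sites -/
def pvsmP {Y : Set ℂ} (F : Set ↥Y) : Set ℂ := Subtype.val '' F

theorem pvsm_P_sub (F : Set ↥Y) : pvsmP F ⊆ Y := by
  rintro _ ⟨v, -, rfl⟩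
  exact v.2

theorem pvsm_agree {F : Set ↥Y} {σ σ' : ℂ → Bool} (h : ∀ z ∈ pvsmP F, σ' z = σ z) (b : Bool) : PvwAgree F (pvcwCol Y σ b) (pvcwCol Y σ' b) := by
  intro v hv
  show (σ v.1 == b) = (σ' v.1 == b)
  rw [h v.1 ⟨v, hv, rfl⟩]

theorem pvsm_notMem_P {F : Set ↥Y} {v : ℂ} : (∀ u ∈ F, pvcwPos Y u ≠ v) ↔ v ∉ pvsmP F := by
  constructor
  · rintro h ⟨u, hu, rfl⟩
    exact h u hu rfl
  · intro h u hu e
    exact h ⟨u, hu, e⟩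

end st

/-! ## 3. the FULL state of a placed plug (`PvieAt` of 161) -/

/-- twin of `PvieAt` on (site set, colour view): `Y` and `s` are VARIABLES -/
structure PvsmAt (N : PvwNum) (p : PviePl) (Y : Set ℂ) (s : ↥Y → Bool) (𝔖 : PvwSt (pvcwT Y)) : Prop where
  good : DelGood Y
  st : 𝔖.At (pvcwPos Y) N p.h p.z p.ty s
  tip_p : pvcwPos Y ((pvcwT Y).src (𝔖.ep 𝔖.np)) ∈ p.cp
  tip_m : pvcwPos Y ((pvcwT Y).src (𝔖.em 𝔖.nm)) ∈ p.cm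
  mask_p : ∀ y : (pvcwT Y).Pth, PvwLE (pvcwT Y) (fun i => (pvcwT Y).src (𝔖.ep i)) 𝔖.np y → ∀ v ∈ y.verts, pvcwPos Y v ∈ p.Mp
  mask_m : ∀ y : (pvcwT Y).Pth, PvwLE (pvcwT Y) (fun i => (pvcwT Y).src (𝔖.em i)) 𝔖.nm y → ∀ v ∈ y.verts, pvcwPos Y v ∈ p.Mm
  inn_p : ∀ i, 𝔖.ip ≤ i → i ≤ 𝔖.inn.n → (N.m - 1) * p.h < ‖pvcwPos Y (𝔖.inn.v i) - p.z‖ → pvcwPos Y (𝔖.inn.v i) ∈ p.Mp
  inn_m : ∀ i, i ≤ 𝔖.ip → (N.m - 1) * p.h < ‖pvcwPos Y (𝔖.inn.v i) - p.z‖ → pvcwPos Y (𝔖.inn.v i) ∈ p.Mm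
  lev0 : p.lev

theorem pvsm_at_iff (N : PvwNum) (b : Bool) (p : PviePl) (η : Conf PvPt) (𝔖 : PvwSt (pvieT η)) :
    PvieAt N b p η 𝔖 ↔ PvsmAt N p (cfSites η) (pvcwCol (cfSites η) (cfCol η) b) 𝔖 :=
  ⟨fun h => ⟨h.good, h.st, h.tip_p, h.tip_m, h.mask_p, h.mask_m, h.inn_p, h.inn_m, h.lev0⟩, fun h => ⟨h.good, h.st, h.tip_p, h.tip_m, h.mask_p, h.mask_m, h.inn_p, h.inn_m, h.lev0⟩⟩

section full

variable {N : PvwNum} {p : PviePl} {Y : Set ℂ} {s s' : ↥Y → Bool} {𝔖 𝔖' : PvwSt (pvcwT Y)}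

theorem PvsmAt.congr (h : PvsmAt N p Y s 𝔖) (hs : PvwAgree 𝔖.fz s s') : PvsmAt N p Y s' 𝔖 :=
  ⟨h.good, pvwk_at_congr (delb_plane_isSph h.good) h.st hs, h.tip_p, h.tip_m, h.mask_p, h.mask_m, h.inn_p, h.inn_m, h.lev0⟩

theorem PvsmAt.same (h : PvsmAt N p Y s 𝔖) (h' : PvsmAt N p Y s 𝔖') : PvuqSame 𝔖 𝔖' := pvuq_del h.good h.st h'.st

theorem PvsmAt.fin (h : PvsmAt N p Y s 𝔖) : 𝔖.fz.Finite := pvwk_fz_finite 𝔖 h.st.out.gate.core_fin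

end full

/-- the fresh sites of the exit mouth at a fixed geometry -/
theorem pvsm_FrO_cfOf (N : PvwNum) (b : Bool) (p : PviePl) (M : Set ℂ) (Y : Set ℂ) (σ : ℂ → Bool) :
    pvieFrO N b p M (cfOf Y σ) = {v | ∃ 𝔖 : PvwSt (pvcwT Y), PvsmAt N p Y (pvcwCol Y σ b) 𝔖 ∧ v ∈ M \ pvsmP 𝔖.fzOut} := by
  have e : ∀ η, pvieFrO N b p M η = (fun (Y : Set ℂ) (col : Bool → ↥Y → Bool) => {v | ∃ 𝔖 : PvwSt (pvcwT Y), PvsmAt N p Y (col b) 𝔖 ∧ v ∈ M \ pvsmP 𝔖.fzOut})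
      (cfSites η) (pvcwCol _ (cfCol η)) := by
    intro η
    ext v
    constructor
    · rintro ⟨hv, 𝔖, h1, h2⟩
      exact ⟨𝔖, (pvsm_at_iff N b p η 𝔖).1 h1, hv, pvsm_notMem_P.1 h2⟩
    · rintro ⟨𝔖, h1, hv, h2⟩
      exact ⟨hv, 𝔖, (pvsm_at_iff N b p η 𝔖).2 h1, pvsm_notMem_P.2 h2⟩
  rw [e]
  exact pvcw_cfOf (fun (Y : Set ℂ) (col : Bool → ↥Y → Bool) => {v | ∃ 𝔖 : PvwSt (pvcwT Y), PvsmAt N p Y (col b) 𝔖 ∧ v ∈ M \ pvsmP 𝔖.fzOut}) Y σ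

/-- the fresh sites of the entrance mouth at a fixed geometry -/
theorem pvsm_FrI_cfOf (N : PvwNum) (b : Bool) (p : PviePl) (M : Set ℂ) (Y : Set ℂ) (σ : ℂ → Bool) :
    pvieFrI N b p M (cfOf Y σ) = {v | ∃ 𝔖 : PvwSt (pvcwT Y), PvsmAt N p Y (pvcwCol Y σ b) 𝔖 ∧ v ∈ M \ pvsmP 𝔖.fzIn} := by
  have e : ∀ η, pvieFrI N b p M η = (fun (Y : Set ℂ) (col : Bool → ↥Y → Bool) => {v | ∃ 𝔖 : PvwSt (pvcwT Y), PvsmAt N p Y (col b) 𝔖 ∧ v ∈ M \ pvsmP 𝔖.fzIn})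
      (cfSites η) (pvcwCol _ (cfCol η)) := by
    intro η
    ext v
    constructor
    · rintro ⟨hv, 𝔖, h1, h2⟩
      exact ⟨𝔖, (pvsm_at_iff N b p η 𝔖).1 h1, hv, pvsm_notMem_P.1 h2⟩
    · rintro ⟨𝔖, h1, hv, h2⟩
      exact ⟨hv, 𝔖, (pvsm_at_iff N b p η 𝔖).2 h1, pvsm_notMem_P.2 h2⟩
  rw [e]
  exact pvcw_cfOf (fun (Y : Set ℂ) (col : Bool → ↥Y → Bool) => {v | ∃ 𝔖 : PvwSt (pvcwT Y), PvsmAt N p Y (col b) 𝔖 ∧ v ∈ M \ pvsmP 𝔖.fzIn}) Y σ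

/-- **STOP AT THE MODEL, FULL STATE, BOTH MOUTHS**, state-relative form: `fzOut` misses the entrance mouth `Mi`, `fzIn` misses the exit mouth `Mo`, for every state of the placed plug.      Witness = the frozen sites of the full state. -/
theorem pvsm_stop_full' (N : PvwNum) (b : Bool) (p : PviePl) {Mi Mo : Set ℂ}
    (hi : ∀ (Y : Set ℂ) (s : ↥Y → Bool) (𝔖 : PvwSt (pvcwT Y)), PvsmAt N p Y s 𝔖 → ∀ v ∈ 𝔖.fzOut, v.1 ∉ Mi)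
    (ho : ∀ (Y : Set ℂ) (s : ↥Y → Bool) (𝔖 : PvwSt (pvcwT Y)), PvsmAt N p Y s 𝔖 → ∀ v ∈ 𝔖.fzIn, v.1 ∉ Mo) : PvdyStop fun η => pvieFrI N b p Mi η ∪ pvieFrO N b p Mo η := by
  refine pvsm_stop (Sg := fun Y => PvwSt (pvcwT Y)) (fun Y σ 𝔖 => PvsmAt N p Y (pvcwCol Y σ b) 𝔖) (fun Y 𝔖 => pvsmP 𝔖.fz)
    (fun Y 𝔖 => Mi \ pvsmP 𝔖.fzIn ∪ Mo \ pvsmP 𝔖.fzOut) ?_ ?_ ?_ ?_ ?_ ?_
  · intro Y σ
    show pvieFrI N b p Mi (cfOf Y σ) ∪ pvieFrO N b p Mo (cfOf Y σ) = _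
    rw [pvsm_FrI_cfOf, pvsm_FrO_cfOf]
    ext v
    constructor
    · rintro (⟨𝔖, h1, h2⟩ | ⟨𝔖, h1, h2⟩)
      · exact ⟨𝔖, h1, Or.inl h2⟩
      · exact ⟨𝔖, h1, Or.inr h2⟩
    · rintro ⟨𝔖, h1, h2 | h2⟩
      · exact Or.inl ⟨𝔖, h1, h2⟩
      · exact Or.inr ⟨𝔖, h1, h2⟩
  · intro Y σ 𝔖 h
    exact h.fin.image _
  · intro Y σ 𝔖 _
    exact pvsm_P_sub _
  · intro Y σ σ' 𝔖 h h'
    exact h.congr (pvsm_agree h' b)
  · intro Y σ 𝔖 𝔖' h h'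
    show Mi \ pvsmP 𝔖.fzIn ∪ Mo \ pvsmP 𝔖.fzOut = Mi \ pvsmP 𝔖'.fzIn ∪ Mo \ pvsmP 𝔖'.fzOut
    rw [(h.same h').fzIn, (h.same h').fzOut]
  · intro Y σ 𝔖 h
    refine Set.disjoint_left.2 ?_
    rintro _ ⟨v, hv, rfl⟩ (⟨h1, h2⟩ | ⟨h1, h2⟩)
    · rcases hv with hv | hv
      · exact hi Y _ 𝔖 h v hv h1
      · exact h2 ⟨v, hv, rfl⟩
    · rcases hv with hv | hv
      · exact h2 ⟨v, hv, rfl⟩
      · exact ho Y _ 𝔖 h v hv h1

/-- **STOP AT THE MODEL, FULL STATE, BOTH MOUTHS**: the fresh sites of an entrance mouth `Mi ⊆ closedBall y⁻ (2 ρ h)` and of an exit mouth `Mo ⊆ closedBall y⁺ (2 ρ h)` of ONE placed plug (`far_p`, `far_m` of `Tr/Defs` v3). -/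
theorem pvsm_stop_full (N : PvwNum) (b : Bool) (p : PviePl) {Mi Mo : Set ℂ} (hi : Mi ⊆ Metric.closedBall (p.ty.cm p.h p.z) (2 * N.rho * p.h))
    (ho : Mo ⊆ Metric.closedBall (p.ty.cp p.h p.z) (2 * N.rho * p.h)) : PvdyStop fun η => pvieFrI N b p Mi η ∪ pvieFrO N b p Mo η := by
  refine pvsm_stop_full' N b p (fun Y s 𝔖 h v hv h1 => ?_) (fun Y s 𝔖 h v hv h1 => ?_)
  · have k1 := h.st.far_m v hv
    have k2 := hi h1
    rw [Metric.mem_closedBall, dist_eq_norm] at k2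
    exact absurd k2 (not_le.2 k1)
  · have k1 := h.st.far_p v hv
    have k2 := ho h1
    rw [Metric.mem_closedBall, dist_eq_norm] at k2
    exact absurd k2 (not_le.2 k1)

theorem pvsm_FrO_empty (N : PvwNum) (b : Bool) (p : PviePl) (η : Conf PvPt) : pvieFrO N b p ∅ η = ∅ := by
  ext v
  simp [pvieFrO]

theorem pvsm_FrI_empty (N : PvwNum) (b : Bool) (p : PviePl) (η : Conf PvPt) : pvieFrI N b p ∅ η = ∅ := by
  ext v
  simp [pvieFrI]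

/-- the exit mouth alone -/
theorem pvsm_stop_FrO (N : PvwNum) (b : Bool) (p : PviePl) {M : Set ℂ} (ho : M ⊆ Metric.closedBall (p.ty.cp p.h p.z) (2 * N.rho * p.h)) : PvdyStop (pvieFrO N b p M) := by
  have := pvsm_stop_full N b p (Mi := ∅) (empty_subset _) ho
  simpa only [pvsm_FrI_empty, empty_union] using this

/-- the entrance mouth alone -/
theorem pvsm_stop_FrI (N : PvwNum) (b : Bool) (p : PviePl) {M : Set ℂ} (hi : M ⊆ Metric.closedBall (p.ty.cm p.h p.z) (2 * N.rho * p.h)) : PvdyStop (pvieFrI N b p M) := by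
  have := pvsm_stop_full N b p (Mo := ∅) hi (empty_subset _)
  simpa only [pvsm_FrO_empty, union_empty] using this

/-! ## 4. HALF states (RULING 16 (2) of 234: the `Y` side reads half states only) -/

/-- the EXIT half state of a placed plug on (site set, colour view) -/
structure PvsmAtO (N : PvwNum) (p : PviePl) (Y : Set ℂ) (s : ↥Y → Bool) (𝔖 : PvwSt (pvcwT Y)) : Prop where
  good : DelGood Y
  st : 𝔖.AtOut (pvcwPos Y) N p.h p.z p.ty s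
  tip_p : pvcwPos Y ((pvcwT Y).src (𝔖.ep 𝔖.np)) ∈ p.cp
  mask_p : ∀ y : (pvcwT Y).Pth, PvwLE (pvcwT Y) (fun i => (pvcwT Y).src (𝔖.ep i)) 𝔖.np y → ∀ v ∈ y.verts, pvcwPos Y v ∈ p.Mp

/-- the ENTRANCE half state of a placed plug on (site set, colour view) -/
structure PvsmAtI (N : PvwNum) (p : PviePl) (Y : Set ℂ) (s : ↥Y → Bool) (𝔖 : PvwSt (pvcwT Y)) : Prop where
  good : DelGood Y
  st : 𝔖.AtIn (pvcwPos Y) N p.h p.z p.ty s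
  tip_m : pvcwPos Y ((pvcwT Y).src (𝔖.em 𝔖.nm)) ∈ p.cm
  mask_m : ∀ y : (pvcwT Y).Pth, PvwLE (pvcwT Y) (fun i => (pvcwT Y).src (𝔖.em i)) 𝔖.nm y → ∀ v ∈ y.verts, pvcwPos Y v ∈ p.Mm

/-- the sites of `M` which are fresh for the EXIT HALF state -/
def pvsmFrO (N : PvwNum) (b : Bool) (p : PviePl) (M : Set ℂ) (η : Conf PvPt) : Set ℂ :=
  {v | ∃ 𝔖 : PvwSt (pvcwT (cfSites η)), PvsmAtO N p (cfSites η) (pvcwCol (cfSites η) (cfCol η) b) 𝔖 ∧ v ∈ M \ pvsmP 𝔖.fzOut}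

/-- the sites of `M` which are fresh for the ENTRANCE HALF state -/
def pvsmFrI (N : PvwNum) (b : Bool) (p : PviePl) (M : Set ℂ) (η : Conf PvPt) : Set ℂ :=
  {v | ∃ 𝔖 : PvwSt (pvcwT (cfSites η)), PvsmAtI N p (cfSites η) (pvcwCol (cfSites η) (cfCol η) b) 𝔖 ∧ v ∈ M \ pvsmP 𝔖.fzIn}

theorem pvsm_eqns_cite : True := by
  have := @pvsmGd.eq_1; have := @pvsmP.eq_1; have := @pvsmFrO.eq_1; have := @pvsmFrI.eq_1
  trivial

/-- **STOP, EXIT HALF STATE**: ANY set `M` (no hypothesis: the witness is `fzOut`) -/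
theorem pvsm_stop_out (N : PvwNum) (b : Bool) (p : PviePl) (M : Set ℂ) : PvdyStop (pvsmFrO N b p M) := by
  refine pvsm_stop (Sg := fun Y => PvwSt (pvcwT Y)) (fun Y σ 𝔖 => PvsmAtO N p Y (pvcwCol Y σ b) 𝔖) (fun Y 𝔖 => pvsmP 𝔖.fzOut)
    (fun Y 𝔖 => M \ pvsmP 𝔖.fzOut) ?_ ?_ ?_ ?_ ?_ ?_
  · intro Y σ
    exact pvcw_cfOf (fun (Y : Set ℂ) (col : Bool → ↥Y → Bool) => {v | ∃ 𝔖 : PvwSt (pvcwT Y), PvsmAtO N p Y (col b) 𝔖 ∧ v ∈ M \ pvsmP 𝔖.fzOut}) Y σ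
  · intro Y σ 𝔖 h
    exact (pvwk_fzOut_finite 𝔖 h.st.gate.core_fin).image _
  · intro Y σ 𝔖 _
    exact pvsm_P_sub _
  · intro Y σ σ' 𝔖 h h'
    exact ⟨h.good, pvwk_atOut_congr (delb_plane_isSph h.good) h.st (pvsm_agree h' b), h.tip_p, h.mask_p⟩
  · intro Y σ 𝔖 𝔖' h h'
    obtain ⟨k1, k2⟩ := pvuq_del_out h.good h.st h'.st
    show M \ pvsmP 𝔖.fzOut = M \ pvsmP 𝔖'.fzOut
    have e : 𝔖.fzOut = 𝔖'.fzOut := k1.fzOut k2
    rw [e]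
  · intro Y σ 𝔖 _
    exact Set.disjoint_left.2 fun z hz hG => hG.2 hz

/-- **STOP, ENTRANCE HALF STATE** -/
theorem pvsm_stop_in (N : PvwNum) (b : Bool) (p : PviePl) (M : Set ℂ) : PvdyStop (pvsmFrI N b p M) := by
  refine pvsm_stop (Sg := fun Y => PvwSt (pvcwT Y)) (fun Y σ 𝔖 => PvsmAtI N p Y (pvcwCol Y σ b) 𝔖) (fun Y 𝔖 => pvsmP 𝔖.fzIn)
    (fun Y 𝔖 => M \ pvsmP 𝔖.fzIn) ?_ ?_ ?_ ?_ ?_ ?_
  · intro Y σ
    exact pvcw_cfOf (fun (Y : Set ℂ) (col : Bool → ↥Y → Bool) => {v | ∃ 𝔖 : PvwSt (pvcwT Y), PvsmAtI N p Y (col b) 𝔖 ∧ v ∈ M \ pvsmP 𝔖.fzIn}) Y σ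
  · intro Y σ 𝔖 h
    exact (pvwk_fzIn_finite 𝔖 h.st.gate.core_fin).image _
  · intro Y σ 𝔖 _
    exact pvsm_P_sub _
  · intro Y σ σ' 𝔖 h h'
    exact ⟨h.good, pvwk_atIn_congr (delb_plane_isSph h.good) h.st (pvsm_agree h' b), h.tip_m, h.mask_m⟩
  · intro Y σ 𝔖 𝔖' h h'
    obtain ⟨k1, k2⟩ := pvuq_del_in h.good h.st h'.st
    show M \ pvsmP 𝔖.fzIn = M \ pvsmP 𝔖'.fzIn
    have e : 𝔖.fzIn = 𝔖'.fzIn := k1.fzIn k2
    rw [e]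
  · intro Y σ 𝔖 _
    exact Set.disjoint_left.2 fun z hz hG => hG.2 hz

/-! ## 5. the union of the two half-state choices, GUARDED by the full state -/

theorem PvsmAt.out {N : PvwNum} {p : PviePl} {Y : Set ℂ} {s : ↥Y → Bool} {𝔖 : PvwSt (pvcwT Y)} (h : PvsmAt N p Y s 𝔖) : PvsmAtO N p Y s 𝔖 := ⟨h.good, h.st.out, h.tip_p, h.mask_p⟩

theorem PvsmAt.inn {N : PvwNum} {p : PviePl} {Y : Set ℂ} {s : ↥Y → Bool} {𝔖 : PvwSt (pvcwT Y)} (h : PvsmAt N p Y s 𝔖) : PvsmAtI N p Y s 𝔖 := ⟨h.good, h.st.inn, h.tip_m, h.mask_m⟩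

/-- where the full state exists the fresh sites for the exit half state are those of `pvieFrO` -/
theorem pvsm_FrO_of_full {N : PvwNum} {b : Bool} {p : PviePl} (M : Set ℂ) {η : Conf PvPt} (h : η ∈ pvieU N b p) : pvsmFrO N b p M η = pvieFrO N b p M η := by
  obtain ⟨𝔖, hS⟩ := h
  have hS' := (pvsm_at_iff N b p η 𝔖).1 hS
  ext v
  constructor
  · rintro ⟨𝔖', h1, hv, h2⟩
    obtain ⟨k1, k2⟩ := pvuq_del_out h1.good h1.st hS'.out.st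
    have e : 𝔖'.fzOut = PvwSt.fzOut (T := pvcwT (cfSites η)) 𝔖 := k1.fzOut k2
    rw [e] at h2
    exact ⟨hv, 𝔖, hS, pvsm_notMem_P.2 h2⟩
  · rintro ⟨hv, 𝔖', h1, h2⟩
    exact ⟨𝔖', ((pvsm_at_iff N b p η 𝔖').1 h1).out, hv, pvsm_notMem_P.1 h2⟩

theorem pvsm_FrI_of_full {N : PvwNum} {b : Bool} {p : PviePl} (M : Set ℂ) {η : Conf PvPt} (h : η ∈ pvieU N b p) : pvsmFrI N b p M η = pvieFrI N b p M η := by
  obtain ⟨𝔖, hS⟩ := h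
  have hS' := (pvsm_at_iff N b p η 𝔖).1 hS
  ext v
  constructor
  · rintro ⟨𝔖', h1, hv, h2⟩
    obtain ⟨k1, k2⟩ := pvuq_del_in h1.good h1.st hS'.inn.st
    have e : 𝔖'.fzIn = PvwSt.fzIn (T := pvcwT (cfSites η)) 𝔖 := k1.fzIn k2
    rw [e] at h2
    exact ⟨hv, 𝔖, hS, pvsm_notMem_P.2 h2⟩
  · rintro ⟨hv, 𝔖', h1, h2⟩
    exact ⟨𝔖', ((pvsm_at_iff N b p η 𝔖').1 h1).inn, hv, pvsm_notMem_P.1 h2⟩

theorem pvsm_FrO_notMem {N : PvwNum} {b : Bool} {p : PviePl} (M : Set ℂ) {η : Conf PvPt} (h : η ∉ pvieU N b p) : pvieFrO N b p M η = ∅ := by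
  ext v
  simp only [mem_empty_iff_false, iff_false]
  rintro ⟨-, 𝔖, h1, -⟩
  exact h ⟨𝔖, h1⟩

theorem pvsm_FrI_notMem {N : PvwNum} {b : Bool} {p : PviePl} (M : Set ℂ) {η : Conf PvPt} (h : η ∉ pvieU N b p) : pvieFrI N b p M η = ∅ := by
  ext v
  simp only [mem_empty_iff_false, iff_false]
  rintro ⟨-, 𝔖, h1, -⟩
  exact h ⟨𝔖, h1⟩

/-- the guarded union of the half-state choices IS the union of the full-state choices -/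
theorem pvsm_gd_eq (N : PvwNum) (b : Bool) (p : PviePl) (Mi Mo : Set ℂ) :
    pvsmGd (pvieU N b p) (fun η => pvsmFrI N b p Mi η ∪ pvsmFrO N b p Mo η) = fun η => pvieFrI N b p Mi η ∪ pvieFrO N b p Mo η := by
  funext η
  by_cases h : η ∈ pvieU N b p
  · rw [pvsm_gd_mem h]
    show pvsmFrI N b p Mi η ∪ pvsmFrO N b p Mo η = _
    rw [pvsm_FrI_of_full Mi h, pvsm_FrO_of_full Mo h]
  · rw [pvsm_gd_notMem h, pvsm_FrI_notMem Mi h, pvsm_FrO_notMem Mo h, union_empty]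

/-- **STOP, THE TWO HALF-STATE CHOICES OF ONE PLUG, GUARDED BY THE FULL STATE**      (the unguarded union is NOT a stopping choice: a recolouring of the fresh sites of one mouth can create the other half state) -/
theorem pvsm_stop_gd (N : PvwNum) (b : Bool) (p : PviePl) {Mi Mo : Set ℂ} (hi : Mi ⊆ Metric.closedBall (p.ty.cm p.h p.z) (2 * N.rho * p.h))
    (ho : Mo ⊆ Metric.closedBall (p.ty.cp p.h p.z) (2 * N.rho * p.h)) : PvdyStop (pvsmGd (pvieU N b p) fun η => pvsmFrI N b p Mi η ∪ pvsmFrO N b p Mo η) := by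
  rw [pvsm_gd_eq]
  exact pvsm_stop_full N b p hi ho

/-! ## 6. BASE INDEXED FORM (leaf (K1) of 7, `Exit/Thick`: `stop`) -/

/-- **THE FROZEN POSITIONS OF THE FULL STATE** of the placed plug;   `univ` when there is no state (so that `M \ F0 = ∅`: the guard is built in) -/
def pvsmF0 (N : PvwNum) (b : Bool) (p : PviePl) (η : Conf PvPt) : Set ℂ := {v | ∀ 𝔖 : PvwSt (pvieT η), PvieAt N b p η 𝔖 → v ∈ pvsmP (Y := cfSites η) 𝔖.fz}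

theorem pvsm_eqns_cite6 : True := by
  have := @pvsmF0.eq_1
  trivial

theorem pvsm_F0_notMem {N : PvwNum} {b : Bool} {p : PviePl} {η : Conf PvPt} (h : η ∉ pvieU N b p) : pvsmF0 N b p η = univ := by
  ext v
  simp only [mem_univ, iff_true]
  exact fun 𝔖 h1 => absurd ⟨𝔖, h1⟩ h

theorem pvsm_F0_of {N : PvwNum} {b : Bool} {p : PviePl} {η : Conf PvPt} {𝔖 : PvwSt (pvieT η)} (h : PvieAt N b p η 𝔖) : pvsmF0 N b p η = pvsmP (Y := cfSites η) 𝔖.fz := by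
  ext v
  constructor
  · exact fun hv => hv 𝔖 h
  · intro hv 𝔖' h'
    have e : PvwSt.fz (T := pvcwT (cfSites η)) 𝔖' = PvwSt.fz (T := pvcwT (cfSites η)) 𝔖 := by
      have k := ((pvsm_at_iff N b p η 𝔖').1 h').same ((pvsm_at_iff N b p η 𝔖).1 h)
      show PvwSt.fzOut (T := pvcwT (cfSites η)) 𝔖' ∪ PvwSt.fzIn (T := pvcwT (cfSites η)) 𝔖' = PvwSt.fzOut (T := pvcwT (cfSites η)) 𝔖 ∪ PvwSt.fzIn (T := pvcwT (cfSites η)) 𝔖
      rw [k.fzOut, k.fzIn]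
    show v ∈ pvsmP (Y := cfSites η) (PvwSt.fz (T := pvcwT (cfSites η)) 𝔖')
    rw [e]
    exact hv

/-- the frozen positions at a fixed geometry -/
theorem pvsm_F0_cfOf (N : PvwNum) (b : Bool) (p : PviePl) (Y : Set ℂ) (σ : ℂ → Bool) :
    pvsmF0 N b p (cfOf Y σ) = {v | ∀ 𝔖 : PvwSt (pvcwT Y), PvsmAt N p Y (pvcwCol Y σ b) 𝔖 → v ∈ pvsmP 𝔖.fz} := by
  have e : ∀ η, pvsmF0 N b p η = (fun (Y : Set ℂ) (col : Bool → ↥Y → Bool) => {v | ∀ 𝔖 : PvwSt (pvcwT Y), PvsmAt N p Y (col b) 𝔖 → v ∈ pvsmP 𝔖.fz})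
      (cfSites η) (pvcwCol _ (cfCol η)) := by
    intro η
    ext v
    constructor
    · exact fun hv 𝔖 h1 => hv 𝔖 ((pvsm_at_iff N b p η 𝔖).2 h1)
    · exact fun hv 𝔖 h1 => hv 𝔖 ((pvsm_at_iff N b p η 𝔖).1 h1)
  rw [e]
  exact pvcw_cfOf (fun (Y : Set ℂ) (col : Bool → ↥Y → Bool) => {v | ∀ 𝔖 : PvwSt (pvcwT Y), PvsmAt N p Y (col b) 𝔖 → v ∈ pvsmP 𝔖.fz}) Y σ

/-- **STOP, A CHOICE WHICH IS A FUNCTION OF THE FROZEN POSITIONS OF THE FULL STATE**: `g F` misses `F`, `g univ = ∅` -/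
theorem pvsm_stop_fun (N : PvwNum) (b : Bool) (p : PviePl) (g : Set ℂ → Set ℂ) (hg : ∀ F, Disjoint F (g F)) : PvdyStop fun η => g (pvsmF0 N b p η) := by
  have g0 : g univ = ∅ := by
    have := hg univ
    rwa [univ_disjoint] at this
  refine pvsm_stop (Sg := fun Y => PvwSt (pvcwT Y)) (fun Y σ 𝔖 => PvsmAt N p Y (pvcwCol Y σ b) 𝔖) (fun Y 𝔖 => pvsmP 𝔖.fz) (fun Y 𝔖 => g (pvsmP 𝔖.fz)) ?_ ?_ ?_ ?_ ?_ ?_
  · intro Y σ
    show g (pvsmF0 N b p (cfOf Y σ)) = _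
    rw [pvsm_F0_cfOf]
    by_cases hex : ∃ 𝔖 : PvwSt (pvcwT Y), PvsmAt N p Y (pvcwCol Y σ b) 𝔖
    · obtain ⟨𝔖, hS⟩ := hex
      have e : ∀ 𝔖' : PvwSt (pvcwT Y), PvsmAt N p Y (pvcwCol Y σ b) 𝔖' → 𝔖'.fz = 𝔖.fz := by
        intro 𝔖' h'
        show 𝔖'.fzOut ∪ 𝔖'.fzIn = 𝔖.fzOut ∪ 𝔖.fzIn
        rw [(h'.same hS).fzOut, (h'.same hS).fzIn]
      have e1 : {v | ∀ 𝔖 : PvwSt (pvcwT Y), PvsmAt N p Y (pvcwCol Y σ b) 𝔖 → v ∈ pvsmP 𝔖.fz} = pvsmP 𝔖.fz := by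
        ext v
        constructor
        · exact fun hv => hv 𝔖 hS
        · intro hv 𝔖' h'
          rw [e 𝔖' h']; exact hv
      rw [e1]
      ext v
      constructor
      · exact fun hv => ⟨𝔖, hS, hv⟩
      · rintro ⟨𝔖', h', hv⟩
        rw [e 𝔖' h'] at hv; exact hv
    · have e1 : {v | ∀ 𝔖 : PvwSt (pvcwT Y), PvsmAt N p Y (pvcwCol Y σ b) 𝔖 → v ∈ pvsmP 𝔖.fz} = univ := by
        ext v
        simp only [mem_univ, iff_true]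
        exact fun 𝔖 h1 => absurd ⟨𝔖, h1⟩ hex
      rw [e1, g0]
      ext v
      simp only [mem_empty_iff_false, false_iff]
      rintro ⟨𝔖, h1, -⟩
      exact hex ⟨𝔖, h1⟩
  · intro Y σ 𝔖 h
    exact h.fin.image _
  · intro Y σ 𝔖 _
    exact pvsm_P_sub _
  · intro Y σ σ' 𝔖 h h'
    exact h.congr (pvsm_agree h' b)
  · intro Y σ 𝔖 𝔖' h h'
    show g (pvsmP (𝔖.fzOut ∪ 𝔖.fzIn)) = g (pvsmP (𝔖'.fzOut ∪ 𝔖'.fzIn))
    rw [(h.same h').fzIn, (h.same h').fzOut]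
  · intro Y σ 𝔖 _
    exact hg _

/-- **STOP, `M` MINUS THE FROZEN POSITIONS OF THE FULL STATE**: ANY set `M` (no `far` hypothesis, the guard is built in) -/
theorem pvsm_stop_F0 (N : PvwNum) (b : Bool) (p : PviePl) (M : Set ℂ) : PvdyStop fun η => M \ pvsmF0 N b p η :=
  pvsm_stop_fun N b p (fun F => M \ F) fun _ => disjoint_sdiff_right

/-- **(K1) BASE INDEXED**: the base data `β η` know the frozen positions (`F`), the recoloured sites of the index `i` are `M` minus the frozen positions -/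
theorem pvsm_stop_base {ι : Type*} (N : PvwNum) (b : Bool) (p : PviePl) (M : Set ℂ) {β : Conf PvPt → ι} {y F : ι → Set ℂ} (hF : ∀ η, F (β η) = pvsmF0 N b p η)
    (hy : ∀ i, y i = M \ F i) : PvdyStop fun η => y (β η) := by
  have e : (fun η => y (β η)) = fun η => M \ pvsmF0 N b p η := by
    funext η
    rw [hy, hF]
  rw [e]
  exact pvsm_stop_F0 N b p M

/-- the leaf `stop` of `PvktDat.At` (103) / `PvekDat.At` (7) verbatim -/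
theorem PvdyStop.leaf {yf : Conf PvPt → Set ℂ} (h : PvdyStop yf) (ε : ℝ) : ∃ Ok : Set ℂ → Prop, (∀ᵐ ω ∂pvP ε, Ok (cfSites ω)) ∧ PvktStop Ok yf :=
  ⟨fun _ => True, Filter.Eventually.of_forall fun _ => trivial, h.kt⟩

end Claimed.Agent.R289
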