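import Claimed.Agent.R289.Tr.StrandD
import Claimed.Agent.R289.Tr.Close

/-!
# Row 289 (S0537, Cardy for Poisson-Voronoi), THE WALL, file Tr/LinkCat : THE LINK CALCULUS = LINKS CONCATENATE      (owner helper70; node `chain` named by helper37; prefix `pvlc_`, defs `Pvlc…`, `pvlc…`)

WHY.  `W_c η ≠ 0` says that every link of the chain `t → plug₁ → … → plug_k → s` succeeds.   (C2) (194, `Tr/C12`), field `dom` (37, `Tr/DomE`), the self cycle (48), the hexagon loop (244) want ONE strand `t → s`, ONE rim arc, and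
`Y = Σ (values of the links)`.      This file: model free, on `(T, s)`.

* `PvlcArc T s a b n y`      ARC: the strand from the position `a` reaches the position `b` for the FIRST time after `n` steps; `y` = last-exit decomposition (`PvwLE`) of its black bank
* sec.1  tools: `pvlc_le_path_congr` (`PvwLE` reads `y.n`, `y.v`), `pvlc_no_return`, `pvlc_inj` (an arc is shorter than a period), `pvlc_exists` (every first hit has its arc), `pvlc_gfaced`
* sec.2  **COMPOSITION** `pvlc_comp`: arc `a → b`, arc `b → c`, `c` not hit before `b`, THE TWO RIM ARCS MEET AT THEIR JUNCTION ONLY (`y.App z`: nothing is asked of the erased loops)  ⟹  `PvlcArc T s a c (n + m) (y.app z _)`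
         (proof: both sides are `GFaced` paths with the same ends: `pvt_c_unique` of 202)
* sec.3  **CHAINS** `PvlcChain`, `pvlc_chain`: the same for `K` consecutive arcs; `pvlc_chain_sum`: `∑ f (x.e k) = ∑_j ∑ f ((y j).e k)` for EVERY `f : D → ℂ` (masses, masks, `psum`)
* sec.4  **SUB-ARCS** `pvlc_sub`: a dart of the rim arc of a long strand whose bank time falls in a sub-strand is a dart of the rim arc of the sub-strand (canonical form of 64);   `pvlc_sub_verts`
* sec.5  **REVERSAL** `pvlc_rev`: the last-exit decomposition of the bank read BACKWARDS is the reversed rim arc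
-/

set_option autoImplicit false

namespace Claimed.Agent.R289

open Relation

variable {V D : Type} {T : PvMap V D} {s : V → Bool}

/-! ## 0. definitions -/

/-- **ARC**: the strand from `a` reaches `b` for the first time after `n` steps, `y` = the rim arc carried by its black bank -/
structure PvlcArc (T : PvMap V D) (s : V → Bool) (a b : D) (n : ℕ) (y : T.Pth) : Prop where
  bw : pvasBW T s a
  hit : pvasIt T s a n = b
  first : ∀ i, i < n → pvasIt T s a i ≠ b
  le : PvwLE T (fun i => T.src (pvasIt T s a i)) n y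

/-! ## 1. tools -/

/-- `PvwLE` reads the length and the vertices of the path only -/
theorem pvlc_le_path_congr {b : ℕ → V} {n : ℕ} {y y' : T.Pth} (hn : y.n = y'.n) (hv : ∀ k, k ≤ y.n → y.v k = y'.v k) (h : PvwLE T b n y) : PvwLE T b n y' := by
  obtain ⟨j, h0, hjn, h1, h2⟩ := h
  refine ⟨j, by rw [← hv 0 (Nat.zero_le _)]; exact h0, by rw [← hn]; exact hjn, fun k hk => ?_, fun k hk => ?_⟩
  · rw [← hn] at hk
    rw [← hv k hk]
    exact h1 k hk
  · rw [← hn] at hk
    rw [← hv (k + 1) hk]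
    exact h2 k hk

/-- two paths with the same first vertex and the same darts have the same vertices -/
theorem pvlc_verts_of_darts {y y' : T.Pth} (hn : y.n = y'.n) (h0 : y.v 0 = y'.v 0) (he : ∀ k, k < y.n → y.e k = y'.e k) : ∀ k, k ≤ y.n → y.v k = y'.v k := by
  intro k hk
  rcases Nat.eq_zero_or_pos k with rfl | hk0
  · exact h0
  · obtain ⟨l, rfl⟩ : ∃ l, k = l + 1 := ⟨k - 1, by omega⟩
    rw [← y.tgt_e l (by omega), ← y'.tgt_e l (by omega), he l (by omega)]

/-- before its first hit of `b` the strand does not come back to its first position -/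
theorem pvlc_no_return {a b : D} {n : ℕ} (hit : pvasIt T s a n = b) (first : ∀ i, i < n → pvasIt T s a i ≠ b) : ∀ k, 0 < k → k ≤ n → pvasIt T s a k ≠ a := by
  intro k hk0 hkn e
  have h1 := pvas_it_add (T := T) s a k (n - k)
  rw [e, show k + (n - k) = n by omega, hit] at h1
  exact first (n - k) (by omega) h1.symm

theorem PvlcArc.inj {a b : D} {n : ℕ} {y : T.Pth} (h : PvlcArc T s a b n y) : ∀ i j, i < n → j < n → pvasIt T s a i = pvasIt T s a j → i = j :=
  pvt_sd_inj h.bw fun k hk0 hk => pvlc_no_return h.hit h.first k hk0 hk.le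

theorem PvlcArc.bw' {a b : D} {n : ℕ} {y : T.Pth} (h : PvlcArc T s a b n y) : pvasBW T s b := h.hit ▸ pvas_it_bw h.bw n

theorem PvlcArc.v0 {a b : D} {n : ℕ} {y : T.Pth} (h : PvlcArc T s a b n y) : y.v 0 = T.src a := pvt_sd_v0 h.le

theorem PvlcArc.vn {a b : D} {n : ℕ} {y : T.Pth} (h : PvlcArc T s a b n y) : y.v y.n = T.src b := by rw [pvt_sd_vn h.le, h.hit]

/-- every first hit has its arc -/
theorem pvlc_exists (hT : T.IsSph) (hS : T.Simple) {a b : D} {n : ℕ} (ha : pvasBW T s a) (hit : pvasIt T s a n = b) (first : ∀ i, i < n → pvasIt T s a i ≠ b) :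
    ∃ y : T.Pth, PvlcArc T s a b n y := by
  classical
  exact ⟨_, ha, hit, first, pvt_sd_le hT hS ha (pvt_sd_inj ha fun k hk0 hk => pvlc_no_return hit first k hk0 hk.le)⟩

/-- the arc is unique -/
theorem PvlcArc.unique (hS : T.Simple) {a b : D} {n n' : ℕ} {y y' : T.Pth} (h : PvlcArc T s a b n y) (h' : PvlcArc T s a b n' y') :
    n = n' ∧ y.n = y'.n ∧ (∀ k, k ≤ y.n → y.v k = y'.v k) ∧ ∀ k, k < y.n → y.e k = y'.e k := by
  have e : n = n' := by
    rcases lt_trichotomy n n' with hlt | he | hlt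
    · exact absurd h.hit (h'.first n hlt)
    · exact he
    · exact absurd h'.hit (h.first n' hlt)
  subst e
  exact ⟨rfl, pvt_sd_unique hS h.le h'.le⟩

/-- change of anchor -/
theorem pvlc_gfaced_anchor {p : T.Pth} {ρ ρ' : V} (h : p.GFaced s ρ) (hρ : T.Mono s ρ ρ') : p.GFaced s ρ' :=
  ⟨fun i hi => by rw [← pvt_c_mono_col hρ]; exact h.1 i hi, fun i hi => (h.2 i hi).trans hρ⟩

/-- the white ends of the positions of a strand are `Mono`-joined -/
theorem pvlc_white_mono {a : D} (ha : pvasBW T s a) (n : ℕ) : T.Mono s (T.tgt a) (T.tgt (pvasIt T s a n)) := by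
  refine pvt_c_join_mono (r := false) (pvt_c_join_mono_set (le_refl _) ?_ (pvas_layW_join s a (le_refl n)))
  intro v hv
  exact pvas_layW_white ha hv

/-- the rim arc of an arc is globally faced, the anchor is the white end of ANY position of the strand -/
theorem PvlcArc.gfaced (hS : T.Simple) {a b : D} {n : ℕ} {y : T.Pth} (h : PvlcArc T s a b n y) : y.GFaced s (T.tgt a) := pvt_sd_gfaced hS h.bw h.le

/-! ## 2. composition -/

/-- **COMPOSITION OF TWO ARCS**.      Only the two RIM ARCS are asked to meet at their junction only (`y.App z`); nothing is asked of the erased loops of the banks. -/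
theorem pvlc_comp (hT : T.IsSph) (hS : T.Simple) {a b c : D} {n m : ℕ} {y z : T.Pth} (h1 : PvlcArc T s a b n y) (h2 : PvlcArc T s b c m z)
    (hc : ∀ i, i < n → pvasIt T s a i ≠ c) (hA : y.App z) : PvlcArc T s a c (n + m) (y.app z hA) := by
  have hit : pvasIt T s a (n + m) = c := by rw [pvas_it_add, h1.hit, h2.hit]
  have first : ∀ i, i < n + m → pvasIt T s a i ≠ c := by
    intro i hi
    rcases Nat.lt_or_ge i n with h | h
    · exact hc i h
    · obtain ⟨r, rfl⟩ := Nat.exists_eq_add_of_le h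
      rw [pvas_it_add, h1.hit]
      exact h2.first r (by omega)
  obtain ⟨x, hx⟩ := pvlc_exists hT hS h1.bw hit first
  have g1 : y.GFaced s (T.tgt a) := h1.gfaced hS
  have g2 : z.GFaced s (T.tgt a) := by
    refine pvlc_gfaced_anchor (h2.gfaced hS) (pvt_c_mono_symm ?_)
    have := pvlc_white_mono h1.bw n
    rwa [h1.hit] at this
  have g3 := pvt_c_app_gfaced y z hA g1 g2
  have e0 : x.v 0 = (y.app z hA).v 0 := by rw [hx.v0, pvt_c_app_v0, h1.v0]
  have e1 : x.v x.n = (y.app z hA).v (y.app z hA).n := by rw [hx.vn, pvt_c_app_vn, h2.vn]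
  obtain ⟨hn, he⟩ := pvt_c_unique hT hS s _ x _ (hx.gfaced hS) g3 e0 e1
  exact ⟨h1.bw, hit, first, pvlc_le_path_congr hn (pvlc_verts_of_darts hn e0 he) hx.le⟩

/-! ## 3. chains -/

/-- the sum of a function of the darts over a concatenation -/
theorem pvlc_app_sum (p q : T.Pth) (h : p.App q) (f : D → ℂ) :
    ∑ k ∈ Finset.range (p.app q h).n, f ((p.app q h).e k) = ∑ k ∈ Finset.range p.n, f (p.e k) + ∑ k ∈ Finset.range q.n, f (q.e k) := by
  rw [pvt_c_app_n, Finset.sum_range_add]
  congr 1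
  · exact Finset.sum_congr rfl fun i hi => by rw [pvt_c_app_e1 p q h (Finset.mem_range.1 hi)]
  · exact Finset.sum_congr rfl fun i _ => by rw [pvt_c_app_e2 p q h i]

/-- **A CHAIN OF `K` CONSECUTIVE ARCS** `a 0 → a 1 → … → a K`: the last position is not hit before the last arc; two of the rim arcs meet only if they are consecutive, at their junction -/
structure PvlcChain (T : PvMap V D) (s : V → Bool) (K : ℕ) (a : ℕ → D) (n : ℕ → ℕ) (y : ℕ → T.Pth) : Prop where
  arc : ∀ j, j < K → PvlcArc T s (a j) (a (j + 1)) (n j) (y j)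
  first : ∀ j, j + 1 < K → ∀ i, i < n j → pvasIt T s (a j) i ≠ a K
  dis : ∀ i j, i < j → j < K → ∀ k l, k ≤ (y i).n → l ≤ (y j).n → (y i).v k = (y j).v l → j = i + 1 ∧ k = (y i).n ∧ l = 0

/-- the chain without its first arc -/
theorem PvlcChain.tail {K : ℕ} {a : ℕ → D} {n : ℕ → ℕ} {y : ℕ → T.Pth} (h : PvlcChain T s (K + 1) a n y) :
    PvlcChain T s K (fun j => a (j + 1)) (fun j => n (j + 1)) (fun j => y (j + 1)) where
  arc j hj := h.arc (j + 1) (by omega)
  first j hj := h.first (j + 1) (by omega)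
  dis i j hij hj k l hk hl e := by
    obtain ⟨e1, e2, e3⟩ := h.dis (i + 1) (j + 1) (by omega) (by omega) k l hk hl e
    exact ⟨by omega, e2, e3⟩

/-- **A CHAIN OF ARCS IS AN ARC**: one strand, first hit, ONE rim arc `x`; its vertices are those of the pieces, and every sum over its darts is the sum over the pieces -/
theorem pvlc_chain (hT : T.IsSph) (hS : T.Simple) : ∀ (K : ℕ) (a : ℕ → D) (n : ℕ → ℕ) (y : ℕ → T.Pth), PvlcChain T s (K + 1) a n y →
    ∃ x : T.Pth, PvlcArc T s (a 0) (a (K + 1)) (∑ j ∈ Finset.range (K + 1), n j) x ∧ (∀ v, v ∈ x.verts ↔ ∃ j, j < K + 1 ∧ v ∈ (y j).verts) ∧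
      ∀ f : D → ℂ, ∑ k ∈ Finset.range x.n, f (x.e k) = ∑ j ∈ Finset.range (K + 1), ∑ k ∈ Finset.range (y j).n, f ((y j).e k) := by
  intro K
  induction K with
  | zero =>
    intro a n y h
    refine ⟨y 0, by simpa using h.arc 0 (by omega), fun v => ⟨fun hv => ⟨0, by omega, hv⟩, ?_⟩, fun f => by simp⟩
    rintro ⟨j, hj, hv⟩
    have : j = 0 := by omega
    subst this
    exact hv
  | succ K ih =>
    intro a n y h
    obtain ⟨x, hx, hxv, hxs⟩ := ih _ _ _ h.tail
    have h0 := h.arc 0 (by omega)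
    have hA : (y 0).App x := by
      refine ⟨by rw [h0.vn, hx.v0], fun i j hi hj e => ?_⟩
      obtain ⟨j', hj', l, hl, el⟩ := (hxv (x.v j)).1 ⟨j, hj, rfl⟩
      obtain ⟨e1, e2, e3⟩ := h.dis 0 (j' + 1) (by omega) (by omega) i l hi hl (by rw [e, el])
      refine ⟨e2, ?_⟩
      have e4 : j' = 0 := by omega
      subst e4 e3
      refine x.inj _ _ hj (Nat.zero_le _) ?_
      rw [← el, hx.v0, (h.arc 1 (by omega)).v0]
    refine ⟨(y 0).app x hA, ?_, fun v => ?_, fun f => ?_⟩
    · have := pvlc_comp hT hS h0 hx (h.first 0 (by omega)) hA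
      rwa [show n 0 + ∑ j ∈ Finset.range (K + 1), n (j + 1) = ∑ j ∈ Finset.range (K + 1 + 1), n j by rw [Finset.sum_range_succ' _ (K + 1)]; ring] at this
    · rw [pvt_c_app_verts]
      constructor
      · rintro (hv | hv)
        · exact ⟨0, by omega, hv⟩
        · obtain ⟨j, hj, hv'⟩ := (hxv v).1 hv
          exact ⟨j + 1, by omega, hv'⟩
      · rintro ⟨j, hj, hv⟩
        rcases Nat.eq_zero_or_pos j with rfl | hj0
        · exact Or.inl hv
        · obtain ⟨j', rfl⟩ : ∃ j', j = j' + 1 := ⟨j - 1, by omega⟩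
          exact Or.inr ((hxv v).2 ⟨j', by omega, hv⟩)
    · rw [pvlc_app_sum, hxs f, Finset.sum_range_succ' _ (K + 1)]
      ring

/-- the positions of a chain -/
theorem PvlcChain.it {K : ℕ} {a : ℕ → D} {n : ℕ → ℕ} {y : ℕ → T.Pth} (h : PvlcChain T s K a n y) : ∀ j, j ≤ K → ∀ i, pvasIt T s (a 0) (∑ l ∈ Finset.range j, n l + i) = pvasIt T s (a j) i := by
  intro j
  induction j with
  | zero => intro _ i; simp
  | succ j ih =>
    intro hj i
    rw [Finset.sum_range_succ, add_assoc, ih (by omega), pvas_it_add, (h.arc j (by omega)).hit]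

/-- every time of a chain falls in one of its arcs -/
theorem pvlc_time_split (n : ℕ → ℕ) : ∀ (K t : ℕ), t < ∑ l ∈ Finset.range K, n l → ∃ j i, j < K ∧ i < n j ∧ t = ∑ l ∈ Finset.range j, n l + i := by
  intro K
  induction K with
  | zero => intro t ht; simp at ht
  | succ K ih =>
    intro t ht
    rcases Nat.lt_or_ge t (∑ l ∈ Finset.range K, n l) with h | h
    · obtain ⟨j, i, hj, hi, e⟩ := ih t h
      exact ⟨j, i, by omega, hi, e⟩
    · rw [Finset.sum_range_succ] at ht
      exact ⟨K, t - ∑ l ∈ Finset.range K, n l, by omega, by omega, by omega⟩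

/-! ## 4. sub-arcs -/

/-- **SUB-ARC**: a dart of the rim arc of a strand whose bank time falls in the sub-strand `[t, t + r)` is a dart of the rim arc of the sub-strand      (canonical form of the loop erasure, 64) -/
theorem pvlc_sub (hT : T.IsSph) (hS : T.Simple) {a : D} (ha : pvasBW T s a) {n : ℕ} (hinj : ∀ i j, i < n → j < n → pvasIt T s a i = pvasIt T s a j → i = j)
    {y : T.Pth} (hy : PvwLE T (fun i => T.src (pvasIt T s a i)) n y) {t r : ℕ} (htr : t + r ≤ n) {z : T.Pth} (hz : PvwLE T (fun i => T.src (pvasIt T s (pvasIt T s a t) i)) r z)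
    {k : ℕ} (hk : k < y.n) {u : ℕ} (hu : u < r) (hb : s (T.apex (pvasIt T s a (t + u))) = true) (he : y.e k = T.rot (pvasIt T s a (t + u))) : ∃ l, l < z.n ∧ z.e l = y.e k := by
  classical
  have hat := pvas_it_bw ha t
  have hinj' : ∀ i j, i < r → j < r → pvasIt T s (pvasIt T s a t) i = pvasIt T s (pvasIt T s a t) j → i = j := by
    intro i j hi hj e
    rw [← pvas_it_add, ← pvas_it_add] at e
    have := hinj _ _ (by omega) (by omega) e
    omega
  obtain ⟨a1, -, a3⟩ := pvt_sd_eq hT hS ha hinj hy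
  obtain ⟨b1, -, b3⟩ := pvt_sd_eq hT hS hat hinj' hz
  have h1 : y.e k ∈ pvtLE T (pvtBank T s a n) := by
    rw [a3 k hk]
    exact pvt_sf_pth_e_mem _ _ (by rw [a1] at hk; exact hk)
  obtain ⟨d', hd1, hd2⟩ := pvt_s_kept hT hS (pvt_s_bank_walk a n) (fun g hg => pvt_s_bank_bk ha hg) (pvt_s_bank_nodup hinj) h1
  have h2 : y.e k ∈ pvtBank T s (pvasIt T s a t) r := pvt_s_bank_mem.2 ⟨u, hu, by rw [← pvas_it_add]; exact hb, by rw [← pvas_it_add]; exact he⟩
  have h3 : y.e k ∈ pvtLE T (pvtBank T s (pvasIt T s a t) r) :=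
    pvt_s_keep hT hS (pvt_s_bank_walk _ r) (fun g hg => pvt_s_bank_bk hat hg) h2 hd1 fun h => hd2 (pvt_sd_bank_sub a htr _ h)
  obtain ⟨l, hl, hl'⟩ := List.mem_iff_getElem.1 h3
  refine ⟨l, by rw [b1]; exact hl, ?_⟩
  rw [b3 l (by rw [b1]; exact hl), pvt_sf_arc_e, List.getD_eq_getElem _ _ hl, hl']

/-- **SUB-ARCS, vertices**: the strand is cut at the times `t₁ ≤ t₂`; a vertex of its rim arc is a vertex of the rim arc of the first piece, or the source of a position of the middle piece, or a vertex of the rim arc of the last piece -/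
theorem pvlc_sub_verts (hT : T.IsSph) (hS : T.Simple) {a : D} (ha : pvasBW T s a) {n : ℕ} (hinj : ∀ i j, i < n → j < n → pvasIt T s a i = pvasIt T s a j → i = j)
    {y : T.Pth} (hy : PvwLE T (fun i => T.src (pvasIt T s a i)) n y) {t₁ t₂ : ℕ} (h12 : t₁ ≤ t₂) (h2n : t₂ ≤ n)
    {z₁ : T.Pth} (hz₁ : PvwLE T (fun i => T.src (pvasIt T s a i)) t₁ z₁) {z₂ : T.Pth} (hz₂ : PvwLE T (fun i => T.src (pvasIt T s (pvasIt T s a t₂) i)) (n - t₂) z₂)
    {v : V} (hv : v ∈ y.verts) : v ∈ z₁.verts ∨ (∃ i, t₁ ≤ i ∧ i < t₂ ∧ T.src (pvasIt T s a i) = v) ∨ v ∈ z₂.verts := by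
  obtain ⟨k, hk, rfl⟩ := hv
  rcases Nat.lt_or_ge k y.n with hk' | hk'
  · obtain ⟨u, hu, hb, he⟩ := pvt_sd_time hS hy hk'
    have hsrc : y.v k = T.src (pvasIt T s a u) := by rw [← y.src_e k hk', he, T.src_rot]
    rcases Nat.lt_or_ge u t₁ with h1 | h1
    · left
      obtain ⟨l, hl, e⟩ := pvlc_sub hT hS ha hinj hy (t := 0) (r := t₁) (by omega) (z := z₁) hz₁ hk' (u := u) h1 (by rwa [Nat.zero_add]) (by rwa [Nat.zero_add])
      exact ⟨l, hl.le, by rw [← z₁.src_e l hl, e, y.src_e k hk']⟩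
    · rcases Nat.lt_or_ge u t₂ with h2 | h2
      · exact Or.inr (Or.inl ⟨u, h1, h2, hsrc.symm⟩)
      · right; right
        obtain ⟨w, rfl⟩ := Nat.exists_eq_add_of_le h2
        obtain ⟨l, hl, e⟩ := pvlc_sub hT hS ha hinj hy (t := t₂) (r := n - t₂) (by omega) hz₂ hk' (u := w) (by omega) hb he
        exact ⟨l, hl.le, by rw [← z₂.src_e l hl, e, y.src_e k hk']⟩
  · right; right
    have e : k = y.n := by omega
    subst e
    refine ⟨z₂.n, le_rfl, ?_⟩
    rw [pvt_sd_vn hz₂, pvt_sd_vn hy, ← pvas_it_add]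
    congr 2
    omega

/-! ## 5. reversal -/

/-- **REVERSAL**: the last-exit decomposition of the black bank read BACKWARDS is the reversed rim arc -/
theorem pvlc_rev (hT : T.IsSph) (hS : T.Simple) {a b : D} {n : ℕ} {y : T.Pth} (h : PvlcArc T s a b n y) {y' : T.Pth} (h' : PvwLE T (fun i => T.src (pvasIt T s a (n - i))) n y') :
    y'.n = y.n ∧ (∀ k, k ≤ y.n → y'.v k = y.v (y.n - k)) ∧ ∀ k, k < y.n → y'.e k = T.opp (y.e (y.n - 1 - k)) := by
  have ha := h.bw
  obtain ⟨j, h0, hjn, h1, h2⟩ := h'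
  have hg : y'.rev.GFaced s (T.tgt a) := by
    constructor
    · intro i hi
      have hi' : y'.n - i ≤ y'.n := by omega
      show s (y'.v (y'.n - i)) ≠ s (T.tgt a)
      rw [(h1 _ hi').2.1, (pvas_it_bw ha _).1, ha.2]
      exact Bool.false_ne_true.symm
    · intro i hi
      have hi1 : i < y'.n := hi
      set k := y'.n - 1 - i with hkdef
      have hk : k < y'.n := by omega
      have hlt : j k < n := pvt_sd_idx_lt (b := fun i => T.src (pvasIt T s a (n - i))) hjn h1 hk
      have e1 : y'.v k = T.src (pvasIt T s a (n - j k)) := (h1 k hk.le).2.1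
      have e2 : y'.v (k + 1) = T.src (pvasIt T s a (n - (j k + 1))) := h2 k hk
      obtain ⟨u, hu⟩ : ∃ u, u = n - (j k + 1) := ⟨_, rfl⟩
      have hu1 : n - j k = u + 1 := by omega
      rw [← hu] at e2
      rw [hu1, pvas_it_succ] at e1
      have hdart : T.opp (y'.e k) = T.rot (pvasIt T s a u) := by
        rcases pvas_step_ends s (pvasIt T s a u) with ⟨-, e, -⟩ | ⟨-, e, -⟩
        · apply hS
          · rw [T.src_opp', y'.tgt_e k hk, e2, T.src_rot]
          · rw [T.tgt_opp, y'.src_e k hk, e1, e, T.tgt_rot]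
        · exfalso
          have := y'.inj (k + 1) k hk hk.le (by rw [e1, e2, e])
          omega
      show T.Mono s (T.apex (T.opp (T.opp (y'.e (y'.n - 1 - i))))) (T.tgt a)
      rw [← hkdef, hdart, pvt_s_opp_rot, T.apex_nxt2]
      exact pvt_c_mono_symm (pvlc_white_mono ha u)
  have e0 : y'.rev.v 0 = y.v 0 := by
    show y'.v (y'.n - 0) = y.v 0
    rw [Nat.sub_zero, (h1 y'.n le_rfl).2.1, hjn, h.v0]
    show T.src (pvasIt T s a (n - n)) = T.src a
    rw [Nat.sub_self]
    rfl
  have e1 : y'.rev.v y'.rev.n = y.v y.n := by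
    show y'.v (y'.n - y'.n) = y.v y.n
    rw [Nat.sub_self, h0, h.vn]
    show T.src (pvasIt T s a (n - 0)) = T.src b
    rw [Nat.sub_zero, h.hit]
  obtain ⟨hn, he⟩ := pvt_c_unique hT hS s _ _ _ hg (h.gfaced hS) e0 e1
  have hn' : y'.n = y.n := hn
  have hv := pvlc_verts_of_darts hn e0 he
  refine ⟨hn', fun k hk => ?_, fun k hk => ?_⟩
  · have := hv (y.n - k) (by show y.n - k ≤ y'.n; omega)
    rw [← this]
    show y'.v k = y'.v (y'.n - (y.n - k))
    congr 1
    omega
  · have := he (y.n - 1 - k) (by show y.n - 1 - k < y'.n; omega)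
    rw [← this]
    show y'.e k = T.opp (T.opp (y'.e (y'.n - 1 - (y.n - 1 - k))))
    rw [T.opp_opp]
    congr 1
    omega

end Claimed.Agent.R289
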