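-- KEEP
import Claimed.Agent.R289.Tr.KitI
import Claimed.Agent.R289.Tr.LinkCat
import Claimed.Agent.R289.Tr.InstL
import Claimed.Agent.R289.Tr.AtUniq
import Claimed.Agent.R289.Tr.Ret
import Claimed.Agent.R289.S1.Closed

/-!
# Row 289 (S0537), THE WALL, ROAD E, file Tr/CycC2 : E26-DET = (C2) FOR THE SELF CYCLE (no `g₀`)      (helper48; post of 24 10:19Z, 234 10:52Z; prefix `pvcy2_`, `Pvcy2`, `pvcy2`)

WHAT.  All the links of the `Σ₁` cycle  `t -> door 0 -> cells of l1(t) -> door n -> reference plug u => t`  succeed  ⟹  the pieces close to ONE rim `P'` (one full label class), `∑ (values of the links) = Q_{P'}(1)`,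
`P'` lies in a bounded box and has diameter `≥ c`  ⟹  `‖∑_e X_e‖ₑ² ≤ pvclSum η B c` (104, I.TAIL `pvcl_closed`) = field `dom` of `Pvl3CycOk(F)` (129, `Tr/Top` sec. 5-6), `Θ := pvclSum · B c`, `mΘ := pvcl_sum_aem`.
CONSUMERS: 115 (`Exit/Cyc1`), 129 (`Tr/InstC`), 161, 180 102 (`Tr/CycD`), 58 7.      DETERMINISTIC, 0 probability.      Cores cited: `pvow_ring`, `pvow_le_onwall`, `pvow_ring_cyc` (194), dictionary `pvki_code_*` (244), `pvcl_le_sum` (104).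

* sec. 1  `Pvcy2Rg T s K a n y` : a CLOSED STRAND CUT INTO `K` PIECES (`It (a j) (n j) = a (j+1)`, `a K = a 0`), `y j` = `PvwLE` of the black bank of the piece `j`; ONLY THE HEADS OF THE RIM ARCS are asked to be pairwise different
          (nothing on the erased loops: weaker than `PvkiRg.dis`).      **`pvcy2_ring`** : `Tag`, the full label class, `lsum w = ∑_j psum_j w` for EVERY `w`;   **`pvcy2_ring_cyc`** : the rim as `c : T.Cyc`, `c.IsRim s`.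
* sec. 2  MASSES: `pvcy2_mass_univ _add _compl _congr`;   `pvcy2Val` (`= PvieLk.val = PvwDat.Yof` BY `rfl`: `pvcy2_val_lk`);   `Pvcy2Cut` = THE CUT-OFF FACTS (one line per piece);
          **`pvcy2_val_sum`** : `∑_j val (𝔖 j → 𝔖 (j+1)) = ∑_j (psum (inn j) + psum (y j))`  (`K = 1` = the self link allowed);   **`pvcy2_share`** : the same for ANY partition of the tags between the links (masks of the cells, cut-off balls, marks).
* sec. 2b **GENERAL FORM** (v2, defs of record `Tr/InstL` of 168): `pvcy2ValM` (`= PvilLk.val` BY `rfl`: `pvcy2_val_il`; a cell of 34 = the case `dr = dr' = true`), `Pvcy2Own` = EVERY TAG OF THE RING HAS EXACTLY ONE OWNER (doors: two masks; marked plugs: cut-off set + mark),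
          **`pvcy2_valM_sum`**, `pvcy2_valM_congr` (the value reads the gate parts `PvuqG` of 150 only: half states).
* sec. 2c `Pvcy2Rm` = MESH (barycentre of a tag within `μ` of the tail of its edge) + ROOMS (where the VERTICES of the pieces are) + GEOMETRY (deterministic inclusions: W-7 of 208), **`Pvcy2Rm.own`** : `Pvcy2Rm → Pvcy2Own`;   `pvcy2_bary_near` (sec. 4: `PvtrMesh ρ E` ⟹ `2ρ`).
* sec. 3  `Pvcy2Cyc T s K 𝔖 y` : `K` PLUGS IN CYCLIC ORDER + `K` LINKS ⟹ `Pvcy2Rg T s (2 K)` (`Pvcy2Cyc.toRg`);   **`pvcy2_close`**, **`pvcy2_closeM`** : `lsum w = ∑_j val_j`.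
* sec. 4  AT A CONFIGURATION `η` (`DelGood`), BOTH COLOURS (tags, labels, `lsum` do not see the exchange of the colours): **`pvcy2_tag`** (raw language of I.TAIL / I.BES: `pvbeTag pvclIn pvclBig`, `pvqSum w x = ∑ psum`, every `w`),
          **`pvcy2_le_sum`**, `pvcy2_cyc_le`, **`pvcy2_cyc_le_sum`** (= `dom` for a cycle of links in the form `PvieLk.val`), **`pvcy2_cycM_le_sum`** (the same for `PvilLk.val` + cells).
-/

set_option autoImplicit false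
set_option linter.unusedSectionVars false

namespace Claimed.Agent.R289

open Set
open scoped ENNReal

/-! ## 1. a closed strand cut into pieces -/

section ring

variable {V D : Type} {T : PvMap V D} {s : V → Bool}

/-- **A CLOSED STRAND CUT INTO `K` PIECES**, each with its rim arc -/
structure Pvcy2Rg (T : PvMap V D) (s : V → Bool) (K : ℕ) (a : ℕ → D) (n : ℕ → ℕ) (y : ℕ → T.Pth) : Prop where
  bw : pvasBW T s (a 0)
  hit : ∀ j, j < K → pvasIt T s (a j) (n j) = a (j + 1)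
  per : a K = a 0
  le : ∀ j, j < K → PvwLE T (fun i => T.src (pvasIt T s (a j) i)) (n j) (y j)
  dis : ∀ i j, i < j → j < K → ∀ k l, k < (y i).n → l < (y j).n → (y i).v (k + 1) ≠ (y j).v (l + 1)

variable {K : ℕ} {a : ℕ → D} {n : ℕ → ℕ} {y : ℕ → T.Pth}

theorem Pvcy2Rg.bw' (R : Pvcy2Rg T s K a n y) {j : ℕ} (hj : j ≤ K) : pvasBW T s (a j) := by
  induction j with
  | zero => exact R.bw
  | succ k ih => rw [← R.hit k (by omega)]; exact pvas_it_bw (ih (by omega)) _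

theorem Pvcy2Rg.wall (R : Pvcy2Rg T s K a n y) {j : ℕ} (hj : j ≤ K) : T.Wall s (a 0) (a j) := by
  induction j with
  | zero => exact Relation.ReflTransGen.refl
  | succ k ih =>
    rw [← R.hit k (by omega)]
    exact pl_ra_wall_trans (ih (by omega)) (pvt_s_it_wall (R.bw' (by omega)) _)

theorem Pvcy2Rg.v0 (R : Pvcy2Rg T s K a n y) {j : ℕ} (hj : j < K) : (y j).v 0 = T.src (a j) := pvt_sd_v0 (R.le j hj)

theorem Pvcy2Rg.vn (R : Pvcy2Rg T s K a n y) {j : ℕ} (hj : j < K) : (y j).v (y j).n = T.src (a (j + 1)) := by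
  rw [pvt_sd_vn (R.le j hj), R.hit j hj]

theorem Pvcy2Rg.onwall (R : Pvcy2Rg T s K a n y) (hS : T.Simple) {j : ℕ} (hj : j < K) : (y j).OnWall s (a 0) :=
  pvow_onwall_trans (pvow_le_onwall hS (R.bw' hj.le) (R.le j hj)) (R.wall hj.le)

theorem pvcy2_chain_aux (R : Pvcy2Rg T s K a n y) (m k : ℕ) (h : k + m ≤ K) : pvowChain T ((List.range' k m).map y) (T.src (a k)) (T.src (a (k + m))) := by
  induction m generalizing k with
  | zero => rfl
  | succ m ih =>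
    rw [List.range'_succ, List.map_cons]
    refine ⟨R.v0 (by omega), ?_⟩
    rw [R.vn (by omega)]
    have := ih (k + 1) (by omega)
    rwa [show k + 1 + m = k + (m + 1) by omega] at this

theorem Pvcy2Rg.chain (R : Pvcy2Rg T s K a n y) : pvowChain T ((List.range K).map y) (T.src (a 0)) (T.src (a 0)) := by
  have := pvcy2_chain_aux R K 0 (by omega)
  rw [Nat.zero_add, R.per, ← List.range_eq_range'] at this
  exact this

theorem Pvcy2Rg.nodup (R : Pvcy2Rg T s K a n y) : ((pvowDarts ((List.range K).map y)).map T.tgt).Nodup := by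
  refine pvow_nodup ?_
  rw [List.pairwise_map]
  have h : (List.range K).Pairwise (· < ·) := List.pairwise_lt_range
  refine List.Pairwise.imp_of_mem ?_ h
  intro i j _ hj hij
  exact R.dis i j hij (List.mem_range.1 hj)

theorem pvcy2_mem_darts {f : D} : f ∈ pvowDarts ((List.range K).map y) ↔ ∃ j, j < K ∧ ∃ k, k < (y j).n ∧ (y j).e k = f := by
  rw [pvow_mem_darts]
  constructor
  · rintro ⟨p, hp, k, hk, e⟩
    obtain ⟨j, hj, rfl⟩ := List.mem_map.1 hp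
    exact ⟨j, List.mem_range.1 hj, k, hk, e⟩
  · rintro ⟨j, hj, k, hk, e⟩
    exact ⟨y j, List.mem_map.2 ⟨j, List.mem_range.2 hj, rfl⟩, k, hk, e⟩

/-- **(C2) FOR A CLOSED STRAND**: ONE full label class -/
theorem pvcy2_ring (hT : T.IsSph) (hS : T.Simple) (R : Pvcy2Rg T s K a n y) {j₀ k₀ : ℕ} (hj : j₀ < K) (hk : k₀ < (y j₀).n) :
    T.Tag s (T.opp ((y j₀).e k₀)) ∧ (∀ d', T.SameLab s (T.opp ((y j₀).e k₀)) d' ↔ ∃ j, j < K ∧ ∃ k, k < (y j).n ∧ (y j).e k = T.opp d') ∧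
      ∀ w : D → ℂ, T.lsum s w (T.opp ((y j₀).e k₀)) = ∑ j ∈ Finset.range K, (y j).psum w := by
  have hw : ∀ p ∈ (List.range K).map y, p.OnWall s (a 0) := by
    intro p hp
    obtain ⟨j, hj, rfl⟩ := List.mem_map.1 hp
    exact R.onwall hS (List.mem_range.1 hj)
  obtain ⟨h1, h2, h3⟩ := pvow_ring hT hS R.chain R.nodup hw (pvcy2_mem_darts.2 ⟨j₀, hj, k₀, hk, rfl⟩)
  refine ⟨h1, fun d' => (h2 d').trans pvcy2_mem_darts, fun w => ?_⟩
  rw [h3, List.map_map, List.range_eq_range', pvow_range_sum]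
  rfl

/-- the ring as a rim of `Pl/Rim` -/
theorem pvcy2_ring_cyc (hT : T.IsSph) (hS : T.Simple) (R : Pvcy2Rg T s K a n y) (h3 : 3 ≤ ∑ j ∈ Finset.range K, (y j).n) :
    ∃ c : T.Cyc, c.IsRim s ∧ ∀ f, (∃ i, f = c.e i) ↔ ∃ j, j < K ∧ ∃ k, k < (y j).n ∧ (y j).e k = f := by
  have hw : ∀ p ∈ (List.range K).map y, p.OnWall s (a 0) := by
    intro p hp
    obtain ⟨j, hj, rfl⟩ := List.mem_map.1 hp
    exact R.onwall hS (List.mem_range.1 hj)
  have hlen : (pvowDarts ((List.range K).map y)).length = ∑ j ∈ Finset.range K, (y j).n := by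
    unfold pvowDarts
    rw [List.length_flatMap, List.map_map, List.range_eq_range', pvow_range_sum]
    exact Finset.sum_congr rfl fun j _ => pvow_lst_length _
  obtain ⟨c, h1, h2⟩ := pvow_ring_cyc hT R.chain R.nodup hw (by rw [hlen]; exact h3)
  exact ⟨c, h2, fun f => (h1 f).symm.trans pvcy2_mem_darts⟩

end ring

/-! ## 2. masses, values of the links -/

section mass

variable {V D : Type} {T : PvMap V D}

theorem pvcy2_mass_univ (pos : V → ℂ) (w : D → ℂ) (p : T.Pth) : pvwMass T pos w univ p 0 p.n = p.psum w := by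
  unfold pvwMass PvMap.Pth.psum
  rw [← Finset.range_eq_Ico]
  exact Finset.sum_congr rfl fun k _ => if_pos (mem_univ _)

theorem pvcy2_mass_add (pos : V → ℂ) (w : D → ℂ) (M : Set ℂ) (p : T.Pth) {i j k : ℕ} (hij : i ≤ j) (hjk : j ≤ k) :
    pvwMass T pos w M p i j + pvwMass T pos w M p j k = pvwMass T pos w M p i k := by
  unfold pvwMass
  exact Finset.sum_Ico_consecutive _ hij hjk

theorem pvcy2_mass_compl (pos : V → ℂ) (w : D → ℂ) (M : Set ℂ) (p : T.Pth) (i j : ℕ) :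
    pvwMass T pos w M p i j + pvwMass T pos w Mᶜ p i j = pvwMass T pos w univ p i j := by
  classical
  unfold pvwMass
  rw [← Finset.sum_add_distrib]
  refine Finset.sum_congr rfl fun k _ => ?_
  by_cases h : T.bary pos (T.opp (p.e k)) ∈ M
  · rw [if_pos h, if_neg (fun hc => hc h), if_pos (mem_univ _), add_zero]
  · rw [if_neg h, if_pos (show _ ∈ Mᶜ from h), if_pos (mem_univ _), zero_add]

theorem pvcy2_mass_congr (pos : V → ℂ) (w : D → ℂ) {M M' : Set ℂ} (p : T.Pth) {i j : ℕ}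
    (h : ∀ k, i ≤ k → k < j → (T.bary pos (T.opp (p.e k)) ∈ M ↔ T.bary pos (T.opp (p.e k)) ∈ M')) : pvwMass T pos w M p i j = pvwMass T pos w M' p i j := by
  classical
  unfold pvwMass
  refine Finset.sum_congr rfl fun k hk => ?_
  obtain ⟨h1, h2⟩ := Finset.mem_Ico.1 hk
  by_cases hm : T.bary pos (T.opp (p.e k)) ∈ M
  · rw [if_pos hm, if_pos ((h k h1 h2).1 hm)]
  · rw [if_neg hm, if_neg fun hc => hm ((h k h1 h2).2 hc)]

/-- **the value of a link** `𝔖 → 𝔖'` with the cut-off sets `B`, `B'`      (`= PvieLk.val`, `PvwDat.Yof`) -/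
noncomputable def pvcy2Val (T : PvMap V D) (pos : V → ℂ) (w : D → ℂ) (B B' : Set ℂ) (𝔖 𝔖' : PvwSt T) (y : T.Pth) : ℂ :=
  pvwMass T pos w B 𝔖.inn 0 𝔖.inn.n + pvwMass T pos w (B ∪ B')ᶜ 𝔖.inn 𝔖.ip 𝔖.inn.n + pvwMass T pos w (B ∪ B')ᶜ y 0 y.n + pvwMass T pos w (B ∪ B')ᶜ 𝔖'.inn 0 𝔖'.ip

/-- **THE CUT-OFF FACTS** of `K` plugs in cyclic order -/
structure Pvcy2Cut (T : PvMap V D) (pos : V → ℂ) (K : ℕ) (𝔖 : ℕ → PvwSt T) (y : ℕ → T.Pth) (B : ℕ → Set ℂ) : Prop where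
  perS : 𝔖 K = 𝔖 0
  perB : B K = B 0
  ip : ∀ j, j < K → (𝔖 j).ip ≤ (𝔖 j).inn.n
  y_off : ∀ j, j < K → ∀ k, k < (y j).n → T.bary pos (T.opp ((y j).e k)) ∉ B j ∪ B (j + 1)
  nxt : ∀ j, j < K → ∀ k, k < (𝔖 j).inn.n → T.bary pos (T.opp ((𝔖 j).inn.e k)) ∈ B (j + 1) → T.bary pos (T.opp ((𝔖 j).inn.e k)) ∈ B j
  prv : ∀ j, j < K → ∀ k, k < (𝔖 (j + 1)).inn.n → T.bary pos (T.opp ((𝔖 (j + 1)).inn.e k)) ∈ B j → T.bary pos (T.opp ((𝔖 (j + 1)).inn.e k)) ∈ B (j + 1)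

theorem pvcy2_sum_shift (F : ℕ → ℂ) (K : ℕ) (h : F K = F 0) : ∑ j ∈ Finset.range K, F (j + 1) = ∑ j ∈ Finset.range K, F j := by
  have h1 := Finset.sum_range_succ F K
  have h2 := Finset.sum_range_succ' F K
  rw [h1, h] at h2
  exact (add_right_cancel h2).symm

/-- **THE VALUES OF THE LINKS OF A CYCLE ADD UP TO THE WHOLE MASS OF THE PIECES** -/
theorem pvcy2_val_sum {pos : V → ℂ} {K : ℕ} {𝔖 : ℕ → PvwSt T} {y : ℕ → T.Pth} {B : ℕ → Set ℂ} (H : Pvcy2Cut T pos K 𝔖 y B) (w : D → ℂ) :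
    ∑ j ∈ Finset.range K, pvcy2Val T pos w (B j) (B (j + 1)) (𝔖 j) (𝔖 (j + 1)) (y j) = ∑ j ∈ Finset.range K, ((𝔖 j).inn.psum w + (y j).psum w) := by
  have e1 : ∀ j, j < K → pvwMass T pos w (B j ∪ B (j + 1))ᶜ (𝔖 j).inn (𝔖 j).ip (𝔖 j).inn.n = pvwMass T pos w (B j)ᶜ (𝔖 j).inn (𝔖 j).ip (𝔖 j).inn.n := by
    intro j hj
    refine pvcy2_mass_congr pos w _ fun k _ hk => ⟨fun h hc => h (Or.inl hc), fun h hc => ?_⟩
    rcases hc with hc | hc
    · exact h hc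
    · exact h (H.nxt j hj k hk hc)
  have e2 : ∀ j, j < K → pvwMass T pos w (B j ∪ B (j + 1))ᶜ (y j) 0 (y j).n = (y j).psum w := by
    intro j hj
    rw [← pvcy2_mass_univ pos]
    exact pvcy2_mass_congr pos w _ fun k _ hk => ⟨fun _ => mem_univ _, fun _ => H.y_off j hj k hk⟩
  have hip : ∀ j, j < K → (𝔖 (j + 1)).ip ≤ (𝔖 (j + 1)).inn.n := by
    intro j hj
    rcases Nat.lt_or_ge (j + 1) K with h | h
    · exact H.ip _ h
    · have : j + 1 = K := by omega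
      rw [this, H.perS]
      exact H.ip 0 (by omega)
  have e3 : ∀ j, j < K → pvwMass T pos w (B j ∪ B (j + 1))ᶜ (𝔖 (j + 1)).inn 0 (𝔖 (j + 1)).ip = pvwMass T pos w (B (j + 1))ᶜ (𝔖 (j + 1)).inn 0 (𝔖 (j + 1)).ip := by
    intro j hj
    refine pvcy2_mass_congr pos w _ fun k _ hk => ⟨fun h hc => h (Or.inr hc), fun h hc => ?_⟩
    rcases hc with hc | hc
    · exact h (H.prv j hj k (lt_of_lt_of_le hk (hip j hj)) hc)
    · exact h hc
  have e4 : ∑ j ∈ Finset.range K, pvwMass T pos w (B (j + 1))ᶜ (𝔖 (j + 1)).inn 0 (𝔖 (j + 1)).ip = ∑ j ∈ Finset.range K, pvwMass T pos w (B j)ᶜ (𝔖 j).inn 0 (𝔖 j).ip :=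
    pvcy2_sum_shift (fun j => pvwMass T pos w (B j)ᶜ (𝔖 j).inn 0 (𝔖 j).ip) K (by simp only [H.perS, H.perB])
  calc ∑ j ∈ Finset.range K, pvcy2Val T pos w (B j) (B (j + 1)) (𝔖 j) (𝔖 (j + 1)) (y j)
      = ∑ j ∈ Finset.range K, (pvwMass T pos w (B j) (𝔖 j).inn 0 (𝔖 j).inn.n + pvwMass T pos w (B j)ᶜ (𝔖 j).inn (𝔖 j).ip (𝔖 j).inn.n + (y j).psum w)
          + ∑ j ∈ Finset.range K, pvwMass T pos w (B (j + 1))ᶜ (𝔖 (j + 1)).inn 0 (𝔖 (j + 1)).ip := by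
        rw [← Finset.sum_add_distrib]
        refine Finset.sum_congr rfl fun j hj => ?_
        have hj' := Finset.mem_range.1 hj
        unfold pvcy2Val
        rw [e1 j hj', e2 j hj', e3 j hj']
    _ = ∑ j ∈ Finset.range K, ((𝔖 j).inn.psum w + (y j).psum w) := by
        rw [e4, ← Finset.sum_add_distrib]
        refine Finset.sum_congr rfl fun j hj => ?_
        have hj' := Finset.mem_range.1 hj
        rw [← pvcy2_mass_univ pos w (𝔖 j).inn, ← pvcy2_mass_compl pos w (B j) (𝔖 j).inn 0 (𝔖 j).inn.n,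
          ← pvcy2_mass_add pos w (B j)ᶜ (𝔖 j).inn (Nat.zero_le _) (H.ip j hj')]
        ring


/-- **ANY PARTITION OF THE TAGS BETWEEN THE LINKS**: the link `e` owns the edge `k` of the piece `j` iff `P e j k`; every edge has exactly one owner -/
theorem pvcy2_share {ι : Type} [Fintype ι] {K : ℕ} (y : ℕ → T.Pth) (w : D → ℂ) (P : ι → ℕ → ℕ → Prop) [∀ e j k, Decidable (P e j k)]
    (h : ∀ j, j < K → ∀ k, k < (y j).n → ∃ e, P e j k ∧ ∀ e', P e' j k → e' = e) :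
    ∑ e, ∑ j ∈ Finset.range K, ∑ k ∈ Finset.range (y j).n, (if P e j k then w (T.opp ((y j).e k)) else 0) = ∑ j ∈ Finset.range K, (y j).psum w := by
  classical
  rw [Finset.sum_comm]
  refine Finset.sum_congr rfl fun j hj => ?_
  rw [Finset.sum_comm]
  unfold PvMap.Pth.psum
  refine Finset.sum_congr rfl fun k hk => ?_
  obtain ⟨e, he, hu⟩ := h j (Finset.mem_range.1 hj) k (Finset.mem_range.1 hk)
  rw [Finset.sum_eq_single e (fun e' _ hne => if_neg fun hc => hne (hu e' hc)) (fun hc => absurd (Finset.mem_univ e) hc), if_pos he]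

theorem pvcy2_val_lk (L : PvieLk) (N : PvwNum) (η : Conf PvPt) (w : (delbPl (pvieY η)).Dart → ℂ) (𝔖 𝔖' : PvwSt (pvieT η)) (y : (pvieT η).Pth) :
    L.val N η w 𝔖 𝔖' y = pvcy2Val (pvieT η) (pviePos η) w (Metric.closedBall L.p.z (N.m * L.p.h)) (Metric.closedBall L.p'.z (N.m * L.p'.h)) 𝔖 𝔖' y := rfl

end mass

/-! ## 2b. general form: doors (masks) and marked plugs (cut-off sets) -/

section own

variable {V D : Type} {T : PvMap V D}

open Classical in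
theorem pvcy2_mass_range (pos : V → ℂ) (w : D → ℂ) (M : Set ℂ) (p : T.Pth) {i j n : ℕ} (hj : j ≤ n) :
    pvwMass T pos w M p i j = ∑ k ∈ Finset.range n, if i ≤ k ∧ k < j ∧ T.bary pos (T.opp (p.e k)) ∈ M then w (T.opp (p.e k)) else 0 := by
  unfold pvwMass
  have e : Finset.Ico i j = (Finset.range n).filter fun k => i ≤ k ∧ k < j := by
    ext k
    simp only [Finset.mem_Ico, Finset.mem_filter, Finset.mem_range]
    constructor
    · rintro ⟨h1, h2⟩; exact ⟨by omega, h1, h2⟩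
    · rintro ⟨-, h1, h2⟩; exact ⟨h1, h2⟩
  rw [e, Finset.sum_filter]
  refine Finset.sum_congr rfl fun k _ => ?_
  by_cases h1 : i ≤ k ∧ k < j
  · by_cases h2 : T.bary pos (T.opp (p.e k)) ∈ M
    · rw [if_pos h1, if_pos h2, if_pos ⟨h1.1, h1.2, h2⟩]
    · rw [if_pos h1, if_neg h2, if_neg fun hc => h2 hc.2.2]
  · rw [if_neg h1, if_neg fun hc => h1 ⟨hc.1, hc.2.1⟩]

/-- **the value of a link, general form** (`= PvilLk.val` of 168 BY `rfl`; cells of 34 = the case `dr = dr' = true`): `M` = the mask of the link (cut-off sets of its marked ends removed), `B` = the cut-off set of its first end, `dr dr'` = the end is a DOOR -/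
noncomputable def pvcy2ValM (T : PvMap V D) (pos : V → ℂ) (w : D → ℂ) (M B : Set ℂ) (dr dr' : Bool) (𝔖 𝔖' : PvwSt T) (y : T.Pth) : ℂ :=
  (if dr then 0 else pvwMass T pos w B 𝔖.inn 0 𝔖.inn.n) + pvwMass T pos w M 𝔖.inn (if dr then 0 else 𝔖.ip) 𝔖.inn.n +
    pvwMass T pos w M y 0 y.n + pvwMass T pos w M 𝔖'.inn 0 (if dr' then 𝔖'.inn.n else 𝔖'.ip)

/-- **EVERY TAG OF THE RING HAS EXACTLY ONE OWNER**: `K` plugs in cyclic order (`dr j` = the plug `j` is a door, `B j` = cut-off set of a marked plug), `K` links (`M j` = mask of the link `j : plug j → plug (j+1)`); all the data periodic -/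
structure Pvcy2Own (T : PvMap V D) (pos : V → ℂ) (K : ℕ) (𝔖 : ℕ → PvwSt T) (y : ℕ → T.Pth) (M B : ℕ → Set ℂ) (dr : ℕ → Bool) : Prop where
  perS : 𝔖 K = 𝔖 0
  perM : M K = M 0
  perB : B K = B 0
  perD : dr K = dr 0
  ip : ∀ j, j < K → (𝔖 j).ip ≤ (𝔖 j).inn.n
  /-- the tags of the arc of a link lie in its mask -/
  y_in : ∀ j, j < K → ∀ k, k < (y j).n → T.bary pos (T.opp ((y j).e k)) ∈ M j
  /-- a MARKED plug: a tag of its inner arc in the cut-off set is in neither mask -/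
  mk_in : ∀ j, j < K → dr (j + 1) = false → ∀ k, k < (𝔖 (j + 1)).inn.n → T.bary pos (T.opp ((𝔖 (j + 1)).inn.e k)) ∈ B (j + 1) →
    T.bary pos (T.opp ((𝔖 (j + 1)).inn.e k)) ∉ M j ∧ T.bary pos (T.opp ((𝔖 (j + 1)).inn.e k)) ∉ M (j + 1)
  /-- off the cut-off set: before the mark it is in the mask of the link which arrives -/
  mk_lo : ∀ j, j < K → dr (j + 1) = false → ∀ k, k < (𝔖 (j + 1)).ip → T.bary pos (T.opp ((𝔖 (j + 1)).inn.e k)) ∉ B (j + 1) → T.bary pos (T.opp ((𝔖 (j + 1)).inn.e k)) ∈ M j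
  /-- after the mark it is in the mask of the link which leaves -/
  mk_hi : ∀ j, j < K → dr (j + 1) = false → ∀ k, (𝔖 (j + 1)).ip ≤ k → k < (𝔖 (j + 1)).inn.n → T.bary pos (T.opp ((𝔖 (j + 1)).inn.e k)) ∉ B (j + 1) →
    T.bary pos (T.opp ((𝔖 (j + 1)).inn.e k)) ∈ M (j + 1)
  /-- a DOOR: a tag of its inner arc is in exactly one of the two masks -/
  door : ∀ j, j < K → dr (j + 1) = true → ∀ k, k < (𝔖 (j + 1)).inn.n → (T.bary pos (T.opp ((𝔖 (j + 1)).inn.e k)) ∈ M j ↔ T.bary pos (T.opp ((𝔖 (j + 1)).inn.e k)) ∉ M (j + 1))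

/-- **THE VALUES OF THE LINKS OF A CYCLE ADD UP TO THE WHOLE MASS OF THE PIECES**, general form -/
theorem pvcy2_valM_sum {pos : V → ℂ} {K : ℕ} {𝔖 : ℕ → PvwSt T} {y : ℕ → T.Pth} {M B : ℕ → Set ℂ} {dr : ℕ → Bool} (H : Pvcy2Own T pos K 𝔖 y M B dr) (w : D → ℂ) :
    ∑ j ∈ Finset.range K, pvcy2ValM T pos w (M j) (B j) (dr j) (dr (j + 1)) (𝔖 j) (𝔖 (j + 1)) (y j) = ∑ j ∈ Finset.range K, ((𝔖 j).inn.psum w + (y j).psum w) := by
  classical
  have hip : ∀ j, j < K → (𝔖 (j + 1)).ip ≤ (𝔖 (j + 1)).inn.n := by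
    intro j hj
    rcases Nat.lt_or_ge (j + 1) K with h | h
    · exact H.ip _ h
    · have : j + 1 = K := by omega
      rw [this, H.perS]
      exact H.ip 0 (by omega)
  -- the share of the link which leaves the plug `j`
  set In : ℕ → ℂ := fun j => (if dr j then 0 else pvwMass T pos w (B j) (𝔖 j).inn 0 (𝔖 j).inn.n) + pvwMass T pos w (M j) (𝔖 j).inn (if dr j then 0 else (𝔖 j).ip) (𝔖 j).inn.n with hIn
  have e2 : ∀ j, j < K → pvwMass T pos w (M j) (y j) 0 (y j).n = (y j).psum w := by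
    intro j hj
    rw [← pvcy2_mass_univ pos]
    exact pvcy2_mass_congr pos w _ fun k _ hk => ⟨fun _ => mem_univ _, fun _ => H.y_in j hj k hk⟩
  have e3 : ∀ j, j < K → In (j + 1) + pvwMass T pos w (M j) (𝔖 (j + 1)).inn 0 (if dr (j + 1) then (𝔖 (j + 1)).inn.n else (𝔖 (j + 1)).ip) = (𝔖 (j + 1)).inn.psum w := by
    intro j hj
    simp only [hIn]
    cases hd : dr (j + 1)
    · simp only [Bool.false_eq_true, if_false]
      rw [pvcy2_mass_range pos w _ _ le_rfl, pvcy2_mass_range pos w _ _ le_rfl, pvcy2_mass_range pos w _ _ (hip j hj), ← Finset.sum_add_distrib, ← Finset.sum_add_distrib]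
      unfold PvMap.Pth.psum
      refine Finset.sum_congr rfl fun k hk => ?_
      have hk' := Finset.mem_range.1 hk
      by_cases hb : T.bary pos (T.opp ((𝔖 (j + 1)).inn.e k)) ∈ B (j + 1)
      · obtain ⟨h1, h2⟩ := H.mk_in j hj hd k hk' hb
        rw [if_pos ⟨Nat.zero_le _, hk', hb⟩, if_neg fun hc => h2 hc.2.2, if_neg fun hc => h1 hc.2.2, add_zero, add_zero]
      · rw [if_neg fun hc => hb hc.2.2, zero_add]
        rcases Nat.lt_or_ge k (𝔖 (j + 1)).ip with hlt | hge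
        · rw [if_neg (fun hc => by omega), if_pos ⟨Nat.zero_le _, hlt, H.mk_lo j hj hd k hlt hb⟩, zero_add]
        · rw [if_pos ⟨hge, hk', H.mk_hi j hj hd k hge hk' hb⟩, if_neg (fun hc => by omega), add_zero]
    · simp only [if_true, zero_add]
      rw [pvcy2_mass_range pos w _ _ le_rfl, pvcy2_mass_range pos w _ _ le_rfl, ← Finset.sum_add_distrib]
      unfold PvMap.Pth.psum
      refine Finset.sum_congr rfl fun k hk => ?_
      have hk' := Finset.mem_range.1 hk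
      by_cases hm : T.bary pos (T.opp ((𝔖 (j + 1)).inn.e k)) ∈ M j
      · rw [if_neg fun hc => (H.door j hj hd k hk').1 hm hc.2.2, if_pos ⟨Nat.zero_le _, hk', hm⟩, zero_add]
      · have h2 : T.bary pos (T.opp ((𝔖 (j + 1)).inn.e k)) ∈ M (j + 1) := by
          by_contra hc
          exact hm ((H.door j hj hd k hk').2 hc)
        rw [if_pos ⟨Nat.zero_le _, hk', h2⟩, if_neg fun hc => hm hc.2.2, add_zero]
  have e4 : ∑ j ∈ Finset.range K, In (j + 1) = ∑ j ∈ Finset.range K, In j := pvcy2_sum_shift In K (by simp only [hIn, H.perS, H.perM, H.perB, H.perD])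
  have e5 : ∑ j ∈ Finset.range K, (𝔖 (j + 1)).inn.psum w = ∑ j ∈ Finset.range K, (𝔖 j).inn.psum w := pvcy2_sum_shift (fun j => (𝔖 j).inn.psum w) K (by simp only [H.perS])
  calc ∑ j ∈ Finset.range K, pvcy2ValM T pos w (M j) (B j) (dr j) (dr (j + 1)) (𝔖 j) (𝔖 (j + 1)) (y j)
      = ∑ j ∈ Finset.range K, In j + ∑ j ∈ Finset.range K, ((y j).psum w + pvwMass T pos w (M j) (𝔖 (j + 1)).inn 0 (if dr (j + 1) then (𝔖 (j + 1)).inn.n else (𝔖 (j + 1)).ip)) := by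
        rw [← Finset.sum_add_distrib]
        refine Finset.sum_congr rfl fun j hj => ?_
        unfold pvcy2ValM
        rw [e2 j (Finset.mem_range.1 hj)]
        simp only [hIn]
        ring
    _ = ∑ j ∈ Finset.range K, ((𝔖 (j + 1)).inn.psum w + (y j).psum w) := by
        rw [← e4, ← Finset.sum_add_distrib]
        refine Finset.sum_congr rfl fun j hj => ?_
        rw [← e3 j (Finset.mem_range.1 hj)]
        ring
    _ = _ := by rw [Finset.sum_add_distrib, e5, ← Finset.sum_add_distrib]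

theorem pvcy2_val_il (L : PvilLk) (N : PvwNum) (η : Conf PvPt) (w : (delbPl (pvieY η)).Dart → ℂ) (𝔖 𝔖' : PvwSt (pvieT η)) (y : (pvieT η).Pth) :
    L.val N η w 𝔖 𝔖' y = pvcy2ValM (pvieT η) (pviePos η) w (L.msk N) (L.ball N) L.dr L.dr' 𝔖 𝔖' y := rfl

/-- the value reads the GATE PARTS of the two states only -/
theorem pvcy2_valM_congr (pos : V → ℂ) (w : D → ℂ) (M B : Set ℂ) (dr dr' : Bool) {𝔖₁ 𝔖₁' 𝔖₂ 𝔖₂' : PvwSt T} (h1 : PvuqG 𝔖₁ 𝔖₁') (h2 : PvuqG 𝔖₂ 𝔖₂') (hip : 𝔖₂.ip ≤ 𝔖₂.inn.n) (y : T.Pth) :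
    pvcy2ValM T pos w M B dr dr' 𝔖₁ 𝔖₂ y = pvcy2ValM T pos w M B dr dr' 𝔖₁' 𝔖₂' y := by
  unfold pvcy2ValM
  rw [h1.mass pos w B le_rfl, h1.mass pos w M le_rfl, ← h1.inn_n, ← h1.ip, ← h2.inn_n, ← h2.ip]
  congr 1
  cases dr'
  · exact h2.mass pos w M hip
  · exact h2.mass pos w M le_rfl

end own

/-! ## 2c. producer of the ownership facts: mesh + rooms + geometry -/

section rooms

variable {V D : Type} {T : PvMap V D}

/-- the points within `μ` of `S` -/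
def pvcy2Nr (μ : ℝ) (S : Set ℂ) : Set ℂ := {w | ∃ x ∈ S, ‖w - x‖ ≤ μ}

/-- **PRODUCER OF `Pvcy2Own`: MESH + ROOMS (facts on the configuration: where the VERTICES of the pieces are) + GEOMETRY (deterministic inclusions between rooms, masks, cut-off sets)**.
`Yr j` = room of the arc of the link `j`;   `Dk j` = room of the inner arc of a door;   marked plug: `Bi j` = the inner cut-off set (`closedBall z ((m - 1) h)`), `Lo j` / `Hi j` = rooms of the two halves of the inner arc beyond `Bi j` (`PvilIn.mask_i`, `PvilOut.mask_i`) -/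
structure Pvcy2Rm (T : PvMap V D) (pos : V → ℂ) (K : ℕ) (𝔖 : ℕ → PvwSt T) (y : ℕ → T.Pth) (M B : ℕ → Set ℂ) (dr : ℕ → Bool) (μ : ℝ) (Yr Dk Bi Lo Hi : ℕ → Set ℂ) : Prop where
  perS : 𝔖 K = 𝔖 0
  perM : M K = M 0
  perB : B K = B 0
  perD : dr K = dr 0
  ip : ∀ j, j < K → (𝔖 j).ip ≤ (𝔖 j).inn.n
  /-- MESH: the barycentre of a tag is within `μ` of the tail of its edge -/
  sm_y : ∀ j, j < K → ∀ k, k < (y j).n → ‖T.bary pos (T.opp ((y j).e k)) - pos ((y j).v k)‖ ≤ μ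
  sm_i : ∀ j, j < K → ∀ k, k < (𝔖 (j + 1)).inn.n → ‖T.bary pos (T.opp ((𝔖 (j + 1)).inn.e k)) - pos ((𝔖 (j + 1)).inn.v k)‖ ≤ μ
  /-- ROOMS -/
  y_rm : ∀ j, j < K → ∀ k, k < (y j).n → pos ((y j).v k) ∈ Yr j
  d_rm : ∀ j, j < K → dr (j + 1) = true → ∀ k, k < (𝔖 (j + 1)).inn.n → pos ((𝔖 (j + 1)).inn.v k) ∈ Dk (j + 1)
  lo_rm : ∀ j, j < K → dr (j + 1) = false → ∀ k, k < (𝔖 (j + 1)).ip → pos ((𝔖 (j + 1)).inn.v k) ∈ Bi (j + 1) ∪ Lo (j + 1)
  hi_rm : ∀ j, j < K → dr (j + 1) = false → ∀ k, (𝔖 (j + 1)).ip ≤ k → k < (𝔖 (j + 1)).inn.n → pos ((𝔖 (j + 1)).inn.v k) ∈ Bi (j + 1) ∪ Hi (j + 1)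
  /-- GEOMETRY -/
  g_y : ∀ j, j < K → pvcy2Nr μ (Yr j) ⊆ M j
  g_d : ∀ j, j < K → dr (j + 1) = true → ∀ w ∈ pvcy2Nr μ (Dk (j + 1)), (w ∈ M j ↔ w ∉ M (j + 1))
  g_b : ∀ j, j < K → dr (j + 1) = false → pvcy2Nr μ (Bi (j + 1)) ⊆ B (j + 1)
  g_in : ∀ j, j < K → dr (j + 1) = false → Disjoint (M j) (B (j + 1)) ∧ Disjoint (M (j + 1)) (B (j + 1))
  g_lo : ∀ j, j < K → dr (j + 1) = false → pvcy2Nr μ (Lo (j + 1)) \ B (j + 1) ⊆ M j
  g_hi : ∀ j, j < K → dr (j + 1) = false → pvcy2Nr μ (Hi (j + 1)) \ B (j + 1) ⊆ M (j + 1)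

theorem Pvcy2Rm.own {pos : V → ℂ} {K : ℕ} {𝔖 : ℕ → PvwSt T} {y : ℕ → T.Pth} {M B : ℕ → Set ℂ} {dr : ℕ → Bool} {μ : ℝ} {Yr Dk Bi Lo Hi : ℕ → Set ℂ}
    (H : Pvcy2Rm T pos K 𝔖 y M B dr μ Yr Dk Bi Lo Hi) : Pvcy2Own T pos K 𝔖 y M B dr where
  perS := H.perS
  perM := H.perM
  perB := H.perB
  perD := H.perD
  ip := H.ip
  y_in j hj k hk := H.g_y j hj ⟨_, H.y_rm j hj k hk, H.sm_y j hj k hk⟩
  mk_in j hj hd k _ hb := ⟨fun hc => Set.disjoint_left.1 (H.g_in j hj hd).1 hc hb, fun hc => Set.disjoint_left.1 (H.g_in j hj hd).2 hc hb⟩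
  mk_lo j hj hd k hk hb := by
    have hk' : k < (𝔖 (j + 1)).inn.n := by
      have : (𝔖 (j + 1)).ip ≤ (𝔖 (j + 1)).inn.n := by
        rcases Nat.lt_or_ge (j + 1) K with h | h
        · exact H.ip _ h
        · have e : j + 1 = K := by omega
          rw [e, H.perS]
          exact H.ip 0 (by omega)
      omega
    rcases H.lo_rm j hj hd k hk with h | h
    · exact absurd (H.g_b j hj hd ⟨_, h, H.sm_i j hj k hk'⟩) hb
    · exact H.g_lo j hj hd ⟨⟨_, h, H.sm_i j hj k hk'⟩, hb⟩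
  mk_hi j hj hd k hk hk' hb := by
    rcases H.hi_rm j hj hd k hk hk' with h | h
    · exact absurd (H.g_b j hj hd ⟨_, h, H.sm_i j hj k hk'⟩) hb
    · exact H.g_hi j hj hd ⟨⟨_, h, H.sm_i j hj k hk'⟩, hb⟩
  door j hj hd k hk := H.g_d j hj hd _ ⟨_, H.d_rm j hj hd k hk, H.sm_i j hj k hk⟩

end rooms

/-! ## 3. plugs and links in cyclic order -/

section cyc

variable {V D : Type} {T : PvMap V D} {s : V → Bool}

/-- two paths have no common HEAD (a head = a vertex which is not the first one) -/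
def pvcy2Hd (p q : T.Pth) : Prop := ∀ k l, k < p.n → l < q.n → p.v (k + 1) ≠ q.v (l + 1)

/-- **`K` PLUGS IN CYCLIC ORDER AND `K` LINKS** -/
structure Pvcy2Cyc (T : PvMap V D) (s : V → Bool) (K : ℕ) (𝔖 : ℕ → PvwSt T) (y : ℕ → T.Pth) : Prop where
  per : 𝔖 K = 𝔖 0
  bw : pvasBW T s (𝔖 0).dm
  inn : ∀ j, j < K → ∃ n, pvasIt T s (𝔖 j).dm n = (𝔖 j).dp ∧ PvwLE T (fun i => T.src (pvasIt T s (𝔖 j).dm i)) n (𝔖 j).inn
  run : ∀ j, j < K → ∃ n, pvasIt T s (𝔖 j).dp n = (𝔖 (j + 1)).dm ∧ PvwLE T (fun i => T.src (pvasIt T s (𝔖 j).dp i)) n (y j)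
  ii : ∀ i j, i < j → j < K → pvcy2Hd (𝔖 i).inn (𝔖 j).inn
  yy : ∀ i j, i < j → j < K → pvcy2Hd (y i) (y j)
  iy : ∀ i j, i < K → j < K → pvcy2Hd (𝔖 i).inn (y j)

/-- the positions: entry and exit gate edges, alternately -/
def pvcy2Pos (𝔖 : ℕ → PvwSt T) (k : ℕ) : D := if k % 2 = 0 then (𝔖 (k / 2)).dm else (𝔖 (k / 2)).dp

/-- the pieces: inner arcs and arcs of the links, alternately -/
def pvcy2Pc (𝔖 : ℕ → PvwSt T) (y : ℕ → T.Pth) (k : ℕ) : T.Pth := if k % 2 = 0 then (𝔖 (k / 2)).inn else y (k / 2)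

theorem pvcy2_pos_even (𝔖 : ℕ → PvwSt T) (j : ℕ) : pvcy2Pos 𝔖 (2 * j) = (𝔖 j).dm := by
  unfold pvcy2Pos; rw [if_pos (by omega), show 2 * j / 2 = j by omega]
theorem pvcy2_pos_odd (𝔖 : ℕ → PvwSt T) (j : ℕ) : pvcy2Pos 𝔖 (2 * j + 1) = (𝔖 j).dp := by
  unfold pvcy2Pos; rw [if_neg (by omega), show (2 * j + 1) / 2 = j by omega]
theorem pvcy2_pc_even (𝔖 : ℕ → PvwSt T) (y : ℕ → T.Pth) (j : ℕ) : pvcy2Pc 𝔖 y (2 * j) = (𝔖 j).inn := by
  unfold pvcy2Pc; rw [if_pos (by omega), show 2 * j / 2 = j by omega]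
theorem pvcy2_pc_odd (𝔖 : ℕ → PvwSt T) (y : ℕ → T.Pth) (j : ℕ) : pvcy2Pc 𝔖 y (2 * j + 1) = y j := by
  unfold pvcy2Pc; rw [if_neg (by omega), show (2 * j + 1) / 2 = j by omega]

theorem pvcy2_hd_symm {p q : T.Pth} (h : pvcy2Hd p q) : pvcy2Hd q p := fun k l hk hl e => h l k hl hk e.symm

/-- **plugs + links ⟹ a closed strand cut into `2 K` pieces** -/
theorem Pvcy2Cyc.toRg {K : ℕ} {𝔖 : ℕ → PvwSt T} {y : ℕ → T.Pth} (H : Pvcy2Cyc T s K 𝔖 y) : ∃ n : ℕ → ℕ, Pvcy2Rg T s (2 * K) (pvcy2Pos 𝔖) n (pvcy2Pc 𝔖 y) := by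
  classical
  choose! ni hi1 hi2 using H.inn
  choose! nr hr1 hr2 using H.run
  refine ⟨fun k => if k % 2 = 0 then ni (k / 2) else nr (k / 2), ?_, ?_, ?_, ?_, ?_⟩
  · have := pvcy2_pos_even 𝔖 0
    rw [Nat.mul_zero] at this
    rw [this]; exact H.bw
  · intro k hk
    rcases Nat.even_or_odd' k with ⟨j, rfl | rfl⟩
    · rw [pvcy2_pos_even, pvcy2_pos_odd, if_pos (by omega), show 2 * j / 2 = j by omega]
      exact hi1 j (by omega)
    · rw [pvcy2_pos_odd, show 2 * j + 1 + 1 = 2 * (j + 1) by omega, pvcy2_pos_even, if_neg (by omega), show (2 * j + 1) / 2 = j by omega]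
      exact hr1 j (by omega)
  · have := pvcy2_pos_even 𝔖 0
    rw [Nat.mul_zero] at this
    rw [pvcy2_pos_even, this, H.per]
  · intro k hk
    rcases Nat.even_or_odd' k with ⟨j, rfl | rfl⟩
    · rw [pvcy2_pos_even, pvcy2_pc_even, if_pos (by omega), show 2 * j / 2 = j by omega]
      exact hi2 j (by omega)
    · rw [pvcy2_pos_odd, pvcy2_pc_odd, if_neg (by omega), show (2 * j + 1) / 2 = j by omega]
      exact hr2 j (by omega)
  · intro i j hij hj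
    rcases Nat.even_or_odd' i with ⟨i, rfl | rfl⟩ <;> rcases Nat.even_or_odd' j with ⟨j, rfl | rfl⟩
    · rw [pvcy2_pc_even, pvcy2_pc_even]; exact H.ii i j (by omega) (by omega)
    · rw [pvcy2_pc_even, pvcy2_pc_odd]; exact H.iy i j (by omega) (by omega)
    · rw [pvcy2_pc_even, pvcy2_pc_odd]; exact pvcy2_hd_symm (H.iy j i (by omega) (by omega))
    · rw [pvcy2_pc_odd, pvcy2_pc_odd]; exact H.yy i j (by omega) (by omega)

theorem pvcy2_sum_two (F : ℕ → ℂ) (K : ℕ) : ∑ k ∈ Finset.range (2 * K), F k = ∑ j ∈ Finset.range K, (F (2 * j) + F (2 * j + 1)) := by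
  induction K with
  | zero => simp
  | succ K ih => rw [show 2 * (K + 1) = 2 * K + 1 + 1 by omega, Finset.sum_range_succ, Finset.sum_range_succ, ih, Finset.sum_range_succ]; ring


/-- **(C2) FOR A CYCLE OF PLUGS AND LINKS**: ONE label; its sum is the sum of the values of the links, for EVERY weight `w` -/
theorem pvcy2_close (hT : T.IsSph) (hS : T.Simple) {pos : V → ℂ} {K : ℕ} {𝔖 : ℕ → PvwSt T} {y : ℕ → T.Pth} {B : ℕ → Set ℂ} (H : Pvcy2Cyc T s K 𝔖 y) (C : Pvcy2Cut T pos K 𝔖 y B)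
    {j₀ k₀ : ℕ} (hj : j₀ < K) (hk : k₀ < (𝔖 j₀).inn.n) :
    T.Tag s (T.opp ((𝔖 j₀).inn.e k₀)) ∧ ∀ w : D → ℂ, T.lsum s w (T.opp ((𝔖 j₀).inn.e k₀)) = ∑ j ∈ Finset.range K, pvcy2Val T pos w (B j) (B (j + 1)) (𝔖 j) (𝔖 (j + 1)) (y j) := by
  obtain ⟨n, R⟩ := H.toRg
  have hk' : k₀ < (pvcy2Pc 𝔖 y (2 * j₀)).n := by rw [pvcy2_pc_even]; exact hk
  obtain ⟨h1, -, h3⟩ := pvcy2_ring hT hS R (j₀ := 2 * j₀) (by omega) hk'
  rw [pvcy2_pc_even] at h1 h3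
  refine ⟨h1, fun w => ?_⟩
  rw [h3, pvcy2_val_sum C, pvcy2_sum_two]
  exact Finset.sum_congr rfl fun j _ => by rw [pvcy2_pc_even, pvcy2_pc_odd]

/-- **(C2) FOR A CYCLE OF PLUGS AND LINKS, GENERAL FORM** (doors + marked plugs: links of `Tr/InstL`, cells of `Tr/PlugK`) -/
theorem pvcy2_closeM (hT : T.IsSph) (hS : T.Simple) {pos : V → ℂ} {K : ℕ} {𝔖 : ℕ → PvwSt T} {y : ℕ → T.Pth} {M B : ℕ → Set ℂ} {dr : ℕ → Bool} (H : Pvcy2Cyc T s K 𝔖 y) (C : Pvcy2Own T pos K 𝔖 y M B dr)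
    {j₀ k₀ : ℕ} (hj : j₀ < K) (hk : k₀ < (𝔖 j₀).inn.n) :
    T.Tag s (T.opp ((𝔖 j₀).inn.e k₀)) ∧ ∀ w : D → ℂ, T.lsum s w (T.opp ((𝔖 j₀).inn.e k₀)) = ∑ j ∈ Finset.range K, pvcy2ValM T pos w (M j) (B j) (dr j) (dr (j + 1)) (𝔖 j) (𝔖 (j + 1)) (y j) := by
  obtain ⟨n, R⟩ := H.toRg
  have hk' : k₀ < (pvcy2Pc 𝔖 y (2 * j₀)).n := by rw [pvcy2_pc_even]; exact hk
  obtain ⟨h1, -, h3⟩ := pvcy2_ring hT hS R (j₀ := 2 * j₀) (by omega) hk'
  rw [pvcy2_pc_even] at h1 h3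
  refine ⟨h1, fun w => ?_⟩
  rw [h3, pvcy2_valM_sum C, pvcy2_sum_two]
  exact Finset.sum_congr rfl fun j _ => by rw [pvcy2_pc_even, pvcy2_pc_odd]

theorem pvcy2_eqns_cite : True := by
  have := @pvcy2Val.eq_1; have := @pvcy2Hd.eq_1; have := @pvcy2Pos.eq_1; have := @pvcy2Pc.eq_1; have := @pvcy2ValM.eq_1; have := @pvcy2Nr.eq_1
  trivial

end cyc

/-! ## 4. at a configuration -/

section conf

theorem pvcy2_col (η : Conf PvPt) (b : Bool) : (pvieCol η b : ↥(cfSites η) → Bool) = pvkiS η ∨ (pvieCol η b : ↥(cfSites η) → Bool) = pvasNot (pvkiS η) := by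
  cases b
  · right
    funext v
    show (cfCol η v.1 == false) = !(cfCol η v.1)
    cases cfCol η v.1 <;> rfl
  · left
    funext v
    show (cfCol η v.1 == true) = cfCol η v.1
    cases cfCol η v.1 <;> rfl

variable {η : Conf PvPt} {s : ↥(cfSites η) → Bool}

theorem pvcy2_tag_col (hs : s = pvkiS η ∨ s = pvasNot (pvkiS η)) (d : (delbPl (cfSites η)).Dart) : (pvkiT η).Tag s d ↔ (pvkiT η).Tag (pvkiS η) d := by
  rcases hs with h | h <;> rw [h]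
  exact pvt_sf_tag_not

theorem pvcy2_lab_col (hs : s = pvkiS η ∨ s = pvasNot (pvkiS η)) (d d' : (delbPl (cfSites η)).Dart) : (pvkiT η).SameLab s d d' ↔ (pvkiT η).SameLab (pvkiS η) d d' := by
  rcases hs with h | h <;> rw [h]
  exact pvt_sf_lab_not

theorem pvcy2_lsum_col (hs : s = pvkiS η ∨ s = pvasNot (pvkiS η)) (w : (delbPl (cfSites η)).Dart → ℂ) (d : (delbPl (cfSites η)).Dart) :
    (pvkiT η).lsum s w d = (pvkiT η).lsum (pvkiS η) w d := by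
  unfold PvMap.lsum
  simp only [pvcy2_lab_col hs]

variable {K : ℕ} {a : ℕ → (delbPl (cfSites η)).Dart} {n : ℕ → ℕ} {y : ℕ → (pvkiT η).Pth}

/-- **(C2) FOR A CLOSED STRAND, RAW LANGUAGE OF I.TAIL / I.BES** -/
theorem pvcy2_tag (h : DelGood (cfSites η)) (hs : s = pvkiS η ∨ s = pvasNot (pvkiS η)) (R : Pvcy2Rg (pvkiT η) s K a n y) {B : Set ℂ}
    (hin : ∀ j, j < K → ∀ k, k < (y j).n → (((y j).v (k + 1) : ↥(cfSites η)) : ℂ) ∈ B) {c : ℝ}
    (hbig : ∃ j k j' k', j < K ∧ k < (y j).n ∧ j' < K ∧ k' < (y j').n ∧ c ≤ ‖(((y j).v (k + 1) : ↥(cfSites η)) : ℂ) - (((y j').v (k' + 1) : ↥(cfSites η)) : ℂ)‖) :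
    ∃ x, pvbeTag η x ∧ pvclIn η B x ∧ pvclBig η c x ∧
      (∀ x', pvqSame (DelTri (cfSites η)) (cfCol η) x x' → ∃ j, j < K ∧ ∃ k, k < (y j).n ∧ x' = pvkiCode ((pvkiT η).opp ((y j).e k))) ∧
      ∀ w : ℂ × ℂ → ℂ, pvqSum (DelTri (cfSites η)) (cfCol η) w x = ∑ j ∈ Finset.range K, (y j).psum fun d => w (pvkiCode d) := by
  classical
  have hT : (pvkiT η).IsSph := delb_plane_isSph h
  have hS : (pvkiT η).Simple := (delbPl (cfSites η)).toMap_simple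
  have hP := delb_pl_eq h
  obtain ⟨j, k, j', k', hj, hk, hj', hk', hc⟩ := hbig
  obtain ⟨h1, h2, h3⟩ := pvcy2_ring hT hS R hj hk
  rw [pvcy2_tag_col hs] at h1
  simp only [pvcy2_lab_col hs] at h2
  simp only [pvcy2_lsum_col hs] at h3
  have key : ∀ i, i < K → ∀ l, l < (y i).n → pvqSame (DelTri (cfSites η)) (cfCol η) (pvkiCode ((pvkiT η).opp ((y j).e k))) (pvkiCode ((pvkiT η).opp ((y i).e l))) := fun i hi l hl =>
    (pvki_code_same h hP _ _ _).2 ⟨_, rfl, (h2 _).2 ⟨i, hi, l, hl, by rw [(pvkiT η).opp_opp]⟩⟩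
  have hsrc : ∀ i l, l < (y i).n → (pvkiCode ((pvkiT η).opp ((y i).e l))).1 = (((y i).v (l + 1) : ↥(cfSites η)) : ℂ) := by
    intro i l hl
    rw [← (y i).tgt_e l hl, ← (pvkiT η).src_opp']
    rfl
  refine ⟨pvkiCode ((pvkiT η).opp ((y j).e k)), (pvki_code_tag h hP _ _).2 h1, ?_, ⟨_, _, key j hj k hk, key j' hj' k' hk', by rw [hsrc _ _ hk, hsrc _ _ hk']; exact hc⟩, ?_, ?_⟩
  · intro x' hx'
    obtain ⟨d', rfl, hd'⟩ := (pvki_code_same h hP _ _ _).1 hx'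
    obtain ⟨i, hi, l, hl, e⟩ := (h2 d').1 hd'
    have e' : d' = (pvkiT η).opp ((y i).e l) := by rw [e, (pvkiT η).opp_opp]
    rw [e', hsrc _ _ hl]
    exact hin i hi l hl
  · intro x' hx'
    obtain ⟨d', rfl, hd'⟩ := (pvki_code_same h hP _ _ _).1 hx'
    obtain ⟨i, hi, l, hl, e⟩ := (h2 d').1 hd'
    exact ⟨i, hi, l, hl, by rw [e, (pvkiT η).opp_opp]⟩
  · intro w
    rw [pvki_code_sum h hP]
    exact h3 _

/-- **FIELD `dom`, DETERMINISTIC**: the whole `Q`-mass of a closed strand is bounded by the closed sum of I.TAIL -/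
theorem pvcy2_le_sum (h : DelGood (cfSites η)) (hs : s = pvkiS η ∨ s = pvasNot (pvkiS η)) (R : Pvcy2Rg (pvkiT η) s K a n y) {B : Set ℂ} (hB : Bornology.IsBounded B)
    (hin : ∀ j, j < K → ∀ k, k < (y j).n → (((y j).v (k + 1) : ↥(cfSites η)) : ℂ) ∈ B) {c : ℝ}
    (hbig : ∃ j k j' k', j < K ∧ k < (y j).n ∧ j' < K ∧ k' < (y j').n ∧ c ≤ ‖(((y j).v (k + 1) : ↥(cfSites η)) : ℂ) - (((y j').v (k' + 1) : ↥(cfSites η)) : ℂ)‖) :
    ‖∑ j ∈ Finset.range K, (y j).psum ((pvkiT η).qpart Subtype.val)‖ₑ ^ 2 ≤ pvclSum η B c := by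
  obtain ⟨x, hx, h1, h2, -, h3⟩ := pvcy2_tag h hs R hin hbig
  have h4 := pvcl_le_sum h hB hx h1 h2
  rw [h3] at h4
  have e : (fun d : (delbPl (cfSites η)).Dart => pvqWQ (cfSites η) (pvkiCode d)) = (pvkiT η).qpart Subtype.val := by
    funext d
    exact pvki_code_qpart h (delb_pl_eq h) d
  rw [e] at h4
  refine le_trans (le_of_eq ?_) h4
  rw [← ofReal_norm, ENNReal.ofReal_pow (norm_nonneg _)]


/-- the whole `Q`-mass of a cycle of plugs and links is bounded by the closed sum of I.TAIL -/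
theorem pvcy2_cyc_le (h : DelGood (cfSites η)) (hs : s = pvkiS η ∨ s = pvasNot (pvkiS η)) {𝔖 : ℕ → PvwSt (pvkiT η)}
    (H : Pvcy2Cyc (pvkiT η) s K 𝔖 y) {B : Set ℂ} (hB : Bornology.IsBounded B)
    (hi : ∀ j, j < K → ∀ v ∈ (𝔖 j).inn.verts, (v : ℂ) ∈ B) (hy : ∀ j, j < K → ∀ v ∈ (y j).verts, (v : ℂ) ∈ B) {c : ℝ}
    (hbig : ∃ i j, i < K ∧ j < K ∧ (𝔖 i).gp ≠ (𝔖 i).gm ∧ (𝔖 j).gp ≠ (𝔖 j).gm ∧ c ≤ ‖(((𝔖 i).gp : ↥(cfSites η)) : ℂ) - (((𝔖 j).gp : ↥(cfSites η)) : ℂ)‖) :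
    ‖∑ j ∈ Finset.range K, ((𝔖 j).inn.psum ((pvkiT η).qpart Subtype.val) + (y j).psum ((pvkiT η).qpart Subtype.val))‖ₑ ^ 2 ≤ pvclSum η B c := by
  obtain ⟨n, R⟩ := H.toRg
  have e : ∑ j ∈ Finset.range K, ((𝔖 j).inn.psum ((pvkiT η).qpart Subtype.val) + (y j).psum ((pvkiT η).qpart Subtype.val))
      = ∑ k ∈ Finset.range (2 * K), (pvcy2Pc 𝔖 y k).psum ((pvkiT η).qpart Subtype.val) := by
    rw [pvcy2_sum_two]
    exact Finset.sum_congr rfl fun j _ => by rw [pvcy2_pc_even, pvcy2_pc_odd]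
  rw [e]
  have hend : ∀ i, i < K → (𝔖 i).gp ≠ (𝔖 i).gm → 0 < (𝔖 i).inn.n ∧ (𝔖 i).inn.v ((𝔖 i).inn.n - 1 + 1) = (𝔖 i).gp := by
    intro i hi hne
    have h0 := R.v0 (j := 2 * i) (by omega)
    have h1 := R.vn (j := 2 * i) (by omega)
    rw [pvcy2_pc_even, pvcy2_pos_even] at h0
    rw [pvcy2_pc_even, pvcy2_pos_odd] at h1
    have hpos : 0 < (𝔖 i).inn.n := by
      rcases Nat.eq_zero_or_pos (𝔖 i).inn.n with h2 | h2
      · rw [h2, h0] at h1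
        exact absurd h1.symm hne
      · exact h2
    exact ⟨hpos, by rw [Nat.sub_add_cancel hpos]; exact h1⟩
  refine pvcy2_le_sum h hs R hB ?_ ?_
  · intro k hk l hl
    rcases Nat.even_or_odd' k with ⟨j, rfl | rfl⟩
    · rw [pvcy2_pc_even] at hl ⊢
      exact hi j (by omega) _ ⟨l + 1, hl, rfl⟩
    · rw [pvcy2_pc_odd] at hl ⊢
      exact hy j (by omega) _ ⟨l + 1, hl, rfl⟩
  · obtain ⟨i, j, hi', hj', hni, hnj, hc⟩ := hbig
    obtain ⟨a1, a2⟩ := hend i hi' hni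
    obtain ⟨b1, b2⟩ := hend j hj' hnj
    refine ⟨2 * i, (𝔖 i).inn.n - 1, 2 * j, (𝔖 j).inn.n - 1, by omega, ?_, by omega, ?_, ?_⟩
    · rw [pvcy2_pc_even]; omega
    · rw [pvcy2_pc_even]; omega
    · rw [pvcy2_pc_even, pvcy2_pc_even, a2, b2]; exact hc

/-- **FIELD `dom`, DETERMINISTIC, FOR A CYCLE OF LINKS IN THE FORM `PvieLk.val`** -/
theorem pvcy2_cyc_le_sum (h : DelGood (cfSites η)) (hs : s = pvkiS η ∨ s = pvasNot (pvkiS η)) {𝔖 : ℕ → PvwSt (pvkiT η)} {Bc : ℕ → Set ℂ}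
    (H : Pvcy2Cyc (pvkiT η) s K 𝔖 y) (C : Pvcy2Cut (pvkiT η) Subtype.val K 𝔖 y Bc) {B : Set ℂ} (hB : Bornology.IsBounded B)
    (hi : ∀ j, j < K → ∀ v ∈ (𝔖 j).inn.verts, (v : ℂ) ∈ B) (hy : ∀ j, j < K → ∀ v ∈ (y j).verts, (v : ℂ) ∈ B) {c : ℝ}
    (hbig : ∃ i j, i < K ∧ j < K ∧ (𝔖 i).gp ≠ (𝔖 i).gm ∧ (𝔖 j).gp ≠ (𝔖 j).gm ∧ c ≤ ‖(((𝔖 i).gp : ↥(cfSites η)) : ℂ) - (((𝔖 j).gp : ↥(cfSites η)) : ℂ)‖) :
    ‖∑ j ∈ Finset.range K, pvcy2Val (pvkiT η) Subtype.val ((pvkiT η).qpart Subtype.val) (Bc j) (Bc (j + 1)) (𝔖 j) (𝔖 (j + 1)) (y j)‖ₑ ^ 2 ≤ pvclSum η B c := by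
  rw [pvcy2_val_sum C]
  exact pvcy2_cyc_le h hs H hB hi hy hbig

/-- **FIELD `dom`, DETERMINISTIC, GENERAL FORM**: links of `Tr/InstL` (`PvilLk.val`), cells of `Tr/PlugK` -/
theorem pvcy2_cycM_le_sum (h : DelGood (cfSites η)) (hs : s = pvkiS η ∨ s = pvasNot (pvkiS η)) {𝔖 : ℕ → PvwSt (pvkiT η)} {M Bc : ℕ → Set ℂ} {dr : ℕ → Bool}
    (H : Pvcy2Cyc (pvkiT η) s K 𝔖 y) (C : Pvcy2Own (pvkiT η) Subtype.val K 𝔖 y M Bc dr) {B : Set ℂ} (hB : Bornology.IsBounded B)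
    (hi : ∀ j, j < K → ∀ v ∈ (𝔖 j).inn.verts, (v : ℂ) ∈ B) (hy : ∀ j, j < K → ∀ v ∈ (y j).verts, (v : ℂ) ∈ B) {c : ℝ}
    (hbig : ∃ i j, i < K ∧ j < K ∧ (𝔖 i).gp ≠ (𝔖 i).gm ∧ (𝔖 j).gp ≠ (𝔖 j).gm ∧ c ≤ ‖(((𝔖 i).gp : ↥(cfSites η)) : ℂ) - (((𝔖 j).gp : ↥(cfSites η)) : ℂ)‖) :
    ‖∑ j ∈ Finset.range K, pvcy2ValM (pvkiT η) Subtype.val ((pvkiT η).qpart Subtype.val) (M j) (Bc j) (dr j) (dr (j + 1)) (𝔖 j) (𝔖 (j + 1)) (y j)‖ₑ ^ 2 ≤ pvclSum η B c := by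
  rw [pvcy2_valM_sum C]
  exact pvcy2_cyc_le h hs H hB hi hy hbig

end conf

/-- **MESH AT A CONFIGURATION**: the barycentre of a face with a vertex in the `3ρ`-core of the window of the mesh event is within `2ρ` of its three vertices -/
theorem pvcy2_bary_near {η : Conf PvPt} (h : DelGood (cfSites η)) {ρ : ℝ} {E : Set ℂ} (hρ : 0 < ρ) (hm : PvtrMesh ρ E (cfSites η)) (d : (delbPl (cfSites η)).Dart)
    (hv : (((pvkiT η).src d : ↥(cfSites η)) : ℂ) ∈ pvtrCore (3 * ρ) E) :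
    ‖(pvkiT η).bary Subtype.val d - (((pvkiT η).src d : ↥(cfSites η)) : ℂ)‖ ≤ 2 * ρ ∧ ‖(pvkiT η).bary Subtype.val d - (((pvkiT η).tgt d : ↥(cfSites η)) : ℂ)‖ ≤ 2 * ρ := by
  have ht : DelTri (cfSites η) (((pvkiT η).src d : ↥(cfSites η)) : ℂ) (((pvkiT η).tgt d : ↥(cfSites η)) : ℂ) (((pvkiT η).apex d : ↥(cfSites η)) : ℂ) := delp_apex_spec h d.2.2
  have hr := pvtr_of_mesh_vertex hρ hm hv ht
  have h1 := hr.side_le
  have h2 := hr.cyc.side_le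
  have h3 := hr.cyc.cyc.side_le
  set a : ℂ := (((pvkiT η).src d : ↥(cfSites η)) : ℂ)
  set b : ℂ := (((pvkiT η).tgt d : ↥(cfSites η)) : ℂ)
  set c : ℂ := (((pvkiT η).apex d : ↥(cfSites η)) : ℂ)
  have e0 : (pvkiT η).bary Subtype.val d = (a + b + c) / 3 := rfl
  constructor
  · have e : (a + b + c) / 3 - a = (c - a) / 3 - (a - b) / 3 := by ring
    rw [e0, e]
    calc ‖(c - a) / 3 - (a - b) / 3‖ ≤ ‖(c - a) / 3‖ + ‖(a - b) / 3‖ := norm_sub_le _ _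
      _ = ‖c - a‖ / 3 + ‖a - b‖ / 3 := by rw [norm_div, norm_div]; norm_num
      _ ≤ 2 * ρ := by linarith
  · have e : (a + b + c) / 3 - b = (a - b) / 3 - (b - c) / 3 := by ring
    rw [e0, e]
    calc ‖(a - b) / 3 - (b - c) / 3‖ ≤ ‖(a - b) / 3‖ + ‖(b - c) / 3‖ := norm_sub_le _ _
      _ = ‖a - b‖ / 3 + ‖b - c‖ / 3 := by rw [norm_div, norm_div]; norm_num
      _ ≤ 2 * ρ := by linarith


end Claimed.Agent.R289
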