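-- KEEP
import Claimed.Agent.R289.Tr.CycC2
import Claimed.Agent.R289.Tr.BrStrand
import Claimed.Agent.R289.Tr.ThickC2
import Claimed.Agent.R289.Tr.FitGate

/-!
# Row 289 (S0537), THE WALL, ROAD E, file Tr/CycC2B : (H) = THE HEADS OF THE PIECES OF A CYCLE OF LINKS ARE PAIRWISE DIFFERENT      (helper264, second of helper48 on E26-DET; post of 82 11:54Z, split of 48 12:00Z; prefix `pvca_`, `Pvca`, `pvca`)

WHAT.   `Pvcy2Cyc T s K 𝔖 y` of 48 (`Tr/CycC2` sec. 3) asks `ii yy iy`: the heads of the `K` inner arcs and of the `K` arcs of the links are pairwise different.      THIS FILE = ITS PRODUCER, MODEL FREE on `(T, s, pos)`, + the rooms `y_rm` of `Pvcy2Rm`.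
DETERMINISTIC, 0 probability.      Both kinds of plugs: MARKED PINS (`PvwSt.Gate` + stubs, `off_p off_m`) and KIT PLUGS = DOORS (`T.Gate s` of `Tr/GateB`, empty stubs: `pvilStS` of `Tr/InstL` v2.1, `pvkdSt` of 34).
WARNING (figure 8, 118; W-7 of 208).   Without the rooms the statement is FALSE: two runs may share a vertex;   a run may pass round a door and enter it at `bIn` (beside `g⁺`): then `LE` runs through the inner arc backwards.

* sec. 1  `T.Int`: `pvca_int_dart _opp _vert _pos`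
* sec. 2  **`PvcaGt T s 𝔖`** = TOPOLOGICAL GATE (what (H) reads of the gate part of a state);   producers `pvca_gt_gate` (`PvwSt.Gate`), `PvcaDr.gt` (a door);   `.v0 .vn .ins .black .bd`
* sec. 3  **`PvcaLk T s pos 𝔖 𝔖' y Mp Yin Mm n`** = A LINK IN STRAND FORM (`= PvilLk.Run` + `LE` + the stubs are pieces of the strand + vertex masks of the two erased banks; of `𝔖` only `dp np ep`, of `𝔖'` only `dm nm em` are read);
          `PvcaLk.kind` (every position of the run: exit stub | new | entrance stub), **`PvcaLk.tri`** (every vertex of `y`: on the exit stub AND over `Mp` | over `Yin` | on the entrance stub AND over `Mm`), `PvcaLk.room`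
* sec. 4  **`pvca_cyc`** : gates + runs + (`GG` insides disjoint, `YY` arcs disjoint, `out` no vertex of an arc strictly inside a gate) ⟹ `Pvcy2Cyc`
* sec. 5  THE MENU FOR `out`: `PvcaLk.out_far` (room off the disc), `PvcaLk.out_pin_b` / `out_pin_a` (marked pin behind / ahead: `off_p` / `off_m` + rooms off the disc),
          `PvcaLk.out_door_b` / `out_door_a` (door behind / ahead: F1 of 125 = `g⁻` resp. `g⁺` is not on the black bank: `pvki_off_src`, `pvki_off_tgt` of 244)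
* sec. 6  **`pvca_ring`** : ONE THEOREM: gates + links + rooms pairwise disjoint + `own` ⟹ `Pvcy2Cyc` ∧ the rooms of the arcs;   two records per plug allowed (exit record `𝔖 j`, entrance record `𝔖' j`, same entry gate edge)
* sec. 7  ENDS `PvcaEo PvcaEi` (`pvca_lk`: two ends + run + `LE` = a link; `PvcaDr.eo .ei`: a door end, mask := any set which contains `g⁺` / `g⁻`);   **`own` FOR THE THREE KINDS OF SPECIAL LINKS**: `PvcaLk.own_pin_door`, `.own_door_pin`, `.own_door_door`;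
          CELLS: **`pvca_lk_cell`** (`PvzlRun` of 173 between two doors IS a link, three rooms := `KE`), `pvca_own_cell`;   `pvca_dr_of_gt` (`PvzlGt` ⟹ door record), `pvca_gt_disc`
* sec. 8  AT `Tr/InstL` v2.1 (any `L : PvilLk`): `pvcaMp L`, `pvcaMm L` (vertex masks of the two ends: `Mp` / `Mm` of a pin, placed `Zp` / `Zm` of a kit plug), `pvcaDk p dr` (disc), `pvcaBx N p` (own-level box);
          `pvca_il_door` (`PvilDoor` ⟹ gate of record + `PvcaDr`), `pvca_il_atP`, `pvca_il_atP'` (`DelGood`, `PvcaGt`, end), **`pvca_il_lk`** (`L.Arc` ⟹ `PvcaLk`), `pvca_il_ins`, `pvca_il_ins'`,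
          **`pvca_il_own_pd`** (`pvilLo`), **`pvca_il_own_dp`** (`pvilLe`, `pvilLi`), **`pvca_il_own_dd`** (`pvilLr`): `own` from THREE DISJOINTNESS LINES EACH (regions only: W-7 of 208 + `Defs/InstWf`)
-/

set_option autoImplicit false
set_option linter.unusedSectionVars false
set_option linter.unusedVariables false

namespace Claimed.Agent.R289

open Set

variable {V D : Type} {T : PvMap V D} {s : V → Bool} {pos : V → ℂ}

/-! ## 1. strictly inside a face set -/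

theorem pvca_int_dart {A : Set D} {d : D} (h : d ∉ A) : T.src d ∉ T.Int A := fun hv => h (hv d rfl)

theorem pvca_int_opp {A : Set D} (hA : T.FaceSet A) {d : D} (h : T.opp d ∉ A) : T.src d ∉ T.Int A := by
  intro hv
  apply h
  have h1 : T.nxt (T.opp d) ∈ A := hv _ (by rw [T.src_nxt, T.tgt_opp])
  exact (hA _).1 h1

theorem pvca_int_vert (hT : T.IsSph) (c : T.Cyc) {v : V} (h : v ∈ c.verts) : v ∉ T.Int c.Left :=
  fun hv => Set.disjoint_left.1 (pl_jordan_vert_disj hT c).1 h hv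

theorem pvca_int_pos {A : Set D} {Dk : Set ℂ} (hD : ∀ u ∈ T.VOf A, pos u ∈ Dk) {d : D} (h : pos (T.src d) ∉ Dk) : T.src d ∉ T.Int A :=
  fun hv => h (hD _ ⟨d, hv d rfl, rfl⟩)

/-! ## 2. topological gates -/

/-- **TOPOLOGICAL GATE**: what (H) reads of the gate part of a state -/
structure PvcaGt (T : PvMap V D) (s : V → Bool) (𝔖 : PvwSt T) : Prop where
  bw_m : pvasBW T s 𝔖.dm
  dp_on : T.opp 𝔖.dp ∈ 𝔖.S.darts
  two : ∀ v ∈ 𝔖.S.verts, s v = true → v = 𝔖.gp ∨ v = 𝔖.gm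
  strand : ∃ n, pvasIt T s 𝔖.dm n = 𝔖.dp ∧ (∀ i, i < n → pvasIt T s 𝔖.dm i ∈ 𝔖.S.Left) ∧ PvwLE T (fun i => T.src (pvasIt T s 𝔖.dm i)) n 𝔖.inn

/-- a gate of record is a topological gate -/
theorem pvca_gt_gate {𝔖 : PvwSt T} {h : ℝ} {z : ℂ} {τ : PvwTy} (hG : 𝔖.Gate pos h z τ s) : PvcaGt T s 𝔖 := ⟨hG.bw_m, hG.dp_on, hG.two, hG.strand⟩

namespace PvcaGt

variable {𝔖 : PvwSt T}

theorem v0 (G : PvcaGt T s 𝔖) : 𝔖.inn.v 0 = 𝔖.gm := by
  obtain ⟨n, -, -, h⟩ := G.strand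
  exact pvt_sd_v0 h

theorem vn (G : PvcaGt T s 𝔖) : 𝔖.inn.v 𝔖.inn.n = 𝔖.gp := by
  obtain ⟨n, e, -, h⟩ := G.strand
  rw [pvt_sd_vn h, e]
  rfl

theorem ins (G : PvcaGt T s 𝔖) (hT : T.IsSph) {v : V} (hv : v ∈ 𝔖.inn.verts) : v ∈ 𝔖.ins := by
  obtain ⟨n, e, hL, h⟩ := G.strand
  obtain ⟨i, hi, rfl⟩ := pvt_sd_verts h hv
  rcases Nat.lt_or_ge i n with h1 | h1
  · exact ⟨_, hL i h1, rfl⟩
  · have e1 : i = n := le_antisymm hi h1
    obtain ⟨k, hk⟩ := G.dp_on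
    refine ⟨T.nxt (𝔖.S.e k), (pl_left_face 𝔖.S _).2 ((pl_jordan hT 𝔖.S).2.1 k), ?_⟩
    rw [e1, e, T.src_nxt, hk, T.tgt_opp]

theorem black (G : PvcaGt T s 𝔖) {v : V} (hv : v ∈ 𝔖.inn.verts) : s v = true := by
  obtain ⟨n, -, -, h⟩ := G.strand
  obtain ⟨i, -, rfl⟩ := pvt_sd_verts h hv
  exact (pvas_it_bw G.bw_m i).1

/-- a vertex of the inner arc which is not strictly inside the gate is `g⁺` or `g⁻` -/
theorem bd (G : PvcaGt T s 𝔖) (hT : T.IsSph) {v : V} (hv : v ∈ 𝔖.inn.verts) (ho : v ∉ T.Int 𝔖.S.Left) : v = 𝔖.gp ∨ v = 𝔖.gm := by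
  have h1 : v ∈ T.VOf 𝔖.S.Left := G.ins hT hv
  rw [pl_VOf_left hT] at h1
  rcases h1 with h1 | h1
  · exact G.two v h1 (G.black hv)
  · exact absurd h1 ho

theorem gp_mem (G : PvcaGt T s 𝔖) : 𝔖.gp ∈ 𝔖.S.verts := by
  obtain ⟨i, hi⟩ := G.dp_on
  refine ⟨i + 1, ?_⟩
  rw [← 𝔖.S.chain, hi, T.tgt_opp]
  rfl

end PvcaGt

/-- **`𝔖` IS THE STATE OF THE DOOR `g`**: empty stubs      (`pvilStS` of `Tr/InstL` v2.1, `pvkdSt` of 34) -/
structure PvcaDr (g : T.Gate s) (𝔖 : PvwSt T) : Prop where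
  S : 𝔖.S = g.c
  dp : 𝔖.dp = g.aOut
  dm : 𝔖.dm = g.aIn
  np : 𝔖.np = 0
  nm : 𝔖.nm = 0
  ep : 𝔖.ep 0 = g.aOut
  em : 𝔖.em 0 = g.aIn
  /-- the through strand and its rim arc -/
  thru : ∃ n, pvasIt T s g.aIn n = g.aOut ∧ (∀ i, i < n → pvasIt T s g.aIn i ∈ g.c.Left) ∧ PvwLE T (fun i => T.src (pvasIt T s g.aIn i)) n 𝔖.inn

namespace PvcaDr

variable {g : T.Gate s} {𝔖 : PvwSt T}

theorem gp (H : PvcaDr g 𝔖) : 𝔖.gp = g.vp := by
  unfold PvwSt.gp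
  rw [H.dp, pvtg_aOut_src]

theorem gm (H : PvcaDr g 𝔖) : 𝔖.gm = g.vm := by
  unfold PvwSt.gm
  rw [H.dm]
  rfl

/-- a door is a topological gate -/
theorem gt (H : PvcaDr g 𝔖) : PvcaGt T s 𝔖 where
  bw_m := by rw [H.dm]; exact pvtg_aIn_bw g
  dp_on := by
    rw [H.dp, H.S]
    exact ⟨g.m - 1, by unfold PvMap.Gate.aOut; rw [T.opp_opp]⟩
  two v hv hb := by
    rw [H.S] at hv
    rw [H.gp, H.gm]
    exact (pvtg_black g hv hb).symm
  strand := by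
    rw [H.dm, H.dp, H.S]
    exact H.thru

end PvcaDr

/-! ## 3. links in strand form -/

/-- **A LINK IN STRAND FORM** `𝔖 → 𝔖'`, run of `n` steps, rim arc `y`: `Pvtk2Run` of 118 (`= PvilLk.Run` of 168 by `Iff.rfl`) + `LE` + the two stubs are pieces of the strand + the vertex masks `Mp`, `Mm` of the two erased banks.
Of `𝔖` only `dp np ep` are read, of `𝔖'` only `dm nm em`. -/
structure PvcaLk (T : PvMap V D) (s : V → Bool) (pos : V → ℂ) (𝔖 𝔖' : PvwSt T) (y : T.Pth) (Mp Yin Mm : Set ℂ) (n : ℕ) : Prop where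
  bw : pvasBW T s 𝔖.dp
  ep_it : ∀ i, i ≤ 𝔖.np → 𝔖.ep i = pvasIt T s 𝔖.dp i
  em_it : ∀ i, i ≤ 𝔖'.nm → 𝔖'.em i = (pvasBack T s)^[i] 𝔖'.dm
  mask_p : ∀ x : T.Pth, PvwLE T (fun i => T.src (𝔖.ep i)) 𝔖.np x → ∀ v ∈ x.verts, pos v ∈ Mp
  mask_m : ∀ x : T.Pth, PvwLE T (fun i => T.src (𝔖'.em i)) 𝔖'.nm x → ∀ v ∈ x.verts, pos v ∈ Mm
  run : Pvtk2Run T s pos 𝔖 𝔖' Yin n
  le : PvwLE T (fun i => T.src (pvasIt T s 𝔖.dp i)) n y

/-- the vertices of a loop erasure are vertices of the walk -/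
theorem pvca_le_verts {b : ℕ → V} {n : ℕ} {x : T.Pth} (h : PvwLE T b n x) {v : V} (hv : v ∈ x.verts) : ∃ i, i ≤ n ∧ v = b i := by
  obtain ⟨j, -, -, hk, -⟩ := h
  obtain ⟨k, hkn, rfl⟩ := hv
  exact ⟨j k, (hk k hkn).1, (hk k hkn).2.1⟩

namespace PvcaLk

variable {𝔖 𝔖' : PvwSt T} {y : T.Pth} {Mp Yin Mm : Set ℂ} {n : ℕ}

theorem inj (L : PvcaLk T s pos 𝔖 𝔖' y Mp Yin Mm n) : ∀ i j, i < n → j < n → pvasIt T s 𝔖.dp i = pvasIt T s 𝔖.dp j → i = j := pvtk2_inj L.bw L.run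

theorem hit (L : PvcaLk T s pos 𝔖 𝔖' y Mp Yin Mm n) : pvasIt T s 𝔖.dp n = 𝔖'.dm := L.run.2.1

theorem first (L : PvcaLk T s pos 𝔖 𝔖' y Mp Yin Mm n) : ∀ i, i < n → pvasIt T s 𝔖.dp i ≠ 𝔖'.dm := L.run.2.2.1

theorem v0 (L : PvcaLk T s pos 𝔖 𝔖' y Mp Yin Mm n) : y.v 0 = 𝔖.gp := pvt_sd_v0 L.le

theorem vn (L : PvcaLk T s pos 𝔖 𝔖' y Mp Yin Mm n) : y.v y.n = 𝔖'.gm := by
  rw [pvt_sd_vn L.le, L.hit]
  rfl

/-- the last positions of the run are the entrance stub of `𝔖'` -/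
theorem tail (L : PvcaLk T s pos 𝔖 𝔖' y Mp Yin Mm n) {i : ℕ} (hi : i ≤ 𝔖'.nm) : pvasIt T s 𝔖.dp (n - i) = 𝔖'.em i := by
  rw [pvjs_tail L.bw L.hit i (by have := L.run.1; omega), L.em_it i hi]

/-- **the three kinds of positions of the run**: exit stub of `𝔖`, new, entrance stub of `𝔖'` -/
theorem kind (L : PvcaLk T s pos 𝔖 𝔖' y Mp Yin Mm n) {t : ℕ} (ht : t ≤ n) :
    (t ≤ 𝔖.np ∧ pvasIt T s 𝔖.dp t = 𝔖.ep t) ∨ (pos (T.src (pvasIt T s 𝔖.dp t)) ∈ Yin ∧ pos (T.tgt (pvasIt T s 𝔖.dp t)) ∈ Yin) ∨ ∃ i, i ≤ 𝔖'.nm ∧ pvasIt T s 𝔖.dp t = 𝔖'.em i := by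
  by_cases h1 : t ≤ 𝔖.np
  · exact Or.inl ⟨h1, (L.ep_it t h1).symm⟩
  · by_cases h2 : t + 𝔖'.nm < n
    · exact Or.inr (Or.inl (L.run.2.2.2 t (by omega) h2))
    · refine Or.inr (Or.inr ⟨n - t, by omega, ?_⟩)
      rw [← L.tail (by omega)]
      congr 1
      omega

/-- the black bank of the run -/
theorem lay (L : PvcaLk T s pos 𝔖 𝔖' y Mp Yin Mm n) {v : V} (hv : v ∈ pvasLayB T s 𝔖.dp n) :
    (∃ i, i ≤ 𝔖.np ∧ v = T.src (𝔖.ep i)) ∨ pos v ∈ Yin ∨ ∃ i, i ≤ 𝔖'.nm ∧ v = T.src (𝔖'.em i) := by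
  obtain ⟨t, ht, rfl⟩ := hv
  rcases L.kind ht with ⟨h1, e⟩ | h | ⟨i, hi, e⟩
  · exact Or.inl ⟨t, h1, by rw [e]⟩
  · exact Or.inr (Or.inl h.1)
  · exact Or.inr (Or.inr ⟨i, hi, by rw [e]⟩)

/-- **THE THREE KINDS OF VERTICES OF THE ARC OF A LINK**: on the exit stub AND over the mask `Mp` | over `Yin` | on the entrance stub AND over the mask `Mm`      (sandwich of 158; proof of `pvtk2_arc_verts` of 118) -/
theorem tri (L : PvcaLk T s pos 𝔖 𝔖' y Mp Yin Mm n) (hT : T.IsSph) (hS : T.Simple) {v : V} (hv : v ∈ y.verts) :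
    ((∃ i, i ≤ 𝔖.np ∧ v = T.src (𝔖.ep i)) ∧ pos v ∈ Mp) ∨ pos v ∈ Yin ∨ ((∃ i, i ≤ 𝔖'.nm ∧ v = T.src (𝔖'.em i)) ∧ pos v ∈ Mm) := by
  classical
  obtain ⟨k, hk, rfl⟩ := hv
  have hbw := L.bw
  have hle := L.run.1
  have hinj := L.inj
  have hy := L.le
  -- the erased bank of the exit stub
  have hp' : PvwLE T (fun i => T.src (pvasIt T s 𝔖.dp i)) 𝔖.np (pvtArc T s 𝔖.dp 𝔖.np) :=
    pvt_sd_le hT hS hbw fun i j hi hj => hinj i j (by omega) (by omega)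
  have hp : PvwLE T (fun i => T.src (𝔖.ep i)) 𝔖.np (pvtArc T s 𝔖.dp 𝔖.np) := pvjs_le_walk_congr (fun i hi => by rw [L.ep_it i hi]) hp'
  -- the erased bank of the entrance stub, read backwards
  set a2 := pvasIt T s 𝔖.dp (n - 𝔖'.nm) with ha2
  have hbw2 : pvasBW T s a2 := pvas_it_bw hbw _
  have hinj2 : ∀ i j, i < 𝔖'.nm → j < 𝔖'.nm → pvasIt T s a2 i = pvasIt T s a2 j → i = j := by
    intro i j hi hj e
    rw [ha2, ← pvas_it_add, ← pvas_it_add] at e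
    have := hinj _ _ (by omega) (by omega) e
    omega
  have hz : PvwLE T (fun i => T.src (pvasIt T s a2 i)) 𝔖'.nm (pvtArc T s a2 𝔖'.nm) := pvt_sd_le hT hS hbw2 hinj2
  have hzr : PvwLE T (fun i => T.src (pvasIt T s a2 (𝔖'.nm - i))) 𝔖'.nm (pvtArc T s a2 𝔖'.nm).rev := by
    rw [pvjs_le_rev hT hS hbw2 hinj2]
    refine pvjs_le_pth_congr (y := pvtArc T s a2 𝔖'.nm) rfl (fun k hk => ?_) hz
    show _ = (pvtArc T s a2 𝔖'.nm).v ((pvtArc T s a2 𝔖'.nm).n - ((pvtArc T s a2 𝔖'.nm).n - k))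
    congr 1
    omega
  have e0 : n - (n - 𝔖'.nm) = 𝔖'.nm := by omega
  have hm' : PvwLE T (fun i => T.src (pvasIt T s 𝔖.dp (n - i))) (n - (n - 𝔖'.nm)) (pvtArc T s a2 𝔖'.nm).rev := by
    rw [e0]
    refine pvjs_le_walk_congr (fun i hi => ?_) hzr
    show T.src (pvasIt T s a2 (𝔖'.nm - i)) = T.src (pvasIt T s 𝔖.dp (n - i))
    rw [ha2, ← pvas_it_add]
    congr 2
    omega
  have hm : PvwLE T (fun i => T.src (𝔖'.em i)) 𝔖'.nm (pvtArc T s a2 𝔖'.nm).rev := by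
    rw [e0] at hm'
    exact pvjs_le_walk_congr (fun i hi => by show T.src (pvasIt T s 𝔖.dp (n - i)) = _; rw [L.tail hi]) hm'
  obtain ⟨K, L', c1, c2, c3, c4, -, c6, -, -, c9⟩ := pvjs_sandwich hT hS hbw (m₁ := 𝔖.np) (m₂ := n - 𝔖'.nm) (by omega) (Nat.sub_le _ _) hinj hy hp' hm'
  by_cases k1 : k ≤ K
  · left
    rw [c4 k k1]
    have hmem : (pvtArc T s 𝔖.dp 𝔖.np).v k ∈ (pvtArc T s 𝔖.dp 𝔖.np).verts := ⟨k, by omega, rfl⟩
    exact ⟨pvca_le_verts hp hmem, L.mask_p _ hp _ hmem⟩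
  · by_cases k2 : k + L' < y.n
    · obtain ⟨t, t1, t2, t3⟩ := c9 k (by omega) k2
      right; left
      rw [t3]
      exact (L.run.2.2.2 t t1 (by omega)).1
    · right; right
      have e : y.v k = (pvtArc T s a2 𝔖'.nm).rev.v (y.n - k) := by
        rw [← c6 (y.n - k) (by omega)]
        congr 1
        omega
      rw [e]
      have hmem : (pvtArc T s a2 𝔖'.nm).rev.v (y.n - k) ∈ (pvtArc T s a2 𝔖'.nm).rev.verts := ⟨y.n - k, by omega, rfl⟩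
      exact ⟨pvca_le_verts hm hmem, L.mask_m _ hm _ hmem⟩

/-- **THE ROOM OF THE ARC OF A LINK** (`y_rm` of `Pvcy2Rm` of 48, `Yr := Mp ∪ Yin ∪ Mm`) -/
theorem room (L : PvcaLk T s pos 𝔖 𝔖' y Mp Yin Mm n) (hT : T.IsSph) (hS : T.Simple) {v : V} (hv : v ∈ y.verts) : pos v ∈ Mp ∪ Yin ∪ Mm := by
  rcases L.tri hT hS hv with h | h | h
  · exact Or.inl (Or.inl h.2)
  · exact Or.inl (Or.inr h)
  · exact Or.inr h.2

/-- the link reads `dp np ep` of its first record, `dm nm em` of its second record -/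
theorem congr (L : PvcaLk T s pos 𝔖 𝔖' y Mp Yin Mm n) {𝔗 𝔗' : PvwSt T} (h1 : 𝔗.dp = 𝔖.dp) (h2 : 𝔗.np = 𝔖.np) (h3 : ∀ i, i ≤ 𝔖.np → 𝔗.ep i = 𝔖.ep i)
    (h4 : 𝔗'.dm = 𝔖'.dm) (h5 : 𝔗'.nm = 𝔖'.nm) (h6 : ∀ i, i ≤ 𝔖'.nm → 𝔗'.em i = 𝔖'.em i) : PvcaLk T s pos 𝔗 𝔗' y Mp Yin Mm n where
  bw := by rw [h1]; exact L.bw
  ep_it i hi := by rw [h2] at hi; rw [h3 i hi, h1]; exact L.ep_it i hi
  em_it i hi := by rw [h5] at hi; rw [h6 i hi, h4]; exact L.em_it i hi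
  mask_p x hx := by
    rw [h2] at hx
    exact L.mask_p x (pvjs_le_walk_congr (fun i hi => by rw [h3 i hi]) hx)
  mask_m x hx := by
    rw [h5] at hx
    exact L.mask_m x (pvjs_le_walk_congr (fun i hi => by rw [h6 i hi]) hx)
  run := by
    have := L.run
    unfold Pvtk2Run at this ⊢
    rw [h1, h2, h4, h5]
    exact this
  le := by rw [h1]; exact L.le

/-- larger rooms -/
theorem mono (L : PvcaLk T s pos 𝔖 𝔖' y Mp Yin Mm n) {Mp' Yin' Mm' : Set ℂ} (h1 : Mp ⊆ Mp') (h2 : Yin ⊆ Yin') (h3 : Mm ⊆ Mm') : PvcaLk T s pos 𝔖 𝔖' y Mp' Yin' Mm' n where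
  bw := L.bw
  ep_it := L.ep_it
  em_it := L.em_it
  mask_p x hx v hv := h1 (L.mask_p x hx v hv)
  mask_m x hx v hv := h3 (L.mask_m x hx v hv)
  run := ⟨L.run.1, L.run.2.1, L.run.2.2.1, fun i hi hi' => ⟨h2 (L.run.2.2.2 i hi hi').1, h2 (L.run.2.2.2 i hi hi').2⟩⟩
  le := L.le

end PvcaLk

/-! ## 4. the abstract theorem -/

/-- **(H), ABSTRACT FORM**: `K` topological gates in cyclic order, `K` runs;   the closed insides of the gates are pairwise disjoint, the arcs of the links are pairwise disjoint, no vertex of an arc lies strictly inside a gate -/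
theorem pvca_cyc (hT : T.IsSph) {K : ℕ} (hK : 0 < K) {𝔖 : ℕ → PvwSt T} {y : ℕ → T.Pth} (per : 𝔖 K = 𝔖 0) (gt : ∀ j, j < K → PvcaGt T s (𝔖 j))
    (run : ∀ j, j < K → ∃ n, pvasIt T s (𝔖 j).dp n = (𝔖 (j + 1)).dm ∧ PvwLE T (fun i => T.src (pvasIt T s (𝔖 j).dp i)) n (y j))
    (GG : ∀ i j, i < j → j < K → Disjoint (𝔖 i).ins (𝔖 j).ins) (YY : ∀ i j, i < j → j < K → Disjoint (y i).verts (y j).verts)
    (out : ∀ i j, i < K → j < K → ∀ v ∈ (y j).verts, v ∉ T.Int (𝔖 i).S.Left) : Pvcy2Cyc T s K 𝔖 y where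
  per := per
  bw := (gt 0 hK).bw_m
  inn j hj := by
    obtain ⟨n, e, -, h⟩ := (gt j hj).strand
    exact ⟨n, e, h⟩
  run := run
  ii i j hij hj k l hk hl e :=
    Set.disjoint_left.1 (GG i j hij hj) ((gt i (by omega)).ins hT ⟨k + 1, hk, rfl⟩) ((gt j hj).ins hT ⟨l + 1, hl, e.symm⟩)
  yy i j hij hj k l hk hl e := Set.disjoint_left.1 (YY i j hij hj) ⟨k + 1, hk, rfl⟩ ⟨l + 1, hl, e.symm⟩
  iy i j hi hj k l hk hl e := by
    have hv : (𝔖 i).inn.v (k + 1) ∈ (𝔖 i).inn.verts := ⟨k + 1, hk, rfl⟩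
    have hy : (𝔖 i).inn.v (k + 1) ∈ (y j).verts := ⟨l + 1, hl, e.symm⟩
    rcases (gt i hi).bd hT hv (out i j hi hj _ hy) with h | h
    · -- `g⁺` of the gate `i` is the first vertex of the arc `i`
      obtain ⟨n, -, hn⟩ := run i hi
      have h0 : (y i).v 0 = (𝔖 i).gp := pvt_sd_v0 hn
      rcases lt_trichotomy i j with hij | hij | hij
      · exact Set.disjoint_left.1 (YY i j hij hj) ⟨0, Nat.zero_le _, h0.trans h.symm⟩ hy
      · subst hij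
        have := (y i).inj (l + 1) 0 hl (Nat.zero_le _) (by rw [← e, h, h0])
        omega
      · exact Set.disjoint_left.1 (YY j i hij hi) hy ⟨0, Nat.zero_le _, h0.trans h.symm⟩
    · have := (𝔖 i).inn.inj (k + 1) 0 hk (Nat.zero_le _) (by rw [h, (gt i hi).v0])
      omega

/-! ## 5. the menu for `out` -/

/-- **the gate left behind** (`pvki_off_src` of 244 WITHOUT the finiteness of the inside): a strand from `aOut` which reaches `a₁ ∉ Left` for the first time at the time `N` and whose black bank avoids `g⁻` does not come back into the gate -/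
theorem pvca_off_src (hT : T.IsSph) (g : T.Gate s) {a₁ : D} {N : ℕ} (hN : pvasIt T s g.aOut N = a₁) (hfirst : ∀ i, i < N → pvasIt T s g.aOut i ≠ a₁)
    (hvm : g.vm ∉ pvasLayB T s g.aOut N) (ha₁ : a₁ ∉ g.c.Left) {i : ℕ} (hi : i ≤ N) : pvasIt T s g.aOut i ∉ g.c.Left := by
  intro hin
  have hout : pvasOut T g.c.Left s g.aOut := (pvtg_out_iff hT g _).2 (Or.inl rfl)
  obtain ⟨k, hk1, hki, hk⟩ := pvki_first_in (pl_left_face g.c) (pvtg_aOut_bw g) hout.1 hin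
  -- the strand is inside at the time `k`, outside at the time `N`: it passes an exit
  have hR := (pl_jordan hT g.c).1
  have hF : T.FaceSet g.c.Leftᶜ := by rw [← hR]; exact pl_right_face g.c
  have e1 : pvasIt T s (pvasIt T s g.aOut k) (N - k) = a₁ := by
    rw [← pvas_it_add, ← hN]
    congr 1
    omega
  obtain ⟨r, hr1, hr2, h1, h2, h3⟩ := pvki_first_in hF (pvas_it_bw (pvtg_aOut_bw g) k) (fun hc => hc hk.1) (i := N - k) (by rw [e1]; exact ha₁)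
  rw [← pvas_it_add] at h1 h2 h3
  have hex : pvasOut T g.c.Left s (pvasIt T s g.aOut (k + r)) := ⟨h1, not_not.1 h2, h3⟩
  rcases (pvtg_out_iff hT g _).1 hex with e | e
  · apply hfirst (N - (k + r)) (by omega)
    have : pvasIt T s g.aOut N = pvasIt T s (pvasIt T s g.aOut (k + r)) (N - (k + r)) := by
      rw [← pvas_it_add]; congr 1; omega
    rw [← hN, this, e]
  · exact hvm ⟨k + r, by omega, by rw [e]; exact pvtg_bOut_src g⟩

namespace PvcaLk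

variable {𝔖 𝔖' : PvwSt T} {y : T.Pth} {Mp Yin Mm : Set ℂ} {n : ℕ}

/-- every vertex of the arc is the black end of a dart -/
theorem src_ex (L : PvcaLk T s pos 𝔖 𝔖' y Mp Yin Mm n) {v : V} (hv : v ∈ y.verts) : ∃ t, t ≤ n ∧ v = T.src (pvasIt T s 𝔖.dp t) := pvca_le_verts L.le hv

/-- **FAR GATE**: the room of the link misses the disc of the gate -/
theorem out_far (L : PvcaLk T s pos 𝔖 𝔖' y Mp Yin Mm n) (hT : T.IsSph) (hS : T.Simple) {A : Set D} {Dk : Set ℂ} (hD : ∀ u ∈ T.VOf A, pos u ∈ Dk)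
    (h : Disjoint Dk (Mp ∪ Yin ∪ Mm)) {v : V} (hv : v ∈ y.verts) : v ∉ T.Int A := by
  obtain ⟨t, -, e⟩ := L.src_ex hv
  have h1 := L.room hT hS hv
  rw [e] at h1 ⊢
  exact pvca_int_pos hD fun hc => Set.disjoint_left.1 h hc h1

/-- **MARKED PIN BEHIND**: the exit stub does not return into the gate (`GoodOut.off_p`), the room of the new part and the mask of the other end miss the disc -/
theorem out_pin_b (L : PvcaLk T s pos 𝔖 𝔖' y Mp Yin Mm n) (hT : T.IsSph) (hS : T.Simple) {A : Set D} {Dk : Set ℂ} (hD : ∀ u ∈ T.VOf A, pos u ∈ Dk)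
    (off : ∀ i, i ≤ 𝔖.np → 𝔖.ep i ∉ A) (h : Disjoint Dk (Yin ∪ Mm)) {v : V} (hv : v ∈ y.verts) : v ∉ T.Int A := by
  obtain ⟨t, -, e⟩ := L.src_ex hv
  rcases L.tri hT hS hv with ⟨⟨i, hi, e'⟩, -⟩ | h1 | ⟨-, h1⟩
  · rw [e']
    exact pvca_int_dart (off i hi)
  · rw [e] at h1 ⊢
    exact pvca_int_pos hD fun hc => Set.disjoint_left.1 h hc (Or.inl h1)
  · rw [e] at h1 ⊢
    exact pvca_int_pos hD fun hc => Set.disjoint_left.1 h hc (Or.inr h1)

/-- **MARKED PIN AHEAD**: the entrance stub does not come out of the gate (`GoodIn.off_m`), the mask of the other end and the room of the new part miss the disc -/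
theorem out_pin_a (L : PvcaLk T s pos 𝔖 𝔖' y Mp Yin Mm n) (hT : T.IsSph) (hS : T.Simple) {A : Set D} (hA : T.FaceSet A) {Dk : Set ℂ} (hD : ∀ u ∈ T.VOf A, pos u ∈ Dk)
    (off : ∀ i, i ≤ 𝔖'.nm → T.opp (𝔖'.em i) ∉ A) (h : Disjoint Dk (Mp ∪ Yin)) {v : V} (hv : v ∈ y.verts) : v ∉ T.Int A := by
  obtain ⟨t, -, e⟩ := L.src_ex hv
  rcases L.tri hT hS hv with ⟨-, h1⟩ | h1 | ⟨⟨i, hi, e'⟩, -⟩
  · rw [e] at h1 ⊢
    exact pvca_int_pos hD fun hc => Set.disjoint_left.1 h hc (Or.inl h1)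
  · rw [e] at h1 ⊢
    exact pvca_int_pos hD fun hc => Set.disjoint_left.1 h hc (Or.inr h1)
  · rw [e']
    exact pvca_int_opp hA (off i hi)

/-- **DOOR BEHIND** (F1 of 125; `pvca_off_src`): `g⁻` is not on the black bank of the run, the run does not end inside the gate -/
theorem out_door_b (L : PvcaLk T s pos 𝔖 𝔖' y Mp Yin Mm n) (hT : T.IsSph) (g : T.Gate s) (hp : 𝔖.dp = g.aOut)
    (hvm : g.vm ∉ pvasLayB T s 𝔖.dp n) (ha : 𝔖'.dm ∉ g.c.Left) {v : V} (hv : v ∈ y.verts) : v ∉ T.Int g.c.Left := by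
  obtain ⟨t, ht, e⟩ := L.src_ex hv
  rw [e]
  refine pvca_int_dart ?_
  have h1 := L.hit
  have h2 := L.first
  rw [hp] at h1 h2 hvm ⊢
  exact pvca_off_src hT g h1 h2 hvm ha ht

/-- **DOOR AHEAD** (F1 of 125; `pvki_off_tgt` of 244): `g⁺` is not on the black bank of the run, the run does not start inside the gate -/
theorem out_door_a (L : PvcaLk T s pos 𝔖 𝔖' y Mp Yin Mm n) (hT : T.IsSph) (g : T.Gate s) (hm : 𝔖'.dm = g.aIn)
    (hvp : g.vp ∉ pvasLayB T s 𝔖.dp n) (ha : 𝔖.dp ∉ g.c.Left) {v : V} (hv : v ∈ y.verts) : v ∉ T.Int g.c.Left := by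
  obtain ⟨t, ht, e⟩ := L.src_ex hv
  rw [e]
  rcases Nat.lt_or_ge t n with h | h
  · refine pvca_int_dart ?_
    have h2 := L.first
    rw [hm] at h2
    exact pvki_off_tgt hT g L.bw ha h2 hvp h
  · have e1 : t = n := le_antisymm ht h
    rw [e1, L.hit, hm]
    exact pvca_int_vert hT g.c ⟨0, rfl⟩

/-- F1 from the rooms, door behind: `g⁻` is not over the room of the new part, it is not on the entrance stub of the other end -/
theorem vm_off (L : PvcaLk T s pos 𝔖 𝔖' y Mp Yin Mm n) (g : T.Gate s) (hp : 𝔖.dp = g.aOut) (hnp : 𝔖.np = 0) (hY : pos g.vm ∉ Yin)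
    (hB : ∀ i, i ≤ 𝔖'.nm → T.src (𝔖'.em i) ≠ g.vm) : g.vm ∉ pvasLayB T s 𝔖.dp n := by
  intro hv
  rcases L.lay hv with ⟨i, hi, e⟩ | h | ⟨i, hi, e⟩
  · have hi0 : i = 0 := by omega
    rw [hi0, L.ep_it 0 (Nat.zero_le _), hp] at e
    have e2 : g.vm = g.vp := by rw [e]; exact pvtg_aOut_src g
    exact pvtg_ne g e2
  · exact hY h
  · exact hB i hi e.symm

/-- F1 from the rooms, door ahead: `g⁺` is not over the room of the new part, it is not on the exit stub of the other end -/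
theorem vp_off (L : PvcaLk T s pos 𝔖 𝔖' y Mp Yin Mm n) (g : T.Gate s) (hm : 𝔖'.dm = g.aIn) (hnm : 𝔖'.nm = 0) (hY : pos g.vp ∉ Yin)
    (hB : ∀ i, i ≤ 𝔖.np → T.src (𝔖.ep i) ≠ g.vp) : g.vp ∉ pvasLayB T s 𝔖.dp n := by
  intro hv
  rcases L.lay hv with ⟨i, hi, e⟩ | h | ⟨i, hi, e⟩
  · exact hB i hi e.symm
  · exact hY h
  · have hi0 : i = 0 := by omega
    rw [hi0, L.em_it 0 (Nat.zero_le _), hm] at e
    exact pvtg_ne g e.symm

end PvcaLk

/-! ## 6. ONE THEOREM -/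

/-- **THE ROOMS OF A CYCLE** (deterministic): `Dk j` = the disc of the plug `j`, `Yr j` = the room of the arc of the link `j : plug j → plug (j + 1)` -/
structure PvcaRm (K : ℕ) (Dk Yr : ℕ → Set ℂ) : Prop where
  DD : ∀ i j, i < j → j < K → Disjoint (Dk i) (Dk j)
  RR : ∀ i j, i < j → j < K → Disjoint (Yr i) (Yr j)
  far : ∀ i j, i < K → j < K → i ≠ j → i ≠ (j + 1) % K → Disjoint (Dk i) (Yr j)

/-- **(H), ONE THEOREM**: `K` plugs in cyclic order (`𝔖 j` = the record with the gate part and the exit stub, `𝔖' j` = the record with the entrance stub: same entry gate edge), `K` links in strand form, rooms pairwise disjoint,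
no vertex of an arc strictly inside the two gates of its link (menu of sec. 5)   ⟹   `Pvcy2Cyc` of 48 and the rooms of the arcs (`y_rm` of `Pvcy2Rm`) -/
theorem pvca_ring (hT : T.IsSph) (hS : T.Simple) {K : ℕ} (hK : 0 < K) {𝔖 𝔖' : ℕ → PvwSt T} {y : ℕ → T.Pth} {Dk Mp Yin Mm : ℕ → Set ℂ} (per : 𝔖 K = 𝔖 0)
    (gt : ∀ j, j < K → PvcaGt T s (𝔖 j)) (dm : ∀ j, j < K → (𝔖' (j + 1)).dm = (𝔖 (j + 1)).dm)
    (lk : ∀ j, j < K → ∃ n, PvcaLk T s pos (𝔖 j) (𝔖' (j + 1)) (y j) (Mp j) (Yin j) (Mm (j + 1)) n)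
    (ins : ∀ j, j < K → ∀ u ∈ (𝔖 j).ins, pos u ∈ Dk j)
    (own : ∀ j, j < K → ∀ v ∈ (y j).verts, v ∉ T.Int (𝔖 j).S.Left ∧ v ∉ T.Int (𝔖 (j + 1)).S.Left)
    (R : PvcaRm K Dk fun j => Mp j ∪ Yin j ∪ Mm (j + 1)) :
    Pvcy2Cyc T s K 𝔖 y ∧ ∀ j, j < K → ∀ v ∈ (y j).verts, pos v ∈ Mp j ∪ Yin j ∪ Mm (j + 1) := by
  have room : ∀ j, j < K → ∀ v ∈ (y j).verts, pos v ∈ Mp j ∪ Yin j ∪ Mm (j + 1) := by
    intro j hj v hv
    obtain ⟨n, L⟩ := lk j hj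
    exact L.room hT hS hv
  refine ⟨pvca_cyc hT hK per gt ?_ ?_ ?_ ?_, room⟩
  · intro j hj
    obtain ⟨n, L⟩ := lk j hj
    exact ⟨n, by rw [L.hit, dm j hj], L.le⟩
  · intro i j hij hj
    exact Set.disjoint_left.2 fun v h1 h2 => Set.disjoint_left.1 (R.DD i j hij hj) (ins i (by omega) v h1) (ins j hj v h2)
  · intro i j hij hj
    exact Set.disjoint_left.2 fun v h1 h2 => Set.disjoint_left.1 (R.RR i j hij hj) (room i (by omega) v h1) (room j hj v h2)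
  · intro i j hi hj v hv
    by_cases h1 : i = j
    · subst h1
      exact (own i hi v hv).1
    · by_cases h2 : i = (j + 1) % K
      · have e : 𝔖 i = 𝔖 (j + 1) := by
          rcases Nat.lt_or_ge (j + 1) K with h | h
          · rw [h2, Nat.mod_eq_of_lt h]
          · have e1 : j + 1 = K := by omega
            rw [h2, e1, Nat.mod_self, per]
        rw [e]
        exact (own j hj v hv).2
      · obtain ⟨n, L⟩ := lk j hj
        exact L.out_far hT hS (ins i hi) (R.far i j hi hj h1 h2) hv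

/-! ## 7. ends of links, `own` for the three kinds of special links, cells -/

/-- **EXIT END** of a link: what a link reads of its first record -/
structure PvcaEo (T : PvMap V D) (s : V → Bool) (pos : V → ℂ) (𝔖 : PvwSt T) (Mp : Set ℂ) : Prop where
  bw : pvasBW T s 𝔖.dp
  ep_it : ∀ i, i ≤ 𝔖.np → 𝔖.ep i = pvasIt T s 𝔖.dp i
  mask_p : ∀ x : T.Pth, PvwLE T (fun i => T.src (𝔖.ep i)) 𝔖.np x → ∀ v ∈ x.verts, pos v ∈ Mp

/-- **ENTRANCE END** of a link: what a link reads of its second record -/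
structure PvcaEi (T : PvMap V D) (s : V → Bool) (pos : V → ℂ) (𝔖' : PvwSt T) (Mm : Set ℂ) : Prop where
  em_it : ∀ i, i ≤ 𝔖'.nm → 𝔖'.em i = (pvasBack T s)^[i] 𝔖'.dm
  mask_m : ∀ x : T.Pth, PvwLE T (fun i => T.src (𝔖'.em i)) 𝔖'.nm x → ∀ v ∈ x.verts, pos v ∈ Mm

/-- two ends + a run + its rim arc = a link -/
theorem pvca_lk {𝔖 𝔖' : PvwSt T} {y : T.Pth} {Mp Yin Mm : Set ℂ} {n : ℕ} (E : PvcaEo T s pos 𝔖 Mp) (E' : PvcaEi T s pos 𝔖' Mm) (run : Pvtk2Run T s pos 𝔖 𝔖' Yin n)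
    (le : PvwLE T (fun i => T.src (pvasIt T s 𝔖.dp i)) n y) : PvcaLk T s pos 𝔖 𝔖' y Mp Yin Mm n := ⟨E.bw, E.ep_it, E'.em_it, E.mask_p, E'.mask_m, run, le⟩

/-- the exit end of a door: the mask is any set which contains `g⁺` -/
theorem PvcaDr.eo {g : T.Gate s} {𝔖 : PvwSt T} (H : PvcaDr g 𝔖) {Mp : Set ℂ} (h : pos g.vp ∈ Mp) : PvcaEo T s pos 𝔖 Mp where
  bw := by rw [H.dp]; exact pvtg_aOut_bw g
  ep_it i hi := by
    have hi0 : i = 0 := by have := H.np; omega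
    rw [hi0, H.ep, H.dp]
    rfl
  mask_p x hx v hv := by
    obtain ⟨i, hi, e⟩ := pvca_le_verts hx hv
    have hi0 : i = 0 := by have := H.np; omega
    rw [e, hi0, H.ep, pvtg_aOut_src]
    exact h

/-- the entrance end of a door: the mask is any set which contains `g⁻` -/
theorem PvcaDr.ei {g : T.Gate s} {𝔖 : PvwSt T} (H : PvcaDr g 𝔖) {Mm : Set ℂ} (h : pos g.vm ∈ Mm) : PvcaEi T s pos 𝔖 Mm where
  em_it i hi := by
    have hi0 : i = 0 := by have := H.nm; omega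
    rw [hi0, H.em, H.dm]
    rfl
  mask_m x hx v hv := by
    obtain ⟨i, hi, e⟩ := pvca_le_verts hx hv
    have hi0 : i = 0 := by have := H.nm; omega
    rw [e, hi0, H.em]
    exact h

theorem pvca_vert_left (hT : T.IsSph) (c : T.Cyc) {v : V} (h : v ∈ c.verts) : v ∈ T.VOf c.Left := by
  rw [pl_VOf_left hT]
  exact Or.inl h

theorem pvca_vm_left (hT : T.IsSph) (g : T.Gate s) : g.vm ∈ T.VOf g.c.Left := pvca_vert_left hT g.c ⟨0, rfl⟩

theorem pvca_vp_left (hT : T.IsSph) (g : T.Gate s) : g.vp ∈ T.VOf g.c.Left := pvca_vert_left hT g.c ⟨g.m, rfl⟩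

namespace PvcaLk

variable {𝔖 𝔖' : PvwSt T} {y : T.Pth} {Mp Yin Mm : Set ℂ} {n : ℕ}

/-- **`own`, MARKED PIN → DOOR** (first link `t → door 0`): `A` = the inside of the gate of the pin, `Dk` its disc, `Bx` = a set which contains the black bank of the exit stub (the box);   `g'` = the door, `Dk'` its disc -/
theorem own_pin_door (L : PvcaLk T s pos 𝔖 𝔖' y Mp Yin Mm n) (hT : T.IsSph) (hS : T.Simple) {A : Set D} {Dk Bx Dk' : Set ℂ} (hD : ∀ u ∈ T.VOf A, pos u ∈ Dk)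
    (off : ∀ i, i ≤ 𝔖.np → 𝔖.ep i ∉ A) (hBx : ∀ i, i ≤ 𝔖.np → pos (T.src (𝔖.ep i)) ∈ Bx) (g' : T.Gate s) (hm : 𝔖'.dm = g'.aIn) (hnm : 𝔖'.nm = 0)
    (hD' : ∀ u ∈ T.VOf g'.c.Left, pos u ∈ Dk') (d1 : Disjoint Dk (Yin ∪ Mm)) (d2 : pos g'.vp ∉ Yin ∪ Bx) (d3 : Disjoint Bx Dk') {v : V} (hv : v ∈ y.verts) :
    v ∉ T.Int A ∧ v ∉ T.Int g'.c.Left := by
  refine ⟨L.out_pin_b hT hS hD off d1 hv, L.out_door_a hT g' hm (L.vp_off g' hm hnm (fun h => d2 (Or.inl h)) fun i hi e => d2 (Or.inr (e ▸ hBx i hi))) ?_ hv⟩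
  intro hc
  have h1 := hBx 0 (Nat.zero_le _)
  rw [L.ep_it 0 (Nat.zero_le _)] at h1
  exact Set.disjoint_left.1 d3 h1 (hD' _ ⟨_, hc, rfl⟩)

/-- **`own`, DOOR → MARKED PIN** (thick link `u → t`, last link `door → s`): `g` = the door, `Dk` its disc;   `A'` = the inside of the gate of the pin, `Dk'` its disc, `Bx'` = a set which contains the black bank of the entrance stub -/
theorem own_door_pin (L : PvcaLk T s pos 𝔖 𝔖' y Mp Yin Mm n) (hT : T.IsSph) (hS : T.Simple) (g : T.Gate s) (hp : 𝔖.dp = g.aOut) (hnp : 𝔖.np = 0) {Dk Dk' Bx' : Set ℂ}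
    (hD : ∀ u ∈ T.VOf g.c.Left, pos u ∈ Dk) {A' : Set D} (hA' : T.FaceSet A') (hD' : ∀ u ∈ T.VOf A', pos u ∈ Dk') (off : ∀ i, i ≤ 𝔖'.nm → T.opp (𝔖'.em i) ∉ A')
    (hBx : ∀ i, i ≤ 𝔖'.nm → pos (T.src (𝔖'.em i)) ∈ Bx') (d1 : Disjoint Dk' (Mp ∪ Yin)) (d2 : pos g.vm ∉ Yin ∪ Bx') (d3 : Disjoint Bx' Dk) {v : V} (hv : v ∈ y.verts) :
    v ∉ T.Int g.c.Left ∧ v ∉ T.Int A' := by
  refine ⟨L.out_door_b hT g hp (L.vm_off g hp hnp (fun h => d2 (Or.inl h)) fun i hi e => d2 (Or.inr (e ▸ hBx i hi))) ?_ hv, L.out_pin_a hT hS hA' hD' off d1 hv⟩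
  intro hc
  have h1 := hBx 0 (Nat.zero_le _)
  rw [L.em_it 0 (Nat.zero_le _)] at h1
  exact Set.disjoint_left.1 d3 h1 (hD _ ⟨_, hc, rfl⟩)

/-- **`own`, DOOR → DOOR** (link into the reference plug; a cell in the form of a link) -/
theorem own_door_door (L : PvcaLk T s pos 𝔖 𝔖' y Mp Yin Mm n) (hT : T.IsSph) (g g' : T.Gate s) (hp : 𝔖.dp = g.aOut) (hnp : 𝔖.np = 0) (hm : 𝔖'.dm = g'.aIn) (hnm : 𝔖'.nm = 0)
    {Dk Dk' : Set ℂ} (hD : ∀ u ∈ T.VOf g.c.Left, pos u ∈ Dk) (hD' : ∀ u ∈ T.VOf g'.c.Left, pos u ∈ Dk') (d1 : pos g.vm ∉ Yin) (d2 : pos g'.vp ∉ Yin) (d3 : Disjoint Dk Dk')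
    {v : V} (hv : v ∈ y.verts) : v ∉ T.Int g.c.Left ∧ v ∉ T.Int g'.c.Left := by
  refine ⟨L.out_door_b hT g hp (L.vm_off g hp hnp d1 fun i hi e => ?_) ?_ hv, L.out_door_a hT g' hm (L.vp_off g' hm hnm d2 fun i hi e => ?_) ?_ hv⟩
  · have hi0 : i = 0 := by omega
    rw [hi0, L.em_it 0 (Nat.zero_le _), hm] at e
    have e' : g'.vm = g.vm := e
    exact Set.disjoint_left.1 d3 (hD _ (pvca_vm_left hT g)) (hD' _ (e' ▸ pvca_vm_left hT g'))
  · intro hc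
    rw [hm] at hc
    exact Set.disjoint_left.1 d3 (hD _ ⟨_, hc, rfl⟩) (hD' _ (pvca_vm_left hT g'))
  · have hi0 : i = 0 := by omega
    rw [hi0, L.ep_it 0 (Nat.zero_le _), hp] at e
    have e' : g.vp = g'.vp := by rw [← e]; exact (pvtg_aOut_src g).symm
    exact Set.disjoint_left.1 d3 (hD _ (pvca_vp_left hT g)) (hD' _ (e' ▸ pvca_vp_left hT g'))
  · intro hc
    rw [hp] at hc
    have h1 : g.vp ∈ T.VOf g'.c.Left := ⟨_, hc, pvtg_aOut_src g⟩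
    exact Set.disjoint_left.1 d3 (hD _ (pvca_vp_left hT g)) (hD' _ h1)

end PvcaLk

/-- **A CELL IS A LINK**: the run `PvzlRun` of 173 between two doors, all three rooms := the room `KE` of the cell -/
theorem pvca_lk_cell {g g' : T.Gate s} {𝔖 𝔖' : PvwSt T} (H : PvcaDr g 𝔖) (H' : PvcaDr g' 𝔖') {KE : Set ℂ} {N : ℕ} (h : PvzlRun T pos s KE g g' N) {y : T.Pth}
    (hy : PvwLE T (fun i => T.src (pvasIt T s g.aOut i)) N y) : PvcaLk T s pos 𝔖 𝔖' y KE KE KE N := by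
  obtain ⟨h1, h2, h3, h4⟩ := h
  have hB : ∀ i, i ≤ N → pos (T.src (pvasIt T s g.aOut i)) ∈ KE := fun i hi => (pvzl_lay_mark h1 h4 i hi).1
  have hW : ∀ i, i ≤ N → pos (T.tgt (pvasIt T s g.aOut i)) ∈ KE := by
    intro i hi
    rw [pvas_fc_verts s g.aOut h1] at h4
    exact (h4 (Or.inr ⟨i, hi, rfl⟩)).1
  refine pvca_lk (H.eo ?_) (H'.ei ?_) ?_ (by rw [H.dp]; exact hy)
  · have := hB 0 (Nat.zero_le _)
    rwa [pvas_it_zero, pvtg_aOut_src] at this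
  · have := hB N le_rfl
    rwa [h2] at this
  · unfold Pvtk2Run
    rw [H.dp, H'.dm, H.np, H'.nm]
    exact ⟨Nat.zero_le _, h2, h3, fun i _ hi => ⟨hB i (by omega), hW i (by omega)⟩⟩

/-- **`own` FOR A CELL**: by the definition of `PvzlRun` -/
theorem pvca_own_cell {g g' : T.Gate s} {KE : Set ℂ} {N : ℕ} (h : PvzlRun T pos s KE g g' N) {y : T.Pth} (hy : PvwLE T (fun i => T.src (pvasIt T s g.aOut i)) N y)
    {v : V} (hv : v ∈ y.verts) : v ∉ T.Int g.c.Left ∧ v ∉ T.Int g'.c.Left := by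
  obtain ⟨i, hi, rfl⟩ := pvca_le_verts hy hv
  exact (pvzl_lay_mark h.1 h.2.2.2 i hi).2

/-- **THE GATE OF RECORD OF A KIT PLUG IS A DOOR**: any record with the data of `pvilStS` / `pvkdSt` -/
theorem pvca_dr_of_gt [DecidableEq V] (hT : T.IsSph) (hS : T.Simple) {κ : Type} {mk : V → κ} {p : PvzlPg κ} {g : T.Gate s} (hg : PvzlGt T mk s p g) {𝔖 : PvwSt T} (e1 : 𝔖.S = g.c) (e2 : 𝔖.dp = g.aOut)
    (e3 : 𝔖.dm = g.aIn) (e4 : 𝔖.np = 0) (e5 : 𝔖.nm = 0) (e6 : 𝔖.ep 0 = g.aOut) (e7 : 𝔖.em 0 = g.aIn) (e8 : 𝔖.inn = pvtArc T s g.aIn g.len) : PvcaDr g 𝔖 := by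
  obtain ⟨N, hN⟩ := hg.thru
  obtain ⟨hl, -⟩ := hN.len hT
  refine ⟨e1, e2, e3, e4, e5, e6, e7, g.len, by rw [hl]; exact hN.2.1, by rw [hl]; exact hN.2.2.2.1, ?_⟩
  rw [e8]
  refine pvt_sd_le hT hS (pvtg_aIn_bw g) (pvjs_inj_of_first (pvtg_aIn_bw g) fun i hi => ?_)
  rw [hl] at hi ⊢
  rw [hN.2.1]
  exact hN.2.2.1 i hi

/-- the closed inside of the gate of record lies over the outer disc -/
theorem pvca_gt_disc {κ : Type} {mk : V → κ} {p : PvzlPg κ} {g : T.Gate s} (hg : PvzlGt T mk s p g) {u : V} (hu : u ∈ T.VOf g.c.Left) : mk u ∈ p.KO := by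
  obtain ⟨d, hd, rfl⟩ := hu
  exact hg.least.reg.outer d hd

/-! ## 8. at `Tr/InstL` v2.1 -/

section il

variable {N : PvwNum} {b : Bool} {η : Conf PvPt}

theorem pvca_il_sph (h : DelGood (pvieY η)) : (pvieT η).IsSph := delb_plane_isSph h

theorem pvca_il_simple (η : Conf PvPt) : (pvieT η).Simple := (delbPl (pvieY η)).toMap_simple

/-- the vertex mask of the exit end of a link: the mask `Mp` of a marked pin, the room `Zp` of `g⁺` of a kit plug -/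
def pvcaMp (L : PvilLk) : Set ℂ := if L.dr then pvkdAt L.p.z L.p.fr (pvkdP L.p.h).Zp else L.p.Mp

/-- the vertex mask of the entrance end of a link: the mask `Mm` of a marked pin, the room `Zm` of `g⁻` of a kit plug -/
def pvcaMm (L : PvilLk) : Set ℂ := if L.dr' then pvkdAt L.p'.z L.p'.fr (pvkdP L.p'.h).Zm else L.p'.Mm

/-- the disc of a plug: `B(z, b h)` for a marked pin, `B(z, 2 r)` for a kit plug -/
def pvcaDk (p : PvilPl) (dr : Bool) : Set ℂ := if dr then Metric.ball p.z (pvkdP p.h).b else Metric.ball p.z (p.ty.b * p.h)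

/-- the own-level box of a marked pin -/
def pvcaBx (N : PvwNum) (p : PvilPl) : Set ℂ := pvwSq p.z (pvwRad N p.h p.ty p.ty.k)

theorem pvca_eqns_cite : True := by
  have := @pvcaMp.eq_1; have := @pvcaMm.eq_1; have := @pvcaDk.eq_1; have := @pvcaBx.eq_1
  trivial

/-- a door end: the gate of record and the door record -/
theorem pvca_il_door {𝔭 : PvkdPlug} {z d : ℂ} {𝔖 : PvwSt (pvieT η)} (h : PvilDoor 𝔭 b η z d 𝔖) :
    DelGood (pvieY η) ∧ ∃ g : (pvieT η).Gate (pvieCol η b), PvzlGt (pvieT η) Subtype.val (pvieCol η b) (𝔭.pg z d) g ∧ PvcaDr g 𝔖 := by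
  obtain ⟨hN, g, hg, rfl⟩ := h
  have hgood : DelGood (pvieY η) := hN.1.good
  exact ⟨hgood, g, hg, pvca_dr_of_gt (pvca_il_sph hgood) (pvca_il_simple η) hg rfl rfl rfl rfl rfl rfl rfl rfl⟩

theorem pvca_il_pos_std {p : PvilPl} (h : p.fr = 1) (η : Conf PvPt) : p.pos η = pviePos η ∧ p.zf = p.z := by
  constructor
  · funext v
    unfold PvilPl.pos
    rw [h, map_one, one_mul]
  · unfold PvilPl.zf
    rw [h, map_one, one_mul]

variable {L : PvilLk} {𝔖 𝔖' : PvwSt (pvieT η)} {y : (pvieT η).Pth}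

/-- the exit end of a link of record -/
theorem pvca_il_atP (h : L.AtP N b η 𝔖) : DelGood (pvieY η) ∧ PvcaGt (pvieT η) (pvieCol η b) 𝔖 ∧ PvcaEo (pvieT η) (pvieCol η b) (pviePos η) 𝔖 (pvcaMp L) := by
  unfold pvcaMp
  cases hd : L.dr
  · have h' := (PvilLk.atP_pin hd N b η 𝔖).1 h
    exact ⟨h'.good, pvca_gt_gate h'.st.gate, h'.st.gate.bw_p, h'.st.stub.ep_it, h'.mask⟩
  · obtain ⟨hg, g, h1, h2⟩ := pvca_il_door ((PvilLk.atP_door hd N b η 𝔖).1 h)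
    exact ⟨hg, h2.gt, h2.eo h1.vp⟩

/-- the entrance end of a link of record -/
theorem pvca_il_atP' (h : L.AtP' N b η 𝔖') : DelGood (pvieY η) ∧ PvcaGt (pvieT η) (pvieCol η b) 𝔖' ∧ PvcaEi (pvieT η) (pvieCol η b) (pviePos η) 𝔖' (pvcaMm L) := by
  unfold pvcaMm
  cases hd : L.dr'
  · have h' := (PvilLk.atP'_pin hd N b η 𝔖').1 h
    exact ⟨h'.good, pvca_gt_gate h'.st.gate, h'.st.stub.em_it, h'.mask⟩
  · obtain ⟨hg, g, h1, h2⟩ := pvca_il_door ((PvilLk.atP'_door hd N b η 𝔖').1 h)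
    exact ⟨hg, h2.gt, h2.ei h1.vm⟩

/-- **A LINK OF RECORD IS A LINK OF THIS FILE** -/
theorem pvca_il_lk (A : L.Arc N b η 𝔖 𝔖' y) : ∃ n, PvcaLk (pvieT η) (pvieCol η b) (pviePos η) 𝔖 𝔖' y (pvcaMp L) L.Yin (pvcaMm L) n := by
  obtain ⟨n, h1, h2⟩ := A.run
  exact ⟨n, pvca_lk (pvca_il_atP A.at_p).2.2 (pvca_il_atP' A.at_p').2.2 h1 h2⟩

/-- the closed inside of the gate of the exit end lies over its disc      (marked pins: standard frame) -/
theorem pvca_il_ins (hfr : L.dr = false → L.p.fr = 1) (h : L.AtP N b η 𝔖) {u : ↥(pvieY η)} (hu : u ∈ (pvieT η).VOf 𝔖.S.Left) : pviePos η u ∈ pvcaDk L.p L.dr := by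
  unfold pvcaDk
  cases hd : L.dr
  · have h' := (PvilLk.atP_pin hd N b η 𝔖).1 h
    have h1 := h'.st.gate.inside u hu
    rw [(pvca_il_pos_std (hfr hd) η).1, (pvca_il_pos_std (hfr hd) η).2] at h1
    exact mem_ball_iff_norm.2 h1
  · obtain ⟨-, g, h1, h2⟩ := pvca_il_door ((PvilLk.atP_door hd N b η 𝔖).1 h)
    rw [h2.S] at hu
    exact pvca_gt_disc h1 hu

/-- the same at the entrance end -/
theorem pvca_il_ins' (hfr : L.dr' = false → L.p'.fr = 1) (h : L.AtP' N b η 𝔖') {u : ↥(pvieY η)} (hu : u ∈ (pvieT η).VOf 𝔖'.S.Left) : pviePos η u ∈ pvcaDk L.p' L.dr' := by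
  unfold pvcaDk
  cases hd : L.dr'
  · have h' := (PvilLk.atP'_pin hd N b η 𝔖').1 h
    have h1 := h'.st.gate.inside u hu
    rw [(pvca_il_pos_std (hfr hd) η).1, (pvca_il_pos_std (hfr hd) η).2] at h1
    exact mem_ball_iff_norm.2 h1
  · obtain ⟨-, g, h1, h2⟩ := pvca_il_door ((PvilLk.atP'_door hd N b η 𝔖').1 h)
    rw [h2.S] at hu
    exact pvca_gt_disc h1 hu

/-- **`own`, FIRST LINK** `marked pin → door` (`pvilLo`) -/
theorem pvca_il_own_pd (h1 : L.dr = false) (h2 : L.dr' = true) (hfr : L.p.fr = 1) (A : L.Arc N b η 𝔖 𝔖' y) (d1 : Disjoint (pvcaDk L.p false) (L.Yin ∪ pvcaMm L))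
    (d2 : Disjoint (pvkdAt L.p'.z L.p'.fr (pvkdP L.p'.h).Zp) (L.Yin ∪ pvcaBx N L.p)) (d3 : Disjoint (pvcaBx N L.p) (pvcaDk L.p' true)) {v : ↥(pvieY η)} (hv : v ∈ y.verts) :
    v ∉ (pvieT η).Int 𝔖.S.Left ∧ v ∉ (pvieT η).Int 𝔖'.S.Left := by
  obtain ⟨n, K⟩ := pvca_il_lk A
  have hP := (PvilLk.atP_pin h1 N b η 𝔖).1 A.at_p
  obtain ⟨-, g', g1, g2⟩ := pvca_il_door ((PvilLk.atP'_door h2 N b η 𝔖').1 A.at_p')
  have hT := pvca_il_sph hP.good
  rw [g2.S]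
  refine K.own_pin_door hT (pvca_il_simple η) (Dk := pvcaDk L.p false) (Bx := pvcaBx N L.p) (Dk' := pvcaDk L.p' true) (fun u hu => ?_) hP.st.good.off_p (fun i hi => ?_) g' g2.dm g2.nm
    (fun u hu => ?_) d1 (fun hc => Set.disjoint_left.1 d2 g1.vp hc) d3 hv
  · have := pvca_il_ins (fun _ => hfr) A.at_p hu
    rwa [h1] at this
  · have := (hP.st.stub.ep_in i hi).1
    rwa [(pvca_il_pos_std hfr η).1, (pvca_il_pos_std hfr η).2] at this
  · exact pvca_gt_disc g1 hu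

/-- **`own`, THICK LINK / LAST LINK** `door → marked pin` (`pvilLe`, `pvilLi`) -/
theorem pvca_il_own_dp (h1 : L.dr = true) (h2 : L.dr' = false) (hfr : L.p'.fr = 1) (A : L.Arc N b η 𝔖 𝔖' y) (d1 : Disjoint (pvcaDk L.p' false) (pvcaMp L ∪ L.Yin))
    (d2 : Disjoint (pvkdAt L.p.z L.p.fr (pvkdP L.p.h).Zm) (L.Yin ∪ pvcaBx N L.p')) (d3 : Disjoint (pvcaBx N L.p') (pvcaDk L.p true)) {v : ↥(pvieY η)} (hv : v ∈ y.verts) :
    v ∉ (pvieT η).Int 𝔖.S.Left ∧ v ∉ (pvieT η).Int 𝔖'.S.Left := by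
  obtain ⟨n, K⟩ := pvca_il_lk A
  have hP := (PvilLk.atP'_pin h2 N b η 𝔖').1 A.at_p'
  obtain ⟨-, g, g1, g2⟩ := pvca_il_door ((PvilLk.atP_door h1 N b η 𝔖).1 A.at_p)
  have hT := pvca_il_sph hP.good
  rw [g2.S]
  refine K.own_door_pin hT (pvca_il_simple η) g g2.dp g2.np (Dk := pvcaDk L.p true) (Dk' := pvcaDk L.p' false) (Bx' := pvcaBx N L.p') (fun u hu => pvca_gt_disc g1 hu) (pl_left_face 𝔖'.S)
    (fun u hu => ?_) hP.st.good.off_m (fun i hi => ?_) d1 (fun hc => Set.disjoint_left.1 d2 g1.vm hc) d3 hv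
  · have := pvca_il_ins' (fun _ => hfr) A.at_p' hu
    rwa [h2] at this
  · have := (hP.st.stub.em_in i hi).1
    rwa [(pvca_il_pos_std hfr η).1, (pvca_il_pos_std hfr η).2] at this

/-- **`own`, LINK INTO THE REFERENCE PLUG** `door → door` (`pvilLr`) -/
theorem pvca_il_own_dd (h1 : L.dr = true) (h2 : L.dr' = true) (A : L.Arc N b η 𝔖 𝔖' y) (d1 : Disjoint (pvkdAt L.p.z L.p.fr (pvkdP L.p.h).Zm) L.Yin)
    (d2 : Disjoint (pvkdAt L.p'.z L.p'.fr (pvkdP L.p'.h).Zp) L.Yin) (d3 : Disjoint (pvcaDk L.p true) (pvcaDk L.p' true)) {v : ↥(pvieY η)} (hv : v ∈ y.verts) :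
    v ∉ (pvieT η).Int 𝔖.S.Left ∧ v ∉ (pvieT η).Int 𝔖'.S.Left := by
  obtain ⟨n, K⟩ := pvca_il_lk A
  obtain ⟨hg, g, g1, g2⟩ := pvca_il_door ((PvilLk.atP_door h1 N b η 𝔖).1 A.at_p)
  obtain ⟨-, g', g1', g2'⟩ := pvca_il_door ((PvilLk.atP'_door h2 N b η 𝔖').1 A.at_p')
  rw [g2.S, g2'.S]
  exact K.own_door_door (pvca_il_sph hg) g g' g2.dp g2.np g2'.dm g2'.nm (Dk := pvcaDk L.p true) (Dk' := pvcaDk L.p' true) (fun u hu => pvca_gt_disc g1 hu) (fun u hu => pvca_gt_disc g1' hu)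
    (fun hc => Set.disjoint_left.1 d1 g1.vm hc) (fun hc => Set.disjoint_left.1 d2 g1'.vp hc) d3 hv

end il

end Claimed.Agent.R289
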