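import Claimed.Agent.R289.Tr.Chain
import Claimed.Agent.R289.PppQ
import Claimed.Agent.R289.FkgQ

/-!
# Row 289 (S0537), wall, engine instance, file Tr/GridRs : COORDINATE ATOMS ON THE FROZEN SAMPLE SPACE = (G1) + (G2) of proposal G of 24      (architect + prover helper230; prefix `pvgs_`, `pvgs`, `Pvgs`)      0 sorry

`Ω = PVSample`, `P = pvLaw ε` (any `ε`; use `ε / lam`).      Every atom of `Tr/Chain` (218: `PvtkRs`, `PvtkIg`, `PvtkComm`, `pvtkE`) is a COORDINATE atom; all identities hold at EVERY sample (no a.e.).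
1. ABSTRACT   `pvgs_rs_prod` (product of resamplers), `pvgs_rs_map` (transport along `≃ᵐ`), `pvgs_shuffle`;
              `pvgsGl T Rs (ω, ω') = Rs (T ω) (ω, ω')` the STATE DEPENDENT atom;  **`pvgs_rs_gl`** (`T` countably valued, `{T = a}` ignores `Rs a` ⟹ resampler), `pvgs_gl_T`, `pvgs_ig_gl`, `pvgs_comm_gl`, `pvgs_comm_gl_fix`.
2. PRODUCTS   `pvgs_rs_mix` : `pvfqMix sᶜ` (103) is the resampler of the atom `s` of `Measure.infinitePi μ`.
3. (G1)       `pvgsAt J0 J1 J2` = counts of `J0`, positions of `J1`, colour bits of `J2` from the seed;  **`pvgs_rs_at`**, `PvgsAgree` (agreement off the atom), **`pvgs_ig_at_iff`**, `pvgs_comm_at` (disjoint atoms),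
              `pvgs_at_at_seed` (ONE SEED: union of the atoms), `pvgs_at_seed_congr`, `PvgsAgree.at_eq`.
4. SQUARES    `pvgsFx` (fractional parts of the positions: identity a.s., commutes with all atoms), `pvgsCf = pvConf ∘ pvgsFx`, `pvgsCfL lam` (mesh `lam`), `pvgsReg J`, `pvgsRegL lam J`, `pvgsSq J`;
              `pvgs_cf_ae`, `pvgs_cf_of_ok`, `pvgs_cf_law`, **`pvgs_cfL_law' : (pvLaw (ε / lam)).map (pvgsCfL lam) = pvP ε`**,
              **`pvgs_cfL_sq : pvgsCfL lam (pvgsSq J (ω, ω')) = pvtkR (pvgsRegL lam J) (pvgsCfL lam ω, pvgsCfL lam ω')`**, `pvgs_ig_sq_of_reads`, `pvgs_fresh_sq_of_reads`, `pvgs_comm_sq`.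
5. (G2)       `pvgsLk J a` (squares of `J` + colour bits of the labels of `a`, one seed: `pvgs_lk_eq`), `pvgsLkA J A` (`A : PVSample → Finset PvIx` state dependent), `PvgsAgL`, `PvgsSelf J A` (`A` is read off what the atom does not touch);
              **`pvgs_rs_lkA`**, `PvgsSelf.ig_self`, **`pvgs_ig_lkA_iff`**, `pvgs_comm_lkA`, `pvgs_comm_lkA_sq`, `pvgs_self_union`, `PvgsAgL.geo/.col/.mark`, `PvgsAgL.restr_cfL` (a window which avoids the squares and the sites of the class is not touched).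
6. CONDEXP    `pvgs_E_gl`, `pvgs_W_gl` (rfl), `pvgs_col_eq`, **`pvgs_E_col`** (the conditional expectation of a pure colour atom = quenched integral over `pvCol` at fixed geometry).
-/

set_option autoImplicit false
set_option linter.unusedSectionVars false

namespace Claimed.Agent.R289

open MeasureTheory ProbabilityTheory Set Claims.C0465
open scoped ENNReal NNReal

/-! ## 1. abstract calculus of resamplers: products, transport, state dependent atoms -/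

section abs

variable {Ω : Type*} [MeasurableSpace Ω] {P : Measure Ω}

theorem pvgs_meas_glue {α β γ : Type*} [MeasurableSpace α] [Countable β] [MeasurableSpace γ] (f : α → β) (hf : ∀ y, MeasurableSet (f ⁻¹' {y}))
    (g : β → α → γ) (hg : ∀ y, Measurable (g y)) : Measurable (fun x => g (f x) x) := by
  let _ : MeasurableSpace β := ⊤
  have : MeasurableSingletonClass β := ⟨fun _ => MeasurableSpace.measurableSet_top⟩
  have h1 : Measurable (fun p : β × α => g p.1 p.2) := measurable_from_prod_countable_right hg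
  exact h1.comp ((measurable_to_countable' hf).prodMk measurable_id)

/-- the shuffle `((a, b), (c, d)) ↦ ((a, c), (b, d))` preserves product measures -/
theorem pvgs_shuffle {α β γ δ : Type*} [MeasurableSpace α] [MeasurableSpace β] [MeasurableSpace γ] [MeasurableSpace δ]
    (μa : Measure α) (μb : Measure β) (μc : Measure γ) (μd : Measure δ) [SFinite μa] [SFinite μb] [SFinite μc] [SFinite μd] :
    MeasurePreserving (fun x : (α × β) × (γ × δ) => ((x.1.1, x.2.1), (x.1.2, x.2.2))) ((μa.prod μb).prod (μc.prod μd)) ((μa.prod μc).prod (μb.prod μd)) := by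
  have h1 := measurePreserving_prodAssoc μa μb (μc.prod μd)
  have h2 : MeasurePreserving (MeasurableEquiv.prodAssoc : (β × γ) × δ ≃ᵐ β × γ × δ).symm (μb.prod (μc.prod μd)) ((μb.prod μc).prod μd) :=
    (measurePreserving_prodAssoc μb μc μd).symm _
  have h3 : MeasurePreserving (Prod.map (Prod.swap : β × γ → γ × β) (id : δ → δ)) ((μb.prod μc).prod μd) ((μc.prod μb).prod μd) :=
    Measure.measurePreserving_swap.prod (MeasurePreserving.id μd)
  have h4 := measurePreserving_prodAssoc μc μb μd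
  have h5 : MeasurePreserving (MeasurableEquiv.prodAssoc : (α × γ) × (β × δ) ≃ᵐ α × γ × (β × δ)).symm (μa.prod (μc.prod (μb.prod μd))) ((μa.prod μc).prod (μb.prod μd)) :=
    (measurePreserving_prodAssoc μa μc (μb.prod μd)).symm _
  have h6 := (MeasurePreserving.id μa).prod ((h4.comp h3).comp h2)
  exact (h5.comp h6).comp h1

/-- the product of two resamplers -/
def pvgsPr {Ω₁ Ω₂ : Type*} (R₁ : Ω₁ × Ω₁ → Ω₁) (R₂ : Ω₂ × Ω₂ → Ω₂) (x : (Ω₁ × Ω₂) × (Ω₁ × Ω₂)) : Ω₁ × Ω₂ := (R₁ (x.1.1, x.2.1), R₂ (x.1.2, x.2.2))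

theorem pvgs_rs_prod {Ω₁ Ω₂ : Type*} [MeasurableSpace Ω₁] [MeasurableSpace Ω₂] {P₁ : Measure Ω₁} {P₂ : Measure Ω₂} [SFinite P₁] [SFinite P₂]
    {R₁ : Ω₁ × Ω₁ → Ω₁} {R₂ : Ω₂ × Ω₂ → Ω₂} (h₁ : PvtkRs P₁ R₁) (h₂ : PvtkRs P₂ R₂) : PvtkRs (P₁.prod P₂) (pvgsPr R₁ R₂) where
  meas := (h₁.meas.comp ((measurable_fst.comp measurable_fst).prodMk (measurable_fst.comp measurable_snd))).prodMk
    (h₂.meas.comp ((measurable_snd.comp measurable_fst).prodMk (measurable_snd.comp measurable_snd)))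
  law := by
    have m₁ : MeasurePreserving R₁ (P₁.prod P₁) P₁ := ⟨h₁.meas, h₁.law⟩
    have m₂ : MeasurePreserving R₂ (P₂.prod P₂) P₂ := ⟨h₂.meas, h₂.law⟩
    exact ((m₁.prod m₂).comp (pvgs_shuffle P₁ P₂ P₁ P₂)).map_eq
  abs ω ω' ω'' := by
    simp only [pvgsPr, h₁.abs, h₂.abs]

/-- transport of a resampler along a measurable equivalence -/
def pvgsTp {Ω' : Type*} [MeasurableSpace Ω'] (e : Ω ≃ᵐ Ω') (R : Ω × Ω → Ω) (x : Ω' × Ω') : Ω' := e (R (e.symm x.1, e.symm x.2))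

theorem pvgs_rs_map {Ω' : Type*} [MeasurableSpace Ω'] [SFinite P] (e : Ω ≃ᵐ Ω') {R : Ω × Ω → Ω} (h : PvtkRs P R) : PvtkRs (P.map e) (pvgsTp e R) where
  meas := e.measurable.comp (h.meas.comp ((e.symm.measurable.comp measurable_fst).prodMk (e.symm.measurable.comp measurable_snd)))
  law := by
    have m0 : MeasurePreserving e P (P.map e) := ⟨e.measurable, rfl⟩
    have m1 : MeasurePreserving e.symm (P.map e) P := m0.symm e
    have : SFinite (P.map e) := inferInstance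
    have m2 : MeasurePreserving R (P.prod P) P := ⟨h.meas, h.law⟩
    exact ((m0.comp m2).comp (m1.prod m1)).map_eq
  abs ω ω' ω'' := by
    simp only [pvgsTp, MeasurableEquiv.symm_apply_apply, h.abs]

variable {β : Type*} {T : Ω → β} {Rs : β → Ω × Ω → Ω}

/-- **the state dependent atom**: the atom `Rs (T ω)` is resampled -/
def pvgsGl (T : Ω → β) (Rs : β → Ω × Ω → Ω) (x : Ω × Ω) : Ω := Rs (T x.1) x

theorem pvgs_eqns_cite : True := by
  have := @pvgsPr.eq_1.{0, 0}; have := @pvgsTp.eq_1.{0, 0}; have := @pvgsGl.eq_1.{0, 0}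
  trivial

theorem pvgs_gl_apply (T : Ω → β) (Rs : β → Ω × Ω → Ω) (ω ω' : Ω) : pvgsGl T Rs (ω, ω') = Rs (T ω) (ω, ω') := rfl

/-- criterion for `PvtkIg` -/
theorem pvgs_ig_gl {γ : Sort*} {f : Ω → γ} (h : ∀ ω ω', f (Rs (T ω) (ω, ω')) = f ω) : PvtkIg (pvgsGl T Rs) f := h

/-- the selector ignores its own atom -/
theorem pvgs_gl_T (hT : ∀ a, PvtkIg (Rs a) fun ω => T ω = a) : PvtkIg (pvgsGl T Rs) T := fun ω ω' => by
  have := hT (T ω) ω ω'
  exact this.mpr rfl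

/-- **(G2), generic lemma**: `T` countably valued, `{T = a}` ignores the atom `Rs a`  ⟹  the state dependent atom is a resampler -/
theorem pvgs_rs_gl [Countable β] (hTm : ∀ a, MeasurableSet (T ⁻¹' {a})) (hR : ∀ a, PvtkRs P (Rs a)) (hT : ∀ a, PvtkIg (Rs a) fun ω => T ω = a) :
    PvtkRs P (pvgsGl T Rs) where
  meas := pvgs_meas_glue (fun x : Ω × Ω => T x.1) (fun a => measurable_fst (hTm a)) Rs fun a => (hR a).meas
  law := by
    have hm : Measurable (pvgsGl T Rs) := pvgs_meas_glue (fun x : Ω × Ω => T x.1) (fun a => measurable_fst (hTm a)) Rs fun a => (hR a).meas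
    ext B hB
    rw [Measure.map_apply hm hB]
    have e1 : pvgsGl T Rs ⁻¹' B = ⋃ a, Rs a ⁻¹' (B ∩ T ⁻¹' {a}) := by
      ext ⟨ω, ω'⟩
      simp only [mem_preimage, mem_iUnion, mem_inter_iff, mem_singleton_iff, pvgs_gl_apply]
      constructor
      · intro h
        exact ⟨T ω, h, (hT (T ω) ω ω').mpr rfl⟩
      · rintro ⟨a, h1, h2⟩
        have : T ω = a := (hT a ω ω').mp h2
        rw [this]; exact h1
    have e2 : B = ⋃ a, B ∩ T ⁻¹' {a} := by
      ext ω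
      simp only [mem_iUnion, mem_inter_iff, mem_preimage, mem_singleton_iff, exists_and_left, exists_eq', and_true]
    have d2 : Pairwise (Function.onFun Disjoint fun a => B ∩ T ⁻¹' {a}) := by
      intro a b hab
      refine Set.disjoint_left.2 fun ω h1 h2 => hab ?_
      exact h1.2.symm.trans h2.2
    have d1 : Pairwise (Function.onFun Disjoint fun a => Rs a ⁻¹' (B ∩ T ⁻¹' {a})) := by
      intro a b hab
      refine Set.disjoint_left.2 fun x h1 h2 => hab ?_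
      have q1 : T x.1 = a := (hT a x.1 x.2).mp h1.2
      have q2 : T x.1 = b := (hT b x.1 x.2).mp h2.2
      exact q1.symm.trans q2
    rw [e1, measure_iUnion d1 fun a => (hR a).meas (hB.inter (hTm a))]
    conv_rhs => rw [e2, measure_iUnion d2 fun a => hB.inter (hTm a)]
    refine tsum_congr fun a => ?_
    rw [← Measure.map_apply (hR a).meas (hB.inter (hTm a)), (hR a).law]
  abs ω ω' ω'' := by
    have h1 : T (Rs (T ω) (ω, ω')) = T ω := (hT (T ω) ω ω').mpr rfl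
    simp only [pvgs_gl_apply, h1, (hR (T ω)).abs]

/-- commutation of two state dependent atoms -/
theorem pvgs_comm_gl {β' : Type*} {T' : Ω → β'} {Rs' : β' → Ω × Ω → Ω} (h1 : PvtkIg (pvgsGl T' Rs') T) (h2 : PvtkIg (pvgsGl T Rs) T')
    (hc : ∀ ω, PvtkComm (Rs (T ω)) (Rs' (T' ω))) : PvtkComm (pvgsGl T Rs) (pvgsGl T' Rs') := fun ω ω' ω'' => by
  have q1 : T (Rs' (T' ω) (ω, ω')) = T ω := h1 ω ω'
  have q2 : T' (Rs (T ω) (ω, ω'')) = T' ω := h2 ω ω''
  simp only [pvgs_gl_apply, q1, q2]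
  exact hc ω ω ω' ω''

/-- commutation of a state dependent atom with a fixed atom -/
theorem pvgs_comm_gl_fix {R' : Ω × Ω → Ω} (h1 : PvtkIg R' T) (hc : ∀ ω, PvtkComm (Rs (T ω)) R') : PvtkComm (pvgsGl T Rs) R' := fun ω ω' ω'' => by
  have q1 : T (R' (ω, ω')) = T ω := h1 ω ω'
  simp only [pvgs_gl_apply, q1]
  exact hc ω ω ω' ω''

end abs

/-! ## 2. coordinate atoms of a product measure -/

section mix

variable {ι : Type*} {X : ι → Type*} [∀ i, MeasurableSpace (X i)]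

/-- the atom `s` of a product measure: the coordinates of `s` are taken from the seed -/
theorem pvgs_rs_mix (μ : ∀ i, Measure (X i)) [∀ i, IsProbabilityMeasure (μ i)] (s : Set ι) : PvtkRs (Measure.infinitePi μ) (pvfqMix sᶜ) where
  meas := measurable_pvfqMix sᶜ
  law := pvfq_split μ sᶜ
  abs ω ω' ω'' := pvfqMix_mix sᶜ ω ω' ω''

end mix

/-! ## 3. (G1) coordinate atoms of the frozen sample space -/

section atoms

open Classical in
/-- **THE COORDINATE ATOM**: the counts of the squares of `J0`, the positions of the labels of `J1`, the colour bits of the labels of `J2` are taken from the seed `x.2` -/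
noncomputable def pvgsAt (J0 : Set (ℤ × ℤ)) (J1 J2 : Set PvIx) (x : PVSample × PVSample) : PVSample :=
  (fun k => if k ∈ J0 then x.2.1 k else x.1.1 k, fun i => (if i ∈ J1 then (x.2.2 i).1 else (x.1.2 i).1, if i ∈ J2 then (x.2.2 i).2 else (x.1.2 i).2))

/-- `ω` and `ω̃` agree off the atom -/
def PvgsAgree (J0 : Set (ℤ × ℤ)) (J1 J2 : Set PvIx) (ω ω' : PVSample) : Prop :=
  (∀ k, k ∉ J0 → ω'.1 k = ω.1 k) ∧ (∀ i, i ∉ J1 → (ω'.2 i).1 = (ω.2 i).1) ∧ (∀ i, i ∉ J2 → (ω'.2 i).2 = (ω.2 i).2)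

theorem pvgs_eqns_cite2 : True := by
  have := @pvgsAt.eq_1; have := @PvgsAgree.eq_1
  trivial

variable {J0 J0' : Set (ℤ × ℤ)} {J1 J2 J1' J2' : Set PvIx}

theorem pvgs_at_cnt_mem {k : ℤ × ℤ} (h : k ∈ J0) (J1 J2 : Set PvIx) (x : PVSample × PVSample) : (pvgsAt J0 J1 J2 x).1 k = x.2.1 k := if_pos h

theorem pvgs_at_cnt_notMem {k : ℤ × ℤ} (h : k ∉ J0) (J1 J2 : Set PvIx) (x : PVSample × PVSample) : (pvgsAt J0 J1 J2 x).1 k = x.1.1 k := if_neg h

theorem pvgs_at_pos_mem {i : PvIx} (h : i ∈ J1) (J0 : Set (ℤ × ℤ)) (J2 : Set PvIx) (x : PVSample × PVSample) : ((pvgsAt J0 J1 J2 x).2 i).1 = (x.2.2 i).1 := if_pos h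

theorem pvgs_at_pos_notMem {i : PvIx} (h : i ∉ J1) (J0 : Set (ℤ × ℤ)) (J2 : Set PvIx) (x : PVSample × PVSample) : ((pvgsAt J0 J1 J2 x).2 i).1 = (x.1.2 i).1 := if_neg h

theorem pvgs_at_col_mem {i : PvIx} (h : i ∈ J2) (J0 : Set (ℤ × ℤ)) (J1 : Set PvIx) (x : PVSample × PVSample) : ((pvgsAt J0 J1 J2 x).2 i).2 = (x.2.2 i).2 := if_pos h

theorem pvgs_at_col_notMem {i : PvIx} (h : i ∉ J2) (J0 : Set (ℤ × ℤ)) (J1 : Set PvIx) (x : PVSample × PVSample) : ((pvgsAt J0 J1 J2 x).2 i).2 = (x.1.2 i).2 := if_neg h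

/-- extensionality of samples, coordinate by coordinate -/
theorem pvgs_ext {ω ω' : PVSample} (h0 : ∀ k, ω.1 k = ω'.1 k) (h1 : ∀ i, (ω.2 i).1 = (ω'.2 i).1) (h2 : ∀ i, (ω.2 i).2 = (ω'.2 i).2) : ω = ω' :=
  Prod.ext (funext h0) (funext fun i => Prod.ext (h1 i) (h2 i))

theorem pvgs_at_eq (J0 : Set (ℤ × ℤ)) (J1 J2 : Set PvIx) :
    pvgsAt J0 J1 J2 = pvgsTp pvSplit.symm (pvgsPr (pvgsPr (pvfqMix J0ᶜ) (pvfqMix J1ᶜ)) (pvfqMix J2ᶜ)) := by
  funext x
  refine pvgs_ext (fun k => ?_) (fun i => ?_) (fun i => ?_)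
  · show _ = pvfqMix J0ᶜ (x.1.1, x.2.1) k
    by_cases h : k ∈ J0
    · rw [pvgs_at_cnt_mem h, pvfqMix_of_notMem (show k ∉ J0ᶜ from fun hh => hh h)]
    · rw [pvgs_at_cnt_notMem h, pvfqMix_of_mem (show k ∈ J0ᶜ from h)]
  · show _ = pvfqMix J1ᶜ ((fun i => (x.1.2 i).1), (fun i => (x.2.2 i).1)) i
    by_cases h : i ∈ J1
    · rw [pvgs_at_pos_mem h, pvfqMix_of_notMem (show i ∉ J1ᶜ from fun hh => hh h)]
    · rw [pvgs_at_pos_notMem h, pvfqMix_of_mem (show i ∈ J1ᶜ from h)]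
  · show _ = pvfqMix J2ᶜ ((fun i => (x.1.2 i).2), (fun i => (x.2.2 i).2)) i
    by_cases h : i ∈ J2
    · rw [pvgs_at_col_mem h, pvfqMix_of_notMem (show i ∉ J2ᶜ from fun hh => hh h)]
    · rw [pvgs_at_col_notMem h, pvfqMix_of_mem (show i ∈ J2ᶜ from h)]

/-- **(G1)** every coordinate atom is a resampler of the frozen law, at every `ε` -/
theorem pvgs_rs_at (ε : ℝ) (J0 : Set (ℤ × ℤ)) (J1 J2 : Set PvIx) : PvtkRs (pvLaw ε) (pvgsAt J0 J1 J2) := by
  have h1 : PvtkRs (pvGeo ε) (pvgsPr (pvfqMix J0ᶜ) (pvfqMix J1ᶜ)) :=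
    pvgs_rs_prod (pvgs_rs_mix (fun _ : ℤ × ℤ => poissonMeasure (pvRate ε)) J0) (pvgs_rs_mix (fun _ : PvIx => pvUnit) J1)
  have h2 : PvtkRs ((pvGeo ε).prod pvCol) (pvgsPr (pvgsPr (pvfqMix J0ᶜ) (pvfqMix J1ᶜ)) (pvfqMix J2ᶜ)) :=
    pvgs_rs_prod h1 (pvgs_rs_mix (fun _ : PvIx => pvCoin) J2)
  have h3 := pvgs_rs_map pvSplit.symm h2
  have e : ((pvGeo ε).prod pvCol).map pvSplit.symm = pvLaw ε := (pvqu_law ε).symm
  rw [e, ← pvgs_at_eq] at h3
  exact h3

theorem measurable_pvgsAt (J0 : Set (ℤ × ℤ)) (J1 J2 : Set PvIx) : Measurable (pvgsAt J0 J1 J2) := (pvgs_rs_at 1 J0 J1 J2).meas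

theorem pvgs_at_agree (J0 : Set (ℤ × ℤ)) (J1 J2 : Set PvIx) (ω ω' : PVSample) : PvgsAgree J0 J1 J2 ω (pvgsAt J0 J1 J2 (ω, ω')) :=
  ⟨fun _ h => pvgs_at_cnt_notMem h _ _ _, fun _ h => pvgs_at_pos_notMem h _ _ _, fun _ h => pvgs_at_col_notMem h _ _ _⟩

theorem PvgsAgree.symm {ω ω' : PVSample} (h : PvgsAgree J0 J1 J2 ω ω') : PvgsAgree J0 J1 J2 ω' ω :=
  ⟨fun k hk => (h.1 k hk).symm, fun i hi => (h.2.1 i hi).symm, fun i hi => (h.2.2 i hi).symm⟩

theorem PvgsAgree.refl (J0 : Set (ℤ × ℤ)) (J1 J2 : Set PvIx) (ω : PVSample) : PvgsAgree J0 J1 J2 ω ω := ⟨fun _ _ => rfl, fun _ _ => rfl, fun _ _ => rfl⟩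

theorem PvgsAgree.trans {ω ω' ω'' : PVSample} (h : PvgsAgree J0 J1 J2 ω ω') (h' : PvgsAgree J0 J1 J2 ω' ω'') : PvgsAgree J0 J1 J2 ω ω'' :=
  ⟨fun k hk => (h'.1 k hk).trans (h.1 k hk), fun i hi => (h'.2.1 i hi).trans (h.2.1 i hi), fun i hi => (h'.2.2 i hi).trans (h.2.2 i hi)⟩

theorem PvgsAgree.mono {ω ω' : PVSample} (h : PvgsAgree J0 J1 J2 ω ω') (h0 : J0 ⊆ J0') (h1 : J1 ⊆ J1') (h2 : J2 ⊆ J2') : PvgsAgree J0' J1' J2' ω ω' :=
  ⟨fun k hk => h.1 k fun hh => hk (h0 hh), fun i hi => h.2.1 i fun hh => hi (h1 hh), fun i hi => h.2.2 i fun hh => hi (h2 hh)⟩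

/-- two samples which agree off the atom are exchanged by the atom -/
theorem PvgsAgree.at_eq {ω ω' : PVSample} (h : PvgsAgree J0 J1 J2 ω ω') : pvgsAt J0 J1 J2 (ω, ω') = ω' := by
  refine pvgs_ext (fun k => ?_) (fun i => ?_) (fun i => ?_)
  · by_cases hk : k ∈ J0
    · rw [pvgs_at_cnt_mem hk]
    · rw [pvgs_at_cnt_notMem hk]; exact (h.1 k hk).symm
  · by_cases hi : i ∈ J1
    · rw [pvgs_at_pos_mem hi]
    · rw [pvgs_at_pos_notMem hi]; exact (h.2.1 i hi).symm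
  · by_cases hi : i ∈ J2
    · rw [pvgs_at_col_mem hi]
    · rw [pvgs_at_col_notMem hi]; exact (h.2.2 i hi).symm

/-- `f` ignores the atom iff it takes the same value on samples which agree off the atom -/
theorem pvgs_ig_at_iff {γ : Sort*} {f : PVSample → γ} : PvtkIg (pvgsAt J0 J1 J2) f ↔ ∀ ω ω', PvgsAgree J0 J1 J2 ω ω' → f ω' = f ω := by
  constructor
  · intro h ω ω' ha
    have := h ω ω'
    rwa [ha.at_eq] at this
  · intro h ω ω'
    exact h ω _ (pvgs_at_agree J0 J1 J2 ω ω')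

theorem pvgs_ig_at {γ : Sort*} {f : PVSample → γ} (h : ∀ ω ω', PvgsAgree J0 J1 J2 ω ω' → f ω' = f ω) : PvtkIg (pvgsAt J0 J1 J2) f := pvgs_ig_at_iff.2 h

theorem PvtkIg.at_mono {γ : Sort*} {f : PVSample → γ} (h : PvtkIg (pvgsAt J0' J1' J2') f) (h0 : J0 ⊆ J0') (h1 : J1 ⊆ J1') (h2 : J2 ⊆ J2') :
    PvtkIg (pvgsAt J0 J1 J2) f :=
  pvgs_ig_at fun ω ω' ha => pvgs_ig_at_iff.1 h ω ω' (ha.mono h0 h1 h2)

/-- disjoint atoms commute -/
theorem pvgs_comm_at (h0 : Disjoint J0 J0') (h1 : Disjoint J1 J1') (h2 : Disjoint J2 J2') : PvtkComm (pvgsAt J0 J1 J2) (pvgsAt J0' J1' J2') := fun ω ω' ω'' => by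
  refine pvgs_ext (fun k => ?_) (fun i => ?_) (fun i => ?_)
  · by_cases hk : k ∈ J0
    · have hk' : k ∉ J0' := Set.disjoint_left.1 h0 hk
      rw [pvgs_at_cnt_mem hk, pvgs_at_cnt_notMem hk', pvgs_at_cnt_mem hk]
    · rw [pvgs_at_cnt_notMem hk]
      by_cases hk' : k ∈ J0'
      · rw [pvgs_at_cnt_mem hk', pvgs_at_cnt_mem hk']
      · rw [pvgs_at_cnt_notMem hk', pvgs_at_cnt_notMem hk', pvgs_at_cnt_notMem hk]
  · by_cases hk : i ∈ J1
    · have hk' : i ∉ J1' := Set.disjoint_left.1 h1 hk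
      rw [pvgs_at_pos_mem hk, pvgs_at_pos_notMem hk', pvgs_at_pos_mem hk]
    · rw [pvgs_at_pos_notMem hk]
      by_cases hk' : i ∈ J1'
      · rw [pvgs_at_pos_mem hk', pvgs_at_pos_mem hk']
      · rw [pvgs_at_pos_notMem hk', pvgs_at_pos_notMem hk', pvgs_at_pos_notMem hk]
  · by_cases hk : i ∈ J2
    · have hk' : i ∉ J2' := Set.disjoint_left.1 h2 hk
      rw [pvgs_at_col_mem hk, pvgs_at_col_notMem hk', pvgs_at_col_mem hk]
    · rw [pvgs_at_col_notMem hk]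
      by_cases hk' : i ∈ J2'
      · rw [pvgs_at_col_mem hk', pvgs_at_col_mem hk']
      · rw [pvgs_at_col_notMem hk', pvgs_at_col_notMem hk', pvgs_at_col_notMem hk]

/-- ONE SEED: two atoms resampled with the same seed = the union of the atoms -/
theorem pvgs_at_at_seed (ω ω' : PVSample) : pvgsAt J0 J1 J2 (pvgsAt J0' J1' J2' (ω, ω'), ω') = pvgsAt (J0 ∪ J0') (J1 ∪ J1') (J2 ∪ J2') (ω, ω') := by
  refine pvgs_ext (fun k => ?_) (fun i => ?_) (fun i => ?_)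
  · by_cases hk : k ∈ J0
    · rw [pvgs_at_cnt_mem hk, pvgs_at_cnt_mem (Or.inl hk)]
    · rw [pvgs_at_cnt_notMem hk]
      by_cases hk' : k ∈ J0'
      · rw [pvgs_at_cnt_mem hk', pvgs_at_cnt_mem (Or.inr hk')]
      · rw [pvgs_at_cnt_notMem hk', pvgs_at_cnt_notMem (fun hh => hh.elim hk hk')]
  · by_cases hk : i ∈ J1
    · rw [pvgs_at_pos_mem hk, pvgs_at_pos_mem (Or.inl hk)]
    · rw [pvgs_at_pos_notMem hk]
      by_cases hk' : i ∈ J1'
      · rw [pvgs_at_pos_mem hk', pvgs_at_pos_mem (Or.inr hk')]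
      · rw [pvgs_at_pos_notMem hk', pvgs_at_pos_notMem (fun hh => hh.elim hk hk')]
  · by_cases hk : i ∈ J2
    · rw [pvgs_at_col_mem hk, pvgs_at_col_mem (Or.inl hk)]
    · rw [pvgs_at_col_notMem hk]
      by_cases hk' : i ∈ J2'
      · rw [pvgs_at_col_mem hk', pvgs_at_col_mem (Or.inr hk')]
      · rw [pvgs_at_col_notMem hk', pvgs_at_col_notMem (fun hh => hh.elim hk hk')]

/-- the seed is read on the atom only -/
theorem pvgs_at_seed_congr {ω ω' ω'' : PVSample} (h0 : ∀ k ∈ J0, ω'.1 k = ω''.1 k) (h1 : ∀ i ∈ J1, (ω'.2 i).1 = (ω''.2 i).1) (h2 : ∀ i ∈ J2, (ω'.2 i).2 = (ω''.2 i).2) :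
    pvgsAt J0 J1 J2 (ω, ω') = pvgsAt J0 J1 J2 (ω, ω'') := by
  refine pvgs_ext (fun k => ?_) (fun i => ?_) (fun i => ?_)
  · by_cases hk : k ∈ J0
    · rw [pvgs_at_cnt_mem hk, pvgs_at_cnt_mem hk]; exact h0 k hk
    · rw [pvgs_at_cnt_notMem hk, pvgs_at_cnt_notMem hk]
  · by_cases hk : i ∈ J1
    · rw [pvgs_at_pos_mem hk, pvgs_at_pos_mem hk]; exact h1 i hk
    · rw [pvgs_at_pos_notMem hk, pvgs_at_pos_notMem hk]
  · by_cases hk : i ∈ J2
    · rw [pvgs_at_col_mem hk, pvgs_at_col_mem hk]; exact h2 i hk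
    · rw [pvgs_at_col_notMem hk, pvgs_at_col_notMem hk]

end atoms

/-! ## 4. (G1) squares: the normalised configuration, the dictionary with `Conf.spl`, the scaling -/

section squares

/-- normalisation of the positions (fractional parts): the identity almost surely; it makes the dictionary below true at EVERY sample, as `PvtkIg` / `PvtkComm` ask -/
noncomputable def pvgsFx (ω : PVSample) : PVSample := (ω.1, fun i => ((Int.fract (ω.2 i).1.1, Int.fract (ω.2 i).1.2), (ω.2 i).2))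

/-- the normalised configuration -/
noncomputable def pvgsCf (ω : PVSample) : Conf PvPt := pvConf (pvgsFx ω)

/-- the region of the unit squares `k ∈ J` (both colours) -/
def pvgsReg (J : Set (ℤ × ℤ)) : Set PvPt := {p | (⌊p.1.re⌋, ⌊p.1.im⌋) ∈ J}

/-- the SQUARE ATOM: the whole content (count, positions, colours) of the squares of `J` -/
noncomputable def pvgsSq (J : Set (ℤ × ℤ)) : PVSample × PVSample → PVSample := pvgsAt J (Prod.fst ⁻¹' J) (Prod.fst ⁻¹' J)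

/-- the configuration at mesh `lam` -/
noncomputable def pvgsCfL (lam : ℝ) (ω : PVSample) : Conf PvPt := cfMap (fun z => lam • z) (pvgsCf ω)

/-- the region of the `lam`-squares `k ∈ J` -/
def pvgsRegL (lam : ℝ) (J : Set (ℤ × ℤ)) : Set PvPt := {p | (⌊p.1.re / lam⌋, ⌊p.1.im / lam⌋) ∈ J}

theorem pvgs_eqns_cite3 : True := by
  have := @pvgsFx.eq_1; have := @pvgsCf.eq_1; have := @pvgsReg.eq_1; have := @pvgsSq.eq_1; have := @pvgsCfL.eq_1; have := @pvgsRegL.eq_1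
  trivial

theorem measurable_pvgsFx : Measurable pvgsFx := by
  unfold pvgsFx
  refine measurable_fst.prodMk (measurable_pi_lambda _ fun i => ?_)
  have h : Measurable fun ω : PVSample => ω.2 i := (measurable_pi_apply i).comp measurable_snd
  exact ((measurable_fract.comp (measurable_fst.comp (measurable_fst.comp h))).prodMk
    (measurable_fract.comp (measurable_snd.comp (measurable_fst.comp h)))).prodMk (measurable_snd.comp h)

theorem pvgs_fx_of_sq {ω : PVSample} (h : ∀ k j, (ω.2 (k, j)).1 ∈ Ico (0 : ℝ) 1 ×ˢ Ico (0 : ℝ) 1) : pvgsFx ω = ω := by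
  refine pvgs_ext (fun _ => rfl) (fun i => ?_) (fun _ => rfl)
  obtain ⟨h1, h2⟩ := h i.1 i.2
  exact Prod.ext (Int.fract_eq_self.2 ⟨h1.1, h1.2⟩) (Int.fract_eq_self.2 ⟨h2.1, h2.2⟩)

theorem pvgs_fx_ae (ε : ℝ) : ∀ᵐ ω ∂(pvLaw ε), pvgsFx ω = ω := (delgp_ae ε).mono fun _ h => pvgs_fx_of_sq h.sq

theorem pvgs_fx_fx (ω : PVSample) : pvgsFx (pvgsFx ω) = pvgsFx ω :=
  pvgs_fx_of_sq fun _ _ => ⟨⟨Int.fract_nonneg _, Int.fract_lt_one _⟩, ⟨Int.fract_nonneg _, Int.fract_lt_one _⟩⟩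

theorem pvgs_fx_law (ε : ℝ) : (pvLaw ε).map pvgsFx = pvLaw ε := by
  rw [Measure.map_congr (pvgs_fx_ae ε)]
  exact Measure.map_id'

/-- the normalisation commutes with every coordinate atom -/
theorem pvgs_fx_at (J0 : Set (ℤ × ℤ)) (J1 J2 : Set PvIx) (ω ω' : PVSample) : pvgsFx (pvgsAt J0 J1 J2 (ω, ω')) = pvgsAt J0 J1 J2 (pvgsFx ω, pvgsFx ω') := by
  refine pvgs_ext (fun k => ?_) (fun i => ?_) (fun i => ?_)
  · show (pvgsAt J0 J1 J2 (ω, ω')).1 k = _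
    by_cases hk : k ∈ J0
    · rw [pvgs_at_cnt_mem hk, pvgs_at_cnt_mem hk]; rfl
    · rw [pvgs_at_cnt_notMem hk, pvgs_at_cnt_notMem hk]; rfl
  · show (Int.fract ((pvgsAt J0 J1 J2 (ω, ω')).2 i).1.1, Int.fract ((pvgsAt J0 J1 J2 (ω, ω')).2 i).1.2) = _
    by_cases hk : i ∈ J1
    · rw [pvgs_at_pos_mem hk, pvgs_at_pos_mem hk]; rfl
    · rw [pvgs_at_pos_notMem hk, pvgs_at_pos_notMem hk]; rfl
  · show ((pvgsAt J0 J1 J2 (ω, ω')).2 i).2 = _
    by_cases hk : i ∈ J2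
    · rw [pvgs_at_col_mem hk, pvgs_at_col_mem hk]; rfl
    · rw [pvgs_at_col_notMem hk, pvgs_at_col_notMem hk]; rfl

theorem measurable_pvgsCf : Measurable pvgsCf := measurable_pvConf.comp measurable_pvgsFx

theorem pvgs_cf_ae (ε : ℝ) : ∀ᵐ ω ∂(pvLaw ε), pvgsCf ω = pvConf ω := (pvgs_fx_ae ε).mono fun ω h => by unfold pvgsCf; rw [h]

theorem pvgs_cf_of_ok {ω : PVSample} (h : DelgpOk ω) : pvgsCf ω = pvConf ω := by unfold pvgsCf; rw [pvgs_fx_of_sq h.sq]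

theorem pvgs_cf_law (ε : ℝ) : (pvLaw ε).map pvgsCf = pvP ε := by
  unfold pvP
  exact Measure.map_congr (pvgs_cf_ae ε)

theorem measurableSet_pvgsReg (J : Set (ℤ × ℤ)) : MeasurableSet (pvgsReg J) := by
  have hm : Measurable fun p : PvPt => ((⌊p.1.re⌋, ⌊p.1.im⌋) : ℤ × ℤ) :=
    (Int.measurable_floor.comp (Complex.measurable_re.comp measurable_fst)).prodMk (Int.measurable_floor.comp (Complex.measurable_im.comp measurable_fst))
  exact hm (MeasurableSet.of_discrete (s := J))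

theorem measurableSet_pvgsRegL (lam : ℝ) (J : Set (ℤ × ℤ)) : MeasurableSet (pvgsRegL lam J) := by
  have hm : Measurable fun p : PvPt => ((⌊p.1.re / lam⌋, ⌊p.1.im / lam⌋) : ℤ × ℤ) :=
    (Int.measurable_floor.comp ((Complex.measurable_re.comp measurable_fst).div_const lam)).prodMk
      (Int.measurable_floor.comp ((Complex.measurable_im.comp measurable_fst).div_const lam))
  exact hm (MeasurableSet.of_discrete (s := J))

theorem pvgs_reg_disjoint {J J' : Set (ℤ × ℤ)} (h : Disjoint J J') : Disjoint (pvgsReg J) (pvgsReg J') :=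
  Set.disjoint_left.2 fun _ h1 h2 => Set.disjoint_left.1 h h1 h2

theorem pvgs_regL_disjoint (lam : ℝ) {J J' : Set (ℤ × ℤ)} (h : Disjoint J J') : Disjoint (pvgsRegL lam J) (pvgsRegL lam J') :=
  Set.disjoint_left.2 fun _ h1 h2 => Set.disjoint_left.1 h h1 h2

/-- the point of label `(k, j)` of a normalised sample lies in the square `k` -/
theorem pvgs_pt_reg (ω : PVSample) (k : ℤ × ℤ) (j : ℕ) (J : Set (ℤ × ℤ)) : pvPt (pvgsFx ω) k j ∈ pvgsReg J ↔ k ∈ J := by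
  have h1 : ⌊(pvPt (pvgsFx ω) k j).1.re⌋ = k.1 := by
    show ⌊(k.1 : ℝ) + Int.fract _⌋ = k.1
    rw [Int.floor_intCast_add, Int.floor_fract, add_zero]
  have h2 : ⌊(pvPt (pvgsFx ω) k j).1.im⌋ = k.2 := by
    show ⌊(k.2 : ℝ) + Int.fract _⌋ = k.2
    rw [Int.floor_intCast_add, Int.floor_fract, add_zero]
  show (⌊(pvPt (pvgsFx ω) k j).1.re⌋, ⌊(pvPt (pvgsFx ω) k j).1.im⌋) ∈ J ↔ _
  rw [h1, h2]

theorem pvgs_sq_cnt_mem {J : Set (ℤ × ℤ)} {k : ℤ × ℤ} (h : k ∈ J) (x : PVSample × PVSample) : (pvgsSq J x).1 k = x.2.1 k := pvgs_at_cnt_mem h _ _ _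

theorem pvgs_sq_cnt_notMem {J : Set (ℤ × ℤ)} {k : ℤ × ℤ} (h : k ∉ J) (x : PVSample × PVSample) : (pvgsSq J x).1 k = x.1.1 k := pvgs_at_cnt_notMem h _ _ _

theorem pvgs_sq_mark_mem {J : Set (ℤ × ℤ)} {k : ℤ × ℤ} (h : k ∈ J) (j : ℕ) (x : PVSample × PVSample) : (pvgsSq J x).2 (k, j) = x.2.2 (k, j) :=
  Prod.ext (pvgs_at_pos_mem (show (k, j) ∈ Prod.fst ⁻¹' J from h) _ _ _) (pvgs_at_col_mem (show (k, j) ∈ Prod.fst ⁻¹' J from h) _ _ _)

theorem pvgs_sq_mark_notMem {J : Set (ℤ × ℤ)} {k : ℤ × ℤ} (h : k ∉ J) (j : ℕ) (x : PVSample × PVSample) : (pvgsSq J x).2 (k, j) = x.1.2 (k, j) :=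
  Prod.ext (pvgs_at_pos_notMem (show (k, j) ∉ Prod.fst ⁻¹' J from h) _ _ _) (pvgs_at_col_notMem (show (k, j) ∉ Prod.fst ⁻¹' J from h) _ _ _)

theorem pvgs_rs_sq (ε : ℝ) (J : Set (ℤ × ℤ)) : PvtkRs (pvLaw ε) (pvgsSq J) := pvgs_rs_at ε _ _ _

theorem pvgs_comm_sq {J J' : Set (ℤ × ℤ)} (h : Disjoint J J') : PvtkComm (pvgsSq J) (pvgsSq J') :=
  pvgs_comm_at h (h.preimage _) (h.preimage _)

/-- **(G1), dictionary**: the square atom is the spatial resampler of `Tr/Chain`, at EVERY pair of samples -/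
theorem pvgs_cf_sq (J : Set (ℤ × ℤ)) (ω ω' : PVSample) : pvgsCf (pvgsSq J (ω, ω')) = pvtkR (pvgsReg J) (pvgsCf ω, pvgsCf ω') := by
  have e : pvgsFx (pvgsSq J (ω, ω')) = pvgsSq J (pvgsFx ω, pvgsFx ω') := pvgs_fx_at _ _ _ _ _
  ext p
  rw [pvtk_mem_R]
  unfold pvgsCf
  rw [e]
  constructor
  · rintro ⟨k, j, hj, rfl⟩
    by_cases hk : k ∈ J
    · right
      rw [pvgs_sq_cnt_mem hk] at hj
      have e1 : pvPt (pvgsSq J (pvgsFx ω, pvgsFx ω')) k j = pvPt (pvgsFx ω') k j := by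
        rw [pvPt_eq, pvPt_eq, pvgs_sq_mark_mem hk]
      rw [e1]
      exact ⟨⟨k, j, hj, rfl⟩, (pvgs_pt_reg ω' k j J).2 hk⟩
    · left
      rw [pvgs_sq_cnt_notMem hk] at hj
      have e1 : pvPt (pvgsSq J (pvgsFx ω, pvgsFx ω')) k j = pvPt (pvgsFx ω) k j := by
        rw [pvPt_eq, pvPt_eq, pvgs_sq_mark_notMem hk]
      rw [e1]
      exact ⟨⟨k, j, hj, rfl⟩, fun hh => hk ((pvgs_pt_reg ω k j J).1 hh)⟩
  · rintro (⟨⟨k, j, hj, rfl⟩, hp⟩ | ⟨⟨k, j, hj, rfl⟩, hp⟩)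
    · have hk : k ∉ J := fun hh => hp ((pvgs_pt_reg ω k j J).2 hh)
      refine ⟨k, j, by rw [pvgs_sq_cnt_notMem hk]; exact hj, ?_⟩
      rw [pvPt_eq, pvPt_eq, pvgs_sq_mark_notMem hk]
    · have hk : k ∈ J := (pvgs_pt_reg ω' k j J).1 hp
      refine ⟨k, j, by rw [pvgs_sq_cnt_mem hk]; exact hj, ?_⟩
      rw [pvPt_eq, pvPt_eq, pvgs_sq_mark_mem hk]

/-- the image of a spatial resampler -/
theorem pvgs_image_R {E F : Type*} [MeasurableSpace E] [MeasurableSpace F] (g : E → F) {K : Set E} {K' : Set F} (h : ∀ p, g p ∈ K' ↔ p ∈ K) (η η' : Conf E) :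
    Conf.image g (pvtkR K (η, η')) = pvtkR K' (Conf.image g η, Conf.image g η') := by
  ext q
  rw [pvtk_mem_R]
  constructor
  · rintro ⟨p, hp, rfl⟩
    rcases pvtk_mem_R.1 hp with ⟨h1, h2⟩ | ⟨h1, h2⟩
    · exact Or.inl ⟨⟨p, h1, rfl⟩, fun hh => h2 ((h p).1 hh)⟩
    · exact Or.inr ⟨⟨p, h1, rfl⟩, (h p).2 h2⟩
  · rintro (⟨⟨p, h1, rfl⟩, h2⟩ | ⟨⟨p, h1, rfl⟩, h2⟩)
    · exact ⟨p, pvtk_mem_R.2 (Or.inl ⟨h1, fun hh => h2 ((h p).2 hh)⟩), rfl⟩
    · exact ⟨p, pvtk_mem_R.2 (Or.inr ⟨h1, (h p).1 h2⟩), rfl⟩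

theorem measurable_pvgsCfL (lam : ℝ) : Measurable (pvgsCfL lam) := (measurable_cfMap (measurable_const_smul lam)).comp measurable_pvgsCf

/-- the law of the configuration at mesh `lam`: use it with `ε / lam` -/
theorem pvgs_cfL_law {lam : ℝ} (hlam : lam ≠ 0) (ε : ℝ) : (pvLaw ε).map (pvgsCfL lam) = pvP (lam * ε) := by
  have e : pvgsCfL lam = (cfMap fun z => lam • z) ∘ pvgsCf := rfl
  rw [e, ← Measure.map_map (measurable_cfMap (measurable_const_smul lam)) measurable_pvgsCf, pvgs_cf_law, pvP_scale hlam]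

theorem pvgs_cfL_law' {lam : ℝ} (hlam : lam ≠ 0) (ε : ℝ) : (pvLaw (ε / lam)).map (pvgsCfL lam) = pvP ε := by
  rw [pvgs_cfL_law hlam, mul_div_cancel₀ _ hlam]

/-- **(G1), dictionary at mesh `lam`** -/
theorem pvgs_cfL_sq {lam : ℝ} (hlam : lam ≠ 0) (J : Set (ℤ × ℤ)) (ω ω' : PVSample) :
    pvgsCfL lam (pvgsSq J (ω, ω')) = pvtkR (pvgsRegL lam J) (pvgsCfL lam ω, pvgsCfL lam ω') := by
  unfold pvgsCfL cfMap
  rw [pvgs_cf_sq]
  refine pvgs_image_R _ (fun p => ?_) _ _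
  show (⌊(lam • p.1).re / lam⌋, ⌊(lam • p.1).im / lam⌋) ∈ J ↔ (⌊p.1.re⌋, ⌊p.1.im⌋) ∈ J
  rw [Complex.smul_re, Complex.smul_im, smul_eq_mul, smul_eq_mul, mul_div_cancel_left₀ _ hlam, mul_div_cancel_left₀ _ hlam]

/-- a function which reads a region off the squares of `J` ignores the square atom -/
theorem pvgs_ig_sq_of_reads {γ : Sort*} {lam : ℝ} (hlam : lam ≠ 0) {W : Set PvPt} {J : Set (ℤ × ℤ)} {f : Conf PvPt → γ} (h : ∀ η, f (Conf.restr W η) = f η)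
    (hd : Disjoint W (pvgsRegL lam J)) : PvtkIg (pvgsSq J) fun ω => f (pvgsCfL lam ω) := fun ω ω' => by
  show f (pvgsCfL lam (pvgsSq J (ω, ω'))) = f (pvgsCfL lam ω)
  rw [pvgs_cfL_sq hlam]
  exact pvtk_ig_of_reads h hd _ _

/-- a function which reads a region inside the squares of `J` sees the seed only -/
theorem pvgs_fresh_sq_of_reads {γ : Sort*} {lam : ℝ} (hlam : lam ≠ 0) {W : Set PvPt} {J : Set (ℤ × ℤ)} {f : Conf PvPt → γ} (h : ∀ η, f (Conf.restr W η) = f η)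
    (hs : W ⊆ pvgsRegL lam J) (ω ω' : PVSample) : f (pvgsCfL lam (pvgsSq J (ω, ω'))) = f (pvgsCfL lam ω') := by
  rw [pvgs_cfL_sq hlam]
  exact pvtk_fresh_of_reads h hs _ _

end squares

/-! ## 5. (G2) link atoms: the content of a set of squares + the FRESH COLOURS of a state dependent finite class of labels, ONE seed -/

section link

/-- the LINK ATOM with a fixed class `a`: content of the squares of `J` + colour bits of the labels of `a` (positions kept) -/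
noncomputable def pvgsLk (J : Set (ℤ × ℤ)) (a : Set PvIx) : PVSample × PVSample → PVSample := pvgsAt J (Prod.fst ⁻¹' J) (Prod.fst ⁻¹' J ∪ a)

/-- agreement off the link atom -/
def PvgsAgL (J : Set (ℤ × ℤ)) (a : Set PvIx) (ω ω' : PVSample) : Prop := PvgsAgree J (Prod.fst ⁻¹' J) (Prod.fst ⁻¹' J ∪ a) ω ω'

/-- the class `A` is read off what the atom does not touch -/
def PvgsSelf (J : Set (ℤ × ℤ)) (A : PVSample → Finset PvIx) : Prop := ∀ ω ω', PvgsAgL J (A ω) ω ω' → A ω' = A ω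

/-- **THE LINK ATOM** with the state dependent class `A ω` -/
noncomputable def pvgsLkA (J : Set (ℤ × ℤ)) (A : PVSample → Finset PvIx) : PVSample × PVSample → PVSample := pvgsGl A fun a => pvgsLk J (a : Set PvIx)

theorem pvgs_eqns_cite4 : True := by
  have := @pvgsLk.eq_1; have := @PvgsAgL.eq_1; have := @PvgsSelf.eq_1; have := @pvgsLkA.eq_1
  trivial

variable {J J' : Set (ℤ × ℤ)} {A A' : PVSample → Finset PvIx}

theorem pvgs_lk_empty (J : Set (ℤ × ℤ)) : pvgsLk J ∅ = pvgsSq J := by unfold pvgsLk pvgsSq; rw [union_empty]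

theorem pvgs_lkA_apply (J : Set (ℤ × ℤ)) (A : PVSample → Finset PvIx) (ω ω' : PVSample) : pvgsLkA J A (ω, ω') = pvgsLk J (A ω) (ω, ω') := rfl

theorem pvgs_rs_lk (ε : ℝ) (J : Set (ℤ × ℤ)) (a : Set PvIx) : PvtkRs (pvLaw ε) (pvgsLk J a) := pvgs_rs_at ε _ _ _

theorem pvgs_lk_agree (J : Set (ℤ × ℤ)) (a : Set PvIx) (ω ω' : PVSample) : PvgsAgL J a ω (pvgsLk J a (ω, ω')) := pvgs_at_agree _ _ _ _ _

theorem pvgs_lkA_agree (J : Set (ℤ × ℤ)) (A : PVSample → Finset PvIx) (ω ω' : PVSample) : PvgsAgL J (A ω) ω (pvgsLkA J A (ω, ω')) := pvgs_lk_agree _ _ _ _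

/-- ONE SEED: the link atom = colour atom, then square atom, with the same seed -/
theorem pvgs_lk_eq (J : Set (ℤ × ℤ)) (a : Set PvIx) (ω ω' : PVSample) : pvgsLk J a (ω, ω') = pvgsSq J (pvgsAt ∅ ∅ a (ω, ω'), ω') := by
  unfold pvgsLk pvgsSq
  rw [pvgs_at_at_seed, union_empty, union_empty]

theorem PvgsSelf.ig (h : PvgsSelf J A) (a : Finset PvIx) : PvtkIg (pvgsLk J (a : Set PvIx)) fun ω => A ω = a := fun ω ω' => by
  show (A (pvgsLk J (a : Set PvIx) (ω, ω')) = a) = (A ω = a)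
  refine propext ⟨fun h1 => ?_, fun h1 => ?_⟩
  · have h2 : PvgsAgL J (A (pvgsLk J (a : Set PvIx) (ω, ω'))) (pvgsLk J (a : Set PvIx) (ω, ω')) ω := by
      rw [h1]; exact (pvgs_lk_agree J a ω ω').symm
    rw [h _ _ h2]; exact h1
  · have h2 : PvgsAgL J (A ω) ω (pvgsLk J (a : Set PvIx) (ω, ω')) := by
      rw [h1]; exact pvgs_lk_agree J a ω ω'
    rw [h _ _ h2]; exact h1

/-- **(G2)** the link atom with a self-read class is a resampler of the frozen law -/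
theorem pvgs_rs_lkA (ε : ℝ) (hAm : ∀ a, MeasurableSet (A ⁻¹' {a})) (hA : PvgsSelf J A) : PvtkRs (pvLaw ε) (pvgsLkA J A) :=
  pvgs_rs_gl hAm (fun a => pvgs_rs_lk ε J a) hA.ig

theorem PvgsSelf.ig_self (hA : PvgsSelf J A) : PvtkIg (pvgsLkA J A) A := pvgs_gl_T hA.ig

/-- `f` ignores the link atom iff it takes the same value on samples which agree off the atom -/
theorem pvgs_ig_lkA_iff {γ : Sort*} {f : PVSample → γ} : PvtkIg (pvgsLkA J A) f ↔ ∀ ω ω', PvgsAgL J (A ω) ω ω' → f ω' = f ω := by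
  constructor
  · intro h ω ω' ha
    have := h ω ω'
    rwa [pvgs_lkA_apply, pvgsLk, PvgsAgree.at_eq ha] at this
  · intro h ω ω'
    exact h ω _ (pvgs_lkA_agree J A ω ω')

theorem pvgs_ig_lkA {γ : Sort*} {f : PVSample → γ} (h : ∀ ω ω', PvgsAgL J (A ω) ω ω' → f ω' = f ω) : PvtkIg (pvgsLkA J A) f := pvgs_ig_lkA_iff.2 h

theorem pvgs_comm_lk {a a' : Set PvIx} (hJ : Disjoint J J') (haa : Disjoint a a') (h1 : ∀ i ∈ a, i.1 ∉ J') (h2 : ∀ i ∈ a', i.1 ∉ J) :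
    PvtkComm (pvgsLk J a) (pvgsLk J' a') := by
  refine pvgs_comm_at hJ (hJ.preimage _) (Set.disjoint_left.2 ?_)
  rintro i (hi | hi) (hi' | hi')
  · exact Set.disjoint_left.1 hJ hi hi'
  · exact h2 i hi' hi
  · exact h1 i hi hi'
  · exact Set.disjoint_left.1 haa hi hi'

/-- two link atoms commute: disjoint squares, disjoint classes, each class ignores the other atom -/
theorem pvgs_comm_lkA (hJ : Disjoint J J') (haa : ∀ ω, Disjoint (A ω) (A' ω)) (h1 : ∀ ω, ∀ i ∈ A ω, i.1 ∉ J') (h2 : ∀ ω, ∀ i ∈ A' ω, i.1 ∉ J)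
    (i1 : PvtkIg (pvgsLkA J' A') A) (i2 : PvtkIg (pvgsLkA J A) A') : PvtkComm (pvgsLkA J A) (pvgsLkA J' A') :=
  pvgs_comm_gl i1 i2 fun ω => pvgs_comm_lk hJ (by exact_mod_cast haa ω) (fun i hi => h1 ω i (by exact_mod_cast hi)) (fun i hi => h2 ω i (by exact_mod_cast hi))

/-- a link atom commutes with a square atom (a plug) -/
theorem pvgs_comm_lkA_sq (hJ : Disjoint J J') (h1 : ∀ ω, ∀ i ∈ A ω, i.1 ∉ J') (i1 : PvtkIg (pvgsSq J') A) : PvtkComm (pvgsLkA J A) (pvgsSq J') := by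
  refine pvgs_comm_gl_fix i1 fun ω => ?_
  rw [← pvgs_lk_empty J']
  exact pvgs_comm_lk hJ (disjoint_empty _) (fun i hi => h1 ω i (by exact_mod_cast hi)) (fun i hi => absurd hi (notMem_empty i))

/-- the union of two classes which are read off what the union atom does not touch is self-read -/
theorem pvgs_self_union (i1 : ∀ ω ω', PvgsAgL J (A ω ∪ A' ω : Finset PvIx) ω ω' → A ω' = A ω)
    (i2 : ∀ ω ω', PvgsAgL J (A ω ∪ A' ω : Finset PvIx) ω ω' → A' ω' = A' ω) : PvgsSelf J fun ω => A ω ∪ A' ω := fun ω ω' h => by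
  show A ω' ∪ A' ω' = A ω ∪ A' ω
  rw [i1 ω ω' h, i2 ω ω' h]

/-- geometry off the squares: counts and positions of the labels off `J` are not touched -/
theorem PvgsAgL.geo {a : Set PvIx} {ω ω' : PVSample} (h : PvgsAgL J a ω ω') {k : ℤ × ℤ} (hk : k ∉ J) (j : ℕ) : ω'.1 k = ω.1 k ∧ (ω'.2 (k, j)).1 = (ω.2 (k, j)).1 :=
  ⟨h.1 k hk, h.2.1 (k, j) hk⟩

theorem PvgsAgL.col {a : Set PvIx} {ω ω' : PVSample} (h : PvgsAgL J a ω ω') {i : PvIx} (hk : i.1 ∉ J) (hi : i ∉ a) : (ω'.2 i).2 = (ω.2 i).2 :=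
  h.2.2 i fun hh => hh.elim hk hi

theorem PvgsAgL.mark {a : Set PvIx} {ω ω' : PVSample} (h : PvgsAgL J a ω ω') {i : PvIx} (hk : i.1 ∉ J) (hi : i ∉ a) : ω'.2 i = ω.2 i :=
  Prod.ext (h.2.1 i hk) (h.col hk hi)

/-- **dictionary for link atoms**: a window `W` at mesh `lam` which avoids the squares of `J` and the sites of the class is not touched -/
theorem PvgsAgL.restr_cfL {a : Set PvIx} {ω ω' : PVSample} (h : PvgsAgL J a ω ω') (lam : ℝ) {W : Set PvPt}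
    (hW : ∀ k j, j < ω.1 k → (k ∈ J ∨ (k, j) ∈ a) → ∀ b, ((lam • (pvPt (pvgsFx ω) k j).1, b) : PvPt) ∉ W)
    (hW' : ∀ k j, k ∈ J → j < ω'.1 k → ((lam • (pvPt (pvgsFx ω') k j).1, (pvPt (pvgsFx ω') k j).2) : PvPt) ∉ W) :
    Conf.restr W (pvgsCfL lam ω') = Conf.restr W (pvgsCfL lam ω) := by
  have key : ∀ k j, k ∉ J → (pvPt (pvgsFx ω') k j).1 = (pvPt (pvgsFx ω) k j).1 := by
    intro k j hk
    have e := (h.geo hk j).2
    show (⟨(k.1 : ℝ) + Int.fract (ω'.2 (k, j)).1.1, (k.2 : ℝ) + Int.fract (ω'.2 (k, j)).1.2⟩ : ℂ) = ⟨(k.1 : ℝ) + Int.fract (ω.2 (k, j)).1.1, (k.2 : ℝ) + Int.fract (ω.2 (k, j)).1.2⟩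
    rw [e]
  ext q
  simp only [Conf.restr, mem_inter_iff, pvgsCfL, cfMap, Conf.image, mem_image, pvgsCf]
  constructor
  · rintro ⟨⟨_, ⟨k, j, hj, rfl⟩, rfl⟩, hq⟩
    refine ⟨?_, hq⟩
    by_cases hk : k ∈ J
    · exact absurd hq (hW' k j hk hj)
    · have hj' : j < ω.1 k := by rw [← (h.geo hk j).1]; exact hj
      by_cases hi : (k, j) ∈ a
      · exfalso
        refine hW k j hj' (Or.inr hi) (pvPt (pvgsFx ω') k j).2 ?_
        rw [← key k j hk]; exact hq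
      · refine ⟨pvPt (pvgsFx ω) k j, ⟨k, j, hj', rfl⟩, ?_⟩
        have : pvPt (pvgsFx ω') k j = pvPt (pvgsFx ω) k j := Prod.ext (key k j hk) (h.col (i := (k, j)) hk hi)
        rw [this]
  · rintro ⟨⟨_, ⟨k, j, hj, rfl⟩, rfl⟩, hq⟩
    refine ⟨?_, hq⟩
    by_cases hk : k ∈ J
    · exact absurd hq (hW k j hj (Or.inl hk) _)
    · by_cases hi : (k, j) ∈ a
      · exact absurd hq (hW k j hj (Or.inr hi) _)
      · have hj' : j < ω'.1 k := by rw [(h.geo hk j).1]; exact hj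
        refine ⟨pvPt (pvgsFx ω') k j, ⟨k, j, hj', rfl⟩, ?_⟩
        have : pvPt (pvgsFx ω') k j = pvPt (pvgsFx ω) k j := Prod.ext (key k j hk) (h.col (i := (k, j)) hk hi)
        rw [this]

end link

/-! ## 6. conditional expectations -/

section condexp

variable {Ω : Type*} [MeasurableSpace Ω] {P : Measure Ω} {β : Type*}

theorem pvgs_E_gl (T : Ω → β) (Rs : β → Ω × Ω → Ω) (F : Ω → ℝ≥0∞) (ω : Ω) : pvtkE P (pvgsGl T Rs) F ω = pvtkE P (Rs (T ω)) F ω := rfl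

theorem pvgs_W_gl (T : Ω → β) (Rs : β → Ω × Ω → Ω) (S : Set Ω) (ω : Ω) : pvtkW P (pvgsGl T Rs) S ω = pvtkW P (Rs (T ω)) S ω := rfl

/-- the pure colour atom in the quenched coordinates -/
theorem pvgs_col_eq (a : Set PvIx) (ω ω' : PVSample) : pvgsAt ∅ ∅ a (ω, ω') = pvMerge (pvGeoOf ω, pvfqMix aᶜ (pvColOf ω, pvColOf ω')) := by
  refine pvgs_ext (fun k => ?_) (fun i => ?_) (fun i => ?_)
  · exact pvgs_at_cnt_notMem (notMem_empty k) _ _ _
  · exact pvgs_at_pos_notMem (notMem_empty i) _ _ _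
  · show _ = pvfqMix aᶜ (pvColOf ω, pvColOf ω') i
    by_cases h : i ∈ a
    · rw [pvgs_at_col_mem h, pvfqMix_of_notMem (show i ∉ aᶜ from fun hh => hh h)]; rfl
    · rw [pvgs_at_col_notMem h, pvfqMix_of_mem (show i ∈ aᶜ from h)]; rfl

/-- **the conditional expectation of a pure colour atom is QUENCHED**: fixed geometry, fixed colours off `a`, fair bits on `a`  (so Harris at fixed geometry, `FkgQ` / `Tr/Force`, applies verbatim) -/
theorem pvgs_E_col (ε : ℝ) (a : Set PvIx) {F : PVSample → ℝ≥0∞} (hF : Measurable F) (ω : PVSample) :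
    pvtkE (pvLaw ε) (pvgsAt ∅ ∅ a) F ω = ∫⁻ c, F (pvMerge (pvGeoOf ω, pvfqMix aᶜ (pvColOf ω, c))) ∂pvCol := by
  unfold pvtkE
  simp_rw [pvgs_col_eq]
  have hm : Measurable fun c : PvColT => F (pvMerge (pvGeoOf ω, pvfqMix aᶜ (pvColOf ω, c))) :=
    hF.comp (measurable_pvMerge.comp (measurable_const.prodMk ((measurable_pvfqMix aᶜ).comp (measurable_const.prodMk measurable_id))))
  rw [← pvqu_law_col ε, lintegral_map hm measurable_pvColOf]

end condexp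

end Claimed.Agent.R289
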