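import Claimed.Agent.R289.Tr.Chain
import Claimed.Agent.R289.Tr.GridRs
import Claimed.Agent.R289.S1.Meas
import Claimed.Agent.R289.Ppp.Ind

/-!
# Row 289 (S0537), THE WALL, engine, file Tr/Multi : THE PRODUCT MODEL      (owner helper141; prefix `pvtu_`, `pvtu`, `Pvtu`)

WHY.   On road E (`W1_208.md`) the state of a plug is an EXPLORATION inside a deterministic box; the links read the geometry of the mouths (inside the boxes) and resample only the colours of the FRESH sites there.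
So "`σ_u = ω|O_u`, `ξ_e = ω|K_e` independent" (DEF A0 of `TR_295.md`) does not fit literally ((Y-c) of 159).   CURE: one INDEPENDENT LABELLED sample per region of a measurable partition of the plane.
* §1 products of resamplers (vocabulary `PvtkRs`, `PvtkComm`, `PvtkIg` of 218, `Tr/Chain.lean`): `pvtuR r` acts coordinate by coordinate; **`pvtu_rs_pi`**, `pvtu_comm_pi`; the trivial resamplers `Prod.fst` (keep), `Prod.snd` (replace);
  blocks `pvtuBlk s`; `pvtu_ig_of_dep`.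
* §2 the glue `pvtuGlue Reg x = ⋃ j, x j ∩ Reg j` on `Conf E`: measurable, **`pvtu_glue_law`** (law `μ`, from `IsPpp.splice_iUnion` of 256), `pvtu_restr_glue`, `Conf.Reads.glue_congr` (a reader of `⋃ j ∈ s, Reg j` only sees the coordinates of `s`),
  `pvtu_glue_blk` (block resampler = `Conf.spl`).
* §3 the labelled model: `PvtuT = PvfBase × (PvfIx → Bool)` (counts + positions, colours), `pvtuLaw1 ε`, `pvtuCf`, **`pvtu_cf_law`**; `pvtuLaw ι ε`, `pvtuPhi Reg`, **`pvtu_phi_law : (pvtuLaw ι ε).map (pvtuPhi Reg) = pvP ε`**;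
  transfer of integrals and events (`pvtu_lintegral`, `pvtu_lintegral_le`, `pvtu_measure`, `pvtu_measure_le`, `pvtu_ae`).
* §4 atoms of the experiment space `(V → Bool) × Conf E` AT A FIXED SAMPLE (RULING 10bis; consumer `Tr/ChainE.lean` of 218): `pvtu_comm_pr`, `pvtu_ig_pr`, `pvtu_comm_mix`, `pvtu_ig_mix`; the HYBRID ATOM `pvtuHy s K` (seed block `s` + region `K`):
  **`pvtu_rs_hy`**, `pvtu_comm_hy`; readers `PvtuRd t W f`, `PvtuRd.ig`, `PvtuRd.fresh`, `Conf.Reads.rd`; `pvtuSysOf`, **`pvtu_wf_of`**, `pvtu_fld_of` (= `pvtk_wf_of`, `pvtk_fld_of` of 218 with seed blocks).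
  (Stopping classes inside a coordinate = `Tr/Stop.lean` of 175; not needed at a fixed sample.)
-/

set_option autoImplicit false
set_option linter.unusedSectionVars false

namespace Claimed.Agent.R289

open MeasureTheory ProbabilityTheory Set
open scoped ENNReal

/-! ## 1. products of resamplers -/

section pi

variable {ι : Type*} {T : ι → Type*} [∀ j, MeasurableSpace (T j)] {ν : ∀ j, Measure (T j)} [∀ j, IsProbabilityMeasure (ν j)]

/-- the resampler which acts coordinate by coordinate -/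
def pvtuR (r : ∀ j, T j × T j → T j) (p : (∀ j, T j) × (∀ j, T j)) : ∀ j, T j := fun j => r j (p.1 j, p.2 j)

theorem pvtu_eqns_cite : True := by
  have := @pvtuR.eq_1.{0, 0}
  trivial

theorem measurable_pvtuR {r : ∀ j, T j × T j → T j} (h : ∀ j, Measurable (r j)) : Measurable (pvtuR r) :=
  measurable_pi_lambda _ fun j => (h j).comp (((measurable_pi_apply j).comp measurable_fst).prodMk ((measurable_pi_apply j).comp measurable_snd))

/-- **a product of resamplers is a resampler of the product law** -/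
theorem pvtu_rs_pi {r : ∀ j, T j × T j → T j} (h : ∀ j, PvtkRs (ν j) (r j)) : PvtkRs (Measure.infinitePi ν) (pvtuR r) where
  meas := measurable_pvtuR fun j => (h j).meas
  law := by
    have hz : Measurable (fun (p : (∀ j, T j) × (∀ j, T j)) j => (p.1 j, p.2 j)) := by fun_prop
    have hr : Measurable (fun (z : ∀ j, T j × T j) j => r j (z j)) := measurable_pi_lambda _ fun j => (h j).meas.comp (measurable_pi_apply j)
    have e : pvtuR r = (fun (z : ∀ j, T j × T j) j => r j (z j)) ∘ (fun (p : (∀ j, T j) × (∀ j, T j)) j => (p.1 j, p.2 j)) := rfl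
    rw [e, ← Measure.map_map hr hz, infinitePi_prod_zip, Measure.infinitePi_map_pi _ fun j => (h j).meas]
    congr 1
    funext j
    exact (h j).law
  abs := fun ω ω' ω'' => funext fun j => (h j).abs (ω j) (ω' j) (ω'' j)

theorem pvtu_comm_pi {r r' : ∀ j, T j × T j → T j} (h : ∀ j, PvtkComm (r j) (r' j)) : PvtkComm (pvtuR r) (pvtuR r') :=
  fun ω ω' ω'' => funext fun j => h j (ω j) (ω' j) (ω'' j)

end pi

section triv

variable {Ω : Type*} [MeasurableSpace Ω] {P : Measure Ω} [IsProbabilityMeasure P]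

/-- keep -/
theorem pvtu_rs_fst : PvtkRs P (Prod.fst : Ω × Ω → Ω) where
  meas := measurable_fst
  law := by rw [Measure.map_fst_prod]; simp
  abs := fun _ _ _ => rfl

/-- replace -/
theorem pvtu_rs_snd : PvtkRs P (Prod.snd : Ω × Ω → Ω) where
  meas := measurable_snd
  law := by rw [Measure.map_snd_prod]; simp
  abs := fun _ _ _ => rfl

theorem pvtu_comm_fst_left (R : Ω × Ω → Ω) : PvtkComm (Prod.fst : Ω × Ω → Ω) R := fun _ _ _ => rfl

theorem pvtu_comm_fst_right (R : Ω × Ω → Ω) : PvtkComm R (Prod.fst : Ω × Ω → Ω) := fun _ _ _ => rfl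

end triv

section blk

variable {ι : Type*} {T : ι → Type*} [∀ j, MeasurableSpace (T j)] {ν : ∀ j, Measure (T j)} [∀ j, IsProbabilityMeasure (ν j)]

open Classical in
/-- replace the coordinates of `s`, keep the others -/
noncomputable def pvtuBlk (s : Set ι) : (∀ j, T j) × (∀ j, T j) → ∀ j, T j := pvtuR fun j => if j ∈ s then Prod.snd else Prod.fst

theorem pvtu_eqns_cite2 : True := by
  have := @pvtuBlk.eq_1.{0, 0}
  trivial

theorem pvtu_blk_mem {s : Set ι} {j : ι} (h : j ∈ s) (x y : ∀ j, T j) : pvtuBlk s (x, y) j = y j := by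
  unfold pvtuBlk pvtuR; simp only [if_pos h]

theorem pvtu_blk_notMem {s : Set ι} {j : ι} (h : j ∉ s) (x y : ∀ j, T j) : pvtuBlk s (x, y) j = x j := by
  unfold pvtuBlk pvtuR; simp only [if_neg h]

theorem pvtu_rs_blk (s : Set ι) : PvtkRs (Measure.infinitePi ν) (pvtuBlk s : (∀ j, T j) × (∀ j, T j) → ∀ j, T j) := by
  classical
  refine pvtu_rs_pi fun j => ?_
  by_cases h : j ∈ s
  · rw [if_pos h]; exact pvtu_rs_snd
  · rw [if_neg h]; exact pvtu_rs_fst

theorem pvtu_comm_blk {s s' : Set ι} (h : Disjoint s s') : PvtkComm (pvtuBlk s : (∀ j, T j) × (∀ j, T j) → ∀ j, T j) (pvtuBlk s') := by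
  classical
  refine pvtu_comm_pi fun j => ?_
  by_cases h1 : j ∈ s
  · rw [if_neg (Set.disjoint_left.1 h h1)]; exact pvtu_comm_fst_right _
  · rw [if_neg h1]; exact pvtu_comm_fst_left _

/-- a coordinatewise resampler which keeps the coordinates off `s` is ignored by the functions of the coordinates off `s` -/
theorem pvtu_ig_of_dep {β : Sort*} {s : Set ι} {r : ∀ j, T j × T j → T j} (hr : ∀ j, j ∉ s → r j = Prod.fst) {f : (∀ j, T j) → β}
    (hf : ∀ x y : ∀ j, T j, (∀ j, j ∉ s → x j = y j) → f x = f y) : PvtkIg (pvtuR r) f := fun ω ω' =>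
  hf _ _ fun j hj => by unfold pvtuR; rw [hr j hj]

theorem pvtu_ig_blk {β : Sort*} {s : Set ι} {f : (∀ j, T j) → β} (hf : ∀ x y : ∀ j, T j, (∀ j, j ∉ s → x j = y j) → f x = f y) :
    PvtkIg (pvtuBlk s) f := fun ω ω' => hf _ _ fun _ hj => pvtu_blk_notMem hj ω ω'

end blk

/-! ## 2. the glue -/

section glue

variable {E : Type*} [MeasurableSpace E] {m : Measure E} {μ : Measure (Conf E)} {ι : Type*} {Reg : ι → Set E}

/-- the configuration which is `x j` in the region `Reg j` -/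
def pvtuGlue (Reg : ι → Set E) (x : ι → Conf E) : Conf E := Conf.iUnion fun j => Conf.restr (Reg j) (x j)

theorem pvtu_eqns_cite3 : True := by
  have := @pvtuGlue.eq_1.{0, 0}
  trivial

theorem pvtu_mem_glue {x : ι → Conf E} {p : E} : p ∈ (pvtuGlue Reg x).pts ↔ ∃ j, p ∈ (x j).pts ∧ p ∈ Reg j := by
  simp only [pvtuGlue, Conf.iUnion, Conf.restr, mem_iUnion, mem_inter_iff]

theorem measurable_pvtuGlue [Countable ι] (hReg : ∀ j, MeasurableSet (Reg j)) : Measurable (pvtuGlue Reg) :=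
  Conf.measurable_iUnion.comp (measurable_pi_lambda _ fun j => (Conf.measurable_restr (hReg j)).comp (measurable_pi_apply j))

/-- **independent copies glued along a measurable partition have the law `μ`** -/
theorem pvtu_glue_law [Countable ι] (h : IsPpp m μ) (hReg : ∀ j, MeasurableSet (Reg j)) (hd : Pairwise (Function.onFun Disjoint Reg)) (hc : ⋃ j, Reg j = univ) :
    haveI := h.prob
    (Measure.infinitePi fun _ : ι => μ).map (pvtuGlue Reg) = μ := h.splice_iUnion hReg hd hc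

theorem pvtu_restr_glue (hd : Pairwise (Function.onFun Disjoint Reg)) (j : ι) (x : ι → Conf E) :
    Conf.restr (Reg j) (pvtuGlue Reg x) = Conf.restr (Reg j) (x j) := by
  ext p
  simp only [Conf.restr, mem_inter_iff, pvtu_mem_glue]
  constructor
  · rintro ⟨⟨k, hk, hpk⟩, hp⟩
    by_cases hjk : k = j
    · subst hjk; exact ⟨hk, hp⟩
    · exact absurd hp (Set.disjoint_left.1 (hd hjk) hpk)
  · rintro ⟨h1, h2⟩
    exact ⟨⟨j, h1, h2⟩, h2⟩

/-- the glue inside `⋃ j ∈ s, Reg j` only sees the coordinates of `s`, and of each only its part in `Reg j` -/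
theorem pvtu_restr_glue_congr (hd : Pairwise (Function.onFun Disjoint Reg)) {s : Set ι} {W : Set E} (hW : W ⊆ ⋃ j ∈ s, Reg j) {x y : ι → Conf E}
    (hxy : ∀ j ∈ s, Conf.restr (Reg j) (x j) = Conf.restr (Reg j) (y j)) : Conf.restr W (pvtuGlue Reg x) = Conf.restr W (pvtuGlue Reg y) := by
  have key : ∀ x y : ι → Conf E, (∀ j ∈ s, Conf.restr (Reg j) (x j) = Conf.restr (Reg j) (y j)) → ∀ p, p ∈ (Conf.restr W (pvtuGlue Reg x)).pts → p ∈ (Conf.restr W (pvtuGlue Reg y)).pts := by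
    intro x y hxy p hp
    obtain ⟨hp1, hpW⟩ := hp
    obtain ⟨j, hj, hpj⟩ := mem_iUnion₂.1 (hW hpW)
    have h1 : p ∈ (Conf.restr (Reg j) (pvtuGlue Reg x)).pts := ⟨hp1, hpj⟩
    rw [pvtu_restr_glue hd, hxy j hj, ← pvtu_restr_glue hd] at h1
    exact ⟨h1.1, hpW⟩
  ext p
  exact ⟨key x y hxy p, key y x (fun j hj => (hxy j hj).symm) p⟩

/-- **a reader of `⋃ j ∈ s, Reg j` only sees the coordinates of `s`** -/
theorem Conf.Reads.glue_congr {β : Type*} {f : Conf E → β} {W : Set E} (hf : Conf.Reads W f) (hd : Pairwise (Function.onFun Disjoint Reg)) {s : Set ι}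
    (hW : W ⊆ ⋃ j ∈ s, Reg j) {x y : ι → Conf E} (hxy : ∀ j ∈ s, Conf.restr (Reg j) (x j) = Conf.restr (Reg j) (y j)) :
    f (pvtuGlue Reg x) = f (pvtuGlue Reg y) := hf.congr (pvtu_restr_glue_congr hd hW hxy)

/-- the block resampler is the splice -/
theorem pvtu_glue_blk (hd : Pairwise (Function.onFun Disjoint Reg)) (s : Set ι) (x y : ι → Conf E) :
    pvtuGlue Reg (pvtuBlk s (x, y)) = Conf.spl (⋃ j ∈ s, Reg j)ᶜ (pvtuGlue Reg x, pvtuGlue Reg y) := by
  have hmem : ∀ p, p ∈ (Conf.spl (⋃ j ∈ s, Reg j)ᶜ (pvtuGlue Reg x, pvtuGlue Reg y)).pts ↔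
      (p ∈ (pvtuGlue Reg x).pts ∧ ¬ ∃ k ∈ s, p ∈ Reg k) ∨ (p ∈ (pvtuGlue Reg y).pts ∧ ∃ k ∈ s, p ∈ Reg k) := by
    intro p
    simp only [Conf.spl, Conf.union, Conf.restr, mem_union, mem_inter_iff, mem_compl_iff, mem_iUnion, exists_prop, not_not]
  ext p
  rw [hmem, pvtu_mem_glue, pvtu_mem_glue, pvtu_mem_glue]
  constructor
  · rintro ⟨j, hj, hp⟩
    by_cases hs : j ∈ s
    · rw [pvtu_blk_mem hs] at hj
      exact Or.inr ⟨⟨j, hj, hp⟩, ⟨j, hs, hp⟩⟩
    · rw [pvtu_blk_notMem hs] at hj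
      refine Or.inl ⟨⟨j, hj, hp⟩, ?_⟩
      rintro ⟨k, hk, hpk⟩
      by_cases hjk : k = j
      · subst hjk; exact hs hk
      · exact Set.disjoint_left.1 (hd hjk) hpk hp
  · rintro (⟨⟨j, hj, hp⟩, hn⟩ | ⟨⟨j, hj, hp⟩, ⟨k, hk, hpk⟩⟩)
    · have hs : j ∉ s := fun hs => hn ⟨j, hs, hp⟩
      exact ⟨j, by rw [pvtu_blk_notMem hs]; exact hj, hp⟩
    · have hjk : k = j := by
        by_contra hne
        exact Set.disjoint_left.1 (hd hne) hpk hp
      subst hjk
      exact ⟨k, by rw [pvtu_blk_mem hk]; exact hj, hp⟩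

end glue

/-! ## 3. the labelled model -/

section model

open Claims.C0465

variable {ι : Type*} {Reg : ι → Set ℂ}

/-- one labelled sample: (counts, positions), colours -/
abbrev PvtuT := PvfBase × (PvfIx → Bool)

/-- the law of one labelled sample -/
noncomputable def pvtuLaw1 (ε : ℝ) : Measure PvtuT := (pvfBaseLaw ε).prod (colLaw PvfIx)

instance pvtu_law1_prob (ε : ℝ) : IsProbabilityMeasure (pvtuLaw1 ε) := by unfold pvtuLaw1; infer_instance

/-- the configuration of a labelled sample -/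
def pvtuCf (t : PvtuT) : Conf PvPt := pvConf (pvfGlue t)

theorem measurable_pvtuCf : Measurable pvtuCf := measurable_pvConf.comp pvf_measurable_glue

theorem pvtu_cf_law (ε : ℝ) : (pvtuLaw1 ε).map pvtuCf = pvP ε := by
  unfold pvP pvtuLaw1
  rw [pvf_qcol, Measure.map_map measurable_pvConf pvf_measurable_glue]
  rfl

/-- **the law of the product model**: one independent labelled sample per region -/
noncomputable def pvtuLaw (ι : Type*) (ε : ℝ) : Measure (ι → PvtuT) := Measure.infinitePi fun _ : ι => pvtuLaw1 ε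

instance pvtu_law_prob (ι : Type*) (ε : ℝ) : IsProbabilityMeasure (pvtuLaw ι ε) := by unfold pvtuLaw; infer_instance

/-- the region `Reg j`, with all the colours -/
def pvtuReg (Reg : ι → Set ℂ) (j : ι) : Set PvPt := Reg j ×ˢ (univ : Set Bool)

/-- **the configuration of the product model**: in the region `Reg j` the sample number `j` -/
def pvtuPhi (Reg : ι → Set ℂ) (x : ι → PvtuT) : Conf PvPt := pvtuGlue (pvtuReg Reg) fun j => pvtuCf (x j)

theorem pvtu_eqns_cite4 : True := by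
  have := @pvtuLaw1.eq_1
  have := @pvtuCf.eq_1
  have := @pvtuLaw.eq_1.{0}
  have := @pvtuReg.eq_1.{0}
  have := @pvtuPhi.eq_1.{0}
  trivial

theorem pvtu_reg_meas (hReg : ∀ j, MeasurableSet (Reg j)) (j : ι) : MeasurableSet (pvtuReg Reg j) := (hReg j).prod MeasurableSet.univ

theorem pvtu_reg_disj (hd : Pairwise (Function.onFun Disjoint Reg)) : Pairwise (Function.onFun Disjoint (pvtuReg Reg)) := fun _ _ hij =>
  Set.disjoint_left.2 fun _ hp hp' => Set.disjoint_left.1 (hd hij) hp.1 hp'.1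

theorem pvtu_reg_cover (hc : ⋃ j, Reg j = univ) : ⋃ j, pvtuReg Reg j = univ := by
  refine eq_univ_of_forall fun p => ?_
  obtain ⟨j, hj⟩ := mem_iUnion.1 (hc ▸ mem_univ p.1 : p.1 ∈ ⋃ j, Reg j)
  exact mem_iUnion.2 ⟨j, hj, mem_univ _⟩

theorem measurable_pvtuPhi [Countable ι] (hReg : ∀ j, MeasurableSet (Reg j)) : Measurable (pvtuPhi Reg) :=
  (measurable_pvtuGlue (pvtu_reg_meas hReg)).comp (measurable_pi_lambda _ fun j => measurable_pvtuCf.comp (measurable_pi_apply j))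

/-- **THE PRODUCT MODEL HAS THE LAW OF THE MODEL** -/
theorem pvtu_phi_law [Countable ι] (ε : ℝ) (hReg : ∀ j, MeasurableSet (Reg j)) (hd : Pairwise (Function.onFun Disjoint Reg)) (hc : ⋃ j, Reg j = univ) :
    (pvtuLaw ι ε).map (pvtuPhi Reg) = pvP ε := by
  have hm : Measurable fun (x : ι → PvtuT) j => pvtuCf (x j) := measurable_pi_lambda _ fun j => measurable_pvtuCf.comp (measurable_pi_apply j)
  have e : pvtuPhi Reg = pvtuGlue (pvtuReg Reg) ∘ fun (x : ι → PvtuT) j => pvtuCf (x j) := rfl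
  unfold pvtuLaw
  rw [e, ← Measure.map_map (measurable_pvtuGlue (pvtu_reg_meas hReg)) hm, Measure.infinitePi_map_pi _ fun _ => measurable_pvtuCf]
  simp_rw [pvtu_cf_law]
  exact pvtu_glue_law (pv_isPpp ε) (pvtu_reg_meas hReg) (pvtu_reg_disj hd) (pvtu_reg_cover hc)

/-- transfer of integrals -/
theorem pvtu_lintegral [Countable ι] (ε : ℝ) (hReg : ∀ j, MeasurableSet (Reg j)) (hd : Pairwise (Function.onFun Disjoint Reg)) (hc : ⋃ j, Reg j = univ)
    {F : Conf PvPt → ℝ≥0∞} (hF : AEMeasurable F (pvP ε)) : ∫⁻ η, F η ∂(pvP ε) = ∫⁻ x, F (pvtuPhi Reg x) ∂(pvtuLaw ι ε) := by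
  have hF' : AEMeasurable F ((pvtuLaw ι ε).map (pvtuPhi Reg)) := by rwa [pvtu_phi_law ε hReg hd hc]
  rw [← lintegral_map' hF' (measurable_pvtuPhi hReg).aemeasurable, pvtu_phi_law ε hReg hd hc]

/-- transfer of lower integrals: NO measurability -/
theorem pvtu_lintegral_le [Countable ι] (ε : ℝ) (hReg : ∀ j, MeasurableSet (Reg j)) (hd : Pairwise (Function.onFun Disjoint Reg)) (hc : ⋃ j, Reg j = univ)
    (F : Conf PvPt → ℝ≥0∞) : ∫⁻ η, F η ∂(pvP ε) ≤ ∫⁻ x, F (pvtuPhi Reg x) ∂(pvtuLaw ι ε) := by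
  conv_lhs => rw [← pvtu_phi_law ε hReg hd hc]
  exact lintegral_map_le F (pvtuPhi Reg)

theorem pvtu_measure [Countable ι] (ε : ℝ) (hReg : ∀ j, MeasurableSet (Reg j)) (hd : Pairwise (Function.onFun Disjoint Reg)) (hc : ⋃ j, Reg j = univ)
    {A : Set (Conf PvPt)} (hA : NullMeasurableSet A (pvP ε)) : pvP ε A = pvtuLaw ι ε (pvtuPhi Reg ⁻¹' A) := by
  have hA' : NullMeasurableSet A ((pvtuLaw ι ε).map (pvtuPhi Reg)) := by rwa [pvtu_phi_law ε hReg hd hc]
  rw [← Measure.map_apply₀ (measurable_pvtuPhi hReg).aemeasurable hA', pvtu_phi_law ε hReg hd hc]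

/-- outer measures: NO measurability -/
theorem pvtu_measure_le [Countable ι] (ε : ℝ) (hReg : ∀ j, MeasurableSet (Reg j)) (hd : Pairwise (Function.onFun Disjoint Reg)) (hc : ⋃ j, Reg j = univ)
    (A : Set (Conf PvPt)) : pvtuLaw ι ε (pvtuPhi Reg ⁻¹' A) ≤ pvP ε A := by
  conv_rhs => rw [← pvtu_phi_law ε hReg hd hc]
  exact Measure.le_map_apply (measurable_pvtuPhi hReg).aemeasurable A

theorem pvtu_ae [Countable ι] (ε : ℝ) (hReg : ∀ j, MeasurableSet (Reg j)) (hd : Pairwise (Function.onFun Disjoint Reg)) (hc : ⋃ j, Reg j = univ)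
    {p : Conf PvPt → Prop} (hp : ∀ᵐ η ∂(pvP ε), p η) : ∀ᵐ x ∂(pvtuLaw ι ε), p (pvtuPhi Reg x) := by
  rw [← pvtu_phi_law ε hReg hd hc] at hp
  exact ae_of_ae_map (measurable_pvtuPhi hReg).aemeasurable hp

theorem pvtu_aemeasurable [Countable ι] (ε : ℝ) (hReg : ∀ j, MeasurableSet (Reg j)) (hd : Pairwise (Function.onFun Disjoint Reg)) (hc : ⋃ j, Reg j = univ)
    {β : Type*} [MeasurableSpace β] {f : Conf PvPt → β} (hf : AEMeasurable f (pvP ε)) : AEMeasurable (fun x => f (pvtuPhi Reg x)) (pvtuLaw ι ε) := by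
  rw [← pvtu_phi_law ε hReg hd hc] at hf
  exact hf.comp_measurable (measurable_pvtuPhi hReg)

/-- in the region `Reg j` the configuration is the sample number `j` -/
theorem pvtu_restr_phi (hd : Pairwise (Function.onFun Disjoint Reg)) (j : ι) (x : ι → PvtuT) :
    Conf.restr (pvtuReg Reg j) (pvtuPhi Reg x) = Conf.restr (pvtuReg Reg j) (pvtuCf (x j)) := pvtu_restr_glue (pvtu_reg_disj hd) j _

/-- **a reader of the regions of `s` is a function of the coordinates of `s`** -/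
theorem Conf.Reads.phi_congr {β : Type*} {f : Conf PvPt → β} {W : Set PvPt} (hf : Conf.Reads W f) (hd : Pairwise (Function.onFun Disjoint Reg)) {s : Set ι}
    (hW : W ⊆ ⋃ j ∈ s, pvtuReg Reg j) {x y : ι → PvtuT} (hxy : ∀ j ∈ s, x j = y j) : f (pvtuPhi Reg x) = f (pvtuPhi Reg y) :=
  hf.glue_congr (pvtu_reg_disj hd) hW fun j hj => by rw [hxy j hj]

/-- a reader of the regions off `s` ignores every coordinatewise resampler which keeps the coordinates off `s` -/
theorem Conf.Reads.phi_ig {β : Type*} {f : Conf PvPt → β} {W : Set PvPt} (hf : Conf.Reads W f) (hd : Pairwise (Function.onFun Disjoint Reg)) {s : Set ι}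
    (hW : W ⊆ ⋃ j ∈ sᶜ, pvtuReg Reg j) {r : ι → PvtuT × PvtuT → PvtuT} (hr : ∀ j, j ∉ s → r j = Prod.fst) : PvtkIg (pvtuR r) fun x => f (pvtuPhi Reg x) :=
  pvtu_ig_of_dep hr fun _ _ hxy => hf.phi_congr hd hW fun j hj => hxy j hj

/-- the block resampler of the product model is the splice of the configurations -/
theorem pvtu_phi_blk (hd : Pairwise (Function.onFun Disjoint Reg)) (s : Set ι) (x y : ι → PvtuT) :
    pvtuPhi Reg (pvtuBlk s (x, y)) = Conf.spl (⋃ j ∈ s, pvtuReg Reg j)ᶜ (pvtuPhi Reg x, pvtuPhi Reg y) := by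
  unfold pvtuPhi
  rw [← pvtu_glue_blk (pvtu_reg_disj hd)]
  congr 1
  funext j
  by_cases hj : j ∈ s
  · rw [pvtu_blk_mem hj, pvtu_blk_mem hj]
  · rw [pvtu_blk_notMem hj, pvtu_blk_notMem hj]

end model

/-! ## 4. atoms of a binary product and seed blocks (for the experiment space `(V → Bool) × Conf E` at a fixed sample: `Tr/ChainE.lean` of 218)

`pvgsPr R₁ R₂`, `pvgs_rs_prod`, `pvgs_rs_mix` are in `Tr/GridRs.lean` (230).   Here: commutation and readers. -/

section pr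

variable {Ω₁ Ω₂ : Type*} {R₁ R₁' : Ω₁ × Ω₁ → Ω₁} {R₂ R₂' : Ω₂ × Ω₂ → Ω₂}

theorem pvtu_comm_pr (h₁ : PvtkComm R₁ R₁') (h₂ : PvtkComm R₂ R₂') : PvtkComm (pvgsPr R₁ R₂) (pvgsPr R₁' R₂') :=
  fun ω ω' ω'' => Prod.ext (h₁ ω.1 ω'.1 ω''.1) (h₂ ω.2 ω'.2 ω''.2)

/-- a function which ignores both factors ignores the product atom -/
theorem pvtu_ig_pr {β : Sort*} {f : Ω₁ × Ω₂ → β} (h₁ : ∀ b, PvtkIg R₁ fun a => f (a, b)) (h₂ : ∀ a, PvtkIg R₂ fun b => f (a, b)) : PvtkIg (pvgsPr R₁ R₂) f :=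
  fun ω ω' => (h₁ (R₂ (ω.2, ω'.2)) ω.1 ω'.1).trans (h₂ ω.1 ω.2 ω'.2)

theorem pvtu_ig_pr_fst {β : Sort*} {f : Ω₁ → β} (h₁ : PvtkIg R₁ f) : PvtkIg (pvgsPr R₁ R₂) fun x => f x.1 := fun ω ω' => h₁ ω.1 ω'.1

theorem pvtu_ig_pr_snd {β : Sort*} {f : Ω₂ → β} (h₂ : PvtkIg R₂ f) : PvtkIg (pvgsPr R₁ R₂) fun x => f x.2 := fun ω ω' => h₂ ω.2 ω'.2

theorem pvtu_ig_fst {Ω : Type*} {β : Sort*} (f : Ω → β) : PvtkIg (Prod.fst : Ω × Ω → Ω) f := fun _ _ => rfl

end pr

section mix

variable {ι : Type*} {X : ι → Type*}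

/-- seed blocks on disjoint sets of coordinates commute -/
theorem pvtu_comm_mix {s s' : Set ι} (h : Disjoint s s') : PvtkComm (pvfqMix sᶜ : (∀ i, X i) × (∀ i, X i) → ∀ i, X i) (pvfqMix s'ᶜ) := fun ω ω' ω'' => by
  funext i
  by_cases h1 : i ∈ s
  · have h2 : i ∉ s' := Set.disjoint_left.1 h h1
    have a1 : i ∉ sᶜ := fun hh => hh h1
    have a2 : i ∈ s'ᶜ := h2
    rw [pvfqMix_of_notMem a1, pvfqMix_of_mem a2]
    exact (pvfqMix_of_notMem a1 (ω, ω'')).symm
  · have a1 : i ∈ sᶜ := h1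
    rw [pvfqMix_of_mem a1]
    by_cases h2 : i ∈ s'
    · have a2 : i ∉ s'ᶜ := fun hh => hh h2
      rw [pvfqMix_of_notMem a2]
      exact pvfqMix_of_notMem a2 _
    · have a2 : i ∈ s'ᶜ := h2
      rw [pvfqMix_of_mem a2]
      exact (pvfqMix_of_mem a2 (ω, ω')).trans (pvfqMix_of_mem a1 (ω, ω'')).symm

/-- a function of the coordinates off `s` ignores the seed block `s` -/
theorem pvtu_ig_mix {β : Sort*} {s : Set ι} {f : (∀ i, X i) → β} (h : ∀ x y, (∀ i, i ∉ s → x i = y i) → f x = f y) : PvtkIg (pvfqMix sᶜ) f :=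
  fun _ _ => h _ _ fun _ hi => pvfqMix_of_mem (show _ ∈ sᶜ from hi) _

/-- a function of the coordinates of `s` sees only the seed -/
theorem pvtu_fresh_mix {β : Sort*} {s : Set ι} {f : (∀ i, X i) → β} (h : ∀ x y, (∀ i, i ∈ s → x i = y i) → f x = f y) (ω ω' : ∀ i, X i) :
    f (pvfqMix sᶜ (ω, ω')) = f ω' :=
  h _ _ fun i hi => pvfqMix_of_notMem (show i ∉ sᶜ from fun hh => hh hi) _

end mix

/-! ### the hybrid atoms -/

section hyb

variable {V : Type} {E : Type*} [MeasurableSpace E] {m : Measure E} {μ : Measure (Conf E)}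

/-- **THE HYBRID ATOM**: the bits of the block `s` and the configuration in the region `K` are taken from the seed -/
noncomputable def pvtuHy (s : Set V) (K : Set E) : ((V → Bool) × Conf E) × ((V → Bool) × Conf E) → (V → Bool) × Conf E := pvgsPr (pvfqMix sᶜ) (pvtkR K)

theorem pvtu_eqns_cite6 : True := by
  have := @pvtuHy.eq_1.{0}
  trivial

theorem pvtu_hy_apply (s : Set V) (K : Set E) (x y : (V → Bool) × Conf E) : pvtuHy s K (x, y) = (pvfqMix sᶜ (x.1, y.1), pvtkR K (x.2, y.2)) := rfl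

theorem pvtu_rs_hy (h : IsPpp m μ) (s : Set V) {K : Set E} (hK : MeasurableSet K) : PvtkRs ((colLaw V).prod μ) (pvtuHy s K) := by
  have := h.prob
  exact pvgs_rs_prod (pvgs_rs_mix _ s) (pvtk_rs_spl h hK)

theorem pvtu_comm_hy {s s' : Set V} {K K' : Set E} (hs : Disjoint s s') (hK : Disjoint K K') : PvtkComm (pvtuHy s K) (pvtuHy s' K') :=
  pvtu_comm_pr (pvtu_comm_mix hs) (pvtk_comm_spl hK)

/-- `f` READS the bits of `t` and the configuration in `W` only -/
def PvtuRd {β : Sort*} (t : Set V) (W : Set E) (f : (V → Bool) × Conf E → β) : Prop :=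
  ∀ x y : (V → Bool) × Conf E, (∀ v ∈ t, x.1 v = y.1 v) → Conf.restr W x.2 = Conf.restr W y.2 → f x = f y

theorem PvtuRd.mono {β : Sort*} {t t' : Set V} {W W' : Set E} {f : (V → Bool) × Conf E → β} (h : PvtuRd t W f) (ht : t ⊆ t') (hW : W ⊆ W') : PvtuRd t' W' f :=
  fun x y h1 h2 => h x y (fun v hv => h1 v (ht hv)) (by
    rw [← pvi_restr_of_subset hW, h2, pvi_restr_of_subset hW])

theorem pvtu_restr_R_of_disjoint {W K : Set E} (hd : Disjoint W K) (ω ω' : Conf E) : Conf.restr W (pvtkR K (ω, ω')) = Conf.restr W ω := by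
  ext p
  have : p ∈ W → p ∉ K := fun h1 => Set.disjoint_left.1 hd h1
  simp only [Conf.restr, mem_inter_iff, pvtk_mem_R]
  tauto

theorem pvtu_restr_R_of_subset {W K : Set E} (hs : W ⊆ K) (ω ω' : Conf E) : Conf.restr W (pvtkR K (ω, ω')) = Conf.restr W ω' := by
  ext p
  have := @hs p
  simp only [Conf.restr, mem_inter_iff, pvtk_mem_R]
  tauto

/-- a reader of `(t, W)` ignores the atom `(s, K)` when `t ∩ s = ∅`, `W ∩ K = ∅` -/
theorem PvtuRd.ig {β : Sort*} {t s : Set V} {W K : Set E} {f : (V → Bool) × Conf E → β} (h : PvtuRd t W f) (hs : Disjoint t s) (hK : Disjoint W K) : PvtkIg (pvtuHy s K) f :=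
  fun _ _ => h _ _ (fun v hv => pvfqMix_of_mem (show v ∈ sᶜ from Set.disjoint_left.1 hs hv) _) (pvtu_restr_R_of_disjoint hK _ _)

/-- a reader of `(t, W)` with `t ⊆ s`, `W ⊆ K` sees only the seed -/
theorem PvtuRd.fresh {β : Sort*} {t s : Set V} {W K : Set E} {f : (V → Bool) × Conf E → β} (h : PvtuRd t W f) (hs : t ⊆ s) (hK : W ⊆ K) (ω ω' : (V → Bool) × Conf E) :
    f (pvtuHy s K (ω, ω')) = f ω' :=
  h _ _ (fun v hv => pvfqMix_of_notMem (show v ∉ sᶜ from fun hh => hh (hs hv)) _) (pvtu_restr_R_of_subset hK _ _)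

/-- a reader on `Conf E` is a reader on the experiment space -/
theorem Conf.Reads.rd {β : Type*} {W : Set E} {f : Conf E → β} (h : Conf.Reads W f) : PvtuRd (∅ : Set V) W fun x => f x.2 :=
  fun x y _ h2 => by
    show f x.2 = f y.2
    rw [← h x.2, ← h y.2, h2]

/-- the system of the seed blocks `s e`, the regions `O u` (plugs), `K e` (links) -/
noncomputable def pvtuSysOf {υ ι : Type*} (s : ι → Set V) (O : υ → Set E) (K : ι → Set E) (G : υ → Set ((V → Bool) × Conf E)) (A : ι → Set ((V → Bool) × Conf E)) (adj : ι → Finset υ) :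
    PvtkSys ((V → Bool) × Conf E) υ ι :=
  ⟨fun u => pvtuHy ∅ (O u), fun e => pvtuHy (s e) (K e), G, A, adj⟩

theorem pvtu_eqns_cite7 : True := by
  have := @pvtuSysOf.eq_1.{0, 0, 0}; have := @PvtuRd.eq_1.{0, 0}
  trivial

/-- **well-formedness of a chain with hybrid links** (= `pvtk_wf_of` of 218 with seed blocks).      `WA e` = the region read by the link `e`, `tA e` = the bits read by it. -/
theorem pvtu_wf_of {υ ι : Type*} (h : IsPpp m μ) {s : ι → Set V} {O : υ → Set E} {K : ι → Set E} {G : υ → Set ((V → Bool) × Conf E)} {A : ι → Set ((V → Bool) × Conf E)}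
    {adj : ι → Finset υ} (tA : ι → Set V) (WA : ι → Set E) (mO : ∀ u, MeasurableSet (O u)) (mK : ∀ e, MeasurableSet (K e)) (mG : ∀ u, MeasurableSet (G u)) (mA : ∀ e, MeasurableSet (A e))
    (dss : ∀ e e', e ≠ e' → Disjoint (s e) (s e'))
    (dOO : ∀ u u', u ≠ u' → Disjoint (O u) (O u')) (dKK : ∀ e e', e ≠ e' → Disjoint (K e) (K e')) (dOK : ∀ u e, Disjoint (O u) (K e))
    (rG : ∀ u, PvtuRd ∅ (O u) fun x => x ∈ G u) (rA : ∀ e, PvtuRd (tA e) (WA e) fun x => x ∈ A e)
    (dAs : ∀ e e', e ≠ e' → Disjoint (tA e) (s e'))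
    (dAK : ∀ e e', e ≠ e' → Disjoint (WA e) (K e')) (dAO : ∀ e u, u ∉ adj e → Disjoint (WA e) (O u)) :
    (pvtuSysOf s O K G A adj).WF ((colLaw V).prod μ) where
  rsP u := pvtu_rs_hy h ∅ (mO u)
  rsL e := pvtu_rs_hy h (s e) (mK e)
  mG := mG
  mA := mA
  commLL e e' he := pvtu_comm_hy (dss e e' he) (dKK e e' he)
  commLP e u _ := pvtu_comm_hy (Set.disjoint_empty _) (dOK u e).symm
  G_L u e := (rG u).ig (Set.empty_disjoint _) (dOK u e)
  G_P u u' hu := (rG u).ig (Set.empty_disjoint _) (dOO u u' hu)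
  G_fr u ω ω' := iff_of_eq ((rG u).fresh subset_rfl subset_rfl ω ω')
  A_L e e' he := (rA e).ig (dAs e e' he) (dAK e e' he)
  A_P e u hu := (rA e).ig (Set.disjoint_empty _) (dAO e u hu)

/-- fields -/
theorem pvtu_fld_of {υ ι : Type*} {s : ι → Set V} {O : υ → Set E} {K : ι → Set E} {G : υ → Set ((V → Bool) × Conf E)} {A : ι → Set ((V → Bool) × Conf E)} {adj : ι → Finset υ}
    (tA : ι → Set V) (WA : ι → Set E) {X : ι → (V → Bool) × Conf E → ℂ} (mX : ∀ e, Measurable (X e)) (rX : ∀ e, PvtuRd (tA e) (WA e) (X e))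
    (dAs : ∀ e e', e ≠ e' → Disjoint (tA e) (s e'))
    (dAK : ∀ e e', e ≠ e' → Disjoint (WA e) (K e')) (dAO : ∀ e u, u ∉ adj e → Disjoint (WA e) (O u)) :
    PvtkFld (pvtuSysOf s O K G A adj) X where
  meas := mX
  ig_L e e' he := (rX e).ig (dAs e e' he.symm) (dAK e e' he.symm)
  ig_P e u hu := (rX e).ig (Set.disjoint_empty _) (dAO e u hu)

end hyb

end Claimed.Agent.R289
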