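-- KEEP
import Claimed.Agent.R289.Tr.Hub
import Claimed.Agent.R289.Tr.Hyb
import Claimed.Agent.R289.Tr.Dom
import Claimed.Agent.R289.Tr.CellNum
import Claimed.Agent.R289.Tr.Multi

/-!
# Row 289 (S0537, Cardy for Poisson-Voronoi), THE WALL, file Tr/Top : THE ABSTRACT HYBRID ENGINE + RECORD OF THE EXPERIMENT      (helper129; prefix `pvl3_`, `pvl3`, `Pvl3`)

RULING T6 of 24 (10:24Z): the DEFINITIONS OF RECORD of `kout kin ke W kin0` AT THE MODEL are those of `Tr/InstE.lean` (161).   THIS FILE IS THE PROOF DEVICE (abstract engine record), not a second definition;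
adapter `PvieEng → Pvl3Exp` + equalities (through `Tr/BrHyb.lean` of 141): `Tr/InstC.lean` (129).   sec.6 = BASE-INDEXED experiments (ruling T7 (3)).

ABSTRACT FORM of `kout kin ke kin0 W` for the three consumers: field `n1` (170, `Exit/N1.lean`), fields `cyc1` `thick` (129 58 103), record `PvhbNum` (52 259 34, `Exit/TrNum.lean`).

THE CONDITIONAL MEAN OF RECORD = the HYBRID mean of 252 (`Tr/Hyb.lean`) in the weighted form of 141 (`pvtiHat`, `Tr/Ind.lean` sec.6):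
    `pvl3Hat ε C F w Y σ = ∫ Y (R σ x) w (R σ x) d seed(x)`,      `R σ (η, u) = pvthR C F σ (η, u)` = (`σ` with the content of the DETERMINISTIC region `C` replaced by that of `η` and the COLOURS of the finite set `F σ` of fresh sites replaced by `u`).
An ATOM is a pair `(K, F)` (region, fresh sites).   Artificial plugs (door plugs of the cells, reference plug) are REGION plugs `(O, G)` (soft threshold of 125): atom `(O, ∅)`.   Marked pins are NOT resampled: their state is read in `σ`.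

* sec.1  the hybrid calculus: `pvl3P` (conditional probability of a link given everything but its atom), `pvl3V` (`1_A / P(A | ..)`), `pvl3Hat`, `Pvl3Ig` (a function ignores an atom)
* sec.2  HYBRID SYSTEMS `Pvl3Sys` (plugs, links, `adj`) = `PvtkSys` of 218 with state dependent atoms.   **`pvl3_mass`** (TR1), **`pvl3_Wt_le`** (TR1), **`pvl3_mean`** (TR2): POINTWISE in the base configuration `σ`.
         Proof of record: at FIXED `σ` all `F e σ` are fixed finite sets, the seed space `PvthSd` with `pvthSeed ε` carries honest commuting coordinate resamplers: `pvtk_mass`, `pvtk_Wt_le`, `pvtk_mean` of `Tr/Chain.lean`.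
* sec.3  THE RECORD `Pvl3Exp τ δ` (RAW DATA, no proofs: cells = `Pvl3Cells δ` (kit + fields; `PvcnFam.cells` for the family of 52), doors `Γ`, end links of the marked candidates, reference plug) and THE DEFINITIONS `E.W E.kin0 E.kout E.kin E.ke`
* sec.4  the pattern experiment `E.patSys`, the `Σ₁` cycle experiment `E.cycSys`, their means `E.patHat`, `E.cycHat`;   **`pvl3_tr2_pat`**, **`pvl3_tr2_cyc`** (TR2 + TR25 in the shape of the fields `n1`, `cyc1`)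
* sec.5  the fields `cyc1`, `thick` in the U-form (`PvtsInU` / `PvhbLocU`) over `U0 ε = PvUp.iter (pvGeo ε) pvCol`
-/

set_option autoImplicit false

namespace Claimed.Agent.R289

open MeasureTheory Filter Topology Set Claims.C0465
open scoped ENNReal

/-! ## 1. the hybrid calculus -/

/-- conditional probability of `A` given everything but the atom `(K, F)` -/
noncomputable def pvl3P (ε : ℝ) (K : Set ℂ) (F : Conf PvPt → Finset ℂ) (A : Set (Conf PvPt)) (σ : Conf PvPt) : ℝ≥0∞ :=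
  ∫⁻ x, A.indicator 1 (pvthR K F σ x) ∂(pvthSeed ε)

/-- the weight `1_A / P(A | everything but the atom)` of a forced link -/
noncomputable def pvl3V (ε : ℝ) (K : Set ℂ) (F : Conf PvPt → Finset ℂ) (A : Set (Conf PvPt)) (σ : Conf PvPt) : ℝ≥0∞ :=
  A.indicator 1 σ / pvl3P ε K F A σ

/-- **THE CONDITIONAL MEAN OF RECORD** -/
noncomputable def pvl3Hat (ε : ℝ) (C : Set ℂ) (F : Conf PvPt → Finset ℂ) (w : Conf PvPt → ℝ≥0∞) (Y : Conf PvPt → ℂ) (σ : Conf PvPt) : ℂ :=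
  pvtiHat (fun _ => pvthSeed ε) (pvthR C F) w Y σ

/-- `f` ignores the atom `(K, F)` at the base configurations of `B` -/
def Pvl3Ig {β : Sort*} (B : Set (Conf PvPt)) (K : Set ℂ) (F : Conf PvPt → Finset ℂ) (f : Conf PvPt → β) : Prop := ∀ σ ∈ B, ∀ x, f (pvthR K F σ x) = f σ

/-- no fresh site -/
def pvl3F0 : Conf PvPt → Finset ℂ := fun _ => ∅

/-! ## 2. hybrid systems -/

/-- a HYBRID SYSTEM: region plugs `u` (box `O u`, usable event `G u`), links `e` (atom `(K e, F e)`, success `A e`), `adj e` = the integrated plugs read by the link `e`.      The marked end states are read in the base configuration. -/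
structure Pvl3Sys (υ ι : Type) where
  O : υ → Set ℂ
  G : υ → Set (Conf PvPt)
  K : ι → Set ℂ
  F : ι → Conf PvPt → Finset ℂ
  A : ι → Set (Conf PvPt)
  adj : ι → Finset υ

namespace Pvl3Sys

variable {υ ι : Type} (S : Pvl3Sys υ ι) (ε : ℝ)

/-- `1_G / P(G)` -/
noncomputable def g (u : υ) (ω : Conf PvPt) : ℝ≥0∞ := (S.G u).indicator 1 ω / pvP ε (S.G u)

/-- the weight of the link `e` -/
noncomputable def v (e : ι) : Conf PvPt → ℝ≥0∞ := pvl3V ε (S.K e) (S.F e) (S.A e)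

/-- the weight of one link with its adjacent plugs -/
noncomputable def w2 (e : ι) (ω : Conf PvPt) : ℝ≥0∞ := (∏ u ∈ S.adj e, S.g ε u ω) * S.v ε e ω

/-- THE WEIGHT of the system -/
noncomputable def Wt [Fintype υ] [Fintype ι] (ω : Conf PvPt) : ℝ≥0∞ := (∏ u, S.g ε u ω) * ∏ e, S.v ε e ω

/-- all plugs usable, all links successful -/
def Ev : Set (Conf PvPt) := {ω | (∀ u, ω ∈ S.G u) ∧ ∀ e, ω ∈ S.A e}

/-- the region resampled by the whole experiment -/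
def C : Set ℂ := (⋃ u, S.O u) ∪ ⋃ e, S.K e

open Classical in
/-- the fresh sites of the whole experiment -/
noncomputable def Fs [Fintype ι] (σ : Conf PvPt) : Finset ℂ := Finset.univ.biUnion fun e => S.F e σ

/-- the region of one link with its adjacent plugs -/
def Ce (e : ι) : Set ℂ := S.K e ∪ ⋃ u ∈ S.adj e, S.O u

/-- **THE LINK MEAN**, a function of the base configuration (a constant if the link reads no end state) -/
noncomputable def k (e : ι) (X : Conf PvPt → ℂ) (σ : Conf PvPt) : ℂ := pvl3Hat ε (S.Ce e) (S.F e) (S.w2 ε e) X σ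

/-- **THE MEAN OF THE EXPERIMENT** -/
noncomputable def hat [Fintype υ] [Fintype ι] (X : ι → Conf PvPt → ℂ) (σ : Conf PvPt) : ℂ :=
  pvl3Hat ε S.C S.Fs (S.Wt ε) (fun ω => ∑ e, X e ω) σ

/-- the bound of the weight -/
noncomputable def D [Fintype υ] [Fintype ι] (q : ι → ℝ≥0∞) : ℝ≥0∞ := (∏ u, (pvP ε (S.G u))⁻¹) * ∏ e, (q e)⁻¹

/-- well-formedness (all clauses POINTWISE, as `Conf.Reads`).      `B` = the good base configurations (end states usable, their hulls off the resampled regions): stable under all atoms;   nothing is asked off `B`. -/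
structure WF [Fintype ι] (B : Set (Conf PvPt)) : Prop where
  mO : ∀ u, MeasurableSet (S.O u)
  mK : ∀ e, MeasurableSet (S.K e)
  mG : ∀ u, MeasurableSet (S.G u)
  /-- SECTIONWISE (141, 296): the link events are measurable along the experiment at a good base configuration; nothing is asked on `Conf PvPt` -/
  mA : ∀ e, ∀ σ ∈ B, MeasurableSet {x | pvthR S.C S.Fs σ x ∈ S.A e}
  dOO : ∀ u u', u ≠ u' → Disjoint (S.O u) (S.O u')
  dKK : ∀ e e', e ≠ e' → Disjoint (S.K e) (S.K e')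
  dOK : ∀ u e, Disjoint (S.O u) (S.K e)
  /-- the fresh sites lie off the resampled regions, those of different links are disjoint -/
  dF : ∀ e, ∀ σ ∈ B, Disjoint (↑(S.F e σ) : Set ℂ) S.C
  dFF : ∀ e e', e ≠ e' → ∀ σ ∈ B, Disjoint (S.F e σ) (S.F e' σ)
  /-- `B` is stable -/
  B_L : ∀ e, ∀ σ ∈ B, ∀ x, pvthR (S.K e) (S.F e) σ x ∈ B
  B_P : ∀ u, ∀ σ ∈ B, ∀ x, pvthR (S.O u) pvl3F0 σ x ∈ B
  /-- a plug event reads its box -/
  rG : ∀ u, Conf.Reads (S.O u ×ˢ (univ : Set Bool)) (fun η => η ∈ S.G u)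
  /-- STOP: the fresh sets ignore ALL atoms (their own included) -/
  F_L : ∀ e e', Pvl3Ig B (S.K e') (S.F e') (S.F e)
  F_P : ∀ e u, Pvl3Ig B (S.O u) pvl3F0 (S.F e)
  /-- a link event ignores the atoms of the other links and of the non adjacent plugs -/
  A_L : ∀ e e', e ≠ e' → Pvl3Ig B (S.K e') (S.F e') (fun ω => ω ∈ S.A e)
  A_P : ∀ e u, u ∉ S.adj e → Pvl3Ig B (S.O u) pvl3F0 (fun ω => ω ∈ S.A e)

/-- a FIELD: one function per link, reading the link, its adjacent plugs and the base configuration -/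
structure Fld [Fintype ι] (B : Set (Conf PvPt)) (X : ι → Conf PvPt → ℂ) : Prop where
  /-- SECTIONWISE -/
  meas : ∀ e, ∀ σ ∈ B, Measurable fun x => X e (pvthR S.C S.Fs σ x)
  X_L : ∀ e e', e ≠ e' → Pvl3Ig B (S.K e') (S.F e') (X e)
  X_P : ∀ e u, u ∉ S.adj e → Pvl3Ig B (S.O u) pvl3F0 (X e)

/-- on `B` the links are forced with the constants `q e`; the plugs are admitted -/
structure Forced (B : Set (Conf PvPt)) (q : ι → ℝ≥0∞) : Prop where
  adm : ∀ u, pvP ε (S.G u) ≠ 0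
  q0 : ∀ e, q e ≠ 0
  frc : ∀ e ω, ω ∈ B → (∀ u ∈ S.adj e, ω ∈ S.G u) → q e ≤ pvl3P ε (S.K e) (S.F e) (S.A e) ω

end Pvl3Sys

/-! ### the transfer kit (helper28; prefix `pvl3k_`): at a FIXED base configuration `σ ∈ B` the hybrid system is a `PvtkSys` (218) on the seed space `(PvthSd, pvthSeed ε)` -/

section kit28

/-- the hybrid resampling with a FIXED set of fresh sites -/
noncomputable def pvl3kR (C A : Set ℂ) (σ : Conf PvPt) (x : PvthSd) : Conf PvPt := pvthRec A x.2 (pvtkR (Prod.fst ⁻¹' C) (σ, x.1))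

theorem pvl3k_eqns_cite : True := by
  have := @pvl3kR.eq_1
  trivial

theorem pvl3k_R_eq (C : Set ℂ) (F : Conf PvPt → Finset ℂ) (σ : Conf PvPt) (x : PvthSd) : pvthR C F σ x = pvl3kR C (↑(F σ)) σ x := rfl

theorem pvl3k_rec_rec (A A' : Set ℂ) (u u' : ℂ → Bool) (σ : Conf PvPt) :
    pvthRec A' u' (pvthRec A u σ) = pvthRec (A ∪ A') (pvfqMix A'ᶜ (u, u')) σ := by
  classical
  refine Conf.ext ?_
  show pvthCol A' u' '' (pvthCol A u '' σ.pts) = pvthCol (A ∪ A') (pvfqMix A'ᶜ (u, u')) '' σ.pts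
  rw [Set.image_image]
  refine Set.image_congr fun p _ => ?_
  unfold pvthCol
  refine Prod.ext rfl ?_
  dsimp only
  by_cases h' : p.1 ∈ A'
  · rw [if_pos h', if_pos (show p.1 ∈ A ∪ A' from Or.inr h'), pvfqMix_of_notMem (show p.1 ∉ A'ᶜ from fun hh => hh h')]
  · rw [if_neg h']
    by_cases h : p.1 ∈ A
    · rw [if_pos h, if_pos (show p.1 ∈ A ∪ A' from Or.inl h), pvfqMix_of_mem (show p.1 ∈ A'ᶜ from h')]
    · rw [if_neg h, if_neg (show p.1 ∉ A ∪ A' from fun hh => hh.elim h h')]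

theorem pvl3k_rec_empty (u : ℂ → Bool) (σ : Conf PvPt) : pvthRec ∅ u σ = σ := by
  classical
  refine Conf.ext ?_
  show pvthCol ∅ u '' σ.pts = σ.pts
  have e : pvthCol ∅ u = id := by
    funext p
    unfold pvthCol
    rw [if_neg (Set.notMem_empty _)]
    rfl
  rw [e, Set.image_id]

theorem pvl3k_spl_spl (C₁ C₂ : Set PvPt) (σ η η' : Conf PvPt) :
    pvtkR C₂ (pvtkR C₁ (σ, η), η') = pvtkR (C₁ ∪ C₂) (σ, pvtkR C₂ (η, η')) := by
  ext p
  simp only [pvtk_mem_R, mem_union]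
  tauto

theorem pvl3k_spl_self (C : Set PvPt) (η : Conf PvPt) : pvtkR C (η, η) = η := by
  ext p
  simp only [pvtk_mem_R]
  tauto

theorem pvl3k_spl_empty (σ η : Conf PvPt) : pvtkR ∅ (σ, η) = σ := by
  ext p
  simp only [pvtk_mem_R, mem_empty_iff_false]
  tauto

theorem pvl3k_mix_self (s : Set ℂ) (u : ℂ → Bool) : pvfqMix s (u, u) = u := by
  funext z
  by_cases h : z ∈ s
  · rw [pvfqMix_of_mem h]
  · rw [pvfqMix_of_notMem h]

theorem pvl3k_mix_univ (u u' : ℂ → Bool) : pvfqMix (∅ : Set ℂ)ᶜ (u, u') = u := by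
  funext z
  rw [pvfqMix_of_mem (by simp)]

/-- **composition of two atoms** (two seeds) -/
theorem pvl3k_comp {C₁ C₂ A₁ A₂ : Set ℂ} (hd : Disjoint A₁ C₂) (σ : Conf PvPt) (x x' : PvthSd) :
    pvl3kR C₂ A₂ (pvl3kR C₁ A₁ σ x) x' = pvl3kR (C₁ ∪ C₂) (A₁ ∪ A₂) σ (pvtkR (Prod.fst ⁻¹' C₂) (x.1, x'.1), pvfqMix A₂ᶜ (x.2, x'.2)) := by
  unfold pvl3kR
  have e1 : pvtkR (Prod.fst ⁻¹' C₂) (pvthRec A₁ x.2 (pvtkR (Prod.fst ⁻¹' C₁) (σ, x.1)), x'.1)
      = pvthRec A₁ x.2 (pvtkR (Prod.fst ⁻¹' C₂) (pvtkR (Prod.fst ⁻¹' C₁) (σ, x.1), x'.1)) := (pvth_rec_spl hd x.2 _ x'.1).symm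
  rw [e1, pvl3k_rec_rec, pvl3k_spl_spl, Set.preimage_union]

/-- one seed -/
theorem pvl3k_comp_self {C₁ C₂ A₁ A₂ : Set ℂ} (hd : Disjoint A₁ C₂) (σ : Conf PvPt) (x : PvthSd) :
    pvl3kR C₂ A₂ (pvl3kR C₁ A₁ σ x) x = pvl3kR (C₁ ∪ C₂) (A₁ ∪ A₂) σ x := by
  rw [pvl3k_comp hd, pvl3k_spl_self, pvl3k_mix_self]

theorem pvl3k_R_empty (σ : Conf PvPt) (x : PvthSd) : pvl3kR ∅ ∅ σ x = σ := by
  unfold pvl3kR
  rw [pvl3k_rec_empty, Set.preimage_empty, pvl3k_spl_empty]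

/-- recolouring off `O` is not seen in `O` -/
theorem pvl3k_restr_rec {A O : Set ℂ} (hd : Disjoint A O) (u : ℂ → Bool) (ρ : Conf PvPt) :
    Conf.restr (Prod.fst ⁻¹' O) (pvthRec A u ρ) = Conf.restr (Prod.fst ⁻¹' O) ρ := by
  classical
  have hid : ∀ p : PvPt, p.1 ∈ O → pvthCol A u p = p := by
    intro p hp
    unfold pvthCol
    rw [if_neg fun hA => Set.disjoint_left.1 hd hA hp]
  refine Conf.ext ?_
  show pvthCol A u '' ρ.pts ∩ Prod.fst ⁻¹' O = ρ.pts ∩ Prod.fst ⁻¹' O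
  ext r
  constructor
  · rintro ⟨⟨p, hp, rfl⟩, hr⟩
    have hpO : p.1 ∈ O := hr
    rw [hid p hpO]
    exact ⟨hp, hpO⟩
  · rintro ⟨hr, hrO⟩
    exact ⟨⟨r, hr, hid r hrO⟩, hrO⟩

/-- in a resampled region one sees the seed -/
theorem pvl3k_restr_R {C A O : Set ℂ} (hd : Disjoint A O) (hO : O ⊆ C) (σ : Conf PvPt) (x : PvthSd) :
    Conf.restr (Prod.fst ⁻¹' O) (pvl3kR C A σ x) = Conf.restr (Prod.fst ⁻¹' O) x.1 := by
  unfold pvl3kR
  rw [pvl3k_restr_rec hd, pvtu_restr_R_of_subset (Set.preimage_mono hO)]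

/-! #### a finite family of atoms applied with ONE seed -/

section fold

variable {J : Type} {B : Set (Conf PvPt)} {Kj : J → Set ℂ} {Fj : J → Conf PvPt → Finset ℂ}

/-- the family `s` of atoms, applied at once -/
noncomputable def pvl3kT (Kj : J → Set ℂ) (Fj : J → Conf PvPt → Finset ℂ) (s : Finset J) (σ : Conf PvPt) (x : PvthSd) : Conf PvPt :=
  pvl3kR (⋃ j ∈ s, Kj j) (⋃ j ∈ s, (↑(Fj j σ) : Set ℂ)) σ x

theorem pvl3k_eqns_cite2 : True := by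
  have := @pvl3kT.eq_1
  trivial

theorem pvl3k_T_insert [DecidableEq J] (hd : ∀ j j', ∀ σ ∈ B, Disjoint (↑(Fj j σ) : Set ℂ) (Kj j')) {s : Finset J} {a : J} {σ : Conf PvPt} (hσ : σ ∈ B) (x : PvthSd)
    (ha : Fj a (pvl3kT Kj Fj s σ x) = Fj a σ) : pvl3kT Kj Fj (insert a s) σ x = pvthR (Kj a) (Fj a) (pvl3kT Kj Fj s σ x) x := by
  rw [pvl3k_R_eq, ha]
  unfold pvl3kT
  rw [pvl3k_comp_self (Set.disjoint_iUnion₂_left.2 fun j _ => hd j a σ hσ), Finset.set_biUnion_insert, Finset.set_biUnion_insert, Set.union_comm (Kj a), Set.union_comm (↑(Fj a σ) : Set ℂ)]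

theorem pvl3k_T_mem (hB : ∀ j, ∀ σ ∈ B, ∀ x, pvthR (Kj j) (Fj j) σ x ∈ B) (hF : ∀ j j', Pvl3Ig B (Kj j') (Fj j') (Fj j))
    (hd : ∀ j j', ∀ σ ∈ B, Disjoint (↑(Fj j σ) : Set ℂ) (Kj j')) (s : Finset J) {σ : Conf PvPt} (hσ : σ ∈ B) (x : PvthSd) :
    pvl3kT Kj Fj s σ x ∈ B ∧ ∀ j, Fj j (pvl3kT Kj Fj s σ x) = Fj j σ := by
  classical
  induction s using Finset.induction_on with
  | empty =>
    have e : pvl3kT Kj Fj ∅ σ x = σ := by
      unfold pvl3kT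
      simp only [Finset.notMem_empty, Set.iUnion_of_empty, Set.iUnion_empty]
      exact pvl3k_R_empty σ x
    rw [e]
    exact ⟨hσ, fun _ => rfl⟩
  | insert a s _ ih =>
    rw [pvl3k_T_insert hd hσ x (ih.2 a)]
    exact ⟨hB a _ ih.1 x, fun j => (hF j a _ ih.1 x).trans (ih.2 j)⟩

/-- a function which ignores the atoms of `s` ignores the family -/
theorem pvl3k_T_ig {β : Sort*} (hB : ∀ j, ∀ σ ∈ B, ∀ x, pvthR (Kj j) (Fj j) σ x ∈ B) (hF : ∀ j j', Pvl3Ig B (Kj j') (Fj j') (Fj j))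
    (hd : ∀ j j', ∀ σ ∈ B, Disjoint (↑(Fj j σ) : Set ℂ) (Kj j')) (s : Finset J) {f : Conf PvPt → β} (hf : ∀ j ∈ s, Pvl3Ig B (Kj j) (Fj j) f)
    {σ : Conf PvPt} (hσ : σ ∈ B) (x : PvthSd) : f (pvl3kT Kj Fj s σ x) = f σ := by
  classical
  induction s using Finset.induction_on with
  | empty =>
    have e : pvl3kT Kj Fj ∅ σ x = σ := by
      unfold pvl3kT
      simp only [Finset.notMem_empty, Set.iUnion_of_empty, Set.iUnion_empty]
      exact pvl3k_R_empty σ x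
    rw [e]
  | insert a s _ ih =>
    have h1 := pvl3k_T_mem hB hF hd s hσ x
    rw [pvl3k_T_insert hd hσ x (h1.2 a), hf a (Finset.mem_insert_self a s) _ h1.1 x]
    exact ih fun j hj => hf j (Finset.mem_insert_of_mem hj)

end fold

end kit28

/-! #### the system on the seed space -/

section sys28

set_option linter.unusedSectionVars false

variable {υ ι : Type} [Fintype υ] [Fintype ι] (S : Pvl3Sys υ ι)

/-- the regions of all the atoms (plugs, links) -/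
def Pvl3Sys.Kj : υ ⊕ ι → Set ℂ := Sum.elim S.O S.K

/-- the fresh sites of all the atoms -/
def Pvl3Sys.Fj : υ ⊕ ι → Conf PvPt → Finset ℂ := Sum.elim (fun _ => pvl3F0) S.F

/-- **the system on the seed space**, at the base configuration `σ` -/
noncomputable def Pvl3Sys.toK (σ : Conf PvPt) : PvtkSys PvthSd υ ι where
  RP u := pvgsPr (pvtkR (Prod.fst ⁻¹' S.O u)) Prod.fst
  RL e := pvgsPr (pvtkR (Prod.fst ⁻¹' S.K e)) (pvfqMix (↑(S.F e σ) : Set ℂ)ᶜ)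
  G u := pvthR S.C S.Fs σ ⁻¹' S.G u
  A e := pvthR S.C S.Fs σ ⁻¹' S.A e
  adj := S.adj

theorem pvl3k_eqns_cite3 : True := by
  have := @Pvl3Sys.Kj.eq_1; have := @Pvl3Sys.Fj.eq_1; have := @Pvl3Sys.toK.eq_1
  trivial

variable {S} {ε : ℝ} {B : Set (Conf PvPt)} {q : ι → ℝ≥0∞}

theorem pvl3k_Kj_sub (j : υ ⊕ ι) : S.Kj j ⊆ S.C := by
  rcases j with u | e
  · exact fun z hz => Or.inl (mem_iUnion.2 ⟨u, hz⟩)
  · exact fun z hz => Or.inr (mem_iUnion.2 ⟨e, hz⟩)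

theorem pvl3k_K_sub (e : ι) : S.K e ⊆ S.C := pvl3k_Kj_sub (Sum.inr e)

theorem pvl3k_O_sub (u : υ) : S.O u ⊆ S.C := pvl3k_Kj_sub (Sum.inl u)

theorem pvl3k_hB (h : S.WF B) : ∀ j, ∀ σ ∈ B, ∀ x, pvthR (S.Kj j) (S.Fj j) σ x ∈ B := by
  rintro (u | e) σ hσ x
  · exact h.B_P u σ hσ x
  · exact h.B_L e σ hσ x

theorem pvl3k_hF (h : S.WF B) : ∀ j j', Pvl3Ig B (S.Kj j') (S.Fj j') (S.Fj j) := by
  rintro (u | e) j' σ hσ x
  · rfl
  · rcases j' with u' | e'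
    · exact h.F_P e u' σ hσ x
    · exact h.F_L e e' σ hσ x

theorem pvl3k_hd (h : S.WF B) : ∀ j j', ∀ σ ∈ B, Disjoint (↑(S.Fj j σ) : Set ℂ) (S.Kj j') := by
  rintro (u | e) j' σ hσ
  · show Disjoint (↑(∅ : Finset ℂ) : Set ℂ) _
    rw [Finset.coe_empty]
    exact Set.empty_disjoint _
  · exact (h.dF e σ hσ).mono_right (pvl3k_Kj_sub j')

theorem pvl3k_C_eq : (⋃ j ∈ (Finset.univ : Finset (υ ⊕ ι)), S.Kj j) = S.C := by
  ext z
  simp only [Finset.mem_univ, iUnion_true, mem_iUnion, Sum.exists, Pvl3Sys.C, mem_union]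
  rfl

theorem pvl3k_Fs_coe (σ : Conf PvPt) : (↑(S.Fs σ) : Set ℂ) = ⋃ e, (↑(S.F e σ) : Set ℂ) := by
  unfold Pvl3Sys.Fs
  rw [Finset.coe_biUnion]
  simp

theorem pvl3k_Fs_eq (σ : Conf PvPt) : (⋃ j ∈ (Finset.univ : Finset (υ ⊕ ι)), (↑(S.Fj j σ) : Set ℂ)) = ↑(S.Fs σ) := by
  rw [pvl3k_Fs_coe]
  ext z
  simp only [Finset.mem_univ, iUnion_true, mem_iUnion, Sum.exists]
  constructor
  · rintro (⟨u, hu⟩ | he)
    · exact absurd hu (by simp [Pvl3Sys.Fj, pvl3F0])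
    · exact he
  · exact fun he => Or.inr he

/-- the whole experiment = all the atoms at once -/
theorem pvl3k_total (σ : Conf PvPt) (x : PvthSd) : pvthR S.C S.Fs σ x = pvl3kT S.Kj S.Fj Finset.univ σ x := by
  unfold pvl3kT
  rw [pvl3k_C_eq, pvl3k_Fs_eq]
  rfl

theorem pvl3k_B (h : S.WF B) {σ : Conf PvPt} (hσ : σ ∈ B) (x : PvthSd) : pvthR S.C S.Fs σ x ∈ B := by
  rw [pvl3k_total]
  exact (pvl3k_T_mem (pvl3k_hB h) (pvl3k_hF h) (pvl3k_hd h) _ hσ x).1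

theorem pvl3k_F (h : S.WF B) {σ : Conf PvPt} (hσ : σ ∈ B) (x : PvthSd) (e : ι) : S.F e (pvthR S.C S.Fs σ x) = S.F e σ := by
  rw [pvl3k_total]
  exact (pvl3k_T_mem (pvl3k_hB h) (pvl3k_hF h) (pvl3k_hd h) _ hσ x).2 (Sum.inr e)

theorem pvl3k_dFs (h : S.WF B) {σ : Conf PvPt} (hσ : σ ∈ B) : Disjoint (↑(S.Fs σ) : Set ℂ) S.C := by
  rw [pvl3k_Fs_coe]
  exact Set.disjoint_iUnion_left.2 fun e => h.dF e σ hσ

/-- **semi-conjugacy, links** -/
theorem pvl3k_phi_L (h : S.WF B) {σ : Conf PvPt} (hσ : σ ∈ B) (e : ι) (x x' : PvthSd) :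
    pvthR S.C S.Fs σ ((S.toK σ).RL e (x, x')) = pvthR (S.K e) (S.F e) (pvthR S.C S.Fs σ x) x' := by
  rw [pvl3k_R_eq (S.K e), pvl3k_F h hσ, pvl3k_R_eq S.C, pvl3k_R_eq S.C,
    pvl3k_comp ((pvl3k_dFs h hσ).mono_right (pvl3k_K_sub e)),
    Set.union_eq_self_of_subset_right (pvl3k_K_sub (S := S) e),
    Set.union_eq_self_of_subset_right (show (↑(S.F e σ) : Set ℂ) ⊆ ↑(S.Fs σ) by rw [pvl3k_Fs_coe]; exact Set.subset_iUnion (fun e => (↑(S.F e σ) : Set ℂ)) e)]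
  rfl

/-- **semi-conjugacy, plugs** -/
theorem pvl3k_phi_P (h : S.WF B) {σ : Conf PvPt} (hσ : σ ∈ B) (u : υ) (x x' : PvthSd) :
    pvthR S.C S.Fs σ ((S.toK σ).RP u (x, x')) = pvthR (S.O u) pvl3F0 (pvthR S.C S.Fs σ x) x' := by
  rw [pvl3k_R_eq (S.O u), pvl3k_R_eq S.C, pvl3k_R_eq S.C,
    pvl3k_comp ((pvl3k_dFs h hσ).mono_right (pvl3k_O_sub u)),
    Set.union_eq_self_of_subset_right (pvl3k_O_sub (S := S) u)]
  have e0 : (↑(pvl3F0 (pvl3kR S.C (↑(S.Fs σ)) σ x)) : Set ℂ) = ∅ := Finset.coe_empty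
  rw [e0, Set.union_empty, pvl3k_mix_univ]
  rfl

/-- a plug event sees the seed only -/
theorem pvl3k_G_iff (h : S.WF B) {σ : Conf PvPt} (hσ : σ ∈ B) (u : υ) (x : PvthSd) : pvthR S.C S.Fs σ x ∈ S.G u ↔ x.1 ∈ S.G u := by
  have e := pvl3k_restr_R ((pvl3k_dFs h hσ).mono_right (pvl3k_O_sub u)) (pvl3k_O_sub (S := S) u) σ x
  have r := h.rG u
  rw [Set.prod_univ] at r
  exact iff_of_eq (r.eq_of_restr e)

theorem pvl3k_G_eq (h : S.WF B) {σ : Conf PvPt} (hσ : σ ∈ B) (u : υ) : (S.toK σ).G u = Prod.fst ⁻¹' S.G u := by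
  ext x
  exact pvl3k_G_iff h hσ u x

theorem pvl3k_mC (h : S.WF B) : MeasurableSet S.C :=
  (MeasurableSet.iUnion h.mO).union (MeasurableSet.iUnion h.mK)

/-- **well-formedness on the seed space** -/
theorem pvl3k_wf (h : S.WF B) {σ : Conf PvPt} (hσ : σ ∈ B) : (S.toK σ).WF (pvthSeed ε) where
  rsP u := pvgs_rs_prod (pvtk_rs_spl (pv_isPpp ε) (measurable_fst (h.mO u))) pvtu_rs_fst
  rsL e := pvgs_rs_prod (pvtk_rs_spl (pv_isPpp ε) (measurable_fst (h.mK e))) (pvgs_rs_mix _ _)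
  mG u := pvth_R_measurable (pvl3k_mC h) _ σ (h.mG u)
  mA e := h.mA e σ hσ
  commLL e e' he := pvtu_comm_pr (pvtk_comm_spl ((h.dKK e e' he).preimage _)) (pvtu_comm_mix (by exact_mod_cast h.dFF e e' he σ hσ))
  commLP e u _ := pvtu_comm_pr (pvtk_comm_spl ((h.dOK u e).symm.preimage _)) (pvtu_comm_fst_right _)
  G_L u e x x' := by
    have r := h.rG u
    rw [Set.prod_univ] at r
    show (pvthR S.C S.Fs σ ((S.toK σ).RL e (x, x')) ∈ S.G u) = (pvthR S.C S.Fs σ x ∈ S.G u)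
    rw [propext (pvl3k_G_iff h hσ u _), propext (pvl3k_G_iff h hσ u _)]
    exact pvtk_ig_of_reads r ((h.dOK u e).preimage _) x.1 x'.1
  G_P u u' hu x x' := by
    have r := h.rG u
    rw [Set.prod_univ] at r
    show (pvthR S.C S.Fs σ ((S.toK σ).RP u' (x, x')) ∈ S.G u) = (pvthR S.C S.Fs σ x ∈ S.G u)
    rw [propext (pvl3k_G_iff h hσ u _), propext (pvl3k_G_iff h hσ u _)]
    exact pvtk_ig_of_reads r ((h.dOO u u' hu).preimage _) x.1 x'.1
  G_fr u x x' := by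
    have r := h.rG u
    rw [Set.prod_univ] at r
    show pvthR S.C S.Fs σ ((S.toK σ).RP u (x, x')) ∈ S.G u ↔ pvthR S.C S.Fs σ x' ∈ S.G u
    rw [pvl3k_G_iff h hσ u, pvl3k_G_iff h hσ u]
    exact iff_of_eq (pvtk_fresh_of_reads r subset_rfl x.1 x'.1)
  A_L e e' he x x' := by
    show (pvthR S.C S.Fs σ ((S.toK σ).RL e' (x, x')) ∈ S.A e) = (pvthR S.C S.Fs σ x ∈ S.A e)
    rw [pvl3k_phi_L h hσ]
    exact h.A_L e e' he _ (pvl3k_B h hσ x) x'
  A_P e u hu x x' := by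
    show (pvthR S.C S.Fs σ ((S.toK σ).RP u (x, x')) ∈ S.A e) = (pvthR S.C S.Fs σ x ∈ S.A e)
    rw [pvl3k_phi_P h hσ]
    exact h.A_P e u hu _ (pvl3k_B h hσ x) x'

/-- the conditional probability of a link -/
theorem pvl3k_E (h : S.WF B) {σ : Conf PvPt} (hσ : σ ∈ B) (e : ι) (x : PvthSd) :
    pvtkE (pvthSeed ε) ((S.toK σ).RL e) (((S.toK σ).A e).indicator 1) x = pvl3P ε (S.K e) (S.F e) (S.A e) (pvthR S.C S.Fs σ x) := by
  unfold pvtkE pvl3P
  refine lintegral_congr fun x' => ?_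
  rw [← pvl3k_phi_L h hσ]
  rfl

theorem pvl3k_PG (h : S.WF B) {σ : Conf PvPt} (hσ : σ ∈ B) (u : υ) : pvthSeed ε ((S.toK σ).G u) = pvP ε (S.G u) := by
  rw [pvl3k_G_eq h hσ, ← Set.prod_univ]
  unfold pvthSeed
  rw [Measure.prod_prod, measure_univ, mul_one]

theorem pvl3k_forced (h : S.WF B) (hF : S.Forced ε B q) {σ : Conf PvPt} (hσ : σ ∈ B) : (S.toK σ).Forced (pvthSeed ε) q where
  adm u := by rw [pvl3k_PG h hσ]; exact hF.adm u
  q0 := hF.q0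
  frc e x hx := by
    rw [pvl3k_E h hσ]
    exact hF.frc e _ (pvl3k_B h hσ x) hx

theorem pvl3k_g (h : S.WF B) {σ : Conf PvPt} (hσ : σ ∈ B) (u : υ) (x : PvthSd) : (S.toK σ).g (pvthSeed ε) u x = S.g ε u (pvthR S.C S.Fs σ x) := by
  unfold PvtkSys.g Pvl3Sys.g
  rw [pvl3k_PG h hσ]
  rfl

theorem pvl3k_w (h : S.WF B) {σ : Conf PvPt} (hσ : σ ∈ B) (e : ι) (x : PvthSd) : (S.toK σ).w (pvthSeed ε) e x = S.v ε e (pvthR S.C S.Fs σ x) := by
  unfold PvtkSys.w Pvl3Sys.v pvtkW pvl3V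
  rw [pvl3k_E h hσ]
  rfl

theorem pvl3k_Wt (h : S.WF B) {σ : Conf PvPt} (hσ : σ ∈ B) (x : PvthSd) : (S.toK σ).Wt (pvthSeed ε) x = S.Wt ε (pvthR S.C S.Fs σ x) := by
  unfold PvtkSys.Wt Pvl3Sys.Wt
  simp only [pvl3k_g h hσ, pvl3k_w h hσ]

theorem pvl3k_w2 (h : S.WF B) {σ : Conf PvPt} (hσ : σ ∈ B) (e : ι) (x : PvthSd) : (S.toK σ).w2 (pvthSeed ε) e x = S.w2 ε e (pvthR S.C S.Fs σ x) := by
  unfold PvtkSys.w2 Pvl3Sys.w2
  simp only [pvl3k_g h hσ, pvl3k_w h hσ]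
  rfl

theorem pvl3k_Ev (σ : Conf PvPt) : (S.toK σ).Ev = pvthR S.C S.Fs σ ⁻¹' S.Ev := rfl

end sys28

/-! #### localisation: the experiment of one link inside the whole experiment (139) -/

section loc139

set_option linter.unusedSectionVars false

/-- two families of atoms, one seed -/
theorem pvl3k_T_union {J : Type} {B : Set (Conf PvPt)} {Kj : J → Set ℂ} {Fj : J → Conf PvPt → Finset ℂ} [DecidableEq J]
    (hB : ∀ j, ∀ σ ∈ B, ∀ x, pvthR (Kj j) (Fj j) σ x ∈ B) (hF : ∀ j j', Pvl3Ig B (Kj j') (Fj j') (Fj j))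
    (hd : ∀ j j', ∀ σ ∈ B, Disjoint (↑(Fj j σ) : Set ℂ) (Kj j')) (s s' : Finset J) {σ : Conf PvPt} (hσ : σ ∈ B) (x : PvthSd) :
    pvl3kT Kj Fj (s ∪ s') σ x = pvl3kT Kj Fj s' (pvl3kT Kj Fj s σ x) x := by
  have h1 := pvl3k_T_mem hB hF hd s hσ x
  have e : pvl3kT Kj Fj s' (pvl3kT Kj Fj s σ x) x = pvl3kR (⋃ j ∈ s', Kj j) (⋃ j ∈ s', (↑(Fj j σ) : Set ℂ)) (pvl3kT Kj Fj s σ x) x := by
    show pvl3kR (⋃ j ∈ s', Kj j) (⋃ j ∈ s', (↑(Fj j (pvl3kT Kj Fj s σ x)) : Set ℂ)) (pvl3kT Kj Fj s σ x) x = _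
    simp only [h1.2]
  rw [e]
  unfold pvl3kT
  rw [pvl3k_comp_self (Set.disjoint_iUnion₂_left.2 fun j _ => Set.disjoint_iUnion₂_right.2 fun j' _ => hd j j' σ hσ), Finset.set_biUnion_union, Finset.set_biUnion_union]

variable {υ ι : Type} [Fintype υ] [Fintype ι] {S : Pvl3Sys υ ι} {ε : ℝ} {B : Set (Conf PvPt)} {q : ι → ℝ≥0∞} {X : ι → Conf PvPt → ℂ}

/-- the atoms of the link `e`: the link and its adjacent plugs -/
def Pvl3Sys.At (S : Pvl3Sys υ ι) (e : ι) : Finset (υ ⊕ ι) := (S.adj e).disjSum {e}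

theorem pvl3k_eqns_cite4 : True := by
  have := @Pvl3Sys.At.eq_1
  trivial

theorem pvl3k_At_K (S : Pvl3Sys υ ι) (e : ι) : (⋃ j ∈ S.At e, S.Kj j) = S.Ce e := by
  unfold Pvl3Sys.At Pvl3Sys.Ce
  ext z
  simp only [mem_iUnion, mem_union, exists_prop]
  constructor
  · rintro ⟨u | e', ha, hz⟩
    · exact Or.inr ⟨u, Finset.inl_mem_disjSum.1 ha, hz⟩
    · have : e' = e := Finset.mem_singleton.1 (Finset.inr_mem_disjSum.1 ha)
      subst this
      exact Or.inl hz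
  · rintro (hz | ⟨u, hu, hz⟩)
    · exact ⟨Sum.inr e, Finset.inr_mem_disjSum.2 (Finset.mem_singleton_self e), hz⟩
    · exact ⟨Sum.inl u, Finset.inl_mem_disjSum.2 hu, hz⟩

theorem pvl3k_At_F (S : Pvl3Sys υ ι) (e : ι) (σ : Conf PvPt) : (⋃ j ∈ S.At e, (↑(S.Fj j σ) : Set ℂ)) = ↑(S.F e σ) := by
  unfold Pvl3Sys.At
  ext z
  simp only [mem_iUnion, exists_prop]
  constructor
  · rintro ⟨u | e', ha, hz⟩
    · exact absurd (Finset.mem_coe.1 hz) (Finset.notMem_empty z)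
    · have : e' = e := Finset.mem_singleton.1 (Finset.inr_mem_disjSum.1 ha)
      subst this
      exact hz
  · intro hz
    exact ⟨Sum.inr e, Finset.inr_mem_disjSum.2 (Finset.mem_singleton_self e), hz⟩

theorem pvl3k_own (S : Pvl3Sys υ ι) (e : ι) (σ : Conf PvPt) (x : PvthSd) : pvthR (S.Ce e) (S.F e) σ x = pvl3kT S.Kj S.Fj (S.At e) σ x := by
  unfold pvl3kT
  rw [pvl3k_At_K, pvl3k_At_F]
  rfl

theorem pvl3k_own_B (h : S.WF B) {σ : Conf PvPt} (hσ : σ ∈ B) (e : ι) (x : PvthSd) : pvthR (S.Ce e) (S.F e) σ x ∈ B := by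
  rw [pvl3k_own]
  exact (pvl3k_T_mem (pvl3k_hB h) (pvl3k_hF h) (pvl3k_hd h) _ hσ x).1

theorem pvl3k_own_F (h : S.WF B) {σ : Conf PvPt} (hσ : σ ∈ B) (e : ι) (x : PvthSd) : S.F e (pvthR (S.Ce e) (S.F e) σ x) = S.F e σ := by
  rw [pvl3k_own]
  exact (pvl3k_T_mem (pvl3k_hB h) (pvl3k_hF h) (pvl3k_hd h) _ hσ x).2 (Sum.inr e)

/-- **LOCALISATION**: a function which reads only the link `e` and its adjacent plugs has the same value in the whole experiment and in the experiment of the link (same seed) -/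
theorem pvl3k_loc (h : S.WF B) {β : Sort*} {f : Conf PvPt → β} (e : ι) (hL : ∀ e', e ≠ e' → Pvl3Ig B (S.K e') (S.F e') f)
    (hP : ∀ u, u ∉ S.adj e → Pvl3Ig B (S.O u) pvl3F0 f) {σ : Conf PvPt} (hσ : σ ∈ B) (x : PvthSd) :
    f (pvthR S.C S.Fs σ x) = f (pvthR (S.Ce e) (S.F e) σ x) := by
  classical
  rw [pvl3k_total, pvl3k_own, ← Finset.union_compl (S.At e), pvl3k_T_union (pvl3k_hB h) (pvl3k_hF h) (pvl3k_hd h) _ _ hσ x]
  refine pvl3k_T_ig (pvl3k_hB h) (pvl3k_hF h) (pvl3k_hd h) _ ?_ (pvl3k_T_mem (pvl3k_hB h) (pvl3k_hF h) (pvl3k_hd h) _ hσ x).1 x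
  rintro (u | e') ha
  · exact hP u fun hu => Finset.mem_compl.1 ha (Finset.inl_mem_disjSum.2 hu)
  · refine hL e' fun he => Finset.mem_compl.1 ha (Finset.inr_mem_disjSum.2 ?_)
    rw [he]
    exact Finset.mem_singleton_self _

/-- semi-conjugacy in the experiment of the link -/
theorem pvl3k_own_L (h : S.WF B) {σ : Conf PvPt} (hσ : σ ∈ B) (e : ι) (x x' : PvthSd) :
    pvthR (S.Ce e) (S.F e) σ ((S.toK σ).RL e (x, x')) = pvthR (S.K e) (S.F e) (pvthR (S.Ce e) (S.F e) σ x) x' := by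
  rw [pvl3k_R_eq (S.K e), pvl3k_own_F h hσ, pvl3k_R_eq (S.Ce e), pvl3k_R_eq (S.Ce e),
    pvl3k_comp ((h.dF e σ hσ).mono_right (pvl3k_K_sub e)),
    Set.union_eq_self_of_subset_right (show S.K e ⊆ S.Ce e from fun z hz => Or.inl hz), Set.union_self]
  rfl

theorem pvl3k_A_loc (h : S.WF B) {σ : Conf PvPt} (hσ : σ ∈ B) (e : ι) (x : PvthSd) :
    (pvthR S.C S.Fs σ x ∈ S.A e) = (pvthR (S.Ce e) (S.F e) σ x ∈ S.A e) :=
  pvl3k_loc h (f := fun ω => ω ∈ S.A e) e (h.A_L e) (h.A_P e) hσ x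

theorem pvl3k_ind_loc (h : S.WF B) {σ : Conf PvPt} (hσ : σ ∈ B) (e : ι) (x : PvthSd) :
    (S.A e).indicator (1 : Conf PvPt → ℝ≥0∞) (pvthR S.C S.Fs σ x) = (S.A e).indicator 1 (pvthR (S.Ce e) (S.F e) σ x) := by
  have e1 := pvl3k_A_loc h hσ e x
  by_cases hx : pvthR S.C S.Fs σ x ∈ S.A e
  · rw [indicator_of_mem hx, indicator_of_mem (e1 ▸ hx)]; rfl
  · rw [indicator_of_notMem hx, indicator_of_notMem (e1 ▸ hx)]

theorem pvl3k_P_loc (h : S.WF B) {σ : Conf PvPt} (hσ : σ ∈ B) (e : ι) (x : PvthSd) :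
    pvl3P ε (S.K e) (S.F e) (S.A e) (pvthR S.C S.Fs σ x) = pvl3P ε (S.K e) (S.F e) (S.A e) (pvthR (S.Ce e) (S.F e) σ x) := by
  unfold pvl3P
  refine lintegral_congr fun x' => ?_
  rw [← pvl3k_phi_L h hσ, ← pvl3k_own_L h hσ, pvl3k_ind_loc h hσ]

theorem pvl3k_G_own (h : S.WF B) {σ : Conf PvPt} (hσ : σ ∈ B) (e : ι) {u : υ} (hu : u ∈ S.adj e) (x : PvthSd) :
    pvthR (S.Ce e) (S.F e) σ x ∈ S.G u ↔ x.1 ∈ S.G u := by
  have hO : S.O u ⊆ S.Ce e := fun z hz => Or.inr (mem_iUnion₂.2 ⟨u, hu, hz⟩)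
  have e1 := pvl3k_restr_R (A := (↑(S.F e σ) : Set ℂ)) ((h.dF e σ hσ).mono_right (pvl3k_O_sub u)) hO σ x
  have r := h.rG u
  rw [Set.prod_univ] at r
  exact iff_of_eq (r.eq_of_restr e1)

theorem pvl3k_w2_loc (h : S.WF B) {σ : Conf PvPt} (hσ : σ ∈ B) (e : ι) (x : PvthSd) :
    S.w2 ε e (pvthR S.C S.Fs σ x) = S.w2 ε e (pvthR (S.Ce e) (S.F e) σ x) := by
  unfold Pvl3Sys.w2 Pvl3Sys.v pvl3V
  rw [pvl3k_P_loc h hσ, pvl3k_ind_loc h hσ]
  congr 1
  refine Finset.prod_congr rfl fun u hu => ?_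
  unfold Pvl3Sys.g
  congr 1
  have e1 : (pvthR S.C S.Fs σ x ∈ S.G u) ↔ (pvthR (S.Ce e) (S.F e) σ x ∈ S.G u) := (pvl3k_G_iff h hσ u x).trans (pvl3k_G_own h hσ e hu x).symm
  by_cases hx : pvthR S.C S.Fs σ x ∈ S.G u
  · rw [indicator_of_mem hx, indicator_of_mem (e1.1 hx)]; rfl
  · rw [indicator_of_notMem hx, indicator_of_notMem (fun hh => hx (e1.2 hh))]

theorem pvl3k_X_loc (h : S.WF B) (hX : S.Fld B X) {σ : Conf PvPt} (hσ : σ ∈ B) (e : ι) (x : PvthSd) :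
    X e (pvthR S.C S.Fs σ x) = X e (pvthR (S.Ce e) (S.F e) σ x) :=
  pvl3k_loc h e (hX.X_L e) (hX.X_P e) hσ x

/-- the field on the seed space -/
theorem pvl3k_fld (h : S.WF B) (hX : S.Fld B X) {σ : Conf PvPt} (hσ : σ ∈ B) : PvtkFld (S.toK σ) (fun e x => X e (pvthR S.C S.Fs σ x)) where
  meas e := hX.meas e σ hσ
  ig_L e e' he x x' := by
    show X e (pvthR S.C S.Fs σ ((S.toK σ).RL e' (x, x'))) = X e (pvthR S.C S.Fs σ x)
    rw [pvl3k_phi_L h hσ]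
    exact hX.X_L e e' he.symm _ (pvl3k_B h hσ x) x'
  ig_P e u hu x x' := by
    show X e (pvthR S.C S.Fs σ ((S.toK σ).RP u (x, x'))) = X e (pvthR S.C S.Fs σ x)
    rw [pvl3k_phi_P h hσ]
    exact hX.X_P e u hu _ (pvl3k_B h hσ x) x'

/-- the link mean = the link constant of the system on the seed space -/
theorem pvl3k_k (h : S.WF B) (hX : S.Fld B X) {σ : Conf PvPt} (hσ : σ ∈ B) (e : ι) :
    S.k ε e (X e) σ = pvtkK (S.toK σ) (pvthSeed ε) (fun e x => X e (pvthR S.C S.Fs σ x)) e := by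
  unfold Pvl3Sys.k pvl3Hat pvtiHat pvtkK
  simp only [← pvl3k_w2_loc h hσ, ← pvl3k_X_loc h hX hσ, ← pvl3k_w2 h hσ]

end loc139

section engine

variable {υ ι : Type} [Fintype υ] [Fintype ι] {S : Pvl3Sys υ ι} {ε : ℝ} {B : Set (Conf PvPt)} {q : ι → ℝ≥0∞} {X : ι → Conf PvPt → ℂ}

/-- **TR1 (mass)**, pointwise in the base configuration -/
theorem pvl3_mass (h : S.WF B) (hF : S.Forced ε B q) {σ : Conf PvPt} (hσ : σ ∈ B) :
    ∫⁻ x, S.Wt ε (pvthR S.C S.Fs σ x) ∂(pvthSeed ε) = 1 := by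
  classical
  rw [← pvtk_mass (pvl3k_wf (ε := ε) h hσ) (pvl3k_forced h hF hσ)]
  exact lintegral_congr fun x => (pvl3k_Wt h hσ x).symm

/-- **TR1 (bound)** -/
theorem pvl3_Wt_le (hF : S.Forced ε B q) {ω : Conf PvPt} (hω : ω ∈ B) : S.Wt ε ω ≤ S.D ε q * S.Ev.indicator 1 ω := by
  by_cases hE : ω ∈ S.Ev
  · rw [Set.indicator_of_mem hE, Pi.one_apply, mul_one]
    unfold Pvl3Sys.Wt Pvl3Sys.D
    refine mul_le_mul' (Finset.prod_le_prod' fun u _ => ?_) (Finset.prod_le_prod' fun e _ => ?_)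
    · unfold Pvl3Sys.g
      rw [Set.indicator_of_mem (hE.1 u), Pi.one_apply, one_div]
    · unfold Pvl3Sys.v pvl3V
      rw [Set.indicator_of_mem (hE.2 e), Pi.one_apply, one_div]
      exact ENNReal.inv_le_inv.2 (hF.frc e ω hω fun u _ => hE.1 u)
  · rw [Set.indicator_of_notMem hE, mul_zero, nonpos_iff_eq_zero]
    unfold Pvl3Sys.Wt
    by_contra h0
    apply hE
    refine ⟨fun u => ?_, fun e => ?_⟩
    · by_contra hu
      apply Finset.prod_ne_zero_iff.1 (left_ne_zero_of_mul h0) u (Finset.mem_univ u)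
      unfold Pvl3Sys.g
      rw [Set.indicator_of_notMem hu, ENNReal.zero_div]
    · by_contra he
      apply Finset.prod_ne_zero_iff.1 (right_ne_zero_of_mul h0) e (Finset.mem_univ e)
      unfold Pvl3Sys.v pvl3V
      rw [Set.indicator_of_notMem he, ENNReal.zero_div]

/-- **TR2**: the mean of the experiment is the sum of the link means, pointwise in the base configuration.      (`hint`: second moments of the links in their own experiments.) -/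
theorem pvl3_mean (h : S.WF B) (hF : S.Forced ε B q) (hX : S.Fld B X) {σ : Conf PvPt} (hσ : σ ∈ B)
    (hint : ∀ e, ∫⁻ x, ‖X e (pvthR (S.Ce e) (S.F e) σ x)‖ₑ ^ 2 * S.w2 ε e (pvthR (S.Ce e) (S.F e) σ x) ∂(pvthSeed ε) ≠ ∞) :
    S.hat ε X σ = ∑ e, S.k ε e (X e) σ := by
  classical
  have hm := pvtk_mean (pvl3k_wf (ε := ε) h hσ) (pvl3k_forced h hF hσ) (pvl3k_fld h hX hσ) (fun e => by
    simp only [pvl3k_w2 h hσ, pvl3k_w2_loc h hσ, pvl3k_X_loc h hX hσ]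
    exact hint e)
  simp only [pvl3k_k h hX hσ]
  rw [← hm]
  unfold Pvl3Sys.hat pvl3Hat pvtiHat
  simp only [← pvl3k_Wt h hσ]

/-- **TR3 / TR3' (Jensen)**, pointwise: `c` = the value of everything which is frozen -/
theorem pvl3_jensen (h : S.WF B) (hF : S.Forced ε B q) (hX : S.Fld B X) {σ : Conf PvPt} (hσ : σ ∈ B) (c : ℂ) :
    ‖c + S.hat ε X σ‖ₑ ^ 2 ≤ ∫⁻ x, ‖c + ∑ e, X e (pvthR S.C S.Fs σ x)‖ₑ ^ 2 * S.Wt ε (pvthR S.C S.Fs σ x) ∂(pvthSeed ε) := by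
  classical
  have hw := pvl3k_wf (ε := ε) h hσ
  have := pvtk_prob_Wt hw (pvl3k_forced h hF hσ)
  have hY : Measurable fun x => ∑ e, X e (pvthR S.C S.Fs σ x) := Finset.measurable_sum _ fun e _ => hX.meas e σ hσ
  unfold Pvl3Sys.hat pvl3Hat pvtiHat
  simp only [← pvl3k_Wt h hσ]
  refine (pvti_jensen _ c hY.aestronglyMeasurable).trans (le_of_eq ?_)
  exact pvtk_lintegral_withDensity (pvtk_Wt_measurable hw) ((measurable_const.add hY).enorm.pow_const 2)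

/-- an atom without fresh sites is a splice -/
theorem pvl3c_R0 (K : Set ℂ) (ρ : Conf PvPt) (x : PvthSd) : pvthR K pvl3F0 ρ x = pvtkR (Prod.fst ⁻¹' K) (ρ, x.1) := by
  rw [pvl3k_R_eq]
  unfold pvl3kR
  have e0 : (↑(pvl3F0 ρ) : Set ℂ) = ∅ := Finset.coe_empty
  rw [e0, pvl3k_rec_empty]

/-- the conditional probability of a region link reads what the link reads -/
theorem pvl3c_P_reads (ε : ℝ) {K W : Set ℂ} {A : Set (Conf PvPt)} (rA : Conf.Reads (Prod.fst ⁻¹' W : Set PvPt) (fun η => η ∈ A)) :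
    Conf.Reads (Prod.fst ⁻¹' W : Set PvPt) (pvl3P ε K pvl3F0 A) := fun η => by
  unfold pvl3P
  refine lintegral_congr fun x => ?_
  rw [pvl3c_R0, pvl3c_R0]
  refine (pvti_ind_reads rA).eq_of_restr ?_
  ext p
  simp only [Conf.restr, pvtk_mem_R, mem_inter_iff]
  tauto

/-- push forward of a density which is a function of the map -/
theorem pvl3c_withDensity_map {α β : Type*} [MeasurableSpace α] [MeasurableSpace β] (μ : Measure α) {f : α → β} (hf : Measurable f) {w : β → ℝ≥0∞} (hw : Measurable w) :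
    (μ.withDensity fun x => w (f x)).map f = (μ.map f).withDensity w := by
  ext s hs
  rw [Measure.map_apply hf hs, withDensity_apply _ (hf hs), withDensity_apply _ hs, setLIntegral_map hs hw hf]

theorem pvl3c_seed_fst (ε : ℝ) : (pvthSeed ε).map Prod.fst = pvP ε := by
  unfold pvthSeed
  rw [Measure.map_fst_prod, measure_univ, one_smul]

/-- a link which reads no end state: its mean is the constant of the region engine (`pvtkK` of 218, `kit.k` of 251) -/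
theorem pvl3_k_const (h : S.WF B) (e : ι) (hFe : S.F e = pvl3F0) (mAe : MeasurableSet (S.A e)) {Y : Conf PvPt → ℂ} (hY : Measurable Y)
    (rA : Conf.Reads (S.Ce e ×ˢ (univ : Set Bool)) (fun η => η ∈ S.A e)) (rY : Conf.Reads (S.Ce e ×ˢ (univ : Set Bool)) Y) (σ : Conf PvPt) :
    S.k ε e Y σ = ∫ η, Y η ∂((pvP ε).withDensity (S.w2 ε e)) := by
  classical
  have rA' : Conf.Reads (Prod.fst ⁻¹' S.Ce e : Set PvPt) (fun η => η ∈ S.A e) := by rw [← Set.prod_univ]; exact rA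
  have rY' : Conf.Reads (Prod.fst ⁻¹' S.Ce e : Set PvPt) Y := by rw [← Set.prod_univ]; exact rY
  -- the weight reads the region of the link
  have rg : ∀ u ∈ S.adj e, Conf.Reads (Prod.fst ⁻¹' S.Ce e : Set PvPt) (S.g ε u) := by
    intro u hu
    have r := h.rG u
    rw [Set.prod_univ] at r
    have hsub : (Prod.fst ⁻¹' S.O u : Set PvPt) ⊆ Prod.fst ⁻¹' S.Ce e :=
      Set.preimage_mono fun z hz => Or.inr (Set.mem_iUnion₂.2 ⟨u, hu, hz⟩)
    exact (pvti_ind_reads (r.mono hsub)).comp (fun t => t / pvP ε (S.G u))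
  have rv : Conf.Reads (Prod.fst ⁻¹' S.Ce e : Set PvPt) (S.v ε e) := by
    unfold Pvl3Sys.v pvl3V
    rw [hFe]
    exact (pvti_ind_reads rA').map₂ (pvl3c_P_reads ε rA') (fun a b => a / b)
  have rw2 : Conf.Reads (Prod.fst ⁻¹' S.Ce e : Set PvPt) (S.w2 ε e) :=
    (pvthx_reads_prod (S.adj e) rg).map₂ rv (fun a b => a * b)
  -- measurability of the weight
  have mP : Measurable (pvl3P ε (S.K e) pvl3F0 (S.A e)) := by
    unfold pvl3P
    have hm : Measurable fun y : Conf PvPt × PvthSd => (S.A e).indicator (1 : Conf PvPt → ℝ≥0∞) (pvthR (S.K e) pvl3F0 y.1 y.2) := by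
      refine (measurable_one.indicator mAe).comp ?_
      have e1 : (fun y : Conf PvPt × PvthSd => pvthR (S.K e) pvl3F0 y.1 y.2) = fun y => pvtkR (Prod.fst ⁻¹' S.K e) (y.1, y.2.1) := by
        funext y
        exact pvl3c_R0 _ _ _
      rw [e1]
      exact (Conf.measurable_spl (measurable_fst (h.mK e)).compl).comp (measurable_fst.prodMk (measurable_fst.comp measurable_snd))
    exact hm.lintegral_prod_right'
  have mw2 : Measurable (S.w2 ε e) := by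
    unfold Pvl3Sys.w2
    refine (Finset.measurable_fun_prod _ fun u _ => (measurable_one.indicator (h.mG u)).div_const _).mul ?_
    unfold Pvl3Sys.v pvl3V
    rw [hFe]
    exact (measurable_one.indicator mAe).div mP
  -- in the experiment one sees the seed only
  have hres : ∀ x : PvthSd, Conf.restr (Prod.fst ⁻¹' S.Ce e) (pvthR (S.Ce e) (S.F e) σ x) = Conf.restr (Prod.fst ⁻¹' S.Ce e) x.1 := by
    intro x
    rw [pvl3k_R_eq, hFe]
    have e0 : (↑(pvl3F0 σ) : Set ℂ) = ∅ := Finset.coe_empty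
    rw [e0]
    exact pvl3k_restr_R (Set.empty_disjoint _) subset_rfl σ x
  have eY : ∀ x : PvthSd, Y (pvthR (S.Ce e) (S.F e) σ x) = Y x.1 := fun x => rY'.eq_of_restr (hres x)
  have ew : ∀ x : PvthSd, S.w2 ε e (pvthR (S.Ce e) (S.F e) σ x) = S.w2 ε e x.1 := fun x => rw2.eq_of_restr (hres x)
  show ∫ x, Y (pvthR (S.Ce e) (S.F e) σ x) ∂((pvthSeed ε).withDensity fun x => S.w2 ε e (pvthR (S.Ce e) (S.F e) σ x)) = _
  simp only [eY, ew]
  rw [← pvl3c_seed_fst ε, ← pvl3c_withDensity_map _ measurable_fst mw2, integral_map measurable_fst.aemeasurable hY.aestronglyMeasurable]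

/-- **TR5, chain form**: the square of a link mean is bounded through the WHOLE system -/
theorem pvl3_link_sq (h : S.WF B) (hF : S.Forced ε B q) (hX : S.Fld B X) {σ : Conf PvPt} (hσ : σ ∈ B) (e : ι) :
    ‖S.k ε e (X e) σ‖ₑ ^ 2 ≤ ∫⁻ x, ‖X e (pvthR S.C S.Fs σ x)‖ₑ ^ 2 * S.Wt ε (pvthR S.C S.Fs σ x) ∂(pvthSeed ε) := by
  classical
  have hw := pvl3k_wf (ε := ε) h hσ
  have hf := pvl3k_forced h hF hσ
  have hx := pvl3k_fld h hX hσ
  rw [pvl3k_k h hX hσ]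
  refine (pvtk_K_sq hw hf hx e).trans (le_of_eq ?_)
  rw [← pvtk_marg_enorm hw hf hx e 2]
  simp only [pvl3k_Wt h hσ]

/-- `B` is stable under the whole experiment -/
theorem pvl3_B_total (h : S.WF B) {σ : Conf PvPt} (hσ : σ ∈ B) (x : PvthSd) : pvthR S.C S.Fs σ x ∈ B := pvl3k_B h hσ x

end engine

/-! ### the upper expectation of record, the invariance in the U-form -/

/-- the sample space of record is `PvGeoT × PvColT`; the configuration of a sample -/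
def pvl3Cf (o : PvGeoT × PvColT) : Conf PvPt := pvConf (pvMerge o)

/-- **THE UPPER EXPECTATION OF RECORD** (ruling H1 of 73): geometry annealed, colours quenched -/
noncomputable def pvl3U0 (ε : ℝ) : PvUp (PvGeoT × PvColT) := PvUp.iter (pvGeo ε) pvCol

/-- the upper integral is invariant under a measure preserving equivalence -/
theorem pvl3_upint_equiv {α : Type} [MeasurableSpace α] {μ : Measure α} (e : α ≃ᵐ α) (he : MeasurePreserving e μ μ) (F : α → ℝ≥0∞) :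
    pvUpInt μ (fun a => F (e a)) = pvUpInt μ F := by
  have key : ∀ (e : α ≃ᵐ α), MeasurePreserving e μ μ → ∀ F : α → ℝ≥0∞, pvUpInt μ (fun a => F (e a)) ≤ pvUpInt μ F := by
    intro e he F
    refine le_iInf fun φ => ?_
    rw [← he.lintegral_comp φ.2.1]
    exact pvup_int_le μ (φ.2.1.comp e.measurable) fun a => φ.2.2 (e a)
  refine le_antisymm (key e he F) ?_
  have h := key e.symm he.symm (fun a => F (e a))
  simpa using h

/-- **the upper expectation of record is invariant under the colour flip** -/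
theorem pvl3_U0_flip (ε : ℝ) (F : PvGeoT × PvColT → ℝ≥0∞) : (pvl3U0 ε).E (fun o => F (o.1, pvColFlip o.2)) = (pvl3U0 ε).E F := by
  show pvUpInt (pvGeo ε) (fun g => pvUpInt pvCol fun k => F (g, pvColFlip k)) = pvUpInt (pvGeo ε) (fun g => pvUpInt pvCol fun k => F (g, k))
  congr 1
  funext g
  exact pvl3_upint_equiv pvColFlip pvqu_col_flip (fun k => F (g, k))

/-- the same for functions of the configuration: WHITE types are BLACK types of the flipped configuration -/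
theorem pvl3_U0_flip_conf (ε : ℝ) (f : Conf PvPt → ℝ≥0∞) : (pvl3U0 ε).E (fun o => f (cfFlip (pvl3Cf o))) = (pvl3U0 ε).E (fun o => f (pvl3Cf o)) := by
  rw [← pvl3_U0_flip ε (fun o => f (pvl3Cf o))]
  congr 1
  funext o
  show f (cfFlip (pvConf (pvMerge o))) = f (pvConf (pvMerge (o.1, pvColFlip o.2)))
  rw [← pvqu_flip_conf]

/-- `B` is a union of COLOUR CYLINDERS: `frz σ` = the frozen sites; recolouring off `frz σ` changes neither `B` nor `frz` nor the fresh sites `F`;   the fresh sites are not frozen and lie off `C` -/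
structure Pvl3Stop (B : Set (Conf PvPt)) (C : Set ℂ) (F frz : Conf PvPt → Finset ℂ) : Prop where
  mC : MeasurableSet C
  dis : ∀ σ ∈ B, Disjoint (frz σ) (F σ)
  dF : ∀ σ ∈ B, Disjoint (↑(F σ) : Set ℂ) C
  cyl : ∀ σ ∈ B, ∀ (T : Set ℂ) (u : ℂ → Bool), Disjoint T (↑(frz σ) : Set ℂ) → pvthRec T u σ ∈ B ∧ frz (pvthRec T u σ) = frz σ ∧ F (pvthRec T u σ) = F σ

/-- **HYBRID INVARIANCE, U-FORM** (no measurability of `B`, `F`, `frz`).      Proof of record: `pvup_iter_E_quenched` with `w g = ∫_c ∫_η Θ (spl (conf (g,c), η))`; at a fixed good geometry `B` is a countable union of cylinders (label = frozen sites + their colours + `F`),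
on a cylinder `F` is constant and the recolouring of `F` preserves the cylinder and the law of the colours (core of 159, `Tr/Dom.lean` sec.1; `pvth_stop_le` of 252);   `∫ w d(pvGeo ε) = ∫ Θ d(pvP ε)` by `pvqu_law` + splice. -/
theorem pvl3_inv_up {ε : ℝ} (hε : 0 < ε) {B : Set (Conf PvPt)} {C : Set ℂ} {F frz : Conf PvPt → Finset ℂ} (h : Pvl3Stop B C F frz) {Θ : Conf PvPt → ℝ≥0∞} (hΘ : Measurable Θ) :
    (pvl3U0 ε).E (fun o => B.indicator (fun σ => ∫⁻ x, Θ (pvthR C F σ x) ∂(pvthSeed ε)) (pvl3Cf o)) ≤ ∫⁻ ω, Θ ω ∂(pvP ε) :=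
  pvdm_inv_up ε h.mC h.dis h.dF h.cyl hΘ

/-- **DOMINATION, U-FORM** (TR3' / TR5 + first moment): any `φ` which on `B` is bounded by the weighted mean of `T`, `T ≤ Θ` on the success event -/
theorem pvl3_dom_up {υ ι : Type} [Fintype υ] [Fintype ι] {S : Pvl3Sys υ ι} {ε : ℝ} (hε : 0 < ε) {B : Set (Conf PvPt)} {q : ι → ℝ≥0∞} {frz : Conf PvPt → Finset ℂ}
    (h : S.WF B) (hF : S.Forced ε B q) (hS : Pvl3Stop B S.C S.Fs frz) {φ T Θ : Conf PvPt → ℝ≥0∞} (hΘ : Measurable Θ) (hD : S.D ε q ≠ ∞)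
    (hφ : ∀ σ ∈ B, φ σ ≤ ∫⁻ x, T (pvthR S.C S.Fs σ x) * S.Wt ε (pvthR S.C S.Fs σ x) ∂(pvthSeed ε))
    (hT : ∀ ω ∈ B, ω ∈ S.Ev → T ω ≤ Θ ω) :
    (pvl3U0 ε).E (fun o => B.indicator φ (pvl3Cf o)) ≤ S.D ε q * ∫⁻ ω, Θ ω ∂(pvP ε) := by
  have h1 : ∀ o, B.indicator φ (pvl3Cf o) ≤ S.D ε q * B.indicator (fun σ => ∫⁻ x, Θ (pvthR S.C S.Fs σ x) ∂(pvthSeed ε)) (pvl3Cf o) := by
    intro o
    by_cases ho : pvl3Cf o ∈ B
    · rw [indicator_of_mem ho, indicator_of_mem ho]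
      refine (hφ _ ho).trans ?_
      rw [← lintegral_const_mul' _ _ hD]
      refine lintegral_mono fun x => ?_
      have hB := pvl3_B_total h ho x
      have hW := pvl3_Wt_le hF hB
      by_cases hE : pvthR S.C S.Fs (pvl3Cf o) x ∈ S.Ev
      · rw [indicator_of_mem hE, Pi.one_apply, mul_one] at hW
        calc _ ≤ Θ (pvthR S.C S.Fs (pvl3Cf o) x) * S.D ε q := mul_le_mul' (hT _ hB hE) hW
          _ = _ := mul_comm _ _
      · rw [indicator_of_notMem hE, mul_zero] at hW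
        rw [le_zero_iff.1 hW, mul_zero]
        exact zero_le
    · rw [indicator_of_notMem ho, indicator_of_notMem ho, mul_zero]
  calc _ ≤ (pvl3U0 ε).E (fun o => S.D ε q * B.indicator (fun σ => ∫⁻ x, Θ (pvthR S.C S.Fs σ x) ∂(pvthSeed ε)) (pvl3Cf o)) := (pvl3U0 ε).mono h1
    _ ≤ S.D ε q * (pvl3U0 ε).E (fun o => B.indicator (fun σ => ∫⁻ x, Θ (pvthR S.C S.Fs σ x) ∂(pvthSeed ε)) (pvl3Cf o)) := (pvl3U0 ε).smul_le _ _ hD
    _ ≤ _ := by gcongr; exact pvl3_inv_up hε hS hΘ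

/-- **DOMINATION, U-FORM, a.e. majorant**: `Θ` a.e. measurable, `T ≤ Θ` on the success event for ALMOST EVERY configuration (the model facts (C2), recognition, hold at nice configurations only) -/
theorem pvl3_dom_up_ae {υ ι : Type} [Fintype υ] [Fintype ι] {S : Pvl3Sys υ ι} {ε : ℝ} (hε : 0 < ε) {B : Set (Conf PvPt)} {q : ι → ℝ≥0∞} {frz : Conf PvPt → Finset ℂ}
    (h : S.WF B) (hF : S.Forced ε B q) (hS : Pvl3Stop B S.C S.Fs frz) {φ T Θ : Conf PvPt → ℝ≥0∞} (hΘ : AEMeasurable Θ (pvP ε)) (hD : S.D ε q ≠ ∞)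
    (hφ : ∀ σ ∈ B, φ σ ≤ ∫⁻ x, T (pvthR S.C S.Fs σ x) * S.Wt ε (pvthR S.C S.Fs σ x) ∂(pvthSeed ε))
    (hT : ∀ᵐ ω ∂(pvP ε), ω ∈ B → ω ∈ S.Ev → T ω ≤ Θ ω) :
    (pvl3U0 ε).E (fun o => B.indicator φ (pvl3Cf o)) ≤ S.D ε q * ∫⁻ ω, Θ ω ∂(pvP ε) := by
  set N : Set (Conf PvPt) := toMeasurable (pvP ε) ({ω | ¬ (ω ∈ B → ω ∈ S.Ev → T ω ≤ Θ ω)} ∪ {ω | ¬ (Θ ω = hΘ.mk Θ ω)}) with hN
  have hN0 : pvP ε N = 0 := by
    rw [hN, measure_toMeasurable]
    exact measure_union_null hT hΘ.ae_eq_mk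
  have hNm : MeasurableSet N := measurableSet_toMeasurable _ _
  have hsub : ({ω | ¬ (ω ∈ B → ω ∈ S.Ev → T ω ≤ Θ ω)} ∪ {ω | ¬ (Θ ω = hΘ.mk Θ ω)}) ⊆ N := subset_toMeasurable _ _
  have hm : Measurable fun ω => hΘ.mk Θ ω + N.indicator (fun _ => (⊤ : ℝ≥0∞)) ω := hΘ.measurable_mk.add (measurable_const.indicator hNm)
  have h1 := pvl3_dom_up hε h hF hS (φ := φ) (T := T) hm hD hφ (fun ω hB hE => by
    by_cases hω : ω ∈ N
    · rw [indicator_of_mem hω]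
      simp
    · have a1 : ω ∈ B → ω ∈ S.Ev → T ω ≤ Θ ω := by
        by_contra hc
        exact hω (hsub (Or.inl hc))
      have a2 : Θ ω = hΘ.mk Θ ω := by
        by_contra hc
        exact hω (hsub (Or.inr hc))
      rw [indicator_of_notMem hω, add_zero, ← a2]
      exact a1 hB hE)
  refine h1.trans (le_of_eq ?_)
  congr 1
  rw [lintegral_add_left hΘ.measurable_mk, lintegral_indicator hNm, setLIntegral_measure_zero _ _ hN0, add_zero]
  exact (lintegral_congr_ae hΘ.ae_eq_mk).symm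

/-! ## 3. THE RECORD OF THE EXPERIMENT (raw data) and THE DEFINITIONS `W kin0 kout kin ke` -/

/-- mean of ONE hybrid link `(K, F, A)` with ONE integrated region plug `(O, G)`; the other end is a marked state, read in the base configuration `σ` -/
noncomputable def pvl3K1 (ε : ℝ) (K : Set ℂ) (F : Conf PvPt → Finset ℂ) (A : Set (Conf PvPt)) (O : Set ℂ) (G : Set (Conf PvPt)) (X : Conf PvPt → ℂ) (σ : Conf PvPt) : ℂ :=
  pvl3Hat ε (K ∪ O) F (fun ω => G.indicator 1 ω / pvP ε G * pvl3V ε K F A ω) X σ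

/-- mean of ONE region link `(K, A)` between TWO integrated region plugs: a constant -/
noncomputable def pvl3K2 (ε : ℝ) (K : Set ℂ) (A : Set (Conf PvPt)) (G G' : Set (Conf PvPt)) (X : Conf PvPt → ℂ) : ℂ :=
  ∫ η, X η ∂((pvP ε).withDensity fun ω => G.indicator 1 ω / pvP ε G * (G'.indicator 1 ω / pvP ε G') * pvl3V ε K pvl3F0 A ω)

/-- one END LINK of a marked candidate: exterior region, fresh sites of the mouth, success event, the sums of `xQ` and of `xV` along the piece of rim it creates (from / to the pin point of the candidate) -/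
structure Pvl3End where
  K : Set ℂ
  F : Conf PvPt → Finset ℂ
  A : Set (Conf PvPt)
  XQ : Conf PvPt → ℂ
  XV : Conf PvPt → ℂ

/-- the field `y_a = xQ - a xV` on an end link -/
def Pvl3End.X (L : Pvl3End) (a : ℂ) (ω : Conf PvPt) : ℂ := L.XQ ω - a * L.XV ω

/-- placed region of the door plug -/
def pvl3Door (kit : PvthKit) (z d : ℂ) : Set ℂ := pvthSim z d '' kit.O₀

/-- the cells: RAW DATA (kit, cell fields); nothing of chapter E is asked here -/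
structure Pvl3Cells (δ : ℕ → ℝ) where
  kit : ℕ → ℝ → PvthKit
  XQ : ℕ → ℝ → PvtTurn → Conf PvPt → ℂ
  XV : ℕ → ℝ → PvtTurn → Conf PvPt → ℂ
  kδ : ∀ m ε, (kit m ε).δ = δ m

/-- the three cell means of the field `y_a` -/
noncomputable def Pvl3Cells.W {δ : ℕ → ℝ} (F : Pvl3Cells δ) (m : ℕ) (ε : ℝ) (a : ℂ) : PvtW := (F.kit m ε).W (pvP ε) (pvcnY (F.XQ m ε) (F.XV m ε) a)

/-- the cells of the family of chapter E (52) -/
def PvcnFam.cells {δ : ℕ → ℝ} (F : PvcnFam δ) : Pvl3Cells δ := ⟨F.kit, F.XQ, F.XV, F.kδ⟩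

/-- **THE RECORD OF THE EXPERIMENT**: RAW DATA.      `m` = level, `ε` = mesh, `(z, t)` = marked candidate. -/
structure Pvl3Exp (τ : Type) (δ : ℕ → ℝ) where
  /-- the cells (chapter E, 52 251 125) -/
  cells : Pvl3Cells δ
  /-- doors and reference words -/
  Γ : ℕ → PvtsGeo τ
  Γδ : ∀ m, (Γ m).δ = δ m
  /-- THIN link: exit mouth of `(z,t)` → door plug at `(z + pout t, dout t)` -/
  out : ℕ → ℝ → ℂ → τ → Pvl3End
  /-- THIN link: door plug at `(z + pin t, din t)` → entrance mouth of `(z,t)` -/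
  inn : ℕ → ℝ → ℂ → τ → Pvl3End
  /-- THICK SHORT link: reference plug at `z + zu t` → entrance mouth of `(z,t)` -/
  thI : ℕ → ℝ → ℂ → τ → Pvl3End
  /-- THICK SHORT link: exit mouth of `(z,t)` → reference plug at `z + zu t`   (only in the Bessel cycle of `thick`; its fields are not read) -/
  thO : ℕ → ℝ → ℂ → τ → Pvl3End
  /-- the reference plug, AT THE ORIGIN: box, usable event -/
  Ou : ℕ → ℝ → Set ℂ
  Gu : ℕ → ℝ → Set (Conf PvPt)
  /-- THIN link: door plug at `(pin0, din0)` → reference plug at the origin -/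
  Kr : ℕ → ℝ → Set ℂ
  Ar : ℕ → ℝ → Set (Conf PvPt)
  XrQ : ℕ → ℝ → Conf PvPt → ℂ
  XrV : ℕ → ℝ → Conf PvPt → ℂ

namespace Pvl3Exp

variable {τ : Type} {δ : ℕ → ℝ} (E : Pvl3Exp τ δ)

/-- the cell field `y_a` -/
def X₀ (m : ℕ) (ε : ℝ) (a : ℂ) : PvtTurn → Conf PvPt → ℂ := pvcnY (E.cells.XQ m ε) (E.cells.XV m ε) a

/-- the field `y_a` on the thin link to the reference plug at the origin -/
def Xr (m : ℕ) (ε : ℝ) (a : ℂ) (ω : Conf PvPt) : ℂ := E.XrQ m ε ω - a * E.XrV m ε ω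

/-- **`W`** : the three cell means -/
noncomputable def W (m : ℕ) (ε : ℝ) (a : ℂ) : PvtW := E.cells.W m ε a

/-- **`kin0`** : the constant of the reference plug -/
noncomputable def kin0 (m : ℕ) (ε : ℝ) (a : ℂ) : ℂ :=
  pvl3K2 ε (E.Kr m ε) (E.Ar m ε) ((E.cells.kit m ε).G (E.Γ m).pin0 (E.Γ m).din0) (E.Gu m ε) (E.Xr m ε a)

/-- **`kout`** -/
noncomputable def kout (m : ℕ) (ε : ℝ) (a z : ℂ) (t : τ) : Conf PvPt → ℂ :=
  pvl3K1 ε (E.out m ε z t).K (E.out m ε z t).F (E.out m ε z t).A (pvl3Door (E.cells.kit m ε) (z + (E.Γ m).pout t) ((E.Γ m).dout t))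
    ((E.cells.kit m ε).G (z + (E.Γ m).pout t) ((E.Γ m).dout t)) ((E.out m ε z t).X a)

/-- **`kin`** -/
noncomputable def kin (m : ℕ) (ε : ℝ) (a z : ℂ) (t : τ) : Conf PvPt → ℂ :=
  pvl3K1 ε (E.inn m ε z t).K (E.inn m ε z t).F (E.inn m ε z t).A (pvl3Door (E.cells.kit m ε) (z + (E.Γ m).pin t) ((E.Γ m).din t))
    ((E.cells.kit m ε).G (z + (E.Γ m).pin t) ((E.Γ m).din t)) ((E.inn m ε z t).X a)

/-- **`ke`** -/
noncomputable def ke (m : ℕ) (ε : ℝ) (a z : ℂ) (t : τ) : Conf PvPt → ℂ :=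
  pvl3K1 ε (E.thI m ε z t).K (E.thI m ε z t).F (E.thI m ε z t).A (pvthSim (z + (E.Γ m).zu t) 1 '' E.Ou m ε)
    (cfMap (pvthInv (z + (E.Γ m).zu t) 1) ⁻¹' E.Gu m ε) ((E.thI m ε z t).X a)

/-! ## 4. the pattern experiment, the `Σ₁` cycle, the Bessel cycle -/

/-- **THE PATTERN EXPERIMENT** `t -out-> door 0 -cell 0-> door 1 ... door n -inn-> s`.      Plugs `u ≤ n` = doors;   links: `0` = `out`, `j + 1` = cell `j`, `n + 1` = `inn`. -/
noncomputable def patSys (m : ℕ) (ε : ℝ) (π : PvtsPat τ) : Pvl3Sys (Fin (π.l.length + 1)) (Fin (π.l.length + 2)) where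
  O u := pvl3Door (E.cells.kit m ε) (pvthZ (E.cells.kit m ε).δ (π.zt + (E.Γ m).pout π.tt) ((E.Γ m).dout π.tt) π.l u) (pvthD ((E.Γ m).dout π.tt) π.l u)
  G u := (E.cells.kit m ε).G (pvthZ (E.cells.kit m ε).δ (π.zt + (E.Γ m).pout π.tt) ((E.Γ m).dout π.tt) π.l u) (pvthD ((E.Γ m).dout π.tt) π.l u)
  K e := if e.val = 0 then (E.out m ε π.zt π.tt).K else if e.val ≤ π.l.length then
      pvthSim (pvthZ (E.cells.kit m ε).δ (π.zt + (E.Γ m).pout π.tt) ((E.Γ m).dout π.tt) π.l (e.val - 1)) (pvthD ((E.Γ m).dout π.tt) π.l (e.val - 1)) '' (E.cells.kit m ε).K₀ (pvthL π.l (e.val - 1))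
    else (E.inn m ε π.zs π.ts).K
  F e := if e.val = 0 then (E.out m ε π.zt π.tt).F else if e.val ≤ π.l.length then pvl3F0 else (E.inn m ε π.zs π.ts).F
  A e := if e.val = 0 then (E.out m ε π.zt π.tt).A else if e.val ≤ π.l.length then
      (E.cells.kit m ε).A (pvthZ (E.cells.kit m ε).δ (π.zt + (E.Γ m).pout π.tt) ((E.Γ m).dout π.tt) π.l (e.val - 1)) (pvthD ((E.Γ m).dout π.tt) π.l (e.val - 1)) (pvthL π.l (e.val - 1))
    else (E.inn m ε π.zs π.ts).A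
  adj e := Finset.univ.filter fun u => u.val + 1 = e.val ∨ u.val = e.val

/-- the field of the pattern experiment -/
noncomputable def patX (m : ℕ) (ε : ℝ) (a : ℂ) (π : PvtsPat τ) (e : Fin (π.l.length + 2)) : Conf PvPt → ℂ :=
  if e.val = 0 then (E.out m ε π.zt π.tt).X a else if e.val ≤ π.l.length then
    (E.cells.kit m ε).Xj (E.X₀ m ε a) (π.zt + (E.Γ m).pout π.tt) ((E.Γ m).dout π.tt) π.l (e.val - 1)
  else (E.inn m ε π.zs π.ts).X a

/-- **`ŷ_π`** -/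
noncomputable def patHat (m : ℕ) (ε : ℝ) (a : ℂ) (π : PvtsPat τ) : Conf PvPt → ℂ := (E.patSys m ε π).hat ε (E.patX m ε a π)

/-- **THE `Σ₁` CYCLE** `t -out-> door 0 -cells of l1 t-> door n -thin-> u -THICK-> t`.      Plugs: `u ≤ n` doors, `n + 1` = reference plug at `z + zu t`;   links: `0` = `out`, `j + 1` = cell `j`, `n + 1` = thin link to `u`, `n + 2` = `thI`. -/
noncomputable def cycSys (m : ℕ) (ε : ℝ) (z : ℂ) (t : τ) : Pvl3Sys (Fin (((E.Γ m).l1 t).length + 2)) (Fin (((E.Γ m).l1 t).length + 3)) where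
  O u := if u.val ≤ ((E.Γ m).l1 t).length then
      pvl3Door (E.cells.kit m ε) (pvthZ (E.cells.kit m ε).δ (z + (E.Γ m).pout t) ((E.Γ m).dout t) ((E.Γ m).l1 t) u) (pvthD ((E.Γ m).dout t) ((E.Γ m).l1 t) u)
    else pvthSim (z + (E.Γ m).zu t) 1 '' E.Ou m ε
  G u := if u.val ≤ ((E.Γ m).l1 t).length then
      (E.cells.kit m ε).G (pvthZ (E.cells.kit m ε).δ (z + (E.Γ m).pout t) ((E.Γ m).dout t) ((E.Γ m).l1 t) u) (pvthD ((E.Γ m).dout t) ((E.Γ m).l1 t) u)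
    else cfMap (pvthInv (z + (E.Γ m).zu t) 1) ⁻¹' E.Gu m ε
  K e := if e.val = 0 then (E.out m ε z t).K else if e.val ≤ ((E.Γ m).l1 t).length then
      pvthSim (pvthZ (E.cells.kit m ε).δ (z + (E.Γ m).pout t) ((E.Γ m).dout t) ((E.Γ m).l1 t) (e.val - 1)) (pvthD ((E.Γ m).dout t) ((E.Γ m).l1 t) (e.val - 1)) ''
        (E.cells.kit m ε).K₀ (pvthL ((E.Γ m).l1 t) (e.val - 1))
    else if e.val = ((E.Γ m).l1 t).length + 1 then pvthSim (z + (E.Γ m).zu t) 1 '' E.Kr m ε else (E.thI m ε z t).K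
  F e := if e.val = 0 then (E.out m ε z t).F else if e.val ≤ ((E.Γ m).l1 t).length + 1 then pvl3F0 else (E.thI m ε z t).F
  A e := if e.val = 0 then (E.out m ε z t).A else if e.val ≤ ((E.Γ m).l1 t).length then
      (E.cells.kit m ε).A (pvthZ (E.cells.kit m ε).δ (z + (E.Γ m).pout t) ((E.Γ m).dout t) ((E.Γ m).l1 t) (e.val - 1)) (pvthD ((E.Γ m).dout t) ((E.Γ m).l1 t) (e.val - 1))
        (pvthL ((E.Γ m).l1 t) (e.val - 1))
    else if e.val = ((E.Γ m).l1 t).length + 1 then cfMap (pvthInv (z + (E.Γ m).zu t) 1) ⁻¹' E.Ar m ε else (E.thI m ε z t).A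
  adj e := Finset.univ.filter fun u => u.val + 1 = e.val ∨ u.val = e.val

/-- the field of the `Σ₁` cycle -/
noncomputable def cycX (m : ℕ) (ε : ℝ) (a z : ℂ) (t : τ) (e : Fin (((E.Γ m).l1 t).length + 3)) : Conf PvPt → ℂ :=
  if e.val = 0 then (E.out m ε z t).X a else if e.val ≤ ((E.Γ m).l1 t).length then
    (E.cells.kit m ε).Xj (E.X₀ m ε a) (z + (E.Γ m).pout t) ((E.Γ m).dout t) ((E.Γ m).l1 t) (e.val - 1)
  else if e.val = ((E.Γ m).l1 t).length + 1 then fun ω => E.Xr m ε a (cfMap (pvthInv (z + (E.Γ m).zu t) 1) ω) else (E.thI m ε z t).X a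

/-- the mean of the `Σ₁` cycle -/
noncomputable def cycHat (m : ℕ) (ε : ℝ) (a z : ℂ) (t : τ) : Conf PvPt → ℂ := (E.cycSys m ε z t).hat ε (E.cycX m ε a z t)

/-- **THE BESSEL CYCLE** `t -THICK-> u -THICK-> t`: one plug, links `true` = `thI`, `false` = `thO` -/
noncomputable def thkSys (m : ℕ) (ε : ℝ) (z : ℂ) (t : τ) : Pvl3Sys Unit Bool where
  O _ := pvthSim (z + (E.Γ m).zu t) 1 '' E.Ou m ε
  G _ := cfMap (pvthInv (z + (E.Γ m).zu t) 1) ⁻¹' E.Gu m ε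
  K e := if e then (E.thI m ε z t).K else (E.thO m ε z t).K
  F e := if e then (E.thI m ε z t).F else (E.thO m ε z t).F
  A e := if e then (E.thI m ε z t).A else (E.thO m ε z t).A
  adj _ := Finset.univ

/-- the field of the Bessel cycle -/
noncomputable def thkX (m : ℕ) (ε : ℝ) (a z : ℂ) (t : τ) (e : Bool) : Conf PvPt → ℂ := if e then (E.thI m ε z t).X a else (E.thO m ε z t).X a

end Pvl3Exp

/-! ### helpers for TR2 + TR25 (helper32) -/

/-- recolouring nothing -/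
theorem pvl3_aux_rec_empty (u : ℂ → Bool) (σ : Conf PvPt) : pvthRec (↑(∅ : Finset ℂ) : Set ℂ) u σ = σ := by
  classical
  have e : pvthCol (↑(∅ : Finset ℂ) : Set ℂ) u = id := by
    funext p
    unfold pvthCol
    simp
  unfold pvthRec
  rw [e]
  exact pvci_image_id σ

/-- an atom without fresh sites is a splice -/
theorem pvl3_aux_R0 (K : Set ℂ) (σ : Conf PvPt) (x : PvthSd) : pvthR K pvl3F0 σ x = Conf.spl (Prod.fst ⁻¹' K)ᶜ (σ, x.1) := by
  unfold pvthR pvl3F0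
  exact pvl3_aux_rec_empty _ _

/-- the conditional probability of a region link -/
theorem pvl3_aux_P0 (ε : ℝ) {K : Set ℂ} (hK : MeasurableSet K) {A : Set (Conf PvPt)} (hA : MeasurableSet A) (σ : Conf PvPt) :
    pvl3P ε K pvl3F0 A σ = pvtiP (pvP ε) (Prod.fst ⁻¹' K)ᶜ A σ := by
  unfold pvl3P pvtiP
  simp only [pvl3_aux_R0]
  have hspl : Measurable fun η : Conf PvPt => Conf.spl (Prod.fst ⁻¹' K)ᶜ (σ, η) := by
    have hC' : MeasurableSet (Prod.fst ⁻¹' K : Set PvPt) := measurable_fst hK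
    have h0 : Measurable fun η : Conf PvPt => ((Conf.restr (Prod.fst ⁻¹' K)ᶜ σ, Conf.restr (Prod.fst ⁻¹' K)ᶜᶜ η) : Conf PvPt × Conf PvPt) :=
      measurable_const.prodMk (Conf.measurable_restr hC'.compl.compl)
    exact Conf.measurable_union.comp h0
  have hm : Measurable fun η : Conf PvPt => A.indicator (1 : Conf PvPt → ℝ≥0∞) (Conf.spl (Prod.fst ⁻¹' K)ᶜ (σ, η)) :=
    (measurable_one.indicator hA).comp hspl
  unfold pvthSeed
  have hm2 : AEMeasurable (fun x : PvthSd => A.indicator (1 : Conf PvPt → ℝ≥0∞) (Conf.spl (Prod.fst ⁻¹' K)ᶜ (σ, x.1))) ((pvP ε).prod pvthBit) :=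
    (hm.comp measurable_fst).aemeasurable
  rw [lintegral_prod _ hm2]
  simp

/-- keep everything but `K`  =  keep `O`, for an event which reads `O ∪ K` -/
theorem pvl3_aux_P_reads (μ : Measure (Conf PvPt)) {O Ks : Set PvPt} (hd : Disjoint O Ks) {A : Set (Conf PvPt)} (rA : Conf.Reads (O ∪ Ks) (fun η => η ∈ A)) (σ : Conf PvPt) :
    pvtiP μ Ksᶜ A σ = pvtiP μ O A σ := by
  unfold pvtiP
  refine lintegral_congr fun η => ?_
  have e : Conf.restr (O ∪ Ks) (Conf.spl Ksᶜ (σ, η)) = Conf.restr (O ∪ Ks) (Conf.spl O (σ, η)) := by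
    refine Conf.ext ?_
    show (σ.pts ∩ Ksᶜ ∪ η.pts ∩ Ksᶜᶜ) ∩ (O ∪ Ks) = (σ.pts ∩ O ∪ η.pts ∩ Oᶜ) ∩ (O ∪ Ks)
    ext p
    have h1 : p ∈ O → p ∉ Ks := fun a b => Set.disjoint_left.1 hd a b
    simp only [mem_inter_iff, mem_union, mem_compl_iff, not_not]
    tauto
  have h1 : (Conf.spl Ksᶜ (σ, η) ∈ A) = (Conf.spl O (σ, η) ∈ A) := by
    have a1 := rA (Conf.spl Ksᶜ (σ, η))
    have a2 := rA (Conf.spl O (σ, η))
    simp only at a1 a2
    rw [← a1, ← a2, e]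
  by_cases h : Conf.spl O (σ, η) ∈ A
  · rw [indicator_of_mem h, indicator_of_mem (h1 ▸ h)]; rfl
  · rw [indicator_of_notMem h, indicator_of_notMem (h1 ▸ h)]

/-- **(1)** the weight of a region link is the weight of `Tr/Ind` -/
theorem pvl3_aux_V (ε : ℝ) {K : Set ℂ} (hK : MeasurableSet K) {A : Set (Conf PvPt)} (hA : MeasurableSet A) {O : Set PvPt} (hd : Disjoint O (K ×ˢ (univ : Set Bool)))
    (rA : Conf.Reads (O ∪ K ×ˢ (univ : Set Bool)) (fun η => η ∈ A)) : pvl3V ε K pvl3F0 A = pvtiW (pvP ε) O A := by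
  funext σ
  have e : (Prod.fst ⁻¹' K : Set PvPt) = K ×ˢ (univ : Set Bool) := by ext p; simp
  unfold pvl3V pvtiW
  rw [pvl3_aux_P0 ε hK hA, e, pvl3_aux_P_reads _ hd rA]

/-- **(2)** the mean of a cell link of ANY hybrid system is `D *` the cell constant -/
theorem pvl3_aux_cell {υ ι : Type} [Fintype υ] [Fintype ι] [DecidableEq υ] {S : Pvl3Sys υ ι} {ε : ℝ} {B : Set (Conf PvPt)} (h : S.WF B) {kit : PvthKit} (hk : kit.WF)
    {X₀ : PvtTurn → Conf PvPt → ℂ} (hX : kit.Fld X₀) (e : ι) {u u' : υ} (huu : u ≠ u') (hadj : S.adj e = {u, u'}) (Z : ℂ) {D : ℂ} (hD : ‖D‖ = 1) (τ : PvtTurn)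
    (hF : S.F e = pvl3F0) (hK : S.K e = pvthSim Z D '' kit.K₀ τ) (hA : S.A e = kit.A Z D τ)
    (hO : S.O u = pvl3Door kit Z D) (hO' : S.O u' = pvl3Door kit (kit.zo Z D τ) (D * τ.rot))
    (hG : S.G u = kit.G Z D) (hG' : S.G u' = kit.G (kit.zo Z D τ) (D * τ.rot)) (σ : Conf PvPt) :
    S.k ε e (pvthX X₀ Z D τ) σ = D * kit.k (pvP ε) X₀ τ := by
  have hD0 := pvth_ne_zero hD
  have hD' : ‖D * τ.rot‖ = 1 := by rw [norm_mul, hD, pvt_norm_rot, one_mul]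
  have hCe : S.Ce e ×ˢ (univ : Set Bool) = kit.OO Z D τ ∪ kit.K Z D τ := by
    unfold Pvl3Sys.Ce PvthKit.OO PvthKit.O PvthKit.K
    rw [hadj, hK]
    ext p
    simp only [Finset.mem_insert, Finset.mem_singleton, iUnion_iUnion_eq_or_left, iUnion_iUnion_eq_left, hO, hO', pvl3Door, mem_prod, mem_union, mem_univ, and_true]
    tauto
  have hdis : Disjoint (kit.OO Z D τ) ((pvthSim Z D '' kit.K₀ τ) ×ˢ (univ : Set Bool)) := by
    have h1 := h.dOK u e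
    have h2 := h.dOK u' e
    rw [hO, hK] at h1
    rw [hO', hK] at h2
    unfold PvthKit.OO PvthKit.O
    rw [Set.disjoint_left] at h1 h2 ⊢
    rintro p (hp | hp) hq
    · exact h1 hp.1 hq.1
    · exact h2 hp.1 hq.1
  have hw : S.w2 ε e = kit.w2 (pvP ε) Z D τ := by
    funext ω
    unfold Pvl3Sys.w2 PvthKit.w2 Pvl3Sys.g Pvl3Sys.v PvthKit.g PvthKit.w
    rw [hadj, Finset.prod_pair huu, hG, hG', hK, hF, hA, pvth_measure_G kit ε Z D hD, pvth_measure_G kit ε _ _ hD',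
      pvl3_aux_V ε (hK ▸ h.mK e) (pvth_mA hk Z D τ) hdis (pvth_rA hk Z D hD0 τ)]
  rw [pvl3_k_const h e hF (hA ▸ pvth_mA hk Z D τ) (pvth_X_meas hX Z D τ) (by rw [hCe, hA]; exact pvth_rA hk Z D hD0 τ) (by rw [hCe]; exact pvth_X_reads hX Z hD0 τ), hw]
  exact pvth_place_mean hk hX Z D hD τ

/-- **(3)** the sum of the cell means along a word -/
theorem pvl3_aux_sum (kit : PvthKit) (μ : Measure (Conf PvPt)) (X₀ : PvtTurn → Conf PvPt → ℂ) (d : ℂ) (l : List PvtTurn) :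
    ∑ j ∈ Finset.range l.length, pvthD d l j * kit.k μ X₀ (pvthL l j) = pvtSum (kit.W μ X₀) d l := by
  unfold pvtSum
  rw [pvthx_acc153]
  refine Finset.sum_congr rfl fun j _ => ?_
  congr 1
  cases pvthL l j <;> rfl

/-- **(4)** the mean of a link with ONE adjacent plug is `pvl3K1` -/
theorem pvl3_aux_end {υ ι : Type} {S : Pvl3Sys υ ι} (ε : ℝ) (e : ι) {u : υ} (hadj : S.adj e = {u}) (X : Conf PvPt → ℂ) (σ : Conf PvPt) :
    S.k ε e X σ = pvl3K1 ε (S.K e) (S.F e) (S.A e) (S.O u) (S.G u) X σ := by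
  have e1 : S.Ce e = S.K e ∪ S.O u := by
    unfold Pvl3Sys.Ce
    rw [hadj]
    simp
  have e2 : S.w2 ε e = fun ω => (S.G u).indicator 1 ω / pvP ε (S.G u) * pvl3V ε (S.K e) (S.F e) (S.A e) ω := by
    funext ω
    unfold Pvl3Sys.w2 Pvl3Sys.g Pvl3Sys.v
    rw [hadj, Finset.prod_singleton]
  unfold Pvl3Sys.k pvl3K1
  rw [e1, e2]

theorem pvl3_aux_norm_D {d : ℂ} (hd : ‖d‖ = 1) (l : List PvtTurn) (j : ℕ) : ‖pvthD d l j‖ = 1 := by
  unfold pvthD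
  rw [pvt_norm_dir, hd]

/-- **(5)** the mean of a translated region link between two translated region plugs is the constant `pvl3K2` -/
theorem pvl3_aux_ref {υ ι : Type} [Fintype υ] [Fintype ι] [DecidableEq υ] {S : Pvl3Sys υ ι} {ε : ℝ} {B : Set (Conf PvPt)} (h : S.WF B) (e : ι) {u u' : υ} (huu : u ≠ u')
    (hadj : S.adj e = {u, u'}) (c : ℂ) {Kr O1 O2 : Set ℂ} {Ar G1 G2 : Set (Conf PvPt)} {Xr : Conf PvPt → ℂ} (mAr : MeasurableSet Ar) (mXr : Measurable Xr)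
    (rA : Conf.Reads ((Kr ∪ O1 ∪ O2) ×ˢ (univ : Set Bool)) (fun η => η ∈ Ar)) (rX : Conf.Reads ((Kr ∪ O1 ∪ O2) ×ˢ (univ : Set Bool)) Xr)
    (hF : S.F e = pvl3F0) (hK : S.K e = pvthSim c 1 '' Kr) (hA : S.A e = cfMap (pvthInv c 1) ⁻¹' Ar)
    (hO : S.O u = pvthSim c 1 '' O1) (hO' : S.O u' = pvthSim c 1 '' O2)
    (hG : S.G u = cfMap (pvthInv c 1) ⁻¹' G1) (hG' : S.G u' = cfMap (pvthInv c 1) ⁻¹' G2) (σ : Conf PvPt) :
    S.k ε e (fun ω => Xr (cfMap (pvthInv c 1) ω)) σ = pvl3K2 ε Kr Ar G1 G2 Xr := by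
  have h1 : (1 : ℂ) ≠ 0 := one_ne_zero
  have hμ : (pvP ε).map (Conf.image (pvciAff 1 c h1)) = pvP ε := pvci_law_frame c 1 (by simp) ε
  have hT : cfMap (pvthInv c 1) = Conf.image (pvciAff 1 c h1).toEquiv.symm := pvth_cfMap_inv c 1 h1
  have mT : Measurable (cfMap (pvthInv c 1)) := measurable_cfMap (pvth_measurable_inv c 1)
  have hpre : ∀ U : Set ℂ, ((pvthSim c 1 '' U) ×ˢ univ : Set PvPt) = Prod.map (pvthInv c 1) id ⁻¹' (U ×ˢ univ) := by
    intro U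
    have := pvth_sim_pre (z := c) (d := 1) h1 0 1 U
    simpa [pvth_sim_id] using this
  have hCe : S.Ce e ×ˢ (univ : Set Bool) = Prod.map (pvthInv c 1) id ⁻¹' ((Kr ∪ O1 ∪ O2) ×ˢ univ) := by
    rw [← hpre]
    congr 1
    unfold Pvl3Sys.Ce
    rw [hadj, hK]
    simp only [Finset.mem_insert, Finset.mem_singleton, iUnion_iUnion_eq_or_left, iUnion_iUnion_eq_left, hO, hO', image_union, union_assoc]
  have msim : Measurable (pvthSim c 1) := by unfold pvthSim; fun_prop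
  have isim : Function.Injective (pvthSim c 1) := by
    intro a b hab
    unfold pvthSim at hab
    simpa using hab
  have mKr : MeasurableSet Kr := by
    have := msim (hK ▸ h.mK e)
    rwa [preimage_image_eq _ isim] at this
  have mA' : MeasurableSet (cfMap (pvthInv c 1) ⁻¹' Ar) := mT mAr
  have himg : (pvciAff 1 c h1) '' (Prod.fst ⁻¹' Kr)ᶜ = (Prod.fst ⁻¹' (pvthSim c 1 '' Kr))ᶜ := by
    rw [Set.image_compl_eq (pvciAff 1 c h1).bijective, pvci_aff_image_fst]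
    congr 3
    funext w
    unfold pvthSim
    ring
  have hP : ∀ ω, pvl3P ε (pvthSim c 1 '' Kr) pvl3F0 (cfMap (pvthInv c 1) ⁻¹' Ar) ω = pvl3P ε Kr pvl3F0 Ar (cfMap (pvthInv c 1) ω) := by
    intro ω
    rw [pvl3_aux_P0 ε (hK ▸ h.mK e) mA', pvl3_aux_P0 ε mKr mAr, ← himg, hT]
    exact congrFun (pvci_P_T (pvciAff 1 c h1) hμ (Prod.fst ⁻¹' Kr)ᶜ Ar) ω
  have hm : ∀ G : Set (Conf PvPt), pvP ε (cfMap (pvthInv c 1) ⁻¹' G) = pvP ε G := by
    intro G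
    rw [hT]
    exact pvci_measure_T (pvciAff 1 c h1) hμ G
  have hw : S.w2 ε e = pvciT (pvciAff 1 c h1).toEquiv (fun ω => G1.indicator 1 ω / pvP ε G1 * (G2.indicator 1 ω / pvP ε G2) * pvl3V ε Kr pvl3F0 Ar ω) := by
    funext ω
    show _ = G1.indicator 1 (Conf.image (pvciAff 1 c h1).toEquiv.symm ω) / pvP ε G1 * (G2.indicator 1 (Conf.image (pvciAff 1 c h1).toEquiv.symm ω) / pvP ε G2) *
      pvl3V ε Kr pvl3F0 Ar (Conf.image (pvciAff 1 c h1).toEquiv.symm ω)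
    rw [← hT]
    unfold Pvl3Sys.w2 Pvl3Sys.g Pvl3Sys.v pvl3V
    rw [hadj, Finset.prod_pair huu, hG, hG', hK, hF, hA, hm, hm, hP]
    rfl
  have mY : Measurable fun ω => Xr (cfMap (pvthInv c 1) ω) := mXr.comp mT
  rw [pvl3_k_const h e hF (hA ▸ mA') mY (by rw [hCe, hA]; exact pvth_reads_map rA) (by rw [hCe]; exact pvth_reads_map rX), hw]
  unfold pvl3K2
  rw [hT]
  exact pvci_integral_withDensity_T (pvciAff 1 c h1) hμ _ Xr

section tr2

variable {τ : Type} {δ : ℕ → ℝ} (E : Pvl3Exp τ δ)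

/-- **TR2 + TR25 FOR A PATTERN**, in the shape of the field `n1` -/
theorem pvl3_tr2_pat {m : ℕ} {ε : ℝ} (a : ℂ) {π : PvtsPat τ} (hπ : (E.Γ m).Ok π) {B : Set (Conf PvPt)} {q : Fin (π.l.length + 2) → ℝ≥0∞}
    (hk : (E.cells.kit m ε).WF) (hQ : (E.cells.kit m ε).Fld (E.cells.XQ m ε)) (hV : (E.cells.kit m ε).Fld (E.cells.XV m ε))
    (h : (E.patSys m ε π).WF B) (hF : (E.patSys m ε π).Forced ε B q) (hX : (E.patSys m ε π).Fld B (E.patX m ε a π)) {σ : Conf PvPt} (hσ : σ ∈ B)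
    (hint : ∀ e, ∫⁻ x, ‖E.patX m ε a π e (pvthR ((E.patSys m ε π).Ce e) ((E.patSys m ε π).F e) σ x)‖ₑ ^ 2 *
      (E.patSys m ε π).w2 ε e (pvthR ((E.patSys m ε π).Ce e) ((E.patSys m ε π).F e) σ x) ∂(pvthSeed ε) ≠ ∞) :
    E.patHat m ε a π σ = E.kout m ε a π.zt π.tt σ + pvtSum (E.W m ε a) ((E.Γ m).dout π.tt) π.l + E.kin m ε a π.zs π.ts σ := by
  classical
  have hd1 : ‖(E.Γ m).dout π.tt‖ = 1 := (E.Γ m).dout1 π.tt
  have hX0 : (E.cells.kit m ε).Fld (E.X₀ m ε a) :=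
    ⟨fun τ => (hQ.meas τ).sub ((hV.meas τ).const_mul a), fun τ => (hQ.reads τ).map₂ (hV.reads τ) (fun x y => x - a * y)⟩
  have hδ : (((E.cells.kit m ε).δ : ℝ) : ℂ) = (((E.Γ m).δ : ℝ) : ℂ) := by rw [E.cells.kδ, E.Γδ]
  unfold Pvl3Exp.patHat
  rw [pvl3_mean h hF hX hσ hint, Fin.sum_univ_succ, Fin.sum_univ_castSucc]
  -- the exit link
  have e0 : (E.patSys m ε π).k ε 0 (E.patX m ε a π 0) σ = E.kout m ε a π.zt π.tt σ := by
    have hadj : (E.patSys m ε π).adj 0 = {0} := by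
      ext u
      rw [Finset.mem_singleton, Fin.ext_iff]
      show u ∈ Finset.univ.filter (fun u : Fin (π.l.length + 1) => u.val + 1 = (0 : Fin (π.l.length + 2)).val ∨ u.val = (0 : Fin (π.l.length + 2)).val) ↔ _
      rw [Finset.mem_filter]
      simp only [Finset.mem_univ, true_and, Fin.val_zero]
      omega
    rw [pvl3_aux_end ε 0 hadj]
    simp only [Pvl3Exp.patSys, Pvl3Exp.patX, Pvl3Exp.kout, Fin.val_zero, if_true, pvthx_Z_zero, pvthx_D_zero]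
  -- the entrance link
  have e1 : (E.patSys m ε π).k ε (Fin.last π.l.length).succ (E.patX m ε a π (Fin.last π.l.length).succ) σ = E.kin m ε a π.zs π.ts σ := by
    have hadj : (E.patSys m ε π).adj (Fin.last π.l.length).succ = {Fin.last π.l.length} := by
      ext u
      have := u.isLt
      simp only [Pvl3Exp.patSys, Finset.mem_filter, Finset.mem_univ, true_and, Fin.val_succ, Fin.val_last, Finset.mem_singleton, Fin.ext_iff]
      omega
    have hZ : pvthZ (E.cells.kit m ε).δ (π.zt + (E.Γ m).pout π.tt) ((E.Γ m).dout π.tt) π.l π.l.length = π.zs + (E.Γ m).pin π.ts := by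
      unfold pvthZ
      rw [List.take_length, hδ, hπ.1]
      ring
    have hD : pvthD ((E.Γ m).dout π.tt) π.l π.l.length = (E.Γ m).din π.ts := by
      unfold pvthD
      rw [List.take_length, hπ.2]
    rw [pvl3_aux_end ε _ hadj]
    have n1 : ¬ (π.l.length + 1 = 0) := by omega
    have n2 : ¬ (π.l.length + 1 ≤ π.l.length) := by omega
    simp only [Pvl3Exp.patSys, Pvl3Exp.patX, Pvl3Exp.kin, Fin.val_succ, Fin.val_last, if_neg n1, if_neg n2, hZ, hD]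
  -- the cells
  have e2 : ∀ i : Fin π.l.length, (E.patSys m ε π).k ε i.castSucc.succ (E.patX m ε a π i.castSucc.succ) σ =
      pvthD ((E.Γ m).dout π.tt) π.l i * (E.cells.kit m ε).k (pvP ε) (E.X₀ m ε a) (pvthL π.l i) := by
    intro i
    have hi := i.isLt
    have n1 : ¬ ((i : ℕ) + 1 = 0) := by omega
    have n2 : (i : ℕ) + 1 ≤ π.l.length := by omega
    have hadj : (E.patSys m ε π).adj i.castSucc.succ = {i.castSucc, i.succ} := by
      ext u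
      simp only [Pvl3Exp.patSys, Finset.mem_filter, Finset.mem_univ, true_and, Fin.val_succ, Fin.val_castSucc, Finset.mem_insert, Finset.mem_singleton, Fin.ext_iff]
      omega
    have huu : i.castSucc ≠ i.succ := by
      intro hh
      have := congrArg Fin.val hh
      simp at this
    have hXe : E.patX m ε a π i.castSucc.succ = pvthX (E.X₀ m ε a) (pvthZ (E.cells.kit m ε).δ (π.zt + (E.Γ m).pout π.tt) ((E.Γ m).dout π.tt) π.l i)
        (pvthD ((E.Γ m).dout π.tt) π.l i) (pvthL π.l i) := by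
      simp only [Pvl3Exp.patX, Fin.val_succ, Fin.val_castSucc, if_neg n1, if_pos n2, Nat.add_sub_cancel, PvthKit.Xj]
    rw [hXe]
    refine pvl3_aux_cell h hk hX0 i.castSucc.succ huu hadj _ (pvl3_aux_norm_D hd1 π.l i) _ ?_ ?_ ?_ ?_ ?_ ?_ ?_ σ
    · simp only [Pvl3Exp.patSys, Fin.val_succ, Fin.val_castSucc, if_neg n1, if_pos n2]
    · simp only [Pvl3Exp.patSys, Fin.val_succ, Fin.val_castSucc, if_neg n1, if_pos n2, Nat.add_sub_cancel]
    · simp only [Pvl3Exp.patSys, Fin.val_succ, Fin.val_castSucc, if_neg n1, if_pos n2, Nat.add_sub_cancel]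
    · simp only [Pvl3Exp.patSys, Fin.val_castSucc]
    · simp only [Pvl3Exp.patSys, Fin.val_succ, pvthx_Z_succ _ _ _ _ hi, pvthx_D_succ _ _ hi]
    · simp only [Pvl3Exp.patSys, Fin.val_castSucc]
    · simp only [Pvl3Exp.patSys, Fin.val_succ, pvthx_Z_succ _ _ _ _ hi, pvthx_D_succ _ _ hi]
  rw [e0, e1, Finset.sum_congr rfl fun i _ => e2 i,
    Fin.sum_univ_eq_sum_range (fun j => pvthD ((E.Γ m).dout π.tt) π.l j * (E.cells.kit m ε).k (pvP ε) (E.X₀ m ε a) (pvthL π.l j)) π.l.length, pvl3_aux_sum]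
  rw [add_assoc]
  rfl

/-- **TR2 + TR25 FOR THE `Σ₁` CYCLE**, in the shape of the field `cyc1` -/
theorem pvl3_tr2_cyc {m : ℕ} {ε : ℝ} (a z : ℂ) (t : τ) {B : Set (Conf PvPt)} {q : Fin (((E.Γ m).l1 t).length + 3) → ℝ≥0∞}
    (hk : (E.cells.kit m ε).WF) (hQ : (E.cells.kit m ε).Fld (E.cells.XQ m ε)) (hV : (E.cells.kit m ε).Fld (E.cells.XV m ε))
    (rA : Conf.Reads ((E.Kr m ε ∪ pvl3Door (E.cells.kit m ε) (E.Γ m).pin0 (E.Γ m).din0 ∪ E.Ou m ε) ×ˢ (univ : Set Bool)) (fun η => η ∈ E.Ar m ε))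
    (rX : Conf.Reads ((E.Kr m ε ∪ pvl3Door (E.cells.kit m ε) (E.Γ m).pin0 (E.Γ m).din0 ∪ E.Ou m ε) ×ˢ (univ : Set Bool)) (E.Xr m ε a))
    (mAr : MeasurableSet (E.Ar m ε)) (mXr : Measurable (E.Xr m ε a))
    (h : (E.cycSys m ε z t).WF B) (hF : (E.cycSys m ε z t).Forced ε B q) (hX : (E.cycSys m ε z t).Fld B (E.cycX m ε a z t)) {σ : Conf PvPt} (hσ : σ ∈ B)
    (hint : ∀ e, ∫⁻ x, ‖E.cycX m ε a z t e (pvthR ((E.cycSys m ε z t).Ce e) ((E.cycSys m ε z t).F e) σ x)‖ₑ ^ 2 *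
      (E.cycSys m ε z t).w2 ε e (pvthR ((E.cycSys m ε z t).Ce e) ((E.cycSys m ε z t).F e) σ x) ∂(pvthSeed ε) ≠ ∞) :
    E.cycHat m ε a z t σ = E.kout m ε a z t σ + pvtSum (E.W m ε a) ((E.Γ m).dout t) ((E.Γ m).l1 t) + E.kin0 m ε a + E.ke m ε a z t σ := by
  classical
  have hd : ‖(E.Γ m).dout t‖ = 1 := (E.Γ m).dout1 t
  have hX₀ : (E.cells.kit m ε).Fld (E.X₀ m ε a) := pvcn_fld hQ hV a
  have hmem : ∀ e u, u ∈ (E.cycSys m ε z t).adj e ↔ (u.val + 1 = e.val ∨ u.val = e.val) := by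
    intro e u
    show u ∈ Finset.univ.filter _ ↔ _
    simp
  unfold Pvl3Exp.cycHat
  rw [pvl3_mean h hF hX hσ hint, Fin.sum_univ_succ, Fin.sum_univ_castSucc, Fin.sum_univ_castSucc]
  -- the exit link
  have k0 : (E.cycSys m ε z t).k ε 0 (E.cycX m ε a z t 0) σ = E.kout m ε a z t σ := by
    have hadj : (E.cycSys m ε z t).adj 0 = {0} := by
      ext u
      simp only [hmem, Finset.mem_singleton, Fin.ext_iff, Fin.val_zero]
      omega
    rw [pvl3_aux_end ε 0 hadj]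
    unfold Pvl3Exp.kout
    simp only [Pvl3Exp.cycSys, Pvl3Exp.cycX, Fin.val_zero, if_true, Nat.zero_le, pvthx_Z_zero, pvthx_D_zero]
  -- the thick link
  have k3 : (E.cycSys m ε z t).k ε (Fin.last (((E.Γ m).l1 t).length + 1)).succ (E.cycX m ε a z t (Fin.last (((E.Γ m).l1 t).length + 1)).succ) σ = E.ke m ε a z t σ := by
    have hadj : (E.cycSys m ε z t).adj (Fin.last (((E.Γ m).l1 t).length + 1)).succ = {Fin.last (((E.Γ m).l1 t).length + 1)} := by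
      ext u
      have := u.2
      rw [hmem, Finset.mem_singleton, Fin.ext_iff, Fin.val_succ, Fin.val_last]
      omega
    rw [pvl3_aux_end ε _ hadj]
    unfold Pvl3Exp.ke
    have c1 : ¬ (((E.Γ m).l1 t).length + 1 + 1 = 0) := by omega
    have c2 : ¬ (((E.Γ m).l1 t).length + 1 + 1 ≤ ((E.Γ m).l1 t).length) := by omega
    have c3 : ¬ (((E.Γ m).l1 t).length + 1 + 1 = ((E.Γ m).l1 t).length + 1) := by omega
    have c4 : ¬ (((E.Γ m).l1 t).length + 1 + 1 ≤ ((E.Γ m).l1 t).length + 1) := by omega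
    have c5 : ¬ (((E.Γ m).l1 t).length + 1 ≤ ((E.Γ m).l1 t).length) := by omega
    simp only [Pvl3Exp.cycSys, Pvl3Exp.cycX, Fin.val_succ, Fin.val_last, if_neg c1, if_neg c2, if_neg c3, if_neg c4, if_neg c5]
  -- the thin link to the reference plug
  have k2 : (E.cycSys m ε z t).k ε (Fin.last ((E.Γ m).l1 t).length).castSucc.succ (E.cycX m ε a z t (Fin.last ((E.Γ m).l1 t).length).castSucc.succ) σ = E.kin0 m ε a := by
    have hadj : (E.cycSys m ε z t).adj (Fin.last ((E.Γ m).l1 t).length).castSucc.succ = {(Fin.last ((E.Γ m).l1 t).length).castSucc, Fin.last (((E.Γ m).l1 t).length + 1)} := by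
      ext u
      have := u.2
      simp only [hmem, Finset.mem_insert, Finset.mem_singleton, Fin.ext_iff, Fin.val_succ, Fin.val_castSucc, Fin.val_last]
      omega
    have huu : (Fin.last ((E.Γ m).l1 t).length).castSucc ≠ Fin.last (((E.Γ m).l1 t).length + 1) := by
      simp [Fin.ext_iff]
    have hZ : pvthZ (E.cells.kit m ε).δ (z + (E.Γ m).pout t) ((E.Γ m).dout t) ((E.Γ m).l1 t) ((E.Γ m).l1 t).length = (z + (E.Γ m).zu t) + 1 * (E.Γ m).pin0 := by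
      unfold pvthZ
      rw [List.take_length, E.cells.kδ, ← E.Γδ, (E.Γ m).l1_disp]
      ring
    have hDn : pvthD ((E.Γ m).dout t) ((E.Γ m).l1 t) ((E.Γ m).l1 t).length = 1 * (E.Γ m).din0 := by
      unfold pvthD
      rw [List.take_length, (E.Γ m).l1_dir, one_mul]
    have c1 : ¬ (((E.Γ m).l1 t).length + 1 = 0) := by omega
    have c2 : ¬ (((E.Γ m).l1 t).length + 1 ≤ ((E.Γ m).l1 t).length) := by omega
    have hXe : E.cycX m ε a z t (Fin.last ((E.Γ m).l1 t).length).castSucc.succ = fun ω => E.Xr m ε a (cfMap (pvthInv (z + (E.Γ m).zu t) 1) ω) := by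
      simp only [Pvl3Exp.cycX, Fin.val_succ, Fin.val_castSucc, Fin.val_last, if_neg c1, if_neg c2, if_true]
    rw [hXe]
    unfold Pvl3Exp.kin0
    refine pvl3_aux_ref h _ huu hadj (z + (E.Γ m).zu t) mAr mXr rA rX ?_ ?_ ?_ ?_ ?_ ?_ ?_ σ
    · simp only [Pvl3Exp.cycSys, Fin.val_succ, Fin.val_castSucc, Fin.val_last, if_neg c1, le_refl, if_true]
    · simp only [Pvl3Exp.cycSys, Fin.val_succ, Fin.val_castSucc, Fin.val_last, if_neg c1, if_neg c2, if_true]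
    · simp only [Pvl3Exp.cycSys, Fin.val_succ, Fin.val_castSucc, Fin.val_last, if_neg c1, if_neg c2, if_true]
    · simp only [Pvl3Exp.cycSys, Fin.val_castSucc, Fin.val_last, le_refl, if_true, hZ, hDn]
      unfold pvl3Door
      rw [image_image]
      refine image_congr fun w _ => ?_
      unfold pvthSim
      ring
    · simp only [Pvl3Exp.cycSys, Fin.val_last, if_neg c2]
    · simp only [Pvl3Exp.cycSys, Fin.val_castSucc, Fin.val_last, le_refl, if_true, hZ, hDn]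
      exact pvth_G_comp _ _ 1 _ _ one_ne_zero
    · simp only [Pvl3Exp.cycSys, Fin.val_last, if_neg c2]
  -- the cells
  have k1 : ∀ i : Fin ((E.Γ m).l1 t).length, (E.cycSys m ε z t).k ε i.castSucc.castSucc.succ (E.cycX m ε a z t i.castSucc.castSucc.succ) σ =
      pvthD ((E.Γ m).dout t) ((E.Γ m).l1 t) i * (E.cells.kit m ε).k (pvP ε) (E.X₀ m ε a) (pvthL ((E.Γ m).l1 t) i) := by
    intro i
    have hi := i.2
    have hadj : (E.cycSys m ε z t).adj i.castSucc.castSucc.succ = {i.castSucc.castSucc, i.succ.castSucc} := by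
      ext u
      have := u.2
      simp only [hmem, Finset.mem_insert, Finset.mem_singleton, Fin.ext_iff, Fin.val_succ, Fin.val_castSucc]
      omega
    have huu : i.castSucc.castSucc ≠ i.succ.castSucc := by
      simp [Fin.ext_iff]
    have c1 : ¬ ((i : ℕ) + 1 = 0) := by omega
    have c2 : (i : ℕ) + 1 ≤ ((E.Γ m).l1 t).length := by omega
    have c3 : (i : ℕ) + 1 ≤ ((E.Γ m).l1 t).length + 1 := by omega
    have c4 : (i : ℕ) ≤ ((E.Γ m).l1 t).length := by omega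
    have hXe : E.cycX m ε a z t i.castSucc.castSucc.succ = pvthX (E.X₀ m ε a) (pvthZ (E.cells.kit m ε).δ (z + (E.Γ m).pout t) ((E.Γ m).dout t) ((E.Γ m).l1 t) i)
        (pvthD ((E.Γ m).dout t) ((E.Γ m).l1 t) i) (pvthL ((E.Γ m).l1 t) i) := by
      simp only [Pvl3Exp.cycX, Fin.val_succ, Fin.val_castSucc, if_neg c1, if_pos c2, Nat.add_sub_cancel]
      rfl
    rw [hXe]
    refine pvl3_aux_cell h hk hX₀ _ huu hadj _ (pvl3_aux_norm_D hd _ _) _ ?_ ?_ ?_ ?_ ?_ ?_ ?_ σ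
    · simp only [Pvl3Exp.cycSys, Fin.val_succ, Fin.val_castSucc, if_neg c1, if_pos c3]
    · simp only [Pvl3Exp.cycSys, Fin.val_succ, Fin.val_castSucc, if_neg c1, if_pos c2, Nat.add_sub_cancel]
    · simp only [Pvl3Exp.cycSys, Fin.val_succ, Fin.val_castSucc, if_neg c1, if_pos c2, Nat.add_sub_cancel]
    · simp only [Pvl3Exp.cycSys, Fin.val_castSucc, if_pos c4]
    · simp only [Pvl3Exp.cycSys, Fin.val_succ, Fin.val_castSucc, if_pos c2, pvthx_Z_succ _ _ _ _ hi, pvthx_D_succ _ _ hi]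
    · simp only [Pvl3Exp.cycSys, Fin.val_castSucc, if_pos c4]
    · simp only [Pvl3Exp.cycSys, Fin.val_succ, Fin.val_castSucc, if_pos c2, pvthx_Z_succ _ _ _ _ hi, pvthx_D_succ _ _ hi]
  rw [k0, k2, k3, Finset.sum_congr rfl (fun i _ => k1 i),
    Fin.sum_univ_eq_sum_range (fun j => pvthD ((E.Γ m).dout t) ((E.Γ m).l1 t) j * (E.cells.kit m ε).k (pvP ε) (E.X₀ m ε a) (pvthL ((E.Γ m).l1 t) j)) ((E.Γ m).l1 t).length,
    pvl3_aux_sum]
  unfold Pvl3Exp.W Pvl3Cells.W Pvl3Exp.X₀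
  ring

/-- `ke` is the link mean of `thI` in the Bessel cycle -/
theorem pvl3_ke_eq (m : ℕ) (ε : ℝ) (a z : ℂ) (t : τ) (σ : Conf PvPt) : (E.thkSys m ε z t).k ε true (E.thkX m ε a z t true) σ = E.ke m ε a z t σ := by
  have e1 : (E.thkSys m ε z t).Ce true = (E.thI m ε z t).K ∪ pvthSim (z + (E.Γ m).zu t) 1 '' E.Ou m ε := by
    simp [Pvl3Sys.Ce, Pvl3Exp.thkSys, Set.iUnion_const]
  have e2 : (E.thkSys m ε z t).w2 ε true = fun ω => (cfMap (pvthInv (z + (E.Γ m).zu t) 1) ⁻¹' E.Gu m ε).indicator 1 ω / pvP ε (cfMap (pvthInv (z + (E.Γ m).zu t) 1) ⁻¹' E.Gu m ε) *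
      pvl3V ε (E.thI m ε z t).K (E.thI m ε z t).F (E.thI m ε z t).A ω := by
    funext ω
    simp [Pvl3Sys.w2, Pvl3Sys.g, Pvl3Sys.v, Pvl3Exp.thkSys]
  unfold Pvl3Sys.k Pvl3Exp.ke pvl3K1
  rw [e1, e2]
  rfl

end tr2

/-! ## 5. the fields `cyc1`, `thick` in the U-form -/

section fields

variable {τ : Type} {δ : ℕ → ℝ} (E : Pvl3Exp τ δ)

/-- the hypotheses on the `Σ₁` cycle of the candidate `(z,t)` at ONE mesh.      `B` = usable states (`U` of the record `PvhbLocU`, as a set of configurations), `Θ` = the closed-sum functional of I.TAIL (P1.8). -/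
structure Pvl3CycOk (a : ℂ) (m : ℕ) (ε : ℝ) (z : ℂ) (t : τ) (B : Set (Conf PvPt)) (q : Fin (((E.Γ m).l1 t).length + 3) → ℝ≥0∞)
    (frz : Conf PvPt → Finset ℂ) (Θ : Conf PvPt → ℝ≥0∞) : Prop where
  hk : (E.cells.kit m ε).WF
  hQ : (E.cells.kit m ε).Fld (E.cells.XQ m ε)
  hV : (E.cells.kit m ε).Fld (E.cells.XV m ε)
  rA : Conf.Reads ((E.Kr m ε ∪ pvl3Door (E.cells.kit m ε) (E.Γ m).pin0 (E.Γ m).din0 ∪ E.Ou m ε) ×ˢ (univ : Set Bool)) (fun η => η ∈ E.Ar m ε)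
  rX : Conf.Reads ((E.Kr m ε ∪ pvl3Door (E.cells.kit m ε) (E.Γ m).pin0 (E.Γ m).din0 ∪ E.Ou m ε) ×ˢ (univ : Set Bool)) (E.Xr m ε a)
  mAr : MeasurableSet (E.Ar m ε)
  mXr : Measurable (E.Xr m ε a)
  wf : (E.cycSys m ε z t).WF B
  frc : (E.cycSys m ε z t).Forced ε B q
  fld : (E.cycSys m ε z t).Fld B (E.cycX m ε a z t)
  stop : Pvl3Stop B (E.cycSys m ε z t).C (E.cycSys m ε z t).Fs frz
  hint : ∀ σ ∈ B, ∀ e, ∫⁻ x, ‖E.cycX m ε a z t e (pvthR ((E.cycSys m ε z t).Ce e) ((E.cycSys m ε z t).F e) σ x)‖ₑ ^ 2 *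
      (E.cycSys m ε z t).w2 ε e (pvthR ((E.cycSys m ε z t).Ce e) ((E.cycSys m ε z t).F e) σ x) ∂(pvthSeed ε) ≠ ∞
  mΘ : AEMeasurable Θ (pvP ε)
  /-- (C2) CLOSING for the pure cycle: on the success event the sum of the links is the closed sum of a rim      (ALMOST EVERY configuration) -/
  dom : ∀ᵐ ω ∂(pvP ε), ω ∈ B → ω ∈ (E.cycSys m ε z t).Ev → ‖∑ e, E.cycX m ε a z t e ω‖ₑ ^ 2 ≤ Θ ω

/-- one mesh: the `L²` norm of the cycle mean on the usable states -/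
theorem pvl3_cyc_le {a : ℂ} {m : ℕ} {ε : ℝ} (hε : 0 < ε) {z : ℂ} {t : τ} {B : Set (Conf PvPt)} {q : Fin (((E.Γ m).l1 t).length + 3) → ℝ≥0∞}
    {frz : Conf PvPt → Finset ℂ} {Θ : Conf PvPt → ℝ≥0∞} (H : Pvl3CycOk E a m ε z t B q frz Θ) (hD : (E.cycSys m ε z t).D ε q ≠ ∞) :
    (pvl3U0 ε).E ((pvl3Cf ⁻¹' B).indicator fun o =>
      ‖E.kout m ε a z t (pvl3Cf o) + pvtSum (E.W m ε a) ((E.Γ m).dout t) ((E.Γ m).l1 t) + E.kin0 m ε a + E.ke m ε a z t (pvl3Cf o)‖ₑ ^ 2)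
      ≤ (E.cycSys m ε z t).D ε q * ∫⁻ ω, Θ ω ∂(pvP ε) := by
  have h1 := pvl3_dom_up_ae hε H.wf H.frc H.stop (φ := fun σ => ‖E.cycHat m ε a z t σ‖ₑ ^ 2) (T := fun ω => ‖∑ e, E.cycX m ε a z t e ω‖ₑ ^ 2) H.mΘ hD
    (fun σ hσ => by
      have := pvl3_jensen H.wf H.frc H.fld hσ 0
      simpa [Pvl3Exp.cycHat] using this) H.dom
  refine le_trans ((pvl3U0 ε).mono fun o => ?_) h1
  by_cases ho : pvl3Cf o ∈ B
  · rw [indicator_of_mem (show o ∈ pvl3Cf ⁻¹' B from ho), indicator_of_mem ho,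
      pvl3_tr2_cyc E a z t H.hk H.hQ H.hV H.rA H.rX H.mAr H.mXr H.wf H.frc H.fld ho (H.hint _ ho)]
  · rw [indicator_of_notMem (show o ∉ pvl3Cf ⁻¹' B from ho), indicator_of_notMem ho]

/-- **FIELD `cyc1`, U-FORM** for one candidate -/
theorem pvl3_cyc1 (a : ℂ) (m : ℕ) (z : ℂ) (t : τ) (B : ℝ → Set (Conf PvPt)) (q : ℝ → Fin (((E.Γ m).l1 t).length + 3) → ℝ≥0∞)
    (frz : ℝ → Conf PvPt → Finset ℂ) (Θ : ℝ → Conf PvPt → ℝ≥0∞) (D0 : ℝ≥0∞) (hD0 : D0 ≠ ∞)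
    (hok : ∀ᶠ ε in 𝓝[>] (0 : ℝ), Pvl3CycOk E a m ε z t (B ε) (q ε) (frz ε) (Θ ε))
    (hD : ∀ᶠ ε in 𝓝[>] (0 : ℝ), (E.cycSys m ε z t).D ε (q ε) ≤ D0)
    (htail : Tendsto (fun ε => ∫⁻ ω, Θ ε ω ∂(pvP ε)) (𝓝[>] (0 : ℝ)) (𝓝 0)) :
    Tendsto (fun ε => (pvl3U0 ε).E ((pvl3Cf ⁻¹' B ε).indicator fun o =>
      ‖E.kout m ε a z t (pvl3Cf o) + pvtSum (E.W m ε a) ((E.Γ m).dout t) ((E.Γ m).l1 t) + E.kin0 m ε a + E.ke m ε a z t (pvl3Cf o)‖ₑ ^ 2)) (𝓝[>] (0 : ℝ)) (𝓝 0) := by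
  have h0 : Tendsto (fun ε => D0 * ∫⁻ ω, Θ ε ω ∂(pvP ε)) (𝓝[>] (0 : ℝ)) (𝓝 0) := by
    have := ENNReal.Tendsto.const_mul htail (Or.inr hD0)
    rwa [mul_zero] at this
  refine tendsto_of_tendsto_of_tendsto_of_le_of_le' tendsto_const_nhds h0 (Eventually.of_forall fun _ => zero_le) ?_
  filter_upwards [hok, hD, self_mem_nhdsWithin] with ε h1 h2 h3
  exact (pvl3_cyc_le E h3 h1 (ne_top_of_le_ne_top hD0 h2)).trans (by gcongr)

/-- the hypotheses on the Bessel cycle of the candidate `(z,t)` at ONE mesh.      `Θ` = the Bessel functional of the mask of the thick link (I.BES, 223 181). -/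
structure Pvl3ThkOk (a : ℂ) (m : ℕ) (ε : ℝ) (z : ℂ) (t : τ) (B : Set (Conf PvPt)) (q : Bool → ℝ≥0∞) (frz : Conf PvPt → Finset ℂ) (Θ : Conf PvPt → ℝ≥0∞) : Prop where
  wf : (E.thkSys m ε z t).WF B
  frc : (E.thkSys m ε z t).Forced ε B q
  fld : (E.thkSys m ε z t).Fld B (E.thkX m ε a z t)
  stop : Pvl3Stop B (E.thkSys m ε z t).C (E.thkSys m ε z t).Fs frz
  mΘ : AEMeasurable Θ (pvP ε)
  /-- RECOGNITION (TR13 + TR14): on the success event the thick link is a masked sum of a rim      (ALMOST EVERY configuration) -/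
  dom : ∀ᵐ ω ∂(pvP ε), ω ∈ B → ω ∈ (E.thkSys m ε z t).Ev → ‖(E.thI m ε z t).X a ω‖ₑ ^ 2 ≤ Θ ω

/-- **FIELD `thick`, U-FORM**, one mesh -/
theorem pvl3_thick_le {a : ℂ} {m : ℕ} {ε : ℝ} (hε : 0 < ε) {z : ℂ} {t : τ} {B : Set (Conf PvPt)} {q : Bool → ℝ≥0∞}
    {frz : Conf PvPt → Finset ℂ} {Θ : Conf PvPt → ℝ≥0∞} (H : Pvl3ThkOk E a m ε z t B q frz Θ) (hD : (E.thkSys m ε z t).D ε q ≠ ∞) :
    (pvl3U0 ε).E ((pvl3Cf ⁻¹' B).indicator fun o => ‖E.ke m ε a z t (pvl3Cf o)‖ₑ ^ 2) ≤ (E.thkSys m ε z t).D ε q * ∫⁻ ω, Θ ω ∂(pvP ε) := by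
  have h1 := pvl3_dom_up_ae hε H.wf H.frc H.stop (φ := fun σ => ‖E.ke m ε a z t σ‖ₑ ^ 2) (T := fun ω => ‖(E.thI m ε z t).X a ω‖ₑ ^ 2) H.mΘ hD
    (fun σ hσ => by
      have := pvl3_link_sq H.wf H.frc H.fld hσ true
      rw [pvl3_ke_eq] at this
      simpa [Pvl3Exp.thkX] using this) H.dom
  refine le_trans ((pvl3U0 ε).mono fun o => ?_) h1
  by_cases ho : pvl3Cf o ∈ B
  · rw [indicator_of_mem (show o ∈ pvl3Cf ⁻¹' B from ho), indicator_of_mem ho]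
  · rw [indicator_of_notMem (show o ∉ pvl3Cf ⁻¹' B from ho), indicator_of_notMem ho]

end fields

/-! ## 6. BASE-INDEXED EXPERIMENTS (ruling T7 (3) of 24, cure of 168)

Everything inside ONE experiment may be indexed by data of the BASE configuration `σ` (the frozen positions `F0 σ` of the half states): the system is `S σ`, evaluated at the base `σ` itself.
The engine (sec.2) is pointwise in `σ`, so TR1 TR2 TR3 TR5 apply verbatim to `S σ` at `σ`;   only the domination needs a new statement: the resampled REGION `C` must not depend on `σ`, the DIAGONAL fresh set `F σ = (S σ).Fs σ` must be a colour stopping set. -/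

/-- weighted mean `≤ D ×` plain mean of a majorant, at ONE base configuration -/
theorem pvl3_dom_pt {υ ι : Type} [Fintype υ] [Fintype ι] {S : Pvl3Sys υ ι} {ε : ℝ} {B : Set (Conf PvPt)} {q : ι → ℝ≥0∞}
    (h : S.WF B) (hF : S.Forced ε B q) {T Θ : Conf PvPt → ℝ≥0∞} (hD : S.D ε q ≠ ∞) (hT : ∀ ω ∈ B, ω ∈ S.Ev → T ω ≤ Θ ω) {σ : Conf PvPt} (hσ : σ ∈ B) :
    ∫⁻ x, T (pvthR S.C S.Fs σ x) * S.Wt ε (pvthR S.C S.Fs σ x) ∂(pvthSeed ε) ≤ S.D ε q * ∫⁻ x, Θ (pvthR S.C S.Fs σ x) ∂(pvthSeed ε) := by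
  rw [← lintegral_const_mul' _ _ hD]
  refine lintegral_mono fun x => ?_
  have hB := pvl3_B_total h hσ x
  have hW := pvl3_Wt_le hF hB
  by_cases hE : pvthR S.C S.Fs σ x ∈ S.Ev
  · rw [indicator_of_mem hE, Pi.one_apply, mul_one] at hW
    calc _ ≤ Θ (pvthR S.C S.Fs σ x) * S.D ε q := mul_le_mul' (hT _ hB hE) hW
      _ = _ := mul_comm _ _
  · rw [indicator_of_notMem hE, mul_zero] at hW
    rw [le_zero_iff.1 hW, mul_zero]
    exact zero_le

/-- **DOMINATION, U-FORM, BASE-INDEXED SYSTEMS**.      `N` = a null set of configurations off which the model facts hold. -/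
theorem pvl3_dom_fam {ε : ℝ} (hε : 0 < ε) {B : Set (Conf PvPt)} {C : Set ℂ} {F frz : Conf PvPt → Finset ℂ} (hS : Pvl3Stop B C F frz)
    {φ Θ : Conf PvPt → ℝ≥0∞} (hΘ : AEMeasurable Θ (pvP ε)) {D : ℝ≥0∞} (hD : D ≠ ∞) {N : Set (Conf PvPt)} (hN : pvP ε N = 0)
    (hφ : ∀ σ ∈ B, ∃ (υ ι : Type) (_ : Fintype υ) (_ : Fintype ι) (S : Pvl3Sys υ ι) (Bs : Set (Conf PvPt)) (q : ι → ℝ≥0∞) (T : Conf PvPt → ℝ≥0∞),
      S.WF Bs ∧ S.Forced ε Bs q ∧ σ ∈ Bs ∧ S.C = C ∧ S.Fs σ = F σ ∧ S.D ε q ≤ D ∧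
      φ σ ≤ ∫⁻ x, T (pvthR S.C S.Fs σ x) * S.Wt ε (pvthR S.C S.Fs σ x) ∂(pvthSeed ε) ∧ ∀ ω ∈ Bs, ω ∈ S.Ev → ω ∉ N → T ω ≤ Θ ω) :
    (pvl3U0 ε).E (fun o => B.indicator φ (pvl3Cf o)) ≤ D * ∫⁻ ω, Θ ω ∂(pvP ε) := by
  set N' : Set (Conf PvPt) := toMeasurable (pvP ε) (N ∪ {ω | ¬ (Θ ω = hΘ.mk Θ ω)}) with hN'
  have hN0 : pvP ε N' = 0 := by
    rw [hN', measure_toMeasurable]
    exact measure_union_null hN hΘ.ae_eq_mk
  have hNm : MeasurableSet N' := measurableSet_toMeasurable _ _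
  have hsub : (N ∪ {ω | ¬ (Θ ω = hΘ.mk Θ ω)}) ⊆ N' := subset_toMeasurable _ _
  set Θ' : Conf PvPt → ℝ≥0∞ := fun ω => hΘ.mk Θ ω + N'.indicator (fun _ => (⊤ : ℝ≥0∞)) ω with hΘ'
  have hm : Measurable Θ' := hΘ.measurable_mk.add (measurable_const.indicator hNm)
  have hint : ∫⁻ ω, Θ' ω ∂(pvP ε) = ∫⁻ ω, Θ ω ∂(pvP ε) := by
    rw [hΘ', lintegral_add_left hΘ.measurable_mk, lintegral_indicator hNm, setLIntegral_measure_zero _ _ hN0, add_zero]
    exact (lintegral_congr_ae hΘ.ae_eq_mk).symm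
  have h1 : ∀ o, B.indicator φ (pvl3Cf o) ≤ D * B.indicator (fun σ => ∫⁻ x, Θ' (pvthR C F σ x) ∂(pvthSeed ε)) (pvl3Cf o) := by
    intro o
    by_cases ho : pvl3Cf o ∈ B
    · rw [indicator_of_mem ho, indicator_of_mem ho]
      obtain ⟨υ, ι, _, _, S, Bs, q, T, hwf, hfr, hσ, hC, hFs, hDq, hle, hT⟩ := hφ _ ho
      have hT' : ∀ ω ∈ Bs, ω ∈ S.Ev → T ω ≤ Θ' ω := by
        intro ω hB hE
        by_cases hω : ω ∈ N'
        · simp [hΘ', indicator_of_mem hω]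
        · have a1 : ω ∉ N := fun hc => hω (hsub (Or.inl hc))
          have a2 : Θ ω = hΘ.mk Θ ω := by
            by_contra hc
            exact hω (hsub (Or.inr hc))
          simp only [hΘ', indicator_of_notMem hω, add_zero, ← a2]
          exact hT ω hB hE a1
      have h2 := pvl3_dom_pt hwf hfr (ne_top_of_le_ne_top hD hDq) hT' hσ
      have e : ∀ x, pvthR S.C S.Fs (pvl3Cf o) x = pvthR C F (pvl3Cf o) x := by
        intro x
        unfold pvthR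
        rw [hC, hFs]
      simp only [e] at h2 hle
      exact hle.trans (h2.trans (by gcongr))
    · rw [indicator_of_notMem ho, indicator_of_notMem ho, mul_zero]
  calc _ ≤ (pvl3U0 ε).E (fun o => D * B.indicator (fun σ => ∫⁻ x, Θ' (pvthR C F σ x) ∂(pvthSeed ε)) (pvl3Cf o)) := (pvl3U0 ε).mono h1
    _ ≤ D * (pvl3U0 ε).E (fun o => B.indicator (fun σ => ∫⁻ x, Θ' (pvthR C F σ x) ∂(pvthSeed ε)) (pvl3Cf o)) := (pvl3U0 ε).smul_le _ _ hD
    _ ≤ D * ∫⁻ ω, Θ' ω ∂(pvP ε) := by gcongr; exact pvl3_inv_up hε hS hm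
    _ = _ := by rw [hint]

/-- BASE-INDEXED END LINKS: the last argument is the base configuration (only its frozen positions are read) -/
structure Pvl3Lk (τ : Type) where
  out : ℕ → ℝ → ℂ → τ → Conf PvPt → Pvl3End
  inn : ℕ → ℝ → ℂ → τ → Conf PvPt → Pvl3End
  thI : ℕ → ℝ → ℂ → τ → Conf PvPt → Pvl3End
  thO : ℕ → ℝ → ℂ → τ → Conf PvPt → Pvl3End

/-- the record whose end links are those of the base `σ` -/
def Pvl3Exp.on {τ : Type} {δ : ℕ → ℝ} (E : Pvl3Exp τ δ) (L : Pvl3Lk τ) (σ : Conf PvPt) : Pvl3Exp τ δ :=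
  { E with
    out := fun m ε z t => L.out m ε z t σ
    inn := fun m ε z t => L.inn m ε z t σ
    thI := fun m ε z t => L.thI m ε z t σ
    thO := fun m ε z t => L.thO m ε z t σ }

/-- `kout`, `kin`, `ke` of a base-indexed experiment (DIAGONAL: the experiment of the base `σ`, evaluated at `σ`) -/
noncomputable def Pvl3Exp.koutD {τ : Type} {δ : ℕ → ℝ} (E : Pvl3Exp τ δ) (L : Pvl3Lk τ) (m : ℕ) (ε : ℝ) (a z : ℂ) (t : τ) (σ : Conf PvPt) : ℂ := (E.on L σ).kout m ε a z t σ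
noncomputable def Pvl3Exp.kinD {τ : Type} {δ : ℕ → ℝ} (E : Pvl3Exp τ δ) (L : Pvl3Lk τ) (m : ℕ) (ε : ℝ) (a z : ℂ) (t : τ) (σ : Conf PvPt) : ℂ := (E.on L σ).kin m ε a z t σ
noncomputable def Pvl3Exp.keD {τ : Type} {δ : ℕ → ℝ} (E : Pvl3Exp τ δ) (L : Pvl3Lk τ) (m : ℕ) (ε : ℝ) (a z : ℂ) (t : τ) (σ : Conf PvPt) : ℂ := (E.on L σ).ke m ε a z t σ

section fam

variable {τ : Type} {δ : ℕ → ℝ} (E : Pvl3Exp τ δ) (L : Pvl3Lk τ)

/-- the hypotheses on the BASE-INDEXED `Σ₁` cycle at one mesh.      `B` = usable states;  `Bs σ` = the class of the base `σ` (same frozen data), stable under the atoms of the experiment of `σ`;  `C` = the resampled region. -/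
structure Pvl3CycOkF (a : ℂ) (m : ℕ) (ε : ℝ) (z : ℂ) (t : τ) (B : Set (Conf PvPt)) (Bs : Conf PvPt → Set (Conf PvPt)) (C : Set ℂ)
    (frz : Conf PvPt → Finset ℂ) (Θ : Conf PvPt → ℝ≥0∞) (D : ℝ≥0∞) : Prop where
  hk : (E.cells.kit m ε).WF
  hQ : (E.cells.kit m ε).Fld (E.cells.XQ m ε)
  hV : (E.cells.kit m ε).Fld (E.cells.XV m ε)
  rA : Conf.Reads ((E.Kr m ε ∪ pvl3Door (E.cells.kit m ε) (E.Γ m).pin0 (E.Γ m).din0 ∪ E.Ou m ε) ×ˢ (univ : Set Bool)) (fun η => η ∈ E.Ar m ε)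
  rX : Conf.Reads ((E.Kr m ε ∪ pvl3Door (E.cells.kit m ε) (E.Γ m).pin0 (E.Γ m).din0 ∪ E.Ou m ε) ×ˢ (univ : Set Bool)) (E.Xr m ε a)
  mAr : MeasurableSet (E.Ar m ε)
  mXr : Measurable (E.Xr m ε a)
  mem : ∀ σ ∈ B, σ ∈ Bs σ
  reg : ∀ σ ∈ B, ((E.on L σ).cycSys m ε z t).C = C
  wf : ∀ σ ∈ B, ((E.on L σ).cycSys m ε z t).WF (Bs σ)
  frc : ∀ σ ∈ B, ∃ q, ((E.on L σ).cycSys m ε z t).Forced ε (Bs σ) q ∧ ((E.on L σ).cycSys m ε z t).D ε q ≤ D
  fld : ∀ σ ∈ B, ((E.on L σ).cycSys m ε z t).Fld (Bs σ) ((E.on L σ).cycX m ε a z t)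
  hint : ∀ σ ∈ B, ∀ e, ∫⁻ x, ‖(E.on L σ).cycX m ε a z t e (pvthR (((E.on L σ).cycSys m ε z t).Ce e) (((E.on L σ).cycSys m ε z t).F e) σ x)‖ₑ ^ 2 *
      ((E.on L σ).cycSys m ε z t).w2 ε e (pvthR (((E.on L σ).cycSys m ε z t).Ce e) (((E.on L σ).cycSys m ε z t).F e) σ x) ∂(pvthSeed ε) ≠ ∞
  /-- the DIAGONAL fresh set is a colour stopping set -/
  stop : Pvl3Stop B C (fun σ => ((E.on L σ).cycSys m ε z t).Fs σ) frz
  mΘ : AEMeasurable Θ (pvP ε)
  /-- (C2) CLOSING for the pure cycle, at almost every configuration, for all bases at once -/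
  dom : ∀ᵐ ω ∂(pvP ε), ∀ σ ∈ B, ω ∈ Bs σ → ω ∈ ((E.on L σ).cycSys m ε z t).Ev → ‖∑ e, (E.on L σ).cycX m ε a z t e ω‖ₑ ^ 2 ≤ Θ ω

theorem pvl3_cyc_le_fam {a : ℂ} {m : ℕ} {ε : ℝ} (hε : 0 < ε) {z : ℂ} {t : τ} {B : Set (Conf PvPt)} {Bs : Conf PvPt → Set (Conf PvPt)} {C : Set ℂ}
    {frz : Conf PvPt → Finset ℂ} {Θ : Conf PvPt → ℝ≥0∞} {D : ℝ≥0∞} (hD : D ≠ ∞) (H : Pvl3CycOkF E L a m ε z t B Bs C frz Θ D) :
    (pvl3U0 ε).E ((pvl3Cf ⁻¹' B).indicator fun o =>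
      ‖E.koutD L m ε a z t (pvl3Cf o) + pvtSum (E.W m ε a) ((E.Γ m).dout t) ((E.Γ m).l1 t) + E.kin0 m ε a + E.keD L m ε a z t (pvl3Cf o)‖ₑ ^ 2)
      ≤ D * ∫⁻ ω, Θ ω ∂(pvP ε) := by
  have h1 := pvl3_dom_fam hε H.stop (φ := fun σ => ‖(E.on L σ).cycHat m ε a z t σ‖ₑ ^ 2) H.mΘ hD (N := {ω | ¬ ∀ σ ∈ B, ω ∈ Bs σ →
      ω ∈ ((E.on L σ).cycSys m ε z t).Ev → ‖∑ e, (E.on L σ).cycX m ε a z t e ω‖ₑ ^ 2 ≤ Θ ω}) H.dom
    (fun σ hσ => by
      obtain ⟨q, hq, hqD⟩ := H.frc σ hσ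
      refine ⟨_, _, inferInstance, inferInstance, (E.on L σ).cycSys m ε z t, Bs σ, q, fun ω => ‖∑ e, (E.on L σ).cycX m ε a z t e ω‖ₑ ^ 2,
        H.wf σ hσ, hq, H.mem σ hσ, H.reg σ hσ, rfl, hqD, ?_, ?_⟩
      · have := pvl3_jensen (H.wf σ hσ) hq (H.fld σ hσ) (H.mem σ hσ) 0
        simpa [Pvl3Exp.cycHat] using this
      · intro ω hB hE hN
        exact (not_not.1 hN) σ hσ hB hE)
  refine le_trans ((pvl3U0 ε).mono fun o => ?_) h1
  by_cases ho : pvl3Cf o ∈ B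
  · rw [indicator_of_mem (show o ∈ pvl3Cf ⁻¹' B from ho), indicator_of_mem ho]
    obtain ⟨q, hq, -⟩ := H.frc _ ho
    rw [pvl3_tr2_cyc (E.on L (pvl3Cf o)) a z t H.hk H.hQ H.hV H.rA H.rX H.mAr H.mXr (H.wf _ ho) hq (H.fld _ ho) (H.mem _ ho) (H.hint _ ho)]
    exact le_rfl
  · rw [indicator_of_notMem (show o ∉ pvl3Cf ⁻¹' B from ho), indicator_of_notMem ho]

/-- **FIELD `cyc1`, U-FORM, BASE-INDEXED** -/
theorem pvl3_cyc1_fam (a : ℂ) (m : ℕ) (z : ℂ) (t : τ) (B : ℝ → Set (Conf PvPt)) (Bs : ℝ → Conf PvPt → Set (Conf PvPt)) (C : ℝ → Set ℂ)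
    (frz : ℝ → Conf PvPt → Finset ℂ) (Θ : ℝ → Conf PvPt → ℝ≥0∞) (D : ℝ≥0∞) (hD : D ≠ ∞)
    (hok : ∀ᶠ ε in 𝓝[>] (0 : ℝ), Pvl3CycOkF E L a m ε z t (B ε) (Bs ε) (C ε) (frz ε) (Θ ε) D)
    (htail : Tendsto (fun ε => ∫⁻ ω, Θ ε ω ∂(pvP ε)) (𝓝[>] (0 : ℝ)) (𝓝 0)) :
    Tendsto (fun ε => (pvl3U0 ε).E ((pvl3Cf ⁻¹' B ε).indicator fun o =>
      ‖E.koutD L m ε a z t (pvl3Cf o) + pvtSum (E.W m ε a) ((E.Γ m).dout t) ((E.Γ m).l1 t) + E.kin0 m ε a + E.keD L m ε a z t (pvl3Cf o)‖ₑ ^ 2)) (𝓝[>] (0 : ℝ)) (𝓝 0) := by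
  have h0 : Tendsto (fun ε => D * ∫⁻ ω, Θ ε ω ∂(pvP ε)) (𝓝[>] (0 : ℝ)) (𝓝 0) := by
    have := ENNReal.Tendsto.const_mul htail (Or.inr hD)
    rwa [mul_zero] at this
  refine tendsto_of_tendsto_of_tendsto_of_le_of_le' tendsto_const_nhds h0 (Eventually.of_forall fun _ => zero_le) ?_
  filter_upwards [hok, self_mem_nhdsWithin] with ε h1 h3
  exact pvl3_cyc_le_fam E L h3 hD h1

/-- the hypotheses on the BASE-INDEXED Bessel cycle at one mesh -/
structure Pvl3ThkOkF (a : ℂ) (m : ℕ) (ε : ℝ) (z : ℂ) (t : τ) (B : Set (Conf PvPt)) (Bs : Conf PvPt → Set (Conf PvPt)) (C : Set ℂ)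
    (frz : Conf PvPt → Finset ℂ) (Θ : Conf PvPt → ℝ≥0∞) (D : ℝ≥0∞) : Prop where
  mem : ∀ σ ∈ B, σ ∈ Bs σ
  reg : ∀ σ ∈ B, ((E.on L σ).thkSys m ε z t).C = C
  wf : ∀ σ ∈ B, ((E.on L σ).thkSys m ε z t).WF (Bs σ)
  frc : ∀ σ ∈ B, ∃ q, ((E.on L σ).thkSys m ε z t).Forced ε (Bs σ) q ∧ ((E.on L σ).thkSys m ε z t).D ε q ≤ D
  fld : ∀ σ ∈ B, ((E.on L σ).thkSys m ε z t).Fld (Bs σ) ((E.on L σ).thkX m ε a z t)
  stop : Pvl3Stop B C (fun σ => ((E.on L σ).thkSys m ε z t).Fs σ) frz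
  mΘ : AEMeasurable Θ (pvP ε)
  /-- RECOGNITION (TR13 + TR14), at almost every configuration, for all bases at once -/
  dom : ∀ᵐ ω ∂(pvP ε), ∀ σ ∈ B, ω ∈ Bs σ → ω ∈ ((E.on L σ).thkSys m ε z t).Ev → ‖(L.thI m ε z t σ).X a ω‖ₑ ^ 2 ≤ Θ ω

/-- **FIELD `thick`, U-FORM, BASE-INDEXED**, one mesh -/
theorem pvl3_thick_le_fam {a : ℂ} {m : ℕ} {ε : ℝ} (hε : 0 < ε) {z : ℂ} {t : τ} {B : Set (Conf PvPt)} {Bs : Conf PvPt → Set (Conf PvPt)} {C : Set ℂ}
    {frz : Conf PvPt → Finset ℂ} {Θ : Conf PvPt → ℝ≥0∞} {D : ℝ≥0∞} (hD : D ≠ ∞) (H : Pvl3ThkOkF E L a m ε z t B Bs C frz Θ D) :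
    (pvl3U0 ε).E ((pvl3Cf ⁻¹' B).indicator fun o => ‖E.keD L m ε a z t (pvl3Cf o)‖ₑ ^ 2) ≤ D * ∫⁻ ω, Θ ω ∂(pvP ε) := by
  have h1 := pvl3_dom_fam hε H.stop (φ := fun σ => ‖E.keD L m ε a z t σ‖ₑ ^ 2) H.mΘ hD (N := {ω | ¬ ∀ σ ∈ B, ω ∈ Bs σ →
      ω ∈ ((E.on L σ).thkSys m ε z t).Ev → ‖(L.thI m ε z t σ).X a ω‖ₑ ^ 2 ≤ Θ ω}) H.dom
    (fun σ hσ => by
      obtain ⟨q, hq, hqD⟩ := H.frc σ hσ
      refine ⟨_, _, inferInstance, inferInstance, (E.on L σ).thkSys m ε z t, Bs σ, q, fun ω => ‖(L.thI m ε z t σ).X a ω‖ₑ ^ 2,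
        H.wf σ hσ, hq, H.mem σ hσ, H.reg σ hσ, rfl, hqD, ?_, ?_⟩
      · have := pvl3_link_sq (H.wf σ hσ) hq (H.fld σ hσ) (H.mem σ hσ) true
        rw [pvl3_ke_eq] at this
        simpa [Pvl3Exp.thkX, Pvl3Exp.keD, Pvl3Exp.on] using this
      · intro ω hB hE hN
        exact (not_not.1 hN) σ hσ hB hE)
  refine le_trans ((pvl3U0 ε).mono fun o => ?_) h1
  by_cases ho : pvl3Cf o ∈ B
  · rw [indicator_of_mem (show o ∈ pvl3Cf ⁻¹' B from ho), indicator_of_mem ho]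
  · rw [indicator_of_notMem (show o ∉ pvl3Cf ⁻¹' B from ho), indicator_of_notMem ho]

end fam

theorem pvl3_eqns_cite : True := by
  have := @pvl3P.eq_1; have := @pvl3V.eq_1; have := @pvl3Hat.eq_1; have := @Pvl3Ig.eq_1.{0}; have := @pvl3F0.eq_1
  have := @Pvl3Sys.g.eq_1; have := @Pvl3Sys.v.eq_1; have := @Pvl3Sys.w2.eq_1; have := @Pvl3Sys.Wt.eq_1; have := @Pvl3Sys.Ev.eq_1; have := @Pvl3Sys.C.eq_1; have := @Pvl3Sys.Fs.eq_1
  have := @Pvl3Sys.Ce.eq_1; have := @Pvl3Sys.k.eq_1; have := @Pvl3Sys.hat.eq_1; have := @Pvl3Sys.D.eq_1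
  have := @pvl3Cf.eq_1; have := @pvl3U0.eq_1; have := @pvl3K1.eq_1; have := @pvl3K2.eq_1; have := @Pvl3End.X.eq_1; have := @pvl3Door.eq_1; have := @Pvl3Cells.W.eq_1; have := @PvcnFam.cells.eq_1
  have := @Pvl3Exp.X₀.eq_1; have := @Pvl3Exp.Xr.eq_1; have := @Pvl3Exp.W.eq_1; have := @Pvl3Exp.kin0.eq_1; have := @Pvl3Exp.kout.eq_1; have := @Pvl3Exp.kin.eq_1; have := @Pvl3Exp.ke.eq_1
  have := @Pvl3Exp.patSys.eq_1; have := @Pvl3Exp.patX.eq_1; have := @Pvl3Exp.patHat.eq_1; have := @Pvl3Exp.cycSys.eq_1; have := @Pvl3Exp.cycX.eq_1; have := @Pvl3Exp.cycHat.eq_1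
  have := @Pvl3Exp.thkSys.eq_1; have := @Pvl3Exp.thkX.eq_1; have := @Pvl3Exp.on.eq_1; have := @Pvl3Exp.koutD.eq_1; have := @Pvl3Exp.kinD.eq_1; have := @Pvl3Exp.keD.eq_1
  trivial

end Claimed.Agent.R289
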