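-- KEEP
import Claimed.Agent.R289.Tr.CycC2
import Claimed.Agent.R289.Tr.Top

/-!
# Row 289 (S0537), THE WALL, ROAD E, file Tr/CycC2T : THE FIELDS `mΘ dom` OF `Pvl3CycOkF` (129, `Tr/Top` sec. 6) FROM THE DETERMINISTIC CLOSING      (helper48; prefix `pvcy2_`, `Pvcy2`)

* `Pvcy2At ω n Xo Xc Xr Xe Bx c` = WHAT MUST HOLD AT `ω` ON THE SUCCESS EVENT OF THE `Σ₁` CYCLE, in the plane map of `ω` itself (twin of `PvkiAt` of 244 for the hexagon loop): `n + 3` plugs, `n + 3` links, `Pvcy2Cyc` + `Pvcy2Own` (`Tr/CycC2`), box, diameter, the four kinds of values.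
* **`Pvcy2At.le`** : `‖Xo + ∑ Xc + Xr + Xe‖ₑ² ≤ pvclSum ω Bx c`.      `pvcy2_cycX_sum` : the sum over `Fin (n + 3)` of `cycX`, link by link.
* **`pvcy2_dom`** : `Pvcy2At` a.e. on the success event, for all bases  ⟹  the field `dom` VERBATIM with `Θ := fun ω => pvclSum ω Bx c`;   `mΘ := pvcl_sum_aem ε hBm c`,   `tail := pvcl_closed hB hc` (104).
WHO OWES `Pvcy2At` AT THE MODEL: soft = plain a.s. (R20 (4)) + KDICT (244 251) + covariance (246) give the states, the runs and the values;   heads = 264 (`Tr/CycC2B`);   ownership = `Pvcy2Rm.own` + the regions of W-7.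
-/

set_option autoImplicit false

namespace Claimed.Agent.R289

open Set MeasureTheory
open scoped ENNReal

/-- **WHAT MUST HOLD AT `ω` ON THE SUCCESS EVENT OF THE `Σ₁` CYCLE** (`n` cells): `n + 3` plugs (`0` = the candidate `t`, `j + 1` = door `j ≤ n`, `n + 2` = the reference plug) and `n + 3` links (`0` = first link, `j + 1` = cell `j < n`, `n + 1` = thin link into the reference plug,
`n + 2` = thick link) IN THE PLANE MAP OF `ω`, closed (`Pvcy2Cyc`), every tag owned once (`Pvcy2Own`), inside `Bx`, two gates `c` apart;   `Xo Xc Xr Xe` = the values of the links -/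
structure Pvcy2At (ω : Conf PvPt) (n : ℕ) (Xo : ℂ) (Xc : ℕ → ℂ) (Xr Xe : ℂ) (Bx : Set ℂ) (c : ℝ) : Prop where
  good : DelGood (cfSites ω)
  ex : ∃ (s : ↥(cfSites ω) → Bool) (𝔖 : ℕ → PvwSt (pvkiT ω)) (y : ℕ → (pvkiT ω).Pth) (M Bc : ℕ → Set ℂ) (dr : ℕ → Bool),
    (s = pvkiS ω ∨ s = pvasNot (pvkiS ω)) ∧ Pvcy2Cyc (pvkiT ω) s (n + 3) 𝔖 y ∧ Pvcy2Own (pvkiT ω) Subtype.val (n + 3) 𝔖 y M Bc dr ∧
    (∀ j, j < n + 3 → ∀ v ∈ (𝔖 j).inn.verts, (v : ℂ) ∈ Bx) ∧ (∀ j, j < n + 3 → ∀ v ∈ (y j).verts, (v : ℂ) ∈ Bx) ∧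
    (∃ i j, i < n + 3 ∧ j < n + 3 ∧ (𝔖 i).gp ≠ (𝔖 i).gm ∧ (𝔖 j).gp ≠ (𝔖 j).gm ∧ c ≤ ‖(((𝔖 i).gp : ↥(cfSites ω)) : ℂ) - (((𝔖 j).gp : ↥(cfSites ω)) : ℂ)‖) ∧
    Xo = pvcy2ValM (pvkiT ω) Subtype.val ((pvkiT ω).qpart Subtype.val) (M 0) (Bc 0) (dr 0) (dr 1) (𝔖 0) (𝔖 1) (y 0) ∧
    (∀ j, j < n → Xc j = pvcy2ValM (pvkiT ω) Subtype.val ((pvkiT ω).qpart Subtype.val) (M (j + 1)) (Bc (j + 1)) (dr (j + 1)) (dr (j + 1 + 1)) (𝔖 (j + 1)) (𝔖 (j + 1 + 1)) (y (j + 1))) ∧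
    Xr = pvcy2ValM (pvkiT ω) Subtype.val ((pvkiT ω).qpart Subtype.val) (M (n + 1)) (Bc (n + 1)) (dr (n + 1)) (dr (n + 1 + 1)) (𝔖 (n + 1)) (𝔖 (n + 1 + 1)) (y (n + 1)) ∧
    Xe = pvcy2ValM (pvkiT ω) Subtype.val ((pvkiT ω).qpart Subtype.val) (M (n + 2)) (Bc (n + 2)) (dr (n + 2)) (dr (n + 2 + 1)) (𝔖 (n + 2)) (𝔖 (n + 2 + 1)) (y (n + 2))

/-- the sum of the values of the `Σ₁` cycle is bounded by the closed sum -/
theorem Pvcy2At.le {ω : Conf PvPt} {n : ℕ} {Xo : ℂ} {Xc : ℕ → ℂ} {Xr Xe : ℂ} {Bx : Set ℂ} {c : ℝ} (H : Pvcy2At ω n Xo Xc Xr Xe Bx c) (hB : Bornology.IsBounded Bx) :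
    ‖Xo + ∑ j ∈ Finset.range n, Xc j + Xr + Xe‖ₑ ^ 2 ≤ pvclSum ω Bx c := by
  obtain ⟨s, 𝔖, y, M, Bc, dr, hs, hC, hO, hi, hy, hbig, e0, e1, e2, e3⟩ := H.ex
  have h := pvcy2_cycM_le_sum H.good hs hC hO hB hi hy hbig
  rw [Finset.sum_range_succ, Finset.sum_range_succ, Finset.sum_range_succ', ← e0, ← e2, ← e3, ← Finset.sum_congr rfl fun j hj => e1 j (Finset.mem_range.1 hj)] at h
  rwa [add_comm Xo]

section top

variable {τ : Type} {δ : ℕ → ℝ} (E : Pvl3Exp τ δ)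

/-- the sum of the field of the `Σ₁` cycle, link by link -/
theorem pvcy2_cycX_sum (m : ℕ) (ε : ℝ) (a z : ℂ) (t : τ) (ω : Conf PvPt) :
    ∑ e, E.cycX m ε a z t e ω = (E.out m ε z t).X a ω +
      ∑ j ∈ Finset.range ((E.Γ m).l1 t).length, (E.cells.kit m ε).Xj (E.X₀ m ε a) (z + (E.Γ m).pout t) ((E.Γ m).dout t) ((E.Γ m).l1 t) j ω +
      E.Xr m ε a (cfMap (pvthInv (z + (E.Γ m).zu t) 1) ω) + (E.thI m ε z t).X a ω := by
  unfold Pvl3Exp.cycX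
  rw [Fin.sum_univ_eq_sum_range (fun e => (if e = 0 then (E.out m ε z t).X a else if e ≤ ((E.Γ m).l1 t).length then
    (E.cells.kit m ε).Xj (E.X₀ m ε a) (z + (E.Γ m).pout t) ((E.Γ m).dout t) ((E.Γ m).l1 t) (e - 1)
  else if e = ((E.Γ m).l1 t).length + 1 then fun ω => E.Xr m ε a (cfMap (pvthInv (z + (E.Γ m).zu t) 1) ω) else (E.thI m ε z t).X a) ω) (((E.Γ m).l1 t).length + 3)]
  rw [Finset.sum_range_succ, Finset.sum_range_succ, Finset.sum_range_succ']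
  have h1 : ∀ j ∈ Finset.range ((E.Γ m).l1 t).length, (if j + 1 = 0 then (E.out m ε z t).X a else if j + 1 ≤ ((E.Γ m).l1 t).length then
      (E.cells.kit m ε).Xj (E.X₀ m ε a) (z + (E.Γ m).pout t) ((E.Γ m).dout t) ((E.Γ m).l1 t) (j + 1 - 1)
    else if j + 1 = ((E.Γ m).l1 t).length + 1 then fun ω => E.Xr m ε a (cfMap (pvthInv (z + (E.Γ m).zu t) 1) ω) else (E.thI m ε z t).X a) ω
      = (E.cells.kit m ε).Xj (E.X₀ m ε a) (z + (E.Γ m).pout t) ((E.Γ m).dout t) ((E.Γ m).l1 t) j ω := by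
    intro j hj
    have hj' := Finset.mem_range.1 hj
    rw [if_neg (by omega), if_pos (by omega), Nat.add_sub_cancel]
  rw [Finset.sum_congr rfl h1, if_pos rfl, if_neg (by omega), if_neg (by omega), if_pos rfl, if_neg (by omega), if_neg (by omega), if_neg (by omega)]
  ring

variable (L : Pvl3Lk τ)

/-- **THE FIELDS `mΘ`, `dom` OF `Pvl3CycOkF`** (129, `Tr/Top` sec. 6) with `Θ := pvclSum · Bx c`, from the deterministic record a.e. on the success event -/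
theorem pvcy2_dom {a : ℂ} {m : ℕ} {ε : ℝ} {z : ℂ} {t : τ} {B : Set (Conf PvPt)} {Bs : Conf PvPt → Set (Conf PvPt)} {Bx : Set ℂ} {c : ℝ} (hB : Bornology.IsBounded Bx)
    (h : ∀ᵐ ω ∂(pvP ε), ∀ σ ∈ B, ω ∈ Bs σ → ω ∈ ((E.on L σ).cycSys m ε z t).Ev →
      Pvcy2At ω ((E.Γ m).l1 t).length ((L.out m ε z t σ).X a ω) (fun j => (E.cells.kit m ε).Xj (E.X₀ m ε a) (z + (E.Γ m).pout t) ((E.Γ m).dout t) ((E.Γ m).l1 t) j ω)
        (E.Xr m ε a (cfMap (pvthInv (z + (E.Γ m).zu t) 1) ω)) ((L.thI m ε z t σ).X a ω) Bx c) :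
    ∀ᵐ ω ∂(pvP ε), ∀ σ ∈ B, ω ∈ Bs σ → ω ∈ ((E.on L σ).cycSys m ε z t).Ev → ‖∑ e, (E.on L σ).cycX m ε a z t e ω‖ₑ ^ 2 ≤ pvclSum ω Bx c := by
  filter_upwards [h] with ω hω σ hσ h1 h2
  rw [pvcy2_cycX_sum]
  exact (hω σ hσ h1 h2).le hB

end top

end Claimed.Agent.R289
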