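import Claimed.Agent.R289.Tr.GateN
import Claimed.Agent.R289.Tr.CellRec
import Claimed.Agent.R289.Tr.LocalF
import Claimed.Agent.R289.Tr.KitI

/-!
# Row 289 (S0537, Cardy for Poisson-Voronoi), THE WALL, file Tr/CloseM : THE GENERIC MIXED CLOSE      (helper95; prefix `pvcm_`, `pvcm`, `Pvcm`)

WHY.   A cycle (or a pattern) of the wall is a MIXED list of connectors: funnels and thick links next to a big plug, cells of the kit of 34, links between kit plugs of two scales.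
`pvgz_ring` of 260 (`Tr/GateN` sec. 9, proved) closes ANY chain of `n` gates, inner arcs and links of one map; `PvcqRing` of 52 (`Tr/CellRec` sec. 7) is what I.TAIL / I.BES consume (`Tr/CycP`).      This file is the bridge, once for all kinds of connectors.
CONVENTION = THE MASK FORM OF 34: the field of the connector `j : plug j → plug (j+1)` is the mass IN THE DETERMINISTIC MASK `Mk j` of the tags of (inner arc of `j`, link `j`, inner arc of `j + 1`).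

* sec. 1  model free: `pvcm_mask_sum` : on a ring, a weight which vanishes off the mask `j₀` sees the three pieces of the connector `j₀` only.
* sec. 2  colours: `Tag`, `SameLab`, `lsum` do not see the exchange of the colours.
* sec. 3  **`pvcm_at`** : at a configuration with `DelGood`: a ring of the Delaunay plane + masks + positions  ⟹  the clause of `PvcqRing` (raw tag `x`, `pvclIn`, `pvclBig`, cover, `X j = pvbeLab pvqWQ 1_{Mk j} η x`).
* sec. 4  **`PvcmRing ε n Ev X Mk B a₀`** (a.s. form, map `(delbPl (cfSites η)).toMap = pvkiT η = pvieT η = pvmoT _`), **`PvcmRing.toRing : PvcqRing ..`**.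
* sec. 5  **`pvcm_rg_at`** : the same clause from a closed strand cut into pieces (`PvkiRg` of 244), EITHER COLOUR;   **`pvcm_at_of_cell`** = `pvki_at_of_cell` of 244 WITHOUT CONVEXITY, EITHER COLOUR:
          `PvkiCell` (gates, runs `PvldRun`, rooms `Y`, zones `Q`) + "the barycentres of the faces crossed by the run `j` lie in `Mk j`, of those crossed by the inner strand of the gate `j + 1` in `Mk j ∪ Mk (j + 1)`".
* sec. 6  **`pvcm_glue`** : `n` connector facts between plugs whose gate of record is UNIQUE  ⟹  one coherent family of gates.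
* sec. 7  **`pvcm_close`** : THE MIXED CLOSE, a.s. form: per plug facts + per connector facts  ⟹  `PvcqRing`.
-/

set_option autoImplicit false

namespace Claimed.Agent.R289

open MeasureTheory Filter Topology Set Claims.C0465
open scoped ENNReal

/-! ## 1. model free -/

section abs

variable {V D : Type} {T : PvMap V D} {s : V → Bool} {n : ℕ} {g : ℕ → T.Gate s} {inn lk : ℕ → T.Pth}

/-- a path sum of a weight which vanishes on all the tags of the path -/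
theorem pvcm_psum_zero {p : T.Pth} {w : D → ℂ} (h : ∀ i, i < p.n → w (T.opp (p.e i)) = 0) : p.psum w = 0 :=
  Finset.sum_eq_zero fun i hi => h i (Finset.mem_range.1 hi)

/-- **ON A RING A WEIGHT WHICH VANISHES OFF THE MASK `j₀` SEES THE THREE PIECES OF THE CONNECTOR `j₀` ONLY**.      `M j d` = "the tag `d` lies in the mask `j`". -/
theorem pvcm_mask_sum (hT : T.IsSph) (hS : T.Simple) (H : PvgzRing T s n g inn lk) (hn : 2 ≤ n) (hper : inn n = inn 0)
    {M : ℕ → D → Prop} (hMper : M n = M 0) (hd : ∀ i, i < n → ∀ j, j < n → i ≠ j → ∀ d, M i d → ¬ M j d)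
    (hlk : ∀ j, j < n → ∀ i, i < (lk j).n → M j (T.opp ((lk j).e i)))
    (hinn : ∀ j, j < n → ∀ i, i < (inn (j + 1)).n → M j (T.opp ((inn (j + 1)).e i)) ∨ M (j + 1) (T.opp ((inn (j + 1)).e i)))
    {w : D → ℂ} {j₀ : ℕ} (hj₀ : j₀ < n) (hw : ∀ d, ¬ M j₀ d → w d = 0) :
    T.lsum s w (T.opp ((inn 0).e 0)) = (inn j₀).psum w + (lk j₀).psum w + (inn (j₀ + 1)).psum w := by
  rw [(pvgz_ring hT hS H).2.2 w, Finset.sum_add_distrib]
  -- the links
  have e1 : ∑ j ∈ Finset.range n, (lk j).psum w = (lk j₀).psum w := by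
    refine Finset.sum_eq_single_of_mem j₀ (Finset.mem_range.2 hj₀) fun j hj hne => ?_
    exact pvcm_psum_zero fun i hi => hw _ (hd j (Finset.mem_range.1 hj) j₀ hj₀ hne _ (hlk j (Finset.mem_range.1 hj) i hi))
  -- the inner arcs, shifted by one
  have e2 : ∑ j ∈ Finset.range n, (inn j).psum w = ∑ j ∈ Finset.range n, (inn (j + 1)).psum w := by
    have h1 := Finset.sum_range_succ (fun j => (inn j).psum w) n
    have h2 := Finset.sum_range_succ' (fun j => (inn j).psum w) n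
    rw [h1, hper] at h2
    exact add_right_cancel h2
  obtain ⟨p, hp, hpj, hpe⟩ : ∃ p, p < n ∧ p ≠ j₀ ∧ inn (p + 1) = inn j₀ ∧ ∀ c, c < n → c ≠ p → (c + 1 < n → c + 1 ≠ j₀) ∧ (c + 1 = n → j₀ ≠ 0) := by
    rcases Nat.eq_zero_or_pos j₀ with h0 | h0
    · refine ⟨n - 1, by omega, by omega, ?_, fun c hc hne => ⟨fun _ => by omega, fun _ => by omega⟩⟩
      rw [show n - 1 + 1 = n by omega, hper, h0]
    · refine ⟨j₀ - 1, by omega, by omega, ?_, fun c hc hne => ⟨fun _ => by omega, fun _ => by omega⟩⟩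
      rw [show j₀ - 1 + 1 = j₀ by omega]
  have e3 : ∑ j ∈ Finset.range n, (inn (j + 1)).psum w = (inn (p + 1)).psum w + (inn (j₀ + 1)).psum w := by
    refine Finset.sum_eq_add_of_mem p j₀ (Finset.mem_range.2 hp) (Finset.mem_range.2 hj₀) hpj fun c hc hne => ?_
    have hc' := Finset.mem_range.1 hc
    refine pvcm_psum_zero fun i hi => hw _ ?_
    rcases hinn c hc' i hi with h1 | h1
    · exact hd c hc' j₀ hj₀ hne.2 _ h1
    · rcases Nat.lt_or_ge (c + 1) n with h2 | h2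
      · exact hd (c + 1) h2 j₀ hj₀ ((hpe.2 c hc' hne.1).1 h2) _ h1
      · have h3 : c + 1 = n := by omega
        have h4 : M 0 (T.opp ((inn (c + 1)).e i)) := by
          have e : M (c + 1) = M 0 := by rw [h3, hMper]
          rwa [e] at h1
        exact hd 0 (by omega) j₀ hj₀ (Ne.symm ((hpe.2 c hc' hne.1).2 h3)) _ h4
  rw [e1, e2, e3, hpe.1]
  ring

end abs

/-! ## 2. colours -/

section col

variable {V D : Type} {T : PvMap V D}

theorem pvcm_tag_fl (b : Bool) (s : V → Bool) : T.Tag (pvlfFl b s) = T.Tag s := by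
  cases b
  · rw [pvlf_fl_false, pvlf_tag_not]
  · rw [pvlf_fl_true]

theorem pvcm_same_fl (b : Bool) (s : V → Bool) : T.SameLab (pvlfFl b s) = T.SameLab s := by
  cases b
  · rw [pvlf_fl_false, pvlf_samelab_not]
  · rw [pvlf_fl_true]

theorem pvcm_lsum_fl (b : Bool) (s : V → Bool) (w : D → ℂ) (d : D) : T.lsum (pvlfFl b s) w d = T.lsum s w d := by
  unfold PvMap.lsum
  rw [pvcm_same_fl]

end col

/-! ## 3. the clause of `PvcqRing` at one configuration -/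

section at_

variable {η : Conf PvPt}

/-- the `Q`-weight in the mask `M` -/
noncomputable def pvcmW (𝔓 : PlTri ↥(cfSites η)) (M : Set ℂ) (d : 𝔓.Dart) : ℂ :=
  M.indicator 1 (𝔓.toMap.bary Subtype.val d) * 𝔓.toMap.qpart Subtype.val d

/-- the field of a connector in THE MASK FORM: the mass in `M` of the tags of (inner arc of the source, link, inner arc of the target) -/
noncomputable def pvcmX (𝔓 : PlTri ↥(cfSites η)) (M : Set ℂ) (p y p' : 𝔓.toMap.Pth) : ℂ :=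
  p.psum (pvcmW 𝔓 M) + y.psum (pvcmW 𝔓 M) + p'.psum (pvcmW 𝔓 M)

theorem pvcm_eqns_cite : True := by
  have := @pvcmW.eq_1; have := @pvcmX.eq_1
  trivial

/-- **WHAT A MIXED CYCLE OWES AT ONE CONFIGURATION**: a ring of the plane map `𝔓.toMap` in the colouring in which `true` = the colour `b`, masks, positions -/
structure PvcmAt (𝔓 : PlTri ↥(cfSites η)) (b : Bool) (n : ℕ) (Mk : ℕ → Set ℂ) (B : Set ℂ) (a₀ : ℝ)
    (g : ℕ → 𝔓.toMap.Gate (pvlfFl b (cfCol η ∘ Subtype.val))) (inn lk : ℕ → 𝔓.toMap.Pth) : Prop where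
  ring : PvgzRing 𝔓.toMap (pvlfFl b (cfCol η ∘ Subtype.val)) n g inn lk
  per : inn n = inn 0
  /-- the tags of the link `j` lie in the mask `j` -/
  mlk : ∀ j, j < n → ∀ i, i < (lk j).n → 𝔓.toMap.bary Subtype.val (𝔓.toMap.opp ((lk j).e i)) ∈ Mk j
  /-- the tags of the inner arc of the plug `j + 1` lie in the masks of the two connectors of this plug -/
  minn : ∀ j, j < n → ∀ i, i < (inn (j + 1)).n → 𝔓.toMap.bary Subtype.val (𝔓.toMap.opp ((inn (j + 1)).e i)) ∈ Mk j ∪ Mk (j + 1)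
  Binn : ∀ j, j < n → ∀ i, i ≤ (inn j).n → (((inn j).v i : ↥(cfSites η)) : ℂ) ∈ B
  Blk : ∀ j, j < n → ∀ i, i ≤ (lk j).n → (((lk j).v i : ↥(cfSites η)) : ℂ) ∈ B
  /-- two plugs are far apart -/
  big : ∃ i j, i < n ∧ j < n ∧ a₀ ≤ ‖(((g i).vp : ↥(cfSites η)) : ℂ) - (((g j).vp : ↥(cfSites η)) : ℂ)‖

/-- **THE CLAUSE OF `PvcqRing`**, map `(delPl h).toMap` -/
theorem pvcm_at_del (h : DelGood (cfSites η)) {b : Bool} {n : ℕ} {Mk : ℕ → Set ℂ} {B : Set ℂ} {a₀ : ℝ}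
    {g : ℕ → (delPl h).toMap.Gate (pvlfFl b (cfCol η ∘ Subtype.val))} {inn lk : ℕ → (delPl h).toMap.Pth} (H : PvcmAt (delPl h) b n Mk B a₀ g inn lk)
    (hn : 2 ≤ n) (hMper : Mk n = Mk 0) (hd : ∀ i < n, ∀ j < n, i ≠ j → Disjoint (Mk i) (Mk j)) :
    ∃ x, pvbeTag η x ∧ pvclIn η B x ∧ pvclBig η a₀ x ∧
      (∀ y, pvqSame (DelTri (cfSites η)) (cfCol η) x y → ∃ j < n, pvqBar (cfSites η) y ∈ Mk j) ∧
      ∀ j < n, pvcmX (delPl h) (Mk j) (inn j) (lk j) (inn (j + 1)) = pvbeLab pvqWQ ((Mk j).indicator 1) η x := by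
  have hT : (delPl h).toMap.IsSph := delp_isSph h
  have hS : (delPl h).toMap.Simple := (delPl h).toMap_simple
  obtain ⟨r1, r2, -⟩ := pvgz_ring hT hS H.ring
  rw [pvcm_tag_fl] at r1
  simp only [pvcm_same_fl] at r2
  set d₀ := (delPl h).toMap.opp ((inn 0).e 0) with hd₀
  -- the inner arc of the plug `j < n` as the inner arc of a plug `j' + 1`
  have hshift : ∀ j, j < n → ∃ j', j' < n ∧ inn (j' + 1) = inn j ∧ (Mk (j' + 1) = Mk j) := by
    intro j hj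
    rcases Nat.eq_zero_or_pos j with h0 | h0
    · exact ⟨n - 1, by omega, by rw [show n - 1 + 1 = n by omega, H.per, h0], by rw [show n - 1 + 1 = n by omega, hMper, h0]⟩
    · exact ⟨j - 1, by omega, by rw [show j - 1 + 1 = j by omega], by rw [show j - 1 + 1 = j by omega]⟩
  refine ⟨pvqCode d₀, (pvq_del_tag h _ d₀).2 r1, fun y hy => ?_, ?_, fun y hy => ?_, fun j hj => ?_⟩
  · obtain ⟨d', rfl, hd'⟩ := (pvq_del_same h _ d₀ y).1 hy
    obtain ⟨j, hj, ⟨i, hi, rfl⟩ | ⟨i, hi, rfl⟩⟩ := (r2 d').1 hd'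
    · have := H.Binn j hj (i + 1) hi
      rw [← (inn j).tgt_e i hi, ← (delPl h).toMap.src_opp' ((inn j).e i)] at this
      exact this
    · have := H.Blk j hj (i + 1) hi
      rw [← (lk j).tgt_e i hi, ← (delPl h).toMap.src_opp' ((lk j).e i)] at this
      exact this
  · obtain ⟨i, j, hi, hj, hij⟩ := H.big
    have key : ∀ j, j < n → ∃ d', (delPl h).toMap.SameLab (cfCol η ∘ Subtype.val) d₀ d' ∧ (pvqCode d').1 = (((g j).vp : ↥(cfSites η)) : ℂ) := by
      intro j hj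
      have hpos := pvgz_psg_pos (g j) (H.ring.hinn j hj).1
      refine ⟨(delPl h).toMap.opp ((inn j).e ((inn j).n - 1)), (r2 _).2 ⟨j, hj, Or.inl ⟨(inn j).n - 1, by omega, rfl⟩⟩, ?_⟩
      have e1 : (delPl h).toMap.src ((delPl h).toMap.opp ((inn j).e ((inn j).n - 1))) = (g j).vp := by
        rw [(delPl h).toMap.src_opp', (inn j).tgt_e _ (by omega), show (inn j).n - 1 + 1 = (inn j).n by omega, (H.ring.hinn j hj).1.h1]
      rw [← e1]
      rfl
    obtain ⟨d1, s1, e1⟩ := key i hi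
    obtain ⟨d2, s2, e2⟩ := key j hj
    exact ⟨pvqCode d1, pvqCode d2, (pvq_del_same' h _ _ _).2 s1, (pvq_del_same' h _ _ _).2 s2, by rw [e1, e2]; exact hij⟩
  · obtain ⟨d', rfl, hd'⟩ := (pvq_del_same h _ d₀ y).1 hy
    rw [pvq_del_bary]
    obtain ⟨j, hj, ⟨i, hi, rfl⟩ | ⟨i, hi, rfl⟩⟩ := (r2 d').1 hd'
    · obtain ⟨j', hj', e1, e2⟩ := hshift j hj
      have := H.minn j' hj' i (by rw [e1]; exact hi)
      rw [e1, e2] at this
      rcases this with h1 | h1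
      · exact ⟨j', hj', h1⟩
      · exact ⟨j, hj, h1⟩
    · exact ⟨j, hj, H.mlk j hj i hi⟩
  · have hsum := pvcm_mask_sum hT hS H.ring hn H.per (M := fun j d => (delPl h).toMap.bary Subtype.val d ∈ Mk j) (by funext d; rw [hMper])
      (fun i hi j hj hij d h1 h2 => Set.disjoint_left.1 (hd i hi j hj hij) h1 h2) H.mlk H.minn (w := pvcmW (delPl h) (Mk j)) hj
      (fun d hd' => by unfold pvcmW; rw [Set.indicator_of_notMem hd', zero_mul])
    rw [pvcm_lsum_fl] at hsum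
    unfold pvcmX
    rw [← hsum, pvbeLab, pvq_del_sum h]
    congr 1
    funext d'
    rw [pvq_del_bary, pvq_del_qpart]
    rfl

/-- **THE CLAUSE OF `PvcqRing`**, any name of the Delaunay plane (`delbPl (cfSites η)` : `delb_pl_eq h`) -/
theorem pvcm_at (h : DelGood (cfSites η)) (𝔓 : PlTri ↥(cfSites η)) (h𝔓 : 𝔓 = delPl h) {b : Bool} {n : ℕ} {Mk : ℕ → Set ℂ} {B : Set ℂ} {a₀ : ℝ}
    {g : ℕ → 𝔓.toMap.Gate (pvlfFl b (cfCol η ∘ Subtype.val))} {inn lk : ℕ → 𝔓.toMap.Pth} (H : PvcmAt 𝔓 b n Mk B a₀ g inn lk)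
    (hn : 2 ≤ n) (hMper : Mk n = Mk 0) (hd : ∀ i < n, ∀ j < n, i ≠ j → Disjoint (Mk i) (Mk j)) :
    ∃ x, pvbeTag η x ∧ pvclIn η B x ∧ pvclBig η a₀ x ∧
      (∀ y, pvqSame (DelTri (cfSites η)) (cfCol η) x y → ∃ j < n, pvqBar (cfSites η) y ∈ Mk j) ∧
      ∀ j < n, pvcmX 𝔓 (Mk j) (inn j) (lk j) (inn (j + 1)) = pvbeLab pvqWQ ((Mk j).indicator 1) η x := by
  subst h𝔓
  exact pvcm_at_del h H hn hMper hd

end at_

/-! ## 4. the almost sure form -/

/-- **THE MIXED RING** : a.s. on `Ev` there is a ring of the Delaunay plane (gates, inner arcs, links; either colour) with the masks `Mk`, inside `B`, two plugs `a₀` apart, and `X j` is the field of the connector `j` in the mask form -/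
def PvcmRing (ε : ℝ) (n : ℕ) (Ev : Set (Conf PvPt)) (X : ℕ → Conf PvPt → ℂ) (Mk : ℕ → Set ℂ) (B : Set ℂ) (a₀ : ℝ) : Prop :=
  ∀ᵐ η ∂(pvP ε), η ∈ Ev → ∃ (b : Bool) (g : ℕ → (delbPl (cfSites η)).toMap.Gate (pvlfFl b (cfCol η ∘ Subtype.val))) (inn lk : ℕ → (delbPl (cfSites η)).toMap.Pth),
    PvcmAt (delbPl (cfSites η)) b n Mk B a₀ g inn lk ∧ ∀ j < n, X j η = pvcmX (delbPl (cfSites η)) (Mk j) (inn j) (lk j) (inn (j + 1))

theorem pvcm_eqns_cite2 : True := by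
  have := @PvcmRing.eq_1
  trivial

/-- **THE MIXED RING IS A RING OF 52** -/
theorem PvcmRing.toRing {ε : ℝ} (hε : 0 < ε) {n : ℕ} {Ev : Set (Conf PvPt)} {X : ℕ → Conf PvPt → ℂ} {Mk : ℕ → Set ℂ} {B : Set ℂ} {a₀ : ℝ}
    (H : PvcmRing ε n Ev X Mk B a₀) (hn : 2 ≤ n) (hMper : Mk n = Mk 0) (hd : ∀ i < n, ∀ j < n, i ≠ j → Disjoint (Mk i) (Mk j)) :
    PvcqRing ε n Ev X Mk B a₀ := by
  filter_upwards [H, pvqf_good_ae ε hε.ne'] with η h1 h2 hη
  obtain ⟨b, g, inn, lk, hA, hX⟩ := h1 hη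
  obtain ⟨x, x1, x2, x3, x4, x5⟩ := pvcm_at h2.del (delbPl (cfSites η)) (delb_pl_eq h2.del) hA hn hMper hd
  exact ⟨x, x1, x2, x3, x4, fun j hj => (hX j hj).trans (x5 j hj)⟩

/-! ## 5. closed strands, cells and doors, either colour, no convexity -/

section rg

variable {η : Conf PvPt}

/-- **THE CLAUSE OF `PvcqRing` FROM A CLOSED STRAND CUT INTO PIECES**, map `(delPl h).toMap`, colouring in which `true` = the colour `b`      (`PvkiAt.tag` of 244 for either colour) -/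
theorem pvcm_rg_at_del (h : DelGood (cfSites η)) {b : Bool} {n : ℕ} (R : PvkiRg (delPl h).toMap (pvlfFl b (cfCol η ∘ Subtype.val)) n) {L : ℕ} {X : ℕ → ℂ} {Mk : ℕ → Set ℂ} {B : Set ℂ} {a₀ : ℝ}
    (hB : ∀ f ∈ R.darts, (((delPl h).toMap.tgt f : ↥(cfSites η)) : ℂ) ∈ B)
    (hbig : ∃ f ∈ R.darts, ∃ f' ∈ R.darts, a₀ ≤ ‖(((delPl h).toMap.tgt f : ↥(cfSites η)) : ℂ) - (((delPl h).toMap.tgt f' : ↥(cfSites η)) : ℂ)‖)
    (hbar : ∀ f ∈ R.darts, ∃ c < L, (delPl h).toMap.bary Subtype.val ((delPl h).toMap.opp f) ∈ Mk c)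
    (hX : ∀ c < L, ∃ S : Finset ℕ, (∀ j ∈ S, j < n) ∧
      (∀ j, j < n → j ∉ S → ∀ k, k < (R.arc j).n → (delPl h).toMap.bary Subtype.val ((delPl h).toMap.opp ((R.arc j).e k)) ∉ Mk c) ∧
      X c = ∑ j ∈ S, (R.arc j).psum (pvcmW (delPl h) (Mk c))) :
    ∃ x, pvbeTag η x ∧ pvclIn η B x ∧ pvclBig η a₀ x ∧
      (∀ y, pvqSame (DelTri (cfSites η)) (cfCol η) x y → ∃ j < L, pvqBar (cfSites η) y ∈ Mk j) ∧
      ∀ j < L, X j = pvbeLab pvqWQ ((Mk j).indicator 1) η x := by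
  have hT : (delPl h).toMap.IsSph := delp_isSph h
  have hS : (delPl h).toMap.Simple := (delPl h).toMap_simple
  obtain ⟨f, hf, f', hf', hbig⟩ := hbig
  obtain ⟨r1, r2, -⟩ := pvki_ring R hT hS hf
  rw [pvcm_tag_fl] at r1
  simp only [pvcm_same_fl] at r2
  have key : ∀ f₁ ∈ R.darts, pvqSame (DelTri (cfSites η)) (cfCol η) (pvqCode ((delPl h).toMap.opp f)) (pvqCode ((delPl h).toMap.opp f₁)) := fun f₁ hf₁ =>
    (pvq_del_same' h _ _ _).2 ((r2 _).2 (by rw [(delPl h).toMap.opp_opp]; exact hf₁))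
  refine ⟨pvqCode ((delPl h).toMap.opp f), (pvq_del_tag h _ _).2 r1, fun y hy => ?_, ⟨_, _, key f hf, key f' hf', ?_⟩, fun y hy => ?_, fun c hc => ?_⟩
  · obtain ⟨d', rfl, hd'⟩ := (pvq_del_same h _ _ y).1 hy
    have := hB _ ((r2 d').1 hd')
    rwa [(delPl h).toMap.tgt_opp] at this
  · have e : ∀ f₁, (pvqCode ((delPl h).toMap.opp f₁)).1 = (((delPl h).toMap.tgt f₁ : ↥(cfSites η)) : ℂ) := fun f₁ => by
      rw [← (delPl h).toMap.src_opp' f₁]
      rfl
    rw [e, e]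
    exact hbig
  · obtain ⟨d', rfl, hd'⟩ := (pvq_del_same h _ _ y).1 hy
    obtain ⟨c, hc, hm⟩ := hbar _ ((r2 d').1 hd')
    rw [(delPl h).toMap.opp_opp] at hm
    exact ⟨c, hc, by rw [pvq_del_bary]; exact hm⟩
  · obtain ⟨S, hSn, hout, e⟩ := hX c hc
    have hsum := pvki_ring_mask R hT hS hf ((delPl h).toMap.qpart Subtype.val) (fun d => (Mk c).indicator (1 : ℂ → ℂ) ((delPl h).toMap.bary Subtype.val d)) S hSn
      fun j hj hjS k hk => Set.indicator_of_notMem (hout j hj hjS k hk) _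
    rw [pvcm_lsum_fl] at hsum
    rw [e, pvbeLab, pvq_del_sum h]
    refine Eq.trans ?_ (Eq.trans hsum.symm ?_)
    · rfl
    · congr 1
      funext d'
      rw [pvq_del_bary, pvq_del_qpart]

/-- the same, any name of the Delaunay plane -/
theorem pvcm_rg_at (h : DelGood (cfSites η)) (𝔓 : PlTri ↥(cfSites η)) (h𝔓 : 𝔓 = delPl h) {b : Bool} {n : ℕ} (R : PvkiRg 𝔓.toMap (pvlfFl b (cfCol η ∘ Subtype.val)) n)
    {L : ℕ} {X : ℕ → ℂ} {Mk : ℕ → Set ℂ} {B : Set ℂ} {a₀ : ℝ}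
    (hB : ∀ f ∈ R.darts, ((𝔓.toMap.tgt f : ↥(cfSites η)) : ℂ) ∈ B)
    (hbig : ∃ f ∈ R.darts, ∃ f' ∈ R.darts, a₀ ≤ ‖((𝔓.toMap.tgt f : ↥(cfSites η)) : ℂ) - ((𝔓.toMap.tgt f' : ↥(cfSites η)) : ℂ)‖)
    (hbar : ∀ f ∈ R.darts, ∃ c < L, 𝔓.toMap.bary Subtype.val (𝔓.toMap.opp f) ∈ Mk c)
    (hX : ∀ c < L, ∃ S : Finset ℕ, (∀ j ∈ S, j < n) ∧
      (∀ j, j < n → j ∉ S → ∀ k, k < (R.arc j).n → 𝔓.toMap.bary Subtype.val (𝔓.toMap.opp ((R.arc j).e k)) ∉ Mk c) ∧
      X c = ∑ j ∈ S, (R.arc j).psum (pvcmW 𝔓 (Mk c))) :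
    ∃ x, pvbeTag η x ∧ pvclIn η B x ∧ pvclBig η a₀ x ∧
      (∀ y, pvqSame (DelTri (cfSites η)) (cfCol η) x y → ∃ j < L, pvqBar (cfSites η) y ∈ Mk j) ∧
      ∀ j < L, X j = pvbeLab pvqWQ ((Mk j).indicator 1) η x := by
  subst h𝔓
  exact pvcm_rg_at_del h R hB hbig hbar hX

/-- **[CLOSE] FOR CELLS AND DOORS, EITHER COLOUR, NO CONVEXITY**      (`pvki_at_of_cell` of 244; the rooms, the zones and the masks are arbitrary sets).
`hrun` : the barycentres of the faces crossed by the run `j` lie in the mask `j`;   `hinn` : those of the faces crossed by the inner strand of the gate `j` lie in the masks of the two connectors of the plug `j`. -/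
theorem pvcm_at_of_cell (h : DelGood (cfSites η)) (𝔓 : PlTri ↥(cfSites η)) (h𝔓 : 𝔓 = delPl h) {b : Bool} {n : ℕ} (hn : 2 ≤ n) {Y Q Mk : ℕ → Set ℂ} {B : Set ℂ} {a₀ : ℝ} {X : ℕ → ℂ}
    (C : PvkiCell 𝔓.toMap (pvlfFl b (cfCol η ∘ Subtype.val)) Subtype.val n Y Q) (hG : PvkiGeo n Y Q)
    (hMd : ∀ i < n, ∀ j < n, i ≠ j → Disjoint (Mk i) (Mk j)) (hQB : ∀ j < n, Q j ⊆ B) (hYB : ∀ j < n, Y j ⊆ B)
    (hrun : ∀ j < n, ∀ d ∈ pvasFc 𝔓.toMap (pvlfFl b (cfCol η ∘ Subtype.val)) (C.g j).aOut (C.tm j), 𝔓.toMap.bary Subtype.val d ∈ Mk j)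
    (hinn : ∀ j < n, ∀ d ∈ pvasFc 𝔓.toMap (pvlfFl b (cfCol η ∘ Subtype.val)) (C.g j).aIn (C.g j).len, 𝔓.toMap.bary Subtype.val d ∈ Mk (pvkiPre n j) ∪ Mk j)
    (hbig : ∃ i j, i < n ∧ j < n ∧ a₀ ≤ ‖(((C.g i).vp : ↥(cfSites η)) : ℂ) - (((C.g j).vp : ↥(cfSites η)) : ℂ)‖)
    (hX : ∀ c, c < n → X c = (pvtArc 𝔓.toMap (pvlfFl b (cfCol η ∘ Subtype.val)) (C.g c).aIn (C.g c).len).psum (pvcmW 𝔓 (Mk c))
      + (pvtArc 𝔓.toMap (pvlfFl b (cfCol η ∘ Subtype.val)) (C.g c).aOut (C.tm c)).psum (pvcmW 𝔓 (Mk c))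
      + (pvtArc 𝔓.toMap (pvlfFl b (cfCol η ∘ Subtype.val)) (C.g (c + 1)).aIn (C.g (c + 1)).len).psum (pvcmW 𝔓 (Mk c))) :
    ∃ x, pvbeTag η x ∧ pvclIn η B x ∧ pvclBig η a₀ x ∧
      (∀ y, pvqSame (DelTri (cfSites η)) (cfCol η) x y → ∃ j < n, pvqBar (cfSites η) y ∈ Mk j) ∧
      ∀ j < n, X j = pvbeLab pvqWQ ((Mk j).indicator 1) η x := by
  classical
  have hT : 𝔓.toMap.IsSph := by rw [h𝔓]; exact delp_isSph h
  set G := C.toGR hT hG hn with hGdef
  have hGg : G.g = C.g := rfl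
  -- the tag of a dart of a piece is a face crossed by the piece
  have hfc : ∀ k, k < 2 * n → ∀ i, i < ((G.toRg hT).arc k).n →
      𝔓.toMap.opp (((G.toRg hT).arc k).e i) ∈ pvasFc 𝔓.toMap (pvlfFl b (cfCol η ∘ Subtype.val)) ((G.toRg hT).a k) ((G.toRg hT).N k) :=
    fun k hk i hi => ((pvt_sf_arc_faced (pvki_bw (G.toRg hT) hk.le) ((G.toRg hT).N k)).2 i hi).1
  have ea0 : ∀ j, (G.toRg hT).a (2 * j) = (C.g j).aIn := fun j => pvki_gr_pos_even G j
  have eN0 : ∀ j, (G.toRg hT).N (2 * j) = (C.g j).len := fun j => pvki_gr_len_even G j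
  have ea1 : ∀ j, (G.toRg hT).a (2 * j + 1) = (C.g j).aOut := fun j => pvki_gr_pos_odd G j
  have eN1 : ∀ j, (G.toRg hT).N (2 * j + 1) = C.tm j := fun j => pvki_gr_len_odd G j
  refine pvcm_rg_at h 𝔓 h𝔓 (G.toRg hT) ?_ ?_ ?_ ?_
  · intro f hf
    obtain ⟨k, hk, i, hi, rfl⟩ := (pvki_mem_darts (G.toRg hT)).1 hf
    have h1 := hfc k hk i hi
    rw [← 𝔓.toMap.src_opp']
    rcases Nat.even_or_odd' k with ⟨j, rfl | rfl⟩
    · rw [ea0, eN0] at h1
      exact hQB j (by omega) (C.gate j (by omega) _ ⟨_, pvas_fc_sub (pl_left_face _) (pvtg_len hT (C.g j) (C.fin j (by omega))).2.1 h1, rfl⟩)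
    · rw [ea1, eN1] at h1
      exact hYB j (by omega) (pvki_cell_K_sub C (by omega) ⟨_, h1, rfl⟩)
  · obtain ⟨i, j, hi, hj, hij⟩ := hbig
    obtain ⟨f, hf, ef⟩ := pvki_gr_vp_head G hT hi
    obtain ⟨f', hf', ef'⟩ := pvki_gr_vp_head G hT hj
    exact ⟨f, hf, f', hf', by rw [ef, ef']; exact hij⟩
  · intro f hf
    obtain ⟨k, hk, i, hi, rfl⟩ := (pvki_mem_darts (G.toRg hT)).1 hf
    have h1 := hfc k hk i hi
    rcases Nat.even_or_odd' k with ⟨j, rfl | rfl⟩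
    · rw [ea0, eN0] at h1
      rcases hinn j (by omega) _ h1 with h2 | h2
      · exact ⟨_, pvki_pre_lt (by omega), h2⟩
      · exact ⟨j, by omega, h2⟩
    · rw [ea1, eN1] at h1
      exact ⟨j, by omega, hrun j (by omega) _ h1⟩
  · intro c hc
    have hmod := Nat.mod_lt (c + 1) (show 0 < n by omega)
    refine ⟨{2 * c, 2 * c + 1, 2 * ((c + 1) % n)}, fun j hj => ?_, fun k hk hkS i hi hm => ?_, ?_⟩
    · simp only [Finset.mem_insert, Finset.mem_singleton] at hj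
      omega
    · simp only [Finset.mem_insert, Finset.mem_singleton, not_or] at hkS
      have h1 := hfc k hk i hi
      rcases Nat.even_or_odd' k with ⟨j, rfl | rfl⟩
      · rw [ea0, eN0] at h1
        have hj : j < n := by omega
        rcases hinn j hj _ h1 with h2 | h2
        · exact Set.disjoint_left.1 (hMd _ (pvki_pre_lt hj) c hc fun e => hkS.2.2 (by rw [pvki_pre_eq hj hc e])) h2 hm
        · exact Set.disjoint_left.1 (hMd j hj c hc (by omega)) h2 hm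
      · rw [ea1, eN1] at h1
        exact Set.disjoint_left.1 (hMd j (by omega) c hc (by omega)) (hrun j (by omega) _ h1) hm
    · have hne := pvki_succ_ne hn hc
      rw [Finset.sum_insert (by simp only [Finset.mem_insert, Finset.mem_singleton]; omega), Finset.sum_insert (by simp only [Finset.mem_singleton]; omega), Finset.sum_singleton,
        pvki_gr_arc_even, pvki_gr_arc_odd, pvki_gr_arc_even, hX c hc, hGg, pvki_cell_mod C hc, add_assoc]
      rfl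

end rg

/-! ## 6. the glue -/

/-- **GLUE**: `n` connector facts `R j g g'` between plugs whose object of record is UNIQUE give one coherent family -/
theorem pvcm_glue {α : Type*} {n : ℕ} (hn : 0 < n) {Is : ℕ → α → Prop} (hper : Is n = Is 0) (huniq : ∀ j, j < n → ∀ g g', Is j g → Is j g' → g = g')
    {R : ℕ → α → α → Prop} (h : ∀ j, j < n → ∃ g g', Is j g ∧ Is (j + 1) g' ∧ R j g g') :
    ∃ g : ℕ → α, g n = g 0 ∧ (∀ j, j ≤ n → Is j (g j)) ∧ ∀ j, j < n → R j (g j) (g (j + 1)) := by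
  classical
  obtain ⟨g₀, -⟩ := h 0 hn
  haveI : Nonempty α := ⟨g₀⟩
  choose! a c h1 h2 h3 using h
  have e0 : (fun j => if j < n then a j else a 0) n = a 0 := if_neg (lt_irrefl n)
  have ej : ∀ j, j < n → (fun j => if j < n then a j else a 0) j = a j := fun j hj => if_pos hj
  have key : ∀ j, j < n → c j = (fun j => if j < n then a j else a 0) (j + 1) := by
    intro j hj
    rcases Nat.lt_or_ge (j + 1) n with h' | h'
    · rw [ej _ h']
      exact huniq (j + 1) h' _ _ (h2 j hj) (h1 (j + 1) h')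
    · have e : j + 1 = n := by omega
      rw [e, e0]
      refine huniq 0 hn _ _ ?_ (h1 0 hn)
      have := h2 j hj
      rwa [e, hper] at this
  refine ⟨fun j => if j < n then a j else a 0, by rw [e0, ej 0 hn], fun j hj => ?_, fun j hj => ?_⟩
  · rcases Nat.lt_or_ge j n with h' | h'
    · rw [ej j h']; exact h1 j h'
    · have e : j = n := by omega
      rw [e, e0, hper]
      exact h1 0 hn
  · rw [← key j hj, ej j hj]
    exact h3 j hj

/-! ## 7. THE MIXED CLOSE -/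

/-- the colouring of the plane map `pvkiT η` in which `true` = the colour `b` -/
noncomputable abbrev pvcmS (η : Conf PvPt) (b : Bool) : ↥(cfSites η) → Bool := pvlfFl b (cfCol η ∘ Subtype.val)

/-- the mass in `M` of the rim arc `g⁻ → g'⁺` : inner arc of `g`, arc of the run, inner arc of `g'`      (`pvkdMass` of 34 for either colour) -/
noncomputable def pvcmMass (η : Conf PvPt) (b : Bool) (M : Set ℂ) (g g' : (pvkiT η).Gate (pvcmS η b)) : ℂ :=
  (pvtArc (pvkiT η) (pvcmS η b) g.aIn g.len).psum (pvkiW η M) +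
    (pvtArc (pvkiT η) (pvcmS η b) g.aOut (pvasHit (pvkiT η) (pvcmS η b) g.aOut {g'.aIn})).psum (pvkiW η M) +
    (pvtArc (pvkiT η) (pvcmS η b) g'.aIn g'.len).psum (pvkiW η M)

theorem pvcm_eqns_cite3 : True := by
  have := @pvcmMass.eq_1
  trivial

/-- **WHAT A PLUG OWES** at `η` : `g` = its gate of record, `Q` = its zone, `Mm`, `Mp` = the masks of the arriving and of the leaving connector -/
structure PvcmPl (η : Conf PvPt) (b : Bool) (Q Mm Mp : Set ℂ) (g : (pvkiT η).Gate (pvcmS η b)) : Prop where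
  fin : g.c.Left.Finite
  thru : g.Thru
  zone : ∀ v ∈ (pvkiT η).VOf g.c.Left, (v : ℂ) ∈ Q
  bary : ∀ d ∈ pvasFc (pvkiT η) (pvcmS η b) g.aIn g.len, (pvkiT η).bary Subtype.val d ∈ Mm ∪ Mp

/-- **WHAT A CONNECTOR OWES** at `η` : the run from the exit of `g` to the entrance of `g'` in the room `Y`, barycentres in the mask `M`, `x` = the value of its field -/
structure PvcmCn (η : Conf PvPt) (b : Bool) (Y M : Set ℂ) (x : ℂ) (g g' : (pvkiT η).Gate (pvcmS η b)) : Prop where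
  run : PvldRun (pvkiT η) (pvcmS η b) {v | (v : ℂ) ∈ Y} g.aOut g'.aIn
  vm_off : ((g.vm : ↥(cfSites η)) : ℂ) ∉ Y
  vp_off : ((g'.vp : ↥(cfSites η)) : ℂ) ∉ Y
  bary : ∀ d ∈ pvasFc (pvkiT η) (pvcmS η b) g.aOut (pvasHit (pvkiT η) (pvcmS η b) g.aOut {g'.aIn}), (pvkiT η).bary Subtype.val d ∈ M
  val : x = pvcmMass η b M g g'

/-- **THE MIXED CLOSE AT ONE CONFIGURATION** -/
theorem pvcm_close_at {η : Conf PvPt} (h : DelGood (cfSites η)) {n : ℕ} (hn : 2 ≤ n) {X : ℕ → ℂ} {Y Q Mk : ℕ → Set ℂ} {B : Set ℂ} {a₀ : ℝ} {b : Bool}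
    (hG : PvkiGeo n Y Q) (hMd : ∀ i < n, ∀ j < n, i ≠ j → Disjoint (Mk i) (Mk j)) (hQB : ∀ j < n, Q j ⊆ B) (hYB : ∀ j < n, Y j ⊆ B)
    (hbig : ∃ i j, i < n ∧ j < n ∧ ∀ x ∈ Q i, ∀ y ∈ Q j, a₀ ≤ ‖x - y‖)
    {Is : ℕ → (pvkiT η).Gate (pvcmS η b) → Prop} (hper : Is n = Is 0) (huniq : ∀ j, j < n → ∀ g g', Is j g → Is j g' → g = g')
    (hpl : ∀ j, j < n → ∀ g, Is j g → PvcmPl η b (Q j) (Mk (pvkiPre n j)) (Mk j) g)
    (hcn : ∀ j, j < n → ∃ g g', Is j g ∧ Is (j + 1) g' ∧ PvcmCn η b (Y j) (Mk j) (X j) g g') :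
    ∃ x, pvbeTag η x ∧ pvclIn η B x ∧ pvclBig η a₀ x ∧
      (∀ y, pvqSame (DelTri (cfSites η)) (cfCol η) x y → ∃ j < n, pvqBar (cfSites η) y ∈ Mk j) ∧
      ∀ j < n, X j = pvbeLab pvqWQ ((Mk j).indicator 1) η x := by
  have hT : (pvkiT η).IsSph := delb_plane_isSph h
  obtain ⟨g, g0, gI, gR⟩ := pvcm_glue (by omega) hper huniq hcn
  have P : ∀ j, j < n → PvcmPl η b (Q j) (Mk (pvkiPre n j)) (Mk j) (g j) := fun j hj => hpl j hj _ (gI j hj.le)
  let C : PvkiCell (pvkiT η) (pvcmS η b) Subtype.val n Y Q :=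
    { g := g
      per := g0
      fin := fun j hj => (P j hj).fin
      thru := fun j hj => (P j hj).thru
      run := fun j hj => (gR j hj).run
      gate := fun j hj => (P j hj).zone
      vm_off := fun j hj => (gR j hj).vm_off
      vp_off := fun j hj => (gR j hj).vp_off }
  refine pvcm_at_of_cell h (delbPl (cfSites η)) (delb_pl_eq h) hn C hG hMd hQB hYB (fun j hj => (gR j hj).bary) (fun j hj => (P j hj).bary) ?_ (fun c hc => (gR c hc).val)
  obtain ⟨i, j, hi, hj, hij⟩ := hbig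
  have hvp : ∀ k, k < n → (((g k).vp : ↥(cfSites η)) : ℂ) ∈ Q k := fun k hk =>
    (P k hk).zone _ ⟨(g k).c.e (g k).m, (pl_jordan hT (g k).c).2.1 _, rfl⟩
  exact ⟨i, j, hi, hj, hij _ (hvp i hi) _ (hvp j hj)⟩

/-- **THE MIXED CLOSE** : plugs with a unique gate of record (`Is η j`), per plug facts, per connector facts, a.s. on `Ev`  ⟹  the ring of 52 -/
theorem pvcm_close {ε : ℝ} (hε : 0 < ε) {n : ℕ} (hn : 2 ≤ n) {Ev : Set (Conf PvPt)} {X : ℕ → Conf PvPt → ℂ} {Y Q Mk : ℕ → Set ℂ} {B : Set ℂ} {a₀ : ℝ} {b : Bool}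
    (hG : PvkiGeo n Y Q) (hMd : ∀ i < n, ∀ j < n, i ≠ j → Disjoint (Mk i) (Mk j)) (hQB : ∀ j < n, Q j ⊆ B) (hYB : ∀ j < n, Y j ⊆ B)
    (hbig : ∃ i j, i < n ∧ j < n ∧ ∀ x ∈ Q i, ∀ y ∈ Q j, a₀ ≤ ‖x - y‖)
    (Is : ∀ η : Conf PvPt, ℕ → (pvkiT η).Gate (pvcmS η b) → Prop) (hper : ∀ η, Is η n = Is η 0)
    (huniq : ∀ᵐ η ∂(pvP ε), η ∈ Ev → ∀ j, j < n → ∀ g g', Is η j g → Is η j g' → g = g')
    (hpl : ∀ᵐ η ∂(pvP ε), η ∈ Ev → ∀ j, j < n → ∀ g, Is η j g → PvcmPl η b (Q j) (Mk (pvkiPre n j)) (Mk j) g)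
    (hcn : ∀ᵐ η ∂(pvP ε), η ∈ Ev → ∀ j, j < n → ∃ g g', Is η j g ∧ Is η (j + 1) g' ∧ PvcmCn η b (Y j) (Mk j) (X j η) g g') :
    PvcqRing ε n Ev X Mk B a₀ := by
  filter_upwards [huniq, hpl, hcn, pvqf_good_ae ε hε.ne'] with η h1 h2 h3 h4 hη
  exact pvcm_close_at h4.del hn hG hMd hQB hYB hbig (hper η) (h1 hη) (h2 hη) (h3 hη)

end Claimed.Agent.R289
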