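-- KEEP
import Claimed.Agent.R289.Tr.PlugClose
import Claimed.Agent.R289.Tr.FrameIso
import Claimed.Agent.R289.Tr.ChainY
import Claimed.Agent.R289.Exit.NumQ
import Claimed.Agent.R289.Tr.DilK
import Claimed.Agent.R289.Tr.InstL
import Claimed.Agent.R289.Exit.NumI
import Claimed.Agent.R289.Tr.CloseM

/-!
# Row 289 (S0537), THE WALL, chapter E (cells), file Tr/KitDict : **[KDICT]** = THE DICTIONARY  CELL KIT OF THE ENGINE  ⟶  STRANDS OF THE PLANE MAP OF `η`      (helper244; contracts (4a') (4b) of 227 / 24 / 136; prefix `pvuk_`, `pvuk`, `Pvuk`)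

WHY.   The engine uses the cell kit through `(𝔈.kit m ε).G z d`, `.A z d τ`, `pvthX (𝔈.XQ m ε) z d τ`, evaluated at `pvkyFl b η`: SOFT events (`Sure / Thr / Fix / Loc` of 34) of the UNIT datum `𝔤.glob Hf`, scaled by `δ_m`, placed at `(z, d)`, colour flipped.
CHAIN (n1), CLOSE (cyc1, thick) need: the strand of `η` ITSELF really runs from THE gate of the door `j` to THE gate of the door `j + 1`, and the cell field is the mass of that piece of rim in the mask of the cell.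
* sec. 1  the scaled geometry = `PvkdPlug.sc`, `PvkdGeo.sc` OF 227 (`Tr/DilK`; `(pvkdP r).sc l = pvkdP (l r)`: `pvdil_P`); `pvuk_S_at`, `pvuk_at_sc`.
* sec. 2  the objects of `Tr/PlugK` FOR A COLOUR `b`, in the plane map of `η` (`pvieT η`, `pvieCol η b`; raw predicates of 173): `PvukGate`, `PvukLink`, `pvukMass`;   `pvuk_uniq` (THE gate is ONE object).
* sec. 3  ONE TRANSPORT: `PvukMor ξ η b a c` (`η` = image of `ξ` under the SIMILARITY `w ↦ a w + c`, `a ≠ 0`; black of `ξ` = the colour `b` of `η`): `.iso .hs .pg .at .gate`, `pvuk_mor_gate`, `pvuk_mor_link`, `pvuk_mor_mass` (factor `a`);   `pvuk_mor` : the morphism `cfMap (pvthInv z a) (pvkyFl b η) ⟶ η`.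
* sec. 4  **THE CONTRACT `PvukDict kit XQ 𝔤 ε`** (a.e. form, 136) and its WORD FORM **`PvukDict.word`** (ONE family of gates along a word).
* sec. 5  **`pvuk_dict`** : `(𝔤.glob Hf).Ok e .. → PvukDict ((kit e).sc s) (pvthX (fQ e) 0 s) (𝔤.sc s) (s e)`.
* sec. 6  AT THE ENGINE: **`pvuk_eng`**, **`pvuk_nn`** (`PvnnEng 𝔈 c` of 258 ⟹ `PvukDict (𝔈.kit m ε) (𝔈.XQ m ε) (pvkgG.sc δ_m) ε`).
* sec. 7  v2: fields `doorN linkN` (mesh + nice ON `η`), **`PvukDict.doorL`** (the door end `PvilDoor` of `Tr/InstL`);   **MASK AT A DOOR** `pvuk_mask_front`, `pvuk_mask_back`, word forms **`pvuk_Q0 pvuk_Qm pvuk_Qj`** (= fields `Q0 Qm Qj` of `PvlcReg` of 70);   **`pvuk_ref_sc`** : `PvkxRef 𝔤 → PvkxRef (𝔤.sc s)`.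
* sec. 8  WHAT THE KIT OWES TO THE MIXED CLOSE OF 95 (`Tr/CloseM`), either colour: **`pvuk_pl`** (`PvukGate ⟹ PvcmPl`), **`pvuk_cn`** (`PvukLink ⟹ PvcmCn`, value `pvukMass = pvcmMass` by `rfl`), `pvuk_pl_word` (masks of the two neighbours).
* sec. 9  THE GEOMETRY OF RECORD AT THE LEVEL `m`: `pvuk_rec_plug`, **`pvuk_rec_rd`** (`(pvkgG.sc δ_m).toPvkdPlug = pvkdP (pvilRd 𝔓 m)`), `pvuk_rec_del`, `pvuk_rec_ref`, `pvuk_rec_Mk`.      AT THE ENGINE OF RECORD (124, `Exit/EngRec`): `pvuk_nn (pvnr_nn N hN c nb) m`.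
* sec. 10 THE DOORS OF A CELL-SIMPLE WORD AGAINST ITS CELLS (every scale, every frame): **`pvuk_mask_disj`** `pvuk_Mk_disj` (masks pairwise disjoint), **`pvuk_door_mask`** (a region in the `δ/2`-square round the door `j` meets the masks `j - 1`, `j` only), **`pvuk_door_door`**;   `pvuk_zone_O`, `pvuk_zone0`, `pvuk_Co_Ea` (from `PvzeGeo`, every scale: fields `zone cor` of `PvjcReg` of 203);   AT THE RECORD: `pvuk_rec_O`, `pvuk_rec_zone`, **`pvuk_rec_ZZ`** [dZZ], **`pvuk_rec_MZ`** [dKZ].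
-/

set_option autoImplicit false
set_option linter.unusedSectionVars false

namespace Claimed.Agent.R289

open MeasureTheory ProbabilityTheory Set Filter Topology Claims.C0465
open scoped ENNReal NNReal

/-! ## 1. the scaled geometry -/

/-- the dilated region of 227 is the region placed at `(0, l)` -/
theorem pvuk_S_at (l : ℝ) (S : Set ℂ) : pvdilS l S = pvkdAt 0 l S := pvdil_S_sim l S

/-- a scaled region, placed -/
theorem pvuk_at_sc (z d : ℂ) (l : ℝ) (S : Set ℂ) : pvkdAt z d (pvdilS l S) = pvkdAt z (d * l) S := by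
  rw [pvuk_S_at, pvkx_at_at, mul_zero, add_zero]

theorem pvuk_sc_disj {l : ℝ} (hl : 0 < l) {S S' : Set ℂ} (h : Disjoint S S') : Disjoint (pvdilS l S) (pvdilS l S') := by
  rw [pvuk_S_at, pvuk_S_at]
  exact pvkx_at_disj (Complex.ofReal_ne_zero.2 hl.ne') h

/-! ## 2. the objects of the kit for a colour `b`, in the plane map of `η` -/

/-- the colouring seen by a rim of colour `b`      (`= pvieCol η b` of 161 by `rfl`; `b = true`: `pvkiS η` up to `== true`) -/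
noncomputable def pvukS (b : Bool) (η : Conf PvPt) : ↥(cfSites η) → Bool := fun v => cfCol η v.1 == b

theorem pvuk_S_eq (b : Bool) (η : Conf PvPt) : pvieCol η b = pvukS b η := rfl


/-- **`g` IS THE GATE OF RECORD, FOR THE COLOUR `b`, OF THE PLUG `𝔭` PLACED AT `(z,d)`**      (`b = true`: `PvkdGate` of 34) -/
def PvukGate (𝔭 : PvkdPlug) (b : Bool) (η : Conf PvPt) (z d : ℂ) (g : (pvkiT η).Gate (pvukS b η)) : Prop := PvzlGt (pvkiT η) Subtype.val (pvukS b η) (𝔭.pg z d) g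

/-- **THE LINK** of shape `τ` of the cell placed at `(z,d)`, colour `b` -/
def PvukLink (𝔤 : PvkdGeo) (b : Bool) (η : Conf PvPt) (z d : ℂ) (τ : PvtTurn) (g g' : (pvkiT η).Gate (pvukS b η)) (N : ℕ) : Prop :=
  PvukGate 𝔤.toPvkdPlug b η z d g ∧ PvukGate 𝔤.toPvkdPlug b η (𝔤.zo z d τ) (d * τ.rot) g' ∧ PvzlRun (pvkiT η) Subtype.val (pvukS b η) (pvkdAt z d (𝔤.Co τ)) g g' N

/-- **the mass in `M` of the rim arc `g⁻ → g'⁺`**, colour `b`: inner arc of `g`, arc of the run, inner arc of `g'` -/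
noncomputable def pvukMass (b : Bool) (η : Conf PvPt) (M : Set ℂ) (g g' : (pvkiT η).Gate (pvukS b η)) : ℂ :=
  (pvtArc (pvkiT η) (pvukS b η) g.aIn g.len).psum (pvkiW η M) +
    (pvtArc (pvkiT η) (pvukS b η) g.aOut (pvasHit (pvkiT η) (pvukS b η) g.aOut {g'.aIn})).psum (pvkiW η M) +
    (pvtArc (pvkiT η) (pvukS b η) g'.aIn g'.len).psum (pvkiW η M)

theorem pvuk_eqns_cite2 : True := by
  have := @pvukS.eq_1; have := @PvukGate.eq_1; have := @PvukLink.eq_1; have := @pvukMass.eq_1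
  trivial

/-- **THE GATE OF RECORD IS ONE OBJECT**, every colour, every frame -/
theorem pvuk_uniq {𝔭 : PvkdPlug} {b : Bool} {η : Conf PvPt} {z d : ℂ} (hG : DelGood (cfSites η)) (hdis : Disjoint 𝔭.Zm 𝔭.Zp) {g g₂ : (pvkiT η).Gate (pvukS b η)}
    (h : PvukGate 𝔭 b η z d g) (h₂ : PvukGate 𝔭 b η z d g₂) : g = g₂ := by
  have hT : (pvkiT η).IsSph := delb_plane_isSph hG
  by_cases hd : d = 0
  · exfalso
    subst hd
    obtain ⟨u, -, e1⟩ := h.vm
    obtain ⟨u', -, e2⟩ := h.vp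
    have e3 : g.vm = g.vp := by
      apply Subtype.ext
      rw [← e1, ← e2]
      unfold pvthSim
      ring
    have := g.c.inj 0 g.m (pl_cyc_pos g.c) (by have := g.hmn; omega) e3
    have := g.hm
    omega
  · have hD : Disjoint (𝔭.pg z d).Km (𝔭.pg z d).Kp := pvkx_at_disj hd hdis
    obtain ⟨he, hn, hm⟩ := PvzlGt.unique hT hD h h₂
    exact pvkx_gate_ext he hn hm

/-! ## 3. one transport: similarity + colour -/

/-- `η` is the image of `ξ` under the SIMILARITY `w ↦ a w + c`; BLACK of `ξ` is the colour `b` of `η` -/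
structure PvukMor (ξ η : Conf PvPt) (b : Bool) (a c : ℂ) : Prop where
  a0 : a ≠ 0
  Y : cfSites η = vorSim a c '' cfSites ξ
  col : ∀ p ∈ cfSites ξ, (cfCol η (vorSim a c p) == b) = cfCol ξ p

namespace PvukMor

variable {ξ η : Conf PvPt} {b : Bool} {a c : ℂ} (M : PvukMor ξ η b a c)
include M

/-- the isomorphism of the plane maps -/
noncomputable def iso : PvIso (pvkiT ξ) (pvkiT η) := pvcoIso M.a0 M.Y

theorem val (v : ↥(cfSites ξ)) : ((M.iso.fV v : ↥(cfSites η)) : ℂ) = vorSim a c v.1 := rfl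

theorem hs (v : ↥(cfSites ξ)) : pvukS b η (M.iso.fV v) = pvkiS ξ v := M.col v.1 v.2

theorem good (h : DelGood (cfSites ξ)) : DelGood (cfSites η) := pvcv_good M.a0 M.Y h

theorem mkS (X : Set ℂ) : PvcoMk M.iso Subtype.val Subtype.val X (vorSim a c '' X) := fun v => by
  rw [M.val]; exact (vorSim_injective M.a0 c).mem_set_image

theorem at' (z d : ℂ) (S : Set ℂ) : PvcoMk M.iso Subtype.val Subtype.val (pvkdAt z d S) (pvkdAt (vorSim a c z) (a * d) S) := by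
  rw [pvco_at]; exact M.mkS _

theorem ball (z : ℂ) (r : ℝ) : PvcoMk M.iso Subtype.val Subtype.val (Metric.ball z r) (Metric.ball (vorSim a c z) (‖a‖ * r)) := fun v => by
  rw [M.val, Metric.mem_ball, Metric.mem_ball, dist_eq_norm, dist_eq_norm, pvco_sub, norm_mul]
  exact mul_lt_mul_iff_right₀ (norm_pos_iff.2 M.a0)

/-- the image of a gate -/
noncomputable def gate (g : (pvkiT ξ).Gate (pvkiS ξ)) : (pvkiT η).Gate (pvukS b η) := pvcoGate M.iso M.hs g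

end PvukMor

theorem pvuk_eqns_cite3 : True := by
  have := @PvukMor.iso.eq_1; have := @PvukMor.gate.eq_1
  trivial

section transport

variable {ξ η : Conf PvPt} {b : Bool} {a d c : ℂ} {s : ℝ}

/-- the marks of a placed plug and of the scaled plug correspond -/
theorem PvukMor.pg (M : PvukMor ξ η b (d * s) c) (hd : ‖d‖ = 1) (hs : 0 < s) (𝔭 : PvkdPlug) (z₀ d₀ : ℂ) :
    PvcoPg M.iso Subtype.val Subtype.val (𝔭.pg z₀ d₀) ((𝔭.sc s).pg (vorSim (d * s) c z₀) (d * d₀)) where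
  KI := by
    show PvcoMk _ _ _ (Metric.ball z₀ 𝔭.a) (Metric.ball (vorSim (d * s) c z₀) (s * 𝔭.a))
    have := M.ball z₀ 𝔭.a
    rwa [norm_mul, hd, one_mul, Complex.norm_real, Real.norm_eq_abs, abs_of_pos hs] at this
  KO := by
    show PvcoMk _ _ _ (Metric.ball z₀ 𝔭.b) (Metric.ball (vorSim (d * s) c z₀) (s * 𝔭.b))
    have := M.ball z₀ 𝔭.b
    rwa [norm_mul, hd, one_mul, Complex.norm_real, Real.norm_eq_abs, abs_of_pos hs] at this
  Km := by
    show PvcoMk _ _ _ (pvkdAt z₀ d₀ 𝔭.Zm) (pvkdAt (vorSim (d * s) c z₀) (d * d₀) (pvdilS s 𝔭.Zm))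
    rw [pvuk_at_sc, show d * d₀ * s = d * s * d₀ by ring]; exact M.at' _ _ _
  Kp := by
    show PvcoMk _ _ _ (pvkdAt z₀ d₀ 𝔭.Zp) (pvkdAt (vorSim (d * s) c z₀) (d * d₀) (pvdilS s 𝔭.Zp))
    rw [pvuk_at_sc, show d * d₀ * s = d * s * d₀ by ring]; exact M.at' _ _ _
  KT := by
    show PvcoMk _ _ _ (pvkdAt z₀ d₀ 𝔭.Tb) (pvkdAt (vorSim (d * s) c z₀) (d * d₀) (pvdilS s 𝔭.Tb))
    rw [pvuk_at_sc, show d * d₀ * s = d * s * d₀ by ring]; exact M.at' _ _ _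

/-- **the gate of record travels** -/
theorem pvuk_mor_gate (M : PvukMor ξ η b (d * s) c) (hd : ‖d‖ = 1) (hs : 0 < s) {𝔭 : PvkdPlug} {z₀ d₀ : ℂ} {g : (pvkiT ξ).Gate (pvkiS ξ)} (h : PvkdGate 𝔭 ξ z₀ d₀ g) :
    PvukGate (𝔭.sc s) b η (vorSim (d * s) c z₀) (d * d₀) (M.gate g) := pvco_gt M.hs (M.pg hd hs 𝔭 z₀ d₀) h

theorem pvuk_zo (𝔤 : PvkdGeo) (d c z₀ d₀ : ℂ) (s : ℝ) (τ : PvtTurn) : vorSim (d * s) c (𝔤.zo z₀ d₀ τ) = (𝔤.sc s).zo (vorSim (d * s) c z₀) (d * d₀) τ := by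
  show vorSim (d * s) c (z₀ + d₀ * (𝔤.δ * τ.mid)) = vorSim (d * s) c z₀ + d * d₀ * (((s * 𝔤.δ : ℝ) : ℂ) * τ.mid)
  simp only [vorSim]
  push_cast
  ring

/-- **the link travels** -/
theorem pvuk_mor_link (M : PvukMor ξ η b (d * s) c) (hd : ‖d‖ = 1) (hs : 0 < s) {𝔤 : PvkdGeo} {z₀ d₀ : ℂ} {τ : PvtTurn} {g g' : (pvkiT ξ).Gate (pvkiS ξ)} {N : ℕ}
    (h : 𝔤.Link ξ z₀ d₀ τ g g' N) : PvukLink (𝔤.sc s) b η (vorSim (d * s) c z₀) (d * d₀) τ (M.gate g) (M.gate g') N := by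
  refine ⟨pvuk_mor_gate M hd hs h.1, ?_, ?_⟩
  · have := pvuk_mor_gate M hd hs h.2.1
    rwa [pvuk_zo, ← mul_assoc] at this
  · refine (pvco_zrun M.hs ?_ g g' N).2 h.2.2
    show PvcoMk _ _ _ (pvkdAt z₀ d₀ (𝔤.Co τ)) (pvkdAt (vorSim (d * s) c z₀) (d * d₀) (pvdilS s (𝔤.Co τ)))
    rw [pvuk_at_sc, show d * d₀ * s = d * s * d₀ by ring]; exact M.at' _ _ _

/-- the three sites of the face of a dart -/
theorem PvukMor.pos (M : PvukMor ξ η b a c) (e : (delbPl (cfSites ξ)).Dart) :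
    pvzfPlPos (cfSites η) (M.iso.fD e) = (vorSim a c (pvzfPlPos (cfSites ξ) e).1, vorSim a c (pvzfPlPos (cfSites ξ) e).2.1, vorSim a c (pvzfPlPos (cfSites ξ) e).2.2) := by
  unfold pvzfPlPos
  have h1 := M.iso.src e
  have h2 := M.iso.tgt e
  have h3 := M.iso.apex e
  rw [show (delbPl (cfSites η)).toMap = pvkiT η from rfl, h1, h2, h3]
  rfl

/-- the masked summand of `Q` under the similarity: factor `a` -/
theorem PvukMor.W (M : PvukMor ξ η b a c) (S : Set ℂ) (e : (delbPl (cfSites ξ)).Dart) : pvkiW η (vorSim a c '' S) (M.iso.fD e) = a * pvkiW ξ S e := by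
  rw [← pvkk_W, ← pvkk_W, M.pos, pvco_W M.a0]

/-- the mass of the arc of a piece of strand: factor `a` -/
theorem pvuk_mor_psum (M : PvukMor ξ η b a c) (S : Set ℂ) (e : (delbPl (cfSites ξ)).Dart) (N : ℕ) :
    (pvtArc (pvkiT η) (pvukS b η) (M.iso.fD e) N).psum (pvkiW η (vorSim a c '' S)) = a * (pvtArc (pvkiT ξ) (pvkiS ξ) e N).psum (pvkiW ξ S) := by
  rw [pvt_sf_arc_psum, pvt_sf_arc_psum, pvco_bank M.hs, pvco_LE, List.map_map, ← List.sum_map_mul_left]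
  congr 1
  refine List.map_congr_left fun f _ => ?_
  show pvkiW η (vorSim a c '' S) ((pvkiT η).opp (M.iso.fD f)) = a * pvkiW ξ S ((pvkiT ξ).opp f)
  rw [M.iso.opp, M.W]

/-- **the mass of the link travels**: factor `a` -/
theorem pvuk_mor_mass (M : PvukMor ξ η b a c) (S : Set ℂ) (g g' : (pvkiT ξ).Gate (pvkiS ξ)) :
    pvukMass b η (vorSim a c '' S) (M.gate g) (M.gate g') = a * pvkdMass ξ S g g' := by
  unfold pvukMass pvkdMass PvukMor.gate
  rw [pvco_gate_aIn, pvco_gate_aIn, pvco_gate_aOut, pvco_gate_len, pvco_gate_len, ← Set.image_singleton, pvco_hit M.iso M.hs, pvuk_mor_psum, pvuk_mor_psum, pvuk_mor_psum]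
  ring

end transport

/-! ### the morphism `cfMap (pvthInv z a) (pvkyFl b η) ⟶ η` -/

theorem pvuk_sites_fl (b : Bool) (η : Conf PvPt) : cfSites (pvkyFl b η) = cfSites η := by
  ext z
  constructor
  · rintro ⟨p, hp, rfl⟩
    exact ⟨_, pvky_mem_fl.1 hp, rfl⟩
  · rintro ⟨p, hp, rfl⟩
    refine ⟨(p.1, p.2 == b), pvky_mem_fl.2 ?_, rfl⟩
    have : ((p.2 == b) == b) = p.2 := by cases p.2 <;> cases b <;> rfl
    rw [this]
    exact hp

theorem pvuk_col_iff (η : Conf PvPt) (z : ℂ) : cfCol η z = true ↔ (z, true) ∈ η.pts := by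
  classical
  unfold cfCol
  exact decide_eq_true_iff

/-- at a configuration with one colour per site, BLACK of `pvkyFl b η` is the colour `b` of `η` -/
theorem pvuk_col_fl (b : Bool) {η : Conf PvPt} (h : ∀ p ∈ η.pts, ∀ q ∈ η.pts, p.1 = q.1 → p = q) {z : ℂ} (hz : z ∈ cfSites η) : cfCol (pvkyFl b η) z = (cfCol η z == b) := by
  cases b
  swap
  · show cfCol η z = _
    cases cfCol η z <;> rfl
  obtain ⟨⟨z, β⟩, hp, rfl⟩ := hz
  have e1 : cfCol (pvkyFl false η) z = true ↔ (z, false) ∈ η.pts := by rw [pvuk_col_iff, pvky_mem_fl]; rfl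
  have e2 := pvuk_col_iff η z
  show cfCol (pvkyFl false η) z = (cfCol η z == false)
  cases β
  · have h2 : (z, true) ∉ η.pts := fun h3 => by
      have := h _ h3 _ hp rfl
      simp at this
    rw [e1.2 hp, Bool.eq_false_iff.2 fun h3 => h2 (e2.1 h3)]; rfl
  · have h2 : (z, false) ∉ η.pts := fun h3 => by
      have := h _ h3 _ hp rfl
      simp at this
    rw [e2.2 hp, Bool.eq_false_iff.2 fun h3 => h2 (e1.1 h3)]; rfl

/-- **THE MORPHISM**: the configuration at which the unit kit is evaluated, and `η` itself -/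
theorem pvuk_mor (b : Bool) {η : Conf PvPt} (h : ∀ p ∈ η.pts, ∀ q ∈ η.pts, p.1 = q.1 → p = q) (z : ℂ) {a : ℂ} (ha : a ≠ 0) : PvukMor (cfMap (pvthInv z a) (pvkyFl b η)) η b a z := by
  have hi : a⁻¹ ≠ 0 := inv_ne_zero ha
  refine ⟨ha, ?_, ?_⟩
  · rw [pvzf_inv_eq, pvcv_sites, image_image, pvuk_sites_fl]
    simp only [vorSim_inv_right ha z, image_id']
  · intro p hp
    rw [pvzf_inv_eq, pvcv_sites, pvuk_sites_fl] at hp
    obtain ⟨w, hw, rfl⟩ := hp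
    rw [vorSim_inv_right ha z, pvzf_inv_eq, pvcv_col hi, pvuk_col_fl b h hw]

/-! ## 4. THE CONTRACT -/

/-- **[KDICT], THE CONTRACT** (a.e. form): the kit `kit` with its field `XQ`, at the mesh `ε`, IS the cell kit of geometry `𝔤`, read in the plane map of `η` itself, for both colours and all frames.
* `door` (4a')   a usable door plug has THE gate of record;
* `link` (4b)    a usable door plug with a successful connector: THE two gates, the run between them in the room of the cell, and the placed field is the mass of the rim arc `g⁻ → g'⁺` in the placed mask. -/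
structure PvukDict (kit : PvthKit) (XQ : PvtTurn → Conf PvPt → ℂ) (𝔤 : PvkdGeo) (ε : ℝ) : Prop where
  δ : kit.δ = 𝔤.δ
  zz : Disjoint 𝔤.Zm 𝔤.Zp
  door : ∀ (b : Bool) (z d : ℂ), d ^ 4 = 1 → ∀ᵐ η ∂(pvP ε), pvkyFl b η ∈ kit.G z d → DelGood (cfSites η) ∧ ∃ g, PvukGate 𝔤.toPvkdPlug b η z d g
  link : ∀ (b : Bool) (z d : ℂ) (τ : PvtTurn), d ^ 4 = 1 → ∀ᵐ η ∂(pvP ε), pvkyFl b η ∈ kit.G z d → pvkyFl b η ∈ kit.A z d τ →
    ∃ g g' N, PvukLink 𝔤 b η z d τ g g' N ∧ pvthX XQ z d τ (pvkyFl b η) = pvukMass b η (pvkdAt z d (𝔤.Mk τ)) g g'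
  /-- (v2) nice + mesh of the placed plug, ON `η` -/
  doorN : ∀ (b : Bool) (z d : ℂ), d ^ 4 = 1 → ∀ᵐ η ∂(pvP ε), pvkyFl b η ∈ kit.G z d → η ∈ 𝔤.N z d
  /-- (v2) nice + mesh of the placed link, ON `η` -/
  linkN : ∀ (b : Bool) (z d : ℂ) (τ : PvtTurn), d ^ 4 = 1 → ∀ᵐ η ∂(pvP ε), pvkyFl b η ∈ kit.G z d → pvkyFl b η ∈ kit.A z d τ → η ∈ 𝔤.NA z d τ

/-- the exit door of the cell `j` of a word is the door `j + 1` -/
theorem pvuk_exit (𝔤 : PvkdGeo) (z d : ℂ) (l : List PvtTurn) {j : ℕ} (hj : j < l.length) :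
    𝔤.zo (pvthZ 𝔤.δ z d l j) (pvthD d l j) (pvthL l j) = pvthZ 𝔤.δ z d l (j + 1) ∧ pvthD d l j * (pvthL l j).rot = pvthD d l (j + 1) :=
  pvthx_exit153 (𝔤.glob fun _ => ∅).pre z d l hj

/-- **THE WORD FORM**: along a word ONE family of gates `g 0 .. g n`; the cell `j` is the link `g j → g (j + 1)`, its field is the mass of that link in its mask -/
theorem PvukDict.word {kit : PvthKit} {XQ : PvtTurn → Conf PvPt → ℂ} {𝔤 : PvkdGeo} {ε : ℝ} (D : PvukDict kit XQ 𝔤 ε) (b : Bool) (z d : ℂ) (hd : d ^ 4 = 1) (l : List PvtTurn) (hl : 0 < l.length) :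
    ∀ᵐ η ∂(pvP ε), pvkyFl b η ∈ kit.Ev z d l → DelGood (cfSites η) ∧ ∃ (g : ℕ → (pvkiT η).Gate (pvukS b η)) (N : ℕ → ℕ), ∀ j < l.length,
      PvukLink 𝔤 b η (pvthZ 𝔤.δ z d l j) (pvthD d l j) (pvthL l j) (g j) (g (j + 1)) (N j) ∧
        kit.Xj XQ z d l j (pvkyFl b η) = pvukMass b η (pvkdAt (pvthZ 𝔤.δ z d l j) (pvthD d l j) (𝔤.Mk (pvthL l j))) (g j) (g (j + 1)) := by
  have hD : ∀ j, pvthD d l j ^ 4 = 1 := fun j => pvtDir_pow_four d hd _
  have h1 : ∀ᵐ η ∂(pvP ε), ∀ j : ℕ, pvkyFl b η ∈ kit.G (pvthZ 𝔤.δ z d l j) (pvthD d l j) → DelGood (cfSites η) ∧ ∃ g, PvukGate 𝔤.toPvkdPlug b η (pvthZ 𝔤.δ z d l j) (pvthD d l j) g :=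
    ae_all_iff.2 fun j => D.door b _ _ (hD j)
  have h2 : ∀ᵐ η ∂(pvP ε), ∀ j : ℕ, pvkyFl b η ∈ kit.G (pvthZ 𝔤.δ z d l j) (pvthD d l j) → pvkyFl b η ∈ kit.A (pvthZ 𝔤.δ z d l j) (pvthD d l j) (pvthL l j) →
      ∃ g g' N, PvukLink 𝔤 b η (pvthZ 𝔤.δ z d l j) (pvthD d l j) (pvthL l j) g g' N ∧
        pvthX XQ (pvthZ 𝔤.δ z d l j) (pvthD d l j) (pvthL l j) (pvkyFl b η) = pvukMass b η (pvkdAt (pvthZ 𝔤.δ z d l j) (pvthD d l j) (𝔤.Mk (pvthL l j))) g g' :=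
    ae_all_iff.2 fun j => D.link b _ _ _ (hD j)
  filter_upwards [h1, h2] with η a1 a2 hE
  have hE' : ∀ j < l.length, pvkyFl b η ∈ kit.G (pvthZ 𝔤.δ z d l j) (pvthD d l j) ∧ pvkyFl b η ∈ kit.A (pvthZ 𝔤.δ z d l j) (pvthD d l j) (pvthL l j) := by
    intro j hj
    have := hE j hj
    rwa [D.δ] at this
  have hG : DelGood (cfSites η) := (a1 0 (hE' 0 hl).1).1
  refine ⟨hG, ?_⟩
  have hex : ∀ j, j < l.length → ∃ g g' N, PvukLink 𝔤 b η (pvthZ 𝔤.δ z d l j) (pvthD d l j) (pvthL l j) g g' N ∧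
      pvthX XQ (pvthZ 𝔤.δ z d l j) (pvthD d l j) (pvthL l j) (pvkyFl b η) = pvukMass b η (pvkdAt (pvthZ 𝔤.δ z d l j) (pvthD d l j) (𝔤.Mk (pvthL l j))) g g' :=
    fun j hj => a2 j (hE' j hj).1 (hE' j hj).2
  have : Nonempty ((pvkiT η).Gate (pvukS b η)) := ⟨(hex 0 hl).choose⟩
  choose! g0 g1 N hl' using hex
  set g : ℕ → (pvkiT η).Gate (pvukS b η) := fun j => if j < l.length then g0 j else g1 (l.length - 1) with hgdef
  have hg : ∀ j, j < l.length → g j = g0 j := fun j hj => if_pos hj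
  have hnext : ∀ j, j < l.length → g1 j = g (j + 1) := by
    intro j hj
    by_cases hj' : j + 1 < l.length
    · rw [hg _ hj']
      obtain ⟨e1, e2⟩ := pvuk_exit 𝔤 z d l hj
      have h3 := (hl' j hj).1.2.1
      rw [e1, e2] at h3
      exact pvuk_uniq hG D.zz h3 (hl' _ hj').1.1
    · have e : j = l.length - 1 := by omega
      show g1 j = if j + 1 < l.length then g0 (j + 1) else g1 (l.length - 1)
      rw [if_neg hj', ← e]
  refine ⟨g, N, fun j hj => ?_⟩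
  rw [hg j hj, ← hnext j hj]
  refine ⟨(hl' j hj).1, ?_⟩
  rw [← (hl' j hj).2]
  show pvthX XQ (pvthZ kit.δ z d l j) (pvthD d l j) (pvthL l j) (pvkyFl b η) = _
  rw [D.δ]

/-! ## 5. the dictionary of the scaled kit of a global datum of 34 -/

section law

variable {d : ℂ} {s : ℝ}

/-- the law under a general inverse frame -/
theorem pvuk_law_inv (z : ℂ) {a : ℂ} (ha : a ≠ 0) (ε : ℝ) : (pvP ε).map (cfMap (pvthInv z a)) = pvP (‖a‖⁻¹ * ε) := by
  have hi : a⁻¹ ≠ 0 := inv_ne_zero ha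
  have e : pvthInv z a = fun w => a⁻¹ * w + (-z / a) := by
    funext w; unfold pvthInv; field_simp; ring
  have := pvci_law_aff a⁻¹ (-z / a) hi ε
  rw [pvci_aff_image, norm_inv] at this
  rw [e]; exact this

theorem pvuk_law_fl (b : Bool) (ε : ℝ) : (pvP ε).map (pvkyFl b) = pvP ε := by
  cases b
  · exact pvP_flip ε
  · exact Measure.map_id

/-- **the configuration at which the unit kit is evaluated has the law of the unit mesh** -/
theorem pvuk_law (b : Bool) (z : ℂ) (hd : ‖d‖ = 1) (hs : 0 < s) (e : ℝ) : (pvP (s * e)).map (fun η => cfMap (pvthInv z (d * s)) (pvkyFl b η)) = pvP e := by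
  have ha : d * (s : ℂ) ≠ 0 := mul_ne_zero (pvth_ne_zero hd) (Complex.ofReal_ne_zero.2 hs.ne')
  have h1 : (fun η => cfMap (pvthInv z (d * s)) (pvkyFl b η)) = cfMap (pvthInv z (d * s)) ∘ pvkyFl b := rfl
  rw [h1, ← Measure.map_map (measurable_cfMap (pvth_measurable_inv _ _)) (measurable_pvkyFl b), pvuk_law_fl, pvuk_law_inv z ha, norm_mul, hd, one_mul, Complex.norm_real,
    Real.norm_eq_abs, abs_of_pos hs, ← mul_assoc, inv_mul_cancel₀ hs.ne', one_mul]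

/-- an a.s. property of the unit mesh holds a.s. at the configuration at which the unit kit is evaluated -/
theorem pvuk_ae (b : Bool) (z : ℂ) (hd : ‖d‖ = 1) (hs : 0 < s) {e : ℝ} {P : Conf PvPt → Prop} (h : ∀ᵐ ξ ∂(pvP e), P ξ) :
    ∀ᵐ η ∂(pvP (s * e)), P (cfMap (pvthInv z (d * s)) (pvkyFl b η)) := by
  refine ae_of_ae_map (f := fun η => cfMap (pvthInv z (d * s)) (pvkyFl b η)) ((measurable_cfMap (pvth_measurable_inv _ _)).comp (measurable_pvkyFl b)).aemeasurable ?_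
  rw [pvuk_law b z hd hs e]
  exact h

theorem pvuk_sc_comp (z : ℂ) (hd : d ≠ 0) (s : ℝ) (ζ : Conf PvPt) : cfMap (pvthInv 0 s) (cfMap (pvthInv z d) ζ) = cfMap (pvthInv z (d * s)) ζ := by
  rw [pvci_cfMap_comp, pvth_inv_comp z d 0 s hd, mul_zero, add_zero]

theorem pvuk_sc_G (kit : PvthKit) (z : ℂ) (hd : d ≠ 0) (s : ℝ) (ζ : Conf PvPt) : ζ ∈ (kit.sc s).G z d ↔ cfMap (pvthInv z (d * s)) ζ ∈ kit.G₀ := by
  rw [← pvuk_sc_comp z hd s ζ]
  exact Iff.rfl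

theorem pvuk_sc_A (kit : PvthKit) (z : ℂ) (hd : d ≠ 0) (s : ℝ) (τ : PvtTurn) (ζ : Conf PvPt) : ζ ∈ (kit.sc s).A z d τ ↔ cfMap (pvthInv z (d * s)) ζ ∈ kit.A₀ τ := by
  rw [← pvuk_sc_comp z hd s ζ]
  exact Iff.rfl

theorem pvuk_sc_X (F : PvtTurn → Conf PvPt → ℂ) (z : ℂ) (hd : d ≠ 0) (s : ℝ) (τ : PvtTurn) (ζ : Conf PvPt) :
    pvthX (pvthX F 0 s) z d τ ζ = d * s * F τ (cfMap (pvthInv z (d * s)) ζ) := by
  unfold pvthX
  rw [pvuk_sc_comp z hd s ζ, mul_assoc]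

end law

theorem pvuk_vor_zero (a c : ℂ) : vorSim a c 0 = c := by unfold vorSim; ring

/-- nice + mesh do not see the colours -/
theorem pvuk_N_fl (𝔭 : PvkdPlug) (b : Bool) (z d : ℂ) (η : Conf PvPt) : pvkyFl b η ∈ 𝔭.N z d ↔ η ∈ 𝔭.N z d := by
  unfold PvkdPlug.N
  simp only [mem_ofPred_eq, pvuk_sites_fl]

theorem pvuk_NA_fl (𝔤 : PvkdGeo) (b : Bool) (z d : ℂ) (τ : PvtTurn) (η : Conf PvPt) : pvkyFl b η ∈ 𝔤.NA z d τ ↔ η ∈ 𝔤.NA z d τ := by
  unfold PvkdGeo.NA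
  simp only [mem_ofPred_eq, pvuk_sites_fl]

/-- nice + mesh of the unit plug at the configuration at which the unit kit is evaluated = nice + mesh of the scaled placed plug at `η` -/
theorem pvuk_N_pull (𝔭 : PvkdPlug) (b : Bool) (z : ℂ) {d : ℂ} (hd : d ^ 4 = 1) {s : ℝ} (hs : 0 < s) (η : Conf PvPt) :
    cfMap (pvthInv z (d * s)) (pvkyFl b η) ∈ 𝔭.N 0 1 ↔ η ∈ (𝔭.sc s).N z d := by
  have h1 := pvdil_cov_N 𝔭 hs 0 1
  rw [mul_zero] at h1
  rw [← pvuk_N_fl (𝔭.sc s) b, pvco_cov_N (𝔭.sc s) z hd, mem_preimage, h1, mem_preimage, pvuk_sc_comp z (pvco_ne hd)]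

theorem pvuk_NA_pull (𝔤 : PvkdGeo) (b : Bool) (z : ℂ) {d : ℂ} (hd : d ^ 4 = 1) {s : ℝ} (hs : 0 < s) (τ : PvtTurn) (η : Conf PvPt) :
    cfMap (pvthInv z (d * s)) (pvkyFl b η) ∈ 𝔤.NA 0 1 τ ↔ η ∈ (𝔤.sc s).NA z d τ := by
  have h1 := pvdil_cov_NA 𝔤 hs 0 1 τ
  rw [mul_zero] at h1
  rw [← pvuk_NA_fl (𝔤.sc s) b, pvco_cov_NA (𝔤.sc s) z hd, mem_preimage, h1, mem_preimage, pvuk_sc_comp z (pvco_ne hd)]

/-- **[KDICT] FOR THE SCALED KIT OF THE DATUM `𝔤.glob Hf`** -/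
theorem pvuk_dict {𝔤 : PvkdGeo} {Hf : Fin 4 → Set (Conf PvPt)} {e : ℝ} {b0 q β' : ℝ≥0∞} {CB r : ℝ} (H : (𝔤.glob Hf).Ok e b0 q β' CB r) (hZ : Disjoint 𝔤.Zm 𝔤.Zp) {s : ℝ} (hs : 0 < s) :
    PvukDict (((𝔤.glob Hf).kit (pvP e) b0 q).sc s) (pvthX ((𝔤.glob Hf).fQ (pvP e)) 0 s) (𝔤.sc s) (s * e) where
  δ := rfl
  zz := pvuk_sc_disj hs hZ
  door b z d hd4 := by
    have hd : ‖d‖ = 1 := pvth_norm_of_pow hd4
    have hd0 : d ≠ 0 := pvth_ne_zero hd
    have ha : d * (s : ℂ) ≠ 0 := mul_ne_zero hd0 (Complex.ofReal_ne_zero.2 hs.ne')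
    have h1 := pvuk_ae b z hd hs (pvpg_sure_ae (pv_isPpp e) (pvpg_mO H 0 1 one_ne_zero) H.mC)
    filter_upwards [h1, delgp_ae_conf (s * e)] with η a1 a2 hG
    have hC : cfMap (pvthInv z (d * s)) (pvkyFl b η) ∈ 𝔤.C 0 1 := a1 ((pvuk_sc_G _ z hd0 s _).1 hG).1
    have M := pvuk_mor b a2.2.2 z ha
    obtain ⟨hN, g, hg⟩ := hC
    refine ⟨M.good hN.1.good, M.gate g, ?_⟩
    have := pvuk_mor_gate M hd hs hg
    rwa [pvuk_vor_zero, mul_one] at this
  link b z d τ hd4 := by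
    have hd : ‖d‖ = 1 := pvth_norm_of_pow hd4
    have hd0 : d ≠ 0 := pvth_ne_zero hd
    have ha : d * (s : ℂ) ≠ 0 := mul_ne_zero hd0 (Complex.ofReal_ne_zero.2 hs.ne')
    have h1 := pvuk_ae b z hd hs (pvpg_dict0 H τ)
    filter_upwards [h1, delgp_ae_conf (s * e)] with η a1 a2 hG hA
    obtain ⟨-, hA', hX⟩ := a1 ((pvuk_sc_G _ z hd0 s _).1 hG) ((pvuk_sc_A _ z hd0 s τ _).1 hA)
    have M := pvuk_mor b a2.2.2 z ha
    obtain ⟨hNA, g, g', N, hl⟩ : cfMap (pvthInv z (d * s)) (pvkyFl b η) ∈ 𝔤.A 0 1 τ := hA'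
    refine ⟨M.gate g, M.gate g', N, ?_, ?_⟩
    · have := pvuk_mor_link M hd hs hl
      rwa [pvuk_vor_zero, mul_one] at this
    · rw [pvuk_sc_X _ z hd0, hX]
      show d * s * 𝔤.XQ 0 1 τ _ = pvukMass b η (pvkdAt z d (pvdilS s (𝔤.Mk τ))) _ _
      rw [pvkx_sum 𝔤 hZ _ _ _ _ _ _ _ hNA hl, ← pvuk_mor_mass M, ← pvco_at, pvuk_vor_zero, mul_one, pvuk_at_sc]
  doorN b z d hd4 := by
    have hd : ‖d‖ = 1 := pvth_norm_of_pow hd4
    have hd0 : d ≠ 0 := pvth_ne_zero hd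
    have h1 := pvuk_ae b z hd hs (pvpg_sure_ae (pv_isPpp e) (pvpg_mO H 0 1 one_ne_zero) H.mC)
    filter_upwards [h1] with η a1 hG
    have hC : cfMap (pvthInv z (d * s)) (pvkyFl b η) ∈ 𝔤.C 0 1 := a1 ((pvuk_sc_G _ z hd0 s _).1 hG).1
    exact (pvuk_N_pull 𝔤.toPvkdPlug b z hd4 hs η).1 hC.1
  linkN b z d τ hd4 := by
    have hd : ‖d‖ = 1 := pvth_norm_of_pow hd4
    have hd0 : d ≠ 0 := pvth_ne_zero hd
    have h1 := pvuk_ae b z hd hs (pvpg_dict0 H τ)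
    filter_upwards [h1] with η a1 hG hA
    obtain ⟨-, hA', -⟩ := a1 ((pvuk_sc_G _ z hd0 s _).1 hG) ((pvuk_sc_A _ z hd0 s τ _).1 hA)
    have hA2 : cfMap (pvthInv z (d * s)) (pvkyFl b η) ∈ 𝔤.A 0 1 τ := hA'
    exact (pvuk_NA_pull 𝔤 b z hd4 hs τ η).1 hA2.1

/-! ## 6. at the engine -/

/-- **[KDICT] AT THE ENGINE**: the cell kit and the cell field of level `m` of an engine whose reference family is the unit of the datum `𝔤.glob Hf` (`pvku_unit` of 258) -/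
theorem pvuk_eng {τ : Type} {c : ℝ} {𝔈 : PvieEng τ} {U : PvkmUnit} (hU : PvkmEng 𝔈 c U) {𝔤 : PvkdGeo} {Hf : Fin 4 → Set (Conf PvPt)} {b0 q : ℝ≥0∞} {r : ℝ}
    (hk : ∀ e, U.kit e = (𝔤.glob Hf).kit (pvP e) b0 q) (hX : ∀ e, U.XQ e = (𝔤.glob Hf).fQ (pvP e)) (hok : ∀ᶠ e in 𝓝[>] (0 : ℝ), ∃ β' CB, (𝔤.glob Hf).Ok e b0 q β' CB r)
    (hZ : Disjoint 𝔤.Zm 𝔤.Zp) (m : ℕ) : ∀ᶠ ε in 𝓝[>] (0 : ℝ), PvukDict (𝔈.kit m ε) (𝔈.XQ m ε) (𝔤.sc (pvlmDel c m)) ε := by
  have hs := pvlm_Del_pos c m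
  filter_upwards [(pvkm_tendsto_div hs).eventually hok] with ε hε
  obtain ⟨β', CB, H⟩ := hε
  have := pvuk_dict H hZ hs
  rw [mul_div_cancel₀ _ hs.ne'] at this
  rw [hU.kit, hU.XQ]
  unfold pvkmEngKit pvkmEngXQ
  rw [hk, hX]
  exact this

/-- **[KDICT] AT THE ENGINE OF RECORD**: the contract `PvnnEng` of 258 gives the dictionary at the geometry of record `pvkgG` scaled by `δ_m` -/
theorem pvuk_nn {τ : Type} {c : ℝ} {𝔈 : PvieEng τ} (h : PvnnEng 𝔈 c) (m : ℕ) : ∀ᶠ ε in 𝓝[>] (0 : ℝ), PvukDict (𝔈.kit m ε) (𝔈.XQ m ε) (pvkgG.sc (pvlmDel c m)) ε := by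
  obtain ⟨Hf, b, q, β', CB, H, hU⟩ := h
  exact pvuk_eng hU (fun _ => rfl) (fun _ => rfl) (H.ok.mono fun e he => ⟨β', CB, he⟩) pvkgg_xref.ZZ m

/-! ## 7. the door end of `Tr/InstL`; the mask of a cell at its two doors; the reference conditions at every scale -/

/-- the gate of record with nice + mesh IS the door end of `Tr/InstL` -/
theorem pvuk_doorL {𝔭 : PvkdPlug} {b : Bool} {η : Conf PvPt} {z d : ℂ} (hN : η ∈ 𝔭.N z d) {g : (pvkiT η).Gate (pvukS b η)} (hg : PvukGate 𝔭 b η z d g) :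
    PvilDoor 𝔭 b η z d (pvilStS 𝔭 η (pvieCol η b) z g) := ⟨hN, g, hg, rfl⟩

/-- a door end of `Tr/InstL` is the state of THE gate of record -/
theorem pvuk_doorL_inv {𝔭 : PvkdPlug} {b : Bool} {η : Conf PvPt} {z d : ℂ} {𝔖 : PvwSt (pvieT η)} (h : PvilDoor 𝔭 b η z d 𝔖) :
    η ∈ 𝔭.N z d ∧ ∃ g : (pvkiT η).Gate (pvukS b η), PvukGate 𝔭 b η z d g ∧ 𝔖 = pvilStS 𝔭 η (pvieCol η b) z g := h

/-- **(4a') IN THE NAMES OF `Tr/InstL`**: a usable door plug carries the door end -/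
theorem PvukDict.doorL {kit : PvthKit} {XQ : PvtTurn → Conf PvPt → ℂ} {𝔤 : PvkdGeo} {ε : ℝ} (D : PvukDict kit XQ 𝔤 ε) (b : Bool) (z d : ℂ) (hd : d ^ 4 = 1) :
    ∀ᵐ η ∂(pvP ε), pvkyFl b η ∈ kit.G z d → ∃ g : (pvkiT η).Gate (pvukS b η), PvukGate 𝔤.toPvkdPlug b η z d g ∧ PvilDoor 𝔤.toPvkdPlug b η z d (pvilStS 𝔤.toPvkdPlug η (pvieCol η b) z g) := by
  filter_upwards [D.door b z d hd, D.doorN b z d hd] with η a1 a2 hG
  obtain ⟨-, g, hg⟩ := a1 hG
  exact ⟨g, hg, pvuk_doorL (a2 hG) hg⟩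

/-- division by a unit is multiplication by the conjugate -/
theorem pvuk_div_unit {d : ℂ} (hd : ‖d‖ = 1) (w : ℂ) : w / d = w * (starRingEnd ℂ) d := by
  have h0 : d ≠ 0 := pvth_ne_zero hd
  have h1 : d * (starRingEnd ℂ) d = 1 := by
    rw [Complex.mul_conj, Complex.normSq_eq_norm_sq, hd]; norm_num
  rw [div_eq_iff h0, mul_assoc, mul_comm ((starRingEnd ℂ) d) d, h1, mul_one]

/-- **MASK AT A DOOR, THE CELL IN FRONT**: in the disc of its entrance door the placed mask of record is the closed half plane in front of the door -/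
theorem pvuk_mask_front {z d : ℂ} (hd : ‖d‖ = 1) {δ : ℝ} {p : ℂ} (hp : p ∈ Metric.ball z (δ / 4)) : p ∈ pvkdAt z d (pvkxM δ) ↔ p ∈ pvilHp z d := by
  rw [pvkx_mem_at (pvth_ne_zero hd), pvuk_div_unit hd]
  have hn : ‖(p - z) * (starRingEnd ℂ) d‖ < δ / 4 := by
    rw [norm_mul, RCLike.norm_conj, hd, mul_one, ← dist_eq_norm]; exact hp
  have h1 := abs_lt.1 (lt_of_le_of_lt (Complex.abs_re_le_norm _) hn)
  have h2 := abs_lt.1 (lt_of_le_of_lt (Complex.abs_im_le_norm _) hn)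
  have h0 : 0 < δ := by have := norm_nonneg ((p - z) * (starRingEnd ℂ) d); linarith
  show (0 ≤ ((p - z) * (starRingEnd ℂ) d).re ∧ ((p - z) * (starRingEnd ℂ) d).re < δ ∧ -(δ / 2) < ((p - z) * (starRingEnd ℂ) d).im ∧ ((p - z) * (starRingEnd ℂ) d).im < δ / 2) ↔
    0 ≤ ((p - z) * (starRingEnd ℂ) d).re
  exact ⟨fun h => h.1, fun h => ⟨h, by linarith [h1.2], by linarith [h2.1], by linarith [h2.2]⟩⟩

/-- **MASK AT A DOOR, THE CELL BEHIND**: in the disc of its exit door the placed mask of record is the complement of the closed half plane in front of that door -/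
theorem pvuk_mask_back {z d : ℂ} (hd : ‖d‖ = 1) {δ : ℝ} (τ : PvtTurn) {p : ℂ} (hp : p ∈ Metric.ball (z + d * (δ * τ.mid)) (δ / 4)) :
    p ∈ pvkdAt z d (pvkxM δ) ↔ p ∉ pvilHp (z + d * (δ * τ.mid)) (d * τ.rot) := by
  rw [pvkx_mem_at (pvth_ne_zero hd), pvuk_div_unit hd]
  have h1 : d * (starRingEnd ℂ) d = 1 := by
    rw [Complex.mul_conj, Complex.normSq_eq_norm_sq, hd]; norm_num
  set v : ℂ := (p - (z + d * (δ * τ.mid))) * (starRingEnd ℂ) d with hv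
  have hn : ‖v‖ < δ / 4 := by
    rw [hv, norm_mul, RCLike.norm_conj, hd, mul_one, ← dist_eq_norm]; exact hp
  have e1 : (p - z) * (starRingEnd ℂ) d = v + δ * τ.mid := by
    rw [hv]
    linear_combination (δ * τ.mid : ℂ) * h1
  have e2 : (p - (z + d * (δ * τ.mid))) * (starRingEnd ℂ) (d * τ.rot) = v * (starRingEnd ℂ) τ.rot := by
    rw [hv, map_mul]; ring
  have a1 := abs_lt.1 (lt_of_le_of_lt (Complex.abs_re_le_norm _) hn)
  have a2 := abs_lt.1 (lt_of_le_of_lt (Complex.abs_im_le_norm _) hn)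
  have h0 : 0 < δ := by have := norm_nonneg v; linarith
  show (0 ≤ ((p - z) * (starRingEnd ℂ) d).re ∧ ((p - z) * (starRingEnd ℂ) d).re < δ ∧ -(δ / 2) < ((p - z) * (starRingEnd ℂ) d).im ∧ ((p - z) * (starRingEnd ℂ) d).im < δ / 2) ↔
    ¬ 0 ≤ ((p - (z + d * (δ * τ.mid))) * (starRingEnd ℂ) (d * τ.rot)).re
  rw [e1, e2, not_le]
  cases τ
  · have r1 : (v + (δ : ℂ) * PvtTurn.S.mid).re = v.re + δ := by simp [PvtTurn.mid]
    have r2 : (v + (δ : ℂ) * PvtTurn.S.mid).im = v.im := by simp [PvtTurn.mid]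
    have r3 : (v * (starRingEnd ℂ) PvtTurn.S.rot).re = v.re := by simp [PvtTurn.rot]
    rw [r1, r2, r3]
    exact ⟨fun h => by linarith [h.2.1], fun h => ⟨by linarith [a1.1], by linarith, by linarith [a2.1], by linarith [a2.2]⟩⟩
  · have r1 : (v + (δ : ℂ) * PvtTurn.L.mid).re = v.re + δ / 2 := by simp [PvtTurn.mid]; ring
    have r2 : (v + (δ : ℂ) * PvtTurn.L.mid).im = v.im + δ / 2 := by simp [PvtTurn.mid]; ring
    have r3 : (v * (starRingEnd ℂ) PvtTurn.L.rot).re = v.im := by simp [PvtTurn.rot]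
    rw [r1, r2, r3]
    exact ⟨fun h => by linarith [h.2.2.2], fun h => ⟨by linarith [a1.1], by linarith [a1.2], by linarith [a2.1], by linarith⟩⟩
  · have r1 : (v + (δ : ℂ) * PvtTurn.R.mid).re = v.re + δ / 2 := by simp [PvtTurn.mid]; ring
    have r2 : (v + (δ : ℂ) * PvtTurn.R.mid).im = v.im - δ / 2 := by simp [PvtTurn.mid]; ring
    have r3 : (v * (starRingEnd ℂ) PvtTurn.R.rot).re = -v.im := by simp [PvtTurn.rot]
    rw [r1, r2, r3]
    exact ⟨fun h => by linarith [h.2.2.1], fun h => ⟨by linarith [a1.1], by linarith [a1.2], by linarith, by linarith [a2.2]⟩⟩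

section word

variable {𝔤 : PvkdGeo} (R : PvkxRef 𝔤) (z : ℂ) {d : ℂ} (hd : d ^ 4 = 1) (l : List PvtTurn)

include R hd

theorem pvuk_ball_sub (j : ℕ) : Metric.ball (pvthZ 𝔤.δ z d l j) 𝔤.b ⊆ Metric.ball (pvthZ 𝔤.δ z d l j) (𝔤.δ / 4) := Metric.ball_subset_ball R.b4

/-- in the disc of the door `j` the placed mask of the cell `j` is the half plane in front of the door -/
theorem pvuk_Qf (j : ℕ) {p : ℂ} (hp : p ∈ Metric.ball (pvthZ 𝔤.δ z d l j) 𝔤.b) :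
    p ∈ pvkdAt (pvthZ 𝔤.δ z d l j) (pvthD d l j) (𝔤.Mk (pvthL l j)) ↔ p ∈ pvilHp (pvthZ 𝔤.δ z d l j) (pvthD d l j) := by
  rw [R.Mk]
  exact pvuk_mask_front (pvth_norm_of_pow (pvtDir_pow_four d hd _)) (pvuk_ball_sub R z hd l j hp)

/-- in the disc of the door `j + 1` the placed mask of the cell `j` is the complement of the half plane in front of the door -/
theorem pvuk_Qb {j : ℕ} (hj : j < l.length) {p : ℂ} (hp : p ∈ Metric.ball (pvthZ 𝔤.δ z d l (j + 1)) 𝔤.b) :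
    p ∈ pvkdAt (pvthZ 𝔤.δ z d l j) (pvthD d l j) (𝔤.Mk (pvthL l j)) ↔ p ∉ pvilHp (pvthZ 𝔤.δ z d l (j + 1)) (pvthD d l (j + 1)) := by
  obtain ⟨e1, e2⟩ := pvuk_exit 𝔤 z d l hj
  have hp' := pvuk_ball_sub R z hd l (j + 1) hp
  rw [← e1] at hp' ⊢
  rw [R.Mk, ← e2]
  exact pvuk_mask_back (pvth_norm_of_pow (pvtDir_pow_four d hd _)) _ hp'

/-- **field `Q0` of `PvlcReg`** (70), first link masked by `(pvilHp (door 0))ᶜ` -/
theorem pvuk_Q0 : ∀ p ∈ Metric.ball (pvthZ 𝔤.δ z d l 0) 𝔤.b,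
    (p ∈ pvkdAt (pvthZ 𝔤.δ z d l 0) (pvthD d l 0) (𝔤.Mk (pvthL l 0)) ↔ p ∉ (pvilHp (pvthZ 𝔤.δ z d l 0) (pvthD d l 0))ᶜ) := fun p hp => by
  rw [pvuk_Qf R z hd l 0 hp, mem_compl_iff, not_not]

/-- **field `Qm` of `PvlcReg`** (70), last link masked by `pvilHp (last door)` -/
theorem pvuk_Qm (hl : 0 < l.length) : ∀ p ∈ Metric.ball (pvthZ 𝔤.δ z d l l.length) 𝔤.b,
    (p ∈ pvkdAt (pvthZ 𝔤.δ z d l (l.length - 1)) (pvthD d l (l.length - 1)) (𝔤.Mk (pvthL l (l.length - 1))) ↔ p ∉ pvilHp (pvthZ 𝔤.δ z d l l.length) (pvthD d l l.length)) := fun p hp => by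
  obtain ⟨n, hn⟩ : ∃ n, l.length = n + 1 := ⟨l.length - 1, by omega⟩
  rw [hn] at hp ⊢
  rw [Nat.add_sub_cancel]
  exact pvuk_Qb R z hd l (by omega) hp

/-- **field `Qj` of `PvlcReg`** (70): in the disc of an inner door the masks of the two cells are complementary -/
theorem pvuk_Qj : ∀ j, 0 < j → j < l.length → ∀ p ∈ Metric.ball (pvthZ 𝔤.δ z d l j) 𝔤.b,
    (p ∈ pvkdAt (pvthZ 𝔤.δ z d l (j - 1)) (pvthD d l (j - 1)) (𝔤.Mk (pvthL l (j - 1))) ↔ p ∉ pvkdAt (pvthZ 𝔤.δ z d l j) (pvthD d l j) (𝔤.Mk (pvthL l j))) := fun j h0 hj p hp => by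
  obtain ⟨n, rfl⟩ : ∃ n, j = n + 1 := ⟨j - 1, by omega⟩
  rw [Nat.add_sub_cancel, pvuk_Qb R z hd l (by omega) hp, pvuk_Qf R z hd l (n + 1) hp]

end word

/-- the mask of record is scale covariant -/
theorem pvuk_M_sc {s : ℝ} (hs : 0 < s) (δ : ℝ) : pvdilS s (pvkxM δ) = pvkxM (s * δ) := by
  have a0 := pvbe_sc_ne hs
  ext w
  obtain ⟨u, rfl⟩ := vorSim_surjective a0 0 w
  unfold pvdilS
  rw [(vorSim_injective a0 0).mem_set_image]
  simp only [pvkxM, vorSim, mem_ofPred_eq, add_zero, Complex.re_ofReal_mul, Complex.im_ofReal_mul]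
  have e1 : -(s * δ / 2) = s * (-(δ / 2)) := by ring
  have e2 : s * δ / 2 = s * (δ / 2) := by ring
  rw [e1, e2, mul_lt_mul_iff_right₀ hs, mul_lt_mul_iff_right₀ hs, mul_lt_mul_iff_right₀ hs]
  constructor
  · rintro ⟨a, b, c, d⟩
    exact ⟨by positivity, b, c, d⟩
  · rintro ⟨a, b, c, d⟩
    exact ⟨by by_contra hc; nlinarith, b, c, d⟩

/-- **THE REFERENCE CONDITIONS OF `Tr/PlugClose` HOLD AT EVERY SCALE** -/
theorem pvuk_ref_sc {𝔤 : PvkdGeo} (R : PvkxRef 𝔤) {s : ℝ} (hs : 0 < s) : PvkxRef (𝔤.sc s) where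
  δ0 := mul_pos hs R.δ0
  ZZ := pvuk_sc_disj hs R.ZZ
  Mk τ := by
    show pvdilS s (𝔤.Mk τ) = pvkxM (s * 𝔤.δ)
    rw [R.Mk, pvuk_M_sc hs]
  Co τ := by
    show pvdilS s (𝔤.Co τ) ⊆ pvkxM (s * 𝔤.δ)
    rw [← pvuk_M_sc hs]
    exact image_mono (R.Co τ)
  b4 := by
    show s * 𝔤.b ≤ s * 𝔤.δ / 4
    have := mul_le_mul_of_nonneg_left R.b4 hs.le
    linarith
  Zm τ := pvuk_sc_disj hs (R.Zm τ)
  Zp τ := by
    show Disjoint (pvkdAt (((s * 𝔤.δ : ℝ) : ℂ) * τ.mid) τ.rot (pvdilS s 𝔤.Zp)) (pvdilS s (𝔤.Co τ))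
    have e : (((s * 𝔤.δ : ℝ) : ℂ) * τ.mid) = (s : ℂ) * ((𝔤.δ : ℂ) * τ.mid) := by push_cast; ring
    rw [e, pvdil_at]
    exact (disjoint_image_iff (vorSim_injective (pvbe_sc_ne hs) 0)).2 (R.Zp τ)
  Zpb := by
    show pvdilS s 𝔤.Zp ⊆ Metric.closedBall 0 (s * 𝔤.δ / 4)
    have h := pvdil_cball hs 0 (𝔤.δ / 4)
    have e0 : vorSim (s : ℂ) 0 0 = 0 := by simp [vorSim]
    rw [e0] at h
    rw [show s * 𝔤.δ / 4 = s * (𝔤.δ / 4) by ring, h]
    exact image_mono R.Zpb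

/-! ## 8. what the kit owes to the mixed close of 95, either colour -/

section closeM

variable {𝔭 : PvkdPlug} {𝔤 : PvkdGeo} {b : Bool} {η : Conf PvPt} {z d : ℂ}

theorem pvuk_S_cm (b : Bool) (η : Conf PvPt) : pvcmS η b = pvukS b η := rfl

/-- the closed inside of the gate of record lies over the disc `B(z, b)` -/
theorem pvuk_gate_ball {g : (pvkiT η).Gate (pvukS b η)} (h : PvukGate 𝔭 b η z d g) {v : ↥(cfSites η)} (hv : v ∈ (pvkiT η).VOf g.c.Left) : (v : ℂ) ∈ Metric.ball z 𝔭.b := by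
  obtain ⟨e, he, rfl⟩ := hv
  exact h.least.reg.outer e he

/-- the inside of the gate of record is finite -/
theorem pvuk_gate_fin (hN : PvatNice (cfSites η)) {g : (pvkiT η).Gate (pvukS b η)} (h : PvukGate 𝔭 b η z d g) : g.c.Left.Finite := by
  have hT : (pvkiT η).IsSph := delb_plane_isSph hN.good
  have hF : {v : ↥(cfSites η) | (v : ℂ) ∈ Metric.ball z 𝔭.b}.Finite := by
    have h1 := hN.finite (W := Metric.ball z 𝔭.b) Metric.isBounded_ball
    refine Set.Finite.of_finite_image (f := Subtype.val) (h1.subset ?_) Subtype.val_injective.injOn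
    rintro _ ⟨v, hv, rfl⟩
    exact ⟨v.2, hv⟩
  refine (hF.biUnion fun v _ => pl_deg_finite hT v).subset fun e he => ?_
  exact Set.mem_biUnion (pvuk_gate_ball h ⟨e, he, rfl⟩) rfl

/-- the barycentres of the faces crossed by the through strand lie in the disc -/
theorem pvuk_gate_bary (hN : PvatNice (cfSites η)) {g : (pvkiT η).Gate (pvukS b η)} (h : PvukGate 𝔭 b η z d g) {f : (delbPl (cfSites η)).Dart}
    (hf : f ∈ pvasFc (pvkiT η) (pvukS b η) g.aIn g.len) : (pvkiT η).bary Subtype.val f ∈ Metric.ball z 𝔭.b := by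
  have hT : (pvkiT η).IsSph := delb_plane_isSph hN.good
  obtain ⟨K, hK⟩ := h.thru
  have hlen := (hK.len hT).1
  have hA := pl_left_face g.c
  have hsub : ∀ f' ∈ pvasFc (pvkiT η) (pvukS b η) g.aIn g.len, f' ∈ g.c.Left := by
    rintro f' ⟨i, hi, hsf⟩
    rw [hlen] at hi
    exact (PvMap.FaceSet.sf _ hA hsf).2 (hK.2.2.2.1 i hi)
  have hv : ∀ v ∈ (pvkiT η).VOf (pvasFc (pvkiT η) (pvukS b η) g.aIn g.len), (v : ℂ) ∈ Metric.ball z 𝔭.b := by
    rintro _ ⟨f', hf', rfl⟩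
    exact pvuk_gate_ball h ⟨f', hsub f' hf', rfl⟩
  obtain ⟨h2, h3, h4⟩ := pvki_fc_verts hf
  exact pvki_bary_convex (convex_ball z 𝔭.b) (hv _ h2) (hv _ h3) (hv _ h4)

/-- **A KIT PLUG PAYS `PvcmPl`** (95), either colour: zone = the disc `B(z, b)`, any two masks which cover it -/
theorem pvuk_pl (hN : PvatNice (cfSites η)) {g : (pvkiT η).Gate (pvukS b η)} (h : PvukGate 𝔭 b η z d g) {Mm Mp : Set ℂ} (hM : Metric.ball z 𝔭.b ⊆ Mm ∪ Mp) :
    PvcmPl η b (Metric.ball z 𝔭.b) Mm Mp g where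
  fin := pvuk_gate_fin hN h
  thru := (h.thru.choose_spec.len (delb_plane_isSph hN.good)).2
  zone _ hv := pvuk_gate_ball h hv
  bary _ hf := hM (pvuk_gate_bary hN h hf)

/-- **A KIT CELL PAYS `PvcmCn`** (95), either colour: room = the placed `Co τ`, mask = the placed `Mk τ`, value = the mass of the link -/
theorem pvuk_cn (R : PvkxRef 𝔤) (hd : d ≠ 0) {τ : PvtTurn} {g g' : (pvkiT η).Gate (pvukS b η)} {N : ℕ} (hl : PvukLink 𝔤 b η z d τ g g' N) :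
    PvcmCn η b (pvkdAt z d (𝔤.Co τ)) (pvkdAt z d (𝔤.Mk τ)) (pvukMass b η (pvkdAt z d (𝔤.Mk τ)) g g') g g' where
  run := pvld_run_mono (fun _ hv => hv.1) hl.2.2.run
  vm_off hc := Set.disjoint_left.1 (pvkx_at_disj hd (R.Zm τ)) hl.1.vm hc
  vp_off hc := by
    have h1 : ((g'.vp : ↥(cfSites η)) : ℂ) ∈ pvkdAt (𝔤.zo z d τ) (d * τ.rot) 𝔤.Zp := hl.2.1.vp
    have e : pvkdAt (𝔤.zo z d τ) (d * τ.rot) 𝔤.Zp = pvkdAt z d (pvkdAt (𝔤.δ * τ.mid) τ.rot 𝔤.Zp) := by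
      rw [pvkx_at_at]; rfl
    rw [e] at h1
    exact Set.disjoint_left.1 (pvkx_at_disj hd (R.Zp τ)) h1 hc
  bary f hf := by
    have hf' : f ∈ pvasFc (pvkiT η) (pvukS b η) g.aOut N := by
      have := hl.2.2.hit
      rw [← this]; exact hf
    have hc : Convex ℝ (pvkdAt z d (𝔤.Mk τ)) := by
      rw [R.Mk]; exact pvkx_at_convex z d (pvkx_M_convex _)
    have hv : ∀ v ∈ (pvkiT η).VOf (pvasFc (pvkiT η) (pvukS b η) g.aOut N), (v : ℂ) ∈ pvkdAt z d (𝔤.Mk τ) := fun v hv => by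
      have h1 : (v : ℂ) ∈ pvkdAt z d (𝔤.Co τ) := (hl.2.2.2.2.2 hv).1
      rw [R.Mk]
      exact pvkx_at_mono z d (R.Co τ) h1
    obtain ⟨h2, h3, h4⟩ := pvki_fc_verts hf'
    exact pvki_bary_convex hc (hv _ h2) (hv _ h3) (hv _ h4)
  val := rfl

/-- the disc of an inner door of a word is covered by the masks of the two neighbours -/
theorem pvuk_door_cover (R : PvkxRef 𝔤) (z : ℂ) {d : ℂ} (hd : d ^ 4 = 1) (l : List PvtTurn) {j : ℕ} (hj : j < l.length) :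
    Metric.ball (pvthZ 𝔤.δ z d l (j + 1)) 𝔤.b ⊆
      pvkdAt (pvthZ 𝔤.δ z d l j) (pvthD d l j) (𝔤.Mk (pvthL l j)) ∪ pvkdAt (pvthZ 𝔤.δ z d l (j + 1)) (pvthD d l (j + 1)) (𝔤.Mk (pvthL l (j + 1))) := fun p hp => by
  by_cases c : p ∈ pvilHp (pvthZ 𝔤.δ z d l (j + 1)) (pvthD d l (j + 1))
  · exact Or.inr ((pvuk_Qf R z hd l (j + 1) hp).2 c)
  · exact Or.inl ((pvuk_Qb R z hd l hj hp).2 c)

/-- the plug of an inner door of a word pays `PvcmPl` with the masks of the two neighbours -/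
theorem pvuk_pl_word (R : PvkxRef 𝔤) (hN : PvatNice (cfSites η)) (z : ℂ) {d : ℂ} (hd : d ^ 4 = 1) (l : List PvtTurn) {j : ℕ} (hj : j < l.length)
    {g : (pvkiT η).Gate (pvukS b η)} (h : PvukGate 𝔤.toPvkdPlug b η (pvthZ 𝔤.δ z d l (j + 1)) (pvthD d l (j + 1)) g) :
    PvcmPl η b (Metric.ball (pvthZ 𝔤.δ z d l (j + 1)) 𝔤.b) (pvkdAt (pvthZ 𝔤.δ z d l j) (pvthD d l j) (𝔤.Mk (pvthL l j)))
      (pvkdAt (pvthZ 𝔤.δ z d l (j + 1)) (pvthD d l (j + 1)) (𝔤.Mk (pvthL l (j + 1)))) g :=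
  pvuk_pl hN h (pvuk_door_cover R z hd l hj)

end closeM

/-! ## 9. the geometry of record at the level `m` -/

/-- the plug of the geometry of record scaled by `s` is the plug of record of unit `s / 40` -/
theorem pvuk_rec_plug {s : ℝ} (hs : 0 < s) : (pvkgG.sc s).toPvkdPlug = pvkdP (s / 40) := by
  have h : (pvkgG.sc s).toPvkdPlug = (pvkdP (1 / 40)).sc s := rfl
  rw [h, pvdil_P hs, show s * (1 / 40) = s / 40 by ring]

/-- **the door plug of `Tr/InstL`** (`pvilRd 𝔓 m = δ_m / 40`) IS the plug of the cell kit of level `m` -/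
theorem pvuk_rec_rd {τ : Type} {c : ℝ} (𝔓 : PvxPar τ c) (m : ℕ) : (pvkgG.sc (pvlmDel c m)).toPvkdPlug = pvkdP (pvilRd 𝔓 m) := pvuk_rec_plug (pvlm_Del_pos c m)

theorem pvuk_rec_del (s : ℝ) : (pvkgG.sc s).δ = s := by
  show s * (1 : ℝ) = s
  rw [mul_one]

/-- the reference conditions of `Tr/PlugClose` at the level `m` -/
theorem pvuk_rec_ref (c : ℝ) (m : ℕ) : PvkxRef (pvkgG.sc (pvlmDel c m)) := pvuk_ref_sc pvkgg_xref (pvlm_Del_pos c m)

/-- the mask of record at the level `m` -/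
theorem pvuk_rec_Mk (c : ℝ) (m : ℕ) (τ : PvtTurn) : (pvkgG.sc (pvlmDel c m)).Mk τ = pvkxM (pvlmDel c m) := by
  rw [(pvuk_rec_ref c m).Mk, pvuk_rec_del]

/-! ## 10. the doors of a word against its cells -/

/-- two unit half-open cells in the frames `1`, `v` whose centres differ by a Gaussian integer and which share a point: same centre or same entrance door -/
theorem pvuk_cell_aux1 {v a b g : ℂ} (hv : v ^ 4 = 1) (ha : a ∈ pvkxM 1) (hb : b ∈ pvkxM 1) (hg : PvccG g) (e : v * (b - 1 / 2) - (a - 1 / 2) = g) :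
    g = 0 ∨ g = (1 - v) / 2 := by
  obtain ⟨m, n, rfl⟩ := hg
  obtain ⟨a1, a2, a3, a4⟩ := ha
  obtain ⟨b1, b2, b3, b4⟩ := hb
  have hre := congrArg Complex.re e
  have him := congrArg Complex.im e
  have int0 : ∀ x : ℤ, (-1 : ℝ) < x → (x : ℝ) < 1 → x = 0 := by
    intro x h1 h2
    have h1' : (-1 : ℤ) < x := by exact_mod_cast h1
    have h2' : x < (1 : ℤ) := by exact_mod_cast h2
    omega
  rcases pvt_fourth_root hv with rfl | rfl | rfl | rfl
  · simp at hre him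
    left
    rw [int0 m (by linarith) (by linarith), int0 n (by linarith) (by linarith)]
    simp
  · simp at hre him
    left
    rw [int0 m (by linarith) (by linarith), int0 n (by linarith) (by linarith)]
    simp
  · simp at hre him
    have hn := int0 n (by linarith) (by linarith)
    have hm : m = 0 ∨ m = 1 := by
      have h1 : (-1 : ℝ) < m := by linarith
      have h2 : (m : ℝ) < 2 := by linarith
      have h1' : (-1 : ℤ) < m := by exact_mod_cast h1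
      have h2' : m < (2 : ℤ) := by exact_mod_cast h2
      omega
    rcases hm with rfl | rfl
    · left; rw [hn]; simp
    · right; rw [hn]; norm_num
  · simp at hre him
    left
    rw [int0 m (by linarith) (by linarith), int0 n (by linarith) (by linarith)]
    simp

/-- the same in two frames `u`, `v` -/
theorem pvuk_cell_aux {u v a b g : ℂ} (hu : u ^ 4 = 1) (hv : v ^ 4 = 1) (ha : a ∈ pvkxM 1) (hb : b ∈ pvkxM 1) (hg : PvccG g) (e : v * (b - 1 / 2) - u * (a - 1 / 2) = g) :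
    g = 0 ∨ g = (u - v) / 2 := by
  have hu3 : (u ^ 3) ^ 4 = 1 := by rw [← pow_mul, mul_comm, pow_mul, hu, one_pow]
  have hu0 : u ≠ 0 := by
    rintro rfl
    norm_num at hu
  have hv' : (u ^ 3 * v) ^ 4 = 1 := by rw [mul_pow, hu3, hv, one_mul]
  have e' : u ^ 3 * v * (b - 1 / 2) - (a - 1 / 2) = u ^ 3 * g := by
    rw [← e]
    linear_combination (a - 1 / 2) * hu
  rcases pvuk_cell_aux1 hv' ha hb (PvccG.unit_mul hu3 hg) e' with h | h
  · left
    exact (mul_eq_zero.1 h).resolve_left (pow_ne_zero 3 hu0)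
  · right
    have : u * (u ^ 3 * g) = u * ((1 - u ^ 3 * v) / 2) := by rw [h]
    linear_combination this - (g + v / 2) * hu

/-- the half-open cells of a cell-simple word are pairwise disjoint, unit coordinates -/
theorem pvuk_mask_disj1 {l : List PvtTurn} {N : ℕ} (hs : PvccSimple l N) (hN : N ≤ l.length) {j k : ℕ} (hj : j ≤ N) (hk : k ≤ N) (hjk : j ≠ k) :
    Disjoint (pvkdAt (pvccZ 0 1 l j) (pvccD 1 l j) (pvkxM 1)) (pvkdAt (pvccZ 0 1 l k) (pvccD 1 l k) (pvkxM 1)) := by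
  rw [Set.disjoint_left]
  rintro p ⟨a, ha, rfl⟩ ⟨b, hb, e⟩
  have e' : pvccZ 0 1 l k + pvccD 1 l k * b = pvccZ 0 1 l j + pvccD 1 l j * a := e
  have e2 : pvccD 1 l k * (b - 1 / 2) - pvccD 1 l j * (a - 1 / 2) = pvccC 0 1 l j - pvccC 0 1 l k := by
    unfold pvccC
    linear_combination e'
  rcases pvuk_cell_aux (pvccD_pow_four (one_pow 4) l j) (pvccD_pow_four (one_pow 4) l k) ha hb (pvccC_sub_gauss l j k) e2 with h | h
  · exact hjk (hs j k hj hk (sub_eq_zero.1 h))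
  · refine hs.door_ne hN hj hk hjk ?_
    unfold pvccC at h
    linear_combination h

/-- **THE MASKS OF THE CELLS OF A CELL-SIMPLE WORD ARE PAIRWISE DISJOINT**      (half-open cells: centres distinct + doors distinct; for `PvucCyc1.dM` of 95 / 203) -/
theorem pvuk_mask_disj {δ : ℝ} (h0 : 0 < δ) (z : ℂ) {d : ℂ} (hd : d ^ 4 = 1) {l : List PvtTurn} {N : ℕ} (hs : PvccSimple l N) (hN : N ≤ l.length) {j k : ℕ} (hj : j ≤ N) (hk : k ≤ N)
    (hjk : j ≠ k) : Disjoint (pvkdAt (pvthZ δ z d l j) (pvthD d l j) (pvkxM δ)) (pvkdAt (pvthZ δ z d l k) (pvthD d l k) (pvkxM δ)) := by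
  have hd0 : d ≠ 0 := by
    rintro rfl
    norm_num at hd
  have key : ∀ i, pvkdAt (pvthZ δ z d l i) (pvthD d l i) (pvkxM δ) = pvkdAt z (d * δ) (pvkdAt (pvccZ 0 1 l i) (pvccD 1 l i) (pvkxM 1)) := by
    intro i
    have e1 : pvkxM δ = pvdilS δ (pvkxM 1) := by rw [pvuk_M_sc h0, mul_one]
    rw [e1, pvuk_at_sc, pvkx_at_at]
    have e2 : pvthZ δ z d l i = z + d * δ * pvccZ 0 1 l i := by
      have := pvccZ_cov 0 d l i
      unfold pvccZ at this ⊢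
      unfold pvthZ
      linear_combination (δ : ℂ) * this
    have e3 : pvthD d l i * δ = d * δ * pvccD 1 l i := by
      have := pvccD_cov d l i
      unfold pvccD at this ⊢
      unfold pvthD
      rw [this]; ring
    rw [e2, e3]
  rw [key j, key k]
  exact pvkx_at_disj (mul_ne_zero hd0 (Complex.ofReal_ne_zero.2 h0.ne')) (pvuk_mask_disj1 hs hN hj hk hjk)

/-- the same for a geometry with the reference conditions: the masks `𝔤.Mk` of the cells of the word -/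
theorem pvuk_Mk_disj {𝔤 : PvkdGeo} (R : PvkxRef 𝔤) (h0 : 0 < 𝔤.δ) (z : ℂ) {d : ℂ} (hd : d ^ 4 = 1) {l : List PvtTurn} {N : ℕ} (hs : PvccSimple l N) (hN : N ≤ l.length) {j k : ℕ} (hj : j ≤ N) (hk : k ≤ N)
    (hjk : j ≠ k) : Disjoint (pvkdAt (pvthZ 𝔤.δ z d l j) (pvthD d l j) (𝔤.Mk (pvthL l j))) (pvkdAt (pvthZ 𝔤.δ z d l k) (pvthD d l k) (𝔤.Mk (pvthL l k))) := by
  rw [R.Mk, R.Mk]
  exact pvuk_mask_disj h0 z hd hs hN hj hk hjk

/-- a word in the frame `(z, d)` at the scale `δ` is the image of the unit word -/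
theorem pvuk_word_unit (δ : ℝ) (z d : ℂ) (l : List PvtTurn) (i : ℕ) (S : Set ℂ) :
    pvkdAt (pvthZ δ z d l i) (pvthD d l i) (pvdilS δ S) = pvkdAt z (d * δ) (pvkdAt (pvccZ 0 1 l i) (pvccD 1 l i) S) := by
  rw [pvuk_at_sc, pvkx_at_at]
  have e2 : pvthZ δ z d l i = z + d * δ * pvccZ 0 1 l i := by
    have := pvccZ_cov 0 d l i
    unfold pvccZ at this ⊢
    unfold pvthZ
    linear_combination (δ : ℂ) * this
  have e3 : pvthD d l i * δ = d * δ * pvccD 1 l i := by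
    have := pvccD_cov d l i
    unfold pvccD at this ⊢
    unfold pvthD
    rw [this]; ring
  rw [e2, e3]

theorem pvuk_sq_sc {s : ℝ} (hs : 0 < s) (r : ℝ) : pvdilS s (pvccSq 0 r) = pvccSq 0 (s * r) := by
  rw [pvuk_S_at]
  ext w
  rw [pvkx_mem_at (Complex.ofReal_ne_zero.2 hs.ne')]
  simp only [pvccSq, Set.mem_ofPred_eq, sub_zero]
  have e : pvccN (w / s) = pvccN w / s := by
    unfold pvccN
    rw [Complex.div_ofReal_re, Complex.div_ofReal_im, abs_div, abs_div, abs_of_pos hs, max_div_div_right hs.le]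
  rw [e, div_lt_iff₀ hs, mul_comm]

/-- a point of the unit half-open cell is at sup distance `≤ 1/2` from the centre -/
theorem pvuk_M_centre {a : ℂ} (ha : a ∈ pvkxM 1) : pvccN (a - 1 / 2) ≤ 1 / 2 := by
  obtain ⟨a1, a2, a3, a4⟩ := ha
  unfold pvccN
  have h1 : (a - 1 / 2).re = a.re - 1 / 2 := by simp
  have h2 : (a - 1 / 2).im = a.im := by simp
  rw [h1, h2]
  exact max_le (abs_le.2 ⟨by linarith, by linarith⟩) (abs_le.2 ⟨by linarith, by linarith⟩)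

/-- unit coordinates: the square of half side `1/2` round the door `j` meets the cells `j - 1`, `j` only -/
theorem pvuk_door_cell1 {l : List PvtTurn} {N : ℕ} (hs : PvccSimple l N) (hN : N ≤ l.length) {j k : ℕ} (hj : j ≤ N) (hk : k ≤ N) (h1 : k ≠ j) (h2 : k + 1 ≠ j)
    (h3 : j = 0 → pvccC 0 1 l k ≠ -(1 / 2)) :
    Disjoint (pvkdAt (pvccZ 0 1 l j) (pvccD 1 l j) (pvccSq 0 (1 / 2))) (pvkdAt (pvccZ 0 1 l k) (pvccD 1 l k) (pvkxM 1)) := by
  rw [Set.disjoint_left]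
  rintro p ⟨a, ha, rfl⟩ ⟨b, hb, e⟩
  have e' : pvccZ 0 1 l k + pvccD 1 l k * b = pvccZ 0 1 l j + pvccD 1 l j * a := e
  have hu := pvccD_pow_four (one_pow 4) l j
  have hv := pvccD_pow_four (one_pow 4) l k
  set u := pvccD 1 l j with hudef
  set v := pvccD 1 l k with hvdef
  have hu3 : (u ^ 3) ^ 4 = 1 := by rw [← pow_mul, mul_comm, pow_mul, hu, one_pow]
  have hu0 : u ≠ 0 := by
    intro h
    rw [h] at hu
    norm_num at hu
  have hg := pvccC_sub_gauss l j k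
  set g := pvccC 0 1 l j - pvccC 0 1 l k with hgdef
  have hg0 : g ≠ 0 := fun h => h1 (hs k j hk hj (sub_eq_zero.1 h).symm)
  have hg1 : g ≠ u := by
    intro h
    rcases Nat.eq_zero_or_pos j with rfl | hj0
    · refine h3 rfl ?_
      have e1 : pvccC 0 1 l 0 = 1 / 2 := by simp [pvccC]
      have e2 : u = 1 := by simp [hudef]
      rw [hgdef, e1, e2] at h
      linear_combination -h
    · obtain ⟨i, rfl⟩ : ∃ i, j = i + 1 := ⟨j - 1, by omega⟩
      have h4 := pvccC_prev 0 1 l (show i < l.length by omega)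
      have h5 : pvccC 0 1 l i = pvccC 0 1 l k := by
        rw [← h4]
        have : pvccC 0 1 l (i + 1) = pvccZ 0 1 l (i + 1) + u / 2 := rfl
        rw [hgdef, this] at h
        linear_combination h
      exact h2 (by have := hs i k (by omega) hk h5; omega)
  have h0' : u ^ 3 * g ≠ 0 := mul_ne_zero (pow_ne_zero 3 hu0) hg0
  have h1' : u ^ 3 * g ≠ 1 := by
    intro e
    apply hg1
    have : u * (u ^ 3 * g) = u := by rw [e, mul_one]
    linear_combination this - g * hu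
  have h6 := (PvccG.unit_mul hu3 hg).one_le_sub_half h0' h1'
  have e3 : u ^ 3 * g - 1 / 2 = u ^ 3 * (v * (b - 1 / 2) - u * a) := by
    have : g = pvccZ 0 1 l j + u / 2 - (pvccZ 0 1 l k + v / 2) := rfl
    rw [this]
    linear_combination (-(u ^ 3)) * e' + ((1 : ℂ) / 2) * hu
  rw [e3, pvccN_unit_mul hu3] at h6
  have h7 := pvccN_add_le (v * (b - 1 / 2)) (-(u * a))
  rw [pvccN_neg, pvccN_unit_mul hu, pvccN_unit_mul hv, ← sub_eq_add_neg] at h7
  have h8 := pvuk_M_centre hb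
  have h9 : pvccN a < 1 / 2 := by simpa [pvccSq] using ha
  linarith

/-- **A REGION ROUND THE DOOR `j`** (inside the square of half side `δ/2`) **MEETS THE MASKS OF THE CELLS `j - 1`, `j` ONLY**      (`j = 0`: the word must not enter the cell behind its first door) -/
theorem pvuk_door_mask {δ : ℝ} (h0 : 0 < δ) (z : ℂ) {d : ℂ} (hd : d ^ 4 = 1) {l : List PvtTurn} {N : ℕ} (hs : PvccSimple l N) (hN : N ≤ l.length) {S : Set ℂ} (hS : S ⊆ pvccSq 0 (δ / 2))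
    {j k : ℕ} (hj : j ≤ N) (hk : k ≤ N) (h1 : k ≠ j) (h2 : k + 1 ≠ j) (h3 : j = 0 → pvccC 0 1 l k ≠ -(1 / 2)) :
    Disjoint (pvkdAt (pvthZ δ z d l j) (pvthD d l j) S) (pvkdAt (pvthZ δ z d l k) (pvthD d l k) (pvkxM δ)) := by
  have hd0 : d ≠ 0 := by
    rintro rfl
    norm_num at hd
  refine Disjoint.mono_left (pvkx_at_mono _ _ hS) ?_
  have e1 : pvkxM δ = pvdilS δ (pvkxM 1) := by rw [pvuk_M_sc h0, mul_one]
  have e2 : pvccSq 0 (δ / 2) = pvdilS δ (pvccSq 0 (1 / 2)) := by rw [pvuk_sq_sc h0]; congr 1; ring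
  rw [e1, e2, pvuk_word_unit, pvuk_word_unit]
  exact pvkx_at_disj (mul_ne_zero hd0 (Complex.ofReal_ne_zero.2 h0.ne')) (pvuk_door_cell1 hs hN hj hk h1 h2 h3)

/-- unit coordinates: the squares of half side `1/4` round two doors are disjoint -/
theorem pvuk_door_door1 {l : List PvtTurn} {N : ℕ} (hs : PvccSimple l N) (hN : N ≤ l.length) {j k : ℕ} (hj : j ≤ N) (hk : k ≤ N) (hjk : j ≠ k) :
    Disjoint (pvkdAt (pvccZ 0 1 l j) (pvccD 1 l j) (pvccSq 0 (1 / 4))) (pvkdAt (pvccZ 0 1 l k) (pvccD 1 l k) (pvccSq 0 (1 / 4))) := by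
  have a1 : pvkdAt (pvccZ 0 1 l j) (pvccD 1 l j) (pvccSq 0 (1 / 4)) = pvccSq (pvccZ 0 1 l j) (1 / 4) := by
    have := pvccPl_sq (pvccZ 0 1 l j) (pvccD_pow_four (one_pow 4) l j) 0 (1 / 4)
    rwa [mul_zero, add_zero] at this
  have a2 : pvkdAt (pvccZ 0 1 l k) (pvccD 1 l k) (pvccSq 0 (1 / 4)) = pvccSq (pvccZ 0 1 l k) (1 / 4) := by
    have := pvccPl_sq (pvccZ 0 1 l k) (pvccD_pow_four (one_pow 4) l k) 0 (1 / 4)
    rwa [mul_zero, add_zero] at this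
  rw [a1, a2]
  refine pvcc_sq_disjoint ?_
  have hne := hs.door_ne hN hj hk hjk
  have hg : PvccG (2 * (pvccZ 0 1 l j - pvccZ 0 1 l k)) := by
    have h1 := pvccC_sub_gauss l j k
    have h2 := (PvccG.unit (pvccD_pow_four (one_pow 4) l j)).sub (PvccG.unit (pvccD_pow_four (one_pow 4) l k))
    have h3 := (h1.add h1).sub h2
    convert h3 using 1
    unfold pvccC; ring
  have h1 := hg.one_le (mul_ne_zero two_ne_zero (sub_ne_zero.2 hne))
  rw [pvccN_two_mul] at h1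
  linarith

/-- **REGIONS ROUND TWO DOORS** (inside the squares of half side `δ/4`) **ARE DISJOINT** -/
theorem pvuk_door_door {δ : ℝ} (h0 : 0 < δ) (z : ℂ) {d : ℂ} (hd : d ^ 4 = 1) {l : List PvtTurn} {N : ℕ} (hs : PvccSimple l N) (hN : N ≤ l.length) {S S' : Set ℂ} (hS : S ⊆ pvccSq 0 (δ / 4))
    (hS' : S' ⊆ pvccSq 0 (δ / 4)) {j k : ℕ} (hj : j ≤ N) (hk : k ≤ N) (hjk : j ≠ k) :
    Disjoint (pvkdAt (pvthZ δ z d l j) (pvthD d l j) S) (pvkdAt (pvthZ δ z d l k) (pvthD d l k) S') := by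
  have hd0 : d ≠ 0 := by
    rintro rfl
    norm_num at hd
  refine Disjoint.mono (pvkx_at_mono _ _ hS) (pvkx_at_mono _ _ hS') ?_
  have e2 : pvccSq 0 (δ / 4) = pvdilS δ (pvccSq 0 (1 / 4)) := by rw [pvuk_sq_sc h0]; congr 1; ring
  rw [e2, pvuk_word_unit, pvuk_word_unit]
  exact pvkx_at_disj (mul_ne_zero hd0 (Complex.ofReal_ne_zero.2 h0.ne')) (pvuk_door_door1 hs hN hj hk hjk)

/-- a disc is the placed disc -/
theorem pvuk_ball_at (z : ℂ) {d : ℂ} (hd : ‖d‖ = 1) (r : ℝ) : Metric.ball z r = pvkdAt z d (Metric.ball 0 r) := by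
  have hd0 : d ≠ 0 := fun h => by rw [h, norm_zero] at hd; exact zero_ne_one hd
  ext p
  rw [pvkx_mem_at hd0, mem_ball_zero_iff, norm_div, hd, div_one, mem_ball_iff_norm]

theorem pvuk_ball_sc {s : ℝ} (hs : 0 < s) (r : ℝ) : Metric.ball (0 : ℂ) (s * r) = pvdilS s (Metric.ball 0 r) := by
  rw [pvuk_S_at]
  ext p
  rw [pvkx_mem_at (Complex.ofReal_ne_zero.2 hs.ne'), mem_ball_zero_iff, mem_ball_zero_iff, sub_zero, norm_div, Complex.norm_real, Real.norm_eq_abs, abs_of_pos hs, div_lt_iff₀ hs, mul_comm]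

/-- **THE ZONE OF A KIT END LIES IN THE PLACED WINDOW OF THE PLUG**, every scale -/
theorem pvuk_zone_O {𝔤 : PvkdGeo} (G : PvzeGeo 𝔤) {s : ℝ} (hs : 0 < s) (z : ℂ) {d : ℂ} (hd : ‖d‖ = 1) : pvznRd ((𝔤.sc s).pg z d) ⊆ pvkdAt z d (𝔤.sc s).O₀ := by
  have h3 : (0 : ℝ) ≤ 3 * 𝔤.ρ := by have := G.ρ0; positivity
  have hb : Metric.ball z (s * 𝔤.b) ⊆ pvkdAt z d (pvdilS s 𝔤.O₀) := by
    rw [pvuk_ball_at z hd, pvuk_ball_sc hs]
    exact pvkx_at_mono _ _ (pvdil_S_mono s ((G.cO.trans (pvtr_core_subset h3)).trans G.EO))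
  rintro p ((hp | hp) | hp)
  · exact hb (Metric.ball_subset_ball (mul_le_mul_of_nonneg_left G.ab hs.le) hp)
  · exact hb hp
  · exact pvkx_at_mono _ _ (pvdil_S_mono s ((G.cT.trans (pvtr_core_subset h3)).trans G.EO)) hp

/-- the same in the reference frame      (= field `zone` of `PvjcReg` of 203) -/
theorem pvuk_zone0 {𝔤 : PvkdGeo} (G : PvzeGeo 𝔤) {s : ℝ} (hs : 0 < s) : Metric.ball 0 (𝔤.sc s).a ∪ Metric.ball 0 (𝔤.sc s).b ∪ (𝔤.sc s).Tb ⊆ (𝔤.sc s).O₀ := by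
  have h3 : (0 : ℝ) ≤ 3 * 𝔤.ρ := by have := G.ρ0; positivity
  have hb : Metric.ball 0 (s * 𝔤.b) ⊆ pvdilS s 𝔤.O₀ := by
    rw [pvuk_ball_sc hs]
    exact pvdil_S_mono s ((G.cO.trans (pvtr_core_subset h3)).trans G.EO)
  rintro p ((hp | hp) | hp)
  · exact hb (Metric.ball_subset_ball (mul_le_mul_of_nonneg_left G.ab hs.le) hp)
  · exact hb hp
  · exact pvdil_S_mono s ((G.cT.trans (pvtr_core_subset h3)).trans G.EO) hp

/-- the room of the run lies in the window of the link, every scale -/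
theorem pvuk_Co_Ea {𝔤 : PvkdGeo} (G : PvzeGeo 𝔤) (s : ℝ) (τ : PvtTurn) : (𝔤.sc s).Co τ ⊆ (𝔤.sc s).Ea τ := by
  have h3 : (0 : ℝ) ≤ 3 * 𝔤.ρ := by have := G.ρ0; positivity
  rw [pvdil_Ea]
  exact pvdil_S_mono s ((G.cE τ).trans (pvtr_core_subset h3))

/-- the window of the plug of record at the scale `s` -/
theorem pvuk_rec_O {s : ℝ} (hs : 0 < s) : (pvkgG.sc s).O₀ = pvccSq 0 (s * (13 / 160)) := by
  show pvdilS s pvkgO = _
  rw [pvkgg_O_sq, pvuk_sq_sc hs]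

section recw

variable {s : ℝ} (hs : 0 < s) (z : ℂ) {d : ℂ} (hd : d ^ 4 = 1) {l : List PvtTurn} {N : ℕ} (hw : PvccSimple l N) (hN : N ≤ l.length)

include hs hd in
/-- the zone of the door `j` of a word, geometry of record -/
theorem pvuk_rec_zone (j : ℕ) : pvznRd ((pvkgG.sc s).pg (pvthZ s z d l j) (pvthD d l j)) ⊆ pvkdAt (pvthZ s z d l j) (pvthD d l j) (pvccSq 0 (s * (13 / 160))) := by
  rw [← pvuk_rec_O hs]
  exact pvuk_zone_O pvkgg_ze hs _ (pvth_norm_of_pow (pvtDir_pow_four d hd _))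

include hs hd hw hN in
/-- **[dZZ]** the zones of the doors of a cell-simple word are pairwise disjoint -/
theorem pvuk_rec_ZZ {j k : ℕ} (hj : j ≤ N) (hk : k ≤ N) (hjk : j ≠ k) :
    Disjoint (pvznRd ((pvkgG.sc s).pg (pvthZ s z d l j) (pvthD d l j))) (pvznRd ((pvkgG.sc s).pg (pvthZ s z d l k) (pvthD d l k))) :=
  Disjoint.mono (pvuk_rec_zone hs z hd j) (pvuk_rec_zone hs z hd k)
    (pvuk_door_door hs z hd hw hN (pvcc_sq_mono 0 (by linarith)) (pvcc_sq_mono 0 (by linarith)) hj hk hjk)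

include hs hd hw hN in
/-- **[dKZ]** the mask (so the corridor) of the cell `k` meets the zones of the doors `k`, `k + 1` only -/
theorem pvuk_rec_MZ {j k : ℕ} (hj : j ≤ N) (hk : k ≤ N) (h1 : k ≠ j) (h2 : k + 1 ≠ j) (h3 : j = 0 → pvccC 0 1 l k ≠ -(1 / 2)) :
    Disjoint (pvkdAt (pvthZ s z d l k) (pvthD d l k) (pvkxM s)) (pvznRd ((pvkgG.sc s).pg (pvthZ s z d l j) (pvthD d l j))) :=
  (Disjoint.mono_left (pvuk_rec_zone hs z hd j) (pvuk_door_mask hs z hd hw hN (pvcc_sq_mono 0 (by linarith)) hj hk h1 h2 h3)).symm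

end recw

end Claimed.Agent.R289
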