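import Claimed.Agent.R289.Tr.LinkLoc
import Claimed.Agent.R289.Tr.PlugLoc
import Claimed.Agent.R289.Tr.MeasGL
import Claimed.Agent.R289.Tr.StrandD

/-!
# Row 289 (S0537, Cardy for Poisson-Voronoi), THE WALL, ROAD E, file Tr/LinkLocD : THE LINK BETWEEN TWO ENDS OF ANY KIND, THE DOOR END      (owner helper74; prefix `pvll_`, `Pvll`, `pvll`; continuation of `Tr/LinkLoc`)

After 234 11:02Z (3) all the artificial plugs (doors, reference plug) are DOOR TYPE: gate of record `PvzlGt` of 173, state `pvkdSt` of 34 (empty stubs, no mark).      Model free, on `(T, pos, s)`; no name of `Tr/InstL`.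
* sec. 1  `pvll_le_twin` (loop erasures of twin walks ARE twins), `pvll_it_inj` (a strand is injective before its first hit)
* sec. 2  THE VALUE `pvllV dr dr' Bl Mk T pos w 𝔖 𝔖' y` (formula of 125, sets as parameters);   **`pvll_lk_tr`** : twin ends (`PvLocSP`, `PvLocSM`) with their feet in `Kr` (`PvllP`, `PvllM`) ⟹ the link is carried over with its time, its rim arc AND ITS VALUE
* sec. 3  UNIQUENESS: `PvllEq 𝔖 𝔖₁` (what a link and its value read of an end), `pvll_eq_of_uq`, **`pvll_lk_unique`**, **`pvll_v_unique`**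
* sec. 4  THE DOOR END: `PvllDoor T pos s p z b g 𝔖` (`𝔖` is the state of the door with gate of record `g`: CHARACTERISATION of `pvkdSt`, the inner arc as a loop erasure), `pvll_door_le` (`pvtArc .. g.aIn g.len` is that loop erasure), `pvll_door_mk`,
          `PvllDoor.toP`, `.toM` (feet), **`pvll_door_twin`** (over a `PvplIso` of 238 among `PvymOk` maps: twin gate of record, ALL door states on the two gates are `PvLocSt`-twins), **`pvll_door_unique`** (`PvllEq`)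
-/

set_option autoImplicit false

namespace Claimed.Agent.R289

open Set Metric

variable {V D V' D' : Type}

/-! ## 1. walks -/

section walks

variable {T : PvMap V D} {T' : PvMap V' D'} {R : D → D' → Prop} {pos : V → ℂ} {pos' : V' → ℂ} {Kr : Set ℂ} {s : V → Bool}

/-- **loop erasures of twin walks are twins** -/
theorem pvll_le_twin (L : PvLocP T T' R pos pos' Kr) (hS' : T'.Simple) {b : ℕ → V} {b' : ℕ → V'} {n : ℕ} (hb : ∀ i, i ≤ n → pvlocV T T' R (b i) (b' i)) (hK : ∀ i, i ≤ n → pos (b i) ∈ Kr)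
    {y : T.Pth} {y' : T'.Pth} (h : PvwLE T b n y) (h' : PvwLE T' b' n y') : PvLocPth R y y' := by
  obtain ⟨y₁, P, h₁⟩ := pvll_le_exists L hb hK h
  obtain ⟨e1, e2, e3⟩ := pvt_sd_unique hS' h₁ h'
  refine ⟨e1 ▸ P.n_eq, fun k hk => ?_, fun k hk => ?_⟩
  · rw [← e3 k (by rw [P.n_eq]; exact hk)]
    exact P.e_rel k hk
  · rw [← e2 k (by rw [P.n_eq]; exact hk)]
    exact P.v_rel k hk

/-- a strand is injective before its first hit -/
theorem pvll_it_inj {a b : D} {n : ℕ} (hn : pvasIt T s a n = b) (hf : ∀ i, i < n → pvasIt T s a i ≠ b) : ∀ i j, i < n → j < n → pvasIt T s a i = pvasIt T s a j → i = j := by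
  have key : ∀ i j, i < j → j < n → pvasIt T s a i ≠ pvasIt T s a j := by
    intro i j hij hj e
    have h1 : pvasIt T s a (i + (n - j)) = b := by
      rw [pvas_it_add, e, ← pvas_it_add, show j + (n - j) = n by omega, hn]
    exact hf _ (by omega) h1
  intro i j hi hj e
  rcases lt_trichotomy i j with h | h | h
  · exact absurd e (key i j h hj)
  · exact h
  · exact absurd e.symm (key j i h hi)

end walks

/-! ## 2. the value, the transfer -/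

/-- **`I_X`** (125), the sets as parameters: `dr`, `dr'` = the exit / entrance end is cut in space; `Bl` = cut-off ball of a marked exit end, `Mk` = the mask -/
noncomputable def pvllV (dr dr' : Bool) (Bl Mk : Set ℂ) (T : PvMap V D) (pos : V → ℂ) (w : D → ℂ) (𝔖 𝔖' : PvwSt T) (y : T.Pth) : ℂ :=
  (if dr then 0 else pvwMass T pos w Bl 𝔖.inn 0 𝔖.inn.n) + pvwMass T pos w Mk 𝔖.inn (if dr then 0 else 𝔖.ip) 𝔖.inn.n +
    pvwMass T pos w Mk y 0 y.n + pvwMass T pos w Mk 𝔖'.inn 0 (if dr' then 𝔖'.inn.n else 𝔖'.ip)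

theorem pvll_eqns_cite3 : True := by
  have := @pvllV.eq_1
  trivial

section transfer

variable {T : PvMap V D} {T' : PvMap V' D'} {R : D → D' → Prop} {pos : V → ℂ} {pos' : V' → ℂ} {Kr Yin : Set ℂ} {s : V → Bool} {s' : V' → Bool}

/-- **THE LINK BETWEEN TWO ENDS OF ANY KIND IS CARRIED OVER WITH ITS VALUE** -/
theorem pvll_lk_tr (L : PvLocP T T' R pos pos' Kr) (hs : ∀ d d', R d d' → s (T.src d) = s' (T'.src d')) (hY : Yin ⊆ Kr) {𝔖 𝔖' : PvwSt T} {𝔖₁ 𝔖₁' : PvwSt T'}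
    (G : PvLocSP R 𝔖 𝔖₁) (G' : PvLocSM R 𝔖' 𝔖₁') (hp : PvllP Kr T pos s 𝔖) (hm : PvllM Kr T pos s 𝔖') (hip : 𝔖'.ip ≤ 𝔖'.inn.n) {n : ℕ} {y : T.Pth} (h : PvllLk T pos s Yin 𝔖 𝔖' n y)
    {w : D → ℂ} {w' : D' → ℂ} (hw : ∀ d d', R d d' → w d = w' d') :
    ∃ y₁ : T'.Pth, PvLocPth R y y₁ ∧ PvllLk T' pos' s' Yin 𝔖₁ 𝔖₁' n y₁ ∧ ∀ (dr dr' : Bool) (Bl Mk : Set ℂ), pvllV dr dr' Bl Mk T' pos' w' 𝔖₁ 𝔖₁' y₁ = pvllV dr dr' Bl Mk T pos w 𝔖 𝔖' y := by
  obtain ⟨y₁, P, hy₁⟩ := pvll_link L hs hY G G' hp hm h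
  refine ⟨y₁, P, hy₁, fun dr dr' Bl Mk => ?_⟩
  obtain ⟨m1, -, -⟩ := pvll_link_mass L hw hY G.gt G'.gt hp hm h P Bl
  obtain ⟨m2, m3, m4⟩ := pvll_link_mass L hw hY G.gt G'.gt hp hm h P Mk
  unfold pvllV
  rw [G.gt.inn.n_eq, G.gt.ip, P.n_eq, G'.gt.inn.n_eq, G'.gt.ip, ← m1 0 _ le_rfl, ← m2 _ _ le_rfl, ← m3 0 _ le_rfl]
  congr 1
  refine (m4 0 _ ?_).symm
  split_ifs
  · exact le_rfl
  · exact hip

end transfer

/-! ## 3. uniqueness -/

/-- **what a link and its value read of an end** -/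
structure PvllEq {T : PvMap V D} (𝔖 𝔖₁ : PvwSt T) : Prop where
  dp : 𝔖.dp = 𝔖₁.dp
  dm : 𝔖.dm = 𝔖₁.dm
  inn_n : 𝔖.inn.n = 𝔖₁.inn.n
  inn_e : ∀ k, k < 𝔖.inn.n → 𝔖.inn.e k = 𝔖₁.inn.e k
  ip : 𝔖.ip = 𝔖₁.ip

section unique

variable {T : PvMap V D} {pos : V → ℂ} {s : V → Bool} {Yin : Set ℂ}

theorem pvll_eq_of_uq {𝔖 𝔖₁ : PvwSt T} (h : PvuqG 𝔖 𝔖₁) : PvllEq 𝔖 𝔖₁ := ⟨h.dp, h.dm, h.inn_n, h.inn_e, h.ip⟩

/-- the mass of two paths with the same darts -/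
theorem pvll_mass_eq {y y' : T.Pth} (he : ∀ k, k < y.n → y.e k = y'.e k) (w : D → ℂ) (K : Set ℂ) {i j : ℕ} (hj : j ≤ y.n) : pvwMass T pos w K y i j = pvwMass T pos w K y' i j := by
  unfold pvwMass
  refine Finset.sum_congr rfl fun k hk => ?_
  rw [he k (by have := (Finset.mem_Ico.1 hk).2; omega)]

/-- **two links between the same ends**: the same time, the same rim arc -/
theorem pvll_lk_unique (hS : T.Simple) {𝔖 𝔖' 𝔖₁ 𝔖₁' : PvwSt T} (e : PvllEq 𝔖 𝔖₁) (e' : PvllEq 𝔖' 𝔖₁') {n n₁ : ℕ} {y y₁ : T.Pth}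
    (h : PvllLk T pos s Yin 𝔖 𝔖' n y) (h₁ : PvllLk T pos s Yin 𝔖₁ 𝔖₁' n₁ y₁) : n = n₁ ∧ y.n = y₁.n ∧ (∀ k, k ≤ y.n → y.v k = y₁.v k) ∧ ∀ k, k < y.n → y.e k = y₁.e k := by
  obtain ⟨⟨-, a1, a2, -⟩, l1⟩ := h
  obtain ⟨⟨-, b1, b2, -⟩, l2⟩ := h₁
  rw [← e.dp] at b1 b2 l2
  rw [← e'.dm] at b1 b2
  have en : n = n₁ := by
    rcases lt_trichotomy n n₁ with hlt | he | hlt
    · exact absurd a1 (b2 n hlt)
    · exact he
    · exact absurd b1 (a2 n₁ hlt)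
  subst en
  exact ⟨rfl, pvt_sd_unique hS l1 l2⟩

/-- **the value is the same at all witnesses** -/
theorem pvll_v_unique (hS : T.Simple) {𝔖 𝔖' 𝔖₁ 𝔖₁' : PvwSt T} (e : PvllEq 𝔖 𝔖₁) (e' : PvllEq 𝔖' 𝔖₁') (hip : 𝔖'.ip ≤ 𝔖'.inn.n) {n n₁ : ℕ} {y y₁ : T.Pth}
    (h : PvllLk T pos s Yin 𝔖 𝔖' n y) (h₁ : PvllLk T pos s Yin 𝔖₁ 𝔖₁' n₁ y₁) (dr dr' : Bool) (Bl Mk : Set ℂ) (w : D → ℂ) :
    pvllV dr dr' Bl Mk T pos w 𝔖 𝔖' y = pvllV dr dr' Bl Mk T pos w 𝔖₁ 𝔖₁' y₁ := by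
  obtain ⟨-, e1, -, e3⟩ := pvll_lk_unique hS e e' h h₁
  unfold pvllV
  have hj : (if dr' then 𝔖'.inn.n else 𝔖'.ip) ≤ 𝔖'.inn.n := by
    split_ifs
    · exact le_rfl
    · exact hip
  rw [pvll_mass_eq e.inn_e w Bl le_rfl, pvll_mass_eq e.inn_e w Mk le_rfl, pvll_mass_eq e3 w Mk le_rfl, pvll_mass_eq e'.inn_e w Mk hj, e.inn_n, e.ip, e1, e'.ip, e'.inn_n]

end unique

/-! ## 4. the door end -/

/-- **`𝔖` IS THE STATE OF THE DOOR WITH GATE OF RECORD `g`**      (characterisation of `pvkdSt` of 34: disc of radius `b`, gate, gate edges, inner arc = loop erasure of the black bank of the through strand, no mark, empty stubs) -/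
structure PvllDoor (T : PvMap V D) (pos : V → ℂ) (s : V → Bool) (p : PvzlPg ℂ) (z : ℂ) (b : ℝ) (g : T.Gate s) (𝔖 : PvwSt T) : Prop where
  gt : PvzlGt T pos s p g
  dsc : 𝔖.dsc = {v | ‖pos v - z‖ < b}
  S : 𝔖.S = g.c
  dp : 𝔖.dp = g.aOut
  dm : 𝔖.dm = g.aIn
  inn : PvwLE T (fun i => T.src (pvasIt T s g.aIn i)) g.len 𝔖.inn
  ip : 𝔖.ip = 0
  np : 𝔖.np = 0
  ep : 𝔖.ep 0 = g.aOut
  nm : 𝔖.nm = 0
  em : 𝔖.em 0 = g.aIn

section door

variable {T : PvMap V D} {pos : V → ℂ} {s : V → Bool} {p : PvzlPg ℂ} {z : ℂ} {b : ℝ}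

/-- the arc of 64 of the through strand is the loop erasure of its black bank -/
theorem pvll_door_le [DecidableEq V] (hT : T.IsSph) (hS : T.Simple) {g : T.Gate s} (hg : PvzlGt T pos s p g) : PvwLE T (fun i => T.src (pvasIt T s g.aIn i)) g.len (pvtArc T s g.aIn g.len) := by
  obtain ⟨N, hN⟩ := hg.thru
  rw [(hN.len hT).1]
  exact pvt_sd_le hT hS (pvtg_aIn_bw g) (pvll_it_inj hN.2.1 hN.2.2.1)

/-- the record of 34 is a door state -/
theorem pvll_door_mk [DecidableEq V] (hT : T.IsSph) (hS : T.Simple) {g : T.Gate s} (hg : PvzlGt T pos s p g) (z : ℂ) (b : ℝ) :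
    PvllDoor T pos s p z b g ⟨{v | ‖pos v - z‖ < b}, g.c, g.aOut, g.aIn, pvtArc T s g.aIn g.len, 0, 0, fun _ => g.aOut, 0, fun _ => g.aIn⟩ :=
  ⟨hg, rfl, rfl, rfl, rfl, pvll_door_le hT hS hg, rfl, rfl, rfl, rfl, rfl⟩

variable {K : Set ℂ} {g : T.Gate s} {𝔖 : PvwSt T}

/-- the black bank of the through strand lies in the tube -/
theorem PvllDoor.walk (hT : T.IsSph) (hp : p.Sub K) (h : PvllDoor T pos s p z b g 𝔖) : ∀ i, i ≤ g.len → pos (T.src (pvasIt T s g.aIn i)) ∈ K := by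
  obtain ⟨N, hN⟩ := h.gt.thru
  rw [(hN.len hT).1]
  exact fun i hi => hp.2.2 (pvzl_lay_mark hN.1 hN.2.2.2.2 i hi)

theorem PvllDoor.inn_pos (hT : T.IsSph) (hp : p.Sub K) (h : PvllDoor T pos s p z b g 𝔖) : ∀ k, k ≤ 𝔖.inn.n → pos (𝔖.inn.v k) ∈ K := pvll_le_pos h.inn (h.walk hT hp)

/-- a door as the exit end of a link -/
theorem PvllDoor.toP (hT : T.IsSph) (hp : p.Sub K) (h : PvllDoor T pos s p z b g 𝔖) : PvllP K T pos s 𝔖 := by
  refine ⟨by rw [h.dp]; exact pvtg_aOut_bw g, fun i hi => ?_, h.inn_pos hT hp⟩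
  rw [h.np] at hi
  obtain rfl : i = 0 := by omega
  rw [pvas_it_zero, h.dp, pvtg_aOut_src]
  exact hp.2.1 (h.gt.least.reg.rim g.m)

/-- a door as the entrance end of a link -/
theorem PvllDoor.toM (hT : T.IsSph) (hp : p.Sub K) (h : PvllDoor T pos s p z b g 𝔖) : PvllM K T pos s 𝔖 := by
  refine ⟨fun i hi => ?_, h.inn_pos hT hp⟩
  rw [h.nm] at hi
  obtain rfl : i = 0 := by omega
  rw [Function.iterate_zero, id, h.dm]
  exact hp.2.1 (h.gt.least.reg.rim 0)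

/-- **two door states of one plug**: the same data for a link -/
theorem pvll_door_unique (hT : T.IsSph) (hS : T.Simple) (hdis : Disjoint p.Km p.Kp) {g₂ : T.Gate s} {𝔖₂ : PvwSt T} (h : PvllDoor T pos s p z b g 𝔖) (h₂ : PvllDoor T pos s p z b g₂ 𝔖₂) : PvllEq 𝔖 𝔖₂ := by
  obtain ⟨e1, e2, -, -⟩ := h.gt.unique_darts hT hdis h₂.gt
  obtain ⟨N, hN⟩ := h.gt.thru
  obtain ⟨N₂, hN₂⟩ := h₂.gt.thru
  have l1 := h.inn
  have l2 := h₂.inn
  have eN : N = N₂ := by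
    have a1 := hN.hit
    have a2 := hN₂.hit
    rw [← e1, ← e2] at a2
    exact a1.symm.trans a2
  rw [(hN.len hT).1] at l1
  rw [(hN₂.len hT).1, ← e1, ← eN] at l2
  obtain ⟨c1, -, c3⟩ := pvt_sd_unique hS l1 l2
  exact ⟨by rw [h.dp, h₂.dp, e2], by rw [h.dm, h₂.dm, e1], c1, c3, by rw [h.ip, h₂.ip]⟩

variable {T' : PvMap V' D'} {pos' : V' → ℂ} {s' : V' → Bool} {Rv : V → V' → Prop}

/-- **THE DOOR END HAS A TWIN**: twin gate of record; all the door states on the two gates are twin states -/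
theorem pvll_door_twin (h : PvplIso T pos s T' pos' s' K Rv) (o : PvymOk T pos K) (o' : PvymOk T' pos' K) (hp : p.Sub K) (hb : closedBall z b ⊆ K) (hd : PvllDoor T pos s p z b g 𝔖) :
    ∃ g' : T'.Gate s', PvzlGt T' pos' s' p g' ∧ ∀ 𝔖₁ : PvwSt T', PvllDoor T' pos' s' p z b g' 𝔖₁ → PvLocSt (pvplRK T pos T' K Rv) 𝔖 𝔖₁ := by
  obtain ⟨g', hg', W⟩ := hd.gt.twin h o.simple o'.simple hp.1 hp.2.1 hp.2.2
  refine ⟨g', hg', fun 𝔖₁ h₁ => ?_⟩
  have Lc : PvLocP T T' (pvplRK T pos T' K Rv) pos pos' K := pvym_locP h o o' (d0 := g.aIn) (hp.2.1 (hd.gt.least.reg.rim 0))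
  obtain ⟨N, hN⟩ := hd.gt.thru
  obtain ⟨hN', hr⟩ := hN.twin h o.simple o'.simple hp.2.2 W
  have eN := (hN.len o.sph).1
  have eN' := (hN'.len o'.sph).1
  have l1 := hd.inn
  have l2 := h₁.inn
  have hw := hd.walk o.sph hp
  rw [eN] at l1 hw
  rw [eN'] at l2
  refine ⟨⟨?_, ?_, ?_, ?_, pvll_le_twin Lc o'.simple (fun i hi => pvloc_v_src (hr i hi)) hw l1 l2, by rw [hd.ip, h₁.ip]⟩, by rw [hd.np, h₁.np], fun i hi => ?_, by rw [hd.nm, h₁.nm], fun i hi => ?_⟩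
  · rw [hd.dsc, h₁.dsc]; exact pvlw_disc Lc hb
  · rw [hd.S, h₁.S]; exact W.cyc
  · rw [hd.dp, h₁.dp]; exact W.aOut
  · rw [hd.dm, h₁.dm]; exact W.aIn
  · rw [hd.np] at hi
    obtain rfl : i = 0 := by omega
    rw [hd.ep, h₁.ep]; exact W.aOut
  · rw [hd.nm] at hi
    obtain rfl : i = 0 := by omega
    rw [hd.em, h₁.em]; exact W.aIn

end door

end Claimed.Agent.R289
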