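-- KEEP
import Claimed.Agent.R289.Tr.CycC2T
import Claimed.Agent.R289.Tr.KitDict
import Claimed.Agent.R289.Tr.LinkLocD
import Claimed.Agent.R289.Tr.CycC2B

/-!
# Row 289 (S0537), THE WALL, ROAD E, file Tr/CycC2M : ASSEMBLY OF `Pvcy2At` AT THE MODEL (STRANDS + VALUES)      (helper42; post of 234 12:04Z, split with 48 12:29Z; prefix `pvdw_`, `pvdw`, `Pvdw`)

WHAT.   `Pvcy2At η n Xo Xc Xr Xe Bx c` (48, `Tr/CycC2T`) = what must hold at `η` on the success of the `Σ₁` cycle `t -> door 0 -> cells of l1(t) -> door n -> reference plug u => t`.      HERE: the plain events of `Tr/InstL` (`PvilLk.A`, any witnesses) + the word form of [KDICT] (244)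
⟹ ONE NORMAL FORM in the plane map of `η`, colour `b` ⟹ the sequences of `n + 3` plugs / arcs / masks / cut-off sets / kinds, the fields `per bw inn run` of `Pvcy2Cyc`, `perS perM perB perD` of `Pvcy2Own`, `gp ≠ gm`, THE FOUR KINDS OF VALUES.
WHAT IS LEFT = `PvdwRest` (heads `ii yy iy`: 264;   ownership `own`, box `bi by'`, two far gates `far`: 48), owed for every normal form `PvdwArcs`.      DETERMINISTIC, 0 probability.      Reads of `Tr/InstL` only `PvilOut PvilIn PvilDoor AtP AtP' Run Arc A val X msk ball` (signatures frozen by 168 for v2.2).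
* sec. 1  `pvdwSq n a c r e` = the sequence `a, c 0, .., c (n-1), r, e, a`;   `pvdw_cases`
* sec. 2  MODEL FREE: `PvdwIn`, `PvdwRun`, **`pvdwSt n P Dd U`**, **`pvdwY n y0 yc yr ye`**, `PvdwStr`, **`PvdwStr.cyc`** (strands + heads ⟹ `Pvcy2Cyc`)
* sec. 3  MODEL FREE: **`pvdwM n M0 Mc Mr Me`**, **`pvdwB n B0`**, **`pvdwDr n`**;   `PvdwOwn` = ownership PIECE BY PIECE (no sequence but in `door`), **`PvdwOwn.own`** : `⟹ Pvcy2Own` at the sequences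
* sec. 4  at `(η, b)`: `pvdwDd 𝔭 b η Z g j` (state of the door `j`), `pvdwYc b η g j` (arc of the cell `j`), `pvdw_door_eq` (THE door state), `pvdw_in_door`, `pvdw_run_cell`, `pvdw_psum_mass`, **`pvdw_mass_val`** (`pvukMass = pvcy2ValM` at `dr = dr' = true`)
* sec. 5  **`PvdwArcs N b η Lo Lr Le 𝔭 𝔭u n Z Dv Co zu du P P' g gu y0 yr ye`** = THE NORMAL FORM;   `.glue` (`PvuqG P P'`), `.str`, `.ne`;   `PvdwRest`;   **`PvdwArcs.at`** : normal form + rest ⟹ `Pvcy2At`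
* sec. 6  `PvdwFit` (the three special links fit the frames of the doors), **`pvdw_normal`** (any witnesses ARE one family: `pvuk_uniq`; `n = 0` allowed), `pvdw_at_congr`, `pvdw_X_wit`, **`pvdw_main`** (values `= PvilLk.X`: no witness independence needed)
* sec. 8  HEADS (v2 13:30Z): `pvdwDk` (discs of the plugs), `pvdwYr` (rooms of the arcs; `MpP MmP` = FREE vertex masks of the two erased stubs), **`PvdwHd`** (REGIONS ONLY: `rm : PvcaRm (n+3) Dk Yr`, `o1 o2 o3 r1 r2 e1 e2 e3`), `PvdwArcs.arc_o .arc_r .arc_e .ins_P`, **`PvdwArcs.ring`** : normal form + fit + `fr = 1` + two stub lines + `PvdwHd` ⟹ `Pvcy2Cyc` at the sequences ∧ vertices of the arc `k` in `pvdwYr k` (`pvca_ring` of 264)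
* sec. 9  OWNERSHIP, BOX, FAR (v3 13:50Z): `pvdw_at_convex`, `pvdw_P_tb_convex`, **`PvdwOw`** (REGIONS ONLY: `c_in c_cv t_cv tu_cv d_cut u_cut y_o y_r y_e p_o p_e`; radii `μo μr μe μP`), **`PvdwBx`** (`d_in y_in far`), `pvdw_tag_door`, `pvdw_tag_cell` (NO mesh for doors / cells / reference plug), `PvdwArcs.gt_seq .ins_seq`, `PvdwArcs.ownP`, **`PvdwArcs.rest`** : normal form + fit + two stub lines + `PvdwHd` + `PvdwOw` + `PvdwBx` + four mesh facts ⟹ `PvdwRest`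
* sec. 9b FORM (T) (v5 14:15Z, for 48): **`PvdwOc`** (cuts only: `c_in c_cv t_cv tu_cv d_cut u_cut`, `p_o p_e : ball z (b h) ⊆ Mk`; NO MESH, NO MARGIN), `PvdwOw.oc`, **`PvdwArcs.tag_P`** (tags of the inner arc of the candidate in its disc, no mesh), `PvdwArcs.ownT`, **`PvdwArcs.restT`** : `PvdwHd` + `PvdwOc` + `PvdwBx` + two stub lines + tags of `y0 yr ye` in `Lo.msk Lr.msk Le.msk` ⟹ `PvdwRest`
* sec. 10 MESH (v4 14:00Z): `pvdw_mesh_arc` (`PvtrMesh ρ E` + vertices of the arc in `pvtrCore (3ρ) E` ⟹ tags within `2ρ` of the tails), `PvdwArcs.ownM` (v6), **`PvdwArcs.restM`** (mesh EVENTS instead of mesh facts; v5: no mesh at the candidate)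
* sec. 7  AT THE DATA OF RECORD: `pvdw_P_zz`, **`pvdw_fit_rec`** (`l1_disp`, `l1_dir`), `pvdw_of_word`, **`pvdw_rec`**, **`pvdw_rec_reg`** (v4: `pvdw_rec` with `PvdwRest` discharged: regions + three mesh events + the two stub lines `sP sP'` ⟹ `Pvcy2At`)
-/

set_option autoImplicit false
set_option linter.unusedSectionVars false

namespace Claimed.Agent.R289

open Set
open scoped ENNReal

/-! ## 1. the sequences -/

/-- the sequence `a, c 0, .., c (n - 1), r, e, a, a, ..` -/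
def pvdwSq {α : Type} (n : ℕ) (a : α) (c : ℕ → α) (r e : α) (k : ℕ) : α :=
  if k = 0 then a else if k ≤ n then c (k - 1) else if k = n + 1 then r else if k = n + 2 then e else a

section sq

variable {α : Type} (n : ℕ) (a : α) (c : ℕ → α) (r e : α)

theorem pvdw_sq_zero : pvdwSq n a c r e 0 = a := if_pos rfl

theorem pvdw_sq_cell {j : ℕ} (h : j < n) : pvdwSq n a c r e (j + 1) = c j := by
  unfold pvdwSq
  rw [if_neg (by omega), if_pos (by omega), Nat.add_sub_cancel]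

theorem pvdw_sq_r : pvdwSq n a c r e (n + 1) = r := by
  unfold pvdwSq
  rw [if_neg (by omega), if_neg (by omega), if_pos rfl]

theorem pvdw_sq_e : pvdwSq n a c r e (n + 2) = e := by
  unfold pvdwSq
  rw [if_neg (by omega), if_neg (by omega), if_neg (by omega), if_pos rfl]

theorem pvdw_sq_per : pvdwSq n a c r e (n + 3) = a := by
  unfold pvdwSq
  rw [if_neg (by omega), if_neg (by omega), if_neg (by omega), if_neg (by omega)]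

/-- the sequence of the plugs: `c n` at the place `n + 1` -/
theorem pvdw_sq_door {j : ℕ} (h : j ≤ n) : pvdwSq n a c (c n) e (j + 1) = c j := by
  rcases Nat.lt_or_ge j n with h1 | h1
  · exact pvdw_sq_cell n a c _ e h1
  · have : j = n := le_antisymm h h1
    subst this
    exact pvdw_sq_r _ a c _ e

theorem pvdw_cases {n k : ℕ} (h : k < n + 3) : k = 0 ∨ (∃ j, j < n ∧ k = j + 1) ∨ k = n + 1 ∨ k = n + 2 := by
  rcases Nat.eq_zero_or_pos k with h0 | h0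
  · exact Or.inl h0
  · rcases Nat.lt_or_ge k (n + 1) with h1 | h1
    · exact Or.inr (Or.inl ⟨k - 1, by omega, by omega⟩)
    · omega

end sq

/-! ## 2. strands: the fields `per bw inn run` of `Pvcy2Cyc`, model free -/

section strands

variable {V D : Type} {T : PvMap V D} {s : V → Bool}

/-- the inner strand of an end: from the entry gate edge to the exit gate edge, `inn` = the erased black bank -/
def PvdwIn (T : PvMap V D) (s : V → Bool) (𝔖 : PvwSt T) : Prop :=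
  ∃ n, pvasIt T s 𝔖.dm n = 𝔖.dp ∧ PvwLE T (fun i => T.src (pvasIt T s 𝔖.dm i)) n 𝔖.inn

/-- the strand of a link: from the exit gate edge of `𝔖` to the entry gate edge of `𝔖'`, `y` = the erased black bank -/
def PvdwRun (T : PvMap V D) (s : V → Bool) (𝔖 𝔖' : PvwSt T) (y : T.Pth) : Prop :=
  ∃ n, pvasIt T s 𝔖.dp n = 𝔖'.dm ∧ PvwLE T (fun i => T.src (pvasIt T s 𝔖.dp i)) n y

/-- **THE PLUGS OF THE `Σ₁` CYCLE**: `0` = the candidate `P`, `j + 1` = the door `j ≤ n`, `n + 2` = the reference plug `U`, `n + 3` = `P` -/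
def pvdwSt (n : ℕ) (P : PvwSt T) (Dd : ℕ → PvwSt T) (U : PvwSt T) : ℕ → PvwSt T := pvdwSq n P Dd (Dd n) U

/-- **THE ARCS OF THE LINKS**: `0` = first link, `j + 1` = cell `j < n`, `n + 1` = thin link into the reference plug, `n + 2` = thick link -/
def pvdwY (n : ℕ) (y0 : T.Pth) (yc : ℕ → T.Pth) (yr ye : T.Pth) : ℕ → T.Pth := pvdwSq n y0 yc yr ye

/-- **THE STRANDS OF THE `Σ₁` CYCLE** -/
structure PvdwStr (T : PvMap V D) (s : V → Bool) (n : ℕ) (P : PvwSt T) (Dd : ℕ → PvwSt T) (U : PvwSt T) (y0 : T.Pth) (yc : ℕ → T.Pth) (yr ye : T.Pth) : Prop where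
  bw : pvasBW T s P.dm
  iP : PvdwIn T s P
  iD : ∀ j, j ≤ n → PvdwIn T s (Dd j)
  iU : PvdwIn T s U
  r0 : PvdwRun T s P (Dd 0) y0
  rc : ∀ j, j < n → PvdwRun T s (Dd j) (Dd (j + 1)) (yc j)
  rr : PvdwRun T s (Dd n) U yr
  re : PvdwRun T s U P ye

variable {n : ℕ} {P : PvwSt T} {Dd : ℕ → PvwSt T} {U : PvwSt T} {y0 : T.Pth} {yc : ℕ → T.Pth} {yr ye : T.Pth}

theorem pvdw_st_zero : pvdwSt n P Dd U 0 = P := pvdw_sq_zero _ _ _ _ _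
theorem pvdw_st_door {j : ℕ} (h : j ≤ n) : pvdwSt n P Dd U (j + 1) = Dd j := pvdw_sq_door _ _ _ _ h
theorem pvdw_st_u : pvdwSt n P Dd U (n + 2) = U := pvdw_sq_e _ _ _ _ _
theorem pvdw_st_per : pvdwSt n P Dd U (n + 3) = P := pvdw_sq_per _ _ _ _ _
theorem pvdw_y_zero : pvdwY n y0 yc yr ye 0 = y0 := pvdw_sq_zero _ _ _ _ _
theorem pvdw_y_cell {j : ℕ} (h : j < n) : pvdwY n y0 yc yr ye (j + 1) = yc j := pvdw_sq_cell _ _ _ _ _ h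
theorem pvdw_y_r : pvdwY n y0 yc yr ye (n + 1) = yr := pvdw_sq_r _ _ _ _ _
theorem pvdw_y_e : pvdwY n y0 yc yr ye (n + 2) = ye := pvdw_sq_e _ _ _ _ _

/-- **strands + heads ⟹ `Pvcy2Cyc`** -/
theorem PvdwStr.cyc (H : PvdwStr T s n P Dd U y0 yc yr ye)
    (ii : ∀ i j, i < j → j < n + 3 → pvcy2Hd (pvdwSt n P Dd U i).inn (pvdwSt n P Dd U j).inn)
    (yy : ∀ i j, i < j → j < n + 3 → pvcy2Hd (pvdwY n y0 yc yr ye i) (pvdwY n y0 yc yr ye j))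
    (iy : ∀ i j, i < n + 3 → j < n + 3 → pvcy2Hd (pvdwSt n P Dd U i).inn (pvdwY n y0 yc yr ye j)) :
    Pvcy2Cyc T s (n + 3) (pvdwSt n P Dd U) (pvdwY n y0 yc yr ye) where
  per := by rw [pvdw_st_per, pvdw_st_zero]
  bw := by rw [pvdw_st_zero]; exact H.bw
  inn := by
    intro k hk
    rcases pvdw_cases hk with rfl | ⟨j, hj, rfl⟩ | rfl | rfl
    · rw [pvdw_st_zero]; exact H.iP
    · rw [pvdw_st_door hj.le]; exact H.iD j hj.le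
    · rw [pvdw_st_door le_rfl]; exact H.iD n le_rfl
    · rw [pvdw_st_u]; exact H.iU
  run := by
    intro k hk
    rcases pvdw_cases hk with rfl | ⟨j, hj, rfl⟩ | rfl | rfl
    · rw [pvdw_st_zero, pvdw_y_zero, pvdw_st_door (Nat.zero_le n)]; exact H.r0
    · rw [pvdw_st_door hj.le, pvdw_y_cell hj, pvdw_st_door (show j + 1 ≤ n from hj)]; exact H.rc j hj
    · rw [pvdw_st_door le_rfl, pvdw_y_r, pvdw_st_u]; exact H.rr
    · rw [pvdw_st_u, pvdw_y_e, pvdw_st_per]; exact H.re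
  ii := ii
  yy := yy
  iy := iy

end strands

/-! ## 3. ownership: the periodic data, the fields piece by piece -/

section own

variable {V D : Type} {T : PvMap V D}

/-- **THE MASKS OF THE LINKS** -/
def pvdwM (n : ℕ) (M0 : Set ℂ) (Mc : ℕ → Set ℂ) (Mr Me : Set ℂ) : ℕ → Set ℂ := pvdwSq n M0 Mc Mr Me

/-- **THE CUT-OFF SETS**: `B0` at the candidate (places `0`, `n + 3`), `∅` at the doors and at the reference plug (not read) -/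
def pvdwB (n : ℕ) (B0 : Set ℂ) : ℕ → Set ℂ := pvdwSq n B0 (fun _ => ∅) ∅ ∅

/-- **THE KINDS OF THE PLUGS**: the candidate is marked, all the others are doors -/
def pvdwDr (n : ℕ) : ℕ → Bool := pvdwSq n false (fun _ => true) true true

variable {n : ℕ} {M0 : Set ℂ} {Mc : ℕ → Set ℂ} {Mr Me B0 : Set ℂ}

theorem pvdw_m_zero : pvdwM n M0 Mc Mr Me 0 = M0 := pvdw_sq_zero _ _ _ _ _
theorem pvdw_m_cell {j : ℕ} (h : j < n) : pvdwM n M0 Mc Mr Me (j + 1) = Mc j := pvdw_sq_cell _ _ _ _ _ h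
theorem pvdw_m_r : pvdwM n M0 Mc Mr Me (n + 1) = Mr := pvdw_sq_r _ _ _ _ _
theorem pvdw_m_e : pvdwM n M0 Mc Mr Me (n + 2) = Me := pvdw_sq_e _ _ _ _ _
theorem pvdw_m_per : pvdwM n M0 Mc Mr Me (n + 3) = M0 := pvdw_sq_per _ _ _ _ _
theorem pvdw_b_zero : pvdwB n B0 0 = B0 := pvdw_sq_zero _ _ _ _ _
theorem pvdw_b_per : pvdwB n B0 (n + 3) = B0 := pvdw_sq_per _ _ _ _ _
theorem pvdw_dr_zero : pvdwDr n 0 = false := pvdw_sq_zero _ _ _ _ _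
theorem pvdw_dr_per : pvdwDr n (n + 3) = false := pvdw_sq_per _ _ _ _ _
theorem pvdw_dr_door {k : ℕ} (h : k < n + 2) : pvdwDr n (k + 1) = true := by
  rcases Nat.lt_or_ge k n with h1 | h1
  · exact pvdw_sq_cell _ _ _ _ _ h1
  · rcases Nat.eq_or_lt_of_le h1 with h2 | h2
    · rw [← h2]; exact pvdw_sq_r _ _ _ _ _
    · have : k = n + 1 := by omega
      rw [this]; exact pvdw_sq_e _ _ _ _ _

/-- **EVERY TAG OF THE `Σ₁` RING HAS EXACTLY ONE OWNER, PIECE BY PIECE** -/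
structure PvdwOwn (T : PvMap V D) (pos : V → ℂ) (n : ℕ) (P : PvwSt T) (Dd : ℕ → PvwSt T) (U : PvwSt T) (y0 : T.Pth) (yc : ℕ → T.Pth) (yr ye : T.Pth)
    (M0 : Set ℂ) (Mc : ℕ → Set ℂ) (Mr Me B0 : Set ℂ) : Prop where
  ip : P.ip ≤ P.inn.n
  ipD : ∀ j, j ≤ n → (Dd j).ip ≤ (Dd j).inn.n
  ipU : U.ip ≤ U.inn.n
  /-- the tags of the arc of a link lie in its mask -/
  y0_in : ∀ k, k < y0.n → T.bary pos (T.opp (y0.e k)) ∈ M0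
  yc_in : ∀ j, j < n → ∀ k, k < (yc j).n → T.bary pos (T.opp ((yc j).e k)) ∈ Mc j
  yr_in : ∀ k, k < yr.n → T.bary pos (T.opp (yr.e k)) ∈ Mr
  ye_in : ∀ k, k < ye.n → T.bary pos (T.opp (ye.e k)) ∈ Me
  /-- the candidate: cut-off set, then the mark -/
  mk_in : ∀ k, k < P.inn.n → T.bary pos (T.opp (P.inn.e k)) ∈ B0 → T.bary pos (T.opp (P.inn.e k)) ∉ Me ∧ T.bary pos (T.opp (P.inn.e k)) ∉ M0
  mk_lo : ∀ k, k < P.ip → T.bary pos (T.opp (P.inn.e k)) ∉ B0 → T.bary pos (T.opp (P.inn.e k)) ∈ Me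
  mk_hi : ∀ k, P.ip ≤ k → k < P.inn.n → T.bary pos (T.opp (P.inn.e k)) ∉ B0 → T.bary pos (T.opp (P.inn.e k)) ∈ M0
  /-- the door `j`: between the link `j` and the link `j + 1` -/
  door : ∀ j, j ≤ n → ∀ k, k < (Dd j).inn.n → (T.bary pos (T.opp ((Dd j).inn.e k)) ∈ pvdwM n M0 Mc Mr Me j ↔ T.bary pos (T.opp ((Dd j).inn.e k)) ∉ pvdwM n M0 Mc Mr Me (j + 1))
  /-- the reference plug: between the thin link and the thick link -/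
  ref : ∀ k, k < U.inn.n → (T.bary pos (T.opp (U.inn.e k)) ∈ Mr ↔ T.bary pos (T.opp (U.inn.e k)) ∉ Me)

variable {pos : V → ℂ} {P : PvwSt T} {Dd : ℕ → PvwSt T} {U : PvwSt T} {y0 : T.Pth} {yc : ℕ → T.Pth} {yr ye : T.Pth}

/-- **piece by piece ⟹ `Pvcy2Own` at the sequences** -/
theorem PvdwOwn.own (H : PvdwOwn T pos n P Dd U y0 yc yr ye M0 Mc Mr Me B0) :
    Pvcy2Own T pos (n + 3) (pvdwSt n P Dd U) (pvdwY n y0 yc yr ye) (pvdwM n M0 Mc Mr Me) (pvdwB n B0) (pvdwDr n) where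
  perS := by rw [pvdw_st_per, pvdw_st_zero]
  perM := by rw [pvdw_m_per, pvdw_m_zero]
  perB := by rw [pvdw_b_per, pvdw_b_zero]
  perD := by rw [pvdw_dr_per, pvdw_dr_zero]
  ip := by
    intro k hk
    rcases pvdw_cases hk with rfl | ⟨j, hj, rfl⟩ | rfl | rfl
    · rw [pvdw_st_zero]; exact H.ip
    · rw [pvdw_st_door hj.le]; exact H.ipD j hj.le
    · rw [pvdw_st_door le_rfl]; exact H.ipD n le_rfl
    · rw [pvdw_st_u]; exact H.ipU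
  y_in := by
    intro k hk
    rcases pvdw_cases hk with rfl | ⟨j, hj, rfl⟩ | rfl | rfl
    · rw [pvdw_y_zero, pvdw_m_zero]; exact H.y0_in
    · rw [pvdw_y_cell hj, pvdw_m_cell hj]; exact H.yc_in j hj
    · rw [pvdw_y_r, pvdw_m_r]; exact H.yr_in
    · rw [pvdw_y_e, pvdw_m_e]; exact H.ye_in
  mk_in := by
    intro k hk hd
    rcases Nat.lt_or_ge k (n + 2) with h | h
    · rw [pvdw_dr_door h] at hd; exact absurd hd (by simp)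
    · have e : k = n + 2 := by omega
      subst e
      rw [pvdw_st_per, pvdw_b_per, pvdw_m_e, pvdw_m_per]; exact H.mk_in
  mk_lo := by
    intro k hk hd
    rcases Nat.lt_or_ge k (n + 2) with h | h
    · rw [pvdw_dr_door h] at hd; exact absurd hd (by simp)
    · have e : k = n + 2 := by omega
      subst e
      rw [pvdw_st_per, pvdw_b_per, pvdw_m_e]; exact H.mk_lo
  mk_hi := by
    intro k hk hd
    rcases Nat.lt_or_ge k (n + 2) with h | h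
    · rw [pvdw_dr_door h] at hd; exact absurd hd (by simp)
    · have e : k = n + 2 := by omega
      subst e
      rw [pvdw_st_per, pvdw_b_per, pvdw_m_per]; exact H.mk_hi
  door := by
    intro k hk hd
    rcases Nat.lt_or_ge k (n + 1) with h | h
    · rw [pvdw_st_door (Nat.lt_succ_iff.1 h)]; exact H.door k (Nat.lt_succ_iff.1 h)
    · rcases Nat.eq_or_lt_of_le h with h2 | h2
      · rw [← h2, pvdw_st_u, pvdw_m_r, pvdw_m_e]; exact H.ref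
      · have e : k = n + 2 := by omega
        subst e
        rw [pvdw_dr_per] at hd; exact absurd hd (by simp)

/-- the cut-off set of a door end is not read -/
theorem pvdw_valM_door (pos : V → ℂ) (w : D → ℂ) (M B B' : Set ℂ) (dr' : Bool) (𝔖 𝔖' : PvwSt T) (y : T.Pth) :
    pvcy2ValM T pos w M B true dr' 𝔖 𝔖' y = pvcy2ValM T pos w M B' true dr' 𝔖 𝔖' y := rfl

end own

theorem pvdw_eqns_cite : True := by
  have := @pvdwSq.eq_1; have := @PvdwIn.eq_1; have := @PvdwRun.eq_1; have := @pvdwSt.eq_1; have := @pvdwY.eq_1; have := @pvdwM.eq_1; have := @pvdwB.eq_1; have := @pvdwDr.eq_1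
  trivial

/-! ## 4. at a configuration `η`, colour `b`: door states, cells -/

section model

variable {η : Conf PvPt} {b : Bool}

/-- the state of the door `j` of a family of gates -/
noncomputable def pvdwDd (𝔭 : PvkdPlug) (b : Bool) (η : Conf PvPt) (Z : ℕ → ℂ) (g : ℕ → (pvkiT η).Gate (pvukS b η)) (j : ℕ) : PvwSt (pvieT η) := pvilStS 𝔭 η (pvieCol η b) (Z j) (g j)

/-- the arc of the cell `j` of a family of gates -/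
noncomputable def pvdwYc (b : Bool) (η : Conf PvPt) (g : ℕ → (pvkiT η).Gate (pvukS b η)) (j : ℕ) : (pvieT η).Pth :=
  pvtArc (pvkiT η) (pvukS b η) (g j).aOut (pvasHit (pvkiT η) (pvukS b η) (g j).aOut {(g (j + 1)).aIn})

theorem pvdw_eqns_cite2 : True := by
  have := @pvdwDd.eq_1; have := @pvdwYc.eq_1
  trivial

/-- **THE door state is the record of THE gate of record** -/
theorem pvdw_door_eq (hG : DelGood (cfSites η)) {𝔭 : PvkdPlug} (hZ : Disjoint 𝔭.Zm 𝔭.Zp) {z d : ℂ} {𝔖 : PvwSt (pvieT η)} (h : PvilDoor 𝔭 b η z d 𝔖)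
    {g : (pvkiT η).Gate (pvukS b η)} (hg : PvukGate 𝔭 b η z d g) : 𝔖 = pvilStS 𝔭 η (pvieCol η b) z g := by
  obtain ⟨-, g', hg', rfl⟩ := h
  rw [pvuk_uniq hG hZ (show PvukGate 𝔭 b η z d g' from hg') hg]

/-- the inner strand of a door -/
theorem pvdw_in_door (hG : DelGood (cfSites η)) {𝔭 𝔭' : PvkdPlug} {z z' d : ℂ} {g : (pvkiT η).Gate (pvukS b η)} (hg : PvukGate 𝔭 b η z d g) :
    PvdwIn (pvieT η) (pvieCol η b) (pvilStS 𝔭' η (pvieCol η b) z' g) := by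
  have hT : (pvkiT η).IsSph := delb_plane_isSph hG
  have hS : (pvkiT η).Simple := (delbPl (cfSites η)).toMap_simple
  obtain ⟨N, hN⟩ := hg.thru
  refine ⟨g.len, ?_, pvll_door_le hT hS hg⟩
  rw [(hN.len hT).1]
  exact hN.2.1

/-- the strand of a cell -/
theorem pvdw_run_cell (hG : DelGood (cfSites η)) {𝔭 𝔭' : PvkdPlug} {z z' : ℂ} {g g' : (pvkiT η).Gate (pvukS b η)} {KE : Set ℂ} {N : ℕ}
    (h : PvzlRun (pvkiT η) Subtype.val (pvukS b η) KE g g' N) :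
    PvdwRun (pvieT η) (pvieCol η b) (pvilStS 𝔭 η (pvieCol η b) z g) (pvilStS 𝔭' η (pvieCol η b) z' g')
      (pvtArc (pvkiT η) (pvukS b η) g.aOut (pvasHit (pvkiT η) (pvukS b η) g.aOut {g'.aIn})) := by
  have hT : (pvkiT η).IsSph := delb_plane_isSph hG
  have hS : (pvkiT η).Simple := (delbPl (cfSites η)).toMap_simple
  refine ⟨N, h.2.1, ?_⟩
  rw [h.hit]
  exact pvt_sd_le hT hS (pvtg_aOut_bw g) (pvll_it_inj h.2.1 h.2.2.1)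

/-- a masked `psum` of 244 is a mass of `Tr/Defs` -/
theorem pvdw_psum_mass (M : Set ℂ) (p : (pvkiT η).Pth) : p.psum (pvkiW η M) = pvwMass (pvkiT η) Subtype.val ((pvkiT η).qpart Subtype.val) M p 0 p.n := by
  classical
  unfold PvMap.Pth.psum pvwMass pvkiW
  rw [← Finset.range_eq_Ico]
  refine Finset.sum_congr rfl fun k _ => ?_
  by_cases h : (pvkiT η).bary Subtype.val ((pvkiT η).opp (p.e k)) ∈ M
  · rw [if_pos h, indicator_of_mem h, Pi.one_apply, one_mul]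
  · rw [if_neg h, indicator_of_notMem h, zero_mul]

/-- **the mass of a cell is the value of a link between two doors** -/
theorem pvdw_mass_val (𝔭 𝔭' : PvkdPlug) (z z' : ℂ) (M B : Set ℂ) (g g' : (pvkiT η).Gate (pvukS b η)) :
    pvukMass b η M g g' = pvcy2ValM (pvkiT η) Subtype.val ((pvkiT η).qpart Subtype.val) M B true true (pvilStS 𝔭 η (pvieCol η b) z g) (pvilStS 𝔭' η (pvieCol η b) z' g')
      (pvtArc (pvkiT η) (pvukS b η) g.aOut (pvasHit (pvkiT η) (pvukS b η) g.aOut {g'.aIn})) := by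
  unfold pvukMass
  rw [pvdw_psum_mass, pvdw_psum_mass, pvdw_psum_mass]
  show _ = (0 : ℂ) + pvwMass (pvkiT η) Subtype.val ((pvkiT η).qpart Subtype.val) M (pvtArc (pvkiT η) (pvukS b η) g.aIn g.len) 0 (pvtArc (pvkiT η) (pvukS b η) g.aIn g.len).n + _ + _
  rw [zero_add]
  rfl

/-! ## 5. THE NORMAL FORM of the success of the `Σ₁` cycle in the plane map of `η` -/

/-- **THE NORMAL FORM**: ONE family of gates of record `g 0 .. g n` (doors, plug `𝔭`, frames `(Z j, Dv j)`), THE gate `gu` of the reference plug (`𝔭u` at `(zu, du)`), the exit half state `P` and the entrance half state `P'` of the candidate,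
the four kinds of runs with their arcs.      `Lo Lr Le` = ANY links of `Tr/InstL` (only `p`, `p'`, `Yin` are read here) -/
structure PvdwArcs (N : PvwNum) (b : Bool) (η : Conf PvPt) (Lo Lr Le : PvilLk) (𝔭 𝔭u : PvkdPlug) (n : ℕ) (Z Dv : ℕ → ℂ) (Co : ℕ → Set ℂ) (zu du : ℂ)
    (P P' : PvwSt (pvieT η)) (g : ℕ → (pvkiT η).Gate (pvukS b η)) (gu : (pvkiT η).Gate (pvukS b η)) (y0 yr ye : (pvieT η).Pth) : Prop where
  good : DelGood (cfSites η)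
  gt : ∀ j, j ≤ n → PvukGate 𝔭 b η (Z j) (Dv j) (g j)
  gtu : PvukGate 𝔭u b η zu du gu
  /-- nice configuration + mesh of the three plugs which are ends of special links -/
  ms0 : η ∈ 𝔭.N (Z 0) (Dv 0)
  msn : η ∈ 𝔭.N (Z n) (Dv n)
  msu : η ∈ 𝔭u.N zu du
  out : PvilOut N b Lo.p η P
  inn : PvilIn N b Le.p' η P'
  run0 : ∃ k, Lo.Run b η P (pvdwDd 𝔭 b η Z g 0) k ∧ PvwLE (pvieT η) (fun i => (pvieT η).src (pvasIt (pvieT η) (pvieCol η b) P.dp i)) k y0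
  runc : ∀ j, j < n → ∃ k, PvzlRun (pvkiT η) Subtype.val (pvukS b η) (Co j) (g j) (g (j + 1)) k
  runr : ∃ k, Lr.Run b η (pvdwDd 𝔭 b η Z g n) (pvilStS 𝔭u η (pvieCol η b) zu gu) k ∧
    PvwLE (pvieT η) (fun i => (pvieT η).src (pvasIt (pvieT η) (pvieCol η b) (pvdwDd 𝔭 b η Z g n).dp i)) k yr
  rune : ∃ k, Le.Run b η (pvilStS 𝔭u η (pvieCol η b) zu gu) P' k ∧
    PvwLE (pvieT η) (fun i => (pvieT η).src (pvasIt (pvieT η) (pvieCol η b) (pvilStS 𝔭u η (pvieCol η b) zu gu).dp i)) k ye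

section arcs

variable {N : PvwNum} {Lo Lr Le : PvilLk} {𝔭 𝔭u : PvkdPlug} {n : ℕ} {Z Dv : ℕ → ℂ} {Co : ℕ → Set ℂ} {zu du : ℂ}
  {P P' : PvwSt (pvieT η)} {g : ℕ → (pvkiT η).Gate (pvukS b η)} {gu : (pvkiT η).Gate (pvukS b η)} {y0 yr ye : (pvieT η).Pth}

/-- the two half states of the candidate have the same gate part -/
theorem PvdwArcs.glue (A : PvdwArcs N b η Lo Lr Le 𝔭 𝔭u n Z Dv Co zu du P P' g gu y0 yr ye) (hp : Le.p' = Lo.p) (hfr : Lo.p.fr ≠ 0) : PvuqG P P' := by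
  have hT : (pvieT η).IsSph := delb_plane_isSph A.good
  have hS : (pvieT η).Simple := pvgy_m_simple (pvieY η)
  have hinj : Function.Injective (Lo.p.pos η) := fun u v e => Subtype.ext (mul_left_cancel₀ (by simpa using hfr : (starRingEnd ℂ) Lo.p.fr ≠ 0) e)
  have hi := A.inn.st
  rw [hp] at hi
  exact pvuq_gate hT hS hinj A.out.st.gate hi.gate (A.out.st.inmost.trans hi.inmost.symm)

/-- **THE STRANDS OF THE NORMAL FORM** -/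
theorem PvdwArcs.str (A : PvdwArcs N b η Lo Lr Le 𝔭 𝔭u n Z Dv Co zu du P P' g gu y0 yr ye) (hp : Le.p' = Lo.p) (hfr : Lo.p.fr ≠ 0) :
    PvdwStr (pvieT η) (pvieCol η b) n P (pvdwDd 𝔭 b η Z g) (pvilStS 𝔭u η (pvieCol η b) zu gu) y0 (pvdwYc b η g) yr ye where
  bw := A.out.st.gate.bw_m
  iP := by
    obtain ⟨k, h1, -, h3⟩ := A.out.st.gate.strand
    exact ⟨k, h1, h3⟩
  iD := fun j hj => pvdw_in_door A.good (A.gt j hj)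
  iU := pvdw_in_door A.good A.gtu
  r0 := by
    obtain ⟨k, h1, h2⟩ := A.run0
    exact ⟨k, h1.2.1, h2⟩
  rc := fun j hj => by
    obtain ⟨k, hk⟩ := A.runc j hj
    exact pvdw_run_cell A.good hk
  rr := by
    obtain ⟨k, h1, h2⟩ := A.runr
    exact ⟨k, h1.2.1, h2⟩
  re := by
    obtain ⟨k, h1, h2⟩ := A.rune
    exact ⟨k, by rw [(A.glue hp hfr).dm]; exact h1.2.1, h2⟩

end arcs

/-- **WHAT IS LEFT AFTER THE ASSEMBLY**, on the sequences of the normal form: heads (264), ownership (48), box, two far gates -/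
structure PvdwRest (b : Bool) (η : Conf PvPt) (n : ℕ) (P : PvwSt (pvieT η)) (Dd : ℕ → PvwSt (pvieT η)) (U : PvwSt (pvieT η)) (y0 : (pvieT η).Pth) (yc : ℕ → (pvieT η).Pth) (yr ye : (pvieT η).Pth)
    (M0 : Set ℂ) (Mc : ℕ → Set ℂ) (Mr Me B0 Bx : Set ℂ) (c : ℝ) : Prop where
  ii : ∀ i j, i < j → j < n + 3 → pvcy2Hd (pvdwSt n P Dd U i).inn (pvdwSt n P Dd U j).inn
  yy : ∀ i j, i < j → j < n + 3 → pvcy2Hd (pvdwY n y0 yc yr ye i) (pvdwY n y0 yc yr ye j)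
  iy : ∀ i j, i < n + 3 → j < n + 3 → pvcy2Hd (pvdwSt n P Dd U i).inn (pvdwY n y0 yc yr ye j)
  own : Pvcy2Own (pvieT η) (pviePos η) (n + 3) (pvdwSt n P Dd U) (pvdwY n y0 yc yr ye) (pvdwM n M0 Mc Mr Me) (pvdwB n B0) (pvdwDr n)
  bi : ∀ j, j < n + 3 → ∀ v ∈ (pvdwSt n P Dd U j).inn.verts, pviePos η v ∈ Bx
  by' : ∀ j, j < n + 3 → ∀ v ∈ (pvdwY n y0 yc yr ye j).verts, pviePos η v ∈ Bx
  far : ∃ i j, i < n + 3 ∧ j < n + 3 ∧ c ≤ ‖pviePos η (pvdwSt n P Dd U i).gp - pviePos η (pvdwSt n P Dd U j).gp‖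

section main

variable {N : PvwNum} {Lo Lr Le : PvilLk} {𝔭 𝔭u : PvkdPlug} {n : ℕ} {Z Dv : ℕ → ℂ} {Co : ℕ → Set ℂ} {zu du : ℂ}
  {P P' : PvwSt (pvieT η)} {g : ℕ → (pvkiT η).Gate (pvukS b η)} {gu : (pvkiT η).Gate (pvukS b η)} {y0 yr ye : (pvieT η).Pth}

theorem pvdw_door_ne (𝔭 : PvkdPlug) (z : ℂ) (g : (pvkiT η).Gate (pvukS b η)) : (pvilStS 𝔭 η (pvieCol η b) z g).gp ≠ (pvilStS 𝔭 η (pvieCol η b) z g).gm := by
  show (pvkiT η).src g.aOut ≠ (pvkiT η).src g.aIn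
  rw [pvtg_aOut_src, pvtg_aIn_src]
  exact (pvtg_ne g).symm

/-- the two gate vertices of every plug of the normal form are different -/
theorem PvdwArcs.ne (A : PvdwArcs N b η Lo Lr Le 𝔭 𝔭u n Z Dv Co zu du P P' g gu y0 yr ye) {k : ℕ} (hk : k < n + 3) :
    (pvdwSt n P (pvdwDd 𝔭 b η Z g) (pvilStS 𝔭u η (pvieCol η b) zu gu) k).gp ≠ (pvdwSt n P (pvdwDd 𝔭 b η Z g) (pvilStS 𝔭u η (pvieCol η b) zu gu) k).gm := by
  rcases pvdw_cases hk with rfl | ⟨j, hj, rfl⟩ | rfl | rfl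
  · rw [pvdw_st_zero]; exact A.out.st.gate.ne
  · rw [pvdw_st_door hj.le]; exact pvdw_door_ne _ _ _
  · rw [pvdw_st_door le_rfl]; exact pvdw_door_ne _ _ _
  · rw [pvdw_st_u]; exact pvdw_door_ne _ _ _

/-- **THE ASSEMBLY**: the normal form + what is left ⟹ `Pvcy2At` of 48, with the values of the links read on the witnesses of the normal form -/
theorem PvdwArcs.at (A : PvdwArcs N b η Lo Lr Le 𝔭 𝔭u n Z Dv Co zu du P P' g gu y0 yr ye) (hp : Le.p' = Lo.p) (hfr : Lo.p.fr ≠ 0)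
    (ho : Lo.dr = false) (ho' : Lo.dr' = true) (hr : Lr.dr = true) (hr' : Lr.dr' = true) (he : Le.dr = true) (he' : Le.dr' = false)
    {Mc : ℕ → Set ℂ} {Bx : Set ℂ} {c : ℝ}
    (R : PvdwRest b η n P (pvdwDd 𝔭 b η Z g) (pvilStS 𝔭u η (pvieCol η b) zu gu) y0 (pvdwYc b η g) yr ye (Lo.msk N) Mc (Lr.msk N) (Le.msk N) (Lo.ball N) Bx c) :
    Pvcy2At η n (Lo.val N η (pvilQ η) P (pvdwDd 𝔭 b η Z g 0) y0) (fun j => pvukMass b η (Mc j) (g j) (g (j + 1)))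
      (Lr.val N η (pvilQ η) (pvdwDd 𝔭 b η Z g n) (pvilStS 𝔭u η (pvieCol η b) zu gu) yr) (Le.val N η (pvilQ η) (pvilStS 𝔭u η (pvieCol η b) zu gu) P' ye) Bx c := by
  have e0 : Lo.val N η (pvilQ η) P (pvdwDd 𝔭 b η Z g 0) y0 = pvcy2ValM (pvieT η) (pviePos η) (pvilQ η) (pvdwM n (Lo.msk N) Mc (Lr.msk N) (Le.msk N) 0) (pvdwB n (Lo.ball N) 0) (pvdwDr n 0) (pvdwDr n 1)
      (pvdwSt n P (pvdwDd 𝔭 b η Z g) (pvilStS 𝔭u η (pvieCol η b) zu gu) 0) (pvdwSt n P (pvdwDd 𝔭 b η Z g) (pvilStS 𝔭u η (pvieCol η b) zu gu) 1) (pvdwY n y0 (pvdwYc b η g) yr ye 0) := by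
    rw [pvdw_m_zero, pvdw_b_zero, pvdw_dr_zero, pvdw_dr_door (show 0 < n + 2 by omega), pvdw_st_zero, pvdw_st_door (Nat.zero_le n), pvdw_y_zero, pvcy2_val_il, ho, ho']
  have e1 : ∀ j, j < n → pvukMass b η (Mc j) (g j) (g (j + 1)) = pvcy2ValM (pvieT η) (pviePos η) (pvilQ η) (pvdwM n (Lo.msk N) Mc (Lr.msk N) (Le.msk N) (j + 1)) (pvdwB n (Lo.ball N) (j + 1))
      (pvdwDr n (j + 1)) (pvdwDr n (j + 1 + 1)) (pvdwSt n P (pvdwDd 𝔭 b η Z g) (pvilStS 𝔭u η (pvieCol η b) zu gu) (j + 1))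
      (pvdwSt n P (pvdwDd 𝔭 b η Z g) (pvilStS 𝔭u η (pvieCol η b) zu gu) (j + 1 + 1)) (pvdwY n y0 (pvdwYc b η g) yr ye (j + 1)) := by
    intro j hj
    rw [pvdw_m_cell hj, pvdw_dr_door (show j < n + 2 by omega), pvdw_dr_door (show j + 1 < n + 2 by omega), pvdw_st_door hj.le, pvdw_st_door (show j + 1 ≤ n from hj), pvdw_y_cell hj]
    exact pvdw_mass_val _ _ _ _ _ _ _ _
  have e2 : Lr.val N η (pvilQ η) (pvdwDd 𝔭 b η Z g n) (pvilStS 𝔭u η (pvieCol η b) zu gu) yr = pvcy2ValM (pvieT η) (pviePos η) (pvilQ η) (pvdwM n (Lo.msk N) Mc (Lr.msk N) (Le.msk N) (n + 1))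
      (pvdwB n (Lo.ball N) (n + 1)) (pvdwDr n (n + 1)) (pvdwDr n (n + 1 + 1)) (pvdwSt n P (pvdwDd 𝔭 b η Z g) (pvilStS 𝔭u η (pvieCol η b) zu gu) (n + 1))
      (pvdwSt n P (pvdwDd 𝔭 b η Z g) (pvilStS 𝔭u η (pvieCol η b) zu gu) (n + 1 + 1)) (pvdwY n y0 (pvdwYc b η g) yr ye (n + 1)) := by
    rw [pvdw_m_r, pvdw_dr_door (show n < n + 2 by omega), pvdw_dr_door (show n + 1 < n + 2 by omega), pvdw_st_door le_rfl, pvdw_st_u, pvdw_y_r, pvcy2_val_il, hr, hr']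
    rfl
  have e3 : Le.val N η (pvilQ η) (pvilStS 𝔭u η (pvieCol η b) zu gu) P' ye = pvcy2ValM (pvieT η) (pviePos η) (pvilQ η) (pvdwM n (Lo.msk N) Mc (Lr.msk N) (Le.msk N) (n + 2))
      (pvdwB n (Lo.ball N) (n + 2)) (pvdwDr n (n + 2)) (pvdwDr n (n + 2 + 1)) (pvdwSt n P (pvdwDd 𝔭 b η Z g) (pvilStS 𝔭u η (pvieCol η b) zu gu) (n + 2))
      (pvdwSt n P (pvdwDd 𝔭 b η Z g) (pvilStS 𝔭u η (pvieCol η b) zu gu) (n + 2 + 1)) (pvdwY n y0 (pvdwYc b η g) yr ye (n + 2)) := by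
    rw [pvdw_m_e, pvdw_dr_door (show n + 1 < n + 2 by omega), pvdw_dr_per, pvdw_st_u, pvdw_st_per, pvdw_y_e, pvcy2_val_il, he, he']
    exact pvcy2_valM_congr _ _ _ _ _ _ (PvuqG.refl _) (A.glue hp hfr).symm A.inn.st.gate.ip_le _
  obtain ⟨i, j, hi, hj, hc⟩ := R.far
  exact ⟨A.good, pvieCol η b, pvdwSt n P (pvdwDd 𝔭 b η Z g) (pvilStS 𝔭u η (pvieCol η b) zu gu), pvdwY n y0 (pvdwYc b η g) yr ye, pvdwM n (Lo.msk N) Mc (Lr.msk N) (Le.msk N), pvdwB n (Lo.ball N), pvdwDr n,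
    pvcy2_col η b, (A.str hp hfr).cyc R.ii R.yy R.iy, R.own, R.bi, R.by', ⟨i, j, hi, hj, A.ne hi, A.ne hj, hc⟩, e0, e1, e2, e3⟩

end main

/-! ## 6. from the plain events to the normal form -/

/-- **THE THREE SPECIAL LINKS FIT THE FRAMES OF THE DOORS**: kinds of the ends, ONE candidate, the first link arrives at the door `0`, the thin link runs from the door `n` to the reference plug, the thick link leaves the reference plug -/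
structure PvdwFit (Lo Lr Le : PvilLk) (𝔭 𝔭u : PvkdPlug) (n : ℕ) (Z Dv : ℕ → ℂ) (zu du : ℂ) : Prop where
  pin : Le.p' = Lo.p
  fr : Lo.p.fr ≠ 0
  o : Lo.dr = false
  o' : Lo.dr' = true
  r : Lr.dr = true
  r' : Lr.dr' = true
  e : Le.dr = true
  e' : Le.dr' = false
  o_pl : pvkdP Lo.p'.h = 𝔭
  o_z : Lo.p'.z = Z 0
  o_d : Lo.p'.fr = Dv 0
  r_pl : pvkdP Lr.p.h = 𝔭
  r_z : Lr.p.z = Z n
  r_d : Lr.p.fr = Dv n
  ru_pl : pvkdP Lr.p'.h = 𝔭u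
  ru_z : Lr.p'.z = zu
  ru_d : Lr.p'.fr = du
  eu_pl : pvkdP Le.p.h = 𝔭u
  eu_z : Le.p.z = zu
  eu_d : Le.p.fr = du
  zz : Disjoint 𝔭.Zm 𝔭.Zp
  zzu : Disjoint 𝔭u.Zm 𝔭u.Zp

section normal

variable {N : PvwNum} {Lo Lr Le : PvilLk} {𝔭 𝔭u : PvkdPlug} {n : ℕ} {Z Dv : ℕ → ℂ} {Co : ℕ → Set ℂ} {zu du : ℂ}

/-- **THE NORMAL FORM EXISTS**: any witnesses of the three special links + any gates and runs of the cells ARE one family -/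
theorem pvdw_normal (F : PvdwFit Lo Lr Le 𝔭 𝔭u n Z Dv zu du) {P S1 Sn Su Su' P' : PvwSt (pvieT η)} {y0 yr ye : (pvieT η).Pth}
    (hLo : Lo.Arc N b η P S1 y0) (hLr : Lr.Arc N b η Sn Su yr) (hLe : Le.Arc N b η Su' P' ye) {g : ℕ → (pvkiT η).Gate (pvukS b η)}
    (hg : ∀ j, j < n → PvukGate 𝔭 b η (Z j) (Dv j) (g j) ∧ PvukGate 𝔭 b η (Z (j + 1)) (Dv (j + 1)) (g (j + 1)) ∧ ∃ k, PvzlRun (pvkiT η) Subtype.val (pvukS b η) (Co j) (g j) (g (j + 1)) k) :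
    ∃ (g' : ℕ → (pvkiT η).Gate (pvukS b η)) (gu : (pvkiT η).Gate (pvukS b η)), (∀ j, j < n → g' j = g j ∧ g' (j + 1) = g (j + 1)) ∧
      S1 = pvdwDd 𝔭 b η Z g' 0 ∧ Sn = pvdwDd 𝔭 b η Z g' n ∧ Su = pvilStS 𝔭u η (pvieCol η b) zu gu ∧ Su' = pvilStS 𝔭u η (pvieCol η b) zu gu ∧
      PvdwArcs N b η Lo Lr Le 𝔭 𝔭u n Z Dv Co zu du P P' g' gu y0 yr ye := by
  have hout : PvilOut N b Lo.p η P := (PvilLk.atP_pin F.o N b η P).1 hLo.at_p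
  have hinn : PvilIn N b Le.p' η P' := (PvilLk.atP'_pin F.e' N b η P').1 hLe.at_p'
  have hG : DelGood (cfSites η) := hout.good
  have d0 : PvilDoor 𝔭 b η (Z 0) (Dv 0) S1 := by
    have := (PvilLk.atP'_door F.o' N b η S1).1 hLo.at_p'
    rwa [F.o_pl, F.o_z, F.o_d] at this
  have dn : PvilDoor 𝔭 b η (Z n) (Dv n) Sn := by
    have := (PvilLk.atP_door F.r N b η Sn).1 hLr.at_p
    rwa [F.r_pl, F.r_z, F.r_d] at this
  have du1 : PvilDoor 𝔭u b η zu du Su := by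
    have := (PvilLk.atP'_door F.r' N b η Su).1 hLr.at_p'
    rwa [F.ru_pl, F.ru_z, F.ru_d] at this
  have du2 : PvilDoor 𝔭u b η zu du Su' := by
    have := (PvilLk.atP_door F.e N b η Su').1 hLe.at_p
    rwa [F.eu_pl, F.eu_z, F.eu_d] at this
  obtain ⟨gu, hgu⟩ : ∃ gu : (pvkiT η).Gate (pvukS b η), PvukGate 𝔭u b η zu du gu := by
    obtain ⟨-, gu, hgu, -⟩ := du1
    exact ⟨gu, hgu⟩
  have eu1 := pvdw_door_eq hG F.zzu du1 hgu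
  have eu2 := pvdw_door_eq hG F.zzu du2 hgu
  -- the family of gates
  obtain ⟨g', hg', hgt⟩ : ∃ g' : ℕ → (pvkiT η).Gate (pvukS b η), (∀ j, j < n → g' j = g j ∧ g' (j + 1) = g (j + 1)) ∧ ∀ j, j ≤ n → PvukGate 𝔭 b η (Z j) (Dv j) (g' j) := by
    rcases Nat.eq_zero_or_pos n with h0 | h0
    · obtain ⟨-, g0, hg0, -⟩ := d0
      refine ⟨fun _ => g0, fun j hj => absurd hj (by omega), fun j hj => ?_⟩
      have : j = 0 := by omega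
      subst this
      exact hg0
    · refine ⟨g, fun j _ => ⟨rfl, rfl⟩, fun j hj => ?_⟩
      rcases Nat.lt_or_ge j n with h1 | h1
      · exact (hg j h1).1
      · have e : j = n - 1 + 1 := by omega
        rw [e]
        exact (hg (n - 1) (by omega)).2.1
  have e0 := pvdw_door_eq hG F.zz d0 (hgt 0 (Nat.zero_le n))
  have en := pvdw_door_eq hG F.zz dn (hgt n le_rfl)
  refine ⟨g', gu, hg', e0, en, eu1, eu2, hG, hgt, hgu, d0.1, dn.1, du1.1, hout, hinn, ?_, ?_, ?_, ?_⟩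
  · have := hLo.run
    rwa [e0] at this
  · intro j hj
    rw [(hg' j hj).1, (hg' j hj).2]
    exact (hg j hj).2.2
  · have := hLr.run
    rwa [en, eu1] at this
  · have := hLe.run
    rwa [eu2] at this

/-- `Pvcy2At` reads the values of the cells `j < n` only -/
theorem pvdw_at_congr {ω : Conf PvPt} {n : ℕ} {Xo : ℂ} {Xc Xc' : ℕ → ℂ} {Xr Xe : ℂ} {Bx : Set ℂ} {c : ℝ} (H : Pvcy2At ω n Xo Xc Xr Xe Bx c) (h : ∀ j, j < n → Xc' j = Xc j) :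
    Pvcy2At ω n Xo Xc' Xr Xe Bx c := by
  obtain ⟨s, 𝔖, y, M, Bc, dr, hs, hC, hO, hi, hy, hbig, e0, e1, e2, e3⟩ := H.ex
  exact ⟨H.good, s, 𝔖, y, M, Bc, dr, hs, hC, hO, hi, hy, hbig, e0, fun j hj => (h j hj).trans (e1 j hj), e2, e3⟩

/-- the plain value of a link is its value on SOME witnesses of the plain success -/
theorem pvdw_X_wit {L : PvilLk} (w : ∀ η : Conf PvPt, (delbPl (pvieY η)).Dart → ℂ) (h : η ∈ L.A N b) :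
    ∃ (𝔖 𝔖' : PvwSt (pvieT η)) (y : (pvieT η).Pth), L.Arc N b η 𝔖 𝔖' y ∧ L.X N b w η = L.val N η (w η) 𝔖 𝔖' y := by
  refine ⟨_, _, _, Exists.choose_spec (Exists.choose_spec (Exists.choose_spec h)), ?_⟩
  unfold PvilLk.X
  exact dif_pos h

/-- **`Pvcy2At` AT THE MODEL, FROM THE PLAIN EVENTS**: the three special links succeed (plain events of `Tr/InstL`), the cells are links between THE gates of record (word form of [KDICT], 244);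
what is left (`PvdwRest`: heads, ownership, box, two far gates) is owed FOR EVERY NORMAL FORM.      The values are the plain values `PvilLk.X` and the masses of the cells. -/
theorem pvdw_main (F : PvdwFit Lo Lr Le 𝔭 𝔭u n Z Dv zu du) (hLo : η ∈ Lo.A N b) (hLr : η ∈ Lr.A N b) (hLe : η ∈ Le.A N b) {g : ℕ → (pvkiT η).Gate (pvukS b η)}
    (hg : ∀ j, j < n → PvukGate 𝔭 b η (Z j) (Dv j) (g j) ∧ PvukGate 𝔭 b η (Z (j + 1)) (Dv (j + 1)) (g (j + 1)) ∧ ∃ k, PvzlRun (pvkiT η) Subtype.val (pvukS b η) (Co j) (g j) (g (j + 1)) k)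
    {Mc : ℕ → Set ℂ} {Bx : Set ℂ} {c : ℝ}
    (H : ∀ (P P' : PvwSt (pvieT η)) (g' : ℕ → (pvkiT η).Gate (pvukS b η)) (gu : (pvkiT η).Gate (pvukS b η)) (y0 yr ye : (pvieT η).Pth),
      PvdwArcs N b η Lo Lr Le 𝔭 𝔭u n Z Dv Co zu du P P' g' gu y0 yr ye →
      PvdwRest b η n P (pvdwDd 𝔭 b η Z g') (pvilStS 𝔭u η (pvieCol η b) zu gu) y0 (pvdwYc b η g') yr ye (Lo.msk N) Mc (Lr.msk N) (Le.msk N) (Lo.ball N) Bx c) :
    Pvcy2At η n (Lo.X N b pvilQ η) (fun j => pvukMass b η (Mc j) (g j) (g (j + 1))) (Lr.X N b pvilQ η) (Le.X N b pvilQ η) Bx c := by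
  obtain ⟨P, S1, y0, a1, x1⟩ := pvdw_X_wit pvilQ hLo
  obtain ⟨Sn, Su, yr, a2, x2⟩ := pvdw_X_wit pvilQ hLr
  obtain ⟨Su', P', ye, a3, x3⟩ := pvdw_X_wit pvilQ hLe
  obtain ⟨g', gu, hg', e0, en, eu1, eu2, A⟩ := pvdw_normal F a1 a2 a3 hg
  subst e0 en eu1 eu2
  rw [x1, x2, x3]
  refine pvdw_at_congr (A.at F.pin F.fr F.o F.o' F.r F.r' F.e F.e' (H _ _ _ _ _ _ _ A)) fun j hj => ?_
  show pvukMass b η (Mc j) (g j) (g (j + 1)) = pvukMass b η (Mc j) (g' j) (g' (j + 1))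
  rw [(hg' j hj).1, (hg' j hj).2]

end normal

end model

/-! ## 8. heads: `pvca_ring` of 264 at the normal form -/

/-- **THE DISCS OF THE PLUGS** -/
def pvdwDk (Lo : PvilLk) (𝔭 𝔭u : PvkdPlug) (n : ℕ) (Z : ℕ → ℂ) (zu : ℂ) : ℕ → Set ℂ :=
  pvdwSq n (Metric.ball Lo.p.z (Lo.p.ty.b * Lo.p.h)) (fun j => Metric.ball (Z j) 𝔭.b) (Metric.ball (Z n) 𝔭.b) (Metric.ball zu 𝔭u.b)

/-- **THE ROOMS OF THE ARCS OF THE LINKS**;   `MpP`, `MmP` = vertex masks of the two erased stubs of the candidate (FREE: reduced masks allowed) -/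
def pvdwYr (Lo Lr Le : PvilLk) (𝔭 𝔭u : PvkdPlug) (n : ℕ) (Z Dv : ℕ → ℂ) (Co : ℕ → Set ℂ) (zu du : ℂ) (MpP MmP : Set ℂ) : ℕ → Set ℂ :=
  pvdwSq n (MpP ∪ Lo.Yin ∪ pvkdAt (Z 0) (Dv 0) 𝔭.Zm) Co (pvkdAt (Z n) (Dv n) 𝔭.Zp ∪ Lr.Yin ∪ pvkdAt zu du 𝔭u.Zm) (pvkdAt zu du 𝔭u.Zp ∪ Le.Yin ∪ MmP)

/-- **(H) THE REGIONS OF THE HEADS** (no configuration): discs and rooms of 264 + three lines per special link -/
structure PvdwHd (N : PvwNum) (Lo Lr Le : PvilLk) (𝔭 𝔭u : PvkdPlug) (n : ℕ) (Z Dv : ℕ → ℂ) (Co : ℕ → Set ℂ) (zu du : ℂ) (MpP MmP : Set ℂ) : Prop where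
  rm : PvcaRm (n + 3) (pvdwDk Lo 𝔭 𝔭u n Z zu) (pvdwYr Lo Lr Le 𝔭 𝔭u n Z Dv Co zu du MpP MmP)
  o1 : Disjoint (Metric.ball Lo.p.z (Lo.p.ty.b * Lo.p.h)) (Lo.Yin ∪ pvkdAt (Z 0) (Dv 0) 𝔭.Zm)
  o2 : Disjoint (pvkdAt (Z 0) (Dv 0) 𝔭.Zp) (Lo.Yin ∪ pvcaBx N Lo.p)
  o3 : Disjoint (pvcaBx N Lo.p) (Metric.ball (Z 0) 𝔭.b)
  r1 : Disjoint (pvkdAt (Z n) (Dv n) 𝔭.Zm) Lr.Yin
  r2 : Disjoint (pvkdAt zu du 𝔭u.Zp) Lr.Yin
  e1 : Disjoint (Metric.ball Lo.p.z (Lo.p.ty.b * Lo.p.h)) (pvkdAt zu du 𝔭u.Zp ∪ Le.Yin)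
  e2 : Disjoint (pvkdAt zu du 𝔭u.Zm) (Le.Yin ∪ pvcaBx N Lo.p)
  e3 : Disjoint (pvcaBx N Lo.p) (Metric.ball zu 𝔭u.b)

theorem pvdw_eqns_cite3 : True := by
  have := @pvdwDk.eq_1; have := @pvdwYr.eq_1
  trivial

/-- the room of the link `k` = exit mask ∪ room of the new part ∪ entrance mask -/
theorem pvdw_yr_eq {Lo Lr Le : PvilLk} {𝔭 𝔭u : PvkdPlug} {n : ℕ} {Z Dv : ℕ → ℂ} {Co : ℕ → Set ℂ} {zu du : ℂ} {MpP MmP : Set ℂ} {k : ℕ} (hk : k < n + 3) :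
    pvdwSq n MpP Co (pvkdAt (Z n) (Dv n) 𝔭.Zp) (pvkdAt zu du 𝔭u.Zp) k ∪ pvdwSq n Lo.Yin Co Lr.Yin Le.Yin k ∪ pvdwSq n (pvkdAt (Z 0) (Dv 0) 𝔭.Zm) Co (pvkdAt zu du 𝔭u.Zm) MmP k =
      pvdwYr Lo Lr Le 𝔭 𝔭u n Z Dv Co zu du MpP MmP k := by
  unfold pvdwYr
  rcases pvdw_cases hk with rfl | ⟨j, hj, rfl⟩ | rfl | rfl
  · simp only [pvdw_sq_zero]
  · simp only [pvdw_sq_cell _ _ _ _ _ hj, Set.union_self]
  · simp only [pvdw_sq_r]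
  · simp only [pvdw_sq_e]

/-- `PvcaRm` reads the rooms `j < K` only -/
theorem pvdw_rm_congr {K : ℕ} {Dk Yr Yr' : ℕ → Set ℂ} (R : PvcaRm K Dk Yr) (h : ∀ j, j < K → Yr' j = Yr j) : PvcaRm K Dk Yr' where
  DD := R.DD
  RR i j hij hj := by rw [h i (by omega), h j hj]; exact R.RR i j hij hj
  far i j hi hj h1 h2 := by rw [h j hj]; exact R.far i j hi hj h1 h2

section heads

variable {η : Conf PvPt} {b : Bool} {N : PvwNum} {Lo Lr Le : PvilLk} {𝔭 𝔭u : PvkdPlug} {n : ℕ} {Z Dv : ℕ → ℂ} {Co : ℕ → Set ℂ} {zu du : ℂ}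
  {P P' : PvwSt (pvieT η)} {g : ℕ → (pvkiT η).Gate (pvukS b η)} {gu : (pvkiT η).Gate (pvukS b η)} {y0 yr ye : (pvieT η).Pth}

/-- the record of a gate of record is a door of 264 -/
theorem pvdw_dr (hG : DelGood (cfSites η)) {𝔭 𝔭' : PvkdPlug} {z z' d : ℂ} {g : (pvkiT η).Gate (pvukS b η)} (hg : PvukGate 𝔭 b η z d g) :
    PvcaDr (T := pvieT η) (s := pvieCol η b) g (pvilStS 𝔭' η (pvieCol η b) z' g) :=
  pvca_dr_of_gt (pvca_il_sph hG) (pvca_il_simple η) hg rfl rfl rfl rfl rfl rfl rfl rfl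

/-- the three special links of the normal form, as `Arc`s -/
theorem PvdwArcs.arc_o (A : PvdwArcs N b η Lo Lr Le 𝔭 𝔭u n Z Dv Co zu du P P' g gu y0 yr ye) (F : PvdwFit Lo Lr Le 𝔭 𝔭u n Z Dv zu du) : Lo.Arc N b η P (pvdwDd 𝔭 b η Z g 0) y0 where
  at_p := (PvilLk.atP_pin F.o N b η P).2 A.out
  at_p' := by
    refine (PvilLk.atP'_door F.o' N b η _).2 ?_
    rw [F.o_pl, F.o_z, F.o_d]
    exact ⟨A.ms0, g 0, A.gt 0 (Nat.zero_le n), rfl⟩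
  run := A.run0

theorem PvdwArcs.arc_r (A : PvdwArcs N b η Lo Lr Le 𝔭 𝔭u n Z Dv Co zu du P P' g gu y0 yr ye) (F : PvdwFit Lo Lr Le 𝔭 𝔭u n Z Dv zu du) :
    Lr.Arc N b η (pvdwDd 𝔭 b η Z g n) (pvilStS 𝔭u η (pvieCol η b) zu gu) yr where
  at_p := by
    refine (PvilLk.atP_door F.r N b η _).2 ?_
    rw [F.r_pl, F.r_z, F.r_d]
    exact ⟨A.msn, g n, A.gt n le_rfl, rfl⟩
  at_p' := by
    refine (PvilLk.atP'_door F.r' N b η _).2 ?_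
    rw [F.ru_pl, F.ru_z, F.ru_d]
    exact ⟨A.msu, gu, A.gtu, rfl⟩
  run := A.runr

theorem PvdwArcs.arc_e (A : PvdwArcs N b η Lo Lr Le 𝔭 𝔭u n Z Dv Co zu du P P' g gu y0 yr ye) (F : PvdwFit Lo Lr Le 𝔭 𝔭u n Z Dv zu du) :
    Le.Arc N b η (pvilStS 𝔭u η (pvieCol η b) zu gu) P' ye where
  at_p := by
    refine (PvilLk.atP_door F.e N b η _).2 ?_
    rw [F.eu_pl, F.eu_z, F.eu_d]
    exact ⟨A.msu, gu, A.gtu, rfl⟩
  at_p' := (PvilLk.atP'_pin F.e' N b η P').2 A.inn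
  run := A.rune

/-- the closed inside of the gate of the candidate lies over its disc -/
theorem PvdwArcs.ins_P (A : PvdwArcs N b η Lo Lr Le 𝔭 𝔭u n Z Dv Co zu du P P' g gu y0 yr ye) (hfr : Lo.p.fr = 1) {u : ↥(pvieY η)} (hu : u ∈ P.ins) :
    pviePos η u ∈ Metric.ball Lo.p.z (Lo.p.ty.b * Lo.p.h) := by
  have h1 := A.out.st.gate.inside u hu
  rw [(pvca_il_pos_std hfr η).1, (pvca_il_pos_std hfr η).2] at h1
  exact mem_ball_iff_norm.2 h1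

/-- **(H) AT THE NORMAL FORM**: `Pvcy2Cyc` at the sequences and the rooms of the arcs, from the regions `PvdwHd` and the vertex masks of the two erased stubs of the candidate -/
theorem PvdwArcs.ring (A : PvdwArcs N b η Lo Lr Le 𝔭 𝔭u n Z Dv Co zu du P P' g gu y0 yr ye) (F : PvdwFit Lo Lr Le 𝔭 𝔭u n Z Dv zu du) (hfr : Lo.p.fr = 1) {MpP MmP : Set ℂ}
    (hMp : ∀ x : (pvieT η).Pth, PvwLE (pvieT η) (fun i => (pvieT η).src (P.ep i)) P.np x → ∀ v ∈ x.verts, pviePos η v ∈ MpP)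
    (hMm : ∀ x : (pvieT η).Pth, PvwLE (pvieT η) (fun i => (pvieT η).src (P'.em i)) P'.nm x → ∀ v ∈ x.verts, pviePos η v ∈ MmP)
    (H : PvdwHd N Lo Lr Le 𝔭 𝔭u n Z Dv Co zu du MpP MmP) :
    Pvcy2Cyc (pvieT η) (pvieCol η b) (n + 3) (pvdwSt n P (pvdwDd 𝔭 b η Z g) (pvilStS 𝔭u η (pvieCol η b) zu gu)) (pvdwY n y0 (pvdwYc b η g) yr ye) ∧
      ∀ k, k < n + 3 → ∀ v ∈ (pvdwY n y0 (pvdwYc b η g) yr ye k).verts, pviePos η v ∈ pvdwYr Lo Lr Le 𝔭 𝔭u n Z Dv Co zu du MpP MmP k := by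
  have hT := pvca_il_sph A.good
  have hS := pvca_il_simple η
  have G := A.glue F.pin F.fr
  have hD : ∀ j, j ≤ n → PvcaDr (T := pvieT η) (s := pvieCol η b) (g j) (pvdwDd 𝔭 b η Z g j) := fun j hj => pvdw_dr A.good (A.gt j hj)
  have hU : PvcaDr (T := pvieT η) (s := pvieCol η b) gu (pvilStS 𝔭u η (pvieCol η b) zu gu) := pvdw_dr A.good A.gtu
  have l0 : ∃ k, PvcaLk (pvieT η) (pvieCol η b) (pviePos η) P (pvdwDd 𝔭 b η Z g 0) y0 MpP Lo.Yin (pvkdAt (Z 0) (Dv 0) 𝔭.Zm) k := by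
    obtain ⟨k, h1, h2⟩ := A.run0
    exact ⟨k, pvca_lk ⟨A.out.st.gate.bw_p, A.out.st.stub.ep_it, hMp⟩ ((hD 0 (Nat.zero_le n)).ei (A.gt 0 (Nat.zero_le n)).vm) h1 h2⟩
  have lc : ∀ j, j < n → ∃ k, PvcaLk (pvieT η) (pvieCol η b) (pviePos η) (pvdwDd 𝔭 b η Z g j) (pvdwDd 𝔭 b η Z g (j + 1)) (pvdwYc b η g j) (Co j) (Co j) (Co j) k := by
    intro j hj
    obtain ⟨k, hk⟩ := A.runc j hj
    refine ⟨k, pvca_lk_cell (hD j hj.le) (hD (j + 1) hj) hk ?_⟩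
    unfold pvdwYc
    rw [hk.hit]
    exact pvt_sd_le hT hS (pvtg_aOut_bw (g j)) (pvll_it_inj hk.2.1 hk.2.2.1)
  have lr : ∃ k, PvcaLk (pvieT η) (pvieCol η b) (pviePos η) (pvdwDd 𝔭 b η Z g n) (pvilStS 𝔭u η (pvieCol η b) zu gu) yr (pvkdAt (Z n) (Dv n) 𝔭.Zp) Lr.Yin (pvkdAt zu du 𝔭u.Zm) k := by
    obtain ⟨k, h1, h2⟩ := A.runr
    exact ⟨k, pvca_lk ((hD n le_rfl).eo (A.gt n le_rfl).vp) (hU.ei A.gtu.vm) h1 h2⟩
  have le : ∃ k, PvcaLk (pvieT η) (pvieCol η b) (pviePos η) (pvilStS 𝔭u η (pvieCol η b) zu gu) P' ye (pvkdAt zu du 𝔭u.Zp) Le.Yin MmP k := by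
    obtain ⟨k, h1, h2⟩ := A.rune
    exact ⟨k, pvca_lk (hU.eo A.gtu.vp) ⟨A.inn.st.stub.em_it, hMm⟩ h1 h2⟩
  have hgt : ∀ k, k < n + 3 → PvcaGt (pvieT η) (pvieCol η b) (pvdwSt n P (pvdwDd 𝔭 b η Z g) (pvilStS 𝔭u η (pvieCol η b) zu gu) k) := by
    intro k hk
    rcases pvdw_cases hk with rfl | ⟨j, hj, rfl⟩ | rfl | rfl
    · rw [pvdw_st_zero]; exact pvca_gt_gate A.out.st.gate
    · rw [pvdw_st_door hj.le]; exact (hD j hj.le).gt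
    · rw [pvdw_st_door le_rfl]; exact (hD n le_rfl).gt
    · rw [pvdw_st_u]; exact hU.gt
  have hdm : ∀ k, k < n + 3 → (pvdwSt n P' (pvdwDd 𝔭 b η Z g) (pvilStS 𝔭u η (pvieCol η b) zu gu) (k + 1)).dm = (pvdwSt n P (pvdwDd 𝔭 b η Z g) (pvilStS 𝔭u η (pvieCol η b) zu gu) (k + 1)).dm := by
    intro k hk
    rcases Nat.lt_or_ge k (n + 1) with h | h
    · rw [pvdw_st_door (Nat.lt_succ_iff.1 h), pvdw_st_door (Nat.lt_succ_iff.1 h)]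
    · rcases Nat.eq_or_lt_of_le h with h2 | h2
      · rw [← h2, pvdw_st_u, pvdw_st_u]
      · have e : k = n + 2 := by omega
        subst e
        rw [pvdw_st_per, pvdw_st_per]; exact G.dm.symm
  have hlk : ∀ k, k < n + 3 → ∃ m, PvcaLk (pvieT η) (pvieCol η b) (pviePos η) (pvdwSt n P (pvdwDd 𝔭 b η Z g) (pvilStS 𝔭u η (pvieCol η b) zu gu) k)
      (pvdwSt n P' (pvdwDd 𝔭 b η Z g) (pvilStS 𝔭u η (pvieCol η b) zu gu) (k + 1)) (pvdwY n y0 (pvdwYc b η g) yr ye k)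
      (pvdwSq n MpP Co (pvkdAt (Z n) (Dv n) 𝔭.Zp) (pvkdAt zu du 𝔭u.Zp) k) (pvdwSq n Lo.Yin Co Lr.Yin Le.Yin k) (pvdwSq n (pvkdAt (Z 0) (Dv 0) 𝔭.Zm) Co (pvkdAt zu du 𝔭u.Zm) MmP k) m := by
    intro k hk
    rcases pvdw_cases hk with rfl | ⟨j, hj, rfl⟩ | rfl | rfl
    · rw [pvdw_st_zero, pvdw_st_door (Nat.zero_le n), pvdw_y_zero, pvdw_sq_zero, pvdw_sq_zero, pvdw_sq_zero]; exact l0
    · rw [pvdw_st_door hj.le, pvdw_st_door (show j + 1 ≤ n from hj), pvdw_y_cell hj, pvdw_sq_cell _ _ _ _ _ hj, pvdw_sq_cell _ _ _ _ _ hj, pvdw_sq_cell _ _ _ _ _ hj]; exact lc j hj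
    · rw [pvdw_st_door le_rfl, pvdw_st_u, pvdw_y_r, pvdw_sq_r, pvdw_sq_r, pvdw_sq_r]; exact lr
    · rw [pvdw_st_u, pvdw_st_per, pvdw_y_e, pvdw_sq_e, pvdw_sq_e, pvdw_sq_e]; exact le
  have hins : ∀ k, k < n + 3 → ∀ u ∈ (pvdwSt n P (pvdwDd 𝔭 b η Z g) (pvilStS 𝔭u η (pvieCol η b) zu gu) k).ins, pviePos η u ∈ pvdwDk Lo 𝔭 𝔭u n Z zu k := by
    intro k hk u hu
    unfold pvdwDk
    rcases pvdw_cases hk with rfl | ⟨j, hj, rfl⟩ | rfl | rfl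
    · rw [pvdw_st_zero] at hu; rw [pvdw_sq_zero]; exact A.ins_P hfr hu
    · rw [pvdw_st_door hj.le] at hu; rw [pvdw_sq_cell _ _ _ _ _ hj]; exact pvca_gt_disc (A.gt j hj.le) hu
    · rw [pvdw_st_door le_rfl] at hu; rw [pvdw_sq_r]; exact pvca_gt_disc (A.gt n le_rfl) hu
    · rw [pvdw_st_u] at hu; rw [pvdw_sq_e]; exact pvca_gt_disc A.gtu hu
  have hown : ∀ k, k < n + 3 → ∀ v ∈ (pvdwY n y0 (pvdwYc b η g) yr ye k).verts,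
      v ∉ (pvieT η).Int (pvdwSt n P (pvdwDd 𝔭 b η Z g) (pvilStS 𝔭u η (pvieCol η b) zu gu) k).S.Left ∧ v ∉ (pvieT η).Int (pvdwSt n P (pvdwDd 𝔭 b η Z g) (pvilStS 𝔭u η (pvieCol η b) zu gu) (k + 1)).S.Left := by
    intro k hk v hv
    rcases pvdw_cases hk with rfl | ⟨j, hj, rfl⟩ | rfl | rfl
    · rw [pvdw_y_zero] at hv
      rw [pvdw_st_zero, pvdw_st_door (Nat.zero_le n)]
      refine pvca_il_own_pd F.o F.o' hfr (A.arc_o F) ?_ ?_ ?_ hv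
      · unfold pvcaDk pvcaMm; rw [F.o', F.o_z, F.o_d, F.o_pl]; exact H.o1
      · rw [F.o_z, F.o_d, F.o_pl]; exact H.o2
      · unfold pvcaDk; rw [F.o_z, F.o_pl]; exact H.o3
    · rw [pvdw_y_cell hj] at hv
      rw [pvdw_st_door hj.le, pvdw_st_door (show j + 1 ≤ n from hj)]
      obtain ⟨k, hk⟩ := A.runc j hj
      refine pvca_own_cell hk ?_ hv
      unfold pvdwYc
      rw [hk.hit]
      exact pvt_sd_le hT hS (pvtg_aOut_bw (g j)) (pvll_it_inj hk.2.1 hk.2.2.1)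
    · rw [pvdw_y_r] at hv
      rw [pvdw_st_door le_rfl, pvdw_st_u]
      refine pvca_il_own_dd F.r F.r' (A.arc_r F) ?_ ?_ ?_ hv
      · rw [F.r_z, F.r_d, F.r_pl]; exact H.r1
      · rw [F.ru_z, F.ru_d, F.ru_pl]; exact H.r2
      · unfold pvcaDk; rw [F.r_z, F.r_pl, F.ru_z, F.ru_pl]
        have := H.rm.DD (n + 1) (n + 2) (by omega) (by omega)
        unfold pvdwDk at this
        rwa [pvdw_sq_r, pvdw_sq_e] at this
    · rw [pvdw_y_e] at hv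
      rw [pvdw_st_u, pvdw_st_per, G.left]
      refine pvca_il_own_dp F.e F.e' (by rw [F.pin]; exact hfr) (A.arc_e F) ?_ ?_ ?_ hv
      · unfold pvcaDk pvcaMp; rw [F.e, F.eu_z, F.eu_d, F.eu_pl, F.pin]; exact H.e1
      · rw [F.eu_z, F.eu_d, F.eu_pl, F.pin]; exact H.e2
      · unfold pvcaDk; rw [F.eu_z, F.eu_pl, F.pin]; exact H.e3
  have hR : PvcaRm (n + 3) (pvdwDk Lo 𝔭 𝔭u n Z zu) fun k => pvdwSq n MpP Co (pvkdAt (Z n) (Dv n) 𝔭.Zp) (pvkdAt zu du 𝔭u.Zp) k ∪ pvdwSq n Lo.Yin Co Lr.Yin Le.Yin k ∪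
      pvdwSq n (pvkdAt (Z 0) (Dv 0) 𝔭.Zm) Co (pvkdAt zu du 𝔭u.Zm) MmP k := pvdw_rm_congr H.rm fun k hk => pvdw_yr_eq hk
  obtain ⟨k1, k2⟩ := pvca_ring hT hS (s := pvieCol η b) (K := n + 3) (by omega) (pos := pviePos η) (𝔖 := pvdwSt n P (pvdwDd 𝔭 b η Z g) (pvilStS 𝔭u η (pvieCol η b) zu gu))
    (𝔖' := pvdwSt n P' (pvdwDd 𝔭 b η Z g) (pvilStS 𝔭u η (pvieCol η b) zu gu)) (y := pvdwY n y0 (pvdwYc b η g) yr ye) (Dk := pvdwDk Lo 𝔭 𝔭u n Z zu)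
    (Mp := pvdwSq n MpP Co (pvkdAt (Z n) (Dv n) 𝔭.Zp) (pvkdAt zu du 𝔭u.Zp)) (Yin := pvdwSq n Lo.Yin Co Lr.Yin Le.Yin)
    (Mm := fun k => Nat.casesOn k ∅ (pvdwSq n (pvkdAt (Z 0) (Dv 0) 𝔭.Zm) Co (pvkdAt zu du 𝔭u.Zm) MmP))
    (by rw [pvdw_st_per, pvdw_st_zero]) hgt hdm hlk hins hown hR
  refine ⟨k1, fun k hk v hv => ?_⟩
  have h2 : pviePos η v ∈ pvdwSq n MpP Co (pvkdAt (Z n) (Dv n) 𝔭.Zp) (pvkdAt zu du 𝔭u.Zp) k ∪ pvdwSq n Lo.Yin Co Lr.Yin Le.Yin k ∪ pvdwSq n (pvkdAt (Z 0) (Dv 0) 𝔭.Zm) Co (pvkdAt zu du 𝔭u.Zm) MmP k :=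
    k2 k hk v hv
  rwa [pvdw_yr_eq hk] at h2

end heads

/-! ## 9. ownership, box, far gates: `PvdwRest` from REGIONS + four mesh facts -/

/-- a placed convex set is convex -/
theorem pvdw_at_convex {S : Set ℂ} (hS : Convex ℝ S) (z d : ℂ) : Convex ℝ (pvkdAt z d S) := by
  rintro _ ⟨x, hx, rfl⟩ _ ⟨y, hy, rfl⟩ a b ha hb hab
  refine ⟨a • x + b • y, hS hx hy ha hb hab, ?_⟩
  unfold pvthSim
  have e : (b : ℂ) = 1 - a := by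
    have : b = 1 - a := by linarith
    rw [this]; push_cast; ring
  simp only [Complex.real_smul]
  rw [e]
  ring

/-- the tube of the plug of record is convex -/
theorem pvdw_P_tb_convex (r : ℝ) : Convex ℝ (pvkdP r).Tb := by
  intro x hx y hy a b ha hb hab
  obtain ⟨x1, x2, x3, x4⟩ := hx
  obtain ⟨y1, y2, y3, y4⟩ := hy
  have e1 : (a • x + b • y).re = a * x.re + b * y.re := by simp
  have e2 : (a • x + b • y).im = a * x.im + b * y.im := by simp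
  have hb' : b = 1 - a := by linarith
  refine ⟨?_, ?_, ?_, ?_⟩
  · rw [e1]; subst hb'; nlinarith
  · rw [e1]; subst hb'; nlinarith
  · rw [e2]; subst hb'; nlinarith
  · rw [e2]; subst hb'; nlinarith

/-- **(O) THE REGIONS OF THE OWNERSHIP** (no configuration).      NO MESH for the cells, the doors and the reference plug (their tags are faces crossed by strands whose rooms are convex);   ONE MESH RADIUS PER SPECIAL PIECE (`μo μr μe`: arcs of the three special links; `μP`: inner arc of the candidate) -/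
structure PvdwOw (N : PvwNum) (Lo Lr Le : PvilLk) (𝔭 𝔭u : PvkdPlug) (n : ℕ) (Z Dv : ℕ → ℂ) (Co Mc : ℕ → Set ℂ) (zu du : ℂ) (MpP MmP : Set ℂ) (μo μr μe μP : ℝ) : Prop where
  c_in : ∀ j, j < n → Co j ⊆ Mc j
  c_cv : ∀ j, j < n → Convex ℝ (Mc j)
  t_cv : Convex ℝ 𝔭.Tb
  tu_cv : Convex ℝ 𝔭u.Tb
  /-- in the tube of the door `j`: exactly one of the masks of the links `j`, `j + 1` -/
  d_cut : ∀ j, j ≤ n → ∀ w ∈ pvkdAt (Z j) (Dv j) 𝔭.Tb, (w ∈ pvdwM n (Lo.msk N) Mc (Lr.msk N) (Le.msk N) j ↔ w ∉ pvdwM n (Lo.msk N) Mc (Lr.msk N) (Le.msk N) (j + 1))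
  /-- in the tube of the reference plug: exactly one of the masks of the thin link and of the thick link -/
  u_cut : ∀ w ∈ pvkdAt zu du 𝔭u.Tb, (w ∈ Lr.msk N ↔ w ∉ Le.msk N)
  y_o : pvcy2Nr μo (MpP ∪ Lo.Yin ∪ pvkdAt (Z 0) (Dv 0) 𝔭.Zm) ⊆ Lo.msk N
  y_r : pvcy2Nr μr (pvkdAt (Z n) (Dv n) 𝔭.Zp ∪ Lr.Yin ∪ pvkdAt zu du 𝔭u.Zm) ⊆ Lr.msk N
  y_e : pvcy2Nr μe (pvkdAt zu du 𝔭u.Zp ∪ Le.Yin ∪ MmP) ⊆ Le.msk N
  /-- the disc of the candidate lies deep in the two RAW masks (the cut-off ball is taken off by `msk`) -/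
  p_o : pvcy2Nr μP (Metric.ball Lo.p.z (Lo.p.ty.b * Lo.p.h)) ⊆ Lo.Mk
  p_e : pvcy2Nr μP (Metric.ball Lo.p.z (Lo.p.ty.b * Lo.p.h)) ⊆ Le.Mk

/-- **(B) BOX AND TWO FAR DISCS** (no configuration) -/
structure PvdwBx (Lo Lr Le : PvilLk) (𝔭 𝔭u : PvkdPlug) (n : ℕ) (Z Dv : ℕ → ℂ) (Co : ℕ → Set ℂ) (zu du : ℂ) (MpP MmP Bx : Set ℂ) (c : ℝ) : Prop where
  d_in : ∀ k, k < n + 3 → pvdwDk Lo 𝔭 𝔭u n Z zu k ⊆ Bx
  y_in : ∀ k, k < n + 3 → pvdwYr Lo Lr Le 𝔭 𝔭u n Z Dv Co zu du MpP MmP k ⊆ Bx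
  far : ∀ w ∈ Metric.ball Lo.p.z (Lo.p.ty.b * Lo.p.h), ∀ w' ∈ Metric.ball zu 𝔭u.b, c ≤ ‖w - w'‖

section own

variable {η : Conf PvPt} {b : Bool} {N : PvwNum} {Lo Lr Le : PvilLk} {𝔭 𝔭u : PvkdPlug} {n : ℕ} {Z Dv : ℕ → ℂ} {Co : ℕ → Set ℂ} {zu du : ℂ}
  {P P' : PvwSt (pvieT η)} {g : ℕ → (pvkiT η).Gate (pvukS b η)} {gu : (pvkiT η).Gate (pvukS b η)} {y0 yr ye : (pvieT η).Pth}

/-- the tags of the inner arc of a gate of record lie in the placed tube -/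
theorem pvdw_tag_door (hG : DelGood (cfSites η)) {𝔭 𝔭' : PvkdPlug} (hcv : Convex ℝ 𝔭.Tb) {z z' d : ℂ} {g : (pvkiT η).Gate (pvukS b η)} (hg : PvukGate 𝔭 b η z d g) {k : ℕ}
    (hk : k < (pvilStS 𝔭' η (pvieCol η b) z' g).inn.n) :
    (pvieT η).bary (pviePos η) ((pvieT η).opp ((pvilStS 𝔭' η (pvieCol η b) z' g).inn.e k)) ∈ pvkdAt z d 𝔭.Tb := by
  have hT := pvca_il_sph hG
  obtain ⟨M, hM⟩ := hg.thru
  have hlen : g.len = M := (hM.len hT).1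
  have hk' : k < (pvtArc (pvieT η) (pvieCol η b) g.aIn g.len).n := hk
  have h1 : (pvieT η).opp ((pvtArc (pvieT η) (pvieCol η b) g.aIn g.len).e k) ∈ pvasFc (pvieT η) (pvieCol η b) g.aIn g.len :=
    ((pvt_sf_arc_faced (pvtg_aIn_bw g) g.len).2 k hk').1
  obtain ⟨h2, h3, h4⟩ := pvki_fc_verts h1
  have hV : ∀ v ∈ (pvieT η).VOf (pvasFc (pvieT η) (pvieCol η b) g.aIn g.len), pviePos η v ∈ pvkdAt z d 𝔭.Tb := by
    intro v hv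
    rw [hlen] at hv
    exact hM.2.2.2.2 hv
  exact pvki_bary_convex (pvdw_at_convex hcv z d) (hV _ h2) (hV _ h3) (hV _ h4)

/-- the tags of the arc of a cell lie in every convex set which contains its room -/
theorem pvdw_tag_cell {KE M : Set ℂ} (hKM : KE ⊆ M) (hcv : Convex ℝ M) {g g' : (pvkiT η).Gate (pvukS b η)} {m : ℕ} (h : PvzlRun (pvkiT η) Subtype.val (pvukS b η) KE g g' m) {k : ℕ}
    (hk : k < (pvtArc (pvieT η) (pvieCol η b) g.aOut m).n) :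
    (pvieT η).bary (pviePos η) ((pvieT η).opp ((pvtArc (pvieT η) (pvieCol η b) g.aOut m).e k)) ∈ M := by
  have h1 : (pvieT η).opp ((pvtArc (pvieT η) (pvieCol η b) g.aOut m).e k) ∈ pvasFc (pvieT η) (pvieCol η b) g.aOut m :=
    ((pvt_sf_arc_faced (pvtg_aOut_bw g) m).2 k hk).1
  obtain ⟨h2, h3, h4⟩ := pvki_fc_verts h1
  have hV : ∀ v ∈ (pvieT η).VOf (pvasFc (pvieT η) (pvieCol η b) g.aOut m), pviePos η v ∈ M := fun v hv => hKM (h.2.2.2 hv).1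
  exact pvki_bary_convex hcv (hV _ h2) (hV _ h3) (hV _ h4)

/-- every plug of the normal form is a gate of 264 -/
theorem PvdwArcs.gt_seq (A : PvdwArcs N b η Lo Lr Le 𝔭 𝔭u n Z Dv Co zu du P P' g gu y0 yr ye) {k : ℕ} (hk : k < n + 3) :
    PvcaGt (pvieT η) (pvieCol η b) (pvdwSt n P (pvdwDd 𝔭 b η Z g) (pvilStS 𝔭u η (pvieCol η b) zu gu) k) := by
  rcases pvdw_cases hk with rfl | ⟨j, hj, rfl⟩ | rfl | rfl
  · rw [pvdw_st_zero]; exact pvca_gt_gate A.out.st.gate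
  · rw [pvdw_st_door hj.le]; exact (pvdw_dr A.good (A.gt j hj.le)).gt
  · rw [pvdw_st_door le_rfl]; exact (pvdw_dr A.good (A.gt n le_rfl)).gt
  · rw [pvdw_st_u]; exact (pvdw_dr A.good A.gtu).gt

/-- the closed inside of the plug `k` lies over its disc -/
theorem PvdwArcs.ins_seq (A : PvdwArcs N b η Lo Lr Le 𝔭 𝔭u n Z Dv Co zu du P P' g gu y0 yr ye) (hfr : Lo.p.fr = 1) {k : ℕ} (hk : k < n + 3) {u : ↥(pvieY η)}
    (hu : u ∈ (pvdwSt n P (pvdwDd 𝔭 b η Z g) (pvilStS 𝔭u η (pvieCol η b) zu gu) k).ins) : pviePos η u ∈ pvdwDk Lo 𝔭 𝔭u n Z zu k := by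
  unfold pvdwDk
  rcases pvdw_cases hk with rfl | ⟨j, hj, rfl⟩ | rfl | rfl
  · rw [pvdw_st_zero] at hu; rw [pvdw_sq_zero]; exact A.ins_P hfr hu
  · rw [pvdw_st_door hj.le] at hu; rw [pvdw_sq_cell _ _ _ _ _ hj]; exact pvca_gt_disc (A.gt j hj.le) hu
  · rw [pvdw_st_door le_rfl] at hu; rw [pvdw_sq_r]; exact pvca_gt_disc (A.gt n le_rfl) hu
  · rw [pvdw_st_u] at hu; rw [pvdw_sq_e]; exact pvca_gt_disc A.gtu hu

/-- **(O) AT THE NORMAL FORM**: ownership piece by piece, from the regions `PvdwOw`, the rooms of the three special arcs and four mesh facts -/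
theorem PvdwArcs.ownP (A : PvdwArcs N b η Lo Lr Le 𝔭 𝔭u n Z Dv Co zu du P P' g gu y0 yr ye) (F : PvdwFit Lo Lr Le 𝔭 𝔭u n Z Dv zu du) (hfr : Lo.p.fr = 1) {MpP MmP : Set ℂ} {Mc : ℕ → Set ℂ}
    {μo μr μe μP : ℝ} (O : PvdwOw N Lo Lr Le 𝔭 𝔭u n Z Dv Co Mc zu du MpP MmP μo μr μe μP)
    (r0 : ∀ v ∈ y0.verts, pviePos η v ∈ MpP ∪ Lo.Yin ∪ pvkdAt (Z 0) (Dv 0) 𝔭.Zm)
    (rr : ∀ v ∈ yr.verts, pviePos η v ∈ pvkdAt (Z n) (Dv n) 𝔭.Zp ∪ Lr.Yin ∪ pvkdAt zu du 𝔭u.Zm)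
    (re : ∀ v ∈ ye.verts, pviePos η v ∈ pvkdAt zu du 𝔭u.Zp ∪ Le.Yin ∪ MmP)
    (m0 : ∀ k, k < y0.n → ‖(pvieT η).bary (pviePos η) ((pvieT η).opp (y0.e k)) - pviePos η (y0.v k)‖ ≤ μo)
    (mr : ∀ k, k < yr.n → ‖(pvieT η).bary (pviePos η) ((pvieT η).opp (yr.e k)) - pviePos η (yr.v k)‖ ≤ μr)
    (me : ∀ k, k < ye.n → ‖(pvieT η).bary (pviePos η) ((pvieT η).opp (ye.e k)) - pviePos η (ye.v k)‖ ≤ μe)
    (mP : ∀ k, k < P.inn.n → ‖(pvieT η).bary (pviePos η) ((pvieT η).opp (P.inn.e k)) - pviePos η (P.inn.v k)‖ ≤ μP) :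
    PvdwOwn (pvieT η) (pviePos η) n P (pvdwDd 𝔭 b η Z g) (pvilStS 𝔭u η (pvieCol η b) zu gu) y0 (pvdwYc b η g) yr ye (Lo.msk N) Mc (Lr.msk N) (Le.msk N) (Lo.ball N) := by
  have hT := pvca_il_sph A.good
  have hball : Le.ball' N = Lo.ball N := by unfold PvilLk.ball' PvilLk.ball; rw [F.pin]
  have hdisc : ∀ k, k < P.inn.n → pviePos η (P.inn.v k) ∈ Metric.ball Lo.p.z (Lo.p.ty.b * Lo.p.h) := fun k hk =>
    A.ins_P hfr ((pvca_gt_gate A.out.st.gate).ins hT ⟨k, hk.le, rfl⟩)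
  refine ⟨A.out.st.gate.ip_le, fun j _ => Nat.zero_le _, Nat.zero_le _, ?_, ?_, ?_, ?_, ?_, ?_, ?_, ?_, ?_⟩
  · exact fun k hk => O.y_o ⟨_, r0 _ ⟨k, hk.le, rfl⟩, m0 k hk⟩
  · intro j hj k hk
    obtain ⟨m, hm⟩ := A.runc j hj
    have e : pvdwYc b η g j = pvtArc (pvieT η) (pvieCol η b) (g j).aOut m := by unfold pvdwYc; rw [hm.hit]; rfl
    rw [e] at hk ⊢
    exact pvdw_tag_cell (O.c_in j hj) (O.c_cv j hj) hm hk
  · exact fun k hk => O.y_r ⟨_, rr _ ⟨k, hk.le, rfl⟩, mr k hk⟩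
  · exact fun k hk => O.y_e ⟨_, re _ ⟨k, hk.le, rfl⟩, me k hk⟩
  · intro k _ hb
    refine ⟨fun h => h.2 (Or.inr ?_), fun h => h.2 (Or.inl ?_)⟩
    · rw [F.e', if_neg Bool.false_ne_true, hball]; exact hb
    · rw [F.o, if_neg Bool.false_ne_true]; exact hb
  · intro k hk hb
    have hk' : k < P.inn.n := lt_of_lt_of_le hk A.out.st.gate.ip_le
    refine ⟨O.p_e ⟨_, hdisc k hk', mP k hk'⟩, ?_⟩
    rw [F.e, F.e', if_pos rfl, if_neg Bool.false_ne_true, hball, Set.empty_union]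
    exact hb
  · intro k _ hk' hb
    refine ⟨O.p_o ⟨_, hdisc k hk', mP k hk'⟩, ?_⟩
    rw [F.o, F.o', if_pos rfl, if_neg Bool.false_ne_true, Set.union_empty]
    exact hb
  · exact fun j hj k hk => O.d_cut j hj _ (pvdw_tag_door A.good O.t_cv (A.gt j hj) hk)
  · exact fun k hk => O.u_cut _ (pvdw_tag_door A.good O.tu_cv A.gtu hk)

/-- **`PvdwRest` AT EVERY NORMAL FORM**, from REGIONS ONLY (`PvdwHd` heads, `PvdwOw` ownership, `PvdwBx` box) + the vertex masks of the two erased stubs of the candidate + four mesh facts -/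
theorem PvdwArcs.rest (A : PvdwArcs N b η Lo Lr Le 𝔭 𝔭u n Z Dv Co zu du P P' g gu y0 yr ye) (F : PvdwFit Lo Lr Le 𝔭 𝔭u n Z Dv zu du) (hfr : Lo.p.fr = 1) {MpP MmP : Set ℂ}
    (hMp : ∀ x : (pvieT η).Pth, PvwLE (pvieT η) (fun i => (pvieT η).src (P.ep i)) P.np x → ∀ v ∈ x.verts, pviePos η v ∈ MpP)
    (hMm : ∀ x : (pvieT η).Pth, PvwLE (pvieT η) (fun i => (pvieT η).src (P'.em i)) P'.nm x → ∀ v ∈ x.verts, pviePos η v ∈ MmP)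
    (H : PvdwHd N Lo Lr Le 𝔭 𝔭u n Z Dv Co zu du MpP MmP) {Mc : ℕ → Set ℂ} {μo μr μe μP : ℝ} (O : PvdwOw N Lo Lr Le 𝔭 𝔭u n Z Dv Co Mc zu du MpP MmP μo μr μe μP)
    {Bx : Set ℂ} {c : ℝ} (B : PvdwBx Lo Lr Le 𝔭 𝔭u n Z Dv Co zu du MpP MmP Bx c)
    (m0 : ∀ k, k < y0.n → ‖(pvieT η).bary (pviePos η) ((pvieT η).opp (y0.e k)) - pviePos η (y0.v k)‖ ≤ μo)
    (mr : ∀ k, k < yr.n → ‖(pvieT η).bary (pviePos η) ((pvieT η).opp (yr.e k)) - pviePos η (yr.v k)‖ ≤ μr)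
    (me : ∀ k, k < ye.n → ‖(pvieT η).bary (pviePos η) ((pvieT η).opp (ye.e k)) - pviePos η (ye.v k)‖ ≤ μe)
    (mP : ∀ k, k < P.inn.n → ‖(pvieT η).bary (pviePos η) ((pvieT η).opp (P.inn.e k)) - pviePos η (P.inn.v k)‖ ≤ μP) :
    PvdwRest b η n P (pvdwDd 𝔭 b η Z g) (pvilStS 𝔭u η (pvieCol η b) zu gu) y0 (pvdwYc b η g) yr ye (Lo.msk N) Mc (Lr.msk N) (Le.msk N) (Lo.ball N) Bx c := by
  have hT := pvca_il_sph A.good
  obtain ⟨C, R⟩ := A.ring F hfr hMp hMm H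
  have r0 : ∀ v ∈ y0.verts, pviePos η v ∈ MpP ∪ Lo.Yin ∪ pvkdAt (Z 0) (Dv 0) 𝔭.Zm := by
    intro v hv
    have := R 0 (by omega) v (by rw [pvdw_y_zero]; exact hv)
    unfold pvdwYr at this
    rwa [pvdw_sq_zero] at this
  have rr : ∀ v ∈ yr.verts, pviePos η v ∈ pvkdAt (Z n) (Dv n) 𝔭.Zp ∪ Lr.Yin ∪ pvkdAt zu du 𝔭u.Zm := by
    intro v hv
    have := R (n + 1) (by omega) v (by rw [pvdw_y_r]; exact hv)
    unfold pvdwYr at this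
    rwa [pvdw_sq_r] at this
  have re : ∀ v ∈ ye.verts, pviePos η v ∈ pvkdAt zu du 𝔭u.Zp ∪ Le.Yin ∪ MmP := by
    intro v hv
    have := R (n + 2) (by omega) v (by rw [pvdw_y_e]; exact hv)
    unfold pvdwYr at this
    rwa [pvdw_sq_e] at this
  refine ⟨C.ii, C.yy, C.iy, (A.ownP F hfr O r0 rr re m0 mr me mP).own, ?_, ?_, ⟨0, n + 2, by omega, by omega, ?_⟩⟩
  · exact fun j hj v hv => B.d_in j hj (A.ins_seq hfr hj ((A.gt_seq hj).ins hT hv))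
  · exact fun j hj v hv => B.y_in j hj (R j hj v hv)
  · have g0 := A.ins_seq hfr (show 0 < n + 3 by omega) (pvca_vert_left hT _ (A.gt_seq (show 0 < n + 3 by omega)).gp_mem)
    have g2 := A.ins_seq hfr (show n + 2 < n + 3 by omega) (pvca_vert_left hT _ (A.gt_seq (show n + 2 < n + 3 by omega)).gp_mem)
    unfold pvdwDk at g0 g2
    rw [pvdw_sq_zero] at g0
    rw [pvdw_sq_e] at g2
    exact B.far _ g0 _ g2

end own

/-! ### the same with NO MESH at the candidate, the tags of the three special arcs as hypotheses -/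

/-- **(Oc) THE CUTS** (regions only, NO MESH, NO MARGIN): cells, doors, reference plug, disc of the candidate -/
structure PvdwOc (N : PvwNum) (Lo Lr Le : PvilLk) (𝔭 𝔭u : PvkdPlug) (n : ℕ) (Z Dv : ℕ → ℂ) (Co Mc : ℕ → Set ℂ) (zu du : ℂ) : Prop where
  c_in : ∀ j, j < n → Co j ⊆ Mc j
  c_cv : ∀ j, j < n → Convex ℝ (Mc j)
  t_cv : Convex ℝ 𝔭.Tb
  tu_cv : Convex ℝ 𝔭u.Tb
  d_cut : ∀ j, j ≤ n → ∀ w ∈ pvkdAt (Z j) (Dv j) 𝔭.Tb, (w ∈ pvdwM n (Lo.msk N) Mc (Lr.msk N) (Le.msk N) j ↔ w ∉ pvdwM n (Lo.msk N) Mc (Lr.msk N) (Le.msk N) (j + 1))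
  u_cut : ∀ w ∈ pvkdAt zu du 𝔭u.Tb, (w ∈ Lr.msk N ↔ w ∉ Le.msk N)
  /-- the disc of the candidate lies in the two RAW masks -/
  p_o : Metric.ball Lo.p.z (Lo.p.ty.b * Lo.p.h) ⊆ Lo.Mk
  p_e : Metric.ball Lo.p.z (Lo.p.ty.b * Lo.p.h) ⊆ Le.Mk

theorem PvdwOw.oc {N : PvwNum} {Lo Lr Le : PvilLk} {𝔭 𝔭u : PvkdPlug} {n : ℕ} {Z Dv : ℕ → ℂ} {Co Mc : ℕ → Set ℂ} {zu du : ℂ} {MpP MmP : Set ℂ} {μo μr μe μP : ℝ}
    (O : PvdwOw N Lo Lr Le 𝔭 𝔭u n Z Dv Co Mc zu du MpP MmP μo μr μe μP) (h : 0 ≤ μP) : PvdwOc N Lo Lr Le 𝔭 𝔭u n Z Dv Co Mc zu du :=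
  ⟨O.c_in, O.c_cv, O.t_cv, O.tu_cv, O.d_cut, O.u_cut, fun w hw => O.p_o ⟨w, hw, by rw [sub_self, norm_zero]; exact h⟩, fun w hw => O.p_e ⟨w, hw, by rw [sub_self, norm_zero]; exact h⟩⟩

section ownT

variable {η : Conf PvPt} {b : Bool} {N : PvwNum} {Lo Lr Le : PvilLk} {𝔭 𝔭u : PvkdPlug} {n : ℕ} {Z Dv : ℕ → ℂ} {Co : ℕ → Set ℂ} {zu du : ℂ}
  {P P' : PvwSt (pvieT η)} {g : ℕ → (pvkiT η).Gate (pvukS b η)} {gu : (pvkiT η).Gate (pvukS b η)} {y0 yr ye : (pvieT η).Pth}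

/-- **the tags of the inner arc of the candidate lie in its disc** (NO MESH: they are faces inside the gate, the disc is convex) -/
theorem PvdwArcs.tag_P (A : PvdwArcs N b η Lo Lr Le 𝔭 𝔭u n Z Dv Co zu du P P' g gu y0 yr ye) (hfr : Lo.p.fr = 1) {k : ℕ} (hk : k < P.inn.n) :
    (pvieT η).bary (pviePos η) ((pvieT η).opp (P.inn.e k)) ∈ Metric.ball Lo.p.z (Lo.p.ty.b * Lo.p.h) := by
  have hS := pvca_il_simple η
  obtain ⟨m, -, h2, h3⟩ := A.out.st.gate.strand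
  have h4 : (pvieT η).opp (P.inn.e k) ∈ pvasFc (pvieT η) (pvieCol η b) P.dm m := ((pvt_sd_faced hS A.out.st.gate.bw_m h3).2 k hk).1
  obtain ⟨f2, f3, f4⟩ := pvki_fc_verts h4
  have hV : ∀ v ∈ (pvieT η).VOf (pvasFc (pvieT η) (pvieCol η b) P.dm m), pviePos η v ∈ Metric.ball Lo.p.z (Lo.p.ty.b * Lo.p.h) := by
    rintro v ⟨d, ⟨i, hi, hsf⟩, rfl⟩
    exact A.ins_P hfr ⟨d, ((pl_left_face P.S).sf (pvieT η) hsf).2 (h2 i hi), rfl⟩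
  exact pvki_bary_convex (convex_ball _ _) (hV _ f2) (hV _ f3) (hV _ f4)

/-- **(O) AT THE NORMAL FORM, FORM (T)**: the cuts `PvdwOc` + the tags of the three special arcs in their masks ⟹ ownership piece by piece -/
theorem PvdwArcs.ownT (A : PvdwArcs N b η Lo Lr Le 𝔭 𝔭u n Z Dv Co zu du P P' g gu y0 yr ye) (F : PvdwFit Lo Lr Le 𝔭 𝔭u n Z Dv zu du) (hfr : Lo.p.fr = 1) {Mc : ℕ → Set ℂ}
    (O : PvdwOc N Lo Lr Le 𝔭 𝔭u n Z Dv Co Mc zu du)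
    (t0 : ∀ k, k < y0.n → (pvieT η).bary (pviePos η) ((pvieT η).opp (y0.e k)) ∈ Lo.msk N)
    (tr : ∀ k, k < yr.n → (pvieT η).bary (pviePos η) ((pvieT η).opp (yr.e k)) ∈ Lr.msk N)
    (te : ∀ k, k < ye.n → (pvieT η).bary (pviePos η) ((pvieT η).opp (ye.e k)) ∈ Le.msk N) :
    PvdwOwn (pvieT η) (pviePos η) n P (pvdwDd 𝔭 b η Z g) (pvilStS 𝔭u η (pvieCol η b) zu gu) y0 (pvdwYc b η g) yr ye (Lo.msk N) Mc (Lr.msk N) (Le.msk N) (Lo.ball N) := by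
  have hball : Le.ball' N = Lo.ball N := by unfold PvilLk.ball' PvilLk.ball; rw [F.pin]
  refine ⟨A.out.st.gate.ip_le, fun j _ => Nat.zero_le _, Nat.zero_le _, t0, ?_, tr, te, ?_, ?_, ?_, ?_, ?_⟩
  · intro j hj k hk
    obtain ⟨m, hm⟩ := A.runc j hj
    have e : pvdwYc b η g j = pvtArc (pvieT η) (pvieCol η b) (g j).aOut m := by unfold pvdwYc; rw [hm.hit]; rfl
    rw [e] at hk ⊢
    exact pvdw_tag_cell (O.c_in j hj) (O.c_cv j hj) hm hk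
  · intro k _ hb
    refine ⟨fun h => h.2 (Or.inr ?_), fun h => h.2 (Or.inl ?_)⟩
    · rw [F.e', if_neg Bool.false_ne_true, hball]; exact hb
    · rw [F.o, if_neg Bool.false_ne_true]; exact hb
  · intro k hk hb
    refine ⟨O.p_e (A.tag_P hfr (lt_of_lt_of_le hk A.out.st.gate.ip_le)), ?_⟩
    rw [F.e, F.e', if_pos rfl, if_neg Bool.false_ne_true, hball, Set.empty_union]
    exact hb
  · intro k _ hk' hb
    refine ⟨O.p_o (A.tag_P hfr hk'), ?_⟩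
    rw [F.o, F.o', if_pos rfl, if_neg Bool.false_ne_true, Set.union_empty]
    exact hb
  · exact fun j hj k hk => O.d_cut j hj _ (pvdw_tag_door A.good O.t_cv (A.gt j hj) hk)
  · exact fun k hk => O.u_cut _ (pvdw_tag_door A.good O.tu_cv A.gtu hk)

/-- **`PvdwRest` AT EVERY NORMAL FORM, FORM (T)**: `PvdwHd` + `PvdwOc` + `PvdwBx` (regions only, no mesh, no margin) + the two stub lines + the tags of the three special arcs in their masks -/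
theorem PvdwArcs.restT (A : PvdwArcs N b η Lo Lr Le 𝔭 𝔭u n Z Dv Co zu du P P' g gu y0 yr ye) (F : PvdwFit Lo Lr Le 𝔭 𝔭u n Z Dv zu du) (hfr : Lo.p.fr = 1) {MpP MmP : Set ℂ}
    (hMp : ∀ x : (pvieT η).Pth, PvwLE (pvieT η) (fun i => (pvieT η).src (P.ep i)) P.np x → ∀ v ∈ x.verts, pviePos η v ∈ MpP)
    (hMm : ∀ x : (pvieT η).Pth, PvwLE (pvieT η) (fun i => (pvieT η).src (P'.em i)) P'.nm x → ∀ v ∈ x.verts, pviePos η v ∈ MmP)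
    (H : PvdwHd N Lo Lr Le 𝔭 𝔭u n Z Dv Co zu du MpP MmP) {Mc : ℕ → Set ℂ} (O : PvdwOc N Lo Lr Le 𝔭 𝔭u n Z Dv Co Mc zu du)
    {Bx : Set ℂ} {c : ℝ} (B : PvdwBx Lo Lr Le 𝔭 𝔭u n Z Dv Co zu du MpP MmP Bx c)
    (t0 : ∀ k, k < y0.n → (pvieT η).bary (pviePos η) ((pvieT η).opp (y0.e k)) ∈ Lo.msk N)
    (tr : ∀ k, k < yr.n → (pvieT η).bary (pviePos η) ((pvieT η).opp (yr.e k)) ∈ Lr.msk N)
    (te : ∀ k, k < ye.n → (pvieT η).bary (pviePos η) ((pvieT η).opp (ye.e k)) ∈ Le.msk N) :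
    PvdwRest b η n P (pvdwDd 𝔭 b η Z g) (pvilStS 𝔭u η (pvieCol η b) zu gu) y0 (pvdwYc b η g) yr ye (Lo.msk N) Mc (Lr.msk N) (Le.msk N) (Lo.ball N) Bx c := by
  have hT := pvca_il_sph A.good
  obtain ⟨C, R⟩ := A.ring F hfr hMp hMm H
  refine ⟨C.ii, C.yy, C.iy, (A.ownT F hfr O t0 tr te).own, ?_, ?_, ⟨0, n + 2, by omega, by omega, ?_⟩⟩
  · exact fun j hj v hv => B.d_in j hj (A.ins_seq hfr hj ((A.gt_seq hj).ins hT hv))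
  · exact fun j hj v hv => B.y_in j hj (R j hj v hv)
  · have g0 := A.ins_seq hfr (show 0 < n + 3 by omega) (pvca_vert_left hT _ (A.gt_seq (show 0 < n + 3 by omega)).gp_mem)
    have g2 := A.ins_seq hfr (show n + 2 < n + 3 by omega) (pvca_vert_left hT _ (A.gt_seq (show n + 2 < n + 3 by omega)).gp_mem)
    unfold pvdwDk at g0 g2
    rw [pvdw_sq_zero] at g0
    rw [pvdw_sq_e] at g2
    exact B.far _ g0 _ g2

end ownT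

/-! ## 10. the four mesh facts from mesh events -/

/-- **MESH FACT OF AN ARC**: mesh `ρ` read in `E`, the vertices of the arc in the `3ρ`-core of `E` ⟹ every tag is within `2ρ` of the tail of its edge      (`pvcy2_bary_near` of 48) -/
theorem pvdw_mesh_arc {η : Conf PvPt} (hG : DelGood (cfSites η)) {ρ : ℝ} {E : Set ℂ} (hρ : 0 < ρ) (hm : PvtrMesh ρ E (cfSites η)) {y : (pvieT η).Pth}
    (hy : ∀ v ∈ y.verts, pviePos η v ∈ pvtrCore (3 * ρ) E) {k : ℕ} (hk : k < y.n) :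
    ‖(pvieT η).bary (pviePos η) ((pvieT η).opp (y.e k)) - pviePos η (y.v k)‖ ≤ 2 * ρ := by
  have e1 : (pvieT η).src ((pvieT η).opp (y.e k)) = y.v (k + 1) := by rw [(pvieT η).src_opp', y.tgt_e k hk]
  have e2 : (pvieT η).tgt ((pvieT η).opp (y.e k)) = y.v k := by rw [(pvieT η).tgt_opp, y.src_e k hk]
  have hv : pviePos η ((pvieT η).src ((pvieT η).opp (y.e k))) ∈ pvtrCore (3 * ρ) E := by rw [e1]; exact hy _ ⟨k + 1, hk, rfl⟩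
  have h2 : ‖(pvieT η).bary (pviePos η) ((pvieT η).opp (y.e k)) - pviePos η ((pvieT η).tgt ((pvieT η).opp (y.e k)))‖ ≤ 2 * ρ := (pvcy2_bary_near hG hρ hm ((pvieT η).opp (y.e k)) hv).2
  rwa [e2] at h2

section mesh

variable {η : Conf PvPt} {b : Bool} {N : PvwNum} {Lo Lr Le : PvilLk} {𝔭 𝔭u : PvkdPlug} {n : ℕ} {Z Dv : ℕ → ℂ} {Co : ℕ → Set ℂ} {zu du : ℂ}
  {P P' : PvwSt (pvieT η)} {g : ℕ → (pvkiT η).Gate (pvukS b η)} {gu : (pvkiT η).Gate (pvukS b η)} {y0 yr ye : (pvieT η).Pth}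

/-- **(O) AT THE NORMAL FORM, MESH EVENTS**: the rooms of the vertices of the three special arcs GIVEN (`PvdwArcs.ring`) -/
theorem PvdwArcs.ownM (A : PvdwArcs N b η Lo Lr Le 𝔭 𝔭u n Z Dv Co zu du P P' g gu y0 yr ye) (F : PvdwFit Lo Lr Le 𝔭 𝔭u n Z Dv zu du) (hfr : Lo.p.fr = 1) {MpP MmP : Set ℂ}
    {Mc : ℕ → Set ℂ} {ρo ρr ρe μP : ℝ} (O : PvdwOw N Lo Lr Le 𝔭 𝔭u n Z Dv Co Mc zu du MpP MmP (2 * ρo) (2 * ρr) (2 * ρe) μP) (hμ : 0 ≤ μP)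
    {Eo Er Ee : Set ℂ} (ho : 0 < ρo) (hr : 0 < ρr) (he : 0 < ρe)
    (mo : PvtrMesh ρo Eo (cfSites η)) (mr : PvtrMesh ρr Er (cfSites η)) (me : PvtrMesh ρe Ee (cfSites η))
    (ko : MpP ∪ Lo.Yin ∪ pvkdAt (Z 0) (Dv 0) 𝔭.Zm ⊆ pvtrCore (3 * ρo) Eo) (kr : pvkdAt (Z n) (Dv n) 𝔭.Zp ∪ Lr.Yin ∪ pvkdAt zu du 𝔭u.Zm ⊆ pvtrCore (3 * ρr) Er)
    (ke : pvkdAt zu du 𝔭u.Zp ∪ Le.Yin ∪ MmP ⊆ pvtrCore (3 * ρe) Ee)
    (r0 : ∀ v ∈ y0.verts, pviePos η v ∈ MpP ∪ Lo.Yin ∪ pvkdAt (Z 0) (Dv 0) 𝔭.Zm)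
    (rr : ∀ v ∈ yr.verts, pviePos η v ∈ pvkdAt (Z n) (Dv n) 𝔭.Zp ∪ Lr.Yin ∪ pvkdAt zu du 𝔭u.Zm)
    (re : ∀ v ∈ ye.verts, pviePos η v ∈ pvkdAt zu du 𝔭u.Zp ∪ Le.Yin ∪ MmP) :
    PvdwOwn (pvieT η) (pviePos η) n P (pvdwDd 𝔭 b η Z g) (pvilStS 𝔭u η (pvieCol η b) zu gu) y0 (pvdwYc b η g) yr ye (Lo.msk N) Mc (Lr.msk N) (Le.msk N) (Lo.ball N) :=
  A.ownT F hfr (O.oc hμ) (fun k hk => O.y_o ⟨_, r0 _ ⟨k, hk.le, rfl⟩, pvdw_mesh_arc A.good ho mo (fun v hv => ko (r0 v hv)) hk⟩)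
    (fun k hk => O.y_r ⟨_, rr _ ⟨k, hk.le, rfl⟩, pvdw_mesh_arc A.good hr mr (fun v hv => kr (rr v hv)) hk⟩)
    (fun k hk => O.y_e ⟨_, re _ ⟨k, hk.le, rfl⟩, pvdw_mesh_arc A.good he me (fun v hv => ke (re v hv)) hk⟩)

/-- **`PvdwRest` AT EVERY NORMAL FORM, MESH EVENTS**: regions (`PvdwHd`, `PvdwOw` at the radii `2ρ`, `PvdwBx`, the three rooms in the `3ρ`-cores of the windows) + three mesh events +
the two stub lines (vertices of the two erased stubs of the candidate over `MpP`, `MmP`).      NO MESH at the candidate (v5: `PvdwArcs.tag_P`) -/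
theorem PvdwArcs.restM (A : PvdwArcs N b η Lo Lr Le 𝔭 𝔭u n Z Dv Co zu du P P' g gu y0 yr ye) (F : PvdwFit Lo Lr Le 𝔭 𝔭u n Z Dv zu du) (hfr : Lo.p.fr = 1) {MpP MmP : Set ℂ}
    (hMp : ∀ x : (pvieT η).Pth, PvwLE (pvieT η) (fun i => (pvieT η).src (P.ep i)) P.np x → ∀ v ∈ x.verts, pviePos η v ∈ MpP)
    (hMm : ∀ x : (pvieT η).Pth, PvwLE (pvieT η) (fun i => (pvieT η).src (P'.em i)) P'.nm x → ∀ v ∈ x.verts, pviePos η v ∈ MmP)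
    (H : PvdwHd N Lo Lr Le 𝔭 𝔭u n Z Dv Co zu du MpP MmP) {Mc : ℕ → Set ℂ} {ρo ρr ρe μP : ℝ} (O : PvdwOw N Lo Lr Le 𝔭 𝔭u n Z Dv Co Mc zu du MpP MmP (2 * ρo) (2 * ρr) (2 * ρe) μP) (hμ : 0 ≤ μP)
    {Bx : Set ℂ} {c : ℝ} (B : PvdwBx Lo Lr Le 𝔭 𝔭u n Z Dv Co zu du MpP MmP Bx c) {Eo Er Ee : Set ℂ} (ho : 0 < ρo) (hr : 0 < ρr) (he : 0 < ρe)
    (mo : PvtrMesh ρo Eo (cfSites η)) (mr : PvtrMesh ρr Er (cfSites η)) (me : PvtrMesh ρe Ee (cfSites η))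
    (ko : MpP ∪ Lo.Yin ∪ pvkdAt (Z 0) (Dv 0) 𝔭.Zm ⊆ pvtrCore (3 * ρo) Eo) (kr : pvkdAt (Z n) (Dv n) 𝔭.Zp ∪ Lr.Yin ∪ pvkdAt zu du 𝔭u.Zm ⊆ pvtrCore (3 * ρr) Er)
    (ke : pvkdAt zu du 𝔭u.Zp ∪ Le.Yin ∪ MmP ⊆ pvtrCore (3 * ρe) Ee) :
    PvdwRest b η n P (pvdwDd 𝔭 b η Z g) (pvilStS 𝔭u η (pvieCol η b) zu gu) y0 (pvdwYc b η g) yr ye (Lo.msk N) Mc (Lr.msk N) (Le.msk N) (Lo.ball N) Bx c := by
  obtain ⟨-, R⟩ := A.ring F hfr hMp hMm H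
  have r0 : ∀ v ∈ y0.verts, pviePos η v ∈ MpP ∪ Lo.Yin ∪ pvkdAt (Z 0) (Dv 0) 𝔭.Zm := by
    intro v hv
    have := R 0 (by omega) v (by rw [pvdw_y_zero]; exact hv)
    unfold pvdwYr at this
    rwa [pvdw_sq_zero] at this
  have rr : ∀ v ∈ yr.verts, pviePos η v ∈ pvkdAt (Z n) (Dv n) 𝔭.Zp ∪ Lr.Yin ∪ pvkdAt zu du 𝔭u.Zm := by
    intro v hv
    have := R (n + 1) (by omega) v (by rw [pvdw_y_r]; exact hv)
    unfold pvdwYr at this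
    rwa [pvdw_sq_r] at this
  have re : ∀ v ∈ ye.verts, pviePos η v ∈ pvkdAt zu du 𝔭u.Zp ∪ Le.Yin ∪ MmP := by
    intro v hv
    have := R (n + 2) (by omega) v (by rw [pvdw_y_e]; exact hv)
    unfold pvdwYr at this
    rwa [pvdw_sq_e] at this
  exact A.restT F hfr hMp hMm H (O.oc hμ) B (fun k hk => O.y_o ⟨_, r0 _ ⟨k, hk.le, rfl⟩, pvdw_mesh_arc A.good ho mo (fun v hv => ko (r0 v hv)) hk⟩)
    (fun k hk => O.y_r ⟨_, rr _ ⟨k, hk.le, rfl⟩, pvdw_mesh_arc A.good hr mr (fun v hv => kr (rr v hv)) hk⟩)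
    (fun k hk => O.y_e ⟨_, re _ ⟨k, hk.le, rfl⟩, pvdw_mesh_arc A.good he me (fun v hv => ke (re v hv)) hk⟩)

end mesh

/-! ## 7. at the data of record -/

/-- the two rooms of the gate vertices of the plug of record are disjoint -/
theorem pvdw_P_zz {r : ℝ} (hr : 0 < r) : Disjoint (pvkdP r).Zm (pvkdP r).Zp := by
  rw [Set.disjoint_left]
  rintro w ⟨-, h1, -, -⟩ ⟨h2, -, -, -⟩
  linarith

section record

variable {τ : Type} {c : ℝ} (𝔓 : PvxPar τ c) (𝔈 : PvieEng τ)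

/-- **THE LINKS OF RECORD FIT**: `pvilLo`, `pvilLe` and ANY link `Lr` whose ends are the ends of `pvilLr` moved to the reference plug of `(z,t)` (`pviqLk (pvilLr 𝔓 𝔈 m) (pvieZu 𝔓 m z t) 1` of 246: `rfl rfl rfl rfl`);
doors = the doors of the word `l1 t` from the exit door of `(z,t)`, cells of side `δ = (𝔓.Γ m).δ` -/
theorem pvdw_fit_rec (m : ℕ) (z : ℂ) (t : τ) {Lr : PvilLk} (h1 : Lr.p = (pvilLr 𝔓 𝔈 m).p.mv (pvieZu 𝔓 m z t) 1) (h2 : Lr.p' = (pvilLr 𝔓 𝔈 m).p'.mv (pvieZu 𝔓 m z t) 1)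
    (h3 : Lr.dr = true) (h4 : Lr.dr' = true) (hd : 0 < pvilRd 𝔓 m) (hu : 0 < pvilRu 𝔈 m) :
    PvdwFit (pvilLo 𝔓 𝔈 m z t) Lr (pvilLe 𝔓 𝔈 m z t) (pvkdP (pvilRd 𝔓 m)) (pvkdP (pvilRu 𝔈 m)) ((𝔓.Γ m).l1 t).length
      (pvthZ (𝔓.Γ m).δ (pvieZo 𝔓 m z t) ((𝔓.Γ m).dout t) ((𝔓.Γ m).l1 t)) (pvthD ((𝔓.Γ m).dout t) ((𝔓.Γ m).l1 t)) (pvieZu 𝔓 m z t) 1 where
  pin := rfl
  fr := one_ne_zero
  o := rfl
  o' := rfl
  r := h3
  r' := h4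
  e := rfl
  e' := rfl
  o_pl := rfl
  o_z := by
    show pvieZo 𝔓 m z t = pvieZo 𝔓 m z t + (𝔓.Γ m).δ * pvtDisp ((𝔓.Γ m).dout t) (((𝔓.Γ m).l1 t).take 0)
    rw [List.take_zero]
    simp [pvtDisp, pvtAcc]
  o_d := by
    show (𝔓.Γ m).dout t = pvtDir ((𝔓.Γ m).dout t) (((𝔓.Γ m).l1 t).take 0)
    rw [List.take_zero]
    rfl
  r_pl := by rw [h1]; rfl
  r_z := by
    rw [h1]
    show pvthSim (pvieZu 𝔓 m z t) 1 (𝔓.Γ m).pin0 = pvieZo 𝔓 m z t + (𝔓.Γ m).δ * pvtDisp ((𝔓.Γ m).dout t) (((𝔓.Γ m).l1 t).take ((𝔓.Γ m).l1 t).length)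
    rw [List.take_length, (𝔓.Γ m).l1_disp t]
    unfold pvthSim pvieZu pvieZo
    ring
  r_d := by
    rw [h1]
    show 1 * (𝔓.Γ m).din0 = pvtDir ((𝔓.Γ m).dout t) (((𝔓.Γ m).l1 t).take ((𝔓.Γ m).l1 t).length)
    rw [List.take_length, (𝔓.Γ m).l1_dir t, one_mul]
  ru_pl := by rw [h2]; rfl
  ru_z := by
    rw [h2]
    show pvthSim (pvieZu 𝔓 m z t) 1 0 = pvieZu 𝔓 m z t
    unfold pvthSim
    ring
  ru_d := by
    rw [h2]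
    show (1 : ℂ) * 1 = 1
    ring
  eu_pl := rfl
  eu_z := rfl
  eu_d := rfl
  zz := pvdw_P_zz hd
  zzu := pvdw_P_zz hu

/-- the word form of [KDICT] (244, `PvukDict.word`) in the form of `pvdw_main` -/
theorem pvdw_of_word {η : Conf PvPt} {b : Bool} {𝔤 : PvkdGeo} {z d : ℂ} {l : List PvtTurn} {g : ℕ → (pvkiT η).Gate (pvukS b η)} {Nn : ℕ → ℕ}
    (hW : ∀ j, j < l.length → PvukLink 𝔤 b η (pvthZ 𝔤.δ z d l j) (pvthD d l j) (pvthL l j) (g j) (g (j + 1)) (Nn j)) :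
    ∀ j, j < l.length → PvukGate 𝔤.toPvkdPlug b η (pvthZ 𝔤.δ z d l j) (pvthD d l j) (g j) ∧ PvukGate 𝔤.toPvkdPlug b η (pvthZ 𝔤.δ z d l (j + 1)) (pvthD d l (j + 1)) (g (j + 1)) ∧
      ∃ k, PvzlRun (pvkiT η) Subtype.val (pvukS b η) (pvkdAt (pvthZ 𝔤.δ z d l j) (pvthD d l j) (𝔤.Co (pvthL l j))) (g j) (g (j + 1)) k := by
  intro j hj
  obtain ⟨h1, h2, h3⟩ := hW j hj
  obtain ⟨e1, e2⟩ := pvuk_exit 𝔤 z d l hj
  rw [e1, e2] at h2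
  exact ⟨h1, h2, _, h3⟩

/-- **`Pvcy2At` AT THE DATA OF RECORD**, in the plane map of `η`, colour `b = 𝔓.col t`: plain successes of `pvilLo`, of the moved `pvilLr`, of `pvilLe` + the word form of [KDICT] for `l1 t` (geometry `𝔤` of the cells of level `m`: plug `pvkdP (δ_m / 16)`, side `(𝔓.Γ m).δ`);
`Xc j` = the field of the cell `j`.      What is left = `PvdwRest` for every normal form. -/
theorem pvdw_rec (m : ℕ) (z : ℂ) (t : τ) {Lr : PvilLk} (h1 : Lr.p = (pvilLr 𝔓 𝔈 m).p.mv (pvieZu 𝔓 m z t) 1) (h2 : Lr.p' = (pvilLr 𝔓 𝔈 m).p'.mv (pvieZu 𝔓 m z t) 1)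
    (h3 : Lr.dr = true) (h4 : Lr.dr' = true) (hd : 0 < pvilRd 𝔓 m) (hu : 0 < pvilRu 𝔈 m) {𝔤 : PvkdGeo} (hp : 𝔤.toPvkdPlug = pvkdP (pvilRd 𝔓 m)) (hδ : 𝔤.δ = (𝔓.Γ m).δ)
    {η : Conf PvPt} (hLo : η ∈ (pvilLo 𝔓 𝔈 m z t).A 𝔓.num (𝔓.col t)) (hLr : η ∈ Lr.A 𝔓.num (𝔓.col t)) (hLe : η ∈ (pvilLe 𝔓 𝔈 m z t).A 𝔓.num (𝔓.col t))
    {g : ℕ → (pvkiT η).Gate (pvukS (𝔓.col t) η)} {Nn : ℕ → ℕ} {Xc : ℕ → ℂ}
    (hW : ∀ j, j < ((𝔓.Γ m).l1 t).length →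
      PvukLink 𝔤 (𝔓.col t) η (pvthZ 𝔤.δ (pvieZo 𝔓 m z t) ((𝔓.Γ m).dout t) ((𝔓.Γ m).l1 t) j) (pvthD ((𝔓.Γ m).dout t) ((𝔓.Γ m).l1 t) j) (pvthL ((𝔓.Γ m).l1 t) j) (g j) (g (j + 1)) (Nn j) ∧
      Xc j = pvukMass (𝔓.col t) η (pvkdAt (pvthZ 𝔤.δ (pvieZo 𝔓 m z t) ((𝔓.Γ m).dout t) ((𝔓.Γ m).l1 t) j) (pvthD ((𝔓.Γ m).dout t) ((𝔓.Γ m).l1 t) j) (𝔤.Mk (pvthL ((𝔓.Γ m).l1 t) j))) (g j) (g (j + 1)))
    {Bx : Set ℂ} {a : ℝ}
    (H : ∀ (P P' : PvwSt (pvieT η)) (g' : ℕ → (pvkiT η).Gate (pvukS (𝔓.col t) η)) (gu : (pvkiT η).Gate (pvukS (𝔓.col t) η)) (y0 yr ye : (pvieT η).Pth),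
      PvdwArcs 𝔓.num (𝔓.col t) η (pvilLo 𝔓 𝔈 m z t) Lr (pvilLe 𝔓 𝔈 m z t) (pvkdP (pvilRd 𝔓 m)) (pvkdP (pvilRu 𝔈 m)) ((𝔓.Γ m).l1 t).length
        (pvthZ (𝔓.Γ m).δ (pvieZo 𝔓 m z t) ((𝔓.Γ m).dout t) ((𝔓.Γ m).l1 t)) (pvthD ((𝔓.Γ m).dout t) ((𝔓.Γ m).l1 t))
        (fun j => pvkdAt (pvthZ (𝔓.Γ m).δ (pvieZo 𝔓 m z t) ((𝔓.Γ m).dout t) ((𝔓.Γ m).l1 t) j) (pvthD ((𝔓.Γ m).dout t) ((𝔓.Γ m).l1 t) j) (𝔤.Co (pvthL ((𝔓.Γ m).l1 t) j)))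
        (pvieZu 𝔓 m z t) 1 P P' g' gu y0 yr ye →
      PvdwRest (𝔓.col t) η ((𝔓.Γ m).l1 t).length P (pvdwDd (pvkdP (pvilRd 𝔓 m)) (𝔓.col t) η (pvthZ (𝔓.Γ m).δ (pvieZo 𝔓 m z t) ((𝔓.Γ m).dout t) ((𝔓.Γ m).l1 t)) g')
        (pvilStS (pvkdP (pvilRu 𝔈 m)) η (pvieCol η (𝔓.col t)) (pvieZu 𝔓 m z t) gu) y0 (pvdwYc (𝔓.col t) η g') yr ye ((pvilLo 𝔓 𝔈 m z t).msk 𝔓.num)
        (fun j => pvkdAt (pvthZ (𝔓.Γ m).δ (pvieZo 𝔓 m z t) ((𝔓.Γ m).dout t) ((𝔓.Γ m).l1 t) j) (pvthD ((𝔓.Γ m).dout t) ((𝔓.Γ m).l1 t) j) (𝔤.Mk (pvthL ((𝔓.Γ m).l1 t) j)))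
        (Lr.msk 𝔓.num) ((pvilLe 𝔓 𝔈 m z t).msk 𝔓.num) ((pvilLo 𝔓 𝔈 m z t).ball 𝔓.num) Bx a) :
    Pvcy2At η ((𝔓.Γ m).l1 t).length ((pvilLo 𝔓 𝔈 m z t).X 𝔓.num (𝔓.col t) pvilQ η) Xc (Lr.X 𝔓.num (𝔓.col t) pvilQ η) ((pvilLe 𝔓 𝔈 m z t).X 𝔓.num (𝔓.col t) pvilQ η) Bx a := by
  have hg := pvdw_of_word fun j hj => (hW j hj).1
  rw [hp, hδ] at hg
  refine pvdw_at_congr (pvdw_main (pvdw_fit_rec 𝔓 𝔈 m z t h1 h2 h3 h4 hd hu) hLo hLr hLe hg H) fun j hj => ?_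
  rw [(hW j hj).2, hδ]

/-- **`Pvcy2At` AT THE DATA OF RECORD FROM REGIONS**: `pvdw_rec` with `PvdwRest` discharged by `PvdwArcs.restM`.      What is left of [DET]: the three records of REGIONS (`PvdwHd`, `PvdwOw`, `PvdwBx`) and the three inclusions `ko kr ke` at the engine of record,
three mesh events at `η`, and the two stub lines of the half states of the candidate at `η` (`sP`: exit half state; `sP'`: entrance half state; 264: `pvc2h_hMp`, `pvc2h_hMm`) -/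
theorem pvdw_rec_reg (m : ℕ) (z : ℂ) (t : τ) {Lr : PvilLk} (h1 : Lr.p = (pvilLr 𝔓 𝔈 m).p.mv (pvieZu 𝔓 m z t) 1) (h2 : Lr.p' = (pvilLr 𝔓 𝔈 m).p'.mv (pvieZu 𝔓 m z t) 1)
    (h3 : Lr.dr = true) (h4 : Lr.dr' = true) (hd : 0 < pvilRd 𝔓 m) (hu : 0 < pvilRu 𝔈 m) {𝔤 : PvkdGeo} (hp : 𝔤.toPvkdPlug = pvkdP (pvilRd 𝔓 m)) (hδ : 𝔤.δ = (𝔓.Γ m).δ)
    {η : Conf PvPt} (hLo : η ∈ (pvilLo 𝔓 𝔈 m z t).A 𝔓.num (𝔓.col t)) (hLr : η ∈ Lr.A 𝔓.num (𝔓.col t)) (hLe : η ∈ (pvilLe 𝔓 𝔈 m z t).A 𝔓.num (𝔓.col t))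
    {g : ℕ → (pvkiT η).Gate (pvukS (𝔓.col t) η)} {Nn : ℕ → ℕ} {Xc : ℕ → ℂ}
    (hW : ∀ j, j < ((𝔓.Γ m).l1 t).length →
      PvukLink 𝔤 (𝔓.col t) η (pvthZ 𝔤.δ (pvieZo 𝔓 m z t) ((𝔓.Γ m).dout t) ((𝔓.Γ m).l1 t) j) (pvthD ((𝔓.Γ m).dout t) ((𝔓.Γ m).l1 t) j) (pvthL ((𝔓.Γ m).l1 t) j) (g j) (g (j + 1)) (Nn j) ∧
      Xc j = pvukMass (𝔓.col t) η (pvkdAt (pvthZ 𝔤.δ (pvieZo 𝔓 m z t) ((𝔓.Γ m).dout t) ((𝔓.Γ m).l1 t) j) (pvthD ((𝔓.Γ m).dout t) ((𝔓.Γ m).l1 t) j) (𝔤.Mk (pvthL ((𝔓.Γ m).l1 t) j))) (g j) (g (j + 1)))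
    {Bx MpP MmP Eo Er Ee : Set ℂ} {a ρo ρr ρe μP : ℝ}
    (H : PvdwHd 𝔓.num (pvilLo 𝔓 𝔈 m z t) Lr (pvilLe 𝔓 𝔈 m z t) (pvkdP (pvilRd 𝔓 m)) (pvkdP (pvilRu 𝔈 m)) ((𝔓.Γ m).l1 t).length
      (pvthZ (𝔓.Γ m).δ (pvieZo 𝔓 m z t) ((𝔓.Γ m).dout t) ((𝔓.Γ m).l1 t)) (pvthD ((𝔓.Γ m).dout t) ((𝔓.Γ m).l1 t))
      (fun j => pvkdAt (pvthZ (𝔓.Γ m).δ (pvieZo 𝔓 m z t) ((𝔓.Γ m).dout t) ((𝔓.Γ m).l1 t) j) (pvthD ((𝔓.Γ m).dout t) ((𝔓.Γ m).l1 t) j) (𝔤.Co (pvthL ((𝔓.Γ m).l1 t) j))) (pvieZu 𝔓 m z t) 1 MpP MmP)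
    (O : PvdwOw 𝔓.num (pvilLo 𝔓 𝔈 m z t) Lr (pvilLe 𝔓 𝔈 m z t) (pvkdP (pvilRd 𝔓 m)) (pvkdP (pvilRu 𝔈 m)) ((𝔓.Γ m).l1 t).length
      (pvthZ (𝔓.Γ m).δ (pvieZo 𝔓 m z t) ((𝔓.Γ m).dout t) ((𝔓.Γ m).l1 t)) (pvthD ((𝔓.Γ m).dout t) ((𝔓.Γ m).l1 t))
      (fun j => pvkdAt (pvthZ (𝔓.Γ m).δ (pvieZo 𝔓 m z t) ((𝔓.Γ m).dout t) ((𝔓.Γ m).l1 t) j) (pvthD ((𝔓.Γ m).dout t) ((𝔓.Γ m).l1 t) j) (𝔤.Co (pvthL ((𝔓.Γ m).l1 t) j)))
      (fun j => pvkdAt (pvthZ (𝔓.Γ m).δ (pvieZo 𝔓 m z t) ((𝔓.Γ m).dout t) ((𝔓.Γ m).l1 t) j) (pvthD ((𝔓.Γ m).dout t) ((𝔓.Γ m).l1 t) j) (𝔤.Mk (pvthL ((𝔓.Γ m).l1 t) j)))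
      (pvieZu 𝔓 m z t) 1 MpP MmP (2 * ρo) (2 * ρr) (2 * ρe) μP) (hμ : 0 ≤ μP)
    (B : PvdwBx (pvilLo 𝔓 𝔈 m z t) Lr (pvilLe 𝔓 𝔈 m z t) (pvkdP (pvilRd 𝔓 m)) (pvkdP (pvilRu 𝔈 m)) ((𝔓.Γ m).l1 t).length
      (pvthZ (𝔓.Γ m).δ (pvieZo 𝔓 m z t) ((𝔓.Γ m).dout t) ((𝔓.Γ m).l1 t)) (pvthD ((𝔓.Γ m).dout t) ((𝔓.Γ m).l1 t))
      (fun j => pvkdAt (pvthZ (𝔓.Γ m).δ (pvieZo 𝔓 m z t) ((𝔓.Γ m).dout t) ((𝔓.Γ m).l1 t) j) (pvthD ((𝔓.Γ m).dout t) ((𝔓.Γ m).l1 t) j) (𝔤.Co (pvthL ((𝔓.Γ m).l1 t) j))) (pvieZu 𝔓 m z t) 1 MpP MmP Bx a)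
    (ho : 0 < ρo) (hr : 0 < ρr) (he : 0 < ρe)
    (mo : PvtrMesh ρo Eo (cfSites η)) (mr : PvtrMesh ρr Er (cfSites η)) (me : PvtrMesh ρe Ee (cfSites η))
    (ko : MpP ∪ (pvilLo 𝔓 𝔈 m z t).Yin ∪ pvkdAt (pvthZ (𝔓.Γ m).δ (pvieZo 𝔓 m z t) ((𝔓.Γ m).dout t) ((𝔓.Γ m).l1 t) 0) (pvthD ((𝔓.Γ m).dout t) ((𝔓.Γ m).l1 t) 0) (pvkdP (pvilRd 𝔓 m)).Zm ⊆ pvtrCore (3 * ρo) Eo)
    (kr : pvkdAt (pvthZ (𝔓.Γ m).δ (pvieZo 𝔓 m z t) ((𝔓.Γ m).dout t) ((𝔓.Γ m).l1 t) ((𝔓.Γ m).l1 t).length) (pvthD ((𝔓.Γ m).dout t) ((𝔓.Γ m).l1 t) ((𝔓.Γ m).l1 t).length) (pvkdP (pvilRd 𝔓 m)).Zp ∪ Lr.Yin ∪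
      pvkdAt (pvieZu 𝔓 m z t) 1 (pvkdP (pvilRu 𝔈 m)).Zm ⊆ pvtrCore (3 * ρr) Er)
    (ke : pvkdAt (pvieZu 𝔓 m z t) 1 (pvkdP (pvilRu 𝔈 m)).Zp ∪ (pvilLe 𝔓 𝔈 m z t).Yin ∪ MmP ⊆ pvtrCore (3 * ρe) Ee)
    (sP : ∀ P : PvwSt (pvieT η), PvilOut 𝔓.num (𝔓.col t) (pvilPin 𝔓 m z t) η P →
      ∀ x : (pvieT η).Pth, PvwLE (pvieT η) (fun i => (pvieT η).src (P.ep i)) P.np x → ∀ v ∈ x.verts, pviePos η v ∈ MpP)
    (sP' : ∀ P' : PvwSt (pvieT η), PvilIn 𝔓.num (𝔓.col t) (pvilPin 𝔓 m z t) η P' →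
      ∀ x : (pvieT η).Pth, PvwLE (pvieT η) (fun i => (pvieT η).src (P'.em i)) P'.nm x → ∀ v ∈ x.verts, pviePos η v ∈ MmP) :
    Pvcy2At η ((𝔓.Γ m).l1 t).length ((pvilLo 𝔓 𝔈 m z t).X 𝔓.num (𝔓.col t) pvilQ η) Xc (Lr.X 𝔓.num (𝔓.col t) pvilQ η) ((pvilLe 𝔓 𝔈 m z t).X 𝔓.num (𝔓.col t) pvilQ η) Bx a :=
  pvdw_rec 𝔓 𝔈 m z t h1 h2 h3 h4 hd hu hp hδ hLo hLr hLe hW fun P P' _ _ _ _ _ A =>
    A.restM (pvdw_fit_rec 𝔓 𝔈 m z t h1 h2 h3 h4 hd hu) rfl (sP P A.out) (sP' P' A.inn) H O hμ B ho hr he mo mr me ko kr ke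

end record

end Claimed.Agent.R289
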