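import Claimed.Agent.R289.Tr.ChainY

/-!
# Row 289 (S0537), file Tr/DomCov : COVARIANCE OF THE HYBRID RESAMPLING      (helper193; prefix `pvdv_`, `pvdv`, `Pvdv`)

`Tr/DomY.lean` defines `pvdyR C yf ω (κ, ω₂)`, the law of the seeds `pvdyNu ε`, the means `pvdyHat ε C yf w Y`, the conditional probabilities `pvdyQ`, the weights `pvdyW`.
THIS FILE: all of them are COVARIANT under (a) the colour flip `pvkyFl b` (`= pvieFl b = pvxnFl b`), (b) the isometries `cfMap g`, `g : ℂ ≃ᵢ ℂ` (translations, rotations of the frames `pvthSim z d`).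
NO measurability of `w Y yf S` is asked: the seeds are transported by a law preserving MEASURABLE EQUIVALENCE.      0 sorry
* sec. 1  change of variables by a law preserving measurable equivalence (`pvdv_lintegral_equiv`, `pvdv_measure_equiv`, `pvdv_ae_equiv`, `pvdv_integral_equiv`: ANY functions)
* sec. 2  THE FLIP: `pvdvNb b κ`, `pvdvT b` (seeds), `pvdv_T_map`, `PvdvFn ω` (one colour per site), **`pvdv_fl_R`**, `pvdv_lintegral_fl`, **`pvdv_hat_fl`**, `pvdv_Q_fl`, `pvdv_W_fl`, `pvdv_stop_fl`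
* sec. 3  ISOMETRIES: `pvdvM g` (configurations), `pvdvG g` (seeds), `pvdv_G_map`, **`pvdv_map_R`**, `pvdv_lintegral_map`, **`pvdv_hat_map`**, `pvdv_Q_map`, `pvdv_W_map`, `pvdv_stop_map`;   the frames `pvdvSim z d` (`‖d‖ = 1`; coercion `= pvthSim z d`)
USE.   `kout kin ke` of a candidate at another centre / frame / colour = the same `pvdyHat` at the transported configuration (PvieInv, 246);   the system of N1' is typed for black rims, the chain for the actual colours (`Exit/N1Y`).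
-/

set_option autoImplicit false

namespace Claimed.Agent.R289

open MeasureTheory Set
open scoped ENNReal

/-! ## 1. change of variables -/

section gen

variable {X : Type*} [MeasurableSpace X] {ν : Measure X}

theorem pvdv_lintegral_equiv (T : X ≃ᵐ X) (hT : ν.map T = ν) (F : X → ℝ≥0∞) : ∫⁻ x, F (T x) ∂ν = ∫⁻ x, F x ∂ν := by
  conv_rhs => rw [← hT]
  exact (lintegral_map_equiv F T).symm

theorem pvdv_measure_equiv (T : X ≃ᵐ X) (hT : ν.map T = ν) (S : Set X) : ν {x | T x ∈ S} = ν S := by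
  conv_rhs => rw [← hT]
  exact (T.map_apply S).symm

theorem pvdv_ae_equiv (T : X ≃ᵐ X) (hT : ν.map T = ν) {p : X → Prop} (h : ∀ᵐ x ∂ν, p x) : ∀ᵐ x ∂ν, p (T x) := by
  have : ν {x | T x ∈ {x | ¬ p x}} = 0 := by rw [pvdv_measure_equiv T hT]; exact h
  exact this

/-- weighted means of ANY functions -/
theorem pvdv_integral_equiv (T : X ≃ᵐ X) (hT : ν.map T = ν) (w : X → ℝ≥0∞) (F : X → ℂ) :
    ∫ x, F (T x) ∂(ν.withDensity fun x => w (T x)) = ∫ x, F x ∂(ν.withDensity w) := by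
  have e : (ν.withDensity fun x => w (T x)).map T = ν.withDensity w := by
    ext s hs
    rw [T.map_apply, withDensity_apply _ hs, withDensity_apply _ (T.measurable hs), ← lintegral_indicator hs, ← lintegral_indicator (T.measurable hs),
      ← pvdv_lintegral_equiv T hT (s.indicator w)]
    rfl
  rw [← e]
  exact (integral_map_equiv T F).symm

end gen

/-! ## 2. the colour flip -/

section flip

/-- the colouring seen by a rim of colour `b` -/
def pvdvNb (b : Bool) (κ : ℂ → Bool) : ℂ → Bool := fun z => κ z == b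

theorem pvdv_nb_nb (b : Bool) (κ : ℂ → Bool) : pvdvNb b (pvdvNb b κ) = κ := by
  funext z
  unfold pvdvNb
  cases b <;> cases κ z <;> rfl

theorem pvdv_nb_true (κ : ℂ → Bool) : pvdvNb true κ = κ := by
  funext z
  unfold pvdvNb
  cases κ z <;> rfl

theorem pvdv_nb_false (κ : ℂ → Bool) : pvdvNb false κ = pvfFlip univ κ := by
  funext z
  unfold pvdvNb pvfFlip
  rw [if_pos (mem_univ z)]
  cases κ z <;> rfl

theorem measurable_pvdvNb (b : Bool) : Measurable (pvdvNb b) :=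
  measurable_pi_lambda _ fun z => (measurable_of_countable fun x : Bool => x == b).comp (measurable_pi_apply z)

theorem pvdv_nb_map (b : Bool) : (colLaw ℂ).map (pvdvNb b) = colLaw ℂ := by
  cases b
  · have e : pvdvNb false = pvfFlip univ := funext pvdv_nb_false
    rw [e]
    exact pvf_colLaw_flip univ
  · have e : pvdvNb true = id := funext pvdv_nb_true
    rw [e, Measure.map_id]

theorem pvdv_nb_mix (b : Bool) (F : Set ℂ) (κ σ : ℂ → Bool) : pvdvNb b (pvfqMix F (κ, σ)) = pvfqMix F (pvdvNb b κ, pvdvNb b σ) := by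
  funext z
  by_cases hz : z ∈ F
  · rw [pvfqMix_of_mem hz]
    unfold pvdvNb
    rw [pvfqMix_of_mem hz]
  · rw [pvfqMix_of_notMem hz]
    unfold pvdvNb
    rw [pvfqMix_of_notMem hz]

/-- the flip of the seeds -/
def pvdvT (b : Bool) : ((ℂ → Bool) × Conf PvPt) ≃ᵐ ((ℂ → Bool) × Conf PvPt) where
  toFun x := (pvdvNb b x.1, pvkyFl b x.2)
  invFun x := (pvdvNb b x.1, pvkyFl b x.2)
  left_inv x := by simp only [pvky_fl_fl, pvdv_nb_nb]
  right_inv x := by simp only [pvky_fl_fl, pvdv_nb_nb]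
  measurable_toFun := ((measurable_pvdvNb b).comp measurable_fst).prodMk ((measurable_pvkyFl b).comp measurable_snd)
  measurable_invFun := ((measurable_pvdvNb b).comp measurable_fst).prodMk ((measurable_pvkyFl b).comp measurable_snd)

theorem pvdv_eqns_cite : True := by
  have := @pvdvNb.eq_1; have := @pvdvT.eq_1
  trivial

theorem pvdv_T_apply (b : Bool) (x : (ℂ → Bool) × Conf PvPt) : pvdvT b x = (pvdvNb b x.1, pvkyFl b x.2) := rfl

theorem pvdv_T_T (b : Bool) (x : (ℂ → Bool) × Conf PvPt) : pvdvT b (pvdvT b x) = x := (pvdvT b).left_inv x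

theorem pvdv_T_map (b : Bool) (ε : ℝ) : (pvdyNu ε).map (pvdvT b) = pvdyNu ε := by
  have := (pv_isPpp ε).prob
  have e : (pvdvT b : (ℂ → Bool) × Conf PvPt → (ℂ → Bool) × Conf PvPt) = Prod.map (pvdvNb b) (pvkyFl b) := rfl
  unfold pvdyNu
  rw [e, ← Measure.map_prod_map _ _ (measurable_pvdvNb b) (measurable_pvkyFl b), pvdv_nb_map, pvky_fl_map]

/-- one colour per site -/
def PvdvFn (ω : Conf PvPt) : Prop := ∃ (Y : Set ℂ) (σ : ℂ → Bool), ω = cfOf Y σ

theorem pvdv_fn_cfOf (Y : Set ℂ) (σ : ℂ → Bool) : PvdvFn (cfOf Y σ) := ⟨Y, σ, rfl⟩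

theorem pvdv_fl_cfOf (b : Bool) (Y : Set ℂ) (σ : ℂ → Bool) : pvkyFl b (cfOf Y σ) = cfOf Y (pvdvNb b σ) := by
  ext p
  rw [pvky_mem_fl]
  simp only [cfOf, mem_ofPred_eq, pvdvNb]
  refine and_congr_right fun _ => ?_
  cases b <;> cases p.2 <;> cases σ p.1 <;> simp

theorem PvdvFn.fl {ω : Conf PvPt} (h : PvdvFn ω) (b : Bool) : PvdvFn (pvkyFl b ω) := by
  obtain ⟨Y, σ, rfl⟩ := h
  exact ⟨Y, _, pvdv_fl_cfOf b Y σ⟩

theorem pvdv_fl_spl (b : Bool) (U : Set ℂ) (η η' : Conf PvPt) : pvkyFl b (Conf.spl (U ×ˢ univ) (η, η')) = Conf.spl (U ×ˢ univ) (pvkyFl b η, pvkyFl b η') := by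
  ext p
  rw [pvky_mem_fl]
  simp only [Conf.spl, Conf.union, Conf.restr, mem_union, mem_inter_iff, mem_prod, mem_univ, and_true, mem_compl_iff, pvky_mem_fl]

/-- **THE FLIP COMMUTES WITH THE HYBRID RESAMPLING** -/
theorem pvdv_fl_R (b : Bool) (C : Set ℂ) (yf : Conf PvPt → Set ℂ) {ω : Conf PvPt} (hω : PvdvFn ω) (p : (ℂ → Bool) × Conf PvPt) :
    pvkyFl b (pvdyR C yf ω p) = pvdyR C (fun η => yf (pvkyFl b η)) (pvkyFl b ω) (pvdvT b p) := by
  obtain ⟨Y, σ, rfl⟩ := hω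
  obtain ⟨κ, ω₂⟩ := p
  rw [pvdv_T_apply, pvdv_fl_cfOf, pvdy_R_cfOf, pvdy_R_cfOf, pvdv_fl_spl, pvdv_fl_cfOf, pvdv_nb_mix, ← pvdv_fl_cfOf, pvky_fl_fl]

/-- the same, read from the flipped side -/
theorem pvdv_fl_R' (b : Bool) (C : Set ℂ) (yf : Conf PvPt → Set ℂ) {ω : Conf PvPt} (hω : PvdvFn ω) (p : (ℂ → Bool) × Conf PvPt) :
    pvkyFl b (pvdyR C (fun η => yf (pvkyFl b η)) (pvkyFl b ω) p) = pvdyR C yf ω (pvdvT b p) := by
  rw [pvdv_fl_R b C _ (hω.fl b) p, pvky_fl_fl]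
  simp only [pvky_fl_fl]

/-- lower integrals of ANY function along the experiment -/
theorem pvdv_lintegral_fl (b : Bool) (ε : ℝ) (C : Set ℂ) (yf : Conf PvPt → Set ℂ) {ω : Conf PvPt} (hω : PvdvFn ω) (F : Conf PvPt → ℝ≥0∞) :
    ∫⁻ p, F (pvkyFl b (pvdyR C (fun η => yf (pvkyFl b η)) (pvkyFl b ω) p)) ∂pvdyNu ε = ∫⁻ p, F (pvdyR C yf ω p) ∂pvdyNu ε := by
  simp_rw [pvdv_fl_R' b C yf hω]
  exact pvdv_lintegral_equiv (pvdvT b) (pvdv_T_map b ε) fun p => F (pvdyR C yf ω p)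

/-- **`ŷ` IS COVARIANT UNDER THE FLIP** -/
theorem pvdv_hat_fl (b : Bool) (ε : ℝ) (C : Set ℂ) (yf : Conf PvPt → Set ℂ) (w : Conf PvPt → ℝ≥0∞) (Y : Conf PvPt → ℂ) {ω : Conf PvPt} (hω : PvdvFn ω) :
    pvdyHat ε C (fun η => yf (pvkyFl b η)) (fun η => w (pvkyFl b η)) (fun η => Y (pvkyFl b η)) (pvkyFl b ω) = pvdyHat ε C yf w Y ω := by
  rw [pvdy_hat_eq, pvdy_hat_eq]
  simp_rw [pvdv_fl_R' b C yf hω]
  exact pvdv_integral_equiv (pvdvT b) (pvdv_T_map b ε) (fun p => w (pvdyR C yf ω p)) fun p => Y (pvdyR C yf ω p)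

theorem pvdv_Q_fl (b : Bool) (ε : ℝ) (C : Set ℂ) (yf : Conf PvPt → Set ℂ) (S : Set (Conf PvPt)) {ω : Conf PvPt} (hω : PvdvFn ω) :
    pvdyQ ε C (fun η => yf (pvkyFl b η)) (pvkyFl b ⁻¹' S) (pvkyFl b ω) = pvdyQ ε C yf S ω := by
  unfold pvdyQ
  simp only [mem_preimage, pvdv_fl_R' b C yf hω]
  exact pvdv_measure_equiv (pvdvT b) (pvdv_T_map b ε) {p | pvdyR C yf ω p ∈ S}

theorem pvdv_W_fl (b : Bool) (ε : ℝ) (C : Set ℂ) (yf : Conf PvPt → Set ℂ) (S : Set (Conf PvPt)) {ω : Conf PvPt} (hω : PvdvFn ω) :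
    pvdyW ε C (fun η => yf (pvkyFl b η)) (pvkyFl b ⁻¹' S) (pvkyFl b ω) = pvdyW ε C yf S ω := by
  unfold pvdyW
  rw [pvdv_Q_fl b ε C yf S hω]
  congr 1
  by_cases h : ω ∈ S
  · rw [indicator_of_mem h, indicator_of_mem (show pvkyFl b ω ∈ pvkyFl b ⁻¹' S by rw [mem_preimage, pvky_fl_fl]; exact h)]
    rfl
  · rw [indicator_of_notMem h, indicator_of_notMem (show pvkyFl b ω ∉ pvkyFl b ⁻¹' S by rw [mem_preimage, pvky_fl_fl]; exact h)]

/-- the stopping property is covariant -/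
theorem pvdv_stop_fl (b : Bool) {yf : Conf PvPt → Set ℂ} (h : PvdyStop yf) : PvdyStop fun η => yf (pvkyFl b η) := by
  refine ⟨fun Y σ hne => ?_⟩
  simp only [pvdv_fl_cfOf] at hne ⊢
  obtain ⟨S, hS, hS'⟩ := h.wit Y (pvdvNb b σ) hne
  refine ⟨S, hS, fun σ' hσ' => hS' (pvdvNb b σ') fun z hz => ?_⟩
  unfold pvdvNb
  rw [hσ' z hz]

end flip

/-! ## 3. isometries -/

section iso

variable (g : ℂ ≃ᵢ ℂ)

theorem pvdv_mem_image {g : ℂ ≃ᵢ ℂ} {S : Set ℂ} {x : ℂ} : x ∈ g '' S ↔ g.symm x ∈ S := by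
  constructor
  · rintro ⟨y, hy, rfl⟩
    rwa [g.symm_apply_apply]
  · intro h
    exact ⟨_, h, g.apply_symm_apply x⟩

theorem pvdv_mem_map {g : ℂ ≃ᵢ ℂ} {η : Conf PvPt} {p : PvPt} : p ∈ (cfMap g η).pts ↔ (g.symm p.1, p.2) ∈ η.pts := by
  simp only [cfMap, Conf.image, mem_image]
  constructor
  · rintro ⟨q, hq, rfl⟩
    simpa only [Prod.map_fst, Prod.map_snd, g.symm_apply_apply, id] using hq
  · intro h
    exact ⟨_, h, Prod.ext (g.apply_symm_apply p.1) rfl⟩

theorem pvdv_map_symm_map (η : Conf PvPt) : cfMap g.symm (cfMap g η) = η := by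
  ext p
  rw [pvdv_mem_map, pvdv_mem_map]
  simp only [IsometryEquiv.symm_symm, g.symm_apply_apply]

theorem pvdv_map_map_symm (η : Conf PvPt) : cfMap g (cfMap g.symm η) = η := by
  have := pvdv_map_symm_map g.symm η
  rwa [IsometryEquiv.symm_symm] at this

theorem pvdv_sites_map (η : Conf PvPt) : cfSites (cfMap g η) = g '' cfSites η := by
  ext z
  rw [pvdv_mem_image]
  simp only [cfSites, mem_image]
  constructor
  · rintro ⟨p, hp, rfl⟩
    exact ⟨_, pvdv_mem_map.1 hp, rfl⟩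
  · rintro ⟨p, hp, hz⟩
    refine ⟨(z, p.2), pvdv_mem_map.2 ?_, rfl⟩
    show (g.symm z, p.2) ∈ η.pts
    rw [← hz]
    exact hp

theorem pvdv_col_map (η : Conf PvPt) (z : ℂ) : cfCol (cfMap g η) z = cfCol η (g.symm z) := by
  classical
  unfold cfCol
  exact decide_eq_decide.2 pvdv_mem_map

theorem pvdv_map_cfOf (Y : Set ℂ) (σ : ℂ → Bool) : cfMap g (cfOf Y σ) = cfOf (g '' Y) (σ ∘ g.symm) := by
  ext p
  rw [pvdv_mem_map]
  simp only [cfOf, mem_ofPred_eq, pvdv_mem_image, Function.comp]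

/-- the isometry on the configurations -/
noncomputable def pvdvM : Conf PvPt ≃ᵐ Conf PvPt where
  toFun := cfMap g
  invFun := cfMap g.symm
  left_inv := pvdv_map_symm_map g
  right_inv := pvdv_map_map_symm g
  measurable_toFun := measurable_cfMap g.continuous.measurable
  measurable_invFun := measurable_cfMap g.symm.continuous.measurable

/-- the isometry on the seeds -/
noncomputable def pvdvG : ((ℂ → Bool) × Conf PvPt) ≃ᵐ ((ℂ → Bool) × Conf PvPt) where
  toFun x := (x.1 ∘ g.symm, cfMap g x.2)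
  invFun x := (x.1 ∘ g, cfMap g.symm x.2)
  left_inv x := by
    refine Prod.ext ?_ (pvdv_map_symm_map g x.2)
    funext z
    simp only [Function.comp, g.symm_apply_apply]
  right_inv x := by
    refine Prod.ext ?_ (pvdv_map_map_symm g x.2)
    funext z
    simp only [Function.comp, g.apply_symm_apply]
  measurable_toFun := (measurable_pi_lambda _ fun z => (measurable_pi_apply (g.symm z)).comp measurable_fst).prodMk ((measurable_cfMap g.continuous.measurable).comp measurable_snd)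
  measurable_invFun := (measurable_pi_lambda _ fun z => (measurable_pi_apply (g z)).comp measurable_fst).prodMk ((measurable_cfMap g.symm.continuous.measurable).comp measurable_snd)

theorem pvdv_eqns_cite2 : True := by
  have := @pvdvM.eq_1; have := @pvdvG.eq_1; have := @PvdvFn.eq_1
  trivial

theorem pvdv_G_apply (x : (ℂ → Bool) × Conf PvPt) : pvdvG g x = (x.1 ∘ g.symm, cfMap g x.2) := rfl

theorem pvdv_G_map (ε : ℝ) : (pvdyNu ε).map (pvdvG g) = pvdyNu ε := by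
  have := (pv_isPpp ε).prob
  have e : (pvdvG g : (ℂ → Bool) × Conf PvPt → (ℂ → Bool) × Conf PvPt) = Prod.map (fun s : ℂ → Bool => s ∘ g.symm) (cfMap g) := rfl
  have m1 : Measurable fun s : ℂ → Bool => s ∘ g.symm := measurable_pi_lambda _ fun z => measurable_pi_apply (g.symm z)
  unfold pvdyNu
  rw [e, ← Measure.map_prod_map _ _ m1 (measurable_cfMap g.continuous.measurable), pvf_colLaw_comp _ g.symm.injective, pvP_isometry]

/-- **THE ISOMETRIES COMMUTE WITH THE HYBRID RESAMPLING** -/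
theorem pvdv_map_R (C : Set ℂ) (yf : Conf PvPt → Set ℂ) (ω : Conf PvPt) (p : (ℂ → Bool) × Conf PvPt) :
    cfMap g (pvdyR C yf ω p) = pvdyR (g '' C) (fun η => g '' yf (cfMap g.symm η)) (cfMap g ω) (pvdvG g p) := by
  ext x
  rw [pvdv_mem_map, pvdy_mem_R, pvdy_mem_R, pvdv_G_apply, pvdv_sites_map, pvdv_map_symm_map]
  simp only [pvdv_mem_image, pvdv_mem_map]
  refine or_congr_left (and_congr_right fun _ => and_congr_right fun _ => ?_)
  have e : pvfqMix (g '' yf ω) (p.1 ∘ g.symm, cfCol (cfMap g ω)) x.1 = pvfqMix (yf ω) (p.1, cfCol ω) (g.symm x.1) := by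
    by_cases h : g.symm x.1 ∈ yf ω
    · rw [pvfqMix_of_mem h, pvfqMix_of_mem (pvdv_mem_image.2 h)]
      rfl
    · rw [pvfqMix_of_notMem h, pvfqMix_of_notMem fun hh => h (pvdv_mem_image.1 hh)]
      exact pvdv_col_map g ω x.1
  rw [e]

/-- the same, pulled back -/
theorem pvdv_map_R' (C : Set ℂ) (yf : Conf PvPt → Set ℂ) (ω : Conf PvPt) (p : (ℂ → Bool) × Conf PvPt) :
    cfMap g.symm (pvdyR (g '' C) (fun η => g '' yf (cfMap g.symm η)) (cfMap g ω) (pvdvG g p)) = pvdyR C yf ω p := by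
  rw [← pvdv_map_R, pvdv_map_symm_map]

/-- lower integrals of ANY function along the experiment -/
theorem pvdv_lintegral_map (ε : ℝ) (C : Set ℂ) (yf : Conf PvPt → Set ℂ) (ω : Conf PvPt) (F : Conf PvPt → ℝ≥0∞) :
    ∫⁻ p, F (cfMap g.symm (pvdyR (g '' C) (fun η => g '' yf (cfMap g.symm η)) (cfMap g ω) p)) ∂pvdyNu ε = ∫⁻ p, F (pvdyR C yf ω p) ∂pvdyNu ε := by
  rw [← pvdv_lintegral_equiv (pvdvG g) (pvdv_G_map g ε)]
  simp_rw [pvdv_map_R']

/-- **`ŷ` IS COVARIANT UNDER THE ISOMETRIES** -/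
theorem pvdv_hat_map (ε : ℝ) (C : Set ℂ) (yf : Conf PvPt → Set ℂ) (w : Conf PvPt → ℝ≥0∞) (Y : Conf PvPt → ℂ) (ω : Conf PvPt) :
    pvdyHat ε (g '' C) (fun η => g '' yf (cfMap g.symm η)) (fun η => w (cfMap g.symm η)) (fun η => Y (cfMap g.symm η)) (cfMap g ω) = pvdyHat ε C yf w Y ω := by
  rw [pvdy_hat_eq, pvdy_hat_eq, ← pvdv_integral_equiv (pvdvG g) (pvdv_G_map g ε)]
  simp_rw [pvdv_map_R']

theorem pvdv_Q_map (ε : ℝ) (C : Set ℂ) (yf : Conf PvPt → Set ℂ) (S : Set (Conf PvPt)) (ω : Conf PvPt) :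
    pvdyQ ε (g '' C) (fun η => g '' yf (cfMap g.symm η)) (cfMap g.symm ⁻¹' S) (cfMap g ω) = pvdyQ ε C yf S ω := by
  unfold pvdyQ
  rw [← pvdv_measure_equiv (pvdvG g) (pvdv_G_map g ε)]
  simp only [mem_preimage, mem_ofPred_eq, pvdv_map_R']

theorem pvdv_W_map (ε : ℝ) (C : Set ℂ) (yf : Conf PvPt → Set ℂ) (S : Set (Conf PvPt)) (ω : Conf PvPt) :
    pvdyW ε (g '' C) (fun η => g '' yf (cfMap g.symm η)) (cfMap g.symm ⁻¹' S) (cfMap g ω) = pvdyW ε C yf S ω := by
  unfold pvdyW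
  rw [pvdv_Q_map g ε C yf S ω]
  congr 1
  by_cases h : ω ∈ S
  · rw [indicator_of_mem h, indicator_of_mem (show cfMap g ω ∈ cfMap g.symm ⁻¹' S by rw [mem_preimage, pvdv_map_symm_map]; exact h)]
    rfl
  · rw [indicator_of_notMem h, indicator_of_notMem (show cfMap g ω ∉ cfMap g.symm ⁻¹' S by rw [mem_preimage, pvdv_map_symm_map]; exact h)]

/-- the stopping property is covariant -/
theorem pvdv_stop_map {yf : Conf PvPt → Set ℂ} (h : PvdyStop yf) : PvdyStop fun η => g '' yf (cfMap g.symm η) := by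
  classical
  refine ⟨fun Y σ hne => ?_⟩
  have e0 : ∀ σ' : ℂ → Bool, cfMap g.symm (cfOf Y σ') = cfOf (g.symm '' Y) (σ' ∘ g) := fun σ' => by
    have := pvdv_map_cfOf g.symm Y σ'
    rwa [IsometryEquiv.symm_symm] at this
  have e1 : ∀ σ' : ℂ → Bool, Y ∩ g '' yf (cfMap g.symm (cfOf Y σ')) = g '' (g.symm '' Y ∩ yf (cfOf (g.symm '' Y) (σ' ∘ g))) := fun σ' => by
    rw [e0]
    ext z
    simp only [mem_inter_iff, pvdv_mem_image, IsometryEquiv.symm_symm, g.apply_symm_apply]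
  have hne' : (g.symm '' Y ∩ yf (cfOf (g.symm '' Y) (σ ∘ g))).Nonempty := by
    rw [e1] at hne
    exact hne.of_image
  obtain ⟨S, hS, hS'⟩ := h.wit _ _ hne'
  refine ⟨S.image g, ?_, fun σ' hσ' => ?_⟩
  · intro z hz
    rw [Finset.coe_image] at hz
    obtain ⟨y, hy, rfl⟩ := hz
    obtain ⟨h1, h2⟩ := hS hy
    refine ⟨?_, fun hh => h2 ?_⟩
    · have := pvdv_mem_image.1 h1
      rwa [IsometryEquiv.symm_symm] at this
    · rw [e0] at hh
      have := pvdv_mem_image.1 hh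
      rwa [g.symm_apply_apply] at this
  · rw [e1, e1, hS' (σ' ∘ g) fun z hz => hσ' (g z) (Finset.mem_image_of_mem g hz)]

end iso

/-! ### the frames -/

/-- the frame `w ↦ z + d w`, `‖d‖ = 1`, as an isometry -/
noncomputable def pvdvSim (z d : ℂ) (hd : ‖d‖ = 1) : ℂ ≃ᵢ ℂ where
  toFun := pvthSim z d
  invFun := pvthInv z d
  left_inv w := by
    have d0 : d ≠ 0 := fun h => by rw [h, norm_zero] at hd; exact zero_ne_one hd
    unfold pvthSim pvthInv
    field_simp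
    ring
  right_inv w := by
    have d0 : d ≠ 0 := fun h => by rw [h, norm_zero] at hd; exact zero_ne_one hd
    unfold pvthSim pvthInv
    field_simp
    ring
  isometry_toFun := Isometry.of_dist_eq fun a b => by
    unfold pvthSim
    rw [dist_eq_norm, dist_eq_norm, show z + d * a - (z + d * b) = d * (a - b) by ring, norm_mul, hd, one_mul]

theorem pvdv_sim_coe (z d : ℂ) (hd : ‖d‖ = 1) : ⇑(pvdvSim z d hd) = pvthSim z d := rfl

theorem pvdv_sim_symm_coe (z d : ℂ) (hd : ‖d‖ = 1) : ⇑(pvdvSim z d hd).symm = pvthInv z d := rfl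

/-- **`ŷ` in the frame `(z, d)`**, in the names of the kit (`pvthSim`, `pvthInv`) -/
theorem pvdv_hat_sim (z d : ℂ) (hd : ‖d‖ = 1) (ε : ℝ) (C : Set ℂ) (yf : Conf PvPt → Set ℂ) (w : Conf PvPt → ℝ≥0∞) (Y : Conf PvPt → ℂ) (ω : Conf PvPt) :
    pvdyHat ε (pvthSim z d '' C) (fun η => pvthSim z d '' yf (cfMap (pvthInv z d) η)) (fun η => w (cfMap (pvthInv z d) η)) (fun η => Y (cfMap (pvthInv z d) η)) (cfMap (pvthSim z d) ω)
      = pvdyHat ε C yf w Y ω :=
  pvdv_hat_map (pvdvSim z d hd) ε C yf w Y ω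

theorem pvdv_eqns_cite3 : True := by
  have := @pvdvSim.eq_1
  trivial

end Claimed.Agent.R289
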