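-- KEEP
import Claimed.Agent.R289.S1P.Cov
import Claimed.Agent.R289.Tr.Defs
import Claimed.Agent.R289.Del.Bulk

/-!
# Row 289 (S0537), THE WALL, ROAD E, file Tr/InvIso : TRANSPORT OF THE VOCABULARY OF `Tr/Defs` (v3) ALONG AN ISOMORPHISM OF DART STRUCTURES; THE DELAUNAY ISOMORPHISM OF A SIMILARITY      (helper246, node PvieInv of RULING 16 of 234; prefix `pviq`, `Pviq`)

`PvIso T T'` = the record of 107 (`S1P/Cov`).      HERE: everything a state of `Tr/Defs` is made of travels along `I : PvIso T T'`.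
* sec. 1  corresponding sets `PviqS` (darts), `PviqV` (vertices);  `Edg DStep DJoin Bd BdV VOf Star FaceSet`;  the inverse `pviqInv`
* sec. 2  paths `pviqPth`, circuits `pviqCyc` (`darts verts Left`), strands (`pvasBW pvasStep pvasBack pvasIt`), loop erasure, masses
* sec. 3  THE RULE `pvgnRule` (`PvgnG pvgnMin pvgnHull`)
* sec. 4  states: `pviqSt`;  frozen sets, tips;  **`pviq_gate pviq_inmost pviq_stubP pviq_stubM pviq_goodOut pviq_goodIn pviq_atOut pviq_atIn pviq_at`** when the positions differ by a TRANSLATION `pos' (fV v) = pos v + c` and the colours agree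
THE DELAUNAY ISOMORPHISM of a similarity = `pvcoIso` of 251 (`Tr/FrameIso`; his sec. 1 = the image form of sec. 1-3 here).      ROTATIONS: `Gate.ori` and the centres `yp ym` are frame dependent: a rotated plug is READ IN ITS FRAME (R18 (2) of 234), where the image positions differ from the old ones by a translation.
-/

set_option autoImplicit false

namespace Claimed.Agent.R289

open Set Relation

variable {V D V' D' : Type} {T : PvMap V D} {T' : PvMap V' D'}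

/-! ## 1. corresponding sets -/

/-- corresponding sets of darts -/
def PviqS (I : PvIso T T') (A : Set D) (A' : Set D') : Prop := ∀ d, I.fD d ∈ A' ↔ d ∈ A

/-- corresponding sets of vertices -/
def PviqV (I : PvIso T T') (X : Set V) (X' : Set V') : Prop := ∀ v, I.fV v ∈ X' ↔ v ∈ X

/-- the inverse isomorphism -/
def pviqInv (I : PvIso T T') : PvIso T' T where
  fV := I.fV.symm
  fD := I.fD.symm
  src d := by apply I.fV.injective; rw [Equiv.apply_symm_apply, ← I.src, Equiv.apply_symm_apply]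
  nxt d := by apply I.fD.injective; rw [Equiv.apply_symm_apply, ← I.nxt, Equiv.apply_symm_apply]
  opp d := by apply I.fD.injective; rw [Equiv.apply_symm_apply, ← I.opp, Equiv.apply_symm_apply]

theorem pviq_eqns_cite : True := by
  have := @PviqS.eq_1; have := @PviqV.eq_1; have := @pviqInv.eq_1
  trivial

section sets

variable (I : PvIso T T')

theorem pviq_s_image {A : Set D} {A' : Set D'} (h : PviqS I A A') : A' = I.fD '' A := by
  ext d'
  obtain ⟨d, rfl⟩ := I.fD.surjective d'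
  rw [h d, I.fD.injective.mem_set_image]

theorem pviq_v_image {X : Set V} {X' : Set V'} (h : PviqV I X X') : X' = I.fV '' X := by
  ext v'
  obtain ⟨v, rfl⟩ := I.fV.surjective v'
  rw [h v, I.fV.injective.mem_set_image]

theorem pviq_s_of_image (A : Set D) : PviqS I A (I.fD '' A) := fun _ => I.fD.injective.mem_set_image

theorem pviq_v_of_image (X : Set V) : PviqV I X (I.fV '' X) := fun _ => I.fV.injective.mem_set_image

theorem pviq_s_pre (A' : Set D') : PviqS I (I.fD ⁻¹' A') A' := fun _ => Iff.rfl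

theorem pviq_s_eq {A B : Set D} {A' B' : Set D'} (hA : PviqS I A A') (hB : PviqS I B B') : A' = B' ↔ A = B := by
  rw [pviq_s_image I hA, pviq_s_image I hB]
  exact I.fD.injective.image_injective.eq_iff

theorem pviq_s_sub {A B : Set D} {A' B' : Set D'} (hA : PviqS I A A') (hB : PviqS I B B') : A' ⊆ B' ↔ A ⊆ B := by
  rw [pviq_s_image I hA, pviq_s_image I hB]
  exact image_subset_image_iff I.fD.injective

theorem pviq_s_compl {A : Set D} {A' : Set D'} (hA : PviqS I A A') : PviqS I Aᶜ A'ᶜ := fun d => not_congr (hA d)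

theorem pviq_s_fin {A : Set D} {A' : Set D'} (hA : PviqS I A A') (h : A.Finite) : A'.Finite := by
  rw [pviq_s_image I hA]; exact h.image _

theorem pviq_v_fin {X : Set V} {X' : Set V'} (hX : PviqV I X X') (h : X.Finite) : X'.Finite := by
  rw [pviq_v_image I hX]; exact h.image _

theorem pviq_edg {Z : Set D} {Z' : Set D'} (hZ : PviqS I Z Z') (d : D) : T'.Edg Z' (I.fD d) ↔ T.Edg Z d := by
  unfold PvMap.Edg; rw [I.opp, hZ, hZ]

theorem pviq_dstep {Z : Set D} {Z' : Set D'} (hZ : PviqS I Z Z') (a b : D) : T'.DStep Z' (I.fD a) (I.fD b) ↔ T.DStep Z a b := by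
  unfold PvMap.DStep; rw [I.nxt, I.opp, pviq_edg I hZ]; simp only [EmbeddingLike.apply_eq_iff_eq]

theorem pviq_djoin {Z : Set D} {Z' : Set D'} (hZ : PviqS I Z Z') (a b : D) : T'.DJoin Z' (I.fD a) (I.fD b) ↔ T.DJoin Z a b :=
  pvcv_rtg I.fD (pviq_dstep I hZ) a b

theorem pviq_bd {A : Set D} {A' : Set D'} (hA : PviqS I A A') (d : D) : T'.Bd A' (I.fD d) ↔ T.Bd A d := by
  unfold PvMap.Bd; rw [I.opp, hA, hA]

theorem pviq_bd_set {A : Set D} {A' : Set D'} (hA : PviqS I A A') : PviqS I {e | T.Bd A e} {e | T'.Bd A' e} := fun d => pviq_bd I hA d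

theorem pviq_bdv {A : Set D} {A' : Set D'} (hA : PviqS I A A') : PviqV I (T.BdV A) (T'.BdV A') := by
  intro v
  constructor
  · rintro ⟨d', h1, h2⟩
    obtain ⟨d, rfl⟩ := I.fD.surjective d'
    exact ⟨d, I.fV.injective (by rw [← I.src, h1]), (pviq_bd I hA d).1 h2⟩
  · rintro ⟨d, h1, h2⟩
    exact ⟨I.fD d, by rw [I.src, h1], (pviq_bd I hA d).2 h2⟩

theorem pviq_vof {A : Set D} {A' : Set D'} (hA : PviqS I A A') : PviqV I (T.VOf A) (T'.VOf A') := by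
  intro v
  constructor
  · rintro ⟨d', h1, h2⟩
    obtain ⟨d, rfl⟩ := I.fD.surjective d'
    exact ⟨d, (hA d).1 h1, I.fV.injective (by rw [← I.src, h2])⟩
  · rintro ⟨d, h1, h2⟩
    exact ⟨I.fD d, (hA d).2 h1, by rw [I.src, h2]⟩

theorem pviq_star {X : Set V} {X' : Set V'} (hX : PviqV I X X') : PviqS I (T.Star X) (T'.Star X') := by
  intro d
  unfold PvMap.Star
  simp only [mem_setOf_eq]
  rw [I.src, I.tgt, I.apex, hX, hX, hX]

theorem pviq_faceSet {A : Set D} {A' : Set D'} (hA : PviqS I A A') : T'.FaceSet A' ↔ T.FaceSet A := by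
  unfold PvMap.FaceSet
  constructor
  · intro h d
    rw [← hA, ← hA, ← I.nxt]
    exact h _
  · intro h d'
    obtain ⟨d, rfl⟩ := I.fD.surjective d'
    rw [I.nxt, hA, hA]
    exact h d

end sets

/-! ## 2. paths, circuits, strands, loop erasure, masses -/

/-- the image of a path -/
def pviqPth (I : PvIso T T') (p : T.Pth) : T'.Pth where
  n := p.n
  v k := I.fV (p.v k)
  e k := I.fD (p.e k)
  src_e i hi := by rw [I.src, p.src_e i hi]
  tgt_e i hi := by rw [I.tgt, p.tgt_e i hi]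
  inj i j hi hj h := p.inj i j hi hj (I.fV.injective h)

/-- the image of a circuit -/
def pviqCyc (I : PvIso T T') (c : T.Cyc) : T'.Cyc where
  n := c.n
  e k := I.fD (c.e k)
  three := c.three
  per i := by rw [c.per i]
  chain i := by rw [I.tgt, I.src, c.chain i]
  inj i j hi hj h := c.inj i j hi hj (I.fV.injective (by rw [← I.src, ← I.src, h]))

theorem pviq_eqns_cite2 : True := by
  have := @pviqPth.eq_1; have := @pviqCyc.eq_1
  trivial

section paths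

variable (I : PvIso T T')

theorem pviq_pth_verts (p : T.Pth) : PviqV I p.verts (pviqPth I p).verts := by
  intro v
  constructor
  · rintro ⟨i, hi, h⟩
    exact ⟨i, hi, I.fV.injective h⟩
  · rintro ⟨i, hi, rfl⟩
    exact ⟨i, hi, rfl⟩

theorem pviq_cyc_darts (c : T.Cyc) : PviqS I c.darts (pviqCyc I c).darts := by
  intro d
  constructor
  · rintro ⟨i, h⟩
    exact ⟨i, I.fD.injective h⟩
  · rintro ⟨i, rfl⟩
    exact ⟨i, rfl⟩

theorem pviq_cyc_verts (c : T.Cyc) : PviqV I c.verts (pviqCyc I c).verts := by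
  intro v
  constructor
  · rintro ⟨i, h⟩
    exact ⟨i, I.fV.injective (by rw [← I.src]; exact h)⟩
  · rintro ⟨i, rfl⟩
    exact ⟨i, I.src _⟩

theorem pviq_cyc_left (c : T.Cyc) : PviqS I c.Left (pviqCyc I c).Left := fun d => pviq_djoin I (pviq_cyc_darts I c) (c.e 0) d

variable {s : V → Bool} {s' : V' → Bool}

theorem pviq_bw (hs : ∀ v, s' (I.fV v) = s v) (d : D) : pvasBW T' s' (I.fD d) ↔ pvasBW T s d := by
  unfold pvasBW; rw [I.src, I.tgt, hs, hs]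

theorem pviq_step (hs : ∀ v, s' (I.fV v) = s v) (d : D) : pvasStep T' s' (I.fD d) = I.fD (pvasStep T s d) := by
  unfold pvasStep
  rw [I.apex, hs, I.nxt, I.nxt, I.opp, I.opp]
  split_ifs <;> rfl

theorem pviq_back (hs : ∀ v, s' (I.fV v) = s v) (d : D) : pvasBack T' s' (I.fD d) = I.fD (pvasBack T s d) := by
  unfold pvasBack
  rw [I.opp, I.apex, hs, I.nxt, I.nxt]
  split_ifs <;> rfl

theorem pviq_it (hs : ∀ v, s' (I.fV v) = s v) (d : D) (n : ℕ) : pvasIt T' s' (I.fD d) n = I.fD (pvasIt T s d n) := by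
  unfold pvasIt
  induction n with
  | zero => rfl
  | succ n ih => rw [Function.iterate_succ_apply', Function.iterate_succ_apply', ih, pviq_step I hs]

theorem pviq_back_it (hs : ∀ v, s' (I.fV v) = s v) (d : D) (n : ℕ) : (pvasBack T' s')^[n] (I.fD d) = I.fD ((pvasBack T s)^[n] d) := by
  induction n with
  | zero => rfl
  | succ n ih => rw [Function.iterate_succ_apply', Function.iterate_succ_apply', ih, pviq_back I hs]

/-- loop erasures travel -/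
theorem pviq_le {b : ℕ → V} {b' : ℕ → V'} (hb : ∀ i, b' i = I.fV (b i)) {n : ℕ} {y : T.Pth} (h : PvwLE T b n y) : PvwLE T' b' n (pviqPth I y) := by
  obtain ⟨j, h0, hn, h1, h2⟩ := h
  refine ⟨j, ?_, hn, fun k hk => ?_, fun k hk => ?_⟩
  · show I.fV (y.v 0) = b' 0
    rw [h0, hb]
  · obtain ⟨a1, a2, a3⟩ := h1 k hk
    refine ⟨a1, ?_, fun i hi hin he => a3 i hi hin ?_⟩
    · show I.fV (y.v k) = b' (j k)
      rw [a2, hb]
    · rw [hb, hb] at he
      exact I.fV.injective he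
  · show I.fV (y.v (k + 1)) = b' (j k + 1)
    rw [h2 k hk, hb]

/-- masses travel: the weights are multiplied by `u`, the barycentres keep their side of the mask -/
theorem pviq_mass {pos : V → ℂ} {pos' : V' → ℂ} {w : D → ℂ} {w' : D' → ℂ} {K K' : Set ℂ} {u : ℂ} (hw : ∀ d, w' (I.fD d) = u * w d)
    (hK : ∀ d, T'.bary pos' (I.fD d) ∈ K' ↔ T.bary pos d ∈ K) (p : T.Pth) (i j : ℕ) :
    pvwMass T' pos' w' K' (pviqPth I p) i j = u * pvwMass T pos w K p i j := by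
  classical
  unfold pvwMass
  rw [Finset.mul_sum]
  refine Finset.sum_congr rfl fun k _ => ?_
  show (if T'.bary pos' (T'.opp (I.fD (p.e k))) ∈ K' then w' (T'.opp (I.fD (p.e k))) else 0) = _
  rw [I.opp, hw]
  by_cases h : T.bary pos (T.opp (p.e k)) ∈ K
  · rw [if_pos h, if_pos ((hK _).2 h)]
  · rw [if_neg h, if_neg fun h' => h ((hK _).1 h'), mul_zero]

end paths

/-! ## 3. the rule -/

section rule

variable (I : PvIso T T') {s : V → Bool} {s' : V' → Bool}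

theorem pviq_X (hs : ∀ v, s' (I.fV v) = s v) {G : Set D} {G' : Set D'} (hG : PviqS I G G') : PviqV I (pvgnX T s G) (pvgnX T' s' G') := by
  intro v
  unfold pvgnX
  simp only [mem_setOf_eq]
  rw [pviq_bdv I hG v, hs]

theorem pviq_G (hs : ∀ v, s' (I.fV v) = s v) {A O G : Set D} {A' O' G' : Set D'} (hA : PviqS I A A') (hO : PviqS I O O') (hG : PviqS I G G') :
    PvgnG T' s' A' O' G' ↔ PvgnG T s A O G := by
  have e : (pvgnX T' s' G').encard = (pvgnX T s G).encard := by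
    rw [pviq_v_image I (pviq_X I hs hG)]
    exact I.fV.injective.encard_image _
  constructor
  · intro h
    refine ⟨(pviq_faceSet I hG).1 h.face, (pviq_s_sub I hA hG).1 h.inner, (pviq_s_sub I hG hO).1 h.outer, e ▸ h.two, fun d hd => ?_⟩
    have := h.nobb (I.fD d) ((pviq_bd I hG d).2 hd)
    rwa [I.src, I.tgt, hs, hs] at this
  · intro h
    refine ⟨(pviq_faceSet I hG).2 h.face, (pviq_s_sub I hA hG).2 h.inner, (pviq_s_sub I hG hO).2 h.outer, e ▸ h.two, fun d' hd => ?_⟩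
    obtain ⟨d, rfl⟩ := I.fD.surjective d'
    rw [I.src, I.tgt, hs, hs]
    exact h.nobb d ((pviq_bd I hG d).1 hd)

theorem pviq_min (hs : ∀ v, s' (I.fV v) = s v) {A O : Set D} {A' O' : Set D'} (hA : PviqS I A A') (hO : PviqS I O O') : PviqS I (pvgnMin T s A O) (pvgnMin T' s' A' O') := by
  intro d
  constructor
  · intro h G hG
    exact (pviq_s_of_image I G d).1 (h _ ((pviq_G I hs hA hO (pviq_s_of_image I G)).2 hG))
  · intro h G' hG'
    exact h _ ((pviq_G I hs hA hO (pviq_s_pre I G')).1 hG')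

theorem pviq_hull (hs : ∀ v, s' (I.fV v) = s v) {A O : Set D} {A' O' : Set D'} (hA : PviqS I A A') (hO : PviqS I O O') (o : D) :
    PviqS I (pvgnHull T s A O o) (pvgnHull T' s' A' O' (I.fD o)) := fun d =>
  not_congr (pviq_djoin I (pviq_bd_set I (pviq_min I hs hA hO)) o d)

theorem pviq_rule (hs : ∀ v, s' (I.fV v) = s v) {A O : Set D} {A' O' : Set D'} (hA : PviqS I A A') (hO : PviqS I O O') : PviqS I (pvgnRule T s A O) (pvgnRule T' s' A' O') := by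
  intro d
  constructor
  · intro h o ho
    exact (pviq_hull I hs hA hO o d).1 (h (I.fD o) fun h' => ho ((hO o).1 h'))
  · intro h o' ho'
    obtain ⟨o, rfl⟩ := I.fD.surjective o'
    exact (pviq_hull I hs hA hO o d).2 (h o fun h' => ho' ((hO o).2 h'))

end rule

/-! ## 4. states -/

/-- the image of a state -/
def pviqSt (I : PvIso T T') (𝔖 : PvwSt T) : PvwSt T' where
  dsc := I.fV.symm ⁻¹' 𝔖.dsc
  S := pviqCyc I 𝔖.S
  dp := I.fD 𝔖.dp
  dm := I.fD 𝔖.dm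
  inn := pviqPth I 𝔖.inn
  ip := 𝔖.ip
  np := 𝔖.np
  ep i := I.fD (𝔖.ep i)
  nm := 𝔖.nm
  em i := I.fD (𝔖.em i)

theorem pviq_eqns_cite3 : True := by
  have := @pviqSt.eq_1
  trivial

section states

variable (I : PvIso T T') (𝔖 : PvwSt T)

theorem pviq_v_union {X Y : Set V} {X' Y' : Set V'} (hX : PviqV I X X') (hY : PviqV I Y Y') : PviqV I (X ∪ Y) (X' ∪ Y') := fun v => or_congr (hX v) (hY v)

theorem pviq_st_dsc : PviqV I 𝔖.dsc (pviqSt I 𝔖).dsc := fun v => by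
  show I.fV.symm (I.fV v) ∈ 𝔖.dsc ↔ _
  rw [Equiv.symm_apply_apply]

theorem pviq_st_core : PviqV I 𝔖.core (pviqSt I 𝔖).core := pviq_st_dsc I 𝔖

theorem pviq_st_left : PviqS I 𝔖.S.Left (pviqSt I 𝔖).S.Left := pviq_cyc_left I 𝔖.S

theorem pviq_st_ins : PviqV I 𝔖.ins (pviqSt I 𝔖).ins := pviq_vof I (pviq_cyc_left I 𝔖.S)

theorem pviq_st_gp : (pviqSt I 𝔖).gp = I.fV 𝔖.gp := I.src _

theorem pviq_st_gm : (pviqSt I 𝔖).gm = I.fV 𝔖.gm := I.src _

theorem pviq_st_ap : (pviqSt I 𝔖).ap = I.fV 𝔖.ap := I.apex _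

theorem pviq_st_am : (pviqSt I 𝔖).am = I.fV 𝔖.am := by
  show T'.apex (T'.opp (I.fD _)) = _
  rw [I.opp, I.apex]; rfl

theorem pviq_fam_src (n : ℕ) (e : ℕ → D) : PviqV I {v | ∃ i, i ≤ n ∧ T.src (e i) = v} {v | ∃ i, i ≤ n ∧ T'.src (I.fD (e i)) = v} := by
  intro v
  constructor
  · rintro ⟨i, hi, h⟩
    exact ⟨i, hi, I.fV.injective (by rw [← I.src, h])⟩
  · rintro ⟨i, hi, rfl⟩
    exact ⟨i, hi, I.src _⟩

theorem pviq_fam_tgt (n : ℕ) (e : ℕ → D) : PviqV I {v | ∃ i, i ≤ n ∧ T.tgt (e i) = v} {v | ∃ i, i ≤ n ∧ T'.tgt (I.fD (e i)) = v} := by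
  intro v
  constructor
  · rintro ⟨i, hi, h⟩
    exact ⟨i, hi, I.fV.injective (by rw [← I.tgt, h])⟩
  · rintro ⟨i, hi, rfl⟩
    exact ⟨i, hi, I.tgt _⟩

theorem pviq_st_bkP : PviqV I 𝔖.bkP (pviqSt I 𝔖).bkP := pviq_fam_src I 𝔖.np 𝔖.ep
theorem pviq_st_whP : PviqV I 𝔖.whP (pviqSt I 𝔖).whP := pviq_fam_tgt I 𝔖.np 𝔖.ep
theorem pviq_st_bkM : PviqV I 𝔖.bkM (pviqSt I 𝔖).bkM := pviq_fam_src I 𝔖.nm 𝔖.em
theorem pviq_st_whM : PviqV I 𝔖.whM (pviqSt I 𝔖).whM := pviq_fam_tgt I 𝔖.nm 𝔖.em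

theorem pviq_st_fzOut : PviqV I 𝔖.fzOut (pviqSt I 𝔖).fzOut := pviq_v_union I (pviq_v_union I (pviq_st_core I 𝔖) (pviq_st_bkP I 𝔖)) (pviq_st_whP I 𝔖)
theorem pviq_st_fzIn : PviqV I 𝔖.fzIn (pviqSt I 𝔖).fzIn := pviq_v_union I (pviq_v_union I (pviq_st_core I 𝔖) (pviq_st_bkM I 𝔖)) (pviq_st_whM I 𝔖)
theorem pviq_st_fz : PviqV I 𝔖.fz (pviqSt I 𝔖).fz := pviq_v_union I (pviq_st_fzOut I 𝔖) (pviq_st_fzIn I 𝔖)

variable {pos : V → ℂ} {pos' : V' → ℂ}

/-- the tips under an affine change of the positions -/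
theorem pviq_st_xp {a b : ℂ} (hp : ∀ v, pos' (I.fV v) = a * pos v + b) : (pviqSt I 𝔖).xp pos' = a * 𝔖.xp pos + b := by
  show (pos' (T'.src (I.fD (𝔖.ep 𝔖.np))) + pos' (T'.tgt (I.fD (𝔖.ep 𝔖.np)))) / 2 = a * ((pos (T.src (𝔖.ep 𝔖.np)) + pos (T.tgt (𝔖.ep 𝔖.np))) / 2) + b
  rw [I.src, I.tgt, hp, hp]; ring

theorem pviq_st_xm {a b : ℂ} (hp : ∀ v, pos' (I.fV v) = a * pos v + b) : (pviqSt I 𝔖).xm pos' = a * 𝔖.xm pos + b := by
  show (pos' (T'.src (I.fD (𝔖.em 𝔖.nm))) + pos' (T'.tgt (I.fD (𝔖.em 𝔖.nm)))) / 2 = a * ((pos (T.src (𝔖.em 𝔖.nm)) + pos (T.tgt (𝔖.em 𝔖.nm))) / 2) + b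
  rw [I.src, I.tgt, hp, hp]; ring

variable {𝔖} {s : V → Bool} {s' : V' → Bool} {c : ℂ} {h : ℝ} {z : ℂ} {τ : PvwTy} {N : PvwNum}

/-- **GATES travel** (positions translated by `c`) -/
theorem pviq_gate (hp : ∀ v, pos' (I.fV v) = pos v + c) (hs : ∀ v, s' (I.fV v) = s v) (hg : 𝔖.Gate pos h z τ s) : (pviqSt I 𝔖).Gate pos' h (z + c) τ s' := by
  have hn : ∀ v, pos' (I.fV v) - (z + c) = pos v - z := fun v => by rw [hp]; ring
  obtain ⟨n, h1, h2, h3⟩ := hg.strand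
  refine ⟨pviq_s_fin I (pviq_st_left I 𝔖) hg.fin, ?_, pviq_v_fin I (pviq_st_core I 𝔖) hg.core_fin, ?_, ?_, ?_, ?_, (pviq_cyc_darts I 𝔖.S _).2 hg.dm_on,
    (pviq_bw I hs _).2 hg.bw_p, (pviq_bw I hs _).2 hg.bw_m, ?_, ?_, ?_, ?_, ⟨n, ?_, ?_, ?_⟩, hg.ip_le, ?_, ?_⟩
  · ext v'
    obtain ⟨v, rfl⟩ := I.fV.surjective v'
    rw [pviq_st_dsc I 𝔖 v, hg.dsc_eq]
    show _ ↔ ‖pos' (I.fV v) - (z + c)‖ < _
    rw [hn]; rfl
  · intro v' hv'
    obtain ⟨v, rfl⟩ := I.fV.surjective v'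
    rw [hn]
    exact hg.ann v ((pviq_cyc_verts I 𝔖.S v).1 hv')
  · intro v' hv'
    obtain ⟨v, rfl⟩ := I.fV.surjective v'
    rw [hn] at hv'
    exact (pviq_st_ins I 𝔖 v).2 (hg.round v hv')
  · intro v' hv'
    obtain ⟨v, rfl⟩ := I.fV.surjective v'
    rw [hn]
    exact hg.inside v ((pviq_st_ins I 𝔖 v).1 hv')
  · show T'.opp (I.fD 𝔖.dp) ∈ _
    rw [I.opp]
    exact (pviq_cyc_darts I 𝔖.S _).2 hg.dp_on
  · rw [pviq_st_gp, pviq_st_gm]
    exact fun e => hg.ne (I.fV.injective e)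
  · rw [pviq_st_gp, pviq_st_gm, hp, hp]
    simp only [Complex.add_re, Complex.add_im, add_lt_add_iff_right, add_left_inj]
    exact hg.ori
  · intro v' hv' hb
    obtain ⟨v, rfl⟩ := I.fV.surjective v'
    rw [hs] at hb
    rw [pviq_st_gp, pviq_st_gm]
    exact (hg.two v ((pviq_cyc_verts I 𝔖.S v).1 hv') hb).imp (congrArg _) (congrArg _)
  · intro d' hd' e
    obtain ⟨d, rfl⟩ := I.fD.surjective d'
    rw [pviq_st_gp, I.src] at e
    rw [I.tgt, hs]
    exact hg.left d ((pviq_cyc_darts I 𝔖.S d).1 hd') (I.fV.injective e)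
  · show pvasIt T' s' (I.fD 𝔖.dm) n = I.fD 𝔖.dp
    rw [pviq_it I hs, h1]
  · intro i hi
    show pvasIt T' s' (I.fD 𝔖.dm) i ∈ _
    rw [pviq_it I hs]
    exact (pviq_st_left I 𝔖 _).2 (h2 i hi)
  · refine pviq_le I (fun i => ?_) h3
    show T'.src (pvasIt T' s' (I.fD 𝔖.dm) i) = _
    rw [pviq_it I hs, I.src]
  · show ‖pos' (I.fV _) - (z + c)‖ ≤ h
    rw [hn]
    exact hg.ip_near
  · intro i hi
    show h < ‖pos' (I.fV _) - (z + c)‖
    rw [hn]
    exact hg.ip_first i hi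

/-- the frames of the gate annulus correspond -/
theorem pviq_I (hp : ∀ v, pos' (I.fV v) = pos v + c) (z : ℂ) (r : ℝ) : PviqS I (pvwI T pos z r) (pvwI T' pos' (z + c) r) :=
  pviq_star I fun v => by
    show ‖pos' (I.fV v) - (z + c)‖ < r ↔ ‖pos v - z‖ < r
    rw [hp, show pos v + c - (z + c) = pos v - z by ring]

theorem pviq_O (hp : ∀ v, pos' (I.fV v) = pos v + c) (z : ℂ) (r : ℝ) : PviqS I (pvwO T pos z r) (pvwO T' pos' (z + c) r) :=
  pviq_s_compl I (pviq_star I fun v => by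
    show r ≤ ‖pos' (I.fV v) - (z + c)‖ ↔ r ≤ ‖pos v - z‖
    rw [hp, show pos v + c - (z + c) = pos v - z by ring])

/-- **THE RULE travels** -/
theorem pviq_inmost (hp : ∀ v, pos' (I.fV v) = pos v + c) (hs : ∀ v, s' (I.fV v) = s v) (hi : 𝔖.Inmost pos h z τ s) : (pviqSt I 𝔖).Inmost pos' h (z + c) τ s' :=
  (pviq_s_eq I (pviq_st_left I 𝔖) (pviq_rule I hs (pviq_I I hp z _) (pviq_O I hp z _))).2 hi

theorem pviq_stubP (hs : ∀ v, s' (I.fV v) = s v) {B B' : Set ℂ} (hB : ∀ v, pos' (I.fV v) ∈ B' ↔ pos v ∈ B) (hb : 𝔖.StubP pos B s) : (pviqSt I 𝔖).StubP pos' B' s' := by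
  refine ⟨fun i hi => ?_, fun i hi => ?_, fun i hi => ?_, ?_⟩
  · show I.fD (𝔖.ep i) = pvasIt T' s' (I.fD 𝔖.dp) i
    rw [pviq_it I hs, hb.ep_it i hi]
  · show pos' (T'.src (I.fD _)) ∈ B' ∧ pos' (T'.tgt (I.fD _)) ∈ B'
    rw [I.src, I.tgt, hB, hB]
    exact hb.ep_in i hi
  · show pos' (T'.apex (I.fD _)) ∈ B'
    rw [I.apex, hB]
    exact hb.ep_ax i hi
  · rw [pviq_st_ap, hB]
    exact hb.ep_out

theorem pviq_stubM (hs : ∀ v, s' (I.fV v) = s v) {B B' : Set ℂ} (hB : ∀ v, pos' (I.fV v) ∈ B' ↔ pos v ∈ B) (hb : 𝔖.StubM pos B s) : (pviqSt I 𝔖).StubM pos' B' s' := by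
  refine ⟨fun i hi => ?_, fun i hi => ?_, fun i hi => ?_, ?_⟩
  · show I.fD (𝔖.em i) = (pvasBack T' s')^[i] (I.fD 𝔖.dm)
    rw [pviq_back_it I hs, hb.em_it i hi]
  · show pos' (T'.src (I.fD _)) ∈ B' ∧ pos' (T'.tgt (I.fD _)) ∈ B'
    rw [I.src, I.tgt, hB, hB]
    exact hb.em_in i hi
  · show pos' (T'.apex (T'.opp (I.fD _))) ∈ B'
    rw [I.opp, I.apex, hB]
    exact hb.em_ax i hi
  · rw [pviq_st_am, hB]
    exact hb.em_out

theorem pviq_sq (hp : ∀ v, pos' (I.fV v) = pos v + c) (z : ℂ) (r : ℝ) (v : V) : pos' (I.fV v) ∈ pvwSq (z + c) r ↔ pos v ∈ pvwSq z r := by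
  unfold pvwSq
  show |(pos' (I.fV v) - (z + c)).re| ≤ r ∧ |(pos' (I.fV v) - (z + c)).im| ≤ r ↔ _
  rw [hp, show pos v + c - (z + c) = pos v - z by ring]; rfl

theorem pviq_goodOut (hp : ∀ v, pos' (I.fV v) = pos v + c) {y : ℂ} (hg : 𝔖.GoodOut pos N h y) : (pviqSt I 𝔖).GoodOut pos' N h (y + c) := by
  have hn : ∀ v, pos' (I.fV v) - (y + c) = pos v - y := fun v => by rw [hp]; ring
  obtain ⟨i₀, a1, a2, a3⟩ := hg.late_p
  refine ⟨?_, ⟨i₀, a1, fun i h1 h2 => ?_, fun i h1 => ?_⟩, fun i hi hc => hg.off_p i hi ((pviq_st_left I 𝔖 _).1 hc)⟩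
  · show ‖pos' (T'.src (I.fD _)) - (y + c)‖ ≤ _ ∧ ‖pos' (T'.tgt (I.fD _)) - (y + c)‖ ≤ _
    rw [I.src, I.tgt, hn, hn]
    exact hg.tip_p
  · show ‖pos' (T'.src (I.fD _)) - (y + c)‖ < _ ∧ ‖pos' (T'.tgt (I.fD _)) - (y + c)‖ < _
    rw [I.src, I.tgt, hn, hn]
    exact a2 i h1 h2
  · show _ < ‖pos' (T'.src (I.fD _)) - (y + c)‖ ∧ _ < ‖pos' (T'.tgt (I.fD _)) - (y + c)‖
    rw [I.src, I.tgt, hn, hn]
    exact a3 i h1

theorem pviq_goodIn (hp : ∀ v, pos' (I.fV v) = pos v + c) {y : ℂ} (hg : 𝔖.GoodIn pos N h y) : (pviqSt I 𝔖).GoodIn pos' N h (y + c) := by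
  have hn : ∀ v, pos' (I.fV v) - (y + c) = pos v - y := fun v => by rw [hp]; ring
  obtain ⟨i₀, a1, a2, a3⟩ := hg.late_m
  refine ⟨?_, ⟨i₀, a1, fun i h1 h2 => ?_, fun i h1 => ?_⟩, fun i hi hc => hg.off_m i hi ?_⟩
  · show ‖pos' (T'.src (I.fD _)) - (y + c)‖ ≤ _ ∧ ‖pos' (T'.tgt (I.fD _)) - (y + c)‖ ≤ _
    rw [I.src, I.tgt, hn, hn]
    exact hg.tip_m
  · show ‖pos' (T'.src (I.fD _)) - (y + c)‖ < _ ∧ ‖pos' (T'.tgt (I.fD _)) - (y + c)‖ < _
    rw [I.src, I.tgt, hn, hn]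
    exact a2 i h1 h2
  · show _ < ‖pos' (T'.src (I.fD _)) - (y + c)‖ ∧ _ < ‖pos' (T'.tgt (I.fD _)) - (y + c)‖
    rw [I.src, I.tgt, hn, hn]
    exact a3 i h1
  · have hc' : T'.opp (I.fD (𝔖.em i)) ∈ (pviqSt I 𝔖).S.Left := hc
    rw [I.opp] at hc'
    exact (pviq_st_left I 𝔖 _).1 hc'

theorem pviq_cp (τ : PvwTy) (h : ℝ) (z c : ℂ) : τ.cp h (z + c) = τ.cp h z + c := by unfold PvwTy.cp; ring

theorem pviq_cm (τ : PvwTy) (h : ℝ) (z c : ℂ) : τ.cm h (z + c) = τ.cm h z + c := by unfold PvwTy.cm; ring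

/-- **EXIT HALF STATES travel** -/
theorem pviq_atOut (hp : ∀ v, pos' (I.fV v) = pos v + c) (hs : ∀ v, s' (I.fV v) = s v) (ha : 𝔖.AtOut pos N h z τ s) : (pviqSt I 𝔖).AtOut pos' N h (z + c) τ s' :=
  ⟨pviq_gate I hp hs ha.gate, pviq_inmost I hp hs ha.inmost, pviq_stubP I hs (pviq_sq I hp z _) ha.stub, pviq_cp τ h z c ▸ pviq_goodOut I hp ha.good, ha.lev⟩

/-- **ENTRANCE HALF STATES travel** -/
theorem pviq_atIn (hp : ∀ v, pos' (I.fV v) = pos v + c) (hs : ∀ v, s' (I.fV v) = s v) (ha : 𝔖.AtIn pos N h z τ s) : (pviqSt I 𝔖).AtIn pos' N h (z + c) τ s' :=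
  ⟨pviq_gate I hp hs ha.gate, pviq_inmost I hp hs ha.inmost, pviq_stubM I hs (pviq_sq I hp z _) ha.stub, pviq_cm τ h z c ▸ pviq_goodIn I hp ha.good, ha.lev⟩

/-- **STATES travel** -/
theorem pviq_at (hp : ∀ v, pos' (I.fV v) = pos v + c) (hs : ∀ v, s' (I.fV v) = s v) (ha : 𝔖.At pos N h z τ s) : (pviqSt I 𝔖).At pos' N h (z + c) τ s' := by
  refine ⟨pviq_atOut I hp hs ha.out, pviq_atIn I hp hs ha.inn, fun v' hv' => ?_, fun v' hv' => ?_⟩
  · obtain ⟨v, rfl⟩ := I.fV.surjective v'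
    rw [pviq_cp, hp, show pos v + c - (τ.cp h z + c) = pos v - τ.cp h z by ring]
    exact ha.far_p v ((pviq_st_fzIn I 𝔖 v).1 hv')
  · obtain ⟨v, rfl⟩ := I.fV.surjective v'
    rw [pviq_cm, hp, show pos v + c - (τ.cm h z + c) = pos v - τ.cm h z by ring]
    exact ha.far_m v ((pviq_st_fzOut I 𝔖 v).1 hv')

end states

/-! ## 5. the Delaunay isomorphism of a similarity      (same text as `pvcoIso` of 251, `Tr/FrameIso`; here to keep the imports light) -/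

section del

variable {a b : ℂ} {Y Y' : Set ℂ}

/-- the bijection of the sites -/
noncomputable def pviqDelV (ha : a ≠ 0) (hY : Y' = vorSim a b '' Y) : ↥Y ≃ ↥Y' :=
  Equiv.ofBijective (fun v => (⟨vorSim a b v.1, (pvcv_mem ha hY v.1).2 v.2⟩ : ↥Y'))
    ⟨fun v w h => Subtype.ext (vorSim_injective ha b (congrArg Subtype.val h)), fun w => by
      obtain ⟨v, hv, e⟩ : w.1 ∈ vorSim a b '' Y := hY ▸ w.2
      exact ⟨⟨v, hv⟩, Subtype.ext e⟩⟩

theorem pviq_delV_val (ha : a ≠ 0) (hY : Y' = vorSim a b '' Y) (v : ↥Y) : ((pviqDelV ha hY v : ↥Y') : ℂ) = vorSim a b v.1 := rfl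

/-- **the isomorphism of the two Delaunay planes** -/
noncomputable def pviqDel (ha : a ≠ 0) (hY : Y' = vorSim a b '' Y) : PvIso (delbPl Y).toMap (delbPl Y').toMap where
  fV := pviqDelV ha hY
  fD := Equiv.subtypeEquiv (Equiv.prodCongr (pviqDelV ha hY) (pviqDelV ha hY)) (fun p =>
    (and_congr (pvcv_good_iff ha hY) (pvcv_adj ha hY p.1.1 p.2.1)).symm)
  src _ := rfl
  nxt d := Subtype.ext (Prod.ext rfl (Subtype.ext (pvcv_apex ha hY d.2.1.gp d.1.1.1 d.1.2.1)))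
  opp _ := rfl

theorem pviq_eqns_cite5 : True := by
  have := @pviqDelV.eq_1; have := @pviqDel.eq_1
  trivial

end del

end Claimed.Agent.R289
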