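-- KEEP
import Claimed.Agent.R289.Tr.InstL
import Claimed.Agent.R289.Tr.InvIso
import Claimed.Agent.R289.Tr.AtUniq
import Claimed.Agent.R289.Tr.DomCov
import Claimed.Agent.R289.Tr.FrameIso

/-!
# Row 289 (S0537), THE WALL, ROAD E, file Tr/InvE : **PvieInv** = FLIP + TRANSLATION + ROTATION COVARIANCE OF THE OBJECTS OF `Tr/InstL`      (helper246, node of RULINGS 16, 19 of 234; prefix `pviq`, `Pviq`)

WHY.   In `Tr/InstL` (168) the link into the reference plug, its weight and `1_G / μ(G)` are typed for BLACK, centre `0`, and evaluated at the PULLED BACK configuration `pvilRef 𝔓 m z t η = cfMap (pvthInv zu 1) (pvkyFl (col t) η)`.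
(A) MEANS: the mean of the pulled back integrand is `pvilKin0W` for EVERY `(z, t)` (`pviq_kin0`).      (B) RECOGNITION: event and value of the pulled back link ARE event and value of the MOVED link `pviqLr` read in `η` itself, colour `col t` (`pviq_Ar_iff`, `pviq_Xr`, `pviq_rU_iff`):
this is what `tel` at the virtual sample consumes (all the links of the cycle are read in ONE plane map).      The state / strand / mass of the moved configuration live in ANOTHER vertex type: transport along the Delaunay isomorphism `pviqDel` (`Tr/InvIso`).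
* sec. 1  `PviqMor η η' b b' a c` : `η'` = image of `η` under `w ↦ a w + c`, `‖a‖ = 1`, the colour `b` of `η` is the colour `b'` of `η'`;   `.iso .pos .hs .good .symm .trans`;   instances `pviq_mor_sim` (`cfMap (pvthSim c a)`), `pviq_mor_fl` (`pvkyFl b`, one colour per site)
* sec. 2  placed plugs: `pviq_mv_mv`, **`pviq_out pviq_in pviq_pl_at`** (`PvilOut PvilIn PvilAt`), **`pviq_U_iff pviq_Uo_iff pviq_Ui_iff`**, frozen positions `pviq_fzO pviq_fzI`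
* sec. 2b DOOR ENDS (InstL v2.1): `pviq_tarc` (`pvtArc` travels), `PviqMor.pg`, `pviq_N` (frames `a ^ 4 = 1`), `pviq_door_st`, **`pviq_door`**, **`pviq_door_uniq`** (the state of a door is ONE object)
* sec. 3  links: `pviqLk`, `pviq_run pviq_atP pviq_atP' pviq_arc`, **`pviq_A_iff`**, `pviq_val`;   `PviqLkOk`;   WITNESS INDEPENDENCE `pviq_val_uniq`, `pviq_X_eq`;   **`pviq_lkX`** : `X' η' = a * X η`
* sec. 4  the reference frame: `pviq_ref_mor pviq_ref_mor'`, `pviqRefM` (measurable equivalence), `pviq_ref_map` (law preserved), `pviq_ref_integral lintegral measure ae`, `pviq_G_ref pviq_g_ref pviq_Gr_ref`, **`pviq_kin0`**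
* sec. 5  recognition: `pviqLr` (the link into the reference plug of `(z,t)` read in `η`), `pviq_Lr_eq`, `pviq_Lr_ok Lo_ok Li_ok Le_ok`, **`pviq_Ar_iff pviq_Xr pviq_XrQ pviq_XrV`**, soft form **`pviq_Ar_soft pviq_Ar_softQ`**
* sec. 6  the flip dictionary of the kit: `pviq_mor_fl'`, `pviq_door_fl pviq_door_fl' pviq_gate_fl pviq_C_fl`
-/

set_option autoImplicit false

namespace Claimed.Agent.R289

open Set MeasureTheory Claims.C0465
open scoped ENNReal ComplexConjugate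

/-! ## 1. morphisms of configurations -/

/-- `η'` is the image of `η` under the isometry `w ↦ a w + c`; the colour `b` of `η` becomes the colour `b'` of `η'` -/
structure PviqMor (η η' : Conf PvPt) (b b' : Bool) (a c : ℂ) : Prop where
  na : ‖a‖ = 1
  Y : cfSites η' = vorSim a c '' cfSites η
  col : ∀ p ∈ cfSites η, (cfCol η' (vorSim a c p) == b') = (cfCol η p == b)

/-- one colour per site -/
def PviqOne (η : Conf PvPt) : Prop := ∀ p ∈ η.pts, ∀ q ∈ η.pts, p.1 = q.1 → p = q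

theorem pviq_e_eqns_cite : True := by
  have := @PviqOne.eq_1
  trivial

theorem pviq_sim_vor (c a : ℂ) : pvthSim c a = vorSim a c := funext fun w => by unfold pvthSim vorSim; ring

theorem pviq_sim_apply (c a w : ℂ) : pvthSim c a w = a * w + c := by unfold pvthSim; ring

theorem pviq_ne {a : ℂ} (h : ‖a‖ = 1) : a ≠ 0 := fun e => by rw [e, norm_zero] at h; exact zero_ne_one h

theorem pviq_conj_mul {a : ℂ} (h : ‖a‖ = 1) : conj a * a = 1 := by rw [Complex.conj_mul', h]; norm_num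

theorem pviq_sim_inj {a : ℂ} (h : ‖a‖ = 1) (c : ℂ) : Function.Injective (pvthSim c a) := by
  rw [pviq_sim_vor]; exact vorSim_injective (pviq_ne h) c

theorem pviq_sim_mem {a : ℂ} (h : ‖a‖ = 1) (c : ℂ) (S : Set ℂ) (w : ℂ) : pvthSim c a w ∈ pvthSim c a '' S ↔ w ∈ S := (pviq_sim_inj h c).mem_set_image

theorem pviq_sim_norm {a : ℂ} (h : ‖a‖ = 1) (c w z : ℂ) : ‖pvthSim c a w - pvthSim c a z‖ = ‖w - z‖ := by
  rw [show pvthSim c a w - pvthSim c a z = a * (w - z) by unfold pvthSim; ring, norm_mul, h, one_mul]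

namespace PviqMor

variable {η η' η'' : Conf PvPt} {b b' b'' : Bool} {a c a' c' : ℂ}

theorem a0 (M : PviqMor η η' b b' a c) : a ≠ 0 := pviq_ne M.na

/-- the isomorphism of the plane maps -/
noncomputable def iso (M : PviqMor η η' b b' a c) : PvIso (pvieT η) (pvieT η') := pviqDel M.a0 M.Y

theorem pos (M : PviqMor η η' b b' a c) (v : ↥(pvieY η)) : pviePos η' (M.iso.fV v) = a * pviePos η v + c := rfl

theorem pos' (M : PviqMor η η' b b' a c) (v : ↥(pvieY η)) : pviePos η' (M.iso.fV v) = pvthSim c a (pviePos η v) := by rw [pviq_sim_apply]; rfl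

theorem hs (M : PviqMor η η' b b' a c) (v : ↥(pvieY η)) : pvieCol η' b' (M.iso.fV v) = pvieCol η b v := M.col v.1 v.2

theorem good (M : PviqMor η η' b b' a c) (h : DelGood (pvieY η)) : DelGood (pvieY η') := pvcv_good M.a0 M.Y h

theorem symm (M : PviqMor η η' b b' a c) : PviqMor η' η b' b a⁻¹ (-(a⁻¹ * c)) where
  na := by rw [norm_inv, M.na, inv_one]
  Y := by
    rw [M.Y, image_image]
    simp only [vorSim_inv_left M.a0 c, image_id']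
  col p hp := by
    rw [M.Y] at hp
    obtain ⟨q, hq, rfl⟩ := hp
    rw [M.col q hq, vorSim_inv_left M.a0 c]

theorem trans (M : PviqMor η η' b b' a c) (M' : PviqMor η' η'' b' b'' a' c') : PviqMor η η'' b b'' (a' * a) (a' * c + c') where
  na := by rw [norm_mul, M.na, M'.na, one_mul]
  Y := by
    rw [M'.Y, M.Y, image_image]
    refine image_congr fun w _ => ?_
    unfold vorSim; ring
  col p hp := by
    have h1 : vorSim a c p ∈ cfSites η' := by rw [M.Y]; exact ⟨p, hp, rfl⟩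
    rw [← M.col p hp, ← M'.col _ h1]
    congr 2
    unfold vorSim; ring

theorem congr (M : PviqMor η η' b b' a c) (ha : a = a') (hc : c = c') : PviqMor η η' b b' a' c' := ha ▸ hc ▸ M

end PviqMor

theorem pviq_e_eqns_cite2 : True := by
  have := @PviqMor.iso.eq_1
  trivial

/-- isometries -/
theorem pviq_mor_sim {a : ℂ} (ha : ‖a‖ = 1) (c : ℂ) (η : Conf PvPt) (b : Bool) : PviqMor η (cfMap (pvthSim c a) η) b b a c := by
  rw [pviq_sim_vor]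
  exact ⟨ha, pvcv_sites a c η, fun p _ => by rw [pvcv_col (pviq_ne ha) η p]⟩

theorem pviq_sites_flip (η : Conf PvPt) : cfSites (cfFlip η) = cfSites η := by
  ext z
  constructor
  · rintro ⟨p, hp, rfl⟩
    exact ⟨_, pvky_mem_flip.1 hp, rfl⟩
  · rintro ⟨p, hp, rfl⟩
    exact ⟨(p.1, !p.2), pvky_mem_flip.2 (by simpa using hp), rfl⟩

theorem pviq_col_iff (η : Conf PvPt) (z : ℂ) : cfCol η z = true ↔ (z, true) ∈ η.pts := by
  classical
  unfold cfCol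
  exact decide_eq_true_iff

theorem pviq_col_flip {η : Conf PvPt} (h : PviqOne η) {z : ℂ} (hz : z ∈ cfSites η) : cfCol (cfFlip η) z = !cfCol η z := by
  obtain ⟨⟨z, β⟩, hp, rfl⟩ := hz
  have e1 : cfCol (cfFlip η) z = true ↔ (z, false) ∈ η.pts := by rw [pviq_col_iff, pvky_mem_flip]; rfl
  have e2 := pviq_col_iff η z
  cases β
  · have h2 : (z, true) ∉ η.pts := fun h3 => by
      have := h _ h3 _ hp rfl
      simp at this
    show cfCol (cfFlip η) z = !cfCol η z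
    rw [e1.2 hp, Bool.eq_false_iff.2 fun h3 => h2 (e2.1 h3)]; rfl
  · have h2 : (z, false) ∉ η.pts := fun h3 => by
      have := h _ h3 _ hp rfl
      simp at this
    show cfCol (cfFlip η) z = !cfCol η z
    rw [e2.2 hp, Bool.eq_false_iff.2 fun h3 => h2 (e1.1 h3)]; rfl

theorem pviq_vor_id (w : ℂ) : vorSim 1 0 w = w := by unfold vorSim; ring

/-- the flip: the colour `b` of `η` is BLACK in `pvkyFl b η` -/
theorem pviq_mor_fl (b : Bool) {η : Conf PvPt} (h : PviqOne η) : PviqMor η (pvkyFl b η) b true 1 0 := by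
  cases b
  · refine ⟨norm_one, ?_, fun p hp => ?_⟩
    · show cfSites (cfFlip η) = _
      rw [pviq_sites_flip]
      simp only [pviq_vor_id, image_id']
    · show (cfCol (cfFlip η) (vorSim 1 0 p) == true) = _
      rw [pviq_vor_id, pviq_col_flip h hp]
      cases cfCol η p <;> rfl
  · refine ⟨norm_one, ?_, fun p _ => ?_⟩
    · show cfSites η = _
      simp only [pviq_vor_id, image_id']
    · show (cfCol η (vorSim 1 0 p) == true) = _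
      rw [pviq_vor_id]

/-! ## 2. placed plugs -/

theorem pviq_mv_mv (p : PvilPl) (z d z' d' : ℂ) : (p.mv z d).mv z' d' = p.mv (z' + d' * z) (d' * d) := by
  have e : ∀ w, pvthSim z' d' (pvthSim z d w) = pvthSim (z' + d' * z) (d' * d) w := fun w => by unfold pvthSim; ring
  unfold PvilPl.mv
  simp only [image_image, e, mul_assoc]

theorem pviq_mv_zero (p : PvilPl) : p.mv 0 1 = p := by
  have e : ∀ w, pvthSim 0 1 w = w := fun w => by unfold pvthSim; ring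
  unfold PvilPl.mv
  simp only [e, image_id', one_mul]

theorem pviq_mv_back (p : PvilPl) {a : ℂ} (ha : a ≠ 0) (c : ℂ) : (p.mv c a).mv (-(a⁻¹ * c)) a⁻¹ = p := by
  rw [pviq_mv_mv, neg_add_cancel, inv_mul_cancel₀ ha, pviq_mv_zero]

section plugs

variable {η η' : Conf PvPt} {b b' : Bool} {a c : ℂ} {N : PvwNum} {p : PvilPl}

/-- the positions in the frame of the moved plug differ from the old ones by a translation -/
theorem pviq_fr_pos (M : PviqMor η η' b b' a c) (p : PvilPl) (v : ↥(pvieY η)) : (p.mv c a).pos η' (M.iso.fV v) = p.pos η v + conj (a * p.fr) * c := by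
  show conj (a * p.fr) * pviePos η' (M.iso.fV v) = conj p.fr * pviePos η v + conj (a * p.fr) * c
  rw [M.pos, map_mul, mul_add, show conj a * conj p.fr * (a * pviePos η v) = (conj a * a) * (conj p.fr * pviePos η v) by ring, pviq_conj_mul M.na, one_mul]

theorem pviq_fr_z (ha : ‖a‖ = 1) (p : PvilPl) (c : ℂ) : (p.mv c a).zf = p.zf + conj (a * p.fr) * c := by
  show conj (a * p.fr) * pvthSim c a p.z = conj p.fr * p.z + conj (a * p.fr) * c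
  rw [pviq_sim_apply, map_mul, mul_add, show conj a * conj p.fr * (a * p.z) = (conj a * a) * (conj p.fr * p.z) by ring, pviq_conj_mul ha, one_mul]

/-- loop erasures of the moved walk come from loop erasures of the walk -/
theorem pviq_mask (M : PviqMor η η' b b' a c) (e : ℕ → (delbPl (pvieY η)).Dart) (n : ℕ) (S : Set ℂ)
    (hS : ∀ y : (pvieT η).Pth, PvwLE (pvieT η) (fun i => (pvieT η).src (e i)) n y → ∀ v ∈ y.verts, pviePos η v ∈ S) :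
    ∀ y' : (pvieT η').Pth, PvwLE (pvieT η') (fun i => (pvieT η').src (M.iso.fD (e i))) n y' → ∀ v' ∈ y'.verts, pviePos η' v' ∈ pvthSim c a '' S := by
  intro y' hy' v' hv'
  have h1 : PvwLE (pvieT η) (fun i => (pvieT η).src (e i)) n (pviqPth (pviqInv M.iso) y') := by
    refine pviq_le (pviqInv M.iso) (fun i => ?_) hy'
    show (pvieT η).src (e i) = M.iso.fV.symm ((pvieT η').src (M.iso.fD (e i)))
    rw [M.iso.src, Equiv.symm_apply_apply]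
  have h2 := hS _ h1 _ ((pviq_pth_verts (pviqInv M.iso) y' v').2 hv')
  refine ⟨_, h2, ?_⟩
  rw [← M.pos']
  show pviePos η' (M.iso.fV (M.iso.fV.symm v')) = _
  rw [Equiv.apply_symm_apply]

/-- **EXIT HALF STATES OF PLACED PLUGS travel** -/
theorem pviq_out (M : PviqMor η η' b b' a c) {𝔖 : PvwSt (pvieT η)} (h : PvilOut N b p η 𝔖) : PvilOut N b' (p.mv c a) η' (pviqSt M.iso 𝔖) := by
  refine ⟨M.good h.good, ?_, ⟨_, h.tip, ?_⟩, pviq_mask M _ _ _ h.mask, fun i h1 h2 h3 => ?_, h.lev0⟩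
  · rw [pviq_fr_z M.na]
    exact pviq_atOut M.iso (pviq_fr_pos M p) M.hs h.st
  · rw [← M.pos', ← M.iso.src]; rfl
  · have h4 : (N.m - 1) * p.h < ‖pviePos η' (M.iso.fV (𝔖.inn.v i)) - pvthSim c a p.z‖ := h3
    rw [M.pos', pviq_sim_norm M.na] at h4
    show pviePos η' (M.iso.fV (𝔖.inn.v i)) ∈ pvthSim c a '' p.Mp
    rw [M.pos']
    exact ⟨_, h.mask_i i h1 h2 h4, rfl⟩

/-- **ENTRANCE HALF STATES OF PLACED PLUGS travel** -/
theorem pviq_in (M : PviqMor η η' b b' a c) {𝔖 : PvwSt (pvieT η)} (h : PvilIn N b p η 𝔖) : PvilIn N b' (p.mv c a) η' (pviqSt M.iso 𝔖) := by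
  refine ⟨M.good h.good, ?_, ⟨_, h.tip, ?_⟩, pviq_mask M _ _ _ h.mask, fun i h1 h3 => ?_, h.lev0⟩
  · rw [pviq_fr_z M.na]
    exact pviq_atIn M.iso (pviq_fr_pos M p) M.hs h.st
  · rw [← M.pos', ← M.iso.src]; rfl
  · have h4 : (N.m - 1) * p.h < ‖pviePos η' (M.iso.fV (𝔖.inn.v i)) - pvthSim c a p.z‖ := h3
    rw [M.pos', pviq_sim_norm M.na] at h4
    show pviePos η' (M.iso.fV (𝔖.inn.v i)) ∈ pvthSim c a '' p.Mm
    rw [M.pos']
    exact ⟨_, h.mask_i i h1 h4, rfl⟩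

/-- **FULL STATES OF PLACED PLUGS travel** -/
theorem pviq_pl_at (M : PviqMor η η' b b' a c) {𝔖 : PvwSt (pvieT η)} (h : PvilAt N b p η 𝔖) : PvilAt N b' (p.mv c a) η' (pviqSt M.iso 𝔖) := by
  refine ⟨pviq_out M h.out, pviq_in M h.inn, fun v' hv' => ?_, fun v' hv' => ?_⟩
  · obtain ⟨v, rfl⟩ := M.iso.fV.surjective v'
    show 2 * N.rho * p.h < ‖(p.mv c a).pos η' (M.iso.fV v) - p.ty.cp p.h (p.mv c a).zf‖
    rw [pviq_fr_pos M, pviq_fr_z M.na, pviq_cp, add_sub_add_right_eq_sub]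
    exact h.far_p v ((pviq_st_fzIn M.iso 𝔖 v).1 hv')
  · obtain ⟨v, rfl⟩ := M.iso.fV.surjective v'
    show 2 * N.rho * p.h < ‖(p.mv c a).pos η' (M.iso.fV v) - p.ty.cm p.h (p.mv c a).zf‖
    rw [pviq_fr_pos M, pviq_fr_z M.na, pviq_cm, add_sub_add_right_eq_sub]
    exact h.far_m v ((pviq_st_fzOut M.iso 𝔖 v).1 hv')

/-- **`pvilU` IS COVARIANT** -/
theorem pviq_U_iff (M : PviqMor η η' b b' a c) : η' ∈ pvilU N b' (p.mv c a) ↔ η ∈ pvilU N b p := by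
  constructor
  · rintro ⟨𝔖, h⟩
    have := pviq_pl_at M.symm h
    rw [pviq_mv_back p M.a0] at this
    exact ⟨_, this⟩
  · rintro ⟨𝔖, h⟩
    exact ⟨_, pviq_pl_at M h⟩

theorem pviq_Uo_iff (M : PviqMor η η' b b' a c) : η' ∈ pvilUo N b' (p.mv c a) ↔ η ∈ pvilUo N b p := by
  constructor
  · rintro ⟨𝔖, h⟩
    have := pviq_out M.symm h
    rw [pviq_mv_back p M.a0] at this
    exact ⟨_, this⟩
  · rintro ⟨𝔖, h⟩
    exact ⟨_, pviq_out M h⟩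

theorem pviq_Ui_iff (M : PviqMor η η' b b' a c) : η' ∈ pvilUi N b' (p.mv c a) ↔ η ∈ pvilUi N b p := by
  constructor
  · rintro ⟨𝔖, h⟩
    have := pviq_in M.symm h
    rw [pviq_mv_back p M.a0] at this
    exact ⟨_, this⟩
  · rintro ⟨𝔖, h⟩
    exact ⟨_, pviq_in M h⟩

theorem pviq_fzO_sub (M : PviqMor η η' b b' a c) : pvthSim c a '' pvilFzO N b p η ⊆ pvilFzO N b' (p.mv c a) η' := by
  rintro _ ⟨_, ⟨𝔖, h, u, hu, rfl⟩, rfl⟩
  exact ⟨_, pviq_out M h, M.iso.fV u, (pviq_st_fzOut M.iso 𝔖 u).2 hu, M.pos' u⟩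

theorem pviq_fzI_sub (M : PviqMor η η' b b' a c) : pvthSim c a '' pvilFzI N b p η ⊆ pvilFzI N b' (p.mv c a) η' := by
  rintro _ ⟨_, ⟨𝔖, h, u, hu, rfl⟩, rfl⟩
  exact ⟨_, pviq_in M h, M.iso.fV u, (pviq_st_fzIn M.iso 𝔖 u).2 hu, M.pos' u⟩

theorem pviq_sim_back {a : ℂ} (ha : a ≠ 0) (c w : ℂ) : pvthSim c a (pvthSim (-(a⁻¹ * c)) a⁻¹ w) = w := by
  unfold pvthSim
  field_simp
  ring

/-- **the frozen positions are covariant** -/
theorem pviq_fzO (M : PviqMor η η' b b' a c) : pvilFzO N b' (p.mv c a) η' = pvthSim c a '' pvilFzO N b p η := by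
  refine Subset.antisymm (fun w hw => ?_) (pviq_fzO_sub M)
  have h1 := pviq_fzO_sub M.symm (N := N) (p := p.mv c a) ⟨w, hw, rfl⟩
  rw [pviq_mv_back p M.a0] at h1
  exact ⟨_, h1, pviq_sim_back M.a0 c w⟩

theorem pviq_fzI (M : PviqMor η η' b b' a c) : pvilFzI N b' (p.mv c a) η' = pvthSim c a '' pvilFzI N b p η := by
  refine Subset.antisymm (fun w hw => ?_) (pviq_fzI_sub M)
  have h1 := pviq_fzI_sub M.symm (N := N) (p := p.mv c a) ⟨w, hw, rfl⟩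
  rw [pviq_mv_back p M.a0] at h1
  exact ⟨_, h1, pviq_sim_back M.a0 c w⟩

end plugs

/-! ## 2b. door ends (kit plugs)      (gates of record travel: `pvco_gt` of 251) -/

section tarc

variable {V D V' D' : Type} {T : PvMap V D} {T' : PvMap V' D'} {s : V → Bool} {s' : V' → Bool}

theorem pviq_pth_ext {p q : T.Pth} (hn : p.n = q.n) (hv : ∀ k, p.v k = q.v k) (he : ∀ k, p.e k = q.e k) : p = q := by
  obtain ⟨n, v, e, _, _, _⟩ := p
  obtain ⟨n₂, v₂, e₂, _, _, _⟩ := q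
  obtain rfl : n = n₂ := hn
  obtain rfl : v = v₂ := funext hv
  obtain rfl : e = e₂ := funext he
  rfl

theorem pviq_gate_ext {g g₂ : T.Gate s} (he : ∀ k, g.c.e k = g₂.c.e k) (hn : g.c.n = g₂.c.n) (hm : g.m = g₂.m) : g = g₂ := by
  obtain ⟨⟨n, e, _, _, _, _⟩, m, _, _, _⟩ := g
  obtain ⟨⟨n₂, e₂, _, _, _, _⟩, m₂, _, _, _⟩ := g₂
  obtain rfl : e = e₂ := funext he
  obtain rfl : n = n₂ := hn
  obtain rfl : m = m₂ := hm
  rfl

/-- the arc of a strand travels -/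
theorem pviq_tarc [DecidableEq V] [DecidableEq V'] (I : PvIso T T') (hs : ∀ v, s' (I.fV v) = s v) (a : D) (m : ℕ) : pvtArc T' s' (I.fD a) m = pviqPth I (pvtArc T s a m) := by
  have hl : pvtLE T' (pvtBank T' s' (I.fD a) m) = (pvtLE T (pvtBank T s a m)).map I.fD := by rw [pvco_bank hs, pvco_LE]
  refine pviq_pth_ext ?_ (fun k => ?_) (fun k => ?_)
  · show (pvtLE T' (pvtBank T' s' (I.fD a) m)).length = (pvtLE T (pvtBank T s a m)).length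
    rw [hl, List.length_map]
  · show (T'.src (I.fD a) :: (pvtLE T' (pvtBank T' s' (I.fD a) m)).map T'.tgt).getD k (T'.src (I.fD a)) = I.fV ((T.src a :: (pvtLE T (pvtBank T s a m)).map T.tgt).getD k (T.src a))
    have e : I.fV (T.src a) :: List.map T'.tgt ((pvtLE T (pvtBank T s a m)).map I.fD) = (T.src a :: (pvtLE T (pvtBank T s a m)).map T.tgt).map I.fV := by
      rw [List.map_cons, List.map_map, List.map_map]
      congr 1
      exact List.map_congr_left fun d _ => I.tgt d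
    rw [hl, I.src, e, List.getD_map]
  · show (pvtLE T' (pvtBank T' s' (I.fD a) m)).getD k (I.fD a) = I.fD ((pvtLE T (pvtBank T s a m)).getD k a)
    rw [hl, List.getD_map]

end tarc

section doors

variable {η η' : Conf PvPt} {b b' : Bool} {a c : ℂ}

theorem PviqMor.val (M : PviqMor η η' b b' a c) (v : ↥(pvieY η)) : ((M.iso.fV v : ↥(pvieY η')) : ℂ) = pvthSim c a v.1 := M.pos' v

theorem PviqMor.mk' (M : PviqMor η η' b b' a c) (X : Set ℂ) : PvcoMk M.iso Subtype.val Subtype.val X (pvthSim c a '' X) := fun v => by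
  rw [M.val]; exact pviq_sim_mem M.na c X v.1

theorem pviq_sim_ball {a : ℂ} (ha : ‖a‖ = 1) (c z : ℂ) (r : ℝ) : Metric.ball (pvthSim c a z) r = pvthSim c a '' Metric.ball z r := by
  rw [pviq_sim_vor]; exact pvco_ball ha c z r

theorem pviq_sim_at (a c z d : ℂ) (S : Set ℂ) : pvkdAt (pvthSim c a z) (a * d) S = pvthSim c a '' pvkdAt z d S := by
  rw [pviq_sim_vor]; exact pvco_at a c z d S

/-- the marks of a placed kit plug -/
theorem PviqMor.pg (M : PviqMor η η' b b' a c) (𝔭 : PvkdPlug) (z d : ℂ) : PvcoPg M.iso Subtype.val Subtype.val (𝔭.pg z d) (𝔭.pg (pvthSim c a z) (a * d)) where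
  KI := by
    show PvcoMk _ _ _ (Metric.ball z 𝔭.a) (Metric.ball (pvthSim c a z) 𝔭.a)
    rw [pviq_sim_ball M.na]; exact M.mk' _
  KO := by
    show PvcoMk _ _ _ (Metric.ball z 𝔭.b) (Metric.ball (pvthSim c a z) 𝔭.b)
    rw [pviq_sim_ball M.na]; exact M.mk' _
  Km := by
    show PvcoMk _ _ _ (pvkdAt z d 𝔭.Zm) (pvkdAt (pvthSim c a z) (a * d) 𝔭.Zm)
    rw [pviq_sim_at]; exact M.mk' _
  Kp := by
    show PvcoMk _ _ _ (pvkdAt z d 𝔭.Zp) (pvkdAt (pvthSim c a z) (a * d) 𝔭.Zp)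
    rw [pviq_sim_at]; exact M.mk' _
  KT := by
    show PvcoMk _ _ _ (pvkdAt z d 𝔭.Tb) (pvkdAt (pvthSim c a z) (a * d) 𝔭.Tb)
    rw [pviq_sim_at]; exact M.mk' _

/-- nice + mesh: an event of the SITES; frames `a ∈ {1, i, -1, -i}` (`VorQuad`) -/
theorem pviq_N (M : PviqMor η η' b b' a c) (a4 : a ^ 4 = 1) (𝔭 : PvkdPlug) (z d : ℂ) (h : η ∈ 𝔭.N z d) : η' ∈ 𝔭.N (pvthSim c a z) (a * d) := by
  have h1 := pvco_N (pvco_fr_map a4 c η) 𝔭 z d h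
  have e : cfSites (cfMap (vorSim a c) η) = cfSites η' := by rw [M.Y]; exact pvcv_sites a c η
  unfold PvkdPlug.N at h1 ⊢
  rw [mem_ofPred_eq, e] at h1
  rw [pviq_sim_vor]
  exact h1

/-- meshes travel -/
theorem pviq_mesh (M : PviqMor η η' b b' a c) (a4 : a ^ 4 = 1) {ρ : ℝ} {E : Set ℂ} (h : PvtrMesh ρ E (cfSites η)) : PvtrMesh ρ (pvthSim c a '' E) (cfSites η') := by
  have e : cfSites (cfMap (vorSim a c) η) = cfSites η' := by rw [M.Y]; exact pvcv_sites a c η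
  unfold PvtrMesh at h ⊢
  rw [pviq_sim_vor, pvco_core M.na, ← e]
  exact (pvco_fr_map a4 c η).dense h

/-- the state of a kit plug travels -/
theorem pviq_door_st (M : PviqMor η η' b b' a c) (𝔭 : PvkdPlug) (z : ℂ) (g : (pvieT η).Gate (pvieCol η b)) :
    pviqSt M.iso (pvilStS 𝔭 η (pvieCol η b) z g) = pvilStS 𝔭 η' (pvieCol η' b') (pvthSim c a z) (pvcoGate M.iso M.hs g) := by
  have e1 : M.iso.fV.symm ⁻¹' {v : ↥(pvieY η) | ‖(v : ℂ) - z‖ < 𝔭.b} = {v' : ↥(pvieY η') | ‖(v' : ℂ) - pvthSim c a z‖ < 𝔭.b} := by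
    ext v'
    obtain ⟨v, rfl⟩ := M.iso.fV.surjective v'
    rw [mem_preimage, Equiv.symm_apply_apply, mem_ofPred_eq, mem_ofPred_eq, M.val, pviq_sim_norm M.na]
  have e2 : M.iso.fD g.aOut = (pvcoGate M.iso M.hs g).aOut := (pvco_gate_aOut M.iso M.hs g).symm
  have e3 : pviqPth M.iso (pvtArc (pvieT η) (pvieCol η b) g.aIn g.len) = pvtArc (pvieT η') (pvieCol η' b') (pvcoGate M.iso M.hs g).aIn (pvcoGate M.iso M.hs g).len := by
    rw [pvco_gate_len, pvco_gate_aIn, pviq_tarc M.iso M.hs]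
  unfold pviqSt pvilStS
  simp only [e1, e2, e3]
  rfl

/-- **DOOR ENDS travel** -/
theorem pviq_door (M : PviqMor η η' b b' a c) (a4 : a ^ 4 = 1) {𝔭 : PvkdPlug} {z d : ℂ} {𝔖 : PvwSt (pvieT η)} (h : PvilDoor 𝔭 b η z d 𝔖) :
    PvilDoor 𝔭 b' η' (pvthSim c a z) (a * d) (pviqSt M.iso 𝔖) := by
  obtain ⟨h1, g, hg, rfl⟩ := h
  exact ⟨pviq_N M a4 𝔭 z d h1, pvcoGate M.iso M.hs g, pvco_gt M.hs (M.pg 𝔭 z d) hg, pviq_door_st M 𝔭 z g⟩

/-- the rooms of `g⁻`, `g⁺` of the plug of record are disjoint -/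
theorem pviq_P_disj {r : ℝ} (hr : 0 < r) : Disjoint (pvkdP r).Zm (pvkdP r).Zp := by
  refine Set.disjoint_left.2 fun w h1 h2 => ?_
  have a1 : w.re ≤ -(r / 2) := h1.2.1
  have a2 : r / 2 ≤ w.re := h2.1
  linarith

/-- **THE STATE OF A DOOR IS ONE OBJECT** -/
theorem pviq_door_uniq {𝔭 : PvkdPlug} (hdis : Disjoint 𝔭.Zm 𝔭.Zp) {z d : ℂ} (hd : d ≠ 0) {𝔖 𝔖₂ : PvwSt (pvieT η)} (h : PvilDoor 𝔭 b η z d 𝔖) (h₂ : PvilDoor 𝔭 b η z d 𝔖₂) : 𝔖 = 𝔖₂ := by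
  obtain ⟨h1, g, hg, rfl⟩ := h
  obtain ⟨-, g₂, hg₂, rfl⟩ := h₂
  have hT : (pvieT η).IsSph := delb_plane_isSph h1.1.good
  have hD : Disjoint (𝔭.pg z d).Km (𝔭.pg z d).Kp := by
    refine Set.disjoint_left.2 ?_
    rintro _ ⟨u, hu, rfl⟩ ⟨u', hu', e⟩
    have : u' = u := by
      unfold pvthSim at e
      exact mul_left_cancel₀ hd (add_left_cancel e)
    exact Set.disjoint_left.1 hdis hu (this ▸ hu')
  obtain ⟨he, hn, hm⟩ := PvzlGt.unique hT hD hg hg₂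
  rw [pviq_gate_ext he hn hm]

end doors

/-! ## 3. links -/

/-- the link moved by the isometry `w ↦ c + a w` -/
def pviqLk (L : PvilLk) (c a : ℂ) : PvilLk := ⟨L.p.mv c a, L.p'.mv c a, pvthSim c a '' L.Yin, pvthSim c a '' L.Mk, L.dr, L.dr'⟩

theorem pviq_e_eqns_cite3 : True := by
  have := @pviqLk.eq_1
  trivial

theorem pviq_lk_back (L : PvilLk) {a : ℂ} (ha : a ≠ 0) (c : ℂ) : pviqLk (pviqLk L c a) (-(a⁻¹ * c)) a⁻¹ = L := by
  have e : ∀ w, pvthSim (-(a⁻¹ * c)) a⁻¹ (pvthSim c a w) = w := fun w => by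
    unfold pvthSim
    field_simp
    ring
  unfold pviqLk
  simp only [pviq_mv_back _ ha, image_image, e, image_id']

section links

variable {η η' : Conf PvPt} {b b' : Bool} {a c : ℂ} {N : PvwNum} {L : PvilLk}

theorem pviq_run (M : PviqMor η η' b b' a c) {𝔖 𝔖' : PvwSt (pvieT η)} {n : ℕ} (h : L.Run b η 𝔖 𝔖' n) : (pviqLk L c a).Run b' η' (pviqSt M.iso 𝔖) (pviqSt M.iso 𝔖') n := by
  obtain ⟨h1, h2, h3, h4⟩ := h
  refine ⟨h1, ?_, fun i hi e => h3 i hi ?_, fun i hi hi' => ?_⟩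
  · show pvasIt (pvieT η') (pvieCol η' b') (M.iso.fD 𝔖.dp) n = M.iso.fD 𝔖'.dm
    rw [pviq_it M.iso M.hs, h2]
  · have e' : pvasIt (pvieT η') (pvieCol η' b') (M.iso.fD 𝔖.dp) i = M.iso.fD 𝔖'.dm := e
    rw [pviq_it M.iso M.hs] at e'
    exact M.iso.fD.injective e'
  · show pviePos η' ((pvieT η').src (pvasIt (pvieT η') (pvieCol η' b') (M.iso.fD 𝔖.dp) i)) ∈ pvthSim c a '' L.Yin ∧
      pviePos η' ((pvieT η').tgt (pvasIt (pvieT η') (pvieCol η' b') (M.iso.fD 𝔖.dp) i)) ∈ pvthSim c a '' L.Yin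
    rw [pviq_it M.iso M.hs, M.iso.src, M.iso.tgt, M.pos', M.pos']
    exact ⟨⟨_, (h4 i hi hi').1, rfl⟩, ⟨_, (h4 i hi hi').2, rfl⟩⟩

theorem pviq_atP (M : PviqMor η η' b b' a c) (a4 : a ^ 4 = 1) {𝔖 : PvwSt (pvieT η)} (h : L.AtP N b η 𝔖) : (pviqLk L c a).AtP N b' η' (pviqSt M.iso 𝔖) := by
  cases hd : L.dr
  · exact (PvilLk.atP_pin (L := pviqLk L c a) hd N b' η' _).2 (pviq_out M ((PvilLk.atP_pin hd N b η 𝔖).1 h))
  · exact (PvilLk.atP_door (L := pviqLk L c a) hd N b' η' _).2 (pviq_door M a4 ((PvilLk.atP_door hd N b η 𝔖).1 h))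

theorem pviq_atP' (M : PviqMor η η' b b' a c) (a4 : a ^ 4 = 1) {𝔖 : PvwSt (pvieT η)} (h : L.AtP' N b η 𝔖) : (pviqLk L c a).AtP' N b' η' (pviqSt M.iso 𝔖) := by
  cases hd : L.dr'
  · exact (PvilLk.atP'_pin (L := pviqLk L c a) hd N b' η' _).2 (pviq_in M ((PvilLk.atP'_pin hd N b η 𝔖).1 h))
  · exact (PvilLk.atP'_door (L := pviqLk L c a) hd N b' η' _).2 (pviq_door M a4 ((PvilLk.atP'_door hd N b η 𝔖).1 h))

theorem pviq_arc (M : PviqMor η η' b b' a c) (a4 : a ^ 4 = 1) {𝔖 𝔖' : PvwSt (pvieT η)} {y : (pvieT η).Pth} (h : L.Arc N b η 𝔖 𝔖' y) :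
    (pviqLk L c a).Arc N b' η' (pviqSt M.iso 𝔖) (pviqSt M.iso 𝔖') (pviqPth M.iso y) := by
  obtain ⟨n, h1, h2⟩ := h.run
  refine ⟨pviq_atP M a4 h.at_p, pviq_atP' M a4 h.at_p', n, pviq_run M h1, pviq_le M.iso (fun i => ?_) h2⟩
  show (pvieT η').src (pvasIt (pvieT η') (pvieCol η' b') (M.iso.fD 𝔖.dp) i) = _
  rw [pviq_it M.iso M.hs, M.iso.src]

/-- **THE PLAIN SUCCESS OF A LINK IS COVARIANT** -/
theorem pviq_A_iff (M : PviqMor η η' b b' a c) (a4 : a ^ 4 = 1) : η' ∈ (pviqLk L c a).A N b' ↔ η ∈ L.A N b := by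
  constructor
  · rintro ⟨𝔖, 𝔖', y, h⟩
    have := pviq_arc M.symm (by rw [inv_pow, a4, inv_one]) h
    rw [pviq_lk_back L M.a0] at this
    exact ⟨_, _, _, this⟩
  · rintro ⟨𝔖, 𝔖', y, h⟩
    exact ⟨_, _, _, pviq_arc M a4 h⟩

theorem pviq_ball (ha : ‖a‖ = 1) (L : PvilLk) (c : ℂ) (N : PvwNum) (w : ℂ) : pvthSim c a w ∈ (pviqLk L c a).ball N ↔ w ∈ L.ball N := by
  show pvthSim c a w ∈ Metric.closedBall (pvthSim c a L.p.z) (N.m * L.p.h) ↔ w ∈ Metric.closedBall L.p.z (N.m * L.p.h)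
  rw [mem_closedBall_iff_norm, mem_closedBall_iff_norm, pviq_sim_norm ha]

theorem pviq_ball' (ha : ‖a‖ = 1) (L : PvilLk) (c : ℂ) (N : PvwNum) (w : ℂ) : pvthSim c a w ∈ (pviqLk L c a).ball' N ↔ w ∈ L.ball' N := by
  show pvthSim c a w ∈ Metric.closedBall (pvthSim c a L.p'.z) (N.m * L.p'.h) ↔ w ∈ Metric.closedBall L.p'.z (N.m * L.p'.h)
  rw [mem_closedBall_iff_norm, mem_closedBall_iff_norm, pviq_sim_norm ha]

theorem pviq_msk (ha : ‖a‖ = 1) (L : PvilLk) (c : ℂ) (N : PvwNum) (w : ℂ) : pvthSim c a w ∈ (pviqLk L c a).msk N ↔ w ∈ L.msk N := by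
  have e1 : pvthSim c a w ∈ (if L.dr then (∅ : Set ℂ) else (pviqLk L c a).ball N) ↔ w ∈ (if L.dr then (∅ : Set ℂ) else L.ball N) := by
    cases L.dr
    · exact pviq_ball ha L c N w
    · exact Iff.rfl
  have e2 : pvthSim c a w ∈ (if L.dr' then (∅ : Set ℂ) else (pviqLk L c a).ball' N) ↔ w ∈ (if L.dr' then (∅ : Set ℂ) else L.ball' N) := by
    cases L.dr'
    · exact pviq_ball' ha L c N w
    · exact Iff.rfl
  show pvthSim c a w ∈ pvthSim c a '' L.Mk ∧ ¬ (pvthSim c a w ∈ (if L.dr then (∅ : Set ℂ) else (pviqLk L c a).ball N) ∨ pvthSim c a w ∈ (if L.dr' then (∅ : Set ℂ) else (pviqLk L c a).ball' N)) ↔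
    w ∈ L.Mk ∧ ¬ (w ∈ (if L.dr then (∅ : Set ℂ) else L.ball N) ∨ w ∈ (if L.dr' then (∅ : Set ℂ) else L.ball' N))
  rw [pviq_sim_mem ha, e1, e2]

theorem pviq_bary (M : PviqMor η η' b b' a c) (d : (delbPl (pvieY η)).Dart) : (pvieT η').bary (pviePos η') (M.iso.fD d) = pvthSim c a ((pvieT η).bary (pviePos η) d) := by
  rw [M.iso.bary M.pos, pviq_sim_apply]

/-- **THE VALUE READ ON MOVED WITNESSES** -/
theorem pviq_val (M : PviqMor η η' b b' a c) {w : (delbPl (pvieY η)).Dart → ℂ} {w' : (delbPl (pvieY η')).Dart → ℂ} (hw : ∀ d, w' (M.iso.fD d) = a * w d)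
    (𝔖 𝔖' : PvwSt (pvieT η)) (y : (pvieT η).Pth) : (pviqLk L c a).val N η' w' (pviqSt M.iso 𝔖) (pviqSt M.iso 𝔖') (pviqPth M.iso y) = a * L.val N η w 𝔖 𝔖' y := by
  have hB : ∀ d, (pvieT η').bary (pviePos η') (M.iso.fD d) ∈ (pviqLk L c a).ball N ↔ (pvieT η).bary (pviePos η) d ∈ L.ball N := fun d => by rw [pviq_bary M, pviq_ball M.na]
  have hK : ∀ d, (pvieT η').bary (pviePos η') (M.iso.fD d) ∈ (pviqLk L c a).msk N ↔ (pvieT η).bary (pviePos η) d ∈ L.msk N := fun d => by rw [pviq_bary M, pviq_msk M.na]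
  show (if L.dr then 0 else pvwMass (pvieT η') (pviePos η') w' ((pviqLk L c a).ball N) (pviqPth M.iso 𝔖.inn) 0 𝔖.inn.n) +
      pvwMass (pvieT η') (pviePos η') w' ((pviqLk L c a).msk N) (pviqPth M.iso 𝔖.inn) (if L.dr then 0 else 𝔖.ip) 𝔖.inn.n +
      pvwMass (pvieT η') (pviePos η') w' ((pviqLk L c a).msk N) (pviqPth M.iso y) 0 y.n +
      pvwMass (pvieT η') (pviePos η') w' ((pviqLk L c a).msk N) (pviqPth M.iso 𝔖'.inn) 0 (if L.dr' then 𝔖'.inn.n else 𝔖'.ip) = a * L.val N η w 𝔖 𝔖' y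
  rw [pviq_mass M.iso hw hB, pviq_mass M.iso hw hK, pviq_mass M.iso hw hK, pviq_mass M.iso hw hK]
  unfold PvilLk.val
  cases L.dr <;> simp only [Bool.false_eq_true, if_false, if_true] <;> ring

/-- two paths with the same darts have the same masses -/
theorem pviq_mass_congr {V D : Type} {T : PvMap V D} (pos : V → ℂ) (w : D → ℂ) (K : Set ℂ) {y y' : T.Pth} {i j : ℕ} (h : ∀ k, k < j → y.e k = y'.e k) :
    pvwMass T pos w K y i j = pvwMass T pos w K y' i j := by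
  unfold pvwMass
  refine Finset.sum_congr rfl fun k hk => ?_
  rw [h k (Finset.mem_Ico.1 hk).2]

theorem pviq_fr_inj {p : PvilPl} (h : p.fr ≠ 0) (η : Conf PvPt) : Function.Injective (p.pos η) := fun u v e =>
  Subtype.ext (mul_left_cancel₀ (by simpa using h : conj p.fr ≠ 0) e)

/-- the end `p`: what the value reads does not depend on the record -/
theorem pviq_atP_uniq (hf : L.p.fr ≠ 0) (hh : L.dr = true → 0 < L.p.h) (w : (delbPl (pvieY η)).Dart → ℂ) {𝔖₁ 𝔖₂ : PvwSt (pvieT η)} (h₁ : L.AtP N b η 𝔖₁) (h₂ : L.AtP N b η 𝔖₂) :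
    𝔖₁.dp = 𝔖₂.dp ∧ 𝔖₁.ip = 𝔖₂.ip ∧ ∀ (K : Set ℂ) (i : ℕ), pvwMass (pvieT η) (pviePos η) w K 𝔖₁.inn i 𝔖₁.inn.n = pvwMass (pvieT η) (pviePos η) w K 𝔖₂.inn i 𝔖₂.inn.n := by
  cases hd : L.dr
  · have a₁ := (PvilLk.atP_pin hd N b η 𝔖₁).1 h₁
    have a₂ := (PvilLk.atP_pin hd N b η 𝔖₂).1 h₂
    obtain ⟨G, -⟩ := pvuq_atOut (delb_plane_isSph a₁.good) (pvgy_m_simple (pvieY η)) (pviq_fr_inj hf η) a₁.st a₂.st
    exact ⟨G.dp, G.ip, fun K i => by rw [← G.inn_n]; exact G.mass _ _ _ le_rfl⟩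
  · obtain rfl := pviq_door_uniq (pviq_P_disj (hh hd)) hf ((PvilLk.atP_door hd N b η 𝔖₁).1 h₁) ((PvilLk.atP_door hd N b η 𝔖₂).1 h₂)
    exact ⟨rfl, rfl, fun _ _ => rfl⟩

/-- the end `p'` -/
theorem pviq_atP'_uniq (hf : L.p'.fr ≠ 0) (hh : L.dr' = true → 0 < L.p'.h) (w : (delbPl (pvieY η)).Dart → ℂ) {𝔖₁ 𝔖₂ : PvwSt (pvieT η)} (h₁ : L.AtP' N b η 𝔖₁) (h₂ : L.AtP' N b η 𝔖₂) :
    𝔖₁.dm = 𝔖₂.dm ∧ ∀ K : Set ℂ, pvwMass (pvieT η) (pviePos η) w K 𝔖₁.inn 0 (if L.dr' then 𝔖₁.inn.n else 𝔖₁.ip) = pvwMass (pvieT η) (pviePos η) w K 𝔖₂.inn 0 (if L.dr' then 𝔖₂.inn.n else 𝔖₂.ip) := by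
  cases hd : L.dr'
  · have a₁ := (PvilLk.atP'_pin hd N b η 𝔖₁).1 h₁
    have a₂ := (PvilLk.atP'_pin hd N b η 𝔖₂).1 h₂
    obtain ⟨G, -⟩ := pvuq_atIn (delb_plane_isSph a₁.good) (pvgy_m_simple (pvieY η)) (pviq_fr_inj hf η) a₁.st a₂.st
    refine ⟨G.dm, fun K => ?_⟩
    simp only [Bool.false_eq_true, if_false]
    rw [← G.ip]; exact G.mass _ _ _ a₁.st.gate.ip_le
  · obtain rfl := pviq_door_uniq (pviq_P_disj (hh hd)) hf ((PvilLk.atP'_door hd N b η 𝔖₁).1 h₁) ((PvilLk.atP'_door hd N b η 𝔖₂).1 h₂)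
    exact ⟨rfl, fun _ => rfl⟩

/-- the frames do not vanish, the units of the door ends are positive -/
structure PviqLkOk (L : PvilLk) : Prop where
  fr : L.p.fr ≠ 0
  fr' : L.p'.fr ≠ 0
  h : L.dr = true → 0 < L.p.h
  h' : L.dr' = true → 0 < L.p'.h

theorem PviqLkOk.mv (H : PviqLkOk L) (ha : a ≠ 0) (c : ℂ) : PviqLkOk (pviqLk L c a) := ⟨mul_ne_zero ha H.fr, mul_ne_zero ha H.fr', H.h, H.h'⟩

/-- **WITNESS INDEPENDENCE**: the value of a link does not depend on the records which carry the two end states and the arc -/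
theorem pviq_val_uniq (H : PviqLkOk L) (w : (delbPl (pvieY η)).Dart → ℂ) {𝔖₁ 𝔖₁' 𝔖₂ 𝔖₂' : PvwSt (pvieT η)} {y₁ y₂ : (pvieT η).Pth}
    (h₁ : L.Arc N b η 𝔖₁ 𝔖₁' y₁) (h₂ : L.Arc N b η 𝔖₂ 𝔖₂' y₂) : L.val N η w 𝔖₁ 𝔖₁' y₁ = L.val N η w 𝔖₂ 𝔖₂' y₂ := by
  have hS : (pvieT η).Simple := pvgy_m_simple (pvieY η)
  obtain ⟨Gdp, Gip, m1⟩ := pviq_atP_uniq H.fr H.h w h₁.at_p h₂.at_p
  obtain ⟨Gdm, m3⟩ := pviq_atP'_uniq H.fr' H.h' w h₁.at_p' h₂.at_p'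
  obtain ⟨n₁, r₁, l₁⟩ := h₁.run
  obtain ⟨n₂, r₂, l₂⟩ := h₂.run
  have hn : n₁ = n₂ := by
    obtain ⟨-, a2, a3, -⟩ := r₁
    obtain ⟨-, b2, b3, -⟩ := r₂
    rw [Gdp, Gdm] at a2 a3
    rcases lt_trichotomy n₁ n₂ with h | h | h
    · exact absurd a2 (b3 n₁ h)
    · exact h
    · exact absurd b2 (a3 n₂ h)
  subst hn
  rw [Gdp] at l₁
  obtain ⟨u1, -, u3⟩ := pvt_sd_unique hS l₁ l₂
  have m2 : pvwMass (pvieT η) (pviePos η) w (L.msk N) y₁ 0 y₁.n = pvwMass (pvieT η) (pviePos η) w (L.msk N) y₂ 0 y₂.n := by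
    rw [← u1]; exact pviq_mass_congr _ _ _ u3
  unfold PvilLk.val
  rw [m1, m1, Gip, m2, m3]

/-- the plain value is the value read on ANY witnesses -/
theorem pviq_X_eq (H : PviqLkOk L) (w : ∀ η : Conf PvPt, (delbPl (pvieY η)).Dart → ℂ) {𝔖 𝔖' : PvwSt (pvieT η)} {y : (pvieT η).Pth} (h : L.Arc N b η 𝔖 𝔖' y) :
    L.X N b w η = L.val N η (w η) 𝔖 𝔖' y := by
  have hex : ∃ (𝔖 𝔖' : PvwSt (pvieT η)) (y : (pvieT η).Pth), L.Arc N b η 𝔖 𝔖' y := ⟨_, _, _, h⟩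
  unfold PvilLk.X
  rw [dif_pos hex]
  exact pviq_val_uniq H _ hex.choose_spec.choose_spec.choose_spec h

theorem pviq_X_off (w : ∀ η : Conf PvPt, (delbPl (pvieY η)).Dart → ℂ) (h : η ∉ L.A N b) : L.X N b w η = 0 := by
  unfold PvilLk.X
  exact dif_neg h

/-- **THE PLAIN VALUE OF A LINK IS COVARIANT** -/
theorem pviq_lkX (M : PviqMor η η' b b' a c) (a4 : a ^ 4 = 1) (H : PviqLkOk L) {w : ∀ η : Conf PvPt, (delbPl (pvieY η)).Dart → ℂ} (hw : ∀ d, w η' (M.iso.fD d) = a * w η d) :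
    (pviqLk L c a).X N b' w η' = a * L.X N b w η := by
  by_cases h : η ∈ L.A N b
  · obtain ⟨𝔖, 𝔖', y, hA⟩ := h
    rw [pviq_X_eq H w hA, pviq_X_eq (H.mv M.a0 c) w (pviq_arc M a4 hA), pviq_val M hw]
  · rw [pviq_X_off w h, pviq_X_off w (fun h' => h ((pviq_A_iff M a4).1 h')), mul_zero]

theorem pviq_wQ (M : PviqMor η η' b b' a c) (d : (delbPl (pvieY η)).Dart) : pvilQ η' (M.iso.fD d) = a * pvilQ η d := M.iso.qpart M.pos d

theorem pviq_wV (M : PviqMor η η' b b' a c) (d : (delbPl (pvieY η)).Dart) : pvilV η' (M.iso.fD d) = a * pvilV η d := M.iso.side M.pos d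

end links

/-! ## 4. the reference frame of a candidate -/

section ref

variable {τ : Type} {c : ℝ} (𝔓 : PvxPar τ c) (𝔈 : PvieEng τ)

theorem pviq_inv_sim (z : ℂ) : pvthInv z 1 = pvthSim (-z) 1 := funext fun w => by unfold pvthInv pvthSim; ring

/-- **the configuration seen from the reference plug**: the colour `col t` of `η` is BLACK in `pvilRef η`, positions moved by `- zu` -/
theorem pviq_ref_mor (m : ℕ) (z : ℂ) (t : τ) {η : Conf PvPt} (h : PviqOne η) : PviqMor η (pvilRef 𝔓 m z t η) (𝔓.col t) true 1 (-pvieZu 𝔓 m z t) := by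
  unfold pvilRef
  rw [pviq_inv_sim]
  exact ((pviq_mor_fl (𝔓.col t) h).trans (pviq_mor_sim norm_one (-pvieZu 𝔓 m z t) (pvkyFl (𝔓.col t) η) true)).congr (by ring) (by ring)

/-- back: BLACK of `pvilRef η` is the colour `col t` of `η`, positions moved by `zu` -/
theorem pviq_ref_mor' (m : ℕ) (z : ℂ) (t : τ) {η : Conf PvPt} (h : PviqOne η) : PviqMor (pvilRef 𝔓 m z t η) η true (𝔓.col t) 1 (pvieZu 𝔓 m z t) :=
  (pviq_ref_mor 𝔓 m z t h).symm.congr inv_one (by rw [inv_one, one_mul, neg_neg])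

/-- the flip as a measurable equivalence -/
def pviqFlM (b : Bool) : Conf PvPt ≃ᵐ Conf PvPt where
  toFun := pvkyFl b
  invFun := pvkyFl b
  left_inv := pvky_fl_fl b
  right_inv := pvky_fl_fl b
  measurable_toFun := measurable_pvkyFl b
  measurable_invFun := measurable_pvkyFl b

/-- `pvilRef` as a measurable equivalence -/
noncomputable def pviqRefM (m : ℕ) (z : ℂ) (t : τ) : Conf PvPt ≃ᵐ Conf PvPt := (pviqFlM (𝔓.col t)).trans (pvdvM (pvdvSim (pvieZu 𝔓 m z t) 1 norm_one).symm)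

theorem pviq_refM_apply (m : ℕ) (z : ℂ) (t : τ) (η : Conf PvPt) : pviqRefM 𝔓 m z t η = pvilRef 𝔓 m z t η := rfl

/-- **`pvilRef` preserves the law** -/
theorem pviq_ref_map (m : ℕ) (z : ℂ) (t : τ) (ε : ℝ) : (pvP ε).map (pviqRefM 𝔓 m z t) = pvP ε := by
  have e : (pviqRefM 𝔓 m z t : Conf PvPt → Conf PvPt) = cfMap (pvdvSim (pvieZu 𝔓 m z t) 1 norm_one).symm ∘ pvkyFl (𝔓.col t) := rfl
  rw [e, ← Measure.map_map (measurable_cfMap (pvdvSim (pvieZu 𝔓 m z t) 1 norm_one).symm.continuous.measurable) (measurable_pvkyFl _), pvky_fl_map]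
  exact pvP_isometry _ ε

/-- a frame seen from the reference plug -/
theorem pviq_inv_ref (m : ℕ) (z : ℂ) (t : τ) (z' d : ℂ) (η : Conf PvPt) :
    cfMap (pvthInv (pvieZu 𝔓 m z t + z') d) (pvkyFl (𝔓.col t) η) = cfMap (pvthInv z' d) (pvilRef 𝔓 m z t η) := by
  unfold pvilRef
  rw [pvci_cfMap_comp]
  congr 1
  funext w
  simp only [pvthInv, Function.comp, div_one]
  ring

/-- membership of a placed kit event, seen from the reference plug -/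
theorem pviq_G_ref (kit : PvthKit) (m : ℕ) (z : ℂ) (t : τ) (z' d : ℂ) (η : Conf PvPt) :
    pvkyFl (𝔓.col t) η ∈ kit.G (pvieZu 𝔓 m z t + z') d ↔ pvilRef 𝔓 m z t η ∈ kit.G z' d := by
  unfold PvthKit.G
  rw [mem_preimage, mem_preimage, pviq_inv_ref]

/-- **`1_G / μ(G)` of a door, seen from the reference plug** -/
theorem pviq_g_ref (kit : PvthKit) (μ : Measure (Conf PvPt)) (m : ℕ) (z : ℂ) (t : τ) (z' d : ℂ) (η : Conf PvPt) :
    kit.g μ (pvieZu 𝔓 m z t + z') d (pvkyFl (𝔓.col t) η) = kit.g μ z' d (pvilRef 𝔓 m z t η) := by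
  unfold PvthKit.g
  congr 1
  by_cases h : pvilRef 𝔓 m z t η ∈ kit.G z' d
  · rw [indicator_of_mem h, indicator_of_mem ((pviq_G_ref 𝔓 kit m z t z' d η).2 h)]; rfl
  · rw [indicator_of_notMem h, indicator_of_notMem fun h' => h ((pviq_G_ref 𝔓 kit m z t z' d η).1 h')]

/-- **`1_G / μ(G)` of the reference plug** -/
theorem pviq_Gr_ref (m : ℕ) (ε : ℝ) (z : ℂ) (t : τ) (η : Conf PvPt) :
    pvieGr 𝔈 m ε (pvieZu 𝔓 m z t) (pvkyFl (𝔓.col t) η) = pvieGr 𝔈 m ε 0 (pvilRef 𝔓 m z t η) := by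
  have e := pviq_inv_ref 𝔓 m z t 0 1 η
  rw [add_zero] at e
  unfold pvieGr
  congr 1
  have e2 : pvkyFl (𝔓.col t) η ∈ cfMap (pvthInv (pvieZu 𝔓 m z t) 1) ⁻¹' 𝔈.rG m ε ↔ pvilRef 𝔓 m z t η ∈ cfMap (pvthInv 0 1) ⁻¹' 𝔈.rG m ε := by
    rw [mem_preimage, mem_preimage, e]
  by_cases h : pvilRef 𝔓 m z t η ∈ cfMap (pvthInv 0 1) ⁻¹' 𝔈.rG m ε
  · rw [indicator_of_mem h, indicator_of_mem (e2.2 h)]; rfl
  · rw [indicator_of_notMem h, indicator_of_notMem fun h' => h (e2.1 h')]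

/-- change of variables, ANY weight, ANY function -/
theorem pviq_ref_integral (m : ℕ) (z : ℂ) (t : τ) (ε : ℝ) (w : Conf PvPt → ℝ≥0∞) (F : Conf PvPt → ℂ) :
    ∫ η, F (pvilRef 𝔓 m z t η) ∂((pvP ε).withDensity fun η => w (pvilRef 𝔓 m z t η)) = ∫ η, F η ∂((pvP ε).withDensity w) :=
  pvdv_integral_equiv (pviqRefM 𝔓 m z t) (pviq_ref_map 𝔓 m z t ε) w F

theorem pviq_ref_lintegral (m : ℕ) (z : ℂ) (t : τ) (ε : ℝ) (F : Conf PvPt → ℝ≥0∞) : ∫⁻ η, F (pvilRef 𝔓 m z t η) ∂(pvP ε) = ∫⁻ η, F η ∂(pvP ε) :=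
  pvdv_lintegral_equiv (pviqRefM 𝔓 m z t) (pviq_ref_map 𝔓 m z t ε) F

theorem pviq_ref_measure (m : ℕ) (z : ℂ) (t : τ) (ε : ℝ) (S : Set (Conf PvPt)) : pvP ε {η | pvilRef 𝔓 m z t η ∈ S} = pvP ε S :=
  pvdv_measure_equiv (pviqRefM 𝔓 m z t) (pviq_ref_map 𝔓 m z t ε) S

theorem pviq_ref_ae (m : ℕ) (z : ℂ) (t : τ) (ε : ℝ) {p : Conf PvPt → Prop} (h : ∀ᵐ η ∂(pvP ε), p η) : ∀ᵐ η ∂(pvP ε), p (pvilRef 𝔓 m z t η) :=
  pvdv_ae_equiv (pviqRefM 𝔓 m z t) (pviq_ref_map 𝔓 m z t ε) h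

/-- **(A) THE MEAN OF THE LINK INTO THE REFERENCE PLUG OF `(z,t)` IS THE CONSTANT `pvilKin0W`, FOR EVERY `(z,t)`** -/
theorem pviq_kin0 (w : ∀ η : Conf PvPt, (delbPl (pvieY η)).Dart → ℂ) (m : ℕ) (ε : ℝ) (z : ℂ) (t : τ) :
    ∫ η, pvilXr 𝔓 𝔈 m ε w (pvilRef 𝔓 m z t η) ∂((pvP ε).withDensity fun η =>
      (𝔈.kit m ε).g (pvP ε) (pvieZu 𝔓 m z t + (𝔓.Γ m).pin0) (𝔓.Γ m).din0 (pvkyFl (𝔓.col t) η) * pvieGr 𝔈 m ε (pvieZu 𝔓 m z t) (pvkyFl (𝔓.col t) η) * pvilWr 𝔓 𝔈 m ε w (pvilRef 𝔓 m z t η)) =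
    pvilKin0W 𝔓 𝔈 w m ε := by
  simp only [pviq_g_ref, pviq_Gr_ref]
  exact pviq_ref_integral 𝔓 m z t ε (fun η => (𝔈.kit m ε).g (pvP ε) (𝔓.Γ m).pin0 (𝔓.Γ m).din0 η * pvieGr 𝔈 m ε 0 η * pvilWr 𝔓 𝔈 m ε w η) (pvilXr 𝔓 𝔈 m ε w)

theorem pviq_e_eqns_cite4 : True := by
  have := @pviqFlM.eq_1; have := @pviqRefM.eq_1
  trivial

end ref

/-! ## 5. recognition at the data of record -/

theorem pviq_plug_mv (r : ℝ) (z d c a : ℂ) : (pvilPlug r z d).mv c a = pvilPlug r (pvthSim c a z) (a * d) := by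
  unfold PvilPl.mv pvilPlug
  simp only [image_empty]

/-- half planes travel -/
theorem pviq_hp {a : ℂ} (ha : ‖a‖ = 1) (c z d : ℂ) : pvthSim c a '' pvilHp z d = pvilHp (pvthSim c a z) (a * d) := by
  have key : ∀ w, pvthSim c a w ∈ pvilHp (pvthSim c a z) (a * d) ↔ w ∈ pvilHp z d := fun w => by
    unfold pvilHp
    rw [mem_ofPred_eq, mem_ofPred_eq, show (pvthSim c a w - pvthSim c a z) * conj (a * d) = (conj a * a) * ((w - z) * conj d) by rw [map_mul]; unfold pvthSim; ring,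
      pviq_conj_mul ha, one_mul]
  ext w'
  constructor
  · rintro ⟨w, hw, rfl⟩
    exact (key w).2 hw
  · intro hw'
    refine ⟨pvthSim (-(a⁻¹ * c)) a⁻¹ w', ?_, pviq_sim_back (pviq_ne ha) c w'⟩
    rw [← key, pviq_sim_back (pviq_ne ha) c w']
    exact hw'

theorem pviq_sh (z : ℂ) (S : Set ℂ) : pvthSim z 1 '' S = pvieSh z S := by
  unfold pvieSh
  refine image_congr fun w _ => ?_
  unfold pvthSim; ring

section rec

variable {τ : Type} {c : ℝ} (𝔓 : PvxPar τ c) (𝔈 : PvieEng τ)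

/-- **the link `last door → reference plug of (z,t)`, READ IN `η` ITSELF** (colour `col t`) -/
noncomputable def pviqLr (m : ℕ) (z : ℂ) (t : τ) : PvilLk :=
  ⟨pvilPlug (pvilRd 𝔓 m) (pvieZu 𝔓 m z t + (𝔓.Γ m).pin0) (𝔓.Γ m).din0, pvilPlug (pvilRu 𝔈 m) (pvieZu 𝔓 m z t) 1, pvieSh (pvieZu 𝔓 m z t) (𝔈.rY m),
    pvilHp (pvieZu 𝔓 m z t + (𝔓.Γ m).pin0) (𝔓.Γ m).din0 \ (pvieSh (pvieZu 𝔓 m z t) (𝔈.rO m) ∩ pvilHp (pvieZu 𝔓 m z t) 1), true, true⟩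

theorem pviq_e_eqns_cite5 : True := by
  have := @pviqLr.eq_1
  trivial

theorem pviq_Lr_eq (m : ℕ) (z : ℂ) (t : τ) : pviqLk (pvilLr 𝔓 𝔈 m) (pvieZu 𝔓 m z t) 1 = pviqLr 𝔓 𝔈 m z t := by
  have inj := pviq_sim_inj norm_one (pvieZu 𝔓 m z t)
  have e1 : pvthSim (pvieZu 𝔓 m z t) 1 (𝔓.Γ m).pin0 = pvieZu 𝔓 m z t + (𝔓.Γ m).pin0 := by unfold pvthSim; ring
  have e2 : pvthSim (pvieZu 𝔓 m z t) 1 0 = pvieZu 𝔓 m z t := by unfold pvthSim; ring
  unfold pviqLk pvilLr pviqLr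
  simp only [pviq_plug_mv, image_sdiff inj, image_inter inj, pviq_hp norm_one, pviq_sh, e1, e2, one_mul]

theorem pviq_Rd_pos {m : ℕ} (h1 : 0 < pvlmDel c m) : 0 < pvilRd 𝔓 m := by unfold pvilRd; positivity

theorem pviq_Lr_ok {m : ℕ} (hd : (𝔓.Γ m).din0 ≠ 0) (h1 : 0 < pvlmDel c m) (h2 : 0 < (𝔈.rp m).h) : PviqLkOk (pvilLr 𝔓 𝔈 m) :=
  ⟨hd, one_ne_zero, fun _ => pviq_Rd_pos 𝔓 h1, fun _ => h2⟩

theorem pviq_Lo_ok {m : ℕ} (z : ℂ) {t : τ} (hd : (𝔓.Γ m).dout t ≠ 0) (h1 : 0 < pvlmDel c m) : PviqLkOk (pvilLo 𝔓 𝔈 m z t) :=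
  ⟨one_ne_zero, hd, fun h => (Bool.false_ne_true h).elim, fun _ => pviq_Rd_pos 𝔓 h1⟩

theorem pviq_Li_ok {m : ℕ} (z : ℂ) {t : τ} (hd : (𝔓.Γ m).din t ≠ 0) (h1 : 0 < pvlmDel c m) : PviqLkOk (pvilLi 𝔓 𝔈 m z t) :=
  ⟨hd, one_ne_zero, fun _ => pviq_Rd_pos 𝔓 h1, fun h => (Bool.false_ne_true h).elim⟩

theorem pviq_Le_ok {m : ℕ} (z : ℂ) (t : τ) (h2 : 0 < (𝔈.rp m).h) : PviqLkOk (pvilLe 𝔓 𝔈 m z t) :=
  ⟨one_ne_zero, one_ne_zero, fun _ => h2, fun h => (Bool.false_ne_true h).elim⟩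

variable {η : Conf PvPt}

/-- **(B) RECOGNITION, EVENT**: the pulled back link succeeds iff the moved link succeeds in `η` itself -/
theorem pviq_Ar_iff (m : ℕ) (z : ℂ) (t : τ) (h : PviqOne η) : pvilRef 𝔓 m z t η ∈ (pvilLr 𝔓 𝔈 m).A 𝔓.num true ↔ η ∈ (pviqLr 𝔓 𝔈 m z t).A 𝔓.num (𝔓.col t) := by
  rw [← pviq_Lr_eq]
  exact (pviq_A_iff (pviq_ref_mor' 𝔓 m z t h) (one_pow 4)).symm

/-- **(B) RECOGNITION, VALUE** -/
theorem pviq_Xr (m : ℕ) (z : ℂ) (t : τ) (h : PviqOne η) (H : PviqLkOk (pvilLr 𝔓 𝔈 m)) {w : ∀ η : Conf PvPt, (delbPl (pvieY η)).Dart → ℂ}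
    (hw : ∀ d, w η ((pviq_ref_mor' 𝔓 m z t h).iso.fD d) = 1 * w (pvilRef 𝔓 m z t η) d) :
    (pvilLr 𝔓 𝔈 m).X 𝔓.num true w (pvilRef 𝔓 m z t η) = (pviqLr 𝔓 𝔈 m z t).X 𝔓.num (𝔓.col t) w η := by
  rw [← pviq_Lr_eq, pviq_lkX (pviq_ref_mor' 𝔓 m z t h) (one_pow 4) H hw, one_mul]

theorem pviq_XrQ (m : ℕ) (z : ℂ) (t : τ) (h : PviqOne η) (H : PviqLkOk (pvilLr 𝔓 𝔈 m)) :
    (pvilLr 𝔓 𝔈 m).X 𝔓.num true pvilQ (pvilRef 𝔓 m z t η) = (pviqLr 𝔓 𝔈 m z t).X 𝔓.num (𝔓.col t) pvilQ η := pviq_Xr 𝔓 𝔈 m z t h H (pviq_wQ _)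

theorem pviq_XrV (m : ℕ) (z : ℂ) (t : τ) (h : PviqOne η) (H : PviqLkOk (pvilLr 𝔓 𝔈 m)) :
    (pvilLr 𝔓 𝔈 m).X 𝔓.num true pvilV (pvilRef 𝔓 m z t η) = (pviqLr 𝔓 𝔈 m z t).X 𝔓.num (𝔓.col t) pvilV η := pviq_Xr 𝔓 𝔈 m z t h H (pviq_wV _)

theorem pviq_ae_one (ε : ℝ) : ∀ᵐ η ∂(pvP ε), PviqOne η := (delgp_ae_conf ε).mono fun _ h => h.2.2

/-- **(B) RECOGNITION, SOFT FORM**: a.s., on the soft success of the pulled back link, the moved link succeeds IN `η` ITSELF, the soft value IS its plain value, the moved window has its mesh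
(`nM` = the debt [MEAS] at the reference frame, ONCE, not at every `(z,t)`) -/
theorem pviq_Ar_soft (m : ℕ) (ε : ℝ) (z : ℂ) (t : τ) (H : PviqLkOk (pvilLr 𝔓 𝔈 m)) {w : ∀ η : Conf PvPt, (delbPl (pvieY η)).Dart → ℂ}
    (hw : ∀ (η : Conf PvPt) (h : PviqOne η) (d), w η ((pviq_ref_mor' 𝔓 m z t h).iso.fD d) = 1 * w (pvilRef 𝔓 m z t η) d)
    (hW : MeasurableSet (pvilWnr 𝔓 𝔈 m ε)) (nM : NullMeasurableSet (pvilMr 𝔓 𝔈 m ε ∩ {η | (pvilLr 𝔓 𝔈 m).X 𝔓.num true w η = pvilXr 𝔓 𝔈 m ε w η}) (pvP ε)) :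
    ∀ᵐ η ∂(pvP ε), pvilRef 𝔓 m z t η ∈ pvilAr 𝔓 𝔈 m ε w → η ∈ (pviqLr 𝔓 𝔈 m z t).A 𝔓.num (𝔓.col t) ∧ pvilXr 𝔓 𝔈 m ε w (pvilRef 𝔓 m z t η) = (pviqLr 𝔓 𝔈 m z t).X 𝔓.num (𝔓.col t) w η ∧
      η ∈ pvilMs 𝔓 m (pvieSh (pvieZu 𝔓 m z t) (pvilWnr 𝔓 𝔈 m ε)) := by
  have h0 : ∀ᵐ η ∂(pvP ε), η ∈ pvilAr 𝔓 𝔈 m ε w → η ∈ pvilMr 𝔓 𝔈 m ε ∩ {η | (pvilLr 𝔓 𝔈 m).X 𝔓.num true w η = pvilXr 𝔓 𝔈 m ε w η} :=
    pvsu_sure_sub (pv_isPpp ε) (hW.prod MeasurableSet.univ) nM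
  filter_upwards [pviq_ref_ae 𝔓 m z t ε h0, pviq_ae_one ε] with η h1 h2 h3
  obtain ⟨⟨h4, h6⟩, h5⟩ := h1 h3
  refine ⟨(pviq_Ar_iff 𝔓 𝔈 m z t h2).1 h4, by rw [← pviq_Xr 𝔓 𝔈 m z t h2 H (hw η h2)]; exact h5.symm, ?_⟩
  rw [← pviq_sh]
  exact pviq_mesh (pviq_ref_mor' 𝔓 m z t h2) (one_pow 4) h6

theorem pviq_Ar_softQ (m : ℕ) (ε : ℝ) (z : ℂ) (t : τ) (H : PviqLkOk (pvilLr 𝔓 𝔈 m)) (hW : MeasurableSet (pvilWnr 𝔓 𝔈 m ε))
    (nM : NullMeasurableSet (pvilMr 𝔓 𝔈 m ε ∩ {η | (pvilLr 𝔓 𝔈 m).X 𝔓.num true pvilQ η = pvilXr 𝔓 𝔈 m ε pvilQ η}) (pvP ε)) :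
    ∀ᵐ η ∂(pvP ε), pvilRef 𝔓 m z t η ∈ pvilAr 𝔓 𝔈 m ε pvilQ → η ∈ (pviqLr 𝔓 𝔈 m z t).A 𝔓.num (𝔓.col t) ∧ pvilXr 𝔓 𝔈 m ε pvilQ (pvilRef 𝔓 m z t η) = (pviqLr 𝔓 𝔈 m z t).X 𝔓.num (𝔓.col t) pvilQ η ∧
      η ∈ pvilMs 𝔓 m (pvieSh (pvieZu 𝔓 m z t) (pvilWnr 𝔓 𝔈 m ε)) :=
  pviq_Ar_soft 𝔓 𝔈 m ε z t H (fun _ _ => pviq_wQ _) hW nM

end rec

/-! ## 6. the flip dictionary of the kit: black objects of `pvkyFl b η` ARE objects of colour `b` of `η` -/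

section flip

variable {η : Conf PvPt} {b : Bool}

theorem pviq_sim_id (w : ℂ) : pvthSim 0 1 w = w := by unfold pvthSim; ring

/-- a door of colour `b` in `η` is a door of 34 in `pvkyFl b η` -/
theorem pviq_door_fl (h : PviqOne η) {𝔭 : PvkdPlug} {z d : ℂ} {𝔖 : PvwSt (pvieT η)} (hD : PvilDoor 𝔭 b η z d 𝔖) : PvkdDoor 𝔭 (pvkyFl b η) z d (pviqSt (pviq_mor_fl b h).iso 𝔖) := by
  have := pviq_door (pviq_mor_fl b h) (one_pow 4) hD
  rw [pviq_sim_id, one_mul] at this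
  exact (pvil_door_true _ _ _ _ _).1 this

/-- the flip, back: BLACK of `pvkyFl b η` is the colour `b` of `η` -/
theorem pviq_mor_fl' (b : Bool) (h : PviqOne η) : PviqMor (pvkyFl b η) η true b 1 0 := (pviq_mor_fl b h).symm.congr inv_one (by rw [mul_zero, neg_zero])

/-- back -/
theorem pviq_door_fl' (h : PviqOne η) {𝔭 : PvkdPlug} {z d : ℂ} {𝔖 : PvwSt (pvkiT (pvkyFl b η))} (hD : PvkdDoor 𝔭 (pvkyFl b η) z d 𝔖) : PvilDoor 𝔭 b η z d (pviqSt (pviq_mor_fl' b h).iso 𝔖) := by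
  have := pviq_door (pviq_mor_fl' b h) (one_pow 4) ((pvil_door_true _ _ _ _ _).2 hD)
  rw [pviq_sim_id, one_mul] at this
  exact this

/-- the gate of record of colour `b` in `η` is the gate of record of 34 in `pvkyFl b η` -/
theorem pviq_gate_fl (h : PviqOne η) {𝔭 : PvkdPlug} {z d : ℂ} {g : (pvieT η).Gate (pvieCol η b)} (hg : PvzlGt (pvieT η) Subtype.val (pvieCol η b) (𝔭.pg z d) g) :
    PvzlGt (pvieT (pvkyFl b η)) Subtype.val (pvieCol (pvkyFl b η) true) (𝔭.pg z d) (pvcoGate (pviq_mor_fl b h).iso (pviq_mor_fl b h).hs g) := by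
  have := pvco_gt (pviq_mor_fl b h).hs ((pviq_mor_fl b h).pg 𝔭 z d) hg
  rw [pviq_sim_id, one_mul] at this
  exact this

/-- the plug event of 34 at `pvkyFl b η`, read in `η` -/
theorem pviq_C_fl (h : PviqOne η) (𝔭 : PvkdPlug) (z d : ℂ) : pvkyFl b η ∈ 𝔭.C z d ↔ ∃ 𝔖 : PvwSt (pvieT η), PvilDoor 𝔭 b η z d 𝔖 := by
  constructor
  · rintro ⟨h1, g, hg⟩
    exact ⟨_, pviq_door_fl' h ⟨h1, g, hg, rfl⟩⟩
  · rintro ⟨𝔖, hD⟩
    obtain ⟨h1, g, hg, -⟩ := pviq_door_fl h hD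
    exact ⟨h1, g, hg⟩

end flip

end Claimed.Agent.R289
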