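import Claimed.Agent.R289.Tr.SoftE
import Claimed.Agent.R289.Tr.CellNum

/-!
# Row 289 (S0537), THE WALL, ROAD E, box TR-CHAINI, file Tr/ChainI : FROM THE LIST OF THE REGIONS, THE CELL KIT, TWO WINDOW ENDS AND TWO GOOD BASES TO THE CHAIN RECORD      (helper218; prefix `pvkyi_`, `pvkyi`, `Pvkyi`)

MODEL FREE (no `Tr/InstE`, no `Tr/InstL`: nothing here moves when the windows of record are patched).   `Tr/ChainY` (218) = TR1 TR2 TR3 from the record `PvkyChain`;   `Tr/SoftE` (141) = `pvue_chain` : `PvkyChain` from two window ends + `PvkeGeo CO CK` + forcing and second moments ALONG THE EXPERIMENT OF THE CHAIN.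
THIS FILE removes what is not a statement on ONE candidate:
* sec. 1  **THE GEOMETRY FROM THE LIST OF 161** : `pvkyiTiles` (`= pvieTiles`), `PvkyiSimple` (`= PvieSimple`), `pvkyiC` (`= pvieCc`), generic in the sets;   `PvkyiSimple.geo` (`PvkeGeo`), `pvkyi_CO`, `pvkyi_CK`, `pvkyi_sub_o`, `pvkyi_sub_i`, `.Mo_C`, `.Mi_C`, `.Mo_Mi`,
          `pvkyi_Z_last`, `pvkyi_D_last` (the last door of a word), `pvkyi_measurable_door _tile _C`.
* sec. 2  **through its window an end link does not see which experiment is run** : `PvueWin.pvkyi_restr`, `.pvkyi_own`, `.pvkyi_rQ`, `.pvkyi_door`;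
          **`pvkyi_win`** : `PvueWin` FROM THE SETS for a window `Z⁺ ∪ mouth ∪ tile ∪ door` (`Z⁺` = ANY set), fresh sites `mouth \ F`, experiment = the fresh sites of the two mouths.      What is asked of `Z⁺` : `C ∩ Z⁺ ⊆ tile ∪ door`;  the sites of the base in `Z⁺ ∩` (other mouth) are frozen there.
* sec. 3  **`PvkyiGd kit ε b e z d q ω`** = THE GOOD BASES OF AN END LINK, a statement on the OWN experiment (own tile, own door, own fresh sites): forcing for a.e. seed, finite plain second moment.   NO pattern, NO chain: this is what `Gd` (`O` at `t`, `I` at `s`) owes.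
          `PvkyiGd.frc_big`, `.sq_big` (carried to the experiment of the chain),   **`pvkyi_chain`** : `PvkyiSimple + PvcnOkQ + d ^ 4 = 1 + 2 PvueWin + 2 PvkyiGd ⟹ PvkyChain` at the funnels of record `pvkyiFun`.
-/

set_option autoImplicit false
set_option linter.unusedSectionVars false

namespace Claimed.Agent.R289

open MeasureTheory ProbabilityTheory Set
open scoped ENNReal

/-! ## 1. the geometry of a simple chain: from the list of 161 to the indexed form -/

section geo

variable (kit : PvthKit) (z d : ℂ) (l : List PvtTurn) (Mo Mi Ko Ki : Set ℂ)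

/-- the RESAMPLED regions of a chain (`= pvieTiles` of 161): the two end tiles, the last door, the doors `0 .. n-1`, the tiles of the cells -/
noncomputable def pvkyiTiles : List (Set ℂ) :=
  [Ko, Ki, pvkyDoor kit (pvthZ kit.δ z d l l.length) (pvthD d l l.length)] ++
  (List.range l.length).map (fun j => pvkyDoor kit (pvthZ kit.δ z d l j) (pvthD d l j)) ++
  (List.range l.length).map (fun j => pvthSim (pvthZ kit.δ z d l j) (pvthD d l j) '' kit.K₀ (pvthL l j))

/-- **the chain is SIMPLE** (`= PvieSimple` of 161): the two recoloured mouths and all the resampled regions are pairwise disjoint -/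
def PvkyiSimple : Prop := ([Mo, Mi] ++ pvkyiTiles kit z d l Ko Ki).Pairwise Disjoint

/-- `C_c` = the resampled region of the chain (`= pvieCc` of 161) -/
def pvkyiC : Set ℂ := {w | ∃ S ∈ pvkyiTiles kit z d l Ko Ki, w ∈ S}

end geo

theorem pvkyi_eqns_cite : True := by
  have := @pvkyiTiles.eq_1; have := @PvkyiSimple.eq_1; have := @pvkyiC.eq_1
  trivial

section geo2

variable {kit : PvthKit} {z d : ℂ} {l : List PvtTurn} {Mo Mi Ko Ki : Set ℂ}

theorem pvkyi_disj_prod {A B : Set ℂ} (h : Disjoint A B) : Disjoint (A ×ˢ (univ : Set Bool)) (B ×ˢ (univ : Set Bool)) :=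
  Set.disjoint_left.2 fun _ h1 h2 => Set.disjoint_left.1 h h1.1 h2.1

theorem pvkyi_pairwise_range {n : ℕ} {f : ℕ → Set ℂ} (h : ((List.range n).map f).Pairwise Disjoint) : ∀ i < n, ∀ j < n, i ≠ j → Disjoint (f i) (f j) := by
  rw [List.pairwise_map] at h
  have key : ∀ i j, i < j → j < n → Disjoint (f i) (f j) := by
    intro i j hij hj
    have := (List.pairwise_iff_getElem.1 h) i j (by simpa using hij.trans hj) (by simpa using hj) hij
    simpa using this
  intro i hi j hj hne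
  rcases lt_or_gt_of_ne hne with h1 | h1
  · exact key i j h1 hj
  · exact (key j i h1 hi).symm

theorem pvkyi_sub_C {S : Set ℂ} (h : S ∈ pvkyiTiles kit z d l Ko Ki) : S ⊆ pvkyiC kit z d l Ko Ki := fun _ hw => ⟨S, h, hw⟩

theorem pvkyi_Ko_mem : Ko ∈ pvkyiTiles kit z d l Ko Ki := by simp [pvkyiTiles]

theorem pvkyi_Ki_mem : Ki ∈ pvkyiTiles kit z d l Ko Ki := by simp [pvkyiTiles]

theorem pvkyi_door_mem {j : ℕ} (hj : j ≤ l.length) : pvkyDoor kit (pvthZ kit.δ z d l j) (pvthD d l j) ∈ pvkyiTiles kit z d l Ko Ki := by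
  rcases lt_or_eq_of_le hj with h1 | h1
  · exact List.mem_append_left _ (List.mem_append_right _ (List.mem_map.2 ⟨j, List.mem_range.2 h1, rfl⟩))
  · rw [h1]; simp [pvkyiTiles]

theorem pvkyi_tile_mem {j : ℕ} (hj : j < l.length) : pvthSim (pvthZ kit.δ z d l j) (pvthD d l j) '' kit.K₀ (pvthL l j) ∈ pvkyiTiles kit z d l Ko Ki :=
  List.mem_append_right _ (List.mem_map.2 ⟨j, List.mem_range.2 hj, rfl⟩)

/-- field `CO` of `PvkyChain` -/
theorem pvkyi_CO {j : ℕ} (hj : j ≤ l.length) : pvkeO kit z d l j ⊆ pvkyiC kit z d l Ko Ki ×ˢ univ := prod_mono (pvkyi_sub_C (pvkyi_door_mem hj)) subset_rfl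

/-- field `CK` of `PvkyChain` -/
theorem pvkyi_CK {j : ℕ} (hj : j < l.length) : pvkeK kit z d l j ⊆ pvkyiC kit z d l Ko Ki ×ˢ univ := prod_mono (pvkyi_sub_C (pvkyi_tile_mem hj)) subset_rfl

/-- the first tile and the first door lie in `C_c` -/
theorem pvkyi_sub_o : Ko ∪ pvkyDoor kit z d ⊆ pvkyiC kit z d l Ko Ki := by
  refine union_subset (pvkyi_sub_C pvkyi_Ko_mem) ?_
  have := pvkyi_sub_C (pvkyi_door_mem (kit := kit) (z := z) (d := d) (l := l) (Ko := Ko) (Ki := Ki) (Nat.zero_le _))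
  rwa [pvthx_Z_zero, pvthx_D_zero] at this

/-- the last tile and the last door lie in `C_c` -/
theorem pvkyi_sub_i : Ki ∪ pvkyDoor kit (pvthZ kit.δ z d l l.length) (pvthD d l l.length) ⊆ pvkyiC kit z d l Ko Ki :=
  union_subset (pvkyi_sub_C pvkyi_Ki_mem) (pvkyi_sub_C (pvkyi_door_mem le_rfl))

/-- the exit mouth misses `C_c` -/
theorem PvkyiSimple.Mo_C (h : PvkyiSimple kit z d l Mo Mi Ko Ki) : Disjoint Mo (pvkyiC kit z d l Ko Ki) := by
  unfold PvkyiSimple at h
  rw [List.pairwise_append] at h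
  refine Set.disjoint_left.2 fun w hw ⟨S, hS, hwS⟩ => Set.disjoint_left.1 (h.2.2 Mo (by simp) S hS) hw hwS

/-- the entrance mouth misses `C_c` -/
theorem PvkyiSimple.Mi_C (h : PvkyiSimple kit z d l Mo Mi Ko Ki) : Disjoint Mi (pvkyiC kit z d l Ko Ki) := by
  unfold PvkyiSimple at h
  rw [List.pairwise_append] at h
  refine Set.disjoint_left.2 fun w hw ⟨S, hS, hwS⟩ => Set.disjoint_left.1 (h.2.2 Mi (by simp) S hS) hw hwS

theorem PvkyiSimple.Mo_Mi (h : PvkyiSimple kit z d l Mo Mi Ko Ki) : Disjoint Mo Mi := by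
  unfold PvkyiSimple at h
  rw [List.pairwise_append] at h
  simpa using h.1

/-- two different entries of the list of the resampled regions are disjoint;   here: every region but the first tile and the first door misses a set `Wn` as soon as .. (see `PvkiExp`) -/
theorem PvkyiSimple.tiles (h : PvkyiSimple kit z d l Mo Mi Ko Ki) : (pvkyiTiles kit z d l Ko Ki).Pairwise Disjoint := by
  unfold PvkyiSimple at h
  rw [List.pairwise_append] at h
  exact h.2.1

/-- **THE GEOMETRY OF A SIMPLE CHAIN**: from the list form to the indexed form `PvkeGeo` of `Tr/ChainE` -/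
theorem PvkyiSimple.geo (h : PvkyiSimple kit z d l Mo Mi Ko Ki) {fo fi : PvkeFun ℂ}
    (hoK : fo.K = Ko ×ˢ univ) (hiK : fi.K = Ki ×ˢ univ) (hoU : fo.U ⊆ Mo) (hiU : fi.U ⊆ Mi) : PvkeGeo kit z d l fo fi := by
  have hMM := h.Mo_Mi
  have h := h.tiles
  unfold pvkyiTiles at h
  rw [List.pairwise_append, List.pairwise_append] at h
  obtain ⟨⟨h3, hD, h3D⟩, hT, hDT⟩ := h
  simp only [List.pairwise_cons, List.mem_cons, List.not_mem_nil, or_false, forall_eq_or_imp, forall_eq, IsEmpty.forall_iff, implies_true, List.Pairwise.nil, and_true] at h3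
  obtain ⟨⟨hKK, hKoD⟩, hKiD⟩ := h3
  have hDD := pvkyi_pairwise_range hD
  have hTT := pvkyi_pairwise_range hT
  have dr : ∀ j < l.length, pvkyDoor kit (pvthZ kit.δ z d l j) (pvthD d l j) ∈ (List.range l.length).map (fun j => pvkyDoor kit (pvthZ kit.δ z d l j) (pvthD d l j)) :=
    fun j hj => List.mem_map.2 ⟨j, List.mem_range.2 hj, rfl⟩
  have tl : ∀ j < l.length, pvthSim (pvthZ kit.δ z d l j) (pvthD d l j) '' kit.K₀ (pvthL l j) ∈
      (List.range l.length).map (fun j => pvthSim (pvthZ kit.δ z d l j) (pvthD d l j) '' kit.K₀ (pvthL l j)) :=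
    fun j hj => List.mem_map.2 ⟨j, List.mem_range.2 hj, rfl⟩
  have door : ∀ i ≤ l.length, pvkyDoor kit (pvthZ kit.δ z d l i) (pvthD d l i) ∈ [Ko, Ki, pvkyDoor kit (pvthZ kit.δ z d l l.length) (pvthD d l l.length)] ++
      (List.range l.length).map (fun j => pvkyDoor kit (pvthZ kit.δ z d l j) (pvthD d l j)) := by
    intro i hi
    rcases lt_or_eq_of_le hi with h1 | h1
    · exact List.mem_append_right _ (dr i h1)
    · rw [h1]; exact List.mem_append_left _ (by simp)
  have hOO : ∀ i ≤ l.length, ∀ j ≤ l.length, i ≠ j → Disjoint (pvkyDoor kit (pvthZ kit.δ z d l i) (pvthD d l i)) (pvkyDoor kit (pvthZ kit.δ z d l j) (pvthD d l j)) := by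
    intro i hi j hj hne
    rcases lt_or_eq_of_le hi with h1 | h1 <;> rcases lt_or_eq_of_le hj with h2 | h2
    · exact hDD i h1 j h2 hne
    · rw [h2]; exact (h3D _ (by simp) _ (dr i h1)).symm
    · rw [h1]; exact h3D _ (by simp) _ (dr j h2)
    · exact absurd (h1.trans h2.symm) hne
  have hoD : ∀ i ≤ l.length, Disjoint (pvkyDoor kit (pvthZ kit.δ z d l i) (pvthD d l i)) Ko := by
    intro i hi
    rcases lt_or_eq_of_le hi with h1 | h1
    · exact (h3D _ (by simp) _ (dr i h1)).symm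
    · rw [h1]; exact hKoD.symm
  have hiD : ∀ i ≤ l.length, Disjoint (pvkyDoor kit (pvthZ kit.δ z d l i) (pvthD d l i)) Ki := by
    intro i hi
    rcases lt_or_eq_of_le hi with h1 | h1
    · exact (h3D _ (by simp) _ (dr i h1)).symm
    · rw [h1]; exact hKiD.symm
  refine ⟨fun i hi j hj hne => pvkyi_disj_prod (hOO i hi j hj hne), fun i hi j hj hne => pvkyi_disj_prod (hTT i hi j hj hne),
    fun i hi j hj => pvkyi_disj_prod (hDT _ (door i hi) _ (tl j hj)), fun i hi => ?_, fun i hi => ?_, fun j hj => ?_, fun j hj => ?_, ?_, ?_⟩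
  · rw [hoK]; exact pvkyi_disj_prod (hoD i hi)
  · rw [hiK]; exact pvkyi_disj_prod (hiD i hi)
  · rw [hoK]; exact pvkyi_disj_prod (hDT _ (List.mem_append_left _ (by simp)) _ (tl j hj)).symm
  · rw [hiK]; exact pvkyi_disj_prod (hDT _ (List.mem_append_left _ (by simp)) _ (tl j hj)).symm
  · rw [hoK, hiK]; exact pvkyi_disj_prod hKK
  · exact hMM.mono hoU hiU

/-- the last door of a word -/
theorem pvkyi_Z_last (δ : ℝ) (z d : ℂ) (l : List PvtTurn) : pvthZ δ z d l l.length = z + δ * pvtDisp d l := by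
  unfold pvthZ
  rw [List.take_length]

theorem pvkyi_D_last (d : ℂ) (l : List PvtTurn) : pvthD d l l.length = pvtDir d l := by
  unfold pvthD
  rw [List.take_length]

/-- the region of a door plug is Borel -/
theorem pvkyi_measurable_door (hk : kit.WF) (z : ℂ) {d : ℂ} (hd : d ≠ 0) : MeasurableSet (pvkyDoor kit z d) := by
  have h := pvth_mO hk z d hd
  have e : pvkyDoor kit z d = (fun w : ℂ => ((w, true) : PvPt)) ⁻¹' kit.O z d := by
    ext w
    simp [PvthKit.O, pvkyDoor]
  rw [e]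
  exact (measurable_id.prodMk measurable_const) h

/-- a placed tile is Borel -/
theorem pvkyi_measurable_tile (hk : kit.WF) (z : ℂ) {d : ℂ} (hd : d ≠ 0) (τ : PvtTurn) : MeasurableSet (pvthSim z d '' kit.K₀ τ) := by
  have h := pvth_mK hk z d hd τ
  have e : pvthSim z d '' kit.K₀ τ = (fun w : ℂ => ((w, true) : PvPt)) ⁻¹' kit.K z d τ := by
    ext w
    simp [PvthKit.K]
  rw [e]
  exact (measurable_id.prodMk measurable_const) h

/-- `C_c` is Borel -/
theorem pvkyi_measurable_C (hk : kit.WF) (hd : d ^ 4 = 1) (mKo : MeasurableSet Ko) (mKi : MeasurableSet Ki) : MeasurableSet (pvkyiC kit z d l Ko Ki) := by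
  have e : pvkyiC kit z d l Ko Ki = ⋃ S ∈ {S | S ∈ pvkyiTiles kit z d l Ko Ki}, S := by
    ext w
    simp only [pvkyiC, mem_ofPred_eq, mem_iUnion, exists_prop]
  rw [e]
  refine MeasurableSet.biUnion (List.finite_toSet _).countable fun S hS => ?_
  have hS' : S ∈ pvkyiTiles kit z d l Ko Ki := hS
  unfold pvkyiTiles at hS'
  simp only [List.mem_append, List.mem_cons, List.not_mem_nil, or_false, List.mem_map, List.mem_range] at hS'
  rcases hS' with ((rfl | rfl | rfl) | ⟨j, -, rfl⟩) | ⟨j, -, rfl⟩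
  · exact mKo
  · exact mKi
  · exact pvkyi_measurable_door hk _ (pvthx_D_ne hd l _)
  · exact pvkyi_measurable_door hk _ (pvthx_D_ne hd l _)
  · exact pvkyi_measurable_tile hk _ (pvthx_D_ne hd l _) _

end geo2

/-! ## 2. a window end: the experiment of the chain and the OWN experiment are the same through the window -/

section own

variable {ε : ℝ} {b : Bool} {ω : Conf PvPt} {C : Set ℂ} {yf : Conf PvPt → Set ℂ} {e : PvkyEnd} {D Wn : Set ℂ}

/-- **through its window an end link does not see which experiment is run**: the experiment `(C, yf)` of the whole chain or its own experiment `(tile ∪ door, own fresh sites)` -/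
theorem PvueWin.pvkyi_restr (h : PvueWin ω C yf e D Wn) (p : (ℂ → Bool) × Conf PvPt) :
    Conf.restr (Wn ×ˢ univ) (pvdyR C yf ω p) = Conf.restr (Wn ×ˢ univ) (pvdyR (e.K ∪ D) e.y ω p) := by
  ext x
  simp only [Conf.restr, mem_inter_iff, pvdy_mem_R, mem_prod, mem_univ, and_true]
  refine and_congr_left fun hW => ?_
  by_cases hC : x.1 ∈ C
  · have hK : x.1 ∈ e.K ∪ D := h.win ⟨hC, hW⟩
    simp only [hC, hK, not_true_eq_false, false_and, true_and, false_or]
  · have hK : x.1 ∉ e.K ∪ D := fun hh => hC (h.sub hh)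
    simp only [hC, hK, not_false_eq_true, true_and, false_and, or_false]
    refine and_congr_right fun hs => ?_
    by_cases hy : x.1 ∈ yf ω
    · rw [pvfqMix_of_mem hy, pvfqMix_of_mem (h.fresh _ hs hW hC hy)]
    · rw [pvfqMix_of_notMem hy, pvfqMix_of_notMem fun hh => hy (h.ysub hh)]

theorem PvueWin.pvkyi_own {β : Type*} (h : PvueWin ω C yf e D Wn) {f : Conf PvPt → β} (hf : Conf.Reads (Wn ×ˢ univ) f) (p : (ℂ → Bool) × Conf PvPt) :
    f (pvdyR C yf ω p) = f (pvdyR (e.K ∪ D) e.y ω p) := hf.congr (h.pvkyi_restr p)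

theorem PvueWin.pvkyi_y (h : PvueWin ω C yf e D Wn) : e.y = fun _ => e.y ω := funext h.cst

/-- the conditional probability of the success reads the window -/
theorem PvueWin.pvkyi_rQ (h : PvueWin ω C yf e D Wn) (ε : ℝ) : Conf.Reads (Wn ×ˢ univ) (pvdyQ ε e.K e.y e.A) := by
  rw [h.pvkyi_y]
  exact pvue_Q_reads ε e.K (e.y ω) h.rA

/-- a reader of the door region does not see which experiment is run -/
theorem PvueWin.pvkyi_door {β : Type*} (h : PvueWin ω C yf e D Wn) (b : Bool) {f : Conf PvPt → β} (hf : Conf.Reads (D ×ˢ univ) f) (p : (ℂ → Bool) × Conf PvPt) :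
    f (pvkyFl b (pvdyR C yf ω p)) = f (pvkyFl b (pvdyR (e.K ∪ D) e.y ω p)) := by
  refine hf.congr ?_
  rw [pvky_fl_restr, pvky_fl_restr, pvky_restr_R (subset_union_right.trans h.sub), pvky_restr_R subset_union_right]

/-- **A WINDOW END FROM THE SETS**: window `Z⁺ ∪ mouth ∪ tile ∪ door`, own fresh sites `mouth \ F`, the experiment recolours the fresh sites of the two mouths.
`hZ` : of the resampled region `Z⁺` meets the own tile and the own door only;   `hZM` : the sites of the base in `Z⁺` which lie in the OTHER mouth are frozen there -/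
theorem pvkyi_win {M M' F F' Zp : Set ℂ} (mC : MeasurableSet C) (cnt : (cfSites ω).Countable) (mK : MeasurableSet e.K) (mA : MeasurableSet e.A) (mX : Measurable e.X)
    (rA : Conf.Reads ((Zp ∪ M ∪ e.K ∪ D) ×ˢ univ) fun η => η ∈ e.A) (rX : Conf.Reads ((Zp ∪ M ∪ e.K ∪ D) ×ˢ univ) e.X) (ey : e.y = fun _ => M \ F)
    (sub : e.K ∪ D ⊆ C) (hZ : C ∩ Zp ⊆ e.K ∪ D) (hM : Disjoint M C) (hMM : Disjoint M M') (hZM : ∀ v ∈ cfSites ω, v ∈ Zp → v ∈ M' → v ∈ F')
    (ysub : M \ F ⊆ yf ω) (hyf : yf ω ⊆ M \ F ∪ M' \ F') : PvueWin ω C yf e D (Zp ∪ M ∪ e.K ∪ D) where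
  mC := mC
  cnt := cnt
  mK := mK
  mA := mA
  mX := mX
  rA := rA
  rX := rX
  cst := fun η => by rw [ey]
  sub := sub
  win := by
    rintro v ⟨hC, ((hv | hv) | hv) | hv⟩
    · exact hZ ⟨hC, hv⟩
    · exact absurd hC (Set.disjoint_left.1 hM hv)
    · exact Or.inl hv
    · exact Or.inr hv
  ysub := by rw [ey]; exact ysub
  yC := by rw [ey]; exact hM.mono_left sdiff_subset
  fresh := by
    intro v hs hW hC hy
    rw [ey]
    rcases hyf hy with h1 | h1
    · exact h1
    · rcases hW with ((hv | hv) | hv) | hv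
      · exact absurd (hZM v hs hv h1.1) h1.2
      · exact absurd h1.1 (Set.disjoint_left.1 hMM hv)
      · exact absurd (sub (Or.inl hv)) hC
      · exact absurd (sub (Or.inr hv)) hC

end own

/-! ## 3. the good bases of an end link;   the chain record from the list, the kit, two window ends, two good bases -/

/-- **THE GOOD BASES OF AN END LINK**: a property of the base configuration `ω` and of the end link ALONE (own experiment: own tile, own door, own fresh sites; no pattern, no chain).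
* `frc`  the FORCED half of `Gd` (line of 141 in the own experiment): for almost every seed with a usable door plug the conditional probability of the success is `≥ q`
* `sq`   the plain second moment of the value on the success event is finite -/
structure PvkyiGd (kit : PvthKit) (ε : ℝ) (b : Bool) (e : PvkyEnd) (z d : ℂ) (q : ℝ≥0∞) (ω : Conf PvPt) : Prop where
  frc : ∀ᵐ p ∂pvdyNu ε, pvkyFl b (pvdyR (e.K ∪ pvkyDoor kit z d) e.y ω p) ∈ kit.G z d → q ≤ pvdyQ ε e.K e.y e.A (pvdyR (e.K ∪ pvkyDoor kit z d) e.y ω p)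
  sq : ∫⁻ p, ‖e.X (pvdyR (e.K ∪ pvkyDoor kit z d) e.y ω p)‖ₑ ^ 2 * e.A.indicator 1 (pvdyR (e.K ∪ pvkyDoor kit z d) e.y ω p) ∂pvdyNu ε ≠ ∞

section good

variable {kit : PvthKit} {ε : ℝ} {b : Bool} {ω : Conf PvPt} {C : Set ℂ} {yf : Conf PvPt → Set ℂ} {e : PvkyEnd} {z d : ℂ} {Wn : Set ℂ} {q : ℝ≥0∞}

/-- the forcing line along the experiment of the chain -/
theorem PvkyiGd.frc_big (g : PvkyiGd kit ε b e z d q ω) (hk : kit.WF) (hd : d ≠ 0) (h : PvueWin ω C yf e (pvkyDoor kit z d) Wn) :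
    ∀ᵐ p ∂pvdyNu ε, pvkyFl b (pvdyR C yf ω p) ∈ kit.G z d → q ≤ pvdyQ ε e.K e.y e.A (pvdyR C yf ω p) := by
  filter_upwards [g.frc] with p hp hG
  have e1 : (pvkyFl b (pvdyR C yf ω p) ∈ kit.G z d) = (pvkyFl b (pvdyR (e.K ∪ pvkyDoor kit z d) e.y ω p) ∈ kit.G z d) := h.pvkyi_door b (pvth_rG hk z d hd) p
  rw [h.pvkyi_own (h.pvkyi_rQ ε) p]
  exact hp (e1 ▸ hG)

/-- the second moment along the experiment of the chain -/
theorem PvkyiGd.sq_big (g : PvkyiGd kit ε b e z d q ω) (h : PvueWin ω C yf e (pvkyDoor kit z d) Wn) :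
    ∫⁻ p, ‖e.X (pvdyR C yf ω p)‖ₑ ^ 2 * e.A.indicator 1 (pvdyR C yf ω p) ∂pvdyNu ε ≠ ∞ := by
  have e1 : ∀ p, ‖e.X (pvdyR C yf ω p)‖ₑ ^ 2 * e.A.indicator 1 (pvdyR C yf ω p) =
      ‖e.X (pvdyR (e.K ∪ pvkyDoor kit z d) e.y ω p)‖ₑ ^ 2 * e.A.indicator 1 (pvdyR (e.K ∪ pvkyDoor kit z d) e.y ω p) := fun p => by
    rw [h.pvkyi_own h.rX p, h.pvkyi_own (pvti_ind_reads h.rA) p]
  simp_rw [e1]
  exact g.sq

end good

section asm

variable {kit : PvthKit} {ε : ℝ} {b : Bool} {X₀ : PvtTurn → Conf PvPt → ℂ} {z d : ℂ} {l : List PvtTurn} {ω : Conf PvPt} {yf : Conf PvPt → Set ℂ}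
  {eo ei : PvkyEnd} {Mo Mi Wo Wi : Set ℂ} {β' q B qo qi : ℝ≥0∞} {r : ℝ}

/-- the funnel of record of an end link: canonical funnel of the experiment `(C, yf)`, forced modification of 141 -/
noncomputable def pvkyiFun (kit : PvthKit) (ε : ℝ) (b : Bool) (C : Set ℂ) (yf : Conf PvPt → Set ℂ) (ω : Conf PvPt) (e : PvkyEnd) (z d : ℂ) (q : ℝ≥0∞) : PvkeFun ℂ :=
  pvueFrc (pvP ε) (pvkyFun b C yf ω e) (kit.G z d) q

/-- **THE CHAIN RECORD FROM: the list of 161 (`PvkyiSimple`), the cell kit (`PvcnOkQ` of 52), two window ends (141), two good bases** -/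
theorem pvkyi_chain (hS : PvkyiSimple kit z d l Mo Mi eo.K ei.K) (hk : PvcnOkQ kit ε X₀ β' q B r) (hd : d ^ 4 = 1)
    (wo : PvueWin ω (pvkyiC kit z d l eo.K ei.K) yf eo (pvkyDoor kit z d) Wo)
    (wi : PvueWin ω (pvkyiC kit z d l eo.K ei.K) yf ei (pvkyDoor kit (pvthZ kit.δ z d l l.length) (pvthD d l l.length)) Wi)
    (hoM : eo.y ω ⊆ Mo) (hiM : ei.y ω ⊆ Mi) (qo0 : qo ≠ 0) (qo1 : qo ≤ 1) (qi0 : qi ≠ 0) (qi1 : qi ≤ 1)
    (go : PvkyiGd kit ε b eo z d qo ω) (gi : PvkyiGd kit ε b ei (pvthZ kit.δ z d l l.length) (pvthD d l l.length) qi ω) :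
    PvkyChain kit ε b X₀ z d l ω (pvkyiC kit z d l eo.K ei.K) yf eo ei (pvkyiFun kit ε b (pvkyiC kit z d l eo.K ei.K) yf ω eo z d qo)
      (pvkyiFun kit ε b (pvkyiC kit z d l eo.K ei.K) yf ω ei (pvthZ kit.δ z d l l.length) (pvthD d l l.length) qi) β' q qo qi :=
  pvue_chain hk.wf hk.fQ hk.frc hd wo wi (hS.geo rfl rfl hoM hiM) (fun _ hj => pvkyi_CO hj) (fun _ hj => pvkyi_CK hj) qo0 qo1 qi0 qi1
    (go.frc_big hk.wf (pvth_ne_zero (pvth_norm_of_pow hd)) wo) (gi.frc_big hk.wf (pvthx_D_ne hd l l.length) wi)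
    (fun τ => ne_top_of_le_ne_top (ENNReal.mul_ne_top (pvcn_D_ne_top hk.frc) hk.B_fin) (pvcn_bound hk.wf hk.ref hk.fQ hk.frc hk.besQ τ).1)
    (go.sq_big wo) (gi.sq_big wi)

end asm

theorem pvkyi_eqns_cite2 : True := by
  have := @pvkyiFun.eq_1
  trivial

end Claimed.Agent.R289
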