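-- KEEP
import Claimed.Agent.R289.Defs.InstWf
import Claimed.Agent.R289.Tr.InstL

/-!
# Row 289 (S0537), THE WALL, ROAD E, file Tr/CycD : THE GEOMETRY OF THE `Σ₁` CYCLE AT THE MODEL      (helper180, under 115 `Exit/Cyc1`; prefix `pvjh`, `Pvjh`)

MODEL HALF of the fields `reg wf stop` of `Pvl3CycOkF` (129, `Tr/Top` sec.6) / of the disjointness lists of `PvjgCyc` (102), `PvueWin` (141): everything which follows from `PvieEng.Wf` (168, `Defs/InstWf`) ALONE.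
* sec. 1  translations: `pvieSh`, doors and tiles of the thin chain in ABSOLUTE coordinates (`pvjhDr`, `pvjhCl` = the sets which occur in `pvilCcyc`) are the translates of the relative ones of `pviwDoors`, `pviwCells`
* sec. 2  **`PvjhDisj`** = the list `cyc_disj` UNPACKED (`ℕ`-indexed, absolute coordinates); **`pvjh_disj`** : `PvieEng.Wf → PvjhDisj`
* sec. 3  the resampled region `pvilCcyc`: Borel, contains every atom, misses the two mouths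
-/

set_option autoImplicit false

namespace Claimed.Agent.R289

open Set MeasureTheory Metric

/-! ## 1. translations -/

theorem pvjh_sh_disj (z : ℂ) {S T : Set ℂ} : Disjoint (pvieSh z S) (pvieSh z T) ↔ Disjoint S T :=
  Set.disjoint_image_iff (add_right_injective z)

theorem pvjh_sh_sh (z w : ℂ) (S : Set ℂ) : pvieSh z (pvieSh w S) = pvieSh (z + w) S := by
  unfold pvieSh
  rw [image_image]
  refine image_congr fun x _ => ?_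
  ring

theorem pvjh_sh_sim (z w d : ℂ) (S : Set ℂ) : pvieSh z (pvthSim w d '' S) = pvthSim (z + w) d '' S := by
  unfold pvieSh pvthSim
  rw [image_image]
  refine image_congr fun x _ => ?_
  ring

theorem pvjh_Z_add (δ : ℝ) (z w d : ℂ) (l : List PvtTurn) (j : ℕ) : pvthZ δ (z + w) d l j = z + pvthZ δ w d l j := by
  unfold pvthZ
  ring

section model

variable {τ : Type} {c : ℝ} (𝔓 : PvxPar τ c) (𝔈 : PvieEng τ)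

/-- the door number `j` of the thin chain `l1 t` of the candidate `(z,t)`, ABSOLUTE coordinates (the sets of `pvilCcyc`) -/
noncomputable def pvjhDr (m : ℕ) (ε : ℝ) (z : ℂ) (t : τ) (j : ℕ) : Set ℂ :=
  pvieDoor 𝔈 m ε (pvthZ (𝔈.kit m ε).δ (pvieZo 𝔓 m z t) ((𝔓.Γ m).dout t) ((𝔓.Γ m).l1 t) j) (pvthD ((𝔓.Γ m).dout t) ((𝔓.Γ m).l1 t) j)

/-- the tile of the cell number `j` of the thin chain, ABSOLUTE coordinates -/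
noncomputable def pvjhCl (m : ℕ) (ε : ℝ) (z : ℂ) (t : τ) (j : ℕ) : Set ℂ :=
  pvthSim (pvthZ (𝔈.kit m ε).δ (pvieZo 𝔓 m z t) ((𝔓.Γ m).dout t) ((𝔓.Γ m).l1 t) j) (pvthD ((𝔓.Γ m).dout t) ((𝔓.Γ m).l1 t) j) '' (𝔈.kit m ε).K₀ (pvthL ((𝔓.Γ m).l1 t) j)

theorem pvjh_eqns_cite : True := by
  have := @pvjhDr.eq_1; have := @pvjhCl.eq_1
  trivial

theorem pvjh_dr_sh (m : ℕ) (ε : ℝ) (z : ℂ) (t : τ) (j : ℕ) :
    pvjhDr 𝔓 𝔈 m ε z t j = pvieSh z (pvieDoor 𝔈 m ε (pvthZ (𝔈.kit m ε).δ ((𝔓.Γ m).pout t) ((𝔓.Γ m).dout t) ((𝔓.Γ m).l1 t) j) (pvthD ((𝔓.Γ m).dout t) ((𝔓.Γ m).l1 t) j)) := by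
  unfold pvjhDr pvieDoor pvieZo
  rw [pvjh_sh_sim, pvjh_Z_add]

theorem pvjh_cl_sh (m : ℕ) (ε : ℝ) (z : ℂ) (t : τ) (j : ℕ) :
    pvjhCl 𝔓 𝔈 m ε z t j = pvieSh z (pvthSim (pvthZ (𝔈.kit m ε).δ ((𝔓.Γ m).pout t) ((𝔓.Γ m).dout t) ((𝔓.Γ m).l1 t) j) (pvthD ((𝔓.Γ m).dout t) ((𝔓.Γ m).l1 t) j) ''
      (𝔈.kit m ε).K₀ (pvthL ((𝔓.Γ m).l1 t) j)) := by
  unfold pvjhCl pvieZo
  rw [pvjh_sh_sim, pvjh_Z_add]

theorem pvjh_ro_sh (m : ℕ) (z : ℂ) (t : τ) : pvieSh (pvieZu 𝔓 m z t) (𝔈.rO m) = pvieSh z (pviwRo 𝔓 𝔈 m t) := by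
  unfold pviwRo pvieZu
  rw [pvjh_sh_sh]

theorem pvjh_rk_sh (m : ℕ) (z : ℂ) (t : τ) : pvieSh (pvieZu 𝔓 m z t) (𝔈.rK m) = pvieSh z (pviwRk 𝔓 𝔈 m t) := by
  unfold pviwRk pvieZu
  rw [pvjh_sh_sh]

/-! ## 2. the list `cyc_disj`, unpacked -/

/-- **THE ATOMS OF THE `Σ₁` CYCLE OF THE CANDIDATE `(z,t)` ARE PAIRWISE DISJOINT**, absolute coordinates, `ℕ`-indexed.
`Mo Me` = the two recoloured mouths, `Ko Ke` = first tile, thick tile, `Rk Ro` = tile of the link into the reference plug, reference region, `dr j` (`j ≤ n`), `cl j` (`j < n`) = doors and tiles of `l1 t` -/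
structure PvjhDisj (m : ℕ) (ε : ℝ) (z : ℂ) (t : τ) : Prop where
  MoMe : Disjoint (pvieSh z (𝔈.oM m t)) (pvieSh z (𝔈.eM m t))
  MoKo : Disjoint (pvieSh z (𝔈.oM m t)) (pvieSh z (𝔈.oK m t))
  MoKe : Disjoint (pvieSh z (𝔈.oM m t)) (pvieSh z (𝔈.eK m t))
  MoRk : Disjoint (pvieSh z (𝔈.oM m t)) (pvieSh (pvieZu 𝔓 m z t) (𝔈.rK m))
  MoRo : Disjoint (pvieSh z (𝔈.oM m t)) (pvieSh (pvieZu 𝔓 m z t) (𝔈.rO m))
  MoDr : ∀ j, j ≤ ((𝔓.Γ m).l1 t).length → Disjoint (pvieSh z (𝔈.oM m t)) (pvjhDr 𝔓 𝔈 m ε z t j)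
  MoCl : ∀ j, j < ((𝔓.Γ m).l1 t).length → Disjoint (pvieSh z (𝔈.oM m t)) (pvjhCl 𝔓 𝔈 m ε z t j)
  MeKo : Disjoint (pvieSh z (𝔈.eM m t)) (pvieSh z (𝔈.oK m t))
  MeKe : Disjoint (pvieSh z (𝔈.eM m t)) (pvieSh z (𝔈.eK m t))
  MeRk : Disjoint (pvieSh z (𝔈.eM m t)) (pvieSh (pvieZu 𝔓 m z t) (𝔈.rK m))
  MeRo : Disjoint (pvieSh z (𝔈.eM m t)) (pvieSh (pvieZu 𝔓 m z t) (𝔈.rO m))
  MeDr : ∀ j, j ≤ ((𝔓.Γ m).l1 t).length → Disjoint (pvieSh z (𝔈.eM m t)) (pvjhDr 𝔓 𝔈 m ε z t j)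
  MeCl : ∀ j, j < ((𝔓.Γ m).l1 t).length → Disjoint (pvieSh z (𝔈.eM m t)) (pvjhCl 𝔓 𝔈 m ε z t j)
  KoKe : Disjoint (pvieSh z (𝔈.oK m t)) (pvieSh z (𝔈.eK m t))
  KoRk : Disjoint (pvieSh z (𝔈.oK m t)) (pvieSh (pvieZu 𝔓 m z t) (𝔈.rK m))
  KoRo : Disjoint (pvieSh z (𝔈.oK m t)) (pvieSh (pvieZu 𝔓 m z t) (𝔈.rO m))
  KoDr : ∀ j, j ≤ ((𝔓.Γ m).l1 t).length → Disjoint (pvieSh z (𝔈.oK m t)) (pvjhDr 𝔓 𝔈 m ε z t j)
  KoCl : ∀ j, j < ((𝔓.Γ m).l1 t).length → Disjoint (pvieSh z (𝔈.oK m t)) (pvjhCl 𝔓 𝔈 m ε z t j)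
  KeRk : Disjoint (pvieSh z (𝔈.eK m t)) (pvieSh (pvieZu 𝔓 m z t) (𝔈.rK m))
  KeRo : Disjoint (pvieSh z (𝔈.eK m t)) (pvieSh (pvieZu 𝔓 m z t) (𝔈.rO m))
  KeDr : ∀ j, j ≤ ((𝔓.Γ m).l1 t).length → Disjoint (pvieSh z (𝔈.eK m t)) (pvjhDr 𝔓 𝔈 m ε z t j)
  KeCl : ∀ j, j < ((𝔓.Γ m).l1 t).length → Disjoint (pvieSh z (𝔈.eK m t)) (pvjhCl 𝔓 𝔈 m ε z t j)
  RkRo : Disjoint (pvieSh (pvieZu 𝔓 m z t) (𝔈.rK m)) (pvieSh (pvieZu 𝔓 m z t) (𝔈.rO m))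
  RkDr : ∀ j, j ≤ ((𝔓.Γ m).l1 t).length → Disjoint (pvieSh (pvieZu 𝔓 m z t) (𝔈.rK m)) (pvjhDr 𝔓 𝔈 m ε z t j)
  RkCl : ∀ j, j < ((𝔓.Γ m).l1 t).length → Disjoint (pvieSh (pvieZu 𝔓 m z t) (𝔈.rK m)) (pvjhCl 𝔓 𝔈 m ε z t j)
  RoDr : ∀ j, j ≤ ((𝔓.Γ m).l1 t).length → Disjoint (pvieSh (pvieZu 𝔓 m z t) (𝔈.rO m)) (pvjhDr 𝔓 𝔈 m ε z t j)
  RoCl : ∀ j, j < ((𝔓.Γ m).l1 t).length → Disjoint (pvieSh (pvieZu 𝔓 m z t) (𝔈.rO m)) (pvjhCl 𝔓 𝔈 m ε z t j)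
  DrDr : ∀ i j, i ≤ ((𝔓.Γ m).l1 t).length → j ≤ ((𝔓.Γ m).l1 t).length → i ≠ j → Disjoint (pvjhDr 𝔓 𝔈 m ε z t i) (pvjhDr 𝔓 𝔈 m ε z t j)
  ClCl : ∀ i j, i < ((𝔓.Γ m).l1 t).length → j < ((𝔓.Γ m).l1 t).length → i ≠ j → Disjoint (pvjhCl 𝔓 𝔈 m ε z t i) (pvjhCl 𝔓 𝔈 m ε z t j)
  DrCl : ∀ i j, i ≤ ((𝔓.Γ m).l1 t).length → j < ((𝔓.Γ m).l1 t).length → Disjoint (pvjhDr 𝔓 𝔈 m ε z t i) (pvjhCl 𝔓 𝔈 m ε z t j)

variable {𝔓 𝔈}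

theorem pvjh_pw_range {n : ℕ} {f : ℕ → Set ℂ} (h : ((List.range n).map f).Pairwise Disjoint) : ∀ i j, i < n → j < n → i ≠ j → Disjoint (f i) (f j) := by
  rw [List.pairwise_map] at h
  intro i j hi hj hij
  have : Std.Symm (fun a b : ℕ => Disjoint (f a) (f b)) := ⟨fun _ _ hab => hab.symm⟩
  exact h.forall (List.mem_range.2 hi) (List.mem_range.2 hj) hij

/-- **`cyc_disj` unpacked** -/
theorem pvjh_disj {m0 : ℕ} {Cth : ℝ} {r κs : ℕ → ℝ} (H : PvieEng.Wf 𝔓 𝔈 m0 Cth r κs) {m : ℕ} (hm : m0 ≤ m) (ε : ℝ) (z : ℂ) {t : τ} (ht : pviwTyOk 𝔓 t) : PvjhDisj 𝔓 𝔈 m ε z t := by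
  have h := H.cyc_disj m hm ε t ht
  unfold pviwCyc pviwRes at h
  simp only [List.cons_append, List.nil_append, List.pairwise_cons, List.pairwise_append, List.mem_cons, List.mem_append, forall_eq_or_imp] at h
  obtain ⟨⟨a1, a2, a3, a4, a5, a6⟩, ⟨b2, b3, b4, b5, b6⟩, ⟨c3, c4, c5, c6⟩, ⟨d4, d5, d6⟩, ⟨e5, e6⟩, f6, g1, g2, g3⟩ := h
  have hD : ∀ j, j ≤ ((𝔓.Γ m).l1 t).length →
      pvieDoor 𝔈 m ε (pvthZ (𝔈.kit m ε).δ ((𝔓.Γ m).pout t) ((𝔓.Γ m).dout t) ((𝔓.Γ m).l1 t) j) (pvthD ((𝔓.Γ m).dout t) ((𝔓.Γ m).l1 t) j) ∈ pviwDoors 𝔓 𝔈 m ε t :=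
    fun j hj => List.mem_map.2 ⟨j, List.mem_range.2 (Nat.lt_succ_of_le hj), rfl⟩
  have hC : ∀ j, j < ((𝔓.Γ m).l1 t).length →
      pvthSim (pvthZ (𝔈.kit m ε).δ ((𝔓.Γ m).pout t) ((𝔓.Γ m).dout t) ((𝔓.Γ m).l1 t) j) (pvthD ((𝔓.Γ m).dout t) ((𝔓.Γ m).l1 t) j) '' (𝔈.kit m ε).K₀ (pvthL ((𝔓.Γ m).l1 t) j) ∈
        pviwCells 𝔓 𝔈 m ε t :=
    fun j hj => List.mem_map.2 ⟨j, List.mem_range.2 hj, rfl⟩
  constructor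
  all_goals simp only [pvjh_dr_sh, pvjh_cl_sh, pvjh_ro_sh, pvjh_rk_sh, pvjh_sh_disj]
  · exact a1
  · exact a2
  · exact a3
  · exact a4
  · exact a5
  · exact fun j hj => a6 _ (Or.inl (hD j hj))
  · exact fun j hj => a6 _ (Or.inr (hC j hj))
  · exact b2
  · exact b3
  · exact b4
  · exact b5
  · exact fun j hj => b6 _ (Or.inl (hD j hj))
  · exact fun j hj => b6 _ (Or.inr (hC j hj))
  · exact c3
  · exact c4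
  · exact c5
  · exact fun j hj => c6 _ (Or.inl (hD j hj))
  · exact fun j hj => c6 _ (Or.inr (hC j hj))
  · exact d4
  · exact d5
  · exact fun j hj => d6 _ (Or.inl (hD j hj))
  · exact fun j hj => d6 _ (Or.inr (hC j hj))
  · exact e5
  · exact fun j hj => e6 _ (Or.inl (hD j hj))
  · exact fun j hj => e6 _ (Or.inr (hC j hj))
  · exact fun j hj => f6 _ (Or.inl (hD j hj))
  · exact fun j hj => f6 _ (Or.inr (hC j hj))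
  · exact fun i j hi hj hij => pvjh_pw_range g1 i j (Nat.lt_succ_of_le hi) (Nat.lt_succ_of_le hj) hij
  · exact fun i j hi hj hij => pvjh_pw_range g2 i j hi hj hij
  · exact fun i j hi hj => g3 _ (hD i hi) _ (hC j hj)

/-! ## 3. the resampled region of the cycle -/

theorem pvjh_C_eq (𝔓 : PvxPar τ c) (𝔈 : PvieEng τ) (m : ℕ) (ε : ℝ) (z : ℂ) (t : τ) :
    pvilCcyc 𝔓 𝔈 m ε z t = pvieSh z (𝔈.oK m t) ∪ pvieSh z (𝔈.eK m t) ∪ pvieSh (pvieZu 𝔓 m z t) (𝔈.rK m) ∪ pvieSh (pvieZu 𝔓 m z t) (𝔈.rO m) ∪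
      (⋃ j ∈ Finset.range (((𝔓.Γ m).l1 t).length + 1), pvjhDr 𝔓 𝔈 m ε z t j) ∪ (⋃ j ∈ Finset.range ((𝔓.Γ m).l1 t).length, pvjhCl 𝔓 𝔈 m ε z t j) := rfl

theorem pvjh_Ko_sub (m : ℕ) (ε : ℝ) (z : ℂ) (t : τ) : pvieSh z (𝔈.oK m t) ⊆ pvilCcyc 𝔓 𝔈 m ε z t := by
  rw [pvjh_C_eq]
  exact fun w hw => Or.inl (Or.inl (Or.inl (Or.inl (Or.inl hw))))

theorem pvjh_Ke_sub (m : ℕ) (ε : ℝ) (z : ℂ) (t : τ) : pvieSh z (𝔈.eK m t) ⊆ pvilCcyc 𝔓 𝔈 m ε z t := by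
  rw [pvjh_C_eq]
  exact fun w hw => Or.inl (Or.inl (Or.inl (Or.inl (Or.inr hw))))

theorem pvjh_Rk_sub (m : ℕ) (ε : ℝ) (z : ℂ) (t : τ) : pvieSh (pvieZu 𝔓 m z t) (𝔈.rK m) ⊆ pvilCcyc 𝔓 𝔈 m ε z t := by
  rw [pvjh_C_eq]
  exact fun w hw => Or.inl (Or.inl (Or.inl (Or.inr hw)))

theorem pvjh_Ro_sub (m : ℕ) (ε : ℝ) (z : ℂ) (t : τ) : pvieSh (pvieZu 𝔓 m z t) (𝔈.rO m) ⊆ pvilCcyc 𝔓 𝔈 m ε z t := by
  rw [pvjh_C_eq]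
  exact fun w hw => Or.inl (Or.inl (Or.inr hw))

theorem pvjh_Dr_sub (m : ℕ) (ε : ℝ) (z : ℂ) (t : τ) {j : ℕ} (hj : j ≤ ((𝔓.Γ m).l1 t).length) : pvjhDr 𝔓 𝔈 m ε z t j ⊆ pvilCcyc 𝔓 𝔈 m ε z t := by
  rw [pvjh_C_eq]
  exact fun w hw => Or.inl (Or.inr (mem_iUnion₂.2 ⟨j, Finset.mem_range.2 (Nat.lt_succ_of_le hj), hw⟩))

theorem pvjh_Cl_sub (m : ℕ) (ε : ℝ) (z : ℂ) (t : τ) {j : ℕ} (hj : j < ((𝔓.Γ m).l1 t).length) : pvjhCl 𝔓 𝔈 m ε z t j ⊆ pvilCcyc 𝔓 𝔈 m ε z t := by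
  rw [pvjh_C_eq]
  exact fun w hw => Or.inr (mem_iUnion₂.2 ⟨j, Finset.mem_range.2 hj, hw⟩)

/-- a set which misses every atom misses the resampled region -/
theorem pvjh_disj_C {S : Set ℂ} {m : ℕ} {ε : ℝ} {z : ℂ} {t : τ} (h1 : Disjoint S (pvieSh z (𝔈.oK m t))) (h2 : Disjoint S (pvieSh z (𝔈.eK m t)))
    (h3 : Disjoint S (pvieSh (pvieZu 𝔓 m z t) (𝔈.rK m))) (h4 : Disjoint S (pvieSh (pvieZu 𝔓 m z t) (𝔈.rO m)))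
    (h5 : ∀ j, j ≤ ((𝔓.Γ m).l1 t).length → Disjoint S (pvjhDr 𝔓 𝔈 m ε z t j)) (h6 : ∀ j, j < ((𝔓.Γ m).l1 t).length → Disjoint S (pvjhCl 𝔓 𝔈 m ε z t j)) :
    Disjoint S (pvilCcyc 𝔓 𝔈 m ε z t) := by
  rw [pvjh_C_eq]
  simp only [disjoint_union_right, disjoint_iUnion_right]
  exact ⟨⟨⟨⟨⟨h1, h2⟩, h3⟩, h4⟩, fun j hj => h5 j (Nat.lt_succ_iff.1 (Finset.mem_range.1 hj))⟩, fun j hj => h6 j (Finset.mem_range.1 hj)⟩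

/-- the exit mouth misses the resampled region -/
theorem PvjhDisj.Mo_C {m : ℕ} {ε : ℝ} {z : ℂ} {t : τ} (h : PvjhDisj 𝔓 𝔈 m ε z t) : Disjoint (pvieSh z (𝔈.oM m t)) (pvilCcyc 𝔓 𝔈 m ε z t) :=
  pvjh_disj_C h.MoKo h.MoKe h.MoRk h.MoRo h.MoDr h.MoCl

/-- the entrance mouth (thick link) misses the resampled region -/
theorem PvjhDisj.Me_C {m : ℕ} {ε : ℝ} {z : ℂ} {t : τ} (h : PvjhDisj 𝔓 𝔈 m ε z t) : Disjoint (pvieSh z (𝔈.eM m t)) (pvilCcyc 𝔓 𝔈 m ε z t) :=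
  pvjh_disj_C h.MeKo h.MeKe h.MeRk h.MeRo h.MeDr h.MeCl

theorem pvjh_sh_meas (z : ℂ) {S : Set ℂ} (hS : MeasurableSet S) : MeasurableSet (pvieSh z S) := by
  have e : pvieSh z S = (fun w : ℂ => w - z) ⁻¹' S := by
    ext w
    constructor
    · rintro ⟨v, hv, rfl⟩
      show z + v - z ∈ S
      rwa [add_sub_cancel_left]
    · intro hw
      exact ⟨w - z, hw, by ring⟩
  rw [e]
  exact (measurable_id.sub_const z) hS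

theorem pvjh_sim_meas (z : ℂ) {d : ℂ} (hd : d ≠ 0) {S : Set ℂ} (hS : MeasurableSet S) : MeasurableSet (pvthSim z d '' S) := by
  have e : pvthSim z d '' S = (fun w : ℂ => (w - z) / d) ⁻¹' S := by
    ext w
    constructor
    · rintro ⟨v, hv, rfl⟩
      show (pvthSim z d v - z) / d ∈ S
      unfold pvthSim
      rwa [add_sub_cancel_left, mul_div_cancel_left₀ _ hd]
    · intro hw
      refine ⟨(w - z) / d, hw, ?_⟩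
      unfold pvthSim
      field_simp
      ring
  rw [e]
  exact ((measurable_id.sub_const z).div_const d) hS

theorem pvjh_D_ne (𝔓 : PvxPar τ c) (m : ℕ) (t : τ) (j : ℕ) : pvthD ((𝔓.Γ m).dout t) ((𝔓.Γ m).l1 t) j ≠ 0 := by
  have h : ‖pvthD ((𝔓.Γ m).dout t) ((𝔓.Γ m).l1 t) j‖ = 1 := by
    unfold pvthD
    rw [pvt_norm_dir, (𝔓.Γ m).dout1 t]
  intro h0
  rw [h0, norm_zero] at h
  exact zero_ne_one h

/-- the resampled region is Borel -/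
theorem pvjh_C_meas {m0 : ℕ} {Cth : ℝ} {r κs : ℕ → ℝ} (H : PvieEng.Wf 𝔓 𝔈 m0 Cth r κs) {m : ℕ} {ε : ℝ} (hk : (𝔈.kit m ε).WF) (z : ℂ) (t : τ) : MeasurableSet (pvilCcyc 𝔓 𝔈 m ε z t) := by
  rw [pvjh_C_eq]
  refine (((((pvjh_sh_meas z (H.m_oK m t)).union (pvjh_sh_meas z (H.m_eK m t))).union (pvjh_sh_meas _ (H.m_rK m))).union (pvjh_sh_meas _ (H.m_rO m))).union ?_).union ?_
  · exact Finset.measurableSet_biUnion _ fun j _ => pvjh_sim_meas _ (pvjh_D_ne 𝔓 m t j) hk.mO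
  · exact Finset.measurableSet_biUnion _ fun j _ => pvjh_sim_meas _ (pvjh_D_ne 𝔓 m t j) (hk.mK _)

end model

/-! ## 4. the fattened cells of a set -/

/-- a point of `Fat (cells F)` is within `2 δ` (sup norm) of a point of `F` -/
theorem pvjh_fat_near {δ : ℝ} (hδ : 0 ≤ δ) {F : Set ℂ} {w : ℂ} (hw : w ∈ pvilFat δ (pvtCells δ F)) : ∃ v ∈ F, |(w - v).re| ≤ 2 * δ ∧ |(w - v).im| ≤ 2 * δ := by
  unfold pvilFat pvtU at hw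
  obtain ⟨q, hq, hwq⟩ := mem_iUnion₂.1 hw
  obtain ⟨q0, ⟨v, hv0, hvF⟩, hqq⟩ := hq
  have hadj : q.1 ≤ q0.1 + 1 ∧ q0.1 ≤ q.1 + 1 ∧ q.2 ≤ q0.2 + 1 ∧ q0.2 ≤ q.2 + 1 := by
    rcases hqq with rfl | h
    · omega
    · exact h.2
  obtain ⟨a1, a2, a3, a4⟩ := hadj
  have b1 : (q.1 : ℝ) ≤ q0.1 + 1 := by exact_mod_cast a1
  have b2 : (q0.1 : ℝ) ≤ q.1 + 1 := by exact_mod_cast a2
  have b3 : (q.2 : ℝ) ≤ q0.2 + 1 := by exact_mod_cast a3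
  have b4 : (q0.2 : ℝ) ≤ q.2 + 1 := by exact_mod_cast a4
  obtain ⟨w1, w2, w3, w4⟩ := hwq
  obtain ⟨v1, v2, v3, v4⟩ := hv0
  refine ⟨v, hvF, ?_, ?_⟩
  · rw [Complex.sub_re, abs_le]
    constructor <;> nlinarith
  · rw [Complex.sub_im, abs_le]
    constructor <;> nlinarith

/-- `F` in a closed square: `Fat (cells F)` in the square with the collar `2 δ` -/
theorem pvjh_fat_sq {δ : ℝ} (hδ : 0 ≤ δ) {F : Set ℂ} {z : ℂ} {R : ℝ} (hF : F ⊆ pvwSq z R) : pvilFat δ (pvtCells δ F) ⊆ pvwSq z (R + 2 * δ) := by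
  intro w hw
  obtain ⟨v, hv, h1, h2⟩ := pvjh_fat_near hδ hw
  obtain ⟨h3, h4⟩ := hF hv
  constructor
  · have e : (w - z).re = (w - v).re + (v - z).re := by simp
    rw [e]
    exact (abs_add_le _ _).trans (by linarith)
  · have e : (w - z).im = (w - v).im + (v - z).im := by simp
    rw [e]
    exact (abs_add_le _ _).trans (by linarith)

/-- `F` far from `y`: `Fat (cells F)` far from `y` -/
theorem pvjh_fat_far {δ : ℝ} (hδ : 0 ≤ δ) {F : Set ℂ} {y : ℂ} {ρ : ℝ} (hF : ∀ v ∈ F, ρ < ‖v - y‖) {w : ℂ} (hw : w ∈ pvilFat δ (pvtCells δ F)) : ρ - 4 * δ < ‖w - y‖ := by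
  obtain ⟨v, hv, h1, h2⟩ := pvjh_fat_near hδ hw
  have h3 : ‖w - v‖ ≤ 4 * δ := (Complex.norm_le_abs_re_add_abs_im _).trans (by linarith)
  have h4 : ‖v - y‖ ≤ ‖w - y‖ + ‖w - v‖ := by
    have e : v - y = (w - y) - (w - v) := by ring
    rw [e]
    exact norm_sub_le _ _
  linarith [hF v hv]

end Claimed.Agent.R289
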