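-- KEEP
import Claimed.Agent.R289.Tr.CycD
import Claimed.Agent.R289.Tr.ChainI
import Claimed.Agent.R289.Tr.AtUniq

/-!
# Row 289 (S0537), THE WALL, ROAD E, file Tr/CycDI : THE TWO WINDOW ENDS `PvueWin` (141) OF THE `Σ₁` CYCLE AT `Tr/InstL` v2.2      (helper180, under 115 `Exit/Cyc1M`, consumer 102 `Tr/CycEL` / 161 `Tr/CycI`; prefix `pvjh`, `Pvjh`)

0 sorry.      Base configuration `η` with the FULL state of the candidate `(z,t)` (`PvilAt`);   experiment `(C, yf) := (pvilCcyc, fun _ => pvilYfcyc .. η)`.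
* sec. 1  the windows of v2.2 are Borel;   the ends `pvilEo pvilEe` (ANY base data, any weight) are measurable and EXACT readers of their windows: `pvjh_Eo_mA _mX _rA _rX`, `pvjh_Ee_*`
* sec. 2  `pvjh_Bx_eq` (`pvilBx = z + pviwBox`), **`pvjh_Bx_C`** (own-level box + collar misses the resampled region of the cycle: `res_off`), `pvjh_Wz_C`
* sec. 3  base data at a state: `pvjh_out_fz pvjh_in_fz` (uniqueness, 25 `Tr/AtUniq`), `pvjh_Zo_eq pvjh_Zi_eq` (hull of record), `pvjh_Fo_eq pvjh_Fi_eq`;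
          **`pvjh_Wz_o_Me`, `pvjh_Wz_i_Mo`** : the carried part `pvilWz` of the window of a half state misses the OTHER mouth   [`far_m far_p` of the full state, `7ρ/4` of `pviwTyOk`, mouths in the half balls, `32 δ ≤ ρ h`]
* sec. 4  **`pvjh_win_o`, `pvjh_win_e`** : the two `PvueWin`;   `PvjhMh` = the ONE line owed by `Defs/InstWf` (R21 (1) of 234: the mouths lie in `closedBall (h y) (ρ h / 2)`).
-/

set_option autoImplicit false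

namespace Claimed.Agent.R289

open Set MeasureTheory Metric Claims.C0465
open scoped ENNReal ComplexConjugate

section win

variable {τ : Type} {c : ℝ} (𝔓 : PvxPar τ c) (𝔈 : PvieEng τ)

/-! ## 1. windows, measurability, exact readers -/

theorem pvjh_sq_meas (z : ℂ) (r : ℝ) : MeasurableSet (pvwSq z r) := by
  have h1 : Measurable fun w : ℂ => |(w - z).re| := (Complex.measurable_re.comp (measurable_id.sub_const z)).abs
  have h2 : Measurable fun w : ℂ => |(w - z).im| := (Complex.measurable_im.comp (measurable_id.sub_const z)).abs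
  exact (measurableSet_le h1 measurable_const).inter (measurableSet_le h2 measurable_const)

theorem pvjh_fat_meas (δ : ℝ) (Z : Set (ℤ × ℤ)) : MeasurableSet (pvilFat δ Z) := by
  unfold pvilFat pvtU
  refine MeasurableSet.biUnion (Set.to_countable _) fun q _ => ?_
  unfold pvtSq
  exact (measurableSet_le measurable_const Complex.measurable_re).inter ((measurableSet_le Complex.measurable_re measurable_const).inter
    ((measurableSet_le measurable_const Complex.measurable_im).inter (measurableSet_le Complex.measurable_im measurable_const)))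

theorem pvjh_Wz_meas (m : ℕ) (z : ℂ) (t : τ) (Z : Set (ℤ × ℤ)) : MeasurableSet (pvilWz 𝔓 m z t Z) :=
  (pvjh_fat_meas _ _).inter (pvjh_sq_meas _ _)

variable {𝔓 𝔈}

theorem pvjh_Wno_meas {m0 : ℕ} {Cth : ℝ} {r κs : ℕ → ℝ} (H : PvieEng.Wf 𝔓 𝔈 m0 Cth r κs) {m : ℕ} {ε : ℝ} (hk : (𝔈.kit m ε).WF) (z : ℂ) (t : τ) (Z : Set (ℤ × ℤ)) :
    MeasurableSet (pvilWno 𝔓 𝔈 m ε z t Z) :=
  (((pvjh_Wz_meas 𝔓 m z t Z).union (pvjh_sh_meas z (H.m_oM m t))).union (pvjh_sh_meas z (H.m_oK m t))).union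
    (pvjh_sim_meas _ (pvth_ne_zero ((𝔓.Γ m).dout1 t)) hk.mO)

theorem pvjh_Wne_meas {m0 : ℕ} {Cth : ℝ} {r κs : ℕ → ℝ} (H : PvieEng.Wf 𝔓 𝔈 m0 Cth r κs) (m : ℕ) (z : ℂ) (t : τ) (Z : Set (ℤ × ℤ)) :
    MeasurableSet (pvilWne 𝔓 𝔈 m z t Z) :=
  (((pvjh_Wz_meas 𝔓 m z t Z).union (pvjh_sh_meas z (H.m_eM m t))).union (pvjh_sh_meas z (H.m_eK m t))).union (pvjh_sh_meas _ (H.m_rO m))

theorem pvjh_fin_meas {Z : Set (ℤ × ℤ)} {A : Set (Conf PvPt)} (hA : MeasurableSet A) : MeasurableSet (pvilFin Z A) := by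
  unfold pvilFin
  split_ifs
  exacts [hA, MeasurableSet.empty]

theorem pvjh_fin_reads {Z : Set (ℤ × ℤ)} {A : Set (Conf PvPt)} {W : Set PvPt} (hA : Conf.Reads W fun η => η ∈ A) : Conf.Reads W fun η => η ∈ pvilFin Z A := by
  unfold pvilFin
  split_ifs
  · exact hA
  · exact fun _ => rfl

theorem pvjh_SA_meas (ε : ℝ) {Wn : Set ℂ} (hW : MeasurableSet Wn) (M : Set (Conf PvPt)) (F : Conf PvPt → ℂ) : MeasurableSet (pvilSA ε Wn M F) :=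
  pvsu_sure_measurable (hW.prod MeasurableSet.univ) _

theorem pvjh_SA_reads (ε : ℝ) (Wn : Set ℂ) (M : Set (Conf PvPt)) (F : Conf PvPt → ℂ) : Conf.Reads (Wn ×ˢ univ) fun η => η ∈ pvilSA ε Wn M F :=
  pvsu_sure_reads _ _ _

theorem pvjh_Loc_meas (ε : ℝ) {Wn : Set ℂ} (hW : MeasurableSet Wn) (M : Set (Conf PvPt)) (F : Conf PvPt → ℂ) : Measurable (pvilLoc ε Wn M F) :=
  pvsu_loc_measurable (hW.prod MeasurableSet.univ) _

theorem pvjh_Loc_reads (ε : ℝ) (Wn : Set ℂ) (M : Set (Conf PvPt)) (F : Conf PvPt → ℂ) : Conf.Reads (Wn ×ˢ univ) (pvilLoc ε Wn M F) :=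
  pvsu_loc_reads _ _ _

/-! ## 2. the own-level box with its collar misses everything resampled -/

theorem pvjh_Bx_eq (𝔓 : PvxPar τ c) (m : ℕ) (z : ℂ) (t : τ) : pvilBx 𝔓 m z t = pvieSh z (pviwBox 𝔓 m t) := by
  unfold pvilBx pviwBox pviwRad pvieSh pvwSq
  ext w
  constructor
  · intro hw
    refine ⟨w - z, ?_, by ring⟩
    simpa using hw
  · rintro ⟨v, hv, rfl⟩
    simpa using hv

/-- **the own-level box with the collar `δ` misses the resampled region of the `Σ₁` cycle** -/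
theorem pvjh_Bx_C {m0 : ℕ} {Cth : ℝ} {r κs : ℕ → ℝ} (H : PvieEng.Wf 𝔓 𝔈 m0 Cth r κs) {m : ℕ} (hm : m0 ≤ m) (ε : ℝ) (z : ℂ) {t : τ} (ht : pviwTyOk 𝔓 t) :
    Disjoint (pvilBx 𝔓 m z t) (pvilCcyc 𝔓 𝔈 m ε z t) := by
  have h0 : ∀ S ∈ pviwRes 𝔓 𝔈 m ε t, Disjoint (pvilBx 𝔓 m z t) (pvieSh z S) := by
    intro S hS
    rw [pvjh_Bx_eq, pvjh_sh_disj]
    exact (H.res_off m hm ε t ht S hS).symm
  refine pvjh_disj_C (h0 _ (by simp [pviwRes])) (h0 _ (by simp [pviwRes])) ?_ ?_ ?_ ?_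
  · rw [pvjh_rk_sh]
    exact h0 _ (by simp [pviwRes])
  · rw [pvjh_ro_sh]
    exact h0 _ (by simp [pviwRes])
  · intro j hj
    rw [pvjh_dr_sh]
    refine h0 _ ?_
    unfold pviwRes pviwDoors
    refine List.mem_append_left _ (List.mem_append_right _ (List.mem_map.2 ⟨j, List.mem_range.2 (Nat.lt_succ_of_le hj), rfl⟩))
  · intro j hj
    rw [pvjh_cl_sh]
    refine h0 _ ?_
    unfold pviwRes pviwCells
    exact List.mem_append_right _ (List.mem_map.2 ⟨j, List.mem_range.2 hj, rfl⟩)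

theorem pvjh_Wz_C {m0 : ℕ} {Cth : ℝ} {r κs : ℕ → ℝ} (H : PvieEng.Wf 𝔓 𝔈 m0 Cth r κs) {m : ℕ} (hm : m0 ≤ m) (ε : ℝ) (z : ℂ) {t : τ} (ht : pviwTyOk 𝔓 t) (Z : Set (ℤ × ℤ)) :
    Disjoint (pvilWz 𝔓 m z t Z) (pvilCcyc 𝔓 𝔈 m ε z t) :=
  (pvjh_Bx_C H hm ε z ht).mono_left inter_subset_right

/-! ## 3. the base data at a state;   the carried part of a window misses the other mouth -/

theorem pvjh_pin_pos (𝔓 : PvxPar τ c) (m : ℕ) (z : ℂ) (t : τ) (η : Conf PvPt) : (pvilPin 𝔓 m z t).pos η = pviePos η := by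
  funext v
  simp [PvilPl.pos, pvilPin, PviePl.std]

theorem pvjh_pin_zf (𝔓 : PvxPar τ c) (m : ℕ) (z : ℂ) (t : τ) : (pvilPin 𝔓 m z t).zf = z := by
  simp [PvilPl.zf, pvilPin, PviePl.std, PvxPar.pl]

variable {m : ℕ} {z : ℂ} {t : τ} {η : Conf PvPt}

theorem pvjh_out_fz {𝔖 𝔖' : PvwSt (pvieT η)} (h : PvilOut 𝔓.num (𝔓.col t) (pvilPin 𝔓 m z t) η 𝔖) (h' : PvilOut 𝔓.num (𝔓.col t) (pvilPin 𝔓 m z t) η 𝔖') : 𝔖.fzOut = 𝔖'.fzOut := by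
  have a := h.st
  have a' := h'.st
  rw [pvjh_pin_pos] at a a'
  have u := pvuq_del_out h.good a a'
  exact u.1.fzOut u.2

theorem pvjh_in_fz {𝔖 𝔖' : PvwSt (pvieT η)} (h : PvilIn 𝔓.num (𝔓.col t) (pvilPin 𝔓 m z t) η 𝔖) (h' : PvilIn 𝔓.num (𝔓.col t) (pvilPin 𝔓 m z t) η 𝔖') : 𝔖.fzIn = 𝔖'.fzIn := by
  have a := h.st
  have a' := h'.st
  rw [pvjh_pin_pos] at a a'
  have u := pvuq_del_in h.good a a'
  exact u.1.fzIn u.2

theorem pvjh_Fo_eq {𝔖 : PvwSt (pvieT η)} (h : PvilOut 𝔓.num (𝔓.col t) (pvilPin 𝔓 m z t) η 𝔖) : pvilFo 𝔓 m z t η = pviePos η '' 𝔖.fzOut := by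
  ext w
  constructor
  · rintro ⟨𝔖', h', u, hu, rfl⟩
    exact ⟨u, pvjh_out_fz h' h ▸ hu, rfl⟩
  · rintro ⟨u, hu, rfl⟩
    exact ⟨𝔖, h, u, hu, rfl⟩

theorem pvjh_Fi_eq {𝔖 : PvwSt (pvieT η)} (h : PvilIn 𝔓.num (𝔓.col t) (pvilPin 𝔓 m z t) η 𝔖) : pvilFi 𝔓 m z t η = pviePos η '' 𝔖.fzIn := by
  ext w
  constructor
  · rintro ⟨𝔖', h', u, hu, rfl⟩
    exact ⟨u, pvjh_in_fz h' h ▸ hu, rfl⟩
  · rintro ⟨u, hu, rfl⟩
    exact ⟨𝔖, h, u, hu, rfl⟩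

/-- **the hull of record of `Σ_out`** at a state -/
theorem pvjh_Zo_eq {𝔖 : PvwSt (pvieT η)} (h : PvilOut 𝔓.num (𝔓.col t) (pvilPin 𝔓 m z t) η 𝔖) :
    pvilZo 𝔓 m z t η = pvtCells (pvlmDel c m) (pviePos η '' 𝔖.fzOut ∪ closedBall ((𝔓.ty t).cp (pvlmH m) z) (𝔓.num.rho * pvlmH m)) := by
  ext q
  constructor
  · rintro ⟨𝔖', h', hq⟩
    rw [pvjh_out_fz h' h] at hq
    exact hq
  · intro hq
    exact ⟨𝔖, h, hq⟩

/-- **the hull of record of `Σ_in`** at a state -/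
theorem pvjh_Zi_eq {𝔖 : PvwSt (pvieT η)} (h : PvilIn 𝔓.num (𝔓.col t) (pvilPin 𝔓 m z t) η 𝔖) :
    pvilZi 𝔓 m z t η = pvtCells (pvlmDel c m) (pviePos η '' 𝔖.fzIn ∪ closedBall ((𝔓.ty t).cm (pvlmH m) z) (𝔓.num.rho * pvlmH m)) := by
  ext q
  constructor
  · rintro ⟨𝔖', h', hq⟩
    rw [pvjh_in_fz h' h] at hq
    exact hq
  · intro hq
    exact ⟨𝔖, h, hq⟩

/-- plane lemma: `K` = (points `> 2 R` from `y'`) `∪` (closed ball `(y, R)`), `7 R / 4 ≤ |y - y'|`, `32 δ ≤ R`: the fattened cells of `K` miss the closed ball `(y', R / 2)` -/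
theorem pvjh_fat_ball {δ R : ℝ} (hδ : 0 ≤ δ) (fine : 32 * δ ≤ R) (hR : 0 < R) {F : Set ℂ} {y y' : ℂ} (hF : ∀ v ∈ F, 2 * R < ‖v - y'‖) (hy : 7 * R / 4 ≤ ‖y - y'‖) :
    Disjoint (pvilFat δ (pvtCells δ (F ∪ closedBall y R))) (closedBall y' (R / 2)) := by
  rw [Set.disjoint_left]
  intro w hw hw'
  have h1 : ∀ v ∈ F ∪ closedBall y R, 5 * R / 8 < ‖v - y'‖ := by
    rintro v (hv | hv)
    · linarith [hF v hv]
    · have h2 : ‖v - y‖ ≤ R := by simpa [dist_eq_norm] using hv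
      have h3 : ‖y - y'‖ ≤ ‖v - y'‖ + ‖v - y‖ := by
        have e : y - y' = (v - y') - (v - y) := by ring
        rw [e]
        exact norm_sub_le _ _
      linarith
  have h4 := pvjh_fat_far hδ h1 hw
  have h5 : ‖w - y'‖ ≤ R / 2 := by simpa [dist_eq_norm] using hw'
  linarith

theorem pvjh_ty_dist (𝔓 : PvxPar τ c) (m : ℕ) (z : ℂ) {t : τ} (ht : pviwTyOk 𝔓 t) :
    7 * (𝔓.num.rho * pvlmH m) / 4 ≤ ‖(𝔓.ty t).cp (pvlmH m) z - (𝔓.ty t).cm (pvlmH m) z‖ := by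
  have hh : 0 < pvlmH m := by unfold pvlmH; positivity
  have e : (𝔓.ty t).cp (pvlmH m) z - (𝔓.ty t).cm (pvlmH m) z = (pvlmH m : ℂ) * ((𝔓.ty t).yp - (𝔓.ty t).ym) := by
    unfold PvwTy.cp PvwTy.cm
    ring
  rw [e, norm_mul, Complex.norm_real, Real.norm_of_nonneg hh.le]
  have := ht.2.2
  nlinarith

/-- **THE ONE LINE OWED BY `Defs/InstWf`** (R21 (1) SIMPLIFIED of 234, (W2)): the two recoloured mouths of the cycle lie in the half balls round the GRID centres of the tip cells -/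
structure PvjhMh (𝔓 : PvxPar τ c) (𝔈 : PvieEng τ) (m : ℕ) (t : τ) : Prop where
  o : 𝔈.oM m t ⊆ closedBall ((pvlmH m : ℂ) * (𝔓.ty t).yp) (𝔓.num.rho * pvlmH m / 2)
  e : 𝔈.eM m t ⊆ closedBall ((pvlmH m : ℂ) * (𝔓.ty t).ym) (𝔓.num.rho * pvlmH m / 2)

theorem pvjh_sh_ball (z y : ℂ) (R : ℝ) {S : Set ℂ} (h : S ⊆ closedBall y R) : pvieSh z S ⊆ closedBall (z + y) R := by
  rintro _ ⟨v, hv, rfl⟩
  have := h hv
  simp only [mem_closedBall, dist_eq_norm] at this ⊢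
  rwa [add_sub_add_left_eq_sub]

/-- **the carried part of the window of `Σ_out` misses the entrance mouth** -/
theorem pvjh_Wz_o_Me (hδ : 0 ≤ pvlmDel c m) (fine : 32 * pvlmDel c m ≤ 𝔓.num.rho * pvlmH m) (hρ : 0 < 𝔓.num.rho) (ht : pviwTyOk 𝔓 t) (hM : PvjhMh 𝔓 𝔈 m t)
    {𝔖 : PvwSt (pvieT η)} (h : PvilAt 𝔓.num (𝔓.col t) (pvilPin 𝔓 m z t) η 𝔖) : Disjoint (pvilWz 𝔓 m z t (pvilZo 𝔓 m z t η)) (pvieSh z (𝔈.eM m t)) := by
  have hh : 0 < pvlmH m := by unfold pvlmH; positivity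
  have far := h.far_m
  rw [pvjh_pin_pos, pvjh_pin_zf] at far
  refine Disjoint.mono inter_subset_left (pvjh_sh_ball z _ _ hM.e) ?_
  rw [pvjh_Zo_eq h.out]
  refine pvjh_fat_ball hδ fine (mul_pos hρ hh) ?_ (pvjh_ty_dist 𝔓 m z ht)
  rintro _ ⟨u, hu, rfl⟩
  have := far u hu
  rw [← mul_assoc]
  exact this

/-- **the carried part of the window of `Σ_in` misses the exit mouth** -/
theorem pvjh_Wz_i_Mo (hδ : 0 ≤ pvlmDel c m) (fine : 32 * pvlmDel c m ≤ 𝔓.num.rho * pvlmH m) (hρ : 0 < 𝔓.num.rho) (ht : pviwTyOk 𝔓 t) (hM : PvjhMh 𝔓 𝔈 m t)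
    {𝔖 : PvwSt (pvieT η)} (h : PvilAt 𝔓.num (𝔓.col t) (pvilPin 𝔓 m z t) η 𝔖) : Disjoint (pvilWz 𝔓 m z t (pvilZi 𝔓 m z t η)) (pvieSh z (𝔈.oM m t)) := by
  have hh : 0 < pvlmH m := by unfold pvlmH; positivity
  have far := h.far_p
  rw [pvjh_pin_pos, pvjh_pin_zf] at far
  refine Disjoint.mono inter_subset_left (pvjh_sh_ball z _ _ hM.o) ?_
  rw [pvjh_Zi_eq h.inn]
  refine pvjh_fat_ball hδ fine (mul_pos hρ hh) ?_ (by rw [norm_sub_rev]; exact pvjh_ty_dist 𝔓 m z ht)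
  rintro _ ⟨u, hu, rfl⟩
  have := far u hu
  rw [← mul_assoc]
  exact this

/-! ## 4. the two window ends of the cycle -/

/-- **THE FIRST LINK IS A WINDOW END OF THE CYCLE EXPERIMENT**, any weight `w` -/
theorem pvjh_win_o {m0 : ℕ} {Cth : ℝ} {r κs : ℕ → ℝ} (H : PvieEng.Wf 𝔓 𝔈 m0 Cth r κs) (hm : m0 ≤ m) {ε : ℝ} (hk : (𝔈.kit m ε).WF) (ht : pviwTyOk 𝔓 t)
    (hδ : 0 ≤ pvlmDel c m) (fine : 32 * pvlmDel c m ≤ 𝔓.num.rho * pvlmH m) (hρ : 0 < 𝔓.num.rho) (hM : PvjhMh 𝔓 𝔈 m t) (cnt : (cfSites η).Countable)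
    {𝔖 : PvwSt (pvieT η)} (h : PvilAt 𝔓.num (𝔓.col t) (pvilPin 𝔓 m z t) η 𝔖) (w : ∀ η : Conf PvPt, (delbPl (pvieY η)).Dart → ℂ) :
    PvueWin η (pvilCcyc 𝔓 𝔈 m ε z t) (fun _ => pvilYfcyc 𝔓 𝔈 m z t η) (pvilEoAt 𝔓 𝔈 m ε w z t η) (pvieDoor 𝔈 m ε (pvieZo 𝔓 m z t) ((𝔓.Γ m).dout t))
      (pvilWno 𝔓 𝔈 m ε z t (pvilZo 𝔓 m z t η)) := by
  have D := pvjh_disj H hm ε z ht
  have mW := pvjh_Wno_meas H hk z t (pvilZo 𝔓 m z t η)
  have hdoor : pvieDoor 𝔈 m ε (pvieZo 𝔓 m z t) ((𝔓.Γ m).dout t) = pvjhDr 𝔓 𝔈 m ε z t 0 := by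
    unfold pvjhDr
    rw [pvthx_Z_zero, pvthx_D_zero]
  refine pvkyi_win (M := pvieSh z (𝔈.oM m t)) (M' := pvieSh z (𝔈.eM m t)) (F := pvilFo 𝔓 m z t η) (F' := pvilFi 𝔓 m z t η) (Zp := pvilWz 𝔓 m z t (pvilZo 𝔓 m z t η))
    (pvjh_C_meas H hk z t) cnt (pvjh_sh_meas z (H.m_oK m t)) (pvjh_fin_meas (pvjh_SA_meas ε mW _ _)) (pvjh_Loc_meas ε mW _ _)
    (pvjh_fin_reads (pvjh_SA_reads ε _ _ _)) (pvjh_Loc_reads ε _ _ _) rfl ?_ ?_ D.Mo_C D.MoMe ?_ subset_union_left subset_rfl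
  · refine union_subset (pvjh_Ko_sub m ε z t) ?_
    rw [hdoor]
    exact pvjh_Dr_sub m ε z t (Nat.zero_le _)
  · rintro v ⟨hC, hv⟩
    exact absurd hC (Set.disjoint_left.1 (pvjh_Wz_C H hm ε z ht _) hv)
  · intro v _ hv hv'
    exact absurd hv' (Set.disjoint_left.1 (pvjh_Wz_o_Me hδ fine hρ ht hM h) hv)

/-- **THE THICK LINK IS A WINDOW END OF THE CYCLE EXPERIMENT**, any weight `w` -/
theorem pvjh_win_e {m0 : ℕ} {Cth : ℝ} {r κs : ℕ → ℝ} (H : PvieEng.Wf 𝔓 𝔈 m0 Cth r κs) (hm : m0 ≤ m) {ε : ℝ} (hk : (𝔈.kit m ε).WF) (ht : pviwTyOk 𝔓 t)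
    (hδ : 0 ≤ pvlmDel c m) (fine : 32 * pvlmDel c m ≤ 𝔓.num.rho * pvlmH m) (hρ : 0 < 𝔓.num.rho) (hM : PvjhMh 𝔓 𝔈 m t) (cnt : (cfSites η).Countable)
    {𝔖 : PvwSt (pvieT η)} (h : PvilAt 𝔓.num (𝔓.col t) (pvilPin 𝔓 m z t) η 𝔖) (w : ∀ η : Conf PvPt, (delbPl (pvieY η)).Dart → ℂ) :
    PvueWin η (pvilCcyc 𝔓 𝔈 m ε z t) (fun _ => pvilYfcyc 𝔓 𝔈 m z t η) (pvilEeAt 𝔓 𝔈 m ε w z t η) (pvieSh (pvieZu 𝔓 m z t) (𝔈.rO m))
      (pvilWne 𝔓 𝔈 m z t (pvilZi 𝔓 m z t η)) := by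
  have D := pvjh_disj H hm ε z ht
  have mW := pvjh_Wne_meas H m z t (pvilZi 𝔓 m z t η)
  refine pvkyi_win (M := pvieSh z (𝔈.eM m t)) (M' := pvieSh z (𝔈.oM m t)) (F := pvilFi 𝔓 m z t η) (F' := pvilFo 𝔓 m z t η) (Zp := pvilWz 𝔓 m z t (pvilZi 𝔓 m z t η))
    (pvjh_C_meas H hk z t) cnt (pvjh_sh_meas z (H.m_eK m t)) (pvjh_fin_meas (pvjh_SA_meas ε mW _ _)) (pvjh_Loc_meas ε mW _ _)
    (pvjh_fin_reads (pvjh_SA_reads ε _ _ _)) (pvjh_Loc_reads ε _ _ _) rfl ?_ ?_ D.Me_C D.MoMe.symm ?_ subset_union_right ?_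
  · exact union_subset (pvjh_Ke_sub m ε z t) (pvjh_Ro_sub m ε z t)
  · rintro v ⟨hC, hv⟩
    exact absurd hC (Set.disjoint_left.1 (pvjh_Wz_C H hm ε z ht _) hv)
  · intro v _ hv hv'
    exact absurd hv' (Set.disjoint_left.1 (pvjh_Wz_i_Mo hδ fine hρ ht hM h) hv)
  · rintro v (hv | hv)
    exacts [Or.inr hv, Or.inl hv]

end win

end Claimed.Agent.R289
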