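import Claimed.Agent.R289.Defs.TrModel
import Claimed.Agent.R289.Del.Seam
import Claimed.Agent.R289.S1.Meas
import Claimed.Agent.R289.FkgQ

/-!
# Row 289 (S0537), THE WALL, file Tr/ModelApi : THE API OF THE MODEL OF RECORD `Defs/TrModel.lean` (187)      (owner helper184, post of helper24 10:08Z; prefix `pvmo_`, `pvmo`, `Pvmo`)

WHY.   `Defs/TrModel` speaks of a SAMPLE `ω`: map `pvxT ω` on the vertex type `↥(pvxY ω)`.   Every quenched argument fixes the geometry `g` and moves the colours `c`; every argument on `Conf PvPt` (`Tr/Dom`, `Tr/Ind`) speaks of `cfOf Y σ`.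
The vertex types `↥(pvxY (pvMerge (g,c)))`, `↥(pvgSites g)`, `↥(cfSites (cfOf Y σ))`, `↥Y` are only PROPOSITIONALLY equal: casts.      THIS FILE REMOVES THE CASTS ONCE:
everything of the model is a function `Φ Y s` of a SITE SET `Y : Set ℂ` and of a colouring `s : ↥Y → Bool` of the sites (`true` = black of the sample), and `Φ` is transported by ONE lemma.

* sec. 1  `pvmoT Y`, `pvmoPos Y`, `pvmoS Y σ` (a colouring of the plane read on the sites), `pvmoCol s b` (`true` = the colour `b`), `pvmoSc η`, `pvmoSm ω`;   `pvmo_T pvmo_pos pvmo_col` (the model at `ω` IS the `(Y,s)`-model at `(pvxY ω, pvmoSm ω)`: `rfl`)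
* sec. 2  TRANSPORT: **`pvmo_transport`**, `pvmo_merge` (`ω = pvMerge (g,c)` ⟶ `(pvgSites g, pvmoS _ (pvgColAt g c))`), `pvmo_cfOf` (`η = cfOf Y σ` ⟶ `(Y, pvmoS Y σ)`), `pvmo_conf` (two samples with the same configuration);   colours: `pvmo_cfCol_cfOf`, `pvmo_cfCol_merge`, `pvmo_cfCol_site`
* sec. 3  THE MAP: `pvmo_sph pvmo_simple pvmo_pos_inj pvmo_countable pvmo_fin_window`, darts `pvmoD h hab`, `pvmo_src_D … pvmo_opp_D`, `pvmo_ext`, `pvmo_adj`, `pvmo_adj_iff`, `pvmo_face`, `pvmo_det_pos`, `pvmo_good_of_dart`, `pvmo_of_delPl` (`pvmoT Y` = `(delPl h).toMap`)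
* sec. 4  COLOURS: `pvmo_col_true pvmo_col_false pvmo_col_not` (`pvxCol ω (!b) = pvasNot (pvxCol ω b)`), `pvmo_col_iff`
* sec. 5  ALMOST SURELY: `PvmoGeo g` (`PvgOk g ∧ DelGood (pvgSites g)`), `pvmo_geo_ae`, `pvmo_up_bad`, `pvmo_up_P` / `pvmo_up_E` (quenched bounds have to be proved at good geometries only), `pvmo_good_merge`, `pvmo_law_ae`
* sec. 6  THE `(Y,s)`-FORMS of `PvxAt pvxU PvxPinOf pvxPins PvxActual pvxHull pvxFit` (GENERATED from the text of `Defs/TrModel`: same fields, same names) with `pvmo_at_iff pvmo_U_iff pvmo_pinOf_iff pvmo_pins_eq pvmo_actual_iff pvmo_hull_eq pvmo_fit_iff`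
          and their forms at `pvMerge (g,c)` (`pvmo_U_merge pvmo_pins_merge pvmo_fit_merge`), at `cfOf Y σ` and on `Conf PvPt` (`pvmoUc pvmo_U_conf …`)
* sec. 7  THE RIMS OF ALL COMPLETIONS: `pvmoExt s`, `pvmoAll x R Y s`, **`pvmo_all_eq`** (`pvhbAll x R ω = pvmoAll x R (pvxY ω) (pvmoSm ω)`), `pvmo_all_merge`
* sec. 8  LAW AND RECOLOURING: **`pvmo_col_law`** (`pvCol.map (pvmoSg g) = colLaw ↥(pvgSites g)`), `pvmo_col_le` (outer measure of ANY event), `pvmo_col_eq`, `pvmo_lintegral`, `pvmo_upInt_le`, `pvmo_Sg_surj`, labels `pvmoLab g F`, `pvmo_Sg_mix` (`pvfqMix`), `pvmo_dep` (`PvDep`),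
          **`pvmo_up_P_sites`**, **`pvmo_up_E_sites`**: a bound under `colLaw ↥(pvgSites g)` at every good geometry (= the form of the abstract kits on `V → Bool`) ⟹ the bound under `pvhbUp ε` for the event / function of the model
* sec. 9  SPLICE: `pvmo_mem_spl pvmo_spl_sites pvmo_spl_col_mem pvmo_spl_col_notMem pvmo_spl_cfOf`
* sec. 10 PLACED SETS: `pvmo_mem_pl pvmo_mem_pl_iff pvmo_pl_mono pvmo_pl_disjoint pvmo_pl_meas pvmo_pl_bdd pvmo_pl_sq`, squares `pvmo_mem_sq pvmo_sq_closed pvmo_sq_meas pvmo_sq_compact pvmo_sq_bdd pvmo_sq_mono pvmo_sq_sub_ball pvmo_ball_sub_sq`, `pvmo_fin_box`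
* sec. 11 THE EVENTS OF THE ROOFS: `PvmoPinsEv`, `PvmoCoverEv`, **`pvmo_pinsOK_iff`**, **`pvmo_cover_iff`** (`PvxPinsOK`, `PvxCover` = `PvhbOrd` of the upper probability of `{q | ¬ Ev (pvxY (pvMerge q)) (pvmoSm (pvMerge q))}`: feed `pvmo_up_P_sites`)
-/

set_option autoImplicit false

namespace Claimed.Agent.R289

open Set MeasureTheory Claims.C0465

/-! ## 1. the model on a site set `Y` with a colouring `s : ↥Y → Bool` of the sites -/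

/-- the Delaunay plane of the site set `Y` (total form of 219) -/
noncomputable def pvmoT (Y : Set ℂ) : PvMap ↥Y (delbPl Y).Dart := (delbPl Y).toMap

/-- positions -/
def pvmoPos (Y : Set ℂ) : ↥Y → ℂ := Subtype.val

/-- a colouring of the plane, read on the sites -/
def pvmoS (Y : Set ℂ) (σ : ℂ → Bool) : ↥Y → Bool := fun v => σ v.1

/-- the colouring seen by a rim of colour `b`: `true` = the colour `b` -/
def pvmoCol {Y : Set ℂ} (s : ↥Y → Bool) (b : Bool) : ↥Y → Bool := fun v => s v == b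

/-- the colours of the sites of a configuration -/
noncomputable def pvmoSc (η : Conf PvPt) : ↥(cfSites η) → Bool := pvmoS (cfSites η) (cfCol η)

/-- the colours of the sites of a sample -/
noncomputable def pvmoSm (ω : PVSample) : ↥(pvxY ω) → Bool := pvmoSc (pvConf ω)

theorem pvmo_eqns_cite : True := by
  have := @pvmoT.eq_1; have := @pvmoPos.eq_1; have := @pvmoS.eq_1; have := @pvmoCol.eq_1; have := @pvmoSc.eq_1; have := @pvmoSm.eq_1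
  trivial

theorem pvmo_Y (ω : PVSample) : pvxY ω = cfSites (pvConf ω) := rfl

theorem pvmo_T (ω : PVSample) : pvxT ω = pvmoT (pvxY ω) := rfl

theorem pvmo_pos (ω : PVSample) : pvxPos ω = pvmoPos (pvxY ω) := rfl

theorem pvmo_col (ω : PVSample) (b : Bool) : pvxCol ω b = pvmoCol (pvmoSm ω) b := rfl

theorem pvmo_pos_apply {Y : Set ℂ} (v : ↥Y) : pvmoPos Y v = v.1 := rfl

theorem pvmo_S_apply {Y : Set ℂ} (σ : ℂ → Bool) (v : ↥Y) : pvmoS Y σ v = σ v.1 := rfl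

theorem pvmo_Sm_apply (ω : PVSample) (v : ↥(pvxY ω)) : pvmoSm ω v = cfCol (pvConf ω) v.1 := rfl

/-! ## 2. TRANSPORT -/

theorem pvmo_S_congr {Y : Set ℂ} {σ σ' : ℂ → Bool} (h : ∀ y ∈ Y, σ y = σ' y) : pvmoS Y σ = pvmoS Y σ' := funext fun v => h v.1 v.2

/-- every colouring of the sites is read from a colouring of the plane -/
theorem pvmo_S_surj {Y : Set ℂ} (s : ↥Y → Bool) : ∃ σ : ℂ → Bool, pvmoS Y σ = s := by
  classical
  refine ⟨fun z => if h : z ∈ Y then s ⟨z, h⟩ else false, funext fun v => ?_⟩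
  show (if h : v.1 ∈ Y then s ⟨v.1, h⟩ else false) = s v
  rw [dif_pos v.2]

/-- **TRANSPORT**: a function of (site set, colouring of the sites) takes the same value at equal site sets and colourings of the plane which agree on the sites -/
theorem pvmo_transport {α : Sort*} (Φ : (Y : Set ℂ) → (↥Y → Bool) → α) {Y Y' : Set ℂ} (hY : Y = Y') {σ σ' : ℂ → Bool} (hσ : ∀ y ∈ Y, σ y = σ' y) :
    Φ Y (pvmoS Y σ) = Φ Y' (pvmoS Y' σ') := by
  subst hY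
  rw [pvmo_S_congr hσ]

theorem pvmo_cfCol_cfOf {Y : Set ℂ} (σ : ℂ → Bool) {y : ℂ} (hy : y ∈ Y) : cfCol (cfOf Y σ) y = σ y := by
  classical
  unfold cfCol
  by_cases h : σ y = true
  · rw [h, decide_eq_true_iff]
    exact ⟨hy, h.symm⟩
  · rw [Bool.not_eq_true] at h
    rw [h, decide_eq_false_iff_not]
    rintro ⟨-, h2⟩
    rw [h] at h2
    exact Bool.noConfusion h2

theorem pvmo_cfCol_merge {g : PvGeoT} (hg : PvgOk g) (c : PvColT) {y : ℂ} (hy : y ∈ pvgSites g) : cfCol (pvConf (pvMerge (g, c))) y = pvgColAt g c y := by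
  rw [hg.conf_eq c, pvmo_cfCol_cfOf _ hy]

/-- at a good geometry the colour of the site of an active label is the bit of the label -/
theorem pvmo_cfCol_site {g : PvGeoT} (hg : PvgOk g) (c : PvColT) {i : PvIx} (hi : i ∈ pvgAct g) : cfCol (pvConf (pvMerge (g, c))) (pvgSite g i) = c i := by
  rw [pvmo_cfCol_merge hg c ⟨i, hi, rfl⟩]
  show c (pvgIdx g (pvgSite g i)) = c i
  rw [hg.idx_site hi]

theorem pvmo_Y_merge (g : PvGeoT) (c : PvColT) : pvxY (pvMerge (g, c)) = pvgSites g := pvqu_cfSites g c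

/-- **the model at `ω = pvMerge (g,c)`** = the `(Y,s)`-model at the FIXED site set `pvgSites g` -/
theorem pvmo_merge {α : Sort*} (Φ : (Y : Set ℂ) → (↥Y → Bool) → α) {g : PvGeoT} (hg : PvgOk g) (c : PvColT) :
    Φ (pvxY (pvMerge (g, c))) (pvmoSm (pvMerge (g, c))) = Φ (pvgSites g) (pvmoS (pvgSites g) (pvgColAt g c)) :=
  pvmo_transport Φ (pvmo_Y_merge g c) fun y hy => pvmo_cfCol_merge hg c (by rwa [pvmo_Y_merge] at hy)

/-- **the model at the configuration `cfOf Y σ`** -/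
theorem pvmo_cfOf {α : Sort*} (Φ : (Y : Set ℂ) → (↥Y → Bool) → α) (Y : Set ℂ) (σ : ℂ → Bool) :
    Φ (cfSites (cfOf Y σ)) (pvmoSc (cfOf Y σ)) = Φ Y (pvmoS Y σ) :=
  pvmo_transport Φ (cfOf_sites Y σ) fun y hy => pvmo_cfCol_cfOf σ (by rwa [cfOf_sites] at hy)

/-- the model reads the sample through its configuration only -/
theorem pvmo_conf {α : Sort*} (Φ : (Y : Set ℂ) → (↥Y → Bool) → α) {ω ω' : PVSample} (h : pvConf ω = pvConf ω') :
    Φ (pvxY ω) (pvmoSm ω) = Φ (pvxY ω') (pvmoSm ω') := by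
  show Φ (cfSites (pvConf ω)) (pvmoSc (pvConf ω)) = Φ (cfSites (pvConf ω')) (pvmoSc (pvConf ω'))
  rw [h]

/-- a configuration with one colour per site is `cfOf` of its sites and colours -/
theorem pvmo_conf_eq_cfOf {η : Conf PvPt} (h : ∀ p ∈ η.pts, ∀ q ∈ η.pts, p.1 = q.1 → p = q) : η = cfOf (cfSites η) (cfCol η) := by
  classical
  ext p
  constructor
  · intro hp
    refine ⟨⟨p, hp, rfl⟩, ?_⟩
    unfold cfCol
    by_cases hb : p.2 = true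
    · rw [hb, eq_comm, decide_eq_true_iff]
      have : p = (p.1, true) := Prod.ext rfl hb
      rwa [← this]
    · rw [Bool.not_eq_true] at hb
      rw [hb, eq_comm, decide_eq_false_iff_not]
      intro hq
      have := h p hp _ hq rfl
      rw [this] at hb
      exact Bool.noConfusion hb
  · rintro ⟨⟨q, hq, hqp⟩, h2⟩
    unfold cfCol at h2
    by_cases hb : (p.1, true) ∈ η.pts
    · rw [decide_eq_true hb] at h2
      have : p = (p.1, true) := Prod.ext rfl h2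
      rwa [this]
    · rw [decide_eq_false hb] at h2
      have hq2 : q.2 = false := by
        by_contra hne
        rw [Bool.not_eq_false] at hne
        exact hb (by rw [← hqp, ← hne]; exact hq)
      have : p = q := Prod.ext hqp.symm (by rw [h2, hq2])
      rwa [this]

/-! ## 3. THE MAP -/

section map

variable {Y : Set ℂ}

theorem pvmo_sph (h : DelGood Y) : (pvmoT Y).IsSph := delb_plane_isSph h

theorem pvmo_simple (Y : Set ℂ) : (pvmoT Y).Simple := (delbPl Y).toMap_simple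

theorem pvmo_pos_inj (Y : Set ℂ) : Function.Injective (pvmoPos Y) := Subtype.val_injective

/-- a statement on `(delPl h).toMap` is a statement on `pvmoT Y` -/
theorem pvmo_of_delPl (h : DelGood Y) (Φ : PlTri ↥Y → Prop) (hΦ : Φ (delPl h)) : Φ (delbPl Y) := by
  rw [delb_pl_eq h]; exact hΦ

theorem pvmo_good_of_dart (d : (delbPl Y).Dart) : DelGood Y := d.2.1

/-- finitely many sites in a bounded window -/
theorem pvmo_fin_window (h : VorLF Y) {B : Set ℂ} (hB : Bornology.IsBounded B) : {v : ↥Y | v.1 ∈ B}.Finite := by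
  obtain ⟨R, hR⟩ := hB.subset_closedBall (0 : ℂ)
  refine Set.Finite.of_finite_image ((h R).subset ?_) Subtype.val_injective.injOn
  rintro _ ⟨v, hv, rfl⟩
  exact ⟨v.2, hR hv⟩

theorem pvmo_countable (h : VorLF Y) : Countable ↥Y := by
  have e : Y = ⋃ n : ℕ, Y ∩ Metric.closedBall (0 : ℂ) n := by
    ext z
    simp only [mem_iUnion, mem_inter_iff, Metric.mem_closedBall, dist_zero_right]
    exact ⟨fun hz => (exists_nat_ge ‖z‖).imp fun n hn => ⟨hz, hn⟩, fun ⟨_, hz, _⟩ => hz⟩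
  have : Y.Countable := by
    rw [e]
    exact countable_iUnion fun n => (h n).countable
  exact this.to_subtype

/-- the dart `a → b` -/
def pvmoD (h : DelGood Y) {a b : ℂ} (hab : DelAdj Y a b) : (delbPl Y).Dart := delbD h hab

theorem pvmo_eqns_cite2 : True := by
  have := @pvmoD.eq_1
  trivial

theorem pvmo_src_D (h : DelGood Y) {a b : ℂ} (hab : DelAdj Y a b) : pvmoPos Y ((pvmoT Y).src (pvmoD h hab)) = a := rfl

theorem pvmo_tgt_D (h : DelGood Y) {a b : ℂ} (hab : DelAdj Y a b) : pvmoPos Y ((pvmoT Y).tgt (pvmoD h hab)) = b := rfl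

theorem pvmo_apex_D (h : DelGood Y) {a b : ℂ} (hab : DelAdj Y a b) : pvmoPos Y ((pvmoT Y).apex (pvmoD h hab)) = delApex Y a b := rfl

theorem pvmo_opp_D (h : DelGood Y) {a b : ℂ} (hab : DelAdj Y a b) : (pvmoT Y).opp (pvmoD h hab) = pvmoD h hab.symm := rfl

theorem pvmo_adj (d : (delbPl Y).Dart) : DelAdj Y (pvmoPos Y ((pvmoT Y).src d)) (pvmoPos Y ((pvmoT Y).tgt d)) := d.2.2

theorem pvmo_D_eq (d : (delbPl Y).Dart) : pvmoD (pvmo_good_of_dart d) (pvmo_adj d) = d := rfl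

/-- a dart is determined by the positions of its ends -/
theorem pvmo_ext {d d' : (delbPl Y).Dart} (h1 : pvmoPos Y ((pvmoT Y).src d) = pvmoPos Y ((pvmoT Y).src d')) (h2 : pvmoPos Y ((pvmoT Y).tgt d) = pvmoPos Y ((pvmoT Y).tgt d')) : d = d' :=
  pvmo_simple Y d d' (Subtype.ext h1) (Subtype.ext h2)

theorem pvmo_adj_iff (h : DelGood Y) (a b : ↥Y) : (∃ d : (delbPl Y).Dart, (pvmoT Y).src d = a ∧ (pvmoT Y).tgt d = b) ↔ DelAdj Y a.1 b.1 := by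
  constructor
  · rintro ⟨d, rfl, rfl⟩
    exact pvmo_adj d
  · intro hab
    exact ⟨pvmoD h hab, rfl, rfl⟩

/-- the face on the left of a dart is a Delaunay triangle -/
theorem pvmo_face (d : (delbPl Y).Dart) : DelTri Y (pvmoPos Y ((pvmoT Y).src d)) (pvmoPos Y ((pvmoT Y).tgt d)) (pvmoPos Y ((pvmoT Y).apex d)) := delb_plane_face d

/-- counterclockwise -/
theorem pvmo_det_pos (d : (delbPl Y).Dart) : 0 < vorDet (pvmoPos Y ((pvmoT Y).src d)) (pvmoPos Y ((pvmoT Y).tgt d)) (pvmoPos Y ((pvmoT Y).apex d)) := (pvmo_face d).left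

end map

/-! ## 4. COLOURS -/

section colours

variable {Y : Set ℂ}

theorem pvmo_col_true (s : ↥Y → Bool) : pvmoCol s true = s := funext fun v => by simp [pvmoCol]

theorem pvmo_col_false (s : ↥Y → Bool) : pvmoCol s false = pvasNot s := funext fun v => by simp [pvmoCol, pvasNot]

theorem pvmo_col_not (s : ↥Y → Bool) (b : Bool) : pvmoCol s (!b) = pvasNot (pvmoCol s b) := funext fun v => by
  cases b <;> cases h : s v <;> simp [pvmoCol, pvasNot, h]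

theorem pvmo_col_iff (s : ↥Y → Bool) (b : Bool) (v : ↥Y) : pvmoCol s b v = true ↔ s v = b := by simp [pvmoCol]

theorem pvmo_col_iff_false (s : ↥Y → Bool) (b : Bool) (v : ↥Y) : pvmoCol s b v = false ↔ s v = !b := by
  cases b <;> cases h : s v <;> simp [pvmoCol, h]

/-- **`pvxCol ω (!b) = pvasNot (pvxCol ω b)`** -/
theorem pvmo_xcol_not (ω : PVSample) (b : Bool) : pvxCol ω (!b) = pvasNot (pvxCol ω b) := pvmo_col_not (pvmoSm ω) b

theorem pvmo_xcol_iff (ω : PVSample) (b : Bool) (v : ↥(pvxY ω)) : pvxCol ω b v = true ↔ cfCol (pvConf ω) v.1 = b := pvmo_col_iff (pvmoSm ω) b v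

/-- two colourings which agree on a set of sites, seen by a rim of colour `b` -/
theorem pvmo_col_agree {s s' : ↥Y → Bool} {F : Set ↥Y} (h : ∀ v ∈ F, s v = s' v) (b : Bool) : PvwAgree F (pvmoCol s b) (pvmoCol s' b) :=
  fun v hv => by show (s v == b) = (s' v == b); rw [h v hv]

end colours

/-! ## 5. ALMOST SURELY -/

section ae

/-- **the good geometries of the model** -/
def PvmoGeo (g : PvGeoT) : Prop := PvgOk g ∧ DelGood (pvgSites g)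

theorem pvmo_eqns_cite3 : True := by
  have := @PvmoGeo.eq_1
  trivial

theorem pvmo_geo_ae {ε : ℝ} (hε : 0 < ε) : ∀ᵐ g ∂(pvGeo ε), PvmoGeo g := by
  filter_upwards [pvqu_ok_ae ε, dls_ae_geo hε] with g h1 h2
  exact ⟨h1, h2⟩

theorem pvmo_good_merge {g : PvGeoT} (hg : PvmoGeo g) (c : PvColT) : DelGood (pvxY (pvMerge (g, c))) := by
  rw [pvmo_Y_merge]; exact hg.2

theorem pvmo_law_ae {ε : ℝ} (hε : 0 < ε) : ∀ᵐ ω ∂(pvLaw ε), DelGood (pvxY ω) := (dls_ae hε).mono fun _ h => h.del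

/-- the bad geometries do not count -/
theorem pvmo_up_bad {ε : ℝ} (hε : 0 < ε) : (pvhbUp ε).P {q | ¬ PvmoGeo q.1} = 0 :=
  le_antisymm ((pvhb_up_P_geo ε {g | ¬ PvmoGeo g}).trans (le_of_eq (pvmo_geo_ae hε))) zero_le

/-- **a quenched bound on the probability has to be proved at the good geometries only** -/
theorem pvmo_up_P {ε : ℝ} (hε : 0 < ε) {A : Set (PvGeoT × PvColT)} {w : PvGeoT → ENNReal} (hw : AEMeasurable w (pvGeo ε))
    (h : ∀ g, PvmoGeo g → pvCol {c | (g, c) ∈ A} ≤ w g) : (pvhbUp ε).P A ≤ ∫⁻ g, w g ∂(pvGeo ε) :=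
  pvhb_iter_P_ae (pvGeo ε) pvCol hw ((pvmo_geo_ae hε).mono h)

/-- **a quenched bound on the upper expectation has to be proved at the good geometries only** -/
theorem pvmo_up_E {ε : ℝ} (hε : 0 < ε) {F : PvGeoT × PvColT → ENNReal} {w : PvGeoT → ENNReal} (hw : AEMeasurable w (pvGeo ε))
    (h : ∀ g, PvmoGeo g → pvUpInt pvCol (fun c => F (g, c)) ≤ w g) : (pvhbUp ε).E F ≤ ∫⁻ g, w g ∂(pvGeo ε) :=
  pvhb_iter_E_ae (pvGeo ε) pvCol hw ((pvmo_geo_ae hε).mono h)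

end ae

/-! ## 6. THE `(Y,s)`-FORMS OF THE MODEL      (GENERATED from the text of `Defs/TrModel.lean`, sec. 3-5: `ω ↦ (Y, s₀)`, `pvxT ω ↦ pvmoT Y`, `pvxPos ω ↦ pvmoPos Y`, `pvxCol ω ↦ pvmoCol s₀`) -/

section forms

variable {τ : Type} {c : ℝ} (𝔓 : PvxPar τ c)

/-! ### the state of a candidate, `(Y,s)`-form -/



/-- **`𝔖` IS THE STATE OF THE CANDIDATE `(z,t)` IN THE SAMPLE `ω`, LEVEL `m`** -/
structure PvmoAt (m : ℕ) (Y : Set ℂ) (s₀ : ↥Y → Bool) (z : ℂ) (t : τ) (𝔖 : PvwSt (pvmoT Y)) : Prop where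
  good : DelGood (Y)
  st : 𝔖.At (pvmoPos Y) 𝔓.num (pvlmH m) z (𝔓.ty t) (pvmoCol s₀ (𝔓.col t))
  /-- the BLACK ends of the tip darts lie in the cells prescribed by the type (one-vertex tests, as `PvwDat.Ok.tip_t`, `tip_s`) -/
  tip_p : pvmoPos Y ((pvmoT Y).src (𝔖.ep 𝔖.np)) ∈ pvxPl z (pvlmH m) (𝔓.cp t)
  tip_m : pvmoPos Y ((pvmoT Y).src (𝔖.em 𝔖.nm)) ∈ pvxPl z (pvlmH m) (𝔓.cm t)
  /-- the rim arcs carried by the stubs lie in the masks prescribed by the type -/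
  mask_p : ∀ y : (pvmoT Y).Pth, PvwLE (pvmoT Y) (fun i => (pvmoT Y).src (𝔖.ep i)) 𝔖.np y → ∀ v ∈ y.verts, pvmoPos Y v ∈ pvxPl z (pvlmH m) (𝔓.Mp t)
  mask_m : ∀ y : (pvmoT Y).Pth, PvwLE (pvmoT Y) (fun i => (pvmoT Y).src (𝔖.em i)) 𝔖.nm y → ∀ v ∈ y.verts, pvmoPos Y v ∈ pvxPl z (pvlmH m) (𝔓.Mm t)
  /-- the two halves of the inner arc, cut at the MARK, lie in the masks off the cut-off ball (R17 (a) of 234 = M1 of 146) -/
  inn_p : ∀ i, 𝔖.ip ≤ i → i ≤ 𝔖.inn.n → (𝔓.num.m - 1) * pvlmH m < ‖pvmoPos Y (𝔖.inn.v i) - z‖ → pvmoPos Y (𝔖.inn.v i) ∈ pvxPl z (pvlmH m) (𝔓.Mp t)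
  inn_m : ∀ i, i ≤ 𝔖.ip → (𝔓.num.m - 1) * pvlmH m < ‖pvmoPos Y (𝔖.inn.v i) - z‖ → pvmoPos Y (𝔖.inn.v i) ∈ pvxPl z (pvlmH m) (𝔓.Mm t)
  /-- no candidate below the level `m0` (R18 (1) of 234, 73) -/
  lev0 : 𝔓.m0 ≤ m

/-- the candidate `(z,t)` is USABLE: its state exists.      An event READ FROM THE STATE (no flag, no rim). -/
def PvmoU (m : ℕ) (Y : Set ℂ) (s₀ : ↥Y → Bool) (z : ℂ) (t : τ) : Prop := ∃ 𝔖 : PvwSt (pvmoT Y), PvmoAt 𝔓 m Y s₀ z t 𝔖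

/-! ### pins of an encoded rim, `(Y,s)`-form -/

/-- **`PvwSt.PinOf` IN ENCODED FORM** (`j` = the place of `g⁻` on `P`, `BK` = the largest box, `yp ym` = the grid centres `y⁺ y⁻` of the tip cells): `P` runs through the gate along the inner arc;
`P` minus its arc inside `BK` AFTER the gate misses the mouth `closedBall y⁺ (2 ρ h)`;   `P` minus its arc inside `BK` BEFORE the gate misses the mouth `closedBall y⁻ (2 ρ h)`.      The rim is cut at `P.v 0 = P.v P.len`, far from the pin: no wrap-around. -/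
structure PvmoPinOf {Y : Set ℂ} (𝔖 : PvwSt (pvmoT Y)) (N : PvwNum) (h : ℝ) (yp ym : ℂ) (BK : Set ℂ) (P : PvbRim) (j : ℕ) : Prop where
  le : j + 𝔖.inn.n < P.len
  run : ∀ i, i ≤ 𝔖.inn.n → P.v (j + i) = pvmoPos Y (𝔖.inn.v i)
  mouth_p : ∃ B, j + 𝔖.inn.n + B < P.len ∧ (∀ i, i ≤ B → P.v (j + 𝔖.inn.n + i) ∈ BK) ∧
    ∀ k, k ≤ P.len → (k ≤ j ∨ j + 𝔖.inn.n + B < k) → 2 * N.rho * h < ‖P.v k - yp‖
  mouth_m : ∃ A, A < j ∧ (∀ i, i ≤ A → P.v (j - i) ∈ BK) ∧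
    ∀ k, k ≤ P.len → (k + A < j ∨ j + 𝔖.inn.n ≤ k) → 2 * N.rho * h < ‖P.v k - ym‖

/-- **THE QUALIFIED PINS OF THE ENCODED RIM `P`** at level `m` in the patch `(x,R)`: a function of (sample, encoded rim); no bulk family.
Centres in `closedBall x (3R)` only (the completions agree with the plane on `closedBall x (6R)` only);   a SECOND ACTUAL GATE round the first (RULING 9bis). -/
def pvmoPins (x : ℂ) (R : ℝ) (m : ℕ) (Y : Set ℂ) (s₀ : ↥Y → Bool) (P : PvbRim) : Set (PvbPin τ) :=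
  {s | ‖s.ctr - x‖ ≤ 3 * R ∧ (∃ p : ℤ × ℤ, s.ctr = l9Pt (pvlmH m) p) ∧ ∃ (𝔖 : PvwSt (pvmoT Y)) (j : ℕ), PvmoAt 𝔓 m Y s₀ s.ctr s.typ 𝔖 ∧
    PvmoPinOf 𝔖 𝔓.num (pvlmH m) ((𝔓.ty s.typ).cp (pvlmH m) s.ctr) ((𝔓.ty s.typ).cm (pvlmH m) s.ctr) (𝔓.box m s.ctr s.typ) P j ∧ s.idx = j + 𝔖.ip ∧
    ∃ 𝔖₂ : PvwSt (pvmoT Y), 𝔖₂.Gate (pvmoPos Y) (pvlmH m) s.ctr (𝔓.ty2 s.typ) (pvmoCol s₀ (𝔓.col s.typ))}

/-! ### patterns, actual data, fit, `(Y,s)`-form -/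

/-- **`PvwDat.Actual` IN ENCODED FORM**: the colouring of the sample lies in `Cyl(D)`, both states are pins of `P`, `g₀` is the arc `g⁺(s) → g⁻(t)` of `P` (`j` = the place of `g⁻(s)` on `P`) -/
structure PvmoActual {Y : Set ℂ} (s₀ : ↥Y → Bool) (𝔇 : PvwDat (pvmoT Y)) (N : PvwNum) (h : ℝ) (π : PvwPat) (b : Bool) (P : PvbRim) (j : ℕ) : Prop where
  cyl : pvmoCol s₀ b ∈ 𝔇.Cyl
  pin_s : PvmoPinOf 𝔇.s N h (π.ts.cp h π.zs) (π.ts.cm h π.zs) (pvwSq π.zs (pvwRad N h π.ts N.K)) P j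
  arc : ∀ i, i ≤ 𝔇.g.n → P.v (j + 𝔇.s.inn.n + i) = pvmoPos Y (𝔇.g.v i)
  pin_t : PvmoPinOf 𝔇.t N h (π.tt.cp h π.zt) (π.tt.cm h π.zt) (pvwSq π.zt (pvwRad N h π.tt N.K)) P (j + 𝔇.s.inn.n + 𝔇.g.n)

/-- the `δ`-hull of a frozen set with its mouth (`tip` = the grid centre of the tip cell) -/
def pvmoHull {Y : Set ℂ} (δ : ℝ) (F : Set ↥(Y)) (tip : ℂ) (r : ℝ) : Set (ℤ × ℤ) := pvtCells δ (pvmoPos Y '' F ∪ Metric.closedBall tip r)

/-- **THE ARC `s → t` OF THE ENCODED RIM `P` FITS THE PATTERN `π`** -/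
def PvmoFit (x : ℂ) (R : ℝ) (m : ℕ) (Y : Set ℂ) (s₀ : ↥Y → Bool) (P : PvbRim) (s t : PvbPin τ) (π : PvxIx τ) : Prop :=
  (s.ctr = π.p.zs ∧ s.typ = π.p.ts) ∧ (t.ctr = π.p.zt ∧ t.typ = π.p.tt) ∧ PvmoU 𝔓 m Y s₀ s.ctr s.typ ∧ PvmoU 𝔓 m Y s₀ t.ctr t.typ ∧
  ∃ (𝔇 : PvwDat (pvmoT Y)) (j : ℕ), 𝔇.Ok (pvmoPos Y) 𝔓.num (pvlmH m) (𝔓.reg m π) ∧ PvmoActual s₀ 𝔇 𝔓.num (pvlmH m) (𝔓.reg m π) (𝔓.col π.p.ts) P j ∧
    PvmoAt 𝔓 m Y s₀ π.p.zs π.p.ts 𝔇.s ∧ PvmoAt 𝔓 m Y s₀ π.p.zt π.p.tt 𝔇.t ∧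
    s.idx = j + 𝔇.s.ip ∧ t.idx = j + 𝔇.s.inn.n + 𝔇.g.n + 𝔇.t.ip ∧
    (∀ k, j ≤ k → k ≤ j + 𝔇.s.inn.n + 𝔇.g.n + 𝔇.t.inn.n → ‖P.v k - x‖ ≤ 5 * R) ∧
    (π.Zs : Set (ℤ × ℤ)) = pvmoHull (pvlmDel c m) 𝔇.s.fzIn (pvxYs 𝔓 m π.p) (𝔓.num.rho * pvlmH m) ∧
    (π.Zt : Set (ℤ × ℤ)) = pvmoHull (pvlmDel c m) 𝔇.t.fzOut (pvxYt 𝔓 m π.p) (𝔓.num.rho * pvlmH m)

theorem pvmo_eqns_cite4 : True := by
  have := @PvmoU.eq_1; have := @pvmoPins.eq_1; have := @pvmoHull.eq_1; have := @PvmoFit.eq_1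
  trivial

variable {𝔓}

/-! ### the model at `ω` is the `(Y,s)`-form at `(pvxY ω, pvmoSm ω)` -/

theorem pvmo_at_iff {m : ℕ} {ω : PVSample} {z : ℂ} {t : τ} {𝔖 : PvwSt (pvxT ω)} : PvxAt 𝔓 m ω z t 𝔖 ↔ PvmoAt 𝔓 m (pvxY ω) (pvmoSm ω) z t 𝔖 := by
  constructor <;> (rintro ⟨⟩; constructor <;> assumption)

theorem pvmo_U_iff {m : ℕ} {ω : PVSample} {z : ℂ} {t : τ} : ω ∈ pvxU 𝔓 m z t ↔ PvmoU 𝔓 m (pvxY ω) (pvmoSm ω) z t :=
  exists_congr fun _ => pvmo_at_iff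

theorem pvmo_pinOf_iff {ω : PVSample} {𝔖 : PvwSt (pvxT ω)} {N : PvwNum} {h : ℝ} {yp ym : ℂ} {BK : Set ℂ} {P : PvbRim} {j : ℕ} :
    PvxPinOf 𝔖 N h yp ym BK P j ↔ PvmoPinOf (Y := pvxY ω) 𝔖 N h yp ym BK P j := by
  constructor <;> (rintro ⟨⟩; constructor <;> assumption)

theorem pvmo_pins_eq (x : ℂ) (R : ℝ) (m : ℕ) (ω : PVSample) (P : PvbRim) : pvxPins 𝔓 x R m ω P = pvmoPins 𝔓 x R m (pvxY ω) (pvmoSm ω) P := by
  ext s
  unfold pvxPins pvmoPins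
  simp only [mem_ofPred_eq, pvmo_at_iff, pvmo_pinOf_iff]
  rfl

theorem pvmo_actual_iff {ω : PVSample} {𝔇 : PvwDat (pvxT ω)} {N : PvwNum} {h : ℝ} {π : PvwPat} {b : Bool} {P : PvbRim} {j : ℕ} :
    PvxActual 𝔇 N h π b P j ↔ PvmoActual (Y := pvxY ω) (pvmoSm ω) 𝔇 N h π b P j := by
  constructor
  · rintro ⟨h1, h2, h3, h4⟩
    exact ⟨h1, pvmo_pinOf_iff.1 h2, h3, pvmo_pinOf_iff.1 h4⟩
  · rintro ⟨h1, h2, h3, h4⟩
    exact ⟨h1, pvmo_pinOf_iff.2 h2, h3, pvmo_pinOf_iff.2 h4⟩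

theorem pvmo_hull_eq {ω : PVSample} (δ : ℝ) (F : Set ↥(pvxY ω)) (tip : ℂ) (r : ℝ) : pvxHull δ F tip r = pvmoHull δ F tip r := rfl

theorem pvmo_fit_iff {x : ℂ} {R : ℝ} {m : ℕ} {ω : PVSample} {P : PvbRim} {s t : PvbPin τ} {π : PvxIx τ} :
    pvxFit 𝔓 x R m ω P s t π ↔ PvmoFit 𝔓 x R m (pvxY ω) (pvmoSm ω) P s t π := by
  unfold pvxFit PvmoFit
  simp only [pvmo_U_iff, pvmo_at_iff, pvmo_actual_iff]
  rfl

/-! ### at `ω = pvMerge (g,c)`: the FIXED map `pvmoT (pvgSites g)`, the colouring `pvmoS _ (pvgColAt g c)` -/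

/-- the colouring of the sites of the geometry `g` by the bits `c` -/
noncomputable def pvmoSg (g : PvGeoT) (c : PvColT) : ↥(pvgSites g) → Bool := pvmoS (pvgSites g) (pvgColAt g c)

theorem pvmo_eqns_cite5 : True := by
  have := @pvmoSg.eq_1
  trivial

theorem pvmo_Sg_apply (g : PvGeoT) (c : PvColT) (v : ↥(pvgSites g)) : pvmoSg g c v = c (pvgIdx g v.1) := rfl

theorem pvmo_Sg_site {g : PvGeoT} (hg : PvgOk g) (c : PvColT) {i : PvIx} (hi : i ∈ pvgAct g) : pvmoSg g c ⟨pvgSite g i, i, hi, rfl⟩ = c i := by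
  show c (pvgIdx g (pvgSite g i)) = c i
  rw [hg.idx_site hi]

theorem pvmo_U_merge {m : ℕ} {z : ℂ} {t : τ} {g : PvGeoT} (hg : PvgOk g) (c₀ : PvColT) :
    pvMerge (g, c₀) ∈ pvxU 𝔓 m z t ↔ PvmoU 𝔓 m (pvgSites g) (pvmoSg g c₀) z t :=
  pvmo_U_iff.trans (pvmo_merge (fun Y s => PvmoU 𝔓 m Y s z t) hg c₀).to_iff

theorem pvmo_pins_merge (x : ℂ) (R : ℝ) (m : ℕ) {g : PvGeoT} (hg : PvgOk g) (c₀ : PvColT) (P : PvbRim) :
    pvxPins 𝔓 x R m (pvMerge (g, c₀)) P = pvmoPins 𝔓 x R m (pvgSites g) (pvmoSg g c₀) P :=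
  (pvmo_pins_eq x R m _ P).trans (pvmo_merge (fun Y s => pvmoPins 𝔓 x R m Y s P) hg c₀)

theorem pvmo_fit_merge {x : ℂ} {R : ℝ} {m : ℕ} {g : PvGeoT} (hg : PvgOk g) (c₀ : PvColT) {P : PvbRim} {s t : PvbPin τ} {π : PvxIx τ} :
    pvxFit 𝔓 x R m (pvMerge (g, c₀)) P s t π ↔ PvmoFit 𝔓 x R m (pvgSites g) (pvmoSg g c₀) P s t π :=
  pvmo_fit_iff.trans (pvmo_merge (fun Y s₀ => PvmoFit 𝔓 x R m Y s₀ P s t π) hg c₀).to_iff

/-! ### on `Conf PvPt` -/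

variable (𝔓)

/-- `pvxU` as an event of the configuration -/
def pvmoUc (m : ℕ) (z : ℂ) (t : τ) : Set (Conf PvPt) := {η | PvmoU 𝔓 m (cfSites η) (pvmoSc η) z t}

/-- `pvxPins` as a function of the configuration -/
def pvmoPinsC (x : ℂ) (R : ℝ) (m : ℕ) (η : Conf PvPt) (P : PvbRim) : Set (PvbPin τ) := pvmoPins 𝔓 x R m (cfSites η) (pvmoSc η) P

/-- `pvxFit` as a predicate of the configuration -/
def PvmoFitC (x : ℂ) (R : ℝ) (m : ℕ) (η : Conf PvPt) (P : PvbRim) (s t : PvbPin τ) (π : PvxIx τ) : Prop := PvmoFit 𝔓 x R m (cfSites η) (pvmoSc η) P s t π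

theorem pvmo_eqns_cite6 : True := by
  have := @pvmoUc.eq_1; have := @pvmoPinsC.eq_1; have := @PvmoFitC.eq_1
  trivial

variable {𝔓}

theorem pvmo_U_conf (m : ℕ) (z : ℂ) (t : τ) : pvxU 𝔓 m z t = pvConf ⁻¹' pvmoUc 𝔓 m z t := by
  ext ω
  exact pvmo_U_iff

theorem pvmo_pins_conf (x : ℂ) (R : ℝ) (m : ℕ) (ω : PVSample) (P : PvbRim) : pvxPins 𝔓 x R m ω P = pvmoPinsC 𝔓 x R m (pvConf ω) P := pvmo_pins_eq x R m ω P

theorem pvmo_fit_conf {x : ℂ} {R : ℝ} {m : ℕ} {ω : PVSample} {P : PvbRim} {s t : PvbPin τ} {π : PvxIx τ} :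
    pvxFit 𝔓 x R m ω P s t π ↔ PvmoFitC 𝔓 x R m (pvConf ω) P s t π := pvmo_fit_iff

theorem pvmo_Uc_cfOf {m : ℕ} {z : ℂ} {t : τ} (Y : Set ℂ) (σ : ℂ → Bool) : cfOf Y σ ∈ pvmoUc 𝔓 m z t ↔ PvmoU 𝔓 m Y (pvmoS Y σ) z t :=
  (pvmo_cfOf (fun Y s => PvmoU 𝔓 m Y s z t) Y σ).to_iff

theorem pvmo_pinsC_cfOf (x : ℂ) (R : ℝ) (m : ℕ) (Y : Set ℂ) (σ : ℂ → Bool) (P : PvbRim) : pvmoPinsC 𝔓 x R m (cfOf Y σ) P = pvmoPins 𝔓 x R m Y (pvmoS Y σ) P :=
  pvmo_cfOf (fun Y s => pvmoPins 𝔓 x R m Y s P) Y σ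

theorem pvmo_fitC_cfOf {x : ℂ} {R : ℝ} {m : ℕ} (Y : Set ℂ) (σ : ℂ → Bool) {P : PvbRim} {s t : PvbPin τ} {π : PvxIx τ} :
    PvmoFitC 𝔓 x R m (cfOf Y σ) P s t π ↔ PvmoFit 𝔓 x R m Y (pvmoS Y σ) P s t π :=
  (pvmo_cfOf (fun Y s₀ => PvmoFit 𝔓 x R m Y s₀ P s t π) Y σ).to_iff

end forms

/-! ## 7. THE RIMS OF ALL COMPLETIONS, `(Y,s)`-form -/

section all

open Classical in
/-- extension by `false` of a colouring of the sites -/
noncomputable def pvmoExt {Y : Set ℂ} (s : ↥Y → Bool) (z : ℂ) : Bool := if h : z ∈ Y then s ⟨z, h⟩ else false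

theorem pvmo_ext_mem {Y : Set ℂ} (s : ↥Y → Bool) (v : ↥Y) : pvmoExt s v.1 = s v := by
  unfold pvmoExt
  rw [dif_pos v.2]

theorem pvmo_ext_notMem {Y : Set ℂ} (s : ↥Y → Bool) {z : ℂ} (hz : z ∉ Y) : pvmoExt s z = false := by
  unfold pvmoExt
  rw [dif_neg hz]

theorem pvmo_S_ext {Y : Set ℂ} (s : ↥Y → Bool) : pvmoS Y (pvmoExt s) = s := funext fun v => pvmo_ext_mem s v

theorem pvmo_cfCol_notMem {η : Conf PvPt} {z : ℂ} (hz : z ∉ cfSites η) : cfCol η z = false := by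
  classical
  unfold cfCol
  rw [decide_eq_false_iff_not]
  exact fun h => hz ⟨_, h, rfl⟩

theorem pvmo_ext_Sc (η : Conf PvPt) : pvmoExt (pvmoSc η) = cfCol η := by
  funext z
  by_cases hz : z ∈ cfSites η
  · exact pvmo_ext_mem (pvmoSc η) ⟨z, hz⟩
  · rw [pvmo_ext_notMem _ hz, pvmo_cfCol_notMem hz]

/-- **the encoded reaching rims of ALL completions**, as a function of (site set, colouring of the sites) -/
def pvmoAll (x : ℂ) (R : ℝ) (Y : Set ℂ) (s : ↥Y → Bool) : Set PvbRim :=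
  {P | ∃ (X : Type) (_ : Fintype X) (𝔅 : PvBulk X) (ξ : X → Bool), 𝔅.Adm Y ∧ 𝔅.Ok Y (Metric.closedBall x (6 * R)) ∧
    P ∈ 𝔅.rimsAt Y (fun v => Sum.elim (pvmoExt s) ξ (𝔅.lab Y v)) x R}

theorem pvmo_eqns_cite7 : True := by
  have := @pvmoExt.eq_1; have := @pvmoAll.eq_1
  trivial

theorem pvmo_all_eq (x : ℂ) (R : ℝ) (ω : PVSample) : pvhbAll x R ω = pvmoAll x R (pvxY ω) (pvmoSm ω) := by
  have e : pvmoExt (pvmoSm ω) = cfCol (pvConf ω) := pvmo_ext_Sc (pvConf ω)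
  unfold pvhbAll pvmoAll
  rw [e]
  rfl

theorem pvmo_all_merge (x : ℂ) (R : ℝ) {g : PvGeoT} (hg : PvgOk g) (c₀ : PvColT) : pvhbAll x R (pvMerge (g, c₀)) = pvmoAll x R (pvgSites g) (pvmoSg g c₀) :=
  (pvmo_all_eq x R _).trans (pvmo_merge (fun Y s => pvmoAll x R Y s) hg c₀)

end all

/-! ## 8. THE LAW OF THE COLOURS OF THE SITES, RECOLOURING -/

section law

variable (g : PvGeoT)

theorem pvmo_sites_countable : (pvgSites g).Countable := (Set.to_countable (pvgAct g)).image _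

instance pvmoCountableSites : Countable ↥(pvgSites g) := (pvmo_sites_countable g).to_subtype

theorem pvmo_idx_inj : Function.Injective fun v : ↥(pvgSites g) => pvgIdx g v.1 :=
  fun v w h => Subtype.ext (pvqu_idx_injOn g v.2 w.2 h)

theorem pvmo_measurable_Sg : Measurable (pvmoSg g) := measurable_pi_lambda _ fun v => measurable_pi_apply (pvgIdx g v.1)

/-- **under `pvCol` the colours of the sites are fair independent bits** -/
theorem pvmo_col_law : pvCol.map (pvmoSg g) = colLaw ↥(pvgSites g) := pvf_colLaw_comp (fun v : ↥(pvgSites g) => pvgIdx g v.1) (pvmo_idx_inj g)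

/-- OUTER measure of an ARBITRARY event of the colouring of the sites -/
theorem pvmo_col_le (E : Set (↥(pvgSites g) → Bool)) : pvCol {c | pvmoSg g c ∈ E} ≤ colLaw ↥(pvgSites g) E := by
  rw [← pvmo_col_law g]
  exact Measure.le_map_apply (pvmo_measurable_Sg g).aemeasurable E

theorem pvmo_col_eq {E : Set (↥(pvgSites g) → Bool)} (hE : MeasurableSet E) : pvCol {c | pvmoSg g c ∈ E} = colLaw ↥(pvgSites g) E := by
  rw [← pvmo_col_law g, Measure.map_apply (pvmo_measurable_Sg g) hE]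
  rfl

theorem pvmo_lintegral {F : (↥(pvgSites g) → Bool) → ENNReal} (hF : Measurable F) : ∫⁻ c, F (pvmoSg g c) ∂pvCol = ∫⁻ s, F s ∂colLaw ↥(pvgSites g) := by
  rw [← pvmo_col_law g, lintegral_map hF (pvmo_measurable_Sg g)]

/-- upper integrals -/
theorem pvmo_upInt_le (F : (↥(pvgSites g) → Bool) → ENNReal) : pvUpInt pvCol (fun c => F (pvmoSg g c)) ≤ pvUpInt (colLaw ↥(pvgSites g)) F := by
  refine le_iInf fun φ => ?_
  rw [← pvmo_lintegral g φ.2.1]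
  exact pvup_int_le pvCol (φ.2.1.comp (pvmo_measurable_Sg g)) fun c => φ.2.2 _

variable {g}

/-- every colouring of the sites comes from bits -/
theorem pvmo_Sg_surj (s : ↥(pvgSites g) → Bool) : ∃ c : PvColT, pvmoSg g c = s := by
  refine ⟨fun i => pvmoExt s (pvgSite g i), funext fun v => ?_⟩
  show pvmoExt s (pvgSite g (pvgIdx g v.1)) = s v
  rw [(pvqu_idx_spec v.2).2, pvmo_ext_mem]

/-- the labels of a set of sites -/
def pvmoLab (g : PvGeoT) (F : Set ↥(pvgSites g)) : Set PvIx := (fun v : ↥(pvgSites g) => pvgIdx g v.1) '' F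

theorem pvmo_eqns_cite8 : True := by
  have := @pvmoLab.eq_1
  trivial

theorem pvmo_mem_lab {F : Set ↥(pvgSites g)} {v : ↥(pvgSites g)} : pvgIdx g v.1 ∈ pvmoLab g F ↔ v ∈ F :=
  (pvmo_idx_inj g).mem_set_image

theorem pvmo_lab_sub (F : Set ↥(pvgSites g)) : pvmoLab g F ⊆ pvgAct g := by
  rintro _ ⟨v, -, rfl⟩
  exact (pvqu_idx_spec v.2).1

theorem pvmo_lab_finite {F : Set ↥(pvgSites g)} (hF : F.Finite) : (pvmoLab g F).Finite := hF.image _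

theorem pvmo_lab_disjoint {F F' : Set ↥(pvgSites g)} (h : Disjoint F F') : Disjoint (pvmoLab g F) (pvmoLab g F') :=
  (Set.disjoint_image_iff (pvmo_idx_inj g)).2 h

/-- the colours of the sites of `F` are the bits of their labels -/
theorem pvmo_Sg_congr {F : Set ↥(pvgSites g)} {c c' : PvColT} (h : ∀ i ∈ pvmoLab g F, c i = c' i) : ∀ v ∈ F, pvmoSg g c v = pvmoSg g c' v :=
  fun v hv => h _ ⟨v, hv, rfl⟩

/-- **RECOLOURING**: bits `c` on the labels of `F`, bits `c'` elsewhere = colours `c` on `F`, colours `c'` on the other sites -/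
theorem pvmo_Sg_mix (F : Set ↥(pvgSites g)) (c c' : PvColT) : pvmoSg g (pvfqMix (pvmoLab g F) (c, c')) = pvfqMix F (pvmoSg g c, pvmoSg g c') := by
  classical
  funext v
  show pvfqMix (pvmoLab g F) (c, c') (pvgIdx g v.1) = _
  by_cases hv : v ∈ F
  · rw [pvfqMix_of_mem (pvmo_mem_lab.2 hv), pvfqMix_of_mem hv]; rfl
  · rw [pvfqMix_of_notMem (fun h => hv (pvmo_mem_lab.1 h)), pvfqMix_of_notMem hv]; rfl

/-- an event which reads the colours of the sites of `F` only reads the bits of their labels only -/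
theorem pvmo_dep {F : Set ↥(pvgSites g)} {E : Set (↥(pvgSites g) → Bool)} (h : ∀ s s', (∀ v ∈ F, s v = s' v) → s ∈ E → s' ∈ E) :
    PvDep (pvmoLab g F) {c | pvmoSg g c ∈ E} :=
  fun _ _ hc hE => h _ _ (pvmo_Sg_congr hc) hE

/-- **quenched bound in the form of the abstract kits** (`V := ↥(pvgSites g)`, `T := pvmoT (pvgSites g)`, law `colLaw V`) ⟹ bound on the upper probability of the model -/
theorem pvmo_up_P_sites {ε : ℝ} (hε : 0 < ε) (Φ : (Y : Set ℂ) → (↥Y → Bool) → Prop) {w : PvGeoT → ENNReal} (hw : AEMeasurable w (pvGeo ε))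
    (h : ∀ g, PvmoGeo g → colLaw ↥(pvgSites g) {s | Φ (pvgSites g) s} ≤ w g) :
    (pvhbUp ε).P {q | Φ (pvxY (pvMerge q)) (pvmoSm (pvMerge q))} ≤ ∫⁻ g, w g ∂(pvGeo ε) := by
  refine pvmo_up_P hε hw fun g hg => le_trans (le_of_eq ?_) ((pvmo_col_le g {s | Φ (pvgSites g) s}).trans (h g hg))
  congr 1
  ext c
  exact (pvmo_merge Φ hg.1 c).to_iff

/-- the same for upper expectations -/
theorem pvmo_up_E_sites {ε : ℝ} (hε : 0 < ε) (Φ : (Y : Set ℂ) → (↥Y → Bool) → ENNReal) {w : PvGeoT → ENNReal} (hw : AEMeasurable w (pvGeo ε))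
    (h : ∀ g, PvmoGeo g → pvUpInt (colLaw ↥(pvgSites g)) (Φ (pvgSites g)) ≤ w g) :
    (pvhbUp ε).E (fun q => Φ (pvxY (pvMerge q)) (pvmoSm (pvMerge q))) ≤ ∫⁻ g, w g ∂(pvGeo ε) := by
  refine pvmo_up_E hε hw fun g hg => le_trans (le_of_eq ?_) ((pvmo_upInt_le g (Φ (pvgSites g))).trans (h g hg))
  congr 1
  funext c
  exact pvmo_merge Φ hg.1 c

end law

/-! ## 9. SPLICE -/

section splice

theorem pvmo_mem_spl {U : Set ℂ} {η η' : Conf PvPt} {p : PvPt} : p ∈ (Conf.spl (Prod.fst ⁻¹' U) (η, η')).pts ↔ (p ∈ η.pts ∧ p.1 ∈ U) ∨ (p ∈ η'.pts ∧ p.1 ∉ U) := Iff.rfl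

theorem pvmo_spl_sites (U : Set ℂ) (η η' : Conf PvPt) : cfSites (Conf.spl (Prod.fst ⁻¹' U) (η, η')) = cfSites η ∩ U ∪ cfSites η' \ U := by
  ext z
  constructor
  · rintro ⟨p, hp, rfl⟩
    rcases pvmo_mem_spl.1 hp with ⟨h1, h2⟩ | ⟨h1, h2⟩
    · exact Or.inl ⟨⟨p, h1, rfl⟩, h2⟩
    · exact Or.inr ⟨⟨p, h1, rfl⟩, h2⟩
  · rintro (⟨⟨p, hp, rfl⟩, h2⟩ | ⟨⟨p, hp, rfl⟩, h2⟩)
    · exact ⟨p, pvmo_mem_spl.2 (Or.inl ⟨hp, h2⟩), rfl⟩
    · exact ⟨p, pvmo_mem_spl.2 (Or.inr ⟨hp, h2⟩), rfl⟩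

theorem pvmo_spl_col_mem {U : Set ℂ} (η η' : Conf PvPt) {z : ℂ} (hz : z ∈ U) : cfCol (Conf.spl (Prod.fst ⁻¹' U) (η, η')) z = cfCol η z := by
  classical
  unfold cfCol
  refine decide_eq_decide.2 ?_
  rw [pvmo_mem_spl]
  exact ⟨fun h => h.elim (fun h => h.1) fun h => absurd hz h.2, fun h => Or.inl ⟨h, hz⟩⟩

theorem pvmo_spl_col_notMem {U : Set ℂ} (η η' : Conf PvPt) {z : ℂ} (hz : z ∉ U) : cfCol (Conf.spl (Prod.fst ⁻¹' U) (η, η')) z = cfCol η' z := by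
  classical
  unfold cfCol
  refine decide_eq_decide.2 ?_
  rw [pvmo_mem_spl]
  exact ⟨fun h => h.elim (fun h => absurd h.2 hz) fun h => h.1, fun h => Or.inr ⟨h, hz⟩⟩

open Classical in
/-- the splice of two configurations `cfOf` -/
theorem pvmo_spl_cfOf (U Y Y' : Set ℂ) (σ σ' : ℂ → Bool) :
    Conf.spl (Prod.fst ⁻¹' U) (cfOf Y σ, cfOf Y' σ') = cfOf (Y ∩ U ∪ Y' \ U) (fun z => if z ∈ U then σ z else σ' z) := by
  ext p
  rw [pvmo_mem_spl]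
  constructor
  · rintro (⟨⟨h1, h2⟩, h3⟩ | ⟨⟨h1, h2⟩, h3⟩)
    · exact ⟨Or.inl ⟨h1, h3⟩, by rw [h2]; exact (if_pos h3).symm⟩
    · exact ⟨Or.inr ⟨h1, h3⟩, by rw [h2]; exact (if_neg h3).symm⟩
  · rintro ⟨⟨h1, h3⟩ | ⟨h1, h3⟩, h2⟩
    · exact Or.inl ⟨⟨h1, by rw [h2]; exact if_pos h3⟩, h3⟩
    · exact Or.inr ⟨⟨h1, by rw [h2]; exact if_neg h3⟩, h3⟩

end splice

/-! ## 10. PLACED SETS `pvxPl z h S`, SQUARES `pvwSq z r` -/

section placed

theorem pvmo_mem_pl {z w : ℂ} {h : ℝ} {S : Set ℂ} : w ∈ pvxPl z h S ↔ ∃ u ∈ S, z + (h : ℂ) * u = w := Iff.rfl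

theorem pvmo_mem_pl_iff {z w : ℂ} {h : ℝ} (h0 : h ≠ 0) {S : Set ℂ} : w ∈ pvxPl z h S ↔ (w - z) / (h : ℂ) ∈ S := by
  have hc : (h : ℂ) ≠ 0 := Complex.ofReal_ne_zero.2 h0
  constructor
  · rintro ⟨u, hu, rfl⟩
    have : (z + (h : ℂ) * u - z) / (h : ℂ) = u := by field_simp; ring
    rwa [this]
  · intro hw
    exact ⟨_, hw, by field_simp; ring⟩

theorem pvmo_pl_mono {z : ℂ} {h : ℝ} {S S' : Set ℂ} (hS : S ⊆ S') : pvxPl z h S ⊆ pvxPl z h S' := image_mono hS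

theorem pvmo_pl_disjoint {z : ℂ} {h : ℝ} (h0 : h ≠ 0) {S S' : Set ℂ} (hS : Disjoint S S') : Disjoint (pvxPl z h S) (pvxPl z h S') :=
  Set.disjoint_left.2 fun _ h1 h2 => Set.disjoint_left.1 hS ((pvmo_mem_pl_iff h0).1 h1) ((pvmo_mem_pl_iff h0).1 h2)

theorem pvmo_pl_meas {z : ℂ} {h : ℝ} (h0 : h ≠ 0) {S : Set ℂ} (hS : MeasurableSet S) : MeasurableSet (pvxPl z h S) := by
  have e : pvxPl z h S = (fun w : ℂ => (w - z) / (h : ℂ)) ⁻¹' S := by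
    ext w
    exact pvmo_mem_pl_iff h0
  rw [e]
  exact (by fun_prop : Measurable fun w : ℂ => (w - z) / (h : ℂ)) hS

theorem pvmo_pl_bdd {z : ℂ} {h : ℝ} {S : Set ℂ} (hS : Bornology.IsBounded S) : Bornology.IsBounded (pvxPl z h S) := by
  obtain ⟨C, hC⟩ := hS.exists_norm_le
  refine (Metric.isBounded_closedBall (x := z) (r := |h| * C)).subset ?_
  rintro _ ⟨u, hu, rfl⟩
  rw [Metric.mem_closedBall, dist_eq_norm]
  have : z + (h : ℂ) * u - z = (h : ℂ) * u := by ring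
  rw [this, norm_mul, Complex.norm_real, Real.norm_eq_abs]
  exact mul_le_mul_of_nonneg_left (hC u hu) (abs_nonneg h)

theorem pvmo_mem_sq {z w : ℂ} {r : ℝ} : w ∈ pvwSq z r ↔ |(w - z).re| ≤ r ∧ |(w - z).im| ≤ r := Iff.rfl

theorem pvmo_sq_closed (z : ℂ) (r : ℝ) : IsClosed (pvwSq z r) := by
  have e : pvwSq z r = {w : ℂ | |(w - z).re| ≤ r} ∩ {w : ℂ | |(w - z).im| ≤ r} := rfl
  rw [e]
  exact (isClosed_le (by fun_prop) continuous_const).inter (isClosed_le (by fun_prop) continuous_const)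

theorem pvmo_sq_meas (z : ℂ) (r : ℝ) : MeasurableSet (pvwSq z r) := (pvmo_sq_closed z r).measurableSet

theorem pvmo_sq_sub_ball (z : ℂ) (r : ℝ) : pvwSq z r ⊆ Metric.closedBall z (2 * r) := by
  intro w hw
  rw [Metric.mem_closedBall, dist_eq_norm]
  calc ‖w - z‖ ≤ |(w - z).re| + |(w - z).im| := Complex.norm_le_abs_re_add_abs_im _
    _ ≤ 2 * r := by linarith [hw.1, hw.2]

theorem pvmo_ball_sub_sq (z : ℂ) (r : ℝ) : Metric.closedBall z r ⊆ pvwSq z r := by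
  intro w hw
  rw [Metric.mem_closedBall, dist_eq_norm] at hw
  exact ⟨(Complex.abs_re_le_norm _).trans hw, (Complex.abs_im_le_norm _).trans hw⟩

theorem pvmo_sq_bdd (z : ℂ) (r : ℝ) : Bornology.IsBounded (pvwSq z r) := Metric.isBounded_closedBall.subset (pvmo_sq_sub_ball z r)

theorem pvmo_sq_compact (z : ℂ) (r : ℝ) : IsCompact (pvwSq z r) := Metric.isCompact_of_isClosed_isBounded (pvmo_sq_closed z r) (pvmo_sq_bdd z r)

theorem pvmo_sq_mono (z : ℂ) {r r' : ℝ} (h : r ≤ r') : pvwSq z r ⊆ pvwSq z r' := fun _ hw => ⟨hw.1.trans h, hw.2.trans h⟩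

theorem pvmo_pl_sq (z : ℂ) {h : ℝ} (h0 : 0 < h) (r : ℝ) : pvxPl z h (pvwSq 0 r) = pvwSq z (h * r) := by
  ext w
  rw [pvmo_mem_pl_iff h0.ne', pvmo_mem_sq, pvmo_mem_sq, sub_zero, Complex.div_ofReal_re, Complex.div_ofReal_im, abs_div, abs_div, abs_of_pos h0,
    div_le_iff₀ h0, div_le_iff₀ h0, mul_comm r h]

/-- finitely many sites in the largest box of a candidate -/
theorem pvmo_fin_box {τ : Type} {c : ℝ} (𝔓 : PvxPar τ c) {Y : Set ℂ} (h : VorLF Y) (m : ℕ) (z : ℂ) (t : τ) : {v : ↥Y | v.1 ∈ 𝔓.box m z t}.Finite :=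
  pvmo_fin_window h (pvmo_sq_bdd _ _)

end placed

/-! ## 11. THE EVENTS OF THE ROOFS, `(Y,s)`-form -/

section roofs

open Filter Topology

variable {τ : Type} {c : ℝ} (𝔓 : PvxPar τ c)

/-- the good event of (S1) PINS -/
def PvmoPinsEv (x : ℂ) (R : ℝ) (m : ℕ) (Y : Set ℂ) (s₀ : ↥Y → Bool) : Prop :=
  ∀ P ∈ pvmoAll x R Y s₀,
    (∀ s ∈ pvmoPins 𝔓 x R m Y s₀ P, PvbIsPin 𝔓.𝔐 (pvlmH m) P s ∧ ∃ p : ℤ × ℤ, s.ctr = l9Pt (pvlmH m) p) ∧
    (∀ i i', i ≤ i' → i' ≤ P.len → (∀ k, i ≤ k → k ≤ i' → ‖P.v k - x‖ ≤ 2 * R) → pvlmR c m ≤ ‖P.v i' - P.v i‖ → ∃ s ∈ pvmoPins 𝔓 x R m Y s₀ P, i ≤ s.idx ∧ s.idx ≤ i')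

/-- the good event of (S2) COVER -/
def PvmoCoverEv (x : ℂ) (R : ℝ) (m : ℕ) (Y : Set ℂ) (s₀ : ↥Y → Bool) : Prop :=
  ∀ P ∈ pvmoAll x R Y s₀, ∀ s ∈ pvmoPins 𝔓 x R m Y s₀ P, ∀ t ∈ pvmoPins 𝔓 x R m Y s₀ P, s.idx < t.idx →
    (∀ k, s.idx ≤ k → k ≤ t.idx → ‖P.v k - x‖ ≤ 2 * R) → R / 3 ≤ ‖s.ctr - t.ctr‖ → ∃ π ∈ pvxPatSet 𝔓 x R m, PvmoFit 𝔓 x R m Y s₀ P s t π

theorem pvmo_eqns_cite9 : True := by
  have := @PvmoPinsEv.eq_1; have := @PvmoCoverEv.eq_1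
  trivial

variable {𝔓}

theorem pvmo_pinsOK_iff {x : ℂ} {R : ℝ} : PvxPinsOK 𝔓 x R ↔
    PvhbOrd (fun m ε => ((pvhbUp ε).P {q | ¬ PvmoPinsEv 𝔓 x R m (pvxY (pvMerge q)) (pvmoSm (pvMerge q))}).toReal) := by
  unfold PvxPinsOK PvmoPinsEv
  simp only [pvmo_pins_eq, pvmo_all_eq]

theorem pvmo_cover_iff {x : ℂ} {R : ℝ} : PvxCover 𝔓 x R ↔
    PvhbOrd (fun m ε => ((pvhbUp ε).P {q | ¬ PvmoCoverEv 𝔓 x R m (pvxY (pvMerge q)) (pvmoSm (pvMerge q))}).toReal) := by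
  unfold PvxCover PvmoCoverEv
  simp only [pvmo_pins_eq, pvmo_all_eq, pvmo_fit_iff]

end roofs

end Claimed.Agent.R289
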