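-- KEEP
import Claimed.Agent.R289.Tr.CycC2M
import Claimed.Agent.R289.Tr.CycC2B
import Claimed.Agent.R289.Tr.CycDI
import Claimed.Agent.R289.Tr.ModelApi

/-!
# Row 289 (S0537), THE WALL, ROAD E, file Tr/CycC2H : (H) = THE HEADS `ii yy iy` OF `PvdwRest` AT THE NORMAL FORM `PvdwArcs` OF 42      (helper264; prefix `pvc2h_`, `Pvc2h`)

* sec. 1  ROOMS, pure set theory: `PvcaRm.mono`;   **`Pvc2hAt K P Q A B Dk`** = atoms of a cycle (plug regions `P k`, private regions `Q k` of the links, front part `A k` / back part `B k` of a plug region, discs);   **`Pvc2hAt.rm`** : atoms ⟹ `PvcaRm` (all the index cases at once)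
* sec. 2  `pvc2h_ring` = `pvca_ring` of `Tr/CycC2B` with the rooms given by inclusions
* sec. 3  AT THE NORMAL FORM: `pvc2hDk`, `pvc2hYr` (the sequences of 42, 13:25Z), **`pvc2h_heads`** : `PvdwArcs` + `PvcaRm` + the nine lines `o1 o2 o3 r1 r2 e1 e2 e3` + the reduced masks of the two stubs ⟹ `ii yy iy` of `PvdwRest`, the rooms of the arcs, the discs of the inner arcs
* sec. 4  THE GUARD: the frozen sites of a half state lie in `pvilWz` at its hull (`pvc2h_out_Wz`, `pvc2h_in_Wz`);   reduced masks `Mp ∩ Wz(Zo)`, `Mm ∩ Wz(Zi)` (`pvc2h_sp`, `pvc2h_sm`);   annulus (`pvc2h_out_ann`, `pvc2h_in_ann`)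
* sec. 5  **THE REDUCED MASKS OF RECORD** `pvc2hMp 𝔓 m z t Zo`, `pvc2hMm 𝔓 m z t Zi` `= mask ∩ Wz(hull) ∩ closed own box ∩ {a h ≤ |w - z|} ∩ cells of the hull`.      VERTEX SIDE: **`pvc2h_hMp`**, **`pvc2h_hMm`** (`= hMp hMm` of `PvdwArcs.ring` of 42).
          REGION SIDE: `pvc2h_Mp_mask _Wz _box _Bx _ann`, **`pvc2h_Mp_core`, `_core_o`, `pvc2h_Mm_core`, `_core_e`** (`δ` inside the windows: for the mesh facts; inner arc: `pvc2h_inn_core`), `pvc2h_Mp_Mm` (SEP), `pvc2h_Mp_C` (off everything resampled), **`pvc2h_Mp_eM`**, **`pvc2h_Mm_oM`** (guard, at the hull of a base with its full state: `pvjh_Wz_o_Me`, `pvjh_Wz_i_Mo` of 180)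
-/

set_option autoImplicit false

namespace Claimed.Agent.R289

open Set

/-! ## 1. rooms -/

theorem PvcaRm.mono {K : ℕ} {Dk Dk' Yr Yr' : ℕ → Set ℂ} (R : PvcaRm K Dk Yr) (hD : ∀ j, j < K → Dk' j ⊆ Dk j) (hY : ∀ j, j < K → Yr' j ⊆ Yr j) : PvcaRm K Dk' Yr' where
  DD i j hij hj := (R.DD i j hij hj).mono (hD i (by omega)) (hD j hj)
  RR i j hij hj := (R.RR i j hij hj).mono (hY i (by omega)) (hY j hj)
  far i j hi hj h1 h2 := (R.far i j hi hj h1 h2).mono (hD i hi) (hY j hj)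

/-- **THE ATOMS OF A CYCLE** of `K` plugs and `K` links (link `k : plug k → plug (k + 1) % K`).      `P k` = the region of the plug `k`, `Q k` = the private region of the link `k`; all pairwise disjoint, BUT the region of the plug `0` (a marked pin: its box) may meet
the private regions of its two links (the mouths).      `A k ⊆ P k` = where the link `k` lives in `P k` (in front), `B k ⊆ P k` = where the link `k - 1` lives in `P k` (behind). -/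
structure Pvc2hAt (K : ℕ) (P Q A B Dk : ℕ → Set ℂ) : Prop where
  PP : ∀ i j, i < j → j < K → Disjoint (P i) (P j)
  QQ : ∀ i j, i < j → j < K → Disjoint (Q i) (Q j)
  PQ : ∀ i j, 0 < i → i < K → j < K → Disjoint (P i) (Q j)
  PQ0 : ∀ j, 0 < j → j + 1 < K → Disjoint (P 0) (Q j)
  AP : ∀ j, j < K → A j ⊆ P j
  BP : ∀ j, j < K → B j ⊆ P j
  DP : ∀ j, j < K → Dk j ⊆ P j
  AB : ∀ j, j < K → Disjoint (A j) (B j)
  /-- the exit stub of the pin misses the private region of the last link (guard) -/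
  AQ : Disjoint (A 0) (Q (K - 1))
  /-- the entrance stub of the pin misses the private region of the first link (guard) -/
  BQ : Disjoint (B 0) (Q 0)

theorem Pvc2hAt.PP' {K : ℕ} {P Q A B Dk : ℕ → Set ℂ} (H : Pvc2hAt K P Q A B Dk) {i j : ℕ} (hi : i < K) (hj : j < K) (h : i ≠ j) : Disjoint (P i) (P j) := by
  rcases Nat.lt_or_ge i j with h1 | h1
  · exact H.PP i j h1 hj
  · exact (H.PP j i (by omega) hi).symm

/-- **ATOMS ⟹ ROOMS** -/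
theorem Pvc2hAt.rm {K : ℕ} {P Q A B Dk : ℕ → Set ℂ} (H : Pvc2hAt K P Q A B Dk) : PvcaRm K Dk fun j => A j ∪ Q j ∪ B ((j + 1) % K) where
  DD i j hij hj := (H.PP i j hij hj).mono (H.DP i (by omega)) (H.DP j hj)
  RR i j hij hj := by
    have hi : i < K := by omega
    have hk : (j + 1) % K < K := Nat.mod_lt _ (by omega)
    have ei : (i + 1) % K = i + 1 := Nat.mod_eq_of_lt (by omega)
    have hne : (j + 1) % K ≠ i + 1 := by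
      rcases Nat.lt_or_ge (j + 1) K with h | h
      · rw [Nat.mod_eq_of_lt h]; omega
      · have e : j + 1 = K := by omega
        rw [e, Nat.mod_self]; omega
    show Disjoint (A i ∪ Q i ∪ B ((i + 1) % K)) (A j ∪ Q j ∪ B ((j + 1) % K))
    rw [ei]
    have aQ : Disjoint (A i) (Q j) := by
      rcases Nat.eq_zero_or_pos i with rfl | h0
      · rcases Nat.lt_or_ge (j + 1) K with h | h
        · exact (H.PQ0 j (by omega) h).mono_left (H.AP 0 hi)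
        · have e : j = K - 1 := by omega
          rw [e]; exact H.AQ
      · exact (H.PQ i j h0 hi hj).mono_left (H.AP i hi)
    have aB : Disjoint (A i) (B ((j + 1) % K)) := by
      by_cases e : (j + 1) % K = i
      · rw [e]; exact H.AB i hi
      · exact (H.PP' hi hk (Ne.symm e)).mono (H.AP i hi) (H.BP _ hk)
    have qB : Disjoint (Q i) (B ((j + 1) % K)) := by
      rcases Nat.eq_zero_or_pos ((j + 1) % K) with e | h0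
      · rw [e]
        rcases Nat.eq_zero_or_pos i with rfl | hi0
        · exact H.BQ.symm
        · exact ((H.PQ0 i hi0 (by omega)).mono_left (H.BP 0 (by omega))).symm
      · exact ((H.PQ _ i h0 hk hi).mono_left (H.BP _ hk)).symm
    have bA : Disjoint (B (i + 1)) (A j) := by
      by_cases e : i + 1 = j
      · rw [e]; exact (H.AB j hj).symm
      · exact (H.PP' (by omega) hj e).mono (H.BP _ (by omega)) (H.AP j hj)
    refine Disjoint.union_left (Disjoint.union_left ?_ ?_) ?_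
    · exact Disjoint.union_right (Disjoint.union_right ((H.PP i j hij hj).mono (H.AP i hi) (H.AP j hj)) aQ) aB
    · exact Disjoint.union_right (Disjoint.union_right ((H.PQ j i (by omega) hj hi).mono_left (H.AP j hj)).symm (H.QQ i j hij hj)) qB
    · exact Disjoint.union_right (Disjoint.union_right bA ((H.PQ (i + 1) j (by omega) (by omega) hj).mono_left (H.BP _ (by omega))))
        ((H.PP' (by omega) hk (Ne.symm hne)).mono (H.BP _ (by omega)) (H.BP _ hk))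
  far i j hi hj h1 h2 := by
    have hk : (j + 1) % K < K := Nat.mod_lt _ (by omega)
    refine Disjoint.union_right (Disjoint.union_right ((H.PP' hi hj h1).mono (H.DP i hi) (H.AP j hj)) ?_) ((H.PP' hi hk h2).mono (H.DP i hi) (H.BP _ hk))
    rcases Nat.eq_zero_or_pos i with rfl | h0
    · have hj1 : j + 1 < K := by
        rcases Nat.lt_or_ge (j + 1) K with h | h
        · exact h
        · have e : j + 1 = K := by omega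
          rw [e, Nat.mod_self] at h2
          exact absurd rfl h2
      exact (H.PQ0 j (by omega) hj1).mono_left (H.DP 0 hi)
    · exact (H.PQ i j h0 hi hj).mono_left (H.DP i hi)

/-! ## 2. the ring, rooms by inclusion -/

section ring

variable {V D : Type} {T : PvMap V D} {s : V → Bool} {pos : V → ℂ}

/-- `pvca_ring` with the rooms given by inclusions -/
theorem pvc2h_ring (hT : T.IsSph) (hS : T.Simple) {K : ℕ} (hK : 0 < K) {𝔖 𝔖' : ℕ → PvwSt T} {y : ℕ → T.Pth} {Dk Yr : ℕ → Set ℂ} (per : 𝔖 K = 𝔖 0)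
    (gt : ∀ j, j < K → PvcaGt T s (𝔖 j)) (dm : ∀ j, j < K → (𝔖' (j + 1)).dm = (𝔖 (j + 1)).dm)
    (lk : ∀ j, j < K → ∃ (Mp Yin Mm : Set ℂ) (n : ℕ), PvcaLk T s pos (𝔖 j) (𝔖' (j + 1)) (y j) Mp Yin Mm n ∧ Mp ∪ Yin ∪ Mm ⊆ Yr j)
    (ins : ∀ j, j < K → ∀ u ∈ (𝔖 j).ins, pos u ∈ Dk j)
    (own : ∀ j, j < K → ∀ v ∈ (y j).verts, v ∉ T.Int (𝔖 j).S.Left ∧ v ∉ T.Int (𝔖 (j + 1)).S.Left)
    (R : PvcaRm K Dk Yr) :
    Pvcy2Cyc T s K 𝔖 y ∧ ∀ j, j < K → ∀ v ∈ (y j).verts, pos v ∈ Yr j := by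
  have room : ∀ j, j < K → ∀ v ∈ (y j).verts, pos v ∈ Yr j := by
    intro j hj v hv
    obtain ⟨Mp, Yin, Mm, n, L, hs⟩ := lk j hj
    exact hs (L.room hT hS hv)
  refine ⟨pvca_cyc hT hK per gt ?_ ?_ ?_ ?_, room⟩
  · intro j hj
    obtain ⟨Mp, Yin, Mm, n, L, -⟩ := lk j hj
    exact ⟨n, by rw [L.hit, dm j hj], L.le⟩
  · intro i j hij hj
    exact Set.disjoint_left.2 fun v h1 h2 => Set.disjoint_left.1 (R.DD i j hij hj) (ins i (by omega) v h1) (ins j hj v h2)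
  · intro i j hij hj
    exact Set.disjoint_left.2 fun v h1 h2 => Set.disjoint_left.1 (R.RR i j hij hj) (room i (by omega) v h1) (room j hj v h2)
  · intro i j hi hj v hv
    by_cases h1 : i = j
    · subst h1
      exact (own i hi v hv).1
    · by_cases h2 : i = (j + 1) % K
      · have e : 𝔖 i = 𝔖 (j + 1) := by
          rcases Nat.lt_or_ge (j + 1) K with h | h
          · rw [h2, Nat.mod_eq_of_lt h]
          · have e1 : j + 1 = K := by omega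
            rw [h2, e1, Nat.mod_self, per]
        rw [e]
        exact (own j hj v hv).2
      · obtain ⟨Mp, Yin, Mm, n, L, hs⟩ := lk j hj
        exact L.out_far hT hS (ins i hi) ((R.far i j hi hj h1 h2).mono_right hs) hv

end ring

/-! ## 3. at the normal form of 42 -/

/-- the discs of the `n + 3` plugs (sequence of 42, 13:25Z) -/
def pvc2hDk (Lo : PvilLk) (𝔭 𝔭u : PvkdPlug) (n : ℕ) (Z : ℕ → ℂ) (zu : ℂ) : ℕ → Set ℂ :=
  pvdwSq n (Metric.ball Lo.p.z (Lo.p.ty.b * Lo.p.h)) (fun j => Metric.ball (Z j) 𝔭.b) (Metric.ball (Z n) 𝔭.b) (Metric.ball zu 𝔭u.b)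

/-- the rooms of the `n + 3` arcs (sequence of 42, 13:25Z);   `MpP`, `MmP` = the REDUCED vertex masks of the two stubs of the pin -/
def pvc2hYr (Lo Lr Le : PvilLk) (𝔭 𝔭u : PvkdPlug) (n : ℕ) (Z Dv : ℕ → ℂ) (Co : ℕ → Set ℂ) (zu du : ℂ) (MpP MmP : Set ℂ) : ℕ → Set ℂ :=
  pvdwSq n (MpP ∪ Lo.Yin ∪ pvkdAt (Z 0) (Dv 0) 𝔭.Zm) Co (pvkdAt (Z n) (Dv n) 𝔭.Zp ∪ Lr.Yin ∪ pvkdAt zu du 𝔭u.Zm) (pvkdAt zu du 𝔭u.Zp ∪ Le.Yin ∪ MmP)

theorem pvc2h_eqns_cite : True := by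
  have := @pvc2hDk.eq_1; have := @pvc2hYr.eq_1
  trivial

section nf

variable {η : Conf PvPt} {b : Bool}

/-- the record of a gate of record is a door -/
theorem pvc2h_dr (hG : DelGood (cfSites η)) {𝔭 𝔭' : PvkdPlug} {z z' d : ℂ} {g : (pvkiT η).Gate (pvukS b η)} (hg : PvukGate 𝔭 b η z d g) :
    PvcaDr (T := pvieT η) (s := pvieCol η b) g (pvilStS 𝔭' η (pvieCol η b) z' g) :=
  pvca_dr_of_gt (pvca_il_sph hG) (pvca_il_simple η) hg rfl rfl rfl rfl rfl rfl rfl rfl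

/-- the arc of a cell is the erased black bank of its run -/
theorem pvc2h_cell_le (hG : DelGood (cfSites η)) {g g' : (pvkiT η).Gate (pvukS b η)} {KE : Set ℂ} {k : ℕ} (h : PvzlRun (pvkiT η) Subtype.val (pvukS b η) KE g g' k) :
    PvwLE (pvieT η) (fun i => (pvieT η).src (pvasIt (pvieT η) (pvieCol η b) g.aOut i)) k (pvtArc (pvkiT η) (pvukS b η) g.aOut (pvasHit (pvkiT η) (pvukS b η) g.aOut {g'.aIn})) := by
  have hT : (pvkiT η).IsSph := delb_plane_isSph hG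
  have hS : (pvkiT η).Simple := (delbPl (cfSites η)).toMap_simple
  rw [h.hit]
  exact pvt_sd_le hT hS (pvtg_aOut_bw g) (pvll_it_inj h.2.1 h.2.2.1)

variable {N : PvwNum} {Lo Lr Le : PvilLk} {𝔭 𝔭u : PvkdPlug} {n : ℕ} {Z Dv : ℕ → ℂ} {Co : ℕ → Set ℂ} {zu du : ℂ}
  {P P' : PvwSt (pvieT η)} {g : ℕ → (pvkiT η).Gate (pvukS b η)} {gu : (pvkiT η).Gate (pvukS b η)} {y0 yr ye : (pvieT η).Pth}

/-- **(H) AT THE NORMAL FORM**: rooms (`PvcaRm` at the sequences) + the lines `o1 o2 o3 | r1 r2 | e1 e2 e3` (regions only) + the reduced masks of the two stubs   ⟹   the cycle is closed with pairwise different heads; the vertices of the arcs lie over their rooms,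
the vertices of the inner arcs over their discs -/
theorem pvc2h_heads (A : PvdwArcs N b η Lo Lr Le 𝔭 𝔭u n Z Dv Co zu du P P' g gu y0 yr ye) (hp : Le.p' = Lo.p) (hfr : Lo.p.fr = 1) {MpP MmP : Set ℂ}
    (sp : ∀ x : (pvieT η).Pth, PvwLE (pvieT η) (fun i => (pvieT η).src (P.ep i)) P.np x → ∀ v ∈ x.verts, pviePos η v ∈ MpP)
    (sm : ∀ x : (pvieT η).Pth, PvwLE (pvieT η) (fun i => (pvieT η).src (P'.em i)) P'.nm x → ∀ v ∈ x.verts, pviePos η v ∈ MmP)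
    (rm : PvcaRm (n + 3) (pvc2hDk Lo 𝔭 𝔭u n Z zu) (pvc2hYr Lo Lr Le 𝔭 𝔭u n Z Dv Co zu du MpP MmP))
    (o1 : Disjoint (Metric.ball Lo.p.z (Lo.p.ty.b * Lo.p.h)) (Lo.Yin ∪ pvkdAt (Z 0) (Dv 0) 𝔭.Zm))
    (o2 : Disjoint (pvkdAt (Z 0) (Dv 0) 𝔭.Zp) (Lo.Yin ∪ pvcaBx N Lo.p))
    (o3 : Disjoint (pvcaBx N Lo.p) (Metric.ball (Z 0) 𝔭.b))
    (r1 : Disjoint (pvkdAt (Z n) (Dv n) 𝔭.Zm) Lr.Yin)
    (r2 : Disjoint (pvkdAt zu du 𝔭u.Zp) Lr.Yin)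
    (e1 : Disjoint (Metric.ball Lo.p.z (Lo.p.ty.b * Lo.p.h)) (pvkdAt zu du 𝔭u.Zp ∪ Le.Yin))
    (e2 : Disjoint (pvkdAt zu du 𝔭u.Zm) (Le.Yin ∪ pvcaBx N Lo.p))
    (e3 : Disjoint (pvcaBx N Lo.p) (Metric.ball zu 𝔭u.b)) :
    Pvcy2Cyc (pvieT η) (pvieCol η b) (n + 3) (pvdwSt n P (pvdwDd 𝔭 b η Z g) (pvilStS 𝔭u η (pvieCol η b) zu gu)) (pvdwY n y0 (pvdwYc b η g) yr ye) ∧
      (∀ k, k < n + 3 → ∀ v ∈ (pvdwY n y0 (pvdwYc b η g) yr ye k).verts, pviePos η v ∈ pvc2hYr Lo Lr Le 𝔭 𝔭u n Z Dv Co zu du MpP MmP k) ∧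
      ∀ k, k < n + 3 → ∀ v ∈ (pvdwSt n P (pvdwDd 𝔭 b η Z g) (pvilStS 𝔭u η (pvieCol η b) zu gu) k).inn.verts, pviePos η v ∈ pvc2hDk Lo 𝔭 𝔭u n Z zu k := by
  have hT : (pvieT η).IsSph := pvca_il_sph A.good
  have hS : (pvieT η).Simple := pvca_il_simple η
  have hG := A.glue hp (by rw [hfr]; exact one_ne_zero)
  have dr : ∀ j, j ≤ n → PvcaDr (T := pvieT η) (s := pvieCol η b) (g j) (pvdwDd 𝔭 b η Z g j) := fun j hj => pvc2h_dr A.good (A.gt j hj)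
  have dru : PvcaDr (T := pvieT η) (s := pvieCol η b) gu (pvilStS 𝔭u η (pvieCol η b) zu gu) := pvc2h_dr A.good A.gtu
  have hpos := (pvca_il_pos_std hfr η).1
  have hzf := (pvca_il_pos_std hfr η).2
  have hst := A.out.st
  rw [hpos, hzf] at hst
  have hst' := A.inn.st
  rw [hp, hpos, hzf] at hst'
  have gt : ∀ k, k < n + 3 → PvcaGt (pvieT η) (pvieCol η b) (pvdwSt n P (pvdwDd 𝔭 b η Z g) (pvilStS 𝔭u η (pvieCol η b) zu gu) k) := by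
    intro k hk
    rcases pvdw_cases hk with rfl | ⟨j, hj, rfl⟩ | rfl | rfl
    · rw [pvdw_st_zero]; exact pvca_gt_gate hst.gate
    · rw [pvdw_st_door hj.le]; exact (dr j hj.le).gt
    · rw [pvdw_st_door le_rfl]; exact (dr n le_rfl).gt
    · rw [pvdw_st_u]; exact dru.gt
  have ins : ∀ k, k < n + 3 → ∀ u ∈ (pvdwSt n P (pvdwDd 𝔭 b η Z g) (pvilStS 𝔭u η (pvieCol η b) zu gu) k).ins, pviePos η u ∈ pvc2hDk Lo 𝔭 𝔭u n Z zu k := by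
    intro k hk u hu
    unfold pvc2hDk
    rcases pvdw_cases hk with rfl | ⟨j, hj, rfl⟩ | rfl | rfl
    · rw [pvdw_st_zero] at hu
      rw [pvdw_sq_zero]
      exact mem_ball_iff_norm.2 (hst.gate.inside u hu)
    · rw [pvdw_st_door hj.le] at hu
      rw [pvdw_sq_cell _ _ _ _ _ hj]
      exact pvca_gt_disc (A.gt j hj.le) hu
    · rw [pvdw_st_door le_rfl] at hu
      rw [pvdw_sq_r]
      exact pvca_gt_disc (A.gt n le_rfl) hu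
    · rw [pvdw_st_u] at hu
      rw [pvdw_sq_e]
      exact pvca_gt_disc A.gtu hu
  have key := pvc2h_ring (pos := pviePos η) hT hS (Nat.succ_pos _) (𝔖 := pvdwSt n P (pvdwDd 𝔭 b η Z g) (pvilStS 𝔭u η (pvieCol η b) zu gu))
    (𝔖' := pvdwSt n P' (pvdwDd 𝔭 b η Z g) (pvilStS 𝔭u η (pvieCol η b) zu gu)) (y := pvdwY n y0 (pvdwYc b η g) yr ye) (by rw [pvdw_st_per, pvdw_st_zero]) gt ?_ ?_ ins ?_ rm
  · exact ⟨key.1, key.2, fun k hk v hv => ins k hk v ((gt k hk).ins hT hv)⟩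
  · intro k hk
    rcases pvdw_cases hk with rfl | ⟨j, hj, rfl⟩ | rfl | rfl
    · rw [pvdw_st_door (Nat.zero_le n), pvdw_st_door (Nat.zero_le n)]
    · rw [pvdw_st_door (show j + 1 ≤ n from hj), pvdw_st_door (show j + 1 ≤ n from hj)]
    · rw [pvdw_st_u, pvdw_st_u]
    · rw [pvdw_st_per, pvdw_st_per]; exact hG.dm.symm
  · intro k hk
    unfold pvc2hYr
    rcases pvdw_cases hk with rfl | ⟨j, hj, rfl⟩ | rfl | rfl
    · obtain ⟨k0, h1, h2⟩ := A.run0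
      rw [pvdw_st_zero, pvdw_st_door (Nat.zero_le n), pvdw_y_zero, pvdw_sq_zero]
      exact ⟨MpP, Lo.Yin, pvkdAt (Z 0) (Dv 0) 𝔭.Zm, k0, pvca_lk ⟨hst.gate.bw_p, hst.stub.ep_it, sp⟩ ((dr 0 (Nat.zero_le n)).ei (A.gt 0 (Nat.zero_le n)).vm) h1 h2, subset_rfl⟩
    · obtain ⟨k0, h1⟩ := A.runc j hj
      rw [pvdw_st_door hj.le, pvdw_st_door (show j + 1 ≤ n from hj), pvdw_y_cell hj, pvdw_sq_cell _ _ _ _ _ hj]
      exact ⟨Co j, Co j, Co j, k0, pvca_lk_cell (dr j hj.le) (dr (j + 1) hj) h1 (pvc2h_cell_le A.good h1), by rw [union_self, union_self]⟩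
    · obtain ⟨k0, h1, h2⟩ := A.runr
      rw [pvdw_st_door le_rfl, pvdw_st_u, pvdw_y_r, pvdw_sq_r]
      exact ⟨pvkdAt (Z n) (Dv n) 𝔭.Zp, Lr.Yin, pvkdAt zu du 𝔭u.Zm, k0, pvca_lk ((dr n le_rfl).eo (A.gt n le_rfl).vp) (dru.ei A.gtu.vm) h1 h2, subset_rfl⟩
    · obtain ⟨k0, h1, h2⟩ := A.rune
      rw [pvdw_st_u, pvdw_st_per, pvdw_y_e, pvdw_sq_e]
      exact ⟨pvkdAt zu du 𝔭u.Zp, Le.Yin, MmP, k0, pvca_lk (dru.eo A.gtu.vp) ⟨hst'.stub.em_it, sm⟩ h1 h2, subset_rfl⟩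
  · intro k hk v hv
    rcases pvdw_cases hk with rfl | ⟨j, hj, rfl⟩ | rfl | rfl
    · obtain ⟨k0, h1, h2⟩ := A.run0
      rw [pvdw_y_zero] at hv
      rw [pvdw_st_zero, pvdw_st_door (Nat.zero_le n), (dr 0 (Nat.zero_le n)).S]
      have L := pvca_lk (pos := pviePos η) (Mp := MpP) (Mm := pvkdAt (Z 0) (Dv 0) 𝔭.Zm) ⟨hst.gate.bw_p, hst.stub.ep_it, sp⟩ ((dr 0 (Nat.zero_le n)).ei (A.gt 0 (Nat.zero_le n)).vm) h1 h2
      exact L.own_pin_door hT hS (Dk := Metric.ball Lo.p.z (Lo.p.ty.b * Lo.p.h)) (Bx := pvcaBx N Lo.p) (Dk' := Metric.ball (Z 0) 𝔭.b) (fun u hu => mem_ball_iff_norm.2 (hst.gate.inside u hu)) hst.good.off_p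
        (fun i hi => (hst.stub.ep_in i hi).1) (g 0) (dr 0 (Nat.zero_le n)).dm (dr 0 (Nat.zero_le n)).nm (fun u hu => pvca_gt_disc (A.gt 0 (Nat.zero_le n)) hu) o1
        (fun hc => Set.disjoint_left.1 o2 (A.gt 0 (Nat.zero_le n)).vp hc) o3 hv
    · obtain ⟨k0, h1⟩ := A.runc j hj
      rw [pvdw_y_cell hj] at hv
      rw [pvdw_st_door hj.le, pvdw_st_door (show j + 1 ≤ n from hj), (dr j hj.le).S, (dr (j + 1) hj).S]
      exact pvca_own_cell h1 (pvc2h_cell_le A.good h1) hv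
    · obtain ⟨k0, h1, h2⟩ := A.runr
      rw [pvdw_y_r] at hv
      rw [pvdw_st_door le_rfl, pvdw_st_u, (dr n le_rfl).S, dru.S]
      have L := pvca_lk (pos := pviePos η) ((dr n le_rfl).eo (A.gt n le_rfl).vp) (dru.ei A.gtu.vm) h1 h2
      have d3 := rm.DD (n + 1) (n + 2) (by omega) (by omega)
      unfold pvc2hDk at d3
      rw [pvdw_sq_r, pvdw_sq_e] at d3
      exact L.own_door_door hT (g n) gu (dr n le_rfl).dp (dr n le_rfl).np dru.dm dru.nm (fun u hu => pvca_gt_disc (A.gt n le_rfl) hu) (fun u hu => pvca_gt_disc A.gtu hu)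
        (fun hc => Set.disjoint_left.1 r1 (A.gt n le_rfl).vm hc) (fun hc => Set.disjoint_left.1 r2 A.gtu.vp hc) d3 hv
    · obtain ⟨k0, h1, h2⟩ := A.rune
      rw [pvdw_y_e] at hv
      rw [pvdw_st_u, pvdw_st_per, dru.S, hG.left]
      have L := pvca_lk (pos := pviePos η) (Mm := MmP) (dru.eo A.gtu.vp) ⟨hst'.stub.em_it, sm⟩ h1 h2
      exact L.own_door_pin hT hS gu dru.dp dru.np (Dk := Metric.ball zu 𝔭u.b) (Dk' := Metric.ball Lo.p.z (Lo.p.ty.b * Lo.p.h)) (Bx' := pvcaBx N Lo.p) (fun u hu => pvca_gt_disc A.gtu hu) (pl_left_face P'.S)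
        (fun u hu => mem_ball_iff_norm.2 (hst'.gate.inside u hu)) hst'.good.off_m (fun i hi => (hst'.stub.em_in i hi).1) e1 (fun hc => Set.disjoint_left.1 e2 A.gtu.vm hc) e3 hv

end nf

/-! ## 4. the guard: the frozen sites of a half state lie in the carried part of its window -/

section guard

variable {τ : Type} {c : ℝ} {𝔓 : PvxPar τ c} {m : ℕ} {z : ℂ} {t : τ} {η : Conf PvPt}

theorem pvc2h_fat_cover {δ : ℝ} (hδ : 0 < δ) {K : Set ℂ} {w : ℂ} (hw : w ∈ K) : w ∈ pvilFat δ (pvtCells δ K) := by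
  have h := pvt_cells_cover hδ hw
  unfold pvilFat
  unfold pvtU at h ⊢
  simp only [mem_iUnion] at h ⊢
  obtain ⟨q, hq, hw'⟩ := h
  exact ⟨q, ⟨q, hq, Or.inl rfl⟩, hw'⟩

theorem pvc2h_sq_mono (z : ℂ) {r r' : ℝ} (h : r ≤ r') : pvwSq z r ⊆ pvwSq z r' := fun _ hw => ⟨hw.1.trans h, hw.2.trans h⟩

/-- the black bank of the exit stub lies in `Z⁺` cut by the own-level box, `Z` = the hull of `Σ_out` -/
theorem pvc2h_out_Wz (hδ : 0 < pvlmDel c m) {𝔖 : PvwSt (pvieT η)} (h : PvilOut 𝔓.num (𝔓.col t) (pvilPin 𝔓 m z t) η 𝔖) {i : ℕ} (hi : i ≤ 𝔖.np) :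
    pviePos η ((pvieT η).src (𝔖.ep i)) ∈ pvilWz 𝔓 m z t (pvilZo 𝔓 m z t η) := by
  refine ⟨?_, ?_⟩
  · rw [pvjh_Zo_eq h]
    exact pvc2h_fat_cover hδ (Or.inl ⟨_, Or.inl (Or.inr ⟨i, hi, rfl⟩), rfl⟩)
  · have h1 := (h.st.stub.ep_in i hi).1
    rw [pvjh_pin_pos, pvjh_pin_zf] at h1
    exact pvc2h_sq_mono z (le_add_of_nonneg_right hδ.le) h1

/-- the black bank of the entrance stub lies in `Z⁺` cut by the own-level box, `Z` = the hull of `Σ_in` -/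
theorem pvc2h_in_Wz (hδ : 0 < pvlmDel c m) {𝔖 : PvwSt (pvieT η)} (h : PvilIn 𝔓.num (𝔓.col t) (pvilPin 𝔓 m z t) η 𝔖) {i : ℕ} (hi : i ≤ 𝔖.nm) :
    pviePos η ((pvieT η).src (𝔖.em i)) ∈ pvilWz 𝔓 m z t (pvilZi 𝔓 m z t η) := by
  refine ⟨?_, ?_⟩
  · rw [pvjh_Zi_eq h]
    exact pvc2h_fat_cover hδ (Or.inl ⟨_, Or.inl (Or.inr ⟨i, hi, rfl⟩), rfl⟩)
  · have h1 := (h.st.stub.em_in i hi).1
    rw [pvjh_pin_pos, pvjh_pin_zf] at h1
    exact pvc2h_sq_mono z (le_add_of_nonneg_right hδ.le) h1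

/-- every site frozen by `Σ_out` lies in a cell of its hull -/
theorem pvc2h_out_U (hδ : 0 < pvlmDel c m) {𝔖 : PvwSt (pvieT η)} (h : PvilOut 𝔓.num (𝔓.col t) (pvilPin 𝔓 m z t) η 𝔖) {u : ↥(pvieY η)} (hu : u ∈ 𝔖.fzOut) :
    pviePos η u ∈ pvtU (pvlmDel c m) (pvilZo 𝔓 m z t η) := by
  rw [pvjh_Zo_eq h]
  exact pvt_cells_cover hδ (Or.inl ⟨u, hu, rfl⟩)

/-- every site frozen by `Σ_in` lies in a cell of its hull -/
theorem pvc2h_in_U (hδ : 0 < pvlmDel c m) {𝔖 : PvwSt (pvieT η)} (h : PvilIn 𝔓.num (𝔓.col t) (pvilPin 𝔓 m z t) η 𝔖) {u : ↥(pvieY η)} (hu : u ∈ 𝔖.fzIn) :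
    pviePos η u ∈ pvtU (pvlmDel c m) (pvilZi 𝔓 m z t η) := by
  rw [pvjh_Zi_eq h]
  exact pvt_cells_cover hδ (Or.inl ⟨u, hu, rfl⟩)

/-- **a point of a cell of the hull, in the closed own-level box, is `δ` inside the carried part of the window** -/
theorem pvc2h_core_of (hδ : 0 < pvlmDel c m) {Z : Set (ℤ × ℤ)} {w : ℂ} (h1 : w ∈ pvtU (pvlmDel c m) Z) (h2 : w ∈ pvcaBx 𝔓.num (pvilPin 𝔓 m z t)) :
    w ∈ pvtrCore (pvlmDel c m) (pvilWz 𝔓 m z t Z) := by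
  intro q hq
  have hq' : ‖q - w‖ ≤ pvlmDel c m := by simpa [dist_eq_norm] using hq
  refine ⟨?_, ?_⟩
  · have := pvtp_fat_U hδ 1 h1 (q := q) (by simpa using hq')
    exact this
  · have e : q - z = (w - z) + (q - w) := by ring
    have hr := Complex.abs_re_le_norm (q - w)
    have hi := Complex.abs_im_le_norm (q - w)
    have h2' : |(w - z).re| ≤ pvwRad 𝔓.num (pvlmH m) (𝔓.ty t) (𝔓.ty t).k ∧ |(w - z).im| ≤ pvwRad 𝔓.num (pvlmH m) (𝔓.ty t) (𝔓.ty t).k := h2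
    constructor
    · rw [e, Complex.add_re]
      exact (abs_add_le _ _).trans (by linarith [h2'.1])
    · rw [e, Complex.add_im]
      exact (abs_add_le _ _).trans (by linarith [h2'.2])

/-- the vertices of the inner arc of the candidate are `δ` inside the carried part of the window of `Σ_out` -/
theorem pvc2h_inn_core (hδ : 0 < pvlmDel c m) (hb : (𝔓.ty t).b * pvlmH m ≤ pvwRad 𝔓.num (pvlmH m) (𝔓.ty t) (𝔓.ty t).k) {𝔖 : PvwSt (pvieT η)}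
    (h : PvilOut 𝔓.num (𝔓.col t) (pvilPin 𝔓 m z t) η 𝔖) {v : ↥(pvieY η)} (hv : v ∈ 𝔖.inn.verts) :
    pviePos η v ∈ pvtrCore (pvlmDel c m) (pvilWz 𝔓 m z t (pvilZo 𝔓 m z t η)) := by
  have G := h.st.gate
  rw [pvjh_pin_pos, pvjh_pin_zf] at G
  have h1 : ‖pviePos η v - z‖ < (𝔓.ty t).b * pvlmH m := G.inside v ((pvca_gt_gate G).ins (pvca_il_sph h.good) hv)
  have h2 : v ∈ 𝔖.fzOut := by
    refine Or.inl (Or.inl ?_)
    show v ∈ 𝔖.dsc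
    rw [G.dsc_eq]
    exact h1
  refine pvc2h_core_of hδ (pvc2h_out_U hδ h h2) ?_
  exact ⟨(Complex.abs_re_le_norm _).trans (h1.le.trans hb), (Complex.abs_im_le_norm _).trans (h1.le.trans hb)⟩

/-- **THE REDUCED MASK OF THE EXIT STUB**: `Mp ∩ Wz(Z)`, `Z` = the hull of `Σ_out` (on `pvilMo .. Z`: the hull of the base) -/
theorem pvc2h_sp (hδ : 0 < pvlmDel c m) {𝔖 : PvwSt (pvieT η)} (h : PvilOut 𝔓.num (𝔓.col t) (pvilPin 𝔓 m z t) η 𝔖) {Zo : Set (ℤ × ℤ)} (hZ : pvilZo 𝔓 m z t η = Zo) :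
    ∀ x : (pvieT η).Pth, PvwLE (pvieT η) (fun i => (pvieT η).src (𝔖.ep i)) 𝔖.np x → ∀ v ∈ x.verts, pviePos η v ∈ (pvilPin 𝔓 m z t).Mp ∩ pvilWz 𝔓 m z t Zo := by
  intro x hx v hv
  refine ⟨h.mask x hx v hv, ?_⟩
  obtain ⟨i, hi, rfl⟩ := pvca_le_verts hx hv
  rw [← hZ]
  exact pvc2h_out_Wz hδ h hi

/-- **THE REDUCED MASK OF THE ENTRANCE STUB**: `Mm ∩ Wz(Z)`, `Z` = the hull of `Σ_in` (on `pvilMe .. Z`: the hull of the base) -/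
theorem pvc2h_sm (hδ : 0 < pvlmDel c m) {𝔖 : PvwSt (pvieT η)} (h : PvilIn 𝔓.num (𝔓.col t) (pvilPin 𝔓 m z t) η 𝔖) {Zi : Set (ℤ × ℤ)} (hZ : pvilZi 𝔓 m z t η = Zi) :
    ∀ x : (pvieT η).Pth, PvwLE (pvieT η) (fun i => (pvieT η).src (𝔖.em i)) 𝔖.nm x → ∀ v ∈ x.verts, pviePos η v ∈ (pvilPin 𝔓 m z t).Mm ∩ pvilWz 𝔓 m z t Zi := by
  intro x hx v hv
  refine ⟨h.mask x hx v hv, ?_⟩
  obtain ⟨i, hi, rfl⟩ := pvca_le_verts hx hv
  rw [← hZ]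
  exact pvc2h_in_Wz hδ h hi

/-! ### the annulus: a black vertex of a stub is not within `a h` of the centre -/

/-- a vertex within `a h` of the centre of a gate is strictly inside the gate -/
theorem pvc2h_int_of_near {V D : Type} {T : PvMap V D} {s : V → Bool} {pos : V → ℂ} {h : ℝ} {z₀ : ℂ} {ty : PvwTy} {𝔖 : PvwSt T} (hT : T.IsSph) (G : 𝔖.Gate pos h z₀ ty s) {v : V}
    (hv : ‖pos v - z₀‖ < ty.a * h) : v ∈ T.Int 𝔖.S.Left := by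
  have h1 : v ∈ T.VOf 𝔖.S.Left := G.round v hv
  rw [pl_VOf_left hT] at h1
  rcases h1 with h1 | h1
  · exact absurd hv (not_lt.2 (G.ann v h1).1)
  · exact h1

theorem pvc2h_out_ann {𝔖 : PvwSt (pvieT η)} (h : PvilOut 𝔓.num (𝔓.col t) (pvilPin 𝔓 m z t) η 𝔖) {i : ℕ} (hi : i ≤ 𝔖.np) :
    (𝔓.ty t).a * pvlmH m ≤ ‖pviePos η ((pvieT η).src (𝔖.ep i)) - z‖ := by
  by_contra hc
  have G := h.st.gate
  rw [pvjh_pin_pos, pvjh_pin_zf] at G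
  exact pvca_int_dart (h.st.good.off_p i hi) (pvc2h_int_of_near (pvca_il_sph h.good) G (not_le.1 hc))

theorem pvc2h_in_ann {𝔖 : PvwSt (pvieT η)} (h : PvilIn 𝔓.num (𝔓.col t) (pvilPin 𝔓 m z t) η 𝔖) {i : ℕ} (hi : i ≤ 𝔖.nm) :
    (𝔓.ty t).a * pvlmH m ≤ ‖pviePos η ((pvieT η).src (𝔖.em i)) - z‖ := by
  by_contra hc
  have G := h.st.gate
  rw [pvjh_pin_pos, pvjh_pin_zf] at G
  exact pvca_int_opp (pl_left_face 𝔖.S) (h.st.good.off_m i hi) (pvc2h_int_of_near (pvca_il_sph h.good) G (not_le.1 hc))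

end guard

/-! ## 5. THE REDUCED MASKS OF RECORD -/

section masks

variable {τ : Type} {c : ℝ}

/-- **THE REDUCED VERTEX MASK OF THE EXIT STUB**: mask of the type `∩` carried part of the window at the hull `Zo` `∩` closed own-level box `∩` outside of `B(z, a h)` `∩` the cells of the hull itself (so: `δ` inside the window) -/
def pvc2hMp (𝔓 : PvxPar τ c) (m : ℕ) (z : ℂ) (t : τ) (Zo : Set (ℤ × ℤ)) : Set ℂ :=
  (pvilPin 𝔓 m z t).Mp ∩ pvilWz 𝔓 m z t Zo ∩ pvcaBx 𝔓.num (pvilPin 𝔓 m z t) ∩ {w | (𝔓.ty t).a * pvlmH m ≤ ‖w - z‖} ∩ pvtU (pvlmDel c m) Zo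

/-- **THE REDUCED VERTEX MASK OF THE ENTRANCE STUB** -/
def pvc2hMm (𝔓 : PvxPar τ c) (m : ℕ) (z : ℂ) (t : τ) (Zi : Set (ℤ × ℤ)) : Set ℂ :=
  (pvilPin 𝔓 m z t).Mm ∩ pvilWz 𝔓 m z t Zi ∩ pvcaBx 𝔓.num (pvilPin 𝔓 m z t) ∩ {w | (𝔓.ty t).a * pvlmH m ≤ ‖w - z‖} ∩ pvtU (pvlmDel c m) Zi

theorem pvc2h_eqns_cite2 : True := by
  have := @pvc2hMp.eq_1; have := @pvc2hMm.eq_1
  trivial

variable {𝔓 : PvxPar τ c} {𝔈 : PvieEng τ} {m : ℕ} {z : ℂ} {t : τ} {η : Conf PvPt}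

/-- **VERTEX SIDE, EXIT STUB** (`hMp` of `PvdwArcs.ring` of 42 at `MpP := pvc2hMp 𝔓 m z t Zo`);   on `pvilMo .. Zo`: `hZ` is the second clause of the event -/
theorem pvc2h_hMp (hδ : 0 < pvlmDel c m) {𝔖 : PvwSt (pvieT η)} (h : PvilOut 𝔓.num (𝔓.col t) (pvilPin 𝔓 m z t) η 𝔖) {Zo : Set (ℤ × ℤ)} (hZ : pvilZo 𝔓 m z t η = Zo) :
    ∀ x : (pvieT η).Pth, PvwLE (pvieT η) (fun i => (pvieT η).src (𝔖.ep i)) 𝔖.np x → ∀ v ∈ x.verts, pviePos η v ∈ pvc2hMp 𝔓 m z t Zo := by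
  intro x hx v hv
  have h0 := pvc2h_sp hδ h hZ x hx v hv
  obtain ⟨i, hi, rfl⟩ := pvca_le_verts hx hv
  refine ⟨⟨⟨h0, ?_⟩, pvc2h_out_ann h hi⟩, ?_⟩
  · have h1 := (h.st.stub.ep_in i hi).1
    rw [pvjh_pin_pos, pvjh_pin_zf] at h1
    exact h1
  · rw [← hZ]
    exact pvc2h_out_U hδ h (Or.inl (Or.inr ⟨i, hi, rfl⟩))

/-- **VERTEX SIDE, ENTRANCE STUB** (`hMm` of `PvdwArcs.ring` of 42 at `MmP := pvc2hMm 𝔓 m z t Zi`) -/
theorem pvc2h_hMm (hδ : 0 < pvlmDel c m) {𝔖 : PvwSt (pvieT η)} (h : PvilIn 𝔓.num (𝔓.col t) (pvilPin 𝔓 m z t) η 𝔖) {Zi : Set (ℤ × ℤ)} (hZ : pvilZi 𝔓 m z t η = Zi) :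
    ∀ x : (pvieT η).Pth, PvwLE (pvieT η) (fun i => (pvieT η).src (𝔖.em i)) 𝔖.nm x → ∀ v ∈ x.verts, pviePos η v ∈ pvc2hMm 𝔓 m z t Zi := by
  intro x hx v hv
  have h0 := pvc2h_sm hδ h hZ x hx v hv
  obtain ⟨i, hi, rfl⟩ := pvca_le_verts hx hv
  refine ⟨⟨⟨h0, ?_⟩, pvc2h_in_ann h hi⟩, ?_⟩
  · have h1 := (h.st.stub.em_in i hi).1
    rw [pvjh_pin_pos, pvjh_pin_zf] at h1
    exact h1
  · rw [← hZ]
    exact pvc2h_in_U hδ h (Or.inl (Or.inr ⟨i, hi, rfl⟩))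

/-! ### region side -/

theorem pvc2h_Mp_mask (𝔓 : PvxPar τ c) (m : ℕ) (z : ℂ) (t : τ) (Z : Set (ℤ × ℤ)) : pvc2hMp 𝔓 m z t Z ⊆ (pvilPin 𝔓 m z t).Mp := fun _ h => h.1.1.1.1
theorem pvc2h_Mm_mask (𝔓 : PvxPar τ c) (m : ℕ) (z : ℂ) (t : τ) (Z : Set (ℤ × ℤ)) : pvc2hMm 𝔓 m z t Z ⊆ (pvilPin 𝔓 m z t).Mm := fun _ h => h.1.1.1.1
theorem pvc2h_Mp_Wz (𝔓 : PvxPar τ c) (m : ℕ) (z : ℂ) (t : τ) (Z : Set (ℤ × ℤ)) : pvc2hMp 𝔓 m z t Z ⊆ pvilWz 𝔓 m z t Z := fun _ h => h.1.1.1.2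
theorem pvc2h_Mm_Wz (𝔓 : PvxPar τ c) (m : ℕ) (z : ℂ) (t : τ) (Z : Set (ℤ × ℤ)) : pvc2hMm 𝔓 m z t Z ⊆ pvilWz 𝔓 m z t Z := fun _ h => h.1.1.1.2
/-- in the closed own-level box -/
theorem pvc2h_Mp_box (𝔓 : PvxPar τ c) (m : ℕ) (z : ℂ) (t : τ) (Z : Set (ℤ × ℤ)) : pvc2hMp 𝔓 m z t Z ⊆ pvcaBx 𝔓.num (pvilPin 𝔓 m z t) := fun _ h => h.1.1.2
theorem pvc2h_Mm_box (𝔓 : PvxPar τ c) (m : ℕ) (z : ℂ) (t : τ) (Z : Set (ℤ × ℤ)) : pvc2hMm 𝔓 m z t Z ⊆ pvcaBx 𝔓.num (pvilPin 𝔓 m z t) := fun _ h => h.1.1.2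
/-- in the own-level box with its collar -/
theorem pvc2h_Mp_Bx (𝔓 : PvxPar τ c) (m : ℕ) (z : ℂ) (t : τ) (Z : Set (ℤ × ℤ)) : pvc2hMp 𝔓 m z t Z ⊆ pvilBx 𝔓 m z t := fun _ h => h.1.1.1.2.2
theorem pvc2h_Mm_Bx (𝔓 : PvxPar τ c) (m : ℕ) (z : ℂ) (t : τ) (Z : Set (ℤ × ℤ)) : pvc2hMm 𝔓 m z t Z ⊆ pvilBx 𝔓 m z t := fun _ h => h.1.1.1.2.2
/-- off the open disc `B(z, a h)` -/
theorem pvc2h_Mp_ann (𝔓 : PvxPar τ c) (m : ℕ) (z : ℂ) (t : τ) (Z : Set (ℤ × ℤ)) {w : ℂ} (h : w ∈ pvc2hMp 𝔓 m z t Z) : (𝔓.ty t).a * pvlmH m ≤ ‖w - z‖ := h.1.2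
theorem pvc2h_Mm_ann (𝔓 : PvxPar τ c) (m : ℕ) (z : ℂ) (t : τ) (Z : Set (ℤ × ℤ)) {w : ℂ} (h : w ∈ pvc2hMm 𝔓 m z t Z) : (𝔓.ty t).a * pvlmH m ≤ ‖w - z‖ := h.1.2

/-- **`δ` INSIDE THE CARRIED PART OF THE WINDOW** (for the mesh facts: `room ⊆ pvtrCore (3 μ) window`, `3 μ ≤ δ`) -/
theorem pvc2h_Mp_core (hδ : 0 < pvlmDel c m) (z : ℂ) (t : τ) (Z : Set (ℤ × ℤ)) : pvc2hMp 𝔓 m z t Z ⊆ pvtrCore (pvlmDel c m) (pvilWz 𝔓 m z t Z) :=
  fun _ h => pvc2h_core_of hδ h.2 h.1.1.2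
theorem pvc2h_Mm_core (hδ : 0 < pvlmDel c m) (z : ℂ) (t : τ) (Z : Set (ℤ × ℤ)) : pvc2hMm 𝔓 m z t Z ⊆ pvtrCore (pvlmDel c m) (pvilWz 𝔓 m z t Z) :=
  fun _ h => pvc2h_core_of hδ h.2 h.1.1.2

theorem pvc2h_core_mono {r r' : ℝ} (hr : r ≤ r') {E E' : Set ℂ} (hE : E ⊆ E') : pvtrCore r' E ⊆ pvtrCore r E' :=
  fun _ h => (Metric.closedBall_subset_closedBall hr).trans (h.trans hE)

/-- in the core of the window of the first link -/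
theorem pvc2h_Mp_core_o (hδ : 0 < pvlmDel c m) {r : ℝ} (hr : r ≤ pvlmDel c m) (ε : ℝ) (z : ℂ) (t : τ) (Z : Set (ℤ × ℤ)) : pvc2hMp 𝔓 m z t Z ⊆ pvtrCore r (pvilWno 𝔓 𝔈 m ε z t Z) :=
  (pvc2h_Mp_core hδ z t Z).trans (pvc2h_core_mono hr fun _ h => Or.inl (Or.inl (Or.inl h)))
/-- in the core of the window of the thick link -/
theorem pvc2h_Mm_core_e (hδ : 0 < pvlmDel c m) {r : ℝ} (hr : r ≤ pvlmDel c m) (z : ℂ) (t : τ) (Z : Set (ℤ × ℤ)) : pvc2hMm 𝔓 m z t Z ⊆ pvtrCore r (pvilWne 𝔓 𝔈 m z t Z) :=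
  (pvc2h_Mm_core hδ z t Z).trans (pvc2h_core_mono hr fun _ h => Or.inl (Or.inl (Or.inl h)))

/-- SEP: the two reduced masks are disjoint -/
theorem pvc2h_Mp_Mm (hW : 𝔓.WfB) (m : ℕ) (z : ℂ) (t : τ) (Z Z' : Set (ℤ × ℤ)) : Disjoint (pvc2hMp 𝔓 m z t Z) (pvc2hMm 𝔓 m z t Z') := by
  have hh : pvlmH m ≠ 0 := by unfold pvlmH; positivity
  exact (pvmo_pl_disjoint (z := z) hh (hW.sep t)).mono (pvc2h_Mp_mask 𝔓 m z t Z) (pvc2h_Mm_mask 𝔓 m z t Z')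

/-- everything resampled in the cycle is off the reduced masks -/
theorem pvc2h_Mp_C {m0 : ℕ} {Cth : ℝ} {r κs : ℕ → ℝ} (H : PvieEng.Wf 𝔓 𝔈 m0 Cth r κs) (hm : m0 ≤ m) (ε : ℝ) (z : ℂ) (ht : pviwTyOk 𝔓 t) (Z : Set (ℤ × ℤ)) :
    Disjoint (pvc2hMp 𝔓 m z t Z) (pvilCcyc 𝔓 𝔈 m ε z t) := (pvjh_Wz_C H hm ε z ht Z).mono_left (pvc2h_Mp_Wz 𝔓 m z t Z)
theorem pvc2h_Mm_C {m0 : ℕ} {Cth : ℝ} {r κs : ℕ → ℝ} (H : PvieEng.Wf 𝔓 𝔈 m0 Cth r κs) (hm : m0 ≤ m) (ε : ℝ) (z : ℂ) (ht : pviwTyOk 𝔓 t) (Z : Set (ℤ × ℤ)) :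
    Disjoint (pvc2hMm 𝔓 m z t Z) (pvilCcyc 𝔓 𝔈 m ε z t) := (pvjh_Wz_C H hm ε z ht Z).mono_left (pvc2h_Mm_Wz 𝔓 m z t Z)

/-- **THE GUARD, exit stub**: at the hull of a base `ω` with its FULL state, the reduced mask misses the entrance mouth -/
theorem pvc2h_Mp_eM (hδ : 0 ≤ pvlmDel c m) (fine : 32 * pvlmDel c m ≤ 𝔓.num.rho * pvlmH m) (hρ : 0 < 𝔓.num.rho) (ht : pviwTyOk 𝔓 t) (hM : PvjhMh 𝔓 𝔈 m t) {ω : Conf PvPt}
    {𝔖 : PvwSt (pvieT ω)} (h : PvilAt 𝔓.num (𝔓.col t) (pvilPin 𝔓 m z t) ω 𝔖) : Disjoint (pvc2hMp 𝔓 m z t (pvilZo 𝔓 m z t ω)) (pvieSh z (𝔈.eM m t)) :=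
  (pvjh_Wz_o_Me hδ fine hρ ht hM h).mono_left (pvc2h_Mp_Wz 𝔓 m z t _)

/-- **THE GUARD, entrance stub**: the reduced mask misses the exit mouth -/
theorem pvc2h_Mm_oM (hδ : 0 ≤ pvlmDel c m) (fine : 32 * pvlmDel c m ≤ 𝔓.num.rho * pvlmH m) (hρ : 0 < 𝔓.num.rho) (ht : pviwTyOk 𝔓 t) (hM : PvjhMh 𝔓 𝔈 m t) {ω : Conf PvPt}
    {𝔖 : PvwSt (pvieT ω)} (h : PvilAt 𝔓.num (𝔓.col t) (pvilPin 𝔓 m z t) ω 𝔖) : Disjoint (pvc2hMm 𝔓 m z t (pvilZi 𝔓 m z t ω)) (pvieSh z (𝔈.oM m t)) :=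
  (pvjh_Wz_i_Mo hδ fine hρ ht hM h).mono_left (pvc2h_Mm_Wz 𝔓 m z t _)

end masks

end Claimed.Agent.R289
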