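import Claimed.Agent.R289.Tr.LinkVal
import Claimed.Agent.R289.Tr.InstL
import Claimed.Agent.R289.Tr.KitDict

/-!
# Row 289 (S0537, Cardy for Poisson-Voronoi), THE WALL, file Tr/LinkRec : THE VALUE OF A CHAIN AT THE NAMES OF RECORD      (owner helper70; node CHAIN, value half; prefix `pvlc_`, `Pvlc`; continues `Tr/LinkVal`)

`𝔇.Yof x  =  (first link).val  +  Σ_j  pvukMass (cell j)  +  (last link).val`      (`PvilLk.val` of `Tr/InstL` v2.1, `pvukMass` of `Tr/KitDict`)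

* sec.13  model free: `pvlc_tag_fc`, `pvlc_tag_in` (tags from the crossed faces, no `first`), `pvlc_mass_arc` (two arcs with the same ends have the same masses), `pvlc_back_it`, `pvlc_Yof_rooms`
* sec.14  masks: `pvlcMk` (first mask, cell masks, last mask), **`PvlcReg`** = THE REGIONS (plane geometry only), `PvlcReg.my`, `PvlcReg.mw`
* sec.15  links of record: `pvlc_link_arc` (`PvilLk.Arc ⟹ PvlcArc`), rooms `PvlcRoomO`, `PvlcRoomI`, tags: `pvlc_tags_first`, `pvlc_tags_last`, `pvlc_tags_out`, `pvlc_tags_in`, `pvlc_tags_gate`, `pvlc_tags_cell`;   shapes `pvlc_val_first`, `pvlc_val_last`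
* sec.16  **`pvlc_value`** (every weight), **`pvlc_value_Q`** (`pvilQ`, `pvukMass`)
-/

set_option autoImplicit false

namespace Claimed.Agent.R289

open scoped ComplexConjugate

/-! ## 13. model free -/

section free

variable {V D : Type} {T : PvMap V D} {s : V → Bool}

/-- the tags of `LE (black bank)` of a strand: all the vertices of the crossed faces lie over the convex set `Z` -/
theorem pvlc_tag_fc (hS : T.Simple) {a : D} {n : ℕ} {y : T.Pth} (ha : pvasBW T s a) (hl : PvwLE T (fun i => T.src (pvasIt T s a i)) n y) (pos : V → ℂ) {Z : Set ℂ} (hZ : Convex ℝ Z)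
    (hf : ∀ v ∈ T.VOf (pvasFc T s a n), pos v ∈ Z) {k : ℕ} (hk : k < y.n) : T.bary pos (T.opp (y.e k)) ∈ Z := by
  have h1 : T.opp (y.e k) ∈ pvasFc T s a n := ((pvt_sd_faced hS ha hl).2 k hk).1
  obtain ⟨i, hi, hsf⟩ := h1
  unfold PvMap.bary
  exact pvki_bary_convex hZ (hf _ ⟨_, ⟨i, hi, hsf⟩, rfl⟩) (hf _ ⟨T.nxt _, ⟨i, hi, T.sf_trans hsf (T.sf_nxt _)⟩, rfl⟩) (hf _ ⟨T.nxt (T.nxt _), ⟨i, hi, T.sf_trans hsf (T.sf_nxt2 _)⟩, rfl⟩)

/-- the same for a strand which stays in a face set whose sites lie over `Z` -/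
theorem pvlc_tag_in (hS : T.Simple) {A : Set D} (hA : T.FaceSet A) {a : D} {n : ℕ} {y : T.Pth} (ha : pvasBW T s a) (hl : PvwLE T (fun i => T.src (pvasIt T s a i)) n y) (pos : V → ℂ) {Z : Set ℂ} (hZ : Convex ℝ Z)
    (hin : ∀ i, i < n → pvasIt T s a i ∈ A) (hf : ∀ v ∈ T.VOf A, pos v ∈ Z) {k : ℕ} (hk : k < y.n) : T.bary pos (T.opp (y.e k)) ∈ Z :=
  pvlc_tag_fc hS ha hl pos hZ (fun v hv => hf v (by obtain ⟨d, hd, rfl⟩ := hv; exact ⟨d, pvas_fc_sub hA hin hd, rfl⟩)) hk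

/-- two arcs with the same ends have the same masses -/
theorem pvlc_mass_arc (hS : T.Simple) (pos : V → ℂ) (u : D → ℂ) (K : Set ℂ) {a b : D} {n n' : ℕ} {y y' : T.Pth} (h : PvlcArc T s a b n y) (h' : PvlcArc T s a b n' y') :
    pvwMass T pos u K y 0 y.n = pvwMass T pos u K y' 0 y'.n := by
  obtain ⟨-, e1, -, e2⟩ := h.unique hS h'
  unfold pvwMass
  rw [← e1]
  refine Finset.sum_congr rfl fun k hk => ?_
  rw [e2 k (Finset.mem_Ico.1 hk).2]

/-- the strand read backwards -/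
theorem pvlc_back_it {d : D} (h : pvasBW T s d) {n : ℕ} : ∀ j, j ≤ n → (pvasBack T s)^[j] (pvasIt T s d n) = pvasIt T s d (n - j) := by
  intro j
  induction j with
  | zero => intro _; rfl
  | succ j ih =>
    intro hj
    rw [Function.iterate_succ_apply', ih (by omega), show n - j = (n - (j + 1)) + 1 by omega, pvas_it_back h]

/-- the arc of a strand with a first hit, in the form `pvtArc` -/
theorem pvlc_arc_of_hit [DecidableEq V] (hT : T.IsSph) (hS : T.Simple) {a b : D} {n : ℕ} (ha : pvasBW T s a) (hit : pvasIt T s a n = b) (first : ∀ i, i < n → pvasIt T s a i ≠ b) :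
    PvlcArc T s a b n (pvtArc T s a n) :=
  ⟨ha, hit, first, pvt_sd_le hT hS ha (pvt_sd_inj ha fun k hk0 hk => pvlc_no_return hit first k hk0 hk.le)⟩

/-- **`Yof` FROM ROOMS**: the tags of the run `r` lie in `Zy r`, those of the door `j` in `Zw j`, those of the half `mark → g⁺` of the inner arc of `t` in `Zy 0`, those of the half `g⁻ → mark` of the inner arc of `s` in `Zy (m + 1)` -/
theorem pvlc_Yof_rooms (𝔇 : PvwDat T) (pos : V → ℂ) (u : D → ℂ) (N : PvwNum) (h : ℝ) (π : PvwPat) {x : T.Pth} {m : ℕ} {y w : ℕ → T.Pth}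
    (hx : ∀ f : D → ℂ, ∑ k ∈ Finset.range x.n, f (x.e k) =
      ∑ r ∈ Finset.range (m + 2), ∑ k ∈ Finset.range (y r).n, f ((y r).e k) + ∑ j ∈ Finset.range (m + 1), ∑ k ∈ Finset.range (w j).n, f ((w j).e k))
    (Mk Zy Zw : ℕ → Set ℂ)
    (ty : ∀ r, r ≤ m + 1 → ∀ k, k < (y r).n → T.bary pos (T.opp ((y r).e k)) ∈ Zy r) (tw : ∀ j, j ≤ m → ∀ k, k < (w j).n → T.bary pos (T.opp ((w j).e k)) ∈ Zw j)
    (tt : ∀ k, k < 𝔇.t.inn.n → T.bary pos (T.opp (𝔇.t.inn.e k)) ∈ Zy 0) (ts : ∀ k, k < 𝔇.s.inn.n → T.bary pos (T.opp (𝔇.s.inn.e k)) ∈ Zy (m + 1)) (hip : 𝔇.s.ip ≤ 𝔇.s.inn.n)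
    (my : ∀ r, r ≤ m + 1 → ∀ p ∈ Zy r, (p ∈ PvwDat.offCut N h π ↔ p ∈ Mk r))
    (mw : ∀ j, j ≤ m → ∀ p ∈ Zw j, (p ∈ PvwDat.offCut N h π ↔ p ∈ Mk j ∨ p ∈ Mk (j + 1)) ∧ ¬ (p ∈ Mk j ∧ p ∈ Mk (j + 1))) :
    𝔇.Yof pos u N h π x =
      (pvwMass T pos u (Metric.closedBall π.zt (N.m * h)) 𝔇.t.inn 0 𝔇.t.inn.n + pvwMass T pos u (Mk 0) 𝔇.t.inn 𝔇.t.ip 𝔇.t.inn.n + pvwMass T pos u (Mk 0) (y 0) 0 (y 0).n + pvwMass T pos u (Mk 0) (w 0) 0 (w 0).n) +
      ∑ j ∈ Finset.range m, (pvwMass T pos u (Mk (j + 1)) (w j) 0 (w j).n + pvwMass T pos u (Mk (j + 1)) (y (j + 1)) 0 (y (j + 1)).n + pvwMass T pos u (Mk (j + 1)) (w (j + 1)) 0 (w (j + 1)).n) +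
      (pvwMass T pos u (Mk (m + 1)) (w m) 0 (w m).n + pvwMass T pos u (Mk (m + 1)) (y (m + 1)) 0 (y (m + 1)).n + pvwMass T pos u (Mk (m + 1)) 𝔇.s.inn 0 𝔇.s.ip) :=
  pvlc_Yof 𝔇 pos u N h π hx Mk (fun r hr k hk => my r hr _ (ty r hr k hk)) (fun j hj k hk => mw j hj _ (tw j hj k hk)) (fun k _ h2 => my 0 (by omega) _ (tt k h2))
    fun k hk => my (m + 1) le_rfl _ (ts k (by omega))

end free

/-! ## 14. masks and regions -/

/-- the masks (or the rooms) of the `m + 2` links of a chain: first link, cells `0 .. m - 1`, last link -/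
def pvlcMk (m : ℕ) (A Z : Set ℂ) (M : ℕ → Set ℂ) (r : ℕ) : Set ℂ := if r = 0 then A else if r = m + 1 then Z else M (r - 1)

theorem pvlc_rec_eqns_cite : True := by
  have := @pvlcMk.eq_1
  trivial

theorem pvlc_Mk_zero (m : ℕ) (A Z : Set ℂ) (M : ℕ → Set ℂ) : pvlcMk m A Z M 0 = A := if_pos rfl

theorem pvlc_Mk_last (m : ℕ) (A Z : Set ℂ) (M : ℕ → Set ℂ) : pvlcMk m A Z M (m + 1) = Z := by
  unfold pvlcMk
  rw [if_neg (by omega), if_pos rfl]

theorem pvlc_Mk_succ {m : ℕ} (A Z : Set ℂ) (M : ℕ → Set ℂ) {j : ℕ} (hj : j < m) : pvlcMk m A Z M (j + 1) = M j := by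
  unfold pvlcMk
  rw [if_neg (by omega), if_neg (by omega), Nat.add_sub_cancel]

/-- **THE REGIONS OF THE VALUE OF A CHAIN** (plane geometry only).      `Bt`, `Bs` = the cut-off balls of the two pins, `A0`, `A1` = the masks of the first and of the last link (behind the door `0`, in front of the door `m`),
`H0`, `H1` = the rooms of the tags of the two end links, `M j` = the placed mask of the cell `j < m`, `Q j` = the disc of the door `j ≤ m` -/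
structure PvlcReg (m : ℕ) (Bt Bs A0 A1 H0 H1 : Set ℂ) (M Q : ℕ → Set ℂ) : Prop where
  H0A : H0 ⊆ A0
  H0s : Disjoint H0 Bs
  H1A : H1 ⊆ A1
  H1t : Disjoint H1 Bt
  Mt : ∀ j, j < m → Disjoint (M j) Bt
  Ms : ∀ j, j < m → Disjoint (M j) Bs
  Qt : ∀ j, j ≤ m → Disjoint (Q j) Bt
  Qs : ∀ j, j ≤ m → Disjoint (Q j) Bs
  /-- in the disc of the door `0` the mask of the cell `0` is the complement of the mask of the first link -/
  Q0 : ∀ p ∈ Q 0, (p ∈ M 0 ↔ p ∉ A0)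
  /-- in the disc of the door `m` the mask of the cell `m - 1` is the complement of the mask of the last link -/
  Qm : ∀ p ∈ Q m, (p ∈ M (m - 1) ↔ p ∉ A1)
  /-- in the disc of an inner door the masks of the two cells are complementary -/
  Qj : ∀ j, 0 < j → j < m → ∀ p ∈ Q j, (p ∈ M (j - 1) ↔ p ∉ M j)

namespace PvlcReg

variable {m : ℕ} {Bt Bs A0 A1 H0 H1 : Set ℂ} {M Q : ℕ → Set ℂ}

/-- in the room of a link: off the cut-off balls = in the mask of the link -/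
theorem my (G : PvlcReg m Bt Bs A0 A1 H0 H1 M Q) {r : ℕ} (hr : r ≤ m + 1) {p : ℂ} (hp : p ∈ pvlcMk m H0 H1 M r) :
    p ∈ (Bs ∪ Bt)ᶜ ↔ p ∈ pvlcMk m (A0 \ Bt) (A1 \ Bs) M r := by
  rcases Nat.eq_zero_or_pos r with rfl | h0
  · rw [pvlc_Mk_zero] at hp ⊢
    have h1 := Set.disjoint_left.1 G.H0s hp
    have h2 := G.H0A hp
    constructor
    · exact fun h => ⟨h2, fun c => h (Or.inr c)⟩
    · rintro ⟨-, h⟩ (c | c)
      · exact h1 c
      · exact h c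
  · rcases Nat.lt_or_ge r (m + 1) with h1 | h1
    · obtain ⟨j, rfl⟩ : ∃ j, r = j + 1 := ⟨r - 1, by omega⟩
      have hj : j < m := by omega
      rw [pvlc_Mk_succ _ _ _ hj] at hp ⊢
      refine ⟨fun _ => hp, fun _ => ?_⟩
      rintro (c | c)
      · exact Set.disjoint_left.1 (G.Ms j hj) hp c
      · exact Set.disjoint_left.1 (G.Mt j hj) hp c
    · obtain rfl : r = m + 1 := by omega
      rw [pvlc_Mk_last] at hp ⊢
      have h1 := Set.disjoint_left.1 G.H1t hp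
      have h2 := G.H1A hp
      constructor
      · exact fun h => ⟨h2, fun c => h (Or.inl c)⟩
      · rintro ⟨-, h⟩ (c | c)
        · exact h c
        · exact h1 c

/-- in the disc of a door: off the cut-off balls, in exactly one of the masks of the two links of the door -/
theorem mw (G : PvlcReg m Bt Bs A0 A1 H0 H1 M Q) (hm : 0 < m) {j : ℕ} (hj : j ≤ m) {p : ℂ} (hp : p ∈ Q j) :
    (p ∈ (Bs ∪ Bt)ᶜ ↔ p ∈ pvlcMk m (A0 \ Bt) (A1 \ Bs) M j ∨ p ∈ pvlcMk m (A0 \ Bt) (A1 \ Bs) M (j + 1)) ∧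
      ¬ (p ∈ pvlcMk m (A0 \ Bt) (A1 \ Bs) M j ∧ p ∈ pvlcMk m (A0 \ Bt) (A1 \ Bs) M (j + 1)) := by
  have ht := Set.disjoint_left.1 (G.Qt j hj) hp
  have hs := Set.disjoint_left.1 (G.Qs j hj) hp
  have hoff : p ∈ (Bs ∪ Bt)ᶜ := by
    rintro (c | c)
    · exact hs c
    · exact ht c
  rcases Nat.eq_zero_or_pos j with rfl | h0
  · rw [pvlc_Mk_zero, pvlc_Mk_succ _ _ _ hm]
    have := G.Q0 p hp
    by_cases c : p ∈ A0
    · exact ⟨⟨fun _ => Or.inl ⟨c, ht⟩, fun _ => hoff⟩, fun h => this.1 h.2 c⟩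
    · exact ⟨⟨fun _ => Or.inr (this.2 c), fun _ => hoff⟩, fun h => c h.1.1⟩
  · obtain ⟨i, rfl⟩ : ∃ i, j = i + 1 := ⟨j - 1, by omega⟩
    rw [pvlc_Mk_succ _ _ _ (show i < m by omega)]
    rcases Nat.lt_or_ge (i + 1) m with h1 | h1
    · rw [pvlc_Mk_succ _ _ _ h1]
      have := G.Qj (i + 1) h0 h1 p hp
      rw [Nat.add_sub_cancel] at this
      by_cases c : p ∈ M (i + 1)
      · exact ⟨⟨fun _ => Or.inr c, fun _ => hoff⟩, fun h => this.1 h.1 c⟩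
      · exact ⟨⟨fun _ => Or.inl (this.2 c), fun _ => hoff⟩, fun h => c h.2⟩
    · obtain rfl : m = i + 1 := by omega
      rw [pvlc_Mk_last]
      have := G.Qm p hp
      rw [Nat.add_sub_cancel] at this
      by_cases c : p ∈ A1
      · exact ⟨⟨fun _ => Or.inr ⟨c, hs⟩, fun _ => hoff⟩, fun h => this.1 h.1 c⟩
      · exact ⟨⟨fun _ => Or.inl (this.2 c), fun _ => hoff⟩, fun h => c h.2.1⟩

end PvlcReg

/-! ## 15. the links of record -/

section record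

variable {η : Conf PvPt} {b : Bool} {N : PvwNum} {L : PvilLk} {𝔖 𝔖' : PvwSt (pvieT η)} {y : (pvieT η).Pth}

theorem pvlc_T_simple (η : Conf PvPt) : (pvieT η).Simple := (delbPl (cfSites η)).toMap_simple

theorem pvlc_T_sph {η : Conf PvPt} (h : DelGood (pvieY η)) : (pvieT η).IsSph := delb_plane_isSph h

/-- the exit gate edge of the end `p` is a position -/
theorem pvlc_atP_bw (h : L.AtP N b η 𝔖) : pvasBW (pvieT η) (pvieCol η b) 𝔖.dp := by
  unfold PvilLk.AtP at h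
  split_ifs at h with c
  · obtain ⟨-, g, -, rfl⟩ := h
    exact pvtg_aOut_bw g
  · exact h.st.gate.bw_p

/-- **A LINK OF RECORD IS AN ARC** -/
theorem pvlc_link_arc (A : L.Arc N b η 𝔖 𝔖' y) : ∃ n, L.Run b η 𝔖 𝔖' n ∧ PvlcArc (pvieT η) (pvieCol η b) 𝔖.dp 𝔖'.dm n y := by
  obtain ⟨n, hr, hl⟩ := A.run
  exact ⟨n, hr, ⟨pvlc_atP_bw A.at_p, hr.2.1, hr.2.2.1, hl⟩⟩

/-- **THE ROOM OF THE TAGS OF A FIRST LINK** (pin `p` → door `p'`): convex, contains the disc of the gate of the pin, the box of its stub, the room of the new part of the strand, the room of `g⁻` of the door -/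
structure PvlcRoomO (N : PvwNum) (L : PvilLk) (H : Set ℂ) : Prop where
  cvx : Convex ℝ H
  disc : ∀ w : ℂ, ‖conj L.p.fr * w - L.p.zf‖ < L.p.ty.b * L.p.h → w ∈ H
  box : ∀ w : ℂ, conj L.p.fr * w ∈ pvwSq L.p.zf (pvwRad N L.p.h L.p.ty L.p.ty.k) → w ∈ H
  room : L.Yin ⊆ H
  door : pvkdAt L.p'.z L.p'.fr (pvkdP L.p'.h).Zm ⊆ H

/-- **THE ROOM OF THE TAGS OF A LAST LINK** (door `p` → pin `p'`) -/
structure PvlcRoomI (N : PvwNum) (L : PvilLk) (H : Set ℂ) : Prop where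
  cvx : Convex ℝ H
  disc : ∀ w : ℂ, ‖conj L.p'.fr * w - L.p'.zf‖ < L.p'.ty.b * L.p'.h → w ∈ H
  box : ∀ w : ℂ, conj L.p'.fr * w ∈ pvwSq L.p'.zf (pvwRad N L.p'.h L.p'.ty L.p'.ty.k) → w ∈ H
  room : L.Yin ⊆ H
  door : pvkdAt L.p.z L.p.fr (pvkdP L.p.h).Zp ⊆ H

/-- the tags of the inner arc of a pin, exit half state -/
theorem pvlc_tags_out {p : PvilPl} (h : PvilOut N b p η 𝔖) {H : Set ℂ} (hH : Convex ℝ H) (hd : ∀ w : ℂ, ‖conj p.fr * w - p.zf‖ < p.ty.b * p.h → w ∈ H) {k : ℕ} (hk : k < 𝔖.inn.n) :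
    (pvieT η).bary (pviePos η) ((pvieT η).opp (𝔖.inn.e k)) ∈ H := by
  obtain ⟨n, -, h2, h3⟩ := h.st.gate.strand
  exact pvlc_tag_in (pvlc_T_simple η) (pl_left_face 𝔖.S) h.st.gate.bw_m h3 (pviePos η) hH h2 (fun v hv => hd _ (h.st.gate.inside v hv)) hk

/-- the tags of the inner arc of a pin, entrance half state -/
theorem pvlc_tags_in {p : PvilPl} (h : PvilIn N b p η 𝔖) {H : Set ℂ} (hH : Convex ℝ H) (hd : ∀ w : ℂ, ‖conj p.fr * w - p.zf‖ < p.ty.b * p.h → w ∈ H) {k : ℕ} (hk : k < 𝔖.inn.n) :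
    (pvieT η).bary (pviePos η) ((pvieT η).opp (𝔖.inn.e k)) ∈ H := by
  obtain ⟨n, -, h2, h3⟩ := h.st.gate.strand
  exact pvlc_tag_in (pvlc_T_simple η) (pl_left_face 𝔖.S) h.st.gate.bw_m h3 (pviePos η) hH h2 (fun v hv => hd _ (h.st.gate.inside v hv)) hk

/-- **the tags of the arc of a first link lie in its room** -/
theorem pvlc_tags_first (o1 : L.dr = false) (o2 : L.dr' = true) (A : L.Arc N b η 𝔖 𝔖' y) {H : Set ℂ} (G : PvlcRoomO N L H) {k : ℕ} (hk : k < y.n) :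
    (pvieT η).bary (pviePos η) ((pvieT η).opp (y.e k)) ∈ H := by
  obtain ⟨n, hr, ha⟩ := pvlc_link_arc A
  have hp : PvilOut N b L.p η 𝔖 := (PvilLk.atP_pin o1 N b η 𝔖).1 A.at_p
  obtain ⟨-, g, hg, rfl⟩ := (PvilLk.atP'_door o2 N b η 𝔖').1 A.at_p'
  obtain ⟨-, h2, -, h4⟩ := hr
  have hpos : ∀ t, t < n → pviePos η ((pvieT η).src (pvasIt (pvieT η) (pvieCol η b) 𝔖.dp t)) ∈ H ∧ pviePos η ((pvieT η).tgt (pvasIt (pvieT η) (pvieCol η b) 𝔖.dp t)) ∈ H := by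
    intro t ht
    by_cases c : t ≤ 𝔖.np
    · have := hp.st.stub.ep_in t c
      rw [hp.st.stub.ep_it t c] at this
      exact ⟨G.box _ this.1, G.box _ this.2⟩
    · have := h4 t (by omega) (by show t + 0 < n; omega)
      exact ⟨G.room this.1, G.room this.2⟩
  refine pvlc_tag_mem (pvlc_T_simple η) ha (pviePos η) G.cvx (fun t ht => ?_) (fun t ht => Or.inl (hpos t ht).2) hk
  rcases ht.lt_or_eq with c | rfl
  · exact (hpos t c).1
  · rw [h2]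
    exact G.door hg.vm

/-- **the tags of the arc of a last link lie in its room** -/
theorem pvlc_tags_last (i1 : L.dr = true) (i2 : L.dr' = false) (A : L.Arc N b η 𝔖 𝔖' y) {H : Set ℂ} (G : PvlcRoomI N L H) {k : ℕ} (hk : k < y.n) :
    (pvieT η).bary (pviePos η) ((pvieT η).opp (y.e k)) ∈ H := by
  obtain ⟨n, hr, ha⟩ := pvlc_link_arc A
  have hp : PvilIn N b L.p' η 𝔖' := (PvilLk.atP'_pin i2 N b η 𝔖').1 A.at_p'
  obtain ⟨-, g, hg, rfl⟩ := (PvilLk.atP_door i1 N b η 𝔖).1 A.at_p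
  obtain ⟨h1, h2, -, h4⟩ := hr
  have hpos : ∀ t, 0 < t → t ≤ n → pviePos η ((pvieT η).src (pvasIt (pvieT η) (pvieCol η b) g.aOut t)) ∈ H ∧ pviePos η ((pvieT η).tgt (pvasIt (pvieT η) (pvieCol η b) g.aOut t)) ∈ H := by
    intro t h0 ht
    by_cases c : t + 𝔖'.nm < n
    · have := h4 t h0 c
      exact ⟨G.room this.1, G.room this.2⟩
    · have e : 𝔖'.em (n - t) = pvasIt (pvieT η) (pvieCol η b) g.aOut t := by
        rw [hp.st.stub.em_it _ (by omega), ← h2]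
        show (pvasBack (pvieT η) (pvieCol η b))^[n - t] (pvasIt (pvieT η) (pvieCol η b) g.aOut n) = _
        rw [pvlc_back_it (pvtg_aOut_bw g) _ (by omega), show n - (n - t) = t by omega]
      have := hp.st.stub.em_in (n - t) (by omega)
      rw [e] at this
      exact ⟨G.box _ this.1, G.box _ this.2⟩
  refine pvlc_tag_mem (pvlc_T_simple η) ha (pviePos η) G.cvx (fun t ht => ?_) (fun t ht => Or.inr (hpos (t + 1) (by omega) ht).2) hk
  rcases Nat.eq_zero_or_pos t with rfl | c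
  · show pviePos η ((pvieT η).src g.aOut) ∈ H
    rw [pvtg_aOut_src]
    exact G.door hg.vp
  · exact (hpos t c ht).1

/-- the tags of the inner arc of a gate of record lie in every convex set which contains its outer disc -/
theorem pvlc_tags_gate {P : PvzlPg ℂ} {g : (pvieT η).Gate (pvieCol η b)} (hg : PvzlGt (pvieT η) Subtype.val (pvieCol η b) P g) {Q : Set ℂ} (hQ : Convex ℝ Q) (hP : P.KO ⊆ Q)
    {n : ℕ} {w : (pvieT η).Pth} (h : PvlcArc (pvieT η) (pvieCol η b) g.aIn g.aOut n w) {k : ℕ} (hk : k < w.n) : (pvieT η).bary (pviePos η) ((pvieT η).opp (w.e k)) ∈ Q := by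
  obtain ⟨K, -, t2, t3, t4, -⟩ := hg.thru
  have e : n = K := by
    rcases lt_trichotomy n K with c | c | c
    · exact absurd h.hit (t3 n c)
    · exact c
    · exact absurd t2 (h.first K c)
  subst e
  refine pvlc_tag_in (pvlc_T_simple η) (pl_left_face g.c) h.bw h.le (pviePos η) hQ t4 (fun v hv => ?_) hk
  obtain ⟨d, hd, rfl⟩ := hv
  exact hP (hg.least.reg.outer d hd)

/-- the tags of the arc of the run of a cell lie in every convex set which contains the room of the run -/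
theorem pvlc_tags_cell {g g' : (pvieT η).Gate (pvieCol η b)} {Co : Set ℂ} {K : ℕ} (hr : PvzlRun (pvieT η) Subtype.val (pvieCol η b) Co g g' K) {M : Set ℂ} (hM : Convex ℝ M) (hC : Co ⊆ M)
    {n : ℕ} {w : (pvieT η).Pth} (h : PvlcArc (pvieT η) (pvieCol η b) g.aOut g'.aIn n w) {k : ℕ} (hk : k < w.n) : (pvieT η).bary (pviePos η) ((pvieT η).opp (w.e k)) ∈ M := by
  obtain ⟨-, t2, t3, t4⟩ := hr
  have e : n = K := by
    rcases lt_trichotomy n K with c | c | c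
    · exact absurd h.hit (t3 n c)
    · exact c
    · exact absurd t2 (h.first K c)
  subst e
  exact pvlc_tag_mem_fc (pvlc_T_simple η) h (pviePos η) hM (fun v hv => hC (t4 hv).1) hk

/-- the mask of a first link -/
theorem pvlc_msk_first (o1 : L.dr = false) (o2 : L.dr' = true) (N : PvwNum) : L.msk N = L.Mk \ L.ball N := by
  unfold PvilLk.msk
  rw [o1, o2]
  simp

/-- the mask of a last link -/
theorem pvlc_msk_last (i1 : L.dr = true) (i2 : L.dr' = false) (N : PvwNum) : L.msk N = L.Mk \ L.ball' N := by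
  unfold PvilLk.msk
  rw [i1, i2]
  simp

/-- the value of a first link -/
theorem pvlc_val_first (o1 : L.dr = false) (o2 : L.dr' = true) (N : PvwNum) (u : (delbPl (pvieY η)).Dart → ℂ) (𝔖 𝔖' : PvwSt (pvieT η)) (y : (pvieT η).Pth) :
    L.val N η u 𝔖 𝔖' y = pvwMass (pvieT η) (pviePos η) u (L.ball N) 𝔖.inn 0 𝔖.inn.n + pvwMass (pvieT η) (pviePos η) u (L.msk N) 𝔖.inn 𝔖.ip 𝔖.inn.n +
      pvwMass (pvieT η) (pviePos η) u (L.msk N) y 0 y.n + pvwMass (pvieT η) (pviePos η) u (L.msk N) 𝔖'.inn 0 𝔖'.inn.n := by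
  unfold PvilLk.val
  rw [o1, o2]
  rfl

/-- the value of a last link -/
theorem pvlc_val_last (i1 : L.dr = true) (i2 : L.dr' = false) (N : PvwNum) (u : (delbPl (pvieY η)).Dart → ℂ) (𝔖 𝔖' : PvwSt (pvieT η)) (y : (pvieT η).Pth) :
    L.val N η u 𝔖 𝔖' y = pvwMass (pvieT η) (pviePos η) u (L.msk N) 𝔖.inn 0 𝔖.inn.n + pvwMass (pvieT η) (pviePos η) u (L.msk N) y 0 y.n + pvwMass (pvieT η) (pviePos η) u (L.msk N) 𝔖'.inn 0 𝔖'.ip := by
  unfold PvilLk.val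
  rw [i1, i2]
  simp

/-- the inner arc of a gate of record, in the form of `pvilStS`, `pvukMass` -/
theorem pvlc_gate_arc_rec (hG : DelGood (pvieY η)) {P : PvzlPg ℂ} {g : (pvieT η).Gate (pvieCol η b)} (hg : PvzlGt (pvieT η) Subtype.val (pvieCol η b) P g) :
    PvlcArc (pvieT η) (pvieCol η b) g.aIn g.aOut g.len (pvtArc (pvieT η) (pvieCol η b) g.aIn g.len) := by
  obtain ⟨K, ht⟩ := hg.thru
  rw [(ht.len (pvlc_T_sph hG)).1]
  exact pvlc_arc_of_hit (pvlc_T_sph hG) (pvlc_T_simple η) (pvtg_aIn_bw g) ht.2.1 ht.2.2.1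

/-- the arc of the run of a cell, in the form of `pvukMass` -/
theorem pvlc_cell_arc_rec (hG : DelGood (pvieY η)) {g g' : (pvieT η).Gate (pvieCol η b)} {Co : Set ℂ} {K : ℕ} (hr : PvzlRun (pvieT η) Subtype.val (pvieCol η b) Co g g' K) :
    PvlcArc (pvieT η) (pvieCol η b) g.aOut g'.aIn K (pvtArc (pvieT η) (pvieCol η b) g.aOut (pvasHit (pvieT η) (pvieCol η b) g.aOut {g'.aIn})) := by
  rw [hr.hit]
  exact pvlc_arc_of_hit (pvlc_T_sph hG) (pvlc_T_simple η) (pvtg_aOut_bw g) hr.2.1 hr.2.2.1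

/-- the gate of record is one object -/
theorem pvlc_gate_uniq (hG : DelGood (pvieY η)) {P : PvzlPg ℂ} (hD : Disjoint P.Km P.Kp) {g g₂ : (pvieT η).Gate (pvieCol η b)} (h : PvzlGt (pvieT η) Subtype.val (pvieCol η b) P g)
    (h₂ : PvzlGt (pvieT η) Subtype.val (pvieCol η b) P g₂) : g = g₂ := by
  obtain ⟨he, hn, hm⟩ := PvzlGt.unique (pvlc_T_sph hG) hD h h₂
  exact pvkx_gate_ext he hn hm

end record

/-! ## 16. the value of a chain -/

/-- **THE VALUE OF A CHAIN, EVERY WEIGHT**:   `Yof x = val (first link) + Σ_j (mass in the mask of the cell j of: inner arc of the door j, run, inner arc of the door j + 1) + val (last link)` -/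
theorem pvlc_value {η : Conf PvPt} {b : Bool} {N : PvwNum} (u : (delbPl (pvieY η)).Dart → ℂ) (𝔇 : PvwDat (pvieT η)) {h : ℝ} {π : PvwPat} {Lo Li : PvilLk}
    (o1 : Lo.dr = false) (o2 : Lo.dr' = true) (i1 : Li.dr = true) (i2 : Li.dr' = false)
    (ezt : Lo.p.z = π.zt) (eht : Lo.p.h = h) (ezs : Li.p'.z = π.zs) (ehs : Li.p'.h = h)
    {m : ℕ} (hm : 0 < m) {g : ℕ → (pvieT η).Gate (pvieCol η b)} {st en : ℕ → (delbPl (pvieY η)).Dart} {Nn Ln : ℕ → ℕ} {y w : ℕ → (pvieT η).Pth}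
    (R : PvlcRoad (pvieT η) (pvieCol η b) m st en Nn Ln y w) (hst : ∀ j, j ≤ m → st (j + 1) = (g j).aOut) (hen : ∀ j, j ≤ m → en j = (g j).aIn)
    {x : (pvieT η).Pth}
    (hx : ∀ f : (delbPl (pvieY η)).Dart → ℂ, ∑ k ∈ Finset.range x.n, f (x.e k) =
      ∑ r ∈ Finset.range (m + 2), ∑ k ∈ Finset.range (y r).n, f ((y r).e k) + ∑ j ∈ Finset.range (m + 1), ∑ k ∈ Finset.range (w j).n, f ((w j).e k))
    {𝔖0 𝔖m : PvwSt (pvieT η)} (Ao : Lo.Arc N b η 𝔇.t 𝔖0 (y 0)) (Ai : Li.Arc N b η 𝔖m 𝔇.s (y (m + 1)))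
    {P : ℕ → PvzlPg ℂ} (gt : ∀ j, j ≤ m → PvzlGt (pvieT η) Subtype.val (pvieCol η b) (P j) (g j))
    (eP0 : P 0 = (pvkdP Lo.p'.h).pg Lo.p'.z Lo.p'.fr) (ePm : P m = (pvkdP Li.p.h).pg Li.p.z Li.p.fr) (hD0 : Disjoint (P 0).Km (P 0).Kp) (hDm : Disjoint (P m).Km (P m).Kp)
    {Co M Q : ℕ → Set ℂ} {H0 H1 : Set ℂ} (cell : ∀ j, j < m → ∃ K, PvzlRun (pvieT η) Subtype.val (pvieCol η b) (Co j) (g j) (g (j + 1)) K)
    (G : PvlcReg m (Lo.ball N) (Li.ball' N) Lo.Mk Li.Mk H0 H1 M Q) (Go : PvlcRoomO N Lo H0) (Gi : PvlcRoomI N Li H1)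
    (Mc : ∀ j, j < m → Convex ℝ (M j)) (Qc : ∀ j, j ≤ m → Convex ℝ (Q j)) (CM : ∀ j, j < m → Co j ⊆ M j) (PQ : ∀ j, j ≤ m → (P j).KO ⊆ Q j) :
    𝔇.Yof (pviePos η) u N h π x = Lo.val N η u 𝔇.t 𝔖0 (y 0) +
      ∑ j ∈ Finset.range m, (pvwMass (pvieT η) (pviePos η) u (M j) (w j) 0 (w j).n + pvwMass (pvieT η) (pviePos η) u (M j) (y (j + 1)) 0 (y (j + 1)).n + pvwMass (pvieT η) (pviePos η) u (M j) (w (j + 1)) 0 (w (j + 1)).n) +
      Li.val N η u 𝔖m 𝔇.s (y (m + 1)) := by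
  have hpo : PvilOut N b Lo.p η 𝔇.t := (PvilLk.atP_pin o1 N b η 𝔇.t).1 Ao.at_p
  have hpi : PvilIn N b Li.p' η 𝔇.s := (PvilLk.atP'_pin i2 N b η 𝔇.s).1 Ai.at_p'
  have hG : DelGood (pvieY η) := hpo.good
  have hS := pvlc_T_simple η
  have hoff : PvwDat.offCut N h π = (Li.ball' N ∪ Lo.ball N)ᶜ := by
    unfold PvwDat.offCut PvilLk.ball PvilLk.ball'
    rw [ezt, eht, ezs, ehs]
  have hdoor : ∀ j, j ≤ m → PvlcArc (pvieT η) (pvieCol η b) (g j).aIn (g j).aOut (Ln j) (w j) := fun j hj => by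
    have := R.door j hj
    rwa [hen j hj, hst j hj] at this
  have hrun : ∀ j, j < m → PvlcArc (pvieT η) (pvieCol η b) (g j).aOut (g (j + 1)).aIn (Nn (j + 1)) (y (j + 1)) := fun j hj => by
    have := R.run (j + 1) (by omega)
    rwa [hst j hj.le, hen (j + 1) hj] at this
  -- the two door states
  obtain ⟨-, g0, hg0, rfl⟩ := (PvilLk.atP'_door o2 N b η 𝔖0).1 Ao.at_p'
  obtain ⟨-, gm, hgm, rfl⟩ := (PvilLk.atP_door i1 N b η 𝔖m).1 Ai.at_p
  obtain rfl : g 0 = g0 := pvlc_gate_uniq hG hD0 (gt 0 (by omega)) (eP0 ▸ hg0)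
  obtain rfl : g m = gm := pvlc_gate_uniq hG hDm (gt m le_rfl) (ePm ▸ hgm)
  have key := pvlc_Yof_rooms 𝔇 (pviePos η) u N h π hx (pvlcMk m (Lo.Mk \ Lo.ball N) (Li.Mk \ Li.ball' N) M) (pvlcMk m H0 H1 M) Q
    (fun r hr k hk => by
      rcases Nat.eq_zero_or_pos r with rfl | h0
      · rw [pvlc_Mk_zero]
        exact pvlc_tags_first o1 o2 Ao Go hk
      · rcases Nat.lt_or_ge r (m + 1) with h1 | h1
        · obtain ⟨j, rfl⟩ : ∃ j, r = j + 1 := ⟨r - 1, by omega⟩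
          have hj : j < m := by omega
          rw [pvlc_Mk_succ _ _ _ hj]
          obtain ⟨K, hK⟩ := cell j hj
          exact pvlc_tags_cell hK (Mc j hj) (CM j hj) (hrun j hj) hk
        · obtain rfl : r = m + 1 := by omega
          rw [pvlc_Mk_last]
          exact pvlc_tags_last i1 i2 Ai Gi hk)
    (fun j hj k hk => pvlc_tags_gate (gt j hj) (Qc j hj) (PQ j hj) (hdoor j hj) hk)
    (fun k hk => by rw [pvlc_Mk_zero]; exact pvlc_tags_out hpo Go.cvx Go.disc hk)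
    (fun k hk => by rw [pvlc_Mk_last]; exact pvlc_tags_in hpi Gi.cvx Gi.disc hk)
    hpi.st.gate.ip_le
    (fun r hr p hp => by rw [hoff]; exact G.my hr hp)
    (fun j hj p hp => by rw [hoff]; exact G.mw hm hj hp)
  rw [key, pvlc_Mk_zero, pvlc_Mk_last, pvlc_val_first o1 o2, pvlc_val_last i1 i2, pvlc_msk_first o1 o2, pvlc_msk_last i1 i2]
  have e0 : pvwMass (pvieT η) (pviePos η) u (Lo.Mk \ Lo.ball N) (w 0) 0 (w 0).n =
      pvwMass (pvieT η) (pviePos η) u (Lo.Mk \ Lo.ball N) (pvtArc (pvieT η) (pvieCol η b) (g 0).aIn (g 0).len) 0 (pvtArc (pvieT η) (pvieCol η b) (g 0).aIn (g 0).len).n :=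
    pvlc_mass_arc hS _ _ _ (hdoor 0 (by omega)) (pvlc_gate_arc_rec hG (gt 0 (by omega)))
  have em : pvwMass (pvieT η) (pviePos η) u (Li.Mk \ Li.ball' N) (w m) 0 (w m).n =
      pvwMass (pvieT η) (pviePos η) u (Li.Mk \ Li.ball' N) (pvtArc (pvieT η) (pvieCol η b) (g m).aIn (g m).len) 0 (pvtArc (pvieT η) (pvieCol η b) (g m).aIn (g m).len).n :=
    pvlc_mass_arc hS _ _ _ (hdoor m le_rfl) (pvlc_gate_arc_rec hG (gt m le_rfl))
  have eb : Metric.closedBall π.zt (N.m * h) = Lo.ball N := by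
    unfold PvilLk.ball
    rw [ezt, eht]
  rw [e0, em, eb, Finset.sum_congr rfl fun j hj => by rw [pvlc_Mk_succ _ _ _ (Finset.mem_range.1 hj)]]
  rfl

/-- the mass of a cell for the weight of `Q` is `pvukMass` of 244 -/
theorem pvlc_cell_mass {η : Conf PvPt} {b : Bool} (hG : DelGood (pvieY η)) {P P' : PvzlPg ℂ} {g g' : (pvieT η).Gate (pvieCol η b)} (hg : PvzlGt (pvieT η) Subtype.val (pvieCol η b) P g)
    (hg' : PvzlGt (pvieT η) Subtype.val (pvieCol η b) P' g') {Co : Set ℂ} {K : ℕ} (hr : PvzlRun (pvieT η) Subtype.val (pvieCol η b) Co g g' K) (M : Set ℂ)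
    {n n₁ n' : ℕ} {w y w' : (pvieT η).Pth} (hw : PvlcArc (pvieT η) (pvieCol η b) g.aIn g.aOut n w) (hy : PvlcArc (pvieT η) (pvieCol η b) g.aOut g'.aIn n₁ y)
    (hw' : PvlcArc (pvieT η) (pvieCol η b) g'.aIn g'.aOut n' w') :
    pvwMass (pvieT η) (pviePos η) (pvilQ η) M w 0 w.n + pvwMass (pvieT η) (pviePos η) (pvilQ η) M y 0 y.n + pvwMass (pvieT η) (pviePos η) (pvilQ η) M w' 0 w'.n = pvukMass b η M g g' := by
  have hS := pvlc_T_simple η
  rw [pvlc_mass_arc hS _ _ _ hw (pvlc_gate_arc_rec hG hg), pvlc_mass_arc hS _ _ _ hy (pvlc_cell_arc_rec hG hr), pvlc_mass_arc hS _ _ _ hw' (pvlc_gate_arc_rec hG hg'),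
    pvlc_mass_psum, pvlc_mass_psum, pvlc_mass_psum]
  rfl

/-- **THE VALUE OF A CHAIN AT THE NAMES OF RECORD** (`Q`):   `Yof x = val (first link) + Σ_j pvukMass (cell j) + val (last link)`.
The cells in the form of `PvukDict.word` of 244 (`Z j = pvthZ δ z d l j`, `D j = pvthD d l j`, `τ j = pvthL l j`, `ex` = `pvuk_exit`), the road and `hx` = exits of `pvlc_road` -/
theorem pvlc_value_Q {η : Conf PvPt} {b : Bool} {N : PvwNum} (𝔇 : PvwDat (pvieT η)) {h : ℝ} {π : PvwPat} {Lo Li : PvilLk}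
    (o1 : Lo.dr = false) (o2 : Lo.dr' = true) (i1 : Li.dr = true) (i2 : Li.dr' = false)
    (ezt : Lo.p.z = π.zt) (eht : Lo.p.h = h) (ezs : Li.p'.z = π.zs) (ehs : Li.p'.h = h)
    {m : ℕ} (hm : 0 < m) {g : ℕ → (pvkiT η).Gate (pvukS b η)} {st en : ℕ → (delbPl (pvieY η)).Dart} {Nn Ln : ℕ → ℕ} {y w : ℕ → (pvieT η).Pth}
    (R : PvlcRoad (pvieT η) (pvieCol η b) m st en Nn Ln y w) (hst : ∀ j, j ≤ m → st (j + 1) = (g j).aOut) (hen : ∀ j, j ≤ m → en j = (g j).aIn)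
    {x : (pvieT η).Pth}
    (hx : ∀ f : (delbPl (pvieY η)).Dart → ℂ, ∑ k ∈ Finset.range x.n, f (x.e k) =
      ∑ r ∈ Finset.range (m + 2), ∑ k ∈ Finset.range (y r).n, f ((y r).e k) + ∑ j ∈ Finset.range (m + 1), ∑ k ∈ Finset.range (w j).n, f ((w j).e k))
    {𝔖0 𝔖m : PvwSt (pvieT η)} (Ao : Lo.Arc N b η 𝔇.t 𝔖0 (y 0)) (Ai : Li.Arc N b η 𝔖m 𝔇.s (y (m + 1)))
    {𝔤 : PvkdGeo} {Z D : ℕ → ℂ} {τ : ℕ → PvtTurn} {K : ℕ → ℕ} (lk : ∀ j, j < m → PvukLink 𝔤 b η (Z j) (D j) (τ j) (g j) (g (j + 1)) (K j))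
    (ex : ∀ j, j < m → 𝔤.zo (Z j) (D j) (τ j) = Z (j + 1) ∧ D j * (τ j).rot = D (j + 1))
    (epo : 𝔤.toPvkdPlug = pvkdP Lo.p'.h) (eZ0 : Z 0 = Lo.p'.z) (eD0 : D 0 = Lo.p'.fr) (epi : 𝔤.toPvkdPlug = pvkdP Li.p.h) (eZm : Z m = Li.p.z) (eDm : D m = Li.p.fr)
    (zz : Disjoint 𝔤.Zm 𝔤.Zp) (hD0 : D 0 ≠ 0) (hDm : D m ≠ 0) (Mc : ∀ t, Convex ℝ (𝔤.Mk t)) (CM : ∀ t, 𝔤.Co t ⊆ 𝔤.Mk t) {H0 H1 : Set ℂ}
    (G : PvlcReg m (Lo.ball N) (Li.ball' N) Lo.Mk Li.Mk H0 H1 (fun j => pvkdAt (Z j) (D j) (𝔤.Mk (τ j))) fun j => Metric.ball (Z j) 𝔤.b) (Go : PvlcRoomO N Lo H0) (Gi : PvlcRoomI N Li H1) :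
    𝔇.Yof (pviePos η) (pvilQ η) N h π x = Lo.val N η (pvilQ η) 𝔇.t 𝔖0 (y 0) + ∑ j ∈ Finset.range m, pvukMass b η (pvkdAt (Z j) (D j) (𝔤.Mk (τ j))) (g j) (g (j + 1)) +
      Li.val N η (pvilQ η) 𝔖m 𝔇.s (y (m + 1)) := by
  have hG : DelGood (pvieY η) := ((PvilLk.atP_pin o1 N b η 𝔇.t).1 Ao.at_p).good
  have gt : ∀ j, j ≤ m → PvzlGt (pvieT η) Subtype.val (pvieCol η b) (𝔤.toPvkdPlug.pg (Z j) (D j)) (g j) := by
    intro j hj
    rcases Nat.lt_or_ge j m with c | c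
    · exact (lk j c).1
    · obtain ⟨i, rfl⟩ : ∃ i, m = i + 1 := ⟨m - 1, by omega⟩
      obtain rfl : j = i + 1 := by omega
      have := (lk i (by omega)).2.1
      rw [(ex i (by omega)).1, (ex i (by omega)).2] at this
      exact this
  have hdoor : ∀ j, j ≤ m → PvlcArc (pvieT η) (pvieCol η b) (g j).aIn (g j).aOut (Ln j) (w j) := fun j hj => by
    have := R.door j hj
    rwa [hen j hj, hst j hj] at this
  have hrun : ∀ j, j < m → PvlcArc (pvieT η) (pvieCol η b) (g j).aOut (g (j + 1)).aIn (Nn (j + 1)) (y (j + 1)) := fun j hj => by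
    have := R.run (j + 1) (by omega)
    rwa [hst j hj.le, hen (j + 1) hj] at this
  rw [pvlc_value (pvilQ η) 𝔇 o1 o2 i1 i2 ezt eht ezs ehs hm R hst hen hx Ao Ai (P := fun j => 𝔤.toPvkdPlug.pg (Z j) (D j)) gt (by rw [eZ0, eD0, epo]) (by rw [eZm, eDm, epi])
    (pvkx_at_disj hD0 zz) (pvkx_at_disj hDm zz) (Co := fun j => pvkdAt (Z j) (D j) (𝔤.Co (τ j))) (fun j hj => ⟨K j, (lk j hj).2.2⟩) G Go Gi
    (fun j _ => pvkx_at_convex _ _ (Mc _)) (fun j _ => convex_ball _ _) (fun j _ => pvkx_at_mono _ _ (CM _)) fun j _ => subset_rfl]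
  congr 2
  refine Finset.sum_congr rfl fun j hj => ?_
  have hj' := Finset.mem_range.1 hj
  exact pvlc_cell_mass hG (gt j hj'.le) (gt (j + 1) hj') (lk j hj').2.2 _ (hdoor j hj'.le) (hrun j hj') (hdoor (j + 1) hj')

end Claimed.Agent.R289
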