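-- KEEP
import Claimed.Agent.R289.Tr.MaskE
import Claimed.Agent.R289.Tr.InstEKR

/-!
# Row 289 (S0537), THE WALL, ROAD E, file Tr/MaskR : (K4) RECOGNITION OF THE THICK LINK = THE ASSEMBLY AT THE CONTRACT `PvjkCl` OF 132      (helper290, SECOND of BOX:TR-MASKE, ruling T9 (3) of 24; prefix `pvjz_`, `pvjz`, `Pvjz`)

WHAT.   `Tr/InstEKR` (132) reduces the field `recog` of `thick` to `PvjkCl L L' N b M η` : closed pair `PvjkPair` (link `u → t`, return `t → u`, HALF states carried by FOUR records, frames) ⟹ `PvjkOne` (the value of the link = the mass of ONE label in the mask `M`).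
THIS FILE PROVES IT, 0 sorry, at `M := pvjzM L N μ = pvmeM z_u (m h_u) z_t (m h_t) μ (Mp(u) ∪ Yin(e) ∪ Mm(t))` (55), from
      `PvjzDes L L' N μ E` (ONE record on the placed regions = the design lines (D1)-(D3) of 55)      and      `PvjzMesh μ E η` (mesh of the tags over `E`; producer `pvjz_mesh_of` over `pvme_mesh_all` of 55: `PvtrMesh ρ U`, `E ⊆ pvtrCore (3ρ) U`, `4ρ/3 ≤ μ`).
WITHOUT MESH THE CONTRACT IS FALSE (ADV of 55, 11:45Z): so `hcl` of `pvjk_recog*` is replaced by the forms of sec. 7, where the plain events contain the mesh of their windows.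
SECOND ROPE of `Tr/ThickC2` (118; model free, one record per plug, no frame): secs. 1-4 are an independent model free proof in which the stubs are RAW data `(np, ep)`, `(nm, em)` attached to the gate of ANOTHER record, metric clauses in absolute positions: this is what the half states of `Tr/InstL` give.

* sec. 1  `PvjzG` (gate part, absolute positions; `PvjzG.of_gate`: any isometric frame), `PvjzP` / `PvjzM` (exit / entrance stub as raw data), `PvjzRun`;   `pvjz_on_S pvjz_off_far pvjz_off_gpm pvjz_behind` (a bank vertex of a position off the gate is `≥ a h` from the centre; in the closed inside it is `g⁺` or `g⁻`), inner arc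
* sec. 2  `pvjz_le_back` (existence of the backward LE), **`pvjz_tri`** (sandwich of 158 + masks: a vertex of `y` = bank vertex of `Σ⁺` over `Mp` | over `Yin` | bank vertex of `Σ⁻` over `Mm'`)
* sec. 3  `PvjzLk` = the one-vertex facts of a link, **`pvjz_link`**
* sec. 4  `pvjz_heads`, `pvjz_chain`, `pvjz_onwall`, **`pvjz_ring`** (`pvow_ring` of 194), **`pvjz_ex`** (producer of `PvmeEx` of 55), **`pvjz_one`** (`PvjkOne`, model free)
* sec. 5  AT `Tr/InstL`: `PvjzDes`, `pvjzM`, `PvjzMesh`, `pvjz_iso`, `pvjz_val_eq` (`PvilLk.val`, `dr = dr' = false`, `Mk = univ`), **`pvjz_pair_one`**, **`pvjz_cl`**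
* sec. 6  `pvjz_mesh_of pvjz_mesh_union pvjz_mesh_mono`, `pvjz_sh_M` (the mask is translation covariant)
* sec. 7  **`pvjz_recog`** (plain events, a.e., one raw tag for all the weights), **`pvjz_recog_soft`** (`pvilSure`, `pvilLoc`, countably many indices at once)
-/

set_option autoImplicit false
set_option linter.unusedSectionVars false
set_option linter.unusedVariables false

namespace Claimed.Agent.R289

open Set Metric

/-! ## 1. gates, stubs, runs: what the ring reads -/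

section base

variable {V D : Type} {T : PvMap V D}

/-- **the gate part of a plug**, metric clauses in ABSOLUTE positions (`ra = a h`, `rb = b h`) -/
structure PvjzG (T : PvMap V D) (pos : V → ℂ) (s : V → Bool) (𝔖 : PvwSt T) (z : ℂ) (ra rb : ℝ) : Prop where
  ann : ∀ v ∈ 𝔖.S.verts, ra ≤ ‖pos v - z‖
  round : ∀ v, ‖pos v - z‖ < ra → v ∈ 𝔖.ins
  inside : ∀ v ∈ 𝔖.ins, ‖pos v - z‖ < rb
  bw_p : pvasBW T s 𝔖.dp
  bw_m : pvasBW T s 𝔖.dm
  ne : 𝔖.gp ≠ 𝔖.gm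
  gp_on : 𝔖.gp ∈ 𝔖.S.verts
  two : ∀ v ∈ 𝔖.S.verts, s v = true → v = 𝔖.gp ∨ v = 𝔖.gm
  strand : ∃ n, pvasIt T s 𝔖.dm n = 𝔖.dp ∧ (∀ i, i < n → pvasIt T s 𝔖.dm i ∈ 𝔖.S.Left) ∧ PvwLE T (fun i => T.src (pvasIt T s 𝔖.dm i)) n 𝔖.inn
  ip_le : 𝔖.ip ≤ 𝔖.inn.n

/-- **an exit stub** of the gate of `𝔖` (raw data `np ep`: the record which carries the stub may be another one) -/
structure PvjzP (T : PvMap V D) (pos : V → ℂ) (s : V → Bool) (𝔖 : PvwSt T) (np : ℕ) (ep : ℕ → D) (Mp : Set ℂ) : Prop where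
  it : ∀ i, i ≤ np → ep i = pvasIt T s 𝔖.dp i
  off : ∀ i, i ≤ np → ep i ∉ 𝔖.S.Left
  mask : ∀ y : T.Pth, PvwLE T (fun i => T.src (ep i)) np y → ∀ v ∈ y.verts, pos v ∈ Mp

/-- **an entrance stub** of the gate of `𝔖` -/
structure PvjzM (T : PvMap V D) (pos : V → ℂ) (s : V → Bool) (𝔖 : PvwSt T) (nm : ℕ) (em : ℕ → D) (Mm : Set ℂ) : Prop where
  it : ∀ i, i ≤ nm → em i = (pvasBack T s)^[i] 𝔖.dm
  off : ∀ i, i ≤ nm → T.opp (em i) ∉ 𝔖.S.Left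
  mask : ∀ y : T.Pth, PvwLE T (fun i => T.src (em i)) nm y → ∀ v ∈ y.verts, pos v ∈ Mm

/-- **a run** from the exit gate edge `dp` (stub of `np` steps) to the entry gate edge `dm'` (stub of `nm'` steps), first hit, the black ends of the new positions over `Yin`; `y` = LE of its black bank -/
structure PvjzRun (T : PvMap V D) (pos : V → ℂ) (s : V → Bool) (dp : D) (np : ℕ) (dm' : D) (nm' : ℕ) (Yin : Set ℂ) (y : T.Pth) (n : ℕ) : Prop where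
  le : np + nm' ≤ n
  hit : pvasIt T s dp n = dm'
  first : ∀ i, i < n → pvasIt T s dp i ≠ dm'
  room : ∀ i, np < i → i + nm' < n → pos (T.src (pvasIt T s dp i)) ∈ Yin
  le_y : PvwLE T (fun i => T.src (pvasIt T s dp i)) n y

variable {pos : V → ℂ} {s : V → Bool} {𝔖 𝔖' : PvwSt T} {z z' : ℂ} {ra rb ra' rb' : ℝ}

/-- the gate of record in a frame which is an isometry -/
theorem PvjzG.of_gate (hT : T.IsSph) {pos' : V → ℂ} {h : ℝ} {zf : ℂ} {τ : PvwTy} (hG : 𝔖.Gate pos' h zf τ s) (hiso : ∀ v, ‖pos' v - zf‖ = ‖pos v - z‖) :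
    PvjzG T pos s 𝔖 z (τ.a * h) (τ.b * h) where
  ann v hv := by rw [← hiso]; exact (hG.ann v hv).1
  round v hv := hG.round v (by rw [hiso]; exact hv)
  inside v hv := by rw [← hiso]; exact hG.inside v hv
  bw_p := hG.bw_p
  bw_m := hG.bw_m
  ne := hG.ne
  gp_on := (pvuq_gate_mem hG).1
  two := hG.two
  strand := hG.strand
  ip_le := hG.ip_le

/-- a vertex of the closed inside which is the source of a dart outside lies on the gate -/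
theorem pvjz_on_S (hT : T.IsSph) (𝔖 : PvwSt T) {d : D} (hd : d ∉ 𝔖.S.Left) (hv : T.src d ∈ 𝔖.ins) : T.src d ∈ 𝔖.S.verts := by
  have h1 : T.src d ∈ T.VOf 𝔖.S.Left := hv
  rw [pl_VOf_left hT] at h1
  rcases h1 with h1 | h1
  · exact h1
  · exact absurd (h1 d rfl) hd

/-- the source of a dart outside the gate is at distance `≥ a h` from the centre -/
theorem pvjz_off_far (hT : T.IsSph) (G : PvjzG T pos s 𝔖 z ra rb) {d : D} (hd : d ∉ 𝔖.S.Left) : ra ≤ ‖pos (T.src d) - z‖ := by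
  by_contra hlt
  rw [not_le] at hlt
  exact absurd (G.ann _ (pvjz_on_S hT 𝔖 hd (G.round _ hlt))) (not_le.2 hlt)

/-- a black one in the closed inside is `g⁺` or `g⁻` -/
theorem pvjz_off_gpm (hT : T.IsSph) (G : PvjzG T pos s 𝔖 z ra rb) {d : D} (hd : d ∉ 𝔖.S.Left) (hv : T.src d ∈ 𝔖.ins) (hb : s (T.src d) = true) :
    T.src d = 𝔖.gp ∨ T.src d = 𝔖.gm := G.two _ (pvjz_on_S hT 𝔖 hd hv) hb

/-- the dart `nxt (opp e)` leaves the source of `e`, in the face behind `e` -/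
theorem pvjz_behind (𝔖 : PvwSt T) {e : D} (he : T.opp e ∉ 𝔖.S.Left) : T.nxt (T.opp e) ∉ 𝔖.S.Left ∧ T.src (T.nxt (T.opp e)) = T.src e := by
  refine ⟨fun h => he ((pl_left_face 𝔖.S (T.opp e)).1 h), ?_⟩
  show T.tgt (T.opp e) = T.src e
  exact T.tgt_opp e

theorem pvjz_ra_lt (hT : T.IsSph) (G : PvjzG T pos s 𝔖 z ra rb) : ra < rb :=
  lt_of_le_of_lt (G.ann _ G.gp_on) (G.inside _ (pvwk_verts_ins hT 𝔖 G.gp_on))

/-! ### the inner arc -/

theorem pvjz_inn_v0 (G : PvjzG T pos s 𝔖 z ra rb) : 𝔖.inn.v 0 = 𝔖.gm := by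
  obtain ⟨n, -, -, h3⟩ := G.strand
  exact pvt_sd_v0 h3

theorem pvjz_inn_vn (G : PvjzG T pos s 𝔖 z ra rb) : 𝔖.inn.v 𝔖.inn.n = 𝔖.gp := by
  obtain ⟨n, h1, -, h3⟩ := G.strand
  rw [pvt_sd_vn h3, h1]
  rfl

theorem pvjz_inn_pos (G : PvjzG T pos s 𝔖 z ra rb) : 0 < 𝔖.inn.n := by
  rcases Nat.eq_zero_or_pos 𝔖.inn.n with h | h
  · exfalso
    apply G.ne
    rw [← pvjz_inn_vn G, ← pvjz_inn_v0 G, h]
  · exact h

theorem pvjz_inn_ins (hT : T.IsSph) (G : PvjzG T pos s 𝔖 z ra rb) {k : ℕ} (hk : k ≤ 𝔖.inn.n) : 𝔖.inn.v k ∈ 𝔖.ins := by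
  obtain ⟨n, h1, h2, h3⟩ := G.strand
  obtain ⟨i, hi, e⟩ := pvt_sd_verts h3 ⟨k, hk, rfl⟩
  rw [← e]
  rcases Nat.lt_or_ge i n with hlt | hge
  · exact ⟨_, h2 i hlt, rfl⟩
  · have : i = n := le_antisymm hi hge
    rw [this, h1]
    exact pvwk_verts_ins hT 𝔖 G.gp_on

theorem pvjz_inn_wall (hS : T.Simple) (G : PvjzG T pos s 𝔖 z ra rb) : 𝔖.inn.OnWall s 𝔖.dm := by
  obtain ⟨n, -, -, h3⟩ := G.strand
  exact pvow_le_onwall hS G.bw_m h3

theorem pvjz_gate_wall (G : PvjzG T pos s 𝔖 z ra rb) : T.Wall s 𝔖.dm 𝔖.dp := by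
  obtain ⟨n, h1, -, -⟩ := G.strand
  rw [← h1]
  exact pvt_s_it_wall G.bw_m n

end base

/-! ## 2. the vertices of the arc of a run -/

section tri

variable {V D : Type} {T : PvMap V D} {pos : V → ℂ} {s : V → Bool}

/-- the LE of the last steps of a strand, read backwards, exists -/
theorem pvjz_le_back (hT : T.IsSph) (hS : T.Simple) {a : D} (ha : pvasBW T s a) {n m₂ : ℕ} (h2n : m₂ ≤ n)
    (hinj : ∀ i j, i < n → j < n → pvasIt T s a i = pvasIt T s a j → i = j) :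
    ∃ y₂ : T.Pth, PvwLE T (fun i => T.src (pvasIt T s a (n - i))) (n - m₂) y₂ := by
  classical
  have hb : pvasBW T s (pvasIt T s a m₂) := pvas_it_bw ha m₂
  have hinj' : ∀ i j, i < n - m₂ → j < n - m₂ → pvasIt T s (pvasIt T s a m₂) i = pvasIt T s (pvasIt T s a m₂) j → i = j := by
    intro i j hi hj e
    rw [← pvas_it_add, ← pvas_it_add] at e
    have := hinj _ _ (by omega) (by omega) e
    omega
  have h1 := pvt_sd_le hT hS hb hinj'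
  refine ⟨(pvtArc T s (pvasIt T s a m₂) (n - m₂)).rev, ?_⟩
  have h2 : PvwLE T (fun i => T.src (pvasIt T s (pvasIt T s a m₂) (n - m₂ - i))) (n - m₂) (pvtArc T s (pvasIt T s a m₂) (n - m₂)).rev := by
    rw [pvjs_le_rev hT hS hb hinj']
    refine pvjs_le_pth_congr (y := pvtArc T s (pvasIt T s a m₂) (n - m₂)) rfl (fun k hk => ?_) h1
    show (pvtArc T s (pvasIt T s a m₂) (n - m₂)).v k = (pvtArc T s (pvasIt T s a m₂) (n - m₂)).v ((pvtArc T s (pvasIt T s a m₂) (n - m₂)).n - ((pvtArc T s (pvasIt T s a m₂) (n - m₂)).n - k))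
    congr 1
    omega
  refine pvjs_le_walk_congr (fun i hi => ?_) h2
  show T.src (pvasIt T s (pvasIt T s a m₂) (n - m₂ - i)) = T.src (pvasIt T s a (n - i))
  rw [← pvas_it_add]
  congr 2
  omega

/-- **TRICHOTOMY** (sandwich of 158 + masks): a vertex of the arc of a run is a bank vertex of the exit stub over `Mp`, or lies over `Yin`, or is a bank vertex of the entrance stub over `Mm'` -/
theorem pvjz_tri (hT : T.IsSph) (hS : T.Simple) {𝔖 𝔖' : PvwSt T} {np nm' : ℕ} {ep em' : ℕ → D} {Mp Mm' Yin : Set ℂ} {y : T.Pth} {n : ℕ}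
    (bw : pvasBW T s 𝔖.dp) (hP : PvjzP T pos s 𝔖 np ep Mp) (hM : PvjzM T pos s 𝔖' nm' em' Mm') (hR : PvjzRun T pos s 𝔖.dp np 𝔖'.dm nm' Yin y n) {k : ℕ} (hk : k ≤ y.n) :
    (pos (y.v k) ∈ Mp ∧ ∃ j, j ≤ np ∧ y.v k = T.src (ep j)) ∨ pos (y.v k) ∈ Yin ∨ (pos (y.v k) ∈ Mm' ∧ ∃ j, j ≤ nm' ∧ y.v k = T.src (em' j)) := by
  classical
  have hle := hR.le
  have hinj := pvjs_inj_of_first bw (n := n) (fun i hi => by rw [hR.hit]; exact hR.first i hi)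
  have hinj1 : ∀ i j, i < np → j < np → pvasIt T s 𝔖.dp i = pvasIt T s 𝔖.dp j → i = j := fun i j hi hj e => hinj i j (by omega) (by omega) e
  have hy₁ := pvt_sd_le hT hS bw hinj1
  obtain ⟨y₂, hy₂⟩ := pvjz_le_back hT hS bw (m₂ := n - nm') (Nat.sub_le _ _) hinj
  have hp : PvwLE T (fun i => T.src (ep i)) np (pvtArc T s 𝔖.dp np) := pvjs_le_walk_congr (fun i hi => by rw [hP.it i hi]) hy₁
  have e : n - (n - nm') = nm' := by omega
  have hm : PvwLE T (fun i => T.src (em' i)) nm' y₂ := by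
    have hy₂' := hy₂
    rw [e] at hy₂'
    exact pvjs_le_walk_congr (fun i hi => by rw [pvjs_tail bw hR.hit i (by omega), hM.it i hi]) hy₂'
  obtain ⟨K, L, c1, c2, c3, c4, -, c6, -, -, c9⟩ := pvjs_sandwich hT hS bw (m₁ := np) (m₂ := n - nm') (by omega) (Nat.sub_le _ _) hinj hR.le_y hy₁ hy₂
  by_cases k1 : k ≤ K
  · left
    rw [c4 k k1]
    refine ⟨hP.mask _ hp _ ⟨k, by omega, rfl⟩, ?_⟩
    obtain ⟨i, hi, ei⟩ := pvt_sd_verts hy₁ ⟨k, by omega, rfl⟩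
    exact ⟨i, hi, by rw [hP.it i hi, ei]⟩
  · by_cases k2 : k + L < y.n
    · right; left
      obtain ⟨t, t1, t2, t3⟩ := c9 k (by omega) k2
      rw [t3]
      exact hR.room t t1 (by omega)
    · right; right
      have e2 : y.v k = y₂.v (y.n - k) := by
        rw [← c6 (y.n - k) (by omega)]
        congr 1
        omega
      rw [e2]
      refine ⟨hM.mask _ hm _ ⟨y.n - k, by omega, rfl⟩, ?_⟩
      obtain ⟨j, -, -, hj, -⟩ := pvjs_le_idx hm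
      obtain ⟨j1, j2, -⟩ := hj (y.n - k) (by omega)
      exact ⟨j (y.n - k), j1, j2.symm⟩

end tri

/-! ## 3. what a link gives to the ring -/

section link

variable {V D : Type} {T : PvMap V D} {pos : V → ℂ} {s : V → Bool} {𝔖 𝔖' : PvwSt T} {z z' : ℂ} {ra rb ra' rb' : ℝ}

/-- **THE ONE-VERTEX FACTS OF A LINK** `𝔖 → 𝔖'` with the arc `y`, vertex mask `A` -/
structure PvjzLk (T : PvMap V D) (pos : V → ℂ) (s : V → Bool) (𝔖 𝔖' : PvwSt T) (y : T.Pth) (z z' : ℂ) (ra ra' : ℝ) (A : Set ℂ) : Prop where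
  v0 : y.v 0 = 𝔖.gp
  vn : y.v y.n = 𝔖'.gm
  inA : ∀ k, k ≤ y.n → pos (y.v k) ∈ A
  far : ∀ k, k ≤ y.n → ra ≤ ‖pos (y.v k) - z‖ ∧ ra' ≤ ‖pos (y.v k) - z'‖
  ins : ∀ k, k ≤ y.n → y.v k ∈ 𝔖.ins → y.v k = 𝔖.gp ∨ y.v k = 𝔖.gm
  ins' : ∀ k, k ≤ y.n → y.v k ∈ 𝔖'.ins → y.v k = 𝔖'.gp ∨ y.v k = 𝔖'.gm
  wall : y.OnWall s 𝔖.dp
  wl : T.Wall s 𝔖.dp 𝔖'.dm

/-- **PRODUCER**: gates, stubs, run + (D2): the room and the far masks miss the two discs `b h` -/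
theorem pvjz_link (hT : T.IsSph) (hS : T.Simple) (G : PvjzG T pos s 𝔖 z ra rb) (G' : PvjzG T pos s 𝔖' z' ra' rb') {np nm' : ℕ} {ep em' : ℕ → D} {Mp Mm' Yin : Set ℂ} {y : T.Pth} {n : ℕ}
    (hP : PvjzP T pos s 𝔖 np ep Mp) (hM : PvjzM T pos s 𝔖' nm' em' Mm') (hR : PvjzRun T pos s 𝔖.dp np 𝔖'.dm nm' Yin y n)
    (hY : ∀ v ∈ Yin, rb ≤ ‖v - z‖ ∧ rb' ≤ ‖v - z'‖) (hMp : ∀ v ∈ Mp, rb' ≤ ‖v - z'‖) (hMm : ∀ v ∈ Mm', rb ≤ ‖v - z‖) :
    PvjzLk T pos s 𝔖 𝔖' y z z' ra ra' (Mp ∪ Yin ∪ Mm') := by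
  have hab := (pvjz_ra_lt hT G).le
  have hab' := (pvjz_ra_lt hT G').le
  have tri := fun k (hk : k ≤ y.n) => pvjz_tri hT hS G.bw_p hP hM hR hk
  have blk : ∀ k, k ≤ y.n → s (y.v k) = true := fun k hk => pvas_layB_black G.bw_p (pvt_sd_verts hR.le_y ⟨k, hk, rfl⟩)
  refine ⟨pvt_sd_v0 hR.le_y, by rw [pvt_sd_vn hR.le_y, hR.hit]; rfl, fun k hk => ?_, fun k hk => ?_, fun k hk hi => ?_, fun k hk hi => ?_, pvow_le_onwall hS G.bw_p hR.le_y, ?_⟩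
  · rcases tri k hk with h | h | h
    · exact Or.inl (Or.inl h.1)
    · exact Or.inl (Or.inr h)
    · exact Or.inr h.1
  · rcases tri k hk with ⟨h1, j, hj, e⟩ | h | ⟨h1, j, hj, e⟩
    · exact ⟨by rw [e]; exact pvjz_off_far hT G (hP.off j hj), hab'.trans (hMp _ h1)⟩
    · exact ⟨hab.trans (hY _ h).1, hab'.trans (hY _ h).2⟩
    · obtain ⟨b1, b2⟩ := pvjz_behind 𝔖' (hM.off j hj)
      exact ⟨hab.trans (hMm _ h1), by rw [e, ← b2]; exact pvjz_off_far hT G' b1⟩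
  · rcases tri k hk with ⟨h1, j, hj, e⟩ | h | ⟨h1, j, hj, e⟩
    · have hb := blk k hk
      rw [e] at hi hb ⊢
      exact pvjz_off_gpm hT G (hP.off j hj) hi hb
    · exact absurd (G.inside _ hi) (not_lt.2 (hY _ h).1)
    · exact absurd (G.inside _ hi) (not_lt.2 (hMm _ h1))
  · rcases tri k hk with ⟨h1, j, hj, e⟩ | h | ⟨h1, j, hj, e⟩
    · exact absurd (G'.inside _ hi) (not_lt.2 (hMp _ h1))
    · exact absurd (G'.inside _ hi) (not_lt.2 (hY _ h).2)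
    · obtain ⟨b1, b2⟩ := pvjz_behind 𝔖' (hM.off j hj)
      have hb := blk k hk
      rw [e, ← b2] at hi hb ⊢
      exact pvjz_off_gpm hT G' b1 hi hb
  · rw [← hR.hit]
    exact pvt_s_it_wall G.bw_p n

end link

/-! ## 4. THE RING `inn . y . inn' . y'` -/

section ring

variable {V D : Type} {T : PvMap V D} {pos : V → ℂ} {s : V → Bool} {𝔖 𝔖' : PvwSt T} {z z' : ℂ} {ra rb ra' rb' : ℝ} {y y' : T.Pth} {A B : Set ℂ}

/-- the closed insides of the two gates are disjoint -/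
theorem pvjz_ins_disj (G : PvjzG T pos s 𝔖 z ra rb) (G' : PvjzG T pos s 𝔖' z' ra' rb') (hzz : rb + rb' ≤ ‖z - z'‖) {v : V} (h : v ∈ 𝔖.ins) (h' : v ∈ 𝔖'.ins) : False := by
  have h1 := G.inside v h
  have h2 := G'.inside v h'
  have h3 : ‖z - z'‖ ≤ ‖pos v - z‖ + ‖pos v - z'‖ := by
    have := norm_sub_le (pos v - z') (pos v - z)
    rw [sub_sub_sub_cancel_left] at this
    linarith
  linarith

/-- **HEADS**: the heads of the darts of two different pieces of the ring are different -/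
theorem pvjz_heads (hT : T.IsSph) (G : PvjzG T pos s 𝔖 z ra rb) (G' : PvjzG T pos s 𝔖' z' ra' rb') (F : PvjzLk T pos s 𝔖 𝔖' y z z' ra ra' A) (F' : PvjzLk T pos s 𝔖' 𝔖 y' z' z ra' ra B)
    (hzz : rb + rb' ≤ ‖z - z'‖) (hAB : ∀ a ∈ A, ∀ b ∈ B, a ≠ b) :
    ([𝔖.inn, y, 𝔖'.inn, y'] : List T.Pth).Pairwise fun p q => ∀ k l, k < p.n → l < q.n → p.v (k + 1) ≠ q.v (l + 1) := by
  -- an inner arc and the arc which leaves it
  have a1 : ∀ {𝔖 𝔖' : PvwSt T} {z z' : ℂ} {ra rb ra' : ℝ} {y : T.Pth} {A : Set ℂ}, PvjzG T pos s 𝔖 z ra rb → PvjzLk T pos s 𝔖 𝔖' y z z' ra ra' A →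
      ∀ k l, k < 𝔖.inn.n → l < y.n → 𝔖.inn.v (k + 1) ≠ y.v (l + 1) := by
    intro 𝔖 𝔖' z z' ra rb ra' y A G F k l hk hl e
    rcases F.ins (l + 1) hl (e ▸ pvjz_inn_ins hT G hk) with h | h
    · have := y.inj (l + 1) 0 hl (Nat.zero_le _) (h.trans F.v0.symm)
      omega
    · have := 𝔖.inn.inj (k + 1) 0 hk (Nat.zero_le _) ((e.trans h).trans (pvjz_inn_v0 G).symm)
      omega
  -- an inner arc and the arc which arrives at it
  have a2 : ∀ {𝔖 𝔖' : PvwSt T} {z z' : ℂ} {ra rb ra' : ℝ} {y y' : T.Pth} {A B : Set ℂ}, PvjzG T pos s 𝔖 z ra rb → PvjzLk T pos s 𝔖 𝔖' y z z' ra ra' A → PvjzLk T pos s 𝔖' 𝔖 y' z' z ra' ra B →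
      (∀ a ∈ A, ∀ b ∈ B, a ≠ b) → ∀ k l, k < 𝔖.inn.n → l < y'.n → 𝔖.inn.v (k + 1) ≠ y'.v (l + 1) := by
    intro 𝔖 𝔖' z z' ra rb ra' y y' A B G F F' hAB k l hk hl e
    rcases F'.ins' (l + 1) hl (e ▸ pvjz_inn_ins hT G hk) with h | h
    · refine hAB _ (F.inA 0 (Nat.zero_le _)) _ (F'.inA (l + 1) hl) ?_
      rw [F.v0, h]
    · have := 𝔖.inn.inj (k + 1) 0 hk (Nat.zero_le _) ((e.trans h).trans (pvjz_inn_v0 G).symm)
      omega
  refine List.Pairwise.cons ?_ (List.Pairwise.cons ?_ (List.Pairwise.cons ?_ (List.Pairwise.cons ?_ List.Pairwise.nil)))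
  · intro q hq
    simp only [List.mem_cons, List.not_mem_nil, or_false] at hq
    rcases hq with rfl | rfl | rfl
    · exact a1 G F
    · exact fun k l hk hl e => pvjz_ins_disj G G' hzz (pvjz_inn_ins hT G hk) (e ▸ pvjz_inn_ins hT G' hl)
    · exact a2 G F F' hAB
  · intro q hq
    simp only [List.mem_cons, List.not_mem_nil, or_false] at hq
    rcases hq with rfl | rfl
    · exact fun k l hk hl e => a2 G' F' F (fun a ha b hb => (hAB b hb a ha).symm) l k hl hk e.symm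
    · exact fun k l hk hl e => hAB _ (F.inA (k + 1) hk) _ (F'.inA (l + 1) hl) (by rw [e])
  · intro q hq
    simp only [List.mem_cons, List.not_mem_nil, or_false] at hq
    subst hq
    exact a1 G' F'
  · intro q hq
    exact absurd hq (List.not_mem_nil)

theorem pvjz_chain (G : PvjzG T pos s 𝔖 z ra rb) (G' : PvjzG T pos s 𝔖' z' ra' rb') (F : PvjzLk T pos s 𝔖 𝔖' y z z' ra ra' A) (F' : PvjzLk T pos s 𝔖' 𝔖 y' z' z ra' ra B) :
    pvowChain T [𝔖.inn, y, 𝔖'.inn, y'] (𝔖.inn.v 0) (𝔖.inn.v 0) :=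
  ⟨rfl, by rw [F.v0, pvjz_inn_vn G], by rw [F.vn, pvjz_inn_v0 G'], by rw [F'.v0, pvjz_inn_vn G'], by rw [F'.vn, pvjz_inn_v0 G]; rfl⟩

theorem pvjz_onwall (hS : T.Simple) (G : PvjzG T pos s 𝔖 z ra rb) (G' : PvjzG T pos s 𝔖' z' ra' rb') (F : PvjzLk T pos s 𝔖 𝔖' y z z' ra ra' A) (F' : PvjzLk T pos s 𝔖' 𝔖 y' z' z ra' ra B) :
    ∀ p ∈ ([𝔖.inn, y, 𝔖'.inn, y'] : List T.Pth), p.OnWall s 𝔖.dm := by
  have w1 := pvjz_gate_wall G
  have w2 := pl_ra_wall_trans w1 F.wl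
  have w3 := pl_ra_wall_trans w2 (pvjz_gate_wall G')
  intro p hp
  simp only [List.mem_cons, List.not_mem_nil, or_false] at hp
  rcases hp with rfl | rfl | rfl | rfl
  · exact pvjz_inn_wall hS G
  · exact pvow_onwall_trans F.wall w1
  · exact pvow_onwall_trans (pvjz_inn_wall hS G') w2
  · exact pvow_onwall_trans F'.wall w3

/-- **THE RING**: one label, `lsum w` = the four `psum w`, EVERY `w` -/
theorem pvjz_ring (hT : T.IsSph) (hS : T.Simple) (G : PvjzG T pos s 𝔖 z ra rb) (G' : PvjzG T pos s 𝔖' z' ra' rb') (F : PvjzLk T pos s 𝔖 𝔖' y z z' ra ra' A) (F' : PvjzLk T pos s 𝔖' 𝔖 y' z' z ra' ra B)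
    (hzz : rb + rb' ≤ ‖z - z'‖) (hAB : ∀ a ∈ A, ∀ b ∈ B, a ≠ b) :
    T.Tag s (T.opp (𝔖.inn.e 0)) ∧ ∀ w : D → ℂ, T.lsum s w (T.opp (𝔖.inn.e 0)) = 𝔖.inn.psum w + y.psum w + 𝔖'.inn.psum w + y'.psum w := by
  have hg : 𝔖.inn.e 0 ∈ pvowDarts [𝔖.inn, y, 𝔖'.inn, y'] := pvow_mem_darts.2 ⟨𝔖.inn, List.mem_cons_self, 0, pvjz_inn_pos G, rfl⟩
  obtain ⟨h1, -, h3⟩ := pvow_ring hT hS (pvjz_chain G G' F F') (pvow_nodup (pvjz_heads hT G G' F F' hzz hAB)) (pvjz_onwall hS G G' F F') hg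
  refine ⟨h1, fun w => ?_⟩
  rw [h3]
  simp only [List.map_cons, List.map_nil, List.sum_cons, List.sum_nil]
  ring

/-- **PRODUCER OF `PvmeEx`** (55): gates + link facts + the halves of the inner arcs beyond `r₀`, `r₀'` + mesh `μ` on `E` + numbers -/
theorem pvjz_ex (hT : T.IsSph) (G : PvjzG T pos s 𝔖 z ra rb) (G' : PvjzG T pos s 𝔖' z' ra' rb') (F : PvjzLk T pos s 𝔖 𝔖' y z z' ra ra' A) (F' : PvjzLk T pos s 𝔖' 𝔖 y' z' z ra' ra B)
    (hzz : rb + rb' ≤ ‖z - z'‖) {μ r r' r₀ r₀' : ℝ} (mu0 : 0 < μ) (sep : ∀ a ∈ A, ∀ b ∈ B, 3 * μ ≤ ‖a - b‖) (hr : r₀ ≤ r - μ) (hr' : r₀' ≤ r' - μ) (cut : r + μ < ra) (cut' : r' + μ < ra')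
    (hip : ∀ i, 𝔖.ip ≤ i → i ≤ 𝔖.inn.n → r₀ < ‖pos (𝔖.inn.v i) - z‖ → pos (𝔖.inn.v i) ∈ A) (him : ∀ i, i ≤ 𝔖.ip → r₀ < ‖pos (𝔖.inn.v i) - z‖ → pos (𝔖.inn.v i) ∈ B)
    (hip' : ∀ i, 𝔖'.ip ≤ i → i ≤ 𝔖'.inn.n → r₀' < ‖pos (𝔖'.inn.v i) - z'‖ → pos (𝔖'.inn.v i) ∈ B) (him' : ∀ i, i ≤ 𝔖'.ip → r₀' < ‖pos (𝔖'.inn.v i) - z'‖ → pos (𝔖'.inn.v i) ∈ A)
    {E : Set ℂ} (hmesh : ∀ d, pos (T.tgt d) ∈ E → ‖T.bary pos d - pos (T.tgt d)‖ ≤ μ) (hA : A ⊆ E) (hB : B ⊆ E) (hb : ∀ v : ℂ, ‖v - z‖ < rb → v ∈ E) (hb' : ∀ v : ℂ, ‖v - z'‖ < rb' → v ∈ E) :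
    PvmeEx T pos 𝔖 𝔖' y y' z r z' r' μ A B := by
  have ms : ∀ (p : T.Pth) k, k < p.n → pos (p.v k) ∈ E → ‖T.bary pos (T.opp (p.e k)) - pos (p.v k)‖ ≤ μ := by
    intro p k hk hE
    have e : T.tgt (T.opp (p.e k)) = p.v k := by rw [T.tgt_opp, p.src_e k hk]
    have := hmesh (T.opp (p.e k)) (by rw [e]; exact hE)
    rwa [e] at this
  have tri : ∀ v : ℂ, ‖z - z'‖ ≤ ‖v - z‖ + ‖v - z'‖ := by
    intro v
    have := norm_sub_le (v - z') (v - z)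
    rw [sub_sub_sub_cancel_left] at this
    linarith
  have hab := pvjz_ra_lt hT G
  have hab' := pvjz_ra_lt hT G'
  exact
    { mu0 := mu0
      mesh_i := fun k hk => ms _ k hk (hb _ (G.inside _ (pvjz_inn_ins hT G hk.le)))
      mesh_y := fun k hk => ms _ k hk (hA (F.inA k hk.le))
      mesh_i' := fun k hk => ms _ k hk (hb' _ (G'.inside _ (pvjz_inn_ins hT G' hk.le)))
      mesh_y' := fun k hk => ms _ k hk (hB (F'.inA k hk.le))
      sep := sep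
      inn_p := fun k h1 h2 h3 => hip k h1 h2.le (by linarith)
      inn_m := fun k h1 h3 => him k h1.le (by linarith)
      inn_p' := fun k h1 h2 h3 => hip' k h1 h2.le (by linarith)
      inn_m' := fun k h1 h3 => him' k h1.le (by linarith)
      y_in := fun k hk => F.inA k hk.le
      y_in' := fun k hk => F'.inA k hk.le
      y_far := fun k hk => ⟨by linarith [(F.far k hk.le).1], by linarith [(F.far k hk.le).2]⟩
      y_far' := fun k hk => by linarith [(F'.far k hk.le).2]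
      i_far := fun k hk => by linarith [G.inside _ (pvjz_inn_ins hT G hk.le), tri (pos (𝔖.inn.v k))]
      i_far' := fun k hk => by linarith [G'.inside _ (pvjz_inn_ins hT G' hk.le), tri (pos (𝔖'.inn.v k))] }

/-- **ONE LABEL, ONE MASK** (model free): the four `pvwMass` terms of the value of the link `=` the mass of ONE label in the mask `pvmeM` -/
theorem pvjz_one (hT : T.IsSph) (hS : T.Simple) (G : PvjzG T pos s 𝔖 z ra rb) (G' : PvjzG T pos s 𝔖' z' ra' rb') (F : PvjzLk T pos s 𝔖 𝔖' y z z' ra ra' A) (F' : PvjzLk T pos s 𝔖' 𝔖 y' z' z ra' ra B)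
    (hzz : rb + rb' ≤ ‖z - z'‖) {μ r r' : ℝ} (hEx : PvmeEx T pos 𝔖 𝔖' y y' z r z' r' μ A B) :
    PvjkOne T s pos (pvmeM z r z' r' μ A) fun w =>
      pvwMass T pos w (closedBall z r) 𝔖.inn 0 𝔖.inn.n + pvwMass T pos w (closedBall z r ∪ closedBall z' r')ᶜ 𝔖.inn 𝔖.ip 𝔖.inn.n +
        pvwMass T pos w (closedBall z r ∪ closedBall z' r')ᶜ y 0 y.n + pvwMass T pos w (closedBall z r ∪ closedBall z' r')ᶜ 𝔖'.inn 0 𝔖'.ip := by
  have hAB : ∀ a ∈ A, ∀ b ∈ B, a ≠ b := by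
    intro a ha b hb e
    have := hEx.sep a ha b hb
    rw [e, sub_self, norm_zero] at this
    linarith [hEx.mu0]
  obtain ⟨h1, h2⟩ := pvjz_ring hT hS G G' F F' hzz hAB
  refine ⟨_, h1, fun w => ?_⟩
  rw [h2]
  beta_reduce
  rw [pvme_exact hEx G.ip_le G'.ip_le w, pvme_mass_psum, pvme_mass_psum, pvme_mass_psum, pvme_mass_psum]

end ring

/-! ## 5. AT THE DEFINITIONS OF RECORD (`Tr/InstL` of 168, contract `PvjkCl` of 132) -/

section model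

/-- **THE DESIGN LINES** (D1)-(D3) of 55 for the closed pair `L : u → t`, `L' : t → u`; `μ` = mesh of the tags, `E` = where the mesh is known -/
structure PvjzDes (L L' : PvilLk) (N : PvwNum) (μ : ℝ) (E : Set ℂ) : Prop where
  mu0 : 0 < μ
  mu_h : μ ≤ L.p.h
  mu_h' : μ ≤ L.p'.h
  /-- (D3) the cut-off discs are well inside the gates -/
  cut : N.m * L.p.h + μ < L.p.ty.a * L.p.h
  cut' : N.m * L.p'.h + μ < L.p'.ty.a * L.p'.h
  /-- the two core discs are disjoint -/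
  zz : L.p.ty.b * L.p.h + L.p'.ty.b * L.p'.h ≤ ‖L.p.z - L.p'.z‖
  /-- (D1) SEP, metric form -/
  sep : ∀ a ∈ L.p.Mp ∪ L.Yin ∪ L.p'.Mm, ∀ b ∈ L.p'.Mp ∪ L'.Yin ∪ L.p.Mm, 3 * μ ≤ ‖a - b‖
  /-- (D2) the rooms miss the two core discs, the masks of a plug miss the core disc of the other plug -/
  Y_far : ∀ v ∈ L.Yin ∪ L'.Yin, L.p.ty.b * L.p.h ≤ ‖v - L.p.z‖ ∧ L.p'.ty.b * L.p'.h ≤ ‖v - L.p'.z‖
  M_far : ∀ v ∈ L.p.Mp ∪ L.p.Mm, L.p'.ty.b * L.p'.h ≤ ‖v - L.p'.z‖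
  M_far' : ∀ v ∈ L.p'.Mp ∪ L.p'.Mm, L.p.ty.b * L.p.h ≤ ‖v - L.p.z‖
  /-- everything lies where the mesh is known -/
  sub_A : L.p.Mp ∪ L.Yin ∪ L.p'.Mm ⊆ E
  sub_B : L.p'.Mp ∪ L'.Yin ∪ L.p.Mm ⊆ E
  sub_b : ball L.p.z (L.p.ty.b * L.p.h) ⊆ E
  sub_b' : ball L.p'.z (L.p'.ty.b * L.p'.h) ⊆ E

/-- **THE MASK OF THE LINK** at the names of record -/
def pvjzM (L : PvilLk) (N : PvwNum) (μ : ℝ) : Set ℂ := pvmeM L.p.z (N.m * L.p.h) L.p'.z (N.m * L.p'.h) μ (L.p.Mp ∪ L.Yin ∪ L.p'.Mm)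

/-- MESH OF THE TAGS on `E`: the barycentre of a face is within `μ` of the head of its dart, as soon as this head lies in `E`      (conclusion of `pvme_mesh_tag` of 55) -/
def PvjzMesh (μ : ℝ) (E : Set ℂ) (η : Conf PvPt) : Prop := ∀ d, pviePos η ((pvieT η).tgt d) ∈ E → ‖(pvieT η).bary (pviePos η) d - pviePos η ((pvieT η).tgt d)‖ ≤ μ

theorem pvjz_eqns_cite : True := by
  have := @pvjzM.eq_1; have := @PvjzMesh.eq_1
  trivial

theorem pvjz_M_meas (L : PvilLk) (N : PvwNum) (μ : ℝ) : MeasurableSet (pvjzM L N μ) := pvme_M_meas _ _ _ _ _ _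

/-- the frame of a plug is an isometry -/
theorem pvjz_iso {p : PvilPl} (hfr : ‖p.fr‖ = 1) (η : Conf PvPt) (v : ↥(pvieY η)) : ‖p.pos η v - p.zf‖ = ‖pviePos η v - p.z‖ := by
  have e : p.pos η v - p.zf = (starRingEnd ℂ) p.fr * (pviePos η v - p.z) := by
    unfold PvilPl.pos PvilPl.zf
    ring
  rw [e, norm_mul, RCLike.norm_conj, hfr, one_mul]

/-- the value of a link between two marked ends, mask `univ` = the four terms of `pvme_exact` -/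
theorem pvjz_val_eq {L : PvilLk} (hdr : L.dr = false) (hdr' : L.dr' = false) (hMk : L.Mk = univ) (N : PvwNum) (η : Conf PvPt) (w : (delbPl (pvieY η)).Dart → ℂ) (𝔖 𝔖' : PvwSt (pvieT η)) (y : (pvieT η).Pth) :
    L.val N η w 𝔖 𝔖' y =
      pvwMass (pvieT η) (pviePos η) w (closedBall L.p.z (N.m * L.p.h)) 𝔖.inn 0 𝔖.inn.n + pvwMass (pvieT η) (pviePos η) w (closedBall L.p.z (N.m * L.p.h) ∪ closedBall L.p'.z (N.m * L.p'.h))ᶜ 𝔖.inn 𝔖.ip 𝔖.inn.n +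
        pvwMass (pvieT η) (pviePos η) w (closedBall L.p.z (N.m * L.p.h) ∪ closedBall L.p'.z (N.m * L.p'.h))ᶜ y 0 y.n +
        pvwMass (pvieT η) (pviePos η) w (closedBall L.p.z (N.m * L.p.h) ∪ closedBall L.p'.z (N.m * L.p'.h))ᶜ 𝔖'.inn 0 𝔖'.ip := by
  have e : L.msk N = (closedBall L.p.z (N.m * L.p.h) ∪ closedBall L.p'.z (N.m * L.p'.h))ᶜ := by
    unfold PvilLk.msk PvilLk.ball PvilLk.ball'
    rw [hdr, hdr', hMk, compl_eq_univ_sdiff]
    simp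
  unfold PvilLk.val
  rw [e, hdr, hdr']
  simp [PvilLk.ball]

variable {L L' : PvilLk} {N : PvwNum} {b : Bool} {η : Conf PvPt} {𝔘 𝔗 𝔗' 𝔘' : PvwSt (pvieT η)} {y y' : (pvieT η).Pth} {μ : ℝ} {E : Set ℂ}

/-- **THE DETERMINISTIC CLOSING AT ONE CONFIGURATION**: closed pair + design + mesh of the tags ⟹ the value of the link is the mass of ONE label in the mask `pvjzM` -/
theorem pvjz_pair_one (hp : L'.p = L.p') (hp' : L'.p' = L.p) (hfr : ‖L.p.fr‖ = 1) (hfr' : ‖L.p'.fr‖ = 1) (hdr : L.dr = false) (hdr' : L.dr' = false) (hdc : L'.dr = false) (hdc' : L'.dr' = false) (hMk : L.Mk = univ)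
    (hD : PvjzDes L L' N μ E) (hm : PvjzMesh μ E η) (H : PvjkPair L L' N b η 𝔘 𝔗 𝔗' 𝔘' y y') :
    PvjkOne (pvieT η) (pvieCol η b) (pviePos η) (pvjzM L N μ) (fun w => L.val N η w 𝔘 𝔗 y) := by
  have hT := H.sph
  have hS := H.simple
  have cu := (PvilLk.atP_pin hdr N b η 𝔘).1 H.e.at_p
  have ct := (PvilLk.atP'_pin hdr' N b η 𝔗).1 H.e.at_p'
  have ct' := (PvilLk.atP_pin hdc N b η 𝔗').1 H.c.at_p
  have cu' := (PvilLk.atP'_pin hdc' N b η 𝔘').1 H.c.at_p'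
  rw [hp] at ct'
  rw [hp'] at cu'
  have G : PvjzG (pvieT η) (pviePos η) (pvieCol η b) 𝔘 L.p.z (L.p.ty.a * L.p.h) (L.p.ty.b * L.p.h) := PvjzG.of_gate hT cu.st.gate (pvjz_iso hfr η)
  have G' : PvjzG (pvieT η) (pviePos η) (pvieCol η b) 𝔗 L.p'.z (L.p'.ty.a * L.p'.h) (L.p'.ty.b * L.p'.h) := PvjzG.of_gate hT ct.st.gate (pvjz_iso hfr' η)
  obtain ⟨n, hr, hle⟩ := H.e.run
  obtain ⟨n', hr', hle'⟩ := H.c.run
  have F : PvjzLk (pvieT η) (pviePos η) (pvieCol η b) 𝔘 𝔗 y L.p.z L.p'.z (L.p.ty.a * L.p.h) (L.p'.ty.a * L.p'.h) (L.p.Mp ∪ L.Yin ∪ L.p'.Mm) :=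
    pvjz_link hT hS G G' (np := 𝔘.np) (ep := 𝔘.ep) (nm' := 𝔗.nm) (em' := 𝔗.em) (n := n) ⟨cu.st.stub.ep_it, cu.st.good.off_p, cu.mask⟩ ⟨ct.st.stub.em_it, ct.st.good.off_m, ct.mask⟩
      ⟨hr.1, hr.2.1, hr.2.2.1, fun i h1 h2 => (hr.2.2.2 i h1 h2).1, hle⟩
      (fun v hv => hD.Y_far v (Or.inl hv)) (fun v hv => hD.M_far v (Or.inl hv)) (fun v hv => hD.M_far' v (Or.inr hv))
  have F' : PvjzLk (pvieT η) (pviePos η) (pvieCol η b) 𝔗 𝔘 y' L.p'.z L.p.z (L.p'.ty.a * L.p'.h) (L.p.ty.a * L.p.h) (L.p'.Mp ∪ L'.Yin ∪ L.p.Mm) := by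
    refine pvjz_link hT hS G' G (np := 𝔗'.np) (ep := 𝔗'.ep) (nm' := 𝔘'.nm) (em' := 𝔘'.em) (n := n') ⟨?_, ?_, ct'.mask⟩ ⟨?_, ?_, cu'.mask⟩ ⟨hr'.1, ?_, ?_, ?_, ?_⟩
      (fun v hv => (hD.Y_far v (Or.inr hv)).symm) (fun v hv => hD.M_far' v (Or.inl hv)) (fun v hv => hD.M_far v (Or.inr hv))
    · rw [← H.gt.dp]; exact ct'.st.stub.ep_it
    · rw [← H.gt.left]; exact ct'.st.good.off_p
    · rw [H.gu.dm]; exact cu'.st.stub.em_it
    · rw [H.gu.left]; exact cu'.st.good.off_m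
    · rw [← H.gt.dp, H.gu.dm]; exact hr'.2.1
    · rw [← H.gt.dp, H.gu.dm]; exact hr'.2.2.1
    · rw [← H.gt.dp]; exact fun i h1 h2 => (hr'.2.2.2 i h1 h2).1
    · rw [← H.gt.dp]; exact hle'
  have hEx : PvmeEx (pvieT η) (pviePos η) 𝔘 𝔗 y y' L.p.z (N.m * L.p.h) L.p'.z (N.m * L.p'.h) μ (L.p.Mp ∪ L.Yin ∪ L.p'.Mm) (L.p'.Mp ∪ L'.Yin ∪ L.p.Mm) := by
    refine pvjz_ex hT G G' F F' hD.zz (r₀ := (N.m - 1) * L.p.h) (r₀' := (N.m - 1) * L.p'.h) hD.mu0 hD.sep (by linarith [hD.mu_h]) (by linarith [hD.mu_h']) hD.cut hD.cut' ?_ ?_ ?_ ?_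
      hm hD.sub_A hD.sub_B (fun v hv => hD.sub_b (by rw [mem_ball, dist_eq_norm]; exact hv)) (fun v hv => hD.sub_b' (by rw [mem_ball, dist_eq_norm]; exact hv))
    · exact fun i h1 h2 h3 => Or.inl (Or.inl (cu.mask_i i h1 h2 h3))
    · intro i h1 h3
      have h4 : i ≤ 𝔘.inn.n := h1.trans G.ip_le
      rw [H.gu.inn_v i h4] at h3 ⊢
      exact Or.inr (cu'.mask_i i (H.gu.ip ▸ h1) h3)
    · intro i h1 h2 h3
      have h4 : i ≤ 𝔗'.inn.n := H.gt.inn_n ▸ h2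
      rw [← H.gt.inn_v i h4] at h3 ⊢
      exact Or.inl (Or.inl (ct'.mask_i i (H.gt.ip ▸ h1) h4 h3))
    · exact fun i h1 h3 => Or.inr (ct.mask_i i h1 h3)
  have key := pvjz_one hT hS G G' F F' hD.zz hEx
  have e : (fun w => L.val N η w 𝔘 𝔗 y) = fun w =>
      pvwMass (pvieT η) (pviePos η) w (closedBall L.p.z (N.m * L.p.h)) 𝔘.inn 0 𝔘.inn.n + pvwMass (pvieT η) (pviePos η) w (closedBall L.p.z (N.m * L.p.h) ∪ closedBall L.p'.z (N.m * L.p'.h))ᶜ 𝔘.inn 𝔘.ip 𝔘.inn.n +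
        pvwMass (pvieT η) (pviePos η) w (closedBall L.p.z (N.m * L.p.h) ∪ closedBall L.p'.z (N.m * L.p'.h))ᶜ y 0 y.n +
        pvwMass (pvieT η) (pviePos η) w (closedBall L.p.z (N.m * L.p.h) ∪ closedBall L.p'.z (N.m * L.p'.h))ᶜ 𝔗.inn 0 𝔗.ip :=
    funext fun w => pvjz_val_eq hdr hdr' hMk N η w 𝔘 𝔗 y
  rw [e]
  exact key

/-- **THE CONTRACT `PvjkCl` OF 132, UNDER MESH** -/
theorem pvjz_cl (hp : L'.p = L.p') (hp' : L'.p' = L.p) (hfr : ‖L.p.fr‖ = 1) (hfr' : ‖L.p'.fr‖ = 1) (hdr : L.dr = false) (hdr' : L.dr' = false) (hdc : L'.dr = false) (hdc' : L'.dr' = false) (hMk : L.Mk = univ)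
    (hD : PvjzDes L L' N μ E) (hm : PvjzMesh μ E η) : PvjkCl L L' N b (pvjzM L N μ) η :=
  fun _ _ _ _ _ _ H => pvjz_pair_one hp hp' hfr hfr' hdr hdr' hdc hdc' hMk hD hm H

end model

/-! ## 6. mesh, translation of the mask -/

section tools

/-- the mesh of the tags from the mesh event of the window `U` (`pvme_mesh_all` of 55) -/
theorem pvjz_mesh_of {η : Conf PvPt} {U E : Set ℂ} {ρ μ : ℝ} (hρ : 0 < ρ) (hμ : 4 * ρ / 3 ≤ μ) (hm : PvtrMesh ρ U (cfSites η)) (hE : E ⊆ pvtrCore (3 * ρ) U) : PvjzMesh μ E η :=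
  pvme_mesh_all hρ hμ hm hE

theorem pvjz_mesh_union {η : Conf PvPt} {E E' : Set ℂ} {μ : ℝ} (h : PvjzMesh μ E η) (h' : PvjzMesh μ E' η) : PvjzMesh μ (E ∪ E') η :=
  fun d hd => hd.elim (h d) (h' d)

theorem pvjz_mesh_mono {η : Conf PvPt} {E E' : Set ℂ} {μ μ' : ℝ} (hE : E' ⊆ E) (hμ : μ ≤ μ') (h : PvjzMesh μ E η) : PvjzMesh μ' E' η :=
  fun d hd => (h d (hE hd)).trans hμ

theorem pvjz_mem_sh {z x : ℂ} {S : Set ℂ} : x ∈ pvieSh z S ↔ x - z ∈ S := by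
  unfold pvieSh
  constructor
  · rintro ⟨w, hw, rfl⟩
    rwa [add_sub_cancel_left]
  · exact fun h => ⟨x - z, h, by ring⟩

/-- **the mask is translation covariant** (masks of record are typed relative to the centre of the pin) -/
theorem pvjz_sh_M (z c : ℂ) (r : ℝ) (c' : ℂ) (r' μ : ℝ) (A : Set ℂ) : pvieSh z (pvmeM c r c' r' μ A) = pvmeM (z + c) r (z + c') r' μ (pvieSh z A) := by
  ext x
  rw [pvjz_mem_sh]
  unfold pvmeM
  have e1 : ∀ (c : ℂ) (r : ℝ), x - z ∈ closedBall c r ↔ x ∈ closedBall (z + c) r := by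
    intro c r
    rw [mem_closedBall, mem_closedBall, dist_eq_norm, dist_eq_norm, sub_sub]
  have e2 : x - z ∈ thickening (2 * μ) A ↔ x ∈ thickening (2 * μ) (pvieSh z A) := by
    rw [mem_thickening_iff, mem_thickening_iff]
    constructor
    · rintro ⟨a, ha, h⟩
      refine ⟨z + a, pvjz_mem_sh.2 (by rwa [add_sub_cancel_left]), ?_⟩
      rwa [dist_eq_norm, ← sub_sub, ← dist_eq_norm]
    · rintro ⟨a, ha, h⟩
      refine ⟨a - z, pvjz_mem_sh.1 ha, ?_⟩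
      rwa [dist_eq_norm, sub_sub_sub_cancel_right, ← dist_eq_norm]
  rw [mem_union, mem_union, mem_sdiff, mem_sdiff, e1, e1, e2]

end tools

/-! ## 7. the a.e. layer, UNDER MESH (the layer of 132 with the cure of 55: the plain events contain the mesh of their windows) -/

section ae

open MeasureTheory

variable {ε : ℝ} {L L' : PvilLk} {N : PvwNum} {b : Bool} {μ : ℝ} {E : Set ℂ}

theorem pvjz_fr_ne {p : PvilPl} (hfr : ‖p.fr‖ = 1) : p.fr ≠ 0 := fun h => by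
  rw [h, norm_zero] at hfr
  exact zero_ne_one hfr

/-- **RECOGNITION, PLAIN EVENTS, UNDER MESH**: one raw tag for all the weights -/
theorem pvjz_recog (hε : 0 < ε) (hp : L'.p = L.p') (hp' : L'.p' = L.p) (hfr : ‖L.p.fr‖ = 1) (hfr' : ‖L.p'.fr‖ = 1) (hdr : L.dr = false) (hdr' : L.dr' = false) (hdc : L'.dr = false) (hdc' : L'.dr' = false) (hMk : L.Mk = univ)
    (hD : PvjzDes L L' N μ E) :
    ∀ᵐ η ∂pvP ε, PvjzMesh μ E η → η ∈ L.A N b → η ∈ L'.A N b →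
      ∃ x, pvbeTag (pvktFl b η) x ∧ ∀ (W : Set ℂ → ℂ × ℂ → ℂ) (w : ∀ η : Conf PvPt, (delbPl (pvieY η)).Dart → ℂ), PvjkWt W w → L.X N b w η = pvbeLab W ((pvjzM L N μ).indicator 1) (pvktFl b η) x := by
  filter_upwards [pvqf_good_ae ε hε.ne'] with η h1 hm hA hA'
  exact pvjk_at_pair ⟨hp, hp', hdc.trans hdr'.symm, hdc'.trans hdr.symm, pvjz_fr_ne hfr, pvjz_fr_ne hfr'⟩ h1 (pvjz_cl hp hp' hfr hfr' hdr hdr' hdc hdc' hMk hD hm) hA hA'

/-- **RECOGNITION, SOFT EVENTS, UNDER MESH** (`pvilSure`, `pvilLoc` of 168; a countable family of indices at once).      `Me i ⊆` plain success of the link, `Mf i ⊆` plain success of the return;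
`hms`: on `Me i ∩ Mf i` the tags over `E` have mesh `μ` (each plain event contains the mesh of its own window: `pvjz_mesh_of`, `pvjz_mesh_union`). -/
theorem pvjz_recog_soft (hε : 0 < ε) (hp : L'.p = L.p') (hp' : L'.p' = L.p) (hfr : ‖L.p.fr‖ = 1) (hfr' : ‖L.p'.fr‖ = 1) (hdr : L.dr = false) (hdr' : L.dr' = false) (hdc : L'.dr = false) (hdc' : L'.dr' = false) (hMk : L.Mk = univ)
    (hD : PvjzDes L L' N μ E) {W : Set ℂ → ℂ × ℂ → ℂ} {w : ∀ η : Conf PvPt, (delbPl (pvieY η)).Dart → ℂ} (hWt : PvjkWt W w)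
    {ι : Type*} [Countable ι] {Wn Wn' : ι → Set ℂ} (hW : ∀ i, MeasurableSet (Wn i)) (hW' : ∀ i, MeasurableSet (Wn' i)) {Me Mf : ι → Set (Conf PvPt)}
    (hMe : ∀ i, Me i ⊆ L.A N b) (hMf : ∀ i, Mf i ⊆ L'.A N b) (hms : ∀ i η, η ∈ Me i → η ∈ Mf i → PvjzMesh μ E η)
    (nE : ∀ i, NullMeasurableSet (Me i) (pvP ε)) (nF : ∀ i, NullMeasurableSet (Mf i) (pvP ε))
    (mX : ∀ i, AEMeasurable ((Me i).indicator (L.X N b w)) (pvP ε)) (dX : ∀ i, PvsuDet (pvP ε) (Wn i ×ˢ univ) (Me i) ((Me i).indicator (L.X N b w))) :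
    ∀ᵐ η ∂pvP ε, ∀ i, η ∈ pvilSure ε (Wn i) (Me i) → η ∈ pvilSure ε (Wn' i) (Mf i) →
      ∃ x, pvbeTag (pvktFl b η) x ∧ pvilLoc ε (Wn i) (Me i) (L.X N b w) η = pvbeLab W ((pvjzM L N μ).indicator 1) (pvktFl b η) x := by
  refine pvjk_soft (Wn := fun i => Wn i ×ˢ univ) (Wn' := fun i => Wn' i ×ˢ univ) (fun i => (hW i).prod MeasurableSet.univ) (fun i => (hW' i).prod MeasurableSet.univ) nE nF mX dX
    (P := fun _ η v => ∃ x, pvbeTag (pvktFl b η) x ∧ v = pvbeLab W ((pvjzM L N μ).indicator 1) (pvktFl b η) x) fun i => ?_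
  filter_upwards [pvjz_recog (b := b) hε hp hp' hfr hfr' hdr hdr' hdc hdc' hMk hD] with η h1 hA hA'
  obtain ⟨x, hx, e⟩ := h1 (hms i η hA hA') (hMe i hA) (hMf i hA')
  exact ⟨x, hx, by rw [indicator_of_mem hA]; exact e W w hWt⟩

end ae

end Claimed.Agent.R289
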