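-- KEEP
import Claimed.Agent.R289.Tr.CycC2M
import Claimed.Agent.R289.Tr.LinkRec
import Claimed.Agent.R289.Tr.MaskR

/-!
# Row 289 (S0537), THE WALL, ROAD E, Tr/CycC3 : (T) THE TAGS OF THE THREE SPECIAL ARCS OF THE `Σ₁` CYCLE LIE IN THEIR MASKS      (helper48; prefix `pvcy3_`, `pvcy3`, `Pvcy3`)

WHAT.   the hypotheses `t0 tr te` of `PvdwArcs.restT` of 42 (`Tr/CycC2M` sec. 9, form (T)).
HOW.    NO MESH AT THE DOOR PLANES, NO MARGIN.   `pvlc_tag` of 70 (`Tr/LinkVal`): a tag of `LE (black bank)` of a strand is the face crossed at a time `t`: its three vertices are ends of the positions `t`, `t + 1`: they lie over the room of the link.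
A face with its three vertices in a CONVEX part of the mask has its barycentre in the mask.   The mesh is used only to make a face small: if one vertex `v` lies in the `3ρ`-core of a window with the mesh `ρ`, the two others are within `2ρ` of `v`.
* sec. 1  model free: `pvcy3Z R M r` (zone), `Pvcy3Rm T pos R1 R2 C1 M` (rooms), **`pvcy3_tri`** (one face), **`pvcy3_arc`** (the tags of an arc)
* sec. 2  at a configuration: **`Pvcy3Lk η R1 R2 C1 M`** = WHAT THE PENS OF THE REGIONS PROVE, ONE RECORD PER LINK:   `R1 ⊆ C1 ⊆ M`, `C1` convex (no mesh);   every `v ∈ R2`: some mesh `(ρ, U)` with `v ∈ pvtrCore (3ρ) U` and `(R1 ∪ R2) ∩ closedBall v (2ρ)` in a convex part of `M`;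
          `pvcy3Fo`, `pvcy3Fi` = the reduced frozen positions of a half state (frozen, own-level box, `≥ a h` from the centre), `pvcy3_out_ends`, `pvcy3_in_ends` (BOTH ends of ALL the positions of a stub)
* sec. 3  `pvcy3_first` (pin → door), `pvcy3_last` (door → pin), `pvcy3_mid` (door → door)
* sec. 4  **`pvcy3_y0`, `pvcy3_yr`, `pvcy3_ye`** at the normal form `PvdwArcs` of 42, **`pvcy3_rest`** = `PvdwArcs.restT` with `t0 tr te` paid by three records `Pvcy3Lk`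
-/

set_option autoImplicit false

namespace Claimed.Agent.R289

open Set Metric
open scoped ComplexConjugate

/-! ## 1. model free: where the barycentre of a face is -/

section core

variable {V D : Type} {T : PvMap V D} {s : V → Bool} {pos : V → ℂ}

/-- **THE ZONE** of the room `R`, the mask `M`, the size `r`: the points `v` such that the part of the room within `r` of `v` lies in a convex part of the mask -/
def pvcy3Z (R M : Set ℂ) (r : ℝ) : Set ℂ := {v | ∃ C, Convex ℝ C ∧ C ⊆ M ∧ R ∩ closedBall v r ⊆ C}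

/-- **THE ROOMS OF THE TAGS OF AN ARC**: `R1` = the part of the room which needs NO MESH (it lies in ONE convex part `C1` of the mask), `R2` = the part where the edges are short and the room is locally in a convex part of the mask -/
structure Pvcy3Rm (T : PvMap V D) (pos : V → ℂ) (R1 R2 C1 M : Set ℂ) : Prop where
  cvx : Convex ℝ C1
  r1 : R1 ⊆ C1
  c1 : C1 ⊆ M
  fine : ∀ u : V, pos u ∈ R2 → ∃ r, (∀ d, T.src d = u → ‖pos (T.tgt d) - pos u‖ ≤ r) ∧ pos u ∈ pvcy3Z (R1 ∪ R2) M r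

theorem pvcy3_eqns_cite : True := by
  have := @pvcy3Z.eq_1
  trivial

variable {R1 R2 C1 M : Set ℂ}

/-- one vertex of the face in `R2` -/
theorem pvcy3_tri_aux (G : Pvcy3Rm T pos R1 R2 C1 M) {a b c : V} (ha : pos a ∈ R2) (hb : pos b ∈ R1 ∪ R2) (hc : pos c ∈ R1 ∪ R2)
    (hab : ∃ d, T.src d = a ∧ T.tgt d = b) (hac : ∃ d, T.src d = a ∧ T.tgt d = c) : ∃ C, Convex ℝ C ∧ C ⊆ M ∧ pos a ∈ C ∧ pos b ∈ C ∧ pos c ∈ C := by
  obtain ⟨r, hr, C, h1, h2, h3⟩ := G.fine a ha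
  obtain ⟨d, e1, e2⟩ := hab
  obtain ⟨d', e3, e4⟩ := hac
  have hb' := hr d e1
  have hc' := hr d' e3
  rw [e2] at hb'
  rw [e4] at hc'
  have r0 : 0 ≤ r := (norm_nonneg _).trans hb'
  exact ⟨C, h1, h2, h3 ⟨Or.inr ha, mem_closedBall_self r0⟩, h3 ⟨hb, by rw [mem_closedBall, dist_eq_norm]; exact hb'⟩, h3 ⟨hc, by rw [mem_closedBall, dist_eq_norm]; exact hc'⟩⟩

/-- **THE BARYCENTRE OF A FACE WITH ITS THREE VERTICES OVER THE ROOM LIES IN THE MASK** -/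
theorem pvcy3_tri (G : Pvcy3Rm T pos R1 R2 C1 M) (d : D) (h1 : pos (T.src d) ∈ R1 ∪ R2) (h2 : pos (T.tgt d) ∈ R1 ∪ R2) (h3 : pos (T.apex d) ∈ R1 ∪ R2) : T.bary pos d ∈ M := by
  unfold PvMap.bary
  by_cases c1 : pos (T.src d) ∈ R2
  · obtain ⟨C, k1, k2, k3, k4, k5⟩ := pvcy3_tri_aux G c1 h2 h3 ⟨d, rfl, rfl⟩ ⟨T.opp (T.nxt (T.nxt d)), by rw [T.src_opp', T.tgt_nxt2], by rw [T.tgt_opp, T.src_nxt2]⟩
    exact k2 (pvki_bary_convex k1 k3 k4 k5)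
  by_cases c2 : pos (T.tgt d) ∈ R2
  · obtain ⟨C, k1, k2, k3, k4, k5⟩ := pvcy3_tri_aux G c2 h1 h3 ⟨T.opp d, T.src_opp' d, T.tgt_opp d⟩ ⟨T.nxt d, rfl, rfl⟩
    exact k2 (pvki_bary_convex k1 k4 k3 k5)
  by_cases c3 : pos (T.apex d) ∈ R2
  · obtain ⟨C, k1, k2, k3, k4, k5⟩ := pvcy3_tri_aux G c3 h1 h2 ⟨T.nxt (T.nxt d), rfl, T.tgt_nxt2 d⟩ ⟨T.opp (T.nxt d), by rw [T.src_opp', T.tgt_nxt], by rw [T.tgt_opp, T.src_nxt]⟩
    exact k2 (pvki_bary_convex k1 k4 k5 k3)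
  exact G.c1 (pvki_bary_convex G.cvx (G.r1 (h1.resolve_right c1)) (G.r1 (h2.resolve_right c2)) (G.r1 (h3.resolve_right c3)))

/-- **THE TAGS OF THE ARC OF A STRAND**: the black bank over the room, at every time one of the two white ends over the room -/
theorem pvcy3_arc (hS : T.Simple) (G : Pvcy3Rm T pos R1 R2 C1 M) {a b : D} {n : ℕ} {y : T.Pth} (h : PvlcArc T s a b n y)
    (hb : ∀ t, t ≤ n → pos (T.src (pvasIt T s a t)) ∈ R1 ∪ R2) (hw : ∀ t, t < n → pos (T.tgt (pvasIt T s a t)) ∈ R1 ∪ R2 ∨ pos (T.tgt (pvasIt T s a (t + 1))) ∈ R1 ∪ R2)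
    {k : ℕ} (hk : k < y.n) : T.bary pos (T.opp (y.e k)) ∈ M := by
  obtain ⟨t, ht, e1, e2, e3, e4⟩ := pvlc_tag hS h hk
  refine pvcy3_tri G _ (by rw [e1]; exact hb _ ht) (by rw [e2]; exact hb _ ht.le) ?_
  rcases hw t ht with h' | h'
  · rw [e3]; exact h'
  · rw [e4]; exact h'

/-- smaller rooms, larger mask -/
theorem Pvcy3Rm.conv {C : Set ℂ} (hC : Convex ℝ C) (hM : C ⊆ M) : Pvcy3Rm T pos C ∅ C M where
  cvx := hC
  r1 := Subset.rfl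
  c1 := hM
  fine _ hu := absurd hu (notMem_empty _)

end core

/-! ## 2. at a configuration: rooms from meshes, the reduced frozen positions of a half state -/

section conf

variable {η : Conf PvPt} {R1 R2 C1 M : Set ℂ}

/-- **THE ROOMS OF THE TAGS OF A LINK AT A CONFIGURATION**: `R1` in ONE convex part of the mask (NO MESH);   every point `v` of `R2` lies in the `3ρ`-core of a window `U` with the mesh `ρ` (ANY inventory of meshes, the pair `(ρ, U)` depends on `v`),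
and the part of the room within `2ρ` of `v` lies in a convex part of the mask -/
structure Pvcy3Lk (η : Conf PvPt) (R1 R2 C1 M : Set ℂ) : Prop where
  cvx : Convex ℝ C1
  r1 : R1 ⊆ C1
  c1 : C1 ⊆ M
  fine : ∀ v ∈ R2, ∃ (ρ : ℝ) (U : Set ℂ), 0 < ρ ∧ PvtrMesh ρ U (cfSites η) ∧ v ∈ pvtrCore (3 * ρ) U ∧ v ∈ pvcy3Z (R1 ∪ R2) M (2 * ρ)

theorem Pvcy3Lk.rm (G : Pvcy3Lk η R1 R2 C1 M) : Pvcy3Rm (pvieT η) (pviePos η) R1 R2 C1 M where
  cvx := G.cvx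
  r1 := G.r1
  c1 := G.c1
  fine u hu := by
    obtain ⟨ρ, U, h0, hm, hc, hz⟩ := G.fine _ hu
    refine ⟨2 * ρ, fun d hd => ?_, hz⟩
    subst hd
    rw [norm_sub_rev]
    exact pvge_adj_short h0 hm hc d.2.2

/-- a convex room in the mask: no mesh at all -/
theorem Pvcy3Lk.conv (η : Conf PvPt) {C : Set ℂ} (hC : Convex ℝ C) (hM : C ⊆ M) : Pvcy3Lk η C ∅ C M where
  cvx := hC
  r1 := Subset.rfl
  c1 := hM
  fine _ hu := absurd hu (notMem_empty _)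

/-- **the reduced frozen positions of `Σ_out`**: frozen, in the own-level box, at `≥ a h` from the centre -/
def pvcy3Fo (N : PvwNum) (b : Bool) (p : PvilPl) (η : Conf PvPt) : Set ℂ :=
  {w | w ∈ pvilFzO N b p η ∧ conj p.fr * w ∈ pvwSq p.zf (pvwRad N p.h p.ty p.ty.k) ∧ p.ty.a * p.h ≤ ‖w - p.z‖}

/-- **the reduced frozen positions of `Σ_in`** -/
def pvcy3Fi (N : PvwNum) (b : Bool) (p : PvilPl) (η : Conf PvPt) : Set ℂ :=
  {w | w ∈ pvilFzI N b p η ∧ conj p.fr * w ∈ pvwSq p.zf (pvwRad N p.h p.ty p.ty.k) ∧ p.ty.a * p.h ≤ ‖w - p.z‖}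

theorem pvcy3_eqns_cite2 : True := by
  have := @pvcy3Fo.eq_1; have := @pvcy3Fi.eq_1
  trivial

variable {N : PvwNum} {b : Bool} {p : PvilPl} {𝔖 : PvwSt (pvieT η)}

/-- the two ends of a position of the exit stub -/
theorem pvcy3_out_ends (hfr : ‖p.fr‖ = 1) (h : PvilOut N b p η 𝔖) {i : ℕ} (hi : i ≤ 𝔖.np) :
    pviePos η ((pvieT η).src (𝔖.ep i)) ∈ pvcy3Fo N b p η ∧ pviePos η ((pvieT η).tgt (𝔖.ep i)) ∈ pvcy3Fo N b p η := by
  have hT : (pvieT η).IsSph := delb_plane_isSph h.good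
  have G : PvjzG (pvieT η) (pviePos η) (pvieCol η b) 𝔖 p.z (p.ty.a * p.h) (p.ty.b * p.h) := PvjzG.of_gate hT h.st.gate (pvjz_iso hfr η)
  have hin := h.st.stub.ep_in i hi
  have hoff := h.st.good.off_p i hi
  refine ⟨⟨⟨𝔖, h, _, Or.inl (Or.inr ⟨i, hi, rfl⟩), rfl⟩, hin.1, pvjz_off_far hT G hoff⟩, ⟨⟨𝔖, h, _, Or.inr ⟨i, hi, rfl⟩, rfl⟩, hin.2, ?_⟩⟩
  have h2 : (pvieT η).nxt (𝔖.ep i) ∉ 𝔖.S.Left := fun hc => hoff ((pl_left_face 𝔖.S (𝔖.ep i)).1 hc)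
  exact pvjz_off_far hT G h2

/-- the two ends of a position of the entrance stub -/
theorem pvcy3_in_ends (hfr : ‖p.fr‖ = 1) (h : PvilIn N b p η 𝔖) {i : ℕ} (hi : i ≤ 𝔖.nm) :
    pviePos η ((pvieT η).src (𝔖.em i)) ∈ pvcy3Fi N b p η ∧ pviePos η ((pvieT η).tgt (𝔖.em i)) ∈ pvcy3Fi N b p η := by
  have hT : (pvieT η).IsSph := delb_plane_isSph h.good
  have G : PvjzG (pvieT η) (pviePos η) (pvieCol η b) 𝔖 p.z (p.ty.a * p.h) (p.ty.b * p.h) := PvjzG.of_gate hT h.st.gate (pvjz_iso hfr η)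
  have hin := h.st.stub.em_in i hi
  have hoff := h.st.good.off_m i hi
  refine ⟨⟨⟨𝔖, h, _, Or.inl (Or.inr ⟨i, hi, rfl⟩), rfl⟩, hin.1, ?_⟩, ⟨⟨𝔖, h, _, Or.inr ⟨i, hi, rfl⟩, rfl⟩, hin.2, ?_⟩⟩
  · obtain ⟨h2, h3⟩ := pvjz_behind 𝔖 hoff
    rw [← h3]
    exact pvjz_off_far hT G h2
  · have := pvjz_off_far hT G hoff
    rwa [(pvieT η).src_opp'] at this

end conf

/-! ## 3. the three kinds of special arcs: pin → door, door → door, door → pin -/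

section links

variable {η : Conf PvPt} {b : Bool} {N : PvwNum} {L : PvilLk} {𝔮 𝔮' : PvkdPlug} {z z' : ℂ} {𝔖 𝔖' : PvwSt (pvieT η)} {γ γ' : (pvieT η).Gate (pvieCol η b)} {y : (pvieT η).Pth} {K : ℕ} {R1 R2 C1 M : Set ℂ}

/-- **PIN → DOOR**: room = reduced frozen positions of `Σ_out`, `Yin`, the place of `g⁻` of the door -/
theorem pvcy3_first (hfr : ‖L.p.fr‖ = 1) (G : Pvcy3Lk η R1 R2 C1 M) (ho : PvilOut N b L.p η 𝔖) (hr : L.Run b η 𝔖 (pvilStS 𝔮' η (pvieCol η b) z' γ') K)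
    (hle : PvwLE (pvieT η) (fun i => (pvieT η).src (pvasIt (pvieT η) (pvieCol η b) 𝔖.dp i)) K y)
    (hF : pvcy3Fo N b L.p η ⊆ R1 ∪ R2) (hY : L.Yin ⊆ R1 ∪ R2) (hZ : pviePos η γ'.vm ∈ R1 ∪ R2) {k : ℕ} (hk : k < y.n) :
    (pvieT η).bary (pviePos η) ((pvieT η).opp (y.e k)) ∈ M := by
  obtain ⟨-, h2, h3, h4⟩ := hr
  have ha : PvlcArc (pvieT η) (pvieCol η b) 𝔖.dp γ'.aIn K y := ⟨ho.st.gate.bw_p, h2, h3, hle⟩
  have hpos : ∀ t, t < K → pviePos η ((pvieT η).src (pvasIt (pvieT η) (pvieCol η b) 𝔖.dp t)) ∈ R1 ∪ R2 ∧ pviePos η ((pvieT η).tgt (pvasIt (pvieT η) (pvieCol η b) 𝔖.dp t)) ∈ R1 ∪ R2 := by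
    intro t ht
    by_cases c : t ≤ 𝔖.np
    · have := pvcy3_out_ends hfr ho c
      rw [ho.st.stub.ep_it t c] at this
      exact ⟨hF this.1, hF this.2⟩
    · have := h4 t (by omega) (by show t + 0 < K; omega)
      exact ⟨hY this.1, hY this.2⟩
  refine pvcy3_arc (pvlc_T_simple η) G.rm ha (fun t ht => ?_) (fun t ht => Or.inl (hpos t ht).2) hk
  rcases ht.lt_or_eq with c | rfl
  · exact (hpos t c).1
  · rw [h2]
    exact hZ

/-- **DOOR → PIN**: room = the place of `g⁺` of the door, `Yin`, reduced frozen positions of `Σ_in` -/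
theorem pvcy3_last (hfr : ‖L.p'.fr‖ = 1) (G : Pvcy3Lk η R1 R2 C1 M) (hi : PvilIn N b L.p' η 𝔖') (hr : L.Run b η (pvilStS 𝔮 η (pvieCol η b) z γ) 𝔖' K)
    (hle : PvwLE (pvieT η) (fun i => (pvieT η).src (pvasIt (pvieT η) (pvieCol η b) γ.aOut i)) K y)
    (hF : pvcy3Fi N b L.p' η ⊆ R1 ∪ R2) (hY : L.Yin ⊆ R1 ∪ R2) (hZ : pviePos η γ.vp ∈ R1 ∪ R2) {k : ℕ} (hk : k < y.n) :
    (pvieT η).bary (pviePos η) ((pvieT η).opp (y.e k)) ∈ M := by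
  obtain ⟨h1, h2, h3, h4⟩ := hr
  have ha : PvlcArc (pvieT η) (pvieCol η b) γ.aOut 𝔖'.dm K y := ⟨pvtg_aOut_bw γ, h2, h3, hle⟩
  have hpos : ∀ t, 0 < t → t ≤ K → pviePos η ((pvieT η).src (pvasIt (pvieT η) (pvieCol η b) γ.aOut t)) ∈ R1 ∪ R2 ∧ pviePos η ((pvieT η).tgt (pvasIt (pvieT η) (pvieCol η b) γ.aOut t)) ∈ R1 ∪ R2 := by
    intro t h0 ht
    by_cases c : t + 𝔖'.nm < K
    · have := h4 t h0 c
      exact ⟨hY this.1, hY this.2⟩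
    · have e : 𝔖'.em (K - t) = pvasIt (pvieT η) (pvieCol η b) γ.aOut t := by
        rw [hi.st.stub.em_it _ (by omega), ← h2]
        show (pvasBack (pvieT η) (pvieCol η b))^[K - t] (pvasIt (pvieT η) (pvieCol η b) γ.aOut K) = _
        rw [pvlc_back_it (pvtg_aOut_bw γ) _ (by omega), show K - (K - t) = t by omega]
      have := pvcy3_in_ends hfr hi (i := K - t) (by omega)
      rw [e] at this
      exact ⟨hF this.1, hF this.2⟩
  refine pvcy3_arc (pvlc_T_simple η) G.rm ha (fun t ht => ?_) (fun t ht => Or.inr (hpos (t + 1) (by omega) ht).2) hk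
  rcases Nat.eq_zero_or_pos t with rfl | c
  · show pviePos η ((pvieT η).src γ.aOut) ∈ R1 ∪ R2
    rw [pvtg_aOut_src]
    exact hZ
  · exact (hpos t c ht).1

/-- **DOOR → DOOR**: room = the place of `g⁺` of the first door, `Yin`, the place of `g⁻` of the second door;   the white ends of the two gate edges are different -/
theorem pvcy3_mid (G : Pvcy3Lk η R1 R2 C1 M) (hr : L.Run b η (pvilStS 𝔮 η (pvieCol η b) z γ) (pvilStS 𝔮' η (pvieCol η b) z' γ') K)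
    (hle : PvwLE (pvieT η) (fun i => (pvieT η).src (pvasIt (pvieT η) (pvieCol η b) γ.aOut i)) K y) (hne : (pvieT η).tgt γ.aOut ≠ (pvieT η).tgt γ'.aIn)
    (hZp : pviePos η γ.vp ∈ R1 ∪ R2) (hY : L.Yin ⊆ R1 ∪ R2) (hZm : pviePos η γ'.vm ∈ R1 ∪ R2) {k : ℕ} (hk : k < y.n) :
    (pvieT η).bary (pviePos η) ((pvieT η).opp (y.e k)) ∈ M := by
  obtain ⟨-, h2, h3, h4⟩ := hr
  have h2' : pvasIt (pvieT η) (pvieCol η b) γ.aOut K = γ'.aIn := h2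
  have ha : PvlcArc (pvieT η) (pvieCol η b) γ.aOut γ'.aIn K y := ⟨pvtg_aOut_bw γ, h2, h3, hle⟩
  have hpos : ∀ t, 0 < t → t < K → pviePos η ((pvieT η).src (pvasIt (pvieT η) (pvieCol η b) γ.aOut t)) ∈ R1 ∪ R2 ∧ pviePos η ((pvieT η).tgt (pvasIt (pvieT η) (pvieCol η b) γ.aOut t)) ∈ R1 ∪ R2 := by
    intro t h0 ht
    have := h4 t h0 (by show t + 0 < K; omega)
    exact ⟨hY this.1, hY this.2⟩
  obtain ⟨t, ht, e1, e2, e3, e4⟩ := pvlc_tag (pvlc_T_simple η) ha hk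
  have hb : ∀ t, t ≤ K → pviePos η ((pvieT η).src (pvasIt (pvieT η) (pvieCol η b) γ.aOut t)) ∈ R1 ∪ R2 := by
    intro t ht
    rcases Nat.eq_zero_or_pos t with rfl | c
    · show pviePos η ((pvieT η).src γ.aOut) ∈ R1 ∪ R2
      rw [pvtg_aOut_src]
      exact hZp
    · rcases ht.lt_or_eq with c' | rfl
      · exact (hpos t c c').1
      · rw [h2']
        exact hZm
  refine pvcy3_tri G.rm _ (by rw [e1]; exact hb _ ht) (by rw [e2]; exact hb _ ht.le) ?_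
  rcases Nat.eq_zero_or_pos t with rfl | c
  · by_cases c1 : 1 < K
    · rw [e4]
      exact (hpos 1 Nat.one_pos c1).2
    · exfalso
      obtain rfl : K = 1 := by omega
      apply hne
      have f1 : (pvieT η).apex ((pvieT η).opp (y.e k)) = (pvieT η).tgt γ.aOut := e3
      rw [← f1, e4]
      exact congrArg _ h2'
  · rw [e3]
    exact (hpos t c ht).2

/-- the white ends of the gate edges of a gate of record lie over the disc of the plug -/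
theorem pvcy3_gate_white (hG : DelGood (cfSites η)) {d : ℂ} {γ : (pvkiT η).Gate (pvukS b η)} (h : PvukGate 𝔮 b η z d γ) :
    (((pvkiT η).tgt γ.aOut : ↥(cfSites η)) : ℂ) ∈ ball z 𝔮.b ∧ (((pvkiT η).tgt γ.aIn : ↥(cfSites η)) : ℂ) ∈ ball z 𝔮.b := by
  have hT : (pvkiT η).IsSph := delb_plane_isSph hG
  have key : ∀ i, (pvkiT η).src (γ.c.e i) ∈ (pvkiT η).VOf γ.c.Left := fun i => by
    rw [pl_VOf_left hT]
    exact Or.inl ⟨i, rfl⟩
  constructor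
  · have := pvuk_gate_ball h (key (γ.m - 1))
    rw [← pvtg_aOut_tgt] at this
    exact this
  · have := pvuk_gate_ball h (key 1)
    rw [← pvtg_aIn_tgt] at this
    exact this

end links

/-! ## 4. the three special arcs of the normal form of 42 -/

section arcs

variable {η : Conf PvPt} {b : Bool} {N : PvwNum} {Lo Lr Le : PvilLk} {𝔭 𝔭u : PvkdPlug} {n : ℕ} {Z Dv : ℕ → ℂ} {Co : ℕ → Set ℂ} {zu du : ℂ}
  {P P' : PvwSt (pvieT η)} {g : ℕ → (pvkiT η).Gate (pvukS b η)} {gu : (pvkiT η).Gate (pvukS b η)} {y0 yr ye : (pvieT η).Pth} {R1 R2 C1 M : Set ℂ}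

/-- **THE TAGS OF THE ARC OF THE FIRST LINK** -/
theorem pvcy3_y0 (A : PvdwArcs N b η Lo Lr Le 𝔭 𝔭u n Z Dv Co zu du P P' g gu y0 yr ye) (hfr : ‖Lo.p.fr‖ = 1) (G : Pvcy3Lk η R1 R2 C1 M)
    (hF : pvcy3Fo N b Lo.p η ⊆ R1 ∪ R2) (hY : Lo.Yin ⊆ R1 ∪ R2) (hZ : pvkdAt (Z 0) (Dv 0) 𝔭.Zm ⊆ R1 ∪ R2) {k : ℕ} (hk : k < y0.n) :
    (pvieT η).bary (pviePos η) ((pvieT η).opp (y0.e k)) ∈ M := by
  obtain ⟨K, hr, hle⟩ := A.run0
  exact pvcy3_first hfr G A.out hr hle hF hY (hZ (A.gt 0 (Nat.zero_le n)).vm) hk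

/-- **THE TAGS OF THE ARC OF THE THICK LINK** -/
theorem pvcy3_ye (A : PvdwArcs N b η Lo Lr Le 𝔭 𝔭u n Z Dv Co zu du P P' g gu y0 yr ye) (hfr : ‖Le.p'.fr‖ = 1) (G : Pvcy3Lk η R1 R2 C1 M)
    (hF : pvcy3Fi N b Le.p' η ⊆ R1 ∪ R2) (hY : Le.Yin ⊆ R1 ∪ R2) (hZ : pvkdAt zu du 𝔭u.Zp ⊆ R1 ∪ R2) {k : ℕ} (hk : k < ye.n) :
    (pvieT η).bary (pviePos η) ((pvieT η).opp (ye.e k)) ∈ M := by
  obtain ⟨K, hr, hle⟩ := A.rune
  exact pvcy3_last hfr G A.inn hr hle hF hY (hZ A.gtu.vp) hk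

/-- **THE TAGS OF THE ARC OF THE LINK INTO THE REFERENCE PLUG** -/
theorem pvcy3_yr (A : PvdwArcs N b η Lo Lr Le 𝔭 𝔭u n Z Dv Co zu du P P' g gu y0 yr ye) (G : Pvcy3Lk η R1 R2 C1 M) (hdd : Disjoint (ball (Z n) 𝔭.b) (ball zu 𝔭u.b))
    (hZp : pvkdAt (Z n) (Dv n) 𝔭.Zp ⊆ R1 ∪ R2) (hY : Lr.Yin ⊆ R1 ∪ R2) (hZm : pvkdAt zu du 𝔭u.Zm ⊆ R1 ∪ R2) {k : ℕ} (hk : k < yr.n) :
    (pvieT η).bary (pviePos η) ((pvieT η).opp (yr.e k)) ∈ M := by
  obtain ⟨K, hr, hle⟩ := A.runr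
  refine pvcy3_mid G hr hle (fun e => ?_) (hZp (A.gt n le_rfl).vp) hY (hZm A.gtu.vm) hk
  have q1 := (pvcy3_gate_white A.good (A.gt n le_rfl)).1
  have q2 := (pvcy3_gate_white A.good A.gtu).2
  have e' : (pvkiT η).tgt (g n).aOut = (pvkiT η).tgt gu.aIn := e
  rw [e'] at q1
  exact Set.disjoint_left.1 hdd q1 q2

/-- **`PvdwRest` AT EVERY NORMAL FORM, FORM (Z)**: regions `PvdwHd`, `PvdwOc`, `PvdwBx` of 42 + the two stub lines + ONE RECORD `Pvcy3Lk` PER SPECIAL LINK -/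
theorem pvcy3_rest (A : PvdwArcs N b η Lo Lr Le 𝔭 𝔭u n Z Dv Co zu du P P' g gu y0 yr ye) (F : PvdwFit Lo Lr Le 𝔭 𝔭u n Z Dv zu du) (hfr : Lo.p.fr = 1) {MpP MmP : Set ℂ}
    (hMp : ∀ x : (pvieT η).Pth, PvwLE (pvieT η) (fun i => (pvieT η).src (P.ep i)) P.np x → ∀ v ∈ x.verts, pviePos η v ∈ MpP)
    (hMm : ∀ x : (pvieT η).Pth, PvwLE (pvieT η) (fun i => (pvieT η).src (P'.em i)) P'.nm x → ∀ v ∈ x.verts, pviePos η v ∈ MmP)
    (H : PvdwHd N Lo Lr Le 𝔭 𝔭u n Z Dv Co zu du MpP MmP) {Mc : ℕ → Set ℂ} (O : PvdwOc N Lo Lr Le 𝔭 𝔭u n Z Dv Co Mc zu du)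
    {Bx : Set ℂ} {c : ℝ} (B : PvdwBx Lo Lr Le 𝔭 𝔭u n Z Dv Co zu du MpP MmP Bx c) (hdd : Disjoint (ball (Z n) 𝔭.b) (ball zu 𝔭u.b))
    {O1 O2 Oc Q1 Q2 Qc E1 E2 Ec : Set ℂ} (Go : Pvcy3Lk η O1 O2 Oc (Lo.msk N)) (Gr : Pvcy3Lk η Q1 Q2 Qc (Lr.msk N)) (Ge : Pvcy3Lk η E1 E2 Ec (Le.msk N))
    (oF : pvcy3Fo N b Lo.p η ⊆ O1 ∪ O2) (oY : Lo.Yin ⊆ O1 ∪ O2) (oZ : pvkdAt (Z 0) (Dv 0) 𝔭.Zm ⊆ O1 ∪ O2)
    (rP : pvkdAt (Z n) (Dv n) 𝔭.Zp ⊆ Q1 ∪ Q2) (rY : Lr.Yin ⊆ Q1 ∪ Q2) (rM : pvkdAt zu du 𝔭u.Zm ⊆ Q1 ∪ Q2)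
    (eF : pvcy3Fi N b Lo.p η ⊆ E1 ∪ E2) (eY : Le.Yin ⊆ E1 ∪ E2) (eZ : pvkdAt zu du 𝔭u.Zp ⊆ E1 ∪ E2) :
    PvdwRest b η n P (pvdwDd 𝔭 b η Z g) (pvilStS 𝔭u η (pvieCol η b) zu gu) y0 (pvdwYc b η g) yr ye (Lo.msk N) Mc (Lr.msk N) (Le.msk N) (Lo.ball N) Bx c := by
  have h1 : ‖Lo.p.fr‖ = 1 := by rw [hfr, norm_one]
  refine A.restT F hfr hMp hMm H O B (fun k hk => pvcy3_y0 A h1 Go oF oY oZ hk) (fun k hk => pvcy3_yr A Gr hdd rP rY rM hk) (fun k hk => pvcy3_ye A ?_ Ge ?_ eY eZ hk)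
  · rw [F.pin]; exact h1
  · rw [F.pin]; exact eF

end arcs

end Claimed.Agent.R289
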