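-- KEEP
import Claimed.Agent.R289.Tr.CycC3
import Claimed.Agent.R289.Tr.CycDI

/-!
# Row 289 (S0537), THE WALL, ROAD E, Tr/CycC3G : (T) FROM REGIONS + TWO MESHES      (helper48; prefix `pvcy3_`, `pvcy3`, `Pvcy3`; continues `Tr/CycC3`)

* sec. 5  **`Pvcy3Geo`** = THE REGION LINES OF (T) (no configuration, no margin at the door planes), `Pvcy3Geo.lo .lr .le` (the three records `Pvcy3Lk`), **`pvcy3_rest_geo`** : normal form + `PvdwHd PvdwOc PvdwBx` of 42 + `Pvcy3Geo` + mesh `μ` of ONE window per pin link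
          + the reduced frozen positions in the `3μ`-cores ⟹ `PvdwRest`
* sec. 6  at the names of `Tr/InstL`: **`pvcy3_fo_core`, `pvcy3_fi_core`** : the reduced frozen positions of a half state lie in the `3μ`-core of `pvilWz` at ITS hull (`3μ ≤ δ`)
-/

set_option autoImplicit false

namespace Claimed.Agent.R289

open Set Metric
open scoped ComplexConjugate

/-! ## 5. the region lines of (T) -/

/-- **THE REGION LINES OF (T)**.      `μ` = mesh of the windows of the two pin links, `Ue` = window of the thick link;   `Ho` = convex part of the raw mask of the first link (the open half plane behind the door `0`) which contains the own-level box;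
`Ko ⊆ Ho`, `Kr`, `Ke` = convex parts of the masks which contain the NEW part of the first link | the whole room of the link into the reference plug | the part of the room of the thick link NEAR the reference plug.
NO MESH is asked on `Ko`, `Kr`, `Ke` (door regions, region of the reference plug, seams). -/
structure Pvcy3Geo (N : PvwNum) (Lo Lr Le : PvilLk) (𝔭 𝔭u : PvkdPlug) (n : ℕ) (Z Dv : ℕ → ℂ) (zu du : ℂ) (μ : ℝ) (Ue Ho Ko Kr Ke : Set ℂ) : Prop where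
  mu0 : 0 < μ
  /-- the cut-off disc is well inside the gate -/
  cut : N.m * Lo.p.h + 2 * μ < Lo.p.ty.a * Lo.p.h
  ho_cv : Convex ℝ Ho
  ho_mk : Ho ⊆ Lo.Mk
  ho_bx : pvcaBx N Lo.p ⊆ Ho
  ko_cv : Convex ℝ Ko
  ko_ho : Ko ⊆ Ho
  ko_off : Disjoint Ko (Lo.ball N)
  ko_in : Lo.Yin ∪ pvkdAt (Z 0) (Dv 0) 𝔭.Zm ⊆ Ko
  kr_cv : Convex ℝ Kr
  kr_mk : Kr ⊆ Lr.Mk
  kr_in : pvkdAt (Z n) (Dv n) 𝔭.Zp ∪ Lr.Yin ∪ pvkdAt zu du 𝔭u.Zm ⊆ Kr
  ke_cv : Convex ℝ Ke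
  ke_mk : Ke ⊆ Le.Mk
  ke_off : Disjoint Ke (Lo.ball N)
  ke_z : pvkdAt zu du 𝔭u.Zp ⊆ Ke
  /-- a point of the room of the thick link: near the reference plug, or in the core of the window, `2μ` inside the raw mask, off the cut-off disc -/
  e_Y : ∀ v ∈ Le.Yin, v ∈ Ke ∨ (v ∈ pvtrCore (3 * μ) Ue ∧ closedBall v (2 * μ) ⊆ Le.Mk ∧ N.m * Lo.p.h + 2 * μ < ‖v - Lo.p.z‖)
  e_bx : ∀ v ∈ pvcaBx N Lo.p, closedBall v (2 * μ) ⊆ Le.Mk

section geo

variable {η : Conf PvPt} {b : Bool} {N : PvwNum} {Lo Lr Le : PvilLk} {𝔭 𝔭u : PvkdPlug} {n : ℕ} {Z Dv : ℕ → ℂ} {zu du : ℂ} {μ : ℝ} {Uo Ue Ho Ko Kr Ke : Set ℂ}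

/-- a ball round a point far from the centre misses the cut-off disc -/
theorem pvcy3_ball_off {z v : ℂ} {r s : ℝ} (h : r + s < ‖v - z‖) : Disjoint (closedBall v s) (closedBall z r) := by
  rw [Set.disjoint_left]
  intro w h1 h2
  rw [mem_closedBall, dist_eq_norm] at h1 h2
  have : ‖v - z‖ ≤ ‖w - v‖ + ‖w - z‖ := by
    have := norm_sub_le (w - z) (w - v)
    rw [sub_sub_sub_cancel_left] at this
    linarith
  linarith

theorem pvcy3_fo_bx (hfr : Lo.p.fr = 1) {w : ℂ} (hw : w ∈ pvcy3Fo N b Lo.p η) : w ∈ pvcaBx N Lo.p := by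
  have := hw.2.1
  unfold PvilPl.zf at this
  rw [hfr, map_one, one_mul, one_mul] at this
  exact this

theorem pvcy3_fi_bx (hfr : Lo.p.fr = 1) {w : ℂ} (hw : w ∈ pvcy3Fi N b Lo.p η) : w ∈ pvcaBx N Lo.p := by
  have := hw.2.1
  unfold PvilPl.zf at this
  rw [hfr, map_one, one_mul, one_mul] at this
  exact this

/-- the record of the first link -/
theorem Pvcy3Geo.lo (G : Pvcy3Geo N Lo Lr Le 𝔭 𝔭u n Z Dv zu du μ Ue Ho Ko Kr Ke) (F : PvdwFit Lo Lr Le 𝔭 𝔭u n Z Dv zu du) (hfr : Lo.p.fr = 1) (mo : PvtrMesh μ Uo (cfSites η))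
    (fo : pvcy3Fo N b Lo.p η ⊆ pvtrCore (3 * μ) Uo) : Pvcy3Lk η Ko (pvcy3Fo N b Lo.p η) Ko (Lo.msk N) where
  cvx := G.ko_cv
  r1 := Subset.rfl
  c1 w hw := by
    rw [pvlc_msk_first F.o F.o']
    exact ⟨G.ho_mk (G.ko_ho hw), fun h => Set.disjoint_left.1 G.ko_off hw h⟩
  fine v hv := by
    refine ⟨μ, Uo, G.mu0, mo, fo hv, closedBall v (2 * μ) ∩ Ho, (convex_closedBall v _).inter G.ho_cv, ?_, ?_⟩
    · rintro w ⟨h1, h2⟩
      rw [pvlc_msk_first F.o F.o']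
      refine ⟨G.ho_mk h2, fun h => Set.disjoint_left.1 (pvcy3_ball_off (z := Lo.p.z) (r := N.m * Lo.p.h) ?_) h1 h⟩
      linarith [G.cut, hv.2.2]
    · rintro w ⟨h1 | h1, h2⟩
      · exact ⟨h2, G.ko_ho h1⟩
      · exact ⟨h2, G.ho_bx (pvcy3_fo_bx hfr h1)⟩

/-- the record of the link into the reference plug: NO MESH -/
theorem Pvcy3Geo.lr (G : Pvcy3Geo N Lo Lr Le 𝔭 𝔭u n Z Dv zu du μ Ue Ho Ko Kr Ke) (F : PvdwFit Lo Lr Le 𝔭 𝔭u n Z Dv zu du) (η : Conf PvPt) : Pvcy3Lk η Kr ∅ Kr (Lr.msk N) :=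
  Pvcy3Lk.conv η G.kr_cv fun w hw => by
    unfold PvilLk.msk
    rw [F.r, F.r']
    simpa using G.kr_mk hw

/-- the record of the thick link -/
theorem Pvcy3Geo.le (G : Pvcy3Geo N Lo Lr Le 𝔭 𝔭u n Z Dv zu du μ Ue Ho Ko Kr Ke) (F : PvdwFit Lo Lr Le 𝔭 𝔭u n Z Dv zu du) (hfr : Lo.p.fr = 1) (me : PvtrMesh μ Ue (cfSites η))
    (fi : pvcy3Fi N b Lo.p η ⊆ pvtrCore (3 * μ) Ue) : Pvcy3Lk η Ke ((Le.Yin \ Ke) ∪ pvcy3Fi N b Lo.p η) Ke (Le.msk N) where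
  cvx := G.ke_cv
  r1 := Subset.rfl
  c1 w hw := by
    have hball : Le.ball' N = Lo.ball N := by unfold PvilLk.ball' PvilLk.ball; rw [F.pin]
    rw [pvlc_msk_last F.e F.e', hball]
    exact ⟨G.ke_mk hw, fun h => Set.disjoint_left.1 G.ke_off hw h⟩
  fine v hv := by
    have hball : Le.ball' N = Lo.ball N := by unfold PvilLk.ball' PvilLk.ball; rw [F.pin]
    have key : v ∈ pvtrCore (3 * μ) Ue ∧ closedBall v (2 * μ) ⊆ Le.Mk ∧ N.m * Lo.p.h + 2 * μ < ‖v - Lo.p.z‖ := by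
      rcases hv with hv | hv
      · exact (G.e_Y v hv.1).resolve_left hv.2
      · exact ⟨fi hv, G.e_bx v (pvcy3_fi_bx hfr hv), by linarith [G.cut, hv.2.2]⟩
    refine ⟨μ, Ue, G.mu0, me, key.1, closedBall v (2 * μ), convex_closedBall v _, fun w hw => ?_, fun w hw => hw.2⟩
    rw [pvlc_msk_last F.e F.e', hball]
    exact ⟨key.2.1 hw, fun h => Set.disjoint_left.1 (pvcy3_ball_off key.2.2) hw h⟩

variable {Co : ℕ → Set ℂ} {P P' : PvwSt (pvieT η)} {g : ℕ → (pvkiT η).Gate (pvukS b η)} {gu : (pvkiT η).Gate (pvukS b η)} {y0 yr ye : (pvieT η).Pth}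

/-- **`PvdwRest` AT EVERY NORMAL FORM, FROM REGIONS + TWO MESHES**: `PvdwHd PvdwOc PvdwBx` of 42, `Pvcy3Geo`, the two stub lines, mesh `μ` of a window `Uo` (first link), `Ue` (thick link), the reduced frozen positions in their `3μ`-cores -/
theorem pvcy3_rest_geo (A : PvdwArcs N b η Lo Lr Le 𝔭 𝔭u n Z Dv Co zu du P P' g gu y0 yr ye) (F : PvdwFit Lo Lr Le 𝔭 𝔭u n Z Dv zu du) (hfr : Lo.p.fr = 1) {MpP MmP : Set ℂ}
    (hMp : ∀ x : (pvieT η).Pth, PvwLE (pvieT η) (fun i => (pvieT η).src (P.ep i)) P.np x → ∀ v ∈ x.verts, pviePos η v ∈ MpP)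
    (hMm : ∀ x : (pvieT η).Pth, PvwLE (pvieT η) (fun i => (pvieT η).src (P'.em i)) P'.nm x → ∀ v ∈ x.verts, pviePos η v ∈ MmP)
    (H : PvdwHd N Lo Lr Le 𝔭 𝔭u n Z Dv Co zu du MpP MmP) {Mc : ℕ → Set ℂ} (O : PvdwOc N Lo Lr Le 𝔭 𝔭u n Z Dv Co Mc zu du)
    {Bx : Set ℂ} {c : ℝ} (B : PvdwBx Lo Lr Le 𝔭 𝔭u n Z Dv Co zu du MpP MmP Bx c) (G : Pvcy3Geo N Lo Lr Le 𝔭 𝔭u n Z Dv zu du μ Ue Ho Ko Kr Ke)
    (mo : PvtrMesh μ Uo (cfSites η)) (me : PvtrMesh μ Ue (cfSites η)) (fo : pvcy3Fo N b Lo.p η ⊆ pvtrCore (3 * μ) Uo) (fi : pvcy3Fi N b Lo.p η ⊆ pvtrCore (3 * μ) Ue) :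
    PvdwRest b η n P (pvdwDd 𝔭 b η Z g) (pvilStS 𝔭u η (pvieCol η b) zu gu) y0 (pvdwYc b η g) yr ye (Lo.msk N) Mc (Lr.msk N) (Le.msk N) (Lo.ball N) Bx c := by
  have hdd : Disjoint (ball (Z n) 𝔭.b) (ball zu 𝔭u.b) := by
    have := H.rm.DD (n + 1) (n + 2) (by omega) (by omega)
    unfold pvdwDk at this
    rwa [pvdw_sq_r, pvdw_sq_e] at this
  refine pvcy3_rest A F hfr hMp hMm H O B hdd (G.lo F hfr mo fo) (G.lr F η) (G.le F hfr me fi) (fun w hw => Or.inr hw) (fun w hw => Or.inl (G.ko_in (Or.inl hw))) (fun w hw => Or.inl (G.ko_in (Or.inr hw)))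
    (fun w hw => Or.inl (G.kr_in (Or.inl (Or.inl hw)))) (fun w hw => Or.inl (G.kr_in (Or.inl (Or.inr hw)))) (fun w hw => Or.inl (G.kr_in (Or.inr hw)))
    (fun w hw => Or.inr (Or.inr hw)) (fun w hw => ?_) (fun w hw => Or.inl (G.ke_z hw))
  by_cases c : w ∈ Ke
  · exact Or.inl c
  · exact Or.inr (Or.inl ⟨hw, c⟩)

end geo

/-! ## 6. at the names of `Tr/InstL`: the frozen positions lie in the core of `pvilWz` at the hull of the half state -/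

section inst

variable {τ : Type} {c : ℝ} {𝔓 : PvxPar τ c} {m : ℕ} {z : ℂ} {t : τ} {η : Conf PvPt} {μ : ℝ}

theorem pvcy3_sq_core {z w : ℂ} {r s : ℝ} (hw : w ∈ pvwSq z r) : closedBall w s ⊆ pvwSq z (r + s) := by
  intro q hq
  rw [mem_closedBall, dist_eq_norm] at hq
  have e : q - z = (q - w) + (w - z) := by ring
  have h1 := (Complex.abs_re_le_norm (q - w)).trans hq
  have h2 := (Complex.abs_im_le_norm (q - w)).trans hq
  constructor
  · rw [e, Complex.add_re]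
    exact (abs_add_le _ _).trans (by linarith [hw.1])
  · rw [e, Complex.add_im]
    exact (abs_add_le _ _).trans (by linarith [hw.2])

/-- **the reduced frozen positions of `Σ_out` lie in the `3μ`-core of `Z⁺ ∩ box`, `Z` = the hull of `Σ_out`** -/
theorem pvcy3_fo_core (hδ : 0 < pvlmDel c m) (h3 : 3 * μ ≤ pvlmDel c m) :
    pvcy3Fo 𝔓.num (𝔓.col t) (pvilPin 𝔓 m z t) η ⊆ pvtrCore (3 * μ) (pvilWz 𝔓 m z t (pvilZo 𝔓 m z t η)) := by
  rintro w ⟨⟨𝔖, h, u, hu, rfl⟩, hb, -⟩ q hq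
  refine ⟨?_, ?_⟩
  · rw [pvjh_Zo_eq h]
    exact pvt_N8_U hδ (pvt_cells_cover hδ (Or.inl ⟨u, hu, rfl⟩)) ((mem_closedBall_iff_norm.1 hq).trans h3)
  · rw [pvjh_pin_zf] at hb
    have hb' : pviePos η u ∈ pvwSq z (pvwRad 𝔓.num (pvlmH m) (𝔓.ty t) (𝔓.ty t).k) := by
      have e : conj (pvilPin 𝔓 m z t).fr * pviePos η u = pviePos η u := by simp [pvilPin, PviePl.std]
      rw [e] at hb
      exact hb
    exact pvcy3_sq_core hb' (closedBall_subset_closedBall h3 hq)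

/-- **the reduced frozen positions of `Σ_in` lie in the `3μ`-core of `Z⁺ ∩ box`, `Z` = the hull of `Σ_in`** -/
theorem pvcy3_fi_core (hδ : 0 < pvlmDel c m) (h3 : 3 * μ ≤ pvlmDel c m) :
    pvcy3Fi 𝔓.num (𝔓.col t) (pvilPin 𝔓 m z t) η ⊆ pvtrCore (3 * μ) (pvilWz 𝔓 m z t (pvilZi 𝔓 m z t η)) := by
  rintro w ⟨⟨𝔖, h, u, hu, rfl⟩, hb, -⟩ q hq
  refine ⟨?_, ?_⟩
  · rw [pvjh_Zi_eq h]
    exact pvt_N8_U hδ (pvt_cells_cover hδ (Or.inl ⟨u, hu, rfl⟩)) ((mem_closedBall_iff_norm.1 hq).trans h3)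
  · rw [pvjh_pin_zf] at hb
    have hb' : pviePos η u ∈ pvwSq z (pvwRad 𝔓.num (pvlmH m) (𝔓.ty t) (𝔓.ty t).k) := by
      have e : conj (pvilPin 𝔓 m z t).fr * pviePos η u = pviePos η u := by simp [pvilPin, PviePl.std]
      rw [e] at hb
      exact hb
    exact pvcy3_sq_core hb' (closedBall_subset_closedBall h3 hq)

end inst

end Claimed.Agent.R289
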