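-- KEEP
import Claimed.Agent.R289.Tr.CycC2M
import Claimed.Agent.R289.Tr.CycC2B

/-!
# Row 289 (S0537), THE WALL, ROAD E, file Tr/CycC2G : (H) + (B) OF THE `Σ₁` CYCLE, REGIONS ONLY: ATOMS + HALF DOORS ⟹ THE ROOMS OF THE CYCLE      (helper75, second cutter of `exit_pvc1_c2`: post of 243 M5, split of 42 id 95502; prefix `pvc2g_`, `Pvc2g`)

WHAT.   42 (`Tr/CycC2M`): `PvdwArcs` + REGIONS + mesh ⟹ `PvdwRest`.      The part (H) of the regions = `PvcaRm (n + 3) Dk Yr` of 264 (discs pairwise disjoint, rooms pairwise disjoint, a disc misses the rooms of the links which do not end at it) + the eight lines `o1 o2 o3 r1 r2 e1 e2 e3`.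
HOW.    SETS ONLY, no configuration, no engine.      ATOMS of the cycle (`PvjhDisj` of 180 = `cyc_disj` of `PvieEng.Wf`, + the own-level box `Bo` which misses everything resampled = `res_off`): `Mo Me` mouths, `Ko Ke` tiles, `Rk Ro`, doors `Dr j` (`j ≤ n`), tiles `Cl j` (`j < n`).
        A DOOR IS CUT BY ITS LINE (`Hd j` = what is in front of the door `j`, `Hu` = in front of the reference plug; W-7 of 208): every room lies in a union of atoms and HALF doors: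
        `Yo ⊆ Mo ∪ Ko ∪ Dr 0 \ Hd 0`,   `Co j ⊆ Dr j ∩ Hd j ∪ Cl j ∪ Dr (j+1) \ Hd (j+1)`,   `Yr ⊆ Dr n ∩ Hd n ∪ Rk ∪ Ro \ Hu`,   `Ye ⊆ Ro ∩ Hu ∪ Ke ∪ Me`;   `Zm ⊆ door \ H`, `Zp ⊆ door ∩ H`.
        The REDUCED vertex masks `MpP MmP` of the two stubs of the candidate are FREE sets with four lines: inside `Bo`; `MpP` misses `Me`, `MmP` misses `Mo` (guard: hull of the base); `MpP` misses `MmP` (`pvxo_mask_far`).
* sec. 1  `Pvc2gAt` (atoms), `Pvc2gRm` (rooms in atoms)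
* sec. 2  the pieces: discs, rooms, far
* sec. 3  **`pvc2g_rm`** : `PvcaRm (n + 3) (pvdwSq n D0 Dd (Dd n) Du) (pvdwSq n (MpP ∪ Yo ∪ Zm 0) Co (Zp n ∪ Yr ∪ Zmu) (Zpu ∪ Ye ∪ MmP))`;   `pvc2g_o1 .. pvc2g_e3`
-/

set_option autoImplicit false

namespace Claimed.Agent.R289

open Set

/-! ## 1. atoms, rooms -/

/-- **THE ATOMS OF THE `Σ₁` CYCLE** (fields of `PvjhDisj` of 180, same names) + the own-level box `Bo` misses everything which is resampled -/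
structure Pvc2gAt (n : ℕ) (Bo Mo Me Ko Ke Rk Ro : Set ℂ) (Dr Cl : ℕ → Set ℂ) : Prop where
  MoMe : Disjoint Mo Me
  MoKe : Disjoint Mo Ke
  MoRk : Disjoint Mo Rk
  MoRo : Disjoint Mo Ro
  MoDr : ∀ j, j ≤ n → Disjoint Mo (Dr j)
  MoCl : ∀ j, j < n → Disjoint Mo (Cl j)
  MeKo : Disjoint Me Ko
  MeRk : Disjoint Me Rk
  MeRo : Disjoint Me Ro
  MeDr : ∀ j, j ≤ n → Disjoint Me (Dr j)
  MeCl : ∀ j, j < n → Disjoint Me (Cl j)
  KoKe : Disjoint Ko Ke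
  KoRk : Disjoint Ko Rk
  KoRo : Disjoint Ko Ro
  KoDr : ∀ j, j ≤ n → Disjoint Ko (Dr j)
  KoCl : ∀ j, j < n → Disjoint Ko (Cl j)
  KeRk : Disjoint Ke Rk
  KeRo : Disjoint Ke Ro
  KeDr : ∀ j, j ≤ n → Disjoint Ke (Dr j)
  KeCl : ∀ j, j < n → Disjoint Ke (Cl j)
  RkRo : Disjoint Rk Ro
  RkDr : ∀ j, j ≤ n → Disjoint Rk (Dr j)
  RkCl : ∀ j, j < n → Disjoint Rk (Cl j)
  RoDr : ∀ j, j ≤ n → Disjoint Ro (Dr j)
  RoCl : ∀ j, j < n → Disjoint Ro (Cl j)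
  DrDr : ∀ i j, i ≤ n → j ≤ n → i ≠ j → Disjoint (Dr i) (Dr j)
  ClCl : ∀ i j, i < n → j < n → i ≠ j → Disjoint (Cl i) (Cl j)
  DrCl : ∀ i j, i ≤ n → j < n → Disjoint (Dr i) (Cl j)
  BoKo : Disjoint Bo Ko
  BoKe : Disjoint Bo Ke
  BoRk : Disjoint Bo Rk
  BoRo : Disjoint Bo Ro
  BoDr : ∀ j, j ≤ n → Disjoint Bo (Dr j)
  BoCl : ∀ j, j < n → Disjoint Bo (Cl j)

/-- **THE ROOMS OF THE CYCLE IN TERMS OF THE ATOMS**: `D0 Dd j Du` = the discs of the plugs, `MpP MmP` = reduced vertex masks of the two stubs of the candidate, `Yo Co j Yr Ye` = the rooms of the new parts of the strands,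
`Zm j Zp j Zmu Zpu` = the rooms of the gate vertices of the doors and of the reference plug, `Hd j`, `Hu` = what is IN FRONT of the door `j`, of the reference plug -/
structure Pvc2gRm (n : ℕ) (Bo Mo Me Ko Ke Rk Ro : Set ℂ) (Dr Cl Hd : ℕ → Set ℂ) (Hu D0 : Set ℂ) (Dd : ℕ → Set ℂ) (Du MpP MmP Yo : Set ℂ) (Co : ℕ → Set ℂ) (Yr Ye : Set ℂ) (Zm Zp : ℕ → Set ℂ) (Zmu Zpu : Set ℂ) : Prop where
  D0_box : D0 ⊆ Bo
  D0_Mo : Disjoint D0 Mo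
  D0_Me : Disjoint D0 Me
  Dd_sub : ∀ j, j ≤ n → Dd j ⊆ Dr j
  Du_sub : Du ⊆ Ro
  Mp_box : MpP ⊆ Bo
  Mm_box : MmP ⊆ Bo
  Mp_Me : Disjoint MpP Me
  Mm_Mo : Disjoint MmP Mo
  Mp_Mm : Disjoint MpP MmP
  Yo_sub : Yo ⊆ Mo ∪ Ko ∪ Dr 0 \ Hd 0
  Co_sub : ∀ j, j < n → Co j ⊆ Dr j ∩ Hd j ∪ Cl j ∪ Dr (j + 1) \ Hd (j + 1)
  Yr_sub : Yr ⊆ Dr n ∩ Hd n ∪ Rk ∪ Ro \ Hu
  Ye_sub : Ye ⊆ Ro ∩ Hu ∪ Ke ∪ Me
  Zm_sub : ∀ j, j ≤ n → Zm j ⊆ Dr j \ Hd j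
  Zp_sub : ∀ j, j ≤ n → Zp j ⊆ Dr j ∩ Hd j
  Zmu_sub : Zmu ⊆ Ro \ Hu
  Zpu_sub : Zpu ⊆ Ro ∩ Hu

theorem pvc2g_nm {A B : Set ℂ} (h : Disjoint A B) (w : ℂ) : w ∈ A → w ∈ B → False := fun a b => Set.disjoint_left.1 h a b

/-- the plugs: the candidate, a door, the reference plug -/
theorem pvc2g_pcases {n k : ℕ} (h : k < n + 3) : k = 0 ∨ (∃ j, j ≤ n ∧ k = j + 1) ∨ k = n + 2 := by
  rcases Nat.eq_zero_or_pos k with h0 | h0
  · exact Or.inl h0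
  · rcases Nat.lt_or_ge k (n + 2) with h1 | h1
    · exact Or.inr (Or.inl ⟨k - 1, by omega, by omega⟩)
    · exact Or.inr (Or.inr (by omega))

section pieces

variable {n : ℕ} {Bo Mo Me Ko Ke Rk Ro : Set ℂ} {Dr Cl Hd : ℕ → Set ℂ} {Hu D0 : Set ℂ} {Dd : ℕ → Set ℂ} {Du MpP MmP Yo : Set ℂ} {Co : ℕ → Set ℂ} {Yr Ye : Set ℂ} {Zm Zp : ℕ → Set ℂ} {Zmu Zpu : Set ℂ}

/-! ## 2. the pieces -/

namespace Pvc2gRm

variable (G : Pvc2gRm n Bo Mo Me Ko Ke Rk Ro Dr Cl Hd Hu D0 Dd Du MpP MmP Yo Co Yr Ye Zm Zp Zmu Zpu)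
include G

/-- the room of the first link, without the stub -/
theorem fat0' {w : ℂ} (h : w ∈ Yo ∪ Zm 0) : w ∈ Mo ∨ w ∈ Ko ∨ (w ∈ Dr 0 ∧ w ∉ Hd 0) := by
  rcases h with h | h
  · rcases G.Yo_sub h with (h | h) | h
    · exact Or.inl h
    · exact Or.inr (Or.inl h)
    · exact Or.inr (Or.inr h)
  · exact Or.inr (Or.inr (G.Zm_sub 0 (Nat.zero_le n) h))

/-- the room of the first link -/
theorem fat0 {w : ℂ} (h : w ∈ MpP ∪ Yo ∪ Zm 0) : w ∈ MpP ∨ w ∈ Mo ∨ w ∈ Ko ∨ (w ∈ Dr 0 ∧ w ∉ Hd 0) := by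
  rcases h with (h | h) | h
  · exact Or.inl h
  · exact Or.inr (G.fat0' (Or.inl h))
  · exact Or.inr (G.fat0' (Or.inr h))

/-- the room of a cell -/
theorem fatc {j : ℕ} (hj : j < n) {w : ℂ} (h : w ∈ Co j) : (w ∈ Dr j ∧ w ∈ Hd j) ∨ w ∈ Cl j ∨ (w ∈ Dr (j + 1) ∧ w ∉ Hd (j + 1)) := by
  rcases G.Co_sub j hj h with (h | h) | h
  · exact Or.inl h
  · exact Or.inr (Or.inl h)
  · exact Or.inr (Or.inr h)

/-- the room of the thin link into the reference plug -/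
theorem fatr {w : ℂ} (h : w ∈ Zp n ∪ Yr ∪ Zmu) : (w ∈ Dr n ∧ w ∈ Hd n) ∨ w ∈ Rk ∨ (w ∈ Ro ∧ w ∉ Hu) := by
  rcases h with (h | h) | h
  · exact Or.inl (G.Zp_sub n le_rfl h)
  · rcases G.Yr_sub h with (h | h) | h
    · exact Or.inl h
    · exact Or.inr (Or.inl h)
    · exact Or.inr (Or.inr h)
  · exact Or.inr (Or.inr (G.Zmu_sub h))

/-- the room of the thick link, without the stub -/
theorem fate' {w : ℂ} (h : w ∈ Zpu ∪ Ye) : (w ∈ Ro ∧ w ∈ Hu) ∨ w ∈ Ke ∨ w ∈ Me := by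
  rcases h with h | h
  · exact Or.inl (G.Zpu_sub h)
  · rcases G.Ye_sub h with (h | h) | h
    · exact Or.inl h
    · exact Or.inr (Or.inl h)
    · exact Or.inr (Or.inr h)

/-- the room of the thick link -/
theorem fate {w : ℂ} (h : w ∈ Zpu ∪ Ye ∪ MmP) : (w ∈ Ro ∧ w ∈ Hu) ∨ w ∈ Ke ∨ w ∈ Me ∨ w ∈ MmP := by
  rcases h with h | h
  · rcases G.fate' h with h | h | h
    · exact Or.inl h
    · exact Or.inr (Or.inl h)
    · exact Or.inr (Or.inr (Or.inl h))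
  · exact Or.inr (Or.inr (Or.inr h))

variable (A : Pvc2gAt n Bo Mo Me Ko Ke Rk Ro Dr Cl)
include A

/-! ### rooms against rooms -/

theorem r0c {j : ℕ} (hj : j < n) : Disjoint (MpP ∪ Yo ∪ Zm 0) (Co j) := by
  rw [Set.disjoint_left]
  intro w h1 h2
  rcases G.fat0 h1 with h | h | h | h <;> rcases G.fatc hj h2 with h' | h' | h'
  · exact pvc2g_nm (A.BoDr j hj.le) w (G.Mp_box h) h'.1
  · exact pvc2g_nm (A.BoCl j hj) w (G.Mp_box h) h'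
  · exact pvc2g_nm (A.BoDr (j + 1) hj) w (G.Mp_box h) h'.1
  · exact pvc2g_nm (A.MoDr j hj.le) w h h'.1
  · exact pvc2g_nm (A.MoCl j hj) w h h'
  · exact pvc2g_nm (A.MoDr (j + 1) hj) w h h'.1
  · exact pvc2g_nm (A.KoDr j hj.le) w h h'.1
  · exact pvc2g_nm (A.KoCl j hj) w h h'
  · exact pvc2g_nm (A.KoDr (j + 1) hj) w h h'.1
  · rcases Nat.eq_zero_or_pos j with h0 | h0
    · subst h0
      exact h.2 h'.2
    · exact pvc2g_nm (A.DrDr 0 j (Nat.zero_le n) hj.le (by omega)) w h.1 h'.1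
  · exact pvc2g_nm (A.DrCl 0 j (Nat.zero_le n) hj) w h.1 h'
  · exact pvc2g_nm (A.DrDr 0 (j + 1) (Nat.zero_le n) hj (by omega)) w h.1 h'.1

theorem r0r : Disjoint (MpP ∪ Yo ∪ Zm 0) (Zp n ∪ Yr ∪ Zmu) := by
  rw [Set.disjoint_left]
  intro w h1 h2
  rcases G.fat0 h1 with h | h | h | h <;> rcases G.fatr h2 with h' | h' | h'
  · exact pvc2g_nm (A.BoDr n le_rfl) w (G.Mp_box h) h'.1
  · exact pvc2g_nm A.BoRk w (G.Mp_box h) h'
  · exact pvc2g_nm A.BoRo w (G.Mp_box h) h'.1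
  · exact pvc2g_nm (A.MoDr n le_rfl) w h h'.1
  · exact pvc2g_nm A.MoRk w h h'
  · exact pvc2g_nm A.MoRo w h h'.1
  · exact pvc2g_nm (A.KoDr n le_rfl) w h h'.1
  · exact pvc2g_nm A.KoRk w h h'
  · exact pvc2g_nm A.KoRo w h h'.1
  · rcases Nat.eq_zero_or_pos n with h0 | h0
    · subst h0
      exact h.2 h'.2
    · exact pvc2g_nm (A.DrDr 0 n (Nat.zero_le n) le_rfl (by omega)) w h.1 h'.1
  · exact pvc2g_nm (A.RkDr 0 (Nat.zero_le n)) w h' h.1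
  · exact pvc2g_nm (A.RoDr 0 (Nat.zero_le n)) w h'.1 h.1

theorem r0e : Disjoint (MpP ∪ Yo ∪ Zm 0) (Zpu ∪ Ye ∪ MmP) := by
  rw [Set.disjoint_left]
  intro w h1 h2
  rcases G.fat0 h1 with h | h | h | h <;> rcases G.fate h2 with h' | h' | h' | h'
  · exact pvc2g_nm A.BoRo w (G.Mp_box h) h'.1
  · exact pvc2g_nm A.BoKe w (G.Mp_box h) h'
  · exact pvc2g_nm G.Mp_Me w h h'
  · exact pvc2g_nm G.Mp_Mm w h h'
  · exact pvc2g_nm A.MoRo w h h'.1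
  · exact pvc2g_nm A.MoKe w h h'
  · exact pvc2g_nm A.MoMe w h h'
  · exact pvc2g_nm G.Mm_Mo w h' h
  · exact pvc2g_nm A.KoRo w h h'.1
  · exact pvc2g_nm A.KoKe w h h'
  · exact pvc2g_nm A.MeKo w h' h
  · exact pvc2g_nm A.BoKo w (G.Mm_box h') h
  · exact pvc2g_nm (A.RoDr 0 (Nat.zero_le n)) w h'.1 h.1
  · exact pvc2g_nm (A.KeDr 0 (Nat.zero_le n)) w h' h.1
  · exact pvc2g_nm (A.MeDr 0 (Nat.zero_le n)) w h' h.1
  · exact pvc2g_nm (A.BoDr 0 (Nat.zero_le n)) w (G.Mm_box h') h.1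

theorem rcc {i j : ℕ} (hij : i < j) (hj : j < n) : Disjoint (Co i) (Co j) := by
  rw [Set.disjoint_left]
  intro w h1 h2
  have hi : i < n := by omega
  rcases G.fatc hi h1 with h | h | h <;> rcases G.fatc hj h2 with h' | h' | h'
  · exact pvc2g_nm (A.DrDr i j hi.le hj.le (by omega)) w h.1 h'.1
  · exact pvc2g_nm (A.DrCl i j hi.le hj) w h.1 h'
  · exact pvc2g_nm (A.DrDr i (j + 1) hi.le hj (by omega)) w h.1 h'.1
  · exact pvc2g_nm (A.DrCl j i hj.le hi) w h'.1 h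
  · exact pvc2g_nm (A.ClCl i j hi hj (by omega)) w h h'
  · exact pvc2g_nm (A.DrCl (j + 1) i hj hi) w h'.1 h
  · rcases Nat.eq_or_lt_of_le (show i + 1 ≤ j from hij) with h0 | h0
    · subst h0
      exact h.2 h'.2
    · exact pvc2g_nm (A.DrDr (i + 1) j hi hj.le (by omega)) w h.1 h'.1
  · exact pvc2g_nm (A.DrCl (i + 1) j hi hj) w h.1 h'
  · exact pvc2g_nm (A.DrDr (i + 1) (j + 1) hi hj (by omega)) w h.1 h'.1

theorem rcr {j : ℕ} (hj : j < n) : Disjoint (Co j) (Zp n ∪ Yr ∪ Zmu) := by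
  rw [Set.disjoint_left]
  intro w h1 h2
  rcases G.fatc hj h1 with h | h | h <;> rcases G.fatr h2 with h' | h' | h'
  · exact pvc2g_nm (A.DrDr j n hj.le le_rfl (by omega)) w h.1 h'.1
  · exact pvc2g_nm (A.RkDr j hj.le) w h' h.1
  · exact pvc2g_nm (A.RoDr j hj.le) w h'.1 h.1
  · exact pvc2g_nm (A.DrCl n j le_rfl hj) w h'.1 h
  · exact pvc2g_nm (A.RkCl j hj) w h' h
  · exact pvc2g_nm (A.RoCl j hj) w h'.1 h
  · rcases Nat.eq_or_lt_of_le (show j + 1 ≤ n from hj) with h0 | h0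
    · subst h0
      exact h.2 h'.2
    · exact pvc2g_nm (A.DrDr (j + 1) n hj le_rfl (by omega)) w h.1 h'.1
  · exact pvc2g_nm (A.RkDr (j + 1) hj) w h' h.1
  · exact pvc2g_nm (A.RoDr (j + 1) hj) w h'.1 h.1

theorem rce {j : ℕ} (hj : j < n) : Disjoint (Co j) (Zpu ∪ Ye ∪ MmP) := by
  rw [Set.disjoint_left]
  intro w h1 h2
  rcases G.fatc hj h1 with h | h | h <;> rcases G.fate h2 with h' | h' | h' | h'
  · exact pvc2g_nm (A.RoDr j hj.le) w h'.1 h.1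
  · exact pvc2g_nm (A.KeDr j hj.le) w h' h.1
  · exact pvc2g_nm (A.MeDr j hj.le) w h' h.1
  · exact pvc2g_nm (A.BoDr j hj.le) w (G.Mm_box h') h.1
  · exact pvc2g_nm (A.RoCl j hj) w h'.1 h
  · exact pvc2g_nm (A.KeCl j hj) w h' h
  · exact pvc2g_nm (A.MeCl j hj) w h' h
  · exact pvc2g_nm (A.BoCl j hj) w (G.Mm_box h') h
  · exact pvc2g_nm (A.RoDr (j + 1) hj) w h'.1 h.1
  · exact pvc2g_nm (A.KeDr (j + 1) hj) w h' h.1
  · exact pvc2g_nm (A.MeDr (j + 1) hj) w h' h.1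
  · exact pvc2g_nm (A.BoDr (j + 1) hj) w (G.Mm_box h') h.1

theorem rre : Disjoint (Zp n ∪ Yr ∪ Zmu) (Zpu ∪ Ye ∪ MmP) := by
  rw [Set.disjoint_left]
  intro w h1 h2
  rcases G.fatr h1 with h | h | h <;> rcases G.fate h2 with h' | h' | h' | h'
  · exact pvc2g_nm (A.RoDr n le_rfl) w h'.1 h.1
  · exact pvc2g_nm (A.KeDr n le_rfl) w h' h.1
  · exact pvc2g_nm (A.MeDr n le_rfl) w h' h.1
  · exact pvc2g_nm (A.BoDr n le_rfl) w (G.Mm_box h') h.1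
  · exact pvc2g_nm A.RkRo w h h'.1
  · exact pvc2g_nm A.KeRk w h' h
  · exact pvc2g_nm A.MeRk w h' h
  · exact pvc2g_nm A.BoRk w (G.Mm_box h') h
  · exact h.2 h'.2
  · exact pvc2g_nm A.KeRo w h' h.1
  · exact pvc2g_nm A.MeRo w h' h.1
  · exact pvc2g_nm A.BoRo w (G.Mm_box h') h.1

/-! ### discs against discs -/

theorem d0d {j : ℕ} (hj : j ≤ n) : Disjoint D0 (Dd j) := (A.BoDr j hj).mono G.D0_box (G.Dd_sub j hj)

theorem d0u : Disjoint D0 Du := A.BoRo.mono G.D0_box G.Du_sub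

theorem ddd {i j : ℕ} (hi : i ≤ n) (hj : j ≤ n) (hij : i ≠ j) : Disjoint (Dd i) (Dd j) := (A.DrDr i j hi hj hij).mono (G.Dd_sub i hi) (G.Dd_sub j hj)

theorem ddu {j : ℕ} (hj : j ≤ n) : Disjoint (Dd j) Du := (A.RoDr j hj).symm.mono (G.Dd_sub j hj) G.Du_sub

/-! ### a disc against the room of a link which does not end at it -/

theorem f0c {j : ℕ} (hj : j < n) : Disjoint D0 (Co j) := by
  rw [Set.disjoint_left]
  intro w h1 h2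
  rcases G.fatc hj h2 with h' | h' | h'
  · exact pvc2g_nm (A.BoDr j hj.le) w (G.D0_box h1) h'.1
  · exact pvc2g_nm (A.BoCl j hj) w (G.D0_box h1) h'
  · exact pvc2g_nm (A.BoDr (j + 1) hj) w (G.D0_box h1) h'.1

theorem f0r : Disjoint D0 (Zp n ∪ Yr ∪ Zmu) := by
  rw [Set.disjoint_left]
  intro w h1 h2
  rcases G.fatr h2 with h' | h' | h'
  · exact pvc2g_nm (A.BoDr n le_rfl) w (G.D0_box h1) h'.1
  · exact pvc2g_nm A.BoRk w (G.D0_box h1) h'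
  · exact pvc2g_nm A.BoRo w (G.D0_box h1) h'.1

theorem fd0 {i : ℕ} (h0 : 0 < i) (hi : i ≤ n) : Disjoint (Dd i) (MpP ∪ Yo ∪ Zm 0) := by
  rw [Set.disjoint_left]
  intro w h1 h2
  have b := G.Dd_sub i hi h1
  rcases G.fat0 h2 with h' | h' | h' | h'
  · exact pvc2g_nm (A.BoDr i hi) w (G.Mp_box h') b
  · exact pvc2g_nm (A.MoDr i hi) w h' b
  · exact pvc2g_nm (A.KoDr i hi) w h' b
  · exact pvc2g_nm (A.DrDr 0 i (Nat.zero_le n) hi (by omega)) w h'.1 b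

theorem fdc {i j : ℕ} (hi : i ≤ n) (hj : j < n) (h1 : i ≠ j) (h2 : i ≠ j + 1) : Disjoint (Dd i) (Co j) := by
  rw [Set.disjoint_left]
  intro w h3 h4
  have b := G.Dd_sub i hi h3
  rcases G.fatc hj h4 with h' | h' | h'
  · exact pvc2g_nm (A.DrDr i j hi hj.le h1) w b h'.1
  · exact pvc2g_nm (A.DrCl i j hi hj) w b h'
  · exact pvc2g_nm (A.DrDr i (j + 1) hi hj h2) w b h'.1

theorem fdr {i : ℕ} (hi : i < n) : Disjoint (Dd i) (Zp n ∪ Yr ∪ Zmu) := by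
  rw [Set.disjoint_left]
  intro w h3 h4
  have b := G.Dd_sub i hi.le h3
  rcases G.fatr h4 with h' | h' | h'
  · exact pvc2g_nm (A.DrDr i n hi.le le_rfl (by omega)) w b h'.1
  · exact pvc2g_nm (A.RkDr i hi.le) w h' b
  · exact pvc2g_nm (A.RoDr i hi.le) w h'.1 b

theorem fde {i : ℕ} (hi : i ≤ n) : Disjoint (Dd i) (Zpu ∪ Ye ∪ MmP) := by
  rw [Set.disjoint_left]
  intro w h3 h4
  have b := G.Dd_sub i hi h3
  rcases G.fate h4 with h' | h' | h' | h'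
  · exact pvc2g_nm (A.RoDr i hi) w h'.1 b
  · exact pvc2g_nm (A.KeDr i hi) w h' b
  · exact pvc2g_nm (A.MeDr i hi) w h' b
  · exact pvc2g_nm (A.BoDr i hi) w (G.Mm_box h') b

theorem fu0 : Disjoint Du (MpP ∪ Yo ∪ Zm 0) := by
  rw [Set.disjoint_left]
  intro w h3 h4
  have b := G.Du_sub h3
  rcases G.fat0 h4 with h' | h' | h' | h'
  · exact pvc2g_nm A.BoRo w (G.Mp_box h') b
  · exact pvc2g_nm A.MoRo w h' b
  · exact pvc2g_nm A.KoRo w h' b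
  · exact pvc2g_nm (A.RoDr 0 (Nat.zero_le n)) w b h'.1

theorem fuc {j : ℕ} (hj : j < n) : Disjoint Du (Co j) := by
  rw [Set.disjoint_left]
  intro w h3 h4
  have b := G.Du_sub h3
  rcases G.fatc hj h4 with h' | h' | h'
  · exact pvc2g_nm (A.RoDr j hj.le) w b h'.1
  · exact pvc2g_nm (A.RoCl j hj) w b h'
  · exact pvc2g_nm (A.RoDr (j + 1) hj) w b h'.1

/-! ### the eight lines of the special links -/

theorem o1 : Disjoint D0 (Yo ∪ Zm 0) := by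
  rw [Set.disjoint_left]
  intro w h1 h2
  rcases G.fat0' h2 with h' | h' | h'
  · exact pvc2g_nm G.D0_Mo w h1 h'
  · exact pvc2g_nm A.BoKo w (G.D0_box h1) h'
  · exact pvc2g_nm (A.BoDr 0 (Nat.zero_le n)) w (G.D0_box h1) h'.1

theorem o2 : Disjoint (Zp 0) (Yo ∪ Bo) := by
  rw [Set.disjoint_left]
  intro w h1 h2
  have b := G.Zp_sub 0 (Nat.zero_le n) h1
  rcases h2 with h2 | h2
  · rcases G.fat0' (Or.inl h2) with h' | h' | h'
    · exact pvc2g_nm (A.MoDr 0 (Nat.zero_le n)) w h' b.1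
    · exact pvc2g_nm (A.KoDr 0 (Nat.zero_le n)) w h' b.1
    · exact h'.2 b.2
  · exact pvc2g_nm (A.BoDr 0 (Nat.zero_le n)) w h2 b.1

theorem o3 : Disjoint Bo (Dd 0) := (A.BoDr 0 (Nat.zero_le n)).mono_right (G.Dd_sub 0 (Nat.zero_le n))

theorem r1 : Disjoint (Zm n) Yr := by
  rw [Set.disjoint_left]
  intro w h1 h2
  have b := G.Zm_sub n le_rfl h1
  rcases G.fatr (Or.inl (Or.inr h2)) with h' | h' | h'
  · exact b.2 h'.2
  · exact pvc2g_nm (A.RkDr n le_rfl) w h' b.1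
  · exact pvc2g_nm (A.RoDr n le_rfl) w h'.1 b.1

theorem r2 : Disjoint Zpu Yr := by
  rw [Set.disjoint_left]
  intro w h1 h2
  have b := G.Zpu_sub h1
  rcases G.fatr (Or.inl (Or.inr h2)) with h' | h' | h'
  · exact pvc2g_nm (A.RoDr n le_rfl) w b.1 h'.1
  · exact pvc2g_nm A.RkRo w h' b.1
  · exact h'.2 b.2

theorem e1 : Disjoint D0 (Zpu ∪ Ye) := by
  rw [Set.disjoint_left]
  intro w h1 h2
  rcases G.fate' h2 with h' | h' | h'
  · exact pvc2g_nm A.BoRo w (G.D0_box h1) h'.1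
  · exact pvc2g_nm A.BoKe w (G.D0_box h1) h'
  · exact pvc2g_nm G.D0_Me w h1 h'

theorem e2 : Disjoint Zmu (Ye ∪ Bo) := by
  rw [Set.disjoint_left]
  intro w h1 h2
  have b := G.Zmu_sub h1
  rcases h2 with h2 | h2
  · rcases G.fate' (Or.inr h2) with h' | h' | h'
    · exact b.2 h'.2
    · exact pvc2g_nm A.KeRo w h' b.1
    · exact pvc2g_nm A.MeRo w h' b.1
  · exact pvc2g_nm A.BoRo w h2 b.1

theorem e3 : Disjoint Bo Du := A.BoRo.mono_right G.Du_sub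

/-! ## 3. the rooms of the cycle -/

/-- **(H), THE ROOMS OF 264 AT THE SEQUENCES OF 42** -/
theorem rm : PvcaRm (n + 3) (pvdwSq n D0 Dd (Dd n) Du) (pvdwSq n (MpP ∪ Yo ∪ Zm 0) Co (Zp n ∪ Yr ∪ Zmu) (Zpu ∪ Ye ∪ MmP)) where
  DD := by
    intro i j hij hj
    rcases pvc2g_pcases (show i < n + 3 by omega) with rfl | ⟨i', hi', rfl⟩ | rfl <;> rcases pvc2g_pcases hj with rfl | ⟨j', hj', rfl⟩ | rfl
    · omega
    · rw [pvdw_sq_zero, pvdw_sq_door _ _ _ _ hj']; exact G.d0d A hj'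
    · rw [pvdw_sq_zero, pvdw_sq_e]; exact G.d0u A
    · omega
    · rw [pvdw_sq_door _ _ _ _ hi', pvdw_sq_door _ _ _ _ hj']; exact G.ddd A hi' hj' (by omega)
    · rw [pvdw_sq_door _ _ _ _ hi', pvdw_sq_e]; exact G.ddu A hi'
    · omega
    · omega
    · omega
  RR := by
    intro i j hij hj
    rcases pvdw_cases (show i < n + 3 by omega) with rfl | ⟨i', hi', rfl⟩ | rfl | rfl <;> rcases pvdw_cases hj with rfl | ⟨j', hj', rfl⟩ | rfl | rfl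
    · omega
    · rw [pvdw_sq_zero, pvdw_sq_cell _ _ _ _ _ hj']; exact G.r0c A hj'
    · rw [pvdw_sq_zero, pvdw_sq_r]; exact G.r0r A
    · rw [pvdw_sq_zero, pvdw_sq_e]; exact G.r0e A
    · omega
    · rw [pvdw_sq_cell _ _ _ _ _ hi', pvdw_sq_cell _ _ _ _ _ hj']; exact G.rcc A (by omega) hj'
    · rw [pvdw_sq_cell _ _ _ _ _ hi', pvdw_sq_r]; exact G.rcr A hi'
    · rw [pvdw_sq_cell _ _ _ _ _ hi', pvdw_sq_e]; exact G.rce A hi'
    · omega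
    · omega
    · omega
    · rw [pvdw_sq_r, pvdw_sq_e]; exact G.rre A
    · omega
    · omega
    · omega
    · omega
  far := by
    intro i j hi hj h1 h2
    rcases pvc2g_pcases hi with rfl | ⟨i', hi', rfl⟩ | rfl <;> rcases pvdw_cases hj with rfl | ⟨j', hj', rfl⟩ | rfl | rfl
    · omega
    · rw [pvdw_sq_zero, pvdw_sq_cell _ _ _ _ _ hj']; exact G.f0c A hj'
    · rw [pvdw_sq_zero, pvdw_sq_r]; exact G.f0r A
    · rw [Nat.mod_self] at h2; omega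
    · rw [Nat.mod_eq_of_lt (by omega)] at h2
      rw [pvdw_sq_door _ _ _ _ hi', pvdw_sq_zero]; exact G.fd0 A (by omega) hi'
    · rw [Nat.mod_eq_of_lt (by omega)] at h2
      rw [pvdw_sq_door _ _ _ _ hi', pvdw_sq_cell _ _ _ _ _ hj']; exact G.fdc A hi' hj' (by omega) (by omega)
    · rw [pvdw_sq_door _ _ _ _ hi', pvdw_sq_r]; exact G.fdr A (by omega)
    · rw [pvdw_sq_door _ _ _ _ hi', pvdw_sq_e]; exact G.fde A hi'
    · rw [pvdw_sq_e, pvdw_sq_zero]; exact G.fu0 A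
    · rw [pvdw_sq_e, pvdw_sq_cell _ _ _ _ _ hj']; exact G.fuc A hj'
    · rw [Nat.mod_eq_of_lt (by omega)] at h2; omega
    · omega

end Pvc2gRm

end pieces

/-- **(H) = `PvdwHd` OF 42 FROM THE ATOMS** -/
theorem pvc2g_hd {N : PvwNum} {Lo Lr Le : PvilLk} {𝔭 𝔭u : PvkdPlug} {n : ℕ} {Z Dv : ℕ → ℂ} {Co : ℕ → Set ℂ} {zu du : ℂ} {MpP MmP Mo Me Ko Ke Rk Ro : Set ℂ} {Dr Cl Hd : ℕ → Set ℂ} {Hu : Set ℂ}
    (A : Pvc2gAt n (pvcaBx N Lo.p) Mo Me Ko Ke Rk Ro Dr Cl)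
    (G : Pvc2gRm n (pvcaBx N Lo.p) Mo Me Ko Ke Rk Ro Dr Cl Hd Hu (Metric.ball Lo.p.z (Lo.p.ty.b * Lo.p.h)) (fun j => Metric.ball (Z j) 𝔭.b) (Metric.ball zu 𝔭u.b) MpP MmP Lo.Yin Co Lr.Yin Le.Yin
      (fun j => pvkdAt (Z j) (Dv j) 𝔭.Zm) (fun j => pvkdAt (Z j) (Dv j) 𝔭.Zp) (pvkdAt zu du 𝔭u.Zm) (pvkdAt zu du 𝔭u.Zp)) :
    PvdwHd N Lo Lr Le 𝔭 𝔭u n Z Dv Co zu du MpP MmP where
  rm := G.rm A
  o1 := G.o1 A
  o2 := G.o2 A
  o3 := G.o3 A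
  r1 := G.r1 A
  r2 := G.r2 A
  e1 := G.e1 A
  e2 := G.e2 A
  e3 := G.e3 A

end Claimed.Agent.R289
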