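-- KEEP CAPOK
import Claimed.Agent.R289.Tr.AtCyl
import Claimed.Agent.R289.Tr.InstL
import Claimed.Agent.R289.Tr.StopM

/-!
# Row 289 (S0537), THE WALL, road E, file Tr/AtCylL : D6 AT THE MODEL IN THE NAMES OF `Tr/InstL` v2.2 (168, 163)      (helper255; prefix `pvkfl`, `Pvkfl`)      0 sorry

sec. 1  THE FAMILIES OF A PLACED CANDIDATE READ IN A FRAME `fr ≠ 0` (positions `conj fr * v`, centre `conj fr * z`), ANY colour free clause `Q`: `PvkflO PvkflI PvkflA`, window `pvkflB`, `pvkfl_fam_out _in _at_out _at_in` : `PvkfFam ..` (so ALL of `Tr/AtCyl` sec. 4, 6 applies).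
sec. 2  `pvkflOb` (any observable of THE state), `pvkfl_ob_congr _conf`;   **`pvkfl_win2`** (two mouths of ONE state live in one window), `pvkfl_win_out _in _at2`.
sec. 3  THE NAMES OF `Tr/InstL`: `pvkfl_out_iff _in_iff _at_iff` (`PvilOut PvilIn PvilAt` = cylinder families `PvkflSo Si Sa` in the form `(Y, σ)`), `pvkfl_Uo_iff ..`, `pvkfl_FzO_eq ..`, `pvkfl_FzO_of` (`F` = the frozen positions of ANY state), `pvkfl_out_same`,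
        **`pvkfl_HuO_eq pvkfl_HuI_eq` : `Z = pvtCells δ (F ∪ mouth ball)` on the half state** (`∅` off it: `pvkfl_HuO_empty`);   (FIN) `pvkfl_FzO_finite _sub`, `pvkfl_HuO_finite`;
        **D6** `pvkfl_conf_out _in _at`: same sites + same colours on the frozen positions ⟹ the (half) state exists again, same `F`, same `Z`;
        **STOP** (guard `pvsmGd` of 96): `pvkfl_stop_out _in` (half state, ANY bounded mouth), **`pvkfl_stop_at`** (two mouths of one candidate under `pvilU`), `pvkfl_stop_at_if` (+ a deterministic guard), **`pvkfl_stop_two`** (chain, disjoint windows);   windows: `pvkfl_gd_*_win : PvkfWin ..`;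
        measurability of `Uo Ui U` and of the level sets of `F` at a fixed countable geometry, `∑_F P(F) ≤ 1`: `pvkfl_Uo_meas .. pvkfl_FzO_meas pvkfl_FzO_sum_le ..`.
sec. 4  **THE SEAM**: `pvkfl_at_std` (`PvilAt` in the standard frame = `PvieAt`), **`pvkfl_at_model`** (`PvxAt 𝔓 m ω z t 𝔖 ↔ PvilAt .. (pvilPin 𝔓 m z t) (pvConf ω) 𝔖`), **`pvkfl_U_model`** (`pvxU 𝔓 m z t = pvConf ⁻¹' pvilU ..`).
sec. 5  THE DATA OF RECORD: `pvkfl_W_pin` (window = `pvkfB` = box of the level ∪ disc of the core), `pvkfl_Zo_eq _Zi_eq`, `pvkfl_Fo_finite .. pvkfl_Zo_finite ..`, `pvkfl_Fo_sub`, `pvkfl_base_out _in _at`,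
        **`pvkfl_stop_cyc`** (`pvilYfcyc` under `pvilU`), **`pvkfl_stop_thick`** (`(z + Se) \ Fi ∪ (z + Sf) \ Fo` under `P ∧ pvilU` = `pvjtY (pvjtBeta ..)` of 223), **`pvkfl_stop_chain`** (`pvilYfc` on `Uo(t) ∩ Ui(s)`).
NOT HERE: the half state carried to a configuration with OTHER SITES off the window (locality of the Delaunay map: (b1) of 35 / 71).
-/

set_option autoImplicit false
set_option linter.unusedSectionVars false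
set_option linter.unusedVariables false

namespace Claimed.Agent.R289

open Set MeasureTheory Claims.C0465
open scoped ENNReal ComplexConjugate

/-! ## 1. the families in a frame -/

section frame

variable (N : PvwNum) (h : ℝ) (z : ℂ) (τ : PvwTy) (fr : ℂ) (Q : ∀ Y : Set ℂ, PvwSt (delbPl Y).toMap → Prop)

/-- the positions of the sites `Y` in the frame `fr` -/
noncomputable def pvkflP (Y : Set ℂ) : ↥Y → ℂ := fun v => conj fr * v.1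

/-- the window of the candidate, absolute -/
def pvkflB : Set ℂ := (fun w : ℂ => conj fr * w) ⁻¹' pvkfB N h (conj fr * z) τ

/-- exit half state in the frame `fr` -/
def PvkflO (Y : Set ℂ) (s : ↥Y → Bool) (𝔖 : PvwSt (delbPl Y).toMap) : Prop := DelGood Y ∧ 𝔖.AtOut (pvkflP fr Y) N h (conj fr * z) τ s ∧ Q Y 𝔖

/-- entrance half state in the frame `fr` -/
def PvkflI (Y : Set ℂ) (s : ↥Y → Bool) (𝔖 : PvwSt (delbPl Y).toMap) : Prop := DelGood Y ∧ 𝔖.AtIn (pvkflP fr Y) N h (conj fr * z) τ s ∧ Q Y 𝔖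

/-- full state in the frame `fr` -/
def PvkflA (Y : Set ℂ) (s : ↥Y → Bool) (𝔖 : PvwSt (delbPl Y).toMap) : Prop := DelGood Y ∧ 𝔖.At (pvkflP fr Y) N h (conj fr * z) τ s ∧ Q Y 𝔖

theorem pvkfl_eqns_cite1 : True := by
  have := @pvkflP.eq_1; have := @pvkflB.eq_1; have := @PvkflO.eq_1; have := @PvkflI.eq_1; have := @PvkflA.eq_1
  trivial

variable {fr}

theorem pvkfl_P_inj (hfr : fr ≠ 0) (Y : Set ℂ) : Function.Injective (pvkflP fr Y) := by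
  intro u v huv
  have h1 : conj fr * u.1 = conj fr * v.1 := huv
  exact Subtype.ext (mul_left_cancel₀ ((map_ne_zero _).2 hfr) h1)

theorem pvkfl_B_bdd (hfr : fr ≠ 0) : Bornology.IsBounded (pvkflB N h z τ fr) := by
  obtain ⟨R, hR⟩ := (pvkf_B_bdd N h (conj fr * z) τ).subset_closedBall (0 : ℂ)
  refine Metric.isBounded_closedBall.subset (s := pvkflB N h z τ fr) (t := Metric.closedBall 0 (R / ‖fr‖)) fun w hw => ?_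
  have h1 := hR hw
  rw [Metric.mem_closedBall, dist_zero_right, norm_mul, RCLike.norm_conj] at h1
  rw [Metric.mem_closedBall, dist_zero_right, le_div_iff₀ (norm_pos_iff.2 hfr)]
  linarith [mul_comm ‖w‖ ‖fr‖]

theorem pvkfl_fam_out (hfr : fr ≠ 0) : PvkfFam (PvkflO N h z τ fr Q) (fun _ 𝔖 => 𝔖.fzOut) (fun _ 𝔖 => 𝔖.fzOut) (pvkflB N h z τ fr) where
  cyl := fun Y =>
    { fin := fun s 𝔖 ha => (pvkf_out (pvkf_mo Y ha.1).1 (pvkf_mo Y ha.1).2.1 (pvkfl_P_inj hfr Y) N h _ τ).fin s 𝔖 ha.2.1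
      cyl := fun s s' 𝔖 ha hs => ⟨ha.1, (pvkf_out (pvkf_mo Y ha.1).1 (pvkf_mo Y ha.1).2.1 (pvkfl_P_inj hfr Y) N h _ τ).cyl s s' 𝔖 ha.2.1 hs, ha.2.2⟩
      uni := fun s 𝔖 𝔖' ha ha' => (pvkf_out (pvkf_mo Y ha.1).1 (pvkf_mo Y ha.1).2.1 (pvkfl_P_inj hfr Y) N h _ τ).uni s 𝔖 𝔖' ha.2.1 ha'.2.1 }
  lf := fun _ _ _ ha => ha.1.lf
  box := fun _ _ _ ha _ hu => pvkf_out_box ha.2.1 hu
  bdd := pvkfl_B_bdd N h z τ hfr
  Gu := fun Y s 𝔖 𝔖' ha ha' => (pvkf_out (pvkf_mo Y ha.1).1 (pvkf_mo Y ha.1).2.1 (pvkfl_P_inj hfr Y) N h _ τ).uni s 𝔖 𝔖' ha.2.1 ha'.2.1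

theorem pvkfl_fam_in (hfr : fr ≠ 0) : PvkfFam (PvkflI N h z τ fr Q) (fun _ 𝔖 => 𝔖.fzIn) (fun _ 𝔖 => 𝔖.fzIn) (pvkflB N h z τ fr) where
  cyl := fun Y =>
    { fin := fun s 𝔖 ha => (pvkf_in (pvkf_mo Y ha.1).1 (pvkf_mo Y ha.1).2.1 (pvkfl_P_inj hfr Y) N h _ τ).fin s 𝔖 ha.2.1
      cyl := fun s s' 𝔖 ha hs => ⟨ha.1, (pvkf_in (pvkf_mo Y ha.1).1 (pvkf_mo Y ha.1).2.1 (pvkfl_P_inj hfr Y) N h _ τ).cyl s s' 𝔖 ha.2.1 hs, ha.2.2⟩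
      uni := fun s 𝔖 𝔖' ha ha' => (pvkf_in (pvkf_mo Y ha.1).1 (pvkf_mo Y ha.1).2.1 (pvkfl_P_inj hfr Y) N h _ τ).uni s 𝔖 𝔖' ha.2.1 ha'.2.1 }
  lf := fun _ _ _ ha => ha.1.lf
  box := fun _ _ _ ha _ hu => pvkf_in_box ha.2.1 hu
  bdd := pvkfl_B_bdd N h z τ hfr
  Gu := fun Y s 𝔖 𝔖' ha ha' => (pvkf_in (pvkf_mo Y ha.1).1 (pvkf_mo Y ha.1).2.1 (pvkfl_P_inj hfr Y) N h _ τ).uni s 𝔖 𝔖' ha.2.1 ha'.2.1

theorem pvkfl_cyl_at (hfr : fr ≠ 0) (Y : Set ℂ) : PvkfCyl (PvkflA N h z τ fr Q Y) (fun 𝔖 => 𝔖.fz) where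
  fin := fun s 𝔖 ha => (pvkf_at (pvkf_mo Y ha.1).1 (pvkf_mo Y ha.1).2.1 (pvkfl_P_inj hfr Y) N h _ τ).fin s 𝔖 ha.2.1
  cyl := fun s s' 𝔖 ha hs => ⟨ha.1, (pvkf_at (pvkf_mo Y ha.1).1 (pvkf_mo Y ha.1).2.1 (pvkfl_P_inj hfr Y) N h _ τ).cyl s s' 𝔖 ha.2.1 hs, ha.2.2⟩
  uni := fun s 𝔖 𝔖' ha ha' => (pvkf_at (pvkf_mo Y ha.1).1 (pvkf_mo Y ha.1).2.1 (pvkfl_P_inj hfr Y) N h _ τ).uni s 𝔖 𝔖' ha.2.1 ha'.2.1

theorem pvkfl_fam_at_out (hfr : fr ≠ 0) : PvkfFam (PvkflA N h z τ fr Q) (fun _ 𝔖 => 𝔖.fz) (fun _ 𝔖 => 𝔖.fzOut) (pvkflB N h z τ fr) where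
  cyl := pvkfl_cyl_at N h z τ Q hfr
  lf := fun _ _ _ ha => ha.1.lf
  box := fun _ _ _ ha _ hu => hu.elim (fun hu => pvkf_out_box ha.2.1.out hu) fun hu => pvkf_in_box ha.2.1.inn hu
  bdd := pvkfl_B_bdd N h z τ hfr
  Gu := fun Y s 𝔖 𝔖' ha ha' => (pvuq_at (pvkf_mo Y ha.1).1 (pvkf_mo Y ha.1).2.1 (pvkfl_P_inj hfr Y) ha.2.1 ha'.2.1).fzOut

theorem pvkfl_fam_at_in (hfr : fr ≠ 0) : PvkfFam (PvkflA N h z τ fr Q) (fun _ 𝔖 => 𝔖.fz) (fun _ 𝔖 => 𝔖.fzIn) (pvkflB N h z τ fr) where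
  cyl := pvkfl_cyl_at N h z τ Q hfr
  lf := fun _ _ _ ha => ha.1.lf
  box := fun _ _ _ ha _ hu => hu.elim (fun hu => pvkf_out_box ha.2.1.out hu) fun hu => pvkf_in_box ha.2.1.inn hu
  bdd := pvkfl_B_bdd N h z τ hfr
  Gu := fun Y s 𝔖 𝔖' ha ha' => (pvuq_at (pvkf_mo Y ha.1).1 (pvkf_mo Y ha.1).2.1 (pvkfl_P_inj hfr Y) ha.2.1 ha'.2.1).fzIn

end frame

/-! ## 2. observables of THE state;   two mouths of ONE state -/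

section ob

variable {St : ∀ Y : Set ℂ, (↥Y → Bool) → PvwSt (delbPl Y).toMap → Prop} {fr G G₁ G₂ : ∀ Y : Set ℂ, PvwSt (delbPl Y).toMap → Set ↥Y} {b : Bool} {B M₁ M₂ : Set ℂ} {Y : Set ℂ} {σ σ' : ℂ → Bool}
  {α : Type}

/-- **AN OBSERVABLE OF THE STATE** (empty if there is no state) -/
def pvkflOb (St : ∀ Y : Set ℂ, (↥Y → Bool) → PvwSt (delbPl Y).toMap → Prop) (b : Bool) (Φ : ∀ Y : Set ℂ, PvwSt (delbPl Y).toMap → Set α) (Y : Set ℂ) (σ : ℂ → Bool) : Set α :=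
  {a | ∃ 𝔖, St Y (pvkfC Y σ b) 𝔖 ∧ a ∈ Φ Y 𝔖}

theorem pvkfl_eqns_cite2 : True := by
  have := @pvkflOb.eq_1
  trivial

/-- **D6 for every observable**: a colouring which agrees with `σ` on the frozen positions gives the same value -/
theorem pvkfl_ob_congr (h : PvkfFam St fr G B) (hex : PvkfEx St b Y σ) (ha : ∀ w ∈ pvkfZ St fr b Y σ, σ' w = σ w) (Φ : ∀ Y : Set ℂ, PvwSt (delbPl Y).toMap → Set α) :
    pvkflOb St b Φ Y σ' = pvkflOb St b Φ Y σ := by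
  have hiff := (pvkf_congr h hex ha).1
  ext a
  exact ⟨fun ⟨𝔖, h1, h2⟩ => ⟨𝔖, (hiff 𝔖).2 h1, h2⟩, fun ⟨𝔖, h1, h2⟩ => ⟨𝔖, (hiff 𝔖).1 h1, h2⟩⟩

theorem pvkfl_ob_conf (h : PvkfFam St fr G B) {η η' : Conf PvPt} (hS : cfSites η' = cfSites η) (hex : PvkfEx St b (cfSites η) (cfCol η))
    (ha : ∀ w ∈ pvkfZ St fr b (cfSites η) (cfCol η), cfCol η' w = cfCol η w) (Φ : ∀ Y : Set ℂ, PvwSt (delbPl Y).toMap → Set α) :
    pvkflOb St b Φ (cfSites η') (cfCol η') = pvkflOb St b Φ (cfSites η) (cfCol η) := by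
  rw [hS]
  exact pvkfl_ob_congr h hex ha Φ

/-- **THE FRESH POINTS OF TWO MOUTHS OF ONE STATE LIVE IN ONE WINDOW**: no frozen site is fresh in either mouth -/
theorem pvkfl_win2 (h₁ : PvkfFam St fr G₁ B) (h₂ : PvkfFam St fr G₂ B) (hb₁ : Bornology.IsBounded M₁) (hb₂ : Bornology.IsBounded M₂)
    (hM₁ : ∀ Y s 𝔖, St Y s 𝔖 → ∀ u ∈ fr Y 𝔖, u.1 ∈ M₁ → u ∈ G₁ Y 𝔖) (hM₂ : ∀ Y s 𝔖, St Y s 𝔖 → ∀ u ∈ fr Y 𝔖, u.1 ∈ M₂ → u ∈ G₂ Y 𝔖) :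
    PvkfWin (fun η => pvkfFr St G₁ b M₁ (cfSites η) (cfCol η) ∪ pvkfFr St G₂ b M₂ (cfSites η) (cfCol η)) (M₁ ∪ M₂ ∪ B) where
  sub := fun η w hw => hw.elim (fun hw => Or.inl (Or.inl hw.1)) fun hw => Or.inl (Or.inr hw.1)
  fin := fun Y => by
    by_cases hlf : VorLF Y
    · left
      obtain ⟨R, hR⟩ := ((hb₁.union hb₂).union h₁.bdd).subset_closedBall (0 : ℂ)
      exact (hlf R).subset (inter_subset_inter_right _ hR)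
    · right
      intro σ
      rw [pvkf_fr_cfOf, pvkf_fr_cfOf, pvkf_fr_empty (fun ⟨𝔖, h𝔖⟩ => hlf (h₁.lf Y _ 𝔖 h𝔖)), pvkf_fr_empty (fun ⟨𝔖, h𝔖⟩ => hlf (h₁.lf Y _ 𝔖 h𝔖)), union_empty, inter_empty]
  dec := fun Y σ σ' ha => by
    simp only [pvkf_fr_cfOf] at ha ⊢
    by_cases hex : PvkfEx St b Y σ
    · have hag : ∀ w ∈ pvkfZ St fr b Y σ, σ' w = σ w := by
        intro w hw
        refine ha w ⟨pvkf_Z_sub St fr b Y σ hw, Or.inr (pvkf_Z_box h₁ Y σ hw)⟩ ?_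
        obtain ⟨𝔖, h𝔖, u, hu, rfl⟩ := hw
        rw [pvkf_fr_eq h₁ h𝔖, pvkf_fr_eq h₂ h𝔖]
        rintro (hh | hh)
        · exact hh.2 ⟨u, hM₁ Y _ 𝔖 h𝔖 u hu hh.1, rfl⟩
        · exact hh.2 ⟨u, hM₂ Y _ 𝔖 h𝔖 u hu hh.1, rfl⟩
      rw [(pvkf_congr h₁ hex hag).2.2.2 M₁, (pvkf_congr h₂ hex hag).2.2.2 M₂]
    · have hex' : ¬ PvkfEx St b Y σ' := by
        rw [← pvkf_ex_box h₁ fun w hw => ha w ⟨hw.1, Or.inr hw.2⟩ (by rw [pvkf_fr_empty hex, pvkf_fr_empty hex, union_empty]; exact fun hh => hh)]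
        exact hex
      rw [pvkf_fr_empty hex, pvkf_fr_empty hex', pvkf_fr_empty hex, pvkf_fr_empty hex']

end ob

section frame2

variable (N : PvwNum) (h : ℝ) (z : ℂ) (τ : PvwTy) {fr : ℂ} (Q : ∀ Y : Set ℂ, PvwSt (delbPl Y).toMap → Prop) (b : Bool) {M Mo Mi : Set ℂ}

theorem pvkfl_bdd_of (hfr : fr ≠ 0) {c : ℂ} {R : ℝ} (hM : ∀ w ∈ M, ‖conj fr * w - c‖ ≤ R) : Bornology.IsBounded M := by
  refine Metric.isBounded_closedBall.subset (s := M) (t := Metric.closedBall 0 ((R + ‖c‖) / ‖fr‖)) fun w hw => ?_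
  rw [Metric.mem_closedBall, dist_zero_right, le_div_iff₀ (norm_pos_iff.2 hfr)]
  have h1 : ‖conj fr * w‖ ≤ ‖conj fr * w - c‖ + ‖c‖ := by
    calc ‖conj fr * w‖ = ‖(conj fr * w - c) + c‖ := by rw [sub_add_cancel]
      _ ≤ _ := norm_add_le _ _
  rw [norm_mul, RCLike.norm_conj] at h1
  linarith [hM w hw, mul_comm ‖w‖ ‖fr‖]

/-- fresh points of ANY bounded mouth, exit half state, in a frame -/
theorem pvkfl_win_out (hfr : fr ≠ 0) (hMb : Bornology.IsBounded M) : PvkfWin (fun η => pvkfFr (PvkflO N h z τ fr Q) (fun _ 𝔖 => 𝔖.fzOut) b M (cfSites η) (cfCol η)) (M ∪ pvkflB N h z τ fr) :=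
  pvkf_win (pvkfl_fam_out N h z τ Q hfr) hMb fun _ _ _ _ _ hu _ => hu

theorem pvkfl_win_in (hfr : fr ≠ 0) (hMb : Bornology.IsBounded M) : PvkfWin (fun η => pvkfFr (PvkflI N h z τ fr Q) (fun _ 𝔖 => 𝔖.fzIn) b M (cfSites η) (cfCol η)) (M ∪ pvkflB N h z τ fr) :=
  pvkf_win (pvkfl_fam_in N h z τ Q hfr) hMb fun _ _ _ _ _ hu _ => hu

/-- **the two mouths of the FULL state**: the exit mouth in the ball of `y⁺`, the entrance mouth in the ball of `y⁻` (read in the frame) -/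
theorem pvkfl_win_at2 (hfr : fr ≠ 0) (hMo : ∀ w ∈ Mo, ‖conj fr * w - τ.cp h (conj fr * z)‖ ≤ 2 * N.rho * h) (hMi : ∀ w ∈ Mi, ‖conj fr * w - τ.cm h (conj fr * z)‖ ≤ 2 * N.rho * h) :
    PvkfWin (fun η => pvkfFr (PvkflA N h z τ fr Q) (fun _ 𝔖 => 𝔖.fzOut) b Mo (cfSites η) (cfCol η) ∪ pvkfFr (PvkflA N h z τ fr Q) (fun _ 𝔖 => 𝔖.fzIn) b Mi (cfSites η) (cfCol η))
      (Mo ∪ Mi ∪ pvkflB N h z τ fr) := by
  refine pvkfl_win2 (pvkfl_fam_at_out N h z τ Q hfr) (pvkfl_fam_at_in N h z τ Q hfr) (pvkfl_bdd_of hfr hMo) (pvkfl_bdd_of hfr hMi)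
    (fun Y s 𝔖 ha u hu huM => hu.elim id fun hi => ?_) (fun Y s 𝔖 ha u hu huM => hu.elim (fun ho => ?_) id)
  · exact absurd (hMo _ huM) (not_le.2 (ha.2.1.far_p u hi))
  · exact absurd (hMi _ huM) (not_le.2 (ha.2.1.far_m u ho))

end frame2

/-! ## 3. the names of `Tr/InstL` -/

section names

/-- the colour free clauses of `PvilOut` -/
def PvkflQo (N : PvwNum) (p : PvilPl) (Y : Set ℂ) (𝔖 : PvwSt (delbPl Y).toMap) : Prop :=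
  ((delbPl Y).toMap.src (𝔖.ep 𝔖.np)).1 ∈ p.cp ∧
    (∀ y : (delbPl Y).toMap.Pth, PvwLE (delbPl Y).toMap (fun i => (delbPl Y).toMap.src (𝔖.ep i)) 𝔖.np y → ∀ v ∈ y.verts, v.1 ∈ p.Mp) ∧
    (∀ i, 𝔖.ip ≤ i → i ≤ 𝔖.inn.n → (N.m - 1) * p.h < ‖(𝔖.inn.v i).1 - p.z‖ → (𝔖.inn.v i).1 ∈ p.Mp) ∧ p.lev

/-- the colour free clauses of `PvilIn` -/
def PvkflQi (N : PvwNum) (p : PvilPl) (Y : Set ℂ) (𝔖 : PvwSt (delbPl Y).toMap) : Prop :=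
  ((delbPl Y).toMap.src (𝔖.em 𝔖.nm)).1 ∈ p.cm ∧
    (∀ y : (delbPl Y).toMap.Pth, PvwLE (delbPl Y).toMap (fun i => (delbPl Y).toMap.src (𝔖.em i)) 𝔖.nm y → ∀ v ∈ y.verts, v.1 ∈ p.Mm) ∧
    (∀ i, i ≤ 𝔖.ip → (N.m - 1) * p.h < ‖(𝔖.inn.v i).1 - p.z‖ → (𝔖.inn.v i).1 ∈ p.Mm) ∧ p.lev

/-- the colour free clauses of `PvilAt` -/
def PvkflQa (N : PvwNum) (p : PvilPl) (Y : Set ℂ) (𝔖 : PvwSt (delbPl Y).toMap) : Prop := PvkflQo N p Y 𝔖 ∧ PvkflQi N p Y 𝔖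

/-- the exit half states of the placed plug `p`, form `(Y, s)` -/
def PvkflSo (N : PvwNum) (p : PvilPl) : ∀ Y : Set ℂ, (↥Y → Bool) → PvwSt (delbPl Y).toMap → Prop := PvkflO N p.h p.z p.ty p.fr (PvkflQo N p)
/-- the entrance half states -/
def PvkflSi (N : PvwNum) (p : PvilPl) : ∀ Y : Set ℂ, (↥Y → Bool) → PvwSt (delbPl Y).toMap → Prop := PvkflI N p.h p.z p.ty p.fr (PvkflQi N p)
/-- the full states -/
def PvkflSa (N : PvwNum) (p : PvilPl) : ∀ Y : Set ℂ, (↥Y → Bool) → PvwSt (delbPl Y).toMap → Prop := PvkflA N p.h p.z p.ty p.fr (PvkflQa N p)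

/-- **THE WINDOW OF THE PLACED PLUG**: a bounded deterministic set which holds all its frozen sites -/
def pvkflW (N : PvwNum) (p : PvilPl) : Set ℂ := pvkflB N p.h p.z p.ty p.fr

theorem pvkfl_eqns_cite3 : True := by
  have := @PvkflQo.eq_1; have := @PvkflQi.eq_1; have := @PvkflQa.eq_1; have := @PvkflSo.eq_1; have := @PvkflSi.eq_1; have := @PvkflSa.eq_1; have := @pvkflW.eq_1
  trivial

variable {N : PvwNum} {b b' : Bool} {p p' : PvilPl} {M M' Mo Mi : Set ℂ} {η η' : Conf PvPt}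

theorem pvkfl_out_iff (η : Conf PvPt) (𝔖 : PvwSt (pvieT η)) : PvilOut N b p η 𝔖 ↔ PvkflSo N p (cfSites η) (pvkfC (cfSites η) (cfCol η) b) 𝔖 :=
  ⟨fun h => ⟨h.good, h.st, h.tip, h.mask, h.mask_i, h.lev0⟩, fun h => ⟨h.1, h.2.1, h.2.2.1, h.2.2.2.1, h.2.2.2.2.1, h.2.2.2.2.2⟩⟩

theorem pvkfl_in_iff (η : Conf PvPt) (𝔖 : PvwSt (pvieT η)) : PvilIn N b p η 𝔖 ↔ PvkflSi N p (cfSites η) (pvkfC (cfSites η) (cfCol η) b) 𝔖 :=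
  ⟨fun h => ⟨h.good, h.st, h.tip, h.mask, h.mask_i, h.lev0⟩, fun h => ⟨h.1, h.2.1, h.2.2.1, h.2.2.2.1, h.2.2.2.2.1, h.2.2.2.2.2⟩⟩

theorem pvkfl_at_iff (η : Conf PvPt) (𝔖 : PvwSt (pvieT η)) : PvilAt N b p η 𝔖 ↔ PvkflSa N p (cfSites η) (pvkfC (cfSites η) (cfCol η) b) 𝔖 :=
  ⟨fun h => ⟨h.out.good, ⟨h.out.st, h.inn.st, h.far_p, h.far_m⟩, ⟨h.out.tip, h.out.mask, h.out.mask_i, h.out.lev0⟩, ⟨h.inn.tip, h.inn.mask, h.inn.mask_i, h.inn.lev0⟩⟩,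
    fun h => ⟨⟨h.1, h.2.1.out, h.2.2.1.1, h.2.2.1.2.1, h.2.2.1.2.2.1, h.2.2.1.2.2.2⟩, ⟨h.1, h.2.1.inn, h.2.2.2.1, h.2.2.2.2.1, h.2.2.2.2.2.1, h.2.2.2.2.2.2⟩, h.2.1.far_p, h.2.1.far_m⟩⟩

theorem pvkfl_fam_o (hfr : p.fr ≠ 0) : PvkfFam (PvkflSo N p) (fun _ 𝔖 => 𝔖.fzOut) (fun _ 𝔖 => 𝔖.fzOut) (pvkflW N p) := pvkfl_fam_out N p.h p.z p.ty (PvkflQo N p) hfr
theorem pvkfl_fam_i (hfr : p.fr ≠ 0) : PvkfFam (PvkflSi N p) (fun _ 𝔖 => 𝔖.fzIn) (fun _ 𝔖 => 𝔖.fzIn) (pvkflW N p) := pvkfl_fam_in N p.h p.z p.ty (PvkflQi N p) hfr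
theorem pvkfl_fam_ao (hfr : p.fr ≠ 0) : PvkfFam (PvkflSa N p) (fun _ 𝔖 => 𝔖.fz) (fun _ 𝔖 => 𝔖.fzOut) (pvkflW N p) := pvkfl_fam_at_out N p.h p.z p.ty (PvkflQa N p) hfr
theorem pvkfl_fam_ai (hfr : p.fr ≠ 0) : PvkfFam (PvkflSa N p) (fun _ 𝔖 => 𝔖.fz) (fun _ 𝔖 => 𝔖.fzIn) (pvkflW N p) := pvkfl_fam_at_in N p.h p.z p.ty (PvkflQa N p) hfr

theorem pvkfl_W_bdd (hfr : p.fr ≠ 0) : Bornology.IsBounded (pvkflW N p) := pvkfl_B_bdd N p.h p.z p.ty hfr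

theorem pvkfl_Uo_iff : η ∈ pvilUo N b p ↔ PvkfEx (PvkflSo N p) b (cfSites η) (cfCol η) :=
  ⟨fun ⟨𝔖, h⟩ => ⟨𝔖, (pvkfl_out_iff η 𝔖).1 h⟩, fun ⟨𝔖, h⟩ => ⟨𝔖, (pvkfl_out_iff η 𝔖).2 h⟩⟩

theorem pvkfl_Ui_iff : η ∈ pvilUi N b p ↔ PvkfEx (PvkflSi N p) b (cfSites η) (cfCol η) :=
  ⟨fun ⟨𝔖, h⟩ => ⟨𝔖, (pvkfl_in_iff η 𝔖).1 h⟩, fun ⟨𝔖, h⟩ => ⟨𝔖, (pvkfl_in_iff η 𝔖).2 h⟩⟩

theorem pvkfl_U_iff : η ∈ pvilU N b p ↔ PvkfEx (PvkflSa N p) b (cfSites η) (cfCol η) :=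
  ⟨fun ⟨𝔖, h⟩ => ⟨𝔖, (pvkfl_at_iff η 𝔖).1 h⟩, fun ⟨𝔖, h⟩ => ⟨𝔖, (pvkfl_at_iff η 𝔖).2 h⟩⟩

theorem pvkfl_U_sub_o : pvilU N b p ⊆ pvilUo N b p := fun _ ⟨𝔖, h⟩ => ⟨𝔖, h.out⟩
theorem pvkfl_U_sub_i : pvilU N b p ⊆ pvilUi N b p := fun _ ⟨𝔖, h⟩ => ⟨𝔖, h.inn⟩

theorem pvkfl_FzO_eq (η : Conf PvPt) : pvilFzO N b p η = pvkfZ (PvkflSo N p) (fun _ 𝔖 => 𝔖.fzOut) b (cfSites η) (cfCol η) := by
  ext w
  exact ⟨fun ⟨𝔖, h, hu⟩ => ⟨𝔖, (pvkfl_out_iff η 𝔖).1 h, hu⟩, fun ⟨𝔖, h, hu⟩ => ⟨𝔖, (pvkfl_out_iff η 𝔖).2 h, hu⟩⟩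

theorem pvkfl_FzI_eq (η : Conf PvPt) : pvilFzI N b p η = pvkfZ (PvkflSi N p) (fun _ 𝔖 => 𝔖.fzIn) b (cfSites η) (cfCol η) := by
  ext w
  exact ⟨fun ⟨𝔖, h, hu⟩ => ⟨𝔖, (pvkfl_in_iff η 𝔖).1 h, hu⟩, fun ⟨𝔖, h, hu⟩ => ⟨𝔖, (pvkfl_in_iff η 𝔖).2 h, hu⟩⟩

/-! ### the base data are those of ANY state -/

theorem pvkfl_FzO_of (hfr : p.fr ≠ 0) {𝔖 : PvwSt (pvieT η)} (h : PvilOut N b p η 𝔖) : pvilFzO N b p η = pviePos η '' 𝔖.fzOut := by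
  rw [pvkfl_FzO_eq]
  exact pvkf_Z_eq (pvkfl_fam_o hfr) ((pvkfl_out_iff η 𝔖).1 h)

theorem pvkfl_FzI_of (hfr : p.fr ≠ 0) {𝔖 : PvwSt (pvieT η)} (h : PvilIn N b p η 𝔖) : pvilFzI N b p η = pviePos η '' 𝔖.fzIn := by
  rw [pvkfl_FzI_eq]
  exact pvkf_Z_eq (pvkfl_fam_i hfr) ((pvkfl_in_iff η 𝔖).1 h)

theorem pvkfl_FzO_empty (h : η ∉ pvilUo N b p) : pvilFzO N b p η = ∅ := by
  ext w
  exact ⟨fun ⟨𝔖, h𝔖, _⟩ => h ⟨𝔖, h𝔖⟩, fun hw => hw.elim⟩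

theorem pvkfl_FzI_empty (h : η ∉ pvilUi N b p) : pvilFzI N b p η = ∅ := by
  ext w
  exact ⟨fun ⟨𝔖, h𝔖, _⟩ => h ⟨𝔖, h𝔖⟩, fun hw => hw.elim⟩

theorem pvkfl_out_same (hfr : p.fr ≠ 0) {𝔖 𝔖' : PvwSt (pvieT η)} (h : PvilOut N b p η 𝔖) (h' : PvilOut N b p η 𝔖') : PvuqG 𝔖 𝔖' ∧ PvuqP 𝔖 𝔖' :=
  pvuq_atOut (pvkf_mo _ h.good).1 (pvkf_mo _ h.good).2.1 (pvkfl_P_inj hfr _) h.st h'.st

theorem pvkfl_in_same (hfr : p.fr ≠ 0) {𝔖 𝔖' : PvwSt (pvieT η)} (h : PvilIn N b p η 𝔖) (h' : PvilIn N b p η 𝔖') : PvuqG 𝔖 𝔖' ∧ PvuqM 𝔖 𝔖' :=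
  pvuq_atIn (pvkf_mo _ h.good).1 (pvkf_mo _ h.good).2.1 (pvkfl_P_inj hfr _) h.st h'.st

/-- **ON THE HALF STATE THE BASE DATUM `Z` IS A FUNCTION OF THE BASE DATUM `F`** (v2.2): the `δ`-cells of the frozen positions and of the mouth ball round the grid centre -/
theorem pvkfl_HuO_eq (hfr : p.fr ≠ 0) (δ r : ℝ) (hU : η ∈ pvilUo N b p) : pvilHuO δ r N b p η = pvtCells δ (pvilFzO N b p η ∪ Metric.closedBall (p.ty.cp p.h p.z) r) := by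
  obtain ⟨𝔖₀, h₀⟩ := hU
  ext q
  constructor
  · rintro ⟨𝔖, h, hq⟩
    rw [pvkfl_FzO_of hfr h]
    exact hq
  · intro hq
    rw [pvkfl_FzO_of hfr h₀] at hq
    exact ⟨𝔖₀, h₀, hq⟩

theorem pvkfl_HuI_eq (hfr : p.fr ≠ 0) (δ r : ℝ) (hU : η ∈ pvilUi N b p) : pvilHuI δ r N b p η = pvtCells δ (pvilFzI N b p η ∪ Metric.closedBall (p.ty.cm p.h p.z) r) := by
  obtain ⟨𝔖₀, h₀⟩ := hU
  ext q
  constructor
  · rintro ⟨𝔖, h, hq⟩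
    rw [pvkfl_FzI_of hfr h]
    exact hq
  · intro hq
    rw [pvkfl_FzI_of hfr h₀] at hq
    exact ⟨𝔖₀, h₀, hq⟩

theorem pvkfl_HuO_empty (δ r : ℝ) (h : η ∉ pvilUo N b p) : pvilHuO δ r N b p η = ∅ := by
  ext w
  exact ⟨fun ⟨𝔖, h𝔖, _⟩ => h ⟨𝔖, h𝔖⟩, fun hw => hw.elim⟩

theorem pvkfl_HuI_empty (δ r : ℝ) (h : η ∉ pvilUi N b p) : pvilHuI δ r N b p η = ∅ := by
  ext w
  exact ⟨fun ⟨𝔖, h𝔖, _⟩ => h ⟨𝔖, h𝔖⟩, fun hw => hw.elim⟩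

/-! ### (FIN) -/

theorem pvkfl_FzO_finite (hfr : p.fr ≠ 0) (η : Conf PvPt) : (pvilFzO N b p η).Finite := by
  rw [pvkfl_FzO_eq]
  exact pvkf_Z_finite (pvkfl_fam_o hfr) _ _

theorem pvkfl_FzI_finite (hfr : p.fr ≠ 0) (η : Conf PvPt) : (pvilFzI N b p η).Finite := by
  rw [pvkfl_FzI_eq]
  exact pvkf_Z_finite (pvkfl_fam_i hfr) _ _

theorem pvkfl_FzO_sub (hfr : p.fr ≠ 0) (η : Conf PvPt) : pvilFzO N b p η ⊆ cfSites η ∩ pvkflW N p := by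
  rw [pvkfl_FzO_eq]
  exact fun w hw => ⟨pvkf_Z_sub _ _ _ _ _ hw, pvkf_Z_box (pvkfl_fam_o hfr) _ _ hw⟩

theorem pvkfl_FzI_sub (hfr : p.fr ≠ 0) (η : Conf PvPt) : pvilFzI N b p η ⊆ cfSites η ∩ pvkflW N p := by
  rw [pvkfl_FzI_eq]
  exact fun w hw => ⟨pvkf_Z_sub _ _ _ _ _ hw, pvkf_Z_box (pvkfl_fam_i hfr) _ _ hw⟩

theorem pvkfl_HuO_finite (hfr : p.fr ≠ 0) {δ : ℝ} (hδ : 0 < δ) (r : ℝ) (η : Conf PvPt) : (pvilHuO δ r N b p η).Finite := by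
  by_cases hU : η ∈ pvilUo N b p
  · rw [pvkfl_HuO_eq hfr δ r hU]
    exact pvt_cells_finite hδ ((pvkfl_FzO_finite hfr η).isBounded.union Metric.isBounded_closedBall)
  · rw [pvkfl_HuO_empty δ r hU]
    exact finite_empty

theorem pvkfl_HuI_finite (hfr : p.fr ≠ 0) {δ : ℝ} (hδ : 0 < δ) (r : ℝ) (η : Conf PvPt) : (pvilHuI δ r N b p η).Finite := by
  by_cases hU : η ∈ pvilUi N b p
  · rw [pvkfl_HuI_eq hfr δ r hU]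
    exact pvt_cells_finite hδ ((pvkfl_FzI_finite hfr η).isBounded.union Metric.isBounded_closedBall)
  · rw [pvkfl_HuI_empty δ r hU]
    exact finite_empty

/-! ### D6: the half states and the base data are carried by the frozen colours -/

/-- **D6, exit half**: same sites, same colours on `F_out` ⟹ the half state exists again, same `F`, same hull -/
theorem pvkfl_conf_out (hfr : p.fr ≠ 0) (hS : cfSites η' = cfSites η) (hU : η ∈ pvilUo N b p) (ha : ∀ w ∈ pvilFzO N b p η, cfCol η' w = cfCol η w) :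
    η' ∈ pvilUo N b p ∧ pvilFzO N b p η' = pvilFzO N b p η ∧ ∀ δ r, pvilHuO δ r N b p η' = pvilHuO δ r N b p η := by
  rw [pvkfl_FzO_eq] at ha
  have h1 := pvkf_conf (pvkfl_fam_o hfr) hS (pvkfl_Uo_iff.1 hU) ha
  have h2 : pvilFzO N b p η' = pvilFzO N b p η := by rw [pvkfl_FzO_eq, pvkfl_FzO_eq]; exact h1.2.1
  exact ⟨pvkfl_Uo_iff.2 h1.1, h2, fun δ r => by rw [pvkfl_HuO_eq hfr δ r hU, pvkfl_HuO_eq hfr δ r (pvkfl_Uo_iff.2 h1.1), h2]⟩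

/-- **D6, entrance half** -/
theorem pvkfl_conf_in (hfr : p.fr ≠ 0) (hS : cfSites η' = cfSites η) (hU : η ∈ pvilUi N b p) (ha : ∀ w ∈ pvilFzI N b p η, cfCol η' w = cfCol η w) :
    η' ∈ pvilUi N b p ∧ pvilFzI N b p η' = pvilFzI N b p η ∧ ∀ δ r, pvilHuI δ r N b p η' = pvilHuI δ r N b p η := by
  rw [pvkfl_FzI_eq] at ha
  have h1 := pvkf_conf (pvkfl_fam_i hfr) hS (pvkfl_Ui_iff.1 hU) ha
  have h2 : pvilFzI N b p η' = pvilFzI N b p η := by rw [pvkfl_FzI_eq, pvkfl_FzI_eq]; exact h1.2.1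
  exact ⟨pvkfl_Ui_iff.2 h1.1, h2, fun δ r => by rw [pvkfl_HuI_eq hfr δ r hU, pvkfl_HuI_eq hfr δ r (pvkfl_Ui_iff.2 h1.1), h2]⟩

theorem pvkfl_Z_at (hfr : p.fr ≠ 0) (hU : η ∈ pvilU N b p) : pvkfZ (PvkflSa N p) (fun _ 𝔖 => 𝔖.fz) b (cfSites η) (cfCol η) = pvilFzO N b p η ∪ pvilFzI N b p η := by
  obtain ⟨𝔖, h⟩ := hU
  rw [pvkf_Z_eq (pvkfl_fam_ao hfr) ((pvkfl_at_iff η 𝔖).1 h), pvkfl_FzO_of hfr h.out, pvkfl_FzI_of hfr h.inn]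
  exact image_union _ _ _

/-- **D6, full state** -/
theorem pvkfl_conf_at (hfr : p.fr ≠ 0) (hS : cfSites η' = cfSites η) (hU : η ∈ pvilU N b p) (ha : ∀ w ∈ pvilFzO N b p η ∪ pvilFzI N b p η, cfCol η' w = cfCol η w) : η' ∈ pvilU N b p := by
  rw [← pvkfl_Z_at hfr hU] at ha
  exact pvkfl_U_iff.2 (pvkf_conf (pvkfl_fam_ao hfr) hS (pvkfl_U_iff.1 hU) ha).1

/-! ### the guarded fresh choices -/

theorem pvkfl_gd_out (hfr : p.fr ≠ 0) (M : Set ℂ) :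
    pvsmGd (pvilUo N b p) (fun η => M \ pvilFzO N b p η) = fun η => pvkfFr (PvkflSo N p) (fun _ 𝔖 => 𝔖.fzOut) b M (cfSites η) (cfCol η) := by
  funext η
  by_cases hU : η ∈ pvilUo N b p
  · rw [pvsm_gd_mem hU]
    obtain ⟨𝔖, h⟩ := hU
    rw [pvkf_fr_eq (pvkfl_fam_o hfr) ((pvkfl_out_iff η 𝔖).1 h), pvkfl_FzO_of hfr h]
    rfl
  · rw [pvsm_gd_notMem hU, pvkf_fr_empty fun hex => hU (pvkfl_Uo_iff.2 hex)]

theorem pvkfl_gd_in (hfr : p.fr ≠ 0) (M : Set ℂ) :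
    pvsmGd (pvilUi N b p) (fun η => M \ pvilFzI N b p η) = fun η => pvkfFr (PvkflSi N p) (fun _ 𝔖 => 𝔖.fzIn) b M (cfSites η) (cfCol η) := by
  funext η
  by_cases hU : η ∈ pvilUi N b p
  · rw [pvsm_gd_mem hU]
    obtain ⟨𝔖, h⟩ := hU
    rw [pvkf_fr_eq (pvkfl_fam_i hfr) ((pvkfl_in_iff η 𝔖).1 h), pvkfl_FzI_of hfr h]
    rfl
  · rw [pvsm_gd_notMem hU, pvkf_fr_empty fun hex => hU (pvkfl_Ui_iff.2 hex)]

theorem pvkfl_gd_at (hfr : p.fr ≠ 0) (Mo Mi : Set ℂ) :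
    pvsmGd (pvilU N b p) (fun η => (Mo \ pvilFzO N b p η) ∪ (Mi \ pvilFzI N b p η)) =
      fun η => pvkfFr (PvkflSa N p) (fun _ 𝔖 => 𝔖.fzOut) b Mo (cfSites η) (cfCol η) ∪ pvkfFr (PvkflSa N p) (fun _ 𝔖 => 𝔖.fzIn) b Mi (cfSites η) (cfCol η) := by
  funext η
  by_cases hU : η ∈ pvilU N b p
  · rw [pvsm_gd_mem hU]
    obtain ⟨𝔖, h⟩ := hU
    rw [pvkf_fr_eq (pvkfl_fam_ao hfr) ((pvkfl_at_iff η 𝔖).1 h), pvkf_fr_eq (pvkfl_fam_ai hfr) ((pvkfl_at_iff η 𝔖).1 h), pvkfl_FzO_of hfr h.out, pvkfl_FzI_of hfr h.inn]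
    rfl
  · rw [pvsm_gd_notMem hU, pvkf_fr_empty fun hex => hU (pvkfl_U_iff.2 hex), pvkf_fr_empty fun hex => hU (pvkfl_U_iff.2 hex), union_empty]

/-- exit mouth, HALF state, ANY bounded mouth -/
theorem pvkfl_gd_out_win (hfr : p.fr ≠ 0) (hMb : Bornology.IsBounded M) : PvkfWin (pvsmGd (pvilUo N b p) fun η => M \ pvilFzO N b p η) (M ∪ pvkflW N p) := by
  rw [pvkfl_gd_out hfr]
  exact pvkfl_win_out N p.h p.z p.ty (PvkflQo N p) b hfr hMb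

theorem pvkfl_gd_in_win (hfr : p.fr ≠ 0) (hMb : Bornology.IsBounded M) : PvkfWin (pvsmGd (pvilUi N b p) fun η => M \ pvilFzI N b p η) (M ∪ pvkflW N p) := by
  rw [pvkfl_gd_in hfr]
  exact pvkfl_win_in N p.h p.z p.ty (PvkflQi N p) b hfr hMb

/-- the two mouths of ONE candidate, guarded by the FULL state -/
theorem pvkfl_gd_at_win (hfr : p.fr ≠ 0) (hMo : ∀ w ∈ Mo, ‖conj p.fr * w - p.ty.cp p.h p.zf‖ ≤ 2 * N.rho * p.h) (hMi : ∀ w ∈ Mi, ‖conj p.fr * w - p.ty.cm p.h p.zf‖ ≤ 2 * N.rho * p.h) :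
    PvkfWin (pvsmGd (pvilU N b p) fun η => (Mo \ pvilFzO N b p η) ∪ (Mi \ pvilFzI N b p η)) (Mo ∪ Mi ∪ pvkflW N p) := by
  rw [pvkfl_gd_at hfr]
  exact pvkfl_win_at2 N p.h p.z p.ty (PvkflQa N p) b hfr hMo hMi

/-- **STOP, half state, exit** -/
theorem pvkfl_stop_out (hfr : p.fr ≠ 0) (hMb : Bornology.IsBounded M) : PvdyStop (pvsmGd (pvilUo N b p) fun η => M \ pvilFzO N b p η) := (pvkfl_gd_out_win hfr hMb).stop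

/-- **STOP, half state, entrance** -/
theorem pvkfl_stop_in (hfr : p.fr ≠ 0) (hMb : Bornology.IsBounded M) : PvdyStop (pvsmGd (pvilUi N b p) fun η => M \ pvilFzI N b p η) := (pvkfl_gd_in_win hfr hMb).stop

/-- **STOP, the two mouths of one candidate under the full state** (thick, cycle) -/
theorem pvkfl_stop_at (hfr : p.fr ≠ 0) (hMo : ∀ w ∈ Mo, ‖conj p.fr * w - p.ty.cp p.h p.zf‖ ≤ 2 * N.rho * p.h) (hMi : ∀ w ∈ Mi, ‖conj p.fr * w - p.ty.cm p.h p.zf‖ ≤ 2 * N.rho * p.h) :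
    PvdyStop (pvsmGd (pvilU N b p) fun η => (Mo \ pvilFzO N b p η) ∪ (Mi \ pvilFzI N b p η)) := (pvkfl_gd_at_win hfr hMo hMi).stop

/-- **STOP, the two mouths of a chain** `p → p'`: half states, disjoint windows -/
theorem pvkfl_stop_two (hfr : p.fr ≠ 0) (hfr' : p'.fr ≠ 0) (hMb : Bornology.IsBounded M) (hMb' : Bornology.IsBounded M') (hd : Disjoint (M ∪ pvkflW N p) (M' ∪ pvkflW N p')) :
    PvdyStop fun η => pvsmGd (pvilUo N b p) (fun η => M \ pvilFzO N b p η) η ∪ pvsmGd (pvilUi N b' p') (fun η => M' \ pvilFzI N b' p' η) η :=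
  (pvkfl_gd_out_win hfr hMb).union (pvkfl_gd_in_win hfr' hMb') hd

/-- nothing is ever chosen -/
theorem pvkfl_stop_empty : PvdyStop fun _ => (∅ : Set ℂ) := ⟨fun Y σ hne => absurd hne (by rw [inter_empty]; exact not_nonempty_empty)⟩

open Classical in
/-- **STOP with one more deterministic guard `P`** (level of the engine, type not degenerate ..) -/
theorem pvkfl_stop_at_if (P : Prop) (hfr : p.fr ≠ 0) (hMo : P → ∀ w ∈ Mo, ‖conj p.fr * w - p.ty.cp p.h p.zf‖ ≤ 2 * N.rho * p.h) (hMi : P → ∀ w ∈ Mi, ‖conj p.fr * w - p.ty.cm p.h p.zf‖ ≤ 2 * N.rho * p.h) :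
    PvdyStop fun η => if P ∧ η ∈ pvilU N b p then (Mo \ pvilFzO N b p η) ∪ (Mi \ pvilFzI N b p η) else ∅ := by
  by_cases hP : P
  · convert pvkfl_stop_at (N := N) (b := b) hfr (hMo hP) (hMi hP) using 1
    funext η
    unfold pvsmGd
    simp only [hP, true_and]
  · convert pvkfl_stop_empty using 1
    funext η
    simp only [hP, false_and, if_false]

/-! ### measurability and `∑ P ≤ 1` at a fixed countable geometry -/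

section meas

variable {Y : Set ℂ}

theorem pvkfl_Uo_cfOf (Y : Set ℂ) (σ : ℂ → Bool) : cfOf Y σ ∈ pvilUo N b p ↔ PvkfEx (PvkflSo N p) b Y σ := pvkfl_Uo_iff.trans (pvkf_ex_cfOf Y σ)
theorem pvkfl_Ui_cfOf (Y : Set ℂ) (σ : ℂ → Bool) : cfOf Y σ ∈ pvilUi N b p ↔ PvkfEx (PvkflSi N p) b Y σ := pvkfl_Ui_iff.trans (pvkf_ex_cfOf Y σ)
theorem pvkfl_U_cfOf (Y : Set ℂ) (σ : ℂ → Bool) : cfOf Y σ ∈ pvilU N b p ↔ PvkfEx (PvkflSa N p) b Y σ := pvkfl_U_iff.trans (pvkf_ex_cfOf Y σ)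
theorem pvkfl_FzO_cfOf (Y : Set ℂ) (σ : ℂ → Bool) : pvilFzO N b p (cfOf Y σ) = pvkfZ (PvkflSo N p) (fun _ 𝔖 => 𝔖.fzOut) b Y σ := (pvkfl_FzO_eq _).trans (pvkf_Z_cfOf Y σ)
theorem pvkfl_FzI_cfOf (Y : Set ℂ) (σ : ℂ → Bool) : pvilFzI N b p (cfOf Y σ) = pvkfZ (PvkflSi N p) (fun _ 𝔖 => 𝔖.fzIn) b Y σ := (pvkfl_FzI_eq _).trans (pvkf_Z_cfOf Y σ)

theorem pvkfl_Uo_meas (hfr : p.fr ≠ 0) (hY : Y.Countable) : MeasurableSet {σ : ℂ → Bool | cfOf Y σ ∈ pvilUo N b p} := by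
  simp only [pvkfl_Uo_cfOf]
  exact pvkf_ex_meas (pvkfl_fam_o hfr) hY

theorem pvkfl_Ui_meas (hfr : p.fr ≠ 0) (hY : Y.Countable) : MeasurableSet {σ : ℂ → Bool | cfOf Y σ ∈ pvilUi N b p} := by
  simp only [pvkfl_Ui_cfOf]
  exact pvkf_ex_meas (pvkfl_fam_i hfr) hY

theorem pvkfl_U_meas (hfr : p.fr ≠ 0) (hY : Y.Countable) : MeasurableSet {σ : ℂ → Bool | cfOf Y σ ∈ pvilU N b p} := by
  simp only [pvkfl_U_cfOf]
  exact pvkf_ex_meas (pvkfl_fam_ao hfr) hY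

/-- the level sets of the base datum `F_out` -/
theorem pvkfl_FzO_meas (hfr : p.fr ≠ 0) (hY : Y.Countable) (F : Set ℂ) : MeasurableSet {σ : ℂ → Bool | cfOf Y σ ∈ pvilUo N b p ∧ pvilFzO N b p (cfOf Y σ) = F} := by
  simp only [pvkfl_Uo_cfOf, pvkfl_FzO_cfOf]
  exact pvkf_level_meas (pvkfl_fam_o hfr) hY F

theorem pvkfl_FzI_meas (hfr : p.fr ≠ 0) (hY : Y.Countable) (F : Set ℂ) : MeasurableSet {σ : ℂ → Bool | cfOf Y σ ∈ pvilUi N b p ∧ pvilFzI N b p (cfOf Y σ) = F} := by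
  simp only [pvkfl_Ui_cfOf, pvkfl_FzI_cfOf]
  exact pvkf_level_meas (pvkfl_fam_i hfr) hY F

/-- **`∑_F P(F_out = F) ≤ 1`** -/
theorem pvkfl_FzO_sum_le (hfr : p.fr ≠ 0) (hY : Y.Countable) (μ : Measure (ℂ → Bool)) [IsProbabilityMeasure μ] {ι : Type} [Countable ι] (F : ι → Set ℂ) (hF : Function.Injective F) :
    ∑' i, μ {σ : ℂ → Bool | cfOf Y σ ∈ pvilUo N b p ∧ pvilFzO N b p (cfOf Y σ) = F i} ≤ 1 := by
  simp only [pvkfl_Uo_cfOf, pvkfl_FzO_cfOf]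
  exact pvkf_sum_le (pvkfl_fam_o hfr) hY μ F hF

theorem pvkfl_FzI_sum_le (hfr : p.fr ≠ 0) (hY : Y.Countable) (μ : Measure (ℂ → Bool)) [IsProbabilityMeasure μ] {ι : Type} [Countable ι] (F : ι → Set ℂ) (hF : Function.Injective F) :
    ∑' i, μ {σ : ℂ → Bool | cfOf Y σ ∈ pvilUi N b p ∧ pvilFzI N b p (cfOf Y σ) = F i} ≤ 1 := by
  simp only [pvkfl_Ui_cfOf, pvkfl_FzI_cfOf]
  exact pvkf_sum_le (pvkfl_fam_i hfr) hY μ F hF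

end meas

end names

/-! ## 4. the standard frame: THE SEAM with `Tr/InstE` (`PvieAt`) and `Defs/TrModel` v4 (`PvxAt`, `pvxU`) -/

section seam

variable {N : PvwNum} {b : Bool}

theorem pvkfl_std_pos (p : PviePl) (η : Conf PvPt) : p.std.pos η = pviePos η := by
  funext v
  simp [PvilPl.pos, PviePl.std]

theorem pvkfl_std_zf (p : PviePl) : p.std.zf = p.z := by
  simp [PvilPl.zf, PviePl.std]

/-- **the full state of `Tr/InstL` in the standard frame IS the state of `Tr/InstE`** -/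
theorem pvkfl_at_std (p : PviePl) (η : Conf PvPt) (𝔖 : PvwSt (pvieT η)) : PvilAt N b p.std η 𝔖 ↔ PvieAt N b p η 𝔖 := by
  constructor
  · intro h
    have h1 := h.out.st
    have h2 := h.inn.st
    have h3 := h.far_p
    have h4 := h.far_m
    rw [pvkfl_std_pos, pvkfl_std_zf] at h1 h2 h3 h4
    exact ⟨h.out.good, ⟨h1, h2, h3, h4⟩, h.out.tip, h.inn.tip, h.out.mask, h.inn.mask, h.out.mask_i, h.inn.mask_i, h.out.lev0⟩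
  · intro h
    refine ⟨⟨h.good, ?_, h.tip_p, h.mask_p, h.inn_p, h.lev0⟩, ⟨h.good, ?_, h.tip_m, h.mask_m, h.inn_m, h.lev0⟩, ?_, ?_⟩
    all_goals rw [pvkfl_std_pos, pvkfl_std_zf]
    exacts [h.st.out, h.st.inn, h.st.far_p, h.st.far_m]

theorem pvkfl_U_std (p : PviePl) : pvilU N b p.std = pvieU N b p := by
  ext η
  exact ⟨fun ⟨𝔖, h⟩ => ⟨𝔖, (pvkfl_at_std p η 𝔖).1 h⟩, fun ⟨𝔖, h⟩ => ⟨𝔖, (pvkfl_at_std p η 𝔖).2 h⟩⟩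

variable {τ : Type} {c : ℝ} (𝔓 : PvxPar τ c)

/-- **(SEAM)** `PvxAt` of TrModel v4 = the full state of `Tr/InstL` at the candidate of record -/
theorem pvkfl_at_model (m : ℕ) (ω : PVSample) (z : ℂ) (t : τ) (𝔖 : PvwSt (pvxT ω)) : PvxAt 𝔓 m ω z t 𝔖 ↔ PvilAt 𝔓.num (𝔓.col t) (pvilPin 𝔓 m z t) (pvConf ω) 𝔖 :=
  (pvie_at_iff 𝔓 m ω z t 𝔖).trans (pvkfl_at_std (𝔓.pl m z t) (pvConf ω) 𝔖).symm

/-- **(SEAM)** the usable candidates -/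
theorem pvkfl_U_model (m : ℕ) (z : ℂ) (t : τ) : pvxU 𝔓 m z t = pvConf ⁻¹' pvilU 𝔓.num (𝔓.col t) (pvilPin 𝔓 m z t) := by
  rw [pvie_U_conf]
  unfold pvilPin
  rw [pvkfl_U_std]

end seam

/-! ## 5. the data of record -/

section rec

variable {τ : Type} {c : ℝ} (𝔓 : PvxPar τ c) (𝔈 : PvieEng τ) (m : ℕ) (z : ℂ) (t : τ) {η η' : Conf PvPt}

theorem pvkfl_pin_fr : (pvilPin 𝔓 m z t).fr ≠ 0 := one_ne_zero (α := ℂ)

/-- the window of the candidate of record: the box of its level and the disc of its core -/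
theorem pvkfl_W_pin : pvkflW 𝔓.num (pvilPin 𝔓 m z t) = pvkfB 𝔓.num (pvlmH m) z (𝔓.ty t) := by
  ext w
  show conj (1 : ℂ) * w ∈ pvkfB 𝔓.num (pvlmH m) (conj (1 : ℂ) * z) (𝔓.ty t) ↔ _
  rw [map_one, one_mul, one_mul]

theorem pvkfl_pin_ball_p {S : Set ℂ} (h : S ⊆ Metric.closedBall ((pvlmH m : ℂ) * (𝔓.ty t).yp) (2 * 𝔓.num.rho * pvlmH m)) :
    ∀ w ∈ pvieSh z S, ‖conj (pvilPin 𝔓 m z t).fr * w - (pvilPin 𝔓 m z t).ty.cp (pvilPin 𝔓 m z t).h (pvilPin 𝔓 m z t).zf‖ ≤ 2 * 𝔓.num.rho * (pvilPin 𝔓 m z t).h := by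
  rintro _ ⟨w, hw, rfl⟩
  have h1 := h hw
  rw [Metric.mem_closedBall, dist_eq_norm] at h1
  show ‖conj (1 : ℂ) * (z + w) - (conj (1 : ℂ) * z + (pvlmH m : ℂ) * (𝔓.ty t).yp)‖ ≤ 2 * 𝔓.num.rho * pvlmH m
  rw [map_one, one_mul, one_mul, add_sub_add_left_eq_sub]
  exact h1

theorem pvkfl_pin_ball_m {S : Set ℂ} (h : S ⊆ Metric.closedBall ((pvlmH m : ℂ) * (𝔓.ty t).ym) (2 * 𝔓.num.rho * pvlmH m)) :
    ∀ w ∈ pvieSh z S, ‖conj (pvilPin 𝔓 m z t).fr * w - (pvilPin 𝔓 m z t).ty.cm (pvilPin 𝔓 m z t).h (pvilPin 𝔓 m z t).zf‖ ≤ 2 * 𝔓.num.rho * (pvilPin 𝔓 m z t).h := by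
  rintro _ ⟨w, hw, rfl⟩
  have h1 := h hw
  rw [Metric.mem_closedBall, dist_eq_norm] at h1
  show ‖conj (1 : ℂ) * (z + w) - (conj (1 : ℂ) * z + (pvlmH m : ℂ) * (𝔓.ty t).ym)‖ ≤ 2 * 𝔓.num.rho * pvlmH m
  rw [map_one, one_mul, one_mul, add_sub_add_left_eq_sub]
  exact h1

/-- **`Z_out` is the set of the `δ`-cells of `F_out` and of the mouth ball** -/
theorem pvkfl_Zo_eq (hU : η ∈ pvilUo 𝔓.num (𝔓.col t) (pvilPin 𝔓 m z t)) :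
    pvilZo 𝔓 m z t η = pvtCells (pvlmDel c m) (pvilFo 𝔓 m z t η ∪ Metric.closedBall ((𝔓.ty t).cp (pvlmH m) z) (𝔓.num.rho * pvlmH m)) := pvkfl_HuO_eq (pvkfl_pin_fr 𝔓 m z t) _ _ hU
theorem pvkfl_Zi_eq (hU : η ∈ pvilUi 𝔓.num (𝔓.col t) (pvilPin 𝔓 m z t)) :
    pvilZi 𝔓 m z t η = pvtCells (pvlmDel c m) (pvilFi 𝔓 m z t η ∪ Metric.closedBall ((𝔓.ty t).cm (pvlmH m) z) (𝔓.num.rho * pvlmH m)) := pvkfl_HuI_eq (pvkfl_pin_fr 𝔓 m z t) _ _ hU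

/-- **(FIN)** -/
theorem pvkfl_Fo_finite (η : Conf PvPt) : (pvilFo 𝔓 m z t η).Finite := pvkfl_FzO_finite (pvkfl_pin_fr 𝔓 m z t) η
theorem pvkfl_Fi_finite (η : Conf PvPt) : (pvilFi 𝔓 m z t η).Finite := pvkfl_FzI_finite (pvkfl_pin_fr 𝔓 m z t) η
theorem pvkfl_Zo_finite (hδ : 0 < pvlmDel c m) (η : Conf PvPt) : (pvilZo 𝔓 m z t η).Finite := pvkfl_HuO_finite (pvkfl_pin_fr 𝔓 m z t) hδ _ η
theorem pvkfl_Zi_finite (hδ : 0 < pvlmDel c m) (η : Conf PvPt) : (pvilZi 𝔓 m z t η).Finite := pvkfl_HuI_finite (pvkfl_pin_fr 𝔓 m z t) hδ _ η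

/-- the frozen positions are sites of the box of the level / of the disc of the core -/
theorem pvkfl_Fo_sub (η : Conf PvPt) : pvilFo 𝔓 m z t η ⊆ cfSites η ∩ pvkfB 𝔓.num (pvlmH m) z (𝔓.ty t) := by
  rw [← pvkfl_W_pin]
  exact pvkfl_FzO_sub (pvkfl_pin_fr 𝔓 m z t) η
theorem pvkfl_Fi_sub (η : Conf PvPt) : pvilFi 𝔓 m z t η ⊆ cfSites η ∩ pvkfB 𝔓.num (pvlmH m) z (𝔓.ty t) := by
  rw [← pvkfl_W_pin]
  exact pvkfl_FzI_sub (pvkfl_pin_fr 𝔓 m z t) η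

variable {𝔓 m z t}

/-- **D6 at the record, exit**: same sites, same colours on `F_out` ⟹ same base data -/
theorem pvkfl_base_out (hS : cfSites η' = cfSites η) (hU : η ∈ pvilUo 𝔓.num (𝔓.col t) (pvilPin 𝔓 m z t)) (ha : ∀ w ∈ pvilFo 𝔓 m z t η, cfCol η' w = cfCol η w) :
    η' ∈ pvilUo 𝔓.num (𝔓.col t) (pvilPin 𝔓 m z t) ∧ pvilFo 𝔓 m z t η' = pvilFo 𝔓 m z t η ∧ pvilZo 𝔓 m z t η' = pvilZo 𝔓 m z t η :=
  ⟨(pvkfl_conf_out (pvkfl_pin_fr 𝔓 m z t) hS hU ha).1, (pvkfl_conf_out (pvkfl_pin_fr 𝔓 m z t) hS hU ha).2.1, (pvkfl_conf_out (pvkfl_pin_fr 𝔓 m z t) hS hU ha).2.2 _ _⟩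

/-- **D6 at the record, entrance** -/
theorem pvkfl_base_in (hS : cfSites η' = cfSites η) (hU : η ∈ pvilUi 𝔓.num (𝔓.col t) (pvilPin 𝔓 m z t)) (ha : ∀ w ∈ pvilFi 𝔓 m z t η, cfCol η' w = cfCol η w) :
    η' ∈ pvilUi 𝔓.num (𝔓.col t) (pvilPin 𝔓 m z t) ∧ pvilFi 𝔓 m z t η' = pvilFi 𝔓 m z t η ∧ pvilZi 𝔓 m z t η' = pvilZi 𝔓 m z t η :=
  ⟨(pvkfl_conf_in (pvkfl_pin_fr 𝔓 m z t) hS hU ha).1, (pvkfl_conf_in (pvkfl_pin_fr 𝔓 m z t) hS hU ha).2.1, (pvkfl_conf_in (pvkfl_pin_fr 𝔓 m z t) hS hU ha).2.2 _ _⟩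

/-- **D6 at the record, full state** -/
theorem pvkfl_base_at (hS : cfSites η' = cfSites η) (hU : η ∈ pvilU 𝔓.num (𝔓.col t) (pvilPin 𝔓 m z t)) (ha : ∀ w ∈ pvilFo 𝔓 m z t η ∪ pvilFi 𝔓 m z t η, cfCol η' w = cfCol η w) :
    η' ∈ pvilU 𝔓.num (𝔓.col t) (pvilPin 𝔓 m z t) := pvkfl_conf_at (pvkfl_pin_fr 𝔓 m z t) hS hU ha

variable (𝔓 m z t)

/-- **STOP of the `Σ₁` cycle**: `pvilYfcyc` guarded by the full state -/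
theorem pvkfl_stop_cyc (hMo : 𝔈.oM m t ⊆ Metric.closedBall ((pvlmH m : ℂ) * (𝔓.ty t).yp) (2 * 𝔓.num.rho * pvlmH m)) (hMe : 𝔈.eM m t ⊆ Metric.closedBall ((pvlmH m : ℂ) * (𝔓.ty t).ym) (2 * 𝔓.num.rho * pvlmH m)) :
    PvdyStop (pvsmGd (pvilU 𝔓.num (𝔓.col t) (pvilPin 𝔓 m z t)) (pvilYfcyc 𝔓 𝔈 m z t)) :=
  pvkfl_stop_at (pvkfl_pin_fr 𝔓 m z t) (pvkfl_pin_ball_p 𝔓 m z t hMo) (pvkfl_pin_ball_m 𝔓 m z t hMe)

open Classical in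
/-- **STOP of the closed thick cycle** `u ⇒ t ⇒ u` (ANY two mouths `Se` round `y⁻`, `Sf` round `y⁺`), guarded by a deterministic `P` and by the full state -/
theorem pvkfl_stop_thick (P : Prop) {Se Sf : Set ℂ} (hSe : P → Se ⊆ Metric.closedBall ((pvlmH m : ℂ) * (𝔓.ty t).ym) (2 * 𝔓.num.rho * pvlmH m))
    (hSf : P → Sf ⊆ Metric.closedBall ((pvlmH m : ℂ) * (𝔓.ty t).yp) (2 * 𝔓.num.rho * pvlmH m)) :
    PvdyStop fun η => if P ∧ η ∈ pvilU 𝔓.num (𝔓.col t) (pvilPin 𝔓 m z t) then (pvieSh z Se \ pvilFi 𝔓 m z t η) ∪ (pvieSh z Sf \ pvilFo 𝔓 m z t η) else ∅ := by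
  convert pvkfl_stop_at_if (N := 𝔓.num) (b := 𝔓.col t) P (pvkfl_pin_fr 𝔓 m z t) (fun hP => pvkfl_pin_ball_p 𝔓 m z t (hSf hP)) (fun hP => pvkfl_pin_ball_m 𝔓 m z t (hSe hP)) using 1
  funext η
  split_ifs
  · exact union_comm _ _
  · rfl

/-- **STOP of the chain of a pattern**: a stopping choice which is `pvilYfc` as soon as the two half states exist;   the two windows (mouth, box of the level, disc of the core) are disjoint -/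
theorem pvkfl_stop_chain (π : PvtsPat τ) (hbo : Bornology.IsBounded (pvieSh π.zt (𝔈.oM m π.tt))) (hbi : Bornology.IsBounded (pvieSh π.zs (𝔈.iM m π.ts)))
    (hd : Disjoint (pvieSh π.zt (𝔈.oM m π.tt) ∪ pvkfB 𝔓.num (pvlmH m) π.zt (𝔓.ty π.tt)) (pvieSh π.zs (𝔈.iM m π.ts) ∪ pvkfB 𝔓.num (pvlmH m) π.zs (𝔓.ty π.ts))) :
    ∃ yf : Conf PvPt → Set ℂ, PvdyStop yf ∧ ∀ η, η ∈ pvilUo 𝔓.num (𝔓.col π.tt) (pvilPin 𝔓 m π.zt π.tt) → η ∈ pvilUi 𝔓.num (𝔓.col π.ts) (pvilPin 𝔓 m π.zs π.ts) → yf η = pvilYfc 𝔓 𝔈 m π η := by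
  rw [← pvkfl_W_pin, ← pvkfl_W_pin] at hd
  refine ⟨_, pvkfl_stop_two (b := 𝔓.col π.tt) (b' := 𝔓.col π.ts) (pvkfl_pin_fr 𝔓 m π.zt π.tt) (pvkfl_pin_fr 𝔓 m π.zs π.ts) hbo hbi hd, fun η h1 h2 => ?_⟩
  show pvsmGd _ _ η ∪ pvsmGd _ _ η = _
  rw [pvsm_gd_mem h1, pvsm_gd_mem h2]
  rfl

end rec

end Claimed.Agent.R289
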