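import Claimed.Agent.R289.Tr.Lane
import Claimed.Agent.R289.Tr.Hook
import Claimed.Agent.R289.Qbx.Exit

/-!
# Row 289 (S0537), unit TR (TR21 lower bounds, tool), file Tr/LaneQ : THE QUENCHED LANE LEMMA      (owner helper21, post of helper295; prefix `pvlq_`, defs `pvlq*`, `Pvlq*`)

QUENCHED twin of `Tr/Lane.lean` (helper229, annealed).      Consumers: `WO(D)` of `W1_208.md` sec.2 (`P(WO | D) ≥ q_W(π)` on good `η`, rider R4), (H2) "lanes of `c` by chains of rectangles + Harris per colour", TR21 (a)-(d).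
INPUT: `PvlqQbx q` = the uniform exit of QBX (`pvqx_exit_unif` of helper298): off a set of labelled geometries of probability `≤ θ`, the quenched probability that NO arm of a given colour crosses the square annulus `(u/2, 5u/2)` is `≥ q`.

* §1 DETERMINISTIC.  `pvlqBlk c z u` = no arm of the colour `!c` across the square annulus `(u/2, 5u/2)` round `z`.   `pvlq_hex` (Hex, both colours), **`pvlq_LR_of_blk`**, **`pvlq_TB_of_blk`**:
     blocking annuli centred on one side of a rectangle kill the dual crossing, so the rectangle is crossed.   `PvlqShape δ e` (crossing of a rectangle of width `≥ δ` and length `≤ 2δ`), `pvlq_cen` (5 centres per pattern), `pvlq_lane_shape`.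
* §2 ONE GEOMETRY.   `pvlq_blk_meas`, `pvlq_blk_up`, **`pvlq_net`** (`q^#Z ≤ pvQc (all blocking events) g`, quenched Harris of helper5 / helper103), **`pvlq_loc_ge`** :
     `q^(5 #l) ≤ pvQc (pvlnLoc N c l cen v) g + pvQc (mesh fails) g`.
* §3 THE GEOMETRY.   `pvlq_bad_blk`, `pvlq_bad_mesh` (Markov), **`pvlq_loc`** : `pvGeo ε {g | pvQc (pvlnLoc …) g < q^(5n)/2} ≤ θ` as soon as the scales are `≥ U(n, θ) ε`.
* §4 EXITS.   **`pvlq_lane`** (a lane of `≤ n` cells, either colour: `pvQc (pvlnLaneEv δ c L) g ≥ q^(15n)/2` off a geometry event of probability `≤ θ`), **`pvlq_corridor`** (two lanes with disjoint windows: product),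
     `pvlq_lane_dep` (the lane event looks only at the colours of the sites of its window), **`pvlq_lane_frozen`** (given ANY cylinder on indices off the window the probability is the same: `pvhkPa` of helper5), `pvlq_main` (from the contracts of QBX).
-/

set_option autoImplicit false
set_option linter.unusedSectionVars false
set_option linter.unusedVariables false

namespace Claimed.Agent.R289

open MeasureTheory ProbabilityTheory Set Filter Topology Metric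
open scoped ENNReal NNReal

/-! ## 0. the input -/

/-- **the uniform exit of QBX** -/
def PvlqQbx (q : ℝ) : Prop := ∀ θ : ℝ, 0 < θ → ∃ U : ℝ, 0 < U ∧ ∀ ε : ℝ, 0 < ε → ∀ u : ℝ, U * ε ≤ u → ∀ z : ℂ,
    pvGeo ε {g | pvQc {η | ¬ (rswArm z.re z.im (u / 2) (5 * u / 2)).Holds (cfB η)} g < ENNReal.ofReal q} ≤ ENNReal.ofReal θ ∧
    pvGeo ε {g | pvQc {η | ¬ (rswArm z.re z.im (u / 2) (5 * u / 2)).Holds (cfW η)} g < ENNReal.ofReal q} ≤ ENNReal.ofReal θ

/-- the blocking event which helps the colour `c`: no arm of the OTHER colour across the square annulus `(u/2, 5u/2)` round `z` -/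
def pvlqBlk (c : Bool) (z : ℂ) (u : ℝ) : Set (Conf PvPt) := {η | PvLF η ∧ ¬ (rswArm z.re z.im (u / 2) (5 * u / 2)).Holds (pvlnReg (!c) η)}

/-- crossing in the long direction of a rectangle of width `≥ δ` and length `≤ 2δ` -/
def PvlqShape (δ : ℝ) (e : RswTri) : Prop :=
  (∃ x0 x1 y0 y1 : ℝ, e = rswLR x0 x1 y0 y1 ∧ x0 ≤ x1 ∧ x1 ≤ x0 + 2 * δ ∧ y0 + δ ≤ y1) ∨
  (∃ x0 x1 y0 y1 : ℝ, e = rswTB x0 x1 y0 y1 ∧ y0 ≤ y1 ∧ y1 ≤ y0 + 2 * δ ∧ x0 + δ ≤ x1)

/-- five abscissae of mesh `u` from `t` on -/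
noncomputable def pvlqZ (t u : ℝ) : List ℝ := [t + u / 2, t + u / 2 + u, t + u / 2 + 2 * u, t + u / 2 + 3 * u, t + u / 2 + 4 * u]

/-- local finiteness + mesh -/
def pvlqM (cen : List ℂ) (v : ℝ) : Set (Conf PvPt) := {η | PvLF η} ∩ pvlnG cen v

theorem pvlq_eqns_cite : True := by
  have := @PvlqQbx.eq_1; have := @pvlqBlk.eq_1; have := @PvlqShape.eq_1; have := @pvlqZ.eq_1; have := @pvlqM.eq_1
  trivial

theorem pvlq_qbx (h1 : PvqxS1) : ∃ q : ℝ, 0 < q ∧ PvlqQbx q := pvqx_exit_unif h1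

/-! ## 1. deterministic: blocking annuli give crossings -/

theorem pvlq_ok_flip {η : Conf PvPt} (h : PvrOk η) : PvrOk (cfFlip η) := by
  refine ⟨pvrm_LF_flip.2 h.lf, ?_⟩
  obtain ⟨p, hp⟩ := h.ne
  refine ⟨(p.1, !p.2), (pvrm_flip_mem η p.1 (!p.2)).2 ?_⟩
  rw [Bool.not_not]
  exact hp

/-- **HEX**, both colours -/
theorem pvlq_hex (c : Bool) {η : Conf PvPt} (h : PvrOk η) {x0 x1 y0 y1 : ℝ} (hx : x0 ≤ x1) (hy : y0 ≤ y1) :
    (rswLR x0 x1 y0 y1).Holds (pvlnReg c η) ∨ (rswTB x0 x1 y0 y1).Holds (pvlnReg (!c) η) := by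
  cases c
  · have h1 := pvr_hex (pvlq_ok_flip h) hx hy
    rw [← pvr_W_eq, pvr_W_eq (cfFlip η), pvr_flip_flip] at h1
    exact h1
  · exact pvr_hex h hx hy

theorem pvlq_hex' (c : Bool) {η : Conf PvPt} (h : PvrOk η) {x0 x1 y0 y1 : ℝ} (hx : x0 ≤ x1) (hy : y0 ≤ y1) :
    (rswTB x0 x1 y0 y1).Holds (pvlnReg c η) ∨ (rswLR x0 x1 y0 y1).Holds (pvlnReg (!c) η) := by
  have h1 := pvlq_hex (!c) h hx hy
  rw [Bool.not_not] at h1
  exact h1.symm

/-- blocking annuli centred on the bottom side: the rectangle is crossed from left to right -/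
theorem pvlq_LR_of_blk (c : Bool) {η : Conf PvPt} (h : PvrOk η) {x0 x1 y0 y1 u : ℝ} (hx : x0 ≤ x1) (hu : 0 ≤ u) (hy : y0 + 5 * u / 2 ≤ y1)
    (Z : List ℝ) (hZ : ∀ x, x0 ≤ x → x ≤ x1 → ∃ a ∈ Z, |x - a| ≤ u / 2) (hb : ∀ a ∈ Z, η ∈ pvlqBlk c ⟨a, y0⟩ u) :
    (rswLR x0 x1 y0 y1).Holds (pvlnReg c η) := by
  rcases pvlq_hex c h (y0 := y0) (y1 := y1) hx (by linarith) with h1 | ⟨p, hp, r, hr, hj⟩
  · exact h1
  exfalso
  obtain ⟨p1, p2, p3, p4⟩ := hp
  obtain ⟨r1, r2, r3, r4⟩ := hr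
  obtain ⟨a, ha, hpa⟩ := hZ p.re p1 p2
  rw [abs_le] at hpa
  refine (hb a ha).2 (pvre_arm_of_path (by linarith) (hj.mono inter_subset_left) ⟨?_, ?_, ?_, ?_⟩ fun hcon => ?_)
  · show a - u / 2 ≤ p.re
    linarith [hpa.1]
  · show p.re ≤ a + u / 2
    linarith [hpa.2]
  · show y0 - u / 2 ≤ p.im
    linarith
  · show p.im ≤ y0 + u / 2
    linarith
  · have : r.im < y0 + 5 * u / 2 := hcon.2.2.2
    linarith

/-- blocking annuli centred on the left side: the rectangle is crossed from bottom to top -/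
theorem pvlq_TB_of_blk (c : Bool) {η : Conf PvPt} (h : PvrOk η) {x0 x1 y0 y1 u : ℝ} (hy : y0 ≤ y1) (hu : 0 ≤ u) (hx : x0 + 5 * u / 2 ≤ x1)
    (Z : List ℝ) (hZ : ∀ y, y0 ≤ y → y ≤ y1 → ∃ a ∈ Z, |y - a| ≤ u / 2) (hb : ∀ a ∈ Z, η ∈ pvlqBlk c ⟨x0, a⟩ u) :
    (rswTB x0 x1 y0 y1).Holds (pvlnReg c η) := by
  rcases pvlq_hex' c h (x0 := x0) (x1 := x1) (by linarith) hy with h1 | ⟨p, hp, r, hr, hj⟩
  · exact h1
  exfalso
  obtain ⟨p1, p2, p3, p4⟩ := hp
  obtain ⟨r1, r2, r3, r4⟩ := hr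
  obtain ⟨a, ha, hpa⟩ := hZ p.im p3 p4
  rw [abs_le] at hpa
  refine (hb a ha).2 (pvre_arm_of_path (by linarith) (hj.mono inter_subset_left) ⟨?_, ?_, ?_, ?_⟩ fun hcon => ?_)
  · show x0 - u / 2 ≤ p.re
    linarith
  · show p.re ≤ x0 + u / 2
    linarith
  · show a - u / 2 ≤ p.im
    linarith [hpa.1]
  · show p.im ≤ a + u / 2
    linarith [hpa.2]
  · have : r.re < x0 + 5 * u / 2 := hcon.2.1
    linarith

theorem pvlq_Z_cover {t u x : ℝ} (hu : 0 ≤ u) (h0 : t ≤ x) (h1 : x ≤ t + 5 * u) : ∃ a ∈ pvlqZ t u, |x - a| ≤ u / 2 := by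
  unfold pvlqZ
  by_cases c1 : x ≤ t + u
  · exact ⟨t + u / 2, by simp, abs_le.2 ⟨by linarith, by linarith⟩⟩
  by_cases c2 : x ≤ t + 2 * u
  · exact ⟨t + u / 2 + u, by simp, abs_le.2 ⟨by linarith, by linarith⟩⟩
  by_cases c3 : x ≤ t + 3 * u
  · exact ⟨t + u / 2 + 2 * u, by simp, abs_le.2 ⟨by linarith, by linarith⟩⟩
  by_cases c4 : x ≤ t + 4 * u
  · exact ⟨t + u / 2 + 3 * u, by simp, abs_le.2 ⟨by linarith, by linarith⟩⟩
  · exact ⟨t + u / 2 + 4 * u, by simp, abs_le.2 ⟨by linarith, by linarith⟩⟩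

/-- five centres for one pattern -/
theorem pvlq_cen1 {δ : ℝ} (hδ : 0 ≤ δ) {e : RswTri} (he : PvlqShape δ e) : ∃ Z : List ℂ, Z.length = 5 ∧
    ∀ (c : Bool) (η : Conf PvPt), PvrOk η → (∀ z ∈ Z, η ∈ pvlqBlk c z (2 * δ / 5)) → e.Holds (pvlnReg c η) := by
  rcases he with ⟨x0, x1, y0, y1, rfl, h1, h2, h3⟩ | ⟨x0, x1, y0, y1, rfl, h1, h2, h3⟩
  · refine ⟨(pvlqZ x0 (2 * δ / 5)).map fun a => (⟨a, y0⟩ : ℂ), by simp [pvlqZ], fun c η hη hb => ?_⟩
    refine pvlq_LR_of_blk c hη h1 (by positivity) (by linarith) (pvlqZ x0 (2 * δ / 5)) (fun x a b => pvlq_Z_cover (by positivity) a (by linarith)) fun a ha => ?_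
    exact hb _ (List.mem_map_of_mem ha)
  · refine ⟨(pvlqZ y0 (2 * δ / 5)).map fun a => (⟨x0, a⟩ : ℂ), by simp [pvlqZ], fun c η hη hb => ?_⟩
    refine pvlq_TB_of_blk c hη h1 (by positivity) (by linarith) (pvlqZ y0 (2 * δ / 5)) (fun x a b => pvlq_Z_cover (by positivity) a (by linarith)) fun a ha => ?_
    exact hb _ (List.mem_map_of_mem ha)

/-- **the centres of a list of patterns** -/
theorem pvlq_cen {δ : ℝ} (hδ : 0 ≤ δ) : ∀ l : List RswTri, (∀ e ∈ l, PvlqShape δ e) → ∃ Z : List ℂ, Z.length = 5 * l.length ∧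
    ∀ (c : Bool) (η : Conf PvPt), PvrOk η → (∀ z ∈ Z, η ∈ pvlqBlk c z (2 * δ / 5)) → ∀ e ∈ l, e.Holds (pvlnReg c η)
  | [], _ => ⟨[], by simp, fun _ _ _ _ e he => by simp at he⟩
  | e :: l, h => by
    obtain ⟨Z1, hZ1, H1⟩ := pvlq_cen1 hδ (h e List.mem_cons_self)
    obtain ⟨Z2, hZ2, H2⟩ := pvlq_cen hδ l fun e' he' => h e' (List.mem_cons_of_mem _ he')
    refine ⟨Z1 ++ Z2, by rw [List.length_append, hZ1, hZ2, List.length_cons]; ring, fun c η hη hb e' he' => ?_⟩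
    rcases List.mem_cons.1 he' with rfl | he'
    · exact H1 c η hη fun z hz => hb z (List.mem_append_left _ hz)
    · exact H2 c η hη (fun z hz => hb z (List.mem_append_right _ hz)) e' he'

theorem pvlq_shape_H {δ : ℝ} (hδ : 0 ≤ δ) (k : ℤ × ℤ) : PvlqShape δ (pvlnH δ k) :=
  Or.inl ⟨_, _, _, _, rfl, by nlinarith, by nlinarith, by nlinarith⟩

theorem pvlq_shape_V {δ : ℝ} (hδ : 0 ≤ δ) (k : ℤ × ℤ) : PvlqShape δ (pvlnV δ k) :=
  Or.inr ⟨_, _, _, _, rfl, by nlinarith, by nlinarith, by nlinarith⟩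

theorem pvlq_shape_D {δ : ℝ} (hδ : 0 ≤ δ) (k k' : ℤ × ℤ) : PvlqShape δ (pvlnD δ k k') := by
  unfold pvlnD
  split_ifs
  · exact Or.inl ⟨_, _, _, _, rfl, by nlinarith, by nlinarith, by nlinarith⟩
  · exact Or.inr ⟨_, _, _, _, rfl, by nlinarith, by nlinarith, by nlinarith⟩

theorem pvlq_lane_shape {δ : ℝ} (hδ : 0 ≤ δ) : ∀ L : List (ℤ × ℤ), ∀ e ∈ pvlnLane δ L, PvlqShape δ e := by
  intro L
  induction L with
  | nil => intro e he; simp [pvlnLane] at he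
  | cons k t ih =>
    cases t with
    | nil =>
      intro e he
      simp only [pvlnLane, List.mem_cons, List.not_mem_nil, or_false] at he
      rcases he with rfl | rfl
      · exact pvlq_shape_H hδ k
      · exact pvlq_shape_V hδ k
    | cons k' t =>
      intro e he
      simp only [pvlnLane, List.mem_cons] at he
      rcases he with rfl | rfl | rfl | he
      · exact pvlq_shape_H hδ k
      · exact pvlq_shape_V hδ k
      · exact pvlq_shape_D hδ k k'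
      · exact ih e he

/-! ## 2. one geometry -/

theorem pvlq_blk_meas (c : Bool) (z : ℂ) (u : ℝ) : MeasurableSet (pvlqBlk c z u) := by
  have hm : MeasurableSet ({η : Conf PvPt | (rswArm z.re z.im (u / 2) (5 * u / 2)).Holds (pvlnReg (!c) η)} ∩ {η | PvLF η}) := by
    cases c
    · exact pv_conn_meas (rsw_nice_Arm _ _ _ _)
    · exact pv_conn_meas_white (rsw_nice_Arm _ _ _ _)
  have e : pvlqBlk c z u = {η | PvLF η} \ ({η : Conf PvPt | (rswArm z.re z.im (u / 2) (5 * u / 2)).Holds (pvlnReg (!c) η)} ∩ {η | PvLF η}) := by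
    ext η
    exact ⟨fun h => ⟨h.1, fun h1 => h.2 h1.1⟩, fun h => ⟨h.1, fun h1 => h.2 ⟨h1, h.1⟩⟩⟩
  rw [e]
  exact pvcn_LF_meas.diff hm

theorem pvlq_reg_mono {η η' : Conf PvPt} (h : PvLe η η') : pvlnReg true η ⊆ pvlnReg true η' ∧ pvlnReg false η' ⊆ pvlnReg false η := by
  constructor
  · exact pvr_B_mono h
  · rintro z ⟨w, hw, hz⟩
    exact ⟨w, h.2 hw, fun v hv => hz v (h.1 hv)⟩

theorem pvlq_holds_mono {e : RswTri} {B B' : Set ℂ} (h : B ⊆ B') (he : e.Holds B) : e.Holds B' :=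
  rsw_det_mono h subset_rfl subset_rfl subset_rfl he

/-- the blocking events which help black are increasing -/
theorem pvlq_blk_inc (z : ℂ) (u : ℝ) : PvInc (pvlqBlk true z u) := fun η η' _ h' hle hη =>
  ⟨h', fun ha => hη.2 (pvlq_holds_mono (pvlq_reg_mono hle).2 ha)⟩

/-- the blocking events which help white are decreasing -/
theorem pvlq_blk_dec (z : ℂ) (u : ℝ) : PvDec (pvlqBlk false z u) := fun η η' h _ hle hη =>
  ⟨h, fun ha => hη.2 (pvlq_holds_mono (pvlq_reg_mono hle).1 ha)⟩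

/-- the order in which the colour `c` is up at every index -/
noncomputable def pvlqS (g : PvGeoT) (c : Bool) : PvIx → Option Bool := cond c (pvhkSg g univ ∅) (pvhkSg g ∅ univ)

theorem pvlq_blk_up {g : PvGeoT} (hg : PvgOk g) (c : Bool) (z : ℂ) (u : ℝ) : PvhkUpAt g (pvlqS g c) (pvlqBlk c z u) := by
  cases c
  · exact pvhk_up_white hg (Set.empty_disjoint _) (pvlq_blk_dec z u) fun c c' h hc => by
      have : c = c' := funext fun i => h i (mem_univ _)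
      rwa [← this]
  · exact pvhk_up_black hg univ ∅ (pvlq_blk_inc z u) fun c c' h hc => by
      have : c = c' := funext fun i => h i (mem_univ _)
      rwa [← this]

/-- **quenched Harris for the blocking events** -/
theorem pvlq_net {g : PvGeoT} (hg : PvgOk g) (c : Bool) (Z : List ℂ) (u : ℝ) {q : ℝ≥0∞} (hq : ∀ z ∈ Z, q ≤ pvQc (pvlqBlk c z u) g) :
    q ^ Z.length ≤ pvQc {η | ∀ z ∈ Z, η ∈ pvlqBlk c z u} g :=
  pvhk_Qc_net (pvlqS g c) Z (fun z => pvlqBlk c z u) (fun z _ => measurable_pvConf (pvlq_blk_meas c z u)) (fun z _ => pvlq_blk_up hg c z u) hq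

theorem pvlq_M_meas (cen : List ℂ) (v : ℝ) : MeasurableSet (pvlqM cen v) := pvcn_LF_meas.inter (pvln_G_meas cen v)

/-- on the mesh event the configuration is not empty -/
theorem pvlq_M_ok {cen : List ℂ} {v : ℝ} (hv : 0 < v) (hcen : cen ≠ []) {η : Conf PvPt} (h : η ∈ pvlqM cen v) : PvrOk η := by
  refine ⟨h.1, ?_⟩
  obtain ⟨w, hw⟩ := List.exists_mem_of_ne_nil cen hcen
  obtain ⟨p, hp, -, -⟩ := pvm_good_net (by positivity) (h.2 w hw) w ⟨by simp [hv.le], by simp [hv.le]⟩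
  exact ⟨p, hp⟩

section one
variable {N : Set ℂ} {l : List RswTri} {cen : List ℂ} {v δ : ℝ}

/-- **ONE GEOMETRY**: lower bound for the quenched probability of a local package -/
theorem pvlq_loc_ge (hF : PvlnFit N l cen v) (hcen : cen ≠ []) (hδ : 0 ≤ δ) (c : Bool) {Z : List ℂ}
    (hZ : ∀ η : Conf PvPt, PvrOk η → (∀ z ∈ Z, η ∈ pvlqBlk c z (2 * δ / 5)) → ∀ e ∈ l, e.Holds (pvlnReg c η))
    {g : PvGeoT} (hg : PvgOk g) {q : ℝ≥0∞} (hq : ∀ z ∈ Z, q ≤ pvQc (pvlqBlk c z (2 * δ / 5)) g) :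
    q ^ Z.length ≤ pvQc (pvlnLoc N c l cen v) g + pvQc (pvlqM cen v)ᶜ g := by
  have hsub : {η | ∀ z ∈ Z, η ∈ pvlqBlk c z (2 * δ / 5)} ⊆ pvlnLoc N c l cen v ∪ (pvlqM cen v)ᶜ := by
    intro η hη
    by_cases hM : η ∈ pvlqM cen v
    · exact Or.inl (pvln_sub_loc hF ⟨⟨hZ η (pvlq_M_ok hF.pos hcen hM) hη, hM.1⟩, hM.2⟩)
    · exact Or.inr hM
  exact (pvlq_net hg c Z _ hq).trans ((pvqu_Qc_mono hsub g).trans (pvqu_Qc_union_le _ _ g))

end one

/-! ## 3. the geometry -/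

/-- at a good geometry the blocking event has the quenched probability of QBX -/
theorem pvlq_blk_Qc {g : PvGeoT} (hg : PvgOk g) (c : Bool) (z : ℂ) (u : ℝ) :
    pvQc (pvlqBlk c z u) g = pvQc {η | ¬ (rswArm z.re z.im (u / 2) (5 * u / 2)).Holds (pvlnReg (!c) η)} g := by
  rw [pvqu_Qc_eq, pvqu_Qc_eq]
  congr 1
  ext x
  exact ⟨fun h => h.2, fun h => ⟨(hg.ok x).pvlf, h⟩⟩

/-- the geometries at which one blocking event is too rare -/
theorem pvlq_bad_blk {q : ℝ} (hQ : PvlqQbx q) {θ : ℝ} (hθ : 0 < θ) : ∃ U : ℝ, 0 < U ∧ ∀ ε : ℝ, 0 < ε → ∀ u : ℝ, U * ε ≤ u → ∀ (c : Bool) (z : ℂ),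
    pvGeo ε {g | PvgOk g ∧ pvQc (pvlqBlk c z u) g < ENNReal.ofReal q} ≤ ENNReal.ofReal θ := by
  obtain ⟨U, hU, H⟩ := hQ θ hθ
  refine ⟨U, hU, fun ε hε u hu c z => ?_⟩
  obtain ⟨H1, H2⟩ := H ε hε u hu z
  cases c
  · refine (measure_mono ?_).trans H1
    rintro g ⟨hg, h⟩
    rw [pvlq_blk_Qc hg] at h
    exact h
  · refine (measure_mono ?_).trans H2
    rintro g ⟨hg, h⟩
    rw [pvlq_blk_Qc hg] at h
    exact h

/-- Markov for the mesh event -/
theorem pvlq_bad_mesh (ε : ℝ) (cen : List ℂ) {v : ℝ} (hv : 0 < v) {a : ℝ≥0∞} (ha : a ≠ 0) (ha' : a ≠ ∞) :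
    pvGeo ε {g | a ≤ pvQc (pvlqM cen v)ᶜ g} ≤ ENNReal.ofReal (cen.length * (37 ^ 2 * Real.exp (-((v / 8) ^ 2 / (8 * ε ^ 2))))) / a := by
  have hm : MeasurableSet (pvlqM cen v)ᶜ := (pvlq_M_meas cen v).compl
  have h1 := meas_ge_le_lintegral_div (μ := pvGeo ε) (pvqu_Qc_meas hm).aemeasurable ha ha'
  rw [pvqu_Qc_lintegral ε hm] at h1
  refine h1.trans (ENNReal.div_le_div_right ?_ a)
  have hsub : (pvlqM cen v)ᶜ ⊆ {η | PvLF η}ᶜ ∪ (pvlnG cen v)ᶜ := by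
    intro η hη
    by_cases h : PvLF η
    · exact Or.inr fun h2 => hη ⟨h, h2⟩
    · exact Or.inl h
  have hLF : pvP ε {η | PvLF η}ᶜ = 0 := pvcn_LF_ae ε
  calc pvP ε (pvlqM cen v)ᶜ ≤ pvP ε {η | PvLF η}ᶜ + pvP ε (pvlnG cen v)ᶜ := (measure_mono hsub).trans (measure_union_le _ _)
    _ ≤ _ := by rw [hLF, zero_add]; exact pvln_G_prob ε cen hv

/-- **THE QUENCHED PROBABILITY OF A LOCAL PACKAGE**: `≤ n` patterns of shape `δ`, `≤ n` mesh squares of half side `v`, scales `δ, v ≥ U(n, θ) ε`: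
off a set of labelled geometries of probability `≤ θ` the quenched probability of the local event is `≥ q^(5n)/2` -/
theorem pvlq_loc {q : ℝ} (hq0 : 0 < q) (hq1 : q ≤ 1) (hQ : PvlqQbx q) (n : ℕ) {θ : ℝ} (hθ : 0 < θ) :
    ∃ U : ℝ, 1 ≤ U ∧ ∀ ε : ℝ, 0 < ε → ∀ δ v : ℝ, U * ε ≤ δ → U * ε ≤ v → ∀ (N : Set ℂ) (c : Bool) (l : List RswTri) (cen : List ℂ),
      PvlnFit N l cen v → cen ≠ [] → (∀ e ∈ l, PvlqShape δ e) → l.length ≤ n → cen.length ≤ n →
      pvGeo ε {g | pvQc (pvlnLoc N c l cen v) g < ENNReal.ofReal (q ^ (5 * n) / 2)} ≤ ENNReal.ofReal θ := by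
  have hA : 0 < q ^ (5 * n) / 2 := by positivity
  set A : ℝ := q ^ (5 * n) / 2 with hAdef
  have hθ1 : 0 < θ / (2 * (5 * (n : ℝ) + 1)) := by positivity
  obtain ⟨U1, hU1, H1⟩ := pvlq_bad_blk hQ hθ1
  obtain ⟨U2, hU2, H2⟩ := pvln_err n (a := θ * A / 2) (by positivity)
  refine ⟨max 1 (max (5 / 2 * U1) U2), le_max_left _ _, fun ε hε δ v hδU hvU N c l cen hF hcen hsh hl hc => ?_⟩
  have hUδ : 5 / 2 * U1 * ε ≤ δ := (mul_le_mul_of_nonneg_right ((le_max_left _ _).trans (le_max_right _ _)) hε.le).trans hδU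
  have hUv : U2 * ε ≤ v := (mul_le_mul_of_nonneg_right ((le_max_right _ _).trans (le_max_right _ _)) hε.le).trans hvU
  have hδ : 0 < δ := lt_of_lt_of_le (by positivity) hUδ
  have hu : U1 * ε ≤ 2 * δ / 5 := by linarith
  obtain ⟨Z, hZlen, hZ⟩ := pvlq_cen hδ.le l hsh
  have hsub : {g | pvQc (pvlnLoc N c l cen v) g < ENNReal.ofReal A} ⊆
      {g | ¬ PvgOk g} ∪ (⋃ z ∈ Z.toFinset, {g | PvgOk g ∧ pvQc (pvlqBlk c z (2 * δ / 5)) g < ENNReal.ofReal q}) ∪ {g | ENNReal.ofReal A ≤ pvQc (pvlqM cen v)ᶜ g} := by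
    intro g hg
    by_contra hcon
    simp only [mem_union, mem_ofPred_eq, mem_iUnion, List.mem_toFinset, exists_prop, not_or, not_not, not_exists, not_and, not_lt, not_le] at hcon
    obtain ⟨⟨hok, hblk⟩, hM⟩ := hcon
    have h1 := pvlq_loc_ge hF hcen hδ.le c (hZ c) hok (q := ENNReal.ofReal q) fun z hz => hblk z hz hok
    have h2 : pvQc (pvlnLoc N c l cen v) g + pvQc (pvlqM cen v)ᶜ g < ENNReal.ofReal A + ENNReal.ofReal A := ENNReal.add_lt_add hg hM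
    have h3 : ENNReal.ofReal A + ENNReal.ofReal A = ENNReal.ofReal (q ^ (5 * n)) := by
      rw [← ENNReal.ofReal_add hA.le hA.le, hAdef]
      congr 1
      ring
    have h4 : ENNReal.ofReal (q ^ (5 * n)) ≤ ENNReal.ofReal q ^ Z.length := by
      rw [← ENNReal.ofReal_pow hq0.le]
      refine ENNReal.ofReal_le_ofReal (pow_le_pow_of_le_one hq0.le hq1 ?_)
      rw [hZlen]
      omega
    rw [h3] at h2
    exact absurd (h4.trans h1) (not_le.2 h2)
  have m1 : pvGeo ε {g | ¬ PvgOk g} = 0 := pvqu_ok_ae ε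
  have m2 : pvGeo ε (⋃ z ∈ Z.toFinset, {g | PvgOk g ∧ pvQc (pvlqBlk c z (2 * δ / 5)) g < ENNReal.ofReal q}) ≤ ENNReal.ofReal (θ / 2) := by
    calc pvGeo ε (⋃ z ∈ Z.toFinset, {g | PvgOk g ∧ pvQc (pvlqBlk c z (2 * δ / 5)) g < ENNReal.ofReal q})
        ≤ ∑ z ∈ Z.toFinset, pvGeo ε {g | PvgOk g ∧ pvQc (pvlqBlk c z (2 * δ / 5)) g < ENNReal.ofReal q} := measure_biUnion_finset_le _ _
      _ ≤ ∑ _z ∈ Z.toFinset, ENNReal.ofReal (θ / (2 * (5 * (n : ℝ) + 1))) := Finset.sum_le_sum fun z _ => H1 ε hε _ hu c z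
      _ = (Z.toFinset.card : ℝ≥0∞) * ENNReal.ofReal (θ / (2 * (5 * (n : ℝ) + 1))) := by rw [Finset.sum_const, nsmul_eq_mul]
      _ = ENNReal.ofReal ((Z.toFinset.card : ℝ) * (θ / (2 * (5 * (n : ℝ) + 1)))) := by
          rw [ENNReal.ofReal_mul (by positivity), ENNReal.ofReal_natCast]
      _ ≤ ENNReal.ofReal (θ / 2) := by
          refine ENNReal.ofReal_le_ofReal ?_
          have hcard : (Z.toFinset.card : ℝ) ≤ 5 * (n : ℝ) + 1 := by
            have h5 : Z.toFinset.card ≤ 5 * n + 1 := (List.toFinset_card_le Z).trans (by rw [hZlen]; omega)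
            exact_mod_cast h5
          calc (Z.toFinset.card : ℝ) * (θ / (2 * (5 * (n : ℝ) + 1))) ≤ (5 * (n : ℝ) + 1) * (θ / (2 * (5 * (n : ℝ) + 1))) :=
                mul_le_mul_of_nonneg_right hcard hθ1.le
            _ = θ / 2 := by field_simp
  have m3 : pvGeo ε {g | ENNReal.ofReal A ≤ pvQc (pvlqM cen v)ᶜ g} ≤ ENNReal.ofReal (θ / 2) := by
    refine (pvlq_bad_mesh ε cen hF.pos (ENNReal.ofReal_pos.2 hA).ne' ENNReal.ofReal_ne_top).trans ?_
    rw [← ENNReal.ofReal_div_of_pos hA]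
    refine ENNReal.ofReal_le_ofReal ?_
    rw [div_le_iff₀ hA]
    calc (cen.length : ℝ) * (37 ^ 2 * Real.exp (-((v / 8) ^ 2 / (8 * ε ^ 2)))) ≤ θ * A / 2 := H2 ε hε v hUv cen.length hc
      _ = θ / 2 * A := by ring
  calc pvGeo ε {g | pvQc (pvlnLoc N c l cen v) g < ENNReal.ofReal A}
      ≤ pvGeo ε {g | ¬ PvgOk g} + pvGeo ε (⋃ z ∈ Z.toFinset, {g | PvgOk g ∧ pvQc (pvlqBlk c z (2 * δ / 5)) g < ENNReal.ofReal q})
          + pvGeo ε {g | ENNReal.ofReal A ≤ pvQc (pvlqM cen v)ᶜ g} :=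
        (measure_mono hsub).trans ((measure_union_le _ _).trans (add_le_add (measure_union_le _ _) le_rfl))
    _ ≤ 0 + ENNReal.ofReal (θ / 2) + ENNReal.ofReal (θ / 2) := add_le_add (add_le_add m1.le m2) m3
    _ = ENNReal.ofReal θ := by
        rw [zero_add, ← ENNReal.ofReal_add (by positivity) (by positivity)]
        congr 1
        ring

/-! ## 4. exits -/

/-- **THE QUENCHED LANE LEMMA** (either colour): a lane of at most `n ≥ 1` cells of side `δ ≥ U(n, θ) ε`: off a set of labelled geometries of probability `≤ θ`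
the quenched probability of the local event of the lane (`pvlnLaneEv` of helper229: hubs in every cell, `δ/16`-net, read in the window `pvlnW δ L`) is `≥ q^(15n)/2` -/
theorem pvlq_lane {q : ℝ} (hq0 : 0 < q) (hq1 : q ≤ 1) (hQ : PvlqQbx q) (n : ℕ) {θ : ℝ} (hθ : 0 < θ) :
    ∃ U : ℝ, 1 ≤ U ∧ ∀ ε : ℝ, 0 < ε → ∀ δ : ℝ, U * ε ≤ δ → ∀ (c : Bool) (L : List (ℤ × ℤ)), L ≠ [] → L.IsChain PvlnAdj → L.length ≤ n →
      pvGeo ε {g | pvQc (pvlnLaneEv δ c L) g < ENNReal.ofReal (q ^ (15 * n) / 2)} ≤ ENNReal.ofReal θ := by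
  obtain ⟨U, hU1, H⟩ := pvlq_loc hq0 hq1 hQ (3 * n) hθ
  refine ⟨2 * U, by linarith, fun ε hε δ hδU c L hne hc hn => ?_⟩
  have hUε : 0 ≤ U * ε := by positivity
  have hδ : 0 < δ := lt_of_lt_of_le (by positivity) hδU
  have h := H ε hε δ (δ / 2) (by linarith) (by linarith) (pvlnW δ L) c (pvlnLane δ L) (L.map (pvlnCtr δ)) (pvln_lane_fit hδ hc)
    (by simpa using hne) (pvlq_lane_shape hδ.le L) ((pvln_lane_length δ L).trans (by omega)) (by rw [List.length_map]; omega)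
  have e : 5 * (3 * n) = 15 * n := by ring
  rw [e] at h
  exact h

/-- the lane event is read in its window -/
theorem pvlq_lane_reads (δ : ℝ) (c : Bool) (L : List (ℤ × ℤ)) : Conf.ReadsSet (pvlnW δ L ×ˢ univ) (pvlnLaneEv δ c L) :=
  pvln_loc_reads _ _ _ _ _

/-- the lane event looks only at the colours of the sites of its window -/
theorem pvlq_lane_dep (δ : ℝ) (c : Bool) (L : List (ℤ × ℤ)) (g : PvGeoT) :
    PvDep (pvgIn g (pvlnW δ L ×ˢ univ)) {x | pvConf (pvMerge (g, x)) ∈ pvlnLaneEv δ c L} :=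
  pvqu_loc_dep (pvlq_lane_reads δ c L) g

/-- **FROZEN INDICES**: given ANY colours `a` on a set `Fz` of indices off the window, the probability of the lane event is its quenched probability -/
theorem pvlq_lane_frozen (δ : ℝ) (c : Bool) (L : List (ℤ × ℤ)) (g : PvGeoT) {Fz : Set PvIx} (hd : Disjoint (pvgIn g (pvlnW δ L ×ˢ univ)) Fz) (a : PvColT) :
    pvhkPa Fz a {x | pvConf (pvMerge (g, x)) ∈ pvlnLaneEv δ c L} = pvQc (pvlnLaneEv δ c L) g :=
  pvhk_Pa_free hd a (pvlq_lane_dep δ c L g)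

theorem pvlq_W_bdd (δ : ℝ) (L : List (ℤ × ℤ)) : Bornology.IsBounded (pvlnW δ L) := by
  unfold pvlnW
  refine (Bornology.isBounded_biUnion (List.finite_toSet L)).2 fun k _ => ?_
  refine (Metric.isBounded_closedBall (x := pvlnCtr δ k) (r := 2 * (δ / 2 + 2 * (δ / 2 / 8)))).subset fun z hz => ?_
  rw [mem_closedBall, Complex.dist_eq]
  have h1 := Complex.norm_le_abs_re_add_abs_im (z - pvlnCtr δ k)
  have h2 : |(z - pvlnCtr δ k).re| ≤ δ / 2 + 2 * (δ / 2 / 8) := hz.1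
  have h3 : |(z - pvlnCtr δ k).im| ≤ δ / 2 + 2 * (δ / 2 / 8) := hz.2
  linarith

/-- **TWO LANES** with disjoint windows (any colours): product of the quenched probabilities -/
theorem pvlq_two {δ δ' : ℝ} {c c' : Bool} {L L' : List (ℤ × ℤ)} (hd : Disjoint (pvlnW δ L) (pvlnW δ' L')) {g : PvGeoT} (hg : PvgOk g) :
    pvQc (pvlnLaneEv δ c L ∩ pvlnLaneEv δ' c' L') g = pvQc (pvlnLaneEv δ c L) g * pvQc (pvlnLaneEv δ' c' L') g :=
  pvqu_loc_indep (pvlq_W_bdd δ L) (pvlq_W_bdd δ' L') hd (pvlq_lane_reads δ c L) (pvlq_lane_reads δ' c' L') hg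

/-- **THE QUENCHED CORRIDOR**: two lanes of at most `n` cells with disjoint windows -/
theorem pvlq_corridor {q : ℝ} (hq0 : 0 < q) (hq1 : q ≤ 1) (hQ : PvlqQbx q) (n : ℕ) {θ : ℝ} (hθ : 0 < θ) :
    ∃ U : ℝ, 1 ≤ U ∧ ∀ ε : ℝ, 0 < ε → ∀ δ : ℝ, U * ε ≤ δ → ∀ (c c' : Bool) (L L' : List (ℤ × ℤ)), L ≠ [] → L' ≠ [] → L.IsChain PvlnAdj → L'.IsChain PvlnAdj →
      L.length ≤ n → L'.length ≤ n → Disjoint (pvlnW δ L) (pvlnW δ L') →
      pvGeo ε {g | pvQc (pvlnLaneEv δ c L ∩ pvlnLaneEv δ c' L') g < ENNReal.ofReal ((q ^ (15 * n) / 2) ^ 2)} ≤ ENNReal.ofReal θ := by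
  obtain ⟨U, hU1, H⟩ := pvlq_lane hq0 hq1 hQ n (θ := θ / 2) (by positivity)
  refine ⟨U, hU1, fun ε hε δ hδU c c' L L' hne hne' hc hc' hn hn' hd => ?_⟩
  have hA : 0 ≤ q ^ (15 * n) / 2 := by positivity
  have hsub : {g | pvQc (pvlnLaneEv δ c L ∩ pvlnLaneEv δ c' L') g < ENNReal.ofReal ((q ^ (15 * n) / 2) ^ 2)} ⊆
      {g | ¬ PvgOk g} ∪ {g | pvQc (pvlnLaneEv δ c L) g < ENNReal.ofReal (q ^ (15 * n) / 2)} ∪ {g | pvQc (pvlnLaneEv δ c' L') g < ENNReal.ofReal (q ^ (15 * n) / 2)} := by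
    intro g hg
    by_contra hcon
    simp only [mem_union, mem_ofPred_eq, not_or, not_not, not_lt] at hcon
    obtain ⟨⟨hok, h1⟩, h2⟩ := hcon
    have hg' : pvQc (pvlnLaneEv δ c L ∩ pvlnLaneEv δ c' L') g < ENNReal.ofReal ((q ^ (15 * n) / 2) ^ 2) := hg
    rw [pvlq_two hd hok, ENNReal.ofReal_pow hA, sq] at hg'
    exact absurd (mul_le_mul' h1 h2) (not_le.2 hg')
  have m1 : pvGeo ε {g | ¬ PvgOk g} = 0 := pvqu_ok_ae ε
  calc pvGeo ε {g | pvQc (pvlnLaneEv δ c L ∩ pvlnLaneEv δ c' L') g < ENNReal.ofReal ((q ^ (15 * n) / 2) ^ 2)}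
      ≤ pvGeo ε {g | ¬ PvgOk g} + pvGeo ε {g | pvQc (pvlnLaneEv δ c L) g < ENNReal.ofReal (q ^ (15 * n) / 2)}
          + pvGeo ε {g | pvQc (pvlnLaneEv δ c' L') g < ENNReal.ofReal (q ^ (15 * n) / 2)} :=
        (measure_mono hsub).trans ((measure_union_le _ _).trans (add_le_add (measure_union_le _ _) le_rfl))
    _ ≤ 0 + ENNReal.ofReal (θ / 2) + ENNReal.ofReal (θ / 2) :=
        add_le_add (add_le_add m1.le (H ε hε δ hδU c L hne hc hn)) (H ε hε δ hδU c' L' hne' hc' hn')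
    _ = ENNReal.ofReal θ := by
        rw [zero_add, ← ENNReal.ofReal_add (by positivity) (by positivity)]
        congr 1
        ring

/-- the constant, from the contracts of QBX -/
theorem pvlq_main (hL : PvqmLay) (hR : PvqmRev (fun u => pvqcO 0 u) (fun u => pvqcF 0 u)) : ∃ q : ℝ, 0 < q ∧ q ≤ 1 ∧ PvlqQbx q := by
  obtain ⟨q, hq, h⟩ := pvlq_qbx (pvqm_stage1 hL (fun _ hu => pvqc_win 0 hu) (fun u _ => pvqc_test 0 u) hR)
  refine ⟨min q 1, by positivity, min_le_right _ _, fun θ hθ => ?_⟩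
  obtain ⟨U, hU, H⟩ := h θ hθ
  refine ⟨U, hU, fun ε hε u hu z => ?_⟩
  obtain ⟨H1, H2⟩ := H ε hε u hu z
  have hle : ENNReal.ofReal (min q 1) ≤ ENNReal.ofReal q := ENNReal.ofReal_le_ofReal (min_le_left _ _)
  exact ⟨(measure_mono fun g hg => lt_of_lt_of_le hg hle).trans H1, (measure_mono fun g hg => lt_of_lt_of_le hg hle).trans H2⟩

theorem pvlq_eqns_cite2 : True := by
  have := @pvlqS.eq_1
  trivial

end Claimed.Agent.R289
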