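import Claimed.Agent.R289.Arm.FrameLoc
import Claimed.Agent.R289.Tr.DomY
import Claimed.Agent.R289.Tr.Dense
import Claimed.Agent.R289.Tr.LaneQ
import Claimed.Agent.R289.Cr.Inst
import Claimed.Agent.R289.Tr.Hub

/-!
# Row 289 (S0537, Cardy for Poisson-Voronoi), THE WALL, file Tr/RegQ : "THE GEOMETRY IS QBX-GOOD" AS AN EXPLICIT STATIC LOCAL MEASURABLE EVENT OF THE CONFIGURATION      (owner helper196; prefix `pvay_`, `pvay`, continuation of `Arm/FrameLoc.lean`)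

WHY (RULING T7 (1) of 24, reading of 254).   The lower bounds `P(A | states) ≥ q₀` of E10 hold only at a REGULAR geometry: finitely many TESTS (lane events `pvlnLaneEv`, blocking events `pvqxBlk`, ..: measurable events `𝒜` read in a bounded window `O`)
must have quenched probability `≥ t`.      QBX gives this off a set of LABELLED GEOMETRIES of small `pvGeo ε`-mass.      The wall wants an event of the CONFIGURATION, read in a window (`Reg`, `FLAG0 = Regᶜ`).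
* sec. 1  `pvayF`, **`pvayV O 𝒜 η`** = THE VALUE OF THE TEST (measurable, read in `O`; `= pvayQ (cfSites η) 𝒜` at every configuration whose window is finite with one colour per site; `= pvQc 𝒜 g` at `pvConf (pvMerge (g, c))`, `PvgOk g`),
          **`pvayGood O 𝒜 t`** `= {η | t ≤ pvayV O 𝒜 η}`,   **`pvay_good_prob`** : `pvP ε (pvayGood O 𝒜 t)ᶜ = pvGeo ε {g | pvQc 𝒜 g < t}`.
* sec. 2  BRIDGES to the experiment of 193 (`Tr/DomY`): `pvay_Q_congr`, `pvay_Pq_free` (frozen sites off the window do not matter), `pvay_Pq_kept` (window off the resampled region `C`: the value of the test at the combined geometry is the value at the base).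
* sec. 3  WINDOWS WHICH STRADDLE THE BOUNDARY OF THE RESAMPLED REGION.   The value of the test at the combined geometry is a function of (kept sites, fresh sites).   **`pvayGood2 ε C O 𝒜 t θ`** = the kept geometries for which
          the fresh geometry fails with probability `≤ θ`.   IT DEPENDS ON `ε`.   Measurable, read in `O \ C`, `pvP ε (fail) ≤ pvP ε (pvayGood O 𝒜 t)ᶜ / θ` (Markov + splice invariance), USE: `pvay_good2_geo`, **`pvay_Q_ge2`** (`pvdy_Q_ge` form).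
* sec. 5  **FORCED LINKS, THE RECIPE AS THEOREMS** (seam of E10): ONE test per link, `𝒜` = the whole pattern, `O` = the union of its windows.   `pvay_forced_cost`, `pvay_forced_up`, `pvay_forced_lim` (cost of the bad kept geometries from the PLAIN quenched estimate
          `pvGeo ε {g | pvQc 𝒜 g < t} → 0`),   **`pvay_forced_at`** : at a good kept geometry `t (1 - θ) ≤ pvdyQ ε C yf H η` for every event `H` which contains the pattern along the experiment, as soon as the kept sites of the window are recoloured.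
* sec. 4  finite families, the two fields of `PvxpFlag` (`Exit/Pins`, 12): `pvay_grid_fin`, `pvay_flag_small`;   the lane tests of 229 / 21: `pvay_lane_*`.
-/

set_option autoImplicit false
set_option linter.unusedSectionVars false
set_option linter.unusedVariables false

namespace Claimed.Agent.R289

open MeasureTheory Filter Topology Set Claims.C0465
open scoped ENNReal

/-! ## 1. the value of a test -/

open Classical in
/-- a measurable version of `η ↦ pvayQ (cfSites η ∩ O) 𝒜` -/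
noncomputable def pvayF (O : Set ℂ) (𝒜 : Set (Conf PvPt)) : Conf PvPt → ℝ≥0∞ :=
  if h : MeasurableSet O ∧ MeasurableSet 𝒜 then (pvay_fun h.1 h.2).choose else fun _ => 0

/-- **THE VALUE OF THE TEST `𝒜`** (read in `O`) at the configuration `η`: the quenched probability of `𝒜` at the sites of `η` -/
noncomputable def pvayV (O : Set ℂ) (𝒜 : Set (Conf PvPt)) (η : Conf PvPt) : ℝ≥0∞ := pvayF O 𝒜 (Conf.restr (O ×ˢ (univ : Set Bool)) η)

/-- **the geometry of `η` is `t`-good for the test `𝒜`** -/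
def pvayGood (O : Set ℂ) (𝒜 : Set (Conf PvPt)) (t : ℝ≥0∞) : Set (Conf PvPt) := {η | t ≤ pvayV O 𝒜 η}

theorem pvay_eqns_cite3 : True := by
  have := @pvayF.eq_1; have := @pvayV.eq_1; have := @pvayGood.eq_1
  trivial

theorem pvay_F_meas (O : Set ℂ) (𝒜 : Set (Conf PvPt)) : Measurable (pvayF O 𝒜) := by
  unfold pvayF
  split_ifs with h
  · exact (pvay_fun h.1 h.2).choose_spec.1
  · exact measurable_const

theorem pvay_F_eq {O : Set ℂ} (hOm : MeasurableSet O) {𝒜 : Set (Conf PvPt)} (hA : MeasurableSet 𝒜) {η : Conf PvPt} (hη : PvayWin O η) :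
    pvayF O 𝒜 η = pvayQ (cfSites η ∩ O) 𝒜 := by
  unfold pvayF
  rw [dif_pos ⟨hOm, hA⟩]
  exact (pvay_fun hOm hA).choose_spec.2 η hη

theorem pvay_V_meas {O : Set ℂ} (hOm : MeasurableSet O) (𝒜 : Set (Conf PvPt)) : Measurable (pvayV O 𝒜) :=
  (pvay_F_meas O 𝒜).comp (Conf.measurable_restr (hOm.prod MeasurableSet.univ))

theorem pvay_restr_restr (W : Set PvPt) (η : Conf PvPt) : Conf.restr W (Conf.restr W η) = Conf.restr W η := by
  ext p
  simp only [Conf.restr, mem_inter_iff, and_assoc, and_self]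

theorem pvay_V_reads (O : Set ℂ) (𝒜 : Set (Conf PvPt)) : Conf.Reads (O ×ˢ (univ : Set Bool)) (pvayV O 𝒜) := fun η => by
  unfold pvayV
  rw [pvay_restr_restr]

/-- **the value of the test is the label-free quenched probability** -/
theorem pvay_V_eq {O : Set ℂ} (hOm : MeasurableSet O) {𝒜 : Set (Conf PvPt)} (hA : MeasurableSet 𝒜) (hr : Conf.ReadsSet (O ×ˢ (univ : Set Bool)) 𝒜)
    {η : Conf PvPt} (hη : PvayWin O η) : pvayV O 𝒜 η = pvayQ (cfSites η) 𝒜 := by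
  unfold pvayV
  rw [pvay_F_eq hOm hA hη.restr, pvay_sites_restr, inter_assoc, inter_self, pvay_Q_loc hr]

theorem pvay_good_meas {O : Set ℂ} (hOm : MeasurableSet O) (𝒜 : Set (Conf PvPt)) (t : ℝ≥0∞) : MeasurableSet (pvayGood O 𝒜 t) :=
  measurableSet_le measurable_const (pvay_V_meas hOm 𝒜)

theorem pvay_good_reads (O : Set ℂ) (𝒜 : Set (Conf PvPt)) (t : ℝ≥0∞) : Conf.ReadsSet (O ×ˢ (univ : Set Bool)) (pvayGood O 𝒜 t) := fun η => by
  unfold pvayGood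
  simp only [mem_ofPred_eq]
  rw [pvay_V_reads O 𝒜 η]

theorem pvay_good_anti (O : Set ℂ) (𝒜 : Set (Conf PvPt)) {t t' : ℝ≥0∞} (h : t' ≤ t) : pvayGood O 𝒜 t ⊆ pvayGood O 𝒜 t' := fun _ hη => h.trans hη

theorem pvay_good_iff {O : Set ℂ} (hOm : MeasurableSet O) {𝒜 : Set (Conf PvPt)} (hA : MeasurableSet 𝒜) (hr : Conf.ReadsSet (O ×ˢ (univ : Set Bool)) 𝒜)
    {η : Conf PvPt} (hη : PvayWin O η) (t : ℝ≥0∞) : η ∈ pvayGood O 𝒜 t ↔ t ≤ pvayQ (cfSites η) 𝒜 := by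
  unfold pvayGood
  simp only [mem_ofPred_eq]
  rw [pvay_V_eq hOm hA hr hη]

/-- the window of a configuration `(Y, σ)` -/
theorem pvay_win_of {Y O : Set ℂ} (h : (Y ∩ O).Finite) (σ : ℂ → Bool) : PvayWin O (cfOf Y σ) := by
  refine ⟨(h.prod (finite_univ : (univ : Set Bool).Finite)).subset ?_, ?_⟩
  · rintro p ⟨hp, hpO⟩
    exact ⟨⟨hp.1, hpO.1⟩, mem_univ _⟩
  · rintro p hp q hq hpq
    exact Prod.ext hpq (by rw [hp.2, hq.2, hpq])

/-- the window of a sample at a good labelled geometry -/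
theorem pvay_win_merge {g : PvGeoT} (hg : PvgOk g) {O : Set ℂ} (hO : Bornology.IsBounded O) (c : PvColT) : PvayWin O (pvConf (pvMerge (g, c))) := by
  rw [hg.conf_eq c]
  exact pvay_win_of (hg.sites_finite hO) _

/-- **at a sample the value of the test is the quenched probability of 261** -/
theorem pvay_V_merge {O : Set ℂ} (hOm : MeasurableSet O) (hO : Bornology.IsBounded O) {𝒜 : Set (Conf PvPt)} (hA : MeasurableSet 𝒜)
    (hr : Conf.ReadsSet (O ×ˢ (univ : Set Bool)) 𝒜) {g : PvGeoT} (hg : PvgOk g) (c : PvColT) : pvayV O 𝒜 (pvConf (pvMerge (g, c))) = pvQc 𝒜 g := by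
  rw [pvay_V_eq hOm hA hr (pvay_win_merge hg hO c), pvqu_cfSites, pvay_Qc_eq hO hr hg, pvay_Q_loc hr]

theorem pvay_good_merge {O : Set ℂ} (hOm : MeasurableSet O) (hO : Bornology.IsBounded O) {𝒜 : Set (Conf PvPt)} (hA : MeasurableSet 𝒜)
    (hr : Conf.ReadsSet (O ×ˢ (univ : Set Bool)) 𝒜) {g : PvGeoT} (hg : PvgOk g) (c : PvColT) (t : ℝ≥0∞) :
    pvConf (pvMerge (g, c)) ∈ pvayGood O 𝒜 t ↔ t ≤ pvQc 𝒜 g := by
  unfold pvayGood
  simp only [mem_ofPred_eq]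
  rw [pvay_V_merge hOm hO hA hr hg c]

/-- the law of the value of the test -/
theorem pvay_V_law {O : Set ℂ} (hOm : MeasurableSet O) (hO : Bornology.IsBounded O) {𝒜 : Set (Conf PvPt)} (hA : MeasurableSet 𝒜)
    (hr : Conf.ReadsSet (O ×ˢ (univ : Set Bool)) 𝒜) (ε : ℝ) {T : Set ℝ≥0∞} (hT : MeasurableSet T) :
    pvP ε (pvayV O 𝒜 ⁻¹' T) = pvGeo ε {g | pvQc 𝒜 g ∈ T} := by
  unfold pvP
  rw [Measure.map_apply measurable_pvConf (pvay_V_meas hOm 𝒜 hT), ← pvax_geo_eq]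
  refine measure_congr ?_
  filter_upwards [pvqu_ae_geo ε (pvqu_ok_ae ε)] with ω h2
  have e : pvayV O 𝒜 (pvConf ω) = pvQc 𝒜 (pvGeoOf ω) := pvay_V_merge hOm hO hA hr h2 (pvColOf ω)
  refine propext ?_
  show pvayV O 𝒜 (pvConf ω) ∈ T ↔ pvQc 𝒜 (pvGeoOf ω) ∈ T
  rw [e]

/-- **THE PROBABILITY OF A BAD GEOMETRY** -/
theorem pvay_good_prob {O : Set ℂ} (hOm : MeasurableSet O) (hO : Bornology.IsBounded O) {𝒜 : Set (Conf PvPt)} (hA : MeasurableSet 𝒜)
    (hr : Conf.ReadsSet (O ×ˢ (univ : Set Bool)) 𝒜) (ε : ℝ) (t : ℝ≥0∞) : pvP ε (pvayGood O 𝒜 t)ᶜ = pvGeo ε {g | pvQc 𝒜 g < t} := by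
  have e : (pvayGood O 𝒜 t)ᶜ = pvayV O 𝒜 ⁻¹' Iio t := by
    ext η
    simp only [pvayGood, mem_compl_iff, mem_ofPred_eq, not_le, mem_preimage, mem_Iio]
  rw [e, pvay_V_law hOm hO hA hr ε measurableSet_Iio]
  rfl

/-! ## 2. bridges to the experiment of `Tr/DomY` -/

theorem pvay_Q_congr {O : Set ℂ} {𝒜 : Set (Conf PvPt)} (hr : Conf.ReadsSet (O ×ˢ (univ : Set Bool)) 𝒜) {Y Y' : Set ℂ} (h : Y ∩ O = Y' ∩ O) : pvayQ Y 𝒜 = pvayQ Y' 𝒜 := by
  rw [← pvay_Q_loc hr Y, ← pvay_Q_loc hr Y', h]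

/-- **frozen sites off the window do not matter** -/
theorem pvay_Pq_free {O : Set ℂ} {𝒜 : Set (Conf PvPt)} (hr : Conf.ReadsSet (O ×ˢ (univ : Set Bool)) 𝒜) {Y Fz : Set ℂ} (hd : ∀ z ∈ Y ∩ O, z ∉ Fz) (σ : ℂ → Bool) :
    pvdyPq Y Fz σ 𝒜 = pvayQ Y 𝒜 := by
  unfold pvdyPq pvayQ
  congr 1
  ext τ
  simp only [mem_ofPred_eq]
  rw [← hr, ← hr (cfOf Y τ), pvay_of_restr, pvay_of_restr]
  rw [pvay_of_congr (σ := pvfqMix Fz (σ, τ)) (σ' := τ) fun z hz => pvfqMix_of_notMem (hd z hz) _]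

theorem pvay_Yc_inter {C O : Set ℂ} (h : Disjoint O C) (Y Y₂ : Set ℂ) : pvdyYc C Y Y₂ ∩ O = Y ∩ O := by
  ext z
  simp only [pvdyYc, mem_inter_iff, mem_union, Set.mem_sdiff]
  constructor
  · rintro ⟨⟨h1, -⟩ | ⟨-, h2⟩, hz⟩
    · exact ⟨h1, hz⟩
    · exact absurd h2 (disjoint_left.1 h hz)
  · rintro ⟨h1, hz⟩
    exact ⟨Or.inl ⟨h1, disjoint_left.1 h hz⟩, hz⟩

/-- **a window off the resampled region**: at every combined geometry, whatever is frozen off the window, the conditional quenched probability of the test is its value at the base -/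
theorem pvay_Pq_kept {C O : Set ℂ} (h : Disjoint O C) {𝒜 : Set (Conf PvPt)} (hr : Conf.ReadsSet (O ×ˢ (univ : Set Bool)) 𝒜) {Y Fz : Set ℂ} (hd : ∀ z ∈ Y ∩ O, z ∉ Fz)
    (Y₂ : Set ℂ) (σ : ℂ → Bool) : pvdyPq (pvdyYc C Y Y₂) Fz σ 𝒜 = pvayQ Y 𝒜 := by
  rw [pvay_Pq_free hr (by rw [pvay_Yc_inter h]; exact hd) σ]
  exact pvay_Q_congr hr (pvay_Yc_inter h Y Y₂)

/-! ## 3. windows which straddle the boundary of the resampled region -/

/-- **the kept geometry of `η` is good for a test whose window meets the resampled region `C`**: when everything inside `C` is replaced by an independent copy (mesh `ε`), the combined geometry is `t`-good for the test with probability `≥ 1 - θ` -/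
def pvayGood2 (ε : ℝ) (C O : Set ℂ) (𝒜 : Set (Conf PvPt)) (t θ : ℝ≥0∞) : Set (Conf PvPt) :=
  {η | pvP ε {η₂ | Conf.spl (Cᶜ ×ˢ (univ : Set Bool)) (η, η₂) ∉ pvayGood O 𝒜 t} ≤ θ}

theorem pvay_eqns_cite4 : True := by
  have := @pvayGood2.eq_1
  trivial

theorem pvay_good2_meas (ε : ℝ) {C O : Set ℂ} (hC : MeasurableSet C) (hOm : MeasurableSet O) (𝒜 : Set (Conf PvPt)) (t θ : ℝ≥0∞) : MeasurableSet (pvayGood2 ε C O 𝒜 t θ) := by
  have hK : MeasurableSet (Cᶜ ×ˢ (univ : Set Bool)) := hC.compl.prod MeasurableSet.univ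
  have hS : MeasurableSet (Conf.spl (Cᶜ ×ˢ (univ : Set Bool)) ⁻¹' (pvayGood O 𝒜 t)ᶜ) := Conf.measurable_spl hK (pvay_good_meas hOm 𝒜 t).compl
  have := (pv_isPpp ε).prob
  exact measurableSet_le (measurable_measure_prodMk_left hS) measurable_const

/-- it is read in the part of the window which is kept -/
theorem pvay_good2_reads (ε : ℝ) (C O : Set ℂ) (𝒜 : Set (Conf PvPt)) (t θ : ℝ≥0∞) : Conf.ReadsSet ((O \ C) ×ˢ (univ : Set Bool)) (pvayGood2 ε C O 𝒜 t θ) := fun η => by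
  have key : ∀ η₂, Conf.spl (Cᶜ ×ˢ (univ : Set Bool)) (Conf.restr ((O \ C) ×ˢ (univ : Set Bool)) η, η₂) ∈ pvayGood O 𝒜 t ↔ Conf.spl (Cᶜ ×ˢ (univ : Set Bool)) (η, η₂) ∈ pvayGood O 𝒜 t := by
    intro η₂
    rw [← pvay_good_reads O 𝒜 t, ← pvay_good_reads O 𝒜 t (Conf.spl (Cᶜ ×ˢ (univ : Set Bool)) (η, η₂))]
    have e : Conf.restr (O ×ˢ (univ : Set Bool)) (Conf.spl (Cᶜ ×ˢ (univ : Set Bool)) (Conf.restr ((O \ C) ×ˢ (univ : Set Bool)) η, η₂))
        = Conf.restr (O ×ˢ (univ : Set Bool)) (Conf.spl (Cᶜ ×ˢ (univ : Set Bool)) (η, η₂)) := by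
      ext p
      simp only [Conf.restr, Conf.spl, Conf.union, mem_inter_iff, mem_union, mem_prod, mem_univ, and_true, mem_compl_iff, Set.mem_sdiff]
      tauto
    rw [e]
  unfold pvayGood2
  simp only [mem_ofPred_eq, key]

theorem pvay_good2_mono (ε : ℝ) (C O : Set ℂ) (𝒜 : Set (Conf PvPt)) (t : ℝ≥0∞) {θ θ' : ℝ≥0∞} (h : θ ≤ θ') : pvayGood2 ε C O 𝒜 t θ ⊆ pvayGood2 ε C O 𝒜 t θ' := fun _ hη => le_trans hη h

/-- **MARKOV + SPLICE INVARIANCE** -/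
theorem pvay_good2_prob (ε : ℝ) {C O : Set ℂ} (hC : MeasurableSet C) (hOm : MeasurableSet O) (𝒜 : Set (Conf PvPt)) (t : ℝ≥0∞) {θ : ℝ≥0∞} (hθ : θ ≠ 0) (hθ' : θ ≠ ∞) :
    pvP ε (pvayGood2 ε C O 𝒜 t θ)ᶜ ≤ pvP ε (pvayGood O 𝒜 t)ᶜ / θ := by
  have hK : MeasurableSet (Cᶜ ×ˢ (univ : Set Bool)) := hC.compl.prod MeasurableSet.univ
  have hG : MeasurableSet (pvayGood O 𝒜 t)ᶜ := (pvay_good_meas hOm 𝒜 t).compl
  have hS : MeasurableSet (Conf.spl (Cᶜ ×ˢ (univ : Set Bool)) ⁻¹' (pvayGood O 𝒜 t)ᶜ) := Conf.measurable_spl hK hG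
  have := (pv_isPpp ε).prob
  have hint : ∫⁻ η, pvP ε (Prod.mk η ⁻¹' (Conf.spl (Cᶜ ×ˢ (univ : Set Bool)) ⁻¹' (pvayGood O 𝒜 t)ᶜ)) ∂pvP ε = pvP ε (pvayGood O 𝒜 t)ᶜ := by
    have e : ((pvP ε).prod (pvP ε)).map (Conf.spl (Cᶜ ×ˢ (univ : Set Bool))) = pvP ε := (pv_isPpp ε).splice hK
    rw [← Measure.prod_apply hS, ← Measure.map_apply (Conf.measurable_spl hK) hG, e]
  have hsub : (pvayGood2 ε C O 𝒜 t θ)ᶜ ⊆ {η | θ ≤ pvP ε (Prod.mk η ⁻¹' (Conf.spl (Cᶜ ×ˢ (univ : Set Bool)) ⁻¹' (pvayGood O 𝒜 t)ᶜ))} :=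
    fun η hη => by
      have h1 : ¬ pvP ε {η₂ | Conf.spl (Cᶜ ×ˢ (univ : Set Bool)) (η, η₂) ∉ pvayGood O 𝒜 t} ≤ θ := hη
      exact (not_le.1 h1).le
  refine (measure_mono hsub).trans ?_
  have h := meas_ge_le_lintegral_div (μ := pvP ε) (measurable_measure_prodMk_left (ν := pvP ε) hS).aemeasurable hθ hθ'
  rw [hint] at h
  exact h

theorem pvay_sites_spl (C : Set ℂ) (η η₂ : Conf PvPt) : cfSites (Conf.spl (Cᶜ ×ˢ (univ : Set Bool)) (η, η₂)) = pvdyYc C (cfSites η) (cfSites η₂) := by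
  ext z
  simp only [cfSites, Conf.spl, Conf.union, Conf.restr, pvdyYc, mem_image, mem_union, mem_inter_iff, mem_prod, mem_univ, and_true, mem_compl_iff, not_not, Set.mem_sdiff]
  constructor
  · rintro ⟨p, ⟨h1, h2⟩ | ⟨h1, h2⟩, rfl⟩
    · exact Or.inl ⟨⟨p, h1, rfl⟩, h2⟩
    · exact Or.inr ⟨⟨p, h1, rfl⟩, h2⟩
  · rintro (⟨⟨p, h1, rfl⟩, h2⟩ | ⟨⟨p, h1, rfl⟩, h2⟩)
    · exact ⟨p, Or.inl ⟨h1, h2⟩, rfl⟩
    · exact ⟨p, Or.inr ⟨h1, h2⟩, rfl⟩

theorem PvayWin.spl {O : Set ℂ} (C : Set ℂ) {η η₂ : Conf PvPt} (h : PvayWin O η) (h₂ : PvayWin O η₂) : PvayWin O (Conf.spl (Cᶜ ×ˢ (univ : Set Bool)) (η, η₂)) := by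
  refine ⟨(h.1.union h₂.1).subset ?_, ?_⟩
  · rintro p ⟨hp, hpO⟩
    rcases hp with hp | hp
    · exact Or.inl ⟨hp.1, hpO⟩
    · exact Or.inr ⟨hp.1, hpO⟩
  · rintro p hp q hq hpq
    rcases hp with hp | hp <;> rcases hq with hq | hq
    · exact h.2 p hp.1 q hq.1 hpq
    · exact absurd ⟨hpq ▸ hp.2.1, mem_univ _⟩ hq.2
    · exact absurd ⟨hpq.symm ▸ hq.2.1, mem_univ _⟩ hp.2
    · exact h₂.2 p hp.1 q hq.1 hpq

/-- **USE**: at a good kept geometry, the set of the fresh labelled geometries for which the combined geometry fails the test has probability `≤ θ` -/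
theorem pvay_good2_geo {ε : ℝ} {C O : Set ℂ} (hC : MeasurableSet C) (hOm : MeasurableSet O) (hO : Bornology.IsBounded O) {𝒜 : Set (Conf PvPt)} (hA : MeasurableSet 𝒜)
    (hr : Conf.ReadsSet (O ×ˢ (univ : Set Bool)) 𝒜) {t θ : ℝ≥0∞} {η : Conf PvPt} (hη : PvayWin O η) (h : η ∈ pvayGood2 ε C O 𝒜 t θ) :
    pvGeo ε {g | pvayQ (pvdyYc C (cfSites η) (pvgSites g)) 𝒜 < t} ≤ θ := by
  have hK : MeasurableSet (Cᶜ ×ˢ (univ : Set Bool)) := hC.compl.prod MeasurableSet.univ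
  have hS₂ : MeasurableSet {η₂ | Conf.spl (Cᶜ ×ˢ (univ : Set Bool)) (η, η₂) ∉ pvayGood O 𝒜 t} :=
    ((Conf.measurable_spl hK).comp measurable_prodMk_left) (pvay_good_meas hOm 𝒜 t).compl
  refine le_trans (le_of_eq ?_) h
  rw [← pvax_geo_eq]
  unfold pvP
  rw [Measure.map_apply measurable_pvConf hS₂]
  refine measure_congr ?_
  filter_upwards [pvqu_ae_geo ε (pvqu_ok_ae ε)] with ω h2
  refine propext ?_
  show pvayQ (pvdyYc C (cfSites η) (pvgSites (pvGeoOf ω))) 𝒜 < t ↔ Conf.spl (Cᶜ ×ˢ (univ : Set Bool)) (η, pvConf ω) ∉ pvayGood O 𝒜 t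
  have hw : PvayWin O (pvConf ω) := pvay_win_merge h2 hO (pvColOf ω)
  rw [pvay_good_iff hOm hA hr (hη.spl C hw), not_le, pvay_sites_spl, pvax_sites]

/-- **USE, in the form of `pvdy_Q_ge`** (193): the conditional probability of the test given what the experiment keeps -/
theorem pvay_Q_ge2 {ε : ℝ} {C O : Set ℂ} (hC : MeasurableSet C) (hOm : MeasurableSet O) (hO : Bornology.IsBounded O) {𝒜 : Set (Conf PvPt)} (hA : MeasurableSet 𝒜)
    (hr : Conf.ReadsSet (O ×ˢ (univ : Set Bool)) 𝒜) {t θ : ℝ≥0∞} (yf : Conf PvPt → Set ℂ) {Y : Set ℂ} (hY : Y.Countable) (hfin : (Y ∩ O).Finite) (σ : ℂ → Bool)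
    (hd : ∀ z ∈ O, z ∉ pvdyFz C yf Y σ) (h : cfOf Y σ ∈ pvayGood2 ε C O 𝒜 t θ) : t * (1 - θ) ≤ pvdyQ ε C yf 𝒜 (cfOf Y σ) := by
  have h1 := pvay_good2_geo hC hOm hO hA hr (pvay_win_of hfin σ) h
  rw [cfOf_sites] at h1
  have h2 := pvdy_Q_ge ε hC yf hY σ hA {g | pvayQ (pvdyYc C Y (pvgSites g)) 𝒜 < t} (q0 := t) fun g hg => by
    rw [pvay_Pq_free hr (fun z hz => hd z hz.2) σ]
    exact not_lt.1 hg
  refine le_trans ?_ h2
  gcongr

/-! ## 4. finite families;  flags;  the lane tests -/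

theorem pvay_fam_prob {ι : Type} (I : Finset ι) (G : ι → Set (Conf PvPt)) (ε : ℝ) : pvP ε (⋂ i ∈ I, G i)ᶜ ≤ ∑ i ∈ I, pvP ε (G i)ᶜ := by
  have e : (⋂ i ∈ I, G i)ᶜ = ⋃ i ∈ I, (G i)ᶜ := by simp only [compl_iInter]
  rw [e]
  exact measure_biUnion_finset_le _ _

theorem pvay_fam_reads {ι : Type} (I : Finset ι) (G : ι → Set (Conf PvPt)) {W : Set PvPt} (h : ∀ i ∈ I, Conf.ReadsSet W (G i)) : Conf.ReadsSet W (⋂ i ∈ I, G i) :=
  Conf.ReadsSet.iInter fun i => Conf.ReadsSet.iInter fun hi => h i hi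

theorem pvay_fam_meas {ι : Type} (I : Finset ι) (G : ι → Set (Conf PvPt)) (h : ∀ i ∈ I, MeasurableSet (G i)) : MeasurableSet (⋂ i ∈ I, G i) :=
  Finset.measurableSet_biInter _ h

/-- the grid points of a ball -/
theorem pvay_grid_fin {h : ℝ} (h0 : 0 < h) (x : ℂ) (R : ℝ) : {p : ℤ × ℤ | ‖l9Pt h p - x‖ ≤ R}.Finite := by
  refine ((finite_Icc ⌊(x.re - R) / h⌋ ⌈(x.re + R) / h⌉).prod (finite_Icc ⌊(x.im - R) / h⌋ ⌈(x.im + R) / h⌉)).subset ?_
  intro p hp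
  have hp' : ‖l9Pt h p - x‖ ≤ R := hp
  have h1 := (Complex.abs_re_le_norm (l9Pt h p - x)).trans hp'
  have h2 := (Complex.abs_im_le_norm (l9Pt h p - x)).trans hp'
  simp only [l9Pt, Complex.sub_re, Complex.sub_im] at h1 h2
  rw [abs_le] at h1 h2
  refine ⟨⟨?_, ?_⟩, ⟨?_, ?_⟩⟩
  · exact Int.floor_le_iff.2 (by rw [div_lt_iff₀ h0]; nlinarith)
  · exact Int.le_ceil_iff.2 (by rw [lt_div_iff₀ h0]; nlinarith)
  · exact Int.floor_le_iff.2 (by rw [div_lt_iff₀ h0]; nlinarith)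
  · exact Int.le_ceil_iff.2 (by rw [lt_div_iff₀ h0]; nlinarith)

/-- **the field `small` of `PvxpFlag`** (12, `Exit/Pins`) for flags whose probability tends to `0` with the mesh at every fixed level and centre;   the flags MAY depend on `ε` -/
theorem pvay_flag_small {h : ℕ → ℝ} (h0 : ∀ m, 0 < h m) {ζ : ℝ≥0∞} (hζ : 0 < ζ) (Flag : ℕ → ℝ → ℤ × ℤ → Set (Conf PvPt))
    (hlim : ∀ m p, Tendsto (fun ε : ℝ => pvP ε (Flag m ε p)) (𝓝[>] 0) (𝓝 0)) (x : ℂ) (R : ℝ) :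
    ∀ᶠ m in atTop, ∀ᶠ ε in 𝓝[>] (0 : ℝ), ∀ p, ‖l9Pt (h m) p - x‖ ≤ R → pvP ε (Flag m ε p) ≤ ζ := by
  refine Eventually.of_forall fun m => ?_
  exact (eventually_all_finite (pvay_grid_fin (h0 m) x R)).2 fun p _ => (ENNReal.tendsto_nhds_zero.1 (hlim m p)) ζ hζ

theorem pvay_lane_meas {δ : ℝ} (hδ : 0 < δ) {L : List (ℤ × ℤ)} (hc : L.IsChain PvlnAdj) (c : Bool) : MeasurableSet (pvlnLaneEv δ c L) :=
  pvln_loc_meas (pvln_lane_fit hδ hc) c

/-- **THE LANE TEST** (lanes of 229, quenched lane lemma of 21): the geometry of the window of a lane of at most `n` cells of side `δ ≥ U ε` is good off an event of probability `≤ θ`; the event is `(pvayGood ..)ᶜ`: measurable, read in the window of the lane -/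
theorem pvay_lane_prob : ∃ q : ℝ, 0 < q ∧ q ≤ 1 ∧ ∀ (n : ℕ) (θ : ℝ), 0 < θ → ∃ U : ℝ, 1 ≤ U ∧ ∀ ε : ℝ, 0 < ε → ∀ δ : ℝ, U * ε ≤ δ →
    ∀ (c : Bool) (L : List (ℤ × ℤ)), L ≠ [] → L.IsChain PvlnAdj → L.length ≤ n →
      pvP ε (pvayGood (pvlnW δ L) (pvlnLaneEv δ c L) (ENNReal.ofReal (q ^ (15 * n) / 2)))ᶜ ≤ ENNReal.ofReal θ := by
  obtain ⟨q, hq0, hq1, hQ⟩ := pvlq_main exit_pv_qbx_lay exit_pv_qbx_rev
  refine ⟨q, hq0, hq1, fun n θ hθ => ?_⟩
  obtain ⟨U, hU, H⟩ := pvlq_lane hq0 hq1 hQ n hθ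
  refine ⟨U, hU, fun ε hε δ hδ c L hne hc hn => ?_⟩
  have hδ0 : 0 < δ := lt_of_lt_of_le (by positivity) hδ
  rw [pvay_good_prob (pvln_W_meas δ L) (pvlq_W_bdd δ L) (pvay_lane_meas hδ0 hc c) (pvlq_lane_reads δ c L)]
  exact H ε hε δ hδ c L hne hc hn

/-- the lane test at a fixed lane: the probability of a bad geometry tends to `0` with the mesh -/
theorem pvay_lane_lim : ∃ q : ℝ, 0 < q ∧ q ≤ 1 ∧ ∀ (δ : ℝ), 0 < δ → ∀ (c : Bool) (L : List (ℤ × ℤ)), L ≠ [] → L.IsChain PvlnAdj →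
    Tendsto (fun ε : ℝ => pvP ε (pvayGood (pvlnW δ L) (pvlnLaneEv δ c L) (ENNReal.ofReal (q ^ (15 * L.length) / 2)))ᶜ) (𝓝[>] 0) (𝓝 0) := by
  obtain ⟨q, hq0, hq1, H⟩ := pvay_lane_prob
  refine ⟨q, hq0, hq1, fun δ hδ c L hne hc => ?_⟩
  rw [ENNReal.tendsto_nhds_zero]
  intro a ha
  obtain ⟨r, hr0, hr1, hr2⟩ := ENNReal.lt_iff_exists_real_btwn.1 ha
  have hr : 0 < r := ENNReal.ofReal_pos.1 hr1
  obtain ⟨U, hU, HU⟩ := H L.length r hr
  have hU0 : 0 < U := by linarith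
  have ev : ∀ᶠ ε : ℝ in 𝓝[>] 0, ε < δ / U := by
    have : ∀ᶠ ε : ℝ in 𝓝 0, ε < δ / U := gt_mem_nhds (by positivity)
    exact this.filter_mono nhdsWithin_le_nhds
  filter_upwards [ev, self_mem_nhdsWithin] with ε e1 hε
  refine (HU ε hε δ ?_ c L hne hc le_rfl).trans hr2.le
  rw [lt_div_iff₀ hU0] at e1
  linarith

/-! ## 5. forced links -/

theorem pvay_conf_of {η : Conf PvPt} (h : ∀ p ∈ η.pts, ∀ q ∈ η.pts, p.1 = q.1 → p = q) : η = cfOf (cfSites η) (cfCol η) := by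
  classical
  ext p
  obtain ⟨z, b⟩ := p
  simp only [cfOf, mem_ofPred_eq, cfSites, mem_image, cfCol]
  constructor
  · intro hp
    refine ⟨⟨(z, b), hp, rfl⟩, ?_⟩
    cases b
    · symm
      rw [decide_eq_false_iff_not]
      intro ht
      have := h _ hp _ ht rfl
      simp at this
    · symm
      rw [decide_eq_true_iff]
      exact hp
  · rintro ⟨⟨q, hq, hqz⟩, hb⟩
    obtain ⟨z', b'⟩ := q
    have hz : z' = z := hqz
    subst hz
    cases b'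
    · have hn : (z', true) ∉ η.pts := by
        intro ht
        have := h _ hq _ ht rfl
        simp at this
      rw [hb, decide_eq_false hn]
      exact hq
    · rw [hb, decide_eq_true hq]
      exact hq

theorem pvay_win_sites_fin {O : Set ℂ} {η : Conf PvPt} (h : PvayWin O η) : (cfSites η ∩ O).Finite := by
  refine (h.1.image Prod.fst).subset ?_
  rintro z ⟨⟨p, hp, rfl⟩, hz⟩
  exact ⟨p, ⟨hp, hz, mem_univ _⟩, rfl⟩

/-- **COST** of the bad kept geometries, from the quenched estimate of the PLAIN model -/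
theorem pvay_forced_cost (ε : ℝ) {C O : Set ℂ} (hC : MeasurableSet C) (hOm : MeasurableSet O) (hO : Bornology.IsBounded O) {𝒜 : Set (Conf PvPt)} (hA : MeasurableSet 𝒜)
    (hr : Conf.ReadsSet (O ×ˢ (univ : Set Bool)) 𝒜) (t : ℝ≥0∞) {θ : ℝ≥0∞} (hθ : θ ≠ 0) (hθ' : θ ≠ ∞) :
    pvP ε (pvayGood2 ε C O 𝒜 t θ)ᶜ ≤ pvGeo ε {g | pvQc 𝒜 g < t} / θ := by
  rw [← pvay_good_prob hOm hO hA hr]
  exact pvay_good2_prob ε hC hOm 𝒜 t hθ hθ'

/-- the same for the two-level upper expectation of the wall -/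
theorem pvay_forced_up (ε : ℝ) {C O : Set ℂ} (hC : MeasurableSet C) (hOm : MeasurableSet O) (hO : Bornology.IsBounded O) {𝒜 : Set (Conf PvPt)} (hA : MeasurableSet 𝒜)
    (hr : Conf.ReadsSet (O ×ˢ (univ : Set Bool)) 𝒜) (t : ℝ≥0∞) {θ : ℝ≥0∞} (hθ : θ ≠ 0) (hθ' : θ ≠ ∞) :
    (pvhbUp ε).P {q | pvConf (pvMerge q) ∉ pvayGood2 ε C O 𝒜 t θ} ≤ pvGeo ε {g | pvQc 𝒜 g < t} / θ :=
  (pvhb_up_P_conf ε (pvayGood2 ε C O 𝒜 t θ)ᶜ).trans (pvay_forced_cost ε hC hOm hO hA hr t hθ hθ')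

/-- the limit `ε ↓ 0` at a fixed test -/
theorem pvay_forced_lim {C O : Set ℂ} (hC : MeasurableSet C) (hOm : MeasurableSet O) (hO : Bornology.IsBounded O) {𝒜 : Set (Conf PvPt)} (hA : MeasurableSet 𝒜)
    (hr : Conf.ReadsSet (O ×ˢ (univ : Set Bool)) 𝒜) {t : ℝ≥0∞} (hlim : Tendsto (fun ε : ℝ => pvGeo ε {g | pvQc 𝒜 g < t}) (𝓝[>] 0) (𝓝 0)) {θ : ℝ≥0∞} (hθ : θ ≠ 0) (hθ' : θ ≠ ∞) :
    Tendsto (fun ε : ℝ => (pvhbUp ε).P {q | pvConf (pvMerge q) ∉ pvayGood2 ε C O 𝒜 t θ}) (𝓝[>] 0) (𝓝 0) := by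
  have h3 := ENNReal.Tendsto.div_const hlim (Or.inr hθ)
  rw [ENNReal.zero_div] at h3
  exact tendsto_of_tendsto_of_tendsto_of_le_of_le tendsto_const_nhds h3 (fun _ => zero_le) fun ε => pvay_forced_up ε hC hOm hO hA hr t hθ hθ'

/-- **FORCED**: at a good kept geometry the conditional probability, given what the experiment of 193 keeps, of ANY event `H` which contains the pattern `𝒜` along the experiment is `≥ t (1 - θ)`;
the only condition on the state: the kept sites of the window of the pattern are recoloured (no frozen site in the window) -/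
theorem pvay_forced_at {ε : ℝ} {C O : Set ℂ} (hC : MeasurableSet C) (hOm : MeasurableSet O) (hO : Bornology.IsBounded O) {𝒜 : Set (Conf PvPt)} (hA : MeasurableSet 𝒜)
    (hr : Conf.ReadsSet (O ×ˢ (univ : Set Bool)) 𝒜) {t θ : ℝ≥0∞} (yf : Conf PvPt → Set ℂ) {η : Conf PvPt} (hη : PvayWin O η) (hcnt : (cfSites η).Countable)
    (hd : ∀ z ∈ O, z ∈ cfSites η → z ∉ C → z ∈ yf η) (h : η ∈ pvayGood2 ε C O 𝒜 t θ) {H : Set (Conf PvPt)} (hH : ∀ p, pvdyR C yf η p ∈ 𝒜 → pvdyR C yf η p ∈ H) :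
    t * (1 - θ) ≤ pvdyQ ε C yf H η := by
  have e : η = cfOf (cfSites η) (cfCol η) := pvay_conf_of hη.2
  have h' : cfOf (cfSites η) (cfCol η) ∈ pvayGood2 ε C O 𝒜 t θ := e ▸ h
  have hd' : ∀ z ∈ O, z ∉ pvdyFz C yf (cfSites η) (cfCol η) := by
    intro z hz hF
    have h2 : z ∉ yf (cfOf (cfSites η) (cfCol η)) := hF.2
    rw [← e] at h2
    exact h2 (hd z hz hF.1.1 hF.1.2)
  have h1 := pvay_Q_ge2 hC hOm hO hA hr yf hcnt (pvay_win_sites_fin hη) (cfCol η) hd' h'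
  rw [← e] at h1
  exact h1.trans (measure_mono fun p hp => hH p hp)

end Claimed.Agent.R289
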