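import Claimed.Agent.R289.Tr.LinkH
import Claimed.Agent.R289.Tr.RegQ

/-!
# Row 289 (S0537), box TR-LINKF, file Tr/LinkF : E10, THE FORCED HALF OF A HYBRID LINK = `Tr/RegQ` (196) × `Tr/LinkH` (250)      (helper250; prefix `pvlhf_`, `Pvlhf`)

MODEL FREE.   Experiment of the link: `pvdyR C yf (cfOf Y σ) (κ, ω₂)` (193): tile `C` resampled, colours of `yf` fresh.   `Y'(g) = pvdyYc C Y (pvgSites g)`, `Fz = pvdyFz C yf Y σ`.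
THE PATTERN `𝒦` (ONE test of 196: all the lanes and C-shapes of the link, window `O`) IS READ ON THE COPY COLOURING `τ` (21, 35): the landing windows round a tip contain frozen sites, so `pvay_Q_ge2` (frozen sites off `O`) does not apply.
* sec. 1  lane events are monotone AT FIXED SITES: `pvlhf_loc_inc`, `pvlhf_loc_dec`, **`pvlhf_lane_inc`**, **`pvlhf_lane_dec`** (`PvlhInc Y' (pvlnLaneEv δ true L)`, `PvlhDec Y' (pvlnLaneEv δ false L)`, ANY `Y'`)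
* sec. 2  **`pvlhf_forced0`** (F0; tip → tip, thick links): kept sites in `pvayGood2 ε C O 𝒦 t θ`, DET (copy `∈ 𝒦` ⟹ mixed colouring `∈ 𝒮`) off seeds of mass `≤ θ₀`  ⟹  `t * (1 - (θ + θ₀)) ≤ pvdyQ ε C yf 𝒮 (cfOf Y σ)`
* sec. 3  **`pvlhf_forced1`** (F1; first / last link, thin link into the reference plug): + the region state of the door `D` passes the soft threshold `b ≤ pvtiP (pvP ε) (D ×ˢ univ) ℋ` (`pvsaG`), `ℋ` read over `D ∪ C`, ONE mixed order  ⟹  `t * (b - (θ + θ₀)) ≤ pvdyQ ..`;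
          `pvlhf_up` (the mixed order from black / white halves), **`pvlhf_forced1'`** (everything in black / white halves);   the weight: `pvlh_W_le` of `Tr/LinkH`.
0 sorry
-/

set_option autoImplicit false
set_option linter.unusedSectionVars false
set_option linter.unusedVariables false

namespace Claimed.Agent.R289

open MeasureTheory ProbabilityTheory Set Claims.C0465
open scoped ENNReal

/-! ## 1. lane events at fixed sites -/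

section lane

theorem pvlhf_lf_congr {Y : Set ℂ} {c c' : ℂ → Bool} (h : PvLF (cfOf Y c)) : PvLF (cfOf Y c') := by
  intro k
  refine ((h k).image fun p => (p.1, c' p.1)).subset ?_
  rintro ⟨z, b⟩ ⟨⟨hz, hb⟩, hk⟩
  exact ⟨(z, c z), ⟨⟨hz, rfl⟩, hk⟩, by rw [show b = c' z from hb]⟩

theorem pvlhf_G_congr {Y : Set ℂ} {c c' : ℂ → Bool} {cen : List ℂ} {u : ℝ} (h : cfOf Y c ∈ pvlnG cen u) : cfOf Y c' ∈ pvlnG cen u := by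
  intro w hw
  have h1 := h w hw
  unfold pvmGood pvmGrid at h1 ⊢
  simp only [mem_iInter] at h1 ⊢
  intro k hk
  obtain ⟨⟨z, b⟩, ⟨hz, -⟩, hq⟩ := h1 k hk
  exact ⟨(z, c' z), ⟨hz, rfl⟩, ⟨hq.1, mem_univ _⟩⟩

theorem pvlhf_loc_inc (Y' N : Set ℂ) (l : List RswTri) (cen : List ℂ) (u : ℝ) : PvlhInc Y' (pvlnLoc N true l cen u) := by
  intro c c' hc h
  have h' : cfOf (Y' ∩ N) c ∈ pvlnCore true l cen u := by
    have := h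
    unfold pvlnLoc at this
    rwa [mem_preimage, pvay_of_restr] at this
  show Conf.restr (N ×ˢ univ) (cfOf Y' c') ∈ pvlnCore true l cen u
  rw [pvay_of_restr]
  refine ⟨⟨fun e he => ?_, pvlhf_lf_congr h'.1.2⟩, pvlhf_G_congr h'.2⟩
  exact pvlq_holds_mono (pvlq_reg_mono (pvlh_PvLe (Y' ∩ N) fun z hz => hc z hz.1)).1 (h'.1.1 e he)

theorem pvlhf_loc_dec (Y' N : Set ℂ) (l : List RswTri) (cen : List ℂ) (u : ℝ) : PvlhDec Y' (pvlnLoc N false l cen u) := by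
  intro c c' hc h
  have h' : cfOf (Y' ∩ N) c' ∈ pvlnCore false l cen u := by
    have := h
    unfold pvlnLoc at this
    rwa [mem_preimage, pvay_of_restr] at this
  show Conf.restr (N ×ˢ univ) (cfOf Y' c) ∈ pvlnCore false l cen u
  rw [pvay_of_restr]
  refine ⟨⟨fun e he => ?_, pvlhf_lf_congr h'.1.2⟩, pvlhf_G_congr h'.2⟩
  exact pvlq_holds_mono (pvlq_reg_mono (pvlh_PvLe (Y' ∩ N) fun z hz => hc z hz.1)).2 (h'.1.1 e he)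

/-- **a black lane is increasing at fixed sites** -/
theorem pvlhf_lane_inc (Y' : Set ℂ) (δ : ℝ) (L : List (ℤ × ℤ)) : PvlhInc Y' (pvlnLaneEv δ true L) := pvlhf_loc_inc Y' _ _ _ _

/-- **a white lane is decreasing at fixed sites** -/
theorem pvlhf_lane_dec (Y' : Set ℂ) (δ : ℝ) (L : List (ℤ × ℤ)) : PvlhDec Y' (pvlnLaneEv δ false L) := pvlhf_loc_dec Y' _ _ _ _

end lane

/-! ## 2. (F0): copy pattern, no threshold -/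

section forced

theorem pvlhf_Q_eq (Y' : Set ℂ) (𝒦 : Set (Conf PvPt)) : pvayQ Y' 𝒦 = colLaw ℂ (pvlhCp Y' 𝒦) := rfl

/-- the bad seeds of the link: DET fails or the pattern is too rare at the combined geometry -/
theorem pvlhf_bad {ε : ℝ} {C O : Set ℂ} (hC : MeasurableSet C) (hOm : MeasurableSet O) (hO : Bornology.IsBounded O) {𝒦 : Set (Conf PvPt)} (hP : MeasurableSet 𝒦)
    (hr : Conf.ReadsSet (O ×ˢ (univ : Set Bool)) 𝒦) {t θ θ₀ : ℝ≥0∞} {Y : Set ℂ} (hfin : (Y ∩ O).Finite) (σ : ℂ → Bool) (h : cfOf Y σ ∈ pvayGood2 ε C O 𝒦 t θ)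
    {B₀ : Set PvGeoT} (hB₀ : pvGeo ε B₀ ≤ θ₀) : pvGeo ε ({g | pvayQ (pvdyYc C Y (pvgSites g)) 𝒦 < t} ∪ B₀) ≤ θ + θ₀ := by
  have h1 := pvay_good2_geo hC hOm hO hP hr (pvay_win_of hfin σ) h
  rw [cfOf_sites] at h1
  exact (measure_union_le _ _).trans (add_le_add h1 hB₀)

/-- **(F0) THE FORCED HALF, NO THRESHOLD** -/
theorem pvlhf_forced0 {ε : ℝ} {C O : Set ℂ} (hC : MeasurableSet C) (hOm : MeasurableSet O) (hO : Bornology.IsBounded O) {𝒦 : Set (Conf PvPt)} (hP : MeasurableSet 𝒦)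
    (hr : Conf.ReadsSet (O ×ˢ (univ : Set Bool)) 𝒦) {t θ θ₀ : ℝ≥0∞} (yf : Conf PvPt → Set ℂ) {Y : Set ℂ} (hY : Y.Countable) (hfin : (Y ∩ O).Finite) (σ : ℂ → Bool)
    (h : cfOf Y σ ∈ pvayGood2 ε C O 𝒦 t θ) {B₀ : Set PvGeoT} (hB₀ : pvGeo ε B₀ ≤ θ₀) {𝒮 : Set (Conf PvPt)} (mS : MeasurableSet 𝒮)
    (hdet : ∀ g, g ∉ B₀ → ∀ τ : ℂ → Bool, cfOf (pvdyYc C Y (pvgSites g)) τ ∈ 𝒦 → cfOf (pvdyYc C Y (pvgSites g)) (pvfqMix (pvdyFz C yf Y σ) (σ, τ)) ∈ 𝒮) :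
    t * (1 - (θ + θ₀)) ≤ pvdyQ ε C yf 𝒮 (cfOf Y σ) := by
  have h1 := pvlhf_bad hC hOm hO hP hr hfin σ h hB₀
  refine le_trans ?_ (pvdy_Q_ge ε hC yf hY σ mS ({g | pvayQ (pvdyYc C Y (pvgSites g)) 𝒦 < t} ∪ B₀) (q0 := t) fun g hg => ?_)
  · gcongr
  · have h2 : t ≤ pvayQ (pvdyYc C Y (pvgSites g)) 𝒦 := not_lt.1 fun hh => hg (Or.inl hh)
    exact h2.trans (measure_mono fun τ hτ => hdet g (fun hh => hg (Or.inr hh)) τ hτ)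

/-! ## 3. (F1): copy pattern and the threshold of a door -/

/-- **(F1) THE FORCED HALF AT A DOOR** -/
theorem pvlhf_forced1 {ε : ℝ} {C O D : Set ℂ} (hC : MeasurableSet C) (hOm : MeasurableSet O) (hO : Bornology.IsBounded O) (hD : MeasurableSet D) {𝒦 : Set (Conf PvPt)} (hP : MeasurableSet 𝒦)
    (hr : Conf.ReadsSet (O ×ˢ (univ : Set Bool)) 𝒦) {t θ θ₀ b : ℝ≥0∞} (yf : Conf PvPt → Set ℂ) {Y : Set ℂ} (hY : Y.Countable) (hfin : (Y ∩ O).Finite) (σ : ℂ → Bool)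
    (h : cfOf Y σ ∈ pvayGood2 ε C O 𝒦 t θ) {B₀ : Set PvGeoT} (hB₀ : pvGeo ε B₀ ≤ θ₀)
    (hDC : Disjoint D C) (hDy : Disjoint (Y ∩ D) (yf (cfOf Y σ))) {ℋ 𝒮 : Set (Conf PvPt)} (mH : MeasurableSet ℋ) (mS : MeasurableSet 𝒮)
    (hHr : Conf.ReadsSet ((D ∪ C) ×ˢ univ) ℋ) (hb : b ≤ pvtiP (pvP ε) (D ×ˢ univ) ℋ (cfOf Y σ))
    (hup : ∀ g, g ∉ B₀ → ∃ s : ℂ → Option Bool, {z | s z ≠ none}.Countable ∧ PvlhUp s (pvlhSec (pvdyYc C Y (pvgSites g)) (pvdyFz C yf Y σ) σ ℋ) ∧ PvlhUp s (pvlhCp (pvdyYc C Y (pvgSites g)) 𝒦))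
    (hdet : ∀ g, g ∉ B₀ → ∀ τ : ℂ → Bool, cfOf (pvdyYc C Y (pvgSites g)) (pvfqMix (pvdyFz C yf Y σ) (σ, τ)) ∈ ℋ → cfOf (pvdyYc C Y (pvgSites g)) τ ∈ 𝒦 →
      cfOf (pvdyYc C Y (pvgSites g)) (pvfqMix (pvdyFz C yf Y σ) (σ, τ)) ∈ 𝒮) :
    t * (b - (θ + θ₀)) ≤ pvdyQ ε C yf 𝒮 (cfOf Y σ) := by
  have h1 := pvlhf_bad hC hOm hO hP hr hfin σ h hB₀
  have key := pvlh_link ε hC hD yf hY σ hDC hDy mH mS hHr ({g | pvayQ (pvdyYc C Y (pvgSites g)) 𝒦 < t} ∪ B₀) (q := t) hb h1 [()]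
    (fun g _ => pvlhCp (pvdyYc C Y (pvgSites g)) 𝒦)
    (fun g hg => by
      obtain ⟨s, hs, u1, u2⟩ := hup g fun hh => hg (Or.inr hh)
      exact ⟨s, hs, u1, fun _ _ => u2⟩)
    (fun g hg _ _ => ⟨pvlh_cp_meas (pvdy_Yc_countable hY (pvf_sites_countable g)) hP, not_lt.1 fun hh => hg (Or.inl hh)⟩)
    (fun g hg τ hτ hK => hdet g (fun hh => hg (Or.inr hh)) τ hτ (hK () (List.mem_singleton.2 rfl)))
  simpa using key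

/-- **ONE MIXED ORDER** from black / white halves: `ℋ = ℋb ∩ ℋw` (frozen colours), `𝒦 = 𝒦b ∩ 𝒦w` (copy) -/
theorem pvlhf_up {Y' Fz : Set ℂ} (σ : ℂ → Bool) {Kb Kw : Set ℂ} (hd : Disjoint Kb Kw) {ℋb ℋw 𝒦b 𝒦w : Set (Conf PvPt)}
    (iH : PvlhInc Y' ℋb) (dH : PvlhDec Y' ℋw) (iP : PvlhInc Y' 𝒦b) (dP : PvlhDec Y' 𝒦w) {Wb Ww Vb Vw : Set ℂ}
    (rHb : Conf.ReadsSet (Wb ×ˢ univ) ℋb) (rHw : Conf.ReadsSet (Ww ×ˢ univ) ℋw) (rPb : Conf.ReadsSet (Vb ×ˢ univ) 𝒦b) (rPw : Conf.ReadsSet (Vw ×ˢ univ) 𝒦w)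
    (hWb : Y' ∩ Wb ⊆ Fz ∪ Kb) (hWw : Y' ∩ Ww ⊆ Fz ∪ Kw) (hVb : Y' ∩ Vb ⊆ Kb) (hVw : Y' ∩ Vw ⊆ Kw) :
    PvlhUp (pvlhSg Y' Kb Kw) (pvlhSec Y' Fz σ (ℋb ∩ ℋw)) ∧ PvlhUp (pvlhSg Y' Kb Kw) (pvlhCp Y' (𝒦b ∩ 𝒦w)) :=
  ⟨(pvlh_up_black' Fz σ Kb Kw iH (pvlh_loc_of_reads σ rHb hWb)).inter (pvlh_up_white' Fz σ hd dH (pvlh_loc_of_reads σ rHw hWw)),
    (pvlh_up_black_cp' Kb Kw iP rPb hVb).inter (pvlh_up_white_cp' hd dP rPw hVw)⟩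

/-- **(F1) in black / white halves**: the black windows `Wb ∪ Vb` and the white windows `Ww ∪ Vw` share no fresh site: `Kb := Vb ∪ (Wb \ Fz)`, `Kw := Vw ∪ (Ww \ Fz)` -/
theorem pvlhf_forced1' {ε : ℝ} {C O D : Set ℂ} (hC : MeasurableSet C) (hOm : MeasurableSet O) (hO : Bornology.IsBounded O) (hD : MeasurableSet D) {𝒦b 𝒦w : Set (Conf PvPt)}
    (hPb : MeasurableSet 𝒦b) (hPw : MeasurableSet 𝒦w) (hr : Conf.ReadsSet (O ×ˢ (univ : Set Bool)) (𝒦b ∩ 𝒦w)) {t θ θ₀ b : ℝ≥0∞} (yf : Conf PvPt → Set ℂ) {Y : Set ℂ} (hY : Y.Countable)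
    (hfin : (Y ∩ O).Finite) (σ : ℂ → Bool) (h : cfOf Y σ ∈ pvayGood2 ε C O (𝒦b ∩ 𝒦w) t θ) {B₀ : Set PvGeoT} (hB₀ : pvGeo ε B₀ ≤ θ₀)
    (hDC : Disjoint D C) (hDy : Disjoint (Y ∩ D) (yf (cfOf Y σ))) {ℋb ℋw 𝒮 : Set (Conf PvPt)} (mHb : MeasurableSet ℋb) (mHw : MeasurableSet ℋw) (mS : MeasurableSet 𝒮)
    (hHr : Conf.ReadsSet ((D ∪ C) ×ˢ univ) (ℋb ∩ ℋw)) (hb : b ≤ pvtiP (pvP ε) (D ×ˢ univ) (ℋb ∩ ℋw) (cfOf Y σ))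
    {Wb Ww Vb Vw : Set ℂ} (rHb : Conf.ReadsSet (Wb ×ˢ univ) ℋb) (rHw : Conf.ReadsSet (Ww ×ˢ univ) ℋw) (rPb : Conf.ReadsSet (Vb ×ˢ univ) 𝒦b) (rPw : Conf.ReadsSet (Vw ×ˢ univ) 𝒦w)
    (hdis : Disjoint (Vb ∪ Wb \ pvdyFz C yf Y σ) (Vw ∪ Ww \ pvdyFz C yf Y σ))
    (hmon : ∀ g, g ∉ B₀ → PvlhInc (pvdyYc C Y (pvgSites g)) ℋb ∧ PvlhDec (pvdyYc C Y (pvgSites g)) ℋw ∧ PvlhInc (pvdyYc C Y (pvgSites g)) 𝒦b ∧ PvlhDec (pvdyYc C Y (pvgSites g)) 𝒦w)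
    (hdet : ∀ g, g ∉ B₀ → ∀ τ : ℂ → Bool, cfOf (pvdyYc C Y (pvgSites g)) (pvfqMix (pvdyFz C yf Y σ) (σ, τ)) ∈ ℋb ∩ ℋw → cfOf (pvdyYc C Y (pvgSites g)) τ ∈ 𝒦b ∩ 𝒦w →
      cfOf (pvdyYc C Y (pvgSites g)) (pvfqMix (pvdyFz C yf Y σ) (σ, τ)) ∈ 𝒮) :
    t * (b - (θ + θ₀)) ≤ pvdyQ ε C yf 𝒮 (cfOf Y σ) := by
  classical
  refine pvlhf_forced1 hC hOm hO hD (hPb.inter hPw) hr yf hY hfin σ h hB₀ hDC hDy (mHb.inter mHw) mS hHr hb (fun g hg => ?_) hdet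
  obtain ⟨m1, m2, m3, m4⟩ := hmon g hg
  have hu := pvlhf_up (Y' := pvdyYc C Y (pvgSites g)) (Fz := pvdyFz C yf Y σ) σ hdis m1 m2 m3 m4 rHb rHw rPb rPw
    (fun z hz => by
      by_cases hF : z ∈ pvdyFz C yf Y σ
      · exact Or.inl hF
      · exact Or.inr (Or.inr ⟨hz.2, hF⟩))
    (fun z hz => by
      by_cases hF : z ∈ pvdyFz C yf Y σ
      · exact Or.inl hF
      · exact Or.inr (Or.inr ⟨hz.2, hF⟩))
    (fun z hz => Or.inl hz.2) (fun z hz => Or.inl hz.2)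
  exact ⟨_, pvlh_sg_countable (pvdy_Yc_countable hY (pvf_sites_countable g)) _ _, hu.1, hu.2⟩

end forced

end Claimed.Agent.R289
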