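-- KEEP
import Claimed.Agent.R289.Tr.LinkF
import Claimed.Agent.R289.Defs.GdReg
import Claimed.Agent.R289.Exit.AnaNum
import Claimed.Agent.R289.Tr.Plug
import Claimed.Agent.R289.Tr.CycD
import Claimed.Agent.R289.Tr.FrcM
import Claimed.Agent.R289.S1P.Cov

/-!
# Row 289 (S0537), THE WALL, ROAD E, file Tr/FrcDoor : (b2) THE DOOR END OF A HYBRID LINK = THE THRESHOLD OF THE USABLE PLUG, PLACED      (helper77; post of 82 under the cutter 35 `Exit/FrcE.lean`; prefix `pvdp_`, `pvdp`, `Pvdp`)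

CONSUMERS: (F1) `pvlhf_forced1` of 250 (`Tr/LinkF`), `thr` of `pvrg_end_of` of 256 (`Tr/RegE`), the sub-exits `exit_pvgq_o _i _e` of 238 (`Exit/GdCut`).
WHAT A DOOR END OWES TO (F1): an event `ℋ` (JOINT side event of the plug: gate of record + black lane + white lane), measurable, read over `D ∪ C` (door `∪` tile), whose sections at a frozen door are up in ONE mixed order, and
      `hb : b₀ ≤ pvtiP (pvP ε) (D ×ˢ univ) ℋ η`   at every `η` whose door plug is USABLE (`pvrgGk`, `pvrgGr` of 256).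
The kit knows ONE statement: in the reference frame (door `0`, direction `1`, cells of side `1`, black form, mesh `e`)   `G₀ ⊆ pvpgThr (pvP e) (O₀ ×ˢ univ) S b₀`   (BY DEFINITION of the kit of 34, `PvpgGlob.G₀`; `S = S⁻`, `S⁺` of 52 / 174).
THIS FILE = THE TRANSPORT (frame, scale, colour in ONE map) + the glue with (F1).      0 sorry
* sec. 1  `pvdpE z a ha c : PvPt ≃ᵐ PvPt`,   **`pvdpT z a c η`** (the configuration seen from the frame `w ↦ z + a w`, the colour `c` read as black),   **`pvdpPl z a c S`** (an event of the reference frame, placed);   `pvdp_law`, `pvdp_T_cfOf`, `pvdp_T_comp`.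
* sec. 2  **`pvdp_P`** (conditional probabilities), **`pvdp_thr`** (thresholds), `pvdp_sure`, `pvdp_meas`, **`pvdp_reads`**.
* sec. 3  LABEL FREE MIXED ORDER (v2: GUARDED) `PvdpExt W Y` (the part of `Y` in the window `W` extends to a site set in general position; `pvdp_ext_of_good`, `pvdp_ext_of_nice` = the guard of `PvjeTest.Ok.up` of 35),
          `PvdpUp W Kz Kb Kw S` (any dependence on the colours over `Kz`, black up over `Kb`, white up over `Kw`, nothing else is looked at): `.inter`, `.mono`, **`PvdpUp.pl`** (placed; the colour `false` swaps the two rooms), **`PvdpUp.sec`** (`PvlhUp` of the section of 250),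
          **`PvhfIs.pvdp_up`** : a side event of 174 (`Tr/FrcM`) is up: window `E`, frozen `Ef`, rooms `Lb Lw`.
* sec. 4  **`PvdpEnd ε D C G ℋ Cd Kb Kw b₀`** (v2: fields `mH rH up thr loc` = the door half of `PvjeTest.Ok`);   `PvdpEnd.sec`, **`PvdpEnd.forced1`** = `pvlhf_forced1` with `mH hHr hb` and the `ℋ` half of `hup` discharged;   `pvdp_ae`, **`PvdpEnd.pl`**, `.mono`.
* sec. 5  AT THE MODEL: `pvdp_Gk` (`pvrgGk` = the usable states of the reference family, placed at `(z, d δ_m, c)`), `pvdp_door`, **`pvdp_thr_k`**, **`pvdp_end_k`**, **`pvdp_thr_r`**, **`pvdp_end_r`**;   producer: `pvdp_glob_thr`, `pvdp_glob_loc`, **`pvdp_end_glob`**;   regions `pvdp_o_disj _i_disj _e_disj`.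
* sec. 6  THE SIDE EVENTS OF 174, PLACED, ONE CALL PER FIELD (any plug, truncation, frame): `pvdp_side_up`, `pvdp_side_up_pl`, `pvdp_side_meas` [mH], `pvdp_side_reads` [rH], **`pvdp_side_sec`** [the `ℋ` half of `up`, the guards of 35 / 248 verbatim],
          **`pvdp_end_side`** (unit kit of `𝔤.glob (pvhfH 𝔤 𝔱)`), **`pvdp_end_scaled`** (reference type plug: scale `s`, region `W`), `PvdpEnd.loc_of`, `pvdp_Pl_comp`.
THE INSTANCE AT THE ENDS `pvjeO pvjeI pvjeE` of 35 stands in `Exit/FrcDoorE.lean`.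
-/

set_option autoImplicit false
set_option linter.unusedSectionVars false

namespace Claimed.Agent.R289

open MeasureTheory Set Claims.C0465
open scoped ENNReal

/-! ## 1. the placing map -/

/-- the frame `(z, a, c)` on coloured points: `w ↦ z + a w`, the colour black of the reference frame is the colour `c` -/
noncomputable def pvdpE (z a : ℂ) (ha : a ≠ 0) (c : Bool) : PvPt ≃ᵐ PvPt where
  toFun p := (z + a * p.1, p.2 == c)
  invFun p := ((p.1 - z) / a, p.2 == c)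
  left_inv p := by
    refine Prod.ext ?_ ?_
    · show (z + a * p.1 - z) / a = p.1
      field_simp
      ring
    · show ((p.2 == c) == c) = p.2
      cases p.2 <;> cases c <;> rfl
  right_inv p := by
    refine Prod.ext ?_ ?_
    · show z + a * ((p.1 - z) / a) = p.1
      field_simp
      ring
    · show ((p.2 == c) == c) = p.2
      cases p.2 <;> cases c <;> rfl
  measurable_toFun := by
    refine Measurable.prodMk (by fun_prop) ?_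
    exact (measurable_of_countable fun b : Bool => b == c).comp measurable_snd
  measurable_invFun := by
    refine Measurable.prodMk (by fun_prop) ?_
    exact (measurable_of_countable fun b : Bool => b == c).comp measurable_snd

/-- **the configuration seen from the frame `w ↦ z + a w`, the colour `c` read as black** -/
noncomputable def pvdpT (z a : ℂ) (c : Bool) (η : Conf PvPt) : Conf PvPt := cfMap (pvthInv z a) (pvkyFl c η)

/-- **an event of the reference frame, placed** -/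
def pvdpPl (z a : ℂ) (c : Bool) (S : Set (Conf PvPt)) : Set (Conf PvPt) := pvdpT z a c ⁻¹' S

theorem pvdp_eqns_cite : True := by
  have := @pvdpE.eq_1; have := @pvdpT.eq_1; have := @pvdpPl.eq_1
  trivial

theorem pvdp_mem_T {z a : ℂ} {c : Bool} {η : Conf PvPt} {p : PvPt} : p ∈ (pvdpT z a c η).pts ↔ ∃ q ∈ η.pts, ((q.1 - z) / a, q.2 == c) = p := by
  constructor
  · rintro ⟨q, hq, rfl⟩
    rw [pvky_mem_fl] at hq
    refine ⟨_, hq, Prod.ext rfl ?_⟩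
    show ((q.2 == c) == c) = q.2
    cases q.2 <;> cases c <;> rfl
  · rintro ⟨q, hq, rfl⟩
    refine ⟨(q.1, q.2 == c), ?_, rfl⟩
    rw [pvky_mem_fl]
    have e : ((q.2 == c) == c) = q.2 := by cases q.2 <;> cases c <;> rfl
    show (q.1, ((q.2 == c) == c)) ∈ η.pts
    rw [e]
    exact hq

theorem pvdp_T_eq (z a : ℂ) (ha : a ≠ 0) (c : Bool) (η : Conf PvPt) : pvdpT z a c η = Conf.image (pvdpE z a ha c).toEquiv.symm η := by
  ext p
  rw [pvdp_mem_T]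
  rfl

theorem pvdp_Pl_eq (z a : ℂ) (ha : a ≠ 0) (c : Bool) (S : Set (Conf PvPt)) : pvdpPl z a c S = Conf.image (pvdpE z a ha c).toEquiv.symm ⁻¹' S := by
  ext η
  show pvdpT z a c η ∈ S ↔ _
  rw [pvdp_T_eq z a ha]
  rfl

theorem pvdp_image_eq (z a : ℂ) (ha : a ≠ 0) (c : Bool) : Conf.image (pvdpE z a ha c) = Conf.image (pvciAff a z ha) ∘ pvkyFl c := by
  funext η
  ext p
  constructor
  · rintro ⟨q, hq, rfl⟩
    refine ⟨(q.1, q.2 == c), ?_, ?_⟩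
    · rw [pvky_mem_fl]
      have e : ((q.2 == c) == c) = q.2 := by cases q.2 <;> cases c <;> rfl
      show (q.1, ((q.2 == c) == c)) ∈ η.pts
      rw [e]
      exact hq
    · refine Prod.ext ?_ rfl
      show a * q.1 + z = z + a * q.1
      ring
  · rintro ⟨q, hq, rfl⟩
    rw [pvky_mem_fl] at hq
    refine ⟨_, hq, Prod.ext ?_ ?_⟩
    · show z + a * q.1 = a * q.1 + z
      ring
    · show ((q.2 == c) == c) = q.2
      cases q.2 <;> cases c <;> rfl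

/-- **the law at the mesh `e`, placed, is the law at the mesh `‖a‖ e`** -/
theorem pvdp_law (z a : ℂ) (ha : a ≠ 0) (c : Bool) (e : ℝ) : (pvP e).map (Conf.image (pvdpE z a ha c)) = pvP (‖a‖ * e) := by
  rw [pvdp_image_eq, ← Measure.map_map (Conf.measurable_image (pvciAff a z ha).measurable) (measurable_pvkyFl c), pvky_fl_map]
  exact pvci_law_aff a z ha e

theorem pvdp_E_image (z a : ℂ) (ha : a ≠ 0) (c : Bool) (O : Set ℂ) : pvdpE z a ha c '' (O ×ˢ (univ : Set Bool)) = (pvthSim z a '' O) ×ˢ (univ : Set Bool) := by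
  ext p
  constructor
  · rintro ⟨q, hq, rfl⟩
    exact ⟨⟨q.1, hq.1, rfl⟩, mem_univ _⟩
  · rintro ⟨⟨w, hw, hp⟩, -⟩
    refine ⟨(w, p.2 == c), ⟨hw, mem_univ _⟩, Prod.ext hp ?_⟩
    show ((p.2 == c) == c) = p.2
    cases p.2 <;> cases c <;> rfl

/-- a configuration `cfOf Y col` seen from the frame -/
theorem pvdp_T_cfOf (z a : ℂ) (ha : a ≠ 0) (c : Bool) (Y : Set ℂ) (col : ℂ → Bool) :
    pvdpT z a c (cfOf Y col) = cfOf (pvthInv z a '' Y) fun w => col (pvthSim z a w) == c := by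
  ext p
  rw [pvdp_mem_T]
  constructor
  · rintro ⟨q, ⟨hq, hc⟩, rfl⟩
    refine ⟨⟨q.1, hq, rfl⟩, ?_⟩
    show (q.2 == c) = (col (z + a * ((q.1 - z) / a)) == c)
    have e : z + a * ((q.1 - z) / a) = q.1 := by field_simp; ring
    rw [e, show q.2 = col q.1 from hc]
  · rintro ⟨⟨w, hw, hp⟩, hc⟩
    refine ⟨(w, col w), ⟨hw, rfl⟩, Prod.ext hp ?_⟩
    have e : pvthSim z a p.1 = w := by
      rw [← hp]
      show z + a * ((w - z) / a) = w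
      field_simp
      ring
    have h2 : p.2 = (col (pvthSim z a p.1) == c) := hc
    rw [h2, e]

/-- two frames, ONE colour -/
theorem pvdp_T_comp (z a z' a' : ℂ) (ha : a ≠ 0) (c : Bool) (η : Conf PvPt) : cfMap (pvthInv z' a') (pvdpT z a c η) = pvdpT (z + a * z') (a * a') c η := by
  unfold pvdpT
  rw [pvci_cfMap_comp, pvth_inv_comp z a z' a' ha]

theorem pvdp_sim_inv (z a : ℂ) (ha : a ≠ 0) (w : ℂ) : pvthSim z a (pvthInv z a w) = w := by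
  show z + a * ((w - z) / a) = w
  field_simp
  ring

theorem pvdp_inv_sim (z a : ℂ) (ha : a ≠ 0) (w : ℂ) : pvthInv z a (pvthSim z a w) = w := by
  show (z + a * w - z) / a = w
  field_simp
  ring

/-! ## 2. conditional probabilities, thresholds, readers -/

/-- **the conditional probability of the placed event given the placed region** -/
theorem pvdp_P (z a : ℂ) (ha : a ≠ 0) (c : Bool) (e : ℝ) (O : Set ℂ) (S : Set (Conf PvPt)) (η : Conf PvPt) :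
    pvtiP (pvP (‖a‖ * e)) ((pvthSim z a '' O) ×ˢ univ) (pvdpPl z a c S) η = pvtiP (pvP e) (O ×ˢ univ) S (pvdpT z a c η) := by
  have h := congrFun (pvci_P_T (pvdpE z a ha c) (pvdp_law z a ha c e) (O ×ˢ univ) S) η
  rw [pvdp_E_image, ← pvdp_Pl_eq] at h
  rw [h, pvdp_T_eq z a ha]
  rfl

/-- **THRESHOLDS ARE PLACED** -/
theorem pvdp_thr (z a : ℂ) (ha : a ≠ 0) (c : Bool) (e : ℝ) (O : Set ℂ) (S : Set (Conf PvPt)) (b : ℝ≥0∞) :
    pvdpPl z a c (pvpgThr (pvP e) (O ×ˢ univ) S b) = pvpgThr (pvP (‖a‖ * e)) ((pvthSim z a '' O) ×ˢ univ) (pvdpPl z a c S) b := by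
  ext η
  show b ≤ pvtiP (pvP e) (O ×ˢ univ) S (pvdpT z a c η) ↔ b ≤ pvtiP (pvP (‖a‖ * e)) ((pvthSim z a '' O) ×ˢ univ) (pvdpPl z a c S) η
  rw [pvdp_P z a ha]

/-- sure events are placed -/
theorem pvdp_sure (z a : ℂ) (ha : a ≠ 0) (c : Bool) (e : ℝ) (O : Set ℂ) (S : Set (Conf PvPt)) :
    pvdpPl z a c (pvpgSure (pvP e) (O ×ˢ univ) S) = pvpgSure (pvP (‖a‖ * e)) ((pvthSim z a '' O) ×ˢ univ) (pvdpPl z a c S) := by
  ext η
  show pvtiP (pvP e) (O ×ˢ univ) S (pvdpT z a c η) = 1 ↔ pvtiP (pvP (‖a‖ * e)) ((pvthSim z a '' O) ×ˢ univ) (pvdpPl z a c S) η = 1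
  rw [pvdp_P z a ha]

theorem pvdp_measurable_T (z a : ℂ) (c : Bool) : Measurable (pvdpT z a c) := (measurable_cfMap (pvth_measurable_inv z a)).comp (measurable_pvkyFl c)

theorem pvdp_meas (z a : ℂ) (c : Bool) {S : Set (Conf PvPt)} (hS : MeasurableSet S) : MeasurableSet (pvdpPl z a c S) := pvdp_measurable_T z a c hS

theorem pvdp_T_restr (z a : ℂ) (ha : a ≠ 0) (c : Bool) (E : Set ℂ) (η : Conf PvPt) :
    pvdpT z a c (Conf.restr ((pvthSim z a '' E) ×ˢ univ) η) = Conf.restr (E ×ˢ univ) (pvdpT z a c η) := by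
  rw [pvdp_T_eq z a ha, pvdp_T_eq z a ha, pvci_image_restr (pvdpE z a ha c).toEquiv.symm.injective, ← pvdp_E_image z a ha c]
  congr 1
  exact Equiv.symm_image_image (pvdpE z a ha c).toEquiv _

/-- **READERS ARE PLACED** -/
theorem pvdp_reads (z a : ℂ) (ha : a ≠ 0) (c : Bool) {E : Set ℂ} {S : Set (Conf PvPt)} (h : Conf.ReadsSet (E ×ˢ univ) S) : Conf.ReadsSet ((pvthSim z a '' E) ×ˢ univ) (pvdpPl z a c S) := fun η => by
  show pvdpT z a c (Conf.restr ((pvthSim z a '' E) ×ˢ univ) η) ∈ S ↔ pvdpT z a c η ∈ S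
  rw [pvdp_T_restr z a ha]
  exact h _

theorem pvdp_Pl_inter (z a : ℂ) (c : Bool) (S S' : Set (Conf PvPt)) : pvdpPl z a c (S ∩ S') = pvdpPl z a c S ∩ pvdpPl z a c S' := rfl

theorem pvdp_Pl_mono (z a : ℂ) (c : Bool) {S S' : Set (Conf PvPt)} (h : S ⊆ S') : pvdpPl z a c S ⊆ pvdpPl z a c S' := preimage_mono h

/-- probabilities of placed events -/
theorem pvdp_measure (z a : ℂ) (ha : a ≠ 0) (c : Bool) (e : ℝ) (S : Set (Conf PvPt)) : pvP (‖a‖ * e) (pvdpPl z a c S) = pvP e S := by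
  rw [pvdp_Pl_eq z a ha]
  exact pvci_measure_T (pvdpE z a ha c) (pvdp_law z a ha c e) S

/-! ## 3. the label free mixed order -/

/-- the part of the site set `Y` seen in the window `W` extends to a site set in general position (`DelGood`) -/
def PvdpExt (W Y : Set ℂ) : Prop := ∃ Y₁ : Set ℂ, DelGood Y₁ ∧ Y₁ ∩ W = Y ∩ W

/-- **LABEL FREE MIXED ORDER**: at EVERY set of sites `Y` whose part in the window `W` extends to a site set in general position, the event `S` depends on the colours over `Kz` in any way, is increasing in the colours over `Kb`,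
decreasing in the colours over `Kw`, and looks at no other colour -/
def PvdpUp (W Kz Kb Kw : Set ℂ) (S : Set (Conf PvPt)) : Prop :=
  ∀ (Y : Set ℂ) (c c' : ℂ → Bool), PvdpExt W Y → (∀ z ∈ Y, z ∈ Kz → c z = c' z) → (∀ z ∈ Y, z ∈ Kb → c z = true → c' z = true) → (∀ z ∈ Y, z ∈ Kw → c' z = true → c z = true) →
    cfOf Y c ∈ S → cfOf Y c' ∈ S

theorem pvdp_eqns_cite2 : True := by
  have := @PvdpExt.eq_1; have := @PvdpUp.eq_1
  trivial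

theorem PvdpExt.mono {W W' Y : Set ℂ} (h : PvdpExt W' Y) (hW : W ⊆ W') : PvdpExt W Y := by
  obtain ⟨Y₁, h1, h2⟩ := h
  refine ⟨Y₁, h1, ?_⟩
  ext z
  constructor
  · rintro ⟨hz, hw⟩
    exact ⟨(h2.subset ⟨hz, hW hw⟩).1, hw⟩
  · rintro ⟨hz, hw⟩
    exact ⟨(h2.superset ⟨hz, hW hw⟩).1, hw⟩

theorem pvdp_ext_of_good {Y : Set ℂ} (h : DelGood Y) (W : Set ℂ) : PvdpExt W Y := ⟨Y, h, rfl⟩

theorem pvdp_ext_of_nice {W Y : Set ℂ} (h : ∃ η : Conf PvPt, PvatNice (cfSites η) ∧ cfSites η ∩ W = Y ∩ W) : PvdpExt W Y := by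
  obtain ⟨η, h1, h2⟩ := h
  exact ⟨_, h1.good, h2⟩

theorem pvdp_mem_inv_image (z a : ℂ) (ha : a ≠ 0) (Y : Set ℂ) (w : ℂ) : w ∈ pvthInv z a '' Y ↔ pvthSim z a w ∈ Y := by
  constructor
  · rintro ⟨y, hy, rfl⟩
    rw [pvdp_sim_inv z a ha]
    exact hy
  · intro h
    exact ⟨_, h, pvdp_inv_sim z a ha w⟩

theorem pvdp_mem_sim_image (z a : ℂ) (ha : a ≠ 0) (W : Set ℂ) (w : ℂ) : pvthSim z a w ∈ pvthSim z a '' W ↔ w ∈ W := by
  constructor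
  · rintro ⟨y, hy, e⟩
    have := congrArg (pvthInv z a) e
    rw [pvdp_inv_sim z a ha, pvdp_inv_sim z a ha] at this
    rw [← this]
    exact hy
  · intro h
    exact ⟨w, h, rfl⟩

/-- general position is seen from every frame -/
theorem pvdp_good_inv (z a : ℂ) (ha : a ≠ 0) {Y : Set ℂ} (h : DelGood Y) : DelGood (pvthInv z a '' Y) := by
  refine pvcv_good (a := a⁻¹) (b := -(a⁻¹ * z)) (inv_ne_zero ha) (image_congr fun w _ => ?_) h
  show (w - z) / a = a⁻¹ * w + -(a⁻¹ * z)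
  field_simp
  ring

theorem PvdpExt.inv {W Y : Set ℂ} (z a : ℂ) (ha : a ≠ 0) (h : PvdpExt (pvthSim z a '' W) Y) : PvdpExt W (pvthInv z a '' Y) := by
  obtain ⟨Y₁, h1, h2⟩ := h
  refine ⟨_, pvdp_good_inv z a ha h1, ?_⟩
  ext w
  simp only [mem_inter_iff, pvdp_mem_inv_image z a ha]
  constructor
  · rintro ⟨hw, hW⟩
    exact ⟨(h2.subset ⟨hw, (pvdp_mem_sim_image z a ha W w).2 hW⟩).1, hW⟩
  · rintro ⟨hw, hW⟩
    exact ⟨(h2.superset ⟨hw, (pvdp_mem_sim_image z a ha W w).2 hW⟩).1, hW⟩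

theorem PvdpUp.inter {W Kz Kb Kw : Set ℂ} {S S' : Set (Conf PvPt)} (h : PvdpUp W Kz Kb Kw S) (h' : PvdpUp W Kz Kb Kw S') : PvdpUp W Kz Kb Kw (S ∩ S') :=
  fun Y c c' hY hz hb hw hc => ⟨h Y c c' hY hz hb hw hc.1, h' Y c c' hY hz hb hw hc.2⟩

/-- larger window, larger rooms -/
theorem PvdpUp.mono {W Kz Kb Kw W' Kz' Kb' Kw' : Set ℂ} {S : Set (Conf PvPt)} (h : PvdpUp W Kz Kb Kw S) (hW : W ⊆ W') (hz : Kz ⊆ Kz') (hb : Kb ⊆ Kz' ∪ Kb') (hw : Kw ⊆ Kz' ∪ Kw') :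
    PvdpUp W' Kz' Kb' Kw' S := by
  intro Y c c' hY h1 h2 h3 hc
  refine h Y c c' (hY.mono hW) (fun z hY hK => h1 z hY (hz hK)) (fun z hY hK hcz => ?_) (fun z hY hK hcz => ?_) hc
  · rcases hb hK with hK' | hK'
    · rw [← h1 z hY hK']; exact hcz
    · exact h2 z hY hK' hcz
  · rcases hw hK with hK' | hK'
    · rw [h1 z hY hK']; exact hcz
    · exact h3 z hY hK' hcz

/-- a colour blind event -/
theorem pvdp_up_blind {S : Set (Conf PvPt)} (h : ∀ (Y : Set ℂ) (c c' : ℂ → Bool), cfOf Y c ∈ S → cfOf Y c' ∈ S) (W Kz Kb Kw : Set ℂ) : PvdpUp W Kz Kb Kw S :=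
  fun Y c c' _ _ _ _ hc => h Y c c' hc

/-- an event read over `Kz` -/
theorem pvdp_up_reads {Kz : Set ℂ} {S : Set (Conf PvPt)} (h : Conf.ReadsSet (Kz ×ˢ univ) S) (W Kb Kw : Set ℂ) : PvdpUp W Kz Kb Kw S := by
  intro Y c c' _ hz _ _ hc
  have e : Conf.restr (Kz ×ˢ univ) (cfOf Y c) = Conf.restr (Kz ×ˢ univ) (cfOf Y c') := cfOf_restr_congr fun z hz' => hz z hz'.1 hz'.2
  have h1 := (h _).2 hc
  rw [e] at h1
  exact (h _).1 h1

/-- an event increasing at every set of sites, read over `Kz ∪ Kb` -/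
theorem pvdp_up_inc {Kz Kb : Set ℂ} {S : Set (Conf PvPt)} (hi : ∀ Y, PvlhInc Y S) (h : Conf.ReadsSet ((Kz ∪ Kb) ×ˢ univ) S) (W Kw : Set ℂ) : PvdpUp W Kz Kb Kw S := by
  intro Y c c' _ hz hb _ hc
  have h1 : cfOf (Y ∩ (Kz ∪ Kb)) c ∈ S := by
    rw [← pvay_of_restr]
    exact (h _).2 hc
  have h2 : cfOf (Y ∩ (Kz ∪ Kb)) c' ∈ S := by
    refine hi _ c c' (fun z hz' hcz => ?_) h1
    rcases hz'.2 with hK | hK
    · rw [← hz z hz'.1 hK]; exact hcz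
    · exact hb z hz'.1 hK hcz
  rw [← pvay_of_restr] at h2
  exact (h _).1 h2

/-- an event decreasing at every set of sites, read over `Kz ∪ Kw` -/
theorem pvdp_up_dec {Kz Kw : Set ℂ} {S : Set (Conf PvPt)} (hi : ∀ Y, PvlhDec Y S) (h : Conf.ReadsSet ((Kz ∪ Kw) ×ˢ univ) S) (W Kb : Set ℂ) : PvdpUp W Kz Kb Kw S := by
  intro Y c c' _ hz _ hw hc
  have h1 : cfOf (Y ∩ (Kz ∪ Kw)) c ∈ S := by
    rw [← pvay_of_restr]
    exact (h _).2 hc
  have h2 : cfOf (Y ∩ (Kz ∪ Kw)) c' ∈ S := by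
    refine hi _ c' c (fun z hz' hcz => ?_) h1
    rcases hz'.2 with hK | hK
    · rw [hz z hz'.1 hK]; exact hcz
    · exact hw z hz'.1 hK hcz
  rw [← pvay_of_restr] at h2
  exact (h _).1 h2

/-- **THE MIXED ORDER IS PLACED**; the colour `false` swaps the two rooms -/
theorem PvdpUp.pl {W Kz Kb Kw : Set ℂ} {S : Set (Conf PvPt)} (h : PvdpUp W Kz Kb Kw S) (z a : ℂ) (ha : a ≠ 0) (c : Bool) :
    PvdpUp (pvthSim z a '' W) (pvthSim z a '' Kz) (pvthSim z a '' (if c then Kb else Kw)) (pvthSim z a '' (if c then Kw else Kb)) (pvdpPl z a c S) := by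
  intro Y col col' hExt hz hb hw hc
  have h1 : cfOf (pvthInv z a '' Y) (fun w => col (pvthSim z a w) == c) ∈ S := by
    rw [← pvdp_T_cfOf z a ha]
    exact hc
  show pvdpT z a c (cfOf Y col') ∈ S
  rw [pvdp_T_cfOf z a ha]
  have hY : ∀ w ∈ pvthInv z a '' Y, pvthSim z a w ∈ Y := fun w hw => (pvdp_mem_inv_image z a ha Y w).1 hw
  refine h _ _ _ (hExt.inv z a ha) (fun w hw' hK => ?_) (fun w hw' hK hcw => ?_) (fun w hw' hK hcw => ?_) h1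
  · show (col (pvthSim z a w) == c) = (col' (pvthSim z a w) == c)
    rw [hz _ (hY w hw') ⟨w, hK, rfl⟩]
  · have hcw' : (col (pvthSim z a w) == c) = true := hcw
    show (col' (pvthSim z a w) == c) = true
    cases c
    · have h2 := hw _ (hY w hw') ⟨w, hK, rfl⟩
      cases h3 : col' (pvthSim z a w)
      · rfl
      · rw [h2 h3] at hcw'
        exact absurd hcw' (by decide)
    · have h2 := hb _ (hY w hw') ⟨w, hK, rfl⟩
      rw [beq_true] at hcw' ⊢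
      exact h2 hcw'
  · have hcw' : (col' (pvthSim z a w) == c) = true := hcw
    show (col (pvthSim z a w) == c) = true
    cases c
    · have h2 := hb _ (hY w hw') ⟨w, hK, rfl⟩
      cases h3 : col (pvthSim z a w)
      · rfl
      · rw [h2 h3] at hcw'
        exact absurd hcw' (by decide)
    · have h2 := hw _ (hY w hw') ⟨w, hK, rfl⟩
      rw [beq_true] at hcw' ⊢
      exact h2 hcw'

/-- **THE SECTION OF 250 IS UP**: the sites over `Kz` are frozen, the fresh sites over `Kb` / `Kw` lie in the black / white half `Kb'` / `Kw'` of the mixed order of the link -/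
theorem PvdpUp.sec {W Kz Kb Kw : Set ℂ} {S : Set (Conf PvPt)} (h : PvdpUp W Kz Kb Kw S) {Y' Fz Kb' Kw' : Set ℂ} (σ : ℂ → Bool) (hY : PvdpExt W Y') (hd : Disjoint Kb' Kw')
    (hz : Y' ∩ Kz ⊆ Fz) (hb : Y' ∩ Kb ⊆ Fz ∪ Kb') (hw : Y' ∩ Kw ⊆ Fz ∪ Kw') : PvlhUp (pvlhSg Y' Kb' Kw') (pvlhSec Y' Fz σ S) := by
  intro τ τ' hle hτ
  refine h Y' _ _ hY (fun z hY hK => ?_) (fun z hY hK hcz => ?_) (fun z hY hK hcz => ?_) hτ
  · rw [pvfqMix_of_mem (hz ⟨hY, hK⟩), pvfqMix_of_mem (hz ⟨hY, hK⟩)]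
  · by_cases hF : z ∈ Fz
    · rw [pvfqMix_of_mem hF] at hcz ⊢
      exact hcz
    · rw [pvfqMix_of_notMem hF] at hcz ⊢
      have h1 := (hle z).1 (pvlh_sg_black Kw' ⟨hY, (hb ⟨hY, hK⟩).resolve_left hF⟩)
      have hcz' : τ z = true := hcz
      rw [hcz'] at h1
      exact top_le_iff.1 h1
  · by_cases hF : z ∈ Fz
    · rw [pvfqMix_of_mem hF] at hcz ⊢
      exact hcz
    · rw [pvfqMix_of_notMem hF] at hcz ⊢
      have h1 := (hle z).2 (pvlh_sg_white hd ⟨hY, (hw ⟨hY, hK⟩).resolve_left hF⟩)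
      have hcz' : τ' z = true := hcz
      rw [hcz'] at h1
      exact top_le_iff.1 h1

/-- **A SIDE EVENT OF 174 IS UP IN THE LABEL FREE MIXED ORDER**: window `E`, frozen window `Ef` of the plug, rooms `Lb Lw` of the two lanes -/
theorem PvhfIs.pvdp_up {𝔯 : PvhfReg} {σ : Bool} {L : Set (Conf PvPt)} (h : PvhfIs 𝔯 σ L) (hW : 𝔯.Wf) : PvdpUp 𝔯.E 𝔯.Ef 𝔯.sd.Lb 𝔯.sd.Lw L := by
  rintro Y c c' ⟨Y₁, hg, hY⟩ hz hb hw hc
  have hin : ∀ a ∈ 𝔯.E, a ∈ Y₁ → a ∈ Y := fun a ha h1 => (hY.subset ⟨h1, ha⟩).1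
  have hKE : 𝔯.sd.K ⊆ 𝔯.E := hW.core.trans (pvtr_core_subset (by have := hW.ρ0; positivity))
  have tr : ∀ col : ℂ → Bool, cfOf Y col ∈ L ↔ cfOf Y₁ col ∈ L := by
    intro col
    rw [← h.reads hW (cfOf Y col), ← h.reads hW (cfOf Y₁ col), pvay_of_restr, pvay_of_restr, hY]
  rw [tr] at hc ⊢
  refine h.mono hW (by rw [cfOf_sites, cfOf_sites]) (by rw [cfOf_sites]; exact hg) (fun a ha => ?_) (fun a ha haY hca => ?_) (fun a ha haY hca => ?_) hc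
  · by_cases haY : a ∈ Y₁
    · rw [pvdy_cfCol_cfOf c' haY, pvdy_cfCol_cfOf c haY]
      exact (hz a (hin a (hW.sub ha) haY) ha).symm
    · have e : ∀ col : ℂ → Bool, cfCol (cfOf Y₁ col) a = false := by
        intro col
        classical
        unfold cfCol
        exact decide_eq_false fun hm => haY hm.1
      rw [e, e]
  · rw [cfOf_sites] at haY
    rw [pvdy_cfCol_cfOf c haY] at hca
    rw [pvdy_cfCol_cfOf c' haY]
    exact hb a (hin a (hKE (Or.inl (Or.inr ha))) haY) ha hca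
  · rw [cfOf_sites] at haY
    rw [pvdy_cfCol_cfOf c haY] at hca
    rw [pvdy_cfCol_cfOf c' haY]
    have h1 := hw a (hin a (hKE (Or.inr ha)) haY) ha
    cases h2 : c' a
    · rfl
    · rw [h1 h2] at hca
      exact absurd hca (by decide)

/-! ## 4. the door end in the form of (F1) -/

/-- **THE DOOR END OF A HYBRID LINK**: door region `D`, tile `C`, usable states `G`, joint side event `ℋ`, plain plug `Cd`, rooms `Kb Kw` of its black / white lane, threshold `b₀` -/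
structure PvdpEnd (ε : ℝ) (D C : Set ℂ) (G ℋ Cd : Set (Conf PvPt)) (Kb Kw : Set ℂ) (b₀ : ℝ≥0∞) : Prop where
  mH : MeasurableSet ℋ
  rH : Conf.ReadsSet ((D ∪ C) ×ˢ univ) ℋ
  up : PvdpUp (D ∪ C) D Kb Kw ℋ
  thr : G ⊆ {η | b₀ ≤ pvtiP (pvP ε) (D ×ˢ univ) ℋ η}
  loc : ∀ᵐ η ∂pvP ε, η ∈ G → η ∈ Cd

/-- the sites of the door are frozen in the experiment of the link -/
theorem pvdp_door_frozen {C D Y Y₂ : Set ℂ} {yf : Conf PvPt → Set ℂ} {σ : ℂ → Bool} (hDC : Disjoint D C) (hDy : Disjoint (Y ∩ D) (yf (cfOf Y σ))) : pvdyYc C Y Y₂ ∩ D ⊆ pvdyFz C yf Y σ := by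
  rintro z ⟨hz | hz, hD⟩
  · exact ⟨hz, fun hy => disjoint_left.1 hDy ⟨hz.1, hD⟩ hy⟩
  · exact absurd hz.2 (disjoint_left.1 hDC hD)

/-- the `ℋ` half of `up`: ANY disjoint halves `Kb' Kw'` which contain the lane rooms off the door -/
theorem PvdpEnd.sec {ε : ℝ} {D C : Set ℂ} {G ℋ Cd : Set (Conf PvPt)} {Kb Kw : Set ℂ} {b₀ : ℝ≥0∞} (hE : PvdpEnd ε D C G ℋ Cd Kb Kw b₀) {Y' Fz Kb' Kw' : Set ℂ} (σ : ℂ → Bool)
    (hY : PvdpExt (D ∪ C) Y') (hd : Disjoint Kb' Kw') (hb : Kb \ D ⊆ Kb') (hw : Kw \ D ⊆ Kw') (hfz : Y' ∩ D ⊆ Fz) : PvlhUp (pvlhSg Y' Kb' Kw') (pvlhSec Y' Fz σ ℋ) := by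
  refine hE.up.sec σ hY hd hfz (fun z hz => ?_) (fun z hz => ?_)
  · by_cases hzD : z ∈ D
    · exact Or.inl (hfz ⟨hz.1, hzD⟩)
    · exact Or.inr (hb ⟨hz.2, hzD⟩)
  · by_cases hzD : z ∈ D
    · exact Or.inl (hfz ⟨hz.1, hzD⟩)
    · exact Or.inr (hw ⟨hz.2, hzD⟩)

/-- **(F1) AT A DOOR END**: `pvlhf_forced1` of 250 with `mH hHr hb` and the `ℋ` half of `hup` discharged.      `Kb' Kw'` = the black / white halves of the mixed order of the link (they contain the lane rooms off the door) -/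
theorem PvdpEnd.forced1 {ε : ℝ} {C O D : Set ℂ} {G ℋ Cd : Set (Conf PvPt)} {Kb Kw : Set ℂ} {b₀ : ℝ≥0∞} (hE : PvdpEnd ε D C G ℋ Cd Kb Kw b₀)
    (hC : MeasurableSet C) (hOm : MeasurableSet O) (hO : Bornology.IsBounded O) (hD : MeasurableSet D) {𝒦 : Set (Conf PvPt)} (hP : MeasurableSet 𝒦)
    (hr : Conf.ReadsSet (O ×ˢ (univ : Set Bool)) 𝒦) {t θ θ₀ : ℝ≥0∞} (yf : Conf PvPt → Set ℂ) {Y : Set ℂ} (hY : Y.Countable) (hfin : (Y ∩ O).Finite) (σ : ℂ → Bool)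
    (h : cfOf Y σ ∈ pvayGood2 ε C O 𝒦 t θ) {B₀ : Set PvGeoT} (hB₀ : pvGeo ε B₀ ≤ θ₀)
    (hDC : Disjoint D C) (hDy : Disjoint (Y ∩ D) (yf (cfOf Y σ))) (hG : cfOf Y σ ∈ G) {𝒮 : Set (Conf PvPt)} (mS : MeasurableSet 𝒮)
    {Kb' Kw' : Set ℂ} (hd : Disjoint Kb' Kw') (hb : Kb \ D ⊆ Kb') (hw : Kw \ D ⊆ Kw')
    (hgood : ∀ g, g ∉ B₀ → PvdpExt (D ∪ C) (pvdyYc C Y (pvgSites g)))
    (hup : ∀ g, g ∉ B₀ → PvlhUp (pvlhSg (pvdyYc C Y (pvgSites g)) Kb' Kw') (pvlhCp (pvdyYc C Y (pvgSites g)) 𝒦))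
    (hdet : ∀ g, g ∉ B₀ → ∀ τ : ℂ → Bool, cfOf (pvdyYc C Y (pvgSites g)) (pvfqMix (pvdyFz C yf Y σ) (σ, τ)) ∈ ℋ → cfOf (pvdyYc C Y (pvgSites g)) τ ∈ 𝒦 →
      cfOf (pvdyYc C Y (pvgSites g)) (pvfqMix (pvdyFz C yf Y σ) (σ, τ)) ∈ 𝒮) :
    t * (b₀ - (θ + θ₀)) ≤ pvdyQ ε C yf 𝒮 (cfOf Y σ) := by
  refine pvlhf_forced1 hC hOm hO hD hP hr yf hY hfin σ h hB₀ hDC hDy hE.mH mS hE.rH (hE.thr hG) (fun g hg => ?_) hdet
  exact ⟨_, pvlh_sg_countable (pvdy_Yc_countable hY (pvf_sites_countable g)) Kb' Kw', hE.sec σ (hgood g hg) hd hb hw (pvdp_door_frozen (Y₂ := pvgSites g) hDC hDy), hup g hg⟩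

/-- the law seen from a frame -/
theorem pvdp_law_T (z a : ℂ) (ha : a ≠ 0) (c : Bool) (e : ℝ) : (pvP (‖a‖ * e)).map (pvdpT z a c) = pvP e := by
  obtain ⟨Φ, hΦ, hΦs⟩ := pvth_equiv (pvdpE z a ha c)
  have e1 : pvdpT z a c = Φ.symm := by
    funext η
    rw [pvdp_T_eq z a ha, hΦs]
  have e2 : (pvP e).map Φ = pvP (‖a‖ * e) := by
    have : (Φ : Conf PvPt → Conf PvPt) = Conf.image (pvdpE z a ha c) := funext hΦ
    rw [this]
    exact pvdp_law z a ha c e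
  rw [e1, ← e2, Measure.map_map Φ.symm.measurable Φ.measurable]
  simp

/-- **an a.s. property of the reference frame holds a.s. in every frame** -/
theorem pvdp_ae (z a : ℂ) (ha : a ≠ 0) (c : Bool) {e : ℝ} {p : Conf PvPt → Prop} (h : ∀ᵐ η ∂pvP e, p η) : ∀ᵐ η ∂pvP (‖a‖ * e), p (pvdpT z a c η) := by
  refine ae_of_ae_map (pvdp_measurable_T z a c).aemeasurable ?_
  rw [pvdp_law_T z a ha]
  exact h

/-- a door end in the reference frame, placed -/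
theorem PvdpEnd.pl {e : ℝ} {D C : Set ℂ} {G ℋ Cd : Set (Conf PvPt)} {Kb Kw : Set ℂ} {b₀ : ℝ≥0∞} (h : PvdpEnd e D C G ℋ Cd Kb Kw b₀) (z a : ℂ) (ha : a ≠ 0) (c : Bool) :
    PvdpEnd (‖a‖ * e) (pvthSim z a '' D) (pvthSim z a '' C) (pvdpPl z a c G) (pvdpPl z a c ℋ) (pvdpPl z a c Cd) (pvthSim z a '' (if c then Kb else Kw)) (pvthSim z a '' (if c then Kw else Kb)) b₀ where
  mH := pvdp_meas z a c h.mH
  rH := by
    rw [← image_union]
    exact pvdp_reads z a ha c h.rH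
  up := by
    rw [← image_union]
    exact h.up.pl z a ha c
  thr := fun η hη => by
    show b₀ ≤ pvtiP (pvP (‖a‖ * e)) ((pvthSim z a '' D) ×ˢ univ) (pvdpPl z a c ℋ) η
    rw [pvdp_P z a ha]
    exact h.thr hη
  loc := pvdp_ae z a ha c h.loc

/-- a larger tile, fewer usable states, larger rooms -/
theorem PvdpEnd.mono {ε : ℝ} {D C C' : Set ℂ} {G G' ℋ Cd : Set (Conf PvPt)} {Kb Kw Kb' Kw' : Set ℂ} {b₀ : ℝ≥0∞} (h : PvdpEnd ε D C G ℋ Cd Kb Kw b₀) (hC : D ∪ C ⊆ D ∪ C') (hG : G' ⊆ G)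
    (hb : Kb ⊆ D ∪ Kb') (hw : Kw ⊆ D ∪ Kw') : PvdpEnd ε D C' G' ℋ Cd Kb' Kw' b₀ where
  mH := h.mH
  rH := h.rH.mono (prod_mono hC Subset.rfl)
  up := h.up.mono hC Subset.rfl hb hw
  thr := hG.trans h.thr
  loc := h.loc.mono fun _ h1 h2 => h1 (hG h2)

/-! ## 5. AT THE MODEL -/

section model

variable {τ : Type} {c : ℝ} {𝔈 : PvieEng τ} {U : PvkmUnit}

theorem pvdp_norm_a {d : ℂ} (hd : ‖d‖ = 1) (c : ℝ) (m : ℕ) (ε : ℝ) : ‖d * (pvlmDel c m : ℂ)‖ * (ε / pvlmDel c m) = ε := by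
  have h := pvlm_Del_pos c m
  rw [norm_mul, hd, one_mul, Complex.norm_real, Real.norm_of_nonneg h.le]
  field_simp

theorem pvdp_a_ne {d : ℂ} (hd : ‖d‖ = 1) (c : ℝ) (m : ℕ) : d * (pvlmDel c m : ℂ) ≠ 0 :=
  mul_ne_zero (pvth_ne_zero hd) (Complex.ofReal_ne_zero.2 (pvlm_Del_pos c m).ne')

/-- **the usable door plugs of level `m`, colour `b`, at `(z,d)`** = the usable states of the reference family at the mesh `ε / δ_m`, placed at `(z, d δ_m, b)` -/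
theorem pvdp_Gk (hU : PvkmEng 𝔈 c U) (m : ℕ) (ε : ℝ) (b : Bool) (z d : ℂ) (hd : d ≠ 0) :
    pvrgGk 𝔈 m ε b z d = pvdpPl z (d * pvlmDel c m) b (U.kit (ε / pvlmDel c m)).G₀ := by
  unfold pvrgGk
  rw [hU.kit]
  show pvkyFl b ⁻¹' ((U.kit (ε / pvlmDel c m)).sc (pvlmDel c m)).G z d = _
  rw [pvbe_sc_G _ _ z d hd]
  rfl

/-- the region of the door plug of level `m` -/
theorem pvdp_door (hU : PvkmEng 𝔈 c U) (m : ℕ) (ε : ℝ) (z d : ℂ) : pvkyDoor (𝔈.kit m ε) z d = pvthSim z (d * pvlmDel c m) '' (U.kit (ε / pvlmDel c m)).O₀ := by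
  unfold pvkyDoor
  rw [hU.kit]
  exact pvbe_sc_reg _ _ z d

/-- **(b2), DOOR PLUG: THE THRESHOLD OF THE KIT AT THE PLACED SIDE EVENT** -/
theorem pvdp_thr_k (hU : PvkmEng 𝔈 c U) (m : ℕ) (ε : ℝ) (b : Bool) (z d : ℂ) (hd : ‖d‖ = 1) {S : Set (Conf PvPt)} {b₀ : ℝ≥0∞}
    (h : (U.kit (ε / pvlmDel c m)).G₀ ⊆ pvpgThr (pvP (ε / pvlmDel c m)) ((U.kit (ε / pvlmDel c m)).O₀ ×ˢ univ) S b₀) :
    pvrgGk 𝔈 m ε b z d ⊆ {η | b₀ ≤ pvtiP (pvP ε) (pvkyDoor (𝔈.kit m ε) z d ×ˢ univ) (pvdpPl z (d * pvlmDel c m) b S) η} := by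
  rw [pvdp_Gk hU m ε b z d (pvth_ne_zero hd), pvdp_door hU]
  intro η hη
  have h1 := pvdp_Pl_mono z (d * pvlmDel c m) b h hη
  rw [pvdp_thr z _ (pvdp_a_ne hd c m), pvdp_norm_a hd] at h1
  exact h1

/-- **(b2), DOOR PLUG: THE DOOR END OF LEVEL `m`** from the door end of the reference family at the mesh `ε / δ_m`.      `T` = the part of the window of the side event beyond the plug region (reference frame);   ONE region line: the placed `T` lies in door `∪` tile -/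
theorem pvdp_end_k (hU : PvkmEng 𝔈 c U) (m : ℕ) (ε : ℝ) (b : Bool) (z d : ℂ) (hd : ‖d‖ = 1) {S Cd : Set (Conf PvPt)} {T Kb Kw : Set ℂ} {b₀ : ℝ≥0∞}
    (h : PvdpEnd (ε / pvlmDel c m) (U.kit (ε / pvlmDel c m)).O₀ T (U.kit (ε / pvlmDel c m)).G₀ S Cd Kb Kw b₀) {C : Set ℂ} (hC : pvthSim z (d * pvlmDel c m) '' T ⊆ pvkyDoor (𝔈.kit m ε) z d ∪ C) :
    PvdpEnd ε (pvkyDoor (𝔈.kit m ε) z d) C (pvrgGk 𝔈 m ε b z d) (pvdpPl z (d * pvlmDel c m) b S) (pvdpPl z (d * pvlmDel c m) b Cd)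
      (pvthSim z (d * pvlmDel c m) '' (if b then Kb else Kw)) (pvthSim z (d * pvlmDel c m) '' (if b then Kw else Kb)) b₀ := by
  have h1 := h.pl z (d * pvlmDel c m) (pvdp_a_ne hd c m) b
  rw [pvdp_norm_a hd, ← pvdp_door hU, ← pvdp_Gk hU m ε b z d (pvth_ne_zero hd)] at h1
  exact h1.mono (union_subset subset_union_left hC) Subset.rfl subset_union_right subset_union_right

theorem pvdp_sh_eq (z : ℂ) (S : Set ℂ) : pvieSh z S = pvthSim z 1 '' S := by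
  unfold pvieSh pvthSim
  simp only [one_mul]

theorem pvdp_Gr (𝔈 : PvieEng τ) (m : ℕ) (ε : ℝ) (b : Bool) (z : ℂ) : pvrgGr 𝔈 m ε b z = pvdpPl z 1 b (𝔈.rG m ε) := rfl

/-- **(b2), REFERENCE PLUG: THE THRESHOLD AT THE PLACED SIDE EVENT** -/
theorem pvdp_thr_r (𝔈 : PvieEng τ) (m : ℕ) (ε : ℝ) (b : Bool) (z : ℂ) {S : Set (Conf PvPt)} {b₀ : ℝ≥0∞} (h : 𝔈.rG m ε ⊆ pvpgThr (pvP ε) (𝔈.rO m ×ˢ univ) S b₀) :
    pvrgGr 𝔈 m ε b z ⊆ {η | b₀ ≤ pvtiP (pvP ε) (pvieSh z (𝔈.rO m) ×ˢ univ) (pvdpPl z 1 b S) η} := by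
  rw [pvdp_Gr, pvdp_sh_eq]
  intro η hη
  have h1 := pvdp_Pl_mono z 1 b h hη
  rw [pvdp_thr z 1 one_ne_zero, norm_one, one_mul] at h1
  exact h1

/-- **(b2), REFERENCE PLUG: THE DOOR END** from the door end at the centre `0`, black form -/
theorem pvdp_end_r (𝔈 : PvieEng τ) (m : ℕ) (ε : ℝ) (b : Bool) (z : ℂ) {S Cd : Set (Conf PvPt)} {T Kb Kw : Set ℂ} {b₀ : ℝ≥0∞} (h : PvdpEnd ε (𝔈.rO m) T (𝔈.rG m ε) S Cd Kb Kw b₀)
    {C : Set ℂ} (hC : pvieSh z T ⊆ pvieSh z (𝔈.rO m) ∪ C) :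
    PvdpEnd ε (pvieSh z (𝔈.rO m)) C (pvrgGr 𝔈 m ε b z) (pvdpPl z 1 b S) (pvdpPl z 1 b Cd) (pvieSh z (if b then Kb else Kw)) (pvieSh z (if b then Kw else Kb)) b₀ := by
  have h1 := h.pl z 1 one_ne_zero b
  rw [norm_one, one_mul] at h1
  simp only [pvdp_sh_eq] at hC ⊢
  exact h1.mono (union_subset subset_union_left hC) Subset.rfl subset_union_right subset_union_right

end model

/-! ### the producer: the kit of a global datum (34) -/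

section glob

theorem pvdp_sim01 (O : Set ℂ) : pvthSim 0 1 '' O = O := by
  unfold pvthSim
  simp

theorem pvdp_pre_O (𝔊 : PvpgGlob) : 𝔊.pre.O 0 1 = 𝔊.O₀ ×ˢ univ := by
  show (pvthSim 0 1 '' 𝔊.O₀) ×ˢ univ = _
  rw [pvdp_sim01]

/-- BY DEFINITION of the usable states of 34: every half lane `𝔊.H i` of the datum passes the threshold `b` -/
theorem pvdp_glob_thr (𝔊 : PvpgGlob) (μ : Measure (Conf PvPt)) (b q : ℝ≥0∞) (i : Fin 4) : (𝔊.kit μ b q).G₀ ⊆ pvpgThr μ ((𝔊.kit μ b q).O₀ ×ˢ univ) (𝔊.H i) b := by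
  intro η hη
  have h1 : η ∈ pvpgThr μ (𝔊.pre.O 0 1) (𝔊.H i) b := mem_iInter.1 hη.2 i
  rw [pvdp_pre_O] at h1
  exact h1

/-- a.s. a usable state is a plain plug -/
theorem pvdp_glob_loc (𝔊 : PvpgGlob) (e : ℝ) (b q : ℝ≥0∞) (mO : MeasurableSet 𝔊.O₀) (mC : MeasurableSet 𝔊.C) : ∀ᵐ η ∂pvP e, η ∈ (𝔊.kit (pvP e) b q).G₀ → η ∈ 𝔊.C := by
  have h := pvpg_sure_ae (pv_isPpp e) (W := 𝔊.pre.O 0 1) (by rw [pvdp_pre_O]; exact mO.prod MeasurableSet.univ) mC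
  exact h.mono fun η h1 h2 => h1 h2.1

/-- **THE DOOR END OF THE KIT OF A GLOBAL DATUM**: measurability, reader, mixed order of the half lane `i` of the datum (`Hf i = S⁺, S⁻` of 52 / 174) are all that is owed -/
theorem pvdp_end_glob (𝔊 : PvpgGlob) (i : Fin 4) {T Kb Kw : Set ℂ} (mO : MeasurableSet 𝔊.O₀) (mC : MeasurableSet 𝔊.C) (mH : MeasurableSet (𝔊.H i)) (rH : Conf.ReadsSet ((𝔊.O₀ ∪ T) ×ˢ univ) (𝔊.H i))
    (up : PvdpUp (𝔊.O₀ ∪ T) 𝔊.O₀ Kb Kw (𝔊.H i)) (e : ℝ) (b q : ℝ≥0∞) :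
    PvdpEnd e (𝔊.kit (pvP e) b q).O₀ T (𝔊.kit (pvP e) b q).G₀ (𝔊.H i) 𝔊.C Kb Kw b where
  mH := mH
  rH := rH
  up := up
  thr := pvdp_glob_thr 𝔊 (pvP e) b q i
  loc := pvdp_glob_loc 𝔊 e b q mO mC

end glob

/-! ### the regions of the three hybrid ends (from `PvieEng.Wf` alone) -/

section regions

variable {τ : Type} {c : ℝ} {𝔓 : PvxPar τ c} {𝔈 : PvieEng τ} {m0 : ℕ} {Cth : ℝ} {r κs : ℕ → ℝ}

theorem pvdp_Do_sh (𝔓 : PvxPar τ c) (𝔈 : PvieEng τ) (m : ℕ) (ε : ℝ) (z : ℂ) (t : τ) : pvkyDoor (𝔈.kit m ε) (pvieZo 𝔓 m z t) ((𝔓.Γ m).dout t) = pvieSh z (pviwDo 𝔓 𝔈 m ε t) := by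
  unfold pvkyDoor pviwDo pvieDoor pvieZo
  rw [pvjh_sh_sim]

theorem pvdp_Di_sh (𝔓 : PvxPar τ c) (𝔈 : PvieEng τ) (m : ℕ) (ε : ℝ) (z : ℂ) (t : τ) : pvkyDoor (𝔈.kit m ε) (pvieZi 𝔓 m z t) ((𝔓.Γ m).din t) = pvieSh z (pviwDi 𝔓 𝔈 m ε t) := by
  unfold pvkyDoor pviwDi pvieDoor pvieZi
  rw [pvjh_sh_sim]

/-- first link: `hDC`, `hDy` of (F1) -/
theorem pvdp_o_disj (H : PvieEng.Wf 𝔓 𝔈 m0 Cth r κs) {m : ℕ} (hm : m0 ≤ m) (ε : ℝ) (z : ℂ) {t : τ} (ht : pviwTyOk 𝔓 t) :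
    Disjoint (pvkyDoor (𝔈.kit m ε) (pvieZo 𝔓 m z t) ((𝔓.Γ m).dout t)) (pvieSh z (𝔈.oK m t)) ∧ Disjoint (pvkyDoor (𝔈.kit m ε) (pvieZo 𝔓 m z t) ((𝔓.Γ m).dout t)) (pvieSh z (𝔈.oM m t)) := by
  have h := H.o_disj m hm ε t ht
  simp only [List.pairwise_cons, List.mem_cons, forall_eq_or_imp, List.not_mem_nil, IsEmpty.forall_iff, implies_true, List.Pairwise.nil, and_true] at h
  rw [pvdp_Do_sh, pvjh_sh_disj, pvjh_sh_disj]
  exact ⟨h.2.symm, h.1.2.symm⟩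

/-- last link -/
theorem pvdp_i_disj (H : PvieEng.Wf 𝔓 𝔈 m0 Cth r κs) {m : ℕ} (hm : m0 ≤ m) (ε : ℝ) (z : ℂ) {t : τ} (ht : pviwTyOk 𝔓 t) :
    Disjoint (pvkyDoor (𝔈.kit m ε) (pvieZi 𝔓 m z t) ((𝔓.Γ m).din t)) (pvieSh z (𝔈.iK m t)) ∧ Disjoint (pvkyDoor (𝔈.kit m ε) (pvieZi 𝔓 m z t) ((𝔓.Γ m).din t)) (pvieSh z (𝔈.iM m t)) := by
  have h := H.i_disj m hm ε t ht
  simp only [List.pairwise_cons, List.mem_cons, forall_eq_or_imp, List.not_mem_nil, IsEmpty.forall_iff, implies_true, List.Pairwise.nil, and_true] at h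
  rw [pvdp_Di_sh, pvjh_sh_disj, pvjh_sh_disj]
  exact ⟨h.2.symm, h.1.2.symm⟩

/-- thick link -/
theorem pvdp_e_disj (H : PvieEng.Wf 𝔓 𝔈 m0 Cth r κs) {m : ℕ} (hm : m0 ≤ m) (ε : ℝ) (z : ℂ) {t : τ} (ht : pviwTyOk 𝔓 t) :
    Disjoint (pvieSh (pvieZu 𝔓 m z t) (𝔈.rO m)) (pvieSh z (𝔈.eK m t)) ∧ Disjoint (pvieSh (pvieZu 𝔓 m z t) (𝔈.rO m)) (pvieSh z (𝔈.eM m t)) :=
  ⟨(pvjh_disj H hm ε z ht).KeRo.symm, (pvjh_disj H hm ε z ht).MeRo.symm⟩

/-- `hDy` of (F1) for a constant fresh set `mouth \ F` -/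
theorem pvdp_hDy {D M : Set ℂ} (h : Disjoint D M) (Y F : Set ℂ) : Disjoint (Y ∩ D) (M \ F) :=
  (h.mono_left inter_subset_right).mono_right sdiff_subset

end regions

/-! ## 6. THE SIDE EVENTS OF 174, PLACED: ONE CALL PER FIELD (any plug, any truncation, any frame `(z, a, c)`, no numeral) -/

section side

variable {𝔭 : PvkdPlug} {𝔱 : PvhfTr}

theorem pvdp_H_zero (𝔭 : PvkdPlug) (𝔱 : PvhfTr) : pvhfH 𝔭 𝔱 0 = pvhfS 𝔭 𝔱 true := rfl
theorem pvdp_H_two (𝔭 : PvkdPlug) (𝔱 : PvhfTr) : pvhfH 𝔭 𝔱 2 = pvhfS 𝔭 𝔱 false := rfl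

/-- the index of the side `σ` among the four half lanes of the datum -/
def pvdpIx (σ : Bool) : Fin 4 := if σ then 0 else 2

theorem pvdp_eqns_cite3 : True := by
  have := @pvdpIx.eq_1
  trivial

theorem pvdp_H_ix (𝔭 : PvkdPlug) (𝔱 : PvhfTr) (σ : Bool) : pvhfH 𝔭 𝔱 (pvdpIx σ) = pvhfS 𝔭 𝔱 σ := by
  cases σ <;> rfl

/-- **the side event `S^σ` is up**, reference frame: window `Es σ`, frozen window `Ew` of the plug, rooms of the two lanes -/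
theorem pvdp_side_up (hG : PvhfGeo 𝔭 𝔱) (σ : Bool) : PvdpUp (𝔱.Es σ) 𝔭.Ew (𝔱.Ln σ true) (𝔱.Ln σ false) (pvhfS 𝔭 𝔱 σ) := (pvhf_S_is hG σ).pvdp_up (hG.wf σ)

/-- **placed**: the black half of the order carries the room of the lane of colour `c`, the white half the room of the lane of colour `!c` -/
theorem pvdp_side_up_pl (hG : PvhfGeo 𝔭 𝔱) (σ : Bool) (z a : ℂ) (ha : a ≠ 0) (c : Bool) :
    PvdpUp (pvthSim z a '' 𝔱.Es σ) (pvthSim z a '' 𝔭.Ew) (pvthSim z a '' 𝔱.Ln σ c) (pvthSim z a '' 𝔱.Ln σ (!c)) (pvdpPl z a c (pvhfS 𝔭 𝔱 σ)) := by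
  have h := (pvdp_side_up hG σ).pl z a ha c
  cases c
  · exact h
  · exact h

/-- **[mH]** -/
theorem pvdp_side_meas (hG : PvhfGeo 𝔭 𝔱) (σ : Bool) (z a : ℂ) (c : Bool) : MeasurableSet (pvdpPl z a c (pvhfS 𝔭 𝔱 σ)) := pvdp_meas z a c ((pvhf_S_is hG σ).meas (hG.wf σ))

/-- **[rH]** from ONE inclusion of regions -/
theorem pvdp_side_reads (hG : PvhfGeo 𝔭 𝔱) (σ : Bool) (z a : ℂ) (ha : a ≠ 0) (c : Bool) {W : Set ℂ} (hW : pvthSim z a '' 𝔱.Es σ ⊆ W) : Conf.ReadsSet (W ×ˢ univ) (pvdpPl z a c (pvhfS 𝔭 𝔱 σ)) :=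
  (pvdp_reads z a ha c (pvhf_rS hG σ)).mono (prod_mono hW Subset.rfl)

/-- **[up], THE `ℋ` HALF, VERBATIM THE GUARDS OF `PvjeTest.Ok.up` (35) / `PvjpDoor.up` (248)**: `D` = the region of the plug (it contains the placed `Ew`), `W` = any window which contains the placed `Es σ`;
`Kb Kw` = ANY disjoint halves which contain the placed rooms off `D` -/
theorem pvdp_side_sec (hG : PvhfGeo 𝔭 𝔱) (σ : Bool) (z a : ℂ) (ha : a ≠ 0) (c : Bool) {D W : Set ℂ} (hEw : pvthSim z a '' 𝔭.Ew ⊆ D) (hW : pvthSim z a '' 𝔱.Es σ ⊆ W) {Y Fz Kb Kw : Set ℂ} (s : ℂ → Bool)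
    (hY : ∃ η : Conf PvPt, PvatNice (cfSites η) ∧ cfSites η ∩ W = Y ∩ W) (hfz : ∀ v ∈ Y, v ∈ D → v ∈ Fz) (hd : Disjoint Kb Kw)
    (hb : pvthSim z a '' 𝔱.Ln σ c \ D ⊆ Kb) (hw : pvthSim z a '' 𝔱.Ln σ (!c) \ D ⊆ Kw) : PvlhUp (pvlhSg Y Kb Kw) (pvlhSec Y Fz s (pvdpPl z a c (pvhfS 𝔭 𝔱 σ))) := by
  refine (pvdp_side_up_pl hG σ z a ha c).sec s ((pvdp_ext_of_nice hY).mono hW) hd (fun v hv => hfz v hv.1 (hEw hv.2)) (fun v hv => ?_) (fun v hv => ?_)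
  · by_cases hvD : v ∈ D
    · exact Or.inl (hfz v hv.1 hvD)
    · exact Or.inr (hb ⟨hv.2, hvD⟩)
  · by_cases hvD : v ∈ D
    · exact Or.inl (hfz v hv.1 hvD)
    · exact Or.inr (hw ⟨hv.2, hvD⟩)

/-- **THE DOOR END OF THE UNIT KIT** of the datum `𝔤.glob (pvhfH 𝔤 𝔱)`, side `σ`, reference frame -/
theorem pvdp_end_side (𝔤 : PvkdGeo) (hG : PvhfGeo 𝔤.toPvkdPlug 𝔱) (mO : MeasurableSet 𝔤.O₀) (mC : MeasurableSet (𝔤.C 0 1)) (hEw : 𝔤.Ew ⊆ 𝔤.O₀) (σ : Bool) (e : ℝ) (b q : ℝ≥0∞) :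
    PvdpEnd e ((𝔤.glob (pvhfH 𝔤.toPvkdPlug 𝔱)).kit (pvP e) b q).O₀ (𝔱.Es σ) ((𝔤.glob (pvhfH 𝔤.toPvkdPlug 𝔱)).kit (pvP e) b q).G₀ (pvhfS 𝔤.toPvkdPlug 𝔱 σ) (𝔤.C 0 1) (𝔱.Ln σ true) (𝔱.Ln σ false) b := by
  have h := pvdp_end_glob (𝔤.glob (pvhfH 𝔤.toPvkdPlug 𝔱)) (pvdpIx σ) (T := 𝔱.Es σ) (Kb := 𝔱.Ln σ true) (Kw := 𝔱.Ln σ false) mO mC (pvhf_mH hG _)
    (by
      show Conf.ReadsSet ((𝔤.O₀ ∪ 𝔱.Es σ) ×ˢ univ) (pvhfH 𝔤.toPvkdPlug 𝔱 (pvdpIx σ))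
      rw [pvdp_H_ix]
      exact (pvhf_rS hG σ).mono (prod_mono subset_union_right Subset.rfl))
    (by
      show PvdpUp (𝔤.O₀ ∪ 𝔱.Es σ) 𝔤.O₀ (𝔱.Ln σ true) (𝔱.Ln σ false) (pvhfH 𝔤.toPvkdPlug 𝔱 (pvdpIx σ))
      rw [pvdp_H_ix]
      exact (pvdp_side_up hG σ).mono subset_union_right hEw subset_union_right subset_union_right) e b q
  have e1 : (𝔤.glob (pvhfH 𝔤.toPvkdPlug 𝔱)).H (pvdpIx σ) = pvhfS 𝔤.toPvkdPlug 𝔱 σ := pvdp_H_ix _ _ σ
  rw [e1] at h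
  exact h

/-- another plain plug -/
theorem PvdpEnd.loc_of {ε : ℝ} {D C : Set ℂ} {G ℋ Cd Cd' : Set (Conf PvPt)} {Kb Kw : Set ℂ} {b₀ : ℝ≥0∞} (h : PvdpEnd ε D C G ℋ Cd Kb Kw b₀) (hl : ∀ᵐ η ∂pvP ε, η ∈ G → η ∈ Cd') : PvdpEnd ε D C G ℋ Cd' Kb Kw b₀ :=
  ⟨h.mH, h.rH, h.up, h.thr, hl⟩

theorem pvdp_Pl_true (z a : ℂ) (S : Set (Conf PvPt)) : pvdpPl z a true S = cfMap (pvthInv z a) ⁻¹' S := rfl

/-- two frames, one colour, events -/
theorem pvdp_Pl_comp (z a z' a' : ℂ) (ha : a ≠ 0) (c : Bool) (S : Set (Conf PvPt)) : pvdpPl z a c (pvdpPl z' a' true S) = pvdpPl (z + a * z') (a * a') c S := by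
  ext η
  show cfMap (pvthInv z' a') (pvdpT z a c η) ∈ S ↔ _
  rw [pvdp_T_comp z a z' a' ha]
  rfl

/-- **THE DOOR END OF A PLUG OF THE UNIT DATUM AT THE SCALE `s`, REGION `W`** (recipe of 31 for the reference plug: sure / thresholds GIVEN ALL OF `W`), centre `0`, black form;   feed it to `pvdp_end_r` -/
theorem pvdp_end_scaled (hG : PvhfGeo 𝔭 𝔱) (σ : Bool) {s : ℂ} (hs : s ≠ 0) {W : Set ℂ} (mW : MeasurableSet W) (hEw : pvthSim 0 s '' 𝔭.Ew ⊆ W) {Cp : Set (Conf PvPt)} (mC : MeasurableSet Cp)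
    {ε : ℝ} {G : Set (Conf PvPt)} {b : ℝ≥0∞} (hsure : G ⊆ pvpgSure (pvP ε) (W ×ˢ univ) (pvdpPl 0 s true Cp)) (hthr : G ⊆ pvpgThr (pvP ε) (W ×ˢ univ) (pvdpPl 0 s true (pvhfS 𝔭 𝔱 σ)) b) :
    PvdpEnd ε W (pvthSim 0 s '' 𝔱.Es σ) G (pvdpPl 0 s true (pvhfS 𝔭 𝔱 σ)) (pvdpPl 0 s true Cp) (pvthSim 0 s '' 𝔱.Ln σ true) (pvthSim 0 s '' 𝔱.Ln σ false) b where
  mH := pvdp_side_meas hG σ 0 s true
  rH := pvdp_side_reads hG σ 0 s hs true subset_union_right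
  up := (pvdp_side_up_pl hG σ 0 s hs true).mono subset_union_right hEw subset_union_right subset_union_right
  thr := hthr
  loc := (pvpg_sure_ae (pv_isPpp ε) (mW.prod MeasurableSet.univ) (pvdp_meas 0 s true mC)).mono fun _ h1 h2 => h1 (hsure h2)

end side

end Claimed.Agent.R289
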