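import Claimed.Agent.R289.Tr.StopM
import Claimed.Agent.R289.Tr.InstL
import Claimed.Agent.R289.Defs.InstWf

/-!
# Row 289 (S0537), THE WALL, ROAD E, file Tr/StopL : `PvdyStop` AT THE NAMES OF `Tr/InstL` v2.1      (helper96; leaf (K1) of 7 / 223, field `stop` of `Pvcy1At` of 188; prefix `pvsml`, `Pvsml`)      0 sorry

The recoloured sets of record `mouth \ F` (`F = pvilFzO`, `pvilFzI`: EMPTY where the half state does not exist) are NOT stopping choices as they stand: they have to be GUARDED (`pvsmGd U yf`: `∅` off `U`);   `pvdyR`, `pvdyHat` read the choice at the base only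
(`pvsm_R_congr`, `pvsm_hat_congr`, `pvsm_hat_gd` of `Tr/StopM`), so the guard is free on `U`.
* sec. 1  twins `PvsmlOut PvsmlIn PvsmlAt` of `PvilOut PvilIn PvilAt` on (site set, colour view): `pvsml_out_iff _in_iff _at_iff`;   cylinders `.congr`, uniqueness `.fz_eq` (any frame `fr ≠ 0`), `.fin`
* sec. 2  the base data at a fixed geometry: `pvsml_FzO_cfOf _FzI_cfOf _U_cfOf _Uo_cfOf _Ui_cfOf`, `PvsmlOut.FzO`, `PvsmlIn.FzI`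
* sec. 3  ONE plug, both mouths, guard = FULL state: **`pvsml_stop_one'`** (state-relative), **`pvsml_stop_one`** (standard frame, mouths inside `closedBall y^± (2 ρ h)`)
* sec. 4  TWO plugs, guard = the two HALF states: **`pvsml_stop_two'`**
* sec. 5  at the data of record: **`pvsml_stop_pin`**;   cycle: `pvsmlCyc`, `pvsml_cyc_eq`, **`pvsml_cyc_stop`**, **`pvsml_cyc_leaf`** (= field `stop` of `Pvcy1At` verbatim);   chain: `pvsmlCh`, `pvsml_ch_eq`, **`pvsml_ch_stop'`**.      Thick: `Tr/StopLT.lean`.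
-/

set_option autoImplicit false
set_option linter.unusedSectionVars false

namespace Claimed.Agent.R289

open Set MeasureTheory Claims.C0465
open scoped ENNReal ComplexConjugate

/-! ## 1. twins of the half states of `Tr/InstL` on (site set, colour view) -/

/-- positions in the frame of the plug, at the site set `Y` -/
noncomputable def pvsmlPos (p : PvilPl) (Y : Set ℂ) : ↥Y → ℂ := fun v => conj p.fr * pvcwPos Y v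

theorem pvsml_pos_inj {p : PvilPl} (hp : p.fr ≠ 0) (Y : Set ℂ) : Function.Injective (pvsmlPos p Y) := by
  intro u v h
  have h1 : conj p.fr ≠ 0 := by simpa using hp
  exact Subtype.val_injective (mul_left_cancel₀ h1 h)

/-- twin of `PvilOut` -/
structure PvsmlOut (N : PvwNum) (p : PvilPl) (Y : Set ℂ) (s : ↥Y → Bool) (𝔖 : PvwSt (pvcwT Y)) : Prop where
  good : DelGood Y
  st : 𝔖.AtOut (pvsmlPos p Y) N p.h p.zf p.ty s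
  tip : pvcwPos Y ((pvcwT Y).src (𝔖.ep 𝔖.np)) ∈ p.cp
  mask : ∀ y : (pvcwT Y).Pth, PvwLE (pvcwT Y) (fun i => (pvcwT Y).src (𝔖.ep i)) 𝔖.np y → ∀ v ∈ y.verts, pvcwPos Y v ∈ p.Mp
  mask_i : ∀ i, 𝔖.ip ≤ i → i ≤ 𝔖.inn.n → (N.m - 1) * p.h < ‖pvcwPos Y (𝔖.inn.v i) - p.z‖ → pvcwPos Y (𝔖.inn.v i) ∈ p.Mp
  lev0 : p.lev

/-- twin of `PvilIn` -/
structure PvsmlIn (N : PvwNum) (p : PvilPl) (Y : Set ℂ) (s : ↥Y → Bool) (𝔖 : PvwSt (pvcwT Y)) : Prop where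
  good : DelGood Y
  st : 𝔖.AtIn (pvsmlPos p Y) N p.h p.zf p.ty s
  tip : pvcwPos Y ((pvcwT Y).src (𝔖.em 𝔖.nm)) ∈ p.cm
  mask : ∀ y : (pvcwT Y).Pth, PvwLE (pvcwT Y) (fun i => (pvcwT Y).src (𝔖.em i)) 𝔖.nm y → ∀ v ∈ y.verts, pvcwPos Y v ∈ p.Mm
  mask_i : ∀ i, i ≤ 𝔖.ip → (N.m - 1) * p.h < ‖pvcwPos Y (𝔖.inn.v i) - p.z‖ → pvcwPos Y (𝔖.inn.v i) ∈ p.Mm
  lev0 : p.lev

/-- twin of `PvilAt` -/
structure PvsmlAt (N : PvwNum) (p : PvilPl) (Y : Set ℂ) (s : ↥Y → Bool) (𝔖 : PvwSt (pvcwT Y)) : Prop where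
  out : PvsmlOut N p Y s 𝔖
  inn : PvsmlIn N p Y s 𝔖
  far_p : ∀ v ∈ 𝔖.fzIn, 2 * N.rho * p.h < ‖pvsmlPos p Y v - p.ty.cp p.h p.zf‖
  far_m : ∀ v ∈ 𝔖.fzOut, 2 * N.rho * p.h < ‖pvsmlPos p Y v - p.ty.cm p.h p.zf‖

theorem pvsml_out_iff (N : PvwNum) (b : Bool) (p : PvilPl) (η : Conf PvPt) (𝔖 : PvwSt (pvieT η)) :
    PvilOut N b p η 𝔖 ↔ PvsmlOut N p (cfSites η) (pvcwCol (cfSites η) (cfCol η) b) 𝔖 :=
  ⟨fun h => ⟨h.good, h.st, h.tip, h.mask, h.mask_i, h.lev0⟩, fun h => ⟨h.good, h.st, h.tip, h.mask, h.mask_i, h.lev0⟩⟩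

theorem pvsml_in_iff (N : PvwNum) (b : Bool) (p : PvilPl) (η : Conf PvPt) (𝔖 : PvwSt (pvieT η)) :
    PvilIn N b p η 𝔖 ↔ PvsmlIn N p (cfSites η) (pvcwCol (cfSites η) (cfCol η) b) 𝔖 :=
  ⟨fun h => ⟨h.good, h.st, h.tip, h.mask, h.mask_i, h.lev0⟩, fun h => ⟨h.good, h.st, h.tip, h.mask, h.mask_i, h.lev0⟩⟩

theorem pvsml_at_iff (N : PvwNum) (b : Bool) (p : PvilPl) (η : Conf PvPt) (𝔖 : PvwSt (pvieT η)) :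
    PvilAt N b p η 𝔖 ↔ PvsmlAt N p (cfSites η) (pvcwCol (cfSites η) (cfCol η) b) 𝔖 :=
  ⟨fun h => ⟨(pvsml_out_iff N b p η 𝔖).1 h.out, (pvsml_in_iff N b p η 𝔖).1 h.inn, h.far_p, h.far_m⟩,
    fun h => ⟨(pvsml_out_iff N b p η 𝔖).2 h.out, (pvsml_in_iff N b p η 𝔖).2 h.inn, h.far_p, h.far_m⟩⟩

section kit

variable {N : PvwNum} {p : PvilPl} {Y : Set ℂ} {s s' : ↥Y → Bool} {𝔖 𝔖' : PvwSt (pvcwT Y)}

theorem PvsmlOut.congr (h : PvsmlOut N p Y s 𝔖) (hs : PvwAgree 𝔖.fzOut s s') : PvsmlOut N p Y s' 𝔖 :=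
  ⟨h.good, pvwk_atOut_congr (delb_plane_isSph h.good) h.st hs, h.tip, h.mask, h.mask_i, h.lev0⟩

theorem PvsmlIn.congr (h : PvsmlIn N p Y s 𝔖) (hs : PvwAgree 𝔖.fzIn s s') : PvsmlIn N p Y s' 𝔖 :=
  ⟨h.good, pvwk_atIn_congr (delb_plane_isSph h.good) h.st hs, h.tip, h.mask, h.mask_i, h.lev0⟩

theorem PvsmlAt.congr (h : PvsmlAt N p Y s 𝔖) (hs : PvwAgree 𝔖.fz s s') : PvsmlAt N p Y s' 𝔖 :=
  ⟨h.out.congr (pvwk_agree_mono (pvwk_fzOut_sub_fz 𝔖) hs), h.inn.congr (pvwk_agree_mono (pvwk_fzIn_sub_fz 𝔖) hs), h.far_p, h.far_m⟩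

theorem PvsmlOut.fz_eq (hp : p.fr ≠ 0) (h : PvsmlOut N p Y s 𝔖) (h' : PvsmlOut N p Y s 𝔖') : 𝔖.fzOut = 𝔖'.fzOut := by
  obtain ⟨k1, k2⟩ := pvuq_atOut (delb_plane_isSph h.good) (pvgy_m_simple Y) (pvsml_pos_inj hp Y) h.st h'.st
  exact k1.fzOut k2

theorem PvsmlIn.fz_eq (hp : p.fr ≠ 0) (h : PvsmlIn N p Y s 𝔖) (h' : PvsmlIn N p Y s 𝔖') : 𝔖.fzIn = 𝔖'.fzIn := by
  obtain ⟨k1, k2⟩ := pvuq_atIn (delb_plane_isSph h.good) (pvgy_m_simple Y) (pvsml_pos_inj hp Y) h.st h'.st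
  exact k1.fzIn k2

theorem PvsmlOut.fin (h : PvsmlOut N p Y s 𝔖) : 𝔖.fzOut.Finite := pvwk_fzOut_finite 𝔖 h.st.gate.core_fin

theorem PvsmlIn.fin (h : PvsmlIn N p Y s 𝔖) : 𝔖.fzIn.Finite := pvwk_fzIn_finite 𝔖 h.st.gate.core_fin

end kit

/-! ## 2. the base data `F` at a fixed geometry -/

theorem pvsml_FzO_cfOf (N : PvwNum) (b : Bool) (p : PvilPl) (Y : Set ℂ) (σ : ℂ → Bool) :
    pvilFzO N b p (cfOf Y σ) = {v | ∃ 𝔖 : PvwSt (pvcwT Y), PvsmlOut N p Y (pvcwCol Y σ b) 𝔖 ∧ v ∈ pvsmP 𝔖.fzOut} := by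
  have e : ∀ η, pvilFzO N b p η = (fun (Y : Set ℂ) (col : Bool → ↥Y → Bool) => {v | ∃ 𝔖 : PvwSt (pvcwT Y), PvsmlOut N p Y (col b) 𝔖 ∧ v ∈ pvsmP 𝔖.fzOut})
      (cfSites η) (pvcwCol _ (cfCol η)) := by
    intro η
    ext v
    constructor
    · rintro ⟨𝔖, h1, u, hu, rfl⟩
      exact ⟨𝔖, (pvsml_out_iff N b p η 𝔖).1 h1, u, hu, rfl⟩
    · rintro ⟨𝔖, h1, u, hu, rfl⟩
      exact ⟨𝔖, (pvsml_out_iff N b p η 𝔖).2 h1, u, hu, rfl⟩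
  rw [e]
  exact pvcw_cfOf (fun (Y : Set ℂ) (col : Bool → ↥Y → Bool) => {v | ∃ 𝔖 : PvwSt (pvcwT Y), PvsmlOut N p Y (col b) 𝔖 ∧ v ∈ pvsmP 𝔖.fzOut}) Y σ

theorem pvsml_FzI_cfOf (N : PvwNum) (b : Bool) (p : PvilPl) (Y : Set ℂ) (σ : ℂ → Bool) :
    pvilFzI N b p (cfOf Y σ) = {v | ∃ 𝔖 : PvwSt (pvcwT Y), PvsmlIn N p Y (pvcwCol Y σ b) 𝔖 ∧ v ∈ pvsmP 𝔖.fzIn} := by
  have e : ∀ η, pvilFzI N b p η = (fun (Y : Set ℂ) (col : Bool → ↥Y → Bool) => {v | ∃ 𝔖 : PvwSt (pvcwT Y), PvsmlIn N p Y (col b) 𝔖 ∧ v ∈ pvsmP 𝔖.fzIn})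
      (cfSites η) (pvcwCol _ (cfCol η)) := by
    intro η
    ext v
    constructor
    · rintro ⟨𝔖, h1, u, hu, rfl⟩
      exact ⟨𝔖, (pvsml_in_iff N b p η 𝔖).1 h1, u, hu, rfl⟩
    · rintro ⟨𝔖, h1, u, hu, rfl⟩
      exact ⟨𝔖, (pvsml_in_iff N b p η 𝔖).2 h1, u, hu, rfl⟩
  rw [e]
  exact pvcw_cfOf (fun (Y : Set ℂ) (col : Bool → ↥Y → Bool) => {v | ∃ 𝔖 : PvwSt (pvcwT Y), PvsmlIn N p Y (col b) 𝔖 ∧ v ∈ pvsmP 𝔖.fzIn}) Y σ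

theorem pvsml_U_cfOf (N : PvwNum) (b : Bool) (p : PvilPl) (Y : Set ℂ) (σ : ℂ → Bool) :
    cfOf Y σ ∈ pvilU N b p ↔ ∃ 𝔖 : PvwSt (pvcwT Y), PvsmlAt N p Y (pvcwCol Y σ b) 𝔖 := by
  have e : ∀ η, (η ∈ pvilU N b p) = (fun (Y : Set ℂ) (col : Bool → ↥Y → Bool) => ∃ 𝔖 : PvwSt (pvcwT Y), PvsmlAt N p Y (col b) 𝔖) (cfSites η) (pvcwCol _ (cfCol η)) := by
    intro η
    refine propext ⟨?_, ?_⟩
    · rintro ⟨𝔖, h1⟩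
      exact ⟨𝔖, (pvsml_at_iff N b p η 𝔖).1 h1⟩
    · rintro ⟨𝔖, h1⟩
      exact ⟨𝔖, (pvsml_at_iff N b p η 𝔖).2 h1⟩
  rw [e]
  exact Iff.of_eq (pvcw_cfOf (fun (Y : Set ℂ) (col : Bool → ↥Y → Bool) => ∃ 𝔖 : PvwSt (pvcwT Y), PvsmlAt N p Y (col b) 𝔖) Y σ)

theorem pvsml_Uo_cfOf (N : PvwNum) (b : Bool) (p : PvilPl) (Y : Set ℂ) (σ : ℂ → Bool) :
    cfOf Y σ ∈ pvilUo N b p ↔ ∃ 𝔖 : PvwSt (pvcwT Y), PvsmlOut N p Y (pvcwCol Y σ b) 𝔖 := by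
  have e : ∀ η, (η ∈ pvilUo N b p) = (fun (Y : Set ℂ) (col : Bool → ↥Y → Bool) => ∃ 𝔖 : PvwSt (pvcwT Y), PvsmlOut N p Y (col b) 𝔖) (cfSites η) (pvcwCol _ (cfCol η)) := by
    intro η
    refine propext ⟨?_, ?_⟩
    · rintro ⟨𝔖, h1⟩
      exact ⟨𝔖, (pvsml_out_iff N b p η 𝔖).1 h1⟩
    · rintro ⟨𝔖, h1⟩
      exact ⟨𝔖, (pvsml_out_iff N b p η 𝔖).2 h1⟩
  rw [e]
  exact Iff.of_eq (pvcw_cfOf (fun (Y : Set ℂ) (col : Bool → ↥Y → Bool) => ∃ 𝔖 : PvwSt (pvcwT Y), PvsmlOut N p Y (col b) 𝔖) Y σ)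

theorem pvsml_Ui_cfOf (N : PvwNum) (b : Bool) (p : PvilPl) (Y : Set ℂ) (σ : ℂ → Bool) :
    cfOf Y σ ∈ pvilUi N b p ↔ ∃ 𝔖 : PvwSt (pvcwT Y), PvsmlIn N p Y (pvcwCol Y σ b) 𝔖 := by
  have e : ∀ η, (η ∈ pvilUi N b p) = (fun (Y : Set ℂ) (col : Bool → ↥Y → Bool) => ∃ 𝔖 : PvwSt (pvcwT Y), PvsmlIn N p Y (col b) 𝔖) (cfSites η) (pvcwCol _ (cfCol η)) := by
    intro η
    refine propext ⟨?_, ?_⟩
    · rintro ⟨𝔖, h1⟩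
      exact ⟨𝔖, (pvsml_in_iff N b p η 𝔖).1 h1⟩
    · rintro ⟨𝔖, h1⟩
      exact ⟨𝔖, (pvsml_in_iff N b p η 𝔖).2 h1⟩
  rw [e]
  exact Iff.of_eq (pvcw_cfOf (fun (Y : Set ℂ) (col : Bool → ↥Y → Bool) => ∃ 𝔖 : PvwSt (pvcwT Y), PvsmlIn N p Y (col b) 𝔖) Y σ)

/-- the frozen positions are those of ANY representative of the half state -/
theorem PvsmlOut.FzO {N : PvwNum} {p : PvilPl} {Y : Set ℂ} {σ : ℂ → Bool} {b : Bool} {𝔖 : PvwSt (pvcwT Y)} (hp : p.fr ≠ 0) (h : PvsmlOut N p Y (pvcwCol Y σ b) 𝔖) :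
    pvilFzO N b p (cfOf Y σ) = pvsmP 𝔖.fzOut := by
  rw [pvsml_FzO_cfOf]
  ext v
  constructor
  · rintro ⟨𝔖', h1, h2⟩
    rw [h1.fz_eq hp h] at h2; exact h2
  · exact fun hv => ⟨𝔖, h, hv⟩

theorem PvsmlIn.FzI {N : PvwNum} {p : PvilPl} {Y : Set ℂ} {σ : ℂ → Bool} {b : Bool} {𝔖 : PvwSt (pvcwT Y)} (hp : p.fr ≠ 0) (h : PvsmlIn N p Y (pvcwCol Y σ b) 𝔖) :
    pvilFzI N b p (cfOf Y σ) = pvsmP 𝔖.fzIn := by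
  rw [pvsml_FzI_cfOf]
  ext v
  constructor
  · rintro ⟨𝔖', h1, h2⟩
    rw [h1.fz_eq hp h] at h2; exact h2
  · exact fun hv => ⟨𝔖, h, hv⟩

/-! ## 3. ONE plug, both mouths, guarded by the FULL state      (the `Σ₁` cycle, the thick pair) -/

/-- **STOP, ONE PLUG, BOTH MOUTHS, GUARD = THE FULL STATE**, state-relative form: the exit frozen sites miss the entrance mouth `Mi`, the entrance frozen sites miss the exit mouth `Mo` -/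
theorem pvsml_stop_one' (N : PvwNum) (b : Bool) {p : PvilPl} (hp : p.fr ≠ 0) {Mo Mi : Set ℂ}
    (hi : ∀ (Y : Set ℂ) (s : ↥Y → Bool) (𝔖 : PvwSt (pvcwT Y)), PvsmlAt N p Y s 𝔖 → ∀ v ∈ 𝔖.fzOut, v.1 ∉ Mi)
    (ho : ∀ (Y : Set ℂ) (s : ↥Y → Bool) (𝔖 : PvwSt (pvcwT Y)), PvsmlAt N p Y s 𝔖 → ∀ v ∈ 𝔖.fzIn, v.1 ∉ Mo) :
    PvdyStop (pvsmGd (pvilU N b p) fun η => Mo \ pvilFzO N b p η ∪ Mi \ pvilFzI N b p η) := by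
  refine pvsm_stop (Sg := fun Y => PvwSt (pvcwT Y)) (fun Y σ 𝔖 => PvsmlAt N p Y (pvcwCol Y σ b) 𝔖) (fun Y 𝔖 => pvsmP 𝔖.fz)
    (fun Y 𝔖 => Mo \ pvsmP 𝔖.fzOut ∪ Mi \ pvsmP 𝔖.fzIn) ?_ ?_ ?_ ?_ ?_ ?_
  · intro Y σ
    by_cases hU : cfOf Y σ ∈ pvilU N b p
    · rw [pvsm_gd_mem hU]
      obtain ⟨𝔖, hS⟩ := (pvsml_U_cfOf N b p Y σ).1 hU
      show Mo \ pvilFzO N b p (cfOf Y σ) ∪ Mi \ pvilFzI N b p (cfOf Y σ) = _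
      rw [hS.out.FzO hp, hS.inn.FzI hp]
      ext v
      constructor
      · exact fun hv => ⟨𝔖, hS, hv⟩
      · rintro ⟨𝔖', h', hv⟩
        rw [h'.out.fz_eq hp hS.out, h'.inn.fz_eq hp hS.inn] at hv
        exact hv
    · rw [pvsm_gd_notMem hU]
      ext v
      simp only [mem_empty_iff_false, false_iff]
      rintro ⟨𝔖, h1, -⟩
      exact hU ((pvsml_U_cfOf N b p Y σ).2 ⟨𝔖, h1⟩)
  · intro Y σ 𝔖 h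
    exact (h.out.fin.union h.inn.fin).image _
  · intro Y σ 𝔖 _
    exact pvsm_P_sub _
  · intro Y σ σ' 𝔖 h h'
    exact h.congr (pvsm_agree h' b)
  · intro Y σ 𝔖 𝔖' h h'
    show Mo \ pvsmP 𝔖.fzOut ∪ Mi \ pvsmP 𝔖.fzIn = Mo \ pvsmP 𝔖'.fzOut ∪ Mi \ pvsmP 𝔖'.fzIn
    rw [h.out.fz_eq hp h'.out, h.inn.fz_eq hp h'.inn]
  · intro Y σ 𝔖 h
    refine Set.disjoint_left.2 ?_
    rintro _ ⟨v, hv, rfl⟩ (⟨h1, h2⟩ | ⟨h1, h2⟩)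
    · rcases hv with hv | hv
      · exact h2 ⟨v, hv, rfl⟩
      · exact ho Y _ 𝔖 h v hv h1
    · rcases hv with hv | hv
      · exact hi Y _ 𝔖 h v hv h1
      · exact h2 ⟨v, hv, rfl⟩

/-- the same, standard frame, mouths inside the protected balls `closedBall y^± (2 ρ h)` (`far_p`, `far_m`) -/
theorem pvsml_stop_one (N : PvwNum) (b : Bool) {p : PvilPl} (hp : p.fr = 1) {Mo Mi : Set ℂ} (ho : Mo ⊆ Metric.closedBall (p.ty.cp p.h p.z) (2 * N.rho * p.h))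
    (hi : Mi ⊆ Metric.closedBall (p.ty.cm p.h p.z) (2 * N.rho * p.h)) :
    PvdyStop (pvsmGd (pvilU N b p) fun η => Mo \ pvilFzO N b p η ∪ Mi \ pvilFzI N b p η) := by
  have e1 : p.zf = p.z := by unfold PvilPl.zf; rw [hp, map_one, one_mul]
  have e2 : ∀ (Y : Set ℂ) (v : ↥Y), pvsmlPos p Y v = v.1 := by
    intro Y v
    unfold pvsmlPos
    rw [hp, map_one, one_mul]; rfl
  refine pvsml_stop_one' N b (by rw [hp]; exact one_ne_zero) (fun Y s 𝔖 h v hv h1 => ?_) (fun Y s 𝔖 h v hv h1 => ?_)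
  · have k1 := h.far_m v hv
    rw [e1, e2] at k1
    have k2 := hi h1
    rw [Metric.mem_closedBall, dist_eq_norm] at k2
    exact absurd k2 (not_le.2 k1)
  · have k1 := h.far_p v hv
    rw [e1, e2] at k1
    have k2 := ho h1
    rw [Metric.mem_closedBall, dist_eq_norm] at k2
    exact absurd k2 (not_le.2 k1)

/-! ## 4. TWO plugs, exit mouth of `p`, entrance mouth of `p'`, guarded by the two HALF states      (the chain of a pattern) -/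

/-- **STOP, TWO PLUGS, GUARD = THE TWO HALF STATES**, state-relative form -/
theorem pvsml_stop_two' (N : PvwNum) (b b' : Bool) {p p' : PvilPl} (hp : p.fr ≠ 0) (hp' : p'.fr ≠ 0) {Mo Mi : Set ℂ}
    (hi : ∀ (Y : Set ℂ) (s : ↥Y → Bool) (𝔖 : PvwSt (pvcwT Y)), PvsmlOut N p Y s 𝔖 → ∀ v ∈ 𝔖.fzOut, v.1 ∉ Mi)
    (ho : ∀ (Y : Set ℂ) (s : ↥Y → Bool) (𝔖 : PvwSt (pvcwT Y)), PvsmlIn N p' Y s 𝔖 → ∀ v ∈ 𝔖.fzIn, v.1 ∉ Mo) :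
    PvdyStop (pvsmGd (pvilUo N b p ∩ pvilUi N b' p') fun η => Mo \ pvilFzO N b p η ∪ Mi \ pvilFzI N b' p' η) := by
  refine pvsm_stop (Sg := fun Y => PvwSt (pvcwT Y) × PvwSt (pvcwT Y)) (fun Y σ 𝔖 => PvsmlOut N p Y (pvcwCol Y σ b) 𝔖.1 ∧ PvsmlIn N p' Y (pvcwCol Y σ b') 𝔖.2)
    (fun Y 𝔖 => pvsmP 𝔖.1.fzOut ∪ pvsmP 𝔖.2.fzIn) (fun Y 𝔖 => Mo \ pvsmP 𝔖.1.fzOut ∪ Mi \ pvsmP 𝔖.2.fzIn) ?_ ?_ ?_ ?_ ?_ ?_
  · intro Y σ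
    by_cases hU : cfOf Y σ ∈ pvilUo N b p ∩ pvilUi N b' p'
    · rw [pvsm_gd_mem hU]
      obtain ⟨𝔖, hS⟩ := (pvsml_Uo_cfOf N b p Y σ).1 hU.1
      obtain ⟨𝔖', hS'⟩ := (pvsml_Ui_cfOf N b' p' Y σ).1 hU.2
      show Mo \ pvilFzO N b p (cfOf Y σ) ∪ Mi \ pvilFzI N b' p' (cfOf Y σ) = _
      rw [hS.FzO hp, hS'.FzI hp']
      ext v
      constructor
      · exact fun hv => ⟨(𝔖, 𝔖'), ⟨hS, hS'⟩, hv⟩
      · rintro ⟨⟨𝔗, 𝔗'⟩, ⟨h1, h2⟩, hv⟩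
        have hv' : v ∈ Mo \ pvsmP 𝔗.fzOut ∪ Mi \ pvsmP 𝔗'.fzIn := hv
        rw [h1.fz_eq hp hS, h2.fz_eq hp' hS'] at hv'
        exact hv'
    · rw [pvsm_gd_notMem hU]
      ext v
      simp only [mem_empty_iff_false, false_iff]
      rintro ⟨𝔖, ⟨h1, h2⟩, -⟩
      exact hU ⟨(pvsml_Uo_cfOf N b p Y σ).2 ⟨𝔖.1, h1⟩, (pvsml_Ui_cfOf N b' p' Y σ).2 ⟨𝔖.2, h2⟩⟩
  · intro Y σ 𝔖 h
    exact (h.1.fin.image _).union (h.2.fin.image _)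
  · intro Y σ 𝔖 _
    exact union_subset (pvsm_P_sub _) (pvsm_P_sub _)
  · intro Y σ σ' 𝔖 h h'
    exact ⟨h.1.congr (pvsm_agree (fun z hz => h' z (Or.inl hz)) b), h.2.congr (pvsm_agree (fun z hz => h' z (Or.inr hz)) b')⟩
  · intro Y σ 𝔖 𝔖' h h'
    show Mo \ pvsmP 𝔖.1.fzOut ∪ Mi \ pvsmP 𝔖.2.fzIn = Mo \ pvsmP 𝔖'.1.fzOut ∪ Mi \ pvsmP 𝔖'.2.fzIn
    rw [h.1.fz_eq hp h'.1, h.2.fz_eq hp' h'.2]
  · intro Y σ 𝔖 h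
    refine Set.disjoint_left.2 ?_
    rintro z (⟨v, hv, rfl⟩ | ⟨v, hv, rfl⟩) (⟨h1, h2⟩ | ⟨h1, h2⟩)
    · exact h2 ⟨v, hv, rfl⟩
    · exact hi Y _ 𝔖.1 h.1 v hv h1
    · exact ho Y _ 𝔖.2 h.2 v hv h1
    · exact h2 ⟨v, hv, rfl⟩

/-! ## 5. at the data of record -/

theorem pvsml_stop_empty : PvdyStop fun _ => (∅ : Set ℂ) :=
  ⟨fun Y σ h => by
    obtain ⟨v, -, hv⟩ := h
    exact absurd hv (notMem_empty v)⟩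

/-- a translated set inside a translated ball -/
theorem pvsml_sh_ball {z w : ℂ} {r : ℝ} {S : Set ℂ} (h : S ⊆ Metric.closedBall w r) : pvieSh z S ⊆ Metric.closedBall (z + w) r := by
  rintro _ ⟨v, hv, rfl⟩
  have := h hv
  rw [Metric.mem_closedBall, dist_eq_norm] at this ⊢
  rwa [add_sub_add_left_eq_sub]

section rec

variable {τ : Type} {c : ℝ} (𝔓 : PvxPar τ c) (𝔈 : PvieEng τ)

/-- **STOP AT A CANDIDATE `(z,t)`, BOTH MOUTHS, GUARD = THE FULL STATE**: any exit mouth `Mo`, any entrance mouth `Mi` (relative to the centre) inside the protected balls -/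
theorem pvsml_stop_pin (m : ℕ) (z : ℂ) (t : τ) {Mo Mi : Set ℂ} (ho : Mo ⊆ Metric.closedBall ((pvlmH m : ℂ) * (𝔓.ty t).yp) (2 * 𝔓.num.rho * pvlmH m))
    (hi : Mi ⊆ Metric.closedBall ((pvlmH m : ℂ) * (𝔓.ty t).ym) (2 * 𝔓.num.rho * pvlmH m)) :
    PvdyStop (pvsmGd (pvilU 𝔓.num (𝔓.col t) (pvilPin 𝔓 m z t)) fun η => pvieSh z Mo \ pvilFo 𝔓 m z t η ∪ pvieSh z Mi \ pvilFi 𝔓 m z t η) :=
  pvsml_stop_one 𝔓.num (𝔓.col t) (p := pvilPin 𝔓 m z t) rfl (pvsml_sh_ball ho) (pvsml_sh_ball hi)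

/-- the guarded choice of the `Σ₁` cycle -/
noncomputable def pvsmlCyc (m : ℕ) (z : ℂ) (t : τ) : Conf PvPt → Set ℂ := pvsmGd (pvilU 𝔓.num (𝔓.col t) (pvilPin 𝔓 m z t)) (pvilYfcyc 𝔓 𝔈 m z t)

theorem pvsml_cyc_eq (m : ℕ) (z : ℂ) (t : τ) {ω : Conf PvPt} (h : ω ∈ pvilU 𝔓.num (𝔓.col t) (pvilPin 𝔓 m z t)) : pvsmlCyc 𝔓 𝔈 m z t ω = pvilYfcyc 𝔓 𝔈 m z t ω := pvsm_gd_mem h _

/-- **STOP FOR THE `Σ₁` CYCLE** -/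
theorem pvsml_cyc_stop (m : ℕ) (z : ℂ) (t : τ) (ho : 𝔈.oM m t ⊆ Metric.closedBall ((pvlmH m : ℂ) * (𝔓.ty t).yp) (2 * 𝔓.num.rho * pvlmH m))
    (hi : 𝔈.eM m t ⊆ Metric.closedBall ((pvlmH m : ℂ) * (𝔓.ty t).ym) (2 * 𝔓.num.rho * pvlmH m)) : PvdyStop (pvsmlCyc 𝔓 𝔈 m z t) :=
  pvsml_stop_pin 𝔓 m z t ho hi

/-- **THE FIELD `stop` OF `Pvcy1At`** (188, `Exit/Cyc1B`), verbatim, for ANY set `B` of bases which carry the full state -/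
theorem pvsml_cyc_leaf {m0 : ℕ} {Cth : ℝ} {r κs : ℕ → ℝ} (H : PvieEng.Wf 𝔓 𝔈 m0 Cth r κs) {m : ℕ} (hm : m0 ≤ m) (ε : ℝ) (z : ℂ) {t : τ} (ht : pviwTyOk 𝔓 t) {B : Set (Conf PvPt)}
    (hB : B ⊆ pvilU 𝔓.num (𝔓.col t) (pvilPin 𝔓 m z t)) :
    ∃ (Ok : Set ℂ → Prop) (yf : Conf PvPt → Set ℂ), (∀ᵐ ω ∂pvP ε, Ok (cfSites ω)) ∧ PvktStop Ok yf ∧ ∀ᵐ ω ∂pvP ε, ω ∈ B → yf ω = pvilYfcyc 𝔓 𝔈 m z t ω :=
  ⟨fun _ => True, pvsmlCyc 𝔓 𝔈 m z t, Filter.Eventually.of_forall fun _ => trivial, (pvsml_cyc_stop 𝔓 𝔈 m z t (H.oM_cen m hm t ht) (H.eM_cen m hm t ht)).kt,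
    Filter.Eventually.of_forall fun _ hω => pvsml_cyc_eq 𝔓 𝔈 m z t (hB hω)⟩

/-- the guarded choice of the chain of a pattern -/
noncomputable def pvsmlCh (m : ℕ) (π : PvtsPat τ) : Conf PvPt → Set ℂ :=
  pvsmGd (pvilUo 𝔓.num (𝔓.col π.tt) (pvilPin 𝔓 m π.zt π.tt) ∩ pvilUi 𝔓.num (𝔓.col π.ts) (pvilPin 𝔓 m π.zs π.ts)) (pvilYfc 𝔓 𝔈 m π)

theorem pvsml_ch_eq (m : ℕ) (π : PvtsPat τ) {ω : Conf PvPt} (ht : ω ∈ pvilUo 𝔓.num (𝔓.col π.tt) (pvilPin 𝔓 m π.zt π.tt)) (hs : ω ∈ pvilUi 𝔓.num (𝔓.col π.ts) (pvilPin 𝔓 m π.zs π.ts)) :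
    pvsmlCh 𝔓 𝔈 m π ω = pvilYfc 𝔓 𝔈 m π ω := pvsm_gd_mem (Set.mem_inter ht hs) _

/-- **STOP FOR THE CHAIN OF A PATTERN**, state-relative form: the sites frozen by `Σ_out(t)` miss the entrance mouth of `s`, the sites frozen by `Σ_in(s)` miss the exit mouth of `t` -/
theorem pvsml_ch_stop' (m : ℕ) (π : PvtsPat τ)
    (hi : ∀ (Y : Set ℂ) (s : ↥Y → Bool) (𝔖 : PvwSt (pvcwT Y)), PvsmlOut 𝔓.num (pvilPin 𝔓 m π.zt π.tt) Y s 𝔖 → ∀ v ∈ 𝔖.fzOut, v.1 ∉ pvieSh π.zs (𝔈.iM m π.ts))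
    (ho : ∀ (Y : Set ℂ) (s : ↥Y → Bool) (𝔖 : PvwSt (pvcwT Y)), PvsmlIn 𝔓.num (pvilPin 𝔓 m π.zs π.ts) Y s 𝔖 → ∀ v ∈ 𝔖.fzIn, v.1 ∉ pvieSh π.zt (𝔈.oM m π.tt)) :
    PvdyStop (pvsmlCh 𝔓 𝔈 m π) :=
  pvsml_stop_two' 𝔓.num (𝔓.col π.tt) (𝔓.col π.ts) (p := pvilPin 𝔓 m π.zt π.tt) (p' := pvilPin 𝔓 m π.zs π.ts) one_ne_zero one_ne_zero hi ho

end rec

theorem pvsml_eqns_cite : True := by
  have := @pvsmlPos.eq_1; have := @pvsmlCyc.eq_1; have := @pvsmlCh.eq_1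
  trivial

end Claimed.Agent.R289
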