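-- KEEP
import Claimed.Agent.R289.Pl.Path
import Claimed.Agent.R289.Pl.Rim
import Claimed.Agent.R289.Pl.RimC

/-!
# Row 289 (S0537, Cardy for Poisson-Voronoi), TR-blueprint chapter B, TR11-TR14, file Tr/Tight : ARC EVENTS `B_g`, `NB_g^U`; ACT, UNIQ, SHIELD, GLUE, RECOG, CLOSE, MASK
(head helper194; author helper6 (`origin/helper6:notes/R289/W2c_6.md`), referee helper264; provers 55 105 3 225; prefix `pvtt_`, defs `pvtt…`, record `PvttRing`)

`T : PvMap V D`, dart `d` has its face on the LEFT, `rot` = positive rotation round the source.  `s : V → Bool`, `true` = BLACK.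
A path / cycle is travelled with its RIGHT side towards the wall: at a vertex with back dart `ι` (the opposite of the incoming dart) and outgoing dart `f` the RIGHT SECTOR is the set of the darts strictly between `ι` and `f`
in the positive rotation (`pvttBtw T ι f`).  At the two ends of an arc `g : T.Pth` the missing dart is replaced by a SPOKE: `a₀` at `g.v 0`, `a₁` at `g.v g.n` (in the applications: occupied darts, black source, white target, edges of a gate).

* `pvttBtw T a b x`          `x = rot^j a`, `0 < j`, and `b` is not among `rot^i a`, `i ≤ j`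
* `pvttRt T g a₀ a₁`         all the right darts of the arc `g` with spokes `a₀ a₁`  (`RS_0 ∪ … ∪ RS_n` of W2c sec. 1);      `pvttRtC T c` the same for a cycle
* `pvttBP T s U X R`         RIGHT BYPASS: a dart `d ∈ R`, a walk from `tgt d` to a vertex `z ∈ X`, `z ≠ src d`, all of whose vertices but the last are black, in `U`, off `X`   (a chord is the walk of length `0`)
* `pvttB s g`, `pvttNB T s U g a₀ a₁`, `pvttNBC T s U c`        the events `B_g`, `NB_g^U`, and `NB` for a cycle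
* `pvttSum T w g`            `∑_k w (opp (g.e k))`: the sum of a dart function over the RIGHT triangles of `g`  (a function of the geometry only)

ROUTE (NB only: no wall step, no bank, no loop erasure):
 L1 `pvtt_bp_mono_U pvtt_bp_mono_s pvtt_bp_congr`   L2 ACT `pvtt_act_cyc pvtt_act`   L3 UNIQ `pvtt_uniq pvtt_uniq_cyc`   L4 SHIELD `pvtt_shield`   L5 GLUE `pvtt_glue`
 L6 RECOG `pvtt_recog` (= converse of no-bypass, L1.5b)   L7 SUM `pvtt_rim_sum`   L8 CLOSE `pvtt_close` (TR13)   TR14 `pvtt_mask`.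
Prove IN PLACE, helpers just above the theorem.  A misfit of a statement: one line to 194.
-/

set_option autoImplicit false

namespace Claimed.Agent.R289

open Relation

variable {V D : Type} (T : PvMap V D)

/-! ## 0. Definitions -/

/-- `x` lies strictly between `a` and `b` in the positive rotation round the source of `a` -/
def pvttBtw (a b x : D) : Prop := ∃ j, 0 < j ∧ T.rot^[j] a = x ∧ ∀ i, i ≤ j → T.rot^[i] a ≠ b

/-- the back dart at the vertex number `k` of the arc `g` with first spoke `a₀` -/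
def pvttBk (g : T.Pth) (a₀ : D) (k : ℕ) : D := if k = 0 then a₀ else T.opp (g.e (k - 1))

/-- the forward dart at the vertex number `k` of the arc `g` with last spoke `a₁` -/
def pvttFw (g : T.Pth) (a₁ : D) (k : ℕ) : D := if k < g.n then g.e k else a₁

/-- the right darts of the arc `g` with spokes `a₀`, `a₁` -/
def pvttRt (g : T.Pth) (a₀ a₁ : D) : Set D := {x | ∃ k, k ≤ g.n ∧ pvttBtw T (pvttBk T g a₀ k) (pvttFw T g a₁ k) x}

/-- the right darts of a cycle -/
def pvttRtC (c : T.Cyc) : Set D := {x | ∃ i, pvttBtw T (T.opp (c.e i)) (c.e (i + 1)) x}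

/-- one step of a bypass: the vertex which is left is black, in `U`, off `X` -/
def pvttStep (s : V → Bool) (U X : Set V) (x y : V) : Prop := (x ∈ U ∧ x ∉ X ∧ s x = true) ∧ T.Adj x y

/-- RIGHT BYPASS of the vertex set `X` with right darts `R` inside `U` -/
def pvttBP (s : V → Bool) (U X : Set V) (R : Set D) : Prop :=
  ∃ d ∈ R, ∃ z ∈ X, z ≠ T.src d ∧ ReflTransGen (pvttStep T s U X) (T.tgt d) z

variable {T}

/-- `B_g`: the arc is black -/
def pvttB (s : V → Bool) (g : T.Pth) : Prop := ∀ k, k ≤ g.n → s (g.v k) = true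

variable (T)

/-- `NB_g^U`: no right bypass of the arc `g` (spokes `a₀ a₁`) inside `U` -/
def pvttNB (s : V → Bool) (U : Set V) (g : T.Pth) (a₀ a₁ : D) : Prop := ¬ pvttBP T s U g.verts (pvttRt T g a₀ a₁)

/-- no right bypass of the cycle `c` inside `U` -/
def pvttNBC (s : V → Bool) (U : Set V) (c : T.Cyc) : Prop := ¬ pvttBP T s U c.verts (pvttRtC T c)

/-- the sum of `w` over the right triangles of the arc -/
def pvttSum (w : D → ℂ) (g : T.Pth) : ℂ := ∑ k ∈ Finset.range g.n, w (T.opp (g.e k))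

theorem pvtt_eqns_cite : True := by
  have := @pvttBtw.eq_1; have := @pvttBk.eq_1; have := @pvttFw.eq_1; have := @pvttRt.eq_1; have := @pvttRtC.eq_1; have := @pvttStep.eq_1
  have := @pvttBP.eq_1; have := @pvttB.eq_1; have := @pvttNB.eq_1; have := @pvttNBC.eq_1; have := @pvttSum.eq_1
  trivial

variable {T}

/-! ## 1. L1: sectors; monotonicity and locality of the bypass event -/

theorem pvtt_btw_src {a b x : D} (h : pvttBtw T a b x) : T.src x = T.src a := by
  obtain ⟨j, -, rfl, -⟩ := h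
  exact T.src_rot_iter j a

theorem pvtt_btw_ne {a b x : D} (h : pvttBtw T a b x) : a ≠ b ∧ x ≠ b := by
  obtain ⟨j, -, rfl, h⟩ := h
  exact ⟨h 0 (Nat.zero_le _), h j le_rfl⟩

/-- TRICHOTOMY: of two distinct darts at the source of `a`, both different from `a`, one comes first -/
theorem pvtt_btw_tri (hT : T.IsSph) {a b b' : D} (hb : T.src b = T.src a) (hb' : T.src b' = T.src a) (h1 : b ≠ a) (h2 : b' ≠ a) (h3 : b ≠ b') :
    pvttBtw T a b b' ∨ pvttBtw T a b' b := by
  classical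
  have e := hT.link a b hb.symm
  have e' := hT.link a b' hb'.symm
  have hn := Nat.find_spec e
  have hn' := Nat.find_spec e'
  have pos : 0 < Nat.find e := by
    rcases Nat.eq_zero_or_pos (Nat.find e) with h0 | h0
    · rw [h0] at hn; exact absurd hn.symm h1
    · exact h0
  have pos' : 0 < Nat.find e' := by
    rcases Nat.eq_zero_or_pos (Nat.find e') with h0 | h0
    · rw [h0] at hn'; exact absurd hn'.symm h2
    · exact h0
  rcases lt_trichotomy (Nat.find e) (Nat.find e') with h | h | h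
  · exact Or.inr ⟨_, pos, hn, fun i hi => Nat.find_min e' (lt_of_le_of_lt hi h)⟩
  · rw [h, hn'] at hn; exact absurd hn.symm h3
  · exact Or.inl ⟨_, pos', hn', fun i hi => Nat.find_min e (lt_of_le_of_lt hi h)⟩

/-- a sub-sector at the end of a sector -/
theorem pvtt_btw_tail {a b x y : D} (h : pvttBtw T a b x) (h' : pvttBtw T x b y) : pvttBtw T a b y := by
  obtain ⟨j, hj, rfl, h⟩ := h
  obtain ⟨j', hj', rfl, h'⟩ := h'
  refine ⟨j' + j, by omega, Function.iterate_add_apply _ _ _ _, fun i hi => ?_⟩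
  by_cases hij : i ≤ j
  · exact h i hij
  · have := h' (i - j) (by omega)
    rwa [← Function.iterate_add_apply, Nat.sub_add_cancel (by omega)] at this

/-- a sub-sector at the beginning of a sector -/
theorem pvtt_btw_head {a b x y : D} (h : pvttBtw T a b x) (h' : pvttBtw T a x y) : pvttBtw T a b y := by
  obtain ⟨j, hj, hx, h⟩ := h
  obtain ⟨j', hj', hy, h'⟩ := h'
  refine ⟨j', hj', hy, fun i hi => h i ?_⟩
  by_contra hc
  exact h' j (by omega) hx

/-- a dart of a sector cuts it: the other darts of the sector come before it or after it -/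
theorem pvtt_btw_split {a b x y : D} (h : pvttBtw T a b x) (h' : pvttBtw T a b y) : y = x ∨ pvttBtw T a x y ∨ pvttBtw T x b y := by
  classical
  obtain ⟨j, hj, hx, h⟩ := h
  obtain ⟨j', hj', hy, h'⟩ := h'
  have e : ∃ m, T.rot^[m] a = x := ⟨j, hx⟩
  obtain ⟨m, hm, hmin⟩ : ∃ m, T.rot^[m] a = x ∧ ∀ i < m, T.rot^[i] a ≠ x := ⟨Nat.find e, Nat.find_spec e, fun i hi => Nat.find_min e hi⟩
  rcases lt_trichotomy j' m with hlt | heq | hgt
  · exact Or.inr (Or.inl ⟨j', hj', hy, fun i hi => hmin i (lt_of_le_of_lt hi hlt)⟩)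
  · left; rw [← hy, heq, hm]
  · refine Or.inr (Or.inr ⟨j' - m, by omega, ?_, fun i hi => ?_⟩)
    · rw [← hm, ← Function.iterate_add_apply, Nat.sub_add_cancel hgt.le, hy]
    · rw [← hm, ← Function.iterate_add_apply]
      exact h' _ (by omega)

theorem pvtt_rt_src {g : T.Pth} {a₀ a₁ d : D} (h0 : T.src a₀ = g.v 0) (hd : d ∈ pvttRt T g a₀ a₁) : T.src d ∈ g.verts := by
  obtain ⟨k, hk, hb⟩ := hd
  refine ⟨k, hk, ?_⟩
  rw [pvtt_btw_src hb]
  unfold pvttBk
  by_cases h : k = 0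
  · rw [if_pos h, h0, h]
  · rw [if_neg h, T.src_opp', g.tgt_e _ (by omega), Nat.sub_add_cancel (by omega)]

theorem pvtt_rtC_src {c : T.Cyc} {d : D} (hd : d ∈ pvttRtC T c) : T.src d ∈ c.verts := by
  obtain ⟨i, hb⟩ := hd
  refine ⟨i + 1, ?_⟩
  rw [pvtt_btw_src hb, T.src_opp', c.chain]

/-- the bypass event increases with `U` and with the set of right darts -/
theorem pvtt_bp_mono_U {s : V → Bool} {U U' X : Set V} {R R' : Set D} (hU : U ⊆ U') (hR : R ⊆ R') (h : pvttBP T s U X R) : pvttBP T s U' X R' := by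
  obtain ⟨d, hd, z, hz, hne, hw⟩ := h
  exact ⟨d, hR hd, z, hz, hne, ReflTransGen.mono (fun _ _ h => ⟨⟨hU h.1.1, h.1.2⟩, h.2⟩) _ _ hw⟩

/-- the bypass event increases with the black set off `X` (so `NB` is DECREASING: Harris) -/
theorem pvtt_bp_mono_s {s s' : V → Bool} {U X : Set V} {R : Set D} (hs : ∀ v, v ∈ U → v ∉ X → s v = true → s' v = true) (h : pvttBP T s U X R) :
    pvttBP T s' U X R := by
  obtain ⟨d, hd, z, hz, hne, hw⟩ := h
  exact ⟨d, hd, z, hz, hne, ReflTransGen.mono (fun _ _ h => ⟨⟨h.1.1, h.1.2.1, hs _ h.1.1 h.1.2.1 h.1.2.2⟩, h.2⟩) _ _ hw⟩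

/-- LOCALITY: the bypass event reads the colours of `U \ X` only -/
theorem pvtt_bp_congr {s s' : V → Bool} {U X : Set V} {R : Set D} (hs : ∀ v, v ∈ U → v ∉ X → s v = s' v) : pvttBP T s U X R ↔ pvttBP T s' U X R := by
  exact ⟨pvtt_bp_mono_s fun v h1 h2 h3 => by rw [← hs v h1 h2]; exact h3, pvtt_bp_mono_s fun v h1 h2 h3 => by rw [hs v h1 h2]; exact h3⟩

/-- ENLARGEMENT of the obstacle: cut the walk at its first vertex in `X'` -/
theorem pvtt_bp_enlarge {s : V → Bool} {U X X' : Set V} {R : Set D} (hX : X ⊆ X') (hR : ∀ d ∈ R, T.src d ∈ X) (h : pvttBP T s U X R) : pvttBP T s U X' R := by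
  classical
  obtain ⟨d, hd, z, hz, hne, hw⟩ := h
  have key : ∀ y₀, ReflTransGen (pvttStep T s U X) y₀ z → ∃ z' ∈ X', z' ≠ T.src d ∧ ReflTransGen (pvttStep T s U X') y₀ z' := by
    intro y₀ hw
    induction hw using ReflTransGen.head_induction_on with
    | refl => exact ⟨z, hX hz, hne, ReflTransGen.refl⟩
    | @head y y' hyy' _ ih =>
      obtain ⟨z', hz', hne', hw'⟩ := ih
      by_cases hy : y ∈ X'
      · exact ⟨y, hy, fun h => hyy'.1.2.1 (h ▸ hR d hd), ReflTransGen.refl⟩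
      · exact ⟨z', hz', hne', ReflTransGen.head ⟨⟨hyy'.1.1, hy, hyy'.1.2.2⟩, hyy'.2⟩ hw'⟩
  obtain ⟨z', hz', hne', hw'⟩ := key _ hw
  exact ⟨d, hd, z', hz', hne', hw'⟩

/-! ## 2. L2 = TR11 (ACT): a black rim has no right bypass -/

/-- the darts of the right sectors of a cycle and their opposites are not on the left; their targets are on the cycle or strictly on the right -/
theorem pvtt_rtC_right (hT : T.IsSph) (c : T.Cyc) {d : D} (hd : d ∈ pvttRtC T c) :
    d ∉ c.Left ∧ T.opp d ∉ c.Left ∧ (T.tgt d ∈ c.verts ∨ T.tgt d ∈ T.Int c.Right) := by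
  obtain ⟨i, j, hj0, rfl, hj⟩ := hd
  obtain ⟨hR, hL, hRo, hB⟩ := pl_jordan hT c
  have hF := pl_left_face c
  have hne : c.e (i + 1) ≠ T.opp (c.e i) := pl_cyc_ne_opp c _ _
  have hsrc : T.src (c.e (i + 1)) = T.src (T.opp (c.e i)) := by rw [T.src_opp', c.chain]
  have hbd : ∀ d, T.src d = T.src (c.e (i + 1)) → T.Bd c.Left d → d = c.e (i + 1) ∨ d = T.opp (c.e i) :=
    fun d hd hb => pl_cyc_at c i hd ((hB d).1 hb)
  obtain ⟨K', hK0', hK', hKno', hKm'⟩ := pl_sector_aux hT hF hne.symm hsrc.symm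
    (fun d hd hb => (hbd d (hd.trans hsrc.symm) hb).symm)
  have hjK : j < K' := by
    by_contra hcon
    exact hj K' (not_lt.1 hcon) hK'
  have ha : T.opp (c.e i) ∉ c.Left := by
    have := hRo i
    rw [hR] at this
    exact this
  have h1 : T.rot^[j] (T.opp (c.e i)) ∉ c.Left := fun h => ha ((hKm' j hjK).1 h)
  have hE : ¬ T.Edg c.darts (T.rot^[j] (T.opp (c.e i))) := by
    intro hE
    rcases pl_cyc_at c i ((T.src_rot_iter _ _).trans hsrc.symm) hE with h | h
    · exact (hKno' j hj0 hjK).2 h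
    · exact (hKno' j hj0 hjK).1 h
  have h2 : T.opp (T.rot^[j] (T.opp (c.e i))) ∉ c.Left := by
    rcases pl_edge_side hT c hE with h | h
    · exact absurd h.1 h1
    · have := h.2
      rw [hR] at this
      exact this
  refine ⟨h1, h2, ?_⟩
  rcases pl_jordan_vert hT c (T.tgt (T.rot^[j] (T.opp (c.e i)))) with h | h | h
  · exact Or.inl h
  · exact absurd (h _ (T.src_opp' _)) h2
  · exact Or.inr h

/-- **ACT, cyclic form** (TEX[lemma:no-bypass] in sector form) -/
theorem pvtt_act_cyc (hT : T.IsSph) {c : T.Cyc} {s : V → Bool} (h : c.IsRim s) (hb : s (T.src (c.e 0)) = true) (U : Set V) : pvttNBC T s U c := by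
  rintro ⟨d, hd, z, hz, hzd, hw⟩
  obtain ⟨hR, hL, hRo, hB⟩ := pl_jordan hT c
  obtain ⟨h1, h2, h3⟩ := pvtt_rtC_right hT c hd
  have hblack : ∀ v ∈ c.verts, s v = true := by
    rintro _ ⟨i, rfl⟩
    rw [pl_rim_col h i 0, hb]
  have key : ∀ x, ReflTransGen (pvttStep T s U c.verts) x z → (x ∈ c.verts ∨ x ∈ T.Int c.Right) →
      s x = true ∧ ReflTransGen (fun x y => ∃ e, T.src e = x ∧ T.tgt e = y ∧ ¬ T.Occ s e ∧ e ∉ c.Left ∧ T.opp e ∉ c.Left) x z := by
    intro x hx
    induction hx using ReflTransGen.head_induction_on with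
    | refl => exact fun _ => ⟨hblack z hz, ReflTransGen.refl⟩
    | @head x y hxy _ ih =>
      intro hx'
      obtain ⟨⟨-, hxX, hsx⟩, e, rfl, rfl⟩ := hxy
      have hxR : T.src e ∈ T.Int c.Right := hx'.resolve_left hxX
      have he : e ∉ c.Left := by
        have := hxR e rfl
        rw [hR] at this
        exact this
      have hE : ¬ T.Edg c.darts e := pl_cyc_off c hxX
      have heo : T.opp e ∉ c.Left := by
        intro h'
        have hnb : ¬ T.Bd c.Left e := fun hb => hE ((hB _).1 hb)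
        unfold PvMap.Bd at hnb
        exact he ((not_not.1 hnb).2 h')
      have hy : T.tgt e ∈ c.verts ∨ T.tgt e ∈ T.Int c.Right := by
        rcases pl_jordan_vert hT c (T.tgt e) with h | h | h
        · exact Or.inl h
        · exact absurd (h _ (T.src_opp' _)) heo
        · exact Or.inr h
      obtain ⟨hsy, hrest⟩ := ih hy
      exact ⟨hsx, ReflTransGen.head ⟨e, rfl, rfl, fun ho => ho (hsx.trans hsy.symm), he, heo⟩ hrest⟩
  obtain ⟨hst, hrest⟩ := key _ hw h3
  have hsd : T.src d ∈ c.verts := pvtt_rtC_src hd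
  have := pl_no_bypass hT h hsd hz (ReflTransGen.head ⟨d, rfl, rfl, fun ho => ho ((hblack _ hsd).trans hst.symm), h1, h2⟩ hrest)
  exact hzd this.symm

/-- **TR11 (ACT)**: a sub-arc `x_(i+1) … x_(i+1+m)` of a black rim, with spokes in the right sectors of the rim at its two ends, has no right bypass in any `U` -/
theorem pvtt_act (hT : T.IsSph) {c : T.Cyc} {s : V → Bool} (h : c.IsRim s) (hb : s (T.src (c.e 0)) = true) (U : Set V) (i m : ℕ) (hm0 : 1 ≤ m) (hm : m < c.n)
    {a₀ a₁ : D} (h0 : pvttBtw T (T.opp (c.e i)) (c.e (i + 1)) a₀) (h1 : pvttBtw T (T.opp (c.e (i + m))) (c.e (i + 1 + m)) a₁) :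
    pvttB s (c.pth (i + 1) m) ∧ pvttNB T s U (c.pth (i + 1) m) a₀ a₁ := by
  have hgn : (c.pth (i + 1) m).n = m := by
    show min m (c.n - 1) = m
    omega
  have hblack : ∀ j, s (T.src (c.e j)) = true := fun j => by rw [pl_rim_col h j 0, hb]
  refine ⟨fun k _ => hblack _, fun hbp => ?_⟩
  have hsub : pvttRt T (c.pth (i + 1) m) a₀ a₁ ⊆ pvttRtC T c := by
    rintro x ⟨k, hk, hx⟩
    rw [hgn] at hk
    unfold pvttBk pvttFw at hx
    rw [hgn] at hx
    by_cases hk0 : k = 0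
    · subst hk0
      rw [if_pos rfl, if_pos (by omega)] at hx
      exact ⟨i, pvtt_btw_tail h0 hx⟩
    · rw [if_neg hk0] at hx
      have e1 : (c.pth (i + 1) m).e (k - 1) = c.e (i + k) := by
        show c.e (i + 1 + (k - 1)) = _
        congr 1
        omega
      rw [e1] at hx
      by_cases hkm : k < m
      · rw [if_pos hkm] at hx
        refine ⟨i + k, ?_⟩
        have e2 : (c.pth (i + 1) m).e k = c.e (i + k + 1) := by
          show c.e (i + 1 + k) = _
          congr 1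
          omega
        rwa [e2] at hx
      · rw [if_neg hkm] at hx
        have hkm' : k = m := by omega
        subst hkm'
        refine ⟨i + k, ?_⟩
        have h1' : pvttBtw T (T.opp (c.e (i + k))) (c.e (i + k + 1)) a₁ := by
          rwa [show i + k + 1 = i + 1 + k by omega]
        exact pvtt_btw_head h1' hx
  have hX : (c.pth (i + 1) m).verts ⊆ c.verts := by
    rintro v ⟨k, _, rfl⟩
    exact ⟨_, rfl⟩
  have hsrc0 : T.src a₀ = (c.pth (i + 1) m).v 0 := by
    rw [pvtt_btw_src h0, T.src_opp', c.chain]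
    rfl
  exact pvtt_act_cyc hT h hb U (pvtt_bp_mono_U (Set.Subset.refl _) hsub (pvtt_bp_enlarge hX (fun d hd => pvtt_rt_src hsrc0 hd) hbp))

/-! ## 3. L3 = TR12 (UNIQ): no planarity, only `link` -/

/-- the walk along a black path from its vertex number `k + 1` to its first vertex in `X` -/
theorem pvtt_walk_pth {s : V → Bool} {U X : Set V} (g' : T.Pth) (hB' : pvttB s g') (hU' : g'.inner ⊆ U) {k : ℕ} (hk : k < g'.n) (hX : g'.v g'.n ∈ X) :
    ∃ j, k < j ∧ j ≤ g'.n ∧ g'.v j ∈ X ∧ ReflTransGen (pvttStep T s U X) (g'.v (k + 1)) (g'.v j) := by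
  classical
  have hex : ∃ j, k < j ∧ j ≤ g'.n ∧ g'.v j ∈ X := ⟨g'.n, hk, le_rfl, hX⟩
  obtain ⟨h1, h2, h3⟩ := Nat.find_spec hex
  have hmin : ∀ i, k < i → i < Nat.find hex → g'.v i ∉ X := fun i hi hlt hm => Nat.find_min hex hlt ⟨hi, by omega, hm⟩
  refine ⟨Nat.find hex, h1, h2, h3, ?_⟩
  have key : ∀ m, k + 1 + m ≤ Nat.find hex → ReflTransGen (pvttStep T s U X) (g'.v (k + 1)) (g'.v (k + 1 + m)) := by
    intro m
    induction m with
    | zero => intro _; exact ReflTransGen.refl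
    | succ m ih =>
      intro hm
      exact (ih (by omega)).tail ⟨⟨hU' ⟨k + 1 + m, by omega, by omega, rfl⟩, hmin _ (by omega) (by omega), hB' _ (by omega)⟩,
        g'.e (k + 1 + m), g'.src_e _ (by omega), g'.tgt_e _ (by omega)⟩
  have := key (Nat.find hex - (k + 1)) (by omega)
  rwa [show k + 1 + (Nat.find hex - (k + 1)) = Nat.find hex by omega] at this

/-- a dart of `g'` in a right sector of `g` starts a right bypass of `g` -/
theorem pvtt_uniq_bp {s : V → Bool} {U : Set V} {g g' : T.Pth} {a₀ a₁ : D} (hB' : pvttB s g') (hU' : g'.inner ⊆ U) (h1 : g'.v g'.n ∈ g.verts) {k : ℕ}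
    (hk : k < g.n) (hk' : k < g'.n) (hb : pvttBtw T (pvttBk T g a₀ k) (g.e k) (g'.e k)) : pvttBP T s U g.verts (pvttRt T g a₀ a₁) := by
  obtain ⟨j, hj1, hj2, hj3, hj4⟩ := pvtt_walk_pth g' hB' hU' hk' h1
  refine ⟨g'.e k, ⟨k, hk.le, ?_⟩, g'.v j, hj3, ?_, ?_⟩
  · unfold pvttFw
    rw [if_pos hk]
    exact hb
  · rw [g'.src_e k hk']
    intro h
    have := g'.inj _ _ hj2 hk'.le h
    omega
  · rw [g'.tgt_e k hk']
    exact hj4

theorem pvtt_fw_ne_bk {s : V → Bool} {g : T.Pth} {a₀ : D} (hw0 : s (T.tgt a₀) = false) (hB : pvttB s g) {k : ℕ} (hk : k < g.n) : g.e k ≠ pvttBk T g a₀ k := by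
  intro h
  have ht : T.tgt (g.e k) = T.tgt (pvttBk T g a₀ k) := congrArg T.tgt h
  unfold pvttBk at ht
  by_cases hk0 : k = 0
  · rw [if_pos hk0, g.tgt_e k hk] at ht
    have := hB (k + 1) hk
    rw [ht, hw0] at this
    exact Bool.false_ne_true this
  · rw [if_neg hk0, T.tgt_opp, g.tgt_e k hk, g.src_e _ (by omega)] at ht
    have := g.inj _ _ hk (by omega) ht
    omega

/-- **TR12 (UNIQ)**: at most one black arc in `U` with given ends and given white spokes has no right bypass inside `U` -/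
theorem pvtt_uniq (hT : T.IsSph) {s : V → Bool} {U : Set V} {g g' : T.Pth} {a₀ a₁ : D} (h0 : g.v 0 = g'.v 0) (h1 : g.v g.n = g'.v g'.n)
    (ha0 : T.src a₀ = g.v 0) (hw0 : s (T.tgt a₀) = false) (hB : pvttB s g) (hB' : pvttB s g') (hU : g.inner ⊆ U) (hU' : g'.inner ⊆ U)
    (hN : pvttNB T s U g a₀ a₁) (hN' : pvttNB T s U g' a₀ a₁) : g.n = g'.n ∧ (∀ k, k < g.n → g.e k = g'.e k) ∧ ∀ k, k ≤ g.n → g.v k = g'.v k := by
  have key : ∀ k, k ≤ g.n → k ≤ g'.n ∧ (∀ j, j < k → g.e j = g'.e j) ∧ g.v k = g'.v k := by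
    intro k
    induction k with
    | zero => intro _; exact ⟨Nat.zero_le _, fun j hj => absurd hj (Nat.not_lt_zero j), h0⟩
    | succ k ih =>
      intro hk
      obtain ⟨h2, h3, h4⟩ := ih (by omega)
      have hk1 : k < g.n := by omega
      have hk' : k < g'.n := by
        rcases Nat.lt_or_ge k g'.n with h | h
        · exact h
        · exfalso
          have e : g.v k = g.v g.n := by
            rw [h4, h1]
            congr 1
            omega
          have := g.inj _ _ hk1.le le_rfl e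
          omega
      have he : g.e k = g'.e k := by
        by_contra hne
        have hbk : pvttBk T g' a₀ k = pvttBk T g a₀ k := by
          unfold pvttBk
          by_cases hk0 : k = 0
          · rw [if_pos hk0, if_pos hk0]
          · rw [if_neg hk0, if_neg hk0, h3 (k - 1) (by omega)]
        have hsrc : T.src (pvttBk T g a₀ k) = g.v k := by
          unfold pvttBk
          by_cases hk0 : k = 0
          · rw [if_pos hk0, ha0, hk0]
          · rw [if_neg hk0, T.src_opp', g.tgt_e _ (by omega)]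
            congr 1
            omega
        have hn1 : g.e k ≠ pvttBk T g a₀ k := pvtt_fw_ne_bk hw0 hB hk1
        have hn2 : g'.e k ≠ pvttBk T g a₀ k := by
          rw [← hbk]
          exact pvtt_fw_ne_bk hw0 hB' hk'
        rcases pvtt_btw_tri hT (a := pvttBk T g a₀ k) (b := g.e k) (b' := g'.e k) (by rw [g.src_e k hk1, hsrc]) (by rw [g'.src_e k hk', hsrc, h4])
          hn1 hn2 hne with h | h
        · exact hN (pvtt_uniq_bp hB' hU' (h1 ▸ pl_pth_lst_mem g) hk1 hk' h)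
        · rw [← hbk] at h
          exact hN' (pvtt_uniq_bp hB hU (h1.symm ▸ pl_pth_lst_mem g') hk' hk1 h)
      refine ⟨hk', fun j hj => ?_, ?_⟩
      · rcases Nat.lt_or_ge j k with h | h
        · exact h3 j h
        · have : j = k := by omega
          rw [this]
          exact he
      · rw [← g.tgt_e k hk1, ← g'.tgt_e k hk', he]
  obtain ⟨h2, h3, h4⟩ := key g.n le_rfl
  have hn : g.n = g'.n := g'.inj _ _ h2 le_rfl (by rw [← h4, h1])
  exact ⟨hn, h3, fun k hk => (key k hk).2.2⟩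

/-- the walk along a black cycle from its vertex number `k + 1` to its first vertex in `X` -/
theorem pvtt_walk_cyc {s : V → Bool} {X : Set V} (c' : T.Cyc) (hB' : ∀ i, s (T.src (c'.e i)) = true) (k : ℕ) {N : ℕ} (hkN : k < N) (hX : T.src (c'.e N) ∈ X) :
    ∃ j, k < j ∧ j ≤ N ∧ T.src (c'.e j) ∈ X ∧ ReflTransGen (pvttStep T s Set.univ X) (T.src (c'.e (k + 1))) (T.src (c'.e j)) := by
  classical
  have hex : ∃ j, k < j ∧ j ≤ N ∧ T.src (c'.e j) ∈ X := ⟨N, hkN, le_rfl, hX⟩
  obtain ⟨h1, h2, h3⟩ := Nat.find_spec hex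
  have hmin : ∀ i, k < i → i < Nat.find hex → T.src (c'.e i) ∉ X := fun i hi hlt hm => Nat.find_min hex hlt ⟨hi, by omega, hm⟩
  refine ⟨Nat.find hex, h1, h2, h3, ?_⟩
  have key : ∀ m, k + 1 + m ≤ Nat.find hex → ReflTransGen (pvttStep T s Set.univ X) (T.src (c'.e (k + 1))) (T.src (c'.e (k + 1 + m))) := by
    intro m
    induction m with
    | zero => intro _; exact ReflTransGen.refl
    | succ m ih =>
      intro hm
      exact (ih (by omega)).tail ⟨⟨Set.mem_univ _, hmin _ (by omega) (by omega), hB' _⟩, c'.e (k + 1 + m), rfl, c'.chain _⟩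
  have := key (Nat.find hex - (k + 1)) (by omega)
  rwa [show k + 1 + (Nat.find hex - (k + 1)) = Nat.find hex by omega] at this

/-- a dart of `c'` in a right sector of `c` starts a right bypass of `c` -/
theorem pvtt_uniq_cyc_bp {s : V → Bool} {c c' : T.Cyc} (hB' : ∀ i, s (T.src (c'.e i)) = true) {i : ℕ} (he : c.e i = c'.e i)
    (hb : pvttBtw T (T.opp (c.e i)) (c.e (i + 1)) (c'.e (i + 1))) : pvttBP T s Set.univ c.verts (pvttRtC T c) := by
  have hn := c'.three
  obtain ⟨j, hj1, hj2, hj3, hj4⟩ := pvtt_walk_cyc (X := c.verts) c' hB' (i + 1) (N := i + c'.n) (by omega) ⟨i, by rw [c'.per, he]⟩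
  refine ⟨c'.e (i + 1), ⟨i, hb⟩, T.src (c'.e j), hj3, ?_, ?_⟩
  · intro h
    have := pl_cyc_idx c' h.symm (by omega) (by omega)
    omega
  · rw [c'.chain]
    exact hj4

/-- **UNIQ, cyclic form**: two black cycles with a common dart and without right bypass are equal -/
theorem pvtt_uniq_cyc (hT : T.IsSph) {s : V → Bool} {c c' : T.Cyc} (h0 : c.e 0 = c'.e 0) (hB : ∀ i, s (T.src (c.e i)) = true) (hB' : ∀ i, s (T.src (c'.e i)) = true)
    (hN : pvttNBC T s Set.univ c) (hN' : pvttNBC T s Set.univ c') : ∀ i, c.e i = c'.e i := by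
  intro i
  induction i with
  | zero => exact h0
  | succ i ih =>
    by_contra hne
    have hs : T.src (c.e (i + 1)) = T.src (T.opp (c.e i)) := by rw [T.src_opp', c.chain]
    have hs' : T.src (c'.e (i + 1)) = T.src (T.opp (c.e i)) := by rw [ih, T.src_opp', c'.chain]
    have hn1 : c.e (i + 1) ≠ T.opp (c.e i) := pl_cyc_ne_opp c _ _
    have hn2 : c'.e (i + 1) ≠ T.opp (c.e i) := by
      rw [ih]
      exact pl_cyc_ne_opp c' _ _
    rcases pvtt_btw_tri hT hs hs' hn1 hn2 hne with h | h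
    · exact hN (pvtt_uniq_cyc_bp hB' ih h)
    · rw [ih] at h
      exact hN' (pvtt_uniq_cyc_bp hB ih.symm h)

/-! ## 4. L4 (SHIELD): a white path which closes the arc confines its right bypasses -/

/-- a bypass walk which starts on the cycle `Z` or strictly on its right, and whose black vertices off `X` are off `Z`, stays strictly on the right of `Z` -/
theorem pvtt_confine (hT : T.IsSph) {s : V → Bool} {U X : Set V} (Z : T.Cyc) (hoff : ∀ v, v ∉ X → s v = true → v ∉ Z.verts) {x z : V}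
    (hx : x ∈ Z.verts ∨ x ∈ T.Int Z.Right) (h : ReflTransGen (pvttStep T s U X) x z) : ReflTransGen (pvttStep T s (U ∩ T.Int Z.Right) X) x z := by
  have key : ReflTransGen (pvttStep T s (U ∩ T.Int Z.Right) X) x z ∧ (z ∈ Z.verts ∨ z ∈ T.Int Z.Right) := by
    induction h with
    | refl => exact ⟨ReflTransGen.refl, hx⟩
    | @tail b w _ hbc ih =>
      obtain ⟨⟨hU, hX, hs⟩, hadj⟩ := hbc
      have hb : b ∈ T.Int Z.Right := ih.2.resolve_left (hoff _ hX hs)
      refine ⟨ih.1.tail ⟨⟨⟨hU, hb⟩, hX, hs⟩, hadj⟩, ?_⟩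
      by_cases hc : w ∈ Z.verts
      · exact Or.inl hc
      · exact Or.inr (pl_int_adj hT (pl_right_face Z) hb hadj fun d hd hbd => pl_cyc_off Z (hd ▸ hc) (pl_right_bd_sub Z hbd))
  exact key.1

/-- **SHIELD**: `Z = g · a₁ · (white path) · opp a₀`.  A right bypass of `g` stays strictly on the right of `Z`.      (D5(b) of W2c is the hypothesis `T.Int Z.Right ⊆ U` of the corollary.) -/
theorem pvtt_shield (hT : T.IsSph) {s : V → Bool} {g : T.Pth} {a₀ a₁ : D} (Z : T.Cyc) (hn : g.n + 2 ≤ Z.n) (hg : ∀ k, k < g.n → Z.e k = g.e k)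
    (h1 : Z.e g.n = a₁) (h0 : Z.e (Z.n - 1) = T.opp a₀) (hv : T.src a₁ = g.v g.n) (hw : ∀ i, g.n < i → i < Z.n → s (T.src (Z.e i)) = false) {U : Set V}
    (h : pvttBP T s U g.verts (pvttRt T g a₀ a₁)) : pvttBP T s (U ∩ T.Int Z.Right) g.verts (pvttRt T g a₀ a₁) := by
  obtain ⟨d, hd, z, hz, hne, hwk⟩ := h
  have hZn := pl_cyc_pos Z
  have hsub : pvttRt T g a₀ a₁ ⊆ pvttRtC T Z := by
    rintro x ⟨k, hk, hx⟩
    have hfw : pvttFw T g a₁ k = Z.e k := by
      unfold pvttFw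
      by_cases h : k < g.n
      · rw [if_pos h, hg k h]
      · rw [if_neg h, ← h1]
        congr 1
        omega
    by_cases hk0 : k = 0
    · refine ⟨Z.n - 1, ?_⟩
      have hbk : pvttBk T g a₀ k = T.opp (Z.e (Z.n - 1)) := by
        unfold pvttBk
        rw [if_pos hk0, h0, T.opp_opp]
      rw [← hbk, show Z.n - 1 + 1 = 0 + Z.n by omega, Z.per, ← hk0, ← hfw]
      exact hx
    · refine ⟨k - 1, ?_⟩
      have hbk : pvttBk T g a₀ k = T.opp (Z.e (k - 1)) := by
        unfold pvttBk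
        rw [if_neg hk0, hg _ (by omega)]
      rw [← hbk, show k - 1 + 1 = k by omega, ← hfw]
      exact hx
  have hoff : ∀ v, v ∉ g.verts → s v = true → v ∉ Z.verts := by
    rintro v hv' hs ⟨i, rfl⟩
    have hi : Z.e (i % Z.n) = Z.e i := pl_cyc_mod Z i
    have hlt : i % Z.n < Z.n := Nat.mod_lt _ hZn
    rw [← hi] at hv' hs
    rcases Nat.lt_trichotomy (i % Z.n) g.n with h | h | h
    · exact hv' ⟨_, h.le, by rw [hg _ h, g.src_e _ h]⟩
    · exact hv' ⟨g.n, le_rfl, by rw [h, h1, hv]⟩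
    · rw [hw _ h hlt] at hs
      exact Bool.false_ne_true hs
  exact ⟨d, hd, z, hz, hne, pvtt_confine hT Z hoff (pvtt_rtC_right hT Z (hsub hd)).2.2 hwk⟩

theorem pvtt_shield_nb (hT : T.IsSph) {s : V → Bool} {g : T.Pth} {a₀ a₁ : D} (Z : T.Cyc) (hn : g.n + 2 ≤ Z.n) (hg : ∀ k, k < g.n → Z.e k = g.e k)
    (h1 : Z.e g.n = a₁) (h0 : Z.e (Z.n - 1) = T.opp a₀) (hv : T.src a₁ = g.v g.n) (hw : ∀ i, g.n < i → i < Z.n → s (T.src (Z.e i)) = false) {U : Set V}
    (hU : T.Int Z.Right ⊆ U) (h : pvttNB T s U g a₀ a₁) : pvttNB T s Set.univ g a₀ a₁ := by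
  intro hbp
  exact h (pvtt_bp_mono_U (fun v hv => hU hv.2) (Set.Subset.refl _) (pvtt_shield hT Z hn hg h1 h0 hv hw hbp))

/-! ## 5. L5 (GLUE): no planarity -/

/-- forward walk along a black cycle, off `X` -/
theorem pvtt_walk_fwd {s : V → Bool} (c : T.Cyc) (hB : ∀ i, s (T.src (c.e i)) = true) (X : Set V) (q k : ℕ)
    (h : ∀ l, l < k → T.src (c.e (q + l)) ∉ X) : ReflTransGen (pvttStep T s Set.univ X) (T.src (c.e q)) (T.src (c.e (q + k))) := by
  induction k with
  | zero => exact ReflTransGen.refl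
  | succ k ih =>
    refine (ih fun l hl => h l (by omega)).tail ⟨⟨Set.mem_univ _, h k (by omega), hB _⟩, c.e (q + k), rfl, ?_⟩
    rw [c.chain]; rfl

/-- backward walk along a black cycle, off `X` -/
theorem pvtt_walk_bwd {s : V → Bool} (c : T.Cyc) (hB : ∀ i, s (T.src (c.e i)) = true) (X : Set V) (q k : ℕ)
    (h : ∀ l, 0 < l → l ≤ k → T.src (c.e (q + l)) ∉ X) : ReflTransGen (pvttStep T s Set.univ X) (T.src (c.e (q + k))) (T.src (c.e q)) := by
  induction k with
  | zero => exact ReflTransGen.refl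
  | succ k ih =>
    refine ReflTransGen.head ⟨⟨Set.mem_univ _, h (k + 1) (by omega) le_rfl, hB _⟩, T.opp (c.e (q + k)), ?_, ?_⟩ (ih fun l h0 hl => h l h0 (by omega))
    · rw [T.src_opp', c.chain]; rfl
    · rw [T.tgt_opp]

theorem pvtt_pth_n (c : T.Cyc) (u : ℕ) {m : ℕ} (hm : m < c.n) : (c.pth u m).n = m := by
  show min m (c.n - 1) = m
  omega

theorem pvtt_pth_mem (c : T.Cyc) (u : ℕ) {m : ℕ} (hm : m < c.n) {q : ℕ} (h1 : u ≤ q) (h2 : q ≤ u + m) : T.src (c.e q) ∈ (c.pth u m).verts := by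
  refine ⟨q - u, by rw [pvtt_pth_n c u hm]; omega, ?_⟩
  show T.src (c.e (u + (q - u))) = _
  rw [Nat.add_sub_cancel' h1]

theorem pvtt_pth_notMem (c : T.Cyc) (u : ℕ) {m : ℕ} (hm : m < c.n) {q : ℕ} (h1 : u + m < q) (h2 : q < u + c.n) : T.src (c.e q) ∉ (c.pth u m).verts := by
  rintro ⟨l, hl, he⟩
  rw [pvtt_pth_n c u hm] at hl
  have he' : T.src (c.e (u + l)) = T.src (c.e q) := he
  have := pl_cyc_idx c he' (by omega) (by omega)
  omega

theorem pvtt_pth_sub (c : T.Cyc) (u m : ℕ) : (c.pth u m).verts ⊆ c.verts := by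
  rintro x ⟨l, -, rfl⟩
  exact ⟨u + l, rfl⟩

/-- every vertex of the cycle has an index in the window `[u, u + n)` -/
theorem pvtt_cyc_window (c : T.Cyc) (u : ℕ) {z : V} (hz : z ∈ c.verts) : ∃ q, u ≤ q ∧ q < u + c.n ∧ T.src (c.e q) = z := by
  obtain ⟨i, rfl⟩ := hz
  have hn := pl_cyc_pos c
  refine ⟨u + (i + (c.n - u % c.n)) % c.n, by omega, by have := Nat.mod_lt (i + (c.n - u % c.n)) hn; omega, ?_⟩
  congr 1
  apply pl_cyc_eq_of_mod
  have h1 : u % c.n < c.n := Nat.mod_lt _ hn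
  have h2 : u % c.n + (i + (c.n - u % c.n)) = i + c.n := by omega
  calc (u + (i + (c.n - u % c.n)) % c.n) % c.n = (u % c.n + (i + (c.n - u % c.n))) % c.n := by
        simp [Nat.add_mod]
    _ = i % c.n := by rw [h2, Nat.add_mod_right]

/-- a bypass of the cycle which starts at a right dart of a piece is a bypass of the piece -/
theorem pvtt_piece_bp {s : V → Bool} (c : T.Cyc) (hB : ∀ i, s (T.src (c.e i)) = true) (u : ℕ) {m : ℕ} (hm0 : 1 ≤ m) (hm : m < c.n) {a₀ a₁ d : D}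
    (hd : d ∈ pvttRt T (c.pth u m) a₀ a₁) {z : V} (hz : z ∈ c.verts) (hne : z ≠ T.src d)
    (hw : ReflTransGen (pvttStep T s Set.univ c.verts) (T.tgt d) z) : pvttBP T s Set.univ (c.pth u m).verts (pvttRt T (c.pth u m) a₀ a₁) := by
  have hw' : ReflTransGen (pvttStep T s Set.univ (c.pth u m).verts) (T.tgt d) z :=
    ReflTransGen.mono (fun x y h => ⟨⟨h.1.1, fun hx => h.1.2.1 (pvtt_pth_sub c u m hx), h.1.2.2⟩, h.2⟩) _ _ hw
  by_cases hzg : z ∈ (c.pth u m).verts
  · exact ⟨d, hd, z, hzg, hne, hw'⟩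
  obtain ⟨q, hq1, hq2, rfl⟩ := pvtt_cyc_window c u hz
  have hq3 : u + m < q := by
    by_contra hc
    exact hzg (pvtt_pth_mem c u hm hq1 (by omega))
  by_cases hsd : T.src d = T.src (c.e u)
  · -- go backwards to the last vertex of the piece
    refine ⟨d, hd, T.src (c.e (u + m)), pvtt_pth_mem c u hm (by omega) le_rfl, ?_, hw'.trans ?_⟩
    · rw [hsd]
      intro he
      have := pl_cyc_idx c he.symm (by omega) (by omega)
      omega
    · have := pvtt_walk_bwd c hB (c.pth u m).verts (u + m) (q - (u + m)) (fun l h0 hl => pvtt_pth_notMem c u hm (by omega) (by omega))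
      rwa [Nat.add_sub_cancel' hq3.le] at this
  · -- go forwards to the first vertex of the piece
    refine ⟨d, hd, T.src (c.e u), pvtt_pth_mem c u hm le_rfl (by omega), fun he => hsd he.symm, hw'.trans ?_⟩
    have := pvtt_walk_fwd c hB (c.pth u m).verts q (u + c.n - q) (fun l hl => pvtt_pth_notMem c u hm (by omega) (by omega))
    rwa [Nat.add_sub_cancel' hq2.le, c.per] at this

/-- the spoke at a junction lies in the right sector of the cycle -/
theorem pvtt_glue_spoke (hT : T.IsSph) {s : V → Bool} (c : T.Cyc) (hB : ∀ i, s (T.src (c.e i)) = true) (i m : ℕ) (hm0 : 1 ≤ m) (hm : m < c.n) {a₀ a₁ : D}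
    (hs1 : T.src a₁ = T.src (c.e (i + m))) (hw1 : s (T.tgt a₁) = false) (hN : pvttNB T s Set.univ (c.pth i m) a₀ a₁) :
    pvttBtw T (T.opp (c.e (i + m - 1))) (c.e (i + m)) a₁ := by
  have hch : T.tgt (c.e (i + m - 1)) = T.src (c.e (i + m)) := by
    rw [c.chain]; congr 2; omega
  have hsa : T.src (T.opp (c.e (i + m - 1))) = T.src (c.e (i + m)) := by rw [T.src_opp', hch]
  have n1 : c.e (i + m) ≠ T.opp (c.e (i + m - 1)) := pl_cyc_ne_opp c _ _
  have n2 : a₁ ≠ T.opp (c.e (i + m - 1)) := by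
    intro h
    rw [h, T.tgt_opp, hB] at hw1
    exact Bool.noConfusion hw1
  have n3 : c.e (i + m) ≠ a₁ := by
    intro h
    rw [← h, c.chain, hB] at hw1
    exact Bool.noConfusion hw1
  rcases pvtt_btw_tri hT (a := T.opp (c.e (i + m - 1))) (b := c.e (i + m)) (b' := a₁) hsa.symm (hs1.trans hsa.symm) n1 n2 n3 with h | h
  · exact h
  exfalso
  apply hN
  have hd : c.e (i + m) ∈ pvttRt T (c.pth i m) a₀ a₁ := by
    refine ⟨m, by rw [pvtt_pth_n c i hm], ?_⟩
    have e1 : pvttBk T (c.pth i m) a₀ m = T.opp (c.e (i + m - 1)) := by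
      unfold pvttBk
      rw [if_neg (by omega)]
      show T.opp (c.e (i + (m - 1))) = _
      congr 2; omega
    have e2 : pvttFw T (c.pth i m) a₁ m = a₁ := by
      unfold pvttFw
      rw [if_neg (by rw [pvtt_pth_n c i hm]; omega)]
    rw [e1, e2]
    exact h
  refine pvtt_piece_bp c hB i hm0 hm hd (z := T.src (c.e (i + m + 1))) ⟨_, rfl⟩ ?_ ?_
  · intro he
    have := pl_cyc_idx c he.symm (by omega) (by have := c.three; omega)
    omega
  · rw [c.chain]

/-- **GLUE**: a black cycle cut at the times `t 0 < t 1 < …` with white spokes `a j` at the junctions; if no piece has a right bypass then the cycle has none -/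
theorem pvtt_glue (hT : T.IsSph) {s : V → Bool} (c : T.Cyc) (hB : ∀ i, s (T.src (c.e i)) = true) (t : ℕ → ℕ) (a : ℕ → D) (ht : StrictMono t)
    (hlt : ∀ j, t (j + 1) < t j + c.n) (hs : ∀ j, T.src (a j) = T.src (c.e (t j))) (hw : ∀ j, s (T.tgt (a j)) = false)
    (hN : ∀ j, pvttNB T s Set.univ (c.pth (t j) (t (j + 1) - t j)) (a j) (a (j + 1))) : pvttNBC T s Set.univ c := by
  classical
  rintro ⟨d, ⟨i, hbt⟩, z, hz, hne, hwalk⟩
  have hn := pl_cyc_pos c
  have hstep : ∀ j, t j < t (j + 1) := fun j => ht (Nat.lt_succ_self j)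
  -- a large index for the source of `d`
  obtain ⟨p, hp1, hp2, hp3⟩ : ∃ p, t 1 < p ∧ c.e p = c.e (i + 1) ∧ c.e (p - 1) = c.e i := by
    refine ⟨i + 1 + (t 1 + 1) * c.n, ?_, pl_cyc_per c _ _, ?_⟩
    · have : t 1 + 1 ≤ (t 1 + 1) * c.n := Nat.le_mul_of_pos_right _ hn
      omega
    · have : i + 1 + (t 1 + 1) * c.n - 1 = i + (t 1 + 1) * c.n := by omega
      rw [this, pl_cyc_per]
  rw [← hp2, ← hp3] at hbt
  -- the piece which contains `p`
  have ex : ∃ j, p < t j := ⟨p + 1, lt_of_lt_of_le (Nat.lt_succ_self p) (ht.le_apply)⟩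
  obtain ⟨j0, hj0, hmin⟩ : ∃ j0, p < t j0 ∧ ∀ j, j < j0 → ¬ p < t j := ⟨Nat.find ex, Nat.find_spec ex, fun j hj => Nat.find_min ex hj⟩
  have hj2 : 2 ≤ j0 := by
    by_contra hc
    have h01 : j0 = 0 ∨ j0 = 1 := by omega
    have h2 : t 0 < t 1 := hstep 0
    rcases h01 with h | h <;> rw [h] at hj0 <;> omega
  obtain ⟨j, rfl⟩ : ∃ j, j0 = j + 2 := ⟨j0 - 2, by omega⟩
  have hle : t (j + 1) ≤ p := not_lt.1 (hmin (j + 1) (by omega))
  have hm1 : t (j + 2) - t (j + 1) < c.n := by have h2 : t (j + 2) < t (j + 1) + c.n := hlt (j + 1); omega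
  have hm1' : 1 ≤ t (j + 2) - t (j + 1) := by have h2 : t (j + 1) < t (j + 2) := hstep (j + 1); omega
  have hm0 : t (j + 1) - t j < c.n := by have := hlt j; omega
  have hm0' : 1 ≤ t (j + 1) - t j := by have := hstep j; omega
  rcases lt_or_eq_of_le hle with hlt' | heq
  · -- interior vertex of the piece `j + 1`
    apply hN (j + 1)
    refine pvtt_piece_bp c hB (t (j + 1)) hm1' hm1 ?_ hz hne hwalk
    refine ⟨p - t (j + 1), by rw [pvtt_pth_n c _ hm1]; omega, ?_⟩
    have e1 : pvttBk T (c.pth (t (j + 1)) (t (j + 1 + 1) - t (j + 1))) (a (j + 1)) (p - t (j + 1)) = T.opp (c.e (p - 1)) := by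
      unfold pvttBk
      rw [if_neg (by omega)]
      show T.opp (c.e (t (j + 1) + (p - t (j + 1) - 1))) = _
      congr 2; omega
    have e2 : pvttFw T (c.pth (t (j + 1)) (t (j + 1 + 1) - t (j + 1))) (a (j + 1 + 1)) (p - t (j + 1)) = c.e p := by
      unfold pvttFw
      rw [if_pos (by rw [pvtt_pth_n c _ hm1]; omega)]
      show c.e (t (j + 1) + (p - t (j + 1))) = _
      congr 1; omega
    rw [e1, e2]
    exact hbt
  · -- junction
    subst heq
    have hsp := pvtt_glue_spoke hT c hB (t j) (t (j + 1) - t j) hm0' hm0 (a₀ := a j) (a₁ := a (j + 1))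
      (by rw [hs (j + 1)]; congr 2; have := hstep j; omega) (hw (j + 1)) (hN j)
    have e0 : t j + (t (j + 1) - t j) = t (j + 1) := by have := hstep j; omega
    rw [e0] at hsp
    rcases pvtt_btw_split hsp hbt with h | h | h
    · -- `d` is the white spoke
      subst h
      rcases ReflTransGen.cases_head hwalk with h | ⟨y, hy, -⟩
      · obtain ⟨q, hq⟩ := hz
        have h1 := hw (j + 1)
        rw [h, ← hq, hB] at h1
        exact Bool.noConfusion h1
      · have h1 := hw (j + 1)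
        rw [hy.1.2.2] at h1
        exact Bool.noConfusion h1
    · -- last sector of the piece `j`
      apply hN j
      refine pvtt_piece_bp c hB (t j) hm0' hm0 ?_ hz hne hwalk
      refine ⟨t (j + 1) - t j, by rw [pvtt_pth_n c _ hm0], ?_⟩
      have e1 : pvttBk T (c.pth (t j) (t (j + 1) - t j)) (a j) (t (j + 1) - t j) = T.opp (c.e (t (j + 1) - 1)) := by
        unfold pvttBk
        rw [if_neg (by omega)]
        show T.opp (c.e (t j + (t (j + 1) - t j - 1))) = _
        congr 2; omega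
      have e2 : pvttFw T (c.pth (t j) (t (j + 1) - t j)) (a (j + 1)) (t (j + 1) - t j) = a (j + 1) := by
        unfold pvttFw
        rw [if_neg (by rw [pvtt_pth_n c _ hm0]; omega)]
      rw [e1, e2]
      exact h
    · -- first sector of the piece `j + 1`
      apply hN (j + 1)
      refine pvtt_piece_bp c hB (t (j + 1)) hm1' hm1 ?_ hz hne hwalk
      refine ⟨0, Nat.zero_le _, ?_⟩
      have e1 : pvttBk T (c.pth (t (j + 1)) (t (j + 1 + 1) - t (j + 1))) (a (j + 1)) 0 = a (j + 1) := by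
        unfold pvttBk
        rw [if_pos rfl]
      have e2 : pvttFw T (c.pth (t (j + 1)) (t (j + 1 + 1) - t (j + 1))) (a (j + 1 + 1)) 0 = c.e (t (j + 1)) := by
        unfold pvttFw
        rw [if_pos (by rw [pvtt_pth_n c _ hm1]; omega)]
        rfl
      rw [e1, e2]
      exact h

/-! ## 6. L6 (RECOG) = converse of no-bypass (I.RIM L1.5b) -/

/-- the right apexes of a black cycle without right bypass are white, as soon as one right sector is not empty -/
theorem pvtt_apex_white {s : V → Bool} (c : T.Cyc) (hB : ∀ i, s (T.src (c.e i)) = true) (hN : pvttNBC T s Set.univ c) (hne : (pvttRtC T c).Nonempty) (i : ℕ) :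
    s (T.apex (T.opp (c.e i))) = false := by
  -- `E k`: the right sector at `x_(k+1)` is empty
  have L1 : ∀ k, T.rot (T.opp (c.e k)) ≠ c.e (k + 1) → T.rot (T.opp (c.e k)) ∈ pvttRtC T c := by
    intro k hk
    refine ⟨k, 1, one_pos, rfl, fun i' hi' => ?_⟩
    rcases Nat.le_one_iff_eq_zero_or_eq_one.1 hi' with rfl | rfl
    · exact (pl_cyc_ne_opp c (k + 1) k).symm
    · exact hk
  have L3 : ∀ k, T.rot (T.opp (c.e k)) = c.e (k + 1) → T.rot (T.opp (c.e (k + 1))) = c.e (k + 1 + 1) → T.rot (T.opp (c.e (k + 1 + 1))) = c.e (k + 1 + 1 + 1) := by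
    intro k h1 h2
    have a1 : T.nxt (T.nxt (T.opp (c.e k))) = T.opp (c.e (k + 1)) := by rw [← h1]; unfold PvMap.rot; rw [T.opp_opp]
    have a2 : T.nxt (T.nxt (T.opp (c.e (k + 1)))) = T.opp (c.e (k + 1 + 1)) := by rw [← h2]; unfold PvMap.rot; rw [T.opp_opp]
    have a3 : T.nxt (T.opp (c.e k)) = T.opp (c.e (k + 1 + 1)) := by rw [← a2, ← a1, T.nxt3]
    have a4 : T.rot (T.opp (c.e (k + 1 + 1))) = c.e k := by
      unfold PvMap.rot
      rw [← a3, T.nxt3, T.opp_opp]
    rw [a4]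
    apply pl_cyc_eq_of_src
    have : T.src (T.nxt (T.opp (c.e k))) = T.src (T.opp (c.e (k + 1 + 1))) := by rw [a3]
    rw [T.src_nxt, T.tgt_opp, T.src_opp', c.chain] at this
    exact this
  by_cases hE : T.rot (T.opp (c.e i)) = c.e (i + 1)
  · exfalso
    by_cases hE' : T.rot (T.opp (c.e (i + 1))) = c.e (i + 1 + 1)
    · -- all the sectors are empty
      have hall : ∀ m, T.rot (T.opp (c.e (i + m))) = c.e (i + m + 1) ∧ T.rot (T.opp (c.e (i + m + 1))) = c.e (i + m + 1 + 1) := by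
        intro m
        induction m with
        | zero => exact ⟨hE, hE'⟩
        | succ m ih => exact ⟨ih.2, L3 _ ih.1 ih.2⟩
      obtain ⟨x, j, j', hj', -, hx⟩ := hne
      apply hx 1 hj'
      have h1 := (hall (j + i * c.n - i)).1
      have hn := pl_cyc_pos c
      have hge : i ≤ j + i * c.n := by nlinarith
      rw [show i + (j + i * c.n - i) = j + i * c.n by omega, pl_cyc_per, show j + i * c.n + 1 = (j + 1) + i * c.n by ring, pl_cyc_per] at h1
      exact h1
    · -- a chord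
      apply hN
      have a1 : T.nxt (T.nxt (T.opp (c.e i))) = T.opp (c.e (i + 1)) := by rw [← hE]; unfold PvMap.rot; rw [T.opp_opp]
      have hz : T.apex (T.opp (c.e (i + 1))) = T.src (c.e i) := by rw [← a1, T.apex_nxt2, T.tgt_opp]
      refine ⟨_, L1 _ hE', T.apex (T.opp (c.e (i + 1))), ⟨i, hz.symm⟩, ?_, ?_⟩
      · rw [T.src_rot]; exact T.apex_ne_src _
      · rw [T.tgt_rot]
  · by_contra hs
    rw [Bool.not_eq_false] at hs
    apply hN
    by_cases hp : T.apex (T.opp (c.e i)) ∈ c.verts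
    · refine ⟨_, L1 _ hE, T.apex (T.opp (c.e i)), hp, ?_, ?_⟩
      · rw [T.src_rot]; exact T.apex_ne_src _
      · rw [T.tgt_rot]
    · refine ⟨_, L1 _ hE, T.tgt (T.opp (c.e i)), ⟨i, (T.tgt_opp _).symm⟩, ?_, ?_⟩
      · rw [T.src_rot]; exact T.tgt_ne_src _
      · rw [T.tgt_rot]
        refine ReflTransGen.single ⟨⟨trivial, hp, hs⟩, T.opp (T.nxt (T.opp (c.e i))), ?_, ?_⟩
        · rw [T.src_opp', T.tgt_nxt]
        · rw [T.tgt_opp, T.src_nxt]

/-- an edge of a monochromatic cycle is not a bridge: its two faces are not on one wall -/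
theorem pvtt_not_bridge (hT : T.IsSph) {s : V → Bool} (c : T.Cyc) (hB : ∀ i, s (T.src (c.e i)) = s (T.src (c.e 0))) (i : ℕ) : ¬ T.Wall s (T.opp (c.e i)) (c.e i) := by
  intro hw
  obtain ⟨hR, hL, hO, -⟩ := pl_jordan hT c
  have hcol : ∀ j, s (T.src (c.e j)) = s (T.tgt (c.e j)) := by
    intro j
    rw [c.chain j, hB j, hB (j + 1)]
  have hj : T.DJoin c.darts (T.opp (c.e i)) (c.e i) := by
    refine ReflTransGen.trans_induction_on (motive := fun {a b} _ => T.DJoin c.darts a b) hw (fun _ => ReflTransGen.refl) ?_ (fun _ _ h1 h2 => h1.trans h2)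
    rintro a b (h | ⟨ho, rfl⟩)
    · exact T.djoin_sf h
    · refine ReflTransGen.single (Or.inr ⟨rfl, ?_⟩)
      rintro (⟨j, rfl⟩ | ⟨j, hj⟩)
      · exact ho (hcol j)
      · apply ho
        have h1 : T.src a = T.tgt (c.e j) := by rw [hj, T.tgt_opp]
        have h2 : T.tgt a = T.src (c.e j) := by rw [hj, T.src_opp']
        rw [h1, h2, hcol j]
  have h1 := (pl_side_dual (pl_left_face c) (fun d hd => pl_left_bd_sub c hd) hj).2 (hL i)
  have h2 := hO i
  rw [hR] at h2
  exact h2 h1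

/-- a dart at a vertex of the cycle, neither it nor its opposite on the left, lies in a right sector -/
theorem pvtt_rc_sector (hT : T.IsSph) (c : T.Cyc) {d : D} (hv : T.src d ∈ c.verts) (h1 : d ∉ c.Left) (h2 : T.opp d ∉ c.Left) : d ∈ pvttRtC T c := by
  obtain ⟨j, hj⟩ := hv
  obtain ⟨i, hi⟩ : ∃ i, c.e (i + 1) = c.e j := by
    refine ⟨j + c.n - 1, ?_⟩
    have : j + c.n - 1 + 1 = j + c.n := by have := pl_cyc_pos c; omega
    rw [this, c.per]
  obtain ⟨hR, hL, hRo, hB⟩ := pl_jordan hT c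
  have hF := pl_left_face c
  have hne : c.e (i + 1) ≠ T.opp (c.e i) := pl_cyc_ne_opp c _ _
  have hsrc : T.src (c.e (i + 1)) = T.src (T.opp (c.e i)) := by rw [T.src_opp', c.chain]
  have hbd : ∀ d, T.src d = T.src (c.e (i + 1)) → T.Bd c.Left d → d = c.e (i + 1) ∨ d = T.opp (c.e i) :=
    fun d hd hb => pl_cyc_at c i hd ((hB d).1 hb)
  obtain ⟨K, hK0, hK, -, hmem⟩ := pl_cyc_sector hT c i
  obtain ⟨K', hK0', hK', hKno', -⟩ := pl_sector_aux hT hF hne.symm hsrc.symm
    (fun d hd hb => (hbd d (hd.trans hsrc.symm) hb).symm)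
  have hd : T.src d = T.src (c.e (i + 1)) := by rw [hi, hj]
  obtain ⟨m, rfl⟩ := hT.link (T.opp (c.e i)) d (hsrc.symm.trans hd.symm)
  have hper : Function.IsPeriodicPt T.rot (K + K') (T.opp (c.e i)) := by
    show T.rot^[K + K'] (T.opp (c.e i)) = T.opp (c.e i)
    rw [Function.iterate_add_apply, hK', hK]
  have hm : T.rot^[m % (K + K')] (T.opp (c.e i)) = T.rot^[m] (T.opp (c.e i)) := hper.iterate_mod_apply m
  have hlt : m % (K + K') < K + K' := Nat.mod_lt _ (by omega)
  by_cases hc : m % (K + K') < K'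
  · rcases Nat.eq_zero_or_pos (m % (K + K')) with h0 | h0
    · exfalso
      rw [h0] at hm
      rw [← hm] at h2
      simp only [Function.iterate_zero, id_eq, T.opp_opp] at h2
      exact h2 (hL i)
    · refine ⟨i, m % (K + K'), h0, hm, ?_⟩
      intro k hk
      rcases Nat.eq_zero_or_pos k with rfl | hk0
      · exact hne.symm
      · exact (hKno' k hk0 (by omega)).2
  · exfalso
    obtain ⟨q, hq⟩ : ∃ q, m % (K + K') = q + K' := ⟨m % (K + K') - K', by omega⟩
    apply h1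
    rw [hmem _ hd]
    refine ⟨q, by omega, ?_⟩
    rw [← hm, hq, Function.iterate_add_apply, hK']

/-- **RECOG** (L1.5b): a black cycle without right bypass, with a nonempty right sector, is a rim -/
theorem pvtt_recog (hT : T.IsSph) (hS : T.Simple) {s : V → Bool} (c : T.Cyc) (hB : ∀ i, s (T.src (c.e i)) = true) (hN : pvttNBC T s Set.univ c)
    (hne : (pvttRtC T c).Nonempty) (hfin : {d' | T.Wall s (T.opp (c.e 0)) d'}.Finite) : c.IsRim s := by
  have hmono : ∀ i, s (T.src (c.e i)) = s (T.src (c.e 0)) := fun i => by rw [hB i, hB 0]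
  refine pl_rim_conv_exc hT hS hmono ?_ ?_ hfin
  · intro a ha b hb x hax hxb
    by_contra hab
    obtain ⟨e, he1, he2, he3, he4, he5⟩ := hax
    have hsa : s a = true := by obtain ⟨i, rfl⟩ := ha; exact hB i
    have hsx : s x = true := by
      by_contra hx
      apply he3
      unfold PvMap.Occ
      rw [he1, he2, hsa]
      exact fun h => hx h.symm
    apply hN
    refine ⟨e, pvtt_rc_sector hT c (by rw [he1]; exact ha) he4 he5, b, hb, by rw [he1]; exact fun h => hab h.symm, ?_⟩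
    rw [he2]
    have key : ∀ y, ReflTransGen (fun u v => u ∉ c.verts ∧ c.RStep s u v) x y → s y = true ∧ ReflTransGen (pvttStep T s Set.univ c.verts) x y := by
      intro y hy
      induction hy with
      | refl => exact ⟨hsx, ReflTransGen.refl⟩
      | @tail y z _ hyz ih =>
        obtain ⟨hy1, e', h1, h2, h3, -, -⟩ := hyz
        refine ⟨?_, ih.2.tail ⟨⟨Set.mem_univ _, hy1, ih.1⟩, e', h1, h2⟩⟩
        by_contra hz
        apply h3
        unfold PvMap.Occ
        rw [h1, h2, ih.1]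
        exact fun h => hz h.symm
    exact (key b hxb).2
  · refine ⟨T.apex (T.opp (c.e 0)), ⟨T.nxt (T.nxt (T.opp (c.e 0))), ?_, rfl⟩, ?_⟩
    · exact ((pl_right_face c).nxt2 T _).2 ((pl_jordan hT c).2.2.1 0)
    · rw [pvtt_apex_white c hB hN hne 0, hB 0]
      decide

/-! ## 7. L7 (SUM) -/

/-- **SUM**: the sum over the label of a rim (`T.lsum s w (T.opp (c.e 0))` of `Defs/Bulk`, unfolded) is the sum over its right triangles -/
theorem pvtt_rim_sum {s : V → Bool} {c : T.Cyc} (h : c.IsRim s) (w : D → ℂ) :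
    ∑ᶠ (d' : D) (_ : T.SameLab s (T.opp (c.e 0)) d'), w d' = ∑ i ∈ Finset.range c.n, w (T.opp (c.e i)) := by
  classical
  have hset : {d' | T.SameLab s (T.opp (c.e 0)) d'} = ↑((Finset.range c.n).image (fun i => T.opp (c.e i))) := by
    ext d'
    simp only [Set.mem_ofPred_eq, Finset.coe_image, Finset.coe_range, Set.mem_image, Set.mem_Iio]
    rw [h.2.2 d']
    constructor
    · rintro ⟨i, rfl⟩
      exact ⟨i % c.n, Nat.mod_lt _ (pl_cyc_pos c), by rw [pl_cyc_mod]⟩
    · rintro ⟨i, -, rfl⟩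
      exact ⟨i, rfl⟩
  have h1 : ∑ᶠ (d' : D) (_ : T.SameLab s (T.opp (c.e 0)) d'), w d' = ∑ᶠ d' ∈ {d' | T.SameLab s (T.opp (c.e 0)) d'}, w d' := rfl
  rw [h1, hset, finsum_mem_coe_finset, Finset.sum_image]
  intro i hi j hj hij
  have hi' : i < c.n := Finset.mem_range.1 (by simpa using hi)
  have hj' : j < c.n := Finset.mem_range.1 (by simpa using hj)
  exact c.inj i j hi' hj' (by rw [T.opp_injective hij])

/-! ## 8. L8 = TR13 (CLOSE), TR14 (MASK) -/

/-- cyclic data of CLOSE: `m` black arcs `g 0 … g (m-1)` (indices `m` = `0`), white spokes `a j` at the junctions `(g j).v 0`, no right bypass -/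
structure PvttRing (T : PvMap V D) (s : V → Bool) where
  m : ℕ
  g : ℕ → T.Pth
  a : ℕ → D
  two : 2 ≤ m
  gper : g m = g 0
  aper : a m = a 0
  pos : ∀ j, j < m → 1 ≤ (g j).n
  three : 3 ≤ ∑ j ∈ Finset.range m, (g j).n
  junc : ∀ j, j < m → (g j).v (g j).n = (g (j + 1)).v 0
  spoke : ∀ j, j < m → T.src (a j) = (g j).v 0
  white : ∀ j, j < m → s (T.tgt (a j)) = false
  /-- the sources of all the darts are pairwise distinct -/
  disj : ∀ i j, i < m → j < m → ∀ k l, k < (g i).n → l < (g j).n → (g i).v k = (g j).v l → i = j ∧ k = l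
  black : ∀ j, j < m → pvttB s (g j)
  nb : ∀ j, j < m → pvttNB T s Set.univ (g j) (a j) (a (j + 1))

/-- the first index of the piece number `j` -/
def PvttRing.off {s : V → Bool} (𝔯 : PvttRing T s) (j : ℕ) : ℕ := ∑ i ∈ Finset.range j, (𝔯.g i).n

theorem pvtt_rg_off_succ {s : V → Bool} (𝔯 : PvttRing T s) (j : ℕ) : 𝔯.off (j + 1) = 𝔯.off j + (𝔯.g j).n := by
  unfold PvttRing.off
  rw [Finset.sum_range_succ]

theorem pvtt_rg_off_mono {s : V → Bool} (𝔯 : PvttRing T s) : Monotone 𝔯.off :=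
  monotone_nat_of_le_succ fun j => by rw [pvtt_rg_off_succ]; omega

/-- every index below `off M` lies in exactly one piece -/
theorem pvtt_rg_dec {s : V → Bool} (𝔯 : PvttRing T s) (M i : ℕ) (hi : i < 𝔯.off M) : ∃ j, j < M ∧ ∃ k, k < (𝔯.g j).n ∧ i = 𝔯.off j + k := by
  induction M with
  | zero => exact absurd hi (by simp [PvttRing.off])
  | succ M ih =>
    by_cases h : i < 𝔯.off M
    · obtain ⟨j, hj, k, hk, e⟩ := ih h
      exact ⟨j, by omega, k, hk, e⟩
    · rw [pvtt_rg_off_succ] at hi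
      exact ⟨M, by omega, i - 𝔯.off M, by omega, by omega⟩

/-- the darts of the pieces `0 … M` in a row -/
theorem pvtt_rg_cat {s : V → Bool} (𝔯 : PvttRing T s) (M : ℕ) : ∃ f : ℕ → D, ∀ j, j ≤ M → ∀ k, k < (𝔯.g j).n → f (𝔯.off j + k) = (𝔯.g j).e k := by
  induction M with
  | zero =>
    refine ⟨(𝔯.g 0).e, fun j hj k _ => ?_⟩
    obtain rfl : j = 0 := by omega
    simp [PvttRing.off]
  | succ M ih =>
    obtain ⟨f, hf⟩ := ih
    refine ⟨fun i => if i < 𝔯.off (M + 1) then f i else (𝔯.g (M + 1)).e (i - 𝔯.off (M + 1)), fun j hj k hk => ?_⟩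
    rcases Nat.lt_or_ge j (M + 1) with h | h
    · have h1 : 𝔯.off j + k < 𝔯.off (M + 1) := by
        have := pvtt_rg_off_mono 𝔯 (show j + 1 ≤ M + 1 by omega)
        rw [pvtt_rg_off_succ] at this
        omega
      show (if 𝔯.off j + k < 𝔯.off (M + 1) then f (𝔯.off j + k) else _) = _
      rw [if_pos h1]
      exact hf j (by omega) k hk
    · obtain rfl : j = M + 1 := by omega
      show (if 𝔯.off (M + 1) + k < 𝔯.off (M + 1) then _ else (𝔯.g (M + 1)).e (𝔯.off (M + 1) + k - 𝔯.off (M + 1))) = _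
      rw [if_neg (by omega), Nat.add_sub_cancel_left]

/-- the concatenation of the pieces is a cycle -/
theorem pvtt_ring_cyc {s : V → Bool} (𝔯 : PvttRing T s) :
    ∃ c : T.Cyc, c.n = 𝔯.off 𝔯.m ∧ ∀ j, j < 𝔯.m → ∀ k, k < (𝔯.g j).n → c.e (𝔯.off j + k) = (𝔯.g j).e k := by
  have hm := 𝔯.two
  obtain ⟨f, hf'⟩ := pvtt_rg_cat 𝔯 𝔯.m
  have hf : ∀ j, j < 𝔯.m → ∀ k, k < (𝔯.g j).n → f (𝔯.off j + k) = (𝔯.g j).e k := fun j hj k hk => hf' j hj.le k hk
  have h3 : 3 ≤ 𝔯.off 𝔯.m := 𝔯.three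
  have hlt : ∀ j, j < 𝔯.m → ∀ k, k < (𝔯.g j).n → 𝔯.off j + k < 𝔯.off 𝔯.m := by
    intro j hj k hk
    have := pvtt_rg_off_mono 𝔯 (show j + 1 ≤ 𝔯.m by omega)
    rw [pvtt_rg_off_succ] at this
    omega
  have hch : ∀ i, i + 1 < 𝔯.off 𝔯.m → T.tgt (f i) = T.src (f (i + 1)) := by
    intro i hi
    obtain ⟨j, hj, k, hk, rfl⟩ := pvtt_rg_dec 𝔯 𝔯.m i (by omega)
    rw [hf j hj k hk, (𝔯.g j).tgt_e k hk]
    by_cases h : k + 1 < (𝔯.g j).n
    · rw [show 𝔯.off j + k + 1 = 𝔯.off j + (k + 1) by omega, hf j hj _ h, (𝔯.g j).src_e _ h]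
    · have hk1 : k + 1 = (𝔯.g j).n := by omega
      have e : 𝔯.off j + k + 1 = 𝔯.off (j + 1) + 0 := by rw [pvtt_rg_off_succ]; omega
      have hj1 : j + 1 < 𝔯.m := by
        by_contra hc
        have hjm : j + 1 = 𝔯.m := by omega
        rw [hjm] at e
        omega
      have hp := 𝔯.pos (j + 1) hj1
      rw [e, hf (j + 1) hj1 0 (by omega), (𝔯.g (j + 1)).src_e 0 (by omega), hk1, 𝔯.junc j hj]
  have hcl : T.tgt (f (𝔯.off 𝔯.m - 1)) = T.src (f 0) := by
    have hp := 𝔯.pos (𝔯.m - 1) (by omega)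
    have hp0 := 𝔯.pos 0 (by omega)
    have e : 𝔯.off 𝔯.m - 1 = 𝔯.off (𝔯.m - 1) + ((𝔯.g (𝔯.m - 1)).n - 1) := by
      have := pvtt_rg_off_succ 𝔯 (𝔯.m - 1)
      rw [show 𝔯.m - 1 + 1 = 𝔯.m by omega] at this
      omega
    have e0 : (0 : ℕ) = 𝔯.off 0 + 0 := by simp [PvttRing.off]
    rw [e, hf _ (by omega) _ (by omega), (𝔯.g (𝔯.m - 1)).tgt_e _ (by omega), show (𝔯.g (𝔯.m - 1)).n - 1 + 1 = (𝔯.g (𝔯.m - 1)).n by omega,
      𝔯.junc _ (by omega), show 𝔯.m - 1 + 1 = 𝔯.m by omega, 𝔯.gper]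
    conv_rhs => rw [e0]
    rw [hf 0 (by omega) 0 (by omega), (𝔯.g 0).src_e 0 (by omega)]
  have hinj : ∀ i j, i < 𝔯.off 𝔯.m → j < 𝔯.off 𝔯.m → T.src (f i) = T.src (f j) → i = j := by
    intro i i' hi hi' h
    obtain ⟨j, hj, k, hk, rfl⟩ := pvtt_rg_dec 𝔯 𝔯.m i hi
    obtain ⟨j', hj', k', hk', rfl⟩ := pvtt_rg_dec 𝔯 𝔯.m i' hi'
    rw [hf j hj k hk, hf j' hj' k' hk', (𝔯.g j).src_e k hk, (𝔯.g j').src_e k' hk'] at h
    obtain ⟨rfl, rfl⟩ := 𝔯.disj j j' hj hj' k k' hk hk' h
    rfl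
  refine ⟨PvMap.Cyc.mk' (𝔯.off 𝔯.m) (f) h3 hch hcl hinj, rfl, ?_⟩
  intro j hj k hk
  show f ((𝔯.off j + k) % 𝔯.off 𝔯.m) = _
  rw [Nat.mod_eq_of_lt (hlt j hj k hk), hf j hj k hk]

/-- `NB` reads the path through its values in range only -/
theorem pvtt_rg_nb_congr {s : V → Bool} {U : Set V} {g g' : T.Pth} {a₀ a₁ : D} (hn : g.n = g'.n) (he : ∀ k, k < g.n → g.e k = g'.e k) (hv : ∀ k, k ≤ g.n → g.v k = g'.v k)
    (h : pvttNB T s U g a₀ a₁) : pvttNB T s U g' a₀ a₁ := by
  have h1 : g'.verts = g.verts := by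
    ext x
    constructor
    · rintro ⟨k, hk, rfl⟩
      exact ⟨k, by omega, hv k (by omega)⟩
    · rintro ⟨k, hk, rfl⟩
      exact ⟨k, by omega, (hv k hk).symm⟩
  have h2 : pvttRt T g' a₀ a₁ = pvttRt T g a₀ a₁ := by
    have hb : ∀ k, k ≤ g.n → pvttBk T g' a₀ k = pvttBk T g a₀ k := by
      intro k hk
      unfold pvttBk
      by_cases h0 : k = 0
      · rw [if_pos h0, if_pos h0]
      · rw [if_neg h0, if_neg h0, he (k - 1) (by omega)]
    have hf : ∀ k, k ≤ g.n → pvttFw T g' a₁ k = pvttFw T g a₁ k := by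
      intro k hk
      unfold pvttFw
      by_cases h0 : k < g.n
      · rw [if_pos h0, if_pos (by omega), he k h0]
      · rw [if_neg h0, if_neg (by omega)]
    ext x
    constructor
    · rintro ⟨k, hk, hx⟩
      rw [hb k (by omega), hf k (by omega)] at hx
      exact ⟨k, by omega, hx⟩
    · rintro ⟨k, hk, hx⟩
      rw [← hb k hk, ← hf k hk] at hx
      exact ⟨k, by omega, hx⟩
  unfold pvttNB at h ⊢
  rw [h1, h2]
  exact h

/-- the sum over the concatenation is the sum of the sums over the pieces -/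
theorem pvtt_rg_sum {s : V → Bool} (𝔯 : PvttRing T s) (F : ℕ → ℂ) (M : ℕ) :
    ∑ i ∈ Finset.range (𝔯.off M), F i = ∑ j ∈ Finset.range M, ∑ k ∈ Finset.range (𝔯.g j).n, F (𝔯.off j + k) := by
  induction M with
  | zero => simp [PvttRing.off]
  | succ M ih => rw [pvtt_rg_off_succ, Finset.sum_range_add, ih, Finset.sum_range_succ]

/-- **TR13 (CLOSE)**: the concatenation is a rim, and the sum over its label is the sum of the sums of the pieces -/
theorem pvtt_close (hT : T.IsSph) (hS : T.Simple) {s : V → Bool} (𝔯 : PvttRing T s) (hfin : {d' | T.Wall s (T.opp ((𝔯.g 0).e 0)) d'}.Finite) :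
    ∃ c : T.Cyc, c.IsRim s ∧ c.n = 𝔯.off 𝔯.m ∧ (∀ j, j < 𝔯.m → ∀ k, k < (𝔯.g j).n → c.e (𝔯.off j + k) = (𝔯.g j).e k) ∧
      ∀ w : D → ℂ, ∑ᶠ (d' : D) (_ : T.SameLab s (T.opp ((𝔯.g 0).e 0)) d'), w d' = ∑ j ∈ Finset.range 𝔯.m, pvttSum T w (𝔯.g j) := by
  obtain ⟨c, hcn, hce⟩ := pvtt_ring_cyc 𝔯
  have hm := 𝔯.two
  have hm0 : 0 < 𝔯.m := by omega
  have hp0 := 𝔯.pos 0 hm0
  have h00 : 𝔯.off 0 = 0 := by simp [PvttRing.off]
  have he0 : c.e 0 = (𝔯.g 0).e 0 := by
    have := hce 0 hm0 0 (by omega)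
    rwa [h00] at this
  -- the cycle is black
  have hB : ∀ i, s (T.src (c.e i)) = true := by
    intro i
    rw [← pl_cyc_mod c i]
    obtain ⟨j, hj, k, hk, e⟩ := pvtt_rg_dec 𝔯 𝔯.m (i % c.n) (by rw [← hcn]; exact Nat.mod_lt _ (pl_cyc_pos c))
    rw [e, hce j hj k hk, (𝔯.g j).src_e k hk]
    exact 𝔯.black j hj k hk.le
  -- every piece is shorter than the cycle
  have hshort : ∀ j, j < 𝔯.m → (𝔯.g j).n < c.n := by
    intro j hj
    rw [hcn]
    obtain ⟨j', hj', hne⟩ : ∃ j', j' < 𝔯.m ∧ j ≠ j' := by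
      rcases Nat.eq_zero_or_pos j with rfl | h
      · exact ⟨1, by omega, by omega⟩
      · exact ⟨0, by omega, by omega⟩
    exact Finset.single_lt_sum (f := fun j => (𝔯.g j).n) hne.symm (Finset.mem_range.2 hj) (Finset.mem_range.2 hj') (𝔯.pos j' hj') (fun _ _ _ => Nat.zero_le _)
  -- the cutting times
  let t : ℕ → ℕ := fun j => Nat.rec 0 (fun i x => x + (𝔯.g (i % 𝔯.m)).n) j
  have ht0 : t 0 = 0 := rfl
  have hts : ∀ j, t (j + 1) = t j + (𝔯.g (j % 𝔯.m)).n := fun _ => rfl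
  have hmod : ∀ j, j % 𝔯.m < 𝔯.m := fun j => Nat.mod_lt _ hm0
  have htq : ∀ j, ∃ q, t j = 𝔯.off (j % 𝔯.m) + q * c.n := by
    intro j
    induction j with
    | zero => exact ⟨0, by rw [ht0, Nat.zero_mod, h00]; omega⟩
    | succ j ih =>
      obtain ⟨q, hq⟩ := ih
      by_cases h : j % 𝔯.m + 1 < 𝔯.m
      · have e : (j + 1) % 𝔯.m = j % 𝔯.m + 1 := by
          rw [Nat.add_mod, Nat.mod_eq_of_lt (by omega : 1 < 𝔯.m), Nat.mod_eq_of_lt h]
        exact ⟨q, by rw [hts, hq, e, pvtt_rg_off_succ]; omega⟩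
      · have h' : j % 𝔯.m + 1 = 𝔯.m := by have := hmod j; omega
        have e : (j + 1) % 𝔯.m = 0 := by
          rw [Nat.add_mod, Nat.mod_eq_of_lt (by omega : 1 < 𝔯.m), h', Nat.mod_self]
        refine ⟨q + 1, ?_⟩
        have h2 := pvtt_rg_off_succ 𝔯 (j % 𝔯.m)
        rw [h'] at h2
        rw [hts, hq, e, h00, hcn, Nat.add_mul, one_mul]
        omega
  have hte : ∀ j k, k < (𝔯.g (j % 𝔯.m)).n → c.e (t j + k) = (𝔯.g (j % 𝔯.m)).e k := by
    intro j k hk
    obtain ⟨q, hq⟩ := htq j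
    rw [hq, show 𝔯.off (j % 𝔯.m) + q * c.n + k = 𝔯.off (j % 𝔯.m) + k + q * c.n by omega, pl_cyc_per, hce _ (hmod j) k hk]
  have hga : ∀ j, 𝔯.g ((j + 1) % 𝔯.m) = 𝔯.g (j % 𝔯.m + 1) ∧ 𝔯.a ((j + 1) % 𝔯.m) = 𝔯.a (j % 𝔯.m + 1) := by
    intro j
    by_cases h : j % 𝔯.m + 1 < 𝔯.m
    · have e : (j + 1) % 𝔯.m = j % 𝔯.m + 1 := by
        rw [Nat.add_mod, Nat.mod_eq_of_lt (by omega : 1 < 𝔯.m), Nat.mod_eq_of_lt h]
      rw [e]
      exact ⟨rfl, rfl⟩
    · have h' : j % 𝔯.m + 1 = 𝔯.m := by have := hmod j; omega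
      have e : (j + 1) % 𝔯.m = 0 := by
        rw [Nat.add_mod, Nat.mod_eq_of_lt (by omega : 1 < 𝔯.m), h', Nat.mod_self]
      rw [e, h', 𝔯.gper, 𝔯.aper]
      exact ⟨rfl, rfl⟩
  have htv : ∀ j k, k ≤ (𝔯.g (j % 𝔯.m)).n → T.src (c.e (t j + k)) = (𝔯.g (j % 𝔯.m)).v k := by
    intro j k hk
    rcases Nat.lt_or_ge k (𝔯.g (j % 𝔯.m)).n with h | h
    · rw [hte j k h, (𝔯.g (j % 𝔯.m)).src_e k h]
    · obtain rfl : k = (𝔯.g (j % 𝔯.m)).n := by omega
      have hp := 𝔯.pos _ (hmod (j + 1))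
      have := hte (j + 1) 0 (by omega)
      rw [← hts, ← Nat.add_zero (t (j + 1)), this, (𝔯.g ((j + 1) % 𝔯.m)).src_e 0 (by omega), (hga j).1, 𝔯.junc _ (hmod j)]
  have htm : StrictMono t := strictMono_nat_of_lt_succ fun j => by
    have := 𝔯.pos _ (hmod j)
    rw [hts]; omega
  have hNp : ∀ j, pvttNB T s Set.univ (c.pth (t j) (t (j + 1) - t j)) (𝔯.a (j % 𝔯.m)) (𝔯.a ((j + 1) % 𝔯.m)) := by
    intro j
    have hsh := hshort _ (hmod j)
    have hd : t (j + 1) - t j = (𝔯.g (j % 𝔯.m)).n := by rw [hts]; omega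
    have hn : (𝔯.g (j % 𝔯.m)).n = (c.pth (t j) (t (j + 1) - t j)).n := by
      show _ = min (t (j + 1) - t j) (c.n - 1)
      rw [hd]; omega
    rw [(hga j).2]
    exact pvtt_rg_nb_congr hn (fun k hk => (hte j k hk).symm) (fun k hk => (htv j k hk).symm) (𝔯.nb _ (hmod j))
  have hN : pvttNBC T s Set.univ c := by
    refine pvtt_glue hT c hB t (fun j => 𝔯.a (j % 𝔯.m)) htm ?_ ?_ ?_ hNp
    · intro j
      have := hshort _ (hmod j)
      rw [hts]; omega
    · intro j
      have := htv j 0 (Nat.zero_le _)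
      rw [Nat.add_zero] at this
      rw [this, 𝔯.spoke _ (hmod j)]
    · intro j
      exact 𝔯.white _ (hmod j)
  have hne : (pvttRtC T c).Nonempty := by
    have h1 := hNp 0
    have hd : t (0 + 1) - t 0 = (𝔯.g 0).n := by rw [hts, Nat.zero_mod]; omega
    rw [hd, ht0] at h1
    have hs1 : T.src (𝔯.a ((0 + 1) % 𝔯.m)) = T.src (c.e (0 + (𝔯.g 0).n)) := by
      have := htv 1 0 (Nat.zero_le _)
      rw [Nat.add_zero, show t 1 = 0 + (𝔯.g 0).n by rw [show (1 : ℕ) = 0 + 1 from rfl, hts, ht0, Nat.zero_mod]] at this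
      rw [this, 𝔯.spoke _ (hmod _)]
    have := pvtt_glue_spoke hT c hB 0 (𝔯.g 0).n hp0 (hshort 0 hm0) hs1 (𝔯.white _ (hmod _)) h1
    refine ⟨𝔯.a ((0 + 1) % 𝔯.m), 0 + (𝔯.g 0).n - 1, ?_⟩
    rw [show 0 + (𝔯.g 0).n - 1 + 1 = 0 + (𝔯.g 0).n by omega]
    exact this
  have hrim : c.IsRim s := pvtt_recog hT hS c hB hN hne (by rw [he0]; exact hfin)
  refine ⟨c, hrim, hcn, hce, fun w => ?_⟩
  rw [← he0, pvtt_rim_sum hrim w, hcn, pvtt_rg_sum 𝔯 (fun i => w (T.opp (c.e i))) 𝔯.m]
  refine Finset.sum_congr rfl fun j hj => ?_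
  unfold pvttSum
  refine Finset.sum_congr rfl fun k hk => ?_
  show w (T.opp (c.e (𝔯.off j + k))) = _
  rw [hce j (Finset.mem_range.1 hj) k (Finset.mem_range.1 hk)]

/-- **TR14 (MASK)**: a mask `χ` on the darts which vanishes on the right triangles of the pieces outside `J` sees the pieces of `J` only -/
theorem pvtt_mask (hT : T.IsSph) (hS : T.Simple) {s : V → Bool} (𝔯 : PvttRing T s) (hfin : {d' | T.Wall s (T.opp ((𝔯.g 0).e 0)) d'}.Finite)
    (w χ : D → ℂ) (J : Finset ℕ) (hJ : J ⊆ Finset.range 𝔯.m) (hχ : ∀ j, j < 𝔯.m → j ∉ J → ∀ k, k < (𝔯.g j).n → χ (T.opp ((𝔯.g j).e k)) = 0) :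
    ∑ᶠ (d' : D) (_ : T.SameLab s (T.opp ((𝔯.g 0).e 0)) d'), χ d' * w d' = ∑ j ∈ J, pvttSum T (fun d => χ d * w d) (𝔯.g j) := by
  obtain ⟨c, -, -, -, hsum⟩ := pvtt_close hT hS 𝔯 hfin
  refine (hsum fun d => χ d * w d).trans ?_
  symm
  apply Finset.sum_subset hJ
  intro j hj hjJ
  unfold pvttSum
  apply Finset.sum_eq_zero
  intro k hk
  show χ (T.opp ((𝔯.g j).e k)) * w (T.opp ((𝔯.g j).e k)) = 0
  rw [hχ j (Finset.mem_range.1 hj) hjJ k (Finset.mem_range.1 hk), zero_mul]

theorem pvtt_ring_eqns_cite : True := by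
  have := @PvttRing.off.eq_1
  trivial

end Claimed.Agent.R289
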