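-- KEEP
import Claimed.Agent.R289.Tr.Defs
import Claimed.Agent.R289.Tr.StKit
import Claimed.Agent.R289.Tr.OneWall
import Claimed.Agent.R289.Tr.Sweep
import Claimed.Agent.R289.Tr.Tight

/-!
# Row 289 (S0537, Cardy for Poisson-Voronoi), THE WALL, file Tr/C12 : (C1) ACTUAL ⇒ NB and (C2) CLOSING, IN THE NAMES OF `Tr/Defs.lean` v3      (head helper194; referee helper78; prefix `pvwc_`)

TEXT: `origin/helper208:notes/R289/W1_208_v3.md` E1 (C1), E2 (C2).      EXITS: `pvwc_C1`, `pvwc_C2_arc`, `pvwc_C2`, `pvwc_C2_rim` (faced `NB` of record);   `pvwc_C1sec`, `pvwc_C2sec_arc` (sector form `NBsec`, not of record).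
PROOF OF (C2):  `P' = g₀ · inner(t) · y · inner(s)` is a closed chain of four PIECES of ONE wall (`Tr/OneWall`: `pvow_ring`).
   * `inner(t)`, `y`, `inner(s)` are loop erasures of banks of consecutive strands of one orbit (`pvow_le_onwall`);
   * `g₀`: the white SHIELD path `q` (white layers of the inner strand of `t`, of `Σ⁺(t)`, the path of `WO`, white layers of `Σ⁻(s)`, of the inner strand of `s`) closes `g₀` to a cell `Z = g₀.glue q`.
     FACED ROUTE (sec.5): the strand from `dm(t)` stays on the LEFT of `Z` up to the tip of `Σ⁺(t)`, so does, backwards from `dp(s)`, the strand up to the tip of `Σ⁻(s)`; so the two tip apexes, hence `YCL` (joined to them off `Z`), lie strictly on the left of `Z` [G1 is now a LEMMA: `pvwc_G1`];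
     a white walk from a right apex of `g₀`, off `g₀`, which ends at a site touching `YCL` must leave the open cell: it meets `q`.   So `g₀` is `GFaced` with anchor `tgt dp(s)`; `pvow_gfaced_onwall`.      No sweep, no finiteness, no sectors.
     SECTOR ROUTE (sec.2, 5b): `NBsec` + G1 gives `PvswNB σ Z g₀.n`; TRAP + SWEEP of 225 (`pvsw_piece`).
WHAT IS NOT IN `PvwDat.Ok` (v3) AND IS CONSUMED HERE = the record `PvwDat.Fit` (named hypotheses: `sep_s`, `sep_t`, `dist` = G2 of 78, masks on Mesh);   FACED ROUTE ONLY: `PvwDat.Col` (below).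
**v3 (10:50Z 15 Oct), DIFF OF SIGNATURES against v2**:  (a) "inside the gate" is `ins`: `pvwc_inner_lay`, `pvwc_tip_run(_back)`, `pvwc_join_inner` conclude in `ins`; `Fit.sep_s sep_t`, `FitSec.far_s far_t`, `hsep hsep' hfs hft hfo` ask `∉ ins` (WEAKER than `∉ core`);   `pvwc_inner_of_gate` (agreement on `core`) and `Sh` (`core`) keep their text.
   (b) `pvwc_C1` : `hy : ∀ v ∈ apx, v ∈ NU` (= `Ok.off_y`).      (c) the faced `NB` now stops at the boundary layer of `NU`, so (C2) needs `Int Z.Right ⊆ NU` = `pvwc_G1nu`, from the NEW COLOUR-FREE hypothesis `hcol : 𝔇.Col pos π`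
   (every site off `NU` is joined to a tip apex off `Wl` = the sites where a cell may run): new argument, after `hF` / `hsep'`, of `pvwc_lam_out`, `pvwc_g_onwall`, `pvwc_C2_arc`, `pvwc_C2`, `pvwc_C2_rim`.      NOT asked by `pvwc_C2_core`, `pvwc_ring`, nor by the sector route (`NBsec` is `Ycol`-free: `pvwc_G1` for `YCL` stays).

sec.0 paths      sec.1 what is read of a state: `PvwSt.Inner`      sec.2 gate sectors      sec.3 (C1)      sec.4 shield      sec.5 faced transfer      sec.5b NB transfer (sector)      sec.6 one wall      sec.7 masses      sec.8 (C2)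
Prove IN PLACE, helpers just above the theorem.  A misfit of a statement: one line to 194.
-/

set_option autoImplicit false

namespace Claimed.Agent.R289

open Relation

variable {V D : Type} {T : PvMap V D}

/-! ## 0. Paths -/

/-- one more dart at each end of a path -/
theorem pvwc_wrap (p : T.Pth) (a b : D) (ha : T.tgt a = p.v 0) (hb : T.src b = p.v p.n) (h1 : T.src a ∉ p.verts) (h2 : T.tgt b ∉ p.verts) (h3 : T.src a ≠ T.tgt b) :
    ∃ q : T.Pth, q.n = p.n + 2 ∧ q.e 0 = a ∧ q.e (p.n + 1) = b ∧ q.v 0 = T.src a ∧ q.v (p.n + 2) = T.tgt b ∧ q.inner = p.verts := by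
  refine ⟨{ n := p.n + 2
            v := fun k => if k = 0 then T.src a else if k ≤ p.n + 1 then p.v (k - 1) else T.tgt b
            e := fun k => if k = 0 then a else if k ≤ p.n then p.e (k - 1) else b
            src_e := ?_
            tgt_e := ?_
            inj := ?_ }, rfl, rfl, ?_, rfl, ?_, ?_⟩
  · intro k hk
    by_cases h0 : k = 0
    · simp only [h0, if_true]
    · by_cases hk1 : k ≤ p.n
      · simp only [h0, if_false, hk1, if_true, show k ≤ p.n + 1 by omega]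
        exact p.src_e _ (by omega)
      · have e : k = p.n + 1 := by omega
        subst e
        simp only [h0, if_false, hk1, le_refl, if_true, Nat.add_sub_cancel]
        exact hb
  · intro k hk
    by_cases h0 : k = 0
    · subst h0
      simp only [if_true, show (0 + 1 = 0) = False by simp, if_false, show 0 + 1 ≤ p.n + 1 by omega, Nat.add_sub_cancel]
      exact ha
    · by_cases hk1 : k ≤ p.n
      · simp only [h0, if_false, hk1, if_true, show (k + 1 = 0) = False by simp, show k + 1 ≤ p.n + 1 by omega, Nat.add_sub_cancel]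
        rw [p.tgt_e _ (by omega)]
        congr 1
        omega
      · simp only [h0, if_false, hk1, show (k + 1 = 0) = False by simp, show ¬ (k + 1 ≤ p.n + 1) by omega]
  · intro i j hi hj hij
    by_cases i0 : i = 0 <;> by_cases j0 : j = 0
    · omega
    · exfalso
      by_cases j1 : j ≤ p.n + 1
      · simp only [i0, j0, if_true, if_false, j1] at hij
        exact h1 ⟨j - 1, by omega, hij.symm⟩
      · simp only [i0, j0, if_true, if_false, j1] at hij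
        exact h3 hij
    · exfalso
      by_cases i1 : i ≤ p.n + 1
      · simp only [i0, j0, if_true, if_false, i1] at hij
        exact h1 ⟨i - 1, by omega, hij⟩
      · simp only [i0, j0, if_true, if_false, i1] at hij
        exact h3 hij.symm
    · by_cases i1 : i ≤ p.n + 1 <;> by_cases j1 : j ≤ p.n + 1
      · simp only [i0, j0, if_true, if_false, i1, j1] at hij
        have := p.inj _ _ (by omega) (by omega) hij
        omega
      · exfalso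
        simp only [i0, j0, if_true, if_false, i1, j1] at hij
        exact h2 ⟨i - 1, by omega, hij⟩
      · exfalso
        simp only [i0, j0, if_true, if_false, i1, j1] at hij
        exact h2 ⟨j - 1, by omega, hij.symm⟩
      · omega
  · simp only [show (p.n + 1 = 0) = False by simp, if_false, show ¬ (p.n + 1 ≤ p.n) by omega]
  · simp only [show (p.n + 2 = 0) = False by simp, if_false, show ¬ (p.n + 2 ≤ p.n + 1) by omega]
  · ext x
    constructor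
    · rintro ⟨i, hi0, hi1, hx⟩
      have hi0' : i ≠ 0 := by omega
      have hi1' : i ≤ p.n + 1 := by
        have : i < p.n + 2 := hi1
        omega
      have hx' : (if i = 0 then T.src a else if i ≤ p.n + 1 then p.v (i - 1) else T.tgt b) = x := hx
      rw [if_neg hi0', if_pos hi1'] at hx'
      exact ⟨i - 1, by omega, hx'⟩
    · rintro ⟨i, hi, hx⟩
      refine ⟨i + 1, by omega, (by show i + 1 < p.n + 2; omega), ?_⟩
      show (if i + 1 = 0 then T.src a else if i + 1 ≤ p.n + 1 then p.v (i + 1 - 1) else T.tgt b) = x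
      rw [if_neg (by omega), if_pos (by omega), Nat.add_sub_cancel]
      exact hx

/-- the path with one dart -/
theorem pvwc_one (d : D) : ∃ q : T.Pth, q.n = 1 ∧ q.e 0 = d ∧ q.v 0 = T.src d ∧ q.v 1 = T.tgt d ∧ q.inner = ∅ := by
  refine ⟨{ n := 1
            v := fun k => if k = 0 then T.src d else T.tgt d
            e := fun _ => d
            src_e := ?_
            tgt_e := ?_
            inj := ?_ }, rfl, rfl, rfl, rfl, ?_⟩
  · intro k hk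
    have : k = 0 := by omega
    subst this
    rfl
  · intro k hk
    have : k = 0 := by omega
    subst this
    rfl
  · intro i j hi hj hij
    by_cases i0 : i = 0 <;> by_cases j0 : j = 0
    · omega
    · simp only [i0, j0, if_true, if_false] at hij
      exact absurd hij.symm (T.src_ne d)
    · simp only [i0, j0, if_true, if_false] at hij
      exact absurd hij (T.src_ne d)
    · omega
  · ext x
    constructor
    · rintro ⟨i, h0, h1, -⟩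
      have h1' : i < 1 := h1
      omega
    · intro hx
      exact absurd hx (Set.notMem_empty x)

/-- the ends of a loop erasure -/
theorem pvwc_le_ends {b : ℕ → V} {n : ℕ} {y : T.Pth} (h : PvwLE T b n y) : y.v 0 = b 0 ∧ y.v y.n = b n := by
  obtain ⟨j, h0, hn, hk, -⟩ := h
  refine ⟨h0, ?_⟩
  rw [(hk y.n le_rfl).2.1, hn]

/-- a loop erasure reads the walk up to the time `n` only -/
theorem pvwc_le_congr {b b' : ℕ → V} {n : ℕ} {y : T.Pth} (hb : ∀ i, i ≤ n → b' i = b i) (h : PvwLE T b n y) : PvwLE T b' n y := by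
  obtain ⟨j, h0, hn, hk, hs⟩ := h
  refine ⟨j, by rw [h0, hb 0 (Nat.zero_le n)], hn, fun k hkn => ?_, fun k hkn => ?_⟩
  · obtain ⟨a1, a2, a3⟩ := hk k hkn
    refine ⟨a1, by rw [a2, hb _ a1], fun i hi hin => ?_⟩
    rw [hb i hin, hb _ a1]
    exact a3 i hi hin
  · have a1 := (hk k hkn.le).1
    have hne : j k ≠ n := by
      intro e
      have e1 : y.v k = y.v y.n := by rw [(hk k hkn.le).2.1, (hk y.n le_rfl).2.1, hn, e]
      have := y.inj _ _ hkn.le le_rfl e1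
      omega
    rw [hs k hkn, hb _ (by omega)]

/-- every walk has a loop erasure -/
theorem pvwc_le_exists [Nonempty D] (b : ℕ → V) (n : ℕ) (hb : ∀ i, i < n → b (i + 1) = b i ∨ T.Adj (b i) (b (i + 1))) : ∃ y : T.Pth, PvwLE T b n y := by
  classical
  have key : ∀ r m, m ≤ n → n - m = r → ∃ (y : T.Pth) (j : ℕ → ℕ), y.v 0 = b m ∧ j y.n = n ∧
      (∀ k, k ≤ y.n → m ≤ j k ∧ j k ≤ n ∧ y.v k = b (j k) ∧ ∀ i, j k < i → i ≤ n → b i ≠ b (j k)) ∧ ∀ k, k < y.n → y.v (k + 1) = b (j k + 1) := by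
    intro r
    induction r using Nat.strong_induction_on with
    | _ r ih =>
      intro m hm hr
      set l := Nat.findGreatest (fun i => b i = b m) n with hl
      have hl1 : b l = b m := Nat.findGreatest_spec (P := fun i => b i = b m) hm rfl
      have hl2 : m ≤ l := Nat.le_findGreatest (P := fun i => b i = b m) hm rfl
      have hl3 : l ≤ n := Nat.findGreatest_le n
      have hl4 : ∀ i, l < i → i ≤ n → b i ≠ b m := fun i h1 h2 => Nat.findGreatest_is_greatest (P := fun i => b i = b m) h1 h2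
      by_cases hln : l = n
      · refine ⟨PvMap.Pth.nil T (b m) (Classical.arbitrary D), fun _ => n, rfl, rfl, fun k _ => ⟨hm, le_rfl, ?_, fun i (h1 : n < i) h2 => absurd h2 (by omega)⟩, fun k hk => absurd hk (Nat.not_lt_zero k)⟩
        show b m = b n
        rw [← hln, hl1]
      · obtain ⟨y', j', h0, hn', hk', hs'⟩ := ih (n - (l + 1)) (by omega) (l + 1) (by omega) rfl
        have hne : b (l + 1) ≠ b l := by rw [hl1]; exact hl4 (l + 1) (by omega) (by omega)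
        obtain ⟨d, hd1, hd2⟩ : T.Adj (b l) (b (l + 1)) := (hb l (by omega)).resolve_left hne
        have hoff : ∀ k, k ≤ y'.n → y'.v k ≠ b m := fun k hk => by
          rw [(hk' k hk).2.2.1]
          exact hl4 _ (by have := (hk' k hk).1; omega) (hk' k hk).2.1
        refine ⟨{ n := y'.n + 1
                  v := fun k => Nat.casesOn k (b m) y'.v
                  e := fun k => Nat.casesOn k d y'.e
                  src_e := ?_
                  tgt_e := ?_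
                  inj := ?_ }, fun k => Nat.casesOn k l j', rfl, hn', ?_, ?_⟩
        · intro k hk
          cases k with
          | zero => exact hd1.trans hl1
          | succ k => exact y'.src_e k (by omega)
        · intro k hk
          cases k with
          | zero => exact hd2.trans h0.symm
          | succ k => exact y'.tgt_e k (by omega)
        · intro i j hi hj hij
          cases i with
          | zero =>
            cases j with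
            | zero => rfl
            | succ j => exact absurd hij.symm (hoff j (by omega))
          | succ i =>
            cases j with
            | zero => exact absurd hij (hoff i (by omega))
            | succ j => rw [y'.inj i j (by omega) (by omega) hij]
        · intro k hk
          cases k with
          | zero => exact ⟨hl2, hl3, hl1.symm, fun i h1 h2 => by show b i ≠ b l; rw [hl1]; exact hl4 i h1 h2⟩
          | succ k =>
            have hk2 : k + 1 ≤ y'.n + 1 := hk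
            obtain ⟨a1, a2, a3, a4⟩ := hk' k (by omega)
            exact ⟨(by show m ≤ j' k; omega), a2, a3, a4⟩
        · intro k hk
          cases k with
          | zero => exact h0
          | succ k =>
            have hk2 : k + 1 < y'.n + 1 := hk
            exact hs' k (by omega)
  obtain ⟨y, j, h0, hn, hk, hs⟩ := key n 0 (Nat.zero_le n) rfl
  exact ⟨y, j, h0, hn, fun k hkn => (hk k hkn).2, hs⟩

/-- the vertices of a loop erasure are vertices of the walk -/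
theorem pvwc_le_verts {b : ℕ → V} {n : ℕ} {y : T.Pth} (h : PvwLE T b n y) : y.verts ⊆ {v | ∃ i, i ≤ n ∧ b i = v} := by
  obtain ⟨j, -, -, hk, -⟩ := h
  rintro x ⟨k, hkn, rfl⟩
  exact ⟨j k, (hk k hkn).1, (hk k hkn).2.1.symm⟩

/-! ## 1. What (C1), (C2) read of a state -/

/-- the inner strand of the state `𝔖` for the colouring `σ` -/
structure PvwSt.Inner (𝔖 : PvwSt T) (σ : V → Bool) : Prop where
  bw_m : pvasBW T σ 𝔖.dm
  bw_p : pvasBW T σ 𝔖.dp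
  dp_on : T.opp 𝔖.dp ∈ 𝔖.S.darts
  dm_on : 𝔖.dm ∈ 𝔖.S.darts
  ne : 𝔖.gp ≠ 𝔖.gm
  /-- the neighbours of `g⁻`, `g⁺` on the gate are white -/
  nb : ∀ d, T.Edg 𝔖.S.darts d → T.src d = 𝔖.gm ∨ T.src d = 𝔖.gp → σ (T.tgt d) = false
  run : ∃ n, pvasIt T σ 𝔖.dm n = 𝔖.dp ∧ (∀ i, i < n → pvasIt T σ 𝔖.dm i ∈ 𝔖.S.Left) ∧ PvwLE T (fun i => T.src (pvasIt T σ 𝔖.dm i)) n 𝔖.inn

/-- the layers of the inner strand lie in the core -/
theorem pvwc_inner_lay (hT : T.IsSph) {𝔖 : PvwSt T} {s : V → Bool} {n : ℕ} (hn : pvasIt T s 𝔖.dm n = 𝔖.dp) (hL : ∀ i, i < n → pvasIt T s 𝔖.dm i ∈ 𝔖.S.Left)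
    (hp : T.opp 𝔖.dp ∈ 𝔖.S.darts) {v : V} (hv : v ∈ pvasLayB T s 𝔖.dm n ∨ v ∈ pvasLayW T s 𝔖.dm n) : v ∈ 𝔖.ins := by
  have hF := pl_left_face 𝔖.S
  have hD : ∀ d ∈ 𝔖.S.darts, d ∈ 𝔖.S.Left := by
    rintro d ⟨i, rfl⟩
    exact (pl_jordan hT 𝔖.S).2.1 i
  have hs : ∀ d, d ∈ 𝔖.S.Left → T.src d ∈ 𝔖.ins ∧ T.tgt d ∈ 𝔖.ins := fun d hd => ⟨⟨d, hd, rfl⟩, ⟨T.nxt d, (hF d).2 hd, rfl⟩⟩
  have key : ∀ i, i ≤ n → T.src (pvasIt T s 𝔖.dm i) ∈ 𝔖.ins ∧ T.tgt (pvasIt T s 𝔖.dm i) ∈ 𝔖.ins := by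
    intro i hi
    rcases Nat.lt_or_ge i n with h | h
    · exact hs _ (hL i h)
    · have e : i = n := le_antisymm hi h
      rw [e, hn]
      have := hs _ (hD _ hp)
      rw [T.src_opp', T.tgt_opp] at this
      exact ⟨this.2, this.1⟩
  rcases hv with ⟨i, hi, rfl⟩ | ⟨i, hi, rfl⟩
  · exact (key i hi).1
  · exact (key i hi).2

/-- **a gate of the prescribed colouring is read in the core** -/
theorem pvwc_inner_of_gate (hT : T.IsSph) {𝔖 : PvwSt T} {pos : V → ℂ} {h : ℝ} {z : ℂ} {τ : PvwTy} {col σ : V → Bool} (hG : 𝔖.Gate pos h z τ col)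
    (hσ : PvwAgree 𝔖.core σ col) : 𝔖.Inner σ := by
  replace hσ : PvwAgree 𝔖.ins σ col := fun v hv => hσ v (pvwk_ins_sub_core hG hv)
  have hF := pl_left_face 𝔖.S
  have hD : ∀ d ∈ 𝔖.S.darts, d ∈ 𝔖.S.Left := by
    rintro d ⟨i, rfl⟩
    exact (pl_jordan hT 𝔖.S).2.1 i
  have hs : ∀ d, d ∈ 𝔖.S.Left → T.src d ∈ 𝔖.ins ∧ T.tgt d ∈ 𝔖.ins := fun d hd => ⟨⟨d, hd, rfl⟩, ⟨T.nxt d, (hF d).2 hd, rfl⟩⟩
  have hvc : ∀ v ∈ 𝔖.S.verts, v ∈ 𝔖.ins := fun v hv => by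
    show v ∈ T.VOf 𝔖.S.Left
    rw [pl_VOf_left hT]
    exact Or.inl hv
  have hm := hs _ (hD _ hG.dm_on)
  have hp := hs _ (hD _ hG.dp_on)
  rw [T.src_opp', T.tgt_opp] at hp
  obtain ⟨n, hn1, hn2, hn3⟩ := hG.strand
  have hit : ∀ i, i ≤ n → pvasIt T σ 𝔖.dm i = pvasIt T col 𝔖.dm i :=
    pvas_it_congr fun v hv => hσ v (pvwc_inner_lay hT hn1 hn2 hG.dp_on hv)
  refine ⟨⟨by rw [hσ _ hm.1]; exact hG.bw_m.1, by rw [hσ _ hm.2]; exact hG.bw_m.2⟩, ⟨by rw [hσ _ hp.2]; exact hG.bw_p.1, by rw [hσ _ hp.1]; exact hG.bw_p.2⟩,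
    hG.dp_on, hG.dm_on, hG.ne, ?_, ⟨n, by rw [hit n le_rfl]; exact hn1, fun i hi => by rw [hit i hi.le]; exact hn2 i hi,
      pvwc_le_congr (fun i hi => by rw [hit i hi]) hn3⟩⟩
  intro d hd hsd
  have htv : T.tgt d ∈ 𝔖.S.verts := by
    have he : T.Edg 𝔖.S.darts (T.opp d) := by
      rcases hd with h | h
      · exact Or.inr (by rw [T.opp_opp]; exact h)
      · exact Or.inl h
    have := pl_cyc_edg_src 𝔖.S he
    rwa [T.src_opp'] at this
  rw [hσ _ (hvc _ htv)]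
  rcases hsd with hsd | hsd
  · obtain ⟨a, ha⟩ := hG.dm_on
    have hn3' := 𝔖.S.three
    have e1 : 𝔖.S.e (a + 𝔖.S.n - 1 + 1) = 𝔖.dm := by
      rw [show a + 𝔖.S.n - 1 + 1 = a + 𝔖.S.n by omega, 𝔖.S.per, ha]
    rcases pl_cyc_at 𝔖.S (a + 𝔖.S.n - 1) (by rw [e1]; exact hsd) hd with e | e
    · rw [e, e1]
      exact hG.bw_m.2
    · rw [e, T.tgt_opp]
      by_contra hb
      have hb' : col (T.src (𝔖.S.e (a + 𝔖.S.n - 1))) = true := by
        cases hc : col (T.src (𝔖.S.e (a + 𝔖.S.n - 1)))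
        · exact absurd hc hb
        · rfl
      have hch : T.tgt (𝔖.S.e (a + 𝔖.S.n - 1)) = 𝔖.gm := by rw [𝔖.S.chain, e1]; rfl
      rcases hG.two _ ⟨_, rfl⟩ hb' with h1 | h1
      · have := hG.left _ ⟨_, rfl⟩ h1
        rw [hch] at this
        have h2 := hG.bw_m.1
        rw [show T.src 𝔖.dm = 𝔖.gm from rfl, this] at h2
        exact Bool.noConfusion h2
      · exact T.src_ne (𝔖.S.e (a + 𝔖.S.n - 1)) (by
          show T.tgt _ = _
          rw [hch, h1])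
  · obtain ⟨a, ha⟩ := hG.dp_on
    have e1 : T.src (𝔖.S.e (a + 1)) = 𝔖.gp := by
      rw [← 𝔖.S.chain, ha, T.tgt_opp]
      rfl
    rcases pl_cyc_at 𝔖.S a (by rw [e1]; exact hsd) hd with e | e
    · rw [e]
      exact hG.left _ ⟨_, rfl⟩ e1
    · rw [e, ha, T.opp_opp]
      exact hG.bw_p.2

theorem pvwc_inner_ends {𝔖 : PvwSt T} {σ : V → Bool} (hI : 𝔖.Inner σ) : 𝔖.inn.v 0 = 𝔖.gm ∧ 𝔖.inn.v 𝔖.inn.n = 𝔖.gp ∧ 0 < 𝔖.inn.n := by
  obtain ⟨n, h1, -, h3⟩ := hI.run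
  obtain ⟨e0, e1⟩ := pvwc_le_ends h3
  have a0 : 𝔖.inn.v 0 = 𝔖.gm := e0
  have a1 : 𝔖.inn.v 𝔖.inn.n = 𝔖.gp := by
    rw [e1]
    show T.src (pvasIt T σ 𝔖.dm n) = _
    rw [h1]
    rfl
  refine ⟨a0, a1, ?_⟩
  rcases Nat.eq_zero_or_pos 𝔖.inn.n with h | h
  · exfalso
    rw [h, a0] at a1
    exact hI.ne a1.symm
  · exact h

/-- the darts of the inner arc are bank darts of the inner strand: their right faces are inside the gate, their vertices are black -/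
theorem pvwc_inner_dart (hS : T.Simple) {𝔖 : PvwSt T} {σ : V → Bool} (hI : 𝔖.Inner σ) {k : ℕ} (hk : k < 𝔖.inn.n) :
    T.opp (𝔖.inn.e k) ∈ 𝔖.S.Left ∧ σ (𝔖.inn.v k) = true ∧ σ (𝔖.inn.v (k + 1)) = true := by
  obtain ⟨n, -, hL, j, -, hjn, hj, hj'⟩ := hI.run
  obtain ⟨h1, h2, h3⟩ := hj k hk.le
  obtain ⟨-, h2', -⟩ := hj (k + 1) hk
  have h4 := hj' k hk
  simp only at h2 h4 h3 h2'
  have hlt : j k < n := by
    rcases Nat.lt_or_ge (j k) n with h | h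
    · exact h
    · exfalso
      have e : j k = j 𝔖.inn.n := by omega
      have e2 : 𝔖.inn.v k = 𝔖.inn.v 𝔖.inn.n := by rw [h2, (hj 𝔖.inn.n le_rfl).2.1, e]
      have := 𝔖.inn.inj _ _ hk.le le_rfl e2
      omega
  have hne : 𝔖.inn.v (k + 1) ≠ 𝔖.inn.v k := fun e => by
    have := 𝔖.inn.inj _ _ (by omega) hk.le e
    omega
  refine ⟨?_, by rw [h2]; exact (pvas_it_bw hI.bw_m _).1, by rw [h2']; exact (pvas_it_bw hI.bw_m _).1⟩
  rcases pvas_step_ends σ (pvasIt T σ 𝔖.dm (j k)) with ⟨hb, e1, -⟩ | ⟨-, e1, -⟩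
  · have e5 : 𝔖.inn.e k = T.rot (pvasIt T σ 𝔖.dm (j k)) := by
      refine hS _ _ ?_ ?_
      · rw [𝔖.inn.src_e k hk, T.src_rot, h2]
      · rw [𝔖.inn.tgt_e k hk, T.tgt_rot, h4, pvas_it_succ, e1]
    rw [e5]
    unfold PvMap.rot
    rw [T.opp_opp]
    exact (PvMap.FaceSet.nxt2 T (pl_left_face _) _).2 (hL _ hlt)
  · exfalso
    apply hne
    rw [h4, h2, pvas_it_succ, e1]

/-! ## 2. Gate sectors (this replaces D5(a)) -/

/-- the right sector of a cycle, index form -/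
theorem pvwc_cyc_btw (hT : T.IsSph) (Z : T.Cyc) (i : ℕ) {d : D} (hs : T.src d = T.src (Z.e (i + 1))) (h1 : d ∈ Z.Right) (h2 : T.opp d ∈ Z.Right) :
    pvttBtw T (T.opp (Z.e i)) (Z.e (i + 1)) d := by
  classical
  obtain ⟨hR, hL, hRo, -⟩ := pl_jordan hT Z
  obtain ⟨K, hK0, hK, -, hsec⟩ := pl_cyc_sector hT Z i
  have hsa : T.src (T.opp (Z.e i)) = T.src d := by rw [T.src_opp', Z.chain, hs]
  have hex := hT.link (T.opp (Z.e i)) d hsa
  obtain ⟨M, hm, hmin⟩ : ∃ M, T.rot^[M] (T.opp (Z.e i)) = d ∧ ∀ m', m' < M → T.rot^[m'] (T.opp (Z.e i)) ≠ d :=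
    ⟨Nat.find hex, Nat.find_spec hex, fun m' h => Nat.find_min hex h⟩
  have hdL : d ∉ Z.Left := by
    rw [hR] at h1
    exact h1
  refine ⟨M, ?_, hm, fun i' hi' hb => ?_⟩
  · rcases Nat.eq_zero_or_pos M with h | h
    · exfalso
      rw [h] at hm
      have e : T.opp (Z.e i) = d := hm
      rw [← e, T.opp_opp, hR] at h2
      exact h2 (hL i)
    · exact h
  · have e1 : T.rot^[M - i'] (Z.e (i + 1)) = d := by
      rw [← hb, ← Function.iterate_add_apply, Nat.sub_add_cancel hi']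
      exact hm
    have hge : K ≤ M - i' := by
      by_contra hlt
      exact hdL ((hsec d hs).2 ⟨_, by omega, e1.symm⟩)
    have e2 : T.rot^[M - i' - K] (T.opp (Z.e i)) = d := by
      rw [← hK, ← Function.iterate_add_apply, Nat.sub_add_cancel hge]
      exact e1
    exact hmin _ (by omega) e2

/-- EXIT: turning counterclockwise at `g⁺` from the inner arc one meets the exit gate edge `dp` before any dart which leaves the core -/
theorem pvwc_gate_out (hT : T.IsSph) (hS : T.Simple) {𝔖 : PvwSt T} {σ : V → Bool} (hI : 𝔖.Inner σ) {f : D} (hf : T.src f = 𝔖.gp) (hfo : T.tgt f ∉ 𝔖.ins) :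
    pvttBtw T (T.opp (𝔖.inn.e (𝔖.inn.n - 1))) f 𝔖.dp := by
  obtain ⟨-, hL, -, -⟩ := pl_jordan hT 𝔖.S
  obtain ⟨i0, hi0⟩ := hI.dp_on
  have hdp : 𝔖.dp = T.opp (𝔖.S.e i0) := by rw [hi0, T.opp_opp]
  obtain ⟨-, e2, hn⟩ := pvwc_inner_ends hI
  have hgp : 𝔖.gp = T.src (𝔖.S.e (i0 + 1)) := by
    show T.src 𝔖.dp = _
    rw [hdp, T.src_opp', 𝔖.S.chain]
  obtain ⟨K, hK0, hK, -, hmem⟩ := pl_cyc_sector hT 𝔖.S i0
  have hlast : 𝔖.inn.n - 1 < 𝔖.inn.n := by omega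
  have h1 : T.opp (𝔖.inn.e (𝔖.inn.n - 1)) ∈ 𝔖.S.Left := (pvwc_inner_dart hS hI hlast).1
  have h2 : T.src (T.opp (𝔖.inn.e (𝔖.inn.n - 1))) = T.src (𝔖.S.e (i0 + 1)) := by
    rw [T.src_opp', 𝔖.inn.tgt_e _ hlast, show 𝔖.inn.n - 1 + 1 = 𝔖.inn.n by omega, e2, hgp]
  obtain ⟨k0, hk0, hk⟩ := (hmem _ h2).1 h1
  have hfL : f ∉ 𝔖.S.Left := fun h => hfo ⟨T.nxt f, (pl_left_face 𝔖.S f).2 h, rfl⟩
  have hit : ∀ i, T.rot^[i] (T.opp (𝔖.inn.e (𝔖.inn.n - 1))) = T.rot^[i + k0] (𝔖.S.e (i0 + 1)) := fun i => by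
    rw [hk, ← Function.iterate_add_apply]
  refine ⟨K - k0, by omega, ?_, fun i hi e => ?_⟩
  · rw [hit, show K - k0 + k0 = K by omega, hK, hdp]
  · rw [hit] at e
    rcases Nat.lt_or_ge (i + k0) K with hlt | hge
    · exact hfL ((hmem f (hf.trans hgp)).2 ⟨i + k0, hlt, e.symm⟩)
    · rw [show i + k0 = K by omega, hK] at e
      apply hfo
      rw [← e]
      exact ⟨𝔖.S.e i0, hL i0, by rw [PvMap.tgt, ← T.src_opp, T.opp_opp]⟩

/-- ENTRY: turning counterclockwise at `g⁻` from a dart which leaves the core one meets the entry gate edge `dm` before the inner arc -/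
theorem pvwc_gate_in (hT : T.IsSph) (hS : T.Simple) {𝔖 : PvwSt T} {σ : V → Bool} (hI : 𝔖.Inner σ) {f : D} (hf : T.src f = 𝔖.gm) (hfo : T.tgt f ∉ 𝔖.ins) :
    pvttBtw T f (𝔖.inn.e 0) 𝔖.dm := by
  classical
  obtain ⟨-, hL, -, -⟩ := pl_jordan hT 𝔖.S
  obtain ⟨j0, hj0⟩ := hI.dm_on
  have hn3 := 𝔖.S.three
  obtain ⟨i0, hi0⟩ : ∃ i0, 𝔖.S.e (i0 + 1) = 𝔖.dm := by
    refine ⟨j0 + 𝔖.S.n - 1, ?_⟩
    rw [show j0 + 𝔖.S.n - 1 + 1 = j0 + 𝔖.S.n by omega, 𝔖.S.per, hj0]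
  obtain ⟨e1, -, hn⟩ := pvwc_inner_ends hI
  obtain ⟨K, hK0, hK, -, hmem⟩ := pl_cyc_sector hT 𝔖.S i0
  rw [hi0] at hK hmem
  have hinj : Function.Injective T.rot := Function.LeftInverse.injective T.rotInv_rot
  obtain ⟨d1, d2, d3⟩ := pvwc_inner_dart hS hI hn
  have hsrc0 : T.src (𝔖.inn.e 0) = T.src 𝔖.dm := by rw [𝔖.inn.src_e 0 hn, e1]; rfl
  -- the inner arc starts in the closed left sector
  have hri : T.rotInv (𝔖.inn.e 0) ∈ 𝔖.S.Left := (pl_left_face 𝔖.S _).2 d1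
  obtain ⟨k, hk, hke⟩ := (hmem _ ((T.src_rotInv _).trans hsrc0)).1 hri
  have hk1 : 𝔖.inn.e 0 = T.rot^[k + 1] 𝔖.dm := by
    rw [Function.iterate_succ_apply', ← hke, T.rot_rotInv]
  have hfL : f ∉ 𝔖.S.Left := fun h => hfo ⟨T.nxt f, (pl_left_face 𝔖.S f).2 h, rfl⟩
  have hex := hT.link f 𝔖.dm hf
  obtain ⟨M, hm, hmin⟩ : ∃ M, T.rot^[M] f = 𝔖.dm ∧ ∀ m', m' < M → T.rot^[m'] f ≠ 𝔖.dm :=
    ⟨Nat.find hex, Nat.find_spec hex, fun m' h => Nat.find_min hex h⟩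
  refine ⟨M, ?_, hm, fun i hi e => ?_⟩
  · rcases Nat.eq_zero_or_pos M with h | h
    · exfalso
      rw [h] at hm
      have e : f = 𝔖.dm := hm
      apply hfL
      rw [e, ← hi0]
      exact hL _
    · exact h
  · rcases Nat.lt_or_ge i M with hlt | hge
    · rw [hk1] at e
      rcases Nat.lt_or_ge (k + 1) i with h1 | h1
      · -- cancel `k + 1` rotations
        have e' : T.rot^[k + 1] (T.rot^[i - (k + 1)] f) = T.rot^[k + 1] 𝔖.dm := by
          rw [← Function.iterate_add_apply, show k + 1 + (i - (k + 1)) = i by omega]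
          exact e
        exact hmin _ (by omega) ((hinj.iterate (k + 1)) e')
      · have e' : T.rot^[i] f = T.rot^[i] (T.rot^[k + 1 - i] 𝔖.dm) := by
          rw [← Function.iterate_add_apply, show i + (k + 1 - i) = k + 1 by omega]
          exact e
        have e'' := (hinj.iterate i) e'
        rcases Nat.lt_or_ge (k + 1 - i) K with h2 | h2
        · exact hfL ((hmem f hf).2 ⟨_, h2, e''⟩)
        · rw [show k + 1 - i = K by omega, hK] at e''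
          apply hfo
          rw [e'', T.tgt_opp]
          exact ⟨𝔖.S.e i0, hL i0, rfl⟩
    · have hiM : i = M := le_antisymm hi hge
      rw [hiM, hm] at e
      have h1 := hI.bw_m.2
      rw [e, 𝔖.inn.tgt_e 0 hn, d3] at h1
      exact Bool.noConfusion h1

theorem pvwc_rsec_of_btw {𝔇 : PvwDat T} {i : ℕ} {d : D} (h : pvttBtw T (T.opp (𝔇.prv i)) (𝔇.nx i) d) : 𝔇.RSec i d := by
  obtain ⟨k, hk, e, hne⟩ := h
  exact ⟨k, hk, e.symm, fun j _ hj => hne j hj⟩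

theorem pvwc_btw_of_rsec {𝔇 : PvwDat T} {i : ℕ} {d : D} (hne : T.opp (𝔇.prv i) ≠ 𝔇.nx i) (h : 𝔇.RSec i d) : pvttBtw T (T.opp (𝔇.prv i)) (𝔇.nx i) d := by
  obtain ⟨k, hk, e, h2⟩ := h
  refine ⟨k, hk, e.symm, fun j hj => ?_⟩
  rcases Nat.eq_zero_or_pos j with rfl | h0
  · exact hne
  · exact h2 j h0 hj

/-! ## 3. (C1) ACTUAL ⇒ NB : sector form (not of record), faced form (of record) -/

/-- the darts of `inner(s) · g₀ · inner(t)` round `g₀` are darts of the rim -/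
theorem pvwc_act_idx {𝔇 : PvwDat T} {pos : V → ℂ} {N : PvwNum} {h : ℝ} {π : PvwPat} {σ : V → Bool} {c : T.Cyc} {j : ℕ} (hA : 𝔇.Actual pos N h π σ c j)
    (hs : 0 < 𝔇.s.inn.n) (ht : 0 < 𝔇.t.inn.n) {i : ℕ} (hi : i ≤ 𝔇.g.n) :
    𝔇.prv i = c.e (j + 𝔇.s.inn.n - 1 + i) ∧ 𝔇.nx i = c.e (j + 𝔇.s.inn.n - 1 + i + 1) := by
  constructor
  · unfold PvwDat.prv
    by_cases h0 : i = 0
    · subst h0
      rw [if_pos rfl, ← hA.pin_s.run (𝔇.s.inn.n - 1) (by omega)]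
      congr 1
      omega
    · rw [if_neg h0, ← hA.arc (i - 1) (by omega)]
      congr 1
      omega
  · unfold PvwDat.nx
    by_cases h0 : i = 𝔇.g.n
    · rw [if_pos h0, ← hA.pin_t.run 0 ht]
      congr 1
      omega
    · rw [if_neg h0, ← hA.arc i (by omega)]
      congr 1
      omega

theorem pvwc_act_verts {𝔇 : PvwDat T} {pos : V → ℂ} {N : PvwNum} {h : ℝ} {π : PvwPat} {σ : V → Bool} {c : T.Cyc} {j : ℕ} (hA : 𝔇.Actual pos N h π σ c j)
    (hn : 0 < 𝔇.g.n) : 𝔇.g.verts ⊆ c.verts := by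
  rintro x ⟨i, hi, rfl⟩
  by_cases h0 : i < 𝔇.g.n
  · exact ⟨j + 𝔇.s.inn.n + i, by rw [hA.arc i h0, 𝔇.g.src_e i h0]⟩
  · have e : i = (𝔇.g.n - 1) + 1 := by omega
    refine ⟨j + 𝔇.s.inn.n + (𝔇.g.n - 1) + 1, ?_⟩
    rw [← c.chain, hA.arc (𝔇.g.n - 1) (by omega), 𝔇.g.tgt_e _ (by omega), ← e]

/-- a simple path is a walk: from the head of its first dart to its last vertex through its inner vertices -/
theorem pvwc_pth_walk {σ : V → Bool} {U X : Set V} (q : T.Pth) (hn : 0 < q.n) (hq : ∀ x ∈ q.inner, x ∈ U ∧ x ∉ X ∧ σ x = true) :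
    ReflTransGen (pvttStep T σ U X) (T.tgt (q.e 0)) (q.v q.n) := by
  have key : ∀ m, m + 1 ≤ q.n → ReflTransGen (pvttStep T σ U X) (T.tgt (q.e 0)) (q.v (m + 1)) := by
    intro m
    induction m with
    | zero =>
      intro _
      rw [q.tgt_e 0 hn]
    | succ m ih =>
      intro hm
      exact (ih (by omega)).tail ⟨hq _ ⟨m + 1, by omega, by omega, rfl⟩, q.e (m + 1), q.src_e _ (by omega), q.tgt_e _ (by omega)⟩
  have := key (q.n - 1) (by omega)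
  rwa [show q.n - 1 + 1 = q.n by omega] at this

/-- (C1), sector form -/
theorem pvwc_C1sec (hT : T.IsSph) (𝔇 : PvwDat T) {pos : V → ℂ} {N : PvwNum} {h : ℝ} {π : PvwPat} {σ : V → Bool} {c : T.Cyc} {j : ℕ} (hA : 𝔇.Actual pos N h π σ c j)
    (hs : 0 < 𝔇.s.inn.n) (ht : 0 < 𝔇.t.inn.n) : 𝔇.NBsec pos π σ := by
  rintro ⟨i, l, q, hi, hl, hil, hq0, hqa, hqb, hsec, hin⟩
  have hn : 0 < 𝔇.g.n := by omega
  obtain ⟨e1, e2⟩ := pvwc_act_idx hA hs ht hi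
  have hne : T.opp (𝔇.prv i) ≠ 𝔇.nx i := by rw [e1, e2]; exact (pl_cyc_ne_opp c _ _).symm
  have hb := pvwc_btw_of_rsec hne hsec
  have hsrc : T.src (q.e 0) = 𝔇.g.v i := by rw [q.src_e 0 hq0, hqa]
  have hBP : pvttBP T σ Set.univ 𝔇.g.verts {q.e 0} := by
    refine ⟨q.e 0, rfl, 𝔇.g.v l, ⟨l, hl, rfl⟩, ?_, ?_⟩
    · rw [hsrc]
      exact fun e => hil (𝔇.g.inj _ _ hl hi e).symm
    · rw [← hqb]
      exact pvwc_pth_walk q hq0 fun x hx => ⟨Set.mem_univ _, (hin x hx).2.1, (hin x hx).1⟩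
  have hBP' := pvtt_bp_enlarge (pvwc_act_verts hA hn) (by rintro d rfl; rw [hsrc]; exact ⟨i, hi, rfl⟩) hBP
  refine pvtt_act_cyc hT hA.rim hA.black Set.univ (pvtt_bp_mono_U (Set.Subset.refl _) ?_ hBP')
  rintro d rfl
  rw [e1, e2] at hb
  exact ⟨_, hb⟩

/-- **(C1)**, form of record: if `g₀` is the arc `g⁺(s) → g⁻(t)` of a rim of the actual colouring then `NB(D)` holds      (`hy` = `Ok.off_y`) -/
theorem pvwc_C1 (hT : T.IsSph) (𝔇 : PvwDat T) {pos : V → ℂ} {N : PvwNum} {h : ℝ} {π : PvwPat} {σ : V → Bool} {c : T.Cyc} {j : ℕ} (hA : 𝔇.Actual pos N h π σ c j)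
    (hy : ∀ v ∈ 𝔇.apx, v ∈ 𝔇.NU pos π) (hs : 0 < 𝔇.s.inn.n) : 𝔇.NB pos π σ := by
  intro k hk
  have hx : σ (𝔇.g.rap k) = false := hA.cyl.2.2 _ ⟨k, hk, rfl⟩
  have hm := pl_rim_facing hT hA.rim (j + 𝔇.s.inn.n + k) (j + (𝔇.s.inn.n - 1))
  rw [hA.arc k hk, hA.pin_s.run _ (by omega)] at hm
  obtain ⟨a, ha, hj⟩ := pvta_cut hm (𝔇.NU pos π) (𝔇.Lam pos π) (hy _ ⟨k, hk, rfl⟩) (fun u hu hl w hw => by_contra fun hc => hl ⟨hu, w, hc, hw⟩)
  refine ⟨a, ha.imp (fun e => e) id, pvta_join_mono ?_ hj⟩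
  rintro v ⟨h1, h2⟩
  have h3 : σ v = false := h2.trans hx
  refine ⟨h1, fun hv => ?_, h3⟩
  rw [hA.cyl.2.1 v hv] at h3
  exact Bool.noConfusion h3


/-! ## 4. The shield -/

namespace PvwDat

variable (𝔇 : PvwDat T)

/-- the sites which may carry the shield: white sites of the two cores, of the white banks of `Σ⁺(t)`, `Σ⁻(s)`, white `XCL` sites of the outer lane -/
def Sh (pos : V → ℂ) (π : PvwPat) (σ : V → Bool) : Set V :=
  {v | σ v = false ∧ (v ∈ 𝔇.t.core ∨ v ∈ 𝔇.t.whP ∨ v ∈ 𝔇.s.whM ∨ v ∈ 𝔇.s.core ∨ (pos v ∈ π.Yout ∧ v ∈ 𝔇.XCL pos π))}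

/-- `q` is a SHIELD: a path `g⁻(t) → g⁺(s)`, first dart the entry gate edge of `t`, last dart the opposite of the exit gate edge of `s`, inner vertices in `Sh` -/
structure IsShield (pos : V → ℂ) (π : PvwPat) (σ : V → Bool) (q : T.Pth) : Prop where
  two : 2 ≤ q.n
  fst : q.e 0 = 𝔇.t.dm
  lst : q.e (q.n - 1) = T.opp 𝔇.s.dp
  inn : q.inner ⊆ 𝔇.Sh pos π σ

/-- NO COLOUR: the sites where the boundary of a cell `g₀ · q` (`q` a shield) may run -/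
def Wl (pos : V → ℂ) (π : PvwPat) : Set V :=
  𝔇.g.verts ∪ {v | v ∈ 𝔇.t.core ∨ v ∈ 𝔇.t.whP ∨ v ∈ 𝔇.s.whM ∨ v ∈ 𝔇.s.core ∨ (pos v ∈ π.Yout ∧ v ∈ 𝔇.XCL pos π)}

/-- **COLLAR** (NO COLOUR; new with `NU` of Defs v3): every site which `NB` does not read (`YC0`, the sites over the collared lanes `Ycol`) is joined to a tip apex off `Wl`.
So it is not in the open cell (`pvwc_G1nu`).      PRODUCER from simpler clauses: `pvwc_col_of`.      (`Ycol = ∅`: `pvwc_col_of_empty`, no hypothesis.) -/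
def Col (pos : V → ℂ) (π : PvwPat) : Prop :=
  ∀ w, w ∉ 𝔇.NU pos π → ∃ a, (a = 𝔇.t.ap ∨ a = 𝔇.s.am) ∧ a ∉ 𝔇.Wl pos π ∧ ReflTransGen (fun u x => T.Adj u x ∧ x ∉ 𝔇.Wl pos π) a w

/-- **the named hypotheses of (C2)** which are not in `Ok` (v3) -/
structure Fit (pos : V → ℂ) (N : PvwNum) (h : ℝ) (π : PvwPat) (σ : V → Bool) : Prop where
  /-- the two pins are apart: `g⁺(s)` is not a site of the closed gate disc of `t`, `g⁻(t)` is not a site of the closed gate disc of `s` -/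
  sep_s : 𝔇.s.gp ∉ 𝔇.t.ins
  sep_t : 𝔇.t.gm ∉ 𝔇.s.ins
  /-- G2 of 78 + "the stubs do not return to the gates": the heads of the darts of the four pieces are pairwise distinct -/
  dist : ∀ y, 𝔇.YArc pos π σ y → [𝔇.g, 𝔇.t.inn, y, 𝔇.s.inn].Pairwise fun p p' => ∀ k l, k < p.n → l < p'.n → p.v (k + 1) ≠ p'.v (l + 1)
  /-- masks (Mesh): the right triangles of `g₀`, `y` have their barycentres off the two cut-off balls, those of an inner arc off the cut-off ball of the other pin -/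
  m_g : ∀ k, k < 𝔇.g.n → T.bary pos (T.opp (𝔇.g.e k)) ∈ offCut N h π
  m_y : ∀ y, 𝔇.YArc pos π σ y → ∀ k, k < y.n → T.bary pos (T.opp (y.e k)) ∈ offCut N h π
  m_s : ∀ k, k < 𝔇.s.inn.n → T.bary pos (T.opp (𝔇.s.inn.e k)) ∉ Metric.closedBall π.zt (N.m * h)
  m_t : ∀ k, k < 𝔇.t.inn.n → T.bary pos (T.opp (𝔇.t.inn.e k)) ∉ Metric.closedBall π.zs (N.m * h)

/-- the additional named hypotheses of the SECTOR route (not of record) -/
structure FitSec (σ : V → Bool) : Prop where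
  /-- G3 of 78, weak form (227, 225 `Tr/Sweep` v2): the wall of the exit gate edge of `s` is finite -/
  fin : {d | T.Wall σ 𝔇.s.dp d}.Finite
  /-- R1 of 296: `g₀` leaves the closed gate discs at once -/
  far_s : 𝔇.g.v 1 ∉ 𝔇.s.ins
  far_t : 𝔇.g.v (𝔇.g.n - 1) ∉ 𝔇.t.ins

end PvwDat

theorem pvwc_defs_eqns_cite : True := by
  have := @PvwDat.Sh.eq_1
  trivial

/-- the two ends of the white layer of the inner strand are joined by white sites of the core -/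
theorem pvwc_join_inner (hT : T.IsSph) {𝔖 : PvwSt T} {σ : V → Bool} (hI : 𝔖.Inner σ) : T.Join Set.univ {v | σ v = false ∧ v ∈ 𝔖.ins} (T.tgt 𝔖.dm) (T.tgt 𝔖.dp) := by
  obtain ⟨n, hn, hL, -⟩ := hI.run
  have h1 := pvas_layW_join (T := T) σ 𝔖.dm (le_refl n)
  rw [hn] at h1
  refine pl_hx_join_mono (Set.subset_univ _) (fun v hv => ?_) h1
  exact ⟨pvas_layW_white hI.bw_m hv, pvwc_inner_lay hT hn hL hI.dp_on (Or.inr hv)⟩

/-- the white bank of the exit stub is connected -/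
theorem pvwc_join_whP {𝔖 : PvwSt T} {pos : V → ℂ} {B : Set ℂ} {col σ : V → Bool} (hst : 𝔖.StubP pos B col) (hbw : pvasBW T col 𝔖.dp) (hσ : PvwAgree 𝔖.whP σ col)
    {x : V} (hx : x ∈ 𝔖.whP) : T.Join Set.univ {v | σ v = false ∧ v ∈ 𝔖.whP} (T.tgt 𝔖.dp) x := by
  obtain ⟨i, hi, rfl⟩ := hx
  have h1 := pvas_layW_join (T := T) col 𝔖.dp hi
  rw [← hst.ep_it i hi] at h1
  refine pl_hx_join_mono (Set.subset_univ _) (fun v hv => ?_) h1
  have hw : v ∈ 𝔖.whP := by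
    obtain ⟨j, hj, rfl⟩ := hv
    exact ⟨j, hj, by rw [hst.ep_it j hj]⟩
  exact ⟨(hσ v hw).trans (pvas_layW_white hbw hv), hw⟩

/-- the white bank of the entrance stub is connected -/
theorem pvwc_join_whM {𝔖 : PvwSt T} {pos : V → ℂ} {B : Set ℂ} {col σ : V → Bool} (hst : 𝔖.StubM pos B col) (hbw : pvasBW T col 𝔖.dm) (hσ : PvwAgree 𝔖.whM σ col)
    {x : V} (hx : x ∈ 𝔖.whM) : T.Join Set.univ {v | σ v = false ∧ v ∈ 𝔖.whM} x (T.tgt 𝔖.dm) := by
  have hb : ∀ i, pvasBW T col ((pvasBack T col)^[i] 𝔖.dm) := by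
    intro i
    induction i with
    | zero => exact hbw
    | succ i ih =>
      rw [Function.iterate_succ_apply']
      exact pvas_back_bw ih
  have hmem : ∀ i, i ≤ 𝔖.nm → T.tgt ((pvasBack T col)^[i] 𝔖.dm) ∈ {v | σ v = false ∧ v ∈ 𝔖.whM} := by
    intro i hi
    have hw : T.tgt ((pvasBack T col)^[i] 𝔖.dm) ∈ 𝔖.whM := ⟨i, hi, by rw [hst.em_it i hi]⟩
    exact ⟨(hσ _ hw).trans (hb i).2, hw⟩
  have key : ∀ i, i ≤ 𝔖.nm → T.Join Set.univ {v | σ v = false ∧ v ∈ 𝔖.whM} (T.tgt ((pvasBack T col)^[i] 𝔖.dm)) (T.tgt 𝔖.dm) := by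
    intro i
    induction i with
    | zero => intro _; exact pl_hx_join_refl (hmem 0 (Nat.zero_le _))
    | succ i ih =>
      intro hi
      have ih' := ih (Nat.le_of_succ_le hi)
      have hs := pvas_layW_step (T := T) col ((pvasBack T col)^[i + 1] 𝔖.dm) 0
      have e1 : pvasIt T col ((pvasBack T col)^[i + 1] 𝔖.dm) (0 + 1) = (pvasBack T col)^[i] 𝔖.dm := by
        rw [pvas_it_succ, pvas_it_zero, Function.iterate_succ_apply', pvas_step_back (hb i)]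
      rw [e1, pvas_it_zero] at hs
      rcases hs with e | ⟨f, -, e2, e3⟩
      · rw [← e]; exact ih'
      · exact pl_hx_join_trans (pl_hx_join_tail (pl_hx_join_refl (hmem _ hi)) ⟨f, Or.inl (Set.mem_univ _), e2, e3⟩ (hmem _ (Nat.le_of_succ_le hi))) ih'
  obtain ⟨i, hi, rfl⟩ := hx
  rw [hst.em_it i hi]
  exact key i hi

/-- the white sites of the shield join the head of the entry gate edge of `t` to the head of the exit gate edge of `s` -/
theorem pvwc_shield_join (hT : T.IsSph) (𝔇 : PvwDat T) {pos : V → ℂ} {N : PvwNum} {h : ℝ} {π : PvwPat} {σ : V → Bool} (hOk : 𝔇.Ok pos N h π) (hσ : σ ∈ 𝔇.Cyl)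
    (hWO : 𝔇.WO pos π σ) : T.Join Set.univ (𝔇.Sh pos π σ) (T.tgt 𝔇.t.dm) (T.tgt 𝔇.s.dp) := by
  obtain ⟨q, hq0, hq1, hqi⟩ := hWO
  have hIs : 𝔇.s.Inner σ := pvwc_inner_of_gate hT hOk.st_s.gate fun v hv => hσ.1 v (Or.inr (Or.inl (Or.inl hv)))
  have hIt : 𝔇.t.Inner σ := pvwc_inner_of_gate hT hOk.st_t.gate fun v hv => hσ.1 v (Or.inl (Or.inl (Or.inl hv)))
  have aP : PvwAgree 𝔇.t.whP σ 𝔇.col := fun v hv => hσ.1 v (Or.inl (Or.inr hv))
  have aM : PvwAgree 𝔇.s.whM σ 𝔇.col := fun v hv => hσ.1 v (Or.inr (Or.inr hv))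
  have j1 : T.Join Set.univ (𝔇.Sh pos π σ) (T.tgt 𝔇.t.dm) (T.tgt 𝔇.t.dp) :=
    pl_hx_join_mono (Set.Subset.refl _) (fun v (hv : σ v = false ∧ v ∈ 𝔇.t.ins) => (⟨hv.1, Or.inl (pvwk_ins_sub_core hOk.st_t.gate hv.2)⟩ : v ∈ 𝔇.Sh pos π σ)) (pvwc_join_inner hT hIt)
  have j2 : T.Join Set.univ (𝔇.Sh pos π σ) (T.tgt 𝔇.t.dp) (q.v 0) :=
    pl_hx_join_mono (Set.Subset.refl _) (fun v (hv : σ v = false ∧ v ∈ 𝔇.t.whP) => (⟨hv.1, Or.inr (Or.inl hv.2)⟩ : v ∈ 𝔇.Sh pos π σ)) (pvwc_join_whP hOk.st_t.stub hOk.st_t.gate.bw_p aP hq0)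
  have j4 : T.Join Set.univ (𝔇.Sh pos π σ) (q.v q.n) (T.tgt 𝔇.s.dm) :=
    pl_hx_join_mono (Set.Subset.refl _) (fun v (hv : σ v = false ∧ v ∈ 𝔇.s.whM) => (⟨hv.1, Or.inr (Or.inr (Or.inl hv.2))⟩ : v ∈ 𝔇.Sh pos π σ)) (pvwc_join_whM hOk.st_s.stub hOk.st_s.gate.bw_m aM hq1)
  have j5 : T.Join Set.univ (𝔇.Sh pos π σ) (T.tgt 𝔇.s.dm) (T.tgt 𝔇.s.dp) :=
    pl_hx_join_mono (Set.Subset.refl _) (fun v (hv : σ v = false ∧ v ∈ 𝔇.s.ins) => (⟨hv.1, Or.inr (Or.inr (Or.inr (Or.inl (pvwk_ins_sub_core hOk.st_s.gate hv.2))))⟩ : v ∈ 𝔇.Sh pos π σ)) (pvwc_join_inner hT hIs)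
  have j3 : T.Join Set.univ (𝔇.Sh pos π σ) (q.v 0) (q.v q.n) := by
    refine pl_pth_join q (fun i _ => Or.inl (Set.mem_univ _)) ?_ (Nat.zero_le _) le_rfl
    rw [pl_pth_verts_eq]
    rintro v ((rfl | rfl) | hv)
    · exact pl_hx_join_mem j2
    · exact j4.1
    · obtain ⟨h1, h2, h3⟩ := hqi v hv
      exact ⟨h1, Or.inr (Or.inr (Or.inr (Or.inr ⟨h2, h3⟩)))⟩
  exact pl_hx_join_trans j1 (pl_hx_join_trans j2 (pl_hx_join_trans j3 (pl_hx_join_trans j4 j5)))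

/-- **SHIELD**: there is a shield, and it closes `g₀` to a cycle -/
theorem pvwc_shield (hT : T.IsSph) (𝔇 : PvwDat T) {pos : V → ℂ} {N : PvwNum} {h : ℝ} {π : PvwPat} {σ : V → Bool} (hOk : 𝔇.Ok pos N h π) (hσ : σ ∈ 𝔇.Cyl)
    (hWO : 𝔇.WO pos π σ) : ∃ q : T.Pth, 𝔇.IsShield pos π σ q ∧ 𝔇.g.Glue q := by
  haveI : Nonempty D := ⟨𝔇.t.dp⟩
  obtain ⟨p, p0, p1, pX, -⟩ := pl_pth_of_join (pvwc_shield_join hT 𝔇 hOk hσ hWO)
  have hblk : ∀ i, i ≤ 𝔇.g.n → σ (𝔇.g.v i) = true := fun i hi => hσ.2.1 _ ⟨i, hi, rfl⟩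
  have hwh : ∀ x ∈ p.verts, σ x = false := fun x hx => (pX hx).1
  have hgm : σ 𝔇.t.gm = true := by rw [← hOk.g1]; exact hblk _ le_rfl
  have hgp : σ 𝔇.s.gp = true := by rw [← hOk.g0]; exact hblk _ (Nat.zero_le _)
  have h1 : T.src 𝔇.t.dm ∉ p.verts := fun hc => by
    have := hwh _ hc
    rw [show T.src 𝔇.t.dm = 𝔇.t.gm from rfl, hgm] at this
    exact Bool.noConfusion this
  have h2 : T.tgt (T.opp 𝔇.s.dp) ∉ p.verts := fun hc => by
    have := hwh _ hc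
    rw [T.tgt_opp, show T.src 𝔇.s.dp = 𝔇.s.gp from rfl, hgp] at this
    exact Bool.noConfusion this
  have h3 : T.src 𝔇.t.dm ≠ T.tgt (T.opp 𝔇.s.dp) := by
    rw [T.tgt_opp, show T.src 𝔇.t.dm = 𝔇.t.gm from rfl, show T.src 𝔇.s.dp = 𝔇.s.gp from rfl, ← hOk.g1, ← hOk.g0]
    intro hc
    have := 𝔇.g.inj _ _ le_rfl (Nat.zero_le _) hc
    have := hOk.pos_n
    omega
  obtain ⟨q, qn, qe0, qe1, qv0, qv1, qin⟩ := pvwc_wrap p 𝔇.t.dm (T.opp 𝔇.s.dp) p0.symm (by rw [T.src_opp, p1]; rfl) h1 h2 h3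
  refine ⟨q, ⟨by omega, qe0, by rw [qn, show p.n + 2 - 1 = p.n + 1 from rfl, qe1], by rw [qin]; exact pX⟩, ⟨?_, ?_, ?_, ?_⟩⟩
  · rw [qv0, hOk.g1]; rfl
  · rw [qn, qv1, T.tgt_opp, hOk.g0]; rfl
  · have := hOk.pos_n
    omega
  · intro i j hi hj hij
    rcases Nat.eq_zero_or_pos j with rfl | hj0
    · left
      refine ⟨𝔇.g.inj _ _ hi le_rfl ?_, rfl⟩
      rw [hij, qv0, hOk.g1]; rfl
    · rcases Nat.lt_or_ge j q.n with hjn | hjn
      · exfalso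
        have hm : q.v j ∈ q.inner := ⟨j, hj0, hjn, rfl⟩
        rw [qin] at hm
        have := hwh _ hm
        rw [← hij, hblk i hi] at this
        exact Bool.noConfusion this
      · right
        have hjq : j = q.n := le_antisymm hj hjn
        refine ⟨𝔇.g.inj _ _ hi (Nat.zero_le _) ?_, hjq⟩
        rw [hij, hjq, qn, qv1, T.tgt_opp, hOk.g0]; rfl

/-! ## 5. The faced transfer (route of record): `NB(D)` + shield ⇒ `g₀` is globally faced -/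

/-- a white walk which starts at a right apex of `g` and avoids `g` stays in the open cell `Z = g.glue q` or meets the closing path `q` at an inner vertex -/
theorem pvwc_cell_join (hT : T.IsSph) {s : V → Bool} (g q : T.Pth) (hg : g.Glue q) {X : Set V} (hX : ∀ v ∈ X, v ∉ g.verts ∧ s v = false) {k : ℕ} (hk : k < g.n) {a : V}
    (hj : T.Join Set.univ X (g.rap k) a) : a ∈ T.Int (g.glue q hg).Right ∨ ∃ x ∈ q.inner, T.Mono s (g.rap k) x := by
  obtain ⟨hR, hL, hRo, -⟩ := pl_jordan hT (g.glue q hg)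
  have hin : ∀ v, v ∈ (g.glue q hg).verts → v ∉ g.verts → v ∈ q.inner := by
    intro v hv hvg
    rw [pl_pth_glue_verts, pl_pth_verts_eq q] at hv
    rcases hv with hv | (rfl | hv) | hv
    · exact absurd hv hvg
    · exact absurd (by rw [← hg.h1]; exact pl_pth_lst_mem g) hvg
    · exact absurd (by rw [show v = q.v q.n from hv, hg.h2]; exact pl_pth_fst_mem g) hvg
    · exact hv
  have hoff : ∀ w, w ∉ (g.glue q hg).verts → ∀ d, T.src d = w → ¬ T.Bd (g.glue q hg).Right d :=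
    fun w hw d hd hb => pl_cyc_off (g.glue q hg) (hd ▸ hw) (pl_right_bd_sub _ hb)
  obtain ⟨h0, hw⟩ := hj
  have hstart : g.rap k ∈ T.Int (g.glue q hg).Right ∨ ∃ x ∈ q.inner, T.Mono s (g.rap k) x := by
    rcases pl_jordan_vert hT (g.glue q hg) (g.rap k) with h | h | h
    · exact Or.inr ⟨_, hin _ h (hX _ h0).1, ReflTransGen.refl⟩
    · exfalso
      have h1 : T.opp (g.e k) ∈ (g.glue q hg).Right := by
        have := hRo k
        rwa [pl_pth_glue_e1 g q hg hk] at this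
      have h2 : T.nxt (T.nxt (T.opp (g.e k))) ∈ (g.glue q hg).Right := (PvMap.FaceSet.nxt2 T (pl_right_face _) _).2 h1
      have h3 : T.nxt (T.nxt (T.opp (g.e k))) ∈ (g.glue q hg).Left := h _ rfl
      rw [hR] at h2
      exact h2 h3
    · exact Or.inl h
  have key : a ∈ X ∧ ((a ∈ T.Int (g.glue q hg).Right ∧ T.Mono s (g.rap k) a) ∨ ∃ x ∈ q.inner, T.Mono s (g.rap k) x) := by
    induction hw with
    | refl =>
      refine ⟨h0, ?_⟩
      rcases hstart with h | h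
      · exact Or.inl ⟨h, ReflTransGen.refl⟩
      · exact Or.inr h
    | @tail b c _ hbc ih =>
      obtain ⟨hbX, ih⟩ := ih
      refine ⟨hbc.2, ?_⟩
      rcases ih with ⟨hb1, hb2⟩ | ih
      · obtain ⟨d, -, hd1, hd2⟩ := hbc.1
        have hadj : T.Adj b c := ⟨d, hd1, hd2⟩
        have hm : T.Mono s (g.rap k) c := ReflTransGen.tail hb2 ⟨hadj, by rw [(hX _ hbX).2, (hX _ hbc.2).2]⟩
        by_cases hc : c ∈ (g.glue q hg).verts
        · exact Or.inr ⟨c, hin _ hc (hX _ hbc.2).1, hm⟩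
        · exact Or.inl ⟨pl_int_adj hT (pl_right_face _) hb1 hadj (hoff _ hc), hm⟩
      · exact Or.inr ih
  rcases key.2 with h | h
  · exact Or.inl h.1
  · exact Or.inr h

/-- **abstract faced transfer**: `g` black, the inner vertices of `q` white, `N_g^{U,𝔄}`, every anchor which lies in the open cell is `Mono`-joined to the last inner vertex of `q` -/
theorem pvwc_gfaced_abs (hT : T.IsSph) {s : V → Bool} (g q : T.Pth) (hg : g.Glue q) (hb : ∀ i, i ≤ g.n → s (g.v i) = true) (hq : ∀ x ∈ q.inner, s x = false) (hq2 : 2 ≤ q.n) {U 𝔄 : Set V}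
    (hN : pvtaN g s U 𝔄) (h𝔄 : ∀ a ∈ 𝔄, a ∈ T.Int (g.glue q hg).Right → T.Mono s a (q.v (q.n - 1))) : g.GFaced s (q.v (q.n - 1)) := by
  have hρ : s (q.v (q.n - 1)) = false := hq _ ⟨q.n - 1, by omega, by omega, rfl⟩
  refine ⟨fun i hi => by rw [hb i hi, hρ]; exact Bool.noConfusion, fun k hk => ?_⟩
  obtain ⟨a, ha, hj⟩ := hN k hk
  rcases pvwc_cell_join hT g q hg (fun v hv => ⟨hv.2.1, hv.2.2⟩) hk hj with h1 | ⟨x, ⟨i, h0, h1, rfl⟩, h2⟩
  · exact (pvt_c_join_mono (pvt_c_join_mono_set (le_refl _) (fun v hv => hv.2.2) hj)).trans (h𝔄 a ha h1)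
  · have h3 := pvta_inner_mono q (fun i h0 h1 => hq _ ⟨i, h0, h1, rfl⟩) h0 (q.n - 1 - i) (by omega)
    rw [show i + (q.n - 1 - i) = q.n - 1 by omega] at h3
    exact h2.trans h3

/-- the right apexes of the inner arc are white sites joined to the head of the exit gate edge -/
theorem pvwc_inner_rap (hS : T.Simple) {𝔖 : PvwSt T} {σ : V → Bool} (hI : 𝔖.Inner σ) {k : ℕ} (hk : k < 𝔖.inn.n) : T.Mono σ (𝔖.inn.rap k) (T.tgt 𝔖.dp) := by
  obtain ⟨n, hn, hL, j, -, hjn, hj, hj'⟩ := hI.run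
  obtain ⟨h1, h2, h3⟩ := hj k hk.le
  have h4 := hj' k hk
  simp only at h2 h4 h3
  have hne : 𝔖.inn.v (k + 1) ≠ 𝔖.inn.v k := fun e => by
    have := 𝔖.inn.inj _ _ (by omega) hk.le e
    omega
  have hwalk : ∀ m i, T.Mono σ (T.tgt (pvasIt T σ 𝔖.dm i)) (T.tgt (pvasIt T σ 𝔖.dm (i + m))) := by
    intro m
    induction m with
    | zero => intro i; exact ReflTransGen.refl
    | succ m ih =>
      intro i
      refine (ih i).trans ?_
      rw [← Nat.add_assoc, pvas_it_succ]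
      rcases pvas_step_ends σ (pvasIt T σ 𝔖.dm (i + m)) with ⟨-, -, e2⟩ | ⟨ha, -, e2⟩
      · rw [e2]
      · rw [e2]
        refine ReflTransGen.single ⟨⟨T.nxt (pvasIt T σ 𝔖.dm (i + m)), rfl, rfl⟩, ?_⟩
        rw [(pvas_it_bw hI.bw_m _).2, ha]
  have hrap : 𝔖.inn.rap k = T.tgt (pvasIt T σ 𝔖.dm (j k)) := by
    rcases pvas_step_ends σ (pvasIt T σ 𝔖.dm (j k)) with ⟨hb, e1, -⟩ | ⟨-, e1, -⟩
    · have e5 : 𝔖.inn.e k = T.rot (pvasIt T σ 𝔖.dm (j k)) := by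
        refine hS _ _ ?_ ?_
        · rw [𝔖.inn.src_e k hk, T.src_rot, h2]
        · rw [𝔖.inn.tgt_e k hk, T.tgt_rot, h4, pvas_it_succ, e1]
      unfold PvMap.Pth.rap
      rw [e5]
      unfold PvMap.rot
      rw [T.opp_opp, T.apex_nxt2]
    · exfalso
      apply hne
      rw [h4, h2, pvas_it_succ, e1]
  have := hwalk (n - j k) (j k)
  rw [Nat.add_sub_cancel' h1, hn] at this
  rw [hrap]
  exact this

/-- the sites of `YCL` are fresh for `D_Y` -/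
theorem pvwc_ycl_fresh (𝔇 : PvwDat T) {pos : V → ℂ} {π : PvwPat} {v : V} (hv : v ∈ 𝔇.YCL pos π) : v ∉ 𝔇.fzY := by
  rcases hv with ⟨q, -, rfl, hq⟩ | ⟨q, -, rfl, hq⟩
  · exact (hq _ (pl_pth_lst_mem q)).1
  · exact (hq _ (pl_pth_lst_mem q)).1

/-- every site of a component `pvwComp T X a` is joined to `a` by a walk inside the component -/
theorem pvwc_comp_walk {X : Set V} {a v : V} (hv : v ∈ pvwComp T X a) : a ∈ pvwComp T X a ∧ ReflTransGen (fun u w => T.Adj u w ∧ w ∈ pvwComp T X a) a v := by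
  obtain ⟨q, rfl, rfl, hq⟩ := hv
  have hmem : ∀ i, i ≤ q.n → q.v i ∈ pvwComp T X (q.v 0) := by
    intro i hi
    refine ⟨q.seg 0 i, ?_, ?_, ?_⟩
    · show q.v (0 + 0) = q.v 0
      rfl
    · show q.v (0 + (min i q.n - 0)) = q.v i
      rw [Nat.min_eq_left hi, Nat.sub_zero, Nat.zero_add]
    · intro x hx
      rw [pl_pth_seg_verts q (Nat.zero_le _) hi] at hx
      obtain ⟨k, -, hk, rfl⟩ := hx
      exact hq _ ⟨k, by omega, rfl⟩
  refine ⟨hmem 0 (Nat.zero_le _), ?_⟩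
  have key : ∀ i, i ≤ q.n → ReflTransGen (fun u w => T.Adj u w ∧ w ∈ pvwComp T X (q.v 0)) (q.v 0) (q.v i) := by
    intro i
    induction i with
    | zero => intro _; exact ReflTransGen.refl
    | succ i ih =>
      intro hi
      exact ReflTransGen.tail (ih (by omega)) ⟨⟨q.e i, q.src_e i (by omega), q.tgt_e i (by omega)⟩, hmem _ hi⟩
  exact key _ le_rfl

/-- every site of `YCL` is joined to one of the two tip apexes by a walk inside `YCL` -/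
theorem pvwc_ycl_walk (𝔇 : PvwDat T) {pos : V → ℂ} {π : PvwPat} {v : V} (hv : v ∈ 𝔇.YCL pos π) :
    ∃ a, (a = 𝔇.t.ap ∨ a = 𝔇.s.am) ∧ a ∈ 𝔇.YCL pos π ∧ ReflTransGen (fun u w => T.Adj u w ∧ w ∈ 𝔇.YCL pos π) a v := by
  rcases hv with hv | hv
  · obtain ⟨h1, h2⟩ := pvwc_comp_walk hv
    exact ⟨_, Or.inl rfl, Or.inl h1, ReflTransGen.mono (fun _ _ hw => ⟨hw.1, Or.inl hw.2⟩) _ _ h2⟩
  · obtain ⟨h1, h2⟩ := pvwc_comp_walk hv
    exact ⟨_, Or.inr rfl, Or.inr h1, ReflTransGen.mono (fun _ _ hw => ⟨hw.1, Or.inr hw.2⟩) _ _ h2⟩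

/-- the sites of a shield are off `YCL` -/
theorem pvwc_sh_off (𝔇 : PvwDat T) {pos : V → ℂ} {π : PvwPat} {σ : V → Bool} {v : V} (hv : v ∈ 𝔇.Sh pos π σ) : v ∉ 𝔇.YCL pos π := by
  intro hy
  have hf := pvwc_ycl_fresh 𝔇 hy
  rcases hv.2 with h1 | h1 | h1 | h1 | h1
  · exact hf (Or.inl (Or.inl (Or.inl h1)))
  · exact hf (Or.inl (Or.inr h1))
  · exact hf (Or.inr (Or.inr h1))
  · exact hf (Or.inr (Or.inl (Or.inl h1)))
  · exact h1.2.2 hy

/-- the cycle `g₀ · q` is off `YCL` -/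
theorem pvwc_cell_off (𝔇 : PvwDat T) {pos : V → ℂ} {N : PvwNum} {h : ℝ} {π : PvwPat} {σ : V → Bool} (hOk : 𝔇.Ok pos N h π) {q : T.Pth} (hq : 𝔇.IsShield pos π σ q) (hg : 𝔇.g.Glue q) :
    ∀ v ∈ (𝔇.g.glue q hg).verts, v ∉ 𝔇.YCL pos π := by
  intro v hv
  rw [pl_pth_glue_verts, pl_pth_verts_eq q] at hv
  rcases hv with hv | (rfl | hv) | hv
  · exact pvwk_nu_ycl (hOk.off_y v (Or.inl hv))
  · rw [← hg.h1]; exact pvwk_nu_ycl (hOk.off_y _ (Or.inl (pl_pth_lst_mem _)))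
  · rw [show v = q.v q.n from hv, hg.h2]; exact pvwk_nu_ycl (hOk.off_y _ (Or.inl (pl_pth_fst_mem _)))
  · exact pvwc_sh_off 𝔇 (hq.inn hv)

/-- **the strand which enters at the first dart of `q` stays on the left of the cell `Z = g.glue q`** as long as it has not reached the opposite of the last dart of `q` -/
theorem pvwc_stay_left (hT : T.IsSph) {s : V → Bool} (g q : T.Pth) (hg : g.Glue q) (hb : ∀ i, i ≤ g.n → s (g.v i) = true) (hq : ∀ x ∈ q.inner, s x = false) (hq2 : 2 ≤ q.n)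
    {m : ℕ} (hm : ∀ i, i ≤ m → pvasIt T s (q.e 0) i ≠ T.opp (q.e (q.n - 1))) : ∀ i, i ≤ m → pvasIt T s (q.e 0) i ∈ (g.glue q hg).Left := by
  obtain ⟨hR, hL, hRo, hBd⟩ := pl_jordan hT (g.glue q hg)
  have hq0 : 0 < q.n := by omega
  have e0 : (g.glue q hg).e (g.n + 0) = q.e 0 := pl_pth_glue_e2 g q hg hq0
  have h0L : q.e 0 ∈ (g.glue q hg).Left := by rw [← e0]; exact hL _
  have hbw : pvasBW T s (q.e 0) := by
    refine ⟨?_, ?_⟩
    · rw [q.src_e 0 hq0, ← hg.h1]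
      exact hb _ le_rfl
    · rw [q.tgt_e 0 hq0]
      exact hq _ ⟨0 + 1, by omega, by omega, rfl⟩
  have hF := pl_left_face (g.glue q hg)
  intro i
  induction i with
  | zero => intro _; exact h0L
  | succ i ih =>
    intro hi
    have ih' := ih (by omega)
    have hbw1 : pvasBW T s (pvasIt T s (q.e 0) (i + 1)) := pvas_it_bw hbw _
    have hsf : T.SF (pvasIt T s (q.e 0) i) (T.opp (pvasIt T s (q.e 0) (i + 1))) := by
      rw [pvas_it_succ]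
      exact pvas_step_sf s _
    have hoL : T.opp (pvasIt T s (q.e 0) (i + 1)) ∈ (g.glue q hg).Left := (PvMap.FaceSet.sf T hF hsf).2 ih'
    by_contra hn
    have hbd : T.Bd (g.glue q hg).Left (pvasIt T s (q.e 0) (i + 1)) := fun h => hn (h.2 hoL)
    have hedg := (hBd _).1 hbd
    rw [pl_pth_glue_darts, pl_edg_union] at hedg
    set d := pvasIt T s (q.e 0) (i + 1) with hd
    rcases hedg with (⟨k, hk, hkd⟩ | ⟨k, hk, hkd⟩) | (⟨k, hk, hkd⟩ | ⟨k, hk, hkd⟩)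
    · have := hbw1.2
      rw [← hkd, g.tgt_e k hk, hb _ hk] at this
      exact Bool.noConfusion this
    · have := hbw1.2
      rw [← T.src_opp', ← hkd, g.src_e k hk, hb _ hk.le] at this
      exact Bool.noConfusion this
    · rcases Nat.eq_zero_or_pos k with rfl | hk0
      · exact hn (by rw [← hkd]; exact h0L)
      · have := hbw1.1
        rw [← hkd, q.src_e k hk, hq _ ⟨k, hk0, hk, rfl⟩] at this
        exact Bool.noConfusion this
    · rcases Nat.lt_or_ge (k + 1) q.n with hk1 | hk1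
      · have := hbw1.1
        rw [← T.tgt_opp, ← hkd, q.tgt_e k hk, hq _ ⟨k + 1, by omega, hk1, rfl⟩] at this
        exact Bool.noConfusion this
      · have ek : k = q.n - 1 := by omega
        apply hm (i + 1) hi
        rw [← hd, ← ek, hkd, T.opp_opp]

/-- the strand of `σ` from the entry gate edge runs through the inner strand and the exit stub up to the tip; its black sites are sites of the core or of the black bank of the stub -/
theorem pvwc_tip_run (hT : T.IsSph) {𝔖 : PvwSt T} {pos : V → ℂ} {B : Set ℂ} {col σ : V → Bool} (hI : 𝔖.Inner σ) (hst : 𝔖.StubP pos B col) (hσ : PvwAgree (𝔖.bkP ∪ 𝔖.whP) σ col) :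
    ∃ n, pvasIt T σ 𝔖.dm n = 𝔖.ep 𝔖.np ∧ ∀ i, i ≤ n → T.src (pvasIt T σ 𝔖.dm i) ∈ 𝔖.ins ∪ 𝔖.bkP := by
  obtain ⟨n, hn1, hn2, -⟩ := hI.run
  have hit : ∀ i, i ≤ 𝔖.np → pvasIt T σ 𝔖.dp i = pvasIt T col 𝔖.dp i := by
    refine pvas_it_congr fun v hv => hσ v ?_
    rcases hv with ⟨i, hi, rfl⟩ | ⟨i, hi, rfl⟩
    · exact Or.inl ⟨i, hi, by rw [hst.ep_it i hi]⟩
    · exact Or.inr ⟨i, hi, by rw [hst.ep_it i hi]⟩
  refine ⟨n + 𝔖.np, by rw [pvas_it_add, hn1, hit _ le_rfl, hst.ep_it _ le_rfl], fun i hi => ?_⟩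
  rcases Nat.lt_or_ge n i with h | h
  · right
    obtain ⟨k, rfl⟩ := Nat.exists_eq_add_of_lt h
    refine ⟨k + 1, by omega, ?_⟩
    rw [hst.ep_it _ (by omega), show n + k + 1 = n + (k + 1) by omega, pvas_it_add σ 𝔖.dm n (k + 1), hn1, hit _ (by omega)]
  · left
    exact pvwc_inner_lay hT hn1 hn2 hI.dp_on (Or.inl ⟨i, h, rfl⟩)

/-- MIRROR: going backwards from the opposite of the last dart of `q`, the faces BEHIND the positions lie on the left of the cell as long as the first dart of `q` has not been reached -/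
theorem pvwc_stay_left_back (hT : T.IsSph) {s : V → Bool} (g q : T.Pth) (hg : g.Glue q) (hb : ∀ i, i ≤ g.n → s (g.v i) = true) (hq : ∀ x ∈ q.inner, s x = false) (hq2 : 2 ≤ q.n)
    {m : ℕ} (hm : ∀ i, i ≤ m → (pvasBack T s)^[i] (T.opp (q.e (q.n - 1))) ≠ q.e 0) : ∀ i, i ≤ m → T.opp ((pvasBack T s)^[i] (T.opp (q.e (q.n - 1)))) ∈ (g.glue q hg).Left := by
  have hF := pl_left_face (g.glue q hg)
  have hJ := pl_jordan hT (g.glue q hg)
  have hlast : q.e (q.n - 1) ∈ (g.glue q hg).Left := by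
    have := hJ.2.1 (g.n + (q.n - 1))
    rwa [pl_pth_glue_e2 g q hg (by omega)] at this
  have hdl : ∀ d ∈ (g.glue q hg).darts, d ∈ (g.glue q hg).Left := by
    rintro d ⟨k, rfl⟩
    exact hJ.2.1 k
  have hbw0 : pvasBW T s (T.opp (q.e (q.n - 1))) := by
    refine ⟨?_, ?_⟩
    · rw [T.src_opp', q.tgt_e _ (by omega), show q.n - 1 + 1 = q.n by omega, hg.h2]
      exact hb 0 (Nat.zero_le _)
    · rw [T.tgt_opp, q.src_e _ (by omega)]
      exact hq _ ⟨q.n - 1, by omega, by omega, rfl⟩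
  have hbw : ∀ i, pvasBW T s ((pvasBack T s)^[i] (T.opp (q.e (q.n - 1)))) := by
    intro i
    induction i with
    | zero => exact hbw0
    | succ i ih => rw [Function.iterate_succ_apply']; exact pvas_back_bw ih
  have hZbw : ∀ d ∈ (g.glue q hg).darts, pvasBW T s d → d = q.e 0 := by
    intro d hd hbwd
    rw [pl_pth_glue_darts] at hd
    rcases hd with ⟨k, hk, rfl⟩ | ⟨k, hk, rfl⟩
    · exfalso
      have := hbwd.2
      rw [g.tgt_e k hk, hb (k + 1) (by omega)] at this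
      exact Bool.noConfusion this
    · rcases Nat.eq_zero_or_pos k with rfl | hk0
      · rfl
      · exfalso
        have := hbwd.1
        rw [q.src_e k hk, hq _ ⟨k, hk0, hk, rfl⟩] at this
        exact Bool.noConfusion this
  intro i
  induction i with
  | zero =>
    intro _
    rw [Function.iterate_zero, id, T.opp_opp]
    exact hlast
  | succ i ih =>
    intro hi
    have h1 := ih (by omega)
    have h2 : pvasBack T s ((pvasBack T s)^[i] (T.opp (q.e (q.n - 1)))) ∈ (g.glue q hg).Left := by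
      rcases pvas_back_cases s ((pvasBack T s)^[i] (T.opp (q.e (q.n - 1)))) with ⟨_, e⟩ | ⟨_, e⟩
      · rw [e]; exact (hF _).2 ((hF _).2 h1)
      · rw [e]; exact (hF _).2 h1
    rw [Function.iterate_succ_apply']
    by_cases hE : T.Edg (g.glue q hg).darts (pvasBack T s ((pvasBack T s)^[i] (T.opp (q.e (q.n - 1)))))
    · rcases hE with hE | hE
      · exfalso
        have := hZbw _ hE (pvas_back_bw (hbw i))
        exact hm (i + 1) hi (by rw [Function.iterate_succ_apply']; exact this)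
      · exact hdl _ hE
    · exact ReflTransGen.tail h2 (Or.inr ⟨rfl, hE⟩)

/-- MIRROR: the strand of `σ` followed backwards from the exit gate edge runs through the inner strand and the entrance stub up to its tip; its black sites are sites of the core or of the black bank of the stub -/
theorem pvwc_tip_run_back (hT : T.IsSph) {𝔖 : PvwSt T} {pos : V → ℂ} {B : Set ℂ} {col σ : V → Bool} (hI : 𝔖.Inner σ) (hst : 𝔖.StubM pos B col) (hσ : PvwAgree (𝔖.bkM ∪ 𝔖.whM) σ col) :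
    ∃ n, (pvasBack T σ)^[n] 𝔖.dp = 𝔖.em 𝔖.nm ∧ ∀ i, i ≤ n → T.src ((pvasBack T σ)^[i] 𝔖.dp) ∈ 𝔖.ins ∪ 𝔖.bkM := by
  obtain ⟨n0, hn0, hL, -⟩ := hI.run
  have hbwIt : ∀ i, pvasBW T σ (pvasIt T σ 𝔖.dm i) := fun i => pvas_it_bw hI.bw_m i
  have h1 : ∀ i, i ≤ n0 → (pvasBack T σ)^[i] 𝔖.dp = pvasIt T σ 𝔖.dm (n0 - i) := by
    intro i
    induction i with
    | zero => intro _; rw [Function.iterate_zero, id, Nat.sub_zero, hn0]
    | succ i ih =>
      intro hi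
      rw [Function.iterate_succ_apply', ih (by omega), show n0 - i = (n0 - (i + 1)) + 1 by omega, pvas_it_succ, pvas_back_step (hbwIt _)]
  have h2 : ∀ i, i ≤ 𝔖.nm → (pvasBack T σ)^[i] 𝔖.dm = 𝔖.em i := by
    intro i
    induction i with
    | zero => intro _; rw [hst.em_it 0 (Nat.zero_le _)]; rfl
    | succ i ih =>
      intro hi
      rw [Function.iterate_succ_apply', ih (by omega)]
      have e1 : 𝔖.em (i + 1) = pvasBack T col (𝔖.em i) := by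
        rw [hst.em_it (i + 1) hi, Function.iterate_succ_apply', ← hst.em_it i (by omega)]
      have hap : σ (T.apex (T.opp (𝔖.em i))) = col (T.apex (T.opp (𝔖.em i))) := by
        apply hσ
        rcases pvas_back_cases col (𝔖.em i) with ⟨_, e⟩ | ⟨_, e⟩
        · left; exact ⟨i + 1, hi, by rw [e1, e, T.src_nxt2]⟩
        · right; exact ⟨i + 1, hi, by rw [e1, e, T.tgt_nxt]⟩
      rw [e1]
      unfold pvasBack
      rw [hap]
  have h3 : (pvasBack T σ)^[n0] 𝔖.dp = 𝔖.dm := by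
    rw [h1 n0 le_rfl, Nat.sub_self]; rfl
  refine ⟨n0 + 𝔖.nm, ?_, ?_⟩
  · rw [Nat.add_comm, Function.iterate_add_apply, h3]
    exact h2 _ le_rfl
  · intro i hi
    rcases Nat.le_total i n0 with h | h
    · left
      rw [h1 i h]
      exact pvwc_inner_lay hT hn0 hL hI.dp_on (Or.inl ⟨n0 - i, by omega, rfl⟩)
    · right
      obtain ⟨k, rfl⟩ := Nat.exists_eq_add_of_le h
      rw [Nat.add_comm, Function.iterate_add_apply, h3]
      exact ⟨k, by omega, by rw [← h2 k (by omega)]⟩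

/-- the tip position of `Σ⁺(t)` lies on the left of the cell -/
theorem pvwc_tip_left (hT : T.IsSph) (𝔇 : PvwDat T) {pos : V → ℂ} {N : PvwNum} {h : ℝ} {π : PvwPat} {σ : V → Bool} (hOk : 𝔇.Ok pos N h π) (hsep : 𝔇.s.gp ∉ 𝔇.t.ins) (hσ : σ ∈ 𝔇.Cyl)
    {q : T.Pth} (hq : 𝔇.IsShield pos π σ q) (hg : 𝔇.g.Glue q) : 𝔇.t.ep 𝔇.t.np ∈ (𝔇.g.glue q hg).Left := by
  have hIt : 𝔇.t.Inner σ := pvwc_inner_of_gate hT hOk.st_t.gate fun v hv => hσ.1 v (Or.inl (Or.inl (Or.inl hv)))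
  obtain ⟨n, h1, h2⟩ := pvwc_tip_run hT hIt hOk.st_t.stub fun v hv => hσ.1 v (hv.elim (fun h => Or.inl (Or.inl (Or.inr h))) fun h => Or.inl (Or.inr h))
  have h3 := pvwc_stay_left hT 𝔇.g q hg (fun i hi => hσ.2.1 _ ⟨i, hi, rfl⟩) (fun x hx => (hq.inn hx).1) hq.two (m := n) (fun i hi e => by
    rw [hq.fst, hq.lst, T.opp_opp] at e
    have h4 := h2 i hi
    rw [e] at h4
    rcases h4 with h4 | h4
    · exact hsep h4
    · exact (hOk.disj _ (pl_pth_fst_mem 𝔇.g)).1 (by rw [hOk.g0]; exact h4)) n le_rfl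
  rwa [hq.fst, h1] at h3

/-- the face behind the tip position of `Σ⁻(s)` lies on the left of the cell -/
theorem pvwc_tip_left_back (hT : T.IsSph) (𝔇 : PvwDat T) {pos : V → ℂ} {N : PvwNum} {h : ℝ} {π : PvwPat} {σ : V → Bool} (hOk : 𝔇.Ok pos N h π) (hsep : 𝔇.t.gm ∉ 𝔇.s.ins) (hσ : σ ∈ 𝔇.Cyl)
    {q : T.Pth} (hq : 𝔇.IsShield pos π σ q) (hg : 𝔇.g.Glue q) : T.opp (𝔇.s.em 𝔇.s.nm) ∈ (𝔇.g.glue q hg).Left := by
  have hIs : 𝔇.s.Inner σ := pvwc_inner_of_gate hT hOk.st_s.gate fun v hv => hσ.1 v (Or.inr (Or.inl (Or.inl hv)))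
  obtain ⟨n, h1, h2⟩ := pvwc_tip_run_back hT hIs hOk.st_s.stub fun v hv => hσ.1 v (hv.elim (fun h => Or.inr (Or.inl (Or.inr h))) fun h => Or.inr (Or.inr h))
  have h3 := pvwc_stay_left_back hT 𝔇.g q hg (fun i hi => hσ.2.1 _ ⟨i, hi, rfl⟩) (fun x hx => (hq.inn hx).1) hq.two (m := n) (fun i hi e => by
    rw [hq.fst, hq.lst, T.opp_opp] at e
    have h4 := h2 i hi
    rw [e] at h4
    rcases h4 with h4 | h4
    · exact hsep h4
    · exact (hOk.disj _ (pl_pth_lst_mem 𝔇.g)).2.2.1 (by rw [hOk.g1]; exact h4)) n le_rfl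
  rwa [hq.lst, T.opp_opp, h1] at h3

/-- **G1 of 78 is a lemma**: no site of `YCL` in the open cell -/
theorem pvwc_G1 (hT : T.IsSph) (𝔇 : PvwDat T) {pos : V → ℂ} {N : PvwNum} {h : ℝ} {π : PvwPat} {σ : V → Bool} (hOk : 𝔇.Ok pos N h π) (hsep : 𝔇.s.gp ∉ 𝔇.t.ins) (hsep' : 𝔇.t.gm ∉ 𝔇.s.ins) (hσ : σ ∈ 𝔇.Cyl)
    {q : T.Pth} (hq : 𝔇.IsShield pos π σ q) (hg : 𝔇.g.Glue q) : ∀ v ∈ T.Int (𝔇.g.glue q hg).Right, v ∉ 𝔇.YCL pos π := by
  intro v hv hy
  obtain ⟨a, ha, h1, h2⟩ := pvwc_ycl_walk 𝔇 hy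
  have hoff := pvwc_cell_off 𝔇 hOk hq hg
  have hF := pl_left_face (𝔇.g.glue q hg)
  have h3 : a ∈ T.Int (𝔇.g.glue q hg).Left := by
    rcases ha with rfl | rfl
    · exact pvt_c_int_of_left hT (𝔇.g.glue q hg) ((hF _).2 ((hF _).2 (pvwc_tip_left hT 𝔇 hOk hsep hσ hq hg))) fun hc => hoff _ hc h1
    · exact pvt_c_int_of_left hT (𝔇.g.glue q hg) ((hF _).2 ((hF _).2 (pvwc_tip_left_back hT 𝔇 hOk hsep' hσ hq hg))) fun hc => hoff _ hc h1
  have h5 := pl_jordan_sep hT (𝔇.g.glue q hg) h3 (ReflTransGen.mono (fun _ w hw => ⟨hw.1, fun hc => hoff w hc hw.2⟩) _ _ h2)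
  exact Set.disjoint_left.1 (pl_jordan_vert_disj hT (𝔇.g.glue q hg)).2.2 h5 hv

/-- the cycle `g₀ · q` runs in `Wl` -/
theorem pvwc_cell_wl (𝔇 : PvwDat T) {pos : V → ℂ} {π : PvwPat} {σ : V → Bool} {q : T.Pth} (hq : 𝔇.IsShield pos π σ q) (hg : 𝔇.g.Glue q) :
    (𝔇.g.glue q hg).verts ⊆ 𝔇.Wl pos π := by
  intro v hv
  rw [pl_pth_glue_verts, pl_pth_verts_eq q] at hv
  rcases hv with hv | (rfl | hv) | hv
  · exact Or.inl hv
  · rw [← hg.h1]; exact Or.inl (pl_pth_lst_mem _)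
  · rw [show v = q.v q.n from hv, hg.h2]; exact Or.inl (pl_pth_fst_mem _)
  · exact Or.inr (hq.inn hv).2

/-- **G1 for `NU`** (v3): the open cell contains only sites which `NB` reads -/
theorem pvwc_G1nu (hT : T.IsSph) (𝔇 : PvwDat T) {pos : V → ℂ} {N : PvwNum} {h : ℝ} {π : PvwPat} {σ : V → Bool} (hOk : 𝔇.Ok pos N h π) (hsep : 𝔇.s.gp ∉ 𝔇.t.ins) (hsep' : 𝔇.t.gm ∉ 𝔇.s.ins) (hcol : 𝔇.Col pos π) (hσ : σ ∈ 𝔇.Cyl)
    {q : T.Pth} (hq : 𝔇.IsShield pos π σ q) (hg : 𝔇.g.Glue q) : T.Int (𝔇.g.glue q hg).Right ⊆ 𝔇.NU pos π := by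
  intro v hv
  by_contra hy
  obtain ⟨a, ha, h1, h2⟩ := hcol v hy
  have hoff := pvwc_cell_wl 𝔇 hq hg
  have hF := pl_left_face (𝔇.g.glue q hg)
  have h3 : a ∈ T.Int (𝔇.g.glue q hg).Left := by
    rcases ha with rfl | rfl
    · exact pvt_c_int_of_left hT (𝔇.g.glue q hg) ((hF _).2 ((hF _).2 (pvwc_tip_left hT 𝔇 hOk hsep hσ hq hg))) fun hc => h1 (hoff hc)
    · exact pvt_c_int_of_left hT (𝔇.g.glue q hg) ((hF _).2 ((hF _).2 (pvwc_tip_left_back hT 𝔇 hOk hsep' hσ hq hg))) fun hc => h1 (hoff hc)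
  have h5 := pl_jordan_sep hT (𝔇.g.glue q hg) h3 (ReflTransGen.mono (fun _ w hw => ⟨hw.1, fun hc => hw.2 (hoff hc)⟩) _ _ h2)
  exact Set.disjoint_left.1 (pl_jordan_vert_disj hT (𝔇.g.glue q hg)).2.2 h5 hv

/-- a site off `NU` is not on a cell -/
theorem pvwc_col_off (𝔇 : PvwDat T) {pos : V → ℂ} {π : PvwPat} (hcol : 𝔇.Col pos π) {w : V} (hw : w ∉ 𝔇.NU pos π) : w ∉ 𝔇.Wl pos π := by
  obtain ⟨a, -, h1, h2⟩ := hcol w hw
  rcases ReflTransGen.cases_tail h2 with e | ⟨_, -, h3⟩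
  · exact e ▸ h1
  · exact h3.2

/-- a site of the boundary layer of `NU` is not in the open cell -/
theorem pvwc_lam_out (hT : T.IsSph) (𝔇 : PvwDat T) {pos : V → ℂ} {N : PvwNum} {h : ℝ} {π : PvwPat} {σ : V → Bool} (hOk : 𝔇.Ok pos N h π) (hsep : 𝔇.s.gp ∉ 𝔇.t.ins) (hsep' : 𝔇.t.gm ∉ 𝔇.s.ins) (hcol : 𝔇.Col pos π) (hσ : σ ∈ 𝔇.Cyl)
    {q : T.Pth} (hq : 𝔇.IsShield pos π σ q) (hg : 𝔇.g.Glue q) : ∀ a ∈ 𝔇.Lam pos π, a ∉ T.Int (𝔇.g.glue q hg).Right := by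
  rintro a ⟨-, w, hw, haw⟩ ha
  have h1 : w ∈ T.Int (𝔇.g.glue q hg).Right :=
    pl_int_sep hT (pl_right_face (𝔇.g.glue q hg)) (X := (𝔇.g.glue q hg).vertsᶜ) (fun _ hv _ hd hb => pl_cyc_off (𝔇.g.glue q hg) (hd ▸ hv) (pl_right_bd_sub (𝔇.g.glue q hg) hb)) ha
      (ReflTransGen.single ⟨haw, fun hc => pvwc_col_off 𝔇 hcol hw (pvwc_cell_wl 𝔇 hq hg hc)⟩)
  exact hw (pvwc_G1nu hT 𝔇 hOk hsep hsep' hcol hσ hq hg h1)

/-- **the `g₀` part of (C2), route of record**: on `Cyl(D) ∩ NB ∩ WO` the right triangles of `g₀` are tags of the wall of the entry gate edge of `t` -/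
theorem pvwc_g_onwall (hT : T.IsSph) (hS : T.Simple) (𝔇 : PvwDat T) {pos : V → ℂ} {N : PvwNum} {h : ℝ} {π : PvwPat} {σ : V → Bool} (hOk : 𝔇.Ok pos N h π) (hsep : 𝔇.s.gp ∉ 𝔇.t.ins) (hsep' : 𝔇.t.gm ∉ 𝔇.s.ins) (hcol : 𝔇.Col pos π)
    (hσ : σ ∈ 𝔇.Cyl) (hNB : 𝔇.NB pos π σ) (hWO : 𝔇.WO pos π σ) : 𝔇.g.OnWall σ 𝔇.t.dm := by
  have hIs : 𝔇.s.Inner σ := pvwc_inner_of_gate hT hOk.st_s.gate fun v hv => hσ.1 v (Or.inr (Or.inl (Or.inl hv)))
  have hIt : 𝔇.t.Inner σ := pvwc_inner_of_gate hT hOk.st_t.gate fun v hv => hσ.1 v (Or.inl (Or.inl (Or.inl hv)))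
  obtain ⟨q, hq, hg⟩ := pvwc_shield hT 𝔇 hOk hσ hWO
  have hq2 := hq.two
  have hb : ∀ i, i ≤ 𝔇.g.n → σ (𝔇.g.v i) = true := fun i hi => hσ.2.1 _ ⟨i, hi, rfl⟩
  have hw : ∀ x ∈ q.inner, σ x = false := fun x hx => (hq.inn hx).1
  have hlast : q.v (q.n - 1) = T.tgt 𝔇.s.dp := by
    rw [← q.src_e (q.n - 1) (by omega), hq.lst, T.src_opp']
  have hgf : 𝔇.g.GFaced σ (q.v (q.n - 1)) := by
    refine pvwc_gfaced_abs hT 𝔇.g q hg hb hw hq2 hNB ?_
    rintro a (rfl | ha) hin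
    · rw [hlast]
      exact pvwc_inner_rap hS hIs (by have := (pvwc_inner_ends hIs).2.2; omega)
    · exact absurd hin (pvwc_lam_out hT 𝔇 hOk hsep hsep' hcol hσ hq hg a ha)
  refine pvow_gfaced_onwall hT hgf (pvas_bw_occ hIt.bw_m) ?_ ?_
  · have := pvow_pth_mono (p := 𝔇.g) (s := σ) (fun i hi => by rw [hb i hi, hb 0 (Nat.zero_le _)]) 𝔇.g.n le_rfl
    rw [hOk.g1] at this
    exact pvt_c_mono_symm this
  · have h3 := pvta_inner_mono q (fun i h0 h1 => hw _ ⟨i, h0, h1, rfl⟩) (j := 1) Nat.one_pos (q.n - 2) (by omega)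
    rw [show 1 + (q.n - 2) = q.n - 1 by omega, ← q.tgt_e 0 (by omega), hq.fst] at h3
    exact h3


/-! ## 5b. NB transfer, sector form (not of record) -/

/-- composition of sectors: `x` between `a` and `b`, `y` between `x` and `b` -/
theorem pvwc_btw_trans {a b x y : D} (h1 : pvttBtw T a b x) (h2 : pvttBtw T x b y) : pvttBtw T a b y := by
  obtain ⟨j1, hj1, e1, n1⟩ := h1
  obtain ⟨j2, hj2, e2, n2⟩ := h2
  refine ⟨j2 + j1, by omega, by rw [Function.iterate_add_apply, e1, e2], fun i hi => ?_⟩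
  rcases Nat.lt_or_ge j1 i with h | h
  · obtain ⟨m, rfl⟩ := Nat.exists_eq_add_of_le h.le
    rw [Nat.add_comm, Function.iterate_add_apply, e1]
    exact n2 m (by omega)
  · exact n1 i h

/-- `y` is met before `x`, `x` is met before `b` -/
theorem pvwc_btw_cut {a b x y : D} (h1 : pvttBtw T a x y) (h2 : pvttBtw T a b x) : pvttBtw T a b y := by
  obtain ⟨j1, hj1, e1, n1⟩ := h1
  obtain ⟨j2, hj2, e2, n2⟩ := h2
  refine ⟨j1, hj1, e1, fun i hi => n2 i ?_⟩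
  by_contra hc
  exact n1 j2 (by omega) e2

/-- a spoke of the cell leaves `g₀` into its right side in the sense of `Tr/Defs` -/
theorem pvwc_sp_rsec (hT : T.IsSph) (hS : T.Simple) (𝔇 : PvwDat T) {pos : V → ℂ} {π : PvwPat} {σ : V → Bool} (hIs : 𝔇.s.Inner σ) (hIt : 𝔇.t.Inner σ)
    (h0 : 𝔇.g.v 0 = 𝔇.s.gp) (h1 : 𝔇.g.v 𝔇.g.n = 𝔇.t.gm) (hn : 0 < 𝔇.g.n) (hfs : 𝔇.g.v 1 ∉ 𝔇.s.ins) (hft : 𝔇.g.v (𝔇.g.n - 1) ∉ 𝔇.t.ins)
    {q : T.Pth} (hq : 𝔇.IsShield pos π σ q) (hg : 𝔇.g.Glue q) {k : ℕ} (hk : k ≤ 𝔇.g.n) {d : D} (hd : PvswSp σ (𝔇.g.glue q hg) k d) : 𝔇.RSec k d := by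
  obtain ⟨hs, hR, hoR, -⟩ := hd
  refine pvwc_rsec_of_btw ?_
  have hqn := hq.two
  rcases Nat.eq_zero_or_pos k with rfl | hk0
  · -- the first vertex: the exit gate edge of `s`
    have e1 : 𝔇.prv 0 = 𝔇.s.inn.e (𝔇.s.inn.n - 1) := if_pos rfl
    have e2 : 𝔇.nx 0 = 𝔇.g.e 0 := if_neg (by omega)
    rw [e1, e2]
    have hZn : (𝔇.g.glue q hg).n = 𝔇.g.n + q.n := rfl
    have hper : (𝔇.g.glue q hg).e (𝔇.g.n + (q.n - 1) + 1) = (𝔇.g.glue q hg).e 0 := by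
      have := (𝔇.g.glue q hg).per 0
      rw [hZn, Nat.zero_add] at this
      rw [← this]
      congr 1
      omega
    have b1 := pvwc_cyc_btw hT (𝔇.g.glue q hg) (𝔇.g.n + (q.n - 1)) (d := d) (by rw [hper]; exact hs) hR hoR
    rw [hper, pl_pth_glue_e2 𝔇.g q hg (by omega), pl_pth_glue_e1 𝔇.g q hg hn, hq.lst, T.opp_opp] at b1
    have b2 := pvwc_gate_out hT hS hIs (f := 𝔇.g.e 0) (by rw [𝔇.g.src_e 0 hn, h0]) (by rw [𝔇.g.tgt_e 0 hn]; exact hfs)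
    exact pvwc_btw_trans b2 b1
  · rcases Nat.lt_or_ge k 𝔇.g.n with hkn | hkn
    · have e1 : 𝔇.prv k = 𝔇.g.e (k - 1) := if_neg (by omega)
      have e2 : 𝔇.nx k = 𝔇.g.e k := if_neg (by omega)
      rw [e1, e2]
      have b1 := pvwc_cyc_btw hT (𝔇.g.glue q hg) (k - 1) (d := d) (by rw [Nat.sub_add_cancel hk0]; exact hs) hR hoR
      rwa [Nat.sub_add_cancel hk0, pl_pth_glue_e1 𝔇.g q hg (by omega), pl_pth_glue_e1 𝔇.g q hg hkn] at b1
    · have hkk : k = 𝔇.g.n := le_antisymm hk hkn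
      subst hkk
      have e1 : 𝔇.prv 𝔇.g.n = 𝔇.g.e (𝔇.g.n - 1) := if_neg (by omega)
      have e2 : 𝔇.nx 𝔇.g.n = 𝔇.t.inn.e 0 := if_pos rfl
      rw [e1, e2]
      have b1 := pvwc_cyc_btw hT (𝔇.g.glue q hg) (𝔇.g.n - 1) (d := d) (by rw [Nat.sub_add_cancel hk0]; exact hs) hR hoR
      have e3 : (𝔇.g.glue q hg).e 𝔇.g.n = q.e 0 := pl_pth_glue_e2 𝔇.g q hg (k := 0) (by omega)
      rw [Nat.sub_add_cancel hk0, pl_pth_glue_e1 𝔇.g q hg (by omega), e3, hq.fst] at b1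
      have b2 := pvwc_gate_in hT hS hIt (f := T.opp (𝔇.g.e (𝔇.g.n - 1)))
        (by rw [T.src_opp, show T.src (T.nxt (𝔇.g.e (𝔇.g.n - 1))) = T.tgt (𝔇.g.e (𝔇.g.n - 1)) from rfl, 𝔇.g.tgt_e _ (by omega), Nat.sub_add_cancel hk0, h1]) (by rw [T.tgt_opp, 𝔇.g.src_e _ (by omega)]; exact hft)
      exact pvwc_btw_cut b1 b2

/-- **NB(D) + G1 ⇒ no bypass inside the cell** -/
theorem pvwc_nb (hT : T.IsSph) (hS : T.Simple) (𝔇 : PvwDat T) {pos : V → ℂ} {π : PvwPat} {σ : V → Bool} (hIs : 𝔇.s.Inner σ) (hIt : 𝔇.t.Inner σ)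
    (h0 : 𝔇.g.v 0 = 𝔇.s.gp) (h1 : 𝔇.g.v 𝔇.g.n = 𝔇.t.gm) (hn : 0 < 𝔇.g.n) (hfs : 𝔇.g.v 1 ∉ 𝔇.s.ins) (hft : 𝔇.g.v (𝔇.g.n - 1) ∉ 𝔇.t.ins)
    (hb : ∀ v ∈ 𝔇.g.verts, σ v = true) {q : T.Pth} (hq : 𝔇.IsShield pos π σ q) (hg : 𝔇.g.Glue q)
    (hG1 : ∀ v ∈ T.Int (𝔇.g.glue q hg).Right, v ∉ 𝔇.YCL pos π) (hNB : 𝔇.NBsec pos π σ) : PvswNB σ (𝔇.g.glue q hg) 𝔇.g.n := by
  intro k hk d hd
  have hsec : 𝔇.RSec k d := pvwc_sp_rsec hT hS 𝔇 hIs hIt h0 h1 hn hfs hft hq hg hk hd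
  have hsrc : T.src d = 𝔇.g.v k := by rw [hd.1, pl_pth_glue_src1 𝔇.g q hg hk]
  have hgZ : ∀ x, x ∈ 𝔇.g.verts → x ∈ (𝔇.g.glue q hg).verts := fun x hx => by rw [pl_pth_glue_verts]; exact Or.inl hx
  -- the black vertices of the cell are the vertices of `g₀`
  have hblack : ∀ v ∈ (𝔇.g.glue q hg).verts, σ v = true → ∃ l, l ≤ 𝔇.g.n ∧ v = 𝔇.g.v l := by
    intro v hv hbv
    rw [pl_pth_glue_verts] at hv
    rcases hv with ⟨l, hl, e⟩ | ⟨l, hl, e⟩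
    · exact ⟨l, hl, e.symm⟩
    · rcases Nat.eq_zero_or_pos l with rfl | hl0
      · exact ⟨𝔇.g.n, le_rfl, by rw [← e]; exact hg.1.symm⟩
      · rcases Nat.lt_or_ge l q.n with hlt | hge
        · have := (hq.inn ⟨l, hl0, hlt, e⟩).1
          rw [hbv] at this
          exact Bool.noConfusion this
        · obtain rfl : l = q.n := by omega
          exact ⟨0, Nat.zero_le _, by rw [← e]; exact hg.h2⟩
  have hoff : T.tgt d ∉ (𝔇.g.glue q hg).verts := by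
    intro hv
    obtain ⟨l, hl, e⟩ := hblack _ hv hd.2.2.2
    have hnil : T.tgt d ∉ (PvMap.Pth.nil T (T.src d) d).verts := by
      rintro ⟨i, -, hi⟩
      exact T.tgt_ne_src d hi.symm
    refine hNB ⟨k, l, (PvMap.Pth.nil T (T.src d) d).snoc d rfl hnil, hk, hl, ?_, Nat.succ_pos _, hsrc, e, hsec, ?_⟩
    · rintro rfl
      exact T.tgt_ne_src d (e.trans hsrc.symm)
    · rintro x ⟨i, hi0, hi1, -⟩
      have hi2 : i < 0 + 1 := hi1
      omega
  refine ⟨hoff, fun v hv l hl hadj => ?_⟩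
  by_contra hlk
  have hint := (pvsw_sp_head hT hd).resolve_left hoff
  have hsX : T.src d ∉ {x | σ x = true ∧ x ∉ (𝔇.g.glue q hg).verts ∧ x ∈ T.Int (𝔇.g.glue q hg).Right} := fun hc => hc.2.1 (by rw [hd.1]; exact ⟨k, rfl⟩)
  obtain ⟨p, pn, p0, pe, p1, pX⟩ := pvsw_pth_from d (X := {x | σ x = true ∧ x ∉ (𝔇.g.glue q hg).verts ∧ x ∈ T.Int (𝔇.g.glue q hg).Right})
    ⟨hd.2.2.2, hoff, hint⟩ hsX (pvsw_bj_chain hT hint hv)
  obtain ⟨f, hfs', hft'⟩ := hadj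
  rw [pl_pth_glue_src1 𝔇.g q hg hl] at hft'
  have hnew : T.tgt f ∉ p.verts := by
    rintro ⟨i, hi, hiv⟩
    rcases Nat.eq_zero_or_pos i with rfl | hi0
    · rw [p0, hsrc, hft'] at hiv
      exact hlk (𝔇.g.inj k l hk hl hiv).symm
    · exact (pX i hi0 hi).2.1 (by rw [hiv, hft']; exact hgZ _ ⟨l, hl, rfl⟩)
  refine hNB ⟨k, l, p.snoc f (by rw [hfs', p1]) hnew, hk, hl, fun e => hlk e.symm, Nat.succ_pos _, ?_, ?_, ?_, ?_⟩
  · show (if 0 ≤ p.n then p.v 0 else T.tgt f) = _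
    rw [if_pos (Nat.zero_le _), p0, hsrc]
  · show (if p.n + 1 ≤ p.n then p.v (p.n + 1) else T.tgt f) = _
    rw [if_neg (by omega), hft']
  · show 𝔇.RSec k (if 0 < p.n then p.e 0 else f)
    rw [if_pos pn, pe]; exact hsec
  · rintro x ⟨i, hi0, hi1, rfl⟩
    have hi2 : i < p.n + 1 := hi1
    show (σ (if i ≤ p.n then p.v i else T.tgt f) = true) ∧ (if i ≤ p.n then p.v i else T.tgt f) ∉ 𝔇.g.verts ∧ (if i ≤ p.n then p.v i else T.tgt f) ∉ 𝔇.YCL pos π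
    rw [if_pos (by omega)]
    have hx := pX i hi0 (by omega)
    exact ⟨hx.1, fun hc => hx.2.1 (hgZ _ hc), hG1 _ hx.2.2⟩

/-! ## 6. One wall -/

/-- abstract T8: a black path closed to a cell without bypass by a path with white inner vertices is a piece of the wall of the first dart of that path, as soon as the wall of the entrance is finite -/
theorem pvwc_piece (hT : T.IsSph) {s : V → Bool} (g q : T.Pth) (hg : g.Glue q) (hb : ∀ i, i ≤ g.n → s (g.v i) = true) (hq : ∀ x ∈ q.inner, s x = false) (hq2 : 2 ≤ q.n)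
    (hfin : {d | T.Wall s (T.opp (q.e (q.n - 1))) d}.Finite) (hnb : PvswNB s (g.glue q hg) g.n) : g.OnWall s (q.e 0) := by
  have h := pvsw_trap_glue g q hg hb hq hq2 (pvsw_fin_of_wall (by rw [pvsw_in_glue]; exact hfin))
  have hw : T.Wall s (q.e 0) (pvswIn (g.glue q hg)) := by
    have := pvsw_wall_out hT h
    rw [show (g.glue q hg).e g.n = q.e 0 from pl_pth_glue_e2 g q hg (k := 0) (by omega)] at this
    exact pl_ra_wall_symm this
  intro k hk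
  have h1 := pvsw_piece hT h hnb hk
  rw [pl_pth_glue_e1 g q hg hk] at h1
  exact ⟨h1.1, pl_ra_wall_trans hw h1.2⟩

theorem pvwc_inner_onwall (hS : T.Simple) {𝔖 : PvwSt T} {σ : V → Bool} (hI : 𝔖.Inner σ) : 𝔖.inn.OnWall σ 𝔖.dm ∧ T.Wall σ 𝔖.dm 𝔖.dp := by
  obtain ⟨n, h1, -, h3⟩ := hI.run
  exact ⟨pvow_le_onwall hS hI.bw_m h3, h1 ▸ pvt_s_it_wall hI.bw_m n⟩

theorem pvwc_y_onwall (hS : T.Simple) (𝔇 : PvwDat T) {pos : V → ℂ} {π : PvwPat} {σ : V → Bool} (hbw : pvasBW T σ 𝔇.t.dp) {y : T.Pth} (hy : 𝔇.YArc pos π σ y) :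
    y.OnWall σ 𝔇.t.dp ∧ T.Wall σ 𝔇.t.dp 𝔇.s.dm ∧ y.v 0 = 𝔇.t.gp ∧ y.v y.n = 𝔇.s.gm := by
  obtain ⟨n, h1, h2⟩ := hy
  obtain ⟨e0, e1⟩ := pvwc_le_ends h2
  refine ⟨pvow_le_onwall hS hbw h2, h1.2.1 ▸ pvt_s_it_wall hbw n, e0, ?_⟩
  rw [e1]
  show T.src (pvasIt T σ 𝔇.t.dp n) = _
  rw [h1.2.1]
  rfl

/-! ## 7. Masses -/

/-- the mass of a whole path all of whose right triangles have their barycentres in `K` -/
theorem pvwc_mass_all (pos : V → ℂ) (w : D → ℂ) (K : Set ℂ) (p : T.Pth) (h : ∀ k, k < p.n → T.bary pos (T.opp (p.e k)) ∈ K) : pvwMass T pos w K p 0 p.n = p.psum w := by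
  unfold pvwMass PvMap.Pth.psum
  rw [← Finset.range_eq_Ico]
  refine Finset.sum_congr rfl fun k hk => ?_
  rw [if_pos (h k (Finset.mem_range.1 hk))]

/-- the three masses of an inner arc: the whole mass in its own cut-off ball + the mass off the two balls, before and after the marked vertex -/
theorem pvwc_mass_inner (pos : V → ℂ) (w : D → ℂ) (B B' : Set ℂ) (p : T.Pth) {i : ℕ} (hi : i ≤ p.n) (h : ∀ k, k < p.n → T.bary pos (T.opp (p.e k)) ∉ B') :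
    pvwMass T pos w B p 0 p.n + pvwMass T pos w (B ∪ B')ᶜ p i p.n + pvwMass T pos w (B ∪ B')ᶜ p 0 i = p.psum w := by
  classical
  have e1 : pvwMass T pos w (B ∪ B')ᶜ p 0 i + pvwMass T pos w (B ∪ B')ᶜ p i p.n = pvwMass T pos w (B ∪ B')ᶜ p 0 p.n := by
    unfold pvwMass
    exact Finset.sum_Ico_consecutive _ (Nat.zero_le i) hi
  have e2 : pvwMass T pos w B p 0 p.n + pvwMass T pos w (B ∪ B')ᶜ p 0 p.n = p.psum w := by
    unfold pvwMass PvMap.Pth.psum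
    rw [← Finset.range_eq_Ico, ← Finset.sum_add_distrib]
    refine Finset.sum_congr rfl fun k hk => ?_
    have hk' := h k (Finset.mem_range.1 hk)
    by_cases hB : T.bary pos (T.opp (p.e k)) ∈ B
    · rw [if_pos hB, if_neg (fun hc : T.bary pos (T.opp (p.e k)) ∈ (B ∪ B')ᶜ => hc (Or.inl hB)), add_zero]
    · rw [if_neg hB, if_pos (show T.bary pos (T.opp (p.e k)) ∈ (B ∪ B')ᶜ from fun hc => hc.elim hB hk'), zero_add]
  rw [← e2, ← e1]
  ring

/-- `X(D) + Y` is the sum of the four path sums -/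
theorem pvwc_mass (𝔇 : PvwDat T) {pos : V → ℂ} {N : PvwNum} {h : ℝ} {π : PvwPat} {σ : V → Bool} (hF : 𝔇.Fit pos N h π σ) (his : 𝔇.s.ip ≤ 𝔇.s.inn.n) (hit : 𝔇.t.ip ≤ 𝔇.t.inn.n)
    (w : D → ℂ) {y : T.Pth} (hy : 𝔇.YArc pos π σ y) :
    𝔇.X pos w N h π + 𝔇.Yof pos w N h π y = 𝔇.g.psum w + 𝔇.t.inn.psum w + y.psum w + 𝔇.s.inn.psum w := by
  have a1 := pvwc_mass_all pos w (PvwDat.offCut N h π) 𝔇.g hF.m_g
  have a2 := pvwc_mass_all pos w (PvwDat.offCut N h π) y (hF.m_y y hy)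
  have a3 := pvwc_mass_inner pos w (Metric.closedBall π.zs (N.m * h)) (Metric.closedBall π.zt (N.m * h)) 𝔇.s.inn his hF.m_s
  have a4 := pvwc_mass_inner pos w (Metric.closedBall π.zt (N.m * h)) (Metric.closedBall π.zs (N.m * h)) 𝔇.t.inn hit hF.m_t
  rw [Set.union_comm] at a4
  unfold PvwDat.X PvwDat.Yof
  rw [a1, a2, ← a3, ← a4]
  unfold PvwDat.offCut
  ring

/-! ## 8. (C2) CLOSING -/

/-- the ring `P' = g₀ · inner(t) · y · inner(s)`: chain, distinct heads, one wall -/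
theorem pvwc_ring (hT : T.IsSph) (hS : T.Simple) (𝔇 : PvwDat T) {pos : V → ℂ} {N : PvwNum} {h : ℝ} {π : PvwPat} {σ : V → Bool} (hOk : 𝔇.Ok pos N h π) (hF : 𝔇.Fit pos N h π σ)
    (hσ : σ ∈ 𝔇.Cyl) (hgw : 𝔇.g.OnWall σ 𝔇.t.dm) {y : T.Pth} (hy : 𝔇.YArc pos π σ y) :
    pvowChain T [𝔇.g, 𝔇.t.inn, y, 𝔇.s.inn] (𝔇.g.v 0) (𝔇.g.v 0) ∧ ((pvowDarts [𝔇.g, 𝔇.t.inn, y, 𝔇.s.inn]).map T.tgt).Nodup ∧ (∀ p ∈ [𝔇.g, 𝔇.t.inn, y, 𝔇.s.inn], p.OnWall σ 𝔇.t.dm) ∧
      3 ≤ (pvowDarts [𝔇.g, 𝔇.t.inn, y, 𝔇.s.inn]).length := by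
  have hIs : 𝔇.s.Inner σ := pvwc_inner_of_gate hT hOk.st_s.gate fun v hv => hσ.1 v (Or.inr (Or.inl (Or.inl hv)))
  have hIt : 𝔇.t.Inner σ := pvwc_inner_of_gate hT hOk.st_t.gate fun v hv => hσ.1 v (Or.inl (Or.inl (Or.inl hv)))
  obtain ⟨ht1, ht2⟩ := pvwc_inner_onwall hS hIt
  obtain ⟨hs1, -⟩ := pvwc_inner_onwall hS hIs
  obtain ⟨hy1, hy2, hy3, hy4⟩ := pvwc_y_onwall hS 𝔇 hIt.bw_p hy
  obtain ⟨et0, et1, et2⟩ := pvwc_inner_ends hIt
  obtain ⟨es0, es1, es2⟩ := pvwc_inner_ends hIs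
  refine ⟨⟨rfl, by rw [et0, hOk.g1], by rw [hy3, et1], by rw [es0, hy4], by rw [es1, hOk.g0]; exact rfl⟩, pvow_nodup (hF.dist y hy), ?_, ?_⟩
  · intro p hp
    simp only [List.mem_cons, List.not_mem_nil, or_false] at hp
    rcases hp with rfl | rfl | rfl | rfl
    · exact hgw
    · exact ht1
    · exact pvow_onwall_trans hy1 ht2
    · exact pvow_onwall_trans hs1 (pl_ra_wall_trans ht2 hy2)
  · have := hOk.pos_n
    rw [pvow_darts_cons, pvow_darts_cons, pvow_darts_cons, pvow_darts_cons, List.length_append, List.length_append, List.length_append, List.length_append, pvow_lst_length, pvow_lst_length, pvow_lst_length,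
      pvow_lst_length]
    omega

/-- (C2) for a given arc `y`, from "`g₀` is a piece of the wall of `dm(t)`" -/
theorem pvwc_C2_core (hT : T.IsSph) (hS : T.Simple) (𝔇 : PvwDat T) {pos : V → ℂ} {N : PvwNum} {h : ℝ} {π : PvwPat} {σ : V → Bool} (hOk : 𝔇.Ok pos N h π) (hF : 𝔇.Fit pos N h π σ)
    (hσ : σ ∈ 𝔇.Cyl) (hgw : 𝔇.g.OnWall σ 𝔇.t.dm) {y : T.Pth} (hy : 𝔇.YArc pos π σ y) :
    T.Tag σ (T.opp (𝔇.g.e 0)) ∧ (∀ d', T.SameLab σ (T.opp (𝔇.g.e 0)) d' ↔ T.opp d' ∈ pvowDarts [𝔇.g, 𝔇.t.inn, y, 𝔇.s.inn]) ∧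
      ∀ w : D → ℂ, T.lsum σ w (T.opp (𝔇.g.e 0)) = 𝔇.X pos w N h π + 𝔇.Yof pos w N h π y := by
  obtain ⟨hchain, hnd, hwall, -⟩ := pvwc_ring hT hS 𝔇 hOk hF hσ hgw hy
  have hmem : 𝔇.g.e 0 ∈ pvowDarts [𝔇.g, 𝔇.t.inn, y, 𝔇.s.inn] := pvow_mem_darts.2 ⟨𝔇.g, by simp, 0, hOk.pos_n, rfl⟩
  obtain ⟨r1, r2, r3⟩ := pvow_ring hT hS hchain hnd hwall hmem
  refine ⟨r1, r2, fun w => ?_⟩
  rw [r3 w, pvwc_mass 𝔇 hF hOk.st_s.gate.ip_le hOk.st_t.gate.ip_le w hy]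
  simp only [List.map_cons, List.map_nil, List.sum_cons, List.sum_nil]
  ring

/-- **(C2) for a given arc `y`** (form of record) -/
theorem pvwc_C2_arc (hT : T.IsSph) (hS : T.Simple) (𝔇 : PvwDat T) {pos : V → ℂ} {N : PvwNum} {h : ℝ} {π : PvwPat} {σ : V → Bool} (hOk : 𝔇.Ok pos N h π) (hF : 𝔇.Fit pos N h π σ) (hcol : 𝔇.Col pos π)
    (hσ : σ ∈ 𝔇.Cyl) (hNB : 𝔇.NB pos π σ) (hWO : 𝔇.WO pos π σ) {y : T.Pth} (hy : 𝔇.YArc pos π σ y) :
    T.Tag σ (T.opp (𝔇.g.e 0)) ∧ (∀ d', T.SameLab σ (T.opp (𝔇.g.e 0)) d' ↔ T.opp d' ∈ pvowDarts [𝔇.g, 𝔇.t.inn, y, 𝔇.s.inn]) ∧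
      ∀ w : D → ℂ, T.lsum σ w (T.opp (𝔇.g.e 0)) = 𝔇.X pos w N h π + 𝔇.Yof pos w N h π y :=
  pvwc_C2_core hT hS 𝔇 hOk hF hσ (pvwc_g_onwall hT hS 𝔇 hOk hF.sep_s hF.sep_t hcol hσ hNB hWO) hy

/-- on `SY` there is an arc `y` -/
theorem pvwc_yarc_exists (𝔇 : PvwDat T) {pos : V → ℂ} {π : PvwPat} {σ : V → Bool} (hSY : 𝔇.SY pos π σ) : ∃ y, 𝔇.YArc pos π σ y := by
  obtain ⟨n, hn⟩ := hSY
  have : Nonempty D := ⟨𝔇.t.dp⟩
  obtain ⟨y₀, hy₀⟩ := pvwc_le_exists (T := T) (fun i => T.src (pvasIt T σ 𝔇.t.dp i)) n fun i _ => by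
    rcases pvas_layB_step σ 𝔇.t.dp i with e | ⟨f, -, e1, e2⟩
    · exact Or.inl e
    · exact Or.inr ⟨f, e1, e2⟩
  exact ⟨y₀, n, hn, hy₀⟩

/-- **(C2) CLOSING**: on `Cyl(D) ∩ NB ∩ WO ∩ SY` the circuit `P' = g₀ · inner(t) · y · inner(s)` is a full label class and `X_{P'}(1) = X(D) + Y` -/
theorem pvwc_C2 (hT : T.IsSph) (hS : T.Simple) (𝔇 : PvwDat T) {pos : V → ℂ} {N : PvwNum} {h : ℝ} {π : PvwPat} {σ : V → Bool} (hOk : 𝔇.Ok pos N h π) (hF : 𝔇.Fit pos N h π σ) (hcol : 𝔇.Col pos π)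
    (hσ : σ ∈ 𝔇.Cyl) (hNB : 𝔇.NB pos π σ) (hWO : 𝔇.WO pos π σ) (hSY : 𝔇.SY pos π σ) :
    T.Tag σ (T.opp (𝔇.g.e 0)) ∧ (∃ y, 𝔇.YArc pos π σ y ∧ ∀ d', T.SameLab σ (T.opp (𝔇.g.e 0)) d' ↔ T.opp d' ∈ pvowDarts [𝔇.g, 𝔇.t.inn, y, 𝔇.s.inn]) ∧
      ∀ w : D → ℂ, T.lsum σ w (T.opp (𝔇.g.e 0)) = 𝔇.X pos w N h π + 𝔇.Y pos w N h π σ := by
  have hex := pvwc_yarc_exists 𝔇 hSY
  obtain ⟨r1, r2, r3⟩ := pvwc_C2_arc hT hS 𝔇 hOk hF hcol hσ hNB hWO hex.choose_spec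
  refine ⟨r1, ⟨_, hex.choose_spec, r2⟩, fun w => ?_⟩
  rw [r3 w]
  unfold PvwDat.Y
  rw [dif_pos hex]

/-- **(C2), RIM FORM** (shape asked by 78 for 191 / 159): `P'` is a rim `c : T.Cyc` of `σ`, its darts are the darts of the four pieces, its label sum is `X(D) + Y` -/
theorem pvwc_C2_rim (hT : T.IsSph) (hS : T.Simple) (𝔇 : PvwDat T) {pos : V → ℂ} {N : PvwNum} {h : ℝ} {π : PvwPat} {σ : V → Bool} (hOk : 𝔇.Ok pos N h π) (hF : 𝔇.Fit pos N h π σ) (hcol : 𝔇.Col pos π)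
    (hσ : σ ∈ 𝔇.Cyl) (hNB : 𝔇.NB pos π σ) (hWO : 𝔇.WO pos π σ) (hSY : 𝔇.SY pos π σ) :
    ∃ (c : T.Cyc) (y : T.Pth), c.IsRim σ ∧ 𝔇.YArc pos π σ y ∧ (∀ f, f ∈ pvowDarts [𝔇.g, 𝔇.t.inn, y, 𝔇.s.inn] ↔ ∃ i, f = c.e i) ∧
      ∀ w : D → ℂ, T.lsum σ w (T.opp (𝔇.g.e 0)) = 𝔇.X pos w N h π + 𝔇.Y pos w N h π σ := by
  have hex := pvwc_yarc_exists 𝔇 hSY
  obtain ⟨hchain, hnd, hwall, h3⟩ := pvwc_ring hT hS 𝔇 hOk hF hσ (pvwc_g_onwall hT hS 𝔇 hOk hF.sep_s hF.sep_t hcol hσ hNB hWO) hex.choose_spec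
  obtain ⟨c, hc1, hc2⟩ := pvow_ring_cyc hT hchain hnd hwall h3
  exact ⟨c, _, hc2, hex.choose_spec, hc1, (pvwc_C2 hT hS 𝔇 hOk hF hcol hσ hNB hWO hSY).2.2⟩

/-- (C2) for a given arc `y`, SECTOR form (not of record) -/
theorem pvwc_C2sec_arc (hT : T.IsSph) (hS : T.Simple) (𝔇 : PvwDat T) {pos : V → ℂ} {N : PvwNum} {h : ℝ} {π : PvwPat} {σ : V → Bool} (hOk : 𝔇.Ok pos N h π) (hF : 𝔇.Fit pos N h π σ) (hF' : 𝔇.FitSec σ)
    (hσ : σ ∈ 𝔇.Cyl) (hNB : 𝔇.NBsec pos π σ) (hWO : 𝔇.WO pos π σ) {y : T.Pth} (hy : 𝔇.YArc pos π σ y) :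
    T.Tag σ (T.opp (𝔇.g.e 0)) ∧ (∀ d', T.SameLab σ (T.opp (𝔇.g.e 0)) d' ↔ T.opp d' ∈ pvowDarts [𝔇.g, 𝔇.t.inn, y, 𝔇.s.inn]) ∧
      ∀ w : D → ℂ, T.lsum σ w (T.opp (𝔇.g.e 0)) = 𝔇.X pos w N h π + 𝔇.Yof pos w N h π y := by
  have hIs : 𝔇.s.Inner σ := pvwc_inner_of_gate hT hOk.st_s.gate fun v hv => hσ.1 v (Or.inr (Or.inl (Or.inl hv)))
  have hIt : 𝔇.t.Inner σ := pvwc_inner_of_gate hT hOk.st_t.gate fun v hv => hσ.1 v (Or.inl (Or.inl (Or.inl hv)))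
  obtain ⟨q, hq, hg⟩ := pvwc_shield hT 𝔇 hOk hσ hWO
  have hb : ∀ i, i ≤ 𝔇.g.n → σ (𝔇.g.v i) = true := fun i hi => hσ.2.1 _ ⟨i, hi, rfl⟩
  have hnb := pvwc_nb hT hS 𝔇 hIs hIt hOk.g0 hOk.g1 hOk.pos_n hF'.far_s hF'.far_t hσ.2.1 hq hg (pvwc_G1 hT 𝔇 hOk hF.sep_s hF.sep_t hσ hq hg) hNB
  have hgw : 𝔇.g.OnWall σ 𝔇.t.dm := by
    have := pvwc_piece hT 𝔇.g q hg hb (fun x hx => (hq.inn hx).1) hq.two (by rw [hq.lst, T.opp_opp]; exact hF'.fin) hnb
    rwa [hq.fst] at this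
  exact pvwc_C2_core hT hS 𝔇 hOk hF hσ hgw hy

end Claimed.Agent.R289
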