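-- KEEP
import Claimed.Agent.R289.Tr.C12
import Claimed.Agent.R289.Tr.StKit

/-!
# Row 289 (S0537), THE WALL, file Tr/C12F : THE NAMED HYPOTHESES `PvwDat.Fit` OF (C2) FROM `Ok` + GEOMETRY + CONFINEMENT      (head helper194; prefix `pvwf_`)

`Tr/C12.lean` proves (C2) under `PvwDat.Fit pos N h π σ` (`sep_s sep_t dist m_g m_y m_s m_t`): `dist` and `m_y` speak of the arc `y`, hence of `σ`.      HERE (v3, on `Tr/Defs` v3) they are reduced to `Ok` + ONE COLOUR-FREE RECORD: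
* `PvwDat.Geo pos N h π` : NO COLOUR.   `sep` (the two closed gate insides `ins` are disjoint), `stub_t stub_s` (a stub does not visit the closed inside of the gate of the other pin), `cut_s cut_t` (Mesh at a pin: a face whose barycentre lies in the cut-off ball
  `B(z, m h)` has its vertices in `B(z, a h)`).      `pvwf_geo_of_far`: all five from "the boxes are apart" + a mesh bound near the two centres (`pvwf_cut_of_mesh`).
* `PvwDat.NewOff pos π σ` (CONFINEMENT of the new part of the strand off the two gates) IS NOW A LEMMA: `pvwf_newoff` (`SYn` v3: new positions over `Yin`; `Ok.core_off`).      No hypothesis on `σ` is left besides `σ ∈ Cyl`.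
* sec. 7: `pvwf_far` (`FitSec.far_s far_t` from `Ok.out` + `sep`);   `PvwDat.Col` (the colour-free hypothesis of the FACED (C2) on `NU`): `pvwf_col_of` (from `π.Wf`, `hfz`: frozen white sites of the shield not over `Ycol`, `hconn`: the sites over `Ycol` are joined to a tip apex off `NU`), `pvwf_col_of_empty`, `pvwf_wl_nu`.
EXITS: `pvwf_fit` (`Ok + Geo + Cyl ⟹ Fit`), `pvwf_C2`, `pvwf_C2_rim` (`+ Col`).
Prove IN PLACE, helpers just above the theorem.  A misfit of a statement: one line to 194.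
-/

set_option autoImplicit false

namespace Claimed.Agent.R289

open Relation

variable {V D : Type} {T : PvMap V D}

namespace PvwDat

variable (𝔇 : PvwDat T)

/-- **GEOMETRY of a datum** (no colour) -/
structure Geo (pos : V → ℂ) (N : PvwNum) (h : ℝ) (π : PvwPat) : Prop where
  /-- the two closed gate discs are disjoint -/
  sep : Disjoint 𝔇.s.ins 𝔇.t.ins
  /-- the exit stub of `t` does not visit the gate disc of `s` -/
  stub_t : ∀ v ∈ 𝔇.t.bkP, v ∉ 𝔇.s.ins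
  /-- the entrance stub of `s` does not visit the gate disc of `t` -/
  stub_s : ∀ v ∈ 𝔇.s.bkM, v ∉ 𝔇.t.ins
  /-- Mesh at the pin `s`: a face with its barycentre in the cut-off ball has its vertices in `B(z, a h)` -/
  cut_s : ∀ d : D, T.bary pos d ∈ Metric.closedBall π.zs (N.m * h) → ‖pos (T.src d) - π.zs‖ < π.ts.a * h
  cut_t : ∀ d : D, T.bary pos d ∈ Metric.closedBall π.zt (N.m * h) → ‖pos (T.src d) - π.zt‖ < π.tt.a * h

/-- **CONFINEMENT**: the black sites of the new positions of the strand are off the two closed gate discs -/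
def NewOff (pos : V → ℂ) (π : PvwPat) (σ : V → Bool) : Prop :=
  ∀ n, 𝔇.SYn pos π σ n → ∀ i, 𝔇.t.np < i → i + 𝔇.s.nm < n → T.src (pvasIt T σ 𝔇.t.dp i) ∉ 𝔇.t.ins ∧ T.src (pvasIt T σ 𝔇.t.dp i) ∉ 𝔇.s.ins

end PvwDat

theorem pvwf_eqns_cite : True := by
  have := @PvwDat.NewOff.eq_1
  trivial

/-! ## 1. black sites of a closed gate disc -/

/-- a black site of the closed gate disc is `g⁺`, `g⁻` or lies strictly inside the gate -/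
theorem pvwf_core_black (hT : T.IsSph) {𝔖 : PvwSt T} {pos : V → ℂ} {h : ℝ} {z : ℂ} {τ : PvwTy} {s : V → Bool} (hG : 𝔖.Gate pos h z τ s) {v : V} (hv : v ∈ 𝔖.ins) (hb : s v = true) :
    v = 𝔖.gp ∨ v = 𝔖.gm ∨ v ∈ T.Int 𝔖.S.Left := by
  have hv' : v ∈ T.VOf 𝔖.S.Left := hv
  rw [pl_VOf_left hT] at hv'
  rcases hv' with h1 | h1
  · rcases hG.two v h1 hb with e | e
    · exact Or.inl e
    · exact Or.inr (Or.inl e)
  · exact Or.inr (Or.inr h1)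

/-- `g⁺`, `g⁻` are vertices of the gate -/
theorem pvwf_gate_verts {𝔖 : PvwSt T} {pos : V → ℂ} {h : ℝ} {z : ℂ} {τ : PvwTy} {s : V → Bool} (hG : 𝔖.Gate pos h z τ s) : 𝔖.gp ∈ 𝔖.S.verts ∧ 𝔖.gm ∈ 𝔖.S.verts := by
  constructor
  · obtain ⟨i, hi⟩ := hG.dp_on
    refine ⟨i + 1, ?_⟩
    rw [← 𝔖.S.chain i, hi, T.tgt_opp]
    rfl
  · obtain ⟨i, hi⟩ := hG.dm_on
    exact ⟨i, by rw [hi]; rfl⟩

/-- a site of the black bank of the exit stub which lies in the closed gate disc is `g⁺` or `g⁻` -/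
theorem pvwf_bkP_core (hT : T.IsSph) {𝔖 : PvwSt T} {pos : V → ℂ} {N : PvwNum} {h : ℝ} {z : ℂ} {τ : PvwTy} {s : V → Bool} (hA : 𝔖.AtOut pos N h z τ s) {v : V} (hv : v ∈ 𝔖.bkP) (hc : v ∈ 𝔖.ins) :
    v = 𝔖.gp ∨ v = 𝔖.gm := by
  obtain ⟨i, hi, rfl⟩ := hv
  have hb : s (T.src (𝔖.ep i)) = true := (pvwk_ep_bw hA.stub hA.gate.bw_p hi).1
  rcases pvwf_core_black hT hA.gate hc hb with h1 | h1 | h1
  · exact Or.inl h1
  · exact Or.inr h1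
  · exact absurd (pl_int_edge hT 𝔖.S h1).1 (hA.good.off_p i hi)

/-- a site of the black bank of the entrance stub which lies in the closed gate disc is `g⁺` or `g⁻` -/
theorem pvwf_bkM_core (hT : T.IsSph) {𝔖 : PvwSt T} {pos : V → ℂ} {N : PvwNum} {h : ℝ} {z : ℂ} {τ : PvwTy} {s : V → Bool} (hA : 𝔖.AtIn pos N h z τ s) {v : V} (hv : v ∈ 𝔖.bkM) (hc : v ∈ 𝔖.ins) :
    v = 𝔖.gp ∨ v = 𝔖.gm := by
  obtain ⟨i, hi, rfl⟩ := hv
  have hb : s (T.src (𝔖.em i)) = true := (pvwk_em_bw hA.stub hA.gate.bw_m hi).1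
  rcases pvwf_core_black hT hA.gate hc hb with h1 | h1 | h1
  · exact Or.inl h1
  · exact Or.inr h1
  · exact absurd (pl_int_edge hT 𝔖.S h1).2.1 (hA.good.off_m i hi)

/-- the inner arc lies in the closed gate disc -/
theorem pvwf_inn_core (hT : T.IsSph) {𝔖 : PvwSt T} {σ : V → Bool} (hI : 𝔖.Inner σ) : 𝔖.inn.verts ⊆ 𝔖.ins := by
  obtain ⟨n, h1, h2, h3⟩ := hI.run
  intro v hv
  obtain ⟨i, hi, rfl⟩ := pvwc_le_verts h3 hv
  exact pvwc_inner_lay hT h1 h2 hI.dp_on (Or.inl ⟨i, hi, rfl⟩)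

/-! ## 2. the run `dp(t) → dm(s)` -/

/-- **`NewOff` IS A LEMMA** (Defs v3: the new positions of `SYn` lie over `Yin`; `Ok.core_off`) -/
theorem pvwf_newoff (𝔇 : PvwDat T) {pos : V → ℂ} {N : PvwNum} {h : ℝ} {π : PvwPat} {σ : V → Bool} (hOk : 𝔇.Ok pos N h π) : 𝔇.NewOff pos π σ := by
  intro n hn i h1 h2
  have h3 := (hn.2.2.2 i h1 h2).2.2.1
  exact ⟨fun hc => hOk.core_off _ (Or.inr (pvwk_ins_sub_core hOk.st_t.gate hc)) h3, fun hc => hOk.core_off _ (Or.inl (pvwk_ins_sub_core hOk.st_s.gate hc)) h3⟩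

/-- the first `np` steps of the run are the exit stub of `t` -/
theorem pvwf_run_fst (𝔇 : PvwDat T) {pos : V → ℂ} {N : PvwNum} {h : ℝ} {π : PvwPat} {σ : V → Bool} (hOk : 𝔇.Ok pos N h π) (hσ : σ ∈ 𝔇.Cyl) {i : ℕ} (hi : i ≤ 𝔇.t.np) :
    pvasIt T σ 𝔇.t.dp i = 𝔇.t.ep i := by
  have h1 := pvwk_stubP_congr hOk.st_t.stub (s' := σ) fun v hv => (hσ.1 v (Or.inl (pvwk_banksP_sub_fzOut 𝔇.t hv))).symm
  exact (h1.ep_it i hi).symm

/-- the last `nm` steps of the run are the entrance stub of `s` -/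
theorem pvwf_run_lst (hT : T.IsSph) (𝔇 : PvwDat T) {pos : V → ℂ} {N : PvwNum} {h : ℝ} {π : PvwPat} {σ : V → Bool} (hOk : 𝔇.Ok pos N h π) (hσ : σ ∈ 𝔇.Cyl) {n : ℕ} (hn : pvasIt T σ 𝔇.t.dp n = 𝔇.s.dm)
    {j : ℕ} (hj : j ≤ 𝔇.s.nm) (hjn : j ≤ n) : pvasIt T σ 𝔇.t.dp (n - j) = 𝔇.s.em j := by
  have hIt : 𝔇.t.Inner σ := pvwc_inner_of_gate hT hOk.st_t.gate fun v hv => hσ.1 v (Or.inl (Or.inl (Or.inl hv)))
  have h1 := pvwk_stubM_congr hOk.st_s.stub (s' := σ) fun v hv => (hσ.1 v (Or.inr (pvwk_banksM_sub_fzIn 𝔇.s hv))).symm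
  rw [h1.em_it j hj, ← hn]
  clear hj
  induction j with
  | zero => rfl
  | succ j ih =>
    rw [Function.iterate_succ_apply', ← ih (by omega)]
    have e : n - j = (n - (j + 1)) + 1 := by omega
    rw [e, pvas_it_succ, pvas_back_step (pvas_it_bw hIt.bw_p _)]

/-- **the black sites of the run**: in the gate disc of `t` only `g⁺(t)`, in the gate disc of `s` only `g⁻(s)`, no inner vertex of `g₀` -/
theorem pvwf_run_core (hT : T.IsSph) (𝔇 : PvwDat T) {pos : V → ℂ} {N : PvwNum} {h : ℝ} {π : PvwPat} {σ : V → Bool} (hOk : 𝔇.Ok pos N h π) (hG : 𝔇.Geo pos N h π) (hσ : σ ∈ 𝔇.Cyl)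
    {n : ℕ} (hn : 𝔇.SYn pos π σ n) {i : ℕ} (hi : i ≤ n) :
    (T.src (pvasIt T σ 𝔇.t.dp i) ∈ 𝔇.t.ins → T.src (pvasIt T σ 𝔇.t.dp i) = 𝔇.t.gp) ∧ (T.src (pvasIt T σ 𝔇.t.dp i) ∈ 𝔇.s.ins → T.src (pvasIt T σ 𝔇.t.dp i) = 𝔇.s.gm) ∧
      T.src (pvasIt T σ 𝔇.t.dp i) ∉ 𝔇.g.inner := by
  have hv0 : 𝔇.g.v 0 ∈ 𝔇.g.verts := pl_pth_fst_mem _
  have hvn : 𝔇.g.v 𝔇.g.n ∈ 𝔇.g.verts := pl_pth_lst_mem _
  rcases Nat.lt_or_ge 𝔇.t.np i with h1 | h1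
  · rcases Nat.lt_or_ge (i + 𝔇.s.nm) n with h2 | h2
    · -- a new position
      obtain ⟨a1, a2⟩ := pvwf_newoff 𝔇 hOk n hn i h1 h2
      refine ⟨fun hc => absurd hc a1, fun hc => absurd hc a2, fun hc => ?_⟩
      have hv := pl_pth_inner_sub _ hc
      rcases (hn.2.2.2 i h1 h2).1 with h3 | ((h3 | h3) | h3) | ((h3 | h3) | h3)
      · exact pvwk_nu_ycl (hOk.off_y _ (Or.inl hv)) h3
      · exact hOk.core_off _ (Or.inr h3) (hn.2.2.2 i h1 h2).2.2.1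
      · exact (hOk.disj _ hv).1 h3
      · exact (hOk.disj _ hv).2.1 h3
      · exact hOk.core_off _ (Or.inl h3) (hn.2.2.2 i h1 h2).2.2.1
      · exact (hOk.disj _ hv).2.2.1 h3
      · exact (hOk.disj _ hv).2.2.2 h3
    · -- a position of the entrance stub of `s`
      have e := pvwf_run_lst hT 𝔇 hOk hσ hn.2.1 (j := n - i) (by omega) (by omega)
      rw [show n - (n - i) = i by omega] at e
      have hm : T.src (pvasIt T σ 𝔇.t.dp i) ∈ 𝔇.s.bkM := ⟨n - i, by omega, by rw [e]⟩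
      refine ⟨fun hc => absurd hc (hG.stub_s _ hm), fun hc => ?_, fun hc => (hOk.disj _ (pl_pth_inner_sub _ hc)).2.2.1 hm⟩
      rcases pvwf_bkM_core hT hOk.st_s hm hc with h3 | h3
      · exfalso
        rw [h3, ← hOk.g0] at hm
        exact (hOk.disj _ hv0).2.2.1 hm
      · exact h3
  · -- a position of the exit stub of `t`
    have e := pvwf_run_fst 𝔇 hOk hσ h1
    have hm : T.src (pvasIt T σ 𝔇.t.dp i) ∈ 𝔇.t.bkP := ⟨i, h1, by rw [e]⟩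
    refine ⟨fun hc => ?_, fun hc => absurd hc (hG.stub_t _ hm), fun hc => (hOk.disj _ (pl_pth_inner_sub _ hc)).1 hm⟩
    rcases pvwf_bkP_core hT hOk.st_t hm hc with h3 | h3
    · exact h3
    · exfalso
      rw [h3, ← hOk.g1] at hm
      exact (hOk.disj _ hvn).1 hm

/-- the vertices of the arc `y` -/
theorem pvwf_y_verts (hT : T.IsSph) (𝔇 : PvwDat T) {pos : V → ℂ} {N : PvwNum} {h : ℝ} {π : PvwPat} {σ : V → Bool} (hOk : 𝔇.Ok pos N h π) (hG : 𝔇.Geo pos N h π) (hσ : σ ∈ 𝔇.Cyl)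
    {y : T.Pth} (hy : 𝔇.YArc pos π σ y) {v : V} (hv : v ∈ y.verts) : (v ∈ 𝔇.t.ins → v = 𝔇.t.gp) ∧ (v ∈ 𝔇.s.ins → v = 𝔇.s.gm) ∧ v ∉ 𝔇.g.inner := by
  obtain ⟨n, hn, hle⟩ := hy
  obtain ⟨i, hi, rfl⟩ := pvwc_le_verts hle hv
  exact pvwf_run_core hT 𝔇 hOk hG hσ hn hi

/-! ## 3. `dist` -/

/-- **G2 is a lemma**: the heads of the darts of the four pieces are pairwise distinct -/
theorem pvwf_dist (hT : T.IsSph) (hS : T.Simple) (𝔇 : PvwDat T) {pos : V → ℂ} {N : PvwNum} {h : ℝ} {π : PvwPat} {σ : V → Bool} (hOk : 𝔇.Ok pos N h π) (hG : 𝔇.Geo pos N h π) (hσ : σ ∈ 𝔇.Cyl)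
    {y : T.Pth} (hy : 𝔇.YArc pos π σ y) :
    [𝔇.g, 𝔇.t.inn, y, 𝔇.s.inn].Pairwise fun p p' => ∀ k l, k < p.n → l < p'.n → p.v (k + 1) ≠ p'.v (l + 1) := by
  have hIs : 𝔇.s.Inner σ := pvwc_inner_of_gate hT hOk.st_s.gate fun v hv => hσ.1 v (Or.inr (Or.inl (Or.inl hv)))
  have hIt : 𝔇.t.Inner σ := pvwc_inner_of_gate hT hOk.st_t.gate fun v hv => hσ.1 v (Or.inl (Or.inl (Or.inl hv)))
  obtain ⟨et0, et1, -⟩ := pvwc_inner_ends hIt
  obtain ⟨es0, es1, -⟩ := pvwc_inner_ends hIs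
  obtain ⟨-, -, hy3, hy4⟩ := pvwc_y_onwall hS 𝔇 hIt.bw_p hy
  have ct : ∀ l, l ≤ 𝔇.t.inn.n → 𝔇.t.inn.v l ∈ 𝔇.t.ins := fun l hl => pvwf_inn_core hT hIt ⟨l, hl, rfl⟩
  have cs : ∀ l, l ≤ 𝔇.s.inn.n → 𝔇.s.inn.v l ∈ 𝔇.s.ins := fun l hl => pvwf_inn_core hT hIs ⟨l, hl, rfl⟩
  have cy : ∀ l, l ≤ y.n → _ := fun l hl => pvwf_y_verts hT 𝔇 hOk hG hσ hy (v := y.v l) ⟨l, hl, rfl⟩
  have hgmt : 𝔇.t.gm ∈ 𝔇.t.ins := by rw [← et0]; exact ct 0 (Nat.zero_le _)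
  -- a head of `g₀` is an inner vertex or `g⁻(t)`
  have hg : ∀ k, k < 𝔇.g.n → 𝔇.g.v (k + 1) ∈ 𝔇.g.inner ∨ 𝔇.g.v (k + 1) = 𝔇.t.gm := by
    intro k hk
    rcases Nat.lt_or_ge (k + 1) 𝔇.g.n with h1 | h1
    · exact Or.inl ⟨k + 1, Nat.succ_pos _, h1, rfl⟩
    · right
      rw [show k + 1 = 𝔇.g.n by omega, hOk.g1]
  simp only [List.pairwise_cons, List.mem_cons, List.not_mem_nil, or_false, forall_eq_or_imp, forall_eq, IsEmpty.forall_iff, implies_true, List.Pairwise.nil, and_true]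
  refine ⟨⟨?_, ?_, ?_⟩, ⟨?_, ?_⟩, ?_⟩
  · -- `g₀`, `inner(t)`
    intro k l hk hl e
    rcases hg k hk with h1 | h1
    · exact (hOk.out _ h1).2 (e ▸ ct (l + 1) hl)
    · rw [h1, ← et0] at e
      have := 𝔇.t.inn.inj _ _ (Nat.zero_le _) hl e
      omega
  · -- `g₀`, `y`
    intro k l hk hl e
    rcases hg k hk with h1 | h1
    · exact (cy (l + 1) hl).2.2 (e ▸ h1)
    · have h2 := (cy (l + 1) hl).1 (by rw [← e, h1]; exact hgmt)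
      rw [← e, h1] at h2
      exact hIt.ne h2.symm
  · -- `g₀`, `inner(s)`
    intro k l hk hl e
    rcases hg k hk with h1 | h1
    · exact (hOk.out _ h1).1 (e ▸ cs (l + 1) hl)
    · exact Set.disjoint_left.1 hG.sep (cs (l + 1) hl) (by rw [← e, h1]; exact hgmt)
  · -- `inner(t)`, `y`
    intro k l hk hl e
    have h2 := (cy (l + 1) hl).1 (e ▸ ct (k + 1) hk)
    rw [← hy3] at h2
    have := y.inj _ _ hl (Nat.zero_le _) h2
    omega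
  · -- `inner(t)`, `inner(s)`
    intro k l hk hl e
    exact Set.disjoint_left.1 hG.sep (cs (l + 1) hl) (e ▸ ct (k + 1) hk)
  · -- `y`, `inner(s)`
    intro k l hk hl e
    have h2 := (cy (k + 1) hk).2.1 (e ▸ cs (l + 1) hl)
    rw [e, ← es0] at h2
    have := 𝔇.s.inn.inj _ _ hl (Nat.zero_le _) h2
    omega

/-! ## 4. masks -/

/-- a path none of whose heads lies in `B(z, a h)` has no right triangle with barycentre in the cut-off ball -/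
theorem pvwf_mask (pos : V → ℂ) {z : ℂ} {r a : ℝ} (hcut : ∀ d : D, T.bary pos d ∈ Metric.closedBall z r → ‖pos (T.src d) - z‖ < a) (p : T.Pth) (hp : ∀ k, k < p.n → a ≤ ‖pos (p.v (k + 1)) - z‖) {k : ℕ} (hk : k < p.n) :
    T.bary pos (T.opp (p.e k)) ∉ Metric.closedBall z r := by
  intro hc
  have h1 := hcut _ hc
  rw [T.src_opp', p.tgt_e k hk] at h1
  exact absurd h1 (not_lt.2 (hp k hk))

/-- a site which is not in the closed gate disc, or which is a vertex of the gate, is not in `B(z, a h)` -/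
theorem pvwf_far_of {𝔖 : PvwSt T} {pos : V → ℂ} {h : ℝ} {z : ℂ} {τ : PvwTy} {s : V → Bool} (hG : 𝔖.Gate pos h z τ s) {v : V} (hv : v ∉ 𝔖.ins ∨ v ∈ 𝔖.S.verts) : τ.a * h ≤ ‖pos v - z‖ := by
  rcases hv with hv | hv
  · exact not_lt.1 fun hc => hv (hG.round v hc)
  · exact (hG.ann v hv).1

/-- **the named hypotheses of (C2) from `Ok`, the geometry and the confinement** -/
theorem pvwf_fit (hT : T.IsSph) (hS : T.Simple) (𝔇 : PvwDat T) {pos : V → ℂ} {N : PvwNum} {h : ℝ} {π : PvwPat} {σ : V → Bool} (hOk : 𝔇.Ok pos N h π) (hG : 𝔇.Geo pos N h π) (hσ : σ ∈ 𝔇.Cyl)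
    : 𝔇.Fit pos N h π σ := by
  have hIs : 𝔇.s.Inner σ := pvwc_inner_of_gate hT hOk.st_s.gate fun v hv => hσ.1 v (Or.inr (Or.inl (Or.inl hv)))
  have hIt : 𝔇.t.Inner σ := pvwc_inner_of_gate hT hOk.st_t.gate fun v hv => hσ.1 v (Or.inl (Or.inl (Or.inl hv)))
  have ct : ∀ l, l ≤ 𝔇.t.inn.n → 𝔇.t.inn.v l ∈ 𝔇.t.ins := fun l hl => pvwf_inn_core hT hIt ⟨l, hl, rfl⟩
  have cs : ∀ l, l ≤ 𝔇.s.inn.n → 𝔇.s.inn.v l ∈ 𝔇.s.ins := fun l hl => pvwf_inn_core hT hIs ⟨l, hl, rfl⟩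
  obtain ⟨vsp, vsm⟩ := pvwf_gate_verts hOk.st_s.gate
  obtain ⟨vtp, vtm⟩ := pvwf_gate_verts hOk.st_t.gate
  have ksp := pvwk_verts_ins hT 𝔇.s vsp
  have ktm := pvwk_verts_ins hT 𝔇.t vtm
  have dst : ∀ v, v ∈ 𝔇.s.ins → v ∉ 𝔇.t.ins := fun v h1 h2 => Set.disjoint_left.1 hG.sep h1 h2
  have hg : ∀ k, k < 𝔇.g.n → 𝔇.g.v (k + 1) ∈ 𝔇.g.inner ∨ 𝔇.g.v (k + 1) = 𝔇.t.gm := by
    intro k hk
    rcases Nat.lt_or_ge (k + 1) 𝔇.g.n with h1 | h1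
    · exact Or.inl ⟨k + 1, Nat.succ_pos _, h1, rfl⟩
    · right
      rw [show k + 1 = 𝔇.g.n by omega, hOk.g1]
  refine ⟨dst _ ksp, fun hc => dst _ hc ktm, fun y hy => pvwf_dist hT hS 𝔇 hOk hG hσ hy, fun k hk => ?_, fun y hy k hk => ?_, fun k hk => ?_, fun k hk => ?_⟩
  · rintro (hc | hc)
    · refine pvwf_mask pos hG.cut_s 𝔇.g (fun k hk => pvwf_far_of hOk.st_s.gate (Or.inl ?_)) hk hc
      rcases hg k hk with h1 | h1
      · exact (hOk.out _ h1).1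
      · rw [h1]; exact fun hc => dst _ hc ktm
    · refine pvwf_mask pos hG.cut_t 𝔇.g (fun k hk => pvwf_far_of hOk.st_t.gate ?_) hk hc
      rcases hg k hk with h1 | h1
      · exact Or.inl (hOk.out _ h1).2
      · rw [h1]; exact Or.inr vtm
  · have cy : ∀ l, l ≤ y.n → _ := fun l hl => pvwf_y_verts hT 𝔇 hOk hG hσ hy (v := y.v l) ⟨l, hl, rfl⟩
    rintro (hc | hc)
    · refine pvwf_mask pos hG.cut_s y (fun k hk => pvwf_far_of hOk.st_s.gate ?_) hk hc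
      by_cases h1 : y.v (k + 1) ∈ 𝔇.s.ins
      · rw [(cy (k + 1) hk).2.1 h1]; exact Or.inr vsm
      · exact Or.inl h1
    · refine pvwf_mask pos hG.cut_t y (fun k hk => pvwf_far_of hOk.st_t.gate ?_) hk hc
      by_cases h1 : y.v (k + 1) ∈ 𝔇.t.ins
      · rw [(cy (k + 1) hk).1 h1]; exact Or.inr vtp
      · exact Or.inl h1
  · exact pvwf_mask pos hG.cut_t 𝔇.s.inn (fun k hk => pvwf_far_of hOk.st_t.gate (Or.inl (dst _ (cs (k + 1) hk)))) hk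
  · exact pvwf_mask pos hG.cut_s 𝔇.t.inn (fun k hk => pvwf_far_of hOk.st_s.gate (Or.inl fun hc => dst _ hc (ct (k + 1) hk))) hk

/-! ## 5. (C2) without `Fit` -/

/-- **(C2) CLOSING** from `Ok`, `Geo`, `NewOff` -/
theorem pvwf_C2 (hT : T.IsSph) (hS : T.Simple) (𝔇 : PvwDat T) {pos : V → ℂ} {N : PvwNum} {h : ℝ} {π : PvwPat} {σ : V → Bool} (hOk : 𝔇.Ok pos N h π) (hG : 𝔇.Geo pos N h π) (hcol : 𝔇.Col pos π) (hσ : σ ∈ 𝔇.Cyl)
    (hNB : 𝔇.NB pos π σ) (hWO : 𝔇.WO pos π σ) (hSY : 𝔇.SY pos π σ) :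
    T.Tag σ (T.opp (𝔇.g.e 0)) ∧ (∃ y, 𝔇.YArc pos π σ y ∧ ∀ d', T.SameLab σ (T.opp (𝔇.g.e 0)) d' ↔ T.opp d' ∈ pvowDarts [𝔇.g, 𝔇.t.inn, y, 𝔇.s.inn]) ∧
      ∀ w : D → ℂ, T.lsum σ w (T.opp (𝔇.g.e 0)) = 𝔇.X pos w N h π + 𝔇.Y pos w N h π σ :=
  pvwc_C2 hT hS 𝔇 hOk (pvwf_fit hT hS 𝔇 hOk hG hσ) hcol hσ hNB hWO hSY

/-- **(C2), RIM FORM** from `Ok`, `Geo`, `NewOff` -/
theorem pvwf_C2_rim (hT : T.IsSph) (hS : T.Simple) (𝔇 : PvwDat T) {pos : V → ℂ} {N : PvwNum} {h : ℝ} {π : PvwPat} {σ : V → Bool} (hOk : 𝔇.Ok pos N h π) (hG : 𝔇.Geo pos N h π) (hcol : 𝔇.Col pos π) (hσ : σ ∈ 𝔇.Cyl)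
    (hNB : 𝔇.NB pos π σ) (hWO : 𝔇.WO pos π σ) (hSY : 𝔇.SY pos π σ) :
    ∃ (c : T.Cyc) (y : T.Pth), c.IsRim σ ∧ 𝔇.YArc pos π σ y ∧ (∀ f, f ∈ pvowDarts [𝔇.g, 𝔇.t.inn, y, 𝔇.s.inn] ↔ ∃ i, f = c.e i) ∧
      ∀ w : D → ℂ, T.lsum σ w (T.opp (𝔇.g.e 0)) = 𝔇.X pos w N h π + 𝔇.Y pos w N h π σ :=
  pvwc_C2_rim hT hS 𝔇 hOk (pvwf_fit hT hS 𝔇 hOk hG hσ) hcol hσ hNB hWO hSY

/-! ## 6. `Geo` from distances -/

/-- `sep`, `stub_t`, `stub_s` from "the box of a pin does not meet the closed gate ball of the other pin" -/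
theorem pvwf_geo_of_far (𝔇 : PvwDat T) {pos : V → ℂ} {N : PvwNum} {h : ℝ} {π : PvwPat} (hOk : 𝔇.Ok pos N h π)
    (hbt : π.tt.b * h ≤ pvwRad N h π.tt π.tt.k)
    (h1 : Disjoint (pvwSq π.zt (pvwRad N h π.tt π.tt.k)) (Metric.closedBall π.zs (π.ts.b * h))) (h2 : Disjoint (pvwSq π.zs (pvwRad N h π.ts π.ts.k)) (Metric.closedBall π.zt (π.tt.b * h)))
    (cut_s : ∀ d : D, T.bary pos d ∈ Metric.closedBall π.zs (N.m * h) → ‖pos (T.src d) - π.zs‖ < π.ts.a * h)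
    (cut_t : ∀ d : D, T.bary pos d ∈ Metric.closedBall π.zt (N.m * h) → ‖pos (T.src d) - π.zt‖ < π.tt.a * h) : 𝔇.Geo pos N h π := by
  have hs : ∀ v ∈ 𝔇.s.ins, pos v ∈ Metric.closedBall π.zs (π.ts.b * h) := fun v hv => by
    rw [Metric.mem_closedBall, dist_eq_norm]
    exact (hOk.st_s.gate.inside v hv).le
  have ht : ∀ v ∈ 𝔇.t.ins, pos v ∈ Metric.closedBall π.zt (π.tt.b * h) := fun v hv => by
    rw [Metric.mem_closedBall, dist_eq_norm]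
    exact (hOk.st_t.gate.inside v hv).le
  refine ⟨?_, ?_, ?_, cut_s, cut_t⟩
  · rw [Set.disjoint_left]
    intro v h3 h4
    exact Set.disjoint_left.1 h1 (pvwk_core_sq hOk.st_t.gate hbt v (pvwk_ins_sub_core hOk.st_t.gate h4)) (hs v h3)
  · intro v h3 h4
    exact Set.disjoint_left.1 h1 (pvwk_banksP_in hOk.st_t.stub (Or.inl h3)) (hs v h4)
  · intro v h3 h4
    exact Set.disjoint_left.1 h2 (pvwk_banksM_in hOk.st_s.stub (Or.inl h3)) (ht v h4)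

/-- `cut` from a mesh bound: every edge with an end within `(m + 2 μ) h` of the centre is shorter than `μ h`, and `m + 2 μ < a` -/
theorem pvwf_cut_of_mesh (pos : V → ℂ) {z : ℂ} {m μ a h : ℝ} (hh : 0 < h) (hμ : 0 ≤ μ) (hma : m + 2 * μ < a)
    (hmesh : ∀ d : D, T.bary pos d ∈ Metric.closedBall z (m * h) → ‖pos (T.tgt d) - pos (T.src d)‖ ≤ μ * h ∧ ‖pos (T.apex d) - pos (T.src d)‖ ≤ μ * h) :
    ∀ d : D, T.bary pos d ∈ Metric.closedBall z (m * h) → ‖pos (T.src d) - z‖ < a * h := by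
  intro d hd
  obtain ⟨h1, h2⟩ := hmesh d hd
  rw [Metric.mem_closedBall, dist_eq_norm] at hd
  have e : pos (T.src d) - z = (T.bary pos d - z) - ((pos (T.tgt d) - pos (T.src d)) + (pos (T.apex d) - pos (T.src d))) / 3 := by
    unfold PvMap.bary
    ring
  have h3 : ‖((pos (T.tgt d) - pos (T.src d)) + (pos (T.apex d) - pos (T.src d))) / 3‖ ≤ (μ * h + μ * h) / 3 := by
    rw [norm_div]
    have : ‖(3 : ℂ)‖ = 3 := by norm_num
    rw [this]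
    exact div_le_div_of_nonneg_right ((norm_add_le _ _).trans (add_le_add h1 h2)) (by norm_num)
  have h4 : ‖pos (T.src d) - z‖ ≤ m * h + (μ * h + μ * h) / 3 := by
    rw [e]
    exact (norm_sub_le _ _).trans (add_le_add hd h3)
  have h5 : 0 ≤ μ * h := mul_nonneg hμ hh.le
  have h6 : (m + 2 * μ) * h < a * h := mul_lt_mul_of_pos_right hma hh
  nlinarith

/-! ## 7. `FitSec.far_s far_t` and `Col` -/

/-- `far_s`, `far_t` of the sector route are lemmas -/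
theorem pvwf_far (𝔇 : PvwDat T) {pos : V → ℂ} {N : PvwNum} {h : ℝ} {π : PvwPat} (hOk : 𝔇.Ok pos N h π) (hs : 𝔇.s.gp ∉ 𝔇.t.ins) (ht : 𝔇.t.gm ∉ 𝔇.s.ins) :
    𝔇.g.v 1 ∉ 𝔇.s.ins ∧ 𝔇.g.v (𝔇.g.n - 1) ∉ 𝔇.t.ins := by
  have hn := hOk.pos_n
  rcases Nat.lt_or_ge 1 𝔇.g.n with h1 | h1
  · exact ⟨(hOk.out _ ⟨1, Nat.one_pos, h1, rfl⟩).1, (hOk.out _ ⟨𝔇.g.n - 1, by omega, by omega, rfl⟩).2⟩
  · have e : 𝔇.g.n = 1 := by omega
    refine ⟨?_, ?_⟩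
    · rw [← e, hOk.g1]; exact ht
    · rw [e, Nat.sub_self, hOk.g0]; exact hs

/-- the sites where a cell may run are sites which `NB` reads, as soon as the frozen white sites of the shield are not over the collared lanes -/
theorem pvwf_wl_nu (𝔇 : PvwDat T) {pos : V → ℂ} {N : PvwNum} {h : ℝ} {π : PvwPat} (hW : π.Wf) (hOk : 𝔇.Ok pos N h π)
    (hfz : ∀ v, v ∈ 𝔇.t.core ∨ v ∈ 𝔇.t.whP ∨ v ∈ 𝔇.s.whM ∨ v ∈ 𝔇.s.core → pos v ∉ π.Ycol) : 𝔇.Wl pos π ⊆ 𝔇.NU pos π := by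
  have hfr : ∀ v, v ∈ 𝔇.fzY → v ∉ 𝔇.YC0 pos π := fun v hv hc => (pvwk_yc0_sub hc).1.1 hv
  rintro v (hv | hv)
  · exact hOk.off_y v (Or.inl hv)
  · rcases hv with h1 | h1 | h1 | h1 | h1
    · exact ⟨hfr v (Or.inl (Or.inl (Or.inl h1))), hfz v (Or.inl h1)⟩
    · exact ⟨hfr v (Or.inl (Or.inr h1)), hfz v (Or.inr (Or.inl h1))⟩
    · exact ⟨hfr v (Or.inr (Or.inr h1)), hfz v (Or.inr (Or.inr (Or.inl h1)))⟩
    · exact ⟨hfr v (Or.inr (Or.inl (Or.inl h1))), hfz v (Or.inr (Or.inr (Or.inr h1)))⟩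
    · exact ⟨fun hc => Set.disjoint_left.1 hW.disj (pvwk_yc0_sub hc).1.2 h1.1, fun hc => Set.disjoint_left.1 hW.col hc h1.1⟩

/-- **`Col` FROM SIMPLER CLAUSES** (no colour): `hfz` the frozen white sites of the shield are not over `Ycol`;   `hconn` every site over `Ycol` is joined to a tip apex through sites off `NU` (= sites over `Ycol` or sites of `YC0`) -/
theorem pvwf_col_of (𝔇 : PvwDat T) {pos : V → ℂ} {N : PvwNum} {h : ℝ} {π : PvwPat} (hW : π.Wf) (hOk : 𝔇.Ok pos N h π)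
    (hfz : ∀ v, v ∈ 𝔇.t.core ∨ v ∈ 𝔇.t.whP ∨ v ∈ 𝔇.s.whM ∨ v ∈ 𝔇.s.core → pos v ∉ π.Ycol)
    (hconn : ∀ w, pos w ∈ π.Ycol → ∃ a, (a = 𝔇.t.ap ∨ a = 𝔇.s.am) ∧ a ∉ 𝔇.NU pos π ∧ ReflTransGen (fun u x => T.Adj u x ∧ x ∉ 𝔇.NU pos π) a w) : 𝔇.Col pos π := by
  have hsub := pvwf_wl_nu 𝔇 hW hOk hfz
  have key : ∀ w, w ∉ 𝔇.NU pos π → ∃ a, (a = 𝔇.t.ap ∨ a = 𝔇.s.am) ∧ a ∉ 𝔇.NU pos π ∧ ReflTransGen (fun u x => T.Adj u x ∧ x ∉ 𝔇.NU pos π) a w := by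
    intro w hw
    by_cases hc : pos w ∈ π.Ycol
    · exact hconn w hc
    · have hy : w ∈ 𝔇.YC0 pos π := by_contra fun h1 => hw ⟨h1, hc⟩
      obtain ⟨a0, ha0, hw0⟩ := hy
      obtain ⟨h1, h2⟩ := pvwc_comp_walk hw0
      have hoff : ∀ x, x ∈ pvwComp T (𝔇.Yr0 pos π) a0 → x ∉ 𝔇.NU pos π := fun x hx hn => hn.1 ⟨a0, ha0, hx⟩
      have h3 : ReflTransGen (fun u x => T.Adj u x ∧ x ∉ 𝔇.NU pos π) a0 w := ReflTransGen.mono (fun _ x hx => ⟨hx.1, hoff x hx.2⟩) _ _ h2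
      rcases ha0 with e | e | ⟨w', hw', hadj⟩
      · exact ⟨a0, Or.inl e, hoff _ h1, h3⟩
      · exact ⟨a0, Or.inr e, hoff _ h1, h3⟩
      · obtain ⟨a, ha, h4, h5⟩ := hconn w' hw'
        exact ⟨a, ha, h4, (h5.tail ⟨T.adj_symm hadj, hoff _ h1⟩).trans h3⟩
  intro w hw
  obtain ⟨a, ha, h1, h2⟩ := key w hw
  exact ⟨a, ha, fun hc => h1 (hsub hc), ReflTransGen.mono (fun _ x hx => ⟨hx.1, fun hc => hx.2 (hsub hc)⟩) _ _ h2⟩

/-- `Ycol = ∅` (= Defs v2): `Col` holds -/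
theorem pvwf_col_of_empty (𝔇 : PvwDat T) {pos : V → ℂ} {N : PvwNum} {h : ℝ} {π : PvwPat} (hOk : 𝔇.Ok pos N h π) (h0 : π.Ycol = ∅) : 𝔇.Col pos π := by
  have hoff : ∀ x, x ∈ 𝔇.YCL pos π → x ∉ 𝔇.Wl pos π := by
    rintro x hx (hv | hv)
    · exact pvwk_nu_ycl (hOk.off_y x (Or.inl hv)) hx
    · have hf := pvwc_ycl_fresh 𝔇 hx
      rcases hv with h1 | h1 | h1 | h1 | h1
      · exact hf (Or.inl (Or.inl (Or.inl h1)))
      · exact hf (Or.inl (Or.inr h1))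
      · exact hf (Or.inr (Or.inr h1))
      · exact hf (Or.inr (Or.inl (Or.inl h1)))
      · exact h1.2.2 hx
  intro w hw
  rw [pvwk_nu_of_empty h0] at hw
  obtain ⟨a, ha, h1, h2⟩ := pvwc_ycl_walk 𝔇 (not_not.1 hw)
  exact ⟨a, ha, hoff _ h1, ReflTransGen.mono (fun _ x hx => ⟨hx.1, hoff x hx.2⟩) _ _ h2⟩

end Claimed.Agent.R289
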