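import Claimed.Agent.R289.Tr.StKit
import Claimed.Agent.R289.Pl.Jordan

/-!
# Row 289 (S0537, Cardy for Poisson-Voronoi), THE WALL, road E, file Tr/FitProd : THE PRODUCER OF THE RECORD `PvwDat.Fit` OF `Tr/C12`      (helper63; prefix `pvwq_`, records `PvwDat.Sep`, `PvwDat.Msh`)

WHAT.  (C2) of 194 (`pvwc_C2`, `pvwc_C2_arc`) consumes the named hypotheses `dist far_s far_t m_g m_y m_s m_t` (record `PvwDat.Fit`).   They read the arc `y`, i.e. the colours of `YCL`: they can NOT be clauses of the event `A_i` of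
`PvdmSys` (field `stab`), so they have to be THEOREMS on `Cyl(D) ∩ SY`.      This file proves them from `Ok` (Defs v3; `ins` = closed inside of the gate) and three explicit inputs:
* `PvwDat.Sep pos π`   (no colour)  the two cores are disjoint, the exit stub of `t` misses the core of `s`, the entrance stub of `s` misses the core of `t`, the cores are not over `Yin`.
                       PRODUCERS HERE: `pvwq_sep_of_sq` (the two boxes are disjoint), `pvwq_sq_disj` (`2 (r + r') < ‖z - z'‖`).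
* `PvwDat.InY pos π σ` the black ends of the NEW positions of the strand (`t.np < i`, `i + s.nm < n`) lie over `Yin`  (= "inside `Yin`" of D18 of `W1_208_v3.md`; since Defs v3 a clause of `SYn`: `pvwq_inY`, sec.7).
* `PvwDat.Msh pos μ`   the sides of the faces on the right of the four pieces are shorter than `μ`, `m h + μ < a h` (mesh).
NO topology: `pl_VOf_left` (a vertex of the closed inside of a circuit is on the circuit or all its darts are inside) is the only planar input.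

sec.0 loop erasures      sec.1 what is read of a state      sec.2 the three parts of the strand `t.dp → s.dm`      sec.3 `dist`      sec.4 `far_s far_t`      sec.5 masks      sec.6 producers of `Sep`
-/

set_option autoImplicit false

namespace Claimed.Agent.R289

open Set

variable {V D : Type} {T : PvMap V D}

/-! ## 0. loop erasures -/

theorem pvwq_le_vert {b : ℕ → V} {n : ℕ} {y : T.Pth} (h : PvwLE T b n y) {k : ℕ} (hk : k ≤ y.n) : ∃ i, i ≤ n ∧ y.v k = b i := by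
  obtain ⟨j, -, -, h3, -⟩ := h
  exact ⟨j k, (h3 k hk).1, (h3 k hk).2.1⟩

theorem pvwq_le_zero {b : ℕ → V} {n : ℕ} {y : T.Pth} (h : PvwLE T b n y) : y.v 0 = b 0 := h.choose_spec.1

theorem pvwq_le_last {b : ℕ → V} {n : ℕ} {y : T.Pth} (h : PvwLE T b n y) : y.v y.n = b n := by
  obtain ⟨j, -, h2, h3, -⟩ := h
  rw [(h3 y.n le_rfl).2.1, h2]

/-! ## 1. what is read of a state -/

section state

variable {𝔖 : PvwSt T} {pos : V → ℂ} {h : ℝ} {z : ℂ} {τ : PvwTy} {s : V → Bool}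

/-- the inner arc runs from `g⁻` to `g⁺` -/
theorem pvwq_inn_ends (hg : 𝔖.Gate pos h z τ s) : 𝔖.inn.v 0 = 𝔖.gm ∧ 𝔖.inn.v 𝔖.inn.n = 𝔖.gp := by
  obtain ⟨n, h1, -, h3⟩ := hg.strand
  refine ⟨pvwq_le_zero h3, ?_⟩
  rw [pvwq_le_last h3, h1]
  rfl

/-- the inner arc lies in the core -/
theorem pvwq_inn_core (hT : T.IsSph) (hg : 𝔖.Gate pos h z τ s) {k : ℕ} (hk : k ≤ 𝔖.inn.n) : 𝔖.inn.v k ∈ 𝔖.ins := by
  obtain ⟨n, h1, h2, h3⟩ := hg.strand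
  obtain ⟨i, hi, e⟩ := pvwq_le_vert h3 hk
  rw [e]
  rcases Nat.lt_or_ge i n with hlt | hge
  · exact ⟨_, h2 i hlt, rfl⟩
  · have : i = n := le_antisymm hi hge
    subst this
    show T.src (pvasIt T s 𝔖.dm i) ∈ 𝔖.ins
    rw [h1]
    exact (pvwk_gate_ends hT hg).1

/-- a black site of the core which carries a dart that is not inside is `g⁺` or `g⁻` -/
theorem pvwq_core_out (hT : T.IsSph) (hg : 𝔖.Gate pos h z τ s) {d : D} (hc : T.src d ∈ 𝔖.ins) (hb : s (T.src d) = true) (hd : d ∉ 𝔖.S.Left ∨ T.opp d ∉ 𝔖.S.Left) :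
    T.src d = 𝔖.gp ∨ T.src d = 𝔖.gm := by
  have hc' : T.src d ∈ 𝔖.S.verts ∪ T.Int 𝔖.S.Left := by rw [← pl_VOf_left hT]; exact hc
  rcases hc' with hv | hi
  · exact hg.two _ hv hb
  · obtain ⟨a1, a2, -⟩ := pl_int_edge hT 𝔖.S hi
    rcases hd with hd | hd
    · exact absurd a1 hd
    · exact absurd a2 hd

/-- the black bank of the exit stub meets the core in `g⁺`, `g⁻` only -/
theorem pvwq_bkP_core (hT : T.IsSph) {N : PvwNum} (ha : 𝔖.AtOut pos N h z τ s) {v : V} (hv : v ∈ 𝔖.bkP) (hc : v ∈ 𝔖.ins) : v = 𝔖.gp ∨ v = 𝔖.gm := by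
  obtain ⟨i, hi, rfl⟩ := hv
  exact pvwq_core_out hT ha.gate hc (pvwk_ep_bw ha.stub ha.gate.bw_p hi).1 (Or.inl (ha.good.off_p i hi))

/-- the black bank of the entrance stub meets the core in `g⁺`, `g⁻` only -/
theorem pvwq_bkM_core (hT : T.IsSph) {N : PvwNum} (ha : 𝔖.AtIn pos N h z τ s) {v : V} (hv : v ∈ 𝔖.bkM) (hc : v ∈ 𝔖.ins) : v = 𝔖.gp ∨ v = 𝔖.gm := by
  obtain ⟨i, hi, rfl⟩ := hv
  exact pvwq_core_out hT ha.gate hc (pvwk_em_bw ha.stub ha.gate.bw_m hi).1 (Or.inr (ha.good.off_m i hi))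

/-- a site which is not in the core is at distance `≥ a h` of the centre -/
theorem pvwq_far_of_not_core (hg : 𝔖.Gate pos h z τ s) {v : V} (hv : v ∉ 𝔖.ins) : τ.a * h ≤ ‖pos v - z‖ := by
  by_contra hlt
  exact hv (hg.round v (not_le.1 hlt))

/-- the two black sites of the gate are at distance `≥ a h` of the centre -/
theorem pvwq_far_gp (hg : 𝔖.Gate pos h z τ s) : τ.a * h ≤ ‖pos 𝔖.gp - z‖ := by
  obtain ⟨i, hi⟩ := hg.dp_on
  refine (hg.ann _ ⟨i + 1, ?_⟩).1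
  rw [← 𝔖.S.chain i, hi, T.tgt_opp]
  rfl

theorem pvwq_far_gm (hg : 𝔖.Gate pos h z τ s) : τ.a * h ≤ ‖pos 𝔖.gm - z‖ := by
  obtain ⟨i, hi⟩ := hg.dm_on
  refine (hg.ann _ ⟨i, ?_⟩).1
  rw [hi]
  rfl

end state

/-! ## 2. the three parts of the strand `t.dp → s.dm` -/

namespace PvwDat

variable (𝔇 : PvwDat T)

/-- **SEPARATION** (no colour): the two cores are disjoint, each stub of `D_Y` misses the core of the other pin, the cores are not over `Yin` -/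
structure Sep (pos : V → ℂ) (π : PvwPat) : Prop where
  cores : ∀ v ∈ 𝔇.s.ins, v ∉ 𝔇.t.ins
  bkP_s : ∀ v ∈ 𝔇.t.bkP, v ∉ 𝔇.s.ins
  bkM_t : ∀ v ∈ 𝔇.s.bkM, v ∉ 𝔇.t.ins
  off_s : ∀ v ∈ 𝔇.s.ins, pos v ∉ π.Yin
  off_t : ∀ v ∈ 𝔇.t.ins, pos v ∉ π.Yin

/-- **INSIDE `Yin`** (D18 of v3.1): the black ends of the new positions lie over `Yin` -/
def InY (pos : V → ℂ) (π : PvwPat) (σ : V → Bool) : Prop :=
  ∀ n, 𝔇.SYn pos π σ n → ∀ i, 𝔇.t.np < i → i + 𝔇.s.nm < n → pos (T.src (pvasIt T σ 𝔇.t.dp i)) ∈ π.Yin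

/-- **MESH** in a region `K` which contains the four pieces -/
structure Msh (pos : V → ℂ) (N : PvwNum) (h : ℝ) (π : PvwPat) (K : Set ℂ) (μ : ℝ) : Prop where
  short : ∀ d, pos (T.src d) ∈ K → ‖pos (T.tgt d) - pos (T.src d)‖ ≤ μ
  g_in : ∀ v ∈ 𝔇.g.verts, pos v ∈ K
  s_in : ∀ v ∈ 𝔇.s.fzIn, pos v ∈ K
  t_in : ∀ v ∈ 𝔇.t.fzOut, pos v ∈ K
  y_in : π.Yin ⊆ K
  mu_s : N.m * h + μ < π.ts.a * h
  mu_t : N.m * h + μ < π.tt.a * h

end PvwDat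

theorem pvwq_defs_eqns_cite : True := by
  have := @PvwDat.InY.eq_1
  trivial

section datum

variable {𝔇 : PvwDat T} {pos : V → ℂ} {N : PvwNum} {h : ℝ} {π : PvwPat} {σ : V → Bool}

/-- the exit half state of `t` is the half state of every colouring of the cylinder -/
theorem pvwq_at_t (hT : T.IsSph) (hOk : 𝔇.Ok pos N h π) (hσ : σ ∈ 𝔇.Cyl) : 𝔇.t.AtOut pos N h π.zt π.tt σ :=
  pvwk_atOut_congr hT hOk.st_t fun v hv => (hσ.1 v (Or.inl hv)).symm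

/-- the entrance half state of `s` is the half state of every colouring of the cylinder -/
theorem pvwq_at_s (hT : T.IsSph) (hOk : 𝔇.Ok pos N h π) (hσ : σ ∈ 𝔇.Cyl) : 𝔇.s.AtIn pos N h π.zs π.ts σ :=
  pvwk_atIn_congr hT hOk.st_s fun v hv => (hσ.1 v (Or.inr hv)).symm

/-- the backward strand undoes the forward strand -/
theorem pvwq_back_it {s : V → Bool} {d : D} (hb : pvasBW T s d) {j n : ℕ} (hj : j ≤ n) : (pvasBack T s)^[j] (pvasIt T s d n) = pvasIt T s d (n - j) := by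
  induction j with
  | zero => rfl
  | succ j ih =>
    obtain ⟨k, hk⟩ : ∃ k, n - j = k + 1 := ⟨n - j - 1, by omega⟩
    have hk' : n - (j + 1) = k := by omega
    rw [Function.iterate_succ_apply', ih (Nat.le_of_succ_le hj), hk, hk', pvas_it_back hb]

/-- the first `t.np` positions are the exit stub of `t` -/
theorem pvwq_it_stubP (hT : T.IsSph) (hOk : 𝔇.Ok pos N h π) (hσ : σ ∈ 𝔇.Cyl) {i : ℕ} (hi : i ≤ 𝔇.t.np) : pvasIt T σ 𝔇.t.dp i = 𝔇.t.ep i :=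
  ((pvwq_at_t hT hOk hσ).stub.ep_it i hi).symm

/-- the last `s.nm` positions are the entrance stub of `s` -/
theorem pvwq_it_stubM (hT : T.IsSph) (hOk : 𝔇.Ok pos N h π) (hσ : σ ∈ 𝔇.Cyl) {n : ℕ} (hn : 𝔇.SYn pos π σ n) {j : ℕ} (hj : j ≤ 𝔇.s.nm) :
    pvasIt T σ 𝔇.t.dp (n - j) = 𝔇.s.em j := by
  have hjn : j ≤ n := le_trans hj (le_trans (Nat.le_add_left _ _) hn.1)
  rw [(pvwq_at_s hT hOk hσ).stub.em_it j hj, ← hn.2.1, pvwq_back_it (pvwq_at_t hT hOk hσ).gate.bw_p hjn]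

/-- **the three parts**: exit stub of `t`, new positions, entrance stub of `s` -/
theorem pvwq_parts (hT : T.IsSph) (hOk : 𝔇.Ok pos N h π) (hσ : σ ∈ 𝔇.Cyl) {n : ℕ} (hn : 𝔇.SYn pos π σ n) {i : ℕ} (hi : i ≤ n) :
    T.src (pvasIt T σ 𝔇.t.dp i) ∈ 𝔇.t.bkP ∨ (𝔇.t.np < i ∧ i + 𝔇.s.nm < n) ∨ T.src (pvasIt T σ 𝔇.t.dp i) ∈ 𝔇.s.bkM := by
  rcases Nat.lt_or_ge 𝔇.t.np i with h1 | h1
  · rcases Nat.lt_or_ge (i + 𝔇.s.nm) n with h2 | h2
    · exact Or.inr (Or.inl ⟨h1, h2⟩)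
    · refine Or.inr (Or.inr ⟨n - i, by omega, ?_⟩)
      rw [← pvwq_it_stubM hT hOk hσ hn (show n - i ≤ 𝔇.s.nm by omega), show n - (n - i) = i by omega]
  · exact Or.inl ⟨i, h1, by rw [pvwq_it_stubP hT hOk hσ h1]⟩

/-- `g⁻(t)` is the last vertex of `g₀`, `g⁺(s)` the first -/
theorem pvwq_gm_mem (hOk : 𝔇.Ok pos N h π) : 𝔇.t.gm ∈ 𝔇.g.verts := ⟨𝔇.g.n, le_rfl, hOk.g1⟩

theorem pvwq_gp_mem (hOk : 𝔇.Ok pos N h π) : 𝔇.s.gp ∈ 𝔇.g.verts := ⟨0, Nat.zero_le _, hOk.g0⟩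

/-- **THE BLACK BANK OF THE STRAND `t.dp → s.dm`** misses `g₀`, meets the core of `t` in `g⁺(t)` only, the core of `s` in `g⁻(s)` only -/
theorem pvwq_bank (hT : T.IsSph) (hπ : π.Wf) (hOk : 𝔇.Ok pos N h π) (hS : 𝔇.Sep pos π) (hσ : σ ∈ 𝔇.Cyl) (hY : 𝔇.InY pos π σ) {n : ℕ} (hn : 𝔇.SYn pos π σ n) {i : ℕ} (hi : i ≤ n) :
    T.src (pvasIt T σ 𝔇.t.dp i) ∉ 𝔇.g.verts ∧ (T.src (pvasIt T σ 𝔇.t.dp i) ∈ 𝔇.t.ins → T.src (pvasIt T σ 𝔇.t.dp i) = 𝔇.t.gp) ∧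
      (T.src (pvasIt T σ 𝔇.t.dp i) ∈ 𝔇.s.ins → T.src (pvasIt T σ 𝔇.t.dp i) = 𝔇.s.gm) := by
  rcases pvwq_parts hT hOk hσ hn hi with hP | ⟨h1, h2⟩ | hM
  · refine ⟨fun hg => (hOk.disj _ hg).1 hP, fun hc => ?_, fun hc => absurd hc (hS.bkP_s _ hP)⟩
    rcases pvwq_bkP_core hT hOk.st_t hP hc with e | e
    · exact e
    · exact absurd (e ▸ hP) (hOk.disj _ (pvwq_gm_mem hOk)).1
  · have hin := hY n hn i h1 h2
    exact ⟨fun hg => hOk.off _ hg (hπ.in_sub hin), fun hc => absurd hin (hS.off_t _ hc), fun hc => absurd hin (hS.off_s _ hc)⟩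
  · refine ⟨fun hg => (hOk.disj _ hg).2.2.1 hM, fun hc => absurd hc (hS.bkM_t _ hM), fun hc => ?_⟩
    rcases pvwq_bkM_core hT hOk.st_s hM hc with e | e
    · exact absurd (e ▸ hM) (hOk.disj _ (pvwq_gp_mem hOk)).2.2.1
    · exact e

/-! ## 3. `dist` -/

/-- a vertex `≠` the first one of `g₀` is not in the core of `s` -/
theorem pvwq_g_off_s (hT : T.IsSph) (hOk : 𝔇.Ok pos N h π) (hS : 𝔇.Sep pos π) {k : ℕ} (hk : k < 𝔇.g.n) : 𝔇.g.v (k + 1) ∉ 𝔇.s.ins := by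
  rcases Nat.lt_or_ge (k + 1) 𝔇.g.n with h1 | h1
  · exact (hOk.out _ ⟨k + 1, Nat.succ_pos _, h1, rfl⟩).1
  · have e : k + 1 = 𝔇.g.n := le_antisymm hk h1
    rw [e, hOk.g1]
    exact fun hc => hS.cores _ hc (pvwk_gate_ends hT hOk.st_t.gate).2.2.1

/-- a vertex `≠` the last one of `g₀` is not in the core of `t` -/
theorem pvwq_g_off_t (hT : T.IsSph) (hOk : 𝔇.Ok pos N h π) (hS : 𝔇.Sep pos π) {k : ℕ} (hk : k < 𝔇.g.n) : 𝔇.g.v k ∉ 𝔇.t.ins := by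
  rcases Nat.eq_zero_or_pos k with h0 | h0
  · rw [h0, hOk.g0]
    exact hS.cores _ (pvwk_gate_ends hT hOk.st_s.gate).1
  · exact (hOk.out _ ⟨k, h0, hk, rfl⟩).2

/-- **`Fit.dist`**: the heads of the darts of the four pieces `g₀`, `inner(t)`, `y`, `inner(s)` are pairwise distinct -/
theorem pvwq_dist (hT : T.IsSph) (hπ : π.Wf) (hOk : 𝔇.Ok pos N h π) (hS : 𝔇.Sep pos π) (hσ : σ ∈ 𝔇.Cyl) (hY : 𝔇.InY pos π σ) (y : T.Pth) (hy : 𝔇.YArc pos π σ y) :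
    [𝔇.g, 𝔇.t.inn, y, 𝔇.s.inn].Pairwise fun p p' => ∀ k l, k < p.n → l < p'.n → p.v (k + 1) ≠ p'.v (l + 1) := by
  obtain ⟨n, hn, hle⟩ := hy
  have hyb : ∀ l, l ≤ y.n → ∃ i, i ≤ n ∧ y.v l = T.src (pvasIt T σ 𝔇.t.dp i) := fun l hl => pvwq_le_vert hle hl
  have hy0 : y.v 0 = 𝔇.t.gp := pvwq_le_zero hle
  obtain ⟨et0, -⟩ := pvwq_inn_ends hOk.st_t.gate
  obtain ⟨es0, -⟩ := pvwq_inn_ends hOk.st_s.gate
  have hct : ∀ l, l ≤ 𝔇.t.inn.n → 𝔇.t.inn.v l ∈ 𝔇.t.ins := fun l hl => pvwq_inn_core hT hOk.st_t.gate hl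
  have hcs : ∀ l, l ≤ 𝔇.s.inn.n → 𝔇.s.inn.v l ∈ 𝔇.s.ins := fun l hl => pvwq_inn_core hT hOk.st_s.gate hl
  simp only [List.pairwise_cons, List.mem_cons, List.not_mem_nil, or_false, forall_eq_or_imp, forall_eq, IsEmpty.forall_iff, implies_true, List.Pairwise.nil, and_true]
  refine ⟨⟨?_, ?_, ?_⟩, ⟨?_, ?_⟩, ?_⟩
  · -- g₀ against inner(t)
    intro k l hk hl e
    rcases Nat.lt_or_ge (k + 1) 𝔇.g.n with h1 | h1
    · exact pvwq_g_off_t hT hOk hS h1 (e ▸ hct (l + 1) hl)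
    · have e1 : k + 1 = 𝔇.g.n := le_antisymm hk h1
      rw [e1, hOk.g1, ← et0] at e
      exact absurd (𝔇.t.inn.inj _ _ (Nat.zero_le _) hl e) (by omega)
  · -- g₀ against y
    intro k l hk hl e
    obtain ⟨i, hi, e2⟩ := hyb (l + 1) hl
    exact (pvwq_bank hT hπ hOk hS hσ hY hn hi).1 (e2 ▸ e ▸ ⟨k + 1, hk, rfl⟩)
  · -- g₀ against inner(s)
    intro k l hk hl e
    exact pvwq_g_off_s hT hOk hS hk (e ▸ hcs (l + 1) hl)
  · -- inner(t) against y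
    intro k l hk hl e
    obtain ⟨i, hi, e2⟩ := hyb (l + 1) hl
    have e3 := (pvwq_bank hT hπ hOk hS hσ hY hn hi).2.1 (e2 ▸ e ▸ hct (k + 1) hk)
    rw [← e2, ← hy0] at e3
    exact absurd (y.inj _ _ hl (Nat.zero_le _) e3) (by omega)
  · -- inner(t) against inner(s)
    intro k l hk hl e
    exact hS.cores _ (hcs (l + 1) hl) (e ▸ hct (k + 1) hk)
  · -- y against inner(s)
    intro k l hk hl e
    obtain ⟨i, hi, e2⟩ := hyb (k + 1) hk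
    have e3 := (pvwq_bank hT hπ hOk hS hσ hY hn hi).2.2 (e2 ▸ e.symm ▸ hcs (l + 1) hl)
    rw [← e2, e, ← es0] at e3
    exact absurd (𝔇.s.inn.inj _ _ hl (Nat.zero_le _) e3) (by omega)

/-! ## 4. `far_s`, `far_t` -/

/-- **`Fit.far_s`** -/
theorem pvwq_far_s (hT : T.IsSph) (hOk : 𝔇.Ok pos N h π) (hS : 𝔇.Sep pos π) : 𝔇.g.v 1 ∉ 𝔇.s.ins := pvwq_g_off_s hT hOk hS hOk.pos_n

/-- **`Fit.far_t`** -/
theorem pvwq_far_t (hT : T.IsSph) (hOk : 𝔇.Ok pos N h π) (hS : 𝔇.Sep pos π) : 𝔇.g.v (𝔇.g.n - 1) ∉ 𝔇.t.ins :=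
  pvwq_g_off_t hT hOk hS (Nat.sub_lt hOk.pos_n Nat.one_pos)

/-! ## 5. masks -/

/-- the barycentre of a face with two short sides at `src d` is close to `src d` -/
theorem pvwq_bary_near {μ : ℝ} (d : D) (h1 : ‖pos (T.tgt d) - pos (T.src d)‖ ≤ μ) (h2 : ‖pos (T.apex d) - pos (T.src d)‖ ≤ μ) : ‖T.bary pos d - pos (T.src d)‖ ≤ μ := by
  have e : T.bary pos d - pos (T.src d) = ((pos (T.tgt d) - pos (T.src d)) + (pos (T.apex d) - pos (T.src d))) / 3 := by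
    unfold PvMap.bary
    ring
  rw [e, norm_div]
  have h3 : ‖(3 : ℂ)‖ = 3 := by simp
  rw [h3]
  have h4 := norm_add_le (pos (T.tgt d) - pos (T.src d)) (pos (T.apex d) - pos (T.src d))
  have h5 : 0 ≤ μ := le_trans (norm_nonneg _) h1
  rw [div_le_iff₀ (by norm_num)]
  linarith

/-- the two sides of the face of `d` at `src d` are short -/
theorem pvwq_short2 {K : Set ℂ} {μ : ℝ} (hsh : ∀ d : D, pos (T.src d) ∈ K → ‖pos (T.tgt d) - pos (T.src d)‖ ≤ μ) {d : D} (hd : pos (T.src d) ∈ K) :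
    ‖T.bary pos d - pos (T.src d)‖ ≤ μ := by
  refine pvwq_bary_near d (hsh d hd) ?_
  have e1 : T.src (T.opp (T.nxt (T.nxt d))) = T.src d := by rw [T.src_opp', T.tgt_nxt2]
  have e2 : T.tgt (T.opp (T.nxt (T.nxt d))) = T.apex d := by rw [T.tgt_opp]; rfl
  have := hsh (T.opp (T.nxt (T.nxt d))) (by rw [e1]; exact hd)
  rwa [e1, e2] at this

/-- a face with a vertex far from `z` and short sides has its barycentre off the ball -/
theorem pvwq_bary_off {K : Set ℂ} {μ r A : ℝ} {z : ℂ} (hsh : ∀ d : D, pos (T.src d) ∈ K → ‖pos (T.tgt d) - pos (T.src d)‖ ≤ μ) (hr : r + μ < A) {d : D} (hd : pos (T.src d) ∈ K)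
    (hA : A ≤ ‖pos (T.src d) - z‖) : T.bary pos d ∉ Metric.closedBall z r := by
  intro hm
  rw [Metric.mem_closedBall, dist_eq_norm] at hm
  have h1 := pvwq_short2 hsh hd
  have h2 : ‖pos (T.src d) - z‖ ≤ ‖T.bary pos d - z‖ + ‖T.bary pos d - pos (T.src d)‖ := by
    have e : pos (T.src d) - z = (T.bary pos d - z) - (T.bary pos d - pos (T.src d)) := by ring
    rw [e]
    exact norm_sub_le _ _
  linarith

variable {K : Set ℂ} {μ : ℝ}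

/-- the tail of the tag of the edge number `k` of a path is the vertex number `k + 1` -/
theorem pvwq_src_tag (p : T.Pth) {k : ℕ} (hk : k < p.n) : T.src (T.opp (p.e k)) = p.v (k + 1) := by rw [T.src_opp', p.tgt_e k hk]

/-- **`Fit.m_g`** -/
theorem pvwq_m_g (hT : T.IsSph) (hOk : 𝔇.Ok pos N h π) (hS : 𝔇.Sep pos π) (hM : 𝔇.Msh pos N h π K μ) {k : ℕ} (hk : k < 𝔇.g.n) :
    T.bary pos (T.opp (𝔇.g.e k)) ∈ PvwDat.offCut N h π := by
  have hin : pos (T.src (T.opp (𝔇.g.e k))) ∈ K := by rw [pvwq_src_tag _ hk]; exact hM.g_in _ ⟨k + 1, hk, rfl⟩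
  rintro (hm | hm)
  · refine pvwq_bary_off hM.short hM.mu_s hin ?_ hm
    rw [pvwq_src_tag _ hk]
    exact pvwq_far_of_not_core hOk.st_s.gate (pvwq_g_off_s hT hOk hS hk)
  · refine pvwq_bary_off hM.short hM.mu_t hin ?_ hm
    rw [pvwq_src_tag _ hk]
    rcases Nat.lt_or_ge (k + 1) 𝔇.g.n with h1 | h1
    · exact pvwq_far_of_not_core hOk.st_t.gate (pvwq_g_off_t hT hOk hS h1)
    · rw [le_antisymm hk h1, hOk.g1]
      exact pvwq_far_gm hOk.st_t.gate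

/-- **`Fit.m_y`** -/
theorem pvwq_m_y (hT : T.IsSph) (hπ : π.Wf) (hOk : 𝔇.Ok pos N h π) (hS : 𝔇.Sep pos π) (hM : 𝔇.Msh pos N h π K μ) (hσ : σ ∈ 𝔇.Cyl) (hY : 𝔇.InY pos π σ) (y : T.Pth)
    (hy : 𝔇.YArc pos π σ y) {k : ℕ} (hk : k < y.n) : T.bary pos (T.opp (y.e k)) ∈ PvwDat.offCut N h π := by
  obtain ⟨n, hn, hle⟩ := hy
  obtain ⟨i, hi, e⟩ := pvwq_le_vert hle (show k + 1 ≤ y.n from hk)
  obtain ⟨-, b2, b3⟩ := pvwq_bank hT hπ hOk hS hσ hY hn hi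
  have es : T.src (T.opp (y.e k)) = T.src (pvasIt T σ 𝔇.t.dp i) := by rw [pvwq_src_tag _ hk, e]
  have hin : pos (T.src (T.opp (y.e k))) ∈ K := by
    rw [es]
    rcases pvwq_parts hT hOk hσ hn hi with hP | ⟨h1, h2⟩ | hMm
    · exact hM.t_in _ (Or.inl (Or.inr hP))
    · exact hM.y_in (hY n hn i h1 h2)
    · exact hM.s_in _ (Or.inl (Or.inr hMm))
  rintro (hm | hm)
  · refine pvwq_bary_off hM.short hM.mu_s hin ?_ hm
    rw [es]
    by_cases hc : T.src (pvasIt T σ 𝔇.t.dp i) ∈ 𝔇.s.ins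
    · rw [b3 hc]; exact pvwq_far_gm hOk.st_s.gate
    · exact pvwq_far_of_not_core hOk.st_s.gate hc
  · refine pvwq_bary_off hM.short hM.mu_t hin ?_ hm
    rw [es]
    by_cases hc : T.src (pvasIt T σ 𝔇.t.dp i) ∈ 𝔇.t.ins
    · rw [b2 hc]; exact pvwq_far_gp hOk.st_t.gate
    · exact pvwq_far_of_not_core hOk.st_t.gate hc

/-- **`Fit.m_s`** -/
theorem pvwq_m_s (hT : T.IsSph) (hOk : 𝔇.Ok pos N h π) (hS : 𝔇.Sep pos π) (hM : 𝔇.Msh pos N h π K μ) {k : ℕ} (hk : k < 𝔇.s.inn.n) :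
    T.bary pos (T.opp (𝔇.s.inn.e k)) ∉ Metric.closedBall π.zt (N.m * h) := by
  have hc : 𝔇.s.inn.v (k + 1) ∈ 𝔇.s.ins := pvwq_inn_core hT hOk.st_s.gate hk
  refine pvwq_bary_off hM.short hM.mu_t ?_ ?_
  · rw [pvwq_src_tag _ hk]; exact hM.s_in _ (Or.inl (Or.inl (pvwk_ins_sub_core hOk.st_s.gate hc)))
  · rw [pvwq_src_tag _ hk]; exact pvwq_far_of_not_core hOk.st_t.gate (hS.cores _ hc)

/-- **`Fit.m_t`** -/
theorem pvwq_m_t (hT : T.IsSph) (hOk : 𝔇.Ok pos N h π) (hS : 𝔇.Sep pos π) (hM : 𝔇.Msh pos N h π K μ) {k : ℕ} (hk : k < 𝔇.t.inn.n) :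
    T.bary pos (T.opp (𝔇.t.inn.e k)) ∉ Metric.closedBall π.zs (N.m * h) := by
  have hc : 𝔇.t.inn.v (k + 1) ∈ 𝔇.t.ins := pvwq_inn_core hT hOk.st_t.gate hk
  refine pvwq_bary_off hM.short hM.mu_s ?_ ?_
  · rw [pvwq_src_tag _ hk]; exact hM.t_in _ (Or.inl (Or.inl (pvwk_ins_sub_core hOk.st_t.gate hc)))
  · rw [pvwq_src_tag _ hk]; exact pvwq_far_of_not_core hOk.st_s.gate fun hs => hS.cores _ hs hc

/-! ## 6. producers of `Sep` -/

/-- two squares whose centres are far apart are disjoint -/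
theorem pvwq_sq_disj {z z' : ℂ} {r r' : ℝ} (hz : 2 * (r + r') < ‖z - z'‖) : Disjoint (pvwSq z r) (pvwSq z' r') := by
  rw [Set.disjoint_left]
  rintro w ⟨a1, a2⟩ ⟨b1, b2⟩
  have h1 : |(z - z').re| ≤ r + r' := by
    have e : (z - z').re = (w - z').re - (w - z).re := by simp
    rw [e]
    exact le_trans (abs_sub _ _) (by linarith)
  have h2 : |(z - z').im| ≤ r + r' := by
    have e : (z - z').im = (w - z').im - (w - z).im := by simp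
    rw [e]
    exact le_trans (abs_sub _ _) (by linarith)
  have h3 := Complex.norm_le_abs_re_add_abs_im (z - z')
  linarith

/-- **`Sep` from disjoint boxes** -/
theorem pvwq_sep_of_sq (hOk : 𝔇.Ok pos N h π) (hd : Disjoint (pvwSq π.zs (pvwRad N h π.ts π.ts.k)) (pvwSq π.zt (pvwRad N h π.tt π.tt.k)))
    (hbs : π.ts.b * h ≤ pvwRad N h π.ts π.ts.k) (hbt : π.tt.b * h ≤ pvwRad N h π.tt π.tt.k)
    (off_s : ∀ v ∈ 𝔇.s.ins, pos v ∉ π.Yin) (off_t : ∀ v ∈ 𝔇.t.ins, pos v ∉ π.Yin) : 𝔇.Sep pos π where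
  cores v hs ht := Set.disjoint_left.1 hd (pvwk_core_sq hOk.st_s.gate hbs v (pvwk_ins_sub_core hOk.st_s.gate hs)) (pvwk_core_sq hOk.st_t.gate hbt v (pvwk_ins_sub_core hOk.st_t.gate ht))
  bkP_s v hP hs := Set.disjoint_left.1 hd (pvwk_core_sq hOk.st_s.gate hbs v (pvwk_ins_sub_core hOk.st_s.gate hs)) (pvwk_banksP_in hOk.st_t.stub (Or.inl hP))
  bkM_t v hM ht := Set.disjoint_left.1 hd (pvwk_banksM_in hOk.st_s.stub (Or.inl hM)) (pvwk_core_sq hOk.st_t.gate hbt v (pvwk_ins_sub_core hOk.st_t.gate ht))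
  off_s := off_s
  off_t := off_t

/-- the cores are not over `Yin` as soon as `Yin` misses the two gate discs -/
theorem pvwq_core_off (hOk : 𝔇.Ok pos N h π) (hs : Disjoint π.Yin (Metric.closedBall π.zs (π.ts.b * h))) (ht : Disjoint π.Yin (Metric.closedBall π.zt (π.tt.b * h))) :
    (∀ v ∈ 𝔇.s.ins, pos v ∉ π.Yin) ∧ ∀ v ∈ 𝔇.t.ins, pos v ∉ π.Yin := by
  refine ⟨fun v hv hY => Set.disjoint_left.1 hs hY ?_, fun v hv hY => Set.disjoint_left.1 ht hY ?_⟩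
  · rw [Metric.mem_closedBall, dist_eq_norm]; exact (hOk.st_s.gate.inside v hv).le
  · rw [Metric.mem_closedBall, dist_eq_norm]; exact (hOk.st_t.gate.inside v hv).le

/-- **ALL THE FIELDS OF `PvwDat.Fit` WHICH READ THE PIECES** (`dist far_s far_t m_g m_y m_s m_t`), in one statement -/
theorem pvwq_fit (hT : T.IsSph) (hπ : π.Wf) (hOk : 𝔇.Ok pos N h π) (hS : 𝔇.Sep pos π) (hM : 𝔇.Msh pos N h π K μ) (hσ : σ ∈ 𝔇.Cyl) (hY : 𝔇.InY pos π σ) :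
    𝔇.g.v 1 ∉ 𝔇.s.ins ∧ 𝔇.g.v (𝔇.g.n - 1) ∉ 𝔇.t.ins ∧
    (∀ y, 𝔇.YArc pos π σ y → [𝔇.g, 𝔇.t.inn, y, 𝔇.s.inn].Pairwise fun p p' => ∀ k l, k < p.n → l < p'.n → p.v (k + 1) ≠ p'.v (l + 1)) ∧
    (∀ k, k < 𝔇.g.n → T.bary pos (T.opp (𝔇.g.e k)) ∈ PvwDat.offCut N h π) ∧
    (∀ y, 𝔇.YArc pos π σ y → ∀ k, k < y.n → T.bary pos (T.opp (y.e k)) ∈ PvwDat.offCut N h π) ∧
    (∀ k, k < 𝔇.s.inn.n → T.bary pos (T.opp (𝔇.s.inn.e k)) ∉ Metric.closedBall π.zt (N.m * h)) ∧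
    ∀ k, k < 𝔇.t.inn.n → T.bary pos (T.opp (𝔇.t.inn.e k)) ∉ Metric.closedBall π.zs (N.m * h) :=
  ⟨pvwq_far_s hT hOk hS, pvwq_far_t hT hOk hS, fun y hy => pvwq_dist hT hπ hOk hS hσ hY y hy, fun _ hk => pvwq_m_g hT hOk hS hM hk,
    fun y hy _ hk => pvwq_m_y hT hπ hOk hS hM hσ hY y hy hk, fun _ hk => pvwq_m_s hT hOk hS hM hk, fun _ hk => pvwq_m_t hT hOk hS hM hk⟩

/-! ## 7. Defs v3: `InY` and the clauses `off_s off_t` are free (ruling 16 (1a) of 234) -/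

/-- `SYn` v3 contains "inside `Yin`" -/
theorem pvwq_inY (𝔇 : PvwDat T) (pos : V → ℂ) (π : PvwPat) (σ : V → Bool) : 𝔇.InY pos π σ := fun _ hn i h1 h2 => (hn.2.2.2 i h1 h2).2.2.1

/-- `Ok.core_off` gives the two clauses of `Sep` on `Yin` -/
theorem pvwq_ins_off (hOk : 𝔇.Ok pos N h π) : (∀ v ∈ 𝔇.s.ins, pos v ∉ π.Yin) ∧ ∀ v ∈ 𝔇.t.ins, pos v ∉ π.Yin :=
  ⟨fun v hv => hOk.core_off v (Or.inl (pvwk_ins_sub_core hOk.st_s.gate hv)), fun v hv => hOk.core_off v (Or.inr (pvwk_ins_sub_core hOk.st_t.gate hv))⟩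

/-- **`Sep` from `Ok` and disjoint boxes** -/
theorem pvwq_sep (hOk : 𝔇.Ok pos N h π) (hd : Disjoint (pvwSq π.zs (pvwRad N h π.ts π.ts.k)) (pvwSq π.zt (pvwRad N h π.tt π.tt.k)))
    (hbs : π.ts.b * h ≤ pvwRad N h π.ts π.ts.k) (hbt : π.tt.b * h ≤ pvwRad N h π.tt π.tt.k) : 𝔇.Sep pos π :=
  pvwq_sep_of_sq hOk hd hbs hbt (pvwq_ins_off hOk).1 (pvwq_ins_off hOk).2

/-- **`Sep` from `Ok` and the distance of the centres** -/
theorem pvwq_sep_far (hOk : 𝔇.Ok pos N h π) (hz : 2 * (pvwRad N h π.ts π.ts.k + pvwRad N h π.tt π.tt.k) < ‖π.zs - π.zt‖)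
    (hbs : π.ts.b * h ≤ pvwRad N h π.ts π.ts.k) (hbt : π.tt.b * h ≤ pvwRad N h π.tt π.tt.k) : 𝔇.Sep pos π :=
  pvwq_sep hOk (pvwq_sq_disj hz) hbs hbt

/-- the black ends of the new positions are off the closed insides of the two gates (= `NewOff` of 194, `Tr/C12F`) -/
theorem pvwq_new_off (hOk : 𝔇.Ok pos N h π) {n : ℕ} (hn : 𝔇.SYn pos π σ n) {i : ℕ} (h1 : 𝔇.t.np < i) (h2 : i + 𝔇.s.nm < n) :
    T.src (pvasIt T σ 𝔇.t.dp i) ∉ 𝔇.t.core ∧ T.src (pvasIt T σ 𝔇.t.dp i) ∉ 𝔇.s.core :=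
  ⟨fun hc => hOk.core_off _ (Or.inr hc) (hn.2.2.2 i h1 h2).2.2.1, fun hc => hOk.core_off _ (Or.inl hc) (hn.2.2.2 i h1 h2).2.2.1⟩

end datum

end Claimed.Agent.R289
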