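-- KEEP
import Claimed.Agent.R289.Tr.C12
import Claimed.Agent.R289.Tr.C12F
import Claimed.Agent.R289.Tr.StKit
import Claimed.Agent.R289.Tr.FitProd
import Claimed.Agent.R289.Del.Bulk
import Claimed.Agent.R289.Del.Tile
import Claimed.Agent.R289.Del.Area
import Claimed.Agent.R289.S1P.Ann

/-!
# Row 289 (S0537, Cardy for Poisson-Voronoi), THE WALL, road E, file Tr/C2Dom : (C2) + INJ ⟹ THE SUM OVER THE DATA IS DOMINATED BY THE LABEL ENERGY      (helper78, head of the WB2 core; prefix `pvc4_`)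

**v3 (on `Tr/Defs` v3; ruling W-5 of 208): `E(D)` AT THE MODEL = `NBon M`, `M = NU ∩ patch`; `W = WO ∩ {white circuit}`; (C1) = `pvc4_C1nu`; (C2) = `pvc4_ring_nu` / `pvc4_ring_circuit` / `pvc4_C2on`.**
TEXT: `origin/helper208:notes/R289/W1_208_v3.md` E2 (C2), E3 INJ, E5 THEOREM N1', E6;   `origin/helper78:notes/R289/W2ref_78.md` sec. 5 (T8).
WHAT THIS FILE CLOSES: the deterministic content of the field `dom` of `PvdmSys` (159, `Tr/Dom`; upper half = `PvdeRing`, `PvdeRings`, `pvde_dom_rings` of 37, `Tr/DomE`):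
      for EVERY colouring `σ`:   `∑_i 1_{E_i}(σ) |X(D_i) + Y(D_i, σ)|² ≤ ∑_λ |∑_{d ∈ λ} w d|²`   (label energy of 244, `S1P/Ann`; restricted to the labels with a property `P`).

* sec. 1  `T.labEnOn σ w P` = the label energy restricted to the tags with the property `P`;   `pvc4_energy_on` : ANY index type; tags `d i` (`i ∈ A`) in pairwise different FINITE label classes, all of whose tags have `P`
          ⟹ `∑' i ∈ A, ‖T.lsum σ w (d i)‖ₑ² ≤ T.labEnOn σ w P`;   `pvc4_energy` (`P = True`, `T.labEn` of 244).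
          `pvc4In`, `pvc4Big`, `pvc4Sum T pos σ w B a` = THE CLOSED SUM of P1.8 (`pvclIn`, `pvclBig`, `pvclSum` of `S1/Closed`) on a dart structure: labels inside `B`, of diameter `≥ a`.
* sec. 2  `pvc4_lst_eq` : two simple paths with the same ends whose darts lie in a set of darts with pairwise different heads have the same darts (backwards induction).
* sec. 3  **INJ** `pvc4_inj` : two rings `[g, …]`, `[g', …]` which are full label classes of ONE colouring, with a common label; `g`, `g'` have the same ends ⟹ `g.lst = g'.lst`.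
          WARNING: `T.Pth`, `PvwSt` carry JUNK beyond their lengths (`v e ep em : ℕ → _`): `D = D'` is NOT provable.   Families of data must be indexed so that `i ↦ (D i).g.lst` is injective on the data which occur for one `σ` (`hι`),
          and the GATE RULE must give the same ends `g⁺(s)`, `g⁻(t)` for the data which occur for one `σ` (`hend`).   Both are immediate when the index is `g₀` and the states are functions of the configuration (159).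
          **`pvc4_rings`** = THE SEAM (37, `Tr/DomE`): NO `PvwDat`; a family of rings `g i :: L₀ i` which are full label classes ⟹ `∑' i ∈ A, ‖Z i‖ₑ² ≤ T.labEnOn σ w P`;   `pvc4_rings_w` (with a weight `≤ C`).
* sec. 4  **`PvwDat.Ring pos N h π σ y`** = THE RING PACKAGE of one present datum (fields = those of `PvdeRing` of 37: `pos_n nd tag cls sum side0`, + `arc`, `rim`);   `pvc4_chain_side` (the `V` part dies round a ring);
          **`pvc4_ring_core`** : `Ok`, `Fit`, `Cyl`, "`g₀` is a piece of the wall of `dm(t)`", `SY` ⟹ `∃ y, Ring`   (ALL ROUTES END HERE: faced = `pvwc_g_onwall` of 194, sector = sec. 6);   `pvc4_ring_inj`;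
          **`pvc4_theta_ev`**, `pvc4_theta_ev_cl` : the sum over ANY family of events on which the data have rings is `≤ T.labEnOn σ w P`, `≤ pvc4Sum T pos σ w B a`.
* sec. 5  **`PvwDat.NBon M`** = `E(D)` AT THE MODEL (145): the sector form restricted to a (finite) set `M` of sites; `pvc4_nbon_sec` (`NBsec = NBon YCLᶜ`), `_mono`, `_anti`, `_congr` ((C3)), **`pvc4_C1on`, `pvc4_C1nu`** ((C1)), `pvc4_nbon_nu` (dictionary with `NBU` of 22);
          `PvwDat.Beads` (the black clusters hanging on `g₀` inside the cell lie in `M`), **`pvc4_nb_on`** (`NBon M` + beads ⟹ `PvswNB`, ONE shield), `pvc4_bead_region`, `pvc4_bead_circuit` (white circuit round `g₀`: E6 / G3), `pvc4_wall_finite`, `pvc4_off_right`.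
* sec. 6  (C2) at the model (sector route, chosen shield): `pvc4_onwall_on`, **`pvc4_C2on`**, `pvc4_onwall_circuit`, `pvc4_C2on_circuit`, **`pvc4_ring_circuit`**, `pvc4_ring_nu` (`M = NU ∩ P`, G1' as a hypothesis),
          **`pvc4_ring_model`** = THE FORM OF RECORD: colour free `Ok`, `Geo`, `Col` (194, `Tr/C12F`) + the events `Cyl`, `WO`, white circuit, `NBon (NU ∩ P)`, `SY` ⟹ `∃ y, Ring`.
* sec. 7  AT THE MODEL `(delbPl Y).toMap`: `pvc4_cut_model` (mesh at a pin ⟹ `cut`), **`pvc4_geo_model`** (`PvwDat.Geo` from: boxes apart + sites dense round the two pins), **`pvc4_ring_plane`**.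
-/

set_option autoImplicit false

namespace Claimed.Agent.R289

open MeasureTheory Set
open scoped ENNReal

variable {V D : Type} {T : PvMap V D}

/-! ## 1. the label energy dominates every family of different finite labels -/

theorem pvc4_enorm_sq (z : ℂ) : ‖z‖ₑ ^ 2 = ENNReal.ofReal (‖z‖ ^ 2) := by
  rw [ENNReal.ofReal_pow (norm_nonneg z), ofReal_norm]

namespace PvMap

open Classical in
/-- the label energy restricted to the tags with the property `P` (meant for properties of the LABEL) -/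
noncomputable def labEnOn (T : PvMap V D) (s : V → Bool) (x : D → ℂ) (P : D → Prop) : ℝ≥0∞ :=
  ∑' d, if T.Tag s d ∧ P d then ENNReal.ofReal (‖T.lsum s x d‖ ^ 2) / ({d' | T.SameLab s d d'}.encard : ℝ≥0∞) else 0

end PvMap

/-- all rim vertices of the label of `d` lie over `B`      (`pvclIn` of `S1/Closed`) -/
def pvc4In (T : PvMap V D) (pos : V → ℂ) (σ : V → Bool) (B : Set ℂ) (d : D) : Prop := ∀ d', T.SameLab σ d d' → pos (T.src d') ∈ B

/-- the label of `d` has diameter `≥ a`      (`pvclBig` of `S1/Closed`) -/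
def pvc4Big (T : PvMap V D) (pos : V → ℂ) (σ : V → Bool) (a : ℝ) (d : D) : Prop :=
  ∃ y y', T.SameLab σ d y ∧ T.SameLab σ d y' ∧ a ≤ ‖pos (T.src y) - pos (T.src y')‖

/-- **the closed sum** of P1.8 on a dart structure: `∑ |∑_{d ∈ λ} w d|²` over the labels `λ` inside `B` of diameter `≥ a`      (`pvclSum` of `S1/Closed`) -/
noncomputable def pvc4Sum (T : PvMap V D) (pos : V → ℂ) (σ : V → Bool) (w : D → ℂ) (B : Set ℂ) (a : ℝ) : ℝ≥0∞ :=
  T.labEnOn σ w fun d => pvc4In T pos σ B d ∧ pvc4Big T pos σ a d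

theorem pvc4_defs_cite : True := by
  have := @PvMap.labEnOn.eq_1; have := @pvc4In.eq_1; have := @pvc4Big.eq_1; have := @pvc4Sum.eq_1
  trivial

open Classical in
theorem pvc4_on_le (σ : V → Bool) (w : D → ℂ) (P : D → Prop) : T.labEnOn σ w P ≤ T.labEn σ w := by
  unfold PvMap.labEnOn PvMap.labEn
  refine ENNReal.tsum_le_tsum fun d => ?_
  by_cases h : T.Tag σ d ∧ P d
  · rw [if_pos h, if_pos h.1]
  · rw [if_neg h]; exact zero_le

open Classical in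
theorem pvc4_on_mono (σ : V → Bool) (w : D → ℂ) {P Q : D → Prop} (h : ∀ d, P d → Q d) : T.labEnOn σ w P ≤ T.labEnOn σ w Q := by
  unfold PvMap.labEnOn
  refine ENNReal.tsum_le_tsum fun d => ?_
  by_cases hd : T.Tag σ d ∧ P d
  · rw [if_pos hd, if_pos ⟨hd.1, h d hd.2⟩]
  · rw [if_neg hd]; exact zero_le

open Classical in
theorem pvc4_on_true (σ : V → Bool) (w : D → ℂ) : T.labEnOn σ w (fun _ => True) = T.labEn σ w := by
  unfold PvMap.labEnOn PvMap.labEn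
  refine tsum_congr fun d => ?_
  simp only [and_true]

/-- the two properties of P1.8 are properties of the label -/
theorem pvc4_in_congr {pos : V → ℂ} {σ : V → Bool} {B : Set ℂ} {d e : D} (h : T.SameLab σ d e) (hd : pvc4In T pos σ B d) : pvc4In T pos σ B e :=
  fun d' hd' => hd d' (T.sameLab_trans σ h hd')

theorem pvc4_big_congr {pos : V → ℂ} {σ : V → Bool} {a : ℝ} {d e : D} (h : T.SameLab σ d e) (hd : pvc4Big T pos σ a d) : pvc4Big T pos σ a e := by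
  obtain ⟨y, y', h1, h2, h3⟩ := hd
  exact ⟨y, y', T.sameLab_trans σ (T.sameLab_symm σ h) h1, T.sameLab_trans σ (T.sameLab_symm σ h) h2, h3⟩

open Classical in
/-- finitely many pairwise different finite labels all of whose tags have `P`      (`pvq_labEn_ge` of 244 with a restriction) -/
theorem pvc4_on_ge (σ : V → Bool) (w : D → ℂ) (P : D → Prop) (F : Finset D) (hT : ∀ d ∈ F, T.Tag σ d) (hf : ∀ d ∈ F, {d' | T.SameLab σ d d'}.Finite)
    (hne : ∀ d ∈ F, ∀ d' ∈ F, T.SameLab σ d d' → d = d') (hP : ∀ d ∈ F, ∀ d', T.SameLab σ d d' → P d') :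
    ∑ d ∈ F, ENNReal.ofReal (‖T.lsum σ w d‖ ^ 2) ≤ T.labEnOn σ w P := by
  set f : D → ℝ≥0∞ := fun d => if T.Tag σ d then ENNReal.ofReal (‖T.lsum σ w d‖ ^ 2) / ({d' | T.SameLab σ d d'}.encard : ℝ≥0∞) else 0 with hfd
  set fP : D → ℝ≥0∞ := fun d => if T.Tag σ d ∧ P d then ENNReal.ofReal (‖T.lsum σ w d‖ ^ 2) / ({d' | T.SameLab σ d d'}.encard : ℝ≥0∞) else 0 with hfP
  calc ∑ d ∈ F, ENNReal.ofReal (‖T.lsum σ w d‖ ^ 2) = ∑ d ∈ F, ∑' e, (if T.SameLab σ d e then f e else 0) :=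
        Finset.sum_congr rfl fun d hd => (T.pvq_lab_mass_eq σ w (hT d hd) (hf d hd)).symm
    _ = ∑' e, ∑ d ∈ F, (if T.SameLab σ d e then f e else 0) := (Summable.tsum_finsetSum fun _ _ => ENNReal.summable).symm
    _ ≤ ∑' e, fP e := by
        refine ENNReal.tsum_le_tsum fun e => ?_
        by_cases h : ∃ d₀ ∈ F, T.SameLab σ d₀ e
        · obtain ⟨d₀, hd₀, h0⟩ := h
          have : ∀ d ∈ F, (if T.SameLab σ d e then f e else 0) = if d = d₀ then f e else 0 := by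
            intro d hd
            by_cases hde : T.SameLab σ d e
            · rw [if_pos hde, if_pos (hne d hd d₀ hd₀ (T.sameLab_trans σ hde (T.sameLab_symm σ h0)))]
            · rw [if_neg hde, if_neg]
              rintro rfl
              exact hde h0
          rw [Finset.sum_congr rfl this, Finset.sum_ite_eq' F d₀, if_pos hd₀]
          simp only [hfd, hfP]
          rw [if_pos h0.2.1, if_pos ⟨h0.2.1, hP d₀ hd₀ e h0⟩]
        · rw [Finset.sum_eq_zero]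
          · exact zero_le
          · intro d hd
            rw [if_neg fun hde => h ⟨d, hd, hde⟩]
    _ = T.labEnOn σ w P := rfl

open Classical in
/-- **ENERGY**: tags in pairwise different finite label classes, indexed by ANY type; all the tags of these classes have the property `P` -/
theorem pvc4_energy_on {ι : Type*} (σ : V → Bool) (w : D → ℂ) (P : D → Prop) (d : ι → D) (A : Set ι) (hTag : ∀ i ∈ A, T.Tag σ (d i))
    (hfin : ∀ i ∈ A, {d' | T.SameLab σ (d i) d'}.Finite) (hinj : ∀ i ∈ A, ∀ j ∈ A, T.SameLab σ (d i) (d j) → i = j) (hP : ∀ i ∈ A, ∀ d', T.SameLab σ (d i) d' → P d') :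
    ∑' i, A.indicator (fun i => ‖T.lsum σ w (d i)‖ₑ ^ 2) i ≤ T.labEnOn σ w P := by
  rw [ENNReal.tsum_eq_iSup_sum]
  refine iSup_le fun s => ?_
  have h1 : ∑ i ∈ s, A.indicator (fun i => ‖T.lsum σ w (d i)‖ₑ ^ 2) i = ∑ i ∈ s.filter (· ∈ A), ENNReal.ofReal (‖T.lsum σ w (d i)‖ ^ 2) := by
    rw [Finset.sum_filter]
    refine Finset.sum_congr rfl fun i _ => ?_
    by_cases hi : i ∈ A
    · rw [indicator_of_mem hi, if_pos hi, pvc4_enorm_sq]
    · rw [indicator_of_notMem hi, if_neg hi]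
  have hA : ∀ i ∈ s.filter (· ∈ A), i ∈ A := fun i hi => (Finset.mem_filter.1 hi).2
  have hinj' : Set.InjOn d (s.filter (· ∈ A) : Finset ι) := by
    intro i hi j hj e
    refine hinj i (hA i hi) j (hA j hj) ?_
    rw [← e]
    exact T.sameLab_refl σ (hTag i (hA i hi))
  rw [h1, ← Finset.sum_image (f := fun x => ENNReal.ofReal (‖T.lsum σ w x‖ ^ 2)) hinj']
  refine pvc4_on_ge σ w P _ ?_ ?_ ?_ ?_
  · intro x hx
    obtain ⟨i, hi, rfl⟩ := Finset.mem_image.1 hx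
    exact hTag i (hA i hi)
  · intro x hx
    obtain ⟨i, hi, rfl⟩ := Finset.mem_image.1 hx
    exact hfin i (hA i hi)
  · intro x hx y hy hxy
    obtain ⟨i, hi, rfl⟩ := Finset.mem_image.1 hx
    obtain ⟨j, hj, rfl⟩ := Finset.mem_image.1 hy
    rw [hinj i (hA i hi) j (hA j hj) hxy]
  · intro x hx
    obtain ⟨i, hi, rfl⟩ := Finset.mem_image.1 hx
    exact hP i (hA i hi)

/-- the same with the full label energy of 244 -/
theorem pvc4_energy {ι : Type*} (σ : V → Bool) (w : D → ℂ) (d : ι → D) (A : Set ι) (hTag : ∀ i ∈ A, T.Tag σ (d i))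
    (hfin : ∀ i ∈ A, {d' | T.SameLab σ (d i) d'}.Finite) (hinj : ∀ i ∈ A, ∀ j ∈ A, T.SameLab σ (d i) (d j) → i = j) :
    ∑' i, A.indicator (fun i => ‖T.lsum σ w (d i)‖ₑ ^ 2) i ≤ T.labEn σ w :=
  (pvc4_energy_on σ w (fun _ => True) d A hTag hfin hinj fun _ _ _ _ => trivial).trans (pvc4_on_true σ w).le

/-! ## 2. two paths inside a set of darts with different heads -/

/-- backwards induction: the last `k` darts agree -/
theorem pvc4_back {S : Set D} (hS : ∀ a ∈ S, ∀ b ∈ S, T.tgt a = T.tgt b → a = b) (g g' : T.Pth) (h : ∀ k, k < g.n → g.e k ∈ S) (h' : ∀ k, k < g'.n → g'.e k ∈ S)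
    (h1 : g.v g.n = g'.v g'.n) : ∀ k, k ≤ g.n → k ≤ g'.n → g.v (g.n - k) = g'.v (g'.n - k) ∧ ∀ j, j < k → g.e (g.n - 1 - j) = g'.e (g'.n - 1 - j) := by
  intro k
  induction k with
  | zero => exact fun _ _ => ⟨h1, fun j hj => absurd hj (Nat.not_lt_zero _)⟩
  | succ k ih =>
    intro hk hk'
    obtain ⟨e1, e2⟩ := ih (by omega) (by omega)
    have ha : g.n - 1 - k < g.n := by omega
    have hb : g'.n - 1 - k < g'.n := by omega
    have e : g.e (g.n - 1 - k) = g'.e (g'.n - 1 - k) := by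
      refine hS _ (h _ ha) _ (h' _ hb) ?_
      rw [g.tgt_e _ ha, g'.tgt_e _ hb, show g.n - 1 - k + 1 = g.n - k by omega, show g'.n - 1 - k + 1 = g'.n - k by omega, e1]
    refine ⟨?_, fun j hj => ?_⟩
    · rw [show g.n - (k + 1) = g.n - 1 - k by omega, show g'.n - (k + 1) = g'.n - 1 - k by omega, ← g.src_e _ ha, ← g'.src_e _ hb, e]
    · rcases Nat.lt_or_ge j k with hlt | hge
      · exact e2 j hlt
      · obtain rfl : j = k := by omega
        exact e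

/-- **two simple paths with the same ends inside a set of darts with pairwise different heads have the same darts** -/
theorem pvc4_lst_eq {S : Set D} (hS : ∀ a ∈ S, ∀ b ∈ S, T.tgt a = T.tgt b → a = b) (g g' : T.Pth) (h : ∀ k, k < g.n → g.e k ∈ S) (h' : ∀ k, k < g'.n → g'.e k ∈ S)
    (h0 : g.v 0 = g'.v 0) (h1 : g.v g.n = g'.v g'.n) : g.lst = g'.lst := by
  have hn : g.n = g'.n := by
    rcases Nat.lt_trichotomy g.n g'.n with hlt | heq | hgt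
    · exfalso
      have e := (pvc4_back hS g g' h h' h1 g.n le_rfl hlt.le).1
      rw [Nat.sub_self, h0] at e
      have := g'.inj 0 (g'.n - g.n) (Nat.zero_le _) (Nat.sub_le _ _) e
      omega
    · exact heq
    · exfalso
      have e := (pvc4_back hS g g' h h' h1 g'.n hgt.le le_rfl).1
      rw [Nat.sub_self, ← h0] at e
      have := g.inj (g.n - g'.n) 0 (Nat.sub_le _ _) (Nat.zero_le _) e
      omega
  have he : ∀ k, k < g.n → g.e k = g'.e k := by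
    intro k hk
    have e := (pvc4_back hS g g' h h' h1 g.n le_rfl hn.le).2 (g.n - 1 - k) (by omega)
    rwa [← hn, show g.n - 1 - (g.n - 1 - k) = k by omega] at e
  unfold PvMap.Pth.lst
  rw [← hn]
  refine List.map_congr_left fun k hk => he k ?_
  have := List.mem_range'_1.1 hk
  omega

/-! ## 3. INJ -/

/-- **INJ (E3)**: `L = g :: L₀`, `L' = g' :: L₀'` are full label classes of one colouring, the heads of the darts of `L` are pairwise different, the two classes are the same, `g` and `g'` have the same ends.   Then `g`, `g'` have the same darts. -/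
theorem pvc4_inj {σ : V → Bool} {g g' : T.Pth} {L₀ L₀' : List T.Pth} (hn : ((pvowDarts (g :: L₀)).map T.tgt).Nodup) (hg : 0 < g.n) (hg' : 0 < g'.n)
    (hc : ∀ d', T.SameLab σ (T.opp (g.e 0)) d' ↔ T.opp d' ∈ pvowDarts (g :: L₀)) (hc' : ∀ d', T.SameLab σ (T.opp (g'.e 0)) d' ↔ T.opp d' ∈ pvowDarts (g' :: L₀'))
    (hlab : T.SameLab σ (T.opp (g.e 0)) (T.opp (g'.e 0))) (h0 : g.v 0 = g'.v 0) (h1 : g.v g.n = g'.v g'.n) : g.lst = g'.lst := by
  have hS : ∀ a ∈ {f | f ∈ pvowDarts (g :: L₀)}, ∀ b ∈ {f | f ∈ pvowDarts (g :: L₀)}, T.tgt a = T.tgt b → a = b :=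
    fun a ha b hb e => List.inj_on_of_nodup_map hn ha hb e
  refine pvc4_lst_eq hS g g' (fun k hk => pvow_mem_darts.2 ⟨g, List.mem_cons_self, k, hk, rfl⟩) (fun k hk => ?_) h0 h1
  have h2 : T.SameLab σ (T.opp (g'.e 0)) (T.opp (g'.e k)) := by
    rw [hc', T.opp_opp]
    exact pvow_mem_darts.2 ⟨g', List.mem_cons_self, k, hk, rfl⟩
  have h3 := (hc _).1 (T.sameLab_trans σ hlab h2)
  rwa [T.opp_opp] at h3

/-- a label class which is listed is finite -/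
theorem pvc4_class_finite {σ : V → Bool} {d : D} {l : List D} (hc : ∀ d', T.SameLab σ d d' ↔ T.opp d' ∈ l) : {d' | T.SameLab σ d d'}.Finite := by
  refine (List.finite_toSet (l.map T.opp)).subset fun d' hd' => ?_
  exact List.mem_map.2 ⟨T.opp d', (hc d').1 hd', T.opp_opp d'⟩

/-- **THE SEAM (no datum)**: a family of rings `g i :: L₀ i` (`i ∈ A`) of ONE colouring, each a full label class with label sum `Z i`; the arcs `g i` have common ends and are distinguished by their darts -/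
theorem pvc4_rings {ι : Type*} (σ : V → Bool) (w : D → ℂ) (P : D → Prop) (A : Set ι) (g : ι → T.Pth) (L₀ : ι → List T.Pth) (Z : ι → ℂ) (hpos : ∀ i ∈ A, 0 < (g i).n)
    (hn : ∀ i ∈ A, ((pvowDarts (g i :: L₀ i)).map T.tgt).Nodup) (hTag : ∀ i ∈ A, T.Tag σ (T.opp ((g i).e 0)))
    (hc : ∀ i ∈ A, ∀ d', T.SameLab σ (T.opp ((g i).e 0)) d' ↔ T.opp d' ∈ pvowDarts (g i :: L₀ i)) (hsum : ∀ i ∈ A, T.lsum σ w (T.opp ((g i).e 0)) = Z i)
    (hend : ∀ i ∈ A, ∀ j ∈ A, (g i).v 0 = (g j).v 0 ∧ (g i).v (g i).n = (g j).v (g j).n) (hι : ∀ i ∈ A, ∀ j ∈ A, (g i).lst = (g j).lst → i = j)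
    (hP : ∀ i ∈ A, ∀ f ∈ pvowDarts (g i :: L₀ i), P (T.opp f)) :
    ∑' i, A.indicator (fun i => ‖Z i‖ₑ ^ 2) i ≤ T.labEnOn σ w P := by
  have e : ∀ i, A.indicator (fun i => ‖Z i‖ₑ ^ 2) i = A.indicator (fun i => ‖T.lsum σ w (T.opp ((g i).e 0))‖ₑ ^ 2) i := by
    intro i
    by_cases hi : i ∈ A
    · rw [indicator_of_mem hi, indicator_of_mem hi, hsum i hi]
    · rw [indicator_of_notMem hi, indicator_of_notMem hi]
  rw [tsum_congr e]
  refine pvc4_energy_on σ w P (fun i => T.opp ((g i).e 0)) A hTag (fun i hi => pvc4_class_finite (hc i hi)) (fun i hi j hj hlab => ?_) fun i hi d' hd' => ?_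
  · exact hι i hi j hj (pvc4_inj (hn i hi) (hpos i hi) (hpos j hj) (hc i hi) (hc j hj) hlab (hend i hi j hj).1 (hend i hi j hj).2)
  · have := hP i hi _ ((hc i hi d').1 hd')
    rwa [T.opp_opp] at this

/-- the seam with a weight `W i ≤ C` (cycle weight `W_c ≤ D_c`) -/
theorem pvc4_rings_w {ι : Type*} (σ : V → Bool) (w : D → ℂ) (P : D → Prop) (A : Set ι) (g : ι → T.Pth) (L₀ : ι → List T.Pth) (Z : ι → ℂ) (hpos : ∀ i ∈ A, 0 < (g i).n)
    (hn : ∀ i ∈ A, ((pvowDarts (g i :: L₀ i)).map T.tgt).Nodup) (hTag : ∀ i ∈ A, T.Tag σ (T.opp ((g i).e 0)))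
    (hc : ∀ i ∈ A, ∀ d', T.SameLab σ (T.opp ((g i).e 0)) d' ↔ T.opp d' ∈ pvowDarts (g i :: L₀ i)) (hsum : ∀ i ∈ A, T.lsum σ w (T.opp ((g i).e 0)) = Z i)
    (hend : ∀ i ∈ A, ∀ j ∈ A, (g i).v 0 = (g j).v 0 ∧ (g i).v (g i).n = (g j).v (g j).n) (hι : ∀ i ∈ A, ∀ j ∈ A, (g i).lst = (g j).lst → i = j)
    (hP : ∀ i ∈ A, ∀ f ∈ pvowDarts (g i :: L₀ i), P (T.opp f)) (W : ι → ℝ≥0∞) (C : ℝ≥0∞) (hW : ∀ i ∈ A, W i ≤ C) :
    ∑' i, A.indicator (fun i => W i * ‖Z i‖ₑ ^ 2) i ≤ C * T.labEnOn σ w P := by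
  refine le_trans ?_ (mul_le_mul_right (pvc4_rings σ w P A g L₀ Z hpos hn hTag hc hsum hend hι hP) C)
  rw [← ENNReal.tsum_mul_left]
  refine ENNReal.tsum_le_tsum fun i => ?_
  by_cases hi : i ∈ A
  · rw [indicator_of_mem hi, indicator_of_mem hi]
    exact mul_le_mul_left (hW i hi) _
  · rw [indicator_of_notMem hi]
    exact zero_le

/-- a listed label class inside `B` -/
theorem pvc4_in_of_list {pos : V → ℂ} {σ : V → Bool} {B : Set ℂ} {d : D} {l : List D} (hc : ∀ d', T.SameLab σ d d' ↔ T.opp d' ∈ l) (hB : ∀ f ∈ l, pos (T.tgt f) ∈ B) :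
    pvc4In T pos σ B d := by
  intro d' hd'
  have := hB _ ((hc d').1 hd')
  rwa [T.tgt_opp] at this

/-- a listed label class with two far heads is big -/
theorem pvc4_big_of_list {pos : V → ℂ} {σ : V → Bool} {a : ℝ} {d : D} {l : List D} (hc : ∀ d', T.SameLab σ d d' ↔ T.opp d' ∈ l) {f f' : D} (hf : f ∈ l) (hf' : f' ∈ l)
    (ha : a ≤ ‖pos (T.tgt f) - pos (T.tgt f')‖) : pvc4Big T pos σ a d :=
  ⟨T.opp f, T.opp f', (hc _).2 (by rwa [T.opp_opp]), (hc _).2 (by rwa [T.opp_opp]), by rwa [T.src_opp', T.src_opp']⟩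

/-! ## 4. THE RING PACKAGE = everything the field `dom` asks of ONE present datum (`PvdeRing` of 37, `Tr/DomE`) -/

/-- the side vectors telescope along a path -/
theorem pvc4_psum_side (pos : V → ℂ) (p : T.Pth) : p.psum (T.side pos) = pos (p.v p.n) - pos (p.v 0) := by
  unfold PvMap.Pth.psum
  have key : ∀ m, m ≤ p.n → ∑ i ∈ Finset.range m, T.side pos (T.opp (p.e i)) = pos (p.v m) - pos (p.v 0) := by
    intro m
    induction m with
    | zero => intro _; simp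
    | succ m ih =>
      intro hm
      rw [Finset.sum_range_succ, ih (by omega)]
      unfold PvMap.side
      rw [T.src_opp', T.tgt_opp, p.tgt_e m (by omega), p.src_e m (by omega)]
      ring
  exact key p.n le_rfl

/-- the side vectors telescope along a chain of paths -/
theorem pvc4_chain_side (pos : V → ℂ) : ∀ (L : List T.Pth) (u v : V), pvowChain T L u v → (L.map fun p => p.psum (T.side pos)).sum = pos v - pos u
  | [], u, v, h => by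
    have e : u = v := h
    simp [e]
  | p :: L, u, v, h => by
    have h' : p.v 0 = u ∧ pvowChain T L (p.v p.n) v := h
    rw [List.map_cons, List.sum_cons, pvc4_chain_side pos L _ _ h'.2, pvc4_psum_side, h'.1]
    ring

/-- **THE RING OF A PRESENT DATUM**: the exit of (C2), ANY ROUTE (faced `NB`, sector `NBsec`, `NBon M`), in the form which `dom` consumes -/
structure PvwDat.Ring (𝔇 : PvwDat T) (pos : V → ℂ) (N : PvwNum) (h : ℝ) (π : PvwPat) (σ : V → Bool) (y : T.Pth) : Prop where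
  arc : 𝔇.YArc pos π σ y
  pos_n : 0 < 𝔇.g.n
  nd : ((pvowDarts [𝔇.g, 𝔇.t.inn, y, 𝔇.s.inn]).map T.tgt).Nodup
  tag : T.Tag σ (T.opp (𝔇.g.e 0))
  cls : ∀ d', T.SameLab σ (T.opp (𝔇.g.e 0)) d' ↔ T.opp d' ∈ pvowDarts [𝔇.g, 𝔇.t.inn, y, 𝔇.s.inn]
  sum : ∀ w : D → ℂ, T.lsum σ w (T.opp (𝔇.g.e 0)) = 𝔇.X pos w N h π + 𝔇.Y pos w N h π σ
  /-- the `V` part dies round the ring -/
  side0 : T.lsum σ (T.side pos) (T.opp (𝔇.g.e 0)) = 0
  rim : ∃ c : T.Cyc, c.IsRim σ ∧ ∀ f, f ∈ pvowDarts [𝔇.g, 𝔇.t.inn, y, 𝔇.s.inn] ↔ ∃ i, f = c.e i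

/-- **the ring from "`g₀` is a piece of the wall of `dm(t)`"** (all routes end here) -/
theorem pvc4_ring_core (hT : T.IsSph) (hS : T.Simple) (𝔇 : PvwDat T) {pos : V → ℂ} {N : PvwNum} {h : ℝ} {π : PvwPat} {σ : V → Bool} (hOk : 𝔇.Ok pos N h π) (hF : 𝔇.Fit pos N h π σ)
    (hσ : σ ∈ 𝔇.Cyl) (hgw : 𝔇.g.OnWall σ 𝔇.t.dm) (hSY : 𝔇.SY pos π σ) : ∃ y, 𝔇.Ring pos N h π σ y := by
  have hex := pvwc_yarc_exists 𝔇 hSY
  obtain ⟨hchain, hnd, hwall, h3⟩ := pvwc_ring hT hS 𝔇 hOk hF hσ hgw hex.choose_spec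
  obtain ⟨r1, r2, r3⟩ := pvwc_C2_core hT hS 𝔇 hOk hF hσ hgw hex.choose_spec
  have hmem : 𝔇.g.e 0 ∈ pvowDarts [𝔇.g, 𝔇.t.inn, hex.choose, 𝔇.s.inn] := pvow_mem_darts.2 ⟨𝔇.g, List.mem_cons_self, 0, hOk.pos_n, rfl⟩
  obtain ⟨c, hc1, hc2⟩ := pvow_ring_cyc hT hchain hnd hwall h3
  refine ⟨hex.choose, hex.choose_spec, hOk.pos_n, hnd, r1, r2, fun w => ?_, ?_, c, hc2, hc1⟩
  · rw [r3 w]
    unfold PvwDat.Y
    rw [dif_pos hex]
  · rw [(pvow_ring hT hS hchain hnd hwall hmem).2.2 (T.side pos), pvc4_chain_side pos _ _ _ hchain, sub_self]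

/-- INJ for two rings of ONE colouring: a common label + the same gate edges ⟹ the same darts of `g₀` -/
theorem pvc4_ring_inj {𝔇 𝔇' : PvwDat T} {pos : V → ℂ} {N : PvwNum} {h : ℝ} {π π' : PvwPat} {σ : V → Bool} {y y' : T.Pth} (hR : 𝔇.Ring pos N h π σ y) (hR' : 𝔇'.Ring pos N h π' σ y')
    (h0 : 𝔇.g.v 0 = 𝔇'.g.v 0) (h1 : 𝔇.g.v 𝔇.g.n = 𝔇'.g.v 𝔇'.g.n) (hlab : T.SameLab σ (T.opp (𝔇.g.e 0)) (T.opp (𝔇'.g.e 0))) : 𝔇.g.lst = 𝔇'.g.lst :=
  pvc4_inj hR.nd hR.pos_n hR'.pos_n hR.cls hR'.cls hlab h0 h1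

/-- **`hΘ` FOR ANY FAMILY OF EVENTS** `E i` on which the data have rings (`E i = Cyl ∩ NBon (M i) ∩ W i ∩ SY` at the model) -/
theorem pvc4_theta_ev {ι : Type*} (𝔇 : ι → PvwDat T) {pos : V → ℂ} {N : PvwNum} {h : ℝ} {π : ι → PvwPat} (w : D → ℂ) (P : D → Prop) (σ : V → Bool) (E : ι → Set (V → Bool))
    (hR : ∀ i, σ ∈ E i → ∃ y, (𝔇 i).Ring pos N h (π i) σ y ∧ ∀ f ∈ pvowDarts [(𝔇 i).g, (𝔇 i).t.inn, y, (𝔇 i).s.inn], P (T.opp f))
    (hend : ∀ i j, σ ∈ E i → σ ∈ E j → (𝔇 i).g.v 0 = (𝔇 j).g.v 0 ∧ (𝔇 i).g.v (𝔇 i).g.n = (𝔇 j).g.v (𝔇 j).g.n)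
    (hι : ∀ i j, σ ∈ E i → σ ∈ E j → (𝔇 i).g.lst = (𝔇 j).g.lst → i = j) :
    ∑' i, (E i).indicator (fun σ => ‖(𝔇 i).X pos w N h (π i) + (𝔇 i).Y pos w N h (π i) σ‖ₑ ^ 2) σ ≤ T.labEnOn σ w P := by
  classical
  set y : ι → T.Pth := fun i => if hi : σ ∈ E i then (hR i hi).choose else (𝔇 i).g with hy
  have hyA : ∀ i (hi : σ ∈ E i), (𝔇 i).Ring pos N h (π i) σ (y i) ∧ ∀ f ∈ pvowDarts [(𝔇 i).g, (𝔇 i).t.inn, y i, (𝔇 i).s.inn], P (T.opp f) := by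
    intro i hi
    simp only [hy]
    rw [dif_pos hi]
    exact (hR i hi).choose_spec
  have e : ∀ i, (E i).indicator (fun σ => ‖(𝔇 i).X pos w N h (π i) + (𝔇 i).Y pos w N h (π i) σ‖ₑ ^ 2) σ
        = {i | σ ∈ E i}.indicator (fun i => ‖(𝔇 i).X pos w N h (π i) + (𝔇 i).Y pos w N h (π i) σ‖ₑ ^ 2) i := by
    intro i
    by_cases hi : σ ∈ E i
    · rw [indicator_of_mem hi, indicator_of_mem (show i ∈ {i | σ ∈ E i} from hi)]
    · rw [indicator_of_notMem hi, indicator_of_notMem (show i ∉ {i | σ ∈ E i} from hi)]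
  rw [tsum_congr e]
  exact pvc4_rings σ w P {i | σ ∈ E i} (fun i => (𝔇 i).g) (fun i => [(𝔇 i).t.inn, y i, (𝔇 i).s.inn]) (fun i => (𝔇 i).X pos w N h (π i) + (𝔇 i).Y pos w N h (π i) σ)
    (fun i hi => (hyA i hi).1.pos_n) (fun i hi => (hyA i hi).1.nd) (fun i hi => (hyA i hi).1.tag) (fun i hi => (hyA i hi).1.cls) (fun i hi => (hyA i hi).1.sum w)
    (fun i hi j hj => hend i j hi hj) (fun i hi j hj => hι i j hi hj) fun i hi => (hyA i hi).2

/-- **`hΘ` WITH THE CLOSED SUM of P1.8**: the rings lie over `B` and have two heads at distance `≥ a` -/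
theorem pvc4_theta_ev_cl {ι : Type*} (𝔇 : ι → PvwDat T) {pos : V → ℂ} {N : PvwNum} {h : ℝ} {π : ι → PvwPat} (w : D → ℂ) (B : Set ℂ) (a : ℝ) (σ : V → Bool) (E : ι → Set (V → Bool))
    (hR : ∀ i, σ ∈ E i → ∃ y, (𝔇 i).Ring pos N h (π i) σ y ∧ (∀ f ∈ pvowDarts [(𝔇 i).g, (𝔇 i).t.inn, y, (𝔇 i).s.inn], pos (T.tgt f) ∈ B) ∧
      ∃ f f', f ∈ pvowDarts [(𝔇 i).g, (𝔇 i).t.inn, y, (𝔇 i).s.inn] ∧ f' ∈ pvowDarts [(𝔇 i).g, (𝔇 i).t.inn, y, (𝔇 i).s.inn] ∧ a ≤ ‖pos (T.tgt f) - pos (T.tgt f')‖)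
    (hend : ∀ i j, σ ∈ E i → σ ∈ E j → (𝔇 i).g.v 0 = (𝔇 j).g.v 0 ∧ (𝔇 i).g.v (𝔇 i).g.n = (𝔇 j).g.v (𝔇 j).g.n)
    (hι : ∀ i j, σ ∈ E i → σ ∈ E j → (𝔇 i).g.lst = (𝔇 j).g.lst → i = j) :
    ∑' i, (E i).indicator (fun σ => ‖(𝔇 i).X pos w N h (π i) + (𝔇 i).Y pos w N h (π i) σ‖ₑ ^ 2) σ ≤ pvc4Sum T pos σ w B a := by
  refine pvc4_theta_ev 𝔇 w _ σ E (fun i hi => ?_) hend hι
  obtain ⟨y, hy, hB, f₁, f₂, h1, h2, h3⟩ := hR i hi
  refine ⟨y, hy, fun f hf => ?_⟩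
  have hlab : T.SameLab σ (T.opp ((𝔇 i).g.e 0)) (T.opp f) := (hy.cls _).2 (by rwa [T.opp_opp])
  exact ⟨pvc4_in_congr hlab (pvc4_in_of_list hy.cls hB), pvc4_big_congr hlab (pvc4_big_of_list hy.cls h1 h2 h3)⟩

/-! ## 5. `E(D)` AT THE MODEL: the sector form restricted to a set `M` of sites (145) -/

/-- **`NBon M`**: no black path through sites of `M` which leaves `g₀` into its right side and comes back to `g₀` at another vertex.      `M` finite at the model (off `YCL`, off the collar of the annealed lanes, inside the patch).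
WHY THE SECTOR FORM: the faced form cannot be cut to a patch (a black arc `g_i → g_j` round the shield, inside the patch, is compatible with white paths from the right apexes to the boundary of the patch and with a white circuit); here such an arc IS a bypass. -/
def PvwDat.NBon (𝔇 : PvwDat T) (M : Set V) (σ : V → Bool) : Prop :=
  ¬ ∃ (i j : ℕ) (q : T.Pth), i ≤ 𝔇.g.n ∧ j ≤ 𝔇.g.n ∧ i ≠ j ∧ 0 < q.n ∧ q.v 0 = 𝔇.g.v i ∧ q.v q.n = 𝔇.g.v j ∧ 𝔇.RSec i (q.e 0) ∧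
    ∀ x ∈ q.inner, σ x = true ∧ x ∉ 𝔇.g.verts ∧ x ∈ M

theorem pvc4_nbon_cite : True := by
  have := @PvwDat.NBon.eq_1
  trivial

theorem pvc4_nbon_sec (𝔇 : PvwDat T) (pos : V → ℂ) (π : PvwPat) (σ : V → Bool) : 𝔇.NBsec pos π σ ↔ 𝔇.NBon (𝔇.YCL pos π)ᶜ σ := Iff.rfl

/-- fewer sites, weaker event: (C1) for `NBon M` is free -/
theorem pvc4_nbon_mono (𝔇 : PvwDat T) {M M' : Set V} (h : M ⊆ M') {σ : V → Bool} (hnb : 𝔇.NBon M' σ) : 𝔇.NBon M σ := by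
  rintro ⟨i, j, q, hi, hj, hij, hq, h0, h1, hs, hx⟩
  exact hnb ⟨i, j, q, hi, hj, hij, hq, h0, h1, hs, fun x hxq => ⟨(hx x hxq).1, (hx x hxq).2.1, h (hx x hxq).2.2⟩⟩

/-- (C3): DECREASING in black, and the event reads the sites of `M` off `g₀` only -/
theorem pvc4_nbon_anti (𝔇 : PvwDat T) {M : Set V} {σ σ' : V → Bool} (hle : ∀ v ∈ M, v ∉ 𝔇.g.verts → σ' v = true → σ v = true) (hnb : 𝔇.NBon M σ) : 𝔇.NBon M σ' := by
  rintro ⟨i, j, q, hi, hj, hij, hq, h0, h1, hs, hx⟩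
  exact hnb ⟨i, j, q, hi, hj, hij, hq, h0, h1, hs, fun x hxq => ⟨hle x (hx x hxq).2.2 (hx x hxq).2.1 (hx x hxq).1, (hx x hxq).2.1, (hx x hxq).2.2⟩⟩

theorem pvc4_nbon_congr (𝔇 : PvwDat T) {M : Set V} {σ σ' : V → Bool} (h : ∀ v ∈ M, v ∉ 𝔇.g.verts → σ' v = σ v) : 𝔇.NBon M σ' ↔ 𝔇.NBon M σ :=
  ⟨pvc4_nbon_anti 𝔇 fun v hv hg hb => by rw [h v hv hg]; exact hb, pvc4_nbon_anti 𝔇 fun v hv hg hb => by rw [← h v hv hg]; exact hb⟩

/-- (C1) for `NBon M`, `M` off `YCL` -/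
theorem pvc4_nbon_of_sec (𝔇 : PvwDat T) {pos : V → ℂ} {π : PvwPat} {M : Set V} (hM : ∀ v ∈ M, v ∉ 𝔇.YCL pos π) {σ : V → Bool} (hnb : 𝔇.NBsec pos π σ) : 𝔇.NBon M σ :=
  pvc4_nbon_mono 𝔇 (M' := (𝔇.YCL pos π)ᶜ) hM hnb

/-- (C1) for `NBon M`: an actual datum has no bypass through sites off `YCL` -/
theorem pvc4_C1on (hT : T.IsSph) (𝔇 : PvwDat T) {pos : V → ℂ} {N : PvwNum} {h : ℝ} {π : PvwPat} {σ : V → Bool} {c : T.Cyc} {j : ℕ} (hA : 𝔇.Actual pos N h π σ c j)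
    (hs : 0 < 𝔇.s.inn.n) (ht : 0 < 𝔇.t.inn.n) {M : Set V} (hM : ∀ v ∈ M, v ∉ 𝔇.YCL pos π) : 𝔇.NBon M σ :=
  pvc4_nbon_of_sec 𝔇 hM (pvwc_C1sec hT 𝔇 hA hs ht)

/-- (C1) for `E(D)` of record at the model, `M = NU ∩ patch` -/
theorem pvc4_C1nu (hT : T.IsSph) (𝔇 : PvwDat T) {pos : V → ℂ} {N : PvwNum} {h : ℝ} {π : PvwPat} {σ : V → Bool} {c : T.Cyc} {j : ℕ} (hA : 𝔇.Actual pos N h π σ c j)
    (hs : 0 < 𝔇.s.inn.n) (ht : 0 < 𝔇.t.inn.n) (P : Set V) : 𝔇.NBon (𝔇.NU pos π ∩ P) σ :=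
  pvc4_C1on hT 𝔇 hA hs ht fun _ hv => pvwk_nu_ycl hv.1

/-- `NBU pos π U` of 22 (`Tr/LocalW`) IS `NBon {x | x ∉ YCL ∧ x ∈ U}` by `Iff.rfl`;  for `U = NU ∩ P` the clause `x ∉ YCL` is void -/
theorem pvc4_nbon_nu (𝔇 : PvwDat T) (pos : V → ℂ) (π : PvwPat) (P : Set V) (σ : V → Bool) :
    𝔇.NBon {x | x ∉ 𝔇.YCL pos π ∧ x ∈ 𝔇.NU pos π ∩ P} σ ↔ 𝔇.NBon (𝔇.NU pos π ∩ P) σ := by
  have e : {x | x ∉ 𝔇.YCL pos π ∧ x ∈ 𝔇.NU pos π ∩ P} = 𝔇.NU pos π ∩ P := by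
    ext x
    exact ⟨fun hx => hx.2, fun hx => ⟨pvwk_nu_ycl hx.1, hx⟩⟩
  rw [e]

/-- the BEADS of the cell `Z = g₀ · q` lie in `M`: every black cluster (off `Z`) which hangs on `g₀` inside the cell -/
def PvwDat.Beads (𝔇 : PvwDat T) (σ : V → Bool) (q : T.Pth) (hg : 𝔇.g.Glue q) (M : Set V) : Prop :=
  ∀ k, k ≤ 𝔇.g.n → ∀ d, PvswSp σ (𝔇.g.glue q hg) k d → T.tgt d ∉ (𝔇.g.glue q hg).verts → ∀ v, pvswBJ σ (𝔇.g.glue q hg) (T.tgt d) v → v ∈ M

theorem pvc4_beads_cite : True := by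
  have := @PvwDat.Beads.eq_1
  trivial

/-- **`NBon M` + BEADS IN `M` ⟹ no bypass inside the cell**, for ONE shield `q`      (`pvsw_d_nb` of 225 / `pvwc_nb` of 194 with `M`) -/
theorem pvc4_nb_on (𝔇 : PvwDat T) {σ : V → Bool} (q : T.Pth) (hg : 𝔇.g.Glue q) (hw : ∀ x ∈ q.inner, σ x = false)
    (hsec : ∀ k, k ≤ 𝔇.g.n → ∀ d, PvswSp σ (𝔇.g.glue q hg) k d → 𝔇.RSec k d) {M : Set V} (hbead : 𝔇.Beads σ q hg M) (hnb : 𝔇.NBon M σ) :
    PvswNB σ (𝔇.g.glue q hg) 𝔇.g.n := by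
  intro k hk d hd
  have hs := hsec k hk d hd
  have hsrc : T.src d = 𝔇.g.v k := by rw [hd.1, pl_pth_glue_src1 𝔇.g q hg hk]
  have hgZ : ∀ x, x ∈ 𝔇.g.verts → x ∈ (𝔇.g.glue q hg).verts := fun x hx => by rw [pl_pth_glue_verts]; exact Or.inl hx
  have hoff : T.tgt d ∉ (𝔇.g.glue q hg).verts := by
    intro hv
    obtain ⟨l, hl, e⟩ : ∃ l, l ≤ 𝔇.g.n ∧ T.tgt d = 𝔇.g.v l := by
      rw [pl_pth_glue_verts, pl_pth_verts_eq q] at hv
      rcases hv with ⟨l, hl, e⟩ | (e | e) | hi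
      · exact ⟨l, hl, e.symm⟩
      · exact ⟨𝔇.g.n, le_rfl, e.trans hg.h1.symm⟩
      · exact ⟨0, Nat.zero_le _, (show T.tgt d = q.v q.n from e).trans hg.h2⟩
      · exact absurd ((hw _ hi).symm.trans hd.2.2.2) Bool.false_ne_true
    have hnil : T.tgt d ∉ (PvMap.Pth.nil T (T.src d) d).verts := by
      rintro ⟨i, -, hi⟩
      exact T.tgt_ne_src d hi.symm
    refine hnb ⟨k, l, (PvMap.Pth.nil T (T.src d) d).snoc d rfl hnil, hk, hl, ?_, Nat.succ_pos _, hsrc, e, hs, ?_⟩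
    · rintro rfl
      exact T.tgt_ne_src d (e.trans hsrc.symm)
    · rintro x ⟨i, hi0, hi1, -⟩
      have hi2 : i < 0 + 1 := hi1
      omega
  refine ⟨hoff, fun v hv l hl hadj => ?_⟩
  by_contra hlk
  have hsX : T.src d ∉ {x | σ x = true ∧ x ∉ (𝔇.g.glue q hg).verts ∧ pvswBJ σ (𝔇.g.glue q hg) (T.tgt d) x} := fun hc => hc.2.1 (by rw [hd.1]; exact ⟨k, rfl⟩)
  have hchain : ∀ v, pvswBJ σ (𝔇.g.glue q hg) (T.tgt d) v →
      Relation.ReflTransGen (fun a b => T.Adj a b ∧ b ∈ {x | σ x = true ∧ x ∉ (𝔇.g.glue q hg).verts ∧ pvswBJ σ (𝔇.g.glue q hg) (T.tgt d) x}) (T.tgt d) v := by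
    intro v hv
    induction hv with
    | refl => exact Relation.ReflTransGen.refl
    | @tail b c hab hbc ih => exact Relation.ReflTransGen.tail ih ⟨hbc.1, hbc.2.1, hbc.2.2, Relation.ReflTransGen.tail hab hbc⟩
  obtain ⟨p, pn, p0, pe, p1, pX⟩ := pvsw_pth_from d (X := {x | σ x = true ∧ x ∉ (𝔇.g.glue q hg).verts ∧ pvswBJ σ (𝔇.g.glue q hg) (T.tgt d) x})
    ⟨hd.2.2.2, hoff, Relation.ReflTransGen.refl⟩ hsX (hchain v hv)
  obtain ⟨f, hfs, hft⟩ := hadj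
  rw [pl_pth_glue_src1 𝔇.g q hg hl] at hft
  have hnew : T.tgt f ∉ p.verts := by
    rintro ⟨i, hi, hiv⟩
    rcases Nat.eq_zero_or_pos i with rfl | hi0
    · rw [p0, hsrc, hft] at hiv
      exact hlk (𝔇.g.inj k l hk hl hiv).symm
    · exact (pX i hi0 hi).2.1 (by rw [hiv, hft]; exact hgZ _ ⟨l, hl, rfl⟩)
  refine hnb ⟨k, l, p.snoc f (by rw [hfs, p1]) hnew, hk, hl, fun e => hlk e.symm, Nat.succ_pos _, ?_, ?_, ?_, ?_⟩
  · show (if 0 ≤ p.n then p.v 0 else T.tgt f) = _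
    rw [if_pos (Nat.zero_le _), p0, hsrc]
  · show (if p.n + 1 ≤ p.n then p.v (p.n + 1) else T.tgt f) = _
    rw [if_neg (by omega), hft]
  · show 𝔇.RSec k (if 0 < p.n then p.e 0 else f)
    rw [if_pos pn, pe]; exact hs
  · rintro x ⟨i, hi0, hi1, rfl⟩
    have hi2 : i < p.n + 1 := hi1
    show (σ (if i ≤ p.n then p.v i else T.tgt f) = true) ∧ (if i ≤ p.n then p.v i else T.tgt f) ∉ 𝔇.g.verts ∧ (if i ≤ p.n then p.v i else T.tgt f) ∈ M
    rw [if_pos (by omega)]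
    have hx := pX i hi0 (by omega)
    exact ⟨hx.1, fun hc => hx.2.1 (hgZ _ hc), hbead k hk d hd hoff _ hx.2.2⟩

/-- BEADS from a REGION: a set of sites which contains `g₀`, is closed under black neighbours, and whose part inside the open cell lies in `M` -/
theorem pvc4_bead_region (hT : T.IsSph) (𝔇 : PvwDat T) {σ : V → Bool} (q : T.Pth) (hg : 𝔇.g.Glue q) {M Rg : Set V} (h1 : ∀ v ∈ 𝔇.g.verts, v ∈ Rg)
    (h2 : ∀ u ∈ Rg, ∀ v, T.Adj u v → σ v = true → v ∈ Rg) (h3 : ∀ v ∈ Rg, v ∈ T.Int (𝔇.g.glue q hg).Right → v ∈ M) : 𝔇.Beads σ q hg M := by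
  intro k hk d hd hoff v hv
  have hint := (pvsw_sp_head hT hd).resolve_left hoff
  refine h3 v ?_ (pvsw_bj_int hT hint hv)
  have h0 : T.tgt d ∈ Rg := by
    refine h2 (T.src d) (h1 _ ?_) _ ⟨d, rfl, rfl⟩ hd.2.2.2
    rw [hd.1, pl_pth_glue_src1 𝔇.g q hg hk]
    exact ⟨k, hk, rfl⟩
  induction hv with
  | refl => exact h0
  | @tail b c _ hbc ih => exact h2 b ih c hbc.1 hbc.2.1

/-- the inside of a WHITE circuit is closed under black neighbours -/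
theorem pvc4_circuit_closed (hT : T.IsSph) {σ : V → Bool} (C : T.Cyc) (hC : ∀ v ∈ C.verts, σ v = false) : ∀ u ∈ T.Int C.Left, ∀ v, T.Adj u v → σ v = true → v ∈ T.Int C.Left := by
  intro u hu v hadj hv
  refine pl_jordan_sep hT C hu (Relation.ReflTransGen.single ⟨hadj, fun hc => ?_⟩)
  rw [hC v hc] at hv
  exact Bool.false_ne_true hv

/-- BEADS from a WHITE CIRCUIT round `g₀` (E6, G3 of the referee report): only the sites inside the circuit have to be in `M` -/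
theorem pvc4_bead_circuit (hT : T.IsSph) (𝔇 : PvwDat T) {σ : V → Bool} (q : T.Pth) (hg : 𝔇.g.Glue q) {M : Set V} (C : T.Cyc) (hC : ∀ v ∈ C.verts, σ v = false)
    (h1 : ∀ v ∈ 𝔇.g.verts, v ∈ T.Int C.Left) (h3 : ∀ v ∈ T.Int C.Left, v ∈ T.Int (𝔇.g.glue q hg).Right → v ∈ M) : 𝔇.Beads σ q hg M :=
  pvc4_bead_region hT 𝔇 q hg h1 (pvc4_circuit_closed hT C hC) h3

/-- the wall of a position inside a white circuit with a finite inside is finite -/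
theorem pvc4_wall_finite {σ : V → Bool} (C : T.Cyc) (hC : ∀ v ∈ C.verts, σ v = false) (hfin : C.Left.Finite) {a : D} (ha : a ∈ C.Left) : {d | T.Wall σ a d}.Finite := by
  refine hfin.subset fun d hd => pvsw_wall_in_circuit C (fun i ho => ho ?_) ha hd
  rw [hC _ ⟨i, rfl⟩, C.chain i, hC _ ⟨i + 1, rfl⟩]

/-- how to show that a site is NOT in the open cell (sites over the collar `Ycol`, sites of `YCL`): it is joined off the cycle to a site strictly on the left -/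
theorem pvc4_off_right (hT : T.IsSph) (Z : T.Cyc) {u v : V} (hu : u ∈ T.Int Z.Left) (hj : Relation.ReflTransGen (fun a b => T.Adj a b ∧ b ∉ Z.verts) u v) : v ∉ T.Int Z.Right :=
  fun hv => Set.disjoint_left.1 (pl_jordan_vert_disj hT Z).2.2 (pl_jordan_sep hT Z hu hj) hv

/-- the same for a set `K` of sites off the cycle which is connected (inside `K`) to a site strictly on the left -/
theorem pvc4_set_off_right (hT : T.IsSph) (Z : T.Cyc) {K : Set V} (hK : ∀ v ∈ K, v ∉ Z.verts) {u : V} (hu : u ∈ T.Int Z.Left)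
    (hj : ∀ v ∈ K, Relation.ReflTransGen (fun a b => T.Adj a b ∧ b ∈ K) u v) : ∀ v ∈ T.Int Z.Right, v ∉ K :=
  fun v hv hvK => pvc4_off_right hT Z hu (Relation.ReflTransGen.mono (fun _ b hab => ⟨hab.1, hK b hab.2⟩) _ _ (hj v hvK)) hv

/-! ## 6. (C2) AT THE MODEL -/

/-- the gate of `s` is read by every colouring of the cylinder -/
theorem pvc4_inner_s (hT : T.IsSph) (𝔇 : PvwDat T) {pos : V → ℂ} {N : PvwNum} {h : ℝ} {π : PvwPat} {σ : V → Bool} (hOk : 𝔇.Ok pos N h π) (hσ : σ ∈ 𝔇.Cyl) : 𝔇.s.Inner σ :=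
  pvwc_inner_of_gate hT hOk.st_s.gate fun v hv => hσ.1 v (Or.inr (Or.inl (Or.inl hv)))

/-- the gate of `t` is read by every colouring of the cylinder -/
theorem pvc4_inner_t (hT : T.IsSph) (𝔇 : PvwDat T) {pos : V → ℂ} {N : PvwNum} {h : ℝ} {π : PvwPat} {σ : V → Bool} (hOk : 𝔇.Ok pos N h π) (hσ : σ ∈ 𝔇.Cyl) : 𝔇.t.Inner σ :=
  pvwc_inner_of_gate hT hOk.st_t.gate fun v hv => hσ.1 v (Or.inl (Or.inl (Or.inl hv)))

/-- **(C2) for `NBon M`, ONE CHOSEN SHIELD**: the `g₀` part -/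
theorem pvc4_onwall_on (hT : T.IsSph) (hS : T.Simple) (𝔇 : PvwDat T) {pos : V → ℂ} {N : PvwNum} {h : ℝ} {π : PvwPat} {σ : V → Bool} (hOk : 𝔇.Ok pos N h π) (hF' : 𝔇.FitSec σ)
    (hσ : σ ∈ 𝔇.Cyl) {q : T.Pth} (hq : 𝔇.IsShield pos π σ q) (hg : 𝔇.g.Glue q) {M : Set V} (hbead : 𝔇.Beads σ q hg M) (hNB : 𝔇.NBon M σ) : 𝔇.g.OnWall σ 𝔇.t.dm := by
  have hIs := pvc4_inner_s hT 𝔇 hOk hσ
  have hIt := pvc4_inner_t hT 𝔇 hOk hσ
  have hb : ∀ i, i ≤ 𝔇.g.n → σ (𝔇.g.v i) = true := fun i hi => hσ.2.1 _ ⟨i, hi, rfl⟩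
  have hnb := pvc4_nb_on 𝔇 q hg (fun x hx => (hq.inn hx).1) (fun k hk d hd => pvwc_sp_rsec hT hS 𝔇 hIs hIt hOk.g0 hOk.g1 hOk.pos_n hF'.far_s hF'.far_t hq hg hk hd) hbead hNB
  have := pvwc_piece hT 𝔇.g q hg hb (fun x hx => (hq.inn hx).1) hq.two (by rw [hq.lst, T.opp_opp]; exact hF'.fin) hnb
  rwa [hq.fst] at this

/-- **(C2) AT THE MODEL** for a given arc `y`: `Cyl(D)`, `NBon M`, one shield whose cell has its beads in `M`, finite wall -/
theorem pvc4_C2on (hT : T.IsSph) (hS : T.Simple) (𝔇 : PvwDat T) {pos : V → ℂ} {N : PvwNum} {h : ℝ} {π : PvwPat} {σ : V → Bool} (hOk : 𝔇.Ok pos N h π) (hF : 𝔇.Fit pos N h π σ) (hF' : 𝔇.FitSec σ)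
    (hσ : σ ∈ 𝔇.Cyl) {q : T.Pth} (hq : 𝔇.IsShield pos π σ q) (hg : 𝔇.g.Glue q) {M : Set V} (hbead : 𝔇.Beads σ q hg M) (hNB : 𝔇.NBon M σ) {y : T.Pth} (hy : 𝔇.YArc pos π σ y) :
    T.Tag σ (T.opp (𝔇.g.e 0)) ∧ (∀ d', T.SameLab σ (T.opp (𝔇.g.e 0)) d' ↔ T.opp d' ∈ pvowDarts [𝔇.g, 𝔇.t.inn, y, 𝔇.s.inn]) ∧
      ∀ w : D → ℂ, T.lsum σ w (T.opp (𝔇.g.e 0)) = 𝔇.X pos w N h π + 𝔇.Yof pos w N h π y :=
  pvwc_C2_core hT hS 𝔇 hOk hF hσ (pvc4_onwall_on hT hS 𝔇 hOk hF' hσ hq hg hbead hNB) hy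

/-- the `g₀` part with `WO` and a WHITE CIRCUIT round `g₀` (`W = WO ∩ {white circuit}` of E6): no finiteness hypothesis, no `FitSec` is left -/
theorem pvc4_onwall_circuit (hT : T.IsSph) (hS : T.Simple) (𝔇 : PvwDat T) {pos : V → ℂ} {N : PvwNum} {h : ℝ} {π : PvwPat} {σ : V → Bool} (hOk : 𝔇.Ok pos N h π)
    (hs : 𝔇.s.gp ∉ 𝔇.t.ins) (ht : 𝔇.t.gm ∉ 𝔇.s.ins) (hσ : σ ∈ 𝔇.Cyl) (hWO : 𝔇.WO pos π σ) (C : T.Cyc) (hC : ∀ v ∈ C.verts, σ v = false) (hCf : C.Left.Finite)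
    (hCg : ∀ v ∈ 𝔇.g.verts, v ∈ T.Int C.Left) {M : Set V}
    (hM : ∀ (q : T.Pth) (hg : 𝔇.g.Glue q), 𝔇.IsShield pos π σ q → ∀ v ∈ T.Int C.Left, v ∈ T.Int (𝔇.g.glue q hg).Right → v ∈ M) (hNB : 𝔇.NBon M σ) : 𝔇.g.OnWall σ 𝔇.t.dm := by
  obtain ⟨q, hq, hg⟩ := pvwc_shield hT 𝔇 hOk hσ hWO
  have hCd : 𝔇.s.dp ∈ C.Left := hCg _ (pl_pth_fst_mem _) 𝔇.s.dp hOk.g0.symm
  obtain ⟨f1, f2⟩ := pvwf_far 𝔇 hOk hs ht
  exact pvc4_onwall_on hT hS 𝔇 hOk ⟨pvc4_wall_finite C hC hCf hCd, f1, f2⟩ hσ hq hg (pvc4_bead_circuit hT 𝔇 q hg C hC hCg (hM q hg hq)) hNB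

/-- **(C2) AT THE MODEL, with `WO` and a WHITE CIRCUIT**: `M` contains the sites inside the circuit which lie in the open cell of EVERY shield (`hM`) -/
theorem pvc4_C2on_circuit (hT : T.IsSph) (hS : T.Simple) (𝔇 : PvwDat T) {pos : V → ℂ} {N : PvwNum} {h : ℝ} {π : PvwPat} {σ : V → Bool} (hOk : 𝔇.Ok pos N h π) (hF : 𝔇.Fit pos N h π σ)
    (hσ : σ ∈ 𝔇.Cyl) (hWO : 𝔇.WO pos π σ) (C : T.Cyc) (hC : ∀ v ∈ C.verts, σ v = false) (hCf : C.Left.Finite)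
    (hCg : ∀ v ∈ 𝔇.g.verts, v ∈ T.Int C.Left) {M : Set V}
    (hM : ∀ (q : T.Pth) (hg : 𝔇.g.Glue q), 𝔇.IsShield pos π σ q → ∀ v ∈ T.Int C.Left, v ∈ T.Int (𝔇.g.glue q hg).Right → v ∈ M) (hNB : 𝔇.NBon M σ) {y : T.Pth} (hy : 𝔇.YArc pos π σ y) :
    T.Tag σ (T.opp (𝔇.g.e 0)) ∧ (∀ d', T.SameLab σ (T.opp (𝔇.g.e 0)) d' ↔ T.opp d' ∈ pvowDarts [𝔇.g, 𝔇.t.inn, y, 𝔇.s.inn]) ∧
      ∀ w : D → ℂ, T.lsum σ w (T.opp (𝔇.g.e 0)) = 𝔇.X pos w N h π + 𝔇.Yof pos w N h π y :=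
  pvwc_C2_core hT hS 𝔇 hOk hF hσ (pvc4_onwall_circuit hT hS 𝔇 hOk hF.sep_s hF.sep_t hσ hWO C hC hCf hCg hM hNB) hy

/-- **THE RING AT THE MODEL** (ruling W-5 of 208): `Cyl(D) ∩ NBon M ∩ WO ∩ {white circuit} ∩ SY` -/
theorem pvc4_ring_circuit (hT : T.IsSph) (hS : T.Simple) (𝔇 : PvwDat T) {pos : V → ℂ} {N : PvwNum} {h : ℝ} {π : PvwPat} {σ : V → Bool} (hOk : 𝔇.Ok pos N h π) (hF : 𝔇.Fit pos N h π σ)
    (hσ : σ ∈ 𝔇.Cyl) (hWO : 𝔇.WO pos π σ) (C : T.Cyc) (hC : ∀ v ∈ C.verts, σ v = false) (hCf : C.Left.Finite) (hCg : ∀ v ∈ 𝔇.g.verts, v ∈ T.Int C.Left) {M : Set V}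
    (hM : ∀ (q : T.Pth) (hg : 𝔇.g.Glue q), 𝔇.IsShield pos π σ q → ∀ v ∈ T.Int C.Left, v ∈ T.Int (𝔇.g.glue q hg).Right → v ∈ M) (hNB : 𝔇.NBon M σ) (hSY : 𝔇.SY pos π σ) :
    ∃ y, 𝔇.Ring pos N h π σ y :=
  pvc4_ring_core hT hS 𝔇 hOk hF hσ (pvc4_onwall_circuit hT hS 𝔇 hOk hF.sep_s hF.sep_t hσ hWO C hC hCf hCg hM hNB) hSY

/-- **THE RING AT THE MODEL, `M = NU ∩ patch`**: `hG1` = G1' of 227 (no site off `NU` in the open cell of a shield), `hP` = the inside of the white circuit lies in the patch `P` -/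
theorem pvc4_ring_nu (hT : T.IsSph) (hS : T.Simple) (𝔇 : PvwDat T) {pos : V → ℂ} {N : PvwNum} {h : ℝ} {π : PvwPat} {σ : V → Bool} (hOk : 𝔇.Ok pos N h π) (hF : 𝔇.Fit pos N h π σ)
    (hσ : σ ∈ 𝔇.Cyl) (hWO : 𝔇.WO pos π σ) (C : T.Cyc) (hC : ∀ v ∈ C.verts, σ v = false) (hCf : C.Left.Finite) (hCg : ∀ v ∈ 𝔇.g.verts, v ∈ T.Int C.Left) {P : Set V}
    (hP : ∀ v ∈ T.Int C.Left, v ∈ P) (hG1 : ∀ (q : T.Pth) (hg : 𝔇.g.Glue q), 𝔇.IsShield pos π σ q → ∀ v ∈ T.Int (𝔇.g.glue q hg).Right, v ∈ 𝔇.NU pos π)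
    (hNB : 𝔇.NBon (𝔇.NU pos π ∩ P) σ) (hSY : 𝔇.SY pos π σ) : ∃ y, 𝔇.Ring pos N h π σ y :=
  pvc4_ring_circuit hT hS 𝔇 hOk hF hσ hWO C hC hCf hCg (M := 𝔇.NU pos π ∩ P) (fun q hg hq v hv hv' => ⟨hG1 q hg hq v hv', hP v hv⟩) hNB hSY

/-- **(C2) AT THE MODEL, FORM OF RECORD**: the colour-free hypotheses `Ok`, `Geo` (⟹ `Fit`: `pvwf_fit`), `Col` (⟹ G1': `pvwc_G1nu`) of 194, and the five events
`Cyl(D)`, `WO(D)`, {white circuit round `g₀` inside the patch `P`}, `E(D) = NBon (NU ∩ P)`, `SY(D_Y)` -/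
theorem pvc4_ring_model (hT : T.IsSph) (hS : T.Simple) (𝔇 : PvwDat T) {pos : V → ℂ} {N : PvwNum} {h : ℝ} {π : PvwPat} {σ : V → Bool} (hOk : 𝔇.Ok pos N h π) (hG : 𝔇.Geo pos N h π)
    (hcol : 𝔇.Col pos π) (hσ : σ ∈ 𝔇.Cyl) (hWO : 𝔇.WO pos π σ) (C : T.Cyc) (hC : ∀ v ∈ C.verts, σ v = false) (hCf : C.Left.Finite) (hCg : ∀ v ∈ 𝔇.g.verts, v ∈ T.Int C.Left) {P : Set V}
    (hP : ∀ v ∈ T.Int C.Left, v ∈ P) (hNB : 𝔇.NBon (𝔇.NU pos π ∩ P) σ) (hSY : 𝔇.SY pos π σ) : ∃ y, 𝔇.Ring pos N h π σ y := by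
  have hF := pvwf_fit hT hS 𝔇 hOk hG hσ
  exact pvc4_ring_nu hT hS 𝔇 hOk hF hσ hWO C hC hCf hCg hP (fun q hg hq v hv => pvwc_G1nu hT 𝔇 hOk hF.sep_s hF.sep_t hcol hσ hq hg hv) hNB hSY

/-! ## 7. AT THE MODEL: the plane Delaunay map `(delbPl Y).toMap`, positions `Subtype.val` -/

section model

variable {Y : Set ℂ}

/-- **MESH AT A PIN ⟹ `cut`**: sites `μ`-dense in `closedBall z (r + R')`, `μ < R'`: a face with its barycentre in `closedBall z r` has its vertices within `r + 2 μ` of `z`      (`del_tri_near`: empty circumdisc) -/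
theorem pvc4_cut_model {z : ℂ} {r μ R' : ℝ} (hμ : 0 ≤ μ) (hμR : μ < R') (hd : VorDense Y (Metric.closedBall z (r + R')) μ) (d : (delbPl Y).Dart)
    (hb : (delbPl Y).toMap.bary Subtype.val d ∈ Metric.closedBall z r) : ‖(((delbPl Y).toMap.src d : ↥Y) : ℂ) - z‖ ≤ r + 2 * μ := by
  have ht := delb_plane_face d
  have hp : (delbPl Y).toMap.bary Subtype.val d ∈ delT (((delbPl Y).toMap.src d : ↥Y) : ℂ) ((delbPl Y).toMap.tgt d : ↥Y) ((delbPl Y).toMap.apex d : ↥Y) :=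
    dela_open_subset _ _ _ (dela_bar_mem ht.left)
  have hd' : VorDense Y (Metric.closedBall ((delbPl Y).toMap.bary Subtype.val d) R') μ := by
    refine hd.mono Subset.rfl (fun w hw => ?_) le_rfl
    rw [Metric.mem_closedBall] at hw hb ⊢
    linarith [dist_triangle w ((delbPl Y).toMap.bary Subtype.val d) z]
  obtain ⟨h1, -, -⟩ := del_tri_near hμ hμR hd' ht hp
  rw [Metric.mem_closedBall, dist_eq_norm] at hb
  calc ‖(((delbPl Y).toMap.src d : ↥Y) : ℂ) - z‖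
      = ‖((((delbPl Y).toMap.src d : ↥Y) : ℂ) - (delbPl Y).toMap.bary Subtype.val d) + ((delbPl Y).toMap.bary Subtype.val d - z)‖ := by ring_nf
    _ ≤ ‖(((delbPl Y).toMap.src d : ↥Y) : ℂ) - (delbPl Y).toMap.bary Subtype.val d‖ + ‖(delbPl Y).toMap.bary Subtype.val d - z‖ := norm_add_le _ _
    _ ≤ r + 2 * μ := by linarith

/-- a closed ball lies in the square of the same radius -/
theorem pvc4_ball_sub_sq (z : ℂ) {r r' : ℝ} (h : r ≤ r') : Metric.closedBall z r ⊆ pvwSq z r' := by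
  intro w hw
  rw [Metric.mem_closedBall, dist_eq_norm] at hw
  exact ⟨(Complex.abs_re_le_norm _).trans (hw.trans h), (Complex.abs_im_le_norm _).trans (hw.trans h)⟩

/-- **`PvwDat.Geo` (194, `Tr/C12F`) AT THE MODEL**, NO COLOUR.      PATTERN: the two boxes are apart (`hz` = the clause of 63 in `pvxPatSet`), the gate discs lie in the boxes (`hbs hbt`: `pvwk_rad_ge`);
GOOD GEOMETRY, READ ROUND THE TWO PINS ONLY: the sites are `μ`-dense in the two balls of radius `m h + R'`;   NUMBERS: `μ < R'`, `m h + 2 μ < a h`. -/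
theorem pvc4_geo_model (𝔇 : PvwDat (delbPl Y).toMap) {N : PvwNum} {h : ℝ} {π : PvwPat} (hOk : 𝔇.Ok Subtype.val N h π)
    (hz : 2 * (pvwRad N h π.ts π.ts.k + pvwRad N h π.tt π.tt.k) < ‖π.zs - π.zt‖) (hbs : π.ts.b * h ≤ pvwRad N h π.ts π.ts.k) (hbt : π.tt.b * h ≤ pvwRad N h π.tt π.tt.k)
    {μ R' : ℝ} (hμ : 0 ≤ μ) (hμR : μ < R') (hds : VorDense Y (Metric.closedBall π.zs (N.m * h + R')) μ) (hdt : VorDense Y (Metric.closedBall π.zt (N.m * h + R')) μ)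
    (has : N.m * h + 2 * μ < π.ts.a * h) (hat : N.m * h + 2 * μ < π.tt.a * h) : 𝔇.Geo Subtype.val N h π := by
  have hdis := pvwq_sq_disj hz
  refine pvwf_geo_of_far 𝔇 hOk hbt (hdis.symm.mono_right (pvc4_ball_sub_sq _ hbs)) (hdis.mono_right (pvc4_ball_sub_sq _ hbt)) (fun d hd => ?_) fun d hd => ?_
  · exact lt_of_le_of_lt (pvc4_cut_model hμ hμR hds d hd) has
  · exact lt_of_le_of_lt (pvc4_cut_model hμ hμR hdt d hd) hat

/-- **(C2) AT THE MODEL, PLANE DELAUNAY MAP**: `pvc4_ring_model` with `IsSph`, `Simple`, `Geo` discharged.      LEFT: `Col` [194 `pvwm_Col_reg`, 227 `pvc2_Col_model`: from `SYn` + the mesh of the lanes] and the five events. -/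
theorem pvc4_ring_plane (hY : DelGood Y) (𝔇 : PvwDat (delbPl Y).toMap) {N : PvwNum} {h : ℝ} {π : PvwPat} {σ : ↥Y → Bool} (hOk : 𝔇.Ok Subtype.val N h π)
    (hz : 2 * (pvwRad N h π.ts π.ts.k + pvwRad N h π.tt π.tt.k) < ‖π.zs - π.zt‖) (hbs : π.ts.b * h ≤ pvwRad N h π.ts π.ts.k) (hbt : π.tt.b * h ≤ pvwRad N h π.tt π.tt.k)
    {μ R' : ℝ} (hμ : 0 ≤ μ) (hμR : μ < R') (hds : VorDense Y (Metric.closedBall π.zs (N.m * h + R')) μ) (hdt : VorDense Y (Metric.closedBall π.zt (N.m * h + R')) μ)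
    (has : N.m * h + 2 * μ < π.ts.a * h) (hat : N.m * h + 2 * μ < π.tt.a * h) (hcol : 𝔇.Col Subtype.val π) (hσ : σ ∈ 𝔇.Cyl) (hWO : 𝔇.WO Subtype.val π σ)
    (C : (delbPl Y).toMap.Cyc) (hC : ∀ v ∈ C.verts, σ v = false) (hCf : C.Left.Finite) (hCg : ∀ v ∈ 𝔇.g.verts, v ∈ (delbPl Y).toMap.Int C.Left) {P : Set ↥Y}
    (hP : ∀ v ∈ (delbPl Y).toMap.Int C.Left, v ∈ P) (hNB : 𝔇.NBon (𝔇.NU Subtype.val π ∩ P) σ) (hSY : 𝔇.SY Subtype.val π σ) : ∃ y, 𝔇.Ring Subtype.val N h π σ y :=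
  pvc4_ring_model (delb_plane_isSph hY) (delbPl Y).toMap_simple 𝔇 hOk (pvc4_geo_model 𝔇 hOk hz hbs hbt hμ hμR hds hdt has hat) hcol hσ hWO C hC hCf hCg hP hNB hSY

end model

end Claimed.Agent.R289
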