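-- KEEP
import Claimed.Agent.R289.Tr.LocalW
import Claimed.Agent.R289.Tr.LocalF
import Claimed.Agent.R289.Tr.C12
import Claimed.Agent.R289.Tr.C2Dom
import Claimed.Agent.R289.Defs.TrModel

/-!
# Row 289 (S0537, Cardy for Poisson-Voronoi), THE WALL, item TR24 + LOCALITY, file Tr/LocalX : THE ACT-EXIT IN THE VOCABULARY OF `Defs/TrModel.lean`      (owner helper22; prefix `pvlx_`, `Pvlx`)

WHAT.  The data of record of road E (187) are PLANE objects: `𝔇 : PvwDat (pvxT ω)`, and an ENCODED rim `P ∈ pvhbAll x R ω` of SOME completion, tied together by positions only (`PvxPinOf`, `PvxActual`).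
(C1) of 194 (`pvwc_C1`) wants a circuit `c` of the SAME surface with `𝔇.Actual .. c j`.      This file closes the gap:

* sec. 1  model free: `pvlx_col_exists` (a colouring has a twin), `pvlx_dart` / `pvlx_run` (a circuit which visits the positions of a path of the other surface runs along its twin),
          `pvlx_pin_out` / `pvlx_pin_in` (pin of a rim CUT far away  ⟹  `PvwSt.PinOut` / `PinIn`, cyclic form; ANY centre `y`), **`pvlx_c1sec`** (the three RUNS only ⟹ `NBU univ`: no bypass at all on the right of an arc of a rim; no mouth, no outer gate, no `YCL`)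
* sec. 2  one completion against the TOTAL plane `pvxT ω`: `pvlx_pinIn`, `pvlx_pinOut` (encoded cut form, any centre), `pvlx_twin3` (twins of the three paths), **`pvlx_nbU_pth`**, **`pvlx_nbU`** (the plane datum has `NB^{Kr}`, SECTOR form: only the two gate discs and `g₀` in `Kr`),
          `pvlx_twin` (the completion twin of the plane datum: cylinder, runs), `pvlx_actual` (.. is `Actual`, given the mouths in encoded cut form and the outer gates)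
* sec. 3  the instance: `PvlxB` (all that is read of a completion through the shared patch), `pvlx_bulk`, `pvlx_all`
* sec. 4  THE EXITS, for `P ∈ pvhbAll x R ω`:   **`pvlx_act`** (`PvxActual` ⟹ `NBU` on the sites of `closedBall x (6R)`), **`pvlx_act_on`** (the same as `NBon M` of 78, `M` ANY set of sites of that ball = `E(D)` at the model, ruling W-5 of 208),
          **`pvlx_enc`** (the windows of `P` are read on plane paths),   **`pvlx_win`** (= the hypotheses `hs hg ht` of `pvdc_X_dat`, 195),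
          **`pvlx_act_fit`** (= field `c1` of `Pvn1bKit` from the clauses of `pvxFit` / `Pvn1bAct`: window in `5R`, `(1 + b) h ≤ R`),   **`pvlx_seam`** (plane `Ok` + `PvxActual` + outer gates ⟹ THE COMPLETION carries a twin datum with `Ok` and `Actual` for the rim itself)
WHY THE SECTOR FORM.  A rim may carry black lobes on its right, hanging at ONE vertex; the white path round such a lobe (faced form, `pl_rim_facing`) may leave the patch, where the completion and the plane differ.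
So for the PLANE datum only a PATCH form is true: sector form `NBU` (here), faced form `pvtaN g σ U ({a} ∪ Λ)` with `Λ` ⊇ the boundary layer of the patch (264, `pvlf_rim_arc`).
v3 (11:40Z): on `Tr/Defs` v3, `Tr/LocalW` v3;  `NBU` is `YCL`-free = `NBon`;  `pvlx_act` WITHOUT the hypotheses on the boxes and on `Yin`.      Of `PvxActual` only `cyl`, `pin_s.run`, `arc`, `pin_t.run` are read (safe for `Defs/TrModel` v4).
CONSUMERS: `Exit/N1.lean`, `Exit/N1B.lean` (170 274 60), `Tr/KitN1` (29), `Tr/Dict` sec. 8 (195).      `NBU U` + a white circuit in the annulus `A(x; 5R, 6R)` ⟹ `NBU M`: `pvlw_nb_of_circuit`.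
-/

set_option autoImplicit false

namespace Claimed.Agent.R289

open Set Claims.C0465

/-! ## 1. Model free -/

section free

variable {V D V' D' : Type} {T : PvMap V D} {T' : PvMap V' D'} {R : D → D' → Prop} {pos : V → ℂ} {pos' : V' → ℂ} {Kr : Set ℂ}

/-- a colouring has a twin -/
theorem pvlx_col_exists (L : PvLoc T T' R) (σ : V → Bool) : ∃ σ' : V' → Bool, ∀ d d', R d d' → σ (T.src d) = σ' (T'.src d') := by
  classical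
  refine ⟨fun v' => decide (∃ d d', R d d' ∧ T'.src d' = v' ∧ σ (T.src d) = true), fun d d' h => ?_⟩
  by_cases hs : σ (T.src d) = true
  · rw [hs]; exact (decide_eq_true ⟨d, d', h, rfl, hs⟩).symm
  · have hn : ¬ ∃ e e', R e e' ∧ T'.src e' = T'.src d' ∧ σ (T.src e) = true := by
      rintro ⟨e, e', h1, h2, h3⟩
      exact hs (L.vinj h h1 h2.symm ▸ h3)
    rw [Bool.not_eq_true] at hs
    rw [hs]; exact (decide_eq_false hn).symm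

/-- a circuit which visits the positions of a path of the other surface: its darts are the twins of the darts of the path -/
theorem pvlx_dart (L : PvLocP T T' R pos pos' Kr) (hS' : T'.Simple) (hinj : Function.Injective pos') (c : T.Cyc) (p' : T'.Pth) {j : ℕ}
    (hv : ∀ i, i ≤ p'.n → pos (T.src (c.e (j + i))) = pos' (p'.v i)) (hK : ∀ i, i ≤ p'.n → pos' (p'.v i) ∈ Kr) {i : ℕ} (hi : i < p'.n) : R (c.e (j + i)) (p'.e i) := by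
  have h1 : pos (T.src (c.e (j + i))) ∈ Kr := by rw [hv i hi.le]; exact hK i hi.le
  obtain ⟨d', hd'⟩ := pvlw_dart_src L h1
  have e1 : T'.src d' = p'.v i := hinj (by rw [← L.pos_eq _ _ hd', hv i hi.le])
  have e2 : T'.tgt d' = p'.v (i + 1) := hinj (by
    rw [← show pos (T.tgt (c.e (j + i))) = pos' (T'.tgt d') from L.pos_eq _ _ (L.loc.iso.nxt hd'), c.chain, ← hv (i + 1) hi]
    rfl)
  have e3 : d' = p'.e i := hS' _ _ (by rw [e1, p'.src_e i hi]) (by rw [e2, p'.tgt_e i hi])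
  exact e3 ▸ hd'

/-- .. so it runs along the twin of the path -/
theorem pvlx_run (L : PvLocP T T' R pos pos' Kr) (hS' : T'.Simple) (hinj : Function.Injective pos') (c : T.Cyc) {p : T.Pth} {p' : T'.Pth} (Pt : PvLocPth R p p') {j : ℕ}
    (hv : ∀ i, i ≤ p'.n → pos (T.src (c.e (j + i))) = pos' (p'.v i)) (hK : ∀ i, i ≤ p'.n → pos' (p'.v i) ∈ Kr) {i : ℕ} (hi : i < p.n) : c.e (j + i) = p.e i :=
  L.loc.iso.inj (pvlx_dart L hS' hinj c p' hv hK (Pt.n_eq ▸ hi)) (Pt.e_rel i hi)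

theorem pvlx_per (c : T.Cyc) {k : ℕ} (hk : c.n ≤ k) : c.e k = c.e (k - c.n) := by
  conv_lhs => rw [show k = (k - c.n) + c.n by omega]
  exact c.per _

/-- **from the CUT form of a pin** (the circuit is cut at `c.e 0`, far from the pin: no wrap-around) **to the cyclic form**, exit half -/
theorem pvlx_pin_out {c : T.Cyc} {𝔖 : PvwSt T} {N : PvwNum} {h : ℝ} {y : ℂ} {BK : Set ℂ} {j : ℕ} (run : ∀ i, i < 𝔖.inn.n → c.e (j + i) = 𝔖.inn.e i)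
    (mp : ∃ B, j + 𝔖.inn.n + B < c.n ∧ (∀ i, i ≤ B → pos (T.src (c.e (j + 𝔖.inn.n + i))) ∈ BK) ∧
      ∀ k, k ≤ c.n → (k ≤ j ∨ j + 𝔖.inn.n + B < k) → 2 * N.rho * h < ‖pos (T.src (c.e k)) - y‖) : 𝔖.PinOut pos N h y BK c j := by
  obtain ⟨B, b1, b2, b3⟩ := mp
  refine ⟨run, B, by omega, b2, fun i h1 h2 => ?_⟩
  rcases Nat.lt_or_ge c.n (j + i) with h3 | h3
  · rw [pvlx_per c h3.le]; exact b3 _ (by omega) (Or.inl (by omega))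
  · exact b3 _ h3 (Or.inr (by omega))

/-- .. entrance half -/
theorem pvlx_pin_in {c : T.Cyc} {𝔖 : PvwSt T} {N : PvwNum} {h : ℝ} {y : ℂ} {BK : Set ℂ} {j : ℕ} (le : j + 𝔖.inn.n < c.n) (run : ∀ i, i < 𝔖.inn.n → c.e (j + i) = 𝔖.inn.e i)
    (mm : ∃ A, A < j ∧ (∀ i, i ≤ A → pos (T.src (c.e (j - i))) ∈ BK) ∧
      ∀ k, k ≤ c.n → (k + A < j ∨ j + 𝔖.inn.n ≤ k) → 2 * N.rho * h < ‖pos (T.src (c.e k)) - y‖) : 𝔖.PinIn pos N h y BK c j := by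
  obtain ⟨A, a1, a2, a3⟩ := mm
  refine ⟨run, A, by omega, fun i hi => ?_, fun i h1 h2 => ?_⟩
  · rw [pvlx_per c (show c.n ≤ j + c.n - i by omega), show j + c.n - i - c.n = j - i by omega]; exact a2 i hi
  · rcases Nat.lt_or_ge c.n (j + i) with h3 | h3
    · rw [pvlx_per c h3.le]; exact a3 _ (by omega) (Or.inl (by omega))
    · exact a3 _ h3 (Or.inr (by omega))

/-- **(C1), sector form, from the RUNS only** (= `pvwc_C1sec` of 194 without the mouths and the outer gates of `Actual`, and without `YCL`: NO bypass at all) -/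
theorem pvlx_c1sec (hT : T.IsSph) (𝔇 : PvwDat T) {σ : V → Bool} {c : T.Cyc} {j : ℕ} (hrim : c.IsRim σ) (hblack : σ (T.src (c.e 0)) = true)
    (runs : ∀ i, i < 𝔇.s.inn.n → c.e (j + i) = 𝔇.s.inn.e i) (arc : ∀ i, i < 𝔇.g.n → c.e (j + 𝔇.s.inn.n + i) = 𝔇.g.e i)
    (runt : ∀ i, i < 𝔇.t.inn.n → c.e (j + 𝔇.s.inn.n + 𝔇.g.n + i) = 𝔇.t.inn.e i) (hs : 0 < 𝔇.s.inn.n) (ht : 0 < 𝔇.t.inn.n) : 𝔇.NBU Set.univ σ := by
  rintro ⟨i, l, q, hi, hl, hil, hq0, hqa, hqb, hsec, hin⟩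
  have hn : 0 < 𝔇.g.n := by omega
  have e1 : 𝔇.prv i = c.e (j + 𝔇.s.inn.n - 1 + i) := by
    unfold PvwDat.prv
    by_cases h0 : i = 0
    · subst h0
      rw [if_pos rfl, ← runs (𝔇.s.inn.n - 1) (by omega)]
      congr 1
      omega
    · rw [if_neg h0, ← arc (i - 1) (by omega)]
      congr 1
      omega
  have e2 : 𝔇.nx i = c.e (j + 𝔇.s.inn.n - 1 + i + 1) := by
    unfold PvwDat.nx
    by_cases h0 : i = 𝔇.g.n
    · rw [if_pos h0, ← runt 0 ht]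
      congr 1
      omega
    · rw [if_neg h0, ← arc i (by omega)]
      congr 1
      omega
  have hverts : 𝔇.g.verts ⊆ c.verts := by
    rintro x ⟨i, hi, rfl⟩
    by_cases h0 : i < 𝔇.g.n
    · exact ⟨j + 𝔇.s.inn.n + i, by rw [arc i h0, 𝔇.g.src_e i h0]⟩
    · have e : i = (𝔇.g.n - 1) + 1 := by omega
      refine ⟨j + 𝔇.s.inn.n + (𝔇.g.n - 1) + 1, ?_⟩
      rw [← c.chain, arc (𝔇.g.n - 1) (by omega), 𝔇.g.tgt_e _ (by omega), ← e]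
  have hne : T.opp (𝔇.prv i) ≠ 𝔇.nx i := by rw [e1, e2]; exact (pl_cyc_ne_opp c _ _).symm
  have hb := pvwc_btw_of_rsec hne hsec
  have hsrc : T.src (q.e 0) = 𝔇.g.v i := by rw [q.src_e 0 hq0, hqa]
  have hBP : pvttBP T σ Set.univ 𝔇.g.verts {q.e 0} := by
    refine ⟨q.e 0, rfl, 𝔇.g.v l, ⟨l, hl, rfl⟩, ?_, ?_⟩
    · rw [hsrc]
      exact fun e => hil (𝔇.g.inj _ _ hl hi e).symm
    · rw [← hqb]
      exact pvwc_pth_walk q hq0 fun x hx => ⟨Set.mem_univ _, (hin x hx).2.1, (hin x hx).1⟩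
  have hBP' := pvtt_bp_enlarge hverts (by rintro d rfl; rw [hsrc]; exact ⟨i, hi, rfl⟩) hBP
  refine pvtt_act_cyc hT hrim hblack Set.univ (pvtt_bp_mono_U (Set.Subset.refl _) ?_ hBP')
  rintro d rfl
  rw [e1, e2] at hb
  exact ⟨_, hb⟩

end free

/-! ## 2. One surface against the total plane of the sample -/

section plane

variable {V D : Type} {T : PvMap V D} {ω : PVSample} {R : D → (delbPl (pvxY ω)).Dart → Prop} {pos : V → ℂ} {Kr : Set ℂ}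

theorem pvlx_pos_inj (ω : PVSample) : Function.Injective (pvxPos ω) := Subtype.val_injective

theorem pvlx_simple (ω : PVSample) : (pvxT ω).Simple := (delbPl (pvxY ω)).toMap_simple

/-- the run of the encoded rim through the gate, carried to the surface of the rim -/
theorem pvlx_pin_run (L : PvLocP T (pvxT ω) R pos (pvxPos ω) Kr) {c : T.Cyc} {P : PvbRim} (hPv : ∀ k, P.v k = pos (T.src (c.e k)))
    {p : T.Pth} {p' : (pvxT ω).Pth} (G : PvLocPth R p p') (hK : ∀ i, i ≤ p'.n → pvxPos ω (p'.v i) ∈ Kr) {j : ℕ}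
    (hrun : ∀ i, i ≤ p'.n → P.v (j + i) = pvxPos ω (p'.v i)) {i : ℕ} (hi : i < p.n) : c.e (j + i) = p.e i := by
  simp only [hPv] at hrun
  exact pvlx_run L (pvlx_simple ω) (pvlx_pos_inj ω) c G hrun hK hi

/-- the pin of the encoded rim (CUT form, any centre `y`), carried to the surface of the rim: entrance half -/
theorem pvlx_pinIn (L : PvLocP T (pvxT ω) R pos (pvxPos ω) Kr) {c : T.Cyc} {P : PvbRim} (hlen : P.len = c.n) (hPv : ∀ k, P.v k = pos (T.src (c.e k)))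
    {𝔖 : PvwSt T} {𝔖' : PvwSt (pvxT ω)} (G : PvLocPth R 𝔖.inn 𝔖'.inn) (hK : ∀ i, i ≤ 𝔖'.inn.n → pvxPos ω (𝔖'.inn.v i) ∈ Kr) {N : PvwNum} {h : ℝ} {y : ℂ} {BK : Set ℂ} {j : ℕ}
    (le : j + 𝔖'.inn.n < P.len) (hrun : ∀ i, i ≤ 𝔖'.inn.n → P.v (j + i) = pvxPos ω (𝔖'.inn.v i))
    (mm : ∃ A, A < j ∧ (∀ i, i ≤ A → P.v (j - i) ∈ BK) ∧ ∀ k, k ≤ P.len → (k + A < j ∨ j + 𝔖'.inn.n ≤ k) → 2 * N.rho * h < ‖P.v k - y‖) : 𝔖.PinIn pos N h y BK c j := by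
  have hn : 𝔖'.inn.n = 𝔖.inn.n := G.n_eq
  have hr := fun i (hi : i < 𝔖.inn.n) => pvlx_pin_run L hPv G hK hrun hi
  rw [hn, hlen] at le mm
  simp only [hPv] at mm
  exact pvlx_pin_in le hr mm

/-- .. exit half -/
theorem pvlx_pinOut (L : PvLocP T (pvxT ω) R pos (pvxPos ω) Kr) {c : T.Cyc} {P : PvbRim} (hlen : P.len = c.n) (hPv : ∀ k, P.v k = pos (T.src (c.e k)))
    {𝔖 : PvwSt T} {𝔖' : PvwSt (pvxT ω)} (G : PvLocPth R 𝔖.inn 𝔖'.inn) (hK : ∀ i, i ≤ 𝔖'.inn.n → pvxPos ω (𝔖'.inn.v i) ∈ Kr) {N : PvwNum} {h : ℝ} {y : ℂ} {BK : Set ℂ} {j : ℕ}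
    (hrun : ∀ i, i ≤ 𝔖'.inn.n → P.v (j + i) = pvxPos ω (𝔖'.inn.v i))
    (mp : ∃ B, j + 𝔖'.inn.n + B < P.len ∧ (∀ i, i ≤ B → P.v (j + 𝔖'.inn.n + i) ∈ BK) ∧ ∀ k, k ≤ P.len → (k ≤ j ∨ j + 𝔖'.inn.n + B < k) → 2 * N.rho * h < ‖P.v k - y‖) :
    𝔖.PinOut pos N h y BK c j := by
  have hn : 𝔖'.inn.n = 𝔖.inn.n := G.n_eq
  have hr := fun i (hi : i < 𝔖.inn.n) => pvlx_pin_run L hPv G hK hrun hi
  rw [hn, hlen] at mp
  simp only [hPv] at mp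
  exact pvlx_pin_out hr mp

/-- what is read of the gate of a state: ends and place of the inner arc -/
theorem pvlx_inner {V D : Type} {T : PvMap V D} {pos : V → ℂ} {𝔖 : PvwSt T} {h : ℝ} {z : ℂ} {τ : PvwTy} {s : V → Bool} (hg : 𝔖.Gate pos h z τ s) :
    0 < 𝔖.inn.n ∧ 𝔖.inn.v 0 = 𝔖.gm ∧ 𝔖.inn.v 𝔖.inn.n = 𝔖.gp ∧ ∀ k, k ≤ 𝔖.inn.n → pos (𝔖.inn.v k) ∈ Metric.closedBall z (τ.b * h) := by
  have hKv : ∀ v ∈ 𝔖.S.verts, pos v ∈ Metric.closedBall z (τ.b * h) := fun v hv => mem_closedBall_iff_norm.2 (hg.ann v hv).2.le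
  have hKc : ∀ v ∈ 𝔖.ins, pos v ∈ Metric.closedBall z (τ.b * h) := fun v hv => mem_closedBall_iff_norm.2 (hg.inside v hv).le
  have hgp : 𝔖.gp ∈ 𝔖.S.verts := by
    obtain ⟨k, hk⟩ := hg.dp_on
    refine ⟨k + 1, ?_⟩
    rw [← 𝔖.S.chain k, hk, T.tgt_opp]
    rfl
  obtain ⟨n, h1, h2, j, a0, an, a1, a2⟩ := hg.strand
  have e2 : 𝔖.inn.v 𝔖.inn.n = 𝔖.gp := by
    have e1 := (a1 𝔖.inn.n le_rfl).2.1
    rw [an] at e1
    rw [e1]; show T.src (pvasIt T s 𝔖.dm n) = _; rw [h1]; rfl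
  have e3 : 𝔖.inn.v 0 = 𝔖.gm := a0
  refine ⟨?_, e3, e2, ?_⟩
  · rcases Nat.eq_zero_or_pos 𝔖.inn.n with h0 | h0
    · exfalso
      rw [h0, e3] at e2
      exact hg.ne e2.symm
    · exact h0
  · intro k hk
    obtain ⟨b1, b2, -⟩ := a1 k hk
    rw [b2]
    rcases Nat.lt_or_ge (j k) n with h3 | h3
    · exact hKc _ ⟨_, h2 _ h3, rfl⟩
    · have : j k = n := le_antisymm b1 h3
      show pos (T.src (pvasIt T s 𝔖.dm (j k))) ∈ _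
      rw [this, h1]
      exact hKv _ hgp

/-- a plane path placed in `Kr` has a twin on the surface -/
theorem pvlx_pth_twin (L : PvLocP T (pvxT ω) R pos (pvxPos ω) Kr) (p' : (pvxT ω).Pth) (hn : 0 < p'.n) (hK : ∀ i, i ≤ p'.n → pvxPos ω (p'.v i) ∈ Kr) : ∃ p : T.Pth, PvLocPth R p p' := by
  obtain ⟨p, hp⟩ := pvloc_pth_exists L.loc.symm p' hn (fun k hk => pvlw_dart_src L.symm (by rw [p'.src_e k hk]; exact hK k hk.le))
  exact ⟨p, hp.symm⟩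

/-- **twins of the three paths of a plane datum** (all that `NBU` reads), as a datum of the surface of the rim `c` (the other fields are junk) -/
theorem pvlx_twin3 (L : PvLocP T (pvxT ω) R pos (pvxPos ω) Kr) (c : T.Cyc) {𝔇' : PvwDat (pvxT ω)} (hs : 0 < 𝔇'.s.inn.n) (hg : 0 < 𝔇'.g.n) (ht : 0 < 𝔇'.t.inn.n)
    (h1 : ∀ k, k ≤ 𝔇'.s.inn.n → pvxPos ω (𝔇'.s.inn.v k) ∈ Kr) (h2 : ∀ k, k ≤ 𝔇'.g.n → pvxPos ω (𝔇'.g.v k) ∈ Kr) (h3 : ∀ k, k ≤ 𝔇'.t.inn.n → pvxPos ω (𝔇'.t.inn.v k) ∈ Kr) :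
    ∃ 𝔇 : PvwDat T, PvLocPth R 𝔇.s.inn 𝔇'.s.inn ∧ PvLocPth R 𝔇.g 𝔇'.g ∧ PvLocPth R 𝔇.t.inn 𝔇'.t.inn := by
  obtain ⟨p1, q1⟩ := pvlx_pth_twin L _ hs h1
  obtain ⟨p2, q2⟩ := pvlx_pth_twin L _ hg h2
  obtain ⟨p3, q3⟩ := pvlx_pth_twin L _ ht h3
  exact ⟨⟨⟨∅, c, c.e 0, c.e 0, p1, 0, 0, fun _ => c.e 0, 0, fun _ => c.e 0⟩, ⟨∅, c, c.e 0, c.e 0, p3, 0, 0, fun _ => c.e 0, 0, fun _ => c.e 0⟩, p2, fun _ => true⟩, q1, q2, q3⟩

/-- **(C1) THROUGH THE COMPLETION, path form**: three consecutive plane paths along the encoded rim, placed in `Kr`: the plane datum has `NB^{Kr}` (sector form).      `hb` : the colour of one site of `g₀`. -/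
theorem pvlx_nbU_pth (L : PvLocP T (pvxT ω) R pos (pvxPos ω) Kr) (hT : T.IsSph) {σ : V → Bool} {σ' : ↥(pvxY ω) → Bool} (hσ : ∀ d d', R d d' → σ (T.src d) = σ' ((pvxT ω).src d'))
    {c : T.Cyc} (hc : c.IsRim σ) {P : PvbRim} (hPv : ∀ k, P.v k = pos (T.src (c.e k))) {𝔇' : PvwDat (pvxT ω)} {j : ℕ} (hs : 0 < 𝔇'.s.inn.n) (hg : 0 < 𝔇'.g.n) (ht : 0 < 𝔇'.t.inn.n)
    (h1 : ∀ k, k ≤ 𝔇'.s.inn.n → pvxPos ω (𝔇'.s.inn.v k) ∈ Kr) (h2 : ∀ k, k ≤ 𝔇'.g.n → pvxPos ω (𝔇'.g.v k) ∈ Kr) (h3 : ∀ k, k ≤ 𝔇'.t.inn.n → pvxPos ω (𝔇'.t.inn.v k) ∈ Kr)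
    (r1 : ∀ i, i ≤ 𝔇'.s.inn.n → P.v (j + i) = pvxPos ω (𝔇'.s.inn.v i)) (r2 : ∀ i, i ≤ 𝔇'.g.n → P.v (j + 𝔇'.s.inn.n + i) = pvxPos ω (𝔇'.g.v i))
    (r3 : ∀ i, i ≤ 𝔇'.t.inn.n → P.v (j + 𝔇'.s.inn.n + 𝔇'.g.n + i) = pvxPos ω (𝔇'.t.inn.v i)) (hb : σ' (𝔇'.g.v 0) = true) :
    𝔇'.NBU {v | pvxPos ω v ∈ Kr} σ' := by
  obtain ⟨𝔇, G1, G2, G3⟩ := pvlx_twin3 L c hs hg ht h1 h2 h3
  have hns : 𝔇'.s.inn.n = 𝔇.s.inn.n := G1.n_eq
  have hng : 𝔇'.g.n = 𝔇.g.n := G2.n_eq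
  have hnt : 𝔇'.t.inn.n = 𝔇.t.inn.n := G3.n_eq
  have hblack : σ (T.src (c.e 0)) = true := by
    rw [pl_rim_col hc 0 (j + 𝔇'.s.inn.n + 0)]
    have e0 : pos (T.src (c.e (j + 𝔇'.s.inn.n + 0))) = pvxPos ω (𝔇'.g.v 0) := by rw [← hPv]; exact r2 0 (Nat.zero_le _)
    have hk : pos (T.src (c.e (j + 𝔇'.s.inn.n + 0))) ∈ Kr := by rw [e0]; exact h2 0 (Nat.zero_le _)
    obtain ⟨v', hv'⟩ := pvlw_vertex L hk
    have e : v' = 𝔇'.g.v 0 := pvlx_pos_inj ω (by rw [← pvlw_pos L hv', e0])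
    rw [pvloc_v_col hσ hv', e]
    exact hb
  have hnb : 𝔇.NBU Set.univ σ := pvlx_c1sec hT 𝔇 (j := j) hc hblack (fun i hi => pvlx_pin_run L hPv G1 h1 r1 hi)
    (fun i hi => by rw [← hns]; exact pvlx_pin_run L hPv G2 h2 r2 hi) (fun i hi => by rw [← hns, ← hng]; exact pvlx_pin_run L hPv G3 h3 r3 hi) (hns ▸ hs) (hnt ▸ ht)
  have h2' : ∀ k, k ≤ 𝔇.g.n → pos (𝔇.g.v k) ∈ Kr := fun k hk => by rw [pvlw_pos L (G2.v_rel k hk)]; exact h2 k (hng ▸ hk)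
  refine pvlw_nbU L G1 G2 G3 h2' (hns ▸ hs) (hnt ▸ ht) ?_ hσ (U := Set.univ) (fun v' hv' => hv') (fun _ _ _ _ => Set.mem_univ _) hnb
  -- the inner arc of `s` ends where `g₀` starts
  rw [𝔇.s.inn.tgt_e _ (by omega), show 𝔇.s.inn.n - 1 + 1 = 𝔇.s.inn.n by omega]
  refine pvloc_v_inj L.loc (G1.v_rel _ le_rfl) ?_
  have e : 𝔇'.s.inn.v 𝔇.s.inn.n = 𝔇'.g.v 0 := pvlx_pos_inj ω (by rw [← hns, ← r1 _ le_rfl, ← r2 0 (Nat.zero_le _)]; rfl)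
  rw [e]
  exact G2.v_rel 0 (Nat.zero_le _)

/-- **(C1) THROUGH THE COMPLETION**: the plane datum has `NB^{Kr}` (sector form).      Only the two gate discs and `g₀` are placed in `Kr`. -/
theorem pvlx_nbU (L : PvLocP T (pvxT ω) R pos (pvxPos ω) Kr) (hT : T.IsSph) {σ : V → Bool} {b : Bool} (hσ : ∀ d d', R d d' → σ (T.src d) = pvxCol ω b ((pvxT ω).src d'))
    {c : T.Cyc} (hc : c.IsRim σ) {P : PvbRim} (hPv : ∀ k, P.v k = pos (T.src (c.e k))) {𝔇' : PvwDat (pvxT ω)} {N : PvwNum} {h : ℝ} {π : PvwPat} {j : ℕ}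
    (hKs : Metric.closedBall π.zs (π.ts.b * h) ⊆ Kr) (hKt : Metric.closedBall π.zt (π.tt.b * h) ⊆ Kr)
    (h2 : ∀ k, k ≤ 𝔇'.g.n → pvxPos ω (𝔇'.g.v k) ∈ Kr) (hok : 𝔇'.Ok (pvxPos ω) N h π) (hA : PvxActual 𝔇' N h π b P j) :
    𝔇'.NBU {v | pvxPos ω v ∈ Kr} (pvxCol ω b) := by
  obtain ⟨s1, -, -, s4⟩ := pvlx_inner hok.st_s.gate
  obtain ⟨t1, -, -, t4⟩ := pvlx_inner hok.st_t.gate
  exact pvlx_nbU_pth L hT hσ hc hPv s1 hok.pos_n t1 (fun k hk => hKs (s4 k hk)) h2 (fun k hk => hKt (t4 k hk)) hA.pin_s.run hA.arc hA.pin_t.run (hA.cyl.2.1 _ ⟨0, Nat.zero_le _, rfl⟩)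

/-- **THE COMPLETION TWIN OF THE PLANE DATUM**: cylinder, colour of the rim, the three runs.      `T` = the surface of the rim `c` (a completion), `σ` its colouring (`true` = the colour `b`), `P` = the encoding of `c`. -/
theorem pvlx_twin (L : PvLocP T (pvxT ω) R pos (pvxPos ω) Kr) {σ : V → Bool} {b : Bool} (hσ : ∀ d d', R d d' → σ (T.src d) = pvxCol ω b ((pvxT ω).src d'))
    {c : T.Cyc} (hc : c.IsRim σ) {P : PvbRim} (hPv : ∀ k, P.v k = pos (T.src (c.e k))) {𝔇' : PvwDat (pvxT ω)} {N : PvwNum} {h : ℝ} {π : PvwPat} {j : ℕ}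
    (hKs : Metric.closedBall π.zs (π.ts.b * h) ⊆ Kr) (hBs : pvwSq π.zs (pvwRad N h π.ts π.ts.k) ⊆ Kr) (hKt : Metric.closedBall π.zt (π.tt.b * h) ⊆ Kr) (hBt : pvwSq π.zt (pvwRad N h π.tt π.tt.k) ⊆ Kr)
    (h2 : ∀ k, k ≤ 𝔇'.g.n → pvxPos ω (𝔇'.g.v k) ∈ Kr) (hok : 𝔇'.Ok (pvxPos ω) N h π) (hA : PvxActual 𝔇' N h π b P j) :
    ∃ 𝔇 : PvwDat T, PvLocDat R 𝔇 𝔇' ∧ σ ∈ 𝔇.Cyl ∧ σ (T.src (c.e 0)) = true ∧ (∀ i, i < 𝔇.s.inn.n → c.e (j + i) = 𝔇.s.inn.e i) ∧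
      (∀ i, i < 𝔇.g.n → c.e (j + 𝔇.s.inn.n + i) = 𝔇.g.e i) ∧ ∀ i, i < 𝔇.t.inn.n → c.e (j + 𝔇.s.inn.n + 𝔇.g.n + i) = 𝔇.t.inn.e i := by
  obtain ⟨σc, hσc⟩ := pvlx_col_exists L.loc.symm 𝔇'.col
  obtain ⟨𝔇, G', -⟩ := pvlw_dat_exists L.symm hKs hBs hKt hBt h2 hok hσc
  have G : PvLocDat R 𝔇 𝔇' := G'.symm
  obtain ⟨-, -, -, s4⟩ := pvlx_inner hok.st_s.gate
  obtain ⟨-, -, -, t4⟩ := pvlx_inner hok.st_t.gate
  have hns : 𝔇'.s.inn.n = 𝔇.s.inn.n := G.s.gt.inn.n_eq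
  have hng : 𝔇'.g.n = 𝔇.g.n := G.g.n_eq
  have harc : ∀ i, i ≤ 𝔇'.g.n → pos (T.src (c.e (j + 𝔇.s.inn.n + i))) = pvxPos ω (𝔇'.g.v i) := fun i hi => by
    rw [← hPv, ← hns]; exact hA.arc i hi
  refine ⟨𝔇, G, pvlw_cyl L.symm G' h2 (fun d' d hd => (hσ d d' hd).symm) hA.cyl, ?_, ?_, ?_, ?_⟩
  · -- the colour of the rim
    rw [pl_rim_col hc 0 (j + 𝔇.s.inn.n + 0)]
    have hk : pos (T.src (c.e (j + 𝔇.s.inn.n + 0))) ∈ Kr := by rw [harc 0 (Nat.zero_le _)]; exact h2 0 (Nat.zero_le _)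
    obtain ⟨v', hv'⟩ := pvlw_vertex L hk
    have e : v' = 𝔇'.g.v 0 := pvlx_pos_inj ω (by rw [← pvlw_pos L hv', harc 0 (Nat.zero_le _)])
    rw [pvloc_v_col hσ hv', e]
    exact hA.cyl.2.1 _ ⟨0, Nat.zero_le _, rfl⟩
  · exact fun i hi => pvlx_pin_run L hPv G.s.gt.inn (fun i hi => hKs (s4 i hi)) hA.pin_s.run hi
  · exact fun i hi => pvlx_run L (pvlx_simple ω) (pvlx_pos_inj ω) c G.g harc h2 hi
  · rw [← hns, ← hng]
    exact fun i hi => pvlx_pin_run L hPv G.t.gt.inn (fun i hi => hKt (t4 i hi)) hA.pin_t.run hi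

/-- **THE COMPLETION TWIN OF THE PLANE DATUM IS ACTUAL** (`mm mp` = the two mouths in ENCODED CUT form at the grid centres; `hos hot` = the outer actual gates, in the plane; their discs lie in the patch) -/
theorem pvlx_actual (L : PvLocP T (pvxT ω) R pos (pvxPos ω) Kr) (hG : DelGood (pvxY ω)) {σ : V → Bool} {b : Bool} (hσ : ∀ d d', R d d' → σ (T.src d) = pvxCol ω b ((pvxT ω).src d'))
    {c : T.Cyc} (hc : c.IsRim σ) {P : PvbRim} (hlen : P.len = c.n) (hPv : ∀ k, P.v k = pos (T.src (c.e k))) {𝔇' : PvwDat (pvxT ω)} {N : PvwNum} {h : ℝ} {π : PvwPat} {j : ℕ}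
    (hKs : Metric.closedBall π.zs (π.ts.b * h) ⊆ Kr) (hBs : pvwSq π.zs (pvwRad N h π.ts π.ts.k) ⊆ Kr) (hKt : Metric.closedBall π.zt (π.tt.b * h) ⊆ Kr) (hBt : pvwSq π.zt (pvwRad N h π.tt π.tt.k) ⊆ Kr)
    (hK2s : Metric.closedBall π.zs (π.ts.b2 * h) ⊆ Kr) (hK2t : Metric.closedBall π.zt (π.tt.b2 * h) ⊆ Kr)
    (h2 : ∀ k, k ≤ 𝔇'.g.n → pvxPos ω (𝔇'.g.v k) ∈ Kr) (hok : 𝔇'.Ok (pvxPos ω) N h π) (hA : PvxActual 𝔇' N h π b P j)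
    (le : j + 𝔇'.s.inn.n < P.len)
    (mm : ∃ A, A < j ∧ (∀ i, i ≤ A → P.v (j - i) ∈ pvwSq π.zs (pvwRad N h π.ts N.K)) ∧ ∀ k, k ≤ P.len → (k + A < j ∨ j + 𝔇'.s.inn.n ≤ k) → 2 * N.rho * h < ‖P.v k - π.ts.cm h π.zs‖)
    (mp : ∃ B, j + 𝔇'.s.inn.n + 𝔇'.g.n + 𝔇'.t.inn.n + B < P.len ∧ (∀ i, i ≤ B → P.v (j + 𝔇'.s.inn.n + 𝔇'.g.n + 𝔇'.t.inn.n + i) ∈ pvwSq π.zt (pvwRad N h π.tt N.K)) ∧
      ∀ k, k ≤ P.len → (k ≤ j + 𝔇'.s.inn.n + 𝔇'.g.n ∨ j + 𝔇'.s.inn.n + 𝔇'.g.n + 𝔇'.t.inn.n + B < k) → 2 * N.rho * h < ‖P.v k - π.tt.cp h π.zt‖)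
    (hos : ∃ (𝔖₂ : PvwSt (pvxT ω)) (o : Bool), 𝔖₂.Gate (pvxPos ω) h π.zs (π.ts.outer o) (pvxCol ω b))
    (hot : ∃ (𝔖₂ : PvwSt (pvxT ω)) (o : Bool), 𝔖₂.Gate (pvxPos ω) h π.zt (π.tt.outer o) (pvxCol ω b)) :
    ∃ 𝔇 : PvwDat T, PvLocDat R 𝔇 𝔇' ∧ 𝔇.Actual pos N h π σ c j := by
  obtain ⟨𝔇, G, a1, a2, -, a4, -⟩ := pvlx_twin L hσ hc hPv hKs hBs hKt hBt h2 hok hA
  obtain ⟨-, -, -, s4⟩ := pvlx_inner hok.st_s.gate
  obtain ⟨-, -, -, t4⟩ := pvlx_inner hok.st_t.gate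
  have hns : 𝔇'.s.inn.n = 𝔇.s.inn.n := G.s.gt.inn.n_eq
  have hng : 𝔇'.g.n = 𝔇.g.n := G.g.n_eq
  have hsph : (pvxT ω).IsSph := delb_plane_isSph hG
  have hσ' : ∀ d' d, R d d' → pvxCol ω b ((pvxT ω).src d') = σ (T.src d) := fun d' d hd => (hσ d d' hd).symm
  refine ⟨𝔇, G, a1, hc, a2, pvlx_pinIn L hlen hPv G.s.gt.inn (fun i hi => hKs (s4 i hi)) le hA.pin_s.run mm, a4, ?_, ?_, ?_⟩
  · rw [← hns, ← hng]
    exact pvlx_pinOut L hlen hPv G.t.gt.inn (fun i hi => hKt (t4 i hi)) hA.pin_t.run mp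
  · obtain ⟨𝔖₂, o, hg⟩ := hos
    obtain ⟨𝔖₃, G₃⟩ := pvlw_gt_exists L.symm (τ := π.ts.outer o) hK2s hg
    exact ⟨𝔖₃, o, pvlw_gate L.symm hsph hσ' G₃ (τ := π.ts.outer o) hK2s hg⟩
  · obtain ⟨𝔖₂, o, hg⟩ := hot
    obtain ⟨𝔖₃, G₃⟩ := pvlw_gt_exists L.symm (τ := π.tt.outer o) hK2t hg
    exact ⟨𝔖₃, o, pvlw_gate L.symm hsph hσ' G₃ (τ := π.tt.outer o) hK2t hg⟩

end plane

/-! ## 3. The instance -/

section inst

variable {X : Type} {𝔅 : PvBulk X} {Y K : Set ℂ}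

/-- **all that the wall reads of a completion through the shared patch**, against a triangulation `pl` of the plane (`pl = delbPl Y`, the total plane of 219) -/
structure PvlxB (𝔅 : PvBulk X) (Y K : Set ℂ) (zi : ℂ) (pl : PlTri ↥Y) (R : 𝔅.D Y → pl.Dart → Prop) : Prop where
  loc : PvLocP (𝔅.T Y) pl.toMap R (𝔅.posF Y zi) Subtype.val K
  col : ∀ (s : 𝔅.V Y → Bool) (σ : ℂ → Bool), DelbCol 𝔅 s σ → ∀ d e, R d e → s ((𝔅.T Y).src d) = σ (pl.toMap.src e : ℂ)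
  enc : ∀ (c : (𝔅.T Y).Cyc) (k : ℕ) (e : pl.Dart), R (c.e k) e → (pl.toMap.src e : ℂ) ∈ K →
    (𝔅.enc Y zi c).z k = pl.toMap.bary Subtype.val (pl.toMap.opp e) ∧ (𝔅.enc Y zi c).xQ k = pl.toMap.qpart Subtype.val (pl.toMap.opp e) ∧
      (𝔅.enc Y zi c).xV k = pl.toMap.side Subtype.val (pl.toMap.opp e)

theorem pvlx_bulk (h : DelGood Y) (hOk : 𝔅.Ok Y K) {zi : ℂ} (hzi : zi ∉ K) : ∃ R, PvlxB 𝔅 Y K zi (delbPl Y) R := by
  rw [delb_pl_eq h]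
  refine ⟨pvlocR 𝔅 h K, pvlw_bulk h hOk hzi, fun s σ hs => pvloc_bulk_col hs, fun c k e hr hK => ?_⟩
  have hemb : 𝔅.Emb _ ((𝔅.T _).opp (c.e k)) := delb_emb_opp_of_src hOk hr.1.1 hK
  have hr' := delb_rel_opp hr.1
  refine ⟨?_, ?_, ?_⟩
  · unfold PvBulk.enc
    simp only
    rw [if_pos hemb]
    exact delb_rel_bary hOk hr' hemb
  · unfold PvBulk.enc
    simp only
    rw [if_pos hemb]
    exact delb_rel_qpart hOk hr' hemb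
  · unfold PvBulk.enc
    simp only
    rw [if_pos hemb]
    exact delb_rel_side hr'

theorem pvlx_zi {x : ℂ} {R : ℝ} (hR : 0 < R) : x + 7 * (R : ℂ) ∉ Metric.closedBall x (6 * R) := by
  rw [mem_closedBall_iff_norm, add_sub_cancel_left, norm_mul, Complex.norm_real, Real.norm_of_nonneg hR.le]
  have : ‖(7 : ℂ)‖ = 7 := by simp
  rw [this]
  linarith

/-- **what an encoded rim of `pvhbAll` is**, against the plane of record -/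
theorem pvlx_all {x : ℂ} {R : ℝ} (hR : 0 < R) {ω : PVSample} (hG : DelGood (pvxY ω)) {P : PvbRim} (hP : P ∈ pvhbAll x R ω) :
    ∃ (X : Type) (𝔅 : PvBulk X) (ξ : X → Bool) (c : (𝔅.T (pvxY ω)).Cyc) (Rl : 𝔅.D (pvxY ω) → (delbPl (pvxY ω)).Dart → Prop),
      𝔅.Ok (pvxY ω) (Metric.closedBall x (6 * R)) ∧ c.IsRim (𝔅.col (pvConf ω) ξ) ∧ P = 𝔅.enc (pvxY ω) (x + 7 * R) c ∧
      PvlxB 𝔅 (pvxY ω) (Metric.closedBall x (6 * R)) (x + 7 * R) (delbPl (pvxY ω)) Rl := by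
  obtain ⟨X, -, 𝔅, ξ, -, hOk, c, hc, -, rfl⟩ := hP
  obtain ⟨Rl, hB⟩ := pvlx_bulk (𝔅 := 𝔅) hG hOk (pvlx_zi hR)
  exact ⟨X, 𝔅, ξ, c, Rl, hOk, hc, rfl, hB⟩

end inst

/-! ## 4. The exits -/

section exits

variable {x : ℂ} {R : ℝ} {ω : PVSample} {P : PvbRim}

/-- `NBU` of `Tr/LocalW` IS `NBon` of 78 (`Tr/C2Dom`) -/
theorem pvlx_nbon {V D : Type} {T : PvMap V D} (𝔇 : PvwDat T) (M : Set V) (σ : V → Bool) : 𝔇.NBon M σ ↔ 𝔇.NBU M σ := Iff.rfl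

/-- **ACT-EXIT** = (C1) FOR THE DATA OF RECORD: `P` an encoded rim of ANY completion of the sample, `𝔇` a plane datum, well formed for `π`, ACTUAL for `P` (encoded form), the two gate discs and `g₀` inside `closedBall x (6R)`.
Then no bypass of colour `b` on the right of `g₀` through sites of `closedBall x (6R)`. -/
theorem pvlx_act (hR : 0 < R) (hG : DelGood (pvxY ω)) (hP : P ∈ pvhbAll x R ω) {𝔇 : PvwDat (pvxT ω)} {N : PvwNum} {h : ℝ} {π : PvwPat} {b : Bool} {j : ℕ}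
    (hKs : Metric.closedBall π.zs (π.ts.b * h) ⊆ Metric.closedBall x (6 * R)) (hKt : Metric.closedBall π.zt (π.tt.b * h) ⊆ Metric.closedBall x (6 * R))
    (h2 : ∀ k, k ≤ 𝔇.g.n → ‖pvxPos ω (𝔇.g.v k) - x‖ ≤ 6 * R) (hok : 𝔇.Ok (pvxPos ω) N h π) (hA : PvxActual 𝔇 N h π b P j) :
    𝔇.NBU {v | ‖pvxPos ω v - x‖ ≤ 6 * R} (pvxCol ω b) := by
  obtain ⟨X, 𝔅, ξ, c, Rl, hOk, hc, rfl, hB⟩ := pvlx_all hR hG hP
  have hσ : ∀ d d', Rl d d' → pvlfFl b (𝔅.col (pvConf ω) ξ) ((𝔅.T (pvxY ω)).src d) = pvxCol ω b ((pvxT ω).src d') := fun d d' hd => by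
    unfold pvlfFl pvxCol
    rw [hB.col _ _ (delb_col 𝔅 (pvConf ω) ξ) d d' hd]
    rfl
  have := pvlx_nbU (T := 𝔅.T (pvxY ω)) (R := Rl) hB.loc hOk.sph hσ ((pvlf_rim_fl b).2 hc) (fun _ => rfl) hKs hKt (fun k hk => mem_closedBall_iff_norm.2 (h2 k hk)) hok hA
  exact pvlw_nbU_anti (U' := {v | pvxPos ω v ∈ Metric.closedBall x (6 * R)}) (fun v (hv : ‖pvxPos ω v - x‖ ≤ 6 * R) => (mem_closedBall_iff_norm.2 hv : pvxPos ω v ∈ Metric.closedBall x (6 * R))) this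

/-- **(C1) AT THE MODEL** (`E(D) := NBon M`, ruling W-5 of 208): `M` = ANY set of sites of `closedBall x (6R)` -/
theorem pvlx_act_on (hR : 0 < R) (hG : DelGood (pvxY ω)) (hP : P ∈ pvhbAll x R ω) {𝔇 : PvwDat (pvxT ω)} {N : PvwNum} {h : ℝ} {π : PvwPat} {b : Bool} {j : ℕ}
    (hKs : Metric.closedBall π.zs (π.ts.b * h) ⊆ Metric.closedBall x (6 * R)) (hKt : Metric.closedBall π.zt (π.tt.b * h) ⊆ Metric.closedBall x (6 * R))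
    (h2 : ∀ k, k ≤ 𝔇.g.n → ‖pvxPos ω (𝔇.g.v k) - x‖ ≤ 6 * R) (hok : 𝔇.Ok (pvxPos ω) N h π) (hA : PvxActual 𝔇 N h π b P j)
    {M : Set ↥(pvxY ω)} (hM : ∀ v ∈ M, ‖pvxPos ω v - x‖ ≤ 6 * R) : 𝔇.NBon M (pvxCol ω b) :=
  pvlw_nbU_anti (U' := {v | ‖pvxPos ω v - x‖ ≤ 6 * R}) hM (pvlx_act hR hG hP hKs hKt h2 hok hA)

/-- **THE WINDOWS OF AN ENCODED RIM ARE READ ON THE PLANE**: a plane path `p` whose positions are `P.v o, …, P.v (o + p.n)`, inside `closedBall x (6R)` -/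
theorem pvlx_enc (hR : 0 < R) (hG : DelGood (pvxY ω)) (hP : P ∈ pvhbAll x R ω) (p : (pvxT ω).Pth) {o : ℕ} (hv : ∀ i, i ≤ p.n → P.v (o + i) = pvxPos ω (p.v i))
    (hK : ∀ i, i ≤ p.n → ‖pvxPos ω (p.v i) - x‖ ≤ 6 * R) {i : ℕ} (hi : i < p.n) :
    P.z (o + i) = (pvxT ω).bary (pvxPos ω) ((pvxT ω).opp (p.e i)) ∧ P.xQ (o + i) = (pvxT ω).qpart (pvxPos ω) ((pvxT ω).opp (p.e i)) ∧
      P.xV (o + i) = (pvxT ω).side (pvxPos ω) ((pvxT ω).opp (p.e i)) := by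
  obtain ⟨X, 𝔅, ξ, c, Rl, hOk, hc, rfl, hB⟩ := pvlx_all hR hG hP
  have hK' : ∀ i, i ≤ p.n → pvxPos ω (p.v i) ∈ Metric.closedBall x (6 * R) := fun i hi => mem_closedBall_iff_norm.2 (hK i hi)
  have hd := pvlx_dart (T' := pvxT ω) (pos' := pvxPos ω) hB.loc (pvlx_simple ω) (pvlx_pos_inj ω) c p hv hK' hi
  refine hB.enc c (o + i) (p.e i) hd ?_
  have := hK' i hi.le
  rwa [← p.src_e i hi] at this

/-- **the hypotheses `hs hg ht` of `pvdc_X_dat`** (195) for the field `y_a = xQ - a xV` -/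
theorem pvlx_win (hR : 0 < R) (hG : DelGood (pvxY ω)) (hP : P ∈ pvhbAll x R ω) {𝔇 : PvwDat (pvxT ω)} {N : PvwNum} {h : ℝ} {π : PvwPat} {b : Bool} {j : ℕ}
    (hKs : Metric.closedBall π.zs (π.ts.b * h) ⊆ Metric.closedBall x (6 * R)) (hKt : Metric.closedBall π.zt (π.tt.b * h) ⊆ Metric.closedBall x (6 * R))
    (h2 : ∀ k, k ≤ 𝔇.g.n → ‖pvxPos ω (𝔇.g.v k) - x‖ ≤ 6 * R) (hok : 𝔇.Ok (pvxPos ω) N h π) (hA : PvxActual 𝔇 N h π b P j) (a : ℂ) :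
    (∀ i, i < 𝔇.s.inn.n → P.z (j + i) = (pvxT ω).bary (pvxPos ω) ((pvxT ω).opp (𝔇.s.inn.e i)) ∧
      P.xQ (j + i) - a * P.xV (j + i) = (pvxT ω).qpart (pvxPos ω) ((pvxT ω).opp (𝔇.s.inn.e i)) - a * (pvxT ω).side (pvxPos ω) ((pvxT ω).opp (𝔇.s.inn.e i))) ∧
    (∀ i, i < 𝔇.g.n → P.z (j + 𝔇.s.inn.n + i) = (pvxT ω).bary (pvxPos ω) ((pvxT ω).opp (𝔇.g.e i)) ∧
      P.xQ (j + 𝔇.s.inn.n + i) - a * P.xV (j + 𝔇.s.inn.n + i) = (pvxT ω).qpart (pvxPos ω) ((pvxT ω).opp (𝔇.g.e i)) - a * (pvxT ω).side (pvxPos ω) ((pvxT ω).opp (𝔇.g.e i))) ∧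
    (∀ i, i < 𝔇.t.inn.n → P.z (j + 𝔇.s.inn.n + 𝔇.g.n + i) = (pvxT ω).bary (pvxPos ω) ((pvxT ω).opp (𝔇.t.inn.e i)) ∧
      P.xQ (j + 𝔇.s.inn.n + 𝔇.g.n + i) - a * P.xV (j + 𝔇.s.inn.n + 𝔇.g.n + i) =
        (pvxT ω).qpart (pvxPos ω) ((pvxT ω).opp (𝔇.t.inn.e i)) - a * (pvxT ω).side (pvxPos ω) ((pvxT ω).opp (𝔇.t.inn.e i))) := by
  obtain ⟨-, -, -, s4⟩ := pvlx_inner hok.st_s.gate
  obtain ⟨-, -, -, t4⟩ := pvlx_inner hok.st_t.gate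
  refine ⟨fun i hi => ?_, fun i hi => ?_, fun i hi => ?_⟩
  · obtain ⟨e1, e2, e3⟩ := pvlx_enc hR hG hP 𝔇.s.inn hA.pin_s.run (fun i hi => mem_closedBall_iff_norm.1 (hKs (s4 i hi))) hi
    exact ⟨e1, by rw [e2, e3]⟩
  · obtain ⟨e1, e2, e3⟩ := pvlx_enc hR hG hP 𝔇.g hA.arc h2 hi
    exact ⟨e1, by rw [e2, e3]⟩
  · obtain ⟨e1, e2, e3⟩ := pvlx_enc hR hG hP 𝔇.t.inn hA.pin_t.run (fun i hi => mem_closedBall_iff_norm.1 (hKt (t4 i hi))) hi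
    exact ⟨e1, by rw [e2, e3]⟩

/-- the disc of a gate whose marked vertex lies in `closedBall x (5R)` lies in `closedBall x (6R)` as soon as `(1 + b) h ≤ R` -/
theorem pvlx_disc_6R {𝔖 : PvwSt (pvxT ω)} {h : ℝ} {z : ℂ} {τ : PvwTy} {s : ↥(pvxY ω) → Bool} (hg : 𝔖.Gate (pvxPos ω) h z τ s) (hb : (1 + τ.b) * h ≤ R)
    (h5 : ‖pvxPos ω (𝔖.inn.v 𝔖.ip) - x‖ ≤ 5 * R) : Metric.closedBall z (τ.b * h) ⊆ Metric.closedBall x (6 * R) := by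
  intro w hw
  rw [mem_closedBall_iff_norm] at hw ⊢
  have h1 := hg.ip_near
  have h2 : w - x = (w - z) - (pvxPos ω (𝔖.inn.v 𝔖.ip) - z) + (pvxPos ω (𝔖.inn.v 𝔖.ip) - x) := by ring
  have h3 : ‖w - x‖ ≤ ‖w - z‖ + ‖pvxPos ω (𝔖.inn.v 𝔖.ip) - z‖ + ‖pvxPos ω (𝔖.inn.v 𝔖.ip) - x‖ := by
    rw [h2]
    exact (norm_add_le _ _).trans (add_le_add_left (norm_sub_le _ _) _)
  nlinarith

/-- **(C1) AT THE MODEL, IN THE FORM OF `pvxFit` / `Pvn1bAct`** (field `c1` of `Pvn1bKit`, 60): the window `j .. j + |inn s| + |g₀| + |inn t|` of `P` lies in `closedBall x (5R)`, the level is fine: `(1 + b) h ≤ R` -/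
theorem pvlx_act_fit (hR : 0 < R) (hG : DelGood (pvxY ω)) (hP : P ∈ pvhbAll x R ω) {𝔇 : PvwDat (pvxT ω)} {N : PvwNum} {h : ℝ} {π : PvwPat} {b : Bool} {j : ℕ}
    (hbs : (1 + π.ts.b) * h ≤ R) (hbt : (1 + π.tt.b) * h ≤ R) (h5 : ∀ k, j ≤ k → k ≤ j + 𝔇.s.inn.n + 𝔇.g.n + 𝔇.t.inn.n → ‖P.v k - x‖ ≤ 5 * R)
    (hok : 𝔇.Ok (pvxPos ω) N h π) (hA : PvxActual 𝔇 N h π b P j) {M : Set ↥(pvxY ω)} (hM : ∀ v ∈ M, ‖pvxPos ω v - x‖ ≤ 6 * R) : 𝔇.NBon M (pvxCol ω b) := by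
  have gs := hok.st_s.gate
  have gt := hok.st_t.gate
  refine pvlx_act_on hR hG hP (pvlx_disc_6R gs hbs ?_) (pvlx_disc_6R gt hbt ?_) (fun k hk => ?_) hok hA hM
  · rw [← hA.pin_s.run _ gs.ip_le]
    exact h5 _ (by omega) (by have := gs.ip_le; omega)
  · rw [← hA.pin_t.run _ gt.ip_le]
    exact h5 _ (by omega) (by have := gt.ip_le; omega)
  · rw [← hA.arc k hk]
    exact (h5 _ (by omega) (by omega)).trans (by linarith)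

/-- **THE SEAM FOR AN ACTUAL DATUM**: `P` an encoded rim of a completion, `𝔇` a plane datum, well formed and ACTUAL for `P` (encoded form), with outer actual gates; everything inside `closedBall x (6R)`.
Then THE COMPLETION carries a twin datum which is well formed and `Actual` for the rim `c` itself: all the map level theorems on `(Ok, Actual)` ((C1) of 194, witnesses of 179, clocks of 42 ..) apply on the finite sphere `𝔅.T`. -/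
theorem pvlx_seam (hR : 0 < R) (hG : DelGood (pvxY ω)) (hP : P ∈ pvhbAll x R ω) {𝔇 : PvwDat (pvxT ω)} {N : PvwNum} {h : ℝ} {π : PvwPat} {b : Bool} {j : ℕ}
    (hKs : Metric.closedBall π.zs (π.ts.b * h) ⊆ Metric.closedBall x (6 * R)) (hBs : pvwSq π.zs (pvwRad N h π.ts π.ts.k) ⊆ Metric.closedBall x (6 * R))
    (hKt : Metric.closedBall π.zt (π.tt.b * h) ⊆ Metric.closedBall x (6 * R)) (hBt : pvwSq π.zt (pvwRad N h π.tt π.tt.k) ⊆ Metric.closedBall x (6 * R))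
    (hK2s : Metric.closedBall π.zs (π.ts.b2 * h) ⊆ Metric.closedBall x (6 * R)) (hK2t : Metric.closedBall π.zt (π.tt.b2 * h) ⊆ Metric.closedBall x (6 * R))
    (hY : π.Yin \ π.Ycol ⊆ Metric.closedBall x (6 * R)) (h2 : ∀ k, k ≤ 𝔇.g.n → ‖pvxPos ω (𝔇.g.v k) - x‖ ≤ 6 * R) (hok : 𝔇.Ok (pvxPos ω) N h π) (hA : PvxActual 𝔇 N h π b P j)
    (hos : ∃ (𝔖₂ : PvwSt (pvxT ω)) (o : Bool), 𝔖₂.Gate (pvxPos ω) h π.zs (π.ts.outer o) (pvxCol ω b))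
    (hot : ∃ (𝔖₂ : PvwSt (pvxT ω)) (o : Bool), 𝔖₂.Gate (pvxPos ω) h π.zt (π.tt.outer o) (pvxCol ω b)) :
    ∃ (X : Type) (𝔅 : PvBulk X) (ξ : X → Bool) (c : (𝔅.T (pvxY ω)).Cyc) (Rl : 𝔅.D (pvxY ω) → (delbPl (pvxY ω)).Dart → Prop) (𝔇c : PvwDat (𝔅.T (pvxY ω))),
      𝔅.Ok (pvxY ω) (Metric.closedBall x (6 * R)) ∧ c.IsRim (𝔅.col (pvConf ω) ξ) ∧ P = 𝔅.enc (pvxY ω) (x + 7 * R) c ∧
      PvlxB 𝔅 (pvxY ω) (Metric.closedBall x (6 * R)) (x + 7 * R) (delbPl (pvxY ω)) Rl ∧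
      (∀ d d', Rl d d' → pvlfFl b (𝔅.col (pvConf ω) ξ) ((𝔅.T (pvxY ω)).src d) = pvxCol ω b ((pvxT ω).src d')) ∧ PvLocDat Rl 𝔇c 𝔇 ∧
      𝔇c.Ok (𝔅.posF (pvxY ω) (x + 7 * R)) N h π ∧ 𝔇c.Actual (𝔅.posF (pvxY ω) (x + 7 * R)) N h π (pvlfFl b (𝔅.col (pvConf ω) ξ)) c j := by
  obtain ⟨X, 𝔅, ξ, c, Rl, hOk, hc, rfl, hB⟩ := pvlx_all hR hG hP
  have hσ : ∀ d d', Rl d d' → pvlfFl b (𝔅.col (pvConf ω) ξ) ((𝔅.T (pvxY ω)).src d) = pvxCol ω b ((pvxT ω).src d') := fun d d' hd => by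
    unfold pvlfFl pvxCol
    rw [hB.col _ _ (delb_col 𝔅 (pvConf ω) ξ) d d' hd]
    rfl
  have h2' : ∀ k, k ≤ 𝔇.g.n → pvxPos ω (𝔇.g.v k) ∈ Metric.closedBall x (6 * R) := fun k hk => mem_closedBall_iff_norm.2 (h2 k hk)
  obtain ⟨𝔇c, G, hAc⟩ := pvlx_actual (T := 𝔅.T (pvxY ω)) (R := Rl) hB.loc hG hσ ((pvlf_rim_fl b).2 hc) rfl (fun _ => rfl) hKs hBs hKt hBt hK2s hK2t h2' hok hA
    hA.pin_s.le hA.pin_s.mouth_m hA.pin_t.mouth_p hos hot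
  exact ⟨X, 𝔅, ξ, c, Rl, 𝔇c, hOk, hc, rfl, hB, hσ, G, pvlw_ok hB.loc.symm (delb_plane_isSph hG) G.symm hKs hBs hKt hY h2' hok, hAc⟩

end exits

end Claimed.Agent.R289
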