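import Claimed.Agent.R289.Tr.Dom
import Claimed.Agent.R289.Tr.StateP

/-!
# Row 289 (S0537, Cardy for Poisson-Voronoi), THE WALL, ROAD P, item P16' = THE WHITE LANE, file Tr/ForceW      (helper147, squad of helper272 `Tr/ForceP.lean`; prefix `pvfw_`, `pvfw`, `Pvfw`)

Blueprint: `origin/helper273:notes/R289/ROADP_273.md` P16' (D2 + D4 of 131):   `P(W | η, σ_s, σ_t) ≥ q_cont β²` ON `Hq_s ∩ Hq_t`.
CONSUMER: the field `hq` of `PvdmSys.Hyp` (159, `Tr/Dom.lean`), VERBATIM:   `S.q ≤ colLaw ℂ {κ | cfOf Y (pvdmOv (S.frz i (cfOf Y σ))ᶜ κ σ) ∈ S.WO i}`      (instance: 59 `Tr/N1SysP.lean`, 279 `Tr/N1P.lean`).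
PRODUCERS: `Hq_τ` of 185 (`pvspHq`, `Tr/StateP.lean`: `β ≤ pvpQ (Mp \ O) (!col) L^{+,w} ξ`, `β ≤ pvpQ (Mm \ O) (!col) L^{-,w} ξ`),   the net of the lane `q ≤ pvpQ S₃ (!col) K ξ` (`PvmwGood.Q_ge` of 277, `Tr/LaneW.lean`),
the inclusion `L^{+,w}(s) ∩ L^{-,w}(t) ∩ K ⊆ W` (hook lemma of 272, `pvfp_hook`, `pvfp_lane_glue`).

EVERYTHING IS QUENCHED AND LABEL FREE: the set of sites `Y` is fixed, a colouring is `σ : ℂ → Bool`, the configuration is `cfOf Y σ`.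
* sec. 1 (any type `V` of sites, also uncountable)   `pvfwPr G σ A = colLaw V {κ | pvfqMix G (σ, κ) ∈ A}` = the law of the colours given that the colours of `G` are those of `σ`;
     `PvfwReads R A`, `PvfwUp b G σ A` (on the cylinder, more colour `b` keeps `A`);   `pvfw_pr_congr` (change of the frozen set),   `pvfw_meas` (an event read on a finite set is measurable),
     **`pvfw_harris`** (Harris given the cylinder for events read on `G ∪ T`, `T` FINITE: no countability of `V`),   **`pvfw_core`** : `Pr G₁ A₁ * Pr G₂ A₂ * Pr G₃ A₃ ≤ Pr F W`.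
* sec. 2 (bridge)   **`pvfw_Q_eq`** : `ENNReal.ofReal (pvpQ S b 𝒜 (cfOf Y σ)) = colLaw ℂ {κ | cfOf Y (pvdmOv S κ σ) ∈ 𝒜}` when `Y ∩ S` is finite.
* sec. 3   **`pvfw_lane`** = P16' in the shape of `hq`;   **`pvfw_lane_P`** = the same on `pvspHq` of 185.
-/

set_option autoImplicit false
set_option linter.unusedSectionVars false
set_option linter.unusedVariables false

namespace Claimed.Agent.R289

open MeasureTheory ProbabilityTheory Set
open scoped ENNReal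

/-! ## 1. the abstract core: fair colours on an arbitrary set of sites, a frozen set, events read on finitely many fresh sites -/

section core

variable {V : Type}

/-- the law of the colours given that the colours of `G` are those of `σ` (fresh fair colours off `G`), as an OUTER probability -/
noncomputable def pvfwPr (G : Set V) (σ : V → Bool) (A : Set (V → Bool)) : ℝ≥0∞ := colLaw V {κ | pvfqMix G (σ, κ) ∈ A}

/-- `A` reads the colours of `R` only -/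
def PvfwReads (R : Set V) (A : Set (V → Bool)) : Prop := ∀ s s' : V → Bool, (∀ v ∈ R, s v = s' v) → s ∈ A → s' ∈ A

/-- ON THE CYLINDER `{s = σ on G}`: more sites of colour `b` keep `A` -/
def PvfwUp (b : Bool) (G : Set V) (σ : V → Bool) (A : Set (V → Bool)) : Prop :=
  ∀ s s' : V → Bool, (∀ v ∈ G, s v = σ v) → (∀ v ∈ G, s' v = σ v) → (∀ v, s v = b → s' v = b) → s ∈ A → s' ∈ A

theorem pvfwq_eqns_cite : True := by
  have := @pvfwPr.eq_1; have := @PvfwReads.eq_1; have := @PvfwUp.eq_1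
  trivial

theorem PvfwReads.iff {R : Set V} {A : Set (V → Bool)} (h : PvfwReads R A) {s s' : V → Bool} (e : ∀ v ∈ R, s v = s' v) : s ∈ A ↔ s' ∈ A :=
  ⟨h s s' e, h s' s fun v hv => (e v hv).symm⟩

theorem PvfwReads.mono {R R' : Set V} {A : Set (V → Bool)} (h : PvfwReads R A) (hR : R ⊆ R') : PvfwReads R' A :=
  fun s s' e => h s s' fun v hv => e v (hR hv)

theorem PvfwReads.inter {R : Set V} {A B : Set (V → Bool)} (hA : PvfwReads R A) (hB : PvfwReads R B) : PvfwReads R (A ∩ B) :=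
  fun s s' e hs => ⟨hA s s' e hs.1, hB s s' e hs.2⟩

theorem PvfwUp.inter {b : Bool} {G : Set V} {σ : V → Bool} {A B : Set (V → Bool)} (hA : PvfwUp b G σ A) (hB : PvfwUp b G σ B) : PvfwUp b G σ (A ∩ B) :=
  fun s s' h h' e hs => ⟨hA s s' h h' e hs.1, hB s s' h h' e hs.2⟩

theorem pvfw_pr_mono (G : Set V) (σ : V → Bool) {A B : Set (V → Bool)} (h : ∀ s, (∀ v ∈ G, s v = σ v) → s ∈ A → s ∈ B) : pvfwPr G σ A ≤ pvfwPr G σ B :=
  measure_mono fun κ hκ => h _ (fun v hv => pvfqMix_of_mem hv _) hκ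

/-- **change of the frozen set**: only the trace of the frozen set on what `A` reads matters -/
theorem pvfw_pr_congr {G G' R : Set V} (σ : V → Bool) {A : Set (V → Bool)} (hA : PvfwReads R A) (h : ∀ v ∈ R, (v ∈ G ↔ v ∈ G')) : pvfwPr G σ A = pvfwPr G' σ A := by
  unfold pvfwPr
  congr 1
  ext κ
  refine hA.iff fun v hv => ?_
  by_cases hG : v ∈ G
  · rw [pvfqMix_of_mem hG, pvfqMix_of_mem ((h v hv).1 hG)]
  · rw [pvfqMix_of_notMem hG, pvfqMix_of_notMem fun h' => hG ((h v hv).2 h')]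

/-- an event read on a finite set of sites is measurable -/
theorem pvfw_meas (T : Finset V) {A : Set (V → Bool)} (hA : PvfwReads (T : Set V) A) : MeasurableSet A := by
  classical
  have hm : Measurable (fun (s : V → Bool) (v : T) => s v) := measurable_pi_lambda _ fun v => measurable_pi_apply _
  have e : A = (fun (s : V → Bool) (v : T) => s v) ⁻¹' {f | ∃ s ∈ A, ∀ v : T, s v = f v} := by
    ext s
    constructor
    · intro hs
      exact ⟨s, hs, fun _ => rfl⟩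
    · rintro ⟨s', hs', e⟩
      exact hA s' s (fun v hv => e ⟨v, hv⟩) hs'
  rw [e]
  exact hm (Set.toFinite _).measurableSet

/-- the section of an event which reads `G ∪ T` reads `T` -/
theorem pvfw_sec_reads {G T : Set V} (σ : V → Bool) {A : Set (V → Bool)} (hA : PvfwReads (G ∪ T) A) : PvfwReads T {κ | pvfqMix G (σ, κ) ∈ A} := by
  intro s s' e hs
  refine hA _ _ (fun v hv => ?_) hs
  by_cases hG : v ∈ G
  · rw [pvfqMix_of_mem hG, pvfqMix_of_mem hG]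
  · rw [pvfqMix_of_notMem hG, pvfqMix_of_notMem hG]
    exact e v (hv.resolve_left hG)

/-- Harris for fair colours on ANY set of sites, two events read on a finite set, both increasing in the colour `b` -/
theorem pvfw_harris0 (b : Bool) (T : Finset V) {A B : Set (V → Bool)} (rA : PvfwReads (T : Set V) A) (rB : PvfwReads (T : Set V) B)
    (uA : PvfwUp b ∅ (fun _ => b) A) (uB : PvfwUp b ∅ (fun _ => b) B) : colLaw V A * colLaw V B ≤ colLaw V (A ∩ B) := by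
  classical
  have ht : ∀ x y : Bool, (x = b → y = b) ∨ (y = b → x = b) := by
    intro x y
    by_cases hy : y = b
    · exact Or.inl fun _ => hy
    · exact Or.inr fun h => absurd h hy
  have hD : PvfDef (colLaw V) (pvfqLe (fun (_ : V) (x y : Bool) => x = b → y = b) (T : Set V)) univ 0 :=
    pvfq_finset (fun _ : V => (PMF.uniformOfFintype Bool).toMeasure) (fun _ _ h => h) T fun _ _ => pvfq_total ht
  have up : ∀ {A : Set (V → Bool)}, PvfwReads (T : Set V) A → PvfwUp b ∅ (fun _ => b) A →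
      PvfUp (pvfqLe (fun (_ : V) (x y : Bool) => x = b → y = b) (T : Set V)) univ A := by
    intro A rA uA x _ y _ hxy hx
    have h1 : (fun v => if v ∈ T then y v else x v) ∈ A := by
      refine uA x _ (fun v hv => absurd hv (Set.notMem_empty v)) (fun v hv => absurd hv (Set.notMem_empty v)) (fun v hv => ?_) hx
      by_cases hT : v ∈ T
      · simp only [hT, if_true]
        exact hxy v hT hv
      · simp only [hT, if_false]
        exact hv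
    refine rA _ y (fun v hv => ?_) h1
    have hv' : v ∈ T := hv
    simp only [hv', if_true]
  have : IsProbabilityMeasure (colLaw V) := by unfold colLaw; infer_instance
  exact hD.up_up (PvfEv.of_meas (pvfw_meas T rA)) (PvfEv.of_meas (pvfw_meas T rB)) (up rA uA) (up rB uB)

/-- **HARRIS GIVEN THE CYLINDER**, events read on `G ∪ T`, `T` finite -/
theorem pvfw_harris (b : Bool) (G : Set V) (σ : V → Bool) (T : Finset V) {A B : Set (V → Bool)} (rA : PvfwReads (G ∪ T) A) (rB : PvfwReads (G ∪ T) B)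
    (uA : PvfwUp b G σ A) (uB : PvfwUp b G σ B) : pvfwPr G σ A * pvfwPr G σ B ≤ pvfwPr G σ (A ∩ B) := by
  have up : ∀ {A : Set (V → Bool)}, PvfwUp b G σ A → PvfwUp b ∅ (fun _ => b) {κ | pvfqMix G (σ, κ) ∈ A} := by
    intro A uA s s' _ _ e hs
    refine uA _ _ (fun v hv => pvfqMix_of_mem hv _) (fun v hv => pvfqMix_of_mem hv _) (fun v hv => ?_) hs
    by_cases hG : v ∈ G
    · rw [pvfqMix_of_mem hG] at hv ⊢
      exact hv
    · rw [pvfqMix_of_notMem hG] at hv ⊢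
      exact e v hv
  exact pvfw_harris0 b T (pvfw_sec_reads σ rA) (pvfw_sec_reads σ rB) (up uA) (up uB)

/-- **THE CORE OF P16'**.   `F` = the frozen set of the consumer;   `A i` reads `R i ∪ T i` with `R i ⊆ F ∩ G i` (frozen in both laws) and `T i` finite, fresh in both laws. -/
theorem pvfw_core (b : Bool) (F : Set V) (σ : V → Bool) {G₁ G₂ G₃ R₁ R₂ R₃ : Set V} (T₁ T₂ T₃ : Finset V) {A₁ A₂ A₃ W : Set (V → Bool)}
    (r₁ : PvfwReads (R₁ ∪ T₁) A₁) (r₂ : PvfwReads (R₂ ∪ T₂) A₂) (r₃ : PvfwReads (R₃ ∪ T₃) A₃)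
    (hR₁ : R₁ ⊆ F ∩ G₁) (hR₂ : R₂ ⊆ F ∩ G₂) (hR₃ : R₃ ⊆ F ∩ G₃)
    (hT₁ : ∀ v ∈ T₁, v ∉ F ∧ v ∉ G₁) (hT₂ : ∀ v ∈ T₂, v ∉ F ∧ v ∉ G₂) (hT₃ : ∀ v ∈ T₃, v ∉ F ∧ v ∉ G₃)
    (u₁ : PvfwUp b F σ A₁) (u₂ : PvfwUp b F σ A₂) (u₃ : PvfwUp b F σ A₃)
    (glue : ∀ s, (∀ v ∈ F, s v = σ v) → s ∈ A₁ → s ∈ A₂ → s ∈ A₃ → s ∈ W) :
    pvfwPr G₁ σ A₁ * pvfwPr G₂ σ A₂ * pvfwPr G₃ σ A₃ ≤ pvfwPr F σ W := by
  classical
  have e₁ : pvfwPr G₁ σ A₁ = pvfwPr F σ A₁ := pvfw_pr_congr σ r₁ fun v hv => by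
    rcases hv with hv | hv
    · exact ⟨fun _ => (hR₁ hv).1, fun _ => (hR₁ hv).2⟩
    · exact ⟨fun h => absurd h (hT₁ v hv).2, fun h => absurd h (hT₁ v hv).1⟩
  have e₂ : pvfwPr G₂ σ A₂ = pvfwPr F σ A₂ := pvfw_pr_congr σ r₂ fun v hv => by
    rcases hv with hv | hv
    · exact ⟨fun _ => (hR₂ hv).1, fun _ => (hR₂ hv).2⟩
    · exact ⟨fun h => absurd h (hT₂ v hv).2, fun h => absurd h (hT₂ v hv).1⟩
  have e₃ : pvfwPr G₃ σ A₃ = pvfwPr F σ A₃ := pvfw_pr_congr σ r₃ fun v hv => by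
    rcases hv with hv | hv
    · exact ⟨fun _ => (hR₃ hv).1, fun _ => (hR₃ hv).2⟩
    · exact ⟨fun h => absurd h (hT₃ v hv).2, fun h => absurd h (hT₃ v hv).1⟩
  have q₁ : PvfwReads (F ∪ ((T₁ ∪ T₂ ∪ T₃ : Finset V) : Set V)) A₁ := r₁.mono fun v hv => by
    rcases hv with hv | hv
    · exact Or.inl (hR₁ hv).1
    · exact Or.inr (by have hv' : v ∈ T₁ := hv; simp [hv'])
  have q₂ : PvfwReads (F ∪ ((T₁ ∪ T₂ ∪ T₃ : Finset V) : Set V)) A₂ := r₂.mono fun v hv => by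
    rcases hv with hv | hv
    · exact Or.inl (hR₂ hv).1
    · exact Or.inr (by have hv' : v ∈ T₂ := hv; simp [hv'])
  have q₃ : PvfwReads (F ∪ ((T₁ ∪ T₂ ∪ T₃ : Finset V) : Set V)) A₃ := r₃.mono fun v hv => by
    rcases hv with hv | hv
    · exact Or.inl (hR₃ hv).1
    · exact Or.inr (by have hv' : v ∈ T₃ := hv; simp [hv'])
  rw [e₁, e₂, e₃]
  calc pvfwPr F σ A₁ * pvfwPr F σ A₂ * pvfwPr F σ A₃ ≤ pvfwPr F σ (A₁ ∩ A₂) * pvfwPr F σ A₃ :=
        mul_le_mul_left (pvfw_harris b F σ _ q₁ q₂ u₁ u₂) _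
    _ ≤ pvfwPr F σ ((A₁ ∩ A₂) ∩ A₃) := pvfw_harris b F σ _ (q₁.inter q₂) q₃ (u₁.inter u₂) u₃
    _ ≤ pvfwPr F σ W := pvfw_pr_mono F σ fun s hs h => glue s hs h.1.1 h.1.2 h.2

end core

/-! ## 2. the bridge between the three vocabularies of "resample the colours of a region at fixed geometry" -/

section bridge

/-- `pvdmOv` of 159 is `pvfqMix` of 103 -/
theorem pvfw_ov_eq (U : Set ℂ) (κ σ : ℂ → Bool) : pvdmOv U κ σ = pvfqMix Uᶜ (σ, κ) := by
  funext z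
  unfold pvdmOv pvfqMix
  by_cases h : z ∈ U
  · simp [h]
  · simp [h]

theorem pvfw_sites_cfOf (Y : Set ℂ) (σ : ℂ → Bool) : cfSites (cfOf Y σ) = Y := by
  ext z
  unfold cfSites cfOf
  constructor
  · rintro ⟨p, hp, rfl⟩
    exact hp.1
  · intro hz
    exact ⟨(z, σ z), ⟨hz, rfl⟩, rfl⟩

/-- the configuration `cfOf Y ·` reads the colours of the sites only -/
theorem pvfw_cfOf_reads (Y : Set ℂ) (𝒜 : Set (Conf PvPt)) : PvfwReads Y {s : ℂ → Bool | cfOf Y s ∈ 𝒜} := by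
  intro s s' e hs
  have h : cfOf Y s = cfOf Y s' := pvdm_cfOf_congr e
  show cfOf Y s' ∈ 𝒜
  rw [← h]
  exact hs

/-- repainting the strip = overwriting the colouring -/
theorem pvfw_paint_eq (Y S : Set ℂ) (b : Bool) (B : Finset ℂ) (σ : ℂ → Bool) :
    cfPaint S b B (cfOf Y σ) = cfOf Y (pvdmOv S (fun z => if z ∈ B then b else !b) σ) := by
  have hY : cfSites (cfOf Y σ) = Y := by
    ext z
    constructor
    · rintro ⟨p, hp, rfl⟩
      exact hp.1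
    · intro hz
      exact ⟨(z, σ z), ⟨hz, rfl⟩, rfl⟩
  ext p
  obtain ⟨z, c⟩ := p
  show (((z, c) ∈ (cfOf Y σ).pts ∧ z ∉ S) ∨ (z ∈ cfSites (cfOf Y σ) ∧ z ∈ S ∧ c = _)) ↔ (z ∈ Y ∧ c = pvdmOv S _ σ z)
  rw [hY]
  by_cases hS : z ∈ S
  · rw [pvdm_ov_mem hS]
    constructor
    · rintro (⟨-, h⟩ | ⟨h1, -, h2⟩)
      · exact absurd hS h
      · refine ⟨h1, h2.trans ?_⟩
        by_cases hB : z ∈ B
        · simp only [if_pos hB]
        · simp only [if_neg hB]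
    · rintro ⟨h1, h2⟩
      refine Or.inr ⟨h1, hS, h2.trans ?_⟩
      by_cases hB : z ∈ B
      · simp only [if_pos hB]
      · simp only [if_neg hB]
  · rw [pvdm_ov_notMem hS]
    constructor
    · rintro (⟨h, -⟩ | ⟨-, h, -⟩)
      · exact h
      · exact absurd h hS
    · intro h
      exact Or.inl ⟨h, hS⟩

/-- fair colours: an event which is a function of the set of sites of colour `b` in a finite set `J` -/
theorem pvfw_count {V : Type} (b : Bool) (J : Finset V) (U : Finset V → Prop) :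
    colLaw V {κ | U (J.filter fun v => κ v = b)} = ENNReal.ofReal ((pvpCnt J U : ℝ) / 2 ^ J.card) := by
  classical
  set σ : Finset V → V → Bool := fun C v => if v ∈ C then b else !b with hσ
  set Cy : Finset V → Set (V → Bool) := fun C => {s | ∀ v ∈ J, s v = σ C v} with hCy
  have hnb : (!b) ≠ b := by cases b <;> simp
  -- the set of sites of colour `b` on a cylinder
  have hfil : ∀ C, C ⊆ J → ∀ κ ∈ Cy C, (J.filter fun v => κ v = b) = C := by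
    intro C hC κ hκ
    ext v
    rw [Finset.mem_filter]
    constructor
    · rintro ⟨hv, h⟩
      by_contra hc
      have := hκ v hv
      rw [hσ] at this
      simp only [if_neg hc] at this
      exact hnb (this.symm.trans h)
    · intro hv
      refine ⟨hC hv, ?_⟩
      have := hκ v (hC hv)
      rw [hσ] at this
      simpa only [if_pos hv] using this
  have hself : ∀ κ : V → Bool, κ ∈ Cy (J.filter fun v => κ v = b) := by
    intro κ v hv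
    show κ v = if v ∈ (J.filter fun v => κ v = b) then b else !b
    by_cases h : κ v = b
    · rw [if_pos (Finset.mem_filter.2 ⟨hv, h⟩), h]
    · have hn : v ∉ (J.filter fun v => κ v = b) := fun hc => h (Finset.mem_filter.1 hc).2
      rw [if_neg hn]
      revert h
      cases κ v <;> cases b <;> simp
  have e : {κ : V → Bool | U (J.filter fun v => κ v = b)} = ⋃ C ∈ J.powerset.filter U, Cy C := by
    ext κ
    simp only [mem_ofPred_eq, mem_iUnion, Finset.mem_filter, Finset.mem_powerset, exists_prop]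
    constructor
    · intro h
      exact ⟨_, ⟨Finset.filter_subset _ _, h⟩, hself κ⟩
    · rintro ⟨C, ⟨hC, hU⟩, hκ⟩
      rw [hfil C hC κ hκ]
      exact hU
  have hmeas : ∀ C, MeasurableSet (Cy C) := by
    intro C
    have : Cy C = ⋂ v ∈ J, (fun s : V → Bool => s v) ⁻¹' {σ C v} := by
      ext s
      simp only [hCy, mem_ofPred_eq, mem_iInter, mem_preimage, mem_singleton_iff]
    rw [this]
    exact Finset.measurableSet_biInter _ fun v _ => (measurable_pi_apply v) (measurableSet_singleton _)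
  have hdis : Set.PairwiseDisjoint (↑(J.powerset.filter U)) Cy := by
    intro C hC C' hC' hne
    rw [Function.onFun, Set.disjoint_left]
    intro κ h1 h2
    have a1 := hfil C (Finset.mem_powerset.1 (Finset.mem_filter.1 hC).1) κ h1
    have a2 := hfil C' (Finset.mem_powerset.1 (Finset.mem_filter.1 hC').1) κ h2
    exact hne (a1.symm.trans a2)
  rw [e, measure_biUnion_finset hdis fun C _ => hmeas C, Finset.sum_congr rfl fun C _ => pvf_colLaw_cyl J (σ C), Finset.sum_const, nsmul_eq_mul]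
  have hc : pvpCnt J U = (J.powerset.filter U).card := by
    unfold pvpCnt
    congr
  rw [hc, div_eq_mul_inv, ENNReal.ofReal_mul (Nat.cast_nonneg _), ENNReal.ofReal_natCast, ← inv_pow, ENNReal.ofReal_pow (by norm_num), ENNReal.ofReal_inv_of_pos (by norm_num)]
  norm_num

/-- **THE BRIDGE** `pvpQ` (263) `↔ colLaw ℂ` + `pvdmOv` (159) -/
theorem pvfw_Q_eq {Y S : Set ℂ} (hfin : (Y ∩ S).Finite) (b : Bool) (𝒜 : Set (Conf PvPt)) (σ : ℂ → Bool) :
    ENNReal.ofReal (pvpQ S b 𝒜 (cfOf Y σ)) = colLaw ℂ {κ | cfOf Y (pvdmOv S κ σ) ∈ 𝒜} := by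
  classical
  have hY : cfSites (cfOf Y σ) = Y := by
    ext z
    constructor
    · rintro ⟨p, hp, rfl⟩
      exact hp.1
    · intro hz
      exact ⟨(z, σ z), ⟨hz, rfl⟩, rfl⟩
  have hJ : ∀ z, z ∈ cfStrip S (cfOf Y σ) ↔ z ∈ Y ∧ z ∈ S := by
    intro z
    unfold cfStrip
    rw [dif_pos (by rw [hY]; exact hfin), Set.Finite.mem_toFinset, hY]
    exact Iff.rfl
  unfold pvpQ
  rw [← pvfw_count b (cfStrip S (cfOf Y σ)) (pvpTab S b 𝒜 (cfOf Y σ))]
  congr 1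
  ext κ
  show pvpTab S b 𝒜 (cfOf Y σ) _ ↔ cfOf Y (pvdmOv S κ σ) ∈ 𝒜
  unfold pvpTab
  rw [pvfw_paint_eq]
  have : cfOf Y (pvdmOv S (fun z => if z ∈ (cfStrip S (cfOf Y σ)).filter (fun v => κ v = b) then b else !b) σ) = cfOf Y (pvdmOv S κ σ) := by
    refine pvdm_cfOf_congr fun z hz => ?_
    by_cases hS : z ∈ S
    · rw [pvdm_ov_mem hS, pvdm_ov_mem hS]
      by_cases h : κ z = b
      · rw [if_pos (Finset.mem_filter.2 ⟨(hJ z).2 ⟨hz, hS⟩, h⟩), h]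
      · have hn : z ∉ (cfStrip S (cfOf Y σ)).filter (fun v => κ v = b) := fun hc => h (Finset.mem_filter.1 hc).2
        rw [if_neg hn]
        revert h
        cases κ z <;> cases b <;> simp
    · rw [pvdm_ov_notMem hS, pvdm_ov_notMem hS]
  rw [this]

end bridge

/-! ## 3. P16' -/

section lane

/-- at the sites `Y` the event `𝒜` reads the colours of the sites of `R` only -/
def PvfwRd (Y R : Set ℂ) (𝒜 : Set (Conf PvPt)) : Prop := ∀ s s' : ℂ → Bool, (∀ z ∈ Y, z ∈ R → s z = s' z) → cfOf Y s ∈ 𝒜 → cfOf Y s' ∈ 𝒜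

/-- at the sites `Y`, the colours of `F` being those of `σ`: more sites of colour `b` keep `𝒜` -/
def PvfwInc (b : Bool) (Y F : Set ℂ) (σ : ℂ → Bool) (𝒜 : Set (Conf PvPt)) : Prop :=
  ∀ s s' : ℂ → Bool, (∀ z ∈ Y, z ∈ F → s z = σ z) → (∀ z ∈ Y, z ∈ F → s' z = σ z) → (∀ z ∈ Y, s z = b → s' z = b) → cfOf Y s ∈ 𝒜 → cfOf Y s' ∈ 𝒜

theorem pvfwq_eqns_cite3 : True := by
  have := @PvfwRd.eq_1; have := @PvfwInc.eq_1
  trivial

/-- **P16' = THE WHITE LANE, in the shape of the field `hq` of `PvdmSys.Hyp`**.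
`b` = the colour of the lane (`!col`);   `F` = the frozen set `S.frz i (cfOf Y σ)` (it contains the sites of the two state regions `O₁ O₂`; the lanes `S₁ S₂ S₃` are off `F`);
`E₁ = L^{+,w}(s)` reads `O₁ ∪ S₁`,   `E₂ = L^{-,w}(t)` reads `O₂ ∪ S₂`,   `K` = the net of the link reads `S₃`. -/
theorem pvfw_lane (b : Bool) {Y F O₁ O₂ S₁ S₂ S₃ : Set ℂ} {σ : ℂ → Bool} {E₁ E₂ K W : Set (Conf PvPt)}
    (f₁ : (Y ∩ S₁).Finite) (f₂ : (Y ∩ S₂).Finite) (f₃ : (Y ∩ S₃).Finite)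
    (hO₁ : Y ∩ O₁ ⊆ F) (hO₂ : Y ∩ O₂ ⊆ F) (d₁ : Disjoint S₁ O₁) (d₂ : Disjoint S₂ O₂)
    (hS₁ : Disjoint (Y ∩ S₁) F) (hS₂ : Disjoint (Y ∩ S₂) F) (hS₃ : Disjoint (Y ∩ S₃) F)
    (r₁ : PvfwRd Y (O₁ ∪ S₁) E₁) (r₂ : PvfwRd Y (O₂ ∪ S₂) E₂) (r₃ : PvfwRd Y S₃ K)
    (u₁ : PvfwInc b Y F σ E₁) (u₂ : PvfwInc b Y F σ E₂) (u₃ : PvfwInc b Y F σ K)
    (glue : ∀ s : ℂ → Bool, (∀ z ∈ Y, z ∈ F → s z = σ z) → cfOf Y s ∈ E₁ → cfOf Y s ∈ E₂ → cfOf Y s ∈ K → cfOf Y s ∈ W)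
    {β q : ℝ} (β0 : 0 ≤ β) (q0 : 0 ≤ q) (h₁ : β ≤ pvpQ S₁ b E₁ (cfOf Y σ)) (h₂ : β ≤ pvpQ S₂ b E₂ (cfOf Y σ)) (h₃ : q ≤ pvpQ S₃ b K (cfOf Y σ)) :
    ENNReal.ofReal (q * β ^ 2) ≤ colLaw ℂ {κ | cfOf Y (pvdmOv Fᶜ κ σ) ∈ W} := by
  classical
  -- the three quenched probabilities in the vocabulary of sec. 1
  have eQ : ∀ (S : Set ℂ) (E : Set (Conf PvPt)), (Y ∩ S).Finite → ENNReal.ofReal (pvpQ S b E (cfOf Y σ)) = pvfwPr Sᶜ σ {s : ℂ → Bool | cfOf Y s ∈ E} := by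
    intro S E hf
    rw [pvfw_Q_eq hf b E σ]
    unfold pvfwPr
    congr 1
    ext κ
    show cfOf Y (pvdmOv S κ σ) ∈ E ↔ cfOf Y (pvfqMix Sᶜ (σ, κ)) ∈ E
    rw [pvfw_ov_eq]
  have eW : colLaw ℂ {κ | cfOf Y (pvdmOv Fᶜ κ σ) ∈ W} = pvfwPr (F ∪ Yᶜ) σ {s : ℂ → Bool | cfOf Y s ∈ W} := by
    have e1 : colLaw ℂ {κ | cfOf Y (pvdmOv Fᶜ κ σ) ∈ W} = pvfwPr F σ {s : ℂ → Bool | cfOf Y s ∈ W} := by
      unfold pvfwPr
      congr 1
      ext κ
      show cfOf Y (pvdmOv Fᶜ κ σ) ∈ W ↔ cfOf Y (pvfqMix F (σ, κ)) ∈ W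
      rw [pvfw_ov_eq, compl_compl]
    rw [e1]
    exact pvfw_pr_congr σ (pvfw_cfOf_reads Y W) fun v hv => ⟨Or.inl, fun h => h.resolve_right fun h' => h' hv⟩
  have rd : ∀ {R : Set ℂ} {E : Set (Conf PvPt)}, PvfwRd Y R E → PvfwReads (Y ∩ R) {s : ℂ → Bool | cfOf Y s ∈ E} :=
    fun r s s' e hs => r s s' (fun z hz hR => e z ⟨hz, hR⟩) hs
  have up : ∀ {E : Set (Conf PvPt)}, PvfwInc b Y F σ E → PvfwUp b (F ∪ Yᶜ) σ {s : ℂ → Bool | cfOf Y s ∈ E} :=
    fun u s s' h h' e hs => u s s' (fun z _ hF => h z (Or.inl hF)) (fun z _ hF => h' z (Or.inl hF)) (fun z _ => e z) hs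
  have key := pvfw_core b (F ∪ Yᶜ) σ (G₁ := S₁ᶜ) (G₂ := S₂ᶜ) (G₃ := S₃ᶜ) (R₁ := Y ∩ O₁) (R₂ := Y ∩ O₂) (R₃ := ∅) f₁.toFinset f₂.toFinset f₃.toFinset
    (A₁ := {s : ℂ → Bool | cfOf Y s ∈ E₁}) (A₂ := {s : ℂ → Bool | cfOf Y s ∈ E₂}) (A₃ := {s : ℂ → Bool | cfOf Y s ∈ K}) (W := {s : ℂ → Bool | cfOf Y s ∈ W})
    ((rd r₁).mono (by rw [Set.Finite.coe_toFinset, Set.inter_union_distrib_left]))
    ((rd r₂).mono (by rw [Set.Finite.coe_toFinset, Set.inter_union_distrib_left]))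
    ((rd r₃).mono (by rw [Set.Finite.coe_toFinset, Set.empty_union]))
    (fun v hv => ⟨Or.inl (hO₁ hv), fun hS => Set.disjoint_left.1 d₁ hS hv.2⟩)
    (fun v hv => ⟨Or.inl (hO₂ hv), fun hS => Set.disjoint_left.1 d₂ hS hv.2⟩)
    (fun v hv => absurd hv (Set.notMem_empty v))
    (fun v hv => by
      have hv' : v ∈ Y ∩ S₁ := f₁.mem_toFinset.1 hv
      exact ⟨fun h => h.elim (Set.disjoint_left.1 hS₁ hv') (fun h' => h' hv'.1), fun h => h hv'.2⟩)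
    (fun v hv => by
      have hv' : v ∈ Y ∩ S₂ := f₂.mem_toFinset.1 hv
      exact ⟨fun h => h.elim (Set.disjoint_left.1 hS₂ hv') (fun h' => h' hv'.1), fun h => h hv'.2⟩)
    (fun v hv => by
      have hv' : v ∈ Y ∩ S₃ := f₃.mem_toFinset.1 hv
      exact ⟨fun h => h.elim (Set.disjoint_left.1 hS₃ hv') (fun h' => h' hv'.1), fun h => h hv'.2⟩)
    (up u₁) (up u₂) (up u₃)
    (fun s hs a₁ a₂ a₃ => glue s (fun z _ hF => hs z (Or.inl hF)) a₁ a₂ a₃)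
  rw [eW]
  refine le_trans ?_ key
  rw [← eQ S₁ E₁ f₁, ← eQ S₂ E₂ f₂, ← eQ S₃ K f₃]
  have e : q * β ^ 2 = β * β * q := by ring
  rw [e, ENNReal.ofReal_mul (mul_nonneg β0 β0), ENNReal.ofReal_mul β0]
  exact mul_le_mul' (mul_le_mul' (ENNReal.ofReal_le_ofReal h₁) (ENNReal.ofReal_le_ofReal h₂)) (ENNReal.ofReal_le_ofReal h₃)

/-- **P16' ON `Hq_s ∩ Hq_t`** (names of 185) -/
theorem pvfw_lane_P (N : PvspNum) (QB QB' : Set (Conf PvPt)) (ts tt : PvspTy) (zs zt : ℂ) (h : ℝ) (hcol : ts.col = tt.col) {Y F S₃ : Set ℂ} {σ : ℂ → Bool} {K W : Set (Conf PvPt)}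
    (Hs : cfOf Y σ ∈ pvspHq N QB ts zs h) (Ht : cfOf Y σ ∈ pvspHq N QB' tt zt h)
    (f₁ : (Y ∩ ts.Mp).Finite) (f₂ : (Y ∩ tt.Mm).Finite) (f₃ : (Y ∩ S₃).Finite)
    (hO₁ : Y ∩ pvspO N ts zs h ⊆ F) (hO₂ : Y ∩ pvspO N tt zt h ⊆ F)
    (hS₁ : Disjoint (Y ∩ (ts.Mp \ pvspO N ts zs h)) F) (hS₂ : Disjoint (Y ∩ (tt.Mm \ pvspO N tt zt h)) F) (hS₃ : Disjoint (Y ∩ S₃) F)
    (r₁ : PvfwRd Y (pvspO N ts zs h ∪ ts.Mp) (pvspEvt N ts zs h .pw)) (r₂ : PvfwRd Y (pvspO N tt zt h ∪ tt.Mm) (pvspEvt N tt zt h .mw)) (r₃ : PvfwRd Y S₃ K)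
    (u₁ : PvfwInc (!ts.col) Y F σ (pvspEvt N ts zs h .pw)) (u₂ : PvfwInc (!ts.col) Y F σ (pvspEvt N tt zt h .mw)) (u₃ : PvfwInc (!ts.col) Y F σ K)
    (glue : ∀ s : ℂ → Bool, (∀ z ∈ Y, z ∈ F → s z = σ z) → cfOf Y s ∈ pvspEvt N ts zs h .pw → cfOf Y s ∈ pvspEvt N tt zt h .mw → cfOf Y s ∈ K → cfOf Y s ∈ W)
    (β0 : 0 ≤ N.β) {q : ℝ} (q0 : 0 ≤ q) (h₃ : q ≤ pvpQ S₃ (!ts.col) K (cfOf Y σ)) :
    ENNReal.ofReal (q * N.β ^ 2) ≤ colLaw ℂ {κ | cfOf Y (pvdmOv Fᶜ κ σ) ∈ W} := by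
  have k₂ : N.β ≤ pvpQ (tt.Mm \ pvspO N tt zt h) (!ts.col) (pvspEvt N tt zt h .mw) (cfOf Y σ) := by
    rw [hcol]; exact Ht.2.1
  refine pvfw_lane (!ts.col) (O₁ := pvspO N ts zs h) (O₂ := pvspO N tt zt h) (S₁ := ts.Mp \ pvspO N ts zs h) (S₂ := tt.Mm \ pvspO N tt zt h) (S₃ := S₃)
    (f₁.subset (Set.inter_subset_inter_right _ Set.diff_subset)) (f₂.subset (Set.inter_subset_inter_right _ Set.diff_subset)) f₃ hO₁ hO₂
    Set.disjoint_sdiff_left Set.disjoint_sdiff_left hS₁ hS₂ hS₃ (by rw [Set.union_diff_self]; exact r₁) (by rw [Set.union_diff_self]; exact r₂) r₃ u₁ u₂ u₃ glue β0 q0 Hs.1 k₂ h₃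

end lane

end Claimed.Agent.R289
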