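import Claimed.Agent.R289.Tr.PatchE
import Claimed.Agent.R289.Tr.In
import Claimed.Agent.R289.Tr.BlockP
import Claimed.Agent.R289.Tr.Dom

/-!
# Row 289 (S0537, Cardy for Poisson-Voronoi), THE WALL, road E, file Tr/PatchQ : E6 = PATCH, THE SITE-SET FORMS AND THE PROBABILITY OF THE WHITE CIRCUIT      (helper130, node of helper24; prefix `pve6q_`, defs `Pve6q…`, `pve6q…`)

Sequel of `Tr/PatchE` (deterministic: `Pve6N`, `PvwDat.NBP`, `pve6_c1_gen`, `pve6_N_of_circ`).      CONSUMER: the kit `PvxnKit` of 170 (`Exit/N1.lean` sec. 5-6): `E := E_patch`, `W := WO ∧ white circuit`, `N ⊇` the sites of `closedBall x (6R)` off the excluded set.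
ALL at a FIXED site set `Y`, on `(delbPl Y).toMap`, positions `Subtype.val`, colourings `↥Y → Bool`, `true` = BLACK = the colour of the rim (the vocabulary of `Exit/N1`);   `pvxT ω = (delbPl (pvxY ω)).toMap` by `rfl`.
* sec. 1  `pve6qK Y x r` (finite: `pve6q_K_fin`), `Pve6qCirc Y x r r' σ` (white circuit; decreasing in black, reads the open annulus only: `pve6q_circ_mono`), `pve6q_N_mono` (form of the field `E_mono`),
          **`pve6q_plane`**: `E_patch` + white circuit ⟹ `pvtaN g σ Ycᶜ 𝔄`, ANY excluded set `Yc` and anchors `𝔄` near `closedBall x (5R)`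
* sec. 2  THIN ANNULI: `pve6q_thin_det` (a vertex arm from radius `r1` to radius `r2` crosses a small square annulus `(u/2, 5u/2)` centred on the grid `u ℤ²`, `12 u ≤ r2 - r1`), `pve6q_thin_q` (quenched: no arm with probability `≥ q`, off `o(1)` geometries;
          `pvin_qbx_family` + colour flip), `pve6q_thin_quenched`, **`pve6q_thin_bxp`**: `BXP(q)` between ANY two radii `r1 < r2`
* sec. 3  `Pve6qFrame q x R Y`, **`pve6q_frame`** (probability `→ 1`), `pve6q_frame_spec` (two nested cycles in `A(x; 21R/4, 47R/8)` with blocking `≥ q`; no black crossing ⟹ white circuit),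
          **`pve6q_circ_col`**: `P(white circuit | any colours on a frozen set inside closedBall x (21R/4)) ≥ q` in the form `colLaw ℂ {κ | … pvdmOv Fᶜ κ σ …}` of `PvdmSys.Hyp.hq` / `PvxnPA`
-/

set_option autoImplicit false

namespace Claimed.Agent.R289

open MeasureTheory Filter Topology Set Relation Claims.C0465
open scoped ENNReal

/-! ## 1. the forms at a fixed site set -/

section ylevel

variable {Y : Set ℂ} {x : ℂ} {R μ : ℝ}

/-- the sites in `closedBall x r` -/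
def pve6qK (Y : Set ℂ) (x : ℂ) (r : ℝ) : Set ↥Y := {v | ‖(v : ℂ) - x‖ ≤ r}

/-- a circuit of the Delaunay plane of `Y`, white for `σ`, round `closedBall x r`, inside `ball x r'` -/
def Pve6qCirc (Y : Set ℂ) (x : ℂ) (r r' : ℝ) (σ : ↥Y → Bool) : Prop :=
  ∃ w : (delbPl Y).toMap.Cyc, PvaxAt (delbPl Y).toMap Subtype.val x r r' w ∧ ∀ v ∈ w.verts, σ v = false

theorem pve6q_eqns_cite : True := by
  have := @pve6qK.eq_1; have := @Pve6qCirc.eq_1
  trivial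

/-- the names of `Tr/PatchE` are these ones at `Y = pvxY ω` -/
theorem pve6q_K_model (ω : PVSample) (x : ℂ) (r : ℝ) : pve6K ω x r = pve6qK (pvxY ω) x r := rfl

theorem pve6q_circ_model (ω : PVSample) (x : ℂ) (r r' : ℝ) (σ : ↥(pvxY ω) → Bool) : Pve6Circ ω x r r' σ ↔ Pve6qCirc (pvxY ω) x r r' σ := Iff.rfl

/-- finitely many sites in a ball -/
theorem pve6q_K_fin (h : DelGood Y) (x : ℂ) (r : ℝ) : (pve6qK Y x r).Finite := by
  have h1 : (Y ∩ Metric.closedBall (0 : ℂ) (‖x‖ + r)).Finite := h.lf _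
  refine Set.Finite.of_finite_image (f := Subtype.val) (h1.subset ?_) Subtype.val_injective.injOn
  rintro _ ⟨v, hv, rfl⟩
  refine ⟨v.2, ?_⟩
  rw [mem_closedBall_zero_iff]
  have hv' : ‖(v : ℂ) - x‖ ≤ r := hv
  calc ‖(v : ℂ)‖ = ‖x + ((v : ℂ) - x)‖ := by congr 1; ring
    _ ≤ ‖x‖ + ‖(v : ℂ) - x‖ := norm_add_le _ _
    _ ≤ ‖x‖ + r := by linarith

/-- the white circuit is DECREASING in black and reads the sites of the open annulus only -/
theorem pve6q_circ_mono (h : DelGood Y) {r r' : ℝ} {σ σ' : ↥Y → Bool} (hσ : ∀ v : ↥Y, r < ‖(v : ℂ) - x‖ → ‖(v : ℂ) - x‖ < r' → σ v = false → σ' v = false)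
    (hc : Pve6qCirc Y x r r' σ) : Pve6qCirc Y x r r' σ' := by
  obtain ⟨w, hw, hwc⟩ := hc
  refine ⟨w, hw, fun v hv => ?_⟩
  obtain ⟨h1, h2⟩ := pvax_at_verts (delb_plane_isSph h) hw hv
  exact hσ v h1 h2 (hwc v hv)

/-- `E_patch` is DECREASING in black and reads `K \ (Yc ∪ g)` only      (the form of the field `E_mono` of `PvxnOk`) -/
theorem pve6q_N_mono {V D : Type} {T : PvMap V D} (g : T.Pth) {σ σ' : V → Bool} (K Yc 𝔄 : Set V) (h : ∀ v, v ∈ K → v ∉ Yc → v ∉ g.verts → σ v = false → σ' v = false)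
    (hN : Pve6N g σ K Yc 𝔄) : Pve6N g σ' K Yc 𝔄 := by
  have hW : pve6W g σ K Yc ⊆ pve6W g σ' K Yc := fun v hv => ⟨hv.1, hv.2.1, h v hv.1.1 hv.1.2 hv.2.1 hv.2.2⟩
  intro k hk
  rcases hN k hk with ⟨a, ha, hj⟩ | ⟨⟨b, hb, hj⟩, a, ha, b', hb', hj'⟩
  · exact Or.inl ⟨a, ha, pvta_join_mono hW hj⟩
  · exact Or.inr ⟨⟨b, hb, pvta_join_mono hW hj⟩, a, ha, b', hb', pvta_join_mono hW hj'⟩

/-- **`E_patch` + WHITE CIRCUIT ⟹ `N_g` IN THE PLANE**, any excluded set, any anchors -/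
theorem pve6q_plane (h : DelGood Y) (hR : 0 < R) (hμ0 : 0 ≤ μ) (hF : L9Fine Y (Metric.closedBall x (6 * R)) μ) (g : (delbPl Y).toMap.Pth) {σ : ↥Y → Bool} (hg : pvtaB g σ)
    (hgin : ∀ v ∈ g.verts, ‖(v : ℂ) - x‖ ≤ 5 * R) {Yc 𝔄 : Set ↥Y} (hYc : ∀ v ∈ Yc, ‖(v : ℂ) - x‖ ≤ 5 * R) (h𝔄 : ∀ a ∈ 𝔄, ‖(a : ℂ) - x‖ ≤ 5 * R + μ)
    (hc : Pve6qCirc Y x (5 * R + μ) (6 * R - μ) σ) (hN : Pve6N g σ (pve6qK Y x (6 * R)) Yc 𝔄) : pvtaN g σ Ycᶜ 𝔄 := by
  have hT : (delbPl Y).toMap.IsSph := delb_plane_isSph h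
  obtain ⟨w, hw, hwc⟩ := hc
  have tri : ∀ d : (delbPl Y).Dart, DelTri Y ((delbPl Y).toMap.src d : ℂ) ((delbPl Y).toMap.tgt d : ℂ) ((delbPl Y).toMap.apex d : ℂ) :=
    fun d => delp_apex_spec d.2.1 d.2.2
  refine pve6_N_of_circ hT g hg w hwc ?_ ?_ ?_ ?_ hN
  · intro v hv hvY
    exact Set.disjoint_left.1 (pl_jordan_vert_disj hT w).1 hv (hw.inn v (by have := hYc v hvY; linarith))
  · intro k hk
    have h1 : (delbPl Y).toMap.src ((delbPl Y).toMap.opp (g.e k)) = g.v (k + 1) := by rw [(delbPl Y).toMap.src_opp', g.tgt_e k hk]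
    have h2 : ‖(g.v (k + 1) : ℂ) - x‖ ≤ 5 * R := hgin _ ⟨k + 1, hk, rfl⟩
    have h3 := (hF _ _ _ (tri ((delbPl Y).toMap.opp (g.e k))) (Or.inl (by rw [h1, mem_closedBall_iff_norm]; linarith))).2.1
    rw [h1] at h3
    refine hw.inn _ ?_
    show ‖((delbPl Y).toMap.apex ((delbPl Y).toMap.opp (g.e k)) : ℂ) - x‖ ≤ 5 * R + μ
    calc ‖((delbPl Y).toMap.apex ((delbPl Y).toMap.opp (g.e k)) : ℂ) - x‖
        = ‖(((delbPl Y).toMap.apex ((delbPl Y).toMap.opp (g.e k)) : ℂ) - (g.v (k + 1) : ℂ)) + ((g.v (k + 1) : ℂ) - x)‖ := by congr 1; ring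
      _ ≤ ‖((delbPl Y).toMap.apex ((delbPl Y).toMap.opp (g.e k)) : ℂ) - (g.v (k + 1) : ℂ)‖ + ‖(g.v (k + 1) : ℂ) - x‖ := norm_add_le _ _
      _ ≤ 5 * R + μ := by linarith
  · intro a ha
    exact hw.inn a (h𝔄 a ha)
  · rintro b ⟨hbK, y, hyK, d, rfl, rfl⟩ hbI
    have h1 : ‖((delbPl Y).toMap.src d : ℂ) - x‖ < 6 * R - μ := hw.out _ (by rw [pl_VOf_left hT w]; exact Or.inr hbI)
    have h2 := (hF _ _ _ (tri d) (Or.inl (mem_closedBall_iff_norm.2 hbK))).1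
    refine hyK ?_
    show ‖((delbPl Y).toMap.tgt d : ℂ) - x‖ ≤ 6 * R
    calc ‖((delbPl Y).toMap.tgt d : ℂ) - x‖ = ‖(((delbPl Y).toMap.tgt d : ℂ) - ((delbPl Y).toMap.src d : ℂ)) + (((delbPl Y).toMap.src d : ℂ) - x)‖ := by congr 1; ring
      _ ≤ ‖((delbPl Y).toMap.tgt d : ℂ) - ((delbPl Y).toMap.src d : ℂ)‖ + ‖((delbPl Y).toMap.src d : ℂ) - x‖ := norm_add_le _ _
      _ ≤ 6 * R := by linarith

end ylevel

/-! ## 2. thin annuli -/

section thin

/-- **deterministic**: a vertex arm of colour `b` from radius `≤ r1` to radius `≥ r2` round `x` contains an arm of a small square annulus `(u/2, 5u/2)` centred at a point of the grid `u ℤ²` of `closedBall x r2`.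
PLAN: `pvr_chain_joined`; the path meets the circle of radius `(r1 + r2)/2` at a point `p₀` (intermediate value); `z` = the nearest grid point; `rsw_first_exit` from `p₀`. -/
theorem pve6q_thin_det {η : Conf PvPt} {b : Bool} {x : ℂ} {r1 r2 u : ℝ} (hu : 0 < u) (h0 : 0 ≤ r1) (h12 : 12 * u ≤ r2 - r1) (h : PvArm1 η b x r1 r2) :
    ∃ p : ℤ × ℤ, ‖l9Pt u p - x‖ ≤ r2 ∧ (rswArm (l9Pt u p).re (l9Pt u p).im (u / 2) (5 * u / 2)).Holds (cfReg η b) := by
  obtain ⟨a, v, ha, hv, hab, hch⟩ := h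
  obtain ⟨-, hj⟩ := pvr_chain_joined hab hch
  have key : ∀ t : ℝ, |t - (round (t / u) : ℝ) * u| ≤ u / 2 := by
    intro t
    have h1 := abs_sub_round (t / u)
    have e : t - (round (t / u) : ℝ) * u = (t / u - round (t / u)) * u := by field_simp
    rw [e, abs_mul, abs_of_pos hu]
    nlinarith
  refine ⟨(round (a.re / u), round (a.im / u)), ?_⟩
  set z : ℂ := l9Pt u (round (a.re / u), round (a.im / u)) with hz
  have hre : |a.re - z.re| ≤ u / 2 := key a.re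
  have him : |a.im - z.im| ≤ u / 2 := key a.im
  have hza : ‖z - a‖ ≤ u := by
    have h1 := Complex.norm_le_abs_re_add_abs_im (z - a)
    rw [Complex.sub_re, Complex.sub_im, abs_sub_comm z.re, abs_sub_comm z.im] at h1
    linarith
  have hzx : ‖z - x‖ ≤ r1 + u := by
    have h1 : ‖z - x‖ ≤ ‖z - a‖ + ‖a - x‖ := by
      have := norm_add_le (z - a) (a - x)
      rwa [sub_add_sub_cancel] at this
    linarith
  refine ⟨by linarith, ?_⟩
  rw [abs_le] at hre him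
  have haS : a ∈ rswRect (z.re - u / 2) (z.re + u / 2) (z.im - u / 2) (z.im + u / 2) := ⟨by linarith, by linarith, by linarith, by linarith⟩
  have haK : a ∈ rswRect (z.re - 5 * u / 2) (z.re + 5 * u / 2) (z.im - 5 * u / 2) (z.im + 5 * u / 2) := ⟨by linarith, by linarith, by linarith, by linarith⟩
  obtain ⟨w, hw, hwb⟩ := rsw_first_exit hj haK (by
    rintro ⟨g1, g2, g3, g4⟩
    have h1 := Complex.norm_le_abs_re_add_abs_im (v - z)
    rw [Complex.sub_re, Complex.sub_im] at h1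
    have h2 : |v.re - z.re| < 5 * u / 2 := abs_lt.2 ⟨by linarith, by linarith⟩
    have h3 : |v.im - z.im| < 5 * u / 2 := abs_lt.2 ⟨by linarith, by linarith⟩
    have h4 : ‖v - x‖ ≤ ‖v - z‖ + ‖z - x‖ := by
      have := norm_add_le (v - z) (z - x)
      rwa [sub_add_sub_cancel] at this
    linarith)
  exact ⟨a, haS, w, ⟨hw.target_mem.2, hwb⟩, hw⟩

/-- the grid points of a ball, as a finite sequence -/
theorem pve6q_grid_enum {u : ℝ} (hu : 0 < u) (x : ℂ) (r : ℝ) : ∃ (K : ℕ) (z : ℕ → ℂ), ∀ p : ℤ × ℤ, ‖l9Pt u p - x‖ ≤ r → ∃ i, i < K ∧ z i = l9Pt u p := by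
  classical
  have hfin : {p : ℤ × ℤ | ‖l9Pt u p - x‖ ≤ r}.Finite := by
    refine ((finite_Icc ⌊(x.re - r) / u⌋ ⌈(x.re + r) / u⌉).prod (finite_Icc ⌊(x.im - r) / u⌋ ⌈(x.im + r) / u⌉)).subset ?_
    intro p hp
    have hp' : ‖l9Pt u p - x‖ ≤ r := hp
    have h1 := (Complex.abs_re_le_norm (l9Pt u p - x)).trans hp'
    have h2 := (Complex.abs_im_le_norm (l9Pt u p - x)).trans hp'
    simp only [l9Pt, Complex.sub_re, Complex.sub_im] at h1 h2
    rw [abs_le] at h1 h2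
    refine ⟨⟨?_, ?_⟩, ⟨?_, ?_⟩⟩
    · exact Int.floor_le_iff.2 (by rw [div_lt_iff₀ hu]; nlinarith)
    · exact Int.le_ceil_iff.2 (by rw [lt_div_iff₀ hu]; nlinarith)
    · exact Int.floor_le_iff.2 (by rw [div_lt_iff₀ hu]; nlinarith)
    · exact Int.le_ceil_iff.2 (by rw [lt_div_iff₀ hu]; nlinarith)
  refine ⟨hfin.toFinset.toList.length, fun i => l9Pt u (hfin.toFinset.toList.getD i (0, 0)), fun p hp => ?_⟩
  have hm : p ∈ hfin.toFinset.toList := by
    rw [Finset.mem_toList, Set.Finite.mem_toFinset]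
    exact hp
  obtain ⟨i, hi, hip⟩ := List.mem_iff_getElem.1 hm
  exact ⟨i, hi, by show l9Pt u (hfin.toFinset.toList.getD i (0, 0)) = _; rw [List.getD_eq_getElem _ _ hi, hip]⟩

/-- **quenched**: off a set of geometries of probability `o(1)`, no vertex arm of colour `b` from radius `r1` to radius `r2` with quenched probability `≥ q`      (`pvin_qbx_family`, `K` = number of grid points; black: `pvqu_Qc_flip`) -/
theorem pve6q_thin_q (x : ℂ) {r1 r2 : ℝ} (h0 : 0 ≤ r1) (h12 : r1 < r2) : ∃ q : ℝ, 0 < q ∧ ∀ b : Bool,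
    Tendsto (fun ε : ℝ => pvGeo ε {g | pvQc {η | ¬ PvArm1 η b x r1 r2} g < ENNReal.ofReal q}) (𝓝[>] 0) (𝓝 0) := by
  obtain ⟨q₀, hq₀, hfam⟩ := pvin_qbx_family
  set u : ℝ := (r2 - r1) / 12 with hu
  have hu0 : 0 < u := by rw [hu]; linarith
  have hu12 : 12 * u ≤ r2 - r1 := by rw [hu]; linarith
  obtain ⟨K, z, hz⟩ := pve6q_grid_enum hu0 x r2
  refine ⟨q₀ ^ K, pow_pos hq₀ K, fun b => ?_⟩
  have key : ∀ (𝒯 : Set (Conf PvPt)), (∀ η, (∀ i < K, η ∈ pvqyNoW (rswArm (z i).re (z i).im (u / 2) (5 * u / 2))) → η ∈ 𝒯) →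
      Tendsto (fun ε : ℝ => pvGeo ε {g | pvQc 𝒯 g < ENNReal.ofReal (q₀ ^ K)}) (𝓝[>] 0) (𝓝 0) := by
    intro 𝒯 h𝒯
    rw [ENNReal.tendsto_nhds_zero]
    intro δ hδ
    obtain ⟨d, hd0, hdδ⟩ : ∃ d : ℝ, 0 < d ∧ ENNReal.ofReal d ≤ δ := by
      by_cases ht : δ = ⊤
      · exact ⟨1, one_pos, by rw [ht]; exact le_top⟩
      · exact ⟨δ.toReal, ENNReal.toReal_pos hδ.ne' ht, (ENNReal.ofReal_toReal ht).le⟩
    obtain ⟨U, hU, hb⟩ := hfam K d hd0
    filter_upwards [Ioo_mem_nhdsGT (div_pos hu0 hU)] with ε hε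
    have hUε : U * ε ≤ u := by
      have := hε.2
      rw [lt_div_iff₀ hU] at this
      linarith
    exact (hb ε hε.1 u hUε z 𝒯 fun η _ h => h𝒯 η h).trans hdδ
  cases b
  · refine key _ fun η h harm => ?_
    obtain ⟨p, hp, ha⟩ := pve6q_thin_det hu0 h0 hu12 harm
    obtain ⟨i, hi, e⟩ := hz p hp
    refine h i hi ?_
    rw [e]
    exact ha
  · have h1 := key (cfFlip ⁻¹' {η | ¬ PvArm1 η true x r1 r2}) fun η h harm => by
      obtain ⟨p, hp, ha⟩ := pve6q_thin_det hu0 h0 hu12 harm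
      obtain ⟨i, hi, e⟩ := hz p hp
      refine h i hi ?_
      rw [e, pvr_W_eq]
      exact ha
    simp only [pvqu_Qc_flip] at h1
    exact h1

/-- **the quenched step** (= `pvax_quenched` with the vertex arm in place of the arm of one square annulus) -/
theorem pve6q_thin_quenched {g : PvGeoT} (hg : PvgOk g) (hd : DelGood (pvgSites g)) {q : ℝ} {x : ℂ} {r1 r2 : ℝ}
    (hq : ∀ b : Bool, ENNReal.ofReal q ≤ pvQc {η | ¬ PvArm1 η b x r1 r2} g) : PvaxBxp (delMap hd) (dlsPos (pvgSites g)) q x r1 r2 := by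
  intro c' c hin hfin hc' hc A ξ b hA
  have hT : (delMap hd).IsSph := dls_isSph hd
  have hK := pvax_cr_loc hT hin A hA b
  have h1 := pval_measure hK ξ
  let f : ↥(pvgSites g) → PvIx := fun v => pvgIdx g v
  have hf : Function.Injective f := fun v w hvw => Subtype.ext (pvqu_idx_injOn g v.2 w.2 hvw)
  have hm : Measurable (fun s : PvIx → Bool => s ∘ f) := measurable_pi_lambda _ fun v => measurable_pi_apply (f v)
  have h2 : colLaw PvIx {c₀ | ¬ PvaxCr (delMap hd) c' c Set.univ b (c₀ ∘ f)} = colLaw _ {s | ¬ PvaxCr (delMap hd) c' c Set.univ b s} := by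
    rw [← pvf_colLaw_comp f hf, Measure.map_apply hm (pval_loc_measurableSet hK)]
    rfl
  have h3 : {c₀ : PvColT | pvConf (pvMerge (g, c₀)) ∈ {η | ¬ PvArm1 η b x r1 r2}} ⊆
      {c₀ | ¬ PvaxCr (delMap hd) c' c Set.univ b (c₀ ∘ f)} := by
    intro c₀ hc₀ hcr
    apply hc₀
    rw [hg.conf_eq c₀]
    exact pvax_arm1 hd (pvgColAt g c₀) (pvax_cr_arm hc' hc hcr)
  have h4 : ENNReal.ofReal q ≤ ENNReal.ofReal (pvaP A ξ (fun s => ¬ PvaxCr (delMap hd) c' c Set.univ b s)) := by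
    calc ENNReal.ofReal q ≤ pvQc {η | ¬ PvArm1 η b x r1 r2} g := hq b
      _ ≤ colLaw PvIx {c₀ | ¬ PvaxCr (delMap hd) c' c Set.univ b (c₀ ∘ f)} := measure_mono h3
      _ = _ := by rw [h2, h1]
  exact (ENNReal.ofReal_le_ofReal_iff (pva_P_nonneg _ _ _)).1 h4

/-- **BXP(q) BETWEEN ANY TWO RADII** (`q` depends on `x, r1, r2`, not on the mesh) -/
theorem pve6q_thin_bxp (x : ℂ) {r1 r2 : ℝ} (h0 : 0 ≤ r1) (h12 : r1 < r2) : ∃ q : ℝ, 0 < q ∧
    Tendsto (fun ε : ℝ => pvLaw ε {ω | ¬ PvaxOk q x r1 r2 (cfSites (pvConf ω))}) (𝓝[>] 0) (𝓝 0) := by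
  obtain ⟨q, hq0, hQ⟩ := pve6q_thin_q x h0 h12
  refine ⟨q, hq0, ?_⟩
  set Bad : Bool → Set PvGeoT := fun b => {g | pvQc {η | ¬ PvArm1 η b x r1 r2} g < ENNReal.ofReal q} with hBad
  have h1 : ∀ ε : ℝ, 0 < ε → pvLaw ε {ω | ¬ PvaxOk q x r1 r2 (cfSites (pvConf ω))} ≤ pvGeo ε (Bad true) + pvGeo ε (Bad false) := by
    intro ε hε
    have hnull : pvGeo ε {g | ¬ (PvgOk g ∧ DelGood (pvgSites g))} = 0 := ae_iff.1 ((pvqu_ok_ae ε).and (dls_ae_geo hε))
    have hsub : {ω | ¬ PvaxOk q x r1 r2 (cfSites (pvConf ω))} ⊆ {ω | pvGeoOf ω ∈ Bad true ∪ Bad false ∪ {g | ¬ (PvgOk g ∧ DelGood (pvgSites g))}} := by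
      intro ω hω
      by_contra hn
      simp only [Set.mem_ofPred_eq, Set.mem_union, not_or, not_not] at hn
      obtain ⟨⟨ht, hf⟩, hok, hd⟩ := hn
      apply hω
      rw [pvax_sites ω]
      refine ⟨hd, pve6q_thin_quenched hok hd fun b => ?_⟩
      cases b
      · exact not_lt.1 hf
      · exact not_lt.1 ht
    calc pvLaw ε {ω | ¬ PvaxOk q x r1 r2 (cfSites (pvConf ω))}
        ≤ pvLaw ε {ω | pvGeoOf ω ∈ Bad true ∪ Bad false ∪ {g | ¬ (PvgOk g ∧ DelGood (pvgSites g))}} := measure_mono hsub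
      _ ≤ pvGeo ε (Bad true ∪ Bad false ∪ {g | ¬ (PvgOk g ∧ DelGood (pvgSites g))}) := pvax_geo_le ε _
      _ ≤ pvGeo ε (Bad true ∪ Bad false) + pvGeo ε {g | ¬ (PvgOk g ∧ DelGood (pvgSites g))} := measure_union_le _ _
      _ ≤ pvGeo ε (Bad true) + pvGeo ε (Bad false) := by
          rw [hnull, add_zero]
          exact measure_union_le _ _
  have h2 : Tendsto (fun ε : ℝ => pvGeo ε (Bad true) + pvGeo ε (Bad false)) (𝓝[>] 0) (𝓝 0) := by
    simpa using (hQ true).add (hQ false)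
  refine tendsto_of_tendsto_of_tendsto_of_le_of_le' tendsto_const_nhds h2 (Eventually.of_forall fun _ => zero_le) ?_
  filter_upwards [self_mem_nhdsWithin] with ε hε using h1 ε hε

end thin

/-! ## 3. the frame of the patch, the conditional probability of the white circuit -/

section frame

variable {Y : Set ℂ} {x : ℂ} {R μ q : ℝ}

/-- **THE FRAME OF THE PATCH**: a cycle at radius `(21R/4, 11R/2)`, a cycle at radius `(23R/4, 47R/8)`, BXP(q) between the radii `11R/2` and `23R/4` -/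
def Pve6qFrame (q : ℝ) (x : ℂ) (R : ℝ) (Y : Set ℂ) : Prop :=
  DelGood Y ∧ PvaxCirc x (21 / 4 * R) (11 / 2 * R) Y ∧ PvaxCirc x (23 / 4 * R) (47 / 8 * R) Y ∧ PvaxOk q x (11 / 2 * R) (23 / 4 * R) Y

theorem pve6q_eqns_cite2 : True := by
  have := @Pve6qFrame.eq_1
  trivial

/-- **THE FRAME HAS PROBABILITY `→ 1`** (outer measure of the bad event) -/
theorem pve6q_frame (x : ℂ) (hR : 0 < R) : ∃ q : ℝ, 0 < q ∧ Tendsto (fun ε : ℝ => pvLaw ε {ω | ¬ Pve6qFrame q x R (cfSites (pvConf ω))}) (𝓝[>] 0) (𝓝 0) := by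
  obtain ⟨q, hq, h⟩ := pve6q_thin_bxp x (r1 := 11 / 2 * R) (r2 := 23 / 4 * R) (by positivity) (by linarith)
  refine ⟨q, hq, ?_⟩
  refine pvax_mono (pvax_union2 pvax_good (pvax_union2 (pvax_circ x (r := 21 / 4 * R) (r' := 11 / 2 * R) (by positivity) (by linarith))
    (pvax_union2 (pvax_circ x (r := 23 / 4 * R) (r' := 47 / 8 * R) (by positivity) (by linarith)) h))) fun ε ω hω => ?_
  by_contra hn
  simp only [Set.mem_union, Set.mem_ofPred_eq, not_or, not_not] at hn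
  exact hω ⟨hn.1, hn.2.1, hn.2.2.1, hn.2.2.2⟩

/-- the same under the law of the geometry -/
theorem pve6q_frame_geo (x : ℂ) (hR : 0 < R) : ∃ q : ℝ, 0 < q ∧ Tendsto (fun ε : ℝ => pvGeo ε {g | ¬ Pve6qFrame q x R (pvgSites g)}) (𝓝[>] 0) (𝓝 0) := by
  obtain ⟨q, hq, h⟩ := pve6q_frame x hR
  refine ⟨q, hq, ?_⟩
  simp only [pvax_sites_eq _ (fun Y => ¬ Pve6qFrame q x R Y)] at h
  exact h

theorem pve6q_frame_spec_aux (h : DelGood Y) (P : PlTri ↥Y) (e : P = delPl h) (hR : 0 < R) (hμ : μ ≤ R / 8)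
    (h1 : ∃ c : (delMap h).Cyc, PvaxAt (delMap h) (dlsPos Y) x (21 / 4 * R) (11 / 2 * R) c) (h2 : ∃ c : (delMap h).Cyc, PvaxAt (delMap h) (dlsPos Y) x (23 / 4 * R) (47 / 8 * R) c)
    (hB : PvaxBxp (delMap h) (dlsPos Y) q x (11 / 2 * R) (23 / 4 * R)) :
    ∃ a o : P.toMap.Cyc, a.Inside o ∧ o.Left.Finite ∧ PvaxBlk P.toMap a o q ∧
      (∀ v ∈ P.toMap.VOf (a.Ann o), 21 / 4 * R < ‖(v : ℂ) - x‖ ∧ ‖(v : ℂ) - x‖ < 47 / 8 * R) ∧
      ∀ σ : ↥Y → Bool, ¬ PvaxCr P.toMap a o Set.univ true σ → ∃ w : P.toMap.Cyc, PvaxAt P.toMap Subtype.val x (5 * R + μ) (6 * R - μ) w ∧ ∀ v ∈ w.verts, σ v = false := by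
  subst e
  obtain ⟨a, ha⟩ := h1
  obtain ⟨o, ho⟩ := h2
  have hT : (delMap h).IsSph := dls_isSph h
  have hS : (delMap h).Simple := dls_simple h
  obtain ⟨hin, hblk⟩ := pvax_at_blk hT ha ho hB (by linarith)
  refine ⟨a, o, hin, ho.fin, hblk, ?_, ?_⟩
  · rintro v ⟨d, hd, rfl⟩
    refine ⟨?_, ho.out _ ⟨d, hd.1, rfl⟩⟩
    by_contra hc
    exact hd.2 (ha.inn _ (not_lt.1 hc) d rfl)
  · intro σ hn
    obtain ⟨w, hw, h1, h2⟩ := (pvax_ncr_iff hT hS hin ho.fin Set.univ true σ).1 hn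
    refine ⟨w, pvax_at_mono (pvbp_at_between ha ho h1 h2) (by linarith) (by linarith), fun v hv => ?_⟩
    have := hw v hv
    cases hσ : σ v
    · rfl
    · exact absurd ⟨mem_univ _, hσ⟩ this

/-- **READING THE FRAME**: two nested cycles `a`, `o` of the plane map with blocking probability `≥ q`; the annulus between them lies in `A(x; 21R/4, 47R/8)`; no black crossing ⟹ the white circuit of E6 -/
theorem pve6q_frame_spec (hR : 0 < R) (hμ : μ ≤ R / 8) (hF : Pve6qFrame q x R Y) :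
    ∃ a o : (delbPl Y).toMap.Cyc, a.Inside o ∧ o.Left.Finite ∧ PvaxBlk (delbPl Y).toMap a o q ∧
      (∀ v ∈ (delbPl Y).toMap.VOf (a.Ann o), 21 / 4 * R < ‖(v : ℂ) - x‖ ∧ ‖(v : ℂ) - x‖ < 47 / 8 * R) ∧
      ∀ σ : ↥Y → Bool, ¬ PvaxCr (delbPl Y).toMap a o Set.univ true σ → Pve6qCirc Y x (5 * R + μ) (6 * R - μ) σ := by
  obtain ⟨h, ⟨_, h1⟩, ⟨_, h2⟩, ⟨_, hB⟩⟩ := hF
  exact pve6q_frame_spec_aux h (delbPl Y) (delb_pl_eq h) hR hμ h1 h2 hB

/-- **THE CONDITIONAL PROBABILITY OF THE WHITE CIRCUIT**: any frozen set `F` inside `closedBall x (21R/4)`, any colours `σ` on it, fresh fair colours `κ` elsewhere -/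
theorem pve6q_circ_col (hR : 0 < R) (hμ : μ ≤ R / 8) (hF : Pve6qFrame q x R Y) (F : Set ℂ) (hFin : ∀ z ∈ F, ‖z - x‖ ≤ 21 / 4 * R) (σ : ℂ → Bool) :
    ENNReal.ofReal q ≤ colLaw ℂ {κ | Pve6qCirc Y x (5 * R + μ) (6 * R - μ) (fun v : ↥Y => pvdmOv Fᶜ κ σ v)} := by
  classical
  obtain ⟨a, o, hin, hfin, hblk, hann, hcirc⟩ := pve6q_frame_spec hR hμ hF
  have hgood : DelGood Y := hF.1
  have hT : (delbPl Y).toMap.IsSph := delb_plane_isSph hgood
  have hfA : ((delbPl Y).toMap.VOf (a.Ann o)).Finite := (pve6q_K_fin hgood x (47 / 8 * R)).subset fun v hv => (hann v hv).2.le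
  have hAm : ∀ v ∈ (delbPl Y).toMap.VOf (a.Ann o), v ∈ hfA.toFinset := fun v hv => hfA.mem_toFinset.2 hv
  have hK := pvax_cr_loc hT hin hfA.toFinset hAm true
  have h1 := pval_measure hK (fun _ => false)
  have hq := hblk hfA.toFinset (fun _ => false) true hAm
  have hm : Measurable (fun s : ℂ → Bool => s ∘ (Subtype.val : ↥Y → ℂ)) := measurable_pi_lambda _ fun v => measurable_pi_apply (v : ℂ)
  have h2 : colLaw ℂ {κ | ¬ PvaxCr (delbPl Y).toMap a o Set.univ true (κ ∘ (Subtype.val : ↥Y → ℂ))} = colLaw _ {s | ¬ PvaxCr (delbPl Y).toMap a o Set.univ true s} := by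
    rw [← pvf_colLaw_comp (Subtype.val : ↥Y → ℂ) Subtype.val_injective, Measure.map_apply hm (pval_loc_measurableSet hK)]
    rfl
  calc ENNReal.ofReal q ≤ ENNReal.ofReal (pvaP hfA.toFinset (fun _ => false) (fun s => ¬ PvaxCr (delbPl Y).toMap a o Set.univ true s)) := ENNReal.ofReal_le_ofReal hq
    _ = colLaw ℂ {κ | ¬ PvaxCr (delbPl Y).toMap a o Set.univ true (κ ∘ (Subtype.val : ↥Y → ℂ))} := by rw [h2, h1]
    _ ≤ _ := measure_mono fun κ hκ => hcirc _ (by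
        have e := hK (κ ∘ (Subtype.val : ↥Y → ℂ)) (fun v : ↥Y => pvdmOv Fᶜ κ σ v) fun v hv => by
          have hv' := (hann v (hfA.mem_toFinset.1 hv)).1
          have hvF : (v : ℂ) ∈ Fᶜ := fun hF' => absurd (hFin _ hF') (not_le.2 hv')
          exact (pvdm_ov_mem hvF κ σ).symm
        exact (Eq.mp e hκ : ¬ PvaxCr (delbPl Y).toMap a o Set.univ true (fun v : ↥Y => pvdmOv Fᶜ κ σ v)))

end frame

end Claimed.Agent.R289
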