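import Mathlib

/-!
# Row 289 (S0537), box TR, item (T1') = N1 of 208 : PLAIN INDEPENDENCE + VARIANCE, AS AN ABSTRACT LEMMA      (author helper175)

Model free (Mathlib only).  The order of the captain:  `X 1_A` and `Y 1_S` independent given `σ`,  `E[|X+Y|^2 ; A S G] ≤ e`,
`P(S | σ) ≥ q0` on `G`   ⟹   `E[|X + y(σ)|^2 ; A G] ≤ e / q0`,   `y(σ) := E[Y | S, σ]`.

Everything is proved for an arbitrary exponent `n : ℕ` (`n = 2`: the order; `n = 1`: the `L¹` statements of S3, S4) and for values in an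
arbitrary real Banach space `E` (`E = ℂ`), because the only input is Jensen for the convex function `‖·‖ ^ n`.
In the `ℝ≥0∞` forms there is NO integrability hypothesis (if `Y` is not integrable on `S` the right side is `∞`).

REMARK for the consumers.  The inequality itself does not use that `Y`, `S` ignore `ω|E0`: it holds with `b = (σ, ω|E0)` = everything that is
not resampled (two levels, `pvt_n1_core`).  Conditional independence is used only to see that `y` is a function of `σ` alone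
(three levels: `pvt_n1_iter`, `pvt_n1_joint`, ...; for bits: `pvtYb_mix_of_disjoint`).

## Exits
* `pvt_n1_jensen`, `pvt_n1_shift`, `pvt_n1_set` : `ν(S) ‖x + ȳ‖ₑ^n ≤ ∫⁻_S ‖x + Y‖ₑ^n dν`, `ȳ = ⨍_S Y dν`   (finite measure `ν`)
* `pvtY κ S Y b = ⨍ w in S_b, Y (b, w) ∂κ b` : the conditional mean;  `pvtY_eq`, `pvtY_eq_indicator`, `pvtY_stronglyMeasurable`, `pvtY_map`
* `pvt_n1_core_ae`, `pvt_n1_core` : two levels, iterated integrals, `κ` any family of finite measures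
* `pvt_n1_iter` : three levels, iterated integrals;   `pvt_n1_fubini`, `pvt_n1_joint` : on the joint law `m ⊗ₘ (κ₁ ×ₖ κ₂)`
* `pvt_n1_map` (law of `(s,u,v)` is `m ⊗ₘ (κ₁ ×ₖ κ₂)`), `pvt_n1_map_prod` (product law), `pvt_n1_indep` (`IndepFun`)
* `pvt_n1_toReal`, `pvt_n1_ofReal`, `pvt_n1_conv` (`e / q0`), `pvt_n1_cheb` (Chebyshev)
* **`pvt_n1_map_real`, `pvt_n1_indep_real`** : the form of the order, Bochner integrals
* `pvt_n1_fin_shift`, `pvt_n1_fin_card`, `pvt_n1_fin` : finite weighted sums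
* `pvtMix`, `pvt_n1_resample`, `pvtYb`, `pvtYb_mix`, `pvtYb_mix_of_disjoint`, **`pvt_n1_bits`** : the QUENCHED form (N3): finitely many fair bits
-/

set_option autoImplicit false

namespace Claimed.Agent.R289

open MeasureTheory ProbabilityTheory Set
open scoped ENNReal NNReal

section Var

variable {Ω : Type*} [MeasurableSpace Ω]
variable {E : Type*} [NormedAddCommGroup E]

theorem pvt_n1_convex [NormedSpace ℝ E] (n : ℕ) : ConvexOn ℝ (univ : Set E) fun x : E => ‖x‖ ^ n :=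
  (convexOn_univ_norm).pow (fun _ _ => norm_nonneg _) n

theorem pvt_n1_le_one_add_pow (a : ℝ≥0∞) {n : ℕ} (hn : n ≠ 0) : a ≤ 1 + a ^ n := by
  rcases le_total a 1 with h | h
  · exact h.trans le_self_add
  · exact (le_self_pow₀ h hn).trans le_add_self

theorem pvt_n1_integrable (ν : Measure Ω) [IsFiniteMeasure ν] {n : ℕ} (hn : n ≠ 0) {f : Ω → E}
    (hf : AEStronglyMeasurable f ν) (h : ∫⁻ w, ‖f w‖ₑ ^ n ∂ν ≠ ∞) : Integrable f ν := by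
  refine ⟨hf, ?_⟩
  have h1 : ∫⁻ w, ‖f w‖ₑ ∂ν ≤ ∫⁻ w, (1 + ‖f w‖ₑ ^ n) ∂ν := lintegral_mono fun w => pvt_n1_le_one_add_pow _ hn
  have h2 : ∫⁻ w, (1 + ‖f w‖ₑ ^ n) ∂ν = ν univ + ∫⁻ w, ‖f w‖ₑ ^ n ∂ν := by
    rw [lintegral_add_left measurable_const]; simp
  refine lt_of_le_of_lt h1 ?_
  rw [h2]
  exact ENNReal.add_lt_top.2 ⟨measure_lt_top _ _, lt_top_iff_ne_top.2 h⟩

theorem pvt_n1_integrable_pow (ν : Measure Ω) (n : ℕ) {f : Ω → E}
    (hf : AEStronglyMeasurable f ν) (h : ∫⁻ w, ‖f w‖ₑ ^ n ∂ν ≠ ∞) : Integrable (fun w => ‖f w‖ ^ n) ν := by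
  refine ⟨(hf.norm.pow n), ?_⟩
  have : ∀ w, ‖‖f w‖ ^ n‖ₑ = ‖f w‖ₑ ^ n := fun w => by rw [enorm_pow, enorm_norm]
  unfold HasFiniteIntegral
  simp_rw [this]
  exact lt_top_iff_ne_top.2 h

theorem pvt_n1_lintegral_eq (ν : Measure Ω) (n : ℕ) {f : Ω → E}
    (hf : AEStronglyMeasurable f ν) :
    ENNReal.ofReal (∫ w, ‖f w‖ ^ n ∂ν) ≤ ∫⁻ w, ‖f w‖ₑ ^ n ∂ν := by
  have hm : AEStronglyMeasurable (fun w => ‖f w‖ ^ n) ν := hf.norm.pow n
  rw [integral_eq_lintegral_of_nonneg_ae (Filter.Eventually.of_forall fun w => by positivity) hm]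
  refine ENNReal.ofReal_toReal_le.trans (le_of_eq ?_)
  refine lintegral_congr fun w => ?_
  rw [ENNReal.ofReal_pow (norm_nonneg _), ofReal_norm]

variable [NormedSpace ℝ E] [CompleteSpace E]

/-- **Jensen, unnormalised, in `ℝ≥0∞`**: no integrability hypothesis. -/
theorem pvt_n1_jensen (ν : Measure Ω) [IsFiniteMeasure ν] (n : ℕ) {f : Ω → E} (hf : AEStronglyMeasurable f ν) :
    ν univ * ‖⨍ w, f w ∂ν‖ₑ ^ n ≤ ∫⁻ w, ‖f w‖ₑ ^ n ∂ν := by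
  rcases eq_or_ne n 0 with rfl | hn
  · simp
  rcases eq_or_ne ν 0 with rfl | hν
  · simp
  by_cases h : ∫⁻ w, ‖f w‖ₑ ^ n ∂ν = ∞
  · rw [h]; exact le_top
  have : NeZero ν := ⟨hν⟩
  have hi := pvt_n1_integrable ν hn hf h
  have hp := pvt_n1_integrable_pow ν n hf h
  have hJ : ‖⨍ w, f w ∂ν‖ ^ n ≤ ⨍ w, ‖f w‖ ^ n ∂ν :=
    (pvt_n1_convex (E := E) n).map_average_le (by fun_prop) isClosed_univ (by simp) hi hp
  rw [average_eq ν (fun w => ‖f w‖ ^ n), smul_eq_mul] at hJ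
  have hpos : 0 < ν.real univ := by
    rw [measureReal_def]; exact ENNReal.toReal_pos (by simpa using hν) (measure_ne_top _ _)
  have hJ' : ν.real univ * ‖⨍ w, f w ∂ν‖ ^ n ≤ ∫ w, ‖f w‖ ^ n ∂ν := by
    calc ν.real univ * ‖⨍ w, f w ∂ν‖ ^ n ≤ ν.real univ * ((ν.real univ)⁻¹ * ∫ w, ‖f w‖ ^ n ∂ν) := by gcongr
      _ = ∫ w, ‖f w‖ ^ n ∂ν := by field_simp
  refine le_trans (le_of_eq ?_) ((ENNReal.ofReal_le_ofReal hJ').trans (pvt_n1_lintegral_eq ν n hf))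
  rw [ENNReal.ofReal_mul hpos.le, ENNReal.ofReal_pow (norm_nonneg _), ofReal_norm, measureReal_def,
    ENNReal.ofReal_toReal (measure_ne_top _ _)]

/-- **N1, pointwise core**: `ν(1) |x + ȳ|^n ≤ ∫ |x + Y|^n dν`, `ȳ` the `ν`-average of `Y`. -/
theorem pvt_n1_shift (ν : Measure Ω) [IsFiniteMeasure ν] (n : ℕ) {Y : Ω → E} (hY : AEStronglyMeasurable Y ν) (x : E) :
    ν univ * ‖x + ⨍ w, Y w ∂ν‖ₑ ^ n ≤ ∫⁻ w, ‖x + Y w‖ₑ ^ n ∂ν := by
  rcases eq_or_ne n 0 with rfl | hn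
  · simp
  rcases eq_or_ne ν 0 with rfl | hν
  · simp
  by_cases h : ∫⁻ w, ‖x + Y w‖ₑ ^ n ∂ν = ∞
  · rw [h]; exact le_top
  have hm : AEStronglyMeasurable (fun w => x + Y w) ν := aestronglyMeasurable_const.add hY
  have hi := pvt_n1_integrable ν hn hm h
  have hYi : Integrable Y ν := by
    have := hi.sub (integrable_const x)
    refine this.congr (Filter.Eventually.of_forall fun w => ?_)
    simp
  have hpos : ν.real univ ≠ 0 := by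
    rw [measureReal_def]; exact (ENNReal.toReal_pos (by simpa using hν) (measure_ne_top _ _)).ne'
  have hav : ⨍ w, (x + Y w) ∂ν = x + ⨍ w, Y w ∂ν := by
    rw [average_eq, average_eq, integral_add (integrable_const x) hYi, integral_const, smul_add, smul_smul,
      inv_mul_cancel₀ hpos, one_smul]
  rw [← hav]
  exact pvt_n1_jensen ν n hm

/-- the same on a set `S` -/
theorem pvt_n1_set (ν : Measure Ω) [IsFiniteMeasure ν] (n : ℕ) (S : Set Ω) {Y : Ω → E}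
    (hY : AEStronglyMeasurable Y (ν.restrict S)) (x : E) :
    ν S * ‖x + ⨍ w in S, Y w ∂ν‖ₑ ^ n ≤ ∫⁻ w in S, ‖x + Y w‖ₑ ^ n ∂ν := by
  have := pvt_n1_shift (ν.restrict S) n hY x
  rwa [Measure.restrict_apply_univ] at this

end Var

section Core

variable {β Ω₂ : Type*} [MeasurableSpace β] [MeasurableSpace Ω₂]
variable {E : Type*} [NormedAddCommGroup E] [NormedSpace ℝ E]

/-- the conditional mean `y(b) = E[Y | S, b]` under the family of laws `κ` -/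
noncomputable def pvtY (κ : β → Measure Ω₂) (S : Set (β × Ω₂)) (Y : β × Ω₂ → E) (b : β) : E :=
  ⨍ w in Prod.mk b ⁻¹' S, Y (b, w) ∂(κ b)

omit [MeasurableSpace β] in
theorem pvtY_eq (κ : β → Measure Ω₂) (S : Set (β × Ω₂)) (Y : β × Ω₂ → E) (b : β) :
    pvtY κ S Y b = ((κ b).real (Prod.mk b ⁻¹' S))⁻¹ • ∫ w in Prod.mk b ⁻¹' S, Y (b, w) ∂(κ b) := by
  rw [pvtY, setAverage_eq]

theorem pvtY_eq_indicator (κ : β → Measure Ω₂) {S : Set (β × Ω₂)} (hS : MeasurableSet S) (Y : β × Ω₂ → E) (b : β) :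
    pvtY κ S Y b = ((κ b).real (Prod.mk b ⁻¹' S))⁻¹ • ∫ w, S.indicator Y (b, w) ∂(κ b) := by
  rw [pvtY_eq, ← integral_indicator (measurable_prodMk_left hS)]
  rfl

theorem pvtY_stronglyMeasurable (κ : Kernel β Ω₂) [IsSFiniteKernel κ] {S : Set (β × Ω₂)} (hS : MeasurableSet S)
    {Y : β × Ω₂ → E} (hY : StronglyMeasurable Y) : StronglyMeasurable (pvtY κ S Y) := by
  have h1 : StronglyMeasurable fun b => ∫ w, S.indicator Y (b, w) ∂(κ b) :=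
    (hY.indicator hS).integral_kernel_prod_right'
  have h2 : Measurable fun b => ((κ b).real (Prod.mk b ⁻¹' S))⁻¹ :=
    (Kernel.measurable_kernel_prodMk_left hS).ennreal_toReal.inv
  have h3 := h2.stronglyMeasurable.smul h1
  have e : pvtY κ S Y = fun b => ((κ b).real (Prod.mk b ⁻¹' S))⁻¹ • ∫ w, S.indicator Y (b, w) ∂(κ b) := by
    funext b
    rw [pvtY_eq_indicator (fun b => κ b) hS]
  rw [e]
  exact h3

variable [CompleteSpace E]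

/-- **N1, two levels, a.e. form.**  `b` = everything that is not resampled (`b = (σ, ω|E0)`), `κ b` = the law of the resampled part. -/
theorem pvt_n1_core_ae (μ : Measure β) (κ : β → Measure Ω₂) [∀ b, IsFiniteMeasure (κ b)] (n : ℕ)
    (B : Set β) (S : Set (β × Ω₂)) (X : β → E) (Y : β × Ω₂ → E)
    (hY : ∀ᵐ b ∂(μ.restrict B), AEStronglyMeasurable (fun w => Y (b, w)) ((κ b).restrict (Prod.mk b ⁻¹' S)))
    (q0 : ℝ≥0∞) (hq : ∀ᵐ b ∂(μ.restrict B), q0 ≤ κ b (Prod.mk b ⁻¹' S)) :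
    q0 * ∫⁻ b in B, ‖X b + pvtY κ S Y b‖ₑ ^ n ∂μ
      ≤ ∫⁻ b in B, ∫⁻ w in Prod.mk b ⁻¹' S, ‖X b + Y (b, w)‖ₑ ^ n ∂(κ b) ∂μ := by
  refine (lintegral_const_mul_le _ _).trans (lintegral_mono_ae ?_)
  filter_upwards [hY, hq] with b h1 h2
  exact (mul_le_mul_left h2 _).trans (pvt_n1_set (κ b) n _ h1 (X b))

/-- **N1, two levels.** -/
theorem pvt_n1_core (μ : Measure β) (κ : β → Measure Ω₂) [∀ b, IsFiniteMeasure (κ b)] (n : ℕ)
    {B : Set β} (hB : MeasurableSet B) (S : Set (β × Ω₂)) (X : β → E) (Y : β × Ω₂ → E)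
    (hY : ∀ b ∈ B, AEStronglyMeasurable (fun w => Y (b, w)) ((κ b).restrict (Prod.mk b ⁻¹' S)))
    (q0 : ℝ≥0∞) (hq : ∀ b ∈ B, q0 ≤ κ b (Prod.mk b ⁻¹' S)) :
    q0 * ∫⁻ b in B, ‖X b + pvtY κ S Y b‖ₑ ^ n ∂μ
      ≤ ∫⁻ b in B, ∫⁻ w in Prod.mk b ⁻¹' S, ‖X b + Y (b, w)‖ₑ ^ n ∂(κ b) ∂μ :=
  pvt_n1_core_ae μ κ n B S X Y (ae_restrict_of_forall_mem hB hY) q0 (ae_restrict_of_forall_mem hB hq)

end Core

section Three

variable {α Ω₁ Ω₂ : Type*} [MeasurableSpace α] [MeasurableSpace Ω₁] [MeasurableSpace Ω₂]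
variable {E : Type*} [NormedAddCommGroup E] [NormedSpace ℝ E] [CompleteSpace E]

/-- **N1, three levels, iterated integrals**: `σ = a`, `ω|E0 = u ~ κ₁ a`, `ω|C0 = w ~ κ₂ a`, conditionally independent. -/
theorem pvt_n1_iter (m : Measure α) (κ₁ : α → Measure Ω₁) (κ₂ : α → Measure Ω₂) [∀ a, IsFiniteMeasure (κ₂ a)] (n : ℕ)
    {G : Set α} (hG : MeasurableSet G) (A : Set (α × Ω₁)) (S : Set (α × Ω₂)) (X : α × Ω₁ → E) (Y : α × Ω₂ → E)
    (hY : ∀ a ∈ G, AEStronglyMeasurable (fun w => Y (a, w)) ((κ₂ a).restrict (Prod.mk a ⁻¹' S)))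
    (q0 : ℝ≥0∞) (hq : ∀ a ∈ G, q0 ≤ κ₂ a (Prod.mk a ⁻¹' S)) :
    q0 * ∫⁻ a in G, ∫⁻ u in Prod.mk a ⁻¹' A, ‖X (a, u) + pvtY κ₂ S Y a‖ₑ ^ n ∂(κ₁ a) ∂m
      ≤ ∫⁻ a in G, ∫⁻ u in Prod.mk a ⁻¹' A, ∫⁻ w in Prod.mk a ⁻¹' S, ‖X (a, u) + Y (a, w)‖ₑ ^ n ∂(κ₂ a) ∂(κ₁ a) ∂m := by
  refine (lintegral_const_mul_le _ _).trans (setLIntegral_mono' hG fun a ha => ?_)
  refine (lintegral_const_mul_le _ _).trans (lintegral_mono fun u => ?_)
  exact (mul_le_mul_left (hq a ha) _).trans (pvt_n1_set (κ₂ a) n _ (hY a ha) (X (a, u)))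

theorem pvt_n1_measurableSet {G : Set α} (hG : MeasurableSet G) {A : Set (α × Ω₁)} (hA : MeasurableSet A)
    {S : Set (α × Ω₂)} (hS : MeasurableSet S) :
    MeasurableSet {z : α × Ω₁ × Ω₂ | z.1 ∈ G ∧ (z.1, z.2.1) ∈ A ∧ (z.1, z.2.2) ∈ S} := by
  have h1 : Measurable fun z : α × Ω₁ × Ω₂ => (z.1, z.2.1) := by fun_prop
  have h2 : Measurable fun z : α × Ω₁ × Ω₂ => (z.1, z.2.2) := by fun_prop
  exact (measurable_fst hG).inter ((h1 hA).inter (h2 hS))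

/-- Fubini for the joint law `m ⊗ₘ (κ₁ ×ₖ κ₂)` on the event `G ∩ A ∩ S` -/
theorem pvt_n1_fubini (m : Measure α) [SFinite m] (κ₁ : Kernel α Ω₁) [IsSFiniteKernel κ₁] (κ₂ : Kernel α Ω₂) [IsSFiniteKernel κ₂]
    {G : Set α} (hG : MeasurableSet G) {A : Set (α × Ω₁)} (hA : MeasurableSet A) {S : Set (α × Ω₂)} (hS : MeasurableSet S)
    {F : α × Ω₁ × Ω₂ → ℝ≥0∞} (hF : Measurable F) :
    ∫⁻ z in {z : α × Ω₁ × Ω₂ | z.1 ∈ G ∧ (z.1, z.2.1) ∈ A ∧ (z.1, z.2.2) ∈ S}, F z ∂(m ⊗ₘ (κ₁ ×ₖ κ₂))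
      = ∫⁻ a in G, ∫⁻ u in Prod.mk a ⁻¹' A, ∫⁻ w in Prod.mk a ⁻¹' S, F (a, u, w) ∂(κ₂ a) ∂(κ₁ a) ∂m := by
  have hT := pvt_n1_measurableSet hG hA hS
  rw [← lintegral_indicator hT, Measure.lintegral_compProd (hF.indicator hT), ← lintegral_indicator hG]
  refine lintegral_congr fun a => ?_
  have hm : Measurable fun b : Ω₁ × Ω₂ => {z : α × Ω₁ × Ω₂ | z.1 ∈ G ∧ (z.1, z.2.1) ∈ A ∧ (z.1, z.2.2) ∈ S}.indicator F (a, b) :=
    (hF.indicator hT).comp measurable_prodMk_left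
  rw [Kernel.prod_apply, lintegral_prod _ hm.aemeasurable]
  by_cases ha : a ∈ G
  · rw [indicator_of_mem ha, ← lintegral_indicator (measurable_prodMk_left hA)]
    refine lintegral_congr fun u => ?_
    by_cases hu : (a, u) ∈ A
    · rw [indicator_of_mem (by exact hu), ← lintegral_indicator (measurable_prodMk_left hS)]
      refine lintegral_congr fun w => ?_
      by_cases hw : (a, w) ∈ S <;> simp [indicator, ha, hu, hw]
    · simp [indicator, hu]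
  · simp [indicator, ha]

/-- **N1 on the joint law** `m ⊗ₘ (κ₁ ×ₖ κ₂)` of `(σ, ω|E0, ω|C0)`. -/
theorem pvt_n1_joint (m : Measure α) [SFinite m] (κ₁ : Kernel α Ω₁) [IsSFiniteKernel κ₁] (κ₂ : Kernel α Ω₂) [IsMarkovKernel κ₂] (n : ℕ)
    {G : Set α} (hG : MeasurableSet G) {A : Set (α × Ω₁)} (hA : MeasurableSet A) {S : Set (α × Ω₂)} (hS : MeasurableSet S)
    {X : α × Ω₁ → E} (hX : StronglyMeasurable X) {Y : α × Ω₂ → E} (hY : StronglyMeasurable Y)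
    (q0 : ℝ≥0∞) (hq : ∀ a ∈ G, q0 ≤ κ₂ a (Prod.mk a ⁻¹' S)) :
    q0 * ∫⁻ z in {z : α × Ω₁ × Ω₂ | z.1 ∈ G ∧ (z.1, z.2.1) ∈ A}, ‖X (z.1, z.2.1) + pvtY κ₂ S Y z.1‖ₑ ^ n ∂(m ⊗ₘ (κ₁ ×ₖ κ₂))
      ≤ ∫⁻ z in {z : α × Ω₁ × Ω₂ | z.1 ∈ G ∧ (z.1, z.2.1) ∈ A ∧ (z.1, z.2.2) ∈ S},
          ‖X (z.1, z.2.1) + Y (z.1, z.2.2)‖ₑ ^ n ∂(m ⊗ₘ (κ₁ ×ₖ κ₂)) := by
  have h1 : Measurable fun z : α × Ω₁ × Ω₂ => (z.1, z.2.1) := by fun_prop
  have h2 : Measurable fun z : α × Ω₁ × Ω₂ => (z.1, z.2.2) := by fun_prop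
  have hy := pvtY_stronglyMeasurable κ₂ hS hY
  have hF1 : Measurable fun z : α × Ω₁ × Ω₂ => ‖X (z.1, z.2.1) + pvtY κ₂ S Y z.1‖ₑ ^ n :=
    ((hX.comp_measurable h1).add (hy.comp_measurable measurable_fst)).enorm.pow_const n
  have hF2 : Measurable fun z : α × Ω₁ × Ω₂ => ‖X (z.1, z.2.1) + Y (z.1, z.2.2)‖ₑ ^ n :=
    ((hX.comp_measurable h1).add (hY.comp_measurable h2)).enorm.pow_const n
  have e : {z : α × Ω₁ × Ω₂ | z.1 ∈ G ∧ (z.1, z.2.1) ∈ A}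
      = {z : α × Ω₁ × Ω₂ | z.1 ∈ G ∧ (z.1, z.2.1) ∈ A ∧ (z.1, z.2.2) ∈ (univ : Set (α × Ω₂))} := by
    ext z; simp
  rw [e, pvt_n1_fubini m κ₁ κ₂ hG hA MeasurableSet.univ hF1, pvt_n1_fubini m κ₁ κ₂ hG hA hS hF2]
  simp only [preimage_univ, Measure.restrict_univ, lintegral_const, measure_univ, mul_one]
  exact pvt_n1_iter m κ₁ κ₂ n hG A S X Y
    (fun a _ => (hY.comp_measurable measurable_prodMk_left).aestronglyMeasurable) q0 hq

end Three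

section Maps

variable {Ω α Ω₁ Ω₂ : Type*} [MeasurableSpace Ω] [MeasurableSpace α] [MeasurableSpace Ω₁] [MeasurableSpace Ω₂]
variable {E : Type*} [NormedAddCommGroup E] [NormedSpace ℝ E] [CompleteSpace E]

/-- **N1 on an abstract probability space**: the law of `(s, u, v)` under `P` is `m ⊗ₘ (κ₁ ×ₖ κ₂)`
(`u` and `v` conditionally independent given `s`). -/
theorem pvt_n1_map (P : Measure Ω) {s : Ω → α} {u : Ω → Ω₁} {v : Ω → Ω₂} (hs : Measurable s) (hu : Measurable u) (hv : Measurable v)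
    (m : Measure α) [SFinite m] (κ₁ : Kernel α Ω₁) [IsSFiniteKernel κ₁] (κ₂ : Kernel α Ω₂) [IsMarkovKernel κ₂]
    (hlaw : P.map (fun ω => (s ω, u ω, v ω)) = m ⊗ₘ (κ₁ ×ₖ κ₂)) (n : ℕ)
    {G : Set α} (hG : MeasurableSet G) {A : Set (α × Ω₁)} (hA : MeasurableSet A) {S : Set (α × Ω₂)} (hS : MeasurableSet S)
    {X : α × Ω₁ → E} (hX : StronglyMeasurable X) {Y : α × Ω₂ → E} (hY : StronglyMeasurable Y)
    (q0 : ℝ≥0∞) (hq : ∀ a ∈ G, q0 ≤ κ₂ a (Prod.mk a ⁻¹' S)) :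
    q0 * ∫⁻ ω in {ω | s ω ∈ G ∧ (s ω, u ω) ∈ A}, ‖X (s ω, u ω) + pvtY κ₂ S Y (s ω)‖ₑ ^ n ∂P
      ≤ ∫⁻ ω in {ω | s ω ∈ G ∧ (s ω, u ω) ∈ A ∧ (s ω, v ω) ∈ S}, ‖X (s ω, u ω) + Y (s ω, v ω)‖ₑ ^ n ∂P := by
  have h1 : Measurable fun z : α × Ω₁ × Ω₂ => (z.1, z.2.1) := by fun_prop
  have h2 : Measurable fun z : α × Ω₁ × Ω₂ => (z.1, z.2.2) := by fun_prop
  have hy := pvtY_stronglyMeasurable κ₂ hS hY
  have hF1 : Measurable fun z : α × Ω₁ × Ω₂ => ‖X (z.1, z.2.1) + pvtY κ₂ S Y z.1‖ₑ ^ n :=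
    ((hX.comp_measurable h1).add (hy.comp_measurable measurable_fst)).enorm.pow_const n
  have hF2 : Measurable fun z : α × Ω₁ × Ω₂ => ‖X (z.1, z.2.1) + Y (z.1, z.2.2)‖ₑ ^ n :=
    ((hX.comp_measurable h1).add (hY.comp_measurable h2)).enorm.pow_const n
  have hΦ : Measurable fun ω => (s ω, u ω, v ω) := hs.prodMk (hu.prodMk hv)
  have hT1 : MeasurableSet {z : α × Ω₁ × Ω₂ | z.1 ∈ G ∧ (z.1, z.2.1) ∈ A} := (measurable_fst hG).inter (h1 hA)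
  have key := pvt_n1_joint m κ₁ κ₂ n hG hA hS hX hY q0 hq
  rw [← hlaw, setLIntegral_map hT1 hF1 hΦ, setLIntegral_map (pvt_n1_measurableSet hG hA hS) hF2 hΦ] at key
  exact key

/-- **N1 for a product law** `μ₀ × μ₁ × μ₂` of `(s, u, v)`. -/
theorem pvt_n1_map_prod (P : Measure Ω) {s : Ω → α} {u : Ω → Ω₁} {v : Ω → Ω₂} (hs : Measurable s) (hu : Measurable u) (hv : Measurable v)
    (μ₀ : Measure α) [SFinite μ₀] (μ₁ : Measure Ω₁) [SFinite μ₁] (μ₂ : Measure Ω₂) [IsProbabilityMeasure μ₂]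
    (hlaw : P.map (fun ω => (s ω, u ω, v ω)) = μ₀.prod (μ₁.prod μ₂)) (n : ℕ)
    {G : Set α} (hG : MeasurableSet G) {A : Set (α × Ω₁)} (hA : MeasurableSet A) {S : Set (α × Ω₂)} (hS : MeasurableSet S)
    {X : α × Ω₁ → E} (hX : StronglyMeasurable X) {Y : α × Ω₂ → E} (hY : StronglyMeasurable Y)
    (q0 : ℝ≥0∞) (hq : ∀ a ∈ G, q0 ≤ μ₂ (Prod.mk a ⁻¹' S)) :
    q0 * ∫⁻ ω in {ω | s ω ∈ G ∧ (s ω, u ω) ∈ A}, ‖X (s ω, u ω) + pvtY (fun _ => μ₂) S Y (s ω)‖ₑ ^ n ∂P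
      ≤ ∫⁻ ω in {ω | s ω ∈ G ∧ (s ω, u ω) ∈ A ∧ (s ω, v ω) ∈ S}, ‖X (s ω, u ω) + Y (s ω, v ω)‖ₑ ^ n ∂P := by
  have e : μ₀.prod (μ₁.prod μ₂) = μ₀ ⊗ₘ (Kernel.const α μ₁ ×ₖ Kernel.const α μ₂) := by
    rw [Kernel.prod_const, Measure.compProd_const]
  rw [e] at hlaw
  exact pvt_n1_map P hs hu hv μ₀ (Kernel.const α μ₁) (Kernel.const α μ₂) hlaw n hG hA hS hX hY q0 hq

/-- **N1 for three independent random elements** `s`, `u`, `v`. -/
theorem pvt_n1_indep (P : Measure Ω) [IsProbabilityMeasure P] {s : Ω → α} {u : Ω → Ω₁} {v : Ω → Ω₂}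
    (hs : Measurable s) (hu : Measurable u) (hv : Measurable v)
    (h1 : IndepFun s (fun ω => (u ω, v ω)) P) (h2 : IndepFun u v P) (n : ℕ)
    {G : Set α} (hG : MeasurableSet G) {A : Set (α × Ω₁)} (hA : MeasurableSet A) {S : Set (α × Ω₂)} (hS : MeasurableSet S)
    {X : α × Ω₁ → E} (hX : StronglyMeasurable X) {Y : α × Ω₂ → E} (hY : StronglyMeasurable Y)
    (q0 : ℝ≥0∞) (hq : ∀ a ∈ G, q0 ≤ P {ω | (a, v ω) ∈ S}) :
    q0 * ∫⁻ ω in {ω | s ω ∈ G ∧ (s ω, u ω) ∈ A}, ‖X (s ω, u ω) + pvtY (fun _ => P.map v) S Y (s ω)‖ₑ ^ n ∂P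
      ≤ ∫⁻ ω in {ω | s ω ∈ G ∧ (s ω, u ω) ∈ A ∧ (s ω, v ω) ∈ S}, ‖X (s ω, u ω) + Y (s ω, v ω)‖ₑ ^ n ∂P := by
  have : IsProbabilityMeasure (P.map v) := Measure.isProbabilityMeasure_map hv.aemeasurable
  have : IsProbabilityMeasure (P.map u) := Measure.isProbabilityMeasure_map hu.aemeasurable
  have : IsProbabilityMeasure (P.map s) := Measure.isProbabilityMeasure_map hs.aemeasurable
  have e1 := (indepFun_iff_map_prod_eq_prod_map_map hs.aemeasurable (hu.prodMk hv).aemeasurable).1 h1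
  have e2 := (indepFun_iff_map_prod_eq_prod_map_map hu.aemeasurable hv.aemeasurable).1 h2
  rw [e2] at e1
  refine pvt_n1_map_prod P hs hu hv (P.map s) (P.map u) (P.map v) e1 n hG hA hS hX hY q0 fun a ha => ?_
  rw [Measure.map_apply hv (measurable_prodMk_left hS)]
  exact hq a ha

omit [CompleteSpace E] in
/-- the conditional mean in the independent setting, as an integral over `P` -/
theorem pvtY_map (P : Measure Ω) {v : Ω → Ω₂} (hv : Measurable v) {S : Set (α × Ω₂)} (hS : MeasurableSet S)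
    {Y : α × Ω₂ → E} (hY : StronglyMeasurable Y) (a : α) :
    pvtY (fun _ => P.map v) S Y a = (P.real {ω | (a, v ω) ∈ S})⁻¹ • ∫ ω in {ω | (a, v ω) ∈ S}, Y (a, v ω) ∂P := by
  have hm : AEStronglyMeasurable (fun w => Y (a, w)) (P.map v) :=
    (hY.comp_measurable measurable_prodMk_left).aestronglyMeasurable
  rw [pvtY_eq, setIntegral_map (measurable_prodMk_left hS) hm hv.aemeasurable, measureReal_def,
    Measure.map_apply hv (measurable_prodMk_left hS)]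
  rfl

end Maps

section Conv

variable {Ω : Type*} [MeasurableSpace Ω]
variable {E : Type*} [NormedAddCommGroup E]

/-- from a bound in `ℝ≥0∞` to integrability and a bound on the Bochner integral -/
theorem pvt_n1_toReal (P : Measure Ω) (n : ℕ) {f : Ω → E} (hf : AEStronglyMeasurable f P) {c : ℝ} (hc : 0 ≤ c)
    (h : ∫⁻ ω, ‖f ω‖ₑ ^ n ∂P ≤ ENNReal.ofReal c) :
    Integrable (fun ω => ‖f ω‖ ^ n) P ∧ ∫ ω, ‖f ω‖ ^ n ∂P ≤ c := by
  have hne : ∫⁻ ω, ‖f ω‖ₑ ^ n ∂P ≠ ∞ := ne_top_of_le_ne_top ENNReal.ofReal_ne_top h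
  refine ⟨pvt_n1_integrable_pow P n hf hne, ?_⟩
  have hm : AEStronglyMeasurable (fun w => ‖f w‖ ^ n) P := hf.norm.pow n
  rw [integral_eq_lintegral_of_nonneg_ae (Filter.Eventually.of_forall fun w => by positivity) hm]
  have e : ∫⁻ ω, ENNReal.ofReal (‖f ω‖ ^ n) ∂P = ∫⁻ ω, ‖f ω‖ₑ ^ n ∂P :=
    lintegral_congr fun w => by rw [ENNReal.ofReal_pow (norm_nonneg _), ofReal_norm]
  rw [e]
  exact ENNReal.toReal_le_of_le_ofReal hc h

/-- from the Bochner integral to `ℝ≥0∞` -/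
theorem pvt_n1_ofReal (P : Measure Ω) (n : ℕ) {f : Ω → E} (hi : Integrable (fun ω => ‖f ω‖ ^ n) P) :
    ∫⁻ ω, ‖f ω‖ₑ ^ n ∂P = ENNReal.ofReal (∫ ω, ‖f ω‖ ^ n ∂P) := by
  rw [ofReal_integral_eq_lintegral_ofReal hi (Filter.Eventually.of_forall fun w => by positivity)]
  exact lintegral_congr fun w => by rw [ENNReal.ofReal_pow (norm_nonneg _), ofReal_norm]

/-- **the `e / q0` form**, for any pair of set integrals linked by an inequality `q0 * L₁ ≤ L₂` in `ℝ≥0∞` -/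
theorem pvt_n1_conv (P : Measure Ω) (n : ℕ) {T₁ T₂ : Set Ω} {f g : Ω → E} (hf : AEStronglyMeasurable f (P.restrict T₁))
    {q0 e : ℝ} (hq0 : 0 < q0)
    (h : ENNReal.ofReal q0 * ∫⁻ ω in T₁, ‖f ω‖ₑ ^ n ∂P ≤ ∫⁻ ω in T₂, ‖g ω‖ₑ ^ n ∂P)
    (hi : IntegrableOn (fun ω => ‖g ω‖ ^ n) T₂ P) (he : ∫ ω in T₂, ‖g ω‖ ^ n ∂P ≤ e) :
    IntegrableOn (fun ω => ‖f ω‖ ^ n) T₁ P ∧ ∫ ω in T₁, ‖f ω‖ ^ n ∂P ≤ e / q0 := by
  have he0 : 0 ≤ e := le_trans (integral_nonneg fun w => by positivity) he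
  refine pvt_n1_toReal (P.restrict T₁) n hf (div_nonneg he0 hq0.le) ?_
  rw [pvt_n1_ofReal (P.restrict T₂) n hi] at h
  have h2 := h.trans (ENNReal.ofReal_le_ofReal he)
  rw [ENNReal.ofReal_div_of_pos hq0, ENNReal.le_div_iff_mul_le (Or.inl (by simpa using hq0)) (Or.inl ENNReal.ofReal_ne_top), mul_comm]
  exact h2

/-- **Chebyshev form** -/
theorem pvt_n1_cheb (P : Measure Ω) (n : ℕ) {T₁ : Set Ω} (hT₁ : MeasurableSet T₁) {f : Ω → E} (hf : AEStronglyMeasurable f (P.restrict T₁))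
    {c t : ℝ} (ht : 0 < t) (hi : IntegrableOn (fun ω => ‖f ω‖ ^ n) T₁ P) (hc : ∫ ω in T₁, ‖f ω‖ ^ n ∂P ≤ c) :
    P {ω | ω ∈ T₁ ∧ t ≤ ‖f ω‖} ≤ ENNReal.ofReal (c / t ^ n) := by
  have h1 : ENNReal.ofReal (t ^ n) * (P.restrict T₁) {ω | ENNReal.ofReal (t ^ n) ≤ ‖f ω‖ₑ ^ n} ≤ ∫⁻ ω in T₁, ‖f ω‖ₑ ^ n ∂P :=
    mul_meas_ge_le_lintegral₀ (hf.enorm.pow_const n) _
  rw [pvt_n1_ofReal (P.restrict T₁) n hi] at h1
  have h2 := h1.trans (ENNReal.ofReal_le_ofReal hc)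
  have htn : 0 < t ^ n := by positivity
  rw [ENNReal.ofReal_div_of_pos htn, ENNReal.le_div_iff_mul_le (Or.inl (by simpa using htn)) (Or.inl ENNReal.ofReal_ne_top), mul_comm]
  refine le_trans (mul_le_mul_right ?_ _) h2
  rw [Measure.restrict_apply' hT₁]
  refine measure_mono fun ω hω => ⟨?_, hω.1⟩
  show ENNReal.ofReal (t ^ n) ≤ ‖f ω‖ₑ ^ n
  rw [← ofReal_norm, ← ENNReal.ofReal_pow (norm_nonneg _)]
  exact ENNReal.ofReal_le_ofReal (pow_le_pow_left₀ ht.le hω.2 n)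

end Conv

section RealForms

variable {Ω α Ω₁ Ω₂ : Type*} [MeasurableSpace Ω] [MeasurableSpace α] [MeasurableSpace Ω₁] [MeasurableSpace Ω₂]
variable {E : Type*} [NormedAddCommGroup E] [NormedSpace ℝ E] [CompleteSpace E]

/-- **N1, the form of the order** (`E[|X+Y|^n; A S G] ≤ e`, `P(S | σ) ≥ q0` on `G` ⟹ `E[|X + y(σ)|^n; A G] ≤ e / q0`),
conditionally independent `u`, `v` given `s`. -/
theorem pvt_n1_map_real (P : Measure Ω) {s : Ω → α} {u : Ω → Ω₁} {v : Ω → Ω₂} (hs : Measurable s) (hu : Measurable u) (hv : Measurable v)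
    (m : Measure α) [SFinite m] (κ₁ : Kernel α Ω₁) [IsSFiniteKernel κ₁] (κ₂ : Kernel α Ω₂) [IsMarkovKernel κ₂]
    (hlaw : P.map (fun ω => (s ω, u ω, v ω)) = m ⊗ₘ (κ₁ ×ₖ κ₂)) (n : ℕ)
    {G : Set α} (hG : MeasurableSet G) {A : Set (α × Ω₁)} (hA : MeasurableSet A) {S : Set (α × Ω₂)} (hS : MeasurableSet S)
    {X : α × Ω₁ → E} (hX : StronglyMeasurable X) {Y : α × Ω₂ → E} (hY : StronglyMeasurable Y)
    {q0 e : ℝ} (hq0 : 0 < q0) (hq : ∀ a ∈ G, q0 ≤ (κ₂ a).real (Prod.mk a ⁻¹' S))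
    (hi : IntegrableOn (fun ω => ‖X (s ω, u ω) + Y (s ω, v ω)‖ ^ n) {ω | s ω ∈ G ∧ (s ω, u ω) ∈ A ∧ (s ω, v ω) ∈ S} P)
    (he : ∫ ω in {ω | s ω ∈ G ∧ (s ω, u ω) ∈ A ∧ (s ω, v ω) ∈ S}, ‖X (s ω, u ω) + Y (s ω, v ω)‖ ^ n ∂P ≤ e) :
    IntegrableOn (fun ω => ‖X (s ω, u ω) + pvtY κ₂ S Y (s ω)‖ ^ n) {ω | s ω ∈ G ∧ (s ω, u ω) ∈ A} P ∧
      ∫ ω in {ω | s ω ∈ G ∧ (s ω, u ω) ∈ A}, ‖X (s ω, u ω) + pvtY κ₂ S Y (s ω)‖ ^ n ∂P ≤ e / q0 := by
  have hy := pvtY_stronglyMeasurable κ₂ hS hY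
  have hf : StronglyMeasurable fun ω => X (s ω, u ω) + pvtY κ₂ S Y (s ω) :=
    (hX.comp_measurable (hs.prodMk hu)).add (hy.comp_measurable hs)
  refine pvt_n1_conv P n hf.aestronglyMeasurable hq0 ?_ hi he
  refine pvt_n1_map P hs hu hv m κ₁ κ₂ hlaw n hG hA hS hX hY _ fun a ha => ?_
  exact ENNReal.ofReal_le_of_le_toReal (hq a ha)

/-- **N1, the form of the order, three independent random elements.** -/
theorem pvt_n1_indep_real (P : Measure Ω) [IsProbabilityMeasure P] {s : Ω → α} {u : Ω → Ω₁} {v : Ω → Ω₂}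
    (hs : Measurable s) (hu : Measurable u) (hv : Measurable v)
    (h1 : IndepFun s (fun ω => (u ω, v ω)) P) (h2 : IndepFun u v P) (n : ℕ)
    {G : Set α} (hG : MeasurableSet G) {A : Set (α × Ω₁)} (hA : MeasurableSet A) {S : Set (α × Ω₂)} (hS : MeasurableSet S)
    {X : α × Ω₁ → E} (hX : StronglyMeasurable X) {Y : α × Ω₂ → E} (hY : StronglyMeasurable Y)
    {q0 e : ℝ} (hq0 : 0 < q0) (hq : ∀ a ∈ G, q0 ≤ P.real {ω | (a, v ω) ∈ S})
    (hi : IntegrableOn (fun ω => ‖X (s ω, u ω) + Y (s ω, v ω)‖ ^ n) {ω | s ω ∈ G ∧ (s ω, u ω) ∈ A ∧ (s ω, v ω) ∈ S} P)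
    (he : ∫ ω in {ω | s ω ∈ G ∧ (s ω, u ω) ∈ A ∧ (s ω, v ω) ∈ S}, ‖X (s ω, u ω) + Y (s ω, v ω)‖ ^ n ∂P ≤ e) :
    IntegrableOn (fun ω => ‖X (s ω, u ω) + pvtY (fun _ => P.map v) S Y (s ω)‖ ^ n) {ω | s ω ∈ G ∧ (s ω, u ω) ∈ A} P ∧
      ∫ ω in {ω | s ω ∈ G ∧ (s ω, u ω) ∈ A}, ‖X (s ω, u ω) + pvtY (fun _ => P.map v) S Y (s ω)‖ ^ n ∂P ≤ e / q0 := by
  have : IsProbabilityMeasure (P.map v) := Measure.isProbabilityMeasure_map hv.aemeasurable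
  have hy : StronglyMeasurable (pvtY (fun _ : α => P.map v) S Y) := pvtY_stronglyMeasurable (Kernel.const α (P.map v)) hS hY
  have hf : StronglyMeasurable fun ω => X (s ω, u ω) + pvtY (fun _ => P.map v) S Y (s ω) :=
    (hX.comp_measurable (hs.prodMk hu)).add (hy.comp_measurable hs)
  refine pvt_n1_conv P n hf.aestronglyMeasurable hq0 ?_ hi he
  refine pvt_n1_indep P hs hu hv h1 h2 n hG hA hS hX hY _ fun a ha => ?_
  exact ENNReal.ofReal_le_of_le_toReal (hq a ha)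

end RealForms

section Fin

variable {E : Type*} [NormedAddCommGroup E] [NormedSpace ℝ E]

/-- **N1, pointwise core, finite weighted sums** -/
theorem pvt_n1_fin_shift {ι : Type*} (S : Finset ι) (w : ι → ℝ) (hw : ∀ j ∈ S, 0 ≤ w j) (Y : ι → E) (x : E) (n : ℕ) :
    (∑ j ∈ S, w j) * ‖x + (∑ j ∈ S, w j)⁻¹ • ∑ j ∈ S, w j • Y j‖ ^ n ≤ ∑ j ∈ S, w j * ‖x + Y j‖ ^ n := by
  rcases (Finset.sum_nonneg hw).eq_or_lt with h0 | hpos
  · rw [← h0, zero_mul]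
    exact Finset.sum_nonneg fun j hj => mul_nonneg (hw j hj) (by positivity)
  have hJ := (pvt_n1_convex (E := E) n).map_centerMass_le (t := S) (w := w) (p := fun j => x + Y j) hw hpos (fun _ _ => mem_univ _)
  have e1 : S.centerMass w (fun j => x + Y j) = x + (∑ j ∈ S, w j)⁻¹ • ∑ j ∈ S, w j • Y j := by
    rw [Finset.centerMass]
    simp only [smul_add, Finset.sum_add_distrib]
    rw [← Finset.sum_smul, smul_smul, inv_mul_cancel₀ hpos.ne', one_smul]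
  have e2 : S.centerMass w ((fun y : E => ‖y‖ ^ n) ∘ fun j => x + Y j) = (∑ j ∈ S, w j)⁻¹ * ∑ j ∈ S, w j * ‖x + Y j‖ ^ n := by
    rw [Finset.centerMass]; simp [smul_eq_mul]
  rw [e1, e2] at hJ
  calc (∑ j ∈ S, w j) * ‖x + (∑ j ∈ S, w j)⁻¹ • ∑ j ∈ S, w j • Y j‖ ^ n
      ≤ (∑ j ∈ S, w j) * ((∑ j ∈ S, w j)⁻¹ * ∑ j ∈ S, w j * ‖x + Y j‖ ^ n) := by gcongr
    _ = ∑ j ∈ S, w j * ‖x + Y j‖ ^ n := by field_simp

/-- the same for the counting measure -/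
theorem pvt_n1_fin_card {ι : Type*} (S : Finset ι) (Y : ι → E) (x : E) (n : ℕ) :
    (S.card : ℝ) * ‖x + (S.card : ℝ)⁻¹ • ∑ j ∈ S, Y j‖ ^ n ≤ ∑ j ∈ S, ‖x + Y j‖ ^ n := by
  have := pvt_n1_fin_shift S (fun _ => (1 : ℝ)) (fun _ _ => zero_le_one) Y x n
  simpa using this

/-- **N1, two levels, finite weighted sums** -/
theorem pvt_n1_fin {ι₁ ι₂ : Type*} (B : Finset ι₁) (S : ι₁ → Finset ι₂) (w₁ : ι₁ → ℝ) (hw₁ : ∀ i ∈ B, 0 ≤ w₁ i)
    (w₂ : ι₁ → ι₂ → ℝ) (hw₂ : ∀ i ∈ B, ∀ j ∈ S i, 0 ≤ w₂ i j) (X : ι₁ → E) (Y : ι₁ → ι₂ → E) (n : ℕ)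
    (q0 : ℝ) (hq : ∀ i ∈ B, q0 ≤ ∑ j ∈ S i, w₂ i j) :
    q0 * ∑ i ∈ B, w₁ i * ‖X i + (∑ j ∈ S i, w₂ i j)⁻¹ • ∑ j ∈ S i, w₂ i j • Y i j‖ ^ n
      ≤ ∑ i ∈ B, ∑ j ∈ S i, w₁ i * (w₂ i j * ‖X i + Y i j‖ ^ n) := by
  rw [Finset.mul_sum]
  refine Finset.sum_le_sum fun i hi => ?_
  rw [← Finset.mul_sum]
  calc q0 * (w₁ i * ‖X i + (∑ j ∈ S i, w₂ i j)⁻¹ • ∑ j ∈ S i, w₂ i j • Y i j‖ ^ n)
      = w₁ i * (q0 * ‖X i + (∑ j ∈ S i, w₂ i j)⁻¹ • ∑ j ∈ S i, w₂ i j • Y i j‖ ^ n) := by ring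
    _ ≤ w₁ i * ((∑ j ∈ S i, w₂ i j) * ‖X i + (∑ j ∈ S i, w₂ i j)⁻¹ • ∑ j ∈ S i, w₂ i j • Y i j‖ ^ n) := by
        have := hq i hi
        have := hw₁ i hi
        gcongr
    _ ≤ w₁ i * ∑ j ∈ S i, w₂ i j * ‖X i + Y i j‖ ^ n :=
        mul_le_mul_of_nonneg_left (pvt_n1_fin_shift (S i) (w₂ i) (hw₂ i hi) (Y i) (X i) n) (hw₁ i hi)

end Fin

section Bits

variable {V K : Type*} [DecidableEq V]

/-- resample the coordinates in `C`: `τ` on `C`, `ω` off `C` -/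
def pvtMix (C : Finset V) (ω τ : V → K) : V → K := fun v => if v ∈ C then τ v else ω v

theorem pvtMix_apply (C : Finset V) (ω τ : V → K) (v : V) : pvtMix C ω τ v = if v ∈ C then τ v else ω v := rfl

theorem pvtMix_self (C : Finset V) (ω : V → K) : pvtMix C ω ω = ω := by
  funext v; simp [pvtMix]

theorem pvtMix_mix_left (C : Finset V) (ω τ τ' : V → K) : pvtMix C (pvtMix C ω τ) τ' = pvtMix C ω τ' := by
  funext v; by_cases h : v ∈ C <;> simp [pvtMix, h]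

theorem pvtMix_mix_right (C : Finset V) (ω τ τ' : V → K) : pvtMix C ω (pvtMix C τ τ') = pvtMix C ω τ' := by
  funext v; by_cases h : v ∈ C <;> simp [pvtMix, h]

theorem pvtMix_swap (C : Finset V) (ω τ : V → K) : pvtMix C (pvtMix C ω τ) (pvtMix C τ ω) = ω := by
  funext v; by_cases h : v ∈ C <;> simp [pvtMix, h]

theorem pvtMix_comm {C D : Finset V} (h : Disjoint C D) (ω τ τ' : V → K) :
    pvtMix C (pvtMix D ω τ) τ' = pvtMix D (pvtMix C ω τ') τ := by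
  funext v
  by_cases hC : v ∈ C
  · have hD : v ∉ D := Finset.disjoint_left.1 h hC
    simp [pvtMix, hC, hD]
  · simp [pvtMix, hC]

/-- the exchange of the coordinates in `C` between two configurations -/
def pvtSwap (C : Finset V) : (V → K) × (V → K) ≃ (V → K) × (V → K) :=
  Function.Involutive.toPerm (fun p => (pvtMix C p.1 p.2, pvtMix C p.2 p.1)) fun p => by
    ext1
    · exact pvtMix_swap C p.1 p.2
    · exact pvtMix_swap C p.2 p.1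

theorem pvtSwap_fst (C : Finset V) (p : (V → K) × (V → K)) : (pvtSwap C p).1 = pvtMix C p.1 p.2 := rfl

variable [Fintype V] [Fintype K]

/-- **resampling preserves the uniform law** -/
theorem pvt_n1_resample {M : Type*} [AddCommMonoid M] (C : Finset V) (F : (V → K) → M) :
    ∑ ω : V → K, ∑ τ : V → K, F (pvtMix C ω τ) = Fintype.card (V → K) • ∑ ω : V → K, F ω := by
  rw [← Fintype.sum_prod_type']
  have h := Equiv.sum_comp (pvtSwap (K := K) C) fun p : (V → K) × (V → K) => F p.1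
  simp only [pvtSwap_fst] at h
  rw [h, Fintype.sum_prod_type]
  simp only [Finset.sum_const, Finset.card_univ]
  rw [Finset.smul_sum]

variable {E : Type*} [NormedAddCommGroup E] [NormedSpace ℝ E]

/-- the conditional mean `y = E[Y | S, ω off C]` for the uniform law on `V → K` -/
noncomputable def pvtYb (C : Finset V) (S : (V → K) → Prop) [DecidablePred S] (Y : (V → K) → E) (ω : V → K) : E :=
  (((Finset.univ.filter fun τ : V → K => S (pvtMix C ω τ)).card : ℝ))⁻¹ •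
    ∑ τ ∈ Finset.univ.filter fun τ : V → K => S (pvtMix C ω τ), Y (pvtMix C ω τ)

/-- `y` does not read the coordinates in `C` -/
theorem pvtYb_mix (C : Finset V) (S : (V → K) → Prop) [DecidablePred S] (Y : (V → K) → E) (ω τ : V → K) :
    pvtYb C S Y (pvtMix C ω τ) = pvtYb C S Y ω := by
  unfold pvtYb
  simp only [pvtMix_mix_left]

/-- **conditional independence**: if `S`, `Y` do not read the coordinates in `D` (disjoint from `C`), neither does `y` -/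
theorem pvtYb_mix_of_disjoint {C D : Finset V} (h : Disjoint C D) (S : (V → K) → Prop) [DecidablePred S] (Y : (V → K) → E)
    (hS : ∀ ω τ, S (pvtMix D ω τ) ↔ S ω) (hY : ∀ ω τ, Y (pvtMix D ω τ) = Y ω) (ω τ : V → K) :
    pvtYb C S Y (pvtMix D ω τ) = pvtYb C S Y ω := by
  unfold pvtYb
  simp only [pvtMix_comm h, hS, hY]

/-- **N1 for finitely many i.i.d. uniform marks (fair bits: `K = Bool`)**: `B = A ∩ G` and `X` do not read `C`. -/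
theorem pvt_n1_bits (C : Finset V) (B S : (V → K) → Prop) [DecidablePred B] [DecidablePred S] (X Y : (V → K) → E) (n : ℕ)
    (hB : ∀ ω τ, B (pvtMix C ω τ) ↔ B ω) (hX : ∀ ω τ, X (pvtMix C ω τ) = X ω)
    (q0 : ℝ) (hq : ∀ ω, B ω → q0 * Fintype.card (V → K) ≤ (Finset.univ.filter fun τ : V → K => S (pvtMix C ω τ)).card) :
    q0 * ∑ ω ∈ Finset.univ.filter B, ‖X ω + pvtYb C S Y ω‖ ^ n
      ≤ ∑ ω ∈ Finset.univ.filter (fun ω => B ω ∧ S ω), ‖X ω + Y ω‖ ^ n := by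
  rcases isEmpty_or_nonempty (V → K) with h | h
  · simp [Finset.univ_eq_empty]
  have hN : (0 : ℝ) < Fintype.card (V → K) := by exact_mod_cast Fintype.card_pos
  have h1 := pvt_n1_resample C fun ω : V → K => if B ω ∧ S ω then ‖X ω + Y ω‖ ^ n else 0
  simp only [hB, hX] at h1
  rw [← Finset.sum_filter (s := Finset.univ) (p := fun ω => B ω ∧ S ω)] at h1
  have h2 : ∀ ω : V → K, B ω → q0 * Fintype.card (V → K) * ‖X ω + pvtYb C S Y ω‖ ^ n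
      ≤ ∑ τ : V → K, if B ω ∧ S (pvtMix C ω τ) then ‖X ω + Y (pvtMix C ω τ)‖ ^ n else 0 := by
    intro ω hω
    simp only [hω, true_and]
    rw [← Finset.sum_filter]
    refine le_trans ?_ (pvt_n1_fin_card (Finset.univ.filter fun τ : V → K => S (pvtMix C ω τ)) (fun τ => Y (pvtMix C ω τ)) (X ω) n)
    exact mul_le_mul_of_nonneg_right (hq ω hω) (by positivity)
  have h3 : (Fintype.card (V → K) : ℝ) * (q0 * ∑ ω ∈ Finset.univ.filter B, ‖X ω + pvtYb C S Y ω‖ ^ n)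
      ≤ (Fintype.card (V → K) : ℝ) * ∑ ω ∈ Finset.univ.filter (fun ω => B ω ∧ S ω), ‖X ω + Y ω‖ ^ n := by
    rw [← nsmul_eq_mul (Fintype.card (V → K)) (∑ ω ∈ Finset.univ.filter (fun ω => B ω ∧ S ω), ‖X ω + Y ω‖ ^ n), ← h1,
      Finset.mul_sum, Finset.mul_sum, Finset.sum_filter]
    refine Finset.sum_le_sum fun ω _ => ?_
    by_cases hω : B ω
    · rw [if_pos hω]
      refine le_trans (le_of_eq ?_) (h2 ω hω)
      ring
    · simp [hω]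
  exact le_of_mul_le_mul_left h3 hN

end Bits

theorem pvt_n1_eqns_cite : True := by
  have := @pvtY.eq_1.{0, 0, 0}
  have := @pvtMix.eq_1.{0, 0}
  have := @pvtSwap.eq_1.{0, 0}
  have := @pvtYb.eq_1.{0, 0, 0}
  trivial

end Claimed.Agent.R289
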