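import Claimed.Agent.R289.FkgQ
import Claimed.Agent.R289.Tr.N1
import Claimed.Agent.R289.S1.Meas

/-!
# Row 289 (S0537), box TR-FORCE, file Tr/Force : THE HARRIS / FORCING STEP OF THE WALL      (architect + prover helper193; prefix `pvtf_`, `pvtf`, `Pvtf`)      0 sorry

PART A = (C3) of `origin/helper208:notes/R289/W1_208.md` sec. 2 (ruling 6 of 234): everything at FIXED GEOMETRY, colours `s : V → Bool` (`true` = black) with the law `colLaw V` (`V = PvfIx` in the frozen model, seam `pvf_qcol` of 268).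
* `pvtfCyl S σ`, `pvtfPD S σ` = the conditional law given the cylinder (frozen colours on `S`, fresh fair colours elsewhere; `S` ANY set of sites);
  (CY1) `pvtf_restrict_cyl`, `pvtf_cyl_inter`, `pvtf_cyl_lintegral` : `P(· ∩ Cyl) = P(Cyl) P_D`.
* `pvtf_cyl_harris` : Harris given a cylinder, two events DECREASING in black ON THE CYLINDER (`PvtfDec S σ A`)      [on `pvfq_down_down` of 103].      ALL monotonicity / reading hypotheses are asked ON THE CYLINDER only.
* `pvtf_cyl_indep` : `A` reads `Xc` (`PvtfReads S σ Xc A`), `f` does not read `Xc`  ⟹  `∫_A f dP_D = P_D(A) ∫ f dP_D`      [on `pvfq_split` of 103].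
* `PvtfDat`, `PvtfDat.Ok` : the datum `D` of 208 (colours only);  **`pvtf_n1_datum`** : `P(Cyl ∩ NB) P_D(WO) P_D(SY) |X(D) + ŷ(D)|^n ≤ E[|X(D) + Y|^n ; Cyl NB WO SY]`      [Jensen = `pvt_n1_set` of 175];
  **`pvtf_n1_sum`** = THEOREM N1', quenched, model free: `q_W q_c ∑_D P(D actual) |X(D) + ŷ(D)|^n ≤ E Θ`;  inputs (C1) `Act D ⊆ Cyl D ∩ NB D`, (C2) + injectivity `∑_D 1_{Ev D} |X(D) + Y_D|^n ≤ Θ` pointwise.

PART B = the WHITE-ADDING KERNEL (T1 + T2 of 208 / F2 of 140; "fallback 2" of the editor 295), complete: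
* `pvtf_cube` : on the cube of the subsets of a finite set `T`, for a nonempty increasing family `𝒲`, a coupling `κ` with row sums `1`, column sums `2^|T| / |𝒲|`, carried by `F ⊆ G ∈ 𝒲` (sequential construction; no Strassen, no Harris).
* `pvtfOv`, `pvtf_resample` : resampling the colours of a finite set preserves `colLaw`.
* model `X = B × (V → Bool)`, `ν = β ⊗ colLaw V`, `T : B → Finset V` measurable, `W` measurable and white-increasing in the colours of `T b` (`PvtfInc`), `pvtfP` = `P(W | b, colours off T b)`: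
  `pvtfK` a Markov kernel;  (K2) `pvtf_K_eq_one`, `pvtf_K_ae` : the output has the same `b`, only black → white, only in `T b`, lies in `W`;   (K3) `pvtf_K3` : `ν K = ν(· | W, b, colours off T)`;
  (K4) `pvtf_K4` : `lam ≤ C ν`, `lam {P < q} = 0`  ⟹  `lam.bind K ≤ (C/q) ν`;   (K5) **`pvtf_force`** (kernel free): `[x ∈ E, y a white-adding of x in T ⟹ y ∈ E']  ⟹  q ν(E, q ≤ P) ≤ ν(E' ∩ W)`.
* `pvtf_dom_kernel` (T1), `pvtf_transfer` (T3) : moved from `origin/helper208:notes/R289/s6a_208.lean`.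
-/

set_option autoImplicit false
set_option linter.unusedSectionVars false

namespace Claimed.Agent.R289

open MeasureTheory ProbabilityTheory Set
open scoped ENNReal

/-! ## A. (C3): cylinders, Harris given a cylinder, independence of the classes XCL / YCL, the quenched form of N1' -/

section cyl

variable {V : Type}

/-- the cylinder: the colours of the sites of `S` are those of `σ` -/
def pvtfCyl (S : Set V) (σ : V → Bool) : Set (V → Bool) := {s | ∀ v ∈ S, s v = σ v}

/-- freeze the colours `σ` on `S` -/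
noncomputable def pvtfFr (S : Set V) (σ : V → Bool) (y : V → Bool) : V → Bool := pvfqMix S (σ, y)

theorem pvtf_fr_mem {S : Set V} {v : V} (h : v ∈ S) (σ y : V → Bool) : pvtfFr S σ y v = σ v := pvfqMix_of_mem h _

theorem pvtf_fr_notMem {S : Set V} {v : V} (h : v ∉ S) (σ y : V → Bool) : pvtfFr S σ y v = y v := pvfqMix_of_notMem h _

theorem pvtf_measurable_fr (S : Set V) (σ : V → Bool) : Measurable (pvtfFr S σ) :=
  (measurable_pvfqMix S).comp (measurable_const.prodMk measurable_id)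

/-- **the conditional law given the cylinder**: the frozen colours on `S`, fresh fair colours elsewhere -/
noncomputable def pvtfPD (S : Set V) (σ : V → Bool) : Measure (V → Bool) := (colLaw V).map (pvtfFr S σ)

instance pvtf_PD_prob (S : Set V) (σ : V → Bool) : IsProbabilityMeasure (pvtfPD S σ) :=
  Measure.isProbabilityMeasure_map (pvtf_measurable_fr S σ).aemeasurable

theorem pvtf_PD_apply (S : Set V) (σ : V → Bool) {A : Set (V → Bool)} (hA : MeasurableSet A) :
    pvtfPD S σ A = colLaw V {y | pvtfFr S σ y ∈ A} := Measure.map_apply (pvtf_measurable_fr S σ) hA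

theorem pvtf_measurableSet_cyl [Countable V] (S : Set V) (σ : V → Bool) : MeasurableSet (pvtfCyl S σ) := by
  have : pvtfCyl S σ = ⋂ v ∈ S, {s : V → Bool | s v = σ v} := by
    ext s; simp only [pvtfCyl, mem_ofPred_eq, mem_iInter]
  rw [this]
  refine MeasurableSet.biInter (to_countable S) fun v _ => ?_
  have hm : Measurable fun s : V → Bool => s v := measurable_pi_apply v
  exact hm (measurableSet_singleton (σ v))

theorem pvtf_split (s : Set V) : ((colLaw V).prod (colLaw V)).map (pvfqMix s) = colLaw V := by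
  rw [pvf_colLaw_eq]; exact pvfq_split _ s

/-- (CY1) `P(· ∩ Cyl) = P(Cyl) P_D` -/
theorem pvtf_restrict_cyl [Countable V] (S : Set V) (σ : V → Bool) :
    (colLaw V).restrict (pvtfCyl S σ) = colLaw V (pvtfCyl S σ) • pvtfPD S σ := by
  ext A hA
  have hC := pvtf_measurableSet_cyl S σ
  rw [Measure.restrict_apply hA, Measure.smul_apply, smul_eq_mul, pvtf_PD_apply S σ hA]
  conv_lhs => rw [← pvtf_split S]
  rw [Measure.map_apply (measurable_pvfqMix S) (hA.inter hC)]
  have e : pvfqMix S ⁻¹' (A ∩ pvtfCyl S σ) = pvtfCyl S σ ×ˢ {y | pvtfFr S σ y ∈ A} := by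
    ext ⟨x, y⟩
    have h1 : pvfqMix S (x, y) ∈ pvtfCyl S σ ↔ x ∈ pvtfCyl S σ := by
      constructor
      · intro h v hv
        have := h v hv
        rwa [pvfqMix_of_mem hv] at this
      · intro h v hv
        rw [pvfqMix_of_mem hv]; exact h v hv
    have h2 : x ∈ pvtfCyl S σ → pvfqMix S (x, y) = pvtfFr S σ y := by
      intro h
      funext v
      by_cases hv : v ∈ S
      · rw [pvfqMix_of_mem hv, pvtf_fr_mem hv]; exact h v hv
      · rw [pvfqMix_of_notMem hv, pvtf_fr_notMem hv]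
    simp only [mem_preimage, mem_inter_iff, mem_prod, mem_ofPred_eq, h1]
    constructor
    · rintro ⟨h3, h4⟩; exact ⟨h4, by rw [← h2 h4]; exact h3⟩
    · rintro ⟨h3, h4⟩; exact ⟨by rw [h2 h3]; exact h4, h3⟩
  rw [e, Measure.prod_prod]

theorem pvtf_cyl_inter [Countable V] (S : Set V) (σ : V → Bool) {A : Set (V → Bool)} (hA : MeasurableSet A) :
    colLaw V (pvtfCyl S σ ∩ A) = colLaw V (pvtfCyl S σ) * pvtfPD S σ A := by
  rw [inter_comm, ← Measure.restrict_apply hA, pvtf_restrict_cyl, Measure.smul_apply, smul_eq_mul]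

theorem pvtf_cyl_lintegral [Countable V] (S : Set V) (σ : V → Bool) (f : (V → Bool) → ℝ≥0∞) :
    ∫⁻ s in pvtfCyl S σ, f s ∂colLaw V = colLaw V (pvtfCyl S σ) * ∫⁻ s, f s ∂pvtfPD S σ := by
  rw [pvtf_restrict_cyl, lintegral_smul_measure, smul_eq_mul]

theorem pvtf_fr_mem_cyl (S : Set V) (σ y : V → Bool) : pvtfFr S σ y ∈ pvtfCyl S σ := fun _ hv => pvtf_fr_mem hv σ y

theorem pvtf_fr_of_mem_cyl {S : Set V} {σ s : V → Bool} (h : s ∈ pvtfCyl S σ) : pvtfFr S σ s = s := by
  funext v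
  by_cases hv : v ∈ S
  · rw [pvtf_fr_mem hv, h v hv]
  · rw [pvtf_fr_notMem hv]

/-- ON THE CYLINDER `A` is DECREASING in black (= `true`) -/
def PvtfDec (S : Set V) (σ : V → Bool) (A : Set (V → Bool)) : Prop :=
  ∀ s s', s ∈ pvtfCyl S σ → s' ∈ pvtfCyl S σ → s ∈ A → (∀ v, s' v ≤ s v) → s' ∈ A

/-- ON THE CYLINDER `A` reads the colours of `R` only -/
def PvtfReads (S : Set V) (σ : V → Bool) (R : Set V) (A : Set (V → Bool)) : Prop :=
  ∀ s s', s ∈ pvtfCyl S σ → s' ∈ pvtfCyl S σ → (∀ v ∈ R, s v = s' v) → (s ∈ A ↔ s' ∈ A)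

/-- **(C3), first half: HARRIS GIVEN A CYLINDER** (two decreasing events of the fresh colours) -/
theorem pvtf_cyl_harris [Countable V] (S : Set V) (σ : V → Bool) {A₁ A₂ : Set (V → Bool)} (m₁ : MeasurableSet A₁) (m₂ : MeasurableSet A₂)
    (d₁ : PvtfDec S σ A₁) (d₂ : PvtfDec S σ A₂) : pvtfPD S σ A₁ * pvtfPD S σ A₂ ≤ pvtfPD S σ (A₁ ∩ A₂) := by
  rw [pvtf_PD_apply S σ m₁, pvtf_PD_apply S σ m₂, pvtf_PD_apply S σ (m₁.inter m₂), pvf_colLaw_eq]
  have hlow : ∀ A : Set (V → Bool), PvtfDec S σ A → IsLowerSet {y | pvtfFr S σ y ∈ A} := by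
    intro A dA y y' hyy hy
    refine dA _ _ (pvtf_fr_mem_cyl S σ y) (pvtf_fr_mem_cyl S σ y') hy ?_
    intro v
    by_cases hv : v ∈ S
    · rw [pvtf_fr_mem hv, pvtf_fr_mem hv]
    · rw [pvtf_fr_notMem hv, pvtf_fr_notMem hv]; exact hyy v
  exact pvfq_down_down (fun _ : V => pvCoin) (pvtf_measurable_fr S σ m₁) (pvtf_measurable_fr S σ m₂) (hlow A₁ d₁) (hlow A₂ d₂)

/-- **(C3), second half: INDEPENDENCE OF THE TWO CLASSES GIVEN A CYLINDER**: `A` reads the frozen sites and the class `Xc`, `f` does not read `Xc` -/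
theorem pvtf_cyl_indep (S Xc : Set V) (σ : V → Bool) {A : Set (V → Bool)} (mA : MeasurableSet A) (rA : PvtfReads S σ Xc A)
    {f : (V → Bool) → ℝ≥0∞} (mf : Measurable f)
    (rf : ∀ s s', s ∈ pvtfCyl S σ → s' ∈ pvtfCyl S σ → (∀ v, v ∉ Xc → s v = s' v) → f s = f s') :
    ∫⁻ s in A, f s ∂pvtfPD S σ = pvtfPD S σ A * ∫⁻ s, f s ∂pvtfPD S σ := by
  have hm := pvtf_measurable_fr S σ
  have hg : Measurable fun s => A.indicator f s := mf.indicator mA
  rw [← lintegral_indicator mA, pvtf_PD_apply S σ mA]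
  unfold pvtfPD
  rw [lintegral_map hg hm, lintegral_map mf hm]
  conv_lhs => rw [← pvtf_split Xc]
  have hgm : Measurable fun a => A.indicator f (pvtfFr S σ a) := hg.comp hm
  rw [lintegral_map hgm (measurable_pvfqMix Xc)]
  have e : ∀ p : (V → Bool) × (V → Bool), A.indicator f (pvtfFr S σ (pvfqMix Xc p))
      = ({y | pvtfFr S σ y ∈ A} : Set (V → Bool)).indicator 1 p.1 * f (pvtfFr S σ p.2) := by
    rintro ⟨y₁, y₂⟩
    have h1 : pvtfFr S σ (pvfqMix Xc (y₁, y₂)) ∈ A ↔ pvtfFr S σ y₁ ∈ A := by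
      refine rA _ _ (pvtf_fr_mem_cyl _ _ _) (pvtf_fr_mem_cyl _ _ _) fun v hv => ?_
      by_cases hS : v ∈ S
      · rw [pvtf_fr_mem hS, pvtf_fr_mem hS]
      · rw [pvtf_fr_notMem hS, pvtf_fr_notMem hS]
        exact pvfqMix_of_mem hv _
    have h2 : f (pvtfFr S σ (pvfqMix Xc (y₁, y₂))) = f (pvtfFr S σ y₂) := by
      refine rf _ _ (pvtf_fr_mem_cyl _ _ _) (pvtf_fr_mem_cyl _ _ _) fun v hv => ?_
      by_cases hS : v ∈ S
      · rw [pvtf_fr_mem hS, pvtf_fr_mem hS]
      · rw [pvtf_fr_notMem hS, pvtf_fr_notMem hS]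
        exact pvfqMix_of_notMem hv _
    by_cases h : pvtfFr S σ y₁ ∈ A
    · have h' : y₁ ∈ ({y | pvtfFr S σ y ∈ A} : Set (V → Bool)) := h
      rw [indicator_of_mem (h1.2 h), indicator_of_mem h', h2, Pi.one_apply, one_mul]
    · have h' : y₁ ∉ ({y | pvtfFr S σ y ∈ A} : Set (V → Bool)) := h
      rw [indicator_of_notMem (fun hh => h (h1.1 hh)), indicator_of_notMem h', zero_mul]
  simp_rw [e]
  have mS : MeasurableSet ({y | pvtfFr S σ y ∈ A} : Set (V → Bool)) := hm mA
  have hfm : Measurable fun a => f (pvtfFr S σ a) := mf.comp hm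
  rw [lintegral_prod_mul (f := ({y | pvtfFr S σ y ∈ A} : Set (V → Bool)).indicator 1) (g := fun a => f (pvtfFr S σ a))
    (measurable_one.indicator mS).aemeasurable hfm.aemeasurable, lintegral_indicator_one mS]

end cyl

/-! ### the datum of 208 (W1_208.md sec. 2), colours only -/

section datum

variable {V : Type} {E : Type*} [NormedAddCommGroup E]

/-- a DATUM at fixed geometry: frozen sites and colours (`Cyl D`), the class `Xc` = XCL (the class YCL is any set of fresh sites off `Xc`), the events `NB`, `WO` (read on XCL),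
`SY` and the variable `Y` (which do not read XCL), the constant `x = X(D)` -/
structure PvtfDat (V : Type) (E : Type*) where
  S : Set V
  σ : V → Bool
  Xc : Set V
  NB : Set (V → Bool)
  WO : Set (V → Bool)
  SY : Set (V → Bool)
  Y : (V → Bool) → E
  x : E

/-- the hypotheses of (C3) -/
structure PvtfDat.Ok (D : PvtfDat V E) : Prop where
  mNB : MeasurableSet D.NB
  mWO : MeasurableSet D.WO
  mSY : MeasurableSet D.SY
  mY : StronglyMeasurable D.Y
  dNB : PvtfDec D.S D.σ D.NB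
  dWO : PvtfDec D.S D.σ D.WO
  rNB : PvtfReads D.S D.σ D.Xc D.NB
  rWO : PvtfReads D.S D.σ D.Xc D.WO
  rSY : PvtfReads D.S D.σ D.Xcᶜ D.SY
  rY : ∀ s s', s ∈ pvtfCyl D.S D.σ → s' ∈ pvtfCyl D.S D.σ → (∀ v, v ∉ D.Xc → s v = s' v) → D.Y s = D.Y s'

/-- the conditional law given `D` -/
noncomputable def PvtfDat.P (D : PvtfDat V E) : Measure (V → Bool) := pvtfPD D.S D.σ

/-- `Cyl D` -/
def PvtfDat.Cyl (D : PvtfDat V E) : Set (V → Bool) := pvtfCyl D.S D.σ

/-- the event of the experiment -/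
def PvtfDat.Ev (D : PvtfDat V E) : Set (V → Bool) := D.Cyl ∩ (D.NB ∩ D.WO ∩ D.SY)

/-- `ŷ(D) = E[Y | SY, D]` -/
noncomputable def PvtfDat.yhat [NormedSpace ℝ E] (D : PvtfDat V E) : E := ⨍ w in D.SY, D.Y w ∂D.P

variable [NormedSpace ℝ E] [CompleteSpace E] [Countable V]

/-- **N1' for ONE datum, quenched**: `P(Cyl ∩ NB) P(WO | D) P(SY | D) |X(D) + ŷ(D)|^n ≤ E[|X(D) + Y|^n ; Cyl ∩ NB ∩ WO ∩ SY]` -/
theorem pvtf_n1_datum (D : PvtfDat V E) (h : D.Ok) (n : ℕ) :
    colLaw V (D.Cyl ∩ D.NB) * D.P D.WO * D.P D.SY * ‖D.x + D.yhat‖ₑ ^ n ≤ ∫⁻ s in D.Ev, ‖D.x + D.Y s‖ₑ ^ n ∂colLaw V := by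
  have mg : Measurable fun s => ‖D.x + D.Y s‖ₑ ^ n :=
    ((stronglyMeasurable_const.add h.mY).enorm).pow_const n
  have mC : MeasurableSet D.Cyl := pvtf_measurableSet_cyl _ _
  have mA : MeasurableSet (D.NB ∩ D.WO) := h.mNB.inter h.mWO
  have e1 : ∫⁻ s in D.Ev, ‖D.x + D.Y s‖ₑ ^ n ∂colLaw V
      = colLaw V D.Cyl * (D.P (D.NB ∩ D.WO) * ∫⁻ s in D.SY, ‖D.x + D.Y s‖ₑ ^ n ∂D.P) := by
    have e2 : ∫⁻ s in D.Ev, ‖D.x + D.Y s‖ₑ ^ n ∂colLaw V
        = ∫⁻ s in D.Cyl, (D.NB ∩ D.WO ∩ D.SY).indicator (fun s => ‖D.x + D.Y s‖ₑ ^ n) s ∂colLaw V := by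
      unfold PvtfDat.Ev
      rw [lintegral_indicator (mA.inter h.mSY), Measure.restrict_restrict (mA.inter h.mSY), inter_comm]
    rw [e2]
    unfold PvtfDat.Cyl
    rw [pvtf_cyl_lintegral]
    congr 1
    have e3 : ∀ s, (D.NB ∩ D.WO ∩ D.SY).indicator (fun s => ‖D.x + D.Y s‖ₑ ^ n) s
        = (D.NB ∩ D.WO).indicator (D.SY.indicator fun s => ‖D.x + D.Y s‖ₑ ^ n) s := by
      intro s; rw [indicator_indicator]
    simp_rw [e3]
    rw [lintegral_indicator mA]
    have := pvtf_cyl_indep D.S D.Xc D.σ mA (A := D.NB ∩ D.WO) ?_ (f := D.SY.indicator fun s => ‖D.x + D.Y s‖ₑ ^ n) (mg.indicator h.mSY) ?_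
    · rw [this, lintegral_indicator h.mSY]; rfl
    · intro s s' hs hs' hss
      exact and_congr (h.rNB s s' hs hs' hss) (h.rWO s s' hs hs' hss)
    · intro s s' hc hc' hss
      by_cases hs : s ∈ D.SY
      · rw [indicator_of_mem hs, indicator_of_mem ((h.rSY s s' hc hc' hss).1 hs), h.rY s s' hc hc' hss]
      · rw [indicator_of_notMem hs, indicator_of_notMem (fun hh => hs ((h.rSY s s' hc hc' hss).2 hh))]
  have e4 : colLaw V (D.Cyl ∩ D.NB) = colLaw V D.Cyl * D.P D.NB := pvtf_cyl_inter _ _ h.mNB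
  have h5 : D.P D.NB * D.P D.WO ≤ D.P (D.NB ∩ D.WO) := pvtf_cyl_harris _ _ h.mNB h.mWO h.dNB h.dWO
  have h6 : D.P D.SY * ‖D.x + D.yhat‖ₑ ^ n ≤ ∫⁻ s in D.SY, ‖D.x + D.Y s‖ₑ ^ n ∂D.P := by
    have : IsProbabilityMeasure D.P := pvtf_PD_prob _ _
    exact pvt_n1_set D.P n D.SY h.mY.aestronglyMeasurable D.x
  rw [e1, e4]
  calc colLaw V D.Cyl * D.P D.NB * D.P D.WO * D.P D.SY * ‖D.x + D.yhat‖ₑ ^ n
      = colLaw V D.Cyl * ((D.P D.NB * D.P D.WO) * (D.P D.SY * ‖D.x + D.yhat‖ₑ ^ n)) := by ring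
    _ ≤ _ := by gcongr

/-- **THEOREM N1', quenched, model free** (first moment over the data): `Act D ⊆ Cyl D ∩ NB D` is (C1), `hΘ` is (C2) + injectivity of `D ↦ P'`:
`q_W q_c ∑_D P(D actual) |X(D) + ŷ(D)|^n ≤ E Θ`, `Θ = ∑_{P' rim in the box} |Q_{P'}(1)|^n` -/
theorem pvtf_n1_sum {ι : Type*} [Countable ι] (D : ι → PvtfDat V E) (h : ∀ i, (D i).Ok) (n : ℕ) (Act : ι → Set (V → Bool))
    (hAct : ∀ i, Act i ⊆ (D i).Cyl ∩ (D i).NB) {qW qc : ℝ≥0∞} (hW : ∀ i, qW ≤ (D i).P (D i).WO) (hc : ∀ i, qc ≤ (D i).P (D i).SY)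
    (Θ : (V → Bool) → ℝ≥0∞) (hΘ : ∀ s, ∑' i, (D i).Ev.indicator (fun s => ‖(D i).x + (D i).Y s‖ₑ ^ n) s ≤ Θ s) :
    qW * qc * ∑' i, colLaw V (Act i) * ‖(D i).x + (D i).yhat‖ₑ ^ n ≤ ∫⁻ s, Θ s ∂colLaw V := by
  have mEv : ∀ i, MeasurableSet (D i).Ev := fun i =>
    (pvtf_measurableSet_cyl _ _).inter (((h i).mNB.inter (h i).mWO).inter (h i).mSY)
  have mg : ∀ i, Measurable fun s => ‖(D i).x + (D i).Y s‖ₑ ^ n := fun i =>
    ((stronglyMeasurable_const.add (h i).mY).enorm).pow_const n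
  calc qW * qc * ∑' i, colLaw V (Act i) * ‖(D i).x + (D i).yhat‖ₑ ^ n
      = ∑' i, qW * qc * (colLaw V (Act i) * ‖(D i).x + (D i).yhat‖ₑ ^ n) := ENNReal.tsum_mul_left.symm
    _ ≤ ∑' i, ∫⁻ s in (D i).Ev, ‖(D i).x + (D i).Y s‖ₑ ^ n ∂colLaw V := by
        refine ENNReal.tsum_le_tsum fun i => ?_
        refine le_trans ?_ (pvtf_n1_datum (D i) (h i) n)
        calc qW * qc * (colLaw V (Act i) * ‖(D i).x + (D i).yhat‖ₑ ^ n)
            = colLaw V (Act i) * qW * qc * ‖(D i).x + (D i).yhat‖ₑ ^ n := by ring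
          _ ≤ _ := by
            gcongr
            · exact hAct i
            · exact hW i
            · exact hc i
    _ = ∫⁻ s, ∑' i, (D i).Ev.indicator (fun s => ‖(D i).x + (D i).Y s‖ₑ ^ n) s ∂colLaw V := by
        rw [lintegral_tsum fun i => ((mg i).indicator (mEv i)).aemeasurable]
        exact tsum_congr fun i => (lintegral_indicator (mEv i) _).symm
    _ ≤ ∫⁻ s, Θ s ∂colLaw V := lintegral_mono hΘ

end datum

/-! # PART B -/

/-! ## 2. the finite cube -/

section cube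

variable {V : Type} [DecidableEq V]

/-- a WHITE-ADDING COUPLING on the cube of the subsets of `T` (a subset = the set of the white sites): `κ F G` = probability to output `G` from the input `F` -/
structure PvtfCpl (T : Finset V) (𝒲 : Finset (Finset V)) (κ : Finset V → Finset V → ℝ) : Prop where
  nonneg : ∀ F G, 0 ≤ κ F G
  supp : ∀ F G, κ F G ≠ 0 → F ⊆ G ∧ G ∈ 𝒲
  row : ∀ F, F ⊆ T → ∑ G ∈ T.powerset, κ F G = 1
  col : ∀ G ∈ 𝒲, ∑ F ∈ T.powerset, κ F G = 2 ^ T.card / 𝒲.card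

/-- `𝒲` is a nonempty increasing family of subsets of `T` -/
structure PvtfUp (T : Finset V) (𝒲 : Finset (Finset V)) : Prop where
  sub : ∀ F ∈ 𝒲, F ⊆ T
  up : ∀ F ∈ 𝒲, ∀ G, F ⊆ G → G ⊆ T → G ∈ 𝒲
  ne : 𝒲.Nonempty

theorem PvtfUp.top_mem {T : Finset V} {𝒲 : Finset (Finset V)} (h : PvtfUp T 𝒲) : T ∈ 𝒲 := by
  obtain ⟨F, hF⟩ := h.ne
  exact h.up F hF T (h.sub F hF) subset_rfl

theorem pvtf_cube (T : Finset V) : ∀ 𝒲 : Finset (Finset V), PvtfUp T 𝒲 → ∃ κ, PvtfCpl T 𝒲 κ := by
  induction T using Finset.induction_on with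
  | empty =>
    intro 𝒲 h
    have h𝒲 : 𝒲 = {∅} := by
      ext F
      rw [Finset.mem_singleton]
      constructor
      · intro hF; exact Finset.subset_empty.1 (h.sub F hF)
      · rintro rfl; exact h.top_mem
    refine ⟨fun F G => if F = ∅ ∧ G = ∅ then 1 else 0, ⟨?_, ?_, ?_, ?_⟩⟩
    · intro F G; split_ifs <;> norm_num
    · intro F G hFG
      split_ifs at hFG with hc
      · rw [hc.1, hc.2, h𝒲]; exact ⟨subset_rfl, Finset.mem_singleton_self _⟩
      · exact absurd rfl hFG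
    · intro F hF
      rw [Finset.subset_empty.1 hF]
      simp
    · intro G hG
      rw [h𝒲, Finset.mem_singleton] at hG
      rw [hG, h𝒲]
      simp
  | insert a T' ha ih =>
    intro 𝒲 h
    set 𝒲1 := 𝒲.memberSubfamily a with h𝒲1
    set 𝒲0 := 𝒲.nonMemberSubfamily a with h𝒲0
    have hU1 : PvtfUp T' 𝒲1 := by
      refine ⟨?_, ?_, ?_⟩
      · intro F hF
        rw [h𝒲1, Finset.mem_memberSubfamily] at hF
        have := h.sub _ hF.1
        intro v hv
        have h2 := this (Finset.mem_insert_of_mem hv)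
        rcases Finset.mem_insert.1 h2 with rfl | h3
        · exact absurd hv hF.2
        · exact h3
      · intro F hF G hFG hG
        rw [h𝒲1, Finset.mem_memberSubfamily] at hF ⊢
        exact ⟨h.up _ hF.1 _ (Finset.insert_subset_insert a hFG) (Finset.insert_subset_insert a hG), fun hh => ha (hG hh)⟩
      · exact ⟨T', by rw [h𝒲1, Finset.mem_memberSubfamily]; exact ⟨h.top_mem, ha⟩⟩
    have hU0 : 𝒲0.Nonempty → PvtfUp T' 𝒲0 := by
      intro hne
      refine ⟨?_, ?_, hne⟩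
      · intro F hF
        rw [h𝒲0, Finset.mem_nonMemberSubfamily] at hF
        intro v hv
        rcases Finset.mem_insert.1 (h.sub _ hF.1 hv) with rfl | h3
        · exact absurd hv hF.2
        · exact h3
      · intro F hF G hFG hG
        rw [h𝒲0, Finset.mem_nonMemberSubfamily] at hF ⊢
        exact ⟨h.up _ hF.1 _ hFG (hG.trans (Finset.subset_insert _ _)), fun hh => ha (hG hh)⟩
    have h01 : 𝒲0 ⊆ 𝒲1 := by
      intro F hF
      rw [h𝒲0, Finset.mem_nonMemberSubfamily] at hF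
      rw [h𝒲1, Finset.mem_memberSubfamily]
      exact ⟨h.up _ hF.1 _ (Finset.subset_insert _ _) (Finset.insert_subset (Finset.mem_insert_self _ _) (h.sub _ hF.1)), hF.2⟩
    obtain ⟨κ1, hκ1⟩ := ih 𝒲1 hU1
    obtain ⟨κ0, hκ0n, hκ0⟩ : ∃ κ0 : Finset V → Finset V → ℝ, (∀ F G, 0 ≤ κ0 F G) ∧ (𝒲0.Nonempty → PvtfCpl T' 𝒲0 κ0) := by
      by_cases hne : 𝒲0.Nonempty
      · obtain ⟨κ0, hκ0⟩ := ih 𝒲0 (hU0 hne)
        exact ⟨κ0, hκ0.nonneg, fun _ => hκ0⟩
      · exact ⟨fun _ _ => 0, fun _ _ => le_rfl, fun hh => absurd hh hne⟩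
    set n1 : ℝ := (𝒲1.card : ℝ) with hn1
    set n0 : ℝ := (𝒲0.card : ℝ) with hn0
    have hn1pos : 0 < n1 := by rw [hn1]; exact_mod_cast Finset.card_pos.2 hU1.ne
    have hn0nn : 0 ≤ n0 := by rw [hn0]; positivity
    have hn01 : n0 ≤ n1 := by rw [hn0, hn1]; exact_mod_cast Finset.card_le_card h01
    have hcard : (𝒲.card : ℝ) = n1 + n0 := by
      rw [hn0, hn1, ← Finset.card_memberSubfamily_add_card_nonMemberSubfamily a 𝒲]; push_cast; rfl
    set c1 : ℝ := (n1 - n0) / (n1 + n0) with hc1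
    set c0 : ℝ := 2 * n0 / (n1 + n0) with hc0
    have hc1nn : 0 ≤ c1 := div_nonneg (by linarith) (by linarith)
    have hc0nn : 0 ≤ c0 := div_nonneg (by linarith) (by linarith)
    have hc01 : c0 + c1 = 1 := by rw [hc0, hc1]; field_simp; ring
    have hc0z : ¬ 𝒲0.Nonempty → c0 = 0 := by
      intro hne
      have : n0 = 0 := by rw [hn0, Finset.not_nonempty_iff_eq_empty.1 hne]; simp
      rw [hc0, this]; simp
    have her : ∀ G : Finset V, G ⊆ T' → (insert a G).erase a = G := fun G hG => Finset.erase_insert fun hh => ha (hG hh)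
    have hnm : ∀ G : Finset V, G ∈ T'.powerset → a ∉ G := fun G hG hh => ha (Finset.mem_powerset.1 hG hh)
    refine ⟨fun F G => if a ∈ F then (if a ∈ G then κ1 (F.erase a) (G.erase a) else 0)
      else (if a ∈ G then c1 * κ1 F (G.erase a) else c0 * κ0 F G), ⟨?_, ?_, ?_, ?_⟩⟩
    · intro F G
      split_ifs
      · exact hκ1.nonneg _ _
      · exact le_rfl
      · exact mul_nonneg hc1nn (hκ1.nonneg _ _)
      · exact mul_nonneg hc0nn (hκ0n _ _)
    · intro F G hFG
      split_ifs at hFG with hF hG hG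
      · obtain ⟨h1, h2⟩ := hκ1.supp _ _ hFG
        rw [h𝒲1, Finset.mem_memberSubfamily, Finset.insert_erase hG] at h2
        refine ⟨?_, h2.1⟩
        intro v hv
        by_cases hva : v = a
        · rw [hva]; exact hG
        · exact Finset.mem_of_mem_erase (h1 (Finset.mem_erase.2 ⟨hva, hv⟩))
      · exact absurd rfl hFG
      · obtain ⟨h1, h2⟩ := hκ1.supp _ _ (right_ne_zero_of_mul hFG)
        rw [h𝒲1, Finset.mem_memberSubfamily, Finset.insert_erase hG] at h2
        exact ⟨fun v hv => Finset.mem_of_mem_erase (h1 hv), h2.1⟩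
      · have hne : 𝒲0.Nonempty := by
          by_contra hne
          exact hFG (by rw [hc0z hne, zero_mul])
        obtain ⟨h1, h2⟩ := (hκ0 hne).supp _ _ (right_ne_zero_of_mul hFG)
        rw [h𝒲0, Finset.mem_nonMemberSubfamily] at h2
        exact ⟨h1, h2.1⟩
    · intro F hF
      rw [Finset.sum_powerset_insert ha]
      by_cases haF : a ∈ F
      · have e1 : ∑ G ∈ T'.powerset, (if a ∈ F then (if a ∈ G then κ1 (F.erase a) (G.erase a) else 0)
            else (if a ∈ G then c1 * κ1 F (G.erase a) else c0 * κ0 F G)) = 0 := by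
          refine Finset.sum_eq_zero fun G hG => ?_
          rw [if_pos haF, if_neg (hnm G hG)]
        have e2 : ∑ G ∈ T'.powerset, (if a ∈ F then (if a ∈ insert a G then κ1 (F.erase a) ((insert a G).erase a) else 0)
            else (if a ∈ insert a G then c1 * κ1 F ((insert a G).erase a) else c0 * κ0 F (insert a G))) = ∑ G ∈ T'.powerset, κ1 (F.erase a) G := by
          refine Finset.sum_congr rfl fun G hG => ?_
          rw [if_pos haF, if_pos (Finset.mem_insert_self _ _), her G (Finset.mem_powerset.1 hG)]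
        rw [e1, e2, zero_add]
        refine hκ1.row _ ?_
        intro v hv
        rcases Finset.mem_insert.1 (hF (Finset.mem_of_mem_erase hv)) with rfl | h3
        · exact absurd rfl (Finset.ne_of_mem_erase hv)
        · exact h3
      · have hFT : F ⊆ T' := by
          intro v hv
          rcases Finset.mem_insert.1 (hF hv) with rfl | h3
          · exact absurd hv haF
          · exact h3
        have e1 : ∑ G ∈ T'.powerset, (if a ∈ F then (if a ∈ G then κ1 (F.erase a) (G.erase a) else 0)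
            else (if a ∈ G then c1 * κ1 F (G.erase a) else c0 * κ0 F G)) = c0 * ∑ G ∈ T'.powerset, κ0 F G := by
          rw [Finset.mul_sum]
          refine Finset.sum_congr rfl fun G hG => ?_
          rw [if_neg haF, if_neg (hnm G hG)]
        have e2 : ∑ G ∈ T'.powerset, (if a ∈ F then (if a ∈ insert a G then κ1 (F.erase a) ((insert a G).erase a) else 0)
            else (if a ∈ insert a G then c1 * κ1 F ((insert a G).erase a) else c0 * κ0 F (insert a G))) = c1 * ∑ G ∈ T'.powerset, κ1 F G := by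
          rw [Finset.mul_sum]
          refine Finset.sum_congr rfl fun G hG => ?_
          rw [if_neg haF, if_pos (Finset.mem_insert_self _ _), her G (Finset.mem_powerset.1 hG)]
        rw [e1, e2, hκ1.row F hFT, mul_one]
        by_cases hne : 𝒲0.Nonempty
        · rw [(hκ0 hne).row F hFT, mul_one]; exact hc01
        · rw [hc0z hne, zero_mul, zero_add]
          have := hc01; rw [hc0z hne, zero_add] at this; exact this
    · intro G hG
      rw [Finset.sum_powerset_insert ha, Finset.card_insert_of_notMem ha, hcard]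
      by_cases haG : a ∈ G
      · have hG1 : G.erase a ∈ 𝒲1 := by
          rw [h𝒲1, Finset.mem_memberSubfamily, Finset.insert_erase haG]
          exact ⟨hG, Finset.notMem_erase _ _⟩
        have e1 : ∑ F ∈ T'.powerset, (if a ∈ F then (if a ∈ G then κ1 (F.erase a) (G.erase a) else 0)
            else (if a ∈ G then c1 * κ1 F (G.erase a) else c0 * κ0 F G)) = c1 * ∑ F ∈ T'.powerset, κ1 F (G.erase a) := by
          rw [Finset.mul_sum]
          refine Finset.sum_congr rfl fun F hF => ?_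
          rw [if_neg (hnm F hF), if_pos haG]
        have e2 : ∑ F ∈ T'.powerset, (if a ∈ insert a F then (if a ∈ G then κ1 ((insert a F).erase a) (G.erase a) else 0)
            else (if a ∈ G then c1 * κ1 (insert a F) (G.erase a) else c0 * κ0 (insert a F) G)) = ∑ F ∈ T'.powerset, κ1 F (G.erase a) := by
          refine Finset.sum_congr rfl fun F hF => ?_
          rw [if_pos (Finset.mem_insert_self _ _), if_pos haG, her F (Finset.mem_powerset.1 hF)]
        rw [e1, e2, hκ1.col _ hG1, hc1, ← hn1]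
        field_simp
        ring
      · have hG0 : G ∈ 𝒲0 := by
          rw [h𝒲0, Finset.mem_nonMemberSubfamily]; exact ⟨hG, haG⟩
        have hne : 𝒲0.Nonempty := ⟨G, hG0⟩
        have hn0pos : 0 < n0 := by rw [hn0]; exact_mod_cast Finset.card_pos.2 hne
        have e1 : ∑ F ∈ T'.powerset, (if a ∈ F then (if a ∈ G then κ1 (F.erase a) (G.erase a) else 0)
            else (if a ∈ G then c1 * κ1 F (G.erase a) else c0 * κ0 F G)) = c0 * ∑ F ∈ T'.powerset, κ0 F G := by
          rw [Finset.mul_sum]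
          refine Finset.sum_congr rfl fun F hF => ?_
          rw [if_neg (hnm F hF), if_neg haG]
        have e2 : ∑ F ∈ T'.powerset, (if a ∈ insert a F then (if a ∈ G then κ1 ((insert a F).erase a) (G.erase a) else 0)
            else (if a ∈ G then c1 * κ1 (insert a F) (G.erase a) else c0 * κ0 (insert a F) G)) = 0 := by
          refine Finset.sum_eq_zero fun F hF => ?_
          rw [if_pos (Finset.mem_insert_self _ _), if_neg haG]
        rw [e1, e2, (hκ0 hne).col _ hG0, hc0, ← hn0, add_zero]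
        field_simp
        ring

end cube

/-! ## 3. overwriting colours; the resampling identity -/

section ov

variable {V : Type} [DecidableEq V]

/-- overwrite the colours on `T`: white (`false`) exactly on `G` -/
def pvtfOv (T G : Finset V) (s : V → Bool) : V → Bool := fun v => if v ∈ T then (if v ∈ G then false else true) else s v

/-- the white sites of `s` in `T` -/
def pvtfWh (T : Finset V) (s : V → Bool) : Finset V := T.filter fun v => s v = false

theorem pvtf_ov_ov (T F G : Finset V) (s : V → Bool) : pvtfOv T G (pvtfOv T F s) = pvtfOv T G s := by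
  funext v
  unfold pvtfOv
  by_cases h : v ∈ T
  · simp only [if_pos h]
  · simp only [if_neg h]

theorem pvtf_wh_sub (T : Finset V) (s : V → Bool) : pvtfWh T s ⊆ T := Finset.filter_subset _ _

theorem pvtf_wh_ov {T F : Finset V} (h : F ⊆ T) (s : V → Bool) : pvtfWh T (pvtfOv T F s) = F := by
  ext v
  unfold pvtfWh pvtfOv
  rw [Finset.mem_filter]
  constructor
  · rintro ⟨h1, h2⟩
    rw [if_pos h1] at h2
    by_contra h3
    rw [if_neg h3] at h2
    exact absurd h2 (by decide)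
  · intro h1
    exact ⟨h h1, by rw [if_pos (h h1), if_pos h1]⟩

theorem pvtf_ov_wh (T : Finset V) (s : V → Bool) : pvtfOv T (pvtfWh T s) s = s := by
  funext v
  unfold pvtfWh pvtfOv
  by_cases h : v ∈ T
  · rw [if_pos h]
    by_cases h2 : s v = false
    · rw [if_pos (Finset.mem_filter.2 ⟨h, h2⟩), h2]
    · have h3 : v ∉ T.filter fun v => s v = false := fun hh => h2 (Finset.mem_filter.1 hh).2
      rw [if_neg h3]
      exact (Bool.eq_true_of_not_eq_false h2).symm
  · rw [if_neg h]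

theorem pvtf_ov_off (T G : Finset V) (s : V → Bool) {v : V} (h : v ∉ T) : pvtfOv T G s v = s v := by
  unfold pvtfOv; rw [if_neg h]

/-- adding white sites: the output is below the input (`false < true`, `true` = black) -/
theorem pvtf_ov_le {T G : Finset V} {s : V → Bool} (h : pvtfWh T s ⊆ G) (v : V) : pvtfOv T G s v ≤ s v := by
  unfold pvtfOv
  by_cases h1 : v ∈ T
  · rw [if_pos h1]
    by_cases h2 : v ∈ G
    · rw [if_pos h2]; exact Bool.false_le _
    · rw [if_neg h2]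
      have : s v ≠ false := fun hh => h2 (h (Finset.mem_filter.2 ⟨h1, hh⟩))
      rw [Bool.eq_true_of_not_eq_false this]
  · rw [if_neg h1]

/-- every white-adding of `s` inside `T` is an overwriting -/
theorem pvtf_eq_ov {T : Finset V} {s s' : V → Bool} (hoff : ∀ v, v ∉ T → s' v = s v) : s' = pvtfOv T (pvtfWh T s') s := by
  funext v
  by_cases h : v ∈ T
  · have := congrFun (pvtf_ov_wh T s') v
    rw [← this]
    unfold pvtfOv
    simp only [if_pos h]
  · rw [pvtf_ov_off _ _ _ h, hoff v h]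

theorem pvtf_wh_mono {T : Finset V} {s s' : V → Bool} (hle : ∀ v, s' v ≤ s v) : pvtfWh T s ⊆ pvtfWh T s' := by
  intro v hv
  unfold pvtfWh at hv ⊢
  rw [Finset.mem_filter] at hv ⊢
  refine ⟨hv.1, ?_⟩
  have := hle v
  rw [hv.2] at this
  revert this
  cases s' v <;> decide

theorem pvtf_measurable_ov (T G : Finset V) : Measurable (pvtfOv T G) := by
  refine measurable_pi_lambda _ fun v => ?_
  unfold pvtfOv
  by_cases h : v ∈ T
  · simp only [if_pos h]; exact measurable_const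
  · simp only [if_neg h]; exact measurable_pi_apply v

theorem pvtf_flip_eq {T D : Finset V} (h : D ⊆ T) (s : V → Bool) : pvfFlip (D : Set V) s = pvtfOv T (symmDiff (pvtfWh T s) D) s := by
  funext v
  by_cases hT : v ∈ T
  · unfold pvtfOv pvtfWh
    rw [if_pos hT]
    by_cases hD : v ∈ D
    · rw [pvf_flip_mem (Finset.mem_coe.2 hD)]
      by_cases hs : s v = false
      · rw [if_neg, hs]; · rfl
        rw [Finset.mem_symmDiff]
        rintro (⟨_, h2⟩ | ⟨_, h2⟩)
        · exact h2 hD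
        · exact h2 (Finset.mem_filter.2 ⟨hT, hs⟩)
      · rw [if_pos, Bool.eq_true_of_not_eq_false hs]; · rfl
        rw [Finset.mem_symmDiff]
        exact Or.inr ⟨hD, fun hh => hs (Finset.mem_filter.1 hh).2⟩
    · rw [pvf_flip_notMem (fun hh => hD (Finset.mem_coe.1 hh))]
      by_cases hs : s v = false
      · rw [if_pos, hs]
        rw [Finset.mem_symmDiff]
        exact Or.inl ⟨Finset.mem_filter.2 ⟨hT, hs⟩, hD⟩
      · rw [if_neg, Bool.eq_true_of_not_eq_false hs]
        rw [Finset.mem_symmDiff]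
        rintro (⟨h1, _⟩ | ⟨h1, _⟩)
        · exact hs (Finset.mem_filter.1 h1).2
        · exact hD h1
  · rw [pvtf_ov_off _ _ _ hT, pvf_flip_notMem (fun hh => hT (h (Finset.mem_coe.1 hh)))]

theorem pvtf_sum_ov_eq_flip {M : Type*} [AddCommMonoid M] (T : Finset V) (g : (V → Bool) → M) (s : V → Bool) :
    ∑ F ∈ T.powerset, g (pvtfOv T F s) = ∑ D ∈ T.powerset, g (pvfFlip (D : Set V) s) := by
  have hsd : ∀ F ∈ T.powerset, symmDiff (pvtfWh T s) F ∈ T.powerset := by
    intro F hF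
    rw [Finset.mem_powerset] at hF ⊢
    intro v hv
    rcases Finset.mem_symmDiff.1 hv with ⟨h1, _⟩ | ⟨h1, _⟩
    · exact pvtf_wh_sub T s h1
    · exact hF h1
  refine Finset.sum_nbij' (fun F => symmDiff (pvtfWh T s) F) (fun D => symmDiff (pvtfWh T s) D) hsd hsd
    (fun F _ => symmDiff_symmDiff_cancel_left _ _) (fun F _ => symmDiff_symmDiff_cancel_left _ _) ?_
  intro F hF
  rw [pvtf_flip_eq (Finset.mem_powerset.1 (hsd F hF)), symmDiff_symmDiff_cancel_left]

/-- **the resampling identity**: resampling the colours of a finite set preserves the fair product law -/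
theorem pvtf_resample (T : Finset V) {g : (V → Bool) → ℝ≥0∞} (hg : Measurable g) :
    ∑ F ∈ T.powerset, ∫⁻ s, g (pvtfOv T F s) ∂colLaw V = 2 ^ T.card * ∫⁻ s, g s ∂colLaw V := by
  have e1 : ∑ F ∈ T.powerset, ∫⁻ s, g (pvtfOv T F s) ∂colLaw V = ∫⁻ s, ∑ F ∈ T.powerset, g (pvtfOv T F s) ∂colLaw V :=
    (lintegral_finsetSum _ (fun F _ => hg.comp (pvtf_measurable_ov T F))).symm
  have e2 : ∫⁻ s, ∑ D ∈ T.powerset, g (pvfFlip (D : Set V) s) ∂colLaw V = ∑ D ∈ T.powerset, ∫⁻ s, g (pvfFlip (D : Set V) s) ∂colLaw V :=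
    lintegral_finsetSum _ (fun D _ => hg.comp (pvf_measurable_flip _))
  rw [e1]
  simp_rw [pvtf_sum_ov_eq_flip T g]
  rw [e2]
  have : ∀ D ∈ T.powerset, ∫⁻ s, g (pvfFlip (D : Set V) s) ∂colLaw V = ∫⁻ s, g s ∂colLaw V := by
    intro D _
    rw [← lintegral_map hg (pvf_measurable_flip _), pvf_colLaw_flip]
  rw [Finset.sum_congr rfl this, Finset.sum_const, Finset.card_powerset, nsmul_eq_mul]
  push_cast
  rfl

end ov

/-! ## 4. the white-adding kernel -/

theorem pvtf_meas_glue {α β γ : Type*} [MeasurableSpace α] [Countable β] [MeasurableSpace γ] (f : α → β) (hf : ∀ y, MeasurableSet (f ⁻¹' {y}))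
    (g : β → α → γ) (hg : ∀ y, Measurable (g y)) : Measurable (fun x => g (f x) x) := by
  let _ : MeasurableSpace β := ⊤
  have : MeasurableSingletonClass β := ⟨fun _ => MeasurableSpace.measurableSet_top⟩
  have h1 : Measurable (fun p : β × α => g p.1 p.2) := measurable_from_prod_countable_right hg
  exact h1.comp ((measurable_to_countable' hf).prodMk measurable_id)

section ker

variable {V : Type} [DecidableEq V] {B : Type*} [MeasurableSpace B]

open Classical in
/-- the trace of `W` on the fibre of `x` (same `b`, same colours off `T`): the white sets `G ⊆ T` which realise `W` -/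
noncomputable def pvtfTr (W : Set (B × (V → Bool))) (T : Finset V) (x : B × (V → Bool)) : Finset (Finset V) :=
  T.powerset.filter fun G => (x.1, pvtfOv T G x.2) ∈ W

open Classical in
/-- the chosen coupling (identity coupling if `𝒲` is not a nonempty increasing family) -/
noncomputable def pvtfKap (T : Finset V) (𝒲 : Finset (Finset V)) : Finset V → Finset V → ℝ :=
  if h : PvtfUp T 𝒲 then (pvtf_cube T 𝒲 h).choose else fun F G => if F = G then 1 else 0

theorem pvtf_kap_cpl {T : Finset V} {𝒲 : Finset (Finset V)} (h : PvtfUp T 𝒲) : PvtfCpl T 𝒲 (pvtfKap T 𝒲) := by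
  unfold pvtfKap; rw [dif_pos h]; exact (pvtf_cube T 𝒲 h).choose_spec

theorem pvtf_kap_nonneg (T : Finset V) (𝒲 : Finset (Finset V)) (F G : Finset V) : 0 ≤ pvtfKap T 𝒲 F G := by
  by_cases h : PvtfUp T 𝒲
  · exact (pvtf_kap_cpl h).nonneg F G
  · unfold pvtfKap; rw [dif_neg h]; split_ifs <;> norm_num

theorem pvtf_kap_row (T : Finset V) (𝒲 : Finset (Finset V)) {F : Finset V} (hF : F ⊆ T) : ∑ G ∈ T.powerset, pvtfKap T 𝒲 F G = 1 := by
  by_cases h : PvtfUp T 𝒲
  · exact (pvtf_kap_cpl h).row F hF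
  · unfold pvtfKap; rw [dif_neg h]
    rw [Finset.sum_ite_eq, if_pos (Finset.mem_powerset.2 hF)]

/-- the conditional probability of `W` given `b` and the colours off `T` -/
noncomputable def pvtfP (W : Set (B × (V → Bool))) (T : Finset V) (x : B × (V → Bool)) : ℝ≥0∞ := (pvtfTr W T x).card / 2 ^ T.card

/-- the output law -/
noncomputable def pvtfM (W : Set (B × (V → Bool))) (T : Finset V) (x : B × (V → Bool)) : Measure (B × (V → Bool)) :=
  ∑ G ∈ T.powerset, ENNReal.ofReal (pvtfKap T (pvtfTr W T x) (pvtfWh T x.2) G) • Measure.dirac (x.1, pvtfOv T G x.2)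

theorem pvtf_M_apply (W : Set (B × (V → Bool))) (T : Finset V) (x : B × (V → Bool)) {A : Set (B × (V → Bool))} (hA : MeasurableSet A) :
    pvtfM W T x A = ∑ G ∈ T.powerset, ENNReal.ofReal (pvtfKap T (pvtfTr W T x) (pvtfWh T x.2) G) * A.indicator 1 (x.1, pvtfOv T G x.2) := by
  unfold pvtfM
  rw [Measure.finsetSum_apply]
  refine Finset.sum_congr rfl fun G _ => ?_
  rw [Measure.smul_apply, Measure.dirac_apply' _ hA, smul_eq_mul]

theorem pvtf_tr_ov (W : Set (B × (V → Bool))) (T F : Finset V) (b : B) (s : V → Bool) : pvtfTr W T (b, pvtfOv T F s) = pvtfTr W T (b, s) := by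
  classical
  unfold pvtfTr
  refine Finset.filter_congr fun G _ => ?_
  rw [pvtf_ov_ov]

theorem pvtf_P_ov (W : Set (B × (V → Bool))) (T F : Finset V) (b : B) (s : V → Bool) : pvtfP W T (b, pvtfOv T F s) = pvtfP W T (b, s) := by
  unfold pvtfP; rw [pvtf_tr_ov]

theorem pvtf_mem_tr {W : Set (B × (V → Bool))} {T G : Finset V} {x : B × (V → Bool)} : G ∈ pvtfTr W T x ↔ G ⊆ T ∧ (x.1, pvtfOv T G x.2) ∈ W := by
  classical
  unfold pvtfTr; rw [Finset.mem_filter, Finset.mem_powerset]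

theorem pvtf_P_eq_zero {W : Set (B × (V → Bool))} {T : Finset V} {x : B × (V → Bool)} : pvtfP W T x = 0 ↔ pvtfTr W T x = ∅ := by
  unfold pvtfP
  rw [ENNReal.div_eq_zero_iff]
  constructor
  · rintro (h | h)
    · exact Finset.card_eq_zero.1 (by exact_mod_cast h)
    · exact absurd h (ENNReal.pow_ne_top (by norm_num))
  · intro h; left; rw [h]; simp

theorem pvtf_P_le_one (W : Set (B × (V → Bool))) (T : Finset V) (x : B × (V → Bool)) : pvtfP W T x ≤ 1 := by
  unfold pvtfP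
  refine ENNReal.div_le_of_le_mul ?_
  rw [one_mul]
  have : (pvtfTr W T x).card ≤ 2 ^ T.card := by
    classical
    rw [← Finset.card_powerset]; exact Finset.card_le_card (Finset.filter_subset _ _)
  exact_mod_cast this

/-! ### measurability -/

theorem pvtf_meas_tr [Countable V] {W : Set (B × (V → Bool))} (hW : MeasurableSet W) (T : Finset V) (𝒲 : Finset (Finset V)) :
    MeasurableSet ((pvtfTr W T) ⁻¹' {𝒲}) := by
  have : (pvtfTr W T) ⁻¹' {𝒲} = {x | ∀ G : Finset V, (G ⊆ T ∧ (x.1, pvtfOv T G x.2) ∈ W) ↔ G ∈ 𝒲} := by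
    ext x
    simp only [mem_preimage, mem_singleton_iff, Finset.ext_iff, pvtf_mem_tr, mem_ofPred_eq]
  rw [this]
  refine measurableSet_setOfPred.2 (Measurable.forall fun G => Measurable.iff (Measurable.and measurable_const ?_) measurable_const)
  exact measurableSet_setOfPred.1 ((measurable_fst.prodMk ((pvtf_measurable_ov T G).comp measurable_snd)) hW)

theorem pvtf_meas_wh [Countable V] (T F : Finset V) : MeasurableSet ((fun x : B × (V → Bool) => pvtfWh T x.2) ⁻¹' {F}) := by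
  have : (fun x : B × (V → Bool) => pvtfWh T x.2) ⁻¹' {F} = {x | ∀ v : V, (v ∈ T ∧ x.2 v = false) ↔ v ∈ F} := by
    ext x
    simp only [mem_preimage, mem_singleton_iff, Finset.ext_iff, pvtfWh, Finset.mem_filter, mem_ofPred_eq]
  rw [this]
  refine measurableSet_setOfPred.2 (Measurable.forall fun v => Measurable.iff (Measurable.and measurable_const ?_) measurable_const)
  have hm : Measurable fun x : B × (V → Bool) => x.2 v := (measurable_pi_apply v).comp measurable_snd
  exact measurableSet_setOfPred.1 (hm (measurableSet_singleton false))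

theorem pvtf_meas_kap [Countable V] {W : Set (B × (V → Bool))} (hW : MeasurableSet W) (T G : Finset V) :
    Measurable fun x : B × (V → Bool) => ENNReal.ofReal (pvtfKap T (pvtfTr W T x) (pvtfWh T x.2) G) := by
  refine pvtf_meas_glue (fun x : B × (V → Bool) => (pvtfTr W T x, pvtfWh T x.2)) ?_
    (fun p _ => ENNReal.ofReal (pvtfKap T p.1 p.2 G)) (fun _ => measurable_const)
  rintro ⟨𝒲, F⟩
  have : (fun x : B × (V → Bool) => (pvtfTr W T x, pvtfWh T x.2)) ⁻¹' {(𝒲, F)}
      = (pvtfTr W T) ⁻¹' {𝒲} ∩ (fun x : B × (V → Bool) => pvtfWh T x.2) ⁻¹' {F} := by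
    ext x
    simp only [mem_preimage, mem_singleton_iff, Prod.mk.injEq, mem_inter_iff]
  rw [this]
  exact (pvtf_meas_tr hW T 𝒲).inter (pvtf_meas_wh T F)

theorem pvtf_meas_M [Countable V] {W : Set (B × (V → Bool))} (hW : MeasurableSet W) (T : Finset V) {A : Set (B × (V → Bool))} (hA : MeasurableSet A) :
    Measurable fun x : B × (V → Bool) => pvtfM W T x A := by
  simp_rw [pvtf_M_apply W T _ hA]
  refine Finset.measurable_sum _ fun G _ => (pvtf_meas_kap hW T G).mul ?_
  exact (measurable_one.indicator hA).comp (measurable_fst.prodMk ((pvtf_measurable_ov T G).comp measurable_snd))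

theorem pvtf_meas_P0 [Countable V] {W : Set (B × (V → Bool))} (hW : MeasurableSet W) (T : Finset V) : Measurable (pvtfP W T) := by
  unfold pvtfP
  exact pvtf_meas_glue (pvtfTr W T) (pvtf_meas_tr hW T) (fun 𝒲 _ => ((𝒲.card : ℝ≥0∞) / 2 ^ T.card)) (fun _ => measurable_const)

theorem pvtf_meas_P [Countable V] {T : B → Finset V} (hT : ∀ F, MeasurableSet (T ⁻¹' {F})) {W : Set (B × (V → Bool))} (hW : MeasurableSet W) :
    Measurable fun x : B × (V → Bool) => pvtfP W (T x.1) x :=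
  pvtf_meas_glue (fun x : B × (V → Bool) => T x.1) (fun F => measurable_fst (hT F)) (fun T0 x => pvtfP W T0 x) (fun T0 => pvtf_meas_P0 hW T0)

/-- **THE WHITE-ADDING KERNEL** -/
noncomputable def pvtfK [Countable V] (T : B → Finset V) (hT : ∀ F, MeasurableSet (T ⁻¹' {F})) (W : Set (B × (V → Bool))) (hW : MeasurableSet W) :
    Kernel (B × (V → Bool)) (B × (V → Bool)) where
  toFun x := pvtfM W (T x.1) x
  measurable' := by
    refine Measure.measurable_of_measurable_coe _ fun A hA => ?_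
    exact pvtf_meas_glue (fun x : B × (V → Bool) => T x.1) (fun F => measurable_fst (hT F)) (fun T0 x => pvtfM W T0 x A) (fun T0 => pvtf_meas_M hW T0 hA)

theorem pvtf_K_apply [Countable V] (T : B → Finset V) (hT : ∀ F, MeasurableSet (T ⁻¹' {F})) (W : Set (B × (V → Bool))) (hW : MeasurableSet W)
    (x : B × (V → Bool)) : pvtfK T hT W hW x = pvtfM W (T x.1) x := rfl

theorem pvtf_M_univ (W : Set (B × (V → Bool))) (T : Finset V) (x : B × (V → Bool)) : pvtfM W T x univ = 1 := by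
  rw [pvtf_M_apply W T x MeasurableSet.univ]
  simp only [indicator_univ, Pi.one_apply, mul_one]
  rw [← ENNReal.ofReal_sum_of_nonneg (fun G _ => pvtf_kap_nonneg _ _ _ _), pvtf_kap_row _ _ (pvtf_wh_sub T x.2), ENNReal.ofReal_one]

instance pvtf_K_markov [Countable V] (T : B → Finset V) (hT : ∀ F, MeasurableSet (T ⁻¹' {F})) (W : Set (B × (V → Bool))) (hW : MeasurableSet W) :
    IsMarkovKernel (pvtfK T hT W hW) := ⟨fun x => ⟨pvtf_M_univ W (T x.1) x⟩⟩

/-- `W` is white-increasing in the colours of `T b` (`true` = black) -/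
def PvtfInc (T : B → Finset V) (W : Set (B × (V → Bool))) : Prop :=
  ∀ b s s', (b, s) ∈ W → (∀ v, s' v ≤ s v) → (∀ v, v ∉ T b → s' v = s v) → (b, s') ∈ W

theorem pvtf_tr_up {T : B → Finset V} {W : Set (B × (V → Bool))} (h : PvtfInc T W) (x : B × (V → Bool)) (hne : (pvtfTr W (T x.1) x).Nonempty) :
    PvtfUp (T x.1) (pvtfTr W (T x.1) x) := by
  refine ⟨fun F hF => (pvtf_mem_tr.1 hF).1, ?_, hne⟩
  intro F hF G hFG hG
  rw [pvtf_mem_tr] at hF ⊢
  refine ⟨hG, h x.1 _ _ hF.2 ?_ ?_⟩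
  · intro v
    have := pvtf_ov_le (T := T x.1) (G := G) (s := pvtfOv (T x.1) F x.2) (by rw [pvtf_wh_ov hF.1]; exact hFG) v
    rwa [pvtf_ov_ov] at this
  · intro v hv
    rw [pvtf_ov_off _ _ _ hv, pvtf_ov_off _ _ _ hv]

/-- the outputs: same `b`, only black → white, only in `T b`, in `W` -/
def PvtfGood (T : B → Finset V) (W : Set (B × (V → Bool))) (x y : B × (V → Bool)) : Prop :=
  y.1 = x.1 ∧ (∀ v, y.2 v ≤ x.2 v) ∧ (∀ v, v ∉ T x.1 → y.2 v = x.2 v) ∧ y ∈ W

theorem pvtf_good_of_kap {T : B → Finset V} {W : Set (B × (V → Bool))} (h : PvtfInc T W) {x : B × (V → Bool)} (hx : pvtfP W (T x.1) x ≠ 0)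
    {G : Finset V} (hG : pvtfKap (T x.1) (pvtfTr W (T x.1) x) (pvtfWh (T x.1) x.2) G ≠ 0) : PvtfGood T W x (x.1, pvtfOv (T x.1) G x.2) := by
  have hne : (pvtfTr W (T x.1) x).Nonempty := Finset.nonempty_iff_ne_empty.2 fun hh => hx (pvtf_P_eq_zero.2 hh)
  obtain ⟨h1, h2⟩ := (pvtf_kap_cpl (pvtf_tr_up h x hne)).supp _ _ hG
  exact ⟨rfl, pvtf_ov_le h1, fun v hv => pvtf_ov_off _ _ _ hv, (pvtf_mem_tr.1 h2).2⟩

/-- **(K2)** the kernel is carried by the good outputs (measurable form) -/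
theorem pvtf_K_eq_one [Countable V] {T : B → Finset V} (hT : ∀ F, MeasurableSet (T ⁻¹' {F})) {W : Set (B × (V → Bool))} (hW : MeasurableSet W)
    (h : PvtfInc T W) {x : B × (V → Bool)} (hx : pvtfP W (T x.1) x ≠ 0) {S : Set (B × (V → Bool))} (hS : MeasurableSet S)
    (hgood : ∀ y, PvtfGood T W x y → y ∈ S) : pvtfK T hT W hW x S = 1 := by
  rw [pvtf_K_apply, ← pvtf_M_univ W (T x.1) x, pvtf_M_apply _ _ _ hS, pvtf_M_apply _ _ _ MeasurableSet.univ]
  refine Finset.sum_congr rfl fun G _ => ?_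
  by_cases hG : pvtfKap (T x.1) (pvtfTr W (T x.1) x) (pvtfWh (T x.1) x.2) G = 0
  · rw [hG]; simp
  · rw [indicator_of_mem (hgood _ (pvtf_good_of_kap h hx hG)), indicator_of_mem (mem_univ _)]

/-- **(K2)** almost sure form -/
theorem pvtf_K_ae [Countable V] [MeasurableSingletonClass B] {T : B → Finset V} (hT : ∀ F, MeasurableSet (T ⁻¹' {F})) {W : Set (B × (V → Bool))}
    (hW : MeasurableSet W) (h : PvtfInc T W) {x : B × (V → Bool)} (hx : pvtfP W (T x.1) x ≠ 0) :
    ∀ᵐ y ∂(pvtfK T hT W hW x), PvtfGood T W x y := by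
  rw [ae_iff, pvtf_K_apply]
  unfold pvtfM
  rw [Measure.finsetSum_apply]
  refine Finset.sum_eq_zero fun G _ => ?_
  rw [Measure.smul_apply, smul_eq_mul]
  by_cases hG : pvtfKap (T x.1) (pvtfTr W (T x.1) x) (pvtfWh (T x.1) x.2) G = 0
  · rw [hG]; simp
  · rw [Measure.dirac_apply, indicator_of_notMem, mul_zero]
    exact fun hh => hh (pvtf_good_of_kap h hx hG)

end ker

section law

variable {V : Type} [DecidableEq V] {B : Type*} [MeasurableSpace B]

theorem pvtf_col_sum {T : Finset V} {𝒲 : Finset (Finset V)} (h : PvtfUp T 𝒲) (G : Finset V) :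
    ∑ F ∈ T.powerset, ENNReal.ofReal (pvtfKap T 𝒲 F G) = if G ∈ 𝒲 then ((𝒲.card : ℝ≥0∞) / 2 ^ T.card)⁻¹ else 0 := by
  have hc := pvtf_kap_cpl h
  split_ifs with hG
  · rw [← ENNReal.ofReal_sum_of_nonneg (fun F _ => hc.nonneg _ _), hc.col G hG]
    have hpos : (0 : ℝ) < 𝒲.card := by exact_mod_cast Finset.card_pos.2 h.ne
    rw [ENNReal.ofReal_div_of_pos hpos, ENNReal.ofReal_natCast, ENNReal.ofReal_pow (by norm_num), ENNReal.ofReal_ofNat]
    rw [ENNReal.inv_div (Or.inl (ENNReal.pow_ne_top (by norm_num))) (Or.inl (pow_ne_zero _ (by norm_num)))]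
  · refine Finset.sum_eq_zero fun F _ => ?_
    have : pvtfKap T 𝒲 F G = 0 := by
      by_contra hne
      exact hG (hc.supp F G hne).2
    rw [this, ENNReal.ofReal_zero]

/-- (K3) on one fibre of the geometry -/
theorem pvtf_K3_fibre [Countable V] (T : Finset V) (b : B) {W : Set (B × (V → Bool))} (hW : MeasurableSet W)
    (hup : ∀ s, (pvtfTr W T (b, s)).Nonempty → PvtfUp T (pvtfTr W T (b, s)))
    {φ : (V → Bool) → ℝ≥0∞} (hφ : Measurable φ) (hinv : ∀ F, F ⊆ T → ∀ s, φ (pvtfOv T F s) = φ s)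
    (hz : ∀ s, pvtfTr W T (b, s) = ∅ → φ s = 0) {A : Set (B × (V → Bool))} (hA : MeasurableSet A) :
    ∫⁻ s, φ s * pvtfM W T (b, s) A ∂colLaw V = ∫⁻ s, φ s * (W ∩ A).indicator (fun x => (pvtfP W T x)⁻¹) (b, s) ∂colLaw V := by
  have hL : Measurable fun s : V → Bool => φ s * pvtfM W T (b, s) A := hφ.mul ((pvtf_meas_M hW T hA).comp measurable_prodMk_left)
  have hR : Measurable fun s : V → Bool => φ s * (W ∩ A).indicator (fun x => (pvtfP W T x)⁻¹) (b, s) :=
    hφ.mul ((((pvtf_meas_P0 hW T).inv).indicator (hW.inter hA)).comp measurable_prodMk_left)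
  have h2 : (2 : ℝ≥0∞) ^ T.card ≠ 0 := pow_ne_zero _ (by norm_num)
  have h2' : (2 : ℝ≥0∞) ^ T.card ≠ ∞ := ENNReal.pow_ne_top (by norm_num)
  rw [← ENNReal.mul_right_inj h2 h2', ← pvtf_resample T hL, ← pvtf_resample T hR]
  have eL : ∑ F ∈ T.powerset, ∫⁻ s, φ (pvtfOv T F s) * pvtfM W T (b, pvtfOv T F s) A ∂colLaw V
      = ∫⁻ s, ∑ F ∈ T.powerset, φ (pvtfOv T F s) * pvtfM W T (b, pvtfOv T F s) A ∂colLaw V :=
    (lintegral_finsetSum _ (fun F _ => hL.comp (pvtf_measurable_ov T F))).symm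
  have eR : ∑ F ∈ T.powerset, ∫⁻ s, φ (pvtfOv T F s) * (W ∩ A).indicator (fun x => (pvtfP W T x)⁻¹) (b, pvtfOv T F s) ∂colLaw V
      = ∫⁻ s, ∑ F ∈ T.powerset, φ (pvtfOv T F s) * (W ∩ A).indicator (fun x => (pvtfP W T x)⁻¹) (b, pvtfOv T F s) ∂colLaw V :=
    (lintegral_finsetSum _ (fun F _ => hR.comp (pvtf_measurable_ov T F))).symm
  rw [eL, eR]
  refine lintegral_congr fun s => ?_
  have e1 : ∑ F ∈ T.powerset, φ (pvtfOv T F s) * pvtfM W T (b, pvtfOv T F s) A
      = ∑ G ∈ T.powerset, φ s * ((∑ F ∈ T.powerset, ENNReal.ofReal (pvtfKap T (pvtfTr W T (b, s)) F G)) * A.indicator 1 (b, pvtfOv T G s)) := by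
    have : ∀ F ∈ T.powerset, φ (pvtfOv T F s) * pvtfM W T (b, pvtfOv T F s) A
        = ∑ G ∈ T.powerset, φ s * (ENNReal.ofReal (pvtfKap T (pvtfTr W T (b, s)) F G) * A.indicator 1 (b, pvtfOv T G s)) := by
      intro F hF
      rw [hinv F (Finset.mem_powerset.1 hF), pvtf_M_apply _ _ _ hA, pvtf_tr_ov, Finset.mul_sum]
      refine Finset.sum_congr rfl fun G _ => ?_
      show φ s * (ENNReal.ofReal (pvtfKap T (pvtfTr W T (b, s)) (pvtfWh T (pvtfOv T F s)) G) * A.indicator 1 (b, pvtfOv T G (pvtfOv T F s))) = _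
      rw [pvtf_wh_ov (Finset.mem_powerset.1 hF), pvtf_ov_ov]
    rw [Finset.sum_congr rfl this, Finset.sum_comm]
    refine Finset.sum_congr rfl fun G _ => ?_
    rw [← Finset.mul_sum, ← Finset.sum_mul]
  show ∑ F ∈ T.powerset, φ (pvtfOv T F s) * pvtfM W T (b, pvtfOv T F s) A
    = ∑ G ∈ T.powerset, φ (pvtfOv T G s) * (W ∩ A).indicator (fun x => (pvtfP W T x)⁻¹) (b, pvtfOv T G s)
  rw [e1]
  refine Finset.sum_congr rfl fun G hG => ?_
  rw [hinv G (Finset.mem_powerset.1 hG)]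
  by_cases hne : (pvtfTr W T (b, s)).Nonempty
  · congr 1
    rw [pvtf_col_sum (hup s hne) G]
    by_cases hGW : (b, pvtfOv T G s) ∈ W
    · rw [if_pos (pvtf_mem_tr.2 ⟨Finset.mem_powerset.1 hG, hGW⟩)]
      by_cases hGA : (b, pvtfOv T G s) ∈ A
      · have hGWA : (b, pvtfOv T G s) ∈ W ∩ A := ⟨hGW, hGA⟩
        rw [indicator_of_mem hGA, indicator_of_mem hGWA, pvtf_P_ov, Pi.one_apply, mul_one]; rfl
      · rw [indicator_of_notMem hGA, indicator_of_notMem (fun hh : _ ∈ W ∩ A => hGA hh.2), mul_zero]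
    · rw [if_neg (fun hh => hGW (pvtf_mem_tr.1 hh).2), zero_mul, indicator_of_notMem (fun hh : _ ∈ W ∩ A => hGW hh.1)]
  · rw [hz s (Finset.not_nonempty_iff_eq_empty.1 hne), zero_mul, zero_mul]

/-- **(K3)** the law of the output: `ν K = ν(· | W, b, colours off T)`, integrated against any fibre-invariant weight `φ` which vanishes where `W` is impossible -/
theorem pvtf_K3 [Countable V] (β : Measure B) [SFinite β] {T : B → Finset V} (hT : ∀ F, MeasurableSet (T ⁻¹' {F})) {W : Set (B × (V → Bool))}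
    (hW : MeasurableSet W) (hinc : PvtfInc T W) {φ : B × (V → Bool) → ℝ≥0∞} (hφ : Measurable φ)
    (hinv : ∀ b s F, F ⊆ T b → φ (b, pvtfOv (T b) F s) = φ (b, s)) (hz : ∀ x, pvtfP W (T x.1) x = 0 → φ x = 0)
    {A : Set (B × (V → Bool))} (hA : MeasurableSet A) :
    ∫⁻ x, φ x * pvtfK T hT W hW x A ∂(β.prod (colLaw V))
      = ∫⁻ x, φ x * (W ∩ A).indicator (fun x => (pvtfP W (T x.1) x)⁻¹) x ∂(β.prod (colLaw V)) := by
  rw [lintegral_prod (fun x => φ x * pvtfK T hT W hW x A) (hφ.mul ((pvtfK T hT W hW).measurable_coe hA)).aemeasurable,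
    lintegral_prod (fun x => φ x * (W ∩ A).indicator (fun x => (pvtfP W (T x.1) x)⁻¹) x) (hφ.mul (((pvtf_meas_P hT hW).inv).indicator (hW.inter hA))).aemeasurable]
  refine lintegral_congr fun b => ?_
  have := pvtf_K3_fibre (T b) b hW (fun s hne => pvtf_tr_up hinc (b, s) hne) (hφ.comp measurable_prodMk_left)
    (fun F hF s => hinv b s F hF) (fun s hs => hz (b, s) (pvtf_P_eq_zero.2 hs)) hA
  have e1 : ∫⁻ s, φ (b, s) * pvtfK T hT W hW (b, s) A ∂colLaw V = ∫⁻ s, φ (b, s) * pvtfM W (T b) (b, s) A ∂colLaw V := by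
    refine lintegral_congr fun s => ?_
    rw [pvtf_K_apply]
  have e2 : ∫⁻ s, φ (b, s) * (W ∩ A).indicator (fun x => (pvtfP W (T b) x)⁻¹) (b, s) ∂colLaw V
      = ∫⁻ s, φ (b, s) * (W ∩ A).indicator (fun x => (pvtfP W (T x.1) x)⁻¹) (b, s) ∂colLaw V := by
    refine lintegral_congr fun s => ?_
    by_cases h : (b, s) ∈ W ∩ A
    · rw [indicator_of_mem h, indicator_of_mem h]
    · rw [indicator_of_notMem h, indicator_of_notMem h]
  exact e1.trans (this.trans e2)

end law

/-! ## 1. the two model-free lemmas of 208 (T1, T3), moved from `origin/helper208:notes/R289/s6a_208.lean` -/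

/-- T1 = Lemma 6.1, first clause.  `hK` is the integrated form of `ν_z K_z = ν_z(· | W)` over `H`; no regular conditional law is needed. -/
theorem pvtf_dom_kernel {Ω Zs : Type*} [MeasurableSpace Ω] [MeasurableSpace Zs] (ν lam : Measure Ω) (Z : Ω → Zs) (hZ : Measurable Z)
    (W : Set Ω) (hW : MeasurableSet W) (H : Set Zs) (hH : MeasurableSet H) (p : Zs → ℝ≥0∞) (q C : ℝ≥0∞)
    (hpq : ∀ z ∈ H, q ≤ p z) (K : Kernel Ω Ω)
    (hK : ∀ s : Set Ω, MeasurableSet s → ∫⁻ ω in Z ⁻¹' H, K ω s ∂ν = ∫⁻ ω in Z ⁻¹' H ∩ W, s.indicator (fun ω => (p (Z ω))⁻¹) ω ∂ν)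
    (hlam : lam ≤ C • ν) (hsupp : lam (Z ⁻¹' H)ᶜ = 0) :
    lam.bind K ≤ (C / q) • ν := by
  refine Measure.le_iff.2 fun s hs => ?_
  rw [Measure.bind_apply hs K.aemeasurable]
  have hHm : MeasurableSet (Z ⁻¹' H) := hZ hH
  have h1 : ∫⁻ ω, K ω s ∂lam = ∫⁻ ω in Z ⁻¹' H, K ω s ∂lam := by
    rw [← lintegral_add_compl _ hHm]
    have : ∫⁻ ω in (Z ⁻¹' H)ᶜ, K ω s ∂lam = 0 := by
      rw [Measure.restrict_eq_zero.2 hsupp]; simp
    rw [this, add_zero]
  have h2 : ∫⁻ ω in Z ⁻¹' H, K ω s ∂lam ≤ C * ∫⁻ ω in Z ⁻¹' H, K ω s ∂ν := by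
    have : lam.restrict (Z ⁻¹' H) ≤ C • ν.restrict (Z ⁻¹' H) := by
      rw [← Measure.restrict_smul]; exact Measure.restrict_mono le_rfl hlam
    calc _ ≤ ∫⁻ ω, K ω s ∂(C • ν.restrict (Z ⁻¹' H)) := lintegral_mono' this le_rfl
      _ = _ := by rw [lintegral_smul_measure]; rfl
  have h3 : ∫⁻ ω in Z ⁻¹' H ∩ W, s.indicator (fun ω => (p (Z ω))⁻¹) ω ∂ν ≤ q⁻¹ * ν s := by
    calc _ ≤ ∫⁻ ω in Z ⁻¹' H ∩ W, s.indicator (fun _ => q⁻¹) ω ∂ν := by
          refine setLIntegral_mono' (hHm.inter hW) fun ω hω => ?_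
          by_cases hs' : ω ∈ s
          · simp only [Set.indicator_of_mem hs']
            exact ENNReal.inv_le_inv.2 (hpq _ hω.1)
          · simp [Set.indicator_of_notMem hs']
      _ ≤ ∫⁻ ω, s.indicator (fun _ => q⁻¹) ω ∂ν := setLIntegral_le_lintegral _ _
      _ = q⁻¹ * ν s := by rw [lintegral_indicator hs, setLIntegral_const]
  rw [h1]
  refine h2.trans ?_
  rw [hK s hs]
  calc C * _ ≤ C * (q⁻¹ * ν s) := by gcongr
    _ = ((C / q) • ν) s := by
      rw [Measure.smul_apply, smul_eq_mul, ENNReal.div_eq_inv_mul]; ring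

/-- T3 = the probabilistic skeleton of Prop 6.4 for ONE pattern (abstract transfer).   `Pi` = joint law of (input, output), an UNNORMALISED measure;
`err ξ` = the supremum over all fitting arcs of the error;  on the good event the error is at most `b + Cc ω' + Rr (σ ξ)`. -/
theorem pvtf_transfer {Ξ Ω S : Type*} [MeasurableSpace Ξ] [MeasurableSpace Ω] [MeasurableSpace S]
    (Pi : Measure (Ξ × Ω)) (ρ : Measure Ω) (μ : Measure S) (σ : Ξ → S) (hσ : Measurable σ)
    (D Cp : ℝ≥0∞) (hout : Pi.map Prod.snd ≤ D • ρ) (hst : (Pi.map Prod.fst).map σ ≤ Cp • μ)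
    (err : Ξ → ℝ) (Cc : Ω → ℝ) (Rr : S → ℝ) (hCc : Measurable Cc) (hRr : Measurable Rr) (b u : ℝ)
    (G : Set (Ξ × Ω)) (hgood : ∀ x ∈ G, err x.1 ≤ b + Cc x.2 + Rr (σ x.1)) :
    Pi {x | b + 2 * u < err x.1} ≤ Pi Gᶜ + D * ρ {ω | u < Cc ω} + Cp * μ {s | u < Rr s} := by
  have hsub : {x : Ξ × Ω | b + 2 * u < err x.1} ⊆ Gᶜ ∪ Prod.snd ⁻¹' {ω | u < Cc ω} ∪ (fun x : Ξ × Ω => σ x.1) ⁻¹' {s | u < Rr s} := by
    intro x hx
    by_cases hxG : x ∈ G
    · have h1 := hgood x hxG
      have hx' : b + 2 * u < err x.1 := hx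
      by_cases h2 : u < Cc x.2
      · exact Or.inl (Or.inr h2)
      · refine Or.inr ?_
        show u < Rr (σ x.1)
        push Not at h2
        linarith
    · exact Or.inl (Or.inl hxG)
  have m1 : MeasurableSet {ω | u < Cc ω} := measurableSet_lt measurable_const hCc
  have m2 : MeasurableSet {s | u < Rr s} := measurableSet_lt measurable_const hRr
  have e1 : Pi (Prod.snd ⁻¹' {ω | u < Cc ω}) ≤ D * ρ {ω | u < Cc ω} := by
    rw [← Measure.map_apply measurable_snd m1]
    exact (hout _).trans (by rw [Measure.smul_apply, smul_eq_mul])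
  have e2 : Pi ((fun x : Ξ × Ω => σ x.1) ⁻¹' {s | u < Rr s}) ≤ Cp * μ {s | u < Rr s} := by
    have : Pi ((fun x : Ξ × Ω => σ x.1) ⁻¹' {s | u < Rr s}) = ((Pi.map Prod.fst).map σ) {s | u < Rr s} := by
      rw [Measure.map_apply hσ m2, Measure.map_apply measurable_fst (hσ m2)]; rfl
    rw [this]
    exact (hst _).trans (by rw [Measure.smul_apply, smul_eq_mul])
  calc _ ≤ Pi (Gᶜ ∪ Prod.snd ⁻¹' {ω | u < Cc ω} ∪ (fun x : Ξ × Ω => σ x.1) ⁻¹' {s | u < Rr s}) := measure_mono hsub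
    _ ≤ Pi (Gᶜ ∪ Prod.snd ⁻¹' {ω | u < Cc ω}) + Pi ((fun x : Ξ × Ω => σ x.1) ⁻¹' {s | u < Rr s}) := measure_union_le _ _
    _ ≤ Pi Gᶜ + Pi (Prod.snd ⁻¹' {ω | u < Cc ω}) + Pi ((fun x : Ξ × Ω => σ x.1) ⁻¹' {s | u < Rr s}) := by
        gcongr; exact measure_union_le _ _
    _ ≤ _ := by gcongr

/-! ## 5. domination and the kernel-free corollary -/

section dom

variable {V : Type} [DecidableEq V] [Countable V] {B : Type*} [MeasurableSpace B]

/-- **(K4) = T1 ∘ T2 in the model**: a law dominated by `C ν` and carried by `{q ≤ P(W | b, colours off T)}` is mapped by the white-adding kernel to a law dominated by `(C/q) ν` -/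
theorem pvtf_K4 (β : Measure B) [SFinite β] {T : B → Finset V} (hT : ∀ F, MeasurableSet (T ⁻¹' {F})) {W : Set (B × (V → Bool))}
    (hW : MeasurableSet W) (hinc : PvtfInc T W) {q C : ℝ≥0∞} (hq : q ≠ 0) {lam : Measure (B × (V → Bool))}
    (hlam : lam ≤ C • β.prod (colLaw V)) (hsupp : lam {x | pvtfP W (T x.1) x < q} = 0) :
    lam.bind (pvtfK T hT W hW) ≤ (C / q) • β.prod (colLaw V) := by
  have hZ := pvtf_meas_P hT hW
  refine pvtf_dom_kernel (β.prod (colLaw V)) lam (fun x => pvtfP W (T x.1) x) hZ W hW (Ici q) measurableSet_Ici id q C (fun z hz => hz)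
    (pvtfK T hT W hW) ?_ hlam ?_
  · intro A hA
    set S : Set (B × (V → Bool)) := (fun x => pvtfP W (T x.1) x) ⁻¹' Ici q with hS
    have hSm : MeasurableSet S := hZ measurableSet_Ici
    have h3 := pvtf_K3 β hT hW hinc (φ := S.indicator 1) (measurable_one.indicator hSm) ?_ ?_ hA
    · rw [← lintegral_indicator hSm, ← lintegral_indicator (hSm.inter hW)]
      refine Eq.trans (lintegral_congr fun x => ?_) (h3.trans (lintegral_congr fun x => ?_))
      · by_cases hx : x ∈ S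
        · rw [indicator_of_mem hx, indicator_of_mem hx, Pi.one_apply, one_mul]
        · rw [indicator_of_notMem hx, indicator_of_notMem hx, zero_mul]
      · by_cases hx : x ∈ S
        · rw [indicator_of_mem hx, Pi.one_apply, one_mul]
          by_cases hxW : x ∈ W
          · have hxSW : x ∈ S ∩ W := ⟨hx, hxW⟩
            rw [indicator_of_mem hxSW]
            by_cases hxA : x ∈ A
            · have hxWA : x ∈ W ∩ A := ⟨hxW, hxA⟩
              rw [indicator_of_mem hxA, indicator_of_mem hxWA]; rfl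
            · rw [indicator_of_notMem hxA, indicator_of_notMem (fun hh : x ∈ W ∩ A => hxA hh.2)]
          · rw [indicator_of_notMem (fun hh : x ∈ S ∩ W => hxW hh.2), indicator_of_notMem (fun hh : x ∈ W ∩ A => hxW hh.1)]
        · rw [indicator_of_notMem hx, zero_mul, indicator_of_notMem (fun hh : x ∈ S ∩ W => hx hh.1)]
    · intro b s F _
      have : ((b, pvtfOv (T b) F s) ∈ S) ↔ ((b, s) ∈ S) := by
        rw [hS, mem_preimage, mem_preimage]
        show pvtfP W (T b) (b, pvtfOv (T b) F s) ∈ Ici q ↔ _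
        rw [pvtf_P_ov]
      by_cases h : (b, s) ∈ S
      · rw [indicator_of_mem h, indicator_of_mem (this.2 h)]; rfl
      · rw [indicator_of_notMem h, indicator_of_notMem (fun hh => h (this.1 hh))]
    · intro x hx
      refine indicator_of_notMem ?_ _
      intro hh
      have : q ≤ pvtfP W (T x.1) x := hh
      rw [hx] at this
      exact hq (le_antisymm this zero_le)
  · have : ((fun x : B × (V → Bool) => pvtfP W (T x.1) x) ⁻¹' Ici q)ᶜ = {x | pvtfP W (T x.1) x < q} := by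
      ext x
      simp only [mem_compl_iff, mem_preimage, mem_Ici, not_le, mem_ofPred_eq]
    rw [this]; exact hsupp

/-- **(K5) KERNEL-FREE FORCING**: if every white-adding (inside `T b`) of a configuration of `E` lies in `E'`, then `q ν(E, q ≤ P(W | ..)) ≤ ν(E' ∩ W)` -/
theorem pvtf_force (β : Measure B) [SFinite β] {T : B → Finset V} (hT : ∀ F, MeasurableSet (T ⁻¹' {F})) {W : Set (B × (V → Bool))}
    (hW : MeasurableSet W) (hinc : PvtfInc T W) {q : ℝ≥0∞} (hq : q ≠ 0) {E E' : Set (B × (V → Bool))} (hE : MeasurableSet E) (hE' : MeasurableSet (E' ∩ W))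
    (hclo : ∀ b s s', (b, s) ∈ E → (∀ v, s' v ≤ s v) → (∀ v, v ∉ T b → s' v = s v) → (b, s') ∈ E') :
    q * (β.prod (colLaw V)) (E ∩ {x | q ≤ pvtfP W (T x.1) x}) ≤ (β.prod (colLaw V)) (E' ∩ W) := by
  set ν := β.prod (colLaw V) with hν
  set S : Set (B × (V → Bool)) := {x | q ≤ pvtfP W (T x.1) x} with hS
  have hSm : MeasurableSet S := measurableSet_le measurable_const (pvtf_meas_P hT hW)
  have h4 := pvtf_K4 β hT hW hinc hq (C := 1) (lam := ν.restrict (E ∩ S)) (by rw [one_smul]; exact Measure.restrict_le_self) (by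
    rw [Measure.restrict_apply (measurableSet_lt (pvtf_meas_P hT hW) measurable_const)]
    have : {x : B × (V → Bool) | pvtfP W (T x.1) x < q} ∩ (E ∩ S) = ∅ := by
      ext x
      simp only [mem_inter_iff, mem_ofPred_eq, mem_empty_iff_false, iff_false, not_and, hS]
      intro h1 _ h2
      exact absurd h1 (not_lt.2 h2)
    rw [this, measure_empty])
  have h5 := h4 (E' ∩ W)
  rw [Measure.bind_apply hE' (pvtfK T hT W hW).aemeasurable] at h5
  have h6 : ∫⁻ x, pvtfK T hT W hW x (E' ∩ W) ∂(ν.restrict (E ∩ S)) = ν (E ∩ S) := by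
    rw [← setLIntegral_one]
    refine setLIntegral_congr_fun (hE.inter hSm) fun x hx => ?_
    refine pvtf_K_eq_one hT hW hinc ?_ hE' ?_
    · intro h0
      have : q ≤ pvtfP W (T x.1) x := hx.2
      rw [h0] at this
      exact hq (le_antisymm this zero_le)
    · rintro ⟨b', s'⟩ ⟨h1, h2, h3, h4⟩
      have h1' : b' = x.1 := h1
      subst h1'
      exact ⟨hclo x.1 x.2 s' hx.1 h2 h3, h4⟩
  rw [h6, Measure.smul_apply, smul_eq_mul] at h5
  calc q * ν (E ∩ S) ≤ q * (1 / q * ν (E' ∩ W)) := by gcongr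
    _ = (q * q⁻¹) * ν (E' ∩ W) := by rw [one_div, mul_assoc]
    _ ≤ 1 * ν (E' ∩ W) := by gcongr; exact ENNReal.mul_inv_le_one q
    _ = ν (E' ∩ W) := one_mul _

end dom

end Claimed.Agent.R289
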