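import Claimed.Agent.R289.Tr.Defs
import Claimed.Agent.R289.Tr.Force
import Claimed.Agent.R289.Tr.StKit

/-!
# Row 289 (S0537), THE WALL, box TR-C3, file Tr/DatC3 : (C3) ON THE DATA OF RECORD      (helper5; prefix `pvc3_`, `pvc3`, `Pvc3`)

THE INSTANCE LAYER between the vocabulary of record `PvwDat` (`Tr/Defs.lean`, 216 25 150) and the model free engine `PvtfDat`, `PvtfDat.Ok`, `pvtf_n1_datum`, `pvtf_n1_sum` (`Tr/Force.lean`, 193).      FIXED GEOMETRY: `T : PvMap V D`, `pos : V → ℂ`; colourings `σ : V → Bool`, `true` = BLACK.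

* sec. 0  LOCAL events of the colourings: `Pvc3Loc A` (every point of `A` has a finite window which forces `A`) ⟹ open ⟹ measurable (`V` countable);  `pvc3_meas_fun`: a function which is locally constant RELATIVELY to the pieces of a countable measurable partition is measurable.
* sec. 1  the prescribed colours `PvwDat.pre`;  `pvc3_cyl` : `Cyl(D) = pvtfCyl D.fz D.pre`;  `pvc3_fz_finite`.
* sec. 2  `NB`, `WO`: DECREASING in black (everywhere), READ on `XCL` on the cylinder, measurable;  **(STAB)** in the form of 159 (`Tr/Dom`): same colours on `fz`, fewer black sites off `YCL`, ANY colours on `YCL`.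
* sec. 3  THE RUN OF THE STRAND: forward stub, backward stub under any colouring which agrees with the prescription on `fzY`;  `pvc3_syn_lay` (all the sites of the run lie in `fzY ∪ YCL`);
          **`pvc3_syn_congr`, `pvc3_sy_congr`, `pvc3_Y_congr`** : `SY`, `Y` read ONLY `D_Y = (Σ_out(t), Σ_in(s))` and `YCL`.      NO uniqueness of the length of the run is used.
* sec. 4  measurability of `SY` and of `Y` AS TYPED (the `choose` in `PvwDat.Y` is harmless: two lengths of the run ⟹ the run is eventually periodic ⟹ it is determined by a finite window).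
* sec. 5  `PvwDat.toTf`, **`pvc3_ok : (D.toTf ..).Ok`**, N1' for one datum and for a countable family of data, stated on `PvwDat`.

v3 (helper158, 11:05Z, repair after `Tr/Defs` v2 + v3; all names kept; import of `Tr/StKit` for `pvwk_nu_ycl`).      CHANGED STATEMENTS: `pvc3_pre_st` (`v ∈ fzY`);  `pvc3_st_fz_finite` (hypothesis `core.Finite` = `Gate.core_fin`);  `pvc3_nb_loc` (`NB` faced = finitely many white paths: `NB` ITSELF is local, not its complement);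
`pvc3_syn_lay`, `pvc3_syn_congr`, `pvc3_agree_symm`, `pvc3_syn_iff`, `pvc3_sy_congr`, `pvc3_arc_congr`, `pvc3_Y_congr`, `pvc3_off_xcl`, `pvc3_fr_fr`: the reading set is `fzY ∪ YCL` (was `fzY ∪ pos⁻¹ Yin`: false in v2, the pockets over `Yin` are `XCL`).
NEW: `pvc3_ycl_raw`, `pvc3_ycl_fresh`.      `PvwDat.Clean` is no longer used by the proofs (`Ok.off_y`), the arguments `hcl` are kept for the callers.      UNCHANGED: `pvc3_cyl`, `pvc3_stab_nb`, `pvc3_stab_wo`, `pvc3_ok`, `pvc3_n1_datum`, `pvc3_n1_sum`, `pvc3_sy_PDY`, `pvc3_yhat_PDY`, `pvc3_DY_congr`, `pvc3_yhat_congr`.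
-/

set_option autoImplicit false
set_option linter.unusedSectionVars false
set_option linter.unusedVariables false

namespace Claimed.Agent.R289

open MeasureTheory Set
open scoped ENNReal

variable {V D : Type}

/-! ## 0. local events -/

/-- every point of `A` has a finite window which forces `A` -/
def Pvc3Loc (A : Set (V → Bool)) : Prop := ∀ σ ∈ A, ∃ F : Set V, F.Finite ∧ ∀ σ' : V → Bool, (∀ v ∈ F, σ' v = σ v) → σ' ∈ A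

theorem pvc3_isOpen {A : Set (V → Bool)} (h : Pvc3Loc A) : IsOpen A := by
  rw [isOpen_pi_iff]
  intro σ hσ
  obtain ⟨F, hF, hA⟩ := h σ hσ
  refine ⟨hF.toFinset, fun v => {σ v}, fun v _ => ⟨isOpen_discrete _, rfl⟩, fun σ' hσ' => hA σ' fun v hv => ?_⟩
  exact hσ' v (by simpa using hv)

theorem pvc3_meas [Countable V] {A : Set (V → Bool)} (h : Pvc3Loc A) : MeasurableSet A := (pvc3_isOpen h).measurableSet

theorem pvc3_loc_iUnion {ι : Sort*} {A : ι → Set (V → Bool)} (h : ∀ i, Pvc3Loc (A i)) : Pvc3Loc (⋃ i, A i) := by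
  intro σ hσ
  obtain ⟨i, hi⟩ := mem_iUnion.1 hσ
  obtain ⟨F, hF, hA⟩ := h i σ hi
  exact ⟨F, hF, fun σ' hσ' => mem_iUnion.2 ⟨i, hA σ' hσ'⟩⟩

theorem pvc3_loc_inter {A B : Set (V → Bool)} (hA : Pvc3Loc A) (hB : Pvc3Loc B) : Pvc3Loc (A ∩ B) := by
  intro σ hσ
  obtain ⟨F, hF, h1⟩ := hA σ hσ.1
  obtain ⟨G, hG, h2⟩ := hB σ hσ.2
  exact ⟨F ∪ G, hF.union hG, fun σ' hσ' => ⟨h1 σ' fun v hv => hσ' v (Or.inl hv), h2 σ' fun v hv => hσ' v (Or.inr hv)⟩⟩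

/-- a function which is locally constant RELATIVELY to each piece of a countable measurable cover is measurable (any σ-algebra on the target) -/
theorem pvc3_meas_fun [Countable V] {α : Type*} [MeasurableSpace α] {ι : Type*} [Countable ι] (P : ι → Set (V → Bool)) (mP : ∀ i, MeasurableSet (P i))
    (cov : ∀ σ, ∃ i, σ ∈ P i) (f : (V → Bool) → α)
    (h : ∀ i, ∀ σ ∈ P i, ∃ F : Set V, F.Finite ∧ ∀ σ' ∈ P i, (∀ v ∈ F, σ' v = σ v) → f σ' = f σ) : Measurable f := by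
  intro B _
  set O : ι → Set (V → Bool) := fun i => {σ' | ∃ σ ∈ P i, f σ ∈ B ∧ ∃ F : Set V, F.Finite ∧ (∀ σ'' ∈ P i, (∀ v ∈ F, σ'' v = σ v) → f σ'' = f σ) ∧ ∀ v ∈ F, σ' v = σ v} with hO
  have hloc : ∀ i, Pvc3Loc (O i) := by
    rintro i σ' ⟨σ, hσ, hB, F, hF, hc, hag⟩
    exact ⟨F, hF, fun σ'' h'' => ⟨σ, hσ, hB, F, hF, hc, fun v hv => (h'' v hv).trans (hag v hv)⟩⟩
  have e : f ⁻¹' B = ⋃ i, P i ∩ O i := by
    ext σ
    simp only [mem_preimage, mem_iUnion, mem_inter_iff]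
    constructor
    · intro hσ
      obtain ⟨i, hi⟩ := cov σ
      obtain ⟨F, hF, hc⟩ := h i σ hi
      exact ⟨i, hi, σ, hi, hσ, F, hF, hc, fun _ _ => rfl⟩
    · rintro ⟨i, hi, σ₀, h₀, hB, F, hF, hc, hag⟩
      rw [hc σ hi hag]; exact hB
  rw [e]
  exact MeasurableSet.iUnion fun i => (mP i).inter (pvc3_meas (hloc i))

/-! ## 1. the prescribed colours, the cylinder -/

namespace PvwDat

variable {T : PvMap V D} (𝔇 : PvwDat T)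

open Classical in
/-- the PRESCRIBED COLOURS of the datum: `g₀` black, the third vertices of its right triangles white, the states as in `col` -/
noncomputable def pre : V → Bool := fun v => if v ∈ 𝔇.g.verts then true else if v ∈ 𝔇.apx then false else 𝔇.col v

end PvwDat

variable {T : PvMap V D} {𝔇 : PvwDat T} {pos : V → ℂ} {N : PvwNum} {h : ℝ} {π : PvwPat}

theorem pvc3_pre_g {v : V} (hv : v ∈ 𝔇.g.verts) : 𝔇.pre v = true := by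
  unfold PvwDat.pre; rw [if_pos hv]

theorem pvc3_pre_apx (hOk : 𝔇.Ok pos N h π) {v : V} (hv : v ∈ 𝔇.apx) : 𝔇.pre v = false := by
  unfold PvwDat.pre; rw [if_neg (hOk.cons_a v hv), if_pos hv]

theorem pvc3_pre_st (hOk : 𝔇.Ok pos N h π) {v : V} (hv : v ∈ 𝔇.fzY) : 𝔇.pre v = 𝔇.col v := by
  unfold PvwDat.pre
  by_cases h1 : v ∈ 𝔇.g.verts
  · rw [if_pos h1, hOk.cons_b v h1 hv]
  · rw [if_neg h1]
    by_cases h2 : v ∈ 𝔇.apx
    · rw [if_pos h2, hOk.cons_w v h2 hv]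
    · rw [if_neg h2]

/-- **`Cyl(D)` is the cylinder of 193** over the frozen sites, with the prescribed colours -/
theorem pvc3_cyl (hOk : 𝔇.Ok pos N h π) : 𝔇.Cyl = pvtfCyl 𝔇.fz 𝔇.pre := by
  ext σ
  constructor
  · rintro ⟨h1, h2, h3⟩ v hv
    rcases hv with ((hv | hv) | hv)
    · rw [pvc3_pre_st hOk hv]; exact h1 v hv
    · rw [pvc3_pre_g hv]; exact h2 v hv
    · rw [pvc3_pre_apx hOk hv]; exact h3 v hv
  · intro hσ
    refine ⟨fun v hv => ?_, fun v hv => ?_, fun v hv => ?_⟩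
    · rw [hσ v (Or.inl (Or.inl hv)), pvc3_pre_st hOk hv]
    · rw [hσ v (Or.inl (Or.inr hv)), pvc3_pre_g hv]
    · rw [hσ v (Or.inr hv), pvc3_pre_apx hOk hv]

theorem pvc3_fzY_sub : 𝔇.fzY ⊆ 𝔇.s.fz ∪ 𝔇.t.fz := by
  rintro v (hv | hv)
  · exact Or.inr (Or.inl hv)
  · exact Or.inl (Or.inr hv)

theorem pvc3_fzY_sub_fz : 𝔇.fzY ⊆ 𝔇.fz := fun v hv => Or.inl (Or.inl hv)

theorem pvc3_cyl_agree {σ : V → Bool} (hσ : σ ∈ 𝔇.Cyl) : PvwAgree 𝔇.fzY σ 𝔇.col := hσ.1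

theorem pvc3_bank_finite (n : ℕ) (f : ℕ → V) : {v | ∃ i, i ≤ n ∧ f i = v}.Finite := by
  refine ((Set.finite_le_nat n).image f).subset ?_
  rintro v ⟨i, hi, rfl⟩
  exact ⟨i, hi, rfl⟩

theorem pvc3_st_fz_finite (𝔖 : PvwSt T) (hc : 𝔖.core.Finite) : 𝔖.fz.Finite := by
  exact ((hc.union (pvc3_bank_finite _ _)).union (pvc3_bank_finite _ _)).union ((hc.union (pvc3_bank_finite _ _)).union (pvc3_bank_finite _ _))

/-- the frozen set of a datum is finite -/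
theorem pvc3_fz_finite (hOk : 𝔇.Ok pos N h π) : 𝔇.fz.Finite := by
  refine ((((pvc3_st_fz_finite _ hOk.st_s.gate.core_fin).union (pvc3_st_fz_finite _ hOk.st_t.gate.core_fin)).subset pvc3_fzY_sub).union (pl_pth_verts_finite _)).union ?_
  refine ((Set.finite_lt_nat 𝔇.g.n).image fun i => T.apex (T.opp (𝔇.g.e i))).subset ?_
  rintro v ⟨i, hi, rfl⟩
  exact ⟨i, hi, rfl⟩

/-- a fresh site is in exactly one of the two classes -/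
theorem pvc3_class (v : V) : v ∈ 𝔇.fz ∨ v ∈ 𝔇.YCL pos π ∨ v ∈ 𝔇.XCL pos π := by
  by_cases h1 : v ∈ 𝔇.fz
  · exact Or.inl h1
  · by_cases h2 : v ∈ 𝔇.YCL pos π
    · exact Or.inr (Or.inl h2)
    · exact Or.inr (Or.inr ⟨h1, h2⟩)

theorem pvc3_class_disj : Disjoint (𝔇.YCL pos π) (𝔇.XCL pos π) :=
  Set.disjoint_left.2 fun _ h1 h2 => h2.2 h1

/-- the sites of `YCL` are fresh for `D_Y` and lie over `Yin` -/
theorem pvc3_ycl_raw {v : V} (hv : v ∈ 𝔇.YCL pos π) : v ∉ 𝔇.fzY ∧ pos v ∈ π.Yin := by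
  rcases hv with ⟨q, -, rfl, hq⟩ | ⟨q, -, rfl, hq⟩
  · exact hq _ (pl_pth_lst_mem q)
  · exact hq _ (pl_pth_lst_mem q)

/-- the sites of `YCL` are fresh for the datum -/
theorem pvc3_ycl_fresh (hOk : 𝔇.Ok pos N h π) {v : V} (hv : v ∈ 𝔇.YCL pos π) : v ∉ 𝔇.fz := by
  rintro ((hf | hf) | hf)
  · exact (pvc3_ycl_raw hv).1 hf
  · exact pvwk_nu_ycl (hOk.off_y v (Or.inl hf)) hv
  · exact pvwk_nu_ycl (hOk.off_y v (Or.inr hf)) hv

/-! ## 2. `NB`, `WO` -/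

/-- `NB` is DECREASING in black, and it does not read `YCL`, nor `g₀` -/
theorem pvc3_nb_mono {σ σ' : V → Bool} (hle : ∀ v, v ∉ 𝔇.YCL pos π → v ∉ 𝔇.g.verts → σ' v ≤ σ v) (hnb : 𝔇.NB pos π σ) : 𝔇.NB pos π σ' := by
  intro k hk
  obtain ⟨a, ha, hj⟩ := hnb k hk
  refine ⟨a, ha, pvta_join_mono ?_ hj⟩
  rintro v ⟨h1, h2, h3⟩
  refine ⟨h1, h2, ?_⟩
  have := hle v (pvwk_nu_ycl h1) h2
  rw [h3] at this
  exact le_bot_iff.1 this

/-- `WO` is DECREASING in black, and it reads only the fresh sites of the outer lane -/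
theorem pvc3_wo_mono {σ σ' : V → Bool} (hle : ∀ v, v ∉ 𝔇.fz → pos v ∈ π.Yout → σ' v ≤ σ v) (hwo : 𝔇.WO pos π σ) : 𝔇.WO pos π σ' := by
  obtain ⟨q, h0, h1, hin⟩ := hwo
  refine ⟨q, h0, h1, fun x hx => ?_⟩
  obtain ⟨hw, hy, hf⟩ := hin x hx
  refine ⟨?_, hy, hf⟩
  have := hle x hf.1 hy
  rw [hw] at this
  exact le_bot_iff.1 this

/-- **(STAB) for `Cyl ∩ NB`** (form of 159): same colours on `fz`, fewer black sites off `YCL`, ANY colours on `YCL` -/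
theorem pvc3_stab_nb {σ σ' : V → Bool} (hc : σ ∈ 𝔇.Cyl) (hnb : 𝔇.NB pos π σ) (hfz : ∀ v ∈ 𝔇.fz, σ' v = σ v) (hle : ∀ v ∈ 𝔇.XCL pos π, σ' v ≤ σ v) :
    σ' ∈ 𝔇.Cyl ∧ 𝔇.NB pos π σ' := by
  refine ⟨⟨fun v hv => ?_, fun v hv => ?_, fun v hv => ?_⟩, pvc3_nb_mono (fun v hv _ => ?_) hnb⟩
  · rw [hfz v (Or.inl (Or.inl hv))]; exact hc.1 v hv
  · rw [hfz v (Or.inl (Or.inr hv))]; exact hc.2.1 v hv
  · rw [hfz v (Or.inr hv)]; exact hc.2.2 v hv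
  · rcases pvc3_class (𝔇 := 𝔇) (pos := pos) (π := π) v with h1 | h1 | h1
    · exact (hfz v h1).le
    · exact absurd h1 hv
    · exact hle v h1

/-- **(STABW)**: `WO` is decreasing on `XCL` and reads nothing else -/
theorem pvc3_stab_wo (hW : π.Wf) {σ σ' : V → Bool} (hwo : 𝔇.WO pos π σ) (hle : ∀ v ∈ 𝔇.XCL pos π, σ' v ≤ σ v) : 𝔇.WO pos π σ' :=
  pvc3_wo_mono (fun v h1 h2 => hle v ⟨h1, fun h3 => Set.disjoint_left.1 hW.disj (pvc3_ycl_raw h3).2 h2⟩) hwo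

theorem pvc3_inner_finite (q : T.Pth) : q.inner.Finite := (pl_pth_verts_finite q).subset (pl_pth_inner_sub q)

/-- `NB` (faced form of Defs v2: finitely many white paths) is local -/
theorem pvc3_nb_loc : Pvc3Loc {σ | 𝔇.NB pos π σ} := by
  intro σ hσ
  have hσ' : pvtaN 𝔇.g σ (𝔇.NU pos π) ({𝔇.anc} ∪ 𝔇.Lam pos π) := hσ
  have : Nonempty D := ⟨𝔇.t.dp⟩
  have H : ∀ k, ∃ p : T.Pth, k < 𝔇.g.n → (p.v 0 = 𝔇.g.rap k ∧ p.v p.n ∈ ({𝔇.anc} ∪ 𝔇.Lam pos π : Set V) ∧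
      p.verts ⊆ {v | v ∈ 𝔇.NU pos π ∧ v ∉ 𝔇.g.verts ∧ σ v = false}) := by
    intro k
    by_cases hk : k < 𝔇.g.n
    · obtain ⟨a, ha, hj⟩ := hσ' k hk
      obtain ⟨p, p0, p1, pX, -⟩ := pl_pth_of_join hj
      exact ⟨p, fun _ => ⟨p0, by rw [p1]; exact ha, pX⟩⟩
    · exact ⟨𝔇.g, fun h => absurd h hk⟩
  choose p hp using H
  refine ⟨⋃ k ∈ Finset.range 𝔇.g.n, (p k).verts, ?_, fun σ₁ hσ₁ k hk => ?_⟩
  · exact Set.Finite.biUnion (Finset.finite_toSet _) fun k _ => pl_pth_verts_finite _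
  · obtain ⟨p0, p1, pX⟩ := hp k hk
    refine ⟨_, p1, ?_⟩
    rw [← p0]
    refine pl_pth_join (p k) (A := Set.univ) (fun i _ => Or.inl (Set.mem_univ _)) (fun v hv => ?_) (Nat.zero_le _) le_rfl
    obtain ⟨h1, h2, h3⟩ := pX hv
    refine ⟨h1, h2, ?_⟩
    rw [hσ₁ v (Set.mem_biUnion (Finset.mem_coe.2 (Finset.mem_range.2 hk)) hv)]
    exact h3

theorem pvc3_wo_loc : Pvc3Loc {σ | 𝔇.WO pos π σ} := by
  rintro σ ⟨q, h0, h1, hin⟩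
  refine ⟨q.inner, pvc3_inner_finite q, fun σ' hσ' => ⟨q, h0, h1, fun x hx => ?_⟩⟩
  rw [hσ' x hx]; exact hin x hx

theorem pvc3_nb_meas [Countable V] : MeasurableSet {σ | 𝔇.NB pos π σ} := pvc3_meas pvc3_nb_loc

theorem pvc3_wo_meas [Countable V] : MeasurableSet {σ | 𝔇.WO pos π σ} := pvc3_meas pvc3_wo_loc

/-! ## 3. the run of the strand -/

/-- the ends of the previous position -/
theorem pvc3_back_ends (s : V → Bool) (d : D) :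
    (T.src (pvasBack T s d) = T.apex (T.opp d) ∧ T.tgt (pvasBack T s d) = T.tgt d) ∨ (T.src (pvasBack T s d) = T.src d ∧ T.tgt (pvasBack T s d) = T.apex (T.opp d)) := by
  rcases pvas_back_cases s d with ⟨_, e⟩ | ⟨_, e⟩
  · exact Or.inl ⟨by rw [e, T.src_nxt2], by rw [e, T.tgt_nxt2, T.src_opp']⟩
  · exact Or.inr ⟨by rw [e, T.src_nxt, T.tgt_opp], by rw [e, T.tgt_nxt]⟩

/-- one step backwards reads the colour of the new end only -/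
theorem pvc3_back_congr {s s' : V → Bool} {d : D} (h1 : s' (T.src (pvasBack T s d)) = s (T.src (pvasBack T s d)))
    (h2 : s' (T.tgt (pvasBack T s d)) = s (T.tgt (pvasBack T s d))) : pvasBack T s' d = pvasBack T s d := by
  have : s' (T.apex (T.opp d)) = s (T.apex (T.opp d)) := by
    rcases pvc3_back_ends (T := T) s d with ⟨e, _⟩ | ⟨_, e⟩
    · rw [← e]; exact h1
    · rw [← e]; exact h2
  unfold pvasBack
  rw [this]

/-- the hypotheses on the two stubs which sec. 3 consumes (all of them are fields of `PvwDat.Ok`) -/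
structure Pvc3Stubs (𝔇 : PvwDat T) : Prop where
  ep_it : ∀ i, i ≤ 𝔇.t.np → 𝔇.t.ep i = pvasIt T 𝔇.col 𝔇.t.dp i
  em_it : ∀ i, i ≤ 𝔇.s.nm → 𝔇.s.em i = (pvasBack T 𝔇.col)^[i] 𝔇.s.dm
  bw : pvasBW T 𝔇.col 𝔇.t.dp

theorem pvc3_stubs (hOk : 𝔇.Ok pos N h π) : Pvc3Stubs 𝔇 := ⟨hOk.st_t.stub.ep_it, hOk.st_s.stub.em_it, hOk.st_t.gate.bw_p⟩

theorem pvc3_bkP_sub {v : V} (hv : v ∈ 𝔇.t.bkP) : v ∈ 𝔇.fzY := Or.inl (Or.inl (Or.inr hv))
theorem pvc3_whP_sub {v : V} (hv : v ∈ 𝔇.t.whP) : v ∈ 𝔇.fzY := Or.inl (Or.inr hv)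
theorem pvc3_bkM_sub {v : V} (hv : v ∈ 𝔇.s.bkM) : v ∈ 𝔇.fzY := Or.inr (Or.inl (Or.inr hv))
theorem pvc3_whM_sub {v : V} (hv : v ∈ 𝔇.s.whM) : v ∈ 𝔇.fzY := Or.inr (Or.inr hv)

/-- the exit stub of `t` is run by every colouring which agrees with the prescription on `D_Y` -/
theorem pvc3_fwd (hS : Pvc3Stubs 𝔇) {σ : V → Bool} (hσ : PvwAgree 𝔇.fzY σ 𝔇.col) : ∀ i, i ≤ 𝔇.t.np → pvasIt T σ 𝔇.t.dp i = 𝔇.t.ep i := by
  intro i hi
  rw [hS.ep_it i hi]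
  refine pvas_it_congr (T := T) (s := 𝔇.col) (s' := σ) (n := 𝔇.t.np) (fun v hv => ?_) i hi
  rcases hv with ⟨k, hk, rfl⟩ | ⟨k, hk, rfl⟩
  · exact hσ _ (pvc3_bkP_sub ⟨k, hk, by rw [hS.ep_it k hk]⟩)
  · exact hσ _ (pvc3_whP_sub ⟨k, hk, by rw [hS.ep_it k hk]⟩)

/-- the entrance stub of `s` is run backwards by every colouring which agrees with the prescription on `D_Y` -/
theorem pvc3_bwd (hS : Pvc3Stubs 𝔇) {σ : V → Bool} (hσ : PvwAgree 𝔇.fzY σ 𝔇.col) : ∀ i, i ≤ 𝔇.s.nm → (pvasBack T σ)^[i] 𝔇.s.dm = 𝔇.s.em i := by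
  intro i
  induction i with
  | zero => intro _; rw [hS.em_it 0 (Nat.zero_le _)]; rfl
  | succ i ih =>
    intro hi
    have e1 : 𝔇.s.em (i + 1) = pvasBack T 𝔇.col (𝔇.s.em i) := by
      rw [hS.em_it (i + 1) hi, hS.em_it i (Nat.le_of_succ_le hi), Function.iterate_succ_apply']
    rw [Function.iterate_succ_apply', ih (Nat.le_of_succ_le hi), e1]
    refine pvc3_back_congr ?_ ?_
    · exact hσ _ (pvc3_bkM_sub ⟨i + 1, hi, by rw [e1]⟩)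
    · exact hσ _ (pvc3_whM_sub ⟨i + 1, hi, by rw [e1]⟩)

theorem pvc3_bw (hS : Pvc3Stubs 𝔇) {σ : V → Bool} (hσ : PvwAgree 𝔇.fzY σ 𝔇.col) : pvasBW T σ 𝔇.t.dp := by
  have e0 : 𝔇.t.ep 0 = 𝔇.t.dp := hS.ep_it 0 (Nat.zero_le _)
  refine ⟨?_, ?_⟩
  · rw [hσ _ (pvc3_bkP_sub ⟨0, Nat.zero_le _, by rw [e0]⟩)]; exact hS.bw.1
  · rw [hσ _ (pvc3_whP_sub ⟨0, Nat.zero_le _, by rw [e0]⟩)]; exact hS.bw.2

/-- the last `nm` steps of a run are the entrance stub of `s` -/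
theorem pvc3_tail (hS : Pvc3Stubs 𝔇) {σ : V → Bool} (hσ : PvwAgree 𝔇.fzY σ 𝔇.col) {n : ℕ} (hn : 𝔇.s.nm ≤ n) (he : pvasIt T σ 𝔇.t.dp n = 𝔇.s.dm) :
    ∀ k, k ≤ 𝔇.s.nm → pvasIt T σ 𝔇.t.dp (n - k) = 𝔇.s.em k := by
  intro k
  induction k with
  | zero => intro _; rw [Nat.sub_zero, he, ← pvc3_bwd hS hσ 0 (Nat.zero_le _)]; rfl
  | succ k ih =>
    intro hk
    have e1 : n - k = (n - (k + 1)) + 1 := by omega
    have e2 := pvas_it_back (pvc3_bw hS hσ) (n - (k + 1))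
    rw [← e1, ih (Nat.le_of_succ_le hk)] at e2
    rw [← e2, ← pvc3_bwd hS hσ (k + 1) hk, Function.iterate_succ_apply', pvc3_bwd hS hσ k (Nat.le_of_succ_le hk)]

/-- **all the sites of a run lie in `D_Y` or in `YCL`** (Defs v2) -/
theorem pvc3_syn_lay (hS : Pvc3Stubs 𝔇) {σ : V → Bool} (hσ : PvwAgree 𝔇.fzY σ 𝔇.col) {n : ℕ} (hn : 𝔇.SYn pos π σ n) {i : ℕ} (hi : i ≤ n) :
    (T.src (pvasIt T σ 𝔇.t.dp i) ∈ 𝔇.fzY ∨ T.src (pvasIt T σ 𝔇.t.dp i) ∈ 𝔇.YCL pos π) ∧ (T.tgt (pvasIt T σ 𝔇.t.dp i) ∈ 𝔇.fzY ∨ T.tgt (pvasIt T σ 𝔇.t.dp i) ∈ 𝔇.YCL pos π) := by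
  obtain ⟨h1, h2, -, h3⟩ := hn
  by_cases ha : i ≤ 𝔇.t.np
  · rw [pvc3_fwd hS hσ i ha]
    exact ⟨Or.inl (pvc3_bkP_sub ⟨i, ha, rfl⟩), Or.inl (pvc3_whP_sub ⟨i, ha, rfl⟩)⟩
  · by_cases hb : i + 𝔇.s.nm < n
    · exact ⟨(h3 i (not_le.1 ha) hb).1.symm, (h3 i (not_le.1 ha) hb).2.1.symm⟩
    · have e : i = n - (n - i) := by omega
      have hk : n - i ≤ 𝔇.s.nm := by omega
      rw [e, pvc3_tail hS hσ (by omega) h2 (n - i) hk]
      exact ⟨Or.inl (pvc3_bkM_sub ⟨n - i, hk, rfl⟩), Or.inl (pvc3_whM_sub ⟨n - i, hk, rfl⟩)⟩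

/-- `SYn` is a property of the positions `0..n` -/
theorem pvc3_syn_of_run {σ σ' : V → Bool} {n : ℕ} (hr : ∀ i, i ≤ n → pvasIt T σ' 𝔇.t.dp i = pvasIt T σ 𝔇.t.dp i) (hn : 𝔇.SYn pos π σ n) : 𝔇.SYn pos π σ' n := by
  obtain ⟨h1, h2, h4, h3⟩ := hn
  refine ⟨h1, by rw [hr n le_rfl]; exact h2, fun i hi => by rw [hr i hi.le]; exact h4 i hi, fun i ha hb => ?_⟩
  rw [hr i (by omega)]; exact h3 i ha hb

/-- **`SYn` READS ONLY `D_Y` AND `YCL`**; the run is the same -/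
theorem pvc3_syn_congr (hS : Pvc3Stubs 𝔇) {σ σ' : V → Bool} (hσ : PvwAgree 𝔇.fzY σ 𝔇.col) (hag : ∀ v, v ∈ 𝔇.fzY ∨ v ∈ 𝔇.YCL pos π → σ' v = σ v) {n : ℕ}
    (hn : 𝔇.SYn pos π σ n) : 𝔇.SYn pos π σ' n ∧ ∀ i, i ≤ n → pvasIt T σ' 𝔇.t.dp i = pvasIt T σ 𝔇.t.dp i := by
  have hr : ∀ i, i ≤ n → pvasIt T σ' 𝔇.t.dp i = pvasIt T σ 𝔇.t.dp i := by
    refine pvas_it_congr (T := T) (s := σ) (s' := σ') (n := n) fun v hv => ?_
    rcases hv with ⟨k, hk, rfl⟩ | ⟨k, hk, rfl⟩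
    · exact hag _ (pvc3_syn_lay hS hσ hn hk).1
    · exact hag _ (pvc3_syn_lay hS hσ hn hk).2
  exact ⟨pvc3_syn_of_run hr hn, hr⟩

theorem pvc3_agree_symm {σ σ' : V → Bool} (hσ : PvwAgree 𝔇.fzY σ 𝔇.col) (hag : ∀ v, v ∈ 𝔇.fzY ∨ v ∈ 𝔇.YCL pos π → σ' v = σ v) : PvwAgree 𝔇.fzY σ' 𝔇.col :=
  fun v hv => (hag v (Or.inl hv)).trans (hσ v hv)

theorem pvc3_syn_iff (hS : Pvc3Stubs 𝔇) {σ σ' : V → Bool} (hσ : PvwAgree 𝔇.fzY σ 𝔇.col) (hag : ∀ v, v ∈ 𝔇.fzY ∨ v ∈ 𝔇.YCL pos π → σ' v = σ v) (n : ℕ) :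
    𝔇.SYn pos π σ' n ↔ 𝔇.SYn pos π σ n :=
  ⟨fun hn => (pvc3_syn_congr hS (pvc3_agree_symm hσ hag) (fun v hv => (hag v hv).symm) hn).1, fun hn => (pvc3_syn_congr hS hσ hag hn).1⟩

/-- **`SY` READS ONLY `D_Y` AND `YCL`** -/
theorem pvc3_sy_congr (hS : Pvc3Stubs 𝔇) {σ σ' : V → Bool} (hσ : PvwAgree 𝔇.fzY σ 𝔇.col) (hag : ∀ v, v ∈ 𝔇.fzY ∨ v ∈ 𝔇.YCL pos π → σ' v = σ v) :
    𝔇.SY pos π σ' ↔ 𝔇.SY pos π σ :=
  exists_congr fun n => pvc3_syn_iff hS hσ hag n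

/-- the loop erasure of `b 0, …, b n` reads these values only -/
theorem pvc3_le_congr {b b' : ℕ → V} {n : ℕ} (hb : ∀ i, i ≤ n → b' i = b i) {y : T.Pth} (hy : PvwLE T b n y) : PvwLE T b' n y := by
  obtain ⟨j, h0, hn, h1, h2⟩ := hy
  have hlt : ∀ k, k < y.n → j k < n := by
    intro k hk
    refine lt_of_le_of_ne (h1 k hk.le).1 fun e => ?_
    have e1 : y.v k = y.v y.n := by rw [(h1 k hk.le).2.1, (h1 y.n le_rfl).2.1, e, hn]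
    exact absurd (y.inj k y.n hk.le le_rfl e1) hk.ne
  refine ⟨j, by rw [h0, hb 0 (Nat.zero_le _)], hn, fun k hk => ⟨(h1 k hk).1, ?_, fun i hi hin => ?_⟩, fun k hk => ?_⟩
  · rw [(h1 k hk).2.1, hb _ (h1 k hk).1]
  · rw [hb i hin, hb _ (h1 k hk).1]; exact (h1 k hk).2.2 i hi hin
  · rw [h2 k hk, hb _ (hlt k hk)]

theorem pvc3_le_iff {b b' : ℕ → V} {n : ℕ} (hb : ∀ i, i ≤ n → b' i = b i) (y : T.Pth) : PvwLE T b' n y ↔ PvwLE T b n y :=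
  ⟨pvc3_le_congr fun i hi => (hb i hi).symm, pvc3_le_congr hb⟩

open Classical in
/-- `Y` as a function of the SET of the admissible arcs -/
noncomputable def pvc3YF (𝔇 : PvwDat T) (pos : V → ℂ) (w : D → ℂ) (N : PvwNum) (h : ℝ) (π : PvwPat) (P : T.Pth → Prop) : ℂ :=
  if hy : ∃ y, P y then 𝔇.Yof pos w N h π hy.choose else 0

theorem pvc3_Y_eq (w : D → ℂ) (σ : V → Bool) : 𝔇.Y pos w N h π σ = pvc3YF 𝔇 pos w N h π (fun y => 𝔇.YArc pos π σ y) := rfl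

theorem pvc3_Y_of_arc (w : D → ℂ) {σ σ' : V → Bool} (hy : ∀ y, 𝔇.YArc pos π σ' y ↔ 𝔇.YArc pos π σ y) : 𝔇.Y pos w N h π σ' = 𝔇.Y pos w N h π σ := by
  rw [pvc3_Y_eq, pvc3_Y_eq]
  congr 1
  funext y
  exact propext (hy y)

theorem pvc3_arc_congr (hS : Pvc3Stubs 𝔇) {σ σ' : V → Bool} (hσ : PvwAgree 𝔇.fzY σ 𝔇.col) (hag : ∀ v, v ∈ 𝔇.fzY ∨ v ∈ 𝔇.YCL pos π → σ' v = σ v) {y : T.Pth}
    (hy : 𝔇.YArc pos π σ y) : 𝔇.YArc pos π σ' y := by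
  obtain ⟨n, hn, hle⟩ := hy
  obtain ⟨h1, h2⟩ := pvc3_syn_congr hS hσ hag hn
  exact ⟨n, h1, pvc3_le_congr (fun i hi => by rw [h2 i hi]) hle⟩

/-- **`Y` READS ONLY `D_Y` AND `YCL`** (no uniqueness of the run is needed) -/
theorem pvc3_Y_congr (hS : Pvc3Stubs 𝔇) (w : D → ℂ) {σ σ' : V → Bool} (hσ : PvwAgree 𝔇.fzY σ 𝔇.col) (hag : ∀ v, v ∈ 𝔇.fzY ∨ v ∈ 𝔇.YCL pos π → σ' v = σ v) :
    𝔇.Y pos w N h π σ' = 𝔇.Y pos w N h π σ :=
  pvc3_Y_of_arc w fun y => ⟨pvc3_arc_congr hS (pvc3_agree_symm hσ hag) fun v hv => (hag v hv).symm, pvc3_arc_congr hS hσ hag⟩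

/-! ## 4. measurability of `SY` and of `Y` -/

/-- the window of the positions `0..n` -/
def pvc3Win (T : PvMap V D) (σ : V → Bool) (d : D) (n : ℕ) : Set V := pvasLayB T σ d n ∪ pvasLayW T σ d n

theorem pvc3_win_finite (σ : V → Bool) (d : D) (n : ℕ) : (pvc3Win T σ d n).Finite := (pvc3_bank_finite _ _).union (pvc3_bank_finite _ _)

theorem pvc3_win_run {σ σ' : V → Bool} {d : D} {n : ℕ} (hag : ∀ v ∈ pvc3Win T σ d n, σ' v = σ v) : ∀ i, i ≤ n → pvasIt T σ' d i = pvasIt T σ d i :=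
  pvas_it_congr (T := T) fun v hv => hag v hv

theorem pvc3_syn_loc (n : ℕ) : Pvc3Loc {σ | 𝔇.SYn pos π σ n} := fun σ hσ =>
  ⟨pvc3Win T σ 𝔇.t.dp n, pvc3_win_finite _ _ _, fun _ hσ' => pvc3_syn_of_run (pvc3_win_run hσ') hσ⟩

theorem pvc3_sy_loc : Pvc3Loc {σ | 𝔇.SY pos π σ} := by
  have e : {σ | 𝔇.SY pos π σ} = ⋃ n, {σ | 𝔇.SYn pos π σ n} := by
    ext σ; simp only [mem_ofPred_eq, mem_iUnion]; rfl
  rw [e]
  exact pvc3_loc_iUnion pvc3_syn_loc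

theorem pvc3_sy_meas [Countable V] : MeasurableSet {σ | 𝔇.SY pos π σ} := pvc3_meas pvc3_sy_loc

/-- two returns to the same position: the whole run is determined by its beginning -/
theorem pvc3_periodic {σ σ' : V → Bool} {d : D} {n₀ n₁ : ℕ} (hlt : n₀ < n₁) (he : pvasIt T σ d n₀ = pvasIt T σ d n₁)
    (hr : ∀ i, i ≤ n₁ → pvasIt T σ' d i = pvasIt T σ d i) : ∀ i, pvasIt T σ' d i = pvasIt T σ d i := by
  intro i
  induction i using Nat.strong_induction_on with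
  | _ i ih =>
    by_cases hi : i ≤ n₁
    · exact hr i hi
    · have e1 : i = n₁ + (i - n₁) := by omega
      have he' : pvasIt T σ' d n₀ = pvasIt T σ' d n₁ := by rw [hr n₀ hlt.le, hr n₁ le_rfl, he]
      have a1 : pvasIt T σ d i = pvasIt T σ d (n₀ + (i - n₁)) := by
        conv_lhs => rw [e1]
        rw [pvas_it_add, pvas_it_add, he]
      have a2 : pvasIt T σ' d i = pvasIt T σ' d (n₀ + (i - n₁)) := by
        conv_lhs => rw [e1]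
        rw [pvas_it_add, pvas_it_add, he']
      rw [a1, a2]
      exact ih _ (by omega)

/-- the run has two admissible lengths -/
def pvc3Two (𝔇 : PvwDat T) (pos : V → ℂ) (π : PvwPat) : Set (V → Bool) := {σ | ∃ n₀ n₁, n₀ < n₁ ∧ 𝔇.SYn pos π σ n₀ ∧ 𝔇.SYn pos π σ n₁}

theorem pvc3_arc_of_run {σ σ' : V → Bool} (hr : ∀ i, pvasIt T σ' 𝔇.t.dp i = pvasIt T σ 𝔇.t.dp i) {y : T.Pth} (hy : 𝔇.YArc pos π σ y) : 𝔇.YArc pos π σ' y := by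
  obtain ⟨n, hn, hle⟩ := hy
  exact ⟨n, pvc3_syn_of_run (fun i _ => hr i) hn, pvc3_le_congr (fun i _ => by rw [hr i]) hle⟩

theorem pvc3_two_loc : Pvc3Loc (pvc3Two 𝔇 pos π) := by
  rintro σ ⟨n₀, n₁, hlt, h0, h1⟩
  refine ⟨pvc3Win T σ 𝔇.t.dp n₁, pvc3_win_finite _ _ _, fun σ' hσ' => ⟨n₀, n₁, hlt, ?_, ?_⟩⟩
  · exact pvc3_syn_of_run (fun i hi => pvc3_win_run hσ' i (hi.trans hlt.le)) h0
  · exact pvc3_syn_of_run (pvc3_win_run hσ') h1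

/-- **`Y` IS MEASURABLE, AS TYPED** -/
theorem pvc3_Y_meas [Countable V] (w : D → ℂ) : Measurable (𝔇.Y pos w N h π) := by
  have m2 : MeasurableSet (pvc3Two 𝔇 pos π) := pvc3_meas pvc3_two_loc
  have m1 : MeasurableSet {σ | 𝔇.SY pos π σ} := pvc3_sy_meas
  refine pvc3_meas_fun (ι := Fin 3) (fun i => if i = 0 then pvc3Two 𝔇 pos π else if i = 1 then {σ | 𝔇.SY pos π σ} \ pvc3Two 𝔇 pos π else {σ | 𝔇.SY pos π σ}ᶜ) ?_ ?_ _ ?_
  · intro i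
    fin_cases i
    · exact m2
    · exact m1.diff m2
    · exact m1.compl
  · intro σ
    by_cases h2 : σ ∈ pvc3Two 𝔇 pos π
    · exact ⟨0, h2⟩
    · by_cases h1 : 𝔇.SY pos π σ
      · exact ⟨1, ⟨h1, h2⟩⟩
      · exact ⟨2, h1⟩
  · intro i
    fin_cases i
    · rintro σ ⟨n₀, n₁, hlt, h0, h1⟩
      refine ⟨pvc3Win T σ 𝔇.t.dp n₁, pvc3_win_finite _ _ _, fun σ' _ hσ' => ?_⟩
      have hr := pvc3_periodic hlt (h0.2.1.trans h1.2.1.symm) (pvc3_win_run hσ')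
      exact pvc3_Y_of_arc w fun y => ⟨pvc3_arc_of_run fun i => (hr i).symm, pvc3_arc_of_run hr⟩
    · rintro σ ⟨⟨n, hn⟩, h2⟩
      refine ⟨pvc3Win T σ 𝔇.t.dp n, pvc3_win_finite _ _ _, fun σ' hσ'P hσ' => ?_⟩
      have hr := pvc3_win_run hσ'
      have hn' : 𝔇.SYn pos π σ' n := pvc3_syn_of_run hr hn
      have u : ∀ m, 𝔇.SYn pos π σ m → m = n := by
        intro m hm
        by_contra hne
        rcases lt_or_gt_of_ne hne with hl | hl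
        · exact h2 ⟨m, n, hl, hm, hn⟩
        · exact h2 ⟨n, m, hl, hn, hm⟩
      have u' : ∀ m, 𝔇.SYn pos π σ' m → m = n := by
        intro m hm
        by_contra hne
        rcases lt_or_gt_of_ne hne with hl | hl
        · exact hσ'P.2 ⟨m, n, hl, hm, hn'⟩
        · exact hσ'P.2 ⟨n, m, hl, hn', hm⟩
      refine pvc3_Y_of_arc w fun y => ⟨?_, ?_⟩
      · rintro ⟨m, hm, hle⟩
        obtain rfl := u' m hm
        exact ⟨m, hn, pvc3_le_congr (fun i hi => by rw [hr i hi]) hle⟩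
      · rintro ⟨m, hm, hle⟩
        obtain rfl := u m hm
        exact ⟨m, hn', pvc3_le_congr (fun i hi => by rw [hr i hi]) hle⟩
    · intro σ hσ
      refine ⟨∅, finite_empty, fun σ' hσ' _ => ?_⟩
      exact pvc3_Y_of_arc w fun y => ⟨fun ⟨n, hn, _⟩ => absurd ⟨n, hn⟩ hσ', fun ⟨n, hn, _⟩ => absurd ⟨n, hn⟩ hσ⟩

/-! ## 5. the instance -/

/-- **THE DATUM OF 193 ATTACHED TO A DATUM OF RECORD** -/
noncomputable def PvwDat.toTf (𝔇 : PvwDat T) (pos : V → ℂ) (w : D → ℂ) (N : PvwNum) (h : ℝ) (π : PvwPat) : PvtfDat V ℂ where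
  S := 𝔇.fz
  σ := 𝔇.pre
  Xc := 𝔇.XCL pos π
  NB := {σ | 𝔇.NB pos π σ}
  WO := {σ | 𝔇.WO pos π σ}
  SY := {σ | 𝔇.SY pos π σ}
  Y := 𝔇.Y pos w N h π
  x := 𝔇.X pos w N h π

theorem pvc3_off_xcl {σ σ' : V → Bool} (hc : σ ∈ pvtfCyl 𝔇.fz 𝔇.pre) (hc' : σ' ∈ pvtfCyl 𝔇.fz 𝔇.pre) (hag : ∀ v, v ∉ 𝔇.XCL pos π → σ v = σ' v) :
    ∀ v, v ∈ 𝔇.fzY ∨ v ∈ 𝔇.YCL pos π → σ' v = σ v := by
  rintro v (hv | hv)
  · rw [hc v (pvc3_fzY_sub_fz hv), hc' v (pvc3_fzY_sub_fz hv)]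
  · exact (hag v fun hx => hx.2 hv).symm

/-- **(C3) HOLDS FOR THE DATA OF RECORD** -/
theorem pvc3_ok [Countable V] (hOk : 𝔇.Ok pos N h π) (hW : π.Wf) (w : D → ℂ) : (𝔇.toTf pos w N h π).Ok where
  mNB := pvc3_nb_meas
  mWO := pvc3_wo_meas
  mSY := pvc3_sy_meas
  mY := (pvc3_Y_meas w).stronglyMeasurable
  dNB := fun s s' _ _ hs hle => pvc3_nb_mono (fun v _ _ => hle v) hs
  dWO := fun s s' _ _ hs hle => pvc3_wo_mono (fun v _ _ => hle v) hs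
  rNB := fun s s' hs hs' hag => by
    have key : ∀ a b : V → Bool, a ∈ pvtfCyl 𝔇.fz 𝔇.pre → b ∈ pvtfCyl 𝔇.fz 𝔇.pre → (∀ v ∈ 𝔇.XCL pos π, a v = b v) → 𝔇.NB pos π a → 𝔇.NB pos π b := by
      intro a b ha hb hab hnb
      refine pvc3_nb_mono (fun v hv _ => ?_) hnb
      rcases pvc3_class (𝔇 := 𝔇) (pos := pos) (π := π) v with h1 | h1 | h1
      · rw [ha v h1, hb v h1]
      · exact absurd h1 hv
      · exact (hab v h1).ge
    exact ⟨key s s' hs hs' hag, key s' s hs' hs fun v hv => (hag v hv).symm⟩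
  rWO := fun s s' _ _ hag => ⟨fun hw => pvc3_stab_wo hW hw fun v hv => (hag v hv).ge, fun hw => pvc3_stab_wo hW hw fun v hv => (hag v hv).le⟩
  rSY := fun s s' hs hs' hag => by
    have hσ : PvwAgree 𝔇.fzY s 𝔇.col := pvc3_cyl_agree (by rw [pvc3_cyl hOk]; exact hs)
    exact (pvc3_sy_congr (pvc3_stubs hOk) hσ (pvc3_off_xcl hs hs' fun v hv => hag v hv)).symm
  rY := fun s s' hs hs' hag => by
    have hσ : PvwAgree 𝔇.fzY s 𝔇.col := pvc3_cyl_agree (by rw [pvc3_cyl hOk]; exact hs)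
    exact (pvc3_Y_congr (pvc3_stubs hOk) w hσ (pvc3_off_xcl hs hs' hag)).symm

/-- the conditional law given the datum: the prescribed colours on `fz`, fresh fair colours elsewhere -/
noncomputable def PvwDat.PD (𝔇 : PvwDat T) : Measure (V → Bool) := pvtfPD 𝔇.fz 𝔇.pre

/-- `ŷ(D) = E[Y | SY, D]` -/
noncomputable def PvwDat.yhat (𝔇 : PvwDat T) (pos : V → ℂ) (w : D → ℂ) (N : PvwNum) (h : ℝ) (π : PvwPat) : ℂ :=
  ⨍ σ in {σ | 𝔇.SY pos π σ}, 𝔇.Y pos w N h π σ ∂𝔇.PD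

/-- **N1' FOR ONE DATUM OF RECORD, quenched** -/
theorem pvc3_n1_datum [Countable V] (hOk : 𝔇.Ok pos N h π) (hW : π.Wf) (w : D → ℂ) (n : ℕ) :
    colLaw V (𝔇.Cyl ∩ {σ | 𝔇.NB pos π σ}) * 𝔇.PD {σ | 𝔇.WO pos π σ} * 𝔇.PD {σ | 𝔇.SY pos π σ} * ‖𝔇.X pos w N h π + 𝔇.yhat pos w N h π‖ₑ ^ n
      ≤ ∫⁻ σ in 𝔇.Cyl ∩ ({σ | 𝔇.NB pos π σ} ∩ {σ | 𝔇.WO pos π σ} ∩ {σ | 𝔇.SY pos π σ}), ‖𝔇.X pos w N h π + 𝔇.Y pos w N h π σ‖ₑ ^ n ∂colLaw V := by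
  have := pvtf_n1_datum (𝔇.toTf pos w N h π) (pvc3_ok hOk hW w) n
  rw [pvc3_cyl hOk]
  exact this

/-- **THEOREM N1' FOR A COUNTABLE FAMILY OF DATA OF RECORD, quenched**:   (C1) = `hAct`, (C2) + injectivity = `hΘ` (227), lower bounds = `hWO`, `hSY` (HOOK) -/
theorem pvc3_n1_sum [Countable V] {ι : Type*} [Countable ι] (𝔇 : ι → PvwDat T) (hOk : ∀ i, (𝔇 i).Ok pos N h π) (hW : π.Wf) (w : D → ℂ) (n : ℕ)
    (Act : ι → Set (V → Bool)) (hAct : ∀ i, Act i ⊆ (𝔇 i).Cyl ∩ {σ | (𝔇 i).NB pos π σ}) {qW qc : ℝ≥0∞}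
    (hWO : ∀ i, qW ≤ (𝔇 i).PD {σ | (𝔇 i).WO pos π σ}) (hSY : ∀ i, qc ≤ (𝔇 i).PD {σ | (𝔇 i).SY pos π σ}) (Θ : (V → Bool) → ℝ≥0∞)
    (hΘ : ∀ σ, ∑' i, ((𝔇 i).Cyl ∩ ({σ | (𝔇 i).NB pos π σ} ∩ {σ | (𝔇 i).WO pos π σ} ∩ {σ | (𝔇 i).SY pos π σ})).indicator
      (fun σ => ‖(𝔇 i).X pos w N h π + (𝔇 i).Y pos w N h π σ‖ₑ ^ n) σ ≤ Θ σ) :
    qW * qc * ∑' i, colLaw V (Act i) * ‖(𝔇 i).X pos w N h π + (𝔇 i).yhat pos w N h π‖ₑ ^ n ≤ ∫⁻ σ, Θ σ ∂colLaw V := by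
  refine pvtf_n1_sum (fun i => (𝔇 i).toTf pos w N h π) (fun i => pvc3_ok (hOk i) hW w) n Act (fun i => ?_) hWO hSY Θ fun σ => ?_
  · have := hAct i
    rw [pvc3_cyl (hOk i)] at this
    exact this
  · refine le_trans (le_of_eq ?_) (hΘ σ)
    refine tsum_congr fun i => ?_
    rw [pvc3_cyl (hOk i)]
    rfl

/-! ## 6. `P(SY | D)`, `ŷ(D)` ARE FUNCTIONS OF `D_Y = (Σ_out(t), Σ_in(s))` -/

/-- the conditional law given `D_Y` only -/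
noncomputable def PvwDat.PDY (𝔇 : PvwDat T) : Measure (V → Bool) := pvtfPD 𝔇.fzY 𝔇.col

/-- **CLEAN**: over `Yin` the only frozen sites are those of `D_Y` (`g₀`, its white apexes, `Σ⁻(t)`, `Σ⁺(s)` stay off the inner lanes and the inner mouths) -/
def PvwDat.Clean (𝔇 : PvwDat T) (pos : V → ℂ) (π : PvwPat) : Prop := ∀ v ∈ 𝔇.fz, pos v ∈ π.Yin → v ∈ 𝔇.fzY

theorem pvc3_fr_agree (y : V → Bool) : PvwAgree 𝔇.fzY (pvtfFr 𝔇.fzY 𝔇.col y) 𝔇.col := fun _ hv => pvtf_fr_mem hv _ _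

/-- freezing `D` or freezing `D_Y` is the same for whoever reads `D_Y` and `YCL`      (Defs v2: `Clean` is no longer used, `Ok.off_y` does the work; the argument is kept for the callers) -/
theorem pvc3_fr_fr (hOk : 𝔇.Ok pos N h π) (hcl : 𝔇.Clean pos π) (y : V → Bool) :
    ∀ v, v ∈ 𝔇.fzY ∨ v ∈ 𝔇.YCL pos π → pvtfFr 𝔇.fz 𝔇.pre y v = pvtfFr 𝔇.fzY 𝔇.col y v := by
  have h1 : ∀ v ∈ 𝔇.fzY, pvtfFr 𝔇.fz 𝔇.pre y v = pvtfFr 𝔇.fzY 𝔇.col y v := fun v hv => by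
    rw [pvtf_fr_mem (pvc3_fzY_sub_fz hv), pvtf_fr_mem hv, pvc3_pre_st hOk hv]
  rintro v (hv | hv)
  · exact h1 v hv
  · rw [pvtf_fr_notMem (pvc3_ycl_fresh hOk hv), pvtf_fr_notMem (pvc3_ycl_raw hv).1]

/-- **`P(SY | D) = P(SY | D_Y)`** -/
theorem pvc3_sy_PDY [Countable V] (hOk : 𝔇.Ok pos N h π) (hcl : 𝔇.Clean pos π) : 𝔇.PD {σ | 𝔇.SY pos π σ} = 𝔇.PDY {σ | 𝔇.SY pos π σ} := by
  unfold PvwDat.PD PvwDat.PDY
  rw [pvtf_PD_apply _ _ pvc3_sy_meas, pvtf_PD_apply _ _ pvc3_sy_meas]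
  congr 1
  ext y
  exact pvc3_sy_congr (pvc3_stubs hOk) (pvc3_fr_agree y) (pvc3_fr_fr hOk hcl y)

/-- **`ŷ(D) = E[Y | SY, D_Y]`** -/
theorem pvc3_yhat_PDY [Countable V] (hOk : 𝔇.Ok pos N h π) (hcl : 𝔇.Clean pos π) (w : D → ℂ) :
    𝔇.yhat pos w N h π = ⨍ σ in {σ | 𝔇.SY pos π σ}, 𝔇.Y pos w N h π σ ∂𝔇.PDY := by
  have e : ∀ S : Set V, ∀ c : V → Bool, ∫ σ in {σ | 𝔇.SY pos π σ}, 𝔇.Y pos w N h π σ ∂pvtfPD S c
      = ∫ y, ({σ | 𝔇.SY pos π σ} : Set (V → Bool)).indicator (𝔇.Y pos w N h π) (pvtfFr S c y) ∂colLaw V := by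
    intro S c
    rw [← integral_indicator pvc3_sy_meas]
    unfold pvtfPD
    rw [integral_map (pvtf_measurable_fr S c).aemeasurable (((pvc3_Y_meas w).indicator pvc3_sy_meas).aestronglyMeasurable)]
  unfold PvwDat.yhat
  rw [setAverage_eq, setAverage_eq]
  have e1 : 𝔇.PD.real {σ | 𝔇.SY pos π σ} = 𝔇.PDY.real {σ | 𝔇.SY pos π σ} := by
    unfold Measure.real; rw [pvc3_sy_PDY hOk hcl]
  rw [e1]
  congr 1
  unfold PvwDat.PD PvwDat.PDY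
  rw [e, e]
  refine integral_congr_ae (Filter.Eventually.of_forall fun y => ?_)
  have h1 := pvc3_sy_congr (pvc3_stubs hOk) (pvc3_fr_agree y) (pvc3_fr_fr hOk hcl y)
  have h2 := pvc3_Y_congr (N := N) (h := h) (pvc3_stubs hOk) w (pvc3_fr_agree y) (pvc3_fr_fr hOk hcl y)
  show ({σ | 𝔇.SY pos π σ} : Set (V → Bool)).indicator (𝔇.Y pos w N h π) (pvtfFr 𝔇.fz 𝔇.pre y)
    = ({σ | 𝔇.SY pos π σ} : Set (V → Bool)).indicator (𝔇.Y pos w N h π) (pvtfFr 𝔇.fzY 𝔇.col y)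
  by_cases hs : 𝔇.SY pos π (pvtfFr 𝔇.fzY 𝔇.col y)
  · rw [indicator_of_mem (show _ ∈ {σ | 𝔇.SY pos π σ} from hs), indicator_of_mem (show _ ∈ {σ | 𝔇.SY pos π σ} from h1.2 hs), h2]
  · rw [indicator_of_notMem (show _ ∉ {σ | 𝔇.SY pos π σ} from hs), indicator_of_notMem (show _ ∉ {σ | 𝔇.SY pos π σ} from fun hh => hs (h1.1 hh))]

/-- two data with the same pins and the same prescription on `D_Y` (ANY arcs `g₀`) have the same `P(SY | D_Y)` and the same `ŷ` -/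
theorem pvc3_DY_congr {𝔇' : PvwDat T} (hs : 𝔇'.s = 𝔇.s) (ht : 𝔇'.t = 𝔇.t) (hcol : PvwAgree 𝔇.fzY 𝔇'.col 𝔇.col) (w : D → ℂ) :
    𝔇'.PDY = 𝔇.PDY ∧ (∀ σ, 𝔇'.SY pos π σ ↔ 𝔇.SY pos π σ) ∧ ∀ σ, 𝔇'.Y pos w N h π σ = 𝔇.Y pos w N h π σ := by
  have hfz : 𝔇'.fzY = 𝔇.fzY := by unfold PvwDat.fzY; rw [hs, ht]
  have hycl : 𝔇'.YCL pos π = 𝔇.YCL pos π := by unfold PvwDat.YCL PvwDat.Yraw; rw [hfz, hs, ht]
  have hn : ∀ σ n, 𝔇'.SYn pos π σ n ↔ 𝔇.SYn pos π σ n := by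
    intro σ n; unfold PvwDat.SYn; rw [hs, ht, hycl, hfz]
  have ha : ∀ σ y, 𝔇'.YArc pos π σ y ↔ 𝔇.YArc pos π σ y := by
    intro σ y; unfold PvwDat.YArc
    refine exists_congr fun n => ?_
    rw [hn σ n, ht]
  have hY : ∀ y, 𝔇'.Yof pos w N h π y = 𝔇.Yof pos w N h π y := by
    intro y; unfold PvwDat.Yof; rw [hs, ht]
  refine ⟨?_, fun σ => exists_congr fun n => hn σ n, fun σ => ?_⟩
  · unfold PvwDat.PDY pvtfPD
    rw [hfz]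
    congr 1
    funext y v
    by_cases hv : v ∈ 𝔇.fzY
    · rw [pvtf_fr_mem hv, pvtf_fr_mem hv, hcol v hv]
    · rw [pvtf_fr_notMem hv, pvtf_fr_notMem hv]
  · rw [pvc3_Y_eq, pvc3_Y_eq]
    have e1 : (fun y => 𝔇'.YArc pos π σ y) = fun y => 𝔇.YArc pos π σ y := funext fun y => propext (ha σ y)
    rw [e1]
    unfold pvc3YF
    split_ifs with hy
    · exact hY _
    · rfl

/-- **`ŷ` IS A FUNCTION OF `D_Y`**: the arc `g₀` does not matter -/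
theorem pvc3_yhat_congr [Countable V] {𝔇' : PvwDat T} (hOk : 𝔇.Ok pos N h π) (hOk' : 𝔇'.Ok pos N h π) (hcl : 𝔇.Clean pos π) (hcl' : 𝔇'.Clean pos π)
    (hs : 𝔇'.s = 𝔇.s) (ht : 𝔇'.t = 𝔇.t) (hcol : PvwAgree 𝔇.fzY 𝔇'.col 𝔇.col) (w : D → ℂ) : 𝔇'.yhat pos w N h π = 𝔇.yhat pos w N h π := by
  obtain ⟨h1, h2, h3⟩ := pvc3_DY_congr (pos := pos) (N := N) (h := h) (π := π) hs ht hcol w
  rw [pvc3_yhat_PDY hOk hcl, pvc3_yhat_PDY hOk' hcl', h1]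
  have e1 : {σ | 𝔇'.SY pos π σ} = {σ | 𝔇.SY pos π σ} := by ext σ; exact h2 σ
  have e2 : 𝔇'.Y pos w N h π = 𝔇.Y pos w N h π := funext h3
  rw [e1, e2]

theorem pvc3_eqns_cite : True := by
  have := @PvwDat.PDY.eq_1; have := @PvwDat.Clean.eq_1
  have := @Pvc3Loc.eq_1; have := @PvwDat.pre.eq_1; have := @pvc3YF.eq_1; have := @pvc3Win.eq_1; have := @pvc3Two.eq_1; have := @PvwDat.toTf.eq_1
  have := @PvwDat.PD.eq_1; have := @PvwDat.yhat.eq_1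
  trivial

end Claimed.Agent.R289
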