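-- KEEP
import Claimed.Agent.R289.Exit.N1
import Claimed.Agent.R289.Tr.C2Dom
import Claimed.Agent.R289.Tr.AtUniq
import Claimed.Agent.R289.Tr.DatC3
import Claimed.Agent.R289.Tr.ModelApi

/-!
# Row 289 (S0537), THE WALL, ROAD E, file Tr/StabE : THE `X` SIDE OF THE KIT OF `n1` AT THE MODEL      (helper27, post of 24 id 80345: fields `stab stabW fin dis cnt`; prefix `pvhq`, `Pvhq`)

WHERE.   `Exit/N1.lean` (170): `stab stabW fin dis cnt hq` of `PvdmSys.Hyp` are PROVED at `pvxnSys` for ANY kit `𝔎 : PvxnKit` from the kit fields `E_mono W_mono` (`PvxnOk`);   `Exit/N1B.lean` (60): `act` from `Pvn1bKit` (`c1 sub fin far uni`).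
THIS FILE = the events of record (RULING W-5 (2) of 208, 10:47Z) as DEFINITIONS + these kit fields PROVED for them.
* sec. 1  (any map `T`, positions `pos`)   `pvhqM` `= NU ∩ patch`,   `PvhqE` `= NBon M` (sector form, 145 / 78),   `PvhqCirc` (white circuit in `A(x; 5R, 6R)` round `closedBall x (5R)`, in the form consumed by `pvc4_C2on_circuit` of 78),
          `PvhqW` `= WO ∩ circuit`,   `pvhqN` = the read sites `= fz ∪ M ∪ {over Yout} ∪ {annulus}`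
* sec. 2  (C3):   `pvhq_E_anti`, `pvhq_W_anti` (decreasing in black, read on `N` only), `pvhq_E_congr`, `pvhq_W_congr`;   `pvhq_circ_of_round` (constructor for the producers of the circuit: `VOf` form)
* sec. 3  the data of one colouring: `PvhqSame 𝔇 𝔇'` (same half states), `pvhq_same` (from `Ok` + `Cyl` twice: `pvuq_atOut`, `pvuq_atIn` of 150), `fzY YCL YC0 NU XCL WO` agree
* sec. 4  **`pvhqKit x R π C r q : PvxnKit`**;   `pvhq_E_mono`, `pvhq_W_mono` = the fields of `PvxnOk` VERBATIM;   `pvhq_sub`, `pvhq_fin`, `pvhq_uni`, `pvhq_far` = the fields of `Pvn1bKit`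
-/

set_option autoImplicit false

namespace Claimed.Agent.R289

open Set Claims.C0465
open scoped ENNReal

/-! ## 1. the events of record -/

section defs

variable {V D : Type} {T : PvMap V D}

/-- **`M = NU ∩ patch`**: the sites which `E(D)` may read -/
def pvhqM (𝔇 : PvwDat T) (pos : V → ℂ) (π : PvwPat) (x : ℂ) (R : ℝ) : Set V := {v | v ∈ 𝔇.NU pos π ∧ ‖pos v - x‖ ≤ 6 * R}

/-- **`E(D)` AT THE MODEL** = the sector form on `M`;   v2 (29, 11:30Z): + the POSITION clause `g₀ ⊆ closedBall x (5R)` (no colour: free for (C3), `uni`, `rd`;   needed by `hCg` of `pvc4_ring_nu`) -/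
def PvhqE (𝔇 : PvwDat T) (pos : V → ℂ) (π : PvwPat) (x : ℂ) (R : ℝ) (σ : V → Bool) : Prop :=
  𝔇.NBon (pvhqM 𝔇 pos π x R) σ ∧ ∀ v ∈ 𝔇.g.verts, ‖pos v - x‖ ≤ 5 * R

/-- a WHITE CIRCUIT in the annulus `A(x; 5R, 6R)` round `closedBall x (5R)` -/
def PvhqCirc (T : PvMap V D) (pos : V → ℂ) (x : ℂ) (R : ℝ) (σ : V → Bool) : Prop :=
  ∃ C : T.Cyc, C.Left.Finite ∧ (∀ v ∈ C.verts, σ v = false ∧ 5 * R < ‖pos v - x‖ ∧ ‖pos v - x‖ ≤ 6 * R) ∧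
    (∀ v, ‖pos v - x‖ ≤ 5 * R → v ∈ T.Int C.Left) ∧ ∀ v ∈ T.Int C.Left, ‖pos v - x‖ ≤ 6 * R

/-- **`W(D)` AT THE MODEL** `= WO(D) ∩ {white circuit}` -/
def PvhqW (𝔇 : PvwDat T) (pos : V → ℂ) (π : PvwPat) (x : ℂ) (R : ℝ) (σ : V → Bool) : Prop := 𝔇.WO pos π σ ∧ PvhqCirc T pos x R σ

/-- **THE READ SITES** of the `X` side -/
def pvhqN (𝔇 : PvwDat T) (pos : V → ℂ) (π : PvwPat) (x : ℂ) (R : ℝ) : Set V :=
  𝔇.fz ∪ pvhqM 𝔇 pos π x R ∪ {v | pos v ∈ π.Yout} ∪ {v | 5 * R < ‖pos v - x‖ ∧ ‖pos v - x‖ ≤ 6 * R}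

theorem pvhq_eqns_cite : True := by
  have := @pvhqM.eq_1; have := @PvhqE.eq_1; have := @PvhqCirc.eq_1; have := @PvhqW.eq_1; have := @pvhqN.eq_1
  trivial

end defs

/-! ## 2. (C3) -/

section c3

variable {V D : Type} {T : PvMap V D} {𝔇 : PvwDat T} {pos : V → ℂ} {π : PvwPat} {x : ℂ} {R : ℝ} {σ σ' : V → Bool}

theorem pvhq_fz_sub_N : 𝔇.fz ⊆ pvhqN 𝔇 pos π x R := fun _ hv => Or.inl (Or.inl (Or.inl hv))

theorem pvhq_M_sub_N : pvhqM 𝔇 pos π x R ⊆ pvhqN 𝔇 pos π x R := fun _ hv => Or.inl (Or.inl (Or.inr hv))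

theorem pvhq_le_true {a b : Bool} (h : a ≤ b) (ha : a = true) : b = true := by
  subst ha
  exact Bool.eq_true_of_true_le h

theorem pvhq_le_false {a b : Bool} (h : a ≤ b) (hb : b = false) : a = false := by
  subst hb
  exact Bool.eq_false_of_le_false h

/-- `E(D)` is DECREASING in black and reads `M` (off `g₀`) only -/
theorem pvhq_E_anti (h : ∀ v ∈ pvhqM 𝔇 pos π x R, σ' v ≤ σ v) (hE : PvhqE 𝔇 pos π x R σ) : PvhqE 𝔇 pos π x R σ' :=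
  ⟨pvc4_nbon_anti 𝔇 (fun v hv _ hb => pvhq_le_true (h v hv) hb) hE.1, hE.2⟩

theorem pvhq_E_congr (h : ∀ v ∈ pvhqM 𝔇 pos π x R, σ' v = σ v) : PvhqE 𝔇 pos π x R σ' ↔ PvhqE 𝔇 pos π x R σ :=
  ⟨pvhq_E_anti fun v hv => (h v hv).symm.le, pvhq_E_anti fun v hv => (h v hv).le⟩

/-- the white circuit is DECREASING in black and reads the annulus only -/
theorem pvhq_circ_anti (h : ∀ v, 5 * R < ‖pos v - x‖ → ‖pos v - x‖ ≤ 6 * R → σ' v ≤ σ v) (hC : PvhqCirc T pos x R σ) : PvhqCirc T pos x R σ' := by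
  obtain ⟨C, h1, h2, h3, h4⟩ := hC
  exact ⟨C, h1, fun v hv => ⟨pvhq_le_false (h v (h2 v hv).2.1 (h2 v hv).2.2) (h2 v hv).1, (h2 v hv).2⟩, h3, h4⟩

/-- `WO(D)` is DECREASING in black and reads the sites over `Yout` only -/
theorem pvhq_WO_anti (h : ∀ v, pos v ∈ π.Yout → σ' v ≤ σ v) (hW : 𝔇.WO pos π σ) : 𝔇.WO pos π σ' := by
  obtain ⟨q, h1, h2, h3⟩ := hW
  exact ⟨q, h1, h2, fun y hy => ⟨pvhq_le_false (h y (h3 y hy).2.1) (h3 y hy).1, (h3 y hy).2⟩⟩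

/-- `W(D)` is DECREASING in black and reads `N` only -/
theorem pvhq_W_anti (h : ∀ v ∈ pvhqN 𝔇 pos π x R, σ' v ≤ σ v) (hW : PvhqW 𝔇 pos π x R σ) : PvhqW 𝔇 pos π x R σ' :=
  ⟨pvhq_WO_anti (fun v hv => h v (Or.inl (Or.inr hv))) hW.1, pvhq_circ_anti (fun v h1 h2 => h v (Or.inr ⟨h1, h2⟩)) hW.2⟩

theorem pvhq_W_congr (h : ∀ v ∈ pvhqN 𝔇 pos π x R, σ' v = σ v) : PvhqW 𝔇 pos π x R σ' ↔ PvhqW 𝔇 pos π x R σ :=
  ⟨pvhq_W_anti fun v hv => (h v hv).symm.le, pvhq_W_anti fun v hv => (h v hv).le⟩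

/-- CONSTRUCTOR for the producers of the circuit (QBX / RSW): the `round` and `inside` clauses in the `VOf` form of `PvwSt.Gate` -/
theorem pvhq_circ_of_round (hT : T.IsSph) (C : T.Cyc) (hf : C.Left.Finite) (hv : ∀ v ∈ C.verts, σ v = false ∧ 5 * R < ‖pos v - x‖ ∧ ‖pos v - x‖ ≤ 6 * R)
    (hr : ∀ v, ‖pos v - x‖ ≤ 5 * R → v ∈ T.VOf C.Left) (hi : ∀ v ∈ T.VOf C.Left, ‖pos v - x‖ ≤ 6 * R) : PvhqCirc T pos x R σ := by
  refine ⟨C, hf, hv, fun v h5 => ?_, fun v hvI => ?_⟩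
  · rcases pl_jordan_vert hT C v with h | h | h
    · exact absurd h5 (not_le.2 (hv v h).2.1)
    · exact h
    · obtain ⟨d, hd, rfl⟩ := hr v h5
      obtain ⟨hR, -, -, -⟩ := pl_jordan hT C
      have h1 := h d rfl
      rw [hR] at h1
      exact absurd hd h1
  · obtain ⟨d, hd⟩ := pl_cyc_dart_at hT C v
    exact hi v ⟨d, hvI d hd, hd⟩

end c3

/-! ## 3. the data of one colouring -/

section same

variable {V D : Type} {T : PvMap V D}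

/-- the two data have the same half states `Σ_out(t)`, `Σ_in(s)` (in the sense of 150: everything a consumer sees) -/
structure PvhqSame (𝔇 𝔇' : PvwDat T) : Prop where
  tg : PvuqG 𝔇.t 𝔇'.t
  tp : PvuqP 𝔇.t 𝔇'.t
  sg : PvuqG 𝔇.s 𝔇'.s
  sm : PvuqM 𝔇.s 𝔇'.s

variable {𝔇 𝔇' : PvwDat T} {pos : V → ℂ} {π : PvwPat} {x : ℂ} {R : ℝ} {σ : V → Bool}

theorem PvhqSame.symm (h : PvhqSame 𝔇 𝔇') : PvhqSame 𝔇' 𝔇 := ⟨h.tg.symm, h.tp.symm, h.sg.symm, h.sm.symm⟩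

theorem PvhqSame.fzY (h : PvhqSame 𝔇 𝔇') : 𝔇.fzY = 𝔇'.fzY := by
  unfold PvwDat.fzY
  rw [h.tg.fzOut h.tp, h.sg.fzIn h.sm]

theorem PvhqSame.Yraw (h : PvhqSame 𝔇 𝔇') (pos : V → ℂ) (π : PvwPat) : 𝔇.Yraw pos π = 𝔇'.Yraw pos π := by
  unfold PvwDat.Yraw
  rw [h.fzY]

theorem PvhqSame.YCL (h : PvhqSame 𝔇 𝔇') (pos : V → ℂ) (π : PvwPat) : 𝔇.YCL pos π = 𝔇'.YCL pos π := by
  unfold PvwDat.YCL
  rw [h.Yraw, h.tp.ap, h.sm.am]

theorem PvhqSame.Yr0 (h : PvhqSame 𝔇 𝔇') (pos : V → ℂ) (π : PvwPat) : 𝔇.Yr0 pos π = 𝔇'.Yr0 pos π := by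
  unfold PvwDat.Yr0
  rw [h.Yraw]

theorem PvhqSame.YC0 (h : PvhqSame 𝔇 𝔇') (pos : V → ℂ) (π : PvwPat) : 𝔇.YC0 pos π = 𝔇'.YC0 pos π := by
  unfold PvwDat.YC0
  rw [h.Yr0, h.tp.ap, h.sm.am]

theorem PvhqSame.NU (h : PvhqSame 𝔇 𝔇') (pos : V → ℂ) (π : PvwPat) : 𝔇.NU pos π = 𝔇'.NU pos π := by
  unfold PvwDat.NU
  rw [h.YC0]

theorem PvhqSame.M (h : PvhqSame 𝔇 𝔇') (pos : V → ℂ) (π : PvwPat) (x : ℂ) (R : ℝ) : pvhqM 𝔇 pos π x R = pvhqM 𝔇' pos π x R := by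
  unfold pvhqM
  rw [h.NU]

theorem PvhqSame.XCL (h : PvhqSame 𝔇 𝔇') (hfz : 𝔇.fz = 𝔇'.fz) (pos : V → ℂ) (π : PvwPat) : 𝔇.XCL pos π = 𝔇'.XCL pos π := by
  unfold PvwDat.XCL
  rw [h.YCL, hfz]

theorem PvhqSame.N (h : PvhqSame 𝔇 𝔇') (hfz : 𝔇.fz = 𝔇'.fz) (pos : V → ℂ) (π : PvwPat) (x : ℂ) (R : ℝ) : pvhqN 𝔇 pos π x R = pvhqN 𝔇' pos π x R := by
  unfold pvhqN
  rw [h.M, hfz]

theorem PvhqSame.WO (h : PvhqSame 𝔇 𝔇') (hfz : 𝔇.fz = 𝔇'.fz) : 𝔇.WO pos π σ ↔ 𝔇'.WO pos π σ := by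
  unfold PvwDat.WO
  rw [h.tp.whP, h.sm.whM, h.XCL hfz]

theorem PvhqSame.W (h : PvhqSame 𝔇 𝔇') (hfz : 𝔇.fz = 𝔇'.fz) : PvhqW 𝔇 pos π x R σ ↔ PvhqW 𝔇' pos π x R σ := by
  unfold PvhqW
  rw [h.WO hfz]

/-- **two data, well formed for one pattern, whose cylinders contain one colouring, have the same half states** -/
theorem pvhq_same (hT : T.IsSph) (hS : T.Simple) (hpos : Function.Injective pos) {N : PvwNum} {h : ℝ} (hOk : 𝔇.Ok pos N h π) (hOk' : 𝔇'.Ok pos N h π)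
    (hσ : σ ∈ 𝔇.Cyl) (hσ' : σ ∈ 𝔇'.Cyl) : PvhqSame 𝔇 𝔇' := by
  have a1 : 𝔇.t.AtOut pos N h π.zt π.tt σ := pvwk_atOut_congr hT hOk.st_t fun v hv => (hσ.1 v (Or.inl hv)).symm
  have a2 : 𝔇'.t.AtOut pos N h π.zt π.tt σ := pvwk_atOut_congr hT hOk'.st_t fun v hv => (hσ'.1 v (Or.inl hv)).symm
  have b1 : 𝔇.s.AtIn pos N h π.zs π.ts σ := pvwk_atIn_congr hT hOk.st_s fun v hv => (hσ.1 v (Or.inr hv)).symm
  have b2 : 𝔇'.s.AtIn pos N h π.zs π.ts σ := pvwk_atIn_congr hT hOk'.st_s fun v hv => (hσ'.1 v (Or.inr hv)).symm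
  obtain ⟨c1, c2⟩ := pvuq_atOut hT hS hpos a1 a2
  obtain ⟨d1, d2⟩ := pvuq_atIn hT hS hpos b1 b2
  exact ⟨c1, c2, d1, d2⟩

end same

/-! ## 4. the kit -/

section kit

/-- **THE `X` SIDE OF THE KIT AT THE MODEL**: patch `(x,R)`, regions `π₀ = 𝔓.reg m π`;   `C r q` stay free (annealed region and mesh of its collar: 29 168;   `q = q_W`: 35) -/
noncomputable def pvhqKit (x : ℂ) (R : ℝ) (π₀ : PvwPat) (C : Set ℂ) (r : ℝ) (q : ℝ≥0∞) : PvxnKit where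
  C := C
  r := r
  E _ 𝔇 σ := PvhqE 𝔇 Subtype.val π₀ x R σ
  W _ 𝔇 σ := PvhqW 𝔇 Subtype.val π₀ x R σ
  N _ 𝔇 := pvhqN 𝔇 Subtype.val π₀ x R
  B := Metric.closedBall x (6 * R)
  mB := Metric.isClosed_closedBall.measurableSet
  q := q

theorem pvhq_kit_cite : True := by
  have := @pvhqKit.eq_1
  trivial

variable {τ : Type} {c : ℝ} (𝔓 : PvxPar τ c) (x : ℂ) (R : ℝ) (m : ℕ) (π : PvxIx τ) (a : ℂ) (π₀ : PvwPat) (C : Set ℂ) (r : ℝ) (q : ℝ≥0∞)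

/-- **the field `E_mono` of `PvxnOk`, VERBATIM** -/
theorem pvhq_E_mono : ∀ (Y : Set ℂ) (𝔇 : PvwDat (delbPl Y).toMap) (σ σ' : ↥Y → Bool), DelGood Y → 𝔇.Ok Subtype.val 𝔓.num (pvlmH m) (𝔓.reg m π) → σ ∈ 𝔇.Cyl →
    (∀ v ∈ 𝔇.fz, σ' v = σ v) → (∀ v ∈ (pvhqKit x R π₀ C r q).N Y 𝔇, σ' v ≤ σ v) → (pvhqKit x R π₀ C r q).E Y 𝔇 σ → (pvhqKit x R π₀ C r q).E Y 𝔇 σ' :=
  fun _ _ _ _ _ _ _ _ h hE => pvhq_E_anti (fun v hv => h v (pvhq_M_sub_N hv)) hE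

/-- **the field `W_mono` of `PvxnOk`, VERBATIM** -/
theorem pvhq_W_mono : ∀ (Y : Set ℂ) (𝔇 : PvwDat (delbPl Y).toMap) (σ σ' : ↥Y → Bool), DelGood Y → 𝔇.Ok Subtype.val 𝔓.num (pvlmH m) (𝔓.reg m π) → σ ∈ 𝔇.Cyl →
    (∀ v ∈ 𝔇.fz, σ' v = σ v) → (∀ v ∈ (pvhqKit x R π₀ C r q).N Y 𝔇, σ' v ≤ σ v) → (pvhqKit x R π₀ C r q).W Y 𝔇 σ → (pvhqKit x R π₀ C r q).W Y 𝔇 σ' :=
  fun _ _ _ _ _ _ _ _ h hW => pvhq_W_anti h hW

/-- the read sites are finitely many: frozen sites of a well formed datum + sites of a bounded window -/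
theorem pvhq_N_finite {Y : Set ℂ} (hY : DelGood Y) {𝔇 : PvwDat (delbPl Y).toMap} {N : PvwNum} {h : ℝ} {π₁ : PvwPat} (hOk : 𝔇.Ok Subtype.val N h π₁)
    (hb : Bornology.IsBounded π₀.Yout) : (pvhqN 𝔇 Subtype.val π₀ x R).Finite := by
  have hw : {v : ↥Y | ‖(v : ℂ) - x‖ ≤ 6 * R}.Finite :=
    (pvmo_fin_window hY.lf (Metric.isBounded_closedBall (x := x) (r := 6 * R))).subset fun v hv => mem_closedBall_iff_norm.2 hv
  refine (((pvc3_fz_finite hOk).union (hw.subset fun v hv => hv.2)).union (pvmo_fin_window hY.lf hb)).union (hw.subset fun v hv => hv.2)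

/-- the read sites are FAR from the annealed region `C`: `hcol` = the collared lanes contain the `3r`-neighbourhood of `C`;   `hann` = they lie in `closedBall x (5R)`;   `hfz` = the frozen sites of the two half states are not over the collared lanes (hulls of the index: 168 84) -/
theorem pvhq_N_far {Y : Set ℂ} {𝔇 : PvwDat (delbPl Y).toMap} {N : PvwNum} {h : ℝ} (hOk : 𝔇.Ok Subtype.val N h π₀) (hW : π₀.Wf)
    (hcol : ∀ z, z ∉ π₀.Ycol → z ∈ pvgeFar C r) (hann : ∀ z ∈ π₀.Ycol, ‖z - x‖ ≤ 5 * R) (hfz : ∀ v ∈ 𝔇.fzY, (v : ℂ) ∉ π₀.Ycol) :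
    ∀ v ∈ pvhqN 𝔇 Subtype.val π₀ x R, (v : ℂ) ∈ pvgeFar C r := by
  intro v hv
  refine hcol _ ?_
  rcases hv with ((((hv | hv) | hv) | hv) | hv) | hv
  · exact hfz v hv
  · exact (hOk.off_y v (Or.inl hv)).2
  · exact (hOk.off_y v (Or.inr hv)).2
  · exact hv.1.2
  · exact fun hc => Set.disjoint_left.1 hW.col hc hv
  · exact fun hc => absurd (hann _ hc) (not_le.2 hv.1)

/-- **the field `uni` of `Pvn1bKit`, VERBATIM**: all the data of one index have the same `W` -/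
theorem pvhq_uni : ∀ (Y : Set ℂ) (i : PvxnIx) (σ : ↥Y → Bool) (𝔇 𝔇' : PvwDat (delbPl Y).toMap), DelGood Y → PvxnWit 𝔓 m π a (pvhqKit x R π₀ C r q) Y i σ 𝔇 →
    PvxnWit 𝔓 m π a (pvhqKit x R π₀ C r q) Y i σ 𝔇' → ∀ τ' : ↥Y → Bool, (pvhqKit x R π₀ C r q).W Y 𝔇' τ' → (pvhqKit x R π₀ C r q).W Y 𝔇 τ' := by
  intro Y i σ 𝔇 𝔇' hY h h' τ' hW
  have hs := pvhq_same (pvmo_sph hY) (pvmo_simple Y) Subtype.val_injective h.ok h'.ok h.cyl h'.cyl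
  have hfz : 𝔇.fz = 𝔇'.fz := Subtype.val_injective.image_injective (h.labF.trans h'.labF.symm)
  exact (hs.W hfz).2 hW

/-- the field `sub` of `Pvn1bKit` -/
theorem pvhq_sub (Y : Set ℂ) (𝔇 : PvwDat (delbPl Y).toMap) : 𝔇.fz ⊆ (pvhqKit x R π₀ C r q).N Y 𝔇 := pvhq_fz_sub_N

end kit

end Claimed.Agent.R289
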