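import Claimed.Agent.R289.Exit.N1B
import Claimed.Agent.R289.Tr.PatchQ
import Claimed.Agent.R289.Tr.StabE
import Claimed.Agent.R289.Tr.ForceW

/-!
# Row 289 (S0537, Cardy for Poisson-Voronoi), THE WALL, road E, file Tr/PatchH : E6 FOR THE KIT OF RECORD `pvhqKit` (27, `Tr/StabE`): THE CIRCUIT HALF OF `P(W | D) ≥ q` AND HARRIS      (helper130; prefix `pve6h_`)

`PvhqW = WO ∩ PvhqCirc`.      Consumers: `Pvn1bQbx` (60 `Exit/N1B`), 5 (`Exit/N1Q`), 155 (`Tr/HookWM`): THEY OWE ONLY `q₁ ≤ colLaw ℂ {κ | 𝔇.WO .. (mixed colouring)}`.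
* `pve6h_circ`          a white circuit `Pve6qCirc Y x r r'`, `5R ≤ r`, `r' ≤ 6R`, is a `PvhqCirc`
* **`pve6h_circ_col`**  on the frame `Pve6qFrame q x R Y` (probability `→ 1`: `pve6q_frame`, `pve6q_frame_geo`): `ofReal q ≤ colLaw ℂ {κ | PvhqCirc .. (pvdmOv Fᶜ κ σ)}`, any frozen set `F ⊆ closedBall x (21R/4)`, any colours on it
* **`pve6h_harris`**    `colLaw{WO mixed} * colLaw{PvhqCirc mixed} ≤ colLaw{PvhqW mixed}`   (both decreasing in black, read on the finitely many sites of `closedBall x (6R)`; `pvfw_harris` of 103)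
* **`pve6h_W_col`**     frame + `q₁ ≤ colLaw{WO mixed}` ⟹ `q₁ * ofReal q ≤ colLaw{PvhqW mixed}`
* `pve6h_fz_abs`, **`pve6h_fz_in`**      the frozen sites lie in `closedBall x (21R/4)`: the hypothesis `hFin` at `F = val '' 𝔇.fz`
WARNING: `F ⊆ closedBall x (21R/4)` needs `g₀ ⊆ closedBall x (5R)` + mesh `≤ R/4` (right apexes) + (b2) of `pvxPatSet` (half states within `4R`).      `PvxnWit` does NOT place `g₀`: see my defect report on `Pvn1bQbx` (11:48Z).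
-/

set_option autoImplicit false

namespace Claimed.Agent.R289

open MeasureTheory Set Claims.C0465
open scoped ENNReal

variable {Y : Set ℂ} {x : ℂ} {R q : ℝ}

/-- a white circuit of E6 is a circuit of the kit of record -/
theorem pve6h_circ (hd : DelGood Y) {r r' : ℝ} (hr : 5 * R ≤ r) (hr' : r' ≤ 6 * R) {σ : ↥Y → Bool} (h : Pve6qCirc Y x r r' σ) : PvhqCirc (delbPl Y).toMap Subtype.val x R σ := by
  have hT : (delbPl Y).toMap.IsSph := delb_plane_isSph hd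
  obtain ⟨w, hw, hwc⟩ := h
  refine ⟨w, hw.fin, fun v hv => ⟨hwc v hv, ?_, ?_⟩, fun v hv => hw.inn v (hv.trans hr), fun v hv => ?_⟩
  · by_contra h2
    exact Set.disjoint_left.1 (pl_jordan_vert_disj hT w).1 hv (hw.inn v ((not_lt.1 h2).trans hr))
  · exact ((hw.out v (by rw [pl_VOf_left hT w]; exact Or.inl hv)).le).trans hr'
  · exact ((hw.out v (by rw [pl_VOf_left hT w]; exact Or.inr hv)).le).trans hr'

/-- **THE CONDITIONAL PROBABILITY OF THE CIRCUIT OF THE KIT OF RECORD** -/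
theorem pve6h_circ_col (hR : 0 < R) (hF : Pve6qFrame q x R Y) (F : Set ℂ) (hFin : ∀ z ∈ F, ‖z - x‖ ≤ 21 / 4 * R) (σ : ℂ → Bool) :
    ENNReal.ofReal q ≤ colLaw ℂ {κ | PvhqCirc (delbPl Y).toMap Subtype.val x R (fun v : ↥Y => pvdmOv Fᶜ κ σ v)} :=
  (pve6q_circ_col (μ := 0) hR (by positivity) hF F hFin σ).trans (measure_mono fun _ hκ => pve6h_circ hF.1 (by linarith) (by linarith) hκ)

/-- **HARRIS GIVEN THE FROZEN COLOURS** -/
theorem pve6h_harris (hd : DelGood Y) (𝔇 : PvwDat (delbPl Y).toMap) {π : PvwPat} (hYout : π.Yout ⊆ Metric.closedBall x (6 * R)) (F : Set ℂ) (σ : ℂ → Bool) :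
    colLaw ℂ {κ | 𝔇.WO Subtype.val π (fun v : ↥Y => pvdmOv Fᶜ κ σ v)} * colLaw ℂ {κ | PvhqCirc (delbPl Y).toMap Subtype.val x R (fun v : ↥Y => pvdmOv Fᶜ κ σ v)} ≤
      colLaw ℂ {κ | PvhqW 𝔇 Subtype.val π x R (fun v : ↥Y => pvdmOv Fᶜ κ σ v)} := by
  classical
  have hfin : (Subtype.val '' pve6qK Y x (6 * R)).Finite := (pve6q_K_fin hd x (6 * R)).image _
  set T : Finset ℂ := hfin.toFinset with hTdef
  have hT : ∀ v : ↥Y, ‖(v : ℂ) - x‖ ≤ 6 * R → (v : ℂ) ∈ (T : Set ℂ) := by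
    intro v hv
    rw [hTdef, Set.Finite.coe_toFinset]
    exact ⟨v, hv, rfl⟩
  let A : Set (ℂ → Bool) := {s | 𝔇.WO Subtype.val π (fun v : ↥Y => s v)}
  let B : Set (ℂ → Bool) := {s | PvhqCirc (delbPl Y).toMap Subtype.val x R (fun v : ↥Y => s v)}
  have aA : ∀ s s' : ℂ → Bool, (∀ v : ↥Y, ‖(v : ℂ) - x‖ ≤ 6 * R → s' v ≤ s v) → s ∈ A → s' ∈ A := fun s s' h hs =>
    pvhq_WO_anti (fun v hv => h v (mem_closedBall_iff_norm.1 (hYout hv))) hs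
  have aB : ∀ s s' : ℂ → Bool, (∀ v : ↥Y, ‖(v : ℂ) - x‖ ≤ 6 * R → s' v ≤ s v) → s ∈ B → s' ∈ B := fun s s' h hs =>
    pvhq_circ_anti (fun v _ hv => h v hv) hs
  have rd : ∀ {E : Set (ℂ → Bool)}, (∀ s s' : ℂ → Bool, (∀ v : ↥Y, ‖(v : ℂ) - x‖ ≤ 6 * R → s' v ≤ s v) → s ∈ E → s' ∈ E) → PvfwReads (F ∪ T) E :=
    fun hE s s' e hs => hE s s' (fun v hv => (e v (Or.inr (hT v hv))).ge) hs
  have up : ∀ {E : Set (ℂ → Bool)}, (∀ s s' : ℂ → Bool, (∀ v : ↥Y, ‖(v : ℂ) - x‖ ≤ 6 * R → s' v ≤ s v) → s ∈ E → s' ∈ E) → PvfwUp false F σ E := by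
    intro E hE s s' _ _ e hs
    refine hE s s' (fun v _ => ?_) hs
    have := e v
    revert this
    cases s v <;> cases s' v <;> simp
  have key := pvfw_harris false F σ T (rd aA) (rd aB) (up aA) (up aB)
  have e : ∀ κ : ℂ → Bool, pvdmOv Fᶜ κ σ = pvfqMix F (σ, κ) := fun κ => by rw [pvfw_ov_eq, compl_compl]
  simp only [e]
  exact key

/-- **`P(W | D) ≥ q₁ q`** for the kit of record -/
theorem pve6h_W_col (hR : 0 < R) (hF : Pve6qFrame q x R Y) (𝔇 : PvwDat (delbPl Y).toMap) {π : PvwPat} (hYout : π.Yout ⊆ Metric.closedBall x (6 * R)) (F : Set ℂ)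
    (hFin : ∀ z ∈ F, ‖z - x‖ ≤ 21 / 4 * R) (σ : ℂ → Bool) {q₁ : ℝ≥0∞} (h₁ : q₁ ≤ colLaw ℂ {κ | 𝔇.WO Subtype.val π (fun v : ↥Y => pvdmOv Fᶜ κ σ v)}) :
    q₁ * ENNReal.ofReal q ≤ colLaw ℂ {κ | PvhqW 𝔇 Subtype.val π x R (fun v : ↥Y => pvdmOv Fᶜ κ σ v)} :=
  (mul_le_mul' h₁ (pve6h_circ_col hR hF F hFin σ)).trans (pve6h_harris hF.1 𝔇 hYout F σ)

/-! ## the frozen sites lie inside the frame -/

/-- the frozen sites of a datum: gate discs, boxes of the stubs, `g₀`, right apexes -/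
theorem pve6h_fz_abs {V D : Type} {T : PvMap V D} {pos : V → ℂ} {𝔇 : PvwDat T} {N : PvwNum} {h : ℝ} {π : PvwPat} (hok : 𝔇.Ok pos N h π) {ρ₀ : ℝ}
    (hs : ∀ w : ℂ, (‖w - π.zs‖ < π.ts.b * h ∨ w ∈ pvwSq π.zs (pvwRad N h π.ts π.ts.k)) → ‖w - x‖ ≤ ρ₀)
    (ht : ∀ w : ℂ, (‖w - π.zt‖ < π.tt.b * h ∨ w ∈ pvwSq π.zt (pvwRad N h π.tt π.tt.k)) → ‖w - x‖ ≤ ρ₀)
    (hg : ∀ v ∈ 𝔇.g.verts, ‖pos v - x‖ ≤ ρ₀) (hap : ∀ v ∈ 𝔇.apx, ‖pos v - x‖ ≤ ρ₀) : ∀ v ∈ 𝔇.fz, ‖pos v - x‖ ≤ ρ₀ := by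
  rintro v ((hv | hv) | hv)
  · rcases hv with hv | hv
    · rcases hv with (hv | ⟨i, hi, rfl⟩) | ⟨i, hi, rfl⟩
      · have h8 : v ∈ 𝔇.t.dsc := hv
        rw [hok.st_t.gate.dsc_eq] at h8
        exact ht _ (Or.inl h8)
      · exact ht _ (Or.inr (hok.st_t.stub.ep_in i hi).1)
      · exact ht _ (Or.inr (hok.st_t.stub.ep_in i hi).2)
    · rcases hv with (hv | ⟨i, hi, rfl⟩) | ⟨i, hi, rfl⟩
      · have h8 : v ∈ 𝔇.s.dsc := hv
        rw [hok.st_s.gate.dsc_eq] at h8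
        exact hs _ (Or.inl h8)
      · exact hs _ (Or.inr (hok.st_s.stub.em_in i hi).1)
      · exact hs _ (Or.inr (hok.st_s.stub.em_in i hi).2)
  · exact hg v hv
  · exact hap v hv

/-- **THE FROZEN SITES LIE INSIDE THE FRAME**: centres within `3R`, gate discs and boxes of radius `≤ 2R` (in norm), `g₀` within `5R`, mesh `≤ R/4` -/
theorem pve6h_fz_in (hR : 0 < R) {μ : ℝ} (hμ : μ ≤ R / 4) (hf : L9Fine Y (Metric.closedBall x (6 * R)) μ) {𝔇 : PvwDat (delbPl Y).toMap} {N : PvwNum} {h : ℝ} {π : PvwPat}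
    (hok : 𝔇.Ok Subtype.val N h π) (hzs : ‖π.zs - x‖ ≤ 3 * R) (hzt : ‖π.zt - x‖ ≤ 3 * R) (hbs : π.ts.b * h ≤ 2 * R) (hbt : π.tt.b * h ≤ 2 * R)
    (hrs : pvwRad N h π.ts π.ts.k ≤ R) (hrt : pvwRad N h π.tt π.tt.k ≤ R) (hg : ∀ v ∈ 𝔇.g.verts, ‖(v : ℂ) - x‖ ≤ 5 * R) :
    ∀ z ∈ Subtype.val '' 𝔇.fz, ‖z - x‖ ≤ 21 / 4 * R := by
  have key : ∀ (z w : ℂ) (b r : ℝ), ‖z - x‖ ≤ 3 * R → b ≤ 2 * R → r ≤ R → (‖w - z‖ < b ∨ w ∈ pvwSq z r) → ‖w - x‖ ≤ 21 / 4 * R := by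
    intro z w b r h1 h2 h3 h4
    have h5 : ‖w - z‖ ≤ 2 * R := by
      rcases h4 with h4 | h4
      · linarith
      · exact (pvn1b_sq_norm h4).trans (by linarith)
    have e : w - x = (w - z) + (z - x) := by ring
    rw [e]
    exact (norm_add_le _ _).trans (by linarith)
  rintro _ ⟨v, hv, rfl⟩
  refine pve6h_fz_abs (pos := Subtype.val) hok (fun w hw => key _ w _ _ hzs hbs hrs hw) (fun w hw => key _ w _ _ hzt hbt hrt hw) (fun v hv => (hg v hv).trans (by linarith)) ?_ v hv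
  rintro _ ⟨i, hi, rfl⟩
  set d := (delbPl Y).toMap.opp (𝔇.g.e i) with hd'
  have hs : (delbPl Y).toMap.src d = 𝔇.g.v (i + 1) := by rw [hd', PvMap.src_opp']; exact 𝔇.g.tgt_e i hi
  have htri : DelTri Y d.1.1.1 d.1.2.1 (delApex Y d.1.1.1 d.1.2.1) := delp_apex_spec d.2.1 d.2.2
  have hs' : d.1.1 = 𝔇.g.v (i + 1) := hs
  have h5 := hg _ ⟨i + 1, hi, rfl⟩
  have hmem : d.1.1.1 ∈ Metric.closedBall x (6 * R) := by
    rw [Metric.mem_closedBall, dist_eq_norm, hs']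
    exact h5.trans (by linarith)
  have h6 := (hf _ _ _ htri (Or.inl hmem)).2.1
  have hap : (((delbPl Y).toMap.apex d : ↥Y) : ℂ) = delApex Y d.1.1.1 d.1.2.1 := rfl
  rw [hap]
  have e : delApex Y d.1.1.1 d.1.2.1 - x = (delApex Y d.1.1.1 d.1.2.1 - d.1.1.1) + (d.1.1.1 - x) := by ring
  rw [e]
  refine (norm_add_le _ _).trans ?_
  have h7 : ‖(d.1.1.1 : ℂ) - x‖ ≤ 5 * R := by rw [hs']; exact h5
  linarith

end Claimed.Agent.R289
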