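import Claimed.Agent.R289.Exit.N1
import Claimed.Agent.R289.Tr.Rd
import Claimed.Agent.R289.Tr.StKit
import Claimed.Agent.R289.Tr.LocalW
import Claimed.Agent.R289.Tr.C2Dom

/-!
# Row 289 (S0537), wall TR, file Tr/KitN1 : THE KIT OF N1' AT THE MODEL      (owner helper29; post of 24, 11:12Z; prefix `pvkn_`, `Pvkn`, `pvkn`)      0 sorry
**v2 (13:00Z; objection of 63).**   The resampled region `C` of record (end tiles inside the inner mouths, door squares down to the offset `-3/16`) is NOT under `Ycol`: `col`, `bs`, `bt` of v1 had no producer, and `NU` itself is not splice invariant at far sites.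
THE `X` SIDE of `PvxnKit` (170, `Exit/N1`): `E(D) := NBon MF`, `W(D) := WO(D) ∩ {white circuit in A(x; 5R, 6R)}` (UNCHANGED), `N(D) := fzY ∪ g₀ ∪ {right apexes off Yin} ∪ MF`, with `K := pvgeFar C r` and
`YF` = the sites of `Yr0` over `K` joined INSIDE `Yr0 ∩ over K` to a tip apex or to a site with a neighbour over `Ycol` or off `K`;   `NF` = over `K`, off `Ycol`, off `YF`;   `MF := NF ∩ patch`.      `YC0 ∩ over K ⊆ YF`, so `NF ⊆ NU`;   `YF NF MF` are blind to `Kᶜ` BY CONSTRUCTION.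
* §1 `PvwDat.MU`, `PvknCirc` (the white circuit IN GATE FORM: `fin white ann round inside`), `PvwDat.WK`, `PvwDat.NK`, `PvknReg` (regions against the patch);   (C3) of v1: `pvkn_E_mono1`, `pvkn_W_mono1`
* §1b `PvwDat.YK YF NF MF NKF`;   `pvkn_comp_iff`, **`pvkn_yc0_yf`**, `pvkn_nf_nu`, `pvkn_nf_of`;   (C3): `pvkn_E_mono`, `pvkn_WF_mono` (`pvkn_W_mono` in §2);   BRIDGE (78 292 60): `YF NF MF` ARE `YC0 NU MU` at the pattern `{π with Ycol := π.Ycol ∪ Kᶜ}`: `pvkn_yk_eq`, `pvkn_yf_eq`, `pvkn_nf_eq`, `pvkn_mf_eq`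
* §2 `PvknGeo` v2 (`reg r0 ks kt yo cin`);   `pvkn_farF`, `pvkn_finF`;   **`pvknKit`** v2
* §3 THE RIGHT SIDE: `pvkn_right`, `pvkn_left` (a cycle whose RIGHT side is shared: both sides are carried over at the shared darts), **`pvkn_circ`** (the white circuit is carried over although its inside is not shared: field `rd`)
-/

set_option autoImplicit false

namespace Claimed.Agent.R289

open Set Metric Filter Topology MeasureTheory Relation Claimed.Agent.R291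
open scoped ENNReal

/-! ## 1. the events of the kit, on any positioned map -/

section defs

variable {V D : Type} {T : PvMap V D}

/-- **`M(D)`** = the sites which `E(D)` reads: `NU` (off `YC0`, off the collared lanes) inside the patch `closedBall x r₂` -/
def PvwDat.MU (𝔇 : PvwDat T) (pos : V → ℂ) (π : PvwPat) (x : ℂ) (r₂ : ℝ) : Set V := {v | v ∈ 𝔇.NU pos π ∧ ‖pos v - x‖ ≤ r₂}

/-- **THE WHITE CIRCUIT OF E6** in the annulus `A(x; r₁, r₂)`, in the form of a gate (`fin ann round inside`) -/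
structure PvknCirc (T : PvMap V D) (pos : V → ℂ) (x : ℂ) (r₁ r₂ : ℝ) (σ : V → Bool) (w : T.Cyc) : Prop where
  fin : w.Left.Finite
  white : ∀ v ∈ w.verts, σ v = false
  ann : ∀ v ∈ w.verts, r₁ ≤ ‖pos v - x‖ ∧ ‖pos v - x‖ ≤ r₂
  round : ∀ v, ‖pos v - x‖ < r₁ → v ∈ T.VOf w.Left
  inside : ∀ v ∈ T.VOf w.Left, ‖pos v - x‖ ≤ r₂

/-- **`W(D)`** of the kit: `WO(D)` and a white circuit in `A(x; r₁, r₂)` (208, W-5 (2)) -/
def PvwDat.WK (𝔇 : PvwDat T) (pos : V → ℂ) (π : PvwPat) (x : ℂ) (r₁ r₂ : ℝ) (σ : V → Bool) : Prop :=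
  𝔇.WO pos π σ ∧ ∃ w : T.Cyc, PvknCirc T pos x r₁ r₂ σ w ∧ (∀ v ∈ 𝔇.g.verts, v ∈ T.Int w.Left) ∧ 𝔇.s.dp ∈ w.Left

/-- the sites which the `X` side reads -/
def PvwDat.NK (𝔇 : PvwDat T) (pos : V → ℂ) (π : PvwPat) (x : ℂ) (r₂ : ℝ) : Set V := 𝔇.fz ∪ 𝔇.MU pos π x r₂

theorem pvkn_eqns_cite : True := by
  have := @PvwDat.MU.eq_1; have := @PvwDat.WK.eq_1; have := @PvwDat.NK.eq_1
  trivial

/-- **the regions of the pattern against the patch** (no colour, no site) -/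
structure PvknReg (π : PvwPat) (x : ℂ) (r₁ r₂ : ℝ) : Prop where
  wf : π.Wf
  r12 : r₁ ≤ r₂
  yin : ∀ z ∈ π.Yin, ‖z - x‖ < r₁
  ycol : ∀ z ∈ π.Ycol, ‖z - x‖ < r₁
  yout : ∀ z ∈ π.Yout, ‖z - x‖ ≤ r₂

variable {𝔇 : PvwDat T} {pos : V → ℂ} {π : PvwPat} {x : ℂ} {r₁ r₂ : ℝ} {σ σ' : V → Bool}

/-- a site which is neither over `Yin` nor over `Ycol` is in `NU` -/
theorem pvkn_nu_of (𝔇 : PvwDat T) {v : V} (h1 : pos v ∉ π.Yin) (h2 : pos v ∉ π.Ycol) : v ∈ 𝔇.NU pos π := ⟨fun hc => h1 (pvwk_yc0_sub hc).1.2, h2⟩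

theorem pvkn_mu_yout (G : PvknReg π x r₁ r₂) (𝔇 : PvwDat T) {v : V} (hv : pos v ∈ π.Yout) : v ∈ 𝔇.MU pos π x r₂ :=
  ⟨pvkn_nu_of 𝔇 (fun h => disjoint_left.1 G.wf.disj h hv) (fun h => disjoint_left.1 G.wf.col h hv), G.yout _ hv⟩

theorem pvkn_mu_ann (G : PvknReg π x r₁ r₂) (𝔇 : PvwDat T) {v : V} (h1 : r₁ ≤ ‖pos v - x‖) (h2 : ‖pos v - x‖ ≤ r₂) : v ∈ 𝔇.MU pos π x r₂ :=
  ⟨pvkn_nu_of 𝔇 (fun h => absurd (G.yin _ h) (not_lt.2 h1)) (fun h => absurd (G.ycol _ h) (not_lt.2 h1)), h2⟩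

/-- (C3a) -/
theorem pvkn_E_mono1 (h : ∀ v ∈ 𝔇.NK pos π x r₂, σ' v ≤ σ v) (hE : 𝔇.NBon (𝔇.MU pos π x r₂) σ) : 𝔇.NBon (𝔇.MU pos π x r₂) σ' :=
  pvc4_nbon_anti 𝔇 (fun v hv _ hb => by have := h v (Or.inr hv); rw [hb] at this; exact Bool.eq_true_of_true_le this) hE

theorem pvkn_false_of_le {a b : Bool} (h : a ≤ b) (hb : b = false) : a = false := by
  subst hb; exact Bool.eq_false_of_le_false h

/-- (C3b) -/
theorem pvkn_W_mono1 (G : PvknReg π x r₁ r₂) (h : ∀ v ∈ 𝔇.NK pos π x r₂, σ' v ≤ σ v) (hW : 𝔇.WK pos π x r₁ r₂ σ) : 𝔇.WK pos π x r₁ r₂ σ' := by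
  obtain ⟨⟨q, h0, h1, hq⟩, w, hw, hg, hd⟩ := hW
  refine ⟨⟨q, h0, h1, fun y hy => ⟨pvkn_false_of_le (h y (Or.inr (pvkn_mu_yout G 𝔇 (hq y hy).2.1))) (hq y hy).1, (hq y hy).2⟩⟩, w, { hw with white := fun v hv => ?_ }, hg, hd⟩
  exact pvkn_false_of_le (h v (Or.inr (pvkn_mu_ann G 𝔇 (hw.ann v hv).1 (hw.ann v hv).2))) (hw.white v hv)

/-! ### 1b. the classes which are blind to `Kᶜ` by construction (v2) -/

/-- `Yr0` over `K` -/
def PvwDat.YK (𝔇 : PvwDat T) (pos : V → ℂ) (π : PvwPat) (K : Set ℂ) : Set V := {u | u ∈ 𝔇.Yr0 pos π ∧ pos u ∈ K}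

/-- **`YF`**: the sites of `Yr0` over `K` which are joined, inside `Yr0 ∩ over K`, to a tip apex or to a site with a neighbour over `Ycol` or off `K` -/
def PvwDat.YF (𝔇 : PvwDat T) (pos : V → ℂ) (π : PvwPat) (K : Set ℂ) : Set V :=
  {v | ∃ a, (a = 𝔇.t.ap ∨ a = 𝔇.s.am ∨ ∃ w, (pos w ∈ π.Ycol ∨ pos w ∉ K) ∧ T.Adj a w) ∧ v ∈ pvwComp T (𝔇.YK pos π K) a}

/-- **`NF`** = the sites which `E(D)` may read: over `K`, off the collared lanes, off `YF` -/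
def PvwDat.NF (𝔇 : PvwDat T) (pos : V → ℂ) (π : PvwPat) (K : Set ℂ) : Set V := {v | v ∉ 𝔇.YF pos π K ∧ pos v ∉ π.Ycol ∧ pos v ∈ K}

/-- **`M(D)`** v2 -/
def PvwDat.MF (𝔇 : PvwDat T) (pos : V → ℂ) (π : PvwPat) (K : Set ℂ) (x : ℂ) (r₂ : ℝ) : Set V := {v | v ∈ 𝔇.NF pos π K ∧ ‖pos v - x‖ ≤ r₂}

/-- **the sites which the `X` side reads**, v2.      `fz ⊆ NKF` says: every right apex of `g₀` is off `Yin`, or frozen by `D_Y`, or in `NF` -/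
def PvwDat.NKF (𝔇 : PvwDat T) (pos : V → ℂ) (π : PvwPat) (K : Set ℂ) (x : ℂ) (r₂ : ℝ) : Set V :=
  𝔇.fzY ∪ 𝔇.g.verts ∪ {v | v ∈ 𝔇.apx ∧ pos v ∉ π.Yin} ∪ 𝔇.MF pos π K x r₂

theorem pvkn_eqns_cite2 : True := by
  have := @PvwDat.YK.eq_1; have := @PvwDat.YF.eq_1; have := @PvwDat.NF.eq_1; have := @PvwDat.MF.eq_1; have := @PvwDat.NKF.eq_1
  trivial

variable {K : Set ℂ}

/-- the component of `Tr/Defs` is a join (any map with a dart) -/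
theorem pvkn_comp_iff (d₀ : D) {X : Set V} {a v : V} : v ∈ pvwComp T X a ↔ T.Join univ X a v := by
  constructor
  · rintro ⟨q, h0, h1, hX⟩
    have := pl_pth_join q (A := univ) (X := X) (fun i _ => Or.inl (mem_univ _)) hX (Nat.zero_le _) (le_refl q.n)
    rwa [h0, h1] at this
  · intro hj
    have : Nonempty D := ⟨d₀⟩
    obtain ⟨p, h0, h1, hX, -⟩ := pl_pth_of_join hj
    exact ⟨p, h0, h1, hX⟩

theorem pvkn_comp_self (d₀ : D) {X : Set V} {a : V} (ha : a ∈ X) : a ∈ pvwComp T X a := (pvkn_comp_iff d₀).2 ⟨ha, ReflTransGen.refl⟩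

theorem pvkn_comp_mem {X : Set V} {a v : V} (hv : v ∈ pvwComp T X a) : v ∈ X := by
  obtain ⟨q, -, h1, hX⟩ := hv
  exact hX v ⟨q.n, le_rfl, h1⟩

theorem pvkn_comp_tail (d₀ : D) {X : Set V} {a u v : V} (hu : u ∈ pvwComp T X a) (huv : T.Adj u v) (hv : v ∈ X) : v ∈ pvwComp T X a := by
  obtain ⟨h1, h2⟩ := (pvkn_comp_iff d₀).1 hu
  obtain ⟨d, hs, ht⟩ := huv
  exact (pvkn_comp_iff d₀).2 ⟨h1, h2.tail ⟨⟨d, Or.inl (mem_univ _), hs, ht⟩, hv⟩⟩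

theorem pvkn_yf_sub {v : V} (hv : v ∈ 𝔇.YF pos π K) : v ∈ 𝔇.Yr0 pos π ∧ pos v ∈ K := by
  obtain ⟨a, -, hc⟩ := hv
  have h1 : v ∈ 𝔇.YK pos π K := pvkn_comp_mem hc
  exact h1

/-- **`YC0` over `K` lies in `YF`** -/
theorem pvkn_yc0_yf {v : V} (hv : v ∈ 𝔇.YC0 pos π) (hK : pos v ∈ K) : v ∈ 𝔇.YF pos π K := by
  obtain ⟨a, ha, hc⟩ := hv
  obtain ⟨haX, hj⟩ := (pvkn_comp_iff 𝔇.s.dp).1 hc
  have ha' : a = 𝔇.t.ap ∨ a = 𝔇.s.am ∨ ∃ w, (pos w ∈ π.Ycol ∨ pos w ∉ K) ∧ T.Adj a w := ha.imp_right fun h => h.imp_right fun ⟨w, h1, h2⟩ => ⟨w, Or.inl h1, h2⟩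
  have key : ∀ u, ReflTransGen (fun u v => T.EdgeIn univ u v ∧ v ∈ 𝔇.Yr0 pos π) a u → u ∈ 𝔇.Yr0 pos π ∧ (pos u ∈ K → u ∈ 𝔇.YF pos π K) := by
    intro u hu
    induction hu with
    | refl => exact ⟨haX, fun hk => ⟨a, ha', pvkn_comp_self 𝔇.s.dp ⟨haX, hk⟩⟩⟩
    | @tail b c _ hbc ih =>
      obtain ⟨⟨d, -, hs, ht⟩, hcX⟩ := hbc
      refine ⟨hcX, fun hk => ?_⟩
      by_cases hb : pos b ∈ K
      · obtain ⟨a', ha', hc'⟩ := ih.2 hb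
        exact ⟨a', ha', pvkn_comp_tail 𝔇.s.dp hc' ⟨d, hs, ht⟩ ⟨hcX, hk⟩⟩
      · exact ⟨c, Or.inr (Or.inr ⟨b, Or.inr hb, T.opp d, by rw [T.src_opp', ht], by rw [T.tgt_opp, hs]⟩), pvkn_comp_self 𝔇.s.dp ⟨hcX, hk⟩⟩
  exact (key v hj).2 hK

/-- `NF ⊆ NU` -/
theorem pvkn_nf_nu {v : V} (hv : v ∈ 𝔇.NF pos π K) : v ∈ 𝔇.NU pos π := ⟨fun hc => hv.1 (pvkn_yc0_yf hc hv.2.2), hv.2.1⟩

/-- a site over `K` which is neither over `Yin` nor over `Ycol` is in `NF` -/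
theorem pvkn_nf_of (𝔇 : PvwDat T) {v : V} (h1 : pos v ∉ π.Yin) (h2 : pos v ∉ π.Ycol) (h3 : pos v ∈ K) : v ∈ 𝔇.NF pos π K := ⟨fun hc => h1 (pvkn_yf_sub hc).1.1.2, h2, h3⟩

theorem pvkn_mf_yout (G : PvknReg π x r₁ r₂) (hYo : π.Yout ⊆ K) (𝔇 : PvwDat T) {v : V} (hv : pos v ∈ π.Yout) : v ∈ 𝔇.MF pos π K x r₂ :=
  ⟨pvkn_nf_of 𝔇 (fun h => disjoint_left.1 G.wf.disj h hv) (fun h => disjoint_left.1 G.wf.col h hv) (hYo hv), G.yout _ hv⟩

theorem pvkn_mf_ann (G : PvknReg π x r₁ r₂) (hK : ∀ z, r₁ ≤ ‖z - x‖ → z ∈ K) (𝔇 : PvwDat T) {v : V} (h1 : r₁ ≤ ‖pos v - x‖) (h2 : ‖pos v - x‖ ≤ r₂) : v ∈ 𝔇.MF pos π K x r₂ :=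
  ⟨pvkn_nf_of 𝔇 (fun h => absurd (G.yin _ h) (not_lt.2 h1)) (fun h => absurd (G.ycol _ h) (not_lt.2 h1)) (hK _ h1), h2⟩

/-! BRIDGE (78, 292, 60): the classes of v2 are the classes of `Tr/Defs` at the pattern whose collar is enlarged by `Kᶜ` -/

theorem pvkn_yk_eq (𝔇 : PvwDat T) (pos : V → ℂ) (π : PvwPat) (K : Set ℂ) : 𝔇.YK pos π K = 𝔇.Yr0 pos { π with Ycol := π.Ycol ∪ Kᶜ } := by
  ext u
  constructor
  · rintro ⟨⟨h1, h2⟩, h3⟩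
    exact ⟨h1, fun h => h.elim h2 fun h' => h' h3⟩
  · rintro ⟨h1, h2⟩
    exact ⟨⟨h1, fun h => h2 (Or.inl h)⟩, by_contra fun h => h2 (Or.inr h)⟩

theorem pvkn_yf_eq (𝔇 : PvwDat T) (pos : V → ℂ) (π : PvwPat) (K : Set ℂ) : 𝔇.YF pos π K = 𝔇.YC0 pos { π with Ycol := π.Ycol ∪ Kᶜ } := by
  unfold PvwDat.YF
  rw [pvkn_yk_eq]
  rfl

theorem pvkn_nf_eq (𝔇 : PvwDat T) (pos : V → ℂ) (π : PvwPat) (K : Set ℂ) : 𝔇.NF pos π K = 𝔇.NU pos { π with Ycol := π.Ycol ∪ Kᶜ } := by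
  unfold PvwDat.NF
  rw [pvkn_yf_eq]
  ext v
  constructor
  · rintro ⟨h1, h2, h3⟩
    exact ⟨h1, fun h => h.elim h2 fun h' => h' h3⟩
  · rintro ⟨h1, h2⟩
    exact ⟨h1, fun h => h2 (Or.inl h), by_contra fun h => h2 (Or.inr h)⟩

theorem pvkn_mf_eq (𝔇 : PvwDat T) (pos : V → ℂ) (π : PvwPat) (K : Set ℂ) (x : ℂ) (r₂ : ℝ) : 𝔇.MF pos π K x r₂ = 𝔇.MU pos { π with Ycol := π.Ycol ∪ Kᶜ } x r₂ := by
  unfold PvwDat.MF PvwDat.MU
  rw [pvkn_nf_eq]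

/-- (C3a), v2 -/
theorem pvkn_E_mono (h : ∀ v ∈ 𝔇.NKF pos π K x r₂, σ' v ≤ σ v) (hE : 𝔇.NBon (𝔇.MF pos π K x r₂) σ) : 𝔇.NBon (𝔇.MF pos π K x r₂) σ' :=
  pvc4_nbon_anti 𝔇 (fun v hv _ hb => by have := h v (Or.inr hv); rw [hb] at this; exact Bool.eq_true_of_true_le this) hE

/-- (C3b), v2 -/
theorem pvkn_WF_mono (G : PvknReg π x r₁ r₂) (hYo : π.Yout ⊆ K) (hK : ∀ z, r₁ ≤ ‖z - x‖ → z ∈ K) (h : ∀ v ∈ 𝔇.NKF pos π K x r₂, σ' v ≤ σ v) (hW : 𝔇.WK pos π x r₁ r₂ σ) : 𝔇.WK pos π x r₁ r₂ σ' := by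
  obtain ⟨⟨q, h0, h1, hq⟩, w, hw, hg, hd⟩ := hW
  refine ⟨⟨q, h0, h1, fun y hy => ⟨pvkn_false_of_le (h y (Or.inr (pvkn_mf_yout G hYo 𝔇 (hq y hy).2.1))) (hq y hy).1, (hq y hy).2⟩⟩, w, { hw with white := fun v hv => ?_ }, hg, hd⟩
  exact pvkn_false_of_le (h v (Or.inr (pvkn_mf_ann G hK 𝔇 (hw.ann v hv).1 (hw.ann v hv).2))) (hw.white v hv)

end defs

/-! ## 2. the kit at the model; `sub fin far`, (C3) -/

section kit

/-- **the resampled region `C` and its mesh radius `r` against the pattern** (no colour, no site), v2.      `C`, `r` are chosen by the `Y` side (the tiles which the engine resamples).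
NOTHING is asked on the shape of `C`, on `Yin`, on `Ycol`, on the boxes: only the two gate discs, the far half of the outer lane and the outside of the open ball `B(x, r₁)` are far from `C`. -/
structure PvknGeo (_N : PvwNum) (h : ℝ) (π : PvwPat) (x : ℂ) (r₁ r₂ : ℝ) (C : Set ℂ) (r : ℝ) : Prop where
  reg : PvknReg π x r₁ r₂
  r0 : 0 < r
  ks : closedBall π.zs (π.ts.b * h) ⊆ pvgeFar C r
  kt : closedBall π.zt (π.tt.b * h) ⊆ pvgeFar C r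
  yo : π.Yout ⊆ pvgeFar C r
  cin : ∀ z, r₁ ≤ ‖z - x‖ → z ∈ pvgeFar C r

variable {V D : Type} {T : PvMap V D} {𝔇 : PvwDat T} {pos : V → ℂ} {N : PvwNum} {h : ℝ} {π : PvwPat} {x : ℂ} {r₁ r₂ : ℝ} {C K : Set ℂ} {r : ℝ}

theorem pvkn_core_in {𝔖 : PvwSt T} {z : ℂ} {τ : PvwTy} {s : V → Bool} (hg : 𝔖.Gate pos h z τ s) {v : V} (hv : v ∈ 𝔖.core) : pos v ∈ closedBall z (τ.b * h) := by
  have h1 : v ∈ 𝔖.dsc := hv
  rw [hg.dsc_eq] at h1
  exact mem_closedBall_iff_norm.2 (le_of_lt h1)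

/-- **`far`**, v2: the read sites are over `K` as soon as the frozen sites are -/
theorem pvkn_farF (hf : ∀ v ∈ 𝔇.fz, pos v ∈ K) {v : V} (hv : v ∈ 𝔇.NKF pos π K x r₂) : pos v ∈ K := by
  rcases hv with ((hv | hv) | hv) | hv
  · exact hf v (Or.inl (Or.inl hv))
  · exact hf v (Or.inl (Or.inr hv))
  · exact hf v (Or.inr hv.1)
  · exact hv.1.2.2

/-- **`sub`**, v2: the right apexes of `g₀` are off `Yin` -/
theorem pvkn_subF (ha : ∀ v ∈ 𝔇.apx, pos v ∉ π.Yin) : 𝔇.fz ⊆ 𝔇.NKF pos π K x r₂ := by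
  rintro v ((hv | hv) | hv)
  · exact Or.inl (Or.inl (Or.inl hv))
  · exact Or.inl (Or.inl (Or.inr hv))
  · exact Or.inl (Or.inr ⟨hv, ha v hv⟩)

/-- what `fz ⊆ NKF` says on a right apex -/
theorem pvkn_apx_cases (hok : 𝔇.Ok pos N h π) (hwf : π.Wf) (hs : 𝔇.fz ⊆ 𝔇.NKF pos π K x r₂) {v : V} (hv : v ∈ 𝔇.apx) : v ∈ 𝔇.fzY ∨ pos v ∉ π.Yin ∨ v ∈ 𝔇.NF pos π K := by
  rcases hs (Or.inr hv) with ((h1 | h1) | h1) | h1
  · exact Or.inl h1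
  · exact Or.inr (Or.inl fun hc => hok.off v h1 (hwf.in_sub hc))
  · exact Or.inr (Or.inl h1.2)
  · exact Or.inr (Or.inr h1.1)

/-- **a datum whose frozen sites are read and lie over `K` is well formed for the pattern with the enlarged collar** (so every model free lemma on `Ok`, `NU`, `Col` applies at that pattern) -/
theorem pvkn_ok_wk (hok : 𝔇.Ok pos N h π) (hwf : π.Wf) (hf : ∀ v ∈ 𝔇.fz, pos v ∈ K) (hs : 𝔇.fz ⊆ 𝔇.NKF pos π K x r₂) : 𝔇.Ok pos N h { π with Ycol := π.Ycol ∪ Kᶜ } := by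
  refine ⟨hok.st_s, hok.st_t, hok.tip_s, hok.tip_t, hok.g0, hok.g1, hok.pos_n, hok.out, hok.off, hok.disj, ?_, hok.tip_f, hok.cons_b, hok.cons_w, hok.cons_a, hok.core_off⟩
  intro v hv
  rw [← pvkn_nf_eq]
  have hcol := (hok.off_y v hv).2
  rcases hv with hv | hv
  · exact pvkn_nf_of 𝔇 (fun hc => hok.off v hv (hwf.in_sub hc)) hcol (hf v (Or.inl (Or.inr hv)))
  · rcases pvkn_apx_cases hok hwf hs hv with h1 | h1 | h1
    · exact ⟨fun hc => (pvkn_yf_sub hc).1.1.1 h1, hcol, hf v (Or.inr hv)⟩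
    · exact pvkn_nf_of 𝔇 h1 hcol (hf v (Or.inr hv))
    · exact h1

/-- (C3b), v2, from `PvknGeo` -/
theorem pvkn_W_mono {σ σ' : V → Bool} (G : PvknGeo N h π x r₁ r₂ C r) (hh : ∀ v ∈ 𝔇.NKF pos π (pvgeFar C r) x r₂, σ' v ≤ σ v) (hW : 𝔇.WK pos π x r₁ r₂ σ) : 𝔇.WK pos π x r₁ r₂ σ' :=
  pvkn_WF_mono G.reg G.yo G.cin hh hW

/-- the resampled region lies in the open ball -/
theorem pvkn_C_sub (G : PvknGeo N h π x r₁ r₂ C r) : ∀ z ∈ C, ‖z - x‖ < r₁ := by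
  intro z hz
  by_contra hc
  have h1 : 3 * r ≤ infDist z C := G.cin z (not_lt.1 hc)
  rw [infDist_zero_of_mem hz] at h1
  linarith [G.r0]

theorem pvkn_apx_finite (𝔇 : PvwDat T) : 𝔇.apx.Finite :=
  ((Set.finite_lt_nat 𝔇.g.n).image fun i => T.apex (T.opp (𝔇.g.e i))).subset fun _ ⟨i, hi, e⟩ => ⟨i, hi, e⟩

theorem pvkn_fz_finite (hok : 𝔇.Ok pos N h π) : 𝔇.fz.Finite :=
  (((pvwk_fzOut_finite 𝔇.t hok.st_t.gate.core_fin).union (pvwk_fzIn_finite 𝔇.s hok.st_s.gate.core_fin)).union (pl_pth_verts_finite 𝔇.g)).union (pvkn_apx_finite 𝔇)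

/-- the sites of a ball -/
theorem pvkn_ball_finite {Y : Set ℂ} (lf : VorLF Y) (x : ℂ) (ρ : ℝ) : {v : ↥Y | ‖(v : ℂ) - x‖ ≤ ρ}.Finite := by
  refine Set.Finite.of_finite_image (f := Subtype.val) ((lf (‖x‖ + ρ)).subset ?_) Subtype.val_injective.injOn
  rintro _ ⟨v, hv, rfl⟩
  refine ⟨v.2, ?_⟩
  rw [mem_closedBall, dist_zero_right]
  have h1 : ‖(v : ℂ)‖ ≤ ‖(v : ℂ) - x‖ + ‖x‖ := by simpa using norm_add_le ((v : ℂ) - x) x
  have h2 : ‖(v : ℂ) - x‖ ≤ ρ := hv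
  linarith

/-- **`fin`** (v1) -/
theorem pvkn_fin {Y : Set ℂ} (lf : VorLF Y) {𝔇 : PvwDat (delbPl Y).toMap} (hok : 𝔇.Ok Subtype.val N h π) : (𝔇.NK Subtype.val π x r₂).Finite :=
  (pvkn_fz_finite hok).union ((pvkn_ball_finite lf x r₂).subset fun _ hv => hv.2)

/-- **`fin`**, v2 -/
theorem pvkn_finF {Y : Set ℂ} (lf : VorLF Y) {𝔇 : PvwDat (delbPl Y).toMap} (hok : 𝔇.Ok Subtype.val N h π) : (𝔇.NKF Subtype.val π K x r₂).Finite := by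
  have h1 : (𝔇.MF Subtype.val π K x r₂).Finite := (pvkn_ball_finite lf x r₂).subset fun _ hv => hv.2
  refine ((pvkn_fz_finite hok).union h1).subset ?_
  rintro v (((hv | hv) | hv) | hv)
  · exact Or.inl (Or.inl (Or.inl hv))
  · exact Or.inl (Or.inl (Or.inr hv))
  · exact Or.inl (Or.inr hv.1)
  · exact Or.inr hv

end kit

section model

variable {τ : Type} {c : ℝ} (𝔓 : PvxPar τ c) (x : ℂ) (R : ℝ) (m : ℕ) (π : PvxIx τ)

/-- the kit v1 (DEAD: `far` has no producer at the data of record; kept until `Tr/DomEN` is ported) -/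
def pvknKit1 (C : Set ℂ) (r : ℝ) (B : Set ℂ) (mB : MeasurableSet B) (q : ℝ≥0∞) : PvxnKit where
  C := C
  r := r
  E _ 𝔇 σ := 𝔇.NBon (𝔇.MU Subtype.val (𝔓.reg m π) x (6 * R)) σ
  W _ 𝔇 σ := 𝔇.WK Subtype.val (𝔓.reg m π) x (5 * R) (6 * R) σ
  N _ 𝔇 := 𝔇.NK Subtype.val (𝔓.reg m π) x (6 * R)
  B := B
  mB := mB
  q := q

/-- **THE KIT OF RECORD**, v2 (208, W-5 (2); 63): `E := NBon MF` (sector form of 145 / 78), `W := WO ∩ {white circuit in A(x; 5R, 6R)}`, `N := fzY ∪ g₀ ∪ {right apexes off Yin} ∪ MF`, all at `K := pvgeFar C r`;   `C r B q` are parameters -/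
def pvknKit (C : Set ℂ) (r : ℝ) (B : Set ℂ) (mB : MeasurableSet B) (q : ℝ≥0∞) : PvxnKit where
  C := C
  r := r
  E _ 𝔇 σ := 𝔇.NBon (𝔇.MF Subtype.val (𝔓.reg m π) (pvgeFar C r) x (6 * R)) σ
  W _ 𝔇 σ := 𝔇.WK Subtype.val (𝔓.reg m π) x (5 * R) (6 * R) σ
  N _ 𝔇 := 𝔇.NKF Subtype.val (𝔓.reg m π) (pvgeFar C r) x (6 * R)
  B := B
  mB := mB
  q := q

end model

/-! ## 3. the white circuit is carried over: THE RIGHT SIDE -/

section right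

variable {V D V' D' : Type} {T : PvMap V D} {T' : PvMap V' D'} {R : D → D' → Prop}

theorem pvkn_right_fwd (L : PvLoc T T' R) {c : T.Cyc} {c' : T'.Cyc} (P : PvLocCyc R c c') (hR : c.Right ⊆ plDom R) {d : D} (hd : d ∈ c.Right) : ∃ d', R d d' ∧ d' ∈ c'.Right := by
  have key : ∀ d, ReflTransGen (T.DStep c.darts) (T.opp (c.e 0)) d → ∃ d', R d d' ∧ ReflTransGen (T'.DStep c'.darts) (T'.opp (c'.e 0)) d' := by
    intro d h
    induction h with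
    | refl => exact ⟨_, L.iso.opp_rel (P.e_rel 0) (hR ReflTransGen.refl), ReflTransGen.refl⟩
    | @tail a b hab hstep ih =>
      obtain ⟨a', ha, hl⟩ := ih
      have hb : b ∈ plDom R := hR (hab.tail hstep)
      rcases hstep with rfl | ⟨rfl, hne⟩
      · exact ⟨_, L.iso.nxt ha, hl.tail (Or.inl rfl)⟩
      · exact ⟨_, L.iso.opp_rel ha hb, hl.tail (Or.inr ⟨rfl, fun he => hne ((pvloc_cyc_edg L P ha).2 he)⟩)⟩
  exact key d hd

theorem pvkn_right_bwd (L : PvLoc T T' R) {c : T.Cyc} {c' : T'.Cyc} (P : PvLocCyc R c c') (hR : c.Right ⊆ plDom R) {d' : D'} (hd : d' ∈ c'.Right) : ∃ d, R d d' ∧ d ∈ c.Right := by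
  have key : ∀ d', ReflTransGen (T'.DStep c'.darts) (T'.opp (c'.e 0)) d' → ∃ d, R d d' ∧ ReflTransGen (T.DStep c.darts) (T.opp (c.e 0)) d := by
    intro d' h
    induction h with
    | refl => exact ⟨_, L.iso.opp_rel (P.e_rel 0) (hR ReflTransGen.refl), ReflTransGen.refl⟩
    | @tail a' b' _ hstep ih =>
      obtain ⟨a, ha, hl⟩ := ih
      rcases hstep with rfl | ⟨rfl, hne⟩
      · exact ⟨_, L.iso.nxt ha, hl.tail (Or.inl rfl)⟩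
      · have h1 : ReflTransGen (T.DStep c.darts) (T.opp (c.e 0)) (T.opp a) := hl.tail (Or.inr ⟨rfl, fun he => hne ((pvloc_cyc_edg L P ha).1 he)⟩)
        exact ⟨_, L.iso.opp_rel ha (hR h1), h1⟩
  exact key d' hd

/-- **the right side of a cycle is carried over** as soon as it lies in the shared part -/
theorem pvkn_right (L : PvLoc T T' R) {c : T.Cyc} {c' : T'.Cyc} (P : PvLocCyc R c c') (hR : c.Right ⊆ plDom R) {d : D} {d' : D'} (h : R d d') : d ∈ c.Right ↔ d' ∈ c'.Right := by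
  constructor
  · intro hd
    obtain ⟨e', h1, h2⟩ := pvkn_right_fwd L P hR hd
    rwa [L.iso.fn h h1]
  · intro hd
    obtain ⟨e, h1, h2⟩ := pvkn_right_bwd L P hR hd
    rwa [L.iso.inj h h1]

/-- … and then the LEFT side too, at the shared darts (Jordan on both surfaces) -/
theorem pvkn_left (L : PvLoc T T' R) (hT : T.IsSph) (hT' : T'.IsSph) {c : T.Cyc} {c' : T'.Cyc} (P : PvLocCyc R c c') (hR : c.Right ⊆ plDom R) {d : D} {d' : D'} (h : R d d') : d ∈ c.Left ↔ d' ∈ c'.Left := by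
  have h1 := pvkn_right L P hR h
  rw [(pl_jordan hT c).1, (pl_jordan hT' c').1] at h1
  exact not_iff_not.1 h1

variable {pos : V → ℂ} {pos' : V' → ℂ} {Kr : Set ℂ} {x : ℂ} {r₁ r₂ : ℝ} {σ : V → Bool} {σ' : V' → Bool}

/-- the faces on the right of the circuit have no vertex in the open ball -/
theorem pvkn_circ_right (hT : T.IsSph) {w : T.Cyc} (hw : PvknCirc T pos x r₁ r₂ σ w) {d : D} (hd : d ∈ w.Right) : r₁ ≤ ‖pos (T.src d) - x‖ := by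
  by_contra hlt
  rw [not_le] at hlt
  obtain ⟨e, he, hev⟩ := hw.round _ hlt
  have hR := (pl_jordan hT w).1
  rcases pl_jordan_vert hT w (T.src d) with hv | hv | hv
  · exact absurd hlt (not_lt.2 (hw.ann _ hv).1)
  · have : d ∈ w.Left := hv d rfl
    rw [hR] at hd
    exact hd this
  · have : e ∈ w.Right := hv e hev
    rw [hR] at this
    exact this he

/-- **THE WHITE CIRCUIT IS CARRIED OVER**: everything outside the open ball `B(x, r₁)` is shared.      The inside of the circuit is NOT shared. -/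
theorem pvkn_circ (L : PvLocP T T' R pos pos' Kr) (hT : T.IsSph) (hT' : T'.IsSph) (hσ : ∀ d d', R d d' → σ (T.src d) = σ' (T'.src d')) (h12 : r₁ ≤ r₂) (hK : ∀ z, r₁ ≤ ‖z - x‖ → z ∈ Kr)
    (hfin : {d' : D' | ‖pos' (T'.src d') - x‖ ≤ r₂ ∧ ‖pos' (T'.tgt d') - x‖ ≤ r₂}.Finite) (hne : ∀ v' : V', ∃ d', T'.src d' = v') {w : T.Cyc} (hw : PvknCirc T pos x r₁ r₂ σ w) :
    ∃ w' : T'.Cyc, PvknCirc T' pos' x r₁ r₂ σ' w' ∧ ∀ d d', R d d' → (d ∈ w.Left ↔ d' ∈ w'.Left) := by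
  obtain ⟨w', P⟩ := pvloc_cyc_exists L.loc w fun k => pvlw_dart_src L (hK _ (hw.ann _ ⟨k, rfl⟩).1)
  have hR : w.Right ⊆ plDom R := fun d hd => pvlw_dart_src L (hK _ (pvkn_circ_right hT hw hd))
  have hL : ∀ d d', R d d' → (d ∈ w.Left ↔ d' ∈ w'.Left) := fun d d' h => pvkn_left L.loc hT hT' P hR h
  have hin : ∀ v' ∈ T'.VOf w'.Left, ‖pos' v' - x‖ ≤ r₂ := by
    rintro _ ⟨d', hd', rfl⟩
    by_contra hlt
    rw [not_le] at hlt
    obtain ⟨d, hd⟩ := pvlw_dart_src L.symm (d := d') (hK _ (h12.trans hlt.le))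
    have h1 := hw.inside _ ⟨d, (hL d d' hd).2 hd', rfl⟩
    rw [L.pos_eq d d' hd] at h1
    exact absurd h1 (not_le.2 hlt)
  refine ⟨w', ⟨hfin.subset fun d' hd' => ⟨hin _ ⟨d', hd', rfl⟩, hin _ ⟨T'.nxt d', (pl_left_face w' d').2 hd', rfl⟩⟩, ?_, ?_, ?_, hin⟩, hL⟩
  · rintro _ ⟨i, rfl⟩
    rw [← hσ _ _ (P.e_rel i)]
    exact hw.white _ ⟨i, rfl⟩
  · rintro _ ⟨i, rfl⟩
    rw [← L.pos_eq _ _ (P.e_rel i)]
    exact hw.ann _ ⟨i, rfl⟩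
  · intro v' hv'
    obtain ⟨d', rfl⟩ := hne v'
    by_contra hc
    have h1 : d' ∈ w'.Right := by
      rw [(pl_jordan hT' w').1]
      exact fun h => hc ⟨d', h, rfl⟩
    obtain ⟨d, hd, hdR⟩ := pvkn_right_bwd L.loc P hR h1
    have h2 := pvkn_circ_right hT hw hdR
    rw [L.pos_eq d d' hd] at h2
    exact absurd hv' (not_lt.2 h2)

end right

end Claimed.Agent.R289
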