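-- KEEP
import Claimed.Agent.R289.Tr.StabE
import Claimed.Agent.R289.Tr.KitN1

/-!
# Row 289 (S0537), THE WALL, ROAD E, file Tr/StabW : THE EVENTS OF THE KIT ARE CARRIED OVER BY A POSITIONED LOCAL ISOMORPHISM      (helper27, post of 29 id 86927: "27 take W"; prefix `pvhq_loc_`)      0 sorry

FOR THE FIELD `rd` (29): `L : PvLocP T T' R pos pos' Kr`, twin data `G : PvLocDat R 𝔇 𝔇'`, colours which agree at related darts.      All statements are one-directional; the converse = the same lemma at `L.symm`, `G.symm`.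
* sec. 1  `pvhq_loc_fz` (the frozen sites correspond), `pvhq_loc_WO` (**`WO(D)`**: twin path; `n = 0`: `Pth.nil`; `n = 1`: the banks are placed in `Kr`)
* sec. 2  `pvhq_loc_right` (the faces on the right of the circuit have no vertex in `closedBall x (5R)`), `pvhq_loc_circ` (**`PvhqCirc`**: through the RIGHT side, `pvkn_right_bwd` / `pvkn_left` of 29, `Int` forms)
* sec. 3  **`pvhq_loc_W`** (`PvhqW`), **`pvhq_loc_E`** (`PvhqE` v2: `pvlw_nbU` + `pvlw_nu` of 22 + the position clause), `pvhq_loc_M`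
* sec. 3b BRIDGE to the kit of record `pvknKit` of 29 (R19 (5)): `pvhq_M_eq_MU` (`rfl`), `pvhq_circ_kn`, **`pvhq_WK_of_W`** (`PvhqW` + `g₀ ⊆ closedBall x (5ρ)` ⟹ `PvwDat.WK`), `pvhq_E_kn`
* sec. 4  at the model: `pvhq_loc_fin` (`hfin`), **`pvhq_loc_kit`** (`E` and `W` of `pvhqKit` from `Y` to `Y'`)
-/

set_option autoImplicit false

namespace Claimed.Agent.R289

open Set Relation

variable {V D V' D' : Type} {T : PvMap V D} {T' : PvMap V' D'} {R : D → D' → Prop} {pos : V → ℂ} {pos' : V' → ℂ} {Kr : Set ℂ}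

/-! ## 1. `WO` -/

section wo

variable {𝔇 : PvwDat T} {𝔇' : PvwDat T'} {π : PvwPat} {σ : V → Bool} {σ' : V' → Bool}

/-- the frozen sites of twin data correspond -/
theorem pvhq_loc_fz (L : PvLocP T T' R pos pos' Kr) (G : PvLocDat R 𝔇 𝔇') (h2 : ∀ k, k ≤ 𝔇.g.n → pos (𝔇.g.v k) ∈ Kr) : PvLocSet T T' R 𝔇.fz 𝔇'.fz :=
  ((pvlw_fzY L.loc G).union (pvlw_pth_verts G.g)).union (pvlw_apx L G h2)

/-- a site over `Yout` is not in `YCL` -/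
theorem pvhq_loc_ycl (hW : π.Wf) (𝔇 : PvwDat T) {v : V} (hv : pos v ∈ π.Yout) : v ∉ 𝔇.YCL pos π := by
  have key : ∀ a, v ∉ pvwComp T (𝔇.Yraw pos π) a := by
    rintro a ⟨q, -, h1, h2⟩
    exact Set.disjoint_left.1 hW.disj (h2 v ⟨q.n, le_rfl, h1⟩).2 hv
  rintro (h | h)
  · exact key _ h
  · exact key _ h

/-- **`WO(D)` IS CARRIED OVER**: the outer lane and the white bank of `Σ⁺(t)` are placed in `Kr` -/
theorem pvhq_loc_WO (L : PvLocP T T' R pos pos' Kr) (G : PvLocDat R 𝔇 𝔇') (hW : π.Wf) (hY : π.Yout ⊆ Kr) (h2 : ∀ k, k ≤ 𝔇.g.n → pos (𝔇.g.v k) ∈ Kr)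
    (hp : ∀ v ∈ 𝔇.t.whP, pos v ∈ Kr) (hσ : ∀ d d', R d d' → σ (T.src d) = σ' (T'.src d')) (h : 𝔇.WO pos π σ) : 𝔇'.WO pos' π σ' := by
  obtain ⟨q, h0, h1, hq⟩ := h
  have Fp := pvlw_whP L.loc G.t
  have Fm := pvlw_whM L.loc G.s
  have Ff := pvhq_loc_fz L G h2
  rcases Nat.eq_zero_or_pos q.n with hn | hn
  · obtain ⟨v', k1, k2⟩ := Fp.1 _ h0
    obtain ⟨-, d', -, -, -⟩ := id k1
    refine ⟨PvMap.Pth.nil T' v' d', k2, ?_, ?_⟩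
    · rw [hn] at h1
      exact (Fm.iff L.loc k1).1 h1
    · rintro y ⟨i, hi0, hi1, -⟩
      exact absurd hi1 (Nat.not_lt_zero i)
  · obtain ⟨q', P⟩ := pvloc_pth_exists L.loc q hn (fun k hk => by
      refine pvlw_dart_src L ?_
      rw [q.src_e k hk]
      rcases Nat.eq_zero_or_pos k with rfl | hk0
      · exact hp _ h0
      · exact hY (hq _ ⟨k, hk0, hk, rfl⟩).2.1)
    refine ⟨q', (Fp.iff L.loc (P.v_rel 0 (Nat.zero_le _))).1 h0, ?_, ?_⟩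
    · rw [P.n_eq]
      exact (Fm.iff L.loc (P.v_rel _ le_rfl)).1 h1
    · intro y' hy'
      obtain ⟨y, k1, k2⟩ := (pvlw_pth_inner P).2 y' hy'
      obtain ⟨a1, a2, a3⟩ := hq y k2
      have hy : pos' y' ∈ π.Yout := by rw [← pvlw_pos L k1]; exact a2
      exact ⟨by rw [← pvloc_v_col hσ k1]; exact a1, hy, fun hf => a3.1 ((Ff.iff L.loc k1).2 hf), pvhq_loc_ycl hW 𝔇' hy⟩

end wo

/-! ## 2. the white circuit -/

section circ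

variable {x : ℂ} {ρ : ℝ} {σ : V → Bool} {σ' : V' → Bool}

/-- the faces on the right of a cycle round `closedBall x r` have no vertex in that ball -/
theorem pvhq_loc_right (hT : T.IsSph) {w : T.Cyc} {r : ℝ} (hr : ∀ v, ‖pos v - x‖ ≤ r → v ∈ T.Int w.Left) {d : D} (hd : d ∈ w.Right) : r < ‖pos (T.src d) - x‖ := by
  by_contra hlt
  rw [not_lt] at hlt
  rw [(pl_jordan hT w).1] at hd
  exact hd (hr _ hlt d rfl)

/-- **THE WHITE CIRCUIT IS CARRIED OVER**: everything outside `closedBall x (5ρ)` is shared; the inside of the circuit is NOT shared -/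
theorem pvhq_loc_circ (L : PvLocP T T' R pos pos' Kr) (hT : T.IsSph) (hT' : T'.IsSph) (hσ : ∀ d d', R d d' → σ (T.src d) = σ' (T'.src d')) (hK : ∀ z, 5 * ρ < ‖z - x‖ → z ∈ Kr)
    (hfin : {d' : D' | ‖pos' (T'.src d') - x‖ ≤ 6 * ρ ∧ ‖pos' (T'.tgt d') - x‖ ≤ 6 * ρ}.Finite) (h : PvhqCirc T pos x ρ σ) : PvhqCirc T' pos' x ρ σ' := by
  obtain ⟨w, -, hv, hr, hi⟩ := h
  have h56 : 5 * ρ < 6 * ρ := (hv _ ⟨0, rfl⟩).2.1.trans_le (hv _ ⟨0, rfl⟩).2.2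
  obtain ⟨w', P⟩ := pvloc_cyc_exists L.loc w fun k => pvlw_dart_src L (hK _ (hv _ ⟨k, rfl⟩).2.1)
  have hR : w.Right ⊆ plDom R := fun d hd => pvlw_dart_src L (hK _ (pvhq_loc_right hT hr hd))
  have hL : ∀ d d', R d d' → (d ∈ w.Left ↔ d' ∈ w'.Left) := fun d d' h => pvkn_left L.loc hT hT' P hR h
  have hv' : ∀ v' ∈ w'.verts, σ' v' = false ∧ 5 * ρ < ‖pos' v' - x‖ ∧ ‖pos' v' - x‖ ≤ 6 * ρ := by
    rintro _ ⟨i, rfl⟩
    rw [← hσ _ _ (P.e_rel i), ← L.pos_eq _ _ (P.e_rel i)]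
    exact hv _ ⟨i, rfl⟩
  have hi' : ∀ v' ∈ T'.Int w'.Left, ‖pos' v' - x‖ ≤ 6 * ρ := by
    intro v' hv'
    by_contra hlt
    rw [not_le] at hlt
    obtain ⟨v, k1⟩ := pvlw_vertex L.symm (hK _ (h56.trans hlt))
    have k2 : pvlocV T T' R v v' := pvloc_v_symm k1
    have hp : pos v = pos' v' := pvlw_pos L k2
    have hvI : v ∈ T.Int w.Left := by
      intro d hd
      obtain ⟨d', hdd⟩ := pvlw_dart_src L (d := d) (by rw [hd, hp]; exact hK _ (h56.trans hlt))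
      have h3 : T'.src d' = v' := pvloc_v_fn L.loc (hd ▸ pvloc_v_src hdd) k2
      exact (hL d d' hdd).2 (hv' d' h3)
    have h4 := hi v hvI
    rw [hp] at h4
    exact absurd h4 (not_le.2 hlt)
  have hin : ∀ d' ∈ w'.Left, ‖pos' (T'.src d') - x‖ ≤ 6 * ρ := by
    intro d' hd'
    rcases pl_jordan_vert hT' w' (T'.src d') with h | h | h
    · exact (hv' _ h).2.2
    · exact hi' _ h
    · have h5 := h d' rfl
      rw [(pl_jordan hT' w').1] at h5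
      exact absurd hd' h5
  refine ⟨w', hfin.subset fun d' hd' => ⟨hin d' hd', hin _ ((pl_left_face w' d').2 hd')⟩, hv', fun v' h5 d' hd' => ?_, hi'⟩
  by_contra hc
  have h1 : d' ∈ w'.Right := by
    rw [(pl_jordan hT' w').1]
    exact hc
  obtain ⟨d, hd, hdR⟩ := pvkn_right_bwd L.loc P hR h1
  have h2 := pvhq_loc_right hT hr hdR
  rw [L.pos_eq d d' hd, hd'] at h2
  exact absurd h5 (not_le.2 h2)

end circ

/-! ## 3. the two events of the kit -/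

section kit

variable {𝔇 : PvwDat T} {𝔇' : PvwDat T'} {π : PvwPat} {x : ℂ} {ρ : ℝ} {σ : V → Bool} {σ' : V' → Bool}

/-- **`W(D)` IS CARRIED OVER**.      `hcol` = everything off the collared lanes is shared, `hann` = the collared lanes lie in `closedBall x (5ρ)`, `hfz` = the frozen sites are placed in the shared part (field `far`) -/
theorem pvhq_loc_W (L : PvLocP T T' R pos pos' Kr) (hT : T.IsSph) (hT' : T'.IsSph) (G : PvLocDat R 𝔇 𝔇') (hW : π.Wf) (hcol : ∀ z, z ∉ π.Ycol → z ∈ Kr) (hann : ∀ z ∈ π.Ycol, ‖z - x‖ ≤ 5 * ρ)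
    (hfz : ∀ v ∈ 𝔇.fz, pos v ∈ Kr) (hσ : ∀ d d', R d d' → σ (T.src d) = σ' (T'.src d'))
    (hfin : {d' : D' | ‖pos' (T'.src d') - x‖ ≤ 6 * ρ ∧ ‖pos' (T'.tgt d') - x‖ ≤ 6 * ρ}.Finite) (h : PvhqW 𝔇 pos π x ρ σ) : PvhqW 𝔇' pos' π x ρ σ' :=
  ⟨pvhq_loc_WO L G hW (fun z hz => hcol z fun hc => Set.disjoint_left.1 hW.col hc hz) (fun k hk => hfz _ (Or.inl (Or.inr ⟨k, hk, rfl⟩)))
      (fun v hv => hfz v (Or.inl (Or.inl (Or.inl (Or.inr hv))))) hσ h.1,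
    pvhq_loc_circ L hT hT' hσ (fun z hz => hcol z fun hc => absurd (hann z hc) (not_le.2 hz)) hfin h.2⟩

/-- the sites which `E(D)` reads correspond -/
theorem pvhq_loc_M (L : PvLocP T T' R pos pos' Kr) (G : PvLocDat R 𝔇 𝔇') (hcol : ∀ z, z ∉ π.Ycol → z ∈ Kr) (hfz : ∀ v ∈ 𝔇.fz, pos v ∈ Kr) {v : V} {v' : V'} (hv : pvlocV T T' R v v') :
    v ∈ pvhqM 𝔇 pos π x ρ ↔ v' ∈ pvhqM 𝔇' pos' π x ρ := by
  show (v ∈ 𝔇.NU pos π ∧ ‖pos v - x‖ ≤ 6 * ρ) ↔ (v' ∈ 𝔇'.NU pos' π ∧ ‖pos' v' - x‖ ≤ 6 * ρ)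
  rw [pvlw_nu L G (fun i hi => hfz _ (Or.inl (Or.inl (Or.inr (Or.inl (Or.inr ⟨i, hi, rfl⟩)))))) (fun z hz => hcol z hz.2) hv, pvlw_pos L hv]

/-- the inner arc of a gate: at least one dart, it ends at `g⁺` -/
theorem pvhq_loc_inn {𝔖 : PvwSt T} {h : ℝ} {z : ℂ} {τ : PvwTy} {s : V → Bool} (hg : 𝔖.Gate pos h z τ s) : 0 < 𝔖.inn.n ∧ 𝔖.inn.v 𝔖.inn.n = 𝔖.gp := by
  obtain ⟨n, h1, -, j, a0, an, a1, -⟩ := hg.strand
  have e2 : 𝔖.inn.v 𝔖.inn.n = 𝔖.gp := by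
    have e1 := (a1 𝔖.inn.n le_rfl).2.1
    rw [an] at e1
    rw [e1]; show T.src (pvasIt T s 𝔖.dm n) = _; rw [h1]; rfl
  have e3 : 𝔖.inn.v 0 = 𝔖.gm := a0
  refine ⟨Nat.pos_of_ne_zero fun h0 => hg.ne ?_, e2⟩
  rw [← e2, h0, e3]

/-- **`E(D)` IS CARRIED OVER** -/
theorem pvhq_loc_E (L : PvLocP T T' R pos pos' Kr) (G : PvLocDat R 𝔇 𝔇') (hcol : ∀ z, z ∉ π.Ycol → z ∈ Kr) (hfz : ∀ v ∈ 𝔇.fz, pos v ∈ Kr) {N : PvwNum} {h : ℝ} (hok : 𝔇.Ok pos N h π)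
    (hσ : ∀ d d', R d d' → σ (T.src d) = σ' (T'.src d')) (hE : PvhqE 𝔇 pos π x ρ σ) : PvhqE 𝔇' pos' π x ρ σ' := by
  obtain ⟨s1, s3⟩ := pvhq_loc_inn hok.st_s.gate
  obtain ⟨t1, -⟩ := pvhq_loc_inn hok.st_t.gate
  refine ⟨pvlw_nbU L G.s.gt.inn G.g G.t.gt.inn (fun k hk => hfz _ (Or.inl (Or.inr ⟨k, hk, rfl⟩))) s1 t1 ?_ hσ (fun v' hv' => hcol _ hv'.1.2)
    (fun v v' hv hv' => (pvhq_loc_M L G hcol hfz hv).2 hv') hE.1, fun v' hv' => ?_⟩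
  · rw [𝔇.s.inn.tgt_e _ (by omega), hok.g0, ← s3]
    congr 1; omega
  · obtain ⟨v, k1, k2⟩ := (pvlw_pth_verts G.g).2 v' hv'
    rw [← pvlw_pos L k1]
    exact hE.2 v k2

end kit

/-! ## 3b. BRIDGE to the kit of record `pvknKit` (29; R19 (5) of 234) -/

section bridge

variable {𝔇 : PvwDat T} {π : PvwPat} {x : ℂ} {ρ : ℝ} {σ : V → Bool}

/-- `M` of `Tr/StabE` IS `MU` of `Tr/KitN1` -/
theorem pvhq_M_eq_MU (𝔇 : PvwDat T) (pos : V → ℂ) (π : PvwPat) (x : ℂ) (ρ : ℝ) : pvhqM 𝔇 pos π x ρ = 𝔇.MU pos π x (6 * ρ) := rfl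

/-- a circuit in the `Int` form is a circuit in the gate form -/
theorem pvhq_circ_kn (hT : T.IsSph) {w : T.Cyc} (hf : w.Left.Finite) (hv : ∀ v ∈ w.verts, σ v = false ∧ 5 * ρ < ‖pos v - x‖ ∧ ‖pos v - x‖ ≤ 6 * ρ)
    (hr : ∀ v, ‖pos v - x‖ ≤ 5 * ρ → v ∈ T.Int w.Left) (hi : ∀ v ∈ T.Int w.Left, ‖pos v - x‖ ≤ 6 * ρ) : PvknCirc T pos x (5 * ρ) (6 * ρ) σ w where
  fin := hf
  white v h := (hv v h).1
  ann v h := ⟨(hv v h).2.1.le, (hv v h).2.2⟩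
  round v h := by
    obtain ⟨d, hd⟩ := pl_cyc_dart_at hT w v
    exact ⟨d, hr v h.le d hd, hd⟩
  inside := by
    rintro _ ⟨d, hd, rfl⟩
    rcases pl_jordan_vert hT w (T.src d) with h | h | h
    · exact (hv _ h).2.2
    · exact hi _ h
    · have h5 := h d rfl
      rw [(pl_jordan hT w).1] at h5
      exact absurd hd h5

/-- **`PvhqW` + `g₀ ⊆ closedBall x (5ρ)` ⟹ `W` OF THE KIT OF RECORD** (`PvwDat.WK`): the producers of `PvhqCirc` / `PvhqW` (130 `Tr/PatchH`: `pve6h_W_col`) serve `pvknKit` -/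
theorem pvhq_WK_of_W (hT : T.IsSph) (hg0 : 𝔇.g.v 0 = 𝔇.s.gp) (hg : ∀ v ∈ 𝔇.g.verts, ‖pos v - x‖ ≤ 5 * ρ) (h : PvhqW 𝔇 pos π x ρ σ) : 𝔇.WK pos π x (5 * ρ) (6 * ρ) σ := by
  obtain ⟨hwo, w, hf, hv, hr, hi⟩ := h
  refine ⟨hwo, w, pvhq_circ_kn hT hf hv hr hi, fun v hvg => hr v (hg v hvg), ?_⟩
  exact hr _ (hg _ ⟨0, Nat.zero_le _, rfl⟩) 𝔇.s.dp hg0.symm

/-- `E` of `Tr/StabE` v2 gives `E` of the kit of record -/
theorem pvhq_E_kn (h : PvhqE 𝔇 pos π x ρ σ) : 𝔇.NBon (𝔇.MU pos π x (6 * ρ)) σ := h.1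

end bridge

/-! ## 4. at the model -/

section model

open scoped ENNReal

/-- the darts of the Delaunay plane with both ends in a ball are finitely many (`hfin`) -/
theorem pvhq_loc_fin {Y : Set ℂ} (lf : VorLF Y) (x : ℂ) (r : ℝ) :
    {d : (delbPl Y).Dart | ‖(((delbPl Y).toMap.src d : ↥Y) : ℂ) - x‖ ≤ r ∧ ‖(((delbPl Y).toMap.tgt d : ↥Y) : ℂ) - x‖ ≤ r}.Finite := by
  have hF := pvkn_ball_finite lf x r
  refine Set.Finite.of_finite_image (f := fun d : (delbPl Y).Dart => ((delbPl Y).toMap.src d, (delbPl Y).toMap.tgt d)) ((hF.prod hF).subset ?_) ?_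
  · rintro _ ⟨d, hd, rfl⟩
    exact ⟨hd.1, hd.2⟩
  · intro d _ d' _ h
    exact pvmo_ext (congrArg (fun p : ↥Y × ↥Y => (p.1 : ℂ)) h) (congrArg (fun p : ↥Y × ↥Y => (p.2 : ℂ)) h)

/-- **THE TWO EVENTS OF `pvhqKit` ARE CARRIED OVER** from `Y` to `Y'` along a positioned local isomorphism of the two Delaunay planes (for `rd`: `Kr = pvgeFar C r`) -/
theorem pvhq_loc_kit {Y Y' : Set ℂ} (hY : DelGood Y) (hY' : DelGood Y') {Rl : (delbPl Y).Dart → (delbPl Y').Dart → Prop} {Kr : Set ℂ}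
    (L : PvLocP (delbPl Y).toMap (delbPl Y').toMap Rl Subtype.val Subtype.val Kr) {𝔇 : PvwDat (delbPl Y).toMap} {𝔇' : PvwDat (delbPl Y').toMap} (G : PvLocDat Rl 𝔇 𝔇')
    {x : ℂ} {ρ : ℝ} {π₀ : PvwPat} (C : Set ℂ) (r : ℝ) (q : ℝ≥0∞) (hW : π₀.Wf) (hcol : ∀ z, z ∉ π₀.Ycol → z ∈ Kr) (hann : ∀ z ∈ π₀.Ycol, ‖z - x‖ ≤ 5 * ρ)
    (hfz : ∀ v ∈ 𝔇.fz, (v : ℂ) ∈ Kr) {N : PvwNum} {h : ℝ} (hok : 𝔇.Ok Subtype.val N h π₀) {σ : ↥Y → Bool} {σ' : ↥Y' → Bool}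
    (hσ : ∀ d d', Rl d d' → σ ((delbPl Y).toMap.src d) = σ' ((delbPl Y').toMap.src d')) :
    ((pvhqKit x ρ π₀ C r q).E Y 𝔇 σ → (pvhqKit x ρ π₀ C r q).E Y' 𝔇' σ') ∧ ((pvhqKit x ρ π₀ C r q).W Y 𝔇 σ → (pvhqKit x ρ π₀ C r q).W Y' 𝔇' σ') :=
  ⟨fun hE => pvhq_loc_E L G hcol hfz hok hσ hE, fun hw => pvhq_loc_W L (pvmo_sph hY) (pvmo_sph hY') G hW hcol hann hfz hσ (pvhq_loc_fin hY'.lf x (6 * ρ)) hw⟩

end model

end Claimed.Agent.R289
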