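-- KEEP
import Claimed.Agent.R289.Defs.FitRec
import Claimed.Agent.R289.Tr.Geo
import Claimed.Agent.R289.Exit.N1
import Claimed.Agent.R289.Exit.FitWf

/-!
# Row 289 (S0537), THE WALL, ROAD E, file Tr/FitFz : (FZ) = THE FROZEN SITES OF `D_Y` ARE FAR FROM THE CELLS OF THE CORRIDOR      (helper274; RULING 20 (1) AMENDED of 234, 11:54Z; prefix `pvffz_`, `Pvffz`)

(FZ) is NOT a clause of `pvxFit`: it is PAID AT THE INDEX by `PvfeIx` v5 (209, `Defs/FitReg`: `lk`, `sep`) + `PvfeDoors` + the hull equalities of `pvxFit` / `PvxnWit` + "frozen ⊆ own box" (`StubP.ep_in`, `Gate.dsc_eq`).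
* sec. 1  straight links: `pvffz_first`, `pvffz_last` (doors, frames, centres of the first `nt` / last `ns` cells)
* sec. 2  axis directions: the normal coordinate
* sec. 3  one door against its own box (`pvffz_own`: margin `ρ h / 8 - δ`), against the other box (`pvffz_reach` + `sep`)
* sec. 4  **`pvffz_pts`** (POINT FORM, no map): a point `w` of one of the two own boxes which lies over the hulls is `> 2 δ` away from EVERY cell centre (`2 δ` = `PvfeLk` v6);   `PvffzOff Γ p w` := this conclusion;   `PvffzOff.tube2 .col .lanes .tube` (`> (2 - κ) δ` from `pvfeTube κ`; `κ = 1`: the balls `closedBall (C i) δ` contain the cells and the door squares), `.far` (`pvgeFar C r` for every `C ⊆ pvfeTube κ`, `3 r ≤ (2 - κ) δ`), `.door`;   `PvffzGap Γ p g w` (any gap `g`): `.move .tube .far`, `pvffz_region`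
* sec. 5  ANY MAP: `pvffz_out_box`, `pvffz_in_box` (frozen ⊆ own box), **`pvffz_half`** (two half states), **`pvffz_dat`** (`𝔇.Ok` at the regions of record + hull equalities), **`pvffz_discs`** (REGION form for the two closed core discs, mesh `μ` of the core sites: gap `2 δ - μ`; 63)
* sec. 6  AT THE MODEL: `pvffz_num`, **`pvffz_model`**, **`pvffz_wit`** (`PvxnWit` of 170), `pvffz_model_col` (= `hfz` of 194 `pvwm_Col_reg`, `Pvc2Col.fz` of 227, `hfz` of 27), `pvffz_model_discs`, **`pvffz_fit`** (`pvxFit`), `pvffz_fine_at`, **`pvffz_wit_at`** (at `pvxParOf N hN c`, `N.m0 ≤ m`)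
-/

set_option autoImplicit false

namespace Claimed.Agent.R289

open Set Metric Complex Claims.C0465

/-! ## 1. straight links -/

/-- the first `n` letters are `S`: doors and frames of the first link -/
theorem pvffz_first (z d : ℂ) (l : List PvtTurn) {n : ℕ} (hn : n ≤ l.length) (hS : ∀ i, i < n → pvccT l i = PvtTurn.S) :
    ∀ i, i ≤ n → pvccD d l i = d ∧ pvccZ z d l i = z + (i : ℂ) * d := by
  intro i
  induction i with
  | zero => intro _; simp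
  | succ i ih =>
    intro hi
    obtain ⟨h1, h2⟩ := ih (by omega)
    have hl : i < l.length := by omega
    rw [pvccD_succ d l hl, pvccZ_succ z d l hl, hS i (by omega), h1, h2]
    refine ⟨by simp [PvtTurn.rot], ?_⟩
    simp only [PvtTurn.mid]
    push_cast
    ring

/-- centres of the first link -/
theorem pvffz_first_C (z d : ℂ) (l : List PvtTurn) {n : ℕ} (hn : n ≤ l.length) (hS : ∀ i, i < n → pvccT l i = PvtTurn.S) {i : ℕ} (hi : i ≤ n) :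
    pvccC z d l i = z + d / 2 + (i : ℂ) * d := by
  obtain ⟨h1, h2⟩ := pvffz_first z d l hn hS i hi
  unfold pvccC
  rw [h1, h2]
  ring

/-- the last `n` letters are `S`: doors and frames of the last link, counted backwards from the last door -/
theorem pvffz_last (z d : ℂ) (l : List PvtTurn) {n : ℕ} (hn : n ≤ l.length) (hS : ∀ i, l.length ≤ i + n → i < l.length → pvccT l i = PvtTurn.S) :
    ∀ k, k ≤ n → pvccD d l (l.length - k) = pvccD d l l.length ∧ pvccZ z d l (l.length - k) = pvccZ z d l l.length - (k : ℂ) * pvccD d l l.length := by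
  intro k
  induction k with
  | zero => intro _; simp
  | succ k ih =>
    intro hk
    obtain ⟨h1, h2⟩ := ih (by omega)
    have hl : l.length - (k + 1) < l.length := by omega
    have e : l.length - (k + 1) + 1 = l.length - k := by omega
    have hD := pvccD_succ d l hl
    have hZ := pvccZ_succ z d l hl
    rw [e, hS _ (by omega) hl] at hD hZ
    simp only [PvtTurn.rot, PvtTurn.mid, mul_one] at hD hZ
    rw [h1] at hD
    rw [h2] at hZ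
    refine ⟨hD.symm, ?_⟩
    rw [← hD] at hZ
    push_cast
    linear_combination -hZ

/-- centres of the last link: the cell number `len - k`, `1 ≤ k ≤ n` -/
theorem pvffz_last_C (z d : ℂ) (l : List PvtTurn) {n : ℕ} (hn : n ≤ l.length) (hS : ∀ i, l.length ≤ i + n → i < l.length → pvccT l i = PvtTurn.S) {k : ℕ} (hk : k + 1 ≤ n) :
    pvccC z d l (l.length - (k + 1)) = pvccZ z d l l.length - pvccD d l l.length / 2 - (k : ℂ) * pvccD d l l.length := by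
  obtain ⟨h1, h2⟩ := pvffz_last z d l hn hS (k + 1) hk
  unfold pvccC
  rw [h1, h2]
  push_cast
  ring

/-! ## 2. axis directions -/

theorem pvffz_dir {u : ℤ × ℤ} (hu : PvfeDir u) : pvtZ u = 1 ∨ pvtZ u = -1 ∨ pvtZ u = I ∨ pvtZ u = -I := by
  rcases hu with rfl | rfl | rfl | rfl <;> simp [pvtZ]

/-- consecutive centres of cells -/
theorem pvffz_ctr_sub (δ : ℝ) (e u : ℤ × ℤ) : pvtCtr δ e - pvtCtr δ (e - u) = (δ : ℂ) * pvtZ u := by
  apply Complex.ext <;> simp [pvtCtr, pvtZ] <;> ring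

/-- the normal coordinate is at most the norm -/
theorem pvffz_nu_le {U : ℂ} (hU : U = 1 ∨ U = -1 ∨ U = I ∨ U = -I) (w : ℂ) : (w * (starRingEnd ℂ) U).re ≤ ‖w‖ := by
  have h1 := Complex.re_le_norm (w * (starRingEnd ℂ) U)
  have h2 : ‖(starRingEnd ℂ) U‖ = 1 := by
    rw [Complex.norm_conj]
    rcases hU with rfl | rfl | rfl | rfl <;> simp
  rwa [norm_mul, h2, mul_one] at h1

/-- the normal coordinate is at most the sup norm -/
theorem pvffz_nu_sq {U : ℂ} (hU : U = 1 ∨ U = -1 ∨ U = I ∨ U = -I) {w : ℂ} {r : ℝ} (h1 : |w.re| ≤ r) (h2 : |w.im| ≤ r) : (w * (starRingEnd ℂ) U).re ≤ r := by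
  obtain ⟨a1, a2⟩ := abs_le.1 h1
  obtain ⟨b1, b2⟩ := abs_le.1 h2
  rcases hU with rfl | rfl | rfl | rfl <;> simp <;> linarith

theorem pvffz_nu_self {U : ℂ} (hU : U = 1 ∨ U = -1 ∨ U = I ∨ U = -I) : (U * (starRingEnd ℂ) U).re = 1 := by
  rcases hU with rfl | rfl | rfl | rfl <;> simp

theorem pvffz_norm_U {U : ℂ} (hU : U = 1 ∨ U = -1 ∨ U = I ∨ U = -I) : ‖U‖ = 1 := by
  rcases hU with rfl | rfl | rfl | rfl <;> simp

theorem pvffz_norm_le_N (y : ℂ) : ‖y‖ ≤ 2 * pvccN y := by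
  have h1 := Complex.norm_le_abs_re_add_abs_im y
  have h2 : |y.re| ≤ pvccN y := le_max_left _ _
  have h3 : |y.im| ≤ pvccN y := le_max_right _ _
  linarith

/-! ## 3. one door against the two boxes -/

section door

variable {δ h ρ rk : ℝ} {y E U w : ℂ}

/-- **the cells of a straight link which starts at the base cell `E` of a door lie OUTSIDE THE OWN BOX**, margin `ρ h / 8 - δ`      (everything relative to the centre of the pin) -/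
theorem pvffz_own (hU : U = 1 ∨ U = -1 ∨ U = I ∨ U = -I) (hE : ‖E - (h : ℂ) * (y + ((3 * ρ / 8 : ℝ) : ℂ) * U)‖ ≤ δ) (hy : (y * (starRingEnd ℂ) U).re = pvccN y)
    (hnd : |pvccN y - rk| ≤ ρ / 4) (h0 : 0 < h) (hδ : 0 ≤ δ) (hfine : 32 * δ < ρ * h) (hw1 : |w.re| ≤ rk * h) (hw2 : |w.im| ≤ rk * h) (k : ℕ) :
    3 * δ < ‖w - (E + (k : ℂ) * ((δ : ℂ) * U))‖ := by
  have n1 := pvffz_nu_le hU ((E + (k : ℂ) * ((δ : ℂ) * U)) - w)
  have n2 := pvffz_nu_le hU ((h : ℂ) * (y + ((3 * ρ / 8 : ℝ) : ℂ) * U) - E)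
  have n3 := pvffz_nu_sq hU hw1 hw2
  have n4 := pvffz_nu_self hU
  rw [norm_sub_rev] at n2
  rw [norm_sub_rev] at n1
  obtain ⟨d1, -⟩ := abs_le.1 hnd
  -- expand the normal coordinates
  have e1 : (((E + (k : ℂ) * ((δ : ℂ) * U)) - w) * (starRingEnd ℂ) U).re = (E * (starRingEnd ℂ) U).re + (k : ℝ) * δ * (U * (starRingEnd ℂ) U).re - (w * (starRingEnd ℂ) U).re := by
    have : ((E + (k : ℂ) * ((δ : ℂ) * U)) - w) * (starRingEnd ℂ) U = E * (starRingEnd ℂ) U + (((k : ℝ) * δ : ℝ) : ℂ) * (U * (starRingEnd ℂ) U) - w * (starRingEnd ℂ) U := by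
      push_cast; ring
    rw [this, Complex.sub_re, Complex.add_re, Complex.re_ofReal_mul]
  have e2 : (((h : ℂ) * (y + ((3 * ρ / 8 : ℝ) : ℂ) * U) - E) * (starRingEnd ℂ) U).re = h * (y * (starRingEnd ℂ) U).re + h * (3 * ρ / 8) * (U * (starRingEnd ℂ) U).re - (E * (starRingEnd ℂ) U).re := by
    have : ((h : ℂ) * (y + ((3 * ρ / 8 : ℝ) : ℂ) * U) - E) * (starRingEnd ℂ) U = (h : ℂ) * (y * (starRingEnd ℂ) U) + ((h * (3 * ρ / 8) : ℝ) : ℂ) * (U * (starRingEnd ℂ) U) - E * (starRingEnd ℂ) U := by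
      push_cast; ring
    rw [this, Complex.sub_re, Complex.add_re, Complex.re_ofReal_mul, Complex.re_ofReal_mul]
  rw [e1, n4] at n1
  rw [e2, n4, hy] at n2
  have k0 : (0 : ℝ) ≤ (k : ℝ) * δ := mul_nonneg (Nat.cast_nonneg k) hδ
  have h3 : h * (rk - ρ / 4) ≤ h * pvccN y := mul_le_mul_of_nonneg_left (by linarith) h0.le
  nlinarith

/-- the cells of a straight link of length `≤ L` stay near the own box -/
theorem pvffz_reach (hU : U = 1 ∨ U = -1 ∨ U = I ∨ U = -I) (hE : ‖E - (h : ℂ) * (y + ((3 * ρ / 8 : ℝ) : ℂ) * U)‖ ≤ δ)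
    (hnd : |pvccN y - rk| ≤ ρ / 4) (h0 : 0 < h) (hδ : 0 ≤ δ) (hρ : 0 ≤ ρ) {k : ℕ} {L : ℝ} (hk : (k : ℝ) * δ ≤ L) :
    ‖E + (k : ℂ) * ((δ : ℂ) * U)‖ ≤ 2 * (rk * h) + 7 / 8 * (ρ * h) + L + δ := by
  obtain ⟨-, d2⟩ := abs_le.1 hnd
  have hN := pvffz_norm_le_N y
  have hu := pvffz_norm_U hU
  have a1 : ‖(k : ℂ) * ((δ : ℂ) * U)‖ = (k : ℝ) * δ := by
    rw [norm_mul, norm_mul, hu, mul_one, Complex.norm_natCast, Complex.norm_real, Real.norm_eq_abs, abs_of_nonneg hδ]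
  have a2 : ‖(h : ℂ) * (y + ((3 * ρ / 8 : ℝ) : ℂ) * U)‖ ≤ h * (‖y‖ + 3 * ρ / 8) := by
    rw [norm_mul, Complex.norm_real, Real.norm_eq_abs, abs_of_pos h0]
    refine mul_le_mul_of_nonneg_left ((norm_add_le _ _).trans ?_) h0.le
    rw [norm_mul, hu, mul_one, Complex.norm_real, Real.norm_eq_abs, abs_of_nonneg (by positivity)]
  have a3 : ‖E‖ ≤ ‖(h : ℂ) * (y + ((3 * ρ / 8 : ℝ) : ℂ) * U)‖ + δ := by
    have := norm_add_le (E - (h : ℂ) * (y + ((3 * ρ / 8 : ℝ) : ℂ) * U)) ((h : ℂ) * (y + ((3 * ρ / 8 : ℝ) : ℂ) * U))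
    rw [sub_add_cancel] at this
    linarith
  have a4 := norm_add_le E ((k : ℂ) * ((δ : ℂ) * U))
  have a5 : h * (‖y‖ + 3 * ρ / 8) ≤ h * (2 * (rk + ρ / 4) + 3 * ρ / 8) := mul_le_mul_of_nonneg_left (by linarith) h0.le
  rw [a1] at a4
  nlinarith

end door

theorem pvffz_sq_norm {z w : ℂ} {r : ℝ} (h : w ∈ pvwSq z r) : ‖w - z‖ ≤ 2 * r := by
  obtain ⟨h1, h2⟩ := h
  have := Complex.norm_le_abs_re_add_abs_im (w - z)
  linarith

theorem pvffz_tri (a b w c : ℂ) : ‖a - b‖ ≤ ‖w - a‖ + ‖w - c‖ + ‖c - b‖ := by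
  have e : a - b = -(w - a) + (w - c) + (c - b) := by ring
  rw [e]
  refine (norm_add_le _ _).trans (add_le_add ((norm_add_le _ _).trans ?_) le_rfl)
  rw [norm_neg]

/-! ## 4. THE POINT FORM -/

section pts

variable {τ : Type}

/-- the numbers which (FZ) uses -/
structure PvffzNum (Γ : PvtsGeo τ) (N : PvwNum) (h : ℝ) : Prop where
  δ0 : 0 < Γ.δ
  h0 : 0 < h
  rho_le : N.rho ≤ 1
  rho1 : 0 ≤ N.rho1
  /-- the level is fine: `32 δ < ρ h` -/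
  fine : 32 * Γ.δ < N.rho * h

variable {Γ : PvtsGeo τ} {ty : τ → PvwTy} {N : PvwNum} {h : ℝ} {p : PvtsPat τ}

theorem PvffzNum.rho0 (hn : PvffzNum Γ N h) : 0 < N.rho := by
  have h1 := hn.δ0
  have h2 := hn.fine
  have h3 := hn.h0
  by_contra hc
  rw [not_lt] at hc
  nlinarith

theorem pvffz_rad_mono (hn : PvffzNum Γ N h) (t : PvwTy) {k K : ℕ} (hk : k ≤ K) : pvwRad N h t k ≤ pvwRad N h t K := by
  unfold pvwRad
  have h1 : (k : ℝ) ≤ K := Nat.cast_le.2 hk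
  have h2 := hn.rho1
  have h3 := hn.h0
  have h4 : (k : ℝ) * N.rho1 ≤ K * N.rho1 := mul_le_mul_of_nonneg_right h1 h2
  nlinarith

/-- the frame at the last door -/
theorem pvffz_last_frame (hΓ : Γ.Ok p) : pvccD (pvfeD Γ p) p.l p.l.length = (Γ.δ : ℂ) * Γ.din p.ts := by
  rw [pvccD_length, ← hΓ.2]
  unfold pvfeD
  rw [pvtDir_eq_mul_one, pvtDir_eq_mul_one (Γ.dout p.tt)]
  ring

/-- **(FZ), POINT FORM**: a point of one of the two own boxes, over the hulls, is more than `2 δ` away from every cell centre of the corridor      (`2 δ`: `PvfeLk` v6 of 209) -/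
theorem pvffz_pts (hn : PvffzNum Γ N h) (hΓ : Γ.Ok p) (hD : PvfeDoors Γ ty N h) {Z : Set (ℤ × ℤ)} (hI : PvfeIx Γ ty N h p Z) (hks : (ty p.ts).k ≤ N.K) (hkt : (ty p.tt).k ≤ N.K) {w : ℂ}
    (hw : w ∈ pvwSq p.zs (pvwRad N h (ty p.ts) (ty p.ts).k) ∨ w ∈ pvwSq p.zt (pvwRad N h (ty p.tt) (ty p.tt).k)) (hZ : w ∈ pvtU Γ.δ Z) {i : ℕ} (hi : i < p.l.length) :
    2 * Γ.δ < ‖w - pvccC (pvfeZ Γ p) (pvfeD Γ p) p.l i‖ := by
  obtain ⟨nt, ns, h1, hnt0, hns0, hSt, hSs, -, -, hmid⟩ := hI.lk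
  have δ0 := hn.δ0
  have h0 := hn.h0
  have ρ0 := hn.rho0
  have ρ1 := hn.rho_le
  -- (robust against the constants of `PvfeLk`: `rL ∈ {ρ h, 3 ρ h}`, collar `(3 ‖d‖, pvtN8 Z)` or `(2 ‖d‖, Z)`)
  have hnt : (nt : ℝ) * Γ.δ ≤ 3 * N.rho * h := hnt0.trans (by nlinarith)
  have hns : (ns : ℝ) * Γ.δ ≤ 3 * N.rho * h := hns0.trans (by nlinarith)
  have hfine := hn.fine
  have hsep := hI.sep
  have mks := pvffz_rad_mono hn (ty p.ts) hks
  have mkt := pvffz_rad_mono hn (ty p.tt) hkt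
  have hρh : N.rho * h ≤ h := by nlinarith
  by_cases c1 : i < nt
  · -- the first link
    obtain ⟨e, u, hu, hpo, hdo, hE, hy⟩ := hD.out p.tt
    have hU := pvffz_dir hu
    have hC : pvccC (pvfeZ Γ p) (pvfeD Γ p) p.l i = p.zt + (pvtCtr Γ.δ e + (i : ℂ) * ((Γ.δ : ℂ) * pvtZ u)) := by
      rw [pvffz_first_C _ _ _ (show nt ≤ p.l.length by omega) hSt c1.le]
      unfold pvfeZ pvfeD
      rw [hpo, hdo]
      linear_combination (-1 / 2 : ℂ) * pvffz_ctr_sub Γ.δ e u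
    rcases hw with hw | hw
    · have hk : (i : ℝ) * Γ.δ ≤ 3 * N.rho * h := le_trans (mul_le_mul_of_nonneg_right (Nat.cast_le.2 c1.le) δ0.le) hnt
      have r1 := pvffz_reach hU hE (hD.nd_p p.tt) h0 δ0.le ρ0.le hk
      have r2 := pvffz_sq_norm hw
      have r3 := pvffz_tri p.zs p.zt w (pvccC (pvfeZ Γ p) (pvfeD Γ p) p.l i)
      have r4 : pvccC (pvfeZ Γ p) (pvfeD Γ p) p.l i - p.zt = pvtCtr Γ.δ e + (i : ℂ) * ((Γ.δ : ℂ) * pvtZ u) := by rw [hC]; ring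
      rw [r4] at r3
      have r5 : (2 * (ty p.tt).b2 + (ty p.tt).k * N.rho1) * h = pvwRad N h (ty p.tt) (ty p.tt).k := rfl
      rw [r5] at r1
      linarith
    · have r1 := pvffz_own (w := w - p.zt) hU hE hy (hD.nd_p p.tt) h0 δ0.le hfine hw.1 hw.2 i
      rw [hC]
      have e2 : w - (p.zt + (pvtCtr Γ.δ e + (i : ℂ) * ((Γ.δ : ℂ) * pvtZ u))) = w - p.zt - (pvtCtr Γ.δ e + (i : ℂ) * ((Γ.δ : ℂ) * pvtZ u)) := by ring
      rw [e2]
      linarith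
  by_cases c2 : i + ns < p.l.length
  · -- the middle cells
    have hd := hmid i (not_lt.1 c1) c2
    have hnot : w ∉ closedBall (pvccC (pvfeZ Γ p) (pvfeD Γ p) p.l i) (2 * ‖pvfeD Γ p‖) := fun hc =>
      (Set.disjoint_left.1 hd) (closedBall_subset_closedBall (by nlinarith [norm_nonneg (pvfeD Γ p)]) hc) (by first | exact hZ | exact pvt_U_mono pvt_N8_sub hZ)
    rw [mem_closedBall_iff_norm, not_le, pvfe_norm_D, abs_of_pos δ0] at hnot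
    exact hnot
  · -- the last link
    obtain ⟨e, u, hu, hpi, hdi, hE, hy⟩ := hD.inn p.ts
    have hU := pvffz_dir hu
    obtain ⟨k, hk, hk1⟩ : ∃ k, i = p.l.length - (k + 1) ∧ k + 1 ≤ ns := ⟨p.l.length - 1 - i, by omega, by omega⟩
    have hC : pvccC (pvfeZ Γ p) (pvfeD Γ p) p.l i = p.zs + (pvtCtr Γ.δ e + (k : ℂ) * ((Γ.δ : ℂ) * pvtZ u)) := by
      rw [hk, pvffz_last_C _ _ _ (show ns ≤ p.l.length by omega) hSs hk1, pvfe_last_door Γ hΓ, pvffz_last_frame hΓ, hpi, hdi]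
      linear_combination (-1 / 2 : ℂ) * pvffz_ctr_sub Γ.δ e u
    rcases hw with hw | hw
    · have r1 := pvffz_own (w := w - p.zs) hU hE hy (hD.nd_m p.ts) h0 δ0.le hfine hw.1 hw.2 k
      rw [hC]
      have e2 : w - (p.zs + (pvtCtr Γ.δ e + (k : ℂ) * ((Γ.δ : ℂ) * pvtZ u))) = w - p.zs - (pvtCtr Γ.δ e + (k : ℂ) * ((Γ.δ : ℂ) * pvtZ u)) := by ring
      rw [e2]
      linarith
    · have hk' : (k : ℝ) * Γ.δ ≤ 3 * N.rho * h := le_trans (mul_le_mul_of_nonneg_right (Nat.cast_le.2 (show k ≤ ns by omega)) δ0.le) hns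
      have r1 := pvffz_reach hU hE (hD.nd_m p.ts) h0 δ0.le ρ0.le hk'
      have r2 := pvffz_sq_norm hw
      have r3 := pvffz_tri p.zt p.zs w (pvccC (pvfeZ Γ p) (pvfeD Γ p) p.l i)
      have r4 : pvccC (pvfeZ Γ p) (pvfeD Γ p) p.l i - p.zs = pvtCtr Γ.δ e + (k : ℂ) * ((Γ.δ : ℂ) * pvtZ u) := by rw [hC]; ring
      rw [r4, norm_sub_rev p.zt p.zs] at r3
      have r5 : (2 * (ty p.ts).b2 + (ty p.ts).k * N.rho1) * h = pvwRad N h (ty p.ts) (ty p.ts).k := rfl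
      rw [r5] at r1
      linarith

/-- what sec. 5, 6 feed into the corollaries: `w` is more than `2 δ` away from every cell centre -/
def PvffzOff (Γ : PvtsGeo τ) (p : PvtsPat τ) (w : ℂ) : Prop := ∀ i, i < p.l.length → 2 * Γ.δ < ‖w - pvccC (pvfeZ Γ p) (pvfeD Γ p) p.l i‖

theorem pvffz_eqns_cite : True := by
  have := @PvffzOff.eq_1
  trivial

/-- off the tube `κ = 2` -/
theorem PvffzOff.tube2 (δ0 : 0 < Γ.δ) {w : ℂ} (hw : PvffzOff Γ p w) : w ∉ pvfeTube 2 (pvfeZ Γ p) (pvfeD Γ p) p.l := by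
  intro hc
  obtain ⟨j, hj, hle⟩ := pvfe_mem_tube.1 hc
  rw [pvfe_norm_D, abs_of_pos δ0] at hle
  exact absurd (hw j hj) (not_lt.2 hle)

/-- off the collared lanes `Ycol` -/
theorem PvffzOff.col (δ0 : 0 < Γ.δ) {w : ℂ} (hw : PvffzOff Γ p w) : w ∉ pvfeCol (pvfeZ Γ p) (pvfeD Γ p) p.l :=
  fun hc => hw.tube2 δ0 (pvfe_col_sub_tube le_rfl _ (pvfe_D_ne Γ p) _ hc)

/-- off the lanes -/
theorem PvffzOff.lanes (δ0 : 0 < Γ.δ) {w : ℂ} (hw : PvffzOff Γ p w) {a b : ℝ} (ha : -(1 / 2) ≤ a) (hb : b ≤ 1 / 2) : w ∉ pvfeLanes a b (pvfeZ Γ p) (pvfeD Γ p) p.l :=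
  fun hc => hw.tube2 δ0 (pvfe_lanes_sub_tube ha hb (by norm_num) _ _ _ hc)

/-- more than `(2 - κ) δ` away from the tube of radius `κ δ` (`κ = 1`: the balls `closedBall (C i) δ` contain the closed cells, hence the tiles, and the door squares of half side `≤ δ / 4`) -/
theorem PvffzOff.tube (δ0 : 0 < Γ.δ) {w : ℂ} (hw : PvffzOff Γ p w) {κ : ℝ} {u : ℂ} (hu : u ∈ pvfeTube κ (pvfeZ Γ p) (pvfeD Γ p) p.l) : (2 - κ) * Γ.δ < ‖w - u‖ := by
  obtain ⟨j, hj, hle⟩ := pvfe_mem_tube.1 hu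
  rw [pvfe_norm_D, abs_of_pos δ0] at hle
  have h1 := hw j hj
  have h2 : ‖w - pvccC (pvfeZ Γ p) (pvfeD Γ p) p.l j‖ ≤ ‖w - u‖ + ‖u - pvccC (pvfeZ Γ p) (pvfeD Γ p) p.l j‖ := by
    have := norm_add_le (w - u) (u - pvccC (pvfeZ Γ p) (pvfeD Γ p) p.l j)
    rwa [sub_add_sub_cancel] at this
  linarith

/-- **FAR** (29, `Tr/Geo`): far from every region which lies in the tube of radius `κ δ`, `3 r ≤ (2 - κ) δ` -/
theorem PvffzOff.far (δ0 : 0 < Γ.δ) {w : ℂ} (hw : PvffzOff Γ p w) {κ r : ℝ} {C : Set ℂ} (hne : C.Nonempty) (hC : C ⊆ pvfeTube κ (pvfeZ Γ p) (pvfeD Γ p) p.l) (hr : 3 * r ≤ (2 - κ) * Γ.δ) :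
    w ∈ pvgeFar C r := by
  show 3 * r ≤ infDist w C
  refine (Metric.le_infDist hne).2 fun u hu => ?_
  rw [dist_eq_norm]
  exact hr.trans (hw.tube δ0 (hC hu)).le

/-- more than `3 δ / 2` away from every door -/
theorem PvffzOff.door (δ0 : 0 < Γ.δ) {w : ℂ} (hw : PvffzOff Γ p w) (hl : 0 < p.l.length) {j : ℕ} (hj : j ≤ p.l.length) : 3 / 2 * Γ.δ < ‖w - pvccZ (pvfeZ Γ p) (pvfeD Γ p) p.l j‖ := by
  have key : ∀ (i : ℕ) (c : ℂ), i < p.l.length → ‖pvccC (pvfeZ Γ p) (pvfeD Γ p) p.l i - c‖ = Γ.δ / 2 → 3 / 2 * Γ.δ < ‖w - c‖ := by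
    intro i c hi hc
    have h1 := hw i hi
    have h2 : ‖w - pvccC (pvfeZ Γ p) (pvfeD Γ p) p.l i‖ ≤ ‖w - c‖ + ‖c - pvccC (pvfeZ Γ p) (pvfeD Γ p) p.l i‖ := by
      have := norm_add_le (w - c) (c - pvccC (pvfeZ Γ p) (pvfeD Γ p) p.l i)
      rwa [sub_add_sub_cancel] at this
    rw [norm_sub_rev c] at h2
    linarith
  have hfr : ∀ i, ‖pvccD (pvfeD Γ p) p.l i / 2‖ = Γ.δ / 2 := by
    intro i
    rw [norm_div, pvfe_norm_frame, pvfe_norm_D, abs_of_pos δ0]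
    simp
  rcases Nat.lt_or_ge j p.l.length with hlt | hge
  · refine key j _ hlt ?_
    unfold pvccC
    rw [add_sub_cancel_left]
    exact hfr j
  · have e : j = (p.l.length - 1) + 1 := by omega
    have hlt : p.l.length - 1 < p.l.length := by omega
    refine key (p.l.length - 1) _ hlt ?_
    rw [e, ← pvccC_prev _ _ _ hlt, sub_sub_cancel_left, norm_neg]
    exact hfr _

/-- the same with any gap `g` (REGION forms: a point within `μ` of a frozen site has the gap `2 δ - μ`) -/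
def PvffzGap (Γ : PvtsGeo τ) (p : PvtsPat τ) (g : ℝ) (w : ℂ) : Prop := ∀ i, i < p.l.length → g < ‖w - pvccC (pvfeZ Γ p) (pvfeD Γ p) p.l i‖

theorem pvffz_eqns_cite2 : True := by
  have := @PvffzGap.eq_1
  trivial

theorem PvffzOff.gap {w : ℂ} (hw : PvffzOff Γ p w) : PvffzGap Γ p (2 * Γ.δ) w := hw

theorem PvffzGap.mono {g g' : ℝ} {w : ℂ} (hw : PvffzGap Γ p g w) (hg : g' ≤ g) : PvffzGap Γ p g' w := fun i hi => lt_of_le_of_lt hg (hw i hi)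

/-- moving the point by `μ` costs `μ` -/
theorem PvffzGap.move {g μ : ℝ} {w w' : ℂ} (hw : PvffzGap Γ p g w) (hμ : ‖w - w'‖ ≤ μ) : PvffzGap Γ p (g - μ) w' := by
  intro i hi
  have h1 := hw i hi
  have h2 : ‖w - pvccC (pvfeZ Γ p) (pvfeD Γ p) p.l i‖ ≤ ‖w - w'‖ + ‖w' - pvccC (pvfeZ Γ p) (pvfeD Γ p) p.l i‖ := by
    have := norm_add_le (w - w') (w' - pvccC (pvfeZ Γ p) (pvfeD Γ p) p.l i)
    rwa [sub_add_sub_cancel] at this
  linarith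

theorem PvffzGap.tube (δ0 : 0 < Γ.δ) {g : ℝ} {w : ℂ} (hw : PvffzGap Γ p g w) {κ : ℝ} {u : ℂ} (hu : u ∈ pvfeTube κ (pvfeZ Γ p) (pvfeD Γ p) p.l) : g - κ * Γ.δ < ‖w - u‖ := by
  obtain ⟨j, hj, hle⟩ := pvfe_mem_tube.1 hu
  rw [pvfe_norm_D, abs_of_pos δ0] at hle
  have h1 := hw j hj
  have h2 : ‖w - pvccC (pvfeZ Γ p) (pvfeD Γ p) p.l j‖ ≤ ‖w - u‖ + ‖u - pvccC (pvfeZ Γ p) (pvfeD Γ p) p.l j‖ := by
    have := norm_add_le (w - u) (u - pvccC (pvfeZ Γ p) (pvfeD Γ p) p.l j)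
    rwa [sub_add_sub_cancel] at this
  linarith

/-- **FAR**, any gap -/
theorem PvffzGap.far (δ0 : 0 < Γ.δ) {g : ℝ} {w : ℂ} (hw : PvffzGap Γ p g w) {κ r : ℝ} {C : Set ℂ} (hne : C.Nonempty) (hC : C ⊆ pvfeTube κ (pvfeZ Γ p) (pvfeD Γ p) p.l) (hr : 3 * r ≤ g - κ * Γ.δ) :
    w ∈ pvgeFar C r := by
  show 3 * r ≤ infDist w C
  refine (Metric.le_infDist hne).2 fun u hu => ?_
  rw [dist_eq_norm]
  exact hr.trans (hw.tube δ0 (hC hu)).le

/-- a REGION every point of which is within `μ` of a point which is off the cells -/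
theorem pvffz_region {K : Set ℂ} {μ : ℝ} (h : ∀ w ∈ K, ∃ w', PvffzOff Γ p w' ∧ ‖w' - w‖ ≤ μ) : ∀ w ∈ K, PvffzGap Γ p (2 * Γ.δ - μ) w := by
  intro w hw
  obtain ⟨w', h1, h2⟩ := h w hw
  exact h1.gap.move h2

end pts

/-! ## 5. ANY MAP -/

section dat

variable {V D τ : Type} {T : PvMap V D} {pos : V → ℂ} {Γ : PvtsGeo τ} {ty : τ → PvwTy} {N : PvwNum} {h : ℝ} {p : PvtsPat τ}

/-- the core disc lies in the box of the level -/
theorem pvffz_disc_box (hn : PvffzNum Γ N h) {t : PvwTy} (hb : t.b ≤ 2 * t.b2) {z w : ℂ} (hw : ‖w - z‖ < t.b * h) : w ∈ pvwSq z (pvwRad N h t t.k) := by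
  have h0 := hn.h0
  have h1 : t.b * h ≤ pvwRad N h t t.k := by
    unfold pvwRad
    have : (0 : ℝ) ≤ (t.k : ℝ) * N.rho1 := mul_nonneg (Nat.cast_nonneg _) hn.rho1
    nlinarith
  exact ⟨(Complex.abs_re_le_norm _).trans (hw.le.trans h1), (Complex.abs_im_le_norm _).trans (hw.le.trans h1)⟩

/-- the sites frozen by an exit half state lie in the box of its level -/
theorem pvffz_out_box (hn : PvffzNum Γ N h) {𝔖 : PvwSt T} {z : ℂ} {t : PvwTy} {s : V → Bool} (hb : t.b ≤ 2 * t.b2) (hA : 𝔖.AtOut pos N h z t s) {v : V} (hv : v ∈ 𝔖.fzOut) :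
    pos v ∈ pvwSq z (pvwRad N h t t.k) := by
  rcases hv with (hv | ⟨i, hi, rfl⟩) | ⟨i, hi, rfl⟩
  · have h1 : v ∈ 𝔖.dsc := hv
    rw [hA.gate.dsc_eq] at h1
    exact pvffz_disc_box hn hb h1
  · exact (hA.stub.ep_in i hi).1
  · exact (hA.stub.ep_in i hi).2

/-- the sites frozen by an entrance half state lie in the box of its level -/
theorem pvffz_in_box (hn : PvffzNum Γ N h) {𝔖 : PvwSt T} {z : ℂ} {t : PvwTy} {s : V → Bool} (hb : t.b ≤ 2 * t.b2) (hA : 𝔖.AtIn pos N h z t s) {v : V} (hv : v ∈ 𝔖.fzIn) :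
    pos v ∈ pvwSq z (pvwRad N h t t.k) := by
  rcases hv with (hv | ⟨i, hi, rfl⟩) | ⟨i, hi, rfl⟩
  · have h1 : v ∈ 𝔖.dsc := hv
    rw [hA.gate.dsc_eq] at h1
    exact pvffz_disc_box hn hb h1
  · exact (hA.stub.em_in i hi).1
  · exact (hA.stub.em_in i hi).2

/-- **(FZ), HALF STATES**: two half states at the pins of the index, hulls which contain the cells of their frozen positions -/
theorem pvffz_half (hn : PvffzNum Γ N h) (hΓ : Γ.Ok p) (hD : PvfeDoors Γ ty N h) (hb : ∀ t, (ty t).b ≤ 2 * (ty t).b2) {Zs Zt : Set (ℤ × ℤ)} (hI : PvfeIx Γ ty N h p (Zs ∪ Zt))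
    {𝔖s 𝔖t : PvwSt T} {σs σt : V → Bool} (hs : 𝔖s.AtIn pos N h p.zs (ty p.ts) σs) (ht : 𝔖t.AtOut pos N h p.zt (ty p.tt) σt)
    (hZs : pvtCells Γ.δ (pos '' 𝔖s.fzIn) ⊆ Zs) (hZt : pvtCells Γ.δ (pos '' 𝔖t.fzOut) ⊆ Zt) {v : V} (hv : v ∈ 𝔖t.fzOut ∪ 𝔖s.fzIn) : PvffzOff Γ p (pos v) := by
  intro i hi
  rcases hv with hv | hv
  · exact pvffz_pts hn hΓ hD hI hs.lev ht.lev (Or.inr (pvffz_out_box hn (hb _) ht hv))
      (pvt_U_mono (hZt.trans subset_union_right) (pvt_cells_cover hn.δ0 ⟨v, hv, rfl⟩)) hi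
  · exact pvffz_pts hn hΓ hD hI hs.lev ht.lev (Or.inl (pvffz_in_box hn (hb _) hs hv))
      (pvt_U_mono (hZs.trans subset_union_left) (pvt_cells_cover hn.δ0 ⟨v, hv, rfl⟩)) hi

/-- **(FZ), DATUM FORM**: `𝔇.Ok` at the regions of record + the hull equalities (any mouth balls `Bs Bt`) -/
theorem pvffz_dat (hn : PvffzNum Γ N h) (hΓ : Γ.Ok p) (hD : PvfeDoors Γ ty N h) (hb : ∀ t, (ty t).b ≤ 2 * (ty t).b2) {Zs Zt : Set (ℤ × ℤ)} (hI : PvfeIx Γ ty N h p (Zs ∪ Zt))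
    {cp cm : τ → Set ℂ} {𝔇 : PvwDat T} (hok : 𝔇.Ok pos N h (pvfeRegAt Γ ty cp cm N h p)) {Bs Bt : Set ℂ}
    (hZs : Zs = pvtCells Γ.δ (pos '' 𝔇.s.fzIn ∪ Bs)) (hZt : Zt = pvtCells Γ.δ (pos '' 𝔇.t.fzOut ∪ Bt)) {v : V} (hv : v ∈ 𝔇.fzY) : PvffzOff Γ p (pos v) :=
  pvffz_half hn hΓ hD hb hI hok.st_s hok.st_t (by rw [hZs]; exact pvt_cells_mono subset_union_left) (by rw [hZt]; exact pvt_cells_mono subset_union_left) hv

/-- **(FZ), REGION FORM FOR THE TWO CORE DISCS** (63; consumer: `PvknGeo.ks kt` of 29, `PvrdPat`): the hulls see the core SITES only, so the mesh `μ` of the core sites in the closed discs is a hypothesis -/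
theorem pvffz_discs (hn : PvffzNum Γ N h) (hΓ : Γ.Ok p) (hD : PvfeDoors Γ ty N h) (hb : ∀ t, (ty t).b ≤ 2 * (ty t).b2) {Zs Zt : Set (ℤ × ℤ)} (hI : PvfeIx Γ ty N h p (Zs ∪ Zt))
    {𝔖s 𝔖t : PvwSt T} {σs σt : V → Bool} (hs : 𝔖s.AtIn pos N h p.zs (ty p.ts) σs) (ht : 𝔖t.AtOut pos N h p.zt (ty p.tt) σt)
    (hZs : pvtCells Γ.δ (pos '' 𝔖s.fzIn) ⊆ Zs) (hZt : pvtCells Γ.δ (pos '' 𝔖t.fzOut) ⊆ Zt) {μ : ℝ}
    (hds : ∀ w ∈ closedBall p.zs ((ty p.ts).b * h), ∃ v ∈ 𝔖s.core, ‖pos v - w‖ ≤ μ) (hdt : ∀ w ∈ closedBall p.zt ((ty p.tt).b * h), ∃ v ∈ 𝔖t.core, ‖pos v - w‖ ≤ μ) :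
    ∀ w ∈ closedBall p.zs ((ty p.ts).b * h) ∪ closedBall p.zt ((ty p.tt).b * h), PvffzGap Γ p (2 * Γ.δ - μ) w := by
  refine pvffz_region fun w hw => ?_
  rcases hw with hw | hw
  · obtain ⟨v, hv, hle⟩ := hds w hw
    exact ⟨pos v, pvffz_half hn hΓ hD hb hI hs ht hZs hZt (Or.inr (Or.inl (Or.inl hv))), hle⟩
  · obtain ⟨v, hv, hle⟩ := hdt w hw
    exact ⟨pos v, pvffz_half hn hΓ hD hb hI hs ht hZs hZt (Or.inl (Or.inl (Or.inl hv))), hle⟩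

end dat

/-! ## 6. AT THE MODEL -/

section model

variable {τ : Type} {c : ℝ} {𝔓 : PvxPar τ c} {x : ℂ} {R : ℝ} {m : ℕ} {π : PvxIx τ}

/-- the numbers, for any parameter which is well formed, at a fine level -/
theorem pvffz_num (hW : 𝔓.Wf) (hfine : 32 * pvlmDel c m < 𝔓.num.rho * pvlmH m) : PvffzNum (𝔓.Γ m) 𝔓.num (pvlmH m) where
  δ0 := by rw [hW.del]; exact pvlm_Del_pos c m
  h0 := pvlm_H_pos m
  rho_le := by linarith [hW.rho1, hW.rho2, hW.rho3]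
  rho1 := by linarith [hW.rho0, hW.rho1]
  fine := by rw [hW.del]; exact hfine

/-- **(FZ) AT THE MODEL, GENERIC FORM**: a datum `Ok` at the regions of the index (any site set `Y`), with the hull equalities -/
theorem pvffz_model (hW : 𝔓.Wf) (hF : PvfhWf 𝔓) (hfine : 32 * pvlmDel c m < 𝔓.num.rho * pvlmH m) (hπ : π ∈ pvxPatSet 𝔓 x R m) {Y : Set ℂ} {𝔇 : PvwDat (delbPl Y).toMap}
    (hok : 𝔇.Ok Subtype.val 𝔓.num (pvlmH m) (𝔓.reg m π)) {Bs Bt : Set ℂ}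
    (hZs : (π.Zs : Set (ℤ × ℤ)) = pvtCells (pvlmDel c m) (Subtype.val '' 𝔇.s.fzIn ∪ Bs)) (hZt : (π.Zt : Set (ℤ × ℤ)) = pvtCells (pvlmDel c m) (Subtype.val '' 𝔇.t.fzOut ∪ Bt))
    {v : ↥Y} (hv : v ∈ 𝔇.fzY) : PvffzOff (𝔓.Γ m) π.p (v : ℂ) := by
  rw [hF.reg_eq] at hok
  rw [← hW.del m] at hZs hZt
  exact pvffz_dat (pvffz_num hW hfine) hπ.1.1 (hF.doors m) hF.b_b2 hπ.2.2.2.2.1 hok hZs hZt hv

/-- **(FZ) FOR A WITNESS OF `pvxnSys`** (170, `Exit/N1`) -/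
theorem pvffz_wit (hW : 𝔓.Wf) (hF : PvfhWf 𝔓) (hfine : 32 * pvlmDel c m < 𝔓.num.rho * pvlmH m) (hπ : π ∈ pvxPatSet 𝔓 x R m) {a : ℂ} {𝔎 : PvxnKit} {Y : Set ℂ} {i : PvxnIx} {σ : ↥Y → Bool}
    {𝔇 : PvwDat (delbPl Y).toMap} (h : PvxnWit 𝔓 m π a 𝔎 Y i σ 𝔇) {v : ↥Y} (hv : v ∈ 𝔇.fzY) : PvffzOff (𝔓.Γ m) π.p (v : ℂ) :=
  pvffz_model hW hF hfine hπ h.ok h.hull_s h.hull_t hv

/-- `hfz` of 194 (`pvwm_Col_reg`), `Pvc2Col.fz` of 227, `hfz` of 27 (`pvhq_N_far`): no frozen site of `D_Y` over `Ycol` -/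
theorem pvffz_model_col (hW : 𝔓.Wf) (hF : PvfhWf 𝔓) (hfine : 32 * pvlmDel c m < 𝔓.num.rho * pvlmH m) (hπ : π ∈ pvxPatSet 𝔓 x R m) {Y : Set ℂ} {𝔇 : PvwDat (delbPl Y).toMap}
    (hok : 𝔇.Ok Subtype.val 𝔓.num (pvlmH m) (𝔓.reg m π)) {Bs Bt : Set ℂ}
    (hZs : (π.Zs : Set (ℤ × ℤ)) = pvtCells (pvlmDel c m) (Subtype.val '' 𝔇.s.fzIn ∪ Bs)) (hZt : (π.Zt : Set (ℤ × ℤ)) = pvtCells (pvlmDel c m) (Subtype.val '' 𝔇.t.fzOut ∪ Bt)) :
    ∀ v ∈ 𝔇.fzY, (v : ℂ) ∉ (𝔓.reg m π).Ycol := by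
  intro v hv
  rw [hF.reg_eq]
  exact (pvffz_model hW hF hfine hπ hok hZs hZt hv).col (pvffz_num hW hfine).δ0

/-- **THE TWO CORE DISCS AT THE MODEL** (region form; `μ` = mesh of the sites in the two closed discs) -/
theorem pvffz_model_discs (hW : 𝔓.Wf) (hF : PvfhWf 𝔓) (hfine : 32 * pvlmDel c m < 𝔓.num.rho * pvlmH m) (hπ : π ∈ pvxPatSet 𝔓 x R m) {Y : Set ℂ} {𝔇 : PvwDat (delbPl Y).toMap}
    (hok : 𝔇.Ok Subtype.val 𝔓.num (pvlmH m) (𝔓.reg m π)) {Bs Bt : Set ℂ}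
    (hZs : (π.Zs : Set (ℤ × ℤ)) = pvtCells (pvlmDel c m) (Subtype.val '' 𝔇.s.fzIn ∪ Bs)) (hZt : (π.Zt : Set (ℤ × ℤ)) = pvtCells (pvlmDel c m) (Subtype.val '' 𝔇.t.fzOut ∪ Bt)) {μ : ℝ}
    (hds : ∀ w ∈ closedBall π.p.zs ((𝔓.ty π.p.ts).b * pvlmH m), ∃ v ∈ 𝔇.s.core, ‖(v : ℂ) - w‖ ≤ μ) (hdt : ∀ w ∈ closedBall π.p.zt ((𝔓.ty π.p.tt).b * pvlmH m), ∃ v ∈ 𝔇.t.core, ‖(v : ℂ) - w‖ ≤ μ) :
    ∀ w ∈ closedBall π.p.zs ((𝔓.ty π.p.ts).b * pvlmH m) ∪ closedBall π.p.zt ((𝔓.ty π.p.tt).b * pvlmH m), PvffzGap (𝔓.Γ m) π.p (2 * (𝔓.Γ m).δ - μ) w := by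
  rw [hF.reg_eq] at hok
  rw [← hW.del m] at hZs hZt
  exact pvffz_discs (pvffz_num hW hfine) hπ.1.1 (hF.doors m) hF.b_b2 hπ.2.2.2.2.1 hok.st_s hok.st_t (by rw [hZs]; exact pvt_cells_mono subset_union_left) (by rw [hZt]; exact pvt_cells_mono subset_union_left) hds hdt

/-- **(FZ) FOR THE DATUM OF A FIT** (`pvxFit`, TrModel v4) -/
theorem pvffz_fit (hW : 𝔓.Wf) (hF : PvfhWf 𝔓) (hfine : 32 * pvlmDel c m < 𝔓.num.rho * pvlmH m) (hπ : π ∈ pvxPatSet 𝔓 x R m) {ω : PVSample} {𝔇 : PvwDat (pvxT ω)}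
    (hok : 𝔇.Ok (pvxPos ω) 𝔓.num (pvlmH m) (𝔓.reg m π))
    (hZs : (π.Zs : Set (ℤ × ℤ)) = pvxHull (pvlmDel c m) 𝔇.s.fzIn (pvxYs 𝔓 m π.p) (𝔓.num.rho * pvlmH m))
    (hZt : (π.Zt : Set (ℤ × ℤ)) = pvxHull (pvlmDel c m) 𝔇.t.fzOut (pvxYt 𝔓 m π.p) (𝔓.num.rho * pvlmH m)) {v : ↥(pvxY ω)} (hv : v ∈ 𝔇.fzY) : PvffzOff (𝔓.Γ m) π.p (pvxPos ω v) :=
  pvffz_model hW hF hfine hπ hok hZs hZt hv

/-- the level is fine from `m0` on, at the parameters of record -/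
theorem pvffz_fine_at {N : PvxNums} (hN : N.Ok) (c0 : 0 < c) (hm : N.m0 ≤ m) : 32 * pvlmDel c m < (pvxParOf N hN c).num.rho * pvlmH m := by
  have h1 := pvxo_fine hN c0 hm
  have h2 := pvlm_Del_pos c m
  show 32 * pvlmDel c m < N.rho * pvlmH m
  linarith

/-- **(FZ) AT THE PARAMETERS OF RECORD**, for a witness of `pvxnSys` -/
theorem pvffz_wit_at {N : PvxNums} (hN : N.Ok) (c0 : 0 < c) (hm : N.m0 ≤ m) {π : PvxIx (pvxTau N)} (hπ : π ∈ pvxPatSet (pvxParOf N hN c) x R m) {a : ℂ} {𝔎 : PvxnKit} {Y : Set ℂ} {i : PvxnIx}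
    {σ : ↥Y → Bool} {𝔇 : PvwDat (delbPl Y).toMap} (h : PvxnWit (pvxParOf N hN c) m π a 𝔎 Y i σ 𝔇) {v : ↥Y} (hv : v ∈ 𝔇.fzY) : PvffzOff ((pvxParOf N hN c).Γ m) π.p (v : ℂ) :=
  pvffz_wit (pvxo_wf N hN c) (pvfhw_par N hN c) (pvffz_fine_at hN c0 hm) hπ h hv

end model

end Claimed.Agent.R289
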