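-- KEEP
import Claimed.Agent.R289.Exit.ParEng
import Claimed.Agent.R289.Tr.CellChainM

/-!
# Row 289 (S0537), THE WALL, ROAD E, file Tr/SimpleE : THE CHAIN OF A PATTERN IS SIMPLE = `PvieSimple` from the index predicates      (helper148; prefix `pvzu_`, `Pvzu`)

`PvieSimple 𝔓 𝔈 m ε π` (Tr/InstE, kept by Tr/InstL) = the two mouths, the first and last tile, the door plugs and the tiles of the corridor of `π` are pairwise disjoint.
SOURCES: `PvccKitRef` (34 / CellChainM: plugs in the door squares `δ/4`, tiles in the cells, disjointness along a simple word), `PvegDoor` (124, Exit/ParEng: mouth and tile of an end link lie BEHIND the door line, inside the inner mouth `closedBall Y rI`),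
`PvccSimple` + **MB in the STRONG form `PvzuNoz`** (RULING 19 (4) of 234 = the cured last clause of `PvfeNoz`; producer `pvtb_word_noz2` of 20) + separation of the two tips.
* sec. 1  placed plugs and tiles of a word `pvzuO pvzuK` = `pvccO pvccK` of the scaled reference kit
* sec. 2  straight runs at the two ends of a word
* sec. 3  `PvzuOff`: STRICTLY in front of the door line or off the inner mouth; **`PvzuEnd`** = AN END LINK, ABSTRACT (mouth and tile in the inner mouth, behind the door line; mouth, tile, door plug disjoint; tile off the box with collar);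
          producer at the regions of record `PvegDoor.pvzu_end`;   doors `j ≥ 1` and cells of the word, both sides
* sec. 4  **`pvzu_core_end`** (abstract end links), `pvzu_core` : model free
* sec. 5  `PvzuEo`, `PvzuEi` (the end links of the engine ARE end links: ALL that is read of `oM oK iM iK`), **`pvzu_simple_end`**, `pvzu_simple_ix_end`, **`pvzu_simple_pat_end`**;   at the regions of record: **`pvzu_simple`** : at `𝔓 𝔈 m ε π`;   `pvzu_simple_ix` (from `PvfeIx` v5 of 209), **`pvzu_simple_pat`** (on `pvxPatSet`)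
* sec. 6  (order of 168, windows v2.1) **`pvzu_clear_core`**, `pvzu_clear_ix`, **`pvzu_clear_pat`** : every tile / door of the chain misses `(own-level box with collar) ∩ pvtU δ (pvtN8 Z)` at BOTH pins
          [first link: in front of the door line; middle: last clause of `PvfeLk` in the weak form `PvzuLk` (`2 δ`-collar off `pvtU δ Z`; adapter `PvfeLk.pvzu_lk` good for FitReg v5 v6 v7) + THE CELLS OF THE WORD ARE CELLS OF THE GRID (`pvzu_aligned`); last link: `sep`]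
* sec. 7  the fattening on the HALF mesh: `pvzu_fat_half`, `pvzu_fat_box`, `pvzu_fat_sub`
* sec. 8  **`pvzu_win_o`**, **`pvzu_win_i`** : `C_c ∩ window(F) ⊆ tile ∪ door`
-/

set_option autoImplicit false

namespace Claimed.Agent.R289

open Set Metric Complex

/-! ## 1. the placed regions of a word, in the plane -/

section word

variable {kit : PvthKit} {r : ℝ}

/-- the placed door plug number `j` -/
def pvzuO (kit : PvthKit) (z u : ℂ) (l : List PvtTurn) (j : ℕ) : Set ℂ := pvthSim (pvthZ kit.δ z u l j) (pvthD u l j) '' kit.O₀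

/-- the placed tile number `j` -/
def pvzuK (kit : PvthKit) (z u : ℂ) (l : List PvtTurn) (j : ℕ) : Set ℂ := pvthSim (pvthZ kit.δ z u l j) (pvthD u l j) '' kit.K₀ (pvthL l j)

theorem pvzu_O_eq (kit : PvthKit) (hδ : kit.δ ≠ 0) (z u : ℂ) (l : List PvtTurn) (j : ℕ) :
    pvzuO kit z u l j = pvccO ((fun w : ℂ => (kit.δ : ℂ) * w) ⁻¹' kit.O₀) z (kit.δ * u) l j := by
  unfold pvzuO pvccO
  rw [← pvcc_pl_preimage hδ, pvthZ_eq, pvthD_eq]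

theorem pvzu_K_eq (kit : PvthKit) (hδ : kit.δ ≠ 0) (z u : ℂ) (l : List PvtTurn) (j : ℕ) :
    pvzuK kit z u l j = pvccK (fun τ => (fun w : ℂ => (kit.δ : ℂ) * w) ⁻¹' kit.K₀ τ) z (kit.δ * u) l j := by
  unfold pvzuK pvccK
  rw [← pvcc_pl_preimage hδ, pvthZ_eq, pvthD_eq, pvthL_eq]

theorem pvzu_O_sq (R : PvccKitRef kit r) (z : ℂ) {u : ℂ} (hu : u ^ 4 = 1) (l : List PvtTurn) (j : ℕ) :
    pvzuO kit z u l j ⊆ pvccSq (pvccZ z (kit.δ * u) l j) (kit.δ / 4) := by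
  rw [← pvthZ_eq]
  exact pveg_sim_sq R.O_sub R.r_le _ (pvccD_pow_four hu l j)

theorem pvzu_K_sq (R : PvccKitRef kit r) (z : ℂ) {u : ℂ} (hu : u ^ 4 = 1) (l : List PvtTurn) (j : ℕ) :
    pvzuK kit z u l j ⊆ pvccSq (pvccC z (kit.δ * u) l j) (kit.δ / 2) := by
  rw [pvzu_K_eq kit R.δ0.ne', pvccK_cov]
  refine (pvccPl_mono _ _ (R.ref.K_sq l j)).trans ?_
  rw [pvccm_pl_sq R.δ0 z hu, pvccC_cov z]
  exact (pvcc_sq_mono _ (by linarith)).trans_eq rfl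

theorem pvzu_OO (R : PvccKitRef kit r) (z : ℂ) {u : ℂ} (hu : u ≠ 0) {l : List PvtTurn} (h : PvccSimple l l.length) {i j : ℕ} (hi : i ≤ l.length) (hj : j ≤ l.length) (hij : i ≠ j) :
    Disjoint (pvzuO kit z u l i) (pvzuO kit z u l j) := by
  rw [pvzu_O_eq kit R.δ0.ne', pvzu_O_eq kit R.δ0.ne']
  exact pvcc_OO R.ref z (mul_ne_zero (by exact_mod_cast R.δ0.ne') hu) h le_rfl hi hj hij

theorem pvzu_KK (R : PvccKitRef kit r) (z : ℂ) {u : ℂ} (hu : u ≠ 0) {l : List PvtTurn} (h : PvccSimple l l.length) {i j : ℕ} (hi : i ≤ l.length) (hj : j ≤ l.length) (hij : i ≠ j) :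
    Disjoint (pvzuK kit z u l i) (pvzuK kit z u l j) := by
  rw [pvzu_K_eq kit R.δ0.ne', pvzu_K_eq kit R.δ0.ne']
  exact pvcc_KK R.ref z (mul_ne_zero (by exact_mod_cast R.δ0.ne') hu) h hi hj hij

theorem pvzu_OK (R : PvccKitRef kit r) (z : ℂ) {u : ℂ} (hu : u ≠ 0) (l : List PvtTurn) (i j : ℕ) :
    Disjoint (pvzuO kit z u l i) (pvzuK kit z u l j) := by
  rw [pvzu_O_eq kit R.δ0.ne', pvzu_K_eq kit R.δ0.ne']
  exact pvcc_OK R.ref z (mul_ne_zero (by exact_mod_cast R.δ0.ne') hu) l i j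

end word

/-! ## 2. straight runs -/

theorem pvzu_run_fwd (z d : ℂ) {l : List PvtTurn} {nt : ℕ} (hn : nt ≤ l.length) (hS : ∀ i, i < nt → pvccT l i = PvtTurn.S) :
    ∀ j, j ≤ nt → pvccD d l j = d ∧ pvccZ z d l j = z + (j : ℂ) * d := by
  intro j
  induction j with
  | zero => intro _; simp [pvccD, pvccZ, pvtDisp]
  | succ j ih =>
    intro hj
    obtain ⟨h1, h2⟩ := ih (by omega)
    have hl : j < l.length := by omega
    refine ⟨?_, ?_⟩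
    · rw [pvccD_succ d l hl, h1, hS j (by omega)]; simp [PvtTurn.rot]
    · rw [pvccZ_succ z d l hl, h1, h2, hS j (by omega)]; simp [PvtTurn.mid]; ring

theorem pvzu_run_bwd (z d : ℂ) {l : List PvtTurn} {ns : ℕ} (hn : ns ≤ l.length) (hS : ∀ i, l.length ≤ i + ns → i < l.length → pvccT l i = PvtTurn.S) :
    ∀ k, k ≤ ns → pvccD d l (l.length - k) = pvccD d l l.length ∧ pvccZ z d l (l.length - k) = pvccZ z d l l.length - (k : ℂ) * pvccD d l l.length := by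
  intro k
  induction k with
  | zero => intro _; simp
  | succ k ih =>
    intro hk
    obtain ⟨h1, h2⟩ := ih (by omega)
    have hl : l.length - (k + 1) < l.length := by omega
    have e : l.length - (k + 1) + 1 = l.length - k := by omega
    have hT := hS (l.length - (k + 1)) (by omega) hl
    have a1 := pvccD_succ d l hl
    have a2 := pvccZ_succ z d l hl
    rw [e, hT] at a1 a2
    simp only [PvtTurn.rot, PvtTurn.mid, mul_one] at a1 a2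
    refine ⟨by rw [← a1, h1], ?_⟩
    have : pvccZ z d l (l.length - (k + 1)) = pvccZ z d l (l.length - k) - pvccD d l (l.length - (k + 1)) := by rw [a2]; ring
    rw [this, h2, ← a1, h1]
    push_cast
    ring

/-- a point of an open square -/
theorem pvzu_sq_norm {c w : ℂ} {r : ℝ} (h : w ∈ pvccSq c r) : ‖w - c‖ < 2 * r := by
  have h1 : |(w - c).re| < r := lt_of_le_of_lt (le_max_left _ _) h
  have h2 : |(w - c).im| < r := lt_of_le_of_lt (le_max_right _ _) h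
  have := Complex.norm_le_abs_re_add_abs_im (w - c)
  linarith

/-! ## 3. in front of the door line, or off the inner mouth -/

/-- every point of `B` is off the inner mouth `closedBall Y rI` or STRICTLY in front of the door line of the door `p` (frame `(Y, u)`, ABSOLUTE coordinates) -/
def PvzuOff (Y u p : ℂ) (rI : ℝ) (B : Set ℂ) : Prop := ∀ w ∈ B, rI < ‖w - Y‖ ∨ pvegS Y u p < pvegS Y u w

theorem pvzu_S_add {u : ℂ} (hu : u ^ 4 = 1) (Y p : ℂ) (t : ℝ) : pvegS Y u (p + (t : ℂ) * u) = pvegS Y u p + t := by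
  unfold pvegS
  have h1 := pveg_unit_conj hu
  have : (p + (t : ℂ) * u - Y) * (starRingEnd ℂ) u = (p - Y) * (starRingEnd ℂ) u + (t : ℂ) := by
    linear_combination (t : ℂ) * h1
  rw [this]
  simp

theorem pvzu_S_sh (z Y u a : ℂ) : pvegS (z + Y) u (z + a) = pvegS Y u a := by
  unfold pvegS
  congr 2
  ring

/-- **AN END LINK, ABSTRACT** (coordinates relative to the centre of the pin): `Y` = grid centre of the tip cell, `u` = outer normal of the door, `p` = door point, `rI` = radius of the inner mouth, `rk` = half side of the own-level box;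
`M` = the mouth, `K` = the tile, `O` = the placed region of the door plug.      Mouth and tile lie in the inner mouth, BEHIND THE DOOR LINE; the three atoms are disjoint; tile and everything in front of the door square are off the box with its collar -/
structure PvzuEnd (Y u p : ℂ) (δ rI rk : ℝ) (M K O : Set ℂ) : Prop where
  u4 : u ^ 4 = 1
  ball : M ∪ K ⊆ closedBall Y rI
  door : ‖p - Y‖ ≤ rI
  back : ∀ v ∈ M ∪ K, pvegS Y u v ≤ pvegS Y u p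
  MK : Disjoint M K
  MO : Disjoint M O
  KO : Disjoint K O
  K_off : Disjoint K (pvwSq 0 (rk + δ))
  front : ∀ v, pvegS Y u p - δ / 4 < pvegS Y u v → v ∉ pvwSq 0 (rk + δ)

/-- **the end links of record** (124, `Exit/ParEng`) -/
theorem PvegDoor.pvzu_end {Y u p : ℂ} {e δ w rM κ rI rk : ℝ} (H : PvegDoor Y u p e δ w rM κ rI rk) {M K O : Set ℂ} (hM : M ⊆ closedBall Y rM) (hK : K ⊆ pvegK Y u p e δ w rM)
    (hO : O ⊆ pvccSq p (δ / 4)) : PvzuEnd Y u p δ rI rk M K O where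
  u4 := H.u4
  ball := union_subset (hM.trans (pveg_M_ball H)) (hK.trans (pveg_K_ball H))
  door := by
    have h : p ∈ pvccSq p (δ / 4) := by
      show pvccN (p - p) < δ / 4
      rw [sub_self]
      simp only [pvccN, Complex.zero_re, Complex.zero_im, abs_zero, max_self]
      linarith [H.δ0]
    exact mem_closedBall_iff_norm.1 (pveg_D_ball H h)
  back := fun v hv => by
    have := (pveg_MK_back H (union_subset_union hM hK hv)).2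
    linarith [H.δ0]
  MK := Disjoint.mono hM hK pveg_disj_MK
  MO := Disjoint.mono hM hO (pveg_disj_MD H)
  KO := Disjoint.mono hK hO (pveg_disj_KD H)
  K_off := (pveg_K_off H).mono_left hK
  front := fun v hv hb => by
    have h1 := pveg_sq_zero H.u4 hb
    rw [pveg_S_zero Y u v] at h1
    linarith [H.out, H.s_lo, H.n2]

/-- **the end links of record, v2** (124, `Exit/ParEng` sec. 7: funnel up to the plane `S = S(p) - a`, tile `:=` funnel minus mouth minus door region) -/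
theorem PvegDoor.pvzu_end_a {Y u p : ℂ} {e δ w rM κ rI rk a : ℝ} (H : PvegDoor Y u p e δ w rM κ rI rk) (ha : 0 ≤ a) (ha' : a ≤ δ / 4) {M K O : Set ℂ} (hM : M ⊆ closedBall Y rM)
    (hK : K ⊆ pvegKa Y u p e δ w rM a O) (hO : O ⊆ pvccSq p (δ / 4)) : PvzuEnd Y u p δ rI rk M K O where
  u4 := H.u4
  ball := (union_subset_union hM hK).trans ((pveg_MKa_sub_Ya Y u p e δ w rM a O).trans (pveg_Ya_ball H ha))
  door := (H.pvzu_end (M := ∅) (K := ∅) (O := ∅) (empty_subset _) (empty_subset _) (empty_subset _)).door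
  back := fun v hv => by
    have := (pveg_Ya_back H ha ha' (pveg_MKa_sub_Ya Y u p e δ w rM a O (union_subset_union hM hK hv))).2
    linarith
  MK := Disjoint.mono hM (hK.trans fun _ hv => hv.1) (disjoint_sdiff_self_right (x := closedBall Y rM) (y := pvegRa Y u p e δ w a))
  MO := Disjoint.mono hM hO (pveg_disj_MD H)
  KO := Disjoint.mono_left hK disjoint_sdiff_self_left
  K_off := (pveg_Ka_off H O).mono_left hK
  front := (H.pvzu_end (M := ∅) (K := ∅) (O := ∅) (empty_subset _) (empty_subset _) (empty_subset _)).front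

/-- **mouth and tile of an end link, placed at `z`, miss every set which is strictly in front of the door line or off the inner mouth** -/
theorem pvzu_off_disj {Y u p : ℂ} {δ rI rk : ℝ} {M K O : Set ℂ} (H : PvzuEnd Y u p δ rI rk M K O) {A : Set ℂ} (hA : A ⊆ M ∪ K)
    (z : ℂ) {B : Set ℂ} (hB : PvzuOff (z + Y) u (z + p) rI B) : Disjoint (pvieSh z A) B := by
  rw [Set.disjoint_left]
  rintro _ ⟨a, ha, rfl⟩ hb
  have h1 := mem_closedBall_iff_norm.1 (H.ball (hA ha))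
  have h2 := H.back a (hA ha)
  rcases hB _ hb with h | h
  · have : z + a - (z + Y) = a - Y := by ring
    simp only [this] at h
    linarith
  · simp only [pvzu_S_sh] at h
    linarith

section sides

variable {Y u z : ℂ} {δ rI : ℝ} {l : List PvtTurn}

theorem pvzu_norm_D (hδ : 0 < δ) (hu : u ^ 4 = 1) (l : List PvtTurn) (j : ℕ) : ‖pvccD ((δ : ℂ) * u) l j‖ = δ := by
  rw [pvfe_norm_frame, norm_mul, pveg_norm_unit hu, mul_one, Complex.norm_real, Real.norm_eq_abs, abs_of_pos hδ]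

/-- far from `Y` through a cell -/
theorem pvzu_far_of {C w : ℂ} (h1 : rI + δ ≤ ‖C - Y‖) (h2 : ‖w - C‖ < δ) : rI < ‖w - Y‖ := by
  have : ‖C - Y‖ ≤ ‖w - C‖ + ‖w - Y‖ := by
    have e : C - Y = (w - Y) - (w - C) := by ring
    rw [e]
    exact (norm_sub_le _ _).trans (by linarith)
  linarith

/-- EXIT SIDE, doors -/
theorem pvzu_t_door (hδ : 0 < δ) (hu : u ^ 4 = 1) {nt : ℕ} (hn : nt ≤ l.length) (hS : ∀ i, i < nt → pvccT l i = PvtTurn.S)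
    (hfar : ∀ i, nt ≤ i → i < l.length → rI + δ ≤ ‖pvccC z ((δ : ℂ) * u) l i - Y‖) {j : ℕ} (hj : j ≤ l.length) (hj1 : 1 ≤ j) :
    PvzuOff Y u z rI (pvccSq (pvccZ z ((δ : ℂ) * u) l j) (δ / 4)) := by
  intro w hw
  by_cases c : j ≤ nt
  · right
    obtain ⟨-, h2⟩ := pvzu_run_fwd z ((δ : ℂ) * u) hn hS j c
    have e : pvccZ z ((δ : ℂ) * u) l j = z + (((j : ℝ) * δ : ℝ) : ℂ) * u := by rw [h2]; push_cast; ring
    have h3 := abs_lt.1 (pveg_sq_S hu Y hw)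
    rw [e, pvzu_S_add hu] at h3
    have : (1 : ℝ) ≤ (j : ℝ) := by exact_mod_cast hj1
    nlinarith [h3.1]
  · left
    obtain ⟨i, rfl⟩ : ∃ i, j = i + 1 := ⟨j - 1, by omega⟩
    have hi : i < l.length := by omega
    refine pvzu_far_of (hfar i (by omega) hi) ?_
    have h1 := pvccC_prev z ((δ : ℂ) * u) l hi
    have h2 := pvzu_sq_norm hw
    have h3 := pvzu_norm_D hδ hu l (i + 1)
    have e : w - pvccC z ((δ : ℂ) * u) l i = (w - pvccZ z ((δ : ℂ) * u) l (i + 1)) + pvccD ((δ : ℂ) * u) l (i + 1) / 2 := by rw [← h1]; ring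
    rw [e]
    refine lt_of_le_of_lt (norm_add_le _ _) ?_
    rw [norm_div, h3]
    norm_num
    linarith

/-- EXIT SIDE, cells -/
theorem pvzu_t_cell (hδ : 0 < δ) (hu : u ^ 4 = 1) {nt : ℕ} (hn : nt ≤ l.length) (hS : ∀ i, i < nt → pvccT l i = PvtTurn.S)
    (hfar : ∀ i, nt ≤ i → i < l.length → rI + δ ≤ ‖pvccC z ((δ : ℂ) * u) l i - Y‖) {j : ℕ} (hj : j < l.length) :
    PvzuOff Y u z rI (pvccSq (pvccC z ((δ : ℂ) * u) l j) (δ / 2)) := by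
  intro w hw
  by_cases c : j ≤ nt
  · right
    obtain ⟨h1, h2⟩ := pvzu_run_fwd z ((δ : ℂ) * u) hn hS j c
    have e : pvccC z ((δ : ℂ) * u) l j = z + ((((j : ℝ) + 1 / 2) * δ : ℝ) : ℂ) * u := by rw [pvccC, h1, h2]; push_cast; ring
    have h3 := abs_lt.1 (pveg_sq_S hu Y hw)
    rw [e, pvzu_S_add hu] at h3
    have : (0 : ℝ) ≤ (j : ℝ) * δ := by positivity
    nlinarith [h3.1]
  · left
    refine pvzu_far_of (hfar j (by omega) hj) ?_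
    have := pvzu_sq_norm hw
    linarith

/-- ENTRANCE SIDE, doors.      `u` = the outer normal at the entrance door: the last frame is `- δ u` -/
theorem pvzu_s_door (hδ : 0 < δ) {v : ℂ} (hv : v ^ 4 = 1) (hu : u ^ 4 = 1) (hD : pvccD ((δ : ℂ) * v) l l.length = - ((δ : ℂ) * u)) {ns : ℕ} (hn : ns ≤ l.length)
    (hS : ∀ i, l.length ≤ i + ns → i < l.length → pvccT l i = PvtTurn.S)
    (hfar : ∀ i, i + ns < l.length → rI + δ ≤ ‖pvccC z ((δ : ℂ) * v) l i - Y‖) {j : ℕ} (hj : j < l.length) :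
    PvzuOff Y u (pvccZ z ((δ : ℂ) * v) l l.length) rI (pvccSq (pvccZ z ((δ : ℂ) * v) l j) (δ / 4)) := by
  intro w hw
  by_cases c : l.length ≤ j + ns
  · right
    obtain ⟨k, hk, hk1, rfl⟩ : ∃ k, k ≤ ns ∧ 1 ≤ k ∧ j = l.length - k := ⟨l.length - j, by omega, by omega, by omega⟩
    obtain ⟨-, h2⟩ := pvzu_run_bwd z ((δ : ℂ) * v) hn hS k hk
    have e : pvccZ z ((δ : ℂ) * v) l (l.length - k) = pvccZ z ((δ : ℂ) * v) l l.length + (((k : ℝ) * δ : ℝ) : ℂ) * u := by rw [h2, hD]; push_cast; ring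
    have h3 := abs_lt.1 (pveg_sq_S hu Y hw)
    rw [e, pvzu_S_add hu] at h3
    have : (1 : ℝ) ≤ (k : ℝ) := by exact_mod_cast hk1
    nlinarith [h3.1]
  · left
    refine pvzu_far_of (hfar j (by omega)) ?_
    have h2 := pvzu_sq_norm hw
    have h3 := pvzu_norm_D hδ hv l j
    have e : w - pvccC z ((δ : ℂ) * v) l j = (w - pvccZ z ((δ : ℂ) * v) l j) - pvccD ((δ : ℂ) * v) l j / 2 := by rw [pvccC]; ring
    rw [e]
    refine lt_of_le_of_lt (norm_sub_le _ _) ?_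
    rw [norm_div, h3]
    norm_num
    linarith

/-- ENTRANCE SIDE, cells -/
theorem pvzu_s_cell (hδ : 0 < δ) {v : ℂ} (hu : u ^ 4 = 1) (hD : pvccD ((δ : ℂ) * v) l l.length = - ((δ : ℂ) * u)) {ns : ℕ} (hn : ns ≤ l.length)
    (hS : ∀ i, l.length ≤ i + ns → i < l.length → pvccT l i = PvtTurn.S)
    (hfar : ∀ i, i + ns < l.length → rI + δ ≤ ‖pvccC z ((δ : ℂ) * v) l i - Y‖) {j : ℕ} (hj : j < l.length) :
    PvzuOff Y u (pvccZ z ((δ : ℂ) * v) l l.length) rI (pvccSq (pvccC z ((δ : ℂ) * v) l j) (δ / 2)) := by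
  intro w hw
  by_cases c : l.length ≤ j + ns
  · right
    obtain ⟨k, hk, hk1, rfl⟩ : ∃ k, k ≤ ns ∧ 1 ≤ k ∧ j = l.length - k := ⟨l.length - j, by omega, by omega, by omega⟩
    obtain ⟨h1, h2⟩ := pvzu_run_bwd z ((δ : ℂ) * v) hn hS k hk
    have e : pvccC z ((δ : ℂ) * v) l (l.length - k) = pvccZ z ((δ : ℂ) * v) l l.length + ((((k : ℝ) - 1 / 2) * δ : ℝ) : ℂ) * u := by
      rw [pvccC, h1, h2, hD]; push_cast; ring
    have h3 := abs_lt.1 (pveg_sq_S hu Y hw)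
    rw [e, pvzu_S_add hu] at h3
    have : (1 : ℝ) ≤ (k : ℝ) := by exact_mod_cast hk1
    nlinarith [h3.1]
  · left
    refine pvzu_far_of (hfar j (by omega)) ?_
    have := pvzu_sq_norm hw
    linarith

end sides

/-! ## 4. the core -/

theorem PvzuOff.mono {Y u p : ℂ} {rI : ℝ} {B B' : Set ℂ} (h : PvzuOff Y u p rI B) (hB : B' ⊆ B) : PvzuOff Y u p rI B' := fun w hw => h w (hB hw)

/-- **MB, STRONG FORM**: after its first link (`nt` straight cells) the corridor never comes back to the mouth of `t`; before its last link (`ns` straight cells) it never visits the mouth of `s` -/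
def PvzuNoz (rN : ℝ) (ys yt z d : ℂ) (l : List PvtTurn) : Prop :=
  ∃ nt ns : ℕ, nt + ns ≤ l.length ∧ (∀ i, i < nt → pvccT l i = PvtTurn.S) ∧ (∀ i, l.length ≤ i + ns → i < l.length → pvccT l i = PvtTurn.S) ∧
    (∀ i, nt ≤ i → i < l.length → rN < ‖pvccC z d l i - yt‖) ∧ ∀ i, i + ns < l.length → rN < ‖pvccC z d l i - ys‖

theorem pvzu_sh_ball {Y : ℂ} {rI : ℝ} {A : Set ℂ} (hA : A ⊆ closedBall Y rI) (z : ℂ) : pvieSh z A ⊆ closedBall (z + Y) rI := by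
  rw [← pveg_sh_ball]
  exact Set.image_mono hA

theorem pvzu_sh_disj {A B : Set ℂ} (h : Disjoint A B) (z : ℂ) : Disjoint (pvieSh z A) (pvieSh z B) := by
  rw [Set.disjoint_left]
  rintro _ ⟨a, ha, rfl⟩ ⟨b, hb, e⟩
  have : b = a := add_left_cancel e
  exact Set.disjoint_left.1 h ha (this ▸ hb)

theorem pvzu_range_pw {n : ℕ} {F : ℕ → Set ℂ} (h : ∀ i j, i < n → j < n → i ≠ j → Disjoint (F i) (F j)) : ((List.range n).map F).Pairwise Disjoint := by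
  rw [List.pairwise_map]
  exact List.pairwise_lt_range.imp_of_mem fun {a b} ha hb hlt => h a b (List.mem_range.1 ha) (List.mem_range.1 hb) hlt.ne

/-- a placed door plug, shifted -/
theorem pvzu_sh_sim (z p d : ℂ) (O₀ : Set ℂ) : pvthSim (z + p) d '' O₀ = pvieSh z (pvthSim p d '' O₀) := by
  unfold pvieSh
  rw [Set.image_image]
  refine Set.image_congr fun w _ => ?_
  unfold pvthSim
  ring

/-- **THE CHAIN OF A PATTERN IS SIMPLE**, model free, ABSTRACT END LINKS -/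
theorem pvzu_core_end {kit : PvthKit} {r : ℝ} (R : PvccKitRef kit r) {Yt ut pt Ys us ps : ℂ} {rI rkt rks rN : ℝ} {oM oK iM iK : Set ℂ}
    (Ht : PvzuEnd Yt ut pt kit.δ rI rkt oM oK (pvthSim pt ut '' kit.O₀)) (Hs : PvzuEnd Ys us ps kit.δ rI rks iM iK (pvthSim ps (-us) '' kit.O₀)) (zt zs : ℂ) {l : List PvtTurn}
    (hZ : pvthZ kit.δ (zt + pt) ut l l.length = zs + ps) (hD : pvthD ut l l.length = - us)
    (hs : PvccSimple l l.length) (hrN : rI + kit.δ ≤ rN)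
    (hnoz : PvzuNoz rN (zs + Ys) (zt + Yt) (zt + pt) (kit.δ * ut) l) (hsep : 2 * rI < ‖(zs + Ys) - (zt + Yt)‖) :
    ([pvieSh zt oM, pvieSh zs iM] ++ ([pvieSh zt oK, pvieSh zs iK, pvthSim (zs + ps) (-us) '' kit.O₀] ++ (List.range l.length).map (fun j => pvzuO kit (zt + pt) ut l j) ++
      (List.range l.length).map (fun j => pvzuK kit (zt + pt) ut l j))).Pairwise Disjoint := by
  obtain ⟨nt, ns, hle, hSt, hSs, hft, hfs⟩ := hnoz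
  have hδ := R.δ0
  have hut := Ht.u4
  have hus := Hs.u4
  have hut0 : ut ≠ 0 := by rintro rfl; norm_num at hut
  have hZ' : pvccZ (zt + pt) ((kit.δ : ℂ) * ut) l l.length = zs + ps := by rw [← pvthZ_eq]; exact hZ
  have hD' : pvccD ((kit.δ : ℂ) * ut) l l.length = - ((kit.δ : ℂ) * us) := by rw [← pvthD_eq, hD]; ring
  have hft' : ∀ i, nt ≤ i → i < l.length → rI + kit.δ ≤ ‖pvccC (zt + pt) ((kit.δ : ℂ) * ut) l i - (zt + Yt)‖ := fun i h1 h2 => hrN.trans (hft i h1 h2).le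
  have hfs' : ∀ i, i + ns < l.length → rI + kit.δ ≤ ‖pvccC (zt + pt) ((kit.δ : ℂ) * ut) l i - (zs + Ys)‖ := fun i h1 => hrN.trans (hfs i h1).le
  -- the first and the last door
  have hlast : pvthSim (zs + ps) (-us) '' kit.O₀ = pvzuO kit (zt + pt) ut l l.length := by unfold pvzuO; rw [hZ, hD]
  have hlast' : pvzuO kit (zt + pt) ut l l.length = pvieSh zs (pvthSim ps (-us) '' kit.O₀) := by rw [← hlast, pvzu_sh_sim]
  have hfirst : pvzuO kit (zt + pt) ut l 0 = pvieSh zt (pvthSim pt ut '' kit.O₀) := by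
    rw [← pvzu_sh_sim]
    unfold pvzuO pvthZ pvthD
    simp [pvtDisp]
  -- exit side
  have tO : ∀ A, A ⊆ oM ∪ oK → Disjoint A (pvthSim pt ut '' kit.O₀) → ∀ j, j ≤ l.length → Disjoint (pvieSh zt A) (pvzuO kit (zt + pt) ut l j) := fun A hA hAO j hj => by
    rcases Nat.eq_zero_or_pos j with rfl | hj1
    · rw [hfirst]; exact pvzu_sh_disj hAO zt
    · exact pvzu_off_disj Ht hA zt ((pvzu_t_door hδ hut (by omega) hSt hft' hj hj1).mono (pvzu_O_sq R _ hut l j))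
  have tK : ∀ A, A ⊆ oM ∪ oK → ∀ j, j < l.length → Disjoint (pvieSh zt A) (pvzuK kit (zt + pt) ut l j) := fun A hA j hj =>
    pvzu_off_disj Ht hA zt ((pvzu_t_cell hδ hut (by omega) hSt hft' hj).mono (pvzu_K_sq R _ hut l j))
  -- entrance side
  have sO : ∀ A, A ⊆ iM ∪ iK → Disjoint A (pvthSim ps (-us) '' kit.O₀) → ∀ j, j ≤ l.length → Disjoint (pvieSh zs A) (pvzuO kit (zt + pt) ut l j) := fun A hA hAO j hj => by
    rcases Nat.eq_or_lt_of_le hj with rfl | hj1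
    · rw [hlast']; exact pvzu_sh_disj hAO zs
    · have h := pvzu_s_door (Y := zs + Ys) (z := zt + pt) (rI := rI) hδ hut hus hD' (by omega) hSs hfs' hj1
      rw [hZ'] at h
      exact pvzu_off_disj Hs hA zs (h.mono (pvzu_O_sq R _ hut l j))
  have sK : ∀ A, A ⊆ iM ∪ iK → ∀ j, j < l.length → Disjoint (pvieSh zs A) (pvzuK kit (zt + pt) ut l j) := fun A hA j hj => by
    have h := pvzu_s_cell (Y := zs + Ys) (z := zt + pt) (rI := rI) hδ hus hD' (by omega) hSs hfs' hj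
    rw [hZ'] at h
    exact pvzu_off_disj Hs hA zs (h.mono (pvzu_K_sq R _ hut l j))
  -- the two pins
  have cross : ∀ A B, A ⊆ oM ∪ oK → B ⊆ iM ∪ iK → Disjoint (pvieSh zt A) (pvieSh zs B) := by
    intro A B hA hB
    have h1 := pvzu_sh_ball (hA.trans Ht.ball) zt
    have h2 := pvzu_sh_ball (hB.trans Hs.ball) zs
    refine Disjoint.mono h1 h2 (closedBall_disjoint_closedBall ?_)
    rw [dist_eq_norm, norm_sub_rev]
    linarith
  have a1 : oM ⊆ oM ∪ oK := subset_union_left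
  have a3 : oK ⊆ oM ∪ oK := subset_union_right
  have a2 : iM ⊆ iM ∪ iK := subset_union_left
  have a4 : iK ⊆ iM ∪ iK := subset_union_right
  rw [hlast]
  simp only [List.cons_append, List.nil_append, List.pairwise_cons, List.mem_cons, List.mem_append, List.mem_map, List.mem_range]
  refine ⟨?_, ?_, ?_, ?_, ?_, ?_⟩
  · rintro b (rfl | rfl | rfl | rfl | ⟨j, hj, rfl⟩ | ⟨j, hj, rfl⟩)
    · exact cross _ _ a1 a2
    · exact pvzu_sh_disj Ht.MK zt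
    · exact cross _ _ a1 a4
    · exact tO _ a1 Ht.MO _ le_rfl
    · exact tO _ a1 Ht.MO _ hj.le
    · exact tK _ a1 _ hj
  · rintro b (rfl | rfl | rfl | ⟨j, hj, rfl⟩ | ⟨j, hj, rfl⟩)
    · exact (cross _ _ a3 a2).symm
    · exact pvzu_sh_disj Hs.MK zs
    · exact sO _ a2 Hs.MO _ le_rfl
    · exact sO _ a2 Hs.MO _ hj.le
    · exact sK _ a2 _ hj
  · rintro b (rfl | rfl | ⟨j, hj, rfl⟩ | ⟨j, hj, rfl⟩)
    · exact cross _ _ a3 a4
    · exact tO _ a3 Ht.KO _ le_rfl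
    · exact tO _ a3 Ht.KO _ hj.le
    · exact tK _ a3 _ hj
  · rintro b (rfl | ⟨j, hj, rfl⟩ | ⟨j, hj, rfl⟩)
    · exact sO _ a4 Hs.KO _ le_rfl
    · exact sO _ a4 Hs.KO _ hj.le
    · exact sK _ a4 _ hj
  · rintro b (⟨j, hj, rfl⟩ | ⟨j, hj, rfl⟩)
    · exact pvzu_OO R _ hut0 hs le_rfl hj.le hj.ne'
    · exact pvzu_OK R _ hut0 l _ _
  · rw [List.pairwise_append]
    refine ⟨pvzu_range_pw fun i j hi hj hij => pvzu_OO R _ hut0 hs hi.le hj.le hij, pvzu_range_pw fun i j hi hj hij => pvzu_KK R _ hut0 hs hi.le hj.le hij, ?_⟩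
    intro a ha b hb
    obtain ⟨i, -, rfl⟩ := List.mem_map.1 ha
    obtain ⟨j, -, rfl⟩ := List.mem_map.1 hb
    exact pvzu_OK R _ hut0 l _ _

/-- the same at the end links of record -/
theorem pvzu_core {kit : PvthKit} {r : ℝ} (R : PvccKitRef kit r) {Yt ut pt Ys us ps : ℂ} {e w rM κ rI rkt rks rN : ℝ}
    (Ht : PvegDoor Yt ut pt e kit.δ w rM κ rI rkt) (Hs : PvegDoor Ys us ps e kit.δ w rM κ rI rks) (zt zs : ℂ) {l : List PvtTurn}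
    (hZ : pvthZ kit.δ (zt + pt) ut l l.length = zs + ps) (hD : pvthD ut l l.length = - us)
    (hs : PvccSimple l l.length) (hrN : rI + kit.δ ≤ rN)
    (hnoz : PvzuNoz rN (zs + Ys) (zt + Yt) (zt + pt) (kit.δ * ut) l) (hsep : 2 * rI < ‖(zs + Ys) - (zt + Yt)‖)
    {oM oK iM iK : Set ℂ} (hoM : oM ⊆ closedBall Yt rM) (hoK : oK ⊆ pvegK Yt ut pt e kit.δ w rM) (hiM : iM ⊆ closedBall Ys rM) (hiK : iK ⊆ pvegK Ys us ps e kit.δ w rM) :
    ([pvieSh zt oM, pvieSh zs iM] ++ ([pvieSh zt oK, pvieSh zs iK, pvthSim (zs + ps) (-us) '' kit.O₀] ++ (List.range l.length).map (fun j => pvzuO kit (zt + pt) ut l j) ++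
      (List.range l.length).map (fun j => pvzuK kit (zt + pt) ut l j))).Pairwise Disjoint :=
  pvzu_core_end R (Ht.pvzu_end hoM hoK (pveg_sim_sq R.O_sub R.r_le _ Ht.u4)) (Hs.pvzu_end hiM hiK (pveg_sim_sq R.O_sub R.r_le _ (by rw [neg_pow, Hs.u4]; norm_num))) zt zs hZ hD hs hrN hnoz hsep

/-! ## 5. at the model -/

/-- Euclidean norm against the sup norm -/
theorem pvzu_norm_le (y : ℂ) : ‖y‖ ≤ 3 / 2 * pvccN y := by
  have h1 : |y.re| ≤ pvccN y := le_max_left _ _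
  have h2 : |y.im| ≤ pvccN y := le_max_right _ _
  have h0 : 0 ≤ pvccN y := (abs_nonneg _).trans h1
  have h3 : ‖y‖ ^ 2 = y.re ^ 2 + y.im ^ 2 := by rw [Complex.sq_norm, Complex.normSq_apply]; ring
  have h4 : y.re ^ 2 ≤ pvccN y ^ 2 := by rw [← sq_abs]; exact pow_le_pow_left₀ (abs_nonneg _) h1 2
  have h5 : y.im ^ 2 ≤ pvccN y ^ 2 := by rw [← sq_abs]; exact pow_le_pow_left₀ (abs_nonneg _) h2 2
  refine abs_le_of_sq_le_sq' ?_ (by positivity) |>.2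
  nlinarith

/-- **the two tips are apart**, from the field `sep` of `PvfeIx` (the largest boxes of the two pins are `8 h` apart) -/
theorem pvzu_sep {N : PvwNum} {h : ℝ} (hh : 0 < h) {Ts Tt : PvwTy} {zs zt : ℂ} (hρ : N.rho ≤ 1) (hρ1 : 0 ≤ N.rho1) (hks : Ts.k ≤ N.K) (hkt : Tt.k ≤ N.K)
    (hs : |pvccN Ts.ym - (2 * Ts.b2 + Ts.k * N.rho1)| ≤ N.rho / 4) (ht : |pvccN Tt.yp - (2 * Tt.b2 + Tt.k * N.rho1)| ≤ N.rho / 4)
    (hb1 : 2 * (pvwRad N h Ts N.K + pvwRad N h Tt N.K) + 8 * h ≤ ‖zs - zt‖) : N.rho * h < ‖Ts.cm h zs - Tt.cp h zt‖ := by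
  unfold pvwRad at hb1
  unfold PvwTy.cm PvwTy.cp
  have e : zs - zt = (zs + (h : ℂ) * Ts.ym - (zt + (h : ℂ) * Tt.yp)) - (h : ℂ) * Ts.ym + (h : ℂ) * Tt.yp := by ring
  have h1 : ‖zs - zt‖ ≤ ‖zs + (h : ℂ) * Ts.ym - (zt + (h : ℂ) * Tt.yp)‖ + h * ‖Ts.ym‖ + h * ‖Tt.yp‖ := by
    rw [e]
    refine (norm_add_le _ _).trans ?_
    refine add_le_add ((norm_sub_le _ _).trans ?_) ?_
    · rw [norm_mul, Complex.norm_real, Real.norm_eq_abs, abs_of_pos hh]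
    · rw [norm_mul, Complex.norm_real, Real.norm_eq_abs, abs_of_pos hh]
  have h2 := pvzu_norm_le Ts.ym
  have h3 := pvzu_norm_le Tt.yp
  have n1 : 0 ≤ pvccN Ts.ym := (abs_nonneg _).trans (le_max_left _ _)
  have n2 : 0 ≤ pvccN Tt.yp := (abs_nonneg _).trans (le_max_left _ _)
  have k1 : (Ts.k : ℝ) * N.rho1 ≤ N.K * N.rho1 := mul_le_mul_of_nonneg_right (by exact_mod_cast hks) hρ1
  have k2 : (Tt.k : ℝ) * N.rho1 ≤ N.K * N.rho1 := mul_le_mul_of_nonneg_right (by exact_mod_cast hkt) hρ1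
  have a1 := abs_le.1 hs
  have a2 := abs_le.1 ht
  have b1 : h * ‖Ts.ym‖ ≤ h * (3 / 2 * (2 * Ts.b2 + N.K * N.rho1 + N.rho / 4)) := mul_le_mul_of_nonneg_left (by linarith [a1.2]) hh.le
  have b2 : h * ‖Tt.yp‖ ≤ h * (3 / 2 * (2 * Tt.b2 + N.K * N.rho1 + N.rho / 4)) := mul_le_mul_of_nonneg_left (by linarith [a2.2]) hh.le
  have b3 : h * (- (N.rho / 4)) ≤ h * (2 * Ts.b2 + N.K * N.rho1) := mul_le_mul_of_nonneg_left (by linarith [a1.1]) hh.le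
  have b4 : h * (- (N.rho / 4)) ≤ h * (2 * Tt.b2 + N.K * N.rho1) := mul_le_mul_of_nonneg_left (by linarith [a2.1]) hh.le
  have b5 : h * N.rho ≤ h * 1 := mul_le_mul_of_nonneg_left hρ hh.le
  nlinarith

theorem PvfeLk.pvzu_noz {δ rM rL : ℝ} {ys yt z d : ℂ} {l : List PvtTurn} {Z : Set (ℤ × ℤ)} (h : PvfeLk δ rM rL ys yt z d l Z) : PvzuNoz rM ys yt z d l := by
  obtain ⟨nt, ns, h1, -, -, h2, h3, h4, h5, -⟩ := h
  exact ⟨nt, ns, h1, h2, h3, h4, h5⟩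

section model

variable {τ : Type} {c : ℝ} {𝔓 : PvxPar τ c} {𝔈 : PvieEng τ}

/-- the exit link of the engine at the type `t`, level `m`, is an end link -/
def PvzuEo (𝔓 : PvxPar τ c) (𝔈 : PvieEng τ) (m : ℕ) (ε : ℝ) (t : τ) : Prop :=
  PvzuEnd (pvegYp 𝔓 m t) ((𝔓.Γ m).dout t) ((𝔓.Γ m).pout t) (pvlmDel c m) (pvegR 𝔓 m / 2) (pviwRad 𝔓 m t) (𝔈.oM m t) (𝔈.oK m t) (pviwDo 𝔓 𝔈 m ε t)

/-- the entrance link of the engine at the type `t`, level `m`, is an end link -/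
def PvzuEi (𝔓 : PvxPar τ c) (𝔈 : PvieEng τ) (m : ℕ) (ε : ℝ) (t : τ) : Prop :=
  PvzuEnd (pvegYm 𝔓 m t) (-(𝔓.Γ m).din t) ((𝔓.Γ m).pin t) (pvlmDel c m) (pvegR 𝔓 m / 2) (pviwRad 𝔓 m t) (𝔈.iM m t) (𝔈.iK m t) (pviwDi 𝔓 𝔈 m ε t)

/-- the end links of record (regions inside those of 124) -/
theorem pvzu_eo_of {m : ℕ} {ε r : ℝ} {t : τ} (hL : PvegLev 𝔓 m) (hT : pviwTyOk 𝔓 t) (R : PvccKitRef (𝔈.kit m ε) r) (hδ : (𝔈.kit m ε).δ = pvlmDel c m)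
    (hoM : 𝔈.oM m t ⊆ pvegOM 𝔓 m t) (hoK : 𝔈.oK m t ⊆ pvegOK 𝔓 m t) : PvzuEo 𝔓 𝔈 m ε t :=
  (pveg_door_o hL hT).pvzu_end hoM hoK (pveg_sim_sq R.O_sub (by rw [← hδ]; exact R.r_le) _ (pveg_door_o hL hT).u4)

theorem pvzu_ei_of {m : ℕ} {ε r : ℝ} {t : τ} (hL : PvegLev 𝔓 m) (hT : pviwTyOk 𝔓 t) (R : PvccKitRef (𝔈.kit m ε) r) (hδ : (𝔈.kit m ε).δ = pvlmDel c m)
    (hiM : 𝔈.iM m t ⊆ pvegIM 𝔓 m t) (hiK : 𝔈.iK m t ⊆ pvegIK 𝔓 m t) : PvzuEi 𝔓 𝔈 m ε t :=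
  (pveg_door_i hL hT).pvzu_end hiM hiK (pveg_sim_sq R.O_sub (by rw [← hδ]; exact R.r_le) _ (by have := (pveg_door_i hL hT).u4; rw [neg_pow] at this; norm_num at this; exact this))

/-- the end links of record v2 (tiles inside `pvegOKa`, `pvegIKa` of 124 at the door region of the kit) -/
theorem pvzu_eo_of_a {m : ℕ} {ε r : ℝ} {t : τ} {O₀ : ℕ → Set ℂ} (hL : PvegLev 𝔓 m) (hT : pviwTyOk 𝔓 t) (R : PvccKitRef (𝔈.kit m ε) r) (hδ : (𝔈.kit m ε).δ = pvlmDel c m)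
    (hO : (𝔈.kit m ε).O₀ = O₀ m) (hoM : 𝔈.oM m t ⊆ pvegOM 𝔓 m t) (hoK : 𝔈.oK m t ⊆ pvegOKa 𝔓 O₀ m t) : PvzuEo 𝔓 𝔈 m ε t :=
  (pveg_door_o hL hT).pvzu_end_a (pveg_A_pos c m).le (pveg_A_le c m) hoM (by unfold pviwDo pvieDoor; rw [hO]; exact hoK)
    (pveg_sim_sq R.O_sub (by rw [← hδ]; exact R.r_le) _ (pveg_door_o hL hT).u4)

theorem pvzu_ei_of_a {m : ℕ} {ε r : ℝ} {t : τ} {O₀ : ℕ → Set ℂ} (hL : PvegLev 𝔓 m) (hT : pviwTyOk 𝔓 t) (R : PvccKitRef (𝔈.kit m ε) r) (hδ : (𝔈.kit m ε).δ = pvlmDel c m)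
    (hO : (𝔈.kit m ε).O₀ = O₀ m) (hiM : 𝔈.iM m t ⊆ pvegIM 𝔓 m t) (hiK : 𝔈.iK m t ⊆ pvegIKa 𝔓 O₀ m t) : PvzuEi 𝔓 𝔈 m ε t :=
  (pveg_door_i hL hT).pvzu_end_a (pveg_A_pos c m).le (pveg_A_le c m) hiM (by unfold pviwDi pvieDoor; rw [hO]; exact hiK)
    (pveg_sim_sq R.O_sub (by rw [← hδ]; exact R.r_le) _ (by have := (pveg_door_i hL hT).u4; rw [neg_pow] at this; norm_num at this; exact this))

/-- **`PvieSimple` OF A PATTERN, ABSTRACT END LINKS**: reference kit at the mesh of the level, the two end links of the engine are end links (`PvzuEo`, `PvzuEi`), the word is a chain from door to door, simple,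
MB in the strong form at the radius of record `ρ h + 4 δ`, the two tips `ρ h` apart -/
theorem pvzu_simple_end {m : ℕ} {ε r : ℝ} {π : PvtsPat τ} (hdel : (𝔓.Γ m).δ = pvlmDel c m) (R : PvccKitRef (𝔈.kit m ε) r) (hδ : (𝔈.kit m ε).δ = pvlmDel c m)
    (Et : PvzuEo 𝔓 𝔈 m ε π.tt) (Es : PvzuEi 𝔓 𝔈 m ε π.ts) (hOk : (𝔓.Γ m).Ok π) (hs : PvccSimple π.l π.l.length)
    (hnoz : PvzuNoz (𝔓.num.rho * pvlmH m + 4 * (𝔓.Γ m).δ) ((𝔓.ty π.ts).cm (pvlmH m) π.zs) ((𝔓.ty π.tt).cp (pvlmH m) π.zt) (pvfeZ (𝔓.Γ m) π) (pvfeD (𝔓.Γ m) π) π.l)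
    (hsep : 𝔓.num.rho * pvlmH m < ‖(𝔓.ty π.ts).cm (pvlmH m) π.zs - (𝔓.ty π.tt).cp (pvlmH m) π.zt‖) :
    PvieSimple 𝔓 𝔈 m ε π := by
  unfold PvzuEo pviwDo pvieDoor at Et
  unfold PvzuEi pviwDi pvieDoor at Es
  rw [← hδ] at Et Es
  have hΓ : (𝔓.Γ m).δ = (𝔈.kit m ε).δ := by rw [hdel, hδ]
  have hr : 0 ≤ pvegR 𝔓 m / 2 := (norm_nonneg _).trans Et.door
  have hZ : pvthZ (𝔈.kit m ε).δ (π.zt + (𝔓.Γ m).pout π.tt) ((𝔓.Γ m).dout π.tt) π.l π.l.length = π.zs + (𝔓.Γ m).pin π.ts := by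
    unfold pvthZ
    rw [List.take_length, ← hΓ, hOk.1]
    ring
  have hD : pvthD ((𝔓.Γ m).dout π.tt) π.l π.l.length = - -(𝔓.Γ m).din π.ts := by
    unfold pvthD
    rw [List.take_length, hOk.2, neg_neg]
  have key := pvzu_core_end R Et (by rw [neg_neg]; exact Es) π.zt π.zs hZ hD hs (rN := 𝔓.num.rho * pvlmH m + 4 * (𝔓.Γ m).δ)
    (by rw [hΓ]; unfold pvegR at hr ⊢; linarith [R.δ0])
    (by rw [← hΓ]; exact hnoz)
    (by unfold pvegR; have e : 2 * (𝔓.num.rho * pvlmH m / 2) = 𝔓.num.rho * pvlmH m := by ring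
        rw [e]; exact hsep)
  rw [neg_neg] at key
  exact key

/-- **`PvieSimple` OF A PATTERN**: level `m` fine (`PvegLev`), the two types sound, reference kit at the mesh of the level, mouths and tiles of the engine inside those of record (124) -/
theorem pvzu_simple {m : ℕ} {ε r : ℝ} {π : PvtsPat τ} (hL : PvegLev 𝔓 m) (hTt : pviwTyOk 𝔓 π.tt) (hTs : pviwTyOk 𝔓 π.ts)
    (R : PvccKitRef (𝔈.kit m ε) r) (hδ : (𝔈.kit m ε).δ = pvlmDel c m)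
    (hoM : 𝔈.oM m π.tt ⊆ pvegOM 𝔓 m π.tt) (hoK : 𝔈.oK m π.tt ⊆ pvegOK 𝔓 m π.tt) (hiM : 𝔈.iM m π.ts ⊆ pvegIM 𝔓 m π.ts) (hiK : 𝔈.iK m π.ts ⊆ pvegIK 𝔓 m π.ts)
    (hOk : (𝔓.Γ m).Ok π) (hs : PvccSimple π.l π.l.length)
    (hnoz : PvzuNoz (𝔓.num.rho * pvlmH m + 4 * (𝔓.Γ m).δ) ((𝔓.ty π.ts).cm (pvlmH m) π.zs) ((𝔓.ty π.tt).cp (pvlmH m) π.zt) (pvfeZ (𝔓.Γ m) π) (pvfeD (𝔓.Γ m) π) π.l)
    (hsep : 𝔓.num.rho * pvlmH m < ‖(𝔓.ty π.ts).cm (pvlmH m) π.zs - (𝔓.ty π.tt).cp (pvlmH m) π.zt‖) :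
    PvieSimple 𝔓 𝔈 m ε π :=
  pvzu_simple_end hL.del R hδ (pvzu_eo_of hL hTt R hδ hoM hoK) (pvzu_ei_of hL hTs R hδ hiM hiK) hOk hs hnoz hsep

/-- **`PvieSimple` FROM THE INDEX PREDICATES, ABSTRACT END LINKS** -/
theorem pvzu_simple_ix_end {m : ℕ} {ε r : ℝ} {π : PvtsPat τ} {Z : Set (ℤ × ℤ)} (hB : 𝔓.WfB) (hdel : (𝔓.Γ m).δ = pvlmDel c m) (hDo : PvfeDoors (𝔓.Γ m) 𝔓.ty 𝔓.num (pvlmH m))
    (R : PvccKitRef (𝔈.kit m ε) r) (hδ : (𝔈.kit m ε).δ = pvlmDel c m) (Et : PvzuEo 𝔓 𝔈 m ε π.tt) (Es : PvzuEi 𝔓 𝔈 m ε π.ts)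
    (hOk : (𝔓.Γ m).Ok π) (hI : PvfeIx (𝔓.Γ m) 𝔓.ty 𝔓.num (pvlmH m) π Z) : PvieSimple 𝔓 𝔈 m ε π :=
  pvzu_simple_end hdel R hδ Et Es hOk hI.simple hI.lk.pvzu_noz
    (pvzu_sep (pvlm_H_pos m) (by linarith [hB.rho1, hB.rho2, hB.rho3]) (by linarith [hB.rho0, hB.rho1]) (hB.lev _) (hB.lev _) (hDo.nd_m _) (hDo.nd_p _) hI.sep)

/-- **`PvieSimple` FROM THE INDEX PREDICATES** `PvfeIx` v5 of 209 (`simple lk sep`) -/
theorem pvzu_simple_ix {m : ℕ} {ε r : ℝ} {π : PvtsPat τ} {Z : Set (ℤ × ℤ)} (hB : 𝔓.WfB) (hL : PvegLev 𝔓 m) (hTt : pviwTyOk 𝔓 π.tt) (hTs : pviwTyOk 𝔓 π.ts)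
    (R : PvccKitRef (𝔈.kit m ε) r) (hδ : (𝔈.kit m ε).δ = pvlmDel c m)
    (hoM : 𝔈.oM m π.tt ⊆ pvegOM 𝔓 m π.tt) (hoK : 𝔈.oK m π.tt ⊆ pvegOK 𝔓 m π.tt) (hiM : 𝔈.iM m π.ts ⊆ pvegIM 𝔓 m π.ts) (hiK : 𝔈.iK m π.ts ⊆ pvegIK 𝔓 m π.ts)
    (hOk : (𝔓.Γ m).Ok π) (hI : PvfeIx (𝔓.Γ m) 𝔓.ty 𝔓.num (pvlmH m) π Z) : PvieSimple 𝔓 𝔈 m ε π :=
  pvzu_simple hL hTt hTs R hδ hoM hoK hiM hiK hOk hI.simple hI.lk.pvzu_noz
    (pvzu_sep (pvlm_H_pos m) (by linarith [hB.rho1, hB.rho2, hB.rho3]) (by linarith [hB.rho0, hB.rho1]) (hB.lev _) (hB.lev _) (hL.doors.nd_m _) (hL.doors.nd_p _) hI.sep)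

/-- the index predicates of a pattern (compiles at TrModel v4 AND after a clause is appended to `pvxPatSet`: v4.1) -/
theorem pvzu_pat_ix {m : ℕ} {x : ℂ} {R₀ : ℝ} {π : PvxIx τ} (hπ : π ∈ pvxPatSet 𝔓 x R₀ m) : PvfeIx (𝔓.Γ m) 𝔓.ty 𝔓.num (pvlmH m) π.p (↑π.Zs ∪ ↑π.Zt) := by
  first
    | exact hπ.2.2.2.2
    | exact hπ.2.2.2.2.1

/-- **`PvieSimple` ON `pvxPatSet`, ABSTRACT END LINKS** -/
theorem pvzu_simple_pat_end {m : ℕ} {ε r : ℝ} {x : ℂ} {R₀ : ℝ} {π : PvxIx τ} (hB : 𝔓.WfB) (hdel : (𝔓.Γ m).δ = pvlmDel c m) (hDo : PvfeDoors (𝔓.Γ m) 𝔓.ty 𝔓.num (pvlmH m))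
    (R : PvccKitRef (𝔈.kit m ε) r) (hδ : (𝔈.kit m ε).δ = pvlmDel c m) (Et : ∀ t, PvzuEo 𝔓 𝔈 m ε t) (Es : ∀ t, PvzuEi 𝔓 𝔈 m ε t)
    (hπ : π ∈ pvxPatSet 𝔓 x R₀ m) : PvieSimple 𝔓 𝔈 m ε π.p :=
  pvzu_simple_ix_end hB hdel hDo R hδ (Et _) (Es _) hπ.1.1 (pvzu_pat_ix hπ)

/-- **`PvieSimple` ON `pvxPatSet`** -/
theorem pvzu_simple_pat {m : ℕ} {ε r : ℝ} {x : ℂ} {R₀ : ℝ} {π : PvxIx τ} (hB : 𝔓.WfB) (hL : PvegLev 𝔓 m) (hT : ∀ t, pviwTyOk 𝔓 t)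
    (R : PvccKitRef (𝔈.kit m ε) r) (hδ : (𝔈.kit m ε).δ = pvlmDel c m)
    (hoM : ∀ t, 𝔈.oM m t ⊆ pvegOM 𝔓 m t) (hoK : ∀ t, 𝔈.oK m t ⊆ pvegOK 𝔓 m t) (hiM : ∀ t, 𝔈.iM m t ⊆ pvegIM 𝔓 m t) (hiK : ∀ t, 𝔈.iK m t ⊆ pvegIK 𝔓 m t)
    (hπ : π ∈ pvxPatSet 𝔓 x R₀ m) : PvieSimple 𝔓 𝔈 m ε π.p :=
  pvzu_simple_ix hB hL (hT _) (hT _) R hδ (hoM _) (hoK _) (hiM _) (hiK _) hπ.1.1 (pvzu_pat_ix hπ)

end model

/-! ## 6. the tiles of a pattern miss the fattened frozen cells -/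

section runs

variable {Y u z : ℂ} {δ : ℝ} {l : List PvtTurn}

theorem pvzu_norm_real_mul {u : ℂ} (hu : u ^ 4 = 1) {t : ℝ} (ht : 0 ≤ t) : ‖((t : ℝ) : ℂ) * u‖ = t := by
  rw [norm_mul, pveg_norm_unit hu, mul_one, Complex.norm_real, Real.norm_eq_abs, abs_of_nonneg ht]

/-- a point near `z + t u` -/
theorem pvzu_run_pt (hu : u ^ 4 = 1) {t a b : ℝ} (ht : 0 ≤ t) {w : ℂ} (hw : w ∈ pvccSq (z + ((t : ℝ) : ℂ) * u) a) (hab : a ≤ t + b) :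
    pvegS Y u z - b < pvegS Y u w ∧ ‖w - z‖ ≤ t + 2 * a := by
  constructor
  · have h3 := abs_lt.1 (pveg_sq_S hu Y hw)
    rw [pvzu_S_add hu] at h3
    linarith [h3.1]
  · have h4 := pvzu_sq_norm hw
    have e2 : w - z = (w - (z + ((t : ℝ) : ℂ) * u)) + ((t : ℝ) : ℂ) * u := by ring
    rw [e2]
    refine (norm_add_le _ _).trans ?_
    rw [pvzu_norm_real_mul hu ht]
    linarith

theorem pvzu_fr_door (hδ : 0 < δ) (hu : u ^ 4 = 1) {nt : ℕ} (hn : nt ≤ l.length) (hS : ∀ i, i < nt → pvccT l i = PvtTurn.S) {j : ℕ} (c : j ≤ nt) {w : ℂ}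
    (hw : w ∈ pvccSq (pvccZ z ((δ : ℂ) * u) l j) (δ / 4)) : pvegS Y u z - δ / 4 < pvegS Y u w ∧ ‖w - z‖ ≤ nt * δ + 2 * δ := by
  obtain ⟨-, h2⟩ := pvzu_run_fwd z ((δ : ℂ) * u) hn hS j c
  have e : pvccZ z ((δ : ℂ) * u) l j = z + (((j : ℝ) * δ : ℝ) : ℂ) * u := by rw [h2]; push_cast; ring
  have h0 : (0 : ℝ) ≤ (j : ℝ) * δ := by positivity
  have hj : (j : ℝ) * δ ≤ nt * δ := mul_le_mul_of_nonneg_right (by exact_mod_cast c) hδ.le
  rw [e] at hw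
  obtain ⟨a1, a2⟩ := pvzu_run_pt (Y := Y) hu h0 hw (b := δ / 4) (by linarith)
  exact ⟨a1, by linarith⟩

theorem pvzu_fr_cell (hδ : 0 < δ) (hu : u ^ 4 = 1) {nt : ℕ} (hn : nt ≤ l.length) (hS : ∀ i, i < nt → pvccT l i = PvtTurn.S) {j : ℕ} (c : j ≤ nt) {w : ℂ}
    (hw : w ∈ pvccSq (pvccC z ((δ : ℂ) * u) l j) (δ / 2)) : pvegS Y u z - δ / 4 < pvegS Y u w ∧ ‖w - z‖ ≤ nt * δ + 2 * δ := by
  obtain ⟨h1, h2⟩ := pvzu_run_fwd z ((δ : ℂ) * u) hn hS j c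
  have e : pvccC z ((δ : ℂ) * u) l j = z + ((((j : ℝ) + 1 / 2) * δ : ℝ) : ℂ) * u := by rw [pvccC, h1, h2]; push_cast; ring
  have h0 : (0 : ℝ) ≤ ((j : ℝ) + 1 / 2) * δ := by positivity
  have hj : (j : ℝ) * δ ≤ nt * δ := mul_le_mul_of_nonneg_right (by exact_mod_cast c) hδ.le
  have hj0 : (0 : ℝ) ≤ (j : ℝ) * δ := by positivity
  rw [e] at hw
  obtain ⟨a1, a2⟩ := pvzu_run_pt (Y := Y) hu h0 hw (b := δ / 4) (by nlinarith)
  exact ⟨a1, by nlinarith⟩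

theorem pvzu_bk_door (hδ : 0 < δ) {v : ℂ} (hu : u ^ 4 = 1) (hD : pvccD ((δ : ℂ) * v) l l.length = - ((δ : ℂ) * u)) {ns : ℕ} (hn : ns ≤ l.length)
    (hS : ∀ i, l.length ≤ i + ns → i < l.length → pvccT l i = PvtTurn.S) {k : ℕ} (hk : k ≤ ns) {w : ℂ}
    (hw : w ∈ pvccSq (pvccZ z ((δ : ℂ) * v) l (l.length - k)) (δ / 4)) :
    pvegS Y u (pvccZ z ((δ : ℂ) * v) l l.length) - δ / 4 < pvegS Y u w ∧ ‖w - pvccZ z ((δ : ℂ) * v) l l.length‖ ≤ ns * δ + 2 * δ := by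
  obtain ⟨-, h2⟩ := pvzu_run_bwd z ((δ : ℂ) * v) hn hS k hk
  have e : pvccZ z ((δ : ℂ) * v) l (l.length - k) = pvccZ z ((δ : ℂ) * v) l l.length + (((k : ℝ) * δ : ℝ) : ℂ) * u := by rw [h2, hD]; push_cast; ring
  have h0 : (0 : ℝ) ≤ (k : ℝ) * δ := by positivity
  have hj : (k : ℝ) * δ ≤ ns * δ := mul_le_mul_of_nonneg_right (by exact_mod_cast hk) hδ.le
  rw [e] at hw
  obtain ⟨a1, a2⟩ := pvzu_run_pt (Y := Y) hu h0 hw (b := δ / 4) (by linarith)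
  exact ⟨a1, by linarith⟩

theorem pvzu_bk_cell (hδ : 0 < δ) {v : ℂ} (hu : u ^ 4 = 1) (hD : pvccD ((δ : ℂ) * v) l l.length = - ((δ : ℂ) * u)) {ns : ℕ} (hn : ns ≤ l.length)
    (hS : ∀ i, l.length ≤ i + ns → i < l.length → pvccT l i = PvtTurn.S) {k : ℕ} (hk : k ≤ ns) (hk1 : 1 ≤ k) {w : ℂ}
    (hw : w ∈ pvccSq (pvccC z ((δ : ℂ) * v) l (l.length - k)) (δ / 2)) :
    pvegS Y u (pvccZ z ((δ : ℂ) * v) l l.length) - δ / 4 < pvegS Y u w ∧ ‖w - pvccZ z ((δ : ℂ) * v) l l.length‖ ≤ ns * δ + 2 * δ := by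
  obtain ⟨h1, h2⟩ := pvzu_run_bwd z ((δ : ℂ) * v) hn hS k hk
  have e : pvccC z ((δ : ℂ) * v) l (l.length - k) = pvccZ z ((δ : ℂ) * v) l l.length + ((((k : ℝ) - 1 / 2) * δ : ℝ) : ℂ) * u := by
    rw [pvccC, h1, h2, hD]; push_cast; ring
  have hk1' : (1 : ℝ) ≤ (k : ℝ) := by exact_mod_cast hk1
  have h0 : (0 : ℝ) ≤ ((k : ℝ) - 1 / 2) * δ := mul_nonneg (by linarith) hδ.le
  have hj : (k : ℝ) * δ ≤ ns * δ := mul_le_mul_of_nonneg_right (by exact_mod_cast hk) hδ.le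
  rw [e] at hw
  obtain ⟨a1, a2⟩ := pvzu_run_pt (Y := Y) hu h0 hw (b := δ / 4) (by nlinarith)
  exact ⟨a1, by nlinarith⟩

end runs

/-- in front of the door line: off the own-level box with its collar -/
theorem pvzu_front_off {Y u p : ℂ} {δ rI rk : ℝ} {M K O : Set ℂ} (H : PvzuEnd Y u p δ rI rk M K O) (z : ℂ) {v : ℂ} (hv : pvegS (z + Y) u (z + p) - δ / 4 < pvegS (z + Y) u v) :
    v ∉ pvieSh z (pvwSq 0 (rk + δ)) := by
  rintro ⟨a, ha, rfl⟩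
  simp only [pvzu_S_sh] at hv
  exact H.front a hv ha

/-- **the three classes of points of the chain**: (F) in front of the exit door line, near the exit door; (M) off `U`; (L) in front of the entrance door line, near the entrance door -/
def PvzuCls (Yt ut dt Ys us ds : ℂ) (δ rF : ℝ) (U : Set ℂ) (v : ℂ) : Prop :=
  (pvegS Yt ut dt - δ / 4 < pvegS Yt ut v ∧ ‖v - dt‖ ≤ rF) ∨ v ∉ U ∨ (pvegS Ys us ds - δ / 4 < pvegS Ys us v ∧ ‖v - ds‖ ≤ rF)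

/-- one coordinate of the nearest point of a cell -/
theorem pvzu_clamp {a b x δ : ℝ} (hab : a ≤ b) (h1 : a - δ ≤ x) (h2 : x ≤ b + δ) (hδ : 0 ≤ δ) : a ≤ max a (min x b) ∧ max a (min x b) ≤ b ∧ |x - max a (min x b)| ≤ δ := by
  refine ⟨le_max_left _ _, max_le hab (min_le_right _ _), ?_⟩
  by_cases c1 : x ≤ a
  · rw [min_eq_left (c1.trans hab), max_eq_left c1, abs_le]
    exact ⟨by linarith, by linarith⟩
  · rw [not_le] at c1
    by_cases c2 : x ≤ b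
    · rw [min_eq_left c2, max_eq_right c1.le, sub_self, abs_zero]
      exact hδ
    · rw [not_le] at c2
      rw [min_eq_right c2.le, max_eq_right hab, abs_le]
      exact ⟨by linarith, by linarith⟩

/-- a point of the fattened cells is within `δ` (sup norm) of a point of the cells -/
theorem pvzu_N8_near {δ : ℝ} (hδ : 0 < δ) {Z : Set (ℤ × ℤ)} {v : ℂ} (hv : v ∈ pvtU δ (pvtN8 Z)) : ∃ p ∈ pvtU δ Z, |v.re - p.re| ≤ δ ∧ |v.im - p.im| ≤ δ := by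
  simp only [pvtU, mem_iUnion] at hv
  obtain ⟨c', ⟨c0, hc0, hc⟩, hv'⟩ := hv
  have hadj : c'.1 ≤ c0.1 + 1 ∧ c0.1 ≤ c'.1 + 1 ∧ c'.2 ≤ c0.2 + 1 ∧ c0.2 ≤ c'.2 + 1 := by
    rcases hc with rfl | h
    · exact ⟨by omega, by omega, by omega, by omega⟩
    · exact h.2
  obtain ⟨a1, a2, a3, a4⟩ := hadj
  have b1 : (c'.1 : ℝ) ≤ c0.1 + 1 := by exact_mod_cast a1
  have b2 : (c0.1 : ℝ) ≤ c'.1 + 1 := by exact_mod_cast a2
  have b3 : (c'.2 : ℝ) ≤ c0.2 + 1 := by exact_mod_cast a3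
  have b4 : (c0.2 : ℝ) ≤ c'.2 + 1 := by exact_mod_cast a4
  obtain ⟨v1, v2, v3, v4⟩ := hv'
  obtain ⟨r1, r2, r3⟩ := pvzu_clamp (a := (c0.1 : ℝ) * δ) (b := ((c0.1 : ℝ) + 1) * δ) (x := v.re) (δ := δ) (by nlinarith) (by nlinarith) (by nlinarith) hδ.le
  obtain ⟨i1, i2, i3⟩ := pvzu_clamp (a := (c0.2 : ℝ) * δ) (b := ((c0.2 : ℝ) + 1) * δ) (x := v.im) (δ := δ) (by nlinarith) (by nlinarith) (by nlinarith) hδ.le
  refine ⟨⟨max ((c0.1 : ℝ) * δ) (min v.re (((c0.1 : ℝ) + 1) * δ)), max ((c0.2 : ℝ) * δ) (min v.im (((c0.2 : ℝ) + 1) * δ))⟩, ?_, r3, i3⟩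
  simp only [pvtU, mem_iUnion]
  exact ⟨c0, hc0, r1, r2, i1, i2⟩

/-- a cell of the grid whose `2 δ`-collar misses the cells of `Z`: the OPEN cell misses the fattened cells -/
theorem pvzu_cell_off {δ : ℝ} (hδ : 0 < δ) {a : ℤ × ℤ} {Z : Set (ℤ × ℤ)} (h : Disjoint (closedBall (pvtCtr δ a) (2 * δ)) (pvtU δ Z)) {v : ℂ} (hv : v ∈ pvccSq (pvtCtr δ a) (δ / 2)) :
    v ∉ pvtU δ (pvtN8 Z) := by
  intro hU
  simp only [pvtU, mem_iUnion] at hU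
  obtain ⟨c', ⟨c0, hc0, hc⟩, v1, v2, v3, v4⟩ := hU
  have h1 : |(v - pvtCtr δ a).re| < δ / 2 := lt_of_le_of_lt (le_max_left _ _) hv
  have h2 : |(v - pvtCtr δ a).im| < δ / 2 := lt_of_le_of_lt (le_max_right _ _) hv
  simp only [Complex.sub_re, Complex.sub_im, pvtCtr] at h1 h2
  rw [abs_lt] at h1 h2
  -- the closed cell which contains `v` is `a`
  have e1 : c'.1 = a.1 := by
    have i1 : (c'.1 : ℝ) < a.1 + 1 := by nlinarith [h1.2]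
    have i2 : (a.1 : ℝ) < c'.1 + 1 := by nlinarith [h1.1]
    have j1 : c'.1 < a.1 + 1 := by exact_mod_cast i1
    have j2 : a.1 < c'.1 + 1 := by exact_mod_cast i2
    omega
  have e2 : c'.2 = a.2 := by
    have i1 : (c'.2 : ℝ) < a.2 + 1 := by nlinarith [h2.2]
    have i2 : (a.2 : ℝ) < c'.2 + 1 := by nlinarith [h2.1]
    have j1 : c'.2 < a.2 + 1 := by exact_mod_cast i1
    have j2 : a.2 < c'.2 + 1 := by exact_mod_cast i2
    omega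
  have hadj : a.1 ≤ c0.1 + 1 ∧ c0.1 ≤ a.1 + 1 ∧ a.2 ≤ c0.2 + 1 ∧ c0.2 ≤ a.2 + 1 := by
    rw [← e1, ← e2]
    rcases hc with rfl | h
    · exact ⟨by omega, by omega, by omega, by omega⟩
    · exact h.2
  obtain ⟨a1, a2, a3, a4⟩ := hadj
  have b1 : (a.1 : ℝ) ≤ c0.1 + 1 := by exact_mod_cast a1
  have b2 : (c0.1 : ℝ) ≤ a.1 + 1 := by exact_mod_cast a2
  have b3 : (a.2 : ℝ) ≤ c0.2 + 1 := by exact_mod_cast a3
  have b4 : (c0.2 : ℝ) ≤ a.2 + 1 := by exact_mod_cast a4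
  -- the midpoint of the two centres
  have hq1 : (⟨(((a.1 : ℝ) + c0.1) / 2 + 1 / 2) * δ, (((a.2 : ℝ) + c0.2) / 2 + 1 / 2) * δ⟩ : ℂ) ∈ closedBall (pvtCtr δ a) (2 * δ) := by
    rw [mem_closedBall_iff_norm]
    refine (Complex.norm_le_abs_re_add_abs_im _).trans ?_
    simp only [Complex.sub_re, Complex.sub_im, pvtCtr]
    have k1 : |(((a.1 : ℝ) + c0.1) / 2 + 1 / 2) * δ - ((a.1 : ℝ) + 1 / 2) * δ| ≤ δ := abs_le.2 ⟨by nlinarith, by nlinarith⟩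
    have k2 : |(((a.2 : ℝ) + c0.2) / 2 + 1 / 2) * δ - ((a.2 : ℝ) + 1 / 2) * δ| ≤ δ := abs_le.2 ⟨by nlinarith, by nlinarith⟩
    linarith
  have hq2 : (⟨(((a.1 : ℝ) + c0.1) / 2 + 1 / 2) * δ, (((a.2 : ℝ) + c0.2) / 2 + 1 / 2) * δ⟩ : ℂ) ∈ pvtU δ Z := by
    simp only [pvtU, mem_iUnion]
    refine ⟨c0, hc0, ?_, ?_, ?_, ?_⟩ <;> simp only <;> nlinarith
  exact Set.disjoint_left.1 h hq1 hq2

/-- **the cells of a word which starts in a cell of the grid are cells of the grid** -/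
theorem pvzu_aligned {δ : ℝ} {z u : ℂ} (hu : u ^ 4 = 1) {a : ℤ × ℤ} (ha : z + (δ : ℂ) * u / 2 = pvtCtr δ a) (l : List PvtTurn) (j : ℕ) : ∃ b : ℤ × ℤ, pvccC z ((δ : ℂ) * u) l j = pvtCtr δ b := by
  obtain ⟨g1, g2, hg⟩ := pvcc_acc_rot_gauss hu (l.take j)
  refine ⟨(a.1 + g1, a.2 + g2), ?_⟩
  rw [pvccC_eq, ha, pvtAcc_mul, hg]
  apply Complex.ext
  · simp [pvtCtr]; ring
  · simp [pvtCtr]; ring

/-- **what sec. 6 reads of `PvfeLk`** (own text: `Defs/FitReg` may move): straight links of length `≤ rL`; the `2 ‖d‖`-collar of a MIDDLE cell misses the hull cells -/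
def PvzuLk (δ rL : ℝ) (z d : ℂ) (l : List PvtTurn) (Z : Set (ℤ × ℤ)) : Prop :=
  ∃ nt ns : ℕ, nt + ns ≤ l.length ∧ nt * δ ≤ rL ∧ ns * δ ≤ rL ∧ (∀ i, i < nt → pvccT l i = PvtTurn.S) ∧ (∀ i, l.length ≤ i + ns → i < l.length → pvccT l i = PvtTurn.S) ∧
    ∀ i, nt ≤ i → i + ns < l.length → Disjoint (closedBall (pvccC z d l i) (2 * ‖d‖)) (pvtU δ Z)

theorem PvzuLk.mono {δ rL rL' : ℝ} {z d : ℂ} {l : List PvtTurn} {Z : Set (ℤ × ℤ)} (h : PvzuLk δ rL z d l Z) (hr : rL ≤ rL') : PvzuLk δ rL' z d l Z := by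
  obtain ⟨nt, ns, h1, h2, h3, h4⟩ := h
  exact ⟨nt, ns, h1, h2.trans hr, h3.trans hr, h4⟩

/-- the adapter (compiles at the clause `(3 ‖d‖, pvtN8 Z)` of FitReg v5 = v7 AND at the clause `(2 ‖d‖, Z)` of v6) -/
theorem PvfeLk.pvzu_lk {δ rM rL : ℝ} {ys yt z d : ℂ} {l : List PvtTurn} {Z : Set (ℤ × ℤ)} (h : PvfeLk δ rM rL ys yt z d l Z) : PvzuLk δ rL z d l Z := by
  obtain ⟨nt, ns, h1, h2, h3, h4, h5, -, -, h6⟩ := h
  refine ⟨nt, ns, h1, h2, h3, h4, h5, fun i hi hi' => (h6 i hi hi').mono (closedBall_subset_closedBall (by nlinarith [norm_nonneg d])) (pvt_U_mono ?_)⟩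
  first
    | exact subset_rfl
    | exact pvt_N8_sub

section cls

variable {Yt ut Ys us z : ℂ} {δ rL : ℝ} {l : List PvtTurn} {Z : Set (ℤ × ℤ)}

theorem pvzu_cls_door (hδ : 0 < δ) (hut : ut ^ 4 = 1) (hus : us ^ 4 = 1) (hD : pvccD ((δ : ℂ) * ut) l l.length = - ((δ : ℂ) * us))
    (hlk : PvzuLk δ rL z ((δ : ℂ) * ut) l Z) {j : ℕ} (hj : j ≤ l.length) {v : ℂ} (hv : v ∈ pvccSq (pvccZ z ((δ : ℂ) * ut) l j) (δ / 4)) :
    PvzuCls Yt ut z Ys us (pvccZ z ((δ : ℂ) * ut) l l.length) δ (rL + 2 * δ) (pvtU δ (pvtN8 Z)) v := by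
  obtain ⟨nt, ns, hle, hnt, hns, hSt, hSs, hmid⟩ := hlk
  by_cases c : j ≤ nt
  · left
    obtain ⟨a1, a2⟩ := pvzu_fr_door (Y := Yt) hδ hut (by omega) hSt c hv
    exact ⟨a1, by linarith⟩
  by_cases c' : l.length ≤ j + ns
  · right; right
    obtain ⟨k, hk, rfl⟩ : ∃ k, k ≤ ns ∧ j = l.length - k := ⟨l.length - j, by omega, by omega⟩
    obtain ⟨a1, a2⟩ := pvzu_bk_door (Y := Ys) hδ hus hD (by omega) hSs hk hv
    exact ⟨a1, by linarith⟩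
  · right; left
    intro hU
    obtain ⟨p, hp, p1, p2⟩ := pvzu_N8_near hδ hU
    obtain ⟨i, rfl⟩ : ∃ i, j = i + 1 := ⟨j - 1, by omega⟩
    have hi : i < l.length := by omega
    have hd : ‖(δ : ℂ) * ut‖ = δ := pvzu_norm_real_mul hut hδ.le
    have m1 := hmid i (by omega) (by omega)
    have m2 := hmid (i + 1) (by omega) (by omega)
    rw [hd] at m1 m2
    have n1 : 2 * δ < ‖p - pvccC z ((δ : ℂ) * ut) l i‖ := by
      by_contra hcon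
      exact Set.disjoint_left.1 m1 (mem_closedBall_iff_norm.2 (not_lt.1 hcon)) hp
    have n2 : 2 * δ < ‖p - pvccC z ((δ : ℂ) * ut) l (i + 1)‖ := by
      by_contra hcon
      exact Set.disjoint_left.1 m2 (mem_closedBall_iff_norm.2 (not_lt.1 hcon)) hp
    rw [← pvccC_prev z ((δ : ℂ) * ut) l hi] at n1
    rw [pvccC] at n2
    have h3 := pvzu_norm_D hδ hut l (i + 1)
    have q1 : |(v - pvccZ z ((δ : ℂ) * ut) l (i + 1)).re| < δ / 4 := lt_of_le_of_lt (le_max_left _ _) hv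
    have q2 : |(v - pvccZ z ((δ : ℂ) * ut) l (i + 1)).im| < δ / 4 := lt_of_le_of_lt (le_max_right _ _) hv
    generalize pvccZ z ((δ : ℂ) * ut) l (i + 1) = Zj at n1 n2 q1 q2
    generalize pvccD ((δ : ℂ) * ut) l (i + 1) = Dj at n1 n2 h3
    have e1 : p - (Zj - Dj / 2) = (p - Zj) + Dj / 2 := by ring
    have e2 : p - (Zj + Dj / 2) = (p - Zj) - Dj / 2 := by ring
    rw [e1] at n1
    rw [e2] at n2
    have par := parallelogram_law_with_norm ℝ (p - Zj) (Dj / 2)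
    have hD2 : ‖Dj / 2‖ = δ / 2 := by rw [norm_div, h3]; norm_num
    have hw : ‖p - Zj‖ * ‖p - Zj‖ ≤ 2 * (5 * δ / 4) ^ 2 := by
      have : ‖p - Zj‖ * ‖p - Zj‖ = (p - Zj).re ^ 2 + (p - Zj).im ^ 2 := by rw [← sq, Complex.sq_norm, Complex.normSq_apply]; ring
      rw [this]
      simp only [Complex.sub_re, Complex.sub_im] at q1 q2 ⊢
      rw [abs_lt] at q1 q2
      rw [abs_le] at p1 p2
      have r1 : |p.re - Zj.re| ≤ 5 * δ / 4 := abs_le.2 ⟨by linarith [p1.2, q1.1], by linarith [p1.1, q1.2]⟩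
      have r2 : |p.im - Zj.im| ≤ 5 * δ / 4 := abs_le.2 ⟨by linarith [p2.2, q2.1], by linarith [p2.1, q2.2]⟩
      have s1 : (p.re - Zj.re) ^ 2 ≤ (5 * δ / 4) ^ 2 := by rw [← sq_abs]; exact pow_le_pow_left₀ (abs_nonneg _) r1 2
      have s2 : (p.im - Zj.im) ^ 2 ≤ (5 * δ / 4) ^ 2 := by rw [← sq_abs]; exact pow_le_pow_left₀ (abs_nonneg _) r2 2
      linarith
    rw [hD2] at par
    have t1 : (2 * δ) * (2 * δ) < ‖p - Zj + Dj / 2‖ * ‖p - Zj + Dj / 2‖ := mul_self_lt_mul_self (by positivity) n1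
    have t2 : (2 * δ) * (2 * δ) < ‖p - Zj - Dj / 2‖ * ‖p - Zj - Dj / 2‖ := mul_self_lt_mul_self (by positivity) n2
    nlinarith

theorem pvzu_cls_cell (hδ : 0 < δ) (hut : ut ^ 4 = 1) (hus : us ^ 4 = 1) (hD : pvccD ((δ : ℂ) * ut) l l.length = - ((δ : ℂ) * us))
    (hlk : PvzuLk δ rL z ((δ : ℂ) * ut) l Z) {a : ℤ × ℤ} (hal : z + (δ : ℂ) * ut / 2 = pvtCtr δ a) {j : ℕ} (hj : j < l.length) {v : ℂ} (hv : v ∈ pvccSq (pvccC z ((δ : ℂ) * ut) l j) (δ / 2)) :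
    PvzuCls Yt ut z Ys us (pvccZ z ((δ : ℂ) * ut) l l.length) δ (rL + 2 * δ) (pvtU δ (pvtN8 Z)) v := by
  obtain ⟨nt, ns, hle, hnt, hns, hSt, hSs, hmid⟩ := hlk
  by_cases c : j ≤ nt
  · left
    obtain ⟨a1, a2⟩ := pvzu_fr_cell (Y := Yt) hδ hut (by omega) hSt c hv
    exact ⟨a1, by linarith⟩
  by_cases c' : l.length ≤ j + ns
  · right; right
    obtain ⟨k, hk, hk1, rfl⟩ : ∃ k, k ≤ ns ∧ 1 ≤ k ∧ j = l.length - k := ⟨l.length - j, by omega, by omega, by omega⟩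
    obtain ⟨a1, a2⟩ := pvzu_bk_cell (Y := Ys) hδ hus hD (by omega) hSs hk hk1 hv
    exact ⟨a1, by linarith⟩
  · right; left
    have hd : ‖(δ : ℂ) * ut‖ = δ := pvzu_norm_real_mul hut hδ.le
    have m1 := hmid j (by omega) (by omega)
    obtain ⟨b, hb⟩ := pvzu_aligned hut hal l j
    rw [hd, hb] at m1
    rw [hb] at hv
    exact pvzu_cell_off hδ m1 hv

end cls

/-- **THE TILES OF A PATTERN MISS THE FATTENED HULL CELLS INSIDE THE TWO OWN-LEVEL BOXES**, model free -/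
theorem pvzu_clear_core_end {kit : PvthKit} {r : ℝ} (R : PvccKitRef kit r) {Yt ut pt Ys us ps : ℂ} {rI rkt rks rL : ℝ} {oM oK iM iK Ot Os : Set ℂ}
    (Ht : PvzuEnd Yt ut pt kit.δ rI rkt oM oK Ot) (Hs : PvzuEnd Ys us ps kit.δ rI rks iM iK Os) (zt zs : ℂ) {l : List PvtTurn} {Z : Set (ℤ × ℤ)}
    (hZ : pvthZ kit.δ (zt + pt) ut l l.length = zs + ps) (hD : pvthD ut l l.length = - us)
    (hlk : PvzuLk kit.δ rL (zt + pt) (kit.δ * ut) l Z) {a : ℤ × ℤ} (hal : zt + pt + (kit.δ : ℂ) * ut / 2 = pvtCtr kit.δ a)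
    (hfs : ∀ v, ‖v - (zt + Yt)‖ ≤ rI + rL + 2 * kit.δ → v ∉ pvieSh zs (pvwSq 0 (rks + kit.δ)))
    (hft : ∀ v, ‖v - (zs + Ys)‖ ≤ rI + rL + 2 * kit.δ → v ∉ pvieSh zt (pvwSq 0 (rkt + kit.δ))) :
    ∀ S ∈ [pvieSh zt oK, pvieSh zs iK, pvthSim (zs + ps) (-us) '' kit.O₀] ++ (List.range l.length).map (fun j => pvzuO kit (zt + pt) ut l j) ++
        (List.range l.length).map (fun j => pvzuK kit (zt + pt) ut l j),
      Disjoint S (pvieSh zt (pvwSq 0 (rkt + kit.δ)) ∩ pvtU kit.δ (pvtN8 Z)) ∧ Disjoint S (pvieSh zs (pvwSq 0 (rks + kit.δ)) ∩ pvtU kit.δ (pvtN8 Z)) := by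
  have hδ := R.δ0
  have hut := Ht.u4
  have hus := Hs.u4
  have hZ' : pvccZ (zt + pt) ((kit.δ : ℂ) * ut) l l.length = zs + ps := by rw [← pvthZ_eq]; exact hZ
  have hD' : pvccD ((kit.δ : ℂ) * ut) l l.length = - ((kit.δ : ℂ) * us) := by rw [← pvthD_eq, hD]; ring
  have hlast : pvthSim (zs + ps) (-us) '' kit.O₀ = pvzuO kit (zt + pt) ut l l.length := by unfold pvzuO; rw [hZ, hD]
  have hrL : 0 ≤ rL := by
    obtain ⟨nt, ns, -, hnt, -⟩ := hlk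
    exact le_trans (by positivity) hnt
  -- a point of one of the three classes
  have key : ∀ v, PvzuCls (zt + Yt) ut (zt + pt) (zs + Ys) us (zs + ps) kit.δ (rL + 2 * kit.δ) (pvtU kit.δ (pvtN8 Z)) v →
      v ∉ pvieSh zt (pvwSq 0 (rkt + kit.δ)) ∩ pvtU kit.δ (pvtN8 Z) ∧ v ∉ pvieSh zs (pvwSq 0 (rks + kit.δ)) ∩ pvtU kit.δ (pvtN8 Z) := by
    intro v hv
    rcases hv with ⟨h1, h2⟩ | h | ⟨h1, h2⟩
    · refine ⟨fun hh => pvzu_front_off Ht zt h1 hh.1, fun hh => hfs v ?_ hh.1⟩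
      have e1 : v - (zt + Yt) = (v - (zt + pt)) + (pt - Yt) := by ring
      rw [e1]
      exact (norm_add_le _ _).trans (by linarith [Ht.door])
    · exact ⟨fun hh => h hh.2, fun hh => h hh.2⟩
    · refine ⟨fun hh => hft v ?_ hh.1, fun hh => pvzu_front_off Hs zs h1 hh.1⟩
      have e1 : v - (zs + Ys) = (v - (zs + ps)) + (ps - Ys) := by ring
      rw [e1]
      exact (norm_add_le _ _).trans (by linarith [Hs.door])
  have fin : ∀ S : Set ℂ, (∀ v ∈ S, PvzuCls (zt + Yt) ut (zt + pt) (zs + Ys) us (zs + ps) kit.δ (rL + 2 * kit.δ) (pvtU kit.δ (pvtN8 Z)) v) →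
      Disjoint S (pvieSh zt (pvwSq 0 (rkt + kit.δ)) ∩ pvtU kit.δ (pvtN8 Z)) ∧ Disjoint S (pvieSh zs (pvwSq 0 (rks + kit.δ)) ∩ pvtU kit.δ (pvtN8 Z)) := fun S hS =>
    ⟨Set.disjoint_left.2 fun v hv => (key v (hS v hv)).1, Set.disjoint_left.2 fun v hv => (key v (hS v hv)).2⟩
  have hO : ∀ j, j ≤ l.length → ∀ v ∈ pvzuO kit (zt + pt) ut l j, PvzuCls (zt + Yt) ut (zt + pt) (zs + Ys) us (zs + ps) kit.δ (rL + 2 * kit.δ) (pvtU kit.δ (pvtN8 Z)) v := by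
    intro j hj v hv
    have := pvzu_cls_door (Yt := zt + Yt) (Ys := zs + Ys) hδ hut hus hD' hlk hj (pvzu_O_sq R _ hut l j hv)
    rwa [hZ'] at this
  have hK : ∀ j, j < l.length → ∀ v ∈ pvzuK kit (zt + pt) ut l j, PvzuCls (zt + Yt) ut (zt + pt) (zs + Ys) us (zs + ps) kit.δ (rL + 2 * kit.δ) (pvtU kit.δ (pvtN8 Z)) v := by
    intro j hj v hv
    have := pvzu_cls_cell (Yt := zt + Yt) (Ys := zs + Ys) hδ hut hus hD' hlk hal hj (pvzu_K_sq R _ hut l j hv)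
    rwa [hZ'] at this
  intro S hS
  rw [hlast] at hS
  simp only [List.cons_append, List.nil_append, List.mem_cons, List.mem_append, List.mem_map, List.mem_range] at hS
  rcases hS with rfl | rfl | rfl | ⟨j, hj, rfl⟩ | ⟨j, hj, rfl⟩
  · constructor
    · refine Disjoint.mono_right inter_subset_left ?_
      exact pvzu_sh_disj Ht.K_off zt
    · refine Set.disjoint_left.2 fun v hv hh => hfs v ?_ hh.1
      have := mem_closedBall_iff_norm.1 (pvzu_sh_ball (subset_union_right.trans Ht.ball) zt hv)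
      linarith
  · constructor
    · refine Set.disjoint_left.2 fun v hv hh => hft v ?_ hh.1
      have := mem_closedBall_iff_norm.1 (pvzu_sh_ball (subset_union_right.trans Hs.ball) zs hv)
      linarith
    · refine Disjoint.mono_right inter_subset_left ?_
      exact pvzu_sh_disj Hs.K_off zs
  · exact fin _ (hO _ le_rfl)
  · exact fin _ (hO _ hj.le)
  · exact fin _ (hK _ hj)

/-- the same at the end links of record -/
theorem pvzu_clear_core {kit : PvthKit} {r : ℝ} (R : PvccKitRef kit r) {Yt ut pt Ys us ps : ℂ} {e w rM κ rI rkt rks rL : ℝ}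
    (Ht : PvegDoor Yt ut pt e kit.δ w rM κ rI rkt) (Hs : PvegDoor Ys us ps e kit.δ w rM κ rI rks) (zt zs : ℂ) {l : List PvtTurn} {Z : Set (ℤ × ℤ)}
    (hZ : pvthZ kit.δ (zt + pt) ut l l.length = zs + ps) (hD : pvthD ut l l.length = - us)
    (hlk : PvzuLk kit.δ rL (zt + pt) (kit.δ * ut) l Z) {a : ℤ × ℤ} (hal : zt + pt + (kit.δ : ℂ) * ut / 2 = pvtCtr kit.δ a)
    (hfs : ∀ v, ‖v - (zt + Yt)‖ ≤ rI + rL + 2 * kit.δ → v ∉ pvieSh zs (pvwSq 0 (rks + kit.δ)))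
    (hft : ∀ v, ‖v - (zs + Ys)‖ ≤ rI + rL + 2 * kit.δ → v ∉ pvieSh zt (pvwSq 0 (rkt + kit.δ)))
    {oK iK : Set ℂ} (hoK : oK ⊆ pvegK Yt ut pt e kit.δ w rM) (hiK : iK ⊆ pvegK Ys us ps e kit.δ w rM) :
    ∀ S ∈ [pvieSh zt oK, pvieSh zs iK, pvthSim (zs + ps) (-us) '' kit.O₀] ++ (List.range l.length).map (fun j => pvzuO kit (zt + pt) ut l j) ++
        (List.range l.length).map (fun j => pvzuK kit (zt + pt) ut l j),
      Disjoint S (pvieSh zt (pvwSq 0 (rkt + kit.δ)) ∩ pvtU kit.δ (pvtN8 Z)) ∧ Disjoint S (pvieSh zs (pvwSq 0 (rks + kit.δ)) ∩ pvtU kit.δ (pvtN8 Z)) :=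
  pvzu_clear_core_end R (Ht.pvzu_end (M := ∅) (O := ∅) (empty_subset _) hoK (empty_subset _)) (Hs.pvzu_end (M := ∅) (O := ∅) (empty_subset _) hiK (empty_subset _)) zt zs hZ hD hlk hal hfs hft

/-- a point near the tip of one pin is off the own-level box (with collar) of the other pin -/
theorem pvzu_box_far {h ρh δ ra rb rKa rKb : ℝ} {za zb Yb v : ℂ} (hsep : 2 * (rKa + rKb) + 8 * h ≤ ‖za - zb‖) (ha : ra ≤ rKa) (hb : rb ≤ rKb)
    (hYb : pvccN Yb ≤ rb + ρh / 4) (hra : - (ρh / 4) ≤ ra) (hrb : - (ρh / 4) ≤ rb) (hρ : ρh ≤ h) (hδ0 : 0 < δ) (hδ : 64 * δ ≤ ρh)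
    (hv : ‖v - (zb + Yb)‖ ≤ ρh / 2 + 3 * ρh + 2 * δ) : v ∉ pvieSh za (pvwSq 0 (ra + δ)) := by
  rintro ⟨a, ha', rfl⟩
  have h1 : pvccN a ≤ ra + δ := by
    have := ha'
    simp only [pvwSq, sub_zero, mem_ofPred_eq] at this
    exact max_le this.1 this.2
  have h2 := pvzu_norm_le a
  have h3 := pvzu_norm_le Yb
  have e : za - zb = (za + a - (zb + Yb)) - a + Yb := by ring
  have h4 : ‖za - zb‖ ≤ ‖za + a - (zb + Yb)‖ + ‖a‖ + ‖Yb‖ := by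
    rw [e]
    exact (norm_add_le _ _).trans (add_le_add (norm_sub_le _ _) le_rfl)
  linarith

section model2

variable {τ : Type} {c : ℝ} {𝔓 : PvxPar τ c} {𝔈 : PvieEng τ}

/-- **THE TILES OF THE CHAIN OF A PATTERN MISS THE FATTENED HULL CELLS INSIDE THE OWN-LEVEL BOXES (WITH COLLAR) OF THE TWO PINS** -/
theorem pvzu_clear_ix_end {m : ℕ} {ε r : ℝ} {π : PvtsPat τ} {Z : Set (ℤ × ℤ)} (hB : 𝔓.WfB) (hL : PvegLev 𝔓 m) (R : PvccKitRef (𝔈.kit m ε) r) (hδ : (𝔈.kit m ε).δ = pvlmDel c m)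
    {Mt Ot Ms Os : Set ℂ} (Ht : PvzuEnd (pvegYp 𝔓 m π.tt) ((𝔓.Γ m).dout π.tt) ((𝔓.Γ m).pout π.tt) (pvlmDel c m) (pvegR 𝔓 m / 2) (pviwRad 𝔓 m π.tt) Mt (𝔈.oK m π.tt) Ot)
    (Hs : PvzuEnd (pvegYm 𝔓 m π.ts) (-(𝔓.Γ m).din π.ts) ((𝔓.Γ m).pin π.ts) (pvlmDel c m) (pvegR 𝔓 m / 2) (pviwRad 𝔓 m π.ts) Ms (𝔈.iK m π.ts) Os)
    (hOk : (𝔓.Γ m).Ok π) (hI : PvfeIx (𝔓.Γ m) 𝔓.ty 𝔓.num (pvlmH m) π Z) (hz : ∃ p : ℤ × ℤ, π.zt = l9Pt (pvlmH m) p) :
    ∀ S ∈ pvieTiles 𝔓 𝔈 m ε π, Disjoint S (pvieSh π.zt (pviwBox 𝔓 m π.tt) ∩ pvtU (pvlmDel c m) (pvtN8 Z)) ∧ Disjoint S (pvieSh π.zs (pviwBox 𝔓 m π.ts) ∩ pvtU (pvlmDel c m) (pvtN8 Z)) := by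
  rw [← hδ] at Ht Hs
  have hΓ : (𝔓.Γ m).δ = (𝔈.kit m ε).δ := by rw [hL.del, hδ]
  have hr := pveg_R_pos hL
  have hh := pvlm_H_pos m
  have hZ : pvthZ (𝔈.kit m ε).δ (π.zt + (𝔓.Γ m).pout π.tt) ((𝔓.Γ m).dout π.tt) π.l π.l.length = π.zs + (𝔓.Γ m).pin π.ts := by
    unfold pvthZ
    rw [List.take_length, ← hΓ, hOk.1]
    ring
  have hD : pvthD ((𝔓.Γ m).dout π.tt) π.l π.l.length = - -(𝔓.Γ m).din π.ts := by
    unfold pvthD
    rw [List.take_length, hOk.2, neg_neg]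
  have hρ1 : 0 ≤ 𝔓.num.rho1 := by linarith [hB.rho0, hB.rho1]
  have hρ : pvegR 𝔓 m ≤ pvlmH m := by
    unfold pvegR
    have : 𝔓.num.rho ≤ 1 := by linarith [hB.rho1, hB.rho2, hB.rho3]
    nlinarith
  have hfine : 64 * (𝔈.kit m ε).δ ≤ pvegR 𝔓 m := by rw [hδ]; exact hL.fine
  -- radii
  have rK : ∀ t, pviwRad 𝔓 m t ≤ pvwRad 𝔓.num (pvlmH m) (𝔓.ty t) 𝔓.num.K := by
    intro t
    unfold pviwRad pvwRad
    have : ((𝔓.ty t).k : ℝ) * 𝔓.num.rho1 ≤ 𝔓.num.K * 𝔓.num.rho1 := mul_le_mul_of_nonneg_right (by exact_mod_cast hB.lev t) hρ1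
    nlinarith
  have nN : ∀ y : ℂ, pvccN ((pvlmH m : ℂ) * y) = pvlmH m * pvccN y := by
    intro y
    unfold pvccN
    rw [Complex.re_ofReal_mul, Complex.im_ofReal_mul, abs_mul, abs_mul, abs_of_pos hh, mul_max_of_nonneg _ _ hh.le]
  have yp : ∀ t, pvccN (pvegYp 𝔓 m t) ≤ pviwRad 𝔓 m t + pvegR 𝔓 m / 4 ∧ - (pvegR 𝔓 m / 4) ≤ pviwRad 𝔓 m t := by
    intro t
    have h1 := abs_le.1 (hL.doors.nd_p t)
    have h0 : 0 ≤ pvccN (𝔓.ty t).yp := (abs_nonneg _).trans (le_max_left _ _)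
    unfold pvegYp
    rw [nN]
    unfold pviwRad pvwRad pvegR
    constructor <;> nlinarith [h1.1, h1.2]
  have ym : ∀ t, pvccN (pvegYm 𝔓 m t) ≤ pviwRad 𝔓 m t + pvegR 𝔓 m / 4 ∧ - (pvegR 𝔓 m / 4) ≤ pviwRad 𝔓 m t := by
    intro t
    have h1 := abs_le.1 (hL.doors.nd_m t)
    have h0 : 0 ≤ pvccN (𝔓.ty t).ym := (abs_nonneg _).trans (le_max_left _ _)
    unfold pvegYm
    rw [nN]
    unfold pviwRad pvwRad pvegR
    constructor <;> nlinarith [h1.1, h1.2]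
  -- the first cell is a cell of the grid
  obtain ⟨a, hal⟩ : ∃ a : ℤ × ℤ, π.zt + (𝔓.Γ m).pout π.tt + ((𝔈.kit m ε).δ : ℂ) * (𝔓.Γ m).dout π.tt / 2 = pvtCtr (𝔈.kit m ε).δ a := by
    obtain ⟨p, hp⟩ := hz
    obtain ⟨e, u, -, h1, h2, -, -⟩ := hL.doors.out π.tt
    refine ⟨(p.1 * (pvlmN c m : ℤ) + e.1, p.2 * (pvlmN c m : ℤ) + e.2), ?_⟩
    rw [hp, h1, h2, pveg_ctr_sub, hΓ, hδ]
    have hN := pvlm_N_mul_Del c m
    apply Complex.ext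
    · simp only [l9Pt, pvtCtr, pvtZ, Complex.add_re, Complex.sub_re, Complex.mul_re, Complex.div_ofNat_re, Complex.ofReal_re, Complex.ofReal_im, Complex.intCast_re, Complex.intCast_im, Complex.I_re, Complex.I_im]
      push_cast
      rw [← hN]; ring
    · simp only [l9Pt, pvtCtr, pvtZ, Complex.add_im, Complex.sub_im, Complex.mul_im, Complex.div_ofNat_im, Complex.ofReal_re, Complex.ofReal_im, Complex.intCast_re, Complex.intCast_im, Complex.I_re, Complex.I_im, Complex.add_re, Complex.mul_re]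
      push_cast
      rw [← hN]; ring
  have hlk : PvzuLk (𝔓.Γ m).δ (3 * pvegR 𝔓 m) (pvfeZ (𝔓.Γ m) π) (pvfeD (𝔓.Γ m) π) π.l Z := hI.lk.pvzu_lk.mono (by unfold pvegR at hr ⊢; nlinarith)
  have key := pvzu_clear_core_end R Ht Hs π.zt π.zs hZ hD (Z := Z) (rL := 3 * pvegR 𝔓 m)
    (by rw [← hΓ]; exact hlk) hal
    (fun v hv => pvzu_box_far hI.sep (rK _) (rK _) (yp _).1 (ym _).2 (yp _).2 hρ R.δ0 hfine hv)
    (fun v hv => pvzu_box_far (by rw [norm_sub_rev, add_comm (pvwRad _ _ _ _)]; exact hI.sep) (rK _) (rK _) (ym _).1 (yp _).2 (ym _).2 hρ R.δ0 hfine hv)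
  rw [neg_neg, hδ] at key
  exact key

/-- the same at the end links of record -/
theorem pvzu_clear_ix {m : ℕ} {ε r : ℝ} {π : PvtsPat τ} {Z : Set (ℤ × ℤ)} (hB : 𝔓.WfB) (hL : PvegLev 𝔓 m) (hTt : pviwTyOk 𝔓 π.tt) (hTs : pviwTyOk 𝔓 π.ts)
    (R : PvccKitRef (𝔈.kit m ε) r) (hδ : (𝔈.kit m ε).δ = pvlmDel c m)
    (hoK : 𝔈.oK m π.tt ⊆ pvegOK 𝔓 m π.tt) (hiK : 𝔈.iK m π.ts ⊆ pvegIK 𝔓 m π.ts)
    (hOk : (𝔓.Γ m).Ok π) (hI : PvfeIx (𝔓.Γ m) 𝔓.ty 𝔓.num (pvlmH m) π Z) (hz : ∃ p : ℤ × ℤ, π.zt = l9Pt (pvlmH m) p) :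
    ∀ S ∈ pvieTiles 𝔓 𝔈 m ε π, Disjoint S (pvieSh π.zt (pviwBox 𝔓 m π.tt) ∩ pvtU (pvlmDel c m) (pvtN8 Z)) ∧ Disjoint S (pvieSh π.zs (pviwBox 𝔓 m π.ts) ∩ pvtU (pvlmDel c m) (pvtN8 Z)) :=
  pvzu_clear_ix_end hB hL R hδ ((pveg_door_o hL hTt).pvzu_end (M := ∅) (O := ∅) (empty_subset _) hoK (empty_subset _))
    ((pveg_door_i hL hTs).pvzu_end (M := ∅) (O := ∅) (empty_subset _) hiK (empty_subset _)) hOk hI hz

/-- on `pvxPatSet`, ABSTRACT END LINKS -/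
theorem pvzu_clear_pat_end {m : ℕ} {ε r : ℝ} {x : ℂ} {R₀ : ℝ} {π : PvxIx τ} (hB : 𝔓.WfB) (hL : PvegLev 𝔓 m)
    (R : PvccKitRef (𝔈.kit m ε) r) (hδ : (𝔈.kit m ε).δ = pvlmDel c m) (Et : ∀ t, PvzuEo 𝔓 𝔈 m ε t) (Es : ∀ t, PvzuEi 𝔓 𝔈 m ε t)
    (hπ : π ∈ pvxPatSet 𝔓 x R₀ m) :
    ∀ S ∈ pvieTiles 𝔓 𝔈 m ε π.p, Disjoint S (pvieSh π.p.zt (pviwBox 𝔓 m π.p.tt) ∩ pvtU (pvlmDel c m) (pvtN8 (↑π.Zs ∪ ↑π.Zt))) ∧
      Disjoint S (pvieSh π.p.zs (pviwBox 𝔓 m π.p.ts) ∩ pvtU (pvlmDel c m) (pvtN8 (↑π.Zs ∪ ↑π.Zt))) :=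
  pvzu_clear_ix_end hB hL R hδ (Et _) (Es _) hπ.1.1 (pvzu_pat_ix hπ) hπ.1.2.2.1

/-- the same on `pvxPatSet` -/
theorem pvzu_clear_pat {m : ℕ} {ε r : ℝ} {x : ℂ} {R₀ : ℝ} {π : PvxIx τ} (hB : 𝔓.WfB) (hL : PvegLev 𝔓 m) (hT : ∀ t, pviwTyOk 𝔓 t)
    (R : PvccKitRef (𝔈.kit m ε) r) (hδ : (𝔈.kit m ε).δ = pvlmDel c m) (hoK : ∀ t, 𝔈.oK m t ⊆ pvegOK 𝔓 m t) (hiK : ∀ t, 𝔈.iK m t ⊆ pvegIK 𝔓 m t)
    (hπ : π ∈ pvxPatSet 𝔓 x R₀ m) :
    ∀ S ∈ pvieTiles 𝔓 𝔈 m ε π.p, Disjoint S (pvieSh π.p.zt (pviwBox 𝔓 m π.p.tt) ∩ pvtU (pvlmDel c m) (pvtN8 (↑π.Zs ∪ ↑π.Zt))) ∧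
      Disjoint S (pvieSh π.p.zs (pviwBox 𝔓 m π.p.ts) ∩ pvtU (pvlmDel c m) (pvtN8 (↑π.Zs ∪ ↑π.Zt))) :=
  pvzu_clear_ix hB hL (hT _) (hT _) R hδ (hoK _) (hiK _) hπ.1.1 (pvzu_pat_ix hπ) hπ.1.2.2.1

end model2

/-! ## 7. the fattening on the half mesh -/

/-- a point of the fattened cells of `F` is within `2 δ` (sup norm) of a point of `F` -/
theorem pvzu_fat_near {δ : ℝ} (hδ : 0 < δ) {F : Set ℂ} {v : ℂ} (hv : v ∈ pvtU δ (pvtN8 (pvtCells δ F))) : ∃ p ∈ F, |v.re - p.re| ≤ 2 * δ ∧ |v.im - p.im| ≤ 2 * δ := by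
  simp only [pvtU, mem_iUnion] at hv
  obtain ⟨c', ⟨c0, ⟨p, hp0, hpF⟩, hc⟩, hv'⟩ := hv
  have hadj : c'.1 ≤ c0.1 + 1 ∧ c0.1 ≤ c'.1 + 1 ∧ c'.2 ≤ c0.2 + 1 ∧ c0.2 ≤ c'.2 + 1 := by
    rcases hc with rfl | h
    · exact ⟨by omega, by omega, by omega, by omega⟩
    · exact h.2
  obtain ⟨a1, a2, a3, a4⟩ := hadj
  have b1 : (c'.1 : ℝ) ≤ c0.1 + 1 := by exact_mod_cast a1
  have b2 : (c0.1 : ℝ) ≤ c'.1 + 1 := by exact_mod_cast a2
  have b3 : (c'.2 : ℝ) ≤ c0.2 + 1 := by exact_mod_cast a3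
  have b4 : (c0.2 : ℝ) ≤ c'.2 + 1 := by exact_mod_cast a4
  obtain ⟨p1, p2, p3, p4⟩ := hp0
  obtain ⟨v1, v2, v3, v4⟩ := hv'
  refine ⟨p, hpF, abs_le.2 ⟨?_, ?_⟩, abs_le.2 ⟨?_, ?_⟩⟩ <;> nlinarith

/-- a point within `δ` (sup norm) of a point of `F` lies in the fattened cells of `F` -/
theorem pvzu_near_fat {δ : ℝ} (hδ : 0 < δ) {F : Set ℂ} {v p : ℂ} (hp : p ∈ F) (h1 : |v.re - p.re| ≤ δ) (h2 : |v.im - p.im| ≤ δ) : v ∈ pvtU δ (pvtN8 (pvtCells δ F)) := by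
  have sq : ∀ q : ℂ, q ∈ pvtSq δ (⌊q.re / δ⌋, ⌊q.im / δ⌋) := by
    intro q
    refine ⟨?_, ?_, ?_, ?_⟩
    · have := Int.floor_le (q.re / δ); rw [le_div_iff₀ hδ] at this; exact this
    · have := (Int.lt_floor_add_one (q.re / δ)).le; rw [div_le_iff₀ hδ] at this; exact this
    · have := Int.floor_le (q.im / δ); rw [le_div_iff₀ hδ] at this; exact this
    · have := (Int.lt_floor_add_one (q.im / δ)).le; rw [div_le_iff₀ hδ] at this; exact this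
  have fl : ∀ a b : ℝ, |a - b| ≤ δ → ⌊a / δ⌋ ≤ ⌊b / δ⌋ + 1 := by
    intro a b hab
    rw [← Int.floor_add_one]
    refine Int.floor_le_floor ?_
    rw [div_add_one hδ.ne']
    exact div_le_div_of_nonneg_right (by linarith [(abs_le.1 hab).2]) hδ.le
  simp only [pvtU, mem_iUnion]
  refine ⟨(⌊v.re / δ⌋, ⌊v.im / δ⌋), ⟨(⌊p.re / δ⌋, ⌊p.im / δ⌋), ⟨p, sq p, hp⟩, ?_⟩, sq v⟩
  by_cases e : ((⌊v.re / δ⌋, ⌊v.im / δ⌋) : ℤ × ℤ) = (⌊p.re / δ⌋, ⌊p.im / δ⌋)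
  · exact Or.inl e
  · exact Or.inr ⟨fun h => e h.symm, fl _ _ h1, fl _ _ (by rw [abs_sub_comm]; exact h1), fl _ _ h2, fl _ _ (by rw [abs_sub_comm]; exact h2)⟩

/-- **the fattening on the half mesh lies in the fattening on the mesh** -/
theorem pvzu_fat_half {δ : ℝ} (hδ : 0 < δ) (F : Set ℂ) : pvtU (δ / 2) (pvtN8 (pvtCells (δ / 2) F)) ⊆ pvtU δ (pvtN8 (pvtCells δ F)) := by
  intro v hv
  obtain ⟨p, hp, h1, h2⟩ := pvzu_fat_near (half_pos hδ) hv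
  exact pvzu_near_fat hδ hp (by linarith) (by linarith)

/-- **the fattening on the half mesh of a subset of a closed box lies in the box with the collar `δ`** -/
theorem pvzu_fat_box {δ : ℝ} (hδ : 0 < δ) {F : Set ℂ} {z : ℂ} {r : ℝ} (hF : F ⊆ pvieSh z (pvwSq 0 r)) : pvtU (δ / 2) (pvtN8 (pvtCells (δ / 2) F)) ⊆ pvieSh z (pvwSq 0 (r + δ)) := by
  intro v hv
  obtain ⟨p, hp, h1, h2⟩ := pvzu_fat_near (half_pos hδ) hv
  obtain ⟨a, ha, rfl⟩ := hF hp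
  simp only [pvwSq, sub_zero, mem_ofPred_eq] at ha
  refine ⟨v - z, ?_, by simp⟩
  simp only [pvwSq, sub_zero, mem_ofPred_eq, Complex.sub_re, Complex.sub_im]
  simp only [Complex.add_re, Complex.add_im] at h1 h2
  have a1 := abs_le.1 ha.1
  have a2 := abs_le.1 ha.2
  have b1 := abs_le.1 h1
  have b2 := abs_le.1 h2
  exact ⟨abs_le.2 ⟨by linarith [a1.1, b1.1], by linarith [a1.2, b1.2]⟩, abs_le.2 ⟨by linarith [a2.1, b2.1], by linarith [a2.2, b2.2]⟩⟩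

/-- what a window sees of the frozen sites: inside the box with collar AND inside the fattened hull cells -/
theorem pvzu_fat_sub {δ : ℝ} (hδ : 0 < δ) {F : Set ℂ} {z : ℂ} {r : ℝ} {Z : Set (ℤ × ℤ)} (hF : F ⊆ pvieSh z (pvwSq 0 r)) (hZ : pvtCells δ F ⊆ Z) :
    pvtU (δ / 2) (pvtN8 (pvtCells (δ / 2) F)) ⊆ pvieSh z (pvwSq 0 (r + δ)) ∩ pvtU δ (pvtN8 Z) :=
  subset_inter (pvzu_fat_box hδ hF) ((pvzu_fat_half hδ F).trans (pvt_U_mono (pvt_N8_mono hZ)))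

/-! ## 8. the chain against the windows of its two end links -/

section win

variable {τ : Type} {c : ℝ} {𝔓 : PvxPar τ c} {𝔈 : PvieEng τ}

theorem PvieSimple.pvzu_mouths {m : ℕ} {ε : ℝ} {π : PvtsPat τ} (h : PvieSimple 𝔓 𝔈 m ε π) :
    ∀ S ∈ pvieTiles 𝔓 𝔈 m ε π, Disjoint (pvieSh π.zt (𝔈.oM m π.tt)) S ∧ Disjoint (pvieSh π.zs (𝔈.iM m π.ts)) S := by
  unfold PvieSimple at h
  simp only [List.cons_append, List.nil_append, List.pairwise_cons, List.mem_cons] at h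
  exact fun S hS => ⟨h.1 S (Or.inr hS), h.2.1 S hS⟩

/-- **THE RESAMPLED REGION OF THE CHAIN MEETS THE WINDOW OF THE FIRST LINK IN ITS TILE AND ITS DOOR ONLY** (window v2.1 of 168: fattened cells of the frozen positions `F` on the half mesh, mouth, tile, door).
`F` lies in the closed own-level box, its cells belong to the hulls of the index -/
theorem pvzu_win_o {m : ℕ} {ε : ℝ} {π : PvtsPat τ} {Z : Set (ℤ × ℤ)} {F D : Set ℂ} (hs : PvieSimple 𝔓 𝔈 m ε π)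
    (hc : ∀ S ∈ pvieTiles 𝔓 𝔈 m ε π, Disjoint S (pvieSh π.zt (pviwBox 𝔓 m π.tt) ∩ pvtU (pvlmDel c m) (pvtN8 Z)))
    (hF : F ⊆ pvieSh π.zt (pvwSq 0 (pviwRad 𝔓 m π.tt))) (hZ : pvtCells (pvlmDel c m) F ⊆ Z) :
    pvieCc 𝔓 𝔈 m ε π ∩ (pvtU (pvlmDel c m / 2) (pvtN8 (pvtCells (pvlmDel c m / 2) F)) ∪ pvieSh π.zt (𝔈.oM m π.tt) ∪ pvieSh π.zt (𝔈.oK m π.tt) ∪ D) ⊆ pvieSh π.zt (𝔈.oK m π.tt) ∪ D := by
  rintro w ⟨⟨S, hS, hw⟩, ((h | h) | h) | h⟩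
  · exact absurd (pvzu_fat_sub (pvlm_Del_pos c m) hF hZ h) (Set.disjoint_left.1 (hc S hS) hw)
  · exact absurd hw (Set.disjoint_left.1 (hs.pvzu_mouths S hS).1 h)
  · exact Or.inl h
  · exact Or.inr h

/-- the same for the last link -/
theorem pvzu_win_i {m : ℕ} {ε : ℝ} {π : PvtsPat τ} {Z : Set (ℤ × ℤ)} {F D : Set ℂ} (hs : PvieSimple 𝔓 𝔈 m ε π)
    (hc : ∀ S ∈ pvieTiles 𝔓 𝔈 m ε π, Disjoint S (pvieSh π.zs (pviwBox 𝔓 m π.ts) ∩ pvtU (pvlmDel c m) (pvtN8 Z)))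
    (hF : F ⊆ pvieSh π.zs (pvwSq 0 (pviwRad 𝔓 m π.ts))) (hZ : pvtCells (pvlmDel c m) F ⊆ Z) :
    pvieCc 𝔓 𝔈 m ε π ∩ (pvtU (pvlmDel c m / 2) (pvtN8 (pvtCells (pvlmDel c m / 2) F)) ∪ pvieSh π.zs (𝔈.iM m π.ts) ∪ pvieSh π.zs (𝔈.iK m π.ts) ∪ D) ⊆ pvieSh π.zs (𝔈.iK m π.ts) ∪ D := by
  rintro w ⟨⟨S, hS, hw⟩, ((h | h) | h) | h⟩
  · exact absurd (pvzu_fat_sub (pvlm_Del_pos c m) hF hZ h) (Set.disjoint_left.1 (hc S hS) hw)
  · exact absurd hw (Set.disjoint_left.1 (hs.pvzu_mouths S hS).2 h)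
  · exact Or.inl h
  · exact Or.inr h

end win

theorem pvzu_eqns_cite : True := by
  have := @pvzuO.eq_1; have := @pvzuK.eq_1; have := @PvzuOff.eq_1; have := @PvzuNoz.eq_1; have := @PvzuCls.eq_1; have := @PvzuLk.eq_1; have := @PvzuEo.eq_1; have := @PvzuEi.eq_1
  trivial

end Claimed.Agent.R289
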