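import Claimed.Agent.R289.Tr.Defs
import Claimed.Agent.R289.Tr.LaneDet
import Claimed.Agent.R289.Pl.Jordan

/-!
# Row 289 (S0537), THE WALL, ROAD E, file Tr/Cls : THE TWO CLASSES OF FRESH SITES      (helper39, architect of the Tr/Tip block; prefix `pvyc`, `Pvyc`)

= R-E of `W1_208` v2 + repair G1(b) + HOLE 1 of `W2ref_78`, in a form WITHOUT ANY GEOMETRY IN THE DEFINITIONS (ruling T-1 of 39).

* `K : Set V` = an ABSTRACT vertex region (`PvwDat.Reg`): finite, connected complement, off the two cores and off `g₀`, its frozen sites belong to `D_Y`.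
  INTENDED: the complement of the far component of `V \ (sites of Yin ∪ banks of the last pieces of Σ⁺(t), Σ⁻(s))`: the small balls round the tips, the inner lanes AND all the dead-end channels of the last pieces.  No seal, no door, no two-scale flag.
* BARRED edge (`pvycBar`): both ends frozen with the SAME prescribed colour, or one of the two faces of the edge has a vertex off `K`.
* `pvycDom` = the faces which are DUAL-connected to the face of the tip dart `a₀` without crossing a barred edge.      `pvycY` = the fresh vertices of these faces,      `pvycX` = all the other fresh sites.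
* Y1 `pvyc_run`, `pvyc_run_congr`: a run `a₀ → a₁` in `K` (70, `PvldRun`) reads only the frozen sites and `pvycY`  (positions are bichromatic, hence never barred; NO chord lemma).
* Y3 `pvyc_side`, `pvyc_side_verts` (= G1): a circuit all of whose edges are barred has `pvycDom` on one side; if its vertices are frozen or off `K`, NO site of `pvycY` lies on the closed other side.
* Y4 `pvyc_star`, `pvyc_join`: every site joined to a site of `pvycY` through fresh sites of the graph-interior of `K` is in `pvycY`.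
* sec. 2: the forms of record on the datum: `PvwDat.a0 a1 YC XC SY2 WO2 NB2`, congruences (Y2) and monotonicity (for Harris).
-/

set_option autoImplicit false

namespace Claimed.Agent.R289

open Relation Set

variable {V D : Type}

/-! ## 0. definitions -/

/-- **BARRED** darts: both ends frozen with the same prescribed colour, or one of the four vertices of the two faces of the edge is off `K` -/
def pvycBar (T : PvMap V D) (F : Set V) (pc : V → Bool) (K : Set V) : Set D :=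
  {d | (T.src d ∈ F ∧ T.tgt d ∈ F ∧ pc (T.src d) = pc (T.tgt d)) ∨ T.src d ∉ K ∨ T.tgt d ∉ K ∨ T.apex d ∉ K ∨ T.apex (T.opp d) ∉ K}

/-- the faces which the continuation of the strand from `a₀` can reach inside `K` -/
def pvycDom (T : PvMap V D) (F : Set V) (pc : V → Bool) (K : Set V) (a₀ : D) : Set D := {d | T.DJoin (pvycBar T F pc K) a₀ d}

/-- **the class `Y`**: the fresh vertices of the faces of `pvycDom` -/
def pvycY (T : PvMap V D) (F : Set V) (pc : V → Bool) (K : Set V) (a₀ : D) : Set V := {v | v ∉ F ∧ v ∈ T.VOf (pvycDom T F pc K a₀)}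

/-- **the class `X`**: all the other fresh sites -/
def pvycX (T : PvMap V D) (F : Set V) (pc : V → Bool) (K : Set V) (a₀ : D) : Set V := {v | v ∉ F ∧ v ∉ T.VOf (pvycDom T F pc K a₀)}

/-- the graph-interior of `K` -/
def pvycIn (T : PvMap V D) (K : Set V) : Set V := {v | v ∈ K ∧ ∀ d, T.src d = v → T.tgt d ∈ K}

theorem pvyc_eqns_cite : True := by
  have := @pvycBar.eq_1; have := @pvycDom.eq_1; have := @pvycY.eq_1; have := @pvycX.eq_1; have := @pvycIn.eq_1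
  trivial

variable {T : PvMap V D} {F K : Set V} {pc : V → Bool} {a₀ a₁ : D}

/-! ## 1. the abstract kit -/

theorem pvyc_bar_opp {d : D} : T.opp d ∈ pvycBar T F pc K ↔ d ∈ pvycBar T F pc K := by
  unfold pvycBar
  simp only [mem_setOf_eq, T.src_opp', T.tgt_opp, T.opp_opp]
  constructor
  · rintro (⟨h1, h2, h3⟩ | h | h | h | h)
    · exact Or.inl ⟨h2, h1, h3.symm⟩
    · exact Or.inr (Or.inr (Or.inl h))
    · exact Or.inr (Or.inl h)
    · exact Or.inr (Or.inr (Or.inr (Or.inr h)))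
    · exact Or.inr (Or.inr (Or.inr (Or.inl h)))
  · rintro (⟨h1, h2, h3⟩ | h | h | h | h)
    · exact Or.inl ⟨h2, h1, h3.symm⟩
    · exact Or.inr (Or.inr (Or.inl h))
    · exact Or.inr (Or.inl h)
    · exact Or.inr (Or.inr (Or.inr (Or.inr h)))
    · exact Or.inr (Or.inr (Or.inr (Or.inl h)))

theorem pvyc_edg_bar {d : D} : T.Edg (pvycBar T F pc K) d ↔ d ∈ pvycBar T F pc K := by
  unfold PvMap.Edg
  rw [pvyc_bar_opp, or_self]

theorem pvyc_dom_face : T.FaceSet (pvycDom T F pc K a₀) := pl_djoin_face _ _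

theorem pvyc_dom_self : a₀ ∈ pvycDom T F pc K a₀ := ReflTransGen.refl

/-- crossing an edge which is not barred -/
theorem pvyc_dom_opp {d : D} (hd : d ∈ pvycDom T F pc K a₀) (hb : d ∉ pvycBar T F pc K) : T.opp d ∈ pvycDom T F pc K a₀ :=
  ReflTransGen.tail hd (Or.inr ⟨rfl, fun h => hb (pvyc_edg_bar.1 h)⟩)

/-- all the faces of the domain have their vertices in `K` -/
theorem pvyc_dom_K (h0 : T.src a₀ ∈ K ∧ T.tgt a₀ ∈ K ∧ T.apex a₀ ∈ K) : T.VOf (pvycDom T F pc K a₀) ⊆ K := by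
  have key : ∀ d, T.DJoin (pvycBar T F pc K) a₀ d → T.src d ∈ K ∧ T.tgt d ∈ K ∧ T.apex d ∈ K := by
    intro d hd
    induction hd with
    | refl => exact h0
    | tail _ hs ih =>
      rcases hs with rfl | ⟨rfl, hn⟩
      · exact ⟨ih.2.1, ih.2.2, by rw [T.apex_nxt]; exact ih.1⟩
      · rw [pvyc_edg_bar] at hn
        refine ⟨by rw [T.src_opp']; exact ih.2.1, by rw [T.tgt_opp]; exact ih.1, ?_⟩
        by_contra hc
        exact hn (Or.inr (Or.inr (Or.inr (Or.inr hc))))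
  rintro v ⟨d, hd, rfl⟩
  exact (key d hd).1

theorem pvyc_Y_sub (h0 : T.src a₀ ∈ K ∧ T.tgt a₀ ∈ K ∧ T.apex a₀ ∈ K) : pvycY T F pc K a₀ ⊆ K \ F :=
  fun _ hv => ⟨pvyc_dom_K h0 hv.2, hv.1⟩

theorem pvyc_XY_disj : Disjoint (pvycY T F pc K a₀) (pvycX T F pc K a₀) :=
  Set.disjoint_left.2 fun _ h h' => h'.2 h.2

theorem pvyc_XY_union : pvycY T F pc K a₀ ∪ pvycX T F pc K a₀ = Fᶜ := by
  ext v
  by_cases h : v ∈ T.VOf (pvycDom T F pc K a₀) <;> simp [pvycY, pvycX, h]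

/-- a site off `K` is not in the class `Y` -/
theorem pvyc_off_K (h0 : T.src a₀ ∈ K ∧ T.tgt a₀ ∈ K ∧ T.apex a₀ ∈ K) {v : V} (hv : v ∉ K) : v ∉ pvycY T F pc K a₀ :=
  fun h => hv (pvyc_Y_sub h0 h).1

/-- crossing a bichromatic edge between two faces of `K` -/
theorem pvyc_dom_cross {σ : V → Bool} (hσ : ∀ v ∈ F, σ v = pc v) {x : D} (hx : x ∈ pvycDom T F pc K a₀) (hocc : σ (T.src x) ≠ σ (T.tgt x))
    (h1 : T.src x ∈ K) (h2 : T.tgt x ∈ K) (h3 : T.apex x ∈ K) (h4 : T.apex (T.opp x) ∈ K) : T.opp x ∈ pvycDom T F pc K a₀ := by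
  refine pvyc_dom_opp hx ?_
  rintro (⟨a, b, c⟩ | h | h | h | h)
  · exact hocc (by rw [hσ _ a, hσ _ b, c])
  · exact h h1
  · exact h h2
  · exact h h3
  · exact h h4

/-- **Y1, faces**: the faces crossed by a run lie in the domain -/
theorem pvyc_run_dom {σ : V → Bool} (hσ : ∀ v ∈ F, σ v = pc v) (h0 : pvasBW T σ a₀) {N : ℕ} (hK : T.VOf (pvasFc T σ a₀ N) ⊆ K) :
    ∀ i, i < N → pvasIt T σ a₀ i ∈ pvycDom T F pc K a₀ := by
  intro i
  induction i with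
  | zero => intro _; exact pvyc_dom_self
  | succ i ih =>
    intro hi
    have hd := ih (by omega)
    have hbw : pvasBW T σ (pvasIt T σ a₀ i) := pvas_it_bw h0 i
    have hf : ∀ f, T.SF (pvasIt T σ a₀ i) f → T.src f ∈ K := fun f hf => hK ⟨f, ⟨i, by omega, hf⟩, rfl⟩
    have hf' : ∀ f, T.SF (pvasIt T σ a₀ (i + 1)) f → T.src f ∈ K := fun f hf => hK ⟨f, ⟨i + 1, hi, hf⟩, rfl⟩
    have h4 := hf' _ (T.sf_nxt2 _)
    rw [T.src_nxt2] at h4
    rw [pvas_it_succ] at h4 ⊢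
    rcases pvas_step_cases σ (pvasIt T σ a₀ i) with ⟨a, e⟩ | ⟨a, e⟩
    · rw [e] at h4 ⊢
      refine pvyc_dom_cross hσ ((pvyc_dom_face _).2 hd) ?_ (hf _ (T.sf_nxt _)) ?_ ?_ h4
      · rw [T.src_nxt, T.tgt_nxt, hbw.2, a]; simp
      · rw [T.tgt_nxt]; exact hf _ (T.sf_nxt2 _)
      · rw [T.apex_nxt]; exact hf _ (T.sf_refl _)
    · rw [e] at h4 ⊢
      refine pvyc_dom_cross hσ ((pvyc_dom_face.nxt2 T _).2 hd) ?_ (hf _ (T.sf_nxt2 _)) ?_ ?_ h4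
      · rw [T.src_nxt2, T.tgt_nxt2, hbw.1, a]; simp
      · rw [T.tgt_nxt2]; exact hf _ (T.sf_refl _)
      · rw [T.apex_nxt2]; exact hf _ (T.sf_nxt _)

/-- **Y1**: a run in `K` is a run in `K ∩ (F ∪ Y)` -/
theorem pvyc_run {σ : V → Bool} (hσ : ∀ v ∈ F, σ v = pc v) (h0 : pvasBW T σ a₀) (h : PvldRun T σ K a₀ a₁) :
    PvldRun T σ (K ∩ (F ∪ pvycY T F pc K a₀)) a₀ a₁ := by
  obtain ⟨N, h1, h2, h3, h4⟩ := h
  refine ⟨N, h1, h2, h3, ?_⟩
  rintro v ⟨f, ⟨i, hi, hsf⟩, rfl⟩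
  refine ⟨h4 ⟨f, ⟨i, hi, hsf⟩, rfl⟩, ?_⟩
  by_cases hF : T.src f ∈ F
  · exact Or.inl hF
  · exact Or.inr ⟨hF, f, (pvyc_dom_face.sf T hsf).2 (pvyc_run_dom hσ h0 h4 i hi), rfl⟩

/-- **Y1, congruence**: the run, its time and its positions read only the frozen sites and the class `Y` -/
theorem pvyc_run_congr {σ σ' : V → Bool} (hσ : ∀ v ∈ F, σ v = pc v) (h0 : pvasBW T σ a₀) (hF : ∀ v ∈ F, σ' v = σ v) (hY : ∀ v ∈ pvycY T F pc K a₀, σ' v = σ v)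
    (h : PvldRun T σ K a₀ a₁) :
    PvldRun T σ' K a₀ a₁ ∧ pvasHit T σ' a₀ {a₁} = pvasHit T σ a₀ {a₁} ∧ ∀ i, i ≤ pvasHit T σ a₀ {a₁} → pvasIt T σ' a₀ i = pvasIt T σ a₀ i := by
  have h' := pvyc_run hσ h0 h
  obtain ⟨r1, r2, r3⟩ := pvld_run_congr (s' := σ') (fun v hv => hv.2.elim (hF v) (hY v)) h'
  exact ⟨pvld_run_mono inter_subset_left r1, r2, r3⟩

/-- **Y3** (= G1): a circuit all of whose edges are barred has the domain on one side -/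
theorem pvyc_side (Z : T.Cyc) (hZ : Z.darts ⊆ pvycBar T F pc K) :
    (a₀ ∈ Z.Left → pvycDom T F pc K a₀ ⊆ Z.Left) ∧ (a₀ ∈ Z.Right → pvycDom T F pc K a₀ ⊆ Z.Right) := by
  have key : ∀ d, T.DJoin (pvycBar T F pc K) a₀ d → T.DJoin Z.darts a₀ d := fun d hd => T.djoin_mono hZ hd
  exact ⟨fun h d hd => ReflTransGen.trans h (key d hd), fun h d hd => ReflTransGen.trans h (key d hd)⟩

/-- **Y3, sites**: if moreover the vertices of the circuit are frozen or off `K`, no site of the class `Y` lies on the closed other side -/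
theorem pvyc_side_verts (hT : T.IsSph) (h0 : T.src a₀ ∈ K ∧ T.tgt a₀ ∈ K ∧ T.apex a₀ ∈ K) (Z : T.Cyc) (hZ : Z.darts ⊆ pvycBar T F pc K) (hv : ∀ v ∈ Z.verts, v ∈ F ∨ v ∉ K) :
    (a₀ ∈ Z.Left → pvycY T F pc K a₀ ⊆ T.Int Z.Left) ∧ (a₀ ∈ Z.Right → pvycY T F pc K a₀ ⊆ T.Int Z.Right) := by
  obtain ⟨hR, -, -, -⟩ := pl_jordan hT Z
  have hoff : ∀ v ∈ pvycY T F pc K a₀, v ∉ Z.verts := fun v hvY hvZ =>
    (hv v hvZ).elim (fun h => hvY.1 h) (fun h => h (pvyc_dom_K h0 hvY.2))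
  constructor
  · intro ha v hvY
    obtain ⟨d, hd, rfl⟩ := hvY.2
    rcases pl_jordan_vert hT Z (T.src d) with h | h | h
    · exact absurd h (hoff _ hvY)
    · exact h
    · have h1 := h d rfl
      rw [hR] at h1
      exact absurd ((pvyc_side Z hZ).1 ha hd) h1
  · intro ha v hvY
    obtain ⟨d, hd, rfl⟩ := hvY.2
    rcases pl_jordan_vert hT Z (T.src d) with h | h | h
    · exact absurd h (hoff _ hvY)
    · have h1 := (pvyc_side Z hZ).2 ha hd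
      rw [hR] at h1
      exact absurd (h d rfl) h1
    · exact h

/-- **Y4, star**: a fresh site of the graph-interior of `K` with one face in the domain has all its faces in the domain -/
theorem pvyc_star (hT : T.IsSph) {v : V} (hF : v ∉ F) (hv : v ∈ pvycIn T K) {d : D} (hd : T.src d = v) (hdom : d ∈ pvycDom T F pc K a₀) :
    ∀ d', T.src d' = v → d' ∈ pvycDom T F pc K a₀ := by
  have hnb : ∀ x, T.src x = v → x ∉ pvycBar T F pc K := by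
    intro x hx
    rintro (⟨a, -, -⟩ | h | h | h | h)
    · exact hF (hx ▸ a)
    · exact h (hx ▸ hv.1)
    · exact h (hv.2 x hx)
    · exact h (by rw [← T.tgt_rot]; exact hv.2 _ ((T.src_rot x).trans hx))
    · refine h ?_
      have := hv.2 (T.rotInv x) ((T.src_rotInv x).trans hx)
      unfold PvMap.rotInv at this
      rwa [T.tgt_nxt] at this
  have hbd : ∀ x, T.src x = v → ¬ T.Bd (pvycDom T F pc K a₀) x := by
    intro x hx hb
    apply hb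
    constructor
    · exact fun h => pvyc_dom_opp h (hnb x hx)
    · intro h
      have := pvyc_dom_opp h (fun hc => hnb x hx (pvyc_bar_opp.1 hc))
      rwa [T.opp_opp] at this
  intro d' hd'
  exact (pl_side_vertex hT pvyc_dom_face hbd hd hd').1 hdom

/-- **Y4**: the class `Y` is closed under fresh connection inside the graph-interior of `K` -/
theorem pvyc_join (hT : T.IsSph) {u v : V} (hu : u ∈ T.VOf (pvycDom T F pc K a₀)) (h : T.Join Set.univ (pvycIn T K \ F) u v) : v ∈ pvycY T F pc K a₀ := by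
  obtain ⟨huX, hr⟩ := h
  have key : v ∈ T.VOf (pvycDom T F pc K a₀) ∧ v ∈ pvycIn T K \ F := by
    induction hr with
    | refl => exact ⟨hu, huX⟩
    | tail _ hs ih =>
      obtain ⟨⟨d, -, hd1, hd2⟩, hX⟩ := hs
      obtain ⟨⟨d0, hd0, hd0s⟩, hbX⟩ := ih
      have := pvyc_star hT hbX.2 hbX.1 hd0s hd0 d hd1
      exact ⟨⟨T.nxt d, (pvyc_dom_face _).2 this, hd2⟩, hX⟩
  exact ⟨key.2.2, key.1⟩

/-- Y4 from the apex of the tip dart -/
theorem pvyc_join_apex (hT : T.IsSph) {v : V} (h : T.Join Set.univ (pvycIn T K \ F) (T.apex a₀) v) : v ∈ pvycY T F pc K a₀ :=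
  pvyc_join hT ⟨T.nxt (T.nxt a₀), (pvyc_dom_face.nxt2 T a₀).2 pvyc_dom_self, rfl⟩ h

/-- the classes only depend on the prescribed colours of the frozen sites -/
theorem pvyc_bar_congr {pc' : V → Bool} (h : ∀ v ∈ F, pc' v = pc v) : pvycBar T F pc' K = pvycBar T F pc K := by
  ext d
  simp only [pvycBar, mem_setOf_eq]
  constructor
  · rintro (⟨a, b, c⟩ | h)
    · exact Or.inl ⟨a, b, by rw [← h _ a, ← h _ b]; exact c⟩
    · exact Or.inr h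
  · rintro (⟨a, b, c⟩ | h)
    · exact Or.inl ⟨a, b, by rw [h _ a, h _ b]; exact c⟩
    · exact Or.inr h

/-- monotone in the region (same frozen set) -/
theorem pvyc_dom_mono {K' : Set V} (h : K ⊆ K') : pvycDom T F pc K a₀ ⊆ pvycDom T F pc K' a₀ := by
  refine fun d hd => T.djoin_mono ?_ hd
  rintro x (h1 | h1 | h1 | h1 | h1)
  · exact Or.inl h1
  · exact Or.inr (Or.inl fun hc => h1 (h hc))
  · exact Or.inr (Or.inr (Or.inl fun hc => h1 (h hc)))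
  · exact Or.inr (Or.inr (Or.inr (Or.inl fun hc => h1 (h hc))))
  · exact Or.inr (Or.inr (Or.inr (Or.inr fun hc => h1 (h hc))))

/-! ## 2. the forms of record on the datum -/

namespace PvwDat

variable (𝔇 : PvwDat T)

/-- the tip dart of `Σ⁺(t)` -/
def a0 : D := 𝔇.t.ep 𝔇.t.np
/-- the tip dart of `Σ⁻(s)` -/
def a1 : D := 𝔇.s.em 𝔇.s.nm

/-- **REGION OF RECORD** of the link `t → s` (a function of `D_Y` and of the pattern) -/
structure Reg (K : Set V) : Prop where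
  fin : K.Finite
  /-- connected complement -/
  co : ∀ u v, u ∉ K → v ∉ K → T.Join Set.univ Kᶜ u v
  /-- off the two cores -/
  core : ∀ v ∈ 𝔇.s.core ∪ 𝔇.t.core, v ∉ K
  /-- the only frozen sites in `K` are those of `D_Y` (banks of `Σ⁺(t)`, `Σ⁻(s)`) -/
  fz : ∀ v ∈ K, v ∈ 𝔇.fz → v ∈ 𝔇.fzY
  /-- the face in front of the tip of `t` -/
  tip0 : T.src 𝔇.a0 ∈ K ∧ T.tgt 𝔇.a0 ∈ K ∧ T.apex 𝔇.a0 ∈ K

/-- **`YCL` of record** (v2): a function of `D_Y` and `K` -/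
def YC (K : Set V) : Set V := pvycY T 𝔇.fzY 𝔇.col K 𝔇.a0
/-- **`XCL` of record** (v2): all the other fresh sites of the datum -/
def XC (K : Set V) : Set V := {v | v ∉ 𝔇.fz ∧ v ∉ 𝔇.YC K}

/-- **`SY` of record** (v2): the strand continued from the tip `x⁺(t)` reaches the tip `x⁻(s)` inside `K` -/
def SY2 (K : Set V) (σ : V → Bool) : Prop := PvldRun T σ K 𝔇.a0 𝔇.a1

/-- **`WO` of record** (v2): a white path of fresh sites OFF `K` from the white bank of `Σ⁺(t)` to the white bank of `Σ⁻(s)` -/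
def WO2 (K : Set V) (σ : V → Bool) : Prop :=
  ∃ q : T.Pth, q.v 0 ∈ 𝔇.t.whP ∧ q.v q.n ∈ 𝔇.s.whM ∧ ∀ x ∈ q.inner, σ x = false ∧ x ∉ K ∧ x ∉ 𝔇.fz

/-- **`NB` of record** (v2) -/
def NB2 (K : Set V) (σ : V → Bool) : Prop :=
  ¬ ∃ (i j : ℕ) (q : T.Pth), i ≤ 𝔇.g.n ∧ j ≤ 𝔇.g.n ∧ i ≠ j ∧ 0 < q.n ∧ q.v 0 = 𝔇.g.v i ∧ q.v q.n = 𝔇.g.v j ∧ 𝔇.RSec i (q.e 0) ∧
    ∀ x ∈ q.inner, σ x = true ∧ x ∉ 𝔇.g.verts ∧ x ∉ 𝔇.YC K

/-- the number of steps from the exit gate edge of `t` to the entry gate edge of `s` -/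
noncomputable def nY (σ : V → Bool) : ℕ := 𝔇.t.np + pvasHit T σ 𝔇.a0 {𝔇.a1} + 𝔇.s.nm

/-- `y` is the rim arc `g⁺(t) → g⁻(s)` = LE(black bank walk of `Σ⁺(t)` . new strand . `Σ⁻(s)`) -/
def YArc2 (K : Set V) (σ : V → Bool) (y : T.Pth) : Prop := 𝔇.SY2 K σ ∧ PvwLE T (fun i => T.src (pvasIt T σ 𝔇.t.dp i)) (𝔇.nY σ) y

open Classical in
/-- **`Y` of record** (v2) (`0` off `SY2`) -/
noncomputable def Y2 (K : Set V) (pos : V → ℂ) (w : D → ℂ) (N : PvwNum) (h : ℝ) (π : PvwPat) (σ : V → Bool) : ℂ :=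
  if hy : ∃ y, 𝔇.YArc2 K σ y then 𝔇.Yof pos w N h π hy.choose else 0

end PvwDat

theorem pvyc_eqns_cite2 : True := by
  have := @PvwDat.a0.eq_1; have := @PvwDat.a1.eq_1; have := @PvwDat.YC.eq_1; have := @PvwDat.XC.eq_1; have := @PvwDat.SY2.eq_1; have := @PvwDat.WO2.eq_1; have := @PvwDat.NB2.eq_1
  have := @PvwDat.nY.eq_1; have := @PvwDat.YArc2.eq_1; have := @PvwDat.Y2.eq_1
  trivial

variable {𝔇 : PvwDat T}

/-- the class `YC` consists of fresh sites of the datum, inside `K` -/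
theorem pvyc_YC_sub (hK : 𝔇.Reg K) : 𝔇.YC K ⊆ K \ 𝔇.fz := by
  intro v hv
  have h1 := pvyc_Y_sub hK.tip0 hv
  exact ⟨h1.1, fun hf => h1.2 (hK.fz v h1.1 hf)⟩

theorem pvyc_YC_XC_disj : Disjoint (𝔇.YC K) (𝔇.XC K) := Set.disjoint_left.2 fun _ h h' => h'.2 h

theorem pvyc_YC_XC_union (hK : 𝔇.Reg K) : 𝔇.YC K ∪ 𝔇.XC K = 𝔇.fzᶜ := by
  ext v
  constructor
  · rintro (h | h)
    · exact (pvyc_YC_sub hK h).2
    · exact h.1
  · intro h
    by_cases hy : v ∈ 𝔇.YC K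
    · exact Or.inl hy
    · exact Or.inr ⟨h, hy⟩

/-- **Y2**: `NB2` reads only the sites off `YC` -/
theorem pvyc_NB2_congr {σ σ' : V → Bool} (h : PvwAgree (𝔇.YC K)ᶜ σ σ') : 𝔇.NB2 K σ ↔ 𝔇.NB2 K σ' := by
  unfold PvwDat.NB2
  apply not_congr
  constructor
  · rintro ⟨i, j, q, h1, h2, h3, h4, h5, h6, h7, h8⟩
    exact ⟨i, j, q, h1, h2, h3, h4, h5, h6, h7, fun x hx => ⟨by rw [← h x (h8 x hx).2.2]; exact (h8 x hx).1, (h8 x hx).2⟩⟩
  · rintro ⟨i, j, q, h1, h2, h3, h4, h5, h6, h7, h8⟩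
    exact ⟨i, j, q, h1, h2, h3, h4, h5, h6, h7, fun x hx => ⟨by rw [h x (h8 x hx).2.2]; exact (h8 x hx).1, (h8 x hx).2⟩⟩

/-- **Y2**: `WO2` reads only `XC` -/
theorem pvyc_WO2_congr (hK : 𝔇.Reg K) {σ σ' : V → Bool} (h : PvwAgree (𝔇.XC K) σ σ') : 𝔇.WO2 K σ ↔ 𝔇.WO2 K σ' := by
  have hX : ∀ x, x ∉ K → x ∉ 𝔇.fz → x ∈ 𝔇.XC K := fun x h1 h2 => ⟨h2, fun hy => h1 (pvyc_YC_sub hK hy).1⟩
  constructor
  · rintro ⟨q, h1, h2, h3⟩
    exact ⟨q, h1, h2, fun x hx => ⟨by rw [← h x (hX x (h3 x hx).2.1 (h3 x hx).2.2)]; exact (h3 x hx).1, (h3 x hx).2⟩⟩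
  · rintro ⟨q, h1, h2, h3⟩
    exact ⟨q, h1, h2, fun x hx => ⟨by rw [h x (hX x (h3 x hx).2.1 (h3 x hx).2.2)]; exact (h3 x hx).1, (h3 x hx).2⟩⟩

/-- `NB2` is DECREASING in black -/
theorem pvyc_NB2_anti {σ σ' : V → Bool} (h : ∀ v, σ' v = true → σ v = true) (hn : 𝔇.NB2 K σ) : 𝔇.NB2 K σ' := by
  rintro ⟨i, j, q, h1, h2, h3, h4, h5, h6, h7, h8⟩
  exact hn ⟨i, j, q, h1, h2, h3, h4, h5, h6, h7, fun x hx => ⟨h x (h8 x hx).1, (h8 x hx).2⟩⟩

/-- `WO2` is DECREASING in black -/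
theorem pvyc_WO2_anti {σ σ' : V → Bool} (h : ∀ v, σ' v = true → σ v = true) (hn : 𝔇.WO2 K σ) : 𝔇.WO2 K σ' := by
  obtain ⟨q, h1, h2, h3⟩ := hn
  refine ⟨q, h1, h2, fun x hx => ⟨?_, (h3 x hx).2⟩⟩
  by_contra hc
  have := h x (by simpa using hc)
  rw [(h3 x hx).1] at this
  exact absurd this (by simp)

/-- **Y1 on the datum**: `SY2`, the time and the positions of the new strand read only `D_Y` and `YC` -/
theorem pvyc_SY2_congr {σ σ' : V → Bool} (hσ : PvwAgree 𝔇.fzY σ 𝔇.col) (h0 : pvasBW T σ 𝔇.a0) (hσ' : PvwAgree (𝔇.fzY ∪ 𝔇.YC K) σ' σ) (h : 𝔇.SY2 K σ) :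
    𝔇.SY2 K σ' ∧ pvasHit T σ' 𝔇.a0 {𝔇.a1} = pvasHit T σ 𝔇.a0 {𝔇.a1} ∧ ∀ i, i ≤ pvasHit T σ 𝔇.a0 {𝔇.a1} → pvasIt T σ' 𝔇.a0 i = pvasIt T σ 𝔇.a0 i := by
  exact pvyc_run_congr (F := 𝔇.fzY) (pc := 𝔇.col) hσ h0 (fun v hv => hσ' v (Or.inl hv)) (fun v hv => hσ' v (Or.inr hv)) h

/-- the ends of the previous position -/
theorem pvyc_back_ends (s : V → Bool) (d : D) :
    (T.src (pvasBack T s d) = T.apex (T.opp d) ∧ T.tgt (pvasBack T s d) = T.tgt d) ∨ (T.src (pvasBack T s d) = T.src d ∧ T.tgt (pvasBack T s d) = T.apex (T.opp d)) := by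
  rcases pvas_back_cases s d with ⟨_, e⟩ | ⟨_, e⟩
  · exact Or.inl ⟨by rw [e, T.src_nxt2], by rw [e, T.tgt_nxt2, T.src_opp']⟩
  · exact Or.inr ⟨by rw [e, T.src_nxt, T.tgt_opp], by rw [e, T.tgt_nxt]⟩

/-- one step backwards reads the colour of the new end only -/
theorem pvyc_back_congr {s s' : V → Bool} {d : D} (h1 : s' (T.src (pvasBack T s d)) = s (T.src (pvasBack T s d)))
    (h2 : s' (T.tgt (pvasBack T s d)) = s (T.tgt (pvasBack T s d))) : pvasBack T s' d = pvasBack T s d := by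
  have : s' (T.apex (T.opp d)) = s (T.apex (T.opp d)) := by
    rcases pvyc_back_ends (T := T) s d with ⟨e, _⟩ | ⟨_, e⟩
    · rw [← e]; exact h1
    · rw [← e]; exact h2
  unfold pvasBack
  rw [this]

/-- the loop erasure of `b 0, …, b n` reads these values only -/
theorem pvyc_le_congr {b b' : ℕ → V} {n : ℕ} (hb : ∀ i, i ≤ n → b' i = b i) {y : T.Pth} (hy : PvwLE T b n y) : PvwLE T b' n y := by
  obtain ⟨j, h0, hn, h1, h2⟩ := hy
  have hlt : ∀ k, k < y.n → j k < n := by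
    intro k hk
    refine lt_of_le_of_ne (h1 k hk.le).1 fun e => ?_
    have e1 : y.v k = y.v y.n := by rw [(h1 k hk.le).2.1, (h1 y.n le_rfl).2.1, e, hn]
    exact absurd (y.inj k y.n hk.le le_rfl e1) hk.ne
  refine ⟨j, by rw [h0, hb 0 (Nat.zero_le _)], hn, fun k hk => ⟨(h1 k hk).1, ?_, fun i hi hin => ?_⟩, fun k hk => ?_⟩
  · rw [(h1 k hk).2.1, hb _ (h1 k hk).1]
  · rw [hb i hin, hb _ (h1 k hk).1]; exact (h1 k hk).2.2 i hi hin
  · rw [h2 k hk, hb _ (hlt k hk)]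

/-- **the stubs of the cylinder are strands of the colouring** (only `D_Y` is read) -/
theorem pvyc_stub {pos : V → ℂ} {Bt Bs : Set ℂ} (ht : 𝔇.t.StubP pos Bt 𝔇.col) (hs : 𝔇.s.StubM pos Bs 𝔇.col) {σ : V → Bool} (hσ : PvwAgree 𝔇.fzY σ 𝔇.col) :
    (∀ i, i ≤ 𝔇.t.np → pvasIt T σ 𝔇.t.dp i = 𝔇.t.ep i) ∧ (∀ i, i ≤ 𝔇.s.nm → (pvasBack T σ)^[i] 𝔇.s.dm = 𝔇.s.em i) := by
  constructor
  · intro i hi
    rw [ht.ep_it i hi]
    refine pvas_it_congr (T := T) (s := 𝔇.col) (s' := σ) (n := 𝔇.t.np) (fun v hv => ?_) i hi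
    rcases hv with ⟨k, hk, rfl⟩ | ⟨k, hk, rfl⟩
    · exact hσ _ (Or.inl (Or.inl (Or.inr ⟨k, hk, by rw [ht.ep_it k hk]⟩)))
    · exact hσ _ (Or.inl (Or.inr ⟨k, hk, by rw [ht.ep_it k hk]⟩))
  · intro i
    induction i with
    | zero => intro _; rw [hs.em_it 0 (Nat.zero_le _)]; rfl
    | succ i ih =>
      intro hi
      have e1 : 𝔇.s.em (i + 1) = pvasBack T 𝔇.col (𝔇.s.em i) := by
        rw [hs.em_it (i + 1) hi, hs.em_it i (Nat.le_of_succ_le hi), Function.iterate_succ_apply']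
      rw [Function.iterate_succ_apply', ih (Nat.le_of_succ_le hi), e1]
      refine pvyc_back_congr ?_ ?_
      · exact hσ _ (Or.inr (Or.inl (Or.inr ⟨i + 1, hi, by rw [e1]⟩)))
      · exact hσ _ (Or.inr (Or.inr ⟨i + 1, hi, by rw [e1]⟩))

/-- **the whole strand** `dp(t) → dm(s)`: on `SY2` the strand from the exit gate edge of `t` reaches the entry gate edge of `s` after `nY` steps: stub, new strand, stub -/
theorem pvyc_whole {pos : V → ℂ} {Bt Bs : Set ℂ} (ht : 𝔇.t.StubP pos Bt 𝔇.col) (hs : 𝔇.s.StubM pos Bs 𝔇.col) (hbt : pvasBW T 𝔇.col 𝔇.t.dp) (hbs : pvasBW T 𝔇.col 𝔇.s.dm)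
    {σ : V → Bool} (hσ : PvwAgree 𝔇.fzY σ 𝔇.col) (h : 𝔇.SY2 K σ) :
    pvasIt T σ 𝔇.t.dp (𝔇.nY σ) = 𝔇.s.dm ∧ (∀ i, i ≤ 𝔇.t.np → pvasIt T σ 𝔇.t.dp i = 𝔇.t.ep i) ∧
      (∀ i, i ≤ pvasHit T σ 𝔇.a0 {𝔇.a1} → pvasIt T σ 𝔇.t.dp (𝔇.t.np + i) = pvasIt T σ 𝔇.a0 i) ∧
      (∀ i, i ≤ 𝔇.s.nm → pvasIt T σ 𝔇.t.dp (𝔇.t.np + pvasHit T σ 𝔇.a0 {𝔇.a1} + i) = 𝔇.s.em (𝔇.s.nm - i)) := by
  obtain ⟨s1, s2⟩ := pvyc_stub ht hs hσ
  obtain ⟨-, r2, -⟩ := pvld_run_hit h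
  have e0 : 𝔇.s.em 0 = 𝔇.s.dm := hs.em_it 0 (Nat.zero_le _)
  have hbm : pvasBW T σ 𝔇.s.dm :=
    ⟨by rw [hσ _ (Or.inr (Or.inl (Or.inr ⟨0, Nat.zero_le _, by rw [e0]⟩)))]; exact hbs.1,
      by rw [hσ _ (Or.inr (Or.inr ⟨0, Nat.zero_le _, by rw [e0]⟩))]; exact hbs.2⟩
  have hbk : ∀ k, k ≤ 𝔇.s.nm → pvasBW T σ (𝔇.s.em k) := by
    intro k
    induction k with
    | zero => intro _; rw [e0]; exact hbm
    | succ k ih =>
      intro hk
      rw [← s2 (k + 1) hk, Function.iterate_succ_apply', s2 k (Nat.le_of_succ_le hk)]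
      exact pvas_back_bw (ih (Nat.le_of_succ_le hk))
  have c : ∀ i, i ≤ pvasHit T σ 𝔇.a0 {𝔇.a1} → pvasIt T σ 𝔇.t.dp (𝔇.t.np + i) = pvasIt T σ 𝔇.a0 i := by
    intro i _
    rw [pvas_it_add, s1 _ le_rfl]
    rfl
  have d : ∀ i, i ≤ 𝔇.s.nm → pvasIt T σ 𝔇.t.dp (𝔇.t.np + pvasHit T σ 𝔇.a0 {𝔇.a1} + i) = 𝔇.s.em (𝔇.s.nm - i) := by
    intro i
    induction i with
    | zero => intro _; rw [Nat.add_zero, c _ le_rfl, r2, Nat.sub_zero]; rfl
    | succ i ih =>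
      intro hi
      have e1 : 𝔇.s.nm - i = (𝔇.s.nm - (i + 1)) + 1 := by omega
      rw [← Nat.add_assoc, pvas_it_succ, ih (Nat.le_of_succ_le hi), e1, ← s2 _ (by omega), Function.iterate_succ_apply', s2 _ (by omega)]
      exact pvas_step_back (hbk _ (by omega))
  refine ⟨?_, s1, c, d⟩
  have := d 𝔇.s.nm le_rfl
  rw [Nat.sub_self, e0] at this
  exact this

/-- **Y1 for the value**: `YArc2` (hence `Y2`) reads only `D_Y` and `YC` -/
theorem pvyc_YArc2_congr {pos : V → ℂ} {Bt Bs : Set ℂ} (ht : 𝔇.t.StubP pos Bt 𝔇.col) (hs : 𝔇.s.StubM pos Bs 𝔇.col) (hbt : pvasBW T 𝔇.col 𝔇.t.dp) (hbs : pvasBW T 𝔇.col 𝔇.s.dm)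
    {σ σ' : V → Bool} (hσ : PvwAgree 𝔇.fzY σ 𝔇.col) (hσ' : PvwAgree (𝔇.fzY ∪ 𝔇.YC K) σ' σ) (y : T.Pth) : 𝔇.YArc2 K σ y ↔ 𝔇.YArc2 K σ' y := by
  have key : ∀ {σ σ' : V → Bool}, PvwAgree 𝔇.fzY σ 𝔇.col → PvwAgree (𝔇.fzY ∪ 𝔇.YC K) σ' σ → 𝔇.YArc2 K σ y → 𝔇.YArc2 K σ' y := by
    intro σ σ' hσ hσ' hy
    obtain ⟨hS, hL⟩ := hy
    have hc' : PvwAgree 𝔇.fzY σ' 𝔇.col := fun v hv => (hσ' v (Or.inl hv)).trans (hσ v hv)
    have e0 : 𝔇.t.ep 0 = 𝔇.t.dp := ht.ep_it 0 (Nat.zero_le _)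
    have hbp : pvasBW T σ 𝔇.t.dp :=
      ⟨by rw [hσ _ (Or.inl (Or.inl (Or.inr ⟨0, Nat.zero_le _, by rw [e0]⟩)))]; exact hbt.1,
        by rw [hσ _ (Or.inl (Or.inr ⟨0, Nat.zero_le _, by rw [e0]⟩))]; exact hbt.2⟩
    have hb0 : pvasBW T σ 𝔇.a0 := by
      have := pvas_it_bw hbp 𝔇.t.np
      rwa [(pvyc_stub ht hs hσ).1 _ le_rfl] at this
    obtain ⟨hS', hH, hP⟩ := pvyc_SY2_congr hσ hb0 hσ' hS
    obtain ⟨-, a2, a3, a4⟩ := pvyc_whole ht hs hbt hbs hσ hS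
    obtain ⟨-, b2, b3, b4⟩ := pvyc_whole ht hs hbt hbs hc' hS'
    have hn : 𝔇.nY σ' = 𝔇.nY σ := by unfold PvwDat.nY; rw [hH]
    refine ⟨hS', ?_⟩
    rw [hn]
    refine pvyc_le_congr (fun i hi => ?_) hL
    unfold PvwDat.nY at hi
    rw [hH] at b3 b4
    by_cases h1 : i ≤ 𝔇.t.np
    · rw [a2 i h1, b2 i h1]
    · by_cases h2 : i ≤ 𝔇.t.np + pvasHit T σ 𝔇.a0 {𝔇.a1}
      · obtain ⟨k, rfl⟩ : ∃ k, i = 𝔇.t.np + k := ⟨i - 𝔇.t.np, by omega⟩
        rw [a3 k (by omega), b3 k (by omega), hP k (by omega)]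
      · obtain ⟨k, rfl⟩ : ∃ k, i = 𝔇.t.np + pvasHit T σ 𝔇.a0 {𝔇.a1} + k := ⟨i - (𝔇.t.np + pvasHit T σ 𝔇.a0 {𝔇.a1}), by omega⟩
        rw [a4 k (by omega), b4 k (by omega)]
  exact ⟨key hσ hσ', key (fun v hv => (hσ' v (Or.inl hv)).trans (hσ v hv)) (fun v hv => (hσ' v hv).symm)⟩

theorem pvyc_Y2_congr {pos : V → ℂ} {Bt Bs : Set ℂ} (ht : 𝔇.t.StubP pos Bt 𝔇.col) (hs : 𝔇.s.StubM pos Bs 𝔇.col) (hbt : pvasBW T 𝔇.col 𝔇.t.dp) (hbs : pvasBW T 𝔇.col 𝔇.s.dm)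
    {σ σ' : V → Bool} (hσ : PvwAgree 𝔇.fzY σ 𝔇.col) (hσ' : PvwAgree (𝔇.fzY ∪ 𝔇.YC K) σ' σ) (w : D → ℂ) (N : PvwNum) (h : ℝ) (π : PvwPat) :
    𝔇.Y2 K pos w N h π σ = 𝔇.Y2 K pos w N h π σ' := by
  classical
  have e : (fun y => 𝔇.YArc2 K σ y) = fun y => 𝔇.YArc2 K σ' y := funext fun y => propext (pvyc_YArc2_congr ht hs hbt hbs hσ hσ' y)
  have key : ∀ P P' : T.Pth → Prop, P = P' →
      (if hy : ∃ y, P y then 𝔇.Yof pos w N h π hy.choose else 0) = (if hy : ∃ y, P' y then 𝔇.Yof pos w N h π hy.choose else 0) := by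
    rintro P _ rfl
    rfl
  unfold PvwDat.Y2
  exact key _ _ e

-- (the bridge `SY2 ⟹ SYn` of `Tr/Defs` v2 was FALSE as typed [26, 268: first hit needs disjoint stubs; clause 4 needs `no frozen-frozen position`]: the corrected statement is `pvyn_SYn` of 268, `Tr/TipNf.lean`)

/-- **G1 on the datum** (what (C2) consumes): `Z` a circuit whose vertices are frozen sites of `D_Y` or sites off `K`, whose edges between two sites of `K` are monochromatic for `col`.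
Then no site of `YC` lies on the closed side of `Z` which does not contain the face in front of the tip. -/
theorem pvyc_shield (hT : T.IsSph) (hK : 𝔇.Reg K) (Z : T.Cyc) (hv : ∀ v ∈ Z.verts, v ∈ 𝔇.fzY ∨ v ∉ K)
    (hm : ∀ d ∈ Z.darts, T.src d ∈ K → T.tgt d ∈ K → 𝔇.col (T.src d) = 𝔇.col (T.tgt d)) :
    (𝔇.a0 ∈ Z.Left → 𝔇.YC K ⊆ T.Int Z.Left) ∧ (𝔇.a0 ∈ Z.Right → 𝔇.YC K ⊆ T.Int Z.Right) := by
  have hZ : Z.darts ⊆ pvycBar T 𝔇.fzY 𝔇.col K := by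
    intro d hd
    obtain ⟨i, rfl⟩ := hd
    by_cases h1 : T.src (Z.e i) ∈ K
    · by_cases h2 : T.tgt (Z.e i) ∈ K
      · refine Or.inl ⟨(hv _ ⟨i, rfl⟩).resolve_right (fun h => h h1), (hv _ ⟨i + 1, (Z.chain i).symm⟩).resolve_right (fun h => h h2), hm _ ⟨i, rfl⟩ h1 h2⟩
      · exact Or.inr (Or.inr (Or.inl h2))
    · exact Or.inr (Or.inl h1)
  exact pvyc_side_verts hT hK.tip0 Z hZ hv

/-- **EXIST on the datum** (T7 = `pvld_exist`): two lanes inside `K` give `SY2` -/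
theorem pvyc_exist (hT : T.IsSph) (hK : 𝔇.Reg K) {σ : V → Bool} (h0 : pvasBW T σ 𝔇.a0) (h1 : pvasBW T σ 𝔇.a1) (hne : T.src 𝔇.a0 ≠ T.src 𝔇.a1)
    (hB : T.Join Set.univ (pvldCol σ K true) (T.src 𝔇.a0) (T.src 𝔇.a1)) (hW : T.Join Set.univ (pvldCol σ K false) (T.tgt 𝔇.a0) (T.tgt 𝔇.a1))
    (hout : ∃ f, T.src f ∉ K ∧ T.DJoin (pvldBar T σ K 𝔇.a0 𝔇.a1) (T.opp 𝔇.a0) f) : 𝔇.SY2 K σ :=
  pvld_exist hT hK.fin h0 h1 hne hB hW hK.co hout

end Claimed.Agent.R289
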