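import Claimed.Agent.R289.Tr.Tip
import Claimed.Agent.R289.Del.Circ

/-!
# Row 289 (S0537, Cardy for Poisson-Voronoi), box TR, WB5 HOOK, file Tr/TipDel : THE TIP OF AN EXPLORED STRAND IN THE DELAUNAY MAP      (owner helper23; prefix `pvtzd_`, defs `pvtzd…`)

Instance of `Tr/Tip` for `delMap h` (`Del/Seam`, 271), positions `ζ * v` (`‖ζ‖ = 1`; `ζ = 1, -i, -1, i` for the four sides of a box: in the rotated picture the box is `{re ≤ xB}` and the slit is a horizontal ray).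
* sec.1  `pvtzd_geo` : `PvtzGeo (delMap h) (fun v => ζ * v) A`
* sec.2  the staple `pvtzdP A B x2` (east from `A`, north / south at the abscissa `x2`, west to `B`): preconnected, bounded
* sec.3  **OUTSIDE THE BOX THE SITES ARE JOINED OUTSIDE THE BOX** `pvtzd_ext`: a cell which meets the horizontal ray issued from a site `A` belongs to a site not west of `A` (empty disc tangent at `A`), a cell which meets the line `re = x2` to a site
         within the mesh of it;   with `dlc_conn`: two sites east of `x0` are joined through sites east of `x0`, inside the `ρ`-collar of the staple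
* sec.4  `pvtzd_join` (the `Join` consumed by `PvtzExit.eval`, `PvtzEnt.eval`, in a mouth `PvaxAt`), `pvtzd_gap` (a gap between the box and the sites of the mouth outside it)
* sec.5  **`pvtzd_exit`**, **`pvtzd_ent`** : base point, potential and its values at ALL the sites of the inner mouth outside the box
* sec.6  squares: `pvtzdSq` (= `pvwSq`), the four directions `pvtzdDir`, `pvtzd_sq_le`, `pvtzd_sq_out`;   any `PvMap`: `pvtzd_exit_of_stub`, `pvtzd_ent_of_stub` = the records `PvtzExit`, `PvtzEnt` from the stopping rule of record (`PvwSt.Stub`)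
* sec.7  **ONE STOP** `pvtzd_exit_stop`, `pvtzd_ent_stop`: Delaunay map + square + mesh ⟹ direction, mouth (`dlc_at`), record, base point, potential, values outside the box
-/

set_option autoImplicit false
set_option linter.unusedSectionVars false
set_option linter.unusedVariables false

namespace Claimed.Agent.R289

open Relation Set Metric

variable {Y : Set ℂ}

/-! ## 1. geometry of the faces -/

theorem pvtzd_geo1 (h : DelGood Y) (A : Set (DelDart h)) : PvtzGeo (delMap h) (dlsPos Y) A :=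
  ⟨fun x _ => dls_det_pos x, fun _ _ _ _ _ hz hz' => (delMap h).sf_symm (dls_disj hz hz')⟩

theorem pvtzd_geo (h : DelGood Y) (A : Set (DelDart h)) {ζ : ℂ} (hζ : ζ ≠ 0) : PvtzGeo (delMap h) (fun v => ζ * dlsPos Y v) A :=
  (pvtzd_geo1 h A).rot hζ

/-! ## 2. the staple -/

/-- horizontal stretch from `A` to the abscissa `x2` -/
def pvtzdH (A : ℂ) (x2 : ℝ) : Set ℂ := {q | q.im = A.im ∧ A.re ≤ q.re ∧ q.re ≤ x2}
/-- vertical stretch at the abscissa `x2` between the ordinates of `A` and `B` -/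
def pvtzdV (A B : ℂ) (x2 : ℝ) : Set ℂ := {q | q.re = x2 ∧ min A.im B.im ≤ q.im ∧ q.im ≤ max A.im B.im}
/-- the staple -/
def pvtzdP (A B : ℂ) (x2 : ℝ) : Set ℂ := pvtzdH A x2 ∪ pvtzdV A B x2 ∪ pvtzdH B x2

theorem pvtzd_eqns_cite : True := by
  have := @pvtzdH.eq_1; have := @pvtzdV.eq_1; have := @pvtzdP.eq_1
  trivial

theorem pvtzd_cc_ge {a b x y m : ℝ} (ha : 0 ≤ a) (hb : 0 ≤ b) (hab : a + b = 1) (hx : m ≤ x) (hy : m ≤ y) : m ≤ a * x + b * y := by
  calc m = a * m + b * m := by rw [← add_mul, hab, one_mul]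
    _ ≤ a * x + b * y := add_le_add (mul_le_mul_of_nonneg_left hx ha) (mul_le_mul_of_nonneg_left hy hb)

theorem pvtzd_cc_le {a b x y m : ℝ} (ha : 0 ≤ a) (hb : 0 ≤ b) (hab : a + b = 1) (hx : x ≤ m) (hy : y ≤ m) : a * x + b * y ≤ m := by
  calc a * x + b * y ≤ a * m + b * m := add_le_add (mul_le_mul_of_nonneg_left hx ha) (mul_le_mul_of_nonneg_left hy hb)
    _ = m := by rw [← add_mul, hab, one_mul]

theorem pvtzd_H_convex (A : ℂ) (x2 : ℝ) : Convex ℝ (pvtzdH A x2) := by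
  intro x hx y hy a b ha hb hab
  obtain ⟨x1, x2', x3⟩ := hx
  obtain ⟨y1, y2, y3⟩ := hy
  refine ⟨?_, ?_, ?_⟩
  · simp only [Complex.add_im, Complex.real_smul, Complex.mul_im, Complex.ofReal_re, Complex.ofReal_im, zero_mul, add_zero]
    rw [x1, y1, ← add_mul, hab, one_mul]
  · simp only [Complex.add_re, Complex.real_smul, Complex.mul_re, Complex.ofReal_re, Complex.ofReal_im, zero_mul, sub_zero]
    exact pvtzd_cc_ge ha hb hab x2' y2
  · simp only [Complex.add_re, Complex.real_smul, Complex.mul_re, Complex.ofReal_re, Complex.ofReal_im, zero_mul, sub_zero]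
    exact pvtzd_cc_le ha hb hab x3 y3

theorem pvtzd_V_convex (A B : ℂ) (x2 : ℝ) : Convex ℝ (pvtzdV A B x2) := by
  intro x hx y hy a b ha hb hab
  obtain ⟨x1, x2', x3⟩ := hx
  obtain ⟨y1, y2, y3⟩ := hy
  refine ⟨?_, ?_, ?_⟩
  · simp only [Complex.add_re, Complex.real_smul, Complex.mul_re, Complex.ofReal_re, Complex.ofReal_im, zero_mul, sub_zero]
    rw [x1, y1, ← add_mul, hab, one_mul]
  · simp only [Complex.add_im, Complex.real_smul, Complex.mul_im, Complex.ofReal_re, Complex.ofReal_im, zero_mul, add_zero]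
    exact pvtzd_cc_ge ha hb hab x2' y2
  · simp only [Complex.add_im, Complex.real_smul, Complex.mul_im, Complex.ofReal_re, Complex.ofReal_im, zero_mul, add_zero]
    exact pvtzd_cc_le ha hb hab x3 y3

theorem pvtzd_P_preconn {A B : ℂ} {x2 : ℝ} (hA : A.re ≤ x2) (hB : B.re ≤ x2) : IsPreconnected (pvtzdP A B x2) := by
  unfold pvtzdP
  refine IsPreconnected.union (⟨x2, B.im⟩ : ℂ) (Or.inr ⟨rfl, min_le_right _ _, le_max_right _ _⟩) ⟨rfl, hB, le_rfl⟩ ?_ (pvtzd_H_convex B x2).isPreconnected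
  exact IsPreconnected.union (⟨x2, A.im⟩ : ℂ) ⟨rfl, hA, le_rfl⟩ ⟨rfl, min_le_left _ _, le_max_left _ _⟩ (pvtzd_H_convex A x2).isPreconnected (pvtzd_V_convex A B x2).isPreconnected

theorem pvtzd_P_left {A B : ℂ} {x2 : ℝ} (hA : A.re ≤ x2) : A ∈ pvtzdP A B x2 := Or.inl (Or.inl ⟨rfl, le_rfl, hA⟩)
theorem pvtzd_P_right {A B : ℂ} {x2 : ℝ} (hB : B.re ≤ x2) : B ∈ pvtzdP A B x2 := Or.inr ⟨rfl, le_rfl, hB⟩

theorem pvtzd_norm_le (w : ℂ) : ‖w‖ ≤ |w.re| + |w.im| := Complex.norm_le_abs_re_add_abs_im w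

/-- the staple of two points of `B(C, r₁)`, `x2 = max + ρ`, lies in `B(C, 3 r₁ + ρ)` -/
theorem pvtzd_P_ball {A B C : ℂ} {r₁ ρ : ℝ} (hρ : 0 ≤ ρ) (hA : ‖A - C‖ ≤ r₁) (hB : ‖B - C‖ ≤ r₁) : pvtzdP A B (max A.re B.re + ρ) ⊆ closedBall C (3 * r₁ + ρ) := by
  have a1 := (abs_le.1 ((Complex.abs_re_le_norm (A - C)).trans hA))
  have a2 := (abs_le.1 ((Complex.abs_im_le_norm (A - C)).trans hA))
  have b1 := (abs_le.1 ((Complex.abs_re_le_norm (B - C)).trans hB))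
  have b2 := (abs_le.1 ((Complex.abs_im_le_norm (B - C)).trans hB))
  rw [Complex.sub_re] at a1 b1
  rw [Complex.sub_im] at a2 b2
  have hm1 : max A.re B.re ≤ C.re + r₁ := max_le (by linarith [a1.2]) (by linarith [b1.2])
  have hr : 0 ≤ r₁ := (norm_nonneg _).trans hA
  intro q hq
  rw [mem_closedBall, dist_eq_norm]
  refine (pvtzd_norm_le _).trans ?_
  rw [Complex.sub_re, Complex.sub_im]
  rcases hq with (⟨h1, h2, h3⟩ | ⟨h1, h2, h3⟩) | ⟨h1, h2, h3⟩
  · have e1 : |q.re - C.re| ≤ r₁ + ρ := abs_le.2 ⟨by linarith [a1.1], by linarith⟩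
    have e2 : |q.im - C.im| ≤ r₁ := abs_le.2 ⟨by rw [h1]; linarith [a2.1], by rw [h1]; linarith [a2.2]⟩
    linarith
  · have e1 : |q.re - C.re| ≤ r₁ + ρ := abs_le.2 ⟨by rw [h1]; linarith [a1.1, le_max_left A.re B.re], by rw [h1]; linarith⟩
    have hmin : C.im - r₁ ≤ min A.im B.im := le_min (by linarith [a2.1]) (by linarith [b2.1])
    have hmax : max A.im B.im ≤ C.im + r₁ := max_le (by linarith [a2.2]) (by linarith [b2.2])
    have e2 : |q.im - C.im| ≤ r₁ := abs_le.2 ⟨by linarith, by linarith⟩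
    linarith
  · have e1 : |q.re - C.re| ≤ r₁ + ρ := abs_le.2 ⟨by linarith [b1.1], by linarith⟩
    have e2 : |q.im - C.im| ≤ r₁ := abs_le.2 ⟨by rw [h1]; linarith [b2.1], by rw [h1]; linarith [b2.2]⟩
    linarith

/-! ## 3. outside the box the sites are joined outside the box -/

/-- empty disc tangent at `A`: a point `q` east of `A` on its horizontal line; every `W` which is not farther from `q` than `A` is not west of `A` -/
theorem pvtzd_east {A q W : ℂ} (h1 : q.im = A.im) (h2 : A.re ≤ q.re) (h : ‖q - W‖ ≤ ‖q - A‖) : A.re ≤ W.re := by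
  have e1 : ‖q - A‖ = q.re - A.re := by
    have : q - A = ((q.re - A.re : ℝ) : ℂ) := by
      apply Complex.ext
      · simp
      · simp [h1]
    rw [this, Complex.norm_real, Real.norm_eq_abs, abs_of_nonneg (by linarith)]
  have e2 : (q - W).re ≤ ‖q - W‖ := Complex.re_le_norm _
  rw [Complex.sub_re] at e2
  linarith

theorem pvtzd_near {q W : ℂ} {x2 ρ : ℝ} (h1 : q.re = x2) (h : ‖q - W‖ ≤ ρ) : x2 - ρ ≤ W.re := by
  have e2 : (q - W).re ≤ ‖q - W‖ := Complex.re_le_norm _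
  rw [Complex.sub_re] at e2
  linarith

theorem pvtzd_norm_mul {ζ : ℂ} (hζ : ‖ζ‖ = 1) (a b : ℂ) : ‖ζ * a - ζ * b‖ = ‖a - b‖ := by
  rw [← mul_sub, norm_mul, hζ, one_mul]

/-- **EXT**: in the picture rotated by `ζ`, two sites east of `x0` are joined in the Delaunay graph through sites east of `x0` which lie in the `ρ`-collar of the staple -/
theorem pvtzd_ext (h : DelGood Y) {ζ : ℂ} (hζ : ‖ζ‖ = 1) {a y : Y} {x0 x2 ρ : ℝ} (ha : x0 < (ζ * a).re) (hy : x0 < (ζ * y).re) (ha2 : (ζ * a).re ≤ x2) (hy2 : (ζ * y).re ≤ x2) (hx2 : x0 + ρ < x2)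
    (hd : VorDense Y ((fun q => ζ⁻¹ * q) '' pvtzdP (ζ * a) (ζ * y) x2) ρ) :
    ReflTransGen (fun u v : Y => (delMap h).Adj u v ∧ (x0 < (ζ * v).re ∧ (v : ℂ) ∈ vorNbd ((fun q => ζ⁻¹ * q) '' pvtzdP (ζ * a) (ζ * y) x2) ρ)) a y := by
  have hζ0 : ζ ≠ 0 := fun e => by rw [e, norm_zero] at hζ; exact zero_ne_one hζ
  set S : Set ℂ := (fun q => ζ⁻¹ * q) '' pvtzdP (ζ * a) (ζ * y) x2 with hS
  have hSc : IsPreconnected S := (pvtzd_P_preconn ha2 hy2).image _ (continuous_const.mul continuous_id).continuousOn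
  have haS : (a : ℂ) ∈ S := ⟨ζ * a, pvtzd_P_left ha2, by simp [← mul_assoc, inv_mul_cancel₀ hζ0]⟩
  have hyS : (y : ℂ) ∈ S := ⟨ζ * y, pvtzd_P_right hy2, by simp [← mul_assoc, inv_mul_cancel₀ hζ0]⟩
  have hch := dlc_conn h hSc a ⟨a.2, a, vor_self_mem Y a, haS⟩ y ⟨y.2, y, vor_self_mem Y y, hyS⟩
  refine ReflTransGen.mono (fun u v huv => ⟨huv.1, ?_, (vor_meet_subset_nbd hd huv.2).2⟩) _ _ hch
  obtain ⟨hv, p, hpv, q, hq, rfl⟩ := huv.2
  have hq' : ∀ w : ℂ, ‖ζ⁻¹ * q - w‖ = ‖q - ζ * w‖ := by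
    intro w
    rw [← pvtzd_norm_mul hζ, ← mul_assoc, mul_inv_cancel₀ hζ0, one_mul]
  rcases hq with (⟨h1, h2, h3⟩ | ⟨h1, h2, h3⟩) | ⟨h1, h2, h3⟩
  · have := hpv a a.2
    simp only [hq'] at this
    exact lt_of_lt_of_le ha (pvtzd_east h1 h2 this)
  · have h4 : ‖ζ⁻¹ * q - v‖ ≤ ρ := vor_site_near hd hpv ⟨q, Or.inl (Or.inr ⟨h1, h2, h3⟩), rfl⟩
    rw [hq'] at h4
    have := pvtzd_near h1 h4
    linarith
  · have := hpv y y.2
    simp only [hq'] at this
    exact lt_of_lt_of_le hy (pvtzd_east h1 h2 this)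

/-! ## 4. the `Join` consumed by the evaluation; the gap -/

/-- two sites of the inner mouth `B(c, r₁)` east of `x0` are joined, by edges of the mouth, through sites east of `x0` -/
theorem pvtzd_join (h : DelGood Y) {ζ : ℂ} (hζ : ‖ζ‖ = 1) {c : ℂ} {r r' : ℝ} {M : (delMap h).Cyc} (hM : PvaxAt (delMap h) (dlsPos Y) c r r' M) {a y : Y} {x0 r₁ ρ : ℝ} (hρ : 0 < ρ)
    (ha : x0 < (ζ * a).re) (hy : x0 < (ζ * y).re) (har : ‖(a : ℂ) - c‖ ≤ r₁) (hyr : ‖(y : ℂ) - c‖ ≤ r₁) (hr : 3 * r₁ + 2 * ρ ≤ r) (hd : VorDense Y (closedBall c r) ρ) :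
    (delMap h).Join M.Left {v | x0 < (ζ * dlsPos Y v).re} a y := by
  have hζ0 : ζ ≠ 0 := fun e => by rw [e, norm_zero] at hζ; exact zero_ne_one hζ
  have hr1 : 0 ≤ r₁ := (norm_nonneg _).trans har
  set x2 : ℝ := max (ζ * a).re (ζ * y).re + ρ with hx2
  set S : Set ℂ := (fun q => ζ⁻¹ * q) '' pvtzdP (ζ * a) (ζ * y) x2 with hS
  have hSb : S ⊆ closedBall c (3 * r₁ + ρ) := by
    rintro _ ⟨q, hq, rfl⟩
    have h1 := pvtzd_P_ball (C := ζ * c) (r₁ := r₁) hρ.le (by rw [pvtzd_norm_mul hζ]; exact har) (by rw [pvtzd_norm_mul hζ]; exact hyr) hq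
    rw [mem_closedBall, dist_eq_norm] at h1 ⊢
    show ‖ζ⁻¹ * q - c‖ ≤ _
    rwa [← pvtzd_norm_mul hζ, ← mul_assoc, mul_inv_cancel₀ hζ0, one_mul]
  have hdS : VorDense Y S ρ := fun z hz => hd z (closedBall_subset_closedBall (by linarith) (hSb hz))
  have hN : ∀ v : ℂ, v ∈ vorNbd S ρ → ‖v - c‖ ≤ r := by
    rintro v ⟨z, hz, hvz⟩
    have h1 := hSb hz
    rw [mem_closedBall, dist_eq_norm] at h1
    calc ‖v - c‖ = ‖(v - z) + (z - c)‖ := by ring_nf
      _ ≤ ‖v - z‖ + ‖z - c‖ := norm_add_le _ _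
      _ ≤ r := by linarith
  have hch := pvtzd_ext h hζ (x0 := x0) (x2 := x2) (ρ := ρ) ha hy (by rw [hx2]; linarith [le_max_left (ζ * (a : ℂ)).re (ζ * (y : ℂ)).re])
    (by rw [hx2]; linarith [le_max_right (ζ * (a : ℂ)).re (ζ * (y : ℂ)).re]) (by rw [hx2]; linarith [le_max_left (ζ * (a : ℂ)).re (ζ * (y : ℂ)).re]) hdS
  refine ⟨ha, ?_⟩
  have haI : a ∈ (delMap h).Int M.Left := hM.inn a (by show ‖(a : ℂ) - c‖ ≤ r; linarith)
  have key : ∀ w : Y, ReflTransGen (fun u v : Y => (delMap h).Adj u v ∧ (x0 < (ζ * v).re ∧ (v : ℂ) ∈ vorNbd S ρ)) a w →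
      w ∈ (delMap h).Int M.Left ∧ ReflTransGen (fun u v => (delMap h).EdgeIn M.Left u v ∧ v ∈ {v | x0 < (ζ * dlsPos Y v).re}) a w := by
    intro w hw
    induction hw with
    | refl => exact ⟨haI, ReflTransGen.refl⟩
    | @tail u v _ huv ih =>
      obtain ⟨x, hx1, hx2'⟩ := huv.1
      exact ⟨hM.inn v (hN v huv.2.2), ih.2.tail ⟨⟨x, Or.inl (ih.1 x hx1), hx1, hx2'⟩, huv.2.1⟩⟩
  exact (key y hch).2

/-- a finite set of reals leaves a gap above `xB` -/
theorem pvtzd_gap {α : Type} {F : Set α} (hF : F.Finite) (f : α → ℝ) (xB : ℝ) : ∃ x1, xB < x1 ∧ ∀ v ∈ F, xB < f v → x1 ≤ f v := by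
  classical
  rcases (hF.toFinset.filter fun v => xB < f v).eq_empty_or_nonempty with hG | hG
  · refine ⟨xB + 1, by linarith, fun v hv hx => ?_⟩
    have : v ∈ hF.toFinset.filter fun v => xB < f v := Finset.mem_filter.2 ⟨hF.mem_toFinset.2 hv, hx⟩
    rw [hG] at this
    exact absurd this (Finset.notMem_empty v)
  · obtain ⟨w, hw, hmin⟩ := Finset.exists_min_image _ f hG
    exact ⟨f w, (Finset.mem_filter.1 hw).2, fun v hv hx => hmin v (Finset.mem_filter.2 ⟨hF.mem_toFinset.2 hv, hx⟩)⟩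

/-! ## 5. the two tips in the Delaunay map -/

/-- **EXIT TIP IN THE DELAUNAY MAP**.   Mouth `M` at radius `(r, r')` round `c`, mesh `ρ` on `B(c, r)`, the apex of the tip face in the inner mouth `B(c, r₁)`, `3 r₁ + 2 ρ ≤ r`.
There are a base point `z` in the open tip face, outside the box, and a potential `u` of `crossings + slit`; at EVERY site `y` of the inner mouth outside the box   `u y = u (black tip vertex)` iff `y` is above the ray. -/
theorem pvtzd_exit (h : DelGood Y) {ζ : ℂ} (hζ : ‖ζ‖ = 1) {s : Y → Bool} {d : DelDart h} {n : ℕ} {M : (delMap h).Cyc} {xB : ℝ}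
    (E : PvtzExit (delMap h) (fun v => ζ * dlsPos Y v) s d n M xB) {c : ℂ} {r r' r₁ ρ : ℝ} (hM : PvaxAt (delMap h) (dlsPos Y) c r r' M) (hρ : 0 < ρ) (hr : 3 * r₁ + 2 * ρ ≤ r)
    (hd : VorDense Y (closedBall c r) ρ) (hap : ‖((delMap h).apex (pvasIt (delMap h) s d n) : ℂ) - c‖ ≤ r₁) :
    ∃ z : ℂ, ∃ u : Y → ZMod 2,
      z ∈ delTo (ζ * dlsPos Y ((delMap h).src (pvasIt (delMap h) s d n))) (ζ * dlsPos Y ((delMap h).tgt (pvasIt (delMap h) s d n))) (ζ * dlsPos Y ((delMap h).apex (pvasIt (delMap h) s d n))) ∧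
      xB < z.re ∧ PvtzPot (delMap h) s d n M.Left (pvtzChi (delMap h) (fun v => ζ * dlsPos Y v) z) u ∧
      ∀ y : Y, xB < (ζ * y).re → ‖(y : ℂ) - c‖ ≤ r₁ → u y = u ((delMap h).src (pvasIt (delMap h) s d n)) + plI ((ζ * y).im ≤ z.im) := by
  have hT := dls_isSph h
  have hr1 : 0 ≤ r₁ := (norm_nonneg _).trans hap
  obtain ⟨x1, hx1, hgap⟩ := pvtzd_gap (pl_VOf_finite hT M E.fin) (fun v : Y => (ζ * v).re) xB
  obtain ⟨z, u, hz, hz1, hz2, hz3, hu⟩ := E.pot hT hx1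
  refine ⟨z, u, hz, hz1, hu, fun y hy hyr => ?_⟩
  have hyV : y ∈ (delMap h).VOf M.Left := by
    rw [pl_VOf_left hT M]
    exact Or.inr (hM.inn y (by show ‖(y : ℂ) - c‖ ≤ r; linarith))
  exact E.eval hz hz1 hu (pvtzd_join h hζ hM hρ hz3 (lt_of_lt_of_le hz2 (hgap y hyV hy)) hap hyr hr hd)

/-- **ENTRANCE TIP IN THE DELAUNAY MAP**: at every site `y` of the inner mouth outside the box   `u y = u (WHITE tip vertex)` iff `y` is above the ray -/
theorem pvtzd_ent (h : DelGood Y) {ζ : ℂ} (hζ : ‖ζ‖ = 1) {s : Y → Bool} {d : DelDart h} {n : ℕ} {M : (delMap h).Cyc} {xB : ℝ}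
    (E : PvtzEnt (delMap h) (fun v => ζ * dlsPos Y v) s d n M xB) {c : ℂ} {r r' r₁ ρ : ℝ} (hM : PvaxAt (delMap h) (dlsPos Y) c r r' M) (hρ : 0 < ρ) (hr : 3 * r₁ + 2 * ρ ≤ r)
    (hd : VorDense Y (closedBall c r) ρ) (hap : ‖((delMap h).apex ((delMap h).opp d) : ℂ) - c‖ ≤ r₁) :
    ∃ z : ℂ, ∃ u : Y → ZMod 2,
      z ∈ delTo (ζ * dlsPos Y ((delMap h).src ((delMap h).opp d))) (ζ * dlsPos Y ((delMap h).tgt ((delMap h).opp d))) (ζ * dlsPos Y ((delMap h).apex ((delMap h).opp d))) ∧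
      xB < z.re ∧ PvtzPot (delMap h) s d n M.Left (pvtzChi (delMap h) (fun v => ζ * dlsPos Y v) z) u ∧
      ∀ y : Y, xB < (ζ * y).re → ‖(y : ℂ) - c‖ ≤ r₁ → u y = u ((delMap h).tgt d) + plI ((ζ * y).im ≤ z.im) := by
  have hT := dls_isSph h
  have hr1 : 0 ≤ r₁ := (norm_nonneg _).trans hap
  obtain ⟨x1, hx1, hgap⟩ := pvtzd_gap (pl_VOf_finite hT M E.fin) (fun v : Y => (ζ * v).re) xB
  obtain ⟨z, u, hz, hz1, hz2, hz3, hu⟩ := E.pot hT hx1
  refine ⟨z, u, hz, hz1, hu, fun y hy hyr => ?_⟩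
  have hyV : y ∈ (delMap h).VOf M.Left := by
    rw [pl_VOf_left hT M]
    exact Or.inr (hM.inn y (by show ‖(y : ℂ) - c‖ ≤ r; linarith))
  exact E.eval hz hz1 hu (pvtzd_join h hζ hM hρ hz3 (lt_of_lt_of_le hz2 (hgap y hyV hy)) hap hyr hr hd)

/-! ## 6. strands stopped by a SQUARE: the side through which the strand leaves, `PvtzExit` / `PvtzEnt` from the stopping rule of record -/

/-- the closed square of centre `zc`, half side `r` (= `pvwSq` of `Tr/Defs`) -/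
def pvtzdSq (zc : ℂ) (r : ℝ) : Set ℂ := {w | |(w - zc).re| ≤ r ∧ |(w - zc).im| ≤ r}

/-- the four directions -/
def pvtzdDir : Set ℂ := {1, -1, Complex.I, -Complex.I}

theorem pvtzd_eqns_cite2 : True := by
  have := @pvtzdSq.eq_1; have := @pvtzdDir.eq_1
  trivial

theorem pvtzd_dir_norm {ζ : ℂ} (h : ζ ∈ pvtzdDir) : ‖ζ‖ = 1 := by
  rcases h with rfl | rfl | rfl | rfl <;> simp

/-- seen from any of the four directions the square lies in the half plane `{re (ζ w) ≤ r + re (ζ zc)}` -/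
theorem pvtzd_sq_le {ζ zc w : ℂ} {r : ℝ} (hζ : ζ ∈ pvtzdDir) (hw : w ∈ pvtzdSq zc r) : (ζ * w).re ≤ r + (ζ * zc).re := by
  obtain ⟨h1, h2⟩ := hw
  rw [abs_le, Complex.sub_re] at h1
  rw [abs_le, Complex.sub_im] at h2
  rcases hζ with rfl | rfl | rfl | rfl
  · simp only [one_mul]; linarith [h1.2]
  · simp only [neg_mul, one_mul, Complex.neg_re]; linarith [h1.1]
  · simp only [Complex.mul_re, Complex.I_re, Complex.I_im, zero_mul, one_mul, zero_sub]; linarith [h2.1]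
  · simp only [neg_mul, Complex.neg_re, Complex.mul_re, Complex.I_re, Complex.I_im, zero_mul, one_mul, zero_sub, neg_neg]; linarith [h2.2]

/-- a point off the square is beyond one of its four sides -/
theorem pvtzd_sq_out {zc w : ℂ} {r : ℝ} (hw : w ∉ pvtzdSq zc r) : ∃ ζ ∈ pvtzdDir, r + (ζ * zc).re < (ζ * w).re := by
  by_cases h1 : |(w - zc).re| ≤ r
  · have h2 : ¬ |(w - zc).im| ≤ r := fun h2 => hw ⟨h1, h2⟩
    rw [not_le, lt_abs, Complex.sub_im] at h2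
    rcases h2 with h2 | h2
    · refine ⟨-Complex.I, Or.inr (Or.inr (Or.inr rfl)), ?_⟩
      simp only [neg_mul, Complex.neg_re, Complex.mul_re, Complex.I_re, Complex.I_im, zero_mul, one_mul, zero_sub, neg_neg]; linarith
    · refine ⟨Complex.I, Or.inr (Or.inr (Or.inl rfl)), ?_⟩
      simp only [Complex.mul_re, Complex.I_re, Complex.I_im, zero_mul, one_mul, zero_sub]; linarith
  · rw [not_le, lt_abs, Complex.sub_re] at h1
    rcases h1 with h1 | h1
    · exact ⟨1, Or.inl rfl, by simp only [one_mul]; linarith⟩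
    · exact ⟨-1, Or.inr (Or.inl rfl), by simp only [neg_mul, one_mul, Complex.neg_re]; linarith⟩

section stub

variable {V D : Type} {T : PvMap V D} {pos : V → ℂ} {s : V → Bool} {d : D} {zc : ℂ} {rk : ℝ}

/-- **the stopping rule of record, forwards** (`PvwSt.Stub.ep_in`, `ep_out`): the positions `0..n` have both ends in the square, the position `n + 1` has not.   Then the apex of the face of the position `n` is off the square. -/
theorem pvtzd_stub_apex {n : ℕ} (hin : pos (T.src (pvasIt T s d n)) ∈ pvtzdSq zc rk ∧ pos (T.tgt (pvasIt T s d n)) ∈ pvtzdSq zc rk)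
    (hout : ¬ (pos (T.src (pvasIt T s d (n + 1))) ∈ pvtzdSq zc rk ∧ pos (T.tgt (pvasIt T s d (n + 1))) ∈ pvtzdSq zc rk)) : pos (T.apex (pvasIt T s d n)) ∉ pvtzdSq zc rk := by
  intro ha
  apply hout
  rw [pvas_it_succ]
  rcases pvas_step_ends s (pvasIt T s d n) with ⟨_, e1, e2⟩ | ⟨_, e1, e2⟩
  · rw [e1, e2]; exact ⟨ha, hin.2⟩
  · rw [e1, e2]; exact ⟨hin.1, ha⟩

/-- **`PvtzExit` from the stopping rule of record** -/
theorem pvtzd_exit_of_stub {n : ℕ} {M : T.Cyc} (hfin : M.Left.Finite) (hgeo : PvtzGeo T pos M.Left) (hd : pvasBW T s d) (hstart : T.opp d ∉ M.Left) (htip : pvasIt T s d n ∈ M.Left)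
    (hin : ∀ k, k ≤ n → pos (T.src (pvasIt T s d k)) ∈ pvtzdSq zc rk ∧ pos (T.tgt (pvasIt T s d k)) ∈ pvtzdSq zc rk)
    (hout : ¬ (pos (T.src (pvasIt T s d (n + 1))) ∈ pvtzdSq zc rk ∧ pos (T.tgt (pvasIt T s d (n + 1))) ∈ pvtzdSq zc rk)) :
    ∃ ζ ∈ pvtzdDir, PvtzExit T (fun v => ζ * pos v) s d n M (rk + (ζ * zc).re) := by
  obtain ⟨ζ, hζ, hlt⟩ := pvtzd_sq_out (pvtzd_stub_apex (hin n le_rfl) hout)
  have hζ0 : ζ ≠ 0 := fun e => by have := pvtzd_dir_norm hζ; rw [e, norm_zero] at this; exact zero_ne_one this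
  exact ⟨ζ, hζ, hfin, hgeo.rot hζ0, hd, hstart, htip, fun k hk => ⟨pvtzd_sq_le hζ (hin k hk).1, pvtzd_sq_le hζ (hin k hk).2⟩, hlt⟩

/-- **the stopping rule of record, backwards** (`PvwSt.Stub.em_in`, `em_out`): `d` has both ends in the square, the previous position has not.   Then the apex of the face behind `d` is off the square. -/
theorem pvtzd_stub_apex_back (hd : pvasBW T s d) (hin : pos (T.src d) ∈ pvtzdSq zc rk ∧ pos (T.tgt d) ∈ pvtzdSq zc rk)
    (hout : ¬ (pos (T.src (pvasBack T s d)) ∈ pvtzdSq zc rk ∧ pos (T.tgt (pvasBack T s d)) ∈ pvtzdSq zc rk)) : pos (T.apex (T.opp d)) ∉ pvtzdSq zc rk := by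
  intro ha
  apply hout
  rcases pvas_back_cases (T := T) s d with ⟨_, e⟩ | ⟨_, e⟩
  · rw [e, T.src_nxt2, T.tgt_nxt2, T.src_opp']; exact ⟨ha, hin.2⟩
  · rw [e, T.src_nxt, T.tgt_nxt, T.tgt_opp]; exact ⟨hin.1, ha⟩

/-- **`PvtzEnt` from the stopping rule of record** -/
theorem pvtzd_ent_of_stub {n : ℕ} {M : T.Cyc} (hfin : M.Left.Finite) (hgeo : PvtzGeo T pos M.Left) (hd : pvasBW T s d) (hstop : pvasIt T s d n ∉ M.Left) (htip : T.opp d ∈ M.Left)
    (hin : ∀ k, k ≤ n → pos (T.src (pvasIt T s d k)) ∈ pvtzdSq zc rk ∧ pos (T.tgt (pvasIt T s d k)) ∈ pvtzdSq zc rk)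
    (hout : ¬ (pos (T.src (pvasBack T s d)) ∈ pvtzdSq zc rk ∧ pos (T.tgt (pvasBack T s d)) ∈ pvtzdSq zc rk)) :
    ∃ ζ ∈ pvtzdDir, PvtzEnt T (fun v => ζ * pos v) s d n M (rk + (ζ * zc).re) := by
  obtain ⟨ζ, hζ, hlt⟩ := pvtzd_sq_out (pvtzd_stub_apex_back hd (hin 0 (Nat.zero_le n)) hout)
  have hζ0 : ζ ≠ 0 := fun e => by have := pvtzd_dir_norm hζ; rw [e, norm_zero] at this; exact zero_ne_one this
  exact ⟨ζ, hζ, hfin, hgeo.rot hζ0, hd, hstop, htip, fun k hk => ⟨pvtzd_sq_le hζ (hin k hk).1, pvtzd_sq_le hζ (hin k hk).2⟩, hlt⟩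

end stub

/-! ## 7. ONE-STOP theorems: Delaunay map + square + mesh -/

/-- **EXIT STUB IN THE DELAUNAY MAP, ONE STOP**.   `d` = exit gate edge, the positions `0..n` have both ends in the square `B_k`, the position `n+1` (= the tip of record) has not.   `c` = centre of the mouth, mesh `ρ` on `B(c, r + 3ρ)`,
the black vertex and the apex of the face of the position `n` within `r₁` of `c`, `3 r₁ + 2ρ ≤ r`, the white end of the gate edge at distance `≥ r + 4ρ` from `c`.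
OUTPUT: direction `ζ`, mouth `M` at radius `(r, r + 4ρ)`, the record `PvtzExit`, base point, potential, values of the potential at all the sites of `B(c, r₁)` outside the side of the square. -/
theorem pvtzd_exit_stop (h : DelGood Y) {s : Y → Bool} {d : DelDart h} {n : ℕ} {zc c : ℂ} {rk r r₁ ρ : ℝ} (hd : pvasBW (delMap h) s d)
    (hin : ∀ k, k ≤ n → ((delMap h).src (pvasIt (delMap h) s d k) : ℂ) ∈ pvtzdSq zc rk ∧ ((delMap h).tgt (pvasIt (delMap h) s d k) : ℂ) ∈ pvtzdSq zc rk)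
    (hout : ¬ (((delMap h).src (pvasIt (delMap h) s d (n + 1)) : ℂ) ∈ pvtzdSq zc rk ∧ ((delMap h).tgt (pvasIt (delMap h) s d (n + 1)) : ℂ) ∈ pvtzdSq zc rk))
    (hρ : 0 < ρ) (hr : 3 * r₁ + 2 * ρ ≤ r) (hmesh : VorDense Y (closedBall c (r + 3 * ρ)) ρ)
    (hsrc : ‖((delMap h).src (pvasIt (delMap h) s d n) : ℂ) - c‖ ≤ r₁) (hap : ‖((delMap h).apex (pvasIt (delMap h) s d n) : ℂ) - c‖ ≤ r₁)
    (hfar : r + 4 * ρ ≤ ‖((delMap h).tgt d : ℂ) - c‖) :
    ∃ ζ ∈ pvtzdDir, ∃ M : (delMap h).Cyc, PvaxAt (delMap h) (dlsPos Y) c r (r + 4 * ρ) M ∧ PvtzExit (delMap h) (fun v => ζ * dlsPos Y v) s d n M (rk + (ζ * zc).re) ∧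
      ∃ z : ℂ, ∃ u : Y → ZMod 2, rk + (ζ * zc).re < z.re ∧ PvtzPot (delMap h) s d n M.Left (pvtzChi (delMap h) (fun v => ζ * dlsPos Y v) z) u ∧
        z ∈ delTo (ζ * dlsPos Y ((delMap h).src (pvasIt (delMap h) s d n))) (ζ * dlsPos Y ((delMap h).tgt (pvasIt (delMap h) s d n))) (ζ * dlsPos Y ((delMap h).apex (pvasIt (delMap h) s d n))) ∧
        ∀ y : Y, rk + (ζ * zc).re < (ζ * y).re → ‖(y : ℂ) - c‖ ≤ r₁ → u y = u ((delMap h).src (pvasIt (delMap h) s d n)) + plI ((ζ * y).im ≤ z.im) := by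
  have hr1 : 0 ≤ r₁ := (norm_nonneg _).trans hap
  have hr0 : 0 ≤ r := by linarith
  obtain ⟨M, hM⟩ := dlc_at h hr0 hρ hmesh (by linarith : r + 3 * ρ < r + 4 * ρ)
  have hstart : (delMap h).opp d ∉ M.Left := by
    intro hmem
    have := hM.out _ ⟨(delMap h).opp d, hmem, rfl⟩
    rw [(delMap h).src_opp'] at this
    exact absurd hfar (not_le.2 this)
  have htip : pvasIt (delMap h) s d n ∈ M.Left := hM.inn _ (by show ‖((delMap h).src (pvasIt (delMap h) s d n) : ℂ) - c‖ ≤ r; linarith) _ rfl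
  obtain ⟨ζ, hζ, E⟩ := pvtzd_exit_of_stub (pos := dlsPos Y) hM.fin (pvtzd_geo1 h M.Left) hd hstart htip hin hout
  obtain ⟨z, u, hz, hz1, hu, hval⟩ := pvtzd_exit h (pvtzd_dir_norm hζ) E hM hρ hr (fun w hw => hmesh w (closedBall_subset_closedBall (by linarith) hw)) hap
  exact ⟨ζ, hζ, M, hM, E, z, u, hz1, hu, hz, hval⟩

/-- **ENTRANCE STUB IN THE DELAUNAY MAP, ONE STOP**.   `d` = the first position with both ends in the square (the previous one = the tip of record has not), followed for `n` steps (up to the entry gate edge, which is far from the mouth). -/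
theorem pvtzd_ent_stop (h : DelGood Y) {s : Y → Bool} {d : DelDart h} {n : ℕ} {zc c : ℂ} {rk r r₁ ρ : ℝ} (hd : pvasBW (delMap h) s d)
    (hin : ∀ k, k ≤ n → ((delMap h).src (pvasIt (delMap h) s d k) : ℂ) ∈ pvtzdSq zc rk ∧ ((delMap h).tgt (pvasIt (delMap h) s d k) : ℂ) ∈ pvtzdSq zc rk)
    (hout : ¬ (((delMap h).src (pvasBack (delMap h) s d) : ℂ) ∈ pvtzdSq zc rk ∧ ((delMap h).tgt (pvasBack (delMap h) s d) : ℂ) ∈ pvtzdSq zc rk))
    (hρ : 0 < ρ) (hr : 3 * r₁ + 2 * ρ ≤ r) (hmesh : VorDense Y (closedBall c (r + 3 * ρ)) ρ)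
    (hsrc : ‖((delMap h).tgt d : ℂ) - c‖ ≤ r₁) (hap : ‖((delMap h).apex ((delMap h).opp d) : ℂ) - c‖ ≤ r₁)
    (hfar : r + 4 * ρ ≤ ‖((delMap h).src (pvasIt (delMap h) s d n) : ℂ) - c‖) :
    ∃ ζ ∈ pvtzdDir, ∃ M : (delMap h).Cyc, PvaxAt (delMap h) (dlsPos Y) c r (r + 4 * ρ) M ∧ PvtzEnt (delMap h) (fun v => ζ * dlsPos Y v) s d n M (rk + (ζ * zc).re) ∧
      ∃ z : ℂ, ∃ u : Y → ZMod 2, rk + (ζ * zc).re < z.re ∧ PvtzPot (delMap h) s d n M.Left (pvtzChi (delMap h) (fun v => ζ * dlsPos Y v) z) u ∧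
        z ∈ delTo (ζ * dlsPos Y ((delMap h).src ((delMap h).opp d))) (ζ * dlsPos Y ((delMap h).tgt ((delMap h).opp d))) (ζ * dlsPos Y ((delMap h).apex ((delMap h).opp d))) ∧
        ∀ y : Y, rk + (ζ * zc).re < (ζ * y).re → ‖(y : ℂ) - c‖ ≤ r₁ → u y = u ((delMap h).tgt d) + plI ((ζ * y).im ≤ z.im) := by
  have hr1 : 0 ≤ r₁ := (norm_nonneg _).trans hap
  have hr0 : 0 ≤ r := by linarith
  obtain ⟨M, hM⟩ := dlc_at h hr0 hρ hmesh (by linarith : r + 3 * ρ < r + 4 * ρ)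
  have hstop : pvasIt (delMap h) s d n ∉ M.Left := by
    intro hmem
    exact absurd hfar (not_le.2 (hM.out _ ⟨_, hmem, rfl⟩))
  have htip : (delMap h).opp d ∈ M.Left := hM.inn ((delMap h).tgt d) (by show ‖((delMap h).tgt d : ℂ) - c‖ ≤ r; linarith) _ ((delMap h).src_opp' d)
  obtain ⟨ζ, hζ, E⟩ := pvtzd_ent_of_stub (pos := dlsPos Y) hM.fin (pvtzd_geo1 h M.Left) hd hstop htip hin hout
  obtain ⟨z, u, hz, hz1, hu, hval⟩ := pvtzd_ent h (pvtzd_dir_norm hζ) E hM hρ hr (fun w hw => hmesh w (closedBall_subset_closedBall (by linarith) hw)) hap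
  exact ⟨ζ, hζ, M, hM, E, z, u, hz1, hu, hz, hval⟩

end Claimed.Agent.R289
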