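-- KEEP
import Claimed.Agent.R289.Tr.TipDel
import Claimed.Agent.R289.Tr.StKit
import Claimed.Agent.R289.Tr.Cls

/-!
# Row 289 (S0537, Cardy for Poisson-Voronoi), box TR, ROAD E, HOOK-DET, file Tr/HookW : THE OUTER WHITE LANE LANDS ON THE TWO WHITE BANKS = `WO(D)`      (owner helper53; ruling T-1 (D) of helper39; prefix `pvhw_`, `Pvhw`)

PATTERN OF RECORD FOR `WO` = ONE white lengthwise crossing (for the independent-copy colouring) of ONE corridor HOOKED AT BOTH ENDS:   it starts outside the box of `t` on the BLACK side of the ray of `x⁺(t)`, turns round the tip THROUGH the box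
(C-shape, never touching the strip of the ray), comes out on the WHITE side, follows the far half of the outer lane, and does the same at `x⁻(s)`.   No circuit, no cutting of circuits at the ray: one lane event (`pvlq_corridor` of 21).
`X` = the sites of that crossing.   DETERMINISTIC CLAIM: `X` contains a simple path from `WB(Σ⁺(t))` to `WB(Σ⁻(s))` all of whose inner vertices are FRESH; hence `WO2 K σ` / `WO pos π σ` for `σ = col on fz, copy off fz`.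

* sec. 1  `PvhwSide` = one tip seen from the lane (tip potential `PvtzPot` of 23, inner mouth `I`, class `β` in which the lane leaves `I`);  `PvhwSide.const`
* sec. 2  `pvhw_core` = two tips: the stretch between the LAST explored site of the first tip and the FIRST explored site of the second one
* sec. 3  which bank: `pvhw_bank_white`, `pvhw_sep`
* sec. 4  the datum: `PvhwLane 𝔇 X a b`, `PvhwLane.path`, **`PvhwLane.WO2`** (form of `Tr/Cls`), **`PvhwLane.WO`** (form of `Tr/Defs` v2);  entrance stub read forwards `pvhw_whM_eq`, `pvhw_bkM_eq`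
* sec. 5  the DOOR = geometric criterion: `PvhwDoor P C xB κ μ r₂ ε X` (two inequalities on the sites of the lane near the tip), `PvhwDoor.slit`, **`PvhwDoor.side`**, `pvhw_start`, `pvhw_tri_im`
* sec. 6  the Delaunay map: `pvhw_short`, `pvhw_exit`, `pvhw_ent`, records `PvhwOut`, `PvhwIn` (what is read of the two stubs), `PvhwFit` (geometry of the lane), **`PvhwFit.lane`**, **`PvhwFit.WO2`**, **`PvhwFit.WO`**
* sec. 7  REGION FORM (inequalities on the region `R` of the corridor only): `PvhwDoorR`, **`PvhwReg`** (pure geometry), `PvhwDat` (sites + datum), **`PvhwReg.fit`**, `pvhw_dir` (the side is determined by the tip cell off the corners);  `PvhwFit.WO_pl`, `.WO2_pl` (any presentation of the Delaunay plane)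
* sec. 8  adaptors to `PvwDat.Ok` of `Tr/Defs` v3: `pvhw_out_of_ok`, `pvhw_in_of_ok`, `PvhwRegOk`, **`pvhw_dat_of_ok`**      (THE ONLY PLACE WHERE `Ok`, `PvwNum`, `PvwTy` ARE READ)
THE CONTRACT `PvheHookW` of 35 (`Tr/HookE`) for the pattern of record `pvkqEv` of 21 (`Tr/LinkQ`): `Tr/HookWE.lean`.
-/

set_option autoImplicit false
set_option linter.unusedSectionVars false
set_option linter.unusedVariables false

namespace Claimed.Agent.R289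

open Relation

variable {V D : Type} {T : PvMap V D}

/-! ## 1. one tip seen from a lane -/

/-- **ONE TIP SEEN FROM A LANE `X`**.   `u` = tip potential (23) of the strand `d, 0..n` in the mouth `M` with the slit `χ`;   `I` = the sites of the INNER MOUTH;   `β` = the class in which the lane leaves the inner mouth. -/
structure PvhwSide (T : PvMap V D) (s : V → Bool) (d : D) (n : ℕ) (M : Set D) (χ : D → ZMod 2) (u : V → ZMod 2) (X I : Set V) (β : ZMod 2) : Prop where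
  pot : PvtzPot T s d n M χ u
  /-- the darts issued from the inner mouth are darts of the mouth -/
  inM : ∀ x, T.src x ∈ I → x ∈ M
  /-- inside the inner mouth the lane is off the slit -/
  slit : ∀ x, T.src x ∈ X → T.tgt x ∈ X → T.src x ∈ I → χ x = 0
  /-- the explored sites of the lane lie in the inner mouth -/
  exI : ∀ v ∈ X, v ∈ pvtzEx T s d n → v ∈ I
  /-- COLLAR: the lane leaves the inner mouth in the class `β` -/
  collar : ∀ x, T.src x ∈ X → T.src x ∈ I → T.tgt x ∈ X → T.tgt x ∉ I → u (T.src x) = β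

variable {s : V → Bool} {d : D} {n : ℕ} {M : Set D} {χ : D → ZMod 2} {u : V → ZMod 2} {X I : Set V} {β : ZMod 2}

/-- **a stretch of the lane which starts in the inner mouth, is unexplored after its first site and leaves the inner mouth, starts in the class `β`** -/
theorem PvhwSide.const (S : PvhwSide T s d n M χ u X I β) : ∀ (N : ℕ) (w : ℕ → V) (e : ℕ → D), (∀ k, k < N → T.src (e k) = w k ∧ T.tgt (e k) = w (k + 1)) → (∀ k, k ≤ N → w k ∈ X) →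
    (∀ k, 0 < k → k ≤ N → w k ∉ pvtzEx T s d n) → w 0 ∈ I → w N ∉ I → u (w 0) = β := by
  intro N
  induction N with
  | zero => intro w e _ _ _ h0 hN; exact absurd h0 hN
  | succ N ih =>
    intro w e he hX hf h0 hN
    obtain ⟨e1, e2⟩ := he 0 (Nat.succ_pos N)
    by_cases h1 : w 1 ∈ I
    · have hu : u (w 1) = β := ih (fun k => w (k + 1)) (fun k => e (k + 1)) (fun k hk => he (k + 1) (Nat.succ_lt_succ hk)) (fun k hk => hX (k + 1) (Nat.succ_le_succ hk))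
        (fun k _ hk => hf (k + 1) (Nat.succ_pos k) (Nat.succ_le_succ hk)) h1 hN
      rw [← hu]
      refine S.pot.eq_edge ⟨e 0, Or.inl (S.inM _ (by rw [e1]; exact h0)), e1, e2⟩ (Or.inr (hf 1 Nat.one_pos (Nat.succ_le_succ (Nat.zero_le N)))) fun x x1 x2 => ?_
      exact S.slit x (by rw [x1]; exact hX 0 (Nat.zero_le _)) (by rw [x2]; exact hX 1 (Nat.succ_le_succ (Nat.zero_le N))) (by rw [x1]; exact h0)
    · have := S.collar (e 0) (by rw [e1]; exact hX 0 (Nat.zero_le _)) (by rw [e1]; exact h0) (by rw [e2]; exact hX 1 (Nat.succ_le_succ (Nat.zero_le N))) (by rw [e2]; exact h1)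
      rwa [e1] at this

/-! ## 2. two tips -/

/-- **THE CORE OF HOOK-DET FOR A LANE BETWEEN TWO TIPS**.   `X` = the sites of a lane; `a` in the inner mouth of the first tip, NOT in the class `β`, `b` in the inner mouth of the second tip, NOT in the class `β'`; `a`, `b` joined inside `X`.
Then `X` contains a simple path from an explored site of the first tip, of class `β`, to an explored site of the second tip, of class `β'`, all of whose inner vertices are unexplored. -/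
theorem pvhw_core [Nonempty D] {s' : V → Bool} {d' : D} {n' : ℕ} {M' : Set D} {χ' : D → ZMod 2} {u' : V → ZMod 2} {I' : Set V} {β' : ZMod 2}
    (S : PvhwSide T s d n M χ u X I β) (S' : PvhwSide T s' d' n' M' χ' u' X I' β') (hdisj : ∀ v, v ∈ I → v ∉ I')
    {a b : V} (hab : T.Join Set.univ X a b) (ha : a ∈ I) (hau : u a ≠ β) (hb : b ∈ I') (hbu : u' b ≠ β') :
    ∃ q : T.Pth, 0 < q.n ∧ q.v 0 ∈ pvtzEx T s d n ∧ u (q.v 0) = β ∧ q.v q.n ∈ pvtzEx T s' d' n' ∧ u' (q.v q.n) = β' ∧ q.verts ⊆ X ∧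
      ∀ x ∈ q.inner, x ∉ pvtzEx T s d n ∧ x ∉ pvtzEx T s' d' n' := by
  obtain ⟨p, p0, p1, pX, -⟩ := pl_pth_of_join hab
  obtain ⟨i, j, hij, hj, hi, hj', h2, h3⟩ := pl_pth_trim_idx p (pvtzEx T s d n ∪ {a}) (pvtzEx T s' d' n' ∪ {b}) (Or.inr p0) (Or.inr p1)
  have hpX : ∀ k, k ≤ p.n → p.v k ∈ X := fun k hk => pX ⟨k, hk, rfl⟩
  have hiI : p.v i ∈ I := by
    rcases hi with h | h
    · exact S.exI _ (hpX i (hij.trans hj)) h
    · rw [Set.mem_singleton_iff.1 h]; exact ha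
  have hjI : p.v j ∈ I' := by
    rcases hj' with h | h
    · exact S'.exI _ (hpX j hj) h
    · rw [Set.mem_singleton_iff.1 h]; exact hb
  have hlt : i < j := by
    rcases Nat.lt_or_ge i j with h | h
    · exact h
    · have : i = j := le_antisymm hij h
      subst this
      exact absurd hjI (hdisj _ hiI)
  -- the first tip
  have hu1 : u (p.v i) = β := by
    have := S.const (j - i) (fun k => p.v (i + k)) (fun k => p.e (i + k)) (fun k hk => ⟨p.src_e _ (by omega), p.tgt_e _ (by omega)⟩) (fun k hk => hpX _ (by omega))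
      (fun k hk0 hk => fun hE => h2 (i + k) (by omega) (by omega) (Or.inl hE)) hiI (by
        show p.v (i + (j - i)) ∉ I
        rw [Nat.add_sub_cancel' hij]
        exact fun h => hdisj _ h hjI)
    exact this
  -- the second tip, backwards
  have hu2 : u' (p.v j) = β' := by
    have := S'.const (j - i) (fun k => p.v (j - k)) (fun k => T.opp (p.e (j - 1 - k))) (fun k hk => ⟨by
        rw [T.src_opp', p.tgt_e _ (by omega)]
        congr 1; omega, by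
        rw [T.tgt_opp, p.src_e _ (by omega)]
        congr 1; omega⟩) (fun k hk => hpX _ (by omega))
      (fun k hk0 hk => fun hE => h3 (j - k) (by omega) (Or.inl hE)) hjI (by
        show p.v (j - (j - i)) ∉ I'
        rw [Nat.sub_sub_self hij]
        exact hdisj _ hiI)
    exact this
  have hE1 : p.v i ∈ pvtzEx T s d n := by
    rcases hi with h | h
    · exact h
    · rw [Set.mem_singleton_iff.1 h] at hu1; exact absurd hu1 hau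
  have hE2 : p.v j ∈ pvtzEx T s' d' n' := by
    rcases hj' with h | h
    · exact h
    · rw [Set.mem_singleton_iff.1 h] at hu2; exact absurd hu2 hbu
  have hn : (p.seg i j).n = j - i := by
    show min j p.n - i = j - i
    rw [Nat.min_eq_left hj]
  refine ⟨p.seg i j, by rw [hn]; omega, hE1, hu1, ?_, ?_, ?_, ?_⟩
  · rw [hn]; show p.v (i + (j - i)) ∈ _; rw [Nat.add_sub_cancel' hij]; exact hE2
  · rw [hn]; show u' (p.v (i + (j - i))) = _; rw [Nat.add_sub_cancel' hij]; exact hu2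
  · rintro x ⟨k, hk, rfl⟩
    rw [hn] at hk
    exact hpX _ (by omega)
  · rintro x ⟨k, hk0, hk, rfl⟩
    rw [hn] at hk
    exact ⟨fun hE => h2 (i + k) (by omega) (by omega) (Or.inl hE), fun hE => h3 (i + k) (by omega) (Or.inl hE)⟩

/-! ## 3. which bank -/

/-- an explored site on the banks of a piece `m..n'` of the strand (inside the mouth, off the slit) whose class is not the class of the black bank lies on the WHITE bank -/
theorem pvhw_bank_white (hM : T.FaceSet M) (hd : pvasBW T s d) (h : PvtzPot T s d n M χ u) {m n' : ℕ} (hn : n' ≤ n) (hp : PvtzPiece T s d M χ m n')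
    {v : V} (hv : v ∈ pvtzB T s d m n' ∪ pvtzW T s d m n') (hβ : u v ≠ u (T.src (pvasIt T s d m))) : v ∈ pvasLayW T s d n := by
  rcases hv with hv | hv
  · exact absurd (pvtz_B_const hM hd h hp hv) hβ
  · obtain ⟨k, _, h2, rfl⟩ := hv
    exact ⟨k, h2.trans hn, rfl⟩

/-- the two ends of a position inside the closed mouth, off the slit, lie in different classes -/
theorem pvhw_sep (hd : pvasBW T s d) (hinj : ∀ i j, i ≤ n → j ≤ n → pvasIt T s d i = pvasIt T s d j → i = j) (h : PvtzPot T s d n M χ u) {k : ℕ} (hk : k ≤ n)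
    (hmem : pvasIt T s d k ∈ M ∨ T.opp (pvasIt T s d k) ∈ M) (hχ : χ (pvasIt T s d k) = 0) : u (T.src (pvasIt T s d k)) ≠ u (T.tgt (pvasIt T s d k)) := by
  have h1 := h (pvasIt T s d k) hmem
  rw [pvtz_X_one hd hinj hk, hχ, add_zero] at h1
  exact pvtz_z2_ne h1

theorem pvhw_z2_succ_ne (a : ZMod 2) : a + 1 ≠ a := by revert a; decide

theorem pvhw_z2_of_ne {a b : ZMod 2} (h : a ≠ b) : b = a + 1 := by revert a b; decide

/-! ## 4. the datum: `WO`, `WO2` -/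

section datum

variable {pos : V → ℂ} {B : Set ℂ} (𝔖 : PvwSt T)

/-- the entrance stub read FORWARDS from its tip: white bank -/
theorem pvhw_whM_eq (h : 𝔖.StubM pos B s) (hb : pvasBW T s 𝔖.dm) : 𝔖.whM = pvasLayW T s (𝔖.em 𝔖.nm) 𝔖.nm := by
  ext v
  constructor
  · rintro ⟨i, hi, rfl⟩
    exact ⟨𝔖.nm - i, Nat.sub_le _ _, by rw [pvwk_em_fwd h hb (Nat.sub_le _ _), Nat.sub_sub_self hi]⟩
  · rintro ⟨i, hi, rfl⟩
    exact ⟨𝔖.nm - i, Nat.sub_le _ _, by rw [pvwk_em_fwd h hb hi]⟩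

/-- the entrance stub read FORWARDS from its tip: black bank -/
theorem pvhw_bkM_eq (h : 𝔖.StubM pos B s) (hb : pvasBW T s 𝔖.dm) : 𝔖.bkM = pvasLayB T s (𝔖.em 𝔖.nm) 𝔖.nm := by
  ext v
  constructor
  · rintro ⟨i, hi, rfl⟩
    exact ⟨𝔖.nm - i, Nat.sub_le _ _, by rw [pvwk_em_fwd h hb (Nat.sub_le _ _), Nat.sub_sub_self hi]⟩
  · rintro ⟨i, hi, rfl⟩
    exact ⟨𝔖.nm - i, Nat.sub_le _ _, by rw [pvwk_em_fwd h hb hi]⟩

end datum

/-- **THE LANE `X` SEEN FROM THE DATUM** (`X` = the sites of a white path of the COPY colouring along the hooked outer corridor).   `a`, `b` = its two ends. -/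
structure PvhwLane (𝔇 : PvwDat T) (X : Set V) (a b : V) : Prop where
  /-- the two tips -/
  sides : ∃ (M M' : Set D) (χ χ' : D → ZMod 2) (u u' : V → ZMod 2) (I I' : Set V) (β β' : ZMod 2),
    PvhwSide T 𝔇.col 𝔇.t.dp 𝔇.t.np M χ u X I β ∧ PvhwSide T 𝔇.col (𝔇.s.em 𝔇.s.nm) 𝔇.s.nm M' χ' u' X I' β' ∧ (∀ v, v ∈ I → v ∉ I') ∧
    (∀ v ∈ X, v ∈ pvtzEx T 𝔇.col 𝔇.t.dp 𝔇.t.np → u v = β → v ∈ pvasLayW T 𝔇.col 𝔇.t.dp 𝔇.t.np) ∧
    (∀ v ∈ X, v ∈ pvtzEx T 𝔇.col (𝔇.s.em 𝔇.s.nm) 𝔇.s.nm → u' v = β' → v ∈ pvasLayW T 𝔇.col (𝔇.s.em 𝔇.s.nm) 𝔇.s.nm) ∧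
    a ∈ I ∧ u a ≠ β ∧ b ∈ I' ∧ u' b ≠ β'
  join : T.Join Set.univ X a b
  /-- the only frozen sites of the lane are on the banks of `Σ⁺(t)`, `Σ⁻(s)` -/
  fz : ∀ v ∈ X, v ∈ 𝔇.fz → v ∈ 𝔇.t.bkP ∪ 𝔇.t.whP ∪ (𝔇.s.bkM ∪ 𝔇.s.whM)

/-- **HOOK-DET FOR THE OUTER LANE, abstract form**: a simple path inside the lane from the white bank of `Σ⁺(t)` to the white bank of `Σ⁻(s)`, all of whose inner vertices are FRESH -/
theorem PvhwLane.path [Nonempty D] {𝔇 : PvwDat T} {X : Set V} {a b : V} (L : PvhwLane 𝔇 X a b) {pos : V → ℂ} {Bt Bs : Set ℂ} (ht : 𝔇.t.StubP pos Bt 𝔇.col) (hs : 𝔇.s.StubM pos Bs 𝔇.col)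
    (hbs : pvasBW T 𝔇.col 𝔇.s.dm) : ∃ q : T.Pth, 0 < q.n ∧ q.v 0 ∈ 𝔇.t.whP ∧ q.v q.n ∈ 𝔇.s.whM ∧ q.verts ⊆ X ∧ ∀ x ∈ q.inner, x ∉ 𝔇.fz := by
  obtain ⟨M, M', χ, χ', u, u', I, I', β, β', S, S', hd, hW, hW', ha, hau, hb, hbu⟩ := L.sides
  obtain ⟨q, hq0, h1, h2, h3, h4, h5, h6⟩ := pvhw_core S S' hd L.join ha hau hb hbu
  refine ⟨q, hq0, ?_, ?_, h5, fun x hx hfz => ?_⟩
  · rw [pvwk_whP_eq ht]; exact hW _ (h5 ⟨0, Nat.zero_le _, rfl⟩) h1 h2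
  · rw [pvhw_whM_eq 𝔇.s hs hbs]; exact hW' _ (h5 ⟨q.n, le_rfl, rfl⟩) h3 h4
  · have hxX : x ∈ X := by
      obtain ⟨k, _, hk, rfl⟩ := hx
      exact h5 ⟨k, hk.le, rfl⟩
    rcases L.fz x hxX hfz with (h | h) | (h | h)
    · exact (h6 x hx).1 (Or.inl (by rw [← pvwk_bkP_eq ht]; exact h))
    · exact (h6 x hx).1 (Or.inr (by rw [← pvwk_whP_eq ht]; exact h))
    · exact (h6 x hx).2 (Or.inl (by rw [← pvhw_bkM_eq 𝔇.s hs hbs]; exact h))
    · exact (h6 x hx).2 (Or.inr (by rw [← pvhw_whM_eq 𝔇.s hs hbs]; exact h))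

/-- **HOOK-DET ⇒ `WO2`** (form of record of `Tr/Cls`): the fresh sites of the lane are white for `σ` and off the region `K` -/
theorem PvhwLane.WO2 [Nonempty D] {𝔇 : PvwDat T} {X : Set V} {a b : V} (L : PvhwLane 𝔇 X a b) {pos : V → ℂ} {Bt Bs : Set ℂ} (ht : 𝔇.t.StubP pos Bt 𝔇.col) (hs : 𝔇.s.StubM pos Bs 𝔇.col)
    (hbs : pvasBW T 𝔇.col 𝔇.s.dm) {K : Set V} {σ : V → Bool} (hσ : ∀ v ∈ X, v ∉ 𝔇.fz → σ v = false) (hK : ∀ v ∈ X, v ∉ 𝔇.fz → v ∉ K) : 𝔇.WO2 K σ := by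
  obtain ⟨q, _, h1, h2, h3, h4⟩ := L.path ht hs hbs
  refine ⟨q, h1, h2, fun x hx => ?_⟩
  have hxX : x ∈ X := by
    obtain ⟨k, _, hk, rfl⟩ := hx
    exact h3 ⟨k, hk.le, rfl⟩
  exact ⟨hσ x hxX (h4 x hx), hK x hxX (h4 x hx), h4 x hx⟩

/-- the sites of `YCL` lie over `Yin` -/
theorem pvhw_YCL_in (𝔇 : PvwDat T) (pos : V → ℂ) (π : PvwPat) {v : V} (hv : v ∈ 𝔇.YCL pos π) : pos v ∈ π.Yin := by
  rcases hv with ⟨q, _, rfl, hq⟩ | ⟨q, _, rfl, hq⟩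
  · exact (hq _ ⟨q.n, le_rfl, rfl⟩).2
  · exact (hq _ ⟨q.n, le_rfl, rfl⟩).2

/-- **HOOK-DET ⇒ `WO`** (form of `Tr/Defs` v2): the fresh sites of the lane are white for `σ` and lie over `Yout` -/
theorem PvhwLane.WO [Nonempty D] {𝔇 : PvwDat T} {X : Set V} {a b : V} (L : PvhwLane 𝔇 X a b) {pos : V → ℂ} {Bt Bs : Set ℂ} (ht : 𝔇.t.StubP pos Bt 𝔇.col) (hs : 𝔇.s.StubM pos Bs 𝔇.col)
    (hbs : pvasBW T 𝔇.col 𝔇.s.dm) {π : PvwPat} (hπ : π.Wf) {σ : V → Bool} (hσ : ∀ v ∈ X, v ∉ 𝔇.fz → σ v = false) (hY : ∀ v ∈ X, v ∉ 𝔇.fz → pos v ∈ π.Yout) : 𝔇.WO pos π σ := by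
  obtain ⟨q, _, h1, h2, h3, h4⟩ := L.path ht hs hbs
  refine ⟨q, h1, h2, fun x hx => ?_⟩
  have hxX : x ∈ X := by
    obtain ⟨k, _, hk, rfl⟩ := hx
    exact h3 ⟨k, hk.le, rfl⟩
  exact ⟨hσ x hxX (h4 x hx), hY x hxX (h4 x hx), h4 x hx, fun hy => Set.disjoint_left.1 hπ.disj (pvhw_YCL_in 𝔇 pos π hy) (hY x hxX (h4 x hx))⟩

/-! ## 5. the DOOR: geometric criterion for `PvhwSide` -/

/-- **THE DOOR OF A HOOKED LANE AT A TIP**, in the picture `P` in which the ray of the tip points EAST (`P v = ζ * pos v`).   `C` = centre of the mouth, `xB` = abscissa of the side of the box, `κ` = bound for the ordinate of the base point of the ray,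
`μ` = bound for the length of the edges, `r₂` = radius of the inner mouth;   `ε = -1`: the lane leaves the inner mouth BELOW the ray (exit tip: white side), `ε = 1`: ABOVE the ray (entrance tip: white side). -/
structure PvhwDoor (P : V → ℂ) (C : ℂ) (xB κ μ r₂ ε : ℝ) (X : Set V) : Prop where
  /-- near the inner mouth the lane is in the box or off the strip of the ray -/
  front : ∀ v ∈ X, ‖P v - C‖ ≤ r₂ + μ → (P v).re ≤ xB ∨ κ + μ < |(P v).im - C.im|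
  /-- in the collar of the inner mouth the lane is outside the box, on the side `ε` of the ray -/
  collar : ∀ v ∈ X, r₂ - μ < ‖P v - C‖ → ‖P v - C‖ ≤ r₂ → xB < (P v).re ∧ κ < ε * ((P v).im - C.im)

section door

variable {P : V → ℂ} {C z : ℂ} {xB κ μ r₂ ε : ℝ} {β₀ : ZMod 2}

theorem pvhw_strip (hz2 : |z.im - C.im| ≤ κ) {w : ℂ} (h : κ + μ < |w.im - C.im|) : μ < |w.im - z.im| := by
  have : |w.im - C.im| ≤ |w.im - z.im| + |z.im - C.im| := by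
    have := abs_add_le (w.im - z.im) (z.im - C.im)
    rwa [sub_add_sub_cancel] at this
  linarith

/-- the lane is off the slit inside the inner mouth -/
theorem PvhwDoor.slit (hD : PvhwDoor P C xB κ μ r₂ ε X) (hz1 : xB < z.re) (hz2 : |z.im - C.im| ≤ κ) {x : D} (h1 : T.src x ∈ X) (h2 : T.tgt x ∈ X) (h3 : ‖P (T.src x) - C‖ ≤ r₂)
    (hlen : ‖P (T.src x) - P (T.tgt x)‖ ≤ μ) : pvtzChi T P z x = 0 := by
  have hμ : 0 ≤ μ := (norm_nonneg _).trans hlen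
  have h4 : ‖P (T.tgt x) - C‖ ≤ r₂ + μ := by
    calc ‖P (T.tgt x) - C‖ = ‖(P (T.src x) - C) - (P (T.src x) - P (T.tgt x))‖ := by ring_nf
      _ ≤ ‖P (T.src x) - C‖ + ‖P (T.src x) - P (T.tgt x)‖ := norm_sub_le _ _
      _ ≤ r₂ + μ := by linarith
  rcases hD.front _ h1 (by linarith) with e1 | e1
  · rcases hD.front _ h2 h4 with e2 | e2
    · exact pvtz_chi_west (by linarith) (by linarith)
    · rw [← pvtz_chi_sym P z x]
      exact pvtz_chi_strip (μ := μ) (by rw [T.src_opp', T.tgt_opp, norm_sub_rev]; exact hlen) (by rw [T.src_opp']; exact pvhw_strip hz2 e2)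
  · exact pvtz_chi_strip hlen (pvhw_strip hz2 e1)

/-- **`PvhwSide` FROM A DOOR**.   `hval` = the values of the potential outside the box (`pvtzd_exit`, `pvtzd_ent` of 23). -/
theorem PvhwDoor.side (hD : PvhwDoor P C xB κ μ r₂ ε X) (pot : PvtzPot T s d n M (pvtzChi T P z) u) (hM : ∀ x, ‖P (T.src x) - C‖ ≤ r₂ → x ∈ M)
    (hshort : ∀ x, ‖P (T.src x) - C‖ ≤ r₂ → ‖P (T.src x) - P (T.tgt x)‖ ≤ μ) (hz1 : xB < z.re) (hz2 : |z.im - C.im| ≤ κ)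
    (hval : ∀ y, xB < (P y).re → ‖P y - C‖ ≤ r₂ → u y = β₀ + plI ((P y).im ≤ z.im)) (hEx : ∀ v ∈ X, v ∈ pvtzEx T s d n → ‖P v - C‖ ≤ r₂)
    (hβ : (ε = 1 ∧ β = β₀) ∨ (ε = -1 ∧ β = β₀ + 1)) : PvhwSide T s d n M (pvtzChi T P z) u X {v | ‖P v - C‖ ≤ r₂} β := by
  refine ⟨pot, hM, fun x h1 h2 h3 => hD.slit hz1 hz2 h1 h2 h3 (hshort x h3), hEx, fun x h1 h3 h2 h4 => ?_⟩
  have hlen := hshort x h3
  have h5 : r₂ - μ < ‖P (T.src x) - C‖ := by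
    have h4' : r₂ < ‖P (T.tgt x) - C‖ := not_le.1 h4
    have : ‖P (T.tgt x) - C‖ ≤ ‖P (T.src x) - C‖ + ‖P (T.src x) - P (T.tgt x)‖ := by
      calc ‖P (T.tgt x) - C‖ = ‖(P (T.src x) - C) - (P (T.src x) - P (T.tgt x))‖ := by ring_nf
        _ ≤ _ := norm_sub_le _ _
    linarith
  obtain ⟨e1, e2⟩ := hD.collar _ h1 h5 h3
  rw [hval _ e1 h3]
  rw [abs_le] at hz2
  rcases hβ with ⟨rfl, rfl⟩ | ⟨rfl, rfl⟩
  · rw [pl_hx_I_neg (by rw [not_le]; linarith [hz2.2]), add_zero]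
  · rw [pl_hx_I_pos (by linarith [hz2.1])]

/-- a site of the inner mouth outside the box, on the side `-ε` of the ray, is not in the class in which the lane leaves -/
theorem pvhw_start (hz2 : |z.im - C.im| ≤ κ) (hval : ∀ y, xB < (P y).re → ‖P y - C‖ ≤ r₂ → u y = β₀ + plI ((P y).im ≤ z.im))
    (hβ : (ε = 1 ∧ β = β₀) ∨ (ε = -1 ∧ β = β₀ + 1)) {a : V} (h1 : xB < (P a).re) (h2 : ‖P a - C‖ ≤ r₂) (h3 : κ < -ε * ((P a).im - C.im)) : u a ≠ β := by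
  rw [hval a h1 h2]
  rw [abs_le] at hz2
  rcases hβ with ⟨rfl, rfl⟩ | ⟨rfl, rfl⟩
  · rw [pl_hx_I_pos (by linarith [hz2.1])]; exact pvhw_z2_succ_ne _
  · rw [pl_hx_I_neg (by rw [not_le]; linarith [hz2.2]), add_zero]; exact (pvhw_z2_succ_ne _).symm

/-- the ordinate of a point of a triangle -/
theorem pvhw_tri_im {a b c w : ℂ} (hw : w ∈ delTo a b c) {y₀ : ℝ} (ha : |a.im - y₀| ≤ κ) (hb : |b.im - y₀| ≤ κ) (hc : |c.im - y₀| ≤ κ) : |w.im - y₀| ≤ κ := by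
  obtain ⟨h1, h2, h3⟩ := hw
  have key : (vorDet a b w + vorDet b c w + vorDet c a w) * (w.im - y₀) = vorDet b c w * (a.im - y₀) + vorDet c a w * (b.im - y₀) + vorDet a b w * (c.im - y₀) := by
    unfold vorDet; ring
  rw [abs_le] at ha hb hc ⊢
  have hS : 0 < vorDet a b w + vorDet b c w + vorDet c a w := by linarith
  constructor
  · by_contra hcon
    rw [not_le] at hcon
    have e0 : (vorDet a b w + vorDet b c w + vorDet c a w) * (w.im - y₀) < (vorDet a b w + vorDet b c w + vorDet c a w) * (-κ) := mul_lt_mul_of_pos_left hcon hS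
    have e1 : vorDet b c w * (-κ) ≤ vorDet b c w * (a.im - y₀) := mul_le_mul_of_nonneg_left ha.1 h2.le
    have e2 : vorDet c a w * (-κ) ≤ vorDet c a w * (b.im - y₀) := mul_le_mul_of_nonneg_left hb.1 h3.le
    have e3 : vorDet a b w * (-κ) ≤ vorDet a b w * (c.im - y₀) := mul_le_mul_of_nonneg_left hc.1 h1.le
    nlinarith
  · by_contra hcon
    rw [not_le] at hcon
    have e0 : (vorDet a b w + vorDet b c w + vorDet c a w) * κ < (vorDet a b w + vorDet b c w + vorDet c a w) * (w.im - y₀) := mul_lt_mul_of_pos_left hcon hS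
    have e1 : vorDet b c w * (a.im - y₀) ≤ vorDet b c w * κ := mul_le_mul_of_nonneg_left ha.2 h2.le
    have e2 : vorDet c a w * (b.im - y₀) ≤ vorDet c a w * κ := mul_le_mul_of_nonneg_left hb.2 h3.le
    have e3 : vorDet a b w * (c.im - y₀) ≤ vorDet a b w * κ := mul_le_mul_of_nonneg_left hc.2 h1.le
    nlinarith

end door

/-! ## 6. the Delaunay map -/

section del

open Metric

variable {Y : Set ℂ}

/-- edges issued from a site of `B(c, R)` are short if the mesh is `δ` on `B(c, R + 2δ)` -/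
theorem pvhw_short (h : DelGood Y) {c : ℂ} {R δ : ℝ} (hδ : 0 < δ) (hd : VorDense Y (closedBall c (R + 2 * δ)) δ) (x : DelDart h) (hx : ‖((delMap h).src x : ℂ) - c‖ ≤ R) :
    ‖((delMap h).src x : ℂ) - ((delMap h).tgt x : ℂ)‖ ≤ 2 * δ := by
  have hsub : ∀ t, t ≤ 2 * δ → closedBall (((delMap h).src x : Y) : ℂ) t ⊆ closedBall c (R + 2 * δ) := by
    intro t ht w hw
    rw [mem_closedBall, dist_eq_norm] at hw ⊢
    calc ‖w - c‖ = ‖(w - ((delMap h).src x : ℂ)) + (((delMap h).src x : ℂ) - c)‖ := by ring_nf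
      _ ≤ ‖w - ((delMap h).src x : ℂ)‖ + ‖((delMap h).src x : ℂ) - c‖ := norm_add_le _ _
      _ ≤ R + 2 * δ := by linarith
  have hcell : vorCell Y ((delMap h).src x : ℂ) ⊆ closedBall (((delMap h).src x : Y) : ℂ) δ :=
    vor_cell_subset_ball hδ.le (by linarith : δ < 2 * δ) fun w hw => hd w (hsub _ le_rfl hw)
  exact del_adj_dist (K := closedBall (((delMap h).src x : Y) : ℂ) δ) (fun w hw => hd w (hsub _ (by linarith) hw)) ((dls_dart_adj x).inWin hcell)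

theorem pvhw_im_le {ζ : ℂ} (hζ : ‖ζ‖ = 1) {w c : ℂ} {κ : ℝ} (h : ‖w - c‖ ≤ κ) : |(ζ * w).im - (ζ * c).im| ≤ κ := by
  have := Complex.abs_im_le_norm (ζ * w - ζ * c)
  rw [pvtzd_norm_mul hζ, Complex.sub_im] at this
  exact this.trans h

theorem pvhw_ball_eq {ζ : ℂ} (hζ : ‖ζ‖ = 1) (c : ℂ) (r₂ : ℝ) : {v : Y | ‖ζ * dlsPos Y v - ζ * c‖ ≤ r₂} = {v : Y | ‖(v : ℂ) - c‖ ≤ r₂} := by
  ext v
  show ‖ζ * dlsPos Y v - ζ * c‖ ≤ r₂ ↔ ‖(v : ℂ) - c‖ ≤ r₂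
  rw [pvtzd_norm_mul hζ]; rfl

/-- **EXIT TIP, DELAUNAY MAP**.   `E` = record of 23 (direction `ζ`), mouth `M` at radius `r` round `c`, mesh `δ`, tip face within `κ` of `c`, door of the lane `X` (`ε = -1`: the lane leaves BELOW the ray = on the white side),
the positions `m..n` inside the mouth, the positions `< m` off the inner mouth `B(c, r₂)` (CALM).   OUTPUT: the side record, the bank clause and the class of the starting points. -/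
theorem pvhw_exit (h : DelGood Y) {ζ : ℂ} (hζ : ‖ζ‖ = 1) {s : Y → Bool} {d : DelDart h} {n : ℕ} {M : (delMap h).Cyc} {xB : ℝ}
    (E : PvtzExit (delMap h) (fun v => ζ * dlsPos Y v) s d n M xB) {c : ℂ} {r r' r₁ r₂ δ κ : ℝ} (hM : PvaxAt (delMap h) (dlsPos Y) c r r' M) (hδ : 0 < δ) (hr : 3 * r₁ + 2 * δ ≤ r)
    (hd : VorDense Y (closedBall c r) δ) (hκ : κ ≤ r₁) (hr₂ : r₂ ≤ r₁)
    (h1 : ‖((delMap h).src (pvasIt (delMap h) s d n) : ℂ) - c‖ ≤ κ) (h2 : ‖((delMap h).tgt (pvasIt (delMap h) s d n) : ℂ) - c‖ ≤ κ) (h3 : ‖((delMap h).apex (pvasIt (delMap h) s d n) : ℂ) - c‖ ≤ κ)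
    {X : Set Y} (hD : PvhwDoor (fun v => ζ * dlsPos Y v) (ζ * c) xB κ (2 * δ) r₂ (-1) X) (hEx : ∀ v ∈ X, v ∈ pvtzEx (delMap h) s d n → ‖(v : ℂ) - c‖ ≤ r₂)
    {m : ℕ} (hm : m ≤ n) (hpiece : ∀ k, m ≤ k → k < n → pvasIt (delMap h) s d k ∈ M.Left)
    (hcalm : ∀ k, k < m → r₂ < ‖((delMap h).src (pvasIt (delMap h) s d k) : ℂ) - c‖ ∧ r₂ < ‖((delMap h).tgt (pvasIt (delMap h) s d k) : ℂ) - c‖) :
    ∃ (χ : DelDart h → ZMod 2) (u : Y → ZMod 2) (β : ZMod 2), PvhwSide (delMap h) s d n M.Left χ u X {v : Y | ‖(v : ℂ) - c‖ ≤ r₂} β ∧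
      (∀ v ∈ X, v ∈ pvtzEx (delMap h) s d n → u v = β → v ∈ pvasLayW (delMap h) s d n) ∧
      ∀ a : Y, xB < (ζ * a).re → ‖(a : ℂ) - c‖ ≤ r₂ → κ < (ζ * a).im - (ζ * c).im → u a ≠ β := by
  have hr1 : 0 ≤ r₁ := ((norm_nonneg _).trans h1).trans hκ
  obtain ⟨z, u, hz, hz1, hu, hval⟩ := pvtzd_exit h hζ E hM hδ hr hd (h3.trans hκ)
  have hz2 : |z.im - (ζ * c).im| ≤ κ := pvhw_tri_im hz (pvhw_im_le hζ h1) (pvhw_im_le hζ h2) (pvhw_im_le hζ h3)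
  have hval' : ∀ y : Y, xB < ((fun v => ζ * dlsPos Y v) y).re → ‖(fun v => ζ * dlsPos Y v) y - ζ * c‖ ≤ r₂ →
      u y = u ((delMap h).src (pvasIt (delMap h) s d n)) + plI (((fun v => ζ * dlsPos Y v) y).im ≤ z.im) := by
    intro y hy1 hy2
    rw [pvtzd_norm_mul hζ] at hy2
    exact hval y hy1 (hy2.trans hr₂)
  have hβ : ((-1 : ℝ) = 1 ∧ u ((delMap h).src (pvasIt (delMap h) s d n)) + 1 = u ((delMap h).src (pvasIt (delMap h) s d n))) ∨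
      ((-1 : ℝ) = -1 ∧ u ((delMap h).src (pvasIt (delMap h) s d n)) + 1 = u ((delMap h).src (pvasIt (delMap h) s d n)) + 1) := Or.inr ⟨rfl, rfl⟩
  have hS := hD.side (β := u ((delMap h).src (pvasIt (delMap h) s d n)) + 1) hu (fun x hx => by
      rw [pvtzd_norm_mul hζ] at hx
      exact hM.inn _ (by show ‖((delMap h).src x : ℂ) - c‖ ≤ r; exact hx.trans (by linarith)) x rfl) (fun x hx => by
      rw [pvtzd_norm_mul hζ] at hx ⊢
      exact pvhw_short h hδ (R := r₂) (fun w hw => hd w (closedBall_subset_closedBall (by linarith) hw)) x hx) hz1 hz2 hval' (fun v hv hE => by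
      rw [pvtzd_norm_mul hζ]; exact hEx v hv hE) hβ
  rw [pvhw_ball_eq hζ] at hS
  refine ⟨_, u, _, hS, fun v hv hE hvβ => ?_, fun a ha1 ha2 ha3 => ?_⟩
  · have hp := E.piece hz1 le_rfl hpiece
    have hvr := hEx v hv hE
    have hvB : v ∈ pvtzB (delMap h) s d m n ∪ pvtzW (delMap h) s d m n := by
      rcases hE with ⟨k, hk, rfl⟩ | ⟨k, hk, rfl⟩
      · refine Or.inl ⟨k, ?_, hk, rfl⟩
        by_contra hkm
        exact absurd hvr (not_le.2 (hcalm k (not_le.1 hkm)).1)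
      · refine Or.inr ⟨k, ?_, hk, rfl⟩
        by_contra hkm
        exact absurd hvr (not_le.2 (hcalm k (not_le.1 hkm)).2)
    refine pvhw_bank_white (pl_left_face M) E.bw hu le_rfl hp hvB ?_
    rw [hvβ, ← (pvtz_piece_const (pl_left_face M) E.bw hu hp hm le_rfl).1]
    exact pvhw_z2_succ_ne _
  · exact pvhw_start (ε := -1) hz2 hval' hβ ha1 (by rw [pvtzd_norm_mul hζ]; exact ha2) (by
      show κ < - -1 * ((ζ * a).im - (ζ * c).im)
      linarith)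

/-- **ENTRANCE TIP, DELAUNAY MAP**.   The strand is read FORWARDS from the tip dart `d`; door with `ε = 1`: the lane leaves ABOVE the ray = on the white side;   the positions `0..m` inside the mouth, the positions `> m` off the inner mouth. -/
theorem pvhw_ent (h : DelGood Y) {ζ : ℂ} (hζ : ‖ζ‖ = 1) {s : Y → Bool} {d : DelDart h} {n : ℕ} {M : (delMap h).Cyc} {xB : ℝ}
    (E : PvtzEnt (delMap h) (fun v => ζ * dlsPos Y v) s d n M xB) {c : ℂ} {r r' r₁ r₂ δ κ : ℝ} (hM : PvaxAt (delMap h) (dlsPos Y) c r r' M) (hδ : 0 < δ) (hr : 3 * r₁ + 2 * δ ≤ r)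
    (hd : VorDense Y (closedBall c r) δ) (hκ : κ ≤ r₁) (hr₂ : r₂ ≤ r₁)
    (h1 : ‖((delMap h).src d : ℂ) - c‖ ≤ κ) (h2 : ‖((delMap h).tgt d : ℂ) - c‖ ≤ κ) (h3 : ‖((delMap h).apex ((delMap h).opp d) : ℂ) - c‖ ≤ κ)
    {X : Set Y} (hD : PvhwDoor (fun v => ζ * dlsPos Y v) (ζ * c) xB κ (2 * δ) r₂ 1 X) (hEx : ∀ v ∈ X, v ∈ pvtzEx (delMap h) s d n → ‖(v : ℂ) - c‖ ≤ r₂)
    {m : ℕ} (hm : m ≤ n) (hpiece : ∀ k, k < m → pvasIt (delMap h) s d k ∈ M.Left)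
    (hcalm : ∀ k, m < k → k ≤ n → r₂ < ‖((delMap h).src (pvasIt (delMap h) s d k) : ℂ) - c‖ ∧ r₂ < ‖((delMap h).tgt (pvasIt (delMap h) s d k) : ℂ) - c‖) :
    ∃ (χ : DelDart h → ZMod 2) (u : Y → ZMod 2) (β : ZMod 2), PvhwSide (delMap h) s d n M.Left χ u X {v : Y | ‖(v : ℂ) - c‖ ≤ r₂} β ∧
      (∀ v ∈ X, v ∈ pvtzEx (delMap h) s d n → u v = β → v ∈ pvasLayW (delMap h) s d n) ∧
      ∀ a : Y, xB < (ζ * a).re → ‖(a : ℂ) - c‖ ≤ r₂ → κ < (ζ * c).im - (ζ * a).im → u a ≠ β := by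
  have hr1 : 0 ≤ r₁ := ((norm_nonneg _).trans h1).trans hκ
  obtain ⟨z, u, hz, hz1, hu, hval⟩ := pvtzd_ent h hζ E hM hδ hr hd (h3.trans hκ)
  have hz2 : |z.im - (ζ * c).im| ≤ κ := pvhw_tri_im hz (pvhw_im_le hζ (by rw [(delMap h).src_opp']; exact h2)) (pvhw_im_le hζ (by rw [(delMap h).tgt_opp]; exact h1)) (pvhw_im_le hζ h3)
  have hval' : ∀ y : Y, xB < ((fun v => ζ * dlsPos Y v) y).re → ‖(fun v => ζ * dlsPos Y v) y - ζ * c‖ ≤ r₂ →
      u y = u ((delMap h).tgt d) + plI (((fun v => ζ * dlsPos Y v) y).im ≤ z.im) := by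
    intro y hy1 hy2
    rw [pvtzd_norm_mul hζ] at hy2
    exact hval y hy1 (hy2.trans hr₂)
  have hβ : ((1 : ℝ) = 1 ∧ u ((delMap h).tgt d) = u ((delMap h).tgt d)) ∨ ((1 : ℝ) = -1 ∧ u ((delMap h).tgt d) = u ((delMap h).tgt d) + 1) := Or.inl ⟨rfl, rfl⟩
  have hS := hD.side (β := u ((delMap h).tgt d)) hu (fun x hx => by
      rw [pvtzd_norm_mul hζ] at hx
      exact hM.inn _ (by show ‖((delMap h).src x : ℂ) - c‖ ≤ r; exact hx.trans (by linarith)) x rfl) (fun x hx => by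
      rw [pvtzd_norm_mul hζ] at hx ⊢
      exact pvhw_short h hδ (R := r₂) (fun w hw => hd w (closedBall_subset_closedBall (by linarith) hw)) x hx) hz1 hz2 hval' (fun v hv hE => by
      rw [pvtzd_norm_mul hζ]; exact hEx v hv hE) hβ
  rw [pvhw_ball_eq hζ] at hS
  refine ⟨_, u, _, hS, fun v hv hE hvβ => ?_, fun a ha1 ha2 ha3 => ?_⟩
  · have hp := E.piece hz1 hm (m := 0) fun k _ hk => hpiece k hk
    have hvr := hEx v hv hE
    have hvB : v ∈ pvtzB (delMap h) s d 0 m ∪ pvtzW (delMap h) s d 0 m := by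
      rcases hE with ⟨k, hk, rfl⟩ | ⟨k, hk, rfl⟩
      · refine Or.inl ⟨k, Nat.zero_le _, ?_, rfl⟩
        by_contra hkm
        exact absurd hvr (not_le.2 (hcalm k (not_le.1 hkm) hk).1)
      · refine Or.inr ⟨k, Nat.zero_le _, ?_, rfl⟩
        by_contra hkm
        exact absurd hvr (not_le.2 (hcalm k (not_le.1 hkm) hk).2)
    refine pvhw_bank_white (pl_left_face M) E.bw hu hm hp hvB ?_
    rw [hvβ]
    have hb := E.box 0 (Nat.zero_le n)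
    have hsep := pvhw_sep E.bw E.inj hu (Nat.zero_le n) (Or.inr (by rw [pvas_it_zero]; exact E.tip)) (pvtz_chi_west (lt_of_le_of_lt hb.1 hz1) (lt_of_le_of_lt hb.2 hz1))
    rw [pvas_it_zero] at hsep ⊢
    exact hsep.symm
  · exact pvhw_start (ε := 1) hz2 hval' hβ ha1 (by rw [pvtzd_norm_mul hζ]; exact ha2) (by
      show κ < -1 * ((ζ * a).im - (ζ * c).im)
      linarith)

theorem pvhw_tri {a b c : ℂ} {x y : ℝ} (h1 : ‖a - b‖ ≤ x) (h2 : ‖b - c‖ ≤ y) : ‖a - c‖ ≤ x + y := by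
  calc ‖a - c‖ = ‖(a - b) + (b - c)‖ := by ring_nf
    _ ≤ ‖a - b‖ + ‖b - c‖ := norm_add_le _ _
    _ ≤ x + y := by linarith

/-- the third vertices of the two faces of an edge whose ends are within `κ` of `c` -/
theorem pvhw_tip_near (h : DelGood Y) {c : ℂ} {r δ κ : ℝ} (hδ : 0 < δ) (hd : VorDense Y (closedBall c (r + 2 * δ)) δ) (x : DelDart h) (h1 : ‖((delMap h).src x : ℂ) - c‖ ≤ κ)
    (h2 : ‖((delMap h).tgt x : ℂ) - c‖ ≤ κ) (hκ : κ ≤ r) : ‖((delMap h).apex x : ℂ) - c‖ ≤ κ + 2 * δ ∧ ‖((delMap h).apex ((delMap h).opp x) : ℂ) - c‖ ≤ κ + 2 * δ := by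
  have h3 := pvhw_short h hδ hd ((delMap h).opp ((delMap h).nxt ((delMap h).nxt x))) (by rw [(delMap h).src_opp', (delMap h).tgt_nxt2]; exact h1.trans hκ)
  rw [(delMap h).src_opp', (delMap h).tgt_nxt2, (delMap h).tgt_opp, (delMap h).src_nxt2, norm_sub_rev] at h3
  have h4 := pvhw_short h hδ hd ((delMap h).opp ((delMap h).nxt ((delMap h).nxt ((delMap h).opp x)))) (by rw [(delMap h).src_opp', (delMap h).tgt_nxt2, (delMap h).src_opp']; exact h2.trans hκ)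
  rw [(delMap h).src_opp', (delMap h).tgt_nxt2, (delMap h).tgt_opp, (delMap h).src_nxt2, (delMap h).src_opp', norm_sub_rev] at h4
  constructor
  · have := pvhw_tri h3 h1; linarith
  · have := pvhw_tri h4 h2; linarith

/-- **WHAT THE HOOK READS OF THE EXIT STUB `Σ⁺(t)`**: box `pvwSq zt Rt`, centre `yt` of the mouth, the tip dart within `κ` of `yt`, CALM: the positions `i₀..np` within `r` of `yt`, the earlier ones off `B(yt, r₂)`.      From `PvwDat.Ok`: `pvhw_out_of_ok`. -/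
structure PvhwOut {D : Type} {T : PvMap ↥Y D} (𝔇 : PvwDat T) (zt : ℂ) (Rt : ℝ) (yt : ℂ) (κ r r₂ : ℝ) : Prop where
  stub : 𝔇.t.StubP (dlsPos Y) (pvwSq zt Rt) 𝔇.col
  bw : pvasBW T 𝔇.col 𝔇.t.dp
  tip : ‖(T.src (𝔇.t.ep 𝔇.t.np) : ℂ) - yt‖ ≤ κ ∧ ‖(T.tgt (𝔇.t.ep 𝔇.t.np) : ℂ) - yt‖ ≤ κ
  late : ∃ i₀, i₀ ≤ 𝔇.t.np ∧ (∀ i, i₀ ≤ i → i ≤ 𝔇.t.np → ‖(T.src (𝔇.t.ep i) : ℂ) - yt‖ ≤ r) ∧
    ∀ i, i < i₀ → r₂ < ‖(T.src (𝔇.t.ep i) : ℂ) - yt‖ ∧ r₂ < ‖(T.tgt (𝔇.t.ep i) : ℂ) - yt‖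

/-- **WHAT THE HOOK READS OF THE ENTRANCE STUB `Σ⁻(s)`**.      From `PvwDat.Ok`: `pvhw_in_of_ok`. -/
structure PvhwIn {D : Type} {T : PvMap ↥Y D} (𝔇 : PvwDat T) (zs : ℂ) (Rs : ℝ) (ys : ℂ) (κ r r₂ : ℝ) : Prop where
  stub : 𝔇.s.StubM (dlsPos Y) (pvwSq zs Rs) 𝔇.col
  bw : pvasBW T 𝔇.col 𝔇.s.dm
  tip : ‖(T.src (𝔇.s.em 𝔇.s.nm) : ℂ) - ys‖ ≤ κ ∧ ‖(T.tgt (𝔇.s.em 𝔇.s.nm) : ℂ) - ys‖ ≤ κ
  late : ∃ i₀, i₀ ≤ 𝔇.s.nm ∧ (∀ i, i₀ ≤ i → i ≤ 𝔇.s.nm → ‖(T.src (𝔇.s.em i) : ℂ) - ys‖ ≤ r) ∧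
    ∀ i, i < i₀ → r₂ < ‖(T.src (𝔇.s.em i) : ℂ) - ys‖ ∧ r₂ < ‖(T.tgt (𝔇.s.em i) : ℂ) - ys‖

/-- **THE HOOKED LANE FITS THE DATUM** (Delaunay map).   Boxes `pvwSq zt Rt`, `pvwSq zs Rs`;   `yt`, `ys` = the centres of the two mouths (tip cells);   `ζt`, `ζs` = the sides of the boxes through which the two stubs leave;
`κ` = radius of the tip darts round the centres, `δ` = mesh, `r` = radius of the mouths, `r₁ ≥ r₂` = inner mouths;   `X` = sites of the lane, `a`, `b` = its ends. -/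
structure PvhwFit {D : Type} {T : PvMap ↥Y D} (𝔇 : PvwDat T) (zt zs : ℂ) (Rt Rs : ℝ) (yt ys ζt ζs : ℂ) (κ δ r r₁ r₂ : ℝ) (X : Set Y) (a b : Y) : Prop where
  dir_t : ζt ∈ pvtzdDir
  dir_s : ζs ∈ pvtzdDir
  /-- the tip apexes are beyond the sides `ζt`, `ζs` -/
  out_t : Rt + (ζt * zt).re < (ζt * (𝔇.t.ap : ℂ)).re
  out_s : Rs + (ζs * zs).re < (ζs * (𝔇.s.am : ℂ)).re
  mesh_pos : 0 < δ
  mesh_t : VorDense Y (closedBall yt (r + 3 * δ)) δ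
  mesh_s : VorDense Y (closedBall ys (r + 3 * δ)) δ
  num1 : 3 * r₁ + 2 * δ ≤ r
  num2 : r₂ ≤ r₁
  num3 : κ + 2 * δ ≤ r₁
  /-- the gate edges are far from the mouths -/
  far_t : r + 4 * δ ≤ ‖(T.tgt 𝔇.t.dp : ℂ) - yt‖
  far_s : r + 4 * δ ≤ ‖(T.src 𝔇.s.dm : ℂ) - ys‖
  sep : 2 * r₂ < ‖yt - ys‖
  door_t : PvhwDoor (fun v => ζt * dlsPos Y v) (ζt * yt) (Rt + (ζt * zt).re) (κ + 2 * δ) (2 * δ) r₂ (-1) X
  door_s : PvhwDoor (fun v => ζs * dlsPos Y v) (ζs * ys) (Rs + (ζs * zs).re) (κ + 2 * δ) (2 * δ) r₂ 1 X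
  /-- the lane meets the banks of a stub only in its inner mouth -/
  ex_t : ∀ v ∈ X, v ∈ 𝔇.t.bkP ∪ 𝔇.t.whP → ‖(v : ℂ) - yt‖ ≤ r₂
  ex_s : ∀ v ∈ X, v ∈ 𝔇.s.bkM ∪ 𝔇.s.whM → ‖(v : ℂ) - ys‖ ≤ r₂
  join : T.Join Set.univ X a b
  /-- the lane starts outside the box of `t`, ABOVE the ray (black side) -/
  start : Rt + (ζt * zt).re < (ζt * a).re ∧ ‖(a : ℂ) - yt‖ ≤ r₂ ∧ κ + 2 * δ < (ζt * a).im - (ζt * yt).im
  /-- the lane ends outside the box of `s`, BELOW the ray (black side) -/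
  stop : Rs + (ζs * zs).re < (ζs * b).re ∧ ‖(b : ℂ) - ys‖ ≤ r₂ ∧ κ + 2 * δ < (ζs * ys).im - (ζs * b).im
  fz : ∀ v ∈ X, v ∈ 𝔇.fz → v ∈ 𝔇.t.bkP ∪ 𝔇.t.whP ∪ (𝔇.s.bkM ∪ 𝔇.s.whM)

section fit

variable {h : DelGood Y} {𝔇 : PvwDat (delMap h)} {zt zs : ℂ} {Rt Rs : ℝ} {yt ys ζt ζs : ℂ} {κ δ r r₁ r₂ : ℝ} {X : Set Y} {a b : Y}

/-- **HOOK-DET FOR `WO` ON THE DELAUNAY MAP**: a hooked lane which fits the datum is a `PvhwLane` -/
theorem PvhwFit.lane (F : PvhwFit 𝔇 zt zs Rt Rs yt ys ζt ζs κ δ r r₁ r₂ X a b) (Ot : PvhwOut 𝔇 zt Rt yt κ r r₂) (Is : PvhwIn 𝔇 zs Rs ys κ r r₂) : PvhwLane 𝔇 X a b := by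
  have hδ := F.mesh_pos
  have hκ0 : 0 ≤ κ := (norm_nonneg _).trans Ot.tip.1
  have hr1 : 0 ≤ r₁ := by linarith [F.num3]
  have hr0 : 0 ≤ r := by linarith [F.num1]
  have hκr : κ ≤ r := by linarith [F.num1, F.num3]
  have hζt := pvtzd_dir_norm F.dir_t
  have hζs := pvtzd_dir_norm F.dir_s
  have hζt0 : ζt ≠ 0 := fun e => by rw [e, norm_zero] at hζt; exact zero_ne_one hζt
  have hζs0 : ζs ≠ 0 := fun e => by rw [e, norm_zero] at hζs; exact zero_ne_one hζs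
  have ht := Ot.stub
  have hs := Is.stub
  have hbt := Ot.bw
  have hbs := Is.bw
  -- the exit tip
  obtain ⟨Mt, hMt⟩ := dlc_at h hr0 hδ F.mesh_t (by linarith : r + 3 * δ < r + 4 * δ)
  obtain ⟨i₀, hi₀, hnr, hfar⟩ := Ot.late
  obtain ⟨t3, -⟩ := pvhw_tip_near h hδ (fun w hw => F.mesh_t w (closedBall_subset_closedBall (by linarith) hw)) (𝔇.t.ep 𝔇.t.np) Ot.tip.1 Ot.tip.2 hκr
  have hit : ∀ k, k ≤ 𝔇.t.np → pvasIt (delMap h) 𝔇.col 𝔇.t.dp k = 𝔇.t.ep k := fun k hk => (ht.ep_it k hk).symm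
  have Et : PvtzExit (delMap h) (fun v => ζt * dlsPos Y v) 𝔇.col 𝔇.t.dp 𝔇.t.np Mt (Rt + (ζt * zt).re) := by
    refine ⟨hMt.fin, pvtzd_geo h Mt.Left hζt0, hbt, fun hmem => ?_, ?_, fun k hk => ?_, ?_⟩
    · have := hMt.out _ ⟨(delMap h).opp 𝔇.t.dp, hmem, rfl⟩
      rw [(delMap h).src_opp'] at this
      exact absurd F.far_t (not_le.2 this)
    · rw [hit _ le_rfl]; exact hMt.inn _ (hnr _ hi₀ le_rfl) _ rfl
    · rw [hit k hk]; exact ⟨pvtzd_sq_le F.dir_t (ht.ep_in k hk).1, pvtzd_sq_le F.dir_t (ht.ep_in k hk).2⟩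
    · rw [hit _ le_rfl]; exact F.out_t
  obtain ⟨χ, u, β, S, hW, hA⟩ := pvhw_exit h hζt Et hMt hδ F.num1 (fun w hw => F.mesh_t w (closedBall_subset_closedBall (by linarith) hw)) F.num3 F.num2
    (by rw [hit _ le_rfl]; exact Ot.tip.1.trans (by linarith)) (by rw [hit _ le_rfl]; exact Ot.tip.2.trans (by linarith)) (by rw [hit _ le_rfl]; exact t3) F.door_t
    (fun v hv hE => F.ex_t v hv (by rw [pvwk_bkP_eq ht, pvwk_whP_eq ht]; exact hE)) hi₀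
    (fun k h1 h2 => by rw [hit k h2.le]; exact hMt.inn _ (hnr k h1 h2.le) _ rfl)
    (fun k hk => by rw [hit k (hk.le.trans hi₀)]; exact hfar k hk)
  -- the entrance tip
  obtain ⟨Ms, hMs⟩ := dlc_at h hr0 hδ F.mesh_s (by linarith : r + 3 * δ < r + 4 * δ)
  obtain ⟨j₀, hj₀, hnr', hfar'⟩ := Is.late
  obtain ⟨-, s3⟩ := pvhw_tip_near h hδ (fun w hw => F.mesh_s w (closedBall_subset_closedBall (by linarith) hw)) (𝔇.s.em 𝔇.s.nm) Is.tip.1 Is.tip.2 hκr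
  have hit' : ∀ k, k ≤ 𝔇.s.nm → pvasIt (delMap h) 𝔇.col (𝔇.s.em 𝔇.s.nm) k = 𝔇.s.em (𝔇.s.nm - k) := fun k hk => pvwk_em_fwd hs hbs hk
  have Es : PvtzEnt (delMap h) (fun v => ζs * dlsPos Y v) 𝔇.col (𝔇.s.em 𝔇.s.nm) 𝔇.s.nm Ms (Rs + (ζs * zs).re) := by
    refine ⟨hMs.fin, pvtzd_geo h Ms.Left hζs0, pvwk_em_bw hs hbs le_rfl, fun hmem => ?_, ?_, fun k hk => ?_, F.out_s⟩
    · rw [pvwk_em_fwd_end hs hbs] at hmem
      exact absurd F.far_s (not_le.2 (hMs.out _ ⟨_, hmem, rfl⟩))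
    · exact hMs.inn ((delMap h).tgt (𝔇.s.em 𝔇.s.nm)) (Is.tip.2.trans hκr) _ ((delMap h).src_opp' _)
    · rw [hit' k hk]; exact ⟨pvtzd_sq_le F.dir_s (hs.em_in _ (Nat.sub_le _ _)).1, pvtzd_sq_le F.dir_s (hs.em_in _ (Nat.sub_le _ _)).2⟩
  obtain ⟨χ', u', β', S', hW', hB⟩ := pvhw_ent h hζs Es hMs hδ F.num1 (fun w hw => F.mesh_s w (closedBall_subset_closedBall (by linarith) hw)) F.num3 F.num2
    (Is.tip.1.trans (by linarith)) (Is.tip.2.trans (by linarith)) s3 F.door_s (fun v hv hE => F.ex_s v hv (by rw [pvhw_bkM_eq 𝔇.s hs hbs, pvhw_whM_eq 𝔇.s hs hbs]; exact hE)) (m := 𝔇.s.nm - j₀) (Nat.sub_le _ _)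
    (fun k hk => by rw [hit' k (by omega)]; exact hMs.inn _ (hnr' _ (by omega) (Nat.sub_le _ _)) _ rfl)
    (fun k hk1 hk2 => by rw [hit' k hk2]; exact hfar' (𝔇.s.nm - k) (by omega))
  refine ⟨⟨Mt.Left, Ms.Left, χ, χ', u, u', _, _, β, β', S, S', fun v hv hv' => ?_, hW, hW', F.start.2.1, hA a F.start.1 F.start.2.1 F.start.2.2, F.stop.2.1, hB b F.stop.1 F.stop.2.1 F.stop.2.2⟩, F.join, F.fz⟩
  have hv1 : ‖yt - (v : ℂ)‖ ≤ r₂ := by rw [norm_sub_rev]; exact hv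
  have := pvhw_tri hv1 hv'
  linarith [F.sep]

/-- **HOOK-DET ⇒ `WO2` ON THE DELAUNAY MAP, ONE STOP** -/
theorem PvhwFit.WO2 (F : PvhwFit 𝔇 zt zs Rt Rs yt ys ζt ζs κ δ r r₁ r₂ X a b) (Ot : PvhwOut 𝔇 zt Rt yt κ r r₂) (Is : PvhwIn 𝔇 zs Rs ys κ r r₂)
    {K : Set Y} {σ : Y → Bool} (hσ : ∀ v ∈ X, v ∉ 𝔇.fz → σ v = false) (hK : ∀ v ∈ X, v ∉ 𝔇.fz → v ∉ K) : 𝔇.WO2 K σ := by
  have : Nonempty (DelDart h) := ⟨𝔇.t.dp⟩
  exact (F.lane Ot Is).WO2 Ot.stub Is.stub Is.bw hσ hK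

/-- **HOOK-DET ⇒ `WO` ON THE DELAUNAY MAP, ONE STOP** -/
theorem PvhwFit.WO (F : PvhwFit 𝔇 zt zs Rt Rs yt ys ζt ζs κ δ r r₁ r₂ X a b) (Ot : PvhwOut 𝔇 zt Rt yt κ r r₂) (Is : PvhwIn 𝔇 zs Rs ys κ r r₂)
    {π : PvwPat} (hπ : π.Wf) {σ : Y → Bool} (hσ : ∀ v ∈ X, v ∉ 𝔇.fz → σ v = false) (hY : ∀ v ∈ X, v ∉ 𝔇.fz → (v : ℂ) ∈ π.Yout) : 𝔇.WO (dlsPos Y) π σ := by
  have : Nonempty (DelDart h) := ⟨𝔇.t.dp⟩
  exact (F.lane Ot Is).WO Ot.stub Is.stub Is.bw hπ hσ hY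

end fit

/-- the same for any presentation of the Delaunay plane (`P := delbPl Y`, `hP := delb_pl_eq h` for the map of the model) -/
theorem PvhwFit.WO_pl (h : DelGood Y) {P : PlTri ↥Y} (hP : P = delPl h) {𝔇 : PvwDat P.toMap} {zt zs : ℂ} {Rt Rs : ℝ} {yt ys ζt ζs : ℂ} {κ δ r r₁ r₂ : ℝ} {X : Set Y} {a b : Y}
    (F : PvhwFit 𝔇 zt zs Rt Rs yt ys ζt ζs κ δ r r₁ r₂ X a b) (Ot : PvhwOut 𝔇 zt Rt yt κ r r₂) (Is : PvhwIn 𝔇 zs Rs ys κ r r₂)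
    {π : PvwPat} (hπ : π.Wf) {σ : Y → Bool} (hσ : ∀ v ∈ X, v ∉ 𝔇.fz → σ v = false) (hY : ∀ v ∈ X, v ∉ 𝔇.fz → (v : ℂ) ∈ π.Yout) : 𝔇.WO (dlsPos Y) π σ := by
  subst hP
  exact PvhwFit.WO (h := h) F Ot Is hπ hσ hY

theorem PvhwFit.WO2_pl (h : DelGood Y) {P : PlTri ↥Y} (hP : P = delPl h) {𝔇 : PvwDat P.toMap} {zt zs : ℂ} {Rt Rs : ℝ} {yt ys ζt ζs : ℂ} {κ δ r r₁ r₂ : ℝ} {X : Set Y} {a b : Y}
    (F : PvhwFit 𝔇 zt zs Rt Rs yt ys ζt ζs κ δ r r₁ r₂ X a b) (Ot : PvhwOut 𝔇 zt Rt yt κ r r₂) (Is : PvhwIn 𝔇 zs Rs ys κ r r₂)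
    {K : Set Y} {σ : Y → Bool} (hσ : ∀ v ∈ X, v ∉ 𝔇.fz → σ v = false) (hK : ∀ v ∈ X, v ∉ 𝔇.fz → v ∉ K) : 𝔇.WO2 K σ := by
  subst hP
  exact PvhwFit.WO2 (h := h) F Ot Is hσ hK

/-! ## 7. the REGION form: inequalities on the region `R` of the hooked corridor only -/

/-- the door in terms of the REGION `R` of the lane (picture rotated by `ζ`) -/
structure PvhwDoorR (ζ c : ℂ) (xB κ μ r₂ ε : ℝ) (R : Set ℂ) : Prop where
  front : ∀ w ∈ R, ‖w - c‖ ≤ r₂ + μ → (ζ * w).re ≤ xB ∨ κ + μ < |(ζ * w).im - (ζ * c).im|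
  collar : ∀ w ∈ R, r₂ - μ < ‖w - c‖ → ‖w - c‖ ≤ r₂ → xB < (ζ * w).re ∧ κ < ε * ((ζ * w).im - (ζ * c).im)

theorem PvhwDoorR.door {ζ c : ℂ} {xB κ μ r₂ ε : ℝ} {R : Set ℂ} (hζ : ‖ζ‖ = 1) (hR : PvhwDoorR ζ c xB κ μ r₂ ε R) {X : Set Y} (hX : ∀ v ∈ X, (v : ℂ) ∈ R) :
    PvhwDoor (fun v => ζ * dlsPos Y v) (ζ * c) xB κ μ r₂ ε X := by
  refine ⟨fun v hv h1 => ?_, fun v hv h1 h2 => ?_⟩
  · rw [pvtzd_norm_mul hζ] at h1
    exact hR.front _ (hX v hv) h1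
  · rw [pvtzd_norm_mul hζ] at h1 h2
    exact hR.collar _ (hX v hv) h1 h2

/-- **THE HOOKED CORRIDOR, PURE GEOMETRY** (no sites, no datum, no colours).   `R` = region of the corridor, `x`, `y` = its two ends, `η` = precision with which the ends of the lane are known (`2 δ_c` for `PvkqDet` of 21). -/
structure PvhwReg (zt zs : ℂ) (Rt Rs : ℝ) (yt ys ζt ζs : ℂ) (κ δ r r₁ r₂ η : ℝ) (R : Set ℂ) (x y : ℂ) : Prop where
  dir_t : ζt ∈ pvtzdDir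
  dir_s : ζs ∈ pvtzdDir
  mesh_pos : 0 < δ
  num1 : 3 * r₁ + 2 * δ ≤ r
  num2 : r₂ ≤ r₁
  num3 : κ + 2 * δ ≤ r₁
  sep : 2 * r₂ < ‖yt - ys‖
  door_t : PvhwDoorR ζt yt (Rt + (ζt * zt).re) (κ + 2 * δ) (2 * δ) r₂ (-1) R
  door_s : PvhwDoorR ζs ys (Rs + (ζs * zs).re) (κ + 2 * δ) (2 * δ) r₂ 1 R
  /-- the corridor meets a box only in the inner mouth -/
  box_t : ∀ w ∈ R, w ∈ pvwSq zt Rt → ‖w - yt‖ ≤ r₂
  box_s : ∀ w ∈ R, w ∈ pvwSq zs Rs → ‖w - ys‖ ≤ r₂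
  /-- the first end: outside the box of `t`, ABOVE the ray (black side) -/
  start : ∀ w, ‖w - x‖ < η → Rt + (ζt * zt).re < (ζt * w).re ∧ ‖w - yt‖ ≤ r₂ ∧ κ + 2 * δ < (ζt * w).im - (ζt * yt).im
  /-- the last end: outside the box of `s`, BELOW the ray (black side) -/
  stop : ∀ w, ‖w - y‖ < η → Rs + (ζs * zs).re < (ζs * w).re ∧ ‖w - ys‖ ≤ r₂ ∧ κ + 2 * δ < (ζs * ys).im - (ζs * w).im

/-- **WHAT THE HOOK READS OF THE SITES AND OF THE DATUM** besides the two stubs -/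
structure PvhwDat {D : Type} {T : PvMap ↥Y D} (𝔇 : PvwDat T) (zt zs : ℂ) (Rt Rs : ℝ) (yt ys ζt ζs : ℂ) (δ r : ℝ) (R : Set ℂ) : Prop where
  out_t : Rt + (ζt * zt).re < (ζt * (𝔇.t.ap : ℂ)).re
  out_s : Rs + (ζs * zs).re < (ζs * (𝔇.s.am : ℂ)).re
  mesh_t : VorDense Y (closedBall yt (r + 3 * δ)) δ
  mesh_s : VorDense Y (closedBall ys (r + 3 * δ)) δ
  far_t : r + 4 * δ ≤ ‖(T.tgt 𝔇.t.dp : ℂ) - yt‖
  far_s : r + 4 * δ ≤ ‖(T.src 𝔇.s.dm : ℂ) - ys‖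
  fz : ∀ v : Y, (v : ℂ) ∈ R → v ∈ 𝔇.fz → v ∈ 𝔇.t.bkP ∪ 𝔇.t.whP ∪ (𝔇.s.bkM ∪ 𝔇.s.whM)

/-- region + datum + a lane inside the region between sites near the two ends ⟹ `PvhwFit` -/
theorem PvhwReg.fit {D : Type} {T : PvMap ↥Y D} {𝔇 : PvwDat T} {zt zs : ℂ} {Rt Rs : ℝ} {yt ys ζt ζs : ℂ} {κ δ r r₁ r₂ η : ℝ} {R : Set ℂ} {x y : ℂ}
    (G : PvhwReg zt zs Rt Rs yt ys ζt ζs κ δ r r₁ r₂ η R x y) (H : PvhwDat 𝔇 zt zs Rt Rs yt ys ζt ζs δ r R) (Ot : PvhwOut 𝔇 zt Rt yt κ r r₂) (Is : PvhwIn 𝔇 zs Rs ys κ r r₂)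
    {X : Set Y} (hX : ∀ v ∈ X, (v : ℂ) ∈ R) {a b : Y} (ha : ‖(a : ℂ) - x‖ < η) (hb : ‖(b : ℂ) - y‖ < η) (hj : T.Join Set.univ X a b) :
    PvhwFit 𝔇 zt zs Rt Rs yt ys ζt ζs κ δ r r₁ r₂ X a b where
  dir_t := G.dir_t
  dir_s := G.dir_s
  out_t := H.out_t
  out_s := H.out_s
  mesh_pos := G.mesh_pos
  mesh_t := H.mesh_t
  mesh_s := H.mesh_s
  num1 := G.num1
  num2 := G.num2
  num3 := G.num3
  far_t := H.far_t
  far_s := H.far_s
  sep := G.sep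
  door_t := G.door_t.door (pvtzd_dir_norm G.dir_t) hX
  door_s := G.door_s.door (pvtzd_dir_norm G.dir_s) hX
  ex_t := fun v hv hb => G.box_t _ (hX v hv) (pvwk_banksP_in Ot.stub hb)
  ex_s := fun v hv hb => G.box_s _ (hX v hv) (pvwk_banksM_in Is.stub hb)
  join := hj
  start := G.start _ ha
  stop := G.stop _ hb
  fz := fun v hv => H.fz v (hX v hv)

/-- **the side through which a stub leaves is determined by the tip cell, off the corners**: a point off the square, within `κ'` of `yt`, when `B(yt, κ')` stays inside the three other sides -/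
theorem pvhw_dir {zt yt ζt w : ℂ} {Rt κ' : ℝ} (hζ : ζt ∈ pvtzdDir) (hside : ∀ ζ ∈ pvtzdDir, ζ ≠ ζt → (ζ * yt).re + κ' ≤ Rt + (ζ * zt).re) (hw : w ∉ pvwSq zt Rt) (hd : ‖w - yt‖ ≤ κ') :
    Rt + (ζt * zt).re < (ζt * w).re := by
  obtain ⟨ζ, h1, h2⟩ := pvtzd_sq_out (zc := zt) (r := Rt) hw
  by_cases e : ζ = ζt
  · rw [← e]; exact h2
  · exfalso
    have h3 := hside ζ h1 e
    have h4 : (ζ * w).re - (ζ * yt).re ≤ κ' := by
      have := Complex.re_le_norm (ζ * w - ζ * yt)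
      rw [pvtzd_norm_mul (pvtzd_dir_norm h1), Complex.sub_re] at this
      exact this.trans hd
    linarith

/-! ## 8. adaptors to `PvwDat.Ok` (`Tr/Defs` v3: centres `π.tt.cp hh π.zt`, `π.ts.cm hh π.zs`, tip darts within `ρ h / 4`) -/

section ok

variable {D : Type} {T : PvMap ↥Y D} {𝔇 : PvwDat T} {N : PvwNum} {hh : ℝ} {π : PvwPat}

theorem pvhw_out_of_ok (hOk : 𝔇.Ok (dlsPos Y) N hh π) {r r₂ : ℝ} (hr : N.rho2 * hh ≤ r) (hr₂ : r₂ ≤ N.rho1 * hh / 2) :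
    PvhwOut 𝔇 π.zt (pvwRad N hh π.tt π.tt.k) (π.tt.cp hh π.zt) (N.rho * hh / 4) r r₂ := by
  obtain ⟨i₀, h1, h2, h3⟩ := hOk.st_t.good.late_p
  exact ⟨hOk.st_t.stub, hOk.st_t.gate.bw_p, hOk.st_t.good.tip_p, i₀, h1, fun i a b => (h2 i a b).1.le.trans hr, fun i a => ⟨lt_of_le_of_lt hr₂ (h3 i a).1, lt_of_le_of_lt hr₂ (h3 i a).2⟩⟩

theorem pvhw_in_of_ok (hOk : 𝔇.Ok (dlsPos Y) N hh π) {r r₂ : ℝ} (hr : N.rho2 * hh ≤ r) (hr₂ : r₂ ≤ N.rho1 * hh / 2) :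
    PvhwIn 𝔇 π.zs (pvwRad N hh π.ts π.ts.k) (π.ts.cm hh π.zs) (N.rho * hh / 4) r r₂ := by
  obtain ⟨i₀, h1, h2, h3⟩ := hOk.st_s.good.late_m
  exact ⟨hOk.st_s.stub, hOk.st_s.gate.bw_m, hOk.st_s.good.tip_m, i₀, h1, fun i a b => (h2 i a b).1.le.trans hr, fun i a => ⟨lt_of_le_of_lt hr₂ (h3 i a).1, lt_of_le_of_lt hr₂ (h3 i a).2⟩⟩

end ok

/-- **THE HOOKED CORRIDOR AND THE PATTERN, PURE GEOMETRY** (what is needed besides `PvhwReg` to read `PvhwDat` from `PvwDat.Ok`): the tip cells are off the corners, the mouths are far from the gates, the corridor is off the two discs, inside `Yout`, with a collar inside `Yreg` -/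
structure PvhwRegOk (N : PvwNum) (hh : ℝ) (π : PvwPat) (ζt ζs : ℂ) (δ r : ℝ) (R : Set ℂ) : Prop where
  side_t : ∀ ζ ∈ pvtzdDir, ζ ≠ ζt → (ζ * π.tt.cp hh π.zt).re + (N.rho * hh / 4 + 2 * δ) ≤ pvwRad N hh π.tt π.tt.k + (ζ * π.zt).re
  side_s : ∀ ζ ∈ pvtzdDir, ζ ≠ ζs → (ζ * π.ts.cm hh π.zs).re + (N.rho * hh / 4 + 2 * δ) ≤ pvwRad N hh π.ts π.ts.k + (ζ * π.zs).re
  gate_t : r + 4 * δ + π.tt.b * hh ≤ ‖π.tt.cp hh π.zt - π.zt‖
  gate_s : r + 4 * δ + π.ts.b * hh ≤ ‖π.ts.cm hh π.zs - π.zs‖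
  core_t : ∀ w ∈ R, π.tt.b * hh ≤ ‖w - π.zt‖
  core_s : ∀ w ∈ R, π.ts.b * hh ≤ ‖w - π.zs‖
  out : R ⊆ π.Yout
  collar : ∀ w ∈ R, closedBall w (2 * δ) ⊆ π.Yreg

/-- **`PvhwDat` FROM `PvwDat.Ok`** + mesh `δ` on the two mouths and along the corridor -/
theorem pvhw_dat_of_ok (h : DelGood Y) {𝔇 : PvwDat (delMap h)} {N : PvwNum} {hh : ℝ} {π : PvwPat} (hOk : 𝔇.Ok (dlsPos Y) N hh π) (hπ : π.Wf) {ζt ζs : ℂ} {δ r : ℝ} {R : Set ℂ}
    (hζt : ζt ∈ pvtzdDir) (hζs : ζs ∈ pvtzdDir) (G : PvhwRegOk N hh π ζt ζs δ r R) (hδ : 0 < δ) (hκr : N.rho * hh / 4 ≤ r)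
    (mesh_t : VorDense Y (closedBall (π.tt.cp hh π.zt) (r + 3 * δ)) δ) (mesh_s : VorDense Y (closedBall (π.ts.cm hh π.zs) (r + 3 * δ)) δ) (mesh_R : ∀ w ∈ R, VorDense Y (closedBall w (2 * δ)) δ) :
    PvhwDat 𝔇 π.zt π.zs (pvwRad N hh π.tt π.tt.k) (pvwRad N hh π.ts π.ts.k) (π.tt.cp hh π.zt) (π.ts.cm hh π.zs) ζt ζs δ r R := by
  have hT := dls_isSph h
  obtain ⟨t3, -⟩ := pvhw_tip_near h hδ (fun w hw => mesh_t w (closedBall_subset_closedBall (by linarith) hw)) (𝔇.t.ep 𝔇.t.np) hOk.st_t.good.tip_p.1 hOk.st_t.good.tip_p.2 hκr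
  obtain ⟨-, s3⟩ := pvhw_tip_near h hδ (fun w hw => mesh_s w (closedBall_subset_closedBall (by linarith) hw)) (𝔇.s.em 𝔇.s.nm) hOk.st_s.good.tip_m.1 hOk.st_s.good.tip_m.2 hκr
  refine ⟨pvhw_dir hζt G.side_t hOk.st_t.stub.ep_out t3, pvhw_dir hζs G.side_s hOk.st_s.stub.em_out s3, mesh_t, mesh_s, ?_, ?_, fun v hvR hv => ?_⟩
  · have h1 := hOk.st_t.gate.inside _ (pvwk_gate_ends hT hOk.st_t.gate).2.1
    have h2 : ‖π.tt.cp hh π.zt - π.zt‖ ≤ ‖((delMap h).tgt 𝔇.t.dp : ℂ) - π.tt.cp hh π.zt‖ + π.tt.b * hh :=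
      pvhw_tri (b := ((delMap h).tgt 𝔇.t.dp : ℂ)) (by rw [norm_sub_rev]) h1.le
    linarith [G.gate_t]
  · have h1 := hOk.st_s.gate.inside _ (pvwk_gate_ends hT hOk.st_s.gate).2.2.1
    have h2 : ‖π.ts.cm hh π.zs - π.zs‖ ≤ ‖((delMap h).src 𝔇.s.dm : ℂ) - π.ts.cm hh π.zs‖ + π.ts.b * hh :=
      pvhw_tri (b := ((delMap h).src 𝔇.s.dm : ℂ)) (by rw [norm_sub_rev]) h1.le
    linarith [G.gate_s]
  · rcases hv with ((((hc | hb) | hw) | ((hc | hb) | hw)) | hg) | ha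
    · exfalso
      have : v ∈ 𝔇.t.dsc := hc
      rw [hOk.st_t.gate.dsc_eq] at this
      exact absurd (G.core_t _ hvR) (not_le.2 this)
    · exact Or.inl (Or.inl hb)
    · exact Or.inl (Or.inr hw)
    · exfalso
      have : v ∈ 𝔇.s.dsc := hc
      rw [hOk.st_s.gate.dsc_eq] at this
      exact absurd (G.core_s _ hvR) (not_le.2 this)
    · exact Or.inr (Or.inl hb)
    · exact Or.inr (Or.inr hw)
    · exact absurd (hπ.out_sub (G.out hvR)) (hOk.off v hg)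
    · exfalso
      obtain ⟨i, hi, rfl⟩ := ha
      have hs := pvhw_short h hδ (c := (((delMap h).apex ((delMap h).opp (𝔇.g.e i)) : Y) : ℂ)) (R := 0) (by rw [zero_add]; exact mesh_R _ hvR)
        ((delMap h).nxt ((delMap h).nxt ((delMap h).opp (𝔇.g.e i)))) (by rw [(delMap h).src_nxt2, sub_self, norm_zero])
      rw [(delMap h).src_nxt2, (delMap h).tgt_nxt2, (delMap h).src_opp', 𝔇.g.tgt_e i hi] at hs
      refine hOk.off (𝔇.g.v (i + 1)) ⟨i + 1, hi, rfl⟩ (G.collar _ hvR ?_)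
      rw [mem_closedBall, dist_eq_norm, norm_sub_rev]
      exact hs

end del

end Claimed.Agent.R289
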