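-- KEEP
import Claimed.Agent.R289.Tr.HookW

/-!
# Row 289 (S0537, Cardy for Poisson-Voronoi), box TR, ROAD E, HOOK-DET, file Tr/HookWC : THE OUTER WHITE LANE AT ALL TIP CELLS, CORNERS INCLUDED: NO SIDE BIT      (owner helper53; prefix `pvhw_`, `Pvhw`, names ending in `C`)

THE PROBLEM.   The ray of the tip potential of 23 (`Tr/Tip`, `Tr/TipDel`) is parallel to an axis: its direction `ζ` = a side of the box beyond which the tip APEX lies; `pvtzd_exit / _ent` evaluate the potential only BEYOND THAT SIDE.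
Off the corners `ζ` is a function of the tip cell (`pvhw_dir`); at a corner cell it is read on the datum, and the criteria of `Tr/HookW` (`PvhwDoor`: "outside the box" = "beyond the side `ζ`") cannot hold for both sides with one region.
THE CURE.   **`pvhw_eval_ext`**: the formula `u y = β₀ + 1[im (ζ y) ≤ im z]` holds at EVERY site `y` of the inner mouth which is OUTSIDE THE BOX (through any side) and OFF THE STRIP `|im (ζ y) - im (ζ c)| ≤ κ` of the ray.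
(A site beyond the north side, above the strip, is joined to a site of the NE quadrant through sites above `max (yN, im z)`: unexplored, off the slit by `pvtz_chi_high`; `pvtzd_join` of 23 in the direction `-i ζ`.   South: mirror.   The opposite side is too far.)
So ONE region serves both sides of a corner.   At a NE corner, exit tip: black end of the C north of the box, WEST of the north strip, ABOVE the east strip;   white end east of the box, BELOW the east strip, EAST of the north strip;   the C runs NW, W, SW, S, SE through the box.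
NOBODY HAS TO KNOW THE SIDE: `PvhwRegC` asks a door `PvhwDoorRC ζ …` for every side `ζ` which passes within `κ + 2 δ` of the centre of the tip cell (one side off the corners, two at a corner).

* sec. 1  the four directions: `pvhw_dir_cases`, `pvhw_dir_rot`, `pvhw_re_rotN`, `pvhw_re_rotS`
* sec. 2  `pvhw_site_at`, **`pvhw_eval_ext`**      (23: usable in `Tr/HookY` verbatim, both tips: `β₀ = u (black tip vertex)` at an exit tip, `u (white tip vertex)` at an entrance tip)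
* sec. 3  `PvhwDoorC` (collar: in `O` = outside the box), `PvhwDoorC.slit`, **`PvhwDoorC.side`**, `pvhw_startC`
* sec. 4  `pvhw_exitC`, `pvhw_entC`
* sec. 5  `PvhwFitC`, **`PvhwFitC.lane`**, `.WO2`, `.WO`
* sec. 6  REGION FORM: `PvhwDoorRC`, **`PvhwRegC`** (pure geometry, no side), `PvhwDatC`, **`PvhwRegC.fit`**, `PvhwRegOkC`, **`pvhw_datC_of_ok`**
THE CONTRACT `PvheHookW` in this form: `pvhw_contractC`, `pvhw_contractC_ok`, `pvhw_hqC` in `Tr/HookWE.lean`.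
-/

set_option autoImplicit false
set_option linter.unusedSectionVars false
set_option linter.unusedVariables false

namespace Claimed.Agent.R289

open Metric Set

/-! ## 1. the four directions -/

theorem pvhw_dir_cases {ζ ζ' : ℂ} (h : ζ ∈ pvtzdDir) (h' : ζ' ∈ pvtzdDir) : ζ' = ζ ∨ ζ' = -ζ ∨ ζ' = -Complex.I * ζ ∨ ζ' = Complex.I * ζ := by
  have e1 : Complex.I * Complex.I = -1 := Complex.I_mul_I
  rcases h with rfl | rfl | rfl | rfl <;> rcases h' with rfl | rfl | rfl | rfl <;> simp [e1]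

theorem pvhw_dir_rot {ζ : ℂ} (h : ζ ∈ pvtzdDir) : -Complex.I * ζ ∈ pvtzdDir ∧ Complex.I * ζ ∈ pvtzdDir := by
  have e1 : Complex.I * Complex.I = -1 := Complex.I_mul_I
  rcases h with rfl | rfl | rfl | rfl <;> simp [pvtzdDir, e1]

theorem pvhw_re_rotN (ζ w : ℂ) : (-Complex.I * ζ * w).re = (ζ * w).im := by
  rw [mul_assoc]; simp [Complex.mul_re]

theorem pvhw_re_rotS (ζ w : ℂ) : (Complex.I * ζ * w).re = -(ζ * w).im := by
  rw [mul_assoc]; simp [Complex.mul_re]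

theorem pvhw_re_le {ζ : ℂ} (hζ : ‖ζ‖ = 1) {w c : ℂ} {κ : ℝ} (h : ‖w - c‖ ≤ κ) : |(ζ * w).re - (ζ * c).re| ≤ κ := by
  have := Complex.abs_re_le_norm (ζ * w - ζ * c)
  rw [pvtzd_norm_mul hζ, Complex.sub_re] at this
  exact this.trans h

/-! ## 2. the evaluation of the tip potential ROUND A CORNER -/

section eval

variable {Y : Set ℂ}

/-- a site near a prescribed point of the rotated picture -/
theorem pvhw_site_at {ζ : ℂ} (hζ : ‖ζ‖ = 1) {c : ℂ} {r δ : ℝ} (hd : VorDense Y (closedBall c r) δ) (a₀ b₀ : ℝ) (hr : |a₀| + |b₀| ≤ r) :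
    ∃ A : Y, (ζ * c).re + a₀ - δ ≤ (ζ * A).re ∧ |(ζ * A).im - ((ζ * c).im + b₀)| ≤ δ ∧ ‖(A : ℂ) - c‖ ≤ |a₀| + |b₀| + δ := by
  have hζ0 : ζ ≠ 0 := fun e => by rw [e, norm_zero] at hζ; exact zero_ne_one hζ
  set q : ℂ := ⟨a₀, b₀⟩ with hq
  set p₀ : ℂ := c + ζ⁻¹ * q with hp₀
  have e1 : ζ * p₀ = ζ * c + q := by rw [hp₀, mul_add, ← mul_assoc, mul_inv_cancel₀ hζ0, one_mul]
  have hqn : ‖q‖ ≤ |a₀| + |b₀| := Complex.norm_le_abs_re_add_abs_im q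
  have hpc : ‖p₀ - c‖ ≤ |a₀| + |b₀| := by
    rw [← pvtzd_norm_mul hζ, e1, add_sub_cancel_left]; exact hqn
  obtain ⟨A, hA, hAp⟩ := hd p₀ (by rw [mem_closedBall, dist_eq_norm]; exact hpc.trans hr)
  have hAp' : ‖A - p₀‖ ≤ δ := by rw [norm_sub_rev]; exact hAp
  have h1 := pvhw_re_le hζ hAp'
  have h2 := pvhw_im_le hζ hAp'
  rw [e1, Complex.add_re] at h1
  rw [e1, Complex.add_im] at h2
  refine ⟨⟨A, hA⟩, ?_, h2, ?_⟩
  · have := (abs_le.1 h1).1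
    show (ζ * c).re + a₀ - δ ≤ (ζ * A).re
    have hq1 : q.re = a₀ := rfl
    rw [hq1] at this
    linarith
  · have := pvhw_tri hAp' hpc
    show ‖A - c‖ ≤ _
    linarith

/-- **EVALUATION ROUND A CORNER**.   `hval` = the values of the tip potential beyond the side `ζ` of the box (`pvtzd_exit`, `pvtzd_ent` of 23).   Then the SAME formula holds at every site of the inner mouth `B(c, r₂)` which is OUTSIDE THE BOX and off the strip of the ray. -/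
theorem pvhw_eval_ext (h : DelGood Y) {ζ : ℂ} (hζ : ζ ∈ pvtzdDir) {s : Y → Bool} {d : DelDart h} {n : ℕ} {M : (delMap h).Cyc} {c zc z : ℂ} {Rk r r' r₁ r₂ δ κ : ℝ}
    (hM : PvaxAt (delMap h) (dlsPos Y) c r r' M) (hδ : 0 < δ) (hr : 3 * r₁ + 2 * δ ≤ r) (hd : VorDense Y (closedBall c r) δ) {u : Y → ZMod 2} {β₀ : ZMod 2}
    (hu : PvtzPot (delMap h) s d n M.Left (pvtzChi (delMap h) (fun v => ζ * dlsPos Y v) z) u) (hbox : ∀ v ∈ pvtzEx (delMap h) s d n, (v : ℂ) ∈ pvwSq zc Rk)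
    (hz2 : |z.im - (ζ * c).im| ≤ κ) (hval : ∀ y : Y, Rk + (ζ * zc).re < (ζ * y).re → ‖(y : ℂ) - c‖ ≤ r₁ → u y = β₀ + plI ((ζ * y).im ≤ z.im))
    (hp : ∃ p ∈ pvwSq zc Rk, ‖p - c‖ ≤ κ) (hadm : Rk + (ζ * zc).re < (ζ * c).re + κ) (hbig : κ + r₂ ≤ 2 * Rk) (hκ : κ ≤ r₂) (hroom : κ + r₂ + 5 * δ ≤ r₁) :
    ∀ y : Y, (y : ℂ) ∉ pvwSq zc Rk → ‖(y : ℂ) - c‖ ≤ r₂ → κ < |(ζ * y).im - (ζ * c).im| → u y = β₀ + plI ((ζ * y).im ≤ z.im) := by
  intro y hy hyr hys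
  have hζ1 := pvtzd_dir_norm hζ
  obtain ⟨p, hpB, hpc⟩ := hp
  have hκ0 : 0 ≤ κ := (norm_nonneg _).trans hpc
  have hr21 : r₂ ≤ r₁ := by linarith
  have hyre := abs_le.1 (pvhw_re_le hζ1 hyr)
  have hyim := abs_le.1 (pvhw_im_le hζ1 hyr)
  have hpre := abs_le.1 (pvhw_re_le hζ1 hpc)
  have hpim := abs_le.1 (pvhw_im_le hζ1 hpc)
  have hz2' := abs_le.1 hz2
  have hpE := pvtzd_sq_le hζ hpB
  -- the abscissa of the auxiliary site
  set a₀ : ℝ := Rk + (ζ * zc).re - (ζ * c).re + 2 * δ with ha₀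
  have ha₀' : |a₀| ≤ κ + 2 * δ := abs_le.2 ⟨by rw [ha₀]; linarith [hpre.1], by rw [ha₀]; linarith⟩
  obtain ⟨ζ', hζ', hout⟩ := pvtzd_sq_out (zc := zc) (r := Rk) hy
  rcases pvhw_dir_cases hζ hζ' with rfl | rfl | rfl | rfl
  · exact hval y hout (hyr.trans hr21)
  · exfalso
    simp only [neg_mul, Complex.neg_re] at hout
    linarith [hyre.1]
  · -- beyond the NORTH side
    rw [pvhw_re_rotN, pvhw_re_rotN] at hout
    have hpN := pvtzd_sq_le hζ' hpB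
    rw [pvhw_re_rotN, pvhw_re_rotN] at hpN
    have hup : κ < (ζ * y).im - (ζ * c).im := by
      rcases lt_abs.1 hys with h1 | h1
      · exact h1
      · exfalso; linarith [hpim.1]
    rw [pl_hx_I_neg (by rw [not_le]; linarith [hz2'.2]), add_zero]
    obtain ⟨A, hA1, hA2, hA3⟩ := pvhw_site_at hζ1 hd a₀ (r₂ + 2 * δ) (by
      rw [abs_of_nonneg (by linarith : (0 : ℝ) ≤ r₂ + 2 * δ)]; linarith)
    rw [abs_of_nonneg (by linarith : (0 : ℝ) ≤ r₂ + 2 * δ)] at hA3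
    have hA2' := abs_le.1 hA2
    have hAr : ‖(A : ℂ) - c‖ ≤ r₁ := by linarith
    have hAu : u A = β₀ := by
      rw [hval A (by rw [ha₀] at hA1; linarith) hAr, pl_hx_I_neg (by rw [not_le]; linarith [hz2'.2, hA2'.1]), add_zero]
    set x0 : ℝ := max (Rk + (ζ * zc).im) z.im with hx0
    have hJ := pvtzd_join h (pvtzd_dir_norm hζ') hM hδ (x0 := x0) (a := A) (y := y) (by
        rw [pvhw_re_rotN, hx0]; exact max_lt (by linarith [hA2'.1, hyim.2]) (by linarith [hz2'.2, hA2'.1])) (by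
        rw [pvhw_re_rotN, hx0]; exact max_lt hout (by linarith [hz2'.2])) hAr (hyr.trans hr21) hr hd
    by_contra hne
    obtain ⟨e, he1, he2, -, -⟩ := pvtz_land hu (fun x h1 h2 => by
      have g1 : x0 < (-Complex.I * ζ * dlsPos Y ((delMap h).src x)).re := h1
      have g2 : x0 < (-Complex.I * ζ * dlsPos Y ((delMap h).tgt x)).re := h2
      rw [pvhw_re_rotN] at g1 g2
      exact pvtz_chi_high (lt_of_le_of_lt (le_max_right _ _) g1) (lt_of_le_of_lt (le_max_right _ _) g2)) hJ (by rw [hAu]; exact hne)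
    have g1 : x0 < (-Complex.I * ζ * dlsPos Y e).re := he1
    have g2 := pvtzd_sq_le hζ' (hbox e he2)
    rw [pvhw_re_rotN] at g1
    rw [pvhw_re_rotN, pvhw_re_rotN] at g2
    have g3 : Rk + (ζ * zc).im ≤ x0 := le_max_left _ _
    have g4 : (ζ * dlsPos Y e).im = (ζ * (e : ℂ)).im := rfl
    linarith
  · -- beyond the SOUTH side
    rw [pvhw_re_rotS, pvhw_re_rotS] at hout
    have hpS := pvtzd_sq_le hζ' hpB
    rw [pvhw_re_rotS, pvhw_re_rotS] at hpS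
    have hdn : κ < -((ζ * y).im - (ζ * c).im) := by
      rcases lt_abs.1 hys with h1 | h1
      · exfalso; linarith [hpim.2]
      · exact h1
    rw [pl_hx_I_pos (by linarith [hz2'.1])]
    obtain ⟨A, hA1, hA2, hA3⟩ := pvhw_site_at hζ1 hd a₀ (-(r₂ + 2 * δ)) (by
      rw [abs_neg, abs_of_nonneg (by linarith : (0 : ℝ) ≤ r₂ + 2 * δ)]; linarith)
    rw [abs_neg, abs_of_nonneg (by linarith : (0 : ℝ) ≤ r₂ + 2 * δ)] at hA3
    have hA2' := abs_le.1 hA2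
    have hAr : ‖(A : ℂ) - c‖ ≤ r₁ := by linarith
    have hAu : u A = β₀ + 1 := by
      rw [hval A (by rw [ha₀] at hA1; linarith) hAr, pl_hx_I_pos (by linarith [hz2'.1, hA2'.2])]
    set x0 : ℝ := max (Rk + -(ζ * zc).im) (-z.im) with hx0
    have hJ := pvtzd_join h (pvtzd_dir_norm hζ') hM hδ (x0 := x0) (a := A) (y := y) (by
        rw [pvhw_re_rotS, hx0]; exact max_lt (by linarith [hA2'.2, hyim.1]) (by linarith [hz2'.1, hA2'.2])) (by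
        rw [pvhw_re_rotS, hx0]; exact max_lt hout (by linarith [hz2'.1])) hAr (hyr.trans hr21) hr hd
    by_contra hne
    obtain ⟨e, he1, he2, -, -⟩ := pvtz_land hu (fun x h1 h2 => by
      have g1 : x0 < (Complex.I * ζ * dlsPos Y ((delMap h).src x)).re := h1
      have g2 : x0 < (Complex.I * ζ * dlsPos Y ((delMap h).tgt x)).re := h2
      rw [pvhw_re_rotS] at g1 g2
      have g3 : -z.im ≤ x0 := le_max_right _ _
      exact pvtz_chi_low (by show (ζ * dlsPos Y ((delMap h).src x)).im ≤ z.im; linarith) (by show (ζ * dlsPos Y ((delMap h).tgt x)).im ≤ z.im; linarith)) hJ (by rw [hAu]; exact hne)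
    have g1 : x0 < (Complex.I * ζ * dlsPos Y e).re := he1
    have g2 := pvtzd_sq_le hζ' (hbox e he2)
    rw [pvhw_re_rotS] at g1
    rw [pvhw_re_rotS, pvhw_re_rotS] at g2
    have g3 : Rk + -(ζ * zc).im ≤ x0 := le_max_left _ _
    have g4 : (ζ * dlsPos Y e).im = (ζ * (e : ℂ)).im := rfl
    linarith

end eval

/-! ## 3. the door, corner form -/

section doorC

variable {V D : Type} {T : PvMap V D} {s : V → Bool} {d : D} {n : ℕ} {M : Set D} {u : V → ZMod 2} {X O : Set V} {β β₀ : ZMod 2} {P : V → ℂ} {C z : ℂ} {xB κ μ r₂ ε : ℝ}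

/-- **THE DOOR, CORNER FORM**: as `PvhwDoor`, but in the collar the lane is only asked to be in `O` (= OUTSIDE THE BOX, through any side) on the side `ε` of the strip of the ray -/
structure PvhwDoorC (P : V → ℂ) (C : ℂ) (xB κ μ r₂ ε : ℝ) (O X : Set V) : Prop where
  front : ∀ v ∈ X, ‖P v - C‖ ≤ r₂ + μ → (P v).re ≤ xB ∨ κ + μ < |(P v).im - C.im|
  collar : ∀ v ∈ X, r₂ - μ < ‖P v - C‖ → ‖P v - C‖ ≤ r₂ → v ∈ O ∧ κ < ε * ((P v).im - C.im)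

theorem PvhwDoorC.slit (hD : PvhwDoorC P C xB κ μ r₂ ε O X) (hz1 : xB < z.re) (hz2 : |z.im - C.im| ≤ κ) {x : D} (h1 : T.src x ∈ X) (h2 : T.tgt x ∈ X) (h3 : ‖P (T.src x) - C‖ ≤ r₂)
    (hlen : ‖P (T.src x) - P (T.tgt x)‖ ≤ μ) : pvtzChi T P z x = 0 := by
  have hμ : 0 ≤ μ := (norm_nonneg _).trans hlen
  have h4 : ‖P (T.tgt x) - C‖ ≤ r₂ + μ := by
    calc ‖P (T.tgt x) - C‖ = ‖(P (T.src x) - C) - (P (T.src x) - P (T.tgt x))‖ := by ring_nf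
      _ ≤ ‖P (T.src x) - C‖ + ‖P (T.src x) - P (T.tgt x)‖ := norm_sub_le _ _
      _ ≤ r₂ + μ := by linarith
  rcases hD.front _ h1 (by linarith) with e1 | e1
  · rcases hD.front _ h2 h4 with e2 | e2
    · exact pvtz_chi_west (by linarith) (by linarith)
    · rw [← pvtz_chi_sym P z x]
      exact pvtz_chi_strip (μ := μ) (by rw [T.src_opp', T.tgt_opp, norm_sub_rev]; exact hlen) (by rw [T.src_opp']; exact pvhw_strip hz2 e2)
  · exact pvtz_chi_strip hlen (pvhw_strip hz2 e1)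

theorem pvhw_abs_of_eps (hε : ε = 1 ∨ ε = -1) {t : ℝ} (h : κ < ε * t) : κ < |t| := by
  rcases hε with rfl | rfl
  · exact lt_of_lt_of_le (by linarith) (le_abs_self t)
  · exact lt_of_lt_of_le (by linarith) (neg_le_abs t)

/-- **`PvhwSide` FROM A DOOR, CORNER FORM**.   `hval` = the evaluation round a corner (`pvhw_eval_ext`). -/
theorem PvhwDoorC.side (hD : PvhwDoorC P C xB κ μ r₂ ε O X) (pot : PvtzPot T s d n M (pvtzChi T P z) u) (hM : ∀ x, ‖P (T.src x) - C‖ ≤ r₂ → x ∈ M)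
    (hshort : ∀ x, ‖P (T.src x) - C‖ ≤ r₂ → ‖P (T.src x) - P (T.tgt x)‖ ≤ μ) (hz1 : xB < z.re) (hz2 : |z.im - C.im| ≤ κ)
    (hval : ∀ y ∈ O, ‖P y - C‖ ≤ r₂ → κ < |(P y).im - C.im| → u y = β₀ + plI ((P y).im ≤ z.im)) (hEx : ∀ v ∈ X, v ∈ pvtzEx T s d n → ‖P v - C‖ ≤ r₂)
    (hβ : (ε = 1 ∧ β = β₀) ∨ (ε = -1 ∧ β = β₀ + 1)) : PvhwSide T s d n M (pvtzChi T P z) u X {v | ‖P v - C‖ ≤ r₂} β := by
  refine ⟨pot, hM, fun x h1 h2 h3 => hD.slit hz1 hz2 h1 h2 h3 (hshort x h3), hEx, fun x h1 h3 h2 h4 => ?_⟩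
  have hlen := hshort x h3
  have h5 : r₂ - μ < ‖P (T.src x) - C‖ := by
    have h4' : r₂ < ‖P (T.tgt x) - C‖ := not_le.1 h4
    have : ‖P (T.tgt x) - C‖ ≤ ‖P (T.src x) - C‖ + ‖P (T.src x) - P (T.tgt x)‖ := by
      calc ‖P (T.tgt x) - C‖ = ‖(P (T.src x) - C) - (P (T.src x) - P (T.tgt x))‖ := by ring_nf
        _ ≤ _ := norm_sub_le _ _
    linarith
  obtain ⟨e1, e2⟩ := hD.collar _ h1 h5 h3
  rw [hval _ e1 h3 (pvhw_abs_of_eps (hβ.elim (fun a => Or.inl a.1) fun a => Or.inr a.1) e2)]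
  rw [abs_le] at hz2
  rcases hβ with ⟨rfl, rfl⟩ | ⟨rfl, rfl⟩
  · rw [pl_hx_I_neg (by rw [not_le]; linarith [hz2.2]), add_zero]
  · rw [pl_hx_I_pos (by linarith [hz2.1])]

theorem pvhw_startC (hz2 : |z.im - C.im| ≤ κ) (hval : ∀ y ∈ O, ‖P y - C‖ ≤ r₂ → κ < |(P y).im - C.im| → u y = β₀ + plI ((P y).im ≤ z.im))
    (hβ : (ε = 1 ∧ β = β₀) ∨ (ε = -1 ∧ β = β₀ + 1)) {a : V} (h1 : a ∈ O) (h2 : ‖P a - C‖ ≤ r₂) (h3 : κ < -ε * ((P a).im - C.im)) : u a ≠ β := by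
  have h4 : κ < |(P a).im - C.im| := by
    rcases hβ with ⟨rfl, -⟩ | ⟨rfl, -⟩
    · exact lt_of_lt_of_le (by linarith) (neg_le_abs _)
    · exact lt_of_lt_of_le (by linarith) (le_abs_self _)
  rw [hval a h1 h2 h4]
  rw [abs_le] at hz2
  rcases hβ with ⟨rfl, rfl⟩ | ⟨rfl, rfl⟩
  · rw [pl_hx_I_pos (by linarith [hz2.1])]; exact pvhw_z2_succ_ne _
  · rw [pl_hx_I_neg (by rw [not_le]; linarith [hz2.2]), add_zero]; exact (pvhw_z2_succ_ne _).symm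

end doorC

/-! ## 4. the two tips in the Delaunay map, corner form -/

section delC

variable {Y : Set ℂ}

/-- the sites outside the box -/
def pvhwOff (Y : Set ℂ) (zc : ℂ) (Rk : ℝ) : Set ↥Y := {v | (v : ℂ) ∉ pvwSq zc Rk}

theorem pvhw_eqns_citeC : True := by
  have := @pvhwOff.eq_1
  trivial

/-- **EXIT TIP, DELAUNAY MAP, CORNER FORM** -/
theorem pvhw_exitC (h : DelGood Y) {ζ : ℂ} (hζ : ζ ∈ pvtzdDir) {s : Y → Bool} {d : DelDart h} {n : ℕ} {M : (delMap h).Cyc} {zc : ℂ} {Rk : ℝ}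
    (E : PvtzExit (delMap h) (fun v => ζ * dlsPos Y v) s d n M (Rk + (ζ * zc).re)) {c : ℂ} {r r' r₁ r₂ δ κ : ℝ} (hM : PvaxAt (delMap h) (dlsPos Y) c r r' M) (hδ : 0 < δ) (hr : 3 * r₁ + 2 * δ ≤ r)
    (hd : VorDense Y (closedBall c r) δ) (hκ : κ ≤ r₂) (hroom : κ + r₂ + 5 * δ ≤ r₁) (hbig : κ + r₂ ≤ 2 * Rk) (hbox : ∀ v ∈ pvtzEx (delMap h) s d n, (v : ℂ) ∈ pvwSq zc Rk)
    (h1 : ‖((delMap h).src (pvasIt (delMap h) s d n) : ℂ) - c‖ ≤ κ) (h2 : ‖((delMap h).tgt (pvasIt (delMap h) s d n) : ℂ) - c‖ ≤ κ) (h3 : ‖((delMap h).apex (pvasIt (delMap h) s d n) : ℂ) - c‖ ≤ κ)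
    {X : Set Y} (hD : PvhwDoorC (fun v => ζ * dlsPos Y v) (ζ * c) (Rk + (ζ * zc).re) κ (2 * δ) r₂ (-1) (pvhwOff Y zc Rk) X) (hEx : ∀ v ∈ X, v ∈ pvtzEx (delMap h) s d n → ‖(v : ℂ) - c‖ ≤ r₂)
    {m : ℕ} (hm : m ≤ n) (hpiece : ∀ k, m ≤ k → k < n → pvasIt (delMap h) s d k ∈ M.Left)
    (hcalm : ∀ k, k < m → r₂ < ‖((delMap h).src (pvasIt (delMap h) s d k) : ℂ) - c‖ ∧ r₂ < ‖((delMap h).tgt (pvasIt (delMap h) s d k) : ℂ) - c‖) :
    ∃ (χ : DelDart h → ZMod 2) (u : Y → ZMod 2) (β : ZMod 2), PvhwSide (delMap h) s d n M.Left χ u X {v : Y | ‖(v : ℂ) - c‖ ≤ r₂} β ∧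
      (∀ v ∈ X, v ∈ pvtzEx (delMap h) s d n → u v = β → v ∈ pvasLayW (delMap h) s d n) ∧
      ∀ a : Y, (a : ℂ) ∉ pvwSq zc Rk → ‖(a : ℂ) - c‖ ≤ r₂ → κ < (ζ * a).im - (ζ * c).im → u a ≠ β := by
  have hζ1 := pvtzd_dir_norm hζ
  have hκ0 : 0 ≤ κ := (norm_nonneg _).trans h1
  have hr₂ : r₂ ≤ r₁ := by linarith
  have hκ1 : κ ≤ r₁ := hκ.trans hr₂
  obtain ⟨z, u, hz, hz1, hu, hval⟩ := pvtzd_exit h hζ1 E hM hδ hr hd (h3.trans hκ1)
  have hz2 : |z.im - (ζ * c).im| ≤ κ := pvhw_tri_im hz (pvhw_im_le hζ1 h1) (pvhw_im_le hζ1 h2) (pvhw_im_le hζ1 h3)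
  have hadm : Rk + (ζ * zc).re < (ζ * c).re + κ := by
    have := (abs_le.1 (pvhw_re_le hζ1 h3)).2
    have h4 : Rk + (ζ * zc).re < (ζ * ((delMap h).apex (pvasIt (delMap h) s d n) : ℂ)).re := E.out
    linarith
  have hext := pvhw_eval_ext h hζ hM hδ hr hd hu hbox hz2 hval ⟨_, hbox _ (Or.inl ⟨n, le_rfl, rfl⟩), h1⟩ hadm hbig hκ hroom
  have hval' : ∀ y ∈ pvhwOff Y zc Rk, ‖(fun v => ζ * dlsPos Y v) y - ζ * c‖ ≤ r₂ → κ < |((fun v => ζ * dlsPos Y v) y).im - (ζ * c).im| →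
      u y = u ((delMap h).src (pvasIt (delMap h) s d n)) + plI (((fun v => ζ * dlsPos Y v) y).im ≤ z.im) := by
    intro y hy1 hy2 hy3
    rw [pvtzd_norm_mul hζ1] at hy2
    exact hext y hy1 hy2 hy3
  have hβ : ((-1 : ℝ) = 1 ∧ u ((delMap h).src (pvasIt (delMap h) s d n)) + 1 = u ((delMap h).src (pvasIt (delMap h) s d n))) ∨
      ((-1 : ℝ) = -1 ∧ u ((delMap h).src (pvasIt (delMap h) s d n)) + 1 = u ((delMap h).src (pvasIt (delMap h) s d n)) + 1) := Or.inr ⟨rfl, rfl⟩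
  have hS := hD.side (β := u ((delMap h).src (pvasIt (delMap h) s d n)) + 1) hu (fun x hx => by
      rw [pvtzd_norm_mul hζ1] at hx
      exact hM.inn _ (by show ‖((delMap h).src x : ℂ) - c‖ ≤ r; exact hx.trans (by linarith)) x rfl) (fun x hx => by
      rw [pvtzd_norm_mul hζ1] at hx ⊢
      exact pvhw_short h hδ (R := r₂) (fun w hw => hd w (closedBall_subset_closedBall (by linarith) hw)) x hx) hz1 hz2 hval' (fun v hv hE => by
      rw [pvtzd_norm_mul hζ1]; exact hEx v hv hE) hβ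
  rw [pvhw_ball_eq hζ1] at hS
  refine ⟨_, u, _, hS, fun v hv hE hvβ => ?_, fun a ha1 ha2 ha3 => ?_⟩
  · have hp := E.piece hz1 le_rfl hpiece
    have hvr := hEx v hv hE
    have hvB : v ∈ pvtzB (delMap h) s d m n ∪ pvtzW (delMap h) s d m n := by
      rcases hE with ⟨k, hk, rfl⟩ | ⟨k, hk, rfl⟩
      · refine Or.inl ⟨k, ?_, hk, rfl⟩
        by_contra hkm
        exact absurd hvr (not_le.2 (hcalm k (not_le.1 hkm)).1)
      · refine Or.inr ⟨k, ?_, hk, rfl⟩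
        by_contra hkm
        exact absurd hvr (not_le.2 (hcalm k (not_le.1 hkm)).2)
    refine pvhw_bank_white (pl_left_face M) E.bw hu le_rfl hp hvB ?_
    rw [hvβ, ← (pvtz_piece_const (pl_left_face M) E.bw hu hp hm le_rfl).1]
    exact pvhw_z2_succ_ne _
  · exact pvhw_startC (ε := -1) hz2 hval' hβ ha1 (by rw [pvtzd_norm_mul hζ1]; exact ha2) (by
      show κ < - -1 * ((ζ * a).im - (ζ * c).im)
      linarith)

/-- **ENTRANCE TIP, DELAUNAY MAP, CORNER FORM** -/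
theorem pvhw_entC (h : DelGood Y) {ζ : ℂ} (hζ : ζ ∈ pvtzdDir) {s : Y → Bool} {d : DelDart h} {n : ℕ} {M : (delMap h).Cyc} {zc : ℂ} {Rk : ℝ}
    (E : PvtzEnt (delMap h) (fun v => ζ * dlsPos Y v) s d n M (Rk + (ζ * zc).re)) {c : ℂ} {r r' r₁ r₂ δ κ : ℝ} (hM : PvaxAt (delMap h) (dlsPos Y) c r r' M) (hδ : 0 < δ) (hr : 3 * r₁ + 2 * δ ≤ r)
    (hd : VorDense Y (closedBall c r) δ) (hκ : κ ≤ r₂) (hroom : κ + r₂ + 5 * δ ≤ r₁) (hbig : κ + r₂ ≤ 2 * Rk) (hbox : ∀ v ∈ pvtzEx (delMap h) s d n, (v : ℂ) ∈ pvwSq zc Rk)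
    (h1 : ‖((delMap h).src d : ℂ) - c‖ ≤ κ) (h2 : ‖((delMap h).tgt d : ℂ) - c‖ ≤ κ) (h3 : ‖((delMap h).apex ((delMap h).opp d) : ℂ) - c‖ ≤ κ)
    {X : Set Y} (hD : PvhwDoorC (fun v => ζ * dlsPos Y v) (ζ * c) (Rk + (ζ * zc).re) κ (2 * δ) r₂ 1 (pvhwOff Y zc Rk) X) (hEx : ∀ v ∈ X, v ∈ pvtzEx (delMap h) s d n → ‖(v : ℂ) - c‖ ≤ r₂)
    {m : ℕ} (hm : m ≤ n) (hpiece : ∀ k, k < m → pvasIt (delMap h) s d k ∈ M.Left)
    (hcalm : ∀ k, m < k → k ≤ n → r₂ < ‖((delMap h).src (pvasIt (delMap h) s d k) : ℂ) - c‖ ∧ r₂ < ‖((delMap h).tgt (pvasIt (delMap h) s d k) : ℂ) - c‖) :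
    ∃ (χ : DelDart h → ZMod 2) (u : Y → ZMod 2) (β : ZMod 2), PvhwSide (delMap h) s d n M.Left χ u X {v : Y | ‖(v : ℂ) - c‖ ≤ r₂} β ∧
      (∀ v ∈ X, v ∈ pvtzEx (delMap h) s d n → u v = β → v ∈ pvasLayW (delMap h) s d n) ∧
      ∀ a : Y, (a : ℂ) ∉ pvwSq zc Rk → ‖(a : ℂ) - c‖ ≤ r₂ → κ < (ζ * c).im - (ζ * a).im → u a ≠ β := by
  have hζ1 := pvtzd_dir_norm hζ
  have hκ0 : 0 ≤ κ := (norm_nonneg _).trans h1
  have hr₂ : r₂ ≤ r₁ := by linarith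
  have hκ1 : κ ≤ r₁ := hκ.trans hr₂
  obtain ⟨z, u, hz, hz1, hu, hval⟩ := pvtzd_ent h hζ1 E hM hδ hr hd (h3.trans hκ1)
  have hz2 : |z.im - (ζ * c).im| ≤ κ := pvhw_tri_im hz (pvhw_im_le hζ1 (by rw [(delMap h).src_opp']; exact h2)) (pvhw_im_le hζ1 (by rw [(delMap h).tgt_opp]; exact h1)) (pvhw_im_le hζ1 h3)
  have hadm : Rk + (ζ * zc).re < (ζ * c).re + κ := by
    have := (abs_le.1 (pvhw_re_le hζ1 h3)).2
    have h4 : Rk + (ζ * zc).re < (ζ * ((delMap h).apex ((delMap h).opp d) : ℂ)).re := E.out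
    linarith
  have hext := pvhw_eval_ext h hζ hM hδ hr hd hu hbox hz2 hval ⟨_, hbox _ (Or.inl ⟨0, Nat.zero_le _, by rw [pvas_it_zero]⟩), h1⟩ hadm hbig hκ hroom
  have hval' : ∀ y ∈ pvhwOff Y zc Rk, ‖(fun v => ζ * dlsPos Y v) y - ζ * c‖ ≤ r₂ → κ < |((fun v => ζ * dlsPos Y v) y).im - (ζ * c).im| →
      u y = u ((delMap h).tgt d) + plI (((fun v => ζ * dlsPos Y v) y).im ≤ z.im) := by
    intro y hy1 hy2 hy3
    rw [pvtzd_norm_mul hζ1] at hy2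
    exact hext y hy1 hy2 hy3
  have hβ : ((1 : ℝ) = 1 ∧ u ((delMap h).tgt d) = u ((delMap h).tgt d)) ∨ ((1 : ℝ) = -1 ∧ u ((delMap h).tgt d) = u ((delMap h).tgt d) + 1) := Or.inl ⟨rfl, rfl⟩
  have hS := hD.side (β := u ((delMap h).tgt d)) hu (fun x hx => by
      rw [pvtzd_norm_mul hζ1] at hx
      exact hM.inn _ (by show ‖((delMap h).src x : ℂ) - c‖ ≤ r; exact hx.trans (by linarith)) x rfl) (fun x hx => by
      rw [pvtzd_norm_mul hζ1] at hx ⊢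
      exact pvhw_short h hδ (R := r₂) (fun w hw => hd w (closedBall_subset_closedBall (by linarith) hw)) x hx) hz1 hz2 hval' (fun v hv hE => by
      rw [pvtzd_norm_mul hζ1]; exact hEx v hv hE) hβ
  rw [pvhw_ball_eq hζ1] at hS
  refine ⟨_, u, _, hS, fun v hv hE hvβ => ?_, fun a ha1 ha2 ha3 => ?_⟩
  · have hp := E.piece hz1 hm (m := 0) fun k _ hk => hpiece k hk
    have hvr := hEx v hv hE
    have hvB : v ∈ pvtzB (delMap h) s d 0 m ∪ pvtzW (delMap h) s d 0 m := by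
      rcases hE with ⟨k, hk, rfl⟩ | ⟨k, hk, rfl⟩
      · refine Or.inl ⟨k, Nat.zero_le _, ?_, rfl⟩
        by_contra hkm
        exact absurd hvr (not_le.2 (hcalm k (not_le.1 hkm) hk).1)
      · refine Or.inr ⟨k, Nat.zero_le _, ?_, rfl⟩
        by_contra hkm
        exact absurd hvr (not_le.2 (hcalm k (not_le.1 hkm) hk).2)
    refine pvhw_bank_white (pl_left_face M) E.bw hu hm hp hvB ?_
    rw [hvβ]
    have hb := E.box 0 (Nat.zero_le n)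
    have hsep := pvhw_sep E.bw E.inj hu (Nat.zero_le n) (Or.inr (by rw [pvas_it_zero]; exact E.tip)) (pvtz_chi_west (lt_of_le_of_lt hb.1 hz1) (lt_of_le_of_lt hb.2 hz1))
    rw [pvas_it_zero] at hsep ⊢
    exact hsep.symm
  · exact pvhw_startC (ε := 1) hz2 hval' hβ ha1 (by rw [pvtzd_norm_mul hζ1]; exact ha2) (by
      show κ < -1 * ((ζ * a).im - (ζ * c).im)
      linarith)

/-! ## 5. the hooked lane and the datum, corner form -/

/-- **THE HOOKED LANE FITS THE DATUM, CORNER FORM**: no side is prescribed; a door is asked for EVERY side `ζ` of the box which passes within `κ + 2 δ` of the centre of the mouth (one side off the corners, two at a corner) -/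
structure PvhwFitC {D : Type} {T : PvMap ↥Y D} (𝔇 : PvwDat T) (zt zs : ℂ) (Rt Rs : ℝ) (yt ys : ℂ) (κ δ r r₁ r₂ : ℝ) (X : Set Y) (a b : Y) : Prop where
  mesh_pos : 0 < δ
  mesh_t : VorDense Y (closedBall yt (r + 3 * δ)) δ
  mesh_s : VorDense Y (closedBall ys (r + 3 * δ)) δ
  num1 : 3 * r₁ + 2 * δ ≤ r
  num2 : κ + 2 * δ ≤ r₂
  num3 : κ + 2 * δ + r₂ + 5 * δ ≤ r₁
  big_t : κ + 2 * δ + r₂ ≤ 2 * Rt
  big_s : κ + 2 * δ + r₂ ≤ 2 * Rs
  far_t : r + 4 * δ ≤ ‖(T.tgt 𝔇.t.dp : ℂ) - yt‖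
  far_s : r + 4 * δ ≤ ‖(T.src 𝔇.s.dm : ℂ) - ys‖
  sep : 2 * r₂ < ‖yt - ys‖
  door_t : ∀ ζ ∈ pvtzdDir, Rt + (ζ * zt).re < (ζ * yt).re + (κ + 2 * δ) →
    PvhwDoorC (fun v => ζ * dlsPos Y v) (ζ * yt) (Rt + (ζ * zt).re) (κ + 2 * δ) (2 * δ) r₂ (-1) (pvhwOff Y zt Rt) X ∧ κ + 2 * δ < (ζ * a).im - (ζ * yt).im
  door_s : ∀ ζ ∈ pvtzdDir, Rs + (ζ * zs).re < (ζ * ys).re + (κ + 2 * δ) →
    PvhwDoorC (fun v => ζ * dlsPos Y v) (ζ * ys) (Rs + (ζ * zs).re) (κ + 2 * δ) (2 * δ) r₂ 1 (pvhwOff Y zs Rs) X ∧ κ + 2 * δ < (ζ * ys).im - (ζ * b).im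
  ex_t : ∀ v ∈ X, v ∈ 𝔇.t.bkP ∪ 𝔇.t.whP → ‖(v : ℂ) - yt‖ ≤ r₂
  ex_s : ∀ v ∈ X, v ∈ 𝔇.s.bkM ∪ 𝔇.s.whM → ‖(v : ℂ) - ys‖ ≤ r₂
  join : T.Join Set.univ X a b
  start : (a : ℂ) ∉ pvwSq zt Rt ∧ ‖(a : ℂ) - yt‖ ≤ r₂
  stop : (b : ℂ) ∉ pvwSq zs Rs ∧ ‖(b : ℂ) - ys‖ ≤ r₂
  fz : ∀ v ∈ X, v ∈ 𝔇.fz → v ∈ 𝔇.t.bkP ∪ 𝔇.t.whP ∪ (𝔇.s.bkM ∪ 𝔇.s.whM)

section fitC

variable {h : DelGood Y} {𝔇 : PvwDat (delMap h)} {zt zs : ℂ} {Rt Rs : ℝ} {yt ys : ℂ} {κ δ r r₁ r₂ : ℝ} {X : Set Y} {a b : Y}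

/-- **HOOK-DET FOR `WO` ON THE DELAUNAY MAP, ALL TIP CELLS** -/
theorem PvhwFitC.lane (F : PvhwFitC 𝔇 zt zs Rt Rs yt ys κ δ r r₁ r₂ X a b) (Ot : PvhwOut 𝔇 zt Rt yt κ r r₂) (Is : PvhwIn 𝔇 zs Rs ys κ r r₂) : PvhwLane 𝔇 X a b := by
  have hδ := F.mesh_pos
  have hκ0 : 0 ≤ κ := (norm_nonneg _).trans Ot.tip.1
  have hr1 : 0 ≤ r₁ := by linarith [F.num2, F.num3]
  have hr0 : 0 ≤ r := by linarith [F.num1]
  have hκr : κ ≤ r := by linarith [F.num1, F.num2, F.num3]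
  have ht := Ot.stub
  have hs := Is.stub
  have hbt := Ot.bw
  have hbs := Is.bw
  -- the exit tip
  obtain ⟨Mt, hMt⟩ := dlc_at h hr0 hδ F.mesh_t (by linarith : r + 3 * δ < r + 4 * δ)
  obtain ⟨i₀, hi₀, hnr, hfar⟩ := Ot.late
  obtain ⟨t3, -⟩ := pvhw_tip_near h hδ (fun w hw => F.mesh_t w (closedBall_subset_closedBall (by linarith) hw)) (𝔇.t.ep 𝔇.t.np) Ot.tip.1 Ot.tip.2 hκr
  obtain ⟨ζt, hdt, hot⟩ := pvtzd_sq_out (zc := zt) (r := Rt) ht.ep_out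
  have hζt := pvtzd_dir_norm hdt
  have hζt0 : ζt ≠ 0 := fun e => by rw [e, norm_zero] at hζt; exact zero_ne_one hζt
  have hadt : Rt + (ζt * zt).re < (ζt * yt).re + (κ + 2 * δ) := by
    have := (abs_le.1 (pvhw_re_le hζt t3)).2
    have h4 : Rt + (ζt * zt).re < (ζt * ((delMap h).apex (𝔇.t.ep 𝔇.t.np) : ℂ)).re := hot
    linarith
  obtain ⟨Dt, hat⟩ := F.door_t ζt hdt hadt
  have hit : ∀ k, k ≤ 𝔇.t.np → pvasIt (delMap h) 𝔇.col 𝔇.t.dp k = 𝔇.t.ep k := fun k hk => (ht.ep_it k hk).symm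
  have Et : PvtzExit (delMap h) (fun v => ζt * dlsPos Y v) 𝔇.col 𝔇.t.dp 𝔇.t.np Mt (Rt + (ζt * zt).re) := by
    refine ⟨hMt.fin, pvtzd_geo h Mt.Left hζt0, hbt, fun hmem => ?_, ?_, fun k hk => ?_, ?_⟩
    · have := hMt.out _ ⟨(delMap h).opp 𝔇.t.dp, hmem, rfl⟩
      rw [(delMap h).src_opp'] at this
      exact absurd F.far_t (not_le.2 this)
    · rw [hit _ le_rfl]; exact hMt.inn _ (hnr _ hi₀ le_rfl) _ rfl
    · rw [hit k hk]; exact ⟨pvtzd_sq_le hdt (ht.ep_in k hk).1, pvtzd_sq_le hdt (ht.ep_in k hk).2⟩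
    · rw [hit _ le_rfl]; exact hot
  obtain ⟨χ, u, β, S, hW, hA⟩ := pvhw_exitC h hdt Et hMt hδ F.num1 (fun w hw => F.mesh_t w (closedBall_subset_closedBall (by linarith) hw)) F.num2 F.num3 F.big_t
    (fun v hv => pvwk_banksP_in ht (by rw [pvwk_bkP_eq ht, pvwk_whP_eq ht]; exact hv))
    (by rw [hit _ le_rfl]; exact Ot.tip.1.trans (by linarith)) (by rw [hit _ le_rfl]; exact Ot.tip.2.trans (by linarith)) (by rw [hit _ le_rfl]; exact t3) Dt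
    (fun v hv hE => F.ex_t v hv (by rw [pvwk_bkP_eq ht, pvwk_whP_eq ht]; exact hE)) hi₀
    (fun k h1 h2 => by rw [hit k h2.le]; exact hMt.inn _ (hnr k h1 h2.le) _ rfl)
    (fun k hk => by rw [hit k (hk.le.trans hi₀)]; exact hfar k hk)
  -- the entrance tip
  obtain ⟨Ms, hMs⟩ := dlc_at h hr0 hδ F.mesh_s (by linarith : r + 3 * δ < r + 4 * δ)
  obtain ⟨j₀, hj₀, hnr', hfar'⟩ := Is.late
  obtain ⟨-, s3⟩ := pvhw_tip_near h hδ (fun w hw => F.mesh_s w (closedBall_subset_closedBall (by linarith) hw)) (𝔇.s.em 𝔇.s.nm) Is.tip.1 Is.tip.2 hκr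
  obtain ⟨ζs, hds, hos⟩ := pvtzd_sq_out (zc := zs) (r := Rs) hs.em_out
  have hζs := pvtzd_dir_norm hds
  have hζs0 : ζs ≠ 0 := fun e => by rw [e, norm_zero] at hζs; exact zero_ne_one hζs
  have hads : Rs + (ζs * zs).re < (ζs * ys).re + (κ + 2 * δ) := by
    have := (abs_le.1 (pvhw_re_le hζs s3)).2
    have h4 : Rs + (ζs * zs).re < (ζs * ((delMap h).apex ((delMap h).opp (𝔇.s.em 𝔇.s.nm)) : ℂ)).re := hos
    linarith
  obtain ⟨Ds, hbs'⟩ := F.door_s ζs hds hads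
  have hit' : ∀ k, k ≤ 𝔇.s.nm → pvasIt (delMap h) 𝔇.col (𝔇.s.em 𝔇.s.nm) k = 𝔇.s.em (𝔇.s.nm - k) := fun k hk => pvwk_em_fwd hs hbs hk
  have Es : PvtzEnt (delMap h) (fun v => ζs * dlsPos Y v) 𝔇.col (𝔇.s.em 𝔇.s.nm) 𝔇.s.nm Ms (Rs + (ζs * zs).re) := by
    refine ⟨hMs.fin, pvtzd_geo h Ms.Left hζs0, pvwk_em_bw hs hbs le_rfl, fun hmem => ?_, ?_, fun k hk => ?_, hos⟩
    · rw [pvwk_em_fwd_end hs hbs] at hmem
      exact absurd F.far_s (not_le.2 (hMs.out _ ⟨_, hmem, rfl⟩))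
    · exact hMs.inn ((delMap h).tgt (𝔇.s.em 𝔇.s.nm)) (Is.tip.2.trans hκr) _ ((delMap h).src_opp' _)
    · rw [hit' k hk]; exact ⟨pvtzd_sq_le hds (hs.em_in _ (Nat.sub_le _ _)).1, pvtzd_sq_le hds (hs.em_in _ (Nat.sub_le _ _)).2⟩
  obtain ⟨χ', u', β', S', hW', hB⟩ := pvhw_entC h hds Es hMs hδ F.num1 (fun w hw => F.mesh_s w (closedBall_subset_closedBall (by linarith) hw)) F.num2 F.num3 F.big_s
    (fun v hv => pvwk_banksM_in hs (by rw [pvhw_bkM_eq 𝔇.s hs hbs, pvhw_whM_eq 𝔇.s hs hbs]; exact hv))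
    (Is.tip.1.trans (by linarith)) (Is.tip.2.trans (by linarith)) s3 Ds (fun v hv hE => F.ex_s v hv (by rw [pvhw_bkM_eq 𝔇.s hs hbs, pvhw_whM_eq 𝔇.s hs hbs]; exact hE)) (m := 𝔇.s.nm - j₀) (Nat.sub_le _ _)
    (fun k hk => by rw [hit' k (by omega)]; exact hMs.inn _ (hnr' _ (by omega) (Nat.sub_le _ _)) _ rfl)
    (fun k hk1 hk2 => by rw [hit' k hk2]; exact hfar' (𝔇.s.nm - k) (by omega))
  refine ⟨⟨Mt.Left, Ms.Left, χ, χ', u, u', _, _, β, β', S, S', fun v hv hv' => ?_, hW, hW', F.start.2, hA a F.start.1 F.start.2 hat, F.stop.2, hB b F.stop.1 F.stop.2 hbs'⟩, F.join, F.fz⟩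
  have hv1 : ‖yt - (v : ℂ)‖ ≤ r₂ := by rw [norm_sub_rev]; exact hv
  have := pvhw_tri hv1 hv'
  linarith [F.sep]

theorem PvhwFitC.WO2 (F : PvhwFitC 𝔇 zt zs Rt Rs yt ys κ δ r r₁ r₂ X a b) (Ot : PvhwOut 𝔇 zt Rt yt κ r r₂) (Is : PvhwIn 𝔇 zs Rs ys κ r r₂)
    {K : Set Y} {σ : Y → Bool} (hσ : ∀ v ∈ X, v ∉ 𝔇.fz → σ v = false) (hK : ∀ v ∈ X, v ∉ 𝔇.fz → v ∉ K) : 𝔇.WO2 K σ := by
  have : Nonempty (DelDart h) := ⟨𝔇.t.dp⟩
  exact (F.lane Ot Is).WO2 Ot.stub Is.stub Is.bw hσ hK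

theorem PvhwFitC.WO (F : PvhwFitC 𝔇 zt zs Rt Rs yt ys κ δ r r₁ r₂ X a b) (Ot : PvhwOut 𝔇 zt Rt yt κ r r₂) (Is : PvhwIn 𝔇 zs Rs ys κ r r₂)
    {π : PvwPat} (hπ : π.Wf) {σ : Y → Bool} (hσ : ∀ v ∈ X, v ∉ 𝔇.fz → σ v = false) (hY : ∀ v ∈ X, v ∉ 𝔇.fz → (v : ℂ) ∈ π.Yout) : 𝔇.WO (dlsPos Y) π σ := by
  have : Nonempty (DelDart h) := ⟨𝔇.t.dp⟩
  exact (F.lane Ot Is).WO Ot.stub Is.stub Is.bw hπ hσ hY

end fitC

/-! ## 6. the REGION form, all tip cells -/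

/-- the door of the region `R` for the side `ζ` of the box `pvwSq zc Rk`;   `x` = the end of the corridor at this tip, known with the precision `η` -/
structure PvhwDoorRC (ζ c zc : ℂ) (Rk κ μ r₂ ε : ℝ) (R : Set ℂ) (x : ℂ) (η : ℝ) : Prop where
  /-- near the inner mouth the corridor is behind the side `ζ` or off the strip of the ray -/
  front : ∀ w ∈ R, ‖w - c‖ ≤ r₂ + μ → (ζ * w).re ≤ Rk + (ζ * zc).re ∨ κ + μ < |(ζ * w).im - (ζ * c).im|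
  /-- in the collar of the inner mouth the corridor is outside the box, on the side `ε` of the strip -/
  collar : ∀ w ∈ R, r₂ - μ < ‖w - c‖ → ‖w - c‖ ≤ r₂ → w ∉ pvwSq zc Rk ∧ κ < ε * ((ζ * w).im - (ζ * c).im)
  /-- the end of the corridor is on the side `-ε` of the strip -/
  ends : ∀ w, ‖w - x‖ < η → κ < -ε * ((ζ * w).im - (ζ * c).im)

theorem PvhwDoorRC.door {ζ c zc : ℂ} {Rk κ μ r₂ ε η : ℝ} {R : Set ℂ} {x : ℂ} (hζ : ‖ζ‖ = 1) (hR : PvhwDoorRC ζ c zc Rk κ μ r₂ ε R x η) {X : Set Y} (hX : ∀ v ∈ X, (v : ℂ) ∈ R) :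
    PvhwDoorC (fun v => ζ * dlsPos Y v) (ζ * c) (Rk + (ζ * zc).re) κ μ r₂ ε (pvhwOff Y zc Rk) X := by
  refine ⟨fun v hv h1 => ?_, fun v hv h1 h2 => ?_⟩
  · rw [pvtzd_norm_mul hζ] at h1
    exact hR.front _ (hX v hv) h1
  · rw [pvtzd_norm_mul hζ] at h1 h2
    exact hR.collar _ (hX v hv) h1 h2

/-- **THE HOOKED CORRIDOR, PURE GEOMETRY, ALL TIP CELLS** (no sites, no datum, no colours, NO SIDE).   `H` = a region which contains the frozen sites of `D_Y` (hulls). -/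
structure PvhwRegC (zt zs : ℂ) (Rt Rs : ℝ) (yt ys : ℂ) (κ δ r r₁ r₂ η : ℝ) (R H : Set ℂ) (x y : ℂ) : Prop where
  mesh_pos : 0 < δ
  num1 : 3 * r₁ + 2 * δ ≤ r
  num2 : κ + 2 * δ ≤ r₂
  num3 : κ + 2 * δ + r₂ + 5 * δ ≤ r₁
  big_t : κ + 2 * δ + r₂ ≤ 2 * Rt
  big_s : κ + 2 * δ + r₂ ≤ 2 * Rs
  sep : 2 * r₂ < ‖yt - ys‖
  /-- a door for every side of the box of `t` within `κ + 2 δ` of `yt`;   the lane leaves BELOW the strip (white side), its end is ABOVE -/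
  door_t : ∀ ζ ∈ pvtzdDir, Rt + (ζ * zt).re < (ζ * yt).re + (κ + 2 * δ) → PvhwDoorRC ζ yt zt Rt (κ + 2 * δ) (2 * δ) r₂ (-1) R x η
  /-- a door for every side of the box of `s` within `κ + 2 δ` of `ys`;   the lane leaves ABOVE the strip (white side), its end is BELOW -/
  door_s : ∀ ζ ∈ pvtzdDir, Rs + (ζ * zs).re < (ζ * ys).re + (κ + 2 * δ) → PvhwDoorRC ζ ys zs Rs (κ + 2 * δ) (2 * δ) r₂ 1 R y η
  /-- the corridor meets (a box) ∩ (the hull region `H` of the frozen sites) only in the inner mouth      (D20 of 208: the middle cells of the corridor may re-enter the boxes, they miss the hulls; patch of 221; `H := univ` = the plain form) -/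
  box_t : ∀ w ∈ R, w ∈ H → w ∈ pvwSq zt Rt → ‖w - yt‖ ≤ r₂
  box_s : ∀ w ∈ R, w ∈ H → w ∈ pvwSq zs Rs → ‖w - ys‖ ≤ r₂
  start : ∀ w, ‖w - x‖ < η → w ∉ pvwSq zt Rt ∧ ‖w - yt‖ ≤ r₂
  stop : ∀ w, ‖w - y‖ < η → w ∉ pvwSq zs Rs ∧ ‖w - ys‖ ≤ r₂

/-- what the hook reads of the sites and of the datum besides the two stubs (no side) -/
structure PvhwDatC {D : Type} {T : PvMap ↥Y D} (𝔇 : PvwDat T) (yt ys : ℂ) (δ r : ℝ) (R H : Set ℂ) : Prop where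
  mesh_t : VorDense Y (closedBall yt (r + 3 * δ)) δ
  mesh_s : VorDense Y (closedBall ys (r + 3 * δ)) δ
  far_t : r + 4 * δ ≤ ‖(T.tgt 𝔇.t.dp : ℂ) - yt‖
  far_s : r + 4 * δ ≤ ‖(T.src 𝔇.s.dm : ℂ) - ys‖
  fz : ∀ v : Y, (v : ℂ) ∈ R → v ∈ 𝔇.fz → v ∈ 𝔇.t.bkP ∪ 𝔇.t.whP ∪ (𝔇.s.bkM ∪ 𝔇.s.whM)
  /-- the frozen sites of `D_Y` lie in the hull region -/
  hull : ∀ v ∈ 𝔇.fzY, (v : ℂ) ∈ H

theorem PvhwRegC.fit {D : Type} {T : PvMap ↥Y D} {𝔇 : PvwDat T} {zt zs : ℂ} {Rt Rs : ℝ} {yt ys : ℂ} {κ δ r r₁ r₂ η : ℝ} {R Hu : Set ℂ} {x y : ℂ}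
    (G : PvhwRegC zt zs Rt Rs yt ys κ δ r r₁ r₂ η R Hu x y) (H : PvhwDatC 𝔇 yt ys δ r R Hu) (Ot : PvhwOut 𝔇 zt Rt yt κ r r₂) (Is : PvhwIn 𝔇 zs Rs ys κ r r₂)
    {X : Set Y} (hX : ∀ v ∈ X, (v : ℂ) ∈ R) {a b : Y} (ha : ‖(a : ℂ) - x‖ < η) (hb : ‖(b : ℂ) - y‖ < η) (hj : T.Join Set.univ X a b) :
    PvhwFitC 𝔇 zt zs Rt Rs yt ys κ δ r r₁ r₂ X a b where
  mesh_pos := G.mesh_pos
  mesh_t := H.mesh_t
  mesh_s := H.mesh_s
  num1 := G.num1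
  num2 := G.num2
  num3 := G.num3
  big_t := G.big_t
  big_s := G.big_s
  far_t := H.far_t
  far_s := H.far_s
  sep := G.sep
  door_t := fun ζ hζ hadm => ⟨(G.door_t ζ hζ hadm).door (pvtzd_dir_norm hζ) hX, by have := (G.door_t ζ hζ hadm).ends _ ha; linarith⟩
  door_s := fun ζ hζ hadm => ⟨(G.door_s ζ hζ hadm).door (pvtzd_dir_norm hζ) hX, by have := (G.door_s ζ hζ hadm).ends _ hb; linarith⟩
  ex_t := fun v hv hb => G.box_t _ (hX v hv) (H.hull v (Or.inl (pvwk_banksP_sub_fzOut 𝔇.t hb))) (pvwk_banksP_in Ot.stub hb)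
  ex_s := fun v hv hb => G.box_s _ (hX v hv) (H.hull v (Or.inr (pvwk_banksM_sub_fzIn 𝔇.s hb))) (pvwk_banksM_in Is.stub hb)
  join := hj
  start := G.start _ ha
  stop := G.stop _ hb
  fz := fun v hv => H.fz v (hX v hv)

/-- the corridor and the pattern, pure geometry (no side clause) -/
structure PvhwRegOkC (N : PvwNum) (hh : ℝ) (π : PvwPat) (δ r : ℝ) (R H : Set ℂ) : Prop where
  gate_t : r + 4 * δ + π.tt.b * hh ≤ ‖π.tt.cp hh π.zt - π.zt‖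
  gate_s : r + 4 * δ + π.ts.b * hh ≤ ‖π.ts.cm hh π.zs - π.zs‖
  core_t : ∀ w ∈ R, w ∈ H → π.tt.b * hh ≤ ‖w - π.zt‖
  core_s : ∀ w ∈ R, w ∈ H → π.ts.b * hh ≤ ‖w - π.zs‖
  out : R ⊆ π.Yout
  collar : ∀ w ∈ R, closedBall w (2 * δ) ⊆ π.Yreg

/-- **`PvhwDatC` FROM `PvwDat.Ok`** + mesh `δ` on the two mouths and along the corridor -/
theorem pvhw_datC_of_ok (h : DelGood Y) {𝔇 : PvwDat (delMap h)} {N : PvwNum} {hh : ℝ} {π : PvwPat} (hOk : 𝔇.Ok (dlsPos Y) N hh π) (hπ : π.Wf) {δ r : ℝ} {R H : Set ℂ}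
    (G : PvhwRegOkC N hh π δ r R H) (hull : ∀ v ∈ 𝔇.fzY, (v : ℂ) ∈ H) (hδ : 0 < δ)
    (mesh_t : VorDense Y (closedBall (π.tt.cp hh π.zt) (r + 3 * δ)) δ) (mesh_s : VorDense Y (closedBall (π.ts.cm hh π.zs) (r + 3 * δ)) δ) (mesh_R : ∀ w ∈ R, VorDense Y (closedBall w (2 * δ)) δ) :
    PvhwDatC 𝔇 (π.tt.cp hh π.zt) (π.ts.cm hh π.zs) δ r R H := by
  have hT := dls_isSph h
  refine ⟨mesh_t, mesh_s, ?_, ?_, fun v hvR hv => ?_, hull⟩
  · have h1 := hOk.st_t.gate.inside _ (pvwk_gate_ends hT hOk.st_t.gate).2.1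
    have h2 : ‖π.tt.cp hh π.zt - π.zt‖ ≤ ‖((delMap h).tgt 𝔇.t.dp : ℂ) - π.tt.cp hh π.zt‖ + π.tt.b * hh :=
      pvhw_tri (b := ((delMap h).tgt 𝔇.t.dp : ℂ)) (by rw [norm_sub_rev]) h1.le
    linarith [G.gate_t]
  · have h1 := hOk.st_s.gate.inside _ (pvwk_gate_ends hT hOk.st_s.gate).2.2.1
    have h2 : ‖π.ts.cm hh π.zs - π.zs‖ ≤ ‖((delMap h).src 𝔇.s.dm : ℂ) - π.ts.cm hh π.zs‖ + π.ts.b * hh :=
      pvhw_tri (b := ((delMap h).src 𝔇.s.dm : ℂ)) (by rw [norm_sub_rev]) h1.le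
    linarith [G.gate_s]
  · rcases hv with ((((hc | hb) | hw) | ((hc | hb) | hw)) | hg) | ha
    · exfalso
      have : v ∈ 𝔇.t.dsc := hc
      rw [hOk.st_t.gate.dsc_eq] at this
      exact absurd (G.core_t _ hvR (hull v (Or.inl (Or.inl (Or.inl hc))))) (not_le.2 this)
    · exact Or.inl (Or.inl hb)
    · exact Or.inl (Or.inr hw)
    · exfalso
      have : v ∈ 𝔇.s.dsc := hc
      rw [hOk.st_s.gate.dsc_eq] at this
      exact absurd (G.core_s _ hvR (hull v (Or.inr (Or.inl (Or.inl hc))))) (not_le.2 this)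
    · exact Or.inr (Or.inl hb)
    · exact Or.inr (Or.inr hw)
    · exact absurd (hπ.out_sub (G.out hvR)) (hOk.off v hg)
    · exfalso
      obtain ⟨i, hi, rfl⟩ := ha
      have hs := pvhw_short h hδ (c := (((delMap h).apex ((delMap h).opp (𝔇.g.e i)) : Y) : ℂ)) (R := 0) (by rw [zero_add]; exact mesh_R _ hvR)
        ((delMap h).nxt ((delMap h).nxt ((delMap h).opp (𝔇.g.e i)))) (by rw [(delMap h).src_nxt2, sub_self, norm_zero])
      rw [(delMap h).src_nxt2, (delMap h).tgt_nxt2, (delMap h).src_opp', 𝔇.g.tgt_e i hi] at hs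
      refine hOk.off (𝔇.g.v (i + 1)) ⟨i + 1, hi, rfl⟩ (G.collar _ hvR ?_)
      rw [mem_closedBall, dist_eq_norm, norm_sub_rev]
      exact hs

end delC

end Claimed.Agent.R289
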