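-- KEEP
import Claimed.Agent.R289.Tr.HookWC

/-!
# Row 289 (S0537, Cardy for Poisson-Voronoi), box TR, ROAD E, HOOK-DET, file Tr/HookWD : THE RAY OF THE TIP POTENTIAL POINTS ALONG THE DOOR NORMAL AT ALL TIP CELLS, CORNERS INCLUDED      (owner helper53; idea of helper155; prefix `pvhw_`, `Pvhw`, names ending in `D`)

THE PROBLEM (155).   The door normal of a tip cell is fixed by the TYPE; the side of the box beyond which the tip APEX lies is read on the DATUM.   At a corner cell the two differ for some data.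
THE CURE.   Keep the picture `P v = ζ * v` of the DOOR (box `{re ≤ xB, yS ≤ im ≤ yN}`, `xB` within `κ` of the centre of the tip cell).   The ray points EAST from a base point `z` of the open tip face which is OUTSIDE THE SQUARE:
* apex beyond the east side: `xB < re z` (23);
* apex beyond the north side only: `yN < im z < im apex`; every edge with both ends in the square is below the ray (`pvtz_chi_low`);   the sites above the ray are unexplored, joined to the apex above the ray: class of the black tip vertex;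
  the sites east of `xB` are unexplored, east of `z`, joined east of `xB` to a site above the ray (`pvtz_chi_east`);
* apex beyond the south side only: mirror.
RESULT: THE SAME FORMULA   `u y = u (tip vertex) + 1[im (ζ y) ≤ im z]`   at every site `y` of the inner mouth with `xB < re (ζ y)`, and the slit vanishes on all the edges with both ends in the square.
ONLY CHANGE FOR THE DOOR: `re z` may be `< xB`; `PvhwDoorD.front` reads `re (P v) < re C - κ  ∨  κ + μ < |im (P v) - im C|`.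

* sec. 1  points of a triangle: `pvhw_tri_ptD`, `pvhw_baseN`, `pvhw_baseS`, `pvhw_tri_re_le`, `pvhw_tri_re_ge`
* sec. 2  any map: `pvhw_apex_val`, `pvhw_join_const`, `pvhw_join_east`
* sec. 3  Delaunay map: `pvhw_sq_im`, **`pvhw_potD`** (generic in the tip dart), **`pvhw_potD_exit`**, **`pvhw_potD_ent`**      (23 165 180: usable for the inner lanes verbatim)
* sec. 4  `PvhwDoorD`, `.slit`, `.side`
* sec. 5  `pvhw_apex_inD`, `pvhw_pieceD`, `pvhw_injD_ent`, **`pvhw_exitD`**, **`pvhw_entD`**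
* sec. 6  **`PvhwFitD`** (= `PvhwFit` without `out_t`, `out_s`), `.lane`, `.WO2`, `.WO`, `.WO_pl`, `.WO2_pl`;   `PvhwDoorRD`
-/

set_option autoImplicit false
set_option linter.unusedSectionVars false
set_option linter.unusedVariables false

namespace Claimed.Agent.R289

open Metric Set Relation

/-! ## 1. points of a triangle -/

theorem pvhw_tri_ptD {p q a : ℂ} (h : 0 < vorDet p q a) {t : ℝ} (ht0 : 0 < t) (ht1 : t < 1) :
    (⟨a.re + t * ((p.re + q.re) / 2 - a.re), a.im + t * ((p.im + q.im) / 2 - a.im)⟩ : ℂ) ∈ delTo p q a := by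
  refine ⟨?_, ?_, ?_⟩
  · have : vorDet p q ⟨a.re + t * ((p.re + q.re) / 2 - a.re), a.im + t * ((p.im + q.im) / 2 - a.im)⟩ = (1 - t) * vorDet p q a := by
      unfold vorDet; ring
    rw [this]; exact mul_pos (by linarith) h
  · have : vorDet q a ⟨a.re + t * ((p.re + q.re) / 2 - a.re), a.im + t * ((p.im + q.im) / 2 - a.im)⟩ = t / 2 * vorDet p q a := by
      unfold vorDet; ring
    rw [this]; exact mul_pos (by linarith) h
  · have : vorDet a p ⟨a.re + t * ((p.re + q.re) / 2 - a.re), a.im + t * ((p.im + q.im) / 2 - a.im)⟩ = t / 2 * vorDet p q a := by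
      unfold vorDet; ring
    rw [this]; exact mul_pos (by linarith) h

/-- base point above the box: `p q` below `yN`, the apex above -/
theorem pvhw_baseN {p q a : ℂ} (h : 0 < vorDet p q a) {yN : ℝ} (hp : p.im ≤ yN) (hq : q.im ≤ yN) (ha : yN < a.im) : ∃ z, z ∈ delTo p q a ∧ yN < z.im ∧ z.im < a.im := by
  have hden : 0 < a.im - (p.im + q.im) / 2 := by linarith
  set t : ℝ := (a.im - yN) / 2 / (a.im - (p.im + q.im) / 2) with ht
  have ht0 : 0 < t := div_pos (by linarith) hden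
  have ht1 : t < 1 := by
    rw [ht, div_lt_one hden]; linarith
  have him : a.im + t * ((p.im + q.im) / 2 - a.im) = (yN + a.im) / 2 := by
    have : t * (a.im - (p.im + q.im) / 2) = (a.im - yN) / 2 := div_mul_cancel₀ _ hden.ne'
    linarith
  refine ⟨_, pvhw_tri_ptD h ht0 ht1, ?_, ?_⟩
  · show yN < a.im + t * ((p.im + q.im) / 2 - a.im)
    rw [him]; linarith
  · show a.im + t * ((p.im + q.im) / 2 - a.im) < a.im
    rw [him]; linarith

/-- base point below the box -/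
theorem pvhw_baseS {p q a : ℂ} (h : 0 < vorDet p q a) {yS : ℝ} (hp : yS ≤ p.im) (hq : yS ≤ q.im) (ha : a.im < yS) : ∃ z, z ∈ delTo p q a ∧ a.im < z.im ∧ z.im < yS := by
  have hden : 0 < (p.im + q.im) / 2 - a.im := by linarith
  set t : ℝ := (yS - a.im) / 2 / ((p.im + q.im) / 2 - a.im) with ht
  have ht0 : 0 < t := div_pos (by linarith) hden
  have ht1 : t < 1 := by
    rw [ht, div_lt_one hden]; linarith
  have him : a.im + t * ((p.im + q.im) / 2 - a.im) = (yS + a.im) / 2 := by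
    have : t * ((p.im + q.im) / 2 - a.im) = (yS - a.im) / 2 := div_mul_cancel₀ _ hden.ne'
    linarith
  refine ⟨_, pvhw_tri_ptD h ht0 ht1, ?_, ?_⟩
  · show a.im < a.im + t * ((p.im + q.im) / 2 - a.im)
    rw [him]; linarith
  · show a.im + t * ((p.im + q.im) / 2 - a.im) < yS
    rw [him]; linarith

theorem pvhw_tri_re_le {a b c w : ℂ} (hw : w ∈ delTo a b c) {x₀ : ℝ} (ha : a.re ≤ x₀) (hb : b.re ≤ x₀) (hc : c.re ≤ x₀) : w.re ≤ x₀ := by
  obtain ⟨h1, h2, h3⟩ := hw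
  have key : (vorDet a b w + vorDet b c w + vorDet c a w) * (w.re - x₀) = vorDet b c w * (a.re - x₀) + vorDet c a w * (b.re - x₀) + vorDet a b w * (c.re - x₀) := by
    unfold vorDet; ring
  have hS : 0 < vorDet a b w + vorDet b c w + vorDet c a w := by linarith
  by_contra hcon
  rw [not_le] at hcon
  have e0 : 0 < (vorDet a b w + vorDet b c w + vorDet c a w) * (w.re - x₀) := mul_pos hS (by linarith)
  have e1 : vorDet b c w * (a.re - x₀) ≤ 0 := mul_nonpos_of_nonneg_of_nonpos h2.le (by linarith)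
  have e2 : vorDet c a w * (b.re - x₀) ≤ 0 := mul_nonpos_of_nonneg_of_nonpos h3.le (by linarith)
  have e3 : vorDet a b w * (c.re - x₀) ≤ 0 := mul_nonpos_of_nonneg_of_nonpos h1.le (by linarith)
  linarith

theorem pvhw_tri_re_ge {a b c w : ℂ} (hw : w ∈ delTo a b c) {x₀ : ℝ} (ha : x₀ ≤ a.re) (hb : x₀ ≤ b.re) (hc : x₀ ≤ c.re) : x₀ ≤ w.re := by
  obtain ⟨h1, h2, h3⟩ := hw
  have key : (vorDet a b w + vorDet b c w + vorDet c a w) * (w.re - x₀) = vorDet b c w * (a.re - x₀) + vorDet c a w * (b.re - x₀) + vorDet a b w * (c.re - x₀) := by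
    unfold vorDet; ring
  have hS : 0 < vorDet a b w + vorDet b c w + vorDet c a w := by linarith
  by_contra hcon
  rw [not_le] at hcon
  have e0 : (vorDet a b w + vorDet b c w + vorDet c a w) * (w.re - x₀) < 0 := mul_neg_of_pos_of_neg hS (by linarith)
  have e1 : 0 ≤ vorDet b c w * (a.re - x₀) := mul_nonneg h2.le (by linarith)
  have e2 : 0 ≤ vorDet c a w * (b.re - x₀) := mul_nonneg h3.le (by linarith)
  have e3 : 0 ≤ vorDet a b w * (c.re - x₀) := mul_nonneg h1.le (by linarith)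
  linarith

/-! ## 2. any map: the class of the apex, paths off the explored set -/

section gen

variable {V D : Type} {T : PvMap V D} {s : V → Bool} {d : D} {n : ℕ} {M : Set D} {u : V → ZMod 2} {pos : V → ℂ} {z : ℂ}

/-- **the class of the apex of the tip face** `x0` (`z` in the open face, the ray does not meet the side `src x0, tgt x0`, the apex is unexplored) -/
theorem pvhw_apex_val (hM : T.FaceSet M) (h : PvtzPot T s d n M (pvtzChi T pos z) u) {x0 : D} (hx0 : x0 ∈ M)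
    (hpos : 0 < vorDet (pos (T.src x0)) (pos (T.tgt x0)) (pos (T.apex x0))) (hz : z ∈ delTo (pos (T.src x0)) (pos (T.tgt x0)) (pos (T.apex x0)))
    (hpq : delChi z (pos (T.src x0)) (pos (T.tgt x0)) = 0) (ha : T.apex x0 ∉ pvtzEx T s d n) :
    u (T.apex x0) = u (T.src x0) + plI ((pos (T.apex x0)).im ≤ z.im) := by
  have hX : pvtzX T s d n (T.nxt (T.nxt x0)) = 0 := by
    by_contra hne
    rcases pvtz_X_ne_lay hne with ⟨e1, _⟩ | ⟨e1, _⟩
    · rw [T.src_nxt2] at e1; exact ha (Or.inl e1)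
    · rw [T.src_nxt2] at e1; exact ha (Or.inr e1)
  have h1 := h (T.nxt (T.nxt x0)) (Or.inl ((hM.nxt2 T x0).2 hx0))
  rw [T.src_nxt2, T.tgt_nxt2, hX, zero_add] at h1
  have h2 : pvtzChi T pos z (T.nxt (T.nxt x0)) = plI ((pos (T.apex x0)).im ≤ z.im) := by
    unfold pvtzChi delwF
    rw [T.src_nxt2, T.tgt_nxt2]
    exact pvtz_chi_tip hpos hz hpq
  rw [h2] at h1
  exact pvtz_z2_move h1

/-- no explored site, no slit: one class -/
theorem pvhw_join_const {χ : D → ZMod 2} (h : PvtzPot T s d n M χ u) {X : Set V} (hχ : ∀ x, T.src x ∈ X → T.tgt x ∈ X → χ x = 0) (hX : ∀ v ∈ X, v ∉ pvtzEx T s d n)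
    {a b : V} (hab : T.Join M X a b) : u b = u a := by
  by_contra hne
  obtain ⟨e, he1, he2, -, -⟩ := pvtz_land h hχ hab hne
  exact hX e he1 he2

/-- east of the base point, off the explored set, `u + 1[im ≤ im z]` is constant -/
theorem pvhw_join_east (h : PvtzPot T s d n M (pvtzChi T pos z) u) {H : Set V} (hH : ∀ v ∈ H, z.re < (pos v).re ∧ v ∉ pvtzEx T s d n) {a y : V} (hy : T.Join M H a y) :
    u y + plI ((pos y).im ≤ z.im) = u a + plI ((pos a).im ≤ z.im) := by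
  obtain ⟨ha, hpath⟩ := hy
  have hX : ∀ x, T.src x ∈ H → pvtzX T s d n x = 0 := by
    intro x hx
    by_contra hne
    rcases pvtz_X_ne_lay hne with ⟨e1, _⟩ | ⟨e1, _⟩
    · exact (hH _ hx).2 (Or.inl e1)
    · exact (hH _ hx).2 (Or.inr e1)
  induction hpath with
  | refl => rfl
  | @tail v w hv hvw ih =>
    have hvH : v ∈ H := by
      rcases ReflTransGen.cases_tail hv with e | ⟨_, _, hh⟩
      · rw [e]; exact ha
      · exact hh.2
    obtain ⟨x, hx, rfl, rfl⟩ := hvw.1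
    have h1 := h x hx
    rw [hX x hvH, zero_add, pvtz_chi_east (hH _ hvH).1 (hH _ hvw.2).1] at h1
    rw [← ih]
    generalize plI ((pos (T.src x)).im ≤ z.im) = β at h1 ⊢
    generalize plI ((pos (T.tgt x)).im ≤ z.im) = γ at h1 ⊢
    generalize u (T.tgt x) = δ at h1 ⊢
    generalize u (T.src x) = α at h1 ⊢
    revert α β γ δ; decide

theorem pvhw_z2_cancel {a b c : ZMod 2} (h : a + b = c) : a = c + b := by revert a b c; decide

theorem pvhw_z2_fin {y b p a : ZMod 2} (h : y + b = p + a + a) : y = p + b := by revert y b p a; decide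

end gen

/-! ## 3. the Delaunay map: base point, potential, values, IN THE PICTURE OF THE DOOR -/

section delD

variable {Y : Set ℂ}

theorem pvhw_sq_im {ζ zc w : ℂ} {Rk : ℝ} (hζ : ζ ∈ pvtzdDir) (hw : w ∈ pvwSq zc Rk) : (ζ * w).im ≤ Rk + (ζ * zc).im ∧ (ζ * zc).im - Rk ≤ (ζ * w).im := by
  have h1 := pvtzd_sq_le (pvhw_dir_rot hζ).1 hw
  have h2 := pvtzd_sq_le (pvhw_dir_rot hζ).2 hw
  rw [pvhw_re_rotN, pvhw_re_rotN] at h1
  rw [pvhw_re_rotS, pvhw_re_rotS] at h2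
  exact ⟨h1, by linarith⟩

/-- beyond an abscissa `x1` which is neither west of the side of the box nor west of the base point, `u + 1[im ≤ im z]` is constant on the inner mouth -/
theorem pvhw_east_all (h : DelGood Y) {ζ : ℂ} (hζ : ζ ∈ pvtzdDir) {s : Y → Bool} {d : DelDart h} {n : ℕ} {M : (delMap h).Cyc} {zc c z : ℂ} {Rk r r' r₁ δ : ℝ}
    (hM : PvaxAt (delMap h) (dlsPos Y) c r r' M) (hδ : 0 < δ) (hr : 3 * r₁ + 2 * δ ≤ r) (hd : VorDense Y (closedBall c r) δ) {u : Y → ZMod 2}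
    (hu : PvtzPot (delMap h) s d n M.Left (pvtzChi (delMap h) (fun v => ζ * dlsPos Y v) z) u) (hbox : ∀ v ∈ pvtzEx (delMap h) s d n, (v : ℂ) ∈ pvwSq zc Rk)
    {x1 : ℝ} (hx1 : Rk + (ζ * zc).re ≤ x1) (hz : z.re ≤ x1) {A : Y} (hA : x1 < (ζ * A).re) (hAr : ‖(A : ℂ) - c‖ ≤ r₁) :
    ∀ y : Y, x1 < (ζ * y).re → ‖(y : ℂ) - c‖ ≤ r₁ → u y + plI ((ζ * y).im ≤ z.im) = u A + plI ((ζ * A).im ≤ z.im) := by
  intro y hy hyr
  exact pvhw_join_east hu (H := {v | x1 < (ζ * dlsPos Y v).re}) (fun v hv => ⟨lt_of_le_of_lt hz hv, fun hE => absurd (pvtzd_sq_le hζ (hbox v hE)) (not_le.2 (lt_of_le_of_lt hx1 hv))⟩)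
    (pvtzd_join h (pvtzd_dir_norm hζ) hM hδ hA hy hAr hyr hr hd)

/-- **THE TIP POTENTIAL IN THE PICTURE OF THE DOOR**, generic in the tip dart `x0` (`x0 = e n` at an exit tip, `x0 = opp d` at an entrance tip).
`ζ` = ANY direction whose side passes within `κ` of the centre `c` (`hadm`); the tip edge in the square, the tip apex off the square, the tip face within `κ` of `c`.      `hpot` = `pvtz_pot_exit` / `pvtz_pot_ent`. -/
theorem pvhw_potD (h : DelGood Y) {ζ : ℂ} (hζ : ζ ∈ pvtzdDir) {s : Y → Bool} {d : DelDart h} {n : ℕ} {M : (delMap h).Cyc} {zc c : ℂ} {Rk r r' r₁ δ κ : ℝ}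
    (hM : PvaxAt (delMap h) (dlsPos Y) c r r' M) (hδ : 0 < δ) (hr : 3 * r₁ + 2 * δ ≤ r) (hd : VorDense Y (closedBall c r) δ)
    (hbox : ∀ v ∈ pvtzEx (delMap h) s d n, (v : ℂ) ∈ pvwSq zc Rk) {x0 : DelDart h} (hx0 : x0 ∈ M.Left)
    (hpot : ∀ z, z ∈ delTo (ζ * dlsPos Y ((delMap h).src x0)) (ζ * dlsPos Y ((delMap h).tgt x0)) (ζ * dlsPos Y ((delMap h).apex x0)) →
      ∃ u : Y → ZMod 2, PvtzPot (delMap h) s d n M.Left (pvtzChi (delMap h) (fun v => ζ * dlsPos Y v) z) u)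
    (hp : ((delMap h).src x0 : ℂ) ∈ pvwSq zc Rk) (hq : ((delMap h).tgt x0 : ℂ) ∈ pvwSq zc Rk) (ha : ((delMap h).apex x0 : ℂ) ∉ pvwSq zc Rk)
    (h1 : ‖((delMap h).src x0 : ℂ) - c‖ ≤ κ) (h2 : ‖((delMap h).tgt x0 : ℂ) - c‖ ≤ κ) (h3 : ‖((delMap h).apex x0 : ℂ) - c‖ ≤ κ)
    (hadm : Rk + (ζ * zc).re ≤ (ζ * c).re + κ) (hbig : κ ≤ Rk) (hroom : 2 * κ + 5 * δ ≤ r₁) :
    ∃ z : ℂ, ∃ u : Y → ZMod 2,
      z ∈ delTo (ζ * dlsPos Y ((delMap h).src x0)) (ζ * dlsPos Y ((delMap h).tgt x0)) (ζ * dlsPos Y ((delMap h).apex x0)) ∧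
      PvtzPot (delMap h) s d n M.Left (pvtzChi (delMap h) (fun v => ζ * dlsPos Y v) z) u ∧
      (∀ x, ((delMap h).src x : ℂ) ∈ pvwSq zc Rk → ((delMap h).tgt x : ℂ) ∈ pvwSq zc Rk → pvtzChi (delMap h) (fun v => ζ * dlsPos Y v) z x = 0) ∧
      ∀ y : Y, Rk + (ζ * zc).re < (ζ * y).re → ‖(y : ℂ) - c‖ ≤ r₁ → u y = u ((delMap h).src x0) + plI ((ζ * y).im ≤ z.im) := by
  have hT := dls_isSph h
  have hζ1 := pvtzd_dir_norm hζ
  have hζ0 : ζ ≠ 0 := fun e => by rw [e, norm_zero] at hζ1; exact zero_ne_one hζ1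
  have hκ0 : 0 ≤ κ := (norm_nonneg _).trans h1
  have hκ1 : κ ≤ r₁ := by linarith
  have hpos : 0 < vorDet (ζ * dlsPos Y ((delMap h).src x0)) (ζ * dlsPos Y ((delMap h).tgt x0)) (ζ * dlsPos Y ((delMap h).apex x0)) := (pvtzd_geo h M.Left hζ0).ori x0 hx0
  have hpE : (ζ * dlsPos Y ((delMap h).src x0)).re ≤ Rk + (ζ * zc).re := pvtzd_sq_le hζ hp
  have hqE : (ζ * dlsPos Y ((delMap h).tgt x0)).re ≤ Rk + (ζ * zc).re := pvtzd_sq_le hζ hq
  have hpI : (ζ * dlsPos Y ((delMap h).src x0)).im ≤ Rk + (ζ * zc).im ∧ (ζ * zc).im - Rk ≤ (ζ * dlsPos Y ((delMap h).src x0)).im := pvhw_sq_im hζ hp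
  have hqI : (ζ * dlsPos Y ((delMap h).tgt x0)).im ≤ Rk + (ζ * zc).im ∧ (ζ * zc).im - Rk ≤ (ζ * dlsPos Y ((delMap h).tgt x0)).im := pvhw_sq_im hζ hq
  have haEx : (delMap h).apex x0 ∉ pvtzEx (delMap h) s d n := fun hE => ha (hbox _ hE)
  have hp_re : |(ζ * dlsPos Y ((delMap h).src x0)).re - (ζ * c).re| ≤ κ := pvhw_re_le hζ1 h1
  have ha_re : |(ζ * dlsPos Y ((delMap h).apex x0)).re - (ζ * c).re| ≤ κ := pvhw_re_le hζ1 h3
  rw [abs_le] at hp_re ha_re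
  by_cases hE : Rk + (ζ * zc).re < (ζ * dlsPos Y ((delMap h).apex x0)).re
  · -- the apex is beyond the side of the door
    obtain ⟨x1, hx1, hgap⟩ := pvtzd_gap (pl_VOf_finite hT M hM.fin) (fun v : Y => (ζ * v).re) (Rk + (ζ * zc).re)
    obtain ⟨z, hz, hz1, hz2⟩ := pvtz_base hpos hpE hqE (lt_min hx1 hE) (min_le_right x1 _)
    obtain ⟨u, hu⟩ := hpot z hz
    refine ⟨z, u, hz, hu, fun x e1 e2 => pvtz_chi_west (lt_of_le_of_lt (pvtzd_sq_le hζ e1) hz1) (lt_of_le_of_lt (pvtzd_sq_le hζ e2) hz1), fun y hy hyr => ?_⟩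
    have hyV : y ∈ (delMap h).VOf M.Left := by
      rw [pl_VOf_left hT M]
      exact Or.inr (hM.inn y (by show ‖(y : ℂ) - c‖ ≤ r; linarith))
    have e1 := pvhw_east_all h hζ hM hδ hr hd hu hbox hz1.le le_rfl (A := (delMap h).apex x0) (hz2.trans_le (min_le_right _ _)) (h3.trans hκ1) y
      (lt_of_lt_of_le (hz2.trans_le (min_le_left _ _)) (hgap y hyV hy)) hyr
    have e2 := pvhw_apex_val (pl_left_face M) hu hx0 hpos hz (pvtz_chi_west' (lt_of_le_of_lt hpE hz1) (lt_of_le_of_lt hqE hz1)) haEx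
    rw [e2] at e1
    exact pvhw_z2_fin e1
  rw [not_lt] at hE
  -- the abscissa of the auxiliary site
  set a₀ : ℝ := Rk + (ζ * zc).re - (ζ * c).re + 2 * δ with ha₀
  have ha₀' : |a₀| ≤ κ + 2 * δ := abs_le.2 ⟨by rw [ha₀]; linarith [hp_re.1], by rw [ha₀]; linarith⟩
  obtain ⟨ζ', hζ', hout⟩ := pvtzd_sq_out (zc := zc) (r := Rk) ha
  rcases pvhw_dir_cases hζ hζ' with rfl | rfl | rfl | rfl
  · exact absurd hout (not_lt.2 hE)
  · exfalso
    simp only [neg_mul, Complex.neg_re] at hout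
    have g : (ζ * dlsPos Y ((delMap h).apex x0)).re = (ζ * ((delMap h).apex x0 : ℂ)).re := rfl
    linarith [ha_re.1]
  · -- beyond the NORTH side only
    rw [pvhw_re_rotN, pvhw_re_rotN] at hout
    obtain ⟨z, hz, hz1, hz2⟩ := pvhw_baseN hpos hpI.1 hqI.1 hout
    obtain ⟨u, hu⟩ := hpot z hz
    have hz3 : |z.im - (ζ * c).im| ≤ κ := pvhw_tri_im hz (pvhw_im_le hζ1 h1) (pvhw_im_le hζ1 h2) (pvhw_im_le hζ1 h3)
    have hzre : z.re ≤ Rk + (ζ * zc).re := pvhw_tri_re_le hz hpE hqE hE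
    rw [abs_le] at hz3
    refine ⟨z, u, hz, hu, fun x e1 e2 => pvtz_chi_low ((pvhw_sq_im hζ e1).1.trans hz1.le) ((pvhw_sq_im hζ e2).1.trans hz1.le), fun y hy hyr => ?_⟩
    obtain ⟨A, hA1, hA2, hA3⟩ := pvhw_site_at hζ1 hd a₀ (κ + 2 * δ) (by
      rw [abs_of_nonneg (by linarith : (0 : ℝ) ≤ κ + 2 * δ)]; linarith)
    rw [abs_of_nonneg (by linarith : (0 : ℝ) ≤ κ + 2 * δ)] at hA3
    have hA2' := abs_le.1 hA2
    have hAr : ‖(A : ℂ) - c‖ ≤ r₁ := by linarith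
    have hAz : z.im < (ζ * A).im := by linarith [hA2'.1, hz3.2]
    have hJ := pvtzd_join h (pvtzd_dir_norm hζ') hM hδ (x0 := z.im) (a := (delMap h).apex x0) (y := A) (by rw [pvhw_re_rotN]; exact hz2) (by rw [pvhw_re_rotN]; exact hAz) (h3.trans hκ1) hAr hr hd
    have e0 : u A = u ((delMap h).apex x0) := pvhw_join_const hu (fun x g1 g2 => by
        have g1' : z.im < (-Complex.I * ζ * dlsPos Y ((delMap h).src x)).re := g1
        have g2' : z.im < (-Complex.I * ζ * dlsPos Y ((delMap h).tgt x)).re := g2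
        rw [pvhw_re_rotN] at g1' g2'
        exact pvtz_chi_high g1' g2') (fun v hv hEx => by
        have g : z.im < (-Complex.I * ζ * dlsPos Y v).re := hv
        rw [pvhw_re_rotN] at g
        have g' : (ζ * dlsPos Y v).im ≤ Rk + (ζ * zc).im := (pvhw_sq_im hζ (hbox v hEx)).1
        linarith) hJ
    have e2 := pvhw_apex_val (pl_left_face M) hu hx0 hpos hz (by unfold delChi; exact delw_chiR_low (hpI.1.trans hz1.le) (hqI.1.trans hz1.le)) haEx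
    rw [pl_hx_I_neg (not_le.2 hz2), add_zero] at e2
    have e1 := pvhw_east_all h hζ hM hδ hr hd hu hbox le_rfl hzre (A := A) (by rw [ha₀] at hA1; linarith) hAr y hy hyr
    rw [pl_hx_I_neg (not_le.2 hAz), add_zero, e0, e2] at e1
    exact pvhw_z2_cancel e1
  · -- beyond the SOUTH side only
    rw [pvhw_re_rotS, pvhw_re_rotS] at hout
    obtain ⟨z, hz, hz1, hz2⟩ := pvhw_baseS (yS := (ζ * zc).im - Rk) hpos hpI.2 hqI.2 (by
      have g : (ζ * dlsPos Y ((delMap h).apex x0)).im = (ζ * ((delMap h).apex x0 : ℂ)).im := rfl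
      linarith)
    obtain ⟨u, hu⟩ := hpot z hz
    have hz3 : |z.im - (ζ * c).im| ≤ κ := pvhw_tri_im hz (pvhw_im_le hζ1 h1) (pvhw_im_le hζ1 h2) (pvhw_im_le hζ1 h3)
    have hzre : z.re ≤ Rk + (ζ * zc).re := pvhw_tri_re_le hz hpE hqE hE
    rw [abs_le] at hz3
    refine ⟨z, u, hz, hu, fun x e1 e2 => pvtz_chi_high (lt_of_lt_of_le hz2 (pvhw_sq_im hζ e1).2) (lt_of_lt_of_le hz2 (pvhw_sq_im hζ e2).2), fun y hy hyr => ?_⟩
    obtain ⟨A, hA1, hA2, hA3⟩ := pvhw_site_at hζ1 hd a₀ (-(κ + 2 * δ)) (by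
      rw [abs_neg, abs_of_nonneg (by linarith : (0 : ℝ) ≤ κ + 2 * δ)]; linarith)
    rw [abs_neg, abs_of_nonneg (by linarith : (0 : ℝ) ≤ κ + 2 * δ)] at hA3
    have hA2' := abs_le.1 hA2
    have hAr : ‖(A : ℂ) - c‖ ≤ r₁ := by linarith
    have hAz : (ζ * A).im < z.im := by linarith [hA2'.2, hz3.1]
    have hJ := pvtzd_join h (pvtzd_dir_norm hζ') hM hδ (x0 := -z.im) (a := (delMap h).apex x0) (y := A) (by rw [pvhw_re_rotS]; exact neg_lt_neg hz1) (by rw [pvhw_re_rotS]; exact neg_lt_neg hAz) (h3.trans hκ1) hAr hr hd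
    have e0 : u A = u ((delMap h).apex x0) := pvhw_join_const hu (fun x g1 g2 => by
        have g1' : -z.im < (Complex.I * ζ * dlsPos Y ((delMap h).src x)).re := g1
        have g2' : -z.im < (Complex.I * ζ * dlsPos Y ((delMap h).tgt x)).re := g2
        rw [pvhw_re_rotS] at g1' g2'
        exact pvtz_chi_low (by linarith) (by linarith)) (fun v hv hEx => by
        have g : -z.im < (Complex.I * ζ * dlsPos Y v).re := hv
        rw [pvhw_re_rotS] at g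
        have g' : (ζ * zc).im - Rk ≤ (ζ * dlsPos Y v).im := (pvhw_sq_im hζ (hbox v hEx)).2
        linarith) hJ
    have e2 := pvhw_apex_val (pl_left_face M) hu hx0 hpos hz (by unfold delChi; exact delw_chiR_high (lt_of_lt_of_le hz2 hpI.2) (lt_of_lt_of_le hz2 hqI.2)) haEx
    rw [pl_hx_I_pos hz1.le] at e2
    have e1 := pvhw_east_all h hζ hM hδ hr hd hu hbox le_rfl hzre (A := A) (by rw [ha₀] at hA1; linarith) hAr y hy hyr
    rw [pl_hx_I_pos hAz.le, e0, e2] at e1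
    exact pvhw_z2_fin e1

/-- **EXIT TIP, PICTURE OF THE DOOR**: base point, potential, the slit vanishes on the edges of the square, values at ALL the sites of the inner mouth beyond the side of the door -/
theorem pvhw_potD_exit (h : DelGood Y) {ζ : ℂ} (hζ : ζ ∈ pvtzdDir) {s : Y → Bool} {d : DelDart h} {n : ℕ} {M : (delMap h).Cyc} {zc c : ℂ} {Rk r r' r₁ δ κ : ℝ}
    (hM : PvaxAt (delMap h) (dlsPos Y) c r r' M) (hδ : 0 < δ) (hr : 3 * r₁ + 2 * δ ≤ r) (hd : VorDense Y (closedBall c r) δ)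
    (hstart : (delMap h).opp d ∉ M.Left) (htip : pvasIt (delMap h) s d n ∈ M.Left)
    (hin : ∀ k, k ≤ n → ((delMap h).src (pvasIt (delMap h) s d k) : ℂ) ∈ pvwSq zc Rk ∧ ((delMap h).tgt (pvasIt (delMap h) s d k) : ℂ) ∈ pvwSq zc Rk)
    (hout : ((delMap h).apex (pvasIt (delMap h) s d n) : ℂ) ∉ pvwSq zc Rk)
    (h1 : ‖((delMap h).src (pvasIt (delMap h) s d n) : ℂ) - c‖ ≤ κ) (h2 : ‖((delMap h).tgt (pvasIt (delMap h) s d n) : ℂ) - c‖ ≤ κ) (h3 : ‖((delMap h).apex (pvasIt (delMap h) s d n) : ℂ) - c‖ ≤ κ)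
    (hadm : Rk + (ζ * zc).re ≤ (ζ * c).re + κ) (hbig : κ ≤ Rk) (hroom : 2 * κ + 5 * δ ≤ r₁) :
    ∃ z : ℂ, ∃ u : Y → ZMod 2,
      z ∈ delTo (ζ * dlsPos Y ((delMap h).src (pvasIt (delMap h) s d n))) (ζ * dlsPos Y ((delMap h).tgt (pvasIt (delMap h) s d n))) (ζ * dlsPos Y ((delMap h).apex (pvasIt (delMap h) s d n))) ∧
      PvtzPot (delMap h) s d n M.Left (pvtzChi (delMap h) (fun v => ζ * dlsPos Y v) z) u ∧
      (∀ x, ((delMap h).src x : ℂ) ∈ pvwSq zc Rk → ((delMap h).tgt x : ℂ) ∈ pvwSq zc Rk → pvtzChi (delMap h) (fun v => ζ * dlsPos Y v) z x = 0) ∧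
      ∀ y : Y, Rk + (ζ * zc).re < (ζ * y).re → ‖(y : ℂ) - c‖ ≤ r₁ → u y = u ((delMap h).src (pvasIt (delMap h) s d n)) + plI ((ζ * y).im ≤ z.im) := by
  have hζ1 := pvtzd_dir_norm hζ
  have hζ0 : ζ ≠ 0 := fun e => by rw [e, norm_zero] at hζ1; exact zero_ne_one hζ1
  have hgeo := pvtzd_geo h M.Left hζ0
  refine pvhw_potD h hζ hM hδ hr hd (fun v hv => ?_) htip (fun z hz => pvtz_pot_exit (dls_isSph h) M hM.fin s d n hstart _ (pvtz_chi_sym _ z)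
    (pvtz_chi_face hgeo.ori hz fun x hx hzx => hgeo.tile x hx _ htip z hz hzx)) (hin n le_rfl).1 (hin n le_rfl).2 hout h1 h2 h3 hadm hbig hroom
  rcases hv with ⟨k, hk, rfl⟩ | ⟨k, hk, rfl⟩
  · exact (hin k hk).1
  · exact (hin k hk).2

/-- **ENTRANCE TIP, PICTURE OF THE DOOR** -/
theorem pvhw_potD_ent (h : DelGood Y) {ζ : ℂ} (hζ : ζ ∈ pvtzdDir) {s : Y → Bool} {d : DelDart h} {n : ℕ} {M : (delMap h).Cyc} {zc c : ℂ} {Rk r r' r₁ δ κ : ℝ}
    (hM : PvaxAt (delMap h) (dlsPos Y) c r r' M) (hδ : 0 < δ) (hr : 3 * r₁ + 2 * δ ≤ r) (hd : VorDense Y (closedBall c r) δ)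
    (hstop : pvasIt (delMap h) s d n ∉ M.Left) (htip : (delMap h).opp d ∈ M.Left)
    (hin : ∀ k, k ≤ n → ((delMap h).src (pvasIt (delMap h) s d k) : ℂ) ∈ pvwSq zc Rk ∧ ((delMap h).tgt (pvasIt (delMap h) s d k) : ℂ) ∈ pvwSq zc Rk)
    (hout : ((delMap h).apex ((delMap h).opp d) : ℂ) ∉ pvwSq zc Rk)
    (h1 : ‖((delMap h).src d : ℂ) - c‖ ≤ κ) (h2 : ‖((delMap h).tgt d : ℂ) - c‖ ≤ κ) (h3 : ‖((delMap h).apex ((delMap h).opp d) : ℂ) - c‖ ≤ κ)
    (hadm : Rk + (ζ * zc).re ≤ (ζ * c).re + κ) (hbig : κ ≤ Rk) (hroom : 2 * κ + 5 * δ ≤ r₁) :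
    ∃ z : ℂ, ∃ u : Y → ZMod 2,
      z ∈ delTo (ζ * dlsPos Y ((delMap h).src ((delMap h).opp d))) (ζ * dlsPos Y ((delMap h).tgt ((delMap h).opp d))) (ζ * dlsPos Y ((delMap h).apex ((delMap h).opp d))) ∧
      PvtzPot (delMap h) s d n M.Left (pvtzChi (delMap h) (fun v => ζ * dlsPos Y v) z) u ∧
      (∀ x, ((delMap h).src x : ℂ) ∈ pvwSq zc Rk → ((delMap h).tgt x : ℂ) ∈ pvwSq zc Rk → pvtzChi (delMap h) (fun v => ζ * dlsPos Y v) z x = 0) ∧
      ∀ y : Y, Rk + (ζ * zc).re < (ζ * y).re → ‖(y : ℂ) - c‖ ≤ r₁ → u y = u ((delMap h).tgt d) + plI ((ζ * y).im ≤ z.im) := by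
  have hζ1 := pvtzd_dir_norm hζ
  have hζ0 : ζ ≠ 0 := fun e => by rw [e, norm_zero] at hζ1; exact zero_ne_one hζ1
  have hgeo := pvtzd_geo h M.Left hζ0
  have hb := hin 0 (Nat.zero_le n)
  rw [pvas_it_zero] at hb
  have := pvhw_potD h hζ hM hδ hr hd (s := s) (d := d) (n := n) (zc := zc) (Rk := Rk) (fun v hv => by
      rcases hv with ⟨k, hk, rfl⟩ | ⟨k, hk, rfl⟩
      · exact (hin k hk).1
      · exact (hin k hk).2) htip (fun z hz => pvtz_pot_ent (dls_isSph h) M hM.fin s d n hstop _ (pvtz_chi_sym _ z)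
    (pvtz_chi_face hgeo.ori hz fun x hx hzx => hgeo.tile x hx _ htip z hz hzx)) (by rw [(delMap h).src_opp']; exact hb.2) (by rw [(delMap h).tgt_opp]; exact hb.1) hout
    (by rw [(delMap h).src_opp']; exact h2) (by rw [(delMap h).tgt_opp]; exact h1) h3 hadm hbig hroom
  rwa [(delMap h).src_opp'] at this

end delD

/-! ## 4. the door, form D -/

section doorD

variable {V D : Type} {T : PvMap V D} {s : V → Bool} {d : D} {n : ℕ} {M : Set D} {u : V → ZMod 2} {X : Set V} {β β₀ : ZMod 2} {P : V → ℂ} {C z : ℂ} {xB κ μ r₂ ε : ℝ}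

/-- **THE DOOR, FORM D** (picture of the door normal; the base point of the ray is only known to lie within `κ` of `C`): as `PvhwDoor`, but the lane crosses the strip of the ray only WEST OF `re C - κ` -/
structure PvhwDoorD (P : V → ℂ) (C : ℂ) (xB κ μ r₂ ε : ℝ) (X : Set V) : Prop where
  front : ∀ v ∈ X, ‖P v - C‖ ≤ r₂ + μ → (P v).re < C.re - κ ∨ κ + μ < |(P v).im - C.im|
  collar : ∀ v ∈ X, r₂ - μ < ‖P v - C‖ → ‖P v - C‖ ≤ r₂ → xB < (P v).re ∧ κ < ε * ((P v).im - C.im)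

theorem PvhwDoorD.slit (hD : PvhwDoorD P C xB κ μ r₂ ε X) (hz1 : C.re - κ ≤ z.re) (hz2 : |z.im - C.im| ≤ κ) {x : D} (h1 : T.src x ∈ X) (h2 : T.tgt x ∈ X) (h3 : ‖P (T.src x) - C‖ ≤ r₂)
    (hlen : ‖P (T.src x) - P (T.tgt x)‖ ≤ μ) : pvtzChi T P z x = 0 := by
  have hμ : 0 ≤ μ := (norm_nonneg _).trans hlen
  have h4 : ‖P (T.tgt x) - C‖ ≤ r₂ + μ := by
    calc ‖P (T.tgt x) - C‖ = ‖(P (T.src x) - C) - (P (T.src x) - P (T.tgt x))‖ := by ring_nf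
      _ ≤ ‖P (T.src x) - C‖ + ‖P (T.src x) - P (T.tgt x)‖ := norm_sub_le _ _
      _ ≤ r₂ + μ := by linarith
  rcases hD.front _ h1 (by linarith) with e1 | e1
  · rcases hD.front _ h2 h4 with e2 | e2
    · exact pvtz_chi_west (by linarith) (by linarith)
    · rw [← pvtz_chi_sym P z x]
      exact pvtz_chi_strip (μ := μ) (by rw [T.src_opp', T.tgt_opp, norm_sub_rev]; exact hlen) (by rw [T.src_opp']; exact pvhw_strip hz2 e2)
  · exact pvtz_chi_strip hlen (pvhw_strip hz2 e1)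

/-- **`PvhwSide` FROM A DOOR, FORM D**.   `hval` = `pvhw_potD_exit`, `pvhw_potD_ent`. -/
theorem PvhwDoorD.side (hD : PvhwDoorD P C xB κ μ r₂ ε X) (pot : PvtzPot T s d n M (pvtzChi T P z) u) (hM : ∀ x, ‖P (T.src x) - C‖ ≤ r₂ → x ∈ M)
    (hshort : ∀ x, ‖P (T.src x) - C‖ ≤ r₂ → ‖P (T.src x) - P (T.tgt x)‖ ≤ μ) (hz1 : C.re - κ ≤ z.re) (hz2 : |z.im - C.im| ≤ κ)
    (hval : ∀ y, xB < (P y).re → ‖P y - C‖ ≤ r₂ → u y = β₀ + plI ((P y).im ≤ z.im)) (hEx : ∀ v ∈ X, v ∈ pvtzEx T s d n → ‖P v - C‖ ≤ r₂)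
    (hβ : (ε = 1 ∧ β = β₀) ∨ (ε = -1 ∧ β = β₀ + 1)) : PvhwSide T s d n M (pvtzChi T P z) u X {v | ‖P v - C‖ ≤ r₂} β := by
  refine ⟨pot, hM, fun x h1 h2 h3 => hD.slit hz1 hz2 h1 h2 h3 (hshort x h3), hEx, fun x h1 h3 h2 h4 => ?_⟩
  have hlen := hshort x h3
  have h5 : r₂ - μ < ‖P (T.src x) - C‖ := by
    have h4' : r₂ < ‖P (T.tgt x) - C‖ := not_le.1 h4
    have : ‖P (T.tgt x) - C‖ ≤ ‖P (T.src x) - C‖ + ‖P (T.src x) - P (T.tgt x)‖ := by
      calc ‖P (T.tgt x) - C‖ = ‖(P (T.src x) - C) - (P (T.src x) - P (T.tgt x))‖ := by ring_nf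
        _ ≤ _ := norm_sub_le _ _
    linarith
  obtain ⟨e1, e2⟩ := hD.collar _ h1 h5 h3
  rw [hval _ e1 h3]
  rw [abs_le] at hz2
  rcases hβ with ⟨rfl, rfl⟩ | ⟨rfl, rfl⟩
  · rw [pl_hx_I_neg (by rw [not_le]; linarith [hz2.2]), add_zero]
  · rw [pl_hx_I_pos (by linarith [hz2.1])]

end doorD

/-! ## 5. the two tips in the Delaunay map, form D -/

section stepD

variable {V D : Type} {T : PvMap V D} {pos : V → ℂ} {s : V → Bool} {d : D} {n : ℕ} {B : Set ℂ}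

theorem pvhw_apex_inD (hin : ∀ k, k ≤ n → pos (T.src (pvasIt T s d k)) ∈ B ∧ pos (T.tgt (pvasIt T s d k)) ∈ B) {k : ℕ} (hk : k < n) : pos (T.apex (pvasIt T s d k)) ∈ B := by
  rcases pvas_step_ends s (pvasIt T s d k) with ⟨_, e, _⟩ | ⟨_, _, e⟩
  · rw [← e, ← pvas_it_succ]; exact (hin (k + 1) hk).1
  · rw [← e, ← pvas_it_succ]; exact (hin (k + 1) hk).2

/-- every stretch of the strand inside the mouth is a piece off a slit which vanishes on the edges of the box -/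
theorem pvhw_pieceD {χ : D → ZMod 2} {M : Set D} (hin : ∀ k, k ≤ n → pos (T.src (pvasIt T s d k)) ∈ B ∧ pos (T.tgt (pvasIt T s d k)) ∈ B)
    (hχ : ∀ x, pos (T.src x) ∈ B → pos (T.tgt x) ∈ B → χ x = 0) {m n' : ℕ} (hn : n' ≤ n) (hmem : ∀ k, m ≤ k → k < n' → pvasIt T s d k ∈ M) : PvtzPiece T s d M χ m n' := by
  refine ⟨hmem, fun k _ hk x hx => ?_⟩
  have hk' : k < n := lt_of_lt_of_le hk hn
  have h1 := (hin k hk'.le).1
  have h2 := (hin k hk'.le).2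
  have h3 := pvhw_apex_inD hin hk'
  rcases hx with rfl | rfl | rfl
  · exact hχ _ h1 h2
  · exact hχ _ (by rw [T.src_nxt]; exact h2) (by rw [T.tgt_nxt]; exact h3)
  · exact hχ _ (by rw [T.src_nxt2]; exact h3) (by rw [T.tgt_nxt2]; exact h1)

/-- entrance stub: the positions are pairwise distinct -/
theorem pvhw_injD_ent (hbw : pvasBW T s d) (hin : ∀ k, k ≤ n → pos (T.src (pvasIt T s d k)) ∈ B ∧ pos (T.tgt (pvasIt T s d k)) ∈ B) (hout : pos (T.apex (T.opp d)) ∉ B) :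
    ∀ i j, i ≤ n → j ≤ n → pvasIt T s d i = pvasIt T s d j → i = j := by
  have key : ∀ i j, i < j → j ≤ n → pvasIt T s d i ≠ pvasIt T s d j := by
    intro i j hij hj e
    have h0 := pvas_it_return hbw hij.le e
    obtain ⟨p, hp⟩ : ∃ p, j - i = p + 1 := ⟨j - i - 1, by omega⟩
    rw [hp] at h0
    have hpn : p < n := by omega
    have hsf : T.SF (pvasIt T s d p) (T.opp d) := by
      have := pvas_step_sf (T := T) s (pvasIt T s d p)
      rwa [← pvas_it_succ, h0] at this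
    have h1 := (hin p hpn.le).1
    have h2 := (hin p hpn.le).2
    have h3 := pvhw_apex_inD hin hpn
    rcases hsf with e | e | e
    · rw [e] at hout; exact hout h3
    · rw [e, T.apex_nxt] at hout; exact hout h1
    · rw [e, T.apex_nxt2] at hout; exact hout h2
  intro i j hi hj e
  rcases Nat.lt_trichotomy i j with h | h | h
  · exact absurd e (key i j h hj)
  · exact h
  · exact absurd e.symm (key j i h hi)

end stepD

section tipsD

variable {Y : Set ℂ}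

theorem pvhw_re_geD {ζ : ℂ} (hζ : ‖ζ‖ = 1) {w c : ℂ} {κ : ℝ} (h : ‖w - c‖ ≤ κ) : (ζ * c).re - κ ≤ (ζ * w).re := by
  have := (abs_le.1 (pvhw_re_le hζ h)).1
  linarith

/-- **EXIT TIP, DELAUNAY MAP, FORM D**: `pvhw_exit` in the picture of the door normal `ζ`; the apex of the tip face is only asked to be OFF THE SQUARE -/
theorem pvhw_exitD (h : DelGood Y) {ζ : ℂ} (hζ : ζ ∈ pvtzdDir) {s : Y → Bool} {d : DelDart h} {n : ℕ} {M : (delMap h).Cyc} {zc c : ℂ} {Rk r r' r₁ r₂ δ κ : ℝ}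
    (hM : PvaxAt (delMap h) (dlsPos Y) c r r' M) (hδ : 0 < δ) (hr : 3 * r₁ + 2 * δ ≤ r) (hd : VorDense Y (closedBall c r) δ)
    (hbw : pvasBW (delMap h) s d) (hstart : (delMap h).opp d ∉ M.Left) (htip : pvasIt (delMap h) s d n ∈ M.Left)
    (hin : ∀ k, k ≤ n → ((delMap h).src (pvasIt (delMap h) s d k) : ℂ) ∈ pvwSq zc Rk ∧ ((delMap h).tgt (pvasIt (delMap h) s d k) : ℂ) ∈ pvwSq zc Rk)
    (hout : ((delMap h).apex (pvasIt (delMap h) s d n) : ℂ) ∉ pvwSq zc Rk)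
    (h1 : ‖((delMap h).src (pvasIt (delMap h) s d n) : ℂ) - c‖ ≤ κ) (h2 : ‖((delMap h).tgt (pvasIt (delMap h) s d n) : ℂ) - c‖ ≤ κ) (h3 : ‖((delMap h).apex (pvasIt (delMap h) s d n) : ℂ) - c‖ ≤ κ)
    (hadm : Rk + (ζ * zc).re ≤ (ζ * c).re + κ) (hbig : κ ≤ Rk) (hroom : 2 * κ + 5 * δ ≤ r₁) (hr₂ : r₂ ≤ r₁)
    {X : Set Y} (hD : PvhwDoorD (fun v => ζ * dlsPos Y v) (ζ * c) (Rk + (ζ * zc).re) κ (2 * δ) r₂ (-1) X) (hEx : ∀ v ∈ X, v ∈ pvtzEx (delMap h) s d n → ‖(v : ℂ) - c‖ ≤ r₂)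
    {m : ℕ} (hm : m ≤ n) (hpiece : ∀ k, m ≤ k → k < n → pvasIt (delMap h) s d k ∈ M.Left)
    (hcalm : ∀ k, k < m → r₂ < ‖((delMap h).src (pvasIt (delMap h) s d k) : ℂ) - c‖ ∧ r₂ < ‖((delMap h).tgt (pvasIt (delMap h) s d k) : ℂ) - c‖) :
    ∃ (χ : DelDart h → ZMod 2) (u : Y → ZMod 2) (β : ZMod 2), PvhwSide (delMap h) s d n M.Left χ u X {v : Y | ‖(v : ℂ) - c‖ ≤ r₂} β ∧
      (∀ v ∈ X, v ∈ pvtzEx (delMap h) s d n → u v = β → v ∈ pvasLayW (delMap h) s d n) ∧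
      ∀ a : Y, Rk + (ζ * zc).re < (ζ * a).re → ‖(a : ℂ) - c‖ ≤ r₂ → κ < (ζ * a).im - (ζ * c).im → u a ≠ β := by
  have hζ1 := pvtzd_dir_norm hζ
  have hκ0 : 0 ≤ κ := (norm_nonneg _).trans h1
  obtain ⟨z, u, hz, hu, hχ, hval⟩ := pvhw_potD_exit h hζ hM hδ hr hd hstart htip hin hout h1 h2 h3 hadm hbig hroom
  have hz2 : |z.im - (ζ * c).im| ≤ κ := pvhw_tri_im hz (pvhw_im_le hζ1 h1) (pvhw_im_le hζ1 h2) (pvhw_im_le hζ1 h3)
  have hz1 : (ζ * c).re - κ ≤ z.re := pvhw_tri_re_ge hz (pvhw_re_geD hζ1 h1) (pvhw_re_geD hζ1 h2) (pvhw_re_geD hζ1 h3)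
  have hval' : ∀ y : Y, Rk + (ζ * zc).re < ((fun v => ζ * dlsPos Y v) y).re → ‖(fun v => ζ * dlsPos Y v) y - ζ * c‖ ≤ r₂ →
      u y = u ((delMap h).src (pvasIt (delMap h) s d n)) + plI (((fun v => ζ * dlsPos Y v) y).im ≤ z.im) := by
    intro y hy1 hy2
    rw [pvtzd_norm_mul hζ1] at hy2
    exact hval y hy1 (hy2.trans hr₂)
  have hβ : ((-1 : ℝ) = 1 ∧ u ((delMap h).src (pvasIt (delMap h) s d n)) + 1 = u ((delMap h).src (pvasIt (delMap h) s d n))) ∨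
      ((-1 : ℝ) = -1 ∧ u ((delMap h).src (pvasIt (delMap h) s d n)) + 1 = u ((delMap h).src (pvasIt (delMap h) s d n)) + 1) := Or.inr ⟨rfl, rfl⟩
  have hS := hD.side (β := u ((delMap h).src (pvasIt (delMap h) s d n)) + 1) hu (fun x hx => by
      rw [pvtzd_norm_mul hζ1] at hx
      exact hM.inn _ (by show ‖((delMap h).src x : ℂ) - c‖ ≤ r; exact hx.trans (by linarith)) x rfl) (fun x hx => by
      rw [pvtzd_norm_mul hζ1] at hx ⊢
      exact pvhw_short h hδ (R := r₂) (fun w hw => hd w (closedBall_subset_closedBall (by linarith) hw)) x hx) hz1 hz2 hval' (fun v hv hE => by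
      rw [pvtzd_norm_mul hζ1]; exact hEx v hv hE) hβ
  rw [pvhw_ball_eq hζ1] at hS
  refine ⟨_, u, _, hS, fun v hv hE hvβ => ?_, fun a ha1 ha2 ha3 => ?_⟩
  · have hp := pvhw_pieceD (pos := dlsPos Y) (B := pvwSq zc Rk) (M := M.Left) hin hχ le_rfl hpiece
    have hvr := hEx v hv hE
    have hvB : v ∈ pvtzB (delMap h) s d m n ∪ pvtzW (delMap h) s d m n := by
      rcases hE with ⟨k, hk, rfl⟩ | ⟨k, hk, rfl⟩
      · refine Or.inl ⟨k, ?_, hk, rfl⟩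
        by_contra hkm
        exact absurd hvr (not_le.2 (hcalm k (not_le.1 hkm)).1)
      · refine Or.inr ⟨k, ?_, hk, rfl⟩
        by_contra hkm
        exact absurd hvr (not_le.2 (hcalm k (not_le.1 hkm)).2)
    refine pvhw_bank_white (pl_left_face M) hbw hu le_rfl hp hvB ?_
    rw [hvβ, ← (pvtz_piece_const (pl_left_face M) hbw hu hp hm le_rfl).1]
    exact pvhw_z2_succ_ne _
  · exact pvhw_start (ε := -1) hz2 hval' hβ ha1 (by rw [pvtzd_norm_mul hζ1]; exact ha2) (by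
      show κ < - -1 * ((ζ * a).im - (ζ * c).im)
      linarith)

/-- **ENTRANCE TIP, DELAUNAY MAP, FORM D** -/
theorem pvhw_entD (h : DelGood Y) {ζ : ℂ} (hζ : ζ ∈ pvtzdDir) {s : Y → Bool} {d : DelDart h} {n : ℕ} {M : (delMap h).Cyc} {zc c : ℂ} {Rk r r' r₁ r₂ δ κ : ℝ}
    (hM : PvaxAt (delMap h) (dlsPos Y) c r r' M) (hδ : 0 < δ) (hr : 3 * r₁ + 2 * δ ≤ r) (hd : VorDense Y (closedBall c r) δ)
    (hbw : pvasBW (delMap h) s d) (hstop : pvasIt (delMap h) s d n ∉ M.Left) (htip : (delMap h).opp d ∈ M.Left)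
    (hin : ∀ k, k ≤ n → ((delMap h).src (pvasIt (delMap h) s d k) : ℂ) ∈ pvwSq zc Rk ∧ ((delMap h).tgt (pvasIt (delMap h) s d k) : ℂ) ∈ pvwSq zc Rk)
    (hout : ((delMap h).apex ((delMap h).opp d) : ℂ) ∉ pvwSq zc Rk)
    (h1 : ‖((delMap h).src d : ℂ) - c‖ ≤ κ) (h2 : ‖((delMap h).tgt d : ℂ) - c‖ ≤ κ) (h3 : ‖((delMap h).apex ((delMap h).opp d) : ℂ) - c‖ ≤ κ)
    (hadm : Rk + (ζ * zc).re ≤ (ζ * c).re + κ) (hbig : κ ≤ Rk) (hroom : 2 * κ + 5 * δ ≤ r₁) (hr₂ : r₂ ≤ r₁)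
    {X : Set Y} (hD : PvhwDoorD (fun v => ζ * dlsPos Y v) (ζ * c) (Rk + (ζ * zc).re) κ (2 * δ) r₂ 1 X) (hEx : ∀ v ∈ X, v ∈ pvtzEx (delMap h) s d n → ‖(v : ℂ) - c‖ ≤ r₂)
    {m : ℕ} (hm : m ≤ n) (hpiece : ∀ k, k < m → pvasIt (delMap h) s d k ∈ M.Left)
    (hcalm : ∀ k, m < k → k ≤ n → r₂ < ‖((delMap h).src (pvasIt (delMap h) s d k) : ℂ) - c‖ ∧ r₂ < ‖((delMap h).tgt (pvasIt (delMap h) s d k) : ℂ) - c‖) :
    ∃ (χ : DelDart h → ZMod 2) (u : Y → ZMod 2) (β : ZMod 2), PvhwSide (delMap h) s d n M.Left χ u X {v : Y | ‖(v : ℂ) - c‖ ≤ r₂} β ∧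
      (∀ v ∈ X, v ∈ pvtzEx (delMap h) s d n → u v = β → v ∈ pvasLayW (delMap h) s d n) ∧
      ∀ a : Y, Rk + (ζ * zc).re < (ζ * a).re → ‖(a : ℂ) - c‖ ≤ r₂ → κ < (ζ * c).im - (ζ * a).im → u a ≠ β := by
  have hζ1 := pvtzd_dir_norm hζ
  have hκ0 : 0 ≤ κ := (norm_nonneg _).trans h1
  obtain ⟨z, u, hz, hu, hχ, hval⟩ := pvhw_potD_ent h hζ hM hδ hr hd hstop htip hin hout h1 h2 h3 hadm hbig hroom
  have g1 : ‖(((delMap h).src ((delMap h).opp d) : Y) : ℂ) - c‖ ≤ κ := by rw [(delMap h).src_opp']; exact h2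
  have g2 : ‖(((delMap h).tgt ((delMap h).opp d) : Y) : ℂ) - c‖ ≤ κ := by rw [(delMap h).tgt_opp]; exact h1
  have hz2 : |z.im - (ζ * c).im| ≤ κ := pvhw_tri_im hz (pvhw_im_le hζ1 g1) (pvhw_im_le hζ1 g2) (pvhw_im_le hζ1 h3)
  have hz1 : (ζ * c).re - κ ≤ z.re := pvhw_tri_re_ge hz (pvhw_re_geD hζ1 g1) (pvhw_re_geD hζ1 g2) (pvhw_re_geD hζ1 h3)
  have hval' : ∀ y : Y, Rk + (ζ * zc).re < ((fun v => ζ * dlsPos Y v) y).re → ‖(fun v => ζ * dlsPos Y v) y - ζ * c‖ ≤ r₂ →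
      u y = u ((delMap h).tgt d) + plI (((fun v => ζ * dlsPos Y v) y).im ≤ z.im) := by
    intro y hy1 hy2
    rw [pvtzd_norm_mul hζ1] at hy2
    exact hval y hy1 (hy2.trans hr₂)
  have hβ : ((1 : ℝ) = 1 ∧ u ((delMap h).tgt d) = u ((delMap h).tgt d)) ∨ ((1 : ℝ) = -1 ∧ u ((delMap h).tgt d) = u ((delMap h).tgt d) + 1) := Or.inl ⟨rfl, rfl⟩
  have hS := hD.side (β := u ((delMap h).tgt d)) hu (fun x hx => by
      rw [pvtzd_norm_mul hζ1] at hx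
      exact hM.inn _ (by show ‖((delMap h).src x : ℂ) - c‖ ≤ r; exact hx.trans (by linarith)) x rfl) (fun x hx => by
      rw [pvtzd_norm_mul hζ1] at hx ⊢
      exact pvhw_short h hδ (R := r₂) (fun w hw => hd w (closedBall_subset_closedBall (by linarith) hw)) x hx) hz1 hz2 hval' (fun v hv hE => by
      rw [pvtzd_norm_mul hζ1]; exact hEx v hv hE) hβ
  rw [pvhw_ball_eq hζ1] at hS
  refine ⟨_, u, _, hS, fun v hv hE hvβ => ?_, fun a ha1 ha2 ha3 => ?_⟩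
  · have hp := pvhw_pieceD (pos := dlsPos Y) (B := pvwSq zc Rk) (M := M.Left) hin hχ hm (m := 0) fun k _ hk => hpiece k hk
    have hvr := hEx v hv hE
    have hvB : v ∈ pvtzB (delMap h) s d 0 m ∪ pvtzW (delMap h) s d 0 m := by
      rcases hE with ⟨k, hk, rfl⟩ | ⟨k, hk, rfl⟩
      · refine Or.inl ⟨k, Nat.zero_le _, ?_, rfl⟩
        by_contra hkm
        exact absurd hvr (not_le.2 (hcalm k (not_le.1 hkm) hk).1)
      · refine Or.inr ⟨k, Nat.zero_le _, ?_, rfl⟩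
        by_contra hkm
        exact absurd hvr (not_le.2 (hcalm k (not_le.1 hkm) hk).2)
    refine pvhw_bank_white (pl_left_face M) hbw hu hm hp hvB ?_
    rw [hvβ]
    have hb := hin 0 (Nat.zero_le n)
    have hsep := pvhw_sep hbw (pvhw_injD_ent (pos := dlsPos Y) (B := pvwSq zc Rk) hbw hin hout) hu (Nat.zero_le n) (Or.inr (by rw [pvas_it_zero]; exact htip)) (hχ _ hb.1 hb.2)
    rw [pvas_it_zero] at hsep ⊢
    exact hsep.symm
  · exact pvhw_start (ε := 1) hz2 hval' hβ ha1 (by rw [pvtzd_norm_mul hζ1]; exact ha2) (by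
      show κ < -1 * ((ζ * a).im - (ζ * c).im)
      linarith)

/-! ## 6. the hooked lane and the datum, form D -/

/-- **THE HOOKED LANE FITS THE DATUM, FORM D**: `PvhwFit` WITHOUT `out_t`, `out_s`.   `ζt`, `ζs` = the DOOR NORMALS of the two tip cells (functions of the type): directions whose sides pass within `κ + 2 δ` of the centres of the mouths. -/
structure PvhwFitD {D : Type} {T : PvMap ↥Y D} (𝔇 : PvwDat T) (zt zs : ℂ) (Rt Rs : ℝ) (yt ys ζt ζs : ℂ) (κ δ r r₁ r₂ : ℝ) (X : Set Y) (a b : Y) : Prop where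
  dir_t : ζt ∈ pvtzdDir
  dir_s : ζs ∈ pvtzdDir
  /-- the sides `ζt`, `ζs` of the boxes pass near the centres of the mouths -/
  adm_t : Rt + (ζt * zt).re ≤ (ζt * yt).re + (κ + 2 * δ)
  adm_s : Rs + (ζs * zs).re ≤ (ζs * ys).re + (κ + 2 * δ)
  big_t : κ + 2 * δ ≤ Rt
  big_s : κ + 2 * δ ≤ Rs
  mesh_pos : 0 < δ
  mesh_t : VorDense Y (closedBall yt (r + 3 * δ)) δ
  mesh_s : VorDense Y (closedBall ys (r + 3 * δ)) δ
  num1 : 3 * r₁ + 2 * δ ≤ r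
  num2 : r₂ ≤ r₁
  num3 : 2 * (κ + 2 * δ) + 5 * δ ≤ r₁
  /-- the gate edges are far from the mouths -/
  far_t : r + 4 * δ ≤ ‖(T.tgt 𝔇.t.dp : ℂ) - yt‖
  far_s : r + 4 * δ ≤ ‖(T.src 𝔇.s.dm : ℂ) - ys‖
  sep : 2 * r₂ < ‖yt - ys‖
  door_t : PvhwDoorD (fun v => ζt * dlsPos Y v) (ζt * yt) (Rt + (ζt * zt).re) (κ + 2 * δ) (2 * δ) r₂ (-1) X
  door_s : PvhwDoorD (fun v => ζs * dlsPos Y v) (ζs * ys) (Rs + (ζs * zs).re) (κ + 2 * δ) (2 * δ) r₂ 1 X
  /-- the lane meets the banks of a stub only in its inner mouth -/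
  ex_t : ∀ v ∈ X, v ∈ 𝔇.t.bkP ∪ 𝔇.t.whP → ‖(v : ℂ) - yt‖ ≤ r₂
  ex_s : ∀ v ∈ X, v ∈ 𝔇.s.bkM ∪ 𝔇.s.whM → ‖(v : ℂ) - ys‖ ≤ r₂
  join : T.Join Set.univ X a b
  /-- the lane starts beyond the side `ζt` of the box of `t`, ABOVE the strip of the ray (black side) -/
  start : Rt + (ζt * zt).re < (ζt * a).re ∧ ‖(a : ℂ) - yt‖ ≤ r₂ ∧ κ + 2 * δ < (ζt * a).im - (ζt * yt).im
  /-- the lane ends beyond the side `ζs` of the box of `s`, BELOW the strip of the ray (black side) -/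
  stop : Rs + (ζs * zs).re < (ζs * b).re ∧ ‖(b : ℂ) - ys‖ ≤ r₂ ∧ κ + 2 * δ < (ζs * ys).im - (ζs * b).im
  fz : ∀ v ∈ X, v ∈ 𝔇.fz → v ∈ 𝔇.t.bkP ∪ 𝔇.t.whP ∪ (𝔇.s.bkM ∪ 𝔇.s.whM)

section fitD

variable {h : DelGood Y} {𝔇 : PvwDat (delMap h)} {zt zs : ℂ} {Rt Rs : ℝ} {yt ys ζt ζs : ℂ} {κ δ r r₁ r₂ : ℝ} {X : Set Y} {a b : Y}

/-- **HOOK-DET FOR `WO` ON THE DELAUNAY MAP, FORM D** -/
theorem PvhwFitD.lane (F : PvhwFitD 𝔇 zt zs Rt Rs yt ys ζt ζs κ δ r r₁ r₂ X a b) (Ot : PvhwOut 𝔇 zt Rt yt κ r r₂) (Is : PvhwIn 𝔇 zs Rs ys κ r r₂) : PvhwLane 𝔇 X a b := by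
  have hδ := F.mesh_pos
  have hκ0 : 0 ≤ κ := (norm_nonneg _).trans Ot.tip.1
  have hr1 : 0 ≤ r₁ := by linarith [F.num3]
  have hr0 : 0 ≤ r := by linarith [F.num1]
  have hκr : κ ≤ r := by linarith [F.num1, F.num3]
  have ht := Ot.stub
  have hs := Is.stub
  have hbt := Ot.bw
  have hbs := Is.bw
  -- the exit tip
  obtain ⟨Mt, hMt⟩ := dlc_at h hr0 hδ F.mesh_t (by linarith : r + 3 * δ < r + 4 * δ)
  obtain ⟨i₀, hi₀, hnr, hfar⟩ := Ot.late
  obtain ⟨t3, -⟩ := pvhw_tip_near h hδ (fun w hw => F.mesh_t w (closedBall_subset_closedBall (by linarith) hw)) (𝔇.t.ep 𝔇.t.np) Ot.tip.1 Ot.tip.2 hκr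
  have hit : ∀ k, k ≤ 𝔇.t.np → pvasIt (delMap h) 𝔇.col 𝔇.t.dp k = 𝔇.t.ep k := fun k hk => (ht.ep_it k hk).symm
  obtain ⟨χ, u, β, S, hW, hA⟩ := pvhw_exitD h F.dir_t hMt hδ F.num1 (fun w hw => F.mesh_t w (closedBall_subset_closedBall (by linarith) hw)) hbt
    (fun hmem => by
      have := hMt.out _ ⟨(delMap h).opp 𝔇.t.dp, hmem, rfl⟩
      rw [(delMap h).src_opp'] at this
      exact absurd F.far_t (not_le.2 this))
    (by rw [hit _ le_rfl]; exact hMt.inn _ (hnr _ hi₀ le_rfl) _ rfl)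
    (fun k hk => by rw [hit k hk]; exact ht.ep_in k hk)
    (by rw [hit _ le_rfl]; exact ht.ep_out)
    (by rw [hit _ le_rfl]; exact Ot.tip.1.trans (by linarith)) (by rw [hit _ le_rfl]; exact Ot.tip.2.trans (by linarith)) (by rw [hit _ le_rfl]; exact t3)
    F.adm_t F.big_t F.num3 F.num2 F.door_t
    (fun v hv hE => F.ex_t v hv (by rw [pvwk_bkP_eq ht, pvwk_whP_eq ht]; exact hE)) hi₀
    (fun k h1 h2 => by rw [hit k h2.le]; exact hMt.inn _ (hnr k h1 h2.le) _ rfl)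
    (fun k hk => by rw [hit k (hk.le.trans hi₀)]; exact hfar k hk)
  -- the entrance tip
  obtain ⟨Ms, hMs⟩ := dlc_at h hr0 hδ F.mesh_s (by linarith : r + 3 * δ < r + 4 * δ)
  obtain ⟨j₀, hj₀, hnr', hfar'⟩ := Is.late
  obtain ⟨-, s3⟩ := pvhw_tip_near h hδ (fun w hw => F.mesh_s w (closedBall_subset_closedBall (by linarith) hw)) (𝔇.s.em 𝔇.s.nm) Is.tip.1 Is.tip.2 hκr
  have hit' : ∀ k, k ≤ 𝔇.s.nm → pvasIt (delMap h) 𝔇.col (𝔇.s.em 𝔇.s.nm) k = 𝔇.s.em (𝔇.s.nm - k) := fun k hk => pvwk_em_fwd hs hbs hk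
  obtain ⟨χ', u', β', S', hW', hB⟩ := pvhw_entD h F.dir_s hMs hδ F.num1 (fun w hw => F.mesh_s w (closedBall_subset_closedBall (by linarith) hw)) (pvwk_em_bw hs hbs le_rfl)
    (n := 𝔇.s.nm) (fun hmem => by
      rw [pvwk_em_fwd_end hs hbs] at hmem
      exact absurd F.far_s (not_le.2 (hMs.out _ ⟨_, hmem, rfl⟩)))
    (hMs.inn ((delMap h).tgt (𝔇.s.em 𝔇.s.nm)) (Is.tip.2.trans hκr) _ ((delMap h).src_opp' _))
    (fun k hk => by rw [hit' k hk]; exact hs.em_in _ (Nat.sub_le _ _))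
    hs.em_out
    (Is.tip.1.trans (by linarith)) (Is.tip.2.trans (by linarith)) s3 F.adm_s F.big_s F.num3 F.num2 F.door_s
    (fun v hv hE => F.ex_s v hv (by rw [pvhw_bkM_eq 𝔇.s hs hbs, pvhw_whM_eq 𝔇.s hs hbs]; exact hE)) (m := 𝔇.s.nm - j₀) (Nat.sub_le _ _)
    (fun k hk => by rw [hit' k (by omega)]; exact hMs.inn _ (hnr' _ (by omega) (Nat.sub_le _ _)) _ rfl)
    (fun k hk1 hk2 => by rw [hit' k hk2]; exact hfar' (𝔇.s.nm - k) (by omega))
  refine ⟨⟨Mt.Left, Ms.Left, χ, χ', u, u', _, _, β, β', S, S', fun v hv hv' => ?_, hW, hW', F.start.2.1, hA a F.start.1 F.start.2.1 F.start.2.2, F.stop.2.1, hB b F.stop.1 F.stop.2.1 F.stop.2.2⟩, F.join, F.fz⟩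
  have hv1 : ‖yt - (v : ℂ)‖ ≤ r₂ := by rw [norm_sub_rev]; exact hv
  have := pvhw_tri hv1 hv'
  linarith [F.sep]

theorem PvhwFitD.WO2 (F : PvhwFitD 𝔇 zt zs Rt Rs yt ys ζt ζs κ δ r r₁ r₂ X a b) (Ot : PvhwOut 𝔇 zt Rt yt κ r r₂) (Is : PvhwIn 𝔇 zs Rs ys κ r r₂)
    {K : Set Y} {σ : Y → Bool} (hσ : ∀ v ∈ X, v ∉ 𝔇.fz → σ v = false) (hK : ∀ v ∈ X, v ∉ 𝔇.fz → v ∉ K) : 𝔇.WO2 K σ := by
  have : Nonempty (DelDart h) := ⟨𝔇.t.dp⟩
  exact (F.lane Ot Is).WO2 Ot.stub Is.stub Is.bw hσ hK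

theorem PvhwFitD.WO (F : PvhwFitD 𝔇 zt zs Rt Rs yt ys ζt ζs κ δ r r₁ r₂ X a b) (Ot : PvhwOut 𝔇 zt Rt yt κ r r₂) (Is : PvhwIn 𝔇 zs Rs ys κ r r₂)
    {π : PvwPat} (hπ : π.Wf) {σ : Y → Bool} (hσ : ∀ v ∈ X, v ∉ 𝔇.fz → σ v = false) (hY : ∀ v ∈ X, v ∉ 𝔇.fz → (v : ℂ) ∈ π.Yout) : 𝔇.WO (dlsPos Y) π σ := by
  have : Nonempty (DelDart h) := ⟨𝔇.t.dp⟩
  exact (F.lane Ot Is).WO Ot.stub Is.stub Is.bw hπ hσ hY

end fitD

/-- the same for any presentation of the Delaunay plane (`P := delbPl Y`, `hP := delb_pl_eq h` for the map of the model) -/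
theorem PvhwFitD.WO_pl (h : DelGood Y) {P : PlTri ↥Y} (hP : P = delPl h) {𝔇 : PvwDat P.toMap} {zt zs : ℂ} {Rt Rs : ℝ} {yt ys ζt ζs : ℂ} {κ δ r r₁ r₂ : ℝ} {X : Set Y} {a b : Y}
    (F : PvhwFitD 𝔇 zt zs Rt Rs yt ys ζt ζs κ δ r r₁ r₂ X a b) (Ot : PvhwOut 𝔇 zt Rt yt κ r r₂) (Is : PvhwIn 𝔇 zs Rs ys κ r r₂)
    {π : PvwPat} (hπ : π.Wf) {σ : Y → Bool} (hσ : ∀ v ∈ X, v ∉ 𝔇.fz → σ v = false) (hY : ∀ v ∈ X, v ∉ 𝔇.fz → (v : ℂ) ∈ π.Yout) : 𝔇.WO (dlsPos Y) π σ := by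
  subst hP
  exact PvhwFitD.WO (h := h) F Ot Is hπ hσ hY

theorem PvhwFitD.WO2_pl (h : DelGood Y) {P : PlTri ↥Y} (hP : P = delPl h) {𝔇 : PvwDat P.toMap} {zt zs : ℂ} {Rt Rs : ℝ} {yt ys ζt ζs : ℂ} {κ δ r r₁ r₂ : ℝ} {X : Set Y} {a b : Y}
    (F : PvhwFitD 𝔇 zt zs Rt Rs yt ys ζt ζs κ δ r r₁ r₂ X a b) (Ot : PvhwOut 𝔇 zt Rt yt κ r r₂) (Is : PvhwIn 𝔇 zs Rs ys κ r r₂)
    {K : Set Y} {σ : Y → Bool} (hσ : ∀ v ∈ X, v ∉ 𝔇.fz → σ v = false) (hK : ∀ v ∈ X, v ∉ 𝔇.fz → v ∉ K) : 𝔇.WO2 K σ := by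
  subst hP
  exact PvhwFitD.WO2 (h := h) F Ot Is hσ hK

/-- the door D in terms of the REGION `R` of the lane (picture rotated by `ζ`) -/
structure PvhwDoorRD (ζ c : ℂ) (xB κ μ r₂ ε : ℝ) (R : Set ℂ) : Prop where
  front : ∀ w ∈ R, ‖w - c‖ ≤ r₂ + μ → (ζ * w).re < (ζ * c).re - κ ∨ κ + μ < |(ζ * w).im - (ζ * c).im|
  collar : ∀ w ∈ R, r₂ - μ < ‖w - c‖ → ‖w - c‖ ≤ r₂ → xB < (ζ * w).re ∧ κ < ε * ((ζ * w).im - (ζ * c).im)

theorem PvhwDoorRD.door {ζ c : ℂ} {xB κ μ r₂ ε : ℝ} {R : Set ℂ} (hζ : ‖ζ‖ = 1) (hR : PvhwDoorRD ζ c xB κ μ r₂ ε R) {X : Set Y} (hX : ∀ v ∈ X, (v : ℂ) ∈ R) :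
    PvhwDoorD (fun v => ζ * dlsPos Y v) (ζ * c) xB κ μ r₂ ε X := by
  refine ⟨fun v hv h1 => ?_, fun v hv h1 h2 => ?_⟩
  · rw [pvtzd_norm_mul hζ] at h1
    exact hR.front _ (hX v hv) h1
  · rw [pvtzd_norm_mul hζ] at h1 h2
    exact hR.collar _ (hX v hv) h1 h2

end tipsD

end Claimed.Agent.R289
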