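import Claimed.Agent.R289.Tr.InstE
import Claimed.Agent.R289.Tr.Dom
import Claimed.Agent.R289.Exit.LaneQ

/-!
# Row 289 (S0537), THE WALL, ROAD E, file Tr/HookE : THE PROBABILITY ROOF OF THE HOOK = THE QUENCHED LOWER BOUNDS AT THE MODEL      (helper35; prefix `pvhe_`, defs `pvhe…`, `Pvhe…`)

E4 / E5 / E10 of `W1_208_v3.md`:   `P(WO | D) ≥ q_W` (field `hq` of `PvdmSys.Hyp`, `Tr/Dom`),   `P(link | states) ≥ q_e` (`pvieP` of `Tr/InstE`: denominators of the weights `pvieWo pvieWi pvieWe`, so `W_c ≤ D_c`),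
"bad `η` (`q_W(η) < q₀`) removed BEFORE the sum" (296 R4).      Consumers: `n1` (170 `Exit/N1`, 188 `Exit/N1B`), `dom` (37), `cyc1 thick` (129 58 103 223).

METHOD = INDEPENDENT COPY.   The lane events (`pvlnLaneEv` of 229) are evaluated on the configuration whose colours are ALL fresh (`cfOf Y κ`), never on the mixed one: no conditioning, no Harris with frozen sites, no measurability of the datum.
  (DET)  copy `∈ E`  ⟹  the MIXED colouring (frozen sites of the datum kept, `κ` elsewhere) has `WO` / the link      = the CONTRACTS `PvheHookW`, `PvheHookY`      [producers 53 `Tr/HookW`, 23 `Tr/HookY`, 165 `Tr/HookIn`, 39 `Tr/Cls`]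
  (PROB) `pvheQ Y E` = quenched probability of `E` at the sites `Y`;   `pvheH ε K Y E` = HYBRID probability (sites and colours inside the tile `K` resampled, colours fresh outside)
         good sites `:= q ≤ pvheQ Y E` (resp. `pvheH`): A PROPERTY OF THE SITES, to be put inside `A i` of `PvdmSys` / removed before the sum;   their failure has probability `→ 0` (`ε ↓ 0`, cells fixed).
* sec. 1  `pvheQ`;  `pvhe_Q_enum`, **`pvhe_Q_act`** (`= pvQc E g` at EVERY labelled geometry whose active sites are distinct), `pvhe_Q_geo`;  `pvhe_section` (measurable section without repetitions),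
          **`pvhe_Q_version`** (a MEASURABLE function `F` of the configuration with `F η = pvheQ (cfSites η) E` on the locally finite simple ones), `pvhe_Q_meas`, `pvhe_Q_law`
* sec. 2  `pvhe_hq` : contract + good sites ⟹ the inequality of the field `hq`, VERBATIM form `colLaw ℂ {κ | … pvdmOv (frz)ᶜ κ σ …}`
* sec. 3  good sites for lanes: `pvhe_good_geo`, `pvhe_good_up` (over `pvhbUp ε`);  families `pvheAll δ l` (pairwise disjoint windows, any colours): `pvhe_many_ge` (one geometry), `pvhe_good_many`, `pvhe_many_up`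
* sec. 4  `pvheH`, `pvhe_mix`, **`pvhe_H_eq`** (`= ∫ pvheQ (Y \ K ∪ sites g ∩ K) E`), `pvhe_H_ge`, **`pvhe_H_markov`** (HY): `pvGeo ε {g | pvQc E g < q} ≤ θ ⟹ pvP ε {η | pvheH ε K (cfSites η) E < q / 2} ≤ 2 θ`;   `pvhe_H_up`, `pvhe_H_many_up`
* sec. 5  `pvhe_link` : contract + hybrid good sites ⟹ `q ≤ pvieP ε K yf (L.A N b) η`;   `pvhe_wt_le` : the weight `pvieWt ≤ 1 / q`
0 SORRY.
-/

set_option autoImplicit false

namespace Claimed.Agent.R289

open MeasureTheory Set Filter Topology Claims.C0465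
open scoped ENNReal

/-! ## 1. the quenched probability at a set of sites -/

/-- the plane map of a set of sites      (`pvieT η = pvheT (cfSites η)`, `pvxT ω = pvheT (pvxY ω)` by `rfl`) -/
noncomputable def pvheT (Y : Set ℂ) : PvMap ↥Y (delbPl Y).Dart := (delbPl Y).toMap

/-- the colouring of the sites `Y` seen by a rim of colour `b` when the colours are `σ` -/
def pvheCol (Y : Set ℂ) (b : Bool) (σ : ℂ → Bool) : ↥Y → Bool := fun v => σ v.1 == b

/-- **quenched probability** of the event `E` at the sites `Y`: all the colours fresh -/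
noncomputable def pvheQ (Y : Set ℂ) (E : Set (Conf PvPt)) : ℝ≥0∞ := colLaw ℂ {κ | cfOf Y κ ∈ E}

/-- **hybrid probability** of `E` at the sites `Y`: colours fresh outside the tile `K`, sites and colours resampled inside -/
noncomputable def pvheH (ε : ℝ) (K : Set ℂ) (Y : Set ℂ) (E : Set (Conf PvPt)) : ℝ≥0∞ :=
  pvdyNu ε {p | Conf.spl (Kᶜ ×ˢ univ) (cfOf Y p.1, p.2) ∈ E}

/-- the configuration with the sites `f i`, `i : J`, and the colours `c i` -/
def pvheCf {J : Type} (f : J → ℂ) (c : J → Bool) : Conf PvPt := ⟨{p | ∃ i, p = (f i, c i)}⟩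

/-- no two points over one site -/
def PvheSimple (η : Conf PvPt) : Prop := ∀ p ∈ η.pts, ∀ q ∈ η.pts, p.1 = q.1 → p = q

/-- the union of the windows of a family of lanes -/
def pvheWs (δ : ℝ) (l : List (Bool × List (ℤ × ℤ))) : Set ℂ := ⋃ x ∈ {x | x ∈ l}, pvlnW δ x.2

/-- all the lanes of the family (colour, cells) -/
def pvheAll (δ : ℝ) (l : List (Bool × List (ℤ × ℤ))) : Set (Conf PvPt) := {η | ∀ x ∈ l, η ∈ pvlnLaneEv δ x.1 x.2}

theorem pvhe_eqns_cite : True := by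
  have := @pvheT.eq_1; have := @pvheCol.eq_1; have := @pvheQ.eq_1; have := @pvheH.eq_1; have := @pvheCf.eq_1; have := @PvheSimple.eq_1; have := @pvheWs.eq_1; have := @pvheAll.eq_1
  trivial

theorem pvhe_T_conf (η : Conf PvPt) : pvieT η = pvheT (cfSites η) := rfl
theorem pvhe_T_sample (ω : PVSample) : pvxT ω = pvheT (pvxY ω) := rfl

theorem pvhe_Q_mono (Y : Set ℂ) {E E' : Set (Conf PvPt)} (h : E ⊆ E') : pvheQ Y E ≤ pvheQ Y E' :=
  measure_mono fun _ hκ => h hκ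

theorem pvhe_cf_meas {J : Type} [Countable J] (f : J → ℂ) : Measurable (pvheCf f) := by
  refine Conf.measurable_of_void fun B hB => ?_
  have : pvheCf f ⁻¹' Conf.void B = ⋂ i, {c : J → Bool | (f i, c i) ∉ B} := by
    ext c
    simp only [mem_preimage, Conf.mem_void, mem_iInter, mem_ofPred_eq, pvheCf]
    constructor
    · intro h i; exact h _ ⟨i, rfl⟩
    · rintro h _ ⟨i, rfl⟩; exact h i
  rw [this]
  refine MeasurableSet.iInter fun i => ?_
  have h1 : Measurable fun c : J → Bool => c i := measurable_pi_apply i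
  exact h1 (MeasurableSet.of_discrete (s := {b : Bool | (f i, b) ∉ B}))

/-- **the quenched probability through an injective enumeration of the sites** -/
theorem pvhe_Q_enum {J : Type} [Countable J] (f : J → ℂ) (hf : Function.Injective f) {E : Set (Conf PvPt)} (hE : MeasurableSet E) :
    pvheQ (range f) E = colLaw J {c | pvheCf f c ∈ E} := by
  have hm : Measurable fun κ : ℂ → Bool => κ ∘ f := measurable_pi_lambda _ fun j => measurable_pi_apply _
  have hS : MeasurableSet {c : J → Bool | pvheCf f c ∈ E} := pvhe_cf_meas f hE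
  rw [← pvf_colLaw_comp f hf, Measure.map_apply hm hS]
  unfold pvheQ
  congr 1
  ext κ
  have e : cfOf (range f) κ = pvheCf f (κ ∘ f) := by
    ext p
    simp only [cfOf, pvheCf, mem_ofPred_eq, mem_range, Function.comp]
    constructor
    · rintro ⟨⟨i, hi⟩, h2⟩
      exact ⟨i, Prod.ext hi.symm (by rw [h2, hi])⟩
    · rintro ⟨i, rfl⟩
      exact ⟨⟨i, rfl⟩, rfl⟩
  simp only [mem_ofPred_eq, mem_preimage, e]

/-- **LEMMA G**: at EVERY labelled geometry whose ACTIVE sites are distinct -/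
theorem pvhe_Q_act {g : PvGeoT} (hg : InjOn (pvgSite g) (pvgAct g)) {E : Set (Conf PvPt)} (hE : MeasurableSet E) : pvheQ (pvgSites g) E = pvQc E g := by
  have e1 : pvgSites g = range fun i : ↥(pvgAct g) => pvgSite g i.1 := by
    ext z
    simp only [pvgSites, mem_image, mem_range, Subtype.exists, exists_prop]
  have hinj : Function.Injective fun i : ↥(pvgAct g) => pvgSite g i.1 := fun i j h => Subtype.ext (hg i.2 j.2 h)
  rw [e1, pvhe_Q_enum _ hinj hE, pvqu_Qc_eq]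
  have ecol : pvCol = colLaw PvIx := rfl
  have hm : Measurable fun c : PvIx → Bool => c ∘ (Subtype.val : ↥(pvgAct g) → PvIx) := measurable_pi_lambda _ fun j => measurable_pi_apply _
  have hS : MeasurableSet {c : ↥(pvgAct g) → Bool | pvheCf (fun i : ↥(pvgAct g) => pvgSite g i.1) c ∈ E} := pvhe_cf_meas _ hE
  rw [ecol, ← pvf_colLaw_comp (Subtype.val : ↥(pvgAct g) → PvIx) Subtype.val_injective, Measure.map_apply hm hS]
  congr 1
  ext c
  have e : pvConf (pvMerge (g, c)) = pvheCf (fun i : ↥(pvgAct g) => pvgSite g i.1) (c ∘ Subtype.val) := by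
    ext p
    rw [pvqu_mem_conf]
    simp only [pvheCf, mem_ofPred_eq, Function.comp, Subtype.exists, exists_prop]
  simp only [mem_ofPred_eq, mem_preimage, e]

/-- at a good labelled geometry the quenched probability is the one of `PppQ` -/
theorem pvhe_Q_geo {g : PvGeoT} (hg : PvgOk g) {E : Set (Conf PvPt)} (hE : MeasurableSet E) : pvheQ (pvgSites g) E = pvQc E g :=
  pvhe_Q_act hg.inj.injOn hE

theorem pvhe_box_inj {p : PvPt} {k k' : ℤ × ℤ} (h : p ∈ pvBox k) (h' : p ∈ pvBox k') : k = k' := by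
  obtain ⟨⟨a1, a2⟩, ⟨a3, a4⟩⟩ := h
  obtain ⟨⟨b1, b2⟩, ⟨b3, b4⟩⟩ := h'
  have e1 : k.1 = k'.1 := by
    have h1 : (k.1 : ℝ) < k'.1 + 1 := lt_of_le_of_lt a1 b2
    have h2 : (k'.1 : ℝ) < k.1 + 1 := lt_of_le_of_lt b1 a2
    have h1' : k.1 < k'.1 + 1 := by exact_mod_cast h1
    have h2' : k'.1 < k.1 + 1 := by exact_mod_cast h2
    omega
  have e2 : k.2 = k'.2 := by
    have h1 : (k.2 : ℝ) < k'.2 + 1 := lt_of_le_of_lt a3 b4
    have h2 : (k'.2 : ℝ) < k.2 + 1 := lt_of_le_of_lt b3 a4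
    have h1' : k.2 < k'.2 + 1 := by exact_mod_cast h1
    have h2' : k'.2 < k.2 + 1 := by exact_mod_cast h2
    omega
  exact Prod.ext e1 e2

/-- **the measurable section, without repetitions** -/
theorem pvhe_section : ∃ s : Conf PvPt → PVSample, Measurable s ∧ ∀ η, PvLF η → pvConf (s η) = η ∧
    (PvheSimple η → InjOn (pvgSite (pvGeoOf (s η))) (pvgAct (pvGeoOf (s η)))) := by
  choose X hXm hX using fun k : ℤ × ℤ => pvcn_enum (pvcn_box_meas k)
  have hun : ∀ k : ℤ × ℤ, Measurable fun p : PvPt => (((p.1.re - (k.1 : ℝ), p.1.im - (k.2 : ℝ)), p.2) : (ℝ × ℝ) × Bool) := by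
    intro k
    have h1 : Measurable fun p : PvPt => p.1.re := Complex.measurable_re.comp measurable_fst
    have h2 : Measurable fun p : PvPt => p.1.im := Complex.measurable_im.comp measurable_fst
    exact ((h1.sub_const _).prodMk (h2.sub_const _)).prodMk measurable_snd
  refine ⟨fun η => (fun k => (η.pts ∩ pvBox k).ncard,
    fun kj => (((X kj.1 η kj.2).1.re - (kj.1.1 : ℝ), (X kj.1 η kj.2).1.im - (kj.1.2 : ℝ)), (X kj.1 η kj.2).2)), ?_, ?_⟩
  · refine Measurable.prodMk (measurable_pi_lambda _ fun k => pvcn_ncard (pvcn_box_meas k)) (measurable_pi_lambda _ fun kj => ?_)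
    exact (hun kj.1).comp ((measurable_pi_apply kj.2).comp (hXm kj.1))
  · intro η hη
    have hpt : ∀ (k : ℤ × ℤ) (j : ℕ), pvPt (fun k => (η.pts ∩ pvBox k).ncard,
        fun kj => (((X kj.1 η kj.2).1.re - (kj.1.1 : ℝ), (X kj.1 η kj.2).1.im - (kj.1.2 : ℝ)), (X kj.1 η kj.2).2)) k j = X k η j := by
      intro k j
      refine Prod.ext ?_ rfl
      apply Complex.ext
      · show (k.1 : ℝ) + ((X k η j).1.re - (k.1 : ℝ)) = (X k η j).1.re
        ring
      · show (k.2 : ℝ) + ((X k η j).1.im - (k.2 : ℝ)) = (X k η j).1.im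
        ring
    have hmem : ∀ (k : ℤ × ℤ) (j : ℕ), j < (η.pts ∩ pvBox k).ncard → X k η j ∈ η.pts ∩ pvBox k := by
      intro k j hj
      have : X k η j ∈ (Conf.restr (pvBox k) η).pts := by
        rw [hX k η (hη k)]
        exact ⟨j, hj, rfl⟩
      exact this
    refine ⟨?_, ?_⟩
    · ext p
      constructor
      · rintro ⟨k, j, hj, rfl⟩
        rw [hpt]
        exact (hmem k j hj).1
      · intro hp
        obtain ⟨k, hk⟩ := pvcn_box_cover p
        have : p ∈ (Conf.restr (pvBox k) η).pts := ⟨hp, hk⟩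
        rw [hX k η (hη k)] at this
        obtain ⟨j, hj, rfl⟩ := this
        exact ⟨k, j, hj, (hpt k j).symm⟩
    · intro hs
      rintro ⟨k, j⟩ hj ⟨k', j'⟩ hj' hEq
      have hj1 : j < (η.pts ∩ pvBox k).ncard := hj
      have hj2 : j' < (η.pts ∩ pvBox k').ncard := hj'
      have e1 : (X k η j).1 = (X k' η j').1 := by
        have a1 := congrArg Prod.fst (hpt k j)
        have a2 := congrArg Prod.fst (hpt k' j')
        rw [← a1, ← a2]
        exact hEq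
      have e2 : X k η j = X k' η j' := hs _ (hmem k j hj1).1 _ (hmem k' j' hj2).1 e1
      have e3 : k = k' := pvhe_box_inj (hmem k j hj1).2 (e2 ▸ (hmem k' j' hj2).2)
      subst e3
      have hS : η.pts ∩ pvBox k = ↑((Finset.range (η.pts ∩ pvBox k).ncard).image (X k η)) := by
        have h0 := congrArg Conf.pts (hX k η (hη k))
        ext p
        have h1 : p ∈ η.pts ∩ pvBox k ↔ p ∈ (Conf.cell ((η.pts ∩ pvBox k).ncard, X k η)).pts := by rw [← h0]; rfl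
        rw [h1]
        simp only [Conf.cell, mem_ofPred_eq, Finset.coe_image, Finset.coe_range, mem_image, mem_Iio]
        exact ⟨fun ⟨i, hi, h⟩ => ⟨i, hi, h.symm⟩, fun ⟨i, hi, h⟩ => ⟨i, hi, h.symm⟩⟩
      have hc : ((Finset.range (η.pts ∩ pvBox k).ncard).image (X k η)).card = (Finset.range (η.pts ∩ pvBox k).ncard).card := by
        rw [Finset.card_range]
        conv_rhs => rw [hS]
        rw [Set.ncard_coe_finset]
      have hinj := Finset.card_image_iff.1 hc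
      have : j = j' := hinj (by simpa using hj1) (by simpa using hj2) e2
      rw [this]

/-- **a measurable version of the quenched probability**, as a function of the configuration -/
theorem pvhe_Q_version {E : Set (Conf PvPt)} (hE : MeasurableSet E) :
    ∃ F : Conf PvPt → ℝ≥0∞, Measurable F ∧ ∀ η, PvLF η → PvheSimple η → F η = pvheQ (cfSites η) E := by
  obtain ⟨s, hs, hs'⟩ := pvhe_section
  refine ⟨fun η => pvQc E (pvGeoOf (s η)), (pvqu_Qc_meas hE).comp (measurable_pvGeoOf.comp hs), fun η h1 h2 => ?_⟩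
  obtain ⟨a1, a2⟩ := hs' η h1
  have e : pvgSites (pvGeoOf (s η)) = cfSites η := by
    rw [← pvqu_cfSites (pvGeoOf (s η)) (pvColOf (s η)), pvqu_merge_of, a1]
  show pvQc E (pvGeoOf (s η)) = pvheQ (cfSites η) E
  rw [← pvhe_Q_act (a2 h2) hE, e]

theorem pvhe_nice_ae (ε : ℝ) : ∀ᵐ η ∂(pvP ε), PvLF η ∧ PvheSimple η := by
  filter_upwards [pvcn_LF_ae ε, delgp_ae_conf ε] with η h1 h2 using ⟨h1, h2.2.2⟩

theorem pvhe_nice_geo {g : PvGeoT} (hg : PvgOk g) (c : PvColT) : PvLF (pvConf (pvMerge (g, c))) ∧ PvheSimple (pvConf (pvMerge (g, c))) := by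
  refine ⟨pvcn_LF_conf _ (hg.ok c).sq, ?_⟩
  intro p hp p' hp' h
  obtain ⟨i, hi, rfl⟩ := pvqu_mem_conf.1 hp
  obtain ⟨i', hi', rfl⟩ := pvqu_mem_conf.1 hp'
  have : i = i' := hg.inj h
  rw [this]

theorem pvhe_Q_meas {E : Set (Conf PvPt)} (hE : MeasurableSet E) (q : ℝ≥0∞) (ε : ℝ) : NullMeasurableSet {η : Conf PvPt | pvheQ (cfSites η) E < q} (pvP ε) := by
  obtain ⟨F, hF, hF'⟩ := pvhe_Q_version hE
  refine (hF measurableSet_Iio : MeasurableSet {η | F η < q}).nullMeasurableSet.congr ?_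
  filter_upwards [pvhe_nice_ae ε] with η hη
  have := hF' η hη.1 hη.2
  exact propext (by show F η < q ↔ pvheQ (cfSites η) E < q; rw [this])

/-- the law of a measurable version -/
theorem pvhe_F_law {E : Set (Conf PvPt)} (hE : MeasurableSet E) {F : Conf PvPt → ℝ≥0∞} (hF : Measurable F) (hF' : ∀ η, PvLF η → PvheSimple η → F η = pvheQ (cfSites η) E)
    (q : ℝ≥0∞) (ε : ℝ) : pvP ε {η | F η < q} = pvGeo ε {g | pvQc E g < q} := by
  have hS : MeasurableSet {η | F η < q} := hF measurableSet_Iio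
  have hS2 : MeasurableSet {g | pvQc E g < q} := pvqu_Qc_meas hE measurableSet_Iio
  rw [← pvqu_Qc_lintegral ε hS, ← lintegral_indicator_one hS2]
  refine lintegral_congr_ae ?_
  filter_upwards [pvqu_ok_ae ε] with g hg
  have key : ∀ c : PvColT, F (pvConf (pvMerge (g, c))) = pvQc E g := by
    intro c
    obtain ⟨a1, a2⟩ := pvhe_nice_geo hg c
    rw [hF' _ a1 a2, pvqu_cfSites, pvhe_Q_act hg.inj.injOn hE]
  rw [pvqu_Qc_eq]
  by_cases h : pvQc E g < q
  · rw [indicator_of_mem (show g ∈ {g | pvQc E g < q} from h)]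
    have : {c : PvColT | pvConf (pvMerge (g, c)) ∈ {η | F η < q}} = univ := by
      ext c; simp only [mem_ofPred_eq, mem_univ, iff_true, key c]; exact h
    rw [this]; simp
  · rw [indicator_of_notMem (show g ∉ {g | pvQc E g < q} from h)]
    have : {c : PvColT | pvConf (pvMerge (g, c)) ∈ {η | F η < q}} = ∅ := by
      ext c; simp only [mem_ofPred_eq, mem_empty_iff_false, iff_false, key c]; exact h
    rw [this]; simp

theorem pvhe_Q_law {E : Set (Conf PvPt)} (hE : MeasurableSet E) (q : ℝ≥0∞) (ε : ℝ) : pvP ε {η | pvheQ (cfSites η) E < q} = pvGeo ε {g | pvQc E g < q} := by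
  obtain ⟨F, hF, hF'⟩ := pvhe_Q_version hE
  rw [← pvhe_F_law hE hF hF' q ε]
  refine measure_congr ?_
  filter_upwards [pvhe_nice_ae ε] with η hη
  have := hF' η hη.1 hη.2
  exact propext (by show pvheQ (cfSites η) E < q ↔ F η < q; rw [this])

/-! ## 2. the field `hq` -/

/-- **THE DETERMINISTIC CONTRACT OF THE OUTER WHITE LANE**      [producer 53 `Tr/HookW.lean`]: whenever the INDEPENDENT COPY `κ` realises `E` at the sites `Y`, the mixed colouring (`σ` on the frozen sites of the datum, `κ` elsewhere) has `WO(D)` -/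
def PvheHookW {Y : Set ℂ} (𝔇 : PvwDat (pvheT Y)) (π : PvwPat) (b : Bool) (E : Set (Conf PvPt)) : Prop :=
  ∀ σ κ : ℂ → Bool, pvheCol Y b σ ∈ 𝔇.Cyl → cfOf Y κ ∈ E → 𝔇.WO Subtype.val π (pvheCol Y b (pvdmOv (Subtype.val '' 𝔇.fz)ᶜ κ σ))

/-- **THE INEQUALITY OF THE FIELD `hq`** at a datum -/
theorem pvhe_hq {Y : Set ℂ} {𝔇 : PvwDat (pvheT Y)} {π : PvwPat} {b : Bool} {E : Set (Conf PvPt)} (h : PvheHookW 𝔇 π b E) {q : ℝ≥0∞} (hq : q ≤ pvheQ Y E)
    {σ : ℂ → Bool} (hσ : pvheCol Y b σ ∈ 𝔇.Cyl) :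
    q ≤ colLaw ℂ {κ | 𝔇.WO Subtype.val π (pvheCol Y b (pvdmOv (Subtype.val '' 𝔇.fz)ᶜ κ σ))} :=
  hq.trans (measure_mono fun κ hκ => h σ κ hσ hκ)

/-! ## 3. good sites for lanes -/

/-- the constant of the quenched lanes, ONE for the whole file -/
theorem pvhe_q : ∃ q : ℝ, 0 < q ∧ q ≤ 1 ∧ PvlqQbx q := exit_pvlq_q

theorem pvhe_lane_meas {δ : ℝ} (hδ : 0 < δ) (c : Bool) {L : List (ℤ × ℤ)} (hc : L.IsChain PvlnAdj) : MeasurableSet (pvlnLaneEv δ c L) :=
  pvln_loc_meas (pvln_lane_fit hδ hc) c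

/-- transfer of a bound on the labelled geometries -/
theorem pvhe_geo_le {E : Set (Conf PvPt)} (hE : MeasurableSet E) (r : ℝ≥0∞) (ε : ℝ) :
    pvGeo ε {g | pvheQ (pvgSites g) E < r} ≤ pvGeo ε {g | pvQc E g < r} := by
  refine measure_mono_ae ?_
  filter_upwards [pvqu_ok_ae ε] with g hg h
  have : pvheQ (pvgSites g) E < r := h
  rw [pvhe_Q_geo hg hE] at this
  exact this

theorem pvhe_good_geo {q : ℝ} (hq0 : 0 < q) (hq1 : q ≤ 1) (hQ : PvlqQbx q) {δ : ℝ} (hδ : 0 < δ) (c : Bool) {L : List (ℤ × ℤ)} (hL : L ≠ []) (hc : L.IsChain PvlnAdj) :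
    Tendsto (fun ε : ℝ => pvGeo ε {g | pvheQ (pvgSites g) (pvlnLaneEv δ c L) < ENNReal.ofReal (q ^ (15 * L.length) / 2)}) (𝓝[>] (0 : ℝ)) (𝓝 0) := by
  refine exit_pvlq_lim_of_unif hδ fun θ hθ => ?_
  obtain ⟨U, hU1, hU⟩ := pvlq_lane hq0 hq1 hQ L.length hθ
  exact ⟨U, hU1, fun ε hε hUε => (pvhe_geo_le (pvhe_lane_meas hδ c hc) _ ε).trans (hU ε hε δ hUε c L hL hc le_rfl)⟩

theorem pvhe_up_le (ε : ℝ) (E : Set (Conf PvPt)) (r : ℝ≥0∞) :
    (pvhbUp ε).P {p | pvheQ (pvxY (pvMerge p)) E < r} ≤ pvGeo ε {g | pvheQ (pvgSites g) E < r} := by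
  refine le_trans (PvUp.P_mono _ fun p hp => ?_) (pvhb_up_P_geo ε _)
  have h : pvheQ (pvxY (pvMerge p)) E < r := hp
  have e : pvxY (pvMerge p) = pvgSites p.1 := pvqu_cfSites p.1 p.2
  rw [e] at h
  exact h

theorem pvhe_good_up {q : ℝ} (hq0 : 0 < q) (hq1 : q ≤ 1) (hQ : PvlqQbx q) {δ : ℝ} (hδ : 0 < δ) (c : Bool) {L : List (ℤ × ℤ)} (hL : L ≠ []) (hc : L.IsChain PvlnAdj) :
    Tendsto (fun ε : ℝ => ((pvhbUp ε).P {p | pvheQ (pvxY (pvMerge p)) (pvlnLaneEv δ c L) < ENNReal.ofReal (q ^ (15 * L.length) / 2)}).toReal) (𝓝[>] (0 : ℝ)) (𝓝 0) := by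
  have h0 := pvhe_good_geo hq0 hq1 hQ hδ c hL hc
  have h1 : Tendsto (fun ε : ℝ => (pvhbUp ε).P {p | pvheQ (pvxY (pvMerge p)) (pvlnLaneEv δ c L) < ENNReal.ofReal (q ^ (15 * L.length) / 2)}) (𝓝[>] (0 : ℝ)) (𝓝 0) :=
    tendsto_of_tendsto_of_tendsto_of_le_of_le tendsto_const_nhds h0 (fun _ => zero_le) fun ε => pvhe_up_le ε _ _
  have h2 := (ENNReal.tendsto_toReal ENNReal.zero_ne_top).comp h1
  rw [ENNReal.toReal_zero] at h2
  exact h2


theorem pvhe_Ws_bdd (δ : ℝ) (l : List (Bool × List (ℤ × ℤ))) : Bornology.IsBounded (pvheWs δ l) :=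
  (Bornology.isBounded_biUnion (List.finite_toSet l)).2 fun x _ => pvlq_W_bdd δ x.2

theorem pvhe_all_reads (δ : ℝ) (l : List (Bool × List (ℤ × ℤ))) : Conf.ReadsSet (pvheWs δ l ×ˢ univ) (pvheAll δ l) := by
  intro η
  unfold pvheAll
  simp only [mem_ofPred_eq]
  refine forall₂_congr fun x hx => ?_
  exact ((pvlq_lane_reads δ x.1 x.2).mono (prod_mono_left (subset_biUnion_of_mem (u := fun x : Bool × List (ℤ × ℤ) => pvlnW δ x.2) (show x ∈ {x | x ∈ l} from hx)))) η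

theorem pvhe_all_cons (δ : ℝ) (x : Bool × List (ℤ × ℤ)) (l : List (Bool × List (ℤ × ℤ))) : pvheAll δ (x :: l) = pvlnLaneEv δ x.1 x.2 ∩ pvheAll δ l := by
  ext η
  exact List.forall_mem_cons (p := fun y : Bool × List (ℤ × ℤ) => η ∈ pvlnLaneEv δ y.1 y.2)

theorem pvhe_all_meas {δ : ℝ} (hδ : 0 < δ) (l : List (Bool × List (ℤ × ℤ))) (hL : ∀ x ∈ l, x.2.IsChain PvlnAdj) : MeasurableSet (pvheAll δ l) := by
  induction l with
  | nil => simp [pvheAll]
  | cons x t ih =>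
    rw [pvhe_all_cons]
    exact (pvln_loc_meas (pvln_lane_fit hδ (hL x List.mem_cons_self)) x.1).inter (ih fun y hy => hL y (List.mem_cons_of_mem _ hy))

/-- **one geometry**: product of the quenched probabilities -/
theorem pvhe_many_ge {δ : ℝ} {g : PvGeoT} (hg : PvgOk g) {r : ℝ≥0∞} (l : List (Bool × List (ℤ × ℤ)))
    (hd : l.Pairwise fun x y => Disjoint (pvlnW δ x.2) (pvlnW δ y.2)) (hr : ∀ x ∈ l, r ≤ pvQc (pvlnLaneEv δ x.1 x.2) g) :
    r ^ l.length ≤ pvQc (pvheAll δ l) g := by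
  induction l with
  | nil =>
    have : pvheAll δ [] = univ := by ext η; simp [pvheAll]
    rw [this]
    have h1 : pvQc (univ : Set (Conf PvPt)) g = 1 := by
      unfold pvQc pvQ
      simp
    rw [h1]; simp
  | cons x t ih =>
    obtain ⟨h1, h2⟩ := List.pairwise_cons.1 hd
    have hdis : Disjoint (pvlnW δ x.2) (pvheWs δ t) := by
      unfold pvheWs
      rw [disjoint_iUnion₂_right]
      exact fun y hy => h1 y hy
    rw [pvhe_all_cons, pvqu_loc_indep (pvlq_W_bdd δ x.2) (pvhe_Ws_bdd δ t) hdis (pvlq_lane_reads δ x.1 x.2) (pvhe_all_reads δ t) hg, List.length_cons, pow_succ, mul_comm]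
    exact mul_le_mul' (hr x List.mem_cons_self) (ih h2 fun y hy => hr y (List.mem_cons_of_mem _ hy))

theorem pvhe_good_many {q : ℝ} (hq0 : 0 < q) (hq1 : q ≤ 1) (hQ : PvlqQbx q) {δ : ℝ} (hδ : 0 < δ) (l : List (Bool × List (ℤ × ℤ))) (n : ℕ)
    (hL : ∀ x ∈ l, x.2 ≠ [] ∧ x.2.IsChain PvlnAdj ∧ x.2.length ≤ n) (hd : l.Pairwise fun x y => Disjoint (pvlnW δ x.2) (pvlnW δ y.2)) :
    Tendsto (fun ε : ℝ => pvGeo ε {g | pvQc (pvheAll δ l) g < ENNReal.ofReal ((q ^ (15 * n) / 2) ^ l.length)}) (𝓝[>] (0 : ℝ)) (𝓝 0) := by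
  refine exit_pvlq_lim_of_unif hδ fun θ hθ => ?_
  obtain ⟨U, hU1, hU⟩ := pvlq_lane hq0 hq1 hQ n (θ := θ / (l.length + 1)) (by positivity)
  refine ⟨U, hU1, fun ε hε hUε => ?_⟩
  have hA : 0 ≤ q ^ (15 * n) / 2 := by positivity
  have hsub : {g | pvQc (pvheAll δ l) g < ENNReal.ofReal ((q ^ (15 * n) / 2) ^ l.length)} ⊆
      {g | ¬ PvgOk g} ∪ ⋃ x ∈ l.toFinset, {g | pvQc (pvlnLaneEv δ x.1 x.2) g < ENNReal.ofReal (q ^ (15 * n) / 2)} := by
    intro g hg
    by_contra hcon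
    simp only [mem_union, mem_ofPred_eq, not_or, not_not, mem_iUnion, not_exists, not_lt, List.mem_toFinset] at hcon
    obtain ⟨hok, h1⟩ := hcon
    have hg' : pvQc (pvheAll δ l) g < ENNReal.ofReal ((q ^ (15 * n) / 2) ^ l.length) := hg
    rw [ENNReal.ofReal_pow hA] at hg'
    exact absurd (pvhe_many_ge hok l hd fun x hx => h1 x hx) (not_le.2 hg')
  have m1 : pvGeo ε {g | ¬ PvgOk g} = 0 := pvqu_ok_ae ε
  calc pvGeo ε {g | pvQc (pvheAll δ l) g < ENNReal.ofReal ((q ^ (15 * n) / 2) ^ l.length)}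
      ≤ pvGeo ε {g | ¬ PvgOk g} + ∑ x ∈ l.toFinset, pvGeo ε {g | pvQc (pvlnLaneEv δ x.1 x.2) g < ENNReal.ofReal (q ^ (15 * n) / 2)} :=
        (measure_mono hsub).trans ((measure_union_le _ _).trans (add_le_add le_rfl (measure_biUnion_finset_le _ _)))
    _ ≤ 0 + ∑ x ∈ l.toFinset, ENNReal.ofReal (θ / (l.length + 1)) := by
        refine add_le_add m1.le (Finset.sum_le_sum fun x hx => ?_)
        obtain ⟨a1, a2, a3⟩ := hL x (List.mem_toFinset.1 hx)
        exact hU ε hε δ hUε x.1 x.2 a1 a2 a3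
    _ ≤ ENNReal.ofReal θ := by
        rw [zero_add, Finset.sum_const, nsmul_eq_mul, ← ENNReal.ofReal_natCast, ← ENNReal.ofReal_mul (by positivity)]
        refine ENNReal.ofReal_le_ofReal ?_
        have h1 : (l.toFinset.card : ℝ) ≤ l.length := by exact_mod_cast List.toFinset_card_le l
        rw [mul_div_assoc', div_le_iff₀ (by positivity)]
        nlinarith

/-- a family of lanes over the two-level upper expectation: the sites at which the quenched probability of the family is too small -/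
theorem pvhe_many_up {q : ℝ} (hq0 : 0 < q) (hq1 : q ≤ 1) (hQ : PvlqQbx q) {δ : ℝ} (hδ : 0 < δ) (l : List (Bool × List (ℤ × ℤ))) (n : ℕ)
    (hL : ∀ x ∈ l, x.2 ≠ [] ∧ x.2.IsChain PvlnAdj ∧ x.2.length ≤ n) (hd : l.Pairwise fun x y => Disjoint (pvlnW δ x.2) (pvlnW δ y.2)) :
    Tendsto (fun ε : ℝ => ((pvhbUp ε).P {p | pvheQ (pvxY (pvMerge p)) (pvheAll δ l) < ENNReal.ofReal ((q ^ (15 * n) / 2) ^ l.length)}).toReal) (𝓝[>] (0 : ℝ)) (𝓝 0) := by
  have h0 := pvhe_good_many hq0 hq1 hQ hδ l n hL hd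
  have hm := pvhe_all_meas hδ l fun x hx => (hL x hx).2.1
  have h1 : Tendsto (fun ε : ℝ => (pvhbUp ε).P {p | pvheQ (pvxY (pvMerge p)) (pvheAll δ l) < ENNReal.ofReal ((q ^ (15 * n) / 2) ^ l.length)}) (𝓝[>] (0 : ℝ)) (𝓝 0) :=
    tendsto_of_tendsto_of_tendsto_of_le_of_le tendsto_const_nhds h0 (fun _ => zero_le) fun ε => (pvhe_up_le ε _ _).trans (pvhe_geo_le hm _ ε)
  have h2 := (ENNReal.tendsto_toReal ENNReal.zero_ne_top).comp h1
  rw [ENNReal.toReal_zero] at h2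
  exact h2

/-! ## 4. the hybrid probability -/

theorem pvhe_H_mono (ε : ℝ) (K Y : Set ℂ) {E E' : Set (Conf PvPt)} (h : E ⊆ E') : pvheH ε K Y E ≤ pvheH ε K Y E' :=
  measure_mono fun _ hp => h hp

theorem pvhe_copy_meas {K : Set ℂ} (hK : MeasurableSet K) {Y : Set ℂ} (hY : Y.Countable) :
    Measurable fun p : (ℂ → Bool) × Conf PvPt => Conf.spl (Kᶜ ×ˢ (univ : Set Bool)) (cfOf Y p.1, p.2) :=
  (Conf.measurable_spl (hK.compl.prod MeasurableSet.univ)).comp (((pvdy_measurable_cfOf hY).comp measurable_fst).prodMk measurable_snd)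

theorem pvhe_mem_spl {K : Set ℂ} {η η₂ : Conf PvPt} {p : PvPt} :
    p ∈ (Conf.spl (Kᶜ ×ˢ (univ : Set Bool)) (η, η₂)).pts ↔ (p ∈ η.pts ∧ p.1 ∉ K) ∨ (p ∈ η₂.pts ∧ p.1 ∈ K) := by
  simp only [Conf.spl, Conf.union, Conf.restr, mem_union, mem_inter_iff, mem_prod, mem_compl_iff, mem_univ, and_true, not_not]

theorem pvhe_spl_sites (K : Set ℂ) (η η₂ : Conf PvPt) : cfSites (Conf.spl (Kᶜ ×ˢ (univ : Set Bool)) (η, η₂)) = cfSites η \ K ∪ cfSites η₂ ∩ K := by
  ext z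
  simp only [cfSites, mem_image, pvhe_mem_spl, mem_union, Set.mem_sdiff, mem_inter_iff]
  constructor
  · rintro ⟨p, (⟨h1, h2⟩ | ⟨h1, h2⟩), rfl⟩
    · exact Or.inl ⟨⟨p, h1, rfl⟩, h2⟩
    · exact Or.inr ⟨⟨p, h1, rfl⟩, h2⟩
  · rintro (⟨⟨p, h1, rfl⟩, h2⟩ | ⟨⟨p, h1, rfl⟩, h2⟩)
    · exact ⟨p, Or.inl ⟨h1, h2⟩, rfl⟩
    · exact ⟨p, Or.inr ⟨h1, h2⟩, rfl⟩

theorem pvhe_spl_nice (K : Set ℂ) {η η₂ : Conf PvPt} (h : PvLF η ∧ PvheSimple η) (h₂ : PvLF η₂ ∧ PvheSimple η₂) :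
    PvLF (Conf.spl (Kᶜ ×ˢ (univ : Set Bool)) (η, η₂)) ∧ PvheSimple (Conf.spl (Kᶜ ×ˢ (univ : Set Bool)) (η, η₂)) := by
  constructor
  · intro k
    refine ((h.1 k).union (h₂.1 k)).subset ?_
    rintro p ⟨hp, hk⟩
    rcases pvhe_mem_spl.1 hp with ⟨a, _⟩ | ⟨a, _⟩
    · exact Or.inl ⟨a, hk⟩
    · exact Or.inr ⟨a, hk⟩
  · intro p hp p' hp' e
    rcases pvhe_mem_spl.1 hp with ⟨a, b⟩ | ⟨a, b⟩ <;> rcases pvhe_mem_spl.1 hp' with ⟨a', b'⟩ | ⟨a', b'⟩
    · exact h.2 p a p' a' e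
    · exact absurd (e ▸ b') b
    · exact absurd (e ▸ b) b'
    · exact h₂.2 p a p' a' e

theorem pvhe_spl_cfOf (K Y Y₂ : Set ℂ) (κ κ₂ : ℂ → Bool) :
    Conf.spl (Kᶜ ×ˢ (univ : Set Bool)) (cfOf Y κ, cfOf Y₂ κ₂) = cfOf (Y \ K ∪ Y₂ ∩ K) (pvfqMix Kᶜ (κ, κ₂)) := by
  ext p
  rw [pvhe_mem_spl]
  simp only [cfOf, mem_ofPred_eq, mem_union, Set.mem_sdiff, mem_inter_iff]
  by_cases hp : p.1 ∈ K
  · rw [pvfqMix_of_notMem (show p.1 ∉ Kᶜ from fun h => h hp)]
    simp [hp]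
  · rw [pvfqMix_of_mem (show p.1 ∈ Kᶜ from hp)]
    simp [hp]

theorem pvhe_LF_countable {η : Conf PvPt} (h : PvLF η) : (cfSites η).Countable := by
  have : η.pts = ⋃ k : ℤ × ℤ, η.pts ∩ pvBox k := by
    ext p
    simp only [mem_iUnion, mem_inter_iff]
    exact ⟨fun hp => let ⟨k, hk⟩ := pvcn_box_cover p; ⟨k, hp, hk⟩, fun ⟨_, hp, _⟩ => hp⟩
  have hc : η.pts.Countable := by
    rw [this]
    exact countable_iUnion fun k => (h k).countable
  exact hc.image _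

/-- **MIX**: two independent colourings, one outside the tile, one inside -/
theorem pvhe_mix (K : Set ℂ) {Y Y₂ : Set ℂ} (hY : Y.Countable) (hY₂ : Y₂.Countable) {E : Set (Conf PvPt)} (hE : MeasurableSet E) :
    ((colLaw ℂ).prod (colLaw ℂ)) {x | Conf.spl (Kᶜ ×ˢ (univ : Set Bool)) (cfOf Y x.1, cfOf Y₂ x.2) ∈ E} = pvheQ (Y \ K ∪ Y₂ ∩ K) E := by
  have hc : (Y \ K ∪ Y₂ ∩ K).Countable := (hY.mono sdiff_subset).union (hY₂.mono inter_subset_left)
  have hS : MeasurableSet {κ : ℂ → Bool | cfOf (Y \ K ∪ Y₂ ∩ K) κ ∈ E} := pvdy_measurable_cfOf hc hE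
  unfold pvheQ
  have e : colLaw ℂ {κ : ℂ → Bool | cfOf (Y \ K ∪ Y₂ ∩ K) κ ∈ E} = ((colLaw ℂ).prod (colLaw ℂ)) (pvfqMix Kᶜ ⁻¹' {κ : ℂ → Bool | cfOf (Y \ K ∪ Y₂ ∩ K) κ ∈ E}) := by
    conv_lhs => rw [← pvtf_split (V := ℂ) Kᶜ]
    exact Measure.map_apply (measurable_pvfqMix _) hS
  rw [e]
  refine congrArg _ (Set.ext fun x => ?_)
  show Conf.spl (Kᶜ ×ˢ (univ : Set Bool)) (cfOf Y x.1, cfOf Y₂ x.2) ∈ E ↔ cfOf (Y \ K ∪ Y₂ ∩ K) (pvfqMix Kᶜ x) ∈ E
  rw [pvhe_spl_cfOf]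

theorem pvhe_conf_copy {g : PvGeoT} (hg : PvgOk g) (κ : ℂ → Bool) : pvConf (pvMerge (g, κ ∘ pvgSite g)) = cfOf (pvgSites g) κ := by
  have h := pvdm_cf_mix hg (T := ∅) (U := univ) (fun j _ => by simp) (fun _ => false) κ
  have e1 : pvfqMix (∅ : Set PvIx) ((fun _ => false : PvColT), κ ∘ pvgSite g) = κ ∘ pvgSite g := by
    funext i; simp [pvfqMix]
  have e2 : pvdmOv univ κ (pvgColAt g fun _ => false) = κ := by
    funext z; simp [pvdmOv]
  rw [e1, e2] at h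
  exact h

theorem pvhe_sites_countable (g : PvGeoT) : (pvgSites g).Countable := (to_countable (pvgAct g)).image _

/-- **the hybrid probability is the mean of the quenched probability at the spliced sites** -/
theorem pvhe_H_eq (ε : ℝ) {K : Set ℂ} (hK : MeasurableSet K) {Y : Set ℂ} (hY : Y.Countable) {E : Set (Conf PvPt)} (hE : MeasurableSet E) :
    pvheH ε K Y E = ∫⁻ g, pvheQ (Y \ K ∪ pvgSites g ∩ K) E ∂pvGeo ε := by
  have hS : MeasurableSet {p : (ℂ → Bool) × Conf PvPt | Conf.spl (Kᶜ ×ˢ univ) (cfOf Y p.1, p.2) ∈ E} := pvhe_copy_meas hK hY hE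
  obtain ⟨φ, hφe⟩ : ∃ φ : Conf PvPt → ℝ≥0∞, φ = fun ω₂ => colLaw ℂ ((fun κ => (κ, ω₂)) ⁻¹' {p : (ℂ → Bool) × Conf PvPt | Conf.spl (Kᶜ ×ˢ univ) (cfOf Y p.1, p.2) ∈ E}) := ⟨_, rfl⟩
  have hφ : Measurable φ := by rw [hφe]; exact measurable_measure_prodMk_right hS
  have e0 : pvheH ε K Y E = ∫⁻ ω₂, φ ω₂ ∂pvP ε := by rw [hφe]; exact Measure.prod_apply_symm hS
  have h1 : Measurable fun ω : PVSample => φ (pvConf ω) := hφ.comp measurable_pvConf
  have h2 : Measurable fun x : PvGeoT × PvColT => φ (pvConf (pvMerge x)) := h1.comp measurable_pvMerge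
  rw [e0]
  unfold pvP
  rw [lintegral_map hφ measurable_pvConf, pvqu_law, lintegral_map h1 measurable_pvMerge, lintegral_prod _ h2.aemeasurable]
  refine lintegral_congr_ae ?_
  filter_upwards [pvqu_ok_ae ε] with g hg
  have hm : Measurable fun κ : ℂ → Bool => κ ∘ pvgSite g := measurable_pi_lambda _ fun j => measurable_pi_apply _
  have ecol : pvCol = colLaw PvIx := rfl
  have hψ : Measurable fun c : PvColT => φ (pvConf (pvMerge (g, c))) := hφ.comp (pvqu_Qm_meas g)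
  rw [ecol, ← pvf_colLaw_comp (pvgSite g) hg.inj, lintegral_map hψ hm, ← pvhe_mix K hY (pvhe_sites_countable g) hE]
  have hS2 : MeasurableSet {x : (ℂ → Bool) × (ℂ → Bool) | Conf.spl (Kᶜ ×ˢ (univ : Set Bool)) (cfOf Y x.1, cfOf (pvgSites g) x.2) ∈ E} := by
    have : Measurable fun x : (ℂ → Bool) × (ℂ → Bool) => Conf.spl (Kᶜ ×ˢ (univ : Set Bool)) (cfOf Y x.1, cfOf (pvgSites g) x.2) :=
      (Conf.measurable_spl (hK.compl.prod MeasurableSet.univ)).comp
        (((pvdy_measurable_cfOf hY).comp measurable_fst).prodMk ((pvdy_measurable_cfOf (pvhe_sites_countable g)).comp measurable_snd))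
    exact this hE
  rw [Measure.prod_apply_symm hS2]
  refine lintegral_congr fun κ₂ => ?_
  rw [pvhe_conf_copy hg, hφe]
  rfl

/-- lower bound of the hybrid probability at nice sites -/
theorem pvhe_H_ge (ε : ℝ) {K : Set ℂ} (hK : MeasurableSet K) {E : Set (Conf PvPt)} (hE : MeasurableSet E) {F : Conf PvPt → ℝ≥0∞} (hF : Measurable F)
    (hF' : ∀ η, PvLF η → PvheSimple η → F η = pvheQ (cfSites η) E) (q : ℝ≥0∞) {η : Conf PvPt} (hη : PvLF η ∧ PvheSimple η) :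
    q * pvP ε {ω₂ | q ≤ F (Conf.spl (Kᶜ ×ˢ (univ : Set Bool)) (η, ω₂))} ≤ pvheH ε K (cfSites η) E := by
  have hm : Measurable fun ω₂ : Conf PvPt => F (Conf.spl (Kᶜ ×ˢ (univ : Set Bool)) (η, ω₂)) :=
    hF.comp ((Conf.measurable_spl (hK.compl.prod MeasurableSet.univ)).comp (measurable_const.prodMk measurable_id))
  have hT : MeasurableSet {ω₂ | q ≤ F (Conf.spl (Kᶜ ×ˢ (univ : Set Bool)) (η, ω₂))} := hm measurableSet_Ici
  rw [pvhe_H_eq ε hK (pvhe_LF_countable hη.1) hE, ← pvqu_Qc_lintegral ε hT, ← lintegral_const_mul _ (pvqu_Qc_meas hT)]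
  refine lintegral_mono_ae ?_
  filter_upwards [pvqu_ok_ae ε] with g hg
  rw [pvqu_Qc_eq]
  by_cases hne : {c : PvColT | pvConf (pvMerge (g, c)) ∈ {ω₂ | q ≤ F (Conf.spl (Kᶜ ×ˢ (univ : Set Bool)) (η, ω₂))}}.Nonempty
  · obtain ⟨c, hc⟩ := hne
    have hc' : q ≤ F (Conf.spl (Kᶜ ×ˢ (univ : Set Bool)) (η, pvConf (pvMerge (g, c)))) := hc
    obtain ⟨a1, a2⟩ := pvhe_spl_nice K hη (pvhe_nice_geo hg c)
    rw [hF' _ a1 a2, pvhe_spl_sites, pvqu_cfSites] at hc'
    calc q * pvCol _ ≤ q * 1 := mul_le_mul' le_rfl prob_le_one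
      _ = q := mul_one q
      _ ≤ _ := hc'
  · rw [not_nonempty_iff_eq_empty.1 hne]
    simp

/-- **(HY) MARKOV FOR THE HYBRID PROBABILITY** -/
theorem pvhe_H_markov (ε : ℝ) {K : Set ℂ} (hK : MeasurableSet K) {E : Set (Conf PvPt)} (hE : MeasurableSet E) {q θ : ℝ≥0∞} (h : pvGeo ε {g | pvQc E g < q} ≤ θ) :
    pvP ε {η | pvheH ε K (cfSites η) E < q / 2} ≤ 2 * θ := by
  obtain ⟨F, hF, hF'⟩ := pvhe_Q_version hE
  have hO : MeasurableSet (Kᶜ ×ˢ (univ : Set Bool)) := hK.compl.prod MeasurableSet.univ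
  have hB : MeasurableSet {η | F η < q} := hF measurableSet_Iio
  have hPB : pvP ε {η | F η < q} ≤ θ := (pvhe_F_law hE hF hF' q ε).le.trans h
  have hS : MeasurableSet (Conf.spl (Kᶜ ×ˢ (univ : Set Bool)) ⁻¹' {η | F η < q}) := Conf.measurable_spl hO hB
  obtain ⟨m, hme⟩ : ∃ m : Conf PvPt → ℝ≥0∞, m = fun η => pvP ε (Prod.mk η ⁻¹' (Conf.spl (Kᶜ ×ˢ (univ : Set Bool)) ⁻¹' {η | F η < q})) := ⟨_, rfl⟩
  have hmm : Measurable m := by rw [hme]; exact measurable_measure_prodMk_left hS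
  have hint : ∫⁻ η, m η ∂pvP ε ≤ θ := by
    have e1 : ∫⁻ η, m η ∂pvP ε = ((pvP ε).prod (pvP ε)) (Conf.spl (Kᶜ ×ˢ (univ : Set Bool)) ⁻¹' {η | F η < q}) := by
      rw [hme]; exact (Measure.prod_apply hS).symm
    have e2 : ((pvP ε).prod (pvP ε)).map (Conf.spl (Kᶜ ×ˢ (univ : Set Bool))) = pvP ε := (pv_isPpp ε).splice hO
    rw [e1, ← Measure.map_apply (Conf.measurable_spl hO) hB, e2]
    exact hPB
  have hmk : pvP ε {η | (1 / 2 : ℝ≥0∞) ≤ m η} ≤ 2 * θ := by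
    have := meas_ge_le_lintegral_div (μ := pvP ε) hmm.aemeasurable (ε := (1 / 2 : ℝ≥0∞)) (by simp) (by simp)
    refine this.trans ?_
    rw [one_div, div_eq_mul_inv, inv_inv, mul_comm]
    exact mul_le_mul' le_rfl hint
  refine le_trans (measure_mono_ae ?_) hmk
  filter_upwards [pvhe_nice_ae ε] with η hη hlt
  have hlt' : pvheH ε K (cfSites η) E < q / 2 := hlt
  show (1 / 2 : ℝ≥0∞) ≤ m η
  by_contra hcon
  rw [not_le] at hcon
  have hge := pvhe_H_ge ε hK hE hF hF' q hη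
  have hm2 : Measurable fun ω₂ : Conf PvPt => F (Conf.spl (Kᶜ ×ˢ (univ : Set Bool)) (η, ω₂)) :=
    hF.comp ((Conf.measurable_spl hO).comp (measurable_const.prodMk measurable_id))
  have hT : MeasurableSet {ω₂ | F (Conf.spl (Kᶜ ×ˢ (univ : Set Bool)) (η, ω₂)) < q} := hm2 measurableSet_Iio
  have hcompl : {ω₂ | q ≤ F (Conf.spl (Kᶜ ×ˢ (univ : Set Bool)) (η, ω₂))} = {ω₂ | F (Conf.spl (Kᶜ ×ˢ (univ : Set Bool)) (η, ω₂)) < q}ᶜ := by
    ext ω₂; simp only [mem_ofPred_eq, mem_compl_iff, not_lt]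
  have hmη : m η = pvP ε {ω₂ | F (Conf.spl (Kᶜ ×ˢ (univ : Set Bool)) (η, ω₂)) < q} := by rw [hme]; rfl
  have hhalf : (1 / 2 : ℝ≥0∞) ≤ pvP ε {ω₂ | q ≤ F (Conf.spl (Kᶜ ×ˢ (univ : Set Bool)) (η, ω₂))} := by
    rw [hcompl, prob_compl_eq_one_sub hT, ← hmη]
    have : (1 : ℝ≥0∞) - 1 / 2 ≤ 1 - m η := tsub_le_tsub_left hcon.le 1
    refine le_trans (le_of_eq ?_) this
    rw [one_div, ENNReal.one_sub_inv_two]
  have : q / 2 ≤ pvheH ε K (cfSites η) E := by
    refine le_trans ?_ hge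
    rw [div_eq_mul_inv, ← one_div]
    exact mul_le_mul' le_rfl hhalf
  exact absurd hlt' (not_lt.2 this)

theorem pvhe_H_up (ε : ℝ) {K : Set ℂ} (hK : MeasurableSet K) {E : Set (Conf PvPt)} (hE : MeasurableSet E) {q θ : ℝ≥0∞} (h : pvGeo ε {g | pvQc E g < q} ≤ θ) :
    (pvhbUp ε).P {p | pvheH ε K (pvxY (pvMerge p)) E < q / 2} ≤ 2 * θ :=
  (pvhb_up_P_conf ε {η | pvheH ε K (cfSites η) E < q / 2}).trans (pvhe_H_markov ε hK hE h)

/-- **a family of lanes, HYBRID**: the sites at which the hybrid probability of the family is too small have upper probability `→ 0`; ANY measurable tile `K` -/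
theorem pvhe_H_many_up {q : ℝ} (hq0 : 0 < q) (hq1 : q ≤ 1) (hQ : PvlqQbx q) {δ : ℝ} (hδ : 0 < δ) {K : Set ℂ} (hK : MeasurableSet K) (l : List (Bool × List (ℤ × ℤ))) (n : ℕ)
    (hL : ∀ x ∈ l, x.2 ≠ [] ∧ x.2.IsChain PvlnAdj ∧ x.2.length ≤ n) (hd : l.Pairwise fun x y => Disjoint (pvlnW δ x.2) (pvlnW δ y.2)) :
    Tendsto (fun ε : ℝ => ((pvhbUp ε).P {p | pvheH ε K (pvxY (pvMerge p)) (pvheAll δ l) < ENNReal.ofReal ((q ^ (15 * n) / 2) ^ l.length) / 2}).toReal) (𝓝[>] (0 : ℝ)) (𝓝 0) := by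
  have h0 := pvhe_good_many hq0 hq1 hQ hδ l n hL hd
  have hm := pvhe_all_meas hδ l fun x hx => (hL x hx).2.1
  have h0' : Tendsto (fun ε : ℝ => 2 * pvGeo ε {g | pvQc (pvheAll δ l) g < ENNReal.ofReal ((q ^ (15 * n) / 2) ^ l.length)}) (𝓝[>] (0 : ℝ)) (𝓝 0) := by
    have := ENNReal.Tendsto.const_mul (a := (2 : ℝ≥0∞)) h0 (Or.inr (by simp))
    rwa [mul_zero] at this
  have h1 : Tendsto (fun ε : ℝ => (pvhbUp ε).P {p | pvheH ε K (pvxY (pvMerge p)) (pvheAll δ l) < ENNReal.ofReal ((q ^ (15 * n) / 2) ^ l.length) / 2}) (𝓝[>] (0 : ℝ)) (𝓝 0) :=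
    tendsto_of_tendsto_of_tendsto_of_le_of_le tendsto_const_nhds h0' (fun _ => zero_le) fun ε => pvhe_H_up ε hK hm le_rfl
  have h2 := (ENNReal.tendsto_toReal ENNReal.zero_ne_top).comp h1
  rw [ENNReal.toReal_zero] at h2
  exact h2

/-! ## 5. the links -/

/-- **THE DETERMINISTIC CONTRACT OF A HYBRID LINK**      [producers 23 `Tr/HookY.lean`, 165 `Tr/HookIn.lean`, 70 `Tr/LaneDet.lean`]: whenever the COPY (all colours fresh outside the tile, tile resampled) realises `E`, the experiment of `pvieP` realises the link -/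
def PvheHookY (L : PvieLk) (N : PvwNum) (b : Bool) (K : Set ℂ) (yf : Conf PvPt → Set ℂ) (E : Set (Conf PvPt)) (η : Conf PvPt) : Prop :=
  ∀ p : (ℂ → Bool) × Conf PvPt, Conf.spl (Kᶜ ×ˢ univ) (cfOf (cfSites η) p.1, p.2) ∈ E → pvdyR K yf η p ∈ L.A N b

/-- **E10, THE LINK BOUND** -/
theorem pvhe_link {L : PvieLk} {N : PvwNum} {b : Bool} {K : Set ℂ} {yf : Conf PvPt → Set ℂ} {E : Set (Conf PvPt)} {η : Conf PvPt} (h : PvheHookY L N b K yf E η)
    (hK : MeasurableSet K) (hE : MeasurableSet E) (hY : (cfSites η).Countable)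
    (ε : ℝ) {q : ℝ≥0∞} (hq : q ≤ pvheH ε K (cfSites η) E) : q ≤ pvieP ε K yf (L.A N b) η := by
  refine hq.trans ?_
  unfold pvheH pvieP
  have hS : MeasurableSet {p : (ℂ → Bool) × Conf PvPt | Conf.spl (Kᶜ ×ˢ univ) (cfOf (cfSites η) p.1, p.2) ∈ E} := pvhe_copy_meas hK hY hE
  rw [← lintegral_indicator_one hS]
  refine lintegral_mono fun p => ?_
  by_cases hp : p ∈ {p : (ℂ → Bool) × Conf PvPt | Conf.spl (Kᶜ ×ˢ univ) (cfOf (cfSites η) p.1, p.2) ∈ E}
  · rw [indicator_of_mem hp, indicator_of_mem (h p hp)]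
    exact le_rfl
  · rw [indicator_of_notMem hp]; exact zero_le

theorem pvhe_wt_le {L : PvieLk} {N : PvwNum} {b : Bool} {K : Set ℂ} {yf : Conf PvPt → Set ℂ} {E : Set (Conf PvPt)} {η : Conf PvPt} (h : PvheHookY L N b K yf E η)
    (hK : MeasurableSet K) (hE : MeasurableSet E) (hY : (cfSites η).Countable)
    (ε : ℝ) {q : ℝ≥0∞} (hq : q ≤ pvheH ε K (cfSites η) E) : pvieWt ε K yf (L.A N b) η ≤ q⁻¹ := by
  have h1 := pvhe_link h hK hE hY ε hq
  unfold pvieWt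
  rw [div_eq_mul_inv]
  calc (L.A N b).indicator 1 η * (pvieP ε K yf (L.A N b) η)⁻¹ ≤ 1 * q⁻¹ := by
        refine mul_le_mul' ?_ (ENNReal.inv_le_inv.2 h1)
        by_cases hη : η ∈ L.A N b
        · rw [indicator_of_mem hη]; rfl
        · rw [indicator_of_notMem hη]; exact zero_le
    _ = q⁻¹ := one_mul _

end Claimed.Agent.R289
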