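-- KEEP
import Claimed.Agent.R289.Tr.HookW
import Claimed.Agent.R289.Tr.HookWC
import Claimed.Agent.R289.Tr.HookE
import Claimed.Agent.R289.Tr.LinkQ

/-!
# Row 289 (S0537, Cardy for Poisson-Voronoi), box TR, ROAD E, HOOK-DET, file Tr/HookWE : THE CONTRACT `PvheHookW` OF THE OUTER WHITE LANE, AT THE MODEL      (owner helper53; prefix `pvhw_`, `Pvhw`)

JUNCTION of three files:   `Tr/HookW` (53: hooked lane ⟹ `WO`, deterministic),   `Tr/LinkQ` (21: PATTERN OF RECORD `pvkqEv δc c R x y` of a region `R` from `x` to `y`, its deterministic content `PvkqDet`, its quenched bound `pvkq_region`),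
`Tr/HookE` (35: contract `PvheHookW 𝔇 π b E`, exit `pvhe_hq` = field `hq` of `PvdmSys.Hyp`).

* `pvhw_mix_white`   : a fresh site of colour `!b` for the copy is WHITE for the mixed colouring seen by a rim of colour `b`
* `pvhw_contract_det`: ANY event with `PvkqDet δc (!b) R x y` + `PvhwReg` (pure geometry of `R`) + `PvhwDat`, `PvhwOut`, `PvhwIn` (sites, datum) + `R ⊆ Yout` ⟹ `WO` of the mixed colouring (any presentation of the Delaunay plane)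
* **`pvhw_contract`**  : `PvheHookW 𝔇 π b (pvkqEv δc (!b) R x y)`
* **`pvhw_contract_ok`**: the same from `PvwDat.Ok` + `PvhwReg` + `PvhwRegOk` (pure geometry) + mesh `δ` on the two mouths and along the corridor:   NOTHING ELSE IS ASKED OF THE DATUM
* **`pvhw_hq`**        : `q ≤ pvkqP (pvkqEv δc (!b) R x y) Y` ⟹ `q ≤ colLaw ℂ {κ | WO (mixed)}`      (field `hq`, verbatim form of `pvhe_hq`)
WHAT THE OWNER OF THE REGIONS OWES: `PvkqCore δc R x y` (the two ends joined in the `4 δc`-core of `R`), `PvhwReg`, `PvhwRegOk`: inequalities between numbers and on the points of `R`, no site, no colour, no map.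
CORNERS: `PvhwRegOk.side_t / side_s` say that the tip cells are at distance `≥ ρ h / 4 + 2 δ` from the corners of the boxes (then the side `ζ` through which the stub leaves is a function of the cell: `pvhw_dir`).
**ALL TIP CELLS, NO SIDE** (sec. C, on `Tr/HookWC`): `pvhw_contractC_det`, **`pvhw_contractC`**, **`pvhw_contractC_ok`**, **`pvhw_hqC`**: the same with `PvhwRegC`, `PvhwRegOkC` (a door for every side within `ρ h / 4 + 2 δ` of the centre of the tip cell).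
-/

set_option autoImplicit false
set_option linter.unusedSectionVars false
set_option linter.unusedVariables false

namespace Claimed.Agent.R289

open Metric Set Claims.C0465
open scoped ENNReal

variable {Y : Set ℂ}

/-- a fresh site of colour `!b` for the copy `κ` is WHITE for the mixed colouring seen by a rim of colour `b` -/
theorem pvhw_mix_white {D : Type} {T : PvMap ↥Y D} (𝔇 : PvwDat T) (b : Bool) (σ κ : ℂ → Bool) {R : Set ℂ} {v : Y} (hv : v ∈ pvkqV Y κ (!b) R) (hf : v ∉ 𝔇.fz) :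
    pvheCol Y b (pvdmOv (Subtype.val '' 𝔇.fz)ᶜ κ σ) v = false := by
  have hm : (v : ℂ) ∈ (Subtype.val '' 𝔇.fz)ᶜ := by
    rintro ⟨w, hw, e⟩
    exact hf (Subtype.val_injective e ▸ hw)
  show (pvdmOv (Subtype.val '' 𝔇.fz)ᶜ κ σ v.1 == b) = false
  rw [pvdm_ov_mem hm, hv.1]
  cases b <;> rfl

section contract

variable {zt zs : ℂ} {Rt Rs : ℝ} {yt ys ζt ζs : ℂ} {κ₀ δ r r₁ r₂ δc : ℝ} {R : Set ℂ} {x y : ℂ} {π : PvwPat} {b : Bool}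

/-- **HOOK-DET FOR `WO`, MIXED COLOURING**: any event whose deterministic content is a lane of colour `!b` in the region `R` between sites near `x` and `y` -/
theorem pvhw_contract_det (h : DelGood Y) {P : PlTri ↥Y} (hP : P = delPl h) {𝔇 : PvwDat P.toMap} (hπ : π.Wf) {𝒜 : Set (Conf PvPt)} (hdet : PvkqDet δc (!b) R x y 𝒜)
    (G : PvhwReg zt zs Rt Rs yt ys ζt ζs κ₀ δ r r₁ r₂ (2 * δc) R x y) (H : PvhwDat 𝔇 zt zs Rt Rs yt ys ζt ζs δ r R) (Ot : PvhwOut 𝔇 zt Rt yt κ₀ r r₂) (Is : PvhwIn 𝔇 zs Rs ys κ₀ r r₂)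
    (hR : R ⊆ π.Yout) (σ κ : ℂ → Bool) (hκ : cfOf Y κ ∈ 𝒜) : 𝔇.WO Subtype.val π (pvheCol Y b (pvdmOv (Subtype.val '' 𝔇.fz)ᶜ κ σ)) := by
  subst hP
  obtain ⟨a, c, ha, hc, hj⟩ := hdet Y h κ hκ
  have F := G.fit H Ot Is (X := pvkqV Y κ (!b) R) (fun v hv => hv.2) ha hc hj
  exact PvhwFit.WO (h := h) F Ot Is hπ (fun v hv hf => pvhw_mix_white 𝔇 b σ κ hv hf) (fun v hv _ => hR hv.2)

/-- **THE CONTRACT OF 35 FOR THE PATTERN OF RECORD OF 21** -/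
theorem pvhw_contract (h : DelGood Y) {𝔇 : PvwDat (pvheT Y)} (hπ : π.Wf) (hc : PvkqCore δc R x y)
    (G : PvhwReg zt zs Rt Rs yt ys ζt ζs κ₀ δ r r₁ r₂ (2 * δc) R x y) (H : PvhwDat 𝔇 zt zs Rt Rs yt ys ζt ζs δ r R) (Ot : PvhwOut 𝔇 zt Rt yt κ₀ r r₂) (Is : PvhwIn 𝔇 zs Rs ys κ₀ r r₂)
    (hR : R ⊆ π.Yout) : PvheHookW 𝔇 π b (pvkqEv δc (!b) R x y) :=
  fun σ κ _ hκ => pvhw_contract_det h (delb_pl_eq h) hπ (pvkq_Ev_det hc (!b)) G H Ot Is hR σ κ hκ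

end contract

section ok

variable {N : PvwNum} {hh : ℝ} {π : PvwPat} {ζt ζs : ℂ} {δ r r₁ r₂ δc : ℝ} {R : Set ℂ} {x y : ℂ} {b : Bool}

/-- the three records read on a well formed datum, any presentation of the Delaunay plane -/
theorem pvhw_records_ok (h : DelGood Y) {P : PlTri ↥Y} (hP : P = delPl h) {𝔇 : PvwDat P.toMap} (hOk : 𝔇.Ok Subtype.val N hh π) (hπ : π.Wf)
    (G : PvhwReg π.zt π.zs (pvwRad N hh π.tt π.tt.k) (pvwRad N hh π.ts π.ts.k) (π.tt.cp hh π.zt) (π.ts.cm hh π.zs) ζt ζs (N.rho * hh / 4) δ r r₁ r₂ (2 * δc) R x y)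
    (G' : PvhwRegOk N hh π ζt ζs δ r R) (hr : N.rho2 * hh ≤ r) (hr₂ : r₂ ≤ N.rho1 * hh / 2)
    (mesh_t : VorDense Y (closedBall (π.tt.cp hh π.zt) (r + 3 * δ)) δ) (mesh_s : VorDense Y (closedBall (π.ts.cm hh π.zs) (r + 3 * δ)) δ) (mesh_R : ∀ w ∈ R, VorDense Y (closedBall w (2 * δ)) δ) :
    PvhwDat 𝔇 π.zt π.zs (pvwRad N hh π.tt π.tt.k) (pvwRad N hh π.ts π.ts.k) (π.tt.cp hh π.zt) (π.ts.cm hh π.zs) ζt ζs δ r R ∧
      PvhwOut 𝔇 π.zt (pvwRad N hh π.tt π.tt.k) (π.tt.cp hh π.zt) (N.rho * hh / 4) r r₂ ∧ PvhwIn 𝔇 π.zs (pvwRad N hh π.ts π.ts.k) (π.ts.cm hh π.zs) (N.rho * hh / 4) r r₂ := by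
  subst hP
  have hκ0 : 0 ≤ N.rho * hh / 4 := (norm_nonneg _).trans hOk.st_t.good.tip_p.1
  have hκr : N.rho * hh / 4 ≤ r := by linarith [G.num1, G.num3, G.mesh_pos]
  exact ⟨pvhw_dat_of_ok h hOk hπ G.dir_t G.dir_s G' G.mesh_pos hκr mesh_t mesh_s mesh_R, pvhw_out_of_ok hOk hr hr₂, pvhw_in_of_ok hOk hr hr₂⟩

/-- **THE CONTRACT OF 35 FROM `PvwDat.Ok`, ONE STOP**: pure geometry of the region + mesh -/
theorem pvhw_contract_ok (h : DelGood Y) {𝔇 : PvwDat (pvheT Y)} (hOk : 𝔇.Ok Subtype.val N hh π) (hπ : π.Wf) (hc : PvkqCore δc R x y)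
    (G : PvhwReg π.zt π.zs (pvwRad N hh π.tt π.tt.k) (pvwRad N hh π.ts π.ts.k) (π.tt.cp hh π.zt) (π.ts.cm hh π.zs) ζt ζs (N.rho * hh / 4) δ r r₁ r₂ (2 * δc) R x y)
    (G' : PvhwRegOk N hh π ζt ζs δ r R) (hr : N.rho2 * hh ≤ r) (hr₂ : r₂ ≤ N.rho1 * hh / 2)
    (mesh_t : VorDense Y (closedBall (π.tt.cp hh π.zt) (r + 3 * δ)) δ) (mesh_s : VorDense Y (closedBall (π.ts.cm hh π.zs) (r + 3 * δ)) δ) (mesh_R : ∀ w ∈ R, VorDense Y (closedBall w (2 * δ)) δ) :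
    PvheHookW 𝔇 π b (pvkqEv δc (!b) R x y) := by
  obtain ⟨H, Ot, Is⟩ := pvhw_records_ok h (delb_pl_eq h) hOk hπ G G' hr hr₂ mesh_t mesh_s mesh_R
  exact pvhw_contract h hπ hc G H Ot Is G'.out

/-- **THE FIELD `hq`** at a well formed datum: the quenched probability of the pattern of record bounds the conditional probability of `WO` from below -/
theorem pvhw_hq (h : DelGood Y) {𝔇 : PvwDat (pvheT Y)} (hOk : 𝔇.Ok Subtype.val N hh π) (hπ : π.Wf) (hc : PvkqCore δc R x y)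
    (G : PvhwReg π.zt π.zs (pvwRad N hh π.tt π.tt.k) (pvwRad N hh π.ts π.ts.k) (π.tt.cp hh π.zt) (π.ts.cm hh π.zs) ζt ζs (N.rho * hh / 4) δ r r₁ r₂ (2 * δc) R x y)
    (G' : PvhwRegOk N hh π ζt ζs δ r R) (hr : N.rho2 * hh ≤ r) (hr₂ : r₂ ≤ N.rho1 * hh / 2)
    (mesh_t : VorDense Y (closedBall (π.tt.cp hh π.zt) (r + 3 * δ)) δ) (mesh_s : VorDense Y (closedBall (π.ts.cm hh π.zs) (r + 3 * δ)) δ) (mesh_R : ∀ w ∈ R, VorDense Y (closedBall w (2 * δ)) δ)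
    {q : ℝ≥0∞} (hq : q ≤ pvkqP (pvkqEv δc (!b) R x y) Y) {σ : ℂ → Bool} (hσ : pvheCol Y b σ ∈ 𝔇.Cyl) :
    q ≤ colLaw ℂ {κ | 𝔇.WO Subtype.val π (pvheCol Y b (pvdmOv (Subtype.val '' 𝔇.fz)ᶜ κ σ))} :=
  pvhe_hq (pvhw_contract_ok h hOk hπ hc G G' hr hr₂ mesh_t mesh_s mesh_R) hq hσ

end ok

/-! ## C. the contract of 35, all tip cells (corner form) -/

section contractC

variable {zt zs : ℂ} {Rt Rs : ℝ} {yt ys : ℂ} {κ₀ δ r r₁ r₂ δc : ℝ} {R Hu : Set ℂ} {x y : ℂ} {π : PvwPat} {b : Bool}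

theorem pvhw_contractC_det (h : DelGood Y) {P : PlTri ↥Y} (hP : P = delPl h) {𝔇 : PvwDat P.toMap} (hπ : π.Wf) {𝒜 : Set (Conf PvPt)} (hdet : PvkqDet δc (!b) R x y 𝒜)
    (G : PvhwRegC zt zs Rt Rs yt ys κ₀ δ r r₁ r₂ (2 * δc) R Hu x y) (H : PvhwDatC 𝔇 yt ys δ r R Hu) (Ot : PvhwOut 𝔇 zt Rt yt κ₀ r r₂) (Is : PvhwIn 𝔇 zs Rs ys κ₀ r r₂)
    (hR : R ⊆ π.Yout) (σ κ : ℂ → Bool) (hκ : cfOf Y κ ∈ 𝒜) : 𝔇.WO Subtype.val π (pvheCol Y b (pvdmOv (Subtype.val '' 𝔇.fz)ᶜ κ σ)) := by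
  subst hP
  obtain ⟨a, c, ha, hc, hj⟩ := hdet Y h κ hκ
  have F := G.fit H Ot Is (X := pvkqV Y κ (!b) R) (fun v hv => hv.2) ha hc hj
  exact PvhwFitC.WO (h := h) F Ot Is hπ (fun v hv hf => pvhw_mix_white 𝔇 b σ κ hv hf) (fun v hv _ => hR hv.2)

/-- **THE CONTRACT OF 35 FOR THE PATTERN OF RECORD OF 21, ALL TIP CELLS** -/
theorem pvhw_contractC (h : DelGood Y) {𝔇 : PvwDat (pvheT Y)} (hπ : π.Wf) (hc : PvkqCore δc R x y)
    (G : PvhwRegC zt zs Rt Rs yt ys κ₀ δ r r₁ r₂ (2 * δc) R Hu x y) (H : PvhwDatC 𝔇 yt ys δ r R Hu) (Ot : PvhwOut 𝔇 zt Rt yt κ₀ r r₂) (Is : PvhwIn 𝔇 zs Rs ys κ₀ r r₂)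
    (hR : R ⊆ π.Yout) : PvheHookW 𝔇 π b (pvkqEv δc (!b) R x y) :=
  fun σ κ _ hκ => pvhw_contractC_det h (delb_pl_eq h) hπ (pvkq_Ev_det hc (!b)) G H Ot Is hR σ κ hκ

end contractC

section okC

variable {N : PvwNum} {hh : ℝ} {π : PvwPat} {δ r r₁ r₂ δc : ℝ} {R Hu : Set ℂ} {x y : ℂ} {b : Bool}

theorem pvhw_recordsC_ok (h : DelGood Y) {P : PlTri ↥Y} (hP : P = delPl h) {𝔇 : PvwDat P.toMap} (hOk : 𝔇.Ok Subtype.val N hh π) (hπ : π.Wf) (hδ : 0 < δ)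
    (G' : PvhwRegOkC N hh π δ r R Hu) (hull : ∀ v ∈ 𝔇.fzY, (v : ℂ) ∈ Hu) (hr : N.rho2 * hh ≤ r) (hr₂ : r₂ ≤ N.rho1 * hh / 2)
    (mesh_t : VorDense Y (closedBall (π.tt.cp hh π.zt) (r + 3 * δ)) δ) (mesh_s : VorDense Y (closedBall (π.ts.cm hh π.zs) (r + 3 * δ)) δ) (mesh_R : ∀ w ∈ R, VorDense Y (closedBall w (2 * δ)) δ) :
    PvhwDatC 𝔇 (π.tt.cp hh π.zt) (π.ts.cm hh π.zs) δ r R Hu ∧
      PvhwOut 𝔇 π.zt (pvwRad N hh π.tt π.tt.k) (π.tt.cp hh π.zt) (N.rho * hh / 4) r r₂ ∧ PvhwIn 𝔇 π.zs (pvwRad N hh π.ts π.ts.k) (π.ts.cm hh π.zs) (N.rho * hh / 4) r r₂ := by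
  subst hP
  exact ⟨pvhw_datC_of_ok h hOk hπ G' hull hδ mesh_t mesh_s mesh_R, pvhw_out_of_ok hOk hr hr₂, pvhw_in_of_ok hOk hr hr₂⟩

/-- **THE CONTRACT OF 35 FROM `PvwDat.Ok`, ONE STOP, ALL TIP CELLS**: pure geometry of the region + mesh -/
theorem pvhw_contractC_ok (h : DelGood Y) {𝔇 : PvwDat (pvheT Y)} (hOk : 𝔇.Ok Subtype.val N hh π) (hπ : π.Wf) (hc : PvkqCore δc R x y)
    (G : PvhwRegC π.zt π.zs (pvwRad N hh π.tt π.tt.k) (pvwRad N hh π.ts π.ts.k) (π.tt.cp hh π.zt) (π.ts.cm hh π.zs) (N.rho * hh / 4) δ r r₁ r₂ (2 * δc) R Hu x y)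
    (G' : PvhwRegOkC N hh π δ r R Hu) (hull : ∀ v ∈ 𝔇.fzY, (v : ℂ) ∈ Hu) (hr : N.rho2 * hh ≤ r) (hr₂ : r₂ ≤ N.rho1 * hh / 2)
    (mesh_t : VorDense Y (closedBall (π.tt.cp hh π.zt) (r + 3 * δ)) δ) (mesh_s : VorDense Y (closedBall (π.ts.cm hh π.zs) (r + 3 * δ)) δ) (mesh_R : ∀ w ∈ R, VorDense Y (closedBall w (2 * δ)) δ) :
    PvheHookW 𝔇 π b (pvkqEv δc (!b) R x y) := by
  obtain ⟨H, Ot, Is⟩ := pvhw_recordsC_ok h (delb_pl_eq h) hOk hπ G.mesh_pos G' hull hr hr₂ mesh_t mesh_s mesh_R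
  exact pvhw_contractC h hπ hc G H Ot Is G'.out

/-- **THE FIELD `hq`, ALL TIP CELLS** -/
theorem pvhw_hqC (h : DelGood Y) {𝔇 : PvwDat (pvheT Y)} (hOk : 𝔇.Ok Subtype.val N hh π) (hπ : π.Wf) (hc : PvkqCore δc R x y)
    (G : PvhwRegC π.zt π.zs (pvwRad N hh π.tt π.tt.k) (pvwRad N hh π.ts π.ts.k) (π.tt.cp hh π.zt) (π.ts.cm hh π.zs) (N.rho * hh / 4) δ r r₁ r₂ (2 * δc) R Hu x y)
    (G' : PvhwRegOkC N hh π δ r R Hu) (hull : ∀ v ∈ 𝔇.fzY, (v : ℂ) ∈ Hu) (hr : N.rho2 * hh ≤ r) (hr₂ : r₂ ≤ N.rho1 * hh / 2)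
    (mesh_t : VorDense Y (closedBall (π.tt.cp hh π.zt) (r + 3 * δ)) δ) (mesh_s : VorDense Y (closedBall (π.ts.cm hh π.zs) (r + 3 * δ)) δ) (mesh_R : ∀ w ∈ R, VorDense Y (closedBall w (2 * δ)) δ)
    {q : ℝ≥0∞} (hq : q ≤ pvkqP (pvkqEv δc (!b) R x y) Y) {σ : ℂ → Bool} (hσ : pvheCol Y b σ ∈ 𝔇.Cyl) :
    q ≤ colLaw ℂ {κ | 𝔇.WO Subtype.val π (pvheCol Y b (pvdmOv (Subtype.val '' 𝔇.fz)ᶜ κ σ))} :=
  pvhe_hq (pvhw_contractC_ok h hOk hπ hc G G' hull hr hr₂ mesh_t mesh_s mesh_R) hq hσ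

end okC

end Claimed.Agent.R289
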