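-- KEEP
import Claimed.Agent.R289.Tr.HookWE
import Claimed.Agent.R289.Tr.HookWD
import Claimed.Agent.R289.Tr.LinkT

/-!
# Row 289 (S0537, Cardy for Poisson-Voronoi), box TR, ROAD E, HOOK-DET, file Tr/HookWM : THE HOOKED OUTER CORRIDOR AT THE REGIONS OF RECORD      (owner helper155; prefix `pvhv_`, `pvhv`, `Pvhv`)

ONE REGION, ONE PICTURE (east = the outer normal of the door) FOR ALL TIP CELLS, CORNERS INCLUDED = the D FORM of HOOK-W (53, `Tr/HookWD`: the ray points along the door normal in all cases).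
`a = ρ h`, `δ` = side of the cells of the corridor `(z,d,l)`, `yt ys` = grid centres of the tip cells, `ut us` = outer normals of the two doors;   `r₂ = 8 a / 10`, `κ = a / 4`, mesh of the pattern `δ / 100`.
* sec. 1  the reference C `pvhvC e a top` = 4 rectangles in the coordinates `(re, e * im)`, `e = 1` at `t`, `e = -1` at `s`;   `pvhv_C_le _ge` (in the landing zone `A(a/2, a)`), `pvhv_C_front` (D front), `pvhv_C_east` (collar + box), `pvhv_C_strip` (off the inner lanes)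
* sec. 2  placements, `pvhv_end_core` (the core of a placed C is joined from the starting point to the junction)
* sec. 3  straight runs `pvhv_run_t`, `pvhv_run_s`
* sec. 4  **`pvhvR a δ yt ys ut us z d l`** = C at `t` ∪ far half of the outer lane in the cells `j₀ .. k₀` (`pvljSeg` of 221) ∪ C at `s`;  ends `pvhvXa`, `pvhvXb`;   **`PvhvGeo`** = what is asked of the index;   `PvhvGeo.seg` (the cells of the lane),
          **`PvhvGeo.core`** : `PvkqCore (δ / 100) R xa xb`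
* sec. 5  the fields of the D form at the region: `PvhvGeo.out` (R in `pvfeOut (a/2) a`), `.collar` (in `pvfeBody a 3`), `.front_t _s`, `.east_t _s`, `.start`, `.stop`, `.bdd`, `.box_t _s`
* sec. 6  **`PvhvFitH`** (numbers + pattern, no site), **`pvhv_fit`** (all fields of `PvhwFitD` of 53), **`pvhv_det`** : the white pattern of record of `pvhvR` for the fresh colours gives `WO(D)`  (hypotheses: `Ok`, `PvhvGeo`, `PvhvFitH`, (FZ), three mesh hypotheses)
-/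

set_option autoImplicit false
set_option linter.unusedSectionVars false
set_option linter.unusedVariables false
set_option linter.unusedSimpArgs false

namespace Claimed.Agent.R289

open Set Metric Complex

/-! ## 1. the reference C -/

/-- rectangle in the coordinates `(re, e * im)`, `e = ± 1` -/
def pvhvRect (e x₀ x₁ y₀ y₁ : ℝ) : Set ℂ := {w | x₀ ≤ w.re ∧ w.re ≤ x₁ ∧ y₀ ≤ e * w.im ∧ e * w.im ≤ y₁}

/-- the point of coordinates `(x, y)` -/
noncomputable def pvhvPt (e x y : ℝ) : ℂ := ⟨x, e * y⟩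

def pvhvP1 (e a : ℝ) : Set ℂ := pvhvRect e (-(56 / 100 * a)) (40 / 100 * a) (51 / 100 * a) (56 / 100 * a)
def pvhvP2 (e a : ℝ) : Set ℂ := pvhvRect e (-(56 / 100 * a)) (-(51 / 100 * a)) (-(56 / 100 * a)) (56 / 100 * a)
def pvhvP3 (e a : ℝ) : Set ℂ := pvhvRect e (-(56 / 100 * a)) (82 / 100 * a) (-(56 / 100 * a)) (-(51 / 100 * a))
def pvhvP4 (e a top : ℝ) : Set ℂ := pvhvRect e (81 / 100 * a) (82 / 100 * a) (-(56 / 100 * a)) top

/-- **THE REFERENCE C** -/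
def pvhvC (e a top : ℝ) : Set ℂ := pvhvP1 e a ∪ pvhvP2 e a ∪ pvhvP3 e a ∪ pvhvP4 e a top

theorem pvhv_rect_convex (e x₀ x₁ y₀ y₁ : ℝ) : Convex ℝ (pvhvRect e x₀ x₁ y₀ y₁) := by
  intro x hx y hy s t hs ht hst
  obtain ⟨a1, a2, a3, a4⟩ := hx
  obtain ⟨b1, b2, b3, b4⟩ := hy
  have e1 : (s • x + t • y).re = s * x.re + t * y.re := by simp
  have e2 : (s • x + t • y).im = s * x.im + t * y.im := by simp
  have e3 : e * (s * x.im + t * y.im) = s * (e * x.im) + t * (e * y.im) := by ring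
  refine ⟨?_, ?_, ?_, ?_⟩
  · rw [e1]; exact pvtzd_cc_ge hs ht hst a1 b1
  · rw [e1]; exact pvtzd_cc_le hs ht hst a2 b2
  · rw [e2, e3]; exact pvtzd_cc_ge hs ht hst a3 b3
  · rw [e2, e3]; exact pvtzd_cc_le hs ht hst a4 b4

theorem pvhv_abs_e {e : ℝ} (he : e = 1 ∨ e = -1) (t : ℝ) : |e * t| = |t| := by
  rcases he with rfl | rfl <;> simp

theorem pvhv_ball_rect {e : ℝ} (he : e = 1 ∨ e = -1) {x₀ x₁ y₀ y₁ s x y : ℝ} (h1 : x₀ + s ≤ x) (h2 : x + s ≤ x₁) (h3 : y₀ + s ≤ y) (h4 : y + s ≤ y₁) :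
    closedBall (pvhvPt e x y) s ⊆ pvhvRect e x₀ x₁ y₀ y₁ := by
  intro w hw
  rw [mem_closedBall_iff_norm] at hw
  have r1 := abs_le.1 ((abs_re_le_norm (w - pvhvPt e x y)).trans hw)
  have r2 := (abs_im_le_norm (w - pvhvPt e x y)).trans hw
  rw [← pvhv_abs_e he] at r2
  have r2' := abs_le.1 r2
  have e1 : (w - pvhvPt e x y).re = w.re - x := by simp [pvhvPt]
  have e2 : e * (w - pvhvPt e x y).im = e * w.im - y := by
    have : e * e = 1 := by rcases he with rfl | rfl <;> norm_num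
    simp only [pvhvPt, sub_im]
    linear_combination (-y) * this
  rw [e1] at r1
  rw [e2] at r2'
  exact ⟨by linarith [r1.1], by linarith [r1.2], by linarith [r2'.1], by linarith [r2'.2]⟩

theorem pvhv_sq_norm (v : ℂ) : ‖v‖ ^ 2 = v.re ^ 2 + v.im ^ 2 := by
  rw [Complex.sq_norm, Complex.normSq_apply]; ring

theorem pvhv_sq_norm_e {e : ℝ} (he : e = 1 ∨ e = -1) (v : ℂ) : ‖v‖ ^ 2 = v.re ^ 2 + (e * v.im) ^ 2 := by
  rw [pvhv_sq_norm]
  rcases he with rfl | rfl <;> ring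

/-- upper bound for the norm from the squares -/
theorem pvhv_norm_le {v : ℂ} {R : ℝ} (hR : 0 ≤ R) (h : v.re ^ 2 + v.im ^ 2 ≤ R ^ 2) : ‖v‖ ≤ R := by
  rw [← pvhv_sq_norm] at h
  exact abs_le_of_sq_le_sq' h hR |>.2 |> fun h' => (le_abs_self _).trans (by rwa [abs_of_nonneg (norm_nonneg v)])


/-! ### the reference facts (`a` = `ρ h`, `m` = mesh, `r₂ = 8 a / 10`, `κ = a / 4`) -/

section ref

variable {e a top m : ℝ} {v : ℂ}

/-- the C lies in the landing zone: `‖v‖ ≤ a` -/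
theorem pvhv_C_le (he : e = 1 ∨ e = -1) (ha : 0 < a) (htop : top ≤ 56 / 100 * a) (hv : v ∈ pvhvC e a top) : ‖v‖ ≤ a := by
  have key : ∀ x y : ℝ, |x| ≤ 82 / 100 * a → |y| ≤ 56 / 100 * a → x ^ 2 + y ^ 2 ≤ a ^ 2 := by
    intro x y hx hy
    have h1 : x ^ 2 ≤ (82 / 100 * a) ^ 2 := sq_le_sq' (by linarith [(abs_le.1 hx).1]) (abs_le.1 hx).2
    have h2 : y ^ 2 ≤ (56 / 100 * a) ^ 2 := sq_le_sq' (by linarith [(abs_le.1 hy).1]) (abs_le.1 hy).2
    nlinarith [sq_nonneg a]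
  have hn : v.re ^ 2 + (e * v.im) ^ 2 ≤ a ^ 2 := by
    rcases hv with ((⟨h1, h2, h3, h4⟩ | ⟨h1, h2, h3, h4⟩) | ⟨h1, h2, h3, h4⟩) | ⟨h1, h2, h3, h4⟩ <;>
      exact key _ _ (abs_le.2 ⟨by linarith, by linarith⟩) (abs_le.2 ⟨by linarith, by linarith⟩)
  rw [← pvhv_sq_norm_e he] at hn
  exact (abs_le_of_sq_le_sq' hn ha.le).2

/-- the C is off the inner mouth: `51 a / 100 ≤ ‖v‖` -/
theorem pvhv_C_ge (he : e = 1 ∨ e = -1) (ha : 0 < a) (hv : v ∈ pvhvC e a top) : 51 / 100 * a ≤ ‖v‖ := by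
  have i1 : |e * v.im| ≤ ‖v‖ := by rw [pvhv_abs_e he]; exact abs_im_le_norm v
  have i2 : |v.re| ≤ ‖v‖ := abs_re_le_norm v
  rcases hv with ((⟨h1, h2, h3, h4⟩ | ⟨h1, h2, h3, h4⟩) | ⟨h1, h2, h3, h4⟩) | ⟨h1, h2, h3, h4⟩
  · exact h3.trans ((le_abs_self _).trans i1)
  · exact le_trans (by linarith) ((neg_abs_le v.re |> fun h => by linarith : -v.re ≤ |v.re|).trans i2)
  · exact le_trans (by linarith) ((neg_abs_le (e * v.im) |> fun h => by linarith : -(e * v.im) ≤ |e * v.im|).trans i1)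
  · exact le_trans (by linarith) ((le_abs_self v.re).trans i2)

/-- FRONT: near the inner mouth the C is west of the tip face or off the strip of the ray -/
theorem pvhv_C_front (he : e = 1 ∨ e = -1) (ha : 0 < a) (hm0 : 0 ≤ m) (hm : 1000 * m ≤ a) (hv : v ∈ pvhvC e a top) (hn : ‖v‖ ≤ 8 / 10 * a + 2 * m) :
    v.re < -(a / 4 + 2 * m) ∨ a / 4 + 2 * m + 2 * m < |v.im| := by
  rw [← pvhv_abs_e he v.im]
  rcases hv with ((⟨h1, h2, h3, h4⟩ | ⟨h1, h2, h3, h4⟩) | ⟨h1, h2, h3, h4⟩) | ⟨h1, h2, h3, h4⟩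
  · exact Or.inr (lt_of_lt_of_le (by linarith) (le_abs_self _))
  · exact Or.inl (by linarith)
  · exact Or.inr (lt_of_lt_of_le (by linarith) (neg_le_abs _))
  · exfalso
    have := (le_abs_self v.re).trans (abs_re_le_norm v)
    linarith

/-- COLLAR + BOX: beyond the radius `8 a / 10 - 2 m` the C is east of `a / 4`; up to the radius `8 a / 10` it is below the strip -/
theorem pvhv_C_east (he : e = 1 ∨ e = -1) (ha : 0 < a) (hm0 : 0 ≤ m) (hm : 1000 * m ≤ a) (hv : v ∈ pvhvC e a top) (hn : 8 / 10 * a - 2 * m < ‖v‖) :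
    a / 4 < v.re ∧ (‖v‖ ≤ 8 / 10 * a → a / 4 + 2 * m < -(e * v.im)) := by
  have hsq : (798 / 1000 * a) ^ 2 < v.re ^ 2 + (e * v.im) ^ 2 := by
    rw [← pvhv_sq_norm_e he]
    exact pow_lt_pow_left₀ (by linarith) (by positivity) (by norm_num)
  have small : ∀ x y : ℝ, |x| ≤ 56 / 100 * a → |y| ≤ 56 / 100 * a → x ^ 2 + y ^ 2 ≤ (798 / 1000 * a) ^ 2 := by
    intro x y hx hy
    have h1 : x ^ 2 ≤ (56 / 100 * a) ^ 2 := sq_le_sq' (by linarith [(abs_le.1 hx).1]) (abs_le.1 hx).2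
    have h2 : y ^ 2 ≤ (56 / 100 * a) ^ 2 := sq_le_sq' (by linarith [(abs_le.1 hy).1]) (abs_le.1 hy).2
    nlinarith [sq_nonneg a]
  rcases hv with ((⟨h1, h2, h3, h4⟩ | ⟨h1, h2, h3, h4⟩) | ⟨h1, h2, h3, h4⟩) | ⟨h1, h2, h3, h4⟩
  · exact absurd hsq (not_lt.2 (small _ _ (abs_le.2 ⟨by linarith, by linarith⟩) (abs_le.2 ⟨by linarith, by linarith⟩)))
  · exact absurd hsq (not_lt.2 (small _ _ (abs_le.2 ⟨by linarith, by linarith⟩) (abs_le.2 ⟨by linarith, by linarith⟩)))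
  · refine ⟨?_, fun _ => by linarith⟩
    by_contra hc
    rw [not_lt] at hc
    exact absurd hsq (not_lt.2 (small _ _ (abs_le.2 ⟨by linarith, by linarith⟩) (abs_le.2 ⟨by linarith, by linarith⟩)))
  · refine ⟨by linarith, fun h => ?_⟩
    have := (le_abs_self v.re).trans (abs_re_le_norm v)
    linarith

/-- STRIP: the C is at distance `> δ / 10` from the strip of the inner lanes (`top` = upper side of the outer lane, the inner lanes occupy `[top + 2 δ / 10, top + 7 δ / 10]`, east of `3 a / 10`) -/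
theorem pvhv_C_strip (he : e = 1 ∨ e = -1) (ha : 0 < a) {δ : ℝ} (hδ0 : 0 < δ) (hδ : 1000 * δ ≤ a) (htop : |top| ≤ 2 * δ) (hv : v ∈ pvhvC e a top) {q : ℂ}
    (hq1 : 3 / 10 * a ≤ q.re) (hq2 : top + 2 / 10 * δ ≤ e * q.im) (hq3 : e * q.im ≤ top + 7 / 10 * δ) : δ / 10 < ‖q - v‖ := by
  have i1 : |e * q.im - e * v.im| ≤ ‖q - v‖ := by
    rw [← mul_sub, pvhv_abs_e he, ← sub_im]; exact abs_im_le_norm _
  have i2 : |q.re - v.re| ≤ ‖q - v‖ := by rw [← sub_re]; exact abs_re_le_norm _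
  obtain ⟨t1, t2⟩ := abs_le.1 htop
  rcases hv with ((⟨h1, h2, h3, h4⟩ | ⟨h1, h2, h3, h4⟩) | ⟨h1, h2, h3, h4⟩) | ⟨h1, h2, h3, h4⟩
  · exact lt_of_lt_of_le (lt_of_lt_of_le (by linarith) (neg_le_abs _)) i1
  · exact lt_of_lt_of_le (lt_of_lt_of_le (by linarith) (le_abs_self _)) i2
  · exact lt_of_lt_of_le (lt_of_lt_of_le (by linarith) (le_abs_self _)) i1
  · exact lt_of_lt_of_le (lt_of_lt_of_le (by linarith) (le_abs_self _)) i1

end ref


/-! ## 2. placements -/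

theorem pvhv_conj_mul {u : ℂ} (hu : ‖u‖ = 1) : (starRingEnd ℂ) u * u = 1 := by
  rw [mul_comm, Complex.mul_conj, Complex.normSq_eq_norm_sq, hu]; norm_num

theorem pvhv_norm_conj {u : ℂ} (hu : ‖u‖ = 1) : ‖(starRingEnd ℂ) u‖ = 1 := by rw [Complex.norm_conj, hu]

/-- the picture of a placed point -/
theorem pvhv_pic {u : ℂ} (hu : ‖u‖ = 1) (c v : ℂ) : (starRingEnd ℂ) u * (c + u * v) - (starRingEnd ℂ) u * c = v := by
  have := pvhv_conj_mul hu
  linear_combination v * this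

theorem pvhv_pic_re {u : ℂ} (hu : ‖u‖ = 1) (c v : ℂ) : ((starRingEnd ℂ) u * (c + u * v)).re = ((starRingEnd ℂ) u * c).re + v.re := by
  have := congrArg Complex.re (pvhv_pic hu c v)
  rw [sub_re] at this
  linarith

theorem pvhv_pic_im {u : ℂ} (hu : ‖u‖ = 1) (c v : ℂ) : ((starRingEnd ℂ) u * (c + u * v)).im = ((starRingEnd ℂ) u * c).im + v.im := by
  have := congrArg Complex.im (pvhv_pic hu c v)
  rw [sub_im] at this
  linarith

theorem pvhv_pl_norm {u : ℂ} (hu : ‖u‖ = 1) (c v : ℂ) : ‖c + u * v - c‖ = ‖v‖ := by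
  rw [add_sub_cancel_left, norm_mul, hu, one_mul]

/-- every point is placed -/
theorem pvhv_unpl {u : ℂ} (hu : ‖u‖ = 1) (c w : ℂ) : c + u * ((starRingEnd ℂ) u * (w - c)) = w := by
  have := pvhv_conj_mul hu
  linear_combination (w - c) * this

theorem pvhv_pl_ball {c u : ℂ} (hu : ‖u‖ = 1) {q : ℂ} {s : ℝ} {S : Set ℂ} (h : closedBall q s ⊆ S) : closedBall (c + u * q) s ⊆ pvccPl c u S := by
  intro p hp
  refine ⟨(starRingEnd ℂ) u * (p - c), h ?_, pvhv_unpl hu c p⟩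
  rw [mem_closedBall_iff_norm] at hp ⊢
  have e : (starRingEnd ℂ) u * (p - c) - q = (starRingEnd ℂ) u * (p - (c + u * q)) := by
    have := pvhv_conj_mul hu
    linear_combination q * this
  rw [e, norm_mul, pvhv_norm_conj hu, one_mul]
  exact hp

/-- **the core of a placed C is joined** from the starting point `(35 a / 100, 535 a / 1000)` to any point `(xj, yj)` of the core of the last bar -/
theorem pvhv_end_core {e a top s xj yj : ℝ} (he : e = 1 ∨ e = -1) (ha : 0 < a) (hs0 : 0 ≤ s) (hs : 1000 * s ≤ a) (hx1 : 81 / 100 * a + s ≤ xj) (hx2 : xj + s ≤ 82 / 100 * a)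
    (hy1 : -(56 / 100 * a) + s ≤ yj) (hy2 : yj + s ≤ top) (htop : -(5 / 10 * a) ≤ top) {c u : ℂ} (hu : ‖u‖ = 1) {R : Set ℂ} (hR : pvccPl c u (pvhvC e a top) ⊆ R) :
    JoinedIn (pvljCore s R) (c + u * pvhvPt e (35 / 100 * a) (535 / 1000 * a)) (c + u * pvhvPt e xj yj) := by
  have cv : ∀ x₀ x₁ y₀ y₁ : ℝ, Convex ℝ (pvccPl c u (pvhvRect e x₀ x₁ y₀ y₁)) := fun _ _ _ _ => pvlj_pl_convex _ _ (pvhv_rect_convex _ _ _ _ _)
  have s1 : pvccPl c u (pvhvP1 e a) ⊆ R := (pvccPl_mono _ _ (fun w hw => Or.inl (Or.inl (Or.inl hw)))).trans hR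
  have s2 : pvccPl c u (pvhvP2 e a) ⊆ R := (pvccPl_mono _ _ (fun w hw => Or.inl (Or.inl (Or.inr hw)))).trans hR
  have s3 : pvccPl c u (pvhvP3 e a) ⊆ R := (pvccPl_mono _ _ (fun w hw => Or.inl (Or.inr hw))).trans hR
  have s4 : pvccPl c u (pvhvP4 e a top) ⊆ R := (pvccPl_mono _ _ (fun w hw => Or.inr hw)).trans hR
  have j1 : JoinedIn (pvljCore s R) (c + u * pvhvPt e (35 / 100 * a) (535 / 1000 * a)) (c + u * pvhvPt e (-(535 / 1000 * a)) (535 / 1000 * a)) :=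
    pvlj_joined_convex (cv _ _ _ _) s1 (pvhv_pl_ball hu (pvhv_ball_rect he (by linarith) (by linarith) (by linarith) (by linarith)))
      (pvhv_pl_ball hu (pvhv_ball_rect he (by linarith) (by linarith) (by linarith) (by linarith)))
  have j2 : JoinedIn (pvljCore s R) (c + u * pvhvPt e (-(535 / 1000 * a)) (535 / 1000 * a)) (c + u * pvhvPt e (-(535 / 1000 * a)) (-(535 / 1000 * a))) :=
    pvlj_joined_convex (cv _ _ _ _) s2 (pvhv_pl_ball hu (pvhv_ball_rect he (by linarith) (by linarith) (by linarith) (by linarith)))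
      (pvhv_pl_ball hu (pvhv_ball_rect he (by linarith) (by linarith) (by linarith) (by linarith)))
  have j3 : JoinedIn (pvljCore s R) (c + u * pvhvPt e (-(535 / 1000 * a)) (-(535 / 1000 * a))) (c + u * pvhvPt e (815 / 1000 * a) (-(535 / 1000 * a))) :=
    pvlj_joined_convex (cv _ _ _ _) s3 (pvhv_pl_ball hu (pvhv_ball_rect he (by linarith) (by linarith) (by linarith) (by linarith)))
      (pvhv_pl_ball hu (pvhv_ball_rect he (by linarith) (by linarith) (by linarith) (by linarith)))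
  have j4 : JoinedIn (pvljCore s R) (c + u * pvhvPt e (815 / 1000 * a) (-(535 / 1000 * a))) (c + u * pvhvPt e xj yj) :=
    pvlj_joined_convex (cv _ _ _ _) s4 (pvhv_pl_ball hu (pvhv_ball_rect he (by linarith) (by linarith) (by linarith) (by linarith)))
      (pvhv_pl_ball hu (pvhv_ball_rect he hx1 hx2 hy1 hy2))
  exact ((j1.trans j2).trans j3).trans j4

/-! ## 3. straight runs -/

/-- the first link -/
theorem pvhv_run_t (z d : ℂ) {l : List PvtTurn} {nt : ℕ} (hst : ∀ i, i < nt → pvccT l i = PvtTurn.S) (hle : nt ≤ l.length) :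
    ∀ j, j ≤ nt → pvccZ z d l j = z + (j : ℂ) * d ∧ pvccD d l j = d := by
  intro j
  induction j with
  | zero => intro _; simp
  | succ j ih =>
    intro hj
    obtain ⟨h1, h2⟩ := ih (by omega)
    rw [pvccZ_succ z d l (by omega), pvccD_succ d l (by omega), hst j (by omega), h1, h2]
    simp only [PvtTurn.mid, PvtTurn.rot, mul_one]
    exact ⟨by push_cast; ring, trivial⟩

/-- the last link, read backwards from the last door -/
theorem pvhv_run_s (z d : ℂ) {l : List PvtTurn} {ns : ℕ} (hss : ∀ i, l.length ≤ i + ns → i < l.length → pvccT l i = PvtTurn.S) (hle : ns ≤ l.length) :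
    ∀ k, k ≤ ns → pvccZ z d l (l.length - k) = pvccZ z d l l.length - (k : ℂ) * pvccD d l l.length ∧ pvccD d l (l.length - k) = pvccD d l l.length := by
  intro k
  induction k with
  | zero => intro _; simp
  | succ k ih =>
    intro hk
    obtain ⟨h1, h2⟩ := ih (by omega)
    have e : l.length - k = (l.length - (k + 1)) + 1 := by omega
    have hlt : l.length - (k + 1) < l.length := by omega
    rw [e, pvccZ_succ z d l hlt, hss _ (by omega) hlt] at h1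
    rw [e, pvccD_succ d l hlt, hss _ (by omega) hlt] at h2
    simp only [PvtTurn.mid, PvtTurn.rot, mul_one] at h1 h2
    refine ⟨?_, h2⟩
    rw [h2] at h1
    push_cast
    linear_combination h1


/-! ## 4. the region -/

/-- the first door in the picture of `t` (centre `yt`, east = `ut`) -/
noncomputable def pvhvVt (yt ut z : ℂ) : ℂ := (starRingEnd ℂ) ut * (z - yt)

/-- the last door in the picture of `s` (centre `ys`, east = `us`) -/
noncomputable def pvhvVs (ys us z d : ℂ) (l : List PvtTurn) : ℂ := (starRingEnd ℂ) us * (pvccZ z d l l.length - ys)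

/-- the number of cells of a link which are dropped: the first cell whose west side is east of `81 a / 100` -/
noncomputable def pvhvJ (a δ x : ℝ) : ℕ := ⌈(81 / 100 * a - x) / δ⌉₊

/-- the first cell of the lane -/
noncomputable def pvhvJt (a δ : ℝ) (yt ut z : ℂ) : ℕ := pvhvJ a δ (pvhvVt yt ut z).re

/-- the last cell of the lane -/
noncomputable def pvhvKs (a δ : ℝ) (ys us z d : ℂ) (l : List PvtTurn) : ℕ := l.length - 1 - pvhvJ a δ (pvhvVs ys us z d l).re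

/-- the hook at `t` -/
noncomputable def pvhvCt (a δ : ℝ) (yt ut z : ℂ) : Set ℂ := pvccPl yt ut (pvhvC 1 a ((pvhvVt yt ut z).im - 3 / 10 * δ))

/-- the hook at `s` -/
noncomputable def pvhvCs (a δ : ℝ) (ys us z d : ℂ) (l : List PvtTurn) : Set ℂ := pvccPl ys us (pvhvC (-1) a (-(pvhvVs ys us z d l).im - 3 / 10 * δ))

/-- **THE HOOKED OUTER CORRIDOR**: a function of the index only (`a = ρ h`, `δ` = side of the cells, `yt ys` = grid centres of the tip cells, `ut us` = outer normals of the doors, `(z,d,l)` = the corridor) -/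
noncomputable def pvhvR (a δ : ℝ) (yt ys ut us z d : ℂ) (l : List PvtTurn) : Set ℂ :=
  pvhvCt a δ yt ut z ∪ pvljSeg (-(4 / 10)) (-(3 / 10)) z d l (pvhvJt a δ yt ut z) (pvhvKs a δ ys us z d l) ∪ pvhvCs a δ ys us z d l

/-- the first end (black side of the ray of `x⁺(t)`) -/
noncomputable def pvhvXa (a : ℝ) (yt ut : ℂ) : ℂ := yt + ut * pvhvPt 1 (35 / 100 * a) (535 / 1000 * a)

/-- the last end (black side of the ray of `x⁻(s)`) -/
noncomputable def pvhvXb (a : ℝ) (ys us : ℂ) : ℂ := ys + us * pvhvPt (-1) (35 / 100 * a) (535 / 1000 * a)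

/-- **WHAT IS ASKED OF THE INDEX** (pure geometry: `PvfeDoors` + `Γ.Ok` + `PvfeIx` with (MID) + (b1)).   `nt`, `ns` = the lengths of the two straight links. -/
structure PvhvGeo (a δ : ℝ) (yt ys ut us z d : ℂ) (l : List PvtTurn) (nt ns : ℕ) : Prop where
  δ0 : 0 < δ
  fine : 1000 * δ ≤ a
  ut1 : ‖ut‖ = 1
  us1 : ‖us‖ = 1
  d_eq : d = (δ : ℂ) * ut
  dl_eq : pvccD d l l.length = -((δ : ℂ) * us)
  /-- the base cell of `t` contains (up to `δ`) the point `yt + (3 a / 8) ut` -/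
  door_t : ‖z + d / 2 - (yt + ((3 * a / 8 : ℝ) : ℂ) * ut)‖ ≤ δ
  /-- the base cell of `s` contains (up to `δ`) the point `ys + (3 a / 8) us` -/
  door_s : ‖pvccZ z d l l.length + (δ : ℂ) * us / 2 - (ys + ((3 * a / 8 : ℝ) : ℂ) * us)‖ ≤ δ
  le : nt + ns ≤ l.length
  st : ∀ i, i < nt → pvccT l i = PvtTurn.S
  ss : ∀ i, l.length ≤ i + ns → i < l.length → pvccT l i = PvtTurn.S
  far_t : ∀ i, nt ≤ i → i < l.length → a + 4 * δ < ‖pvccC z d l i - yt‖
  far_s : ∀ i, i + ns < l.length → a + 4 * δ < ‖pvccC z d l i - ys‖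
  simple : PvccSimple l l.length
  nr : PvfeNR l
  sep : 4 * a < ‖yt - ys‖

section geo

variable {a δ : ℝ} {yt ys ut us z d : ℂ} {l : List PvtTurn} {nt ns : ℕ}

theorem PvhvGeo.a0 (G : PvhvGeo a δ yt ys ut us z d l nt ns) : 0 < a := by linarith [G.δ0, G.fine]

theorem PvhvGeo.nd (G : PvhvGeo a δ yt ys ut us z d l nt ns) : ‖d‖ = δ := by
  rw [G.d_eq, norm_mul, G.ut1, mul_one, Complex.norm_real, Real.norm_eq_abs, abs_of_pos G.δ0]

theorem PvhvGeo.d0 (G : PvhvGeo a δ yt ys ut us z d l nt ns) : d ≠ 0 := by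
  rw [← norm_ne_zero_iff, G.nd]; exact G.δ0.ne'

/-- the first door sits at `(3 a / 8 - δ / 2, 0)` up to `δ` -/
theorem PvhvGeo.vt (G : PvhvGeo a δ yt ys ut us z d l nt ns) : |(pvhvVt yt ut z).re - (3 * a / 8 - δ / 2)| ≤ δ ∧ |(pvhvVt yt ut z).im| ≤ δ := by
  have e : pvhvVt yt ut z - (((3 * a / 8 - δ / 2 : ℝ)) : ℂ) = (starRingEnd ℂ) ut * (z + d / 2 - (yt + ((3 * a / 8 : ℝ) : ℂ) * ut)) := by
    have := pvhv_conj_mul G.ut1
    unfold pvhvVt
    rw [G.d_eq]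
    push_cast
    linear_combination ((3 * a / 8 : ℂ) - δ / 2) * this
  have hn : ‖pvhvVt yt ut z - (((3 * a / 8 - δ / 2 : ℝ)) : ℂ)‖ ≤ δ := by
    rw [e, norm_mul, pvhv_norm_conj G.ut1, one_mul]; exact G.door_t
  have h1 := (abs_re_le_norm _).trans hn
  have h2 := (abs_im_le_norm _).trans hn
  rw [sub_re, ofReal_re] at h1
  rw [sub_im, ofReal_im, sub_zero] at h2
  exact ⟨h1, h2⟩

/-- the last door sits at `(3 a / 8 - δ / 2, 0)` up to `δ` -/
theorem PvhvGeo.vs (G : PvhvGeo a δ yt ys ut us z d l nt ns) : |(pvhvVs ys us z d l).re - (3 * a / 8 - δ / 2)| ≤ δ ∧ |(pvhvVs ys us z d l).im| ≤ δ := by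
  have e : pvhvVs ys us z d l - (((3 * a / 8 - δ / 2 : ℝ)) : ℂ) = (starRingEnd ℂ) us * (pvccZ z d l l.length + (δ : ℂ) * us / 2 - (ys + ((3 * a / 8 : ℝ) : ℂ) * us)) := by
    have := pvhv_conj_mul G.us1
    unfold pvhvVs
    push_cast
    linear_combination ((3 * a / 8 : ℂ) - δ / 2) * this
  have hn : ‖pvhvVs ys us z d l - (((3 * a / 8 - δ / 2 : ℝ)) : ℂ)‖ ≤ δ := by
    rw [e, norm_mul, pvhv_norm_conj G.us1, one_mul]; exact G.door_s
  have h1 := (abs_re_le_norm _).trans hn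
  have h2 := (abs_im_le_norm _).trans hn
  rw [sub_re, ofReal_re] at h1
  rw [sub_im, ofReal_im, sub_zero] at h2
  exact ⟨h1, h2⟩

/-- the number of dropped cells: `81 a / 100 ≤ x + J δ < 81 a / 100 + δ` -/
theorem pvhv_J_spec {a δ x : ℝ} (hδ : 0 < δ) (hx : x ≤ 81 / 100 * a) : 81 / 100 * a ≤ x + pvhvJ a δ x * δ ∧ x + pvhvJ a δ x * δ < 81 / 100 * a + δ := by
  unfold pvhvJ
  have h0 : 0 ≤ (81 / 100 * a - x) / δ := div_nonneg (by linarith) hδ.le
  have h1 := Nat.le_ceil ((81 / 100 * a - x) / δ)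
  have h2 := Nat.ceil_lt_add_one h0
  rw [div_le_iff₀ hδ] at h1
  have h3 : (⌈(81 / 100 * a - x) / δ⌉₊ : ℝ) * δ < ((81 / 100 * a - x) / δ + 1) * δ := mul_lt_mul_of_pos_right h2 hδ
  have h4 : ((81 / 100 * a - x) / δ + 1) * δ = 81 / 100 * a - x + δ := by field_simp
  constructor <;> linarith

/-- a point of the frame of a cell of the first link, in the picture of `t` -/
theorem PvhvGeo.pic_t (G : PvhvGeo a δ yt ys ut us z d l nt ns) {j : ℕ} (hj : j ≤ nt) (w : ℂ) :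
    pvccZ z d l j + pvccD d l j * w = yt + ut * (pvhvVt yt ut z + (δ : ℂ) * ((j : ℂ) + w)) := by
  obtain ⟨h1, h2⟩ := pvhv_run_t z d G.st (by have := G.le; omega) j hj
  rw [h1, h2, G.d_eq]
  have := pvhv_unpl G.ut1 yt z
  unfold pvhvVt
  linear_combination -this

/-- a point of the frame of a cell of the last link, in the picture of `s` (`k` = number of doors before the last one) -/
theorem PvhvGeo.pic_s (G : PvhvGeo a δ yt ys ut us z d l nt ns) {k : ℕ} (hk : k ≤ ns) (w : ℂ) :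
    pvccZ z d l (l.length - k) + pvccD d l (l.length - k) * w = ys + us * (pvhvVs ys us z d l + (δ : ℂ) * ((k : ℂ) - w)) := by
  obtain ⟨h1, h2⟩ := pvhv_run_s z d G.ss (by have := G.le; omega) k hk
  rw [h1, h2, G.dl_eq]
  have := pvhv_unpl G.us1 ys (pvccZ z d l l.length)
  unfold pvhvVs
  linear_combination -this


theorem pvhv_norm_le_add (v : ℂ) : ‖v‖ ≤ |v.re| + |v.im| := Complex.norm_le_abs_re_add_abs_im v

theorem pvhv_tri3 {p q r : ℂ} : ‖p - r‖ ≤ ‖p - q‖ + ‖q - r‖ := norm_sub_le_norm_sub_add_norm_sub _ _ _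

/-- the last cell is the base cell of `s` -/
theorem PvhvGeo.last (G : PvhvGeo a δ yt ys ut us z d l nt ns) (hl : 0 < l.length) : ‖pvccC z d l (l.length - 1) - ys‖ ≤ 3 * a / 8 + δ := by
  have e := pvccC_prev z d l (j := l.length - 1) (by omega)
  rw [show l.length - 1 + 1 = l.length by omega, G.dl_eq] at e
  have h1 := G.door_s
  have e2 : pvccC z d l (l.length - 1) - ys = (pvccZ z d l l.length + (δ : ℂ) * us / 2 - (ys + ((3 * a / 8 : ℝ) : ℂ) * us)) + ((3 * a / 8 : ℝ) : ℂ) * us := by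
    rw [← e]; ring
  rw [e2]
  refine (norm_add_le _ _).trans ?_
  rw [norm_mul, G.us1, mul_one, Complex.norm_real, Real.norm_eq_abs, abs_of_nonneg (by have := G.a0; positivity)]
  linarith

/-- the first cell is the base cell of `t` -/
theorem PvhvGeo.first (G : PvhvGeo a δ yt ys ut us z d l nt ns) : ‖pvccC z d l 0 - yt‖ ≤ 3 * a / 8 + δ := by
  have h1 := G.door_t
  have e2 : pvccC z d l 0 - yt = (z + d / 2 - (yt + ((3 * a / 8 : ℝ) : ℂ) * ut)) + ((3 * a / 8 : ℝ) : ℂ) * ut := by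
    simp only [pvccC, pvccZ_zero, pvccD_zero]; ring
  rw [e2]
  refine (norm_add_le _ _).trans ?_
  rw [norm_mul, G.ut1, mul_one, Complex.norm_real, Real.norm_eq_abs, abs_of_nonneg (by have := G.a0; positivity)]
  linarith

theorem PvhvGeo.len_pos (G : PvhvGeo a δ yt ys ut us z d l nt ns) : 0 < l.length := by
  by_contra h
  have h0 : l.length = 0 := by omega
  have h1 := G.door_t
  have h2 := G.door_s
  rw [h0, pvccZ_zero] at h2
  have e : yt - ys = -(z + d / 2 - (yt + ((3 * a / 8 : ℝ) : ℂ) * ut)) + (z + (δ : ℂ) * us / 2 - (ys + ((3 * a / 8 : ℝ) : ℂ) * us)) + (d / 2 - ((3 * a / 8 : ℝ) : ℂ) * ut - (δ : ℂ) * us / 2 + ((3 * a / 8 : ℝ) : ℂ) * us) := by ring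
  have a0 := G.a0
  have n1 : ‖d / 2 - ((3 * a / 8 : ℝ) : ℂ) * ut - (δ : ℂ) * us / 2 + ((3 * a / 8 : ℝ) : ℂ) * us‖ ≤ δ / 2 + 3 * a / 8 + δ / 2 + 3 * a / 8 := by
    have q1 : ‖d / 2‖ = δ / 2 := by rw [norm_div, G.nd]; norm_num
    have q2 : ‖((3 * a / 8 : ℝ) : ℂ) * ut‖ = 3 * a / 8 := by rw [norm_mul, G.ut1, mul_one, Complex.norm_real, Real.norm_eq_abs, abs_of_nonneg (by positivity)]
    have q3 : ‖(δ : ℂ) * us / 2‖ = δ / 2 := by rw [norm_div, norm_mul, G.us1, mul_one, Complex.norm_real, Real.norm_eq_abs, abs_of_pos G.δ0]; norm_num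
    have q4 : ‖((3 * a / 8 : ℝ) : ℂ) * us‖ = 3 * a / 8 := by rw [norm_mul, G.us1, mul_one, Complex.norm_real, Real.norm_eq_abs, abs_of_nonneg (by positivity)]
    calc _ ≤ ‖d / 2 - ((3 * a / 8 : ℝ) : ℂ) * ut - (δ : ℂ) * us / 2‖ + ‖((3 * a / 8 : ℝ) : ℂ) * us‖ := norm_add_le _ _
      _ ≤ ‖d / 2 - ((3 * a / 8 : ℝ) : ℂ) * ut‖ + ‖(δ : ℂ) * us / 2‖ + ‖((3 * a / 8 : ℝ) : ℂ) * us‖ := by gcongr; exact norm_sub_le _ _
      _ ≤ ‖d / 2‖ + ‖((3 * a / 8 : ℝ) : ℂ) * ut‖ + ‖(δ : ℂ) * us / 2‖ + ‖((3 * a / 8 : ℝ) : ℂ) * us‖ := by gcongr; exact norm_sub_le _ _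
      _ = _ := by rw [q1, q2, q3, q4]
  have n2 : ‖yt - ys‖ ≤ δ + δ + (δ / 2 + 3 * a / 8 + δ / 2 + 3 * a / 8) := by
    rw [e]
    refine (norm_add_le _ _).trans (add_le_add ((norm_add_le _ _).trans (add_le_add ?_ h2)) n1)
    rw [norm_neg]; exact h1
  linarith [G.sep, G.fine, G.δ0]

/-- the norm of a point of the picture with small ordinate -/
theorem pvhv_pic_norm {v : ℂ} {x y : ℝ} (h0 : 0 ≤ v.re) (h1 : v.re ≤ x) (h2 : |v.im| ≤ y) : ‖v‖ ≤ x + y := by
  have := pvhv_norm_le_add v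
  rw [abs_of_nonneg h0] at this
  linarith

/-- the first link goes beyond `81 a / 100` -/
theorem PvhvGeo.jt_lt (G : PvhvGeo a δ yt ys ut us z d l nt ns) : pvhvJt a δ yt ut z < nt := by
  by_contra hcon
  rw [not_lt] at hcon
  have a0 := G.a0
  have hl := G.len_pos
  obtain ⟨v1, v2⟩ := G.vt
  rw [abs_le] at v1
  have hJ := pvhv_J_spec (a := a) G.δ0 (x := (pvhvVt yt ut z).re) (by linarith [v1.2, G.fine, G.δ0])
  rcases Nat.lt_or_ge nt l.length with h | h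
  · have hf := G.far_t nt le_rfl h
    have e : pvccC z d l nt = yt + ut * (pvhvVt yt ut z + (δ : ℂ) * ((nt : ℂ) + 1 / 2)) := by
      rw [← G.pic_t le_rfl]; unfold pvccC; ring
    rw [e, pvhv_pl_norm G.ut1] at hf
    have hnt : (nt : ℝ) ≤ pvhvJ a δ (pvhvVt yt ut z).re := by exact_mod_cast hcon
    have r1 : (pvhvVt yt ut z + (δ : ℂ) * ((nt : ℂ) + 1 / 2)).re = (pvhvVt yt ut z).re + δ * (nt + 1 / 2) := by simp
    have r2 : (pvhvVt yt ut z + (δ : ℂ) * ((nt : ℂ) + 1 / 2)).im = (pvhvVt yt ut z).im := by simp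
    have hb := pvhv_pic_norm (v := pvhvVt yt ut z + (δ : ℂ) * ((nt : ℂ) + 1 / 2)) (x := 81 / 100 * a + 2 * δ) (y := δ)
      (by rw [r1]; nlinarith [v1.1, G.fine, G.δ0, (Nat.cast_nonneg nt : (0 : ℝ) ≤ nt)]) (by rw [r1]; nlinarith [hJ.2, G.δ0]) (by rw [r2]; exact v2)
    linarith [G.δ0]
  · have hns : ns = 0 := by have := G.le; omega
    have hf := G.far_s (l.length - 1) (by omega)
    linarith [G.last hl, G.δ0]

/-- the last link goes beyond `81 a / 100` -/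
theorem PvhvGeo.js_lt (G : PvhvGeo a δ yt ys ut us z d l nt ns) : pvhvJ a δ (pvhvVs ys us z d l).re < ns := by
  by_contra hcon
  rw [not_lt] at hcon
  have a0 := G.a0
  have hl := G.len_pos
  obtain ⟨v1, v2⟩ := G.vs
  rw [abs_le] at v1
  have hJ := pvhv_J_spec (a := a) G.δ0 (x := (pvhvVs ys us z d l).re) (by linarith [v1.2, G.fine, G.δ0])
  rcases Nat.lt_or_ge ns l.length with h | h
  · have hf := G.far_s (l.length - ns - 1) (by omega)
    have e : pvccC z d l (l.length - ns - 1) = ys + us * (pvhvVs ys us z d l + (δ : ℂ) * ((ns : ℂ) - -(1 / 2))) := by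
      rw [← G.pic_s le_rfl, ← pvccC_prev z d l (j := l.length - ns - 1) (by omega), show l.length - ns - 1 + 1 = l.length - ns by omega]; ring
    rw [e, pvhv_pl_norm G.us1] at hf
    have hnt : (ns : ℝ) ≤ pvhvJ a δ (pvhvVs ys us z d l).re := by exact_mod_cast hcon
    have r1 : (pvhvVs ys us z d l + (δ : ℂ) * ((ns : ℂ) - -(1 / 2))).re = (pvhvVs ys us z d l).re + δ * (ns + 1 / 2) := by simp
    have r2 : (pvhvVs ys us z d l + (δ : ℂ) * ((ns : ℂ) - -(1 / 2))).im = (pvhvVs ys us z d l).im := by simp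
    have hb := pvhv_pic_norm (v := pvhvVs ys us z d l + (δ : ℂ) * ((ns : ℂ) - -(1 / 2))) (x := 81 / 100 * a + 2 * δ) (y := δ)
      (by rw [r1]; nlinarith [v1.1, G.fine, G.δ0, (Nat.cast_nonneg ns : (0 : ℝ) ≤ ns)]) (by rw [r1]; nlinarith [hJ.2, G.δ0]) (by rw [r2]; exact v2)
    linarith [G.δ0]
  · have hnt : nt = 0 := by have := G.le; omega
    have hf := G.far_t 0 (by omega) hl
    linarith [G.first, G.δ0]

theorem PvhvGeo.jk (G : PvhvGeo a δ yt ys ut us z d l nt ns) :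
    pvhvJt a δ yt ut z < nt ∧ l.length ≤ pvhvKs a δ ys us z d l + ns ∧ pvhvKs a δ ys us z d l + 1 + pvhvJ a δ (pvhvVs ys us z d l).re = l.length := by
  have h1 := G.jt_lt
  have h2 := G.js_lt
  have h3 := G.le
  unfold pvhvKs
  refine ⟨h1, by omega, by omega⟩


/-- a point of a lane in a cell of the first link, in the picture of `t` -/
theorem PvhvGeo.cell_t (G : PvhvGeo a δ yt ys ut us z d l nt ns) {α β : ℝ} {j : ℕ} (hj : j < nt) {p : ℂ} (hp : p ∈ pvccK (pvfeLane α β) z d l j) :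
    ∃ v : ℂ, p = yt + ut * v ∧ (pvhvVt yt ut z).re + δ * j ≤ v.re ∧ (pvhvVt yt ut z).im + δ * α ≤ v.im ∧ v.im ≤ (pvhvVt yt ut z).im + δ * β := by
  obtain ⟨w, hw, rfl⟩ := hp
  rw [G.st j hj] at hw
  obtain ⟨w1, w2, w3, w4⟩ := hw
  refine ⟨_, G.pic_t hj.le w, ?_, ?_, ?_⟩
  · simp only [add_re, mul_re, ofReal_re, ofReal_im, natCast_re, natCast_im, add_im, zero_mul, sub_zero]
    nlinarith [G.δ0]
  · simp only [add_im, mul_im, ofReal_re, ofReal_im, natCast_re, natCast_im, add_re, zero_mul, add_zero, zero_add]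
    nlinarith [G.δ0]
  · simp only [add_im, mul_im, ofReal_re, ofReal_im, natCast_re, natCast_im, add_re, zero_mul, add_zero, zero_add]
    nlinarith [G.δ0]

/-- a point of a lane in a cell of the last link, in the picture of `s` (`k + 1` doors before the end) -/
theorem PvhvGeo.cell_s (G : PvhvGeo a δ yt ys ut us z d l nt ns) {α β : ℝ} {i k : ℕ} (hik : i + 1 + k = l.length) (hk : k < ns) {p : ℂ} (hp : p ∈ pvccK (pvfeLane α β) z d l i) :
    ∃ v : ℂ, p = ys + us * v ∧ (pvhvVs ys us z d l).re + δ * k ≤ v.re ∧ -(pvhvVs ys us z d l).im + δ * α ≤ -1 * v.im ∧ -1 * v.im ≤ -(pvhvVs ys us z d l).im + δ * β := by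
  obtain ⟨w, hw, rfl⟩ := hp
  rw [G.ss i (by omega) (by omega)] at hw
  obtain ⟨w1, w2, w3, w4⟩ := hw
  have e := G.pic_s (k := k + 1) (by omega) w
  rw [show l.length - (k + 1) = i by omega] at e
  refine ⟨_, e, ?_, ?_, ?_⟩
  · simp only [add_re, mul_re, ofReal_re, ofReal_im, natCast_re, natCast_im, sub_re, sub_im, zero_mul, sub_zero, Nat.cast_add, Nat.cast_one, one_re]
    nlinarith [G.δ0]
  · simp only [add_im, mul_im, ofReal_re, ofReal_im, natCast_re, natCast_im, sub_re, sub_im, zero_mul, add_zero, Nat.cast_add, Nat.cast_one, one_im, zero_sub]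
    nlinarith [G.δ0]
  · simp only [add_im, mul_im, ofReal_re, ofReal_im, natCast_re, natCast_im, sub_re, sub_im, zero_mul, add_zero, Nat.cast_add, Nat.cast_one, one_im, zero_sub]
    nlinarith [G.δ0]

theorem pvhv_re_le_norm_pl {u : ℂ} (hu : ‖u‖ = 1) (c v : ℂ) : v.re ≤ ‖c + u * v - c‖ := by
  rw [pvhv_pl_norm hu]; exact (le_abs_self _).trans (abs_re_le_norm v)

/-- **the cells of the lane**: every point of a lane `[α,β]` in a cell `i ∈ [j₀,k₀]`: within `δ` of the centre of the cell, off the two discs of radius `81 a / 100`; in a cell of a link it is east of `81 a / 100` in the picture of the link -/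
theorem PvhvGeo.seg (G : PvhvGeo a δ yt ys ut us z d l nt ns) {α β : ℝ} (hα : -(1 / 2) ≤ α) (hβ : β ≤ 1 / 2) {i : ℕ} (h1 : pvhvJt a δ yt ut z ≤ i) (h2 : i ≤ pvhvKs a δ ys us z d l) {p : ℂ}
    (hp : p ∈ pvccK (pvfeLane α β) z d l i) :
    i < l.length ∧ ‖p - pvccC z d l i‖ ≤ δ ∧ 81 / 100 * a ≤ ‖p - yt‖ ∧ 81 / 100 * a ≤ ‖p - ys‖ ∧
      (i < nt → 81 / 100 * a ≤ ((starRingEnd ℂ) ut * p - (starRingEnd ℂ) ut * yt).re) ∧ (l.length ≤ i + ns → 81 / 100 * a ≤ ((starRingEnd ℂ) us * p - (starRingEnd ℂ) us * ys).re) := by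
  obtain ⟨k1, k2, k3⟩ := G.jk
  have a0 := G.a0
  have hil : i < l.length := by omega
  have hb : ‖p - pvccC z d l i‖ ≤ δ := by
    have := mem_closedBall_iff_norm.1 (pvfe_K_sub_ball hα hβ z d l i hp)
    rwa [G.nd] at this
  obtain ⟨v1, -⟩ := G.vt
  obtain ⟨v1', -⟩ := G.vs
  rw [abs_le] at v1 v1'
  have hJ := pvhv_J_spec (a := a) G.δ0 (x := (pvhvVt yt ut z).re) (by linarith [v1.2, G.fine, G.δ0])
  have hJ' := pvhv_J_spec (a := a) G.δ0 (x := (pvhvVs ys us z d l).re) (by linarith [v1'.2, G.fine, G.δ0])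
  have ht : i < nt → 81 / 100 * a ≤ ((starRingEnd ℂ) ut * p - (starRingEnd ℂ) ut * yt).re := by
    intro hi
    obtain ⟨v, rfl, hv, -⟩ := G.cell_t hi hp
    rw [pvhv_pic G.ut1]
    have : (pvhvJ a δ (pvhvVt yt ut z).re : ℝ) ≤ i := by exact_mod_cast h1
    nlinarith [G.δ0, hJ.1]
  have hs : l.length ≤ i + ns → 81 / 100 * a ≤ ((starRingEnd ℂ) us * p - (starRingEnd ℂ) us * ys).re := by
    intro hi
    obtain ⟨v, rfl, hv, -⟩ := G.cell_s (k := l.length - 1 - i) (by omega) (by omega) hp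
    rw [pvhv_pic G.us1]
    have : (pvhvJ a δ (pvhvVs ys us z d l).re : ℝ) ≤ ((l.length - 1 - i : ℕ) : ℝ) := by
      have : pvhvJ a δ (pvhvVs ys us z d l).re ≤ l.length - 1 - i := by omega
      exact_mod_cast this
    nlinarith [G.δ0, hJ'.1]
  have nrm : ∀ (u c : ℂ), ‖u‖ = 1 → ((starRingEnd ℂ) u * p - (starRingEnd ℂ) u * c).re ≤ ‖p - c‖ := by
    intro u c hu
    rw [← mul_sub]
    refine ((le_abs_self _).trans (abs_re_le_norm _)).trans ?_
    rw [norm_mul, pvhv_norm_conj hu, one_mul]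
  refine ⟨hil, hb, ?_, ?_, ht, hs⟩
  · rcases Nat.lt_or_ge i nt with hi | hi
    · exact (ht hi).trans (nrm ut yt G.ut1)
    · have := G.far_t i hi hil
      have t := pvhv_tri3 (p := pvccC z d l i) (q := p) (r := yt)
      rw [norm_sub_rev (pvccC z d l i) p] at t
      linarith [G.δ0]
  · rcases Nat.lt_or_ge (i + ns) l.length with hi | hi
    · have := G.far_s i hi
      have t := pvhv_tri3 (p := pvccC z d l i) (q := p) (r := ys)
      rw [norm_sub_rev (pvccC z d l i) p] at t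
      linarith [G.δ0]
    · exact (hs hi).trans (nrm us ys G.us1)

/-- the junction at `t` -/
theorem PvhvGeo.mid_t (G : PvhvGeo a δ yt ys ut us z d l nt ns) :
    pvljMid (-(35 / 100)) z d l (pvhvJt a δ yt ut z) = yt + ut * pvhvPt 1 ((pvhvVt yt ut z).re + (pvhvJt a δ yt ut z + 1 / 2) * δ) ((pvhvVt yt ut z).im - 35 / 100 * δ) := by
  unfold pvljMid pvljPt
  rw [G.st _ G.jt_lt, G.pic_t G.jt_lt.le]
  congr 2
  apply Complex.ext
  · simp [pvhvPt, pvljX]; ring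
  · simp [pvhvPt, pvljX]; ring

/-- the junction at `s` -/
theorem PvhvGeo.mid_s (G : PvhvGeo a δ yt ys ut us z d l nt ns) :
    pvljMid (-(35 / 100)) z d l (pvhvKs a δ ys us z d l) =
      ys + us * pvhvPt (-1) ((pvhvVs ys us z d l).re + (pvhvJ a δ (pvhvVs ys us z d l).re + 1 / 2) * δ) (-(pvhvVs ys us z d l).im - 35 / 100 * δ) := by
  obtain ⟨k1, k2, k3⟩ := G.jk
  unfold pvljMid pvljPt
  have e := G.pic_s (k := pvhvJ a δ (pvhvVs ys us z d l).re + 1) (by have := G.js_lt; omega)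
  rw [show l.length - (pvhvJ a δ (pvhvVs ys us z d l).re + 1) = pvhvKs a δ ys us z d l by omega] at e
  rw [G.ss _ k2 (by omega), e]
  congr 2
  apply Complex.ext
  · simp [pvhvPt, pvljX]; ring
  · simp [pvhvPt, pvljX]; ring

/-- **(G1) THE TWO ENDS ARE JOINED IN THE CORE OF THE HOOKED CORRIDOR** (mesh of the pattern `δ / 100`) -/
theorem PvhvGeo.core (G : PvhvGeo a δ yt ys ut us z d l nt ns) : PvkqCore (δ / 100) (pvhvR a δ yt ys ut us z d l) (pvhvXa a yt ut) (pvhvXb a ys us) := by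
  obtain ⟨k1, k2, k3⟩ := G.jk
  have a0 := G.a0
  have δ0 := G.δ0
  have fine := G.fine
  obtain ⟨v1, v2⟩ := G.vt
  obtain ⟨v1', v2'⟩ := G.vs
  rw [abs_le] at v1 v1' v2 v2'
  have hJ := pvhv_J_spec (a := a) G.δ0 (x := (pvhvVt yt ut z).re) (by linarith [v1.2])
  have hJ' := pvhv_J_spec (a := a) G.δ0 (x := (pvhvVs ys us z d l).re) (by linarith [v1'.2])
  refine ⟨by positivity, ?_⟩
  have es : 4 * (δ / 100) = 1 / 25 * ‖d‖ := by rw [G.nd]; ring
  show JoinedIn (pvljCore (4 * (δ / 100)) _) _ _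
  have j1 : JoinedIn (pvljCore (4 * (δ / 100)) (pvhvR a δ yt ys ut us z d l)) (pvhvXa a yt ut) (pvljMid (-(35 / 100)) z d l (pvhvJt a δ yt ut z)) := by
    rw [G.mid_t]
    refine pvhv_end_core (Or.inl rfl) a0 (by positivity) (by linarith) ?_ ?_ ?_ ?_ ?_ G.ut1 (fun w hw => Or.inl (Or.inl hw))
    · unfold pvhvJt; linarith [hJ.1]
    · unfold pvhvJt; linarith [hJ.2]
    · linarith [v2.1]
    · linarith
    · linarith [v2.1]
  have j2 : JoinedIn (pvljCore (4 * (δ / 100)) (pvhvR a δ yt ys ut us z d l)) (pvljMid (-(35 / 100)) z d l (pvhvJt a δ yt ut z)) (pvljMid (-(35 / 100)) z d l (pvhvKs a δ ys us z d l)) := by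
    rw [es]
    exact (pvlj_seg_core (by norm_num) (by norm_num) (by norm_num) (by norm_num) (by norm_num) (by norm_num) z G.d0 l (by have := G.le; omega) (by omega)).mono
      (pvlj_core_mono _ fun w hw => Or.inl (Or.inr hw))
  have j3 : JoinedIn (pvljCore (4 * (δ / 100)) (pvhvR a δ yt ys ut us z d l)) (pvhvXb a ys us) (pvljMid (-(35 / 100)) z d l (pvhvKs a δ ys us z d l)) := by
    rw [G.mid_s]
    refine pvhv_end_core (Or.inr rfl) a0 (by positivity) (by linarith) ?_ ?_ ?_ ?_ ?_ G.us1 (fun w hw => Or.inr hw)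
    · linarith [hJ'.1]
    · linarith [hJ'.2]
    · linarith [v2'.2]
    · linarith
    · linarith [v2'.2]
  exact (j1.trans j2).trans j3.symm


/-! ## 5. the region and the regions of record -/

/-- the three parts of the region -/
theorem pvhv_R_cases {w : ℂ} (hw : w ∈ pvhvR a δ yt ys ut us z d l) :
    (∃ v ∈ pvhvC 1 a ((pvhvVt yt ut z).im - 3 / 10 * δ), w = yt + ut * v) ∨
    (∃ i, pvhvJt a δ yt ut z ≤ i ∧ i ≤ pvhvKs a δ ys us z d l ∧ w ∈ pvccK (pvfeLane (-(4 / 10)) (-(3 / 10))) z d l i) ∨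
    (∃ v ∈ pvhvC (-1) a (-(pvhvVs ys us z d l).im - 3 / 10 * δ), w = ys + us * v) := by
  rcases hw with (⟨v, hv, rfl⟩ | hw) | ⟨v, hv, rfl⟩
  · exact Or.inl ⟨v, hv, rfl⟩
  · obtain ⟨i, hi, hwi⟩ := mem_iUnion₂.1 hw
    exact Or.inr (Or.inl ⟨i, (Finset.mem_Icc.1 hi).1, (Finset.mem_Icc.1 hi).2, hwi⟩)
  · exact Or.inr (Or.inr ⟨v, hv, rfl⟩)

theorem PvhvGeo.top_t (G : PvhvGeo a δ yt ys ut us z d l nt ns) : |(pvhvVt yt ut z).im - 3 / 10 * δ| ≤ 2 * δ := by
  have := abs_le.1 G.vt.2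
  exact abs_le.2 ⟨by linarith [G.δ0], by linarith [G.δ0]⟩

theorem PvhvGeo.top_s (G : PvhvGeo a δ yt ys ut us z d l nt ns) : |-(pvhvVs ys us z d l).im - 3 / 10 * δ| ≤ 2 * δ := by
  have := abs_le.1 G.vs.2
  exact abs_le.2 ⟨by linarith [G.δ0], by linarith [G.δ0]⟩

/-- the hook at `t` lies in `A(yt; 51 a / 100, a)` -/
theorem PvhvGeo.Ct_norm (G : PvhvGeo a δ yt ys ut us z d l nt ns) {v : ℂ} (hv : v ∈ pvhvC 1 a ((pvhvVt yt ut z).im - 3 / 10 * δ)) : 51 / 100 * a ≤ ‖v‖ ∧ ‖v‖ ≤ a :=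
  ⟨pvhv_C_ge (Or.inl rfl) G.a0 hv, pvhv_C_le (Or.inl rfl) G.a0 (by linarith [(abs_le.1 G.top_t).2, G.fine, G.δ0]) hv⟩

theorem PvhvGeo.Cs_norm (G : PvhvGeo a δ yt ys ut us z d l nt ns) {v : ℂ} (hv : v ∈ pvhvC (-1) a (-(pvhvVs ys us z d l).im - 3 / 10 * δ)) : 51 / 100 * a ≤ ‖v‖ ∧ ‖v‖ ≤ a :=
  ⟨pvhv_C_ge (Or.inr rfl) G.a0 hv, pvhv_C_le (Or.inr rfl) G.a0 (by linarith [(abs_le.1 G.top_s).2, G.fine, G.δ0]) hv⟩

/-- a point within `a` of one centre is far from the other -/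
theorem PvhvGeo.cross (G : PvhvGeo a δ yt ys ut us z d l nt ns) {w : ℂ} : (‖w - yt‖ ≤ a → 3 * a < ‖w - ys‖) ∧ (‖w - ys‖ ≤ a → 3 * a < ‖w - yt‖) := by
  have h := G.sep
  constructor
  · intro h1
    have t := pvhv_tri3 (p := yt) (q := w) (r := ys)
    rw [norm_sub_rev yt w] at t
    linarith
  · intro h1
    have t := pvhv_tri3 (p := yt) (q := w) (r := ys)
    rw [norm_sub_rev yt w] at t
    linarith

theorem pvhv_pl_dist {u : ℂ} (hu : ‖u‖ = 1) (c v v' : ℂ) : ‖(c + u * v) - (c + u * v')‖ = ‖v - v'‖ := by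
  rw [add_sub_add_left_eq_sub, ← mul_sub, norm_mul, hu, one_mul]

/-- the centre of a cell lies in the full lane of the cell -/
theorem pvhv_ctr_mem (z d : ℂ) (l : List PvtTurn) (i : ℕ) : pvccC z d l i ∈ pvccK (pvfeLane (-(1 / 2)) (1 / 2)) z d l i := by
  refine ⟨1 / 2, ?_, by unfold pvccC; ring⟩
  have r1 : ((1 : ℂ) / 2).re = 1 / 2 := by norm_num
  have r2 : ((1 : ℂ) / 2).im = 0 := by norm_num
  cases pvccT l i with
  | S => exact ⟨by rw [r1]; norm_num, by rw [r1]; norm_num, by rw [r2]; norm_num, by rw [r2]; norm_num⟩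
  | L => exact Or.inl ⟨by rw [r1]; norm_num, by rw [r1]; norm_num, by rw [r2]; norm_num, by rw [r2]; norm_num⟩
  | R => exact Or.inl ⟨by rw [r1]; norm_num, by rw [r1]; norm_num, by rw [r2]; norm_num, by rw [r2]; norm_num⟩

/-- **(G1) THE HOOKED CORRIDOR LIES IN `Yout`** of the regions of record (`r_I = a / 2`, `r_O = a`) -/
theorem PvhvGeo.out (G : PvhvGeo a δ yt ys ut us z d l nt ns) : pvhvR a δ yt ys ut us z d l ⊆ pvfeOut (a / 2) a ys yt z d l := by
  obtain ⟨k1, k2, k3⟩ := G.jk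
  have a0 := G.a0
  have δ0 := G.δ0
  have fine := G.fine
  obtain ⟨v1, v2⟩ := G.vt
  obtain ⟨v1', v2'⟩ := G.vs
  rw [abs_le] at v1 v1' v2 v2'
  have hJ := pvhv_J_spec (a := a) G.δ0 (x := (pvhvVt yt ut z).re) (by linarith [v1.2])
  have hJ' := pvhv_J_spec (a := a) G.δ0 (x := (pvhvVs ys us z d l).re) (by linarith [v1'.2])
  have j0 : 0 < pvhvJt a δ yt ut z := by
    by_contra h
    have h0 : pvhvJ a δ (pvhvVt yt ut z).re = 0 := by unfold pvhvJt at h; omega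
    rw [h0] at hJ
    simp only [Nat.cast_zero, zero_mul, add_zero] at hJ
    linarith [hJ.1, v1.2]
  have j0' : 0 < pvhvJ a δ (pvhvVs ys us z d l).re := by
    by_contra h
    have h0 : pvhvJ a δ (pvhvVs ys us z d l).re = 0 := by omega
    rw [h0] at hJ'
    simp only [Nat.cast_zero, zero_mul, add_zero] at hJ'
    linarith [hJ'.1, v1'.2]
  intro w hw
  rcases hw with (⟨v, hv, rfl⟩ | hw) | ⟨v, hv, rfl⟩
  · -- the hook at t
    obtain ⟨n1, n2⟩ := G.Ct_norm hv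
    have hwn : ‖yt + ut * v - yt‖ = ‖v‖ := pvhv_pl_norm G.ut1 yt v
    refine ⟨Or.inl (Or.inr (mem_closedBall_iff_norm.2 (by show ‖yt + ut * v - yt‖ ≤ a; rw [hwn]; exact n2))), pvlj_not_mem_cthickening (pvlj_in_closed _ ys yt z G.d0 l) (by positivity) ?_⟩
    rw [G.nd]
    rintro q ((hq | hq) | hq)
    · obtain ⟨i, hi, hqi⟩ := mem_iUnion₂.1 hq
      have hil := Finset.mem_range.1 hi
      rcases Nat.lt_or_ge i nt with h | h
      · obtain ⟨q', rfl, q1, q2, q3⟩ := G.cell_t h hqi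
        show δ / 10 < ‖yt + ut * q' - (yt + ut * v)‖
        rw [pvhv_pl_dist G.ut1]
        refine pvhv_C_strip (Or.inl rfl) a0 δ0 fine G.top_t hv ?_ ?_ ?_
        · nlinarith [v1.1, (Nat.cast_nonneg i : (0 : ℝ) ≤ i)]
        · linarith
        · linarith
      · have f := G.far_t i h hil
        have b := mem_closedBall_iff_norm.1 (pvfe_K_sub_ball (by norm_num) (by norm_num) z d l i hqi)
        rw [G.nd] at b
        have t1 := pvhv_tri3 (p := pvccC z d l i) (q := q) (r := yt)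
        have t2 := pvhv_tri3 (p := q) (q := yt + ut * v) (r := yt)
        rw [norm_sub_rev (pvccC z d l i) q] at t1
        show δ / 10 < ‖q - (yt + ut * v)‖
        linarith
    · have b := mem_closedBall_iff_norm.1 hq
      have t2 := pvhv_tri3 (p := yt + ut * v) (q := q) (r := yt)
      rw [norm_sub_rev (yt + ut * v) q] at t2
      show δ / 10 < ‖q - (yt + ut * v)‖
      linarith
    · have b := mem_closedBall_iff_norm.1 hq
      have c := (G.cross (w := yt + ut * v)).1 (by rw [hwn]; exact n2)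
      have t2 := pvhv_tri3 (p := yt + ut * v) (q := q) (r := ys)
      rw [norm_sub_rev (yt + ut * v) q] at t2
      show δ / 10 < ‖q - (yt + ut * v)‖
      linarith
  · -- the lane
    refine pvlj_seg_out G.d0 G.simple G.nr j0 (by omega) (fun i i1 i2 => ?_) (fun i i1 i2 => ?_) hw
    · rw [G.nd]; linarith [(G.seg (by norm_num) (by norm_num) i1 i2 (pvhv_ctr_mem z d l i)).2.2.1]
    · rw [G.nd]; linarith [(G.seg (by norm_num) (by norm_num) i1 i2 (pvhv_ctr_mem z d l i)).2.2.2.1]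
  · -- the hook at s
    obtain ⟨n1, n2⟩ := G.Cs_norm hv
    have hwn : ‖ys + us * v - ys‖ = ‖v‖ := pvhv_pl_norm G.us1 ys v
    refine ⟨Or.inr (mem_closedBall_iff_norm.2 (by show ‖ys + us * v - ys‖ ≤ a; rw [hwn]; exact n2)), pvlj_not_mem_cthickening (pvlj_in_closed _ ys yt z G.d0 l) (by positivity) ?_⟩
    rw [G.nd]
    rintro q ((hq | hq) | hq)
    · obtain ⟨i, hi, hqi⟩ := mem_iUnion₂.1 hq
      have hil := Finset.mem_range.1 hi
      rcases Nat.lt_or_ge (i + ns) l.length with h | h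
      · have f := G.far_s i h
        have b := mem_closedBall_iff_norm.1 (pvfe_K_sub_ball (by norm_num) (by norm_num) z d l i hqi)
        rw [G.nd] at b
        have t1 := pvhv_tri3 (p := pvccC z d l i) (q := q) (r := ys)
        have t2 := pvhv_tri3 (p := q) (q := ys + us * v) (r := ys)
        rw [norm_sub_rev (pvccC z d l i) q] at t1
        show δ / 10 < ‖q - (ys + us * v)‖
        linarith
      · obtain ⟨q', rfl, q1, q2, q3⟩ := G.cell_s (k := l.length - 1 - i) (by omega) (by omega) hqi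
        show δ / 10 < ‖ys + us * q' - (ys + us * v)‖
        rw [pvhv_pl_dist G.us1]
        refine pvhv_C_strip (Or.inr rfl) a0 δ0 fine G.top_s hv ?_ ?_ ?_
        · nlinarith [v1'.1, (Nat.cast_nonneg (l.length - 1 - i) : (0 : ℝ) ≤ ((l.length - 1 - i : ℕ) : ℝ))]
        · linarith
        · linarith
    · have b := mem_closedBall_iff_norm.1 hq
      have c := (G.cross (w := ys + us * v)).2 (by rw [hwn]; exact n2)
      have t2 := pvhv_tri3 (p := ys + us * v) (q := q) (r := yt)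
      rw [norm_sub_rev (ys + us * v) q] at t2
      show δ / 10 < ‖q - (ys + us * v)‖
      linarith
    · have b := mem_closedBall_iff_norm.1 hq
      have t2 := pvhv_tri3 (p := ys + us * v) (q := q) (r := ys)
      rw [norm_sub_rev (ys + us * v) q] at t2
      show δ / 10 < ‖q - (ys + us * v)‖
      linarith


/-- the collar of the hooked corridor lies in `Yreg` (`κ = 3`), mesh `m ≤ δ` -/
theorem PvhvGeo.collar (G : PvhvGeo a δ yt ys ut us z d l nt ns) {m : ℝ} (hm : m ≤ δ) {w : ℂ} (hw : w ∈ pvhvR a δ yt ys ut us z d l) : closedBall w (2 * m) ⊆ pvfeBody a 3 ys yt z d l := by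
  intro p hp
  rw [mem_closedBall_iff_norm] at hp
  rcases pvhv_R_cases hw with ⟨v, hv, rfl⟩ | ⟨i, i1, i2, hwi⟩ | ⟨v, hv, rfl⟩
  · refine Or.inl (Or.inr (mem_closedBall_iff_norm.2 ?_))
    have t := pvhv_tri3 (p := p) (q := yt + ut * v) (r := yt)
    rw [pvhv_pl_norm G.ut1, G.nd] at *
    linarith [(G.Ct_norm hv).2, G.δ0]
  · obtain ⟨hil, hb, -⟩ := G.seg (by norm_num) (by norm_num) i1 i2 hwi
    refine Or.inl (Or.inl (pvfe_mem_tube.2 ⟨i, hil, ?_⟩))
    have t := pvhv_tri3 (p := p) (q := w) (r := pvccC z d l i)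
    rw [G.nd]
    linarith
  · refine Or.inr (mem_closedBall_iff_norm.2 ?_)
    have t := pvhv_tri3 (p := p) (q := ys + us * v) (r := ys)
    rw [pvhv_pl_norm G.us1, G.nd] at *
    linarith [(G.Cs_norm hv).2, G.δ0]

section doors

variable {m : ℝ}

/-- **D FRONT AT `t`** -/
theorem PvhvGeo.front_t (G : PvhvGeo a δ yt ys ut us z d l nt ns) (hm0 : 0 ≤ m) (hm : 1000 * m ≤ a) {w : ℂ} (hw : w ∈ pvhvR a δ yt ys ut us z d l) (hn : ‖w - yt‖ ≤ 8 / 10 * a + 2 * m) :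
    ((starRingEnd ℂ) ut * w).re < ((starRingEnd ℂ) ut * yt).re - (a / 4 + 2 * m) ∨ a / 4 + 2 * m + 2 * m < |((starRingEnd ℂ) ut * w).im - ((starRingEnd ℂ) ut * yt).im| := by
  have a0 := G.a0
  rcases pvhv_R_cases hw with ⟨v, hv, rfl⟩ | ⟨i, i1, i2, hwi⟩ | ⟨v, hv, rfl⟩
  · rw [pvhv_pl_norm G.ut1] at hn
    have e := pvhv_pic G.ut1 yt v
    rw [← sub_im, e]
    have e1 : ((starRingEnd ℂ) ut * (yt + ut * v)).re = ((starRingEnd ℂ) ut * yt).re + v.re := pvhv_pic_re G.ut1 yt v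
    rw [e1]
    rcases pvhv_C_front (Or.inl rfl) a0 hm0 hm hv hn with h | h
    · exact Or.inl (by linarith)
    · exact Or.inr h
  · have := (G.seg (by norm_num) (by norm_num) i1 i2 hwi).2.2.1
    linarith
  · have := (G.cross (w := ys + us * v)).2 (by rw [pvhv_pl_norm G.us1]; exact (G.Cs_norm hv).2)
    linarith

/-- **D FRONT AT `s`** -/
theorem PvhvGeo.front_s (G : PvhvGeo a δ yt ys ut us z d l nt ns) (hm0 : 0 ≤ m) (hm : 1000 * m ≤ a) {w : ℂ} (hw : w ∈ pvhvR a δ yt ys ut us z d l) (hn : ‖w - ys‖ ≤ 8 / 10 * a + 2 * m) :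
    ((starRingEnd ℂ) us * w).re < ((starRingEnd ℂ) us * ys).re - (a / 4 + 2 * m) ∨ a / 4 + 2 * m + 2 * m < |((starRingEnd ℂ) us * w).im - ((starRingEnd ℂ) us * ys).im| := by
  have a0 := G.a0
  rcases pvhv_R_cases hw with ⟨v, hv, rfl⟩ | ⟨i, i1, i2, hwi⟩ | ⟨v, hv, rfl⟩
  · have := (G.cross (w := yt + ut * v)).1 (by rw [pvhv_pl_norm G.ut1]; exact (G.Ct_norm hv).2)
    linarith
  · have := (G.seg (by norm_num) (by norm_num) i1 i2 hwi).2.2.2.1
    linarith
  · rw [pvhv_pl_norm G.us1] at hn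
    have e := pvhv_pic G.us1 ys v
    rw [← sub_im, e]
    have e1 : ((starRingEnd ℂ) us * (ys + us * v)).re = ((starRingEnd ℂ) us * ys).re + v.re := pvhv_pic_re G.us1 ys v
    rw [e1]
    rcases pvhv_C_front (Or.inr rfl) a0 hm0 hm hv hn with h | h
    · exact Or.inl (by linarith)
    · exact Or.inr h

/-- **COLLAR AT `t`**: in the collar of the inner mouth the corridor is east of `a / 4`, BELOW the strip of the ray (white side) -/
theorem PvhvGeo.east_t (G : PvhvGeo a δ yt ys ut us z d l nt ns) (hm0 : 0 ≤ m) (hm : 1000 * m ≤ a) {w : ℂ} (hw : w ∈ pvhvR a δ yt ys ut us z d l) (hn : 8 / 10 * a - 2 * m < ‖w - yt‖) (hn' : ‖w - yt‖ ≤ 8 / 10 * a) :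
    ((starRingEnd ℂ) ut * yt).re + a / 4 < ((starRingEnd ℂ) ut * w).re ∧ a / 4 + 2 * m < -1 * (((starRingEnd ℂ) ut * w).im - ((starRingEnd ℂ) ut * yt).im) := by
  have a0 := G.a0
  rcases pvhv_R_cases hw with ⟨v, hv, rfl⟩ | ⟨i, i1, i2, hwi⟩ | ⟨v, hv, rfl⟩
  · rw [pvhv_pl_norm G.ut1] at hn hn'
    have e := pvhv_pic G.ut1 yt v
    rw [← sub_im, e]
    have e1 : ((starRingEnd ℂ) ut * (yt + ut * v)).re = ((starRingEnd ℂ) ut * yt).re + v.re := pvhv_pic_re G.ut1 yt v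
    rw [e1]
    obtain ⟨h1, h2⟩ := pvhv_C_east (Or.inl rfl) a0 hm0 hm hv hn
    exact ⟨by linarith, by linarith [h2 hn']⟩
  · have := (G.seg (by norm_num) (by norm_num) i1 i2 hwi).2.2.1
    linarith
  · have := (G.cross (w := ys + us * v)).2 (by rw [pvhv_pl_norm G.us1]; exact (G.Cs_norm hv).2)
    linarith

/-- **COLLAR AT `s`**: ABOVE the strip of the ray (white side) -/
theorem PvhvGeo.east_s (G : PvhvGeo a δ yt ys ut us z d l nt ns) (hm0 : 0 ≤ m) (hm : 1000 * m ≤ a) {w : ℂ} (hw : w ∈ pvhvR a δ yt ys ut us z d l) (hn : 8 / 10 * a - 2 * m < ‖w - ys‖) (hn' : ‖w - ys‖ ≤ 8 / 10 * a) :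
    ((starRingEnd ℂ) us * ys).re + a / 4 < ((starRingEnd ℂ) us * w).re ∧ a / 4 + 2 * m < 1 * (((starRingEnd ℂ) us * w).im - ((starRingEnd ℂ) us * ys).im) := by
  have a0 := G.a0
  rcases pvhv_R_cases hw with ⟨v, hv, rfl⟩ | ⟨i, i1, i2, hwi⟩ | ⟨v, hv, rfl⟩
  · have := (G.cross (w := yt + ut * v)).1 (by rw [pvhv_pl_norm G.ut1]; exact (G.Ct_norm hv).2)
    linarith
  · have := (G.seg (by norm_num) (by norm_num) i1 i2 hwi).2.2.2.1
    linarith
  · rw [pvhv_pl_norm G.us1] at hn hn'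
    have e := pvhv_pic G.us1 ys v
    rw [← sub_im, e]
    have e1 : ((starRingEnd ℂ) us * (ys + us * v)).re = ((starRingEnd ℂ) us * ys).re + v.re := pvhv_pic_re G.us1 ys v
    rw [e1]
    obtain ⟨h1, h2⟩ := pvhv_C_east (Or.inr rfl) a0 hm0 hm hv hn
    exact ⟨by linarith, by linarith [h2 hn']⟩

/-- the neighbourhood of a starting point in the reference picture -/
theorem pvhv_start_ref {e : ℝ} (he : e = 1 ∨ e = -1) (ha : 0 < a) (hm0 : 0 ≤ m) (hm : 1000 * m ≤ a) {η : ℝ} (hη : 1000 * η ≤ a) {v : ℂ} (hv : ‖v - pvhvPt e (35 / 100 * a) (535 / 1000 * a)‖ < η) :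
    a / 4 < v.re ∧ ‖v‖ ≤ 8 / 10 * a ∧ a / 4 + 2 * m < e * v.im := by
  have r1 := abs_lt.1 (lt_of_le_of_lt (abs_re_le_norm _) hv)
  have r2 := lt_of_le_of_lt (abs_im_le_norm _) hv
  rw [← pvhv_abs_e he] at r2
  have r2' := abs_lt.1 r2
  have e1 : (v - pvhvPt e (35 / 100 * a) (535 / 1000 * a)).re = v.re - 35 / 100 * a := by simp [pvhvPt]
  have e2 : e * (v - pvhvPt e (35 / 100 * a) (535 / 1000 * a)).im = e * v.im - 535 / 1000 * a := by
    have : e * e = 1 := by rcases he with rfl | rfl <;> norm_num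
    simp only [pvhvPt, sub_im]
    linear_combination (-(535 / 1000 * a)) * this
  rw [e1] at r1
  rw [e2] at r2'
  refine ⟨by linarith [r1.1], ?_, by linarith [r2'.1]⟩
  have hsq : v.re ^ 2 + (e * v.im) ^ 2 ≤ (8 / 10 * a) ^ 2 := by
    have h1 : v.re ^ 2 ≤ (36 / 100 * a) ^ 2 := sq_le_sq' (by linarith [r1.1]) (by linarith [r1.2])
    have h2 : (e * v.im) ^ 2 ≤ (54 / 100 * a) ^ 2 := sq_le_sq' (by linarith [r2'.1]) (by linarith [r2'.2])
    nlinarith [sq_nonneg a]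
  rw [← pvhv_sq_norm_e he] at hsq
  exact (abs_le_of_sq_le_sq' hsq (by positivity)).2

/-- **START**: the sites near the first end are east of `a / 4`, in the inner mouth, ABOVE the strip of the ray (black side) -/
theorem PvhvGeo.start (G : PvhvGeo a δ yt ys ut us z d l nt ns) (hm0 : 0 ≤ m) (hm : 1000 * m ≤ a) {η : ℝ} (hη : 1000 * η ≤ a) {w : ℂ} (hw : ‖w - pvhvXa a yt ut‖ < η) :
    ((starRingEnd ℂ) ut * yt).re + a / 4 < ((starRingEnd ℂ) ut * w).re ∧ ‖w - yt‖ ≤ 8 / 10 * a ∧ a / 4 + 2 * m < ((starRingEnd ℂ) ut * w).im - ((starRingEnd ℂ) ut * yt).im := by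
  obtain ⟨v, rfl⟩ : ∃ v, w = yt + ut * v := ⟨_, (pvhv_unpl G.ut1 yt w).symm⟩
  unfold pvhvXa at hw
  rw [pvhv_pl_dist G.ut1] at hw
  obtain ⟨h1, h2, h3⟩ := pvhv_start_ref (Or.inl rfl) G.a0 hm0 hm hη hw
  have e := pvhv_pic G.ut1 yt v
  rw [pvhv_pl_norm G.ut1, ← sub_im, e]
  have e1 : ((starRingEnd ℂ) ut * (yt + ut * v)).re = ((starRingEnd ℂ) ut * yt).re + v.re := pvhv_pic_re G.ut1 yt v
  rw [e1]
  exact ⟨by linarith, h2, by linarith⟩

/-- **STOP**: the sites near the last end are east of `a / 4`, in the inner mouth, BELOW the strip of the ray (black side) -/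
theorem PvhvGeo.stop (G : PvhvGeo a δ yt ys ut us z d l nt ns) (hm0 : 0 ≤ m) (hm : 1000 * m ≤ a) {η : ℝ} (hη : 1000 * η ≤ a) {w : ℂ} (hw : ‖w - pvhvXb a ys us‖ < η) :
    ((starRingEnd ℂ) us * ys).re + a / 4 < ((starRingEnd ℂ) us * w).re ∧ ‖w - ys‖ ≤ 8 / 10 * a ∧ a / 4 + 2 * m < ((starRingEnd ℂ) us * ys).im - ((starRingEnd ℂ) us * w).im := by
  obtain ⟨v, rfl⟩ : ∃ v, w = ys + us * v := ⟨_, (pvhv_unpl G.us1 ys w).symm⟩
  unfold pvhvXb at hw
  rw [pvhv_pl_dist G.us1] at hw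
  obtain ⟨h1, h2, h3⟩ := pvhv_start_ref (Or.inr rfl) G.a0 hm0 hm hη hw
  have e1 : ((starRingEnd ℂ) us * (ys + us * v)).re = ((starRingEnd ℂ) us * ys).re + v.re := pvhv_pic_re G.us1 ys v
  have e2 : ((starRingEnd ℂ) us * (ys + us * v)).im = ((starRingEnd ℂ) us * ys).im + v.im := pvhv_pic_im G.us1 ys v
  rw [pvhv_pl_norm G.us1, e1, e2]
  exact ⟨by linarith, h2, by linarith⟩

end doors

/-- the hooked corridor is bounded -/
theorem PvhvGeo.bdd (G : PvhvGeo a δ yt ys ut us z d l nt ns) : pvhvR a δ yt ys ut us z d l ⊆ closedBall z ((l.length + 1) * δ + 2 * a) := by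
  have a0 := G.a0
  have δ0 := G.δ0
  have fine := G.fine
  intro w hw
  rw [mem_closedBall_iff_norm]
  have hl0 : (0 : ℝ) ≤ l.length := Nat.cast_nonneg _
  rcases pvhv_R_cases hw with ⟨v, hv, rfl⟩ | ⟨i, i1, i2, hwi⟩ | ⟨v, hv, rfl⟩
  · have h1 := G.first
    have e : pvccC z d l 0 - z = d / 2 := by simp [pvccC]
    have h2 : ‖pvccC z d l 0 - z‖ = δ / 2 := by rw [e, norm_div, G.nd]; norm_num
    have t1 := pvhv_tri3 (p := yt + ut * v) (q := yt) (r := z)
    have t2 := pvhv_tri3 (p := yt) (q := pvccC z d l 0) (r := z)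
    rw [norm_sub_rev yt (pvccC z d l 0)] at t2
    rw [pvhv_pl_norm G.ut1] at t1
    nlinarith [(G.Ct_norm hv).2]
  · have hil := (G.seg (by norm_num) (by norm_num) i1 i2 hwi).1
    have := mem_closedBall_iff_norm.1 (pvlj_lanes_ball (by norm_num) (by norm_num) z d l (pvlj_K_sub_lanes _ _ z d l hil hwi))
    rw [G.nd] at this
    linarith
  · have h1 := G.vs
    have h3 := pvlj_door_norm z d l l.length le_rfl
    rw [G.nd] at h3
    have h4 : ‖pvccZ z d l l.length - ys‖ = ‖pvhvVs ys us z d l‖ := by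
      unfold pvhvVs; rw [norm_mul, pvhv_norm_conj G.us1, one_mul]
    have h5 := pvhv_norm_le_add (pvhvVs ys us z d l)
    have h6 := abs_le.1 h1.1
    have h7 : |(pvhvVs ys us z d l).re| ≤ 3 * a / 8 + δ := abs_le.2 ⟨by linarith [h6.1], by linarith [h6.2]⟩
    have t1 := pvhv_tri3 (p := ys + us * v) (q := ys) (r := z)
    have t2 := pvhv_tri3 (p := ys) (q := pvccZ z d l l.length) (r := z)
    rw [norm_sub_rev ys (pvccZ z d l l.length)] at t2
    rw [pvhv_pl_norm G.us1] at t1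
    nlinarith [(G.Cs_norm hv).2, h1.2]

/-- **BOX AT `t`** (point form): a point of the corridor which is not east of `a / 4` in the picture of `t`, off the cells of the corridor, off the landing zone of `s`, lies in the inner mouth of `t` -/
theorem PvhvGeo.box_t (G : PvhvGeo a δ yt ys ut us z d l nt ns) {w : ℂ} (hw : w ∈ pvhvR a δ yt ys ut us z d l) (h1 : ((starRingEnd ℂ) ut * w).re ≤ ((starRingEnd ℂ) ut * yt).re + a / 4)
    (h2 : ∀ i, i < l.length → δ < ‖w - pvccC z d l i‖) (h3 : a < ‖w - ys‖) : ‖w - yt‖ ≤ 8 / 10 * a := by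
  have a0 := G.a0
  rcases pvhv_R_cases hw with ⟨v, hv, rfl⟩ | ⟨i, i1, i2, hwi⟩ | ⟨v, hv, rfl⟩
  · rw [pvhv_pl_norm G.ut1]
    rw [pvhv_pic_re G.ut1] at h1
    by_contra hc
    rw [not_le] at hc
    have := (pvhv_C_east (m := 0) (Or.inl rfl) a0 le_rfl (by linarith) hv (by linarith)).1
    linarith
  · obtain ⟨hil, hb, -⟩ := G.seg (by norm_num) (by norm_num) i1 i2 hwi
    exact absurd hb (not_le.2 (h2 i hil))
  · rw [pvhv_pl_norm G.us1] at h3
    exact absurd (G.Cs_norm hv).2 (not_le.2 h3)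

/-- **BOX AT `s`** (point form) -/
theorem PvhvGeo.box_s (G : PvhvGeo a δ yt ys ut us z d l nt ns) {w : ℂ} (hw : w ∈ pvhvR a δ yt ys ut us z d l) (h1 : ((starRingEnd ℂ) us * w).re ≤ ((starRingEnd ℂ) us * ys).re + a / 4)
    (h2 : ∀ i, i < l.length → δ < ‖w - pvccC z d l i‖) (h3 : a < ‖w - yt‖) : ‖w - ys‖ ≤ 8 / 10 * a := by
  have a0 := G.a0
  rcases pvhv_R_cases hw with ⟨v, hv, rfl⟩ | ⟨i, i1, i2, hwi⟩ | ⟨v, hv, rfl⟩
  · rw [pvhv_pl_norm G.ut1] at h3
    exact absurd (G.Ct_norm hv).2 (not_le.2 h3)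
  · obtain ⟨hil, hb, -⟩ := G.seg (by norm_num) (by norm_num) i1 i2 hwi
    exact absurd hb (not_le.2 (h2 i hil))
  · rw [pvhv_pl_norm G.us1]
    rw [pvhv_pic_re G.us1] at h1
    by_contra hc
    rw [not_le] at hc
    have := (pvhv_C_east (m := 0) (Or.inr rfl) a0 le_rfl (by linarith) hv (by linarith)).1
    linarith

end geo

/-! ## 6. the datum: `PvhwFitD` (53), HOOK-DET for `WO` at the hooked corridor -/

theorem pvhv_conj_dir {u : ℂ} (h : u ∈ pvtzdDir) : (starRingEnd ℂ) u ∈ pvtzdDir := by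
  rcases h with rfl | rfl | rfl | rfl
  · exact Or.inl (by simp)
  · exact Or.inr (Or.inl (by simp))
  · exact Or.inr (Or.inr (Or.inr (by simp)))
  · exact Or.inr (Or.inr (Or.inl (by simp)))

/-- **WHAT IS ASKED OF THE NUMBERS AND OF THE PATTERN** (`m` = mesh of the sites, `r` = radius of the mouths, `ut us` = outer normals of the doors);   no site, no datum -/
structure PvhvFitH (N : PvwNum) (hh : ℝ) (π : PvwPat) (δ m r : ℝ) (ut us z d : ℂ) (l : List PvtTurn) : Prop where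
  m0 : 0 < m
  mδ : m ≤ δ
  dir_t : ut ∈ pvtzdDir
  dir_s : us ∈ pvtzdDir
  /-- (nd) the side of the box which looks at the door passes within `ρ h / 4` of the grid centre of the tip cell -/
  adm_t : pvwRad N hh π.tt π.tt.k + ((starRingEnd ℂ) ut * π.zt).re ≤ ((starRingEnd ℂ) ut * π.tt.cp hh π.zt).re + N.rho * hh / 4
  adm_s : pvwRad N hh π.ts π.ts.k + ((starRingEnd ℂ) us * π.zs).re ≤ ((starRingEnd ℂ) us * π.ts.cm hh π.zs).re + N.rho * hh / 4
  big_t : N.rho * hh / 4 + 2 * m ≤ pvwRad N hh π.tt π.tt.k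
  big_s : N.rho * hh / 4 + 2 * m ≤ pvwRad N hh π.ts π.ts.k
  /-- the cores lie in the boxes -/
  core_t : π.tt.b * hh ≤ pvwRad N hh π.tt π.tt.k
  core_s : π.ts.b * hh ≤ pvwRad N hh π.ts π.ts.k
  r1 : 3 * (8 / 10 * (N.rho * hh)) + 2 * m ≤ r
  r2 : N.rho2 * hh ≤ r
  r3 : 8 / 10 * (N.rho * hh) ≤ N.rho1 * hh / 2
  /-- the mouths are far from the gates -/
  gate_t : r + 4 * m + π.tt.b * hh ≤ ‖π.tt.cp hh π.zt - π.zt‖
  gate_s : r + 4 * m + π.ts.b * hh ≤ ‖π.ts.cm hh π.zs - π.zs‖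
  /-- (b1) each box is far from the landing zone of the other pin -/
  far_ts : ∀ w ∈ pvwSq π.zt (pvwRad N hh π.tt π.tt.k), N.rho * hh < ‖w - π.ts.cm hh π.zs‖
  far_st : ∀ w ∈ pvwSq π.zs (pvwRad N hh π.ts π.ts.k), N.rho * hh < ‖w - π.tt.cp hh π.zt‖
  /-- the regions of the pattern are the regions of record -/
  out : pvfeOut (N.rho * hh / 2) (N.rho * hh) (π.ts.cm hh π.zs) (π.tt.cp hh π.zt) z d l ⊆ π.Yout
  reg : pvfeBody (N.rho * hh) 3 (π.ts.cm hh π.zs) (π.tt.cp hh π.zt) z d l ⊆ π.Yreg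

theorem pvhv_disc_sq {zc w : ℂ} {b R : ℝ} (h : ‖w - zc‖ < b) (hb : b ≤ R) : w ∈ pvwSq zc R :=
  ⟨((abs_re_le_norm _).trans h.le).trans hb, ((abs_im_le_norm _).trans h.le).trans hb⟩

section det

variable {Y : Set ℂ} {N : PvwNum} {hh : ℝ} {π : PvwPat} {δ m r : ℝ} {ut us z d : ℂ} {l : List PvtTurn} {nt ns : ℕ}

/-- **THE HOOKED LANE FITS THE DATUM** (form D of 53): every field of `PvhwFitD` from `PvwDat.Ok` + `PvhvGeo` (index) + `PvhvFitH` (numbers) + (FZ) of 274 + mesh -/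
theorem pvhv_fit (h : DelGood Y) {𝔇 : PvwDat (delMap h)} (hOk : 𝔇.Ok (dlsPos Y) N hh π) (hπ : π.Wf)
    (G : PvhvGeo (N.rho * hh) δ (π.tt.cp hh π.zt) (π.ts.cm hh π.zs) ut us z d l nt ns) (H : PvhvFitH N hh π δ m r ut us z d l)
    (hFZ : ∀ v ∈ 𝔇.fzY, ∀ i, i < l.length → δ < ‖(v : ℂ) - pvccC z d l i‖)
    (mesh_t : VorDense Y (closedBall (π.tt.cp hh π.zt) (r + 3 * m)) m) (mesh_s : VorDense Y (closedBall (π.ts.cm hh π.zs) (r + 3 * m)) m)
    (mesh_R : ∀ w ∈ pvhvR (N.rho * hh) δ (π.tt.cp hh π.zt) (π.ts.cm hh π.zs) ut us z d l, VorDense Y (closedBall w (2 * m)) m)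
    {X : Set Y} (hX : ∀ v ∈ X, (v : ℂ) ∈ pvhvR (N.rho * hh) δ (π.tt.cp hh π.zt) (π.ts.cm hh π.zs) ut us z d l) {a b : Y}
    (ha : ‖(a : ℂ) - pvhvXa (N.rho * hh) (π.tt.cp hh π.zt) ut‖ < 2 * (δ / 100)) (hb : ‖(b : ℂ) - pvhvXb (N.rho * hh) (π.ts.cm hh π.zs) us‖ < 2 * (δ / 100))
    (hj : (delMap h).Join Set.univ X a b) :
    PvhwFitD 𝔇 π.zt π.zs (pvwRad N hh π.tt π.tt.k) (pvwRad N hh π.ts π.ts.k) (π.tt.cp hh π.zt) (π.ts.cm hh π.zs) ((starRingEnd ℂ) ut) ((starRingEnd ℂ) us)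
      (N.rho * hh / 4) m r (8 / 10 * (N.rho * hh)) (8 / 10 * (N.rho * hh)) X a b := by
  have hT := dls_isSph h
  have a0 := G.a0
  have δ0 := G.δ0
  have fine := G.fine
  have m0 := H.m0
  have hm : 1000 * m ≤ N.rho * hh := by linarith [H.mδ]
  have hη : 1000 * (2 * (δ / 100)) ≤ N.rho * hh := by linarith
  have dt := pvhv_conj_dir H.dir_t
  have ds := pvhv_conj_dir H.dir_s
  -- frozen sites of the two half states lie in the boxes
  have boxT : ∀ v ∈ 𝔇.t.fzOut, (v : ℂ) ∈ pvwSq π.zt (pvwRad N hh π.tt π.tt.k) := by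
    rintro v ((hc | hb) | hw)
    · have : v ∈ 𝔇.t.dsc := hc
      rw [hOk.st_t.gate.dsc_eq] at this
      exact pvhv_disc_sq this H.core_t
    · exact pvwk_banksP_in hOk.st_t.stub (Or.inl hb)
    · exact pvwk_banksP_in hOk.st_t.stub (Or.inr hw)
  have boxS : ∀ v ∈ 𝔇.s.fzIn, (v : ℂ) ∈ pvwSq π.zs (pvwRad N hh π.ts π.ts.k) := by
    rintro v ((hc | hb) | hw)
    · have : v ∈ 𝔇.s.dsc := hc
      rw [hOk.st_s.gate.dsc_eq] at this
      exact pvhv_disc_sq this H.core_s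
    · exact pvwk_banksM_in hOk.st_s.stub (Or.inl hb)
    · exact pvwk_banksM_in hOk.st_s.stub (Or.inr hw)
  have inT : ∀ v ∈ X, v ∈ 𝔇.t.fzOut → ‖(v : ℂ) - π.tt.cp hh π.zt‖ ≤ 8 / 10 * (N.rho * hh) := fun v hv hf =>
    G.box_t (hX v hv) ((pvtzd_sq_le dt (boxT v hf)).trans H.adm_t) (hFZ v (Or.inl hf)) (H.far_ts _ (boxT v hf))
  have inS : ∀ v ∈ X, v ∈ 𝔇.s.fzIn → ‖(v : ℂ) - π.ts.cm hh π.zs‖ ≤ 8 / 10 * (N.rho * hh) := fun v hv hf =>
    G.box_s (hX v hv) ((pvtzd_sq_le ds (boxS v hf)).trans H.adm_s) (hFZ v (Or.inr hf)) (H.far_st _ (boxS v hf))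
  refine ⟨dt, ds, by linarith [H.adm_t], by linarith [H.adm_s], H.big_t, H.big_s, m0, mesh_t, mesh_s, H.r1, le_rfl, by linarith, ?_, ?_, by linarith [G.sep], ?_, ?_,
    fun v hv hb => inT v hv (by rcases hb with hb | hb; exact Or.inl (Or.inr hb); exact Or.inr hb), fun v hv hb => inS v hv (by rcases hb with hb | hb; exact Or.inl (Or.inr hb); exact Or.inr hb), hj, ?_, ?_, ?_⟩
  · have h1 := hOk.st_t.gate.inside _ (pvwk_gate_ends hT hOk.st_t.gate).2.1
    have h2 : ‖π.tt.cp hh π.zt - π.zt‖ ≤ ‖((delMap h).tgt 𝔇.t.dp : ℂ) - π.tt.cp hh π.zt‖ + π.tt.b * hh :=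
      pvhw_tri (b := ((delMap h).tgt 𝔇.t.dp : ℂ)) (by rw [norm_sub_rev]) h1.le
    linarith [H.gate_t]
  · have h1 := hOk.st_s.gate.inside _ (pvwk_gate_ends hT hOk.st_s.gate).2.2.1
    have h2 : ‖π.ts.cm hh π.zs - π.zs‖ ≤ ‖((delMap h).src 𝔇.s.dm : ℂ) - π.ts.cm hh π.zs‖ + π.ts.b * hh :=
      pvhw_tri (b := ((delMap h).src 𝔇.s.dm : ℂ)) (by rw [norm_sub_rev]) h1.le
    linarith [H.gate_s]
  · exact PvhwDoorRD.door (pvtzd_dir_norm dt) ⟨fun w hw hn => G.front_t m0.le hm hw hn, fun w hw h1 h2 => by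
      obtain ⟨e1, e2⟩ := G.east_t m0.le hm hw h1 h2
      exact ⟨by linarith [H.adm_t], e2⟩⟩ hX
  · exact PvhwDoorRD.door (pvtzd_dir_norm ds) ⟨fun w hw hn => G.front_s m0.le hm hw hn, fun w hw h1 h2 => by
      obtain ⟨e1, e2⟩ := G.east_s m0.le hm hw h1 h2
      exact ⟨by linarith [H.adm_s], e2⟩⟩ hX
  · obtain ⟨e1, e2, e3⟩ := G.start m0.le hm hη ha
    exact ⟨by linarith [H.adm_t], e2, e3⟩
  · obtain ⟨e1, e2, e3⟩ := G.stop m0.le hm hη hb
    exact ⟨by linarith [H.adm_s], e2, e3⟩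
  · intro v hv hf
    have hvR := hX v hv
    rcases hf with ((((hc | hb) | hw) | ((hc | hb) | hw)) | hg) | hap
    · exfalso
      have h1 := inT v hv (Or.inl (Or.inl hc))
      have : v ∈ 𝔇.t.dsc := hc
      rw [hOk.st_t.gate.dsc_eq] at this
      have h2 : ‖π.tt.cp hh π.zt - π.zt‖ ≤ 8 / 10 * (N.rho * hh) + π.tt.b * hh := pvhw_tri (b := (v : ℂ)) (by rw [norm_sub_rev]; exact h1) (le_of_lt this)
      linarith [H.gate_t, H.r1]
    · exact Or.inl (Or.inl hb)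
    · exact Or.inl (Or.inr hw)
    · exfalso
      have h1 := inS v hv (Or.inl (Or.inl hc))
      have : v ∈ 𝔇.s.dsc := hc
      rw [hOk.st_s.gate.dsc_eq] at this
      have h2 : ‖π.ts.cm hh π.zs - π.zs‖ ≤ 8 / 10 * (N.rho * hh) + π.ts.b * hh := pvhw_tri (b := (v : ℂ)) (by rw [norm_sub_rev]; exact h1) (le_of_lt this)
      linarith [H.gate_s, H.r1]
    · exact Or.inr (Or.inl hb)
    · exact Or.inr (Or.inr hw)
    · exact absurd (hπ.out_sub (H.out (G.out hvR))) (hOk.off v hg)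
    · exfalso
      obtain ⟨i, hi, rfl⟩ := hap
      have hs := pvhw_short h m0 (c := (((delMap h).apex ((delMap h).opp (𝔇.g.e i)) : Y) : ℂ)) (R := 0) (by rw [zero_add]; exact mesh_R _ hvR)
        ((delMap h).nxt ((delMap h).nxt ((delMap h).opp (𝔇.g.e i)))) (by rw [(delMap h).src_nxt2, sub_self, norm_zero])
      rw [(delMap h).src_nxt2, (delMap h).tgt_nxt2, (delMap h).src_opp', 𝔇.g.tgt_e i hi] at hs
      refine hOk.off (𝔇.g.v (i + 1)) ⟨i + 1, hi, rfl⟩ (H.reg (G.collar H.mδ hvR ?_))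
      rw [mem_closedBall, dist_eq_norm, norm_sub_rev]
      exact hs

/-- **HOOK-DET FOR `WO` AT THE HOOKED CORRIDOR OF RECORD** (any presentation of the Delaunay plane): the white pattern of record of the region `pvhvR` for the FRESH colours `κ` gives `WO(D)` for every colouring which is `κ` off the frozen sites -/
theorem pvhv_det (h : DelGood Y) {P : PlTri ↥Y} (hP : P = delPl h) {𝔇 : PvwDat P.toMap} (hOk : 𝔇.Ok Subtype.val N hh π) (hπ : π.Wf)
    (G : PvhvGeo (N.rho * hh) δ (π.tt.cp hh π.zt) (π.ts.cm hh π.zs) ut us z d l nt ns) (H : PvhvFitH N hh π δ m r ut us z d l)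
    (hFZ : ∀ v ∈ 𝔇.fzY, ∀ i, i < l.length → δ < ‖(v : ℂ) - pvccC z d l i‖)
    (mesh_t : VorDense Y (closedBall (π.tt.cp hh π.zt) (r + 3 * m)) m) (mesh_s : VorDense Y (closedBall (π.ts.cm hh π.zs) (r + 3 * m)) m)
    (mesh_R : ∀ w ∈ pvhvR (N.rho * hh) δ (π.tt.cp hh π.zt) (π.ts.cm hh π.zs) ut us z d l, VorDense Y (closedBall w (2 * m)) m)
    {κ : ℂ → Bool} {σ : ↥Y → Bool}
    (hκ : cfOf Y κ ∈ pvkqEv (δ / 100) false (pvhvR (N.rho * hh) δ (π.tt.cp hh π.zt) (π.ts.cm hh π.zs) ut us z d l) (pvhvXa (N.rho * hh) (π.tt.cp hh π.zt) ut) (pvhvXb (N.rho * hh) (π.ts.cm hh π.zs) us))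
    (hσ : ∀ v, v ∉ 𝔇.fz → σ v = κ v) : 𝔇.WO Subtype.val π σ := by
  subst hP
  obtain ⟨a, b, ha, hb, hj⟩ := pvkq_Ev_det G.core false Y h κ hκ
  have F := pvhv_fit h hOk hπ G H hFZ mesh_t mesh_s mesh_R (X := pvkqV Y κ false _) (fun v hv => hv.2) ha hb hj
  exact PvhwFitD.WO (h := h) F (pvhw_out_of_ok hOk H.r2 H.r3) (pvhw_in_of_ok hOk H.r2 H.r3) hπ (fun v hv hf => (hσ v hf).trans hv.1) (fun v hv _ => H.out (G.out hv.2))

end det

end Claimed.Agent.R289
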