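-- KEEP
import Claimed.Agent.R289.Tr.HookWM
import Claimed.Agent.R289.Tr.SimpleE

/-!
# Row 289 (S0537), THE WALL, ROAD E, HOOK-DET, file Tr/HookWMI : THE INDEX OF A PATTERN GIVES `PvhvGeo`      (helper148; prefix `pvhs_`)

Producer of the record `PvhvGeo` of 155 (`Tr/HookWM`: what the hooked outer corridor asks of the index).      Pure geometry.
* **`pvhs_geo`**      model free: `PvfeDoors` (209) + `Γ.Ok p` + `PvfeIx` (`simple nr lk sep`) + numbers ⟹ `∃ nt ns, PvhvGeo (ρ h) δ y⁺(t) y⁻(s) (dout t) (- din s) (pvfeZ Γ p) (pvfeD Γ p) p.l nt ns`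
* **`pvhs_geo_pat`**  on `pvxPatSet`
-/

set_option autoImplicit false

namespace Claimed.Agent.R289

open Set Metric Complex

/-- **the two tips are `7 h` apart**, from the field `sep` of `PvfeIx` -/
theorem pvhs_sep {N : PvwNum} {h : ℝ} (hh : 0 < h) {Ts Tt : PvwTy} {zs zt : ℂ} (hρ : N.rho ≤ 1) (hρ1 : 0 ≤ N.rho1) (hks : Ts.k ≤ N.K) (hkt : Tt.k ≤ N.K)
    (hs : |pvccN Ts.ym - (2 * Ts.b2 + Ts.k * N.rho1)| ≤ N.rho / 4) (ht : |pvccN Tt.yp - (2 * Tt.b2 + Tt.k * N.rho1)| ≤ N.rho / 4)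
    (hb1 : 2 * (pvwRad N h Ts N.K + pvwRad N h Tt N.K) + 8 * h ≤ ‖zs - zt‖) : 7 * h ≤ ‖Ts.cm h zs - Tt.cp h zt‖ := by
  unfold pvwRad at hb1
  unfold PvwTy.cm PvwTy.cp
  have e : zs - zt = (zs + (h : ℂ) * Ts.ym - (zt + (h : ℂ) * Tt.yp)) - (h : ℂ) * Ts.ym + (h : ℂ) * Tt.yp := by ring
  have h1 : ‖zs - zt‖ ≤ ‖zs + (h : ℂ) * Ts.ym - (zt + (h : ℂ) * Tt.yp)‖ + h * ‖Ts.ym‖ + h * ‖Tt.yp‖ := by
    rw [e]
    refine (norm_add_le _ _).trans ?_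
    refine add_le_add ((norm_sub_le _ _).trans ?_) ?_
    · rw [norm_mul, Complex.norm_real, Real.norm_eq_abs, abs_of_pos hh]
    · rw [norm_mul, Complex.norm_real, Real.norm_eq_abs, abs_of_pos hh]
  have h2 := pvzu_norm_le Ts.ym
  have h3 := pvzu_norm_le Tt.yp
  have n1 : 0 ≤ pvccN Ts.ym := (abs_nonneg _).trans (le_max_left _ _)
  have n2 : 0 ≤ pvccN Tt.yp := (abs_nonneg _).trans (le_max_left _ _)
  have k1 : (Ts.k : ℝ) * N.rho1 ≤ N.K * N.rho1 := mul_le_mul_of_nonneg_right (by exact_mod_cast hks) hρ1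
  have k2 : (Tt.k : ℝ) * N.rho1 ≤ N.K * N.rho1 := mul_le_mul_of_nonneg_right (by exact_mod_cast hkt) hρ1
  have a1 := abs_le.1 hs
  have a2 := abs_le.1 ht
  have b1 : h * ‖Ts.ym‖ ≤ h * (3 / 2 * (2 * Ts.b2 + N.K * N.rho1 + N.rho / 4)) := mul_le_mul_of_nonneg_left (by linarith [a1.2]) hh.le
  have b2 : h * ‖Tt.yp‖ ≤ h * (3 / 2 * (2 * Tt.b2 + N.K * N.rho1 + N.rho / 4)) := mul_le_mul_of_nonneg_left (by linarith [a2.2]) hh.le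
  have b3 : h * (- (N.rho / 4)) ≤ h * (2 * Ts.b2 + N.K * N.rho1) := mul_le_mul_of_nonneg_left (by linarith [a1.1]) hh.le
  have b4 : h * (- (N.rho / 4)) ≤ h * (2 * Tt.b2 + N.K * N.rho1) := mul_le_mul_of_nonneg_left (by linarith [a2.1]) hh.le
  have b5 : h * N.rho ≤ h * 1 := mul_le_mul_of_nonneg_left hρ hh.le
  nlinarith

section geo

variable {τ : Type}

/-- **`PvhvGeo` FROM THE INDEX**, model free -/
theorem pvhs_geo {Γ : PvtsGeo τ} {ty : τ → PvwTy} {N : PvwNum} {h : ℝ} (hD : PvfeDoors Γ ty N h) (hδ : 0 < Γ.δ) (hh : 0 < h) (hfine : 1000 * Γ.δ ≤ N.rho * h)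
    (hρ : N.rho ≤ 1) (hρ1 : 0 ≤ N.rho1) (hk : ∀ t, (ty t).k ≤ N.K) {p : PvtsPat τ} {Z : Set (ℤ × ℤ)} (hOk : Γ.Ok p) (hI : PvfeIx Γ ty N h p Z) :
    ∃ nt ns : ℕ, PvhvGeo (N.rho * h) Γ.δ ((ty p.tt).cp h p.zt) ((ty p.ts).cm h p.zs) (Γ.dout p.tt) (- Γ.din p.ts) (pvfeZ Γ p) (pvfeD Γ p) p.l nt ns := by
  obtain ⟨nt, ns, hle, hSt, hSs, hft, hfs⟩ := hI.lk.pvzu_noz
  obtain ⟨e, u, hu, o1, o2, o3, -⟩ := hD.out p.tt
  obtain ⟨e', u', hu', i1, i2, i3, -⟩ := hD.inn p.ts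
  have hU : ‖pvtZ u‖ = 1 := pveg_norm_unit (pveg_dir_pow hu)
  have hU' : ‖pvtZ u'‖ = 1 := pveg_norm_unit (pveg_dir_pow hu')
  have hZl : pvccZ (pvfeZ Γ p) (pvfeD Γ p) p.l p.l.length = p.zs + Γ.pin p.ts := by
    rw [pvccZ_length]
    unfold pvfeZ pvfeD pvtDisp
    rw [pvtAcc_mul]
    have := hOk.1
    unfold pvtDisp at this
    rw [this]; ring
  refine ⟨nt, ns, ⟨hδ, hfine, by rw [o2]; exact hU, by rw [i2, neg_neg]; exact hU', rfl, ?_, ?_, ?_, hle, hSt, hSs, hft, hfs, hI.simple, hI.nr, ?_⟩⟩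
  · -- the last frame
    unfold pvccD pvfeD
    rw [List.take_length, pvtDir_mul, hOk.2]; ring
  · -- the base cell of `t`
    have e1 : pvfeZ Γ p + pvfeD Γ p / 2 - ((ty p.tt).cp h p.zt + ((3 * (N.rho * h) / 8 : ℝ) : ℂ) * Γ.dout p.tt) = pvtCtr Γ.δ e - (h : ℂ) * ((ty p.tt).yp + ((3 * N.rho / 8 : ℝ) : ℂ) * pvtZ u) := by
      unfold pvfeZ pvfeD PvwTy.cp
      rw [o1, o2, pveg_ctr_sub]
      push_cast
      ring
    rw [e1]; exact o3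
  · -- the base cell of `s`
    have e1 : pvccZ (pvfeZ Γ p) (pvfeD Γ p) p.l p.l.length + (Γ.δ : ℂ) * (- Γ.din p.ts) / 2 - ((ty p.ts).cm h p.zs + ((3 * (N.rho * h) / 8 : ℝ) : ℂ) * (- Γ.din p.ts)) =
        pvtCtr Γ.δ e' - (h : ℂ) * ((ty p.ts).ym + ((3 * N.rho / 8 : ℝ) : ℂ) * pvtZ u') := by
      rw [hZl]
      unfold PvwTy.cm
      rw [i1, i2, pveg_ctr_sub]
      push_cast
      ring
    rw [e1]; exact i3
  · -- the two tips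
    have := pvhs_sep hh hρ hρ1 (hk p.ts) (hk p.tt) (hD.nd_m p.ts) (hD.nd_p p.tt) hI.sep
    rw [norm_sub_rev]
    nlinarith

end geo

section model

variable {τ : Type} {c : ℝ} {𝔓 : PvxPar τ c}

/-- **`PvhvGeo` ON `pvxPatSet`** -/
theorem pvhs_geo_pat {m : ℕ} {x : ℂ} {R₀ : ℝ} {π : PvxIx τ} (hB : 𝔓.WfB) (hdel : (𝔓.Γ m).δ = pvlmDel c m) (hD : PvfeDoors (𝔓.Γ m) 𝔓.ty 𝔓.num (pvlmH m))
    (hfine : 1000 * pvlmDel c m ≤ 𝔓.num.rho * pvlmH m) (hπ : π ∈ pvxPatSet 𝔓 x R₀ m) :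
    ∃ nt ns : ℕ, PvhvGeo (𝔓.num.rho * pvlmH m) (pvlmDel c m) (pvxYt 𝔓 m π.p) (pvxYs 𝔓 m π.p) ((𝔓.Γ m).dout π.p.tt) (- (𝔓.Γ m).din π.p.ts) (pvfeZ (𝔓.Γ m) π.p) (pvfeD (𝔓.Γ m) π.p) π.p.l nt ns := by
  have := pvhs_geo hD (by rw [hdel]; exact pvlm_Del_pos c m) (pvlm_H_pos m) (by rw [hdel]; exact hfine) (by linarith [hB.rho1, hB.rho2, hB.rho3]) (by linarith [hB.rho0, hB.rho1]) hB.lev hπ.1.1 (pvzu_pat_ix hπ)
  rw [hdel] at this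
  exact this

end model

end Claimed.Agent.R289
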