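import Claimed.Agent.R289.Defs.TrModel
import Claimed.Agent.R289.Tr.StKit
import Claimed.Agent.R289.Tr.DomY

/-!
# Row 289 (S0537, Cardy for Poisson-Voronoi), THE WALL, bridges, file Tr/BrDat : THE DATUM FAMILY = THE LABEL-FREE DATUM LAYER      (helper72; post Y (b) of 82, head of the bridges 113; prefix `pvjd`, `Pvjd`)

WHY.  `PvwDat T` (`Tr/Defs` v3; adapted by 145 10:58Z: field `dsc` in `PvjdG`, `PvjdHf`; `pvjd_D_nu`; `pvjd_enc_countable` for finite cores; `pvjdNB` on `NU`) lives on ONE map `T`; at the model `T = pvxT ω` is a TYPE THAT DEPENDS ON THE SAMPLE.   The engine of N1' (`PvdmSys ι`, `Tr/Dom` of 159, `PvdmSys.HypY` of 193) wants a FIXED index type `ι`,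
configurations `cfOf Y σ`, sets of POSITIONS `frz yf : ι → Conf PvPt → Set ℂ`, and a sum over `ι` in which every closed rim `P'` is counted ONCE (field `dom`).   A `PvwDat` carries JUNK (values of `ep em v e` beyond the lengths, the starting point of the gate circuit,
the unused stubs `Σ⁺(s)`, `Σ⁻(t)` (R-B), the prescription `col` off `fzY`): an index which sees the junk makes `cnt` and `dom` false.
* sec. 1  ANY MAP: `PvjdP PvjdG PvjdOut PvjdIn PvjdD` = SAME USED DATA;   every notion of `Tr/Defs` sec. 2 is a function of the used data (`pvjd_D_sets`, `_cls`, `_X`, `_ok`, `_cyl`, `_nb`, `_wo`, `_syn`, `_yarc`, `_Y`);   `pvjd_norm`: the prescription may be taken := the actual colouring.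
* sec. 2  THE PLANE MAP OF A SITE SET `pvjdT Y`, `pvjdPos`, `pvjdCol Y σ b` (`σ : ℂ → Bool`): `pvxT ω = pvjdT (pvxY ω)` etc. BY `rfl`.   Everything below is a function of `(Y, σ)`, so `cfSites (cfOf Y σ) = Y` is a plain `rw`: no casts.
* sec. 3  THE INDEX `PvjdIx` (positions only), `pvjdEnc`;   **`pvjd_enc_iff`** : same index ⟺ same used data;   **`pvjd_enc_countable`**.
* sec. 4  LABEL-FREE `pvjdFz pvjdFzY pvjdYcl pvjdX` : functions of `(Y, i)` ONLY (no colour), with their evaluation at a datum.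
* sec. 5  THE `X` SIDE OF `PvdmSys` AT THE MODEL: `pvjdA pvjdWO pvjdFrz pvjdYf pvjdXc`, the `X`-side event `E` (= the version of `NB` + goodness chosen by the roof `n1`, 170) is a PARAMETER constrained by `PvjdEv`;
          fields **`cnt fin dis stab stabW`** of `PvdmSys.Hyp` / `PvdmSys.HypY` VERBATIM;   `pvjd_ev_nb`: the faced `NB` of record restricted to a patch satisfies `PvjdEv`.
* sec. 6  THE COLOUR BIT: a rim of colour `false` = a rim of colour `true` of the flipped sample; `pvhbUp` is invariant under the flip of the colours.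
* sec. 7  `pvxFit` ⟹ a normalised datum is present.
-/

set_option autoImplicit false
set_option linter.unusedSectionVars false
set_option linter.unusedVariables false

namespace Claimed.Agent.R289

open Set MeasureTheory Claims.C0465
open scoped ENNReal

/-! ## 1. same used data (any map) -/

section gen

variable {V D : Type} {T : PvMap V D}

/-- two paths with the same used data -/
def PvjdP (p q : T.Pth) : Prop := p.n = q.n ∧ (∀ k, k ≤ p.n → p.v k = q.v k) ∧ ∀ k, k < p.n → p.e k = q.e k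

/-- two states with the same gate data (the gate circuit up to its starting point) -/
structure PvjdG (𝔖 𝔖' : PvwSt T) : Prop where
  dsc : 𝔖.dsc = 𝔖'.dsc
  S : 𝔖.S.darts = 𝔖'.S.darts
  dp : 𝔖.dp = 𝔖'.dp
  dm : 𝔖.dm = 𝔖'.dm
  inn : PvjdP 𝔖.inn 𝔖'.inn
  ip : 𝔖.ip = 𝔖'.ip

/-- the same exit half state -/
structure PvjdOut (𝔖 𝔖' : PvwSt T) : Prop where
  g : PvjdG 𝔖 𝔖'
  np : 𝔖.np = 𝔖'.np
  ep : ∀ i, i ≤ 𝔖.np → 𝔖.ep i = 𝔖'.ep i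

/-- the same entrance half state -/
structure PvjdIn (𝔖 𝔖' : PvwSt T) : Prop where
  g : PvjdG 𝔖 𝔖'
  nm : 𝔖.nm = 𝔖'.nm
  em : ∀ i, i ≤ 𝔖.nm → 𝔖.em i = 𝔖'.em i

/-- **the same datum** `(Σ_in(s), Σ_out(t), g₀)`: nothing is said of `Σ⁺(s)`, `Σ⁻(t)`, of the prescription `col`, of the junk -/
structure PvjdD (𝔇 𝔇' : PvwDat T) : Prop where
  s : PvjdIn 𝔇.s 𝔇'.s
  t : PvjdOut 𝔇.t 𝔇'.t
  g : PvjdP 𝔇.g 𝔇'.g

theorem pvjd_P_refl (p : T.Pth) : PvjdP p p := ⟨rfl, fun _ _ => rfl, fun _ _ => rfl⟩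

theorem pvjd_P_symm {p q : T.Pth} (h : PvjdP p q) : PvjdP q p := by
  obtain ⟨h1, h2, h3⟩ := h
  exact ⟨h1.symm, fun k hk => (h2 k (h1 ▸ hk)).symm, fun k hk => (h3 k (h1 ▸ hk)).symm⟩

theorem pvjd_P_trans {p q r : T.Pth} (h : PvjdP p q) (h' : PvjdP q r) : PvjdP p r := by
  obtain ⟨h1, h2, h3⟩ := h
  obtain ⟨g1, g2, g3⟩ := h'
  exact ⟨h1.trans g1, fun k hk => (h2 k hk).trans (g2 k (h1 ▸ hk)), fun k hk => (h3 k hk).trans (g3 k (h1 ▸ hk))⟩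

theorem pvjd_P_sets {p q : T.Pth} (h : PvjdP p q) : p.verts = q.verts ∧ p.inner = q.inner ∧ p.darts = q.darts := by
  obtain ⟨h1, h2, h3⟩ := h
  refine ⟨?_, ?_, ?_⟩
  · ext x
    constructor
    · rintro ⟨i, hi, rfl⟩
      exact ⟨i, h1 ▸ hi, (h2 i hi).symm⟩
    · rintro ⟨i, hi, rfl⟩
      exact ⟨i, h1.symm ▸ hi, h2 i (h1.symm ▸ hi)⟩
  · ext x
    constructor
    · rintro ⟨i, h0, hi, rfl⟩
      exact ⟨i, h0, h1 ▸ hi, (h2 i hi.le).symm⟩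
    · rintro ⟨i, h0, hi, rfl⟩
      exact ⟨i, h0, h1.symm ▸ hi, h2 i (h1.symm ▸ hi).le⟩
  · ext x
    constructor
    · rintro ⟨i, hi, rfl⟩
      exact ⟨i, h1 ▸ hi, (h3 i hi).symm⟩
    · rintro ⟨i, hi, rfl⟩
      exact ⟨i, h1.symm ▸ hi, h3 i (h1.symm ▸ hi)⟩

theorem pvjd_D_refl (𝔇 : PvwDat T) : PvjdD 𝔇 𝔇 := by
  exact ⟨⟨⟨rfl, rfl, rfl, rfl, pvjd_P_refl _, rfl⟩, rfl, fun _ _ => rfl⟩, ⟨⟨rfl, rfl, rfl, rfl, pvjd_P_refl _, rfl⟩, rfl, fun _ _ => rfl⟩, pvjd_P_refl _⟩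

theorem pvjd_D_symm {𝔇 𝔇' : PvwDat T} (h : PvjdD 𝔇 𝔇') : PvjdD 𝔇' 𝔇 := by
  obtain ⟨⟨⟨a0, a1, a2, a3, a4, a5⟩, a6, a7⟩, ⟨⟨b0, b1, b2, b3, b4, b5⟩, b6, b7⟩, c⟩ := h
  exact ⟨⟨⟨a0.symm, a1.symm, a2.symm, a3.symm, pvjd_P_symm a4, a5.symm⟩, a6.symm, fun i hi => (a7 i (a6 ▸ hi)).symm⟩,
    ⟨⟨b0.symm, b1.symm, b2.symm, b3.symm, pvjd_P_symm b4, b5.symm⟩, b6.symm, fun i hi => (b7 i (b6 ▸ hi)).symm⟩, pvjd_P_symm c⟩

theorem pvjd_D_trans {𝔇 𝔇' 𝔇'' : PvwDat T} (h : PvjdD 𝔇 𝔇') (h' : PvjdD 𝔇' 𝔇'') : PvjdD 𝔇 𝔇'' := by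
  obtain ⟨⟨⟨a0, a1, a2, a3, a4, a5⟩, a6, a7⟩, ⟨⟨b0, b1, b2, b3, b4, b5⟩, b6, b7⟩, c⟩ := h
  obtain ⟨⟨⟨a0', a1', a2', a3', a4', a5'⟩, a6', a7'⟩, ⟨⟨b0', b1', b2', b3', b4', b5'⟩, b6', b7'⟩, c'⟩ := h'
  exact ⟨⟨⟨a0.trans a0', a1.trans a1', a2.trans a2', a3.trans a3', pvjd_P_trans a4 a4', a5.trans a5'⟩, a6.trans a6', fun i hi => (a7 i hi).trans (a7' i (a6 ▸ hi))⟩,
    ⟨⟨b0.trans b0', b1.trans b1', b2.trans b2', b3.trans b3', pvjd_P_trans b4 b4', b5.trans b5'⟩, b6.trans b6', fun i hi => (b7 i hi).trans (b7' i (b6 ▸ hi))⟩, pvjd_P_trans c c'⟩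

/-- a circuit is known, up to its starting point, from the set of its darts -/
theorem pvjd_cyc_of_darts (hT : T.IsSph) {c c' : T.Cyc} (h : c.darts = c'.darts) : c.Left = c'.Left ∧ c.verts = c'.verts := by
  constructor
  · have h1 : c'.e 0 ∈ c.Left := by
      have h2 : c'.e 0 ∈ c.darts := h ▸ (⟨0, rfl⟩ : c'.e 0 ∈ c'.darts)
      obtain ⟨i, hi⟩ := h2
      rw [← hi]
      exact (pl_jordan hT c).2.1 i
    have h3 := pl_djoin_class (show T.DJoin c.darts (c.e 0) (c'.e 0) from h1)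
    show {d | T.DJoin c.darts (c.e 0) d} = {d | T.DJoin c'.darts (c'.e 0) d}
    rw [← h3, h]
  · ext v
    constructor
    · rintro ⟨i, rfl⟩
      obtain ⟨j, hj⟩ : c.e i ∈ c'.darts := h ▸ (⟨i, rfl⟩ : c.e i ∈ c.darts)
      exact ⟨j, by rw [hj]⟩
    · rintro ⟨i, rfl⟩
      obtain ⟨j, hj⟩ : c'.e i ∈ c.darts := h ▸ (⟨i, rfl⟩ : c'.e i ∈ c'.darts)
      exact ⟨j, by rw [hj]⟩

theorem pvjd_G_sets (hT : T.IsSph) {𝔖 𝔖' : PvwSt T} (h : PvjdG 𝔖 𝔖') :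
    𝔖.S.Left = 𝔖'.S.Left ∧ 𝔖.S.verts = 𝔖'.S.verts ∧ 𝔖.core = 𝔖'.core ∧ 𝔖.gp = 𝔖'.gp ∧ 𝔖.gm = 𝔖'.gm := by
  obtain ⟨h1, h2⟩ := pvjd_cyc_of_darts hT h.S
  refine ⟨h1, h2, ?_, ?_, ?_⟩
  · exact h.dsc
  · unfold PvwSt.gp; rw [h.dp]
  · unfold PvwSt.gm; rw [h.dm]

theorem pvjd_G_ins (hT : T.IsSph) {𝔖 𝔖' : PvwSt T} (h : PvjdG 𝔖 𝔖') : 𝔖.ins = 𝔖'.ins := by
  unfold PvwSt.ins
  rw [(pvjd_G_sets hT h).1]

theorem pvjd_out_sets (hT : T.IsSph) {𝔖 𝔖' : PvwSt T} (h : PvjdOut 𝔖 𝔖') :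
    𝔖.bkP = 𝔖'.bkP ∧ 𝔖.whP = 𝔖'.whP ∧ 𝔖.fzOut = 𝔖'.fzOut ∧ 𝔖.ap = 𝔖'.ap ∧ ∀ pos : V → ℂ, 𝔖.xp pos = 𝔖'.xp pos := by
  have hc := (pvjd_G_sets hT h.g).2.2.1
  have h1 : 𝔖.bkP = 𝔖'.bkP := by
    ext v
    constructor
    · rintro ⟨i, hi, rfl⟩
      exact ⟨i, h.np ▸ hi, by rw [h.ep i hi]⟩
    · rintro ⟨i, hi, rfl⟩
      exact ⟨i, h.np ▸ hi, by rw [h.ep i (h.np ▸ hi)]⟩
  have h2 : 𝔖.whP = 𝔖'.whP := by
    ext v
    constructor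
    · rintro ⟨i, hi, rfl⟩
      exact ⟨i, h.np ▸ hi, by rw [h.ep i hi]⟩
    · rintro ⟨i, hi, rfl⟩
      exact ⟨i, h.np ▸ hi, by rw [h.ep i (h.np ▸ hi)]⟩
  have h3 : 𝔖.ep 𝔖.np = 𝔖'.ep 𝔖'.np := by rw [h.ep _ le_rfl, h.np]
  refine ⟨h1, h2, ?_, ?_, fun pos => ?_⟩
  · unfold PvwSt.fzOut; rw [hc, h1, h2]
  · unfold PvwSt.ap; rw [h3]
  · unfold PvwSt.xp PvwSt.mid; rw [h3]


theorem pvjd_in_sets (hT : T.IsSph) {𝔖 𝔖' : PvwSt T} (h : PvjdIn 𝔖 𝔖') :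
    𝔖.bkM = 𝔖'.bkM ∧ 𝔖.whM = 𝔖'.whM ∧ 𝔖.fzIn = 𝔖'.fzIn ∧ 𝔖.am = 𝔖'.am ∧ ∀ pos : V → ℂ, 𝔖.xm pos = 𝔖'.xm pos := by
  obtain ⟨hL, hv, hcore, hgp, hgm⟩ := pvjd_G_sets hT h.g
  have hnm := h.nm
  have hem := h.em
  have e1 : 𝔖.bkM = 𝔖'.bkM := by
    ext v
    constructor
    · rintro ⟨i, hi, rfl⟩
      exact ⟨i, hnm ▸ hi, by rw [hem i hi]⟩
    · rintro ⟨i, hi, rfl⟩
      exact ⟨i, hnm.symm ▸ hi, by rw [hem i (hnm.symm ▸ hi)]⟩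
  have e2 : 𝔖.whM = 𝔖'.whM := by
    ext v
    constructor
    · rintro ⟨i, hi, rfl⟩
      exact ⟨i, hnm ▸ hi, by rw [hem i hi]⟩
    · rintro ⟨i, hi, rfl⟩
      exact ⟨i, hnm.symm ▸ hi, by rw [hem i (hnm.symm ▸ hi)]⟩
  have e3 : 𝔖.em 𝔖.nm = 𝔖'.em 𝔖'.nm := by rw [hem _ le_rfl, hnm]
  refine ⟨e1, e2, ?_, ?_, fun pos => ?_⟩
  · unfold PvwSt.fzIn
    rw [hcore, e1, e2]
  · unfold PvwSt.am
    rw [e3]
  · unfold PvwSt.xm PvwSt.mid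
    rw [e3]

theorem pvjd_le_congr {b : ℕ → V} {n : ℕ} {y y' : T.Pth} (h : PvjdP y y') (hy : PvwLE T b n y) : PvwLE T b n y' := by
  obtain ⟨hn, hv, -⟩ := h
  obtain ⟨j, h0, h1, h2, h3⟩ := hy
  refine ⟨j, ?_, ?_, fun k hk => ?_, fun k hk => ?_⟩
  · rw [← hv 0 (Nat.zero_le _)]
    exact h0
  · rw [← hn]
    exact h1
  · rw [← hn] at hk
    rw [← hv k hk]
    exact h2 k hk
  · rw [← hn] at hk
    rw [← hv (k + 1) hk]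
    exact h3 k hk

theorem pvjd_gate (hT : T.IsSph) {𝔖 𝔖' : PvwSt T} (h : PvjdG 𝔖 𝔖') {pos : V → ℂ} {hh : ℝ} {z : ℂ} {τ : PvwTy} {s : V → Bool} (hg : 𝔖.Gate pos hh z τ s) :
    𝔖'.Gate pos hh z τ s := by
  obtain ⟨hL, hv, hcore, hgp, hgm⟩ := pvjd_G_sets hT h
  obtain ⟨n, hn1, hn2, hn3⟩ := hg.strand
  have hinn := h.inn
  have hins := pvjd_G_ins hT h
  refine ⟨hL ▸ hg.fin, h.dsc ▸ hg.dsc_eq, hcore ▸ hg.core_fin, fun v hv' => hg.ann v (hv ▸ hv'), fun v hv' => hins ▸ hg.round v hv', fun v hv' => hg.inside v (hins ▸ hv'), ?_, ?_, ?_, ?_, ?_, ?_,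
    fun v hv' hs => ?_, fun d hd hsd => ?_, ⟨n, ?_, fun i hi => ?_, ?_⟩, ?_, ?_, fun i hi => ?_⟩
  · rw [← h.dp, ← h.S]; exact hg.dp_on
  · rw [← h.dm, ← h.S]; exact hg.dm_on
  · rw [← h.dp]; exact hg.bw_p
  · rw [← h.dm]; exact hg.bw_m
  · rw [← hgp, ← hgm]; exact hg.ne
  · rw [← hgp, ← hgm]; exact hg.ori
  · rw [← hgp, ← hgm]; exact hg.two v (hv ▸ hv') hs
  · exact hg.left d (h.S ▸ hd) (hsd.trans hgp.symm)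
  · rw [← h.dm, ← h.dp]; exact hn1
  · rw [← h.dm, ← hL]; exact hn2 i hi
  · rw [← h.dm]; exact pvjd_le_congr hinn hn3
  · rw [← h.ip, ← hinn.1]; exact hg.ip_le
  · rw [← h.ip, ← hinn.2.1 _ hg.ip_le]; exact hg.ip_near
  · rw [← h.ip] at hi
    rw [← hinn.2.1 i (hi.le.trans hg.ip_le)]
    exact hg.ip_first i hi

theorem pvjd_inmost (hT : T.IsSph) {𝔖 𝔖' : PvwSt T} (h : PvjdG 𝔖 𝔖') {pos : V → ℂ} {hh : ℝ} {z : ℂ} {τ : PvwTy} {s : V → Bool} (hg : 𝔖.Inmost pos hh z τ s) :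
    𝔖'.Inmost pos hh z τ s := by
  obtain ⟨hL, -⟩ := pvjd_G_sets hT h
  unfold PvwSt.Inmost at hg ⊢
  rw [← hL]
  exact hg

theorem pvjd_atOut (hT : T.IsSph) {𝔖 𝔖' : PvwSt T} (h : PvjdOut 𝔖 𝔖') {pos : V → ℂ} {N : PvwNum} {hh : ℝ} {z : ℂ} {τ : PvwTy} {s : V → Bool}
    (ha : 𝔖.AtOut pos N hh z τ s) : 𝔖'.AtOut pos N hh z τ s := by
  obtain ⟨hL, -⟩ := pvjd_G_sets hT h.g
  obtain ⟨-, -, -, hap, hxp⟩ := pvjd_out_sets hT h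
  have hnp := h.np
  have hep := h.ep
  refine ⟨pvjd_gate hT h.g ha.gate, pvjd_inmost hT h.g ha.inmost, ⟨fun i hi => ?_, fun i hi => ?_, fun i hi => ?_, ?_⟩, ⟨?_, ?_, fun i hi => ?_⟩, ha.lev⟩
  · rw [← hnp] at hi
    rw [← hep i hi, ← h.g.dp]
    exact ha.stub.ep_it i hi
  · rw [← hnp] at hi
    rw [← hep i hi]
    exact ha.stub.ep_in i hi
  · rw [← hnp] at hi
    rw [← hep i hi.le]
    exact ha.stub.ep_ax i hi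
  · rw [← hap]
    exact ha.stub.ep_out
  · rw [← hnp, ← hep _ le_rfl]
    exact ha.good.tip_p
  · obtain ⟨i₀, h0, h1, h2⟩ := ha.good.late_p
    refine ⟨i₀, hnp ▸ h0, fun i hi hi' => ?_, fun i hi => ?_⟩
    · rw [← hnp] at hi'
      rw [← hep i hi']
      exact h1 i hi hi'
    · rw [← hep i (hi.le.trans h0)]
      exact h2 i hi
  · rw [← hnp] at hi
    rw [← hep i hi, ← hL]
    exact ha.good.off_p i hi

theorem pvjd_atIn (hT : T.IsSph) {𝔖 𝔖' : PvwSt T} (h : PvjdIn 𝔖 𝔖') {pos : V → ℂ} {N : PvwNum} {hh : ℝ} {z : ℂ} {τ : PvwTy} {s : V → Bool}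
    (ha : 𝔖.AtIn pos N hh z τ s) : 𝔖'.AtIn pos N hh z τ s := by
  obtain ⟨-, -, -, eam, exm⟩ := pvjd_in_sets hT h
  obtain ⟨eL, -, -, -, -⟩ := pvjd_G_sets hT h.g
  have hem : ∀ i, i ≤ 𝔖'.nm → 𝔖'.em i = 𝔖.em i := fun i hi => (h.em i (by rw [h.nm]; exact hi)).symm
  refine ⟨pvjd_gate hT h.g ha.gate, pvjd_inmost hT h.g ha.inmost, ⟨?_, ?_, ?_, ?_⟩, ⟨?_, ?_, ?_⟩, ha.lev⟩
  · intro i hi
    rw [hem i hi, ← h.g.dm]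
    exact ha.stub.em_it i (by rw [h.nm]; exact hi)
  · intro i hi
    rw [hem i hi]
    exact ha.stub.em_in i (by rw [h.nm]; exact hi)
  · intro i hi
    rw [hem i hi.le]
    exact ha.stub.em_ax i (by rw [h.nm]; exact hi)
  · rw [← eam]
    exact ha.stub.em_out
  · rw [hem _ le_rfl, ← h.nm]
    exact ha.good.tip_m
  · obtain ⟨i₀, h0, h1, h2⟩ := ha.good.late_m
    refine ⟨i₀, by rw [← h.nm]; exact h0, fun i hi hi' => ?_, fun i hi => ?_⟩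
    · rw [hem i hi']
      exact h1 i hi (by rw [h.nm]; exact hi')
    · rw [hem i (by rw [← h.nm]; omega)]
      exact h2 i hi
  · intro i hi
    rw [hem i hi, ← eL]
    exact ha.good.off_m i (by rw [h.nm]; exact hi)

/-- the frozen sets are functions of the used data -/
theorem pvjd_D_sets (hT : T.IsSph) {𝔇 𝔇' : PvwDat T} (h : PvjdD 𝔇 𝔇') :
    𝔇.fzY = 𝔇'.fzY ∧ 𝔇.g.verts = 𝔇'.g.verts ∧ 𝔇.apx = 𝔇'.apx ∧ 𝔇.fz = 𝔇'.fz := by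
  have h1 := (pvjd_out_sets hT h.t).2.2.1
  have h2 := (pvjd_in_sets hT h.s).2.2.1
  have h3 := (pvjd_P_sets h.g).1
  have e1 : 𝔇.fzY = 𝔇'.fzY := by
    unfold PvwDat.fzY
    rw [h1, h2]
  have e3 : 𝔇.apx = 𝔇'.apx := by
    unfold PvwDat.apx
    ext v
    constructor
    · rintro ⟨i, hi, rfl⟩
      exact ⟨i, h.g.1 ▸ hi, by rw [h.g.2.2 i hi]⟩
    · rintro ⟨i, hi, rfl⟩
      have hi' : i < 𝔇.g.n := h.g.1.symm ▸ hi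
      exact ⟨i, hi', by rw [h.g.2.2 i hi']⟩
  refine ⟨e1, h3, e3, ?_⟩
  unfold PvwDat.fz
  rw [e1, h3, e3]

theorem pvjd_D_anc {𝔇 𝔇' : PvwDat T} (h : PvjdD 𝔇 𝔇') (h0 : 0 < 𝔇.s.inn.n) : 𝔇.anc = 𝔇'.anc := by
  unfold PvwDat.anc
  rw [← h.s.g.inn.1, h.s.g.inn.2.2 _ (by omega)]

/-- the set `NU` read by `NB` is a function of the used data -/
theorem pvjd_D_nu (hT : T.IsSph) {𝔇 𝔇' : PvwDat T} (h : PvjdD 𝔇 𝔇') (pos : V → ℂ) (π : PvwPat) : 𝔇.NU pos π = 𝔇'.NU pos π := by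
  obtain ⟨e1, -, -, -⟩ := pvjd_D_sets hT h
  have a1 := (pvjd_out_sets hT h.t).2.2.2.1
  have a2 := (pvjd_in_sets hT h.s).2.2.2.1
  unfold PvwDat.NU PvwDat.YC0 PvwDat.Yr0 PvwDat.Yraw
  rw [e1, a1, a2]

/-- the classes are functions of the used data -/
theorem pvjd_D_cls (hT : T.IsSph) {𝔇 𝔇' : PvwDat T} (h : PvjdD 𝔇 𝔇') (pos : V → ℂ) (π : PvwPat) :
    𝔇.Yraw pos π = 𝔇'.Yraw pos π ∧ 𝔇.YCL pos π = 𝔇'.YCL pos π ∧ 𝔇.XCL pos π = 𝔇'.XCL pos π ∧ 𝔇.Lam pos π = 𝔇'.Lam pos π := by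
  obtain ⟨e1, -, -, e4⟩ := pvjd_D_sets hT h
  have a1 := (pvjd_out_sets hT h.t).2.2.2.1
  have a2 := (pvjd_in_sets hT h.s).2.2.2.1
  have r1 : 𝔇.Yraw pos π = 𝔇'.Yraw pos π := by
    unfold PvwDat.Yraw
    rw [e1]
  have r2 : 𝔇.YCL pos π = 𝔇'.YCL pos π := by
    unfold PvwDat.YCL
    rw [r1, a1, a2]
  refine ⟨r1, r2, ?_, ?_⟩
  · unfold PvwDat.XCL
    rw [e4, r2]
  · unfold PvwDat.Lam
    rw [pvjd_D_nu hT h pos π]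

theorem pvjd_mass {p q : T.Pth} (h : PvjdP p q) (pos : V → ℂ) (w : D → ℂ) (K : Set ℂ) {i j : ℕ} (hj : j ≤ p.n) : pvwMass T pos w K p i j = pvwMass T pos w K q i j := by
  unfold pvwMass
  refine Finset.sum_congr rfl fun k hk => ?_
  rw [h.2.2 k (lt_of_lt_of_le (Finset.mem_Ico.1 hk).2 hj)]

theorem pvjd_D_X {𝔇 𝔇' : PvwDat T} (h : PvjdD 𝔇 𝔇') (hip : 𝔇.t.ip ≤ 𝔇.t.inn.n) (pos : V → ℂ) (w : D → ℂ) (N : PvwNum) (hh : ℝ) (π : PvwPat) :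
    𝔇.X pos w N hh π = 𝔇'.X pos w N hh π := by
  unfold PvwDat.X
  rw [pvjd_mass h.s.g.inn pos w _ le_rfl, pvjd_mass h.s.g.inn pos w _ le_rfl, pvjd_mass h.g pos w _ le_rfl, pvjd_mass h.t.g.inn pos w _ hip,
    h.s.g.inn.1, h.s.g.ip, h.g.1, h.t.g.ip]

theorem pvjd_D_cyl (hT : T.IsSph) {𝔇 𝔇' : PvwDat T} (h : PvjdD 𝔇 𝔇') (hc : PvwAgree 𝔇.fzY 𝔇.col 𝔇'.col) : 𝔇.Cyl = 𝔇'.Cyl := by
  obtain ⟨e1, e2, e3, -⟩ := pvjd_D_sets hT h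
  ext σ
  show (PvwAgree 𝔇.fzY σ 𝔇.col ∧ (∀ v ∈ 𝔇.g.verts, σ v = true) ∧ ∀ v ∈ 𝔇.apx, σ v = false) ↔
    (PvwAgree 𝔇'.fzY σ 𝔇'.col ∧ (∀ v ∈ 𝔇'.g.verts, σ v = true) ∧ ∀ v ∈ 𝔇'.apx, σ v = false)
  rw [← e1, ← e2, ← e3]
  exact and_congr_left fun _ => ⟨fun h1 v hv => (h1 v hv).trans (hc v hv), fun h1 v hv => (h1 v hv).trans (hc v hv).symm⟩

theorem pvjd_D_ok (hT : T.IsSph) {𝔇 𝔇' : PvwDat T} (h : PvjdD 𝔇 𝔇') (hc : PvwAgree 𝔇.fzY 𝔇.col 𝔇'.col) {pos : V → ℂ} {N : PvwNum} {hh : ℝ} {π : PvwPat}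
    (hOk : 𝔇.Ok pos N hh π) : 𝔇'.Ok pos N hh π := by
  obtain ⟨e1, e2, e3, e4⟩ := pvjd_D_sets hT h
  obtain ⟨c1, c2, c3, c4⟩ := pvjd_D_cls hT h pos π
  obtain ⟨i1, i2, i3, i4, i5⟩ := pvjd_in_sets hT h.s
  obtain ⟨o1, o2, o3, o4, o5⟩ := pvjd_out_sets hT h.t
  obtain ⟨gs1, gs2, gs3, gs4, gs5⟩ := pvjd_G_sets hT h.s.g
  obtain ⟨gt1, gt2, gt3, gt4, gt5⟩ := pvjd_G_sets hT h.t.g
  obtain ⟨p1, p2, p3⟩ := pvjd_P_sets h.g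
  obtain ⟨n1, n2, n3⟩ := h.g
  refine ⟨?_, ?_, ?_, ?_, ?_, ?_, ?_, ?_, ?_, ?_, ?_, ?_, ?_, ?_, ?_, ?_⟩
  · exact pvjd_atIn hT h.s (pvwk_atIn_congr hT hOk.st_s fun v hv => hc v (Or.inr hv))
  · exact pvjd_atOut hT h.t (pvwk_atOut_congr hT hOk.st_t fun v hv => hc v (Or.inl hv))
  · rw [← h.s.nm, ← h.s.em _ le_rfl]; exact hOk.tip_s
  · rw [← h.t.np, ← h.t.ep _ le_rfl]; exact hOk.tip_t
  · rw [← n2 0 (Nat.zero_le _), ← gs4]; exact hOk.g0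
  · rw [← n1, ← n2 _ le_rfl, ← gt5]; exact hOk.g1
  · rw [← n1]; exact hOk.pos_n
  · rw [← p2, ← pvjd_G_ins hT h.s.g, ← pvjd_G_ins hT h.t.g]; exact hOk.out
  · rw [← p1]; exact hOk.off
  · rw [← p1, ← o1, ← o2, ← i1, ← i2]; exact hOk.disj
  · rw [← p1, ← e3, ← pvjd_D_nu hT h pos π]; exact hOk.off_y
  · rw [← o4, ← i4, ← e1]; exact hOk.tip_f
  · rw [← p1, ← e1]; exact fun v hv hf => (hc v hf).symm.trans (hOk.cons_b v hv hf)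
  · rw [← e3, ← e1]; exact fun v hv hf => (hc v hf).symm.trans (hOk.cons_w v hv hf)
  · rw [← e3, ← p1]; exact hOk.cons_a
  · rw [← gs3, ← gt3]; exact hOk.core_off

theorem pvjd_N {g g' : T.Pth} (h : PvjdP g g') (s : V → Bool) (U 𝔄 : Set V) : pvtaN g s U 𝔄 ↔ pvtaN g' s U 𝔄 := by
  have hv := (pvjd_P_sets h).1
  unfold pvtaN PvMap.Pth.rap
  rw [← hv, ← h.1]
  refine forall₂_congr fun k hk => ?_
  rw [h.2.2 k hk]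

theorem pvjd_D_nb (hT : T.IsSph) {𝔇 𝔇' : PvwDat T} (h : PvjdD 𝔇 𝔇') (h0 : 0 < 𝔇.s.inn.n) (pos : V → ℂ) (π : PvwPat) (σ : V → Bool) : 𝔇.NB pos π σ ↔ 𝔇'.NB pos π σ := by
  obtain ⟨-, -, -, e4⟩ := pvjd_D_cls hT h pos π
  unfold PvwDat.NB
  rw [← pvjd_D_nu hT h pos π, ← e4, ← pvjd_D_anc h h0]
  exact pvjd_N h.g σ _ _

theorem pvjd_D_wo (hT : T.IsSph) {𝔇 𝔇' : PvwDat T} (h : PvjdD 𝔇 𝔇') (pos : V → ℂ) (π : PvwPat) (σ : V → Bool) : 𝔇.WO pos π σ ↔ 𝔇'.WO pos π σ := by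
  obtain ⟨-, -, e3, -⟩ := pvjd_D_cls hT h pos π
  have a1 := (pvjd_out_sets hT h.t).2.1
  have a2 := (pvjd_in_sets hT h.s).2.1
  unfold PvwDat.WO
  rw [← e3, ← a1, ← a2]

theorem pvjd_D_syn (hT : T.IsSph) {𝔇 𝔇' : PvwDat T} (h : PvjdD 𝔇 𝔇') (pos : V → ℂ) (π : PvwPat) (σ : V → Bool) (n : ℕ) : 𝔇.SYn pos π σ n ↔ 𝔇'.SYn pos π σ n := by
  obtain ⟨-, e2, -, -⟩ := pvjd_D_cls hT h pos π
  obtain ⟨e1, -, -, -⟩ := pvjd_D_sets hT h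
  unfold PvwDat.SYn
  rw [← e2, ← e1, ← h.t.np, ← h.s.nm, ← h.t.g.dp, ← h.s.g.dm]

theorem pvjd_D_yarc (hT : T.IsSph) {𝔇 𝔇' : PvwDat T} (h : PvjdD 𝔇 𝔇') (pos : V → ℂ) (π : PvwPat) (σ : V → Bool) (y : T.Pth) : 𝔇.YArc pos π σ y ↔ 𝔇'.YArc pos π σ y := by
  unfold PvwDat.YArc
  rw [h.t.g.dp]
  exact exists_congr fun n => and_congr (pvjd_D_syn hT h pos π σ n) Iff.rfl

theorem pvjd_D_Y (hT : T.IsSph) {𝔇 𝔇' : PvwDat T} (h : PvjdD 𝔇 𝔇') (hip : 𝔇.s.ip ≤ 𝔇.s.inn.n) (pos : V → ℂ) (w : D → ℂ) (N : PvwNum) (hh : ℝ) (π : PvwPat) (σ : V → Bool) :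
    𝔇.Y pos w N hh π σ = 𝔇'.Y pos w N hh π σ := by
  classical
  have hA : 𝔇.YArc pos π σ = 𝔇'.YArc pos π σ := funext fun y => propext (pvjd_D_yarc hT h pos π σ y)
  have hY : 𝔇.Yof pos w N hh π = 𝔇'.Yof pos w N hh π := by
    funext y
    unfold PvwDat.Yof
    rw [pvjd_mass h.t.g.inn pos w _ le_rfl, pvjd_mass h.t.g.inn pos w _ le_rfl, pvjd_mass h.s.g.inn pos w _ hip, h.t.g.inn.1, h.t.g.ip, h.s.g.ip]
  have key : ∀ (P Q : T.Pth → Prop) (f : T.Pth → ℂ), P = Q →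
      (if hy : ∃ y, P y then f hy.choose else 0) = (if hy : ∃ y, Q y then f hy.choose else 0) := by
    rintro P _ f rfl
    rfl
  unfold PvwDat.Y
  rw [← hY]
  exact key _ _ _ hA

/-- the datum with the prescription replaced by `σ` -/
def PvwDat.reCol (𝔇 : PvwDat T) (σ : V → Bool) : PvwDat T := { 𝔇 with col := σ }

theorem pvjd_reCol (𝔇 : PvwDat T) (σ : V → Bool) : PvjdD 𝔇 (𝔇.reCol σ) := by
  exact ⟨(pvjd_D_refl 𝔇).s, (pvjd_D_refl 𝔇).t, (pvjd_D_refl 𝔇).g⟩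

/-- **NORMALISATION**: on the cylinder the prescription may be taken := the actual colouring -/
theorem pvjd_norm (hT : T.IsSph) {𝔇 : PvwDat T} {pos : V → ℂ} {N : PvwNum} {hh : ℝ} {π : PvwPat} {σ : V → Bool} (hOk : 𝔇.Ok pos N hh π) (hσ : σ ∈ 𝔇.Cyl) :
    (𝔇.reCol σ).Ok pos N hh π ∧ σ ∈ (𝔇.reCol σ).Cyl := by
  have hc : PvwAgree 𝔇.fzY 𝔇.col (𝔇.reCol σ).col := fun v hv => (hσ.1 v hv).symm
  refine ⟨pvjd_D_ok hT (pvjd_reCol 𝔇 σ) hc hOk, ?_⟩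
  rw [← pvjd_D_cyl hT (pvjd_reCol 𝔇 σ) hc]
  exact hσ

end gen

theorem pvjd_eqns_cite1 : True := by
  have := @PvjdP.eq_1; have := @PvwDat.reCol.eq_1
  trivial

/-! ## 2. the plane map of a site set -/

/-- the Delaunay triangulation of the plane with the sites `Y` -/
noncomputable def pvjdT (Y : Set ℂ) : PvMap ↥Y (delbPl Y).Dart := (delbPl Y).toMap

/-- positions -/
def pvjdPos (Y : Set ℂ) : ↥Y → ℂ := Subtype.val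

/-- the colouring `σ : ℂ → Bool` seen by a rim of colour `b` -/
def pvjdCol (Y : Set ℂ) (σ : ℂ → Bool) (b : Bool) : ↥Y → Bool := fun v => σ v.1 == b

theorem pvjd_T_eq (ω : PVSample) : pvxT ω = pvjdT (pvxY ω) := rfl

theorem pvjd_pos_eq (ω : PVSample) : pvxPos ω = pvjdPos (pvxY ω) := rfl

theorem pvjd_col_eq (ω : PVSample) (b : Bool) : pvxCol ω b = pvjdCol (pvxY ω) (cfCol (pvConf ω)) b := rfl

theorem pvjd_col_true (Y : Set ℂ) (σ : ℂ → Bool) (v : ↥Y) : pvjdCol Y σ true v = σ v.1 := by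
  simp [pvjdCol]

theorem pvjd_col_congr {Y : Set ℂ} {σ σ' : ℂ → Bool} (h : ∀ z ∈ Y, σ z = σ' z) (b : Bool) : pvjdCol Y σ b = pvjdCol Y σ' b := by
  funext v
  simp [pvjdCol, h v.1 v.2]

theorem pvjd_simple (Y : Set ℂ) : (pvjdT Y).Simple := (delbPl Y).toMap_simple

theorem pvjd_isSph {Y : Set ℂ} (h : DelGood Y) : (pvjdT Y).IsSph := delb_plane_isSph h

/-- a dart as a pair of positions -/
noncomputable def pvjdE {Y : Set ℂ} (d : (delbPl Y).Dart) : ℂ × ℂ := (((pvjdT Y).src d).1, ((pvjdT Y).tgt d).1)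

theorem pvjd_E_inj (Y : Set ℂ) : Function.Injective (pvjdE (Y := Y)) := by
  intro d d' h
  have h1 : ((pvjdT Y).src d).1 = ((pvjdT Y).src d').1 := congrArg Prod.fst h
  have h2 : ((pvjdT Y).tgt d).1 = ((pvjdT Y).tgt d').1 := congrArg Prod.snd h
  exact pvjd_simple Y d d' (Subtype.ext h1) (Subtype.ext h2)

/-! ## 3. the index -/

/-- a half state, positions only: darts of the gate, gate edges, inner arc, marked vertex, positions of the stub -/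
structure PvjdHf where
  dsc : Set ℂ
  S : Set (ℂ × ℂ)
  dp : ℂ × ℂ
  dm : ℂ × ℂ
  inn : List ℂ
  ip : ℕ
  st : List (ℂ × ℂ)

/-- **THE INDEX OF A DATUM**, positions only -/
structure PvjdIx where
  s : PvjdHf
  t : PvjdHf
  g : List ℂ

section enc

variable {Y : Set ℂ}

/-- the positions of the vertices of a path -/
def pvjdPe (p : (pvjdT Y).Pth) : List ℂ := (List.range (p.n + 1)).map fun k => (p.v k).1

/-- the positions `0..n` of a stub -/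
noncomputable def pvjdSe (n : ℕ) (e : ℕ → (delbPl Y).Dart) : List (ℂ × ℂ) := (List.range (n + 1)).map fun k => pvjdE (e k)

/-- the exit half state, positions only -/
noncomputable def pvjdOutE (𝔖 : PvwSt (pvjdT Y)) : PvjdHf := ⟨Subtype.val '' 𝔖.dsc, pvjdE '' 𝔖.S.darts, pvjdE 𝔖.dp, pvjdE 𝔖.dm, pvjdPe 𝔖.inn, 𝔖.ip, pvjdSe 𝔖.np 𝔖.ep⟩

/-- the entrance half state, positions only -/
noncomputable def pvjdInE (𝔖 : PvwSt (pvjdT Y)) : PvjdHf := ⟨Subtype.val '' 𝔖.dsc, pvjdE '' 𝔖.S.darts, pvjdE 𝔖.dp, pvjdE 𝔖.dm, pvjdPe 𝔖.inn, 𝔖.ip, pvjdSe 𝔖.nm 𝔖.em⟩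

/-- **the index of a datum** -/
noncomputable def pvjdEnc (𝔇 : PvwDat (pvjdT Y)) : PvjdIx := ⟨pvjdInE 𝔇.s, pvjdOutE 𝔇.t, pvjdPe 𝔇.g⟩

theorem pvjd_range_map_iff {α : Type} (n n' : ℕ) (f f' : ℕ → α) :
    (List.range (n + 1)).map f = (List.range (n' + 1)).map f' ↔ n = n' ∧ ∀ i, i ≤ n → f i = f' i := by
  constructor
  · intro h
    have hl := congrArg List.length h
    simp only [List.length_map, List.length_range] at hl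
    have hn : n = n' := by omega
    subst hn
    refine ⟨rfl, fun i hi => ?_⟩
    have := List.map_inj_left.1 h i (List.mem_range.2 (by omega))
    exact this
  · rintro ⟨rfl, h⟩
    exact List.map_congr_left fun i hi => h i (by have := List.mem_range.1 hi; omega)

theorem pvjd_Pe_iff (p q : (pvjdT Y).Pth) : pvjdPe p = pvjdPe q ↔ PvjdP p q := by
  unfold pvjdPe
  rw [pvjd_range_map_iff]
  constructor
  · rintro ⟨h1, h2⟩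
    have hv : ∀ k, k ≤ p.n → p.v k = q.v k := fun k hk => Subtype.ext (h2 k hk)
    refine ⟨h1, hv, fun k hk => ?_⟩
    refine pvjd_simple Y _ _ ?_ ?_
    · rw [p.src_e k hk, q.src_e k (h1 ▸ hk)]
      exact hv k hk.le
    · rw [p.tgt_e k hk, q.tgt_e k (h1 ▸ hk)]
      exact hv (k + 1) hk
  · rintro ⟨h1, h2, -⟩
    exact ⟨h1, fun i hi => congrArg Subtype.val (h2 i hi)⟩

theorem pvjd_Se_iff (n n' : ℕ) (e e' : ℕ → (delbPl Y).Dart) : pvjdSe n e = pvjdSe n' e' ↔ n = n' ∧ ∀ i, i ≤ n → e i = e' i := by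
  unfold pvjdSe
  rw [pvjd_range_map_iff]
  exact and_congr_right fun _ => forall₂_congr fun i _ => (pvjd_E_inj Y).eq_iff

theorem pvjd_outE_iff (𝔖 𝔖' : PvwSt (pvjdT Y)) : pvjdOutE 𝔖 = pvjdOutE 𝔖' ↔ PvjdOut 𝔖 𝔖' := by
  have hE := pvjd_E_inj Y
  unfold pvjdOutE
  rw [PvjdHf.mk.injEq, (Set.image_injective.mpr Subtype.val_injective).eq_iff, (Set.image_injective.mpr hE).eq_iff, hE.eq_iff, hE.eq_iff, pvjd_Pe_iff, pvjd_Se_iff]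
  constructor
  · rintro ⟨h0, h1, h2, h3, h4, h5, h6, h7⟩
    exact ⟨⟨h0, h1, h2, h3, h4, h5⟩, h6, h7⟩
  · rintro ⟨⟨h0, h1, h2, h3, h4, h5⟩, h6, h7⟩
    exact ⟨h0, h1, h2, h3, h4, h5, h6, h7⟩

theorem pvjd_inE_iff (𝔖 𝔖' : PvwSt (pvjdT Y)) : pvjdInE 𝔖 = pvjdInE 𝔖' ↔ PvjdIn 𝔖 𝔖' := by
  have hE := pvjd_E_inj Y
  unfold pvjdInE
  rw [PvjdHf.mk.injEq, (Set.image_injective.mpr Subtype.val_injective).eq_iff, (Set.image_injective.mpr hE).eq_iff, hE.eq_iff, hE.eq_iff, pvjd_Pe_iff, pvjd_Se_iff]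
  constructor
  · rintro ⟨h0, h1, h2, h3, h4, h5, h6, h7⟩
    exact ⟨⟨h0, h1, h2, h3, h4, h5⟩, h6, h7⟩
  · rintro ⟨⟨h0, h1, h2, h3, h4, h5⟩, h6, h7⟩
    exact ⟨h0, h1, h2, h3, h4, h5, h6, h7⟩

/-- **same index ⟺ same used data** -/
theorem pvjd_enc_iff (𝔇 𝔇' : PvwDat (pvjdT Y)) : pvjdEnc 𝔇 = pvjdEnc 𝔇' ↔ PvjdD 𝔇 𝔇' := by
  unfold pvjdEnc
  rw [PvjdIx.mk.injEq, pvjd_inE_iff, pvjd_outE_iff, pvjd_Pe_iff]
  constructor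
  · rintro ⟨h1, h2, h3⟩
    exact ⟨h1, h2, h3⟩
  · rintro ⟨h1, h2, h3⟩
    exact ⟨h1, h2, h3⟩

theorem pvjd_list_countable {α : Type} {A : Set α} (hA : A.Countable) : {l : List α | ∀ z ∈ l, z ∈ A}.Countable := by
  have : Countable ↥A := hA.to_subtype
  refine (Set.countable_range (fun l : List ↥A => l.map Subtype.val)).mono ?_
  intro l hl
  refine ⟨l.attach.map fun z => ⟨z.1, hl z.1 z.2⟩, ?_⟩
  simp [List.map_map, Function.comp_def]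

theorem pvjd_E_mem (d : (delbPl Y).Dart) : pvjdE d ∈ Y ×ˢ Y := ⟨((pvjdT Y).src d).2, ((pvjdT Y).tgt d).2⟩

/-- the half states with all their entries in `Y` -/
def pvjdHfIn (Y : Set ℂ) : Set PvjdHf :=
  {x | (x.dsc.Finite ∧ x.dsc ⊆ Y) ∧ (x.S.Finite ∧ x.S ⊆ Y ×ˢ Y) ∧ x.dp ∈ Y ×ˢ Y ∧ x.dm ∈ Y ×ˢ Y ∧ (∀ z ∈ x.inn, z ∈ Y) ∧ ∀ z ∈ x.st, z ∈ Y ×ˢ Y}

theorem pvjd_hfIn_countable (hY : Y.Countable) : (pvjdHfIn Y).Countable := by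
  have hYY : (Y ×ˢ Y).Countable := hY.prod hY
  have h1 : {t : Set (ℂ × ℂ) | t.Finite ∧ t ⊆ Y ×ˢ Y}.Countable := Set.countable_ofPred_finite_subset hYY
  have h2 := pvjd_list_countable hY
  have h3 := pvjd_list_countable hYY
  have h0 : {t : Set ℂ | t.Finite ∧ t ⊆ Y}.Countable := Set.countable_ofPred_finite_subset hY
  have hc := (h0.prod (h1.prod (hYY.prod (hYY.prod (h2.prod ((Set.countable_univ (α := ℕ)).prod h3))))))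
  refine (hc.image fun p => (⟨p.1, p.2.1, p.2.2.1, p.2.2.2.1, p.2.2.2.2.1, p.2.2.2.2.2.1, p.2.2.2.2.2.2⟩ : PvjdHf)).mono ?_
  rintro ⟨a0, a1, a2, a3, a4, a5, a6⟩ ⟨b0, b1, b2, b3, b4, b5⟩
  exact ⟨(a0, a1, a2, a3, a4, a5, a6), ⟨b0, b1, b2, b3, b4, mem_univ _, b5⟩, rfl⟩

theorem pvjd_Pe_mem (p : (pvjdT Y).Pth) : ∀ z ∈ pvjdPe p, z ∈ Y := by
  intro z hz
  unfold pvjdPe at hz
  obtain ⟨k, -, rfl⟩ := List.mem_map.1 hz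
  exact (p.v k).2

theorem pvjd_Se_mem (n : ℕ) (e : ℕ → (delbPl Y).Dart) : ∀ z ∈ pvjdSe n e, z ∈ Y ×ˢ Y := by
  intro z hz
  unfold pvjdSe at hz
  obtain ⟨k, -, rfl⟩ := List.mem_map.1 hz
  exact pvjd_E_mem _

theorem pvjd_S_mem (c : (pvjdT Y).Cyc) : (pvjdE '' c.darts).Finite ∧ pvjdE '' c.darts ⊆ Y ×ˢ Y :=
  ⟨(pl_cyc_darts_finite c).image _, by rintro _ ⟨d, -, rfl⟩; exact pvjd_E_mem d⟩

theorem pvjd_dsc_mem {A : Set ↥Y} (hA : A.Finite) : (Subtype.val '' A).Finite ∧ Subtype.val '' A ⊆ Y :=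
  ⟨hA.image _, by rintro _ ⟨v, -, rfl⟩; exact v.2⟩

/-- **countably many indices at a fixed geometry** (data with FINITE cores: `Gate.core_fin`) -/
theorem pvjd_enc_countable (hY : Y.Countable) : {i | ∃ 𝔇 : PvwDat (pvjdT Y), pvjdEnc 𝔇 = i ∧ 𝔇.s.core.Finite ∧ 𝔇.t.core.Finite}.Countable := by
  have h1 := pvjd_hfIn_countable hY
  have h2 := pvjd_list_countable hY
  refine ((h1.prod (h1.prod h2)).image fun p => (⟨p.1, p.2.1, p.2.2⟩ : PvjdIx)).mono ?_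
  rintro _ ⟨𝔇, rfl, fs, ft⟩
  refine ⟨(pvjdInE 𝔇.s, pvjdOutE 𝔇.t, pvjdPe 𝔇.g), ⟨?_, ?_, pvjd_Pe_mem _⟩, rfl⟩
  · exact ⟨pvjd_dsc_mem fs, pvjd_S_mem _, pvjd_E_mem _, pvjd_E_mem _, pvjd_Pe_mem _, pvjd_Se_mem _ _⟩
  · exact ⟨pvjd_dsc_mem ft, pvjd_S_mem _, pvjd_E_mem _, pvjd_E_mem _, pvjd_Pe_mem _, pvjd_Se_mem _ _⟩

end enc

/-! ## 4. label-free sets and sums: functions of `(Y, i)` only -/

/-- the weight `q - a v` of a dart -/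
noncomputable def pvjdW (a : ℂ) (Y : Set ℂ) (d : (delbPl Y).Dart) : ℂ := (pvjdT Y).qpart (pvjdPos Y) d - a * (pvjdT Y).side (pvjdPos Y) d

/-- the positions of the frozen sites of the datum of index `i` -/
def pvjdFz (Y : Set ℂ) (i : PvjdIx) : Set ℂ := {z | ∃ 𝔇 : PvwDat (pvjdT Y), pvjdEnc 𝔇 = i ∧ ∃ v ∈ 𝔇.fz, v.1 = z}

/-- the positions of the sites frozen by `D_Y` -/
def pvjdFzY (Y : Set ℂ) (i : PvjdIx) : Set ℂ := {z | ∃ 𝔇 : PvwDat (pvjdT Y), pvjdEnc 𝔇 = i ∧ ∃ v ∈ 𝔇.fzY, v.1 = z}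

/-- the positions of the sites of `YCL` -/
def pvjdYcl (π : PvwPat) (Y : Set ℂ) (i : PvjdIx) : Set ℂ := {z | ∃ 𝔇 : PvwDat (pvjdT Y), pvjdEnc 𝔇 = i ∧ ∃ v ∈ 𝔇.YCL (pvjdPos Y) π, v.1 = z}

open Classical in
/-- `X(D)` for the weight `q - a v` -/
noncomputable def pvjdX (N : PvwNum) (hh : ℝ) (π : PvwPat) (a : ℂ) (Y : Set ℂ) (i : PvjdIx) : ℂ :=
  if h : ∃ 𝔇 : PvwDat (pvjdT Y), pvjdEnc 𝔇 = i then h.choose.X (pvjdPos Y) (pvjdW a Y) N hh π else 0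

section eval

variable {Y : Set ℂ}

theorem pvjd_fz_eq (hY : DelGood Y) (𝔇 : PvwDat (pvjdT Y)) : pvjdFz Y (pvjdEnc 𝔇) = Subtype.val '' 𝔇.fz := by
  ext z
  constructor
  · rintro ⟨𝔇', he, v, hv, rfl⟩
    exact ⟨v, (pvjd_D_sets (pvjd_isSph hY) ((pvjd_enc_iff 𝔇' 𝔇).1 he)).2.2.2 ▸ hv, rfl⟩
  · rintro ⟨v, hv, rfl⟩
    exact ⟨𝔇, rfl, v, hv, rfl⟩

theorem pvjd_fzY_eq (hY : DelGood Y) (𝔇 : PvwDat (pvjdT Y)) : pvjdFzY Y (pvjdEnc 𝔇) = Subtype.val '' 𝔇.fzY := by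
  ext z
  constructor
  · rintro ⟨𝔇', he, v, hv, rfl⟩
    exact ⟨v, (pvjd_D_sets (pvjd_isSph hY) ((pvjd_enc_iff 𝔇' 𝔇).1 he)).1 ▸ hv, rfl⟩
  · rintro ⟨v, hv, rfl⟩
    exact ⟨𝔇, rfl, v, hv, rfl⟩

theorem pvjd_ycl_eq (hY : DelGood Y) (π : PvwPat) (𝔇 : PvwDat (pvjdT Y)) : pvjdYcl π Y (pvjdEnc 𝔇) = Subtype.val '' 𝔇.YCL (pvjdPos Y) π := by
  ext z
  constructor
  · rintro ⟨𝔇', he, v, hv, rfl⟩
    rw [(pvjd_D_cls (pvjd_isSph hY) ((pvjd_enc_iff 𝔇' 𝔇).1 he) (pvjdPos Y) π).2.1] at hv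
    exact ⟨v, hv, rfl⟩
  · rintro ⟨v, hv, rfl⟩
    exact ⟨𝔇, rfl, v, hv, rfl⟩

theorem pvjd_X_eq (N : PvwNum) (hh : ℝ) (π : PvwPat) (a : ℂ) (𝔇 : PvwDat (pvjdT Y)) (hip : 𝔇.t.ip ≤ 𝔇.t.inn.n) :
    pvjdX N hh π a Y (pvjdEnc 𝔇) = 𝔇.X (pvjdPos Y) (pvjdW a Y) N hh π := by
  have h : ∃ 𝔇' : PvwDat (pvjdT Y), pvjdEnc 𝔇' = pvjdEnc 𝔇 := ⟨𝔇, rfl⟩
  unfold pvjdX
  rw [dif_pos h]
  exact (pvjd_D_X ((pvjd_enc_iff 𝔇 h.choose).1 h.choose_spec.symm) hip _ _ N hh π).symm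

end eval

/-! ## 5. the `X` side of `PvdmSys` at the model -/

/-- **what the layer asks of the `X`-side event** `E Y D s` (the version of `NB(D)`, with the goodness, chosen by the roof): it does not see the junk;  it is decreasing in black, given the frozen colours, and reads only sites of the patch `Pt` off `YCL` -/
structure PvjdEv (π : PvwPat) (Pt : Set ℂ) (E : ∀ Y : Set ℂ, PvwDat (pvjdT Y) → (↥Y → Bool) → Prop) : Prop where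
  same : ∀ (Y : Set ℂ) (𝔇 𝔇' : PvwDat (pvjdT Y)) (s : ↥Y → Bool), DelGood Y → PvjdD 𝔇 𝔇' → 0 < 𝔇.s.inn.n → E Y 𝔇 s → E Y 𝔇' s
  dec : ∀ (Y : Set ℂ) (𝔇 : PvwDat (pvjdT Y)) (s s' : ↥Y → Bool), DelGood Y → (∀ v ∈ 𝔇.fz, s' v = s v) →
    (∀ v : ↥Y, v.1 ∈ Pt → v ∉ 𝔇.YCL (pvjdPos Y) π → s' v ≤ s v) → E Y 𝔇 s → E Y 𝔇 s'

section sys

variable (N : PvwNum) (hh : ℝ) (π : PvwPat) (Pt : Set ℂ) (E : ∀ Y : Set ℂ, PvwDat (pvjdT Y) → (↥Y → Bool) → Prop)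

/-- **`D` IS THE (NORMALISED) DATUM OF INDEX `i` PRESENT IN `(Y, σ)`** (rims of colour `true`) -/
structure PvjdIs (Y : Set ℂ) (σ : ℂ → Bool) (i : PvjdIx) (𝔇 : PvwDat (pvjdT Y)) : Prop where
  good : DelGood Y
  enc : pvjdEnc 𝔇 = i
  col : 𝔇.col = pvjdCol Y σ true
  ok : 𝔇.Ok (pvjdPos Y) N hh π
  cyl : pvjdCol Y σ true ∈ 𝔇.Cyl
  patch : ∀ v ∈ 𝔇.fz, v.1 ∈ Pt
  ev : E Y 𝔇 (pvjdCol Y σ true)

/-- `A i` at a fixed geometry -/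
def PvjdAp (Y : Set ℂ) (σ : ℂ → Bool) (i : PvjdIx) : Prop := ∃ 𝔇 : PvwDat (pvjdT Y), PvjdIs N hh π Pt E Y σ i 𝔇

/-- `WO i` at a fixed geometry -/
def PvjdWp (Y : Set ℂ) (σ : ℂ → Bool) (i : PvjdIx) : Prop := ∃ 𝔇 : PvwDat (pvjdT Y), pvjdEnc 𝔇 = i ∧ 𝔇.WO (pvjdPos Y) π (pvjdCol Y σ true)

/-- **field `A`** -/
def pvjdA (i : PvjdIx) : Set (Conf PvPt) := {η | PvjdAp N hh π Pt E (cfSites η) (cfCol η) i}

/-- **field `WO`** -/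
def pvjdWO (i : PvjdIx) : Set (Conf PvPt) := {η | PvjdWp π (cfSites η) (cfCol η) i}

/-- **field `frz`** -/
def pvjdFrz (i : PvjdIx) (η : Conf PvPt) : Set ℂ := pvjdFz (cfSites η) i

/-- **field `yf`**: the class `YCL` and everything outside the patch -/
def pvjdYf (i : PvjdIx) (η : Conf PvPt) : Set ℂ := Ptᶜ ∪ pvjdYcl π (cfSites η) i

/-- **field `X`** -/
noncomputable def pvjdXc (a : ℂ) (i : PvjdIx) (η : Conf PvPt) : ℂ := pvjdX N hh π a (cfSites η) i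

variable {N hh π Pt E}

theorem pvjd_Ap_congr {Y : Set ℂ} {σ σ' : ℂ → Bool} (h : ∀ z ∈ Y, σ z = σ' z) (i : PvjdIx) : PvjdAp N hh π Pt E Y σ i ↔ PvjdAp N hh π Pt E Y σ' i := by
  have e := pvjd_col_congr h true
  constructor
  · rintro ⟨𝔇, h1, h2, h3, h4, h5, h6, h7⟩
    exact ⟨𝔇, h1, h2, e ▸ h3, h4, e ▸ h5, h6, e ▸ h7⟩
  · rintro ⟨𝔇, h1, h2, h3, h4, h5, h6, h7⟩
    exact ⟨𝔇, h1, h2, e.symm ▸ h3, h4, e.symm ▸ h5, h6, e.symm ▸ h7⟩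

theorem pvjd_Wp_congr {Y : Set ℂ} {σ σ' : ℂ → Bool} (h : ∀ z ∈ Y, σ z = σ' z) (i : PvjdIx) : PvjdWp π Y σ i ↔ PvjdWp π Y σ' i := by
  unfold PvjdWp
  rw [pvjd_col_congr h true]

theorem pvjd_mem_A (Y : Set ℂ) (σ : ℂ → Bool) (i : PvjdIx) : cfOf Y σ ∈ pvjdA N hh π Pt E i ↔ PvjdAp N hh π Pt E Y σ i := by
  show PvjdAp N hh π Pt E (cfSites (cfOf Y σ)) (cfCol (cfOf Y σ)) i ↔ _
  rw [cfOf_sites]
  exact pvjd_Ap_congr (fun z hz => pvdy_cfCol_cfOf σ hz) i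

theorem pvjd_mem_WO (Y : Set ℂ) (σ : ℂ → Bool) (i : PvjdIx) : cfOf Y σ ∈ pvjdWO π i ↔ PvjdWp π Y σ i := by
  show PvjdWp π (cfSites (cfOf Y σ)) (cfCol (cfOf Y σ)) i ↔ _
  rw [cfOf_sites]
  exact pvjd_Wp_congr (fun z hz => pvdy_cfCol_cfOf σ hz) i

theorem pvjd_frz_cfOf (Y : Set ℂ) (σ : ℂ → Bool) (i : PvjdIx) : pvjdFrz i (cfOf Y σ) = pvjdFz Y i := by
  unfold pvjdFrz
  rw [cfOf_sites]

theorem pvjd_yf_cfOf (Y : Set ℂ) (σ : ℂ → Bool) (i : PvjdIx) : pvjdYf π Pt i (cfOf Y σ) = Ptᶜ ∪ pvjdYcl π Y i := by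
  unfold pvjdYf
  rw [cfOf_sites]

theorem pvjd_Xc_cfOf (a : ℂ) (Y : Set ℂ) (σ : ℂ → Bool) (i : PvjdIx) : pvjdXc N hh π a i (cfOf Y σ) = pvjdX N hh π a Y i := by
  unfold pvjdXc
  rw [cfOf_sites]

/-- **field `cnt`** -/
theorem pvjd_cnt {Y : Set ℂ} (hY : Y.Countable) : {i | ∃ σ, cfOf Y σ ∈ pvjdA N hh π Pt E i}.Countable := by
  refine (pvjd_enc_countable hY).mono ?_
  rintro i ⟨σ, hσ⟩
  obtain ⟨𝔇, h𝔇⟩ := (pvjd_mem_A Y σ i).1 hσ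
  exact ⟨𝔇, h𝔇.enc, h𝔇.ok.st_s.gate.core_fin, h𝔇.ok.st_t.gate.core_fin⟩

/-- **field `fin`** -/
theorem pvjd_fin {Y : Set ℂ} (hY : (Y ∩ Pt).Finite) (i : PvjdIx) (σ : ℂ → Bool) : (Y \ pvjdYf π Pt i (cfOf Y σ)).Finite := by
  refine hY.subset ?_
  rintro z ⟨h1, h2⟩
  refine ⟨h1, ?_⟩
  by_contra hc
  exact h2 (Or.inl hc)

/-- the class `YCL` is fresh for `D_Y` -/
theorem pvjd_ycl_raw {V D : Type} {T : PvMap V D} (𝔇 : PvwDat T) (pos : V → ℂ) (π : PvwPat) {v : V} (hv : v ∈ 𝔇.YCL pos π) : v ∈ 𝔇.Yraw pos π := by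
  rcases hv with ⟨q, -, h2, h3⟩ | ⟨q, -, h2, h3⟩
  · exact h2 ▸ h3 _ ⟨q.n, le_rfl, rfl⟩
  · exact h2 ▸ h3 _ ⟨q.n, le_rfl, rfl⟩

/-- the frozen sites are off `YCL` -/
theorem pvjd_fz_off {V D : Type} {T : PvMap V D} {𝔇 : PvwDat T} {pos : V → ℂ} {N : PvwNum} {hh : ℝ} {π : PvwPat} (hOk : 𝔇.Ok pos N hh π) {v : V} (hv : v ∈ 𝔇.fz) : v ∉ 𝔇.YCL pos π := by
  rcases hv with (hv | hv) | hv
  · exact fun h => (pvjd_ycl_raw 𝔇 pos π h).1 hv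
  · exact pvwk_nu_ycl (hOk.off_y v (Or.inl hv))
  · exact pvwk_nu_ycl (hOk.off_y v (Or.inr hv))

/-- the inner arc of a gate has an edge -/
theorem pvjd_inn_pos {V D : Type} {T : PvMap V D} {𝔖 : PvwSt T} {pos : V → ℂ} {hh : ℝ} {z : ℂ} {τ : PvwTy} {s : V → Bool} (hg : 𝔖.Gate pos hh z τ s) : 0 < 𝔖.inn.n := by
  obtain ⟨n, h1, -, j, h3, h4, h5, -⟩ := hg.strand
  rcases Nat.eq_zero_or_pos 𝔖.inn.n with h0 | h0
  · exfalso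
    apply hg.ne
    have a1 := (h5 𝔖.inn.n le_rfl).2.1
    rw [h4] at a1
    rw [h0] at a1
    rw [h3] at a1
    simp only [pvas_it_zero, h1] at a1
    exact a1.symm
  · exact h0

/-- **field `dis`** -/
theorem pvjd_dis {Y : Set ℂ} {i : PvjdIx} {σ : ℂ → Bool} (hA : cfOf Y σ ∈ pvjdA N hh π Pt E i) : Disjoint (pvjdFrz i (cfOf Y σ)) (pvjdYf π Pt i (cfOf Y σ)) := by
  obtain ⟨𝔇, h𝔇⟩ := (pvjd_mem_A Y σ i).1 hA
  rw [pvjd_frz_cfOf, pvjd_yf_cfOf, ← h𝔇.enc, pvjd_fz_eq h𝔇.good, pvjd_ycl_eq h𝔇.good, Set.disjoint_left]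
  rintro _ ⟨v, hv, rfl⟩ (h | ⟨v', hv', h⟩)
  · exact h (h𝔇.patch v hv)
  · have : v' = v := Subtype.ext h
    exact pvjd_fz_off h𝔇.ok hv (this ▸ hv')

/-- **field `stab`** (form of `PvdmSys.HypY`) -/
theorem pvjd_stab (hE : PvjdEv π Pt E) (a : ℂ) {Y : Set ℂ} {i : PvjdIx} {σ σ' : ℂ → Bool} (hA : cfOf Y σ ∈ pvjdA N hh π Pt E i)
    (h1 : ∀ z ∈ Y, z ∈ pvjdFrz i (cfOf Y σ) → σ' z = σ z) (h2 : ∀ z ∈ Y, z ∉ pvjdYf π Pt i (cfOf Y σ) → σ' z ≤ σ z) :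
    cfOf Y σ' ∈ pvjdA N hh π Pt E i ∧ pvjdFrz i (cfOf Y σ') = pvjdFrz i (cfOf Y σ) ∧ pvjdYf π Pt i (cfOf Y σ') = pvjdYf π Pt i (cfOf Y σ) ∧
      pvjdXc N hh π a i (cfOf Y σ') = pvjdXc N hh π a i (cfOf Y σ) := by
  refine ⟨?_, by rw [pvjd_frz_cfOf, pvjd_frz_cfOf], by rw [pvjd_yf_cfOf, pvjd_yf_cfOf], by rw [pvjd_Xc_cfOf, pvjd_Xc_cfOf]⟩
  obtain ⟨𝔇, h𝔇⟩ := (pvjd_mem_A Y σ i).1 hA
  have hT := pvjd_isSph h𝔇.good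
  rw [pvjd_frz_cfOf, ← h𝔇.enc, pvjd_fz_eq h𝔇.good] at h1
  rw [pvjd_yf_cfOf, ← h𝔇.enc, pvjd_ycl_eq h𝔇.good] at h2
  have e1 : ∀ v ∈ 𝔇.fz, pvjdCol Y σ' true v = pvjdCol Y σ true v := by
    intro v hv
    rw [pvjd_col_true, pvjd_col_true]
    exact h1 v.1 v.2 ⟨v, hv, rfl⟩
  have e2 : ∀ v : ↥Y, v.1 ∈ Pt → v ∉ 𝔇.YCL (pvjdPos Y) π → pvjdCol Y σ' true v ≤ pvjdCol Y σ true v := by
    intro v hv1 hv2
    rw [pvjd_col_true, pvjd_col_true]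
    refine h2 v.1 v.2 ?_
    rintro (h | ⟨v', hv', h⟩)
    · exact h hv1
    · exact hv2 ((Subtype.ext h : v' = v) ▸ hv')
  have hcyl : pvjdCol Y σ' true ∈ 𝔇.Cyl := by
    obtain ⟨c1, c2, c3⟩ := h𝔇.cyl
    refine ⟨fun v hv => ?_, fun v hv => ?_, fun v hv => ?_⟩
    · rw [e1 v (Or.inl (Or.inl hv))]; exact c1 v hv
    · rw [e1 v (Or.inl (Or.inr hv))]; exact c2 v hv
    · rw [e1 v (Or.inr hv)]; exact c3 v hv
  obtain ⟨n1, n2⟩ := pvjd_norm hT h𝔇.ok hcyl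
  have hD := pvjd_reCol 𝔇 (pvjdCol Y σ' true)
  refine (pvjd_mem_A Y σ' i).2 ⟨𝔇.reCol (pvjdCol Y σ' true), h𝔇.good, ?_, rfl, n1, n2, h𝔇.patch, ?_⟩
  · rw [← h𝔇.enc]
    exact ((pvjd_enc_iff _ _).2 hD).symm
  · exact hE.same Y 𝔇 _ _ h𝔇.good hD (pvjd_inn_pos h𝔇.ok.st_s.gate) (hE.dec Y 𝔇 _ _ h𝔇.good e1 e2 h𝔇.ev)

/-- **field `stabW`** -/
theorem pvjd_stabW (hP : π.Yout ⊆ Pt) {Y : Set ℂ} {i : PvjdIx} {σ₀ σ σ' : ℂ → Bool} (hA : cfOf Y σ₀ ∈ pvjdA N hh π Pt E i)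
    (h2 : ∀ z ∈ Y, z ∉ pvjdYf π Pt i (cfOf Y σ₀) → σ' z ≤ σ z) (hW : cfOf Y σ ∈ pvjdWO π i) : cfOf Y σ' ∈ pvjdWO π i := by
  obtain ⟨𝔇₀, h𝔇₀⟩ := (pvjd_mem_A Y σ₀ i).1 hA
  obtain ⟨𝔇, henc, q, q1, q2, q3⟩ := (pvjd_mem_WO Y σ i).1 hW
  rw [pvjd_yf_cfOf, ← henc, pvjd_ycl_eq h𝔇₀.good] at h2
  refine (pvjd_mem_WO Y σ' i).2 ⟨𝔇, henc, q, q1, q2, fun x hx => ?_⟩
  obtain ⟨a1, a2, a3⟩ := q3 x hx
  refine ⟨?_, a2, a3⟩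
  rw [pvjd_col_true] at a1 ⊢
  have := h2 x.1 x.2 (by
    rintro (h | ⟨v', hv', h⟩)
    · exact h (hP a2)
    · exact a3.2 ((Subtype.ext h : v' = x) ▸ hv'))
  rw [a1] at this
  revert this
  cases σ' x.1 <;> simp

end sys

/-- the faced `NB` of record, the white paths confined to the sites over `U` -/
def pvjdNB (π : PvwPat) (U : Set ℂ) (Y : Set ℂ) (𝔇 : PvwDat (pvjdT Y)) (s : ↥Y → Bool) : Prop :=
  pvtaN 𝔇.g s (𝔇.NU (pvjdPos Y) π ∩ {v | v.1 ∈ U}) ({𝔇.anc} ∪ 𝔇.Lam (pvjdPos Y) π)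

theorem pvjd_nb_of_patch {π : PvwPat} {U : Set ℂ} {Y : Set ℂ} {𝔇 : PvwDat (pvjdT Y)} {s : ↥Y → Bool} (h : pvjdNB π U Y 𝔇 s) : 𝔇.NB (pvjdPos Y) π s := by
  exact pvta_N_mono_U 𝔇.g Set.inter_subset_left (le_refl _) h

/-- the confined `NB` is an admissible `X`-side event -/
theorem pvjd_ev_nb (π : PvwPat) {U Pt : Set ℂ} (hU : U ⊆ Pt) : PvjdEv π Pt (pvjdNB π U) := by
  refine ⟨fun Y 𝔇 𝔇' s hY h h0 hE => ?_, fun Y 𝔇 s s' hY h1 h2 hE => ?_⟩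
  · obtain ⟨-, -, -, e4⟩ := pvjd_D_cls (pvjd_isSph hY) h (pvjdPos Y) π
    unfold pvjdNB at hE ⊢
    rw [← pvjd_D_nu (pvjd_isSph hY) h (pvjdPos Y) π, ← e4, ← pvjd_D_anc h h0]
    exact (pvjd_N h.g s _ _).1 hE
  · unfold pvjdNB at hE ⊢
    intro k hk
    obtain ⟨a, ha, hj⟩ := hE k hk
    refine ⟨a, ha, pvta_join_mono ?_ hj⟩
    rintro v ⟨⟨b1, b2⟩, b3, b4⟩
    refine ⟨⟨b1, b2⟩, b3, ?_⟩
    have := h2 v (hU b2) (pvwk_nu_ycl b1)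
    rw [b4] at this
    cases hs : s' v
    · rfl
    · rw [hs] at this
      exact absurd this (by decide)

/-- admissible events are stable under conjunction -/
theorem PvjdEv.and {π : PvwPat} {Pt : Set ℂ} {E E' : ∀ Y : Set ℂ, PvwDat (pvjdT Y) → (↥Y → Bool) → Prop} (h : PvjdEv π Pt E) (h' : PvjdEv π Pt E') :
    PvjdEv π Pt (fun Y 𝔇 s => E Y 𝔇 s ∧ E' Y 𝔇 s) := by
  exact ⟨fun Y 𝔇 𝔇' s hY hD h0 hE => ⟨h.same Y 𝔇 𝔇' s hY hD h0 hE.1, h'.same Y 𝔇 𝔇' s hY hD h0 hE.2⟩,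
    fun Y 𝔇 s s' hY h1 h2 hE => ⟨h.dec Y 𝔇 s s' hY h1 h2 hE.1, h'.dec Y 𝔇 s s' hY h1 h2 hE.2⟩⟩

/-- a property of the geometry and of the used data alone is an admissible event -/
theorem pvjd_ev_geo (π : PvwPat) (Pt : Set ℂ) (G : ∀ Y : Set ℂ, PvwDat (pvjdT Y) → Prop) (hG : ∀ Y (𝔇 𝔇' : PvwDat (pvjdT Y)), PvjdD 𝔇 𝔇' → G Y 𝔇 → G Y 𝔇') :
    PvjdEv π Pt (fun Y 𝔇 _ => G Y 𝔇) := by
  exact ⟨fun Y 𝔇 𝔇' _ _ h _ hE => hG Y 𝔇 𝔇' h hE, fun _ _ _ _ _ _ _ hE => hE⟩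

/-! ## 6. the colour bit -/

theorem pvjd_col_flip (Y : Set ℂ) (σ : ℂ → Bool) : pvjdCol Y σ false = pvjdCol Y (fun z => !σ z) true := by
  funext v
  show (σ v.1 == false) = ((!σ v.1) == true)
  cases σ v.1 <;> rfl

/-- the sample with all the colours flipped -/
theorem pvjd_conf_flip (q : PvGeoT × PvColT) : pvConf (pvMerge (q.1, pvColFlip q.2)) = cfFlip (pvConf (pvMerge q)) := (pvqu_flip_conf q.1 q.2).symm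

theorem pvjd_sites_flip (η : Conf PvPt) : cfSites (cfFlip η) = cfSites η := by
  ext z
  simp [cfSites, cfFlip, Conf.image]
  exact or_comm

/-- **the upper probability of the wall is invariant under the flip of the colours** -/
theorem pvjd_up_flip (ε : ℝ) (B : Set (PvGeoT × PvColT)) : (pvhbUp ε).P {q | (q.1, pvColFlip q.2) ∈ B} = (pvhbUp ε).P B := by
  unfold pvhbUp
  rw [pvup_iter_P, pvup_iter_P]
  congr 1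
  funext g
  exact pvqu_col_flip.measure_preimage_equiv {k | (g, k) ∈ B}

/-! ## 7. from `pvxFit` to a datum which is present -/

/-- **`pvxFit` ⟹ a normalised datum**, with all that `pvxFit` says of it (colour `true`; colour `false`: sec. 6) -/
theorem pvjd_of_fit {τ : Type} {c : ℝ} (𝔓 : PvxPar τ c) {x : ℂ} {R : ℝ} {m : ℕ} {ω : PVSample} {P : PvbRim} {s t : PvbPin τ} {π : PvxIx τ}
    (h : pvxFit 𝔓 x R m ω P s t π) : ∃ (𝔇 : PvwDat (pvjdT (pvxY ω))) (j : ℕ), DelGood (pvxY ω) ∧ 𝔇.col = pvjdCol (pvxY ω) (cfCol (pvConf ω)) (𝔓.col π.p.ts) ∧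
      𝔇.Ok (pvjdPos (pvxY ω)) 𝔓.num (pvlmH m) (𝔓.reg m π) ∧ PvxActual (ω := ω) 𝔇 𝔓.num (pvlmH m) (𝔓.reg m π) (𝔓.col π.p.ts) P j ∧
      s.idx = j + 𝔇.s.ip ∧ t.idx = j + 𝔇.s.inn.n + 𝔇.g.n + 𝔇.t.ip ∧ ∀ k, j ≤ k → k ≤ j + 𝔇.s.inn.n + 𝔇.g.n + 𝔇.t.inn.n → ‖P.v k - x‖ ≤ 5 * R := by
  obtain ⟨-, -, -, -, 𝔇, j, hOk, hAc, hs, -, h1, h2, h3, -, -⟩ := h
  have hG : DelGood (pvxY ω) := hs.good
  have hT : (pvxT ω).IsSph := delb_plane_isSph hG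
  have hc := hAc.cyl
  refine ⟨⟨𝔇.s, 𝔇.t, 𝔇.g, pvxCol ω (𝔓.col π.p.ts)⟩, j, hG, rfl, ?_, ?_, h1, h2, h3⟩
  · exact
      { st_s := pvwk_atIn_congr hT hOk.st_s fun v hv => (hc.1 v (Or.inr hv)).symm
        st_t := pvwk_atOut_congr hT hOk.st_t fun v hv => (hc.1 v (Or.inl hv)).symm
        tip_s := hOk.tip_s
        tip_t := hOk.tip_t
        g0 := hOk.g0
        g1 := hOk.g1
        pos_n := hOk.pos_n
        out := hOk.out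
        off := hOk.off
        disj := hOk.disj
        off_y := hOk.off_y
        tip_f := hOk.tip_f
        cons_b := fun v hv _ => hc.2.1 v hv
        cons_w := fun v hv _ => hc.2.2 v hv
        cons_a := hOk.cons_a
        core_off := hOk.core_off }
  · exact
      { cyl := ⟨fun _ _ => rfl, hc.2.1, hc.2.2⟩
        pin_s := hAc.pin_s
        arc := hAc.arc
        pin_t := hAc.pin_t }

theorem pvjd_eqns_cite2 : True := by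
  have := @pvjdT.eq_1; have := @pvjdPos.eq_1; have := @pvjdCol.eq_1; have := @pvjdE.eq_1; have := @pvjdPe.eq_1; have := @pvjdSe.eq_1; have := @pvjdOutE.eq_1; have := @pvjdInE.eq_1
  have := @pvjdEnc.eq_1; have := @pvjdW.eq_1; have := @pvjdFz.eq_1; have := @pvjdFzY.eq_1; have := @pvjdYcl.eq_1; have := @pvjdX.eq_1; have := @PvjdAp.eq_1; have := @PvjdWp.eq_1
  have := @pvjdHfIn.eq_1; have := @pvjdA.eq_1; have := @pvjdWO.eq_1; have := @pvjdFrz.eq_1; have := @pvjdYf.eq_1; have := @pvjdXc.eq_1; have := @pvjdNB.eq_1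
  trivial

end Claimed.Agent.R289
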