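-- KEEP CAPOK
import Claimed.Agent.R289.Exit.N1B
import Claimed.Agent.R289.Tr.BrDat
import Claimed.Agent.R289.Tr.AtUniq

/-!
# Row 289 (S0537, Cardy for Poisson-Voronoi), THE WALL, road E, file Tr/KitUni : ONE DATUM PER INDEX = the field `uni` of `Pvn1bKit` (60) + INJ for `dom`      (helper145, with 29 `Tr/KitN1`; prefix `pvun_`)

WHAT.   `pvxnSys` (170, `Exit/N1`) indexes the data by `PvxnIx = (F, N, g, X)` (positions only).   A record `PvwDat` carries junk, so two witnesses `PvxnWit .. i σ 𝔇`, `PvxnWit .. i σ 𝔇'` of ONE index are never equal as records.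
Here: they have THE SAME USED DATA (`PvjdD` of 72, `Tr/BrDat`), hence the same `fz fzY YCL NU XCL Lam anc X`, the same `WO NB SYn YArc Y` (`pvjd_D_*`), the same right sectors `RSec` (so the same `NBon M`).
* `pvun_G pvun_out pvun_in`   bridge `PvuqG PvuqP PvuqM` (150, `Tr/AtUniq`) ⟹ `PvjdG PvjdOut PvjdIn` (72)
* **`pvun_half`**   ANY two well formed data of one pattern whose cylinders contain one colouring have the same half states `Σ_in(s)`, `Σ_out(t)`  (= `hend` of `pvc4_rings`, 78 37: same `s.dp`, `t.dm`)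
* **`pvun_same`**   … and the same `g₀` ⟹ `PvjdD`
* `pvun_P_of_list`  a path of a simple map is known from the list of the positions of its vertices
* **`pvun_wit`**    two witnesses of one index ⟹ `PvjdD`;   **`pvun_uni`** = the field `uni` of `Pvn1bKit` VERBATIM for every kit whose `W` respects `PvjdD`;   `pvun_W_resp`: `WO ∧ (any property of g.verts, s.dp, t.dm)` respects `PvjdD`
* **`pvun_ix_inj`** (`h-ι` of `pvc4_rings`): two indices present at one `(Y, σ)` with the same list `g` are EQUAL (kit whose `N` respects `PvjdD`)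
* `pvun_rsec`, `pvun_nbon`   the sector form `NBon M` (78, `Tr/C2Dom`; body spelled out: no import of a file in motion) respects `PvjdD`
-/

set_option autoImplicit false

namespace Claimed.Agent.R289

open Set Claims.C0465

/-! ## 1. any map -/

section gen

variable {V D : Type} {T : PvMap V D}

theorem pvun_G {𝔖 𝔖' : PvwSt T} (h : PvuqG 𝔖 𝔖') : PvjdG 𝔖 𝔖' := ⟨h.dsc, h.darts, h.dp, h.dm, ⟨h.inn_n, h.inn_v, h.inn_e⟩, h.ip⟩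

theorem pvun_out {𝔖 𝔖' : PvwSt T} (h : PvuqG 𝔖 𝔖') (hp : PvuqP 𝔖 𝔖') : PvjdOut 𝔖 𝔖' := ⟨pvun_G h, hp.np, hp.ep⟩

theorem pvun_in {𝔖 𝔖' : PvwSt T} (h : PvuqG 𝔖 𝔖') (hm : PvuqM 𝔖 𝔖') : PvjdIn 𝔖 𝔖' := ⟨pvun_G h, hm.nm, hm.em⟩

variable {pos : V → ℂ} {N : PvwNum} {h : ℝ} {π : PvwPat} {𝔇 𝔇' : PvwDat T} {σ : V → Bool}

/-- the half states of a well formed datum are the half states of every colouring of its cylinder -/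
theorem pvun_at (hT : T.IsSph) (hOk : 𝔇.Ok pos N h π) (hc : σ ∈ 𝔇.Cyl) : 𝔇.s.AtIn pos N h π.zs π.ts σ ∧ 𝔇.t.AtOut pos N h π.zt π.tt σ :=
  ⟨pvwk_atIn_congr hT hOk.st_s fun v hv => (hc.1 v (Or.inr hv)).symm, pvwk_atOut_congr hT hOk.st_t fun v hv => (hc.1 v (Or.inl hv)).symm⟩

/-- **ONE PAIR OF HALF STATES PER COLOURING** -/
theorem pvun_half (hT : T.IsSph) (hS : T.Simple) (hpos : Function.Injective pos) (hOk : 𝔇.Ok pos N h π) (hOk' : 𝔇'.Ok pos N h π) (hc : σ ∈ 𝔇.Cyl) (hc' : σ ∈ 𝔇'.Cyl) :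
    PvjdIn 𝔇.s 𝔇'.s ∧ PvjdOut 𝔇.t 𝔇'.t := by
  obtain ⟨a1, a2⟩ := pvun_at hT hOk hc
  obtain ⟨b1, b2⟩ := pvun_at hT hOk' hc'
  obtain ⟨g1, m1⟩ := pvuq_atIn hT hS hpos a1 b1
  obtain ⟨g2, p2⟩ := pvuq_atOut hT hS hpos a2 b2
  exact ⟨pvun_in g1 m1, pvun_out g2 p2⟩

/-- `hend` of `pvc4_rings`: all the data present at one colouring leave from the same gate edge and arrive at the same gate edge -/
theorem pvun_ends (hT : T.IsSph) (hS : T.Simple) (hpos : Function.Injective pos) (hOk : 𝔇.Ok pos N h π) (hOk' : 𝔇'.Ok pos N h π) (hc : σ ∈ 𝔇.Cyl) (hc' : σ ∈ 𝔇'.Cyl) :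
    𝔇.s.dp = 𝔇'.s.dp ∧ 𝔇.s.dm = 𝔇'.s.dm ∧ 𝔇.t.dp = 𝔇'.t.dp ∧ 𝔇.t.dm = 𝔇'.t.dm := by
  obtain ⟨h1, h2⟩ := pvun_half hT hS hpos hOk hOk' hc hc'
  exact ⟨h1.g.dp, h1.g.dm, h2.g.dp, h2.g.dm⟩

/-- **ONE DATUM PER `(σ, g₀)`** -/
theorem pvun_same (hT : T.IsSph) (hS : T.Simple) (hpos : Function.Injective pos) (hOk : 𝔇.Ok pos N h π) (hOk' : 𝔇'.Ok pos N h π) (hc : σ ∈ 𝔇.Cyl) (hc' : σ ∈ 𝔇'.Cyl)
    (hg : PvjdP 𝔇.g 𝔇'.g) : PvjdD 𝔇 𝔇' := by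
  obtain ⟨h1, h2⟩ := pvun_half hT hS hpos hOk hOk' hc hc'
  exact ⟨h1, h2, hg⟩

/-- a path of a simple map is known from its vertices -/
theorem pvun_P_of_verts (hS : T.Simple) {p q : T.Pth} (hn : p.n = q.n) (hv : ∀ k, k ≤ p.n → p.v k = q.v k) : PvjdP p q := by
  refine ⟨hn, hv, fun k hk => hS _ _ ?_ ?_⟩
  · rw [p.src_e k hk, q.src_e k (hn ▸ hk)]
    exact hv k hk.le
  · rw [p.tgt_e k hk, q.tgt_e k (hn ▸ hk)]
    exact hv (k + 1) hk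

/-- … from the list of the positions of its vertices -/
theorem pvun_P_of_list (hS : T.Simple) (hpos : Function.Injective pos) {p q : T.Pth}
    (hl : (List.ofFn fun k : Fin (p.n + 1) => pos (p.v k)) = List.ofFn fun k : Fin (q.n + 1) => pos (q.v k)) : PvjdP p q := by
  have hn : p.n = q.n := by
    have := congrArg List.length hl
    simp only [List.length_ofFn] at this
    omega
  refine pvun_P_of_verts hS hn fun k hk => hpos ?_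
  have h1 := congrArg (fun l : List ℂ => l[k]?) hl
  simp only [List.getElem?_ofFn] at h1
  rw [dif_pos (by omega), dif_pos (by omega)] at h1
  exact Option.some.inj h1

/-- the darts before and after the vertices of `g₀` -/
theorem pvun_prv (hD : PvjdD 𝔇 𝔇') (h0 : 0 < 𝔇.s.inn.n) {i : ℕ} (hi : i ≤ 𝔇.g.n) : 𝔇.prv i = 𝔇'.prv i := by
  unfold PvwDat.prv
  by_cases hi0 : i = 0
  · rw [if_pos hi0, if_pos hi0, ← hD.s.g.inn.1, hD.s.g.inn.2.2 _ (by omega)]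
  · rw [if_neg hi0, if_neg hi0, hD.g.2.2 _ (by omega)]

theorem pvun_nx (hD : PvjdD 𝔇 𝔇') (h0 : 0 < 𝔇.t.inn.n) {i : ℕ} (hi : i ≤ 𝔇.g.n) : 𝔇.nx i = 𝔇'.nx i := by
  unfold PvwDat.nx
  by_cases hi0 : i = 𝔇.g.n
  · rw [if_pos hi0, if_pos (hi0.trans hD.g.1), hD.t.g.inn.2.2 _ h0]
  · rw [if_neg hi0, if_neg (fun h => hi0 (h.trans hD.g.1.symm)), hD.g.2.2 _ (by omega)]

/-- the right sectors are functions of the used data -/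
theorem pvun_rsec (hD : PvjdD 𝔇 𝔇') (hs : 0 < 𝔇.s.inn.n) (ht : 0 < 𝔇.t.inn.n) {i : ℕ} (hi : i ≤ 𝔇.g.n) (d : D) : 𝔇.RSec i d ↔ 𝔇'.RSec i d := by
  unfold PvwDat.RSec
  rw [pvun_prv hD hs hi, pvun_nx hD ht hi]

/-- **the sector form `NBon M`** (body of `PvwDat.NBon` of 78) is a function of the used data -/
theorem pvun_nbon (hD : PvjdD 𝔇 𝔇') (hs : 0 < 𝔇.s.inn.n) (ht : 0 < 𝔇.t.inn.n) (M : Set V) (σ : V → Bool) :
    (¬ ∃ (i j : ℕ) (q : T.Pth), i ≤ 𝔇.g.n ∧ j ≤ 𝔇.g.n ∧ i ≠ j ∧ 0 < q.n ∧ q.v 0 = 𝔇.g.v i ∧ q.v q.n = 𝔇.g.v j ∧ 𝔇.RSec i (q.e 0) ∧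
      ∀ x ∈ q.inner, σ x = true ∧ x ∉ 𝔇.g.verts ∧ x ∈ M) ↔
    ¬ ∃ (i j : ℕ) (q : T.Pth), i ≤ 𝔇'.g.n ∧ j ≤ 𝔇'.g.n ∧ i ≠ j ∧ 0 < q.n ∧ q.v 0 = 𝔇'.g.v i ∧ q.v q.n = 𝔇'.g.v j ∧ 𝔇'.RSec i (q.e 0) ∧
      ∀ x ∈ q.inner, σ x = true ∧ x ∉ 𝔇'.g.verts ∧ x ∈ M := by
  have hv := (pvjd_P_sets hD.g).1
  have hn := hD.g.1
  refine not_congr ⟨?_, ?_⟩
  · rintro ⟨i, j, q, hi, hj, hij, h0, q0, q1, hr, hx⟩
    exact ⟨i, j, q, hn ▸ hi, hn ▸ hj, hij, h0, q0.trans (hD.g.2.1 i hi), q1.trans (hD.g.2.1 j hj), (pvun_rsec hD hs ht hi _).1 hr, hv ▸ hx⟩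
  · rintro ⟨i, j, q, hi, hj, hij, h0, q0, q1, hr, hx⟩
    have hi' : i ≤ 𝔇.g.n := hn.symm ▸ hi
    have hj' : j ≤ 𝔇.g.n := hn.symm ▸ hj
    exact ⟨i, j, q, hi', hj', hij, h0, q0.trans (hD.g.2.1 i hi').symm, q1.trans (hD.g.2.1 j hj').symm, (pvun_rsec hD hs ht hi' _).2 hr, hv.symm ▸ hx⟩

end gen

/-! ## 2. at the system of 170 -/

section sys

variable {τ : Type} {c : ℝ} {𝔓 : PvxPar τ c} {m : ℕ} {π : PvxIx τ} {a : ℂ} {𝔎 : PvxnKit} {Y : Set ℂ}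

/-- all the data present at one `(Y, σ)` have the same half states -/
theorem pvun_wit_half (hY : DelGood Y) {i j : PvxnIx} {σ : ↥Y → Bool} {𝔇 𝔇' : PvwDat (delbPl Y).toMap} (h : PvxnWit 𝔓 m π a 𝔎 Y i σ 𝔇) (h' : PvxnWit 𝔓 m π a 𝔎 Y j σ 𝔇') :
    PvjdIn 𝔇.s 𝔇'.s ∧ PvjdOut 𝔇.t 𝔇'.t :=
  pvun_half (delb_plane_isSph hY) (pvjd_simple Y) Subtype.val_injective h.ok h'.ok h.cyl h'.cyl

/-- **two witnesses with the same list `g` have the same used data** -/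
theorem pvun_wit (hY : DelGood Y) {i j : PvxnIx} {σ : ↥Y → Bool} {𝔇 𝔇' : PvwDat (delbPl Y).toMap} (h : PvxnWit 𝔓 m π a 𝔎 Y i σ 𝔇) (h' : PvxnWit 𝔓 m π a 𝔎 Y j σ 𝔇')
    (hg : i.g = j.g) : PvjdD 𝔇 𝔇' :=
  pvun_same (delb_plane_isSph hY) (pvjd_simple Y) Subtype.val_injective h.ok h'.ok h.cyl h'.cyl
    (pvun_P_of_list (pvjd_simple Y) Subtype.val_injective (h.labg.trans (hg.trans h'.labg.symm)))

/-- **THE FIELD `uni` OF `Pvn1bKit`, VERBATIM**, for every kit whose `W` is a function of the used data -/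
theorem pvun_uni (hW : ∀ (Y : Set ℂ) (𝔇 𝔇' : PvwDat (delbPl Y).toMap), DelGood Y → 𝔇.Ok Subtype.val 𝔓.num (pvlmH m) (𝔓.reg m π) → PvjdD 𝔇 𝔇' →
      ∀ τ' : ↥Y → Bool, 𝔎.W Y 𝔇' τ' → 𝔎.W Y 𝔇 τ') :
    ∀ (Y : Set ℂ) (i : PvxnIx) (σ : ↥Y → Bool) (𝔇 𝔇' : PvwDat (delbPl Y).toMap), DelGood Y → PvxnWit 𝔓 m π a 𝔎 Y i σ 𝔇 → PvxnWit 𝔓 m π a 𝔎 Y i σ 𝔇' →
      ∀ τ' : ↥Y → Bool, 𝔎.W Y 𝔇' τ' → 𝔎.W Y 𝔇 τ' :=
  fun Y _ _ 𝔇 𝔇' hY h h' => hW Y 𝔇 𝔇' hY h.ok (pvun_wit hY h h' rfl)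

/-- `WO` and any property of `(g.verts, s.dp, t.dm)` (the white circuit of E6) respect the used data -/
theorem pvun_W_resp (ρ : PvwPat) (Q : ∀ Y : Set ℂ, Set ↥Y → (delbPl Y).Dart → (delbPl Y).Dart → (↥Y → Bool) → Prop) (Y : Set ℂ) (𝔇 𝔇' : PvwDat (delbPl Y).toMap) (hY : DelGood Y)
    (hD : PvjdD 𝔇 𝔇') (τ' : ↥Y → Bool) (h : 𝔇'.WO Subtype.val ρ τ' ∧ Q Y 𝔇'.g.verts 𝔇'.s.dp 𝔇'.t.dm τ') : 𝔇.WO Subtype.val ρ τ' ∧ Q Y 𝔇.g.verts 𝔇.s.dp 𝔇.t.dm τ' := by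
  refine ⟨(pvjd_D_wo (delb_plane_isSph hY) hD Subtype.val ρ τ').2 h.1, ?_⟩
  rw [(pvjd_P_sets hD.g).1, hD.s.g.dp, hD.t.g.dm]
  exact h.2

/-- **`h-ι`**: two indices present at one `(Y, σ)` with the same list `g` are equal (kit whose `N` is a function of the used data) -/
theorem pvun_ix_inj (hN : ∀ 𝔇 𝔇' : PvwDat (delbPl Y).toMap, PvjdD 𝔇 𝔇' → 𝔎.N Y 𝔇 = 𝔎.N Y 𝔇') (hY : DelGood Y) {i j : PvxnIx} {σ : ↥Y → Bool} {𝔇 𝔇' : PvwDat (delbPl Y).toMap}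
    (h : PvxnWit 𝔓 m π a 𝔎 Y i σ 𝔇) (h' : PvxnWit 𝔓 m π a 𝔎 Y j σ 𝔇') (hg : i.g = j.g) : i = j := by
  have hD := pvun_wit hY h h' hg
  have e1 : i.F = j.F := by rw [← h.labF, ← h'.labF, (pvjd_D_sets (delb_plane_isSph hY) hD).2.2.2]
  have e2 : i.N = j.N := by rw [← h.labN, ← h'.labN, hN _ _ hD]
  have e3 : i.X = j.X := by
    rw [← h.labX, ← h'.labX]
    exact pvjd_D_X hD h.ok.st_t.gate.ip_le _ _ _ _ _
  obtain ⟨iF, iN, ig, iX⟩ := i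
  obtain ⟨jF, jN, jg, jX⟩ := j
  rw [PvxnIx.mk.injEq]
  exact ⟨e1, e2, hg, e3⟩

end sys

end Claimed.Agent.R289
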