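-- KEEP
import Claimed.Agent.R289.Tr.Dict
import Claimed.Agent.R289.Tr.MaskR

/-!
# Row 289 (S0537), THE WALL, ROAD E, file Tr/TeleV : (T) TELESCOPING OF `V` ALONG THE THICK LINK `u → t`, `u` = A DOOR CUT IN SPACE, DETERMINISTIC HALF      (helper85, second of helper283; prefix `pvvf`, `Pvvf`)

`Tr/InstL` v2.2: the thick link `pvilLe` starts at a DOOR END (kit plug, no mark, `dr = true`), its mask is `Wᶜ`, `W = zu + rO \ Hp (zu, 1)` = the part of the region of the plug BEHIND the line through its centre; it ends at a marked pin (`dr' = false`).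
      `PvilLk.val` = mass off `W ∪ B'` of  `inn(u) . y . inn(t) [0, ip)`,      `B'` = the cut-off disc of the pin.
FOR THE WEIGHT `side` THIS IS A DIFFERENCE OF TWO CUT POINTS:
      **`L.val N η (pvilV η) 𝔖 𝔖' y = pvdcCV 𝔖' .. - pvvfCut 𝔖 .. W`**,      `pvvfCut 𝔖 pos W := pos g⁻(u) + (V-mass of inn(u) with tag in W)`      (R21 (3) of 234: "a function of the plug alone").
* sec. 1  on `(T, pos)`: `pvvfCut`, `PvvfLk` (what the tags must miss), **`pvvf_tele`**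
* sec. 2  producer of `PvvfLk` from the kit of 290 (`PvjzG`, `PvjzLk`: `Tr/MaskR`) + mesh of the tags + four metric lines: **`pvvf_lk_of`**
* sec. 3  at `Tr/InstL`: `pvvf_msk`, **`pvvf_val`**
THE METRIC LINE WHICH THE ENGINE OWES (sent to 168 166, 12:50Z): the vertex mask `A = Yin(e) ∪ Mm(t)` is at distance `> μ` from `W` (`eY_cut`): the room of record `pvehEY` touches the line.
-/

set_option autoImplicit false

namespace Claimed.Agent.R289

open Set Metric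

/-! ## 1. on `(T, pos)` -/

section map

variable {V D : Type} {T : PvMap V D}

/-- **THE CUT POINT OF A DOOR CUT IN SPACE**: `g⁻` + the `V`-mass of the edges of the inner arc with tag in the dropped region `W`.      Reads `inn` only. -/
noncomputable def pvvfCut (𝔖 : PvwSt T) (pos : V → ℂ) (W : Set ℂ) : ℂ := pos (𝔖.inn.v 0) + pvwMass T pos (T.side pos) W 𝔖.inn 0 𝔖.inn.n

theorem pvvf_eqns_cite : True := by
  have := @pvvfCut.eq_1
  trivial

/-- **MASKS of a link door → pin**: the inner arc of the door misses the cut-off disc `B'` of the pin, the arc `y` misses `W` and `B'`, the entrance half of the pin misses `W`; the three pieces are consecutive -/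
structure PvvfLk (pos : V → ℂ) (W B' : Set ℂ) (𝔖 𝔖' : PvwSt T) (y : T.Pth) : Prop where
  ip' : 𝔖'.ip ≤ 𝔖'.inn.n
  inn : ∀ k, k < 𝔖.inn.n → T.bary pos (T.opp (𝔖.inn.e k)) ∉ B'
  arc : ∀ k, k < y.n → T.bary pos (T.opp (y.e k)) ∉ W ∧ T.bary pos (T.opp (y.e k)) ∉ B'
  ent : ∀ k, k < 𝔖'.ip → T.bary pos (T.opp (𝔖'.inn.e k)) ∉ W
  h0 : y.v 0 = 𝔖.inn.v 𝔖.inn.n
  h1 : y.v y.n = 𝔖'.inn.v 0

/-- **(T), DETERMINISTIC**: the `V`-mass off `W ∪ B'` of `inn(u) . y . inn(t) [0, ip)` = (cut point of the pin) − (cut point of the door) -/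
theorem pvvf_tele {pos : V → ℂ} {W : Set ℂ} {z' : ℂ} {ρ' : ℝ} {𝔖 𝔖' : PvwSt T} {y : T.Pth} (H : PvvfLk pos W (closedBall z' ρ') 𝔖 𝔖' y) :
    pvwMass T pos (T.side pos) (W ∪ closedBall z' ρ')ᶜ 𝔖.inn 0 𝔖.inn.n + pvwMass T pos (T.side pos) (W ∪ closedBall z' ρ')ᶜ y 0 y.n
      + pvwMass T pos (T.side pos) (W ∪ closedBall z' ρ')ᶜ 𝔖'.inn 0 𝔖'.ip = pvdcCV 𝔖' pos z' ρ' - pvvfCut 𝔖 pos W := by
  have e1 := pvdc_mass_compl pos (T.side pos) W (closedBall z' ρ') 𝔖.inn (i := 0) (j := 𝔖.inn.n) fun k _ hk => H.inn k hk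
  have e2 := pvdc_mass_compl pos (T.side pos) W (closedBall z' ρ') y (i := 0) (j := y.n) fun k _ hk => (H.arc k hk).2
  have e2' := pvdc_mass_zero pos (T.side pos) W y (i := 0) (j := y.n) fun k _ hk => (H.arc k hk).1
  have e3 := pvdc_mass_compl pos (T.side pos) (closedBall z' ρ') W 𝔖'.inn (i := 0) (j := 𝔖'.ip) fun k _ hk => H.ent k hk
  rw [Set.union_comm] at e3
  have t1 : pvwMass T pos (T.side pos) Set.univ 𝔖.inn 0 𝔖.inn.n = pos (𝔖.inn.v 𝔖.inn.n) - pos (𝔖.inn.v 0) := by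
    rw [pvdc_mass_univ_psum, pvdc_psum_side]
  have t2 : pvwMass T pos (T.side pos) Set.univ y 0 y.n = pos (y.v y.n) - pos (y.v 0) := by
    rw [pvdc_mass_univ_psum, pvdc_psum_side]
  have t3 : pvwMass T pos (T.side pos) Set.univ 𝔖'.inn 0 𝔖'.ip = pos (𝔖'.inn.v 𝔖'.ip) - pos (𝔖'.inn.v 0) := by
    rw [pvdc_mass_univ]
    exact pvdc_tele (fun k => pos (𝔖'.inn.v k)) _ (Nat.zero_le _) fun k _ hk => by
      rw [pvdc_side_opp, 𝔖'.inn.tgt_e k (lt_of_lt_of_le hk H.ip'), 𝔖'.inn.src_e k (lt_of_lt_of_le hk H.ip')]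
  rw [e1, e2, e2', e3, t1, t2, t3, H.h0, H.h1]
  unfold pvdcCV pvvfCut
  ring

end map

/-! ## 2. the masks from the kit of 290, the mesh of the tags and four metric lines -/

section prod

variable {V D : Type} {T : PvMap V D} {pos : V → ℂ} {s : V → Bool} {𝔖 𝔖' : PvwSt T} {y : T.Pth} {z z' : ℂ} {ra rb ra' rb' ρ' μ : ℝ} {A W : Set ℂ}

/-- **PRODUCER OF `PvvfLk`**.      `G`, `G'` = the two gates in absolute positions, `F` = the one-vertex facts of the link (290);   `hm*` = mesh: a tag lies within `μ` of the first vertex of its edge, along the three pieces;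
`hA` = THE MARGIN AT THE CUT LINE;   `hρ` = the cut-off disc is well inside the gate annulus of the pin;   `hzz` = the disc of the door is far from the cut-off disc;   `hW` = the dropped region is far from the disc of the pin. -/
theorem pvvf_lk_of (hT : T.IsSph) (G : PvjzG T pos s 𝔖 z ra rb) (G' : PvjzG T pos s 𝔖' z' ra' rb') (F : PvjzLk T pos s 𝔖 𝔖' y z z' ra ra' A)
    (hm1 : ∀ k, k < 𝔖.inn.n → ‖T.bary pos (T.opp (𝔖.inn.e k)) - pos (𝔖.inn.v k)‖ ≤ μ)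
    (hm2 : ∀ k, k < y.n → ‖T.bary pos (T.opp (y.e k)) - pos (y.v k)‖ ≤ μ)
    (hm3 : ∀ k, k < 𝔖'.ip → ‖T.bary pos (T.opp (𝔖'.inn.e k)) - pos (𝔖'.inn.v k)‖ ≤ μ)
    (hA : ∀ a ∈ A, ∀ x, ‖x - a‖ ≤ μ → x ∉ W) (hρ : ρ' + μ < ra') (hzz : rb + μ + ρ' ≤ ‖z - z'‖) (hW : ∀ x ∈ W, rb' + μ ≤ ‖x - z'‖) :
    PvvfLk pos W (closedBall z' ρ') 𝔖 𝔖' y where
  ip' := G'.ip_le
  inn := fun k hk hc => by
    have h1 := G.inside _ (pvjz_inn_ins hT G (le_of_lt hk))
    have h2 := hm1 k hk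
    rw [mem_closedBall_iff_norm] at hc
    have : ‖z - z'‖ ≤ ‖T.bary pos (T.opp (𝔖.inn.e k)) - z'‖ + ‖T.bary pos (T.opp (𝔖.inn.e k)) - pos (𝔖.inn.v k)‖ + ‖pos (𝔖.inn.v k) - z‖ := by
      calc ‖z - z'‖ = ‖(T.bary pos (T.opp (𝔖.inn.e k)) - z') - (T.bary pos (T.opp (𝔖.inn.e k)) - pos (𝔖.inn.v k)) - (pos (𝔖.inn.v k) - z)‖ := by ring_nf
        _ ≤ _ := (norm_sub_le _ _).trans (add_le_add (norm_sub_le _ _) le_rfl)
    linarith
  arc := fun k hk => ⟨hA _ (F.inA k (le_of_lt hk)) _ (hm2 k hk), pvdc_tag_off (hm2 k hk) (lt_of_lt_of_le hρ (F.far k (le_of_lt hk)).2)⟩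
  ent := fun k hk hc => by
    have h1 := G'.inside _ (pvjz_inn_ins hT G' (le_of_lt (lt_of_lt_of_le hk G'.ip_le)))
    have h2 := hm3 k hk
    have h3 := hW _ hc
    have : ‖T.bary pos (T.opp (𝔖'.inn.e k)) - z'‖ ≤ ‖T.bary pos (T.opp (𝔖'.inn.e k)) - pos (𝔖'.inn.v k)‖ + ‖pos (𝔖'.inn.v k) - z'‖ := by
      calc ‖T.bary pos (T.opp (𝔖'.inn.e k)) - z'‖ = ‖(T.bary pos (T.opp (𝔖'.inn.e k)) - pos (𝔖'.inn.v k)) + (pos (𝔖'.inn.v k) - z')‖ := by ring_nf
        _ ≤ _ := norm_add_le _ _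
    linarith
  h0 := by rw [F.v0, pvjz_inn_vn G]
  h1 := by rw [F.vn, pvjz_inn_v0 G']

end prod

/-! ## 3. at `Tr/InstL` -/

section inst

/-- the mask of a link door → pin whose tags are cut by `Wᶜ` -/
theorem pvvf_msk {L : PvilLk} (hdr : L.dr = true) (hdr' : L.dr' = false) {W : Set ℂ} (hMk : L.Mk = Wᶜ) (N : PvwNum) : L.msk N = (W ∪ closedBall L.p'.z (N.m * L.p'.h))ᶜ := by
  unfold PvilLk.msk PvilLk.ball'
  rw [hdr, hdr', hMk]
  ext x
  simp only [if_true, Bool.false_eq_true, if_false, empty_union, mem_sdiff, mem_compl_iff, mem_union, not_or]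

/-- **(T) AT `Tr/InstL`, DETERMINISTIC**: the `V`-value of a link door → pin is (cut point of the pin) − (cut point of the door) -/
theorem pvvf_val {L : PvilLk} (hdr : L.dr = true) (hdr' : L.dr' = false) {W : Set ℂ} (hMk : L.Mk = Wᶜ) (N : PvwNum) {η : Conf PvPt} {𝔖 𝔖' : PvwSt (pvieT η)} {y : (pvieT η).Pth}
    (H : PvvfLk (pviePos η) W (closedBall L.p'.z (N.m * L.p'.h)) 𝔖 𝔖' y) :
    L.val N η (pvilV η) 𝔖 𝔖' y = pvdcCV 𝔖' (pviePos η) L.p'.z (N.m * L.p'.h) - pvvfCut 𝔖 (pviePos η) W := by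
  rw [← pvvf_tele H]
  unfold PvilLk.val
  rw [pvvf_msk hdr hdr' hMk, hdr, hdr']
  simp only [if_true, Bool.false_eq_true, if_false, zero_add]
  rfl

end inst

end Claimed.Agent.R289
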