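import Claimed.Agent.R289.Tr.Blind
import Claimed.Agent.R289.Tr.InstL
import Claimed.Agent.R289.Del.Seam

/-!
# Row 289 (S0537), THE WALL, ROAD E, file Tr/GenP : GENERIC GEOMETRY `pvP`-ALMOST SURELY;   SOFT SUCCESS ALONG AN EXPERIMENT GIVES A PLAIN COMPLETION      (helper189; prefix `pvyv`)

`Tr/Blind` (141): `pvbqGen ε C Wn p Y` holds for `pvGeo`-a.e. geometry, for `pvLaw`-a.e. sample, off a set of `pvhbUp`-mass `0`.      The leaves of `thick` / `V` (`PvekDat.At`, `PvyqPlug.At.frc`) are typed `∀ᵐ ω ∂pvP ε` ON CONFIGURATIONS,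
and a `pvLaw`-null set of samples need not be the preimage of a `pvP`-null set (no measurability of `Gen`).      HERE: the same statement `pvP`-a.e., by PARTIAL FLIPS: the exchange of the colours over a Borel set `B` preserves `pvP`;
countably many `B` (finite unions of a countable basis) realise ALL the recolourings of the finitely many sites of a bounded window.
* sec. 1  `pvyvFl B`, `pvyv_fl_lintegral`, `pvyv_sep`, **`pvyv_all_col`** (a measurable `f ≥ 0` of mean `0` read in a bounded window vanishes at a.e. configuration FOR ALL RECOLOURINGS)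
* sec. 2  **`pvyv_gen_P`** : `∀ᵐ ω ∂pvP ε, pvbqGen ε C Wn p (cfSites ω)`;   `pvyv_gen_P_all` (countably many windows)
* sec. 3  **`pvyv_gen_R`** : at a generic geometry, for EVERY choice `yf` of recoloured sites, for a.e. seed, for a.e. completion off the window, `p` holds along `pvdyR C yf ω`
* sec. 4  **`pvyv_soft`** : (T1) soft success `pvilSA` along the experiment ⟹ ONE completion `ζ` off the window with `ζ ∈ M`, `F ζ =` the soft value, `Nice ζ`.      NO `soft ⟹ plain` at the configuration of the experiment itself is needed.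
-/

set_option autoImplicit false

namespace Claimed.Agent.R289

open MeasureTheory ProbabilityTheory Set Claims.C0465
open scoped ENNReal

/-! ## 1. partial flips -/

/-- the colours are exchanged over `B` -/
def pvyvFl (B : Set ℂ) (η : Conf PvPt) : Conf PvPt := Conf.spl (B ×ˢ univ) (cfFlip η, η)

theorem pvyv_eqns_cite0 : True := by
  have := @pvyvFl.eq_1
  trivial

theorem pvyv_mem_fl {B : Set ℂ} {η : Conf PvPt} {p : PvPt} : p ∈ (pvyvFl B η).pts ↔ (p.1 ∈ B ∧ (p.1, !p.2) ∈ η.pts) ∨ (p.1 ∉ B ∧ p ∈ η.pts) := by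
  simp only [pvyvFl, Conf.spl, Conf.union, Conf.restr, mem_union, mem_inter_iff, mem_prod, mem_compl_iff, mem_univ, and_true, pvky_mem_flip]
  tauto

theorem pvyv_fl_measurable {B : Set ℂ} (hB : MeasurableSet B) : Measurable (pvyvFl B) :=
  (Conf.measurable_spl (hB.prod MeasurableSet.univ)).comp (measurable_cfFlip.prodMk measurable_id)

/-- a partial flip preserves the law -/
theorem pvyv_fl_lintegral (ε : ℝ) {B : Set ℂ} (hB : MeasurableSet B) {f : Conf PvPt → ℝ≥0∞} (mf : Measurable f) : ∫⁻ η, f (pvyvFl B η) ∂pvP ε = ∫⁻ η, f η ∂pvP ε := by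
  have hP := pv_isPpp ε
  have := hP.prob
  have hB' : MeasurableSet (B ×ˢ (univ : Set Bool)) := hB.prod MeasurableSet.univ
  have m0 : Measurable fun η => f (pvyvFl B η) := mf.comp (pvyv_fl_measurable hB)
  rw [hP.lintegral_spl hB' m0, hP.lintegral_spl hB' mf]
  have e : ∀ σ η : Conf PvPt, pvyvFl B (Conf.spl (B ×ˢ univ) (σ, η)) = Conf.spl (B ×ˢ univ) (cfFlip σ, η) := by
    intro σ η
    ext p
    rw [pvyv_mem_fl]
    simp only [Conf.spl, Conf.union, Conf.restr, mem_union, mem_inter_iff, mem_prod, mem_compl_iff, mem_univ, and_true, pvky_mem_flip]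
    tauto
  simp only [e]
  have mg : Measurable fun σ : Conf PvPt => ∫⁻ η, f (Conf.spl (B ×ˢ univ) (σ, η)) ∂pvP ε := (mf.comp (Conf.measurable_spl hB')).lintegral_prod_right'
  have e1 : ∫⁻ σ, ∫⁻ η, f (Conf.spl (B ×ˢ univ) (σ, η)) ∂pvP ε ∂pvP ε = ∫⁻ σ, ∫⁻ η, f (Conf.spl (B ×ˢ univ) (σ, η)) ∂pvP ε ∂((pvP ε).map cfFlip) := by rw [pvP_flip ε]
  rw [e1, lintegral_map mg measurable_cfFlip]

/-- the countable family of Borel sets -/
def pvyvB (s : Finset (TopologicalSpace.countableBasis ℂ)) : Set ℂ := ⋃ u ∈ s, (u : Set ℂ)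

theorem pvyv_B_measurable (s : Finset (TopologicalSpace.countableBasis ℂ)) : MeasurableSet (pvyvB s) :=
  Finset.measurableSet_biUnion s fun u _ => (TopologicalSpace.isOpen_of_mem_countableBasis u.2).measurableSet

/-- a finite set inside an open set is covered by a member of the family inside the open set -/
theorem pvyv_sep {S : Set ℂ} (hS : S.Finite) {U : Set ℂ} (hU : IsOpen U) (hSU : S ⊆ U) : ∃ s, S ⊆ pvyvB s ∧ pvyvB s ⊆ U := by
  classical
  induction S, hS using Set.Finite.induction_on with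
  | empty => exact ⟨∅, empty_subset _, by simp [pvyvB]⟩
  | @insert a S _ _ ih =>
    obtain ⟨s, h1, h2⟩ := ih ((subset_insert a S).trans hSU)
    obtain ⟨v, hv, hav, hvU⟩ := (TopologicalSpace.isBasis_countableBasis ℂ).exists_subset_of_mem_open (hSU (mem_insert a S)) hU
    refine ⟨insert ⟨v, hv⟩ s, ?_, ?_⟩
    · intro x hx
      rcases hx with rfl | hx
      · exact mem_biUnion (Finset.mem_insert_self _ _) hav
      · obtain ⟨u, hu, hxu⟩ := mem_iUnion₂.1 (h1 hx)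
        exact mem_biUnion (Finset.mem_insert_of_mem hu) hxu
    · intro x hx
      obtain ⟨u, hu, hxu⟩ := mem_iUnion₂.1 hx
      rcases Finset.mem_insert.1 hu with rfl | hu
      · exact hvU hxu
      · exact h2 (mem_biUnion hu hxu)

theorem pvyv_eqns_cite1 : True := by
  have := @pvyvB.eq_1
  trivial

/-- membership in a configuration with one colour per site -/
theorem pvyv_mem_of_ok {η : Conf PvPt} (a2 : CfOK η) (q : PvPt) : q ∈ η.pts ↔ q.1 ∈ cfSites η ∧ q.2 = cfCol η q.1 := by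
  obtain ⟨z, b⟩ := q
  have hcol : cfCol η z = true ↔ (z, true) ∈ η.pts := by
    classical
    unfold cfCol
    exact decide_eq_true_iff
  constructor
  · intro hq
    refine ⟨⟨(z, b), hq, rfl⟩, ?_⟩
    show b = cfCol η z
    cases b
    · by_contra hh
      have h1 : cfCol η z = true := by
        cases h : cfCol η z
        · exact absurd h.symm hh
        · rfl
      have := a2.col _ (hcol.1 h1) _ hq rfl
      simp at this
    · exact (hcol.2 hq).symm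
  · rintro ⟨⟨p, hp, hpz⟩, hb⟩
    have hpz' : p.1 = z := hpz
    have hb' : b = cfCol η z := hb
    by_cases h1 : (z, true) ∈ η.pts
    · rw [hb', hcol.2 h1]; exact h1
    · have h2 : cfCol η z = false := by
        cases h : cfCol η z
        · rfl
        · exact absurd (hcol.1 h) h1
      rw [hb', h2]
      obtain ⟨p1, p2⟩ := p
      subst hpz'
      cases p2
      · exact hp
      · exact absurd hp h1

theorem pvyv_fn_of_ok {η : Conf PvPt} (h : CfOK η) : cfOf (cfSites η) (cfCol η) = η := by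
  ext q
  exact (pvyv_mem_of_ok h q).symm

/-- **ALL RECOLOURINGS AT ONCE, `pvP`-ALMOST SURELY** -/
theorem pvyv_all_col {ε : ℝ} (hε : 0 < ε) {O : Set ℂ} (hO : Bornology.IsBounded O) {f : Conf PvPt → ℝ≥0∞} (mf : Measurable f) (hr : Conf.Reads (O ×ˢ univ) f) (h0 : ∫⁻ η, f η ∂pvP ε = 0) :
    ∀ᵐ η ∂pvP ε, ∀ σ : ℂ → Bool, f (cfOf (cfSites η) σ) = 0 := by
  have : Countable (TopologicalSpace.countableBasis ℂ) := (TopologicalSpace.countable_countableBasis ℂ).to_subtype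
  have h1 : ∀ᵐ η ∂pvP ε, ∀ s, f (pvyvFl (pvyvB s) η) = 0 := by
    refine ae_all_iff.2 fun s => ?_
    have m1 : Measurable fun η => f (pvyvFl (pvyvB s) η) := mf.comp (pvyv_fl_measurable (pvyv_B_measurable s))
    exact (lintegral_eq_zero_iff m1).1 (by rw [pvyv_fl_lintegral ε (pvyv_B_measurable s) mf, h0])
  filter_upwards [h1, dls_ae_conf hε, pvcn_LF_ae ε] with η a1 a2 a3 σ
  obtain ⟨R, hR⟩ := hO.subset_closedBall 0
  have hfin : (cfSites η ∩ O).Finite := by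
    refine ((pvfm_lf_ball a3 0 R).image Prod.fst).subset ?_
    rintro z ⟨⟨p, hp, rfl⟩, hz⟩
    refine ⟨p, ⟨hp, ?_⟩, rfl⟩
    have := hR hz
    rw [Metric.mem_closedBall, dist_zero_right] at this
    show ‖(0 : ℂ) - p.1‖ ≤ R
    rwa [zero_sub, norm_neg]
  have eη : ∀ q : PvPt, q ∈ η.pts ↔ q.1 ∈ cfSites η ∧ q.2 = cfCol η q.1 := pvyv_mem_of_ok a2
  set S : Set ℂ := {z | z ∈ cfSites η ∩ O ∧ σ z ≠ cfCol η z} with hS
  set T : Set ℂ := {z | z ∈ cfSites η ∩ O ∧ σ z = cfCol η z} with hT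
  have fS : S.Finite := hfin.subset fun z hz => hz.1
  have fT : T.Finite := hfin.subset fun z hz => hz.1
  obtain ⟨s, s1, s2⟩ := pvyv_sep fS fT.isClosed.isOpen_compl (fun z hz hz' => hz.2 hz'.2)
  rw [← a1 s]
  refine hr.eq_of_restr ?_
  ext p
  simp only [Conf.restr, mem_inter_iff, mem_prod, mem_univ, and_true, pvyv_mem_fl, eη]
  show (p.1 ∈ cfSites η ∧ p.2 = σ p.1) ∧ p.1 ∈ O ↔ _
  by_cases hO' : p.1 ∈ O
  swap
  · simp only [hO', and_false]
  by_cases hY : p.1 ∈ cfSites η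
  swap
  · simp only [hY, false_and, and_false, or_self]
  simp only [hO', hY, true_and, and_true]
  by_cases hc : σ p.1 = cfCol η p.1
  · have hB : p.1 ∉ pvyvB s := fun h => s2 h ⟨⟨hY, hO'⟩, hc⟩
    simp only [hB, false_and, not_false_eq_true, true_and, false_or, hc]
  · have hB : p.1 ∈ pvyvB s := s1 ⟨⟨hY, hO'⟩, hc⟩
    simp only [hB, true_and, not_true_eq_false, false_and, or_false]
    revert hc
    cases p.2 <;> cases σ p.1 <;> cases cfCol η p.1 <;> simp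

/-! ## 2. generic geometry, `pvP`-almost surely -/

/-- **`pvP`-ALMOST EVERY CONFIGURATION HAS A GENERIC GEOMETRY**      (`pvbq_gen_ae` of 141 on configurations) -/
theorem pvyv_gen_P {ε : ℝ} (hε : 0 < ε) {C Wn : Set ℂ} {p : Conf PvPt → Prop} (hC : MeasurableSet C) (hW : MeasurableSet Wn) (hb : Bornology.IsBounded Wn) (hp : ∀ᵐ η ∂(pvP ε), p η) :
    ∀ᵐ ω ∂(pvP ε), pvbqGen ε C Wn p (cfSites ω) := by
  have := (pv_isPpp ε).prob
  have hW' : MeasurableSet (Wn ×ˢ (univ : Set Bool)) := hW.prod MeasurableSet.univ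
  have hC' : MeasurableSet (Cᶜ ×ˢ (univ : Set Bool)) := hC.compl.prod MeasurableSet.univ
  set N : Set (Conf PvPt) := toMeasurable (pvP ε) {η | ¬ p η} with hN
  have mN : MeasurableSet N := measurableSet_toMeasurable _ _
  have N0 : pvP ε N = 0 := by rw [hN, measure_toMeasurable]; exact hp
  have m0 : Measurable (N.indicator (1 : Conf PvPt → ℝ≥0∞)) := measurable_one.indicator mN
  let f₁ : Conf PvPt → ℝ≥0∞ := fun η => ∫⁻ ξ, N.indicator 1 (Conf.spl (Wn ×ˢ univ) (η, ξ)) ∂(pvP ε)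
  have m1 : Measurable f₁ := (m0.comp (Conf.measurable_spl hW')).lintegral_prod_right'
  let f₂ : Conf PvPt → ℝ≥0∞ := fun η => ∫⁻ ω₂, f₁ (Conf.spl (Cᶜ ×ˢ univ) (η, ω₂)) ∂(pvP ε)
  have m2 : Measurable f₂ := (m1.comp (Conf.measurable_spl hC')).lintegral_prod_right'
  have i2 : ∫⁻ η, f₂ η ∂(pvP ε) = 0 := by
    rw [← (pv_isPpp ε).lintegral_spl hC' m1, ← (pv_isPpp ε).lintegral_spl hW' m0, lintegral_indicator_one mN, N0]
  have r1 : Conf.Reads (Wn ×ˢ univ) f₁ := fun η => by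
    show ∫⁻ ξ, N.indicator 1 (Conf.spl (Wn ×ˢ univ) (Conf.restr (Wn ×ˢ univ) η, ξ)) ∂(pvP ε) = _
    simp_rw [Conf.spl_restr]
    rfl
  have r2 : Conf.Reads (Wn ×ˢ univ) f₂ := fun η => by
    show ∫⁻ ω₂, f₁ (Conf.spl (Cᶜ ×ˢ univ) (Conf.restr (Wn ×ˢ univ) η, ω₂)) ∂(pvP ε) = ∫⁻ ω₂, f₁ (Conf.spl (Cᶜ ×ˢ univ) (η, ω₂)) ∂(pvP ε)
    refine lintegral_congr fun ω₂ => r1.eq_of_restr ?_
    ext x
    simp only [Conf.restr, Conf.spl, Conf.union, mem_inter_iff, mem_union, mem_compl_iff]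
    tauto
  filter_upwards [pvyv_all_col hε hb m2 r2 i2] with ω hg τ
  have h1 : f₂ (cfOf (cfSites ω) τ) = 0 := hg τ
  have h2 : ∀ᵐ ω₂ ∂(pvP ε), f₁ (Conf.spl (Cᶜ ×ˢ univ) (cfOf (cfSites ω) τ, ω₂)) = 0 :=
    (lintegral_eq_zero_iff (m1.comp ((Conf.measurable_spl hC').comp measurable_prodMk_left))).1 h1
  filter_upwards [h2] with ω₂ h3
  have h4 : ∀ᵐ ξ ∂(pvP ε), N.indicator (1 : Conf PvPt → ℝ≥0∞) (Conf.spl (Wn ×ˢ univ) (Conf.spl (Cᶜ ×ˢ univ) (cfOf (cfSites ω) τ, ω₂), ξ)) = 0 :=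
    (lintegral_eq_zero_iff (m0.comp ((Conf.measurable_spl hW').comp measurable_prodMk_left))).1 h3
  filter_upwards [h4] with ξ h5
  by_contra hn
  have h6 : Conf.spl (Wn ×ˢ univ) (Conf.spl (Cᶜ ×ˢ univ) (cfOf (cfSites ω) τ, ω₂), ξ) ∈ N := subset_toMeasurable _ _ hn
  rw [indicator_of_mem h6] at h5
  exact one_ne_zero h5

/-- countably many regions, windows, properties -/
theorem pvyv_gen_P_all {ε : ℝ} (hε : 0 < ε) {ι : Type*} [Countable ι] {Cs Ws : ι → Set ℂ} {P : ι → Conf PvPt → Prop} (hC : ∀ k, MeasurableSet (Cs k)) (hW : ∀ k, MeasurableSet (Ws k))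
    (hb : ∀ k, Bornology.IsBounded (Ws k)) (hp : ∀ k, ∀ᵐ η ∂(pvP ε), P k η) : ∀ᵐ ω ∂(pvP ε), ∀ k, pvbqGen ε (Cs k) (Ws k) (P k) (cfSites ω) :=
  ae_all_iff.2 fun k => pvyv_gen_P hε (hC k) (hW k) (hb k) (hp k)

/-! ## 3. along an experiment -/

/-- at a generic geometry with finitely many sites in the window the exceptional set of the fresh configuration serves ALL the colourings -/
theorem pvyv_gen_tau {ε : ℝ} {C Wn Y : Set ℂ} {p : Conf PvPt → Prop} (hfin : (Y ∩ Wn).Finite) (hG : pvbqGen ε C Wn p Y) :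
    ∀ᵐ ω₂ ∂(pvP ε), ∀ τ : ℂ → Bool, ∀ᵐ ξ ∂(pvP ε), p (pvbqZ C Wn Y τ ω₂ ξ) := by
  set V : Finset ℂ := hfin.toFinset with hV
  have h1 : ∀ᵐ ω₂ ∂(pvP ε), ∀ x : V → Bool, ∀ᵐ ξ ∂(pvP ε), p (pvbqZ C Wn Y (cfExt V x) ω₂ ξ) := ae_all_iff.2 fun x => hG _
  filter_upwards [h1] with ω₂ h2 τ
  have e : ∀ ξ, pvbqZ C Wn Y τ ω₂ ξ = pvbqZ C Wn Y (cfExt V fun z : V => τ z) ω₂ ξ := fun ξ => by
    refine pvbq_Z_congr rfl (fun _ _ _ => Iff.rfl) (fun z hz hW _ => ?_) ω₂ ξ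
    have hzV : z ∈ V := hfin.mem_toFinset.2 ⟨hz, hW⟩
    unfold cfExt
    rw [dif_pos hzV]
  simp_rw [e]
  exact h2 _

/-- **ALONG THE EXPERIMENT**: at a generic geometry, for EVERY choice of the recoloured sites, for a.e. seed, for a.e. completion off the window -/
theorem pvyv_gen_R {ε : ℝ} {C Wn : Set ℂ} {p : Conf PvPt → Prop} {ω : Conf PvPt} (hω : cfOf (cfSites ω) (cfCol ω) = ω) (hfin : (cfSites ω ∩ Wn).Finite) (hG : pvbqGen ε C Wn p (cfSites ω))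
    (yf : Conf PvPt → Set ℂ) : ∀ᵐ q ∂pvdyNu ε, ∀ᵐ ξ ∂(pvP ε), p (Conf.spl (Wn ×ˢ univ) (pvdyR C yf ω q, ξ)) := by
  have := (pv_isPpp ε).prob
  have h1 := pvyv_gen_tau hfin hG
  have hsub : {q : (ℂ → Bool) × Conf PvPt | ¬ ∀ᵐ ξ ∂(pvP ε), p (Conf.spl (Wn ×ˢ univ) (pvdyR C yf ω q, ξ))}
      ⊆ univ ×ˢ {ω₂ | ¬ ∀ τ : ℂ → Bool, ∀ᵐ ξ ∂(pvP ε), p (pvbqZ C Wn (cfSites ω) τ ω₂ ξ)} := by
    rintro ⟨κ, ω₂⟩ hq
    refine ⟨mem_univ _, fun hall => hq ?_⟩
    have e := pvbq_R_eq C yf (cfSites ω) (cfCol ω) κ ω₂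
    rw [hω] at e
    rw [e]
    exact hall _
  refine measure_mono_null hsub ?_
  unfold pvdyNu
  rw [Measure.prod_prod]
  have h0 : pvP ε {ω₂ | ¬ ∀ τ : ℂ → Bool, ∀ᵐ ξ ∂(pvP ε), p (pvbqZ C Wn (cfSites ω) τ ω₂ ξ)} = 0 := h1
  rw [h0, mul_zero]

/-- the sites of a locally finite configuration in a bounded set -/
theorem pvyv_sites_fin {η : Conf PvPt} (h : PvLF η) {O : Set ℂ} (hO : Bornology.IsBounded O) : (cfSites η ∩ O).Finite := by
  obtain ⟨R, hR⟩ := hO.subset_closedBall 0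
  refine ((pvfm_lf_ball h 0 R).image Prod.fst).subset ?_
  rintro z ⟨⟨p, hp, rfl⟩, hz⟩
  refine ⟨p, ⟨hp, ?_⟩, rfl⟩
  have := hR hz
  rw [Metric.mem_closedBall, dist_zero_right] at this
  show ‖(0 : ℂ) - p.1‖ ≤ R
  rwa [zero_sub, norm_neg]

/-- **AN ALMOST SURE PROPERTY ALONG ALL THE EXPERIMENTS AT A.E. BASE**, through countably many bounded windows -/
theorem pvyv_ae_R {ε : ℝ} (hε : 0 < ε) {ι : Type*} [Countable ι] {C : Set ℂ} (hC : MeasurableSet C) {Ws : ι → Set ℂ} {P : ι → Conf PvPt → Prop} (hW : ∀ k, MeasurableSet (Ws k))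
    (hb : ∀ k, Bornology.IsBounded (Ws k)) (hp : ∀ k, ∀ᵐ η ∂(pvP ε), P k η) :
    ∀ᵐ ω ∂(pvP ε), ∀ yf : Conf PvPt → Set ℂ, ∀ᵐ q ∂pvdyNu ε, ∀ k, ∀ᵐ ξ ∂(pvP ε), P k (Conf.spl (Ws k ×ˢ univ) (pvdyR C yf ω q, ξ)) := by
  filter_upwards [pvyv_gen_P_all hε (fun _ => hC) hW hb hp, dls_ae_conf hε, pvcn_LF_ae ε] with ω a1 a2 a3 yf
  exact ae_all_iff.2 fun k => pvyv_gen_R (pvyv_fn_of_ok a2) (pvyv_sites_fin a3 (hb k)) (a1 k) yf

/-! ## 4. soft success along an experiment gives a plain completion -/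

/-- at ONE configuration: soft success + (hull = plain event, `Nice`) at a.e. completion ⟹ ONE completion with the plain event, the plain value = THE SOFT VALUE, `Nice` -/
theorem pvyv_soft_pt {ε : ℝ} {Wn : Set ℂ} (hW : MeasurableSet Wn) {M : Set (Conf PvPt)} {F : Conf PvPt → ℂ} {Nice : Conf PvPt → Prop} {η : Conf PvPt}
    (h : ∀ᵐ ξ ∂(pvP ε), (Conf.spl (Wn ×ˢ univ) (η, ξ) ∈ toMeasurable (pvP ε) (M ∩ {η | F η = pvilLoc ε Wn M F η}) → Conf.spl (Wn ×ˢ univ) (η, ξ) ∈ M ∩ {η | F η = pvilLoc ε Wn M F η}) ∧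
      Nice (Conf.spl (Wn ×ˢ univ) (η, ξ))) (hη : η ∈ pvilSA ε Wn M F) :
    ∃ ξ, Conf.spl (Wn ×ˢ univ) (η, ξ) ∈ M ∧ F (Conf.spl (Wn ×ˢ univ) (η, ξ)) = pvilLoc ε Wn M F η ∧ Nice (Conf.spl (Wn ×ˢ univ) (η, ξ)) := by
  have := (pv_isPpp ε).prob
  have h1 := (pvbq_sure_ae (hW.prod MeasurableSet.univ)).1 hη
  obtain ⟨ξ, a, b⟩ := (h1.and h).exists
  have c := b.1 a
  refine ⟨ξ, c.1, ?_, b.2⟩
  have e : pvilLoc ε Wn M F (Conf.spl (Wn ×ˢ univ) (η, ξ)) = pvilLoc ε Wn M F η := (pvsu_loc_reads (pvP ε) (Wn ×ˢ univ) (M.indicator F)).eq_of_restr (Conf.restr_spl _ _)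
  rw [← e]
  exact c.2

/-- **(T1) SOFT SUCCESS ALONG THE EXPERIMENT GIVES A PLAIN COMPLETION**: a.e. base, EVERY choice of the recoloured sites, a.e. seed, all the (countably many) windows -/
theorem pvyv_soft {ε : ℝ} (hε : 0 < ε) {ι : Type*} [Countable ι] {C : Set ℂ} (hC : MeasurableSet C) {Ws : ι → Set ℂ} (hW : ∀ k, MeasurableSet (Ws k)) (hb : ∀ k, Bornology.IsBounded (Ws k))
    {M : ι → Set (Conf PvPt)} {F : ι → Conf PvPt → ℂ} (hM : ∀ k, NullMeasurableSet (M k ∩ {η | F k η = pvilLoc ε (Ws k) (M k) (F k) η}) (pvP ε)) {Nice : Conf PvPt → Prop} (hN : ∀ᵐ η ∂(pvP ε), Nice η) :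
    ∀ᵐ ω ∂(pvP ε), ∀ yf : Conf PvPt → Set ℂ, ∀ᵐ q ∂pvdyNu ε, ∀ k, pvdyR C yf ω q ∈ pvilSA ε (Ws k) (M k) (F k) →
      ∃ ξ, Conf.spl (Ws k ×ˢ univ) (pvdyR C yf ω q, ξ) ∈ M k ∧ F k (Conf.spl (Ws k ×ˢ univ) (pvdyR C yf ω q, ξ)) = pvilLoc ε (Ws k) (M k) (F k) (pvdyR C yf ω q) ∧
        Nice (Conf.spl (Ws k ×ˢ univ) (pvdyR C yf ω q, ξ)) := by
  have hp : ∀ k, ∀ᵐ ζ ∂(pvP ε), (ζ ∈ toMeasurable (pvP ε) (M k ∩ {η | F k η = pvilLoc ε (Ws k) (M k) (F k) η}) → ζ ∈ M k ∩ {η | F k η = pvilLoc ε (Ws k) (M k) (F k) η}) ∧ Nice ζ := fun k => by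
    filter_upwards [pvsu_toMeasurable_iff (hM k), hN] with ζ a b
    exact ⟨a.1, b⟩
  filter_upwards [pvyv_ae_R hε hC hW hb hp] with ω h1 yf
  filter_upwards [h1 yf] with q h2 k hk
  exact pvyv_soft_pt (hW k) (h2 k) hk

end Claimed.Agent.R289
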