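import Claimed.Agent.R289.Tr.Geo
import Claimed.Agent.R289.Tr.Local
import Claimed.Agent.R289.Tr.Ind

/-!
# Row 289 (S0537), wall TR, file Tr/GeoLoc : TWO CONFIGURATIONS, ONE LOCAL ISOMORPHISM OF THEIR DELAUNAY PLANES      (owner helper29; prefix `pvge_`, `Pvge`, `pvge`; continuation of `Tr/Geo`)      0 sorry

THE INSTANCE of `PvLoc` (helper22, `Tr/Local`) that the probability of the wall needs: the SITE SET CHANGES (resampling, splice, restriction to a window).   `Tr/Local` sec. 5, `Tr/Loc`, `Arm/LocIso` compare two surfaces over the SAME site set.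
Every transfer along `PvLoc` (22 `Tr/Local`: `Pth RS Byp NB Col Cyc Left VOf Int`, strands `pvasIt`, hits;  264 `Tr/LocalF`: faced forms;  212 `Tr/DiA`;  219 `Arm/LocIso` sec. 2: `Inside Ann Join PvaxCr CONFIG6`) applies to it verbatim.
* §1 `PvgeDel Y P` (`P` presents the Delaunay plane of `Y`: `delPl h`, `delbPl Y`, `delPlT Y`);   `PvgeSame Y Y' K` (the same Delaunay triangles at the points of `K`);   `pvgeRel P P' K` (same end points, the face has a vertex in `K`);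
     **`pvge_loc`** : `PvLoc P.toMap P'.toMap (pvgeRel P P' K)`;   `pvge_rel_dom`, `pvge_rel_ran` (the shared part = the star of `K`), `pvge_loc_int`, `pvge_loc_int'` (the sites of `K` are FULL on both sides), `pvge_loc_v`, `pvge_loc_v_of` (vertex dictionary = equality of positions),
     `pvge_pos_eq`, `pvge_full`, `pvge_full'` (= the fields of the POSITIONED local isomorphism `PvLocP` of 22, `Tr/LocalW`: states, data, `Ok Cyl X NBU` are carried over), `pvge_same_site`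
* §2 the two sources of `PvgeSame`:   **K2** `pvge_same_core` (`Y ∩ U = Y' ∩ U`, mesh read in `U`: `K` = the `3ρ`-core of `U`),   **FAR** `pvge_same_far` (`Y \ C = Y' \ C`, mesh on the collar of `C`: `K = pvgeFar C ρ`);
     `PvgeAgr Y Y' K W` (+ the star of `K` lies in the region `W` of agreement), `pvge_agr_core`, `pvge_agr_far`, colours `pvge_rel_col`, fields `pvge_rel_bary`, `pvge_rel_side`, `pvge_rel_qpart`, `pvge_rel_upart`
* §3 `Conf` forms: `pvge_conf_sites`, `pvge_conf_col`;   **`pvge_conf_core`**, **`pvge_conf_far`** (two configurations with the same restriction to `U ×ˢ univ`, resp. `Cᶜ ×ˢ univ`);   splices **`pvge_spl_far`**, `pvge_spl_core` (`Conf.spl` of 159: field `rd` of `PvdmSys.Hyp`)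
* §4 consumer forms: `pvge_twin_pth` (a path through sites of `K` has a twin: same length, same positions), `pvge_twin_cyc`, `pvge_twin_col`, `pvge_twin_nb` (`NB^U`, `U ⊆ K`), `pvge_twin_it` (a strand which stays in the star of `K` is the same strand)
-/

set_option autoImplicit false

namespace Claimed.Agent.R289

open Set Metric Relation Claimed.Agent.R291

/-! ## 1. the local isomorphism -/

section two

variable {Y Y' K K' C U : Set ℂ} {ρ : ℝ}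

/-- `P` is a presentation of the Delaunay triangulation of the plane on the sites `Y`   (`delPl h`, `delbPl Y`, `delPlT Y` for `DelGood Y`) -/
structure PvgeDel (Y : Set ℂ) (P : PlTri ↥Y) : Prop where
  gp : VorGP Y
  adj : ∀ a b : ↥Y, P.adj a b ↔ DelAdj Y a b
  tri : ∀ a b : ↥Y, P.adj a b → DelTri Y a b (P.apex a b)
  ne : ∀ a : ↥Y, ∃ b : ↥Y, P.adj a b

theorem pvge_del_ne (h : DelGood Y) (a : ↥Y) : ∃ b : ↥Y, DelAdj Y a b := by
  obtain ⟨b, hab⟩ := del_exists_adj h.lf a.2 (h.bdd _)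
  exact ⟨⟨b, hab.2.1⟩, hab⟩

theorem pvge_del_pl (h : DelGood Y) : PvgeDel Y (delPl h) := ⟨h.gp, fun _ _ => Iff.rfl, fun _ _ hab => delp_apex_spec h hab, pvge_del_ne h⟩

theorem pvge_del_bpl (h : DelGood Y) : PvgeDel Y (delbPl Y) :=
  ⟨h.gp, fun _ _ => ⟨fun hab => hab.2, fun hab => ⟨h, hab⟩⟩, fun _ _ hab => delp_apex_spec h hab.2, fun a => (pvge_del_ne h a).imp fun _ hab => ⟨h, hab⟩⟩

theorem pvge_del_plT (h : DelGood Y) : PvgeDel Y (delPlT Y) :=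
  ⟨h.gp, fun _ _ => ⟨fun hab => hab.2, fun hab => ⟨h, hab⟩⟩, fun _ _ hab => delp_apex_spec h hab.2, fun a => (pvge_del_ne h a).imp fun _ hab => ⟨h, hab⟩⟩

/-- the two site sets have THE SAME DELAUNAY TRIANGLES AT THE POINTS OF `K` -/
def PvgeSame (Y Y' K : Set ℂ) : Prop := ∀ a ∈ K, ∀ b c, DelTri Y a b c ↔ DelTri Y' a b c

/-- the darts of the two planes with the same end points, whose face has a vertex in `K` -/
def pvgeRel (P : PlTri ↥Y) (P' : PlTri ↥Y') (K : Set ℂ) (d : P.Dart) (d' : P'.Dart) : Prop :=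
  (d.1.1 : ℂ) = d'.1.1 ∧ (d.1.2 : ℂ) = d'.1.2 ∧ ((d.1.1 : ℂ) ∈ K ∨ (d.1.2 : ℂ) ∈ K ∨ (P.apex d.1.1 d.1.2 : ℂ) ∈ K)

theorem pvge_eqns_cite5 : True := by
  have := @PvgeSame.eq_1
  have := @pvgeRel.eq_1
  trivial

theorem PvgeSame.symm (h : PvgeSame Y Y' K) : PvgeSame Y' Y K := fun a ha b c => (h a ha b c).symm

theorem PvgeSame.mono (h : PvgeSame Y Y' K) (hK : K' ⊆ K) : PvgeSame Y Y' K' := fun a ha => h a (hK ha)

theorem PvgeSame.refl (Y K : Set ℂ) : PvgeSame Y Y K := fun _ _ _ _ => Iff.rfl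

/-- a face with a vertex in `K` -/
theorem PvgeSame.face (h : PvgeSame Y Y' K) {a b c : ℂ} (ht : DelTri Y a b c) (hs : a ∈ K ∨ b ∈ K ∨ c ∈ K) : DelTri Y' a b c := by
  rcases hs with hs | hs | hs
  · exact (h a hs b c).1 ht
  · exact del_tri_cyc (del_tri_cyc ((h b hs c a).1 (del_tri_cyc ht)))
  · exact del_tri_cyc ((h c hs a b).1 (del_tri_cyc (del_tri_cyc ht)))

/-- **K2**: equal on `U`, mesh on `U`: the same triangles at the `3ρ`-core -/
theorem pvge_same_core (hρ : 0 < ρ) (hYY : Y ∩ U = Y' ∩ U) (hm : PvtrMesh ρ U Y) : PvgeSame Y Y' (pvtrCore (3 * ρ) U) :=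
  fun _ ha _ _ => pvge_tri_loc hρ hYY hm ha

/-- **FAR**: equal off `C`, mesh on the collar of `C`: the same triangles at the far points -/
theorem pvge_same_far (hρ : 0 < ρ) (hYY : Y \ C = Y' \ C) (hd : VorDense Y (pvgeCollar C ρ) ρ) : PvgeSame Y Y' (pvgeFar C ρ) :=
  fun _ ha _ _ => pvge_far_tri hρ hYY hd ha

variable {P : PlTri ↥Y} {P' : PlTri ↥Y'}

theorem pvge_rel_apex (hP : PvgeDel Y P) (hP' : PvgeDel Y' P') (hK : PvgeSame Y Y' K) {d : P.Dart} {d' : P'.Dart} (h : pvgeRel P P' K d d') :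
    (P.apex d.1.1 d.1.2 : ℂ) = P'.apex d'.1.1 d'.1.2 := by
  have h1 := hK.face (hP.tri _ _ d.2) h.2.2
  have h2 := hP'.tri _ _ d'.2
  rw [← h.1, ← h.2.1] at h2
  exact del_tri_unique hP'.gp h1 h2

theorem pvge_rel_symm (hP : PvgeDel Y P) (hP' : PvgeDel Y' P') (hK : PvgeSame Y Y' K) {d : P.Dart} {d' : P'.Dart} (h : pvgeRel P P' K d d') : pvgeRel P' P K d' d := by
  refine ⟨h.1.symm, h.2.1.symm, ?_⟩
  rw [← h.1, ← h.2.1, ← pvge_rel_apex hP hP' hK h]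
  exact h.2.2

theorem pvge_rel_symm_iff (hP : PvgeDel Y P) (hP' : PvgeDel Y' P') (hK : PvgeSame Y Y' K) {d : P.Dart} {d' : P'.Dart} : pvgeRel P P' K d d' ↔ pvgeRel P' P K d' d :=
  ⟨pvge_rel_symm hP hP' hK, pvge_rel_symm hP' hP hK.symm⟩

/-- **TWO CONFIGURATIONS, LOCAL ISOMORPHISM OF THE PLANES**: the same triangles at the points of `K`  ⟹  the planes are locally isomorphic (22, `Tr/Local`) on the star of `K` -/
theorem pvge_loc (hP : PvgeDel Y P) (hP' : PvgeDel Y' P') (hK : PvgeSame Y Y' K) : PvLoc P.toMap P'.toMap (pvgeRel P P' K) where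
  iso :=
    { fn := fun h1 h2 => Subtype.ext (Prod.ext (Subtype.ext (h1.1.symm.trans h2.1)) (Subtype.ext (h1.2.1.symm.trans h2.2.1)))
      inj := fun h1 h2 => Subtype.ext (Prod.ext (Subtype.ext (h1.1.trans h2.1.symm)) (Subtype.ext (h1.2.1.trans h2.2.1.symm)))
      nxt := fun {d d'} h => by
        refine ⟨h.2.1, pvge_rel_apex hP hP' hK h, ?_⟩
        show (d.1.2 : ℂ) ∈ K ∨ (P.apex d.1.1 d.1.2 : ℂ) ∈ K ∨ (P.apex d.1.2 (P.apex d.1.1 d.1.2) : ℂ) ∈ K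
        rw [P.apex_rot d.2]
        rcases h.2.2 with h3 | h3 | h3
        · exact Or.inr (Or.inr h3)
        · exact Or.inl h3
        · exact Or.inr (Or.inl h3)
      opp := fun h1 h2 => Subtype.ext (Prod.ext (Subtype.ext (h2.1.symm.trans h1.2.1)) (Subtype.ext (h2.2.1.symm.trans h1.1)))
      opp' := fun h1 h2 => Subtype.ext (Prod.ext (Subtype.ext (h2.1.trans h1.2.1.symm)) (Subtype.ext (h2.2.1.trans h1.1.symm))) }
  vfn := fun {d e d' e'} h1 h2 hs => Subtype.ext (h1.1.symm.trans ((congrArg Subtype.val hs).trans h2.1))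
  vinj := fun {d e d' e'} h1 h2 hs => Subtype.ext (h1.1.trans ((congrArg Subtype.val hs).trans h2.1.symm))

/-- a dart whose face has a vertex in `K` has a twin -/
theorem pvge_rel_exists (hP : PvgeDel Y P) (hP' : PvgeDel Y' P') (hK : PvgeSame Y Y' K) (d : P.Dart) (hd : (d.1.1 : ℂ) ∈ K ∨ (d.1.2 : ℂ) ∈ K ∨ (P.apex d.1.1 d.1.2 : ℂ) ∈ K) :
    ∃ d' : P'.Dart, pvgeRel P P' K d d' := by
  have h1 := hK.face (hP.tri _ _ d.2) hd
  exact ⟨⟨(⟨d.1.1, h1.1⟩, ⟨d.1.2, h1.2.1⟩), (hP'.adj _ _).2 h1.adj⟩, rfl, rfl, hd⟩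

theorem pvge_rel_dom (hP : PvgeDel Y P) (hP' : PvgeDel Y' P') (hK : PvgeSame Y Y' K) :
    plDom (pvgeRel P P' K) = {d : P.Dart | (d.1.1 : ℂ) ∈ K ∨ (d.1.2 : ℂ) ∈ K ∨ (P.apex d.1.1 d.1.2 : ℂ) ∈ K} :=
  Subset.antisymm (fun _ ⟨_, h⟩ => h.2.2) fun d hd => pvge_rel_exists hP hP' hK d hd

theorem pvge_rel_ran (hP : PvgeDel Y P) (hP' : PvgeDel Y' P') (hK : PvgeSame Y Y' K) :
    plRan (pvgeRel P P' K) = {d : P'.Dart | (d.1.1 : ℂ) ∈ K ∨ (d.1.2 : ℂ) ∈ K ∨ (P'.apex d.1.1 d.1.2 : ℂ) ∈ K} := by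
  refine Subset.antisymm (fun _ ⟨_, h⟩ => (pvge_rel_symm hP hP' hK h).2.2) fun d hd => ?_
  obtain ⟨e, he⟩ := pvge_rel_exists hP' hP hK.symm d hd
  exact ⟨e, pvge_rel_symm hP' hP hK.symm he⟩

/-- the sites of `K` are FULL, on both sides -/
theorem pvge_loc_int (hP : PvgeDel Y P) (hP' : PvgeDel Y' P') (hK : PvgeSame Y Y' K) {v : ↥Y} (hv : (v : ℂ) ∈ K) : v ∈ P.toMap.Int (plDom (pvgeRel P P' K)) := by
  rintro d rfl
  exact pvge_rel_exists hP hP' hK d (Or.inl hv)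

theorem pvge_loc_int' (hP : PvgeDel Y P) (hP' : PvgeDel Y' P') (hK : PvgeSame Y Y' K) {v : ↥Y'} (hv : (v : ℂ) ∈ K) : v ∈ P'.toMap.Int (plRan (pvgeRel P P' K)) := by
  rintro d rfl
  rw [pvge_rel_ran hP hP' hK]
  exact Or.inl hv

/-- the fields `pos_eq`, `full`, `full'` of `PvLocP` (22, `Tr/LocalW`):   `PvLocP P.toMap P'.toMap (pvgeRel P P' K) Subtype.val Subtype.val K := ⟨pvge_loc .., pvge_pos_eq, pvge_full .., pvge_full' ..⟩` -/
theorem pvge_pos_eq : ∀ (d : P.Dart) (d' : P'.Dart), pvgeRel P P' K d d' → (Subtype.val (P.toMap.src d) : ℂ) = Subtype.val (P'.toMap.src d') := fun _ _ h => h.1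

theorem pvge_full (hP : PvgeDel Y P) (hP' : PvgeDel Y' P') (hK : PvgeSame Y Y' K) : ∀ v : ↥Y, (Subtype.val v : ℂ) ∈ K → v ∈ P.toMap.Int (plDom (pvgeRel P P' K)) ∧ ∃ d, P.toMap.src d = v := fun v hv => by
  obtain ⟨b, hb⟩ := hP.ne v
  exact ⟨pvge_loc_int hP hP' hK hv, ⟨(v, b), hb⟩, rfl⟩

theorem pvge_full' (hP : PvgeDel Y P) (hP' : PvgeDel Y' P') (hK : PvgeSame Y Y' K) : ∀ v : ↥Y', (Subtype.val v : ℂ) ∈ K → v ∈ P'.toMap.Int (plRan (pvgeRel P P' K)) ∧ ∃ d, P'.toMap.src d = v := fun v hv => by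
  obtain ⟨b, hb⟩ := hP'.ne v
  exact ⟨pvge_loc_int' hP hP' hK hv, ⟨(v, b), hb⟩, rfl⟩

/-- the sites of `K` are the same -/
theorem pvge_same_site (hP : PvgeDel Y P) (hK : PvgeSame Y Y' K) {a : ℂ} (ha : a ∈ K) (haY : a ∈ Y) : a ∈ Y' := by
  obtain ⟨b, hb⟩ := hP.ne ⟨a, haY⟩
  exact ((hK a ha _ _).1 (hP.tri _ _ hb)).1

/-- the vertex correspondence is the equality of the positions -/
theorem pvge_loc_v {v : ↥Y} {v' : ↥Y'} (h : pvlocV P.toMap P'.toMap (pvgeRel P P' K) v v') : (v : ℂ) = v' := by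
  obtain ⟨d, d', h1, rfl, rfl⟩ := h
  exact h1.1

/-- a site of `K` which has a dart corresponds to the same point of the other plane -/
theorem pvge_loc_v_of (hP : PvgeDel Y P) (hP' : PvgeDel Y' P') (hK : PvgeSame Y Y' K) (d : P.Dart) (hd : (d.1.1 : ℂ) ∈ K ∨ (d.1.2 : ℂ) ∈ K ∨ (P.apex d.1.1 d.1.2 : ℂ) ∈ K) {v' : ↥Y'}
    (hv : (d.1.1 : ℂ) = v') : pvlocV P.toMap P'.toMap (pvgeRel P P' K) d.1.1 v' := by
  obtain ⟨d', h⟩ := pvge_rel_exists hP hP' hK d hd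
  exact ⟨d, d', h, rfl, Subtype.ext (h.1.symm.trans hv)⟩

/-! ## 2. the region of agreement, colours, fields -/

/-- the same triangles at the points of `K`, and the star of `K` lies in `W` (the region where the two coloured configurations agree) -/
structure PvgeAgr (Y Y' K W : Set ℂ) : Prop where
  same : PvgeSame Y Y' K
  star : ∀ a ∈ K, ∀ b c, DelTri Y a b c → a ∈ W ∧ b ∈ W ∧ c ∈ W

theorem PvgeAgr.symm {W : Set ℂ} (h : PvgeAgr Y Y' K W) : PvgeAgr Y' Y K W := ⟨h.same.symm, fun a ha b c ht => h.star a ha b c ((h.same a ha b c).2 ht)⟩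

theorem PvgeAgr.mono {W : Set ℂ} (h : PvgeAgr Y Y' K W) (hK : K' ⊆ K) : PvgeAgr Y Y' K' W := ⟨h.same.mono hK, fun a ha => h.star a (hK ha)⟩

theorem PvgeAgr.face {W : Set ℂ} (h : PvgeAgr Y Y' K W) {a b c : ℂ} (ht : DelTri Y a b c) (hs : a ∈ K ∨ b ∈ K ∨ c ∈ K) : a ∈ W ∧ b ∈ W ∧ c ∈ W := by
  rcases hs with hs | hs | hs
  · exact h.star a hs b c ht
  · obtain ⟨h1, h2, h3⟩ := h.star b hs c a (del_tri_cyc ht)
    exact ⟨h3, h1, h2⟩
  · obtain ⟨h1, h2, h3⟩ := h.star c hs a b (del_tri_cyc (del_tri_cyc ht))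
    exact ⟨h2, h3, h1⟩

/-- **K2** -/
theorem pvge_agr_core (hρ : 0 < ρ) (hYY : Y ∩ U = Y' ∩ U) (hm : PvtrMesh ρ U Y) : PvgeAgr Y Y' (pvtrCore (3 * ρ) U) U :=
  ⟨pvge_same_core hρ hYY hm, fun a ha _ _ ht => ⟨ha (mem_closedBall_self (by positivity)), pvge_adj_mem hρ hm ha ht.adj, pvge_adj_mem hρ hm ha (del_tri_adj ht).2.2.symm⟩⟩

/-- **FAR** -/
theorem pvge_agr_far (hρ : 0 < ρ) (hYY : Y \ C = Y' \ C) (hd : VorDense Y (pvgeCollar C ρ) ρ) : PvgeAgr Y Y' (pvgeFar C ρ) Cᶜ :=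
  ⟨pvge_same_far hρ hYY hd, fun _ ha _ _ ht => ⟨pvge_far_notMem hρ ha, (pvge_far_tri_off hρ hd ha ht).1, (pvge_far_tri_off hρ hd ha ht).2⟩⟩

theorem pvge_rel_mem {W : Set ℂ} (hP : PvgeDel Y P) (hA : PvgeAgr Y Y' K W) {d : P.Dart} {d' : P'.Dart} (h : pvgeRel P P' K d d') :
    (d.1.1 : ℂ) ∈ W ∧ (d.1.2 : ℂ) ∈ W ∧ (P.apex d.1.1 d.1.2 : ℂ) ∈ W := hA.face (hP.tri _ _ d.2) h.2.2

/-- **colours**: two colourings of the plane which agree on `W` -/
theorem pvge_rel_col {W : Set ℂ} (hP : PvgeDel Y P) (hA : PvgeAgr Y Y' K W) {σ σ' : ℂ → Bool} (hσ : ∀ a ∈ W, σ a = σ' a) :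
    ∀ (d : P.Dart) (d' : P'.Dart), pvgeRel P P' K d d' → (fun v : ↥Y => σ v) (P.toMap.src d) = (fun v : ↥Y' => σ' v) (P'.toMap.src d') := fun d d' h => by
  show σ (d.1.1 : ℂ) = σ' (d'.1.1 : ℂ)
  rw [← h.1]
  exact hσ _ (pvge_rel_mem hP hA h).1

theorem pvge_rel_side {d : P.Dart} {d' : P'.Dart} (h : pvgeRel P P' K d d') : P.toMap.side Subtype.val d = P'.toMap.side Subtype.val d' := by
  show (d.1.1 : ℂ) - d.1.2 = (d'.1.1 : ℂ) - d'.1.2
  rw [h.1, h.2.1]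

theorem pvge_rel_bary (hP : PvgeDel Y P) (hP' : PvgeDel Y' P') (hK : PvgeSame Y Y' K) {d : P.Dart} {d' : P'.Dart} (h : pvgeRel P P' K d d') :
    P.toMap.bary Subtype.val d = P'.toMap.bary Subtype.val d' := by
  show ((d.1.1 : ℂ) + d.1.2 + (P.apex d.1.1 d.1.2 : ℂ)) / 3 = ((d'.1.1 : ℂ) + d'.1.2 + (P'.apex d'.1.1 d'.1.2 : ℂ)) / 3
  rw [h.1, h.2.1, pvge_rel_apex hP hP' hK h]

theorem pvge_rel_qpart (hP : PvgeDel Y P) (hP' : PvgeDel Y' P') (hK : PvgeSame Y Y' K) {d : P.Dart} {d' : P'.Dart} (h : pvgeRel P P' K d d') :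
    P.toMap.qpart Subtype.val d = P'.toMap.qpart Subtype.val d' := by
  have L := (pvge_loc hP hP' hK).iso
  unfold PvMap.qpart
  rw [pvge_rel_side h, pvge_rel_side (L.nxt h), pvge_rel_side (L.nxt (L.nxt h))]

theorem pvge_rel_upart (hP : PvgeDel Y P) (hP' : PvgeDel Y' P') (hK : PvgeSame Y Y' K) {d : P.Dart} {d' : P'.Dart} (h : pvgeRel P P' K d d') :
    P.toMap.upart Subtype.val d = P'.toMap.upart Subtype.val d' := by
  have L := (pvge_loc hP hP' hK).iso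
  unfold PvMap.upart
  rw [pvge_rel_side h, pvge_rel_side (L.nxt h), pvge_rel_side (L.nxt (L.nxt h))]

end two

/-! ## 3. `Conf` forms -/

section conf

variable {U C : Set ℂ} {ρ : ℝ} {η η' : Conf PvPt}

theorem pvge_conf_sites (h : Conf.restr (U ×ˢ univ) η = Conf.restr (U ×ˢ univ) η') : cfSites η ∩ U = cfSites η' ∩ U := by
  rw [← pvtr_sites_restr, ← pvtr_sites_restr, h]

theorem pvge_conf_sites_off (h : Conf.restr (Cᶜ ×ˢ univ) η = Conf.restr (Cᶜ ×ˢ univ) η') : cfSites η \ C = cfSites η' \ C := by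
  rw [sdiff_eq, sdiff_eq]
  exact pvge_conf_sites h

theorem pvge_conf_col (h : Conf.restr (U ×ˢ univ) η = Conf.restr (U ×ˢ univ) η') : ∀ a ∈ U, cfCol η a = cfCol η' a := fun a ha => by
  have key : ∀ ζ : Conf PvPt, ((a, true) ∈ ζ.pts ↔ (a, true) ∈ (Conf.restr (U ×ˢ univ) ζ).pts) := fun ζ =>
    ⟨fun h1 => ⟨h1, ha, mem_univ _⟩, fun h1 => h1.1⟩
  unfold cfCol
  rw [decide_eq_decide, key η, key η', h]

/-- **K2, two configurations**: the same restriction to `U ×ˢ univ`, mesh read in `U`: the planes are locally isomorphic on the star of the `3ρ`-core of `U`, with the same colours -/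
theorem pvge_conf_core (hρ : 0 < ρ) (hηη : Conf.restr (U ×ˢ univ) η = Conf.restr (U ×ˢ univ) η') (hm : PvtrMesh ρ U (cfSites η)) (h : DelGood (cfSites η)) (h' : DelGood (cfSites η')) :
    PvLoc (delbPl (cfSites η)).toMap (delbPl (cfSites η')).toMap (pvgeRel (delbPl (cfSites η)) (delbPl (cfSites η')) (pvtrCore (3 * ρ) U)) ∧
      ∀ d d', pvgeRel (delbPl (cfSites η)) (delbPl (cfSites η')) (pvtrCore (3 * ρ) U) d d' →
        (fun v : ↥(cfSites η) => cfCol η v) ((delbPl (cfSites η)).toMap.src d) = (fun v : ↥(cfSites η') => cfCol η' v) ((delbPl (cfSites η')).toMap.src d') := by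
  have hA := pvge_agr_core hρ (pvge_conf_sites hηη) hm
  exact ⟨pvge_loc (pvge_del_bpl h) (pvge_del_bpl h') hA.same, pvge_rel_col (pvge_del_bpl h) hA (pvge_conf_col hηη)⟩

/-- **FAR, two configurations**: the same restriction to `Cᶜ ×ˢ univ`, mesh on the collar of `C`: the planes are locally isomorphic on the star of the far points, with the same colours -/
theorem pvge_conf_far (hρ : 0 < ρ) (hηη : Conf.restr (Cᶜ ×ˢ univ) η = Conf.restr (Cᶜ ×ˢ univ) η') (hd : VorDense (cfSites η) (pvgeCollar C ρ) ρ) (h : DelGood (cfSites η)) (h' : DelGood (cfSites η')) :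
    PvLoc (delbPl (cfSites η)).toMap (delbPl (cfSites η')).toMap (pvgeRel (delbPl (cfSites η)) (delbPl (cfSites η')) (pvgeFar C ρ)) ∧
      ∀ d d', pvgeRel (delbPl (cfSites η)) (delbPl (cfSites η')) (pvgeFar C ρ) d d' →
        (fun v : ↥(cfSites η) => cfCol η v) ((delbPl (cfSites η)).toMap.src d) = (fun v : ↥(cfSites η') => cfCol η' v) ((delbPl (cfSites η')).toMap.src d') := by
  have hA := pvge_agr_far hρ (pvge_conf_sites_off hηη) hd
  exact ⟨pvge_loc (pvge_del_bpl h) (pvge_del_bpl h') hA.same, pvge_rel_col (pvge_del_bpl h) hA (pvge_conf_col hηη)⟩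

/-- the splice keeps the first configuration on `O` -/
theorem pvge_spl_restr (O : Set ℂ) (η ω : Conf PvPt) : Conf.restr (O ×ˢ univ) η = Conf.restr (O ×ˢ univ) (Conf.spl (O ×ˢ univ) (η, ω)) := (Conf.restr_spl (O ×ˢ univ) (η, ω)).symm

theorem pvge_fst_preimage (O : Set ℂ) : (Prod.fst ⁻¹' O : Set PvPt) = O ×ˢ univ := by
  ext p
  simp

/-- **RESAMPLING INSIDE `C`** (the experiment of N1'): `η` is kept off `C`, replaced by `ω` in `C` -/
theorem pvge_spl_far (hρ : 0 < ρ) (ω : Conf PvPt) (hd : VorDense (cfSites η) (pvgeCollar C ρ) ρ) (h : DelGood (cfSites η)) (h' : DelGood (cfSites (Conf.spl (Cᶜ ×ˢ univ) (η, ω)))) :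
    PvLoc (delbPl (cfSites η)).toMap (delbPl (cfSites (Conf.spl (Cᶜ ×ˢ univ) (η, ω)))).toMap (pvgeRel (delbPl (cfSites η)) (delbPl (cfSites (Conf.spl (Cᶜ ×ˢ univ) (η, ω)))) (pvgeFar C ρ)) ∧
      ∀ d d', pvgeRel (delbPl (cfSites η)) (delbPl (cfSites (Conf.spl (Cᶜ ×ˢ univ) (η, ω)))) (pvgeFar C ρ) d d' →
        (fun v : ↥(cfSites η) => cfCol η v) ((delbPl (cfSites η)).toMap.src d) =
          (fun v : ↥(cfSites (Conf.spl (Cᶜ ×ˢ univ) (η, ω))) => cfCol (Conf.spl (Cᶜ ×ˢ univ) (η, ω)) v) ((delbPl (cfSites (Conf.spl (Cᶜ ×ˢ univ) (η, ω)))).toMap.src d') :=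
  pvge_conf_far hρ (pvge_spl_restr Cᶜ η ω) hd h h'

/-- **RESAMPLING OUTSIDE `U`** -/
theorem pvge_spl_core (hρ : 0 < ρ) (ω : Conf PvPt) (hm : PvtrMesh ρ U (cfSites η)) (h : DelGood (cfSites η)) (h' : DelGood (cfSites (Conf.spl (U ×ˢ univ) (η, ω)))) :
    PvLoc (delbPl (cfSites η)).toMap (delbPl (cfSites (Conf.spl (U ×ˢ univ) (η, ω)))).toMap (pvgeRel (delbPl (cfSites η)) (delbPl (cfSites (Conf.spl (U ×ˢ univ) (η, ω)))) (pvtrCore (3 * ρ) U)) ∧
      ∀ d d', pvgeRel (delbPl (cfSites η)) (delbPl (cfSites (Conf.spl (U ×ˢ univ) (η, ω)))) (pvtrCore (3 * ρ) U) d d' →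
        (fun v : ↥(cfSites η) => cfCol η v) ((delbPl (cfSites η)).toMap.src d) =
          (fun v : ↥(cfSites (Conf.spl (U ×ˢ univ) (η, ω))) => cfCol (Conf.spl (U ×ˢ univ) (η, ω)) v) ((delbPl (cfSites (Conf.spl (U ×ˢ univ) (η, ω)))).toMap.src d') :=
  pvge_conf_core hρ (pvge_spl_restr U η ω) hm h h'

end conf

/-! ## 4. consumer forms -/

section twin

variable {Y Y' K : Set ℂ} {P : PlTri ↥Y} {P' : PlTri ↥Y'}

/-- **TWIN PATH**: every edge of `g` has an end in `K` -/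
theorem pvge_twin_pth (hP : PvgeDel Y P) (hP' : PvgeDel Y' P') (hK : PvgeSame Y Y' K) (g : P.toMap.Pth) (hn : 0 < g.n)
    (hg : ∀ k, k < g.n → (g.v k : ℂ) ∈ K ∨ (g.v (k + 1) : ℂ) ∈ K) :
    ∃ g' : P'.toMap.Pth, PvLocPth (pvgeRel P P' K) g g' ∧ g'.n = g.n ∧ ∀ k, k ≤ g.n → (g'.v k : ℂ) = g.v k := by
  obtain ⟨g', H⟩ := pvloc_pth_exists (pvge_loc hP hP' hK) g hn fun k hk => by
    refine pvge_rel_exists hP hP' hK _ ?_
    have e1 : ((g.e k).1.1 : ℂ) = g.v k := congrArg Subtype.val (g.src_e k hk)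
    have e2 : ((g.e k).1.2 : ℂ) = g.v (k + 1) := congrArg Subtype.val (g.tgt_e k hk)
    rw [e1, e2]
    rcases hg k hk with h | h
    · exact Or.inl h
    · exact Or.inr (Or.inl h)
  exact ⟨g', H, H.n_eq, fun k hk => (pvge_loc_v (H.v_rel k hk)).symm⟩

/-- **TWIN CYCLE**: every edge of `c` has an end in `K` -/
theorem pvge_twin_cyc (hP : PvgeDel Y P) (hP' : PvgeDel Y' P') (hK : PvgeSame Y Y' K) (c : P.toMap.Cyc)
    (hc : ∀ k, ((c.e k).1.1 : ℂ) ∈ K ∨ ((c.e k).1.2 : ℂ) ∈ K) :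
    ∃ c' : P'.toMap.Cyc, PvLocCyc (pvgeRel P P' K) c c' ∧ c'.n = c.n ∧ ∀ k, ((c'.e k).1.1 : ℂ) = (c.e k).1.1 := by
  obtain ⟨c', H⟩ := pvloc_cyc_exists (pvge_loc hP hP' hK) c fun k => pvge_rel_exists hP hP' hK _ ((hc k).elim Or.inl fun h => Or.inr (Or.inl h))
  exact ⟨c', H, H.n_eq, fun k => (H.e_rel k).1.symm⟩

/-- **a strand which stays in the star of `K` is the same strand** -/
theorem pvge_twin_it {W : Set ℂ} (hP : PvgeDel Y P) (hP' : PvgeDel Y' P') (hA : PvgeAgr Y Y' K W) {σ σ' : ℂ → Bool} (hσ : ∀ a ∈ W, σ a = σ' a) {a : P.Dart} {a' : P'.Dart}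
    (h : pvgeRel P P' K a a') {n : ℕ}
    (hm : ∀ j, j ≤ n → ((pvasIt P.toMap (fun v => σ v) a j).1.1 : ℂ) ∈ K ∨ ((pvasIt P.toMap (fun v => σ v) a j).1.2 : ℂ) ∈ K) :
    ∀ j, j ≤ n → pvgeRel P P' K (pvasIt P.toMap (fun v => σ v) a j) (pvasIt P'.toMap (fun v => σ' v) a' j) :=
  pvloc_it (pvge_loc hP hP' hA.same) (pvge_rel_col hP hA hσ) h fun j hj => pvge_rel_exists hP hP' hA.same _ ((hm j hj).elim Or.inl fun h => Or.inr (Or.inl h))

/-- **`NB^U`, `U ⊆ K`, is the same event in the two planes** (one direction; the other one by `PvgeAgr.symm`) -/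
theorem pvge_twin_nb {W : Set ℂ} (hP : PvgeDel Y P) (hP' : PvgeDel Y' P') (hA : PvgeAgr Y Y' K W) {σ σ' : ℂ → Bool} (hσ : ∀ a ∈ W, σ a = σ' a) {g : P.toMap.Pth} {g' : P'.toMap.Pth}
    (H : PvLocPth (pvgeRel P P' K) g g') (hg : ∀ k, k ≤ g.n → (g.v k : ℂ) ∈ K) {a0 a1 : P.Dart} {a0' a1' : P'.Dart} (r0 : pvgeRel P P' K a0 a0') (r1 : pvgeRel P P' K a1 a1')
    (h0 : (a0.1.1 : ℂ) ∈ K) {b : Bool} {U : Set ℂ} (hU : U ⊆ K) (h : g.NB (fun v => σ v) b {v | (v : ℂ) ∈ U} a0 a1) : g'.NB (fun v => σ' v) b {v | (v : ℂ) ∈ U} a0' a1' := by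
  refine pvloc_nb (pvge_loc hP hP' hA.same) H r0 r1 (pvge_loc_int' hP hP' hA.same ?_) (fun k hk => pvge_loc_int' hP hP' hA.same ?_) (pvge_rel_col hP hA hσ)
    (fun v hv => pvge_loc_int' hP hP' hA.same (hU hv)) (fun v v' hvv hv' => ?_) h
  · show (a0'.1.1 : ℂ) ∈ K
    rw [← r0.1]
    exact h0
  · rw [H.n_eq] at hk
    rw [← pvge_loc_v (H.v_rel k hk)]
    exact hg k hk
  · show (v : ℂ) ∈ U
    rw [pvge_loc_v hvv]
    exact hv'

theorem pvge_twin_col {W : Set ℂ} (hP : PvgeDel Y P) (hA : PvgeAgr Y Y' K W) {σ σ' : ℂ → Bool} (hσ : ∀ a ∈ W, σ a = σ' a) {g : P.toMap.Pth} {g' : P'.toMap.Pth}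
    (H : PvLocPth (pvgeRel P P' K) g g') {b : Bool} (h : g.Col (fun v => σ v) b) : g'.Col (fun v => σ' v) b :=
  pvloc_col H (pvge_rel_col hP hA hσ) h

end twin

end Claimed.Agent.R289

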