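-- KEEP
import Claimed.Agent.R289.Exit.TrV
import Claimed.Agent.R289.Tr.InstLB
import Claimed.Agent.R289.Tr.LocalW
import Claimed.Agent.R289.Tr.GeoLoc
import Claimed.Agent.R289.Tr.StKit
import Claimed.Agent.R289.Tr.MaskR

/-!
# Row 289 (S0537), THE WALL, ROAD E, file Tr/CutWin : (T3) THE CUT POINT OF THE PIN IS READ IN THE WINDOW PART `pvilWz` OF ITS ENTRANCE HALF STATE      (helper85, second of helper283; prefix `pvvf`, `Pvvf`; continuation of `Tr/TeleV`)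

0 sorry.      SPLIT OF (T) by 189 (id 93559): (T1) completion `ζ` of the experiment (189), (T2) telescoping at `ζ` (`Tr/TeleV`, 195), **(T3) HERE**: `pvdcCV S' (pviePos ζ) z (m h) = pvyqC num col (𝔓.pl m z t) ω`.
`ζ` and the base `ω` have the same SITES on `pvilWz Z`, the same COLOURS ONLY AT THE SITES OF `F` (the mouth `(z + eM) \ F` is recoloured by the experiment): so `pvzj_in_conf` of 231 (same restriction to the window) does not apply as it stands.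
* sec. 1  two maps, `PvLocP` of 22: `pvvf_cut_twin` (twin gate parts have the same cut point), `pvvf_inn_disc`, **`pvvf_cut_loc`** (two entrance half states, colours compared ON THE FROZEN SITES ONLY: `pvwk_atIn_congr` + twin of 22 + uniqueness of 150)
* sec. 2  **`pvvf_walk`, `pvvf_disc_core`** : THE DISC OF THE GATE LIES IN THE `3μ`-CORE OF THE WINDOW.      No density of the disc is assumed: the mesh is read IN THE WINDOW, the window contains the `δ`-ball of every site of the open disc (they are all frozen), ONE site lies in the shrunk disc (the marked vertex):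
          walk along a segment by steps `≤ μ`.      = the hypothesis `hK : closedBall p.z (p.ty.b * p.h) ⊆ pvtrCore (3 μ) Wn` of `pvzj_in_conf`, `pvll_in`, `pvlw_atIn_h` PAID at a hull window.
* sec. 3  configurations: `pvvf_site_locP` (same sites in the window, NO colour), **`pvvf_in_disc`** (`hK` at an entrance half state), `pvvf_in_fz` (`hKm`), **`pvvf_cut_win`** (any placed plug, any window)
* sec. 4  at the data of record: `pvvf_mu_pos`, `pvvf_mu_le`, **`pvvf_T3_mesh`** (mesh of ANY window `⊇ pvilWz Z`), **`pvvf_T3`** (`ζ ∈ pvilMe 𝔓 𝔈 m z t Z`), **`pvvf_T3_arc`** (at the witnesses of the thick link)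
NUMERALS OWED (hypotheses): `0 < δ_m`, `0 < ρ₃ h`, `b h ≤ pviwRad` (the disc lies in the own-level box: as in `Tr/InstLB` of 38), `h + 2 μ ≤ b h`.
-/

set_option autoImplicit false

namespace Claimed.Agent.R289

open Set Metric Claims.C0465

/-! ## 1. on two maps with a positioned local isomorphism -/

section maps

variable {V D V' D' : Type} {T : PvMap V D} {T' : PvMap V' D'} {R : D → D' → Prop} {pos : V → ℂ} {pos' : V' → ℂ} {Kr : Set ℂ}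

/-- twin gate parts have the same cut point -/
theorem pvvf_cut_twin (L : PvLocP T T' R pos pos' Kr) {𝔖 : PvwSt T} {𝔖' : PvwSt T'} (G : PvLocGt R 𝔖 𝔖') (hin : ∀ k, k ≤ 𝔖.inn.n → pos (𝔖.inn.v k) ∈ Kr) (hip : 𝔖.ip ≤ 𝔖.inn.n)
    (z : ℂ) (r : ℝ) : pvdcCV 𝔖' pos' z r = pvdcCV 𝔖 pos z r := by
  unfold pvdcCV
  rw [G.ip, ← pvlw_pos L (G.inn.v_rel _ hip), pvlw_mass L (fun d d' h => pvlw_side L h) G.inn hin _ hip]

/-- the inner arc of a gate lies in the closed disc -/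
theorem pvvf_inn_disc (hT : T.IsSph) {𝔖 : PvwSt T} {h : ℝ} {z : ℂ} {τ : PvwTy} {s : V → Bool} (hg : 𝔖.Gate pos h z τ s) {k : ℕ} (hk : k ≤ 𝔖.inn.n) : pos (𝔖.inn.v k) ∈ closedBall z (τ.b * h) :=
  mem_closedBall_iff_norm.2 (hg.inside _ (pvjz_inn_ins hT (PvjzG.of_gate hT hg fun _ => rfl) hk)).le

/-- **THE CUT POINT IS CARRIED BY A POSITIONED LOCAL ISOMORPHISM, COLOURS COMPARED ON THE FROZEN SITES ONLY** -/
theorem pvvf_cut_loc (L : PvLocP T T' R pos pos' Kr) (hT : T.IsSph) (hT' : T'.IsSph) (hS' : T'.Simple) (hpos' : Function.Injective pos') {𝔖 : PvwSt T} {𝔖' : PvwSt T'}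
    {N : PvwNum} {h : ℝ} {z : ℂ} {τ : PvwTy} {s₀ : V → Bool} {s' : V' → Bool} (ha : 𝔖.AtIn pos N h z τ s₀) (ha' : 𝔖'.AtIn pos' N h z τ s')
    (hcol : ∀ v ∈ 𝔖.fzIn, ∀ v', pos v = pos' v' → s' v' = s₀ v) (hK : closedBall z (τ.b * h) ⊆ Kr) (hKm : ∀ i, i ≤ 𝔖.nm → pos (T.src (𝔖.em i)) ∈ Kr) (r : ℝ) :
    pvdcCV 𝔖' pos' z r = pvdcCV 𝔖 pos z r := by
  classical
  let s : V → Bool := fun v => if hv : ∃ v', pvlocV T T' R v v' then s' hv.choose else s₀ v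
  have hs : ∀ d d', R d d' → s (T.src d) = s' (T'.src d') := by
    intro d d' hd
    have hv : ∃ v', pvlocV T T' R (T.src d) v' := ⟨_, pvloc_v_src hd⟩
    show (if hv : ∃ v', pvlocV T T' R (T.src d) v' then s' hv.choose else s₀ (T.src d)) = _
    rw [dif_pos hv, pvloc_v_fn L.loc hv.choose_spec (pvloc_v_src hd)]
  have hag : PvwAgree 𝔖.fzIn s₀ s := by
    intro v hv
    show s₀ v = if hv : ∃ v', pvlocV T T' R v v' then s' hv.choose else s₀ v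
    by_cases hx : ∃ v', pvlocV T T' R v v'
    · rw [dif_pos hx, hcol v hv _ (pvlw_pos L hx.choose_spec)]
    · rw [dif_neg hx]
  have ha1 := pvwk_atIn_congr hT ha hag
  obtain ⟨𝔖₁, G⟩ := pvlw_sm_exists_h L hK ha1.gate hKm
  have ha2 := pvlw_atIn_h L hT hs G hK hKm ha1
  rw [pvyq_CV_same (pvuq_atIn hT' hS' hpos' ha' ha2).1 ha'.gate.ip_le]
  exact pvvf_cut_twin L G.gt (fun k hk => hK (pvvf_inn_disc hT ha.gate hk)) ha.gate.ip_le z r

end maps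

/-! ## 2. the disc of the gate lies in the core of the window -/

section walk

variable {Y W : Set ℂ} {z : ℂ} {R δ μ : ℝ}

/-- **THE WALK**: the window contains the `δ`-ball of every site of the open disc, the mesh is read IN THE WINDOW, one site lies in the shrunk disc: the shrunk disc is dense -/
theorem pvvf_walk (hμ : 0 < μ) (h3 : 3 * μ ≤ δ) (hm : PvtrMesh μ W Y) (hW : ∀ u ∈ Y, u ∈ ball z R → closedBall u δ ⊆ W) {u₀ : ℂ} (hu₀ : u₀ ∈ Y) (h₀ : u₀ ∈ closedBall z (R - 2 * μ)) :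
    VorDense Y (closedBall z (R - 2 * μ)) μ := by
  intro w hw
  obtain ⟨n, hn⟩ := exists_nat_gt (‖w - u₀‖ / μ)
  have hn0 : (0 : ℝ) < n := lt_of_le_of_lt (div_nonneg (norm_nonneg _) hμ.le) hn
  have hstep : ‖w - u₀‖ / n ≤ μ := by
    rw [div_le_iff₀ hn0]
    rw [div_lt_iff₀ hμ] at hn
    linarith [mul_comm (n : ℝ) μ]
  have key : ∀ k : ℕ, k ≤ n → ∃ u ∈ Y, ‖(u₀ + ((k : ℝ) / n : ℝ) • (w - u₀)) - u‖ ≤ μ := by
    intro k
    induction k with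
    | zero =>
      intro _
      exact ⟨u₀, hu₀, by simp [hμ.le]⟩
    | succ k ih =>
      intro hk
      obtain ⟨u, hu, h1⟩ := ih (by omega)
      have hkn : ((k : ℝ) / n) ∈ Icc (0 : ℝ) 1 := ⟨by positivity, (div_le_one hn0).2 (by exact_mod_cast (by omega : k ≤ n))⟩
      have hseg : u₀ + ((k : ℝ) / n : ℝ) • (w - u₀) ∈ closedBall z (R - 2 * μ) := by
        have := (convex_closedBall z (R - 2 * μ)).add_smul_sub_mem h₀ hw hkn
        exact this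
      have hub : u ∈ ball z R := by
        rw [mem_ball_iff_norm]
        rw [mem_closedBall_iff_norm] at hseg
        have : ‖u - z‖ ≤ ‖(u₀ + ((k : ℝ) / n : ℝ) • (w - u₀)) - u‖ + ‖(u₀ + ((k : ℝ) / n : ℝ) • (w - u₀)) - z‖ := by
          have e : u - z = -((u₀ + ((k : ℝ) / n : ℝ) • (w - u₀)) - u) + ((u₀ + ((k : ℝ) / n : ℝ) • (w - u₀)) - z) := by ring
          rw [e]
          exact (norm_add_le _ _).trans (by rw [norm_neg])
        linarith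
      have hd : ‖(u₀ + (((k + 1 : ℕ) : ℝ) / n : ℝ) • (w - u₀)) - (u₀ + ((k : ℝ) / n : ℝ) • (w - u₀))‖ ≤ μ := by
        have e : (u₀ + (((k + 1 : ℕ) : ℝ) / n : ℝ) • (w - u₀)) - (u₀ + ((k : ℝ) / n : ℝ) • (w - u₀)) = ((1 : ℝ) / n : ℝ) • (w - u₀) := by
          rw [add_sub_add_left_eq_sub, ← sub_smul]
          congr 1
          push_cast
          ring
        rw [e, norm_smul, Real.norm_of_nonneg (by positivity)]
        calc 1 / (n : ℝ) * ‖w - u₀‖ = ‖w - u₀‖ / n := by ring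
          _ ≤ μ := hstep
      refine hm _ fun q hq => hW u hu hub ?_
      rw [mem_closedBall_iff_norm] at hq ⊢
      have : ‖q - u‖ ≤ ‖q - (u₀ + (((k + 1 : ℕ) : ℝ) / n : ℝ) • (w - u₀))‖ + ‖(u₀ + (((k + 1 : ℕ) : ℝ) / n : ℝ) • (w - u₀)) - (u₀ + ((k : ℝ) / n : ℝ) • (w - u₀))‖
          + ‖(u₀ + ((k : ℝ) / n : ℝ) • (w - u₀)) - u‖ := by
        have e : q - u = (q - (u₀ + (((k + 1 : ℕ) : ℝ) / n : ℝ) • (w - u₀))) + ((u₀ + (((k + 1 : ℕ) : ℝ) / n : ℝ) • (w - u₀)) - (u₀ + ((k : ℝ) / n : ℝ) • (w - u₀)))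
            + ((u₀ + ((k : ℝ) / n : ℝ) • (w - u₀)) - u) := by ring
        rw [e]
        exact (norm_add_le _ _).trans (add_le_add (norm_add_le _ _) le_rfl)
      linarith
  obtain ⟨u, hu, h1⟩ := key n le_rfl
  refine ⟨u, hu, ?_⟩
  rw [div_self hn0.ne', one_smul, add_sub_cancel] at h1
  exact h1

/-- **the closed disc lies in the `3 μ`-core of the window** -/
theorem pvvf_disc_core (hμ : 0 < μ) (h6 : 6 * μ ≤ δ) (hm : PvtrMesh μ W Y) (hW : ∀ u ∈ Y, u ∈ ball z R → closedBall u δ ⊆ W) {u₀ : ℂ} (hu₀ : u₀ ∈ Y) (h₀ : u₀ ∈ closedBall z (R - 2 * μ)) :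
    closedBall z R ⊆ pvtrCore (3 * μ) W := by
  have hd := pvvf_walk hμ (by linarith) hm hW hu₀ h₀
  have hR : 0 ≤ R - 2 * μ := (norm_nonneg _).trans (mem_closedBall_iff_norm.1 h₀)
  intro w hw q hq
  rw [mem_closedBall_iff_norm] at hw hq
  obtain ⟨w', h1, h2⟩ : ∃ w' : ℂ, ‖w' - z‖ ≤ R - 2 * μ ∧ ‖w - w'‖ ≤ 2 * μ := by
    by_cases hc : ‖w - z‖ ≤ R - 2 * μ
    · exact ⟨w, hc, by rw [sub_self, norm_zero]; positivity⟩
    · push Not at hc
      have hn : 0 < ‖w - z‖ := lt_of_le_of_lt hR hc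
      set t : ℝ := (R - 2 * μ) / ‖w - z‖ with ht
      have ht0 : 0 ≤ t := div_nonneg hR hn.le
      have ht1 : t ≤ 1 := (div_le_one hn).2 hc.le
      refine ⟨z + (t : ℂ) * (w - z), ?_, ?_⟩
      · rw [add_sub_cancel_left, norm_mul, Complex.norm_real, Real.norm_of_nonneg ht0, ht, div_mul_cancel₀ _ hn.ne']
      · have e : w - (z + (t : ℂ) * (w - z)) = ((1 - t : ℝ) : ℂ) * (w - z) := by push_cast; ring
        rw [e, norm_mul, Complex.norm_real, Real.norm_of_nonneg (by linarith), sub_mul, one_mul, ht, div_mul_cancel₀ _ hn.ne']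
        linarith
  obtain ⟨u, hu, h3⟩ := hd w' (mem_closedBall_iff_norm.2 h1)
  have hub : u ∈ ball z R := by
    rw [mem_ball_iff_norm]
    have : ‖u - z‖ ≤ ‖w' - u‖ + ‖w' - z‖ := by
      have e : u - z = -(w' - u) + (w' - z) := by ring
      rw [e]
      exact (norm_add_le _ _).trans (by rw [norm_neg])
    linarith
  refine hW u hu hub (mem_closedBall_iff_norm.2 ?_)
  have : ‖q - u‖ ≤ ‖q - w‖ + ‖w - w'‖ + ‖w' - u‖ := by
    have e : q - u = (q - w) + (w - w') + (w' - u) := by ring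
    rw [e]
    exact (norm_add_le _ _).trans (add_le_add (norm_add_le _ _) le_rfl)
  linarith

end walk

/-! ## 3. two configurations with the same SITES in the window, the same colours AT THE FROZEN SITES -/

section conf

variable {U : Set ℂ} {ρ : ℝ} {η η' : Conf PvPt}

/-- **two configurations with the same sites in the window** (no colour): positioned local isomorphism of the two plane maps on the `3ρ`-core -/
theorem pvvf_site_locP (hρ : 0 < ρ) (hYY : cfSites η ∩ U = cfSites η' ∩ U) (hm : PvtrMesh ρ U (cfSites η)) (h : DelGood (cfSites η)) (h' : DelGood (cfSites η')) :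
    PvLocP (pvieT η) (pvieT η') (pvgeRel (delbPl (pvieY η)) (delbPl (pvieY η')) (pvtrCore (3 * ρ) U)) (pviePos η) (pviePos η') (pvtrCore (3 * ρ) U) :=
  have hK := pvge_same_core hρ hYY hm
  ⟨pvge_loc (pvge_del_bpl h) (pvge_del_bpl h') hK, pvge_pos_eq, pvge_full (pvge_del_bpl h) (pvge_del_bpl h') hK, pvge_full' (pvge_del_bpl h) (pvge_del_bpl h') hK⟩

variable {N : PvwNum} {b : Bool} {q : PviePl} {W : Set ℂ} {μ δ : ℝ} {ω ζ : Conf PvPt}

/-- the disc of the gate of an entrance half state lies in the core of every window which contains the `δ`-balls of the frozen positions and whose mesh holds -/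
theorem pvvf_in_disc (hμ : 0 < μ) (h6 : 6 * μ ≤ δ) (hb1 : q.h + 2 * μ ≤ q.ty.b * q.h) (hm : PvtrMesh μ W (cfSites ω)) {𝔖 : PvwSt (pvieT ω)} (h : PvilIn N b q.std ω 𝔖)
    (hW : ∀ v ∈ pvilFzI N b q.std ω, closedBall v δ ⊆ W) : closedBall q.z (q.ty.b * q.h) ⊆ pvtrCore (3 * μ) W := by
  have hA := pvza_in_st.1 h.st
  have hF := pvza_FzI_eq h
  refine pvvf_disc_core hμ h6 hm (fun u hu hub => hW u ?_) (u₀ := pviePos ω (𝔖.inn.v 𝔖.ip)) (𝔖.inn.v 𝔖.ip).2 (mem_closedBall_iff_norm.2 (hA.gate.ip_near.trans (by linarith)))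
  rw [hF]
  refine ⟨⟨u, hu⟩, Or.inl (Or.inl ?_), rfl⟩
  show (⟨u, hu⟩ : ↥(pvieY ω)) ∈ 𝔖.dsc
  rw [hA.gate.dsc_eq]
  exact mem_ball_iff_norm.1 hub

/-- the frozen positions lie in the core -/
theorem pvvf_in_fz (h3 : 3 * μ ≤ δ) {𝔖 : PvwSt (pvieT ω)} (h : PvilIn N b q.std ω 𝔖) (hW : ∀ v ∈ pvilFzI N b q.std ω, closedBall v δ ⊆ W) {v : ↥(pvieY ω)} (hv : v ∈ 𝔖.fzIn) :
    pviePos ω v ∈ pvtrCore (3 * μ) W :=
  (closedBall_subset_closedBall h3).trans (hW _ (by rw [pvza_FzI_eq h]; exact ⟨v, hv, rfl⟩))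

/-- **(T3), pin of any placed plug, any window**: same sites in the window, same colours at the frozen positions of `Σ_in` in `ω`: the cut points of the two entrance half states are equal -/
theorem pvvf_cut_win (hμ : 0 < μ) (h6 : 6 * μ ≤ δ) (hb1 : q.h + 2 * μ ≤ q.ty.b * q.h) (hs : cfSites ω ∩ W = cfSites ζ ∩ W) (hm : PvtrMesh μ W (cfSites ω))
    {𝔖 : PvwSt (pvieT ω)} (h : PvilIn N b q.std ω 𝔖) (hW : ∀ v ∈ pvilFzI N b q.std ω, closedBall v δ ⊆ W) (hc : ∀ w ∈ pvilFzI N b q.std ω, cfCol ζ w = cfCol ω w)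
    {𝔖' : PvwSt (pvieT ζ)} (h' : PvilIn N b q.std ζ 𝔖') (r : ℝ) : pvdcCV 𝔖' (pviePos ζ) q.z r = pvdcCV 𝔖 (pviePos ω) q.z r := by
  refine pvvf_cut_loc (pvvf_site_locP hμ hs hm h.good h'.good) (delb_plane_isSph h.good) (delb_plane_isSph h'.good) (pvgy_m_simple _) Subtype.val_injective
    (pvza_in_st.1 h.st) (pvza_in_st.1 h'.st) (fun v hv v' e => ?_) (pvvf_in_disc hμ h6 hb1 hm h hW) (fun i hi => pvvf_in_fz (by linarith) h hW (Or.inl (Or.inr ⟨i, hi, rfl⟩))) r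
  have e' : (v : ℂ) = v' := e
  show (cfCol ζ (v' : ℂ) == b) = (cfCol ω (v : ℂ) == b)
  rw [← e', hc _ (by rw [pvza_FzI_eq h]; exact ⟨v, hv, rfl⟩)]

end conf

/-! ## 4. at the data of record -/

section model

variable {τ : Type} {c : ℝ} (𝔓 : PvxPar τ c) (𝔈 : PvieEng τ) {m : ℕ} {z : ℂ} {t : τ} {Z : Set (ℤ × ℤ)} {ω ζ : Conf PvPt}

theorem pvvf_mu_pos (hδ : 0 < pvlmDel c m) (hρ : 0 < 𝔓.num.rho3 * pvlmH m) : 0 < pvilMu 𝔓 m := by
  unfold pvilMu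
  have := lt_min hδ hρ
  positivity

theorem pvvf_mu_le : 1000 * pvilMu 𝔓 m ≤ pvlmDel c m := by
  unfold pvilMu
  have := min_le_left (pvlmDel c m) (𝔓.num.rho3 * pvlmH m)
  linarith

/-- **(T3) WINDOW FORM** (split of 189): `ω` carries the full state of the candidate, base data `(Z, F)`;   `ζ` has the mesh of a window which contains `pvilWz Z`, the sites of `ω` on `pvilWz Z`, the colours of `ω` at the sites of `F`:
the cut point of ANY entrance half state of the pin in `ζ` is THE CUT POINT OF RECORD of the candidate in `ω` -/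
theorem pvvf_T3_mesh (hδ : 0 < pvlmDel c m) (hρ : 0 < 𝔓.num.rho3 * pvlmH m) (hb : (𝔓.ty t).b * pvlmH m ≤ pviwRad 𝔓 m t) (hb1 : pvlmH m + 2 * pvilMu 𝔓 m ≤ (𝔓.ty t).b * pvlmH m)
    (hU : ω ∈ pvilU 𝔓.num (𝔓.col t) (pvilPin 𝔓 m z t)) (hZ : pvilZi 𝔓 m z t ω = Z) {Wn : Set ℂ} (hWn : pvilWz 𝔓 m z t Z ⊆ Wn) (hm : PvtrMesh (pvilMu 𝔓 m) Wn (cfSites ζ))
    (hs : cfSites ζ ∩ pvilWz 𝔓 m z t Z = cfSites ω ∩ pvilWz 𝔓 m z t Z) (hc : ∀ w ∈ pvilFi 𝔓 m z t ω, cfCol ζ w = cfCol ω w)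
    {𝔖' : PvwSt (pvieT ζ)} (h' : PvilIn 𝔓.num (𝔓.col t) (pvilPin 𝔓 m z t) ζ 𝔖') :
    pvdcCV 𝔖' (pviePos ζ) z (𝔓.num.m * pvlmH m) = pvyqC 𝔓.num (𝔓.col t) (𝔓.pl m z t) ω := by
  obtain ⟨𝔖, hA⟩ := hU
  rw [pvyq_C_eq ((pvza_at_iff ω 𝔖).2 hA)]
  have hm1 : PvtrMesh (pvilMu 𝔓 m) (pvilWz 𝔓 m z t Z) (cfSites ω) := (pvtr_mesh_congr hs).1 fun w hw => hm w (pvtr_core_mono hWn hw)
  exact pvvf_cut_win (q := 𝔓.pl m z t) (δ := pvlmDel c m) (pvvf_mu_pos 𝔓 hδ hρ) (by have := pvvf_mu_le 𝔓 (m := m); have := pvvf_mu_pos 𝔓 hδ hρ; linarith) hb1 hs.symm hm1 hA.inn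
    (fun v hv => hZ ▸ pvza_ballI_Wz hb hδ hv) hc h' _

/-- **(T3)** at a completion `ζ ∈ pvilMe 𝔓 𝔈 m z t Z` -/
theorem pvvf_T3 (hδ : 0 < pvlmDel c m) (hρ : 0 < 𝔓.num.rho3 * pvlmH m) (hb : (𝔓.ty t).b * pvlmH m ≤ pviwRad 𝔓 m t) (hb1 : pvlmH m + 2 * pvilMu 𝔓 m ≤ (𝔓.ty t).b * pvlmH m)
    (hU : ω ∈ pvilU 𝔓.num (𝔓.col t) (pvilPin 𝔓 m z t)) (hZ : pvilZi 𝔓 m z t ω = Z) (hζ : ζ ∈ pvilMe 𝔓 𝔈 m z t Z)
    (hs : cfSites ζ ∩ pvilWz 𝔓 m z t Z = cfSites ω ∩ pvilWz 𝔓 m z t Z) (hc : ∀ w ∈ pvilFi 𝔓 m z t ω, cfCol ζ w = cfCol ω w)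
    {𝔖' : PvwSt (pvieT ζ)} (h' : PvilIn 𝔓.num (𝔓.col t) (pvilPin 𝔓 m z t) ζ 𝔖') :
    pvdcCV 𝔖' (pviePos ζ) z (𝔓.num.m * pvlmH m) = pvyqC 𝔓.num (𝔓.col t) (𝔓.pl m z t) ω :=
  pvvf_T3_mesh 𝔓 hδ hρ hb hb1 hU hZ (fun _ hw => Or.inl (Or.inl (Or.inl hw))) hζ.2 hs hc h'

/-- **(T3)** at the witnesses of the plain success of the thick link -/
theorem pvvf_T3_arc (hδ : 0 < pvlmDel c m) (hρ : 0 < 𝔓.num.rho3 * pvlmH m) (hb : (𝔓.ty t).b * pvlmH m ≤ pviwRad 𝔓 m t) (hb1 : pvlmH m + 2 * pvilMu 𝔓 m ≤ (𝔓.ty t).b * pvlmH m)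
    (hU : ω ∈ pvilU 𝔓.num (𝔓.col t) (pvilPin 𝔓 m z t)) (hZ : pvilZi 𝔓 m z t ω = Z) (hζ : ζ ∈ pvilMe 𝔓 𝔈 m z t Z)
    (hs : cfSites ζ ∩ pvilWz 𝔓 m z t Z = cfSites ω ∩ pvilWz 𝔓 m z t Z) (hc : ∀ w ∈ pvilFi 𝔓 m z t ω, cfCol ζ w = cfCol ω w)
    {𝔖 𝔖' : PvwSt (pvieT ζ)} {y : (pvieT ζ).Pth} (ha : (pvilLe 𝔓 𝔈 m z t).Arc 𝔓.num (𝔓.col t) ζ 𝔖 𝔖' y) :
    pvdcCV 𝔖' (pviePos ζ) z (𝔓.num.m * pvlmH m) = pvyqC 𝔓.num (𝔓.col t) (𝔓.pl m z t) ω :=
  pvvf_T3 𝔓 𝔈 hδ hρ hb hb1 hU hZ hζ hs hc ((PvilLk.atP'_pin (L := pvilLe 𝔓 𝔈 m z t) rfl _ _ _ _).1 ha.at_p')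

end model

end Claimed.Agent.R289
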