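import Claimed.Agent.R289.Tr.LinkLoc
import Claimed.Agent.R289.Tr.GeoLoc
import Claimed.Agent.R289.Tr.MeasGL
import Claimed.Agent.R289.Tr.Sure
import Claimed.Agent.R289.Tr.InstE
import Claimed.Agent.R289.Arm.Stat

/-!
# Row 289 (S0537, Cardy for Poisson-Voronoi), THE WALL, ROAD E, file Tr/LinkLocC : [LOC], THE THREE TOOLS WHICH DO NOT READ THE TEXT OF A LINK      (owner helper74; prefix `pvll_`; continuation of `Tr/LinkLoc`)

* sec. 1  TWO CONFIGURATIONS: **`pvll_conf_iso`** : the same restriction to `U ×ˢ univ`, mesh read in `U`, both `DelGood`  ⟹  `PvplIso` (238) of the two PLANE maps `pvieT η`, `pvieT η'` at the marks `κ = ℂ`, `K = pvtrCore (3ρ) U`, colour bit `b`;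
          `pvll_conf_ok` (`PvymOk` of 247), **`pvll_conf_locP`** (`PvLocP` of 22 for the SAME dart relation `pvplRK`): so the twins of 22 (`pvlw_`), 74 (`pvll_`), 173 (`pvzl_`: door gates) live over ONE relation;   weights `pvll_conf_q`, `pvll_conf_v`
* sec. 2  SOFT: **`pvll_det`** (door `pvsu_det_of_nice` at `pvP ε`, nice := `PvatNice`), **`pvll_sure_val`** (cure (D1) of 7): `PvsuDet` of `(· ∈ M)` and of `1_M F` on `S`  ⟹  a.s. on `S ∩ M`: `σ ∈ Sure_W (M ∩ {F = Loc_W (1_M F)})`;   `pvll_sure_of_det`, `pvll_loc_of_det` (old form)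
* sec. 3  HULLS: `pvll_fat_core` (a set whose cells, with their collar, lie in the window lies in the `3μ`-core, `3μ ≤ δ`), **`pvll_disc_core`** (the whole gate disc lies in the core as soon as the SITES of the open disc are in the hull, mesh `μ` on the disc, `6μ ≤ δ`), `pvll_mesh_of_dense`
* sec. 4  (v1.1) windows cut by a box: `pvll_core_inter pvll_core_mono pvll_sq_core pvll_ball_sq`;   **`pvll_det_pair`** (the two `PvsuDet` from ONE deterministic lemma), **`pvll_loc_final`** (a.s. `S ⊆ Sure (M ∩ {F = Loc})`), `pvll_null_val` (its measurability hypothesis from `nM`, `nF`)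
-/

set_option autoImplicit false

namespace Claimed.Agent.R289

open Set Metric MeasureTheory Claims.C0465 Claimed.Agent.R291

/-! ## 1. two configurations -/

section conf

variable {U : Set ℂ} {ρ : ℝ} {η η' : Conf PvPt}

/-- **TWO CONFIGURATIONS WITH THE SAME RESTRICTION TO THE WINDOW**: agreement of 238 of the two plane maps on the `3ρ`-core of the window -/
theorem pvll_conf_iso (hρ : 0 < ρ) (hηη : Conf.restr (U ×ˢ univ) η = Conf.restr (U ×ˢ univ) η') (hm : PvtrMesh ρ U (cfSites η)) (h : DelGood (cfSites η)) (h' : DelGood (cfSites η')) (b : Bool) :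
    PvplIso (pvieT η) (pviePos η) (pvieCol η b) (pvieT η') (pviePos η') (pvieCol η' b) (pvtrCore (3 * ρ) U) (fun v v' => (v : ℂ) = v' ∧ (v : ℂ) ∈ U) := by
  have hA := pvge_agr_core hρ (pvge_conf_sites hηη) hm
  have hP := pvge_del_bpl h
  have hP' := pvge_del_bpl h'
  refine ⟨fun u u' hu => hu.1.symm, fun u u' hu => ?_, fun u u' u'' h1 h2 => Subtype.ext (h1.1.symm.trans h2.1), fun u v u' h1 h2 => Subtype.ext (h1.1.trans h2.1.symm), fun d hd => ?_, fun d' hd' => ?_⟩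
  · show (cfCol η' (u' : ℂ) == b) = (cfCol η (u : ℂ) == b)
    rw [← hu.1, pvge_conf_col hηη _ hu.2]
  · obtain ⟨d', hd'⟩ := pvge_rel_exists hP hP' hA.same d (Or.inl hd)
    obtain ⟨m1, m2, m3⟩ := pvge_rel_mem hP hA hd'
    exact ⟨d', ⟨hd'.1, m1⟩, ⟨hd'.2.1, m2⟩, ⟨pvge_rel_apex hP hP' hA.same hd', m3⟩⟩
  · obtain ⟨d, hd⟩ := pvge_rel_exists hP' hP hA.same.symm d' (Or.inl hd')
    have hd2 := pvge_rel_symm hP' hP hA.same.symm hd
    obtain ⟨m1, m2, m3⟩ := pvge_rel_mem hP hA hd2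
    exact ⟨d, ⟨hd2.1, m1⟩, ⟨hd2.2.1, m2⟩, ⟨pvge_rel_apex hP hP' hA.same hd2, m3⟩⟩

/-- the plane map of a good configuration is a simple sphere with distinct positions -/
theorem pvll_conf_ok (h : DelGood (cfSites η)) (K : Set ℂ) : PvymOk (pvieT η) (pviePos η) K :=
  ⟨delb_plane_isSph h, pvgy_m_simple _, Subtype.val_injective.injOn⟩

/-- **the same as a positioned local isomorphism of 22**, for the dart relation `pvplRK` of 238 -/
theorem pvll_conf_locP (hρ : 0 < ρ) (hηη : Conf.restr (U ×ˢ univ) η = Conf.restr (U ×ˢ univ) η') (hm : PvtrMesh ρ U (cfSites η)) (h : DelGood (cfSites η)) (h' : DelGood (cfSites η')) (b : Bool)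
    {d0 : (delbPl (pvieY η)).Dart} (hd0 : pviePos η ((pvieT η).src d0) ∈ pvtrCore (3 * ρ) U) :
    PvLocP (pvieT η) (pvieT η') (pvplRK (pvieT η) (pviePos η) (pvieT η') (pvtrCore (3 * ρ) U) (fun v v' => (v : ℂ) = v' ∧ (v : ℂ) ∈ U)) (pviePos η) (pviePos η') (pvtrCore (3 * ρ) U) :=
  pvym_locP (pvll_conf_iso hρ hηη hm h h' b) (pvll_conf_ok h _) (pvll_conf_ok h' _) hd0

end conf

/-! ## 2. soft localisation -/

section soft

variable {E : Type*} [MeasurableSpace E] {m : Measure E} {μ : Measure (Conf E)} {W : Set E}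

/-- old form, event -/
theorem pvll_sure_of_det (h : IsPpp m μ) (hW : MeasurableSet W) {M S : Set (Conf E)} (hM : NullMeasurableSet M μ) (dA : PvsuDet μ W S (fun η => η ∈ M)) :
    ∀ᵐ σ ∂μ, σ ∈ S → σ ∈ M → σ ∈ pvsuSure μ W M := by
  filter_upwards [pvsu_sure_iff h hW hM dA] with σ h1 h2 h3
  exact (h1 h2).2 h3

/-- old form, value -/
theorem pvll_loc_of_det (h : IsPpp m μ) (hW : MeasurableSet W) {M S : Set (Conf E)} {F : Conf E → ℂ} (hF : AEMeasurable (M.indicator F) μ) (dX : PvsuDet μ W S (M.indicator F)) :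
    ∀ᵐ σ ∂μ, σ ∈ S → σ ∈ M → pvsuLoc μ W (M.indicator F) σ = F σ := by
  filter_upwards [pvsu_loc_eq h hW hF dX] with σ h1 h2 h3
  rw [h1 h2, indicator_of_mem h3]

/-- **the cured success event** `Sure_W (M ∩ {F = Loc_W (1_M F)})` ((D1) of 7) **contains `S ∩ M` a.s.** -/
theorem pvll_sure_val (h : IsPpp m μ) (hW : MeasurableSet W) {M S : Set (Conf E)} {F : Conf E → ℂ} (hM : NullMeasurableSet (M ∩ {η | F η = pvsuLoc μ W (M.indicator F) η}) μ)
    (hF : AEMeasurable (M.indicator F) μ) (dA : PvsuDet μ W S (fun η => η ∈ M)) (dX : PvsuDet μ W S (M.indicator F)) :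
    ∀ᵐ σ ∂μ, σ ∈ S → σ ∈ M → σ ∈ pvsuSure μ W (M ∩ {η | F η = pvsuLoc μ W (M.indicator F) η}) := by
  have key : ∀ᵐ σ ∂μ, σ ∈ S ∩ M → σ ∈ M ∩ {η | F η = pvsuLoc μ W (M.indicator F) η} ∧ ∀ᵐ ξ ∂μ, Conf.spl W (σ, ξ) ∈ M ∩ {η | F η = pvsuLoc μ W (M.indicator F) η} := by
    filter_upwards [dA, dX, pvll_loc_of_det h hW hF dX] with σ h1 h2 h3 hσ
    have e0 := h3 hσ.1 hσ.2
    refine ⟨⟨hσ.2, e0.symm⟩, ?_⟩
    filter_upwards [h1 hσ.1, h2 hσ.1] with ξ h4 h5
    have hm : Conf.spl W (σ, ξ) ∈ M := by rw [h4]; exact hσ.2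
    refine ⟨hm, ?_⟩
    rw [indicator_of_mem hm, indicator_of_mem hσ.2] at h5
    show F (Conf.spl W (σ, ξ)) = pvsuLoc μ W (M.indicator F) (Conf.spl W (σ, ξ))
    rw [h5, (pvsu_loc_reads μ W (M.indicator F)).spl_left subset_rfl σ ξ, e0]
  have dM : PvsuDet μ W (S ∩ M) (fun η => η ∈ M ∩ {η | F η = pvsuLoc μ W (M.indicator F) η}) := by
    filter_upwards [key] with σ h1 hσ
    filter_upwards [(h1 hσ).2] with ξ h2
    exact propext ⟨fun _ => (h1 hσ).1, fun _ => h2⟩
  filter_upwards [pvsu_sure_iff h hW hM dM, key] with σ h1 h2 h3 h4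
  exact (h1 ⟨h3, h4⟩).2 (h2 ⟨h3, h4⟩).1

/-- **THE DOOR at `pvP ε`**: two NICE configurations which agree on the window, the first one in `S`, give the same value -/
theorem pvll_det {β : Type*} {ε : ℝ} (hε : ε ≠ 0) {Wn : Set ℂ} (hW : MeasurableSet Wn) {S : Set (Conf PvPt)} {F : Conf PvPt → β}
    (hloc : ∀ η η', PvatNice (cfSites η) → PvatNice (cfSites η') → η ∈ S → Conf.restr (Wn ×ˢ univ) η = Conf.restr (Wn ×ˢ univ) η' → F η = F η') : PvsuDet (pvP ε) (Wn ×ˢ univ) S F :=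
  pvsu_det_of_nice (N := {η | PvatNice (cfSites η)}) (pv_isPpp ε) (hW.prod MeasurableSet.univ) (pvat_nice_ae hε) hloc

end soft

/-! ## 3. hulls -/

section hull

variable {δ μ : ℝ} {A Wn : Set ℂ}

/-- the mesh read in the window from the density on a larger region -/
theorem pvll_mesh_of_dense (hμ : 0 ≤ μ) {Y B : Set ℂ} (hB : Wn ⊆ B) (hd : VorDense Y B μ) : PvtrMesh μ Wn Y := fun z hz => hd z (hB (hz (mem_closedBall_self hμ)))

/-- a set whose cells, with their collar, lie in the window lies in the `3μ`-core of the window -/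
theorem pvll_fat_core (hδ : 0 < δ) (h3 : 3 * μ ≤ δ) (hW : pvtU δ (pvtN8 (pvtCells δ A)) ⊆ Wn) : A ⊆ pvtrCore (3 * μ) Wn := by
  intro a ha q hq
  exact hW (pvt_N8_U hδ (pvt_cells_cover hδ ha) ((mem_closedBall_iff_norm.1 hq).trans h3))

/-- **the whole gate disc lies in the core of the window** as soon as the SITES of the open disc are in the hull and the mesh holds on the disc -/
theorem pvll_disc_core (hδ : 0 < δ) (hμ : 0 < μ) (h6 : 6 * μ ≤ δ) {R : ℝ} (hR : 2 * μ ≤ R) {Y : Set ℂ} {z : ℂ} (hd : VorDense Y (closedBall z R) μ) (hA : Y ∩ ball z R ⊆ A)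
    (hW : pvtU δ (pvtN8 (pvtCells δ A)) ⊆ Wn) : closedBall z R ⊆ pvtrCore (3 * μ) Wn := by
  intro w hw q hq
  rw [mem_closedBall_iff_norm] at hw hq
  obtain ⟨w', h1, h2⟩ : ∃ w' : ℂ, ‖w' - z‖ ≤ R - 2 * μ ∧ ‖w - w'‖ ≤ 2 * μ := by
    by_cases hc : ‖w - z‖ ≤ R - 2 * μ
    · exact ⟨w, hc, by rw [sub_self, norm_zero]; positivity⟩
    · push Not at hc
      have hn : 0 < ‖w - z‖ := lt_of_le_of_lt (by linarith) hc
      set t : ℝ := (R - 2 * μ) / ‖w - z‖ with ht
      have ht0 : 0 ≤ t := div_nonneg (by linarith) hn.le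
      have ht1 : t ≤ 1 := (div_le_one hn).2 hc.le
      refine ⟨z + (t : ℂ) * (w - z), ?_, ?_⟩
      · rw [add_sub_cancel_left, norm_mul, Complex.norm_real, Real.norm_of_nonneg ht0, ht, div_mul_cancel₀ _ hn.ne']
      · have e : w - (z + (t : ℂ) * (w - z)) = ((1 - t : ℝ) : ℂ) * (w - z) := by push_cast; ring
        rw [e, norm_mul, Complex.norm_real, Real.norm_of_nonneg (by linarith), sub_mul, one_mul, ht, div_mul_cancel₀ _ hn.ne']
        linarith
  obtain ⟨u, hu, h3⟩ := hd w' (mem_closedBall_iff_norm.2 (by linarith))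
  have hu2 : u ∈ A := by
    refine hA ⟨hu, mem_ball_iff_norm.2 ?_⟩
    have : ‖u - z‖ ≤ ‖w' - u‖ + ‖w' - z‖ := by
      rw [← norm_neg (w' - u)]
      have e : u - z = -(w' - u) + (w' - z) := by ring
      rw [e]; exact norm_add_le _ _
    linarith
  refine hW (pvt_N8_U hδ (pvt_cells_cover hδ hu2) ?_)
  have e : q - u = (q - w) + (w - w') + (w' - u) := by ring
  rw [e]
  have := norm_add₃_le (a := q - w) (b := w - w') (c := w' - u)
  linarith

end hull

/-! ## 4. appendix (v1.1): windows cut by a box, the pair of `PvsuDet` -/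

section more

variable {μ : ℝ}

theorem pvll_core_inter (r : ℝ) (A B : Set ℂ) : pvtrCore r (A ∩ B) = pvtrCore r A ∩ pvtrCore r B := by
  ext z
  exact subset_inter_iff

theorem pvll_core_mono (r : ℝ) {A B : Set ℂ} (h : A ⊆ B) : pvtrCore r A ⊆ pvtrCore r B := fun _ hz => hz.trans h

/-- the square lies in the core of the square with a collar -/
theorem pvll_sq_core {z : ℂ} {r κ c : ℝ} (hc : c ≤ κ) : pvwSq z r ⊆ pvtrCore c (pvwSq z (r + κ)) := by
  intro a ha q hq
  rw [mem_closedBall_iff_norm] at hq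
  have e : q - z = (q - a) + (a - z) := by ring
  have h1 := Complex.abs_re_le_norm (q - a)
  have h2 := Complex.abs_im_le_norm (q - a)
  constructor
  · rw [e, Complex.add_re]
    exact (abs_add_le _ _).trans (by linarith [ha.1])
  · rw [e, Complex.add_im]
    exact (abs_add_le _ _).trans (by linarith [ha.2])

/-- the disc lies in the square -/
theorem pvll_ball_sq {z : ℂ} {R r : ℝ} (h : R ≤ r) : closedBall z R ⊆ pvwSq z r := by
  intro a ha
  rw [mem_closedBall_iff_norm] at ha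
  exact ⟨(Complex.abs_re_le_norm _).trans (ha.trans h), (Complex.abs_im_le_norm _).trans (ha.trans h)⟩

/-- **THE TWO `PvsuDet` OF A LINK FROM ONE DETERMINISTIC LEMMA**: `S ⊆ M`; two nice configurations which agree on the window, the first one in `S`: the second one is in `M`, with the same value -/
theorem pvll_det_pair {ε : ℝ} (hε : ε ≠ 0) {Wn : Set ℂ} (hW : MeasurableSet Wn) {M S : Set (Conf PvPt)} {F : Conf PvPt → ℂ} (hSM : S ⊆ M)
    (hloc : ∀ η η', PvatNice (cfSites η) → PvatNice (cfSites η') → η ∈ S → Conf.restr (Wn ×ˢ univ) η = Conf.restr (Wn ×ˢ univ) η' → η' ∈ M ∧ F η' = F η) :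
    PvsuDet (pvP ε) (Wn ×ˢ univ) S (fun η => η ∈ M) ∧ PvsuDet (pvP ε) (Wn ×ˢ univ) S (M.indicator F) := by
  constructor
  · exact pvll_det hε hW fun η η' h1 h2 h3 h4 => propext ⟨fun _ => (hloc η η' h1 h2 h3 h4).1, fun _ => hSM h3⟩
  · refine pvll_det hε hW fun η η' h1 h2 h3 h4 => ?_
    obtain ⟨a1, a2⟩ := hloc η η' h1 h2 h3 h4
    rw [indicator_of_mem (hSM h3), indicator_of_mem a1, a2]

/-- **[LOC], FINAL SOFT FORM** (v2.1 of `Tr/InstL`): a.s. `S ⊆ Sure_Wn (M ∩ {F = Loc_Wn (1_M F)})` -/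
theorem pvll_loc_final {ε : ℝ} (hε : ε ≠ 0) {Wn : Set ℂ} (hW : MeasurableSet Wn) {M S : Set (Conf PvPt)} {F : Conf PvPt → ℂ} (hSM : S ⊆ M)
    (hM : NullMeasurableSet (M ∩ {η | F η = pvsuLoc (pvP ε) (Wn ×ˢ univ) (M.indicator F) η}) (pvP ε)) (hF : AEMeasurable (M.indicator F) (pvP ε))
    (hloc : ∀ η η', PvatNice (cfSites η) → PvatNice (cfSites η') → η ∈ S → Conf.restr (Wn ×ˢ univ) η = Conf.restr (Wn ×ˢ univ) η' → η' ∈ M ∧ F η' = F η) :
    ∀ᵐ σ ∂(pvP ε), σ ∈ S → σ ∈ pvsuSure (pvP ε) (Wn ×ˢ univ) (M ∩ {η | F η = pvsuLoc (pvP ε) (Wn ×ˢ univ) (M.indicator F) η}) := by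
  obtain ⟨dA, dX⟩ := pvll_det_pair hε hW hSM hloc
  filter_upwards [pvll_sure_val (pv_isPpp ε) (hW.prod MeasurableSet.univ) hM hF dA dX] with σ h1 h2
  exact h1 h2 (hSM h2)

/-- the measurability hypothesis `hM` of `pvll_loc_final` from the two plain ones -/
theorem pvll_null_val {ε : ℝ} {Wn : Set ℂ} (hW : MeasurableSet Wn) {M : Set (Conf PvPt)} {F : Conf PvPt → ℂ} (hM : NullMeasurableSet M (pvP ε)) (hF : AEMeasurable (M.indicator F) (pvP ε)) :
    NullMeasurableSet (M ∩ {η | F η = pvsuLoc (pvP ε) (Wn ×ˢ univ) (M.indicator F) η}) (pvP ε) := by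
  have e : M ∩ {η | F η = pvsuLoc (pvP ε) (Wn ×ˢ univ) (M.indicator F) η} = M ∩ {η | M.indicator F η = pvsuLoc (pvP ε) (Wn ×ˢ univ) (M.indicator F) η} := by
    ext η
    constructor
    · rintro ⟨h1, h2⟩
      exact ⟨h1, by show M.indicator F η = _; rw [indicator_of_mem h1]; exact h2⟩
    · rintro ⟨h1, h2⟩
      refine ⟨h1, ?_⟩
      have h3 : M.indicator F η = _ := h2
      rwa [indicator_of_mem h1] at h3
  rw [e]
  have := (pv_isPpp ε).prob
  exact hM.inter (nullMeasurableSet_eq_fun hF (pvsu_loc_measurable (hW.prod MeasurableSet.univ) _).aemeasurable)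

end more

end Claimed.Agent.R289
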