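import Claimed.Agent.R289.Tr.LinkLocA
import Claimed.Agent.R289.Tr.LinkLocC

/-!
# Row 289 (S0537, Cardy for Poisson-Voronoi), THE WALL, ROAD E, file Tr/LinkLocE : [LOC] AT THE NAMES OF `Tr/InstL` v2.2.1      (owner helper74; prefix `pvll_`, `Pvll`, `pvll`; continuation of `Tr/LinkLoc`, `LinkLocD`, `LinkLocC`, `LinkLocA`)

**RESULT**: a.s. THE SOFT OBJECTS OF THE FOUR SPECIAL LINKS ARE THE PLAIN ONES, for all base data at once: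
`pvll_iff_o pvll_iff_i pvll_iff_e` : `∀ᵐ σ, ∀ Z F, (σ ∈ (pvilEo .. Z F).A ↔ σ ∈ pvilMo .. Z) ∧ (σ ∈ pvilMo .. Z → (pvilEo .. Z F).X σ = (pvilLo ..).X .. w σ)`;   `pvll_iff_r` : `pvilAr = pvilMr`, `pvilXr = (pvilLr ..).X` on it.
NO DENSITY HYPOTHESIS: the only mesh is the clause `pvilMs` of the plain events of v2.2 (mesh `pvilMu` OF THE WINDOW).      What is asked:
* the type: `PvllPin 𝔓 m t` = `0 < ρ''`, `h + 2μ ≤ b h ≤ r_k` (`pvll_pin_mk`: from `1 + ρ''/500 ≤ b ≤ 2 b₂ + k ρ₁`);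
* a door: `‖d‖ = 1`, `hD` = field `dp_win` of `PvieEng.Wf`;   the reference plug: `hO` = field `rp_win`, `3 μ ≤ (𝔈.rp m).h`;
* **the collar (Rc) of RULING 22**: `room ⊆ pvtrCore (3μ) (mouth ∪ tile ∪ plug region)` (no `Z` in it);   `pvll_col_o pvll_col_i pvll_col_e`: from the form relative to the centre of the pin;
* the weight: `PvllWt w` (`pvll_wt_Q`, `pvll_wt_V`);   [MEAS] (247 289 231 282): Borel windows, `NullMeasurableSet M`, `AEMeasurable (1_M X)` at the FINITE hulls.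
CONTENTS
* sec. 1  `PvllWt`, `pvll_sites_sub pvll_mesh_tr pvll_N_tr` (mesh and guard of a kit plug are read in the window).
* sec. 2  **`pvll_loc_gen`** : ANY link; mesh of the window + room and feet (`PvllFtP PvllFtP'`) in the `3μ`-core ⟹ twin witnesses in any nice `η'` with the same restriction, same frozen positions, same `L.X`.
* sec. 3  geometry: `pvll_pull`, **`pvll_disc_dense`** (chain argument: the mesh OF THE WINDOW fills the gate disc, from one frozen site = the marked vertex), **`pvll_disc_mesh`**, `pvll_at_sq pvll_at_core pvll_ball_at`, **`pvll_ft_door`** (`2r + κ ≤ s`).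
* sec. 4  marked ends in the standard frame: `pvll_fzOut_box pvll_fzIn_box`, `pvll_std_out pvll_std_in`, `pvll_pin_core`, **`pvll_pin_out pvll_pin_in`**, `pvll_huO_finite pvll_huI_finite`.
* sec. 5  `PvllEndP PvllEndP'` (door | marked end), `.foot`, `pvll_end_uq`, **`pvll_loc_lk`** : `η' ∈ L.A`, same `L.X`, mesh, same `pvilHuO pvilFzO pvilHuI pvilFzI`      [a FIFTH link (return of the thick link) is one application].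
* sec. 6  soft: **`pvll_SA_iff`** (a.s. `pvilSA = M`, `pvilLoc = F` on it), `pvll_SA_det` (the two `PvsuDet`), **`pvll_fin_iff`** (all hulls at once, `pvilFin`).
* sec. 7  DETERMINISTIC at the names: `pvll_mu_pos pvll_mu_del pvll_mu_h`, `PvllPin`, `pvll_door_end pvll_ref_end`, **`pvll_tr_o pvll_tr_i pvll_tr_e pvll_tr_r`** (`η' ∈ M`, same `X`, same `pvilFo` / `pvilFi`).
* sec. 8  the a.s. forms above, `pvll_Mo_finite ..`, `pvll_Mo_own ..` (the plain event at the own hull).      sec. 9  the collar.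
* sec. 10 THE THICK RETURN `f` (sec. 8 of `Tr/InstL`): **`pvll_tr_f pvll_iff_f`**, `pvll_sure_iff`, **`pvll_iff_Af`** (a.s. `pvilAf = pvilMf`, all hulls), `pvll_Mf_finite pvll_Mf_own pvll_col_f`.
-/

set_option autoImplicit false

namespace Claimed.Agent.R289

open Set Metric MeasureTheory Claims.C0465
open scoped ComplexConjugate

/-! ## 1. local weights, the guard of a door -/

/-- **A LOCAL WEIGHT**: twin darts of two plane maps have the same weight -/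
def PvllWt (w : ∀ η : Conf PvPt, (delbPl (pvieY η)).Dart → ℂ) : Prop :=
  ∀ (η η' : Conf PvPt) (R : (delbPl (pvieY η)).Dart → (delbPl (pvieY η')).Dart → Prop) (Kr : Set ℂ), PvLocP (pvieT η) (pvieT η') R (pviePos η) (pviePos η') Kr → ∀ d d', R d d' → w η d = w η' d'

theorem pvll_wt_Q : PvllWt pvilQ := fun _ _ _ _ L _ _ h => pvlw_qpart L h

theorem pvll_wt_V : PvllWt pvilV := fun _ _ _ _ L _ _ h => pvlw_side L h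

section guard

variable {Wn : Set ℂ} {η η' : Conf PvPt}

/-- the sites of a part of the window -/
theorem pvll_sites_sub {E : Set ℂ} (hE : E ⊆ Wn) (hηη : Conf.restr (Wn ×ˢ univ) η = Conf.restr (Wn ×ˢ univ) η') : cfSites η ∩ E = cfSites η' ∩ E := by
  have h := pvge_conf_sites hηη
  ext u
  constructor
  · rintro ⟨h1, h2⟩
    exact ⟨((h ▸ (⟨h1, hE h2⟩ : u ∈ cfSites η ∩ Wn) : u ∈ cfSites η' ∩ Wn)).1, h2⟩
  · rintro ⟨h1, h2⟩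
    exact ⟨((h.symm ▸ (⟨h1, hE h2⟩ : u ∈ cfSites η' ∩ Wn) : u ∈ cfSites η ∩ Wn)).1, h2⟩

/-- the mesh of a part of the window is read in the window -/
theorem pvll_mesh_tr {E : Set ℂ} {ρ : ℝ} (hE : E ⊆ Wn) (hηη : Conf.restr (Wn ×ˢ univ) η = Conf.restr (Wn ×ˢ univ) η') (h : PvtrMesh ρ E (cfSites η)) : PvtrMesh ρ E (cfSites η') :=
  (pvtr_mesh_congr (pvll_sites_sub hE hηη)).1 h

/-- **the guard of a kit plug is read in the window** (among nice configurations) -/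
theorem pvll_N_tr {𝔭 : PvkdPlug} {z d : ℂ} (hW : pvkdAt z d 𝔭.Ew ⊆ Wn) (hηη : Conf.restr (Wn ×ˢ univ) η = Conf.restr (Wn ×ˢ univ) η') (hn : PvatNice (cfSites η')) (h : η ∈ 𝔭.N z d) : η' ∈ 𝔭.N z d :=
  ⟨hn, pvll_mesh_tr hW hηη h.2⟩

end guard

/-! ## 2. THE GENERIC FORM OF [LOC] -/

section gen

variable {N : PvwNum} {b : Bool} {L : PvilLk} {Wn : Set ℂ} {μ : ℝ} {η η' : Conf PvPt} {w : ∀ η : Conf PvPt, (delbPl (pvieY η)).Dart → ℂ}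

/-- **[LOC], DETERMINISTIC, ANY LINK**: the mesh `μ` holds in the window, the room and the feet of the two ends lie in the `3μ`-core of the window, the mesh windows of the door ends lie in the window;
a nice configuration with the same restriction to the window carries the twin link: same frozen positions, same value -/
theorem pvll_loc_gen (hμ : 0 < μ) (hu : PvllUq L) (hw : PvllWt w) (hY : L.Yin ⊆ pvtrCore (3 * μ) Wn)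
    (hg : L.dr = true → pvkdAt L.p.z L.p.fr (pvkdP L.p.h).Ew ⊆ Wn) (hg' : L.dr' = true → pvkdAt L.p'.z L.p'.fr (pvkdP L.p'.h).Ew ⊆ Wn)
    (hn' : PvatNice (cfSites η')) (hηη : Conf.restr (Wn ×ˢ univ) η = Conf.restr (Wn ×ˢ univ) η') (hm : PvtrMesh μ Wn (cfSites η))
    {𝔖 𝔖' : PvwSt (pvieT η)} {y : (pvieT η).Pth} (ha : L.Arc N b η 𝔖 𝔖' y)
    (hft : PvllFtP L (pvtrCore (3 * μ) Wn) (pvieT η) (pviePos η) 𝔖) (hft' : PvllFtP' L (pvtrCore (3 * μ) Wn) (pvieT η) (pviePos η) 𝔖') :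
    ∃ (𝔖₁ 𝔖₁' : PvwSt (pvieT η')) (y₁ : (pvieT η').Pth), L.Arc N b η' 𝔖₁ 𝔖₁' y₁ ∧ pviePos η '' 𝔖.fzOut = pviePos η' '' 𝔖₁.fzOut ∧ pviePos η '' 𝔖'.fzIn = pviePos η' '' 𝔖₁'.fzIn ∧
      L.X N b w η' = L.X N b w η := by
  obtain ⟨⟨g1, g2, g3⟩, hb⟩ := pvll_arc_iff.1 ha
  have hI := pvll_conf_iso hμ hηη hm g1 hn'.good b
  have o := pvll_conf_ok g1 (pvtrCore (3 * μ) Wn)
  have o' := pvll_conf_ok hn'.good (pvtrCore (3 * μ) Wn)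
  obtain ⟨𝔖₀, -, -, hp⟩ := pvll_atP_tr hI o o' hft hb.at_p
  have Lc := pvym_locP hI o o' (d0 := 𝔖.dp) (by have := hp.stub 0 (Nat.zero_le _); rwa [pvas_it_zero] at this)
  obtain ⟨𝔖₁, 𝔖₁', y₁, G, G', -, hb₁, hv⟩ := pvll_arc_tr hI o o' hY hft hft' hb (w := w η) (w' := w η') (hw η η' _ _ Lc)
  have ha₁ : L.Arc N b η' 𝔖₁ 𝔖₁' y₁ := pvll_arc_iff.2 ⟨⟨hn'.good, fun h => pvll_N_tr (hg h) hηη hn' (g2 h), fun h => pvll_N_tr (hg' h) hηη hn' (g3 h)⟩, hb₁⟩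
  refine ⟨𝔖₁, 𝔖₁', y₁, ha₁, pvll_fzOut_pos Lc G, pvll_fzIn_pos Lc G', ?_⟩
  rw [pvll_X_eq hu ha₁ w, pvll_X_eq hu ha w, pvll_val_eq, pvll_val_eq]
  exact hv

end gen

/-! ## 3. geometry of the feet -/

section geo

variable {δ μ : ℝ} {Wn : Set ℂ}

/-- a point of the disc is within `2μ` of the disc of radius `R - 2μ` -/
theorem pvll_pull (hμ : 0 ≤ μ) {R : ℝ} (hR : 2 * μ ≤ R) {z w : ℂ} (hw : ‖w - z‖ ≤ R) : ∃ w' : ℂ, ‖w' - z‖ ≤ R - 2 * μ ∧ ‖w - w'‖ ≤ 2 * μ := by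
  by_cases hc : ‖w - z‖ ≤ R - 2 * μ
  · exact ⟨w, hc, by rw [sub_self, norm_zero]; positivity⟩
  · push Not at hc
    have hn : 0 < ‖w - z‖ := lt_of_le_of_lt (by linarith) hc
    set t : ℝ := (R - 2 * μ) / ‖w - z‖ with ht
    have ht0 : 0 ≤ t := div_nonneg (by linarith) hn.le
    have ht1 : t ≤ 1 := (div_le_one hn).2 hc.le
    refine ⟨z + (t : ℂ) * (w - z), ?_, ?_⟩
    · rw [add_sub_cancel_left, norm_mul, Complex.norm_real, Real.norm_of_nonneg ht0, ht, div_mul_cancel₀ _ hn.ne']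
    · have e : w - (z + (t : ℂ) * (w - z)) = ((1 - t : ℝ) : ℂ) * (w - z) := by push_cast; ring
      rw [e, norm_mul, Complex.norm_real, Real.norm_of_nonneg (by linarith), sub_mul, one_mul, ht, div_mul_cancel₀ _ hn.ne']
      linarith

/-- **THE MESH OF THE WINDOW FILLS THE DISC** (chain argument): one point `x0` of the small disc lies in the `μ`-core of the window; every site of the open disc brings its `δ`-ball into the window -/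
theorem pvll_disc_dense (hμ : 0 < μ) (h3 : 3 * μ ≤ δ) {R : ℝ} {Y : Set ℂ} {z x0 : ℂ} (hx0 : ‖x0 - z‖ ≤ R - 2 * μ) (hx0W : x0 ∈ pvtrCore μ Wn) (hm : PvtrMesh μ Wn Y)
    (hA : ∀ u ∈ Y, ‖u - z‖ < R → closedBall u δ ⊆ Wn) : closedBall z (R - 2 * μ) ⊆ pvtrCore μ Wn := by
  set c : ℝ := δ - 2 * μ with hc
  have hc0 : 0 < c := by linarith
  have step : ∀ x x' : ℂ, ‖x - z‖ ≤ R - 2 * μ → x ∈ pvtrCore μ Wn → ‖x' - x‖ ≤ c → x' ∈ pvtrCore μ Wn := by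
    intro x x' h1 h2 h3 q hq
    rw [mem_closedBall_iff_norm] at hq
    obtain ⟨u, hu, hxu⟩ := hm x h2
    have hz : ‖u - z‖ < R := by
      have e : u - z = -(x - u) + (x - z) := by ring
      have := norm_add_le (-(x - u)) (x - z)
      rw [← e, norm_neg] at this
      linarith
    refine hA u hu hz (mem_closedBall_iff_norm.2 ?_)
    have e : q - u = (q - x') + (x' - x) + (x - u) := by ring
    rw [e]
    have := norm_add₃_le (a := q - x') (b := x' - x) (c := x - u)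
    linarith
  have key : ∀ n : ℕ, ∀ y : ℂ, ‖y - z‖ ≤ R - 2 * μ → ‖y - x0‖ ≤ n * c → y ∈ pvtrCore μ Wn := by
    intro n
    induction n with
    | zero =>
      intro y _ h2
      have : y - x0 = 0 := norm_le_zero_iff.1 (by simpa using h2)
      rw [sub_eq_zero.1 this]
      exact hx0W
    | succ n ih =>
      intro y h1 h2
      by_cases hle : ‖y - x0‖ ≤ n * c
      · exact ih y h1 hle
      · push Not at hle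
        have hn0 : 0 ≤ (n : ℝ) * c := by positivity
        have hn : 0 < ‖y - x0‖ := lt_of_le_of_lt hn0 hle
        set t : ℝ := (n * c) / ‖y - x0‖ with ht
        have ht0 : 0 ≤ t := div_nonneg hn0 hn.le
        have ht1 : t ≤ 1 := (div_le_one hn).2 hle.le
        have a1 : ‖(x0 + (t : ℂ) * (y - x0)) - x0‖ ≤ n * c := by
          rw [add_sub_cancel_left, norm_mul, Complex.norm_real, Real.norm_of_nonneg ht0, ht, div_mul_cancel₀ _ hn.ne']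
        have a2 : ‖(x0 + (t : ℂ) * (y - x0)) - z‖ ≤ R - 2 * μ := by
          have e : (x0 + (t : ℂ) * (y - x0)) - z = ((1 - t : ℝ) : ℂ) * (x0 - z) + (t : ℂ) * (y - z) := by push_cast; ring
          rw [e]
          refine (norm_add_le _ _).trans ?_
          rw [norm_mul, norm_mul, Complex.norm_real, Complex.norm_real, Real.norm_of_nonneg ht0, Real.norm_of_nonneg (by linarith)]
          nlinarith
        refine step _ y a2 (ih _ a2 a1) ?_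
        have e : y - (x0 + (t : ℂ) * (y - x0)) = ((1 - t : ℝ) : ℂ) * (y - x0) := by push_cast; ring
        rw [e, norm_mul, Complex.norm_real, Real.norm_of_nonneg (by linarith), sub_mul, one_mul, ht, div_mul_cancel₀ _ hn.ne']
        push_cast at h2
        linarith
  intro y hy
  rw [mem_closedBall_iff_norm] at hy
  obtain ⟨n, hn⟩ := exists_nat_ge (‖y - x0‖ / c)
  exact key n y hy ((div_le_iff₀ hc0).1 hn)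

/-- **the whole gate disc lies in the `3μ`-core of the window**, from the mesh OF THE WINDOW alone -/
theorem pvll_disc_mesh (hμ : 0 < μ) (h6 : 6 * μ ≤ δ) {R : ℝ} {Y : Set ℂ} {z x0 : ℂ} (hx0 : ‖x0 - z‖ ≤ R - 2 * μ) (hx0W : x0 ∈ pvtrCore μ Wn) (hm : PvtrMesh μ Wn Y)
    (hA : ∀ u ∈ Y, ‖u - z‖ < R → closedBall u δ ⊆ Wn) : closedBall z R ⊆ pvtrCore (3 * μ) Wn := by
  have hD := pvll_disc_dense hμ (by linarith) hx0 hx0W hm hA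
  have hR : 2 * μ ≤ R := by linarith [norm_nonneg (x0 - z)]
  intro w hw q hq
  rw [mem_closedBall_iff_norm] at hw hq
  obtain ⟨w', h1, h2⟩ := pvll_pull hμ.le hR hw
  obtain ⟨u, hu, h3⟩ := hm w' (hD (mem_closedBall_iff_norm.2 h1))
  have hz : ‖u - z‖ < R := by
    have e : u - z = -(w' - u) + (w' - z) := by ring
    have := norm_add_le (-(w' - u)) (w' - z)
    rw [← e, norm_neg] at this
    linarith
  refine hA u hu hz (mem_closedBall_iff_norm.2 ?_)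
  have e : q - u = (q - w) + (w - w') + (w' - u) := by ring
  rw [e]
  have := norm_add₃_le (a := q - w) (b := w - w') (c := w' - u)
  linarith

/-- a point is in a placed square -/
theorem pvll_at_sq {z d : ℂ} (hd : ‖d‖ = 1) {s : ℝ} {q : ℂ} (h1 : |((q - z) * conj d).re| ≤ s) (h2 : |((q - z) * conj d).im| ≤ s) : q ∈ pvkdAt z d (pvwSq 0 s) := by
  refine ⟨(q - z) * conj d, ⟨by rwa [sub_zero], by rwa [sub_zero]⟩, ?_⟩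
  have e : d * conj d = 1 := by rw [Complex.mul_conj, Complex.normSq_eq_norm_sq, hd]; norm_num
  show z + d * ((q - z) * conj d) = q
  have : d * ((q - z) * conj d) = (d * conj d) * (q - z) := by ring
  rw [this, e, one_mul]; ring

/-- a smaller placed square lies in the core -/
theorem pvll_at_core {z d : ℂ} (hd : ‖d‖ = 1) {ρ s κ : ℝ} (hs : ρ + κ ≤ s) (hW : pvkdAt z d (pvwSq 0 s) ⊆ Wn) : pvkdAt z d (pvwSq 0 ρ) ⊆ pvtrCore κ Wn := by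
  rintro _ ⟨a, ha, rfl⟩ q hq
  rw [mem_closedBall_iff_norm] at hq
  have e : d * conj d = 1 := by rw [Complex.mul_conj, Complex.normSq_eq_norm_sq, hd]; norm_num
  have e2 : (q - z) * conj d = a + (q - pvthSim z d a) * conj d := by
    have : (q - z) * conj d = (d * conj d) * a + (q - (z + d * a)) * conj d := by ring
    rw [this, e, one_mul]; rfl
  have hn : ‖(q - pvthSim z d a) * conj d‖ ≤ κ := by rw [norm_mul, Complex.norm_conj, hd, mul_one]; exact hq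
  have a1 : |a.re| ≤ ρ := by have := ha.1; rwa [sub_zero] at this
  have a2 : |a.im| ≤ ρ := by have := ha.2; rwa [sub_zero] at this
  refine hW (pvll_at_sq hd ?_ ?_)
  · rw [e2, Complex.add_re]
    exact (abs_add_le _ _).trans (by linarith [(Complex.abs_re_le_norm ((q - pvthSim z d a) * conj d))])
  · rw [e2, Complex.add_im]
    exact (abs_add_le _ _).trans (by linarith [(Complex.abs_im_le_norm ((q - pvthSim z d a) * conj d))])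

/-- the disc lies in the placed square -/
theorem pvll_ball_at {z d : ℂ} (hd : ‖d‖ = 1) (ρ : ℝ) : closedBall z ρ ⊆ pvkdAt z d (pvwSq 0 ρ) := by
  intro q hq
  rw [mem_closedBall_iff_norm] at hq
  have hn : ‖(q - z) * conj d‖ ≤ ρ := by rw [norm_mul, Complex.norm_conj, hd, mul_one]; exact hq
  exact pvll_at_sq hd ((Complex.abs_re_le_norm _).trans hn) ((Complex.abs_im_le_norm _).trans hn)

/-- **THE FOOT OF A DOOR END**: the plug of record of unit `r`, a placed square of half side `s ≥ 2r + κ` in the window -/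
theorem pvll_ft_door {z d : ℂ} (hd : ‖d‖ = 1) {r s κ : ℝ} (hr : 0 ≤ r) (hs : 2 * r + κ ≤ s) (hW : pvkdAt z d (pvwSq 0 s) ⊆ Wn) :
    ((pvkdP r).pg z d).Sub (pvtrCore κ Wn) ∧ closedBall z (pvkdP r).b ⊆ pvtrCore κ Wn := by
  have hC := pvll_at_core hd hs hW
  have hB : closedBall z (2 * r) ⊆ pvtrCore κ Wn := (pvll_ball_at hd _).trans hC
  refine ⟨⟨?_, ?_, ?_⟩, hB⟩
  · exact (ball_subset_closedBall.trans (closedBall_subset_closedBall (show r ≤ 2 * r by linarith))).trans hB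
  · exact ball_subset_closedBall.trans hB
  · refine (image_mono ?_).trans hC
    intro a ha
    obtain ⟨h1, h2, h3, h4⟩ := ha
    exact ⟨by rw [sub_zero]; exact abs_le.2 ⟨h1, h2⟩, by rw [sub_zero]; exact abs_le.2 ⟨by linarith, by linarith⟩⟩

end geo

/-! ## 4. the foot of a marked end in the standard frame -/

section box

variable {V D : Type} {T : PvMap V D} {pos : V → ℂ} {s : V → Bool} {𝔖 : PvwSt T} {N : PvwNum} {h : ℝ} {z : ℂ} {τ : PvwTy}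

/-- the sites frozen by `Σ_out` lie in the own-level box -/
theorem pvll_fzOut_box (H : 𝔖.AtOut pos N h z τ s) (hbR : τ.b * h ≤ pvwRad N h τ τ.k) : ∀ v ∈ 𝔖.fzOut, pos v ∈ pvwSq z (pvwRad N h τ τ.k) := by
  rintro v ((hv | ⟨i, hi, rfl⟩) | ⟨i, hi, rfl⟩)
  · have h1 : v ∈ 𝔖.dsc := hv
    rw [H.gate.dsc_eq] at h1
    exact pvll_ball_sq hbR (mem_closedBall_iff_norm.2 (le_of_lt h1))
  · exact (H.stub.ep_in i hi).1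
  · exact (H.stub.ep_in i hi).2

/-- the sites frozen by `Σ_in` lie in the own-level box -/
theorem pvll_fzIn_box (H : 𝔖.AtIn pos N h z τ s) (hbR : τ.b * h ≤ pvwRad N h τ τ.k) : ∀ v ∈ 𝔖.fzIn, pos v ∈ pvwSq z (pvwRad N h τ τ.k) := by
  rintro v ((hv | ⟨i, hi, rfl⟩) | ⟨i, hi, rfl⟩)
  · have h1 : v ∈ 𝔖.dsc := hv
    rw [H.gate.dsc_eq] at h1
    exact pvll_ball_sq hbR (mem_closedBall_iff_norm.2 (le_of_lt h1))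
  · exact (H.stub.em_in i hi).1
  · exact (H.stub.em_in i hi).2

end box

section pin

variable {N : PvwNum} {b : Bool} {p : PvilPl} {η : Conf PvPt} {δ μ : ℝ} {Wn : Set ℂ} {𝔖 : PvwSt (pvieT η)}

theorem pvll_std_pos (hf : p.fr = 1) (η : Conf PvPt) : p.pos η = pviePos η := by
  funext v
  show conj p.fr * pviePos η v = _
  rw [hf, map_one, one_mul]

theorem pvll_std_zf (hf : p.fr = 1) : p.zf = p.z := by
  show conj p.fr * p.z = _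
  rw [hf, map_one, one_mul]

/-- the exit half state in the standard frame -/
theorem pvll_std_out (hf : p.fr = 1) (h : PvilOut N b p η 𝔖) : 𝔖.AtOut (pviePos η) N p.h p.z p.ty (pvieCol η b) := by
  have := h.st
  rwa [pvll_std_pos hf, pvll_std_zf hf] at this

/-- the entrance half state in the standard frame -/
theorem pvll_std_in (hf : p.fr = 1) (h : PvilIn N b p η 𝔖) : 𝔖.AtIn (pviePos η) N p.h p.z p.ty (pvieCol η b) := by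
  have := h.st
  rwa [pvll_std_pos hf, pvll_std_zf hf] at this

/-- **the common part of the two feet**: a set `F` of sites which contains the sites of the open gate disc and lies in the own-level box; the window contains the fat hull of `F` cut by the box with its collar -/
theorem pvll_pin_core (hδ : 0 < δ) (hμ : 0 < μ) (h6 : 6 * μ ≤ δ) {R ρ : ℝ} {z x0 : ℂ} {A B : Set ℂ} (hx0 : ‖x0 - z‖ ≤ R - 2 * μ) (hx0A : x0 ∈ A)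
    (hA : ∀ u ∈ cfSites η, ‖u - z‖ < R → u ∈ A) (hbox : A ⊆ pvwSq z ρ) (hW : pvilFat δ (pvtCells δ (A ∪ B)) ∩ pvwSq z (ρ + δ) ⊆ Wn) (hm : PvtrMesh μ Wn (cfSites η)) :
    closedBall z R ⊆ pvtrCore (3 * μ) Wn ∧ A ⊆ pvtrCore (3 * μ) Wn := by
  have key : ∀ a ∈ A, closedBall a δ ⊆ Wn := by
    intro a ha q hq
    exact hW ⟨pvt_N8_U hδ (pvt_cells_cover hδ (Or.inl ha)) (mem_closedBall_iff_norm.1 hq), pvll_sq_core le_rfl (hbox ha) hq⟩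
  refine ⟨pvll_disc_mesh hμ h6 hx0 ?_ hm fun u hu hz => key u (hA u hu hz), fun a ha => ?_⟩
  · exact (closedBall_subset_closedBall (by linarith)).trans (key x0 hx0A)
  · exact (closedBall_subset_closedBall (by linarith)).trans (key a ha)

/-- **THE FOOT OF A MARKED EXIT END** (standard frame): the window contains the fat hull of record cut by the own-level box with its collar, THE MESH IS THE MESH OF THE WINDOW -/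
theorem pvll_pin_out (hf : p.fr = 1) (hδ : 0 < δ) (hμ : 0 < μ) (h6 : 6 * μ ≤ δ) (hb1 : p.h + 2 * μ ≤ p.ty.b * p.h) (hbR : p.ty.b * p.h ≤ pvwRad N p.h p.ty p.ty.k) (h : PvilOut N b p η 𝔖) {r : ℝ}
    (hW : pvilFat δ (pvilHuO δ r N b p η) ∩ pvwSq p.z (pvwRad N p.h p.ty p.ty.k + δ) ⊆ Wn) (hm : PvtrMesh μ Wn (cfSites η)) :
    closedBall p.z (p.ty.b * p.h) ⊆ pvtrCore (3 * μ) Wn ∧ pviePos η '' 𝔖.fzOut ⊆ pvtrCore (3 * μ) Wn := by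
  have H := pvll_std_out hf h
  rw [pvll_huO_eq (by rw [hf, norm_one]) h] at hW
  have hcore : ∀ v : ↥(pvieY η), ‖pviePos η v - p.z‖ < p.ty.b * p.h → v ∈ 𝔖.fzOut := by
    intro v hv
    refine Or.inl (Or.inl ?_)
    show v ∈ 𝔖.dsc
    rw [H.gate.dsc_eq]
    exact hv
  refine pvll_pin_core hδ hμ h6 (x0 := pviePos η (𝔖.inn.v 𝔖.ip)) (by linarith [H.gate.ip_near]) ⟨_, hcore _ (by linarith [H.gate.ip_near]), rfl⟩ (fun u hu hz => ⟨⟨u, hu⟩, hcore ⟨u, hu⟩ hz, rfl⟩) ?_ hW hm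
  rintro _ ⟨v, hv, rfl⟩
  exact pvll_fzOut_box H hbR v hv

/-- **THE FOOT OF A MARKED ENTRANCE END** (standard frame) -/
theorem pvll_pin_in (hf : p.fr = 1) (hδ : 0 < δ) (hμ : 0 < μ) (h6 : 6 * μ ≤ δ) (hb1 : p.h + 2 * μ ≤ p.ty.b * p.h) (hbR : p.ty.b * p.h ≤ pvwRad N p.h p.ty p.ty.k) (h : PvilIn N b p η 𝔖) {r : ℝ}
    (hW : pvilFat δ (pvilHuI δ r N b p η) ∩ pvwSq p.z (pvwRad N p.h p.ty p.ty.k + δ) ⊆ Wn) (hm : PvtrMesh μ Wn (cfSites η)) :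
    closedBall p.z (p.ty.b * p.h) ⊆ pvtrCore (3 * μ) Wn ∧ pviePos η '' 𝔖.fzIn ⊆ pvtrCore (3 * μ) Wn := by
  have H := pvll_std_in hf h
  rw [pvll_huI_eq (by rw [hf, norm_one]) h] at hW
  have hcore : ∀ v : ↥(pvieY η), ‖pviePos η v - p.z‖ < p.ty.b * p.h → v ∈ 𝔖.fzIn := by
    intro v hv
    refine Or.inl (Or.inl ?_)
    show v ∈ 𝔖.dsc
    rw [H.gate.dsc_eq]
    exact hv
  refine pvll_pin_core hδ hμ h6 (x0 := pviePos η (𝔖.inn.v 𝔖.ip)) (by linarith [H.gate.ip_near]) ⟨_, hcore _ (by linarith [H.gate.ip_near]), rfl⟩ (fun u hu hz => ⟨⟨u, hu⟩, hcore ⟨u, hu⟩ hz, rfl⟩) ?_ hW hm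
  rintro _ ⟨v, hv, rfl⟩
  exact pvll_fzIn_box H hbR v hv

/-- the hull of record of an exit half state is finite -/
theorem pvll_huO_finite (hf : p.fr = 1) (hδ : 0 < δ) (hbR : p.ty.b * p.h ≤ pvwRad N p.h p.ty p.ty.k) (h : PvilOut N b p η 𝔖) (r : ℝ) : (pvilHuO δ r N b p η).Finite := by
  rw [pvll_huO_eq (by rw [hf, norm_one]) h]
  refine pvt_cells_finite hδ (Bornology.IsBounded.union ?_ isBounded_closedBall)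
  refine (isBounded_closedBall (x := p.z) (r := 2 * pvwRad N p.h p.ty p.ty.k)).subset ?_
  rintro _ ⟨v, hv, rfl⟩
  exact mem_closedBall_iff_norm.2 (pvll_sq_near (pvll_fzOut_box (pvll_std_out hf h) hbR v hv))

/-- the hull of record of an entrance half state is finite -/
theorem pvll_huI_finite (hf : p.fr = 1) (hδ : 0 < δ) (hbR : p.ty.b * p.h ≤ pvwRad N p.h p.ty p.ty.k) (h : PvilIn N b p η 𝔖) (r : ℝ) : (pvilHuI δ r N b p η).Finite := by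
  rw [pvll_huI_eq (by rw [hf, norm_one]) h]
  refine pvt_cells_finite hδ (Bornology.IsBounded.union ?_ isBounded_closedBall)
  refine (isBounded_closedBall (x := p.z) (r := 2 * pvwRad N p.h p.ty p.ty.k)).subset ?_
  rintro _ ⟨v, hv, rfl⟩
  exact mem_closedBall_iff_norm.2 (pvll_sq_near (pvll_fzIn_box (pvll_std_in hf h) hbR v hv))

end pin

/-! ## 5. [LOC] for a link whose ends are doors or marked ends in the standard frame -/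

/-- **what [LOC] asks of the exit end**: a door: `‖d‖ = 1`, `3μ ≤ r`, the placed mesh window `[-3r,3r]²` lies in the window;
a marked end: standard frame, `h + 2μ ≤ b h ≤ r_k`, the fat hull of record cut by the own-level box with its collar lies in the window -/
def PvllEndP (N : PvwNum) (b : Bool) (L : PvilLk) (δ μ r : ℝ) (Wn : Set ℂ) (η : Conf PvPt) : Prop :=
  if L.dr then ‖L.p.fr‖ = 1 ∧ 3 * μ ≤ L.p.h ∧ pvkdAt L.p.z L.p.fr (pvwSq 0 (3 * L.p.h)) ⊆ Wn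
  else L.p.fr = 1 ∧ L.p.h + 2 * μ ≤ L.p.ty.b * L.p.h ∧ L.p.ty.b * L.p.h ≤ pvwRad N L.p.h L.p.ty L.p.ty.k ∧
    pvilFat δ (pvilHuO δ r N b L.p η) ∩ pvwSq L.p.z (pvwRad N L.p.h L.p.ty L.p.ty.k + δ) ⊆ Wn

/-- **what [LOC] asks of the entrance end** -/
def PvllEndP' (N : PvwNum) (b : Bool) (L : PvilLk) (δ μ r : ℝ) (Wn : Set ℂ) (η : Conf PvPt) : Prop :=
  if L.dr' then ‖L.p'.fr‖ = 1 ∧ 3 * μ ≤ L.p'.h ∧ pvkdAt L.p'.z L.p'.fr (pvwSq 0 (3 * L.p'.h)) ⊆ Wn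
  else L.p'.fr = 1 ∧ L.p'.h + 2 * μ ≤ L.p'.ty.b * L.p'.h ∧ L.p'.ty.b * L.p'.h ≤ pvwRad N L.p'.h L.p'.ty L.p'.ty.k ∧
    pvilFat δ (pvilHuI δ r N b L.p' η) ∩ pvwSq L.p'.z (pvwRad N L.p'.h L.p'.ty L.p'.ty.k + δ) ⊆ Wn

theorem pvll_eqns_cite6 : True := by
  have := @PvllWt.eq_1; have := @PvllEndP.eq_1; have := @PvllEndP'.eq_1
  trivial

section lk

variable {N : PvwNum} {b : Bool} {L : PvilLk} {δ μ r r' : ℝ} {Wn : Set ℂ} {η η' : Conf PvPt} {w : ∀ η : Conf PvPt, (delbPl (pvieY η)).Dart → ℂ}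

theorem pvll_endP_door (h : L.dr = true) : PvllEndP N b L δ μ r Wn η ↔ ‖L.p.fr‖ = 1 ∧ 3 * μ ≤ L.p.h ∧ pvkdAt L.p.z L.p.fr (pvwSq 0 (3 * L.p.h)) ⊆ Wn := by
  unfold PvllEndP; rw [h]; exact Iff.rfl

theorem pvll_endP_pin (h : L.dr = false) : PvllEndP N b L δ μ r Wn η ↔ L.p.fr = 1 ∧ L.p.h + 2 * μ ≤ L.p.ty.b * L.p.h ∧ L.p.ty.b * L.p.h ≤ pvwRad N L.p.h L.p.ty L.p.ty.k ∧
    pvilFat δ (pvilHuO δ r N b L.p η) ∩ pvwSq L.p.z (pvwRad N L.p.h L.p.ty L.p.ty.k + δ) ⊆ Wn := by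
  unfold PvllEndP; rw [h]; exact Iff.rfl

theorem pvll_endP'_door (h : L.dr' = true) : PvllEndP' N b L δ μ r Wn η ↔ ‖L.p'.fr‖ = 1 ∧ 3 * μ ≤ L.p'.h ∧ pvkdAt L.p'.z L.p'.fr (pvwSq 0 (3 * L.p'.h)) ⊆ Wn := by
  unfold PvllEndP'; rw [h]; exact Iff.rfl

theorem pvll_endP'_pin (h : L.dr' = false) : PvllEndP' N b L δ μ r Wn η ↔ L.p'.fr = 1 ∧ L.p'.h + 2 * μ ≤ L.p'.ty.b * L.p'.h ∧ L.p'.ty.b * L.p'.h ≤ pvwRad N L.p'.h L.p'.ty L.p'.ty.k ∧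
    pvilFat δ (pvilHuI δ r N b L.p' η) ∩ pvwSq L.p'.z (pvwRad N L.p'.h L.p'.ty L.p'.ty.k + δ) ⊆ Wn := by
  unfold PvllEndP'; rw [h]; exact Iff.rfl

/-- the foot of the exit end -/
theorem PvllEndP.foot (hδ : 0 < δ) (hμ : 0 < μ) (h6 : 6 * μ ≤ δ) (hm : PvtrMesh μ Wn (cfSites η)) (h : PvllEndP N b L δ μ r Wn η) {𝔖 : PvwSt (pvieT η)} (ha : L.AtP N b η 𝔖) :
    PvllFtP L (pvtrCore (3 * μ) Wn) (pvieT η) (pviePos η) 𝔖 := by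
  unfold PvllFtP
  cases hd : L.dr
  · obtain ⟨h1, h2, h3, h4⟩ := (pvll_endP_pin hd).1 h
    obtain ⟨a1, a2⟩ := pvll_pin_out h1 hδ hμ h6 h2 h3 ((PvilLk.atP_pin hd _ _ _ _).1 ha) h4 hm
    exact ⟨by rw [h1, norm_one], a1, fun i hi => a2 ⟨_, Or.inl (Or.inr ⟨i, hi, rfl⟩), rfl⟩⟩
  · obtain ⟨h1, h2, h3⟩ := (pvll_endP_door hd).1 h
    exact pvll_ft_door h1 (by linarith) (by linarith) h3

/-- the foot of the entrance end -/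
theorem PvllEndP'.foot (hδ : 0 < δ) (hμ : 0 < μ) (h6 : 6 * μ ≤ δ) (hm : PvtrMesh μ Wn (cfSites η)) (h : PvllEndP' N b L δ μ r Wn η) {𝔖 : PvwSt (pvieT η)} (ha : L.AtP' N b η 𝔖) :
    PvllFtP' L (pvtrCore (3 * μ) Wn) (pvieT η) (pviePos η) 𝔖 := by
  unfold PvllFtP'
  cases hd : L.dr'
  · obtain ⟨h1, h2, h3, h4⟩ := (pvll_endP'_pin hd).1 h
    obtain ⟨a1, a2⟩ := pvll_pin_in h1 hδ hμ h6 h2 h3 ((PvilLk.atP'_pin hd _ _ _ _).1 ha) h4 hm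
    exact ⟨by rw [h1, norm_one], a1, fun i hi => a2 ⟨_, Or.inl (Or.inr ⟨i, hi, rfl⟩), rfl⟩⟩
  · obtain ⟨h1, h2, h3⟩ := (pvll_endP'_door hd).1 h
    exact pvll_ft_door h1 (by linarith) (by linarith) h3

/-- uniqueness holds at such ends -/
theorem pvll_end_uq (hμ : 0 < μ) (h : PvllEndP N b L δ μ r Wn η) (h' : PvllEndP' N b L δ μ r' Wn η) : PvllUq L := by
  unfold PvllUq
  constructor
  · cases hd : L.dr
    · exact (by rw [((pvll_endP_pin hd).1 h).1, norm_one] : ‖L.p.fr‖ = 1)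
    · obtain ⟨h1, h2, -⟩ := (pvll_endP_door hd).1 h
      exact pvll_pg_disj (by linarith) _ (fun h0 => by rw [h0, norm_zero] at h1; exact zero_ne_one h1)
  · cases hd : L.dr'
    · exact (by rw [((pvll_endP'_pin hd).1 h').1, norm_one] : ‖L.p'.fr‖ = 1)
    · obtain ⟨h1, h2, -⟩ := (pvll_endP'_door hd).1 h'
      exact pvll_pg_disj (by linarith) _ (fun h0 => by rw [h0, norm_zero] at h1; exact zero_ne_one h1)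

/-- **[LOC], DETERMINISTIC, AT THE PLAIN EVENT AND THE PLAIN VALUE OF A LINK**: the mesh of the window, the collar of the room, the two ends;
a nice configuration with the same restriction to the window: the link succeeds, SAME VALUE, same base data `Z`, `F` at the marked ends -/
theorem pvll_loc_lk (hδ : 0 < δ) (hμ : 0 < μ) (h6 : 6 * μ ≤ δ) (hw : PvllWt w) (hY : L.Yin ⊆ pvtrCore (3 * μ) Wn) (hP : PvllEndP N b L δ μ r Wn η) (hP' : PvllEndP' N b L δ μ r' Wn η)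
    (hn' : PvatNice (cfSites η')) (hηη : Conf.restr (Wn ×ˢ univ) η = Conf.restr (Wn ×ˢ univ) η') (hm : PvtrMesh μ Wn (cfSites η)) (h : η ∈ L.A N b) :
    η' ∈ L.A N b ∧ L.X N b w η' = L.X N b w η ∧ PvtrMesh μ Wn (cfSites η') ∧
      (L.dr = false → ∀ δ₁ r₁, pvilHuO δ₁ r₁ N b L.p η' = pvilHuO δ₁ r₁ N b L.p η) ∧ (L.dr = false → pvilFzO N b L.p η' = pvilFzO N b L.p η) ∧
      (L.dr' = false → ∀ δ₁ r₁, pvilHuI δ₁ r₁ N b L.p' η' = pvilHuI δ₁ r₁ N b L.p' η) ∧ (L.dr' = false → pvilFzI N b L.p' η' = pvilFzI N b L.p' η) := by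
  obtain ⟨𝔖, 𝔖', y, ha⟩ := h
  obtain ⟨𝔖₁, 𝔖₁', y₁, ha₁, e1, e2, e3⟩ := pvll_loc_gen hμ (pvll_end_uq hμ hP hP') hw hY (fun hd => ((pvll_endP_door hd).1 hP).2.2) (fun hd => ((pvll_endP'_door hd).1 hP').2.2) hn' hηη hm ha
    (hP.foot hδ hμ h6 hm ha.at_p) (hP'.foot hδ hμ h6 hm ha.at_p')
  refine ⟨⟨𝔖₁, 𝔖₁', y₁, ha₁⟩, e3, pvll_mesh_tr Subset.rfl hηη hm, fun hd δ₁ r₁ => ?_, fun hd => ?_, fun hd δ₁ r₁ => ?_, fun hd => ?_⟩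
  · have hf : ‖L.p.fr‖ = 1 := by rw [((pvll_endP_pin hd).1 hP).1, norm_one]
    rw [pvll_huO_eq hf ((PvilLk.atP_pin hd _ _ _ _).1 ha₁.at_p), pvll_huO_eq hf ((PvilLk.atP_pin hd _ _ _ _).1 ha.at_p), e1]
  · have hf : ‖L.p.fr‖ = 1 := by rw [((pvll_endP_pin hd).1 hP).1, norm_one]
    rw [pvll_fzO_eq hf ((PvilLk.atP_pin hd _ _ _ _).1 ha₁.at_p), pvll_fzO_eq hf ((PvilLk.atP_pin hd _ _ _ _).1 ha.at_p), e1]
  · have hf : ‖L.p'.fr‖ = 1 := by rw [((pvll_endP'_pin hd).1 hP').1, norm_one]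
    rw [pvll_huI_eq hf ((PvilLk.atP'_pin hd _ _ _ _).1 ha₁.at_p'), pvll_huI_eq hf ((PvilLk.atP'_pin hd _ _ _ _).1 ha.at_p'), e2]
  · have hf : ‖L.p'.fr‖ = 1 := by rw [((pvll_endP'_pin hd).1 hP').1, norm_one]
    rw [pvll_fzI_eq hf ((PvilLk.atP'_pin hd _ _ _ _).1 ha₁.at_p'), pvll_fzI_eq hf ((PvilLk.atP'_pin hd _ _ _ _).1 ha.at_p'), e2]

end lk

/-! ## 6. the soft form at the names `pvilSA`, `pvilLoc`, `pvilFin` -/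

section soft

variable {ε : ℝ} {Wn : Set ℂ} {M : Set (Conf PvPt)} {F : Conf PvPt → ℂ}

/-- **[LOC], SOFT**: a.s. the success `pvilSA` IS the plain event, and on it the soft value `pvilLoc` IS the plain value -/
theorem pvll_SA_iff (hε : ε ≠ 0) (hW : MeasurableSet Wn) (hM : NullMeasurableSet M (pvP ε)) (hF : AEMeasurable (M.indicator F) (pvP ε))
    (hloc : ∀ η η', PvatNice (cfSites η') → Conf.restr (Wn ×ˢ univ) η = Conf.restr (Wn ×ˢ univ) η' → η ∈ M → η' ∈ M ∧ F η' = F η) :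
    ∀ᵐ σ ∂(pvP ε), (σ ∈ pvilSA ε Wn M F ↔ σ ∈ M) ∧ (σ ∈ M → pvilLoc ε Wn M F σ = F σ) := by
  have hN := pvll_null_val hW hM hF
  filter_upwards [pvll_loc_final hε hW Subset.rfl hN hF (fun η η' _ h2 h3 h4 => hloc η η' h2 h4 h3), pvsu_sure_sub (pv_isPpp ε) (hW.prod MeasurableSet.univ) hN] with σ h1 h2
  exact ⟨⟨fun h => (h2 h).1, h1⟩, fun h => ((h2 (h1 h)).2).symm⟩

/-- the two `PvsuDet` of the plain event and of the plain value, on the plain event -/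
theorem pvll_SA_det (hε : ε ≠ 0) (hW : MeasurableSet Wn)
    (hloc : ∀ η η', PvatNice (cfSites η') → Conf.restr (Wn ×ˢ univ) η = Conf.restr (Wn ×ˢ univ) η' → η ∈ M → η' ∈ M ∧ F η' = F η) :
    PvsuDet (pvP ε) (Wn ×ˢ univ) M (fun η => η ∈ M) ∧ PvsuDet (pvP ε) (Wn ×ˢ univ) M (M.indicator F) :=
  pvll_det_pair hε hW Subset.rfl fun η η' _ h2 h3 h4 => hloc η η' h2 h4 h3

/-- **a family indexed by the hulls**: the plain events are empty at the infinite hulls -/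
theorem pvll_fin_iff (hε : ε ≠ 0) {Wn : Set (ℤ × ℤ) → Set ℂ} {M : Set (ℤ × ℤ) → Set (Conf PvPt)} (hfin : ∀ Z η, η ∈ M Z → Z.Finite) (hW : ∀ Z, Z.Finite → MeasurableSet (Wn Z))
    (hM : ∀ Z, Z.Finite → NullMeasurableSet (M Z) (pvP ε)) (hF : ∀ Z, Z.Finite → AEMeasurable ((M Z).indicator F) (pvP ε))
    (hloc : ∀ Z η η', PvatNice (cfSites η') → Conf.restr (Wn Z ×ˢ univ) η = Conf.restr (Wn Z ×ˢ univ) η' → η ∈ M Z → η' ∈ M Z ∧ F η' = F η) :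
    ∀ᵐ σ ∂(pvP ε), ∀ Z, (σ ∈ pvilFin Z (pvilSA ε (Wn Z) (M Z) F) ↔ σ ∈ M Z) ∧ (σ ∈ M Z → pvilLoc ε (Wn Z) (M Z) F σ = F σ) := by
  have key : ∀ᵐ σ ∂(pvP ε), ∀ Z : Finset (ℤ × ℤ), (σ ∈ pvilSA ε (Wn Z) (M Z) F ↔ σ ∈ M Z) ∧ (σ ∈ M Z → pvilLoc ε (Wn Z) (M Z) F σ = F σ) :=
    ae_all_iff.2 fun Z => pvll_SA_iff hε (hW _ Z.finite_toSet) (hM _ Z.finite_toSet) (hF _ Z.finite_toSet) (hloc _)
  filter_upwards [key] with σ h Z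
  classical
  by_cases hZ : Z.Finite
  · have := h hZ.toFinset
    rw [hZ.coe_toFinset] at this
    unfold pvilFin
    rw [if_pos hZ]
    exact this
  · unfold pvilFin
    rw [if_neg hZ]
    exact ⟨⟨fun h0 => h0.elim, fun h0 => (hZ (hfin Z σ h0)).elim⟩, fun h0 => (hZ (hfin Z σ h0)).elim⟩

end soft

/-! ## 7. THE FOUR SPECIAL LINKS OF RECORD -/

section names

variable {τ : Type} {c : ℝ} {𝔓 : PvxPar τ c} {𝔈 : PvieEng τ} {m : ℕ} {ε : ℝ} {z : ℂ} {t : τ} {Z : Set (ℤ × ℤ)} {η η' : Conf PvPt} {w : ∀ η : Conf PvPt, (delbPl (pvieY η)).Dart → ℂ}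

theorem pvll_mu_pos (h3 : 0 < 𝔓.num.rho3) (m : ℕ) : 0 < pvilMu 𝔓 m := by
  unfold pvilMu
  exact div_pos (lt_min (pvlm_Del_pos c m) (mul_pos h3 (pvlm_H_pos m))) (by norm_num)

theorem pvll_mu_del (𝔓 : PvxPar τ c) (m : ℕ) : 1000 * pvilMu 𝔓 m ≤ pvlmDel c m := by
  unfold pvilMu
  have := min_le_left (pvlmDel c m) (𝔓.num.rho3 * pvlmH m)
  linarith

theorem pvll_mu_h (𝔓 : PvxPar τ c) (m : ℕ) : 1000 * pvilMu 𝔓 m ≤ 𝔓.num.rho3 * pvlmH m := by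
  unfold pvilMu
  have := min_le_right (pvlmDel c m) (𝔓.num.rho3 * pvlmH m)
  linarith

/-- **what [LOC] asks of the type `t` at the level `m`**: `0 < ρ''`, `h + 2μ ≤ b h ≤ r_k` -/
structure PvllPin (𝔓 : PvxPar τ c) (m : ℕ) (t : τ) : Prop where
  r3 : 0 < 𝔓.num.rho3
  b1 : pvlmH m + 2 * pvilMu 𝔓 m ≤ (𝔓.ty t).b * pvlmH m
  bR : (𝔓.ty t).b * pvlmH m ≤ pvwRad 𝔓.num (pvlmH m) (𝔓.ty t) (𝔓.ty t).k

/-- from the numbers alone -/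
theorem pvll_pin_mk (h3 : 0 < 𝔓.num.rho3) (hb : 1 + 𝔓.num.rho3 / 500 ≤ (𝔓.ty t).b) (hR : (𝔓.ty t).b ≤ 2 * (𝔓.ty t).b2 + (𝔓.ty t).k * 𝔓.num.rho1) (m : ℕ) : PvllPin 𝔓 m t where
  r3 := h3
  b1 := by
    have h1 := pvll_mu_h 𝔓 m
    have h2 := mul_le_mul_of_nonneg_right hb (pvlm_H_pos m).le
    nlinarith
  bR := mul_le_mul_of_nonneg_right hR (pvlm_H_pos m).le

/-- the door plug of level `m` as an end -/
theorem pvll_door_end (h3 : 0 < 𝔓.num.rho3) {d : ℂ} (hd : ‖d‖ = 1) (hD : pvwSq 0 (3 * pvilRd 𝔓 m) ⊆ (𝔈.kit m ε).O₀) (p : ℂ) :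
    ‖d‖ = 1 ∧ 3 * pvilMu 𝔓 m ≤ pvilRd 𝔓 m ∧ pvkdAt p d (pvwSq 0 (3 * pvilRd 𝔓 m)) ⊆ pvieDoor 𝔈 m ε p d := by
  refine ⟨hd, ?_, image_mono hD⟩
  have h1 := pvll_mu_del 𝔓 m
  have h2 := pvll_mu_pos h3 m
  unfold pvilRd
  linarith

/-- the reference plug of level `m` as an end -/
theorem pvll_ref_end (hr : 3 * pvilMu 𝔓 m ≤ pvilRu 𝔈 m) (hO : pvwSq 0 (3 * pvilRu 𝔈 m) ⊆ 𝔈.rO m) (p : ℂ) :
    ‖(1 : ℂ)‖ = 1 ∧ 3 * pvilMu 𝔓 m ≤ pvilRu 𝔈 m ∧ pvkdAt p 1 (pvwSq 0 (3 * pvilRu 𝔈 m)) ⊆ pvieSh p (𝔈.rO m) := by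
  refine ⟨norm_one, hr, ?_⟩
  rintro _ ⟨a, ha, rfl⟩
  exact ⟨a, hO ha, by show p + a = p + 1 * a; rw [one_mul]⟩

/-- **[LOC] OF THE FIRST LINK, DETERMINISTIC** -/
theorem pvll_tr_o (hp : PvllPin 𝔓 m t) (hd : ‖(𝔓.Γ m).dout t‖ = 1) (hD : pvwSq 0 (3 * pvilRd 𝔓 m) ⊆ (𝔈.kit m ε).O₀)
    (hY : pvieSh z (𝔈.oY m t) ⊆ pvtrCore (3 * pvilMu 𝔓 m) (pvieSh z (𝔈.oM m t) ∪ pvieSh z (𝔈.oK m t) ∪ pvieDoor 𝔈 m ε (pvieZo 𝔓 m z t) ((𝔓.Γ m).dout t))) (hw : PvllWt w)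
    (hn' : PvatNice (cfSites η')) (hηη : Conf.restr (pvilWno 𝔓 𝔈 m ε z t Z ×ˢ univ) η = Conf.restr (pvilWno 𝔓 𝔈 m ε z t Z ×ˢ univ) η') (h : η ∈ pvilMo 𝔓 𝔈 m ε z t Z) :
    η' ∈ pvilMo 𝔓 𝔈 m ε z t Z ∧ (pvilLo 𝔓 𝔈 m z t).X 𝔓.num (𝔓.col t) w η' = (pvilLo 𝔓 𝔈 m z t).X 𝔓.num (𝔓.col t) w η ∧ pvilFo 𝔓 m z t η' = pvilFo 𝔓 m z t η := by
  obtain ⟨⟨hA, hZ⟩, hm⟩ := h
  have hZ' : pvilZo 𝔓 m z t η = Z := hZ
  have hμ := pvll_mu_pos hp.r3 m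
  have hP : PvllEndP 𝔓.num (𝔓.col t) (pvilLo 𝔓 𝔈 m z t) (pvlmDel c m) (pvilMu 𝔓 m) (𝔓.num.rho * pvlmH m) (pvilWno 𝔓 𝔈 m ε z t Z) η :=
    (pvll_endP_pin rfl).2 ⟨rfl, hp.b1, hp.bR, fun q hq => Or.inl (Or.inl (Or.inl (by rw [← hZ']; exact hq)))⟩
  have hP' : PvllEndP' 𝔓.num (𝔓.col t) (pvilLo 𝔓 𝔈 m z t) (pvlmDel c m) (pvilMu 𝔓 m) 0 (pvilWno 𝔓 𝔈 m ε z t Z) η := by
    obtain ⟨a1, a2, a3⟩ := pvll_door_end (𝔈 := 𝔈) (ε := ε) hp.r3 hd hD (pvieZo 𝔓 m z t)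
    exact (pvll_endP'_door rfl).2 ⟨a1, a2, a3.trans subset_union_right⟩
  have hY' : (pvilLo 𝔓 𝔈 m z t).Yin ⊆ pvtrCore (3 * pvilMu 𝔓 m) (pvilWno 𝔓 𝔈 m ε z t Z) := by
    refine hY.trans (pvll_core_mono _ ?_)
    rintro q ((hq | hq) | hq)
    · exact Or.inl (Or.inl (Or.inr hq))
    · exact Or.inl (Or.inr hq)
    · exact Or.inr hq
  obtain ⟨a1, a2, a3, a4, a5, -, -⟩ := pvll_loc_lk (pvlm_Del_pos c m) hμ (by linarith [pvll_mu_del 𝔓 m]) hw hY' hP hP' hn' hηη hm hA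
  exact ⟨⟨⟨a1, (a4 rfl _ _).trans hZ'⟩, a3⟩, a2, a5 rfl⟩

/-- **[LOC] OF THE LAST LINK, DETERMINISTIC** -/
theorem pvll_tr_i (hp : PvllPin 𝔓 m t) (hd : ‖(𝔓.Γ m).din t‖ = 1) (hD : pvwSq 0 (3 * pvilRd 𝔓 m) ⊆ (𝔈.kit m ε).O₀)
    (hY : pvieSh z (𝔈.iY m t) ⊆ pvtrCore (3 * pvilMu 𝔓 m) (pvieSh z (𝔈.iM m t) ∪ pvieSh z (𝔈.iK m t) ∪ pvieDoor 𝔈 m ε (pvieZi 𝔓 m z t) ((𝔓.Γ m).din t))) (hw : PvllWt w)
    (hn' : PvatNice (cfSites η')) (hηη : Conf.restr (pvilWni 𝔓 𝔈 m ε z t Z ×ˢ univ) η = Conf.restr (pvilWni 𝔓 𝔈 m ε z t Z ×ˢ univ) η') (h : η ∈ pvilMi 𝔓 𝔈 m ε z t Z) :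
    η' ∈ pvilMi 𝔓 𝔈 m ε z t Z ∧ (pvilLi 𝔓 𝔈 m z t).X 𝔓.num (𝔓.col t) w η' = (pvilLi 𝔓 𝔈 m z t).X 𝔓.num (𝔓.col t) w η ∧ pvilFi 𝔓 m z t η' = pvilFi 𝔓 m z t η := by
  obtain ⟨⟨hA, hZ⟩, hm⟩ := h
  have hZ' : pvilZi 𝔓 m z t η = Z := hZ
  have hμ := pvll_mu_pos hp.r3 m
  have hP' : PvllEndP' 𝔓.num (𝔓.col t) (pvilLi 𝔓 𝔈 m z t) (pvlmDel c m) (pvilMu 𝔓 m) (𝔓.num.rho * pvlmH m) (pvilWni 𝔓 𝔈 m ε z t Z) η :=
    (pvll_endP'_pin rfl).2 ⟨rfl, hp.b1, hp.bR, fun q hq => Or.inl (Or.inl (Or.inl (by rw [← hZ']; exact hq)))⟩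
  have hP : PvllEndP 𝔓.num (𝔓.col t) (pvilLi 𝔓 𝔈 m z t) (pvlmDel c m) (pvilMu 𝔓 m) 0 (pvilWni 𝔓 𝔈 m ε z t Z) η := by
    obtain ⟨a1, a2, a3⟩ := pvll_door_end (𝔈 := 𝔈) (ε := ε) hp.r3 hd hD (pvieZi 𝔓 m z t)
    exact (pvll_endP_door rfl).2 ⟨a1, a2, a3.trans subset_union_right⟩
  have hY' : (pvilLi 𝔓 𝔈 m z t).Yin ⊆ pvtrCore (3 * pvilMu 𝔓 m) (pvilWni 𝔓 𝔈 m ε z t Z) := by
    refine hY.trans (pvll_core_mono _ ?_)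
    rintro q ((hq | hq) | hq)
    · exact Or.inl (Or.inl (Or.inr hq))
    · exact Or.inl (Or.inr hq)
    · exact Or.inr hq
  obtain ⟨a1, a2, a3, -, -, a4, a5⟩ := pvll_loc_lk (pvlm_Del_pos c m) hμ (by linarith [pvll_mu_del 𝔓 m]) hw hY' hP hP' hn' hηη hm hA
  exact ⟨⟨⟨a1, (a4 rfl _ _).trans hZ'⟩, a3⟩, a2, a5 rfl⟩

/-- **[LOC] OF THE THICK LINK, DETERMINISTIC** -/
theorem pvll_tr_e (hp : PvllPin 𝔓 m t) (hr : 3 * pvilMu 𝔓 m ≤ pvilRu 𝔈 m) (hO : pvwSq 0 (3 * pvilRu 𝔈 m) ⊆ 𝔈.rO m)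
    (hY : pvieSh z (𝔈.eY m t) ⊆ pvtrCore (3 * pvilMu 𝔓 m) (pvieSh z (𝔈.eM m t) ∪ pvieSh z (𝔈.eK m t) ∪ pvieSh (pvieZu 𝔓 m z t) (𝔈.rO m))) (hw : PvllWt w)
    (hn' : PvatNice (cfSites η')) (hηη : Conf.restr (pvilWne 𝔓 𝔈 m z t Z ×ˢ univ) η = Conf.restr (pvilWne 𝔓 𝔈 m z t Z ×ˢ univ) η') (h : η ∈ pvilMe 𝔓 𝔈 m z t Z) :
    η' ∈ pvilMe 𝔓 𝔈 m z t Z ∧ (pvilLe 𝔓 𝔈 m z t).X 𝔓.num (𝔓.col t) w η' = (pvilLe 𝔓 𝔈 m z t).X 𝔓.num (𝔓.col t) w η ∧ pvilFi 𝔓 m z t η' = pvilFi 𝔓 m z t η := by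
  obtain ⟨⟨hA, hZ⟩, hm⟩ := h
  have hZ' : pvilZi 𝔓 m z t η = Z := hZ
  have hμ := pvll_mu_pos hp.r3 m
  have hP' : PvllEndP' 𝔓.num (𝔓.col t) (pvilLe 𝔓 𝔈 m z t) (pvlmDel c m) (pvilMu 𝔓 m) (𝔓.num.rho * pvlmH m) (pvilWne 𝔓 𝔈 m z t Z) η :=
    (pvll_endP'_pin rfl).2 ⟨rfl, hp.b1, hp.bR, fun q hq => Or.inl (Or.inl (Or.inl (by rw [← hZ']; exact hq)))⟩
  have hP : PvllEndP 𝔓.num (𝔓.col t) (pvilLe 𝔓 𝔈 m z t) (pvlmDel c m) (pvilMu 𝔓 m) 0 (pvilWne 𝔓 𝔈 m z t Z) η := by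
    obtain ⟨a1, a2, a3⟩ := pvll_ref_end hr hO (pvieZu 𝔓 m z t)
    exact (pvll_endP_door rfl).2 ⟨a1, a2, a3.trans subset_union_right⟩
  have hY' : (pvilLe 𝔓 𝔈 m z t).Yin ⊆ pvtrCore (3 * pvilMu 𝔓 m) (pvilWne 𝔓 𝔈 m z t Z) := by
    refine hY.trans (pvll_core_mono _ ?_)
    rintro q ((hq | hq) | hq)
    · exact Or.inl (Or.inl (Or.inr hq))
    · exact Or.inl (Or.inr hq)
    · exact Or.inr hq
  obtain ⟨a1, a2, a3, -, -, a4, a5⟩ := pvll_loc_lk (pvlm_Del_pos c m) hμ (by linarith [pvll_mu_del 𝔓 m]) hw hY' hP hP' hn' hηη hm hA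
  exact ⟨⟨⟨a1, (a4 rfl _ _).trans hZ'⟩, a3⟩, a2, a5 rfl⟩

/-- **[LOC] OF THE LINK INTO THE REFERENCE PLUG, DETERMINISTIC** -/
theorem pvll_tr_r (h3 : 0 < 𝔓.num.rho3) (hd : ‖(𝔓.Γ m).din0‖ = 1) (hD : pvwSq 0 (3 * pvilRd 𝔓 m) ⊆ (𝔈.kit m ε).O₀) (hr : 3 * pvilMu 𝔓 m ≤ pvilRu 𝔈 m) (hO : pvwSq 0 (3 * pvilRu 𝔈 m) ⊆ 𝔈.rO m)
    (hY : 𝔈.rY m ⊆ pvtrCore (3 * pvilMu 𝔓 m) (pvilWnr 𝔓 𝔈 m ε)) (hw : PvllWt w)
    (hn' : PvatNice (cfSites η')) (hηη : Conf.restr (pvilWnr 𝔓 𝔈 m ε ×ˢ univ) η = Conf.restr (pvilWnr 𝔓 𝔈 m ε ×ˢ univ) η') (h : η ∈ pvilMr 𝔓 𝔈 m ε) :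
    η' ∈ pvilMr 𝔓 𝔈 m ε ∧ (pvilLr 𝔓 𝔈 m).X 𝔓.num true w η' = (pvilLr 𝔓 𝔈 m).X 𝔓.num true w η := by
  obtain ⟨hA, hm⟩ := h
  have hμ := pvll_mu_pos h3 m
  have hP : PvllEndP 𝔓.num true (pvilLr 𝔓 𝔈 m) (pvlmDel c m) (pvilMu 𝔓 m) 0 (pvilWnr 𝔓 𝔈 m ε) η := by
    obtain ⟨a1, a2, a3⟩ := pvll_door_end (𝔈 := 𝔈) (ε := ε) h3 hd hD (𝔓.Γ m).pin0
    exact (pvll_endP_door rfl).2 ⟨a1, a2, a3.trans subset_union_right⟩
  have hP' : PvllEndP' 𝔓.num true (pvilLr 𝔓 𝔈 m) (pvlmDel c m) (pvilMu 𝔓 m) 0 (pvilWnr 𝔓 𝔈 m ε) η := by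
    obtain ⟨a1, a2, a3⟩ := pvll_ref_end hr hO 0
    refine (pvll_endP'_door rfl).2 ⟨a1, a2, a3.trans ?_⟩
    rintro _ ⟨a, ha, rfl⟩
    exact Or.inl (Or.inr (by show (0 : ℂ) + a ∈ _; rwa [zero_add]))
  obtain ⟨a1, a2, a3, -⟩ := pvll_loc_lk (pvlm_Del_pos c m) hμ (by linarith [pvll_mu_del 𝔓 m]) hw hY hP hP' hn' hηη hm hA
  exact ⟨⟨a1, a3⟩, a2⟩

end names

/-! ## 8. THE FOUR SPECIAL LINKS OF RECORD: a.s. THE SOFT OBJECTS ARE THE PLAIN ONES -/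

section final

variable {τ : Type} {c : ℝ} {𝔓 : PvxPar τ c} {𝔈 : PvieEng τ} {m : ℕ} {ε : ℝ} {z : ℂ} {t : τ} {w : ∀ η : Conf PvPt, (delbPl (pvieY η)).Dart → ℂ}

theorem pvll_Mo_finite (hp : PvllPin 𝔓 m t) {Z : Set (ℤ × ℤ)} {η : Conf PvPt} (h : η ∈ pvilMo 𝔓 𝔈 m ε z t Z) : Z.Finite := by
  obtain ⟨⟨⟨𝔖, 𝔖', y, ha⟩, hZ⟩, -⟩ := h
  have hZ' : pvilZo 𝔓 m z t η = Z := hZ
  rw [← hZ']
  exact pvll_huO_finite rfl (pvlm_Del_pos c m) hp.bR ((PvilLk.atP_pin rfl _ _ _ _).1 ha.at_p) _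

theorem pvll_Mi_finite (hp : PvllPin 𝔓 m t) {Z : Set (ℤ × ℤ)} {η : Conf PvPt} (h : η ∈ pvilMi 𝔓 𝔈 m ε z t Z) : Z.Finite := by
  obtain ⟨⟨⟨𝔖, 𝔖', y, ha⟩, hZ⟩, -⟩ := h
  have hZ' : pvilZi 𝔓 m z t η = Z := hZ
  rw [← hZ']
  exact pvll_huI_finite rfl (pvlm_Del_pos c m) hp.bR ((PvilLk.atP'_pin rfl _ _ _ _).1 ha.at_p') _

theorem pvll_Me_finite (hp : PvllPin 𝔓 m t) {Z : Set (ℤ × ℤ)} {η : Conf PvPt} (h : η ∈ pvilMe 𝔓 𝔈 m z t Z) : Z.Finite := by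
  obtain ⟨⟨⟨𝔖, 𝔖', y, ha⟩, hZ⟩, -⟩ := h
  have hZ' : pvilZi 𝔓 m z t η = Z := hZ
  rw [← hZ']
  exact pvll_huI_finite rfl (pvlm_Del_pos c m) hp.bR ((PvilLk.atP'_pin rfl _ _ _ _).1 ha.at_p') _

/-- **[LOC] OF THE FIRST LINK**: a.s., FOR ALL BASE DATA `(Z, F)`: the success of the end of record is the plain event, its value is the plain value -/
theorem pvll_iff_o (hε : ε ≠ 0) (hp : PvllPin 𝔓 m t) (hd : ‖(𝔓.Γ m).dout t‖ = 1) (hD : pvwSq 0 (3 * pvilRd 𝔓 m) ⊆ (𝔈.kit m ε).O₀)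
    (hY : pvieSh z (𝔈.oY m t) ⊆ pvtrCore (3 * pvilMu 𝔓 m) (pvieSh z (𝔈.oM m t) ∪ pvieSh z (𝔈.oK m t) ∪ pvieDoor 𝔈 m ε (pvieZo 𝔓 m z t) ((𝔓.Γ m).dout t))) (hw : PvllWt w)
    (hW : ∀ Z : Set (ℤ × ℤ), Z.Finite → MeasurableSet (pvilWno 𝔓 𝔈 m ε z t Z)) (hM : ∀ Z : Set (ℤ × ℤ), Z.Finite → NullMeasurableSet (pvilMo 𝔓 𝔈 m ε z t Z) (pvP ε))
    (hF : ∀ Z : Set (ℤ × ℤ), Z.Finite → AEMeasurable ((pvilMo 𝔓 𝔈 m ε z t Z).indicator ((pvilLo 𝔓 𝔈 m z t).X 𝔓.num (𝔓.col t) w)) (pvP ε)) :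
    ∀ᵐ σ ∂(pvP ε), ∀ (Z : Set (ℤ × ℤ)) (F : Set ℂ), (σ ∈ (pvilEo 𝔓 𝔈 m ε w z t Z F).A ↔ σ ∈ pvilMo 𝔓 𝔈 m ε z t Z) ∧
      (σ ∈ pvilMo 𝔓 𝔈 m ε z t Z → (pvilEo 𝔓 𝔈 m ε w z t Z F).X σ = (pvilLo 𝔓 𝔈 m z t).X 𝔓.num (𝔓.col t) w σ) := by
  filter_upwards [pvll_fin_iff hε (fun _ _ h => pvll_Mo_finite hp h) hW hM hF fun Z η η' h1 h2 h3 => ⟨(pvll_tr_o hp hd hD hY hw h1 h2 h3).1, (pvll_tr_o hp hd hD hY hw h1 h2 h3).2.1⟩] with σ h Z F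
  exact h Z

/-- **[LOC] OF THE LAST LINK** -/
theorem pvll_iff_i (hε : ε ≠ 0) (hp : PvllPin 𝔓 m t) (hd : ‖(𝔓.Γ m).din t‖ = 1) (hD : pvwSq 0 (3 * pvilRd 𝔓 m) ⊆ (𝔈.kit m ε).O₀)
    (hY : pvieSh z (𝔈.iY m t) ⊆ pvtrCore (3 * pvilMu 𝔓 m) (pvieSh z (𝔈.iM m t) ∪ pvieSh z (𝔈.iK m t) ∪ pvieDoor 𝔈 m ε (pvieZi 𝔓 m z t) ((𝔓.Γ m).din t))) (hw : PvllWt w)
    (hW : ∀ Z : Set (ℤ × ℤ), Z.Finite → MeasurableSet (pvilWni 𝔓 𝔈 m ε z t Z)) (hM : ∀ Z : Set (ℤ × ℤ), Z.Finite → NullMeasurableSet (pvilMi 𝔓 𝔈 m ε z t Z) (pvP ε))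
    (hF : ∀ Z : Set (ℤ × ℤ), Z.Finite → AEMeasurable ((pvilMi 𝔓 𝔈 m ε z t Z).indicator ((pvilLi 𝔓 𝔈 m z t).X 𝔓.num (𝔓.col t) w)) (pvP ε)) :
    ∀ᵐ σ ∂(pvP ε), ∀ (Z : Set (ℤ × ℤ)) (F : Set ℂ), (σ ∈ (pvilEi 𝔓 𝔈 m ε w z t Z F).A ↔ σ ∈ pvilMi 𝔓 𝔈 m ε z t Z) ∧
      (σ ∈ pvilMi 𝔓 𝔈 m ε z t Z → (pvilEi 𝔓 𝔈 m ε w z t Z F).X σ = (pvilLi 𝔓 𝔈 m z t).X 𝔓.num (𝔓.col t) w σ) := by
  filter_upwards [pvll_fin_iff hε (fun _ _ h => pvll_Mi_finite hp h) hW hM hF fun Z η η' h1 h2 h3 => ⟨(pvll_tr_i hp hd hD hY hw h1 h2 h3).1, (pvll_tr_i hp hd hD hY hw h1 h2 h3).2.1⟩] with σ h Z F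
  exact h Z

/-- **[LOC] OF THE THICK LINK** -/
theorem pvll_iff_e (hε : ε ≠ 0) (hp : PvllPin 𝔓 m t) (hr : 3 * pvilMu 𝔓 m ≤ pvilRu 𝔈 m) (hO : pvwSq 0 (3 * pvilRu 𝔈 m) ⊆ 𝔈.rO m)
    (hY : pvieSh z (𝔈.eY m t) ⊆ pvtrCore (3 * pvilMu 𝔓 m) (pvieSh z (𝔈.eM m t) ∪ pvieSh z (𝔈.eK m t) ∪ pvieSh (pvieZu 𝔓 m z t) (𝔈.rO m))) (hw : PvllWt w)
    (hW : ∀ Z : Set (ℤ × ℤ), Z.Finite → MeasurableSet (pvilWne 𝔓 𝔈 m z t Z)) (hM : ∀ Z : Set (ℤ × ℤ), Z.Finite → NullMeasurableSet (pvilMe 𝔓 𝔈 m z t Z) (pvP ε))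
    (hF : ∀ Z : Set (ℤ × ℤ), Z.Finite → AEMeasurable ((pvilMe 𝔓 𝔈 m z t Z).indicator ((pvilLe 𝔓 𝔈 m z t).X 𝔓.num (𝔓.col t) w)) (pvP ε)) :
    ∀ᵐ σ ∂(pvP ε), ∀ (Z : Set (ℤ × ℤ)) (F : Set ℂ), (σ ∈ (pvilEe 𝔓 𝔈 m ε w z t Z F).A ↔ σ ∈ pvilMe 𝔓 𝔈 m z t Z) ∧
      (σ ∈ pvilMe 𝔓 𝔈 m z t Z → (pvilEe 𝔓 𝔈 m ε w z t Z F).X σ = (pvilLe 𝔓 𝔈 m z t).X 𝔓.num (𝔓.col t) w σ) := by
  filter_upwards [pvll_fin_iff hε (fun _ _ h => pvll_Me_finite hp h) hW hM hF fun Z η η' h1 h2 h3 => ⟨(pvll_tr_e hp hr hO hY hw h1 h2 h3).1, (pvll_tr_e hp hr hO hY hw h1 h2 h3).2.1⟩] with σ h Z F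
  exact h Z

/-- **[LOC] OF THE LINK INTO THE REFERENCE PLUG** -/
theorem pvll_iff_r (hε : ε ≠ 0) (h3 : 0 < 𝔓.num.rho3) (hd : ‖(𝔓.Γ m).din0‖ = 1) (hD : pvwSq 0 (3 * pvilRd 𝔓 m) ⊆ (𝔈.kit m ε).O₀) (hr : 3 * pvilMu 𝔓 m ≤ pvilRu 𝔈 m)
    (hO : pvwSq 0 (3 * pvilRu 𝔈 m) ⊆ 𝔈.rO m) (hY : 𝔈.rY m ⊆ pvtrCore (3 * pvilMu 𝔓 m) (pvilWnr 𝔓 𝔈 m ε)) (hw : PvllWt w)
    (hW : MeasurableSet (pvilWnr 𝔓 𝔈 m ε)) (hM : NullMeasurableSet (pvilMr 𝔓 𝔈 m ε) (pvP ε)) (hF : AEMeasurable ((pvilMr 𝔓 𝔈 m ε).indicator ((pvilLr 𝔓 𝔈 m).X 𝔓.num true w)) (pvP ε)) :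
    ∀ᵐ σ ∂(pvP ε), (σ ∈ pvilAr 𝔓 𝔈 m ε w ↔ σ ∈ pvilMr 𝔓 𝔈 m ε) ∧ (σ ∈ pvilMr 𝔓 𝔈 m ε → pvilXr 𝔓 𝔈 m ε w σ = (pvilLr 𝔓 𝔈 m).X 𝔓.num true w σ) :=
  pvll_SA_iff hε hW hM hF fun _ _ a1 a2 a3 => pvll_tr_r h3 hd hD hr hO hY hw a1 a2 a3

/-- the plain event at the own hull -/
theorem pvll_Mo_own (σ : Conf PvPt) : σ ∈ pvilMo 𝔓 𝔈 m ε z t (pvilZo 𝔓 m z t σ) ↔ σ ∈ (pvilLo 𝔓 𝔈 m z t).A 𝔓.num (𝔓.col t) ∧ σ ∈ pvilMs 𝔓 m (pvilWno 𝔓 𝔈 m ε z t (pvilZo 𝔓 m z t σ)) :=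
  ⟨fun h => ⟨h.1.1, h.2⟩, fun h => ⟨⟨h.1, rfl⟩, h.2⟩⟩

theorem pvll_Mi_own (σ : Conf PvPt) : σ ∈ pvilMi 𝔓 𝔈 m ε z t (pvilZi 𝔓 m z t σ) ↔ σ ∈ (pvilLi 𝔓 𝔈 m z t).A 𝔓.num (𝔓.col t) ∧ σ ∈ pvilMs 𝔓 m (pvilWni 𝔓 𝔈 m ε z t (pvilZi 𝔓 m z t σ)) :=
  ⟨fun h => ⟨h.1.1, h.2⟩, fun h => ⟨⟨h.1, rfl⟩, h.2⟩⟩

theorem pvll_Me_own (σ : Conf PvPt) : σ ∈ pvilMe 𝔓 𝔈 m z t (pvilZi 𝔓 m z t σ) ↔ σ ∈ (pvilLe 𝔓 𝔈 m z t).A 𝔓.num (𝔓.col t) ∧ σ ∈ pvilMs 𝔓 m (pvilWne 𝔓 𝔈 m z t (pvilZi 𝔓 m z t σ)) :=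
  ⟨fun h => ⟨h.1.1, h.2⟩, fun h => ⟨⟨h.1, rfl⟩, h.2⟩⟩

end final

/-! ## 9. the collar (Rc) of RULING 22, from the form relative to the centre of the pin -/

section collar

variable {κ : ℝ}

theorem pvll_sh_core (z : ℂ) {Y E : Set ℂ} (h : ∀ v ∈ Y, closedBall v κ ⊆ E) : pvieSh z Y ⊆ pvtrCore κ (pvieSh z E) := by
  rintro _ ⟨v, hv, rfl⟩ q hq
  refine ⟨q - z, h v hv ?_, by show z + (q - z) = q; ring⟩
  rw [mem_closedBall_iff_norm] at hq ⊢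
  have e : q - z - v = q - (z + v) := by ring
  rw [e]
  exact hq

theorem pvll_sh_door {τ : Type} (𝔈 : PvieEng τ) (m : ℕ) (ε : ℝ) (z p d : ℂ) : pvieSh z (pvieDoor 𝔈 m ε p d) = pvieDoor 𝔈 m ε (z + p) d := by
  unfold pvieSh pvieDoor
  rw [← image_comp]
  refine image_congr fun a _ => ?_
  show z + (p + d * a) = z + p + d * a
  ring

theorem pvll_sh_union (z : ℂ) (S T : Set ℂ) : pvieSh z (S ∪ T) = pvieSh z S ∪ pvieSh z T := image_union _ _ _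

theorem pvll_sh_sh (z p : ℂ) (S : Set ℂ) : pvieSh z (pvieSh p S) = pvieSh (z + p) S := by
  unfold pvieSh
  rw [← image_comp]
  refine image_congr fun a _ => ?_
  show z + (p + a) = z + p + a
  ring

variable {τ : Type} {c : ℝ} {𝔓 : PvxPar τ c} {𝔈 : PvieEng τ} {m : ℕ} {ε : ℝ} {t : τ}

theorem pvll_col_o (h : ∀ v ∈ 𝔈.oY m t, closedBall v κ ⊆ 𝔈.oM m t ∪ 𝔈.oK m t ∪ pvieDoor 𝔈 m ε ((𝔓.Γ m).pout t) ((𝔓.Γ m).dout t)) (z : ℂ) :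
    pvieSh z (𝔈.oY m t) ⊆ pvtrCore κ (pvieSh z (𝔈.oM m t) ∪ pvieSh z (𝔈.oK m t) ∪ pvieDoor 𝔈 m ε (pvieZo 𝔓 m z t) ((𝔓.Γ m).dout t)) := by
  have := pvll_sh_core z h
  rwa [pvll_sh_union, pvll_sh_union, pvll_sh_door] at this

theorem pvll_col_i (h : ∀ v ∈ 𝔈.iY m t, closedBall v κ ⊆ 𝔈.iM m t ∪ 𝔈.iK m t ∪ pvieDoor 𝔈 m ε ((𝔓.Γ m).pin t) ((𝔓.Γ m).din t)) (z : ℂ) :
    pvieSh z (𝔈.iY m t) ⊆ pvtrCore κ (pvieSh z (𝔈.iM m t) ∪ pvieSh z (𝔈.iK m t) ∪ pvieDoor 𝔈 m ε (pvieZi 𝔓 m z t) ((𝔓.Γ m).din t)) := by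
  have := pvll_sh_core z h
  rwa [pvll_sh_union, pvll_sh_union, pvll_sh_door] at this

theorem pvll_col_e (h : ∀ v ∈ 𝔈.eY m t, closedBall v κ ⊆ 𝔈.eM m t ∪ 𝔈.eK m t ∪ pvieSh ((𝔓.Γ m).zu t) (𝔈.rO m)) (z : ℂ) :
    pvieSh z (𝔈.eY m t) ⊆ pvtrCore κ (pvieSh z (𝔈.eM m t) ∪ pvieSh z (𝔈.eK m t) ∪ pvieSh (pvieZu 𝔓 m z t) (𝔈.rO m)) := by
  have := pvll_sh_core z h
  rwa [pvll_sh_union, pvll_sh_union, pvll_sh_sh] at this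

end collar

/-! ## 10. THE THICK RETURN `t → reference plug` (sec. 8 of `Tr/InstL`, 168) -/

section ret

variable {τ : Type} {c : ℝ} {𝔓 : PvxPar τ c} {𝔈 : PvieEng τ} {m : ℕ} {ε : ℝ} {z : ℂ} {t : τ} {w : ∀ η : Conf PvPt, (delbPl (pvieY η)).Dart → ℂ}

/-- **[LOC] OF THE THICK RETURN, DETERMINISTIC** -/
theorem pvll_tr_f {Z : Set (ℤ × ℤ)} {η η' : Conf PvPt} (hp : PvllPin 𝔓 m t) (hr : 3 * pvilMu 𝔓 m ≤ pvilRu 𝔈 m) (hO : pvwSq 0 (3 * pvilRu 𝔈 m) ⊆ 𝔈.rO m)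
    (hY : pvieSh z (𝔈.fY m t) ⊆ pvtrCore (3 * pvilMu 𝔓 m) (pvieSh z (𝔈.fM m t) ∪ pvieSh z (𝔈.fK m t) ∪ pvieSh (pvieZu 𝔓 m z t) (𝔈.rO m))) (hw : PvllWt w)
    (hn' : PvatNice (cfSites η')) (hηη : Conf.restr (pvilWnf 𝔓 𝔈 m z t Z ×ˢ univ) η = Conf.restr (pvilWnf 𝔓 𝔈 m z t Z ×ˢ univ) η') (h : η ∈ pvilMf 𝔓 𝔈 m z t Z) :
    η' ∈ pvilMf 𝔓 𝔈 m z t Z ∧ (pvilLf 𝔓 𝔈 m z t).X 𝔓.num (𝔓.col t) w η' = (pvilLf 𝔓 𝔈 m z t).X 𝔓.num (𝔓.col t) w η ∧ pvilFo 𝔓 m z t η' = pvilFo 𝔓 m z t η := by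
  obtain ⟨⟨hA, hZ⟩, hm⟩ := h
  have hZ' : pvilZo 𝔓 m z t η = Z := hZ
  have hμ := pvll_mu_pos hp.r3 m
  have hP : PvllEndP 𝔓.num (𝔓.col t) (pvilLf 𝔓 𝔈 m z t) (pvlmDel c m) (pvilMu 𝔓 m) (𝔓.num.rho * pvlmH m) (pvilWnf 𝔓 𝔈 m z t Z) η :=
    (pvll_endP_pin rfl).2 ⟨rfl, hp.b1, hp.bR, fun q hq => Or.inl (Or.inl (Or.inl (by rw [← hZ']; exact hq)))⟩
  have hP' : PvllEndP' 𝔓.num (𝔓.col t) (pvilLf 𝔓 𝔈 m z t) (pvlmDel c m) (pvilMu 𝔓 m) 0 (pvilWnf 𝔓 𝔈 m z t Z) η := by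
    obtain ⟨a1, a2, a3⟩ := pvll_ref_end hr hO (pvieZu 𝔓 m z t)
    exact (pvll_endP'_door rfl).2 ⟨a1, a2, a3.trans subset_union_right⟩
  have hY' : (pvilLf 𝔓 𝔈 m z t).Yin ⊆ pvtrCore (3 * pvilMu 𝔓 m) (pvilWnf 𝔓 𝔈 m z t Z) := by
    refine hY.trans (pvll_core_mono _ ?_)
    rintro q ((hq | hq) | hq)
    · exact Or.inl (Or.inl (Or.inr hq))
    · exact Or.inl (Or.inr hq)
    · exact Or.inr hq
  obtain ⟨a1, a2, a3, a4, a5, -, -⟩ := pvll_loc_lk (pvlm_Del_pos c m) hμ (by linarith [pvll_mu_del 𝔓 m]) hw hY' hP hP' hn' hηη hm hA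
  exact ⟨⟨⟨a1, (a4 rfl _ _).trans hZ'⟩, a3⟩, a2, a5 rfl⟩

theorem pvll_Mf_finite (hp : PvllPin 𝔓 m t) {Z : Set (ℤ × ℤ)} {η : Conf PvPt} (h : η ∈ pvilMf 𝔓 𝔈 m z t Z) : Z.Finite := by
  obtain ⟨⟨⟨𝔖, 𝔖', y, ha⟩, hZ⟩, -⟩ := h
  have hZ' : pvilZo 𝔓 m z t η = Z := hZ
  rw [← hZ']
  exact pvll_huO_finite rfl (pvlm_Del_pos c m) hp.bR ((PvilLk.atP_pin rfl _ _ _ _).1 ha.at_p) _

/-- **[LOC] OF THE THICK RETURN**: the end with its value -/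
theorem pvll_iff_f (hε : ε ≠ 0) (hp : PvllPin 𝔓 m t) (hr : 3 * pvilMu 𝔓 m ≤ pvilRu 𝔈 m) (hO : pvwSq 0 (3 * pvilRu 𝔈 m) ⊆ 𝔈.rO m)
    (hY : pvieSh z (𝔈.fY m t) ⊆ pvtrCore (3 * pvilMu 𝔓 m) (pvieSh z (𝔈.fM m t) ∪ pvieSh z (𝔈.fK m t) ∪ pvieSh (pvieZu 𝔓 m z t) (𝔈.rO m))) (hw : PvllWt w)
    (hW : ∀ Z : Set (ℤ × ℤ), Z.Finite → MeasurableSet (pvilWnf 𝔓 𝔈 m z t Z)) (hM : ∀ Z : Set (ℤ × ℤ), Z.Finite → NullMeasurableSet (pvilMf 𝔓 𝔈 m z t Z) (pvP ε))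
    (hF : ∀ Z : Set (ℤ × ℤ), Z.Finite → AEMeasurable ((pvilMf 𝔓 𝔈 m z t Z).indicator ((pvilLf 𝔓 𝔈 m z t).X 𝔓.num (𝔓.col t) w)) (pvP ε)) :
    ∀ᵐ σ ∂(pvP ε), ∀ (Z : Set (ℤ × ℤ)) (F : Set ℂ), (σ ∈ (pvilEf 𝔓 𝔈 m ε w z t Z F).A ↔ σ ∈ pvilMf 𝔓 𝔈 m z t Z) ∧
      (σ ∈ pvilMf 𝔓 𝔈 m z t Z → (pvilEf 𝔓 𝔈 m ε w z t Z F).X σ = (pvilLf 𝔓 𝔈 m z t).X 𝔓.num (𝔓.col t) w σ) := by
  filter_upwards [pvll_fin_iff hε (fun _ _ h => pvll_Mf_finite hp h) hW hM hF fun Z η η' h1 h2 h3 => ⟨(pvll_tr_f hp hr hO hY hw h1 h2 h3).1, (pvll_tr_f hp hr hO hY hw h1 h2 h3).2.1⟩] with σ h Z F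
  exact h Z

/-- a.s. `pvilSure = M` as soon as `M` is carried over -/
theorem pvll_sure_iff {Wn : Set ℂ} {M : Set (Conf PvPt)} (hε : ε ≠ 0) (hW : MeasurableSet Wn) (hM : NullMeasurableSet M (pvP ε))
    (hloc : ∀ η η', PvatNice (cfSites η') → Conf.restr (Wn ×ˢ univ) η = Conf.restr (Wn ×ˢ univ) η' → η ∈ M → η' ∈ M) : ∀ᵐ σ ∂(pvP ε), σ ∈ pvilSure ε Wn M ↔ σ ∈ M := by
  have dM : PvsuDet (pvP ε) (Wn ×ˢ univ) M (fun η => η ∈ M) := pvll_det hε hW fun η η' _ h2 h3 h4 => propext ⟨fun _ => hloc η η' h2 h4 h3, fun _ => h3⟩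
  filter_upwards [pvsu_sure_iff (pv_isPpp ε) (hW.prod MeasurableSet.univ) hM dM, pvsu_sure_sub (pv_isPpp ε) (hW.prod MeasurableSet.univ) hM] with σ h1 h2
  exact ⟨fun h => h2 h, fun h => (h1 h).2 h⟩

/-- **the soft success of the thick return WITHOUT the value** is a.s. the plain event, for all hulls -/
theorem pvll_iff_Af (hε : ε ≠ 0) (hp : PvllPin 𝔓 m t) (hr : 3 * pvilMu 𝔓 m ≤ pvilRu 𝔈 m) (hO : pvwSq 0 (3 * pvilRu 𝔈 m) ⊆ 𝔈.rO m)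
    (hY : pvieSh z (𝔈.fY m t) ⊆ pvtrCore (3 * pvilMu 𝔓 m) (pvieSh z (𝔈.fM m t) ∪ pvieSh z (𝔈.fK m t) ∪ pvieSh (pvieZu 𝔓 m z t) (𝔈.rO m)))
    (hW : ∀ Z : Set (ℤ × ℤ), Z.Finite → MeasurableSet (pvilWnf 𝔓 𝔈 m z t Z)) (hM : ∀ Z : Set (ℤ × ℤ), Z.Finite → NullMeasurableSet (pvilMf 𝔓 𝔈 m z t Z) (pvP ε)) :
    ∀ᵐ σ ∂(pvP ε), ∀ Z : Set (ℤ × ℤ), σ ∈ pvilAf 𝔓 𝔈 m ε z t Z ↔ σ ∈ pvilMf 𝔓 𝔈 m z t Z := by
  have key : ∀ᵐ σ ∂(pvP ε), ∀ Z : Finset (ℤ × ℤ), σ ∈ pvilSure ε (pvilWnf 𝔓 𝔈 m z t Z) (pvilMf 𝔓 𝔈 m z t Z) ↔ σ ∈ pvilMf 𝔓 𝔈 m z t Z :=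
    ae_all_iff.2 fun Z => pvll_sure_iff hε (hW _ Z.finite_toSet) (hM _ Z.finite_toSet) fun η η' h1 h2 h3 => (pvll_tr_f hp hr hO hY pvll_wt_Q h1 h2 h3).1
  filter_upwards [key] with σ h Z
  classical
  by_cases hZ : Z.Finite
  · have := h hZ.toFinset
    rw [hZ.coe_toFinset] at this
    unfold pvilAf pvilFin
    rw [if_pos hZ]
    exact this
  · unfold pvilAf pvilFin
    rw [if_neg hZ]
    exact ⟨fun h0 => h0.elim, fun h0 => (hZ (pvll_Mf_finite hp h0)).elim⟩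

theorem pvll_Mf_own (σ : Conf PvPt) : σ ∈ pvilMf 𝔓 𝔈 m z t (pvilZo 𝔓 m z t σ) ↔ σ ∈ (pvilLf 𝔓 𝔈 m z t).A 𝔓.num (𝔓.col t) ∧ σ ∈ pvilMs 𝔓 m (pvilWnf 𝔓 𝔈 m z t (pvilZo 𝔓 m z t σ)) :=
  ⟨fun h => ⟨h.1.1, h.2⟩, fun h => ⟨⟨h.1, rfl⟩, h.2⟩⟩

theorem pvll_col_f {κ : ℝ} (h : ∀ v ∈ 𝔈.fY m t, closedBall v κ ⊆ 𝔈.fM m t ∪ 𝔈.fK m t ∪ pvieSh ((𝔓.Γ m).zu t) (𝔈.rO m)) (z : ℂ) :
    pvieSh z (𝔈.fY m t) ⊆ pvtrCore κ (pvieSh z (𝔈.fM m t) ∪ pvieSh z (𝔈.fK m t) ∪ pvieSh (pvieZu 𝔓 m z t) (𝔈.rO m)) := by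
  have := pvll_sh_core z h
  rwa [pvll_sh_union, pvll_sh_union, pvll_sh_sh] at this

end ret

end Claimed.Agent.R289
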