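-- KEEP
import Claimed.Agent.R289.Tr.TeleV
import Claimed.Agent.R289.Tr.LinkLocE
import Claimed.Agent.R289.Defs.InstWf

/-!
# Row 289 (S0537), THE WALL, ROAD E, file Tr/DictL : (T2) THE `V`-VALUE OF THE THICK LINK `u → t` AT `Tr/InstL` v2.2.1 IS A DIFFERENCE OF TWO CUT POINTS      (helper195; prefix `pvvd_`, `Pvvd`)

`Tr/TeleV` (85): `pvvf_val` : `PvvfLk` (what the tags must miss) ⟹ `L.val .. (pvilV η) 𝔖 𝔖' y = pvdcCV 𝔖' .. - pvvfCut 𝔖 .. W`.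
HERE: **`PvvfLk` AT `pvilLe 𝔓 𝔈 m z t`, FROM THE PLAIN EVENT `pvilMe 𝔓 𝔈 m z t Z`** (arc + hull + mesh OF THE WINDOW), for ANY witnesses, under
* the hypotheses of [LOC] of 74 (`pvll_tr_e`, `Tr/LinkLocE`), VERBATIM: `PvllPin 𝔓 m t`, `3 μ ≤ r`, `rp_win`, the collar (Rc) of R22 for `eY`;
* FOUR METRIC LINES `PvvdReg 𝔓 𝔈 m t`, relative to the centre of the pin (no `Z`, no configuration):
      `num`   : `m h + 4 μ / 3 < a h`                                                   [numbers]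
      `off`   : the region of the reference plug misses the own-level box with its collar   [`res_off` of `PvieEng.Wf`]
      `far`   : the room `eY` stays at distance `≥ a h` from the centre of the pin           [`eY_sub`, `res_off`, `eM_half`, `pviwTyOk`, numbers]
      `front` : the room `eY` is at distance `> 4 μ / 3` from the part of the region of the plug BEHIND the line through its centre      [W-7 of 208: `Δ / 64` at the room of record]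
NOT ASKED: "the room misses the disc `2 r` of the plug" (hypothesis `hY` of `pvjz_link`): FALSE at the room of record (its first piece starts at `Δ / 64 = r / 4` in front of the centre): the record `PvjzLk` is NOT used, only the trichotomy `pvjz_tri` of 290.
* sec. 1  model free: **`pvvd_G_door`** (`PvjzG` of a door state, `ra = 𝔭.a`, `rb = 𝔭.b`), `pvvd_P_door` (`PvjzP`, `np = 0`, mask `Kp ∩ KO`), `pvvd_M_pin` (`PvjzM`, mask `Mm ∩ pos '' fzIn`), `pvvd_G_pin`, `pvvd_run`, **`pvvd_lk_of`** (`PvvfLk` from the trichotomy)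
* sec. 2  congruence of the two cut points under the uniqueness records (`pvvd_cut_congr`, `pvvd_CV_congr`)
* sec. 4  **`pvvd_reg_wf`** : `PvvdReg` from `PvieEng.Wf` (168) + two lines on the numbers + the cut line `front`
* sec. 3  at `Tr/InstL`: `PvvdReg`, **`pvvd_lk`**, **`pvvd_val`** (any witnesses), **`pvvd_X`** (`L.X`, any witnesses), **`pvvd_X_at`** (`L.X` = cut point of ANY entrance half state of `t` − cut point of ANY door state of `u`)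
-/

set_option autoImplicit false

namespace Claimed.Agent.R289

open Set Metric Claims.C0465
open scoped ComplexConjugate

/-! ## 1. model free -/

section base

variable {V D : Type} {T : PvMap V D} {pos : V → ℂ} {s : V → Bool}

/-- **THE GATE PART OF A DOOR STATE** (kit plug `𝔭` placed at `(z,d)`), in the record of 290: annulus `𝔭.a ≤ |w - z| < 𝔭.b` -/
theorem pvvd_G_door (hT : T.IsSph) (hS : T.Simple) {𝔭 : PvkdPlug} {z d : ℂ} {𝔖 : PvwSt T} (h : PvllDr 𝔭 T pos s z d 𝔖) : PvjzG T pos s 𝔖 z 𝔭.a 𝔭.b := by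
  obtain ⟨g, hg, rfl⟩ := h
  have Dr := pvll_dr_door hT hS hg
  obtain ⟨hR, -, hO, -⟩ := pl_jordan hT g.c
  obtain ⟨N, hN⟩ := hg.thru
  refine ⟨?_, ?_, ?_, pvtg_aOut_bw g, pvtg_aIn_bw g, ?_, ?_, ?_, ⟨N, hN.2.1, hN.2.2.2.1, ?_⟩, Nat.zero_le _⟩
  · rintro v ⟨k, rfl⟩
    by_contra hlt
    rw [not_le] at hlt
    have h1 : T.opp (g.c.e k) ∈ g.c.Left := hg.least.reg.inner (Or.inr (Or.inl (by
      show pos (T.tgt (T.opp (g.c.e k))) ∈ ball z 𝔭.a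
      rw [T.tgt_opp, mem_ball_iff_norm]
      exact hlt)))
    have h2 := hO k
    rw [hR] at h2
    exact h2 h1
  · intro v hv
    obtain ⟨d0, hd0⟩ := pl_cyc_dart_at hT g.c v
    exact ⟨d0, hg.least.reg.inner (Or.inl (by
      show pos (T.src d0) ∈ ball z 𝔭.a
      rw [hd0, mem_ball_iff_norm]
      exact hv)), hd0⟩
  · rintro v ⟨d0, hd0, rfl⟩
    exact mem_ball_iff_norm.1 (hg.least.reg.outer d0 hd0)
  · show T.src g.aOut ≠ T.src g.aIn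
    rw [pvtg_aOut_src]
    exact (pvtg_ne g).symm
  · show T.src g.aOut ∈ g.c.verts
    rw [pvtg_aOut_src]
    exact ⟨g.m, rfl⟩
  · intro v hv hb
    rcases pvtg_black g hv hb with h | h
    · exact Or.inr h
    · exact Or.inl (h.trans (pvtg_aOut_src g).symm)
  · have := Dr.inn
    rwa [(hN.len hT).1] at this

/-- **the exit stub of a door state is empty**: its only bank vertex is `g⁺`, in the room of `g⁺` and in the open disc `𝔭.b` -/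
theorem pvvd_P_door (hT : T.IsSph) {𝔭 : PvkdPlug} {z d : ℂ} {𝔖 : PvwSt T} (h : PvllDr 𝔭 T pos s z d 𝔖) : PvjzP T pos s 𝔖 𝔖.np 𝔖.ep ((𝔭.pg z d).Kp ∩ (𝔭.pg z d).KO) := by
  obtain ⟨g, hg, rfl⟩ := h
  obtain ⟨hR, -, hO, -⟩ := pl_jordan hT g.c
  refine ⟨fun i hi => ?_, fun i _ => ?_, fun y hy v hv => ?_⟩
  · have : i = 0 := Nat.le_zero.1 hi
    subst this
    rfl
  · show g.aOut ∉ g.c.Left
    have h2 := hO (g.m - 1)
    rw [hR] at h2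
    exact h2
  · obtain ⟨k, hk, rfl⟩ := hv
    obtain ⟨j, -, -, h1, -⟩ := hy
    rw [(h1 k hk).2.1]
    show pos (T.src g.aOut) ∈ _
    rw [pvtg_aOut_src]
    exact ⟨hg.vp, hg.least.reg.rim g.m⟩

/-- **the entrance stub of a marked end**: the bank vertices of its loop erasure lie over the mask AND are frozen by `Σ_in` -/
theorem pvvd_M_pin {N : PvwNum} {p : PvilPl} {𝔖 : PvwSt T} (h : PvllIn N p T pos s 𝔖) : PvjzM T pos s 𝔖 𝔖.nm 𝔖.em (p.Mm ∩ pos '' 𝔖.fzIn) where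
  it := h.st.stub.em_it
  off := h.st.good.off_m
  mask := fun y hy v hv => ⟨h.mask y hy v hv, by
    obtain ⟨k, hk, rfl⟩ := hv
    obtain ⟨j, -, -, h1, -⟩ := hy
    exact ⟨_, Or.inl (Or.inr ⟨j k, (h1 k hk).1, (h1 k hk).2.1.symm⟩), rfl⟩⟩

/-- the gate part of a marked entrance end -/
theorem pvvd_G_pin (hT : T.IsSph) {N : PvwNum} {p : PvilPl} (hfr : ‖p.fr‖ = 1) {𝔖 : PvwSt T} (h : PvllIn N p T pos s 𝔖) : PvjzG T pos s 𝔖 p.z (p.ty.a * p.h) (p.ty.b * p.h) :=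
  PvjzG.of_gate hT h.st.gate fun v => by
    show ‖conj p.fr * pos v - conj p.fr * p.z‖ = _
    rw [← mul_sub, norm_mul, RCLike.norm_conj, hfr, one_mul]

/-- the run of a link, in the record of 290 -/
theorem pvvd_run {Yin : Set ℂ} {𝔖 𝔖' : PvwSt T} {n : ℕ} {y : T.Pth} (h : PvllLk T pos s Yin 𝔖 𝔖' n y) : PvjzRun T pos s 𝔖.dp 𝔖.np 𝔖'.dm 𝔖'.nm Yin y n :=
  ⟨h.run.1, h.run.2.1, h.run.2.2.1, fun i h1 h2 => (h.run.2.2.2 i h1 h2).1, h.le⟩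

/-- **`PvvfLk` FROM THE TRICHOTOMY OF 290**.      `G G'` = the two gates, `hP hM hR` = stubs and run;   `C` = a set over which the tags follow their first vertex within `μ` (core of the window);
the three vertex masks and the two closed discs lie in `C`;   `Mp`, `Yin`, `Mm'` are `μ`-far from `W`;   `Mp`, `Yin` are far from the cut-off disc;   the discs of the two ends are `μ`-far from the cut-off disc / from `W`. -/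
theorem pvvd_lk_of (hT : T.IsSph) (hS : T.Simple) {𝔖 𝔖' : PvwSt T} {z z' : ℂ} {ra rb ra' rb' ρ' μ : ℝ} (G : PvjzG T pos s 𝔖 z ra rb) (G' : PvjzG T pos s 𝔖' z' ra' rb')
    {Mp Mm' Yin C W : Set ℂ} {y : T.Pth} {n : ℕ} (hP : PvjzP T pos s 𝔖 𝔖.np 𝔖.ep Mp) (hM : PvjzM T pos s 𝔖' 𝔖'.nm 𝔖'.em Mm') (hR : PvjzRun T pos s 𝔖.dp 𝔖.np 𝔖'.dm 𝔖'.nm Yin y n)
    (hm : ∀ p : T.Pth, ∀ k, k < p.n → pos (p.v k) ∈ C → ‖T.bary pos (T.opp (p.e k)) - pos (p.v k)‖ ≤ μ)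
    (hC : ball z rb ⊆ C) (hC' : ball z' rb' ⊆ C) (hCp : Mp ⊆ C) (hCy : Yin ⊆ C) (hCm : Mm' ⊆ C)
    (hWp : ∀ a ∈ Mp, ∀ x, ‖x - a‖ ≤ μ → x ∉ W) (hWy : ∀ a ∈ Yin, ∀ x, ‖x - a‖ ≤ μ → x ∉ W) (hWm : ∀ a ∈ Mm', ∀ x, ‖x - a‖ ≤ μ → x ∉ W) (hWd : ∀ a ∈ ball z' rb', ∀ x, ‖x - a‖ ≤ μ → x ∉ W)
    (hρ : ρ' + μ < ra') (hBp : ∀ a ∈ Mp, ρ' + μ < ‖a - z'‖) (hBy : ∀ a ∈ Yin, ρ' + μ < ‖a - z'‖) (hBd : ∀ a ∈ ball z rb, ρ' + μ < ‖a - z'‖) :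
    PvvfLk pos W (closedBall z' ρ') 𝔖 𝔖' y where
  ip' := G'.ip_le
  inn := fun k hk => by
    have h1 : pos (𝔖.inn.v k) ∈ ball z rb := mem_ball_iff_norm.2 (G.inside _ (pvjz_inn_ins hT G (le_of_lt hk)))
    exact pvdc_tag_off (hm _ k hk (hC h1)) (hBd _ h1)
  arc := fun k hk => by
    rcases pvjz_tri hT hS G.bw_p hP hM hR (le_of_lt hk) with ⟨h1, -⟩ | h1 | ⟨h1, j, hj, e⟩
    · exact ⟨hWp _ h1 _ (hm _ k hk (hCp h1)), pvdc_tag_off (hm _ k hk (hCp h1)) (hBp _ h1)⟩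
    · exact ⟨hWy _ h1 _ (hm _ k hk (hCy h1)), pvdc_tag_off (hm _ k hk (hCy h1)) (hBy _ h1)⟩
    · refine ⟨hWm _ h1 _ (hm _ k hk (hCm h1)), pvdc_tag_off (hm _ k hk (hCm h1)) (lt_of_lt_of_le hρ ?_)⟩
      obtain ⟨b1, b2⟩ := pvjz_behind 𝔖' (hM.off j hj)
      rw [e, ← b2]
      exact pvjz_off_far hT G' b1
  ent := fun k hk => by
    have h1 : pos (𝔖'.inn.v k) ∈ ball z' rb' := mem_ball_iff_norm.2 (G'.inside _ (pvjz_inn_ins hT G' (le_of_lt (lt_of_lt_of_le hk G'.ip_le))))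
    exact hWd _ h1 _ (hm _ k (lt_of_lt_of_le hk G'.ip_le) (hC' h1))
  h0 := by rw [pvt_sd_v0 hR.le_y, pvjz_inn_vn G]; rfl
  h1 := by rw [pvt_sd_vn hR.le_y, hR.hit, pvjz_inn_v0 G']; rfl

end base

/-! ## 2. the two cut points do not depend on the witness -/

section congr

variable {V D : Type} {T : PvMap V D} {pos : V → ℂ} {s : V → Bool}

/-- the cut point of a door is the same at two states with the same data for a link -/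
theorem pvvd_cut_congr {𝔖 𝔖₁ : PvwSt T} {z : ℂ} {ra rb : ℝ} (G : PvjzG T pos s 𝔖 z ra rb) (G₁ : PvjzG T pos s 𝔖₁ z ra rb) (e : PvllEq 𝔖 𝔖₁) (W : Set ℂ) : pvvfCut 𝔖 pos W = pvvfCut 𝔖₁ pos W := by
  unfold pvvfCut
  rw [pvjz_inn_v0 G, pvjz_inn_v0 G₁, pvll_mass_eq e.inn_e _ W le_rfl, e.inn_n]
  show pos (T.src 𝔖.dm) + _ = pos (T.src 𝔖₁.dm) + _
  rw [e.dm]

/-- the cut point of a pin is the same at two states with the same gate part -/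
theorem pvvd_CV_congr {𝔖 𝔖₁ : PvwSt T} (e : PvuqG 𝔖 𝔖₁) (hip : 𝔖.ip ≤ 𝔖.inn.n) (pos : V → ℂ) (z : ℂ) (ρ : ℝ) : pvdcCV 𝔖 pos z ρ = pvdcCV 𝔖₁ pos z ρ := by
  unfold pvdcCV
  rw [e.inn_v _ hip, pvll_mass_eq e.inn_e _ _ hip, e.ip]

end congr

/-! ## 3. at `Tr/InstL` -/

section inst

variable {τ : Type} {c : ℝ}

/-- **THE FOUR METRIC LINES OF (T2)**, relative to the centre of the pin -/
structure PvvdReg (𝔓 : PvxPar τ c) (𝔈 : PvieEng τ) (m : ℕ) (t : τ) : Prop where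
  /-- the cut-off disc is well inside the gate annulus -/
  num : 𝔓.num.m * pvlmH m + 4 * pvilMu 𝔓 m / 3 < (𝔓.ty t).a * pvlmH m
  /-- `res_off` of `PvieEng.Wf` at the region of the reference plug -/
  off : Disjoint (pviwRo 𝔓 𝔈 m t) (pviwBox 𝔓 m t)
  /-- the room stays outside the gate annulus of the pin -/
  far : ∀ v ∈ 𝔈.eY m t, (𝔓.ty t).a * pvlmH m ≤ ‖v‖
  /-- THE MARGIN AT THE CUT LINE (W-7 of 208) -/
  front : ∀ a ∈ 𝔈.eY m t, ∀ x ∈ pviwRo 𝔓 𝔈 m t, (x - (𝔓.Γ m).zu t).re < 0 → 4 * pvilMu 𝔓 m / 3 < ‖x - a‖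

variable {𝔓 : PvxPar τ c} {𝔈 : PvieEng τ} {m : ℕ} {z : ℂ} {t : τ}

theorem pvvd_mem_Ro {x : ℂ} : x ∈ pvieSh (pvieZu 𝔓 m z t) (𝔈.rO m) ↔ x - z ∈ pviwRo 𝔓 𝔈 m t := by
  unfold pviwRo pvieZu
  rw [pvjz_mem_sh, pvjz_mem_sh, sub_sub]

theorem pvvd_mem_Box {x : ℂ} : x ∈ pvwSq z (pvwRad 𝔓.num (pvlmH m) (𝔓.ty t) (𝔓.ty t).k + pvlmDel c m) ↔ x - z ∈ pviwBox 𝔓 m t := by
  unfold pviwBox pviwRad pvwSq
  simp only [mem_ofPred_eq, sub_zero]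

/-- the region of the plug misses the `4 μ / 3`-neighbourhood of the own-level box -/
theorem pvvd_box_off (R : PvvdReg 𝔓 𝔈 m t) (h3 : 0 < 𝔓.num.rho3) {a x : ℂ} (ha : a ∈ pvwSq z (pvwRad 𝔓.num (pvlmH m) (𝔓.ty t) (𝔓.ty t).k)) (hx : ‖x - a‖ ≤ 4 * pvilMu 𝔓 m / 3) :
    x ∉ pvieSh (pvieZu 𝔓 m z t) (𝔈.rO m) := by
  intro hc
  have h1 := pvll_mu_del 𝔓 m
  have h2 := pvll_mu_pos h3 m
  have h4 : x ∈ pvwSq z (pvwRad 𝔓.num (pvlmH m) (𝔓.ty t) (𝔓.ty t).k + pvlmDel c m) :=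
    pvll_sq_core (c := 4 * pvilMu 𝔓 m / 3) (by linarith) ha (mem_closedBall_iff_norm.2 hx)
  exact Set.disjoint_left.1 R.off (pvvd_mem_Ro.1 hc) (pvvd_mem_Box.1 h4)

/-- **(T2), THE MASKS**: at the plain event of the thick link (arc, hull, mesh of the window) the tags miss what they must miss, for ANY witnesses -/
theorem pvvd_lk (hp : PvllPin 𝔓 m t) (hr : 3 * pvilMu 𝔓 m ≤ pvilRu 𝔈 m) (hO : pvwSq 0 (3 * pvilRu 𝔈 m) ⊆ 𝔈.rO m)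
    (hY : pvieSh z (𝔈.eY m t) ⊆ pvtrCore (3 * pvilMu 𝔓 m) (pvieSh z (𝔈.eM m t) ∪ pvieSh z (𝔈.eK m t) ∪ pvieSh (pvieZu 𝔓 m z t) (𝔈.rO m)))
    (R : PvvdReg 𝔓 𝔈 m t) {Z : Set (ℤ × ℤ)} {ζ : Conf PvPt} (hZ : pvilZi 𝔓 m z t ζ = Z) (hm : ζ ∈ pvilMs 𝔓 m (pvilWne 𝔓 𝔈 m z t Z))
    {𝔖 𝔖' : PvwSt (pvieT ζ)} {y : (pvieT ζ).Pth} (hA : (pvilLe 𝔓 𝔈 m z t).Arc 𝔓.num (𝔓.col t) ζ 𝔖 𝔖' y) :
    PvvfLk (pviePos ζ) (pvieSh (pvieZu 𝔓 m z t) (𝔈.rO m) \ pvilHp (pvieZu 𝔓 m z t) 1) (closedBall z (𝔓.num.m * pvlmH m)) 𝔖 𝔖' y := by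
  obtain ⟨hgd, hArc⟩ := pvll_arc_iff.1 hA
  have hT := delb_plane_isSph hgd.1
  have hS := pvgy_m_simple (pvieY ζ)
  have hμ := pvll_mu_pos hp.r3 m
  have hμδ := pvll_mu_del 𝔓 m
  have hr0 : 0 < pvilRu 𝔈 m := by linarith
  have hD : PvllDr (pvkdP (pvilRu 𝔈 m)) (pvieT ζ) (pviePos ζ) (pvieCol ζ (𝔓.col t)) (pvieZu 𝔓 m z t) 1 𝔖 := by
    have h := hArc.at_p
    unfold PvllAtP at h
    rw [if_pos (show (pvilLe 𝔓 𝔈 m z t).dr = true from rfl)] at h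
    exact h
  have hI : PvilIn 𝔓.num (𝔓.col t) (pvilPin 𝔓 m z t) ζ 𝔖' := (PvilLk.atP'_pin (L := pvilLe 𝔓 𝔈 m z t) rfl _ _ _ _).1 hA.at_p'
  have hI' := (pvll_in_iff.1 hI).2
  obtain ⟨n, hn⟩ := hArc.run
  have G := pvvd_G_door hT hS hD
  have G' : PvjzG (pvieT ζ) (pviePos ζ) (pvieCol ζ (𝔓.col t)) 𝔖' z ((𝔓.ty t).a * pvlmH m) ((𝔓.ty t).b * pvlmH m) := pvvd_G_pin hT (p := pvilPin 𝔓 m z t) norm_one hI'
  have hab := pvjz_ra_lt hT G'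
  -- the cores
  have hWu : pvkdAt (pvieZu 𝔓 m z t) 1 (pvwSq 0 (3 * pvilRu 𝔈 m)) ⊆ pvilWne 𝔓 𝔈 m z t Z := (pvll_ref_end hr hO (pvieZu 𝔓 m z t)).2.2.trans subset_union_right
  obtain ⟨hsub, hCu⟩ := pvll_ft_door (κ := 3 * pvilMu 𝔓 m) (norm_one (α := ℂ)) hr0.le (by linarith) hWu
  obtain ⟨hCt, hCf⟩ := pvll_pin_in (p := pvilPin 𝔓 m z t) (r := 𝔓.num.rho * pvlmH m) rfl (pvlm_Del_pos c m) hμ (by linarith) hp.b1 hp.bR hI
    (Wn := pvilWne 𝔓 𝔈 m z t Z) (fun q hq => Or.inl (Or.inl (Or.inl (by rw [← hZ]; exact hq)))) hm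
  have hbox := pvll_fzIn_box (pvll_std_in (p := pvilPin 𝔓 m z t) rfl hI) hp.bR
  have hdsq : ball z ((𝔓.ty t).b * pvlmH m) ⊆ pvwSq z (pvwRad 𝔓.num (pvlmH m) (𝔓.ty t) (𝔓.ty t).k) := ball_subset_closedBall.trans (pvll_ball_sq hp.bR)
  have hBd : ∀ a ∈ ball (pvieZu 𝔓 m z t) (2 * pvilRu 𝔈 m), 𝔓.num.m * pvlmH m + 4 * pvilMu 𝔓 m / 3 < ‖a - z‖ := by
    intro a ha
    have h1 : a ∈ pvieSh (pvieZu 𝔓 m z t) (𝔈.rO m) :=
      (pvll_ref_end hr hO (pvieZu 𝔓 m z t)).2.2 (pvll_ball_at (norm_one (α := ℂ)) _ (closedBall_subset_closedBall (by linarith) (ball_subset_closedBall ha)))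
    by_contra hc
    rw [not_lt] at hc
    have h2 : a ∈ pvwSq z (pvwRad 𝔓.num (pvlmH m) (𝔓.ty t) (𝔓.ty t).k) := pvll_ball_sq (le_refl _) (mem_closedBall_iff_norm.2 (by linarith [R.num, hp.bR]))
    exact pvvd_box_off R hp.r3 h2 (by rw [sub_self, norm_zero]; positivity) h1
  refine pvvd_lk_of hT hS (C := pvtrCore (3 * pvilMu 𝔓 m) (pvilWne 𝔓 𝔈 m z t Z)) (μ := 4 * pvilMu 𝔓 m / 3) G G' (pvvd_P_door hT hD) (pvvd_M_pin hI') (pvvd_run hn)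
    (fun p k hk hc => pvme_mesh_tag hμ hm p hk hc) (ball_subset_closedBall.trans hCu) (ball_subset_closedBall.trans hCt) (fun a ha => hsub.2.1 ha.2) ?_ (fun a ha => hCf ha.2)
    ?_ ?_ (fun a ha x hx hc => ?_) (fun a ha x hx hc => pvvd_box_off R hp.r3 (hdsq ha) hx hc.1) R.num (fun a ha => hBd a ha.2) ?_ hBd
  · refine hY.trans (pvll_core_mono _ ?_)
    rintro q ((hq | hq) | hq)
    · exact Or.inl (Or.inl (Or.inr hq))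
    · exact Or.inl (Or.inr hq)
    · exact Or.inr hq
  · rintro a ⟨⟨a', ha', rfl⟩, -⟩ x hx hc
    apply hc.2
    show 0 ≤ ((x - pvieZu 𝔓 m z t) * conj (1 : ℂ)).re
    rw [map_one, mul_one]
    have h1 : pvilRu 𝔈 m / 2 ≤ a'.re := ha'.1
    have h2 : |(x - pvthSim (pvieZu 𝔓 m z t) 1 a').re| ≤ 4 * pvilMu 𝔓 m / 3 := (Complex.abs_re_le_norm _).trans hx
    have h3 : (x - pvthSim (pvieZu 𝔓 m z t) 1 a').re = (x - pvieZu 𝔓 m z t).re - a'.re := by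
      unfold pvthSim
      simp only [one_mul, Complex.sub_re, Complex.add_re]
      ring
    rw [h3] at h2
    have := (abs_le.1 h2).1
    linarith
  · rintro a ⟨a', ha', rfl⟩ x hx hc
    have h1 : (x - z - (𝔓.Γ m).zu t).re < 0 := by
      have h2 : ¬ 0 ≤ ((x - pvieZu 𝔓 m z t) * conj (1 : ℂ)).re := hc.2
      rw [map_one, mul_one, not_le] at h2
      have e : x - z - (𝔓.Γ m).zu t = x - pvieZu 𝔓 m z t := by unfold pvieZu; ring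
      rw [e]
      exact h2
    have h2 := R.front a' ha' (x - z) (pvvd_mem_Ro.1 hc.1) h1
    have e : x - z - a' = x - (z + a') := by ring
    rw [e] at h2
    exact absurd hx (not_le.2 h2)
  · obtain ⟨v, hv, rfl⟩ := ha.2
    exact pvvd_box_off R hp.r3 (hbox v hv) hx hc.1
  · rintro a ⟨a', ha', rfl⟩
    have h1 := R.far a' ha'
    have e : z + a' - z = a' := by ring
    show _ < ‖z + a' - z‖
    rw [e]
    linarith [R.num]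

/-- **(T2) AT `Tr/InstL`**: the `V`-value of the thick link is (cut point of the pin) − (cut point of the reference plug), for ANY witnesses of the plain success -/
theorem pvvd_val (hp : PvllPin 𝔓 m t) (hr : 3 * pvilMu 𝔓 m ≤ pvilRu 𝔈 m) (hO : pvwSq 0 (3 * pvilRu 𝔈 m) ⊆ 𝔈.rO m)
    (hY : pvieSh z (𝔈.eY m t) ⊆ pvtrCore (3 * pvilMu 𝔓 m) (pvieSh z (𝔈.eM m t) ∪ pvieSh z (𝔈.eK m t) ∪ pvieSh (pvieZu 𝔓 m z t) (𝔈.rO m)))
    (R : PvvdReg 𝔓 𝔈 m t) {Z : Set (ℤ × ℤ)} {ζ : Conf PvPt} (hZ : pvilZi 𝔓 m z t ζ = Z) (hm : ζ ∈ pvilMs 𝔓 m (pvilWne 𝔓 𝔈 m z t Z))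
    {𝔖 𝔖' : PvwSt (pvieT ζ)} {y : (pvieT ζ).Pth} (hA : (pvilLe 𝔓 𝔈 m z t).Arc 𝔓.num (𝔓.col t) ζ 𝔖 𝔖' y) :
    (pvilLe 𝔓 𝔈 m z t).val 𝔓.num ζ (pvilV ζ) 𝔖 𝔖' y =
      pvdcCV 𝔖' (pviePos ζ) z (𝔓.num.m * pvlmH m) - pvvfCut 𝔖 (pviePos ζ) (pvieSh (pvieZu 𝔓 m z t) (𝔈.rO m) \ pvilHp (pvieZu 𝔓 m z t) 1) :=
  pvvf_val (L := pvilLe 𝔓 𝔈 m z t) rfl rfl rfl 𝔓.num (pvvd_lk hp hr hO hY R hZ hm hA)

/-- uniqueness data of the thick link -/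
theorem pvvd_uq (hr : 0 < pvilRu 𝔈 m) : PvllUq (pvilLe 𝔓 𝔈 m z t) := by
  unfold PvllUq
  rw [if_pos (show (pvilLe 𝔓 𝔈 m z t).dr = true from rfl), if_neg (show ¬ (pvilLe 𝔓 𝔈 m z t).dr' = true from Bool.false_ne_true)]
  exact ⟨pvll_pg_disj hr _ one_ne_zero, norm_one⟩

/-- **(T2) FOR THE PLAIN VALUE `L.X`**, any witnesses -/
theorem pvvd_X (hp : PvllPin 𝔓 m t) (hr : 3 * pvilMu 𝔓 m ≤ pvilRu 𝔈 m) (hO : pvwSq 0 (3 * pvilRu 𝔈 m) ⊆ 𝔈.rO m)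
    (hY : pvieSh z (𝔈.eY m t) ⊆ pvtrCore (3 * pvilMu 𝔓 m) (pvieSh z (𝔈.eM m t) ∪ pvieSh z (𝔈.eK m t) ∪ pvieSh (pvieZu 𝔓 m z t) (𝔈.rO m)))
    (R : PvvdReg 𝔓 𝔈 m t) {Z : Set (ℤ × ℤ)} {ζ : Conf PvPt} (hZ : pvilZi 𝔓 m z t ζ = Z) (hm : ζ ∈ pvilMs 𝔓 m (pvilWne 𝔓 𝔈 m z t Z))
    {𝔖 𝔖' : PvwSt (pvieT ζ)} {y : (pvieT ζ).Pth} (hA : (pvilLe 𝔓 𝔈 m z t).Arc 𝔓.num (𝔓.col t) ζ 𝔖 𝔖' y) :
    (pvilLe 𝔓 𝔈 m z t).X 𝔓.num (𝔓.col t) pvilV ζ =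
      pvdcCV 𝔖' (pviePos ζ) z (𝔓.num.m * pvlmH m) - pvvfCut 𝔖 (pviePos ζ) (pvieSh (pvieZu 𝔓 m z t) (𝔈.rO m) \ pvilHp (pvieZu 𝔓 m z t) 1) := by
  rw [pvll_X_eq (pvvd_uq (by linarith [pvll_mu_pos hp.r3 m])) hA pvilV]
  exact pvvd_val hp hr hO hY R hZ hm hA

/-- **(T2), THE FORM OF THE CONSUMERS**: on the plain event `pvilMe .. Z` the plain `V`-value of the thick link is the cut point of ANY entrance half state of `t` minus the cut point of ANY door state of the reference plug -/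
theorem pvvd_X_at (hp : PvllPin 𝔓 m t) (hr : 3 * pvilMu 𝔓 m ≤ pvilRu 𝔈 m) (hO : pvwSq 0 (3 * pvilRu 𝔈 m) ⊆ 𝔈.rO m)
    (hY : pvieSh z (𝔈.eY m t) ⊆ pvtrCore (3 * pvilMu 𝔓 m) (pvieSh z (𝔈.eM m t) ∪ pvieSh z (𝔈.eK m t) ∪ pvieSh (pvieZu 𝔓 m z t) (𝔈.rO m)))
    (R : PvvdReg 𝔓 𝔈 m t) {Z : Set (ℤ × ℤ)} {ζ : Conf PvPt} (hζ : ζ ∈ pvilMe 𝔓 𝔈 m z t Z)
    {𝔖 𝔖' : PvwSt (pvieT ζ)} (hD : PvilDoor (pvkdP (pvilRu 𝔈 m)) (𝔓.col t) ζ (pvieZu 𝔓 m z t) 1 𝔖) (hI : PvilIn 𝔓.num (𝔓.col t) (pvilPin 𝔓 m z t) ζ 𝔖') :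
    (pvilLe 𝔓 𝔈 m z t).X 𝔓.num (𝔓.col t) pvilV ζ =
      pvdcCV 𝔖' (pviePos ζ) z (𝔓.num.m * pvlmH m) - (pviePos ζ (𝔖.inn.v 0) +
        pvwMass (pvieT ζ) (pviePos ζ) (pvilV ζ) (pvieSh (pvieZu 𝔓 m z t) (𝔈.rO m) \ pvilHp (pvieZu 𝔓 m z t) 1) 𝔖.inn 0 𝔖.inn.n) := by
  obtain ⟨⟨⟨𝔖₀, 𝔖₀', y, hA⟩, hZ⟩, hm⟩ := hζ
  have hr0 : 0 < pvilRu 𝔈 m := by linarith [pvll_mu_pos hp.r3 m]
  have hT := delb_plane_isSph hI.good
  have hS := pvgy_m_simple (pvieY ζ)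
  have hD₀ : PvilDoor (pvkdP (pvilRu 𝔈 m)) (𝔓.col t) ζ (pvieZu 𝔓 m z t) 1 𝔖₀ := (PvilLk.atP_door (L := pvilLe 𝔓 𝔈 m z t) rfl _ _ _ _).1 hA.at_p
  have hI₀ : PvilIn 𝔓.num (𝔓.col t) (pvilPin 𝔓 m z t) ζ 𝔖₀' := (PvilLk.atP'_pin (L := pvilLe 𝔓 𝔈 m z t) rfl _ _ _ _).1 hA.at_p'
  have d0 := (pvll_door_iff.1 hD₀).2
  have d1 := (pvll_door_iff.1 hD).2
  have e1 := pvvd_cut_congr (pvvd_G_door hT hS d0) (pvvd_G_door hT hS d1) (pvll_dr_unique hT hS (pvll_pg_disj hr0 _ one_ne_zero) d0 d1)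
    (pvieSh (pvieZu 𝔓 m z t) (𝔈.rO m) \ pvilHp (pvieZu 𝔓 m z t) 1)
  rw [pvvd_X hp hr hO hY R hZ hm hA, pvvd_CV_congr (pvll_pl_in_unique (p := pvilPin 𝔓 m z t) norm_one hI₀ hI).1 hI₀.st.gate.ip_le]
  exact congrArg _ e1

theorem pvvd_eqns_cite : True := trivial

end inst

/-! ## 4. three of the four metric lines from `PvieEng.Wf` -/

section wf

variable {τ : Type} {c : ℝ} {𝔓 : PvxPar τ c} {𝔈 : PvieEng τ} {m : ℕ} {t : τ}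

theorem pvvd_N_le (w : ℂ) : pvccN w ≤ ‖w‖ := max_le (Complex.abs_re_le_norm w) (Complex.abs_im_le_norm w)

/-- off the own-level box with its collar, sup norm form -/
theorem pvvd_not_box {v : ℂ} (h : v ∉ pviwBox 𝔓 m t) : pviwRad 𝔓 m t + pvlmDel c m < pvccN v := by
  by_contra hc
  rw [not_lt] at hc
  apply h
  unfold pviwBox pvwSq
  rw [mem_ofPred_eq, sub_zero]
  exact ⟨(le_max_left _ _).trans hc, (le_max_right _ _).trans hc⟩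

/-- **`PvvdReg` FROM THE CONTRACT OF RECORD `PvieEng.Wf` (168)**: `off` = `res_off`, `far` = `eY_sub` + `res_off` + `eM_half` + `pviwTyOk`;   two lines on the numbers;   THE CUT LINE `front` is owed by the room of record -/
theorem pvvd_reg_wf {m0 : ℕ} {Cth : ℝ} {r κs : ℕ → ℝ} (W : PvieEng.Wf 𝔓 𝔈 m0 Cth r κs) (hm : m0 ≤ m) (hT : pviwTyOk 𝔓 t)
    (hnum : 𝔓.num.m * pvlmH m + 4 * pvilMu 𝔓 m / 3 < (𝔓.ty t).a * pvlmH m)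
    (ha : (𝔓.ty t).a + 6 * 𝔓.num.rho / 10 ≤ 2 * (𝔓.ty t).b2 + (𝔓.ty t).k * 𝔓.num.rho1)
    (front : ∀ a ∈ 𝔈.eY m t, ∀ x ∈ pviwRo 𝔓 𝔈 m t, (x - (𝔓.Γ m).zu t).re < 0 → 4 * pvilMu 𝔓 m / 3 < ‖x - a‖) : PvvdReg 𝔓 𝔈 m t := by
  have hh := pvlm_H_pos m
  have hδ := pvlm_Del_pos c m
  have oK : Disjoint (𝔈.eK m t) (pviwBox 𝔓 m t) := W.res_off m hm 1 t hT _ (by simp [pviwRes])
  have oR : Disjoint (pviwRo 𝔓 𝔈 m t) (pviwBox 𝔓 m t) := W.res_off m hm 1 t hT _ (by simp [pviwRes])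
  have hR : (𝔓.ty t).a * pvlmH m + 6 * (𝔓.num.rho * pvlmH m) / 10 ≤ pviwRad 𝔓 m t := by
    unfold pviwRad pvwRad
    nlinarith
  have hρ : 0 ≤ 𝔓.num.rho * pvlmH m := by
    have h1 := abs_nonneg (pvccN (𝔓.ty t).yp - (2 * (𝔓.ty t).b2 + (𝔓.ty t).k * 𝔓.num.rho1))
    have h2 := hT.1
    have : 0 ≤ 𝔓.num.rho := by linarith
    exact mul_nonneg this hh.le
  refine ⟨hnum, oR, fun v hv => ?_, front⟩
  have h5 := pvvd_N_le v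
  rcases W.eY_sub m hm t hT hv with (h | h) | h
  · have h1 := mem_closedBall_iff_norm.1 (W.eM_half m hm t hT h)
    have h6 := pvccN_add_le ((pvlmH m : ℂ) * (𝔓.ty t).ym - v) v
    rw [sub_add_cancel, pvccN_real_mul hh.le] at h6
    have h7 := pvvd_N_le ((pvlmH m : ℂ) * (𝔓.ty t).ym - v)
    rw [norm_sub_rev] at h7
    have h8 := (abs_le.1 hT.2.1).1
    have h9 : pviwRad 𝔓 m t - 𝔓.num.rho * pvlmH m / 10 ≤ pvlmH m * pvccN (𝔓.ty t).ym := by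
      unfold pviwRad pvwRad
      nlinarith
    linarith
  · have := pvvd_not_box (Set.disjoint_left.1 oK h)
    linarith
  · have := pvvd_not_box (Set.disjoint_left.1 oR h)
    linarith

end wf

end Claimed.Agent.R289
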