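-- KEEP
import Claimed.Agent.R289.Tr.CycE
import Claimed.Agent.R289.Tr.CycD
import Claimed.Agent.R289.Tr.SoftE
import Claimed.Agent.R289.Defs.GdReg

/-!
# Row 289 (S0537), THE WALL, ROAD E, file Tr/CycEL : THE PRODUCER OF THE RECORD OF THE `Σ₁` CYCLE AT `Tr/InstL`      (helper102; prefix `pvjg_`, `pvjg`, `Pvjg`; continues `Tr/CycE`)

`PvjgCycL 𝔓 𝔈 m ε z t ω fo fe β' q qr qo qe` (`Tr/CycE` sec. 4; consumed by `Exit/Cyc1B` of 188, `Exit/Cyc1M` of 115: `Pvc1Rec`) FROM FIVE SMALL BLOCKS: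
* (GEO)  `PvjhDisj 𝔓 𝔈 m ε z t` (180, `pvjh_disj` : from `PvieEng.Wf`)
* (ANA)  **`PvjgAna 𝔓 𝔈 m ε β' q qr`** = the kit (`wf fld frc sq q1 del`), the reference block (`mO mK mG rG admr`), the link into the reference plug (`qr0 qr1 frcr sqr`; `frcr` ALMOST EVERYWHERE).      No `z t ω`.
* (WIN)  the two `PvueWin` of 141 for `pvilEoAt`, `pvilEeAt` in the experiment of the cycle, ANY windows (180: `pvjh_win_o`, `pvjh_win_e` of `Tr/CycDI`): nothing here moves when the windows of record are patched.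
* (FRC)  `ω ∈ pvrgFo 𝔓 𝔈 qo m ε z t`, `ω ∈ pvrgFe 𝔓 𝔈 qe m ε z t` = THE NAMED SETS OF 256 (`Defs/GdReg`), verbatim.
* (SQ)   `ω ∈ pvjgSqo 𝔓 𝔈 m ε z t`, `ω ∈ pvjgSqe 𝔓 𝔈 m ε z t` = finite plain second moments of the two ends IN THEIR OWN EXPERIMENTS.
sec. 1  MODEL FREE: one end.   `pvjgSq`, `pvjgFun`, record **`PvjgEnd`** (window end of 141 + usable states of its plug + forced + second moment), exits `.ok .Frc .ag .loc .sqX`.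
sec. 2  the reference block at `Tr/InstL`: `PvjgAna`, `pvjg_last_z pvjg_last_d`, window of the link into the reference plug.
sec. 3  the first door.
sec. 4  **`pvjg_cycL_of_ends`**, **`pvjg_cycL_of`**.      sec. 5  the bound `pvjgDL` is uniform in the mesh: `pvjg_DL_le`.      sec. 6  **`pvjg_rec_of`** = the shape of `Pvc1Rec` (115) / `Pvcy1Rec` (188) from eventual / a.e. forms of the five blocks.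
-/

set_option autoImplicit false
set_option linter.unusedSectionVars false

namespace Claimed.Agent.R289

open MeasureTheory Filter Topology Set Claims.C0465
open scoped ENNReal

/-! ## 1. one end, model free -/

/-- the base configurations with a finite plain second moment of the end link `e` in its OWN experiment (tile + plug region `D`, own fresh sites) -/
def pvjgSq (ε : ℝ) (e : PvkyEnd) (D : Set ℂ) : Set (Conf PvPt) :=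
  {ω | ∫⁻ p, ‖e.X (pvdyR (e.K ∪ D) e.y ω p)‖ₑ ^ 2 * e.A.indicator 1 (pvdyR (e.K ∪ D) e.y ω p) ∂pvdyNu ε ≠ ∞}

/-- **the funnel of record of an end link**: the canonical funnel of 218 with the forced modification of 141 -/
noncomputable def pvjgFun (ε : ℝ) (b : Bool) (C : Set ℂ) (yf : Conf PvPt → Set ℂ) (ω : Conf PvPt) (e : PvkyEnd) (G : Set (Conf PvPt)) (q : ℝ≥0∞) : PvkeFun ℂ :=
  pvueFrc (pvP ε) (pvkyFun b C yf ω e) G q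

theorem pvjg_eqns_cite6 : True := by
  have := @pvjgSq.eq_1; have := @pvjgFun.eq_1
  trivial

/-- at a door plug of the kit these are the sets of 141 -/
theorem pvjg_sq_door (kit : PvthKit) (ε : ℝ) (e : PvkyEnd) (z d : ℂ) : pvjgSq ε e (pvkyDoor kit z d) = pvueSq kit ε e z d := rfl

theorem pvjg_forced_door (kit : PvthKit) (ε : ℝ) (b : Bool) (e : PvkyEnd) (z d : ℂ) (q : ℝ≥0∞) :
    pvrgEnd ε e (pvkyDoor kit z d) (pvkyFl b ⁻¹' kit.G z d) q = pvueForced kit ε b e z d q := rfl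

/-- **ONE END OF A CHAIN AT THE BASE CONFIGURATION `ω`**, in the experiment `(C, yf)`: a window end of 141; `D`, `G` = region and usable states (black form) of the plug at its other end;   forced and square integrable IN ITS OWN EXPERIMENT -/
structure PvjgEnd (ε : ℝ) (b : Bool) (ω : Conf PvPt) (C : Set ℂ) (yf : Conf PvPt → Set ℂ) (e : PvkyEnd) (D Wn : Set ℂ) (G : Set (Conf PvPt)) (q : ℝ≥0∞) : Prop where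
  win : PvueWin ω C yf e D Wn
  mG : MeasurableSet G
  rG : Conf.Reads (D ×ˢ univ) fun η => η ∈ G
  dK : Disjoint D e.K
  q0 : q ≠ 0
  q1 : q ≤ 1
  frc : ω ∈ pvrgEnd ε e D (pvkyFl b ⁻¹' G) q
  sq : ω ∈ pvjgSq ε e D

namespace PvjgEnd

variable {ε : ℝ} {b : Bool} {ω : Conf PvPt} {C : Set ℂ} {yf : Conf PvPt → Set ℂ} {e : PvkyEnd} {D Wn : Set ℂ} {G : Set (Conf PvPt)} {q : ℝ≥0∞} (H : PvjgEnd ε b ω C yf e D Wn G q)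
include H

theorem ok0 : (pvkyFun b C yf ω e).Ok (D ×ˢ univ) := (H.win.rd b).ok

/-- the a.e. bound on the seeds -/
theorem hb : ∀ᵐ x ∂(pvkeLaw ℂ (pvP ε)), x.2 ∈ G → q ≤ pvueP (pvP ε) (pvkyFun b C yf ω e) x :=
  pvue_ae_of_Q ((H.win.rd b).loc ε) H.ok0.mK H.ok0.mA H.rG (prod_mono subset_union_right subset_rfl) H.frc

theorem ok : (pvjgFun ε b C yf ω e G q).Ok (D ×ˢ univ) := pvue_frc_ok (pv_isPpp ε) H.ok0 H.mG H.rG q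

theorem Frc : (pvjgFun ε b C yf ω e G q).Frc (pvP ε) G q :=
  pvue_frc_frc (pv_isPpp ε) H.ok0 H.rG (Set.disjoint_prod.2 (Or.inl H.dK)) H.q0 H.q1

theorem ag : PvkyAg ε b ω C yf e (pvjgFun ε b C yf ω e G q) := pvue_frc_ag ((H.win.rd b).ag ε) H.hb

theorem loc : PvkyAg ε b ω (e.K ∪ D) e.y e (pvjgFun ε b C yf ω e G q) := pvue_frc_ag ((H.win.rd b).loc ε) H.hb

/-- the plain second moment of the funnel of record -/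
theorem sq0 : ∫⁻ x, ‖(pvjgFun ε b C yf ω e G q).X x‖ₑ ^ 2 * (pvjgFun ε b C yf ω e G q).A.indicator 1 x ∂(pvkeLaw ℂ (pvP ε)) ≠ ∞ := by
  rw [pvue_sq_ag H.loc]
  exact H.sq

/-- **the weighted second moment** for any density `g ≤ c 1_G` of the plug -/
theorem sqX {g : Conf PvPt → ℝ≥0∞} {c : ℝ≥0∞} (hc : c ≠ ∞) (hg : ∀ η, g η ≤ c * G.indicator 1 η) :
    ∫⁻ x, ‖(pvjgFun ε b C yf ω e G q).X x‖ₑ ^ 2 * (g x.2 * (pvjgFun ε b C yf ω e G q).w (pvP ε) x) ∂(pvkeLaw ℂ (pvP ε)) ≠ ∞ := by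
  have hcq : c * q⁻¹ ≠ ∞ := ENNReal.mul_ne_top hc (ENNReal.inv_ne_top.2 H.q0)
  refine ne_top_of_le_ne_top (ENNReal.mul_ne_top H.sq0 hcq) ?_
  rw [← lintegral_mul_const' _ _ hcq]
  refine lintegral_mono fun x => ?_
  have h1 : g x.2 * (pvjgFun ε b C yf ω e G q).w (pvP ε) x ≤ (c * q⁻¹) * (pvjgFun ε b C yf ω e G q).A.indicator 1 x := by
    by_cases hx : x.2 ∈ G
    · have h2 := hg x.2
      rw [indicator_of_mem hx, Pi.one_apply, mul_one] at h2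
      rw [mul_assoc]
      exact mul_le_mul' h2 (pvtk_W_le (H.Frc.frc x hx))
    · have h2 := hg x.2
      rw [indicator_of_notMem hx, mul_zero] at h2
      rw [le_zero_iff.1 h2, zero_mul]
      exact zero_le
  calc ‖(pvjgFun ε b C yf ω e G q).X x‖ₑ ^ 2 * (g x.2 * (pvjgFun ε b C yf ω e G q).w (pvP ε) x)
      ≤ ‖(pvjgFun ε b C yf ω e G q).X x‖ₑ ^ 2 * ((c * q⁻¹) * (pvjgFun ε b C yf ω e G q).A.indicator 1 x) := mul_le_mul_right h1 _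
    _ = ‖(pvjgFun ε b C yf ω e G q).X x‖ₑ ^ 2 * (pvjgFun ε b C yf ω e G q).A.indicator 1 x * (c * q⁻¹) := by ring

end PvjgEnd

/-! ## 2. the kit and the reference block at `Tr/InstL` -/

section instl

variable {τ : Type} {c : ℝ} (𝔓 : PvxPar τ c) (𝔈 : PvieEng τ)

/-- **(ANA) THE KIT, THE REFERENCE BLOCK, THE LINK INTO THE REFERENCE PLUG** at one level and one mesh;   no candidate, no base configuration.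
Producers: `wf fld frc sq q1` = `PvcnOkQ` (258: `pvc1_kit` of 115);   `del` = `PvieEng.Wf.kit_del` + `PvxPar.Wf.del`;   `mO mK` = `PvieEng.Wf.m_rO m_rK`;   `mG rG admr` = the reference plug is a kit plug (34 / 1 166);   `frcr sqr` = FRC of the r-link (233), BES. -/
structure PvjgAna (m : ℕ) (ε : ℝ) (β' q qr : ℝ≥0∞) : Prop where
  wf : (𝔈.kit m ε).WF
  fld : (𝔈.kit m ε).Fld (𝔈.XQ m ε)
  frc : (𝔈.kit m ε).Forced (pvP ε) β' q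
  sq : ∀ σ, ∫⁻ η, ‖𝔈.XQ m ε σ η‖ₑ ^ 2 * (𝔈.kit m ε).w2 (pvP ε) 0 1 σ η ∂(pvP ε) ≠ ∞
  q1 : q ≤ 1
  del : (𝔈.kit m ε).δ = (𝔓.Γ m).δ
  mO : MeasurableSet (𝔈.rO m)
  mK : MeasurableSet (𝔈.rK m)
  mG : MeasurableSet (𝔈.rG m ε)
  rG : Conf.Reads (𝔈.rO m ×ˢ univ) fun η => η ∈ 𝔈.rG m ε
  admr : pvP ε (𝔈.rG m ε) ≠ 0
  qr0 : qr ≠ 0
  qr1 : qr ≤ 1
  /-- the link into the reference plug is forced at ALMOST EVERY pair of usable states -/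
  frcr : ∀ᵐ η ∂(pvP ε), η ∈ (𝔈.kit m ε).G (𝔓.Γ m).pin0 (𝔓.Γ m).din0 → η ∈ 𝔈.rG m ε → qr ≤ pvtiP (pvP ε) (pvieOr 𝔓 𝔈 m ε) (pvilAr 𝔓 𝔈 m ε pvilQ) η
  sqr : ∫⁻ η, ‖pvilXr 𝔓 𝔈 m ε pvilQ η‖ₑ ^ 2 * ((𝔈.kit m ε).g (pvP ε) (𝔓.Γ m).pin0 (𝔓.Γ m).din0 η * pvieGr 𝔈 m ε 0 η * pvilWr 𝔓 𝔈 m ε pvilQ η) ∂(pvP ε) ≠ ∞

variable {𝔓 𝔈}

/-- the last door of `l1 t` is the door of the reference block -/
theorem pvjg_last_z {m : ℕ} {ε : ℝ} (hδ : (𝔈.kit m ε).δ = (𝔓.Γ m).δ) (z : ℂ) (t : τ) :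
    pvthZ (𝔈.kit m ε).δ (pvieZo 𝔓 m z t) ((𝔓.Γ m).dout t) ((𝔓.Γ m).l1 t) ((𝔓.Γ m).l1 t).length = pvieZu 𝔓 m z t + (𝔓.Γ m).pin0 := by
  unfold pvthZ pvieZo pvieZu
  rw [List.take_length, hδ, (𝔓.Γ m).l1_disp]
  ring

theorem pvjg_last_d (𝔓 : PvxPar τ c) (m : ℕ) (t : τ) : pvthD ((𝔓.Γ m).dout t) ((𝔓.Γ m).l1 t) ((𝔓.Γ m).l1 t).length = (𝔓.Γ m).din0 := by
  unfold pvthD
  rw [List.take_length, (𝔓.Γ m).l1_dir]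

theorem pvjg_din0_ne (𝔓 : PvxPar τ c) (m : ℕ) (t : τ) : (𝔓.Γ m).din0 ≠ 0 := by
  rw [← pvjg_last_d 𝔓 m t]
  exact pvjh_D_ne 𝔓 m t _

/-- the window of the link into the reference plug = the two plug regions and the tile -/
theorem pvjg_Wnr_eq (𝔓 : PvxPar τ c) (𝔈 : PvieEng τ) (m : ℕ) (ε : ℝ) :
    pvilWnr 𝔓 𝔈 m ε ×ˢ (univ : Set Bool) = (pvjgRefW 𝔓 𝔈 pvilQ m ε).Or (𝔈.kit m ε) ∪ (pvjgRefW 𝔓 𝔈 pvilQ m ε).K ×ˢ univ := by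
  show (𝔈.rK m ∪ 𝔈.rO m ∪ pvieDoor 𝔈 m ε (𝔓.Γ m).pin0 (𝔓.Γ m).din0) ×ˢ (univ : Set Bool) = (pvieDoor 𝔈 m ε (𝔓.Γ m).pin0 (𝔓.Γ m).din0 ∪ 𝔈.rO m) ×ˢ univ ∪ 𝔈.rK m ×ˢ univ
  rw [← union_prod]
  congr 1
  ext w
  simp only [mem_union]
  tauto

theorem pvjg_Wnr_meas {m : ℕ} {ε : ℝ} {β' q qr : ℝ≥0∞} (H : PvjgAna 𝔓 𝔈 m ε β' q qr) (t : τ) : MeasurableSet (pvilWnr 𝔓 𝔈 m ε) :=
  (H.mK.union H.mO).union (pvjh_sim_meas _ (pvjg_din0_ne 𝔓 m t) H.wf.mO)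

/-! ## 3. small facts on the first door -/

theorem pvjg_door0_eq (𝔓 : PvxPar τ c) (𝔈 : PvieEng τ) (m : ℕ) (ε : ℝ) (z : ℂ) (t : τ) : pvjhDr 𝔓 𝔈 m ε z t 0 = pvkyDoor (𝔈.kit m ε) (pvieZo 𝔓 m z t) ((𝔓.Γ m).dout t) := by
  unfold pvjhDr
  rw [pvthx_Z_zero, pvthx_D_zero]
  rfl

theorem pvjg_dout_ne (𝔓 : PvxPar τ c) (m : ℕ) (t : τ) : (𝔓.Γ m).dout t ≠ 0 := pvth_ne_zero ((𝔓.Γ m).dout1 t)

/-! ## 4. the record of the cycle -/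

variable (𝔓 𝔈)

/-- the funnel of record of the first link in the experiment of the cycle -/
noncomputable def pvjgFo (m : ℕ) (ε : ℝ) (z : ℂ) (t : τ) (ω : Conf PvPt) (qo : ℝ≥0∞) : PvkeFun ℂ :=
  pvjgFun ε (𝔓.col t) (pvilCcyc 𝔓 𝔈 m ε z t) (fun _ => pvilYfcyc 𝔓 𝔈 m z t ω) ω (pvilEoAt 𝔓 𝔈 m ε pvilQ z t ω) ((𝔈.kit m ε).G (pvieZo 𝔓 m z t) ((𝔓.Γ m).dout t)) qo

/-- the funnel of record of the thick link in the experiment of the cycle -/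
noncomputable def pvjgFe (m : ℕ) (ε : ℝ) (z : ℂ) (t : τ) (ω : Conf PvPt) (qe : ℝ≥0∞) : PvkeFun ℂ :=
  pvjgFun ε (𝔓.col t) (pvilCcyc 𝔓 𝔈 m ε z t) (fun _ => pvilYfcyc 𝔓 𝔈 m z t ω) ω (pvilEeAt 𝔓 𝔈 m ε pvilQ z t ω) (cfMap (pvthInv (pvieZu 𝔓 m z t) 1) ⁻¹' 𝔈.rG m ε) qe

/-- **(SQ)** the first link has a finite plain second moment in its own experiment, at the base data of the configuration -/
def pvjgSqo (m : ℕ) (ε : ℝ) (z : ℂ) (t : τ) : Set (Conf PvPt) :=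
  {ω | ω ∈ pvjgSq ε (pvilEoAt 𝔓 𝔈 m ε pvilQ z t ω) (pvkyDoor (𝔈.kit m ε) (pvieZo 𝔓 m z t) ((𝔓.Γ m).dout t))}

/-- **(SQ)** the thick link has a finite plain second moment in its own experiment -/
def pvjgSqe (m : ℕ) (ε : ℝ) (z : ℂ) (t : τ) : Set (Conf PvPt) :=
  {ω | ω ∈ pvjgSq ε (pvilEeAt 𝔓 𝔈 m ε pvilQ z t ω) (pvieSh (pvieZu 𝔓 m z t) (𝔈.rO m))}

variable {𝔓 𝔈}

theorem pvjg_eqns_cite7 : True := by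
  have := @pvjgFo.eq_1; have := @pvjgFe.eq_1; have := @pvjgSqo.eq_1; have := @pvjgSqe.eq_1
  trivial

theorem pvjg_prod_disj {S T : Set ℂ} (h : Disjoint S T) : Disjoint (S ×ˢ (univ : Set Bool)) (T ×ˢ (univ : Set Bool)) := Set.disjoint_prod.2 (Or.inl h)

/-- **THE RECORD OF THE CYCLE FROM (GEO) (ANA) AND TWO ENDS** -/
theorem pvjg_cycL_of_ends {m : ℕ} {ε : ℝ} {z : ℂ} {t : τ} {ω : Conf PvPt} {β' q qr qo qe : ℝ≥0∞} {Wo We : Set ℂ} (hD : PvjhDisj 𝔓 𝔈 m ε z t) (hA : PvjgAna 𝔓 𝔈 m ε β' q qr) (h4 : (𝔓.Γ m).dout t ^ 4 = 1)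
    (Eo : PvjgEnd ε (𝔓.col t) ω (pvilCcyc 𝔓 𝔈 m ε z t) (fun _ => pvilYfcyc 𝔓 𝔈 m z t ω) (pvilEoAt 𝔓 𝔈 m ε pvilQ z t ω) (pvkyDoor (𝔈.kit m ε) (pvieZo 𝔓 m z t) ((𝔓.Γ m).dout t)) Wo
      ((𝔈.kit m ε).G (pvieZo 𝔓 m z t) ((𝔓.Γ m).dout t)) qo)
    (Ee : PvjgEnd ε (𝔓.col t) ω (pvilCcyc 𝔓 𝔈 m ε z t) (fun _ => pvilYfcyc 𝔓 𝔈 m z t ω) (pvilEeAt 𝔓 𝔈 m ε pvilQ z t ω) (pvieSh (pvieZu 𝔓 m z t) (𝔈.rO m)) We
      (cfMap (pvthInv (pvieZu 𝔓 m z t) 1) ⁻¹' 𝔈.rG m ε) qe) :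
    PvjgCycL 𝔓 𝔈 m ε z t ω (pvjgFo 𝔓 𝔈 m ε z t ω qo) (pvjgFe 𝔓 𝔈 m ε z t ω qe) β' q qr qo qe := by
  have := (pv_isPpp ε).prob
  have eZ : pvthZ (𝔈.kit m ε).δ (pvieZo 𝔓 m z t) ((𝔓.Γ m).dout t) ((𝔓.Γ m).l1 t) 0 = pvieZo 𝔓 m z t := pvthx_Z_zero _ _ _ _
  have eD : pvthD ((𝔓.Γ m).dout t) ((𝔓.Γ m).l1 t) 0 = (𝔓.Γ m).dout t := pvthx_D_zero _ _
  have mW : MeasurableSet (pvilWnr 𝔓 𝔈 m ε ×ˢ (univ : Set Bool)) := (pvjg_Wnr_meas hA t).prod MeasurableSet.univ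
  have hG0 : pvP ε (𝔈.kit m ε).G₀ ≠ 0 := fun h0 => hA.frc.β0 (le_antisymm (h0 ▸ hA.frc.adm) zero_le)
  unfold PvjgCycL
  refine
    { wf := hA.wf, fld := hA.fld, frc := hA.frc, dir := h4, sq := hA.sq, last_z := pvjg_last_z hA.del z t, last_d := pvjg_last_d 𝔓 m t, mO := hA.mO, mK := hA.mK, mG := hA.mG
      mA := pvsu_sure_measurable mW _, mX := pvsu_loc_measurable mW _, rG := hA.rG
      rA := ?_, rX := ?_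
      admr := hA.admr, q1 := hA.q1, qr0 := hA.qr0, qr1 := hA.qr1, frcr := hA.frcr, sqr := hA.sqr
      geo := ?_
      rO_O := fun i hi => pvjg_prod_disj (hD.RoDr i hi).symm
      rO_K := fun j hj => pvjg_prod_disj (hD.RoCl j hj)
      rK_O := fun i hi => pvjg_prod_disj (hD.RkDr i hi).symm
      rK_K := fun j hj => pvjg_prod_disj (hD.RkCl j hj).symm
      rO_rK := pvjg_prod_disj hD.RkRo.symm
      rO_o := pvjg_prod_disj hD.KoRo.symm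
      rO_e := pvjg_prod_disj hD.KeRo.symm
      rK_o := pvjg_prod_disj hD.KoRk.symm
      rK_e := pvjg_prod_disj hD.KeRk.symm
      ok_o := ?_
      ok_e := Ee.ok
      frc_o := ?_
      frc_e := Ee.Frc
      sq_o := ?_
      sq_e := ?_
      CO := fun j hj => prod_mono (pvjh_Dr_sub m ε z t hj) subset_rfl
      CK := fun j hj => prod_mono (pvjh_Cl_sub m ε z t hj) subset_rfl
      CrO := pvjh_Ro_sub m ε z t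
      CrK := pvjh_Rk_sub m ε z t
      ag_o := Eo.ag, ag_e := Ee.ag, loc_o := Eo.loc, loc_e := Ee.loc }
  · rw [← pvjg_Wnr_eq]
    exact pvsu_sure_reads _ _ _
  · rw [← pvjg_Wnr_eq]
    exact pvsu_loc_reads _ _ _
  · exact
      { OO := fun i hi j hj hij => pvjg_prod_disj (hD.DrDr i j hi hj hij)
        KK := fun i hi j hj hij => pvjg_prod_disj (hD.ClCl i j hi hj hij)
        OK := fun i hi j hj => pvjg_prod_disj (hD.DrCl i j hi hj)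
        oO := fun i hi => pvjg_prod_disj (hD.KoDr i hi).symm
        iO := fun i hi => pvjg_prod_disj (hD.KeDr i hi).symm
        oK := fun j hj => pvjg_prod_disj (hD.KoCl j hj).symm
        iK := fun j hj => pvjg_prod_disj (hD.KeCl j hj).symm
        oi := pvjg_prod_disj hD.KoKe
        UU := hD.MoMe.mono sdiff_subset sdiff_subset }
  · show (pvjgFo 𝔓 𝔈 m ε z t ω qo).Ok ((𝔈.kit m ε).O _ _)
    rw [eZ, eD]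
    exact Eo.ok
  · rw [eZ, eD]
    exact Eo.Frc
  · rw [eZ, eD]
    refine Eo.sqX (c := (pvP ε (𝔈.kit m ε).G₀)⁻¹) (ENNReal.inv_ne_top.2 hG0) fun η => ?_
    unfold PvthKit.g
    rw [div_eq_mul_inv, mul_comm]
  · refine Ee.sqX (c := (pvP ε (𝔈.rG m ε))⁻¹) (ENNReal.inv_ne_top.2 hA.admr) fun η => ?_
    show (cfMap (pvthInv (pvieZu 𝔓 m z t) 1) ⁻¹' 𝔈.rG m ε).indicator 1 η / pvP ε (𝔈.rG m ε) ≤ _
    rw [div_eq_mul_inv, mul_comm]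

/-- membership in the named sets, unfolded (explicit: the kernel must not compare the diagonal set with the set at fixed base data) -/
theorem pvjg_mem_Fo {m : ℕ} {ε : ℝ} {z : ℂ} {t : τ} {ω : Conf PvPt} {qo : ℝ≥0∞} (h : ω ∈ pvrgFo 𝔓 𝔈 qo m ε z t) :
    ω ∈ pvrgEnd ε (pvilEoAt 𝔓 𝔈 m ε pvilQ z t ω) (pvkyDoor (𝔈.kit m ε) (pvieZo 𝔓 m z t) ((𝔓.Γ m).dout t)) (pvkyFl (𝔓.col t) ⁻¹' (𝔈.kit m ε).G (pvieZo 𝔓 m z t) ((𝔓.Γ m).dout t)) qo := by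
  unfold pvrgFo at h
  rw [mem_ofPred_eq] at h
  unfold pvrgGk at h
  exact h

theorem pvjg_mem_Fe {m : ℕ} {ε : ℝ} {z : ℂ} {t : τ} {ω : Conf PvPt} {qe : ℝ≥0∞} (h : ω ∈ pvrgFe 𝔓 𝔈 qe m ε z t) :
    ω ∈ pvrgEnd ε (pvilEeAt 𝔓 𝔈 m ε pvilQ z t ω) (pvieSh (pvieZu 𝔓 m z t) (𝔈.rO m)) (pvkyFl (𝔓.col t) ⁻¹' (cfMap (pvthInv (pvieZu 𝔓 m z t) 1) ⁻¹' 𝔈.rG m ε)) qe := by
  unfold pvrgFe at h
  rw [mem_ofPred_eq] at h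
  unfold pvrgGr at h
  exact h

theorem pvjg_mem_Sqo {m : ℕ} {ε : ℝ} {z : ℂ} {t : τ} {ω : Conf PvPt} (h : ω ∈ pvjgSqo 𝔓 𝔈 m ε z t) :
    ω ∈ pvjgSq ε (pvilEoAt 𝔓 𝔈 m ε pvilQ z t ω) (pvkyDoor (𝔈.kit m ε) (pvieZo 𝔓 m z t) ((𝔓.Γ m).dout t)) := by
  unfold pvjgSqo at h
  rw [mem_ofPred_eq] at h
  exact h

theorem pvjg_mem_Sqe {m : ℕ} {ε : ℝ} {z : ℂ} {t : τ} {ω : Conf PvPt} (h : ω ∈ pvjgSqe 𝔓 𝔈 m ε z t) :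
    ω ∈ pvjgSq ε (pvilEeAt 𝔓 𝔈 m ε pvilQ z t ω) (pvieSh (pvieZu 𝔓 m z t) (𝔈.rO m)) := by
  unfold pvjgSqe at h
  rw [mem_ofPred_eq] at h
  exact h

/-- the first end from its window (180: `pvjh_win_o`, ANY window) and the named sets -/
theorem pvjg_end_o {m : ℕ} {ε : ℝ} {z : ℂ} {t : τ} {ω : Conf PvPt} {qo : ℝ≥0∞} {Wo : Set ℂ} (hk : (𝔈.kit m ε).WF) (hD : PvjhDisj 𝔓 𝔈 m ε z t)
    (wo : PvueWin ω (pvilCcyc 𝔓 𝔈 m ε z t) (fun _ => pvilYfcyc 𝔓 𝔈 m z t ω) (pvilEoAt 𝔓 𝔈 m ε pvilQ z t ω) (pvkyDoor (𝔈.kit m ε) (pvieZo 𝔓 m z t) ((𝔓.Γ m).dout t)) Wo)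
    (q0 : qo ≠ 0) (q1 : qo ≤ 1) (hf : ω ∈ pvrgFo 𝔓 𝔈 qo m ε z t) (hs : ω ∈ pvjgSqo 𝔓 𝔈 m ε z t) :
    PvjgEnd ε (𝔓.col t) ω (pvilCcyc 𝔓 𝔈 m ε z t) (fun _ => pvilYfcyc 𝔓 𝔈 m z t ω) (pvilEoAt 𝔓 𝔈 m ε pvilQ z t ω) (pvkyDoor (𝔈.kit m ε) (pvieZo 𝔓 m z t) ((𝔓.Γ m).dout t))
      Wo ((𝔈.kit m ε).G (pvieZo 𝔓 m z t) ((𝔓.Γ m).dout t)) qo where
  win := wo
  mG := pvth_mG hk _ _
  rG := pvth_rG hk _ _ (pvjg_dout_ne 𝔓 m t)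
  dK := by
    rw [← pvjg_door0_eq]
    exact (hD.KoDr 0 (Nat.zero_le _)).symm
  q0 := q0
  q1 := q1
  frc := pvjg_mem_Fo hf
  sq := pvjg_mem_Sqo hs

/-- the thick end from its window (180: `pvjh_win_e`, ANY window) and the named sets -/
theorem pvjg_end_e {m : ℕ} {ε : ℝ} {z : ℂ} {t : τ} {ω : Conf PvPt} {qe : ℝ≥0∞} {We : Set ℂ} (mG : MeasurableSet (𝔈.rG m ε)) (rG : Conf.Reads (𝔈.rO m ×ˢ univ) fun η => η ∈ 𝔈.rG m ε)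
    (hD : PvjhDisj 𝔓 𝔈 m ε z t)
    (we : PvueWin ω (pvilCcyc 𝔓 𝔈 m ε z t) (fun _ => pvilYfcyc 𝔓 𝔈 m z t ω) (pvilEeAt 𝔓 𝔈 m ε pvilQ z t ω) (pvieSh (pvieZu 𝔓 m z t) (𝔈.rO m)) We)
    (q0 : qe ≠ 0) (q1 : qe ≤ 1) (hf : ω ∈ pvrgFe 𝔓 𝔈 qe m ε z t) (hs : ω ∈ pvjgSqe 𝔓 𝔈 m ε z t) :
    PvjgEnd ε (𝔓.col t) ω (pvilCcyc 𝔓 𝔈 m ε z t) (fun _ => pvilYfcyc 𝔓 𝔈 m z t ω) (pvilEeAt 𝔓 𝔈 m ε pvilQ z t ω) (pvieSh (pvieZu 𝔓 m z t) (𝔈.rO m))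
      We (cfMap (pvthInv (pvieZu 𝔓 m z t) 1) ⁻¹' 𝔈.rG m ε) qe where
  win := we
  mG := measurable_cfMap (pvth_measurable_inv _ 1) mG
  rG := by
    rw [← pvjg_img]
    exact pvci_T_reads (pvciAff 1 (pvieZu 𝔓 m z t) one_ne_zero).toEquiv rG
  dK := hD.KeRo.symm
  q0 := q0
  q1 := q1
  frc := pvjg_mem_Fe hf
  sq := pvjg_mem_Sqe hs

/-- **THE RECORD OF THE CYCLE AT `Tr/InstL` FROM THE FIVE BLOCKS** (GEO) (ANA) (WIN) (FRC) (SQ) -/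
theorem pvjg_cycL_of {m : ℕ} {ε : ℝ} {z : ℂ} {t : τ} {ω : Conf PvPt} {β' q qr qo qe : ℝ≥0∞} {Wo We : Set ℂ} (hD : PvjhDisj 𝔓 𝔈 m ε z t) (hA : PvjgAna 𝔓 𝔈 m ε β' q qr) (h4 : (𝔓.Γ m).dout t ^ 4 = 1)
    (wo : PvueWin ω (pvilCcyc 𝔓 𝔈 m ε z t) (fun _ => pvilYfcyc 𝔓 𝔈 m z t ω) (pvilEoAt 𝔓 𝔈 m ε pvilQ z t ω) (pvkyDoor (𝔈.kit m ε) (pvieZo 𝔓 m z t) ((𝔓.Γ m).dout t)) Wo)
    (we : PvueWin ω (pvilCcyc 𝔓 𝔈 m ε z t) (fun _ => pvilYfcyc 𝔓 𝔈 m z t ω) (pvilEeAt 𝔓 𝔈 m ε pvilQ z t ω) (pvieSh (pvieZu 𝔓 m z t) (𝔈.rO m)) We)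
    (qo0 : qo ≠ 0) (qo1 : qo ≤ 1) (qe0 : qe ≠ 0) (qe1 : qe ≤ 1) (fo : ω ∈ pvrgFo 𝔓 𝔈 qo m ε z t) (fe : ω ∈ pvrgFe 𝔓 𝔈 qe m ε z t)
    (so : ω ∈ pvjgSqo 𝔓 𝔈 m ε z t) (se : ω ∈ pvjgSqe 𝔓 𝔈 m ε z t) :
    PvjgCycL 𝔓 𝔈 m ε z t ω (pvjgFo 𝔓 𝔈 m ε z t ω qo) (pvjgFe 𝔓 𝔈 m ε z t ω qe) β' q qr qo qe :=
  pvjg_cycL_of_ends hD hA h4 (pvjg_end_o hA.wf hD wo qo0 qo1 fo so) (pvjg_end_e hA.mG hA.rG hD we qe0 qe1 fe se)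

/-! ## 5. the bound of the weight is uniform in the mesh -/

/-- the bound of `pvjgDL` from the admission constants `β'` (door plugs), `βr` (reference plug): no mesh -/
noncomputable def pvjgDU (n : ℕ) (β' βr q qr qo qe : ℝ≥0∞) : ℝ≥0∞ := (((β')⁻¹) ^ (n + 1) * βr⁻¹) * (((q⁻¹) ^ n * qr⁻¹) * (qe⁻¹ * qo⁻¹))

theorem pvjg_eqns_cite8 : True := by
  have := @pvjgDU.eq_1
  trivial

theorem pvjg_DU_ne_top (n : ℕ) {β' βr q qr qo qe : ℝ≥0∞} (h1 : β' ≠ 0) (h2 : βr ≠ 0) (h3 : q ≠ 0) (h4 : qr ≠ 0) (h5 : qo ≠ 0) (h6 : qe ≠ 0) : pvjgDU n β' βr q qr qo qe ≠ ∞ := by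
  unfold pvjgDU
  exact ENNReal.mul_ne_top (ENNReal.mul_ne_top (ENNReal.pow_ne_top (ENNReal.inv_ne_top.2 h1)) (ENNReal.inv_ne_top.2 h2))
    (ENNReal.mul_ne_top (ENNReal.mul_ne_top (ENNReal.pow_ne_top (ENNReal.inv_ne_top.2 h3)) (ENNReal.inv_ne_top.2 h4)) (ENNReal.mul_ne_top (ENNReal.inv_ne_top.2 h6) (ENNReal.inv_ne_top.2 h5)))

theorem pvjg_DL_le {m : ℕ} {ε : ℝ} {β' βr q : ℝ≥0∞} (hF : (𝔈.kit m ε).Forced (pvP ε) β' q) (hr : βr ≤ pvP ε (𝔈.rG m ε)) (t : τ) (qr qo qe : ℝ≥0∞) :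
    pvjgDL 𝔓 𝔈 m ε t q qr qo qe ≤ pvjgDU ((𝔓.Γ m).l1 t).length β' βr q qr qo qe := by
  unfold pvjgDL pvjgDC pvjgDU
  exact mul_le_mul' (mul_le_mul' (pow_le_pow_left₀ zero_le (ENNReal.inv_le_inv.2 hF.adm) _) (ENNReal.inv_le_inv.2 hr)) le_rfl

/-! ## 6. the shape of `Pvc1Rec` (115, `Exit/Cyc1M`), `Pvcy1Rec` (188, `Exit/Cyc1B`) -/

variable (𝔓 𝔈)

/-- **WHAT THE BASE CONFIGURATION OWES** (blocks (WIN) (FRC) (SQ)): to be asked on `conf (U ∩ Gd)`, almost everywhere -/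
structure PvjgBase (m : ℕ) (ε : ℝ) (z : ℂ) (t : τ) (qo qe : ℝ≥0∞) (ω : Conf PvPt) : Prop where
  wo : ∃ Wo, PvueWin ω (pvilCcyc 𝔓 𝔈 m ε z t) (fun _ => pvilYfcyc 𝔓 𝔈 m z t ω) (pvilEoAt 𝔓 𝔈 m ε pvilQ z t ω) (pvkyDoor (𝔈.kit m ε) (pvieZo 𝔓 m z t) ((𝔓.Γ m).dout t)) Wo
  we : ∃ We, PvueWin ω (pvilCcyc 𝔓 𝔈 m ε z t) (fun _ => pvilYfcyc 𝔓 𝔈 m z t ω) (pvilEeAt 𝔓 𝔈 m ε pvilQ z t ω) (pvieSh (pvieZu 𝔓 m z t) (𝔈.rO m)) We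
  fo : ω ∈ pvrgFo 𝔓 𝔈 qo m ε z t
  fe : ω ∈ pvrgFe 𝔓 𝔈 qe m ε z t
  so : ω ∈ pvjgSqo 𝔓 𝔈 m ε z t
  se : ω ∈ pvjgSqe 𝔓 𝔈 m ε z t

/-- **WHAT ONE MESH OWES** (blocks (GEO) (ANA), admission of the reference plug) -/
structure PvjgMesh (m : ℕ) (ε : ℝ) (z : ℂ) (t : τ) (β' βr q qr : ℝ≥0∞) : Prop where
  geo : PvjhDisj 𝔓 𝔈 m ε z t
  ana : PvjgAna 𝔓 𝔈 m ε β' q qr
  adm : βr ≤ pvP ε (𝔈.rG m ε)

variable {𝔓 𝔈}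

/-- the record at one base -/
theorem PvjgMesh.cycL {m : ℕ} {ε : ℝ} {z : ℂ} {t : τ} {β' βr q qr qo qe : ℝ≥0∞} {ω : Conf PvPt} (H : PvjgMesh 𝔓 𝔈 m ε z t β' βr q qr) (h4 : (𝔓.Γ m).dout t ^ 4 = 1)
    (qo0 : qo ≠ 0) (qo1 : qo ≤ 1) (qe0 : qe ≠ 0) (qe1 : qe ≤ 1) (hω : PvjgBase 𝔓 𝔈 m ε z t qo qe ω) :
    PvjgCycL 𝔓 𝔈 m ε z t ω (pvjgFo 𝔓 𝔈 m ε z t ω qo) (pvjgFe 𝔓 𝔈 m ε z t ω qe) β' q qr qo qe := by
  obtain ⟨Wo, wo⟩ := hω.wo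
  obtain ⟨We, we⟩ := hω.we
  exact pvjg_cycL_of H.geo H.ana h4 wo we qo0 qo1 qe0 qe1 hω.fo hω.fe hω.so hω.se

/-- **(REC)** = the body of `Pvc1Rec` for ANY family `B ε` of bases -/
theorem pvjg_rec_of {m : ℕ} {z : ℂ} {t : τ} {β' βr q qr qo qe : ℝ≥0∞} {B : ℝ → Set (Conf PvPt)} (h4 : (𝔓.Γ m).dout t ^ 4 = 1) (hβr : βr ≠ 0)
    (qo0 : qo ≠ 0) (qo1 : qo ≤ 1) (qe0 : qe ≠ 0) (qe1 : qe ≤ 1)
    (hM : ∀ᶠ ε in 𝓝[>] (0 : ℝ), PvjgMesh 𝔓 𝔈 m ε z t β' βr q qr)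
    (hB : ∀ᶠ ε in 𝓝[>] (0 : ℝ), ∀ᵐ ω ∂pvP ε, ω ∈ B ε → PvjgBase 𝔓 𝔈 m ε z t qo qe ω) :
    ∃ β' q qr qo qe D : ℝ≥0∞, D ≠ ∞ ∧ ∀ᶠ ε in 𝓝[>] (0 : ℝ), pvjgDL 𝔓 𝔈 m ε t q qr qo qe ≤ D ∧
      ∀ᵐ ω ∂pvP ε, ω ∈ B ε → ∃ fo fe : PvkeFun ℂ, PvjgCycL 𝔓 𝔈 m ε z t ω fo fe β' q qr qo qe := by
  by_cases hne : ∃ ε, PvjgMesh 𝔓 𝔈 m ε z t β' βr q qr
  · obtain ⟨ε₀, H₀⟩ := hne
    refine ⟨β', q, qr, qo, qe, pvjgDU ((𝔓.Γ m).l1 t).length β' βr q qr qo qe, pvjg_DU_ne_top _ H₀.ana.frc.β0 hβr H₀.ana.frc.q0 H₀.ana.qr0 qo0 qe0, ?_⟩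
    filter_upwards [hM, hB] with ε H hb
    refine ⟨pvjg_DL_le H.ana.frc H.adm t qr qo qe, ?_⟩
    filter_upwards [hb] with ω h hω
    exact ⟨_, _, H.cycL h4 qo0 qo1 qe0 qe1 (h hω)⟩
  · refine ⟨β', q, qr, qo, qe, 0, ENNReal.zero_ne_top, ?_⟩
    filter_upwards [hM] with ε H
    exact absurd ⟨ε, H⟩ hne

end instl

end Claimed.Agent.R289
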