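import Claimed.Agent.R289.Tr.LocalW
import Claimed.Agent.R289.Tr.LinkCat

/-!
# Row 289 (S0537, Cardy for Poisson-Voronoi), THE WALL, ROAD E, file Tr/LinkLoc : LOCALITY OF THE SPECIAL LINKS, MODEL FREE HALF      (owner helper74; post of 234, RULING 16 (5) + RULING 18 (3)(4); prefix `pvll_`, `Pvll`, `pvll`)

After RULING 18 (3) the events and the values of the special links (first, last, thick, thin-to-reference) are SOFT LOCALISATIONS (`pvsuSure`, `pvsuLoc` of 251) of GLOBAL strand objects: exact readers and measurability are free (141, `Tr/SoftE`).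
THE DEBT is [LOC]: the global objects are the same for two nice configurations which agree on the window, on the mesh event (`PvsuDet`, door `pvsu_det_of_nice`); the SAME transfer is (L) of MEAS (289 247: `Φ.Local K` for position marks).
THIS FILE = the transfer, on `(T, pos, s)`, along a POSITIONED LOCAL ISOMORPHISM `PvLocP` of 22 (`Tr/LocalW`).      No name of `Tr/InstE` occurs: the packaging of a link may change, the pieces do not.

* sec. 1  walks and their loop erasures: `pvll_le_exists` (a loop erasure of a walk through `Kr` HAS a twin, also of length `0`), `pvll_le_all` (clauses "for every loop erasure of the walk .." = the MASKS of `PvxAt`), `pvll_le_pos`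
* sec. 2  runs: `PvllRun` (= `PvieLk.Run` = the metric part of `SYn`), `pvll_tail` (the last steps of a run are the entrance stub read backwards), `pvll_run_src` (all the positions of a run start in `Kr`), `pvll_run_rel`, **`pvll_run`**
* sec. 3  arcs: **`pvll_arc`** (`PvlcArc` of 70 + its rim arc are carried over), `pvll_link_mass`
* sec. 4  ENDS: `PvllP Kr T pos s 𝔖` / `PvllM ..` = what a link reads of the exit half / entrance half of a plug, whatever the kind of the plug (marked pin, door, reference);  `PvllLk` = the link between two ends;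
          **`pvll_link`** : twin ends ⟹ the link is carried over with its time, its rim arc (`pvll_link_mass`: the masses of the three paths)
-/

set_option autoImplicit false

namespace Claimed.Agent.R289

open Relation Set

variable {V D V' D' : Type}

/-! ## 1. walks and their loop erasures -/

section walks

variable {T : PvMap V D} {T' : PvMap V' D'} {R : D → D' → Prop} {pos : V → ℂ} {pos' : V' → ℂ} {Kr : Set ℂ}

/-- the vertices of a loop erasure are vertices of the walk -/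
theorem pvll_le_vert {b : ℕ → V} {n : ℕ} {y : T.Pth} (h : PvwLE T b n y) {k : ℕ} (hk : k ≤ y.n) : ∃ i, i ≤ n ∧ y.v k = b i := by
  obtain ⟨j, -, -, h1, -⟩ := h
  exact ⟨j k, (h1 k hk).1, (h1 k hk).2.1⟩

/-- the loop erasure of a walk through `Kr` runs through `Kr` -/
theorem pvll_le_pos {b : ℕ → V} {n : ℕ} {y : T.Pth} (h : PvwLE T b n y) (hK : ∀ i, i ≤ n → pos (b i) ∈ Kr) : ∀ k, k ≤ y.n → pos (y.v k) ∈ Kr := by
  intro k hk
  obtain ⟨i, hi, e⟩ := pvll_le_vert h hk
  rw [e]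
  exact hK i hi

/-- **a loop erasure of a walk through `Kr` has a twin**, which is a loop erasure of the twin walk -/
theorem pvll_le_exists (L : PvLocP T T' R pos pos' Kr) {b : ℕ → V} {b' : ℕ → V'} {n : ℕ} (hb : ∀ i, i ≤ n → pvlocV T T' R (b i) (b' i)) (hK : ∀ i, i ≤ n → pos (b i) ∈ Kr)
    {y : T.Pth} (h : PvwLE T b n y) : ∃ y' : T'.Pth, PvLocPth R y y' ∧ PvwLE T' b' n y' := by
  have hy := pvll_le_pos h hK
  rcases Nat.eq_zero_or_pos y.n with h0 | h0
  · obtain ⟨d, d', hd, -, -⟩ := hb 0 (Nat.zero_le _)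
    have e0 : y.v 0 = b 0 := h.choose_spec.1
    have P : PvLocPth R y (⟨0, fun _ => b' 0, fun _ => d', fun i hi => absurd hi (Nat.not_lt_zero _), fun i hi => absurd hi (Nat.not_lt_zero _), fun i j hi hj _ => by omega⟩ : T'.Pth) := by
      refine ⟨h0.symm, fun k hk => by omega, fun k hk => ?_⟩
      have hk0 : k = 0 := by omega
      subst hk0
      rw [e0]
      exact hb 0 (Nat.zero_le _)
    exact ⟨_, P, pvlw_le L.loc hb P h⟩
  · obtain ⟨y', P⟩ := pvloc_pth_exists L.loc y h0 fun k hk => pvlw_dart_src L (by rw [y.src_e k hk]; exact hy k hk.le)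
    exact ⟨y', P, pvlw_le L.loc hb P h⟩

/-- **a clause on ALL the loop erasures of a walk** (the masks of a state) is carried over -/
theorem pvll_le_all (L : PvLocP T T' R pos pos' Kr) {b : ℕ → V} {b' : ℕ → V'} {n : ℕ} (hb : ∀ i, i ≤ n → pvlocV T T' R (b i) (b' i)) (hK : ∀ i, i ≤ n → pos (b i) ∈ Kr) {M : Set ℂ}
    (h : ∀ y : T.Pth, PvwLE T b n y → ∀ v ∈ y.verts, pos v ∈ M) : ∀ y' : T'.Pth, PvwLE T' b' n y' → ∀ v' ∈ y'.verts, pos' v' ∈ M := by
  rintro y' hy' _ ⟨k, hk, rfl⟩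
  have hK' : ∀ i, i ≤ n → pos' (b' i) ∈ Kr := fun i hi => by rw [← pvlw_pos L (hb i hi)]; exact hK i hi
  obtain ⟨y, P, hy⟩ := pvll_le_exists L.symm (fun i hi => pvloc_v_symm (hb i hi)) hK' hy'
  have h1 := pvlw_pos L.symm (P.v_rel k hk)
  rw [h1]
  exact h y hy _ ⟨k, by rw [P.n_eq]; exact hk, rfl⟩

end walks

/-! ## 2. runs -/

/-- **RUN**: the strand from the position `a` reaches the position `b` after `n` steps, FOR THE FIRST TIME; between the first `np` and the last `nm` steps both ends of its positions lie over `Yin`      (`= PvieLk.Run` of 161) -/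
def PvllRun (T : PvMap V D) (pos : V → ℂ) (s : V → Bool) (Yin : Set ℂ) (a b : D) (np nm n : ℕ) : Prop :=
  np + nm ≤ n ∧ pvasIt T s a n = b ∧ (∀ i, i < n → pvasIt T s a i ≠ b) ∧
    ∀ i, np < i → i + nm < n → pos (T.src (pvasIt T s a i)) ∈ Yin ∧ pos (T.tgt (pvasIt T s a i)) ∈ Yin

theorem pvll_eqns_cite : True := by
  have := @PvllRun.eq_1
  trivial

section runs

variable {T : PvMap V D} {T' : PvMap V' D'} {R : D → D' → Prop} {pos : V → ℂ} {pos' : V' → ℂ} {Kr Yin : Set ℂ} {s : V → Bool} {s' : V' → Bool}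

/-- the last steps of a strand, read backwards -/
theorem pvll_tail {a b : D} {n : ℕ} (ha : pvasBW T s a) (hn : pvasIt T s a n = b) : ∀ j, j ≤ n → pvasIt T s a (n - j) = (pvasBack T s)^[j] b := by
  intro j
  induction j with
  | zero => intro _; exact hn
  | succ j ih =>
    intro hj
    rw [Function.iterate_succ_apply', ← ih (by omega)]
    have e : n - j = (n - (j + 1)) + 1 := by omega
    rw [e, pvas_it_back ha]

/-- **all the positions of a run start in `Kr`**: the first `np` ones (exit stub), the last `nm` ones (entrance stub), the new ones (over `Yin`) -/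
theorem pvll_run_src {a b : D} {np nm n : ℕ} (ha : pvasBW T s a) (h : PvllRun T pos s Yin a b np nm n) (hY : Yin ⊆ Kr)
    (hP : ∀ i, i ≤ np → pos (T.src (pvasIt T s a i)) ∈ Kr) (hM : ∀ j, j ≤ nm → pos (T.src ((pvasBack T s)^[j] b)) ∈ Kr) : ∀ i, i ≤ n → pos (T.src (pvasIt T s a i)) ∈ Kr := by
  intro i hi
  obtain ⟨h1, h2, -, h4⟩ := h
  by_cases c1 : i ≤ np
  · exact hP i c1
  by_cases c2 : i + nm < n
  · exact hY (h4 i (by omega) c2).1
  · have e : i = n - (n - i) := by omega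
    rw [e, pvll_tail ha h2 (n - i) (by omega)]
    exact hM _ (by omega)

/-- the positions of a strand which start in `Kr` are shared -/
theorem pvll_run_rel (L : PvLocP T T' R pos pos' Kr) (hs : ∀ d d', R d d' → s (T.src d) = s' (T'.src d')) {a : D} {a' : D'} (ra : R a a') {n : ℕ}
    (hK : ∀ i, i ≤ n → pos (T.src (pvasIt T s a i)) ∈ Kr) : ∀ i, i ≤ n → R (pvasIt T s a i) (pvasIt T' s' a' i) :=
  pvloc_it L.loc hs ra fun j hj => pvlw_dart_src L (hK j hj)

/-- **RUNS are carried over** -/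
theorem pvll_run (L : PvLocP T T' R pos pos' Kr) (hs : ∀ d d', R d d' → s (T.src d) = s' (T'.src d')) {a b : D} {a' b' : D'} (ra : R a a') (rb : R b b') {np nm n : ℕ}
    (hK : ∀ i, i ≤ n → pos (T.src (pvasIt T s a i)) ∈ Kr) (h : PvllRun T pos s Yin a b np nm n) : PvllRun T' pos' s' Yin a' b' np nm n := by
  have hr := pvll_run_rel L hs ra hK
  obtain ⟨h1, h2, h3, h4⟩ := h
  refine ⟨h1, ?_, fun i hi e => ?_, fun i hi hin => ?_⟩
  · exact L.loc.iso.fn (hr n le_rfl) (h2 ▸ rb)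
  · exact h3 i hi (L.loc.iso.inj (hr i hi.le) (e ▸ rb))
  · have r := hr i (by omega)
    have e2 : pos (T.tgt (pvasIt T s a i)) = pos' (T'.tgt (pvasIt T' s' a' i)) := L.pos_eq _ _ (L.loc.iso.nxt r)
    rw [← L.pos_eq _ _ r, ← e2]
    exact h4 i hi hin

end runs

/-! ## 3. arcs -/

section arcs

variable {T : PvMap V D} {T' : PvMap V' D'} {R : D → D' → Prop} {pos : V → ℂ} {pos' : V' → ℂ} {Kr : Set ℂ} {s : V → Bool} {s' : V' → Bool}

/-- **ARCS (70) are carried over, with a twin rim arc** -/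
theorem pvll_arc (L : PvLocP T T' R pos pos' Kr) (hs : ∀ d d', R d d' → s (T.src d) = s' (T'.src d')) {a b : D} {a' b' : D'} (ra : R a a') (rb : R b b') {n : ℕ} {y : T.Pth}
    (hK : ∀ i, i ≤ n → pos (T.src (pvasIt T s a i)) ∈ Kr) (h : PvlcArc T s a b n y) : ∃ y' : T'.Pth, PvLocPth R y y' ∧ PvlcArc T' s' a' b' n y' := by
  have hr := pvll_run_rel L hs ra hK
  obtain ⟨y', P, hy'⟩ := pvll_le_exists L (b := fun i => T.src (pvasIt T s a i)) (b' := fun i => T'.src (pvasIt T' s' a' i)) (fun i hi => pvloc_v_src (hr i hi)) hK h.le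
  refine ⟨y', P, (pvloc_bw L.loc hs ra).1 h.bw, ?_, fun i hi e => ?_, hy'⟩
  · exact L.loc.iso.fn (hr n le_rfl) (h.hit ▸ rb)
  · exact h.first i hi (L.loc.iso.inj (hr i hi.le) (e ▸ rb))

end arcs

/-! ## 4. ends, links -/

/-- **what a link reads of the EXIT half of a plug** (any kind of plug): the exit gate edge is a position, the exit stub and the inner arc run through `Kr` -/
structure PvllP (Kr : Set ℂ) (T : PvMap V D) (pos : V → ℂ) (s : V → Bool) (𝔖 : PvwSt T) : Prop where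
  bw : pvasBW T s 𝔖.dp
  stub : ∀ i, i ≤ 𝔖.np → pos (T.src (pvasIt T s 𝔖.dp i)) ∈ Kr
  inn : ∀ k, k ≤ 𝔖.inn.n → pos (𝔖.inn.v k) ∈ Kr

/-- **what a link reads of the ENTRANCE half of a plug** -/
structure PvllM (Kr : Set ℂ) (T : PvMap V D) (pos : V → ℂ) (s : V → Bool) (𝔖 : PvwSt T) : Prop where
  stub : ∀ j, j ≤ 𝔖.nm → pos (T.src ((pvasBack T s)^[j] 𝔖.dm)) ∈ Kr
  inn : ∀ k, k ≤ 𝔖.inn.n → pos (𝔖.inn.v k) ∈ Kr

/-- **THE LINK** from the exit of `𝔖` to the entrance of `𝔖'`: time `n`, rim arc `y`      (`= PvieLk.Arc.run` of 161 with its witnesses) -/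
structure PvllLk (T : PvMap V D) (pos : V → ℂ) (s : V → Bool) (Yin : Set ℂ) (𝔖 𝔖' : PvwSt T) (n : ℕ) (y : T.Pth) : Prop where
  run : PvllRun T pos s Yin 𝔖.dp 𝔖'.dm 𝔖.np 𝔖'.nm n
  le : PvwLE T (fun i => T.src (pvasIt T s 𝔖.dp i)) n y

section links

variable {T : PvMap V D} {T' : PvMap V' D'} {R : D → D' → Prop} {pos : V → ℂ} {pos' : V' → ℂ} {Kr Yin : Set ℂ} {s : V → Bool} {s' : V' → Bool}

/-- the positions of a link start in `Kr` -/
theorem PvllLk.src {𝔖 𝔖' : PvwSt T} {n : ℕ} {y : T.Pth} (h : PvllLk T pos s Yin 𝔖 𝔖' n y) (hY : Yin ⊆ Kr) (hp : PvllP Kr T pos s 𝔖) (hm : PvllM Kr T pos s 𝔖') :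
    ∀ i, i ≤ n → pos (T.src (pvasIt T s 𝔖.dp i)) ∈ Kr := pvll_run_src hp.bw h.run hY hp.stub hm.stub

/-- the rim arc of a link runs through `Kr` -/
theorem PvllLk.arc_pos {𝔖 𝔖' : PvwSt T} {n : ℕ} {y : T.Pth} (h : PvllLk T pos s Yin 𝔖 𝔖' n y) (hY : Yin ⊆ Kr) (hp : PvllP Kr T pos s 𝔖) (hm : PvllM Kr T pos s 𝔖') :
    ∀ k, k ≤ y.n → pos (y.v k) ∈ Kr := pvll_le_pos h.le (h.src hY hp hm)

/-- a link is an arc of 70 -/
theorem PvllLk.arc {𝔖 𝔖' : PvwSt T} {n : ℕ} {y : T.Pth} (h : PvllLk T pos s Yin 𝔖 𝔖' n y) (hb : pvasBW T s 𝔖.dp) : PvlcArc T s 𝔖.dp 𝔖'.dm n y :=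
  ⟨hb, h.run.2.1, h.run.2.2.1, h.le⟩

/-- **THE LINK IS CARRIED OVER** to any pair of twin ends: same time, twin rim arc -/
theorem pvll_link (L : PvLocP T T' R pos pos' Kr) (hs : ∀ d d', R d d' → s (T.src d) = s' (T'.src d')) (hY : Yin ⊆ Kr) {𝔖 𝔖' : PvwSt T} {𝔖₁ 𝔖₁' : PvwSt T'}
    (G : PvLocSP R 𝔖 𝔖₁) (G' : PvLocSM R 𝔖' 𝔖₁') (hp : PvllP Kr T pos s 𝔖) (hm : PvllM Kr T pos s 𝔖') {n : ℕ} {y : T.Pth} (h : PvllLk T pos s Yin 𝔖 𝔖' n y) :
    ∃ y₁ : T'.Pth, PvLocPth R y y₁ ∧ PvllLk T' pos' s' Yin 𝔖₁ 𝔖₁' n y₁ := by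
  have hK := h.src hY hp hm
  have hr := pvll_run_rel L hs G.gt.dp hK
  obtain ⟨y₁, P, hy₁⟩ := pvll_le_exists L (b := fun i => T.src (pvasIt T s 𝔖.dp i)) (b' := fun i => T'.src (pvasIt T' s' 𝔖₁.dp i)) (fun i hi => pvloc_v_src (hr i hi)) hK h.le
  refine ⟨y₁, P, ?_, hy₁⟩
  rw [G.np, G'.nm]
  exact pvll_run L hs G.gt.dp G'.gt.dm hK h.run

/-- the masses of the three paths of a link are carried over -/
theorem pvll_link_mass (L : PvLocP T T' R pos pos' Kr) {w : D → ℂ} {w' : D' → ℂ} (hw : ∀ d d', R d d' → w d = w' d') (hY : Yin ⊆ Kr) {𝔖 𝔖' : PvwSt T} {𝔖₁ 𝔖₁' : PvwSt T'}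
    (G : PvLocGt R 𝔖 𝔖₁) (G' : PvLocGt R 𝔖' 𝔖₁') (hp : PvllP Kr T pos s 𝔖) (hm : PvllM Kr T pos s 𝔖') {n : ℕ} {y : T.Pth} (h : PvllLk T pos s Yin 𝔖 𝔖' n y) {y₁ : T'.Pth} (P : PvLocPth R y y₁) (K : Set ℂ) :
    (∀ i j, j ≤ 𝔖.inn.n → pvwMass T pos w K 𝔖.inn i j = pvwMass T' pos' w' K 𝔖₁.inn i j) ∧ (∀ i j, j ≤ y.n → pvwMass T pos w K y i j = pvwMass T' pos' w' K y₁ i j) ∧
      ∀ i j, j ≤ 𝔖'.inn.n → pvwMass T pos w K 𝔖'.inn i j = pvwMass T' pos' w' K 𝔖₁'.inn i j :=
  ⟨fun _ _ hj => pvlw_mass L hw G.inn hp.inn K hj, fun _ _ hj => pvlw_mass L hw P (h.arc_pos hY hp hm) K hj, fun _ _ hj => pvlw_mass L hw G'.inn hm.inn K hj⟩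

/-- the field of record `y_a = qpart - a side` is carried over -/
theorem pvll_fld (L : PvLocP T T' R pos pos' Kr) (a : ℂ) : ∀ d d', R d d' → T.qpart pos d - a * T.side pos d = T'.qpart pos' d' - a * T'.side pos' d' := fun d d' h => by
  rw [pvlw_qpart L h, pvlw_side L h]

/-- a positioned local isomorphism seen in another frame -/
theorem pvll_locP_map (L : PvLocP T T' R pos pos' Kr) {g : ℂ → ℂ} (hg : Function.Injective g) : PvLocP T T' R (fun v => g (pos v)) (fun v => g (pos' v)) (g '' Kr) where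
  loc := L.loc
  pos_eq := fun d d' h => congrArg g (L.pos_eq d d' h)
  full := by
    rintro v ⟨w, hw, e⟩
    exact L.full v (hg e ▸ hw)
  full' := by
    rintro v ⟨w, hw, e⟩
    exact L.full' v (hg e ▸ hw)

theorem pvll_locP_mono (L : PvLocP T T' R pos pos' Kr) {Kr' : Set ℂ} (h : Kr' ⊆ Kr) : PvLocP T T' R pos pos' Kr' :=
  ⟨L.loc, L.pos_eq, fun v hv => L.full v (h hv), fun v hv => L.full' v (h hv)⟩

end links

end Claimed.Agent.R289
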