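import Claimed.Agent.R289.Tr.InstL
import Claimed.Agent.R289.Tr.SoftE
import Claimed.Agent.R289.Tr.LinkLoc
import Claimed.Agent.R289.Tr.HookE
import Claimed.Agent.R289.Ppp.Counts

/-!
# Row 289 (S0537), THE WALL, ROAD E, file Tr/SqFin : THE SECOND MOMENTS OF THE SPECIAL LINKS ARE FINITE + NULL AVOIDANCE IN THE EXPERIMENTS      (helper193, post of 24; prefix `pvsv_`, `pvsv`, `Pvsv`)

WHAT IS OWED: fields `sq_o sq_i` of `PvkeChain`, `so si` of `pvue_chain(_own)` (141: `ω ∈ pvueSq kit ε e z d`), field `sq` of `PvkyiGd` (218), the integrability of the link into the reference plug.      0 sorry.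
FORMAL OBSTACLE: `e.X = pvilLoc ..` is built on `AEMeasurable.mk`: at a FIXED base configuration nothing can be said (the law of the experiment is singular to `pvP ε`).   So the statements are: FOR ALMOST EVERY GEOMETRY, FOR ALL THE COLOURS
OF THE BASE, for all the base data `(Z, F)`: colour blind, they can enter a guard `Rg Y` of the kit of N1 (159) or `Gd`.
* sec. 1  (any `PvMap`) `PvsvFc T pos B d` = the three vertices of the face of `d` lie over `B`;   `pvsv_le_fc`: the right triangle of an edge of the loop erasure of the black bank is a face crossed by the strand;   `pvsv_mass_le`, `pvsv_len_le`, `pvsv_side_le`, `pvsv_qpart_le`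
* sec. 2  `pvsvB N L` = ball of `p` ∪ `Yin` ∪ ball of `p'`;   ends: `PvsvP`, `PvsvM` (marked ends `pvsv_out pvsv_in`, door ends `pvsv_door`);   **`pvsv_val_le`, `pvsv_X_le`** : `‖L.X N b w η‖ ≤ 4 #(sites over pvsvB) Δ`, DETERMINISTIC
* sec. 3  `pvsvF D` (flip of the colours over a Borel set), `pvsv_fl_map` (law invariant), `pvsv_sep`;   **`pvsv_ae_col`** : an a.s. property read in a bounded window holds a.s. FOR ALL THE COLOURINGS of the sites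
* sec. 4  **`pvsv_base`** : `H ≥ 0` measurable, read in a bounded window, integrable ⟹ a.e. `ω`, ALL `σ`, ALL `y` : `∫⁻ p, H (pvdyR C (fun _ => y) (cfOf (cfSites ω) σ) p) ≠ ∞`;   `pvsv_hull`;
          **`pvsv_null_exp`, `pvsv_ae_exp` = NULL AVOIDANCE** : an a.s. property read in a bounded window holds for a.e. seed of EVERY experiment, at a.e. geometry, all the colours of the base, all `y`
* sec. 5  `pvsvH` (measurable majorant of `‖Loc F‖²`), `pvsv_loc_le` (Jensen), `pvsv_mk_le`, **`pvsv_loc_base`**, `pvsv_loc_sq`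
* sec. 6  `pvsvN`, `PvsvW N L w` (`pvsv_W_Q`, `pvsv_W_V`), **`pvsv_link_dom`** (the plain value is dominated by a square integrable count), **`pvsv_link_base`, `pvsv_link_sq`, `pvsv_link_fam`** (ANY window, ANY event `M`, ANY success `A`: robust to patches of the windows)
* sec. 7  sets: `pvsv_sim_meas/_bdd`, `pvsv_sh_meas/_bdd`, `pvsv_fat_meas/_bdd`
* sec. 9  THE SAME FROM BOUNDED + BOREL REGIONS ALONE: `pvsv_Wz_meas _bdd` (every `Z`), `pvsv_Wno/Wni/Wne/Wnr_meas _bdd`, **`pvsv_rg_o pvsv_rg_i pvsv_rg_e pvsv_rg_r pvsv_rg_r_base`** (`w = pvilQ ∨ w = pvilV`)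
* sec. 8  THE ENDS OF RECORD (InstL v2.2.1): **`pvsv_sq_o pvsv_sq_i`** (`∈ pvueSq`, all `σ Z F`), `pvsv_sq_e` (thick, any `C`), `pvsv_sq_r` (reference link), `pvsv_sq_oAt pvsv_sq_iAt` (base data of the base), `pvsv_ae_self` (actual colours).
          ASKED OF THE REGIONS: the rooms `oY iY eY rY` bounded, the windows Borel, bounded at finite `Z`, the experiment Borel.      [`Defs/InstWf` has no boundedness of `oK iK rK rO O₀`: ONE line each, 168 + 73.]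
-/

set_option autoImplicit false

namespace Claimed.Agent.R289

open MeasureTheory Set Filter Topology Claims.C0465
open scoped ENNReal ComplexConjugate

/-! ## 1. the right triangles of a loop erased bank -/

section abs

variable {V D : Type} {T : PvMap V D} {pos : V → ℂ} {B : Set ℂ} {s : V → Bool}

/-- the three vertices of the face of `d` lie over `B` -/
def PvsvFc (T : PvMap V D) (pos : V → ℂ) (B : Set ℂ) (d : D) : Prop := pos (T.src d) ∈ B ∧ pos (T.tgt d) ∈ B ∧ pos (T.apex d) ∈ B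

theorem pvsv_eqns_cite : True := by
  have := @PvsvFc.eq_1
  trivial

theorem pvsv_fc_nxt2 {d : D} (h : PvsvFc T pos B d) : PvsvFc T pos B (T.nxt (T.nxt d)) := by
  refine ⟨?_, ?_, ?_⟩
  · rw [T.src_nxt2]; exact h.2.2
  · rw [T.tgt_nxt2]; exact h.1
  · rw [T.apex_nxt2]; exact h.2.1

theorem PvsvFc.mono {B' : Set ℂ} {d : D} (h : PvsvFc T pos B d) (hB : B ⊆ B') : PvsvFc T pos B' d := ⟨hB h.1, hB h.2.1, hB h.2.2⟩

/-- the faces crossed by a strand all of whose positions have their two ends over `B` -/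
theorem pvsv_fc_of_ends {a : D} {n : ℕ} (h : ∀ i, i ≤ n → pos (T.src (pvasIt T s a i)) ∈ B ∧ pos (T.tgt (pvasIt T s a i)) ∈ B) {i : ℕ} (hi : i < n) :
    PvsvFc T pos B (pvasIt T s a i) := by
  refine ⟨(h i hi.le).1, (h i hi.le).2, ?_⟩
  have h1 := h (i + 1) hi
  rw [pvas_it_succ] at h1
  rcases pvas_step_ends s (pvasIt T s a i) with ⟨-, e, -⟩ | ⟨-, -, e⟩
  · rw [← e]; exact h1.1
  · rw [← e]; exact h1.2

/-- the faces of a face set whose vertices lie over `B` -/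
theorem pvsv_fc_of_set {A : Set D} (hA : T.FaceSet A) (hV : ∀ v ∈ T.VOf A, pos v ∈ B) {d : D} (hd : d ∈ A) : PvsvFc T pos B d :=
  ⟨hV _ ⟨d, hd, rfl⟩, hV _ ⟨T.nxt d, (hA d).2 hd, rfl⟩, hV _ ⟨T.nxt (T.nxt d), (hA _).2 ((hA d).2 hd), rfl⟩⟩

/-- **the right triangle of an edge of the loop erasure of the black bank is a face crossed by the strand** -/
theorem pvsv_le_fc (hS : T.Simple) {a : D} {n : ℕ} {y : T.Pth} (hy : PvwLE T (fun i => T.src (pvasIt T s a i)) n y)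
    (h : ∀ i, i < n → PvsvFc T pos B (pvasIt T s a i)) {k : ℕ} (hk : k < y.n) : PvsvFc T pos B (T.opp (y.e k)) := by
  obtain ⟨t, ht, -, e⟩ := pvt_sd_time hS hy hk
  rw [e, pvt_s_opp_rot]
  exact pvsv_fc_nxt2 (h t ht)

/-- the mass of a path whose right triangles lie over `B` -/
theorem pvsv_mass_le {w : D → ℂ} {Δ : ℝ} (hΔ : 0 ≤ Δ) (hw : ∀ d, PvsvFc T pos B d → ‖w d‖ ≤ Δ) (K : Set ℂ) {p : T.Pth}
    (hp : ∀ k, k < p.n → PvsvFc T pos B (T.opp (p.e k))) (i : ℕ) {j : ℕ} (hj : j ≤ p.n) : ‖pvwMass T pos w K p i j‖ ≤ p.n * Δ := by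
  unfold pvwMass
  refine (norm_sum_le _ _).trans ?_
  refine (Finset.sum_le_sum (g := fun _ => Δ) fun k hk => ?_).trans ?_
  · split_ifs
    · exact hw _ (hp k (lt_of_lt_of_le (Finset.mem_Ico.1 hk).2 hj))
    · rw [norm_zero]; exact hΔ
  rw [Finset.sum_const, Nat.card_Ico, nsmul_eq_mul]
  refine mul_le_mul_of_nonneg_right ?_ hΔ
  exact_mod_cast (Nat.sub_le j i).trans hj

/-- the length of a path through a finite set -/
theorem pvsv_len_le (hpos : Function.Injective pos) {S : Set ℂ} (hS : S.Finite) {p : T.Pth} (hp : ∀ k, k < p.n → pos (p.v k) ∈ S) : p.n ≤ S.ncard := by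
  classical
  rw [Set.ncard_eq_toFinset_card S hS]
  have := Finset.card_le_card_of_injOn (s := Finset.range p.n) (t := hS.toFinset) (fun k => pos (p.v k))
    (fun k hk => by
      have hk' : k < p.n := Finset.mem_range.1 (Finset.mem_coe.1 hk)
      exact Finset.mem_coe.2 (hS.mem_toFinset.2 (hp k hk')))
    (fun k hk k' hk' e => p.inj k k' (Finset.mem_range.1 (Finset.mem_coe.1 hk)).le (Finset.mem_range.1 (Finset.mem_coe.1 hk')).le (hpos e))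
  rwa [Finset.card_range] at this

theorem pvsv_fc_vert {p : T.Pth} (hp : ∀ k, k < p.n → PvsvFc T pos B (T.opp (p.e k))) {k : ℕ} (hk : k < p.n) : pos (p.v k) ∈ B := by
  have := (hp k hk).2.1
  rwa [T.tgt_opp, p.src_e k hk] at this

/-- the weight of `V` -/
theorem pvsv_side_le (hB : Bornology.IsBounded B) {d : D} (h : PvsvFc T pos B d) : ‖T.side pos d‖ ≤ Metric.diam B := by
  unfold PvMap.side
  rw [← dist_eq_norm]
  exact Metric.dist_le_diam_of_mem hB h.1 h.2.1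

theorem pvsv_om_norm : ‖pvOm‖ = 1 := by
  unfold pvOm
  have e : 2 * (Real.pi : ℂ) * Complex.I / 3 = ((2 * Real.pi / 3 : ℝ) : ℂ) * Complex.I := by push_cast; ring
  rw [e, Complex.norm_exp_ofReal_mul_I]

/-- the weight of `Q` -/
theorem pvsv_qpart_le (hB : Bornology.IsBounded B) {d : D} (h : PvsvFc T pos B d) : ‖T.qpart pos d‖ ≤ Metric.diam B := by
  have h1 := pvsv_side_le hB h
  have h3 := pvsv_side_le hB (pvsv_fc_nxt2 h)
  have h2 : ‖T.side pos (T.nxt d)‖ ≤ Metric.diam B := by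
    unfold PvMap.side
    rw [← dist_eq_norm, T.src_nxt, T.tgt_nxt]
    exact Metric.dist_le_diam_of_mem hB h.2.1 h.2.2
  unfold PvMap.qpart
  rw [norm_div]
  have e3 : ‖(3 : ℂ)‖ = 3 := by simp
  rw [e3, div_le_iff₀ (by norm_num)]
  calc ‖T.side pos d + pvOm * T.side pos (T.nxt d) + (starRingEnd ℂ) pvOm * T.side pos (T.nxt (T.nxt d))‖
      ≤ ‖T.side pos d‖ + ‖pvOm * T.side pos (T.nxt d)‖ + ‖(starRingEnd ℂ) pvOm * T.side pos (T.nxt (T.nxt d))‖ := norm_add₃_le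
    _ = ‖T.side pos d‖ + ‖T.side pos (T.nxt d)‖ + ‖T.side pos (T.nxt (T.nxt d))‖ := by
        rw [norm_mul, norm_mul, RCLike.norm_conj, pvsv_om_norm, one_mul, one_mul]
    _ ≤ Metric.diam B * 3 := by linarith

end abs

/-! ## 2. a link lives over a bounded set: the crude bound of its plain value -/

section door

variable {V D : Type} [DecidableEq V] {T : PvMap V D} {pos : V → ℂ} {s : V → Bool} {KI KO : Set ℂ}

/-- the right triangles of the inner arc of a gate between two discs lie over the outer disc -/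
theorem pvsv_gt_fc {g : T.Gate s} (h : PvzlIn T pos KI KO g.c) {k : ℕ} (hk : k < (pvtArc T s g.aIn g.len).n) :
    PvsvFc T pos KO (T.opp ((pvtArc T s g.aIn g.len).e k)) := by
  obtain ⟨t, ht, -, e⟩ := pvt_s_bank_mem.1 (pvt_sf_arc_e_mem s g.aIn g.len hk)
  have ht' : t < pvasHit T s g.aIn g.c.Leftᶜ := ht
  have hL : pvasIt T s g.aIn t ∈ g.c.Left := by
    by_contra hc
    exact pvas_hit_min ht' hc
  rw [e, pvt_s_opp_rot]
  refine pvsv_fc_nxt2 (pvsv_fc_of_set (pl_left_face g.c) (fun v hv => ?_) hL)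
  obtain ⟨d, hd, rfl⟩ := hv
  exact h.outer d hd

omit [DecidableEq V] in
theorem pvsv_gt_in {g : T.Gate s} (h : PvzlIn T pos KI KO g.c) : pos (T.src g.aIn) ∈ KO ∧ pos (T.tgt g.aIn) ∈ KO :=
  ⟨h.rim 0, by rw [pvtg_aIn_tgt]; exact h.rim 1⟩

omit [DecidableEq V] in
theorem pvsv_gt_out {g : T.Gate s} (h : PvzlIn T pos KI KO g.c) : pos (T.src g.aOut) ∈ KO ∧ pos (T.tgt g.aOut) ∈ KO :=
  ⟨by rw [pvtg_aOut_src]; exact h.rim g.m, by rw [pvtg_aOut_tgt]; exact h.rim _⟩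

end door

section conf

variable {N : PvwNum} {b : Bool} {η : Conf PvPt}

/-- a radius of the placed plug `p`: core and own-level box of a marked plug, outer disc of a kit plug -/
noncomputable def pvsvRad (N : PvwNum) (p : PvilPl) : ℝ := |p.ty.b * p.h| + 2 * |pvwRad N p.h p.ty p.ty.k| + 2 * |p.h|

/-- a ball which contains the placed plug -/
noncomputable def pvsvBl (N : PvwNum) (p : PvilPl) : Set ℂ := Metric.closedBall p.z (pvsvRad N p)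

/-- **where a link lives**: the two plugs and the room of the new strand -/
noncomputable def pvsvB (N : PvwNum) (L : PvilLk) : Set ℂ := pvsvBl N L.p ∪ L.Yin ∪ pvsvBl N L.p'

/-- what the crude bound reads of the EXIT end of a link -/
structure PvsvP (B : Set ℂ) (b : Bool) (η : Conf PvPt) (𝔖 : PvwSt (pvieT η)) : Prop where
  bw : pvasBW (pvieT η) (pvieCol η b) 𝔖.dp
  stub : ∀ i, i ≤ 𝔖.np → pviePos η ((pvieT η).src (pvasIt (pvieT η) (pvieCol η b) 𝔖.dp i)) ∈ B ∧ pviePos η ((pvieT η).tgt (pvasIt (pvieT η) (pvieCol η b) 𝔖.dp i)) ∈ B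
  inn : ∀ k, k < 𝔖.inn.n → PvsvFc (pvieT η) (pviePos η) B ((pvieT η).opp (𝔖.inn.e k))

/-- what the crude bound reads of the ENTRANCE end of a link -/
structure PvsvM (B : Set ℂ) (b : Bool) (η : Conf PvPt) (𝔖 : PvwSt (pvieT η)) : Prop where
  stub : ∀ j, j ≤ 𝔖.nm → pviePos η ((pvieT η).src ((pvasBack (pvieT η) (pvieCol η b))^[j] 𝔖.dm)) ∈ B ∧ pviePos η ((pvieT η).tgt ((pvasBack (pvieT η) (pvieCol η b))^[j] 𝔖.dm)) ∈ B
  inn : ∀ k, k < 𝔖.inn.n → PvsvFc (pvieT η) (pviePos η) B ((pvieT η).opp (𝔖.inn.e k))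

theorem pvsv_eqns_cite2 : True := by
  have := @pvsvRad.eq_1; have := @pvsvBl.eq_1; have := @pvsvB.eq_1
  trivial

theorem pvsv_B_bdd (N : PvwNum) {L : PvilLk} (h : Bornology.IsBounded L.Yin) : Bornology.IsBounded (pvsvB N L) :=
  (Metric.isBounded_closedBall.union h).union Metric.isBounded_closedBall

theorem pvsv_frame {p : PvilPl} (hfr : ‖p.fr‖ = 1) (v : ↥(pvieY η)) : ‖p.pos η v - p.zf‖ = ‖pviePos η v - p.z‖ := by
  unfold PvilPl.pos PvilPl.zf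
  rw [← mul_sub, norm_mul, RCLike.norm_conj, hfr, one_mul]

theorem pvsv_sq_le {z w : ℂ} {r : ℝ} (h : w ∈ pvwSq z r) : ‖w - z‖ ≤ 2 * |r| := by
  have h1 := Complex.norm_le_abs_re_add_abs_im (w - z)
  have h2 := le_abs_self r
  linarith [h.1, h.2]

theorem pvsv_mem_of_sq {p : PvilPl} (hfr : ‖p.fr‖ = 1) {v : ↥(pvieY η)} (h : p.pos η v ∈ pvwSq p.zf (pvwRad N p.h p.ty p.ty.k)) : pviePos η v ∈ pvsvBl N p := by
  rw [pvsvBl, Metric.mem_closedBall, dist_eq_norm, ← pvsv_frame hfr]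
  have := pvsv_sq_le h
  unfold pvsvRad
  linarith [abs_nonneg (p.ty.b * p.h), abs_nonneg p.h]

theorem pvsv_mem_of_core {p : PvilPl} (hfr : ‖p.fr‖ = 1) {v : ↥(pvieY η)} (h : ‖p.pos η v - p.zf‖ < p.ty.b * p.h) : pviePos η v ∈ pvsvBl N p := by
  rw [pvsvBl, Metric.mem_closedBall, dist_eq_norm, ← pvsv_frame hfr]
  unfold pvsvRad
  linarith [abs_nonneg (pvwRad N p.h p.ty p.ty.k), le_abs_self (p.ty.b * p.h), abs_nonneg p.h]

theorem pvsv_ball_sub (N : PvwNum) (p : PvilPl) : Metric.ball p.z (2 * p.h) ⊆ pvsvBl N p := by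
  intro w hw
  rw [Metric.mem_ball] at hw
  rw [pvsvBl, Metric.mem_closedBall]
  unfold pvsvRad
  linarith [abs_nonneg (pvwRad N p.h p.ty p.ty.k), abs_nonneg (p.ty.b * p.h), le_abs_self p.h]

/-- the right triangles of the inner arc of a gate lie over the core -/
theorem pvsv_gate {p : PvilPl} (hfr : ‖p.fr‖ = 1) {𝔖 : PvwSt (pvieT η)} {s : ↥(pvieY η) → Bool} (h : 𝔖.Gate (p.pos η) p.h p.zf p.ty s) {k : ℕ} (hk : k < 𝔖.inn.n) :
    PvsvFc (pvieT η) (pviePos η) (pvsvBl N p) ((pvieT η).opp (𝔖.inn.e k)) := by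
  obtain ⟨n, -, h2, h3⟩ := h.strand
  exact pvsv_le_fc (delbPl (pvieY η)).toMap_simple h3
    (fun i hi => pvsv_fc_of_set (pl_left_face 𝔖.S) (fun v hv => pvsv_mem_of_core hfr (h.inside v hv)) (h2 i hi)) hk

/-- a marked exit end -/
theorem pvsv_out {p : PvilPl} (hfr : ‖p.fr‖ = 1) {𝔖 : PvwSt (pvieT η)} (h : PvilOut N b p η 𝔖) : PvsvP (pvsvBl N p) b η 𝔖 where
  bw := h.st.gate.bw_p
  stub i hi := by
    have h5 := h.st.stub.ep_in i hi
    rw [h.st.stub.ep_it i hi] at h5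
    exact ⟨pvsv_mem_of_sq hfr h5.1, pvsv_mem_of_sq hfr h5.2⟩
  inn _ hk := pvsv_gate hfr h.st.gate hk

/-- a marked entrance end -/
theorem pvsv_in {p : PvilPl} (hfr : ‖p.fr‖ = 1) {𝔖 : PvwSt (pvieT η)} (h : PvilIn N b p η 𝔖) : PvsvM (pvsvBl N p) b η 𝔖 where
  stub j hj := by
    have h5 := h.st.stub.em_in j hj
    rw [h.st.stub.em_it j hj] at h5
    exact ⟨pvsv_mem_of_sq hfr h5.1, pvsv_mem_of_sq hfr h5.2⟩
  inn _ hk := pvsv_gate hfr h.st.gate hk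

/-- a door end, as an exit and as an entrance -/
theorem pvsv_door {r : ℝ} {z d : ℂ} {𝔖 : PvwSt (pvieT η)} (h : PvilDoor (pvkdP r) b η z d 𝔖) : PvsvP (Metric.ball z (2 * r)) b η 𝔖 ∧ PvsvM (Metric.ball z (2 * r)) b η 𝔖 := by
  obtain ⟨-, g, hg, rfl⟩ := h
  have hin : PvzlIn (pvieT η) (pviePos η) (Metric.ball z r) (Metric.ball z (2 * r)) g.c := hg.least.reg
  refine ⟨⟨pvtg_aOut_bw g, fun i hi => ?_, fun k hk => pvsv_gt_fc hin hk⟩, ⟨fun j hj => ?_, fun k hk => pvsv_gt_fc hin hk⟩⟩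
  · have hi0 : i = 0 := Nat.le_zero.1 hi
    subst hi0
    exact pvsv_gt_out hin
  · have hj0 : j = 0 := Nat.le_zero.1 hj
    subst hj0
    exact pvsv_gt_in hin

theorem PvsvP.mono {B B' : Set ℂ} {𝔖 : PvwSt (pvieT η)} (h : PvsvP B b η 𝔖) (hB : B ⊆ B') : PvsvP B' b η 𝔖 :=
  ⟨h.bw, fun i hi => ⟨hB (h.stub i hi).1, hB (h.stub i hi).2⟩, fun k hk => (h.inn k hk).mono hB⟩

theorem PvsvM.mono {B B' : Set ℂ} {𝔖 : PvwSt (pvieT η)} (h : PvsvM B b η 𝔖) (hB : B ⊆ B') : PvsvM B' b η 𝔖 :=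
  ⟨fun i hi => ⟨hB (h.stub i hi).1, hB (h.stub i hi).2⟩, fun k hk => (h.inn k hk).mono hB⟩

theorem pvsv_atP {L : PvilLk} (hfr : L.dr = false → ‖L.p.fr‖ = 1) {𝔖 : PvwSt (pvieT η)} (h : L.AtP N b η 𝔖) : PvsvP (pvsvBl N L.p) b η 𝔖 := by
  cases hd : L.dr
  · exact pvsv_out (hfr hd) ((PvilLk.atP_pin hd N b η 𝔖).1 h)
  · exact (pvsv_door ((PvilLk.atP_door hd N b η 𝔖).1 h)).1.mono (pvsv_ball_sub N L.p)

theorem pvsv_atP' {L : PvilLk} (hfr' : L.dr' = false → ‖L.p'.fr‖ = 1) {𝔖 : PvwSt (pvieT η)} (h : L.AtP' N b η 𝔖) : PvsvM (pvsvBl N L.p') b η 𝔖 := by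
  cases hd : L.dr'
  · exact pvsv_in (hfr' hd) ((PvilLk.atP'_pin hd N b η 𝔖).1 h)
  · exact (pvsv_door ((PvilLk.atP'_door hd N b η 𝔖).1 h)).2.mono (pvsv_ball_sub N L.p')

/-- all the positions of the strand of a link have their two ends over `pvsvB` -/
theorem pvsv_arc_ends {L : PvilLk} {𝔖 𝔖' : PvwSt (pvieT η)} (hp : PvsvP (pvsvBl N L.p) b η 𝔖) (hp' : PvsvM (pvsvBl N L.p') b η 𝔖')
    {n : ℕ} (hn : L.Run b η 𝔖 𝔖' n) : ∀ i, i ≤ n →
      pviePos η ((pvieT η).src (pvasIt (pvieT η) (pvieCol η b) 𝔖.dp i)) ∈ pvsvB N L ∧ pviePos η ((pvieT η).tgt (pvasIt (pvieT η) (pvieCol η b) 𝔖.dp i)) ∈ pvsvB N L := by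
  intro i hi
  obtain ⟨h1, h2, -, h4⟩ := hn
  by_cases c1 : i ≤ 𝔖.np
  · have h5 := hp.stub i c1
    exact ⟨Or.inl (Or.inl h5.1), Or.inl (Or.inl h5.2)⟩
  by_cases c2 : i + 𝔖'.nm < n
  · have h5 := h4 i (by omega) c2
    exact ⟨Or.inl (Or.inr h5.1), Or.inl (Or.inr h5.2)⟩
  · have e : i = n - (n - i) := by omega
    have e2 := pvll_tail hp.bw h2 (n - i) (by omega)
    rw [← e] at e2
    have h5 := hp'.stub (n - i) (by omega)
    rw [e2]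
    exact ⟨Or.inr h5.1, Or.inr h5.2⟩

/-- **THE CRUDE BOUND OF THE VALUE OF A LINK**: (number of the sites over `pvsvB`) x (bound of the weight of a triangle over `pvsvB`) -/
theorem pvsv_val_le {L : PvilLk} (hfr : L.dr = false → ‖L.p.fr‖ = 1) (hfr' : L.dr' = false → ‖L.p'.fr‖ = 1) {w : (delbPl (pvieY η)).Dart → ℂ} {Δ : ℝ} (hΔ : 0 ≤ Δ)
    (hw : ∀ d, PvsvFc (pvieT η) (pviePos η) (pvsvB N L) d → ‖w d‖ ≤ Δ) (hfin : (cfSites η ∩ pvsvB N L).Finite)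
    {𝔖 𝔖' : PvwSt (pvieT η)} {y : (pvieT η).Pth} (h : L.Arc N b η 𝔖 𝔖' y) : ‖L.val N η w 𝔖 𝔖' y‖ ≤ 4 * ((cfSites η ∩ pvsvB N L).ncard * Δ) := by
  obtain ⟨n, hn, hle⟩ := h.run
  have hp := pvsv_atP hfr h.at_p
  have hp' := pvsv_atP' hfr' h.at_p'
  have f1 : ∀ k, k < 𝔖.inn.n → PvsvFc (pvieT η) (pviePos η) (pvsvB N L) ((pvieT η).opp (𝔖.inn.e k)) := fun k hk =>
    (hp.inn k hk).mono (subset_union_left.trans subset_union_left)
  have f3 : ∀ k, k < 𝔖'.inn.n → PvsvFc (pvieT η) (pviePos η) (pvsvB N L) ((pvieT η).opp (𝔖'.inn.e k)) := fun k hk =>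
    (hp'.inn k hk).mono subset_union_right
  have f2 : ∀ k, k < y.n → PvsvFc (pvieT η) (pviePos η) (pvsvB N L) ((pvieT η).opp (y.e k)) := fun k hk =>
    pvsv_le_fc (delbPl (pvieY η)).toMap_simple hle (fun i hi => pvsv_fc_of_ends (pvsv_arc_ends hp hp' hn) hi) hk
  have len : ∀ p : (pvieT η).Pth, (∀ k, k < p.n → PvsvFc (pvieT η) (pviePos η) (pvsvB N L) ((pvieT η).opp (p.e k))) → (p.n : ℝ) * Δ ≤ (cfSites η ∩ pvsvB N L).ncard * Δ := by
    intro p hp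
    refine mul_le_mul_of_nonneg_right ?_ hΔ
    exact_mod_cast pvsv_len_le (pos := pviePos η) Subtype.val_injective hfin fun k hk => ⟨(p.v k).2, pvsv_fc_vert hp hk⟩
  have m1 : ‖(if L.dr then 0 else pvwMass (pvieT η) (pviePos η) w (L.ball N) 𝔖.inn 0 𝔖.inn.n : ℂ)‖ ≤ (cfSites η ∩ pvsvB N L).ncard * Δ := by
    split_ifs
    · rw [norm_zero]; positivity
    · exact (pvsv_mass_le hΔ hw _ f1 0 le_rfl).trans (len _ f1)
  have m2 := (pvsv_mass_le hΔ hw (L.msk N) f1 (if L.dr then 0 else 𝔖.ip) le_rfl).trans (len _ f1)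
  have m3 := (pvsv_mass_le hΔ hw (L.msk N) f2 0 le_rfl).trans (len _ f2)
  have hj : (if L.dr' then 𝔖'.inn.n else 𝔖'.ip) ≤ 𝔖'.inn.n := by
    cases hd : L.dr'
    · simpa using ((PvilLk.atP'_pin hd N b η 𝔖').1 h.at_p').st.gate.ip_le
    · simp
  have m4 := (pvsv_mass_le hΔ hw (L.msk N) f3 0 hj).trans (len _ f3)
  unfold PvilLk.val
  refine (norm_add_le _ _).trans ?_
  refine (add_le_add ((norm_add_le _ _).trans (add_le_add ((norm_add_le _ _).trans (add_le_add m1 m2)) m3)) m4).trans (le_of_eq ?_)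
  ring

/-- the same for the plain value -/
theorem pvsv_X_le {L : PvilLk} (hfr : L.dr = false → ‖L.p.fr‖ = 1) (hfr' : L.dr' = false → ‖L.p'.fr‖ = 1) (w : ∀ η : Conf PvPt, (delbPl (pvieY η)).Dart → ℂ) {Δ : ℝ} (hΔ : 0 ≤ Δ)
    (hw : ∀ d, PvsvFc (pvieT η) (pviePos η) (pvsvB N L) d → ‖w η d‖ ≤ Δ) (hfin : (cfSites η ∩ pvsvB N L).Finite) :
    ‖L.X N b w η‖ ≤ 4 * ((cfSites η ∩ pvsvB N L).ncard * Δ) := by
  unfold PvilLk.X
  split_ifs with h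
  · exact pvsv_val_le hfr hfr' hΔ hw hfin h.choose_spec.choose_spec.choose_spec
  · rw [norm_zero]; positivity

end conf

/-! ## 3. an almost sure property read in a bounded window holds for ALL the colourings of the sites -/

section col

open Classical in
/-- flip the colour of the points over `D` -/
noncomputable def pvsvF (D : Set ℂ) (p : PvPt) : PvPt := (p.1, if p.1 ∈ D then !p.2 else p.2)

theorem pvsv_eqns_cite3 : True := by
  have := @pvsvF.eq_1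
  trivial

theorem pvsv_F_meas {D : Set ℂ} (hD : MeasurableSet D) : Measurable (pvsvF D) := by
  classical
  unfold pvsvF
  exact measurable_fst.prodMk (Measurable.ite (measurable_fst hD) ((measurable_of_countable not).comp measurable_snd) measurable_snd)

theorem pvsv_F_int {D : Set ℂ} (hD : MeasurableSet D) (ε : ℝ) : (pvInt ε).map (pvsvF D) = pvInt ε := by
  unfold pvInt
  rw [Measure.map_smul]
  congr 1
  symm
  refine Measure.prod_eq fun S T hS hT => ?_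
  rw [Measure.map_apply (pvsv_F_meas hD) (hS.prod hT)]
  have e : pvsvF D ⁻¹' (S ×ˢ T) = ((S ∩ D) ×ˢ (not ⁻¹' T)) ∪ ((S \ D) ×ˢ T) := by
    ext ⟨z, c⟩
    simp only [pvsvF, mem_preimage, mem_prod, mem_union, mem_inter_iff, Set.mem_sdiff]
    by_cases hz : z ∈ D <;> simp [hz]
  have hd : Disjoint ((S ∩ D) ×ˢ (not ⁻¹' T)) ((S \ D) ×ˢ T) := by
    refine Set.disjoint_left.2 ?_
    rintro ⟨z, c⟩ ⟨h1, -⟩ ⟨h2, -⟩
    exact h2.2 h1.2
  have e2 : pvCoin (not ⁻¹' T) = pvCoin T := by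
    rw [← Measure.map_apply (measurable_of_countable _) hT, pvCoin_map_not]
  rw [e, measure_union hd ((hS.diff hD).prod hT), Measure.prod_prod, Measure.prod_prod, e2, ← add_mul, measure_inter_add_sdiff S hD]

/-- the law is invariant under the flip of the colours over a Borel set -/
theorem pvsv_fl_map {D : Set ℂ} (hD : MeasurableSet D) (ε : ℝ) : (pvP ε).map (Conf.image (pvsvF D)) = pvP ε := by
  have h1 := (pv_isPpp ε).map (pvsv_F_meas hD)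
  rw [pvsv_F_int hD] at h1
  exact IsPpp.unique h1 (pv_isPpp ε)

open Classical in
theorem pvsv_fl_cfOf (D Y : Set ℂ) (c : ℂ → Bool) : Conf.image (pvsvF D) (cfOf Y c) = cfOf Y (fun z => if z ∈ D then !c z else c z) := by
  ext p
  constructor
  · rintro ⟨q, ⟨hq1, hq2⟩, rfl⟩
    refine ⟨hq1, ?_⟩
    show (if q.1 ∈ D then !q.2 else q.2) = if q.1 ∈ D then !c q.1 else c q.1
    rw [hq2]
  · rintro ⟨h1, h2⟩
    exact ⟨(p.1, c p.1), ⟨h1, rfl⟩, Prod.ext rfl h2.symm⟩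

/-- one colour per site: the configuration is (sites, colours) -/
theorem pvsv_conf_of {η : Conf PvPt} (h : PvheSimple η) : η = cfOf (cfSites η) (cfCol η) := by
  have key : ∀ p ∈ η.pts, p.2 = cfCol η p.1 := by
    rintro ⟨z, c⟩ hp
    show c = cfCol η z
    unfold cfCol
    cases c
    · symm
      rw [@decide_eq_false_iff_not]
      intro h'
      have := h _ hp _ h' rfl
      exact Bool.noConfusion (congrArg Prod.snd this)
    · symm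
      rw [@decide_eq_true_iff]
      exact hp
  ext p
  constructor
  · intro hp
    exact ⟨⟨p, hp, rfl⟩, key p hp⟩
  · rintro ⟨⟨q, hq, e⟩, h2⟩
    have : q = p := Prod.ext e (by rw [key q hq, e, h2])
    exact this ▸ hq

/-- a countable family of Borel sets which cuts every subset out of every finite set -/
theorem pvsv_sep : ∃ 𝒟 : Set (Set ℂ), 𝒟.Countable ∧ (∀ D ∈ 𝒟, MeasurableSet D) ∧ ∀ T : Set ℂ, T.Finite → ∀ T' ⊆ T, ∃ D ∈ 𝒟, D ∩ T = T' := by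
  refine ⟨(fun S : Set (Set ℂ) => ⋃₀ S) '' {S | S.Finite ∧ S ⊆ TopologicalSpace.countableBasis ℂ}, ?_, ?_, ?_⟩
  · exact (Set.countable_ofPred_finite_subset (TopologicalSpace.countable_countableBasis ℂ)).image _
  · rintro _ ⟨S, ⟨-, hS⟩, rfl⟩
    exact (isOpen_sUnion fun t ht => TopologicalSpace.isOpen_of_mem_countableBasis (hS ht)).measurableSet
  · intro T hT T' hT'
    have key : ∀ z ∈ T', ∃ u ∈ TopologicalSpace.countableBasis ℂ, z ∈ u ∧ u ⊆ (T \ {z})ᶜ := fun z _ =>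
      (TopologicalSpace.isBasis_countableBasis ℂ).exists_subset_of_mem_open (by simp) (hT.subset sdiff_subset).isClosed.isOpen_compl
    choose! f hf using key
    refine ⟨⋃₀ (f '' T'), ⟨f '' T', ⟨(hT.subset hT').image f, ?_⟩, rfl⟩, ?_⟩
    · rintro _ ⟨z, hz, rfl⟩
      exact (hf z hz).1
    · ext x
      constructor
      · rintro ⟨⟨_, ⟨z, hz, rfl⟩, hx⟩, hxT⟩
        by_contra hne
        exact (hf z hz).2.2 hx ⟨hxT, fun h => hne ((show x = z from h) ▸ hz)⟩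
      · intro hx
        exact ⟨⟨_, ⟨x, hx, rfl⟩, (hf x hx).2.1⟩, hT' hx⟩

theorem pvsv_restr_cfOf {U Y : Set ℂ} {σ σ' : ℂ → Bool} (h : ∀ z ∈ Y ∩ U, σ z = σ' z) : Conf.restr (U ×ˢ univ) (cfOf Y σ) = Conf.restr (U ×ˢ univ) (cfOf Y σ') := by
  ext p
  constructor
  · rintro ⟨⟨h1, h2⟩, h3⟩
    exact ⟨⟨h1, by rw [h2, h p.1 ⟨h1, h3.1⟩]⟩, h3⟩
  · rintro ⟨⟨h1, h2⟩, h3⟩
    exact ⟨⟨h1, by rw [h2, h p.1 ⟨h1, h3.1⟩]⟩, h3⟩

theorem pvsv_fin_of_LF {η : Conf PvPt} (h : PvLF η) {U : Set ℂ} (hU : Bornology.IsBounded U) : (cfSites η ∩ U).Finite := by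
  obtain ⟨R, hR⟩ := hU.subset_closedBall (0 : ℂ)
  exact (pvr_lf h R).subset (inter_subset_inter_right _ hR)

/-- **COLOUR BLIND FORM OF AN ALMOST SURE PROPERTY**: if `P` holds a.s. and reads a bounded window, then a.s. `P` holds for ALL the colourings of the sites -/
theorem pvsv_ae_col (ε : ℝ) {U : Set ℂ} (hU : Bornology.IsBounded U) {P : Conf PvPt → Prop} (hr : Conf.Reads (U ×ˢ univ) P) (hP : ∀ᵐ ω ∂pvP ε, P ω) :
    ∀ᵐ ω ∂pvP ε, ∀ σ : ℂ → Bool, P (cfOf (cfSites ω) σ) := by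
  classical
  obtain ⟨𝒟, h1, h2, h3⟩ := pvsv_sep
  have h4 : ∀ᵐ ω ∂pvP ε, ∀ D ∈ 𝒟, P (Conf.image (pvsvF D) ω) := (ae_ball_iff h1).2 fun D hD => by
    have mp : MeasurePreserving (Conf.image (pvsvF D)) (pvP ε) (pvP ε) := ⟨Conf.measurable_image (pvsv_F_meas (h2 D hD)), pvsv_fl_map (h2 D hD) ε⟩
    exact mp.quasiMeasurePreserving.ae hP
  filter_upwards [h4, pvhe_nice_ae ε] with ω h5 h6 σ
  obtain ⟨D, hD, e⟩ := h3 _ (pvsv_fin_of_LF h6.1 hU) {z | z ∈ cfSites ω ∩ U ∧ σ z ≠ cfCol ω z} (fun z hz => hz.1)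
  have h7 : P (Conf.image (pvsvF D) (cfOf (cfSites ω) (cfCol ω))) := by
    rw [← pvsv_conf_of h6.2]
    exact h5 D hD
  rw [pvsv_fl_cfOf] at h7
  have e2 : P (cfOf (cfSites ω) σ) = P (cfOf (cfSites ω) fun z => if z ∈ D then !cfCol ω z else cfCol ω z) := by
    refine hr.congr (pvsv_restr_cfOf fun z hz => ?_)
    have hD' : z ∈ D ↔ σ z ≠ cfCol ω z := by
      constructor
      · intro hzD
        have : z ∈ D ∩ (cfSites ω ∩ U) := ⟨hzD, hz⟩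
        rw [e] at this
        exact this.2
      · intro hne
        have : z ∈ D ∩ (cfSites ω ∩ U) := by rw [e]; exact ⟨hz, hne⟩
        exact this.1
    by_cases hzD : z ∈ D
    · rw [if_pos hzD]
      have := hD'.1 hzD
      revert this
      cases σ z <;> cases cfCol ω z <;> simp
    · rw [if_neg hzD]
      by_contra hne
      exact hzD (hD'.2 hne)
  rw [e2]
  exact h7

end col

/-! ## 4. an integrable function read in a bounded window is integrable in EVERY hybrid experiment, at almost every geometry, for all the colours of the base -/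

section base

/-- **FINITE MEANS IN ALL THE EXPERIMENTS**: `H ≥ 0` measurable, read in the bounded window `Wn`, integrable.   Then for almost every `ω`, FOR ALL the colourings `σ` of its sites and ALL the (constant) sets `y` of recoloured sites,
the mean of `H` over the experiment `pvdyR C (fun _ => y)` at the base `(sites of ω, σ)` is finite -/
theorem pvsv_base (ε : ℝ) {C Wn : Set ℂ} (hC : MeasurableSet C) (hWn : Bornology.IsBounded Wn) {H : Conf PvPt → ℝ≥0∞} (mH : Measurable H) (rH : Conf.Reads (Wn ×ˢ univ) H)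
    (hH : ∫⁻ η, H η ∂pvP ε ≠ ∞) :
    ∀ᵐ ω ∂pvP ε, ∀ (σ : ℂ → Bool) (y : Set ℂ), ∫⁻ p, H (pvdyR C (fun _ => y) (cfOf (cfSites ω) σ) p) ∂pvdyNu ε ≠ ∞ := by
  classical
  have := (pv_isPpp ε).prob
  have hO : MeasurableSet (Cᶜ ×ˢ (univ : Set Bool)) := hC.compl.prod MeasurableSet.univ
  let G : Conf PvPt → ℝ≥0∞ := fun ω' => ∫⁻ ω₂, H (Conf.spl (Cᶜ ×ˢ univ) (ω', ω₂)) ∂pvP ε
  have mG : Measurable G := (mH.comp (Conf.measurable_spl hO)).lintegral_prod_right'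
  have e2 : ∫⁻ ω, H ω ∂pvP ε = ∫⁻ ω, G ω ∂pvP ε := (pv_isPpp ε).lintegral_spl hO mH
  have rG : Conf.Reads (Wn ×ˢ univ) G := fun ω => by
    show ∫⁻ ω₂, H (Conf.spl (Cᶜ ×ˢ univ) (Conf.restr (Wn ×ˢ univ) ω, ω₂)) ∂pvP ε = ∫⁻ ω₂, H (Conf.spl (Cᶜ ×ˢ univ) (ω, ω₂)) ∂pvP ε
    refine lintegral_congr fun ω₂ => rH.congr ?_
    ext p
    simp only [Conf.spl, Conf.union, Conf.restr, mem_union, mem_inter_iff]
    tauto
  have h0 : ∀ᵐ ω ∂pvP ε, G ω < ∞ := ae_lt_top mG (e2 ▸ hH)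
  have rP : Conf.Reads (Wn ×ˢ univ) fun ω => G ω < ∞ := fun ω => by
    show (G (Conf.restr (Wn ×ˢ univ) ω) < ∞) = (G ω < ∞)
    rw [rG ω]
  filter_upwards [pvsv_ae_col ε hWn rP h0, pvhe_nice_ae ε] with ω h1 h2 σ y
  have hc : (cfSites (cfOf (cfSites ω) σ)).Countable := by rw [cfOf_sites]; exact pvdy_countable_of_LF h2.1
  rw [pvdy_lintegral_nu ε hC _ mH hc]
  simp_rw [pvdy_rec_cfOf]
  change ∫⁻ κ, G (cfOf (cfSites ω) (pvfqMix y (κ, σ))) ∂colLaw ℂ ≠ ∞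
  have hT := pvsv_fin_of_LF h2.1 hWn
  have hle : ∀ τ : ℂ → Bool, G (cfOf (cfSites ω) τ) ≤ ∑ S ∈ hT.toFinset.powerset, G (cfOf (cfSites ω) fun z => decide (z ∈ S)) := by
    intro τ
    have e : G (cfOf (cfSites ω) τ) = G (cfOf (cfSites ω) fun z => decide (z ∈ hT.toFinset.filter fun z => τ z = true)) := by
      refine rG.congr (pvsv_restr_cfOf fun z hz => ?_)
      have hz' : z ∈ hT.toFinset := hT.mem_toFinset.2 hz
      cases h : τ z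
      · symm
        rw [decide_eq_false_iff_not, Finset.mem_filter]
        rintro ⟨-, h'⟩
        rw [h] at h'
        exact Bool.noConfusion h'
      · symm
        rw [decide_eq_true_iff, Finset.mem_filter]
        exact ⟨hz', h⟩
    rw [e]
    exact Finset.single_le_sum (f := fun S : Finset ℂ => G (cfOf (cfSites ω) fun z => decide (z ∈ S))) (fun _ _ => zero_le) (Finset.mem_powerset.2 (Finset.filter_subset _ _))
  have hK : ∑ S ∈ hT.toFinset.powerset, G (cfOf (cfSites ω) fun z => decide (z ∈ S)) < ∞ := ENNReal.sum_lt_top.2 fun S _ => h1 _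
  refine ne_top_of_le_ne_top hK.ne ((lintegral_mono fun κ => hle _).trans (le_of_eq ?_))
  rw [lintegral_const, measure_univ, mul_one]

/-- a null set read in a window lies in a MEASURABLE null set read in the same window -/
theorem pvsv_hull (ε : ℝ) {W : Set PvPt} (hW : MeasurableSet W) {Nn : Set (Conf PvPt)} (h0 : pvP ε Nn = 0) (hr : Conf.Reads W fun η => η ∈ Nn) :
    ∃ N' : Set (Conf PvPt), MeasurableSet N' ∧ Nn ⊆ N' ∧ pvP ε N' = 0 ∧ Conf.Reads W fun η => η ∈ N' := by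
  have := (pv_isPpp ε).prob
  have mT : MeasurableSet (toMeasurable (pvP ε) Nn) := measurableSet_toMeasurable _ _
  have mP : Measurable (pvtiP (pvP ε) W (toMeasurable (pvP ε) Nn)) := pvti_P_measurable hW mT
  refine ⟨{σ | pvtiP (pvP ε) W (toMeasurable (pvP ε) Nn) σ ≠ 0}, mP (measurableSet_singleton 0).compl, fun σ hσ => ?_, ?_, fun η => ?_⟩
  · show pvtiP (pvP ε) W (toMeasurable (pvP ε) Nn) σ ≠ 0
    rw [pvsu_P_of_ae (Eventually.of_forall fun ξ => subset_toMeasurable _ _ ?_)]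
    · exact one_ne_zero
    · have e : (Conf.spl W (σ, ξ) ∈ Nn) = (σ ∈ Nn) := hr.spl_left subset_rfl σ ξ
      rw [e]; exact hσ
  · have e : ∫⁻ σ, pvtiP (pvP ε) W (toMeasurable (pvP ε) Nn) σ ∂pvP ε = 0 := by
      unfold pvtiP
      rw [← (pv_isPpp ε).lintegral_spl hW (measurable_one.indicator mT), lintegral_indicator_one mT, measure_toMeasurable, h0]
    exact (lintegral_eq_zero_iff mP).1 e
  · show (pvtiP (pvP ε) W (toMeasurable (pvP ε) Nn) (Conf.restr W η) ≠ 0) = (pvtiP (pvP ε) W (toMeasurable (pvP ε) Nn) η ≠ 0)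
    rw [pvti_P_reads (pvP ε) W _ η]

/-- **NULL AVOIDANCE**: a null set read in a bounded window is avoided by almost every seed of EVERY hybrid experiment, at almost every geometry, for ALL the colours of the base and ALL the constant sets of recoloured sites.
So every a.s. statement on soft objects (`toMeasurable`, `AEMeasurable.mk`, `Sure`, `Loc`) read in a bounded window is available INSIDE the experiments at a fixed good geometry -/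
theorem pvsv_null_exp (ε : ℝ) {C Wn : Set ℂ} (hC : MeasurableSet C) (mWn : MeasurableSet Wn) (hWn : Bornology.IsBounded Wn) {Nn : Set (Conf PvPt)} (h0 : pvP ε Nn = 0)
    (hr : Conf.Reads (Wn ×ˢ univ) fun η => η ∈ Nn) :
    ∀ᵐ ω ∂pvP ε, ∀ (σ : ℂ → Bool) (y : Set ℂ), ∀ᵐ p ∂pvdyNu ε, pvdyR C (fun _ => y) (cfOf (cfSites ω) σ) p ∉ Nn := by
  obtain ⟨N', m', hs, h0', hr'⟩ := pvsv_hull ε (mWn.prod MeasurableSet.univ) h0 hr
  have mH : Measurable (N'.indicator fun _ => (∞ : ℝ≥0∞)) := measurable_const.indicator m'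
  have hH : ∫⁻ η, N'.indicator (fun _ => (∞ : ℝ≥0∞)) η ∂pvP ε ≠ ∞ := by
    rw [lintegral_indicator_const m', h0', mul_zero]
    exact ENNReal.zero_ne_top
  have rH : Conf.Reads (Wn ×ˢ univ) (N'.indicator fun _ => (∞ : ℝ≥0∞)) := fun η => by
    have e : (Conf.restr (Wn ×ˢ univ) η ∈ N') = (η ∈ N') := hr' η
    by_cases h : η ∈ N'
    · rw [indicator_of_mem h, indicator_of_mem (e ▸ h)]
    · rw [indicator_of_notMem h, indicator_of_notMem (e ▸ h)]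
  filter_upwards [pvsv_base ε hC hWn mH rH hH, pvcn_LF_ae ε] with ω h1 hLF σ y
  have hc : (cfSites (cfOf (cfSites ω) σ)).Countable := by rw [cfOf_sites]; exact pvdy_countable_of_LF hLF
  have mS : MeasurableSet {p | pvdyR C (fun _ => y) (cfOf (cfSites ω) σ) p ∈ N'} := pvdy_measurable_R hC _ hc m'
  have e : ∫⁻ p, N'.indicator (fun _ => (∞ : ℝ≥0∞)) (pvdyR C (fun _ => y) (cfOf (cfSites ω) σ) p) ∂pvdyNu ε = ∞ * pvdyNu ε {p | pvdyR C (fun _ => y) (cfOf (cfSites ω) σ) p ∈ N'} := by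
    rw [← lintegral_indicator_const mS]
    rfl
  have h2 := h1 σ y
  rw [e] at h2
  have h3 : pvdyNu ε {p | pvdyR C (fun _ => y) (cfOf (cfSites ω) σ) p ∈ N'} = 0 := by
    by_contra hne
    exact h2 (ENNReal.top_mul hne)
  have h4 : ∀ᵐ p ∂pvdyNu ε, p ∉ {p | pvdyR C (fun _ => y) (cfOf (cfSites ω) σ) p ∈ N'} := measure_eq_zero_iff_ae_notMem.1 h3
  filter_upwards [h4] with p hp hN
  exact hp (hs hN)

/-- the same for an a.s. PROPERTY read in a bounded window -/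
theorem pvsv_ae_exp (ε : ℝ) {C Wn : Set ℂ} (hC : MeasurableSet C) (mWn : MeasurableSet Wn) (hWn : Bornology.IsBounded Wn) {P : Conf PvPt → Prop} (hP : ∀ᵐ η ∂pvP ε, P η)
    (hr : Conf.Reads (Wn ×ˢ univ) P) :
    ∀ᵐ ω ∂pvP ε, ∀ (σ : ℂ → Bool) (y : Set ℂ), ∀ᵐ p ∂pvdyNu ε, P (pvdyR C (fun _ => y) (cfOf (cfSites ω) σ) p) := by
  have hr' : Conf.Reads (Wn ×ˢ univ) fun η => η ∈ {η | ¬ P η} := fun η => by
    show (¬ P (Conf.restr (Wn ×ˢ univ) η)) = (¬ P η)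
    rw [hr η]
  filter_upwards [pvsv_null_exp ε hC mWn hWn (ae_iff.1 hP) hr'] with ω h σ y
  filter_upwards [h σ y] with p hp
  by_contra hc
  exact hp hc

end base

/-! ## 5. the soft localisation of a square integrable field -/

section loc

variable {ε : ℝ} {W : Set PvPt}

/-- the measurable majorant of `‖Loc F‖²`, read in the window -/
noncomputable def pvsvH (ε : ℝ) (W : Set PvPt) (F : Conf PvPt → ℂ) (σ : Conf PvPt) : ℝ≥0∞ := ∫⁻ ξ, ‖pvsuMk (pvP ε) F (Conf.spl W (σ, ξ))‖ₑ ^ 2 ∂pvP ε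

theorem pvsv_eqns_cite4 : True := by
  have := @pvsvH.eq_1
  trivial

theorem pvsv_H_meas (ε : ℝ) (hW : MeasurableSet W) (F : Conf PvPt → ℂ) : Measurable (pvsvH ε W F) := by
  have := (pv_isPpp ε).prob
  exact (((pvsu_mk_measurable (pvP ε) F).enorm.pow_const 2).comp (Conf.measurable_spl hW)).lintegral_prod_right'

theorem pvsv_H_reads (ε : ℝ) (W : Set PvPt) (F : Conf PvPt → ℂ) : Conf.Reads W (pvsvH ε W F) := fun σ => by
  unfold pvsvH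
  simp_rw [Conf.spl_restr]

theorem pvsv_loc_le (ε : ℝ) (hW : MeasurableSet W) (F : Conf PvPt → ℂ) (σ : Conf PvPt) : ‖pvsuLoc (pvP ε) W F σ‖ₑ ^ 2 ≤ pvsvH ε W F σ := by
  have := (pv_isPpp ε).prob
  have h := pvti_jensen (pvP ε) 0 (Y := fun ξ => pvsuMk (pvP ε) F (Conf.spl W (σ, ξ)))
    ((pvsu_mk_measurable (pvP ε) F).comp (pvsu_sec_measurable hW σ)).aestronglyMeasurable
  simp only [zero_add] at h
  exact h

theorem pvsv_H_lintegral (ε : ℝ) (hW : MeasurableSet W) (F : Conf PvPt → ℂ) : ∫⁻ σ, pvsvH ε W F σ ∂pvP ε = ∫⁻ η, ‖pvsuMk (pvP ε) F η‖ₑ ^ 2 ∂pvP ε :=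
  ((pv_isPpp ε).lintegral_spl hW ((pvsu_mk_measurable (pvP ε) F).enorm.pow_const 2)).symm

theorem pvsv_mk_le {F : Conf PvPt → ℂ} {Φ : Conf PvPt → ℝ≥0∞} (h : ∀ᵐ η ∂pvP ε, ‖F η‖ₑ ^ 2 ≤ Φ η) : ∫⁻ η, ‖pvsuMk (pvP ε) F η‖ₑ ^ 2 ∂pvP ε ≤ ∫⁻ η, Φ η ∂pvP ε := by
  by_cases hF : AEMeasurable F (pvP ε)
  · refine lintegral_mono_ae ?_
    filter_upwards [h, pvsu_mk_ae hF] with η h1 h2
    rw [h2]
    exact h1
  · have e : pvsuMk (pvP ε) F = 0 := by unfold pvsuMk; rw [dif_neg hF]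
    simp [e]

/-- **THE SECOND MOMENT OF A SOFT LOCALISATION IN ALL THE EXPERIMENTS**: `F` dominated a.s. by a square integrable `Φ`, window bounded -/
theorem pvsv_loc_base (ε : ℝ) {C Wn : Set ℂ} (hC : MeasurableSet C) (mWn : MeasurableSet Wn) (hWn : Bornology.IsBounded Wn) {F : Conf PvPt → ℂ} {Φ : Conf PvPt → ℝ≥0∞}
    (h : ∀ᵐ η ∂pvP ε, ‖F η‖ₑ ^ 2 ≤ Φ η) (hΦ : ∫⁻ η, Φ η ∂pvP ε ≠ ∞) :
    ∀ᵐ ω ∂pvP ε, ∀ (σ : ℂ → Bool) (y : Set ℂ), ∫⁻ p, ‖pvsuLoc (pvP ε) (Wn ×ˢ univ) F (pvdyR C (fun _ => y) (cfOf (cfSites ω) σ) p)‖ₑ ^ 2 ∂pvdyNu ε ≠ ∞ := by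
  have hW : MeasurableSet (Wn ×ˢ (univ : Set Bool)) := mWn.prod MeasurableSet.univ
  have h1 : ∫⁻ σ, pvsvH ε (Wn ×ˢ univ) F σ ∂pvP ε ≠ ∞ := by
    rw [pvsv_H_lintegral ε hW]
    exact ne_top_of_le_ne_top hΦ (pvsv_mk_le h)
  filter_upwards [pvsv_base ε hC hWn (pvsv_H_meas ε hW F) (pvsv_H_reads ε _ F) h1] with ω h2 σ y
  exact ne_top_of_le_ne_top (h2 σ y) (lintegral_mono fun p => pvsv_loc_le ε hW F _)

theorem pvsv_loc_sq (ε : ℝ) {Wn : Set ℂ} (mWn : MeasurableSet Wn) {F : Conf PvPt → ℂ} {Φ : Conf PvPt → ℝ≥0∞}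
    (h : ∀ᵐ η ∂pvP ε, ‖F η‖ₑ ^ 2 ≤ Φ η) (hΦ : ∫⁻ η, Φ η ∂pvP ε ≠ ∞) : ∫⁻ η, ‖pvsuLoc (pvP ε) (Wn ×ˢ univ) F η‖ₑ ^ 2 ∂pvP ε ≠ ∞ := by
  have hW : MeasurableSet (Wn ×ˢ (univ : Set Bool)) := mWn.prod MeasurableSet.univ
  refine ne_top_of_le_ne_top hΦ ((lintegral_mono fun η => pvsv_loc_le ε hW F η).trans ?_)
  rw [pvsv_H_lintegral ε hW]
  exact pvsv_mk_le h

end loc

/-! ## 6. the plain value of a link is dominated by the number of the points of a ball -/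

section cnt

/-- the number of the points over `B` -/
noncomputable def pvsvN (B : Set ℂ) (η : Conf PvPt) : ℝ≥0∞ := ((η.pts ∩ B ×ˢ univ).ncard : ℝ≥0∞)

/-- **the weight `w` is bounded on the triangles over the room of the link** -/
def PvsvW (N : PvwNum) (L : PvilLk) (w : ∀ η : Conf PvPt, (delbPl (pvieY η)).Dart → ℂ) : Prop :=
  ∃ Δ : ℝ, 0 ≤ Δ ∧ ∀ (η : Conf PvPt) (d : (delbPl (pvieY η)).Dart), PvsvFc (pvieT η) (pviePos η) (pvsvB N L) d → ‖w η d‖ ≤ Δ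

theorem pvsv_eqns_cite5 : True := by
  have := @pvsvN.eq_1; have := @PvsvW.eq_1
  trivial

theorem pvsv_W_Q (N : PvwNum) {L : PvilLk} (h : Bornology.IsBounded L.Yin) : PvsvW N L pvilQ :=
  ⟨Metric.diam (pvsvB N L), Metric.diam_nonneg, fun _ _ hd => pvsv_qpart_le (pvsv_B_bdd N h) hd⟩

theorem pvsv_W_V (N : PvwNum) {L : PvilLk} (h : Bornology.IsBounded L.Yin) : PvsvW N L pvilV :=
  ⟨Metric.diam (pvsvB N L), Metric.diam_nonneg, fun _ _ hd => pvsv_side_le (pvsv_B_bdd N h) hd⟩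

theorem pvsv_N_sq (ε : ℝ) {B : Set ℂ} (mB : MeasurableSet B) (hB : Bornology.IsBounded B) : ∫⁻ η, pvsvN B η ^ 2 ∂pvP ε ≠ ∞ := by
  have hm : pvInt ε (B ×ˢ univ) ≠ ∞ := by
    rw [delgd_int_prod, measure_univ, mul_one]
    exact ENNReal.mul_ne_top ENNReal.ofReal_ne_top hB.measure_lt_top.ne
  unfold pvsvN
  rw [pvc_sq_moment (pv_isPpp ε) (mB.prod MeasurableSet.univ) hm]
  exact ENNReal.add_ne_top.2 ⟨hm, ENNReal.pow_ne_top hm⟩

theorem pvsv_ncard_le {η : Conf PvPt} (h : PvLF η) {B B' : Set ℂ} (hB : Bornology.IsBounded B') (hBB : B ⊆ B') : (cfSites η ∩ B).ncard ≤ (η.pts ∩ B' ×ˢ univ).ncard := by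
  have hf : (η.pts ∩ B' ×ˢ univ).Finite :=
    ((pvsv_fin_of_LF h hB).prod (finite_univ : (univ : Set Bool).Finite)).subset fun p hp => ⟨⟨⟨p, hp.1, rfl⟩, hp.2.1⟩, mem_univ _⟩
  have e : cfSites η ∩ B' = Prod.fst '' (η.pts ∩ B' ×ˢ univ) := by
    ext z
    constructor
    · rintro ⟨⟨p, hp, rfl⟩, hz⟩
      exact ⟨p, ⟨hp, hz, mem_univ _⟩, rfl⟩
    · rintro ⟨p, ⟨hp, hz, -⟩, rfl⟩
      exact ⟨⟨p, hp, rfl⟩, hz⟩
  refine (Set.ncard_le_ncard (inter_subset_inter_right _ hBB) (pvsv_fin_of_LF h hB)).trans ?_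
  rw [e]
  exact Set.ncard_image_le hf

/-- **THE PLAIN VALUE OF A LINK IS SQUARE INTEGRABLE** (dominated form: no measurability of the value is asked) -/
theorem pvsv_link_dom (ε : ℝ) {N : PvwNum} (b : Bool) {L : PvilLk} (hfr : L.dr = false → ‖L.p.fr‖ = 1) (hfr' : L.dr' = false → ‖L.p'.fr‖ = 1) (bY : Bornology.IsBounded L.Yin)
    {w : ∀ η : Conf PvPt, (delbPl (pvieY η)).Dart → ℂ} (hw : PvsvW N L w) :
    ∃ Φ : Conf PvPt → ℝ≥0∞, ∫⁻ η, Φ η ∂pvP ε ≠ ∞ ∧ ∀ᵐ η ∂pvP ε, ‖L.X N b w η‖ₑ ^ 2 ≤ Φ η := by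
  obtain ⟨Δ, hΔ, hw⟩ := hw
  obtain ⟨R, hR⟩ := (pvsv_B_bdd N bY).subset_closedBall (0 : ℂ)
  refine ⟨fun η => ENNReal.ofReal (4 * Δ) ^ 2 * pvsvN (Metric.closedBall 0 R) η ^ 2, ?_, ?_⟩
  · rw [lintegral_const_mul' _ _ (ENNReal.pow_ne_top ENNReal.ofReal_ne_top)]
    exact ENNReal.mul_ne_top (ENNReal.pow_ne_top ENNReal.ofReal_ne_top) (pvsv_N_sq ε measurableSet_closedBall Metric.isBounded_closedBall)
  · filter_upwards [pvcn_LF_ae ε] with η hLF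
    rw [← mul_pow]
    refine pow_le_pow_left₀ zero_le ?_ 2
    have h1 := pvsv_X_le (N := N) (b := b) hfr hfr' w hΔ (hw η) (pvsv_fin_of_LF hLF (pvsv_B_bdd N bY))
    have h2 : ((cfSites η ∩ pvsvB N L).ncard : ℝ) ≤ ((η.pts ∩ Metric.closedBall (0 : ℂ) R ×ˢ univ).ncard : ℝ) := by
      exact_mod_cast pvsv_ncard_le hLF Metric.isBounded_closedBall hR
    rw [← ofReal_norm]
    unfold pvsvN
    rw [← ENNReal.ofReal_natCast, ← ENNReal.ofReal_mul (by positivity)]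
    refine ENNReal.ofReal_le_ofReal (h1.trans ?_)
    have := mul_le_mul_of_nonneg_right h2 hΔ
    linarith

theorem pvsv_ind_le (M : Set (Conf PvPt)) (F : Conf PvPt → ℂ) (η : Conf PvPt) : ‖M.indicator F η‖ₑ ^ 2 ≤ ‖F η‖ₑ ^ 2 := by
  by_cases h : η ∈ M
  · rw [indicator_of_mem h]
  · rw [indicator_of_notMem h]; simp

/-- **SECOND MOMENT OF THE LOCAL VALUE OF A LINK IN ALL THE EXPERIMENTS**: almost every geometry, ALL the colours of the base, ALL the constant sets of recoloured sites, ANY event `M` -/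
theorem pvsv_link_base (ε : ℝ) {N : PvwNum} (b : Bool) {L : PvilLk} (hfr : L.dr = false → ‖L.p.fr‖ = 1) (hfr' : L.dr' = false → ‖L.p'.fr‖ = 1) (bY : Bornology.IsBounded L.Yin)
    {w : ∀ η : Conf PvPt, (delbPl (pvieY η)).Dart → ℂ} (hw : PvsvW N L w) {C Wn : Set ℂ} (hC : MeasurableSet C) (mWn : MeasurableSet Wn) (hWn : Bornology.IsBounded Wn) (M : Set (Conf PvPt)) :
    ∀ᵐ ω ∂pvP ε, ∀ (σ : ℂ → Bool) (y : Set ℂ), ∫⁻ p, ‖pvilLoc ε Wn M (L.X N b w) (pvdyR C (fun _ => y) (cfOf (cfSites ω) σ) p)‖ₑ ^ 2 ∂pvdyNu ε ≠ ∞ := by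
  obtain ⟨Φ, h1, h2⟩ := pvsv_link_dom ε b hfr hfr' bY hw
  exact pvsv_loc_base ε hC mWn hWn (h2.mono fun η h => (pvsv_ind_le M _ η).trans h) h1

/-- the plain second moment of the local value of a link -/
theorem pvsv_link_sq (ε : ℝ) {N : PvwNum} (b : Bool) {L : PvilLk} (hfr : L.dr = false → ‖L.p.fr‖ = 1) (hfr' : L.dr' = false → ‖L.p'.fr‖ = 1) (bY : Bornology.IsBounded L.Yin)
    {w : ∀ η : Conf PvPt, (delbPl (pvieY η)).Dart → ℂ} (hw : PvsvW N L w) {Wn : Set ℂ} (mWn : MeasurableSet Wn) (M : Set (Conf PvPt)) :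
    ∫⁻ η, ‖pvilLoc ε Wn M (L.X N b w) η‖ₑ ^ 2 ∂pvP ε ≠ ∞ := by
  obtain ⟨Φ, h1, h2⟩ := pvsv_link_dom ε b hfr hfr' bY hw
  exact pvsv_loc_sq ε mWn (h2.mono fun η h => (pvsv_ind_le M _ η).trans h) h1

/-- **A COUNTABLE FAMILY OF WINDOWS AND EVENTS** (the finite hulls), any success event `A` -/
theorem pvsv_link_fam (ε : ℝ) {N : PvwNum} (b : Bool) {L : PvilLk} (hfr : L.dr = false → ‖L.p.fr‖ = 1) (hfr' : L.dr' = false → ‖L.p'.fr‖ = 1) (bY : Bornology.IsBounded L.Yin)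
    {w : ∀ η : Conf PvPt, (delbPl (pvieY η)).Dart → ℂ} (hw : PvsvW N L w) {C : Set ℂ} (hC : MeasurableSet C) {ι : Type*} [Countable ι] (Wn : ι → Set ℂ) (mWn : ∀ i, MeasurableSet (Wn i))
    (hWn : ∀ i, Bornology.IsBounded (Wn i)) (M : ι → Set (Conf PvPt)) :
    ∀ᵐ ω ∂pvP ε, ∀ (σ : ℂ → Bool) (i : ι) (y : Set ℂ) (A : Set (Conf PvPt)),
      ∫⁻ p, ‖pvilLoc ε (Wn i) (M i) (L.X N b w) (pvdyR C (fun _ => y) (cfOf (cfSites ω) σ) p)‖ₑ ^ 2 * A.indicator 1 (pvdyR C (fun _ => y) (cfOf (cfSites ω) σ) p) ∂pvdyNu ε ≠ ∞ := by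
  filter_upwards [ae_all_iff.2 fun i => pvsv_link_base ε b hfr hfr' bY hw hC (mWn i) (hWn i) (M i)] with ω h σ i y A
  refine ne_top_of_le_ne_top (h i σ y) (lintegral_mono fun p => ?_)
  by_cases hp : pvdyR C (fun _ => y) (cfOf (cfSites ω) σ) p ∈ A
  · rw [indicator_of_mem hp, Pi.one_apply, mul_one]
  · rw [indicator_of_notMem hp, mul_zero]; exact zero_le

end cnt

/-! ## 7. sets: shifts, frames, fat hulls -/

section sets

theorem pvsv_sim_meas {z d : ℂ} (hd : d ≠ 0) {S : Set ℂ} (hS : MeasurableSet S) : MeasurableSet (pvthSim z d '' S) := by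
  have e : pvthSim z d '' S = pvthInv z d ⁻¹' S := by
    ext w
    constructor
    · rintro ⟨x, hx, rfl⟩
      show pvthInv z d (pvthSim z d x) ∈ S
      have : pvthInv z d (pvthSim z d x) = x := by unfold pvthInv pvthSim; field_simp; ring
      rw [this]; exact hx
    · intro h
      exact ⟨pvthInv z d w, h, by unfold pvthInv pvthSim; field_simp; ring⟩
  rw [e]
  have hm : Measurable (pvthInv z d) := by unfold pvthInv; exact (measurable_id.sub_const z).div_const d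
  exact hm hS

theorem pvsv_sim_bdd (z d : ℂ) {S : Set ℂ} (hS : Bornology.IsBounded S) : Bornology.IsBounded (pvthSim z d '' S) := by
  obtain ⟨R, hR⟩ := hS.subset_closedBall (0 : ℂ)
  refine (Metric.isBounded_closedBall (x := z) (r := ‖d‖ * R)).subset ?_
  rintro _ ⟨x, hx, rfl⟩
  have h1 : ‖x‖ ≤ R := by simpa using hR hx
  rw [Metric.mem_closedBall, dist_eq_norm]
  unfold pvthSim
  rw [add_sub_cancel_left, norm_mul]
  exact mul_le_mul_of_nonneg_left h1 (norm_nonneg d)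

theorem pvsv_sh_eq (z : ℂ) (S : Set ℂ) : pvieSh z S = pvthSim z 1 '' S := by
  unfold pvieSh
  refine image_congr fun w _ => ?_
  unfold pvthSim
  rw [one_mul]

theorem pvsv_sh_meas (z : ℂ) {S : Set ℂ} (hS : MeasurableSet S) : MeasurableSet (pvieSh z S) := by
  rw [pvsv_sh_eq]; exact pvsv_sim_meas one_ne_zero hS

theorem pvsv_sh_bdd (z : ℂ) {S : Set ℂ} (hS : Bornology.IsBounded S) : Bornology.IsBounded (pvieSh z S) := by
  rw [pvsv_sh_eq]; exact pvsv_sim_bdd z 1 hS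

theorem pvsv_fat_meas (δ : ℝ) (Z : Set (ℤ × ℤ)) : MeasurableSet (pvilFat δ Z) :=
  MeasurableSet.biUnion (Set.to_countable _) fun _ _ => pvt_sq_closed.measurableSet

theorem pvsv_fat_bdd (δ : ℝ) {Z : Set (ℤ × ℤ)} (hZ : Z.Finite) : Bornology.IsBounded (pvilFat δ Z) :=
  ((pvt_N8_finite hZ).isCompact_biUnion fun _ _ => pvt_sq_compact).isBounded

end sets

/-! ## 8. THE ENDS OF RECORD (`Tr/InstL` v2.2.1) -/

section inst

variable {τ : Type} {c : ℝ} (𝔓 : PvxPar τ c) (𝔈 : PvieEng τ) {m : ℕ} {ε : ℝ} {w : ∀ η : Conf PvPt, (delbPl (pvieY η)).Dart → ℂ} {z : ℂ} {t : τ}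

/-- an end whose success is empty -/
theorem pvsv_mem_sq_empty {kit : PvthKit} {e : PvkyEnd} {z d : ℂ} (h : e.A = ∅) (ω : Conf PvPt) : ω ∈ pvueSq kit ε e z d := by
  show ∫⁻ p, ‖e.X (pvdyR (e.K ∪ pvkyDoor kit z d) e.y ω p)‖ₑ ^ 2 * e.A.indicator 1 (pvdyR (e.K ∪ pvkyDoor kit z d) e.y ω p) ∂pvdyNu ε ≠ ∞
  rw [h]
  simp

instance pvsv_fin_countable : Countable {Z : Set (ℤ × ℤ) // Z.Finite} := by
  have h : {Z : Set (ℤ × ℤ) | Z.Finite ∧ Z ⊆ univ}.Countable := Set.countable_ofPred_finite_subset Set.countable_univ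
  have e : {Z : Set (ℤ × ℤ) | Z.Finite} = {Z : Set (ℤ × ℤ) | Z.Finite ∧ Z ⊆ univ} := by ext Z; simp
  exact (e ▸ h).to_subtype

/-- **FIRST LINK**: at almost every geometry, for ALL the colours of the base, ALL the base data `(Z, F)`, the second moment of the end of record in its own experiment is finite -/
theorem pvsv_sq_o (bY : Bornology.IsBounded (𝔈.oY m t)) (hw : PvsvW 𝔓.num (pvilLo 𝔓 𝔈 m z t) w)
    (mC : MeasurableSet (pvieSh z (𝔈.oK m t) ∪ pvkyDoor (𝔈.kit m ε) (pvieZo 𝔓 m z t) ((𝔓.Γ m).dout t)))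
    (mW : ∀ Z, MeasurableSet (pvilWno 𝔓 𝔈 m ε z t Z)) (bW : ∀ Z : Set (ℤ × ℤ), Z.Finite → Bornology.IsBounded (pvilWno 𝔓 𝔈 m ε z t Z)) :
    ∀ᵐ ω ∂pvP ε, ∀ (σ : ℂ → Bool) (Z : Set (ℤ × ℤ)) (F : Set ℂ),
      cfOf (cfSites ω) σ ∈ pvueSq (𝔈.kit m ε) ε (pvilEo 𝔓 𝔈 m ε w z t Z F) (pvieZo 𝔓 m z t) ((𝔓.Γ m).dout t) := by
  have h := pvsv_link_fam ε (N := 𝔓.num) (𝔓.col t) (L := pvilLo 𝔓 𝔈 m z t) (fun _ => by simp [pvilLo, pvilPin, PviePl.std]) (fun h => by simp [pvilLo] at h)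
    (pvsv_sh_bdd z bY) hw mC (ι := {Z : Set (ℤ × ℤ) // Z.Finite}) (fun Z => pvilWno 𝔓 𝔈 m ε z t Z.1) (fun Z => mW Z.1) (fun Z => bW Z.1 Z.2) (fun Z => pvilMo 𝔓 𝔈 m ε z t Z.1)
  filter_upwards [h] with ω h σ Z F
  by_cases hZ : Z.Finite
  · exact h σ ⟨Z, hZ⟩ _ _
  · exact pvsv_mem_sq_empty (by show pvilFin Z _ = ∅; unfold pvilFin; rw [if_neg hZ]) _

/-- **LAST LINK** -/
theorem pvsv_sq_i (bY : Bornology.IsBounded (𝔈.iY m t)) (hw : PvsvW 𝔓.num (pvilLi 𝔓 𝔈 m z t) w)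
    (mC : MeasurableSet (pvieSh z (𝔈.iK m t) ∪ pvkyDoor (𝔈.kit m ε) (pvieZi 𝔓 m z t) ((𝔓.Γ m).din t)))
    (mW : ∀ Z, MeasurableSet (pvilWni 𝔓 𝔈 m ε z t Z)) (bW : ∀ Z : Set (ℤ × ℤ), Z.Finite → Bornology.IsBounded (pvilWni 𝔓 𝔈 m ε z t Z)) :
    ∀ᵐ ω ∂pvP ε, ∀ (σ : ℂ → Bool) (Z : Set (ℤ × ℤ)) (F : Set ℂ),
      cfOf (cfSites ω) σ ∈ pvueSq (𝔈.kit m ε) ε (pvilEi 𝔓 𝔈 m ε w z t Z F) (pvieZi 𝔓 m z t) ((𝔓.Γ m).din t) := by
  have h := pvsv_link_fam ε (N := 𝔓.num) (𝔓.col t) (L := pvilLi 𝔓 𝔈 m z t) (fun h => by simp [pvilLi] at h) (fun _ => by simp [pvilLi, pvilPin, PviePl.std])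
    (pvsv_sh_bdd z bY) hw mC (ι := {Z : Set (ℤ × ℤ) // Z.Finite}) (fun Z => pvilWni 𝔓 𝔈 m ε z t Z.1) (fun Z => mW Z.1) (fun Z => bW Z.1 Z.2) (fun Z => pvilMi 𝔓 𝔈 m ε z t Z.1)
  filter_upwards [h] with ω h σ Z F
  by_cases hZ : Z.Finite
  · exact h σ ⟨Z, hZ⟩ _ _
  · exact pvsv_mem_sq_empty (by show pvilFin Z _ = ∅; unfold pvilFin; rw [if_neg hZ]) _

/-- **THICK LINK**, in ANY experiment `C` (of record: thick tile + region of the reference plug) -/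
theorem pvsv_sq_e (bY : Bornology.IsBounded (𝔈.eY m t)) (hw : PvsvW 𝔓.num (pvilLe 𝔓 𝔈 m z t) w) {C : Set ℂ} (mC : MeasurableSet C)
    (mW : ∀ Z, MeasurableSet (pvilWne 𝔓 𝔈 m z t Z)) (bW : ∀ Z : Set (ℤ × ℤ), Z.Finite → Bornology.IsBounded (pvilWne 𝔓 𝔈 m z t Z)) :
    ∀ᵐ ω ∂pvP ε, ∀ (σ : ℂ → Bool) (Z : Set (ℤ × ℤ)) (F : Set ℂ),
      ∫⁻ p, ‖(pvilEe 𝔓 𝔈 m ε w z t Z F).X (pvdyR C (pvilEe 𝔓 𝔈 m ε w z t Z F).y (cfOf (cfSites ω) σ) p)‖ₑ ^ 2 *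
        (pvilEe 𝔓 𝔈 m ε w z t Z F).A.indicator 1 (pvdyR C (pvilEe 𝔓 𝔈 m ε w z t Z F).y (cfOf (cfSites ω) σ) p) ∂pvdyNu ε ≠ ∞ := by
  have h := pvsv_link_fam ε (N := 𝔓.num) (𝔓.col t) (L := pvilLe 𝔓 𝔈 m z t) (fun h => by simp [pvilLe] at h) (fun _ => by simp [pvilLe, pvilPin, PviePl.std])
    (pvsv_sh_bdd z bY) hw mC (ι := {Z : Set (ℤ × ℤ) // Z.Finite}) (fun Z => pvilWne 𝔓 𝔈 m z t Z.1) (fun Z => mW Z.1) (fun Z => bW Z.1 Z.2) (fun Z => pvilMe 𝔓 𝔈 m z t Z.1)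
  filter_upwards [h] with ω h σ Z F
  by_cases hZ : Z.Finite
  · exact h σ ⟨Z, hZ⟩ _ _
  · have e : (pvilEe 𝔓 𝔈 m ε w z t Z F).A = ∅ := by show pvilFin Z _ = ∅; unfold pvilFin; rw [if_neg hZ]
    rw [e]
    simp

/-- **LINK INTO THE REFERENCE PLUG**: the plain second moment -/
theorem pvsv_sq_r (bY : Bornology.IsBounded (𝔈.rY m)) (hw : PvsvW 𝔓.num (pvilLr 𝔓 𝔈 m) w) (mW : MeasurableSet (pvilWnr 𝔓 𝔈 m ε)) :
    ∫⁻ η, ‖pvilXr 𝔓 𝔈 m ε w η‖ₑ ^ 2 ∂pvP ε ≠ ∞ :=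
  pvsv_link_sq ε true (L := pvilLr 𝔓 𝔈 m) (fun h => by simp [pvilLr] at h) (fun h => by simp [pvilLr] at h) bY hw mW _

/-- an a.s. statement "for all the colours" at the actual colours -/
theorem pvsv_ae_self {P : Conf PvPt → Prop} (h : ∀ᵐ ω ∂pvP ε, ∀ σ : ℂ → Bool, P (cfOf (cfSites ω) σ)) : ∀ᵐ ω ∂pvP ε, P ω := by
  filter_upwards [h, pvhe_nice_ae ε] with ω h1 h2
  have := h1 (cfCol ω)
  rwa [← pvsv_conf_of h2.2] at this

/-- the first link AT THE BASE DATA OF THE BASE, all the colours -/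
theorem pvsv_sq_oAt (bY : Bornology.IsBounded (𝔈.oY m t)) (hw : PvsvW 𝔓.num (pvilLo 𝔓 𝔈 m z t) w)
    (mC : MeasurableSet (pvieSh z (𝔈.oK m t) ∪ pvkyDoor (𝔈.kit m ε) (pvieZo 𝔓 m z t) ((𝔓.Γ m).dout t)))
    (mW : ∀ Z, MeasurableSet (pvilWno 𝔓 𝔈 m ε z t Z)) (bW : ∀ Z : Set (ℤ × ℤ), Z.Finite → Bornology.IsBounded (pvilWno 𝔓 𝔈 m ε z t Z)) :
    ∀ᵐ ω ∂pvP ε, ∀ σ : ℂ → Bool,
      cfOf (cfSites ω) σ ∈ pvueSq (𝔈.kit m ε) ε (pvilEoAt 𝔓 𝔈 m ε w z t (cfOf (cfSites ω) σ)) (pvieZo 𝔓 m z t) ((𝔓.Γ m).dout t) :=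
  (pvsv_sq_o 𝔓 𝔈 bY hw mC mW bW).mono fun _ h σ => h σ _ _

/-- the last link at the base data of the base, all the colours -/
theorem pvsv_sq_iAt (bY : Bornology.IsBounded (𝔈.iY m t)) (hw : PvsvW 𝔓.num (pvilLi 𝔓 𝔈 m z t) w)
    (mC : MeasurableSet (pvieSh z (𝔈.iK m t) ∪ pvkyDoor (𝔈.kit m ε) (pvieZi 𝔓 m z t) ((𝔓.Γ m).din t)))
    (mW : ∀ Z, MeasurableSet (pvilWni 𝔓 𝔈 m ε z t Z)) (bW : ∀ Z : Set (ℤ × ℤ), Z.Finite → Bornology.IsBounded (pvilWni 𝔓 𝔈 m ε z t Z)) :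
    ∀ᵐ ω ∂pvP ε, ∀ σ : ℂ → Bool,
      cfOf (cfSites ω) σ ∈ pvueSq (𝔈.kit m ε) ε (pvilEiAt 𝔓 𝔈 m ε w z t (cfOf (cfSites ω) σ)) (pvieZi 𝔓 m z t) ((𝔓.Γ m).din t) :=
  (pvsv_sq_i 𝔓 𝔈 bY hw mC mW bW).mono fun _ h σ => h σ _ _

end inst

/-! ## 9. THE SAME FROM THE REGIONS ALONE      (bounded + Borel regions: at the engine of record = `Exit/ParBd` of 73) -/

section reg

variable {τ : Type} {c : ℝ} (𝔓 : PvxPar τ c) (𝔈 : PvieEng τ) {m : ℕ} {ε : ℝ} {w : ∀ η : Conf PvPt, (delbPl (pvieY η)).Dart → ℂ} {z : ℂ} {t : τ}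

theorem pvsv_wsq_meas (z : ℂ) (r : ℝ) : MeasurableSet (pvwSq z r) := by
  have h1 : IsClosed {w : ℂ | |(w - z).re| ≤ r} := isClosed_le (Complex.continuous_re.comp (continuous_id.sub continuous_const)).abs continuous_const
  have h2 : IsClosed {w : ℂ | |(w - z).im| ≤ r} := isClosed_le (Complex.continuous_im.comp (continuous_id.sub continuous_const)).abs continuous_const
  exact (h1.inter h2).measurableSet

theorem pvsv_wsq_bdd (z : ℂ) (r : ℝ) : Bornology.IsBounded (pvwSq z r) := by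
  refine (Metric.isBounded_closedBall (x := z) (r := r + r)).subset fun w hw => ?_
  rw [Metric.mem_closedBall, dist_eq_norm]
  exact (Complex.norm_le_abs_re_add_abs_im _).trans (add_le_add hw.1 hw.2)

/-- the state part of a window is Borel, for EVERY `Z` -/
theorem pvsv_Wz_meas (m : ℕ) (z : ℂ) (t : τ) (Z : Set (ℤ × ℤ)) : MeasurableSet (pvilWz 𝔓 m z t Z) := (pvsv_fat_meas _ Z).inter (pvsv_wsq_meas _ _)

/-- the state part of a window is bounded, for EVERY `Z` (it is cut by the own-level box) -/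
theorem pvsv_Wz_bdd (m : ℕ) (z : ℂ) (t : τ) (Z : Set (ℤ × ℤ)) : Bornology.IsBounded (pvilWz 𝔓 m z t Z) := (pvsv_wsq_bdd _ _).subset inter_subset_right

theorem pvsv_door_meas {d : ℂ} (hd : d ≠ 0) (mO : MeasurableSet (𝔈.kit m ε).O₀) (z : ℂ) : MeasurableSet (pvieDoor 𝔈 m ε z d) := pvsv_sim_meas hd mO

theorem pvsv_door_bdd (bO : Bornology.IsBounded (𝔈.kit m ε).O₀) (z d : ℂ) : Bornology.IsBounded (pvieDoor 𝔈 m ε z d) := pvsv_sim_bdd z d bO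

theorem pvsv_Wno_meas (mM : MeasurableSet (𝔈.oM m t)) (mK : MeasurableSet (𝔈.oK m t)) (mO : MeasurableSet (𝔈.kit m ε).O₀) (hd : (𝔓.Γ m).dout t ≠ 0) (z : ℂ) (Z : Set (ℤ × ℤ)) :
    MeasurableSet (pvilWno 𝔓 𝔈 m ε z t Z) :=
  (((pvsv_Wz_meas 𝔓 m z t Z).union (pvsv_sh_meas z mM)).union (pvsv_sh_meas z mK)).union (pvsv_door_meas 𝔈 hd mO _)

theorem pvsv_Wno_bdd (bM : Bornology.IsBounded (𝔈.oM m t)) (bK : Bornology.IsBounded (𝔈.oK m t)) (bO : Bornology.IsBounded (𝔈.kit m ε).O₀) (z : ℂ) (Z : Set (ℤ × ℤ)) :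
    Bornology.IsBounded (pvilWno 𝔓 𝔈 m ε z t Z) :=
  (((pvsv_Wz_bdd 𝔓 m z t Z).union (pvsv_sh_bdd z bM)).union (pvsv_sh_bdd z bK)).union (pvsv_door_bdd 𝔈 bO _ _)

theorem pvsv_Wni_meas (mM : MeasurableSet (𝔈.iM m t)) (mK : MeasurableSet (𝔈.iK m t)) (mO : MeasurableSet (𝔈.kit m ε).O₀) (hd : (𝔓.Γ m).din t ≠ 0) (z : ℂ) (Z : Set (ℤ × ℤ)) :
    MeasurableSet (pvilWni 𝔓 𝔈 m ε z t Z) :=
  (((pvsv_Wz_meas 𝔓 m z t Z).union (pvsv_sh_meas z mM)).union (pvsv_sh_meas z mK)).union (pvsv_door_meas 𝔈 hd mO _)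

theorem pvsv_Wni_bdd (bM : Bornology.IsBounded (𝔈.iM m t)) (bK : Bornology.IsBounded (𝔈.iK m t)) (bO : Bornology.IsBounded (𝔈.kit m ε).O₀) (z : ℂ) (Z : Set (ℤ × ℤ)) :
    Bornology.IsBounded (pvilWni 𝔓 𝔈 m ε z t Z) :=
  (((pvsv_Wz_bdd 𝔓 m z t Z).union (pvsv_sh_bdd z bM)).union (pvsv_sh_bdd z bK)).union (pvsv_door_bdd 𝔈 bO _ _)

theorem pvsv_Wne_meas (mM : MeasurableSet (𝔈.eM m t)) (mK : MeasurableSet (𝔈.eK m t)) (mO : MeasurableSet (𝔈.rO m)) (z : ℂ) (Z : Set (ℤ × ℤ)) :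
    MeasurableSet (pvilWne 𝔓 𝔈 m z t Z) :=
  (((pvsv_Wz_meas 𝔓 m z t Z).union (pvsv_sh_meas z mM)).union (pvsv_sh_meas z mK)).union (pvsv_sh_meas _ mO)

theorem pvsv_Wne_bdd (bM : Bornology.IsBounded (𝔈.eM m t)) (bK : Bornology.IsBounded (𝔈.eK m t)) (bO : Bornology.IsBounded (𝔈.rO m)) (z : ℂ) (Z : Set (ℤ × ℤ)) :
    Bornology.IsBounded (pvilWne 𝔓 𝔈 m z t Z) :=
  (((pvsv_Wz_bdd 𝔓 m z t Z).union (pvsv_sh_bdd z bM)).union (pvsv_sh_bdd z bK)).union (pvsv_sh_bdd _ bO)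

theorem pvsv_Wnr_meas (mK : MeasurableSet (𝔈.rK m)) (mR : MeasurableSet (𝔈.rO m)) (mO : MeasurableSet (𝔈.kit m ε).O₀) (hd : (𝔓.Γ m).din0 ≠ 0) : MeasurableSet (pvilWnr 𝔓 𝔈 m ε) :=
  (mK.union mR).union (pvsv_door_meas 𝔈 hd mO _)

theorem pvsv_Wnr_bdd (bK : Bornology.IsBounded (𝔈.rK m)) (bR : Bornology.IsBounded (𝔈.rO m)) (bO : Bornology.IsBounded (𝔈.kit m ε).O₀) : Bornology.IsBounded (pvilWnr 𝔓 𝔈 m ε) :=
  (bK.union bR).union (pvsv_door_bdd 𝔈 bO _ _)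

/-- the two weights of record -/
theorem pvsv_W_QV (N : PvwNum) {L : PvilLk} (h : Bornology.IsBounded L.Yin) (hw : w = pvilQ ∨ w = pvilV) : PvsvW N L w := by
  rcases hw with rfl | rfl
  · exact pvsv_W_Q N h
  · exact pvsv_W_V N h

/-- **FIRST LINK, FROM THE REGIONS** -/
theorem pvsv_rg_o (hw : w = pvilQ ∨ w = pvilV) (bY : Bornology.IsBounded (𝔈.oY m t)) (bM : Bornology.IsBounded (𝔈.oM m t)) (bK : Bornology.IsBounded (𝔈.oK m t)) (bO : Bornology.IsBounded (𝔈.kit m ε).O₀)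
    (mM : MeasurableSet (𝔈.oM m t)) (mK : MeasurableSet (𝔈.oK m t)) (mO : MeasurableSet (𝔈.kit m ε).O₀) (hd : (𝔓.Γ m).dout t ≠ 0) :
    ∀ᵐ ω ∂pvP ε, ∀ (σ : ℂ → Bool) (Z : Set (ℤ × ℤ)) (F : Set ℂ),
      cfOf (cfSites ω) σ ∈ pvueSq (𝔈.kit m ε) ε (pvilEo 𝔓 𝔈 m ε w z t Z F) (pvieZo 𝔓 m z t) ((𝔓.Γ m).dout t) :=
  pvsv_sq_o 𝔓 𝔈 bY (pvsv_W_QV _ (pvsv_sh_bdd z bY) hw) ((pvsv_sh_meas z mK).union (pvsv_sim_meas hd mO)) (pvsv_Wno_meas 𝔓 𝔈 mM mK mO hd z) (fun Z _ => pvsv_Wno_bdd 𝔓 𝔈 bM bK bO z Z)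

/-- **LAST LINK, FROM THE REGIONS** -/
theorem pvsv_rg_i (hw : w = pvilQ ∨ w = pvilV) (bY : Bornology.IsBounded (𝔈.iY m t)) (bM : Bornology.IsBounded (𝔈.iM m t)) (bK : Bornology.IsBounded (𝔈.iK m t)) (bO : Bornology.IsBounded (𝔈.kit m ε).O₀)
    (mM : MeasurableSet (𝔈.iM m t)) (mK : MeasurableSet (𝔈.iK m t)) (mO : MeasurableSet (𝔈.kit m ε).O₀) (hd : (𝔓.Γ m).din t ≠ 0) :
    ∀ᵐ ω ∂pvP ε, ∀ (σ : ℂ → Bool) (Z : Set (ℤ × ℤ)) (F : Set ℂ),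
      cfOf (cfSites ω) σ ∈ pvueSq (𝔈.kit m ε) ε (pvilEi 𝔓 𝔈 m ε w z t Z F) (pvieZi 𝔓 m z t) ((𝔓.Γ m).din t) :=
  pvsv_sq_i 𝔓 𝔈 bY (pvsv_W_QV _ (pvsv_sh_bdd z bY) hw) ((pvsv_sh_meas z mK).union (pvsv_sim_meas hd mO)) (pvsv_Wni_meas 𝔓 𝔈 mM mK mO hd z) (fun Z _ => pvsv_Wni_bdd 𝔓 𝔈 bM bK bO z Z)

/-- **THICK LINK, FROM THE REGIONS**, in any Borel experiment `C` -/
theorem pvsv_rg_e (hw : w = pvilQ ∨ w = pvilV) (bY : Bornology.IsBounded (𝔈.eY m t)) (bM : Bornology.IsBounded (𝔈.eM m t)) (bK : Bornology.IsBounded (𝔈.eK m t)) (bO : Bornology.IsBounded (𝔈.rO m))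
    (mM : MeasurableSet (𝔈.eM m t)) (mK : MeasurableSet (𝔈.eK m t)) (mO : MeasurableSet (𝔈.rO m)) {C : Set ℂ} (mC : MeasurableSet C) :
    ∀ᵐ ω ∂pvP ε, ∀ (σ : ℂ → Bool) (Z : Set (ℤ × ℤ)) (F : Set ℂ),
      ∫⁻ p, ‖(pvilEe 𝔓 𝔈 m ε w z t Z F).X (pvdyR C (pvilEe 𝔓 𝔈 m ε w z t Z F).y (cfOf (cfSites ω) σ) p)‖ₑ ^ 2 *
        (pvilEe 𝔓 𝔈 m ε w z t Z F).A.indicator 1 (pvdyR C (pvilEe 𝔓 𝔈 m ε w z t Z F).y (cfOf (cfSites ω) σ) p) ∂pvdyNu ε ≠ ∞ :=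
  pvsv_sq_e 𝔓 𝔈 bY (pvsv_W_QV _ (pvsv_sh_bdd z bY) hw) mC (pvsv_Wne_meas 𝔓 𝔈 mM mK mO z) (fun Z _ => pvsv_Wne_bdd 𝔓 𝔈 bM bK bO z Z)

/-- **LINK INTO THE REFERENCE PLUG, FROM THE REGIONS** -/
theorem pvsv_rg_r (hw : w = pvilQ ∨ w = pvilV) (bY : Bornology.IsBounded (𝔈.rY m)) (mK : MeasurableSet (𝔈.rK m)) (mR : MeasurableSet (𝔈.rO m)) (mO : MeasurableSet (𝔈.kit m ε).O₀) (hd : (𝔓.Γ m).din0 ≠ 0) :
    ∫⁻ η, ‖pvilXr 𝔓 𝔈 m ε w η‖ₑ ^ 2 ∂pvP ε ≠ ∞ :=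
  pvsv_sq_r 𝔓 𝔈 bY (pvsv_W_QV _ bY hw) (pvsv_Wnr_meas 𝔓 𝔈 mK mR mO hd)

/-- the link into the reference plug INSIDE AN EXPERIMENT: a.e. geometry, all the colours of the base, all the recoloured sets -/
theorem pvsv_rg_r_base (hw : w = pvilQ ∨ w = pvilV) (bY : Bornology.IsBounded (𝔈.rY m)) (bK : Bornology.IsBounded (𝔈.rK m)) (bR : Bornology.IsBounded (𝔈.rO m)) (bO : Bornology.IsBounded (𝔈.kit m ε).O₀)
    (mK : MeasurableSet (𝔈.rK m)) (mR : MeasurableSet (𝔈.rO m)) (mO : MeasurableSet (𝔈.kit m ε).O₀) (hd : (𝔓.Γ m).din0 ≠ 0) {C : Set ℂ} (mC : MeasurableSet C) :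
    ∀ᵐ ω ∂pvP ε, ∀ (σ : ℂ → Bool) (y : Set ℂ), ∫⁻ p, ‖pvilXr 𝔓 𝔈 m ε w (pvdyR C (fun _ => y) (cfOf (cfSites ω) σ) p)‖ₑ ^ 2 ∂pvdyNu ε ≠ ∞ :=
  pvsv_link_base ε true (L := pvilLr 𝔓 𝔈 m) (fun h => by simp [pvilLr] at h) (fun h => by simp [pvilLr] at h) bY (pvsv_W_QV _ bY hw) mC (pvsv_Wnr_meas 𝔓 𝔈 mK mR mO hd) (pvsv_Wnr_bdd 𝔓 𝔈 bK bR bO) _

end reg

end Claimed.Agent.R289
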