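-- KEEP
import Claimed.Agent.R289.Tr.CycEL
import Claimed.Agent.R289.Tr.CycDI
import Claimed.Agent.R289.Tr.SqFin

/-!
# Row 289 (S0537), THE WALL, ROAD E, box TR-CYCI, file Tr/CycI : THE SECOND MOMENTS OF THE `Σ₁` CYCLE IN THE WORDS OF THE PRODUCER `Tr/CycEL` (102)      (helper161; prefix `pvcyi_`, `Pvcyi`)

WHAT IS OWED (split of 37 / 102): field `sqr` of `PvjgAna` (= of `Pvcz1Ref` of 37), fields `so se` of `PvjgBase` at almost every base.      SOURCE: `Tr/SqFin` of 193 (`pvsv_sq_r`, `pvsv_sq_oAt`, `pvsv_sq_e`).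
* sec. 1  MODEL FREE: **`pvcyi_sqr`** : admission of the two plugs + the a.e. forcing `frcr` + the PLAIN second moment `∫ |R.X|² < ∞`  ⟹  the weighted second moment (field `sqr` of `PvjgCyc`, `Pvcz1Ref`)
* sec. 2  BOUNDED REGIONS: `PvcyiBd 𝔈 m t` = the ONLY two lines which `PvieEng.Wf` does not contain (`oK m t`, `rK m` bounded: rfl-lemmas at the engine of record);   from `Wf`: `pvcyi_bO pvcyi_bDoor pvcyi_b_oM pvcyi_b_e pvcyi_b_rO`,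
          rooms `pvcyi_b_oY pvcyi_b_eY pvcyi_b_rY`, windows `pvcyi_b_Wz pvcyi_b_Wno pvcyi_b_Wne`
* sec. 3  AT `Tr/InstL`: **`pvcyi_sqr_L`** (field `sqr` of `PvjgAna`), **`pvcyi_so`**, **`pvcyi_se`** (`∀ᵐ ω, ω ∈ pvjgSqo ..`, `∀ᵐ ω, ω ∈ pvjgSqe ..`)
-/

set_option autoImplicit false
set_option linter.unusedSectionVars false

namespace Claimed.Agent.R289

open MeasureTheory Filter Topology Set Claims.C0465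
open scoped ENNReal

/-! ## 1. model free -/

/-- **THE WEIGHTED SECOND MOMENT OF THE LINK INTO THE REFERENCE PLUG** from the plain one: the density `g * gr * wr` is a.e. bounded by `μ(G₀)⁻¹ μ(rG)⁻¹ qr⁻¹` -/
theorem pvcyi_sqr {kit : PvthKit} {ε : ℝ} {R : PvjgRef} {qr : ℝ≥0∞} (hG : pvP ε kit.G₀ ≠ 0) (admr : pvP ε R.G ≠ 0) (qr0 : qr ≠ 0)
    (frcr : ∀ᵐ η ∂(pvP ε), η ∈ kit.G R.p R.d → η ∈ R.G → qr ≤ pvtiP (pvP ε) (R.Or kit) R.A η)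
    (h2 : ∫⁻ η, ‖R.X η‖ₑ ^ 2 ∂(pvP ε) ≠ ∞) :
    ∫⁻ η, ‖R.X η‖ₑ ^ 2 * (kit.g (pvP ε) R.p R.d η * R.gr ε 0 η * R.wr kit ε η) ∂(pvP ε) ≠ ∞ := by
  have hc : (pvP ε kit.G₀)⁻¹ * (pvP ε R.G)⁻¹ * qr⁻¹ ≠ ∞ :=
    ENNReal.mul_ne_top (ENNReal.mul_ne_top (ENNReal.inv_ne_top.2 hG) (ENNReal.inv_ne_top.2 admr)) (ENNReal.inv_ne_top.2 qr0)
  refine ne_top_of_le_ne_top (ENNReal.mul_ne_top h2 hc) ?_
  rw [← lintegral_mul_const' _ _ hc]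
  refine lintegral_mono_ae ?_
  filter_upwards [frcr] with η hη
  refine mul_le_mul_right ?_ _
  unfold PvthKit.g PvjgRef.gr PvjgRef.wr pvtiW
  rw [pvth_inv_id]
  have e : (cfMap id ⁻¹' R.G : Set (Conf PvPt)) = R.G := by
    ext ζ
    rw [mem_preimage, pvth_cfMap_id]
  rw [e]
  by_cases h1 : η ∈ kit.G R.p R.d
  · by_cases h3 : η ∈ R.G
    · rw [indicator_of_mem h1, indicator_of_mem h3, Pi.one_apply, one_div, one_div]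
      refine mul_le_mul_right ?_ _
      rw [div_eq_mul_inv]
      calc R.A.indicator 1 η * (pvtiP (pvP ε) (R.Or kit) R.A η)⁻¹ ≤ 1 * qr⁻¹ := by
            refine mul_le_mul' ?_ (ENNReal.inv_le_inv.2 (hη h1 h3))
            by_cases hA : η ∈ R.A
            · rw [indicator_of_mem hA]; rfl
            · rw [indicator_of_notMem hA]; exact zero_le
        _ = qr⁻¹ := one_mul _
    · rw [indicator_of_notMem h3, ENNReal.zero_div, mul_zero, zero_mul]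
      exact zero_le
  · rw [indicator_of_notMem h1, ENNReal.zero_div, zero_mul, zero_mul]
    exact zero_le

/-! ## 2. bounded regions -/

section bdd

variable {τ : Type} {c : ℝ} {𝔓 : PvxPar τ c} {𝔈 : PvieEng τ} {m0 : ℕ} {Cth : ℝ} {r κs : ℕ → ℝ} {m : ℕ} {t : τ}

/-- **THE TWO LINES ON THE REGIONS WHICH `PvieEng.Wf` DOES NOT CONTAIN**: the first tile and the tile of the link into the reference plug are bounded -/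
structure PvcyiBd (𝔈 : PvieEng τ) (m : ℕ) (t : τ) : Prop where
  oK : Bornology.IsBounded (𝔈.oK m t)
  rK : Bornology.IsBounded (𝔈.rK m)

theorem pvcyi_sq_bdd (a : ℂ) (ρ : ℝ) : Bornology.IsBounded (pvccSq a ρ) := by
  refine (Metric.isBounded_closedBall (x := a) (r := 2 * ρ)).subset fun w hw => ?_
  rw [Metric.mem_closedBall, dist_eq_norm]
  have h := Complex.norm_le_abs_re_add_abs_im (w - a)
  have h0 : pvccN (w - a) < ρ := hw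
  have h1 : |(w - a).re| ≤ pvccN (w - a) := le_max_left _ _
  have h2 : |(w - a).im| ≤ pvccN (w - a) := le_max_right _ _
  linarith

theorem pvcyi_wsq_bdd (a : ℂ) (ρ : ℝ) : Bornology.IsBounded (pvwSq a ρ) := by
  refine (Metric.isBounded_closedBall (x := a) (r := 2 * ρ)).subset fun w hw => ?_
  rw [Metric.mem_closedBall, dist_eq_norm]
  have h := Complex.norm_le_abs_re_add_abs_im (w - a)
  have h1 : |(w - a).re| ≤ ρ := hw.1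
  have h2 : |(w - a).im| ≤ ρ := hw.2
  linarith

theorem pvcyi_sh_sh (z : ℂ) (S : Set ℂ) : pvieSh (-z) (pvieSh z S) = S := by
  unfold pvieSh
  rw [image_image]
  simp

theorem pvcyi_bO (H : PvieEng.Wf 𝔓 𝔈 m0 Cth r κs) (m : ℕ) (ε : ℝ) : Bornology.IsBounded (𝔈.kit m ε).O₀ := (pvcyi_sq_bdd 0 (r m)).subset (H.kit_ref m ε).O_sub

theorem pvcyi_bDoor (H : PvieEng.Wf 𝔓 𝔈 m0 Cth r κs) (m : ℕ) (ε : ℝ) (z d : ℂ) : Bornology.IsBounded (pvieDoor 𝔈 m ε z d) := pvsv_sim_bdd z d (pvcyi_bO H m ε)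

theorem pvcyi_b_oM (H : PvieEng.Wf 𝔓 𝔈 m0 Cth r κs) (hm : m0 ≤ m) (ht : pviwTyOk 𝔓 t) : Bornology.IsBounded (𝔈.oM m t) := Metric.isBounded_closedBall.subset (H.oM_cen m hm t ht)

theorem pvcyi_b_e (H : PvieEng.Wf 𝔓 𝔈 m0 Cth r κs) (hm : m0 ≤ m) (ht : pviwTyOk 𝔓 t) : Bornology.IsBounded (𝔈.eM m t ∪ 𝔈.eK m t ∪ pviwRo 𝔓 𝔈 m t) :=
  Metric.isBounded_closedBall.subset (H.e_bdd m hm t ht)

theorem pvcyi_b_rO (H : PvieEng.Wf 𝔓 𝔈 m0 Cth r κs) (hm : m0 ≤ m) (ht : pviwTyOk 𝔓 t) : Bornology.IsBounded (𝔈.rO m) := by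
  have h : Bornology.IsBounded (pviwRo 𝔓 𝔈 m t) := (pvcyi_b_e H hm ht).subset subset_union_right
  have h2 := pvsv_sh_bdd (-(𝔓.Γ m).zu t) h
  unfold pviwRo at h2
  rwa [pvcyi_sh_sh] at h2

/-- the room of the first link -/
theorem pvcyi_b_oY (H : PvieEng.Wf 𝔓 𝔈 m0 Cth r κs) (hm : m0 ≤ m) (ht : pviwTyOk 𝔓 t) (hB : PvcyiBd 𝔈 m t) : Bornology.IsBounded (𝔈.oY m t) :=
  (((pvcyi_b_oM H hm ht).union hB.oK).union (pvcyi_bDoor H m 1 _ _)).subset (H.oY_sub m hm 1 t ht)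

/-- the room of the thick link -/
theorem pvcyi_b_eY (H : PvieEng.Wf 𝔓 𝔈 m0 Cth r κs) (hm : m0 ≤ m) (ht : pviwTyOk 𝔓 t) : Bornology.IsBounded (𝔈.eY m t) := (pvcyi_b_e H hm ht).subset (H.eY_sub m hm t ht)

/-- the room of the link into the reference plug -/
theorem pvcyi_b_rY (H : PvieEng.Wf 𝔓 𝔈 m0 Cth r κs) (hm : m0 ≤ m) (ht : pviwTyOk 𝔓 t) (hB : PvcyiBd 𝔈 m t) : Bornology.IsBounded (𝔈.rY m) :=
  ((hB.rK.union (pvcyi_b_rO H hm ht)).union (pvcyi_bDoor H m 1 _ _)).subset (H.rY_sub m hm 1)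

/-- the carried part of a window is bounded, WHATEVER THE HULL -/
theorem pvcyi_b_Wz (𝔓 : PvxPar τ c) (m : ℕ) (z : ℂ) (t : τ) (Z : Set (ℤ × ℤ)) : Bornology.IsBounded (pvilWz 𝔓 m z t Z) := (pvcyi_wsq_bdd _ _).subset inter_subset_right

theorem pvcyi_b_Wno (H : PvieEng.Wf 𝔓 𝔈 m0 Cth r κs) (hm : m0 ≤ m) (ht : pviwTyOk 𝔓 t) (hB : PvcyiBd 𝔈 m t) (ε : ℝ) (z : ℂ) (Z : Set (ℤ × ℤ)) : Bornology.IsBounded (pvilWno 𝔓 𝔈 m ε z t Z) :=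
  (((pvcyi_b_Wz 𝔓 m z t Z).union (pvsv_sh_bdd z (pvcyi_b_oM H hm ht))).union (pvsv_sh_bdd z hB.oK)).union (pvcyi_bDoor H m ε _ _)

theorem pvcyi_b_Wne (H : PvieEng.Wf 𝔓 𝔈 m0 Cth r κs) (hm : m0 ≤ m) (ht : pviwTyOk 𝔓 t) (z : ℂ) (Z : Set (ℤ × ℤ)) : Bornology.IsBounded (pvilWne 𝔓 𝔈 m z t Z) :=
  (((pvcyi_b_Wz 𝔓 m z t Z).union (pvsv_sh_bdd z ((pvcyi_b_e H hm ht).subset (subset_union_left.trans subset_union_left)))).union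
    (pvsv_sh_bdd z ((pvcyi_b_e H hm ht).subset (subset_union_right.trans subset_union_left)))).union (pvsv_sh_bdd _ (pvcyi_b_rO H hm ht))

end bdd

/-! ## 3. at `Tr/InstL`, in the words of `Tr/CycEL` -/

section instl

variable {τ : Type} {c : ℝ} {𝔓 : PvxPar τ c} {𝔈 : PvieEng τ} {m0 : ℕ} {Cth : ℝ} {r κs : ℕ → ℝ} {m : ℕ} {t : τ} {ε : ℝ}

/-- the plain second moment of the link into the reference plug -/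
theorem pvcyi_sqr0 (H : PvieEng.Wf 𝔓 𝔈 m0 Cth r κs) (hm : m0 ≤ m) (ht : pviwTyOk 𝔓 t) (hB : PvcyiBd 𝔈 m t) (hk : (𝔈.kit m ε).WF) :
    ∫⁻ η, ‖pvilXr 𝔓 𝔈 m ε pvilQ η‖ₑ ^ 2 ∂pvP ε ≠ ∞ :=
  pvsv_sq_r 𝔓 𝔈 (pvcyi_b_rY H hm ht hB) (pvsv_W_Q 𝔓.num (L := pvilLr 𝔓 𝔈 m) (pvcyi_b_rY H hm ht hB))
    (((H.m_rK m).union (H.m_rO m)).union (pvjh_sim_meas _ (pvjg_din0_ne 𝔓 m t) hk.mO))

/-- **FIELD `sqr` OF `PvjgAna`** -/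
theorem pvcyi_sqr_L {qr : ℝ≥0∞} (H : PvieEng.Wf 𝔓 𝔈 m0 Cth r κs) (hm : m0 ≤ m) (ht : pviwTyOk 𝔓 t) (hB : PvcyiBd 𝔈 m t) (hk : (𝔈.kit m ε).WF)
    (hG : pvP ε (𝔈.kit m ε).G₀ ≠ 0) (admr : pvP ε (𝔈.rG m ε) ≠ 0) (qr0 : qr ≠ 0)
    (frcr : ∀ᵐ η ∂(pvP ε), η ∈ (𝔈.kit m ε).G (𝔓.Γ m).pin0 (𝔓.Γ m).din0 → η ∈ 𝔈.rG m ε → qr ≤ pvtiP (pvP ε) (pvieOr 𝔓 𝔈 m ε) (pvilAr 𝔓 𝔈 m ε pvilQ) η) :
    ∫⁻ η, ‖pvilXr 𝔓 𝔈 m ε pvilQ η‖ₑ ^ 2 * ((𝔈.kit m ε).g (pvP ε) (𝔓.Γ m).pin0 (𝔓.Γ m).din0 η * pvieGr 𝔈 m ε 0 η * pvilWr 𝔓 𝔈 m ε pvilQ η) ∂(pvP ε) ≠ ∞ :=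
  pvcyi_sqr (kit := 𝔈.kit m ε) (R := pvjgRefW 𝔓 𝔈 pvilQ m ε) hG admr qr0 frcr (pvcyi_sqr0 H hm ht hB hk)

/-- **FIELD `so` OF `PvjgBase`, AT ALMOST EVERY BASE** -/
theorem pvcyi_so (H : PvieEng.Wf 𝔓 𝔈 m0 Cth r κs) (hm : m0 ≤ m) (ht : pviwTyOk 𝔓 t) (hB : PvcyiBd 𝔈 m t) (hk : (𝔈.kit m ε).WF) (z : ℂ) :
    ∀ᵐ ω ∂pvP ε, ω ∈ pvjgSqo 𝔓 𝔈 m ε z t := by
  have h := pvsv_sq_o 𝔓 𝔈 (m := m) (ε := ε) (w := pvilQ) (z := z) (t := t) (pvcyi_b_oY H hm ht hB)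
    (pvsv_W_Q 𝔓.num (L := pvilLo 𝔓 𝔈 m z t) (pvsv_sh_bdd z (pvcyi_b_oY H hm ht hB)))
    ((pvjh_sh_meas z (H.m_oK m t)).union (pvjh_sim_meas _ (pvth_ne_zero ((𝔓.Γ m).dout1 t)) hk.mO))
    (fun Z => pvjh_Wno_meas H hk z t Z) (fun Z _ => pvcyi_b_Wno H hm ht hB ε z Z)
  have h' : ∀ᵐ ω ∂pvP ε, ∀ σ : ℂ → Bool, cfOf (cfSites ω) σ ∈ pvjgSqo 𝔓 𝔈 m ε z t := by
    filter_upwards [h] with ω hω σ
    unfold pvjgSqo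
    rw [mem_ofPred_eq, pvjg_sq_door]
    exact hω σ _ _
  exact pvsv_ae_self h'

/-- **FIELD `se` OF `PvjgBase`, AT ALMOST EVERY BASE** -/
theorem pvcyi_se (H : PvieEng.Wf 𝔓 𝔈 m0 Cth r κs) (hm : m0 ≤ m) (ht : pviwTyOk 𝔓 t) (z : ℂ) :
    ∀ᵐ ω ∂pvP ε, ω ∈ pvjgSqe 𝔓 𝔈 m ε z t := by
  have h := pvsv_sq_e 𝔓 𝔈 (m := m) (ε := ε) (w := pvilQ) (z := z) (t := t) (pvcyi_b_eY H hm ht)
    (pvsv_W_Q 𝔓.num (L := pvilLe 𝔓 𝔈 m z t) (pvsv_sh_bdd z (pvcyi_b_eY H hm ht)))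
    (C := pvieSh z (𝔈.eK m t) ∪ pvieSh (pvieZu 𝔓 m z t) (𝔈.rO m)) ((pvjh_sh_meas z (H.m_eK m t)).union (pvjh_sh_meas _ (H.m_rO m)))
    (fun Z => pvjh_Wne_meas H m z t Z) (fun Z _ => pvcyi_b_Wne H hm ht z Z)
  have h' : ∀ᵐ ω ∂pvP ε, ∀ σ : ℂ → Bool, cfOf (cfSites ω) σ ∈ pvjgSqe 𝔓 𝔈 m ε z t := by
    filter_upwards [h] with ω hω σ
    unfold pvjgSqe
    rw [mem_ofPred_eq]
    exact hω σ _ _
  exact pvsv_ae_self h'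

end instl

end Claimed.Agent.R289
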