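import Claimed.Agent.R289.Tr.LinkF
import Claimed.Agent.R289.Tr.SoftE
import Claimed.Agent.R289.Tr.BuThick
import Claimed.Agent.R289.Tr.Sure

/-!
# Row 289 (S0537), box TR-LINKG, file Tr/LinkG : E10, **THE ROOF OF THE FORCED HALF OF `Gd` FOR THE HYBRID END LINKS**      (helper250; prefix `pvlhg_`, `Pvlhg`)

MODEL FREE.   CONCLUSION = `ω ∈ pvueForced kit ε b e z d q` of 141 (`Tr/SoftE` sec. 8) VERBATIM = `Qo Qi` of `pvue_chain_own`, for an end link `e : PvkyEnd` of the shape of `Tr/InstL` (168):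
`e.y` = CONSTANT `y₀` (mouth minus frozen positions of the base), `e.A = pvsuSure (pvP ε) (Wn ×ˢ univ) M` (soft localisation of the PLAIN success `M` at the deterministic window `Wn`).      `K = e.K` (tile), `D = pvkyDoor kit z d` (door).
WHAT THE MODEL OWES AT THE BASE `ω`:
* (CERT)  `ω ∈ pvayGood2 ε K O 𝒦 t θ` (196): `𝒦` = the whole pattern (lanes, C-shapes, meshes) read on the COPY colouring in the window `O`, `O` off the door;
* (DOOR)  pointwise, kit only: `pvkyFl b η ∈ kit.G z d → b₀ ≤ pvtiP (pvP ε) (D ×ˢ univ) ℋ η`, `ℋ` = the JOINT side event of the door, read over `D ∪ K`;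
* (UP)    at every site set `Y` whose window extends to a nice configuration (`PvlhgRg Wn 𝒩 Y`), door sites frozen, no frozen site in `K ∪ y₀`: ONE mixed order for the section of `ℋ` and the copy section of `𝒦` (`pvlhf_up`, `pvlh_up_*`);
* (DET)   PURELY DETERMINISTIC, `η`-form: `η ∈ 𝒩`, `η = ω` on `Wn \ (K ∪ D)` (same sites, same colours off `y₀`), door usable in `η`, `η ∈ ℋ`, `cfOf (cfSites η) τ ∈ 𝒦`, `τ` = the colours of `η` on the sites of `Wn` in `K ∪ y₀`   ⟹   `η ∈ M`;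
* (NICE)  for a.e. seed `p` of the own experiment and a.e. `ξ`: `R ω p` completed by `ξ` off `Wn` is in `𝒩`;   `𝒩` = ANY measurable almost sure event (COLOUR DEPENDENT null sets allowed: `Sure ⟹ plain` for the door, `DelGood`, ..).
* sec. 1  `pvlhgSn ε Wn 𝒩` (surely nice), `PvlhgRg Wn 𝒩 Y`, `pvlhg_geo_null` (colour free null events: configuration ⟹ labelled geometry, outer measures)
* sec. 2  **`pvlhg_link`** (G0): the link at a simple configuration, `c`-form of (DET);   NO a.e. in `τ`, `g`: the success is enlarged by the not surely nice configurations, which cost nothing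
* sec. 3  `pvlhg_nested` (null sets along the nested experiment: `pvky_R_at` of 218), **`pvlhg_forced`** (G1): abstract door `(D, G)` (also the thick link with the reference plug)
* sec. 4  **`pvlhg_forced_end`** (G2) = the roof in the names of 141 / 218
* sec. 5  **`pvlhg_nice_up`** : (NICE) holds off an event of upper probability `0` (`PvktStop`, `pvkt_inv_gen` of 103; countable family of windows);   **`pvlhg_cost`** (G3): `(pvhbUp ε).P {U \ Frc} ≤ ∑ j, pvGeo ε {pvQc (𝒦 j) < t} / θ`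
0 sorry
-/

set_option autoImplicit false
set_option linter.unusedSectionVars false
set_option linter.unusedVariables false

namespace Claimed.Agent.R289

open MeasureTheory ProbabilityTheory Set Claims.C0465
open scoped ENNReal

/-! ## 1. surely nice configurations -/

section nice

/-- **the configurations which are SURELY NICE given their window `Wn`** -/
def pvlhgSn (ε : ℝ) (Wn : Set ℂ) (𝒩 : Set (Conf PvPt)) : Set (Conf PvPt) := {c | ∀ᵐ ξ ∂pvP ε, Conf.spl (Wn ×ˢ (univ : Set Bool)) (c, ξ) ∈ 𝒩}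

/-- **the site sets whose window extends to a nice configuration** -/
def PvlhgRg (Wn : Set ℂ) (𝒩 : Set (Conf PvPt)) (Y : Set ℂ) : Prop := ∃ η ∈ 𝒩, cfSites η ∩ Wn = Y ∩ Wn

theorem pvlhg_eqns_cite : True := by
  have := @pvlhgSn.eq_1; have := @PvlhgRg.eq_1
  trivial

theorem pvlhg_sn_meas (ε : ℝ) {Wn : Set ℂ} (mW : MeasurableSet Wn) {𝒩 : Set (Conf PvPt)} (mN : MeasurableSet 𝒩) : MeasurableSet (pvlhgSn ε Wn 𝒩) := by
  have := (pv_isPpp ε).prob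
  have hW : MeasurableSet (Wn ×ˢ (univ : Set Bool)) := mW.prod MeasurableSet.univ
  have hS : MeasurableSet (Conf.spl (Wn ×ˢ (univ : Set Bool)) ⁻¹' 𝒩ᶜ) := Conf.measurable_spl hW mN.compl
  have e : pvlhgSn ε Wn 𝒩 = {c | pvP ε (Prod.mk c ⁻¹' (Conf.spl (Wn ×ˢ (univ : Set Bool)) ⁻¹' 𝒩ᶜ)) = 0} := by
    ext c
    simp only [pvlhgSn, mem_ofPred_eq, ae_iff]
    rfl
  rw [e]
  exact (measurable_measure_prodMk_left hS) (measurableSet_singleton 0)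

theorem pvlhg_sites_spl (Wn : Set ℂ) (c ξ : Conf PvPt) : cfSites (Conf.spl (Wn ×ˢ (univ : Set Bool)) (c, ξ)) ∩ Wn = cfSites c ∩ Wn := by
  rw [← pvay_sites_restr, ← pvay_sites_restr, Conf.restr_spl]

theorem pvlhg_col_spl {Wn : Set ℂ} (c ξ : Conf PvPt) {z : ℂ} (hz : z ∈ Wn) : cfCol (Conf.spl (Wn ×ˢ (univ : Set Bool)) (c, ξ)) z = cfCol c z := by
  classical
  unfold cfCol
  congr 1
  simp only [Conf.spl, Conf.union, Conf.restr, mem_union, mem_inter_iff, mem_prod, mem_univ, and_true, mem_compl_iff, hz, not_true_eq_false, and_false, or_false]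

theorem pvlhg_rg_of_sn {ε : ℝ} {Wn : Set ℂ} {𝒩 : Set (Conf PvPt)} {c : Conf PvPt} (h : c ∈ pvlhgSn ε Wn 𝒩) : PvlhgRg Wn 𝒩 (cfSites c) := by
  have := (pv_isPpp ε).prob
  obtain ⟨ξ, hξ⟩ := (show ∀ᵐ ξ ∂pvP ε, Conf.spl (Wn ×ˢ (univ : Set Bool)) (c, ξ) ∈ 𝒩 from h).exists
  exact ⟨_, hξ, pvlhg_sites_spl Wn c ξ⟩

/-- a colour free null event of the configuration is a null event of the labelled geometry (OUTER measures) -/
theorem pvlhg_geo_null (ε : ℝ) {Φ : Set ℂ → Prop} (h : pvP ε {η | Φ (cfSites η)} = 0) : pvGeo ε {g | Φ (pvgSites g)} = 0 := by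
  rw [← pvax_sites_eq]
  refine le_antisymm (le_trans ?_ h.le) zero_le
  exact Measure.le_map_apply measurable_pvConf.aemeasurable _

end nice

/-! ## 2. the link at a simple configuration -/

section link

/-- **(G0) THE FORCED HALF OF A HYBRID LINK WITH A SOFT SUCCESS**, at the configuration `cfOf Y s`;   `c`-form of (DET) -/
theorem pvlhg_link {ε : ℝ} {K D Wn y₀ : Set ℂ} (mK : MeasurableSet K) (mD : MeasurableSet D) (mW : MeasurableSet Wn) (hDK : Disjoint D K)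
    {ℋ 𝒦 𝒩 M : Set (Conf PvPt)} (mH : MeasurableSet ℋ) (rH : Conf.ReadsSet ((D ∪ K) ×ˢ univ) ℋ) (mP : MeasurableSet 𝒦) (mN : MeasurableSet 𝒩)
    {t θ b₀ : ℝ≥0∞} {Y : Set ℂ} (hY : Y.Countable) (s : ℂ → Bool) (hDy : Disjoint (Y ∩ D) y₀)
    (hb : b₀ ≤ pvtiP (pvP ε) (D ×ˢ univ) ℋ (cfOf Y s))
    (hcert : pvGeo ε {g | pvayQ (pvdyYc K Y (pvgSites g)) 𝒦 < t} ≤ θ)
    (hnice : pvdyQ ε K (fun _ => y₀) (pvlhgSn ε Wn 𝒩)ᶜ (cfOf Y s) = 0)
    (hup : ∀ g, PvlhgRg Wn 𝒩 (pvdyYc K Y (pvgSites g)) → ∃ sg : ℂ → Option Bool, {z | sg z ≠ none}.Countable ∧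
      PvlhUp sg (pvlhSec (pvdyYc K Y (pvgSites g)) (pvdyFz K (fun _ => y₀) Y s) s ℋ) ∧ PvlhUp sg (pvlhCp (pvdyYc K Y (pvgSites g)) 𝒦))
    (hdet : ∀ (g : PvGeoT) (τ : ℂ → Bool) (ξ : Conf PvPt),
      Conf.spl (Wn ×ˢ (univ : Set Bool)) (cfOf (pvdyYc K Y (pvgSites g)) (pvfqMix (pvdyFz K (fun _ => y₀) Y s) (s, τ)), ξ) ∈ 𝒩 →
      cfOf (pvdyYc K Y (pvgSites g)) (pvfqMix (pvdyFz K (fun _ => y₀) Y s) (s, τ)) ∈ ℋ → cfOf (pvdyYc K Y (pvgSites g)) τ ∈ 𝒦 →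
      Conf.spl (Wn ×ˢ (univ : Set Bool)) (cfOf (pvdyYc K Y (pvgSites g)) (pvfqMix (pvdyFz K (fun _ => y₀) Y s) (s, τ)), ξ) ∈ M) :
    t * (b₀ - θ) ≤ pvdyQ ε K (fun _ => y₀) (pvsuSure (pvP ε) (Wn ×ˢ univ) M) (cfOf Y s) := by
  have := (pv_isPpp ε).prob
  have hW : MeasurableSet (Wn ×ˢ (univ : Set Bool)) := mW.prod MeasurableSet.univ
  have mSn := pvlhg_sn_meas ε mW mN
  have mSu : MeasurableSet (pvsuSure (pvP ε) (Wn ×ˢ univ) M) := pvsu_sure_measurable hW M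
  -- the geometries of the seed whose combined window is not regular are negligible
  have hB2 : pvGeo ε {g | ¬ PvlhgRg Wn 𝒩 (pvdyYc K Y (pvgSites g))} = 0 := by
    refine pvlhg_geo_null ε (Φ := fun S => ¬ PvlhgRg Wn 𝒩 (pvdyYc K Y S)) ?_
    have h1 : (univ : Set (ℂ → Bool)) ×ˢ {η : Conf PvPt | ¬ PvlhgRg Wn 𝒩 (pvdyYc K Y (cfSites η))} ⊆ {p | pvdyR K (fun _ => y₀) (cfOf Y s) p ∈ (pvlhgSn ε Wn 𝒩)ᶜ} := by
      rintro p ⟨-, hp⟩ hS
      refine hp ?_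
      have := pvlhg_rg_of_sn hS
      rwa [pvdy_sites_R, cfOf_sites] at this
    have h2 : pvdyNu ε ((univ : Set (ℂ → Bool)) ×ˢ {η : Conf PvPt | ¬ PvlhgRg Wn 𝒩 (pvdyYc K Y (cfSites η))}) = 0 := measure_mono_null h1 hnice
    unfold pvdyNu at h2
    rwa [Measure.prod_prod, measure_univ, one_mul] at h2
  have hB : pvGeo ε ({g | pvayQ (pvdyYc K Y (pvgSites g)) 𝒦 < t} ∪ {g | ¬ PvlhgRg Wn 𝒩 (pvdyYc K Y (pvgSites g))}) ≤ θ := by
    refine (measure_union_le _ _).trans ?_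
    rw [hB2, add_zero]
    exact hcert
  have key := pvlh_link ε mK mD (fun _ => y₀) hY s hDK hDy mH (mSu.union mSn.compl) rH _ (q := t) hb hB [()]
    (fun g _ => pvlhCp (pvdyYc K Y (pvgSites g)) 𝒦)
    (fun g hg => by
      obtain ⟨sg, hs, u1, u2⟩ := hup g (not_not.1 fun hh => hg (Or.inr hh))
      exact ⟨sg, hs, u1, fun _ _ => u2⟩)
    (fun g hg _ _ => ⟨pvlh_cp_meas (pvdy_Yc_countable hY (pvf_sites_countable g)) mP, not_lt.1 fun hh => hg (Or.inl hh)⟩)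
    (fun g hg τ hτ hK => by
      by_cases hc : cfOf (pvdyYc K Y (pvgSites g)) (pvfqMix (pvdyFz K (fun _ => y₀) Y s) (s, τ)) ∈ pvlhgSn ε Wn 𝒩
      · refine Or.inl ?_
        refine pvsu_P_of_ae ?_
        filter_upwards [hc] with ξ hξ
        exact subset_toMeasurable _ _ (hdet g τ ξ hξ hτ (hK () (List.mem_singleton.2 rfl)))
      · exact Or.inr hc)
  have h3 : pvdyQ ε K (fun _ => y₀) (pvsuSure (pvP ε) (Wn ×ˢ univ) M ∪ (pvlhgSn ε Wn 𝒩)ᶜ) (cfOf Y s) ≤ pvdyQ ε K (fun _ => y₀) (pvsuSure (pvP ε) (Wn ×ˢ univ) M) (cfOf Y s) := by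
    have h4 : pvdyQ ε K (fun _ => y₀) (pvsuSure (pvP ε) (Wn ×ˢ univ) M ∪ (pvlhgSn ε Wn 𝒩)ᶜ) (cfOf Y s)
        ≤ pvdyQ ε K (fun _ => y₀) (pvsuSure (pvP ε) (Wn ×ˢ univ) M) (cfOf Y s) + pvdyQ ε K (fun _ => y₀) (pvlhgSn ε Wn 𝒩)ᶜ (cfOf Y s) := measure_union_le _ _
    rwa [hnice, add_zero] at h4
  refine le_trans ?_ (key.trans h3)
  simp

end link

/-! ## 3. along the own experiment of the link -/

section own

theorem pvlhg_restr_cfOf {S Y Y' : Set ℂ} {a a' : ℂ → Bool} (h : ∀ z ∈ S, (z ∈ Y ↔ z ∈ Y') ∧ (z ∈ Y → a z = a' z)) :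
    Conf.restr (S ×ˢ (univ : Set Bool)) (cfOf Y a) = Conf.restr (S ×ˢ (univ : Set Bool)) (cfOf Y' a') := by
  ext x
  simp only [Conf.restr, cfOf, mem_inter_iff, mem_ofPred_eq, mem_prod, mem_univ, and_true]
  constructor
  · rintro ⟨⟨h1, h2⟩, h3⟩
    exact ⟨⟨((h _ h3).1).1 h1, by rw [h2, (h _ h3).2 h1]⟩, h3⟩
  · rintro ⟨⟨h1, h2⟩, h3⟩
    have h4 := ((h _ h3).1).2 h1
    exact ⟨⟨h4, by rw [h2, (h _ h3).2 h4]⟩, h3⟩

/-- the resampled configuration has one colour per site -/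
theorem pvlhg_R_one {C : Set ℂ} {yf : Conf PvPt → Set ℂ} {ω : Conf PvPt} {p : (ℂ → Bool) × Conf PvPt} (h1 : ∀ x ∈ p.2.pts, ∀ x' ∈ p.2.pts, x.1 = x'.1 → x = x') :
    ∀ x ∈ (pvdyR C yf ω p).pts, ∀ x' ∈ (pvdyR C yf ω p).pts, x.1 = x'.1 → x = x' := by
  intro x hx x' hx' e
  rcases pvdy_mem_R.1 hx with ⟨a1, a2, a3⟩ | ⟨a1, a2⟩ <;> rcases pvdy_mem_R.1 hx' with ⟨b1, b2, b3⟩ | ⟨b1, b2⟩
  · exact Prod.ext e (by rw [a3, b3, e])
  · exact absurd (e ▸ b1) a1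
  · exact absurd (e ▸ a1) b1
  · exact h1 x a2 x' b2 e

/-- **NULL SETS ALONG THE NESTED EXPERIMENT**: what holds for almost every seed of the experiment `(C, y₀)` holds for almost every seed of `(C, y₀)` followed by almost every seed of `(K, y₀)`, `K ⊆ C` -/
theorem pvlhg_nested (ε : ℝ) {K C y₀ : Set ℂ} (mK : MeasurableSet K) (hKC : K ⊆ C) (hy : Disjoint y₀ C) (ω : Conf PvPt) {Φ : Conf PvPt → Prop}
    (h : ∀ᵐ p ∂pvdyNu ε, Φ (pvdyR C (fun _ => y₀) ω p)) : ∀ᵐ p ∂pvdyNu ε, ∀ᵐ p' ∂pvdyNu ε, Φ (pvdyR K (fun _ => y₀) (pvdyR C (fun _ => y₀) ω p) p') := by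
  have := (pv_isPpp ε).prob
  have rs : PvtkRs (pvkeLaw ℂ (pvP ε)) (pvkeAt y₀ (K ×ˢ (univ : Set Bool))) := pvke_rs_at (pv_isPpp ε) y₀ (mK.prod MeasurableSet.univ)
  have hq : Measure.QuasiMeasurePreserving (pvkeAt y₀ (K ×ˢ (univ : Set Bool))) ((pvkeLaw ℂ (pvP ε)).prod (pvkeLaw ℂ (pvP ε))) (pvkeLaw ℂ (pvP ε)) :=
    ⟨rs.meas, by rw [rs.law]⟩
  have h2 : ∀ᵐ x ∂(pvkeLaw ℂ (pvP ε)), ∀ᵐ x' ∂(pvkeLaw ℂ (pvP ε)), Φ (pvdyR C (fun _ => y₀) ω (pvkeAt y₀ (K ×ˢ (univ : Set Bool)) (x, x'))) :=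
    Measure.ae_ae_of_ae_prod (hq.ae h)
  show ∀ᵐ p ∂(pvkeLaw ℂ (pvP ε)), ∀ᵐ p' ∂(pvkeLaw ℂ (pvP ε)), _
  filter_upwards [h2, pvky_ae_one ε] with x hx h1
  filter_upwards [hx] with x' hx'
  rw [pvky_R_at (y := fun _ => y₀) (yf := fun _ => y₀) hKC subset_rfl hy h1 (fun _ _ _ => Iff.rfl) x']
  exact hx'

/-- **(G1) THE FORCED HALF OF `Gd` FOR A HYBRID END LINK, AT THE BASE CONFIGURATION `ω`**.
`K` = tile, `D` = region of the door plug, `y₀` = the fresh sites (CONSTANT in the experiment), `Wn` = the deterministic window of the link, `M` = the PLAIN success, `G` = the door plug is usable (read in `D`),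
`ℋ` = the JOINT side event of the door (read over `D ∪ K`), `𝒦` = the whole pattern, read on the COPY colouring in the window `O` (off the door), `𝒩` = the nice configurations. -/
theorem pvlhg_forced {ε : ℝ} {K D O Wn y₀ : Set ℂ} (mK : MeasurableSet K) (mD : MeasurableSet D) (mO : MeasurableSet O) (bO : Bornology.IsBounded O) (mW : MeasurableSet Wn)
    (hDK : Disjoint D K) (hOD : Disjoint O D) (hy : Disjoint y₀ (K ∪ D)) (hKW : K ⊆ Wn) (hDW : D ⊆ Wn) (hOW : O ⊆ Wn)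
    {G ℋ 𝒦 𝒩 M : Set (Conf PvPt)} (rG : Conf.ReadsSet (D ×ˢ univ) G) (mH : MeasurableSet ℋ) (rH : Conf.ReadsSet ((D ∪ K) ×ˢ univ) ℋ)
    (mP : MeasurableSet 𝒦) (rP : Conf.ReadsSet (O ×ˢ univ) 𝒦) (mN : MeasurableSet 𝒩) {t θ b₀ : ℝ≥0∞}
    (hG : ∀ η ∈ G, b₀ ≤ pvtiP (pvP ε) (D ×ˢ univ) ℋ η)
    {ω : Conf PvPt} (hω : PvayWin O ω) (hcnt : (cfSites ω).Countable) (cert : ω ∈ pvayGood2 ε K O 𝒦 t θ)
    (nice : ∀ᵐ p ∂pvdyNu ε, ∀ᵐ ξ ∂pvP ε, Conf.spl (Wn ×ˢ (univ : Set Bool)) (pvdyR (K ∪ D) (fun _ => y₀) ω p, ξ) ∈ 𝒩)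
    (hup : ∀ (Y Fz : Set ℂ) (s : ℂ → Bool), Y.Countable → PvlhgRg Wn 𝒩 Y → Fz ⊆ Y → (∀ z ∈ Y, z ∈ D → z ∈ Fz) → (∀ z ∈ Fz, z ∉ K ∧ z ∉ y₀) →
      ∃ sg : ℂ → Option Bool, {z | sg z ≠ none}.Countable ∧ PvlhUp sg (pvlhSec Y Fz s ℋ) ∧ PvlhUp sg (pvlhCp Y 𝒦))
    (hdet : ∀ (η : Conf PvPt) (τ : ℂ → Bool), η ∈ 𝒩 → (∀ z ∈ Wn, z ∉ K ∪ D → (z ∈ cfSites η ↔ z ∈ cfSites ω)) →
      (∀ z ∈ cfSites ω, z ∈ Wn → z ∉ K ∪ D → z ∉ y₀ → cfCol η z = cfCol ω z) → η ∈ G → η ∈ ℋ → cfOf (cfSites η) τ ∈ 𝒦 →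
      (∀ z ∈ cfSites η, z ∈ Wn → (z ∈ K ∨ z ∈ y₀) → cfCol η z = τ z) → η ∈ M) :
    ∀ᵐ p ∂pvdyNu ε, pvdyR (K ∪ D) (fun _ => y₀) ω p ∈ G →
      t * (b₀ - θ) ≤ pvdyQ ε K (fun _ => y₀) (pvsuSure (pvP ε) (Wn ×ˢ univ) M) (pvdyR (K ∪ D) (fun _ => y₀) ω p) := by
  have := (pv_isPpp ε).prob
  have hn2 := pvlhg_nested ε mK subset_union_left hy ω (Φ := fun c => c ∈ pvlhgSn ε Wn 𝒩) nice
  have hLF : ∀ᵐ p ∂pvdyNu ε, PvLF p.2 := by
    unfold pvdyNu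
    exact Measure.quasiMeasurePreserving_snd.ae (pvcn_LF_ae ε)
  have h1' : ∀ᵐ p ∂pvdyNu ε, ∀ x ∈ p.2.pts, ∀ x' ∈ p.2.pts, x.1 = x'.1 → x = x' := pvky_ae_one ε
  have hc0 := pvay_good2_geo mK mO bO mP rP hω cert
  filter_upwards [hn2, hLF, h1'] with p hp hlf h1 hpG
  -- the resampled configuration
  have hone := pvlhg_R_one (C := K ∪ D) (yf := fun _ => y₀) (ω := ω) h1
  have eσ := pvay_conf_of hone
  have eY := pvdy_sites_R (K ∪ D) (fun _ => y₀) ω p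
  generalize hσ : pvdyR (K ∪ D) (fun _ => y₀) ω p = σ' at *
  have hY' : (cfSites σ').Countable := by
    rw [eY]
    exact (hcnt.mono sdiff_subset).union ((pvdy_countable_of_LF hlf).mono inter_subset_left)
  have mem' : ∀ z, z ∉ K ∪ D → (z ∈ cfSites σ' ↔ z ∈ cfSites ω) := by
    intro z hz
    rw [eY]
    simp only [mem_union, mem_sdiff, mem_inter_iff] at hz ⊢
    tauto
  have hDy : Disjoint (cfSites σ' ∩ D) y₀ := Set.disjoint_left.2 fun z hz hz' => Set.disjoint_left.1 hy hz' (Or.inr hz.2)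
  have eFz : pvdyFz K (fun _ => y₀) (cfSites σ') (cfCol σ') = (cfSites σ' \ K) \ y₀ := rfl
  rw [eσ]
  refine pvlhg_link mK mD mW hDK mH rH mP mN hY' (cfCol σ') hDy (by rw [← eσ]; exact hG _ hpG) ?_ ?_ ?_ ?_
  · -- the certificate
    refine le_trans (le_of_eq ?_) hc0
    congr 1
    ext g
    simp only [mem_ofPred_eq]
    rw [pvay_Q_congr rP (Y := pvdyYc K (cfSites σ') (pvgSites g)) (Y' := pvdyYc K (cfSites ω) (pvgSites g))]
    ext z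
    simp only [pvdyYc, mem_inter_iff, mem_union, mem_sdiff]
    constructor
    · rintro ⟨⟨a1, a2⟩ | a1, a3⟩
      · exact ⟨Or.inl ⟨(mem' z (by rintro (h | h); exacts [a2 h, Set.disjoint_left.1 hOD a3 h])).1 a1, a2⟩, a3⟩
      · exact ⟨Or.inr a1, a3⟩
    · rintro ⟨⟨a1, a2⟩ | a1, a3⟩
      · exact ⟨Or.inl ⟨(mem' z (by rintro (h | h); exacts [a2 h, Set.disjoint_left.1 hOD a3 h])).2 a1, a2⟩, a3⟩
      · exact ⟨Or.inr a1, a3⟩
  · -- null sets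
    rw [← eσ]
    exact ae_iff.1 hp
  · -- the mixed order
    intro g hg
    refine hup _ _ (cfCol σ') (pvdy_Yc_countable hY' (pvf_sites_countable g)) hg ?_ ?_ ?_
    · intro z hz
      exact Or.inl hz.1
    · intro z hz hzD
      have hzK : z ∉ K := Set.disjoint_left.1 hDK hzD
      rcases hz with hz | hz
      · exact ⟨hz, fun h => Set.disjoint_left.1 hy h (Or.inr hzD)⟩
      · exact absurd hz.2 hzK
    · intro z hz
      exact ⟨hz.1.2, hz.2⟩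
  · -- DET
    intro g τ ξ hN hH hK
    set Y'' := pvdyYc K (cfSites σ') (pvgSites g) with hY''
    set Fz := pvdyFz K (fun _ => y₀) (cfSites σ') (cfCol σ') with hFz
    set c := cfOf Y'' (pvfqMix Fz (cfCol σ', τ)) with hc
    have sW : cfSites (Conf.spl (Wn ×ˢ (univ : Set Bool)) (c, ξ)) ∩ Wn = Y'' ∩ Wn := by rw [pvlhg_sites_spl, hc, cfOf_sites]
    have sW' : ∀ z ∈ Wn, (z ∈ cfSites (Conf.spl (Wn ×ˢ (univ : Set Bool)) (c, ξ)) ↔ z ∈ Y'') := by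
      intro z hz
      have : z ∈ cfSites (Conf.spl (Wn ×ˢ (univ : Set Bool)) (c, ξ)) ∩ Wn ↔ z ∈ Y'' ∩ Wn := by rw [sW]
      simp only [mem_inter_iff, hz, and_true] at this
      exact this
    have colW : ∀ z ∈ Wn, z ∈ Y'' → cfCol (Conf.spl (Wn ×ˢ (univ : Set Bool)) (c, ξ)) z = pvfqMix Fz (cfCol σ', τ) z := by
      intro z hz hzY
      rw [pvlhg_col_spl c ξ hz, hc, pvdy_cfCol_cfOf _ hzY]
    have offK : ∀ z, z ∉ K → (z ∈ Y'' ↔ z ∈ cfSites σ') := by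
      intro z hz
      simp only [hY'', pvdyYc, mem_union, mem_sdiff, mem_inter_iff]
      tauto
    refine hdet _ τ hN ?_ ?_ ?_ ?_ ?_ ?_
    · intro z hz hzC
      rw [sW' z hz, offK z (fun h => hzC (Or.inl h)), mem' z hzC]
    · intro z hzω hz hzC hzy
      have hzK : z ∉ K := fun h => hzC (Or.inl h)
      have hzσ : z ∈ cfSites σ' := (mem' z hzC).2 hzω
      have hzF : z ∈ Fz := ⟨⟨hzσ, hzK⟩, hzy⟩
      rw [colW z hz ((offK z hzK).2 hzσ), pvfqMix_of_mem hzF]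
      show cfCol σ' z = cfCol ω z
      rw [← hσ, pvdy_cfCol_R _ p hzω hzC, pvfqMix_of_notMem hzy]
    · rw [← rG, Conf.restr_spl_of_subset (prod_mono hDW subset_rfl)]
      have e1 : Conf.restr (D ×ˢ (univ : Set Bool)) c = Conf.restr (D ×ˢ (univ : Set Bool)) σ' := by
        rw [hc]
        conv_rhs => rw [eσ]
        refine pvlhg_restr_cfOf fun z hz => ?_
        have hzK : z ∉ K := Set.disjoint_left.1 hDK hz
        refine ⟨offK z hzK, fun hzY => ?_⟩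
        have hzF : z ∈ Fz := ⟨⟨(offK z hzK).1 hzY, hzK⟩, fun h => Set.disjoint_left.1 hy h (Or.inr hz)⟩
        rw [pvfqMix_of_mem hzF]
      rw [e1, rG]
      exact hpG
    · rw [← rH, Conf.restr_spl_of_subset (prod_mono (union_subset hDW hKW) subset_rfl), rH]
      exact hH
    · have e2 : cfSites (Conf.spl (Wn ×ˢ (univ : Set Bool)) (c, ξ)) ∩ O = Y'' ∩ O := by
        ext z
        simp only [mem_inter_iff]
        exact and_congr_left fun hz => sW' z (hOW hz)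
      have := pvlh_cp_congr e2 rP
      have h3 : τ ∈ pvlhCp Y'' 𝒦 := hK
      rw [← this] at h3
      exact h3
    · intro z hzη hz hzKy
      have hzY : z ∈ Y'' := (sW' z hz).1 hzη
      have hzF : z ∉ Fz := by
        rintro ⟨⟨-, a2⟩, a3⟩
        rcases hzKy with h | h
        exacts [a2 h, a3 h]
      rw [colW z hz hzY, pvfqMix_of_notMem hzF]

end own

/-! ## 4. the form of record: `pvueForced` of 141 -/

section rec

/-- "the door plug is usable" is read in the region of the door -/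
theorem pvlhg_rG {kit : PvthKit} (hk : kit.WF) (b : Bool) (z : ℂ) {d : ℂ} (hd : d ≠ 0) : Conf.ReadsSet (pvkyDoor kit z d ×ˢ (univ : Set Bool)) {η | pvkyFl b η ∈ kit.G z d} := by
  intro η
  show pvkyFl b (Conf.restr (pvkyDoor kit z d ×ˢ (univ : Set Bool)) η) ∈ kit.G z d ↔ pvkyFl b η ∈ kit.G z d
  rw [← pvky_fl_restr]
  exact iff_of_eq (pvth_rG hk z d hd (pvkyFl b η))

/-- **(G2) THE ROOF**: the base configuration `ω` is FORCED for the end link `e` (constant fresh set `y₀`, soft success `pvsuSure` of the plain success `M` at the window `Wn`) -/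
theorem pvlhg_forced_end {kit : PvthKit} (hk : kit.WF) {ε : ℝ} {b : Bool} {e : PvkyEnd} {z d : ℂ} (hd : d ≠ 0) {O Wn y₀ : Set ℂ} {M : Set (Conf PvPt)}
    (cst : ∀ η, e.y η = y₀) (eA : e.A = pvsuSure (pvP ε) (Wn ×ˢ univ) M)
    (mK : MeasurableSet e.K) (mD : MeasurableSet (pvkyDoor kit z d)) (mO : MeasurableSet O) (bO : Bornology.IsBounded O) (mW : MeasurableSet Wn)
    (hDK : Disjoint (pvkyDoor kit z d) e.K) (hOD : Disjoint O (pvkyDoor kit z d)) (hy : Disjoint y₀ (e.K ∪ pvkyDoor kit z d)) (hKW : e.K ⊆ Wn) (hDW : pvkyDoor kit z d ⊆ Wn) (hOW : O ⊆ Wn)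
    {ℋ 𝒦 𝒩 : Set (Conf PvPt)} (mH : MeasurableSet ℋ) (rH : Conf.ReadsSet ((pvkyDoor kit z d ∪ e.K) ×ˢ univ) ℋ)
    (mP : MeasurableSet 𝒦) (rP : Conf.ReadsSet (O ×ˢ univ) 𝒦) (mN : MeasurableSet 𝒩) {t θ b₀ : ℝ≥0∞}
    (hG : ∀ η, pvkyFl b η ∈ kit.G z d → b₀ ≤ pvtiP (pvP ε) (pvkyDoor kit z d ×ˢ univ) ℋ η)
    {ω : Conf PvPt} (hω : PvayWin O ω) (hcnt : (cfSites ω).Countable) (cert : ω ∈ pvayGood2 ε e.K O 𝒦 t θ)
    (nice : ∀ᵐ p ∂pvdyNu ε, ∀ᵐ ξ ∂pvP ε, Conf.spl (Wn ×ˢ (univ : Set Bool)) (pvdyR (e.K ∪ pvkyDoor kit z d) (fun _ => y₀) ω p, ξ) ∈ 𝒩)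
    (hup : ∀ (Y Fz : Set ℂ) (s : ℂ → Bool), Y.Countable → PvlhgRg Wn 𝒩 Y → Fz ⊆ Y → (∀ v ∈ Y, v ∈ pvkyDoor kit z d → v ∈ Fz) → (∀ v ∈ Fz, v ∉ e.K ∧ v ∉ y₀) →
      ∃ sg : ℂ → Option Bool, {v | sg v ≠ none}.Countable ∧ PvlhUp sg (pvlhSec Y Fz s ℋ) ∧ PvlhUp sg (pvlhCp Y 𝒦))
    (hdet : ∀ (η : Conf PvPt) (τ : ℂ → Bool), η ∈ 𝒩 → (∀ v ∈ Wn, v ∉ e.K ∪ pvkyDoor kit z d → (v ∈ cfSites η ↔ v ∈ cfSites ω)) →
      (∀ v ∈ cfSites ω, v ∈ Wn → v ∉ e.K ∪ pvkyDoor kit z d → v ∉ y₀ → cfCol η v = cfCol ω v) → pvkyFl b η ∈ kit.G z d → η ∈ ℋ → cfOf (cfSites η) τ ∈ 𝒦 →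
      (∀ v ∈ cfSites η, v ∈ Wn → (v ∈ e.K ∨ v ∈ y₀) → cfCol η v = τ v) → η ∈ M) :
    ω ∈ pvueForced kit ε b e z d (t * (b₀ - θ)) := by
  have ey : e.y = fun _ => y₀ := funext cst
  unfold pvueForced
  rw [mem_ofPred_eq, ey, eA]
  exact pvlhg_forced mK mD mO bO mW hDK hOD hy hKW hDW hOW (G := {η | pvkyFl b η ∈ kit.G z d}) (pvlhg_rG hk b z hd) mH rH mP rP mN hG hω hcnt cert nice hup hdet

end rec

/-! ## 5. the nice seeds: null sets along the hybrid resampling, in upper probability -/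

section up

/-- **NULL SETS**: `𝒩` = ANY measurable almost sure event of the configuration (it may look at the colours), `yf` = a stopping choice, `Wn i` = a countable family of windows.
Off an event of upper probability `0`: for all `i`, for almost every seed `p` of the experiment `(C, yf)` and almost every `ξ`, the configuration `R ω p` completed by `ξ` off `Wn i` is in `𝒩`. -/
theorem pvlhg_nice_up (ε : ℝ) {C : Set ℂ} (mC : MeasurableSet C) {Ok : Set ℂ → Prop} (hok : ∀ᵐ ω ∂pvP ε, Ok (cfSites ω)) {yf : Conf PvPt → Set ℂ} (hS : PvktStop Ok yf)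
    {ι : Type*} [Countable ι] (Wn : ι → Set ℂ) (mW : ∀ i, MeasurableSet (Wn i)) {𝒩 : Set (Conf PvPt)} (mN : MeasurableSet 𝒩) (hN : pvP ε 𝒩ᶜ = 0) :
    (pvhbUp ε).P {q | ¬ ∀ i, ∀ᵐ p ∂pvdyNu ε, ∀ᵐ ξ ∂pvP ε, Conf.spl (Wn i ×ˢ (univ : Set Bool)) (pvdyR C yf (pvConf (pvMerge q)) p, ξ) ∈ 𝒩} = 0 := by
  have := (pv_isPpp ε).prob
  have hW : ∀ i, MeasurableSet (Wn i ×ˢ (univ : Set Bool)) := fun i => (mW i).prod MeasurableSet.univ
  have hSp : ∀ i, MeasurableSet (Conf.spl (Wn i ×ˢ (univ : Set Bool)) ⁻¹' 𝒩ᶜ) := fun i => Conf.measurable_spl (hW i) mN.compl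
  let Hi : ι → Conf PvPt → ℝ≥0∞ := fun i σ => pvP ε (Prod.mk σ ⁻¹' (Conf.spl (Wn i ×ˢ (univ : Set Bool)) ⁻¹' 𝒩ᶜ))
  have mHi : ∀ i, Measurable (Hi i) := fun i => measurable_measure_prodMk_left (hSp i)
  have iHi : ∀ i, ∫⁻ σ, Hi i σ ∂pvP ε = 0 := by
    intro i
    have e : ((pvP ε).prod (pvP ε)).map (Conf.spl (Wn i ×ˢ (univ : Set Bool))) = pvP ε := (pv_isPpp ε).splice (hW i)
    show ∫⁻ σ, pvP ε (Prod.mk σ ⁻¹' (Conf.spl (Wn i ×ˢ (univ : Set Bool)) ⁻¹' 𝒩ᶜ)) ∂pvP ε = 0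
    rw [← Measure.prod_apply (hSp i), ← Measure.map_apply (Conf.measurable_spl (hW i)) mN.compl, e, hN]
  let H : Conf PvPt → ℝ≥0∞ := fun σ => ∞ * ∑' i, Hi i σ
  have mS : Measurable fun σ => ∑' i, Hi i σ := Measurable.tsum mHi
  have mH : Measurable H := mS.const_mul _
  have iH : ∫⁻ σ, H σ ∂pvP ε = 0 := by
    show ∫⁻ σ, ∞ * ∑' i, Hi i σ ∂pvP ε = 0
    rw [lintegral_const_mul _ mS, lintegral_tsum fun i => (mHi i).aemeasurable]
    simp [iHi]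
  let Bad : Set (Conf PvPt) := {ω | ¬ ∀ i, ∀ᵐ p ∂pvdyNu ε, ∀ᵐ ξ ∂pvP ε, Conf.spl (Wn i ×ˢ (univ : Set Bool)) (pvdyR C yf ω p, ξ) ∈ 𝒩}
  have key := pvkt_inv_gen ε mC hok hS mH (F := Bad.indicator fun _ => 1) (by
    filter_upwards [pvcn_LF_ae ε] with ω hlf
    by_cases hω : ω ∈ Bad
    · rw [indicator_of_mem hω]
      have mR := pvdy_measurable_R mC yf (pvdy_countable_of_LF hlf)
      have e1 : ∫⁻ p, H (pvdyR C yf ω p) ∂pvdyNu ε = ∞ * ∫⁻ p, ∑' i, Hi i (pvdyR C yf ω p) ∂pvdyNu ε := lintegral_const_mul _ (mS.comp mR)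
      have h0 : ∫⁻ p, ∑' i, Hi i (pvdyR C yf ω p) ∂pvdyNu ε ≠ 0 := by
        intro h0
        have h0' := (lintegral_eq_zero_iff (f := fun p => ∑' i, Hi i (pvdyR C yf ω p)) (mS.comp mR)).1 h0
        refine hω fun i => ?_
        filter_upwards [h0'] with p hp
        have h2 : Hi i (pvdyR C yf ω p) = 0 := ENNReal.tsum_eq_zero.1 hp i
        exact ae_iff.2 h2
      rw [e1, ENNReal.top_mul h0]
      exact le_top
    · rw [indicator_of_notMem hω]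
      exact zero_le)
  rw [iH] at key
  exact le_antisymm key zero_le

/-- **(G3) THE COST**: `U` = the base configurations at which the roof applies (usable candidates), `Frc` = the forced ones.      A finite family of tests `(O j, 𝒦 j)`, `j ∈ J` (the pattern may depend on the base data through a finite menu),
a countable family of windows `Wn i` (hulls), ONE nice event.      `h` := `pvlhg_forced_end`. -/
theorem pvlhg_cost {ε : ℝ} (hε : 0 < ε) {K C : Set ℂ} (mK : MeasurableSet K) (mC : MeasurableSet C) {Ok : Set ℂ → Prop} (hok : ∀ᵐ ω ∂pvP ε, Ok (cfSites ω)) {yf : Conf PvPt → Set ℂ} (hS : PvktStop Ok yf)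
    {ι : Type*} [Countable ι] (Wn : ι → Set ℂ) (mW : ∀ i, MeasurableSet (Wn i)) {𝒩 : Set (Conf PvPt)} (mN : MeasurableSet 𝒩) (hN : pvP ε 𝒩ᶜ = 0)
    {κ : Type} (J : Finset κ) (O : κ → Set ℂ) (𝒦 : κ → Set (Conf PvPt)) (mO : ∀ j ∈ J, MeasurableSet (O j)) (bO : ∀ j ∈ J, Bornology.IsBounded (O j)) (mP : ∀ j ∈ J, MeasurableSet (𝒦 j))
    (rP : ∀ j ∈ J, Conf.ReadsSet (O j ×ˢ univ) (𝒦 j)) (t : ℝ≥0∞) {θ : ℝ≥0∞} (hθ : θ ≠ 0) (hθ' : θ ≠ ∞) {U Frc : Set (Conf PvPt)}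
    (h : ∀ ω ∈ U, CfOK ω → (cfSites ω).Countable → (∀ j ∈ J, ω ∈ pvayGood2 ε K (O j) (𝒦 j) t θ) →
      (∀ i, ∀ᵐ p ∂pvdyNu ε, ∀ᵐ ξ ∂pvP ε, Conf.spl (Wn i ×ˢ (univ : Set Bool)) (pvdyR C yf ω p, ξ) ∈ 𝒩) → ω ∈ Frc) :
    (pvhbUp ε).P {q | pvConf (pvMerge q) ∈ U \ Frc} ≤ ∑ j ∈ J, pvGeo ε {g | pvQc (𝒦 j) g < t} / θ := by
  have h0 : pvP ε {η | ¬ (CfOK η ∧ (cfSites η).Countable)} = 0 := by
    refine ae_iff.1 ?_
    filter_upwards [dls_ae_conf hε, pvcn_LF_ae ε] with η a1 a2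
    exact ⟨a1, pvdy_countable_of_LF a2⟩
  have hsub : {q | pvConf (pvMerge q) ∈ U \ Frc} ⊆ ({q | pvConf (pvMerge q) ∈ {η | ¬ (CfOK η ∧ (cfSites η).Countable)}} ∪
      {q | ¬ ∀ i, ∀ᵐ p ∂pvdyNu ε, ∀ᵐ ξ ∂pvP ε, Conf.spl (Wn i ×ˢ (univ : Set Bool)) (pvdyR C yf (pvConf (pvMerge q)) p, ξ) ∈ 𝒩}) ∪
      ⋃ j ∈ J, {q | pvConf (pvMerge q) ∉ pvayGood2 ε K (O j) (𝒦 j) t θ} := by
    rintro q ⟨hU, hF⟩
    by_contra hcon
    simp only [mem_union, mem_ofPred_eq, mem_iUnion, not_or, not_not, not_exists] at hcon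
    exact hF (h _ hU hcon.1.1.1 hcon.1.1.2 hcon.2 hcon.1.2)
  refine ((pvhbUp ε).P_mono hsub).trans (((pvhbUp ε).P_union_le _ _).trans ?_)
  have a1 : (pvhbUp ε).P ({q | pvConf (pvMerge q) ∈ {η | ¬ (CfOK η ∧ (cfSites η).Countable)}} ∪
      {q | ¬ ∀ i, ∀ᵐ p ∂pvdyNu ε, ∀ᵐ ξ ∂pvP ε, Conf.spl (Wn i ×ˢ (univ : Set Bool)) (pvdyR C yf (pvConf (pvMerge q)) p, ξ) ∈ 𝒩}) = 0 := by
    refine le_antisymm (((pvhbUp ε).P_union_le _ _).trans ?_) zero_le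
    rw [pvlhg_nice_up ε mC hok hS Wn mW mN hN, add_zero]
    exact (pvhb_up_P_conf ε _).trans h0.le
  rw [a1, zero_add]
  refine ((pvhbUp ε).P_biUnion_le J _).trans (Finset.sum_le_sum fun j hj => ?_)
  exact pvay_forced_up ε mK (mO j hj) (bO j hj) (mP j hj) (rP j hj) t hθ hθ'

end up

end Claimed.Agent.R289
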