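-- KEEP
import Claimed.Agent.R289.Tr.LinkLocA
import Claimed.Agent.R289.Tr.LinkLocC
import Claimed.Agent.R289.Exit.FrcDefs
import Claimed.Agent.R289.Tr.LinkLocE
import Claimed.Agent.R289.Exit.EngRec
import Claimed.Agent.R289.Exit.EngU4
import Claimed.Agent.R289.Exit.EngYc

/-!
# Row 289 (S0537, Cardy for Poisson-Voronoi), THE WALL, ROAD E, file Tr/LinkDet : (b5) OF E10 = THE PLAIN VALUE OF A SPECIAL LINK IS READ IN ITS WINDOW = FIELD `val` OF `PvjeDet`      (owner helper22, post of 234 id 90121; prefix `pvly_`, `Pvly`)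

AT THE NAMES OF `Tr/InstL` v2.2 (163, frozen) AND `Exit/FrcDefs` v3 (35).   Tools: `Tr/LinkLocA` `Tr/LinkLocC` `Tr/LinkLocD` of 74, `Tr/LocalW` of 22, adapter of 247.
* sec. 1  weights read on the faces: `PvlyWt w`, `pvly_wt_Q`, `pvly_wt_V`
* sec. 2  LINK FREE: **`pvly_X_tr`** : two configurations with the same restriction to `Wn ×ˢ univ`, mesh `μ` read in `Wn` at the first one, the guard of the link at the second one, a witness of the link at the first one whose feet and room lie in the `3μ`-core of `Wn`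
          ⟹  the second one succeeds, WITH THE SAME PLAIN VALUE
* sec. 3  FEET IN THE CORE: door end **`pvly_ft_door`** (`closedBall z (3 r) ⊆ Wn`, `10 μ ≤ 3 r`), placed square `pvly_sim_ball`;   marked end **`pvly_stub_out`**, **`pvly_stub_in`** (the sites of the stub lie in the core of `Z⁺ ∩ box`, `Z` = the hull OF RECORD of the half state);
          the gate disc **`pvly_disc_out`**, **`pvly_disc_in`** (from the density `μ₁ ≥ μ`, `6 μ₁ ≤ δ` on the disc of ANY configuration which carries the half state with the hull `Z`: the BASE, certificate `Mc` of 35)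
* sec. 4  ONE RECORD **`PvlyReg L μ Wn`** = what the window owes to the link (room in the core = (Rc) of RULING 22; door end: `0 < r`, `‖d‖ = 1`, `10 μ ≤ 3 r`, ball `3 r` in the window; marked end: frame `1`, gate disc in the core);
          `PvlyReg.uq .ftP .ftP'`, **`pvly_tr`** (ANY link, also the return link `f`): success + hulls + mesh at `η`, guard at `η'`, same restriction ⟹ success at `η'`, same value;   `pvly_gd_of_A`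
* sec. 5  AT THE MODEL: numbers `pvly_mu_pos pvly_mu_le pvly_mu3 pvly_mu_rd pvly_rd_pos` (the only place where the numerals are read);   rooms from the RELATIVE collar `pvly_room_o _i _e`;   records **`pvly_reg_o _i _e _r`** (from `dp_win`, `rp_win`, room, disc);
          discs `pvly_disc_o _i` (core of `pvilWz`: compose with `pvll_core_mono _ (pvly_wz_o ..)`);   transfer **`pvly_tr_o _i _e _r`** on `pvilMo Mi Me Mr`;
          THE WORDING OF 35: **`pvly_det_o pvly_det_i pvly_det_e`** : `PvlyReg` at the hull of the base + field `ev` ⟹ `PvjeDet (pvjeO ..) T η₀` (field `val` is free)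
* sec. 6  (v2, 13:50Z) **AT THE PARAMETERS AND THE ENGINE OF RECORD**, over [LOC] of 74 (`Tr/LinkLocE`: no density, no disc): `pvly_rec_pin` (`PvllPin` at `pvxParOf`), `pvly_rec_dout _din _din0`, `pvly_rec_ru` (`3μ ≤ r_u`), `pvly_rec_rp _dp` (`rp_win dp_win` from `pvnr_wf`);
          THREE NAMED EXITS = (Rc) of RULING 22 at `pvnaEngRec`, relative form: `exit_pvly_col_o _i _e` (false until the rooms of 245 / 285 / 118 are swapped in by 124, then one citation each);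
          **`pvly_rec_tr_o _i _e`** ([LOC] at the record: `η ∈ M`, `η'` nice, same restriction ⟹ `η' ∈ M`, same `X` for ANY weight with `PvllWt`, same frozen set), **`pvly_rec_det_o _i _e`** (`PvjeDet` at the record = its field `ev`)
-/

set_option autoImplicit false

namespace Claimed.Agent.R289

open Set Metric Claims.C0465
open scoped ComplexConjugate

/-! ## 1. weights -/

/-- the weight `w` is carried by every positioned local isomorphism of two plane maps -/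
def PvlyWt (w : ∀ η : Conf PvPt, (delbPl (pvieY η)).Dart → ℂ) : Prop :=
  ∀ (η η' : Conf PvPt) (R : (delbPl (pvieY η)).Dart → (delbPl (pvieY η')).Dart → Prop) (K : Set ℂ), PvLocP (pvieT η) (pvieT η') R (pviePos η) (pviePos η') K → ∀ d d', R d d' → w η d = w η' d'

theorem pvly_eqns_cite : True := by
  have := @PvlyWt.eq_1
  trivial

theorem pvly_wt_Q : PvlyWt pvilQ := fun _ _ _ _ L _ _ h => pvlw_qpart L h

theorem pvly_wt_V : PvlyWt pvilV := fun _ _ _ _ L _ _ h => pvlw_side L h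

/-! ## 2. link free -/

section core

variable {N : PvwNum} {b : Bool} {L : PvilLk} {μ : ℝ} {Wn : Set ℂ} {η η' : Conf PvPt}

/-- **THE PLAIN SUCCESS AND THE PLAIN VALUE OF A LINK ARE READ IN THE WINDOW** -/
theorem pvly_X_tr (hμ : 0 < μ) (hηη : Conf.restr (Wn ×ˢ univ) η = Conf.restr (Wn ×ˢ univ) η') (hm : PvtrMesh μ Wn (cfSites η)) (hu : PvllUq L) (hg' : η' ∈ pvllGd L)
    (hY : L.Yin ⊆ pvtrCore (3 * μ) Wn) {𝔖 𝔖' : PvwSt (pvieT η)} {y : (pvieT η).Pth} (ha : L.Arc N b η 𝔖 𝔖' y)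
    (hft : PvllFtP L (pvtrCore (3 * μ) Wn) (pvieT η) (pviePos η) 𝔖) (hft' : PvllFtP' L (pvtrCore (3 * μ) Wn) (pvieT η) (pviePos η) 𝔖')
    {w : ∀ η : Conf PvPt, (delbPl (pvieY η)).Dart → ℂ} (hw : PvlyWt w) :
    η' ∈ L.A N b ∧ L.X N b w η' = L.X N b w η := by
  obtain ⟨hg, hb⟩ := pvll_arc_iff.1 ha
  have I := pvll_conf_iso hμ hηη hm hg.1 hg'.1 b
  have o := pvll_conf_ok hg.1 (pvtrCore (3 * μ) Wn)
  have o' := pvll_conf_ok hg'.1 (pvtrCore (3 * μ) Wn)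
  obtain ⟨-, -, -, hp⟩ := pvll_atP_tr I o o' hft hb.at_p
  have Lc := pvym_locP I o o' (d0 := 𝔖.dp) (by have := hp.stub 0 (Nat.zero_le _); rwa [pvas_it_zero] at this)
  obtain ⟨𝔖₁, 𝔖₁', y₁, -, -, -, h1, h2⟩ := pvll_arc_tr I o o' hY hft hft' hb (w := w η) (w' := w η') (hw η η' _ _ Lc)
  have ha' : L.Arc N b η' 𝔖₁ 𝔖₁' y₁ := pvll_arc_iff.2 ⟨hg', h1⟩
  refine ⟨⟨𝔖₁, 𝔖₁', y₁, ha'⟩, ?_⟩
  rw [pvll_X_eq hu ha' w, pvll_X_eq hu ha w, pvll_val_eq, pvll_val_eq]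
  exact h2

end core

/-! ## 3. feet in the core -/

section feet

variable {μ : ℝ} {Wn : Set ℂ}

/-- a ball with a margin lies in the core -/
theorem pvly_ball_core {z : ℂ} {R R' c : ℝ} (h : R + c ≤ R') (hW : closedBall z R' ⊆ Wn) : closedBall z R ⊆ pvtrCore c Wn := by
  intro a ha q hq
  rw [mem_closedBall_iff_norm] at ha hq
  refine hW (mem_closedBall_iff_norm.2 ?_)
  have e : q - z = (q - a) + (a - z) := by ring
  rw [e]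
  exact (norm_add_le _ _).trans (by linarith)

/-- the core shrinks when the margin grows -/
theorem pvly_core_anti {c c' : ℝ} (h : c ≤ c') (E : Set ℂ) : pvtrCore c' E ⊆ pvtrCore c E := fun _ hz => (closedBall_subset_closedBall h).trans hz

/-- the placed square contains the ball -/
theorem pvly_sim_ball {z d : ℂ} (hd : ‖d‖ = 1) (r : ℝ) : closedBall z r ⊆ pvthSim z d '' pvwSq 0 r := by
  intro a ha
  rw [mem_closedBall_iff_norm] at ha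
  have hd0 : d ≠ 0 := by
    rintro rfl
    simp at hd
  have hn : ‖(a - z) / d‖ ≤ r := by rw [norm_div, hd, div_one]; exact ha
  refine ⟨(a - z) / d, ⟨?_, ?_⟩, ?_⟩
  · rw [sub_zero]; exact (Complex.abs_re_le_norm _).trans hn
  · rw [sub_zero]; exact (Complex.abs_im_le_norm _).trans hn
  · unfold pvthSim
    rw [mul_div_cancel₀ _ hd0]
    ring

/-- **THE FOOT OF A DOOR END LIES IN THE CORE** as soon as the ball `3 r` lies in the window and `3 μ ≤ 9 r / 10` -/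
theorem pvly_ft_door {r : ℝ} (hr : 0 < r) {z d : ℂ} (hd : ‖d‖ = 1) (hμ : 10 * μ ≤ 3 * r) (hW : closedBall z (3 * r) ⊆ Wn) :
    ((pvkdP r).pg z d).Sub (pvtrCore (3 * μ) Wn) ∧ closedBall z (pvkdP r).b ⊆ pvtrCore (3 * μ) Wn := by
  have hc : closedBall z (21 / 10 * r) ⊆ pvtrCore (3 * μ) Wn := pvly_ball_core (by linarith) hW
  refine ⟨⟨?_, ?_, ?_⟩, ?_⟩
  · exact (ball_subset_closedBall.trans (closedBall_subset_closedBall (by show r ≤ 21 / 10 * r; linarith))).trans hc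
  · exact (ball_subset_closedBall.trans (closedBall_subset_closedBall (by show 2 * r ≤ 21 / 10 * r; linarith))).trans hc
  · rintro _ ⟨a, ha, rfl⟩
    apply hc
    rw [mem_closedBall_iff_norm]
    unfold pvthSim
    rw [add_sub_cancel_left, norm_mul, hd, one_mul]
    have h1 : -(2 * r) ≤ a.re := ha.1
    have h2 : a.re ≤ 2 * r := ha.2.1
    have h3 : -(r / 2) ≤ a.im := ha.2.2.1
    have h4 : a.im ≤ r / 2 := ha.2.2.2
    have e : ‖a‖ ^ 2 = a.re ^ 2 + a.im ^ 2 := by rw [Complex.sq_norm, Complex.normSq_apply]; ring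
    have e1 : a.re ^ 2 ≤ (2 * r) ^ 2 := sq_le_sq' h1 h2
    have e2 : a.im ^ 2 ≤ (r / 2) ^ 2 := sq_le_sq' h3 h4
    by_contra hlt
    push Not at hlt
    have e3 : (21 / 10 * r) ^ 2 < ‖a‖ ^ 2 := pow_lt_pow_left₀ hlt (by positivity) two_ne_zero
    nlinarith
  · exact (closedBall_subset_closedBall (by show 2 * r ≤ 21 / 10 * r; linarith)).trans hc

variable {N : PvwNum} {b : Bool} {p : PvilPl} {η : Conf PvPt} {𝔖 : PvwSt (pvieT η)} {δ r : ℝ} {Z : Set (ℤ × ℤ)}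

theorem pvly_fr_one (hf : p.fr = 1) : ‖p.fr‖ = 1 := by rw [hf]; exact norm_one

/-- **the sites of the exit stub lie in the core of the window**: `Z` = the hull of record of the half state, the window contains `Z⁺` cut by the own-level box with the collar `δ` -/
theorem pvly_stub_out (hf : p.fr = 1) (hδ : 0 < δ) (h3 : 3 * μ ≤ δ) (h : PvilOut N b p η 𝔖) (hZ : pvilHuO δ r N b p η = Z)
    (hW : pvilFat δ Z ∩ pvwSq p.z (pvwRad N p.h p.ty p.ty.k + δ) ⊆ Wn) : ∀ i, i ≤ 𝔖.np → pviePos η ((pvieT η).src (𝔖.ep i)) ∈ pvtrCore (3 * μ) Wn := by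
  intro i hi
  refine pvll_core_mono _ hW ?_
  rw [pvll_core_inter]
  constructor
  · refine pvll_fat_core hδ h3 (A := pviePos η '' 𝔖.fzOut ∪ closedBall (p.ty.cp p.h p.z) r) ?_ (Or.inl ⟨_, Or.inl (Or.inr ⟨i, hi, rfl⟩), rfl⟩)
    rw [← hZ, pvll_huO_eq (pvly_fr_one hf) h δ r]
    exact subset_rfl
  · refine pvll_sq_core h3 ?_
    have := (h.st.stub.ep_in i hi).1
    simpa [PvilPl.pos, PvilPl.zf, hf] using this

/-- **the sites of the entrance stub lie in the core of the window** -/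
theorem pvly_stub_in (hf : p.fr = 1) (hδ : 0 < δ) (h3 : 3 * μ ≤ δ) (h : PvilIn N b p η 𝔖) (hZ : pvilHuI δ r N b p η = Z)
    (hW : pvilFat δ Z ∩ pvwSq p.z (pvwRad N p.h p.ty p.ty.k + δ) ⊆ Wn) : ∀ i, i ≤ 𝔖.nm → pviePos η ((pvieT η).src (𝔖.em i)) ∈ pvtrCore (3 * μ) Wn := by
  intro i hi
  refine pvll_core_mono _ hW ?_
  rw [pvll_core_inter]
  constructor
  · refine pvll_fat_core hδ h3 (A := pviePos η '' 𝔖.fzIn ∪ closedBall (p.ty.cm p.h p.z) r) ?_ (Or.inl ⟨_, Or.inl (Or.inr ⟨i, hi, rfl⟩), rfl⟩)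
    rw [← hZ, pvll_huI_eq (pvly_fr_one hf) h δ r]
    exact subset_rfl
  · refine pvll_sq_core h3 ?_
    have := (h.st.stub.em_in i hi).1
    simpa [PvilPl.pos, PvilPl.zf, hf] using this

/-- **the gate disc lies in the core of the window**, from the density `μ₁ ≥ μ` on the disc of ANY configuration which carries the exit half state with the hull `Z` (the BASE configuration: certificate `Mc` of 35) -/
theorem pvly_disc_out (hf : p.fr = 1) (hδ : 0 < δ) {μ₁ : ℝ} (hμ : 0 < μ₁) (hμμ : μ ≤ μ₁) (h6 : 6 * μ₁ ≤ δ) (hR : 2 * μ₁ ≤ p.ty.b * p.h) (hb : p.ty.b * p.h ≤ pvwRad N p.h p.ty p.ty.k)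
    (h : PvilOut N b p η 𝔖) (hd : VorDense (cfSites η) (closedBall p.z (p.ty.b * p.h)) μ₁) (hZ : pvilHuO δ r N b p η = Z)
    (hW : pvilFat δ Z ∩ pvwSq p.z (pvwRad N p.h p.ty p.ty.k + δ) ⊆ Wn) : closedBall p.z (p.ty.b * p.h) ⊆ pvtrCore (3 * μ) Wn := by
  refine Subset.trans ?_ ((pvly_core_anti (by linarith : 3 * μ ≤ 3 * μ₁) _).trans (pvll_core_mono _ hW))
  rw [pvll_core_inter]
  refine subset_inter ?_ ((pvll_ball_sq hb).trans (pvll_sq_core (by linarith)))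
  refine pvll_disc_core hδ hμ h6 hR hd (A := pviePos η '' 𝔖.fzOut ∪ closedBall (p.ty.cp p.h p.z) r) ?_ ?_
  · rintro u ⟨hu, hu2⟩
    refine Or.inl ⟨⟨u, hu⟩, Or.inl (Or.inl ?_), rfl⟩
    show (⟨u, hu⟩ : ↥(pvieY η)) ∈ 𝔖.dsc
    rw [h.st.gate.dsc_eq]
    rw [mem_ball_iff_norm] at hu2
    simpa [PvilPl.pos, PvilPl.zf, hf, pviePos] using hu2
  · rw [← hZ, pvll_huO_eq (pvly_fr_one hf) h δ r]
    exact subset_rfl

/-- the same from the entrance half state -/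
theorem pvly_disc_in (hf : p.fr = 1) (hδ : 0 < δ) {μ₁ : ℝ} (hμ : 0 < μ₁) (hμμ : μ ≤ μ₁) (h6 : 6 * μ₁ ≤ δ) (hR : 2 * μ₁ ≤ p.ty.b * p.h) (hb : p.ty.b * p.h ≤ pvwRad N p.h p.ty p.ty.k)
    (h : PvilIn N b p η 𝔖) (hd : VorDense (cfSites η) (closedBall p.z (p.ty.b * p.h)) μ₁) (hZ : pvilHuI δ r N b p η = Z)
    (hW : pvilFat δ Z ∩ pvwSq p.z (pvwRad N p.h p.ty p.ty.k + δ) ⊆ Wn) : closedBall p.z (p.ty.b * p.h) ⊆ pvtrCore (3 * μ) Wn := by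
  refine Subset.trans ?_ ((pvly_core_anti (by linarith : 3 * μ ≤ 3 * μ₁) _).trans (pvll_core_mono _ hW))
  rw [pvll_core_inter]
  refine subset_inter ?_ ((pvll_ball_sq hb).trans (pvll_sq_core (by linarith)))
  refine pvll_disc_core hδ hμ h6 hR hd (A := pviePos η '' 𝔖.fzIn ∪ closedBall (p.ty.cm p.h p.z) r) ?_ ?_
  · rintro u ⟨hu, hu2⟩
    refine Or.inl ⟨⟨u, hu⟩, Or.inl (Or.inl ?_), rfl⟩
    show (⟨u, hu⟩ : ↥(pvieY η)) ∈ 𝔖.dsc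
    rw [h.st.gate.dsc_eq]
    rw [mem_ball_iff_norm] at hu2
    simpa [PvilPl.pos, PvilPl.zf, hf, pviePos] using hu2
  · rw [← hZ, pvll_huI_eq (pvly_fr_one hf) h δ r]
    exact subset_rfl

end feet

/-! ## 4. one record for the regions, the generic statement -/

/-- **WHAT THE WINDOW `Wn` OWES TO THE LINK `L` AT THE MESH `μ`**: the room lies in the `3μ`-core ((Rc) of RULING 22);   a door end: unit `r > 0`, direction of norm `1`, `3μ ≤ 9r/10`, the ball `3r` in the window;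
a marked end: standard frame, gate disc in the core -/
structure PvlyReg (L : PvilLk) (μ : ℝ) (Wn : Set ℂ) : Prop where
  mu : 0 < μ
  room : L.Yin ⊆ pvtrCore (3 * μ) Wn
  ft : if L.dr then 0 < L.p.h ∧ ‖L.p.fr‖ = 1 ∧ 10 * μ ≤ 3 * L.p.h ∧ closedBall L.p.z (3 * L.p.h) ⊆ Wn else L.p.fr = 1 ∧ closedBall L.p.z (L.p.ty.b * L.p.h) ⊆ pvtrCore (3 * μ) Wn
  ft' : if L.dr' then 0 < L.p'.h ∧ ‖L.p'.fr‖ = 1 ∧ 10 * μ ≤ 3 * L.p'.h ∧ closedBall L.p'.z (3 * L.p'.h) ⊆ Wn else L.p'.fr = 1 ∧ closedBall L.p'.z (L.p'.ty.b * L.p'.h) ⊆ pvtrCore (3 * μ) Wn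

section generic

variable {N : PvwNum} {b : Bool} {L : PvilLk} {μ : ℝ} {Wn : Set ℂ}

theorem pvly_ne_of_norm {d : ℂ} (hd : ‖d‖ = 1) : d ≠ 0 := by
  rintro rfl
  simp at hd

theorem PvlyReg.uq (hR : PvlyReg L μ Wn) : PvllUq L := by
  have h1 := hR.ft
  have h2 := hR.ft'
  unfold PvllUq
  constructor
  · cases hd : L.dr
    · simp only [hd, Bool.false_eq_true, if_false] at h1 ⊢
      exact pvly_fr_one h1.1
    · simp only [hd, if_true] at h1 ⊢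
      exact pvll_pg_disj h1.1 _ (pvly_ne_of_norm h1.2.1)
  · cases hd : L.dr'
    · simp only [hd, Bool.false_eq_true, if_false] at h2 ⊢
      exact pvly_fr_one h2.1
    · simp only [hd, if_true] at h2 ⊢
      exact pvll_pg_disj h2.1 _ (pvly_ne_of_norm h2.2.1)

variable {δ r : ℝ} {Z Z' : Set (ℤ × ℤ)} {η η' : Conf PvPt}

/-- the foot of the exit end of a witness -/
theorem PvlyReg.ftP (hR : PvlyReg L μ Wn) (hδ : 0 < δ) (h3 : 3 * μ ≤ δ) (hW : L.dr = false → pvilFat δ Z ∩ pvwSq L.p.z (pvwRad N L.p.h L.p.ty L.p.ty.k + δ) ⊆ Wn)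
    (hZ : L.dr = false → pvilHuO δ r N b L.p η = Z) {𝔖 : PvwSt (pvieT η)} (ha : L.AtP N b η 𝔖) : PvllFtP L (pvtrCore (3 * μ) Wn) (pvieT η) (pviePos η) 𝔖 := by
  have h1 := hR.ft
  unfold PvllFtP
  cases hd : L.dr
  · simp only [hd, Bool.false_eq_true, if_false] at h1 ⊢
    exact ⟨pvly_fr_one h1.1, h1.2, pvly_stub_out h1.1 hδ h3 ((PvilLk.atP_pin hd N b η 𝔖).1 ha) (hZ hd) (hW hd)⟩
  · simp only [hd, if_true] at h1 ⊢
    exact pvly_ft_door h1.1 h1.2.1 h1.2.2.1 h1.2.2.2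

/-- the foot of the entrance end of a witness -/
theorem PvlyReg.ftP' (hR : PvlyReg L μ Wn) (hδ : 0 < δ) (h3 : 3 * μ ≤ δ) (hW : L.dr' = false → pvilFat δ Z' ∩ pvwSq L.p'.z (pvwRad N L.p'.h L.p'.ty L.p'.ty.k + δ) ⊆ Wn)
    (hZ : L.dr' = false → pvilHuI δ r N b L.p' η = Z') {𝔖 : PvwSt (pvieT η)} (ha : L.AtP' N b η 𝔖) : PvllFtP' L (pvtrCore (3 * μ) Wn) (pvieT η) (pviePos η) 𝔖 := by
  have h1 := hR.ft'
  unfold PvllFtP'
  cases hd : L.dr'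
  · simp only [hd, Bool.false_eq_true, if_false] at h1 ⊢
    exact ⟨pvly_fr_one h1.1, h1.2, pvly_stub_in h1.1 hδ h3 ((PvilLk.atP'_pin hd N b η 𝔖).1 ha) (hZ hd) (hW hd)⟩
  · simp only [hd, if_true] at h1 ⊢
    exact pvly_ft_door h1.1 h1.2.1 h1.2.2.1 h1.2.2.2

/-- **(b5), ANY LINK**: the first configuration succeeds, with the hulls of record `Z`, `Z'` of its marked ends and the mesh of the window; the second one has the guard of the link and the same restriction to the window: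
it succeeds, with the same plain value -/
theorem pvly_tr (hR : PvlyReg L μ Wn) (hδ : 0 < δ) (h3 : 3 * μ ≤ δ)
    (hW : L.dr = false → pvilFat δ Z ∩ pvwSq L.p.z (pvwRad N L.p.h L.p.ty L.p.ty.k + δ) ⊆ Wn) (hW' : L.dr' = false → pvilFat δ Z' ∩ pvwSq L.p'.z (pvwRad N L.p'.h L.p'.ty L.p'.ty.k + δ) ⊆ Wn)
    (hA : η ∈ L.A N b) (hZ : L.dr = false → pvilHuO δ r N b L.p η = Z) (hZ' : L.dr' = false → pvilHuI δ r N b L.p' η = Z') (hm : PvtrMesh μ Wn (cfSites η))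
    (hg' : η' ∈ pvllGd L) (hηη : Conf.restr (Wn ×ˢ univ) η = Conf.restr (Wn ×ˢ univ) η') {w : ∀ η : Conf PvPt, (delbPl (pvieY η)).Dart → ℂ} (hw : PvlyWt w) :
    η' ∈ L.A N b ∧ L.X N b w η' = L.X N b w η := by
  obtain ⟨𝔖, 𝔖', y, ha⟩ := hA
  exact pvly_X_tr hR.mu hηη hm hR.uq hg' hR.room ha (hR.ftP hδ h3 hW hZ ha.at_p) (hR.ftP' hδ h3 hW' hZ' ha.at_p') hw

/-- a success carries the guard -/
theorem pvly_gd_of_A (h : η ∈ L.A N b) : η ∈ pvllGd L := by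
  obtain ⟨𝔖, 𝔖', y, ha⟩ := h
  exact (pvll_arc_iff.1 ha).1

end generic

/-! ## 5. at the model -/

section model

variable {τ : Type} {c : ℝ} (𝔓 : PvxPar τ c) (𝔈 : PvieEng τ) {m : ℕ} {ε : ℝ} {z : ℂ} {t : τ} {Z : Set (ℤ × ℤ)}

/-! ### numbers (the ONLY place where the numerals of `pvilMu`, `pvilRd` are read) -/

theorem pvly_mu_pos (hδ : 0 < pvlmDel c m) (hρ : 0 < 𝔓.num.rho3 * pvlmH m) : 0 < pvilMu 𝔓 m := by
  unfold pvilMu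
  exact div_pos (lt_min hδ hρ) (by norm_num)

theorem pvly_mu_le (hδ : 0 < pvlmDel c m) : 100 * pvilMu 𝔓 m ≤ pvlmDel c m := by
  unfold pvilMu
  have := min_le_left (pvlmDel c m) (𝔓.num.rho3 * pvlmH m)
  linarith

theorem pvly_mu_rd (hδ : 0 < pvlmDel c m) : 10 * pvilMu 𝔓 m ≤ 3 * pvilRd 𝔓 m := by
  unfold pvilMu pvilRd
  have := min_le_left (pvlmDel c m) (𝔓.num.rho3 * pvlmH m)
  linarith

theorem pvly_rd_pos (hδ : 0 < pvlmDel c m) : 0 < pvilRd 𝔓 m := by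
  unfold pvilRd
  positivity

/-! ### regions -/

/-- the ball lies in the shifted square -/
theorem pvly_sh_ball (z : ℂ) (r : ℝ) : closedBall z r ⊆ pvieSh z (pvwSq 0 r) := by
  intro a ha
  rw [mem_closedBall_iff_norm] at ha
  refine ⟨a - z, ⟨?_, ?_⟩, by ring⟩
  · rw [sub_zero]; exact (Complex.abs_re_le_norm _).trans ha
  · rw [sub_zero]; exact (Complex.abs_im_le_norm _).trans ha

/-- the ball `3 r` round a door lies in its region (`dp_win`) -/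
theorem pvly_door_ball {r : ℝ} {p d : ℂ} (hd : ‖d‖ = 1) (hwin : pvwSq 0 (3 * r) ⊆ (𝔈.kit m ε).O₀) : closedBall p (3 * r) ⊆ pvieDoor 𝔈 m ε p d :=
  (pvly_sim_ball hd _).trans (image_mono hwin)

/-- a relative door region, shifted -/
theorem pvly_sh_door (z p d : ℂ) : pvieSh z (pvieDoor 𝔈 m ε p d) = pvieDoor 𝔈 m ε (z + p) d := by
  unfold pvieSh pvieDoor
  rw [image_image]
  refine image_congr fun a _ => ?_
  unfold pvthSim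
  ring

/-- a relative collar, shifted -/
theorem pvly_sh_core {S W : Set ℂ} {r : ℝ} (h : ∀ v ∈ S, closedBall v r ⊆ W) (z : ℂ) : pvieSh z S ⊆ pvtrCore r (pvieSh z W) := by
  rintro _ ⟨v, hv, rfl⟩ q hq
  refine ⟨q - z, h v hv ?_, by ring⟩
  rw [mem_closedBall_iff_norm] at hq ⊢
  have e : q - z - v = q - (z + v) := by ring
  rw [e]
  exact hq

/-- (Rc) of RULING 22 in relative form gives the room of the first link -/
theorem pvly_room_o (h : ∀ v ∈ 𝔈.oY m t, closedBall v (3 * pvilMu 𝔓 m) ⊆ 𝔈.oM m t ∪ 𝔈.oK m t ∪ pviwDo 𝔓 𝔈 m ε t) (z : ℂ) (Z : Set (ℤ × ℤ)) :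
    pvieSh z (𝔈.oY m t) ⊆ pvtrCore (3 * pvilMu 𝔓 m) (pvilWno 𝔓 𝔈 m ε z t Z) := by
  refine (pvly_sh_core h z).trans (pvll_core_mono _ ?_)
  unfold pvilWno pviwDo pvieZo
  rw [← pvly_sh_door]
  unfold pvieSh
  rw [image_union, image_union]
  rintro x ((hx | hx) | hx)
  · exact Or.inl (Or.inl (Or.inr hx))
  · exact Or.inl (Or.inr hx)
  · exact Or.inr hx

/-- (Rc) for the last link -/
theorem pvly_room_i (h : ∀ v ∈ 𝔈.iY m t, closedBall v (3 * pvilMu 𝔓 m) ⊆ 𝔈.iM m t ∪ 𝔈.iK m t ∪ pviwDi 𝔓 𝔈 m ε t) (z : ℂ) (Z : Set (ℤ × ℤ)) :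
    pvieSh z (𝔈.iY m t) ⊆ pvtrCore (3 * pvilMu 𝔓 m) (pvilWni 𝔓 𝔈 m ε z t Z) := by
  refine (pvly_sh_core h z).trans (pvll_core_mono _ ?_)
  unfold pvilWni pviwDi pvieZi
  rw [← pvly_sh_door]
  unfold pvieSh
  rw [image_union, image_union]
  rintro x ((hx | hx) | hx)
  · exact Or.inl (Or.inl (Or.inr hx))
  · exact Or.inl (Or.inr hx)
  · exact Or.inr hx

/-- (Rc) for the thick link -/
theorem pvly_room_e (h : ∀ v ∈ 𝔈.eY m t, closedBall v (3 * pvilMu 𝔓 m) ⊆ 𝔈.eM m t ∪ 𝔈.eK m t ∪ pviwRo 𝔓 𝔈 m t) (z : ℂ) (Z : Set (ℤ × ℤ)) :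
    pvieSh z (𝔈.eY m t) ⊆ pvtrCore (3 * pvilMu 𝔓 m) (pvilWne 𝔓 𝔈 m z t Z) := by
  refine (pvly_sh_core h z).trans (pvll_core_mono _ ?_)
  have e : pvieSh z (pviwRo 𝔓 𝔈 m t) = pvieSh (pvieZu 𝔓 m z t) (𝔈.rO m) := by
    unfold pviwRo pvieSh pvieZu
    rw [image_image]
    exact image_congr fun a _ => by ring
  unfold pvilWne
  rw [← e]
  unfold pvieSh
  rw [image_union, image_union]
  rintro x ((hx | hx) | hx)
  · exact Or.inl (Or.inl (Or.inr hx))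
  · exact Or.inl (Or.inr hx)
  · exact Or.inr hx

theorem pvly_wz_o : pvilWz 𝔓 m z t Z ⊆ pvilWno 𝔓 𝔈 m ε z t Z := fun _ hx => Or.inl (Or.inl (Or.inl hx))
theorem pvly_wz_i : pvilWz 𝔓 m z t Z ⊆ pvilWni 𝔓 𝔈 m ε z t Z := fun _ hx => Or.inl (Or.inl (Or.inl hx))
theorem pvly_wz_e : pvilWz 𝔓 m z t Z ⊆ pvilWne 𝔓 𝔈 m z t Z := fun _ hx => Or.inl (Or.inl (Or.inl hx))

/-- **the record of the first link** -/
theorem pvly_reg_o (hδ : 0 < pvlmDel c m) (hρ : 0 < 𝔓.num.rho3 * pvlmH m) (hdir : ‖(𝔓.Γ m).dout t‖ = 1) (hwin : pvwSq 0 (3 * pvilRd 𝔓 m) ⊆ (𝔈.kit m ε).O₀)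
    (hroom : pvieSh z (𝔈.oY m t) ⊆ pvtrCore (3 * pvilMu 𝔓 m) (pvilWno 𝔓 𝔈 m ε z t Z)) (hdisc : closedBall z ((𝔓.ty t).b * pvlmH m) ⊆ pvtrCore (3 * pvilMu 𝔓 m) (pvilWno 𝔓 𝔈 m ε z t Z)) :
    PvlyReg (pvilLo 𝔓 𝔈 m z t) (pvilMu 𝔓 m) (pvilWno 𝔓 𝔈 m ε z t Z) :=
  ⟨pvly_mu_pos 𝔓 hδ hρ, hroom, ⟨rfl, hdisc⟩, ⟨pvly_rd_pos 𝔓 hδ, hdir, pvly_mu_rd 𝔓 hδ, (pvly_door_ball 𝔈 hdir hwin).trans fun _ hx => Or.inr hx⟩⟩

/-- **the record of the last link** -/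
theorem pvly_reg_i (hδ : 0 < pvlmDel c m) (hρ : 0 < 𝔓.num.rho3 * pvlmH m) (hdir : ‖(𝔓.Γ m).din t‖ = 1) (hwin : pvwSq 0 (3 * pvilRd 𝔓 m) ⊆ (𝔈.kit m ε).O₀)
    (hroom : pvieSh z (𝔈.iY m t) ⊆ pvtrCore (3 * pvilMu 𝔓 m) (pvilWni 𝔓 𝔈 m ε z t Z)) (hdisc : closedBall z ((𝔓.ty t).b * pvlmH m) ⊆ pvtrCore (3 * pvilMu 𝔓 m) (pvilWni 𝔓 𝔈 m ε z t Z)) :
    PvlyReg (pvilLi 𝔓 𝔈 m z t) (pvilMu 𝔓 m) (pvilWni 𝔓 𝔈 m ε z t Z) :=
  ⟨pvly_mu_pos 𝔓 hδ hρ, hroom, ⟨pvly_rd_pos 𝔓 hδ, hdir, pvly_mu_rd 𝔓 hδ, (pvly_door_ball 𝔈 hdir hwin).trans fun _ hx => Or.inr hx⟩, ⟨rfl, hdisc⟩⟩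

/-- **the record of the thick link** -/
theorem pvly_reg_e (hδ : 0 < pvlmDel c m) (hρ : 0 < 𝔓.num.rho3 * pvlmH m) (hu : 0 < pvilRu 𝔈 m) (hμu : 10 * pvilMu 𝔓 m ≤ 3 * pvilRu 𝔈 m) (hwin : pvwSq 0 (3 * pvilRu 𝔈 m) ⊆ 𝔈.rO m)
    (hroom : pvieSh z (𝔈.eY m t) ⊆ pvtrCore (3 * pvilMu 𝔓 m) (pvilWne 𝔓 𝔈 m z t Z)) (hdisc : closedBall z ((𝔓.ty t).b * pvlmH m) ⊆ pvtrCore (3 * pvilMu 𝔓 m) (pvilWne 𝔓 𝔈 m z t Z)) :
    PvlyReg (pvilLe 𝔓 𝔈 m z t) (pvilMu 𝔓 m) (pvilWne 𝔓 𝔈 m z t Z) :=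
  ⟨pvly_mu_pos 𝔓 hδ hρ, hroom, ⟨hu, norm_one, hμu, ((pvly_sh_ball _ _).trans (image_mono hwin)).trans fun _ hx => Or.inr hx⟩, ⟨rfl, hdisc⟩⟩

/-- **the record of the link into the reference plug** -/
theorem pvly_reg_r (hδ : 0 < pvlmDel c m) (hρ : 0 < 𝔓.num.rho3 * pvlmH m) (hdir : ‖(𝔓.Γ m).din0‖ = 1) (hwin : pvwSq 0 (3 * pvilRd 𝔓 m) ⊆ (𝔈.kit m ε).O₀)
    (hu : 0 < pvilRu 𝔈 m) (hμu : 10 * pvilMu 𝔓 m ≤ 3 * pvilRu 𝔈 m) (hwinu : pvwSq 0 (3 * pvilRu 𝔈 m) ⊆ 𝔈.rO m) (hroom : 𝔈.rY m ⊆ pvtrCore (3 * pvilMu 𝔓 m) (pvilWnr 𝔓 𝔈 m ε)) :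
    PvlyReg (pvilLr 𝔓 𝔈 m) (pvilMu 𝔓 m) (pvilWnr 𝔓 𝔈 m ε) :=
  ⟨pvly_mu_pos 𝔓 hδ hρ, hroom, ⟨pvly_rd_pos 𝔓 hδ, hdir, pvly_mu_rd 𝔓 hδ, (pvly_door_ball 𝔈 hdir hwin).trans fun _ hx => Or.inr hx⟩,
    ⟨hu, norm_one, hμu, ((pvll_ball_sq le_rfl).trans hwinu).trans fun _ hx => Or.inl (Or.inr hx)⟩⟩

/-- the gate disc of the candidate from the density of a configuration with the exit half state, hull `Z` -/
theorem pvly_disc_o (hδ : 0 < pvlmDel c m) {μ₁ : ℝ} (hμ : 0 < μ₁) (hμμ : pvilMu 𝔓 m ≤ μ₁) (h6 : 6 * μ₁ ≤ pvlmDel c m) (hR : 2 * μ₁ ≤ (𝔓.ty t).b * pvlmH m)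
    (hb : (𝔓.ty t).b * pvlmH m ≤ pvwRad 𝔓.num (pvlmH m) (𝔓.ty t) (𝔓.ty t).k) {η₀ : Conf PvPt} (hU : η₀ ∈ pvilUo 𝔓.num (𝔓.col t) (pvilPin 𝔓 m z t))
    (hd : VorDense (cfSites η₀) (closedBall z ((𝔓.ty t).b * pvlmH m)) μ₁) : closedBall z ((𝔓.ty t).b * pvlmH m) ⊆ pvtrCore (3 * pvilMu 𝔓 m) (pvilWz 𝔓 m z t (pvilZo 𝔓 m z t η₀)) := by
  obtain ⟨𝔖, h⟩ := hU
  exact pvly_disc_out (p := pvilPin 𝔓 m z t) rfl hδ hμ hμμ h6 hR hb h hd rfl subset_rfl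

/-- the gate disc of the candidate from the density of a configuration with the entrance half state, hull `Z` -/
theorem pvly_disc_i (hδ : 0 < pvlmDel c m) {μ₁ : ℝ} (hμ : 0 < μ₁) (hμμ : pvilMu 𝔓 m ≤ μ₁) (h6 : 6 * μ₁ ≤ pvlmDel c m) (hR : 2 * μ₁ ≤ (𝔓.ty t).b * pvlmH m)
    (hb : (𝔓.ty t).b * pvlmH m ≤ pvwRad 𝔓.num (pvlmH m) (𝔓.ty t) (𝔓.ty t).k) {η₀ : Conf PvPt} (hU : η₀ ∈ pvilUi 𝔓.num (𝔓.col t) (pvilPin 𝔓 m z t))
    (hd : VorDense (cfSites η₀) (closedBall z ((𝔓.ty t).b * pvlmH m)) μ₁) : closedBall z ((𝔓.ty t).b * pvlmH m) ⊆ pvtrCore (3 * pvilMu 𝔓 m) (pvilWz 𝔓 m z t (pvilZi 𝔓 m z t η₀)) := by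
  obtain ⟨𝔖, h⟩ := hU
  exact pvly_disc_in (p := pvilPin 𝔓 m z t) rfl hδ hμ hμμ h6 hR hb h hd rfl subset_rfl

/-! ### the plain values -/

variable {η η' : Conf PvPt} {w : ∀ η : Conf PvPt, (delbPl (pvieY η)).Dart → ℂ}

theorem pvly_mu3 (hδ : 0 < pvlmDel c m) : 3 * pvilMu 𝔓 m ≤ pvlmDel c m := by
  have h1 := pvly_mu_le 𝔓 hδ
  unfold pvilMu at h1 ⊢
  have := min_le_left (pvlmDel c m) (𝔓.num.rho3 * pvlmH m)
  linarith

/-- **(b5), FIRST LINK**: transfer -/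
theorem pvly_tr_o (hR : PvlyReg (pvilLo 𝔓 𝔈 m z t) (pvilMu 𝔓 m) (pvilWno 𝔓 𝔈 m ε z t Z)) (hδ : 0 < pvlmDel c m) (hw : PvlyWt w) (h : η ∈ pvilMo 𝔓 𝔈 m ε z t Z) (hg' : η' ∈ pvllGd (pvilLo 𝔓 𝔈 m z t))
    (e : Conf.restr (pvilWno 𝔓 𝔈 m ε z t Z ×ˢ univ) η = Conf.restr (pvilWno 𝔓 𝔈 m ε z t Z ×ˢ univ) η') :
    η' ∈ (pvilLo 𝔓 𝔈 m z t).A 𝔓.num (𝔓.col t) ∧ (pvilLo 𝔓 𝔈 m z t).X 𝔓.num (𝔓.col t) w η' = (pvilLo 𝔓 𝔈 m z t).X 𝔓.num (𝔓.col t) w η :=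
  pvly_tr (Z := Z) (Z' := ∅) (r := 𝔓.num.rho * pvlmH m) hR hδ (pvly_mu3 𝔓 hδ) (fun _ => pvly_wz_o 𝔓 𝔈) (fun hd => absurd hd (by simp [pvilLo])) h.1.1 (fun _ => h.1.2) (fun hd => absurd hd (by simp [pvilLo])) h.2 hg' e hw

/-- **(b5), LAST LINK**: transfer -/
theorem pvly_tr_i (hR : PvlyReg (pvilLi 𝔓 𝔈 m z t) (pvilMu 𝔓 m) (pvilWni 𝔓 𝔈 m ε z t Z)) (hδ : 0 < pvlmDel c m) (hw : PvlyWt w) (h : η ∈ pvilMi 𝔓 𝔈 m ε z t Z) (hg' : η' ∈ pvllGd (pvilLi 𝔓 𝔈 m z t))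
    (e : Conf.restr (pvilWni 𝔓 𝔈 m ε z t Z ×ˢ univ) η = Conf.restr (pvilWni 𝔓 𝔈 m ε z t Z ×ˢ univ) η') :
    η' ∈ (pvilLi 𝔓 𝔈 m z t).A 𝔓.num (𝔓.col t) ∧ (pvilLi 𝔓 𝔈 m z t).X 𝔓.num (𝔓.col t) w η' = (pvilLi 𝔓 𝔈 m z t).X 𝔓.num (𝔓.col t) w η :=
  pvly_tr (Z := ∅) (Z' := Z) (r := 𝔓.num.rho * pvlmH m) hR hδ (pvly_mu3 𝔓 hδ) (fun hd => absurd hd (by simp [pvilLi])) (fun _ => pvly_wz_i 𝔓 𝔈) h.1.1 (fun hd => absurd hd (by simp [pvilLi])) (fun _ => h.1.2) h.2 hg' e hw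

/-- **(b5), THICK LINK**: transfer -/
theorem pvly_tr_e (hR : PvlyReg (pvilLe 𝔓 𝔈 m z t) (pvilMu 𝔓 m) (pvilWne 𝔓 𝔈 m z t Z)) (hδ : 0 < pvlmDel c m) (hw : PvlyWt w) (h : η ∈ pvilMe 𝔓 𝔈 m z t Z) (hg' : η' ∈ pvllGd (pvilLe 𝔓 𝔈 m z t))
    (e : Conf.restr (pvilWne 𝔓 𝔈 m z t Z ×ˢ univ) η = Conf.restr (pvilWne 𝔓 𝔈 m z t Z ×ˢ univ) η') :
    η' ∈ (pvilLe 𝔓 𝔈 m z t).A 𝔓.num (𝔓.col t) ∧ (pvilLe 𝔓 𝔈 m z t).X 𝔓.num (𝔓.col t) w η' = (pvilLe 𝔓 𝔈 m z t).X 𝔓.num (𝔓.col t) w η :=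
  pvly_tr (Z := ∅) (Z' := Z) (r := 𝔓.num.rho * pvlmH m) hR hδ (pvly_mu3 𝔓 hδ) (fun hd => absurd hd (by simp [pvilLe])) (fun _ => pvly_wz_e 𝔓 𝔈) h.1.1 (fun hd => absurd hd (by simp [pvilLe])) (fun _ => h.1.2) h.2 hg' e hw

/-- **(b5), LINK INTO THE REFERENCE PLUG**: transfer -/
theorem pvly_tr_r (hR : PvlyReg (pvilLr 𝔓 𝔈 m) (pvilMu 𝔓 m) (pvilWnr 𝔓 𝔈 m ε)) (hδ : 0 < pvlmDel c m) (hw : PvlyWt w) (h : η ∈ pvilMr 𝔓 𝔈 m ε) (hg' : η' ∈ pvllGd (pvilLr 𝔓 𝔈 m))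
    (e : Conf.restr (pvilWnr 𝔓 𝔈 m ε ×ˢ univ) η = Conf.restr (pvilWnr 𝔓 𝔈 m ε ×ˢ univ) η') :
    η' ∈ (pvilLr 𝔓 𝔈 m).A 𝔓.num true ∧ (pvilLr 𝔓 𝔈 m).X 𝔓.num true w η' = (pvilLr 𝔓 𝔈 m).X 𝔓.num true w η :=
  pvly_tr (Z := ∅) (Z' := ∅) (r := 0) hR hδ (pvly_mu3 𝔓 hδ) (fun hd => absurd hd (by simp [pvilLr])) (fun hd => absurd hd (by simp [pvilLr])) h.1 (fun hd => absurd hd (by simp [pvilLr])) (fun hd => absurd hd (by simp [pvilLr])) h.2 hg' e hw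

/-! ### the wording of `Exit/FrcDefs` -/

variable {T : PvjeTest} {η₀ : Conf PvPt}

/-- **`PvjeDet` OF THE FIRST LINK FROM ITS FIELD `ev`** -/
theorem pvly_det_o (hR : PvlyReg (pvilLo 𝔓 𝔈 m z t) (pvilMu 𝔓 m) (pvilWno 𝔓 𝔈 m ε z t (pvilZo 𝔓 m z t η₀))) (hδ : 0 < pvlmDel c m) (hw : PvlyWt w)
    (ev : ∀ η, PvjeFin (pvjeO 𝔓 𝔈 w m ε z t) T η₀ η → η ∈ pvilMo 𝔓 𝔈 m ε z t (pvilZo 𝔓 m z t η₀)) : PvjeDet (pvjeO 𝔓 𝔈 w m ε z t) T η₀ :=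
  ⟨ev, fun η η' h h' e => (pvly_tr_o 𝔓 𝔈 hR hδ hw (ev η h) (pvly_gd_of_A (ev η' h').1.1) e).2.symm⟩

/-- **`PvjeDet` OF THE LAST LINK FROM ITS FIELD `ev`** -/
theorem pvly_det_i (hR : PvlyReg (pvilLi 𝔓 𝔈 m z t) (pvilMu 𝔓 m) (pvilWni 𝔓 𝔈 m ε z t (pvilZi 𝔓 m z t η₀))) (hδ : 0 < pvlmDel c m) (hw : PvlyWt w)
    (ev : ∀ η, PvjeFin (pvjeI 𝔓 𝔈 w m ε z t) T η₀ η → η ∈ pvilMi 𝔓 𝔈 m ε z t (pvilZi 𝔓 m z t η₀)) : PvjeDet (pvjeI 𝔓 𝔈 w m ε z t) T η₀ :=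
  ⟨ev, fun η η' h h' e => (pvly_tr_i 𝔓 𝔈 hR hδ hw (ev η h) (pvly_gd_of_A (ev η' h').1.1) e).2.symm⟩

/-- **`PvjeDet` OF THE THICK LINK FROM ITS FIELD `ev`** -/
theorem pvly_det_e (hR : PvlyReg (pvilLe 𝔓 𝔈 m z t) (pvilMu 𝔓 m) (pvilWne 𝔓 𝔈 m z t (pvilZi 𝔓 m z t η₀))) (hδ : 0 < pvlmDel c m) (hw : PvlyWt w)
    (ev : ∀ η, PvjeFin (pvjeE 𝔓 𝔈 w m ε z t) T η₀ η → η ∈ pvilMe 𝔓 𝔈 m z t (pvilZi 𝔓 m z t η₀)) : PvjeDet (pvjeE 𝔓 𝔈 w m ε z t) T η₀ :=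
  ⟨ev, fun η η' h h' e => (pvly_tr_e 𝔓 𝔈 hR hδ hw (ev η h) (pvly_gd_of_A (ev η' h').1.1) e).2.symm⟩

end model

/-! ## 6. AT THE PARAMETERS AND THE ENGINE OF RECORD: what [LOC] of 74 (`Tr/LinkLocE`) asks, paid; `val` and `PvjeDet` from `ev` + the collar (Rc) alone -/

section record

variable {c : ℝ} (N : PvxNums) (hN : N.Ok)

/-- `PvllPin` of 74 at the parameters of record -/
theorem pvly_rec_pin (m : ℕ) (t : pvxTau N) : PvllPin (pvxParOf N hN c) m t := by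
  have h3 : 0 < N.rho3 := hN.msk0
  have hg : (0 : ℝ) ≤ (N.g : ℝ) := Nat.cast_nonneg _
  have hk : (0 : ℝ) ≤ (pvxoK t : ℝ) := Nat.cast_nonneg _
  have e1 := hN.m_gt; have e2 := hN.m_lt; have e3 := hN.B_lt; have e4 := hN.ab1; have e5 := hN.gap; have e6 := hN.ab2
  have e7 := hN.rho0; have e8 := hN.rho1; have e9 := hN.rho2; have e10 := hN.rho3; have e11 := hN.msk
  have h4 : N.rho3 ≤ 100 * ((N.g : ℝ) + 1) * N.rho3 := by nlinarith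
  refine pvll_pin_mk (show 0 < N.rho3 from h3) (show 1 + N.rho3 / 500 ≤ N.b1 by linarith) (show N.b1 ≤ 2 * N.b2 + (pvxoK t : ℝ) * N.rho1 from ?_) m
  have : 0 ≤ (pvxoK t : ℝ) * N.rho1 := mul_nonneg hk (by linarith)
  linarith

theorem pvly_rec_dout (m : ℕ) (t : pvxTau N) : ‖((pvxParOf N hN c).Γ m).dout t‖ = 1 := ((pvxParOf N hN c).Γ m).dout1 t

theorem pvly_rec_din (m : ℕ) (t : pvxTau N) : ‖((pvxParOf N hN c).Γ m).din t‖ = 1 := by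
  show ‖- Complex.I ^ _‖ = 1
  simp

theorem pvly_rec_din0 (m : ℕ) : ‖((pvxParOf N hN c).Γ m).din0‖ = 1 := by
  show ‖(1 : ℂ)‖ = 1
  simp

variable (nb : PvnaNb N)

/-- the unit of the reference plug of record is coarse -/
theorem pvly_rec_ru (m : ℕ) : 3 * pvilMu (pvxParOf N hN c) m ≤ pvilRu (pvnaEngRec N hN c nb) m := by
  have h1 := pvll_mu_del (pvxParOf N hN c) m
  have h2 : pvlmDel c m ≤ pvehDl (pvxParOf N hN c) m := by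
    refine pveh_Del_le_Dl ?_
    unfold pvxrNw
    refine Int.ceil_nonneg ?_
    have : 0 < (pvxParOf N hN c).num.rho := hN.rho0
    positivity
  have h3 := pvlm_Del_pos c m
  unfold pvilRu
  rw [pvnr_rp_h]
  linarith

variable {m : ℕ}

theorem pvly_rec_rp (c0 : 0 < c) (hm : (pvxParOf N hN c).m0 ≤ m) : pvwSq 0 (3 * pvilRu (pvnaEngRec N hN c nb) m) ⊆ (pvnaEngRec N hN c nb).rO m := by
  obtain ⟨Cth, r, κs, h⟩ := (pvnr_wf hN c0 nb).wf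
  exact h.rp_win m hm

theorem pvly_rec_dp (c0 : 0 < c) (hm : (pvxParOf N hN c).m0 ≤ m) (ε : ℝ) : pvwSq 0 (3 * pvilRd (pvxParOf N hN c) m) ⊆ ((pvnaEngRec N hN c nb).kit m ε).O₀ := by
  obtain ⟨Cth, r, κs, h⟩ := (pvnr_wf hN c0 nb).wf
  exact h.dp_win m hm ε

/-- **(Rc) OF RULING 22 AT THE ENGINE OF RECORD, FIRST LINK** (relative form).      PROVED (124) since the swap `oY := pvegOYc` of 245 (`Exit/ParEngY`): `pvey_oYc_collar` -/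
theorem exit_pvly_col_o (c0 : 0 < c) (hm : (pvxParOf N hN c).m0 ≤ m) (ε : ℝ) (t : pvxTau N) : ∀ v ∈ (pvnaEngRec N hN c nb).oY m t, closedBall v (3 * pvilMu (pvxParOf N hN c) m) ⊆
    (pvnaEngRec N hN c nb).oM m t ∪ (pvnaEngRec N hN c nb).oK m t ∪ pvieDoor (pvnaEngRec N hN c nb) m ε (((pvxParOf N hN c).Γ m).pout t) (((pvxParOf N hN c).Γ m).dout t) := by
  intro v hv
  have hO : pvwSq 0 (3 * (pvlmDel c m / 40)) ⊆ (pvnaInRec N hN c nb).O0 m := pvly_rec_dp N hN nb c0 hm 1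
  have h := pvey_oYc_collar ((pvea_par hN c0).lev hm) hO (v := v) (t := t) hv
  rw [pvnr_oM, pvnr_oK]
  unfold pvieDoor
  rw [pvnr_kit_O, ← pvnr_O0 N hN c nb m]
  exact h

/-- **(Rc) AT THE ENGINE OF RECORD, LAST LINK**.      PROVED (124) since the swap `iY := pvegIYc` of 245: `pvey_iYc_collar` -/
theorem exit_pvly_col_i (c0 : 0 < c) (hm : (pvxParOf N hN c).m0 ≤ m) (ε : ℝ) (t : pvxTau N) : ∀ v ∈ (pvnaEngRec N hN c nb).iY m t, closedBall v (3 * pvilMu (pvxParOf N hN c) m) ⊆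
    (pvnaEngRec N hN c nb).iM m t ∪ (pvnaEngRec N hN c nb).iK m t ∪ pvieDoor (pvnaEngRec N hN c nb) m ε (((pvxParOf N hN c).Γ m).pin t) (((pvxParOf N hN c).Γ m).din t) := by
  intro v hv
  have hO : pvwSq 0 (3 * (pvlmDel c m / 40)) ⊆ (pvnaInRec N hN c nb).O0 m := pvly_rec_dp N hN nb c0 hm 1
  have h := pvey_iYc_collar ((pvea_par hN c0).lev hm) hO (v := v) (t := t) hv
  rw [pvnr_iM, pvnr_iK]
  unfold pvieDoor
  rw [pvnr_kit_O, ← pvnr_O0 N hN c nb m]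
  exact h

/-- the room v2 of the thick link (166 + funnel of 124) lies in mouth, tile AFTER U4, window AFTER U4      (text of 132, `pvjk_eY_u4`, `Exit/ThickRR`: retyped here because `Tr/LinkDet` stays BELOW the thick files) -/
theorem pvly_eY_u4 {τ : Type} {c : ℝ} {𝔓 : PvxPar τ c} {m0 m : ℕ} {t : τ} (J : PveaIn) (H : PveaPar 𝔓 m0) (hm : m0 ≤ m) (hT : pviwTyOk 𝔓 t) :
    pveheY 𝔓 (pvegIM 𝔓) m t ∪ pvegIK 𝔓 m t ⊆ pvegIM 𝔓 m t ∪ pvnuEK 𝔓 m t ∪ pvieSh ((𝔓.Γ m).zu t) (pvnuRO 𝔓 m) := by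
  have hn := pvea_Nw_nonneg H m
  have ip := pvea_i_plug (J := J) H hm hT
  have hM : Disjoint (pvegIM 𝔓 m t) (pvieSh ((pvxrGam 𝔓 m).zu t) (pvehrO 𝔓 m)) := ip.mono subset_union_left subset_union_right
  have hK : Disjoint (pvegIK 𝔓 m t) (pvieSh ((pvxrGam 𝔓 m).zu t) (pvehrO 𝔓 m)) := ip.mono subset_union_right subset_union_right
  have h1 : pveheY 𝔓 (pvegIM 𝔓) m t ∪ pvegIK 𝔓 m t ⊆ (pvegIM 𝔓 m t ∪ (pveheK 𝔓 (pvegIM 𝔓) m t ∪ pvegIK 𝔓 m t)) ∪ pvieSh ((pvxrGam 𝔓 m).zu t) (pvehrO 𝔓 m) := by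
    rintro v (hv | hv)
    · rcases pveh_eY_sub (𝔓 := 𝔓) (Mi := pvegIM 𝔓) (Mo := pvegIM 𝔓) (fun _ _ => Subset.rfl) hn t hv with (h | h) | h
      · exact Or.inl (Or.inl h)
      · exact Or.inl (Or.inr (Or.inl h))
      · exact Or.inr h
    · exact Or.inl (Or.inr (Or.inr hv))
  have h2 := pvnu4_room_W _ h1 (pvnu4_eY_W hn t Subset.rfl hM hK (pvnuRO 𝔓 m))
  unfold pvnuEK
  rw [H.gam]
  rintro v hv
  rcases h2 hv with ((h | h) | h) | h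
  · exact Or.inl (Or.inl h)
  · exact Or.inl (Or.inr (Or.inl h))
  · exact Or.inl (Or.inr (Or.inr h))
  · exact Or.inr h

/-- **(Rc) OF THE THICK LINK AFTER U4**, ANY engine whose mouth, tile, window contain the named regions and whose room lies in the core (118 `pvvzCo`) of the room v2 -/
theorem pvly_ce_u4 {τ : Type} {c : ℝ} {𝔓 : PvxPar τ c} {m0 m : ℕ} {t : τ} (J : PveaIn) (H : PveaPar 𝔓 m0) (hm : m0 ≤ m) (hT : pviwTyOk 𝔓 t) {𝔈 : PvieEng τ}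
    (hM : pvegIM 𝔓 m t ⊆ 𝔈.eM m t) (hK : pvnuEK 𝔓 m t ⊆ 𝔈.eK m t) (hO : pvnuRO 𝔓 m ⊆ 𝔈.rO m) (hY : 𝔈.eY m t ⊆ pvvzCo (3 * pvilMu 𝔓 m) (pveheY 𝔓 (pvegIM 𝔓) m t ∪ pvegIK 𝔓 m t)) :
    ∀ v ∈ 𝔈.eY m t, closedBall v (3 * pvilMu 𝔓 m) ⊆ 𝔈.eM m t ∪ 𝔈.eK m t ∪ pvieSh ((𝔓.Γ m).zu t) (𝔈.rO m) := fun v hv =>
  (pvvz_collar (pvly_eY_u4 J H hm hT) v (hY hv)).trans (union_subset_union (union_subset_union hM hK) (Set.image_mono hO))

/-- **(Rc) AT THE ENGINE OF RECORD, THICK LINK**.      PROVED since L2 (15:16Z: `eY := pvvzEY` of 118, `eK rO := pvnuEK pvnuRO` of 84) -/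
theorem exit_pvly_col_e (c0 : 0 < c) (hm : (pvxParOf N hN c).m0 ≤ m) (t : pvxTau N) : ∀ v ∈ (pvnaEngRec N hN c nb).eY m t, closedBall v (3 * pvilMu (pvxParOf N hN c) m) ⊆
    (pvnaEngRec N hN c nb).eM m t ∪ (pvnaEngRec N hN c nb).eK m t ∪ pvieSh (((pvxParOf N hN c).Γ m).zu t) ((pvnaEngRec N hN c nb).rO m) := by
  exact pvly_ce_u4 (pvnaInRec N hN c nb) (pvea_par hN c0) hm (pvea_tyOk hN t) Subset.rfl Subset.rfl Subset.rfl Subset.rfl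

variable {w : ∀ η : Conf PvPt, (delbPl (pvieY η)).Dart → ℂ} {ε : ℝ} {z : ℂ} {t : pvxTau N} {Z : Set (ℤ × ℤ)} {η η' η₀ : Conf PvPt} {T : PvjeTest}

/-- **[LOC] OF THE FIRST LINK AT THE RECORD**: no hypothesis left but the weight -/
theorem pvly_rec_tr_o (c0 : 0 < c) (hm : (pvxParOf N hN c).m0 ≤ m) (hw : PvllWt w) (hn' : PvatNice (cfSites η'))
    (hηη : Conf.restr (pvilWno (pvxParOf N hN c) (pvnaEngRec N hN c nb) m ε z t Z ×ˢ univ) η = Conf.restr (pvilWno (pvxParOf N hN c) (pvnaEngRec N hN c nb) m ε z t Z ×ˢ univ) η')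
    (h : η ∈ pvilMo (pvxParOf N hN c) (pvnaEngRec N hN c nb) m ε z t Z) :
    η' ∈ pvilMo (pvxParOf N hN c) (pvnaEngRec N hN c nb) m ε z t Z ∧
      (pvilLo (pvxParOf N hN c) (pvnaEngRec N hN c nb) m z t).X (pvxParOf N hN c).num ((pvxParOf N hN c).col t) w η' = (pvilLo (pvxParOf N hN c) (pvnaEngRec N hN c nb) m z t).X (pvxParOf N hN c).num ((pvxParOf N hN c).col t) w η ∧
      pvilFo (pvxParOf N hN c) m z t η' = pvilFo (pvxParOf N hN c) m z t η :=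
  pvll_tr_o (pvly_rec_pin N hN m t) (pvly_rec_dout N hN m t) (pvly_rec_dp N hN nb c0 hm ε) (pvll_col_o (exit_pvly_col_o N hN nb c0 hm ε t) z) hw hn' hηη h

/-- **[LOC] OF THE LAST LINK AT THE RECORD** -/
theorem pvly_rec_tr_i (c0 : 0 < c) (hm : (pvxParOf N hN c).m0 ≤ m) (hw : PvllWt w) (hn' : PvatNice (cfSites η'))
    (hηη : Conf.restr (pvilWni (pvxParOf N hN c) (pvnaEngRec N hN c nb) m ε z t Z ×ˢ univ) η = Conf.restr (pvilWni (pvxParOf N hN c) (pvnaEngRec N hN c nb) m ε z t Z ×ˢ univ) η')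
    (h : η ∈ pvilMi (pvxParOf N hN c) (pvnaEngRec N hN c nb) m ε z t Z) :
    η' ∈ pvilMi (pvxParOf N hN c) (pvnaEngRec N hN c nb) m ε z t Z ∧
      (pvilLi (pvxParOf N hN c) (pvnaEngRec N hN c nb) m z t).X (pvxParOf N hN c).num ((pvxParOf N hN c).col t) w η' = (pvilLi (pvxParOf N hN c) (pvnaEngRec N hN c nb) m z t).X (pvxParOf N hN c).num ((pvxParOf N hN c).col t) w η ∧
      pvilFi (pvxParOf N hN c) m z t η' = pvilFi (pvxParOf N hN c) m z t η :=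
  pvll_tr_i (pvly_rec_pin N hN m t) (pvly_rec_din N hN m t) (pvly_rec_dp N hN nb c0 hm ε) (pvll_col_i (exit_pvly_col_i N hN nb c0 hm ε t) z) hw hn' hηη h

/-- **[LOC] OF THE THICK LINK AT THE RECORD** -/
theorem pvly_rec_tr_e (c0 : 0 < c) (hm : (pvxParOf N hN c).m0 ≤ m) (hw : PvllWt w) (hn' : PvatNice (cfSites η'))
    (hηη : Conf.restr (pvilWne (pvxParOf N hN c) (pvnaEngRec N hN c nb) m z t Z ×ˢ univ) η = Conf.restr (pvilWne (pvxParOf N hN c) (pvnaEngRec N hN c nb) m z t Z ×ˢ univ) η')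
    (h : η ∈ pvilMe (pvxParOf N hN c) (pvnaEngRec N hN c nb) m z t Z) :
    η' ∈ pvilMe (pvxParOf N hN c) (pvnaEngRec N hN c nb) m z t Z ∧
      (pvilLe (pvxParOf N hN c) (pvnaEngRec N hN c nb) m z t).X (pvxParOf N hN c).num ((pvxParOf N hN c).col t) w η' = (pvilLe (pvxParOf N hN c) (pvnaEngRec N hN c nb) m z t).X (pvxParOf N hN c).num ((pvxParOf N hN c).col t) w η ∧
      pvilFi (pvxParOf N hN c) m z t η' = pvilFi (pvxParOf N hN c) m z t η :=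
  pvll_tr_e (pvly_rec_pin N hN m t) (pvly_rec_ru N hN nb m) (pvly_rec_rp N hN nb c0 hm) (pvll_col_e (exit_pvly_col_e N hN nb c0 hm t) z) hw hn' hηη h

/-- **`PvjeDet` OF THE FIRST LINK AT THE RECORD = ITS FIELD `ev`** -/
theorem pvly_rec_det_o (c0 : 0 < c) (hm : (pvxParOf N hN c).m0 ≤ m) (hw : PvllWt w)
    (ev : ∀ η, PvjeFin (pvjeO (pvxParOf N hN c) (pvnaEngRec N hN c nb) w m ε z t) T η₀ η → η ∈ pvilMo (pvxParOf N hN c) (pvnaEngRec N hN c nb) m ε z t (pvilZo (pvxParOf N hN c) m z t η₀)) :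
    PvjeDet (pvjeO (pvxParOf N hN c) (pvnaEngRec N hN c nb) w m ε z t) T η₀ :=
  ⟨ev, fun η _ h h' e => (pvly_rec_tr_o N hN nb c0 hm hw h'.nice e (ev η h)).2.1.symm⟩

/-- **`PvjeDet` OF THE LAST LINK AT THE RECORD = ITS FIELD `ev`** -/
theorem pvly_rec_det_i (c0 : 0 < c) (hm : (pvxParOf N hN c).m0 ≤ m) (hw : PvllWt w)
    (ev : ∀ η, PvjeFin (pvjeI (pvxParOf N hN c) (pvnaEngRec N hN c nb) w m ε z t) T η₀ η → η ∈ pvilMi (pvxParOf N hN c) (pvnaEngRec N hN c nb) m ε z t (pvilZi (pvxParOf N hN c) m z t η₀)) :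
    PvjeDet (pvjeI (pvxParOf N hN c) (pvnaEngRec N hN c nb) w m ε z t) T η₀ :=
  ⟨ev, fun η _ h h' e => (pvly_rec_tr_i N hN nb c0 hm hw h'.nice e (ev η h)).2.1.symm⟩

/-- **`PvjeDet` OF THE THICK LINK AT THE RECORD = ITS FIELD `ev`** -/
theorem pvly_rec_det_e (c0 : 0 < c) (hm : (pvxParOf N hN c).m0 ≤ m) (hw : PvllWt w)
    (ev : ∀ η, PvjeFin (pvjeE (pvxParOf N hN c) (pvnaEngRec N hN c nb) w m ε z t) T η₀ η → η ∈ pvilMe (pvxParOf N hN c) (pvnaEngRec N hN c nb) m z t (pvilZi (pvxParOf N hN c) m z t η₀)) :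
    PvjeDet (pvjeE (pvxParOf N hN c) (pvnaEngRec N hN c nb) w m ε z t) T η₀ :=
  ⟨ev, fun η _ h h' e => (pvly_rec_tr_e N hN nb c0 hm hw h'.nice e (ev η h)).2.1.symm⟩

end record

end Claimed.Agent.R289
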