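import Claimed.Agent.R289.Tr.HookGL
import Claimed.Agent.R289.Tr.InstL

/-!
# Row 289 (S0537), THE WALL, road E, HOOK-DET, file Tr/HookGI : **(A) A RUN OF 70 IS THE PLAIN SUCCESS OF A LINK OF `Tr/InstL` v2.1, EVERY PAIR OF ENDS (PIN / DOOR)**      (helper90; prefix `pvhg_`, `Pvhg` continued from `Tr/HookG`, `Tr/HookGL`)      0 sorry

CONSUMERS: (b3) DET of `Exit/FrcE` (35; pen 228 `Tr/FrcDet` / `Tr/HookD`), the r-link (233), `Tr/HookGJ` (90: one stops over `Tr/HookY` of 23).      THIS FILE DOES NOT IMPORT `Tr/HookY`.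
`Tr/InstL` v2.1 (168 / 163): an end of a link is a PIN (half state `PvilOut` / `PvilIn`, with a stub) or a DOOR (`PvilDoor`: state of a kit plug, NO stub, `np = nm = 0`, `ep _ = dp = g.aOut`, `em _ = dm = g.aIn`).
The links of record are HYBRID: `pvilLo` pin → door, `pvilLi`, `pvilLe` door → pin, `pvilLr` door → door.      `pvhg_pos_of_run` of `Tr/HookGL` reads the first hit at the EXIT end (`g⁺ ∉ K`): FALSE for a door exit (`g⁺` is a vertex of the first face of the run).      HERE the first hit is read at the ENTRANCE end.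
* sec. 1  model free: `pvhg_stubP_nil`, `pvhg_stubM_nil` (an end without stub IS a stub of length `0`), `pvhg_em_ne_zero`, **`pvhg_pos_of_run2`** : stub (any frame) + run with first hit + stub (any frame), `g⁻ ∉ bkP`, (`nm = 0` or `g⁻ ∉ K`)
          ⟹  `dm` is hit at time `np + N + nm`, FOR THE FIRST TIME, the positions `np ≤ i < np + N` have their three vertices in `K`.
* sec. 2  UNFRAME: `PvhgFr`, `pvhgTy`, `pvhgO`, **`pvhg_unframe_out`, `pvhg_unframe_in`** : a half state read in a frame `f ∈ {1, i, -1, -i}` is a half state in the standard frame for the rotated type.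
* sec. 3  **(A) `pvhg_il_run`, `pvhg_il_A`** : `L.AtP`, `L.AtP'`, `g⁻(p') ∉ bkP(p)`, (`p'` a pin → `g⁻(p') ∉ K`), `K` over `L.Yin`, `PvldRun .. K (ep np) (em nm)`  ⟹  `η ∈ L.A N b`.      NO frame, NO number, NO tightness.
          `pvhg_door_data`, `pvhg_door_gate`, `pvhg_door_bkP` (what a link reads of a door state);   AT THE NAMES OF RECORD: **`pvhg_il_Lo`, `pvhg_il_Li`, `pvhg_il_Le`, `pvhg_il_Lr`**.      `PvilPl.yP`, `PvilPl.yM`, `PvilPl.rk` (absolute tip centres, half side of the box), `pvhg_il_yP_std` ..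
-/

set_option autoImplicit false
set_option linter.unusedSectionVars false
set_option linter.unusedVariables false

namespace Claimed.Agent.R289

open Relation Set Metric Claims.C0465
open scoped ComplexConjugate

/-! ## 1. the whole strand between two ends, each with or without a stub (model free) -/

section ends

variable {V D : Type} {T : PvMap V D} {pos : V → ℂ} {σ : V → Bool} {𝔖 𝔗 : PvwSt T} {Bt Bs : Set ℂ} {K : Set V} {N : ℕ}

theorem pvhg_apex_ne (T : PvMap V D) (d : D) : T.apex d ≠ T.src d ∧ T.apex d ≠ T.tgt d :=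
  ⟨fun e => T.src_ne (T.nxt (T.nxt d)) (by rw [T.nxt3]; exact e.symm), T.src_ne (T.nxt d)⟩

/-- **an end WITHOUT exit stub** (door, reference plug) is a stub of length `0` for the two point box -/
theorem pvhg_stubP_nil (hpos : Function.Injective pos) (h0 : 𝔖.np = 0) (he : 𝔖.ep 0 = 𝔖.dp) : 𝔖.StubP pos {pos (T.src 𝔖.dp), pos (T.tgt 𝔖.dp)} σ where
  ep_it := fun i hi => by
    obtain rfl : i = 0 := by omega
    exact he
  ep_in := fun i hi => by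
    obtain rfl : i = 0 := by omega
    rw [he]
    exact ⟨Or.inl rfl, Or.inr rfl⟩
  ep_ax := fun i hi => by omega
  ep_out := by
    unfold PvwSt.ap
    rw [h0, he]
    rintro (e | e)
    · exact (pvhg_apex_ne T _).1 (hpos e)
    · exact (pvhg_apex_ne T _).2 (hpos e)

/-- **an end WITHOUT entrance stub** -/
theorem pvhg_stubM_nil (hpos : Function.Injective pos) (h0 : 𝔖.nm = 0) (he : 𝔖.em 0 = 𝔖.dm) : 𝔖.StubM pos {pos (T.src 𝔖.dm), pos (T.tgt 𝔖.dm)} σ where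
  em_it := fun i hi => by
    obtain rfl : i = 0 := by omega
    exact he
  em_in := fun i hi => by
    obtain rfl : i = 0 := by omega
    rw [he]
    exact ⟨Or.inl rfl, Or.inr rfl⟩
  em_ax := fun i hi => by omega
  em_out := by
    unfold PvwSt.am
    rw [h0, he]
    rintro (e | e)
    · exact (pvhg_apex_ne T _).2 ((hpos e).trans (T.tgt_opp _).symm)
    · exact (pvhg_apex_ne T _).1 ((hpos e).trans (T.src_opp _).symm)

/-- the entrance stub does not come back to its gate edge -/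
theorem pvhg_em_ne_zero (hs : 𝔖.StubM pos Bs σ) (hbs : pvasBW T σ 𝔖.dm) {j : ℕ} (h0 : 0 < j) (hj : j ≤ 𝔖.nm) : 𝔖.em j ≠ 𝔖.dm := by
  intro e
  have hb := pvwk_em_bw hs hbs (le_refl 𝔖.nm)
  have e1 : pvasIt T σ (𝔖.em 𝔖.nm) (𝔖.nm - j) = pvasIt T σ (𝔖.em 𝔖.nm) 𝔖.nm := by
    rw [pvwk_em_fwd hs hbs (Nat.sub_le _ _), pvwk_em_fwd_end hs hbs, show 𝔖.nm - (𝔖.nm - j) = j by omega, e]
  have e2 := pvas_it_return hb (Nat.sub_le _ _) e1
  rw [show 𝔖.nm - (𝔖.nm - j) = j by omega, pvwk_em_fwd hs hbs hj] at e2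
  have h1 := hs.em_ax (𝔖.nm - j) (by omega)
  rw [e2] at h1
  exact hs.em_out h1

/-- **THE WHOLE STRAND, FIRST HIT READ AT THE ENTRANCE END** (works for every pair of ends, with or without stubs, read in two frames): `g⁻` of the entrance end is not on the black bank of the exit stub; if the entrance end has a stub, `g⁻ ∉ K` -/
theorem pvhg_pos_of_run2 {pos' : V → ℂ} (ht : 𝔗.StubP pos' Bt σ) (hs : 𝔖.StubM pos Bs σ) (hbs : pvasBW T σ 𝔖.dm) (hdis : 𝔖.gm ∉ 𝔗.bkP) (hgm : 𝔖.nm = 0 ∨ 𝔖.gm ∉ K)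
    (hN : pvasIt T σ (𝔗.ep 𝔗.np) N = 𝔖.em 𝔖.nm) (hfirst : ∀ i, i < N → pvasIt T σ (𝔗.ep 𝔗.np) i ≠ 𝔖.em 𝔖.nm) (hK : T.VOf (pvasFc T σ (𝔗.ep 𝔗.np) N) ⊆ K) :
    pvasIt T σ 𝔗.dp (𝔗.np + N + 𝔖.nm) = 𝔖.dm ∧ (∀ i, i < 𝔗.np + N + 𝔖.nm → pvasIt T σ 𝔗.dp i ≠ 𝔖.dm) ∧
      ∀ i, 𝔗.np ≤ i → i + 𝔖.nm < 𝔗.np + N + 𝔖.nm → T.src (pvasIt T σ 𝔗.dp i) ∈ K ∧ T.tgt (pvasIt T σ 𝔗.dp i) ∈ K ∧ T.apex (pvasIt T σ 𝔗.dp i) ∈ K := by
  have w1 : ∀ i, i ≤ 𝔗.np → pvasIt T σ 𝔗.dp i = 𝔗.ep i := fun i hi => (ht.ep_it i hi).symm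
  have w2 : ∀ k, pvasIt T σ 𝔗.dp (𝔗.np + k) = pvasIt T σ (𝔗.ep 𝔗.np) k := fun k => by rw [pvas_it_add, w1 _ le_rfl]
  have w3 : ∀ j, j ≤ 𝔖.nm → pvasIt T σ 𝔗.dp (𝔗.np + N + j) = 𝔖.em (𝔖.nm - j) := fun j hj => by rw [Nat.add_assoc, w2, pvas_it_add, hN, pvwk_em_fwd hs hbs hj]
  have hin : ∀ k, k < N → T.src (pvasIt T σ (𝔗.ep 𝔗.np) k) ∈ K ∧ T.tgt (pvasIt T σ (𝔗.ep 𝔗.np) k) ∈ K ∧ T.apex (pvasIt T σ (𝔗.ep 𝔗.np) k) ∈ K := fun k hk =>
    ⟨hK ⟨_, ⟨k, hk, T.sf_refl _⟩, rfl⟩, hK ⟨_, ⟨k, hk, Or.inr (Or.inl rfl)⟩, rfl⟩, hK ⟨_, ⟨k, hk, Or.inr (Or.inr rfl)⟩, rfl⟩⟩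
  refine ⟨?_, fun i hi e => ?_, fun i hi1 hi2 => ?_⟩
  · have := w3 _ le_rfl
    rw [Nat.sub_self, pvwk_em_zero hs] at this
    exact this
  · rcases Nat.lt_or_ge i 𝔗.np with h1 | h1
    · rw [w1 i h1.le] at e
      exact hdis ⟨i, h1.le, by rw [e]; rfl⟩
    · rcases Nat.lt_or_ge i (𝔗.np + N) with h2 | h2
      · obtain ⟨k, rfl⟩ : ∃ k, i = 𝔗.np + k := ⟨i - 𝔗.np, by omega⟩
        rw [w2] at e
        rcases hgm with h0 | h0
        · refine hfirst k (by omega) ?_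
          rw [e, h0, pvwk_em_zero hs]
        · refine h0 ?_
          have := (hin k (by omega)).1
          rw [e] at this
          exact this
      · obtain ⟨j, rfl⟩ : ∃ j, i = 𝔗.np + N + j := ⟨i - (𝔗.np + N), by omega⟩
        rw [w3 j (by omega)] at e
        exact pvhg_em_ne_zero hs hbs (by omega) (Nat.sub_le _ _) e
  · obtain ⟨k, rfl⟩ : ∃ k, i = 𝔗.np + k := ⟨i - 𝔗.np, by omega⟩
    rw [w2]
    exact hin k (by omega)

end ends

/-! ## 2. UNFRAME: a half state read in one of the four frames is a half state in the standard frame, for the rotated type -/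

section unframe

/-- the four frames -/
def PvhgFr (f : ℂ) : Prop := f = 1 ∨ f = Complex.I ∨ f = -1 ∨ f = -Complex.I

/-- the type read in the standard frame: the centres of the tip cells are rotated, the orientation bit is recomputed -/
def pvhgTy (τ : PvwTy) (f : ℂ) (o : Bool) : PvwTy := { τ with yp := f * τ.yp, ym := f * τ.ym, o := o }

theorem pvhg_fr_eqns_cite : True := by
  have := @PvhgFr.eq_1; have := @pvhgTy.eq_1
  trivial

theorem PvhgFr.norm {f : ℂ} (hf : PvhgFr f) : ‖f‖ = 1 := by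
  rcases hf with rfl | rfl | rfl | rfl <;> simp

theorem PvhgFr.conj_mul {f : ℂ} (hf : PvhgFr f) : conj f * f = 1 := by
  rcases hf with rfl | rfl | rfl | rfl <;> simp

theorem pvhg_fr_norm {f : ℂ} (hf : PvhgFr f) (a b : ℂ) : ‖conj f * a - conj f * b‖ = ‖a - b‖ := by
  rw [← mul_sub, norm_mul, Complex.norm_conj, hf.norm, one_mul]

theorem pvhg_fr_sq {f : ℂ} (hf : PvhgFr f) (a z : ℂ) (r : ℝ) : conj f * a ∈ pvwSq (conj f * z) r ↔ a ∈ pvwSq z r := by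
  unfold pvwSq
  simp only [Set.mem_ofPred_eq, ← mul_sub]
  rcases hf with rfl | rfl | rfl | rfl
  · simp
  · simp [and_comm, abs_sub_comm]
  · simp [abs_sub_comm]
  · simp [and_comm, abs_sub_comm]

theorem pvhg_fr_cp {f : ℂ} (hf : PvhgFr f) (τ : PvwTy) (o : Bool) (h : ℝ) (z : ℂ) : τ.cp h (conj f * z) = conj f * (pvhgTy τ f o).cp h z := by
  unfold PvwTy.cp pvhgTy
  have := hf.conj_mul
  linear_combination (-(h : ℂ) * τ.yp) * this

theorem pvhg_fr_cm {f : ℂ} (hf : PvhgFr f) (τ : PvwTy) (o : Bool) (h : ℝ) (z : ℂ) : τ.cm h (conj f * z) = conj f * (pvhgTy τ f o).cm h z := by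
  unfold PvwTy.cm pvhgTy
  have := hf.conj_mul
  linear_combination (-(h : ℂ) * τ.ym) * this

variable {V D : Type} {T : PvMap V D} {𝔖 : PvwSt T} {pos : V → ℂ} {N : PvwNum} {h : ℝ} {z : ℂ} {τ : PvwTy} {s : V → Bool} {f : ℂ}

open Classical in
/-- the orientation bit of the record in the standard frame -/
noncomputable def pvhgO (𝔖 : PvwSt T) (pos : V → ℂ) : Bool :=
  decide ((pos 𝔖.gm).re < (pos 𝔖.gp).re ∨ ((pos 𝔖.gm).re = (pos 𝔖.gp).re ∧ (pos 𝔖.gm).im < (pos 𝔖.gp).im))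

theorem pvhg_unframe_gate (hf : PvhgFr f) (hg : 𝔖.Gate (fun v => conj f * pos v) h (conj f * z) τ s) : 𝔖.Gate pos h z (pvhgTy τ f (pvhgO 𝔖 pos)) s where
  fin := hg.fin
  dsc_eq := by
    rw [hg.dsc_eq]
    ext v
    simp only [Set.mem_ofPred_eq, pvhg_fr_norm hf]
    rfl
  core_fin := hg.core_fin
  ann := fun v hv => by
    have := hg.ann v hv
    rw [pvhg_fr_norm hf] at this
    exact this
  round := fun v hv => hg.round v (by rw [pvhg_fr_norm hf]; exact hv)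
  inside := fun v hv => by
    have := hg.inside v hv
    rw [pvhg_fr_norm hf] at this
    exact this
  dp_on := hg.dp_on
  dm_on := hg.dm_on
  bw_p := hg.bw_p
  bw_m := hg.bw_m
  ne := hg.ne
  ori := by
    unfold pvhgTy pvhgO
    simp only [decide_eq_true_eq]
  two := hg.two
  left := hg.left
  strand := hg.strand
  ip_le := hg.ip_le
  ip_near := by
    have := hg.ip_near
    rw [pvhg_fr_norm hf] at this
    exact this
  ip_first := fun i hi => by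
    have := hg.ip_first i hi
    rw [pvhg_fr_norm hf] at this
    exact this

theorem pvhg_unframe_inmost (hf : PvhgFr f) (o : Bool) (hi : 𝔖.Inmost (fun v => conj f * pos v) h (conj f * z) τ s) : 𝔖.Inmost pos h z (pvhgTy τ f o) s := by
  unfold PvwSt.Inmost pvwI pvwO at hi ⊢
  simp only [pvhg_fr_norm hf] at hi
  exact hi

theorem pvhg_unframe_stubP (hf : PvhgFr f) {r : ℝ} (hs : 𝔖.StubP (fun v => conj f * pos v) (pvwSq (conj f * z) r) s) : 𝔖.StubP pos (pvwSq z r) s where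
  ep_it := hs.ep_it
  ep_in := fun i hi => ⟨(pvhg_fr_sq hf _ _ _).1 (hs.ep_in i hi).1, (pvhg_fr_sq hf _ _ _).1 (hs.ep_in i hi).2⟩
  ep_ax := fun i hi => (pvhg_fr_sq hf _ _ _).1 (hs.ep_ax i hi)
  ep_out := fun hc => hs.ep_out ((pvhg_fr_sq hf _ _ _).2 hc)

theorem pvhg_unframe_stubM (hf : PvhgFr f) {r : ℝ} (hs : 𝔖.StubM (fun v => conj f * pos v) (pvwSq (conj f * z) r) s) : 𝔖.StubM pos (pvwSq z r) s where
  em_it := hs.em_it
  em_in := fun i hi => ⟨(pvhg_fr_sq hf _ _ _).1 (hs.em_in i hi).1, (pvhg_fr_sq hf _ _ _).1 (hs.em_in i hi).2⟩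
  em_ax := fun i hi => (pvhg_fr_sq hf _ _ _).1 (hs.em_ax i hi)
  em_out := fun hc => hs.em_out ((pvhg_fr_sq hf _ _ _).2 hc)

theorem pvhg_unframe_goodOut (hf : PvhgFr f) {y : ℂ} (hg : 𝔖.GoodOut (fun v => conj f * pos v) N h (conj f * y)) : 𝔖.GoodOut pos N h y where
  tip_p := by
    have := hg.tip_p
    simp only [pvhg_fr_norm hf] at this
    exact this
  late_p := by
    have := hg.late_p
    simp only [pvhg_fr_norm hf] at this
    exact this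
  off_p := hg.off_p

theorem pvhg_unframe_goodIn (hf : PvhgFr f) {y : ℂ} (hg : 𝔖.GoodIn (fun v => conj f * pos v) N h (conj f * y)) : 𝔖.GoodIn pos N h y where
  tip_m := by
    have := hg.tip_m
    simp only [pvhg_fr_norm hf] at this
    exact this
  late_m := by
    have := hg.late_m
    simp only [pvhg_fr_norm hf] at this
    exact this
  off_m := hg.off_m

/-- **UNFRAME, exit half**: a half state read in the frame `f` IS a half state in the standard frame, for the rotated type (same map, same record, same colouring) -/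
theorem pvhg_unframe_out (hf : PvhgFr f) (ha : 𝔖.AtOut (fun v => conj f * pos v) N h (conj f * z) τ s) : 𝔖.AtOut pos N h z (pvhgTy τ f (pvhgO 𝔖 pos)) s where
  gate := pvhg_unframe_gate hf ha.gate
  inmost := pvhg_unframe_inmost hf _ ha.inmost
  stub := pvhg_unframe_stubP hf ha.stub
  good := pvhg_unframe_goodOut hf (by rw [← pvhg_fr_cp hf]; exact ha.good)
  lev := ha.lev

/-- **UNFRAME, entrance half** -/
theorem pvhg_unframe_in (hf : PvhgFr f) (ha : 𝔖.AtIn (fun v => conj f * pos v) N h (conj f * z) τ s) : 𝔖.AtIn pos N h z (pvhgTy τ f (pvhgO 𝔖 pos)) s where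
  gate := pvhg_unframe_gate hf ha.gate
  inmost := pvhg_unframe_inmost hf _ ha.inmost
  stub := pvhg_unframe_stubM hf ha.stub
  good := pvhg_unframe_goodIn hf (by rw [← pvhg_fr_cm hf]; exact ha.good)
  lev := ha.lev

end unframe

/-! ## 3. (A) THE PLAIN SUCCESS OF A LINK OF `Tr/InstL` v2.1 FROM A RUN OF 70: every pair of ends (pin / door) -/

section il

/-- the centre `y⁺` of the tip cell of the exit stub of a placed plug, ABSOLUTE -/
noncomputable def PvilPl.yP (p : PvilPl) : ℂ := p.z + (p.h : ℂ) * (p.fr * p.ty.yp)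
/-- the centre `y⁻` of the tip cell of the entrance stub of a placed plug, ABSOLUTE -/
noncomputable def PvilPl.yM (p : PvilPl) : ℂ := p.z + (p.h : ℂ) * (p.fr * p.ty.ym)
/-- the half side of the box of the level of a placed plug -/
noncomputable def PvilPl.rk (p : PvilPl) (N : PvwNum) : ℝ := pvwRad N p.h p.ty p.ty.k

theorem pvhg_il_eqns_cite : True := by
  have := @PvilPl.yP.eq_1; have := @PvilPl.yM.eq_1; have := @PvilPl.rk.eq_1; have := @pvhgO.eq_1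
  trivial

variable {N : PvwNum} {b : Bool} {η : Conf PvPt} {p : PvilPl} {𝔖 𝔖' : PvwSt (pvieT η)} {L : PvilLk} {K : Set ↥(pvieY η)}

/-- **UNFRAME AT THE MODEL, exit half** -/
theorem pvhg_il_out (hf : PvhgFr p.fr) (h : PvilOut N b p η 𝔖) : 𝔖.AtOut (pviePos η) N p.h p.z (pvhgTy p.ty p.fr (pvhgO 𝔖 (pviePos η))) (pvieCol η b) :=
  pvhg_unframe_out hf h.st

/-- **UNFRAME AT THE MODEL, entrance half** -/
theorem pvhg_il_in (hf : PvhgFr p.fr) (h : PvilIn N b p η 𝔖) : 𝔖.AtIn (pviePos η) N p.h p.z (pvhgTy p.ty p.fr (pvhgO 𝔖 (pviePos η))) (pvieCol η b) :=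
  pvhg_unframe_in hf h.st

theorem pvhg_il_cp (p : PvilPl) (o : Bool) : (pvhgTy p.ty p.fr o).cp p.h p.z = p.yP := rfl
theorem pvhg_il_cm (p : PvilPl) (o : Bool) : (pvhgTy p.ty p.fr o).cm p.h p.z = p.yM := rfl
theorem pvhg_il_rad (N : PvwNum) (p : PvilPl) (o : Bool) : pvwRad N p.h (pvhgTy p.ty p.fr o) (pvhgTy p.ty p.fr o).k = p.rk N := rfl
/-- the pins of record are read in the standard frame -/
theorem pvhg_il_yP_std (p : PviePl) : p.std.yP = p.ty.cp p.h p.z := by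
  unfold PvilPl.yP PviePl.std PvwTy.cp
  simp
theorem pvhg_il_yM_std (p : PviePl) : p.std.yM = p.ty.cm p.h p.z := by
  unfold PvilPl.yM PviePl.std PvwTy.cm
  simp
theorem pvhg_il_fr_std (p : PviePl) : PvhgFr p.std.fr := Or.inl rfl

/-- what a link reads of a door state -/
theorem pvhg_door_data {𝔭 : PvkdPlug} {z d : ℂ} (h : PvilDoor 𝔭 b η z d 𝔖) :
    𝔖.np = 0 ∧ 𝔖.nm = 0 ∧ (∀ i, 𝔖.ep i = 𝔖.dp) ∧ (∀ i, 𝔖.em i = 𝔖.dm) ∧ pvasBW (pvieT η) (pvieCol η b) 𝔖.dp ∧ pvasBW (pvieT η) (pvieCol η b) 𝔖.dm := by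
  obtain ⟨-, g, -, rfl⟩ := h
  exact ⟨rfl, rfl, fun _ => rfl, fun _ => rfl, pvtg_aOut_bw g, pvtg_aIn_bw g⟩

/-- the gate of record behind a door state -/
theorem pvhg_door_gate {𝔭 : PvkdPlug} {z d : ℂ} (h : PvilDoor 𝔭 b η z d 𝔖) :
    ∃ g : (pvieT η).Gate (pvieCol η b), PvzlGt (pvieT η) Subtype.val (pvieCol η b) (𝔭.pg z d) g ∧ 𝔖.dp = g.aOut ∧ 𝔖.dm = g.aIn ∧ 𝔖.S = g.c ∧ 𝔖.gp = g.vp ∧ 𝔖.gm = g.vm := by
  obtain ⟨-, g, hg, rfl⟩ := h
  exact ⟨g, hg, rfl, rfl, rfl, pvtg_aOut_src g, rfl⟩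

/-- the black bank of the (empty) exit stub of a door is `{g⁺}` -/
theorem pvhg_door_bkP {𝔭 : PvkdPlug} {z d : ℂ} (h : PvilDoor 𝔭 b η z d 𝔖) {v : ↥(pvieY η)} (hv : v ≠ 𝔖.gp) : v ∉ 𝔖.bkP := by
  rintro ⟨i, -, e⟩
  rw [(pvhg_door_data h).2.2.1 i] at e
  exact hv e.symm

/-- the exit end of a link, pin or door: a stub (possibly of length `0`) from a black-white gate edge -/
theorem pvhg_il_src (hp : L.AtP N b η 𝔖) : ∃ (pos : ↥(pvieY η) → ℂ) (B : Set ℂ), 𝔖.StubP pos B (pvieCol η b) ∧ pvasBW (pvieT η) (pvieCol η b) 𝔖.dp := by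
  rcases hd : L.dr with _ | _
  · have h := (PvilLk.atP_pin hd N b η 𝔖).1 hp
    exact ⟨_, _, h.st.stub, h.st.gate.bw_p⟩
  · obtain ⟨h0, -, he, -, hb, -⟩ := pvhg_door_data ((PvilLk.atP_door hd N b η 𝔖).1 hp)
    exact ⟨pviePos η, _, pvhg_stubP_nil Subtype.val_injective h0 (he 0), hb⟩

/-- the entrance end of a link, pin or door -/
theorem pvhg_il_tgt (hp' : L.AtP' N b η 𝔖') : ∃ (pos : ↥(pvieY η) → ℂ) (B : Set ℂ), 𝔖'.StubM pos B (pvieCol η b) ∧ pvasBW (pvieT η) (pvieCol η b) 𝔖'.dm ∧ (L.dr' = true → 𝔖'.nm = 0) := by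
  rcases hd : L.dr' with _ | _
  · have h := (PvilLk.atP'_pin hd N b η 𝔖').1 hp'
    exact ⟨_, _, h.st.stub, h.st.gate.bw_m, fun e => by cases e⟩
  · obtain ⟨-, h0, -, he, -, hb⟩ := pvhg_door_data ((PvilLk.atP'_door hd N b η 𝔖').1 hp')
    exact ⟨pviePos η, _, pvhg_stubM_nil Subtype.val_injective h0 (he 0), hb, fun _ => h0⟩

/-- **`PvilLk.Run` FROM A RUN OF 70**, every pair of ends.      `hdis`: `g⁻` of the entrance end is not on the black bank of the exit stub (door exit: `g⁻ ≠ g⁺`, `pvhg_door_bkP`);   `hgm`: `g⁻` of a PIN entrance end is off the link region -/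
theorem pvhg_il_run (hp : L.AtP N b η 𝔖) (hp' : L.AtP' N b η 𝔖') (hdis : 𝔖'.gm ∉ 𝔖.bkP) (hgm : L.dr' = false → 𝔖'.gm ∉ K) (hKY : ∀ v ∈ K, pviePos η v ∈ L.Yin)
    (hrun : PvldRun (pvieT η) (pvieCol η b) K (𝔖.ep 𝔖.np) (𝔖'.em 𝔖'.nm)) : ∃ n, L.Run b η 𝔖 𝔖' n := by
  obtain ⟨M, -, hM, hfirst, hK⟩ := hrun
  obtain ⟨pt, Bt, st, -⟩ := pvhg_il_src hp
  obtain ⟨ps, Bs, ss, bs, h0⟩ := pvhg_il_tgt hp'
  have hg : 𝔖'.nm = 0 ∨ 𝔖'.gm ∉ K := by
    rcases hd : L.dr' with _ | _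
    · exact Or.inr (hgm hd)
    · exact Or.inl (h0 hd)
  obtain ⟨a1, a2, a3⟩ := pvhg_pos_of_run2 st ss bs hdis hg hM hfirst hK
  exact ⟨𝔖.np + M + 𝔖'.nm, by omega, a1, a2, fun i h1 h2 => ⟨hKY _ (a3 i h1.le h2).1, hKY _ (a3 i h1.le h2).2.1⟩⟩

/-- **(A) THE LINK OF `Tr/InstL` v2.1 SUCCEEDS (PLAIN EVENT)**: the two end states (pin or door, any frames, any scales) + a run of 70 between the tips (door: the gate edge) through a region over the room -/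
theorem pvhg_il_A (hp : L.AtP N b η 𝔖) (hp' : L.AtP' N b η 𝔖') (hdis : 𝔖'.gm ∉ 𝔖.bkP) (hgm : L.dr' = false → 𝔖'.gm ∉ K) (hKY : ∀ v ∈ K, pviePos η v ∈ L.Yin)
    (hrun : PvldRun (pvieT η) (pvieCol η b) K (𝔖.ep 𝔖.np) (𝔖'.em 𝔖'.nm)) : η ∈ L.A N b := by
  obtain ⟨n, hn⟩ := pvhg_il_run hp hp' hdis hgm hKY hrun
  obtain ⟨y, hy⟩ := pvhg_le_strand (T := pvieT η) (pvieCol η b) 𝔖.dp n
  exact ⟨𝔖, 𝔖', y, hp, hp', n, hn, hy⟩

/-! ### the four special links of record -/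

variable {τ : Type} {c : ℝ} {𝔓 : PvxPar τ c} {𝔈 : PvieEng τ} {m : ℕ} {z : ℂ} {t : τ}

/-- **first link `t → door`** -/
theorem pvhg_il_Lo (hp : PvilOut 𝔓.num (𝔓.col t) (pvilPin 𝔓 m z t) η 𝔖) (hd : PvilDoor (pvkdP (pvilRd 𝔓 m)) (𝔓.col t) η (pvieZo 𝔓 m z t) ((𝔓.Γ m).dout t) 𝔖')
    (hdis : 𝔖'.gm ∉ 𝔖.bkP) (hKY : ∀ v ∈ K, pviePos η v ∈ pvieSh z (𝔈.oY m t)) (hrun : PvldRun (pvieT η) (pvieCol η (𝔓.col t)) K (𝔖.ep 𝔖.np) 𝔖'.dm) :
    η ∈ (pvilLo 𝔓 𝔈 m z t).A 𝔓.num (𝔓.col t) :=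
  pvhg_il_A (L := pvilLo 𝔓 𝔈 m z t) ((PvilLk.atP_pin rfl _ _ _ _).2 hp) ((PvilLk.atP'_door rfl _ _ _ _).2 hd) hdis (fun e => by cases e) hKY (by rw [(pvhg_door_data hd).2.2.2.1]; exact hrun)

/-- **last link `door → t`** -/
theorem pvhg_il_Li (hd : PvilDoor (pvkdP (pvilRd 𝔓 m)) (𝔓.col t) η (pvieZi 𝔓 m z t) ((𝔓.Γ m).din t) 𝔖) (hp' : PvilIn 𝔓.num (𝔓.col t) (pvilPin 𝔓 m z t) η 𝔖')
    (hne : 𝔖'.gm ≠ 𝔖.gp) (hgm : 𝔖'.gm ∉ K) (hKY : ∀ v ∈ K, pviePos η v ∈ pvieSh z (𝔈.iY m t)) (hrun : PvldRun (pvieT η) (pvieCol η (𝔓.col t)) K 𝔖.dp (𝔖'.em 𝔖'.nm)) :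
    η ∈ (pvilLi 𝔓 𝔈 m z t).A 𝔓.num (𝔓.col t) :=
  pvhg_il_A (L := pvilLi 𝔓 𝔈 m z t) ((PvilLk.atP_door rfl _ _ _ _).2 hd) ((PvilLk.atP'_pin rfl _ _ _ _).2 hp') (pvhg_door_bkP hd hne) (fun _ => hgm) hKY (by rw [(pvhg_door_data hd).2.2.1]; exact hrun)

/-- **thick short link `reference plug → t`** -/
theorem pvhg_il_Le (hd : PvilDoor (pvkdP (pvilRu 𝔈 m)) (𝔓.col t) η (pvieZu 𝔓 m z t) 1 𝔖) (hp' : PvilIn 𝔓.num (𝔓.col t) (pvilPin 𝔓 m z t) η 𝔖')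
    (hne : 𝔖'.gm ≠ 𝔖.gp) (hgm : 𝔖'.gm ∉ K) (hKY : ∀ v ∈ K, pviePos η v ∈ pvieSh z (𝔈.eY m t)) (hrun : PvldRun (pvieT η) (pvieCol η (𝔓.col t)) K 𝔖.dp (𝔖'.em 𝔖'.nm)) :
    η ∈ (pvilLe 𝔓 𝔈 m z t).A 𝔓.num (𝔓.col t) :=
  pvhg_il_A (L := pvilLe 𝔓 𝔈 m z t) ((PvilLk.atP_door rfl _ _ _ _).2 hd) ((PvilLk.atP'_pin rfl _ _ _ _).2 hp') (pvhg_door_bkP hd hne) (fun _ => hgm) hKY (by rw [(pvhg_door_data hd).2.2.1]; exact hrun)

/-- **last link of the thin chain `door → reference plug`** -/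
theorem pvhg_il_Lr (hd : PvilDoor (pvkdP (pvilRd 𝔓 m)) b η (𝔓.Γ m).pin0 (𝔓.Γ m).din0 𝔖) (hd' : PvilDoor (pvkdP (pvilRu 𝔈 m)) b η 0 1 𝔖')
    (hne : 𝔖'.gm ≠ 𝔖.gp) (hKY : ∀ v ∈ K, pviePos η v ∈ 𝔈.rY m) (hrun : PvldRun (pvieT η) (pvieCol η b) K 𝔖.dp 𝔖'.dm) : η ∈ (pvilLr 𝔓 𝔈 m).A N b :=
  pvhg_il_A (L := pvilLr 𝔓 𝔈 m) ((PvilLk.atP_door rfl _ _ _ _).2 hd) ((PvilLk.atP'_door rfl _ _ _ _).2 hd') (pvhg_door_bkP hd hne) (fun e => by cases e) hKY
    (by rw [(pvhg_door_data hd).2.2.1, (pvhg_door_data hd').2.2.2.1]; exact hrun)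

end il

end Claimed.Agent.R289
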