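-- KEEP
import Claimed.Agent.R289.Tr.FrcLay
import Claimed.Agent.R289.Tr.FrcM
import Claimed.Agent.R289.Tr.FrcDetL

/-!
# Row 289 (S0537), THE WALL, file Tr/FrcFun : **THE FUNNEL LAYOUT** = layout of a connector between two COAXIAL plugs of DIFFERENT units (the `r`-link: door plug → reference plug), NUMERAL FREE      (helper278; prefix `pvui_`, `pvui`, `Pvui`)      0 sorry

CONSUMERS: 233 (`Exit/FrcR`: `[GEO]` of `Pvr2Ok`: `X.D.Ok`), 257 (`Tr/HookR`: `PvdtLay.{ne ch full inE inK zone zone'}`).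
PARAMETERS.   `s > 0` = side of the fine cells;   a plug of SIZE `N : ℤ` (`1 ≤ N`) has the unit `r = 8 N s` (`t := N s` = its own cell);   a plug stands at the column `c₀ : ℤ` (centre `c₀ s` on the real axis), direction `1`.
* sec. 1  general side `s`: `pvui_U_Rc`, translations `pvui_at_rect`, `pvui_at_C`, `pvui_at_U`.
* sec. 2  REGIONS of a plug of cell `t`, thickened by `a`: `pvuiX t a σ β` (feet), `pvuiA t a σ β` (side paths), `pvuiY t σ β` (target);   BRIDGE to the truncated rooms of 174 (`pvhfT (8 t)`): `pvui_Ln`, `pvui_Dr`, `pvui_fat`, `pvui_foot`, `pvui_nbd`.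
* sec. 3  **`pvui_zone`** : THE HOOK ZONE of a plug of size `N` at the column `c₀`, side `σ`, colour `β`, for every set of cells `W` which contains the three columns `pvuiBk N σ β` (shifted) round the hook column `28 N`.
* sec. 4  THE FUNNEL `door (size 1, column -M) → reference plug (size N, column 0)`, hypotheses `1 ≤ N`, `44 (N + 1) < M`: nets `pvuiW N M β` (thin lane of 12 rows + bar of three columns), full walks **`pvuiL N M β`**, `pvuiLen N M`, zones `pvuiK β`;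
          `pvui_L_ne _ch _full _set _mem _len _U`, `pvui_K_disj`, **`pvui_win`** (rectangle of the windows), `pvui_win_K`, `pvui_U_box`, `pvui_blk_d`, `pvui_blk_u`.
* sec. 5  **`PvuiPar s N M r r' z d z' d' 𝔱 𝔱'`** = ALL the hypotheses (`r = 8 s`, `r' = 8 N s`, `z = -(M s)`, `d = d' = 1`, `z' = 0`, rooms / targets of `pvhfT`), and THE FIELDS of `Pvr2Lay.Ok` (233) / `PvdtLay` (294):
          `pvui_f_djK`, `pvui_f_w`, `pvui_f_off` (`_sq`), `pvui_f_zp`, `pvui_f_zm`, `pvui_f_zone`, `pvui_f_zone'`, `pvui_hull`, `pvui_collar`, `pvui_f_in`, `pvui_f_dj`, `pvui_win_box`, **`pvui_lay`** (`PvdtLay` from `PvdtGeo` + two inclusions of rectangles).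
-/

set_option autoImplicit false
set_option linter.unusedSectionVars false
set_option linter.unusedVariables false

namespace Claimed.Agent.R289

open Set Metric

/-! ## 1. general side, translations -/

theorem pvui_U_Rc {s : ℝ} (hs : 0 < s) (σ β : Bool) {a b c d : ℤ} (hab : a ≤ b) (hcd : c ≤ d) :
    pvfpU s (pvufRc σ β a b c d) = pvufQ σ β ((a : ℝ) * s) (((b : ℝ) + 1) * s) ((c : ℝ) * s) (((d : ℝ) + 1) * s) := by
  cases σ <;> cases β <;> simp only [pvufRc, pvufQ] <;> rw [pvuf_U_R hs (by omega) (by omega)] <;> push_cast <;> congr 1 <;> ring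

theorem pvui_at_rect (x0 a b c d : ℝ) : pvkdAt (x0 : ℂ) 1 (rswRect a b c d) = rswRect (x0 + a) (x0 + b) c d := by
  ext w
  rw [pvkx_mem_at one_ne_zero]
  simp only [div_one, rswRect, mem_ofPred_eq, Complex.sub_re, Complex.sub_im, Complex.ofReal_re, Complex.ofReal_im, sub_zero]
  constructor
  · rintro ⟨p, q, u, v⟩
    exact ⟨by linarith, by linarith, u, v⟩
  · rintro ⟨p, q, u, v⟩
    exact ⟨by linarith, by linarith, u, v⟩

theorem pvui_at_C (s : ℝ) (c₀ : ℤ) (k : ℤ × ℤ) : pvkdAt (((c₀ : ℝ) * s : ℝ) : ℂ) 1 (pvlnC s k) = pvlnC s (k.1 + c₀, k.2) := by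
  unfold pvlnC
  rw [pvui_at_rect]
  push_cast
  congr 1 <;> ring

/-- from the grid to the frame of a plug at the column `c₀` -/
def pvuiSh (c₀ : ℤ) (k : ℤ × ℤ) : ℤ × ℤ := (k.1 - c₀, k.2)

theorem pvui_sh_inj (c₀ : ℤ) : Function.Injective (pvuiSh c₀) := by
  rintro ⟨a, b⟩ ⟨c, d⟩ h
  simp only [pvuiSh, Prod.mk.injEq] at h
  exact Prod.ext (by simp only; omega) h.2

theorem pvui_sh_blk (c₀ : ℤ) (k k' : ℤ × ℤ) (h : k' ∈ pvfpBlk k) : pvuiSh c₀ k' ∈ pvfpBlk (pvuiSh c₀ k) := by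
  obtain ⟨u, v⟩ := h
  refine ⟨?_, v⟩
  have e : (pvuiSh c₀ k').1 - (pvuiSh c₀ k).1 = k'.1 - k.1 := by simp only [pvuiSh]; ring
  rw [e]
  exact u

theorem pvui_at_U (s : ℝ) (c₀ : ℤ) (E : Set (ℤ × ℤ)) : pvkdAt (((c₀ : ℝ) * s : ℝ) : ℂ) 1 (pvfpU s E) = pvfpU s (pvuiSh c₀ ⁻¹' E) := by
  ext w
  constructor
  · rintro ⟨v, hv, rfl⟩
    obtain ⟨k, hk, hvk⟩ := mem_iUnion₂.1 hv
    refine mem_biUnion (show (k.1 + c₀, k.2) ∈ pvuiSh c₀ ⁻¹' E from ?_) ?_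
    · show pvuiSh c₀ (k.1 + c₀, k.2) ∈ E
      have e : pvuiSh c₀ (k.1 + c₀, k.2) = k := by simp [pvuiSh]
      rw [e]
      exact hk
    · rw [← pvui_at_C]
      exact ⟨v, hvk, rfl⟩
  · intro hw
    obtain ⟨k, hk, hwk⟩ := mem_iUnion₂.1 hw
    have e : k = ((pvuiSh c₀ k).1 + c₀, (pvuiSh c₀ k).2) := by simp [pvuiSh]
    rw [e, ← pvui_at_C] at hwk
    obtain ⟨v, hv, rfl⟩ := hwk
    exact ⟨v, mem_biUnion hk hv, rfl⟩

/-! ## 2. the regions of a plug -/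

/-- the region of the feet of a plug of cell `t` (unit `8 t`), thickened by `a` -/
def pvuiX (t a : ℝ) (σ β : Bool) : Set ℂ := pvufQ σ β (4 * t - a) (24 * t + a) (-(4 * t + a)) (12 * t + a)

/-- the region of the side paths = closed `a`-neighbourhood (sup norm) of the truncated room -/
def pvuiA (t a : ℝ) (σ β : Bool) : Set ℂ := pvuiX t a σ β ∪ pvufQ σ β (16 * t - a) (40 * t + a) (4 * t - a) (12 * t + a)

/-- the truncated target -/
def pvuiY (t : ℝ) (σ β : Bool) : Set ℂ := pvufQ σ β (32 * t) (40 * t) (4 * t) (12 * t)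

theorem pvui_eqns_cite : True := by
  have := @pvuiSh.eq_1; have := @pvuiX.eq_1; have := @pvuiA.eq_1; have := @pvuiY.eq_1
  trivial

theorem pvui_Ln (t : ℝ) (σ β : Bool) : (pvhfT (8 * t)).Ln σ β = pvufQ σ β (4 * t) (24 * t) (-(4 * t)) (12 * t) ∪ pvufQ σ β (16 * t) (40 * t) (4 * t) (12 * t) := by
  cases σ <;> cases β <;> simp only [pvhfT, pvufQ, pvkdRect, if_true, if_false, Bool.false_eq_true] <;> congr 1 <;> congr 1 <;> ring

theorem pvui_Dr (t : ℝ) (σ β : Bool) : (pvhfT (8 * t)).Dr σ β = pvuiY t σ β := by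
  cases σ <;> cases β <;> simp only [pvhfT, pvuiY, pvufQ, pvkdRect, if_true, if_false, Bool.false_eq_true] <;> congr 1 <;> ring

theorem pvui_fat (t : ℝ) {a : ℝ} (σ β : Bool) {u w : ℂ} (hu : u ∈ (pvhfT (8 * t)).Ln σ β) (hw : w ∈ closedBall u a) : w ∈ pvuiA t a σ β := by
  rw [pvui_Ln] at hu
  obtain ⟨p1, p2, p3, p4⟩ := pvkgg_ball_box hw
  cases σ <;> cases β <;> simp only [pvuiA, pvuiX, pvufQ] at hu ⊢ <;> rcases hu with ⟨a, b, c, d⟩ | ⟨a, b, c, d⟩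
  all_goals first
    | (refine Or.inl ⟨?_, ?_, ?_, ?_⟩ <;> linarith)
    | (refine Or.inr ⟨?_, ?_, ?_, ?_⟩ <;> linarith)

theorem pvui_foot {t a : ℝ} (ht : 0 ≤ t) (ha : 0 ≤ a) (σ β : Bool) : closedBall 0 (16 * t) ∩ (pvhfT (8 * t)).Ln σ β ⊆ pvuiX t a σ β := by
  rintro w ⟨hb, hw⟩
  rw [pvui_Ln] at hw
  obtain ⟨p1, p2, p3, p4⟩ := pvkgg_ball_box hb
  simp only [Complex.zero_re, Complex.zero_im] at p1 p2 p3 p4
  cases σ <;> cases β <;> simp only [pvuiX, pvufQ] at hw ⊢ <;> rcases hw with ⟨a, b, c, d⟩ | ⟨a, b, c, d⟩ <;> refine ⟨?_, ?_, ?_, ?_⟩ <;> linarith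

/-- translations are isometries -/
theorem pvui_ball_at (z : ℂ) {v : ℂ} {t : ℝ} {S : Set ℂ} (h : closedBall v t ⊆ S) : closedBall (pvthSim z 1 v) t ⊆ pvkdAt z 1 S := by
  intro w hw
  rw [pvkx_mem_at one_ne_zero]
  apply h
  rw [mem_closedBall, Complex.dist_eq] at hw ⊢
  have e : (w - z) / 1 - v = w - pvthSim z 1 v := by
    unfold pvthSim
    ring
  rw [e]
  exact hw

theorem pvui_nbd (z : ℂ) (t : ℝ) {a ρ : ℝ} (hρ : ρ ≤ a) (σ β : Bool) : vorNbd (pvkdAt z 1 ((pvhfT (8 * t)).Ln σ β)) ρ ⊆ pvkdAt z 1 (pvuiA t a σ β) := by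
  rintro w ⟨_, ⟨u, hu, rfl⟩, hw⟩
  exact pvui_ball_at z (t := ρ) (fun v hv => pvui_fat t σ β hu (closedBall_subset_closedBall hρ hv)) (by rw [mem_closedBall, Complex.dist_eq]; exact hw)

theorem pvui_foot_at (z : ℂ) {t a : ℝ} (ht : 0 ≤ t) (ha : 0 ≤ a) (σ β : Bool) : pvkdAt z 1 ((pvhfT (8 * t)).Ln σ β) ∩ ball z (16 * t) ⊆ pvkdAt z 1 (pvuiX t a σ β) := by
  rintro _ ⟨⟨u, hu, rfl⟩, hb⟩
  refine ⟨u, pvui_foot ht ha σ β ⟨?_, hu⟩, rfl⟩
  rw [mem_ball, Complex.dist_eq] at hb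
  rw [mem_closedBall, Complex.dist_eq, sub_zero]
  have e : pvthSim z 1 u - z = u := by unfold pvthSim; ring
  rw [e] at hb
  exact hb.le

/-! ## 3. the hook zone of a plug of size `N` -/

def pvuiE1 (N : ℤ) (σ β : Bool) : Set (ℤ × ℤ) := pvufRc σ β (4 * N - 1) (24 * N) (-4 * N - 1) (12 * N) ∪ pvufRc σ β (16 * N - 1) (28 * N - 1) (4 * N - 1) (12 * N)
def pvuiEz (N : ℤ) (σ β : Bool) : Set (ℤ × ℤ) := pvufRc σ β (28 * N) (28 * N) (4 * N - 1) (12 * N)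
def pvuiE2 (N : ℤ) (σ β : Bool) : Set (ℤ × ℤ) := pvufRc σ β (28 * N + 1) (40 * N) (4 * N - 1) (12 * N)
def pvuiEy (N : ℤ) (σ β : Bool) : Set (ℤ × ℤ) := pvufRc σ β (32 * N) (40 * N - 1) (4 * N) (12 * N - 1)

/-- **the three columns round the hook column** -/
def pvuiBk (N : ℤ) (σ β : Bool) : Set (ℤ × ℤ) := pvufRc σ β (28 * N - 1) (28 * N + 1) (4 * N - 2) (12 * N + 1)

theorem pvui_eqns_cite2 : True := by
  have := @pvuiE1.eq_1; have := @pvuiEz.eq_1; have := @pvuiE2.eq_1; have := @pvuiEy.eq_1; have := @pvuiBk.eq_1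
  trivial

theorem pvui_base_far {N : ℤ} (hN : 1 ≤ N) (σ β : Bool) : ∀ k ∈ pvuiE1 N σ β, ∀ k' ∈ pvuiE2 N σ β, k' ∉ pvfpBlk k := by
  rintro ⟨a, b⟩ hk ⟨c, d⟩ hk' ⟨u, v⟩
  simp only at u v
  rw [abs_le] at u v
  cases σ <;> cases β <;> simp only [pvuiE1, pvuiE2, pvufRc, pvufR, mem_union, mem_ofPred_eq] at hk hk' <;> omega

theorem pvui_base_Z (N : ℤ) (σ β : Bool) : ∀ k ∈ pvuiEz N σ β, pvfpBlk k ⊆ pvuiBk N σ β := by
  rintro ⟨a, b⟩ hk ⟨c, d⟩ ⟨u, v⟩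
  simp only at u v
  rw [abs_le] at u v
  cases σ <;> cases β <;> simp only [pvuiEz, pvuiBk, pvufRc, pvufR, mem_ofPred_eq] at hk ⊢ <;> omega

theorem pvui_base_Y {N : ℤ} (hN : 1 ≤ N) (σ β : Bool) : ∀ k ∈ pvuiEz N σ β, ∀ k' ∈ pvuiEy N σ β, k' ∉ pvfpBlk k := by
  rintro ⟨a, b⟩ hk ⟨c, d⟩ hk' ⟨u, v⟩
  simp only at u v
  rw [abs_le] at u v
  cases σ <;> cases β <;> simp only [pvuiEz, pvuiEy, pvufRc, pvufR, mem_ofPred_eq] at hk hk' <;> omega

theorem pvui_base_Ey {N : ℤ} (hN : 1 ≤ N) (σ β : Bool) : pvuiEy N σ β ⊆ pvuiE2 N σ β := by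
  rintro ⟨a, b⟩ hk
  cases σ <;> cases β <;> simp only [pvuiE2, pvuiEy, pvufRc, pvufR, mem_ofPred_eq] at hk ⊢ <;> omega

theorem pvui_zone_cells {s : ℝ} (hs : 0 < s) {N : ℤ} (hN : 1 ≤ N) (σ β : Bool) (ψ : ℤ × ℤ → ℤ × ℤ) (hinj : Function.Injective ψ) (hblk : ∀ k k', k' ∈ pvfpBlk k → ψ k' ∈ pvfpBlk (ψ k))
    {W : Set (ℤ × ℤ)} (hW : ψ ⁻¹' pvuiBk N σ β ⊆ W) :
    PvfpZone s W (pvfpU s (ψ ⁻¹' (pvuiE1 N σ β ∪ pvuiEz N σ β ∪ pvuiE2 N σ β))) (pvfpU s (ψ ⁻¹' pvuiE1 N σ β)) (pvfpU s (ψ ⁻¹' pvuiEy N σ β)) :=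
  pvfp_zone_of_cells (E₁ := ψ ⁻¹' pvuiE1 N σ β) (Z := ψ ⁻¹' pvuiEz N σ β) (E₂ := ψ ⁻¹' pvuiE2 N σ β) (Ey := ψ ⁻¹' pvuiEy N σ β) hs
    (((pvuf_Rc_finite _ _ _ _ _ _).union (pvuf_Rc_finite _ _ _ _ _ _)).preimage hinj.injOn) ((pvuf_Rc_finite _ _ _ _ _ _).preimage hinj.injOn)
    (fun k hk k' hk' hb => pvui_base_far hN σ β (ψ k) hk (ψ k') hk' (hblk k k' hb))
    (fun k hk k' hk' => hW (pvui_base_Z N σ β (ψ k) hk (hblk k k' hk')))
    (fun k hk k' hk' hb => pvui_base_Y hN σ β (ψ k) hk (ψ k') hk' (hblk k k' hb))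
    (fun k hk => pvui_base_Ey hN σ β hk)

theorem pvui_X_sub {s : ℝ} (hs : 0 < s) {N : ℤ} (hN : 1 ≤ N) (σ β : Bool) : pvuiX ((N : ℝ) * s) s σ β ⊆ pvfpU s (pvuiE1 N σ β) := by
  refine Subset.trans (le_of_eq ?_) (pvuf_U_mono _ (subset_union_left : pvufRc σ β (4 * N - 1) (24 * N) (-4 * N - 1) (12 * N) ⊆ pvuiE1 N σ β))
  rw [pvui_U_Rc hs σ β (by omega) (by omega), pvuiX]
  push_cast
  congr 1 <;> ring

theorem pvui_Y_eq {s : ℝ} (hs : 0 < s) {N : ℤ} (hN : 1 ≤ N) (σ β : Bool) : pvuiY ((N : ℝ) * s) σ β = pvfpU s (pvuiEy N σ β) := by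
  rw [pvuiEy, pvui_U_Rc hs σ β (by omega) (by omega), pvuiY]
  push_cast
  congr 1 <;> ring

theorem pvui_A_sub {s : ℝ} (hs : 0 < s) {N : ℤ} (hN : 1 ≤ N) (σ β : Bool) : pvuiA ((N : ℝ) * s) s σ β ⊆ pvfpU s (pvuiE1 N σ β ∪ pvuiEz N σ β ∪ pvuiE2 N σ β) := by
  refine union_subset ((pvui_X_sub hs hN σ β).trans (pvuf_U_mono _ fun k hk => Or.inl (Or.inl hk))) ?_
  have h : pvufRc σ β (16 * N - 1) (40 * N) (4 * N - 1) (12 * N) ⊆ pvuiE1 N σ β ∪ pvuiEz N σ β ∪ pvuiE2 N σ β := by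
    rintro ⟨a, b⟩ hk
    cases σ <;> cases β <;> simp only [pvuiE1, pvuiEz, pvuiE2, pvufRc, pvufR, mem_union, mem_ofPred_eq] at hk ⊢ <;> omega
  refine Subset.trans (le_of_eq ?_) (pvuf_U_mono _ h)
  rw [pvui_U_Rc hs σ β (by omega) (by omega)]
  push_cast
  congr 1 <;> ring

/-- **THE HOOK ZONE** of a plug of size `N` which stands at the column `c₀` -/
theorem pvui_zone {s : ℝ} (hs : 0 < s) {N : ℤ} (hN : 1 ≤ N) (c₀ : ℤ) (σ β : Bool) {W : Set (ℤ × ℤ)} (hW : pvuiSh c₀ ⁻¹' pvuiBk N σ β ⊆ W) :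
    PvfpZone s W (pvkdAt (((c₀ : ℝ) * s : ℝ) : ℂ) 1 (pvuiA ((N : ℝ) * s) s σ β)) (pvkdAt (((c₀ : ℝ) * s : ℝ) : ℂ) 1 (pvuiX ((N : ℝ) * s) s σ β))
      (pvkdAt (((c₀ : ℝ) * s : ℝ) : ℂ) 1 (pvuiY ((N : ℝ) * s) σ β)) := by
  refine pvuf_zone_mono (pvui_zone_cells hs hN σ β (pvuiSh c₀) (pvui_sh_inj c₀) (pvui_sh_blk c₀) hW) Subset.rfl ?_ ?_ ?_
  · rw [← pvui_at_U]
    exact image_mono (pvui_A_sub hs hN σ β)
  · rw [← pvui_at_U]
    exact image_mono (pvui_X_sub hs hN σ β)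
  · rw [← pvui_at_U]
    exact image_mono (pvui_Y_eq hs hN σ β).le

/-! ## 4. the funnel: nets, walks, zones -/

/-- **the cells of the net of colour `β`**: a thin lane of twelve rows from the hook column of the door to the hook column of the reference plug, and a bar of three columns there -/
def pvuiW (N M : ℤ) : Bool → Set (ℤ × ℤ)
  | true => pvufR (27 - M) (-28 * N) 2 13 ∪ pvufR (-28 * N - 2) (-28 * N) 2 (12 * N + 1)
  | false => pvufR (27 - M) (-28 * N) (-14) (-3) ∪ pvufR (-28 * N - 2) (-28 * N) (-12 * N - 2) (-3)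

/-- **the zone in which the colour `β` is up** -/
def pvuiK : Bool → Set ℂ
  | true => {w | 0 < w.im}
  | false => {w | w.im < 0}

/-- **THE FULL WALK** of the net of colour `β` -/
noncomputable def pvuiL (N M : ℤ) (β : Bool) : List (ℤ × ℤ) :=
  Classical.epsilon fun L : List (ℤ × ℤ) => L ≠ [] ∧ L.IsChain PvlnAdj ∧ PvfpFull L ∧ {k | k ∈ L} = pvuiW N M β

/-- **THE BOUND ON THE LENGTHS OF THE WALKS** -/
noncomputable def pvuiLen (N M : ℤ) : ℕ := (pvuiL N M true).length + (pvuiL N M false).length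

theorem pvui_eqns_cite3 : True := by
  have := @pvuiW.eq_1; have := @pvuiK.eq_1; have := @pvuiL.eq_1; have := @pvuiLen.eq_1
  trivial

section net

variable {N M : ℤ}

theorem pvui_W_fin (N M : ℤ) (β : Bool) : (pvuiW N M β).Finite := by
  cases β <;> exact (pvuf_R_finite _ _ _ _).union (pvuf_R_finite _ _ _ _)

theorem pvui_W_conn (hN : 1 ≤ N) (hM : 44 * (N + 1) < M) (β : Bool) : PvufConn (pvuiW N M β) := by
  cases β
  · exact (pvuf_R_conn _ _ _ _).union (pvuf_R_conn _ _ _ _) ⟨(-28 * N, -3), ⟨by simp only; omega, by simp only; omega, by simp only; omega, by simp only; omega⟩,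
      ⟨by simp only; omega, by simp only; omega, by simp only; omega, by simp only; omega⟩⟩
  · exact (pvuf_R_conn _ _ _ _).union (pvuf_R_conn _ _ _ _) ⟨(-28 * N, 2), ⟨by simp only; omega, by simp only; omega, by simp only; omega, by simp only; omega⟩,
      ⟨by simp only; omega, by simp only; omega, by simp only; omega, by simp only; omega⟩⟩

theorem pvui_W_ne (hN : 1 ≤ N) (hM : 44 * (N + 1) < M) (β : Bool) : (pvuiW N M β).Nonempty := by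
  cases β
  · exact ⟨(-28 * N, -3), Or.inl ⟨by simp only; omega, by simp only; omega, by simp only; omega, by simp only; omega⟩⟩
  · exact ⟨(-28 * N, 2), Or.inl ⟨by simp only; omega, by simp only; omega, by simp only; omega, by simp only; omega⟩⟩

theorem pvui_walk (hN : 1 ≤ N) (hM : 44 * (N + 1) < M) (β : Bool) : ∃ L : List (ℤ × ℤ), L ≠ [] ∧ L.IsChain PvlnAdj ∧ PvfpFull L ∧ {k | k ∈ L} = pvuiW N M β :=
  pvfp_walk_exists (pvui_W_fin N M β) (pvui_W_ne hN hM β) (pvui_W_conn hN hM β)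

theorem pvui_L_ne (hN : 1 ≤ N) (hM : 44 * (N + 1) < M) (β : Bool) : pvuiL N M β ≠ [] := (Classical.epsilon_spec (pvui_walk hN hM β)).1
theorem pvui_L_ch (hN : 1 ≤ N) (hM : 44 * (N + 1) < M) (β : Bool) : (pvuiL N M β).IsChain PvlnAdj := (Classical.epsilon_spec (pvui_walk hN hM β)).2.1
theorem pvui_L_full (hN : 1 ≤ N) (hM : 44 * (N + 1) < M) (β : Bool) : PvfpFull (pvuiL N M β) := (Classical.epsilon_spec (pvui_walk hN hM β)).2.2.1
theorem pvui_L_set (hN : 1 ≤ N) (hM : 44 * (N + 1) < M) (β : Bool) : {k | k ∈ pvuiL N M β} = pvuiW N M β := (Classical.epsilon_spec (pvui_walk hN hM β)).2.2.2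

theorem pvui_L_mem (hN : 1 ≤ N) (hM : 44 * (N + 1) < M) (β : Bool) (k : ℤ × ℤ) : k ∈ pvuiL N M β ↔ k ∈ pvuiW N M β := by
  rw [← pvui_L_set hN hM β]
  rfl

theorem pvui_L_len (N M : ℤ) (β : Bool) : (pvuiL N M β).length ≤ pvuiLen N M := by
  unfold pvuiLen
  cases β <;> omega

/-- the carrier of the net -/
theorem pvui_L_U (s : ℝ) (hN : 1 ≤ N) (hM : 44 * (N + 1) < M) (β : Bool) : pvlnU s (pvuiL N M β) = pvfpU s (pvuiW N M β) := by
  unfold pvlnU pvfpU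
  rw [pvui_L_set hN hM]

theorem pvui_K_disj : Disjoint (pvuiK true) (pvuiK false) := by
  rw [Set.disjoint_left]
  intro w (h1 : 0 < w.im) (h2 : w.im < 0)
  linarith

/-- the bounding rectangle of the net -/
theorem pvui_W_sub (hN : 1 ≤ N) (hM : 44 * (N + 1) < M) (β : Bool) : pvuiW N M β ⊆ pvufRc true β (27 - M) (-28 * N) 2 (12 * N + 1) := by
  rintro ⟨a, b⟩ hk
  cases β <;> simp only [pvuiW, pvufRc, pvufR, mem_union, mem_ofPred_eq] at hk ⊢ <;> omega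

/-- the window of a walk inside a rectangle of cells -/
theorem pvui_W_box {s : ℝ} (hs : 0 < s) {L : List (ℤ × ℤ)} {a b c d : ℤ} (hL : ∀ k ∈ L, k ∈ pvufR a b c d) :
    pvlnW s L ⊆ rswRect (((a : ℝ) - 1 / 8) * s) (((b : ℝ) + 9 / 8) * s) (((c : ℝ) - 1 / 8) * s) (((d : ℝ) + 9 / 8) * s) := by
  intro z hz
  obtain ⟨⟨k1, k2⟩, hk, b1, b2, b3, b4⟩ := pvuf_W_R hs hz
  obtain ⟨h1, h2, h3, h4⟩ := hL _ hk
  simp only at b1 b2 b3 b4 h1 h2 h3 h4
  have h1' : (a : ℝ) ≤ k1 := by exact_mod_cast h1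
  have h2' : (k1 : ℝ) ≤ b := by exact_mod_cast h2
  have h3' : (c : ℝ) ≤ k2 := by exact_mod_cast h3
  have h4' : (k2 : ℝ) ≤ d := by exact_mod_cast h4
  exact ⟨(mul_le_mul_of_nonneg_right (by linarith) hs.le).trans b1, b2.trans (mul_le_mul_of_nonneg_right (by linarith) hs.le),
    (mul_le_mul_of_nonneg_right (by linarith) hs.le).trans b3, b4.trans (mul_le_mul_of_nonneg_right (by linarith) hs.le)⟩

/-- **THE WINDOWS OF THE WALKS** lie in a rectangle strictly between the two state squares, strictly on the side of their colour -/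
theorem pvui_win {s : ℝ} (hs : 0 < s) (hN : 1 ≤ N) (hM : 44 * (N + 1) < M) (β : Bool) :
    pvlnW s (pvuiL N M β) ⊆ pvufQ true β ((27 - (M : ℝ) - 1 / 8) * s) ((-(28 * (N : ℝ)) + 9 / 8) * s) (15 / 8 * s) ((12 * (N : ℝ) + 17 / 8) * s) := by
  have h := fun k (hk : k ∈ pvuiL N M β) => pvui_W_sub hN hM β ((pvui_L_mem hN hM β k).1 hk)
  cases β
  · refine (pvui_W_box hs h).trans (le_of_eq ?_)
    simp only [pvufQ]
    push_cast
    congr 1 <;> ring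
  · refine (pvui_W_box hs h).trans (le_of_eq ?_)
    simp only [pvufQ]
    push_cast
    congr 1 <;> ring

theorem pvui_win_K {s : ℝ} (hs : 0 < s) (hN : 1 ≤ N) (hM : 44 * (N + 1) < M) (β : Bool) : pvlnW s (pvuiL N M β) ⊆ pvuiK β := by
  intro z hz
  have h := pvui_win hs hN hM β hz
  cases β
  · obtain ⟨-, -, -, h4⟩ := h
    show z.im < 0
    linarith
  · obtain ⟨-, -, h3, -⟩ := h
    show 0 < z.im
    linarith

/-- the carrier of the net lies in the same kind of rectangle -/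
theorem pvui_U_box {s : ℝ} (hs : 0 < s) (hN : 1 ≤ N) (hM : 44 * (N + 1) < M) (β : Bool) :
    pvlnU s (pvuiL N M β) ⊆ pvufQ true β ((27 - (M : ℝ)) * s) ((-(28 * (N : ℝ)) + 1) * s) (2 * s) ((12 * (N : ℝ) + 2) * s) := by
  rw [pvui_L_U s hN hM]
  refine (pvuf_U_mono s (pvui_W_sub hN hM β)).trans (le_of_eq ?_)
  rw [pvui_U_Rc hs true β (by omega) (by omega)]
  push_cast
  congr 1 <;> ring

theorem pvui_blk_d (hN : 1 ≤ N) (hM : 44 * (N + 1) < M) (β : Bool) : pvuiSh (-M) ⁻¹' pvuiBk 1 true β ⊆ pvuiW N M β := by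
  rintro ⟨a, b⟩ hk
  cases β <;> simp only [pvuiSh, pvuiBk, pvuiW, pvufRc, pvufR, mem_preimage, mem_union, mem_ofPred_eq] at hk ⊢ <;> omega

theorem pvui_blk_u (hN : 1 ≤ N) (hM : 44 * (N + 1) < M) (β : Bool) : pvuiSh 0 ⁻¹' pvuiBk N false β ⊆ pvuiW N M β := by
  rintro ⟨a, b⟩ hk
  cases β <;> simp only [pvuiSh, pvuiBk, pvuiW, pvufRc, pvufR, mem_preimage, mem_union, mem_ofPred_eq] at hk ⊢ <;> omega

end net

/-! ## 5. the fields of `Pvr2Lay.Ok` (233) and of `PvdtLay` (294) -/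

/-- **THE PARAMETERS OF THE FUNNEL**: fine side `s`, door plug `pvkdP r` at `(z, d)`, `r = 8 s`, `z = -(M s)`, `d = 1`;   reference plug `pvkdP r'` at `(z', d') = (0, 1)`, `r' = 8 N s`;   two truncations with the rooms and the targets of record -/
structure PvuiPar (s : ℝ) (N M : ℤ) (r r' : ℝ) (z d z' d' : ℂ) (𝔱 𝔱' : PvhfTr) : Prop where
  s0 : 0 < s
  N1 : 1 ≤ N
  M1 : 44 * (N + 1) < M
  hr : r = 8 * s
  hr' : r' = 8 * ((N : ℝ) * s)
  zre : z.re = -((M : ℝ) * s)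
  zim : z.im = 0
  hd : d = 1
  hz' : z' = 0
  hd' : d' = 1
  Ln : ∀ β, 𝔱.Ln true β = (pvhfT r).Ln true β
  Dr : ∀ β, 𝔱.Dr true β = (pvhfT r).Dr true β
  Ln' : ∀ β, 𝔱'.Ln false β = (pvhfT r').Ln false β
  Dr' : ∀ β, 𝔱'.Dr false β = (pvhfT r').Dr false β

section fields

variable {s : ℝ} {N M : ℤ} {r r' : ℝ} {z d z' d' : ℂ} {𝔱 𝔱' : PvhfTr}

theorem PvuiPar.z_eq (H : PvuiPar s N M r r' z d z' d' 𝔱 𝔱') : z = (((((-M : ℤ) : ℝ)) * s : ℝ) : ℂ) := by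
  apply Complex.ext
  · rw [H.zre, Complex.ofReal_re]; push_cast; ring
  · rw [H.zim, Complex.ofReal_im]

theorem PvuiPar.z'_eq (H : PvuiPar s N M r r' z d z' d' 𝔱 𝔱') : z' = (((((0 : ℤ) : ℝ)) * s : ℝ) : ℂ) := by
  rw [H.hz']; simp

theorem PvuiPar.Ns (H : PvuiPar s N M r r' z d z' d' 𝔱 𝔱') : s ≤ (N : ℝ) * s := by
  have h : (1 : ℝ) ≤ N := by exact_mod_cast H.N1
  nlinarith [H.s0]

theorem PvuiPar.Ms (H : PvuiPar s N M r r' z d z' d' 𝔱 𝔱') : 44 * ((N : ℝ) * s + s) < (M : ℝ) * s := by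
  have h : 44 * ((N : ℝ) + 1) < M := by exact_mod_cast H.M1
  nlinarith [H.s0]

/-- boxes of the thickened rooms -/
theorem pvui_A_box {t a : ℝ} (ht : 0 ≤ t) (ha : 0 ≤ a) (β : Bool) : pvuiA t a true β ⊆ rswRect (4 * t - a) (40 * t + a) (-(12 * t + a)) (12 * t + a) := by
  cases β <;> simp only [pvuiA, pvuiX, pvufQ] <;> rintro w (⟨p, q, u, v⟩ | ⟨p, q, u, v⟩) <;> refine ⟨?_, ?_, ?_, ?_⟩ <;> linarith

theorem pvui_A_box' {t a : ℝ} (ht : 0 ≤ t) (ha : 0 ≤ a) (β : Bool) : pvuiA t a false β ⊆ rswRect (-(40 * t + a)) (-(4 * t - a)) (-(12 * t + a)) (12 * t + a) := by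
  cases β <;> simp only [pvuiA, pvuiX, pvufQ] <;> rintro w (⟨p, q, u, v⟩ | ⟨p, q, u, v⟩) <;> refine ⟨?_, ?_, ?_, ?_⟩ <;> linarith

theorem pvui_at_zero (S : Set ℂ) : pvkdAt 0 1 S = S := by
  ext w
  rw [pvkx_mem_at one_ne_zero]
  simp

/-- **field `djK`** -/
theorem pvui_f_djK : Disjoint (pvuiK true) (pvuiK false) := pvui_K_disj

/-- **field `w`** -/
theorem pvui_f_w (H : PvuiPar s N M r r' z d z' d' 𝔱 𝔱') (β : Bool) : pvlnW s (pvuiL N M β) ⊆ pvuiK β := pvui_win_K H.s0 H.N1 H.M1 β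

/-- **field `off`**, any state regions: `O` West of the abscissa `z + 26 s`, `O'` East of the abscissa `-26 N s` -/
theorem pvui_f_off (H : PvuiPar s N M r r' z d z' d' 𝔱 𝔱') (β : Bool) {O O' : Set ℂ} (hO : ∀ w ∈ O, w.re ≤ z.re + 13 * r / 4) (hO' : ∀ w ∈ O', -(13 * r' / 4) ≤ w.re) :
    Disjoint (pvlnW s (pvuiL N M β)) (O ∪ O') := by
  rw [Set.disjoint_left]
  intro w hw hw'
  have h := pvui_win H.s0 H.N1 H.M1 β hw
  have h1 : (27 - (M : ℝ) - 1 / 8) * s ≤ w.re ∧ w.re ≤ (-(28 * (N : ℝ)) + 9 / 8) * s := by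
    cases β <;> exact ⟨h.1, h.2.1⟩
  have hs := H.s0
  have hNs := H.Ns
  rcases hw' with hw' | hw'
  · have := hO w hw'
    rw [H.zre, H.hr] at this
    nlinarith [h1.1]
  · have := hO' w hw'
    rw [H.hr'] at this
    nlinarith [h1.2]

/-- the same against the squares of half sides `13 r / 4`, `13 r' / 4` -/
theorem pvui_f_off_sq (H : PvuiPar s N M r r' z d z' d' 𝔱 𝔱') (β : Bool) : Disjoint (pvlnW s (pvuiL N M β)) (pvwSq z (13 * r / 4) ∪ pvwSq z' (13 * r' / 4)) := by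
  refine pvui_f_off H β ?_ ?_
  · rintro w ⟨h1, -⟩
    have := (abs_le.1 h1).2
    rw [Complex.sub_re] at this
    linarith
  · rintro w ⟨h1, -⟩
    have := (abs_le.1 h1).1
    rw [H.hz', sub_zero] at this
    exact this

/-- **field `zp`** -/
theorem pvui_f_zp (H : PvuiPar s N M r r' z d z' d' 𝔱 𝔱') (β : Bool) {O : Set ℂ} (EO : pvkdAt z d (pvkdP r).Ew ⊆ O) : pvkdAt z d (𝔱.Ln true β) ⊆ O ∪ pvuiK β := by
  rw [H.Ln, H.hr]
  rintro _ ⟨u, hu, rfl⟩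
  rw [pvui_Ln] at hu
  have hs := H.s0
  have him : (pvthSim z d u).im = u.im := by
    rw [H.hd]; unfold pvthSim; simp [H.zim]
  by_cases hK : pvthSim z d u ∈ pvuiK β
  · exact Or.inr hK
  refine Or.inl (EO ⟨u, ?_, rfl⟩)
  show u ∈ pvwSq 0 (3 * r)
  rw [H.hr]
  unfold pvwSq
  simp only [mem_ofPred_eq, sub_zero, abs_le]
  cases β
  · have hK' : ¬ (pvthSim z d u).im < 0 := hK
    rw [him] at hK'
    simp only [pvufQ] at hu
    rcases hu with ⟨a, b, c, e⟩ | ⟨a, b, c, e⟩ <;> refine ⟨⟨?_, ?_⟩, ?_, ?_⟩ <;> linarith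
  · have hK' : ¬ 0 < (pvthSim z d u).im := hK
    rw [him] at hK'
    simp only [pvufQ] at hu
    rcases hu with ⟨a, b, c, e⟩ | ⟨a, b, c, e⟩ <;> refine ⟨⟨?_, ?_⟩, ?_, ?_⟩ <;> linarith

/-- **field `zm`** -/
theorem pvui_f_zm (H : PvuiPar s N M r r' z d z' d' 𝔱 𝔱') (β : Bool) {O' : Set ℂ} (EO' : pvkdAt z' d' (pvkdP r').Ew ⊆ O') : pvkdAt z' d' (𝔱'.Ln false β) ⊆ O' ∪ pvuiK β := by
  rw [H.Ln', H.hr']
  rintro _ ⟨u, hu, rfl⟩
  rw [pvui_Ln] at hu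
  have hs := H.s0
  have hNs := H.Ns
  have him : (pvthSim z' d' u).im = u.im := by
    rw [H.hd', H.hz']; unfold pvthSim; simp
  by_cases hK : pvthSim z' d' u ∈ pvuiK β
  · exact Or.inr hK
  refine Or.inl (EO' ⟨u, ?_, rfl⟩)
  show u ∈ pvwSq 0 (3 * r')
  rw [H.hr']
  unfold pvwSq
  simp only [mem_ofPred_eq, sub_zero, abs_le]
  cases β
  · have hK' : ¬ (pvthSim z' d' u).im < 0 := hK
    rw [him] at hK'
    simp only [pvufQ] at hu
    rcases hu with ⟨a, b, c, e⟩ | ⟨a, b, c, e⟩ <;> refine ⟨⟨?_, ?_⟩, ?_, ?_⟩ <;> linarith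
  · have hK' : ¬ 0 < (pvthSim z' d' u).im := hK
    rw [him] at hK'
    simp only [pvufQ] at hu
    rcases hu with ⟨a, b, c, e⟩ | ⟨a, b, c, e⟩ <;> refine ⟨⟨?_, ?_⟩, ?_, ?_⟩ <;> linarith

/-- **field `zone`** of `PvdtLay`, every mesh `μ ≤ s` -/
theorem pvui_f_zone (H : PvuiPar s N M r r' z d z' d' 𝔱 𝔱') {μ : ℝ} (hμ : μ ≤ s) (β : Bool) :
    PvfpZone s {k | k ∈ pvuiL N M β} (vorNbd (pvkdAt z d (𝔱.Ln true β)) μ) (pvkdAt z d (𝔱.Ln true β) ∩ ((pvkdP r).pg z d).KO) (pvkdAt z d (𝔱.Dr true β)) := by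
  have hZ := pvui_zone H.s0 (le_refl (1 : ℤ)) (-M) true β (pvui_blk_d H.N1 H.M1 β)
  rw [← H.z_eq, ← pvui_L_set H.N1 H.M1 β] at hZ
  have e1 : (((1 : ℤ) : ℝ)) * s = s := by push_cast; ring
  rw [e1] at hZ
  rw [H.Ln, H.Dr, H.hd, H.hr]
  refine pvuf_zone_mono hZ Subset.rfl (pvui_nbd z s hμ true β) ?_ (image_mono (pvui_Dr s true β).le)
  have e2 : ((pvkdP (8 * s)).pg z 1).KO = ball z (16 * s) := by
    show ball z (2 * (8 * s)) = _
    congr 1; ring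
  rw [e2]
  exact pvui_foot_at z H.s0.le H.s0.le true β

/-- **field `zone'`** of `PvdtLay`, every mesh `μ ≤ s` -/
theorem pvui_f_zone' (H : PvuiPar s N M r r' z d z' d' 𝔱 𝔱') {μ : ℝ} (hμ : μ ≤ s) (β : Bool) :
    PvfpZone s {k | k ∈ pvuiL N M β} (vorNbd (pvkdAt z' d' (𝔱'.Ln false β)) μ) (pvkdAt z' d' (𝔱'.Ln false β) ∩ ((pvkdP r').pg z' d').KO) (pvkdAt z' d' (𝔱'.Dr false β)) := by
  have hZ := pvui_zone H.s0 H.N1 0 false β (pvui_blk_u H.N1 H.M1 β)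
  rw [← H.z'_eq, ← pvui_L_set H.N1 H.M1 β] at hZ
  rw [H.Ln', H.Dr', H.hd', H.hr']
  refine pvuf_zone_mono hZ Subset.rfl (pvui_nbd z' _ hμ false β) ?_ (image_mono (pvui_Dr _ false β).le)
  have e2 : ((pvkdP (8 * ((N : ℝ) * s))).pg z' 1).KO = ball z' (16 * ((N : ℝ) * s)) := by
    show ball z' (2 * (8 * ((N : ℝ) * s))) = _
    congr 1; ring
  rw [e2]
  exact pvui_foot_at z' (H.s0.le.trans H.Ns) H.s0.le false β

/-- **THE HULL** of the carrier of one colour: the two rooms thickened by `ρ ≤ s` and the net -/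
theorem pvui_hull (H : PvuiPar s N M r r' z d z' d' 𝔱 𝔱') {ρ : ℝ} (h0 : 0 ≤ ρ) (hρ : ρ ≤ s) (β : Bool) :
    vorNbd (pvkdAt z d (𝔱.Ln true β)) ρ ∪ pvlnU s (pvuiL N M β) ∪ vorNbd (pvkdAt z' d' (𝔱'.Ln false β)) ρ ⊆
      rswRect (z.re + r / 2 - ρ) (-(r' / 2) + ρ) (-(3 * r' / 2 + 2 * s)) (3 * r' / 2 + 2 * s) := by
  have hs := H.s0
  have hNs := H.Ns
  have hMs := H.Ms
  rw [H.zre, H.hr, H.hr']
  refine union_subset (union_subset ?_ ?_) ?_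
  · rw [H.Ln, H.hd, H.hr]
    refine (pvui_nbd z s le_rfl true β).trans ?_
    refine (image_mono (pvui_A_box hs.le h0 β)).trans ?_
    have e : z = ((-((M : ℝ) * s) : ℝ) : ℂ) := by
      apply Complex.ext
      · rw [H.zre, Complex.ofReal_re]
      · rw [H.zim, Complex.ofReal_im]
    have e' : pvthSim z 1 '' rswRect (4 * s - ρ) (40 * s + ρ) (-(12 * s + ρ)) (12 * s + ρ) = pvkdAt z 1 (rswRect (4 * s - ρ) (40 * s + ρ) (-(12 * s + ρ)) (12 * s + ρ)) := rfl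
    rw [e', e, pvui_at_rect]
    rintro w ⟨p, q, u, v⟩
    exact ⟨by linarith, by linarith, by linarith, by linarith⟩
  · intro w hw
    have h := pvui_U_box hs H.N1 H.M1 β hw
    cases β
    · obtain ⟨p, q, u, v⟩ := h
      exact ⟨by nlinarith, by nlinarith, by nlinarith, by nlinarith⟩
    · obtain ⟨p, q, u, v⟩ := h
      exact ⟨by nlinarith, by nlinarith, by nlinarith, by nlinarith⟩
  · rw [H.Ln', H.hd', H.hr', H.hz']
    refine (pvui_nbd 0 _ le_rfl false β).trans ?_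
    rw [pvui_at_zero]
    refine (pvui_A_box' (hs.le.trans hNs) h0 β).trans ?_
    rintro w ⟨p, q, u, v⟩
    exact ⟨by linarith, by linarith, by linarith, by linarith⟩

/-- the collar of a rectangle -/
theorem pvui_collar {x0 x1 y0 y1 t : ℝ} {w : ℂ} (hw : w ∈ rswRect x0 x1 y0 y1) : closedBall w t ⊆ rswRect (x0 - t) (x1 + t) (y0 - t) (y1 + t) := by
  intro v hv
  obtain ⟨p1, p2, p3, p4⟩ := pvkgg_ball_box hv
  obtain ⟨a, b, c, e⟩ := hw
  exact ⟨by linarith, by linarith, by linarith, by linarith⟩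

/-- **fields `inE`, `inK`**: the carrier with a collar `t` -/
theorem pvui_f_in (H : PvuiPar s N M r r' z d z' d' 𝔱 𝔱') {ρ t : ℝ} (h0 : 0 ≤ ρ) (hρ : ρ ≤ s) {E : Set ℂ}
    (hE : rswRect (z.re + r / 2 - ρ - t) (-(r' / 2) + ρ + t) (-(3 * r' / 2 + 2 * s) - t) (3 * r' / 2 + 2 * s + t) ⊆ E) (β : Bool) :
    ∀ w ∈ vorNbd (pvkdAt z d (𝔱.Ln true β)) ρ ∪ pvlnU s (pvuiL N M β) ∪ vorNbd (pvkdAt z' d' (𝔱'.Ln false β)) ρ, closedBall w t ⊆ E :=
  fun w hw => (pvui_collar (pvui_hull H h0 hρ β hw)).trans hE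

/-- **field `dj`**, any two sets: `A` West of the abscissa `z + 11 r / 2` (`= 44 s`), `B` East of the abscissa `-(11 r' / 2)` -/
theorem pvui_f_dj (H : PvuiPar s N M r r' z d z' d' 𝔱 𝔱') {A B : Set ℂ} (hA : ∀ w ∈ A, w.re ≤ z.re + 11 * r / 2) (hB : ∀ w ∈ B, -(11 * r' / 2) ≤ w.re) : Disjoint A B := by
  rw [Set.disjoint_left]
  intro w h1 h2
  have a := hA w h1
  have b := hB w h2
  rw [H.zre, H.hr] at a
  rw [H.hr'] at b
  linarith [H.Ms]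

/-- for `sW`: the windows of the walks in a closed rectangle, in the units of the two plugs -/
theorem pvui_win_box (H : PvuiPar s N M r r' z d z' d' 𝔱 𝔱') (β : Bool) :
    pvlnW s (pvuiL N M β) ⊆ rswRect (z.re + 13 * r / 4) (-(13 * r' / 4)) (-(3 * r' / 2 + 3 * s)) (3 * r' / 2 + 3 * s) := by
  intro w hw
  have h := pvui_win H.s0 H.N1 H.M1 β hw
  have hs := H.s0
  have hNs := H.Ns
  rw [H.zre, H.hr, H.hr']
  cases β
  · obtain ⟨p, q, u, v⟩ := h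
    exact ⟨by nlinarith, by nlinarith, by nlinarith, by nlinarith⟩
  · obtain ⟨p, q, u, v⟩ := h
    exact ⟨by nlinarith, by nlinarith, by nlinarith, by nlinarith⟩

/-- **THE LAYOUT OF 294 FOR THE FUNNEL**, from `PvdtGeo` of the room and two inclusions of rectangles -/
theorem pvui_lay (H : PvuiPar s N M r r' z d z' d' 𝔱 𝔱') {μ : ℝ} (h0 : 0 < μ) (hμ : μ ≤ s) {E KE : Set ℂ} (geo : PvdtGeo ((pvkdP r).pg z d) ((pvkdP r').pg z' d') KE)
    (hE : rswRect (z.re + r / 2 - μ - 5 * μ) (-(r' / 2) + μ + 5 * μ) (-(3 * r' / 2 + 2 * s) - 5 * μ) (3 * r' / 2 + 2 * s + 5 * μ) ⊆ E)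
    (hK : rswRect (z.re + r / 2 - μ - 3 * μ) (-(r' / 2) + μ + 3 * μ) (-(3 * r' / 2 + 2 * s) - 3 * μ) (3 * r' / 2 + 2 * s + 3 * μ) ⊆ KE) :
    PvdtLay μ E ((pvkdP r).pg z d) ((pvkdP r').pg z' d') KE s (pvuiL N M) (fun β => pvkdAt z d (𝔱.Ln true β)) (fun β => pvkdAt z' d' (𝔱'.Ln false β))
      (fun β => pvkdAt z d (𝔱.Dr true β)) (fun β => pvkdAt z' d' (𝔱'.Dr false β)) where
  geo := geo
  ρ_pos := h0
  δ_pos := H.s0
  ne := pvui_L_ne H.N1 H.M1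
  ch := pvui_L_ch H.N1 H.M1
  full := pvui_L_full H.N1 H.M1
  inE := pvui_f_in H h0.le hμ hE
  inK := pvui_f_in H h0.le hμ hK
  zone := pvui_f_zone H hμ
  zone' := pvui_f_zone' H hμ

end fields

end Claimed.Agent.R289
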