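-- KEEP
import Claimed.Agent.R289.Exit.FrcR
import Claimed.Agent.R289.Tr.FrcFun

/-!
# Row 289 (S0537), THE WALL, file Tr/FrcFunS : **THE FUNNEL LAYOUT IN THE WORDS OF `Exit/FrcR` v4** (general regions `𝔯 𝔯' : PvhfReg`, carried by `PvhfReg.sim`)      (helper278; prefix `pvui_`, `Pvui`)      0 sorry

* sec. 1  SCALING (`α > 0` real): `pvui_sc_rect`, `pvui_sc_krect`, `pvui_sc_ball`, `pvui_sc_sq`, `pvui_sc_Ln`, `pvui_sc_Dr`;   at the regions of 174: **`pvui_sim_Rm`**, **`pvui_sim_Tg`**, **`pvui_sim_p`** (marks `= (pvkdP (α r₀)).pg z 1`), `pvui_sim_Ef`, `pvui_sim_rho`.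
* sec. 2  **`PvuiFit s N M 𝔯 𝔯'`** = the equations of the two regions;   producer **`pvui_fit_sim`** at `(pvhfR (pvkdP r₀) 𝔱 true).sim z a`, `(pvhfR (pvkdP r₀) 𝔱' false).sim 0 a'`.
* sec. 3  THE FIELDS OF `Pvr2Lay.Ok` v4 VERBATIM: `pvui_g_w`, `pvui_g_off`, `pvui_g_zp`, `pvui_g_zm`, `pvui_g_dj`, `pvui_g_win`, **`pvui_g_lay_tr`**, `pvui_g_lay_tr'` (TRANSFER of `PvdtLay` from the absolute form, any walks / room), `pvui_g_lay`.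
-/

set_option autoImplicit false
set_option linter.unusedSectionVars false
set_option linter.unusedVariables false

namespace Claimed.Agent.R289

open Set Metric

/-! ## 1. scaling -/

theorem pvui_sc_rect (z : ℂ) {α : ℝ} (hα : 0 < α) (x0 x1 y0 y1 : ℝ) :
    pvthInv z (α : ℂ) ⁻¹' rswRect x0 x1 y0 y1 = pvkdAt z 1 (rswRect (α * x0) (α * x1) (α * y0) (α * y1)) := by
  ext w
  rw [pvkx_mem_at one_ne_zero]
  simp only [mem_preimage, pvthInv, div_one, rswRect, mem_ofPred_eq, Complex.div_ofReal_re, Complex.div_ofReal_im]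
  rw [le_div_iff₀ hα, div_le_iff₀ hα, le_div_iff₀ hα, div_le_iff₀ hα, mul_comm x0, mul_comm x1, mul_comm y0, mul_comm y1]

theorem pvui_sc_krect (z : ℂ) {α : ℝ} (hα : 0 < α) (σ : Bool) (x0 x1 y0 y1 : ℝ) :
    pvthInv z (α : ℂ) ⁻¹' pvkdRect σ x0 x1 y0 y1 = pvkdAt z 1 (pvkdRect σ (α * x0) (α * x1) (α * y0) (α * y1)) := by
  cases σ <;> simp only [pvkdRect, if_true, if_false, Bool.false_eq_true] <;> rw [pvui_sc_rect z hα]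
  congr 2 <;> ring

theorem pvui_sc_ball (z : ℂ) {α : ℝ} (hα : 0 < α) (b : ℝ) : pvthInv z (α : ℂ) ⁻¹' ball 0 b = ball z (α * b) := by
  ext w
  simp only [mem_preimage, pvthInv, mem_ball, dist_zero_right, Complex.dist_eq, norm_div, Complex.norm_real, Real.norm_eq_abs, abs_of_pos hα]
  rw [div_lt_iff₀ hα, mul_comm]

theorem pvui_sc_sq (z : ℂ) {α : ℝ} (hα : 0 < α) (b : ℝ) : pvthInv z (α : ℂ) ⁻¹' pvwSq 0 b = pvwSq z (α * b) := by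
  ext w
  simp only [mem_preimage, pvthInv, pvwSq, mem_ofPred_eq, sub_zero, Complex.div_ofReal_re, Complex.div_ofReal_im, abs_div, abs_of_pos hα]
  rw [div_le_iff₀ hα, div_le_iff₀ hα, mul_comm]

theorem pvui_at_union (z d : ℂ) (S S' : Set ℂ) : pvkdAt z d (S ∪ S') = pvkdAt z d S ∪ pvkdAt z d S' := image_union _ _ _

theorem pvui_sc_Ln (z : ℂ) {α : ℝ} (hα : 0 < α) (r₀ : ℝ) (σ β : Bool) : pvthInv z (α : ℂ) ⁻¹' (pvhfT r₀).Ln σ β = pvkdAt z 1 ((pvhfT (α * r₀)).Ln σ β) := by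
  cases β <;> simp only [pvhfT, if_true, if_false, Bool.false_eq_true, preimage_union, pvui_at_union, pvui_sc_krect z hα] <;> congr 3 <;> ring

theorem pvui_sc_Dr (z : ℂ) {α : ℝ} (hα : 0 < α) (r₀ : ℝ) (σ β : Bool) : pvthInv z (α : ℂ) ⁻¹' (pvhfT r₀).Dr σ β = pvkdAt z 1 ((pvhfT (α * r₀)).Dr σ β) := by
  cases β <;> simp only [pvhfT, if_true, if_false, Bool.false_eq_true, pvui_sc_krect z hα] <;> congr 2 <;> ring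

/-- rooms of the scaled regions -/
theorem pvui_sim_Rm (𝔭 : PvkdPlug) {𝔱 : PvhfTr} (σ β : Bool) (z : ℂ) {α : ℝ} (hα : 0 < α) {r₀ : ℝ} (h : 𝔱.Ln σ β = (pvhfT r₀).Ln σ β) :
    ((pvhfR 𝔭 𝔱 σ).sim z (α : ℂ)).sd.Rm β = pvkdAt z 1 ((pvhfT (α * r₀)).Ln σ β) := by
  rw [← pvui_sc_Ln z hα, ← h]
  cases β <;> rfl

/-- targets of the scaled regions -/
theorem pvui_sim_Tg (𝔭 : PvkdPlug) {𝔱 : PvhfTr} (σ β : Bool) (z : ℂ) {α : ℝ} (hα : 0 < α) {r₀ : ℝ} (h : 𝔱.Dr σ β = (pvhfT r₀).Dr σ β) :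
    ((pvhfR 𝔭 𝔱 σ).sim z (α : ℂ)).sd.Tg β = pvkdAt z 1 ((pvhfT (α * r₀)).Dr σ β) := by
  rw [← pvui_sc_Dr z hα, ← h]
  cases β <;> rfl

/-- **the marks of the scaled plug of record are the marks of the plug of record of the scaled unit** (fields `hp hp'` of `Pvr2Fit`) -/
theorem pvui_sim_p (𝔱 : PvhfTr) (σ : Bool) (z : ℂ) {α : ℝ} (hα : 0 < α) (r₀ : ℝ) : ((pvhfR (pvkdP r₀) 𝔱 σ).sim z (α : ℂ)).sd.p = (pvkdP (α * r₀)).pg z 1 := by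
  show (⟨pvthInv z (α : ℂ) ⁻¹' ball 0 r₀, pvthInv z (α : ℂ) ⁻¹' ball 0 (2 * r₀), pvthInv z (α : ℂ) ⁻¹' rswRect (-(2 * r₀)) (-(r₀ / 2)) (-(r₀ / 2)) (r₀ / 2),
    pvthInv z (α : ℂ) ⁻¹' rswRect (r₀ / 2) (2 * r₀) (-(r₀ / 2)) (r₀ / 2), pvthInv z (α : ℂ) ⁻¹' rswRect (-(2 * r₀)) (2 * r₀) (-(r₀ / 2)) (r₀ / 2)⟩ : PvzlPg ℂ) =
    ⟨ball z (α * r₀), ball z (2 * (α * r₀)), pvkdAt z 1 (rswRect (-(2 * (α * r₀))) (-(α * r₀ / 2)) (-(α * r₀ / 2)) (α * r₀ / 2)),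
      pvkdAt z 1 (rswRect (α * r₀ / 2) (2 * (α * r₀)) (-(α * r₀ / 2)) (α * r₀ / 2)), pvkdAt z 1 (rswRect (-(2 * (α * r₀))) (2 * (α * r₀)) (-(α * r₀ / 2)) (α * r₀ / 2))⟩
  rw [pvui_sc_ball z hα, pvui_sc_ball z hα, pvui_sc_rect z hα, pvui_sc_rect z hα, pvui_sc_rect z hα]
  congr 1
  · congr 1; ring
  · congr 2 <;> ring
  · congr 2 <;> ring
  · congr 2 <;> ring

theorem pvui_sim_Ef (𝔱 : PvhfTr) (σ : Bool) (z : ℂ) {α : ℝ} (hα : 0 < α) (r₀ : ℝ) : ((pvhfR (pvkdP r₀) 𝔱 σ).sim z (α : ℂ)).Ef = pvwSq z (3 * (α * r₀)) := by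
  show pvthInv z (α : ℂ) ⁻¹' pvwSq 0 (3 * r₀) = _
  rw [pvui_sc_sq z hα]
  congr 1; ring

theorem pvui_at_sq (z : ℂ) (b : ℝ) : pvkdAt z 1 (pvwSq 0 b) = pvwSq z b := by
  ext w
  rw [pvkx_mem_at one_ne_zero]
  simp [pvwSq]

theorem pvui_sim_rho (𝔱 : PvhfTr) (σ : Bool) (z : ℂ) {α : ℝ} (hα : 0 < α) (r₀ : ℝ) : ((pvhfR (pvkdP r₀) 𝔱 σ).sim z (α : ℂ)).ρ = (pvkdP (α * r₀)).ρ := by
  show ‖(α : ℂ)‖ * (r₀ / 16) = α * r₀ / 16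
  rw [Complex.norm_real, Real.norm_eq_abs, abs_of_pos hα]
  ring

/-! ## 2. the equations of the two regions -/

/-- **THE TWO REGIONS FIT THE FUNNEL** `(s, N, M)` -/
structure PvuiFit (s : ℝ) (N M : ℤ) (𝔯 𝔯' : PvhfReg) : Prop where
  s0 : 0 < s
  N1 : 1 ≤ N
  M1 : 44 * (N + 1) < M
  Rm : ∀ β, 𝔯.sd.Rm β = pvkdAt ((-((M : ℝ) * s) : ℝ) : ℂ) 1 ((pvhfT (8 * s)).Ln true β)
  Tg : ∀ β, 𝔯.sd.Tg β = pvkdAt ((-((M : ℝ) * s) : ℝ) : ℂ) 1 ((pvhfT (8 * s)).Dr true β)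
  p : 𝔯.sd.p = (pvkdP (8 * s)).pg ((-((M : ℝ) * s) : ℝ) : ℂ) 1
  Ef : 𝔯.Ef = pvwSq ((-((M : ℝ) * s) : ℝ) : ℂ) (24 * s)
  Rm' : ∀ β, 𝔯'.sd.Rm β = pvkdAt 0 1 ((pvhfT (8 * ((N : ℝ) * s))).Ln false β)
  Tg' : ∀ β, 𝔯'.sd.Tg β = pvkdAt 0 1 ((pvhfT (8 * ((N : ℝ) * s))).Dr false β)
  p' : 𝔯'.sd.p = (pvkdP (8 * ((N : ℝ) * s))).pg 0 1
  Ef' : 𝔯'.Ef = pvwSq 0 (24 * ((N : ℝ) * s))

section fit

variable {s : ℝ} {N M : ℤ} {𝔯 𝔯' : PvhfReg}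

/-- the parameters of `Tr/FrcFun` -/
theorem PvuiFit.par (F : PvuiFit s N M 𝔯 𝔯') :
    PvuiPar s N M (8 * s) (8 * ((N : ℝ) * s)) ((-((M : ℝ) * s) : ℝ) : ℂ) 1 0 1 (pvhfT (8 * s)) (pvhfT (8 * ((N : ℝ) * s))) where
  s0 := F.s0
  N1 := F.N1
  M1 := F.M1
  hr := rfl
  hr' := rfl
  zre := Complex.ofReal_re _
  zim := Complex.ofReal_im _
  hd := rfl
  hz' := rfl
  hd' := rfl
  Ln := fun _ => rfl
  Dr := fun _ => rfl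
  Ln' := fun _ => rfl
  Dr' := fun _ => rfl

/-- **PRODUCER**: the regions of the two sides of the plug of record of unit `r₀`, carried by `w ↦ z + α w` and by `w ↦ α' w` -/
theorem pvui_fit_sim (hs : 0 < s) (hN : 1 ≤ N) (hM : 44 * (N + 1) < M) {𝔱 𝔱' : PvhfTr} {r₀ α α' : ℝ} {z a a' : ℂ} (hα : 0 < α) (hα' : 0 < α') (ha : a = (α : ℂ)) (ha' : a' = (α' : ℂ))
    (h8 : α * r₀ = 8 * s) (h8' : α' * r₀ = 8 * ((N : ℝ) * s)) (hz : z = ((-((M : ℝ) * s) : ℝ) : ℂ))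
    (Ln : ∀ β, 𝔱.Ln true β = (pvhfT r₀).Ln true β) (Dr : ∀ β, 𝔱.Dr true β = (pvhfT r₀).Dr true β)
    (Ln' : ∀ β, 𝔱'.Ln false β = (pvhfT r₀).Ln false β) (Dr' : ∀ β, 𝔱'.Dr false β = (pvhfT r₀).Dr false β) :
    PvuiFit s N M ((pvhfR (pvkdP r₀) 𝔱 true).sim z a) ((pvhfR (pvkdP r₀) 𝔱' false).sim 0 a') where
  s0 := hs
  N1 := hN
  M1 := hM
  Rm := fun β => by rw [ha, pvui_sim_Rm _ true β z hα (Ln β), h8, hz]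
  Tg := fun β => by rw [ha, pvui_sim_Tg _ true β z hα (Dr β), h8, hz]
  p := by rw [ha, pvui_sim_p _ true z hα, h8, hz]
  Ef := by rw [ha, pvui_sim_Ef _ true z hα, h8, hz]; congr 1; ring
  Rm' := fun β => by rw [ha', pvui_sim_Rm _ false β 0 hα' (Ln' β), h8']
  Tg' := fun β => by rw [ha', pvui_sim_Tg _ false β 0 hα' (Dr' β), h8']
  p' := by rw [ha', pvui_sim_p _ false 0 hα', h8']
  Ef' := by rw [ha', pvui_sim_Ef _ false 0 hα', h8']; congr 1; ring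

/-! ## 3. the fields of `Pvr2Lay.Ok` -/

/-- **field `w`** -/
theorem pvui_g_w (F : PvuiFit s N M 𝔯 𝔯') (β : Bool) : pvlnW s (pvuiL N M β) ⊆ pvuiK β := pvui_f_w F.par β

/-- **field `off`**: `O` West of the abscissa `(26 - M) s`, `O'` East of the abscissa `-26 N s` -/
theorem pvui_g_off (F : PvuiFit s N M 𝔯 𝔯') (β : Bool) {O O' : Set ℂ} (hO : ∀ w ∈ O, w.re ≤ -((M : ℝ) * s) + 26 * s) (hO' : ∀ w ∈ O', -(26 * ((N : ℝ) * s)) ≤ w.re) :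
    Disjoint (pvlnW s (pvuiL N M β)) (O ∪ O') :=
  pvui_f_off F.par β (fun w hw => by rw [Complex.ofReal_re]; linarith [hO w hw]) (fun w hw => by linarith [hO' w hw])

/-- **field `zp`** -/
theorem pvui_g_zp (F : PvuiFit s N M 𝔯 𝔯') (β : Bool) {O : Set ℂ} (EO : 𝔯.Ef ⊆ O) : 𝔯.sd.Rm β ⊆ O ∪ pvuiK β := by
  rw [F.Rm]
  refine pvui_f_zp F.par β ?_
  show pvkdAt _ 1 (pvwSq 0 (3 * (8 * s))) ⊆ O
  rw [pvui_at_sq, show 3 * (8 * s) = 24 * s by ring, ← F.Ef]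
  exact EO

/-- **field `zm`** -/
theorem pvui_g_zm (F : PvuiFit s N M 𝔯 𝔯') (β : Bool) {O' : Set ℂ} (EO' : 𝔯'.Ef ⊆ O') : 𝔯'.sd.Rm β ⊆ O' ∪ pvuiK β := by
  rw [F.Rm']
  refine pvui_f_zm F.par β ?_
  show pvkdAt _ 1 (pvwSq 0 (3 * (8 * ((N : ℝ) * s)))) ⊆ O'
  rw [pvui_at_sq, show 3 * (8 * ((N : ℝ) * s)) = 24 * ((N : ℝ) * s) by ring, ← F.Ef']
  exact EO'

/-- **field `dj`**: `A` West of the abscissa `(44 - M) s`, `B` East of the abscissa `-44 N s` -/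
theorem pvui_g_dj (F : PvuiFit s N M 𝔯 𝔯') {A B : Set ℂ} (hA : ∀ w ∈ A, w.re ≤ -((M : ℝ) * s) + 44 * s) (hB : ∀ w ∈ B, -(44 * ((N : ℝ) * s)) ≤ w.re) : Disjoint A B :=
  pvui_f_dj F.par (fun w hw => by rw [Complex.ofReal_re]; linarith [hA w hw]) (fun w hw => by linarith [hB w hw])

/-- for `sW`: the windows of the walks -/
theorem pvui_g_win (F : PvuiFit s N M 𝔯 𝔯') (β : Bool) :
    pvlnW s (pvuiL N M β) ⊆ rswRect (-((M : ℝ) * s) + 26 * s) (-(26 * ((N : ℝ) * s))) (-(12 * ((N : ℝ) * s) + 3 * s)) (12 * ((N : ℝ) * s) + 3 * s) := by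
  refine (pvui_win_box F.par β).trans (le_of_eq ?_)
  rw [Complex.ofReal_re]
  congr 1 <;> ring

/-- **TRANSFER OF `lay`** (asked by 262): pure rewriting by the equations of `PvuiFit`, ANY walks, window, room -/
theorem pvui_g_lay_tr (F : PvuiFit s N M 𝔯 𝔯') {μ δ : ℝ} {E KE : Set ℂ} {L : Bool → List (ℤ × ℤ)}
    (h : PvdtLay μ E ((pvkdP (8 * s)).pg ((-((M : ℝ) * s) : ℝ) : ℂ) 1) ((pvkdP (8 * ((N : ℝ) * s))).pg 0 1) KE δ L (fun β => pvkdAt ((-((M : ℝ) * s) : ℝ) : ℂ) 1 ((pvhfT (8 * s)).Ln true β))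
      (fun β => pvkdAt 0 1 ((pvhfT (8 * ((N : ℝ) * s))).Ln false β)) (fun β => pvkdAt ((-((M : ℝ) * s) : ℝ) : ℂ) 1 ((pvhfT (8 * s)).Dr true β))
      (fun β => pvkdAt 0 1 ((pvhfT (8 * ((N : ℝ) * s))).Dr false β))) :
    PvdtLay μ E 𝔯.sd.p 𝔯'.sd.p KE δ L 𝔯.sd.Rm 𝔯'.sd.Rm 𝔯.sd.Tg 𝔯'.sd.Tg := by
  have e1 : 𝔯.sd.Rm = fun β => pvkdAt ((-((M : ℝ) * s) : ℝ) : ℂ) 1 ((pvhfT (8 * s)).Ln true β) := funext F.Rm
  have e2 : 𝔯'.sd.Rm = fun β => pvkdAt 0 1 ((pvhfT (8 * ((N : ℝ) * s))).Ln false β) := funext F.Rm'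
  have e3 : 𝔯.sd.Tg = fun β => pvkdAt ((-((M : ℝ) * s) : ℝ) : ℂ) 1 ((pvhfT (8 * s)).Dr true β) := funext F.Tg
  have e4 : 𝔯'.sd.Tg = fun β => pvkdAt 0 1 ((pvhfT (8 * ((N : ℝ) * s))).Dr false β) := funext F.Tg'
  rw [e1, e2, e3, e4, F.p, F.p']
  exact h

/-- the same from the form of `PvuiPar` (any `r r' z d z' d' 𝔱 𝔱'`) -/
theorem pvui_g_lay_tr' (F : PvuiFit s N M 𝔯 𝔯') {r r' : ℝ} {z d z' d' : ℂ} {𝔱 𝔱' : PvhfTr} (H : PvuiPar s N M r r' z d z' d' 𝔱 𝔱') {μ δ : ℝ} {E KE : Set ℂ} {L : Bool → List (ℤ × ℤ)}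
    (h : PvdtLay μ E ((pvkdP r).pg z d) ((pvkdP r').pg z' d') KE δ L (fun β => pvkdAt z d (𝔱.Ln true β)) (fun β => pvkdAt z' d' (𝔱'.Ln false β))
      (fun β => pvkdAt z d (𝔱.Dr true β)) (fun β => pvkdAt z' d' (𝔱'.Dr false β))) :
    PvdtLay μ E 𝔯.sd.p 𝔯'.sd.p KE δ L 𝔯.sd.Rm 𝔯'.sd.Rm 𝔯.sd.Tg 𝔯'.sd.Tg := by
  refine pvui_g_lay_tr F ?_
  have ez : z = ((-((M : ℝ) * s) : ℝ) : ℂ) := by
    apply Complex.ext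
    · rw [H.zre, Complex.ofReal_re]
    · rw [H.zim, Complex.ofReal_im]
  have e1 : (fun β => pvkdAt z d (𝔱.Ln true β)) = fun β => pvkdAt ((-((M : ℝ) * s) : ℝ) : ℂ) 1 ((pvhfT (8 * s)).Ln true β) := by
    funext β; rw [H.Ln, H.hr, H.hd, ez]
  have e2 : (fun β => pvkdAt z' d' (𝔱'.Ln false β)) = fun β => pvkdAt 0 1 ((pvhfT (8 * ((N : ℝ) * s))).Ln false β) := by
    funext β; rw [H.Ln', H.hr', H.hd', H.hz']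
  have e3 : (fun β => pvkdAt z d (𝔱.Dr true β)) = fun β => pvkdAt ((-((M : ℝ) * s) : ℝ) : ℂ) 1 ((pvhfT (8 * s)).Dr true β) := by
    funext β; rw [H.Dr, H.hr, H.hd, ez]
  have e4 : (fun β => pvkdAt z' d' (𝔱'.Dr false β)) = fun β => pvkdAt 0 1 ((pvhfT (8 * ((N : ℝ) * s))).Dr false β) := by
    funext β; rw [H.Dr', H.hr', H.hd', H.hz']
  rw [e1, e2, e3, e4, H.hr, H.hr', H.hd, H.hd', H.hz', ez] at h
  exact h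

/-- **field `lay`**: `KE ⊇ [(4 - M) s - 4 μ, -4 N s + 4 μ] × [-(12 N + 2) s - 3 μ, (12 N + 2) s + 3 μ]`, the same with `6 μ`, `5 μ` for the window -/
theorem pvui_g_lay (F : PvuiFit s N M 𝔯 𝔯') {μ : ℝ} (h0 : 0 < μ) (hμ : μ ≤ s) {E KE : Set ℂ} (geo : PvdtGeo 𝔯.sd.p 𝔯'.sd.p KE)
    (hE : rswRect (-((M : ℝ) * s) + 4 * s - 6 * μ) (-(4 * ((N : ℝ) * s)) + 6 * μ) (-(12 * ((N : ℝ) * s) + 2 * s) - 5 * μ) (12 * ((N : ℝ) * s) + 2 * s + 5 * μ) ⊆ E)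
    (hK : rswRect (-((M : ℝ) * s) + 4 * s - 4 * μ) (-(4 * ((N : ℝ) * s)) + 4 * μ) (-(12 * ((N : ℝ) * s) + 2 * s) - 3 * μ) (12 * ((N : ℝ) * s) + 2 * s + 3 * μ) ⊆ KE) :
    PvdtLay μ E 𝔯.sd.p 𝔯'.sd.p KE s (pvuiL N M) 𝔯.sd.Rm 𝔯'.sd.Rm 𝔯.sd.Tg 𝔯'.sd.Tg := by
  have e1 : 𝔯.sd.Rm = fun β => pvkdAt ((-((M : ℝ) * s) : ℝ) : ℂ) 1 ((pvhfT (8 * s)).Ln true β) := funext F.Rm
  have e2 : 𝔯'.sd.Rm = fun β => pvkdAt 0 1 ((pvhfT (8 * ((N : ℝ) * s))).Ln false β) := funext F.Rm'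
  have e3 : 𝔯.sd.Tg = fun β => pvkdAt ((-((M : ℝ) * s) : ℝ) : ℂ) 1 ((pvhfT (8 * s)).Dr true β) := funext F.Tg
  have e4 : 𝔯'.sd.Tg = fun β => pvkdAt 0 1 ((pvhfT (8 * ((N : ℝ) * s))).Dr false β) := funext F.Tg'
  rw [F.p, F.p'] at geo
  rw [e1, e2, e3, e4, F.p, F.p']
  refine pvui_lay F.par h0 hμ geo (Subset.trans (le_of_eq ?_) hE) (Subset.trans (le_of_eq ?_) hK)
  · rw [Complex.ofReal_re]
    congr 1 <;> ring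
  · rw [Complex.ofReal_re]
    congr 1 <;> ring

end fit

end Claimed.Agent.R289
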