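import Claimed.Agent.R289.Tr.Ret

/-!
# Row 289 (S0537), THE WALL, ROAD E, E10 step (b6), file Tr/MeshG : THE SEAM OF THE MESHES, MODEL FREE      (helper206; RULING 22 (3) of 234, DEFECT M of 233; prefix `pvmj_`, `pvmj`, `Pvmj`)

WHY.   The plain events of the special links (`pvilMo Mi Me Mr` of `Tr/InstL` v2.2) contain the mesh `PvtrMesh μ Wn` of their window.      In DET the final configuration is the base on the kept part of the window, resampled on the tile, given on the plug region(s).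
Each piece pays its own mesh at a finer radius;   this file glues them.      No probability, no model: subsets of `ℂ`.

* sec. 0  `pvmj_mesh_mono` (radius), `pvmj_mesh_sub` (region), **`pvmj_glue`** : meshes `ρ i` on `F i` + (COV) `⟹` `PvtrMesh μ E`.
* sec. 1  one coordinate: `PvmjSame T x x'` (same position `<`, `≤` w.r.t. all the thresholds of `T`), `pvmj_avoid` (thresholds `2 r` apart: move `x` by `≤ r` to a point `≥ r` from all of them), `pvmj_same`.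
* sec. 2  a frame `(c, u)`, `|u| = 1`: `pvmjS`, `pvmjL` (`= pvegS`, `pvegL` of 124 by `rfl`), `pvmj_sq`;   **`PvmjGrid c u Tx Ty F`** : membership in `F` depends only on the position of the two coordinates w.r.t. the thresholds;
          Boolean calculus `.compl .union .inter .diff .iUnion`, `pvmj_grid_univ _empty`, half planes `pvmj_grid_S_lt _S_le _S_gt _S_ge _L_lt _L_le _L_gt _L_ge`, strips `pvmj_grid_S_abs_le _S_abs_lt _L_abs_le _L_abs_lt`.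
* sec. 3  **`pvmj_grid_pt`** : thresholds `4 μ / 5` apart  `⟹`  every `w` has `w'`, `|w - w'| ≤ 17 μ / 30`, such that `closedBall w' (μ/3)` is inside or disjoint from EVERY grid set.
* sec. 4  **`pvmj_seam`** : `Wn ⊆ ⋃ F i`, grid sets, mesh `μ/3` on every piece  `⟹`  mesh `μ` on `Wn`.
* sec. 5  **`pvmj_seam_kept`** : pieces `F i` = (grid set off the mouth ball), disjoint from the ball;   `Y₂ = Y₀` on the part of `Wn` off the pieces, base mesh `ρ₀ ≤ μ/20` on `Bg ⊇ Wn`, mesh `μ/3` of `Y₂` on every piece  `⟹`  `PvtrMesh μ Wn Y₂`, FOR EVERY `Wn`;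
          `pvmj_seam_KD` : two pieces (tile, plug region).
-/

set_option autoImplicit false

namespace Claimed.Agent.R289

open Set Metric

/-! ## 0. glue -/

theorem pvmj_mesh_mono {ρ ρ' : ℝ} (h : ρ ≤ ρ') {E Y : Set ℂ} (hm : PvtrMesh ρ E Y) : PvtrMesh ρ' E Y := fun z hz => by
  obtain ⟨u, hu, h1⟩ := hm z (pvtr_core_anti h hz)
  exact ⟨u, hu, h1.trans h⟩

theorem pvmj_mesh_sub {ρ : ℝ} {E E' Y : Set ℂ} (h : E' ⊆ E) (hm : PvtrMesh ρ E Y) : PvtrMesh ρ E' Y := fun z hz => hm z (pvtr_core_mono h hz)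

theorem pvmj_mesh_sites {ρ : ℝ} {E Y Y' : Set ℂ} (h : Y ⊆ Y') (hm : PvtrMesh ρ E Y) : PvtrMesh ρ E Y' := fun z hz => by
  obtain ⟨u, hu, h1⟩ := hm z hz
  exact ⟨u, h hu, h1⟩

/-- **(COV)** -/
theorem pvmj_glue {μ : ℝ} {E Y : Set ℂ} {ι : Type*} {ρ : ι → ℝ} {F : ι → Set ℂ} (hm : ∀ i, PvtrMesh (ρ i) (F i) Y)
    (cov : ∀ w ∈ pvtrCore μ E, ∃ i, ∃ w' ∈ pvtrCore (ρ i) (F i), ‖w - w'‖ ≤ μ - ρ i) : PvtrMesh μ E Y := fun w hw => by
  obtain ⟨i, w', hw', h1⟩ := cov w hw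
  obtain ⟨u, hu, h2⟩ := hm i w' hw'
  refine ⟨u, hu, ?_⟩
  calc ‖w - u‖ = ‖(w - w') + (w' - u)‖ := by ring_nf
    _ ≤ ‖w - w'‖ + ‖w' - u‖ := norm_add_le _ _
    _ ≤ μ := by linarith

/-! ## 1. one coordinate -/

/-- `x`, `x'` have the same position w.r.t. all the thresholds of `T` -/
def PvmjSame (T : Set ℝ) (x x' : ℝ) : Prop := ∀ θ ∈ T, (x < θ ↔ x' < θ) ∧ (x ≤ θ ↔ x' ≤ θ)

theorem PvmjSame.symm {T : Set ℝ} {x x' : ℝ} (h : PvmjSame T x x') : PvmjSame T x' x := fun θ hθ => ⟨(h θ hθ).1.symm, (h θ hθ).2.symm⟩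

/-- thresholds `2 r` apart: every `x` can be moved by `≤ r` to a point at distance `≥ r` from all of them -/
theorem pvmj_avoid {T : Set ℝ} {r : ℝ} (hr : 0 ≤ r) (hT : ∀ θ ∈ T, ∀ θ' ∈ T, θ ≠ θ' → 2 * r ≤ |θ - θ'|) (x : ℝ) : ∃ x', |x - x'| ≤ r ∧ ∀ θ ∈ T, r ≤ |x' - θ| := by
  by_cases h : ∃ θ ∈ T, |x - θ| < r
  · obtain ⟨θ, hθ, h1⟩ := h
    rw [abs_lt] at h1
    rcases le_total θ x with h2 | h2
    · refine ⟨θ + r, by rw [abs_le]; constructor <;> linarith, fun θ' hθ' => ?_⟩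
      by_cases e : θ = θ'
      · subst e
        rw [add_sub_cancel_left, abs_of_nonneg hr]
      · have h3 := hT θ hθ θ' hθ' e
        have h4 : |θ - θ'| ≤ |θ + r - θ'| + r := by
          have : θ - θ' = (θ + r - θ') + (-r) := by ring
          calc |θ - θ'| = |(θ + r - θ') + (-r)| := by rw [← this]
            _ ≤ |θ + r - θ'| + |-r| := abs_add_le _ _
            _ = _ := by rw [abs_neg, abs_of_nonneg hr]
        linarith
    · refine ⟨θ - r, by rw [abs_le]; constructor <;> linarith, fun θ' hθ' => ?_⟩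
      by_cases e : θ = θ'
      · subst e
        rw [show θ - r - θ = -r by ring, abs_neg, abs_of_nonneg hr]
      · have h3 := hT θ hθ θ' hθ' e
        have h4 : |θ - θ'| ≤ |θ - r - θ'| + r := by
          have : θ - θ' = (θ - r - θ') + r := by ring
          calc |θ - θ'| = |(θ - r - θ') + r| := by rw [← this]
            _ ≤ |θ - r - θ'| + |r| := abs_add_le _ _
            _ = _ := by rw [abs_of_nonneg hr]
        linarith
  · push Not at h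
    exact ⟨x, by simpa using hr, h⟩

/-- a point within `ρ < r` of a point at distance `≥ r` from the thresholds has the same position -/
theorem pvmj_same {T : Set ℝ} {r ρ : ℝ} (hρ : ρ < r) {x x' : ℝ} (h : ∀ θ ∈ T, r ≤ |x' - θ|) (hx : |x - x'| ≤ ρ) : PvmjSame T x x' := by
  intro θ hθ
  have h1 := h θ hθ
  rw [abs_le] at hx
  rcases le_abs.1 h1 with h2 | h2
  · exact ⟨⟨fun _ => by linarith, fun _ => by linarith⟩, ⟨fun _ => by linarith, fun _ => by linarith⟩⟩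
  · exact ⟨⟨fun _ => by linarith, fun _ => by linarith⟩, ⟨fun _ => by linarith, fun _ => by linarith⟩⟩

/-! ## 2. frames, grid sets -/

/-- first coordinate in the frame `(c, u)` -/
noncomputable def pvmjS (c u v : ℂ) : ℝ := ((v - c) * (starRingEnd ℂ) u).re
/-- second coordinate in the frame `(c, u)` -/
noncomputable def pvmjL (c u v : ℂ) : ℝ := ((v - c) * (starRingEnd ℂ) u).im

/-- **A GRID SET**: membership depends only on the position of the two coordinates w.r.t. the thresholds -/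
def PvmjGrid (c u : ℂ) (Tx Ty : Set ℝ) (F : Set ℂ) : Prop :=
  ∀ v v', PvmjSame Tx (pvmjS c u v) (pvmjS c u v') → PvmjSame Ty (pvmjL c u v) (pvmjL c u v') → (v ∈ F ↔ v' ∈ F)

theorem pvmj_eqns_cite : True := by
  have := @PvmjSame.eq_1; have := @pvmjS.eq_1; have := @pvmjL.eq_1; have := @PvmjGrid.eq_1
  trivial

section frame

variable {c u : ℂ} {Tx Ty : Set ℝ}

theorem pvmj_sq (hu : ‖u‖ = 1) (c v v' : ℂ) : ‖v - v'‖ ^ 2 = (pvmjS c u v - pvmjS c u v') ^ 2 + (pvmjL c u v - pvmjL c u v') ^ 2 := by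
  have h1 : ‖(v - v') * (starRingEnd ℂ) u‖ = ‖v - v'‖ := by rw [norm_mul, Complex.norm_conj, hu, mul_one]
  have e1 : pvmjS c u v - pvmjS c u v' = ((v - v') * (starRingEnd ℂ) u).re := by
    unfold pvmjS
    rw [← Complex.sub_re]
    congr 1
    ring
  have e2 : pvmjL c u v - pvmjL c u v' = ((v - v') * (starRingEnd ℂ) u).im := by
    unfold pvmjL
    rw [← Complex.sub_im]
    congr 1
    ring
  rw [← h1, Complex.sq_norm, Complex.normSq_apply, e1, e2]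
  ring

theorem pvmj_S_le (hu : ‖u‖ = 1) (c v v' : ℂ) : |pvmjS c u v - pvmjS c u v'| ≤ ‖v - v'‖ := by
  have h := pvmj_sq hu c v v'
  refine abs_le_of_sq_le_sq ?_ (norm_nonneg _)
  nlinarith [sq_nonneg (pvmjL c u v - pvmjL c u v')]

theorem pvmj_L_le (hu : ‖u‖ = 1) (c v v' : ℂ) : |pvmjL c u v - pvmjL c u v'| ≤ ‖v - v'‖ := by
  have h := pvmj_sq hu c v v'
  refine abs_le_of_sq_le_sq ?_ (norm_nonneg _)
  nlinarith [sq_nonneg (pvmjS c u v - pvmjS c u v')]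

/-- the point with the coordinates `(x, y)` -/
theorem pvmj_pt (hu : ‖u‖ = 1) (c : ℂ) (x y : ℝ) : pvmjS c u (c + (⟨x, y⟩ : ℂ) * u) = x ∧ pvmjL c u (c + (⟨x, y⟩ : ℂ) * u) = y := by
  have e : (c + (⟨x, y⟩ : ℂ) * u - c) * (starRingEnd ℂ) u = ⟨x, y⟩ := by
    have h1 : u * (starRingEnd ℂ) u = 1 := by
      rw [Complex.mul_conj, Complex.normSq_eq_norm_sq, hu]
      norm_num
    calc (c + (⟨x, y⟩ : ℂ) * u - c) * (starRingEnd ℂ) u = (⟨x, y⟩ : ℂ) * (u * (starRingEnd ℂ) u) := by ring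
      _ = _ := by rw [h1, mul_one]
  unfold pvmjS pvmjL
  rw [e]
  exact ⟨rfl, rfl⟩

theorem PvmjGrid.compl {F : Set ℂ} (h : PvmjGrid c u Tx Ty F) : PvmjGrid c u Tx Ty Fᶜ := fun v v' h1 h2 => not_congr (h v v' h1 h2)

theorem PvmjGrid.union {F G : Set ℂ} (h : PvmjGrid c u Tx Ty F) (h' : PvmjGrid c u Tx Ty G) : PvmjGrid c u Tx Ty (F ∪ G) :=
  fun v v' h1 h2 => or_congr (h v v' h1 h2) (h' v v' h1 h2)

theorem PvmjGrid.inter {F G : Set ℂ} (h : PvmjGrid c u Tx Ty F) (h' : PvmjGrid c u Tx Ty G) : PvmjGrid c u Tx Ty (F ∩ G) :=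
  fun v v' h1 h2 => and_congr (h v v' h1 h2) (h' v v' h1 h2)

theorem PvmjGrid.diff {F G : Set ℂ} (h : PvmjGrid c u Tx Ty F) (h' : PvmjGrid c u Tx Ty G) : PvmjGrid c u Tx Ty (F \ G) :=
  fun v v' h1 h2 => and_congr (h v v' h1 h2) (not_congr (h' v v' h1 h2))

theorem PvmjGrid.iUnion {ι : Sort*} {F : ι → Set ℂ} (h : ∀ i, PvmjGrid c u Tx Ty (F i)) : PvmjGrid c u Tx Ty (⋃ i, F i) := fun v v' h1 h2 => by
  simp only [mem_iUnion]
  exact exists_congr fun i => h i v v' h1 h2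

theorem PvmjGrid.mono {Tx' Ty' : Set ℝ} {F : Set ℂ} (h : PvmjGrid c u Tx Ty F) (hx : Tx ⊆ Tx') (hy : Ty ⊆ Ty') : PvmjGrid c u Tx' Ty' F :=
  fun v v' h1 h2 => h v v' (fun θ hθ => h1 θ (hx hθ)) (fun θ hθ => h2 θ (hy hθ))

theorem pvmj_grid_univ (c u : ℂ) (Tx Ty : Set ℝ) : PvmjGrid c u Tx Ty univ := fun _ _ _ _ => Iff.rfl
theorem pvmj_grid_empty (c u : ℂ) (Tx Ty : Set ℝ) : PvmjGrid c u Tx Ty ∅ := fun _ _ _ _ => Iff.rfl

theorem pvmj_grid_S_lt (c u : ℂ) (Ty : Set ℝ) {θ : ℝ} (hθ : θ ∈ Tx) : PvmjGrid c u Tx Ty {v | pvmjS c u v < θ} := fun _ _ h1 _ => (h1 θ hθ).1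
theorem pvmj_grid_S_le (c u : ℂ) (Ty : Set ℝ) {θ : ℝ} (hθ : θ ∈ Tx) : PvmjGrid c u Tx Ty {v | pvmjS c u v ≤ θ} := fun _ _ h1 _ => (h1 θ hθ).2
theorem pvmj_grid_S_gt (c u : ℂ) (Ty : Set ℝ) {θ : ℝ} (hθ : θ ∈ Tx) : PvmjGrid c u Tx Ty {v | θ < pvmjS c u v} := fun v v' h1 _ => by
  simp only [mem_ofPred_eq, ← not_le]
  exact not_congr (h1 θ hθ).2
theorem pvmj_grid_S_ge (c u : ℂ) (Ty : Set ℝ) {θ : ℝ} (hθ : θ ∈ Tx) : PvmjGrid c u Tx Ty {v | θ ≤ pvmjS c u v} := fun v v' h1 _ => by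
  simp only [mem_ofPred_eq, ← not_lt]
  exact not_congr (h1 θ hθ).1
theorem pvmj_grid_L_lt (c u : ℂ) (Tx : Set ℝ) {θ : ℝ} (hθ : θ ∈ Ty) : PvmjGrid c u Tx Ty {v | pvmjL c u v < θ} := fun _ _ _ h2 => (h2 θ hθ).1
theorem pvmj_grid_L_le (c u : ℂ) (Tx : Set ℝ) {θ : ℝ} (hθ : θ ∈ Ty) : PvmjGrid c u Tx Ty {v | pvmjL c u v ≤ θ} := fun _ _ _ h2 => (h2 θ hθ).2
theorem pvmj_grid_L_gt (c u : ℂ) (Tx : Set ℝ) {θ : ℝ} (hθ : θ ∈ Ty) : PvmjGrid c u Tx Ty {v | θ < pvmjL c u v} := fun v v' _ h2 => by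
  simp only [mem_ofPred_eq, ← not_le]
  exact not_congr (h2 θ hθ).2
theorem pvmj_grid_L_ge (c u : ℂ) (Tx : Set ℝ) {θ : ℝ} (hθ : θ ∈ Ty) : PvmjGrid c u Tx Ty {v | θ ≤ pvmjL c u v} := fun v v' _ h2 => by
  simp only [mem_ofPred_eq, ← not_lt]
  exact not_congr (h2 θ hθ).1

/-- closed strip -/
theorem pvmj_grid_S_abs_le (c u : ℂ) (Ty : Set ℝ) {a r : ℝ} (h1 : a - r ∈ Tx) (h2 : a + r ∈ Tx) : PvmjGrid c u Tx Ty {v | |pvmjS c u v - a| ≤ r} := by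
  have e : {v | |pvmjS c u v - a| ≤ r} = {v | a - r ≤ pvmjS c u v} ∩ {v | pvmjS c u v ≤ a + r} := by
    ext v
    simp only [mem_ofPred_eq, mem_inter_iff, abs_le]
    constructor
    · rintro ⟨h3, h4⟩; exact ⟨by linarith, by linarith⟩
    · rintro ⟨h3, h4⟩; exact ⟨by linarith, by linarith⟩
  rw [e]
  exact (pvmj_grid_S_ge c u Ty h1).inter (pvmj_grid_S_le c u Ty h2)

/-- open strip -/
theorem pvmj_grid_S_abs_lt (c u : ℂ) (Ty : Set ℝ) {a r : ℝ} (h1 : a - r ∈ Tx) (h2 : a + r ∈ Tx) : PvmjGrid c u Tx Ty {v | |pvmjS c u v - a| < r} := by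
  have e : {v | |pvmjS c u v - a| < r} = {v | a - r < pvmjS c u v} ∩ {v | pvmjS c u v < a + r} := by
    ext v
    simp only [mem_ofPred_eq, mem_inter_iff, abs_lt]
    constructor
    · rintro ⟨h3, h4⟩; exact ⟨by linarith, by linarith⟩
    · rintro ⟨h3, h4⟩; exact ⟨by linarith, by linarith⟩
  rw [e]
  exact (pvmj_grid_S_gt c u Ty h1).inter (pvmj_grid_S_lt c u Ty h2)

theorem pvmj_grid_L_abs_le (c u : ℂ) (Tx : Set ℝ) {a r : ℝ} (h1 : a - r ∈ Ty) (h2 : a + r ∈ Ty) : PvmjGrid c u Tx Ty {v | |pvmjL c u v - a| ≤ r} := by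
  have e : {v | |pvmjL c u v - a| ≤ r} = {v | a - r ≤ pvmjL c u v} ∩ {v | pvmjL c u v ≤ a + r} := by
    ext v
    simp only [mem_ofPred_eq, mem_inter_iff, abs_le]
    constructor
    · rintro ⟨h3, h4⟩; exact ⟨by linarith, by linarith⟩
    · rintro ⟨h3, h4⟩; exact ⟨by linarith, by linarith⟩
  rw [e]
  exact (pvmj_grid_L_ge c u Tx h1).inter (pvmj_grid_L_le c u Tx h2)

theorem pvmj_grid_L_abs_lt (c u : ℂ) (Tx : Set ℝ) {a r : ℝ} (h1 : a - r ∈ Ty) (h2 : a + r ∈ Ty) : PvmjGrid c u Tx Ty {v | |pvmjL c u v - a| < r} := by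
  have e : {v | |pvmjL c u v - a| < r} = {v | a - r < pvmjL c u v} ∩ {v | pvmjL c u v < a + r} := by
    ext v
    simp only [mem_ofPred_eq, mem_inter_iff, abs_lt]
    constructor
    · rintro ⟨h3, h4⟩; exact ⟨by linarith, by linarith⟩
    · rintro ⟨h3, h4⟩; exact ⟨by linarith, by linarith⟩
  rw [e]
  exact (pvmj_grid_L_gt c u Tx h1).inter (pvmj_grid_L_lt c u Tx h2)

/-! ## 3. the point of the grid -/

/-- **THE GRID LEMMA**: thresholds `4 μ / 5` apart.   Every `w` has a neighbour `w'` whose `μ/3`-ball is inside or disjoint from EVERY grid set -/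
theorem pvmj_grid_pt (hu : ‖u‖ = 1) {μ : ℝ} (hμ : 0 < μ) (hTx : ∀ θ ∈ Tx, ∀ θ' ∈ Tx, θ ≠ θ' → 4 * μ / 5 ≤ |θ - θ'|) (hTy : ∀ θ ∈ Ty, ∀ θ' ∈ Ty, θ ≠ θ' → 4 * μ / 5 ≤ |θ - θ'|) (c w : ℂ) :
    ∃ w', ‖w - w'‖ ≤ 17 * μ / 30 ∧ ∀ F, PvmjGrid c u Tx Ty F → ∀ v ∈ closedBall w' (μ / 3), (v ∈ F ↔ w' ∈ F) := by
  have hr : (0 : ℝ) ≤ 2 * μ / 5 := by positivity
  obtain ⟨x', a1, a2⟩ := pvmj_avoid hr (fun θ h θ' h' e => by have := hTx θ h θ' h' e; linarith) (pvmjS c u w)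
  obtain ⟨y', b1, b2⟩ := pvmj_avoid hr (fun θ h θ' h' e => by have := hTy θ h θ' h' e; linarith) (pvmjL c u w)
  obtain ⟨e1, e2⟩ := pvmj_pt hu c x' y'
  refine ⟨c + (⟨x', y'⟩ : ℂ) * u, ?_, fun F hF v hv => ?_⟩
  · have h := pvmj_sq hu c w (c + (⟨x', y'⟩ : ℂ) * u)
    rw [e1, e2] at h
    have s1 : (pvmjS c u w - x') ^ 2 ≤ (2 * μ / 5) ^ 2 := sq_le_sq' (by linarith [(abs_le.1 a1).1]) (abs_le.1 a1).2
    have s2 : (pvmjL c u w - y') ^ 2 ≤ (2 * μ / 5) ^ 2 := sq_le_sq' (by linarith [(abs_le.1 b1).1]) (abs_le.1 b1).2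
    refine le_of_abs_le (abs_le_of_sq_le_sq ?_ (by positivity))
    nlinarith [sq_nonneg μ]
  · rw [mem_closedBall_iff_norm] at hv
    have hlt : μ / 3 < 2 * μ / 5 := by linarith
    refine hF v _ (pvmj_same hlt (by rw [e1]; exact a2) ((pvmj_S_le hu c v _).trans hv)) (pvmj_same hlt (by rw [e2]; exact b2) ((pvmj_L_le hu c v _).trans hv))

/-! ## 4. the seam of a union of grid sets -/

/-- **THE SEAM**: the window lies in a union of grid sets, each with the mesh `μ/3` -/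
theorem pvmj_seam (hu : ‖u‖ = 1) {μ : ℝ} (hμ : 0 < μ) (hTx : ∀ θ ∈ Tx, ∀ θ' ∈ Tx, θ ≠ θ' → 4 * μ / 5 ≤ |θ - θ'|) (hTy : ∀ θ ∈ Ty, ∀ θ' ∈ Ty, θ ≠ θ' → 4 * μ / 5 ≤ |θ - θ'|)
    {ι : Type*} {F : ι → Set ℂ} (hF : ∀ i, PvmjGrid c u Tx Ty (F i)) {Wn Y : Set ℂ} (hW : Wn ⊆ ⋃ i, F i) (hm : ∀ i, PvtrMesh (μ / 3) (F i) Y) : PvtrMesh μ Wn Y := by
  refine pvmj_glue (ρ := fun _ => μ / 3) hm fun w hw => ?_
  obtain ⟨w', h1, h2⟩ := pvmj_grid_pt hu hμ hTx hTy c w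
  have hw' : w' ∈ Wn := hw (by rw [mem_closedBall_iff_norm, norm_sub_rev]; linarith)
  obtain ⟨i, hi⟩ := mem_iUnion.1 (hW hw')
  exact ⟨i, w', fun v hv => (h2 _ (hF i) v hv).2 hi, by linarith⟩

/-! ## 5. the seam with a kept part and a mouth ball -/

/-- a point within `rM + μ - 2 ρ₀` of the centre of a ball of radius `rM` is within `μ - ρ₀` of a point `ρ₀`-deep in the ball -/
theorem pvmj_pull {Yc w : ℂ} {rM μ ρ₀ : ℝ} (h0 : ρ₀ ≤ rM) (hμ : ρ₀ ≤ μ) (h : ‖w - Yc‖ ≤ rM + μ - 2 * ρ₀) : ∃ w', ‖w - w'‖ ≤ μ - ρ₀ ∧ ‖w' - Yc‖ ≤ rM - ρ₀ := by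
  by_cases h1 : ‖w - Yc‖ ≤ rM - ρ₀
  · exact ⟨w, by simpa using hμ, h1⟩
  · push Not at h1
    have hn : 0 < ‖w - Yc‖ := lt_of_le_of_lt (by linarith) h1
    obtain ⟨t, ht⟩ : ∃ t : ℝ, t = (rM - ρ₀) / ‖w - Yc‖ := ⟨_, rfl⟩
    have ht0 : 0 ≤ t := by rw [ht]; exact div_nonneg (by linarith) hn.le
    have ht1 : t ≤ 1 := by rw [ht, div_le_one hn]; exact h1.le
    have htn : t * ‖w - Yc‖ = rM - ρ₀ := by rw [ht]; field_simp
    refine ⟨Yc + (t : ℂ) * (w - Yc), ?_, ?_⟩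
    · have e : w - (Yc + (t : ℂ) * (w - Yc)) = ((1 - t : ℝ) : ℂ) * (w - Yc) := by push_cast; ring
      rw [e, norm_mul, Complex.norm_real, Real.norm_of_nonneg (by linarith)]
      nlinarith
    · rw [add_sub_cancel_left, norm_mul, Complex.norm_real, Real.norm_of_nonneg ht0, htn]

/-- **THE SEAM WITH A KEPT PART AND A MOUTH BALL**.      Pieces `F i` (tile, plug regions): disjoint from the mouth ball, equal to the grid set `G i` off the ball, with the mesh `μ/3` of the final sites `Y₂`;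
off the pieces the final sites of the window are the base sites `Y₀`, which have the mesh `ρ₀ ≤ μ/20` on `Bg ⊇ Wn`.      NO SHAPE OF THE WINDOW IS USED. -/
theorem pvmj_seam_kept (hu : ‖u‖ = 1) {μ ρ₀ : ℝ} (hμ : 0 < μ) (h20 : 20 * ρ₀ ≤ μ) (hTx : ∀ θ ∈ Tx, ∀ θ' ∈ Tx, θ ≠ θ' → 4 * μ / 5 ≤ |θ - θ'|) (hTy : ∀ θ ∈ Ty, ∀ θ' ∈ Ty, θ ≠ θ' → 4 * μ / 5 ≤ |θ - θ'|)
    {Yc : ℂ} {rM : ℝ} (hrM : ρ₀ ≤ rM) {ι : Type*} {F G : ι → Set ℂ} (hG : ∀ i, PvmjGrid c u Tx Ty (G i)) (hFB : ∀ i, Disjoint (F i) (closedBall Yc rM))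
    (hFG : ∀ i, ∀ v, v ∉ closedBall Yc rM → (v ∈ F i ↔ v ∈ G i)) {Wn Bg Y₀ Y₂ : Set ℂ} (hBg : Wn ⊆ Bg) (h0 : PvtrMesh ρ₀ Bg Y₀)
    (hkept : ∀ z ∈ Wn, (∀ i, z ∉ F i) → (z ∈ Y₂ ↔ z ∈ Y₀)) (hm : ∀ i, PvtrMesh (μ / 3) (F i) Y₂) : PvtrMesh μ Wn Y₂ := by
  intro w hw
  have hsub : ∀ {w' : ℂ} {ρ : ℝ}, ‖w - w'‖ ≤ μ - ρ → closedBall w' ρ ⊆ Wn := by
    intro w' ρ h1 v hv
    refine hw ?_
    rw [mem_closedBall_iff_norm] at hv ⊢
    calc ‖v - w‖ = ‖(v - w') - (w - w')‖ := by ring_nf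
      _ ≤ ‖v - w'‖ + ‖w - w'‖ := norm_sub_le _ _
      _ ≤ μ := by linarith
  -- the kept case: a ball off all the pieces
  have kept : ∀ {w' : ℂ} {ρ : ℝ}, ρ₀ ≤ ρ → ‖w - w'‖ ≤ μ - ρ → (∀ i, ∀ v ∈ closedBall w' ρ, v ∉ F i) → ∃ x ∈ Y₂, ‖w - x‖ ≤ μ := by
    intro w' ρ h1 h2 h3
    obtain ⟨x, hx, h4⟩ := pvmj_mesh_mono h1 h0 w' ((hsub h2).trans hBg)
    have hxb : x ∈ closedBall w' ρ := by rw [mem_closedBall_iff_norm, norm_sub_rev]; exact h4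
    refine ⟨x, (hkept x (hsub h2 hxb) fun i => h3 i x hxb).2 hx, ?_⟩
    calc ‖w - x‖ = ‖(w - w') + (w' - x)‖ := by ring_nf
      _ ≤ ‖w - w'‖ + ‖w' - x‖ := norm_add_le _ _
      _ ≤ μ := by linarith
  by_cases hA : ‖w - Yc‖ ≤ rM + μ - 2 * ρ₀
  · -- pull inside the mouth ball
    obtain ⟨w', h1, h2⟩ := pvmj_pull hrM (by linarith) hA
    refine kept le_rfl h1 fun i v hv hF => disjoint_left.1 (hFB i) hF ?_
    rw [mem_closedBall_iff_norm] at hv ⊢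
    calc ‖v - Yc‖ = ‖(v - w') + (w' - Yc)‖ := by ring_nf
      _ ≤ ‖v - w'‖ + ‖w' - Yc‖ := norm_add_le _ _
      _ ≤ rM := by linarith
  · push Not at hA
    obtain ⟨w', h1, h2⟩ := pvmj_grid_pt hu hμ hTx hTy c w
    have hoff : ∀ v ∈ closedBall w' (μ / 3), v ∉ closedBall Yc rM := by
      intro v hv hc
      rw [mem_closedBall_iff_norm] at hv hc
      have : ‖w - Yc‖ ≤ ‖w - w'‖ + ‖v - w'‖ + ‖v - Yc‖ := by
        calc ‖w - Yc‖ = ‖(w - w') - (v - w') + (v - Yc)‖ := by ring_nf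
          _ ≤ ‖(w - w') - (v - w')‖ + ‖v - Yc‖ := norm_add_le _ _
          _ ≤ ‖w - w'‖ + ‖v - w'‖ + ‖v - Yc‖ := by gcongr; exact norm_sub_le _ _
      linarith
    by_cases hi : ∃ i, w' ∈ G i
    · obtain ⟨i, hi⟩ := hi
      obtain ⟨x, hx, h4⟩ := hm i w' fun v hv => (hFG i v (hoff v hv)).2 ((h2 _ (hG i) v hv).2 hi)
      refine ⟨x, hx, ?_⟩
      calc ‖w - x‖ = ‖(w - w') + (w' - x)‖ := by ring_nf
        _ ≤ ‖w - w'‖ + ‖w' - x‖ := norm_add_le _ _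
        _ ≤ μ := by linarith
    · push Not at hi
      exact kept (by linarith) (by linarith) fun i v hv hF => hi i ((h2 _ (hG i) v hv).1 ((hFG i v (hoff v hv)).1 hF))

/-- two pieces: the tile `K` and the plug region `D`, in the hypotheses of `PvrgDet` of 256 -/
theorem pvmj_seam_KD (hu : ‖u‖ = 1) {μ ρ₀ : ℝ} (hμ : 0 < μ) (h20 : 20 * ρ₀ ≤ μ) (hTx : ∀ θ ∈ Tx, ∀ θ' ∈ Tx, θ ≠ θ' → 4 * μ / 5 ≤ |θ - θ'|) (hTy : ∀ θ ∈ Ty, ∀ θ' ∈ Ty, θ ≠ θ' → 4 * μ / 5 ≤ |θ - θ'|)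
    {Yc : ℂ} {rM : ℝ} (hrM : ρ₀ ≤ rM) {K D Ra : Set ℂ} (hRa : PvmjGrid c u Tx Ty Ra) (hD : PvmjGrid c u Tx Ty D) (hK : K = (Ra \ closedBall Yc rM) \ D) (hDB : Disjoint D (closedBall Yc rM))
    {Wn Bg Y₀ Y₂ : Set ℂ} (hBg : Wn ⊆ Bg) (h0 : PvtrMesh ρ₀ Bg Y₀) (hkept : ∀ z ∈ Wn, z ∉ K → z ∉ D → (z ∈ Y₂ ↔ z ∈ Y₀))
    (hmK : PvtrMesh (μ / 3) K Y₂) (hmD : PvtrMesh (μ / 3) D Y₂) : PvtrMesh μ Wn Y₂ := by
  refine pvmj_seam_kept (c := c) (Yc := Yc) (ι := Bool) (F := fun b => if b then K else D) (G := fun b => if b then Ra \ D else D) hu hμ h20 hTx hTy hrM ?_ ?_ ?_ hBg h0 ?_ ?_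
  · rintro (_ | _)
    · exact hD
    · exact hRa.diff hD
  · rintro (_ | _)
    · exact hDB
    · refine disjoint_left.2 fun v hv hc => ?_
      have hv' : v ∈ K := hv
      rw [hK] at hv'
      exact hv'.1.2 hc
  · rintro (_ | _) v hv
    · exact Iff.rfl
    · show v ∈ K ↔ v ∈ Ra \ D
      rw [hK]
      exact ⟨fun h => ⟨h.1.1, h.2⟩, fun h => ⟨⟨h.1, hv⟩, h.2⟩⟩
  · exact fun z hz h => hkept z hz (h true) (h false)
  · rintro (_ | _)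
    · exact hmD
    · exact hmK

end frame

end Claimed.Agent.R289
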