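-- KEEP
import Claimed.Agent.R289.Exit.FrcR
import Claimed.Agent.R289.Exit.RoomRE
import Claimed.Agent.R289.Tr.FrcFun
import Claimed.Agent.R289.Tr.FrcFunS
import Claimed.Agent.R289.Tr.PlugFrcT
import Claimed.Agent.R289.Tr.MeshG
import Claimed.Agent.R289.Tr.RegT
import Claimed.Agent.R289.Tr.CellChainM

/-!
# Row 289 (S0537), THE WALL, ROAD E, E10, file Tr/FrcRG : **THE r-LINK, THE SIDE OF THE REGIONS** (order of 233, 13:37Z: no second net; net = 278 `Tr/FrcFun`)      (helper262; prefix `pvr4_`, `pvr4`, `Pvr4`)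

GENERIC in `(s, μ, N, M)`: fine side `s`, fine mesh `μ ≤ s / 3`, door plug `pvkdP (8 s)` at `(-(M s), 1)`, reference plug `pvkdP (8 N s)` at `(0, 1)`, block `[-(M s), M s]²`, `1 ≤ N`, `44 (N + 1) < M`, `60 N + 15 ≤ M`.
(Instance: `s = δ_m / 320`, `N = 2 g`, `M = 160 g`, `Δ = g δ`.)
* sec. 1  the regions: `pvr4Z` (door), `pvr4O`, `pvr4O'` (open squares `26 s`, `26 N s`), `pvr4H` (west half of the closed block), `pvr4Et` (tile), `pvr4W` (window, in the order of `pvilWnr`), `pvr4T`, `pvr4T'` (hulls of the windows of the two side events),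
          room of the run `KE := pverRY (8 s) u₁ (2 M s)` of 166 (`Exit/RoomRE`), ANY cut `u₁` with `0 < u₁`, `u₁ / 4 + 4 μ ≤ 4 N s`
* sec. 2  `pvr4_mO mO' sq_O sq_O' T_dj mEt bEt dEt T_W T'_W` | **`pvr4_seam`** (`pvmj_seam` of 206 on the grid `ℤ s`)
* sec. 4  **`pvr4Lam s μ u₁ N M 𝔯 𝔯' Lp Lm : Pvr2Lay`**, **`pvr4_ok`** : `PvuiFit s N M 𝔯 𝔯'` (278) + numbers + `wf wf' is is'` + `𝔯.E ⊆ pvr4T s M`, `𝔯'.E ⊆ pvr4T' s N` ⟹ `(pvr4Lam ..).Ok`
* sec. 3  over `PvuiPar` of 278: **`pvr4_geo`** (`PvdtGeo`, `pvrt_star`), `pvr4_hull2` (the carrier in TWO rectangles: the neck of the room is narrow), `pvr4_in2`, **`pvr4_lay`** (`PvdtLay` at `E := pvr4W`, `KE := pverRY ..`)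
-/

set_option autoImplicit false
set_option linter.unusedSectionVars false
set_option linter.unusedVariables false

namespace Claimed.Agent.R289

open Set Metric

/-! ## 1. the regions -/

/-- the door -/
noncomputable def pvr4Z (s : ℝ) (M : ℤ) : ℂ := ((-((M : ℝ) * s) : ℝ) : ℂ)

/-- the state region of the door plug -/
noncomputable def pvr4O (s : ℝ) (M : ℤ) : Set ℂ := pvccSq (pvr4Z s M) (26 * s)

/-- the state region of the reference plug -/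
noncomputable def pvr4O' (s : ℝ) (N : ℤ) : Set ℂ := pvccSq 0 (26 * ((N : ℝ) * s))

/-- the west half of the closed block -/
def pvr4H (s : ℝ) (M : ℤ) : Set ℂ := {w | -((M : ℝ) * s) ≤ w.re ∧ w.re < 0 ∧ -((M : ℝ) * s) ≤ w.im ∧ w.im ≤ (M : ℝ) * s}

/-- the tile -/
noncomputable def pvr4Et (s : ℝ) (N M : ℤ) : Set ℂ := (pvr4H s M \ pvr4O' s N) \ pvr4O s M

/-- the window, in the order of `pvilWnr` -/
noncomputable def pvr4W (s : ℝ) (N M : ℤ) : Set ℂ := pvr4Et s N M ∪ pvr4O' s N ∪ pvr4O s M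

/-- hull of the window of the exit side event of the door plug -/
noncomputable def pvr4T (s : ℝ) (M : ℤ) : Set ℂ := pvr4O s M ∪ rswRect (-((M : ℝ) * s)) (-((M : ℝ) * s) + 44 * s) (-(20 * s)) (20 * s)

/-- hull of the window of the entrance side event of the reference plug -/
noncomputable def pvr4T' (s : ℝ) (N : ℤ) : Set ℂ := pvr4O' s N ∪ rswRect (-(44 * ((N : ℝ) * s))) 0 (-(20 * ((N : ℝ) * s))) (20 * ((N : ℝ) * s))

theorem pvr4_eqns_cite : True := by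
  have := @pvr4Z.eq_1; have := @pvr4O.eq_1; have := @pvr4O'.eq_1; have := @pvr4H.eq_1; have := @pvr4Et.eq_1; have := @pvr4W.eq_1; have := @pvr4T.eq_1; have := @pvr4T'.eq_1
  trivial

/-! ## 2. measurability, inclusions, the seam -/

section basic

variable {s μ : ℝ} {N M : ℤ}

theorem pvr4_Z_re (s : ℝ) (M : ℤ) : (pvr4Z s M).re = -((M : ℝ) * s) := Complex.ofReal_re _
theorem pvr4_Z_im (s : ℝ) (M : ℤ) : (pvr4Z s M).im = 0 := Complex.ofReal_im _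

theorem pvr4_mem_O {w : ℂ} : w ∈ pvr4O s M ↔ (-((M : ℝ) * s) - 26 * s < w.re ∧ w.re < -((M : ℝ) * s) + 26 * s) ∧ (-(26 * s) < w.im ∧ w.im < 26 * s) := by
  unfold pvr4O
  rw [pvccm_mem_sq, pvr4_Z_re, pvr4_Z_im, zero_sub, zero_add]

theorem pvr4_mem_O' {w : ℂ} : w ∈ pvr4O' s N ↔ (-(26 * ((N : ℝ) * s)) < w.re ∧ w.re < 26 * ((N : ℝ) * s)) ∧ (-(26 * ((N : ℝ) * s)) < w.im ∧ w.im < 26 * ((N : ℝ) * s)) := by
  unfold pvr4O'
  rw [pvccm_mem_sq, Complex.zero_re, Complex.zero_im, zero_sub, zero_add]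

theorem pvr4_H_sub_W (s : ℝ) (N M : ℤ) : pvr4H s M ⊆ pvr4W s N M := by
  intro w hw
  by_cases h1 : w ∈ pvr4O s M
  · exact Or.inr h1
  by_cases h2 : w ∈ pvr4O' s N
  · exact Or.inl (Or.inr h2)
  exact Or.inl (Or.inl ⟨⟨hw, h2⟩, h1⟩)

/-- products with `s` -/
theorem pvr4_prod (hs : 0 < s) (hN : 1 ≤ N) (hM : 44 * (N + 1) < M) : s ≤ (N : ℝ) * s ∧ 44 * ((N : ℝ) * s) + 45 * s ≤ (M : ℝ) * s := by
  have h1 : (1 : ℝ) ≤ N := by exact_mod_cast hN
  have h2 : 44 * ((N : ℝ) + 1) + 1 ≤ M := by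
    have : 44 * (N + 1) + 1 ≤ M := hM
    exact_mod_cast this
  constructor
  · nlinarith
  · nlinarith

theorem pvr4_mO (s : ℝ) (M : ℤ) : MeasurableSet (pvr4O s M) := pvccm_sq_meas _ _
theorem pvr4_mO' (s : ℝ) (N : ℤ) : MeasurableSet (pvr4O' s N) := pvccm_sq_meas _ _

theorem pvr4_mH (s : ℝ) (M : ℤ) : MeasurableSet (pvr4H s M) := by
  have h1 : MeasurableSet {w : ℂ | -((M : ℝ) * s) ≤ w.re} := (isClosed_le continuous_const Complex.continuous_re).measurableSet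
  have h2 : MeasurableSet {w : ℂ | w.re < 0} := (isOpen_lt Complex.continuous_re continuous_const).measurableSet
  have h3 : MeasurableSet {w : ℂ | -((M : ℝ) * s) ≤ w.im} := (isClosed_le continuous_const Complex.continuous_im).measurableSet
  have h4 : MeasurableSet {w : ℂ | w.im ≤ (M : ℝ) * s} := (isClosed_le Complex.continuous_im continuous_const).measurableSet
  exact h1.inter (h2.inter (h3.inter h4))

theorem pvr4_mEt (s : ℝ) (N M : ℤ) : MeasurableSet (pvr4Et s N M) := ((pvr4_mH s M).diff (pvr4_mO' s N)).diff (pvr4_mO s M)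

theorem pvr4_mW (s : ℝ) (N M : ℤ) : MeasurableSet (pvr4W s N M) := ((pvr4_mEt s N M).union (pvr4_mO' s N)).union (pvr4_mO s M)

theorem pvr4_bEt (s : ℝ) (N M : ℤ) : Bornology.IsBounded (pvr4Et s N M) :=
  (pvjo_t_rect_bdd (-((M : ℝ) * s)) 0 (-((M : ℝ) * s)) ((M : ℝ) * s)).subset fun w hw => ⟨hw.1.1.1, hw.1.1.2.1.le, hw.1.1.2.2.1, hw.1.1.2.2.2⟩

theorem pvr4_dEt (s : ℝ) (N M : ℤ) : Disjoint (pvr4Et s N M) (pvr4O s M ∪ pvr4O' s N) :=
  Set.disjoint_left.2 fun w hw h => h.elim hw.2 hw.1.2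

/-- the window of the door plug is frozen -/
theorem pvr4_sq_O (hs : 0 < s) (M : ℤ) : pvwSq (pvr4Z s M) (3 * (8 * s)) ⊆ pvr4O s M := by
  rintro w ⟨h1, h2⟩
  rw [abs_le, Complex.sub_re, pvr4_Z_re] at h1
  rw [abs_le, Complex.sub_im, pvr4_Z_im] at h2
  rw [pvr4_mem_O]
  exact ⟨⟨by linarith [h1.1], by linarith [h1.2]⟩, by linarith [h2.1], by linarith [h2.2]⟩

/-- the window of the reference plug is frozen -/
theorem pvr4_sq_O' (hs : 0 < s) (hN : 1 ≤ N) : pvwSq 0 (3 * (8 * ((N : ℝ) * s))) ⊆ pvr4O' s N := by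
  have h0 : 0 < (N : ℝ) * s := mul_pos (by exact_mod_cast (by omega : 0 < N)) hs
  rintro w ⟨h1, h2⟩
  rw [abs_le, sub_zero] at h1 h2
  rw [pvr4_mem_O']
  exact ⟨⟨by linarith [h1.1], by linarith [h1.2]⟩, by linarith [h2.1], by linarith [h2.2]⟩

/-- the two plugs with the windows of their side events are apart -/
theorem pvr4_T_dj (hs : 0 < s) (hN : 1 ≤ N) (hM : 44 * (N + 1) < M) : Disjoint (pvr4T s M) (pvr4T' s N) := by
  obtain ⟨a1, a2⟩ := pvr4_prod hs hN hM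
  have hl : ∀ w ∈ pvr4T s M, w.re ≤ -((M : ℝ) * s) + 44 * s := by
    rintro w (h | h)
    · rw [pvr4_mem_O] at h
      linarith [h.1.2]
    · exact h.2.1
  have hr : ∀ w ∈ pvr4T' s N, -(44 * ((N : ℝ) * s)) ≤ w.re := by
    rintro w (h | h)
    · rw [pvr4_mem_O'] at h
      linarith [h.1.1]
    · exact h.1
  rw [Set.disjoint_left]
  intro w h1 h2
  linarith [hl w h1, hr w h2]

theorem pvr4_T_W (hs : 0 < s) (hN : 1 ≤ N) (hM : 44 * (N + 1) < M) : pvr4T s M ⊆ pvr4W s N M := by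
  obtain ⟨a1, a2⟩ := pvr4_prod hs hN hM
  rintro w (h | h)
  · exact Or.inr h
  · exact pvr4_H_sub_W s N M ⟨h.1, by linarith [h.2.1], by linarith [h.2.2.1], by linarith [h.2.2.2]⟩

theorem pvr4_T'_W (hs : 0 < s) (hN : 1 ≤ N) (hM : 44 * (N + 1) < M) : pvr4T' s N ⊆ pvr4W s N M := by
  obtain ⟨a1, a2⟩ := pvr4_prod hs hN hM
  rintro w (h | h)
  · exact Or.inl (Or.inr h)
  · by_cases h0 : w.re < 0
    · exact pvr4_H_sub_W s N M ⟨by linarith [h.1], h0, by linarith [h.2.2.1], by linarith [h.2.2.2]⟩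
    · refine Or.inl (Or.inr ?_)
      rw [pvr4_mem_O']
      exact ⟨⟨by linarith, by linarith [h.2.1]⟩, by linarith [h.2.2.1], by linarith [h.2.2.2]⟩

/-! ### the seam -/

/-- the thresholds: the grid `ℤ s` -/
def pvr4Th (s : ℝ) : Set ℝ := Set.range fun k : ℤ => (k : ℝ) * s

theorem pvr4_eqns_cite2 : True := by
  have := @pvr4Th.eq_1
  trivial

theorem pvr4_th_apart (hs : 0 < s) (hμ : 4 * μ / 5 ≤ s) : ∀ θ ∈ pvr4Th s, ∀ θ' ∈ pvr4Th s, θ ≠ θ' → 4 * μ / 5 ≤ |θ - θ'| := by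
  rintro _ ⟨k, rfl⟩ _ ⟨k', rfl⟩ hne
  have hk : k ≠ k' := fun e => hne (by rw [e])
  have h1 : (1 : ℝ) ≤ |(k : ℝ) - k'| := by
    have : (1 : ℤ) ≤ |k - k'| := Int.one_le_abs (sub_ne_zero.2 hk)
    exact_mod_cast this
  have e : (k : ℝ) * s - (k' : ℝ) * s = ((k : ℝ) - k') * s := by ring
  simp only []
  rw [e, abs_mul, abs_of_pos hs]
  nlinarith

theorem pvr4_S (v : ℂ) : pvmjS 0 1 v = v.re := by simp [pvmjS]
theorem pvr4_L (v : ℂ) : pvmjL 0 1 v = v.im := by simp [pvmjL]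

theorem pvr4_grid_box {T : Set ℝ} {a b c d : ℝ} (ha : a ∈ T) (hb : b ∈ T) (hc : c ∈ T) (hd : d ∈ T) : PvmjGrid 0 1 T T {w : ℂ | (a < w.re ∧ w.re < b) ∧ (c < w.im ∧ w.im < d)} := by
  have h := (((pvmj_grid_S_gt (Tx := T) 0 1 T ha).inter (pvmj_grid_S_lt (Tx := T) 0 1 T hb)).inter ((pvmj_grid_L_gt (Ty := T) 0 1 T hc).inter (pvmj_grid_L_lt (Ty := T) 0 1 T hd)))
  simp only [pvr4_S, pvr4_L] at h
  exact h

theorem pvr4_grid_O (s : ℝ) (M : ℤ) : PvmjGrid 0 1 (pvr4Th s) (pvr4Th s) (pvr4O s M) := by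
  have e : pvr4O s M = {w : ℂ | (-((M : ℝ) * s) - 26 * s < w.re ∧ w.re < -((M : ℝ) * s) + 26 * s) ∧ (-(26 * s) < w.im ∧ w.im < 26 * s)} := by
    ext w; exact pvr4_mem_O
  rw [e]
  exact pvr4_grid_box ⟨-M - 26, by push_cast; ring⟩ ⟨-M + 26, by push_cast; ring⟩ ⟨-26, by push_cast; ring⟩ ⟨26, by push_cast; ring⟩

theorem pvr4_grid_O' (s : ℝ) (N : ℤ) : PvmjGrid 0 1 (pvr4Th s) (pvr4Th s) (pvr4O' s N) := by
  have e : pvr4O' s N = {w : ℂ | (-(26 * ((N : ℝ) * s)) < w.re ∧ w.re < 26 * ((N : ℝ) * s)) ∧ (-(26 * ((N : ℝ) * s)) < w.im ∧ w.im < 26 * ((N : ℝ) * s))} := by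
    ext w; exact pvr4_mem_O'
  rw [e]
  exact pvr4_grid_box ⟨-(26 * N), by push_cast; ring⟩ ⟨26 * N, by push_cast; ring⟩ ⟨-(26 * N), by push_cast; ring⟩ ⟨26 * N, by push_cast; ring⟩

theorem pvr4_grid_H (s : ℝ) (M : ℤ) : PvmjGrid 0 1 (pvr4Th s) (pvr4Th s) (pvr4H s M) := by
  have h := ((pvmj_grid_S_ge (Tx := pvr4Th s) 0 1 (pvr4Th s) (θ := -((M : ℝ) * s)) ⟨-M, by push_cast; ring⟩).inter
    ((pvmj_grid_S_lt (Tx := pvr4Th s) 0 1 (pvr4Th s) (θ := 0) ⟨0, by push_cast; ring⟩).inter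
      ((pvmj_grid_L_ge (Ty := pvr4Th s) 0 1 (pvr4Th s) (θ := -((M : ℝ) * s)) ⟨-M, by push_cast; ring⟩).inter
        (pvmj_grid_L_le (Ty := pvr4Th s) 0 1 (pvr4Th s) (θ := (M : ℝ) * s) ⟨M, rfl⟩))))
  simp only [pvr4_S, pvr4_L] at h
  exact h

theorem pvr4_grid_Et (s : ℝ) (N M : ℤ) : PvmjGrid 0 1 (pvr4Th s) (pvr4Th s) (pvr4Et s N M) := ((pvr4_grid_H s M).diff (pvr4_grid_O' s N)).diff (pvr4_grid_O s M)

/-- **THE SEAM** (field `seam` of `Pvr2Lay.Ok`) -/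
theorem pvr4_seam (hs : 0 < s) (hμ0 : 0 < μ) (hμ : μ ≤ s) (N M : ℤ) (Y : Set ℂ) (h1 : PvtrMesh (μ / 3) (pvr4O s M) Y) (h2 : PvtrMesh (μ / 3) (pvr4O' s N) Y) (h3 : PvtrMesh (μ / 3) (pvr4Et s N M) Y) :
    PvtrMesh μ (pvr4W s N M) Y := by
  have ha := pvr4_th_apart hs (μ := μ) (by linarith)
  refine pvmj_seam (c := 0) (u := 1) (Tx := pvr4Th s) (Ty := pvr4Th s) norm_one hμ0 ha ha (ι := Fin 3) (F := ![pvr4Et s N M, pvr4O' s N, pvr4O s M]) ?_ ?_ ?_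
  · intro i
    fin_cases i
    · exact pvr4_grid_Et s N M
    · exact pvr4_grid_O' s N
    · exact pvr4_grid_O s M
  · rintro w ((h | h) | h)
    · exact mem_iUnion.2 ⟨0, h⟩
    · exact mem_iUnion.2 ⟨1, h⟩
    · exact mem_iUnion.2 ⟨2, h⟩
  · intro i
    fin_cases i
    · exact h3
    · exact h2
    · exact h1

end basic

/-! ## 3. over the parameters of 278: the room, the collars, the layout of 294 -/

section par

variable {s μ u₁ : ℝ} {N M : ℤ} {r r' : ℝ} {z d z' d' : ℂ} {𝔱 𝔱' : PvhfTr}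

theorem pvr4_z_eq (H : PvuiPar s N M r r' z d z' d' 𝔱 𝔱') : z = pvr4Z s M := by
  apply Complex.ext
  · rw [H.zre, pvr4_Z_re]
  · rw [H.zim, pvr4_Z_im]

/-- **`PvdtGeo`** of the room `pverRY (8 s) u₁ (2 M s)` of 166 -/
theorem pvr4_geo (H : PvuiPar s N M r r' z d z' d' 𝔱 𝔱') (hu0 : 0 < u₁) (hu : u₁ / 4 ≤ 4 * ((N : ℝ) * s)) :
    PvdtGeo ((pvkdP r).pg z d) ((pvkdP r').pg z' d') (pverRY r u₁ (2 * ((M : ℝ) * s))) := by
  have hs := H.s0
  have hNs := H.Ns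
  have hMs := H.Ms
  have hr : r = 8 * s := H.hr
  have hr' : r' = 8 * ((N : ℝ) * s) := H.hr'
  have hcut : 2 * r + u₁ / 4 ≤ 2 * ((M : ℝ) * s) / 2 := by rw [hr]; linarith
  refine ⟨pver_RY_bdd _ _ _, pvrt_star (pver_RY_star (by rw [hr]; positivity) (by linarith) hcut) (pver_RY_bdd _ _ _), isBounded_ball, ?_, ?_, ?_⟩
  · -- the two outer discs
    rw [Set.disjoint_left]
    intro w h1 h2
    have h1' : w ∈ ball z (2 * r) := h1
    have h2' : w ∈ ball z' (2 * r') := h2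
    rw [mem_ball, dist_eq_norm] at h1' h2'
    have a1 := (abs_le.1 ((Complex.abs_re_le_norm (w - z)).trans h1'.le)).2
    have a2 := (abs_le.1 ((Complex.abs_re_le_norm (w - z')).trans h2'.le)).1
    rw [Complex.sub_re, H.zre] at a1
    rw [H.hz', sub_zero] at a2
    rw [hr] at a1
    rw [hr'] at a2
    linarith
  · -- `g⁻` of the door plug is behind the room
    rw [Set.disjoint_left]
    intro w h1 h2
    have h1' : w ∈ pvkdAt z d (rswRect (-(2 * r)) (-(r / 2)) (-(r / 2)) (r / 2)) := h1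
    rw [H.hd, pvkx_mem_at one_ne_zero, div_one] at h1'
    have a1 := h1'.2.1
    rw [Complex.sub_re, H.zre] at a1
    have a2 := pver_RY_front (by rw [hr]; positivity) h2
    rw [hr] at a1 a2
    linarith
  · -- `g⁺` of the reference plug is beyond the room
    rw [Set.disjoint_left]
    intro w h1 h2
    have h1' : w ∈ pvkdAt z' d' (rswRect (r' / 2) (2 * r') (-(r' / 2)) (r' / 2)) := h1
    rw [H.hd', H.hz', pvkx_mem_at one_ne_zero, div_one, sub_zero] at h1'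
    have a1 := h1'.1
    have a2 := pver_RY_back hcut h2
    rw [hr'] at a1
    linarith

/-- **THE HULL IN TWO RECTANGLES**: the thickened exit rooms of the door plug | the net and the thickened entrance rooms of the reference plug -/
theorem pvr4_hull2 (H : PvuiPar s N M r r' z d z' d' 𝔱 𝔱') {ρ : ℝ} (h0 : 0 ≤ ρ) (hρ : ρ ≤ s) (β : Bool) :
    vorNbd (pvkdAt z d (𝔱.Ln true β)) ρ ∪ pvlnU s (pvuiL N M β) ∪ vorNbd (pvkdAt z' d' (𝔱'.Ln false β)) ρ ⊆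
      rswRect (z.re + r / 2 - ρ) (z.re + 5 * r + ρ) (-(3 * r / 2 + ρ)) (3 * r / 2 + ρ) ∪ rswRect (z.re + 27 * s) (-(r' / 2) + ρ) (-(3 * r' / 2 + 2 * s)) (3 * r' / 2 + 2 * s) := by
  have hs := H.s0
  have hNs := H.Ns
  have hMs := H.Ms
  rw [H.zre, H.hr, H.hr']
  refine union_subset (union_subset ?_ ?_) ?_
  · rw [H.Ln, H.hd, H.hr]
    refine Subset.trans ?_ subset_union_left
    refine (pvui_nbd z s le_rfl true β).trans ?_
    refine (image_mono (pvui_A_box hs.le h0 β)).trans ?_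
    have e' : pvthSim z 1 '' rswRect (4 * s - ρ) (40 * s + ρ) (-(12 * s + ρ)) (12 * s + ρ) = pvkdAt z 1 (rswRect (4 * s - ρ) (40 * s + ρ) (-(12 * s + ρ)) (12 * s + ρ)) := rfl
    rw [e', pvr4_z_eq H, pvr4Z, pvui_at_rect]
    rintro w ⟨p, q, u, v⟩
    exact ⟨by linarith, by linarith, by linarith, by linarith⟩
  · intro w hw
    refine Or.inr ?_
    have h := pvui_U_box hs H.N1 H.M1 β hw
    cases β
    · obtain ⟨p, q, u, v⟩ := h
      exact ⟨by nlinarith, by nlinarith, by nlinarith, by nlinarith⟩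
    · obtain ⟨p, q, u, v⟩ := h
      exact ⟨by nlinarith, by nlinarith, by nlinarith, by nlinarith⟩
  · rw [H.Ln', H.hd', H.hr', H.hz']
    refine Subset.trans ?_ subset_union_right
    refine (pvui_nbd 0 _ le_rfl false β).trans ?_
    rw [pvui_at_zero]
    refine (pvui_A_box' (hs.le.trans hNs) h0 β).trans ?_
    rintro w ⟨p, q, u, v⟩
    exact ⟨by linarith, by linarith, by linarith, by linarith⟩

/-- the carrier with a collar `t`, two rectangles -/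
theorem pvr4_in2 (H : PvuiPar s N M r r' z d z' d' 𝔱 𝔱') {ρ t : ℝ} (h0 : 0 ≤ ρ) (hρ : ρ ≤ s) {E : Set ℂ}
    (hE₁ : rswRect (z.re + r / 2 - ρ - t) (z.re + 5 * r + ρ + t) (-(3 * r / 2 + ρ) - t) (3 * r / 2 + ρ + t) ⊆ E)
    (hE₂ : rswRect (z.re + 27 * s - t) (-(r' / 2) + ρ + t) (-(3 * r' / 2 + 2 * s) - t) (3 * r' / 2 + 2 * s + t) ⊆ E) (β : Bool) :
    ∀ w ∈ vorNbd (pvkdAt z d (𝔱.Ln true β)) ρ ∪ pvlnU s (pvuiL N M β) ∪ vorNbd (pvkdAt z' d' (𝔱'.Ln false β)) ρ, closedBall w t ⊆ E := by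
  intro w hw
  rcases pvr4_hull2 H h0 hρ β hw with h | h
  · exact (pvui_collar h).trans hE₁
  · exact (pvui_collar h).trans hE₂

/-- **THE LAYOUT OF 294** at the window `pvr4W`, in the room `pverRY (8 s) u₁ (2 M s)` -/
theorem pvr4_lay (H : PvuiPar s N M r r' z d z' d' 𝔱 𝔱') (hM2 : 60 * N + 15 ≤ M) (h0 : 0 < μ) (hμ : 3 * μ ≤ s) (hu0 : 0 < u₁) (hu : u₁ / 4 + 4 * μ ≤ 4 * ((N : ℝ) * s)) :
    PvdtLay μ (pvr4W s N M) ((pvkdP r).pg z d) ((pvkdP r').pg z' d') (pverRY r u₁ (2 * ((M : ℝ) * s))) s (pvuiL N M) (fun β => pvkdAt z d (𝔱.Ln true β)) (fun β => pvkdAt z' d' (𝔱'.Ln false β))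
      (fun β => pvkdAt z d (𝔱.Dr true β)) (fun β => pvkdAt z' d' (𝔱'.Dr false β)) where
  geo := pvr4_geo H hu0 (by linarith)
  ρ_pos := h0
  δ_pos := H.s0
  ne := pvui_L_ne H.N1 H.M1
  ch := pvui_L_ch H.N1 H.M1
  full := pvui_L_full H.N1 H.M1
  inE := by
    have hs := H.s0
    have hNs := H.Ns
    have hMs := H.Ms
    refine pvui_f_in H h0.le (by linarith) ?_
    rw [H.zre, H.hr, H.hr']
    rintro w ⟨p, q, u, v⟩
    exact pvr4_H_sub_W s N M ⟨by linarith, by linarith, by linarith, by linarith⟩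
  inK := by
    have hs := H.s0
    have hNs := H.Ns
    have hMs := H.Ms
    have hM2' : 60 * ((N : ℝ) * s) + 15 * s ≤ (M : ℝ) * s := by
      have : 60 * (N : ℝ) + 15 ≤ M := by exact_mod_cast hM2
      nlinarith
    refine pvr4_in2 H h0.le (by linarith) ?_ ?_
    · rw [H.zre, H.hr]
      rintro w ⟨p, q, u, v⟩
      exact pver_RY_door (by linarith) (by linarith) (by linarith) (by linarith) (abs_le.2 ⟨by linarith, by linarith⟩)
    · rw [H.zre, H.hr, H.hr']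
      rintro w ⟨p, q, u, v⟩
      exact Or.inr ⟨by linarith, by linarith, by linarith, by linarith⟩
  zone := pvui_f_zone H (by linarith)
  zone' := pvui_f_zone' H (by linarith)

/-- the windows of the walks lie in the window -/
theorem pvr4_win_W (H : PvuiPar s N M r r' z d z' d' 𝔱 𝔱') (β : Bool) : pvlnW s (pvuiL N M β) ⊆ pvr4W s N M := by
  have hs := H.s0
  have hNs := H.Ns
  have hMs := H.Ms
  intro w hw
  obtain ⟨p, q, u, v⟩ := pvui_win_box H β hw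
  rw [H.zre, H.hr] at p
  rw [H.hr'] at q u v
  exact pvr4_H_sub_W s N M ⟨by linarith, by linarith, by linarith, by linarith⟩

/-- the windows of the walks are off the two state regions -/
theorem pvr4_off (H : PvuiPar s N M r r' z d z' d' 𝔱 𝔱') (β : Bool) : Disjoint (pvlnW s (pvuiL N M β)) (pvr4O s M ∪ pvr4O' s N) := by
  refine pvui_f_off H β (fun w hw => ?_) (fun w hw => ?_)
  · rw [pvr4_mem_O] at hw
    rw [H.zre, H.hr]
    linarith [hw.1.2]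
  · rw [pvr4_mem_O'] at hw
    rw [H.hr']
    linarith [hw.1.1]

end par

/-! ## 4. the layout of 233 -/

/-- **THE LAYOUT OF THE r-LINK** (`𝔯 𝔯'` = the regions of the two sides, `Lp Lm` = the two side events, `u₁` = the cut of the room at the reference plug) -/
noncomputable def pvr4Lam (s μ u₁ : ℝ) (N M : ℤ) (𝔯 𝔯' : PvhfReg) (Lp Lm : Set (Conf PvPt)) : Pvr2Lay where
  𝔯 := 𝔯
  𝔯' := 𝔯'
  Lp := Lp
  Lm := Lm
  O := pvr4O s M
  O' := pvr4O' s N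
  s := s
  L := pvuiL N M
  K := pvuiK
  Et := pvr4Et s N M
  μ := μ
  W := pvr4W s N M
  KE := pverRY (8 * s) u₁ (2 * ((M : ℝ) * s))

theorem pvr4_eqns_cite3 : True := by
  have := @pvr4Lam.eq_1
  trivial

section ok

variable {s μ u₁ : ℝ} {N M : ℤ} {𝔯 𝔯' : PvhfReg} {Lp Lm : Set (Conf PvPt)}

theorem pvr4_EO (F : PvuiFit s N M 𝔯 𝔯') : 𝔯.Ef ⊆ pvr4O s M := by
  rw [F.Ef, show 24 * s = 3 * (8 * s) by ring]
  exact pvr4_sq_O F.s0 M

theorem pvr4_EO' (F : PvuiFit s N M 𝔯 𝔯') : 𝔯'.Ef ⊆ pvr4O' s N := by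
  rw [F.Ef', show 24 * ((N : ℝ) * s) = 3 * (8 * ((N : ℝ) * s)) by ring]
  exact pvr4_sq_O' F.s0 F.N1

/-- **THE CONTRACT OF THE LAYOUT** -/
theorem pvr4_ok (F : PvuiFit s N M 𝔯 𝔯') (hM2 : 60 * N + 15 ≤ M) (h0 : 0 < μ) (hμ : 3 * μ ≤ s) (hu0 : 0 < u₁) (hu : u₁ / 4 + 4 * μ ≤ 4 * ((N : ℝ) * s))
    (wf : 𝔯.Wf) (wf' : 𝔯'.Wf) (is : PvhfIs 𝔯 true Lp) (is' : PvhfIs 𝔯' false Lm) (hE : 𝔯.E ⊆ pvr4T s M) (hE' : 𝔯'.E ⊆ pvr4T' s N) :
    (pvr4Lam s μ u₁ N M 𝔯 𝔯' Lp Lm).Ok where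
  wf := wf
  wf' := wf'
  is := is
  is' := is'
  mO := pvr4_mO s M
  mO' := pvr4_mO' s N
  EO := pvr4_EO F
  EO' := pvr4_EO' F
  dj := (pvr4_T_dj F.s0 F.N1 F.M1).mono (union_subset subset_union_left hE) (union_subset subset_union_left hE')
  djK := pvui_f_djK
  w := pvui_g_w F
  off := pvr4_off F.par
  zp := fun β => pvui_g_zp F β (pvr4_EO F)
  zm := fun β => pvui_g_zm F β (pvr4_EO' F)
  mEt := pvr4_mEt s N M
  bEt := pvr4_bEt s N M
  dEt := pvr4_dEt s N M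
  sW := by
    refine union_subset (union_subset (union_subset (union_subset (union_subset (union_subset ?_ ?_) ?_) ?_) ?_) ?_) ?_
    · exact fun w hw => Or.inr hw
    · exact fun w hw => Or.inl (Or.inr hw)
    · exact fun w hw => Or.inl (Or.inl hw)
    · exact hE.trans (pvr4_T_W F.s0 F.N1 F.M1)
    · exact hE'.trans (pvr4_T'_W F.s0 F.N1 F.M1)
    · exact pvr4_win_W F.par true
    · exact pvr4_win_W F.par false
  seam := pvr4_seam F.s0 h0 (by linarith) N M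
  lay := pvui_g_lay_tr F (pvr4_lay F.par hM2 h0 hμ hu0 hu)

end ok

end Claimed.Agent.R289
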