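import Claimed.Agent.R289.Tr.StKit
import Claimed.Agent.R289.Tr.LaneDet
import Claimed.Agent.R289.Tr.TipDel

/-!
# Row 289 (S0537), THE WALL, road E, HOOK-DET, file Tr/HookG : GLUE BETWEEN THE HALF STATES OF RECORD (`Tr/Defs` v3), THE TIP KIT (`Tr/Tip`, `Tr/TipDel`, 23) AND THE RUNS (`Tr/LaneDet`, 70)      (helper90; split of 23, 10:12Z; prefix `pvhg_`, `Pvhg`)

* sec.1  `pvwComp` = `Join univ` (`pvhg_comp_of_join`, `pvhg_join_of_comp`, `pvhg_comp_adj`)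
* sec.2  **(G3)** `pvhg_whole` (stub . new strand . stub), `pvhg_no_return`, `pvhg_inj` (the positions `0..np + N + nm` of the strand from `dp(t)` are pairwise distinct), `pvhg_new_sites`,
         **`pvhg_SYn`**, `pvhg_SY_of_run` : `PvldRun T σ K (t.ep t.np) (s.em s.nm)` + stubs + `σ = col` on `fzY` + `K` over `Yin`  ⟹  `𝔇.SYn pos π σ (t.np + N + s.nm)` WITH the first-hit clause, `sites ∈ YCL ∪ fzY` and `sites over Yin`.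
         WARNING (gap in the text): `sites ∈ YCL ∪ fzY` is NOT bookkeeping.   `YCL` = fresh sites joined to a tip apex through FRESH sites; the new strand could pass through a bichromatic edge with two FROZEN ends (a tunnel between
         the black bank and the white bank) into a fresh region which is not joined to the apex.   Hypothesis `PvhgTight 𝔇 K σ` = every bichromatic edge of `K` with two frozen ends is a position of one of the two stubs.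
* sec.3  **NO TUNNEL** `pvhg_no_tunnel` : from the tip potential of 23 (`LB` in one class, `WB` in the other, the edge off the slit ⟹ the edge is crossed by the strand).
* sec.4  **(G1)** `pvhg_tip_out`, `pvhg_exit` : `AtOut` + mesh  ⟹  the conclusion of `pvtzd_exit_stop` with `d := dp`, `n := np`, centre `τ.cp hh z`;   **(G2)** `pvhg_tip_in`, `pvhg_ent` : the same for `AtIn`, `dm`, `nm`, centre `τ.cm hh z`.
* sec.5  `pvhg_tight_out`, `pvhg_tight_in` : a bichromatic edge with two frozen ends near the tip centre is a position of the stub (potential of 23 at the Delaunay map).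
* sec.6  `PvhgGeo` (the geometric hypotheses in one structure: mesh, far, `K` over `Yin`, frozen sites over `Yin` near their own tip centre, separation), `pvhg_tight : PvhgTight`, **`pvhg_SY_del`**, `pvhg_SY_pl` (`P = delPl h`).
-/

set_option autoImplicit false
set_option linter.unusedSectionVars false
set_option linter.unusedVariables false

namespace Claimed.Agent.R289

open Relation Set

variable {V D : Type} {T : PvMap V D}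

/-! ## 1. components -/

theorem pvhg_comp_of_join [Nonempty D] {X : Set V} {a v : V} (h : T.Join Set.univ X a v) : v ∈ pvwComp T X a := by
  obtain ⟨p, p0, p1, pX, -⟩ := pl_pth_of_join h
  exact ⟨p, p0, p1, fun x hx => pX hx⟩

theorem pvhg_join_of_comp {X : Set V} {a v : V} (h : v ∈ pvwComp T X a) : T.Join Set.univ X a v := by
  obtain ⟨q, q0, q1, qX⟩ := h
  have := pl_pth_join q (A := Set.univ) (X := X) (fun i _ => Or.inl (mem_univ _)) (fun x hx => qX x hx) (Nat.zero_le q.n) le_rfl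
  rwa [q0, q1] at this

theorem pvhg_comp_self (d₀ : D) {X : Set V} {a : V} (ha : a ∈ X) : a ∈ pvwComp T X a :=
  ⟨PvMap.Pth.nil T a d₀, rfl, rfl, by rintro x ⟨i, -, rfl⟩; exact ha⟩

/-- a component is closed under adjacency inside `X` -/
theorem pvhg_comp_adj {X : Set V} {a u v : V} (hu : u ∈ pvwComp T X a) (d : D) (hs : T.src d = u) (ht : T.tgt d = v) (hv : v ∈ X) : v ∈ pvwComp T X a := by
  have : Nonempty D := ⟨d⟩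
  have h := pvhg_join_of_comp hu
  exact pvhg_comp_of_join ⟨h.1, h.2.tail ⟨⟨d, Or.inl (mem_univ _), hs, ht⟩, hv⟩⟩

/-! ## 2. (G3) the whole strand `dp(t) → dm(s)` -/

section whole

variable {𝔇 : PvwDat T} {pos : V → ℂ} {Bt Bs : Set ℂ} {σ : V → Bool} {K : Set V} {N : ℕ}

theorem pvhg_stub_t (ht : 𝔇.t.StubP pos Bt 𝔇.col) (hσ : PvwAgree 𝔇.fzY σ 𝔇.col) : 𝔇.t.StubP pos Bt σ :=
  pvwk_stubP_congr ht fun v hv => (hσ v (Or.inl (pvwk_banksP_sub_fzOut 𝔇.t hv))).symm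

theorem pvhg_stub_s (hs : 𝔇.s.StubM pos Bs 𝔇.col) (hσ : PvwAgree 𝔇.fzY σ 𝔇.col) : 𝔇.s.StubM pos Bs σ :=
  pvwk_stubM_congr hs fun v hv => (hσ v (Or.inr (pvwk_banksM_sub_fzIn 𝔇.s hv))).symm

theorem pvhg_bw_t (ht : 𝔇.t.StubP pos Bt 𝔇.col) (hbt : pvasBW T 𝔇.col 𝔇.t.dp) (hσ : PvwAgree 𝔇.fzY σ 𝔇.col) : pvasBW T σ 𝔇.t.dp := by
  have e := pvwk_ep_zero ht
  refine ⟨?_, ?_⟩
  · rw [hσ _ (Or.inl (pvwk_banksP_sub_fzOut 𝔇.t (Or.inl ⟨0, Nat.zero_le _, by rw [e]⟩)))]; exact hbt.1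
  · rw [hσ _ (Or.inl (pvwk_banksP_sub_fzOut 𝔇.t (Or.inr ⟨0, Nat.zero_le _, by rw [e]⟩)))]; exact hbt.2

theorem pvhg_bw_s (hs : 𝔇.s.StubM pos Bs 𝔇.col) (hbs : pvasBW T 𝔇.col 𝔇.s.dm) (hσ : PvwAgree 𝔇.fzY σ 𝔇.col) : pvasBW T σ 𝔇.s.dm := by
  have e := pvwk_em_zero hs
  refine ⟨?_, ?_⟩
  · rw [hσ _ (Or.inr (pvwk_banksM_sub_fzIn 𝔇.s (Or.inl ⟨0, Nat.zero_le _, by rw [e]⟩)))]; exact hbs.1
  · rw [hσ _ (Or.inr (pvwk_banksM_sub_fzIn 𝔇.s (Or.inr ⟨0, Nat.zero_le _, by rw [e]⟩)))]; exact hbs.2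

/-- **the three stretches** of the strand of `σ` from the exit gate edge of `t`: stub, new strand, stub -/
theorem pvhg_whole (ht : 𝔇.t.StubP pos Bt σ) (hs : 𝔇.s.StubM pos Bs σ) (hbs : pvasBW T σ 𝔇.s.dm) (hN : pvasIt T σ (𝔇.t.ep 𝔇.t.np) N = 𝔇.s.em 𝔇.s.nm) :
    (∀ i, i ≤ 𝔇.t.np → pvasIt T σ 𝔇.t.dp i = 𝔇.t.ep i) ∧ (∀ k, pvasIt T σ 𝔇.t.dp (𝔇.t.np + k) = pvasIt T σ (𝔇.t.ep 𝔇.t.np) k) ∧
      ∀ j, j ≤ 𝔇.s.nm → pvasIt T σ 𝔇.t.dp (𝔇.t.np + N + j) = 𝔇.s.em (𝔇.s.nm - j) := by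
  have w1 : ∀ i, i ≤ 𝔇.t.np → pvasIt T σ 𝔇.t.dp i = 𝔇.t.ep i := fun i hi => (ht.ep_it i hi).symm
  have w2 : ∀ k, pvasIt T σ 𝔇.t.dp (𝔇.t.np + k) = pvasIt T σ (𝔇.t.ep 𝔇.t.np) k := fun k => by rw [pvas_it_add, w1 _ le_rfl]
  refine ⟨w1, w2, fun j hj => ?_⟩
  rw [Nat.add_assoc, w2, pvas_it_add, hN, pvwk_em_fwd hs hbs hj]

/-- **NO RETURN**: the strand does not come back to the exit gate edge of `t` before it reaches the entry gate edge of `s` -/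
theorem pvhg_no_return (ht : 𝔇.t.StubP pos Bt σ) (hs : 𝔇.s.StubM pos Bs σ) (hbt : pvasBW T σ 𝔇.t.dp) (hbs : pvasBW T σ 𝔇.s.dm)
    (hgp : pos 𝔇.t.gp ∉ Bs) (hgK : 𝔇.t.gp ∉ K) (hN : pvasIt T σ (𝔇.t.ep 𝔇.t.np) N = 𝔇.s.em 𝔇.s.nm) (hK : T.VOf (pvasFc T σ (𝔇.t.ep 𝔇.t.np) N) ⊆ K) :
    ∀ m, 0 < m → m ≤ 𝔇.t.np + N + 𝔇.s.nm → pvasIt T σ 𝔇.t.dp m ≠ 𝔇.t.dp := by
  obtain ⟨w1, w2, w3⟩ := pvhg_whole ht hs hbs hN
  intro m hm0 hm e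
  rcases Nat.lt_or_ge 𝔇.t.np m with h1 | h1
  · rcases Nat.lt_or_ge m (𝔇.t.np + N) with h2 | h2
    · obtain ⟨k, rfl⟩ : ∃ k, m = 𝔇.t.np + k := ⟨m - 𝔇.t.np, by omega⟩
      rw [w2] at e
      exact hgK (hK ⟨_, ⟨k, by omega, T.sf_refl _⟩, by rw [e]; rfl⟩)
    · obtain ⟨j, rfl⟩ : ∃ j, m = 𝔇.t.np + N + j := ⟨m - (𝔇.t.np + N), by omega⟩
      rw [w3 j (by omega)] at e
      have := (hs.em_in (𝔇.s.nm - j) (Nat.sub_le _ _)).1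
      rw [e] at this
      exact hgp this
  · have hinj := pvtz_inj_of_exit (T := T) (s := σ) (d := 𝔇.t.dp) (n := 𝔇.t.np) hbt (A := {x | pos (T.apex x) ∈ Bt})
      (fun k hk => by rw [w1 k hk.le]; exact ht.ep_ax k hk) (by rw [w1 _ le_rfl]; exact ht.ep_out)
    have := hinj m 0 h1 (Nat.zero_le _) e
    omega

/-- **the positions `0..n` are pairwise distinct** -/
theorem pvhg_inj (ht : 𝔇.t.StubP pos Bt σ) (hs : 𝔇.s.StubM pos Bs σ) (hbt : pvasBW T σ 𝔇.t.dp) (hbs : pvasBW T σ 𝔇.s.dm)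
    (hgp : pos 𝔇.t.gp ∉ Bs) (hgK : 𝔇.t.gp ∉ K) (hN : pvasIt T σ (𝔇.t.ep 𝔇.t.np) N = 𝔇.s.em 𝔇.s.nm) (hK : T.VOf (pvasFc T σ (𝔇.t.ep 𝔇.t.np) N) ⊆ K) :
    ∀ i j, i ≤ 𝔇.t.np + N + 𝔇.s.nm → j ≤ 𝔇.t.np + N + 𝔇.s.nm → pvasIt T σ 𝔇.t.dp i = pvasIt T σ 𝔇.t.dp j → i = j := by
  have key : ∀ i j, i < j → j ≤ 𝔇.t.np + N + 𝔇.s.nm → pvasIt T σ 𝔇.t.dp i ≠ pvasIt T σ 𝔇.t.dp j := fun i j hij hj e =>
    pvhg_no_return ht hs hbt hbs hgp hgK hN hK (j - i) (by omega) (by omega) (pvas_it_return hbt hij.le e)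
  intro i j hi hj e
  rcases Nat.lt_trichotomy i j with h | h | h
  · exact absurd e (key i j h hj)
  · exact h
  · exact absurd e.symm (key j i h hi)

/-- **TIGHT**: every bichromatic edge of `K` with two frozen ends is a position of one of the two stubs (NO TUNNEL between the banks) -/
def PvhgTight (𝔇 : PvwDat T) (K : Set V) (σ : V → Bool) : Prop :=
  ∀ x, pvasBW T σ x → T.src x ∈ K → T.tgt x ∈ K → T.src x ∈ 𝔇.fzY → T.tgt x ∈ 𝔇.fzY → (∃ i, i ≤ 𝔇.t.np ∧ x = 𝔇.t.ep i) ∨ ∃ i, i ≤ 𝔇.s.nm ∧ x = 𝔇.s.em i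

theorem pvhg_eqns_cite : True := by
  have := @PvhgTight.eq_1
  trivial

/-- the sites of the faces crossed by the new strand are frozen or joined to the tip apex of `t` through fresh sites over `Yin` -/
theorem pvhg_new_sites {π : PvwPat} (ht : 𝔇.t.StubP pos Bt σ) (hs : 𝔇.s.StubM pos Bs σ) (hbt : pvasBW T σ 𝔇.t.dp) (hbs : pvasBW T σ 𝔇.s.dm)
    (hgp : pos 𝔇.t.gp ∉ Bs) (hgK : 𝔇.t.gp ∉ K) (hKπ : ∀ v ∈ K, pos v ∈ π.Yin) (hap : 𝔇.t.ap ∉ 𝔇.fzY) (htight : PvhgTight 𝔇 K σ)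
    (hN : pvasIt T σ (𝔇.t.ep 𝔇.t.np) N = 𝔇.s.em 𝔇.s.nm) (hK : T.VOf (pvasFc T σ (𝔇.t.ep 𝔇.t.np) N) ⊆ K) :
    ∀ k, k < N → T.src (pvasIt T σ (𝔇.t.ep 𝔇.t.np) k) ∈ pvwComp T (𝔇.Yraw pos π) 𝔇.t.ap ∪ 𝔇.fzY ∧ T.tgt (pvasIt T σ (𝔇.t.ep 𝔇.t.np) k) ∈ pvwComp T (𝔇.Yraw pos π) 𝔇.t.ap ∪ 𝔇.fzY ∧
      T.apex (pvasIt T σ (𝔇.t.ep 𝔇.t.np) k) ∈ pvwComp T (𝔇.Yraw pos π) 𝔇.t.ap ∪ 𝔇.fzY := by
  obtain ⟨w1, w2, w3⟩ := pvhg_whole ht hs hbs hN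
  have hinj := pvhg_inj ht hs hbt hbs hgp hgK hN hK
  have hb0 : pvasBW T σ (𝔇.t.ep 𝔇.t.np) := pvwk_ep_bw ht hbt le_rfl
  have hf : ∀ k, k < N → ∀ f, T.SF (pvasIt T σ (𝔇.t.ep 𝔇.t.np) k) f → T.src f ∈ K := fun k hk f hf => hK ⟨f, ⟨k, hk, hf⟩, rfl⟩
  intro k
  induction k with
  | zero =>
    intro h0
    refine ⟨Or.inr (Or.inl (pvwk_banksP_sub_fzOut 𝔇.t (Or.inl ⟨_, le_rfl, rfl⟩))), Or.inr (Or.inl (pvwk_banksP_sub_fzOut 𝔇.t (Or.inr ⟨_, le_rfl, rfl⟩))), Or.inl ?_⟩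
    refine pvhg_comp_self 𝔇.t.dp ⟨hap, hKπ _ ?_⟩
    have := hf 0 h0 _ (T.sf_nxt2 _)
    rwa [T.src_nxt2] at this
  | succ k ih =>
    intro hk
    obtain ⟨i1, i2, i3⟩ := ih (by omega)
    set x := pvasIt T σ (𝔇.t.ep 𝔇.t.np) (k + 1) with hx
    have hxb : pvasBW T σ x := pvas_it_bw hb0 _
    have hends : T.src x ∈ pvwComp T (𝔇.Yraw pos π) 𝔇.t.ap ∪ 𝔇.fzY ∧ T.tgt x ∈ pvwComp T (𝔇.Yraw pos π) 𝔇.t.ap ∪ 𝔇.fzY := by
      rw [hx, pvas_it_succ]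
      rcases pvas_step_ends σ (pvasIt T σ (𝔇.t.ep 𝔇.t.np) k) with ⟨_, e1, e2⟩ | ⟨_, e1, e2⟩
      · rw [e1, e2]; exact ⟨i3, i2⟩
      · rw [e1, e2]; exact ⟨i1, i3⟩
    refine ⟨hends.1, hends.2, ?_⟩
    by_cases hfz : T.apex x ∈ 𝔇.fzY
    · exact Or.inr hfz
    have hsK : T.src x ∈ K := hf (k + 1) hk _ (T.sf_refl _)
    have htK : T.tgt x ∈ K := by have := hf (k + 1) hk _ (T.sf_nxt _); rwa [T.src_nxt] at this
    have haK : T.apex x ∈ K := by have := hf (k + 1) hk _ (T.sf_nxt2 _); rwa [T.src_nxt2] at this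
    have hraw : T.apex x ∈ 𝔇.Yraw pos π := ⟨hfz, hKπ _ haK⟩
    by_cases h1 : T.src x ∈ 𝔇.fzY
    · by_cases h2 : T.tgt x ∈ 𝔇.fzY
      · exfalso
        have hxP : x = pvasIt T σ 𝔇.t.dp (𝔇.t.np + (k + 1)) := by rw [w2]
        rcases htight x hxb hsK htK h1 h2 with ⟨i, hi, e⟩ | ⟨i, hi, e⟩
        · rw [← w1 i hi, hxP] at e
          have := hinj _ _ (by omega) (by omega) e
          omega
        · have e' := w3 (𝔇.s.nm - i) (Nat.sub_le _ _)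
          rw [Nat.sub_sub_self hi, ← e, hxP] at e'
          have := hinj _ _ (by omega) (by omega) e'
          omega
      · exact Or.inl (pvhg_comp_adj (hends.2.resolve_right h2) (T.nxt x) (T.src_nxt x) (T.tgt_nxt x) hraw)
    · exact Or.inl (pvhg_comp_adj (hends.1.resolve_right h1) (T.opp (T.nxt (T.nxt x))) (by rw [T.src_opp', T.tgt_nxt2]) (by rw [T.tgt_opp, T.src_nxt2]) hraw)

/-- **(G3)**: a run `tip of Σ⁺(t) → tip of Σ⁻(s)` inside `K` (sites over `Yin`, tight) gives `SYn` of record: arrival, FIRST HIT, sites in `YCL ∪ fzY` -/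
theorem pvhg_SYn {π : PvwPat} (ht : 𝔇.t.StubP pos Bt 𝔇.col) (hs : 𝔇.s.StubM pos Bs 𝔇.col) (hbt : pvasBW T 𝔇.col 𝔇.t.dp) (hbs : pvasBW T 𝔇.col 𝔇.s.dm)
    (hσ : PvwAgree 𝔇.fzY σ 𝔇.col) (hgp : pos 𝔇.t.gp ∉ Bs) (hgK : 𝔇.t.gp ∉ K) (hKπ : ∀ v ∈ K, pos v ∈ π.Yin) (hap : 𝔇.t.ap ∉ 𝔇.fzY) (htight : PvhgTight 𝔇 K σ)
    (hN : pvasIt T σ (𝔇.t.ep 𝔇.t.np) N = 𝔇.s.em 𝔇.s.nm) (hK : T.VOf (pvasFc T σ (𝔇.t.ep 𝔇.t.np) N) ⊆ K) :
    𝔇.SYn pos π σ (𝔇.t.np + N + 𝔇.s.nm) := by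
  have ht' := pvhg_stub_t ht hσ
  have hs' := pvhg_stub_s hs hσ
  have hbt' := pvhg_bw_t ht hbt hσ
  have hbs' := pvhg_bw_s hs hbs hσ
  obtain ⟨w1, w2, w3⟩ := pvhg_whole ht' hs' hbs' hN
  have hinj := pvhg_inj ht' hs' hbt' hbs' hgp hgK hN hK
  have hend : pvasIt T σ 𝔇.t.dp (𝔇.t.np + N + 𝔇.s.nm) = 𝔇.s.dm := by rw [w3 _ le_rfl, Nat.sub_self, pvwk_em_zero hs']
  refine ⟨by omega, hend, fun i hi e => ?_, fun i hi1 hi2 => ?_⟩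
  · have := hinj i _ hi.le le_rfl (e.trans hend.symm)
    omega
  · obtain ⟨k, rfl⟩ : ∃ k, i = 𝔇.t.np + k := ⟨i - 𝔇.t.np, by omega⟩
    rw [w2]
    obtain ⟨a1, a2, -⟩ := pvhg_new_sites ht' hs' hbt' hbs' hgp hgK hKπ hap htight hN hK k (by omega)
    have hk : k < N := by omega
    have b1 : T.src (pvasIt T σ (𝔇.t.ep 𝔇.t.np) k) ∈ K := hK ⟨_, ⟨k, hk, T.sf_refl _⟩, rfl⟩
    have b2 : T.tgt (pvasIt T σ (𝔇.t.ep 𝔇.t.np) k) ∈ K := by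
      have := hK ⟨_, ⟨k, hk, T.sf_nxt _⟩, rfl⟩
      rwa [T.src_nxt] at this
    exact ⟨a1.imp_left Or.inl, a2.imp_left Or.inl, hKπ _ b1, hKπ _ b2⟩

/-- (G3) from `PvldRun` of 70 -/
theorem pvhg_SY_of_run {π : PvwPat} (ht : 𝔇.t.StubP pos Bt 𝔇.col) (hs : 𝔇.s.StubM pos Bs 𝔇.col) (hbt : pvasBW T 𝔇.col 𝔇.t.dp) (hbs : pvasBW T 𝔇.col 𝔇.s.dm)
    (hσ : PvwAgree 𝔇.fzY σ 𝔇.col) (hgp : pos 𝔇.t.gp ∉ Bs) (hgK : 𝔇.t.gp ∉ K) (hKπ : ∀ v ∈ K, pos v ∈ π.Yin) (hap : 𝔇.t.ap ∉ 𝔇.fzY) (htight : PvhgTight 𝔇 K σ)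
    (hrun : PvldRun T σ K (𝔇.t.ep 𝔇.t.np) (𝔇.s.em 𝔇.s.nm)) : 𝔇.SY pos π σ := by
  obtain ⟨N, -, hN, -, hK⟩ := hrun
  exact ⟨_, pvhg_SYn ht hs hbt hbs hσ hgp hgK hKπ hap htight hN hK⟩

end whole

/-! ## 3. NO TUNNEL, from the tip potential of 23 -/

section tunnel

variable {s : V → Bool} {d : D} {n : ℕ} {M : Set D} {χ : D → ZMod 2} {u : V → ZMod 2}

theorem pvhg_z2_one {a b : ZMod 2} (h : a ≠ b) : a + b = 1 := by revert a b; decide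

/-- **NO TUNNEL**: an edge of the closed mouth, off the slit, from the black bank to the white bank of a piece of the strand is a POSITION of the strand -/
theorem pvhg_no_tunnel (hS : T.Simple) (hM : T.FaceSet M) (hd : pvasBW T s d) (hinj : ∀ i j, i ≤ n → j ≤ n → pvasIt T s d i = pvasIt T s d j → i = j)
    (h : PvtzPot T s d n M χ u) {m n' : ℕ} (hp : PvtzPiece T s d M χ m n') (hmn : m ≤ n') (hn : n' ≤ n)
    {x : D} (hx : x ∈ M ∨ T.opp x ∈ M) (hχ : χ x = 0) (h1 : T.src x ∈ pvtzB T s d m n') (h2 : T.tgt x ∈ pvtzW T s d m n') : ∃ k, k ≤ n ∧ x = pvasIt T s d k := by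
  rcases Nat.eq_or_lt_of_le hmn with rfl | hmn
  · obtain ⟨k, a1, a2, a3⟩ := h1
    obtain ⟨k', b1, b2, b3⟩ := h2
    obtain rfl : k = m := le_antisymm a2 a1
    obtain rfl : k' = k := le_antisymm b2 b1
    exact ⟨k', hn, hS _ _ a3.symm b3.symm⟩
  have hne : u (T.src x) ≠ u (T.tgt x) := by
    rw [pvtz_B_const hM hd h hp h1, pvtz_W_const hM hd h hp h2]
    exact pvtz_piece_ne hM hd hinj h hp hmn hn
  have hX : pvtzX T s d n x ≠ 0 := by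
    have e := h x hx
    rw [pvhg_z2_one hne, hχ, add_zero] at e
    rw [← e]; exact one_ne_zero
  obtain ⟨k, hk, e | e⟩ := pvtz_X_ne hX
  · exact ⟨k, hk, e⟩
  · exfalso
    have hb := pvtz_B_black hd h1
    rw [e, T.src_opp', (pvas_it_bw hd k).2] at hb
    exact Bool.false_ne_true hb

end tunnel

/-! ## 4. (G1) (G2) the half states of record in the Delaunay map: the hypotheses of the ONE-STOP theorems of 23 -/

section del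

open Metric

variable {Y : Set ℂ}

/-- Delaunay edges at a site with a dense neighbourhood are short -/
theorem pvhg_adj_short {a b : ℂ} {ρ : ℝ} (hρ : 0 < ρ) (hd : VorDense Y (closedBall a (2 * ρ)) ρ) (h : DelAdj Y a b) : ‖a - b‖ ≤ 2 * ρ := by
  have hc : vorCell Y a ⊆ closedBall a ρ := vor_cell_subset_ball hρ.le (by linarith) hd
  exact del_adj_dist (fun z hz => hd z (closedBall_subset_closedBall (by linarith) hz)) (h.inWin hc)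

theorem pvhg_dense_sub {c a : ℂ} {R ρ : ℝ} (hd : VorDense Y (closedBall c R) ρ) (ha : ‖a - c‖ + 2 * ρ ≤ R) : VorDense Y (closedBall a (2 * ρ)) ρ := by
  intro z hz
  refine hd z ?_
  rw [mem_closedBall, dist_eq_norm] at hz ⊢
  calc ‖z - c‖ = ‖(z - a) + (a - c)‖ := by congr 1; ring
    _ ≤ ‖z - a‖ + ‖a - c‖ := norm_add_le _ _
    _ ≤ R := by linarith

theorem pvhg_sq_norm {w z : ℂ} {r : ℝ} (h : w ∉ pvwSq z r) : r < ‖w - z‖ := by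
  by_contra hc
  rw [not_lt] at hc
  exact h ⟨(Complex.abs_re_le_norm _).trans hc, (Complex.abs_im_le_norm _).trans hc⟩

theorem pvhg_mid_dist (a b : ℂ) : ‖a - (a + b) / 2‖ = ‖a - b‖ / 2 ∧ ‖b - (a + b) / 2‖ = ‖a - b‖ / 2 := by
  have e1 : a - (a + b) / 2 = (a - b) / 2 := by ring
  have e2 : b - (a + b) / 2 = -((a - b) / 2) := by ring
  rw [e1, e2, norm_neg, norm_div]
  simp

theorem pvhg_tri3 (a b c : ℂ) : ‖a - c‖ ≤ ‖a - b‖ + ‖b - c‖ := by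
  calc ‖a - c‖ = ‖(a - b) + (b - c)‖ := by congr 1; ring
    _ ≤ _ := norm_add_le _ _

variable {h : DelGood Y} {𝔖 : PvwSt (delMap h)} {N : PvwNum} {hh : ℝ} {z : ℂ} {τ : PvwTy} {s : Y → Bool} {r r₁ ρ : ℝ}

/-- the tip apex of `Σ⁺` lies within `ρ h / 4 + 2 ρ_mesh` of the centre `y⁺` -/
theorem pvhg_tip_out (ha : 𝔖.AtOut (dlsPos Y) N hh z τ s) (hρ : 0 < ρ) (h2 : N.rho * hh / 4 ≤ r + ρ) (hmesh : VorDense Y (closedBall (τ.cp hh z) (r + 3 * ρ)) ρ) :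
    ‖(𝔖.ap : ℂ) - τ.cp hh z‖ ≤ N.rho * hh / 4 + 2 * ρ := by
  have h0 : ‖((delMap h).src (𝔖.ep 𝔖.np) : ℂ) - τ.cp hh z‖ ≤ N.rho * hh / 4 := ha.good.tip_p.1
  have hds := pvhg_dense_sub hmesh (a := ((delMap h).src (𝔖.ep 𝔖.np) : ℂ)) (by linarith)
  have hadj : DelAdj Y ((delMap h).src (𝔖.ep 𝔖.np)) 𝔖.ap := by
    have := dls_dart_adj ((delMap h).opp ((delMap h).nxt ((delMap h).nxt (𝔖.ep 𝔖.np))))
    rwa [(delMap h).src_opp', (delMap h).tgt_opp, (delMap h).tgt_nxt2, (delMap h).src_nxt2] at this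
  have hea := pvhg_adj_short hρ hds hadj
  have := pvhg_tri3 (𝔖.ap : ℂ) ((delMap h).src (𝔖.ep 𝔖.np) : ℂ) (τ.cp hh z)
  have e := norm_sub_rev (𝔖.ap : ℂ) ((delMap h).src (𝔖.ep 𝔖.np) : ℂ)
  linarith

/-- **(G1)** the exit half state of record satisfies the hypotheses of `pvtzd_exit_stop` (`d := dp`, `n := np`, `c := y⁺ = τ.cp h z`): direction, mouth, record `PvtzExit`, base point, potential, values outside the box -/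
theorem pvhg_exit (ha : 𝔖.AtOut (dlsPos Y) N hh z τ s) (hρ : 0 < ρ) (hr1 : N.rho * hh / 4 + 2 * ρ ≤ r₁) (hr : 3 * r₁ + 2 * ρ ≤ r)
    (hmesh : VorDense Y (closedBall (τ.cp hh z) (r + 3 * ρ)) ρ) (hfar : r + 4 * ρ + r₁ + τ.b * hh ≤ pvwRad N hh τ τ.k) :
    ∃ ζ ∈ pvtzdDir, ∃ M : (delMap h).Cyc, PvaxAt (delMap h) (dlsPos Y) (τ.cp hh z) r (r + 4 * ρ) M ∧ PvtzExit (delMap h) (fun v => ζ * dlsPos Y v) s 𝔖.dp 𝔖.np M (pvwRad N hh τ τ.k + (ζ * z).re) ∧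
      ∃ z₀ : ℂ, ∃ u : Y → ZMod 2, pvwRad N hh τ τ.k + (ζ * z).re < z₀.re ∧ PvtzPot (delMap h) s 𝔖.dp 𝔖.np M.Left (pvtzChi (delMap h) (fun v => ζ * dlsPos Y v) z₀) u ∧
        z₀ ∈ delTo (ζ * dlsPos Y ((delMap h).src (𝔖.ep 𝔖.np))) (ζ * dlsPos Y ((delMap h).tgt (𝔖.ep 𝔖.np))) (ζ * dlsPos Y 𝔖.ap) ∧
        ∀ y : Y, pvwRad N hh τ τ.k + (ζ * z).re < (ζ * y).re → ‖(y : ℂ) - τ.cp hh z‖ ≤ r₁ → u y = u ((delMap h).src (𝔖.ep 𝔖.np)) + plI ((ζ * y).im ≤ z₀.im) := by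
  have g1 : ‖((delMap h).src (𝔖.ep 𝔖.np) : ℂ) - τ.cp hh z‖ ≤ N.rho * hh / 4 := ha.good.tip_p.1
  have hr10 : 0 ≤ r₁ := by linarith [norm_nonneg (((delMap h).src (𝔖.ep 𝔖.np) : ℂ) - τ.cp hh z)]
  have g3 := pvhg_tip_out ha hρ (by linarith) hmesh
  have hit : ∀ k, k ≤ 𝔖.np → pvasIt (delMap h) s 𝔖.dp k = 𝔖.ep k := fun k hk => (ha.stub.ep_it k hk).symm
  have hout : ¬ (((delMap h).src (pvasIt (delMap h) s 𝔖.dp (𝔖.np + 1)) : ℂ) ∈ pvtzdSq z (pvwRad N hh τ τ.k) ∧ ((delMap h).tgt (pvasIt (delMap h) s 𝔖.dp (𝔖.np + 1)) : ℂ) ∈ pvtzdSq z (pvwRad N hh τ τ.k)) := by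
    rw [pvas_it_succ, hit _ le_rfl]
    rintro ⟨o1, o2⟩
    rcases pvas_step_ends s (𝔖.ep 𝔖.np) with ⟨_, e1, _⟩ | ⟨_, _, e2⟩
    · rw [e1] at o1; exact ha.stub.ep_out o1
    · rw [e2] at o2; exact ha.stub.ep_out o2
  have hfar' : r + 4 * ρ ≤ ‖((delMap h).tgt 𝔖.dp : ℂ) - τ.cp hh z‖ := by
    have k1 : ‖((delMap h).tgt 𝔖.dp : ℂ) - z‖ < τ.b * hh := by
      obtain ⟨i, hi⟩ := ha.gate.dp_on
      exact (ha.gate.ann _ ⟨i, by rw [hi, (delMap h).src_opp']⟩).2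
    have k2 : pvwRad N hh τ τ.k < ‖(𝔖.ap : ℂ) - z‖ := pvhg_sq_norm ha.stub.ep_out
    have k3 := pvhg_tri3 (𝔖.ap : ℂ) (τ.cp hh z) z
    have k4 := pvhg_tri3 (τ.cp hh z) ((delMap h).tgt 𝔖.dp : ℂ) z
    have e := norm_sub_rev (τ.cp hh z) ((delMap h).tgt 𝔖.dp : ℂ)
    linarith
  have := pvtzd_exit_stop h (s := s) (d := 𝔖.dp) (n := 𝔖.np) (zc := z) (c := τ.cp hh z) (rk := pvwRad N hh τ τ.k) (r := r) (r₁ := r₁) (ρ := ρ) ha.gate.bw_p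
    (fun k hk => by rw [hit k hk]; exact ha.stub.ep_in k hk) hout hρ hr hmesh (by rw [hit _ le_rfl]; linarith) (by rw [hit _ le_rfl]; exact g3.trans hr1) hfar'
  rw [hit _ le_rfl] at this
  exact this

/-- the tip apex of `Σ⁻` lies within `ρ h / 4 + 2 ρ_mesh` of the centre `y⁻` -/
theorem pvhg_tip_in (ha : 𝔖.AtIn (dlsPos Y) N hh z τ s) (hρ : 0 < ρ) (h2 : N.rho * hh / 4 ≤ r + ρ) (hmesh : VorDense Y (closedBall (τ.cm hh z) (r + 3 * ρ)) ρ) :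
    ‖(𝔖.am : ℂ) - τ.cm hh z‖ ≤ N.rho * hh / 4 + 2 * ρ := by
  have h0 : ‖((delMap h).src (𝔖.em 𝔖.nm) : ℂ) - τ.cm hh z‖ ≤ N.rho * hh / 4 := ha.good.tip_m.1
  have hds := pvhg_dense_sub hmesh (a := ((delMap h).src (𝔖.em 𝔖.nm) : ℂ)) (by linarith)
  have hadj : DelAdj Y ((delMap h).src (𝔖.em 𝔖.nm)) 𝔖.am := by
    have := dls_dart_adj ((delMap h).nxt ((delMap h).opp (𝔖.em 𝔖.nm)))
    rwa [(delMap h).src_nxt, (delMap h).tgt_nxt, (delMap h).tgt_opp] at this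
  have hea := pvhg_adj_short hρ hds hadj
  have := pvhg_tri3 (𝔖.am : ℂ) ((delMap h).src (𝔖.em 𝔖.nm) : ℂ) (τ.cm hh z)
  have e := norm_sub_rev (𝔖.am : ℂ) ((delMap h).src (𝔖.em 𝔖.nm) : ℂ)
  linarith

/-- **(G2)** the entrance half state of record satisfies the hypotheses of `pvtzd_ent_stop` (`d := em nm`, `n := nm`, `c := y⁻ = τ.cm h z`) -/
theorem pvhg_ent (ha : 𝔖.AtIn (dlsPos Y) N hh z τ s) (hρ : 0 < ρ) (hr1 : N.rho * hh / 4 + 2 * ρ ≤ r₁) (hr : 3 * r₁ + 2 * ρ ≤ r)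
    (hmesh : VorDense Y (closedBall (τ.cm hh z) (r + 3 * ρ)) ρ) (hfar : r + 4 * ρ + r₁ + τ.b * hh ≤ pvwRad N hh τ τ.k) :
    ∃ ζ ∈ pvtzdDir, ∃ M : (delMap h).Cyc, PvaxAt (delMap h) (dlsPos Y) (τ.cm hh z) r (r + 4 * ρ) M ∧ PvtzEnt (delMap h) (fun v => ζ * dlsPos Y v) s (𝔖.em 𝔖.nm) 𝔖.nm M (pvwRad N hh τ τ.k + (ζ * z).re) ∧
      ∃ z₀ : ℂ, ∃ u : Y → ZMod 2, pvwRad N hh τ τ.k + (ζ * z).re < z₀.re ∧ PvtzPot (delMap h) s (𝔖.em 𝔖.nm) 𝔖.nm M.Left (pvtzChi (delMap h) (fun v => ζ * dlsPos Y v) z₀) u ∧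
        z₀ ∈ delTo (ζ * dlsPos Y ((delMap h).src ((delMap h).opp (𝔖.em 𝔖.nm)))) (ζ * dlsPos Y ((delMap h).tgt ((delMap h).opp (𝔖.em 𝔖.nm)))) (ζ * dlsPos Y 𝔖.am) ∧
        ∀ y : Y, pvwRad N hh τ τ.k + (ζ * z).re < (ζ * y).re → ‖(y : ℂ) - τ.cm hh z‖ ≤ r₁ → u y = u ((delMap h).tgt (𝔖.em 𝔖.nm)) + plI ((ζ * y).im ≤ z₀.im) := by
  have g2 : ‖((delMap h).tgt (𝔖.em 𝔖.nm) : ℂ) - τ.cm hh z‖ ≤ N.rho * hh / 4 := ha.good.tip_m.2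
  have hr10 : 0 ≤ r₁ := by linarith [norm_nonneg (((delMap h).tgt (𝔖.em 𝔖.nm) : ℂ) - τ.cm hh z)]
  have g3 := pvhg_tip_in ha hρ (by linarith) hmesh
  have hit : ∀ k, k ≤ 𝔖.nm → pvasIt (delMap h) s (𝔖.em 𝔖.nm) k = 𝔖.em (𝔖.nm - k) := fun k hk => pvwk_em_fwd ha.stub ha.gate.bw_m hk
  have hout : ¬ (((delMap h).src (pvasBack (delMap h) s (𝔖.em 𝔖.nm)) : ℂ) ∈ pvtzdSq z (pvwRad N hh τ τ.k) ∧ ((delMap h).tgt (pvasBack (delMap h) s (𝔖.em 𝔖.nm)) : ℂ) ∈ pvtzdSq z (pvwRad N hh τ τ.k)) := by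
    rintro ⟨o1, o2⟩
    rcases pvas_back_cases (T := delMap h) s (𝔖.em 𝔖.nm) with ⟨_, e⟩ | ⟨_, e⟩
    · rw [e, (delMap h).src_nxt2] at o1; exact ha.stub.em_out o1
    · rw [e, (delMap h).tgt_nxt] at o2; exact ha.stub.em_out o2
  have hfar' : r + 4 * ρ ≤ ‖((delMap h).src (pvasIt (delMap h) s (𝔖.em 𝔖.nm) 𝔖.nm) : ℂ) - τ.cm hh z‖ := by
    rw [pvwk_em_fwd_end ha.stub ha.gate.bw_m]
    have k1 : ‖((delMap h).src 𝔖.dm : ℂ) - z‖ < τ.b * hh := by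
      obtain ⟨i, hi⟩ := ha.gate.dm_on
      exact (ha.gate.ann _ ⟨i, by rw [hi]⟩).2
    have k2 : pvwRad N hh τ τ.k < ‖(𝔖.am : ℂ) - z‖ := pvhg_sq_norm ha.stub.em_out
    have k3 := pvhg_tri3 (𝔖.am : ℂ) (τ.cm hh z) z
    have k4 := pvhg_tri3 (τ.cm hh z) ((delMap h).src 𝔖.dm : ℂ) z
    have e := norm_sub_rev (τ.cm hh z) ((delMap h).src 𝔖.dm : ℂ)
    linarith
  exact pvtzd_ent_stop h (s := s) (d := 𝔖.em 𝔖.nm) (n := 𝔖.nm) (zc := z) (c := τ.cm hh z) (rk := pvwRad N hh τ τ.k) (r := r) (r₁ := r₁) (ρ := ρ) (pvwk_em_bw ha.stub ha.gate.bw_m le_rfl)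
    (fun k hk => by rw [hit k hk]; exact ha.stub.em_in _ (Nat.sub_le _ _)) hout hρ hr hmesh (by linarith) (g3.trans hr1) hfar'

/-! ## 5. producers of `PvhgTight` in the Delaunay map -/

/-- **NO TUNNEL AT THE EXIT TIP**: an edge from the black bank to the white bank of `Σ⁺`, both ends within `ρ₁ h / 2` of `y⁺`, is a position of `Σ⁺` -/
theorem pvhg_tight_out (ha : 𝔖.AtOut (dlsPos Y) N hh z τ s) (hρ : 0 < ρ) (h2 : N.rho2 * hh ≤ r) (hr1 : N.rho * hh / 4 + 2 * ρ ≤ r₁) (hr : 3 * r₁ + 2 * ρ ≤ r)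
    (hmesh : VorDense Y (closedBall (τ.cp hh z) (r + 3 * ρ)) ρ) (hfar : r + 4 * ρ + r₁ + τ.b * hh ≤ pvwRad N hh τ τ.k)
    {x : DelDart h} (h1 : (delMap h).src x ∈ 𝔖.bkP) (h1' : (delMap h).tgt x ∈ 𝔖.whP)
    (hn1 : ‖((delMap h).src x : ℂ) - τ.cp hh z‖ ≤ N.rho1 * hh / 2) (hn2 : ‖((delMap h).tgt x : ℂ) - τ.cp hh z‖ ≤ N.rho1 * hh / 2) : ∃ i, i ≤ 𝔖.np ∧ x = 𝔖.ep i := by
  obtain ⟨ζ, hζ, M, hM, E, z₀, u, hz1, hu, -, -⟩ := pvhg_exit ha hρ hr1 hr hmesh hfar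
  obtain ⟨i₀, hi₀, hl1, hl2⟩ := ha.good.late_p
  have hit : ∀ k, k ≤ 𝔖.np → pvasIt (delMap h) s 𝔖.dp k = 𝔖.ep k := fun k hk => (ha.stub.ep_it k hk).symm
  have hin : ∀ k, i₀ ≤ k → k ≤ 𝔖.np → ∀ y : DelDart h, (delMap h).src y = (delMap h).src (𝔖.ep k) → y ∈ M.Left := by
    intro k hk1 hk2 y hy
    refine hM.inn _ ?_ y hy
    have a1 : ‖((delMap h).src (𝔖.ep k) : ℂ) - τ.cp hh z‖ < N.rho2 * hh := (hl1 k hk1 hk2).1
    show ‖((delMap h).src (𝔖.ep k) : ℂ) - τ.cp hh z‖ ≤ r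
    linarith
  have hp : PvtzPiece (delMap h) s 𝔖.dp M.Left (pvtzChi (delMap h) (fun v => ζ * dlsPos Y v) z₀) i₀ 𝔖.np :=
    E.piece hz1 le_rfl fun k hk1 hk2 => by rw [hit k hk2.le]; exact hin k hk1 hk2.le _ rfl
  obtain ⟨i, hi, ei⟩ := h1
  obtain ⟨j, hj, ej⟩ := h1'
  have hi0 : i₀ ≤ i := by
    by_contra hlt
    have := (hl2 i (not_le.1 hlt)).1
    rw [ei] at this
    exact absurd hn1 (not_le.2 this)
  have hj0 : i₀ ≤ j := by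
    by_contra hlt
    have := (hl2 j (not_le.1 hlt)).2
    rw [ej] at this
    exact absurd hn2 (not_le.2 this)
  have hχ : pvtzChi (delMap h) (fun v => ζ * dlsPos Y v) z₀ x = 0 := by
    refine pvtz_chi_west ?_ ?_
    · have := (E.box i hi).1
      rw [hit i hi, ei] at this
      exact lt_of_le_of_lt this hz1
    · have := (E.box j hj).2
      rw [hit j hj, ej] at this
      exact lt_of_le_of_lt this hz1
  obtain ⟨k, hk, e⟩ := pvhg_no_tunnel (dls_simple h) (pl_left_face M) E.bw E.inj hu hp hi₀ le_rfl (Or.inl (hin i hi0 hi x ei.symm)) hχ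
    ⟨i, hi0, hi, by rw [hit i hi, ei]⟩ ⟨j, hj0, hj, by rw [hit j hj, ej]⟩
  exact ⟨k, hk, e.trans (hit k hk)⟩

/-- **NO TUNNEL AT THE ENTRANCE TIP** -/
theorem pvhg_tight_in (ha : 𝔖.AtIn (dlsPos Y) N hh z τ s) (hρ : 0 < ρ) (h2 : N.rho2 * hh ≤ r) (hr1 : N.rho * hh / 4 + 2 * ρ ≤ r₁) (hr : 3 * r₁ + 2 * ρ ≤ r)
    (hmesh : VorDense Y (closedBall (τ.cm hh z) (r + 3 * ρ)) ρ) (hfar : r + 4 * ρ + r₁ + τ.b * hh ≤ pvwRad N hh τ τ.k)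
    {x : DelDart h} (h1 : (delMap h).src x ∈ 𝔖.bkM) (h1' : (delMap h).tgt x ∈ 𝔖.whM)
    (hn1 : ‖((delMap h).src x : ℂ) - τ.cm hh z‖ ≤ N.rho1 * hh / 2) (hn2 : ‖((delMap h).tgt x : ℂ) - τ.cm hh z‖ ≤ N.rho1 * hh / 2) : ∃ i, i ≤ 𝔖.nm ∧ x = 𝔖.em i := by
  obtain ⟨ζ, hζ, M, hM, E, z₀, u, hz1, hu, -, -⟩ := pvhg_ent ha hρ hr1 hr hmesh hfar
  obtain ⟨i₀, hi₀, hl1, hl2⟩ := ha.good.late_m
  have hit : ∀ k, k ≤ 𝔖.nm → pvasIt (delMap h) s (𝔖.em 𝔖.nm) k = 𝔖.em (𝔖.nm - k) := fun k hk => pvwk_em_fwd ha.stub ha.gate.bw_m hk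
  have hin : ∀ k, i₀ ≤ k → k ≤ 𝔖.nm → ∀ y : DelDart h, (delMap h).src y = (delMap h).src (𝔖.em k) → y ∈ M.Left := by
    intro k hk1 hk2 y hy
    refine hM.inn _ ?_ y hy
    have a1 : ‖((delMap h).src (𝔖.em k) : ℂ) - τ.cm hh z‖ < N.rho2 * hh := (hl1 k hk1 hk2).1
    show ‖((delMap h).src (𝔖.em k) : ℂ) - τ.cm hh z‖ ≤ r
    linarith
  have hp : PvtzPiece (delMap h) s (𝔖.em 𝔖.nm) M.Left (pvtzChi (delMap h) (fun v => ζ * dlsPos Y v) z₀) 0 (𝔖.nm - i₀) :=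
    E.piece hz1 (Nat.sub_le _ _) fun k _ hk2 => by rw [hit k (by omega)]; exact hin _ (by omega) (Nat.sub_le _ _) _ rfl
  obtain ⟨i, hi, ei⟩ := h1
  obtain ⟨j, hj, ej⟩ := h1'
  have hi0 : i₀ ≤ i := by
    by_contra hlt
    have := (hl2 i (not_le.1 hlt)).1
    rw [ei] at this
    exact absurd hn1 (not_le.2 this)
  have hj0 : i₀ ≤ j := by
    by_contra hlt
    have := (hl2 j (not_le.1 hlt)).2
    rw [ej] at this
    exact absurd hn2 (not_le.2 this)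
  have hiti : pvasIt (delMap h) s (𝔖.em 𝔖.nm) (𝔖.nm - i) = 𝔖.em i := by rw [hit _ (Nat.sub_le _ _), Nat.sub_sub_self hi]
  have hitj : pvasIt (delMap h) s (𝔖.em 𝔖.nm) (𝔖.nm - j) = 𝔖.em j := by rw [hit _ (Nat.sub_le _ _), Nat.sub_sub_self hj]
  have hχ : pvtzChi (delMap h) (fun v => ζ * dlsPos Y v) z₀ x = 0 := by
    refine pvtz_chi_west ?_ ?_
    · have := (E.box (𝔖.nm - i) (Nat.sub_le _ _)).1
      rw [hiti, ei] at this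
      exact lt_of_le_of_lt this hz1
    · have := (E.box (𝔖.nm - j) (Nat.sub_le _ _)).2
      rw [hitj, ej] at this
      exact lt_of_le_of_lt this hz1
  obtain ⟨k, hk, e⟩ := pvhg_no_tunnel (dls_simple h) (pl_left_face M) E.bw E.inj hu hp (Nat.zero_le _) (Nat.sub_le _ _) (Or.inl (hin i hi0 hi x ei.symm)) hχ
    ⟨𝔖.nm - i, Nat.zero_le _, by omega, by rw [hiti, ei]⟩ ⟨𝔖.nm - j, Nat.zero_le _, by omega, by rw [hitj, ej]⟩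
  exact ⟨𝔖.nm - k, Nat.sub_le _ _, e.trans (hit k hk)⟩

/-! ## 6. ONE STOP on the datum of record -/

section datum

variable {𝔇 : PvwDat (delMap h)} {π : PvwPat} {σ : Y → Bool} {K : Set Y}

/-- the geometry of a link region `K` round the two tips (numbers `r r₁ ρ`: radius of the mouths of record, inner mouth, mesh) -/
structure PvhgGeo {D : Type} {T : PvMap Y D} (𝔇 : PvwDat T) (N : PvwNum) (hh : ℝ) (π : PvwPat) (K : Set Y) (r r₁ ρ : ℝ) : Prop where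
  rho : 0 < ρ
  r2 : N.rho2 * hh ≤ r
  r1 : N.rho * hh / 4 + 2 * ρ ≤ r₁
  rr : 3 * r₁ + 2 * ρ ≤ r
  mesh_t : VorDense Y (closedBall (π.tt.cp hh π.zt) (r + 3 * ρ)) ρ
  mesh_s : VorDense Y (closedBall (π.ts.cm hh π.zs) (r + 3 * ρ)) ρ
  far_t : r + 4 * ρ + r₁ + π.tt.b * hh ≤ pvwRad N hh π.tt π.tt.k
  far_s : r + 4 * ρ + r₁ + π.ts.b * hh ≤ pvwRad N hh π.ts π.ts.k
  /-- `K` lies over `Yin` -/
  yin : ∀ v ∈ K, (v : ℂ) ∈ π.Yin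
  /-- the frozen sites of `K` are close to the tip of their stub -/
  near_t : ∀ v ∈ K, v ∈ 𝔇.t.bkP ∪ 𝔇.t.whP → ‖(v : ℂ) - π.tt.cp hh π.zt‖ ≤ N.rho1 * hh / 2
  near_s : ∀ v ∈ K, v ∈ 𝔇.s.bkM ∪ 𝔇.s.whM → ‖(v : ℂ) - π.ts.cm hh π.zs‖ ≤ N.rho1 * hh / 2
  /-- the two tips are apart -/
  sep : N.rho1 * hh + 2 * ρ < ‖π.tt.cp hh π.zt - π.ts.cm hh π.zs‖
  rho12 : N.rho1 * hh / 2 ≤ N.rho2 * hh
  /-- `g⁺(t)` is not in the box of `s` -/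
  gp : (𝔇.t.gp : ℂ) ∉ pvwSq π.zs (pvwRad N hh π.ts π.ts.k)

/-- **`PvhgTight` on the datum of record** -/
theorem pvhg_tight (hOk : 𝔇.Ok (dlsPos Y) N hh π) (hG : PvhgGeo 𝔇 N hh π K r r₁ ρ) (hσ : PvwAgree 𝔇.fzY σ 𝔇.col) : PvhgTight 𝔇 K σ := by
  have hT := dls_isSph h
  have at_t : 𝔇.t.AtOut (dlsPos Y) N hh π.zt π.tt σ := pvwk_atOut_congr hT hOk.st_t fun v hv => (hσ v (Or.inl hv)).symm
  have at_s : 𝔇.s.AtIn (dlsPos Y) N hh π.zs π.ts σ := pvwk_atIn_congr hT hOk.st_s fun v hv => (hσ v (Or.inr hv)).symm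
  obtain ⟨ct1, ct2⟩ := pvwk_atOut_cols at_t
  obtain ⟨cs1, cs2⟩ := pvwk_atIn_cols at_s
  have hcore : ∀ v ∈ K, v ∉ 𝔇.t.core ∧ v ∉ 𝔇.s.core := fun v hv =>
    ⟨fun hc => hOk.core_off v (Or.inr hc) (hG.yin v hv), fun hc => hOk.core_off v (Or.inl hc) (hG.yin v hv)⟩
  intro x hx hsK htK hsF htF
  have hb : (delMap h).src x ∈ 𝔇.t.bkP ∨ (delMap h).src x ∈ 𝔇.s.bkM := by
    rcases hsF with ((hh1 | hh1) | hh1) | ((hh1 | hh1) | hh1)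
    · exact absurd hh1 (hcore _ hsK).1
    · exact Or.inl hh1
    · exact absurd (ct2 _ hh1) (by rw [hx.1]; exact Bool.true_eq_false_eq_False)
    · exact absurd hh1 (hcore _ hsK).2
    · exact Or.inr hh1
    · exact absurd (cs2 _ hh1) (by rw [hx.1]; exact Bool.true_eq_false_eq_False)
  have hw : (delMap h).tgt x ∈ 𝔇.t.whP ∨ (delMap h).tgt x ∈ 𝔇.s.whM := by
    rcases htF with ((hh1 | hh1) | hh1) | ((hh1 | hh1) | hh1)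
    · exact absurd hh1 (hcore _ htK).1
    · exact absurd (ct1 _ hh1) (by rw [hx.2]; exact Bool.false_eq_true_eq_False)
    · exact Or.inl hh1
    · exact absurd hh1 (hcore _ htK).2
    · exact absurd (cs1 _ hh1) (by rw [hx.2]; exact Bool.false_eq_true_eq_False)
    · exact Or.inr hh1
  have mixed : ∀ v w : Y, ‖(v : ℂ) - π.tt.cp hh π.zt‖ ≤ N.rho1 * hh / 2 → ‖(w : ℂ) - π.ts.cm hh π.zs‖ ≤ N.rho1 * hh / 2 → ¬ DelAdj Y v w := by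
    intro v w hv hw' hvw
    have a1 : ‖(v : ℂ) - w‖ ≤ 2 * ρ := pvhg_adj_short hG.rho (pvhg_dense_sub hG.mesh_t (by linarith [hG.r2, hG.rho12, hG.rho])) hvw
    have a2 := pvhg_tri3 (π.tt.cp hh π.zt) (v : ℂ) (π.ts.cm hh π.zs)
    have a3 := pvhg_tri3 (v : ℂ) (w : ℂ) (π.ts.cm hh π.zs)
    have a4 := norm_sub_rev (π.tt.cp hh π.zt) (v : ℂ)
    linarith [hG.sep]
  rcases hb with hb | hb <;> rcases hw with hw | hw
  · exact Or.inl (pvhg_tight_out at_t hG.rho hG.r2 hG.r1 hG.rr hG.mesh_t hG.far_t hb hw (hG.near_t _ hsK (Or.inl hb)) (hG.near_t _ htK (Or.inr hw)))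
  · exact absurd (dls_dart_adj x) (mixed _ _ (hG.near_t _ hsK (Or.inl hb)) (hG.near_s _ htK (Or.inr hw)))
  · exact absurd (dls_dart_adj x).symm (mixed _ _ (hG.near_t _ htK (Or.inr hw)) (hG.near_s _ hsK (Or.inl hb)))
  · exact Or.inr (pvhg_tight_in at_s hG.rho hG.r2 hG.r1 hG.rr hG.mesh_s hG.far_s hb hw (hG.near_s _ hsK (Or.inl hb)) (hG.near_s _ htK (Or.inr hw)))

/-- **HOOK-DET, LAST STEP, ONE STOP**: on a datum of record in the Delaunay map, a run `tip of Σ⁺(t) → tip of Σ⁻(s)` inside a link region `K` gives `SY` of record -/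
theorem pvhg_SY_del (hOk : 𝔇.Ok (dlsPos Y) N hh π) (hG : PvhgGeo 𝔇 N hh π K r r₁ ρ) (hσ : PvwAgree 𝔇.fzY σ 𝔇.col)
    (hrun : PvldRun (delMap h) σ K (𝔇.t.ep 𝔇.t.np) (𝔇.s.em 𝔇.s.nm)) : 𝔇.SY (dlsPos Y) π σ :=
  pvhg_SY_of_run hOk.st_t.stub hOk.st_s.stub hOk.st_t.gate.bw_p hOk.st_s.gate.bw_m hσ hG.gp
    (fun hK => hOk.core_off _ (Or.inr (pvwk_ins_sub_core hOk.st_t.gate (pvwk_gate_ends (dls_isSph h) hOk.st_t.gate).1)) (hG.yin _ hK)) hG.yin hOk.tip_f.1 (pvhg_tight hOk hG hσ) hrun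

/-- the same for any presentation of the Delaunay plane (`P := delbPl Y`, `hP := delb_pl_eq h` for `pvxT ω` of `Defs/TrModel`) -/
theorem pvhg_SY_pl {P : PlTri ↥Y} (hP : P = delPl h) {𝔇 : PvwDat P.toMap} (hOk : 𝔇.Ok (dlsPos Y) N hh π) (hG : PvhgGeo 𝔇 N hh π K r r₁ ρ) (hσ : PvwAgree 𝔇.fzY σ 𝔇.col)
    (hrun : PvldRun P.toMap σ K (𝔇.t.ep 𝔇.t.np) (𝔇.s.em 𝔇.s.nm)) : 𝔇.SY (dlsPos Y) π σ := by
  subst hP
  exact pvhg_SY_del hOk hG hσ hrun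

end datum

end del

end Claimed.Agent.R289
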