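import Claimed.Agent.R289.Tr.HookIn
import Claimed.Agent.R289.Tr.TipDel
import Claimed.Agent.R289.Tr.LaneDet
import Claimed.Agent.R289.Tr.Geo
import Claimed.Agent.R289.Tr.HookG

/-!
# Row 289 (S0537, Cardy for Poisson-Voronoi), box TR, WB5 HOOK, file Tr/HookY : HOOK-DET FOR `SY`      (owner helper23; prefix `pvhj_`, defs `pvhj…`, `Pvhj…`)

E10 (LINK BOUND), deterministic half: patterns of the copy colouring ⟹ the strand continued from the tip of an exit stub reaches the tip of an entrance stub inside a DETERMINISTIC set of sites `K`.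
Tools: tip potential (`Tr/Tip`, `Tr/TipDel`, 23), LEMMA JB (`Tr/HookIn`, 165: `pvhi_exit`, `pvhi_ent`), EXIST FOR LANES (`Tr/LaneDet`, 70: `pvld_exist`).

* sec.1  `pvhj_first` (first visit of a join to a set);   **`pvhj_exit`**, **`pvhj_ent`** = JB WITH A TARGET SET `H`: the closing path may meet the landing set `X`, on the side of the colour `β`, anywhere in `H`;   conclusion: the end of colour `β` of the tip is
         joined inside the closed mouth to SOME site of `H`, through explored sites of colour `β` and unexplored sites of `X`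
* sec.3  Delaunay map: `pvhjV Y κ β G` (sites of colour `β` for `κ` whose cell meets `G`), `pvhjA Y G` (all the sites whose cell meets `G`);   they are connected when `G` is preconnected (`pvhj_V_conn`, `pvhj_A_conn`);   joins of a mouth (`pvhj_in_mouth`)
* sec.4  `pvhj_bar` : the barrier from three preconnected sets
* sec.5  record `PvhjArm`;   **`pvhj_tip_exit`**, **`pvhj_tip_ent`** : THE TIP THEOREMS ON THE DELAUNAY MAP, in terms of three preconnected sets `GN` (arm of the lane on the side of the colour `β`, outside the box), `GC` (the C-shape round the tip), `Σ` (closing set outside the box)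
* sec.6  THE HALF STATES OF RECORD (`Tr/Defs` v3, over `pvhg_exit`, `pvhg_ent` of 90): **`pvhj_st_exit`** (`AtOut` + mesh + radii + side + arm), **`pvhj_st_ent`** (`AtIn`): no mouth, no potential, no calm hypothesis left
* sec.7  ASSEMBLY.   **`PvhjFoot h σ κ K a H`** = THE INTERFACE OF AN END OF A LINK (for each colour `β` the end of colour `β` of the dart `a` is joined inside `{v ∈ K | σ v = β}` to a site of copy colour `β` whose cell meets `H β`),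
         `PvhjMid Y σ κ K G` (the lanes), **`pvhj_run_foot`** : two feet + lanes ⟹ `PvldRun`;   records `PvhjEnd` (numbers at one tip), `PvhjPat` (pattern of the copy colouring: sites, copy colours, regions; no state, no datum);
         `pvhj_inK`, `pvhj_end_K` (`PvhjEnd` for `K = pvgeKV Y S`);   feet of half states **`pvhj_foot_out`**, **`pvhj_foot_in`**, `pvhj_out_stub`;   HYBRID LINKS (one tip + any foot, e.g. a door): **`pvhj_run_out`**, **`pvhj_run_in`**;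
         **`pvhj_run_st`** : TWO HALF STATES, TWO SCALES (`AtOut` at `(ht, zt, τt)`, `AtIn` at `(hs, zs, τs)`) + `PvhjEnd` x 2 + `PvhjPat` ⟹ `PvldRun (delMap h) σ K (tip of Σ⁺) (tip of Σ⁻)`;
         datum of record: `PvhjGeo` (colour-free), **`pvhj_run_dat`**, **`pvhj_SY`** : `𝔇.Ok` + `PvhgGeo` (90) + `PvhjGeo` + `PvhjPat` + `σ = col` on `fzY` + `σ = κ` on the fresh sites of `K` ⟹ `𝔇.SY (dlsPos Y) π σ`
* sec.8  ANY PRESENTATION `P = delPl h` of the Delaunay plane (`pvxT ω`, `pvieT η`: `P := delbPl Y`, `hP := delb_pl_eq h`): `PvhjFootP`, `pvhj_K_pl`, `pvhj_foot_out_pl`, `pvhj_foot_in_pl`, `pvhj_run_foot_pl`, **`pvhj_run_out_pl`**, **`pvhj_run_in_pl`**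
v6 (298): `rt` is no longer tied to `ρ h / 4`: `PvhjEnd` has lost `rt` / `rt0`; the tip theorems, feet and runs take `ht1 ht2 : ‖src | tgt (tip dart) - c‖ + 2ρ ≤ rt` (record: tip cell of radius `ρ h / 10`).
0 SORRY.
-/

set_option autoImplicit false
set_option linter.unusedSectionVars false
set_option linter.unusedVariables false

namespace Claimed.Agent.R289

open Relation Set Metric

/-! ## 1. JB with a target set -/

section abs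

variable {V D : Type} {T : PvMap V D}

/-- **first visit**: a join from `a` to a site of `H` contains a join from `a` to a site `x0` of `H` which meets `H` only at `x0` -/
theorem pvhj_first {A : Set D} {X H : Set V} {a b : V} (h : T.Join A X a b) (hb : b ∈ H) : ∃ x0, x0 ∈ H ∧ x0 ∈ X ∧ T.Join A ((X \ H) ∪ {x0}) a x0 := by
  obtain ⟨ha, hp⟩ := h
  by_contra hcon
  have key : ∀ y, ReflTransGen (fun p q => T.EdgeIn A p q ∧ q ∈ X) a y → y ∉ H ∧ T.Join A (X \ H) a y := by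
    intro y hy
    induction hy with
    | refl =>
      have haH : a ∉ H := fun hH => hcon ⟨a, hH, ha, Or.inr rfl, ReflTransGen.refl⟩
      exact ⟨haH, ⟨ha, haH⟩, ReflTransGen.refl⟩
    | @tail y y' _ hyy ih =>
      have hy' : y' ∉ H := by
        intro hH
        refine hcon ⟨y', hH, hyy.2, Or.inl ih.2.1, ?_⟩
        exact ReflTransGen.tail (ReflTransGen.mono (fun p q hpq => ⟨hpq.1, Or.inl hpq.2⟩) _ _ ih.2.2) ⟨hyy.1, Or.inr rfl⟩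
      exact ⟨hy', ih.2.1, ih.2.2.tail ⟨hyy.1, hyy.2, hy'⟩⟩
  exact (key b hp).1 hb

/-- **the barrier at a tip** (`A` = faces of the closed mouth, `Ex` = explored set, `χ` = slit, `u` = tip potential, `uβ` = class of the colour `β`):
`X` = landing set (off the slit), `H` = target (class `uβ`; every site of `H` is joined in `X` to `xm`, which is in the other class), `Xc` = closing set of unexplored sites, joining `xm` to the site `x1` of `H`;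
on the side `uβ` the closing set meets `X` only in `H` -/
structure PvhjBar (T : PvMap V D) (A : Set D) (Ex : Set V) (χ : D → ZMod 2) (u : V → ZMod 2) (uβ : ZMod 2) (X H Xc : Set V) (xm x1 : V) : Prop where
  chi : ∀ x, T.src x ∈ X ∪ Ex → T.tgt x ∈ X ∪ Ex → χ x = 0
  fresh : ∀ v ∈ Xc, v ∉ Ex
  join : ∀ v ∈ H, T.Join A X v xm
  cls : ∀ v ∈ H, u v = uβ
  other : u xm ≠ uβ
  close : T.Join A Xc xm x1
  mem : x1 ∈ H
  meet : ∀ v ∈ Xc, v ∈ X → u v = uβ → v ∈ H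

variable {s : V → Bool} {d : D} {n : ℕ} {M : Set D} {χ : D → ZMod 2} {u : V → ZMod 2}

/-- **JB AT AN EXIT TIP, WITH A TARGET SET.** -/
theorem pvhj_exit (hT : T.IsSph) (Mc : T.Cyc) (hfin : Mc.Left.Finite) (hsub : Mc.Left ⊆ M) (hpot : PvtzPot T s d n M χ u) (h0 : T.opp d ∉ Mc.Left)
    (hbw : pvasBW T s d) (hinj : ∀ i j, i ≤ n → j ≤ n → pvasIt T s d i = pvasIt T s d j → i = j) (β : Bool) (uβ : ZMod 2)
    (hcls : ∀ v ∈ pvtzEx T s d n, v ∈ T.VOf Mc.Left → (u v = uβ ↔ s v = β)) {X H Xc : Set V} {xm x1 : V}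
    (B : PvhjBar T Mc.Left (pvtzEx T s d n) χ u uβ X H Xc xm x1) :
    ∃ x0 ∈ H, T.Join Mc.Left ({v | v ∈ pvtzEx T s d n ∧ s v = β} ∪ (X \ pvtzEx T s d n)) (pvhiEnd T β (pvasIt T s d n)) x0 := by
  obtain ⟨x0, hx0H, hx0c, hj⟩ := pvhj_first B.close B.mem
  refine ⟨x0, hx0H, ?_⟩
  have key := pvhi_exit hT Mc hfin hsub hpot h0 hbw hinj β uβ hcls (W := (pvtzEx T s d n)ᶜ) (Xq := X) (Xc := (Xc \ H) ∪ {x0}) (fun h => h) (fun _ _ b _ hb => hb) B.chi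
    (by
      rintro v (hv | hv)
      · exact B.fresh v hv.1
      · rw [mem_singleton_iff.1 hv]; exact B.fresh x0 hx0c)
    (B.join x0 hx0H) (pl_hx_join_symm hj) (by rw [B.cls x0 hx0H]; exact fun e => B.other e.symm)
    (by
      rintro v (hv | hv) hvX _ hvu
      · exact absurd (B.meet v hv.1 hvX hvu) hv.2
      · exact hv)
  exact key

/-- **JB AT AN ENTRANCE TIP, WITH A TARGET SET.**   `d` = the tip position, the stub is listed forwards. -/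
theorem pvhj_ent (hT : T.IsSph) (Mc : T.Cyc) (hfin : Mc.Left.Finite) (hsub : Mc.Left ⊆ M) (hpot : PvtzPot T s d n M χ u) (h0 : pvasIt T s d n ∉ Mc.Left)
    (hbw : pvasBW T s d) (hinj : ∀ i j, i ≤ n → j ≤ n → pvasIt T s d i = pvasIt T s d j → i = j) (β : Bool) (uβ : ZMod 2)
    (hcls : ∀ v ∈ pvtzEx T s d n, v ∈ T.VOf Mc.Left → (u v = uβ ↔ s v = β)) {X H Xc : Set V} {xm x1 : V}
    (B : PvhjBar T Mc.Left (pvtzEx T s d n) χ u uβ X H Xc xm x1) :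
    ∃ x0 ∈ H, T.Join Mc.Left ({v | v ∈ pvtzEx T s d n ∧ s v = β} ∪ (X \ pvtzEx T s d n)) (pvhiEnd T β d) x0 := by
  obtain ⟨x0, hx0H, hx0c, hj⟩ := pvhj_first B.close B.mem
  refine ⟨x0, hx0H, ?_⟩
  have key := pvhi_ent hT Mc hfin hsub hpot h0 hbw hinj β uβ hcls (W := (pvtzEx T s d n)ᶜ) (Xq := X) (Xc := (Xc \ H) ∪ {x0}) (fun h => h) (fun _ _ b _ hb => hb) B.chi
    (by
      rintro v (hv | hv)
      · exact B.fresh v hv.1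
      · rw [mem_singleton_iff.1 hv]; exact B.fresh x0 hx0c)
    (B.join x0 hx0H) (pl_hx_join_symm hj) (by rw [B.cls x0 hx0H]; exact fun e => B.other e.symm)
    (by
      rintro v (hv | hv) hvX _ hvu
      · exact absurd (B.meet v hv.1 hvX hvu) hv.2
      · exact hv)
  exact key

/-- **classes of the banks of a piece**: a site of the banks of the piece `m..n'` is in the class of the end of colour `β` of any position of the piece iff it has the colour `β` -/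
theorem pvhj_cls (hM : T.FaceSet M) (hd : pvasBW T s d) (hu : PvtzPot T s d n M χ u)
    {m n' : ℕ} (hp : PvtzPiece T s d M χ m n') (hne : u (T.src (pvasIt T s d m)) ≠ u (T.tgt (pvasIt T s d m))) {k0 : ℕ} (h1 : m ≤ k0) (h2 : k0 ≤ n') (β : Bool) {v : V}
    (hv : v ∈ pvtzB T s d m n' ∪ pvtzW T s d m n') : u v = u (pvhiEnd T β (pvasIt T s d k0)) ↔ s v = β := by
  have hc := pvtz_piece_const hM hd hu hp h1 h2
  rcases hv with hv | hv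
  · have e1 := pvtz_B_const hM hd hu hp hv
    have e2 := pvtz_B_black hd hv
    cases β
    · show u v = u (T.tgt (pvasIt T s d k0)) ↔ s v = false
      rw [e1, e2, hc.2]
      exact ⟨fun e => absurd e hne, fun e => Bool.noConfusion e⟩
    · show u v = u (T.src (pvasIt T s d k0)) ↔ s v = true
      rw [e1, e2, hc.1]
      exact ⟨fun _ => rfl, fun _ => rfl⟩
  · have e1 := pvtz_W_const hM hd hu hp hv
    have e2 := pvtz_W_white hd hv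
    cases β
    · show u v = u (T.tgt (pvasIt T s d k0)) ↔ s v = false
      rw [e1, e2, hc.2]
      exact ⟨fun _ => rfl, fun _ => rfl⟩
    · show u v = u (T.src (pvasIt T s d k0)) ↔ s v = true
      rw [e1, e2, hc.1]
      exact ⟨fun e => absurd e.symm hne, fun e => Bool.noConfusion e⟩

/-- a join of a face set stays among the vertices of the face set -/
theorem pvhj_join_VOf {A : Set D} (hA : T.FaceSet A) {X : Set V} {a b : V} (h : T.Join A X a b) (ha : a ∈ T.VOf A) : T.Join A (X ∩ T.VOf A) a b := by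
  refine ⟨⟨h.1, ha⟩, ReflTransGen.mono (fun p q hpq => ⟨hpq.1, hpq.2, ?_⟩) _ _ h.2⟩
  obtain ⟨x, hx | hx, -, e2⟩ := hpq.1
  · exact ⟨T.nxt x, (hA x).2 hx, by rw [T.src_nxt, e2]⟩
  · exact ⟨T.opp x, hx, by rw [T.src_opp', e2]⟩

/-- a join all of whose sites are within `r` of the centre of a mouth at radius `(r, r')` is a join of the mouth -/
theorem pvhj_in_mouth {pos : V → ℂ} {c : ℂ} {r r' : ℝ} {Mc : T.Cyc} (hM : PvaxAt T pos c r r' Mc) {S : Set V} (hS : ∀ v ∈ S, ‖pos v - c‖ ≤ r) {a b : V}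
    (h : T.Join univ S a b) : T.Join Mc.Left S a b := by
  refine ⟨h.1, ?_⟩
  have key : ∀ y, ReflTransGen (fun p q => T.EdgeIn univ p q ∧ q ∈ S) a y → y ∈ S ∧ ReflTransGen (fun p q => T.EdgeIn Mc.Left p q ∧ q ∈ S) a y := by
    intro y hy
    induction hy with
    | refl => exact ⟨h.1, ReflTransGen.refl⟩
    | @tail y y' _ hyy ih =>
      obtain ⟨x, -, e1, e2⟩ := hyy.1
      exact ⟨hyy.2, ih.2.tail ⟨⟨x, Or.inl (hM.inn y (hS y ih.1) x e1), e1, e2⟩, hyy.2⟩⟩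
  exact (key b h.2).2

end abs

/-! ## 3. the Delaunay map: sites whose cell meets a set -/

section del

variable {Y : Set ℂ}

/-- the sites of colour `β` (for the copy colouring `κ`) whose cell meets `G` -/
def pvhjV (Y : Set ℂ) (κ : ℂ → Bool) (β : Bool) (G : Set ℂ) : Set ↥Y := {v | κ v = β ∧ (vorCell Y v ∩ G).Nonempty}

/-- all the sites whose cell meets `G` -/
def pvhjA (Y : Set ℂ) (G : Set ℂ) : Set ↥Y := {v | (vorCell Y v ∩ G).Nonempty}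

/-- `w` is above (`up = true`) / below (`up = false`) the strip `[yL - μ, yU + μ]` -/
def pvhjSide (up : Bool) (yL yU μ : ℝ) (w : ℂ) : Prop := if up = true then yU + μ < w.im else w.im < yL - μ

theorem pvhj_eqns_cite : True := by
  have := @pvhjV.eq_1; have := @pvhjA.eq_1; have := @pvhjSide.eq_1
  trivial

theorem pvhj_V_mono (κ : ℂ → Bool) (β : Bool) {G G' : Set ℂ} (h : G ⊆ G') : pvhjV Y κ β G ⊆ pvhjV Y κ β G' :=
  fun _ hv => ⟨hv.1, hv.2.mono (inter_subset_inter_right _ h)⟩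

theorem pvhj_V_sub_A (κ : ℂ → Bool) (β : Bool) (G : Set ℂ) : pvhjV Y κ β G ⊆ pvhjA Y G := fun _ hv => hv.2

/-- a point of a set covered by the cells of colour `β` lies in the cell of a site of `pvhjV` -/
theorem pvhj_V_exists {κ : ℂ → Bool} {β : Bool} {G : Set ℂ} (hcov : G ⊆ vorUn Y {v | v ∈ Y ∧ κ v = β}) {p : ℂ} (hp : p ∈ G) : ∃ v : Y, κ v = β ∧ p ∈ vorCell Y v := by
  obtain ⟨v, hv, hpv⟩ := hcov hp
  exact ⟨⟨v, hv.1⟩, hv.2, hpv⟩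

/-- **the sites of colour `β` whose cell meets a preconnected set covered by the cells of colour `β` are connected** -/
theorem pvhj_V_conn (h : DelGood Y) {κ : ℂ → Bool} {β : Bool} {G : Set ℂ} (hG : IsPreconnected G) (hcov : G ⊆ vorUn Y {v | v ∈ Y ∧ κ v = β}) {a b : Y}
    (ha : a ∈ pvhjV Y κ β G) (hb : b ∈ pvhjV Y κ β G) : (delMap h).Join univ (pvhjV Y κ β G) a b := by
  have hch := vor_block_connected_in h.lf (A := {v | v ∈ Y ∧ κ v = β}) (fun v hv => hv.1) hG hcov ⟨a.2, ha.1⟩ ha.2 ⟨b.2, hb.1⟩ hb.2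
  refine ⟨ha, ?_⟩
  have key : ∀ x : ℂ, ReflTransGen (fun x y => x ∈ {v | v ∈ Y ∧ κ v = β} ∧ y ∈ {v | v ∈ Y ∧ κ v = β} ∧ (vorCell Y x ∩ vorCell Y y ∩ G).Nonempty) a x →
      ∃ hx : x ∈ Y, ReflTransGen (fun u v => (delMap h).EdgeIn univ u v ∧ v ∈ pvhjV Y κ β G) a ⟨x, hx⟩ := by
    intro x hx
    induction hx with
    | refl => exact ⟨a.2, ReflTransGen.refl⟩
    | @tail v w _ hvw ih =>
      obtain ⟨hv, hch'⟩ := ih
      obtain ⟨-, hwA, z, ⟨hzv, hzw⟩, hzG⟩ := hvw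
      refine ⟨hwA.1, ?_⟩
      by_cases e : v = w
      · subst e; exact hch'
      · exact hch'.tail ⟨(dls_edgeIn_univ h _ _).2 ⟨hv, hwA.1, e, ⟨z, hzv, hzw⟩⟩, hwA.2, ⟨z, hzw, hzG⟩⟩
  obtain ⟨_, hch'⟩ := key b hch
  exact hch'

/-- **the sites whose cell meets a preconnected set are connected** -/
theorem pvhj_A_conn (h : DelGood Y) {G : Set ℂ} (hG : IsPreconnected G) {a b : Y} (ha : a ∈ pvhjA Y G) (hb : b ∈ pvhjA Y G) : (delMap h).Join univ (pvhjA Y G) a b := by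
  refine ⟨ha, ReflTransGen.mono (fun u v huv => ?_) _ _ (dlc_conn h hG a ⟨a.2, ha⟩ b ⟨b.2, hb⟩)⟩
  obtain ⟨x, e1, e2⟩ := huv.1
  exact ⟨⟨x, Or.inl (mem_univ _), e1, e2⟩, huv.2.2⟩

/-- a point of an open triangle is not higher than its highest vertex, not lower than its lowest vertex -/
theorem pvhj_tri_im {a b c z : ℂ} (hz : z ∈ delTo a b c) {yL yU : ℝ} (ha : yL ≤ a.im ∧ a.im ≤ yU) (hb : yL ≤ b.im ∧ b.im ≤ yU) (hc : yL ≤ c.im ∧ c.im ≤ yU) : yL ≤ z.im ∧ z.im ≤ yU := by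
  obtain ⟨h1, h2, h3⟩ := hz
  have hsum : vorDet a b z + vorDet b c z + vorDet c a z = vorDet a b c := by unfold vorDet; ring
  have hid : (vorDet a b z + vorDet b c z + vorDet c a z) * z.im = vorDet b c z * a.im + vorDet c a z * b.im + vorDet a b z * c.im := by unfold vorDet; ring
  have hD : 0 < vorDet a b z + vorDet b c z + vorDet c a z := by positivity
  constructor
  · by_contra hcon
    rw [not_le] at hcon
    have : (vorDet a b z + vorDet b c z + vorDet c a z) * z.im < (vorDet a b z + vorDet b c z + vorDet c a z) * yL := mul_lt_mul_of_pos_left hcon hD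
    nlinarith [mul_le_mul_of_nonneg_left ha.1 h2.le, mul_le_mul_of_nonneg_left hb.1 h3.le, mul_le_mul_of_nonneg_left hc.1 h1.le]
  · by_contra hcon
    rw [not_le] at hcon
    have : (vorDet a b z + vorDet b c z + vorDet c a z) * yU < (vorDet a b z + vorDet b c z + vorDet c a z) * z.im := mul_lt_mul_of_pos_left hcon hD
    nlinarith [mul_le_mul_of_nonneg_left ha.2 h2.le, mul_le_mul_of_nonneg_left hb.2 h3.le, mul_le_mul_of_nonneg_left hc.2 h1.le]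

/-! ## 4. the barrier from three preconnected sets -/

theorem pvhj_side_cls {up : Bool} {yL yU μ : ℝ} {z w : ℂ} (hzL : yL ≤ z.im) (hzU : z.im ≤ yU) (hμ : 0 ≤ μ) (h : pvhjSide up yL yU μ w) : plI (w.im ≤ z.im) = plI (up = false) := by
  cases up
  · have h' : w.im < yL - μ := h
    rw [pl_hx_I_pos (by linarith : w.im ≤ z.im), pl_hx_I_pos rfl]
  · have h' : yU + μ < w.im := h
    rw [pl_hx_I_neg (by intro e; linarith : ¬ w.im ≤ z.im), pl_hx_I_neg (by intro e; exact Bool.noConfusion e)]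

theorem pvhj_side_far {up : Bool} {yL yU μ : ℝ} {z w : ℂ} (hzL : yL ≤ z.im) (hzU : z.im ≤ yU) (h : pvhjSide up yL yU μ w) : μ < |w.im - z.im| := by
  cases up
  · have h' : w.im < yL - μ := h
    rw [lt_abs]; right; linarith
  · have h' : yU + μ < w.im := h
    rw [lt_abs]; left; linarith

theorem pvhj_z2_ne (a : ZMod 2) (up : Bool) : a + plI ((!up) = false) ≠ a + plI (up = false) := by
  cases up
  · rw [pl_hx_I_neg (p := (!false) = false) (by intro e; exact Bool.noConfusion e), pl_hx_I_pos (p := false = false) rfl]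
    revert a; decide
  · rw [pl_hx_I_pos (p := (!true) = false) rfl, pl_hx_I_neg (p := true = false) (by intro e; exact Bool.noConfusion e)]
    revert a; decide

/-- **THE BARRIER FROM THREE PRECONNECTED SETS**, in the picture rotated by `ζ` (box `{re ≤ xB}`, horizontal ray issued from `z`, `yL ≤ im z ≤ yU`).   `up` = the side of the ray on which the class `uβ` lies outside the box.
`GN` = arm of the lane (outside the box, on the side `up`), `GC` = the C-shape (off the strip outside the box), both covered by the cells of colour `β` of the copy colouring `κ`;   `Sg` = closing set, outside the box;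
a site whose cell meets `Sg` and `GC` is on the other side. -/
theorem pvhj_bar (h : DelGood Y) {ζ : ℂ} (hζ : ‖ζ‖ = 1) {Ex : Set Y} {xB : ℝ} (hEx : ∀ v ∈ Ex, (ζ * (v : ℂ)).re ≤ xB) {z : ℂ} (hz1 : xB < z.re) {yL yU μ : ℝ} (hzL : yL ≤ z.im) (hzU : z.im ≤ yU) (hμ : 0 ≤ μ)
    {u : Y → ZMod 2} {u0 uβ : ZMod 2} {up : Bool} (hup : uβ = u0 + plI (up = false)) {c : ℂ} {r₁ rs rs' : ℝ}
    (hval : ∀ y : Y, xB < (ζ * y).re → ‖(y : ℂ) - c‖ ≤ r₁ → u y = u0 + plI ((ζ * y).im ≤ z.im))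
    {Mc : (delMap h).Cyc} (hMc : PvaxAt (delMap h) (dlsPos Y) c rs rs' Mc) (hrs : rs ≤ r₁)
    (hedge : ∀ x : DelDart h, ‖((delMap h).src x : ℂ) - c‖ ≤ rs → ‖((delMap h).src x : ℂ) - (delMap h).tgt x‖ ≤ μ)
    (κ : ℂ → Bool) (β : Bool) {GN GC Sg : Set ℂ} (hGN : IsPreconnected GN) (hGC : IsPreconnected GC) (hSg : IsPreconnected Sg) (hNC : (GN ∩ GC).Nonempty)
    (hcov : GN ∪ GC ⊆ vorUn Y {v | v ∈ Y ∧ κ v = β})
    (hin : ∀ v : Y, (vorCell Y v ∩ (GN ∪ GC ∪ Sg)).Nonempty → ‖(v : ℂ) - c‖ ≤ rs)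
    (hSo : ∀ v : Y, (vorCell Y v ∩ Sg).Nonempty → xB < (ζ * v).re)
    (hN : ∀ v : Y, (vorCell Y v ∩ GN).Nonempty → xB < (ζ * v).re ∧ pvhjSide up yL yU μ (ζ * v))
    (hC : ∀ v : Y, (vorCell Y v ∩ GC).Nonempty → (ζ * v).re ≤ xB ∨ pvhjSide true yL yU μ (ζ * v) ∨ pvhjSide false yL yU μ (ζ * v))
    (hSC : ∀ v : Y, (vorCell Y v ∩ Sg).Nonempty → (vorCell Y v ∩ GC).Nonempty → pvhjSide (!up) yL yU μ (ζ * v))
    (hSC0 : (Sg ∩ GC).Nonempty) (hSN0 : (Sg ∩ GN).Nonempty) :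
    ∃ xm x1 : Y, PvhjBar (delMap h) Mc.Left Ex (pvtzChi (delMap h) (fun v => ζ * dlsPos Y v) z) u uβ (pvhjV Y κ β (GN ∪ GC)) (pvhjV Y κ β GN) (pvhjA Y Sg) xm x1 := by
  obtain ⟨pS, hpS1, hpS2⟩ := hSC0
  obtain ⟨pN, hpN1, hpN2⟩ := hSN0
  obtain ⟨xm, hxm1, hxm2⟩ := pvhj_V_exists hcov (Or.inr hpS2 : pS ∈ GN ∪ GC)
  obtain ⟨x1, hx11, hx12⟩ := pvhj_V_exists hcov (Or.inl hpN2 : pN ∈ GN ∪ GC)
  have hU : IsPreconnected (GN ∪ GC) := by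
    obtain ⟨p, hp1, hp2⟩ := hNC
    exact IsPreconnected.union p hp1 hp2 hGN hGC
  have hXin : ∀ v ∈ pvhjV Y κ β (GN ∪ GC), ‖dlsPos Y v - c‖ ≤ rs := fun v hv => hin v (hv.2.mono (inter_subset_inter_right _ subset_union_left))
  have hAin : ∀ v ∈ pvhjA Y Sg, ‖dlsPos Y v - c‖ ≤ rs := fun v hv => hin v (Set.Nonempty.mono (inter_subset_inter_right _ subset_union_right) hv)
  -- position of the sites of `X ∪ Ex`
  have hpos : ∀ v : Y, v ∈ pvhjV Y κ β (GN ∪ GC) ∪ Ex → (ζ * (v : ℂ)).re ≤ xB ∨ (‖(v : ℂ) - c‖ ≤ rs ∧ μ < |(ζ * (v : ℂ)).im - z.im|) := by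
    rintro v (hv | hv)
    · obtain ⟨p, hp1, hp2 | hp2⟩ := hv.2
      · exact Or.inr ⟨hXin v hv, pvhj_side_far hzL hzU (hN v ⟨p, hp1, hp2⟩).2⟩
      · rcases hC v ⟨p, hp1, hp2⟩ with e | e | e
        · exact Or.inl e
        · exact Or.inr ⟨hXin v hv, pvhj_side_far hzL hzU e⟩
        · exact Or.inr ⟨hXin v hv, pvhj_side_far hzL hzU e⟩
    · exact Or.inl (hEx v hv)
  have hclsU : ∀ v : Y, xB < (ζ * v).re → ‖(v : ℂ) - c‖ ≤ rs → pvhjSide up yL yU μ (ζ * v) → u v = uβ := by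
    intro v h1 h2 h3
    rw [hval v h1 (h2.trans hrs), pvhj_side_cls hzL hzU hμ h3, hup]
  have hclsD : ∀ v : Y, xB < (ζ * v).re → ‖(v : ℂ) - c‖ ≤ rs → pvhjSide (!up) yL yU μ (ζ * v) → u v ≠ uβ := by
    intro v h1 h2 h3
    rw [hval v h1 (h2.trans hrs), pvhj_side_cls hzL hzU hμ h3, hup]
    exact pvhj_z2_ne u0 up
  refine ⟨xm, x1, ?_, ?_, ?_, ?_, ?_, ?_, ?_, ?_⟩
  · -- the slit
    intro x hx1 hx2
    rcases hpos _ hx1 with e1 | ⟨e1, e1'⟩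
    · rcases hpos _ hx2 with e2 | ⟨e2, e2'⟩
      · exact pvtz_chi_west (lt_of_le_of_lt e1 hz1) (lt_of_le_of_lt e2 hz1)
      · rw [← pvtz_chi_sym (fun v => ζ * dlsPos Y v) z x]
        refine pvtz_chi_strip (μ := μ) ?_ ?_
        · rw [(delMap h).src_opp', (delMap h).tgt_opp, pvtzd_norm_mul hζ]
          have := hedge ((delMap h).opp x) (by rw [(delMap h).src_opp']; exact e2)
          rwa [(delMap h).src_opp', (delMap h).tgt_opp] at this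
        · rw [(delMap h).src_opp']; exact e2'
    · refine pvtz_chi_strip (μ := μ) ?_ e1'
      rw [pvtzd_norm_mul hζ]
      exact hedge x e1
  · intro v hv hE
    exact absurd (hEx v hE) (not_le.2 (hSo v hv))
  · intro v hv
    exact pvhj_in_mouth hMc hXin (pvhj_V_conn h hU hcov (pvhj_V_mono κ β subset_union_left hv) ⟨hxm1, pS, hxm2, Or.inr hpS2⟩)
  · intro v hv
    exact hclsU v (hN v hv.2).1 (hXin v (pvhj_V_mono κ β subset_union_left hv)) (hN v hv.2).2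
  · exact hclsD xm (hSo xm ⟨pS, hxm2, hpS1⟩) (hAin xm ⟨pS, hxm2, hpS1⟩) (hSC xm ⟨pS, hxm2, hpS1⟩ ⟨pS, hxm2, hpS2⟩)
  · exact pvhj_in_mouth hMc hAin (pvhj_A_conn h hSg ⟨pS, hxm2, hpS1⟩ ⟨pN, hx12, hpN1⟩)
  · exact ⟨hx11, pN, hx12, hpN2⟩
  · intro v hv hvX hvu
    obtain ⟨p, hp1, hp2 | hp2⟩ := hvX.2
    · exact ⟨hvX.1, p, hp1, hp2⟩
    · exact absurd hvu (hclsD v (hSo v hv) (hAin v hv) (hSC v hv ⟨p, hp1, hp2⟩))

/-! ## 5. the tip theorems on the Delaunay map -/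

/-- **THE ARM OF A LANE AT A TIP** = the hypotheses of `pvhj_bar` on the three sets (picture rotated by `ζ`, box `{re ≤ xB}`, the tip face between the ordinates `yL`, `yU`, edges of length `≤ μ`, small mouth of centre `c`, radius `rs`) -/
structure PvhjArm (Y : Set ℂ) (κ : ℂ → Bool) (β : Bool) (ζ : ℂ) (xB yL yU μ : ℝ) (c : ℂ) (rs : ℝ) (up : Bool) (GN GC Sg : Set ℂ) : Prop where
  cN : IsPreconnected GN
  cC : IsPreconnected GC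
  cS : IsPreconnected Sg
  nc : (GN ∩ GC).Nonempty
  cov : GN ∪ GC ⊆ vorUn Y {v | v ∈ Y ∧ κ v = β}
  near : ∀ v : Y, (vorCell Y v ∩ (GN ∪ GC ∪ Sg)).Nonempty → ‖(v : ℂ) - c‖ ≤ rs
  sOut : ∀ v : Y, (vorCell Y v ∩ Sg).Nonempty → xB < (ζ * v).re
  nSide : ∀ v : Y, (vorCell Y v ∩ GN).Nonempty → xB < (ζ * v).re ∧ pvhjSide up yL yU μ (ζ * v)
  cOff : ∀ v : Y, (vorCell Y v ∩ GC).Nonempty → (ζ * v).re ≤ xB ∨ pvhjSide true yL yU μ (ζ * v) ∨ pvhjSide false yL yU μ (ζ * v)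
  sc : ∀ v : Y, (vorCell Y v ∩ Sg).Nonempty → (vorCell Y v ∩ GC).Nonempty → pvhjSide (!up) yL yU μ (ζ * v)
  sc0 : (Sg ∩ GC).Nonempty
  sn0 : (Sg ∩ GN).Nonempty

theorem pvhj_z2_one {a b : ZMod 2} (h : a ≠ b) : b = a + 1 := by revert a b; decide

/-- **EXIT TIP** (potential given) -/
theorem pvhj_tip_exit (h : DelGood Y) {ζ : ℂ} (hζ : ‖ζ‖ = 1) {s : Y → Bool} {d : DelDart h} {n : ℕ} {M₂ : (delMap h).Cyc} {xB : ℝ}
    (E : PvtzExit (delMap h) (fun v => ζ * dlsPos Y v) s d n M₂ xB) {z : ℂ} {u : Y → ZMod 2} (hz1 : xB < z.re)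
    (hu : PvtzPot (delMap h) s d n M₂.Left (pvtzChi (delMap h) (fun v => ζ * dlsPos Y v) z) u) {yL yU μ : ℝ} (hzL : yL ≤ z.im) (hzU : z.im ≤ yU) (hμ : 0 ≤ μ) {c : ℂ} {r₁ rs rs' : ℝ}
    (hval : ∀ y : Y, xB < (ζ * y).re → ‖(y : ℂ) - c‖ ≤ r₁ → u y = u ((delMap h).src (pvasIt (delMap h) s d n)) + plI ((ζ * y).im ≤ z.im))
    {Mc : (delMap h).Cyc} (hMc : PvaxAt (delMap h) (dlsPos Y) c rs rs' Mc) (hrs : rs ≤ r₁) (hsub : Mc.Left ⊆ M₂.Left)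
    (hedge : ∀ x : DelDart h, ‖((delMap h).src x : ℂ) - c‖ ≤ rs → ‖((delMap h).src x : ℂ) - (delMap h).tgt x‖ ≤ μ)
    {m : ℕ} (hmn : m ≤ n) (hmem : ∀ k, m ≤ k → k < n → pvasIt (delMap h) s d k ∈ M₂.Left)
    (hcalm : ∀ v ∈ pvtzEx (delMap h) s d n, ‖(v : ℂ) - c‖ < rs' → v ∈ pvtzB (delMap h) s d m n ∪ pvtzW (delMap h) s d m n)
    {κ : ℂ → Bool} {β : Bool} {GN GC Sg : Set ℂ} (A : PvhjArm Y κ β ζ xB yL yU μ c rs β GN GC Sg) :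
    ∃ x0 ∈ pvhjV Y κ β GN, (delMap h).Join Mc.Left ({v | v ∈ pvtzEx (delMap h) s d n ∧ s v = β} ∪ (pvhjV Y κ β (GN ∪ GC) \ pvtzEx (delMap h) s d n))
      (pvhiEnd (delMap h) β (pvasIt (delMap h) s d n)) x0 := by
  have hp := E.piece hz1 le_rfl hmem
  have hF := pl_left_face M₂
  have hne : u ((delMap h).src (pvasIt (delMap h) s d n)) ≠ u ((delMap h).tgt (pvasIt (delMap h) s d n)) := by
    have h1 := hu (pvasIt (delMap h) s d n) (Or.inl E.tip)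
    rw [pvtz_X_one E.bw E.inj le_rfl, pvtz_chi_west (lt_of_le_of_lt (E.box n le_rfl).1 hz1) (lt_of_le_of_lt (E.box n le_rfl).2 hz1), add_zero] at h1
    exact pvtz_z2_ne h1
  have hnem : u ((delMap h).src (pvasIt (delMap h) s d m)) ≠ u ((delMap h).tgt (pvasIt (delMap h) s d m)) := by
    have h2 := pvtz_piece_const hF E.bw hu hp hmn le_rfl
    rw [← h2.1, ← h2.2]; exact hne
  have hup : u (pvhiEnd (delMap h) β (pvasIt (delMap h) s d n)) = u ((delMap h).src (pvasIt (delMap h) s d n)) + plI (β = false) := by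
    cases β
    · rw [pl_hx_I_pos (p := false = false) rfl]
      exact pvhj_z2_one hne
    · rw [pl_hx_I_neg (p := true = false) (by intro e; exact Bool.noConfusion e), add_zero]
      rfl
  obtain ⟨xm, x1, B⟩ := pvhj_bar h hζ (Ex := pvtzEx (delMap h) s d n) (fun v hv => E.ex_box hv) hz1 hzL hzU hμ hup hval hMc hrs hedge κ β A.cN A.cC A.cS A.nc A.cov A.near A.sOut A.nSide
    A.cOff A.sc A.sc0 A.sn0
  exact pvhj_exit (dls_isSph h) Mc hMc.fin hsub hu (fun hh => E.start (hsub hh)) E.bw E.inj β _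
    (fun v hv hvM => pvhj_cls hF E.bw hu hp hnem hmn le_rfl β (hcalm v hv (hMc.out v hvM))) B

/-- **ENTRANCE TIP** (potential given): `d` = the tip position, the stub is listed forwards; the class of the colour `β` lies, outside the box, on the side `!β` of the ray -/
theorem pvhj_tip_ent (h : DelGood Y) {ζ : ℂ} (hζ : ‖ζ‖ = 1) {s : Y → Bool} {d : DelDart h} {n : ℕ} {M₂ : (delMap h).Cyc} {xB : ℝ}
    (E : PvtzEnt (delMap h) (fun v => ζ * dlsPos Y v) s d n M₂ xB) {z : ℂ} {u : Y → ZMod 2} (hz1 : xB < z.re)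
    (hu : PvtzPot (delMap h) s d n M₂.Left (pvtzChi (delMap h) (fun v => ζ * dlsPos Y v) z) u) {yL yU μ : ℝ} (hzL : yL ≤ z.im) (hzU : z.im ≤ yU) (hμ : 0 ≤ μ) {c : ℂ} {r₁ rs rs' : ℝ}
    (hval : ∀ y : Y, xB < (ζ * y).re → ‖(y : ℂ) - c‖ ≤ r₁ → u y = u ((delMap h).tgt d) + plI ((ζ * y).im ≤ z.im))
    {Mc : (delMap h).Cyc} (hMc : PvaxAt (delMap h) (dlsPos Y) c rs rs' Mc) (hrs : rs ≤ r₁) (hsub : Mc.Left ⊆ M₂.Left)
    (hedge : ∀ x : DelDart h, ‖((delMap h).src x : ℂ) - c‖ ≤ rs → ‖((delMap h).src x : ℂ) - (delMap h).tgt x‖ ≤ μ)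
    {m : ℕ} (hmn : m ≤ n) (hmem : ∀ k, k < m → pvasIt (delMap h) s d k ∈ M₂.Left)
    (hcalm : ∀ v ∈ pvtzEx (delMap h) s d n, ‖(v : ℂ) - c‖ < rs' → v ∈ pvtzB (delMap h) s d 0 m ∪ pvtzW (delMap h) s d 0 m)
    {κ : ℂ → Bool} {β : Bool} {GN GC Sg : Set ℂ} (A : PvhjArm Y κ β ζ xB yL yU μ c rs (!β) GN GC Sg) :
    ∃ x0 ∈ pvhjV Y κ β GN, (delMap h).Join Mc.Left ({v | v ∈ pvtzEx (delMap h) s d n ∧ s v = β} ∪ (pvhjV Y κ β (GN ∪ GC) \ pvtzEx (delMap h) s d n))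
      (pvhiEnd (delMap h) β d) x0 := by
  have hp := E.piece hz1 hmn (m := 0) (fun k _ hk => hmem k hk)
  have hF := pl_left_face M₂
  have hne : u ((delMap h).src d) ≠ u ((delMap h).tgt d) := by
    have h1 := hu d (Or.inr E.tip)
    have hx : pvtzX (delMap h) s d n d = 1 := pvtz_X_one E.bw E.inj (Nat.zero_le n)
    rw [hx, pvtz_chi_west (lt_of_le_of_lt (E.box 0 (Nat.zero_le n)).1 hz1) (lt_of_le_of_lt (E.box 0 (Nat.zero_le n)).2 hz1), add_zero] at h1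
    exact pvtz_z2_ne h1
  have hup : u (pvhiEnd (delMap h) β d) = u ((delMap h).tgt d) + plI ((!β) = false) := by
    cases β
    · rw [pl_hx_I_neg (p := (!false) = false) (by intro e; exact Bool.noConfusion e), add_zero]
      rfl
    · rw [pl_hx_I_pos (p := (!true) = false) rfl]
      exact pvhj_z2_one hne.symm
  obtain ⟨xm, x1, B⟩ := pvhj_bar h hζ (Ex := pvtzEx (delMap h) s d n) (fun v hv => E.ex_box hv) hz1 hzL hzU hμ hup hval hMc hrs hedge κ β A.cN A.cC A.cS A.nc A.cov A.near A.sOut A.nSide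
    A.cOff A.sc A.sc0 A.sn0
  exact pvhj_ent (dls_isSph h) Mc hMc.fin hsub hu (fun hh => E.stop (hsub hh)) E.bw E.inj β _
    (fun v hv hvM => pvhj_cls hF E.bw hu hp hne (k0 := 0) le_rfl (Nat.zero_le _) β (hcalm v hv (hMc.out v hvM))) B

/-! ## 6. the tips of the half states of record -/

/-- the side through which the strand leaves the square is the side next to the tip centre -/
theorem pvhj_dir_unique {ζ ζ0 zc c a : ℂ} {rk r₁ : ℝ} (hζ : ζ ∈ pvtzdDir) (hside : ∀ ζ' ∈ pvtzdDir, ζ' ≠ ζ0 → (ζ' * (c - zc)).re + r₁ ≤ rk)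
    (ha : ‖a - c‖ ≤ r₁) (hout : rk + (ζ * zc).re < (ζ * a).re) : ζ = ζ0 := by
  by_contra hne
  have h1 := hside ζ hζ hne
  have h2 : (ζ * (a - c)).re ≤ ‖a - c‖ := by
    calc (ζ * (a - c)).re ≤ ‖ζ * (a - c)‖ := Complex.re_le_norm _
      _ = ‖a - c‖ := by rw [norm_mul, pvtzd_dir_norm hζ, one_mul]
  have h3 : (ζ * a).re = (ζ * (a - c)).re + (ζ * (c - zc)).re + (ζ * zc).re := by
    rw [← Complex.add_re, ← Complex.add_re]; congr 1; ring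
  linarith

theorem pvhj_im_near {ζ a c : ℂ} {r : ℝ} (hζ : ‖ζ‖ = 1) (ha : ‖a - c‖ ≤ r) : (ζ * c).im - r ≤ (ζ * a).im ∧ (ζ * a).im ≤ (ζ * c).im + r := by
  have h1 : |(ζ * (a - c)).im| ≤ ‖a - c‖ := by
    calc |(ζ * (a - c)).im| ≤ ‖ζ * (a - c)‖ := Complex.abs_im_le_norm _
      _ = ‖a - c‖ := by rw [norm_mul, hζ, one_mul]
  have h3 : (ζ * a).im = (ζ * (a - c)).im + (ζ * c).im := by
    rw [← Complex.add_im]; congr 1; ring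
  have := abs_le.1 (h1.trans ha)
  constructor <;> linarith [this.1, this.2]

section st0

variable {V D : Type} {T : PvMap V D} {𝔖 : PvwSt T} {pos : V → ℂ} {B : Set ℂ} {s : V → Bool}

theorem pvhj_ex_out (hs : 𝔖.StubP pos B s) : pvtzEx T s 𝔖.dp 𝔖.np = 𝔖.bkP ∪ 𝔖.whP := by
  ext v
  constructor
  · rintro (⟨i, hi, rfl⟩ | ⟨i, hi, rfl⟩)
    · exact Or.inl ⟨i, hi, by rw [hs.ep_it i hi]⟩
    · exact Or.inr ⟨i, hi, by rw [hs.ep_it i hi]⟩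
  · rintro (⟨i, hi, rfl⟩ | ⟨i, hi, rfl⟩)
    · exact Or.inl ⟨i, hi, by rw [hs.ep_it i hi]⟩
    · exact Or.inr ⟨i, hi, by rw [hs.ep_it i hi]⟩

theorem pvhj_ex_in (hs : 𝔖.StubM pos B s) (hb : pvasBW T s 𝔖.dm) : pvtzEx T s (𝔖.em 𝔖.nm) 𝔖.nm = 𝔖.bkM ∪ 𝔖.whM := by
  ext v
  constructor
  · rintro (⟨i, hi, rfl⟩ | ⟨i, hi, rfl⟩)
    · exact Or.inl ⟨𝔖.nm - i, Nat.sub_le _ _, by rw [pvwk_em_fwd hs hb hi]⟩
    · exact Or.inr ⟨𝔖.nm - i, Nat.sub_le _ _, by rw [pvwk_em_fwd hs hb hi]⟩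
  · rintro (⟨i, hi, rfl⟩ | ⟨i, hi, rfl⟩)
    · exact Or.inl ⟨𝔖.nm - i, Nat.sub_le _ _, by rw [pvwk_em_fwd hs hb (Nat.sub_le _ _), Nat.sub_sub_self hi]⟩
    · exact Or.inr ⟨𝔖.nm - i, Nat.sub_le _ _, by rw [pvwk_em_fwd hs hb (Nat.sub_le _ _), Nat.sub_sub_self hi]⟩

end st0

section st

variable {h : DelGood Y} {𝔖 : PvwSt (delMap h)} {N : PvwNum} {hh : ℝ} {z : ℂ} {τ : PvwTy} {s : Y → Bool} {r r₁ ρ rs rt : ℝ}

/-- the side of the box through which the exit stub leaves, when the tip centre is away from the three other sides -/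
theorem pvhj_side_out (ha : 𝔖.AtOut (dlsPos Y) N hh z τ s) (hρ : 0 < ρ) (h2 : N.rho * hh / 4 ≤ r + ρ) (hmesh : VorDense Y (closedBall (τ.cp hh z) (r + 3 * ρ)) ρ) (hr1 : N.rho * hh / 4 + 2 * ρ ≤ r₁)
    {ζ : ℂ} (hside : ∀ ζ' ∈ pvtzdDir, ζ' ≠ ζ → (ζ' * (τ.cp hh z - z)).re + r₁ ≤ pvwRad N hh τ τ.k) : ζ ∈ pvtzdDir ∧ pvwRad N hh τ τ.k + (ζ * z).re < (ζ * (𝔖.ap : ℂ)).re := by
  obtain ⟨ζ', hζ', hlt⟩ := pvtzd_sq_out (zc := z) (r := pvwRad N hh τ τ.k) (w := (𝔖.ap : ℂ)) ha.stub.ep_out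
  have e := pvhj_dir_unique hζ' hside ((pvhg_tip_out ha hρ h2 hmesh).trans hr1) hlt
  exact e ▸ ⟨hζ', hlt⟩

theorem pvhj_side_in (ha : 𝔖.AtIn (dlsPos Y) N hh z τ s) (hρ : 0 < ρ) (h2 : N.rho * hh / 4 ≤ r + ρ) (hmesh : VorDense Y (closedBall (τ.cm hh z) (r + 3 * ρ)) ρ) (hr1 : N.rho * hh / 4 + 2 * ρ ≤ r₁)
    {ζ : ℂ} (hside : ∀ ζ' ∈ pvtzdDir, ζ' ≠ ζ → (ζ' * (τ.cm hh z - z)).re + r₁ ≤ pvwRad N hh τ τ.k) : ζ ∈ pvtzdDir ∧ pvwRad N hh τ τ.k + (ζ * z).re < (ζ * (𝔖.am : ℂ)).re := by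
  obtain ⟨ζ', hζ', hlt⟩ := pvtzd_sq_out (zc := z) (r := pvwRad N hh τ τ.k) (w := (𝔖.am : ℂ)) ha.stub.em_out
  have e := pvhj_dir_unique hζ' hside ((pvhg_tip_in ha hρ h2 hmesh).trans hr1) hlt
  exact e ▸ ⟨hζ', hlt⟩

/-- the tip apex is within `2ρ` of the source of the tip dart -/
theorem pvhj_ap_near (ha : 𝔖.AtOut (dlsPos Y) N hh z τ s) (hρ : 0 < ρ) (h2 : N.rho * hh / 4 ≤ r + ρ) (hmesh : VorDense Y (closedBall (τ.cp hh z) (r + 3 * ρ)) ρ)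
    (ht1 : ‖((delMap h).src (𝔖.ep 𝔖.np) : ℂ) - τ.cp hh z‖ + 2 * ρ ≤ rt) : ‖(𝔖.ap : ℂ) - τ.cp hh z‖ ≤ rt := by
  have h0 : ‖((delMap h).src (𝔖.ep 𝔖.np) : ℂ) - τ.cp hh z‖ ≤ N.rho * hh / 4 := ha.good.tip_p.1
  have hds := pvhg_dense_sub hmesh (a := ((delMap h).src (𝔖.ep 𝔖.np) : ℂ)) (by linarith)
  have hadj : DelAdj Y ((delMap h).src (𝔖.ep 𝔖.np)) 𝔖.ap := by
    have := dls_dart_adj ((delMap h).opp ((delMap h).nxt ((delMap h).nxt (𝔖.ep 𝔖.np))))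
    rwa [(delMap h).src_opp', (delMap h).tgt_opp, (delMap h).tgt_nxt2, (delMap h).src_nxt2] at this
  have hea := pvhg_adj_short hρ hds hadj
  have := pvhg_tri3 (𝔖.ap : ℂ) ((delMap h).src (𝔖.ep 𝔖.np) : ℂ) (τ.cp hh z)
  have e := norm_sub_rev (𝔖.ap : ℂ) ((delMap h).src (𝔖.ep 𝔖.np) : ℂ)
  linarith

theorem pvhj_am_near (ha : 𝔖.AtIn (dlsPos Y) N hh z τ s) (hρ : 0 < ρ) (h2 : N.rho * hh / 4 ≤ r + ρ) (hmesh : VorDense Y (closedBall (τ.cm hh z) (r + 3 * ρ)) ρ)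
    (ht1 : ‖((delMap h).src (𝔖.em 𝔖.nm) : ℂ) - τ.cm hh z‖ + 2 * ρ ≤ rt) : ‖(𝔖.am : ℂ) - τ.cm hh z‖ ≤ rt := by
  have h0 : ‖((delMap h).src (𝔖.em 𝔖.nm) : ℂ) - τ.cm hh z‖ ≤ N.rho * hh / 4 := ha.good.tip_m.1
  have hds := pvhg_dense_sub hmesh (a := ((delMap h).src (𝔖.em 𝔖.nm) : ℂ)) (by linarith)
  have hadj : DelAdj Y ((delMap h).src (𝔖.em 𝔖.nm)) 𝔖.am := by
    have := dls_dart_adj ((delMap h).nxt ((delMap h).opp (𝔖.em 𝔖.nm)))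
    rwa [(delMap h).src_nxt, (delMap h).tgt_nxt, (delMap h).tgt_opp] at this
  have hea := pvhg_adj_short hρ hds hadj
  have := pvhg_tri3 (𝔖.am : ℂ) ((delMap h).src (𝔖.em 𝔖.nm) : ℂ) (τ.cm hh z)
  have e := norm_sub_rev (𝔖.am : ℂ) ((delMap h).src (𝔖.em 𝔖.nm) : ℂ)
  linarith

/-- **THE EXIT TIP OF A HALF STATE OF RECORD.**   Big mouth of radius `r ≥ ρ₂ h`, inner mouth `r₁`, small mouth `(rs, rs + 4ρ)`, `ρ h / 4 ≤ rs ≤ r₁`, `rs + 4ρ ≤ ρ₁ h / 2` (calm radius), the two ends of the tip dart within `rt - 2ρ` of the tip centre (`ht1 ht2`; record: tip cell of radius `ρ h / 10`); `ζ` = a side of the box beyond which the tip apex lies (`pvhj_side_out`);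
the arm of colour `β` in the picture rotated by `ζ`.   The end of colour `β` of the tip dart is joined to a site of the arm `GN` through bank sites of colour `β` of the small mouth and fresh sites of colour `β` (for `κ`) of `GN ∪ GC`. -/
theorem pvhj_st_exit (ha : 𝔖.AtOut (dlsPos Y) N hh z τ s) (hρ : 0 < ρ) (h2 : N.rho2 * hh ≤ r) (hr1 : N.rho * hh / 4 + 2 * ρ ≤ r₁) (hr : 3 * r₁ + 2 * ρ ≤ r)
    (hmesh : VorDense Y (closedBall (τ.cp hh z) (r + 3 * ρ)) ρ) (hfar : r + 4 * ρ + r₁ + τ.b * hh ≤ pvwRad N hh τ τ.k)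
    (hrs0 : N.rho * hh / 4 ≤ rs) (hrs : rs ≤ r₁) (hrs1 : rs + 4 * ρ ≤ N.rho1 * hh / 2)
    (ht1 : ‖((delMap h).src (𝔖.ep 𝔖.np) : ℂ) - τ.cp hh z‖ + 2 * ρ ≤ rt) (ht2 : ‖((delMap h).tgt (𝔖.ep 𝔖.np) : ℂ) - τ.cp hh z‖ + 2 * ρ ≤ rt)
    {ζ : ℂ} (hζ : ζ ∈ pvtzdDir) (hout : pvwRad N hh τ τ.k + (ζ * z).re < (ζ * (𝔖.ap : ℂ)).re)
    {κ : ℂ → Bool} {β : Bool} {GN GC Sg : Set ℂ}
    (A : PvhjArm Y κ β ζ (pvwRad N hh τ τ.k + (ζ * z).re) ((ζ * τ.cp hh z).im - rt) ((ζ * τ.cp hh z).im + rt) (2 * ρ) (τ.cp hh z) rs β GN GC Sg) :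
    ∃ x0 ∈ pvhjV Y κ β GN, (delMap h).Join univ
      ({v | v ∈ 𝔖.bkP ∪ 𝔖.whP ∧ s v = β ∧ ‖(v : ℂ) - τ.cp hh z‖ < rs + 4 * ρ} ∪ (pvhjV Y κ β (GN ∪ GC) \ (𝔖.bkP ∪ 𝔖.whP)))
      (pvhiEnd (delMap h) β (𝔖.ep 𝔖.np)) x0 := by
  obtain ⟨ζ', -, M, hM, E', -⟩ := pvhg_exit ha hρ hr1 hr hmesh hfar
  have hit : ∀ k, k ≤ 𝔖.np → pvasIt (delMap h) s 𝔖.dp k = 𝔖.ep k := fun k hk => (ha.stub.ep_it k hk).symm
  have g1 : ‖((delMap h).src (𝔖.ep 𝔖.np) : ℂ) - τ.cp hh z‖ ≤ N.rho * hh / 4 := ha.good.tip_p.1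
  have g2 : ‖((delMap h).tgt (𝔖.ep 𝔖.np) : ℂ) - τ.cp hh z‖ ≤ N.rho * hh / 4 := ha.good.tip_p.2
  have h0 : 0 ≤ N.rho * hh / 4 := (norm_nonneg _).trans g1
  have g3 : ‖(𝔖.ap : ℂ) - τ.cp hh z‖ ≤ N.rho * hh / 4 + 2 * ρ := pvhg_tip_out ha hρ (by linarith) hmesh
  have hζ1 := pvtzd_dir_norm hζ
  have hζ0 : ζ ≠ 0 := fun e => by rw [e, norm_zero] at hζ1; exact zero_ne_one hζ1
  have E : PvtzExit (delMap h) (fun v => ζ * dlsPos Y v) s 𝔖.dp 𝔖.np M (pvwRad N hh τ τ.k + (ζ * z).re) :=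
    ⟨E'.fin, pvtzd_geo h M.Left hζ0, E'.bw, E'.start, E'.tip,
      fun k hk => by rw [hit k hk]; exact ⟨pvtzd_sq_le hζ (ha.stub.ep_in k hk).1, pvtzd_sq_le hζ (ha.stub.ep_in k hk).2⟩, by rw [hit _ le_rfl]; exact hout⟩
  obtain ⟨z₀, u, hz, hz1, hu, hval⟩ := pvtzd_exit h hζ1 E hM hρ hr (fun w hw => hmesh w (closedBall_subset_closedBall (by linarith) hw)) (by rw [hit _ le_rfl]; exact g3.trans hr1)
  rw [hit _ le_rfl] at hz hval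
  obtain ⟨Mc, hMc⟩ := dlc_at h (h0.trans hrs0) hρ (fun w hw => hmesh w (closedBall_subset_closedBall (by linarith) hw)) (by linarith : rs + 3 * ρ < rs + 4 * ρ)
  have hsub : Mc.Left ⊆ M.Left := by
    intro x hx
    have h1 := hMc.out _ ⟨x, hx, rfl⟩
    exact hM.inn _ (by linarith) x rfl
  have hedge : ∀ x : DelDart h, ‖((delMap h).src x : ℂ) - τ.cp hh z‖ ≤ rs → ‖((delMap h).src x : ℂ) - (delMap h).tgt x‖ ≤ 2 * ρ := fun x hx =>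
    pvhg_adj_short hρ (pvhg_dense_sub hmesh (by linarith)) (dls_dart_adj x)
  obtain ⟨hzL, hzU⟩ := pvhj_tri_im hz (pvhj_im_near hζ1 ((le_add_of_nonneg_right (by linarith)).trans ht1)) (pvhj_im_near hζ1 ((le_add_of_nonneg_right (by linarith)).trans ht2)) (pvhj_im_near hζ1 (pvhj_ap_near ha hρ (by linarith) hmesh ht1))
  obtain ⟨i₀, hi₀, hl1, hl2⟩ := ha.good.late_p
  have hEx := pvhj_ex_out ha.stub
  have key := pvhj_tip_exit h hζ1 E hz1 hu hzL hzU (by linarith : (0 : ℝ) ≤ 2 * ρ) (by rw [hit _ le_rfl]; exact hval) hMc hrs hsub hedge hi₀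
    (fun k hk1 hk2 => by
      rw [hit k hk2.le]
      refine hM.inn _ ?_ _ rfl
      have a1 : ‖((delMap h).src (𝔖.ep k) : ℂ) - τ.cp hh z‖ < N.rho2 * hh := (hl1 k hk1 hk2.le).1
      show ‖((delMap h).src (𝔖.ep k) : ℂ) - τ.cp hh z‖ ≤ r
      linarith)
    (by
      rintro v (⟨i, hi, rfl⟩ | ⟨i, hi, rfl⟩) hv
      · refine Or.inl ⟨i, ?_, hi, rfl⟩
        by_contra hlt
        have a1 : N.rho1 * hh / 2 < ‖((delMap h).src (𝔖.ep i) : ℂ) - τ.cp hh z‖ := (hl2 i (not_le.1 hlt)).1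
        rw [hit i hi] at hv
        linarith
      · refine Or.inr ⟨i, ?_, hi, rfl⟩
        by_contra hlt
        have a1 : N.rho1 * hh / 2 < ‖((delMap h).tgt (𝔖.ep i) : ℂ) - τ.cp hh z‖ := (hl2 i (not_le.1 hlt)).2
        rw [hit i hi] at hv
        linarith) A
  rw [hit _ le_rfl, hEx] at key
  obtain ⟨x0, hx0, hj⟩ := key
  refine ⟨x0, hx0, ?_⟩
  have hend : pvhiEnd (delMap h) β (𝔖.ep 𝔖.np) ∈ (delMap h).VOf Mc.Left := by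
    rw [pl_VOf_left (dls_isSph h) Mc]
    refine Or.inr (hMc.inn _ ?_)
    cases β
    · exact g2.trans hrs0
    · exact g1.trans hrs0
  refine pl_hx_join_mono (subset_univ _) ?_ (pvhj_join_VOf (pl_left_face Mc) hj hend)
  rintro v ⟨hv | hv, hvM⟩
  · exact Or.inl ⟨hv.1, hv.2, hMc.out v hvM⟩
  · exact Or.inr hv

/-- **THE ENTRANCE TIP OF A HALF STATE OF RECORD.** -/
theorem pvhj_st_ent (ha : 𝔖.AtIn (dlsPos Y) N hh z τ s) (hρ : 0 < ρ) (h2 : N.rho2 * hh ≤ r) (hr1 : N.rho * hh / 4 + 2 * ρ ≤ r₁) (hr : 3 * r₁ + 2 * ρ ≤ r)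
    (hmesh : VorDense Y (closedBall (τ.cm hh z) (r + 3 * ρ)) ρ) (hfar : r + 4 * ρ + r₁ + τ.b * hh ≤ pvwRad N hh τ τ.k)
    (hrs0 : N.rho * hh / 4 ≤ rs) (hrs : rs ≤ r₁) (hrs1 : rs + 4 * ρ ≤ N.rho1 * hh / 2)
    (ht1 : ‖((delMap h).src (𝔖.em 𝔖.nm) : ℂ) - τ.cm hh z‖ + 2 * ρ ≤ rt) (ht2 : ‖((delMap h).tgt (𝔖.em 𝔖.nm) : ℂ) - τ.cm hh z‖ + 2 * ρ ≤ rt)
    {ζ : ℂ} (hζ : ζ ∈ pvtzdDir) (hout : pvwRad N hh τ τ.k + (ζ * z).re < (ζ * (𝔖.am : ℂ)).re)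
    {κ : ℂ → Bool} {β : Bool} {GN GC Sg : Set ℂ}
    (A : PvhjArm Y κ β ζ (pvwRad N hh τ τ.k + (ζ * z).re) ((ζ * τ.cm hh z).im - rt) ((ζ * τ.cm hh z).im + rt) (2 * ρ) (τ.cm hh z) rs (!β) GN GC Sg) :
    ∃ x0 ∈ pvhjV Y κ β GN, (delMap h).Join univ
      ({v | v ∈ 𝔖.bkM ∪ 𝔖.whM ∧ s v = β ∧ ‖(v : ℂ) - τ.cm hh z‖ < rs + 4 * ρ} ∪ (pvhjV Y κ β (GN ∪ GC) \ (𝔖.bkM ∪ 𝔖.whM)))
      (pvhiEnd (delMap h) β (𝔖.em 𝔖.nm)) x0 := by
  obtain ⟨ζ', -, M, hM, E', -⟩ := pvhg_ent ha hρ hr1 hr hmesh hfar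
  have hit : ∀ k, k ≤ 𝔖.nm → pvasIt (delMap h) s (𝔖.em 𝔖.nm) k = 𝔖.em (𝔖.nm - k) := fun k hk => pvwk_em_fwd ha.stub ha.gate.bw_m hk
  have g1 : ‖((delMap h).src (𝔖.em 𝔖.nm) : ℂ) - τ.cm hh z‖ ≤ N.rho * hh / 4 := ha.good.tip_m.1
  have g2 : ‖((delMap h).tgt (𝔖.em 𝔖.nm) : ℂ) - τ.cm hh z‖ ≤ N.rho * hh / 4 := ha.good.tip_m.2
  have h0 : 0 ≤ N.rho * hh / 4 := (norm_nonneg _).trans g1
  have g3 : ‖(𝔖.am : ℂ) - τ.cm hh z‖ ≤ N.rho * hh / 4 + 2 * ρ := pvhg_tip_in ha hρ (by linarith) hmesh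
  have hζ1 := pvtzd_dir_norm hζ
  have hζ0 : ζ ≠ 0 := fun e => by rw [e, norm_zero] at hζ1; exact zero_ne_one hζ1
  have E : PvtzEnt (delMap h) (fun v => ζ * dlsPos Y v) s (𝔖.em 𝔖.nm) 𝔖.nm M (pvwRad N hh τ τ.k + (ζ * z).re) :=
    ⟨E'.fin, pvtzd_geo h M.Left hζ0, E'.bw, E'.stop, E'.tip,
      fun k hk => by rw [hit k hk]; exact ⟨pvtzd_sq_le hζ (ha.stub.em_in _ (Nat.sub_le _ _)).1, pvtzd_sq_le hζ (ha.stub.em_in _ (Nat.sub_le _ _)).2⟩, hout⟩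
  obtain ⟨z₀, u, hz, hz1, hu, hval⟩ := pvtzd_ent h hζ1 E hM hρ hr (fun w hw => hmesh w (closedBall_subset_closedBall (by linarith) hw)) (g3.trans hr1)
  obtain ⟨Mc, hMc⟩ := dlc_at h (h0.trans hrs0) hρ (fun w hw => hmesh w (closedBall_subset_closedBall (by linarith) hw)) (by linarith : rs + 3 * ρ < rs + 4 * ρ)
  have hsub : Mc.Left ⊆ M.Left := by
    intro x hx
    have h1 := hMc.out _ ⟨x, hx, rfl⟩
    exact hM.inn _ (by linarith) x rfl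
  have hedge : ∀ x : DelDart h, ‖((delMap h).src x : ℂ) - τ.cm hh z‖ ≤ rs → ‖((delMap h).src x : ℂ) - (delMap h).tgt x‖ ≤ 2 * ρ := fun x hx =>
    pvhg_adj_short hρ (pvhg_dense_sub hmesh (by linarith)) (dls_dart_adj x)
  rw [(delMap h).src_opp', (delMap h).tgt_opp] at hz
  obtain ⟨hzL, hzU⟩ := pvhj_tri_im hz (pvhj_im_near hζ1 ((le_add_of_nonneg_right (by linarith)).trans ht2)) (pvhj_im_near hζ1 ((le_add_of_nonneg_right (by linarith)).trans ht1)) (pvhj_im_near hζ1 (pvhj_am_near ha hρ (by linarith) hmesh ht1))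
  obtain ⟨i₀, hi₀, hl1, hl2⟩ := ha.good.late_m
  have hEx := pvhj_ex_in ha.stub ha.gate.bw_m
  have key := pvhj_tip_ent h hζ1 E hz1 hu hzL hzU (by linarith : (0 : ℝ) ≤ 2 * ρ) hval hMc hrs hsub hedge (m := 𝔖.nm - i₀) (Nat.sub_le _ _)
    (fun k hk => by
      rw [hit k (by omega)]
      refine hM.inn _ ?_ _ rfl
      have a1 : ‖((delMap h).src (𝔖.em (𝔖.nm - k)) : ℂ) - τ.cm hh z‖ < N.rho2 * hh := (hl1 _ (by omega) (Nat.sub_le _ _)).1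
      show ‖((delMap h).src (𝔖.em (𝔖.nm - k)) : ℂ) - τ.cm hh z‖ ≤ r
      linarith)
    (by
      rintro v (⟨i, hi, rfl⟩ | ⟨i, hi, rfl⟩) hv
      · refine Or.inl ⟨i, Nat.zero_le _, ?_, rfl⟩
        by_contra hlt
        have a1 : N.rho1 * hh / 2 < ‖((delMap h).src (𝔖.em (𝔖.nm - i)) : ℂ) - τ.cm hh z‖ := (hl2 _ (by omega)).1
        rw [hit i hi] at hv
        linarith
      · refine Or.inr ⟨i, Nat.zero_le _, ?_, rfl⟩
        by_contra hlt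
        have a1 : N.rho1 * hh / 2 < ‖((delMap h).tgt (𝔖.em (𝔖.nm - i)) : ℂ) - τ.cm hh z‖ := (hl2 _ (by omega)).2
        rw [hit i hi] at hv
        linarith) A
  rw [hEx] at key
  obtain ⟨x0, hx0, hj⟩ := key
  refine ⟨x0, hx0, ?_⟩
  have hend : pvhiEnd (delMap h) β (𝔖.em 𝔖.nm) ∈ (delMap h).VOf Mc.Left := by
    rw [pl_VOf_left (dls_isSph h) Mc]
    refine Or.inr (hMc.inn _ ?_)
    cases β
    · exact g2.trans hrs0
    · exact g1.trans hrs0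
  refine pl_hx_join_mono (subset_univ _) ?_ (pvhj_join_VOf (pl_left_face Mc) hj hend)
  rintro v ⟨hv | hv, hvM⟩
  · exact Or.inl ⟨hv.1, hv.2, hMc.out v hvM⟩
  · exact Or.inr hv

end st

/-! ## 7. ASSEMBLY: the run, `SY` of record -/

/-- **ASSEMBLY**: four tip joins + two lanes ⟹ the run -/
theorem pvhj_run (h : DelGood Y) {σ : Y → Bool} {κ : ℂ → Bool} {a₀ a₁ : DelDart h} {K : Set Y} (hK : K.Finite)
    (h0 : pvasBW (delMap h) σ a₀) (h1 : pvasBW (delMap h) σ a₁) (hne : (delMap h).src a₀ ≠ (delMap h).src a₁)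
    (hco : ∀ u v, u ∉ K → v ∉ K → (delMap h).Join univ Kᶜ u v) (hout : ∃ f, (delMap h).src f ∉ K ∧ (delMap h).DJoin (pvldBar (delMap h) σ K a₀ a₁) ((delMap h).opp a₀) f)
    {X₀ X₁ : Bool → Set Y} {H₀ H₁ G : Bool → Set ℂ}
    (J₀ : ∀ β, ∃ x0 ∈ pvhjV Y κ β (H₀ β), (delMap h).Join univ (X₀ β) (pvhiEnd (delMap h) β a₀) x0)
    (J₁ : ∀ β, ∃ x0 ∈ pvhjV Y κ β (H₁ β), (delMap h).Join univ (X₁ β) (pvhiEnd (delMap h) β a₁) x0)
    (hX₀ : ∀ β, X₀ β ⊆ pvldCol σ K β) (hX₁ : ∀ β, X₁ β ⊆ pvldCol σ K β)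
    (hG : ∀ β, IsPreconnected (G β)) (hcov : ∀ β, G β ⊆ vorUn Y {v | v ∈ Y ∧ κ v = β}) (hH₀ : ∀ β, H₀ β ⊆ G β) (hH₁ : ∀ β, H₁ β ⊆ G β)
    (hGK : ∀ β, pvhjV Y κ β (G β) ⊆ pvldCol σ K β) : PvldRun (delMap h) σ K a₀ a₁ := by
  have key : ∀ β, (delMap h).Join univ (pvldCol σ K β) (pvhiEnd (delMap h) β a₀) (pvhiEnd (delMap h) β a₁) := by
    intro β
    obtain ⟨x0, hx0, j0⟩ := J₀ β
    obtain ⟨x1, hx1, j1⟩ := J₁ β
    have jm := pvhj_V_conn h (hG β) (hcov β) (pvhj_V_mono κ β (hH₀ β) hx0) (pvhj_V_mono κ β (hH₁ β) hx1)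
    exact pl_hx_join_trans (pl_hx_join_mono Subset.rfl (hX₀ β) j0) (pl_hx_join_trans (pl_hx_join_mono Subset.rfl (hGK β) jm) (pl_hx_join_symm (pl_hx_join_mono Subset.rfl (hX₁ β) j1)))
  exact pvld_exist (dls_isSph h) hK h0 h1 hne (key true) (key false) hco hout

/-- **FOOT**: for each colour `β` the end of colour `β` of the bichromatic dart `a` is joined, through sites of `K` of colour `β` (for the ACTUAL colouring `σ`), to a site of colour `β` for the COPY colouring `κ` whose cell meets `H β`.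
THE INTERFACE OF AN END OF A LINK: tip of an exit stub (`pvhj_foot_out`), tip of an entrance stub (`pvhj_foot_in`), gate edge of a door (228 `Tr/HookD`). -/
def PvhjFoot (h : DelGood Y) (σ : Y → Bool) (κ : ℂ → Bool) (K : Set Y) (a : DelDart h) (H : Bool → Set ℂ) : Prop :=
  ∀ β, ∃ x0 ∈ pvhjV Y κ β (H β), (delMap h).Join univ (pvldCol σ K β) (pvhiEnd (delMap h) β a) x0

/-- **THE LANES BETWEEN TWO FEET**: for each colour `β` a preconnected set covered by the cells of colour `β` of the copy colouring; the sites whose cell meets it are sites of `K` at which `σ = κ` -/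
structure PvhjMid (Y : Set ℂ) (σ : Y → Bool) (κ : ℂ → Bool) (K : Set Y) (G : Bool → Set ℂ) : Prop where
  conn : ∀ β, IsPreconnected (G β)
  cov : ∀ β, G β ⊆ vorUn Y {v | v ∈ Y ∧ κ v = β}
  mid : ∀ β, ∀ v : Y, (vorCell Y v ∩ G β).Nonempty → v ∈ K ∧ σ v = κ v

theorem pvhj_eqns_cite2 : True := by
  have := @PvhjFoot.eq_1
  trivial

/-- **ASSEMBLY, FOOT FORM**: two feet + the lanes ⟹ the run -/
theorem pvhj_run_foot (h : DelGood Y) {σ : Y → Bool} {κ : ℂ → Bool} {a₀ a₁ : DelDart h} {K : Set Y} (hK : K.Finite)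
    (h0 : pvasBW (delMap h) σ a₀) (h1 : pvasBW (delMap h) σ a₁) (hne : (delMap h).src a₀ ≠ (delMap h).src a₁)
    (hco : ∀ u v, u ∉ K → v ∉ K → (delMap h).Join univ Kᶜ u v) (hout : ∃ f, (delMap h).src f ∉ K ∧ (delMap h).DJoin (pvldBar (delMap h) σ K a₀ a₁) ((delMap h).opp a₀) f)
    {H₀ H₁ G : Bool → Set ℂ} (J₀ : PvhjFoot h σ κ K a₀ H₀) (J₁ : PvhjFoot h σ κ K a₁ H₁) (hG : PvhjMid Y σ κ K G) (hH₀ : ∀ β, H₀ β ⊆ G β) (hH₁ : ∀ β, H₁ β ⊆ G β) :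
    PvldRun (delMap h) σ K a₀ a₁ :=
  pvhj_run h hK h0 h1 hne hco hout J₀ J₁ (fun _ => Subset.rfl) (fun _ => Subset.rfl) hG.conn hG.cov hH₀ hH₁ fun β v hv => ⟨(hG.mid β v hv.2).1, (hG.mid β v hv.2).2.trans hv.1⟩

/-- **THE NUMBERS AT ONE TIP** (colour-free; `c` = tip centre, `hh` = scale of the pin): mesh `ρ` on `B(c, r + 3ρ)`, big mouth `r ≥ ρ₂ h`, inner mouth `r₁`, small mouth `(rs, rs + 4ρ)` inside the calm radius;
the link region `K` contains the sites of the small mouth -/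
structure PvhjEnd (Y : Set ℂ) (N : PvwNum) (hh : ℝ) (τ : PvwTy) (c : ℂ) (K : Set Y) (r r₁ ρ rs : ℝ) : Prop where
  rho : 0 < ρ
  r2 : N.rho2 * hh ≤ r
  r1 : N.rho * hh / 4 + 2 * ρ ≤ r₁
  rr : 3 * r₁ + 2 * ρ ≤ r
  mesh : VorDense Y (closedBall c (r + 3 * ρ)) ρ
  far : r + 4 * ρ + r₁ + τ.b * hh ≤ pvwRad N hh τ τ.k
  rs0 : N.rho * hh / 4 ≤ rs
  rs1 : rs ≤ r₁
  rs2 : rs + 4 * ρ ≤ N.rho1 * hh / 2
  inK : ∀ v : Y, ‖(v : ℂ) - c‖ < rs + 4 * ρ → v ∈ K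

/-- **THE PATTERN OF THE COPY COLOURING `κ`** (sites, copy colours and regions only: NO state, NO datum).   For each colour `β`: an arm at the exit tip (centre `ct`, side `ζt`, box `{re (ζt w) ≤ xt}`), an arm at the entrance tip (`cs`, `ζs`, `xs`),
a preconnected set `G β` covered by the cells of colour `β`, which contains the two arms `GN`;   the sites whose cell meets `G β` lie in `F` (= the fresh sites of the link region) -/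
structure PvhjPat (Y : Set ℂ) (κ : ℂ → Bool) (F : Set Y) (ζt : ℂ) (xt : ℝ) (ct : ℂ) (ρt rst rtt : ℝ) (ζs : ℂ) (xs : ℝ) (cs : ℂ) (ρs rss rts : ℝ)
    (GNt GCt Sgt GNs GCs Sgs G : Bool → Set ℂ) : Prop where
  arm_t : ∀ β, PvhjArm Y κ β ζt xt ((ζt * ct).im - rtt) ((ζt * ct).im + rtt) (2 * ρt) ct rst β (GNt β) (GCt β) (Sgt β)
  arm_s : ∀ β, PvhjArm Y κ β ζs xs ((ζs * cs).im - rts) ((ζs * cs).im + rts) (2 * ρs) cs rss (!β) (GNs β) (GCs β) (Sgs β)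
  conn : ∀ β, IsPreconnected (G β)
  cov : ∀ β, G β ⊆ vorUn Y {v | v ∈ Y ∧ κ v = β}
  sub_t : ∀ β, GNt β ⊆ G β
  sub_s : ∀ β, GNs β ⊆ G β
  mid : ∀ β, ∀ v : Y, (vorCell Y v ∩ G β).Nonempty → v ∈ F

/-- the sites of a ball in which the mesh is `ρ` belong to `K = pvgeKV Y S` as soon as the ball fattened by `ρ` misses `S` -/
theorem pvhj_inK {S : Set ℂ} {c : ℂ} {R ρ a : ℝ} (hρ : 0 < ρ) (hmesh : VorDense Y (closedBall c R) ρ) (ha : a + 2 * ρ ≤ R) (hS : Disjoint (closedBall c (a + ρ)) S) (v : Y)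
    (hv : ‖(v : ℂ) - c‖ < a) : v ∈ pvgeKV Y S := by
  have hb : ∀ t : ℝ, closedBall (v : ℂ) t ⊆ closedBall c (a + t) := by
    intro t w hw
    rw [mem_closedBall, dist_eq_norm] at hw ⊢
    have := pvhg_tri3 w (v : ℂ) c
    linarith
  have h1 : vorCell Y v ⊆ closedBall (v : ℂ) ρ :=
    pvge_cell_core hρ.le (by linarith : ρ < 2 * ρ) hmesh (show (v : ℂ) ∈ pvtrCore (2 * ρ) (closedBall c R) from (hb _).trans (closedBall_subset_closedBall ha))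
  exact ⟨v.2, (hS.mono_left ((h1.trans (hb ρ))))⟩

/-- **`PvhjEnd` for the region of record** `K = pvgeKV Y S` (`S` = complement of the room of the link): numbers + mesh + the small mouth fattened by `ρ` misses `S` -/
theorem pvhj_end_K {S : Set ℂ} {N : PvwNum} {hh : ℝ} {τ : PvwTy} {c : ℂ} {r r₁ ρ rs : ℝ} (hρ : 0 < ρ) (h0 : 0 ≤ N.rho * hh) (h2 : N.rho2 * hh ≤ r) (h1 : N.rho * hh / 4 + 2 * ρ ≤ r₁) (hr : 3 * r₁ + 2 * ρ ≤ r)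
    (hmesh : VorDense Y (closedBall c (r + 3 * ρ)) ρ) (hfar : r + 4 * ρ + r₁ + τ.b * hh ≤ pvwRad N hh τ τ.k) (hs0 : N.rho * hh / 4 ≤ rs) (hs1 : rs ≤ r₁) (hs2 : rs + 4 * ρ ≤ N.rho1 * hh / 2)
    (hS : Disjoint (closedBall c (rs + 5 * ρ)) S) : PvhjEnd Y N hh τ c (pvgeKV Y S) r r₁ ρ rs :=
  ⟨hρ, h2, h1, hr, hmesh, hfar, hs0, hs1, hs2, pvhj_inK hρ hmesh (by linarith) (by rw [show rs + 4 * ρ + ρ = rs + 5 * ρ by ring]; exact hS)⟩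

section foot

variable {h : DelGood Y} {𝔖 : PvwSt (delMap h)} {N : PvwNum} {hh : ℝ} {z : ℂ} {τ : PvwTy} {K : Set Y} {r r₁ ρ rs rt : ℝ} {ζ : ℂ} {σ : Y → Bool} {κ : ℂ → Bool} {GN GC Sg : Bool → Set ℂ}

/-- **THE FOOT AT THE TIP OF AN EXIT STUB** -/
theorem pvhj_foot_out (ha : 𝔖.AtOut (dlsPos Y) N hh z τ σ) (E : PvhjEnd Y N hh τ (τ.cp hh z) K r r₁ ρ rs)
    (ht1 : ‖((delMap h).src (𝔖.ep 𝔖.np) : ℂ) - τ.cp hh z‖ + 2 * ρ ≤ rt) (ht2 : ‖((delMap h).tgt (𝔖.ep 𝔖.np) : ℂ) - τ.cp hh z‖ + 2 * ρ ≤ rt)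
    (hζ : ζ ∈ pvtzdDir) (hout : pvwRad N hh τ τ.k + (ζ * z).re < (ζ * (𝔖.ap : ℂ)).re)
    (A : ∀ β, PvhjArm Y κ β ζ (pvwRad N hh τ τ.k + (ζ * z).re) ((ζ * τ.cp hh z).im - rt) ((ζ * τ.cp hh z).im + rt) (2 * ρ) (τ.cp hh z) rs β (GN β) (GC β) (Sg β))
    (hκ : ∀ v : Y, ‖(v : ℂ) - τ.cp hh z‖ ≤ rs → v ∉ 𝔖.bkP ∪ 𝔖.whP → σ v = κ v) : PvhjFoot h σ κ K (𝔖.ep 𝔖.np) GN := by
  intro β
  obtain ⟨x0, hx0, hj⟩ := pvhj_st_exit ha E.rho E.r2 E.r1 E.rr E.mesh E.far E.rs0 E.rs1 E.rs2 ht1 ht2 hζ hout (A β)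
  refine ⟨x0, hx0, pl_hx_join_mono Subset.rfl ?_ hj⟩
  rintro v (⟨hv, hc, hn⟩ | ⟨hv, hnb⟩)
  · exact ⟨E.inK v hn, hc⟩
  · have hn : ‖(v : ℂ) - τ.cp hh z‖ ≤ rs := (A β).near v (hv.2.mono (inter_subset_inter_right _ subset_union_left))
    exact ⟨E.inK v (by linarith [E.rho]), (hκ v hn hnb).trans hv.1⟩

/-- **THE FOOT AT THE TIP OF AN ENTRANCE STUB** -/
theorem pvhj_foot_in (ha : 𝔖.AtIn (dlsPos Y) N hh z τ σ) (E : PvhjEnd Y N hh τ (τ.cm hh z) K r r₁ ρ rs)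
    (ht1 : ‖((delMap h).src (𝔖.em 𝔖.nm) : ℂ) - τ.cm hh z‖ + 2 * ρ ≤ rt) (ht2 : ‖((delMap h).tgt (𝔖.em 𝔖.nm) : ℂ) - τ.cm hh z‖ + 2 * ρ ≤ rt)
    (hζ : ζ ∈ pvtzdDir) (hout : pvwRad N hh τ τ.k + (ζ * z).re < (ζ * (𝔖.am : ℂ)).re)
    (A : ∀ β, PvhjArm Y κ β ζ (pvwRad N hh τ τ.k + (ζ * z).re) ((ζ * τ.cm hh z).im - rt) ((ζ * τ.cm hh z).im + rt) (2 * ρ) (τ.cm hh z) rs (!β) (GN β) (GC β) (Sg β))
    (hκ : ∀ v : Y, ‖(v : ℂ) - τ.cm hh z‖ ≤ rs → v ∉ 𝔖.bkM ∪ 𝔖.whM → σ v = κ v) : PvhjFoot h σ κ K (𝔖.em 𝔖.nm) GN := by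
  intro β
  obtain ⟨x0, hx0, hj⟩ := pvhj_st_ent ha E.rho E.r2 E.r1 E.rr E.mesh E.far E.rs0 E.rs1 E.rs2 ht1 ht2 hζ hout (A β)
  refine ⟨x0, hx0, pl_hx_join_mono Subset.rfl ?_ hj⟩
  rintro v (⟨hv, hc, hn⟩ | ⟨hv, hnb⟩)
  · exact ⟨E.inK v hn, hc⟩
  · have hn : ‖(v : ℂ) - τ.cm hh z‖ ≤ rs := (A β).near v (hv.2.mono (inter_subset_inter_right _ subset_union_left))
    exact ⟨E.inK v (by linarith [E.rho]), (hκ v hn hnb).trans hv.1⟩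

/-- **OUT behind the tip of an exit stub**: the stub is a dual path from the face behind its tip to a face with a vertex (`g⁺`) off `K` -/
theorem pvhj_out_stub (ha : 𝔖.AtOut (dlsPos Y) N hh z τ σ) (E : PvhjEnd Y N hh τ (τ.cp hh z) K r r₁ ρ rs) (hgp : 𝔖.gp ∉ K) {a₁ : DelDart h} (h1 : pvasBW (delMap h) σ a₁)
    (hdis : (delMap h).src a₁ ∉ 𝔖.bkP) : ∃ f, (delMap h).src f ∉ K ∧ (delMap h).DJoin (pvldBar (delMap h) σ K (𝔖.ep 𝔖.np) a₁) ((delMap h).opp (𝔖.ep 𝔖.np)) f := by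
  have st := ha.stub
  have t1 : ‖((delMap h).src (𝔖.ep 𝔖.np) : ℂ) - τ.cp hh z‖ ≤ N.rho * hh / 4 := ha.good.tip_p.1
  have hK0 : (delMap h).src (𝔖.ep 𝔖.np) ∈ K := E.inK _ (by linarith [E.rs0, E.rho])
  have hnp : 1 ≤ 𝔖.np := by
    by_contra hcon
    have e : 𝔖.np = 0 := by omega
    rw [e, pvwk_ep_zero st] at hK0
    exact hgp hK0
  refine pvld_out_strand h1 ha.gate.bw_p (st.ep_it _ le_rfl).symm (fun i hi => ?_) ?_
  · rw [← st.ep_it i hi.le]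
    constructor
    · intro e
      have h1 := st.ep_ax i hi
      rw [e] at h1
      exact st.ep_out h1
    · intro e
      exact hdis ⟨i, hi.le, by rw [e]⟩
  · intro hsub
    exact hgp (hsub ⟨𝔖.dp, ⟨0, hnp, (delMap h).sf_refl _⟩, rfl⟩)

/-- **TIP OF AN EXIT STUB → ANY FOOT** (`a₁` = entry gate edge of a door) -/
theorem pvhj_run_out (ha : 𝔖.AtOut (dlsPos Y) N hh z τ σ) (E : PvhjEnd Y N hh τ (τ.cp hh z) K r r₁ ρ rs)
    (ht1 : ‖((delMap h).src (𝔖.ep 𝔖.np) : ℂ) - τ.cp hh z‖ + 2 * ρ ≤ rt) (ht2 : ‖((delMap h).tgt (𝔖.ep 𝔖.np) : ℂ) - τ.cp hh z‖ + 2 * ρ ≤ rt)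
    (hζ : ζ ∈ pvtzdDir) (hout : pvwRad N hh τ τ.k + (ζ * z).re < (ζ * (𝔖.ap : ℂ)).re)
    (A : ∀ β, PvhjArm Y κ β ζ (pvwRad N hh τ τ.k + (ζ * z).re) ((ζ * τ.cp hh z).im - rt) ((ζ * τ.cp hh z).im + rt) (2 * ρ) (τ.cp hh z) rs β (GN β) (GC β) (Sg β))
    (hκ : ∀ v : Y, ‖(v : ℂ) - τ.cp hh z‖ ≤ rs → v ∉ 𝔖.bkP ∪ 𝔖.whP → σ v = κ v)
    (hK : K.Finite) (hco : ∀ u v, u ∉ K → v ∉ K → (delMap h).Join univ Kᶜ u v) (hgp : 𝔖.gp ∉ K)
    {a₁ : DelDart h} (h1 : pvasBW (delMap h) σ a₁) (hdis : (delMap h).src a₁ ∉ 𝔖.bkP) {H₁ G : Bool → Set ℂ} (J₁ : PvhjFoot h σ κ K a₁ H₁) (hG : PvhjMid Y σ κ K G)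
    (hH₀ : ∀ β, GN β ⊆ G β) (hH₁ : ∀ β, H₁ β ⊆ G β) : PvldRun (delMap h) σ K (𝔖.ep 𝔖.np) a₁ :=
  pvhj_run_foot h hK (pvwk_ep_bw ha.stub ha.gate.bw_p le_rfl) h1 (fun e => hdis ⟨𝔖.np, le_rfl, e⟩) hco (pvhj_out_stub ha E hgp h1 hdis) (pvhj_foot_out ha E ht1 ht2 hζ hout A hκ) J₁ hG hH₀ hH₁

/-- **ANY FOOT → TIP OF AN ENTRANCE STUB** (`a₀` = exit gate edge of a door; `hO` = OUT behind `a₀`: `pvld_out_apex`, `pvld_out_back`, `pvld_out_strand` of 70) -/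
theorem pvhj_run_in (ha : 𝔖.AtIn (dlsPos Y) N hh z τ σ) (E : PvhjEnd Y N hh τ (τ.cm hh z) K r r₁ ρ rs)
    (ht1 : ‖((delMap h).src (𝔖.em 𝔖.nm) : ℂ) - τ.cm hh z‖ + 2 * ρ ≤ rt) (ht2 : ‖((delMap h).tgt (𝔖.em 𝔖.nm) : ℂ) - τ.cm hh z‖ + 2 * ρ ≤ rt)
    (hζ : ζ ∈ pvtzdDir) (hout : pvwRad N hh τ τ.k + (ζ * z).re < (ζ * (𝔖.am : ℂ)).re)
    (A : ∀ β, PvhjArm Y κ β ζ (pvwRad N hh τ τ.k + (ζ * z).re) ((ζ * τ.cm hh z).im - rt) ((ζ * τ.cm hh z).im + rt) (2 * ρ) (τ.cm hh z) rs (!β) (GN β) (GC β) (Sg β))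
    (hκ : ∀ v : Y, ‖(v : ℂ) - τ.cm hh z‖ ≤ rs → v ∉ 𝔖.bkM ∪ 𝔖.whM → σ v = κ v)
    (hK : K.Finite) (hco : ∀ u v, u ∉ K → v ∉ K → (delMap h).Join univ Kᶜ u v)
    {a₀ : DelDart h} (h0 : pvasBW (delMap h) σ a₀) (hne : (delMap h).src a₀ ≠ (delMap h).src (𝔖.em 𝔖.nm))
    (hO : ∃ f, (delMap h).src f ∉ K ∧ (delMap h).DJoin (pvldBar (delMap h) σ K a₀ (𝔖.em 𝔖.nm)) ((delMap h).opp a₀) f)
    {H₀ G : Bool → Set ℂ} (J₀ : PvhjFoot h σ κ K a₀ H₀) (hG : PvhjMid Y σ κ K G) (hH₀ : ∀ β, H₀ β ⊆ G β) (hH₁ : ∀ β, GN β ⊆ G β) : PvldRun (delMap h) σ K a₀ (𝔖.em 𝔖.nm) :=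
  pvhj_run_foot h hK h0 (pvwk_em_bw ha.stub ha.gate.bw_m le_rfl) hne hco hO J₀ (pvhj_foot_in ha E ht1 ht2 hζ hout A hκ) hG hH₀ hH₁

end foot

section two

variable {h : DelGood Y} {𝔖t 𝔖s : PvwSt (delMap h)} {N : PvwNum} {ht hs : ℝ} {zt zs : ℂ} {τt τs : PvwTy} {K F : Set Y} {r r₁ ρ rs rt r' r₁' ρ' rs' rt' : ℝ} {ζt ζs : ℂ} {σ : Y → Bool} {κ : ℂ → Bool}
  {GNt GCt Sgt GNs GCs Sgs G : Bool → Set ℂ}

/-- **HOOK-DET FOR A LINK, THE RUN, TWO HALF STATES (TWO SCALES).**   `σ` = the actual colouring (both half states are half states of `σ`), `κ` = the copy colouring;   `σ = κ` on `F` and at the sites of the two small mouths which are not on the banks of the own stub. -/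
theorem pvhj_run_st (at_t : 𝔖t.AtOut (dlsPos Y) N ht zt τt σ) (at_s : 𝔖s.AtIn (dlsPos Y) N hs zs τs σ)
    (Et : PvhjEnd Y N ht τt (τt.cp ht zt) K r r₁ ρ rs) (Es : PvhjEnd Y N hs τs (τs.cm hs zs) K r' r₁' ρ' rs')
    (ht1 : ‖((delMap h).src (𝔖t.ep 𝔖t.np) : ℂ) - τt.cp ht zt‖ + 2 * ρ ≤ rt) (ht2 : ‖((delMap h).tgt (𝔖t.ep 𝔖t.np) : ℂ) - τt.cp ht zt‖ + 2 * ρ ≤ rt)
    (hs1 : ‖((delMap h).src (𝔖s.em 𝔖s.nm) : ℂ) - τs.cm hs zs‖ + 2 * ρ' ≤ rt') (hs2 : ‖((delMap h).tgt (𝔖s.em 𝔖s.nm) : ℂ) - τs.cm hs zs‖ + 2 * ρ' ≤ rt')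
    (hK : K.Finite) (hco : ∀ u v, u ∉ K → v ∉ K → (delMap h).Join univ Kᶜ u v) (hgp : 𝔖t.gp ∉ K) (hdis : (delMap h).src (𝔖s.em 𝔖s.nm) ∉ 𝔖t.bkP)
    (hζt : ζt ∈ pvtzdDir) (hot : pvwRad N ht τt τt.k + (ζt * zt).re < (ζt * (𝔖t.ap : ℂ)).re) (hζs : ζs ∈ pvtzdDir) (hos : pvwRad N hs τs τs.k + (ζs * zs).re < (ζs * (𝔖s.am : ℂ)).re)
    (hP : PvhjPat Y κ F ζt (pvwRad N ht τt τt.k + (ζt * zt).re) (τt.cp ht zt) ρ rs rt ζs (pvwRad N hs τs τs.k + (ζs * zs).re) (τs.cm hs zs) ρ' rs' rt' GNt GCt Sgt GNs GCs Sgs G)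
    (hF : ∀ v ∈ F, v ∈ K ∧ σ v = κ v)
    (hκt : ∀ v : Y, ‖(v : ℂ) - τt.cp ht zt‖ ≤ rs → v ∉ 𝔖t.bkP ∪ 𝔖t.whP → σ v = κ v) (hκs : ∀ v : Y, ‖(v : ℂ) - τs.cm hs zs‖ ≤ rs' → v ∉ 𝔖s.bkM ∪ 𝔖s.whM → σ v = κ v) :
    PvldRun (delMap h) σ K (𝔖t.ep 𝔖t.np) (𝔖s.em 𝔖s.nm) :=
  pvhj_run_out at_t Et ht1 ht2 hζt hot hP.arm_t hκt hK hco hgp (pvwk_em_bw at_s.stub at_s.gate.bw_m le_rfl) hdis (pvhj_foot_in at_s Es hs1 hs2 hζs hos hP.arm_s hκs)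
    ⟨hP.conn, hP.cov, fun β v hv => hF v (hP.mid β v hv)⟩ hP.sub_t hP.sub_s

end two

/-- **THE COLOUR-FREE GEOMETRY OF A LINK OF A DATUM OF RECORD** (next to `PvhgGeo` of 90): the link region `K` (finite, connected complement, contains the two small mouths), the radius `rs` of the small mouths, sides `ζt`, `ζs` of the boxes beyond which the tip apexes lie,
the frozen sites of a small mouth are bank sites of its own stub -/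
structure PvhjGeo {h : DelGood Y} (𝔇 : PvwDat (delMap h)) (N : PvwNum) (hh : ℝ) (π : PvwPat) (K : Set Y) (r₁ ρ rs rt : ℝ) (ζt ζs : ℂ) : Prop where
  fin : K.Finite
  co : ∀ u v, u ∉ K → v ∉ K → (delMap h).Join univ Kᶜ u v
  rs0 : N.rho * hh / 4 ≤ rs
  rs1 : rs ≤ r₁
  rs2 : rs + 4 * ρ ≤ N.rho1 * hh / 2
  rt0 : N.rho * hh / 4 + 2 * ρ ≤ rt
  Kt : ∀ v : Y, ‖(v : ℂ) - π.tt.cp hh π.zt‖ < rs + 4 * ρ → v ∈ K
  Ks : ∀ v : Y, ‖(v : ℂ) - π.ts.cm hh π.zs‖ < rs + 4 * ρ → v ∈ K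
  dir_t : ζt ∈ pvtzdDir
  dir_s : ζs ∈ pvtzdDir
  /-- the tip apexes lie beyond the sides `ζt`, `ζs` of the boxes (`pvhj_side_out`, `pvhj_side_in`: automatic when the tip centre is away from the three other sides) -/
  out_t : pvwRad N hh π.tt π.tt.k + (ζt * π.zt).re < (ζt * (𝔇.t.ap : ℂ)).re
  out_s : pvwRad N hh π.ts π.ts.k + (ζs * π.zs).re < (ζs * (𝔇.s.am : ℂ)).re
  fz_t : ∀ v : Y, ‖(v : ℂ) - π.tt.cp hh π.zt‖ ≤ rs → v ∈ 𝔇.fzY → v ∈ 𝔇.t.bkP ∪ 𝔇.t.whP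
  fz_s : ∀ v : Y, ‖(v : ℂ) - π.ts.cm hh π.zs‖ ≤ rs → v ∈ 𝔇.fzY → v ∈ 𝔇.s.bkM ∪ 𝔇.s.whM

section datum

variable {h : DelGood Y} {𝔇 : PvwDat (delMap h)} {N : PvwNum} {hh : ℝ} {π : PvwPat} {K : Set Y} {r r₁ ρ rs rt : ℝ} {ζt ζs : ℂ} {σ : Y → Bool} {κ : ℂ → Bool}
  {GNt GCt Sgt GNs GCs Sgs G : Bool → Set ℂ}

/-- **HOOK-DET FOR THE LINK OF A DATUM OF RECORD, THE RUN**: datum + geometry + pattern of the copy colouring (`F` := the fresh sites of `K`) + (`σ` = prescribed colours on the frozen sites, `= κ` on the fresh sites of `K`)  ⟹  the strand continued from the tip of `Σ⁺(t)` reaches the tip of `Σ⁻(s)` inside `K` -/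
theorem pvhj_run_dat (hOk : 𝔇.Ok (dlsPos Y) N hh π) (hG : PvhgGeo 𝔇 N hh π K r r₁ ρ) (hL : PvhjGeo 𝔇 N hh π K r₁ ρ rs rt ζt ζs)
    (hP : PvhjPat Y κ {v | v ∈ K ∧ v ∉ 𝔇.fzY} ζt (pvwRad N hh π.tt π.tt.k + (ζt * π.zt).re) (π.tt.cp hh π.zt) ρ rs rt ζs (pvwRad N hh π.ts π.ts.k + (ζs * π.zs).re) (π.ts.cm hh π.zs) ρ rs rt
      GNt GCt Sgt GNs GCs Sgs G) (hσ : PvwAgree 𝔇.fzY σ 𝔇.col) (hκ : ∀ v ∈ K, v ∉ 𝔇.fzY → σ v = κ v) :
    PvldRun (delMap h) σ K (𝔇.t.ep 𝔇.t.np) (𝔇.s.em 𝔇.s.nm) := by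
  have hρ := hG.rho
  have at_t : 𝔇.t.AtOut (dlsPos Y) N hh π.zt π.tt σ := pvwk_atOut_congr (dls_isSph h) hOk.st_t fun v hv => (hσ v (Or.inl hv)).symm
  have at_s : 𝔇.s.AtIn (dlsPos Y) N hh π.zs π.ts σ := pvwk_atIn_congr (dls_isSph h) hOk.st_s fun v hv => (hσ v (Or.inr hv)).symm
  have s1 : ‖((delMap h).src (𝔇.s.em 𝔇.s.nm) : ℂ) - π.ts.cm hh π.zs‖ ≤ N.rho * hh / 4 := hOk.st_s.good.tip_m.1
  have hgp : 𝔇.t.gp ∉ K := fun hK => hOk.core_off _ (Or.inr (pvwk_ins_sub_core hOk.st_t.gate (pvwk_gate_ends (dls_isSph h) hOk.st_t.gate).1)) (hG.yin _ hK)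
  have hK1 : (delMap h).src (𝔇.s.em 𝔇.s.nm) ∈ K := hL.Ks _ (by linarith [hL.rs0])
  refine pvhj_run_st at_t at_s ⟨hρ, hG.r2, hG.r1, hG.rr, hG.mesh_t, hG.far_t, hL.rs0, hL.rs1, hL.rs2, hL.Kt⟩ ⟨hρ, hG.r2, hG.r1, hG.rr, hG.mesh_s, hG.far_s, hL.rs0, hL.rs1, hL.rs2, hL.Ks⟩
    ((add_le_add_left hOk.st_t.good.tip_p.1 _).trans hL.rt0) ((add_le_add_left hOk.st_t.good.tip_p.2 _).trans hL.rt0) ((add_le_add_left hOk.st_s.good.tip_m.1 _).trans hL.rt0) ((add_le_add_left hOk.st_s.good.tip_m.2 _).trans hL.rt0)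
    hL.fin hL.co hgp ?_ hL.dir_t hL.out_t hL.dir_s hL.out_s hP (fun v hv => ⟨hv.1, hκ v hv.1 hv.2⟩) ?_ ?_
  · intro h1
    have h2 := hG.near_t _ hK1 (Or.inl h1)
    have h3 := pvhg_tri3 (π.tt.cp hh π.zt) ((delMap h).src (𝔇.s.em 𝔇.s.nm) : ℂ) (π.ts.cm hh π.zs)
    rw [norm_sub_rev (π.tt.cp hh π.zt) ((delMap h).src (𝔇.s.em 𝔇.s.nm) : ℂ)] at h3
    linarith [hL.rs0, hL.rs2, hG.sep]
  · intro v hn hnb
    exact hκ v (hL.Kt v (by linarith)) fun hf => hnb (hL.fz_t v hn hf)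
  · intro v hn hnb
    exact hκ v (hL.Ks v (by linarith)) fun hf => hnb (hL.fz_s v hn hf)

/-- **HOOK-DET FOR THE LINK OF A DATUM OF RECORD**: `SY` of record -/
theorem pvhj_SY (hOk : 𝔇.Ok (dlsPos Y) N hh π) (hG : PvhgGeo 𝔇 N hh π K r r₁ ρ) (hL : PvhjGeo 𝔇 N hh π K r₁ ρ rs rt ζt ζs)
    (hP : PvhjPat Y κ {v | v ∈ K ∧ v ∉ 𝔇.fzY} ζt (pvwRad N hh π.tt π.tt.k + (ζt * π.zt).re) (π.tt.cp hh π.zt) ρ rs rt ζs (pvwRad N hh π.ts π.ts.k + (ζs * π.zs).re) (π.ts.cm hh π.zs) ρ rs rt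
      GNt GCt Sgt GNs GCs Sgs G) (hσ : PvwAgree 𝔇.fzY σ 𝔇.col) (hκ : ∀ v ∈ K, v ∉ 𝔇.fzY → σ v = κ v) :
    𝔇.SY (dlsPos Y) π σ :=
  pvhg_SY_del hOk hG hσ (pvhj_run_dat hOk hG hL hP hσ hκ)

end datum

/-! ## 8. any presentation of the Delaunay plane      (`P := delbPl Y`, `hP := delb_pl_eq h` : `pvxT ω`, `pvieT η`) -/

section pl

variable {h : DelGood Y} {P : PlTri ↥Y} {𝔖 : PvwSt P.toMap} {N : PvwNum} {hh : ℝ} {z : ℂ} {τ : PvwTy} {K : Set Y} {r r₁ ρ rs rt : ℝ} {ζ : ℂ} {σ : Y → Bool} {κ : ℂ → Bool} {GN GC Sg : Bool → Set ℂ}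

/-- `PvhjFoot` for a presentation `P` of the Delaunay plane -/
def PvhjFootP (P : PlTri ↥Y) (σ : Y → Bool) (κ : ℂ → Bool) (K : Set Y) (a : P.Dart) (H : Bool → Set ℂ) : Prop :=
  ∀ β, ∃ x0 ∈ pvhjV Y κ β (H β), P.toMap.Join univ (pvldCol σ K β) (pvhiEnd P.toMap β a) x0

theorem pvhj_eqns_cite3 : True := by
  have := @PvhjFootP.eq_1
  trivial

theorem pvhj_footP_iff (σ : Y → Bool) (κ : ℂ → Bool) (K : Set Y) (a : DelDart h) (H : Bool → Set ℂ) : PvhjFootP (delPl h) σ κ K a H ↔ PvhjFoot h σ κ K a H := Iff.rfl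

/-- the complement of `K = pvgeKV Y S` is connected, `K` is finite -/
theorem pvhj_K_pl (hP : P = delPl h) {S : Set ℂ} (hS : IsPreconnected S) (hb : Bornology.IsBounded Sᶜ) :
    (pvgeKV Y S).Finite ∧ ∀ u v, u ∉ pvgeKV Y S → v ∉ pvgeKV Y S → P.toMap.Join univ (pvgeKV Y S)ᶜ u v := by
  subst hP
  exact ⟨pvge_KV_finite (pvge_K_finite h.lf hb), pvge_map_co_join h hS⟩

theorem pvhj_foot_out_pl (hP : P = delPl h) (ha : 𝔖.AtOut (dlsPos Y) N hh z τ σ) (E : PvhjEnd Y N hh τ (τ.cp hh z) K r r₁ ρ rs)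
    (ht1 : ‖(P.toMap.src (𝔖.ep 𝔖.np) : ℂ) - τ.cp hh z‖ + 2 * ρ ≤ rt) (ht2 : ‖(P.toMap.tgt (𝔖.ep 𝔖.np) : ℂ) - τ.cp hh z‖ + 2 * ρ ≤ rt)
    (hζ : ζ ∈ pvtzdDir) (hout : pvwRad N hh τ τ.k + (ζ * z).re < (ζ * (𝔖.ap : ℂ)).re)
    (A : ∀ β, PvhjArm Y κ β ζ (pvwRad N hh τ τ.k + (ζ * z).re) ((ζ * τ.cp hh z).im - rt) ((ζ * τ.cp hh z).im + rt) (2 * ρ) (τ.cp hh z) rs β (GN β) (GC β) (Sg β))
    (hκ : ∀ v : Y, ‖(v : ℂ) - τ.cp hh z‖ ≤ rs → v ∉ 𝔖.bkP ∪ 𝔖.whP → σ v = κ v) : PvhjFootP P σ κ K (𝔖.ep 𝔖.np) GN := by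
  subst hP
  exact pvhj_foot_out ha E ht1 ht2 hζ hout A hκ

theorem pvhj_foot_in_pl (hP : P = delPl h) (ha : 𝔖.AtIn (dlsPos Y) N hh z τ σ) (E : PvhjEnd Y N hh τ (τ.cm hh z) K r r₁ ρ rs)
    (ht1 : ‖(P.toMap.src (𝔖.em 𝔖.nm) : ℂ) - τ.cm hh z‖ + 2 * ρ ≤ rt) (ht2 : ‖(P.toMap.tgt (𝔖.em 𝔖.nm) : ℂ) - τ.cm hh z‖ + 2 * ρ ≤ rt)
    (hζ : ζ ∈ pvtzdDir) (hout : pvwRad N hh τ τ.k + (ζ * z).re < (ζ * (𝔖.am : ℂ)).re)
    (A : ∀ β, PvhjArm Y κ β ζ (pvwRad N hh τ τ.k + (ζ * z).re) ((ζ * τ.cm hh z).im - rt) ((ζ * τ.cm hh z).im + rt) (2 * ρ) (τ.cm hh z) rs (!β) (GN β) (GC β) (Sg β))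
    (hκ : ∀ v : Y, ‖(v : ℂ) - τ.cm hh z‖ ≤ rs → v ∉ 𝔖.bkM ∪ 𝔖.whM → σ v = κ v) : PvhjFootP P σ κ K (𝔖.em 𝔖.nm) GN := by
  subst hP
  exact pvhj_foot_in ha E ht1 ht2 hζ hout A hκ

theorem pvhj_run_foot_pl (hP : P = delPl h) {a₀ a₁ : P.Dart} (hK : K.Finite)
    (h0 : pvasBW P.toMap σ a₀) (h1 : pvasBW P.toMap σ a₁) (hne : P.toMap.src a₀ ≠ P.toMap.src a₁)
    (hco : ∀ u v, u ∉ K → v ∉ K → P.toMap.Join univ Kᶜ u v) (hout : ∃ f, P.toMap.src f ∉ K ∧ P.toMap.DJoin (pvldBar P.toMap σ K a₀ a₁) (P.toMap.opp a₀) f)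
    {H₀ H₁ G : Bool → Set ℂ} (J₀ : PvhjFootP P σ κ K a₀ H₀) (J₁ : PvhjFootP P σ κ K a₁ H₁) (hG : PvhjMid Y σ κ K G) (hH₀ : ∀ β, H₀ β ⊆ G β) (hH₁ : ∀ β, H₁ β ⊆ G β) :
    PvldRun P.toMap σ K a₀ a₁ := by
  subst hP
  exact pvhj_run_foot h hK h0 h1 hne hco hout J₀ J₁ hG hH₀ hH₁

/-- **FIRST LINK** `tip of an exit stub → any foot`, any presentation -/
theorem pvhj_run_out_pl (hP : P = delPl h) (ha : 𝔖.AtOut (dlsPos Y) N hh z τ σ) (E : PvhjEnd Y N hh τ (τ.cp hh z) K r r₁ ρ rs)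
    (ht1 : ‖(P.toMap.src (𝔖.ep 𝔖.np) : ℂ) - τ.cp hh z‖ + 2 * ρ ≤ rt) (ht2 : ‖(P.toMap.tgt (𝔖.ep 𝔖.np) : ℂ) - τ.cp hh z‖ + 2 * ρ ≤ rt)
    (hζ : ζ ∈ pvtzdDir) (hout : pvwRad N hh τ τ.k + (ζ * z).re < (ζ * (𝔖.ap : ℂ)).re)
    (A : ∀ β, PvhjArm Y κ β ζ (pvwRad N hh τ τ.k + (ζ * z).re) ((ζ * τ.cp hh z).im - rt) ((ζ * τ.cp hh z).im + rt) (2 * ρ) (τ.cp hh z) rs β (GN β) (GC β) (Sg β))
    (hκ : ∀ v : Y, ‖(v : ℂ) - τ.cp hh z‖ ≤ rs → v ∉ 𝔖.bkP ∪ 𝔖.whP → σ v = κ v)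
    (hK : K.Finite) (hco : ∀ u v, u ∉ K → v ∉ K → P.toMap.Join univ Kᶜ u v) (hgp : 𝔖.gp ∉ K)
    {a₁ : P.Dart} (h1 : pvasBW P.toMap σ a₁) (hdis : P.toMap.src a₁ ∉ 𝔖.bkP) {H₁ G : Bool → Set ℂ} (J₁ : PvhjFootP P σ κ K a₁ H₁) (hG : PvhjMid Y σ κ K G)
    (hH₀ : ∀ β, GN β ⊆ G β) (hH₁ : ∀ β, H₁ β ⊆ G β) : PvldRun P.toMap σ K (𝔖.ep 𝔖.np) a₁ := by
  subst hP
  exact pvhj_run_out ha E ht1 ht2 hζ hout A hκ hK hco hgp h1 hdis J₁ hG hH₀ hH₁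

/-- **LAST LINK** `any foot → tip of an entrance stub`, any presentation -/
theorem pvhj_run_in_pl (hP : P = delPl h) (ha : 𝔖.AtIn (dlsPos Y) N hh z τ σ) (E : PvhjEnd Y N hh τ (τ.cm hh z) K r r₁ ρ rs)
    (ht1 : ‖(P.toMap.src (𝔖.em 𝔖.nm) : ℂ) - τ.cm hh z‖ + 2 * ρ ≤ rt) (ht2 : ‖(P.toMap.tgt (𝔖.em 𝔖.nm) : ℂ) - τ.cm hh z‖ + 2 * ρ ≤ rt)
    (hζ : ζ ∈ pvtzdDir) (hout : pvwRad N hh τ τ.k + (ζ * z).re < (ζ * (𝔖.am : ℂ)).re)
    (A : ∀ β, PvhjArm Y κ β ζ (pvwRad N hh τ τ.k + (ζ * z).re) ((ζ * τ.cm hh z).im - rt) ((ζ * τ.cm hh z).im + rt) (2 * ρ) (τ.cm hh z) rs (!β) (GN β) (GC β) (Sg β))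
    (hκ : ∀ v : Y, ‖(v : ℂ) - τ.cm hh z‖ ≤ rs → v ∉ 𝔖.bkM ∪ 𝔖.whM → σ v = κ v)
    (hK : K.Finite) (hco : ∀ u v, u ∉ K → v ∉ K → P.toMap.Join univ Kᶜ u v)
    {a₀ : P.Dart} (h0 : pvasBW P.toMap σ a₀) (hne : P.toMap.src a₀ ≠ P.toMap.src (𝔖.em 𝔖.nm))
    (hO : ∃ f, P.toMap.src f ∉ K ∧ P.toMap.DJoin (pvldBar P.toMap σ K a₀ (𝔖.em 𝔖.nm)) (P.toMap.opp a₀) f)
    {H₀ G : Bool → Set ℂ} (J₀ : PvhjFootP P σ κ K a₀ H₀) (hG : PvhjMid Y σ κ K G) (hH₀ : ∀ β, H₀ β ⊆ G β) (hH₁ : ∀ β, GN β ⊆ G β) : PvldRun P.toMap σ K a₀ (𝔖.em 𝔖.nm) := by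
  subst hP
  exact pvhj_run_in ha E ht1 ht2 hζ hout A hκ hK hco h0 hne hO J₀ hG hH₀ hH₁

end pl

end del

end Claimed.Agent.R289
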