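import Claimed.Agent.R289.Tr.HookIn
import Claimed.Agent.R289.Tr.TipDel
import Claimed.Agent.R289.Tr.LaneDet
import Claimed.Agent.R289.Tr.LinkQ
import Claimed.Agent.R289.Tr.Geo
import Claimed.Agent.R289.Tr.HookY

/-!
# Row 289 (S0537), THE WALL, ROAD E, HOOK-DET FOR `SY`, file Tr/HookYB : SECOND ROPE      (helper228, post Z of 82; first rope = `Tr/HookY` of 23; prefix `pvhz_`, `Pvhz`)

0 sorry.  What is here and who consumes it.

* sec. 1  `pvhz_exit`, `pvhz_ent` : lemma JB (`pvhi_exit`, `pvhi_ent` of Tr/HookIn) with a LANE PIECE: a set `P` of one potential value joined to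
  a C-set `Q` that goes round the tip and a closing set `Z`; the awkward hypothesis "closing path meets the C-path only at its first vertex" is PAID here by cutting the C-path at its last visit of the lane piece.
* sec. 2  `PvhzSide`, `PvhzDoor`, `PvhzSide.exit`, `PvhzSide.ent` : the same in a picture with positions where the slit ray points east (`pvhz_chi0`, `PvhzSide.slit` pay the "no dart of the C-set crosses the ray").
  `pvhz_updn`, `pvhz_cls`, `pvhz_sep` : how to get a `PvhzSide` from a potential.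
* sec. 3  `PvhzReg`, `pvhzZ`, `PvhzReg.joins`, `pvhz_hook_col`, `pvhz_hook_exit`, `pvhz_hook_ent` : the Delaunay map: two `JoinedIn` paths and one preconnected closing set give the hook
  `Join univ {s = β, |v - c| < rc'} tip p0`.
* sec. 4  THE PRODUCER OF `PvhjArm` (record of 23): `pvhzSd` (one side of a cell), `pvhz_hub_infix` (every infix of the chain of a lane event has hubs), `pvhz_lane_dense`,
  record `PvhzArmReg` (PURE INEQUALITIES on `vorNbd` of the regions, no configuration in it), `pvhz_arm_hubs`, **`pvhz_arm`** :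
  lane event of the chain `L` + infixes `LN`, `LC` sharing a cell + a preconnected deterministic `Sg` containing one whole side of a cell of each + `PvhzArmReg` ==> `PvhjArm` with `GN`, `GC` := path components of the hubs.
  `pvhz_mid`, `pvhz_mid_ok` : the `GN` of both arms of one colour lie in ONE preconnected one-colour set (the path component of the hub of the middle chain), as `pvhj_sy` asks.
* sec. 5  THE ROUTE FORM (chains of record / routes of 21, `Tr/LinkQ` sec. 8): `PvhzArmReg.mono`, `pvhz_sd_sub`, `pvhz_L_sub`, `pvhz_L_head`, `pvhz_L_last`, **`pvhz_arm_rt`** (two legs of a route, any order and orientation, inequalities ON THE REGIONS of the legs), **`pvhz_mid_rt`** (ONE `Gmid` for the whole route).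
-/

set_option autoImplicit false
set_option linter.unusedSectionVars false
set_option linter.unusedVariables false

namespace Claimed.Agent.R289

open Relation Set Metric

/-! ## 1. LEMMA JB WITH A LANE PIECE (any `PvMap`) -/

section abs

variable {V D : Type} {T : PvMap V D} {s : V → Bool} {d : D} {n : ℕ} {M : Set D} {χ : D → ZMod 2} {u : V → ZMod 2}

/-- **JB WITH A LANE PIECE, EXIT TIP.** -/
theorem pvhz_exit [Nonempty D] (hT : T.IsSph) (Mc : T.Cyc) (hfin : Mc.Left.Finite) (hsub : Mc.Left ⊆ M) (hpot : PvtzPot T s d n M χ u) (h0 : T.opp d ∉ Mc.Left)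
    (hbw : pvasBW T s d) (hinj : ∀ i j, i ≤ n → j ≤ n → pvasIt T s d i = pvasIt T s d j → i = j) (β : Bool) (uβ : ZMod 2)
    (hcls : ∀ v ∈ pvtzEx T s d n, v ∈ T.VOf Mc.Left → (u v = uβ ↔ s v = β)) {Q P Z : Set V}
    (hχ : ∀ x, T.src x ∈ Q ∪ pvtzEx T s d n → T.tgt x ∈ Q ∪ pvtzEx T s d n → χ x = 0)
    (hP : ∀ v ∈ P, v ∉ pvtzEx T s d n ∧ u v = uβ) (hZ : ∀ v ∈ Z, v ∉ pvtzEx T s d n)
    {p0 p1 xm : V} (hPj : T.Join Mc.Left P p0 p1) (hQj : T.Join Mc.Left Q p1 xm) (hZj : T.Join Mc.Left Z p0 xm) (hxm : u xm ≠ uβ)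
    (hZQ : ∀ v ∈ Z, v ∈ Q → u v ≠ uβ) :
    T.Join Mc.Left ({v | v ∈ pvtzEx T s d n ∧ s v = β} ∪ (Q \ pvtzEx T s d n) ∪ P) (pvhiEnd T β (pvasIt T s d n)) p0 := by
  obtain ⟨pp, pp0, pp1, ppX, ppA⟩ := pl_pth_of_join hPj
  obtain ⟨q, ⟨q0, q1, q2, -⟩, qX, qA⟩ := pl_pth_proper_of_join (S := pp.verts) (S' := {xm}) hQj (pp1 ▸ pl_pth_lst_mem pp) rfl
  obtain ⟨i, hi, hix⟩ := q0
  have q1' : q.v q.n = xm := q1
  have hx0 : q.v 0 ∈ P := ppX ⟨i, hi, hix⟩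
  have hback : T.Join Mc.Left pp.verts (q.v 0) p0 := by
    have := pl_pth_join pp ppA subset_rfl hi (Nat.zero_le pp.n)
    rwa [hix, pp0] at this
  have key := pvhi_exit hT Mc hfin hsub hpot h0 hbw hinj β uβ hcls (W := (pvtzEx T s d n)ᶜ) (Xq := q.verts) (Xc := pp.verts ∪ Z) (x0 := q.v 0) (xm := xm)
    (fun h => h) (fun _ _ _ _ hb => hb)
    (fun x h1 h2 => hχ x (h1.imp_left fun h => qX h) (h2.imp_left fun h => qX h))
    (by
      rintro v (hv | hv)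
      · exact (hP v (ppX hv)).1
      · exact hZ v hv)
    (by
      have := pl_pth_join q qA subset_rfl (Nat.zero_le q.n) le_rfl
      rwa [q1'] at this)
    (pl_hx_join_trans (pl_hx_join_mono subset_rfl subset_union_left hback) (pl_hx_join_mono subset_rfl subset_union_right hZj))
    (by rw [(hP _ hx0).2]; exact hxm.symm)
    (by
      rintro v (hv | hv) ⟨k, hk, rfl⟩ _ hu
      · rcases Nat.eq_zero_or_pos k with rfl | hk0
        · rfl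
        · exact absurd hv (q2 k hk0 hk)
      · exact absurd hu (hZQ _ hv (qX ⟨k, hk, rfl⟩)))
  refine pl_hx_join_trans (pl_hx_join_mono subset_rfl ?_ key) (pl_hx_join_mono subset_rfl (fun v hv => Or.inr (ppX hv)) hback)
  rintro v (hv | ⟨hv, hv'⟩)
  · exact Or.inl (Or.inl hv)
  · exact Or.inl (Or.inr ⟨qX hv, hv'⟩)

/-- **JB WITH A LANE PIECE, ENTRANCE TIP** (`d` = the tip position, the stub is listed forwards) -/
theorem pvhz_ent [Nonempty D] (hT : T.IsSph) (Mc : T.Cyc) (hfin : Mc.Left.Finite) (hsub : Mc.Left ⊆ M) (hpot : PvtzPot T s d n M χ u) (h0 : pvasIt T s d n ∉ Mc.Left)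
    (hbw : pvasBW T s d) (hinj : ∀ i j, i ≤ n → j ≤ n → pvasIt T s d i = pvasIt T s d j → i = j) (β : Bool) (uβ : ZMod 2)
    (hcls : ∀ v ∈ pvtzEx T s d n, v ∈ T.VOf Mc.Left → (u v = uβ ↔ s v = β)) {Q P Z : Set V}
    (hχ : ∀ x, T.src x ∈ Q ∪ pvtzEx T s d n → T.tgt x ∈ Q ∪ pvtzEx T s d n → χ x = 0)
    (hP : ∀ v ∈ P, v ∉ pvtzEx T s d n ∧ u v = uβ) (hZ : ∀ v ∈ Z, v ∉ pvtzEx T s d n)
    {p0 p1 xm : V} (hPj : T.Join Mc.Left P p0 p1) (hQj : T.Join Mc.Left Q p1 xm) (hZj : T.Join Mc.Left Z p0 xm) (hxm : u xm ≠ uβ)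
    (hZQ : ∀ v ∈ Z, v ∈ Q → u v ≠ uβ) :
    T.Join Mc.Left ({v | v ∈ pvtzEx T s d n ∧ s v = β} ∪ (Q \ pvtzEx T s d n) ∪ P) (pvhiEnd T β d) p0 := by
  obtain ⟨pp, pp0, pp1, ppX, ppA⟩ := pl_pth_of_join hPj
  obtain ⟨q, ⟨q0, q1, q2, -⟩, qX, qA⟩ := pl_pth_proper_of_join (S := pp.verts) (S' := {xm}) hQj (pp1 ▸ pl_pth_lst_mem pp) rfl
  obtain ⟨i, hi, hix⟩ := q0
  have q1' : q.v q.n = xm := q1
  have hx0 : q.v 0 ∈ P := ppX ⟨i, hi, hix⟩
  have hback : T.Join Mc.Left pp.verts (q.v 0) p0 := by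
    have := pl_pth_join pp ppA subset_rfl hi (Nat.zero_le pp.n)
    rwa [hix, pp0] at this
  have key := pvhi_ent hT Mc hfin hsub hpot h0 hbw hinj β uβ hcls (W := (pvtzEx T s d n)ᶜ) (Xq := q.verts) (Xc := pp.verts ∪ Z) (x0 := q.v 0) (xm := xm)
    (fun h => h) (fun _ _ _ _ hb => hb)
    (fun x h1 h2 => hχ x (h1.imp_left fun h => qX h) (h2.imp_left fun h => qX h))
    (by
      rintro v (hv | hv)
      · exact (hP v (ppX hv)).1
      · exact hZ v hv)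
    (by
      have := pl_pth_join q qA subset_rfl (Nat.zero_le q.n) le_rfl
      rwa [q1'] at this)
    (pl_hx_join_trans (pl_hx_join_mono subset_rfl subset_union_left hback) (pl_hx_join_mono subset_rfl subset_union_right hZj))
    (by rw [(hP _ hx0).2]; exact hxm.symm)
    (by
      rintro v (hv | hv) ⟨k, hk, rfl⟩ _ hu
      · rcases Nat.eq_zero_or_pos k with rfl | hk0
        · rfl
        · exact absurd hv (q2 k hk0 hk)
      · exact absurd hu (hZQ _ hv (qX ⟨k, hk, rfl⟩)))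
  refine pl_hx_join_trans (pl_hx_join_mono subset_rfl ?_ key) (pl_hx_join_mono subset_rfl (fun v hv => Or.inr (ppX hv)) hback)
  rintro v (hv | ⟨hv, hv'⟩)
  · exact Or.inl (Or.inl hv)
  · exact Or.inl (Or.inr ⟨qX hv, hv'⟩)

end abs

/-! ## 2. ONE TIP, ONE COLOUR, IN THE PICTURE WHERE THE RAY POINTS EAST (any `PvMap` with positions) -/

section geo

variable {V D : Type} {T : PvMap V D} {P : V → ℂ} {s : V → Bool} {d : D} {n : ℕ} {M : Set D} {z C : ℂ} {u : V → ZMod 2} {xB κ μ r₁ ε : ℝ} {β : Bool} {uβ : ZMod 2}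

/-- **ONE TIP SEEN BY THE LANE OF COLOUR `β`**, picture `P` in which the box is `{re ≤ xB}` and the ray of the tip points EAST.   `u` = tip potential (23) on `M` with the slit issued from `z`; `C` = centre of the mouth, `κ` = bound for the ordinate of `z`,
`μ` = bound for the edges, `r₁` = radius of the inner mouth;   `uβ` = the class of the bank of colour `β`;   `ε = 1`: this class is ABOVE the ray outside the box, `ε = -1`: BELOW. -/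
structure PvhzSide (T : PvMap V D) (P : V → ℂ) (s : V → Bool) (d : D) (n : ℕ) (M : Set D) (z : ℂ) (u : V → ZMod 2) (C : ℂ) (xB κ μ r₁ ε : ℝ) (β : Bool) (uβ : ZMod 2) : Prop where
  pot : PvtzPot T s d n M (pvtzChi T P z) u
  z1 : xB < z.re
  z2 : |z.im - C.im| ≤ κ
  box : ∀ v ∈ pvtzEx T s d n, (P v).re ≤ xB
  up : ∀ y, xB < (P y).re → ‖P y - C‖ ≤ r₁ → κ < ε * ((P y).im - C.im) → u y = uβ
  dn : ∀ y, xB < (P y).re → ‖P y - C‖ ≤ r₁ → κ < -ε * ((P y).im - C.im) → u y ≠ uβ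
  short : ∀ x, ‖P (T.src x) - C‖ ≤ r₁ → ‖P (T.src x) - P (T.tgt x)‖ ≤ μ
  cls : ∀ v ∈ pvtzEx T s d n, ‖P v - C‖ ≤ r₁ → (u v = uβ ↔ s v = β)

/-- **THE DOOR**: `Q` = the sites of the C (in the box or off the strip of the ray), `Pc` = the sites of the lane piece (outside the box, on the side `ε` of the ray), `Z` = the sites of the closing path (outside the box; where it meets the C it is on the side `-ε`) -/
structure PvhzDoor (P : V → ℂ) (C : ℂ) (xB κ μ r₁ ε : ℝ) (Q Pc Z : Set V) : Prop where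
  qin : ∀ v ∈ Q, ‖P v - C‖ ≤ r₁
  front : ∀ v ∈ Q, (P v).re ≤ xB ∨ κ + μ < |(P v).im - C.im|
  pin : ∀ v ∈ Pc, ‖P v - C‖ ≤ r₁ ∧ xB < (P v).re ∧ κ < ε * ((P v).im - C.im)
  zin : ∀ v ∈ Z, ‖P v - C‖ ≤ r₁ ∧ xB < (P v).re
  zq : ∀ v ∈ Z, v ∈ Q → κ < -ε * ((P v).im - C.im)

theorem pvhz_strip (hz2 : |z.im - C.im| ≤ κ) {w : ℂ} (h : κ + μ < |w.im - C.im|) : μ < |w.im - z.im| := by
  have : |w.im - C.im| ≤ |w.im - z.im| + |z.im - C.im| := by
    have := abs_add_le (w.im - z.im) (z.im - C.im)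
    rwa [sub_add_sub_cancel] at this
  linarith

/-- an edge between two sites which are in the box or off the strip of the ray is off the slit -/
theorem pvhz_chi0 (hz1 : xB < z.re) (hz2 : |z.im - C.im| ≤ κ) {x : D} (h1 : (P (T.src x)).re ≤ xB ∨ (κ + μ < |(P (T.src x)).im - C.im| ∧ ‖P (T.src x) - P (T.tgt x)‖ ≤ μ))
    (h2 : (P (T.tgt x)).re ≤ xB ∨ (κ + μ < |(P (T.tgt x)).im - C.im| ∧ ‖P (T.src x) - P (T.tgt x)‖ ≤ μ)) : pvtzChi T P z x = 0 := by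
  rcases h1 with e1 | ⟨e1, hl⟩
  · rcases h2 with e2 | ⟨e2, hl⟩
    · exact pvtz_chi_west (by linarith) (by linarith)
    · rw [← pvtz_chi_sym P z x]
      exact pvtz_chi_strip (μ := μ) (by rw [T.src_opp', T.tgt_opp, norm_sub_rev]; exact hl) (by rw [T.src_opp']; exact pvhz_strip hz2 e2)
  · exact pvtz_chi_strip hl (pvhz_strip hz2 e1)

variable {Q Pc Z : Set V}

/-- the C and the explored set are off the slit -/
theorem PvhzSide.slit (S : PvhzSide T P s d n M z u C xB κ μ r₁ ε β uβ) (hD : PvhzDoor P C xB κ μ r₁ ε Q Pc Z) (x : D)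
    (h1 : T.src x ∈ Q ∪ pvtzEx T s d n) (h2 : T.tgt x ∈ Q ∪ pvtzEx T s d n) : pvtzChi T P z x = 0 := by
  have key : ∀ y : D, T.src y ∈ Q ∪ pvtzEx T s d n → (P (T.src y)).re ≤ xB ∨ (κ + μ < |(P (T.src y)).im - C.im| ∧ ‖P (T.src y) - P (T.tgt y)‖ ≤ μ) := by
    rintro y (hy | hy)
    · exact (hD.front _ hy).imp_right fun h => ⟨h, S.short y (hD.qin _ hy)⟩
    · exact Or.inl (S.box _ hy)
  refine pvhz_chi0 S.z1 S.z2 (key x h1) ?_
  have := key (T.opp x) (by rw [T.src_opp']; exact h2)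
  rwa [T.src_opp', T.tgt_opp, norm_sub_rev] at this

/-- **THE HOOK AT AN EXIT TIP**: the end of colour `β` of the tip is joined to the far end `p0` of the lane piece inside the closed small mouth `Mc`, through the bank of colour `β`, the FRESH sites of the C and the lane piece -/
theorem PvhzSide.exit [Nonempty D] (S : PvhzSide T P s d n M z u C xB κ μ r₁ ε β uβ) (hD : PvhzDoor P C xB κ μ r₁ ε Q Pc Z) (hT : T.IsSph) (Mc : T.Cyc) (hfin : Mc.Left.Finite)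
    (hsub : Mc.Left ⊆ M) (hMc : ∀ v ∈ T.VOf Mc.Left, ‖P v - C‖ ≤ r₁) (h0 : T.opp d ∉ Mc.Left) (hbw : pvasBW T s d)
    (hinj : ∀ i j, i ≤ n → j ≤ n → pvasIt T s d i = pvasIt T s d j → i = j)
    {p0 p1 xm : V} (hPj : T.Join Mc.Left Pc p0 p1) (hQj : T.Join Mc.Left Q p1 xm) (hZj : T.Join Mc.Left Z p0 xm) :
    T.Join Mc.Left ({v | v ∈ pvtzEx T s d n ∧ s v = β} ∪ (Q \ pvtzEx T s d n) ∪ Pc) (pvhiEnd T β (pvasIt T s d n)) p0 := by
  have hfr : ∀ v, xB < (P v).re → v ∉ pvtzEx T s d n := fun v hv hE => absurd (S.box v hE) (not_le.2 hv)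
  have hxQ := pl_hx_join_mem hQj
  have hxZ := pl_hx_join_mem hZj
  exact pvhz_exit hT Mc hfin hsub S.pot h0 hbw hinj β uβ (fun v hv hvM => S.cls v hv (hMc v hvM)) (S.slit hD)
    (fun v hv => ⟨hfr v (hD.pin v hv).2.1, S.up v (hD.pin v hv).2.1 (hD.pin v hv).1 (hD.pin v hv).2.2⟩) (fun v hv => hfr v (hD.zin v hv).2) hPj hQj hZj
    (S.dn xm (hD.zin _ hxZ).2 (hD.zin _ hxZ).1 (hD.zq _ hxZ hxQ)) (fun v hv hq => S.dn v (hD.zin v hv).2 (hD.zin v hv).1 (hD.zq v hv hq))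

/-- **THE HOOK AT AN ENTRANCE TIP** -/
theorem PvhzSide.ent [Nonempty D] (S : PvhzSide T P s d n M z u C xB κ μ r₁ ε β uβ) (hD : PvhzDoor P C xB κ μ r₁ ε Q Pc Z) (hT : T.IsSph) (Mc : T.Cyc) (hfin : Mc.Left.Finite)
    (hsub : Mc.Left ⊆ M) (hMc : ∀ v ∈ T.VOf Mc.Left, ‖P v - C‖ ≤ r₁) (h0 : pvasIt T s d n ∉ Mc.Left) (hbw : pvasBW T s d)
    (hinj : ∀ i j, i ≤ n → j ≤ n → pvasIt T s d i = pvasIt T s d j → i = j)
    {p0 p1 xm : V} (hPj : T.Join Mc.Left Pc p0 p1) (hQj : T.Join Mc.Left Q p1 xm) (hZj : T.Join Mc.Left Z p0 xm) :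
    T.Join Mc.Left ({v | v ∈ pvtzEx T s d n ∧ s v = β} ∪ (Q \ pvtzEx T s d n) ∪ Pc) (pvhiEnd T β d) p0 := by
  have hfr : ∀ v, xB < (P v).re → v ∉ pvtzEx T s d n := fun v hv hE => absurd (S.box v hE) (not_le.2 hv)
  have hxQ := pl_hx_join_mem hQj
  have hxZ := pl_hx_join_mem hZj
  exact pvhz_ent hT Mc hfin hsub S.pot h0 hbw hinj β uβ (fun v hv hvM => S.cls v hv (hMc v hvM)) (S.slit hD)
    (fun v hv => ⟨hfr v (hD.pin v hv).2.1, S.up v (hD.pin v hv).2.1 (hD.pin v hv).1 (hD.pin v hv).2.2⟩) (fun v hv => hfr v (hD.zin v hv).2) hPj hQj hZj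
    (S.dn xm (hD.zin _ hxZ).2 (hD.zin _ hxZ).1 (hD.zq _ hxZ hxQ)) (fun v hv hq => S.dn v (hD.zin v hv).2 (hD.zin v hv).1 (hD.zq v hv hq))

/-! ### how to get a `PvhzSide` -/

theorem pvhz_z2_succ_ne (a : ZMod 2) : a + 1 ≠ a := by revert a; decide
theorem pvhz_z2_of_ne {a b : ZMod 2} (h : a ≠ b) : b = a + 1 := by revert a b; decide

/-- the values of the potential outside the box (`hval` of `pvtzd_exit`, `pvtzd_ent` of 23) give the fields `up`, `dn` -/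
theorem pvhz_updn {β₀ : ZMod 2} (hz2 : |z.im - C.im| ≤ κ) (hval : ∀ y, xB < (P y).re → ‖P y - C‖ ≤ r₁ → u y = β₀ + plI ((P y).im ≤ z.im))
    (hβ : (ε = 1 ∧ uβ = β₀) ∨ (ε = -1 ∧ uβ = β₀ + 1)) :
    (∀ y, xB < (P y).re → ‖P y - C‖ ≤ r₁ → κ < ε * ((P y).im - C.im) → u y = uβ) ∧ (∀ y, xB < (P y).re → ‖P y - C‖ ≤ r₁ → κ < -ε * ((P y).im - C.im) → u y ≠ uβ) := by
  rw [abs_le] at hz2
  rcases hβ with ⟨rfl, rfl⟩ | ⟨rfl, rfl⟩
  · refine ⟨fun y h1 h2 h3 => ?_, fun y h1 h2 h3 => ?_⟩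
    · rw [hval y h1 h2, pl_hx_I_neg (by rw [not_le]; linarith [hz2.2]), add_zero]
    · rw [hval y h1 h2, pl_hx_I_pos (by linarith [hz2.1])]; exact pvhz_z2_succ_ne _
  · refine ⟨fun y h1 h2 h3 => ?_, fun y h1 h2 h3 => ?_⟩
    · rw [hval y h1 h2, pl_hx_I_pos (by linarith [hz2.1])]
    · rw [hval y h1 h2, pl_hx_I_neg (by rw [not_le]; linarith [hz2.2]), add_zero]; exact (pvhz_z2_succ_ne _).symm

/-- CALM + (H1): the classes of the explored sites of a region which meets the explored set only on the banks of ONE piece -/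
theorem pvhz_cls {χ : D → ZMod 2} (hM : T.FaceSet M) (hd : pvasBW T s d) (h : PvtzPot T s d n M χ u) {m n' : ℕ} (hp : PvtzPiece T s d M χ m n')
    (hne : u (T.src (pvasIt T s d m)) ≠ u (T.tgt (pvasIt T s d m))) {v : V} (hv : v ∈ pvtzB T s d m n' ∪ pvtzW T s d m n') :
    (u v = u (T.src (pvasIt T s d m)) ↔ s v = true) ∧ (u v = u (T.tgt (pvasIt T s d m)) ↔ s v = false) := by
  rcases hv with hv | hv
  · rw [pvtz_B_const hM hd h hp hv, pvtz_B_black hd hv]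
    exact ⟨⟨fun _ => rfl, fun _ => rfl⟩, ⟨fun e => absurd e hne, fun e => absurd e (by simp)⟩⟩
  · rw [pvtz_W_const hM hd h hp hv, pvtz_W_white hd hv]
    exact ⟨⟨fun e => absurd e.symm hne, fun e => absurd e (by simp)⟩, ⟨fun _ => rfl, fun _ => rfl⟩⟩

/-- the two ends of a position of the closed mouth, off the slit, lie in different classes -/
theorem pvhz_sep {χ : D → ZMod 2} (hd : pvasBW T s d) (hinj : ∀ i j, i ≤ n → j ≤ n → pvasIt T s d i = pvasIt T s d j → i = j) (h : PvtzPot T s d n M χ u) {k : ℕ} (hk : k ≤ n)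
    (hmem : pvasIt T s d k ∈ M ∨ T.opp (pvasIt T s d k) ∈ M) (hχ : χ (pvasIt T s d k) = 0) : u (T.src (pvasIt T s d k)) ≠ u (T.tgt (pvasIt T s d k)) := by
  have h1 := h (pvasIt T s d k) hmem
  rw [pvtz_X_one hd hinj hk, hχ, add_zero] at h1
  exact pvtz_z2_ne h1

end geo

/-! ## 3. THE DELAUNAY MAP: FROM REGIONS TO THE HOOK -/

section joins

variable {V D : Type} {T : PvMap V D}

/-- a join through inner vertices of `A` is a join of `A` -/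
theorem pvhz_join_in {A : Set D} {X : Set V} (hX : ∀ v ∈ X, v ∈ T.Int A) {a b : V} (h : T.Join univ X a b) : T.Join A X a b := by
  refine ⟨h.1, ?_⟩
  have key : ∀ y, ReflTransGen (fun p q => T.EdgeIn univ p q ∧ q ∈ X) a y → y ∈ X ∧ ReflTransGen (fun p q => T.EdgeIn A p q ∧ q ∈ X) a y := by
    intro y hy
    induction hy with
    | refl => exact ⟨h.1, ReflTransGen.refl⟩
    | @tail y y' _ hyy ih =>
      obtain ⟨x, -, e1, e2⟩ := hyy.1
      exact ⟨hyy.2, ih.2.tail ⟨⟨x, Or.inl (hX _ ih.1 x e1), e1, e2⟩, hyy.2⟩⟩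
  exact (key b h.2).2

/-- a join of a face set which starts at a vertex of the face set runs through vertices of the face set -/
theorem pvhz_join_vof {A : Set D} (hA : T.FaceSet A) {X : Set V} {a b : V} (h : T.Join A X a b) (ha : a ∈ T.VOf A) : T.Join A (X ∩ T.VOf A) a b := by
  refine ⟨⟨h.1, ha⟩, ?_⟩
  have key : ∀ y, ReflTransGen (fun p q => T.EdgeIn A p q ∧ q ∈ X) a y → ReflTransGen (fun p q => T.EdgeIn A p q ∧ q ∈ X ∩ T.VOf A) a y := by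
    intro y hy
    induction hy with
    | refl => exact ReflTransGen.refl
    | @tail y y' hy' hyy ih => exact ih.tail ⟨hyy.1, hyy.2, pl_hx_join_VOf hA (⟨h.1, hy'.tail hyy⟩ : T.Join A X a y') ha⟩
  exact key b h.2

end joins

section del

variable {Y : Set ℂ}

/-- Delaunay edges at a site with a dense neighbourhood are short -/
theorem pvhz_adj_short {a b : ℂ} {ρ : ℝ} (hρ : 0 < ρ) (hd : VorDense Y (closedBall a (2 * ρ)) ρ) (h : DelAdj Y a b) : ‖a - b‖ ≤ 2 * ρ := by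
  have hc : vorCell Y a ⊆ closedBall a ρ := vor_cell_subset_ball hρ.le (by linarith) hd
  exact del_adj_dist (fun z hz => hd z (closedBall_subset_closedBall (by linarith) hz)) (h.inWin hc)

theorem pvhz_norm_mul {ζ : ℂ} (hζ : ‖ζ‖ = 1) (a b : ℂ) : ‖ζ * a - ζ * b‖ = ‖a - b‖ := by
  rw [← mul_sub, norm_mul, hζ, one_mul]

/-- **THE REGIONS OF THE HOOK OF ONE COLOUR AT ONE TIP** (`ζ` = the direction: in the picture `w ↦ ζ w` the box is `{re ≤ xB}`).   `Uc` = the C, `Up` = the lane piece, `Uz` = the closing curve; `Wc ⊇ Uc^{+ρ}`, `Wp ⊇ Up^{+ρ}` their windows.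
ONLY INEQUALITIES ON REGIONS: the window of the C is in the box or off the strip of the ray;  the window of the lane piece is outside the box on the side `ε`;  the collar of the closing curve is outside the box and meets the window of the C only on the side `-ε`. -/
structure PvhzReg (ζ c : ℂ) (xB κ μ ρ rc ε : ℝ) (Uc Up Uz Wc Wp : Set ℂ) : Prop where
  wc : ∀ z ∈ Uc, ∀ w : ℂ, ‖w - z‖ < ρ → w ∈ Wc
  wp : ∀ z ∈ Up, ∀ w : ℂ, ‖w - z‖ < ρ → w ∈ Wp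
  uin : ∀ z ∈ Uc ∪ Up ∪ Uz, z ∈ closedBall c rc
  cin : ∀ w ∈ Wc, ‖w - c‖ ≤ rc
  front : ∀ w ∈ Wc, (ζ * w).re ≤ xB ∨ κ + μ < |(ζ * w).im - (ζ * c).im|
  piece : ∀ w ∈ Wp, ‖w - c‖ ≤ rc ∧ xB < (ζ * w).re ∧ κ < ε * ((ζ * w).im - (ζ * c).im)
  conn : IsPreconnected Uz
  close : ∀ w ∈ vorNbd Uz ρ, ‖w - c‖ ≤ rc ∧ xB < (ζ * w).re
  cq : ∀ w ∈ vorNbd Uz ρ, w ∈ Wc → κ < -ε * ((ζ * w).im - (ζ * c).im)

variable {ζ c : ℂ} {xB κ μ ρ rc rc' r₁ ε : ℝ} {Uc Up Uz Wc Wp : Set ℂ}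

/-- the sites whose cell meets the closing curve -/
def pvhzZ (Y Uz : Set ℂ) : Set ↥Y := {v | (v : ℂ) ∈ vorMeet Y Uz}

theorem pvhz_eqns_cite : True := by
  have := @pvhzZ.eq_1
  trivial

/-- **the three joins and the door**, from the regions and two paths of the region of the copy colour `cc` -/
theorem PvhzReg.joins (R : PvhzReg ζ c xB κ μ ρ rc ε Uc Up Uz Wc Wp) (h : DelGood Y) (hζ : ‖ζ‖ = 1) (hr : rc ≤ r₁) {Mc : (delMap h).Cyc} (hMc : PvaxAt (delMap h) (dlsPos Y) c rc rc' Mc)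
    (hnet : ∀ z ∈ closedBall c rc, ∃ y ∈ Y, ‖y - z‖ < ρ) (κc : ℂ → Bool) (cc : Bool) {m e f : ℂ} (hp : JoinedIn (pvlnReg cc (cfOf Y κc) ∩ Up) f m) (hc : JoinedIn (pvlnReg cc (cfOf Y κc) ∩ Uc) m e)
    (hfz : f ∈ Uz) (hez : e ∈ Uz) (p0 : Y) (hp0 : κc p0 = cc) (hf : f ∈ vorCell Y p0) :
    PvhzDoor (fun v : Y => ζ * dlsPos Y v) (ζ * c) xB κ μ r₁ ε (pvkqV Y κc cc Wc) (pvkqV Y κc cc Wp) (pvhzZ Y Uz) ∧
      ∃ p1 xm : Y, (delMap h).Join Mc.Left (pvkqV Y κc cc Wp) p0 p1 ∧ (delMap h).Join Mc.Left (pvkqV Y κc cc Wc) p1 xm ∧ (delMap h).Join Mc.Left (pvhzZ Y Uz) p0 xm := by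
  have hdZ : VorDense Y Uz ρ := fun z hz => by
    obtain ⟨y, hy, hyz⟩ := hnet z (R.uin z (Or.inr hz))
    exact ⟨y, hy, by rw [norm_sub_rev]; exact hyz.le⟩
  have hZn : ∀ v ∈ pvhzZ Y Uz, (v : ℂ) ∈ vorNbd Uz ρ := fun v hv => (vor_meet_subset_nbd hdZ hv).2
  have hdoor : PvhzDoor (fun v : Y => ζ * dlsPos Y v) (ζ * c) xB κ μ r₁ ε (pvkqV Y κc cc Wc) (pvkqV Y κc cc Wp) (pvhzZ Y Uz) := by
    refine ⟨fun v hv => ?_, fun v hv => R.front v hv.2, fun v hv => ⟨?_, (R.piece v hv.2).2⟩, fun v hv => ⟨?_, (R.close v (hZn v hv)).2⟩, fun v hv hq => R.cq v (hZn v hv) hq.2⟩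
    · show ‖ζ * (v : ℂ) - ζ * c‖ ≤ r₁
      rw [pvhz_norm_mul hζ]; exact (R.cin v hv.2).trans hr
    · show ‖ζ * (v : ℂ) - ζ * c‖ ≤ r₁
      rw [pvhz_norm_mul hζ]; exact (R.piece v hv.2).1.trans hr
    · show ‖ζ * (v : ℂ) - ζ * c‖ ≤ r₁
      rw [pvhz_norm_mul hζ]; exact (R.close v (hZn v hv)).1.trans hr
  refine ⟨hdoor, ?_⟩
  obtain ⟨p1, hm1, -, jP⟩ := pvkq_join_from h κc cc (fun z hz => hnet z (R.uin z (Or.inl (Or.inr hz)))) R.wp hp p0 hp0 hf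
  obtain ⟨xm, he1, -, jQ⟩ := pvkq_join_from h κc cc (fun z hz => hnet z (R.uin z (Or.inl (Or.inl hz)))) R.wc hc p1 (pl_hx_join_mem jP).1 hm1
  have hp0Z : p0 ∈ pvhzZ Y Uz := ⟨p0.2, f, hf, hfz⟩
  have jZ : (delMap h).Join univ (pvhzZ Y Uz) p0 xm :=
    ⟨hp0Z, ReflTransGen.mono (fun x y hxy => ⟨(dls_edgeIn_univ h x y).2 ((dls_adj_iff h x y).1 hxy.1), hxy.2⟩) _ _ (dlc_conn h R.conn p0 hp0Z xm ⟨xm.2, e, he1, hez⟩)⟩
  exact ⟨p1, xm, pvhz_join_in (fun v hv => hMc.inn v (R.piece v hv.2).1) jP, pvhz_join_in (fun v hv => hMc.inn v (R.cin v hv.2)) jQ,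
    pvhz_join_in (fun v hv => hMc.inn v (R.close v (hZn v hv)).1) jZ⟩

variable {s : Y → Bool} {n : ℕ} {z : ℂ} {u : Y → ZMod 2} {β : Bool} {uβ : ZMod 2}

/-- the sites of the hook have the colour `β` and lie in the mouth -/
theorem pvhz_hook_col (h : DelGood Y) {d : DelDart h} {M : Set (DelDart h)} (S : PvhzSide (delMap h) (fun v => ζ * dlsPos Y v) s d n M z u (ζ * c) xB κ μ r₁ ε β uβ)
    (R : PvhzReg ζ c xB κ μ ρ rc ε Uc Up Uz Wc Wp) {Mc : (delMap h).Cyc} (hMc : PvaxAt (delMap h) (dlsPos Y) c rc rc' Mc) (κc : ℂ → Bool) (cc : Bool)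
    (hcol : ∀ v : Y, κc v = cc → (v : ℂ) ∈ Wc ∪ Wp → v ∉ pvtzEx (delMap h) s d n → s v = β) {a p0 : Y} (hp0 : ‖(p0 : ℂ) - c‖ ≤ rc)
    (hj : (delMap h).Join Mc.Left ({v | v ∈ pvtzEx (delMap h) s d n ∧ s v = β} ∪ (pvkqV Y κc cc Wc \ pvtzEx (delMap h) s d n) ∪ pvkqV Y κc cc Wp) a p0) :
    (delMap h).Join univ {v | s v = β ∧ ‖(v : ℂ) - c‖ < rc'} a p0 := by
  have hV : p0 ∈ (delMap h).VOf Mc.Left := by
    rw [pl_VOf_left (dls_isSph h) Mc]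
    exact Or.inr (hMc.inn p0 hp0)
  have h2 := pl_hx_join_symm (pvhz_join_vof (pl_left_face Mc) (pl_hx_join_symm hj) hV)
  refine pl_hx_join_mono (subset_univ _) ?_ h2
  rintro v ⟨hv, hvM⟩
  refine ⟨?_, hMc.out v hvM⟩
  rcases hv with (hv | hv) | hv
  · exact hv.2
  · exact hcol v hv.1.1 (Or.inl hv.1.2) hv.2
  · exact hcol v hv.1 (Or.inr hv.2) fun hE => absurd (S.box v hE) (not_le.2 (R.piece v hv.2).2.1)

/-- **THE HOOK AT AN EXIT TIP OF THE DELAUNAY MAP.**   `κc` = the COPY colouring, `cc` = the colour of the lane for `κc`; on the FRESH sites of the two windows the colour `cc` of the copy is the colour `β` of `s`.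
`f → m` a path of the copy region in the lane piece, `m → e` a path of the copy region in the C, `p0` ANY site of copy colour `cc` whose cell contains `f`.
THEN the end of colour `β` of the tip position is joined to `p0` through sites of colour `β` (for `s`) of the open ball `B(c, rc')`. -/
theorem pvhz_hook_exit (h : DelGood Y) (hζ : ‖ζ‖ = 1) {d : DelDart h} {M : Set (DelDart h)} (S : PvhzSide (delMap h) (fun v => ζ * dlsPos Y v) s d n M z u (ζ * c) xB κ μ r₁ ε β uβ)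
    (R : PvhzReg ζ c xB κ μ ρ rc ε Uc Up Uz Wc Wp) (hr : rc ≤ r₁) (hr' : rc' ≤ r₁) {Mc : (delMap h).Cyc} (hMc : PvaxAt (delMap h) (dlsPos Y) c rc rc' Mc) (hsub : Mc.Left ⊆ M)
    (h0 : (delMap h).opp d ∉ Mc.Left) (hbw : pvasBW (delMap h) s d) (hinj : ∀ i j, i ≤ n → j ≤ n → pvasIt (delMap h) s d i = pvasIt (delMap h) s d j → i = j)
    (hnet : ∀ z ∈ closedBall c rc, ∃ y ∈ Y, ‖y - z‖ < ρ) (κc : ℂ → Bool) (cc : Bool)
    (hcol : ∀ v : Y, κc v = cc → (v : ℂ) ∈ Wc ∪ Wp → v ∉ pvtzEx (delMap h) s d n → s v = β)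
    {m e f : ℂ} (hp : JoinedIn (pvlnReg cc (cfOf Y κc) ∩ Up) f m) (hc : JoinedIn (pvlnReg cc (cfOf Y κc) ∩ Uc) m e)
    (hfz : f ∈ Uz) (hez : e ∈ Uz) (p0 : Y) (hp0 : κc p0 = cc) (hf : f ∈ vorCell Y p0) :
    (delMap h).Join univ {v | s v = β ∧ ‖(v : ℂ) - c‖ < rc'} (pvhiEnd (delMap h) β (pvasIt (delMap h) s d n)) p0 := by
  have : Nonempty (DelDart h) := ⟨d⟩
  obtain ⟨hD, p1, xm, jP, jQ, jZ⟩ := R.joins h hζ hr hMc hnet κc cc hp hc hfz hez p0 hp0 hf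
  have hMc' : ∀ v ∈ (delMap h).VOf Mc.Left, ‖ζ * dlsPos Y v - ζ * c‖ ≤ r₁ := fun v hv => by
    rw [pvhz_norm_mul hζ]; exact (hMc.out v hv).le.trans hr'
  exact pvhz_hook_col h S R hMc κc cc hcol (R.piece p0 jP.1.2).1 (S.exit hD (dls_isSph h) Mc hMc.fin hsub hMc' h0 hbw hinj jP jQ jZ)

/-- **THE HOOK AT AN ENTRANCE TIP OF THE DELAUNAY MAP** (`d` = the tip position, the stub is listed forwards) -/
theorem pvhz_hook_ent (h : DelGood Y) (hζ : ‖ζ‖ = 1) {d : DelDart h} {M : Set (DelDart h)} (S : PvhzSide (delMap h) (fun v => ζ * dlsPos Y v) s d n M z u (ζ * c) xB κ μ r₁ ε β uβ)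
    (R : PvhzReg ζ c xB κ μ ρ rc ε Uc Up Uz Wc Wp) (hr : rc ≤ r₁) (hr' : rc' ≤ r₁) {Mc : (delMap h).Cyc} (hMc : PvaxAt (delMap h) (dlsPos Y) c rc rc' Mc) (hsub : Mc.Left ⊆ M)
    (h0 : pvasIt (delMap h) s d n ∉ Mc.Left) (hbw : pvasBW (delMap h) s d) (hinj : ∀ i j, i ≤ n → j ≤ n → pvasIt (delMap h) s d i = pvasIt (delMap h) s d j → i = j)
    (hnet : ∀ z ∈ closedBall c rc, ∃ y ∈ Y, ‖y - z‖ < ρ) (κc : ℂ → Bool) (cc : Bool)
    (hcol : ∀ v : Y, κc v = cc → (v : ℂ) ∈ Wc ∪ Wp → v ∉ pvtzEx (delMap h) s d n → s v = β)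
    {m e f : ℂ} (hp : JoinedIn (pvlnReg cc (cfOf Y κc) ∩ Up) f m) (hc : JoinedIn (pvlnReg cc (cfOf Y κc) ∩ Uc) m e)
    (hfz : f ∈ Uz) (hez : e ∈ Uz) (p0 : Y) (hp0 : κc p0 = cc) (hf : f ∈ vorCell Y p0) :
    (delMap h).Join univ {v | s v = β ∧ ‖(v : ℂ) - c‖ < rc'} (pvhiEnd (delMap h) β d) p0 := by
  have : Nonempty (DelDart h) := ⟨d⟩
  obtain ⟨hD, p1, xm, jP, jQ, jZ⟩ := R.joins h hζ hr hMc hnet κc cc hp hc hfz hez p0 hp0 hf
  have hMc' : ∀ v ∈ (delMap h).VOf Mc.Left, ‖ζ * dlsPos Y v - ζ * c‖ ≤ r₁ := fun v hv => by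
    rw [pvhz_norm_mul hζ]; exact (hMc.out v hv).le.trans hr'
  exact pvhz_hook_col h S R hMc κc cc hcol (R.piece p0 jP.1.2).1 (S.ent hD (dls_isSph h) Mc hMc.fin hsub hMc' h0 hbw hinj jP jQ jZ)

end del

/-! ## 4. FROM A LANE EVENT TO THE RECORD `PvhjArm` OF 23 (`Tr/HookY`) -/

section hubs

variable {B U U' : Set ℂ} {δ : ℝ} {k : ℤ × ℤ} {x x' : ℂ}

/-- the side number `j` of the cell `k` (`0` left, `1` right, `2` bottom, `3` top) -/
def pvhzSd (δ : ℝ) (k : ℤ × ℤ) (j : ℕ) : Set ℂ :=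
  {w | w ∈ pvlnC δ k ∧ ((j = 0 ∧ w.re = (k.1 : ℝ) * δ) ∨ (j = 1 ∧ w.re = ((k.1 : ℝ) + 1) * δ) ∨ (j = 2 ∧ w.im = (k.2 : ℝ) * δ) ∨ (j = 3 ∧ w.im = ((k.2 : ℝ) + 1) * δ))}

theorem pvhz_eqns_cite2 : True := by
  have := @pvhzSd.eq_1
  trivial

/-- a hub is joined to a point of EVERY side of the cell -/
theorem pvhz_hub_side (hC : pvlnC δ k ⊆ U) (h : PvlnHub B U δ k x) {j : ℕ} (hj : j < 4) : ∃ w ∈ pvhzSd δ k j, JoinedIn (B ∩ U) x w := by
  obtain ⟨a, b, c, d, ha, hb, hc, hd, ja, jb, jc, jd⟩ := pvln_hub_sides hC h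
  obtain rfl | rfl | rfl | rfl : j = 0 ∨ j = 1 ∨ j = 2 ∨ j = 3 := by omega
  · exact ⟨a, ⟨ha.1, Or.inl ⟨rfl, ha.2⟩⟩, ja⟩
  · exact ⟨b, ⟨hb.1, Or.inr (Or.inl ⟨rfl, hb.2⟩)⟩, jb⟩
  · exact ⟨c, ⟨hc.1, Or.inr (Or.inr (Or.inl ⟨rfl, hc.2⟩))⟩, jc⟩
  · exact ⟨d, ⟨hd.1, Or.inr (Or.inr (Or.inr ⟨rfl, hd.2⟩))⟩, jd⟩

/-- **two hubs of the same cell meet in the cell**: a point of the cell joined to the first hub in `B ∩ U` and to the second one in `B ∩ U'` -/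
theorem pvhz_hub_meet (hC : pvlnC δ k ⊆ U) (h : PvlnHub B U δ k x) (h' : PvlnHub B U' δ k x') : ∃ m ∈ pvlnC δ k, JoinedIn (B ∩ U) x m ∧ JoinedIn (B ∩ U') x' m := by
  obtain ⟨a, b, -, -, h1, h2, -, -, h5, -, h7, -⟩ := h
  obtain ⟨-, -, c', d', -, -, h3', h4', -, h6', -, h8'⟩ := h'
  have hm := pvln_cell_meet h1 h2 h3' h4' h5 h6'
  exact ⟨c', hm.target_mem.2, h7.trans (hm.mono (inter_subset_inter_right _ hC)), h8'⟩

/-- the path component of a hub lies in the path component of any hub of the same cell in a larger region -/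
theorem pvhz_comp_sub (hC : pvlnC δ k ⊆ U) (hU : U ⊆ U') (h : PvlnHub B U δ k x) (h' : PvlnHub B U' δ k x') : pathComponentIn (B ∩ U) x ⊆ pathComponentIn (B ∩ U') x' := by
  obtain ⟨m, -, j1, j2⟩ := pvhz_hub_meet hC h h'
  intro w hw
  exact (j2.trans (j1.symm.mono (inter_subset_inter_right _ hU))).trans (JoinedIn.mono hw (inter_subset_inter_right _ hU))

theorem pvhz_hub_mem (h : PvlnHub B U δ k x) : x ∈ B ∩ U := by
  obtain ⟨a, b, c, d, -, -, -, -, -, -, h7, -⟩ := h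
  exact h7.source_mem

theorem pvhz_comp_preconn (h : PvlnHub B U δ k x) : IsPreconnected (pathComponentIn (B ∩ U) x) :=
  (isPathConnected_pathComponentIn (pvhz_hub_mem h)).isConnected.isPreconnected

end hubs

section arm

variable {Y : Set ℂ}

theorem pvhz_U_mono {δ : ℝ} {L L' : List (ℤ × ℤ)} (h : ∀ k ∈ L, k ∈ L') : pvlnU δ L ⊆ pvlnU δ L' := by
  intro z hz
  obtain ⟨k, hk, hzk⟩ := mem_iUnion₂.1 hz
  exact mem_biUnion (show k ∈ {k | k ∈ L'} from h k hk) hzk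

/-- **the hub of a contiguous part of a chain**, on the lane event of the chain (copy colouring `κ`) -/
theorem pvhz_hub_infix (κ : ℂ → Bool) {β : Bool} {δ : ℝ} (hδ : 0 < δ) {L L' : List (ℤ × ℤ)} (hc : L.IsChain PvlnAdj) (hev : cfOf Y κ ∈ pvlnLaneEv δ β L) (hin : L' <:+: L) (hne : L' ≠ []) :
    ∃ x, ∀ k ∈ L', PvlnHub (pvlnReg β (cfOf Y κ)) (pvlnU δ L') δ k x := by
  obtain ⟨L₁, L₂, rfl⟩ := hin
  have hall := (pvln_loc_robust (pvln_lane_fit hδ hc) hev rfl).1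
  exact pvln_lane_det hδ.le L' hne (hc.infix ⟨L₁, L₂, rfl⟩) fun e he => hall e (pvkq_lane_infix δ L₁ L' L₂ e he)

/-- on the lane event the sites are `δ/16`-dense on the lane -/
theorem pvhz_lane_dense (κ : ℂ → Bool) {β : Bool} {δ : ℝ} (hδ : 0 < δ) {L : List (ℤ × ℤ)} (hc : L.IsChain PvlnAdj) (hev : cfOf Y κ ∈ pvlnLaneEv δ β L) : VorDense Y (pvlnU δ L) (δ / 16) := by
  intro z hz
  obtain ⟨s, hs, hsz⟩ := pvln_lane_net hδ hc hev rfl hz
  rw [cfOf_sites] at hs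
  exact ⟨s, hs, by rw [norm_sub_rev]; linarith⟩

/-- **THE REGIONS OF AN ARM** = what the owner of the explicit family owes: INEQUALITIES ON THE `ρ`-NEIGHBOURHOODS OF THREE DETERMINISTIC REGIONS (picture rotated by `ζ`, box `{re ≤ xB}`, tip face between the ordinates `yL`, `yU`, edges `≤ μ`, small mouth `(c, rs)`).
`UN` = the cells of the arm, `UC` = the cells of the C (with the first cell of the arm), `Sg` = the closing set (deterministic, preconnected). -/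
structure PvhzArmReg (ζ : ℂ) (xB yL yU μ : ℝ) (c : ℂ) (rs ρ : ℝ) (up : Bool) (UN UC Sg : Set ℂ) : Prop where
  cS : IsPreconnected Sg
  near : ∀ w ∈ vorNbd (UN ∪ UC ∪ Sg) ρ, ‖w - c‖ ≤ rs
  sOut : ∀ w ∈ vorNbd Sg ρ, xB < (ζ * w).re
  nSide : ∀ w ∈ vorNbd UN ρ, xB < (ζ * w).re ∧ pvhjSide up yL yU μ (ζ * w)
  cOff : ∀ w ∈ vorNbd UC ρ, (ζ * w).re ≤ xB ∨ pvhjSide true yL yU μ (ζ * w) ∨ pvhjSide false yL yU μ (ζ * w)
  sc : ∀ w ∈ vorNbd Sg ρ, w ∈ vorNbd UC ρ → pvhjSide (!up) yL yU μ (ζ * w)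

/-- a site whose cell meets a subset of a region with a `ρ`-net lies in the `ρ`-neighbourhood of the region -/
theorem pvhz_meet_nbd {K G : Set ℂ} {ρ : ℝ} (hd : VorDense Y K ρ) (hG : G ⊆ K) {v : ℂ} (hv : (vorCell Y v ∩ G).Nonempty) : v ∈ vorNbd K ρ := by
  obtain ⟨g, hg1, hg2⟩ := hv
  exact ⟨g, hG hg2, by rw [norm_sub_rev]; exact vor_site_near hd hg1 (hG hg2)⟩

theorem pvhz_dense_mono {K : Set ℂ} {ρ ρ' : ℝ} (hd : VorDense Y K ρ) (h : ρ ≤ ρ') : VorDense Y K ρ' := fun z hz => by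
  obtain ⟨u, hu, huz⟩ := hd z hz
  exact ⟨u, hu, huz.trans h⟩

theorem pvhz_nbd_mono {K K' : Set ℂ} (h : K ⊆ K') (ρ : ℝ) : vorNbd K ρ ⊆ vorNbd K' ρ := fun _ ⟨z, hz, hw⟩ => ⟨z, h hz, hw⟩

/-- **THE ARM FROM TWO HUBS** (no list): `xN` hub of the cells `k1`, `kN` in `UN`, `xC` hub of the cells `k1`, `kS` in `UC`; the closing set contains one whole side of `kN` and one whole side of `kS` -/
theorem pvhz_arm_hubs (lf : VorLF Y) (κ : ℂ → Bool) {β : Bool} {δ : ℝ} {ζ : ℂ} {xB yL yU μ : ℝ} {c : ℂ} {rs ρ : ℝ} {up : Bool} {UN UC Sg : Set ℂ} (R : PvhzArmReg ζ xB yL yU μ c rs ρ up UN UC Sg)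
    (hdN : VorDense Y UN ρ) (hdC : VorDense Y UC ρ) (hdS : VorDense Y Sg ρ) {k1 kN kS : ℤ × ℤ} {xN xC : ℂ} (c1 : pvlnC δ k1 ⊆ UN) (cN : pvlnC δ kN ⊆ UN) (cS : pvlnC δ kS ⊆ UC)
    (h1N : PvlnHub (pvlnReg β (cfOf Y κ)) UN δ k1 xN) (h1C : PvlnHub (pvlnReg β (cfOf Y κ)) UC δ k1 xC) (hN : PvlnHub (pvlnReg β (cfOf Y κ)) UN δ kN xN)
    (hS : PvlnHub (pvlnReg β (cfOf Y κ)) UC δ kS xC) {jN jS : ℕ} (hjN : jN < 4) (hjS : jS < 4) (hSN : pvhzSd δ kN jN ⊆ Sg) (hSS : pvhzSd δ kS jS ⊆ Sg) :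
    PvhjArm Y κ β ζ xB yL yU μ c rs up (pathComponentIn (pvlnReg β (cfOf Y κ) ∩ UN) xN) (pathComponentIn (pvlnReg β (cfOf Y κ) ∩ UC) xC) Sg := by
  have sN : pathComponentIn (pvlnReg β (cfOf Y κ) ∩ UN) xN ⊆ UN := fun w hw => (pathComponentIn_subset hw).2
  have sC : pathComponentIn (pvlnReg β (cfOf Y κ) ∩ UC) xC ⊆ UC := fun w hw => (pathComponentIn_subset hw).2
  have hdA : VorDense Y (UN ∪ UC ∪ Sg) ρ := by
    rintro z ((hz | hz) | hz)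
    · exact hdN z hz
    · exact hdC z hz
    · exact hdS z hz
  refine ⟨pvhz_comp_preconn h1N, pvhz_comp_preconn h1C, R.cS, ?_, ?_, fun v hv => R.near v (pvhz_meet_nbd hdA ?_ hv), fun v hv => R.sOut v (pvhz_meet_nbd hdS subset_rfl hv),
    fun v hv => R.nSide v (pvhz_meet_nbd hdN sN hv), fun v hv => R.cOff v (pvhz_meet_nbd hdC sC hv), fun v hv hv' => R.sc v (pvhz_meet_nbd hdS subset_rfl hv) (pvhz_meet_nbd hdC sC hv'), ?_, ?_⟩
  · obtain ⟨m, -, j1, j2⟩ := pvhz_hub_meet c1 h1N h1C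
    exact ⟨m, j1, j2⟩
  · rw [← pvkq_reg_eq lf κ β]
    rintro w (hw | hw)
    · exact (pathComponentIn_subset hw).1
    · exact (pathComponentIn_subset hw).1
  · exact union_subset_union (union_subset_union sN sC) subset_rfl
  · obtain ⟨w, hw, jw⟩ := pvhz_hub_side cS hS hjS
    exact ⟨w, hSS hw, jw⟩
  · obtain ⟨w, hw, jw⟩ := pvhz_hub_side cN hN hjN
    exact ⟨w, hSN hw, jw⟩

/-- **THE ARM FROM A LANE EVENT.**   `L` = the chain of the lane of colour `β` (copy colouring `κ`);   `LN`, `LC` = two contiguous parts of `L` (the arm, the C) with a common cell `k1`;   `kN ∈ LN`, `kS ∈ LC`;   the closing set `Sg` is DETERMINISTIC and contains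
one whole side of the cell `kN` and one whole side of the cell `kS`;   mesh `ρ ≥ δ/16` on `Sg`;   `R` = the inequalities on the regions.      The order of `LN`, `LC` in `L` is free: the same statement serves the exit tip and the entrance tip. -/
theorem pvhz_arm (lf : VorLF Y) (κ : ℂ → Bool) {β : Bool} {δ : ℝ} (hδ : 0 < δ) {L LN LC : List (ℤ × ℤ)} (hc : L.IsChain PvlnAdj) (hev : cfOf Y κ ∈ pvlnLaneEv δ β L) (hLN : LN <:+: L) (hLC : LC <:+: L)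
    {ζ : ℂ} {xB yL yU μ : ℝ} {c : ℂ} {rs ρ : ℝ} {up : Bool} {Sg : Set ℂ} (R : PvhzArmReg ζ xB yL yU μ c rs ρ up (pvlnU δ LN) (pvlnU δ LC) Sg) (hρ : δ / 16 ≤ ρ) (hdS : VorDense Y Sg ρ)
    {k1 kN kS : ℤ × ℤ} (h1N : k1 ∈ LN) (h1C : k1 ∈ LC) (hkN : kN ∈ LN) (hkS : kS ∈ LC) {jN jS : ℕ} (hjN : jN < 4) (hjS : jS < 4) (hSN : pvhzSd δ kN jN ⊆ Sg) (hSS : pvhzSd δ kS jS ⊆ Sg) :
    ∃ xN xC : ℂ, (∀ k ∈ LN, PvlnHub (pvlnReg β (cfOf Y κ)) (pvlnU δ LN) δ k xN) ∧ (∀ k ∈ LC, PvlnHub (pvlnReg β (cfOf Y κ)) (pvlnU δ LC) δ k xC) ∧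
      PvhjArm Y κ β ζ xB yL yU μ c rs up (pathComponentIn (pvlnReg β (cfOf Y κ) ∩ pvlnU δ LN) xN) (pathComponentIn (pvlnReg β (cfOf Y κ) ∩ pvlnU δ LC) xC) Sg := by
  obtain ⟨xN, hxN⟩ := pvhz_hub_infix κ hδ hc hev hLN (List.ne_nil_of_mem h1N)
  obtain ⟨xC, hxC⟩ := pvhz_hub_infix κ hδ hc hev hLC (List.ne_nil_of_mem h1C)
  have hd := pvhz_dense_mono (pvhz_lane_dense κ hδ hc hev) hρ
  have hdN : VorDense Y (pvlnU δ LN) ρ := fun z hz => hd z (pvhz_U_mono (fun k hk => hLN.subset hk) hz)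
  have hdC : VorDense Y (pvlnU δ LC) ρ := fun z hz => hd z (pvhz_U_mono (fun k hk => hLC.subset hk) hz)
  exact ⟨xN, xC, hxN, hxC, pvhz_arm_hubs lf κ R hdN hdC hdS (pvln_C_sub_U h1N) (pvln_C_sub_U hkN) (pvln_C_sub_U hkS) (hxN k1 h1N) (hxC k1 h1C) (hxN kN hkN) (hxC kS hkS) hjN hjS hSN hSS⟩

/-- **ONE PRECONNECTED SET FOR THE MIDDLE OF THE LANE**: `Lm` = a contiguous part of `L` which contains the arm `LN` (as a set of cells); the path component `GN` of the hub of the arm lies in the path component `Gmid` of the hub of `Lm`.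
(Apply it to the two arms of one colour: both lie in the SAME `Gmid`, preconnected, covered by the cells of colour `β`, inside `pvlnU δ Lm`.) -/
theorem pvhz_mid {κ : ℂ → Bool} {β : Bool} {δ : ℝ} {LN Lm : List (ℤ × ℤ)} (hsub : ∀ k ∈ LN, k ∈ Lm) {k : ℤ × ℤ} (hk : k ∈ LN) {xN xm : ℂ}
    (hN : PvlnHub (pvlnReg β (cfOf Y κ)) (pvlnU δ LN) δ k xN) (hm : PvlnHub (pvlnReg β (cfOf Y κ)) (pvlnU δ Lm) δ k xm) :
    pathComponentIn (pvlnReg β (cfOf Y κ) ∩ pvlnU δ LN) xN ⊆ pathComponentIn (pvlnReg β (cfOf Y κ) ∩ pvlnU δ Lm) xm :=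
  pvhz_comp_sub (pvln_C_sub_U hk) (pvhz_U_mono hsub) hN hm

/-- the middle set: preconnected, covered by the cells of colour `β`, inside the cells of `Lm` -/
theorem pvhz_mid_ok (lf : VorLF Y) {κ : ℂ → Bool} {β : Bool} {δ : ℝ} {Lm : List (ℤ × ℤ)} {k : ℤ × ℤ} {xm : ℂ} (hm : PvlnHub (pvlnReg β (cfOf Y κ)) (pvlnU δ Lm) δ k xm) :
    IsPreconnected (pathComponentIn (pvlnReg β (cfOf Y κ) ∩ pvlnU δ Lm) xm) ∧ pathComponentIn (pvlnReg β (cfOf Y κ) ∩ pvlnU δ Lm) xm ⊆ vorUn Y {v | v ∈ Y ∧ κ v = β} ∧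
      pathComponentIn (pvlnReg β (cfOf Y κ) ∩ pvlnU δ Lm) xm ⊆ pvlnU δ Lm := by
  refine ⟨pvhz_comp_preconn hm, ?_, fun w hw => (pathComponentIn_subset hw).2⟩
  rw [← pvkq_reg_eq lf κ β]
  exact fun w hw => (pathComponentIn_subset hw).1

/-! ## 5. THE ROUTE FORM (chains of record `pvkqL`, routes `pvkqRt` of 21): NO LIST OF CELLS, INEQUALITIES ON ANY SUPERSETS OF THE WINDOWS -/

/-- the inequalities pass to smaller regions of the arm and of the C -/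
theorem PvhzArmReg.mono {ζ : ℂ} {xB yL yU μ : ℝ} {c : ℂ} {rs ρ : ℝ} {up : Bool} {UN UC RN RC Sg : Set ℂ} (R : PvhzArmReg ζ xB yL yU μ c rs ρ up RN RC Sg) (hN : UN ⊆ RN) (hC : UC ⊆ RC) :
    PvhzArmReg ζ xB yL yU μ c rs ρ up UN UC Sg where
  cS := R.cS
  near := fun w hw => R.near w (pvhz_nbd_mono (union_subset_union (union_subset_union hN hC) subset_rfl) ρ hw)
  sOut := R.sOut
  nSide := fun w hw => R.nSide w (pvhz_nbd_mono hN ρ hw)
  cOff := fun w hw => R.cOff w (pvhz_nbd_mono hC ρ hw)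
  sc := fun w hw hw' => R.sc w hw (pvhz_nbd_mono hC ρ hw')

/-- a side of a cell lies in the (closed) cell -/
theorem pvhz_sd_sub (δ : ℝ) (k : ℤ × ℤ) (j : ℕ) : pvhzSd δ k j ⊆ pvlnC δ k := fun _ hw => hw.1

/-- the cells of a chain lie in its window -/
theorem pvhz_U_sub_W {δ : ℝ} (hδ : 0 < δ) (L : List (ℤ × ℤ)) : pvlnU δ L ⊆ pvlnW δ L := fun z hz => pvln_lane_nbd hδ hz (by rw [sub_self, norm_zero]; positivity)

/-- the cells of the chain of record lie in the region -/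
theorem pvhz_L_sub {δ : ℝ} {R : Set ℂ} {x y : ℂ} (h : PvkqCore δ R x y) : pvlnU δ (pvkqL δ R x y) ⊆ R := (pvhz_U_sub_W h.1 _).trans (pvkq_L_spec h).2.2.2.2.2.1

/-- the cell of the first way point is a cell of the chain of record -/
theorem pvhz_L_head {δ : ℝ} {R : Set ℂ} {x y : ℂ} (h : PvkqCore δ R x y) : pvkqCell δ x ∈ pvkqL δ R x y :=
  List.mem_of_mem_head? (by rw [(pvkq_L_spec h).2.2.2.1]; rfl)

/-- the cell of the last way point is a cell of the chain of record -/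
theorem pvhz_L_last {δ : ℝ} {R : Set ℂ} {x y : ℂ} (h : PvkqCore δ R x y) : pvkqCell δ y ∈ pvkqL δ R x y :=
  List.mem_of_mem_getLast? (by rw [(pvkq_L_spec h).2.2.2.2.1]; rfl)

/-- **THE ARM FROM A ROUTE EVENT.**   `ℓ` = the route of the lane of colour `β`;   `eN = (RN, ..)`, `eC = (RC, ..)` = two of its legs (the arm, the C), in ANY order and orientation, with a common cell `k1` (e.g. the cell of the common way point: `pvhz_L_head`, `pvhz_L_last`);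
`R` = the inequalities ON THE REGIONS `RN`, `RC` THEMSELVES;   the closing set contains one whole side of a cell `kN` of the arm and of a cell `kS` of the C (e.g. the whole closed cells: `pvhz_sd_sub`). -/
theorem pvhz_arm_rt (lf : VorLF Y) (κ : ℂ → Bool) {β : Bool} {δ : ℝ} (hδ : 0 < δ) {ℓ : List (Set ℂ × ℂ × ℂ)} (hr : PvkqRoute δ ℓ) (hev : cfOf Y κ ∈ pvkqRtEv δ β ℓ) {eN eC : Set ℂ × ℂ × ℂ} (hN : eN ∈ ℓ) (hC : eC ∈ ℓ)
    {ζ : ℂ} {xB yL yU μ : ℝ} {c : ℂ} {rs ρ : ℝ} {up : Bool} {Sg : Set ℂ} (R : PvhzArmReg ζ xB yL yU μ c rs ρ up eN.1 eC.1 Sg) (hρ : δ / 16 ≤ ρ) (hdS : VorDense Y Sg ρ)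
    {k1 kN kS : ℤ × ℤ} (h1N : k1 ∈ pvkqL δ eN.1 eN.2.1 eN.2.2) (h1C : k1 ∈ pvkqL δ eC.1 eC.2.1 eC.2.2) (hkN : kN ∈ pvkqL δ eN.1 eN.2.1 eN.2.2) (hkS : kS ∈ pvkqL δ eC.1 eC.2.1 eC.2.2)
    {jN jS : ℕ} (hjN : jN < 4) (hjS : jS < 4) (hSN : pvhzSd δ kN jN ⊆ Sg) (hSS : pvhzSd δ kS jS ⊆ Sg) :
    ∃ xN xC : ℂ, (∀ k ∈ pvkqL δ eN.1 eN.2.1 eN.2.2, PvlnHub (pvlnReg β (cfOf Y κ)) (pvkqU δ eN.1 eN.2.1 eN.2.2) δ k xN) ∧
      (∀ k ∈ pvkqL δ eC.1 eC.2.1 eC.2.2, PvlnHub (pvlnReg β (cfOf Y κ)) (pvkqU δ eC.1 eC.2.1 eC.2.2) δ k xC) ∧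
      PvhjArm Y κ β ζ xB yL yU μ c rs up (pathComponentIn (pvlnReg β (cfOf Y κ) ∩ pvkqU δ eN.1 eN.2.1 eN.2.2) xN) (pathComponentIn (pvlnReg β (cfOf Y κ) ∩ pvkqU δ eC.1 eC.2.1 eC.2.2) xC) Sg :=
  pvhz_arm lf κ hδ (pvkq_rt_chain hr) hev (pvkq_rt_infix hr eN hN) (pvkq_rt_infix hr eC hC) (R.mono (pvhz_L_sub (hr.1 eN hN)) (pvhz_L_sub (hr.1 eC hC))) hρ hdS h1N h1C hkN hkS hjN hjS hSN hSS

/-- **THE MIDDLE SET OF A ROUTE**: the hub of the WHOLE route; the set `GN` of every leg lies in its path component `Gmid`, which is preconnected, covered by the cells of colour `β`, inside the union of the regions of the route -/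
theorem pvhz_mid_rt (lf : VorLF Y) (κ : ℂ → Bool) {β : Bool} {δ : ℝ} (hδ : 0 < δ) {ℓ : List (Set ℂ × ℂ × ℂ)} (hr : PvkqRoute δ ℓ) (hne : ℓ ≠ []) (hev : cfOf Y κ ∈ pvkqRtEv δ β ℓ) :
    ∃ xm : ℂ, IsPreconnected (pathComponentIn (pvlnReg β (cfOf Y κ) ∩ pvlnU δ (pvkqRt δ ℓ)) xm) ∧
      pathComponentIn (pvlnReg β (cfOf Y κ) ∩ pvlnU δ (pvkqRt δ ℓ)) xm ⊆ vorUn Y {v | v ∈ Y ∧ κ v = β} ∧ pathComponentIn (pvlnReg β (cfOf Y κ) ∩ pvlnU δ (pvkqRt δ ℓ)) xm ⊆ pvkqRtR ℓ ∧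
      (∀ k ∈ pvkqRt δ ℓ, PvlnHub (pvlnReg β (cfOf Y κ)) (pvlnU δ (pvkqRt δ ℓ)) δ k xm) ∧
      ∀ e ∈ ℓ, ∀ k ∈ pvkqL δ e.1 e.2.1 e.2.2, ∀ x : ℂ, PvlnHub (pvlnReg β (cfOf Y κ)) (pvkqU δ e.1 e.2.1 e.2.2) δ k x →
        pathComponentIn (pvlnReg β (cfOf Y κ) ∩ pvkqU δ e.1 e.2.1 e.2.2) x ⊆ pathComponentIn (pvlnReg β (cfOf Y κ) ∩ pvlnU δ (pvkqRt δ ℓ)) xm := by
  have hc := pvkq_rt_chain hr
  obtain ⟨xm, hxm⟩ := pvhz_hub_infix κ hδ hc hev List.infix_rfl (pvkq_rt_ne hne)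
  obtain ⟨k0, hk0⟩ := List.exists_mem_of_ne_nil _ (pvkq_rt_ne (δ := δ) hne)
  obtain ⟨m1, m2, m3⟩ := pvhz_mid_ok lf (hxm k0 hk0)
  refine ⟨xm, m1, m2, m3.trans ((pvhz_U_sub_W hδ _).trans (pvkq_rt_W hr)), hxm, fun e he k hk x hx => ?_⟩
  have hsub : ∀ k ∈ pvkqL δ e.1 e.2.1 e.2.2, k ∈ pvkqRt δ ℓ := fun k hk => (pvkq_rt_infix hr e he).subset hk
  exact pvhz_mid hsub hk hx (hxm k (hsub k hk))

end arm

end Claimed.Agent.R289
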