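-- KEEP
import Claimed.Agent.R289.Tr.LinkQ
import Claimed.Agent.R289.Tr.LinkT
import Claimed.Agent.R289.Tr.HookYB
import Claimed.Agent.R289.Tr.RegQ

/-!
# Row 289 (S0537), THE WALL, ROAD E, E10 / GD, file Tr/GoodE : THE EXPLICIT FAMILY OF PATTERNS OF A MOUTH      (helper298; prefix `pvge2_`, defs `pvge2…`, `Pvge2…`)

MODEL FREE.   The patterns of a hybrid link (ONE tip end + ONE door end) as ROUTES OF 21 (`Tr/LinkQ` sec. 8, 9: legs `(R, x, y)`), with EXPLICIT regions = unions of rectangles in the frame of the mouth.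
FRAME `(Y, u, up)`: `Y` = grid centre of the tip cell, `u` = outer normal of the box (`‖u‖ = 1`), `pvge2S` = distance in front of `Y`, `pvge2T` = lateral coordinate COUNTED POSITIVE ON THE SIDE `up` (`true` = left of `u`) = the side of the colour.
* sec. 1  glue of chains (superseded by `pvkqRt` of 21; kept, 0 sorry)      * sec. 2  the frame: `pvge2P` (point), `pvge2R` (rectangle): convex, Borel, balls, neighbourhoods, flip of the side, picture of 23 (`ζ = conj u`): `pvge2_side`, `pvge2_side_not`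
* sec. 3  regions of an ARM: `pvge2RC` (C-shape: far arm, back inside the box, near arm), `pvge2RN` (arm of the lane), closing set `pvge2Cl` (closed cell of the far end, staple, closed cell of the end of the arm); cores `pvge2_RC_core`, `pvge2_RN_core`
* sec. 4  **`Pvge2Num a t e₁ s₁ x₂ dl ρ e₀ b μ rs`** = the inequalities;   `pvge2_arm_near _sOut _nSide _cOff _sc`;   `pvge2_arm` (record `PvhjArm` of 23 from any `GN ⊆ RN`, `GC ⊆ RC`)
* sec. 5  **`pvge2_armReg`** = record `PvhzArmReg` of 228;   **`pvge2_arm_lists`**, **`pvge2_arm_route`** = ONE-STOP: lane event of a route which contains the two legs of the arm (`pvge2LegsO` outwards or `pvge2LegsI` inwards) + mesh on the closing set ⟹ hubs + `PvhjArm`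
* sec. 6  door straight ahead: lane `pvge2RH`, **BAR** `pvge2RV` (column across the room of the half lane of the door), route `pvge2Rt`, `Pvge2Bar`, `Pvge2Pair`, **`pvge2_Rt_disj`**, pattern **`pvge2Pat`**, **`pvge2_pat_fit`** (`PvkqFit` of 21)
* sec. 7  NUMBERS OF RECORD (v5: `q` = unit of the door plug): `Pvge2Rec r δ q dl ρ b μ Sp lam`, `.num₁ .num₂ .bar₁ .bar₂ .pair`, `.num .bar` (by relative colour: `pvge2Aa`, `pvge2Lm`), **`pvge2PatRec Y u up c r q Sp lam`**, `pvge2_patRec_fit`, `pvge2_patRec_ev`, **`pvge2_patRec_win`** (window `⊆` small mouth `∪` funnel of 124 before the plane `Sp - 7q/2`)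
* sec. 8  **`pvge2_cert_lim`** : the certificate `pvayGood2` (196) of ANY pattern which fits costs `o(1)`
-/

set_option autoImplicit false
set_option linter.unusedSectionVars false
set_option linter.unusedVariables false

namespace Claimed.Agent.R289

open Set Metric Complex Filter Topology
open scoped ENNReal

/-! ## 1. gluing chains -/

/-- the pieces `P₀, P₁, …` (last cell of `Pᵢ` = first cell of `Pᵢ₊₁`) glued into one chain -/
def pvge2Glue : List (List (ℤ × ℤ)) → List (ℤ × ℤ)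
  | [] => []
  | [P] => P
  | P :: Q :: t => P.dropLast ++ pvge2Glue (Q :: t)

/-- the pieces fit: non empty chains, the last cell of each piece is the first cell of the next one -/
def Pvge2Fit : List (List (ℤ × ℤ)) → Prop
  | [] => True
  | [P] => P ≠ [] ∧ P.IsChain PvlnAdj
  | P :: Q :: t => P ≠ [] ∧ P.IsChain PvlnAdj ∧ P.getLast? = Q.head? ∧ Pvge2Fit (Q :: t)

theorem pvge2_fit_head {P : List (ℤ × ℤ)} {t : List (List (ℤ × ℤ))} (h : Pvge2Fit (P :: t)) : P ≠ [] ∧ P.IsChain PvlnAdj := by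
  cases t with
  | nil => exact h
  | cons Q t => exact ⟨h.1, h.2.1⟩

theorem pvge2_fit_tail {P : List (ℤ × ℤ)} {t : List (List (ℤ × ℤ))} (h : Pvge2Fit (P :: t)) : Pvge2Fit t := by
  cases t with
  | nil => trivial
  | cons Q t => exact h.2.2.2

/-- a piece is a prefix of what follows -/
theorem pvge2_glue_prefix : ∀ {l : List (List (ℤ × ℤ))} {P : List (ℤ × ℤ)}, Pvge2Fit (P :: l) → ∃ B, pvge2Glue (P :: l) = P ++ B
  | [], P, _ => ⟨[], by simp [pvge2Glue]⟩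
  | Q :: t, P, h => by
    obtain ⟨B, hB⟩ := pvge2_glue_prefix (l := t) (P := Q) h.2.2.2
    have hQ : Q ≠ [] := (pvge2_fit_head h.2.2.2).1
    obtain ⟨k, Q', rfl⟩ := List.exists_cons_of_ne_nil hQ
    have hl : P.getLast? = some k := by rw [h.2.2.1]; rfl
    have hP : P = P.dropLast ++ [k] := by
      have h1 := List.dropLast_append_getLast h.1
      have h2 : P.getLast h.1 = k := by
        rw [List.getLast?_eq_some_getLast h.1] at hl
        exact Option.some.inj hl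
      rw [h2] at h1
      exact h1.symm
    refine ⟨Q' ++ B, ?_⟩
    show P.dropLast ++ pvge2Glue ((k :: Q') :: t) = P ++ (Q' ++ B)
    rw [hB]
    conv_rhs => rw [hP]
    simp

theorem pvge2_glue_chain : ∀ {l : List (List (ℤ × ℤ))}, Pvge2Fit l → (pvge2Glue l).IsChain PvlnAdj
  | [], _ => by simp [pvge2Glue]
  | [P], h => h.2
  | P :: Q :: t, h => by
    have ih := pvge2_glue_chain (l := Q :: t) h.2.2.2
    obtain ⟨B, hB⟩ := pvge2_glue_prefix (l := t) (P := Q) h.2.2.2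
    have hQ : Q ≠ [] := (pvge2_fit_head h.2.2.2).1
    obtain ⟨k, Q', rfl⟩ := List.exists_cons_of_ne_nil hQ
    have hl : P.getLast? = some k := by rw [h.2.2.1]; rfl
    have hP : P = P.dropLast ++ [k] := by
      have h1 := List.dropLast_append_getLast h.1
      have h2 : P.getLast h.1 = k := by
        rw [List.getLast?_eq_some_getLast h.1] at hl
        exact Option.some.inj hl
      rw [h2] at h1
      exact h1.symm
    have hc := h.2.1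
    rw [hP, List.isChain_append] at hc
    show (P.dropLast ++ pvge2Glue ((k :: Q') :: t)).IsChain PvlnAdj
    rw [List.isChain_append]
    refine ⟨hc.1, ih, fun x hx y hy => hc.2.2 x hx y ?_⟩
    rw [hB] at hy
    simpa using hy

/-- every piece is an infix of the glued chain -/
theorem pvge2_glue_infix : ∀ {l : List (List (ℤ × ℤ))}, Pvge2Fit l → ∀ P ∈ l, ∃ A B, pvge2Glue l = A ++ P ++ B
  | [], _, P, hP => by simp at hP
  | [Q], _, P, hP => by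
    rw [List.mem_singleton] at hP
    subst hP
    exact ⟨[], [], by simp [pvge2Glue]⟩
  | Q :: Q' :: t, h, P, hP => by
    rcases List.mem_cons.1 hP with rfl | hP
    · obtain ⟨B, hB⟩ := pvge2_glue_prefix h
      exact ⟨[], B, by simpa using hB⟩
    · obtain ⟨A, B, hAB⟩ := pvge2_glue_infix (l := Q' :: t) h.2.2.2 P hP
      refine ⟨Q.dropLast ++ A, B, ?_⟩
      show Q.dropLast ++ pvge2Glue (Q' :: t) = _
      rw [hAB]
      simp

theorem pvge2_glue_mem : ∀ {l : List (List (ℤ × ℤ))} {k : ℤ × ℤ}, k ∈ pvge2Glue l → ∃ P ∈ l, k ∈ P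
  | [], k, hk => by simp [pvge2Glue] at hk
  | [Q], k, hk => ⟨Q, List.mem_singleton.2 rfl, hk⟩
  | Q :: Q' :: t, k, hk => by
    rcases List.mem_append.1 (show k ∈ Q.dropLast ++ pvge2Glue (Q' :: t) from hk) with h | h
    · exact ⟨Q, List.mem_cons_self, List.mem_of_mem_dropLast h⟩
    · obtain ⟨P, hP, hkP⟩ := pvge2_glue_mem (l := Q' :: t) h
      exact ⟨P, List.mem_cons_of_mem _ hP, hkP⟩

theorem pvge2_glue_length : ∀ (l : List (List (ℤ × ℤ))), (pvge2Glue l).length ≤ (l.map List.length).sum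
  | [] => by simp [pvge2Glue]
  | [Q] => by simp [pvge2Glue]
  | Q :: Q' :: t => by
    have ih := pvge2_glue_length (Q' :: t)
    show (Q.dropLast ++ pvge2Glue (Q' :: t)).length ≤ _
    rw [List.length_append, List.length_dropLast, List.map_cons, List.sum_cons]
    omega

theorem pvge2_glue_ne {P : List (ℤ × ℤ)} {l : List (List (ℤ × ℤ))} (h : Pvge2Fit (P :: l)) : pvge2Glue (P :: l) ≠ [] := by
  obtain ⟨B, hB⟩ := pvge2_glue_prefix h
  rw [hB]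
  intro e
  exact (pvge2_fit_head h).1 (List.append_eq_nil_iff.1 e).1

/-- the window of the glued chain -/
theorem pvge2_glue_W (δ : ℝ) {l : List (List (ℤ × ℤ))} {R : Set ℂ} (h : ∀ P ∈ l, pvlnW δ P ⊆ R) : pvlnW δ (pvge2Glue l) ⊆ R := by
  intro z hz
  obtain ⟨k, hk, hzk⟩ := mem_iUnion₂.1 hz
  obtain ⟨P, hP, hkP⟩ := pvge2_glue_mem hk
  exact h P hP (mem_biUnion (show k ∈ {k | k ∈ P} from hkP) hzk)

theorem pvge2_eqns_cite : True := by
  have := @pvge2Glue.eq_1; have := @pvge2Glue.eq_2; have := @pvge2Glue.eq_3; have := @Pvge2Fit.eq_1; have := @Pvge2Fit.eq_2; have := @Pvge2Fit.eq_3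
  trivial

/-! ## 2. the frame of a mouth -/

/-- the sign of a side -/
def pvge2Sg (up : Bool) : ℝ := if up then 1 else -1

/-- distance in front of `Y` along the unit vector `u` -/
noncomputable def pvge2S (Y u v : ℂ) : ℝ := ((v - Y) * (starRingEnd ℂ) u).re

/-- lateral coordinate, counted POSITIVE ON THE SIDE `up` (`true` = left of `u`) -/
noncomputable def pvge2T (Y u : ℂ) (up : Bool) (v : ℂ) : ℝ := pvge2Sg up * ((v - Y) * (starRingEnd ℂ) u).im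

/-- the point of coordinates `(s, l)` -/
noncomputable def pvge2P (Y u : ℂ) (up : Bool) (s l : ℝ) : ℂ := Y + u * ((s : ℂ) + ((pvge2Sg up * l : ℝ) : ℂ) * I)

/-- the rectangle `[s₀,s₁] × [l₀,l₁]` of the frame -/
def pvge2R (Y u : ℂ) (up : Bool) (s₀ s₁ l₀ l₁ : ℝ) : Set ℂ := {v | s₀ ≤ pvge2S Y u v ∧ pvge2S Y u v ≤ s₁ ∧ l₀ ≤ pvge2T Y u up v ∧ pvge2T Y u up v ≤ l₁}

theorem pvge2_eqns_cite2 : True := by
  have := @pvge2Sg.eq_1; have := @pvge2S.eq_1; have := @pvge2T.eq_1; have := @pvge2P.eq_1; have := @pvge2R.eq_1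
  trivial

section frame

variable {Y u : ℂ} {up : Bool}

theorem pvge2_sg_sq (up : Bool) : pvge2Sg up * pvge2Sg up = 1 := by cases up <;> simp [pvge2Sg]

theorem pvge2_sg_abs (up : Bool) : |pvge2Sg up| = 1 := by cases up <;> simp [pvge2Sg]

theorem pvge2_sg_not (up : Bool) : pvge2Sg (!up) = - pvge2Sg up := by cases up <;> simp [pvge2Sg]

theorem pvge2_u_conj (hu : ‖u‖ = 1) : u * (starRingEnd ℂ) u = 1 := by
  rw [Complex.mul_conj, Complex.normSq_eq_norm_sq, hu]; simp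

theorem pvge2_S_P (hu : ‖u‖ = 1) (up : Bool) (s l : ℝ) : pvge2S Y u (pvge2P Y u up s l) = s := by
  unfold pvge2S pvge2P
  have e : (Y + u * ((s : ℂ) + ((pvge2Sg up * l : ℝ) : ℂ) * I) - Y) * (starRingEnd ℂ) u = (u * (starRingEnd ℂ) u) * ((s : ℂ) + ((pvge2Sg up * l : ℝ) : ℂ) * I) := by ring
  rw [e, pvge2_u_conj hu, one_mul]
  simp

theorem pvge2_T_P (hu : ‖u‖ = 1) (up : Bool) (s l : ℝ) : pvge2T Y u up (pvge2P Y u up s l) = l := by
  unfold pvge2T pvge2P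
  have e : (Y + u * ((s : ℂ) + ((pvge2Sg up * l : ℝ) : ℂ) * I) - Y) * (starRingEnd ℂ) u = (u * (starRingEnd ℂ) u) * ((s : ℂ) + ((pvge2Sg up * l : ℝ) : ℂ) * I) := by ring
  rw [e, pvge2_u_conj hu, one_mul]
  have : ((s : ℂ) + ((pvge2Sg up * l : ℝ) : ℂ) * I).im = pvge2Sg up * l := by simp
  rw [this, ← mul_assoc, pvge2_sg_sq, one_mul]

theorem pvge2_S_sub (Y u v w : ℂ) : pvge2S Y u v - pvge2S Y u w = ((v - w) * (starRingEnd ℂ) u).re := by
  unfold pvge2S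
  rw [← Complex.sub_re]
  congr 1
  ring

theorem pvge2_T_sub (Y u : ℂ) (up : Bool) (v w : ℂ) : pvge2T Y u up v - pvge2T Y u up w = pvge2Sg up * ((v - w) * (starRingEnd ℂ) u).im := by
  unfold pvge2T
  rw [← mul_sub, ← Complex.sub_im]
  congr 2
  ring

theorem pvge2_S_lip (hu : ‖u‖ = 1) (Y v w : ℂ) : |pvge2S Y u v - pvge2S Y u w| ≤ ‖v - w‖ := by
  rw [pvge2_S_sub]
  refine (Complex.abs_re_le_norm _).trans ?_
  rw [norm_mul, Complex.norm_conj, hu, mul_one]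

theorem pvge2_T_lip (hu : ‖u‖ = 1) (Y : ℂ) (up : Bool) (v w : ℂ) : |pvge2T Y u up v - pvge2T Y u up w| ≤ ‖v - w‖ := by
  rw [pvge2_T_sub, abs_mul, pvge2_sg_abs, one_mul]
  refine (Complex.abs_im_le_norm _).trans ?_
  rw [norm_mul, Complex.norm_conj, hu, mul_one]

theorem pvge2_norm_sq (hu : ‖u‖ = 1) (Y : ℂ) (up : Bool) (v : ℂ) : ‖v - Y‖ ^ 2 = pvge2S Y u v ^ 2 + pvge2T Y u up v ^ 2 := by
  have h1 : ‖(v - Y) * (starRingEnd ℂ) u‖ = ‖v - Y‖ := by rw [norm_mul, Complex.norm_conj, hu, mul_one]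
  rw [← h1, Complex.sq_norm, Complex.normSq_apply]
  unfold pvge2S pvge2T
  have := pvge2_sg_sq up
  nlinarith [this]

/-- sup norm `≤ b` in the frame ⟹ norm `≤ 3/2 b` -/
theorem pvge2_norm_le (hu : ‖u‖ = 1) {Y : ℂ} {up : Bool} {v : ℂ} {b : ℝ} (h1 : |pvge2S Y u v| ≤ b) (h2 : |pvge2T Y u up v| ≤ b) : ‖v - Y‖ ≤ 3 / 2 * b := by
  have hb : 0 ≤ b := (abs_nonneg _).trans h1
  have h := pvge2_norm_sq hu Y up v
  have e1 : pvge2S Y u v ^ 2 ≤ b ^ 2 := sq_le_sq' (by linarith [(abs_le.1 h1).1]) (abs_le.1 h1).2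
  have e2 : pvge2T Y u up v ^ 2 ≤ b ^ 2 := sq_le_sq' (by linarith [(abs_le.1 h2).1]) (abs_le.1 h2).2
  refine abs_le_of_sq_le_sq' ?_ (by positivity) |>.2
  nlinarith

/-- the coordinates are affine -/
theorem pvge2_S_comb (Y u x y : ℂ) {a b : ℝ} (hab : a + b = 1) : pvge2S Y u (a • x + b • y) = a * pvge2S Y u x + b * pvge2S Y u y := by
  unfold pvge2S
  have e : (a • x + b • y - Y) * (starRingEnd ℂ) u = (a : ℂ) * ((x - Y) * (starRingEnd ℂ) u) + (b : ℂ) * ((y - Y) * (starRingEnd ℂ) u) := by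
    have hb : (b : ℂ) = 1 - a := by
      have : b = 1 - a := by linarith
      rw [this]; push_cast; ring
    simp only [Complex.real_smul]
    rw [hb]; ring
  rw [e, Complex.add_re, Complex.re_ofReal_mul, Complex.re_ofReal_mul]

theorem pvge2_T_comb (Y u : ℂ) (up : Bool) (x y : ℂ) {a b : ℝ} (hab : a + b = 1) : pvge2T Y u up (a • x + b • y) = a * pvge2T Y u up x + b * pvge2T Y u up y := by
  unfold pvge2T
  have e : (a • x + b • y - Y) * (starRingEnd ℂ) u = (a : ℂ) * ((x - Y) * (starRingEnd ℂ) u) + (b : ℂ) * ((y - Y) * (starRingEnd ℂ) u) := by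
    have hb : (b : ℂ) = 1 - a := by
      have : b = 1 - a := by linarith
      rw [this]; push_cast; ring
    simp only [Complex.real_smul]
    rw [hb]; ring
  rw [e, Complex.add_im, Complex.im_ofReal_mul, Complex.im_ofReal_mul]
  ring

theorem pvge2_R_convex (Y u : ℂ) (up : Bool) (s₀ s₁ l₀ l₁ : ℝ) : Convex ℝ (pvge2R Y u up s₀ s₁ l₀ l₁) := by
  intro x hx y hy a b ha hb hab
  obtain ⟨x1, x2, x3, x4⟩ := hx
  obtain ⟨y1, y2, y3, y4⟩ := hy
  have hb' : b = 1 - a := by linarith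
  refine ⟨?_, ?_, ?_, ?_⟩
  · rw [pvge2_S_comb Y u x y hab]; subst hb'; nlinarith
  · rw [pvge2_S_comb Y u x y hab]; subst hb'; nlinarith
  · rw [pvge2_T_comb Y u up x y hab]; subst hb'; nlinarith
  · rw [pvge2_T_comb Y u up x y hab]; subst hb'; nlinarith

theorem pvge2_R_mono {s₀ s₁ l₀ l₁ s₀' s₁' l₀' l₁' : ℝ} (h1 : s₀' ≤ s₀) (h2 : s₁ ≤ s₁') (h3 : l₀' ≤ l₀) (h4 : l₁ ≤ l₁') :
    pvge2R Y u up s₀ s₁ l₀ l₁ ⊆ pvge2R Y u up s₀' s₁' l₀' l₁' :=
  fun _ hv => ⟨h1.trans hv.1, hv.2.1.trans h2, h3.trans hv.2.2.1, hv.2.2.2.trans h4⟩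

/-- a neighbourhood of a rectangle -/
theorem pvge2_R_nbd (hu : ‖u‖ = 1) {s₀ s₁ l₀ l₁ ρ : ℝ} {v w : ℂ} (hw : w ∈ pvge2R Y u up s₀ s₁ l₀ l₁) (hv : ‖v - w‖ ≤ ρ) :
    v ∈ pvge2R Y u up (s₀ - ρ) (s₁ + ρ) (l₀ - ρ) (l₁ + ρ) := by
  have h1 := abs_le.1 ((pvge2_S_lip hu Y v w).trans hv)
  have h2 := abs_le.1 ((pvge2_T_lip hu Y up v w).trans hv)
  obtain ⟨w1, w2, w3, w4⟩ := hw
  exact ⟨by linarith [h1.1], by linarith [h1.2], by linarith [h2.1], by linarith [h2.2]⟩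

theorem pvge2_R_vorNbd (hu : ‖u‖ = 1) (s₀ s₁ l₀ l₁ ρ : ℝ) : vorNbd (pvge2R Y u up s₀ s₁ l₀ l₁) ρ ⊆ pvge2R Y u up (s₀ - ρ) (s₁ + ρ) (l₀ - ρ) (l₁ + ρ) := by
  rintro v ⟨w, hw, hv⟩
  exact pvge2_R_nbd hu hw hv

/-- a ball in a rectangle -/
theorem pvge2_ball_R (hu : ‖u‖ = 1) {s₀ s₁ l₀ l₁ r s l : ℝ} (h1 : s₀ + r ≤ s) (h2 : s + r ≤ s₁) (h3 : l₀ + r ≤ l) (h4 : l + r ≤ l₁) :
    closedBall (pvge2P Y u up s l) r ⊆ pvge2R Y u up s₀ s₁ l₀ l₁ := by
  intro v hv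
  have hv' : ‖v - pvge2P Y u up s l‖ ≤ r := mem_closedBall_iff_norm.1 hv
  have hP : pvge2P Y u up s l ∈ pvge2R Y u up s s l l := ⟨by rw [pvge2_S_P hu], by rw [pvge2_S_P hu], by rw [pvge2_T_P hu], by rw [pvge2_T_P hu]⟩
  exact pvge2_R_mono (by linarith) (by linarith) (by linarith) (by linarith) (pvge2_R_nbd hu hP hv')

theorem pvge2_P_mem (hu : ‖u‖ = 1) {s₀ s₁ l₀ l₁ s l : ℝ} (h1 : s₀ ≤ s) (h2 : s ≤ s₁) (h3 : l₀ ≤ l) (h4 : l ≤ l₁) : pvge2P Y u up s l ∈ pvge2R Y u up s₀ s₁ l₀ l₁ :=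
  ⟨by rw [pvge2_S_P hu]; exact h1, by rw [pvge2_S_P hu]; exact h2, by rw [pvge2_T_P hu]; exact h3, by rw [pvge2_T_P hu]; exact h4⟩

/-- a segment in a rectangle -/
theorem pvge2_seg_R (hu : ‖u‖ = 1) {s₀ s₁ l₀ l₁ s l s' l' : ℝ} (h : pvge2P Y u up s l ∈ pvge2R Y u up s₀ s₁ l₀ l₁) (h' : pvge2P Y u up s' l' ∈ pvge2R Y u up s₀ s₁ l₀ l₁) :
    segment ℝ (pvge2P Y u up s l) (pvge2P Y u up s' l') ⊆ pvge2R Y u up s₀ s₁ l₀ l₁ :=
  (pvge2_R_convex Y u up s₀ s₁ l₀ l₁).segment_subset h h'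

theorem pvge2_R_ball (hu : ‖u‖ = 1) {s₀ s₁ l₀ l₁ b : ℝ} (h1 : -b ≤ s₀) (h2 : s₁ ≤ b) (h3 : -b ≤ l₀) (h4 : l₁ ≤ b) : pvge2R Y u up s₀ s₁ l₀ l₁ ⊆ closedBall Y (3 / 2 * b) := by
  intro v hv
  rw [mem_closedBall_iff_norm]
  exact pvge2_norm_le hu (up := up) (abs_le.2 ⟨by linarith [hv.1], by linarith [hv.2.1]⟩) (abs_le.2 ⟨by linarith [hv.2.2.1], by linarith [hv.2.2.2]⟩)

theorem pvge2_R_meas (Y u : ℂ) (up : Bool) (s₀ s₁ l₀ l₁ : ℝ) : MeasurableSet (pvge2R Y u up s₀ s₁ l₀ l₁) := by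
  have hS : Measurable (pvge2S Y u) := by unfold pvge2S; fun_prop
  have hT : Measurable (pvge2T Y u up) := by unfold pvge2T; fun_prop
  exact (measurableSet_le measurable_const hS).inter ((measurableSet_le hS measurable_const).inter ((measurableSet_le measurable_const hT).inter (measurableSet_le hT measurable_const)))

/-- disjoint rectangles -/
theorem pvge2_R_disj {s₀ s₁ l₀ l₁ s₀' s₁' l₀' l₁' : ℝ} (h : s₁ < s₀' ∨ s₁' < s₀ ∨ l₁ < l₀' ∨ l₁' < l₀) : Disjoint (pvge2R Y u up s₀ s₁ l₀ l₁) (pvge2R Y u up s₀' s₁' l₀' l₁') := by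
  rw [Set.disjoint_left]
  rintro v ⟨a1, a2, a3, a4⟩ ⟨b1, b2, b3, b4⟩
  rcases h with h | h | h | h <;> linarith

/-- the picture of 23 (`ζ = conj u`) -/
theorem pvge2_zeta_re (Y u v : ℂ) : ((starRingEnd ℂ) u * v).re = ((starRingEnd ℂ) u * Y).re + pvge2S Y u v := by
  unfold pvge2S
  rw [← Complex.add_re]
  congr 1
  ring

theorem pvge2_zeta_im (Y u : ℂ) (up : Bool) (v : ℂ) : ((starRingEnd ℂ) u * v).im = ((starRingEnd ℂ) u * Y).im + pvge2Sg up * pvge2T Y u up v := by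
  unfold pvge2T
  rw [← mul_assoc, pvge2_sg_sq, one_mul, ← Complex.add_im]
  congr 1
  ring

/-- the side `up` of the strip -/
theorem pvge2_side {yL yU μ b : ℝ} (hL : ((starRingEnd ℂ) u * Y).im - b ≤ yL) (hU : yU ≤ ((starRingEnd ℂ) u * Y).im + b) {v : ℂ} (h : b + μ < pvge2T Y u up v) :
    pvhjSide up yL yU μ ((starRingEnd ℂ) u * v) := by
  unfold pvhjSide
  rw [pvge2_zeta_im Y u up v]
  cases up
  · simp only [Bool.false_eq_true, if_false, pvge2Sg]; linarith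
  · simp only [if_true, pvge2Sg]; linarith

/-- the other side of the strip -/
theorem pvge2_side_not {yL yU μ b : ℝ} (hL : ((starRingEnd ℂ) u * Y).im - b ≤ yL) (hU : yU ≤ ((starRingEnd ℂ) u * Y).im + b) {v : ℂ} (h : pvge2T Y u up v < -(b + μ)) :
    pvhjSide (!up) yL yU μ ((starRingEnd ℂ) u * v) := by
  unfold pvhjSide
  rw [pvge2_zeta_im Y u up v]
  cases up
  · simp only [Bool.not_false, if_true, pvge2Sg, Bool.false_eq_true, if_false]; linarith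
  · simp only [Bool.not_true, Bool.false_eq_true, if_false, pvge2Sg, if_true]; linarith

end frame

/-! ## 3. the arm of a colour at a mouth: regions -/

section arm

variable (Y u : ℂ) (up : Bool) (a t e₁ s₁ x₂ : ℝ)

/-- **THE C-SHAPE** (half thickness `t`): far arm `l = -a` from `s = e₁` to `s = -a`, back `s = -a`, near arm `l = a` from `s = -a` to `s = s₁` -/
def pvge2RC : Set ℂ :=
  pvge2R Y u up (-a - t) (e₁ + t) (-a - t) (-a + t) ∪ pvge2R Y u up (-a - t) (-a + t) (-a - t) (a + t) ∪ pvge2R Y u up (-a - t) (s₁ + t) (a - t) (a + t)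

/-- **THE ARM OF THE LANE**: `l = a`, from `s = s₁` to `s = x₂` -/
def pvge2RN : Set ℂ := pvge2R Y u up (s₁ - t) (x₂ + t) (a - t) (a + t)

/-- **THE CLOSING SET**: the closed cell of the end `(e₁, -a)` of the far arm, the staple `(e₁,-a) → (x₂,-a) → (x₂,a)`, the closed cell of the end `(x₂, a)` of the arm of the lane -/
noncomputable def pvge2Cl (dl : ℝ) : Set ℂ :=
  pvlnC dl (pvkqCell dl (pvge2P Y u up e₁ (-a))) ∪ segment ℝ (pvge2P Y u up e₁ (-a)) (pvge2P Y u up x₂ (-a)) ∪ segment ℝ (pvge2P Y u up x₂ (-a)) (pvge2P Y u up x₂ a) ∪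
    pvlnC dl (pvkqCell dl (pvge2P Y u up x₂ a))

theorem pvge2_eqns_cite3 : True := by
  have := @pvge2RC.eq_1; have := @pvge2RN.eq_1; have := @pvge2Cl.eq_1
  trivial

variable {Y u up a t e₁ s₁ x₂}

theorem pvge2_RC_core (hu : ‖u‖ = 1) {dl : ℝ} (hdl : 0 < dl) (h4 : 4 * dl ≤ t) (ha : 0 ≤ a) (he : -a ≤ e₁) (hs : -a ≤ s₁) :
    PvkqCore dl (pvge2RC Y u up a t e₁ s₁) (pvge2P Y u up e₁ (-a)) (pvge2P Y u up s₁ a) := by
  refine ⟨hdl, ?_⟩
  have j1 : JoinedIn (pvljCore (4 * dl) (pvge2RC Y u up a t e₁ s₁)) (pvge2P Y u up e₁ (-a)) (pvge2P Y u up (-a) (-a)) :=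
    pvlj_joined_convex (pvge2_R_convex Y u up (-a - t) (e₁ + t) (-a - t) (-a + t)) (fun v hv => Or.inl (Or.inl hv))
      (pvge2_ball_R hu (by linarith) (by linarith) (by linarith) (by linarith)) (pvge2_ball_R hu (by linarith) (by linarith) (by linarith) (by linarith))
  have j2 : JoinedIn (pvljCore (4 * dl) (pvge2RC Y u up a t e₁ s₁)) (pvge2P Y u up (-a) (-a)) (pvge2P Y u up (-a) a) :=
    pvlj_joined_convex (pvge2_R_convex Y u up (-a - t) (-a + t) (-a - t) (a + t)) (fun v hv => Or.inl (Or.inr hv))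
      (pvge2_ball_R hu (by linarith) (by linarith) (by linarith) (by linarith)) (pvge2_ball_R hu (by linarith) (by linarith) (by linarith) (by linarith))
  have j3 : JoinedIn (pvljCore (4 * dl) (pvge2RC Y u up a t e₁ s₁)) (pvge2P Y u up (-a) a) (pvge2P Y u up s₁ a) :=
    pvlj_joined_convex (pvge2_R_convex Y u up (-a - t) (s₁ + t) (a - t) (a + t)) (fun v hv => Or.inr hv)
      (pvge2_ball_R hu (by linarith) (by linarith) (by linarith) (by linarith)) (pvge2_ball_R hu (by linarith) (by linarith) (by linarith) (by linarith))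
  exact (j1.trans j2).trans j3

theorem pvge2_RN_core (hu : ‖u‖ = 1) {dl : ℝ} (hdl : 0 < dl) (h4 : 4 * dl ≤ t) (hs : s₁ ≤ x₂) :
    PvkqCore dl (pvge2RN Y u up a t s₁ x₂) (pvge2P Y u up s₁ a) (pvge2P Y u up x₂ a) :=
  ⟨hdl, pvlj_joined_convex (pvge2_R_convex Y u up (s₁ - t) (x₂ + t) (a - t) (a + t)) le_rfl
      (pvge2_ball_R hu (by linarith) (by linarith) (by linarith) (by linarith)) (pvge2_ball_R hu (by linarith) (by linarith) (by linarith) (by linarith))⟩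

theorem pvge2_core_symm {dl : ℝ} {R : Set ℂ} {x y : ℂ} (h : PvkqCore dl R x y) : PvkqCore dl R y x := ⟨h.1, h.2.symm⟩

theorem pvge2_cell_convex (dl : ℝ) (k : ℤ × ℤ) : Convex ℝ (pvlnC dl k) := pvlj_rect_convex _ _ _ _

theorem pvge2_Cl_preconn {dl : ℝ} (hdl : 0 < dl) : IsPreconnected (pvge2Cl Y u up a e₁ x₂ dl) := by
  have c1 := (pvge2_cell_convex dl (pvkqCell dl (pvge2P Y u up e₁ (-a)))).isPreconnected
  have c2 := (convex_segment (𝕜 := ℝ) (pvge2P Y u up e₁ (-a)) (pvge2P Y u up x₂ (-a))).isPreconnected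
  have c3 := (convex_segment (𝕜 := ℝ) (pvge2P Y u up x₂ (-a)) (pvge2P Y u up x₂ a)).isPreconnected
  have c4 := (pvge2_cell_convex dl (pvkqCell dl (pvge2P Y u up x₂ a))).isPreconnected
  have d1 := IsPreconnected.union _ (pvkq_mem_cell hdl (pvge2P Y u up e₁ (-a))) (left_mem_segment ℝ _ _) c1 c2
  have d2 := IsPreconnected.union (pvge2P Y u up x₂ (-a)) (Or.inr (right_mem_segment ℝ _ _)) (left_mem_segment ℝ _ _) d1 c3
  exact IsPreconnected.union (pvge2P Y u up x₂ a) (Or.inr (right_mem_segment ℝ _ _)) (pvkq_mem_cell hdl (pvge2P Y u up x₂ a)) d2 c4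

/-- a cell lies within `3/2 dl` of each of its points -/
theorem pvge2_cell_R (hu : ‖u‖ = 1) {dl : ℝ} (hdl : 0 < dl) (s l : ℝ) :
    pvlnC dl (pvkqCell dl (pvge2P Y u up s l)) ⊆ pvge2R Y u up (s - 3 / 2 * dl) (s + 3 / 2 * dl) (l - 3 / 2 * dl) (l + 3 / 2 * dl) := by
  intro z hz
  exact pvge2_R_nbd hu (pvge2_P_mem hu le_rfl le_rfl le_rfl le_rfl) (pvkq_cell_diam hdl hz (pvkq_mem_cell hdl _))

/-- the closing set lies in two rectangles -/
theorem pvge2_Cl_sub (hu : ‖u‖ = 1) {dl : ℝ} (hdl : 0 < dl) (ha : 0 ≤ a) (he : e₁ ≤ x₂) :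
    pvge2Cl Y u up a e₁ x₂ dl ⊆ pvge2R Y u up (e₁ - 3 / 2 * dl) (x₂ + 3 / 2 * dl) (-a - 3 / 2 * dl) (-a + 3 / 2 * dl) ∪
      pvge2R Y u up (x₂ - 3 / 2 * dl) (x₂ + 3 / 2 * dl) (-a - 3 / 2 * dl) (a + 3 / 2 * dl) := by
  rintro z (((hz | hz) | hz) | hz)
  · exact Or.inl (pvge2_R_mono le_rfl (by linarith) le_rfl le_rfl (pvge2_cell_R hu hdl _ _ hz))
  · exact Or.inl (pvge2_seg_R hu (pvge2_P_mem hu (by linarith) (by linarith) (by linarith) (by linarith)) (pvge2_P_mem hu (by linarith) (by linarith) (by linarith) (by linarith)) hz)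
  · exact Or.inr (pvge2_seg_R hu (pvge2_P_mem hu (by linarith) (by linarith) (by linarith) (by linarith)) (pvge2_P_mem hu (by linarith) (by linarith) (by linarith) (by linarith)) hz)
  · exact Or.inr (pvge2_R_mono le_rfl le_rfl (by linarith) le_rfl (pvge2_cell_R hu hdl _ _ hz))

theorem pvge2_Cl_cellS (dl : ℝ) : pvlnC dl (pvkqCell dl (pvge2P Y u up e₁ (-a))) ⊆ pvge2Cl Y u up a e₁ x₂ dl := fun _ h => Or.inl (Or.inl (Or.inl h))

theorem pvge2_Cl_cellN (dl : ℝ) : pvlnC dl (pvkqCell dl (pvge2P Y u up x₂ a)) ⊆ pvge2Cl Y u up a e₁ x₂ dl := fun _ h => Or.inr h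

end arm

/-! ## 4. the arm of a colour at a mouth: the inequalities -/

/-- **THE NUMBERS OF AN ARM**.   `a t e₁ s₁ x₂` = the regions, `dl` = mesh of the pattern grid, `ρ` = mesh of the sites, `e₀` = the side of the box lies in `s ∈ [-e₀, e₀]`, `b` = the tip face lies in `|l| ≤ b`,
`μ` = length of the edges, `rs` = radius of the small mouth -/
structure Pvge2Num (a t e₁ s₁ x₂ dl ρ e₀ b μ rs : ℝ) : Prop where
  dl0 : 0 < dl
  core : 4 * dl ≤ t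
  ρ0 : 0 ≤ ρ
  e0 : 0 ≤ e₀
  bμ : 0 ≤ b + μ
  /-- the back of the C is inside the box -/
  back : -a + t + ρ ≤ -e₀
  /-- the closing set and the arm of the lane are outside the box -/
  outS : e₀ < e₁ - 3 / 2 * dl - ρ
  outN : e₀ < s₁ - t - ρ
  /-- the two arms are off the strip of the ray -/
  strip : b + μ < a - t - ρ
  /-- the staple crosses the ray beyond the C -/
  sepE : e₁ + t + ρ < x₂ - 3 / 2 * dl - ρ
  sepS : s₁ + t + ρ < x₂ - 3 / 2 * dl - ρ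
  /-- everything inside the small mouth -/
  rs0 : 0 ≤ rs
  nearA : (a + t + ρ) ^ 2 + (a + t + ρ) ^ 2 ≤ rs ^ 2
  nearX : (x₂ + t + ρ) ^ 2 + (a + t + ρ) ^ 2 ≤ rs ^ 2

section ineq

variable {Y u : ℂ} {up : Bool} {a t e₁ s₁ x₂ dl ρ e₀ b μ rs : ℝ}

theorem Pvge2Num.a0 (N : Pvge2Num a t e₁ s₁ x₂ dl ρ e₀ b μ rs) : 0 ≤ a := by
  have := N.back; have := N.e0; have := N.ρ0; have := N.core; have := N.dl0
  linarith

theorem Pvge2Num.t0 (N : Pvge2Num a t e₁ s₁ x₂ dl ρ e₀ b μ rs) : 0 < t := by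
  have := N.core; have := N.dl0
  linarith

/-- a smaller half width of the zone of the side of the box is easier -/
theorem Pvge2Num.mono_e (N : Pvge2Num a t e₁ s₁ x₂ dl ρ e₀ b μ rs) {e₀' : ℝ} (h0 : 0 ≤ e₀') (h : e₀' ≤ e₀) : Pvge2Num a t e₁ s₁ x₂ dl ρ e₀' b μ rs :=
  ⟨N.dl0, N.core, N.ρ0, h0, N.bμ, by have := N.back; linarith, by have := N.outS; linarith, by have := N.outN; linarith, N.strip, N.sepE, N.sepS, N.rs0, N.nearA, N.nearX⟩

theorem pvge2_norm_le' (hu : ‖u‖ = 1) {v : ℂ} {A B X : ℝ} (hrs : 0 ≤ rs) (hA : 0 ≤ A) (hX : 0 ≤ X) (h1 : -A ≤ pvge2S Y u v) (h2 : pvge2S Y u v ≤ X) (h3 : |pvge2T Y u up v| ≤ B)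
    (hAB : A ^ 2 + B ^ 2 ≤ rs ^ 2) (hXB : X ^ 2 + B ^ 2 ≤ rs ^ 2) : ‖v - Y‖ ≤ rs := by
  have h := pvge2_norm_sq hu Y up v
  have e2 : pvge2T Y u up v ^ 2 ≤ B ^ 2 := sq_le_sq' (by linarith [(abs_le.1 h3).1]) (abs_le.1 h3).2
  refine abs_le_of_sq_le_sq' ?_ hrs |>.2
  rcases le_total 0 (pvge2S Y u v) with h0 | h0
  · have e1 : pvge2S Y u v ^ 2 ≤ X ^ 2 := by nlinarith
    linarith
  · have e1 : pvge2S Y u v ^ 2 ≤ A ^ 2 := by nlinarith
    linarith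

/-- `near` -/
theorem pvge2_arm_near (hu : ‖u‖ = 1) (N : Pvge2Num a t e₁ s₁ x₂ dl ρ e₀ b μ rs) {v : ℂ}
    (hv : v ∈ vorNbd (pvge2RC Y u up a t e₁ s₁ ∪ pvge2RN Y u up a t s₁ x₂ ∪ pvge2Cl Y u up a e₁ x₂ dl) ρ) : ‖v - Y‖ ≤ rs := by
  have ha := N.a0; have ht := N.t0; have h1 := N.core; have h2 := N.dl0; have h3 := N.ρ0; have h4 := N.sepE; have h5 := N.sepS; have h6 := N.outS; have h7 := N.outN; have h8 := N.e0
  have key : v ∈ pvge2R Y u up (-(a + t + ρ)) (x₂ + t + ρ) (-(a + t + ρ)) (a + t + ρ) := by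
    obtain ⟨w, hw, hvw⟩ := hv
    rcases hw with (((hw | hw) | hw) | hw) | hw
    · exact pvge2_R_mono (by linarith) (by linarith) (by linarith) (by linarith) (pvge2_R_nbd hu hw hvw)
    · exact pvge2_R_mono (by linarith) (by linarith) (by linarith) (by linarith) (pvge2_R_nbd hu hw hvw)
    · exact pvge2_R_mono (by linarith) (by linarith) (by linarith) (by linarith) (pvge2_R_nbd hu hw hvw)
    · exact pvge2_R_mono (by linarith) (by linarith) (by linarith) (by linarith) (pvge2_R_nbd hu hw hvw)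
    · rcases pvge2_Cl_sub hu h2 ha (by linarith) hw with hw | hw
      · exact pvge2_R_mono (by linarith) (by linarith) (by linarith) (by linarith) (pvge2_R_nbd hu hw hvw)
      · exact pvge2_R_mono (by linarith) (by linarith) (by linarith) (by linarith) (pvge2_R_nbd hu hw hvw)
  exact pvge2_norm_le' hu (up := up) N.rs0 (by linarith) (by linarith) key.1 key.2.1 (abs_le.2 ⟨key.2.2.1, key.2.2.2⟩) N.nearA N.nearX

/-- `sOut` -/
theorem pvge2_arm_sOut (hu : ‖u‖ = 1) (N : Pvge2Num a t e₁ s₁ x₂ dl ρ e₀ b μ rs) {xB : ℝ} (hB : xB ≤ ((starRingEnd ℂ) u * Y).re + e₀) {v : ℂ}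
    (hv : v ∈ vorNbd (pvge2Cl Y u up a e₁ x₂ dl) ρ) : xB < ((starRingEnd ℂ) u * v).re := by
  have ha := N.a0; have ht := N.t0; have h1 := N.core; have h2 := N.dl0; have h3 := N.ρ0; have h4 := N.sepE; have h6 := N.outS
  rw [pvge2_zeta_re Y u v]
  obtain ⟨w, hw, hvw⟩ := hv
  rcases pvge2_Cl_sub hu h2 ha (by linarith) hw with hw | hw
  · have := (pvge2_R_nbd hu hw hvw).1; linarith
  · have := (pvge2_R_nbd hu hw hvw).1; linarith

/-- `nSide` -/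
theorem pvge2_arm_nSide (hu : ‖u‖ = 1) (N : Pvge2Num a t e₁ s₁ x₂ dl ρ e₀ b μ rs) {xB yL yU : ℝ} (hB : xB ≤ ((starRingEnd ℂ) u * Y).re + e₀)
    (hL : ((starRingEnd ℂ) u * Y).im - b ≤ yL) (hU : yU ≤ ((starRingEnd ℂ) u * Y).im + b) {v : ℂ} (hv : v ∈ vorNbd (pvge2RN Y u up a t s₁ x₂) ρ) :
    xB < ((starRingEnd ℂ) u * v).re ∧ pvhjSide up yL yU μ ((starRingEnd ℂ) u * v) := by
  obtain ⟨w, hw, hvw⟩ := hv
  have h := pvge2_R_nbd hu hw hvw
  refine ⟨?_, pvge2_side hL hU (lt_of_lt_of_le N.strip h.2.2.1)⟩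
  rw [pvge2_zeta_re Y u v]
  have := h.1; have := N.outN
  linarith

theorem pvge2_side_or {yL yU μ : ℝ} {w : ℂ} (c : Bool) (h : pvhjSide c yL yU μ w) : pvhjSide true yL yU μ w ∨ pvhjSide false yL yU μ w := by
  cases c
  · exact Or.inr h
  · exact Or.inl h

/-- `cOff` -/
theorem pvge2_arm_cOff (hu : ‖u‖ = 1) (N : Pvge2Num a t e₁ s₁ x₂ dl ρ e₀ b μ rs) {xB yL yU : ℝ} (hB : ((starRingEnd ℂ) u * Y).re - e₀ ≤ xB)
    (hL : ((starRingEnd ℂ) u * Y).im - b ≤ yL) (hU : yU ≤ ((starRingEnd ℂ) u * Y).im + b) {v : ℂ} (hv : v ∈ vorNbd (pvge2RC Y u up a t e₁ s₁) ρ) :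
    ((starRingEnd ℂ) u * v).re ≤ xB ∨ pvhjSide true yL yU μ ((starRingEnd ℂ) u * v) ∨ pvhjSide false yL yU μ ((starRingEnd ℂ) u * v) := by
  obtain ⟨w, hw, hvw⟩ := hv
  have hs := N.strip
  rcases hw with (hw | hw) | hw
  · have h := pvge2_R_nbd hu hw hvw
    exact Or.inr (pvge2_side_or (!up) (pvge2_side_not hL hU (by have := h.2.2.2; linarith)))
  · have h := pvge2_R_nbd hu hw hvw
    left
    rw [pvge2_zeta_re Y u v]
    have := h.2.1; have := N.back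
    linarith
  · have h := pvge2_R_nbd hu hw hvw
    exact Or.inr (pvge2_side_or up (pvge2_side hL hU (lt_of_lt_of_le hs h.2.2.1)))

/-- `sc` -/
theorem pvge2_arm_sc (hu : ‖u‖ = 1) (N : Pvge2Num a t e₁ s₁ x₂ dl ρ e₀ b μ rs) {yL yU : ℝ}
    (hL : ((starRingEnd ℂ) u * Y).im - b ≤ yL) (hU : yU ≤ ((starRingEnd ℂ) u * Y).im + b) {v : ℂ} (hv : v ∈ vorNbd (pvge2Cl Y u up a e₁ x₂ dl) ρ)
    (hv' : v ∈ vorNbd (pvge2RC Y u up a t e₁ s₁) ρ) : pvhjSide (!up) yL yU μ ((starRingEnd ℂ) u * v) := by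
  have ha := N.a0; have ht := N.t0; have h1 := N.core; have h2 := N.dl0; have h3 := N.ρ0; have h4 := N.sepE; have h5 := N.sepS; have h6 := N.strip; have h7 := N.back; have h8 := N.e0; have h9 := N.outS
  obtain ⟨w, hw, hvw⟩ := hv
  rcases pvge2_Cl_sub hu h2 ha (by linarith) hw with hw | hw
  · have h := pvge2_R_nbd hu hw hvw
    exact pvge2_side_not hL hU (by have := h.2.2.2; linarith)
  · have h := (pvge2_R_nbd hu hw hvw).1
    exfalso
    obtain ⟨w', hw', hvw'⟩ := hv'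
    rcases hw' with (hw' | hw') | hw'
    · have := (pvge2_R_nbd hu hw' hvw').2.1; linarith
    · have := (pvge2_R_nbd hu hw' hvw').2.1; linarith
    · have := (pvge2_R_nbd hu hw' hvw').2.1; linarith

/-- **THE RECORD `PvhjArm` OF 23** from the regions: `GN ⊆` arm of the lane, `GC ⊆` C-shape, closing set of record;   `hm` = mesh of the sites over the three regions -/
theorem pvge2_arm (hu : ‖u‖ = 1) (N : Pvge2Num a t e₁ s₁ x₂ dl ρ e₀ b μ rs) {xB yL yU : ℝ} (hB : xB ≤ ((starRingEnd ℂ) u * Y).re + e₀) (hB' : ((starRingEnd ℂ) u * Y).re - e₀ ≤ xB)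
    (hL : ((starRingEnd ℂ) u * Y).im - b ≤ yL) (hU : yU ≤ ((starRingEnd ℂ) u * Y).im + b) {Ys : Set ℂ} {κ : ℂ → Bool} {β : Bool} {GN GC : Set ℂ}
    (cN : IsPreconnected GN) (cC : IsPreconnected GC) (nc : (GN ∩ GC).Nonempty) (cov : GN ∪ GC ⊆ vorUn Ys {v | v ∈ Ys ∧ κ v = β})
    (hGN : GN ⊆ pvge2RN Y u up a t s₁ x₂) (hGC : GC ⊆ pvge2RC Y u up a t e₁ s₁)
    (hm : ∀ v : Ys, ∀ p ∈ vorCell Ys v, p ∈ pvge2RC Y u up a t e₁ s₁ ∪ pvge2RN Y u up a t s₁ x₂ ∪ pvge2Cl Y u up a e₁ x₂ dl → ‖(v : ℂ) - p‖ ≤ ρ)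
    (sc0 : (pvge2Cl Y u up a e₁ x₂ dl ∩ GC).Nonempty) (sn0 : (pvge2Cl Y u up a e₁ x₂ dl ∩ GN).Nonempty) :
    PvhjArm Ys κ β ((starRingEnd ℂ) u) xB yL yU μ Y rs up GN GC (pvge2Cl Y u up a e₁ x₂ dl) where
  cN := cN
  cC := cC
  cS := pvge2_Cl_preconn N.dl0
  nc := nc
  cov := cov
  near := by
    rintro v ⟨p, hp1, hp2⟩
    have hp3 : p ∈ pvge2RC Y u up a t e₁ s₁ ∪ pvge2RN Y u up a t s₁ x₂ ∪ pvge2Cl Y u up a e₁ x₂ dl := by
      rcases hp2 with (hp2 | hp2) | hp2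
      · exact Or.inl (Or.inr (hGN hp2))
      · exact Or.inl (Or.inl (hGC hp2))
      · exact Or.inr hp2
    exact pvge2_arm_near hu N ⟨p, hp3, hm v p hp1 hp3⟩
  sOut := by
    rintro v ⟨p, hp1, hp2⟩
    exact pvge2_arm_sOut hu N hB ⟨p, hp2, hm v p hp1 (Or.inr hp2)⟩
  nSide := by
    rintro v ⟨p, hp1, hp2⟩
    exact pvge2_arm_nSide hu N hB hL hU ⟨p, hGN hp2, hm v p hp1 (Or.inl (Or.inr (hGN hp2)))⟩
  cOff := by
    rintro v ⟨p, hp1, hp2⟩
    exact pvge2_arm_cOff hu N hB' hL hU ⟨p, hGC hp2, hm v p hp1 (Or.inl (Or.inl (hGC hp2)))⟩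
  sc := by
    rintro v ⟨p, hp1, hp2⟩ ⟨p', hp1', hp2'⟩
    exact pvge2_arm_sc hu N hL hU ⟨p, hp2, hm v p hp1 (Or.inr hp2)⟩ ⟨p', hGC hp2', hm v p' hp1' (Or.inl (Or.inl (hGC hp2')))⟩
  sc0 := sc0
  sn0 := sn0

end ineq

/-! ## 5. the record of 228, the one-stop arm -/

section onestop

variable {Y u : ℂ} {up : Bool} {a t e₁ s₁ x₂ dl ρ e₀ b μ rs : ℝ}

theorem pvge2_nbd_mono {K K' : Set ℂ} (h : K ⊆ K') (ρ : ℝ) : vorNbd K ρ ⊆ vorNbd K' ρ := fun _ ⟨z, hz, hw⟩ => ⟨z, h hz, hw⟩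

/-- **THE RECORD `PvhzArmReg` OF 228** for any sets of cells inside the regions of record -/
theorem pvge2_armReg (hu : ‖u‖ = 1) (N : Pvge2Num a t e₁ s₁ x₂ dl ρ e₀ b μ rs) {xB yL yU : ℝ} (hB : xB ≤ ((starRingEnd ℂ) u * Y).re + e₀) (hB' : ((starRingEnd ℂ) u * Y).re - e₀ ≤ xB)
    (hL : ((starRingEnd ℂ) u * Y).im - b ≤ yL) (hU : yU ≤ ((starRingEnd ℂ) u * Y).im + b) {UN UC : Set ℂ} (hN : UN ⊆ pvge2RN Y u up a t s₁ x₂) (hC : UC ⊆ pvge2RC Y u up a t e₁ s₁) :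
    PvhzArmReg ((starRingEnd ℂ) u) xB yL yU μ Y rs ρ up UN UC (pvge2Cl Y u up a e₁ x₂ dl) where
  cS := pvge2_Cl_preconn N.dl0
  near := fun w hw => pvge2_arm_near hu N (pvge2_nbd_mono (by
    rintro z ((hz | hz) | hz)
    · exact Or.inl (Or.inr (hN hz))
    · exact Or.inl (Or.inl (hC hz))
    · exact Or.inr hz) ρ hw)
  sOut := fun w hw => pvge2_arm_sOut hu N hB hw
  nSide := fun w hw => pvge2_arm_nSide hu N hB hL hU (pvge2_nbd_mono hN ρ hw)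
  cOff := fun w hw => pvge2_arm_cOff hu N hB' hL hU (pvge2_nbd_mono hC ρ hw)
  sc := fun w hw hw' => pvge2_arm_sc hu N hL hU hw (pvge2_nbd_mono hC ρ hw')

theorem pvge2_U_sub_W {δ : ℝ} (hδ : 0 < δ) (L : List (ℤ × ℤ)) : pvlnU δ L ⊆ pvlnW δ L := by
  intro z hz
  obtain ⟨k, hk, hzk⟩ := mem_iUnion₂.1 hz
  refine mem_biUnion hk ?_
  rw [pvln_C_eq_sq] at hzk
  exact ⟨hzk.1.trans (by linarith), hzk.2.trans (by linarith)⟩

theorem pvge2_sd_sub (δ : ℝ) (k : ℤ × ℤ) (j : ℕ) : pvhzSd δ k j ⊆ pvlnC δ k := fun _ hw => hw.1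

/-- **ONE-STOP ARM, LIST LEVEL**: `L` any chain, `LN`, `LC` contiguous parts of `L` whose windows lie in the regions of record and which contain the cells of the way points -/
theorem pvge2_arm_lists (hu : ‖u‖ = 1) (N : Pvge2Num a t e₁ s₁ x₂ dl ρ e₀ b μ rs) {xB yL yU : ℝ} (hB : xB ≤ ((starRingEnd ℂ) u * Y).re + e₀) (hB' : ((starRingEnd ℂ) u * Y).re - e₀ ≤ xB)
    (hL : ((starRingEnd ℂ) u * Y).im - b ≤ yL) (hU : yU ≤ ((starRingEnd ℂ) u * Y).im + b) {Ys : Set ℂ} (lf : VorLF Ys) (κ : ℂ → Bool) {β : Bool} {L LN LC : List (ℤ × ℤ)}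
    (hc : L.IsChain PvlnAdj) (hev : cfOf Ys κ ∈ pvlnLaneEv dl β L) (hLN : LN <:+: L) (hLC : LC <:+: L) (wN : pvlnW dl LN ⊆ pvge2RN Y u up a t s₁ x₂) (wC : pvlnW dl LC ⊆ pvge2RC Y u up a t e₁ s₁)
    (h1N : pvkqCell dl (pvge2P Y u up s₁ a) ∈ LN) (h1C : pvkqCell dl (pvge2P Y u up s₁ a) ∈ LC) (hkN : pvkqCell dl (pvge2P Y u up x₂ a) ∈ LN) (hkS : pvkqCell dl (pvge2P Y u up e₁ (-a)) ∈ LC)
    (hρ : dl / 16 ≤ ρ) (hdS : VorDense Ys (pvge2Cl Y u up a e₁ x₂ dl) ρ) :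
    ∃ xN xC : ℂ, (∀ k ∈ LN, PvlnHub (pvlnReg β (cfOf Ys κ)) (pvlnU dl LN) dl k xN) ∧ (∀ k ∈ LC, PvlnHub (pvlnReg β (cfOf Ys κ)) (pvlnU dl LC) dl k xC) ∧
      PvhjArm Ys κ β ((starRingEnd ℂ) u) xB yL yU μ Y rs up (pathComponentIn (pvlnReg β (cfOf Ys κ) ∩ pvlnU dl LN) xN) (pathComponentIn (pvlnReg β (cfOf Ys κ) ∩ pvlnU dl LC) xC)
        (pvge2Cl Y u up a e₁ x₂ dl) :=
  pvhz_arm lf κ N.dl0 hc hev hLN hLC (pvge2_armReg hu N hB hB' hL hU ((pvge2_U_sub_W N.dl0 LN).trans wN) ((pvge2_U_sub_W N.dl0 LC).trans wC)) hρ hdS h1N h1C hkN hkS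
    (jN := 0) (jS := 0) (by norm_num) (by norm_num) ((pvge2_sd_sub dl _ 0).trans (pvge2_Cl_cellN dl)) ((pvge2_sd_sub dl _ 0).trans (pvge2_Cl_cellS dl))

theorem pvge2_L_head_mem {δ : ℝ} {R : Set ℂ} {x y : ℂ} (h : PvkqCore δ R x y) : pvkqCell δ x ∈ pvkqL δ R x y :=
  List.mem_of_mem_head? (by rw [(pvkq_L_spec h).2.2.2.1]; rfl)

theorem pvge2_L_last_mem {δ : ℝ} {R : Set ℂ} {x y : ℂ} (h : PvkqCore δ R x y) : pvkqCell δ y ∈ pvkqL δ R x y :=
  List.mem_of_mem_getLast? (by rw [(pvkq_L_spec h).2.2.2.2.1]; rfl)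

/-- the two legs of an arm, from the C outwards -/
noncomputable def pvge2LegsO (Y u : ℂ) (up : Bool) (a t e₁ s₁ x₂ : ℝ) : List (Set ℂ × ℂ × ℂ) :=
  [(pvge2RC Y u up a t e₁ s₁, pvge2P Y u up e₁ (-a), pvge2P Y u up s₁ a), (pvge2RN Y u up a t s₁ x₂, pvge2P Y u up s₁ a, pvge2P Y u up x₂ a)]

/-- the two legs of an arm, from the lane inwards -/
noncomputable def pvge2LegsI (Y u : ℂ) (up : Bool) (a t e₁ s₁ x₂ : ℝ) : List (Set ℂ × ℂ × ℂ) :=
  [(pvge2RN Y u up a t s₁ x₂, pvge2P Y u up x₂ a, pvge2P Y u up s₁ a), (pvge2RC Y u up a t e₁ s₁, pvge2P Y u up s₁ a, pvge2P Y u up e₁ (-a))]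

theorem pvge2_eqns_cite4 : True := by
  have := @pvge2LegsO.eq_1; have := @pvge2LegsI.eq_1
  trivial

theorem Pvge2Num.coreC (hu : ‖u‖ = 1) (N : Pvge2Num a t e₁ s₁ x₂ dl ρ e₀ b μ rs) : PvkqCore dl (pvge2RC Y u up a t e₁ s₁) (pvge2P Y u up e₁ (-a)) (pvge2P Y u up s₁ a) := by
  have ha := N.a0; have ht := N.t0; have h1 := N.core; have h2 := N.dl0; have h3 := N.ρ0; have h6 := N.outS; have h7 := N.outN; have h8 := N.e0
  exact pvge2_RC_core hu N.dl0 N.core ha (by linarith) (by linarith)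

theorem Pvge2Num.coreN (hu : ‖u‖ = 1) (N : Pvge2Num a t e₁ s₁ x₂ dl ρ e₀ b μ rs) : PvkqCore dl (pvge2RN Y u up a t s₁ x₂) (pvge2P Y u up s₁ a) (pvge2P Y u up x₂ a) := by
  have ht := N.t0; have h2 := N.dl0; have h3 := N.ρ0; have h5 := N.sepS
  exact pvge2_RN_core hu N.dl0 N.core (by linarith)

/-- **ONE-STOP ARM ON A ROUTE OF 21**: the route contains the two legs of the arm (outwards OR inwards) -/
theorem pvge2_arm_route (hu : ‖u‖ = 1) (N : Pvge2Num a t e₁ s₁ x₂ dl ρ e₀ b μ rs) {xB yL yU : ℝ} (hB : xB ≤ ((starRingEnd ℂ) u * Y).re + e₀) (hB' : ((starRingEnd ℂ) u * Y).re - e₀ ≤ xB)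
    (hL : ((starRingEnd ℂ) u * Y).im - b ≤ yL) (hU : yU ≤ ((starRingEnd ℂ) u * Y).im + b) {Ys : Set ℂ} (lf : VorLF Ys) (κ : ℂ → Bool) {β : Bool} {ℓ : List (Set ℂ × ℂ × ℂ)}
    (hr : PvkqRoute dl ℓ) (hev : cfOf Ys κ ∈ pvkqRtEv dl β ℓ) (hρ : dl / 16 ≤ ρ) (hdS : VorDense Ys (pvge2Cl Y u up a e₁ x₂ dl) ρ)
    (hl : (∀ e ∈ pvge2LegsO Y u up a t e₁ s₁ x₂, e ∈ ℓ) ∨ (∀ e ∈ pvge2LegsI Y u up a t e₁ s₁ x₂, e ∈ ℓ)) :
    ∃ (LN LC : List (ℤ × ℤ)) (xN xC : ℂ), LN <:+: pvkqRt dl ℓ ∧ LC <:+: pvkqRt dl ℓ ∧ pvlnW dl LN ⊆ pvge2RN Y u up a t s₁ x₂ ∧ pvlnW dl LC ⊆ pvge2RC Y u up a t e₁ s₁ ∧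
      pvkqCell dl (pvge2P Y u up x₂ a) ∈ LN ∧
      (∀ k ∈ LN, PvlnHub (pvlnReg β (cfOf Ys κ)) (pvlnU dl LN) dl k xN) ∧ (∀ k ∈ LC, PvlnHub (pvlnReg β (cfOf Ys κ)) (pvlnU dl LC) dl k xC) ∧
      PvhjArm Ys κ β ((starRingEnd ℂ) u) xB yL yU μ Y rs up (pathComponentIn (pvlnReg β (cfOf Ys κ) ∩ pvlnU dl LN) xN) (pathComponentIn (pvlnReg β (cfOf Ys κ) ∩ pvlnU dl LC) xC)
        (pvge2Cl Y u up a e₁ x₂ dl) := by
  have cC := N.coreC (Y := Y) (up := up) hu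
  have cN := N.coreN (Y := Y) (up := up) hu
  rcases hl with hl | hl
  · have iC := pvkq_rt_infix hr _ (hl _ (by simp [pvge2LegsO]) : (pvge2RC Y u up a t e₁ s₁, pvge2P Y u up e₁ (-a), pvge2P Y u up s₁ a) ∈ ℓ)
    have iN := pvkq_rt_infix hr _ (hl _ (by simp [pvge2LegsO]) : (pvge2RN Y u up a t s₁ x₂, pvge2P Y u up s₁ a, pvge2P Y u up x₂ a) ∈ ℓ)
    obtain ⟨xN, xC, h1, h2, h3⟩ := pvge2_arm_lists hu N hB hB' hL hU lf κ (pvkq_rt_chain hr) hev iN iC (pvkq_L_spec cN).2.2.2.2.2.1 (pvkq_L_spec cC).2.2.2.2.2.1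
      (pvge2_L_head_mem cN) (pvge2_L_last_mem cC) (pvge2_L_last_mem cN) (pvge2_L_head_mem cC) hρ hdS
    exact ⟨_, _, xN, xC, iN, iC, (pvkq_L_spec cN).2.2.2.2.2.1, (pvkq_L_spec cC).2.2.2.2.2.1, pvge2_L_last_mem cN, h1, h2, h3⟩
  · have cC' := pvge2_core_symm cC
    have cN' := pvge2_core_symm cN
    have iC := pvkq_rt_infix hr _ (hl _ (by simp [pvge2LegsI]) : (pvge2RC Y u up a t e₁ s₁, pvge2P Y u up s₁ a, pvge2P Y u up e₁ (-a)) ∈ ℓ)
    have iN := pvkq_rt_infix hr _ (hl _ (by simp [pvge2LegsI]) : (pvge2RN Y u up a t s₁ x₂, pvge2P Y u up x₂ a, pvge2P Y u up s₁ a) ∈ ℓ)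
    obtain ⟨xN, xC, h1, h2, h3⟩ := pvge2_arm_lists hu N hB hB' hL hU lf κ (pvkq_rt_chain hr) hev iN iC (pvkq_L_spec cN').2.2.2.2.2.1 (pvkq_L_spec cC').2.2.2.2.2.1
      (pvge2_L_last_mem cN') (pvge2_L_head_mem cC') (pvge2_L_head_mem cN') (pvge2_L_last_mem cC') hρ hdS
    exact ⟨_, _, xN, xC, iN, iC, (pvkq_L_spec cN').2.2.2.2.2.1, (pvkq_L_spec cC').2.2.2.2.2.1, pvge2_L_head_mem cN', h1, h2, h3⟩

end onestop

/-! ## 6. from the mouth to a door straight ahead: the lane and the bar -/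

section door

variable (Y u : ℂ) (up : Bool) (a t e₁ s₁ x₂ sb t₂ lb : ℝ)

/-- the lane `l = a` from `s = x₂` to the column `s = sb` of the bar -/
def pvge2RH : Set ℂ := pvge2R Y u up (x₂ - t) (sb + t₂) (a - t) (a + t)

/-- **THE BAR**: the column `s = sb` (half thickness `t₂`) from `l = a` down to `l = lb` -/
def pvge2RV : Set ℂ := pvge2R Y u up (sb - t₂) (sb + t₂) (lb - t₂) (a + t)

/-- the two legs from the arm to the end of the bar -/
noncomputable def pvge2LegsD : List (Set ℂ × ℂ × ℂ) :=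
  [(pvge2RH Y u up a t x₂ sb t₂, pvge2P Y u up x₂ a, pvge2P Y u up sb a), (pvge2RV Y u up a t sb t₂ lb, pvge2P Y u up sb a, pvge2P Y u up sb lb)]

/-- **THE ROUTE OF ONE COLOUR** from the far end of its C-shape to the end of its bar -/
noncomputable def pvge2Rt : List (Set ℂ × ℂ × ℂ) := pvge2LegsO Y u up a t e₁ s₁ x₂ ++ pvge2LegsD Y u up a t x₂ sb t₂ lb

theorem pvge2_eqns_cite5 : True := by
  have := @pvge2RH.eq_1; have := @pvge2RV.eq_1; have := @pvge2LegsD.eq_1; have := @pvge2Rt.eq_1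
  trivial

variable {Y u up a t e₁ s₁ x₂ sb t₂ lb}

theorem pvge2_RH_core (hu : ‖u‖ = 1) {dl : ℝ} (hdl : 0 < dl) (h4 : 4 * dl ≤ t) (h4' : 4 * dl ≤ t₂) (hs : x₂ ≤ sb) :
    PvkqCore dl (pvge2RH Y u up a t x₂ sb t₂) (pvge2P Y u up x₂ a) (pvge2P Y u up sb a) :=
  ⟨hdl, pvlj_joined_convex (pvge2_R_convex Y u up (x₂ - t) (sb + t₂) (a - t) (a + t)) le_rfl
      (pvge2_ball_R hu (by linarith) (by linarith) (by linarith) (by linarith)) (pvge2_ball_R hu (by linarith) (by linarith) (by linarith) (by linarith))⟩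

theorem pvge2_RV_core (hu : ‖u‖ = 1) {dl : ℝ} (hdl : 0 < dl) (h4 : 4 * dl ≤ t) (h4' : 4 * dl ≤ t₂) (hl : lb ≤ a) :
    PvkqCore dl (pvge2RV Y u up a t sb t₂ lb) (pvge2P Y u up sb a) (pvge2P Y u up sb lb) :=
  ⟨hdl, pvlj_joined_convex (pvge2_R_convex Y u up (sb - t₂) (sb + t₂) (lb - t₂) (a + t)) le_rfl
      (pvge2_ball_R hu (by linarith) (by linarith) (by linarith) (by linarith)) (pvge2_ball_R hu (by linarith) (by linarith) (by linarith) (by linarith))⟩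

theorem pvge2_T_flip (Y u : ℂ) (up : Bool) (v : ℂ) : pvge2T Y u (!up) v = - pvge2T Y u up v := by
  unfold pvge2T
  rw [pvge2_sg_not]; ring

/-- a rectangle of the frame of the other side -/
theorem pvge2_R_flip (Y u : ℂ) (up : Bool) (s₀ s₁ l₀ l₁ : ℝ) : pvge2R Y u (!up) s₀ s₁ l₀ l₁ = pvge2R Y u up s₀ s₁ (-l₁) (-l₀) := by
  ext v
  simp only [pvge2R, mem_ofPred_eq, pvge2_T_flip]
  constructor
  · rintro ⟨h1, h2, h3, h4⟩; exact ⟨h1, h2, by linarith, by linarith⟩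
  · rintro ⟨h1, h2, h3, h4⟩; exact ⟨h1, h2, by linarith, by linarith⟩

/-- the region of the route of one colour -/
theorem pvge2_Rt_R : pvkqRtR (pvge2Rt Y u up a t e₁ s₁ x₂ sb t₂ lb) =
    pvge2RC Y u up a t e₁ s₁ ∪ pvge2RN Y u up a t s₁ x₂ ∪ pvge2RH Y u up a t x₂ sb t₂ ∪ pvge2RV Y u up a t sb t₂ lb := by
  ext v
  simp only [pvkqRtR, pvge2Rt, pvge2LegsO, pvge2LegsD, List.cons_append, List.nil_append, List.mem_cons, List.not_mem_nil, or_false, mem_iUnion, mem_ofPred_eq, exists_prop, mem_union]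
  constructor
  · rintro ⟨e, (rfl | rfl | rfl | rfl), hv⟩
    · exact Or.inl (Or.inl (Or.inl hv))
    · exact Or.inl (Or.inl (Or.inr hv))
    · exact Or.inl (Or.inr hv)
    · exact Or.inr hv
  · rintro (((hv | hv) | hv) | hv)
    · exact ⟨_, Or.inl rfl, hv⟩
    · exact ⟨_, Or.inr (Or.inl rfl), hv⟩
    · exact ⟨_, Or.inr (Or.inr (Or.inl rfl)), hv⟩
    · exact ⟨_, Or.inr (Or.inr (Or.inr rfl)), hv⟩

end door

/-- **THE NUMBERS OF THE LANE AND OF THE BAR** of one colour -/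
structure Pvge2Bar (a t x₂ sb t₂ lb dl : ℝ) : Prop where
  core2 : 4 * dl ≤ t₂
  hx : x₂ ≤ sb
  hl : lb ≤ a

/-- **THE NUMBERS OF THE PAIR** (colour 1 inside, colour 2 outside; the bars end at `lb₁`, `lb₂`, each counted on its own side) -/
structure Pvge2Pair (a₁ a₂ t e₁ s₁ sb t₂ lb₁ lb₂ : ℝ) : Prop where
  nest : a₁ + t < a₂ - t
  barE : e₁ + t < sb - t₂
  barS : s₁ + t < sb - t₂
  gap : t₂ + t₂ < lb₁ + lb₂
  low₁ : -a₁ ≤ lb₁ - t₂
  low₂ : -a₁ + t < lb₂ - t₂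

section pat

variable {Y u : ℂ} {up : Bool} {a a₁ a₂ t e₁ s₁ x₂ sb t₂ lb lb₁ lb₂ dl ρ e₀ b μ rs : ℝ}

theorem pvge2_Rt_route (hu : ‖u‖ = 1) (N : Pvge2Num a t e₁ s₁ x₂ dl ρ e₀ b μ rs) (B : Pvge2Bar a t x₂ sb t₂ lb dl) : PvkqRoute dl (pvge2Rt Y u up a t e₁ s₁ x₂ sb t₂ lb) := by
  refine ⟨?_, ?_⟩
  · intro e he
    simp only [pvge2Rt, pvge2LegsO, pvge2LegsD, List.cons_append, List.nil_append, List.mem_cons, List.not_mem_nil, or_false] at he
    rcases he with rfl | rfl | rfl | rfl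
    · exact N.coreC hu
    · exact N.coreN hu
    · exact pvge2_RH_core hu N.dl0 N.core B.core2 B.hx
    · exact pvge2_RV_core hu N.dl0 N.core B.core2 B.hl
  · simp [pvge2Rt, pvge2LegsO, pvge2LegsD]

/-- everything lies in a square of half side `W` -/
theorem pvge2_Rt_size (hu : ‖u‖ = 1) (N : Pvge2Num a t e₁ s₁ x₂ dl ρ e₀ b μ rs) (B : Pvge2Bar a t x₂ sb t₂ lb dl) {W : ℝ} (h1 : x₂ + t ≤ W) (h2 : sb + t₂ ≤ W) (h3 : a + t ≤ W) (h4 : -W ≤ lb - t₂) :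
    pvkqRtR (pvge2Rt Y u up a t e₁ s₁ x₂ sb t₂ lb) ⊆ pvge2R Y u up (-W) W (-W) W := by
  have ha := N.a0; have ht := N.t0; have g1 := N.core; have g2 := N.dl0; have g3 := N.ρ0; have g4 := N.sepE; have g5 := N.sepS; have g6 := N.outS; have g7 := N.outN; have g8 := N.e0
  have b1 := B.core2; have b2 := B.hx; have b3 := B.hl
  rw [pvge2_Rt_R]
  rintro v (((((hv | hv) | hv) | hv) | hv) | hv)
  all_goals exact pvge2_R_mono (by linarith) (by linarith) (by linarith) (by linarith) hv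

/-- **THE TWO ROUTES ARE DISJOINT** -/
theorem pvge2_Rt_disj (N₁ : Pvge2Num a₁ t e₁ s₁ x₂ dl ρ e₀ b μ rs) (N₂ : Pvge2Num a₂ t e₁ s₁ x₂ dl ρ e₀ b μ rs) (B₁ : Pvge2Bar a₁ t x₂ sb t₂ lb₁ dl) (B₂ : Pvge2Bar a₂ t x₂ sb t₂ lb₂ dl)
    (P : Pvge2Pair a₁ a₂ t e₁ s₁ sb t₂ lb₁ lb₂) :
    Disjoint (pvkqRtR (pvge2Rt Y u up a₁ t e₁ s₁ x₂ sb t₂ lb₁)) (pvkqRtR (pvge2Rt Y u (!up) a₂ t e₁ s₁ x₂ sb t₂ lb₂)) := by
  have ha := N₁.a0; have ht := N₁.t0; have g1 := N₁.core; have g2 := N₁.dl0; have g3 := N₁.ρ0; have g4 := N₁.sepE; have g5 := N₁.sepS; have g6 := N₁.outS; have g7 := N₁.outN; have g8 := N₁.e0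
  have b1 := B₁.core2; have b2 := B₁.hx; have b3 := B₁.hl; have b4 := B₂.hl
  have p1 := P.nest; have p2 := P.barE; have p3 := P.barS; have p4 := P.gap; have p5 := P.low₁; have p6 := P.low₂
  rw [pvge2_Rt_R, pvge2_Rt_R, Set.disjoint_left]
  simp only [pvge2RC, pvge2RN, pvge2RH, pvge2RV, pvge2_R_flip]
  rintro v (((((⟨x1, x2, x3, x4⟩ | ⟨x1, x2, x3, x4⟩) | ⟨x1, x2, x3, x4⟩) | ⟨x1, x2, x3, x4⟩) | ⟨x1, x2, x3, x4⟩) | ⟨x1, x2, x3, x4⟩)
    (((((⟨y1, y2, y3, y4⟩ | ⟨y1, y2, y3, y4⟩) | ⟨y1, y2, y3, y4⟩) | ⟨y1, y2, y3, y4⟩) | ⟨y1, y2, y3, y4⟩) | ⟨y1, y2, y3, y4⟩)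
  all_goals linarith

/-- **THE PATTERN OF A HYBRID LINK WITH THE DOOR STRAIGHT AHEAD**: colour `c` on the side `up` (inner C), colour `!c` on the other side (outer C) -/
noncomputable def pvge2Pat (Y u : ℂ) (up c : Bool) (a₁ a₂ t e₁ s₁ x₂ sb t₂ lb₁ lb₂ : ℝ) : List (Bool × List (Set ℂ × ℂ × ℂ)) :=
  [(c, pvge2Rt Y u up a₁ t e₁ s₁ x₂ sb t₂ lb₁), (!c, pvge2Rt Y u (!up) a₂ t e₁ s₁ x₂ sb t₂ lb₂)]

theorem pvge2_eqns_cite6 : True := by
  have := @pvge2Pat.eq_1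
  trivial

/-- **THE PATTERN FITS** (contract `PvkqFit` of 21): hence measurable, read in its region, bounded, and `pvkq_pat_geo`, `pvkq_pat_lim` apply -/
theorem pvge2_pat_fit (hu : ‖u‖ = 1) (N₁ : Pvge2Num a₁ t e₁ s₁ x₂ dl ρ e₀ b μ rs) (N₂ : Pvge2Num a₂ t e₁ s₁ x₂ dl ρ e₀ b μ rs) (B₁ : Pvge2Bar a₁ t x₂ sb t₂ lb₁ dl) (B₂ : Pvge2Bar a₂ t x₂ sb t₂ lb₂ dl)
    (P : Pvge2Pair a₁ a₂ t e₁ s₁ sb t₂ lb₁ lb₂) (c : Bool) {W : ℝ} (h1 : x₂ + t ≤ W) (h2 : sb + t₂ ≤ W) (h3 : a₂ + t ≤ W) {M : ℕ} (hM : 3 / 2 * W ≤ M * dl) :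
    PvkqFit dl M 4 (pvge2Pat Y u up c a₁ a₂ t e₁ s₁ x₂ sb t₂ lb₁ lb₂) where
  pos := N₁.dl0
  route := by
    intro x hx
    simp only [pvge2Pat, List.mem_cons, List.not_mem_nil, or_false] at hx
    rcases hx with rfl | rfl
    · exact pvge2_Rt_route hu N₁ B₁
    · exact pvge2_Rt_route hu N₂ B₂
  ne := by
    intro x hx
    simp only [pvge2Pat, List.mem_cons, List.not_mem_nil, or_false] at hx
    rcases hx with rfl | rfl <;> simp [pvge2Rt, pvge2LegsO]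
  legs := by
    intro x hx
    simp only [pvge2Pat, List.mem_cons, List.not_mem_nil, or_false] at hx
    rcases hx with rfl | rfl <;> simp [pvge2Rt, pvge2LegsO, pvge2LegsD]
  size := by
    have p1 := P.nest; have p5 := P.low₁; have p6 := P.low₂; have ha := N₁.a0; have ht := N₁.t0
    intro x hx e he
    simp only [pvge2Pat, List.mem_cons, List.not_mem_nil, or_false] at hx
    refine ⟨Y, ?_⟩
    rcases hx with rfl | rfl
    · exact ((subset_biUnion_of_mem (u := fun e : Set ℂ × ℂ × ℂ => e.1) (show e ∈ {e | e ∈ pvge2Rt Y u up a₁ t e₁ s₁ x₂ sb t₂ lb₁} from he)).trans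
        (pvge2_Rt_size hu N₁ B₁ h1 h2 (by linarith) (by linarith))).trans ((pvge2_R_ball hu le_rfl le_rfl le_rfl le_rfl).trans (closedBall_subset_closedBall hM))
    · exact ((subset_biUnion_of_mem (u := fun e : Set ℂ × ℂ × ℂ => e.1) (show e ∈ {e | e ∈ pvge2Rt Y u (!up) a₂ t e₁ s₁ x₂ sb t₂ lb₂} from he)).trans
        (pvge2_Rt_size hu N₂ B₂ h1 h2 h3 (by linarith))).trans ((pvge2_R_ball hu le_rfl le_rfl le_rfl le_rfl).trans (closedBall_subset_closedBall hM))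
  disj := by
    simp only [pvge2Pat, List.pairwise_cons, List.mem_cons, List.not_mem_nil, or_false, forall_eq, IsEmpty.forall_iff, implies_true, List.Pairwise.nil, and_true]
    exact pvge2_Rt_disj N₁ N₂ B₁ B₂ P

end pat

/-! ## 7. THE NUMBERS OF RECORD (RULING S0-N of 73; `r = ρ h`, `δ` = side of the cells of the level, `q` = unit of the door plug: `δ/40`, ruling of 34; side events `pvhfT q` of 174: targets `|x| ∈ [4q, 5q]`; door region `⊆` square of half side `13q/4`) -/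

/-- **the data of one mouth with its door straight ahead**: `q` = unit of the door plug, `dl` = mesh of the pattern grid, `ρ` = mesh of the sites, `b` = the tip face lies in `|l| ≤ b`, `μ` = length of the edges, `(Sp, lam)` = coordinates of the door in the frame `(Y, u, up)` -/
structure Pvge2Rec (r δ q dl ρ b μ Sp lam : ℝ) : Prop where
  δ0 : 0 < δ
  q0 : 0 < q
  qδ : 16 * q ≤ δ
  dl0 : 0 < dl
  fine : 10000 * δ ≤ r
  mesh : 32 * dl ≤ q
  ρ0 : 0 ≤ ρ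
  ρ1 : ρ ≤ δ
  bμ0 : 0 ≤ b + μ
  bμ : b + μ ≤ r / 8
  s_lo : 3 * r / 8 - 2 * δ ≤ Sp
  s_hi : Sp ≤ 3 * r / 8 + δ
  lat : |lam| ≤ δ

section record

variable {Y u : ℂ} {up : Bool} {r δ q dl ρ b μ Sp lam : ℝ}

theorem Pvge2Rec.flip (R : Pvge2Rec r δ q dl ρ b μ Sp lam) : Pvge2Rec r δ q dl ρ b μ Sp (-lam) :=
  ⟨R.δ0, R.q0, R.qδ, R.dl0, R.fine, R.mesh, R.ρ0, R.ρ1, R.bμ0, R.bμ, R.s_lo, R.s_hi, by rw [abs_neg]; exact R.lat⟩

theorem pvge2_sq_aux {x y A B r : ℝ} (hx0 : 0 ≤ x) (hy0 : 0 ≤ y) (hx : x ≤ A * r) (hy : y ≤ B * r) (hAB : A ^ 2 + B ^ 2 ≤ 1 / 16) : x ^ 2 + y ^ 2 ≤ (r / 4) ^ 2 := by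
  have h1 : x ^ 2 ≤ (A * r) ^ 2 := pow_le_pow_left₀ hx0 hx 2
  have h2 : y ^ 2 ≤ (B * r) ^ 2 := pow_le_pow_left₀ hy0 hy 2
  have h3 : (A * r) ^ 2 + (B * r) ^ 2 = (A ^ 2 + B ^ 2) * r ^ 2 := by ring
  have h4 : (A ^ 2 + B ^ 2) * r ^ 2 ≤ 1 / 16 * r ^ 2 := mul_le_mul_of_nonneg_right hAB (sq_nonneg r)
  have h5 : (r / 4) ^ 2 = 1 / 16 * r ^ 2 := by ring
  linarith

/-- the inner arm (`a = 27 r / 200`);   `e₀ = 21 r / 200`: room for the T-forms of 23 (`rt + 2ρ < e₀` with `rt ≥ r/10 + 4μ`); smaller `e₀`: `Pvge2Num.mono_e` -/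
theorem Pvge2Rec.num₁ (R : Pvge2Rec r δ q dl ρ b μ Sp lam) : Pvge2Num (27 * r / 200) (r / 200) (23 * r / 200) (23 * r / 200) (3 * r / 20) dl ρ (21 * r / 200) b μ (r / 4) := by
  have h1 := R.δ0; have h2 := R.dl0; have h3 := R.fine; have h4 := R.mesh; have h5 := R.ρ0; have h6 := R.ρ1; have h7 := R.bμ; have h8 := R.qδ; have h9 := R.q0
  refine ⟨h2, by linarith, h5, by linarith, R.bμ0, by linarith, by linarith, by linarith, by linarith, by linarith, by linarith, by linarith, ?_, ?_⟩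
  · exact pvge2_sq_aux (A := 83 / 500) (B := 83 / 500) (by linarith) (by linarith) (by linarith) (by linarith) (by norm_num)
  · exact pvge2_sq_aux (A := 83 / 500) (B := 83 / 500) (by linarith) (by linarith) (by linarith) (by linarith) (by norm_num)

/-- the outer arm (`a = 4 r / 25`) -/
theorem Pvge2Rec.num₂ (R : Pvge2Rec r δ q dl ρ b μ Sp lam) : Pvge2Num (4 * r / 25) (r / 200) (23 * r / 200) (23 * r / 200) (3 * r / 20) dl ρ (21 * r / 200) b μ (r / 4) := by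
  have h1 := R.δ0; have h2 := R.dl0; have h3 := R.fine; have h4 := R.mesh; have h5 := R.ρ0; have h6 := R.ρ1; have h7 := R.bμ; have h8 := R.qδ; have h9 := R.q0
  refine ⟨h2, by linarith, h5, by linarith, R.bμ0, by linarith, by linarith, by linarith, by linarith, by linarith, by linarith, by linarith, ?_, ?_⟩
  · exact pvge2_sq_aux (A := 83 / 500) (B := 83 / 500) (by linarith) (by linarith) (by linarith) (by linarith) (by norm_num)
  · exact pvge2_sq_aux (A := 83 / 500) (B := 83 / 500) (by linarith) (by linarith) (by linarith) (by linarith) (by norm_num)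

theorem Pvge2Rec.bar₁ (R : Pvge2Rec r δ q dl ρ b μ Sp lam) : Pvge2Bar (27 * r / 200) (r / 200) (3 * r / 20) (Sp - 29 * q / 8) (q / 8) (lam + q / 4) dl := by
  have h1 := R.δ0; have h2 := R.dl0; have h3 := R.fine; have h4 := R.mesh; have h8 := R.s_lo; have h9 := abs_le.1 R.lat; have h10 := R.qδ; have h11 := R.q0
  exact ⟨by linarith, by linarith, by linarith [h9.2]⟩

theorem Pvge2Rec.bar₂ (R : Pvge2Rec r δ q dl ρ b μ Sp lam) : Pvge2Bar (4 * r / 25) (r / 200) (3 * r / 20) (Sp - 29 * q / 8) (q / 8) (-lam + q / 4) dl := by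
  have h1 := R.δ0; have h2 := R.dl0; have h3 := R.fine; have h4 := R.mesh; have h8 := R.s_lo; have h9 := abs_le.1 R.lat; have h10 := R.qδ; have h11 := R.q0
  exact ⟨by linarith, by linarith, by linarith [h9.1]⟩

theorem Pvge2Rec.pair (R : Pvge2Rec r δ q dl ρ b μ Sp lam) : Pvge2Pair (27 * r / 200) (4 * r / 25) (r / 200) (23 * r / 200) (23 * r / 200) (Sp - 29 * q / 8) (q / 8) (lam + q / 4) (-lam + q / 4) := by
  have h1 := R.δ0; have h2 := R.dl0; have h3 := R.fine; have h4 := R.mesh; have h8 := R.s_lo; have h9 := abs_le.1 R.lat; have h10 := R.qδ; have h11 := R.q0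
  exact ⟨by linarith, by linarith, by linarith, by linarith, by linarith [h9.1], by linarith [h9.2]⟩

/-- **THE PATTERN OF RECORD OF A THIN HYBRID LINK** (mouth `(Y, u)`, door of unit `q` at `(Sp, lam)` in the frame of the side `up`): colour `c` on the side `up`.
Bars: column `s ∈ Sp - [7q/2, 15q/4]` (between the door region `13q/4` and the targets `4q` of the side events), near ends at `l = lam ± q/4` (the rooms of the half lanes are `|l - lam| ∈ [q/2, 3q/2]`) -/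
noncomputable def pvge2PatRec (Y u : ℂ) (up c : Bool) (r q Sp lam : ℝ) : List (Bool × List (Set ℂ × ℂ × ℂ)) :=
  pvge2Pat Y u up c (27 * r / 200) (4 * r / 25) (r / 200) (23 * r / 200) (23 * r / 200) (3 * r / 20) (Sp - 29 * q / 8) (q / 8) (lam + q / 4) (-lam + q / 4)

theorem pvge2_eqns_cite7 : True := by
  have := @pvge2PatRec.eq_1
  trivial

theorem pvge2_patRec_fit (hu : ‖u‖ = 1) (R : Pvge2Rec r δ q dl ρ b μ Sp lam) (c : Bool) {M : ℕ} (hM : 3 / 4 * r ≤ M * dl) : PvkqFit dl M 4 (pvge2PatRec Y u up c r q Sp lam) := by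
  have h1 := R.δ0; have h3 := R.fine; have h8 := R.s_hi; have h9 := R.q0
  exact pvge2_pat_fit hu R.num₁ R.num₂ R.bar₁ R.bar₂ R.pair c (W := r / 2) (by linarith) (by linarith) (by linarith) (by linarith)

theorem pvge2_pat_R (Y u : ℂ) (up c : Bool) (a₁ a₂ t e₁ s₁ x₂ sb t₂ lb₁ lb₂ : ℝ) : pvkqPatR (pvge2Pat Y u up c a₁ a₂ t e₁ s₁ x₂ sb t₂ lb₁ lb₂) =
    pvkqRtR (pvge2Rt Y u up a₁ t e₁ s₁ x₂ sb t₂ lb₁) ∪ pvkqRtR (pvge2Rt Y u (!up) a₂ t e₁ s₁ x₂ sb t₂ lb₂) := by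
  ext v
  simp only [pvkqPatR, pvge2Pat, List.mem_cons, List.not_mem_nil, or_false, mem_iUnion, mem_ofPred_eq, exists_prop, mem_union]
  constructor
  · rintro ⟨x, (rfl | rfl), hv⟩
    · exact Or.inl hv
    · exact Or.inr hv
  · rintro (hv | hv)
    · exact ⟨_, Or.inl rfl, hv⟩
    · exact ⟨_, Or.inr rfl, hv⟩

theorem pvge2_pat_ev (dl : ℝ) (Y u : ℂ) (up c : Bool) (a₁ a₂ t e₁ s₁ x₂ sb t₂ lb₁ lb₂ : ℝ) : pvkqPat dl (pvge2Pat Y u up c a₁ a₂ t e₁ s₁ x₂ sb t₂ lb₁ lb₂) =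
    pvkqRtEv dl c (pvge2Rt Y u up a₁ t e₁ s₁ x₂ sb t₂ lb₁) ∩ pvkqRtEv dl (!c) (pvge2Rt Y u (!up) a₂ t e₁ s₁ x₂ sb t₂ lb₂) := by
  ext η
  simp only [pvkqPat, pvge2Pat, List.mem_cons, List.not_mem_nil, or_false, mem_ofPred_eq, forall_eq_or_imp, forall_eq, mem_inter_iff]

theorem pvge2_Rt_meas (Y u : ℂ) (up : Bool) (a t e₁ s₁ x₂ sb t₂ lb : ℝ) : MeasurableSet (pvkqRtR (pvge2Rt Y u up a t e₁ s₁ x₂ sb t₂ lb)) := by
  rw [pvge2_Rt_R]
  exact (((((pvge2_R_meas _ _ _ _ _ _ _).union (pvge2_R_meas _ _ _ _ _ _ _)).union (pvge2_R_meas _ _ _ _ _ _ _)).union (pvge2_R_meas _ _ _ _ _ _ _)).union (pvge2_R_meas _ _ _ _ _ _ _)).union (pvge2_R_meas _ _ _ _ _ _ _)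

theorem pvge2_pat_meas (Y u : ℂ) (up c : Bool) (a₁ a₂ t e₁ s₁ x₂ sb t₂ lb₁ lb₂ : ℝ) : MeasurableSet (pvkqPatR (pvge2Pat Y u up c a₁ a₂ t e₁ s₁ x₂ sb t₂ lb₁ lb₂)) := by
  rw [pvge2_pat_R]
  exact (pvge2_Rt_meas _ _ _ _ _ _ _ _ _ _ _).union (pvge2_Rt_meas _ _ _ _ _ _ _ _ _ _ _)

/-- the arm (C-shape and arm of the lane) lies in the small mouth -/
theorem pvge2_arm_ball {a t e₁ s₁ x₂ e₀ rs : ℝ} (hu : ‖u‖ = 1) (N : Pvge2Num a t e₁ s₁ x₂ dl ρ e₀ b μ rs) : pvge2RC Y u up a t e₁ s₁ ∪ pvge2RN Y u up a t s₁ x₂ ⊆ closedBall Y rs := by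
  intro v hv
  rw [mem_closedBall_iff_norm]
  exact pvge2_arm_near hu N ⟨v, Or.inl hv, by rw [sub_self, norm_zero]; exact N.ρ0⟩

/-- **THE WINDOW OF THE PATTERN OF RECORD**: small mouth `∪` funnel before the plane `s = Sp - 7q/2` (`⊆ closedBall Y rM ∪ pvegKa` of 124) -/
theorem pvge2_patRec_win (hu : ‖u‖ = 1) (R : Pvge2Rec r δ q dl ρ b μ Sp lam) (c : Bool) :
    pvkqPatR (pvge2PatRec Y u up c r q Sp lam) ⊆ closedBall Y (r / 4) ∪ pvge2R Y u up (r / 10 + 2 * δ) (Sp - 7 * q / 2) (lam - r / 5) (lam + r / 5) := by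
  have h1 := R.δ0; have h3 := R.fine; have h8 := R.s_lo; have h9 := abs_le.1 R.lat; have h10 := R.qδ; have h11 := R.q0
  unfold pvge2PatRec
  rw [pvge2_pat_R, pvge2_Rt_R, pvge2_Rt_R]
  rintro v (((hv | hv) | hv) | ((hv | hv) | hv))
  · exact Or.inl (pvge2_arm_ball hu R.num₁ hv)
  · exact Or.inr (pvge2_R_mono (by linarith) (by linarith) (by linarith [h9.2]) (by linarith [h9.1]) hv)
  · exact Or.inr (pvge2_R_mono (by linarith) (by linarith) (by linarith [h9.2]) (by linarith [h9.1]) hv)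
  · exact Or.inl (pvge2_arm_ball hu R.num₂ hv)
  · unfold pvge2RH at hv
    rw [pvge2_R_flip] at hv
    exact Or.inr (pvge2_R_mono (by linarith) (by linarith) (by linarith [h9.2]) (by linarith [h9.1]) hv)
  · unfold pvge2RV at hv
    rw [pvge2_R_flip] at hv
    exact Or.inr (pvge2_R_mono (by linarith) (by linarith) (by linarith [h9.2]) (by linarith [h9.1]) hv)

/-- the two numbers of a route of record, by RELATIVE colour (`true` = the colour of the inner C) -/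
noncomputable def pvge2Aa (r : ℝ) (β : Bool) : ℝ := if β then 27 * r / 200 else 4 * r / 25
/-- lateral coordinate of the door, each colour in the frame of its own side -/
def pvge2Lm (lam : ℝ) (β : Bool) : ℝ := if β then lam else -lam

theorem pvge2_eqns_cite9 : True := by
  have := @pvge2Aa.eq_1; have := @pvge2Lm.eq_1
  trivial

theorem Pvge2Rec.num (R : Pvge2Rec r δ q dl ρ b μ Sp lam) (β : Bool) : Pvge2Num (pvge2Aa r β) (r / 200) (23 * r / 200) (23 * r / 200) (3 * r / 20) dl ρ (21 * r / 200) b μ (r / 4) := by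
  cases β
  · exact R.num₂
  · exact R.num₁

theorem Pvge2Rec.bar (R : Pvge2Rec r δ q dl ρ b μ Sp lam) (β : Bool) : Pvge2Bar (pvge2Aa r β) (r / 200) (3 * r / 20) (Sp - 29 * q / 8) (q / 8) (pvge2Lm lam β + q / 4) dl := by
  cases β
  · exact R.bar₂
  · exact R.bar₁

/-- the pattern of record, colour by colour: the route of the relative colour `β` lies on the side `up` (`β = true`), `!up` (`β = false`) -/
theorem pvge2_patRec_ev {η : Conf PvPt} (h : η ∈ pvkqPat dl (pvge2PatRec Y u up true r q Sp lam)) (β : Bool) :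
    η ∈ pvkqRtEv dl β (pvge2Rt Y u (if β then up else !up) (pvge2Aa r β) (r / 200) (23 * r / 200) (23 * r / 200) (3 * r / 20) (Sp - 29 * q / 8) (q / 8) (pvge2Lm lam β + q / 4)) := by
  unfold pvge2PatRec at h
  rw [pvge2_pat_ev] at h
  cases β
  · exact h.2
  · exact h.1

end record

/-! ## 7bis. ANY MIDDLE: the two arms of a mouth continued by arbitrary legs (thick links, doors which are not straight ahead) -/

section mid

variable {Y u : ℂ} {up : Bool} {a a₁ a₂ t e₁ s₁ x₂ dl ρ e₀ b μ rs : ℝ}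

theorem pvge2_RtR_append (l l' : List (Set ℂ × ℂ × ℂ)) : pvkqRtR (l ++ l') = pvkqRtR l ∪ pvkqRtR l' := by
  ext v
  simp only [pvkqRtR, List.mem_append, mem_iUnion, mem_ofPred_eq, exists_prop, mem_union]
  constructor
  · rintro ⟨e, (he | he), hv⟩
    · exact Or.inl ⟨e, he, hv⟩
    · exact Or.inr ⟨e, he, hv⟩
  · rintro (⟨e, he, hv⟩ | ⟨e, he, hv⟩)
    · exact ⟨e, Or.inl he, hv⟩
    · exact ⟨e, Or.inr he, hv⟩

theorem pvge2_legsO_R (Y u : ℂ) (up : Bool) (a t e₁ s₁ x₂ : ℝ) : pvkqRtR (pvge2LegsO Y u up a t e₁ s₁ x₂) = pvge2RC Y u up a t e₁ s₁ ∪ pvge2RN Y u up a t s₁ x₂ := by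
  ext v
  simp only [pvkqRtR, pvge2LegsO, List.mem_cons, List.not_mem_nil, or_false, mem_iUnion, mem_ofPred_eq, exists_prop, mem_union]
  constructor
  · rintro ⟨e, (rfl | rfl), hv⟩
    · exact Or.inl hv
    · exact Or.inr hv
  · rintro (hv | hv)
    · exact ⟨_, Or.inl rfl, hv⟩
    · exact ⟨_, Or.inr rfl, hv⟩

theorem pvge2_legsO_route (hu : ‖u‖ = 1) (N : Pvge2Num a t e₁ s₁ x₂ dl ρ e₀ b μ rs) : PvkqRoute dl (pvge2LegsO Y u up a t e₁ s₁ x₂) := by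
  refine ⟨?_, by simp [pvge2LegsO]⟩
  intro e he
  simp only [pvge2LegsO, List.mem_cons, List.not_mem_nil, or_false] at he
  rcases he with rfl | rfl
  · exact N.coreC hu
  · exact N.coreN hu

/-- the room left free by the OUTER arm (side `!up`, radius `a₂`) for the lane of the inner colour -/
def pvge2Free₁ (Y u : ℂ) (up : Bool) (a₂ t e₁ s₁ : ℝ) : Set ℂ := {v | e₁ + t < pvge2S Y u v ∧ s₁ + t < pvge2S Y u v ∧ -(a₂ - t) < pvge2T Y u up v}

/-- the room left free by the INNER arm (side `up`, radius `a₁`) for the lane of the outer colour -/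
def pvge2Free₂ (Y u : ℂ) (up : Bool) (a₁ t x₂ : ℝ) : Set ℂ := {v | pvge2T Y u up v < -(a₁ + t) ∨ x₂ + t < pvge2S Y u v}

theorem pvge2_eqns_cite8 : True := by
  have := @pvge2Free₁.eq_1; have := @pvge2Free₂.eq_1
  trivial

theorem pvge2_free₁ (N₂ : Pvge2Num a₂ t e₁ s₁ x₂ dl ρ e₀ b μ rs) : Disjoint (pvge2Free₁ Y u up a₂ t e₁ s₁) (pvge2RC Y u (!up) a₂ t e₁ s₁ ∪ pvge2RN Y u (!up) a₂ t s₁ x₂) := by
  have ha := N₂.a0; have ht := N₂.t0; have g3 := N₂.ρ0; have g6 := N₂.outS; have g7 := N₂.outN; have g8 := N₂.e0; have g2 := N₂.dl0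
  rw [Set.disjoint_left]
  simp only [pvge2RC, pvge2RN, pvge2_R_flip]
  rintro v ⟨f1, f2, f3⟩ (((⟨y1, y2, y3, y4⟩ | ⟨y1, y2, y3, y4⟩) | ⟨y1, y2, y3, y4⟩) | ⟨y1, y2, y3, y4⟩)
  all_goals linarith

theorem pvge2_free₂ (N₁ : Pvge2Num a₁ t e₁ s₁ x₂ dl ρ e₀ b μ rs) : Disjoint (pvge2RC Y u up a₁ t e₁ s₁ ∪ pvge2RN Y u up a₁ t s₁ x₂) (pvge2Free₂ Y u up a₁ t x₂) := by
  have ha := N₁.a0; have ht := N₁.t0; have g3 := N₁.ρ0; have g4 := N₁.sepE; have g5 := N₁.sepS; have g2 := N₁.dl0; have g6 := N₁.outS; have g8 := N₁.e0; have g9 := N₁.back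
  rw [Set.disjoint_left]
  simp only [pvge2RC, pvge2RN]
  rintro v (((⟨y1, y2, y3, y4⟩ | ⟨y1, y2, y3, y4⟩) | ⟨y1, y2, y3, y4⟩) | ⟨y1, y2, y3, y4⟩) (f | f)
  all_goals linarith

/-- the two arms are disjoint -/
theorem pvge2_arms_disj (N₁ : Pvge2Num a₁ t e₁ s₁ x₂ dl ρ e₀ b μ rs) (hn : a₁ + t < a₂ - t) :
    Disjoint (pvge2RC Y u up a₁ t e₁ s₁ ∪ pvge2RN Y u up a₁ t s₁ x₂) (pvge2RC Y u (!up) a₂ t e₁ s₁ ∪ pvge2RN Y u (!up) a₂ t s₁ x₂) := by
  have ha := N₁.a0; have ht := N₁.t0; have g3 := N₁.ρ0; have g7 := N₁.outN; have g8 := N₁.e0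
  rw [Set.disjoint_left]
  simp only [pvge2RC, pvge2RN, pvge2_R_flip]
  rintro v (((⟨x1, x2, x3, x4⟩ | ⟨x1, x2, x3, x4⟩) | ⟨x1, x2, x3, x4⟩) | ⟨x1, x2, x3, x4⟩) (((⟨y1, y2, y3, y4⟩ | ⟨y1, y2, y3, y4⟩) | ⟨y1, y2, y3, y4⟩) | ⟨y1, y2, y3, y4⟩)
  all_goals linarith

/-- **THE PATTERN WITH ARBITRARY MIDDLES FITS**: `mid₁` (colour `c`, inner arm, side `up`) in the room `pvge2Free₁`, `mid₂` (colour `!c`, outer arm) in the room `pvge2Free₂`, disjoint from each other -/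
theorem pvge2_fit_mid (hu : ‖u‖ = 1) (N₁ : Pvge2Num a₁ t e₁ s₁ x₂ dl ρ e₀ b μ rs) (N₂ : Pvge2Num a₂ t e₁ s₁ x₂ dl ρ e₀ b μ rs) (hn : a₁ + t < a₂ - t) (c : Bool)
    {mid₁ mid₂ : List (Set ℂ × ℂ × ℂ)} (hr₁ : PvkqRoute dl (pvge2LegsO Y u up a₁ t e₁ s₁ x₂ ++ mid₁)) (hr₂ : PvkqRoute dl (pvge2LegsO Y u (!up) a₂ t e₁ s₁ x₂ ++ mid₂))
    (hf₁ : pvkqRtR mid₁ ⊆ pvge2Free₁ Y u up a₂ t e₁ s₁) (hf₂ : pvkqRtR mid₂ ⊆ pvge2Free₂ Y u up a₁ t x₂) (hd : Disjoint (pvkqRtR mid₁) (pvkqRtR mid₂))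
    {M K : ℕ} (hM : rs ≤ M * dl) (hs₁ : ∀ e ∈ mid₁, ∃ z0 : ℂ, e.1 ⊆ closedBall z0 (M * dl)) (hs₂ : ∀ e ∈ mid₂, ∃ z0 : ℂ, e.1 ⊆ closedBall z0 (M * dl))
    (hK₁ : mid₁.length + 2 ≤ K) (hK₂ : mid₂.length + 2 ≤ K) :
    PvkqFit dl M K [(c, pvge2LegsO Y u up a₁ t e₁ s₁ x₂ ++ mid₁), (!c, pvge2LegsO Y u (!up) a₂ t e₁ s₁ x₂ ++ mid₂)] where
  pos := N₁.dl0
  route := by
    intro x hx
    simp only [List.mem_cons, List.not_mem_nil, or_false] at hx
    rcases hx with rfl | rfl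
    · exact hr₁
    · exact hr₂
  ne := by
    intro x hx
    simp only [List.mem_cons, List.not_mem_nil, or_false] at hx
    rcases hx with rfl | rfl <;> simp [pvge2LegsO]
  legs := by
    intro x hx
    simp only [List.mem_cons, List.not_mem_nil, or_false] at hx
    rcases hx with rfl | rfl
    · simp only [List.length_append, pvge2LegsO, List.length_cons, List.length_nil]; omega
    · simp only [List.length_append, pvge2LegsO, List.length_cons, List.length_nil]; omega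
  size := by
    intro x hx e he
    simp only [List.mem_cons, List.not_mem_nil, or_false] at hx
    rcases hx with rfl | rfl
    · rcases List.mem_append.1 he with he | he
      · refine ⟨Y, ((subset_biUnion_of_mem (u := fun e : Set ℂ × ℂ × ℂ => e.1) (show e ∈ {e | e ∈ pvge2LegsO Y u up a₁ t e₁ s₁ x₂} from he)).trans ?_).trans (closedBall_subset_closedBall hM)⟩
        have := pvge2_legsO_R Y u up a₁ t e₁ s₁ x₂
        unfold pvkqRtR at this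
        rw [this]
        exact pvge2_arm_ball hu N₁
      · exact hs₁ e he
    · rcases List.mem_append.1 he with he | he
      · refine ⟨Y, ((subset_biUnion_of_mem (u := fun e : Set ℂ × ℂ × ℂ => e.1) (show e ∈ {e | e ∈ pvge2LegsO Y u (!up) a₂ t e₁ s₁ x₂} from he)).trans ?_).trans (closedBall_subset_closedBall hM)⟩
        have := pvge2_legsO_R Y u (!up) a₂ t e₁ s₁ x₂
        unfold pvkqRtR at this
        rw [this]
        exact pvge2_arm_ball hu N₂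
      · exact hs₂ e he
  disj := by
    simp only [List.pairwise_cons, List.mem_cons, List.not_mem_nil, or_false, forall_eq, IsEmpty.forall_iff, implies_true, List.Pairwise.nil, and_true]
    rw [pvge2_RtR_append, pvge2_RtR_append, pvge2_legsO_R, pvge2_legsO_R]
    refine Disjoint.union_left (Disjoint.union_right (pvge2_arms_disj N₁ hn) ((pvge2_free₂ N₁).mono_right hf₂)) (Disjoint.union_right ((pvge2_free₁ N₂).mono_left hf₁) hd)

end mid

/-! ## 8. THE CERTIFICATE IS CHEAP -/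

/-- **CERT**: ONE `q`; for every pattern which fits and every resampled region `C`: the kept geometries which are not `(t, θ)`-good for the pattern (`pvayGood2` of 196) have upper probability `→ 0` -/
theorem pvge2_cert_lim : ∃ q : ℝ, 0 < q ∧ q ≤ 1 ∧ ∀ (M K : ℕ) (dl : ℝ) (F : List (Bool × List (Set ℂ × ℂ × ℂ))), PvkqFit dl M K F → MeasurableSet (pvkqPatR F) →
    ∀ C : Set ℂ, MeasurableSet C → ∀ θ : ℝ≥0∞, θ ≠ 0 → θ ≠ ∞ →
      Tendsto (fun ε : ℝ => (pvhbUp ε).P {x | pvConf (pvMerge x) ∉ pvayGood2 ε C (pvkqPatR F) (pvkqPat dl F) (ENNReal.ofReal ((q ^ (15 * (K * (2 * M + 1) ^ 2)) / 2) ^ F.length)) θ}) (𝓝[>] 0) (𝓝 0) := by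
  obtain ⟨q, h0, h1, H⟩ := pvkq_pat_lim
  exact ⟨q, h0, h1, fun M K dl F hF hm C hC θ hθ hθ' => pvay_forced_lim hC hm hF.bdd hF.meas hF.reads (H M K dl F hF).1 hθ hθ'⟩

end Claimed.Agent.R289
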