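-- KEEP
import Claimed.Agent.R289.Tr.GoodE

/-!
# Row 289 (S0537), THE WALL, ROAD E, E10 = LINK BOUND, file Tr/LinkM : THE MID LEGS OF THE THICK LINKS      (helper21, pen of E10; prefix `pvmv_`, defs `pvmv…`, `Pvmv…`)

MODEL FREE.   A thick link = ONE mouth (frame `(Y, u, up)` of 298, `Tr/GoodE`) + a CORRIDOR OF BLOCKS `(z, d, l)` (`pvfeLanes` of 209, calculus `Tr/LinkT` of 221) + ONE door of the reference plug (behind the first door `z` of the corridor).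
The route of one colour (mouth side `sd`, corridor side `!sd`), listed FROM THE TIP:   arm of 298 (`pvge2LegsO` = C-shape, arm)  ++  **`pvmvMid`** = [lane `pvmvRH`, bar of the mouth `pvmvRV`, corridor leg `pvmvLeg` = cap ∪ lanes ∪ cap, **bar in front of the plug `pvmvBar`** = the leg ACROSS the room of the half lane].
ALL NUMBERS ARE ARGUMENTS: `PvmvNum Δ dl a₀ b₀ u₀ s₀ tb wb ob c₀ t₁ c₁` (corridor, units of the block), `PvmvArm Δ dl u₀ t₁ c₁ a t e₁ s₁ x₂ t₂ Sn lam` (one colour at the mouth), `PvmvGeo Y u sd z d l Δ Sn lam c₀` (the two frames).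
* sec. 1  the extended word `pvmvX l = S :: l ++ [S]` started at `z - d`: `pvmv_X_Z _D _T`, `pvmv_lanes_X`, `pvmv_cap0_X`, `pvmv_cap1_X` (lanes and caps are lanes of the extended corridor)
* sec. 2  sides `pvmvLo pvmvHi`, regions `pvmvLeg`, `pvmvBar`, `pvmvSide`;   `pvmv_leg_side`, `pvmv_bar_side`, **`pvmv_side_disj`**, `pvmv_side_ball`
* sec. 3  `PvmvGeo` (`.flip`, `.S_pl`, `.T_pl`, **`.pt`**, `.pt'`, **`.cap`** : the cap beyond the last door is a rectangle `pvge2R` of the mouth)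
* sec. 4  `PvmvNum`, **`pvmv_leg_core`**, **`pvmv_bar_core`** (`PvkqCore`), `pvmvRH pvmvRV pvmvMid`, `PvmvArm`, **`pvmv_route`** (`PvkqRoute dl (arm ++ mid)`), **`pvmv_mid_cases`** (where the mid legs are)
* sec. 5  `pvmv_mid_disj`, `pvmv_arm_where`, `pvmv_arm₁_mid₂`, `pvmv_mid₁_arm₂`, `pvmv_arms_disj`, `pvmv_mid_R`, `pvmv_size`, pattern **`pvmvPat`**, **`pvmv_fit : PvkqFit dl M 6 (pvmvPat ..)`** (`M` depends only on the ratios `rs/dl`, `W/dl`, `Δ/dl` and on the number of blocks: FREE OF THE LEVEL)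
-/

set_option autoImplicit false
set_option linter.unusedSectionVars false
set_option linter.unusedVariables false

namespace Claimed.Agent.R289

open Set Metric Complex

/-! ## 1. the extended corridor: one straight block before the first door, one after the last door -/

/-- the word with one straight block before and one after -/
def pvmvX (l : List PvtTurn) : List PvtTurn := PvtTurn.S :: (l ++ [PvtTurn.S])

theorem pvmv_X_length (l : List PvtTurn) : (pvmvX l).length = l.length + 2 := by simp [pvmvX]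

theorem pvmv_X_take (l : List PvtTurn) {j : ℕ} (hj : j ≤ l.length) : (pvmvX l).take (j + 1) = PvtTurn.S :: l.take j := by
  rw [pvmvX, List.take_succ_cons, List.take_append_of_le_length hj]

theorem pvmv_X_Z (z d : ℂ) (l : List PvtTurn) {j : ℕ} (hj : j ≤ l.length) : pvccZ (z - d) d (pvmvX l) (j + 1) = pvccZ z d l j := by
  unfold pvccZ pvtDisp
  rw [pvmv_X_take l hj, pvtAcc_cons]
  simp only [PvtTurn.mid, PvtTurn.rot, mul_one]
  ring

theorem pvmv_X_D (d : ℂ) (l : List PvtTurn) {j : ℕ} (hj : j ≤ l.length) : pvccD d (pvmvX l) (j + 1) = pvccD d l j := by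
  unfold pvccD
  rw [pvmv_X_take l hj, pvtDir_cons]
  simp only [PvtTurn.rot, mul_one]

theorem pvmv_X_T (l : List PvtTurn) {j : ℕ} (hj : j < l.length) : pvccT (pvmvX l) (j + 1) = pvccT l j := by
  unfold pvccT pvmvX
  simp [List.getD_eq_getElem?_getD, List.getElem?_append_left hj]

theorem pvmv_X_T0 (l : List PvtTurn) : pvccT (pvmvX l) 0 = PvtTurn.S := rfl

theorem pvmv_X_Tn (l : List PvtTurn) : pvccT (pvmvX l) (l.length + 1) = PvtTurn.S := by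
  unfold pvccT pvmvX
  simp [List.getD_eq_getElem?_getD]

/-- the lanes of the corridor are lanes of the extended corridor -/
theorem pvmv_lanes_X (α β : ℝ) (z d : ℂ) (l : List PvtTurn) : pvfeLanes α β z d l ⊆ pvfeLanes α β (z - d) d (pvmvX l) := by
  intro w hw
  obtain ⟨j, hj, hwj⟩ := mem_iUnion₂.1 hw
  have hj' : j < l.length := Finset.mem_range.1 hj
  refine mem_iUnion₂.2 ⟨j + 1, Finset.mem_range.2 (by rw [pvmv_X_length]; omega), ?_⟩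
  unfold pvccK at hwj ⊢
  rwa [pvmv_X_Z z d l hj'.le, pvmv_X_D d l hj'.le, pvmv_X_T l hj']

/-- a rectangle behind the first door -/
theorem pvmv_cap0_X {α β x₀ x₁ : ℝ} (h0 : -1 ≤ x₀) (h1 : x₁ ≤ 0) (z d : ℂ) (l : List PvtTurn) : pvccPl z d (pvljRect x₀ x₁ α β) ⊆ pvfeLanes α β (z - d) d (pvmvX l) := by
  rintro _ ⟨w, ⟨a1, a2, a3, a4⟩, rfl⟩
  refine mem_iUnion₂.2 ⟨0, Finset.mem_range.2 (by rw [pvmv_X_length]; omega), ?_⟩
  unfold pvccK
  rw [pvccZ_zero, pvccD_zero, pvmv_X_T0]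
  refine ⟨w + 1, ⟨by simp; linarith, by simp; linarith, by simpa using a3, by simpa using a4⟩, ?_⟩
  show z - d + d * (w + 1) = z + d * w
  ring

/-- a rectangle beyond the last door -/
theorem pvmv_cap1_X {α β x₀ x₁ : ℝ} (h0 : 0 ≤ x₀) (h1 : x₁ ≤ 1) (z d : ℂ) (l : List PvtTurn) :
    pvccPl (pvccZ z d l l.length) (pvccD d l l.length) (pvljRect x₀ x₁ α β) ⊆ pvfeLanes α β (z - d) d (pvmvX l) := by
  rintro _ ⟨w, ⟨a1, a2, a3, a4⟩, rfl⟩
  refine mem_iUnion₂.2 ⟨l.length + 1, Finset.mem_range.2 (by rw [pvmv_X_length]; omega), ?_⟩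
  unfold pvccK
  rw [pvmv_X_Z z d l le_rfl, pvmv_X_D d l le_rfl, pvmv_X_Tn]
  exact ⟨w, ⟨by linarith, by linarith, a3, a4⟩, rfl⟩

/-! ## 2. the two sides of a corridor; the corridor leg, the bar in front of the plug -/

/-- the offsets `[a,b]` on the side `pos` of the centre line: `[a,b]` (left) or `[-b,-a]` (right) -/
def pvmvLo (pos : Bool) (a b : ℝ) : ℝ := if pos then a else -b
/-- upper end -/
def pvmvHi (pos : Bool) (a b : ℝ) : ℝ := if pos then b else -a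

/-- **THE CORRIDOR LEG** of the side `pos`: cap of depth `c₀` behind the first door, lanes of offsets `[a₀,b₀]`, cap of depth `c₁` beyond the last door -/
def pvmvLeg (pos : Bool) (a₀ b₀ c₀ c₁ : ℝ) (z d : ℂ) (l : List PvtTurn) : Set ℂ :=
  pvccPl z d (pvljRect (-c₀) 0 (pvmvLo pos a₀ b₀) (pvmvHi pos a₀ b₀)) ∪ pvfeLanes (pvmvLo pos a₀ b₀) (pvmvHi pos a₀ b₀) z d l ∪
    pvccPl (pvccZ z d l l.length) (pvccD d l l.length) (pvljRect 0 c₁ (pvmvLo pos a₀ b₀) (pvmvHi pos a₀ b₀))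

/-- **THE BAR IN FRONT OF THE PLUG**: the column of abscissa `-tb` (half thickness `wb`) behind the first door, from the top `b₀` of the lane to the offset `ob` -/
def pvmvBar (pos : Bool) (b₀ tb wb ob : ℝ) (z d : ℂ) : Set ℂ := pvccPl z d (pvljRect (-tb - wb) (-tb + wb) (pvmvLo pos (ob - wb) b₀) (pvmvHi pos (ob - wb) b₀))

/-- the side `pos` of the extended corridor: offsets `[g, b₀]` -/
def pvmvSide (pos : Bool) (g b₀ : ℝ) (z d : ℂ) (l : List PvtTurn) : Set ℂ := pvfeLanes (pvmvLo pos g b₀) (pvmvHi pos g b₀) (z - d) d (pvmvX l)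

theorem pvmv_eqns_cite : True := by
  have := @pvmvX.eq_1; have := @pvmvLo.eq_1; have := @pvmvHi.eq_1; have := @pvmvLeg.eq_1; have := @pvmvBar.eq_1; have := @pvmvSide.eq_1
  trivial

theorem pvmv_lo_mono (pos : Bool) {a b a' b' : ℝ} (h1 : a' ≤ a) (h2 : b ≤ b') : pvmvLo pos a' b' ≤ pvmvLo pos a b := by
  cases pos <;> simp only [pvmvLo] <;> simp <;> linarith

theorem pvmv_hi_mono (pos : Bool) {a b a' b' : ℝ} (h1 : a' ≤ a) (h2 : b ≤ b') : pvmvHi pos a b ≤ pvmvHi pos a' b' := by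
  cases pos <;> simp only [pvmvHi] <;> simp <;> linarith

/-- the corridor leg lies on its side of the extended corridor -/
theorem pvmv_leg_side (pos : Bool) {a₀ b₀ c₀ c₁ g : ℝ} (hg : g ≤ a₀) (h0 : c₀ ≤ 1) (h1 : c₁ ≤ 1) (z d : ℂ) (l : List PvtTurn) : pvmvLeg pos a₀ b₀ c₀ c₁ z d l ⊆ pvmvSide pos g b₀ z d l := by
  have hm : pvfeLanes (pvmvLo pos a₀ b₀) (pvmvHi pos a₀ b₀) (z - d) d (pvmvX l) ⊆ pvmvSide pos g b₀ z d l :=
    pvlj_lanes_mono (pvmv_lo_mono pos hg le_rfl) (pvmv_hi_mono pos hg le_rfl) _ _ _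
  rintro w ((hw | hw) | hw)
  · exact hm (pvmv_cap0_X (by linarith) le_rfl z d l hw)
  · exact hm (pvmv_lanes_X _ _ z d l hw)
  · exact hm (pvmv_cap1_X le_rfl h1 z d l hw)

/-- the bar lies on its side of the extended corridor -/
theorem pvmv_bar_side (pos : Bool) {b₀ tb wb ob : ℝ} (h0 : tb + wb ≤ 1) (h1 : wb ≤ tb) (z d : ℂ) (l : List PvtTurn) : pvmvBar pos b₀ tb wb ob z d ⊆ pvmvSide pos (ob - wb) b₀ z d l :=
  pvmv_cap0_X (by linarith) (by linarith) z d l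

/-- **the two sides of the extended corridor are disjoint** -/
theorem pvmv_side_disj (pos : Bool) {g b₀ : ℝ} (hg : 0 < g) (hb : b₀ < 1 / 2) {l : List PvtTurn} (hS : PvccSimple (pvmvX l) (pvmvX l).length)
    (hback : ∀ k, k < (pvmvX l).length → pvccC 0 1 (pvmvX l) k ≠ -(1 / 2)) (z : ℂ) {d : ℂ} (hd : d ≠ 0) : Disjoint (pvmvSide pos g b₀ z d l) (pvmvSide (!pos) g b₀ z d l) := by
  unfold pvmvSide
  cases pos
  · simp only [pvmvLo, pvmvHi, Bool.not_false, if_true, Bool.false_eq_true, if_false]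
    exact pvlj_lanes_disj (by linarith) (by linarith) (by linarith) (by linarith) (Or.inl (by linarith)) hS hback _ hd
  · simp only [pvmvLo, pvmvHi, Bool.not_true, if_true, Bool.false_eq_true, if_false]
    exact pvlj_lanes_disj (by linarith) (by linarith) (by linarith) (by linarith) (Or.inr (by linarith)) hS hback _ hd

/-- bounding ball -/
theorem pvmv_side_ball (pos : Bool) {g b₀ : ℝ} (hg : 0 ≤ g) (hb : b₀ ≤ 1 / 2) (z d : ℂ) (l : List PvtTurn) : pvmvSide pos g b₀ z d l ⊆ closedBall (z - d) ((l.length + 3) * ‖d‖) := by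
  have h := pvlj_lanes_ball (a := pvmvLo pos g b₀) (b := pvmvHi pos g b₀) (by cases pos <;> simp [pvmvLo] <;> linarith) (by cases pos <;> simp [pvmvHi] <;> linarith) (z - d) d (pvmvX l)
  rw [pvmv_X_length] at h
  refine h.trans (closedBall_subset_closedBall (le_of_eq ?_))
  push_cast
  ring

/-! ## 3. the frame of the mouth against the frame of the last door -/

/-- **THE GEOMETRY OF A THICK LINK**: mouth `(Y, u)` seen from the side `sd`, corridor `(z, d, l)` of blocks of side `Δ`; the corridor is left INWARDS (`- u`) through its last door, which has the coordinates `(Sn, lam)` in the frame `(Y, u, sd)`;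
everything but the cap beyond the last door lies in front of the last door -/
structure PvmvGeo (Y u : ℂ) (sd : Bool) (z d : ℂ) (l : List PvtTurn) (Δ Sn lam c₀ : ℝ) : Prop where
  hu : ‖u‖ = 1
  hl : 0 < l.length
  Δ0 : 0 < Δ
  hd : ‖d‖ = Δ
  hD : pvccD d l l.length = -((Δ : ℂ) * u)
  hZ : pvccZ z d l l.length = pvge2P Y u sd Sn lam
  simple : PvccSimple (pvmvX l) (pvmvX l).length
  back : ∀ k, k < (pvmvX l).length → pvccC 0 1 (pvmvX l) k ≠ -(1 / 2)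
  front : ∀ w ∈ pvfeLanes (-(1 / 2)) (1 / 2) z d l ∪ pvccPl z d (pvljRect (-c₀) 0 (-(1 / 2)) (1 / 2)), Sn ≤ pvge2S Y u w

section geo

variable {Y u : ℂ} {sd : Bool} {z d : ℂ} {l : List PvtTurn} {Δ Sn lam c₀ : ℝ}

theorem PvmvGeo.d0 (G : PvmvGeo Y u sd z d l Δ Sn lam c₀) : d ≠ 0 := by
  rw [← norm_pos_iff, G.hd]; exact G.Δ0

/-- the same geometry seen from the other side -/
theorem PvmvGeo.flip (G : PvmvGeo Y u sd z d l Δ Sn lam c₀) : PvmvGeo Y u (!sd) z d l Δ Sn (-lam) c₀ :=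
  { G with
    hZ := by
      rw [G.hZ]
      unfold pvge2P
      rw [pvge2_sg_not]
      congr 3
      push_cast
      ring }

/-- coordinates of a point given in the frame of the last door -/
theorem PvmvGeo.S_pl (G : PvmvGeo Y u sd z d l Δ Sn lam c₀) (v : ℂ) : pvge2S Y u (pvccZ z d l l.length + pvccD d l l.length * v) = Sn - Δ * v.re := by
  have hc := pvge2_u_conj G.hu
  unfold pvge2S
  rw [G.hZ, G.hD, pvge2P]
  have e : (Y + u * ((Sn : ℂ) + ((pvge2Sg sd * lam : ℝ) : ℂ) * I) + -((Δ : ℂ) * u) * v - Y) * (starRingEnd ℂ) u = (u * (starRingEnd ℂ) u) * (((Sn : ℂ) + ((pvge2Sg sd * lam : ℝ) : ℂ) * I) - (Δ : ℂ) * v) := by ring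
  rw [e, hc, one_mul]
  simp

theorem PvmvGeo.T_pl (G : PvmvGeo Y u sd z d l Δ Sn lam c₀) (v : ℂ) : pvge2T Y u sd (pvccZ z d l l.length + pvccD d l l.length * v) = lam - pvge2Sg sd * (Δ * v.im) := by
  have hc := pvge2_u_conj G.hu
  unfold pvge2T
  rw [G.hZ, G.hD, pvge2P]
  have e : (Y + u * ((Sn : ℂ) + ((pvge2Sg sd * lam : ℝ) : ℂ) * I) + -((Δ : ℂ) * u) * v - Y) * (starRingEnd ℂ) u = (u * (starRingEnd ℂ) u) * (((Sn : ℂ) + ((pvge2Sg sd * lam : ℝ) : ℂ) * I) - (Δ : ℂ) * v) := by ring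
  rw [e, hc, one_mul]
  have h2 := pvge2_sg_sq sd
  simp only [sub_im, add_im, ofReal_im, mul_im, ofReal_re, I_re, I_im, mul_zero, mul_one, zero_add, add_zero, zero_mul]
  linear_combination lam * h2

/-- **a point of the frame of the last door in the frame of the mouth** -/
theorem PvmvGeo.pt (G : PvmvGeo Y u sd z d l Δ Sn lam c₀) (t o : ℝ) : pvljPt z d l l.length t o = pvge2P Y u sd (Sn - Δ * t) (lam - pvge2Sg sd * (Δ * o)) := by
  unfold pvljPt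
  rw [G.hZ, G.hD]
  unfold pvge2P
  have h2 : ((pvge2Sg sd : ℝ) : ℂ) * ((pvge2Sg sd : ℝ) : ℂ) = 1 := by exact_mod_cast pvge2_sg_sq sd
  push_cast
  linear_combination (u * (Δ : ℂ) * (o : ℂ) * I) * h2

/-- the line of offset `u₀` of the corridor side `!sd` lies at the lateral coordinate `lam + Δ u₀` on the side `sd` of the mouth -/
theorem PvmvGeo.pt' (G : PvmvGeo Y u sd z d l Δ Sn lam c₀) (t o : ℝ) : pvljPt z d l l.length t (pvge2Sg (!sd) * o) = pvge2P Y u sd (Sn - Δ * t) (lam + Δ * o) := by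
  rw [G.pt, pvge2_sg_not]
  have h2 := pvge2_sg_sq sd
  congr 1
  linear_combination (Δ * o) * h2

/-- **the cap beyond the last door, corridor side `!sd`, is a rectangle of the mouth on the side `sd`** -/
theorem PvmvGeo.cap (G : PvmvGeo Y u sd z d l Δ Sn lam c₀) {x₀ x₁ a b : ℝ} :
    pvccPl (pvccZ z d l l.length) (pvccD d l l.length) (pvljRect x₀ x₁ (pvmvLo (!sd) a b) (pvmvHi (!sd) a b)) ⊆ pvge2R Y u sd (Sn - Δ * x₁) (Sn - Δ * x₀) (lam + Δ * a) (lam + Δ * b) := by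
  rintro _ ⟨v, ⟨a1, a2, a3, a4⟩, rfl⟩
  have hΔ := G.Δ0
  show _ ≤ pvge2S Y u (pvccZ z d l l.length + pvccD d l l.length * v) ∧ pvge2S Y u (pvccZ z d l l.length + pvccD d l l.length * v) ≤ _ ∧
    _ ≤ pvge2T Y u sd (pvccZ z d l l.length + pvccD d l l.length * v) ∧ pvge2T Y u sd (pvccZ z d l l.length + pvccD d l l.length * v) ≤ _
  rw [G.S_pl, G.T_pl]
  refine ⟨by nlinarith, by nlinarith, ?_, ?_⟩
  · cases sd
    · simp only [pvmvLo, pvmvHi, pvge2Sg, Bool.not_false, if_true, Bool.false_eq_true, if_false] at a3 a4 ⊢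
      nlinarith
    · simp only [pvmvLo, pvmvHi, pvge2Sg, Bool.not_true, if_true, Bool.false_eq_true, if_false] at a3 a4 ⊢
      nlinarith
  · cases sd
    · simp only [pvmvLo, pvmvHi, pvge2Sg, Bool.not_false, if_true, Bool.false_eq_true, if_false] at a3 a4 ⊢
      nlinarith
    · simp only [pvmvLo, pvmvHi, pvge2Sg, Bool.not_true, if_true, Bool.false_eq_true, if_false] at a3 a4 ⊢
      nlinarith

end geo

/-! ## 4. numbers, cores, the route of one colour -/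

/-- **THE NUMBERS OF THE CORRIDOR PART** (units of the block, but for the mesh `dl` of the pattern grid and the side `Δ` of the blocks): lane of offsets `[a₀,b₀]`, line `u₀`, core `s₀`;
bar in front of the plug: abscissa `-tb`, half thickness `wb`, inner end at the offset `ob`;   caps of depth `c₀`, `c₁`;   the bar of the mouth stands at the abscissa `t₁` beyond the last door -/
structure PvmvNum (Δ dl a₀ b₀ u₀ s₀ tb wb ob c₀ t₁ c₁ : ℝ) : Prop where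
  dl0 : 0 < dl
  gap : 0 < ob - wb
  ga : ob - wb ≤ a₀
  b0 : b₀ < 1 / 2
  s0 : 0 ≤ s₀
  lo : a₀ + s₀ ≤ u₀
  hi : u₀ + s₀ ≤ b₀
  core : 4 * dl ≤ s₀ * Δ
  w0 : 0 ≤ wb
  coreb : 4 * dl ≤ wb * Δ
  ws : wb ≤ s₀
  obu : ob ≤ u₀
  cap0 : s₀ + tb ≤ c₀
  cap0' : c₀ ≤ 1
  tbw : wb ≤ tb
  t1 : 0 ≤ t₁
  cap1 : t₁ + s₀ ≤ c₁
  cap1' : c₁ ≤ 1

section cores

variable {Δ dl a₀ b₀ u₀ s₀ tb wb ob c₀ t₁ c₁ : ℝ}

/-- **the core of the corridor leg** -/
theorem pvmv_leg_core (pos : Bool) (N : PvmvNum Δ dl a₀ b₀ u₀ s₀ tb wb ob c₀ t₁ c₁) (z : ℂ) {d : ℂ} (hd : d ≠ 0) (hΔ : ‖d‖ = Δ) {l : List PvtTurn} (hl : 0 < l.length) :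
    PvkqCore dl (pvmvLeg pos a₀ b₀ c₀ c₁ z d l) (pvljPt z d l l.length t₁ (pvge2Sg pos * u₀)) (pvljPt z d l 0 (-tb) (pvge2Sg pos * u₀)) := by
  have n1 := N.gap; have n2 := N.ga; have n3 := N.b0; have n4 := N.s0; have n5 := N.lo; have n6 := N.hi; have n7 := N.w0; have n8 := N.cap0; have n9 := N.tbw; have n10 := N.t1; have n11 := N.cap1
  refine ⟨N.dl0, (pvlj_joined_anti (by rw [hΔ]; exact N.core) (pvlj_lanes_through (a := pvmvLo pos a₀ b₀) (b := pvmvHi pos a₀ b₀) (s := s₀) (u := pvge2Sg pos * u₀) (c₀ := c₀) (c₁ := c₁) (t₀ := -tb) (t₁ := t₁)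
    ?_ ?_ ?_ ?_ (by linarith) z hd hl (R := pvmvLeg pos a₀ b₀ c₀ c₁ z d l) (fun w hw => Or.inl (Or.inr hw)) (fun w hw => Or.inl (Or.inl hw)) (fun w hw => Or.inr hw) (by linarith) (by linarith) n11 n10 n4)).symm⟩
  all_goals cases pos <;> simp only [pvmvLo, pvmvHi, pvge2Sg, if_true, Bool.false_eq_true, if_false] <;> linarith

/-- **the core of the bar in front of the plug** -/
theorem pvmv_bar_core (pos : Bool) (N : PvmvNum Δ dl a₀ b₀ u₀ s₀ tb wb ob c₀ t₁ c₁) (z : ℂ) {d : ℂ} (hd : d ≠ 0) (hΔ : ‖d‖ = Δ) (l : List PvtTurn) :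
    PvkqCore dl (pvmvBar pos b₀ tb wb ob z d) (pvljPt z d l 0 (-tb) (pvge2Sg pos * u₀)) (pvljPt z d l 0 (-tb) (pvge2Sg pos * ob)) := by
  have n1 := N.gap; have n2 := N.ga; have n3 := N.b0; have n4 := N.s0; have n5 := N.lo; have n6 := N.hi; have n7 := N.w0; have n8 := N.ws; have n9 := N.obu
  have key : ∀ o : ℝ, ob ≤ o → o ≤ u₀ → closedBall (pvljPt z d l 0 (-tb) (pvge2Sg pos * o)) (wb * ‖d‖) ⊆ pvmvBar pos b₀ tb wb ob z d := by
    intro o h1 h2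
    have := pvlj_ball_pt z hd l 0 (x₀ := -tb - wb) (x₁ := -tb + wb) (y₀ := pvmvLo pos (ob - wb) b₀) (y₁ := pvmvHi pos (ob - wb) b₀) (s := wb) (t := -tb) (u := pvge2Sg pos * o) (by linarith) (by linarith)
      (by cases pos <;> simp only [pvmvLo, pvge2Sg, if_true, Bool.false_eq_true, if_false] <;> linarith) (by cases pos <;> simp only [pvmvHi, pvge2Sg, if_true, Bool.false_eq_true, if_false] <;> linarith)
    rwa [pvccZ_zero, pvccD_zero] at this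
  exact ⟨N.dl0, pvlj_joined_anti (by rw [hΔ]; exact N.coreb) (pvlj_joined_convex (pvlj_pl_convex _ _ (pvlj_rect_convex _ _ _ _)) le_rfl (key u₀ n9 le_rfl) (key ob le_rfl n9))⟩

end cores

/-- the lane `l = a` of the mouth from `s = x₂` to the column `s = sb` -/
def pvmvRH (Y u : ℂ) (sd : Bool) (a t x₂ sb t₂ : ℝ) : Set ℂ := pvge2R Y u sd (x₂ - t) (sb + t₂) (a - t) (a + t)

/-- the bar of the mouth: the column `s = sb` (half thickness `t₂`) from `l = a` down to `l = lb` -/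
def pvmvRV (Y u : ℂ) (sd : Bool) (a t sb t₂ lb : ℝ) : Set ℂ := pvge2R Y u sd (sb - t₂) (sb + t₂) (lb - t₂) (a + t)

/-- **THE MID LEGS OF ONE COLOUR** (mouth side `sd`, corridor side `!sd`): lane and bar of the mouth, corridor leg, bar in front of the plug -/
noncomputable def pvmvMid (Y u : ℂ) (sd : Bool) (a t x₂ sb t₂ lb a₀ b₀ u₀ tb wb ob c₀ c₁ : ℝ) (z d : ℂ) (l : List PvtTurn) : List (Set ℂ × ℂ × ℂ) :=
  [(pvmvRH Y u sd a t x₂ sb t₂, pvge2P Y u sd x₂ a, pvge2P Y u sd sb a),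
   (pvmvRV Y u sd a t sb t₂ lb, pvge2P Y u sd sb a, pvge2P Y u sd sb lb),
   (pvmvLeg (!sd) a₀ b₀ c₀ c₁ z d l, pvge2P Y u sd sb lb, pvljPt z d l 0 (-tb) (pvge2Sg (!sd) * u₀)),
   (pvmvBar (!sd) b₀ tb wb ob z d, pvljPt z d l 0 (-tb) (pvge2Sg (!sd) * u₀), pvljPt z d l 0 (-tb) (pvge2Sg (!sd) * ob))]

theorem pvmv_eqns_cite2 : True := by
  have := @pvmvMid.eq_1; have := @pvmvRH.eq_1; have := @pvmvRV.eq_1
  trivial

theorem pvmv_RH_core {Y u : ℂ} {sd : Bool} {a t x₂ sb t₂ dl : ℝ} (hu : ‖u‖ = 1) (hdl : 0 < dl) (h4 : 4 * dl ≤ t) (h4' : 4 * dl ≤ t₂) (hs : x₂ ≤ sb) :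
    PvkqCore dl (pvmvRH Y u sd a t x₂ sb t₂) (pvge2P Y u sd x₂ a) (pvge2P Y u sd sb a) :=
  ⟨hdl, pvlj_joined_convex (pvge2_R_convex Y u sd (x₂ - t) (sb + t₂) (a - t) (a + t)) le_rfl
      (pvge2_ball_R hu (by linarith) (by linarith) (by linarith) (by linarith)) (pvge2_ball_R hu (by linarith) (by linarith) (by linarith) (by linarith))⟩

theorem pvmv_RV_core {Y u : ℂ} {sd : Bool} {a t sb t₂ lb dl : ℝ} (hu : ‖u‖ = 1) (hdl : 0 < dl) (h4 : 4 * dl ≤ t) (h4' : 4 * dl ≤ t₂) (hl : lb ≤ a) :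
    PvkqCore dl (pvmvRV Y u sd a t sb t₂ lb) (pvge2P Y u sd sb a) (pvge2P Y u sd sb lb) :=
  ⟨hdl, pvlj_joined_convex (pvge2_R_convex Y u sd (sb - t₂) (sb + t₂) (lb - t₂) (a + t)) le_rfl
      (pvge2_ball_R hu (by linarith) (by linarith) (by linarith) (by linarith)) (pvge2_ball_R hu (by linarith) (by linarith) (by linarith) (by linarith))⟩

/-- **THE NUMBERS OF ONE COLOUR AT THE MOUTH**: arm `a t e₁ s₁ x₂` of 298, bar of half thickness `t₂` at the abscissa `Sn - Δ t₁`, last door of the corridor at `(Sn, lam)` -/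
structure PvmvArm (Δ dl u₀ t₁ c₁ a t e₁ s₁ x₂ t₂ Sn lam : ℝ) : Prop where
  core2 : 4 * dl ≤ t₂
  t2u : t₂ < Δ * u₀
  bar : x₂ + t + t₂ < Sn - Δ * t₁
  fr2 : t₂ < Δ * t₁
  capS : x₂ + t < Sn - Δ * c₁
  he : e₁ + t < x₂ - t
  hs : s₁ + t < x₂ - t
  lat : lam + Δ * u₀ ≤ a
  lat' : lam < a - t

section route

variable {Y u : ℂ} {sd : Bool} {z d : ℂ} {l : List PvtTurn} {Δ Sn lam dl a₀ b₀ u₀ s₀ tb wb ob c₀ t₁ c₁ a t e₁ s₁ x₂ t₂ ρ e₀ b μ rs : ℝ}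

/-- **THE ROUTE OF ONE COLOUR**: arm of 298, mid legs -/
theorem pvmv_route (G : PvmvGeo Y u sd z d l Δ Sn lam c₀) (N : Pvge2Num a t e₁ s₁ x₂ dl ρ e₀ b μ rs) (Nc : PvmvNum Δ dl a₀ b₀ u₀ s₀ tb wb ob c₀ t₁ c₁) (A : PvmvArm Δ dl u₀ t₁ c₁ a t e₁ s₁ x₂ t₂ Sn lam) :
    PvkqRoute dl (pvge2LegsO Y u sd a t e₁ s₁ x₂ ++ pvmvMid Y u sd a t x₂ (Sn - Δ * t₁) t₂ (lam + Δ * u₀) a₀ b₀ u₀ tb wb ob c₀ c₁ z d l) := by
  have ht := N.t0
  refine ⟨?_, by simp [pvge2LegsO, pvmvMid]⟩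
  intro e he
  simp only [pvge2LegsO, pvmvMid, List.cons_append, List.nil_append, List.mem_cons, List.not_mem_nil, or_false] at he
  rcases he with rfl | rfl | rfl | rfl | rfl | rfl
  · exact N.coreC G.hu
  · exact N.coreN G.hu
  · exact pvmv_RH_core G.hu N.dl0 N.core A.core2 (by have := A.bar; have := A.core2; have := N.dl0; linarith)
  · exact pvmv_RV_core G.hu N.dl0 N.core A.core2 A.lat
  · have h := pvmv_leg_core (!sd) Nc z G.d0 G.hd G.hl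
    rwa [G.pt'] at h
  · exact pvmv_bar_core (!sd) Nc z G.d0 G.hd l

/-- **WHERE THE MID LEGS ARE**: lane | bar of the mouth | on the side `!sd` of the extended corridor, in front of the last door or in the cap -/
theorem pvmv_mid_cases (G : PvmvGeo Y u sd z d l Δ Sn lam c₀) (Nc : PvmvNum Δ dl a₀ b₀ u₀ s₀ tb wb ob c₀ t₁ c₁) (A : PvmvArm Δ dl u₀ t₁ c₁ a t e₁ s₁ x₂ t₂ Sn lam) {v : ℂ}
    (hv : v ∈ pvkqRtR (pvmvMid Y u sd a t x₂ (Sn - Δ * t₁) t₂ (lam + Δ * u₀) a₀ b₀ u₀ tb wb ob c₀ c₁ z d l)) :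
    (x₂ - t ≤ pvge2S Y u v ∧ pvge2S Y u v < Sn ∧ a - t ≤ pvge2T Y u sd v) ∨ (Sn - Δ * t₁ - t₂ ≤ pvge2S Y u v ∧ pvge2S Y u v < Sn ∧ lam < pvge2T Y u sd v) ∨
      (v ∈ pvmvSide (!sd) (ob - wb) b₀ z d l ∧ (Sn ≤ pvge2S Y u v ∨ (Sn - Δ * c₁ ≤ pvge2S Y u v ∧ lam < pvge2T Y u sd v))) := by
  have n1 := Nc.gap; have n2 := Nc.ga; have n3 := Nc.b0; have n4 := Nc.s0; have n5 := Nc.lo; have n6 := Nc.hi; have n7 := Nc.w0; have n8 := Nc.ws; have n9 := Nc.cap0; have n10 := Nc.tbw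
  have hΔ := G.Δ0
  have lo1 : ∀ g : ℝ, 0 < g → -(1 / 2) ≤ pvmvLo (!sd) g b₀ := fun g hg => by cases sd <;> simp only [pvmvLo, Bool.not_true, Bool.not_false, if_true, Bool.false_eq_true, if_false] <;> linarith
  have hi1 : ∀ g : ℝ, 0 < g → pvmvHi (!sd) g b₀ ≤ 1 / 2 := fun g hg => by cases sd <;> simp only [pvmvHi, Bool.not_true, Bool.not_false, if_true, Bool.false_eq_true, if_false] <;> linarith
  simp only [pvkqRtR, pvmvMid, List.mem_cons, List.not_mem_nil, or_false, mem_iUnion, mem_ofPred_eq, exists_prop] at hv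
  obtain ⟨e, (rfl | rfl | rfl | rfl), hv⟩ := hv
  · obtain ⟨h1, h2, h3, h4⟩ := hv
    exact Or.inl ⟨h1, by have := A.fr2; linarith, h3⟩
  · obtain ⟨h1, h2, h3, h4⟩ := hv
    exact Or.inr (Or.inl ⟨h1, by have := A.fr2; linarith, by have := A.t2u; linarith⟩)
  · refine Or.inr (Or.inr ⟨pvmv_leg_side (!sd) n2 Nc.cap0' Nc.cap1' z d l hv, ?_⟩)
    rcases hv with (hv | hv) | hv
    · exact Or.inl (G.front v (Or.inr (pvccPl_mono _ _ (pvlj_rect_mono le_rfl le_rfl (lo1 a₀ (by linarith)) (hi1 a₀ (by linarith))) hv)))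
    · exact Or.inl (G.front v (Or.inl (pvlj_lanes_mono (lo1 a₀ (by linarith)) (hi1 a₀ (by linarith)) _ _ _ hv)))
    · obtain ⟨h1, h2, h3, h4⟩ := G.cap hv
      exact Or.inr ⟨h1, by nlinarith⟩
  · refine Or.inr (Or.inr ⟨pvmv_bar_side (!sd) (by have := Nc.cap0'; linarith) n10 z d l hv, Or.inl (G.front v (Or.inr ?_))⟩)
    exact pvccPl_mono _ _ (pvlj_rect_mono (by linarith) (by linarith) (lo1 _ n1) (hi1 _ n1)) hv

end route

/-! ## 5. the two colours: disjointness, sizes, THE PATTERN OF A THICK LINK FITS -/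

section pair

variable {Y u : ℂ} {up sd : Bool} {z d : ℂ} {l : List PvtTurn} {Δ Sn lam dl a₀ b₀ u₀ s₀ tb wb ob c₀ t₁ c₁ a a₁ a₂ t e₁ s₁ x₂ t₂ ρ e₀ b μ rs : ℝ}

/-- **the mid legs of the two colours are disjoint** -/
theorem pvmv_mid_disj (G : PvmvGeo Y u up z d l Δ Sn lam c₀) (Nc : PvmvNum Δ dl a₀ b₀ u₀ s₀ tb wb ob c₀ t₁ c₁) (A₁ : PvmvArm Δ dl u₀ t₁ c₁ a₁ t e₁ s₁ x₂ t₂ Sn lam)
    (A₂ : PvmvArm Δ dl u₀ t₁ c₁ a₂ t e₁ s₁ x₂ t₂ Sn (-lam)) :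
    Disjoint (pvkqRtR (pvmvMid Y u up a₁ t x₂ (Sn - Δ * t₁) t₂ (lam + Δ * u₀) a₀ b₀ u₀ tb wb ob c₀ c₁ z d l))
      (pvkqRtR (pvmvMid Y u (!up) a₂ t x₂ (Sn - Δ * t₁) t₂ (-lam + Δ * u₀) a₀ b₀ u₀ tb wb ob c₀ c₁ z d l)) := by
  rw [Set.disjoint_left]
  intro v h1 h2
  have c1 := pvmv_mid_cases G Nc A₁ h1
  have c2 := pvmv_mid_cases G.flip Nc A₂ h2
  rw [pvge2_T_flip, Bool.not_not] at c2
  have q1 := A₁.lat'; have q2 := A₂.lat'
  rcases c1 with ⟨x1, x2, x3⟩ | ⟨x1, x2, x3⟩ | ⟨x1, x2⟩ <;> rcases c2 with ⟨y1, y2, y3⟩ | ⟨y1, y2, y3⟩ | ⟨y1, y2⟩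
  · linarith
  · linarith
  · rcases y2 with y2 | ⟨y2, y3⟩ <;> linarith
  · linarith
  · linarith
  · rcases y2 with y2 | ⟨y2, y3⟩ <;> linarith
  · rcases x2 with x2 | ⟨x2, x3⟩ <;> linarith
  · rcases x2 with x2 | ⟨x2, x3⟩ <;> linarith
  · have := pvmv_side_disj (!up) Nc.gap Nc.b0 G.simple G.back z G.d0
    rw [Bool.not_not] at this
    exact Set.disjoint_left.1 this x1 y1

/-- where an arm of 298 is -/
theorem pvmv_arm_where (N : Pvge2Num a t e₁ s₁ x₂ dl ρ e₀ b μ rs) (he : e₁ + t < x₂ - t) (hs : s₁ + t < x₂ - t) {v : ℂ} (hv : v ∈ pvge2RC Y u sd a t e₁ s₁ ∪ pvge2RN Y u sd a t s₁ x₂) :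
    pvge2S Y u v ≤ x₂ + t ∧ -(a + t) ≤ pvge2T Y u sd v ∧ pvge2T Y u sd v ≤ a + t ∧ (pvge2S Y u v < x₂ - t ∨ a - t ≤ pvge2T Y u sd v) := by
  have ha := N.a0; have ht := N.t0; have g3 := N.ρ0; have g6 := N.outS; have g8 := N.e0; have g2 := N.dl0; have g9 := N.back
  rcases hv with ((⟨y1, y2, y3, y4⟩ | ⟨y1, y2, y3, y4⟩) | ⟨y1, y2, y3, y4⟩) | ⟨y1, y2, y3, y4⟩
  · exact ⟨by linarith, by linarith, by linarith, Or.inl (by linarith)⟩
  · exact ⟨by linarith, by linarith, by linarith, Or.inl (by linarith)⟩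
  · exact ⟨by linarith, by linarith, by linarith, Or.inl (by linarith)⟩
  · exact ⟨by linarith, by linarith, by linarith, Or.inr y3⟩

/-- the inner arm (side `up`, radius `a₁`) misses the mid legs of the outer colour -/
theorem pvmv_arm₁_mid₂ (G : PvmvGeo Y u up z d l Δ Sn lam c₀) (N₁ : Pvge2Num a₁ t e₁ s₁ x₂ dl ρ e₀ b μ rs) (Nc : PvmvNum Δ dl a₀ b₀ u₀ s₀ tb wb ob c₀ t₁ c₁)
    (A₂ : PvmvArm Δ dl u₀ t₁ c₁ a₂ t e₁ s₁ x₂ t₂ Sn (-lam)) (hn : a₁ + t < a₂ - t) :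
    Disjoint (pvge2RC Y u up a₁ t e₁ s₁ ∪ pvge2RN Y u up a₁ t s₁ x₂) (pvkqRtR (pvmvMid Y u (!up) a₂ t x₂ (Sn - Δ * t₁) t₂ (-lam + Δ * u₀) a₀ b₀ u₀ tb wb ob c₀ c₁ z d l)) := by
  rw [Set.disjoint_left]
  intro v h1 h2
  obtain ⟨w1, w2, w3, w4⟩ := pvmv_arm_where N₁ A₂.he A₂.hs h1
  have c2 := pvmv_mid_cases G.flip Nc A₂ h2
  rw [pvge2_T_flip] at c2
  have q1 := A₂.bar; have q2 := A₂.capS; have hΔ := G.Δ0; have q3 := Nc.t1; have q4 := Nc.cap1; have q5 := Nc.s0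
  have q6 : 0 ≤ Δ * c₁ := mul_nonneg hΔ.le (by linarith)
  rcases c2 with ⟨y1, y2, y3⟩ | ⟨y1, y2, y3⟩ | ⟨y1, y2 | ⟨y2, y3⟩⟩ <;> linarith

/-- the outer arm (side `!up`, radius `a₂`) misses the mid legs of the inner colour -/
theorem pvmv_mid₁_arm₂ (G : PvmvGeo Y u up z d l Δ Sn lam c₀) (N₁ : Pvge2Num a₁ t e₁ s₁ x₂ dl ρ e₀ b μ rs) (N₂ : Pvge2Num a₂ t e₁ s₁ x₂ dl ρ e₀ b μ rs) (Nc : PvmvNum Δ dl a₀ b₀ u₀ s₀ tb wb ob c₀ t₁ c₁)
    (A₁ : PvmvArm Δ dl u₀ t₁ c₁ a₁ t e₁ s₁ x₂ t₂ Sn lam) :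
    Disjoint (pvkqRtR (pvmvMid Y u up a₁ t x₂ (Sn - Δ * t₁) t₂ (lam + Δ * u₀) a₀ b₀ u₀ tb wb ob c₀ c₁ z d l)) (pvge2RC Y u (!up) a₂ t e₁ s₁ ∪ pvge2RN Y u (!up) a₂ t s₁ x₂) := by
  rw [Set.disjoint_left]
  intro v h1 h2
  obtain ⟨w1, w2, w3, w4⟩ := pvmv_arm_where N₂ A₁.he A₁.hs h2
  rw [pvge2_T_flip] at w2 w3 w4
  have c1 := pvmv_mid_cases G Nc A₁ h1
  have q1 := A₁.bar; have q2 := A₁.capS; have hΔ := G.Δ0; have q3 := Nc.t1; have q4 := Nc.cap1; have q5 := Nc.s0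
  have q6 : 0 ≤ Δ * c₁ := mul_nonneg hΔ.le (by linarith)
  have r1 := N₁.strip; have r2 := N₁.bμ; have r3 := N₁.ρ0; have r4 := N₂.strip; have r5 := N₂.t0
  rcases c1 with ⟨y1, y2, y3⟩ | ⟨y1, y2, y3⟩ | ⟨y1, y2 | ⟨y2, y3⟩⟩
  · rcases w4 with w4 | w4 <;> linarith
  · linarith
  · linarith
  · linarith

/-- the two arms are disjoint -/
theorem pvmv_arms_disj (N₁ : Pvge2Num a₁ t e₁ s₁ x₂ dl ρ e₀ b μ rs) (hn : a₁ + t < a₂ - t) :
    Disjoint (pvge2RC Y u up a₁ t e₁ s₁ ∪ pvge2RN Y u up a₁ t s₁ x₂) (pvge2RC Y u (!up) a₂ t e₁ s₁ ∪ pvge2RN Y u (!up) a₂ t s₁ x₂) := by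
  have ha := N₁.a0; have ht := N₁.t0; have g3 := N₁.ρ0; have g7 := N₁.outN; have g8 := N₁.e0
  rw [Set.disjoint_left]
  simp only [pvge2RC, pvge2RN, pvge2_R_flip]
  rintro v (((⟨x1, x2, x3, x4⟩ | ⟨x1, x2, x3, x4⟩) | ⟨x1, x2, x3, x4⟩) | ⟨x1, x2, x3, x4⟩) (((⟨y1, y2, y3, y4⟩ | ⟨y1, y2, y3, y4⟩) | ⟨y1, y2, y3, y4⟩) | ⟨y1, y2, y3, y4⟩)
  all_goals linarith

theorem pvmv_RtR_append (ℓ ℓ' : List (Set ℂ × ℂ × ℂ)) : pvkqRtR (ℓ ++ ℓ') = pvkqRtR ℓ ∪ pvkqRtR ℓ' := by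
  ext v
  simp only [pvkqRtR, List.mem_append, mem_iUnion, mem_ofPred_eq, exists_prop, mem_union]
  constructor
  · rintro ⟨e, (he | he), hv⟩
    · exact Or.inl ⟨e, he, hv⟩
    · exact Or.inr ⟨e, he, hv⟩
  · rintro (⟨e, he, hv⟩ | ⟨e, he, hv⟩)
    · exact ⟨e, Or.inl he, hv⟩
    · exact ⟨e, Or.inr he, hv⟩

theorem pvmv_legsO_R (Y u : ℂ) (sd : Bool) (a t e₁ s₁ x₂ : ℝ) : pvkqRtR (pvge2LegsO Y u sd a t e₁ s₁ x₂) = pvge2RC Y u sd a t e₁ s₁ ∪ pvge2RN Y u sd a t s₁ x₂ := by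
  ext v
  simp only [pvkqRtR, pvge2LegsO, List.mem_cons, List.not_mem_nil, or_false, mem_iUnion, mem_ofPred_eq, exists_prop, mem_union]
  constructor
  · rintro ⟨e, (rfl | rfl), hv⟩
    · exact Or.inl hv
    · exact Or.inr hv
  · rintro (hv | hv)
    · exact ⟨_, Or.inl rfl, hv⟩
    · exact ⟨_, Or.inr rfl, hv⟩

/-- the region of the mid legs -/
theorem pvmv_mid_R (Y u : ℂ) (sd : Bool) (a t x₂ sb t₂ lb a₀ b₀ u₀ tb wb ob c₀ c₁ : ℝ) (z d : ℂ) (l : List PvtTurn) :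
    pvkqRtR (pvmvMid Y u sd a t x₂ sb t₂ lb a₀ b₀ u₀ tb wb ob c₀ c₁ z d l) = pvmvRH Y u sd a t x₂ sb t₂ ∪ pvmvRV Y u sd a t sb t₂ lb ∪ pvmvLeg (!sd) a₀ b₀ c₀ c₁ z d l ∪ pvmvBar (!sd) b₀ tb wb ob z d := by
  ext v
  simp only [pvkqRtR, pvmvMid, List.mem_cons, List.not_mem_nil, or_false, mem_iUnion, mem_ofPred_eq, exists_prop, mem_union]
  constructor
  · rintro ⟨e, (rfl | rfl | rfl | rfl), hv⟩
    · exact Or.inl (Or.inl (Or.inl hv))
    · exact Or.inl (Or.inl (Or.inr hv))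
    · exact Or.inl (Or.inr hv)
    · exact Or.inr hv
  · rintro (((hv | hv) | hv) | hv)
    · exact ⟨_, Or.inl rfl, hv⟩
    · exact ⟨_, Or.inr (Or.inl rfl), hv⟩
    · exact ⟨_, Or.inr (Or.inr (Or.inl rfl)), hv⟩
    · exact ⟨_, Or.inr (Or.inr (Or.inr rfl)), hv⟩

/-- **the size of the legs of one colour** -/
theorem pvmv_size (G : PvmvGeo Y u sd z d l Δ Sn lam c₀) (N : Pvge2Num a t e₁ s₁ x₂ dl ρ e₀ b μ rs) (Nc : PvmvNum Δ dl a₀ b₀ u₀ s₀ tb wb ob c₀ t₁ c₁) (A : PvmvArm Δ dl u₀ t₁ c₁ a t e₁ s₁ x₂ t₂ Sn lam)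
    {W : ℝ} (hW1 : Sn ≤ W) (hW2 : a + t ≤ W) (hW3 : -W ≤ lam) {M : ℕ} (hM1 : rs ≤ M * dl) (hM2 : 3 / 2 * W ≤ M * dl) (hM3 : (l.length + 3) * Δ ≤ M * dl) :
    ∀ e ∈ pvge2LegsO Y u sd a t e₁ s₁ x₂ ++ pvmvMid Y u sd a t x₂ (Sn - Δ * t₁) t₂ (lam + Δ * u₀) a₀ b₀ u₀ tb wb ob c₀ c₁ z d l, ∃ z0 : ℂ, e.1 ⊆ closedBall z0 (M * dl) := by
  have ha := N.a0; have ht := N.t0; have g3 := N.ρ0; have g6 := N.outS; have g8 := N.e0; have g2 := N.dl0
  have q1 := A.fr2; have q2 := A.t2u; have q3 := A.he; have q4 := A.bar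
  have n1 := Nc.gap; have n2 := Nc.ga; have n3 := Nc.b0; have n8 := Nc.ws; have n9 := Nc.cap0; have n10 := Nc.tbw
  have hball : ∀ v ∈ pvge2RC Y u sd a t e₁ s₁ ∪ pvge2RN Y u sd a t s₁ x₂, v ∈ closedBall Y rs := fun v hv => by
    rw [mem_closedBall_iff_norm]
    exact pvge2_arm_near G.hu N ⟨v, Or.inl hv, by rw [sub_self, norm_zero]; exact N.ρ0⟩
  have hside : pvmvSide (!sd) (ob - wb) b₀ z d l ⊆ closedBall (z - d) (M * dl) :=
    (pvmv_side_ball (!sd) n1.le n3.le z d l).trans (closedBall_subset_closedBall (by rw [G.hd]; exact hM3))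
  intro e he
  simp only [pvge2LegsO, pvmvMid, List.cons_append, List.nil_append, List.mem_cons, List.not_mem_nil, or_false] at he
  rcases he with rfl | rfl | rfl | rfl | rfl | rfl
  · exact ⟨Y, fun v hv => closedBall_subset_closedBall hM1 (hball v (Or.inl hv))⟩
  · exact ⟨Y, fun v hv => closedBall_subset_closedBall hM1 (hball v (Or.inr hv))⟩
  · exact ⟨Y, (pvge2_R_ball G.hu (b := W) (by linarith) (by linarith) (by linarith) (by linarith)).trans (closedBall_subset_closedBall hM2)⟩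
  · exact ⟨Y, (pvge2_R_ball G.hu (b := W) (by linarith) (by linarith) (by linarith) (by linarith)).trans (closedBall_subset_closedBall hM2)⟩
  · exact ⟨z - d, (pvmv_leg_side (!sd) n2 Nc.cap0' Nc.cap1' z d l).trans hside⟩
  · exact ⟨z - d, (pvmv_bar_side (!sd) (by have := Nc.cap0'; linarith) n10 z d l).trans hside⟩

end pair

/-- **THE PATTERN OF A THICK LINK**: colour `c` on the side `up` of the mouth (inner arm `a₁`), colour `!c` on the other side (outer arm `a₂`) -/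
noncomputable def pvmvPat (Y u : ℂ) (up c : Bool) (a₁ a₂ t e₁ s₁ x₂ sb t₂ lb₁ lb₂ a₀ b₀ u₀ tb wb ob c₀ c₁ : ℝ) (z d : ℂ) (l : List PvtTurn) : List (Bool × List (Set ℂ × ℂ × ℂ)) :=
  [(c, pvge2LegsO Y u up a₁ t e₁ s₁ x₂ ++ pvmvMid Y u up a₁ t x₂ sb t₂ lb₁ a₀ b₀ u₀ tb wb ob c₀ c₁ z d l),
   (!c, pvge2LegsO Y u (!up) a₂ t e₁ s₁ x₂ ++ pvmvMid Y u (!up) a₂ t x₂ sb t₂ lb₂ a₀ b₀ u₀ tb wb ob c₀ c₁ z d l)]

theorem pvmv_eqns_cite3 : True := by
  have := @pvmvPat.eq_1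
  trivial

section fit

variable {Y u : ℂ} {up : Bool} {z d : ℂ} {l : List PvtTurn} {Δ Sn lam dl a₀ b₀ u₀ s₀ tb wb ob c₀ t₁ c₁ a₁ a₂ t e₁ s₁ x₂ t₂ ρ e₀ b μ rs : ℝ}

/-- **THE PATTERN OF A THICK LINK FITS** (contract `PvkqFit` of `Tr/LinkQ`): `6` legs per colour; `M` depends only on the RATIOS `rs / dl`, `W / dl`, `Δ / dl` and on the number of blocks -/
theorem pvmv_fit (G : PvmvGeo Y u up z d l Δ Sn lam c₀) (N₁ : Pvge2Num a₁ t e₁ s₁ x₂ dl ρ e₀ b μ rs) (N₂ : Pvge2Num a₂ t e₁ s₁ x₂ dl ρ e₀ b μ rs) (Nc : PvmvNum Δ dl a₀ b₀ u₀ s₀ tb wb ob c₀ t₁ c₁)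
    (A₁ : PvmvArm Δ dl u₀ t₁ c₁ a₁ t e₁ s₁ x₂ t₂ Sn lam) (A₂ : PvmvArm Δ dl u₀ t₁ c₁ a₂ t e₁ s₁ x₂ t₂ Sn (-lam)) (hn : a₁ + t < a₂ - t) (c : Bool)
    {W : ℝ} (hW1 : Sn ≤ W) (hW2 : a₂ + t ≤ W) (hW3 : |lam| ≤ W) {M : ℕ} (hM1 : rs ≤ M * dl) (hM2 : 3 / 2 * W ≤ M * dl) (hM3 : (l.length + 3) * Δ ≤ M * dl) :
    PvkqFit dl M 6 (pvmvPat Y u up c a₁ a₂ t e₁ s₁ x₂ (Sn - Δ * t₁) t₂ (lam + Δ * u₀) (-lam + Δ * u₀) a₀ b₀ u₀ tb wb ob c₀ c₁ z d l) where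
  pos := N₁.dl0
  route := by
    intro x hx
    simp only [pvmvPat, List.mem_cons, List.not_mem_nil, or_false] at hx
    rcases hx with rfl | rfl
    · exact pvmv_route G N₁ Nc A₁
    · exact pvmv_route G.flip N₂ Nc A₂
  ne := by
    intro x hx
    simp only [pvmvPat, List.mem_cons, List.not_mem_nil, or_false] at hx
    rcases hx with rfl | rfl <;> simp [pvge2LegsO]
  legs := by
    intro x hx
    simp only [pvmvPat, List.mem_cons, List.not_mem_nil, or_false] at hx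
    rcases hx with rfl | rfl <;> simp [pvge2LegsO, pvmvMid]
  size := by
    have h3 := abs_le.1 hW3
    have ht := N₁.t0
    intro x hx
    simp only [pvmvPat, List.mem_cons, List.not_mem_nil, or_false] at hx
    rcases hx with rfl | rfl
    · exact pvmv_size G N₁ Nc A₁ hW1 (by linarith) h3.1 hM1 hM2 hM3
    · exact pvmv_size G.flip N₂ Nc A₂ hW1 hW2 (by linarith [h3.2]) hM1 hM2 hM3
  disj := by
    simp only [pvmvPat, List.pairwise_cons, List.mem_cons, List.not_mem_nil, or_false, forall_eq, IsEmpty.forall_iff, implies_true, List.Pairwise.nil, and_true]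
    rw [pvmv_RtR_append, pvmv_RtR_append, pvmv_legsO_R, pvmv_legsO_R]
    exact Disjoint.union_left (Disjoint.union_right (pvmv_arms_disj N₁ hn) (pvmv_arm₁_mid₂ G N₁ Nc A₂ hn)) (Disjoint.union_right (pvmv_mid₁_arm₂ G N₁ N₂ Nc A₁) (pvmv_mid_disj G Nc A₁ A₂))

end fit

end Claimed.Agent.R289
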