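-- KEEP
import Claimed.Agent.R289.Tr.LinkM
import Claimed.Agent.R289.Exit.ParEngR
import Claimed.Agent.R289.Exit.ParEng
import Claimed.Agent.R289.Exit.ParGeo
import Claimed.Agent.R289.Exit.EngU4

/-!
# Row 289 (S0537), THE WALL, ROAD E, E10 = LINK BOUND, file Tr/LinkME : THE PATTERN OF RECORD OF THE THICK LINK `e` (reference plug ⟹ entrance tip)      (helper21, pen of E10; prefix `pvmv_`, continuation of `Tr/LinkM`)

`Tr/LinkM` (model free: `pvmv_fit`, `PvmvGeo`, `PvmvNum`, `PvmvArm`) × `Exit/ParEngR` (166: words `pvxrLe`, blocks `pvehZ pvehBody`, side `pvehDl`) × `Exit/ParEng` (124: frames `pvegYm`, regions `pvegIM pvegIK`).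

* sec. 1  the words of record: `pvmv_simple_le`, `pvmv_back_le`, `pvmv_len_le` (decided on the four words);
* sec. 2  the blocks of record in the frame of the mouth: `pvmv_geo_e : PvmvGeo …` (last door of the corridor = front door of the mouth);
* sec. 3  THE NUMBERS OF RECORD `PvmvRec r Δ ρ b μ Sc lam`, `pvmv_num_rec`, the pattern `pvmvPatRec`, `pvmv_rec_fit : PvkqFit (Δ/512) 8704 6 _`, `pvmv_rec_win` (window);
* sec. 4  measurability of the window: `pvmv_pat_meas`;   at the model `pvmv_meas_e`, `pvmv_patE_len`;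
* sec. 5  AT THE MODEL: `pvmvPatE 𝔓 m zc t up cl`, `pvmv_rec_e`, `pvmv_geo_model`,
  **`pvmv_fit_e (h : PvxrNdg 𝔓 m t) : PvkqFit (pvehDl 𝔓 m / 512) 8704 6 (pvmvPatE 𝔓 m zc t up cl)`**,
  **`pvmv_win_e (h) (hΓ : 𝔓.Γ m = pvxrGam 𝔓 m) : pvkqPatR (pvmvPatE …) ⊆ pvieSh zc (pvegIM 𝔓 m t) ∪ pvieSh zc (pveheK 𝔓 (pvegIM 𝔓) m t ∪ pvegIK 𝔓 m t ∪ pvieSh zu (pvmvAnE 𝔓 m))`** = (recoloured mouth) ∪ (resampled region `eK` of the engine v3 = U4 of R23 (2): old tile ∪ east annulus; `pvmv_AnE_sub`);   **`pvmv_win_u4 (h) (hΓ) : pvkqPatR (pvmvPatE …) ⊆ pvieSh zc (pvegIM 𝔓 m t) ∪ pvieSh zc (pvnuEK 𝔓 m t)`** (names of 84).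
* sec. 6  THE DATA OF DET, relative colour `β` (`true` = colour of the strand = side `!β = false`): `pvmvDC pvmvDN pvmvDT pvmvDD 𝔓 m zc t β` (`eC eN tt eD` of `PvhuLayD`), `pvmvDLb`;   **`pvmv_d_mem`** (field `mem` of `PvetDet`), **`pvmv_d_route`**, **`pvmv_d_leg`** (fields `route`, `leg` of `PvhuLayD`).
SIDES: at the plug the colour `col t` runs on the LEFT of the direction of travel (offsets `> 0`), i.e. on the side `false` of the frame `(Y⁻, I ^ B)` of the entrance mouth: THE PATTERN OF `(z, t)` IS `pvmvPatE 𝔓 m z t false (𝔓.col t)`.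
-/

set_option autoImplicit false
set_option linter.unusedSectionVars false
set_option linter.unusedVariables false

namespace Claimed.Agent.R289

open Set Metric Complex

/-! ## 1. the words of record -/

theorem pvmv_simple_le (b : ℕ) : PvccSimple (pvmvX (pvxrLe b)) (pvmvX (pvxrLe b)).length := by
  rcases pveh_le_cases b with h | h | h | h <;> (rw [h]; exact pvcc_simple_of_int (by decide))

/-- decidable criterion: no cell of the word is the cell behind the first door -/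
theorem pvmv_back_of_int {l : List PvtTurn} (h : ∀ k < l.length, pvccAccI (1, 0) (l.take k) ≠ (-1, 0)) : ∀ k, k < l.length → pvccC 0 1 l k ≠ -(1 / 2) := by
  intro k hk e
  refine h k hk (pvtZ_injective ?_)
  have h1 : pvtZ (1, 0) = 1 := by simp [pvtZ]
  have h2 : pvtZ (-1, 0) = -1 := by simp [pvtZ]
  rw [pvccAccI_eq, h1, h2]
  rw [pvccC_eq] at e
  linear_combination e

theorem pvmv_back_le (b : ℕ) : ∀ k, k < (pvmvX (pvxrLe b)).length → pvccC 0 1 (pvmvX (pvxrLe b)) k ≠ -(1 / 2) := by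
  rcases pveh_le_cases b with h | h | h | h <;> (rw [h]; exact pvmv_back_of_int (by decide))

theorem pvmv_len_le (b : ℕ) : 0 < (pvxrLe b).length ∧ (pvxrLe b).length ≤ 14 := by
  rcases pveh_le_cases b with h | h | h | h <;> (rw [h]; decide)

/-! ## 2. the blocks of record in the frame of the mouth -/

theorem pvmv_front_eq (b : ℕ) (w : ℂ) : pvehFront b w = (w * (starRingEnd ℂ) (I ^ b)).re := by
  have h : b % 4 = 0 ∨ b % 4 = 1 ∨ b % 4 = 2 ∨ b % 4 = 3 := by omega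
  have hb : (I : ℂ) ^ b = I ^ (b % 4) := by
    conv_lhs => rw [← Nat.div_add_mod b 4, pow_add, pow_mul, Complex.I_pow_four, one_pow, one_mul]
  rw [hb]
  rcases h with h | h | h | h <;> simp [pvehFront, h, pow_succ]

theorem pvmv_norm_I (b : ℕ) : ‖(I : ℂ) ^ b‖ = 1 := by rw [norm_pow, Complex.norm_I, one_pow]

/-- every point is given by its coordinates -/
theorem pvmv_P_of {u : ℂ} (hu : ‖u‖ = 1) (Y : ℂ) (sd : Bool) (v : ℂ) : pvge2P Y u sd (pvge2S Y u v) (pvge2T Y u sd v) = v := by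
  have hc := pvge2_u_conj hu
  have h2 : ((pvge2Sg sd : ℝ) : ℂ) * ((pvge2Sg sd : ℝ) : ℂ) = 1 := by exact_mod_cast pvge2_sg_sq sd
  unfold pvge2P pvge2S pvge2T
  have e : (((v - Y) * (starRingEnd ℂ) u).re : ℂ) + (((v - Y) * (starRingEnd ℂ) u).im : ℂ) * I = (v - Y) * (starRingEnd ℂ) u := Complex.re_add_im _
  push_cast
  linear_combination u * e + (v - Y) * hc + (u * (((v - Y) * (starRingEnd ℂ) u).im : ℂ) * I) * h2

theorem pvmv_P_shift (Y u : ℂ) (sd : Bool) (s l a : ℝ) : pvge2P Y u sd (s - a) l = pvge2P Y u sd s l - (a : ℂ) * u := by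
  unfold pvge2P
  push_cast
  ring

/-- the last door of the blocks of record: the inner side of the block centred at `ce` -/
theorem pvmv_last_door (Δ : ℝ) (ce : ℂ) (b : ℕ) :
    pvccZ (pvehZ Δ (ce + (Δ : ℂ) * pvtZ (pvxrUo b 1))) (Δ : ℂ) (pvxrLe b) (pvxrLe b).length = ce - ((Δ / 2 : ℝ) : ℂ) * I ^ b := by
  obtain ⟨n, hn⟩ : ∃ n, n + 1 = (pvxrLe b).length := ⟨(pvxrLe b).length - 1, by have := (pvmv_len_le b).1; omega⟩
  have h1 := pvccC_prev (pvehZ Δ (ce + (Δ : ℂ) * pvtZ (pvxrUo b 1))) (Δ : ℂ) (pvxrLe b) (j := n) (by omega)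
  rw [hn, pvccD_length, pvtDir_eq_mul_one, pveh_dir_le, pveh_C_eq] at h1
  have h2 := pveh_last b 1
  rw [one_smul, show (pvxrLe b).length - 1 = n by omega] at h2
  have h3 : pvtZ (pvxrUo b 1) + pvtZ (pvehV (pvxrLe b) n) = 0 := by
    rw [← pvtZ_add, h2]; simp [pvtZ]
  push_cast
  linear_combination h1 + (Δ : ℂ) * h3

/-- the lanes of the blocks lie in the body -/
theorem pvmv_lanes_body {Δ : ℝ} (hΔ : 0 < Δ) (cu : ℂ) (lb : List PvtTurn) {a b : ℝ} (ha : -(1 / 2) ≤ a) (hb : b ≤ 1 / 2) : pvfeLanes a b (pvehZ Δ cu) (Δ : ℂ) lb ⊆ pvehBody Δ cu lb := by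
  intro w hw
  obtain ⟨j, hj, hwj⟩ := mem_iUnion₂.1 hw
  exact Or.inr (mem_iUnion₂.2 ⟨j, hj, pveh_lane_sub hΔ cu lb j ha hb hwj⟩)

/-- coordinates of a point behind the first door -/
theorem pvmv_cap_coord (Δ : ℝ) (cu v : ℂ) : (pvehZ Δ cu + (Δ : ℂ) * v).re = cu.re + Δ / 2 + Δ * v.re ∧ (pvehZ Δ cu + (Δ : ℂ) * v).im = cu.im + Δ * v.im := by
  unfold pvehZ
  constructor <;> simp

/-- a rectangle behind the first door lies in the east half of the block of the plug, off the open square of the plug -/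
theorem pvmv_cap_east {Δ : ℝ} (hΔ : 0 < Δ) (cu : ℂ) {q x₀ x₁ y₀ y₁ : ℝ} (hq0 : 0 ≤ q) (h0 : q - 1 / 2 ≤ x₀) (h1 : x₁ ≤ 0) (h2 : -(1 / 2) ≤ y₀) (h3 : y₁ ≤ 1 / 2) :
    pvccPl (pvehZ Δ cu) (Δ : ℂ) (pvljRect x₀ x₁ y₀ y₁) ⊆ pvehEast Δ cu \ pvccSq cu (q * Δ) := by
  rintro _ ⟨v, ⟨a1, a2, a3, a4⟩, rfl⟩
  obtain ⟨e1, e2⟩ := pvmv_cap_coord Δ cu v
  refine ⟨⟨?_, ?_⟩, ?_⟩
  · rw [pveh_mem_sq]
    show (_ ≤ (pvehZ Δ cu + (Δ : ℂ) * v).re ∧ (pvehZ Δ cu + (Δ : ℂ) * v).re ≤ _) ∧ _ ≤ (pvehZ Δ cu + (Δ : ℂ) * v).im ∧ (pvehZ Δ cu + (Δ : ℂ) * v).im ≤ _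
    rw [e1, e2]
    refine ⟨⟨?_, ?_⟩, ?_, ?_⟩ <;> nlinarith
  · show cu.re ≤ (pvehZ Δ cu + (Δ : ℂ) * v).re
    rw [e1]; nlinarith
  · intro hq
    have hq' : pvccN (pvehZ Δ cu + (Δ : ℂ) * v - cu) < q * Δ := hq
    have h5 : |(pvehZ Δ cu + (Δ : ℂ) * v - cu).re| ≤ pvccN (pvehZ Δ cu + (Δ : ℂ) * v - cu) := le_max_left _ _
    rw [sub_re, e1] at h5
    have h6 := le_abs_self (cu.re + Δ / 2 + Δ * v.re - cu.re)
    nlinarith

/-- the blocks miss the open square of the plug -/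
theorem pvmv_lanes_off {Δ : ℝ} (hΔ : 0 < Δ) (cu : ℂ) {lb : List PvtTurn} (hW : PvehW lb) {a b : ℝ} (ha : -(1 / 2) ≤ a) (hb : b ≤ 1 / 2) :
    pvfeLanes a b (pvehZ Δ cu) (Δ : ℂ) lb ⊆ pvehBody Δ cu lb \ pvccSq cu (Δ / 4) := by
  intro w hw
  refine ⟨pvmv_lanes_body hΔ cu lb ha hb hw, fun hq => ?_⟩
  obtain ⟨j, hj, hwj⟩ := mem_iUnion₂.1 hw
  have hB := pveh_lane_sub hΔ cu lb j ha hb hwj
  have hq' : pvccN (w - cu) < Δ / 4 := hq
  rcases hW j (Finset.mem_range.1 hj) with h | h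
  · unfold pvehB at hB
    rw [pveh_C_eq, h, pveh_mem_sq] at hB
    have e1 : (cu + (Δ : ℂ) * pvtZ (1, 0)).re = cu.re + Δ := by simp [pvtZ]
    rw [e1] at hB
    have h5 : |(w - cu).re| ≤ pvccN (w - cu) := le_max_left _ _
    rw [sub_re] at h5
    have h6 := le_abs_self (w.re - cu.re)
    linarith [hB.1.1]
  · exact Set.disjoint_left.1 (pveh_B_far hΔ cu h) (pveh_sq_mono cu (by linarith) (pveh_open_sub cu (Δ / 4) hq)) hB

/-- **THE GEOMETRY OF THE THICK LINK `e`**: mouth `(Y, I ^ b)`, blocks of side `Δ` of the word `pvxrLe b`, last block centred at `ce` -/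
theorem pvmv_geo_e {Δ : ℝ} (hΔ : 0 < Δ) (Y ce : ℂ) (b : ℕ) (sd : Bool) :
    PvmvGeo Y (I ^ b) sd (pvehZ Δ (ce + (Δ : ℂ) * pvtZ (pvxrUo b 1))) (Δ : ℂ) (pvxrLe b) Δ (pvge2S Y (I ^ b) ce - Δ / 2) (pvge2T Y (I ^ b) sd ce) (21 / 64) where
  hu := pvmv_norm_I b
  hl := (pvmv_len_le b).1
  Δ0 := hΔ
  hd := by rw [Complex.norm_real, Real.norm_eq_abs, abs_of_pos hΔ]
  hD := by rw [pvccD_length, pvtDir_eq_mul_one, pveh_dir_le]; ring
  hZ := by rw [pvmv_last_door, pvmv_P_shift, pvmv_P_of (pvmv_norm_I b)]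
  simple := pvmv_simple_le b
  back := pvmv_back_le b
  front := by
    intro w hw
    have hB : w ∈ pvehBody Δ (ce + (Δ : ℂ) * pvtZ (pvxrUo b 1)) (pvxrLe b) := by
      rcases hw with hw | hw
      · exact pvmv_lanes_body hΔ _ _ le_rfl le_rfl hw
      · exact Or.inl (pvmv_cap_east hΔ _ (q := 11 / 64) (by norm_num) (by norm_num) le_rfl le_rfl le_rfl hw).1
    have h1 := pveh_body_front hΔ ce b (Or.inr hB)
    rw [pvmv_front_eq, pvmv_front_eq] at h1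
    unfold pvge2S
    rw [sub_mul, sub_mul, sub_re, sub_re]
    linarith

/-! ## 3. THE NUMBERS OF RECORD      (`r = ρ h`, `Δ` = side of the blocks, `r/16 ≤ Δ ≤ r/14`;   mesh of the pattern grid `dl = Δ / 512`;   unit of the reference plug `u = Δ/20` (31; U4 of R23): region `13 Δ/80`, rooms of the half lanes `[Δ/40, 3Δ/40]`, targets `[Δ/5, Δ/4]`) -/

/-- **the data of the mouth of a thick link**: `ρ` = mesh of the sites, `b` = the tip face lies in `|l| ≤ b`, `μ` = length of the edges, `(Sc, lam)` = coordinates of the centre of the last block in the frame of the mouth -/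
structure PvmvRec (r Δ ρ b μ Sc lam : ℝ) : Prop where
  r0 : 0 < r
  Δlo : r ≤ 16 * Δ
  Δhi : 14 * Δ ≤ r
  ρ0 : 0 ≤ ρ
  ρ1 : 1000 * ρ ≤ r
  bμ0 : 0 ≤ b + μ
  bμ : b + μ ≤ r / 8
  s_lo : 3 * r / 8 - r / 1000 ≤ Sc
  s_hi : Sc ≤ 3 * r / 8 + r / 1000
  lat : |lam| ≤ r / 1000

section record

variable {Y u : ℂ} {up : Bool} {z d : ℂ} {l : List PvtTurn} {r Δ ρ b μ Sc lam : ℝ}

theorem PvmvRec.flip (R : PvmvRec r Δ ρ b μ Sc lam) : PvmvRec r Δ ρ b μ Sc (-lam) :=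
  { R with lat := by rw [abs_neg]; exact R.lat }

theorem PvmvRec.Δ0 (R : PvmvRec r Δ ρ b μ Sc lam) : 0 < Δ := by have := R.r0; have := R.Δlo; linarith

theorem pvmv_sq_aux {x y A B r : ℝ} (hx0 : 0 ≤ x) (hy0 : 0 ≤ y) (hx : x ≤ A * r) (hy : y ≤ B * r) (hAB : A ^ 2 + B ^ 2 ≤ 1 / 16) : x ^ 2 + y ^ 2 ≤ (r / 4) ^ 2 := by
  have h1 : x ^ 2 ≤ (A * r) ^ 2 := pow_le_pow_left₀ hx0 hx 2
  have h2 : y ^ 2 ≤ (B * r) ^ 2 := pow_le_pow_left₀ hy0 hy 2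
  have h3 : (A * r) ^ 2 + (B * r) ^ 2 = (A ^ 2 + B ^ 2) * r ^ 2 := by ring
  have h4 : (A ^ 2 + B ^ 2) * r ^ 2 ≤ 1 / 16 * r ^ 2 := mul_le_mul_of_nonneg_right hAB (sq_nonneg r)
  have h5 : (r / 4) ^ 2 = 1 / 16 * r ^ 2 := by ring
  linarith

/-- the inner arm of 298 (`a = 27 r / 200`) at the mesh of the thick link -/
theorem PvmvRec.num₁ (R : PvmvRec r Δ ρ b μ Sc lam) : Pvge2Num (27 * r / 200) (r / 200) (23 * r / 200) (23 * r / 200) (3 * r / 20) (Δ / 512) ρ (r / 10) b μ (r / 4) := by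
  have h1 := R.r0; have h2 := R.Δ0; have h3 := R.Δhi; have h5 := R.ρ0; have h6 := R.ρ1; have h7 := R.bμ
  refine ⟨by linarith, by linarith, h5, by linarith, R.bμ0, by linarith, by linarith, by linarith, by linarith, by linarith, by linarith, by linarith, ?_, ?_⟩
  · exact pvmv_sq_aux (A := 83 / 500) (B := 83 / 500) (by linarith) (by linarith) (by linarith) (by linarith) (by norm_num)
  · exact pvmv_sq_aux (A := 83 / 500) (B := 83 / 500) (by linarith) (by linarith) (by linarith) (by linarith) (by norm_num)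

/-- the outer arm of 298 (`a = 4 r / 25`) -/
theorem PvmvRec.num₂ (R : PvmvRec r Δ ρ b μ Sc lam) : Pvge2Num (4 * r / 25) (r / 200) (23 * r / 200) (23 * r / 200) (3 * r / 20) (Δ / 512) ρ (r / 10) b μ (r / 4) := by
  have h1 := R.r0; have h2 := R.Δ0; have h3 := R.Δhi; have h5 := R.ρ0; have h6 := R.ρ1; have h7 := R.bμ
  refine ⟨by linarith, by linarith, h5, by linarith, R.bμ0, by linarith, by linarith, by linarith, by linarith, by linarith, by linarith, by linarith, ?_, ?_⟩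
  · exact pvmv_sq_aux (A := 83 / 500) (B := 83 / 500) (by linarith) (by linarith) (by linarith) (by linarith) (by norm_num)
  · exact pvmv_sq_aux (A := 83 / 500) (B := 83 / 500) (by linarith) (by linarith) (by linarith) (by linarith) (by norm_num)

/-- **the corridor part**: lanes `[19/256, 23/256]`, line `21/256`, core `1/128` (v2, numerals of 165: margin `5.2 dl` to the edge `1/10` of the room `eY`, first way point `3.6 dl` beyond the room `[1/40, 3/40]` of the plug);   bar in front of the plug (v3, R23 (2) of 234 = HOOK-u: the lanes of record of the plug are TRUNCATED, targets `[4u, 5u]`, `u = Δ/20`, region `rO = 13u/4`: the bar stands in the zone `(13u/4, 4u) = (83.2 dl, 102.4 dl)`): abscissa `- 51/160` (`= 29 Δ/160 = 92.8 dl` from the centre of the plug), half thickness `1/128 = 4 dl`, inner end `1/100`;   caps `21/64` (the pattern starts `11 Δ/64 = 88 dl` from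 the centre of the plug), `51/100` -/
theorem pvmv_num_rec {Δ : ℝ} (hΔ : 0 < Δ) : PvmvNum Δ (Δ / 512) (19 / 256) (23 / 256) (21 / 256) (1 / 128) (51 / 160) (1 / 128) (1 / 100) (21 / 64) (1 / 2) (51 / 100) := by
  refine ⟨by linarith, ?_, ?_, ?_, ?_, ?_, ?_, by linarith, ?_, by linarith, ?_, ?_, ?_, ?_, ?_, ?_, ?_, ?_⟩ <;> norm_num

theorem PvmvRec.arm₁ (R : PvmvRec r Δ ρ b μ Sc lam) : PvmvArm Δ (Δ / 512) (21 / 256) (1 / 2) (51 / 100) (27 * r / 200) (r / 200) (23 * r / 200) (23 * r / 200) (3 * r / 20) (Δ / 100) (Sc - Δ / 2) lam := by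
  have h1 := R.r0; have h2 := R.Δ0; have h3 := R.Δhi; have h8 := R.s_lo; have h9 := abs_le.1 R.lat
  exact ⟨by linarith, by linarith, by linarith, by linarith, by linarith, by linarith, by linarith, by linarith [h9.2], by linarith [h9.2]⟩

theorem PvmvRec.arm₂ (R : PvmvRec r Δ ρ b μ Sc lam) : PvmvArm Δ (Δ / 512) (21 / 256) (1 / 2) (51 / 100) (4 * r / 25) (r / 200) (23 * r / 200) (23 * r / 200) (3 * r / 20) (Δ / 100) (Sc - Δ / 2) lam := by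
  have h1 := R.r0; have h2 := R.Δ0; have h3 := R.Δhi; have h8 := R.s_lo; have h9 := abs_le.1 R.lat
  exact ⟨by linarith, by linarith, by linarith, by linarith, by linarith, by linarith, by linarith, by linarith [h9.2], by linarith [h9.2]⟩

end record

/-- **THE PATTERN OF RECORD OF A THICK LINK**: colour `c` on the side `up` of the mouth -/
noncomputable def pvmvPatRec (Y u : ℂ) (up c : Bool) (r Δ Sc lam : ℝ) (z d : ℂ) (l : List PvtTurn) : List (Bool × List (Set ℂ × ℂ × ℂ)) :=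
  pvmvPat Y u up c (27 * r / 200) (4 * r / 25) (r / 200) (23 * r / 200) (23 * r / 200) (3 * r / 20) (Sc - Δ / 2 - Δ * (1 / 2)) (Δ / 100) (lam + Δ * (21 / 256)) (-lam + Δ * (21 / 256))
    (19 / 256) (23 / 256) (21 / 256) (51 / 160) (1 / 128) (1 / 100) (21 / 64) (51 / 100) z d l

theorem pvmv_eqns_cite4 : True := by
  have := @pvmvPatRec.eq_1
  trivial

section recfit

variable {Y u : ℂ} {up : Bool} {z d : ℂ} {l : List PvtTurn} {r Δ ρ b μ Sc lam : ℝ}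

/-- **THE PATTERN OF RECORD FITS, WITH CONSTANTS FREE OF THE LEVEL**: mesh `Δ/512`, `M = 8704`, `6` legs -/
theorem pvmv_rec_fit (G : PvmvGeo Y u up z d l Δ (Sc - Δ / 2) lam (21 / 64)) (R : PvmvRec r Δ ρ b μ Sc lam) (hl : l.length ≤ 14) (c : Bool) :
    PvkqFit (Δ / 512) 8704 6 (pvmvPatRec Y u up c r Δ Sc lam z d l) := by
  have h1 := R.r0; have h2 := R.Δ0; have h3 := R.Δhi; have h4 := R.Δlo; have h8 := R.s_hi; have h9 := R.lat
  have hl' : (l.length : ℝ) ≤ 14 := by exact_mod_cast hl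
  refine pvmv_fit G R.num₁ R.num₂ (pvmv_num_rec h2) R.arm₁ R.flip.arm₂ (by linarith) c (W := r / 2) (by linarith) (by linarith) (by linarith) ?_ ?_ ?_
  · push_cast; linarith
  · push_cast; linarith
  · push_cast; nlinarith

/-- **THE WINDOW OF THE PATTERN OF RECORD**: small mouth `∪` a rectangle of the funnel `∪` lanes of offsets `[-23/256, 23/256]` of the blocks `∪` the same lane in the block of the plug, from the side of the region of the plug -/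
theorem pvmv_rec_win (G : PvmvGeo Y u up z d l Δ (Sc - Δ / 2) lam (21 / 64)) (R : PvmvRec r Δ ρ b μ Sc lam) (c : Bool) :
    pvkqPatR (pvmvPatRec Y u up c r Δ Sc lam z d l) ⊆ closedBall Y (r / 4) ∪ pvge2R Y u up (29 * r / 200) (Sc - Δ / 2) (-(33 * r / 200)) (33 * r / 200) ∪
      (pvfeLanes (-(23 / 256)) (23 / 256) z d l ∪ pvccPl z d (pvljRect (-(21 / 64)) 0 (-(23 / 256)) (23 / 256))) := by
  have h1 := R.r0; have h2 := R.Δ0; have h3 := R.Δhi; have h4 := R.Δlo; have h8 := R.s_lo; have h9 := abs_le.1 R.lat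
  have hball : ∀ (sd : Bool) (a : ℝ), Pvge2Num a (r / 200) (23 * r / 200) (23 * r / 200) (3 * r / 20) (Δ / 512) ρ (r / 10) b μ (r / 4) →
      pvge2RC Y u sd a (r / 200) (23 * r / 200) (23 * r / 200) ∪ pvge2RN Y u sd a (r / 200) (23 * r / 200) (3 * r / 20) ⊆ closedBall Y (r / 4) := fun sd a N v hv => by
    rw [mem_closedBall_iff_norm]
    exact pvge2_arm_near G.hu N ⟨v, Or.inl hv, by rw [sub_self, norm_zero]; exact N.ρ0⟩
  have lo : ∀ (sd : Bool) (g : ℝ), 0 ≤ g → -(23 / 256) ≤ pvmvLo sd g (23 / 256) := fun sd g hg => by cases sd <;> simp only [pvmvLo, if_true, Bool.false_eq_true, if_false] <;> linarith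
  have hi : ∀ (sd : Bool) (g : ℝ), 0 ≤ g → pvmvHi sd g (23 / 256) ≤ 23 / 256 := fun sd g hg => by cases sd <;> simp only [pvmvHi, if_true, Bool.false_eq_true, if_false] <;> linarith
  -- the corridor pieces of one colour
  have hcor : ∀ (sd : Bool) (lm : ℝ), PvmvGeo Y u sd z d l Δ (Sc - Δ / 2) lm (21 / 64) → |lm| ≤ r / 1000 → ∀ v, v ∈ pvmvLeg (!sd) (19 / 256) (23 / 256) (21 / 64) (51 / 100) z d l ∪ pvmvBar (!sd) (23 / 256) (51 / 160) (1 / 128) (1 / 100) z d →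
      (29 * r / 200 ≤ pvge2S Y u v ∧ pvge2S Y u v ≤ Sc - Δ / 2 ∧ 0 ≤ pvge2T Y u sd v ∧ pvge2T Y u sd v ≤ 33 * r / 200) ∨
        v ∈ pvfeLanes (-(23 / 256)) (23 / 256) z d l ∪ pvccPl z d (pvljRect (-(21 / 64)) 0 (-(23 / 256)) (23 / 256)) := by
    intro sd lm G' hlm v hv
    have hl9 := abs_le.1 hlm
    rcases hv with ((hv | hv) | hv) | hv
    · exact Or.inr (Or.inr (pvccPl_mono _ _ (pvlj_rect_mono le_rfl le_rfl (lo _ _ (by norm_num)) (hi _ _ (by norm_num))) hv))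
    · exact Or.inr (Or.inl (pvlj_lanes_mono (lo _ _ (by norm_num)) (hi _ _ (by norm_num)) _ _ _ hv))
    · obtain ⟨q1, q2, q3, q4⟩ := G'.cap hv
      exact Or.inl ⟨by linarith, by linarith, by linarith [hl9.1], by linarith [hl9.2]⟩
    · exact Or.inr (Or.inr (pvccPl_mono _ _ (pvlj_rect_mono (by norm_num) (by norm_num) (lo _ _ (by norm_num)) (hi _ _ (by norm_num))) hv))
  intro v hv
  simp only [pvkqPatR, pvmvPatRec, pvmvPat, List.mem_cons, List.not_mem_nil, or_false, mem_iUnion, mem_ofPred_eq, exists_prop] at hv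
  obtain ⟨x, (rfl | rfl), hv⟩ := hv
  · rw [pvmv_RtR_append, pvmv_legsO_R, pvmv_mid_R] at hv
    rcases hv with hv | (((hv | hv) | hv) | hv)
    · exact Or.inl (Or.inl (hball _ _ R.num₁ hv))
    · exact Or.inl (Or.inr (pvge2_R_mono (by linarith) (by linarith) (by linarith) (by linarith) hv))
    · exact Or.inl (Or.inr (pvge2_R_mono (by linarith) (by linarith) (by linarith [h9.1]) (by linarith) hv))
    · rcases hcor up lam G R.lat v (Or.inl hv) with ⟨q1, q2, q3, q4⟩ | h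
      · exact Or.inl (Or.inr ⟨q1, q2, by linarith, q4⟩)
      · exact Or.inr h
    · rcases hcor up lam G R.lat v (Or.inr hv) with ⟨q1, q2, q3, q4⟩ | h
      · exact Or.inl (Or.inr ⟨q1, q2, by linarith, q4⟩)
      · exact Or.inr h
  · rw [pvmv_RtR_append, pvmv_legsO_R, pvmv_mid_R] at hv
    rcases hv with hv | (((hv | hv) | hv) | hv)
    · exact Or.inl (Or.inl (hball _ _ R.num₂ hv))
    · unfold pvmvRH at hv
      rw [pvge2_R_flip] at hv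
      exact Or.inl (Or.inr (pvge2_R_mono (by linarith) (by linarith) (by linarith) (by linarith) hv))
    · unfold pvmvRV at hv
      rw [pvge2_R_flip] at hv
      exact Or.inl (Or.inr (pvge2_R_mono (by linarith) (by linarith) (by linarith) (by linarith [h9.2]) hv))
    · rcases hcor (!up) (-lam) G.flip R.flip.lat v (Or.inl hv) with ⟨q1, q2, q3, q4⟩ | h
      · rw [pvge2_T_flip] at q3 q4
        exact Or.inl (Or.inr ⟨q1, q2, by linarith, by linarith⟩)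
      · exact Or.inr h
    · rcases hcor (!up) (-lam) G.flip R.flip.lat v (Or.inr hv) with ⟨q1, q2, q3, q4⟩ | h
      · rw [pvge2_T_flip] at q3 q4
        exact Or.inl (Or.inr ⟨q1, q2, by linarith, by linarith⟩)
      · exact Or.inr h

end recfit

/-! ## 4. measurability of the window -/

theorem pvmv_rect_closed (x₀ x₁ y₀ y₁ : ℝ) : IsClosed (pvljRect x₀ x₁ y₀ y₁) := by
  have : pvljRect x₀ x₁ y₀ y₁ = {w : ℂ | x₀ ≤ w.re} ∩ {w : ℂ | w.re ≤ x₁} ∩ {w : ℂ | y₀ ≤ w.im} ∩ {w : ℂ | w.im ≤ y₁} := by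
    ext w
    simp only [pvljRect, mem_ofPred_eq, mem_inter_iff]
    tauto
  rw [this]
  exact (((isClosed_le continuous_const continuous_re).inter (isClosed_le continuous_re continuous_const)).inter (isClosed_le continuous_const continuous_im)).inter (isClosed_le continuous_im continuous_const)

theorem pvmv_leg_meas (pos : Bool) (a₀ b₀ c₀ c₁ : ℝ) (z : ℂ) {d : ℂ} (hd : d ≠ 0) (l : List PvtTurn) : MeasurableSet (pvmvLeg pos a₀ b₀ c₀ c₁ z d l) :=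
  (((pvlj_pl_closed z hd (pvmv_rect_closed _ _ _ _)).union (pvlj_lanes_closed _ _ z hd l)).union (pvlj_pl_closed _ (pvlj_D_ne hd l _) (pvmv_rect_closed _ _ _ _))).measurableSet

theorem pvmv_bar_meas (pos : Bool) (b₀ tb wb ob : ℝ) (z : ℂ) {d : ℂ} (hd : d ≠ 0) : MeasurableSet (pvmvBar pos b₀ tb wb ob z d) := (pvlj_pl_closed z hd (pvmv_rect_closed _ _ _ _)).measurableSet

/-- the window of the pattern of a thick link is Borel -/
theorem pvmv_pat_meas (Y u : ℂ) (up c : Bool) (a₁ a₂ t e₁ s₁ x₂ sb t₂ lb₁ lb₂ a₀ b₀ u₀ tb wb ob c₀ c₁ : ℝ) (z : ℂ) {d : ℂ} (hd : d ≠ 0) (l : List PvtTurn) :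
    MeasurableSet (pvkqPatR (pvmvPat Y u up c a₁ a₂ t e₁ s₁ x₂ sb t₂ lb₁ lb₂ a₀ b₀ u₀ tb wb ob c₀ c₁ z d l)) := by
  have one : ∀ (sd : Bool) (a lb : ℝ), MeasurableSet (pvkqRtR (pvge2LegsO Y u sd a t e₁ s₁ x₂ ++ pvmvMid Y u sd a t x₂ sb t₂ lb a₀ b₀ u₀ tb wb ob c₀ c₁ z d l)) := by
    intro sd a lb
    rw [pvmv_RtR_append, pvmv_legsO_R, pvmv_mid_R]
    exact ((((pvge2_R_meas _ _ _ _ _ _ _).union (pvge2_R_meas _ _ _ _ _ _ _)).union (pvge2_R_meas _ _ _ _ _ _ _)).union (pvge2_R_meas _ _ _ _ _ _ _)).union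
      ((((pvge2_R_meas _ _ _ _ _ _ _).union (pvge2_R_meas _ _ _ _ _ _ _)).union (pvmv_leg_meas _ _ _ _ _ z hd l)).union (pvmv_bar_meas _ _ _ _ _ z hd))
  have e : pvkqPatR (pvmvPat Y u up c a₁ a₂ t e₁ s₁ x₂ sb t₂ lb₁ lb₂ a₀ b₀ u₀ tb wb ob c₀ c₁ z d l) =
      pvkqRtR (pvge2LegsO Y u up a₁ t e₁ s₁ x₂ ++ pvmvMid Y u up a₁ t x₂ sb t₂ lb₁ a₀ b₀ u₀ tb wb ob c₀ c₁ z d l) ∪
        pvkqRtR (pvge2LegsO Y u (!up) a₂ t e₁ s₁ x₂ ++ pvmvMid Y u (!up) a₂ t x₂ sb t₂ lb₂ a₀ b₀ u₀ tb wb ob c₀ c₁ z d l) := by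
    ext v
    simp only [pvkqPatR, pvmvPat, List.mem_cons, List.not_mem_nil, or_false, mem_iUnion, mem_ofPred_eq, exists_prop, mem_union]
    constructor
    · rintro ⟨x, (rfl | rfl), hv⟩
      · exact Or.inl hv
      · exact Or.inr hv
    · rintro (hv | hv)
      · exact ⟨_, Or.inl rfl, hv⟩
      · exact ⟨_, Or.inr rfl, hv⟩
  rw [e]
  exact (one _ _ _).union (one _ _ _)

/-! ## 5. AT THE MODEL: the thick link `e` of the pin `(zc, t)` of level `m` -/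

theorem pvmv_pl_sh {zc z d w : ℂ} {U : Set ℂ} (h : w ∈ pvccPl (zc + z) d U) : w - zc ∈ pvccPl z d U := by
  obtain ⟨v, hv, rfl⟩ := h
  exact ⟨v, hv, by show z + d * v = zc + z + d * v - zc; ring⟩

theorem pvmv_lanes_sh {a b : ℝ} {zc z d w : ℂ} {l : List PvtTurn} (h : w ∈ pvfeLanes a b (zc + z) d l) : w - zc ∈ pvfeLanes a b z d l := by
  obtain ⟨j, hj, hwj⟩ := mem_iUnion₂.1 h
  refine mem_iUnion₂.2 ⟨j, hj, ?_⟩
  unfold pvccK at hwj ⊢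
  have e : pvccZ (zc + z) d l j = zc + pvccZ z d l j := by unfold pvccZ; ring
  rw [e] at hwj
  exact pvmv_pl_sh hwj

theorem pvmv_Z_sh (Δ : ℝ) (zc cu : ℂ) : pvehZ Δ (zc + cu) = zc + pvehZ Δ cu := by unfold pvehZ; ring

theorem pvmv_S_sh (zc Y u v : ℂ) : pvge2S (zc + Y) u v = pvge2S Y u (v - zc) := by
  unfold pvge2S
  congr 2
  ring

theorem pvmv_T_sh (zc Y u : ℂ) (sd : Bool) (v : ℂ) : pvge2T (zc + Y) u sd v = pvge2T Y u sd (v - zc) := by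
  unfold pvge2T
  congr 3
  ring

section model

variable {τ : Type} {c : ℝ} (𝔓 : PvxPar τ c)

/-- centre of the base cell `e⁻`, relative to the centre of the pin -/
noncomputable def pvmvCe (m : ℕ) (t : τ) : ℂ := pvtCtr (pvlmDel c m) (pvxrEm 𝔓 m t)

/-- distance of the centre of the last block in front of the grid centre of the entrance tip cell -/
noncomputable def pvmvSc (m : ℕ) (t : τ) : ℝ := pvge2S (pvegYm 𝔓 m t) (I ^ pvxrB 𝔓 t) (pvmvCe 𝔓 m t)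

/-- its lateral coordinate, counted on the side `up` -/
noncomputable def pvmvLam (m : ℕ) (t : τ) (up : Bool) : ℝ := pvge2T (pvegYm 𝔓 m t) (I ^ pvxrB 𝔓 t) up (pvmvCe 𝔓 m t)

/-- the part of the old region of the reference plug (open square `Δ/4`) which the pattern may enter: `⊆ AnE` of U4 (R23 (2) of 234), see `pvmv_AnE_sub` -/
noncomputable def pvmvAnE (m : ℕ) : Set ℂ := {w | w ∈ pvehrO 𝔓 m ∧ 11 * pvehDl 𝔓 m / 64 ≤ w.re}

/-- **THE PATTERN OF RECORD OF THE THICK LINK `e`** of the pin `(zc, t)` of level `m`: colour `cl` on the side `up` of the entrance mouth -/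
noncomputable def pvmvPatE (m : ℕ) (zc : ℂ) (t : τ) (up cl : Bool) : List (Bool × List (Set ℂ × ℂ × ℂ)) :=
  pvmvPatRec (zc + pvegYm 𝔓 m t) (I ^ pvxrB 𝔓 t) up cl (pvegR 𝔓 m) (pvehDl 𝔓 m) (pvmvSc 𝔓 m t) (pvmvLam 𝔓 m t up)
    (pvehZ (pvehDl 𝔓 m) (zc + (pvxrGam 𝔓 m).zu t)) (pvehDl 𝔓 m : ℂ) (pvxrLe (pvxrB 𝔓 t))

theorem pvmv_eqns_cite5 : True := by
  have := @pvmvCe.eq_1; have := @pvmvSc.eq_1; have := @pvmvLam.eq_1; have := @pvmvPatE.eq_1; have := @pvmvAnE.eq_1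
  trivial

variable {𝔓} {m : ℕ} {t : τ}

theorem pvmv_fine (h : PvxrNdg 𝔓 m t) : 1024 * pvlmDel c m ≤ pvegR 𝔓 m := by
  have hd := pvlm_Del_pos c m
  unfold pvegR
  rw [← pvlm_N_mul_Del c m]
  have := mul_le_mul_of_nonneg_right h.fine hd.le
  linarith

theorem pvmv_R_pos (h : PvxrNdg 𝔓 m t) : 0 < pvegR 𝔓 m := mul_pos h.rho0 (pvlm_H_pos m)

/-- the side of the blocks: `r/16 ≤ Δ ≤ r/16 + 3 δ` -/
theorem pvmv_Dl_bounds (h : PvxrNdg 𝔓 m t) : pvegR 𝔓 m ≤ 16 * pvehDl 𝔓 m ∧ pvehDl 𝔓 m ≤ pvegR 𝔓 m / 16 + 3 * pvlmDel c m := by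
  have hd := pvlm_Del_pos c m
  have h1 : (pvlmN c m : ℝ) * (𝔓.num.rho / 32) ≤ (pvxrNw 𝔓 m : ℝ) := Int.le_ceil _
  have h2 : (pvxrNw 𝔓 m : ℝ) < (pvlmN c m : ℝ) * (𝔓.num.rho / 32) + 1 := Int.ceil_lt_add_one _
  have h3 : pvegR 𝔓 m = 𝔓.num.rho * ((pvlmN c m : ℝ) * pvlmDel c m) := by unfold pvegR; rw [pvlm_N_mul_Del]
  unfold pvehDl
  rw [h3]
  constructor <;> nlinarith

/-- the centre of the base cell in the frame of the mouth -/
theorem pvmv_ce_near (𝔓 : PvxPar τ c) (m : ℕ) (t : τ) (up : Bool) : |pvmvSc 𝔓 m t - 3 * pvegR 𝔓 m / 8| ≤ pvlmDel c m ∧ |pvmvLam 𝔓 m t up| ≤ pvlmDel c m := by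
  have hn := pvxr_cell_near (pvlm_Del_pos c m) (pvlmN c m) (pvxrYm 𝔓 t + pvxrKap 𝔓 * I ^ pvxrB 𝔓 t)
  rw [pvlm_N_mul_Del] at hn
  have hu := pvmv_norm_I (pvxrB 𝔓 t)
  have hc := pvge2_u_conj hu
  set E : ℂ := (pvtCtr (pvlmDel c m) (pvxrCell (pvlmN c m) (pvxrYm 𝔓 t + pvxrKap 𝔓 * I ^ pvxrB 𝔓 t)) - (pvlmH m : ℂ) * (pvxrYm 𝔓 t + pvxrKap 𝔓 * I ^ pvxrB 𝔓 t)) * (starRingEnd ℂ) (I ^ pvxrB 𝔓 t) with hE
  have hnE : ‖E‖ ≤ pvlmDel c m := by rw [hE, norm_mul, Complex.norm_conj, hu, mul_one]; exact hn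
  have e1 : (pvmvCe 𝔓 m t - pvegYm 𝔓 m t) * (starRingEnd ℂ) (I ^ pvxrB 𝔓 t) = E + ((3 * pvegR 𝔓 m / 8 : ℝ) : ℂ) := by
    rw [hE]
    unfold pvmvCe pvxrEm pvegYm pvegR pvxrKap pvxrYm
    push_cast
    linear_combination ((pvlmH m : ℂ) * (3 * (𝔓.num.rho : ℂ) / 8)) * hc
  constructor
  · unfold pvmvSc pvge2S
    rw [e1]
    simp only [add_re, ofReal_re]
    rw [add_sub_cancel_right]
    exact (Complex.abs_re_le_norm E).trans hnE
  · unfold pvmvLam pvge2T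
    rw [e1, abs_mul, pvge2_sg_abs, one_mul]
    simp only [add_im, ofReal_im, add_zero]
    exact (Complex.abs_im_le_norm E).trans hnE

/-- **THE NUMBERS OF RECORD HOLD AT THE MODEL**, for every mesh `ρ ≤ r/1000` of the sites and every size `b + μ ≤ r/8` of the tip face -/
theorem pvmv_rec_e (h : PvxrNdg 𝔓 m t) (up : Bool) {ρ b μ : ℝ} (hρ0 : 0 ≤ ρ) (hρ1 : 1000 * ρ ≤ pvegR 𝔓 m) (hb0 : 0 ≤ b + μ) (hb : b + μ ≤ pvegR 𝔓 m / 8) :
    PvmvRec (pvegR 𝔓 m) (pvehDl 𝔓 m) ρ b μ (pvmvSc 𝔓 m t) (pvmvLam 𝔓 m t up) := by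
  have hf := pvmv_fine h
  have hr := pvmv_R_pos h
  obtain ⟨d1, d2⟩ := pvmv_Dl_bounds h
  obtain ⟨n1, n2⟩ := pvmv_ce_near 𝔓 m t up
  have n1' := abs_le.1 n1
  exact ⟨hr, d1, by linarith, hρ0, hρ1, hb0, hb, by linarith [n1'.1], by linarith [n1'.2], n2.trans (by linarith)⟩

/-- **THE GEOMETRY OF RECORD AT THE MODEL** -/
theorem pvmv_geo_model (h : PvxrNdg 𝔓 m t) (zc : ℂ) (up : Bool) :
    PvmvGeo (zc + pvegYm 𝔓 m t) (I ^ pvxrB 𝔓 t) up (pvehZ (pvehDl 𝔓 m) (zc + (pvxrGam 𝔓 m).zu t)) (pvehDl 𝔓 m : ℂ) (pvxrLe (pvxrB 𝔓 t)) (pvehDl 𝔓 m) (pvmvSc 𝔓 m t - pvehDl 𝔓 m / 2) (pvmvLam 𝔓 m t up) (21 / 64) := by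
  have hr := pvmv_R_pos h
  have hΔ : 0 < pvehDl 𝔓 m := by have := (pvmv_Dl_bounds h).1; linarith
  have G := pvmv_geo_e hΔ (zc + pvegYm 𝔓 m t) (zc + pvmvCe 𝔓 m t) (pvxrB 𝔓 t) up
  have e1 : zc + pvmvCe 𝔓 m t + (pvehDl 𝔓 m : ℂ) * pvtZ (pvxrUo (pvxrB 𝔓 t) 1) = zc + (pvxrGam 𝔓 m).zu t := by
    rw [(pvxr_geo h).zu']
    unfold pvmvCe
    ring
  rw [e1, pvmv_S_sh, pvmv_T_sh, add_sub_cancel_left] at G
  exact G

/-- **(FIT) THE PATTERN OF RECORD OF `e` FITS, CONSTANTS FREE OF THE LEVEL, OF THE PIN AND OF THE TYPE** -/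
theorem pvmv_fit_e (h : PvxrNdg 𝔓 m t) (zc : ℂ) (up cl : Bool) : PvkqFit (pvehDl 𝔓 m / 512) 8704 6 (pvmvPatE 𝔓 m zc t up cl) :=
  pvmv_rec_fit (pvmv_geo_model h zc up) (pvmv_rec_e h up (ρ := 0) (b := 0) (μ := 0) le_rfl (by have := pvmv_R_pos h; linarith) (by norm_num) (by have := pvmv_R_pos h; linarith)) (pvmv_len_le _).2 cl

/-- **(WIN) THE WINDOW OF THE PATTERN OF RECORD OF `e` LIES IN MOUTH ∪ TILE**: `eM = pvegIM`, tile of U4 (R23 (2) of 234) `= pveheK ∪ pvegIK ∪ (zu + AnE)`, `AnE ⊇ pvmvAnE` = the part `11 Δ/64 ≤ re` of the old region `pvehrO` of the plug -/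
theorem pvmv_win_e (h : PvxrNdg 𝔓 m t) (hΓ : 𝔓.Γ m = pvxrGam 𝔓 m) (zc : ℂ) (up cl : Bool) :
    pvkqPatR (pvmvPatE 𝔓 m zc t up cl) ⊆ pvieSh zc (pvegIM 𝔓 m t) ∪ pvieSh zc (pveheK 𝔓 (pvegIM 𝔓) m t ∪ pvegIK 𝔓 m t ∪ pvieSh ((pvxrGam 𝔓 m).zu t) (pvmvAnE 𝔓 m)) := by
  have hf := pvmv_fine h
  have hr := pvmv_R_pos h
  have hd := pvlm_Del_pos c m
  obtain ⟨d1, d2⟩ := pvmv_Dl_bounds h
  have hΔ : 0 < pvehDl 𝔓 m := by linarith
  obtain ⟨n1, n2⟩ := pvmv_ce_near 𝔓 m t up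
  have n1' := abs_le.1 n1
  have n2' := abs_le.1 n2
  have hu := pvmv_norm_I (pvxrB 𝔓 t)
  have hc := pvge2_u_conj hu
  have R := pvmv_rec_e h up (ρ := 0) (b := 0) (μ := 0) le_rfl (by linarith) (by norm_num) (by linarith)
  have key : ∀ w : ℂ, w ∈ pvehBody (pvehDl 𝔓 m) ((pvxrGam 𝔓 m).zu t) (pvxrLe (pvxrB 𝔓 t)) \ pvccSq ((pvxrGam 𝔓 m).zu t) (pvehDl 𝔓 m / 4) →
      w ∈ pvegIM 𝔓 m t ∨ w ∈ pveheK 𝔓 (pvegIM 𝔓) m t ∪ pvegIK 𝔓 m t ∪ pvieSh ((pvxrGam 𝔓 m).zu t) (pvmvAnE 𝔓 m) := by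
    intro w hw
    by_cases hM : w ∈ pvegIM 𝔓 m t
    · exact Or.inl hM
    · exact Or.inr (Or.inl (Or.inl ⟨hw.1, fun hq => hq.elim hw.2 hM⟩))
  intro v hv
  have out : v - zc ∈ pvegIM 𝔓 m t ∨ v - zc ∈ pveheK 𝔓 (pvegIM 𝔓) m t ∪ pvegIK 𝔓 m t ∪ pvieSh ((pvxrGam 𝔓 m).zu t) (pvmvAnE 𝔓 m) := by
    rcases pvmv_rec_win (pvmv_geo_model h zc up) R cl hv with (hv | hv) | (hv | hv)
    · left
      rw [mem_closedBall_iff_norm] at hv
      show v - zc ∈ closedBall (pvegYm 𝔓 m t) (5 * pvegR 𝔓 m / 16)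
      rw [mem_closedBall_iff_norm, show v - zc - pvegYm 𝔓 m t = v - (zc + pvegYm 𝔓 m t) by ring]
      linarith
    · obtain ⟨q1, q2, q3, q4⟩ := hv
      rw [pvmv_S_sh] at q1 q2
      rw [pvmv_T_sh] at q3 q4
      by_cases hM : v - zc ∈ pvegIM 𝔓 m t
      · exact Or.inl hM
      · refine Or.inr (Or.inl (Or.inr ⟨?_, hM⟩))
        have ed : -(𝔓.Γ m).din t = I ^ pvxrB 𝔓 t := by rw [hΓ, pvxr_gam_din, neg_neg]
        have ep : (𝔓.Γ m).pin t = pvmvCe 𝔓 m t - ((pvlmDel c m / 2 : ℝ) : ℂ) * I ^ pvxrB 𝔓 t := by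
          rw [hΓ, pvxr_gam_pin, pvxrDoor]
          unfold pvmvCe
          rw [pvxr_ctr_eq]
          push_cast
          ring
        rw [ed, ep]
        have sP : pvegS (pvegYm 𝔓 m t) (I ^ pvxrB 𝔓 t) (pvmvCe 𝔓 m t - ((pvlmDel c m / 2 : ℝ) : ℂ) * I ^ pvxrB 𝔓 t) = pvmvSc 𝔓 m t - pvlmDel c m / 2 := by
          unfold pvegS pvmvSc pvge2S
          rw [show (pvmvCe 𝔓 m t - ((pvlmDel c m / 2 : ℝ) : ℂ) * I ^ pvxrB 𝔓 t - pvegYm 𝔓 m t) * (starRingEnd ℂ) (I ^ pvxrB 𝔓 t) =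
            (pvmvCe 𝔓 m t - pvegYm 𝔓 m t) * (starRingEnd ℂ) (I ^ pvxrB 𝔓 t) - ((pvlmDel c m / 2 : ℝ) : ℂ) * (I ^ pvxrB 𝔓 t * (starRingEnd ℂ) (I ^ pvxrB 𝔓 t)) by ring, hc, mul_one, sub_re, ofReal_re]
        have lP : pvegL (pvegYm 𝔓 m t) (I ^ pvxrB 𝔓 t) (pvmvCe 𝔓 m t - ((pvlmDel c m / 2 : ℝ) : ℂ) * I ^ pvxrB 𝔓 t) = ((pvmvCe 𝔓 m t - pvegYm 𝔓 m t) * (starRingEnd ℂ) (I ^ pvxrB 𝔓 t)).im := by
          unfold pvegL
          rw [show (pvmvCe 𝔓 m t - ((pvlmDel c m / 2 : ℝ) : ℂ) * I ^ pvxrB 𝔓 t - pvegYm 𝔓 m t) * (starRingEnd ℂ) (I ^ pvxrB 𝔓 t) =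
            (pvmvCe 𝔓 m t - pvegYm 𝔓 m t) * (starRingEnd ℂ) (I ^ pvxrB 𝔓 t) - ((pvlmDel c m / 2 : ℝ) : ℂ) * (I ^ pvxrB 𝔓 t * (starRingEnd ℂ) (I ^ pvxrB 𝔓 t)) by ring, hc, mul_one, sub_im, ofReal_im, sub_zero]
        have lam_abs : |((pvmvCe 𝔓 m t - pvegYm 𝔓 m t) * (starRingEnd ℂ) (I ^ pvxrB 𝔓 t)).im| ≤ pvlmDel c m := by
          have : |pvmvLam 𝔓 m t up| = |((pvmvCe 𝔓 m t - pvegYm 𝔓 m t) * (starRingEnd ℂ) (I ^ pvxrB 𝔓 t)).im| := by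
            unfold pvmvLam pvge2T
            rw [abs_mul, pvge2_sg_abs, one_mul]
          rw [← this]; exact n2
        have lv : |pvegL (pvegYm 𝔓 m t) (I ^ pvxrB 𝔓 t) (v - zc)| ≤ 33 * pvegR 𝔓 m / 200 := by
          have : |pvge2T (pvegYm 𝔓 m t) (I ^ pvxrB 𝔓 t) up (v - zc)| = |pvegL (pvegYm 𝔓 m t) (I ^ pvxrB 𝔓 t) (v - zc)| := by
            unfold pvge2T pvegL
            rw [abs_mul, pvge2_sg_abs, one_mul]
          rw [← this, abs_le]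
          exact ⟨q3, q4⟩
        refine ⟨?_, ?_, ?_⟩
        · show pvegR 𝔓 m / 10 + 2 * pvlmDel c m ≤ pvge2S (pvegYm 𝔓 m t) (I ^ pvxrB 𝔓 t) (v - zc)
          linarith
        · rw [sP]
          show pvge2S (pvegYm 𝔓 m t) (I ^ pvxrB 𝔓 t) (v - zc) ≤ _
          linarith
        · rw [lP]
          have := abs_sub (pvegL (pvegYm 𝔓 m t) (I ^ pvxrB 𝔓 t) (v - zc)) (((pvmvCe 𝔓 m t - pvegYm 𝔓 m t) * (starRingEnd ℂ) (I ^ pvxrB 𝔓 t)).im)
          linarith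
    · rw [pvmv_Z_sh] at hv
      exact key _ (pvmv_lanes_off hΔ _ (pveh_W_le _) (by norm_num) (by norm_num) (pvmv_lanes_sh hv))
    · rw [pvmv_Z_sh] at hv
      have := pvmv_cap_east hΔ ((pvxrGam 𝔓 m).zu t) (q := 11 / 64) (x₀ := -(21 / 64)) (x₁ := 0) (y₀ := -(23 / 256)) (y₁ := 23 / 256) (by norm_num) (by norm_num) le_rfl (by norm_num) (by norm_num) (pvmv_pl_sh hv)
      by_cases hq : v - zc ∈ pvccSq ((pvxrGam 𝔓 m).zu t) (pvehDl 𝔓 m / 4)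
      · refine Or.inr (Or.inr (pveh_mem_sh.2 ⟨?_, ?_⟩))
        · show pvccN (v - zc - (pvxrGam 𝔓 m).zu t - 0) < pvehDl 𝔓 m / 4
          rw [sub_zero]
          exact hq
        · obtain ⟨w, ⟨a1, a2, a3, a4⟩, hw⟩ := pvmv_pl_sh hv
          have e1 := (pvmv_cap_coord (pvehDl 𝔓 m) ((pvxrGam 𝔓 m).zu t) w).1
          have hw' : pvehZ (pvehDl 𝔓 m) ((pvxrGam 𝔓 m).zu t) + (pvehDl 𝔓 m : ℂ) * w = v - zc := hw
          rw [hw'] at e1
          rw [sub_re, e1]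
          nlinarith
      · exact key _ ⟨Or.inl this.1, hq⟩
  rcases out with h1 | h1
  · exact Or.inl (pveh_mem_sh.2 h1)
  · exact Or.inr (pveh_mem_sh.2 h1)

theorem pvmv_patE_len (𝔓 : PvxPar τ c) (m : ℕ) (zc : ℂ) (t : τ) (up cl : Bool) : (pvmvPatE 𝔓 m zc t up cl).length = 2 := rfl

/-- (MEAS) the window of the pattern of record of `e` is Borel -/
theorem pvmv_meas_e (h : PvxrNdg 𝔓 m t) (zc : ℂ) (up cl : Bool) : MeasurableSet (pvkqPatR (pvmvPatE 𝔓 m zc t up cl)) := by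
  have hΔ : (pvehDl 𝔓 m : ℂ) ≠ 0 := by
    have h1 := (pvmv_Dl_bounds h).1
    have h2 := pvmv_R_pos h
    have : 0 < pvehDl 𝔓 m := by linarith
    exact_mod_cast this.ne'
  exact pvmv_pat_meas _ _ _ _ _ _ _ _ _ _ _ _ _ _ _ _ _ _ _ _ _ _ _ hΔ _

/-- the piece `pvmvAnE` lies in the east annulus `AnE = (old region minus new region) ∩ {0 ≤ re}` of U4, for EVERY new region `S` on the left of the line `re = 11 Δ/64` (`S = ` square of half side `13 Δ/80`) -/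
theorem pvmv_AnE_sub (hΔ : 0 ≤ pvehDl 𝔓 m) {S : Set ℂ} (hS : ∀ w ∈ S, w.re < 11 * pvehDl 𝔓 m / 64) : pvmvAnE 𝔓 m ⊆ (pvehrO 𝔓 m \ S) ∩ {w | 0 ≤ w.re} := by
  rintro w ⟨h1, h2⟩
  refine ⟨⟨h1, fun hw => ?_⟩, ?_⟩
  · have := hS w hw
    linarith
  · show 0 ≤ w.re
    linarith

/-- **(WIN) AT THE ENGINE v3 (U4 of R23 (2), L2)**: the window of the pattern of record of `e` lies in `(z + eM) ∪ (z + eK)`, `eK = pvnuEK` of 84 (`Exit/EngU4`) -/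
theorem pvmv_win_u4 (h : PvxrNdg 𝔓 m t) (hΓ : 𝔓.Γ m = pvxrGam 𝔓 m) (zc : ℂ) (up cl : Bool) :
    pvkqPatR (pvmvPatE 𝔓 m zc t up cl) ⊆ pvieSh zc (pvegIM 𝔓 m t) ∪ pvieSh zc (pvnuEK 𝔓 m t) := by
  have hΔ : 0 < pvehDl 𝔓 m := by
    have h1 := (pvmv_Dl_bounds h).1
    have h2 := pvmv_R_pos h
    linarith
  have hA : pvmvAnE 𝔓 m ⊆ pvnuAE (pvehrO 𝔓 m) (pvnuRO 𝔓 m) := by
    refine pvmv_AnE_sub hΔ.le fun w hw => ?_
    rw [pvnu4_RO_sq h.rho0] at hw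
    have hw' : pvccN (w - 0) < 13 * pvehDl 𝔓 m / 80 := hw
    have h5 : |(w - 0).re| ≤ pvccN (w - 0) := le_max_left _ _
    rw [sub_zero] at h5 hw'
    have h6 := le_abs_self w.re
    linarith
  intro v hv
  rcases pvmv_win_e h hΓ zc up cl hv with h1 | h1
  · exact Or.inl h1
  · refine Or.inr ?_
    rw [pveh_mem_sh] at h1 ⊢
    rcases h1 with h1 | h1
    · exact Or.inl h1
    · refine Or.inr ?_
      rw [hΓ]
      rw [pveh_mem_sh] at h1 ⊢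
      exact hA h1

end model

/-! ## 6. THE DATA OF DET (`PvetDet` of `Exit/FrcT`, `PvhuLayD` of 66): the two routes, colours RELATIVE to the strand, listed FROM THE TIP -/

section det

variable {τ : Type} {c : ℝ} (𝔓 : PvxPar τ c)

/-- lateral end of the bar of the mouth, relative colour `β`, in the frame of the side `!β` -/
noncomputable def pvmvDLb (m : ℕ) (t : τ) (β : Bool) : ℝ := pvge2Lm (pvmvLam 𝔓 m t false) β + pvehDl 𝔓 m * (21 / 256)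

/-- **the C** of the route of the relative colour `β` (`true` = the colour of the strand = side `false` of the frame `(Y⁻, I ^ B)`) -/
noncomputable def pvmvDC (m : ℕ) (zc : ℂ) (t : τ) (β : Bool) : Set ℂ × ℂ × ℂ :=
  (pvge2RC (zc + pvegYm 𝔓 m t) (I ^ pvxrB 𝔓 t) (!β) (pvge2Aa (pvegR 𝔓 m) β) (pvegR 𝔓 m / 200) (23 * pvegR 𝔓 m / 200) (23 * pvegR 𝔓 m / 200),
    pvge2P (zc + pvegYm 𝔓 m t) (I ^ pvxrB 𝔓 t) (!β) (23 * pvegR 𝔓 m / 200) (-pvge2Aa (pvegR 𝔓 m) β), pvge2P (zc + pvegYm 𝔓 m t) (I ^ pvxrB 𝔓 t) (!β) (23 * pvegR 𝔓 m / 200) (pvge2Aa (pvegR 𝔓 m) β))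

/-- **the arm** -/
noncomputable def pvmvDN (m : ℕ) (zc : ℂ) (t : τ) (β : Bool) : Set ℂ × ℂ × ℂ :=
  (pvge2RN (zc + pvegYm 𝔓 m t) (I ^ pvxrB 𝔓 t) (!β) (pvge2Aa (pvegR 𝔓 m) β) (pvegR 𝔓 m / 200) (23 * pvegR 𝔓 m / 200) (3 * pvegR 𝔓 m / 20),
    pvge2P (zc + pvegYm 𝔓 m t) (I ^ pvxrB 𝔓 t) (!β) (23 * pvegR 𝔓 m / 200) (pvge2Aa (pvegR 𝔓 m) β), pvge2P (zc + pvegYm 𝔓 m t) (I ^ pvxrB 𝔓 t) (!β) (3 * pvegR 𝔓 m / 20) (pvge2Aa (pvegR 𝔓 m) β))

/-- **the four middle legs**: lane and bar of the mouth, corridor leg, bar in front of the plug -/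
noncomputable def pvmvDT (m : ℕ) (zc : ℂ) (t : τ) (β : Bool) : List (Set ℂ × ℂ × ℂ) :=
  pvmvMid (zc + pvegYm 𝔓 m t) (I ^ pvxrB 𝔓 t) (!β) (pvge2Aa (pvegR 𝔓 m) β) (pvegR 𝔓 m / 200) (3 * pvegR 𝔓 m / 20) (pvmvSc 𝔓 m t - pvehDl 𝔓 m / 2 - pvehDl 𝔓 m * (1 / 2)) (pvehDl 𝔓 m / 100) (pvmvDLb 𝔓 m t β)
    (19 / 256) (23 / 256) (21 / 256) (51 / 160) (1 / 128) (1 / 100) (21 / 64) (51 / 100) (pvehZ (pvehDl 𝔓 m) (zc + (pvxrGam 𝔓 m).zu t)) (pvehDl 𝔓 m : ℂ) (pvxrLe (pvxrB 𝔓 t))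

/-- **the bar in front of the plug** = the leg across the half lane of colour `β` (offsets `> 0` for `β = true`): from the line `21/256` of the lane to the offset `1/100` -/
noncomputable def pvmvDD (m : ℕ) (zc : ℂ) (t : τ) (β : Bool) : Set ℂ × ℂ × ℂ :=
  (pvmvBar β (23 / 256) (51 / 160) (1 / 128) (1 / 100) (pvehZ (pvehDl 𝔓 m) (zc + (pvxrGam 𝔓 m).zu t)) (pvehDl 𝔓 m : ℂ),
    pvljPt (pvehZ (pvehDl 𝔓 m) (zc + (pvxrGam 𝔓 m).zu t)) (pvehDl 𝔓 m : ℂ) (pvxrLe (pvxrB 𝔓 t)) 0 (-(51 / 160)) (pvge2Sg β * (21 / 256)),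
    pvljPt (pvehZ (pvehDl 𝔓 m) (zc + (pvxrGam 𝔓 m).zu t)) (pvehDl 𝔓 m : ℂ) (pvxrLe (pvxrB 𝔓 t)) 0 (-(51 / 160)) (pvge2Sg β * (1 / 100)))

theorem pvmv_eqns_cite6 : True := by
  have := @pvmvDLb.eq_1; have := @pvmvDC.eq_1; have := @pvmvDN.eq_1; have := @pvmvDT.eq_1; have := @pvmvDD.eq_1
  trivial

variable {𝔓} {m : ℕ} {t : τ}

/-- (mem) the two routes are the routes of the pattern of record, colours relative to the strand -/
theorem pvmv_d_mem (zc : ℂ) (cl β : Bool) : (β == cl, pvmvDC 𝔓 m zc t β :: pvmvDN 𝔓 m zc t β :: pvmvDT 𝔓 m zc t β) ∈ pvmvPatE 𝔓 m zc t false cl := by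
  cases β
  · refine List.mem_cons_of_mem _ (List.mem_cons.2 (Or.inl ?_))
    cases cl <;> simp [pvmvDC, pvmvDN, pvmvDT, pvmvDLb, pvge2LegsO, pvge2Aa, pvge2Lm]
  · refine List.mem_cons.2 (Or.inl ?_)
    cases cl <;> simp [pvmvDC, pvmvDN, pvmvDT, pvmvDLb, pvge2LegsO, pvge2Aa, pvge2Lm]

/-- (leg) the bar is a leg of the route -/
theorem pvmv_d_leg (zc : ℂ) (β : Bool) : pvmvDD 𝔓 m zc t β ∈ pvmvDN 𝔓 m zc t β :: pvmvDT 𝔓 m zc t β := by
  cases β <;> simp [pvmvDD, pvmvDT, pvmvMid]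

/-- (route) each of the two lists is a route of 21 at the grid `Δ / 512` -/
theorem pvmv_d_route (h : PvxrNdg 𝔓 m t) (zc : ℂ) (β : Bool) : PvkqRoute (pvehDl 𝔓 m / 512) (pvmvDC 𝔓 m zc t β :: pvmvDN 𝔓 m zc t β :: pvmvDT 𝔓 m zc t β) := by
  have hr := pvmv_R_pos h
  have R := pvmv_rec_e h false (ρ := 0) (b := 0) (μ := 0) le_rfl (by linarith) (by norm_num) (by linarith)
  have G := pvmv_geo_model h zc false
  cases β
  · have := pvmv_route G.flip R.num₂ (pvmv_num_rec R.Δ0) R.flip.arm₂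
    simpa [pvmvDC, pvmvDN, pvmvDT, pvmvDLb, pvge2LegsO, pvge2Aa, pvge2Lm] using this
  · have := pvmv_route G R.num₁ (pvmv_num_rec R.Δ0) R.arm₁
    simpa [pvmvDC, pvmvDN, pvmvDT, pvmvDLb, pvge2LegsO, pvge2Aa, pvge2Lm] using this

end det

end Claimed.Agent.R289
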