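-- KEEP
import Claimed.Agent.R289.Tr.LinkM

/-!
# Row 289 (S0537), THE WALL, ROAD E, E10 = LINK BOUND, file Tr/LinkMF : THE MID LEGS OF THE THICK RETURN `t ⇒ u`      (helper296; prefix `pvyr_`, defs `pvyr…`, `Pvyr…`)

MODEL FREE.   MIRROR OF `Tr/LinkM` (21), WHICH IS TYPED FOR THE THICK LINK `e : u ⇒ t` (plug BEHIND THE FIRST door, mouth beyond the LAST door, `PvmvGeo.hD : last frame = - Δ u`, `PvmvGeo.front` : the whole corridor in front of the last door).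
THE RETURN `f` OF 182 (`Exit/ParEngF`) RUNS THE OTHER WAY AND ROUND THE PIN:   the word starts AT THE MOUTH (first door `z`, frame `d = Δ u`), follows the thick ring road, ends at the west door of the block of `u`.      TWO MISFITS WITH `PvmvGeo`:
 (1) orientation (main has no reversal of a word);   (2) **`front` IS FALSE FOR `f`**: the ring road passes BEHIND the line of the first door (on the other sides of the pin).
CURE = this file: `PvyrGeo Y u sd z d l Δ Sn lam c₀ W`: `d = Δ u`, `z = (Sn, lam)` in the frame of the mouth, and **WEAK FRONT**: a point of the corridor (or of the cap beyond the last door) is in front of the first door OR OFF THE SQUARE `W` OF THE MOUTH (`W < T`, `T < -W` or `S < -W`).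
The numbers are THE RECORDS OF 21, same fields: `PvmvNum Δ dl a₀ b₀ u₀ s₀ tb wb ob c₀ t₁ c₁` (`c₀`, `tb wb ob` = PLUG side, now beyond the LAST door;   `c₁`, `t₁` = MOUTH side, now behind the FIRST door), `PvmvArm Δ dl u₀ t₁ c₁ a t e₁ s₁ x₂ t₂ Sn lam`, `Pvge2Num` of 298.
The route of one colour (mouth side `sd`, corridor side `sd`: the corridor is entered OUTWARDS), FROM THE TIP:   arm of 298 (`pvge2LegsO`)  ++  **`pvyrMid`** = [lane `pvmvRH`, bar of the mouth `pvmvRV`, corridor leg `pvmvLeg sd a₀ b₀ c₁ c₀`, **bar in front of the plug `pvyrBar`** (beyond the last door)].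
* sec. 1  `pvyrBar`, `pvyr_bar_side`, `PvyrGeo` (`.flip`, `.pt`, `.pt'`, `.cap`)
* sec. 2  `pvyr_leg_core`, `pvyr_bar_core`, `pvyrMid`, **`pvyr_route`**, **`pvyr_mid_cases`**
* sec. 3  disjointness, `pvyr_size`, pattern **`pvyrPat`**, **`pvyr_fit : PvkqFit dl M 6 (pvyrPat ..)`**, `pvyr_mid_R`, **`pvyr_pat_R`** (the region of the pattern: for WINDOW)
-/

set_option autoImplicit false
set_option linter.unusedSectionVars false
set_option linter.unusedVariables false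
set_option linter.unusedSimpArgs false

namespace Claimed.Agent.R289

open Set Metric Complex

/-! ## 1. the bar beyond the last door, the geometry -/

/-- **THE BAR IN FRONT OF THE PLUG**: the column of abscissa `tb` (half thickness `wb`) beyond the last door, from the top `b₀` of the lane to the offset `ob` -/
noncomputable def pvyrBar (pos : Bool) (b₀ tb wb ob : ℝ) (z d : ℂ) (l : List PvtTurn) : Set ℂ :=
  pvccPl (pvccZ z d l l.length) (pvccD d l l.length) (pvljRect (tb - wb) (tb + wb) (pvmvLo pos (ob - wb) b₀) (pvmvHi pos (ob - wb) b₀))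

/-- the bar lies on its side of the extended corridor -/
theorem pvyr_bar_side (pos : Bool) {b₀ tb wb ob : ℝ} (h0 : tb + wb ≤ 1) (h1 : wb ≤ tb) (z d : ℂ) (l : List PvtTurn) : pvyrBar pos b₀ tb wb ob z d l ⊆ pvmvSide pos (ob - wb) b₀ z d l :=
  pvmv_cap1_X (by linarith) h0 z d l

/-- **THE GEOMETRY OF A THICK RETURN**: mouth `(Y, u)` seen from the side `sd`, corridor `(z, d, l)` of blocks of side `Δ`, ENTERED OUTWARDS (`d = Δ u`) through its first door, which has the coordinates `(Sn, lam)` in the frame `(Y, u, sd)`;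
WEAK FRONT: the corridor and the cap beyond its last door are in front of the first door or off the square `W` of the mouth -/
structure PvyrGeo (Y u : ℂ) (sd : Bool) (z d : ℂ) (l : List PvtTurn) (Δ Sn lam c₀ W : ℝ) : Prop where
  hu : ‖u‖ = 1
  hl : 0 < l.length
  Δ0 : 0 < Δ
  hD : d = (Δ : ℂ) * u
  hZ : z = pvge2P Y u sd Sn lam
  simple : PvccSimple (pvmvX l) (pvmvX l).length
  back : ∀ k, k < (pvmvX l).length → pvccC 0 1 (pvmvX l) k ≠ -(1 / 2)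
  front : ∀ w ∈ pvfeLanes (-(1 / 2)) (1 / 2) z d l ∪ pvccPl (pvccZ z d l l.length) (pvccD d l l.length) (pvljRect 0 c₀ (-(1 / 2)) (1 / 2)),
    Sn ≤ pvge2S Y u w ∨ W < pvge2T Y u sd w ∨ pvge2T Y u sd w < -W ∨ pvge2S Y u w < -W

theorem pvyr_eqns_cite : True := by
  have := @pvyrBar.eq_1
  trivial

section geo

variable {Y u : ℂ} {sd : Bool} {z d : ℂ} {l : List PvtTurn} {Δ Sn lam c₀ W : ℝ}

theorem PvyrGeo.hd (G : PvyrGeo Y u sd z d l Δ Sn lam c₀ W) : ‖d‖ = Δ := by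
  rw [G.hD, norm_mul, G.hu, mul_one, Complex.norm_real, Real.norm_eq_abs, abs_of_pos G.Δ0]

theorem PvyrGeo.d0 (G : PvyrGeo Y u sd z d l Δ Sn lam c₀ W) : d ≠ 0 := by
  rw [← norm_pos_iff, G.hd]; exact G.Δ0

/-- the same geometry seen from the other side -/
theorem PvyrGeo.flip (G : PvyrGeo Y u sd z d l Δ Sn lam c₀ W) : PvyrGeo Y u (!sd) z d l Δ Sn (-lam) c₀ W :=
  { G with
    hZ := by
      rw [G.hZ]
      unfold pvge2P
      rw [pvge2_sg_not]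
      congr 3
      push_cast
      ring
    front := by
      intro w hw
      rw [pvge2_T_flip]
      rcases G.front w hw with h | h | h | h
      · exact Or.inl h
      · exact Or.inr (Or.inr (Or.inl (by linarith)))
      · exact Or.inr (Or.inl (by linarith))
      · exact Or.inr (Or.inr (Or.inr h)) }

/-- coordinates of a point given in the frame of the first door -/
theorem PvyrGeo.S_pl (G : PvyrGeo Y u sd z d l Δ Sn lam c₀ W) (v : ℂ) : pvge2S Y u (z + d * v) = Sn + Δ * v.re := by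
  have hc := pvge2_u_conj G.hu
  unfold pvge2S
  rw [G.hZ, G.hD, pvge2P]
  have e : (Y + u * ((Sn : ℂ) + ((pvge2Sg sd * lam : ℝ) : ℂ) * I) + (Δ : ℂ) * u * v - Y) * (starRingEnd ℂ) u = (u * (starRingEnd ℂ) u) * (((Sn : ℂ) + ((pvge2Sg sd * lam : ℝ) : ℂ) * I) + (Δ : ℂ) * v) := by ring
  rw [e, hc, one_mul]
  simp

theorem PvyrGeo.T_pl (G : PvyrGeo Y u sd z d l Δ Sn lam c₀ W) (v : ℂ) : pvge2T Y u sd (z + d * v) = lam + pvge2Sg sd * (Δ * v.im) := by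
  have hc := pvge2_u_conj G.hu
  unfold pvge2T
  rw [G.hZ, G.hD, pvge2P]
  have e : (Y + u * ((Sn : ℂ) + ((pvge2Sg sd * lam : ℝ) : ℂ) * I) + (Δ : ℂ) * u * v - Y) * (starRingEnd ℂ) u = (u * (starRingEnd ℂ) u) * (((Sn : ℂ) + ((pvge2Sg sd * lam : ℝ) : ℂ) * I) + (Δ : ℂ) * v) := by ring
  rw [e, hc, one_mul]
  have h2 := pvge2_sg_sq sd
  simp only [add_im, ofReal_im, mul_im, ofReal_re, I_re, I_im, mul_zero, mul_one, zero_add, add_zero, zero_mul]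
  linear_combination lam * h2

/-- **a point of the frame of the first door in the frame of the mouth** -/
theorem PvyrGeo.pt (G : PvyrGeo Y u sd z d l Δ Sn lam c₀ W) (t o : ℝ) : pvljPt z d l 0 (-t) o = pvge2P Y u sd (Sn - Δ * t) (lam + pvge2Sg sd * (Δ * o)) := by
  unfold pvljPt
  rw [pvccZ_zero, pvccD_zero, G.hZ, G.hD]
  unfold pvge2P
  have h2 : ((pvge2Sg sd : ℝ) : ℂ) * ((pvge2Sg sd : ℝ) : ℂ) = 1 := by exact_mod_cast pvge2_sg_sq sd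
  push_cast
  linear_combination (-(u * (Δ : ℂ) * (o : ℂ) * I)) * h2

/-- the line of offset `u₀` of the corridor side `sd` lies at the lateral coordinate `lam + Δ u₀` on the side `sd` of the mouth -/
theorem PvyrGeo.pt' (G : PvyrGeo Y u sd z d l Δ Sn lam c₀ W) (t o : ℝ) : pvljPt z d l 0 (-t) (pvge2Sg sd * o) = pvge2P Y u sd (Sn - Δ * t) (lam + Δ * o) := by
  rw [G.pt]
  have h2 := pvge2_sg_sq sd
  congr 1
  linear_combination (Δ * o) * h2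

/-- **the cap behind the first door, corridor side `sd`, is a rectangle of the mouth on the side `sd`** -/
theorem PvyrGeo.cap (G : PvyrGeo Y u sd z d l Δ Sn lam c₀ W) {x₀ x₁ a b : ℝ} :
    pvccPl z d (pvljRect x₀ x₁ (pvmvLo sd a b) (pvmvHi sd a b)) ⊆ pvge2R Y u sd (Sn + Δ * x₀) (Sn + Δ * x₁) (lam + Δ * a) (lam + Δ * b) := by
  rintro _ ⟨v, ⟨a1, a2, a3, a4⟩, rfl⟩
  have hΔ := G.Δ0
  show _ ≤ pvge2S Y u (z + d * v) ∧ pvge2S Y u (z + d * v) ≤ _ ∧ _ ≤ pvge2T Y u sd (z + d * v) ∧ pvge2T Y u sd (z + d * v) ≤ _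
  rw [G.S_pl, G.T_pl]
  refine ⟨by nlinarith, by nlinarith, ?_, ?_⟩
  · cases sd
    · simp only [pvmvLo, pvmvHi, pvge2Sg, if_true, Bool.false_eq_true, if_false] at a3 a4 ⊢
      nlinarith
    · simp only [pvmvLo, pvmvHi, pvge2Sg, if_true, Bool.false_eq_true, if_false] at a3 a4 ⊢
      nlinarith
  · cases sd
    · simp only [pvmvLo, pvmvHi, pvge2Sg, if_true, Bool.false_eq_true, if_false] at a3 a4 ⊢
      nlinarith
    · simp only [pvmvLo, pvmvHi, pvge2Sg, if_true, Bool.false_eq_true, if_false] at a3 a4 ⊢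
      nlinarith

end geo

/-! ## 2. cores, the route of one colour -/

section cores

variable {Δ dl a₀ b₀ u₀ s₀ tb wb ob c₀ t₁ c₁ : ℝ}

/-- **the core of the corridor leg**, from the mouth to the plug -/
theorem pvyr_leg_core (pos : Bool) (N : PvmvNum Δ dl a₀ b₀ u₀ s₀ tb wb ob c₀ t₁ c₁) (z : ℂ) {d : ℂ} (hd : d ≠ 0) (hΔ : ‖d‖ = Δ) {l : List PvtTurn} (hl : 0 < l.length) :
    PvkqCore dl (pvmvLeg pos a₀ b₀ c₁ c₀ z d l) (pvljPt z d l 0 (-t₁) (pvge2Sg pos * u₀)) (pvljPt z d l l.length tb (pvge2Sg pos * u₀)) := by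
  have n1 := N.gap; have n2 := N.ga; have n3 := N.b0; have n4 := N.s0; have n5 := N.lo; have n6 := N.hi; have n7 := N.w0; have n8 := N.cap0; have n9 := N.tbw; have n10 := N.t1; have n11 := N.cap1
  refine ⟨N.dl0, pvlj_joined_anti (by rw [hΔ]; exact N.core) (pvlj_lanes_through (a := pvmvLo pos a₀ b₀) (b := pvmvHi pos a₀ b₀) (s := s₀) (u := pvge2Sg pos * u₀) (c₀ := c₁) (c₁ := c₀) (t₀ := -t₁) (t₁ := tb)
    ?_ ?_ ?_ ?_ (by linarith) z hd hl (R := pvmvLeg pos a₀ b₀ c₁ c₀ z d l) (fun w hw => Or.inl (Or.inr hw)) (fun w hw => Or.inl (Or.inl hw)) (fun w hw => Or.inr hw) (by linarith) (by linarith) (by linarith) (by linarith) n4)⟩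
  all_goals cases pos <;> simp only [pvmvLo, pvmvHi, pvge2Sg, if_true, Bool.false_eq_true, if_false] <;> linarith

/-- **the core of the bar in front of the plug** -/
theorem pvyr_bar_core (pos : Bool) (N : PvmvNum Δ dl a₀ b₀ u₀ s₀ tb wb ob c₀ t₁ c₁) (z : ℂ) {d : ℂ} (hd : d ≠ 0) (hΔ : ‖d‖ = Δ) (l : List PvtTurn) :
    PvkqCore dl (pvyrBar pos b₀ tb wb ob z d l) (pvljPt z d l l.length tb (pvge2Sg pos * u₀)) (pvljPt z d l l.length tb (pvge2Sg pos * ob)) := by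
  have n1 := N.gap; have n2 := N.ga; have n3 := N.b0; have n4 := N.s0; have n5 := N.lo; have n6 := N.hi; have n7 := N.w0; have n8 := N.ws; have n9 := N.obu
  have key : ∀ o : ℝ, ob ≤ o → o ≤ u₀ → closedBall (pvljPt z d l l.length tb (pvge2Sg pos * o)) (wb * ‖d‖) ⊆ pvyrBar pos b₀ tb wb ob z d l := by
    intro o h1 h2
    exact pvlj_ball_pt z hd l l.length (x₀ := tb - wb) (x₁ := tb + wb) (y₀ := pvmvLo pos (ob - wb) b₀) (y₁ := pvmvHi pos (ob - wb) b₀) (s := wb) (t := tb) (u := pvge2Sg pos * o) (by linarith) (by linarith)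
      (by cases pos <;> simp only [pvmvLo, pvge2Sg, if_true, Bool.false_eq_true, if_false] <;> linarith) (by cases pos <;> simp only [pvmvHi, pvge2Sg, if_true, Bool.false_eq_true, if_false] <;> linarith)
  exact ⟨N.dl0, pvlj_joined_anti (by rw [hΔ]; exact N.coreb) (pvlj_joined_convex (pvlj_pl_convex _ _ (pvlj_rect_convex _ _ _ _)) le_rfl (key u₀ n9 le_rfl) (key ob le_rfl n9))⟩

end cores

/-- **THE MID LEGS OF ONE COLOUR OF THE RETURN** (mouth side `sd`, corridor side `sd`): lane and bar of the mouth, corridor leg, bar in front of the plug -/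
noncomputable def pvyrMid (Y u : ℂ) (sd : Bool) (a t x₂ sb t₂ lb a₀ b₀ u₀ tb wb ob c₀ c₁ : ℝ) (z d : ℂ) (l : List PvtTurn) : List (Set ℂ × ℂ × ℂ) :=
  [(pvmvRH Y u sd a t x₂ sb t₂, pvge2P Y u sd x₂ a, pvge2P Y u sd sb a),
   (pvmvRV Y u sd a t sb t₂ lb, pvge2P Y u sd sb a, pvge2P Y u sd sb lb),
   (pvmvLeg sd a₀ b₀ c₁ c₀ z d l, pvge2P Y u sd sb lb, pvljPt z d l l.length tb (pvge2Sg sd * u₀)),
   (pvyrBar sd b₀ tb wb ob z d l, pvljPt z d l l.length tb (pvge2Sg sd * u₀), pvljPt z d l l.length tb (pvge2Sg sd * ob))]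

theorem pvyr_eqns_cite2 : True := by
  have := @pvyrMid.eq_1
  trivial

section route

variable {Y u : ℂ} {sd : Bool} {z d : ℂ} {l : List PvtTurn} {Δ Sn lam W dl a₀ b₀ u₀ s₀ tb wb ob c₀ t₁ c₁ a t e₁ s₁ x₂ t₂ ρ e₀ b μ rs : ℝ}

/-- **THE ROUTE OF ONE COLOUR**: arm of 298, mid legs -/
theorem pvyr_route (G : PvyrGeo Y u sd z d l Δ Sn lam c₀ W) (N : Pvge2Num a t e₁ s₁ x₂ dl ρ e₀ b μ rs) (Nc : PvmvNum Δ dl a₀ b₀ u₀ s₀ tb wb ob c₀ t₁ c₁) (A : PvmvArm Δ dl u₀ t₁ c₁ a t e₁ s₁ x₂ t₂ Sn lam) :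
    PvkqRoute dl (pvge2LegsO Y u sd a t e₁ s₁ x₂ ++ pvyrMid Y u sd a t x₂ (Sn - Δ * t₁) t₂ (lam + Δ * u₀) a₀ b₀ u₀ tb wb ob c₀ c₁ z d l) := by
  have ht := N.t0
  refine ⟨?_, by simp [pvge2LegsO, pvyrMid]⟩
  intro e he
  simp only [pvge2LegsO, pvyrMid, List.cons_append, List.nil_append, List.mem_cons, List.not_mem_nil, or_false] at he
  rcases he with rfl | rfl | rfl | rfl | rfl | rfl
  · exact N.coreC G.hu
  · exact N.coreN G.hu
  · exact pvmv_RH_core G.hu N.dl0 N.core A.core2 (by have := A.bar; have := A.core2; have := N.dl0; linarith)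
  · exact pvmv_RV_core G.hu N.dl0 N.core A.core2 A.lat
  · have h := pvyr_leg_core sd Nc z G.d0 G.hd G.hl
    rwa [G.pt'] at h
  · exact pvyr_bar_core sd Nc z G.d0 G.hd l

/-- **WHERE THE MID LEGS ARE**: lane | bar of the mouth | on the side `sd` of the extended corridor: in front of the first door, off the square of the mouth, or in the cap -/
theorem pvyr_mid_cases (G : PvyrGeo Y u sd z d l Δ Sn lam c₀ W) (Nc : PvmvNum Δ dl a₀ b₀ u₀ s₀ tb wb ob c₀ t₁ c₁) (A : PvmvArm Δ dl u₀ t₁ c₁ a t e₁ s₁ x₂ t₂ Sn lam) {v : ℂ}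
    (hv : v ∈ pvkqRtR (pvyrMid Y u sd a t x₂ (Sn - Δ * t₁) t₂ (lam + Δ * u₀) a₀ b₀ u₀ tb wb ob c₀ c₁ z d l)) :
    (x₂ - t ≤ pvge2S Y u v ∧ pvge2S Y u v < Sn ∧ a - t ≤ pvge2T Y u sd v ∧ pvge2T Y u sd v ≤ a + t) ∨ (Sn - Δ * t₁ - t₂ ≤ pvge2S Y u v ∧ pvge2S Y u v < Sn ∧ lam < pvge2T Y u sd v ∧ pvge2T Y u sd v ≤ a + t) ∨
      (v ∈ pvmvSide sd (ob - wb) b₀ z d l ∧ (Sn ≤ pvge2S Y u v ∨ (W < pvge2T Y u sd v ∨ pvge2T Y u sd v < -W ∨ pvge2S Y u v < -W) ∨ (Sn - Δ * c₁ ≤ pvge2S Y u v ∧ lam < pvge2T Y u sd v))) := by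
  have n1 := Nc.gap; have n2 := Nc.ga; have n3 := Nc.b0; have n4 := Nc.s0; have n5 := Nc.lo; have n6 := Nc.hi; have n7 := Nc.w0; have n8 := Nc.ws; have n9 := Nc.cap0; have n10 := Nc.tbw
  have hΔ := G.Δ0
  have lo1 : ∀ g : ℝ, 0 < g → -(1 / 2) ≤ pvmvLo sd g b₀ := fun g hg => by cases sd <;> simp only [pvmvLo, if_true, Bool.false_eq_true, if_false] <;> linarith
  have hi1 : ∀ g : ℝ, 0 < g → pvmvHi sd g b₀ ≤ 1 / 2 := fun g hg => by cases sd <;> simp only [pvmvHi, if_true, Bool.false_eq_true, if_false] <;> linarith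
  have fr : ∀ w ∈ pvfeLanes (-(1 / 2)) (1 / 2) z d l ∪ pvccPl (pvccZ z d l l.length) (pvccD d l l.length) (pvljRect 0 c₀ (-(1 / 2)) (1 / 2)),
      Sn ≤ pvge2S Y u w ∨ (W < pvge2T Y u sd w ∨ pvge2T Y u sd w < -W ∨ pvge2S Y u w < -W) ∨ (Sn - Δ * c₁ ≤ pvge2S Y u w ∧ lam < pvge2T Y u sd w) := fun w hw => by
    rcases G.front w hw with h | h
    · exact Or.inl h
    · exact Or.inr (Or.inl h)
  simp only [pvkqRtR, pvyrMid, List.mem_cons, List.not_mem_nil, or_false, mem_iUnion, mem_ofPred_eq, exists_prop] at hv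
  obtain ⟨e, (rfl | rfl | rfl | rfl), hv⟩ := hv
  · obtain ⟨h1, h2, h3, h4⟩ := hv
    exact Or.inl ⟨h1, by have := A.fr2; linarith, h3, h4⟩
  · obtain ⟨h1, h2, h3, h4⟩ := hv
    exact Or.inr (Or.inl ⟨h1, by have := A.fr2; linarith, by have := A.t2u; linarith, h4⟩)
  · refine Or.inr (Or.inr ⟨pvmv_leg_side sd n2 Nc.cap1' Nc.cap0' z d l hv, ?_⟩)
    rcases hv with (hv | hv) | hv
    · obtain ⟨h1, h2, h3, h4⟩ := G.cap hv
      exact Or.inr (Or.inr ⟨by linarith, by nlinarith⟩)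
    · exact fr v (Or.inl (pvlj_lanes_mono (lo1 a₀ (by linarith)) (hi1 a₀ (by linarith)) _ _ _ hv))
    · exact fr v (Or.inr (pvccPl_mono _ _ (pvlj_rect_mono le_rfl le_rfl (lo1 a₀ (by linarith)) (hi1 a₀ (by linarith))) hv))
  · refine Or.inr (Or.inr ⟨pvyr_bar_side sd (by have := Nc.cap0'; linarith) n10 z d l hv, fr v (Or.inr ?_)⟩)
    exact pvccPl_mono _ _ (pvlj_rect_mono (by linarith) (by linarith) (lo1 _ n1) (hi1 _ n1)) hv

end route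

/-! ## 3. the two colours: disjointness, sizes, THE PATTERN OF A THICK RETURN FITS -/

section pair

variable {Y u : ℂ} {up sd : Bool} {z d : ℂ} {l : List PvtTurn} {Δ Sn lam W dl a₀ b₀ u₀ s₀ tb wb ob c₀ t₁ c₁ a a₁ a₂ t e₁ s₁ x₂ t₂ ρ e₀ b μ rs : ℝ}

/-- where an arm of 298 is (with the lower bound of `S`) -/
theorem pvyr_arm_where (N : Pvge2Num a t e₁ s₁ x₂ dl ρ e₀ b μ rs) (he : e₁ + t < x₂ - t) (hs : s₁ + t < x₂ - t) {v : ℂ} (hv : v ∈ pvge2RC Y u sd a t e₁ s₁ ∪ pvge2RN Y u sd a t s₁ x₂) :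
    -(a + t) ≤ pvge2S Y u v ∧ pvge2S Y u v ≤ x₂ + t ∧ -(a + t) ≤ pvge2T Y u sd v ∧ pvge2T Y u sd v ≤ a + t ∧ (pvge2S Y u v < x₂ - t ∨ a - t ≤ pvge2T Y u sd v) := by
  have ha := N.a0; have ht := N.t0; have g3 := N.ρ0; have g6 := N.outS; have g7 := N.outN; have g8 := N.e0; have g2 := N.dl0; have g9 := N.back
  rcases hv with ((⟨y1, y2, y3, y4⟩ | ⟨y1, y2, y3, y4⟩) | ⟨y1, y2, y3, y4⟩) | ⟨y1, y2, y3, y4⟩
  · exact ⟨by linarith, by linarith, by linarith, by linarith, Or.inl (by linarith)⟩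
  · exact ⟨by linarith, by linarith, by linarith, by linarith, Or.inl (by linarith)⟩
  · exact ⟨by linarith, by linarith, by linarith, by linarith, Or.inl (by linarith)⟩
  · exact ⟨by linarith, by linarith, by linarith, by linarith, Or.inr y3⟩

/-- **the mid legs of the two colours are disjoint** -/
theorem pvyr_mid_disj (G : PvyrGeo Y u up z d l Δ Sn lam c₀ W) (N₁ : Pvge2Num a₁ t e₁ s₁ x₂ dl ρ e₀ b μ rs) (Nc : PvmvNum Δ dl a₀ b₀ u₀ s₀ tb wb ob c₀ t₁ c₁) (A₁ : PvmvArm Δ dl u₀ t₁ c₁ a₁ t e₁ s₁ x₂ t₂ Sn lam)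
    (A₂ : PvmvArm Δ dl u₀ t₁ c₁ a₂ t e₁ s₁ x₂ t₂ Sn (-lam)) (hW1 : a₁ + t ≤ W) (hW2 : a₂ + t ≤ W) (hW3 : |lam| ≤ W) :
    Disjoint (pvkqRtR (pvyrMid Y u up a₁ t x₂ (Sn - Δ * t₁) t₂ (lam + Δ * u₀) a₀ b₀ u₀ tb wb ob c₀ c₁ z d l))
      (pvkqRtR (pvyrMid Y u (!up) a₂ t x₂ (Sn - Δ * t₁) t₂ (-lam + Δ * u₀) a₀ b₀ u₀ tb wb ob c₀ c₁ z d l)) := by
  rw [Set.disjoint_left]
  intro v h1 h2
  have c1 := pvyr_mid_cases G Nc A₁ h1
  have c2 := pvyr_mid_cases G.flip Nc A₂ h2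
  rw [pvge2_T_flip] at c2
  have q1 := A₁.lat'; have q2 := A₂.lat'
  obtain ⟨w3, w4⟩ := abs_le.1 hW3
  have g1 := N₁.outS; have g2 := N₁.e0; have g3 := N₁.dl0; have g4 := N₁.ρ0; have g5 := A₁.he; have g6 := N₁.t0; have g7 := N₁.a0
  have g8 := A₁.bar; have g9 := A₁.core2
  have hW0 : 0 ≤ W := by linarith
  rcases c1 with ⟨x1, x2, x3, x4⟩ | ⟨x1, x2, x3, x4⟩ | ⟨x1, x2⟩ <;> rcases c2 with ⟨y1, y2, y3, y4⟩ | ⟨y1, y2, y3, y4⟩ | ⟨y1, y2⟩
  · linarith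
  · linarith
  · rcases y2 with y2 | (y2 | y2 | y2) | ⟨y2, y3⟩ <;> linarith
  · linarith
  · linarith
  · rcases y2 with y2 | (y2 | y2 | y2) | ⟨y2, y3⟩ <;> linarith
  · rcases x2 with x2 | (x2 | x2 | x2) | ⟨x2, x3⟩ <;> linarith
  · rcases x2 with x2 | (x2 | x2 | x2) | ⟨x2, x3⟩ <;> linarith
  · exact Set.disjoint_left.1 (pvmv_side_disj up Nc.gap Nc.b0 G.simple G.back z G.d0) x1 y1

/-- the inner arm (side `up`, radius `a₁`) misses the mid legs of the outer colour -/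
theorem pvyr_arm₁_mid₂ (G : PvyrGeo Y u up z d l Δ Sn lam c₀ W) (N₁ : Pvge2Num a₁ t e₁ s₁ x₂ dl ρ e₀ b μ rs) (Nc : PvmvNum Δ dl a₀ b₀ u₀ s₀ tb wb ob c₀ t₁ c₁)
    (A₂ : PvmvArm Δ dl u₀ t₁ c₁ a₂ t e₁ s₁ x₂ t₂ Sn (-lam)) (hn : a₁ + t < a₂ - t) (hW1 : a₁ + t ≤ W) :
    Disjoint (pvge2RC Y u up a₁ t e₁ s₁ ∪ pvge2RN Y u up a₁ t s₁ x₂) (pvkqRtR (pvyrMid Y u (!up) a₂ t x₂ (Sn - Δ * t₁) t₂ (-lam + Δ * u₀) a₀ b₀ u₀ tb wb ob c₀ c₁ z d l)) := by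
  rw [Set.disjoint_left]
  intro v h1 h2
  obtain ⟨w0, w1, w2, w3, w4⟩ := pvyr_arm_where N₁ A₂.he A₂.hs h1
  have c2 := pvyr_mid_cases G.flip Nc A₂ h2
  rw [pvge2_T_flip] at c2
  have q1 := A₂.bar; have q2 := A₂.capS; have hΔ := G.Δ0; have q3 := Nc.t1; have q4 := Nc.cap1; have q5 := Nc.s0
  have q6 : 0 ≤ Δ * c₁ := mul_nonneg hΔ.le (by linarith)
  rcases c2 with ⟨y1, y2, y3, y4⟩ | ⟨y1, y2, y3, y4⟩ | ⟨y1, y2 | (y2 | y2 | y2) | ⟨y2, y3⟩⟩ <;> linarith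

/-- the outer arm (side `!up`, radius `a₂`) misses the mid legs of the inner colour -/
theorem pvyr_mid₁_arm₂ (G : PvyrGeo Y u up z d l Δ Sn lam c₀ W) (N₁ : Pvge2Num a₁ t e₁ s₁ x₂ dl ρ e₀ b μ rs) (N₂ : Pvge2Num a₂ t e₁ s₁ x₂ dl ρ e₀ b μ rs) (Nc : PvmvNum Δ dl a₀ b₀ u₀ s₀ tb wb ob c₀ t₁ c₁)
    (A₁ : PvmvArm Δ dl u₀ t₁ c₁ a₁ t e₁ s₁ x₂ t₂ Sn lam) (hW2 : a₂ + t ≤ W) :
    Disjoint (pvkqRtR (pvyrMid Y u up a₁ t x₂ (Sn - Δ * t₁) t₂ (lam + Δ * u₀) a₀ b₀ u₀ tb wb ob c₀ c₁ z d l)) (pvge2RC Y u (!up) a₂ t e₁ s₁ ∪ pvge2RN Y u (!up) a₂ t s₁ x₂) := by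
  rw [Set.disjoint_left]
  intro v h1 h2
  obtain ⟨w0, w1, w2, w3, w4⟩ := pvyr_arm_where N₂ A₁.he A₁.hs h2
  rw [pvge2_T_flip] at w2 w3 w4
  have c1 := pvyr_mid_cases G Nc A₁ h1
  have q1 := A₁.bar; have q2 := A₁.capS; have hΔ := G.Δ0; have q3 := Nc.t1; have q4 := Nc.cap1; have q5 := Nc.s0
  have q6 : 0 ≤ Δ * c₁ := mul_nonneg hΔ.le (by linarith)
  have r1 := N₁.strip; have r2 := N₁.bμ; have r3 := N₁.ρ0; have r4 := N₂.strip; have r5 := N₂.t0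
  rcases c1 with ⟨y1, y2, y3, y4⟩ | ⟨y1, y2, y3, y4⟩ | ⟨y1, y2 | (y2 | y2 | y2) | ⟨y2, y3⟩⟩
  · rcases w4 with w4 | w4 <;> linarith
  all_goals linarith

/-- the region of the mid legs -/
theorem pvyr_mid_R (Y u : ℂ) (sd : Bool) (a t x₂ sb t₂ lb a₀ b₀ u₀ tb wb ob c₀ c₁ : ℝ) (z d : ℂ) (l : List PvtTurn) :
    pvkqRtR (pvyrMid Y u sd a t x₂ sb t₂ lb a₀ b₀ u₀ tb wb ob c₀ c₁ z d l) = pvmvRH Y u sd a t x₂ sb t₂ ∪ pvmvRV Y u sd a t sb t₂ lb ∪ pvmvLeg sd a₀ b₀ c₁ c₀ z d l ∪ pvyrBar sd b₀ tb wb ob z d l := by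
  ext v
  simp only [pvkqRtR, pvyrMid, List.mem_cons, List.not_mem_nil, or_false, mem_iUnion, mem_ofPred_eq, exists_prop, mem_union]
  constructor
  · rintro ⟨e, (rfl | rfl | rfl | rfl), hv⟩
    · exact Or.inl (Or.inl (Or.inl hv))
    · exact Or.inl (Or.inl (Or.inr hv))
    · exact Or.inl (Or.inr hv)
    · exact Or.inr hv
  · rintro (((hv | hv) | hv) | hv)
    · exact ⟨_, Or.inl rfl, hv⟩
    · exact ⟨_, Or.inr (Or.inl rfl), hv⟩
    · exact ⟨_, Or.inr (Or.inr (Or.inl rfl)), hv⟩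
    · exact ⟨_, Or.inr (Or.inr (Or.inr rfl)), hv⟩

/-- **the size of the legs of one colour** -/
theorem pvyr_size (G : PvyrGeo Y u sd z d l Δ Sn lam c₀ W) (N : Pvge2Num a t e₁ s₁ x₂ dl ρ e₀ b μ rs) (Nc : PvmvNum Δ dl a₀ b₀ u₀ s₀ tb wb ob c₀ t₁ c₁) (A : PvmvArm Δ dl u₀ t₁ c₁ a t e₁ s₁ x₂ t₂ Sn lam)
    {W' : ℝ} (hW1 : Sn ≤ W') (hW2 : a + t ≤ W') (hW3 : -W' ≤ lam) {M : ℕ} (hM1 : rs ≤ M * dl) (hM2 : 3 / 2 * W' ≤ M * dl) (hM3 : (l.length + 3) * Δ ≤ M * dl) :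
    ∀ e ∈ pvge2LegsO Y u sd a t e₁ s₁ x₂ ++ pvyrMid Y u sd a t x₂ (Sn - Δ * t₁) t₂ (lam + Δ * u₀) a₀ b₀ u₀ tb wb ob c₀ c₁ z d l, ∃ z0 : ℂ, e.1 ⊆ closedBall z0 (M * dl) := by
  have ha := N.a0; have ht := N.t0; have g3 := N.ρ0; have g6 := N.outS; have g8 := N.e0; have g2 := N.dl0
  have q1 := A.fr2; have q2 := A.t2u; have q3 := A.he; have q4 := A.bar
  have n1 := Nc.gap; have n2 := Nc.ga; have n3 := Nc.b0; have n8 := Nc.ws; have n9 := Nc.cap0; have n10 := Nc.tbw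
  have hball : ∀ v ∈ pvge2RC Y u sd a t e₁ s₁ ∪ pvge2RN Y u sd a t s₁ x₂, v ∈ closedBall Y rs := fun v hv => by
    rw [mem_closedBall_iff_norm]
    exact pvge2_arm_near G.hu N ⟨v, Or.inl hv, by rw [sub_self, norm_zero]; exact N.ρ0⟩
  have hside : pvmvSide sd (ob - wb) b₀ z d l ⊆ closedBall (z - d) (M * dl) :=
    (pvmv_side_ball sd n1.le n3.le z d l).trans (closedBall_subset_closedBall (by rw [G.hd]; exact hM3))
  intro e he
  simp only [pvge2LegsO, pvyrMid, List.cons_append, List.nil_append, List.mem_cons, List.not_mem_nil, or_false] at he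
  rcases he with rfl | rfl | rfl | rfl | rfl | rfl
  · exact ⟨Y, fun v hv => closedBall_subset_closedBall hM1 (hball v (Or.inl hv))⟩
  · exact ⟨Y, fun v hv => closedBall_subset_closedBall hM1 (hball v (Or.inr hv))⟩
  · exact ⟨Y, (pvge2_R_ball G.hu (b := W') (by linarith) (by linarith) (by linarith) (by linarith)).trans (closedBall_subset_closedBall hM2)⟩
  · exact ⟨Y, (pvge2_R_ball G.hu (b := W') (by linarith) (by linarith) (by linarith) (by linarith)).trans (closedBall_subset_closedBall hM2)⟩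
  · exact ⟨z - d, (pvmv_leg_side sd n2 Nc.cap1' Nc.cap0' z d l).trans hside⟩
  · exact ⟨z - d, (pvyr_bar_side sd (by have := Nc.cap0'; linarith) n10 z d l).trans hside⟩

end pair

/-- **THE PATTERN OF A THICK RETURN**: colour `c` on the side `up` of the mouth (inner arm `a₁`), colour `!c` on the other side (outer arm `a₂`) -/
noncomputable def pvyrPat (Y u : ℂ) (up c : Bool) (a₁ a₂ t e₁ s₁ x₂ sb t₂ lb₁ lb₂ a₀ b₀ u₀ tb wb ob c₀ c₁ : ℝ) (z d : ℂ) (l : List PvtTurn) : List (Bool × List (Set ℂ × ℂ × ℂ)) :=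
  [(c, pvge2LegsO Y u up a₁ t e₁ s₁ x₂ ++ pvyrMid Y u up a₁ t x₂ sb t₂ lb₁ a₀ b₀ u₀ tb wb ob c₀ c₁ z d l),
   (!c, pvge2LegsO Y u (!up) a₂ t e₁ s₁ x₂ ++ pvyrMid Y u (!up) a₂ t x₂ sb t₂ lb₂ a₀ b₀ u₀ tb wb ob c₀ c₁ z d l)]

theorem pvyr_eqns_cite3 : True := by
  have := @pvyrPat.eq_1
  trivial

section fit

variable {Y u : ℂ} {up : Bool} {z d : ℂ} {l : List PvtTurn} {Δ Sn lam W dl a₀ b₀ u₀ s₀ tb wb ob c₀ t₁ c₁ a₁ a₂ t e₁ s₁ x₂ t₂ ρ e₀ b μ rs : ℝ}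

/-- **THE PATTERN OF A THICK RETURN FITS** (contract `PvkqFit` of `Tr/LinkQ`): `6` legs per colour; `M` depends only on the RATIOS `rs / dl`, `W' / dl`, `Δ / dl` and on the number of blocks -/
theorem pvyr_fit (G : PvyrGeo Y u up z d l Δ Sn lam c₀ W) (N₁ : Pvge2Num a₁ t e₁ s₁ x₂ dl ρ e₀ b μ rs) (N₂ : Pvge2Num a₂ t e₁ s₁ x₂ dl ρ e₀ b μ rs) (Nc : PvmvNum Δ dl a₀ b₀ u₀ s₀ tb wb ob c₀ t₁ c₁)
    (A₁ : PvmvArm Δ dl u₀ t₁ c₁ a₁ t e₁ s₁ x₂ t₂ Sn lam) (A₂ : PvmvArm Δ dl u₀ t₁ c₁ a₂ t e₁ s₁ x₂ t₂ Sn (-lam)) (hn : a₁ + t < a₂ - t) (c : Bool)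
    (hW2 : a₂ + t ≤ W) (hW3 : |lam| ≤ W) {W' : ℝ} (hW : W ≤ W') (hW1 : Sn ≤ W') {M : ℕ} (hM1 : rs ≤ M * dl) (hM2 : 3 / 2 * W' ≤ M * dl) (hM3 : (l.length + 3) * Δ ≤ M * dl) :
    PvkqFit dl M 6 (pvyrPat Y u up c a₁ a₂ t e₁ s₁ x₂ (Sn - Δ * t₁) t₂ (lam + Δ * u₀) (-lam + Δ * u₀) a₀ b₀ u₀ tb wb ob c₀ c₁ z d l) where
  pos := N₁.dl0
  route := by
    intro x hx
    simp only [pvyrPat, List.mem_cons, List.not_mem_nil, or_false] at hx
    rcases hx with rfl | rfl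
    · exact pvyr_route G N₁ Nc A₁
    · exact pvyr_route G.flip N₂ Nc A₂
  ne := by
    intro x hx
    simp only [pvyrPat, List.mem_cons, List.not_mem_nil, or_false] at hx
    rcases hx with rfl | rfl <;> simp [pvge2LegsO]
  legs := by
    intro x hx
    simp only [pvyrPat, List.mem_cons, List.not_mem_nil, or_false] at hx
    rcases hx with rfl | rfl <;> simp [pvge2LegsO, pvyrMid]
  size := by
    have h3 := abs_le.1 hW3
    have ht := N₁.t0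
    intro x hx
    simp only [pvyrPat, List.mem_cons, List.not_mem_nil, or_false] at hx
    rcases hx with rfl | rfl
    · exact pvyr_size G N₁ Nc A₁ hW1 (by linarith) (by linarith [h3.1]) hM1 hM2 hM3
    · exact pvyr_size G.flip N₂ Nc A₂ hW1 (by linarith) (by linarith [h3.2]) hM1 hM2 hM3
  disj := by
    have ht := N₁.t0
    simp only [pvyrPat, List.pairwise_cons, List.mem_cons, List.not_mem_nil, or_false, forall_eq, IsEmpty.forall_iff, implies_true, List.Pairwise.nil, and_true]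
    rw [pvmv_RtR_append, pvmv_RtR_append, pvmv_legsO_R, pvmv_legsO_R]
    exact Disjoint.union_left (Disjoint.union_right (pvmv_arms_disj N₁ hn) (pvyr_arm₁_mid₂ G N₁ Nc A₂ hn (by linarith))) (Disjoint.union_right (pvyr_mid₁_arm₂ G N₁ N₂ Nc A₁ hW2) (pvyr_mid_disj G N₁ Nc A₁ A₂ (by linarith) hW2 hW3))

end fit

/-- **the region of the pattern** -/
theorem pvyr_pat_R (Y u : ℂ) (up c : Bool) (a₁ a₂ t e₁ s₁ x₂ sb t₂ lb₁ lb₂ a₀ b₀ u₀ tb wb ob c₀ c₁ : ℝ) (z d : ℂ) (l : List PvtTurn) :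
    pvkqPatR (pvyrPat Y u up c a₁ a₂ t e₁ s₁ x₂ sb t₂ lb₁ lb₂ a₀ b₀ u₀ tb wb ob c₀ c₁ z d l) =
      (pvge2RC Y u up a₁ t e₁ s₁ ∪ pvge2RN Y u up a₁ t s₁ x₂ ∪ (pvmvRH Y u up a₁ t x₂ sb t₂ ∪ pvmvRV Y u up a₁ t sb t₂ lb₁ ∪ pvmvLeg up a₀ b₀ c₁ c₀ z d l ∪ pvyrBar up b₀ tb wb ob z d l)) ∪
      (pvge2RC Y u (!up) a₂ t e₁ s₁ ∪ pvge2RN Y u (!up) a₂ t s₁ x₂ ∪ (pvmvRH Y u (!up) a₂ t x₂ sb t₂ ∪ pvmvRV Y u (!up) a₂ t sb t₂ lb₂ ∪ pvmvLeg (!up) a₀ b₀ c₁ c₀ z d l ∪ pvyrBar (!up) b₀ tb wb ob z d l)) := by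
  rw [← pvyr_mid_R, ← pvyr_mid_R, ← pvmv_legsO_R, ← pvmv_legsO_R, ← pvmv_RtR_append, ← pvmv_RtR_append]
  ext v
  simp only [pvkqPatR, pvyrPat, List.mem_cons, List.not_mem_nil, or_false, mem_iUnion, mem_ofPred_eq, exists_prop, mem_union]
  constructor
  · rintro ⟨x, (rfl | rfl), hv⟩
    · exact Or.inl hv
    · exact Or.inr hv
  · rintro (hv | hv)
    · exact ⟨_, Or.inl rfl, hv⟩
    · exact ⟨_, Or.inr rfl, hv⟩

end Claimed.Agent.R289
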